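import Vale.Agent.Lib.P062.Full.K_0

set_option maxRecDepth 100000
set_option linter.all false

namespace Vale.Agent.Lib.P062.Full
open Vale.Agent.Lib.P062 Vale.Agent.Lib.P062.V2

noncomputable def s33836 : Cert := .r (nat_lit 3773962425700235452942859537547095162710600801457693578881837785689207274724608166465642803818140937612138585141332039279387761249239044150589503430612132383078045712384) (.f (nat_lit 561) (nat_lit 593) (nat_lit 4560) (.p (nat_lit 562) (.a (.f (nat_lit 559) (nat_lit 591) (nat_lit 5583) (.d (nat_lit 527) (nat_lit 526) (nat_lit 3598) (nat_lit 563) (nat_lit 3599))) (.a (.f (nat_lit 559) (nat_lit 591) (nat_lit 5583) (.f (nat_lit 595) (nat_lit 594) (nat_lit 559) (.f (nat_lit 563) (nat_lit 596) (nat_lit 560) (.d (nat_lit 531) (nat_lit 530) (nat_lit 2575) (nat_lit 532) (nat_lit 2576))))) (.a (.f (nat_lit 563) (nat_lit 527) (nat_lit 3599) (.f (nat_lit 532) (nat_lit 531) (nat_lit 2576) (.f (nat_lit 564) (nat_lit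 533) (nat_lit 2577) (.d (nat_lit 596) (nat_lit 595) (nat_lit 560) (nat_lit 597) (nat_lit 561))))) (.f (nat_lit 559) (nat_lit 591) (nat_lit 5583) (.f (nat_lit 463) (nat_lit 431) (nat_lit 7599) (.f (nat_lit 465) (nat_lit 433) (nat_lit 6576) (.f (nat_lit 530) (nat_lit 531) (nat_lit 2575) (.f (nat_lit 594) (nat_lit 595) (nat_lit 559) (.f (nat_lit 498) (nat_lit 497) (nat_lit 7633) (.d (nat_lit 499) (nat_lit 466) (nat_lit 463) (nat_lit 467) (nat_lit 6610)))))))))))))
noncomputable def s33845 : Cert := .r (nat_lit 16209045194715341169889328670486457783641829154772183048886689537912202065107479481384459750016659258562911555801732646581957841468137799513082016355358913846142750150282302193664) (.f (nat_lit 591) (nat_lit 623) (nat_lit 5615) (.p (nat_lit 562) (.a (.f (nat_lit 561) (nat_lit 563) (nat_lit 1583) (.d (nat_lit 590) (nat_lit 559) (nat_lit 1582) (nat_lit 589) (nat_lit 2605))) (.a (.f (nat_lit 593) (nat_lit 625) (nat_lit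 4592) (.f (nat_lit 594) (nat_lit 563) (nat_lit 2607) (.d (nat_lit 559) (nat_lit 558) (nat_lit 3630) (nat_lit 595) (nat_lit 3631)))) (.a (.f (nat_lit 593) (nat_lit 625) (nat_lit 4592) (.f (nat_lit 590) (nat_lit 561) (nat_lit 2606) (.f (nat_lit 558) (nat_lit 557) (nat_lit 3629) (.f (nat_lit 559) (nat_lit 594) (nat_lit 3630) (.f (nat_lit 622) (nat_lit 621) (nat_lit 1613) (.d (nat_lit 495) (nat_lit 463) (nat_lit 7631) (nat_lit 527) (nat_lit 5614))))))) (.f (nat_lit 561) (nat_lit 563) (nat_lit 1583) (.d (nat_lit 590) (nat_lit 589) (nat_lit 2605) (nat_lit 593) (nat_lit 2606))))))))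
noncomputable def s33906 : Cert := .r (nat_lit 3773962425700235452942859537499461060075163908278653093808089520525807034510604090067035062124638561226338938838226782579810552216648911534601243193560008730745155616768) (.p (nat_lit 464) (.a (.f (nat_lit 559) (nat_lit 591) (nat_lit 5583) (.f (nat_lit 432) (nat_lit 527) (nat_lit 5551) (.d (nat_lit 433) (nat_lit 401) (nat_lit 6544) (nat_lit 465) (nat_lit 6576)))) (.a (.f (nat_lit 431) (nat_lit 463) (nat_lit 7599) (.f (nat_lit 432) (nat_lit 399) (nat_lit 7567) (.d (nat_lit 433) (nat_lit 401) (nat_lit 6544) (nat_lit 465) (nat_lit 6576)))) (.a (.f (nat_lit 431) (nat_lit 463) (nat_lit 7599) (.f (nat_lit 432) (nat_lit 399) (nat_lit 7567) (.d (nat_lit 559) (nat_lit 527) (nat_lit 5551) (nat_lit 591) (nat_lit 5583)))) (.f (nat_lit 463) (nat_lit 431) (nat_lit 7599) (.p (nat_lit 462) (.a (.f (nat_lit 465) (nat_lit 433) (nat_lit 6576) (.d (nat_lit 497) (nat_lit 461) (nat_lit 461) (nat_lit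 498) (nat_lit 462))) (.a (.f (nat_lit 461) (nat_lit 497) (nat_lit 461) (.f (nat_lit 460) (nat_lit 495) (nat_lit 460) (.d (nat_lit 492) (nat_lit 491) (nat_lit 1483) (nat_lit 493) (nat_lit 1484)))) (.f (nat_lit 465) (nat_lit 433) (nat_lit 6576) (.f (nat_lit 494) (nat_lit 493) (nat_lit 1485) (.f (nat_lit 495) (nat_lit 466) (nat_lit 1486) (.f (nat_lit 430) (nat_lit 429) (nat_lit 3501) (.d (nat_lit 398) (nat_lit 366) (nat_lit 4462) (nat_lit 527) (nat_lit 4494))))))))))))))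
noncomputable def s34002 : Cert := .r (nat_lit 3773962425700235453454326819983233227264724798407965461341939840220035907867368366332055967812868960426849890764149307134636596611580172629791439528854601395327738052608) (.p (nat_lit 494) (.a (.f (nat_lit 526) (nat_lit 525) (nat_lit 1517) (.f (nat_lit 527) (nat_lit 498) (nat_lit 1518) (.f (nat_lit 462) (nat_lit 461) (nat_lit 3533) (.d (nat_lit 430) (nat_lit 398) (nat_lit 4494) (nat_lit 559) (nat_lit 4526))))) (.a (.f (nat_lit 461) (nat_lit 462) (nat_lit 3533) (.f (nat_lit 493) (nat_lit 460) (nat_lit 3532) (.d (nat_lit 525) (nat_lit 524) (nat_lit 1516) (nat_lit 526) (nat_lit 1517)))) (.a (.f (nat_lit 461) (nat_lit 462) (nat_lit 3533) (.f (nat_lit 493) (nat_lit 460) (nat_lit 3532) (.f (nat_lit 524) (nat_lit 525) (nat_lit 1516) (.d (nat_lit 492) (nat_lit 523) (nat_lit 1515) (nat_lit 527) (nat_lit 492))))) (.a (.f (nat_lit 461) (nat_lit 462) (nat_lit 3533) (.f (nat_lit 493) (nat_lit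 460) (nat_lit 3532) (.f (nat_lit 527) (nat_lit 492) (nat_lit 492) (.d (nat_lit 498) (nat_lit 499) (nat_lit 1519) (nat_lit 526) (nat_lit 1518))))) (.f (nat_lit 526) (nat_lit 525) (nat_lit 1517) (.f (nat_lit 498) (nat_lit 527) (nat_lit 1518) (.d (nat_lit 466) (nat_lit 465) (nat_lit 2510) (nat_lit 467) (nat_lit 2511)))))))))
noncomputable def s34020 : Cert := .r (nat_lit 3773962425700235453454326819983233227264724798407965461341939840220035907867368366332055967812868960426849890764149307134636596611580172629791439528854601395327738052608) (.p (nat_lit 494) (.a (.f (nat_lit 526) (nat_lit 525) (nat_lit 1517) (.f (nat_lit 527) (nat_lit 498) (nat_lit 1518) (.f (nat_lit 462) (nat_lit 461) (nat_lit 3533) (.d (nat_lit 430) (nat_lit 398) (nat_lit 4494) (nat_lit 559) (nat_lit 4526))))) (.a (.f (nat_lit 461) (nat_lit 462) (nat_lit 3533) (.f (nat_lit 493) (nat_lit 460) (nat_lit 3532) (.d (nat_lit 525) (nat_lit 524) (nat_lit 1516) (nat_lit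 526) (nat_lit 1517)))) (.a (.f (nat_lit 461) (nat_lit 462) (nat_lit 3533) (.f (nat_lit 493) (nat_lit 460) (nat_lit 3532) (.f (nat_lit 524) (nat_lit 525) (nat_lit 1516) (.d (nat_lit 492) (nat_lit 523) (nat_lit 1515) (nat_lit 527) (nat_lit 492))))) (.a (.f (nat_lit 461) (nat_lit 462) (nat_lit 3533) (.f (nat_lit 493) (nat_lit 460) (nat_lit 3532) (.f (nat_lit 527) (nat_lit 492) (nat_lit 492) (.d (nat_lit 498) (nat_lit 499) (nat_lit 1519) (nat_lit 526) (nat_lit 1518))))) (.a (.f (nat_lit 526) (nat_lit 525) (nat_lit 1517) (.f (nat_lit 527) (nat_lit 498) (nat_lit 1518) (.f (nat_lit 493) (nat_lit 492) (nat_lit 492) (.f (nat_lit 461) (nat_lit 460) (nat_lit 3532) (.f (nat_lit 592) (nat_lit 624) (nat_lit 7663) (.f (nat_lit 558) (nat_lit 590) (nat_lit 7629) (.f (nat_lit 593) (nat_lit 625) (nat_lit 4592) (.f (nat_lit 559) (nat_lit 557) (nat_lit 557) (.d (nat_lit 594) (nat_lit 561) (nat_lit 558) (nat_lit 595) (nat_lit 3631))))))))))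 (.f (nat_lit 526) (nat_lit 525) (nat_lit 1517) (.f (nat_lit 498) (nat_lit 527) (nat_lit 1518) (.f (nat_lit 531) (nat_lit 530) (nat_lit 495) (.f (nat_lit 499) (nat_lit 532) (nat_lit 496) (.d (nat_lit 467) (nat_lit 466) (nat_lit 2511) (nat_lit 468) (nat_lit 2512))))))))))))
noncomputable def s34040 : Cert := .r (nat_lit 3773962425700235453096299722244592710232032175317446804068244616434075696517633372946541333831107680986492224416003539946258365535128289863158302094148386530119930347520) (.p (nat_lit 493) (.a (.f (nat_lit 525) (nat_lit 524) (nat_lit 1516) (.f (nat_lit 461) (nat_lit 460) (nat_lit 3532) (.d (nat_lit 497) (nat_lit 462) (nat_lit 3533) (nat_lit 526) (nat_lit 1517)))) (.a (.f (nat_lit 461) (nat_lit 460) (nat_lit 3532) (.f (nat_lit 525) (nat_lit 524) (nat_lit 1516) (.f (nat_lit 462) (nat_lit 497) (nat_lit 3533) (.d (nat_lit 430) (nat_lit 398) (nat_lit 5517) (nat_lit 557) (nat_lit 6573))))) (.a (.f (nat_lit 461)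 (nat_lit 460) (nat_lit 3532) (.f (nat_lit 497) (nat_lit 462) (nat_lit 3533) (.d (nat_lit 465) (nat_lit 466) (nat_lit 2510) (nat_lit 592) (nat_lit 6608)))) (.a (.f (nat_lit 460) (nat_lit 461) (nat_lit 3532) (.f (nat_lit 492) (nat_lit 459) (nat_lit 3531) (.d (nat_lit 524) (nat_lit 523) (nat_lit 1515) (nat_lit 525) (nat_lit 1516)))) (.f (nat_lit 525) (nat_lit 524) (nat_lit 1516) (.f (nat_lit 497) (nat_lit 526) (nat_lit 1517) (.d (nat_lit 465) (nat_lit 466) (nat_lit 2510) (nat_lit 592) (nat_lit 6608)))))))))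
noncomputable def s34103 : Cert := .r (nat_lit 3773962425700235453096299722244592710232032175317446804068244616434075696517633372946541333831107680986492224416003539946258365535128289863158302094148386530119930347520) (.p (nat_lit 526) (.a (.f (nat_lit 525) (nat_lit 497) (nat_lit 1517) (.d (nat_lit 524) (nat_lit 493) (nat_lit 1516) (nat_lit 523) (nat_lit 2539))) (.a (.p (nat_lit 462) (.a (.f (nat_lit 461) (nat_lit 497) (nat_lit 3533) (.d (nat_lit 460) (nat_lit 459) (nat_lit 459) (nat_lit 493) (nat_lit 3532))) (.a (.p (nat_lit 558) (.a (.f (nat_lit 461) (nat_lit 429) (nat_lit 7597) (.d (nat_lit 460) (nat_lit 459) (nat_lit 459) (nat_lit 493) (nat_lit 3532))) (.f (nat_lit 589) (nat_lit 557) (nat_lit 5581) (.f (nat_lit 590) (nat_lit 621) (nat_lit 5613) (.d (nat_lit 559) (nat_lit 561) (nat_lit 1581) (nat_lit 591) (nat_lit 4558)))))) (.p (nat_lit 430) (.a (.f (nat_lit 431) (nat_lit 399) (nat_lit 6542) (.f (nat_lit 463) (nat_lit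 558) (nat_lit 6574) (.f (nat_lit 398) (nat_lit 366) (nat_lit 4462) (.d (nat_lit 397) (nat_lit 365) (nat_lit 7533) (nat_lit 429) (nat_lit 7565))))) (.a (.f (nat_lit 399) (nat_lit 431) (nat_lit 6542) (.f (nat_lit 398) (nat_lit 367) (nat_lit 6510) (.d (nat_lit 397) (nat_lit 365) (nat_lit 7533) (nat_lit 429) (nat_lit 7565)))) (.a (.f (nat_lit 397) (nat_lit 429) (nat_lit 7565) (.f (nat_lit 398) (nat_lit 365) (nat_lit 7533) (.f (nat_lit 367) (nat_lit 399) (nat_lit 6510) (.d (nat_lit 366) (nat_lit 335) (nat_lit 6478) (nat_lit 463) (nat_lit 4462))))) (.a (.f (nat_lit 397) (nat_lit 429) (nat_lit 7565) (.f (nat_lit 398) (nat_lit 365) (nat_lit 7533) (.f (nat_lit 463) (nat_lit 366) (nat_lit 4462) (.d (nat_lit 558) (nat_lit 431) (nat_lit 6574) (nat_lit 590) (nat_lit 6606))))) (.a (.f (nat_lit 431) (nat_lit 399) (nat_lit 6542) (.f (nat_lit 463) (nat_lit 558) (nat_lit 6574) (.f (nat_lit 398) (nat_lit 366) (nat_lit 4462) (.f (nat_lit 397)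 (nat_lit 365) (nat_lit 7533) (.f (nat_lit 433) (nat_lit 432) (nat_lit 3469) (.f (nat_lit 497) (nat_lit 498) (nat_lit 3534) (.d (nat_lit 465) (nat_lit 401) (nat_lit 5520) (nat_lit 466) (nat_lit 2510)))))))) (.f (nat_lit 431) (nat_lit 399) (nat_lit 6542) (.f (nat_lit 558) (nat_lit 463) (nat_lit 6574) (.f (nat_lit 589) (nat_lit 557) (nat_lit 5581) (.f (nat_lit 590) (nat_lit 621) (nat_lit 5613) (.d (nat_lit 559) (nat_lit 561) (nat_lit 1581) (nat_lit 591) (nat_lit 4558))))))))))))))) (.a (.p (nat_lit 558) (.a (.f (nat_lit 463) (nat_lit 590) (nat_lit 6606) (.d (nat_lit 431) (nat_lit 399) (nat_lit 4495) (nat_lit 462) (nat_lit 6574))) (.a (.p (nat_lit 559) (.a (.f (nat_lit 462) (nat_lit 591) (nat_lit 4558) (.f (nat_lit 589) (nat_lit 557) (nat_lit 5581) (.d (nat_lit 590) (nat_lit 561) (nat_lit 1581) (nat_lit 621) (nat_lit 5613)))) (.a (.f (nat_lit 462) (nat_lit 591) (nat_lit 4558) (.f (nat_lit 557) (nat_lit 589) (nat_lit 5581) (.d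 (nat_lit 525) (nat_lit 430) (nat_lit 5549) (nat_lit 524) (nat_lit 3596)))) (.f (nat_lit 525) (nat_lit 561) (nat_lit 3597) (.d (nat_lit 524) (nat_lit 493) (nat_lit 1516) (nat_lit 523) (nat_lit 2539)))))) (.a (.p (nat_lit 559) (.a (.f (nat_lit 525) (nat_lit 561) (nat_lit 3597) (.d (nat_lit 524) (nat_lit 523) (nat_lit 523) (nat_lit 557) (nat_lit 3596))) (.a (.f (nat_lit 462) (nat_lit 591) (nat_lit 4558) (.f (nat_lit 557) (nat_lit 589) (nat_lit 5581) (.d (nat_lit 525) (nat_lit 430) (nat_lit 5549) (nat_lit 524) (nat_lit 3596)))) (.f (nat_lit 462) (nat_lit 591) (nat_lit 4558) (.f (nat_lit 463) (nat_lit 431) (nat_lit 6574) (.d (nat_lit 461) (nat_lit 429) (nat_lit 7597) (nat_lit 460) (nat_lit 460))))))) (.f (nat_lit 590) (nat_lit 463) (nat_lit 6606) (.f (nat_lit 493) (nat_lit 461) (nat_lit 7629) (.d (nat_lit 525) (nat_lit 524) (nat_lit 1516) (nat_lit 622) (nat_lit 7661)))))))) (.f (nat_lit 497) (nat_lit 525) (nat_lit 1517) (.f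 (nat_lit 462) (nat_lit 461) (nat_lit 3533) (.f (nat_lit 463) (nat_lit 498) (nat_lit 3534) (.d (nat_lit 431) (nat_lit 399) (nat_lit 4495) (nat_lit 558) (nat_lit 6574)))))))))
noncomputable def s34221 : Cert := .r (nat_lit 3773962425700235453096299722244592710232032175317446804068244616434075696517633372946541333831107680986492224416003539946258365535128289863158302094148386530119930347520) (.p (nat_lit 493) (.a (.f (nat_lit 492) (nat_lit 527) (nat_lit 492) (.d (nat_lit 460) (nat_lit 459) (nat_lit 3531) (nat_lit 461) (nat_lit 3532))) (.a (.p (nat_lit 492) (.a (.d (nat_lit 460) (nat_lit 459) (nat_lit 3531) (nat_lit 461) (nat_lit 3532)) (.a (.f (nat_lit 459) (nat_lit 460) (nat_lit 3531) (.f (nat_lit 491) (nat_lit 458) (nat_lit 3530) (.d (nat_lit 523) (nat_lit 522) (nat_lit 1514) (nat_lit 524) (nat_lit 1515)))) (.f (nat_lit 523) (nat_lit 524) (nat_lit 1515) (.f (nat_lit 491) (nat_lit 522) (nat_lit 1514) (.f (nat_lit 462) (nat_lit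 463) (nat_lit 2507) (.d (nat_lit 461) (nat_lit 490) (nat_lit 2506) (nat_lit 497) (nat_lit 3533)))))))) (.a (.f (nat_lit 492) (nat_lit 527) (nat_lit 492) (.f (nat_lit 523) (nat_lit 524) (nat_lit 1515) (.f (nat_lit 491) (nat_lit 522) (nat_lit 1514) (.d (nat_lit 459) (nat_lit 458) (nat_lit 3530) (nat_lit 460) (nat_lit 3531))))) (.a (.f (nat_lit 461) (nat_lit 460) (nat_lit 3532) (.f (nat_lit 497) (nat_lit 462) (nat_lit 3533) (.f (nat_lit 466) (nat_lit 465) (nat_lit 2510) (.f (nat_lit 498) (nat_lit 467) (nat_lit 2511) (.d (nat_lit 527) (nat_lit 499) (nat_lit 1519) (nat_lit 526) (nat_lit 1518)))))) (.f (nat_lit 492) (nat_lit 527) (nat_lit 492) (.f (nat_lit 523) (nat_lit 524) (nat_lit 1515) (.f (nat_lit 491) (nat_lit 522) (nat_lit 1514) (.f (nat_lit 462) (nat_lit 463) (nat_lit 2507) (.d (nat_lit 461) (nat_lit 490) (nat_lit 2506) (nat_lit 497) (nat_lit 3533)))))))))))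
noncomputable def s34871 : Cert := .r (nat_lit 20261306493394176462141987312728159077430979534299843783091083809018741648436612084358255167519588626691602336650743786505212557593231839736698986280612611538028772450245904695296) (.p (nat_lit 559) (.a (.f (nat_lit 557) (nat_lit 593) (nat_lit 557) (.d (nat_lit 589) (nat_lit 561) (nat_lit 1581) (nat_lit 588) (nat_lit 1580))) (.a (.f (nat_lit 557) (nat_lit 593) (nat_lit 557) (.f (nat_lit 556) (nat_lit 591) (nat_lit 556) (.d (nat_lit 524) (nat_lit 523) (nat_lit 3595) (nat_lit 525) (nat_lit 3596)))) (.a (.f (nat_lit 589) (nat_lit 561) (nat_lit 1581) (.d (nat_lit 588) (nat_lit 557) (nat_lit 1580) (nat_lit 587) (nat_lit 2603))) (.f (nat_lit 561) (nat_lit 589) (nat_lit 1581) (.f (nat_lit 593) (nat_lit 594) (nat_lit 558) (.f (nat_lit 562) (nat_lit 591) (nat_lit 1582) (.f (nat_lit 563) (nat_lit 564) (nat_lit 1584) (.d (nat_lit 531) (nat_lit 530) (nat_lit 2575) (nat_lit 532) (nat_lit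 2576))))))))))
noncomputable def s34930 : Cert := .r (nat_lit 17404329768881130783254602814453279293064266359110361593699229303641907658539147938513488958585288400317754175296927681921620498241416468414202990400922520629108074620762937451477571993600) (.p (nat_lit 654) (.a (.f (nat_lit 653) (nat_lit 685) (nat_lit 5677) (.f (nat_lit 621) (nat_lit 526) (nat_lit 5645) (.f (nat_lit 591) (nat_lit 593) (nat_lit 1613) (.d (nat_lit 620) (nat_lit 589) (nat_lit 1612) (nat_lit 619) (nat_lit 2635))))) (.a (.f (nat_lit 653) (nat_lit 685) (nat_lit 5677) (.f (nat_lit 621) (nat_lit 526) (nat_lit 5645) (.f (nat_lit 655) (nat_lit 687) (nat_lit 4654) (.d (nat_lit 656) (nat_lit 620) (nat_lit 3692) (nat_lit 657) (nat_lit 3693))))) (.a (.f (nat_lit 687) (nat_lit 655) (nat_lit 4654) (.f (nat_lit 686) (nat_lit 719) (nat_lit 4686) (.d (nat_lit 685) (nat_lit 653) (nat_lit 5677) (nat_lit 717) (nat_lit 5709)))) (.f (nat_lit 687) (nat_lit 655) (nat_lit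 4654) (.f (nat_lit 686) (nat_lit 719) (nat_lit 4686) (.f (nat_lit 591) (nat_lit 559) (nat_lit 6702) (.f (nat_lit 621) (nat_lit 593) (nat_lit 1613) (.d (nat_lit 620) (nat_lit 589) (nat_lit 1612) (nat_lit 619) (nat_lit 2635))))))))))
noncomputable def s34941 : Cert := .r (nat_lit 17404329768881130783254602814453279293064266359110361593699229303641907658539147938513488958585288400317754175296927681921620498241416468414202990400922520629108074620762937451477571993600) (.p (nat_lit 526) (.a (.f (nat_lit 525) (nat_lit 493) (nat_lit 7661) (.f (nat_lit 557) (nat_lit 654) (nat_lit 7693) (.d (nat_lit 559) (nat_lit 524) (nat_lit 3596) (nat_lit 593) (nat_lit 557)))) (.a (.f (nat_lit 621) (nat_lit 653) (nat_lit 5645) (.f (nat_lit 494) (nat_lit 589) (nat_lit 5613) (.d (nat_lit 493) (nat_lit 461) (nat_lit 7629) (nat_lit 525) (nat_lit 7661)))) (.a (.f (nat_lit 621) (nat_lit 653) (nat_lit 5645) (.f (nat_lit 494) (nat_lit 589) (nat_lit 5613)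 (.f (nat_lit 463) (nat_lit 495) (nat_lit 6606) (.f (nat_lit 462) (nat_lit 431) (nat_lit 6574) (.d (nat_lit 461) (nat_lit 429) (nat_lit 7597) (nat_lit 493) (nat_lit 7629)))))) (.f (nat_lit 653) (nat_lit 621) (nat_lit 5645) (.f (nat_lit 654) (nat_lit 685) (nat_lit 5677) (.f (nat_lit 557) (nat_lit 525) (nat_lit 7693) (.f (nat_lit 589) (nat_lit 686) (nat_lit 7725) (.d (nat_lit 559) (nat_lit 588) (nat_lit 1580) (nat_lit 593) (nat_lit 557))))))))))
noncomputable def s35015 : Cert := .r (nat_lit 20261306493394176462361660837852338588310400359870448366043705738623327421537234915052192549388313620359524245151910332264486039557759227193886889896603544140031141355561586524160) (.p (nat_lit 494) (.a (.f (nat_lit 589) (nat_lit 621) (nat_lit 5613) (.f (nat_lit 557) (nat_lit 462) (nat_lit 5581) (.f (nat_lit 588) (nat_lit 559) (nat_lit 1580) (.f (nat_lit 493) (nat_lit 461) (nat_lit 7629) (.d (nat_lit 525) (nat_lit 620) (nat_lit 5612) (nat_lit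 622) (nat_lit 7661)))))) (.a (.f (nat_lit 621) (nat_lit 589) (nat_lit 5613) (.f (nat_lit 622) (nat_lit 653) (nat_lit 5645) (.d (nat_lit 493) (nat_lit 461) (nat_lit 7629) (nat_lit 525) (nat_lit 7661)))) (.a (.f (nat_lit 461) (nat_lit 493) (nat_lit 7629) (.f (nat_lit 462) (nat_lit 429) (nat_lit 7597) (.d (nat_lit 463) (nat_lit 431) (nat_lit 6574) (nat_lit 495) (nat_lit 6606)))) (.f (nat_lit 589) (nat_lit 621) (nat_lit 5613) (.f (nat_lit 557) (nat_lit 462) (nat_lit 5581) (.f (nat_lit 556) (nat_lit 591) (nat_lit 3628) (.f (nat_lit 588) (nat_lit 559) (nat_lit 1580) (.f (nat_lit 555) (nat_lit 554) (nat_lit 554) (.f (nat_lit 587) (nat_lit 586) (nat_lit 2602) (.f (nat_lit 523) (nat_lit 522) (nat_lit 3594) (.d (nat_lit 491) (nat_lit 459) (nat_lit 4555) (nat_lit 620) (nat_lit 4587)))))))))))))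
noncomputable def s35022 : Cert := .r (nat_lit 20261306493394176462361660837852338588310400359870448366043705738623327421537234915052192549388313620359524245151910332264486039557759227193886889896603544140031141355561586524160) (.p (nat_lit 494) (.a (.f (nat_lit 589) (nat_lit 621) (nat_lit 5613) (.d (nat_lit 561) (nat_lit 559) (nat_lit 1581) (nat_lit 591) (nat_lit 2605))) (.a (.f (nat_lit 589) (nat_lit 621) (nat_lit 5613) (.f (nat_lit 557) (nat_lit 462) (nat_lit 5581) (.f (nat_lit 588) (nat_lit 559) (nat_lit 1580) (.f (nat_lit 493) (nat_lit 461) (nat_lit 7629) (.d (nat_lit 525) (nat_lit 620) (nat_lit 5612) (nat_lit 622) (nat_lit 7661)))))) (.a (.f (nat_lit 621) (nat_lit 589) (nat_lit 5613) (.f (nat_lit 622) (nat_lit 653) (nat_lit 5645) (.d (nat_lit 493) (nat_lit 461) (nat_lit 7629) (nat_lit 525) (nat_lit 7661)))) (.f (nat_lit 493) (nat_lit 461) (nat_lit 7629) (.f (nat_lit 525) (nat_lit 622) (nat_lit 7661) (.f (nat_lit 559)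 (nat_lit 561) (nat_lit 3597) (.d (nat_lit 524) (nat_lit 523) (nat_lit 523) (nat_lit 557) (nat_lit 3596)))))))))
noncomputable def s35037 : Cert := .r (nat_lit 20261306493394176462361660837852338588310400359870448366043705738623327421537234915052192549388313620359524245151910332264486039557759227193886889896603544140031141355561586524160) (.p (nat_lit 525) (.a (.f (nat_lit 622) (nat_lit 493) (nat_lit 7661) (.f (nat_lit 654) (nat_lit 557) (nat_lit 7693) (.d (nat_lit 653) (nat_lit 621) (nat_lit 5645) (nat_lit 685) (nat_lit 5677)))) (.a (.f (nat_lit 559) (nat_lit 561) (nat_lit 3597) (.f (nat_lit 622) (nat_lit 493) (nat_lit 7661) (.f (nat_lit 653) (nat_lit 621) (nat_lit 5645) (.f (nat_lit 654) (nat_lit 685) (nat_lit 5677) (.f (nat_lit 687) (nat_lit 655) (nat_lit 4654) (.d (nat_lit 686) (nat_lit 591) (nat_lit 6702) (nat_lit 719) (nat_lit 4686))))))) (.f (nat_lit 559) (nat_lit 561) (nat_lit 3597) (.d (nat_lit 524) (nat_lit 523)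 (nat_lit 523) (nat_lit 557) (nat_lit 3596))))))
noncomputable def s35041 : Cert := .r (nat_lit 20261306493394176462361660837852338588310400359870448366043705738623327421537234915052192549388313620359524245151910332264486039557759227193886889896603544140031141355561586524160) (.p (nat_lit 494) (.a (.f (nat_lit 589) (nat_lit 621) (nat_lit 5613) (.f (nat_lit 559) (nat_lit 561) (nat_lit 1581) (.d (nat_lit 557) (nat_lit 462) (nat_lit 5581) (nat_lit 588) (nat_lit 1580)))) (.a (.f (nat_lit 589) (nat_lit 621) (nat_lit 5613) (.f (nat_lit 557) (nat_lit 462) (nat_lit 5581) (.f (nat_lit 588) (nat_lit 559) (nat_lit 1580) (.f (nat_lit 493) (nat_lit 461) (nat_lit 7629) (.d (nat_lit 525) (nat_lit 620) (nat_lit 5612) (nat_lit 622) (nat_lit 7661)))))) (.a (.f (nat_lit 621) (nat_lit 589) (nat_lit 5613) (.f (nat_lit 622) (nat_lit 653) (nat_lit 5645) (.d (nat_lit 493) (nat_lit 461) (nat_lit 7629) (nat_lit 525) (nat_lit 7661)))) (.f (nat_lit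 493) (nat_lit 461) (nat_lit 7629) (.f (nat_lit 525) (nat_lit 622) (nat_lit 7661) (.f (nat_lit 559) (nat_lit 561) (nat_lit 3597) (.d (nat_lit 524) (nat_lit 523) (nat_lit 523) (nat_lit 557) (nat_lit 3596)))))))))
noncomputable def s35051 : Cert := .r (nat_lit 20261306493394176462361660837852338588310400359870448366043705738623327421537234915052192549388313620359524245151910332264486039557759227193886889896603544140031141355561586524160) (.p (nat_lit 494) (.a (.f (nat_lit 589) (nat_lit 621) (nat_lit 5613) (.d (nat_lit 561) (nat_lit 559) (nat_lit 1581) (nat_lit 591) (nat_lit 2605))) (.a (.f (nat_lit 589) (nat_lit 621) (nat_lit 5613) (.f (nat_lit 557) (nat_lit 462) (nat_lit 5581) (.f (nat_lit 556) (nat_lit 591) (nat_lit 3628) (.f (nat_lit 588) (nat_lit 559) (nat_lit 1580) (.f (nat_lit 555) (nat_lit 554) (nat_lit 554) (.f (nat_lit 587) (nat_lit 586) (nat_lit 2602) (.f (nat_lit 523) (nat_lit 522) (nat_lit 3594) (.d (nat_lit 491)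 (nat_lit 459) (nat_lit 4555) (nat_lit 620) (nat_lit 4587))))))))) (.a (.f (nat_lit 589) (nat_lit 621) (nat_lit 5613) (.f (nat_lit 591) (nat_lit 561) (nat_lit 2605) (.d (nat_lit 557) (nat_lit 462) (nat_lit 5581) (nat_lit 556) (nat_lit 3628)))) (.a (.f (nat_lit 589) (nat_lit 621) (nat_lit 5613) (.f (nat_lit 559) (nat_lit 561) (nat_lit 1581) (.d (nat_lit 557) (nat_lit 462) (nat_lit 5581) (nat_lit 588) (nat_lit 1580)))) (.a (.f (nat_lit 463) (nat_lit 495) (nat_lit 6606) (.f (nat_lit 462) (nat_lit 431) (nat_lit 6574) (.f (nat_lit 559) (nat_lit 591) (nat_lit 4558) (.d (nat_lit 561) (nat_lit 525) (nat_lit 3597) (nat_lit 589) (nat_lit 1581))))) (.f (nat_lit 463) (nat_lit 495) (nat_lit 6606) (.f (nat_lit 462) (nat_lit 431) (nat_lit 6574) (.f (nat_lit 559) (nat_lit 591) (nat_lit 4558) (.f (nat_lit 525) (nat_lit 561) (nat_lit 3597) (.d (nat_lit 524) (nat_lit 523) (nat_lit 523) (nat_lit 557) (nat_lit 3596))))))))))))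
noncomputable def s35063 : Cert := .r (nat_lit 20261306493394176462361660837852338588310400359870448366043705738623327421537234915052192549388313620359524245151910332264486039557759227193886889896603544140031141355561586524160) (.p (nat_lit 494) (.a (.f (nat_lit 493) (nat_lit 461) (nat_lit 7629) (.f (nat_lit 525) (nat_lit 622) (nat_lit 7661) (.f (nat_lit 559) (nat_lit 561) (nat_lit 3597) (.d (nat_lit 524) (nat_lit 523) (nat_lit 523) (nat_lit 557) (nat_lit 3596))))) (.a (.f (nat_lit 493) (nat_lit 461) (nat_lit 7629) (.f (nat_lit 525) (nat_lit 622) (nat_lit 7661) (.f (nat_lit 495) (nat_lit 463) (nat_lit 6606) (.f (nat_lit 524) (nat_lit 523) (nat_lit 2539) (.f (nat_lit 557) (nat_lit 559) (nat_lit 3596) (.d (nat_lit 462) (nat_lit 430) (nat_lit 5549) (nat_lit 589) (nat_lit 6605))))))) (.a (.f (nat_lit 493) (nat_lit 461) (nat_lit 7629) (.f (nat_lit 525) (nat_lit 622) (nat_lit 7661) (.f (nat_lit 463) (nat_lit 495) (nat_lit 6606)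 (.f (nat_lit 462) (nat_lit 431) (nat_lit 6574) (.d (nat_lit 430) (nat_lit 398) (nat_lit 5517) (nat_lit 557) (nat_lit 5549)))))) (.a (.f (nat_lit 461) (nat_lit 493) (nat_lit 7629) (.f (nat_lit 462) (nat_lit 429) (nat_lit 7597) (.d (nat_lit 463) (nat_lit 431) (nat_lit 6574) (nat_lit 495) (nat_lit 6606)))) (.f (nat_lit 463) (nat_lit 495) (nat_lit 6606) (.f (nat_lit 462) (nat_lit 431) (nat_lit 6574) (.f (nat_lit 559) (nat_lit 591) (nat_lit 4558) (.d (nat_lit 561) (nat_lit 525) (nat_lit 3597) (nat_lit 589) (nat_lit 1581))))))))))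
noncomputable def s35064 : Cert := .r (nat_lit 20261306493394176462141987312728159077430979534299843783091083809018741648436612084358255167519588626691602336650743786505212557593231839736698986280612611538028772450245904695296) (.p (nat_lit 526) (.a s35015 (.a s35022 (.a (.p (nat_lit 494) (.a (.f (nat_lit 621) (nat_lit 589) (nat_lit 5613) (.f (nat_lit 622) (nat_lit 653) (nat_lit 5645) (.d (nat_lit 493) (nat_lit 461) (nat_lit 7629) (nat_lit 525) (nat_lit 7661)))) (.a (.f (nat_lit 461) (nat_lit 493) (nat_lit 7629) (.f (nat_lit 462) (nat_lit 429) (nat_lit 7597) (.d (nat_lit 463) (nat_lit 431) (nat_lit 6574) (nat_lit 495) (nat_lit 6606)))) (.f (nat_lit 589) (nat_lit 621) (nat_lit 5613) (.f (nat_lit 591) (nat_lit 561) (nat_lit 2605) (.d (nat_lit 557) (nat_lit 462) (nat_lit 5581) (nat_lit 556) (nat_lit 3628))))))) (.a (.p (nat_lit 494) (.a (.f (nat_lit 589) (nat_lit 621) (nat_lit 5613) (.d (nat_lit 561) (nat_lit 559) (nat_lit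 1581) (nat_lit 591) (nat_lit 2605))) (.f (nat_lit 461) (nat_lit 493) (nat_lit 7629) (.f (nat_lit 462) (nat_lit 429) (nat_lit 7597) (.d (nat_lit 463) (nat_lit 431) (nat_lit 6574) (nat_lit 495) (nat_lit 6606)))))) (.a s35037 (.a s35041 (.a s35051 s35063))))))))
noncomputable def s35182 : Cert := .r (nat_lit 69617319010688342355100537185339881929686688642612915748223131080142370096074338672598701469547924183724844772003335469090402206514095436155034630569484847469405046205819747100288287244288) (.p (nat_lit 656) (.a (.d (nat_lit 657) (nat_lit 625) (nat_lit 4624) (nat_lit 689) (nat_lit 4656)) (.a (.f (nat_lit 687) (nat_lit 655) (nat_lit 5679) (.f (nat_lit 688) (nat_lit 719) (nat_lit 5711) (.f (nat_lit 721) (nat_lit 689) (nat_lit 4688) (.f (nat_lit 720) (nat_lit 753) (nat_lit 4720) (.d (nat_lit 593) (nat_lit 561) (nat_lit 6704) (nat_lit 625) (nat_lit 6736)))))) (.a (.f (nat_lit 687) (nat_lit 655) (nat_lit 5679) (.f (nat_lit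 688) (nat_lit 719) (nat_lit 5711) (.d (nat_lit 689) (nat_lit 657) (nat_lit 4656) (nat_lit 721) (nat_lit 4688)))) (.f (nat_lit 625) (nat_lit 657) (nat_lit 4624) (.f (nat_lit 687) (nat_lit 655) (nat_lit 5679) (.f (nat_lit 688) (nat_lit 719) (nat_lit 5711) (.d (nat_lit 593) (nat_lit 561) (nat_lit 6704) (nat_lit 720) (nat_lit 6736)))))))))
noncomputable def s35213 : Cert := .r (nat_lit 69617319014740603652835881871387155234072588204148507771897385865294379207100366808744119581266388098712250821112903717734250633450028200877116442393593123674594463868965432455172573888512) (.p (nat_lit 591) (.a (.f (nat_lit 557) (nat_lit 593) (nat_lit 3629) (.d (nat_lit 556) (nat_lit 555) (nat_lit 555) (nat_lit 589) (nat_lit 3628))) (.a (.f (nat_lit 589) (nat_lit 561) (nat_lit 2605) (.f (nat_lit 557) (nat_lit 556) (nat_lit 3628) (.f (nat_lit 621) (nat_lit 620) (nat_lit 1612) (.d (nat_lit 526) (nat_lit 494) (nat_lit 5613) (nat_lit 653) (nat_lit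 6669))))) (.a (.f (nat_lit 561) (nat_lit 589) (nat_lit 2605) (.d (nat_lit 562) (nat_lit 563) (nat_lit 1583) (nat_lit 593) (nat_lit 2606))) (.f (nat_lit 623) (nat_lit 655) (nat_lit 5647) (.f (nat_lit 593) (nat_lit 557) (nat_lit 3629) (.d (nat_lit 622) (nat_lit 594) (nat_lit 1614) (nat_lit 621) (nat_lit 1613))))))))
noncomputable def s35248 : Cert := .r (nat_lit 87021648763360427942696308223698447214408695485827889831296771385845203056620773098820996455493421331510416369718229063005127345186232111698087593057816658023089926951699597456404241186816) (.p (nat_lit 526) (.a (.f (nat_lit 621) (nat_lit 653) (nat_lit 5645) (.f (nat_lit 494) (nat_lit 589) (nat_lit 5613) (.d (nat_lit 493) (nat_lit 461) (nat_lit 7629) (nat_lit 525) (nat_lit 7661)))) (.a (.f (nat_lit 621) (nat_lit 653) (nat_lit 5645) (.f (nat_lit 494) (nat_lit 589) (nat_lit 5613) (.f (nat_lit 463) (nat_lit 495) (nat_lit 6606) (.f (nat_lit 462) (nat_lit 431) (nat_lit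 6574) (.d (nat_lit 461) (nat_lit 429) (nat_lit 7597) (nat_lit 493) (nat_lit 7629)))))) (.a (.f (nat_lit 525) (nat_lit 493) (nat_lit 7661) (.f (nat_lit 654) (nat_lit 557) (nat_lit 7693) (.d (nat_lit 653) (nat_lit 621) (nat_lit 5645) (nat_lit 685) (nat_lit 5677)))) (.a (.f (nat_lit 653) (nat_lit 621) (nat_lit 5645) (.f (nat_lit 654) (nat_lit 685) (nat_lit 5677) (.f (nat_lit 687) (nat_lit 655) (nat_lit 4654) (.f (nat_lit 686) (nat_lit 719) (nat_lit 4686) (.d (nat_lit 557) (nat_lit 525) (nat_lit 7693) (nat_lit 589) (nat_lit 7725)))))) (.a (.f (nat_lit 525) (nat_lit 493) (nat_lit 7661) (.f (nat_lit 654) (nat_lit 557) (nat_lit 7693) (.f (nat_lit 687) (nat_lit 655) (nat_lit 4654) (.f (nat_lit 686) (nat_lit 719) (nat_lit 4686) (.d (nat_lit 685) (nat_lit 653) (nat_lit 5677) (nat_lit 717) (nat_lit 5709)))))) (.f (nat_lit 493) (nat_lit 525) (nat_lit 7661) (.f (nat_lit 494) (nat_lit 461) (nat_lit 7629) (.f (nat_lit 463) (nat_lit 495)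 (nat_lit 6606) (.f (nat_lit 462) (nat_lit 431) (nat_lit 6574) (.d (nat_lit 589) (nat_lit 557) (nat_lit 5581) (nat_lit 621) (nat_lit 5613))))))))))))
noncomputable def s35261 : Cert := .r (nat_lit 87021648763360427942696308223698447214408695485827889831296771385845203056620773098820996455493421331510416369718229063005127345186232111698087593057816658023089926951699597456404241186816) (.p (nat_lit 525) (.a (.f (nat_lit 557) (nat_lit 654) (nat_lit 7693) (.d (nat_lit 493) (nat_lit 526) (nat_lit 7661) (nat_lit 589) (nat_lit 4589))) (.a (.f (nat_lit 526) (nat_lit 493) (nat_lit 7661) (.f (nat_lit 621) (nat_lit 653) (nat_lit 5645) (.f (nat_lit 623) (nat_lit 593) (nat_lit 2637) (.d (nat_lit 589) (nat_lit 494) (nat_lit 5613) (nat_lit 588) (nat_lit 3660))))) (.a (.f (nat_lit 654) (nat_lit 557) (nat_lit 7693) (.f (nat_lit 653) (nat_lit 685) (nat_lit 5677) (.f (nat_lit 623) (nat_lit 625) (nat_lit 1645) (.d (nat_lit 621) (nat_lit 526)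 (nat_lit 5645) (nat_lit 652) (nat_lit 1644))))) (.f (nat_lit 557) (nat_lit 654) (nat_lit 7693) (.d (nat_lit 493) (nat_lit 461) (nat_lit 4557) (nat_lit 589) (nat_lit 4589)))))))
noncomputable def s35288 : Cert := .r (nat_lit 69617319014740603652835881871387155234072588204148507771897385865294379207100366808744119581266388098712250821112903717734250633450028200877116442393593123674594463868965432455172573888512) (.p (nat_lit 591) (.a (.f (nat_lit 557) (nat_lit 593) (nat_lit 3629) (.d (nat_lit 556) (nat_lit 555) (nat_lit 555) (nat_lit 589) (nat_lit 3628))) (.a (.f (nat_lit 589) (nat_lit 561) (nat_lit 2605) (.f (nat_lit 557) (nat_lit 556) (nat_lit 3628) (.f (nat_lit 621) (nat_lit 620) (nat_lit 1612) (.d (nat_lit 526) (nat_lit 494) (nat_lit 5613) (nat_lit 653) (nat_lit 6669))))) (.a (.f (nat_lit 561) (nat_lit 589) (nat_lit 2605) (.d (nat_lit 562) (nat_lit 563) (nat_lit 1583) (nat_lit 593) (nat_lit 2606))) (.f (nat_lit 593) (nat_lit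 557) (nat_lit 3629) (.f (nat_lit 622) (nat_lit 621) (nat_lit 1613) (.f (nat_lit 594) (nat_lit 623) (nat_lit 1614) (.d (nat_lit 562) (nat_lit 561) (nat_lit 2606) (nat_lit 563) (nat_lit 2607)))))))))
noncomputable def s35314 : Cert := .r (nat_lit 87021648763360427942696308223698447214408695485827889831296771385845203056620773098820996455493421331510416369718229063005127345186232111698087593057816658023089926951699597456404241186816) (.p (nat_lit 525) (.a (.f (nat_lit 557) (nat_lit 654) (nat_lit 7693) (.d (nat_lit 493) (nat_lit 526) (nat_lit 7661) (nat_lit 589) (nat_lit 4589))) (.a (.f (nat_lit 526) (nat_lit 493) (nat_lit 7661) (.f (nat_lit 621) (nat_lit 653) (nat_lit 5645) (.f (nat_lit 623) (nat_lit 593) (nat_lit 2637) (.d (nat_lit 589) (nat_lit 494) (nat_lit 5613) (nat_lit 588) (nat_lit 3660))))) (.a (.f (nat_lit 654) (nat_lit 557) (nat_lit 7693) (.f (nat_lit 653) (nat_lit 685) (nat_lit 5677) (.f (nat_lit 621) (nat_lit 526)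 (nat_lit 5645) (.d (nat_lit 623) (nat_lit 593) (nat_lit 2637) (nat_lit 652) (nat_lit 1644))))) (.f (nat_lit 557) (nat_lit 654) (nat_lit 7693) (.d (nat_lit 493) (nat_lit 461) (nat_lit 4557) (nat_lit 589) (nat_lit 4589)))))))
noncomputable def s35334 : Cert := .r (nat_lit 69617319014740603652835881871387155234072588204148507771897385865294379207100366808744119581266388098712250821112903717734250633450028200877116442393593123674594463868965432455172573888512) (.p (nat_lit 622) (.a (.f (nat_lit 625) (nat_lit 657) (nat_lit 4624) (.f (nat_lit 623) (nat_lit 589) (nat_lit 3661) (.d (nat_lit 593) (nat_lit 594) (nat_lit 2638) (nat_lit 621) (nat_lit 2637)))) (.a (.p (nat_lit 526) (.a (.f (nat_lit 621) (nat_lit 653) (nat_lit 5645) (.f (nat_lit 494) (nat_lit 589) (nat_lit 5613) (.d (nat_lit 493) (nat_lit 461) (nat_lit 7629) (nat_lit 525) (nat_lit 7661)))) (.a (.f (nat_lit 621) (nat_lit 653) (nat_lit 5645) (.f (nat_lit 494) (nat_lit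 589) (nat_lit 5613) (.f (nat_lit 463) (nat_lit 495) (nat_lit 6606) (.f (nat_lit 462) (nat_lit 431) (nat_lit 6574) (.d (nat_lit 461) (nat_lit 429) (nat_lit 7597) (nat_lit 493) (nat_lit 7629)))))) (.a (.f (nat_lit 525) (nat_lit 493) (nat_lit 7661) (.f (nat_lit 654) (nat_lit 557) (nat_lit 7693) (.d (nat_lit 653) (nat_lit 621) (nat_lit 5645) (nat_lit 685) (nat_lit 5677)))) (.a (.f (nat_lit 657) (nat_lit 625) (nat_lit 4624) (.f (nat_lit 653) (nat_lit 621) (nat_lit 5645) (.f (nat_lit 654) (nat_lit 685) (nat_lit 5677) (.f (nat_lit 557) (nat_lit 525) (nat_lit 7693) (.f (nat_lit 686) (nat_lit 589) (nat_lit 7725) (.f (nat_lit 687) (nat_lit 719) (nat_lit 4686) (.d (nat_lit 689) (nat_lit 656) (nat_lit 4656) (nat_lit 688) (nat_lit 3725)))))))) (.a (.f (nat_lit 657) (nat_lit 625) (nat_lit 4624) (.f (nat_lit 525) (nat_lit 493) (nat_lit 7661) (.f (nat_lit 654) (nat_lit 557) (nat_lit 7693) (.f (nat_lit 656) (nat_lit 689) (nat_lit 4656)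 (.f (nat_lit 685) (nat_lit 653) (nat_lit 5677) (.f (nat_lit 686) (nat_lit 717) (nat_lit 5709) (.d (nat_lit 687) (nat_lit 688) (nat_lit 2701) (nat_lit 719) (nat_lit 4686)))))))) (.f (nat_lit 493) (nat_lit 525) (nat_lit 7661) (.f (nat_lit 494) (nat_lit 461) (nat_lit 7629) (.f (nat_lit 463) (nat_lit 495) (nat_lit 6606) (.f (nat_lit 462) (nat_lit 431) (nat_lit 6574) (.d (nat_lit 589) (nat_lit 557) (nat_lit 5581) (nat_lit 621) (nat_lit 5613)))))))))))) (.a s35261 (.a s35314 (.a (.p (nat_lit 654) (.a (.f (nat_lit 685) (nat_lit 653) (nat_lit 5677) (.f (nat_lit 686) (nat_lit 717) (nat_lit 5709) (.f (nat_lit 657) (nat_lit 625) (nat_lit 4624) (.f (nat_lit 687) (nat_lit 719) (nat_lit 4686) (.d (nat_lit 656) (nat_lit 688) (nat_lit 2701) (nat_lit 689) (nat_lit 4656)))))) (.a (.f (nat_lit 557) (nat_lit 525) (nat_lit 7693) (.f (nat_lit 686) (nat_lit 589) (nat_lit 7725) (.d (nat_lit 685) (nat_lit 653) (nat_lit 5677) (nat_lit 717) (nat_lit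 5709)))) (.a (.f (nat_lit 625) (nat_lit 657) (nat_lit 4624) (.f (nat_lit 589) (nat_lit 623) (nat_lit 3661) (.d (nat_lit 557) (nat_lit 525) (nat_lit 7693) (nat_lit 686) (nat_lit 7725)))) (.f (nat_lit 625) (nat_lit 657) (nat_lit 4624) (.d (nat_lit 623) (nat_lit 589) (nat_lit 3661) (nat_lit 653) (nat_lit 1645))))))) (.f (nat_lit 657) (nat_lit 625) (nat_lit 4624) (.f (nat_lit 656) (nat_lit 689) (nat_lit 4656) (.f (nat_lit 621) (nat_lit 623) (nat_lit 621) (.f (nat_lit 653) (nat_lit 526) (nat_lit 5645) (.d (nat_lit 685) (nat_lit 654) (nat_lit 5677) (nat_lit 717) (nat_lit 6733))))))))))))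
noncomputable def s35337 : Cert := .r (nat_lit 69617319014740603652835881871387155234072588204148507771897385865294379207100366808744119581266388098712250821112903717734250633450028200877116442393593123674594463868965432455172573888512) (.p (nat_lit 591) (.a (.f (nat_lit 593) (nat_lit 557) (nat_lit 3629) (.f (nat_lit 562) (nat_lit 561) (nat_lit 2606) (.f (nat_lit 594) (nat_lit 563) (nat_lit 2607) (.d (nat_lit 626) (nat_lit 625) (nat_lit 590) (nat_lit 627) (nat_lit 591))))) (.a (.f (nat_lit 625) (nat_lit 657) (nat_lit 4624) (.d (nat_lit 626) (nat_lit 593) (nat_lit 590) (nat_lit 627) (nat_lit 3663))) (.a (.f (nat_lit 593) (nat_lit 557) (nat_lit 3629) (.f (nat_lit 622) (nat_lit 621) (nat_lit 1613) (.f (nat_lit 594) (nat_lit 623) (nat_lit 1614) (.d (nat_lit 562) (nat_lit 561) (nat_lit 2606) (nat_lit 563) (nat_lit 2607))))) (.f (nat_lit 625) (nat_lit 657) (nat_lit 4624) (.d (nat_lit 626) (nat_lit 623) (nat_lit 3662) (nat_lit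 627) (nat_lit 3663)))))))
noncomputable def s35468 : Cert := .r (nat_lit 69617319014740603652835881871387155234072588204148507771897385865294379207100366808744119581266388098712250821112903717734250633450028200877116442393593123674594463868965432455172573888512) (.p (nat_lit 622) (.a (.f (nat_lit 623) (nat_lit 655) (nat_lit 5647) (.f (nat_lit 621) (nat_lit 593) (nat_lit 2637) (.d (nat_lit 653) (nat_lit 526) (nat_lit 5645) (nat_lit 652) (nat_lit 1644)))) (.a s35248 (.a s35314 (.f (nat_lit 655) (nat_lit 623) (nat_lit 5647) (.d (nat_lit 687) (nat_lit 654) (nat_lit 4654) (nat_lit 656) (nat_lit 5679)))))))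
noncomputable def s35500 : Cert := .r (nat_lit 20261306493394176462361660837852338588310400359870448366043705738623327421537234915052192549388313620359524245151910332264486039557759227193886889896603544140031141355561586524160) (.p (nat_lit 494) (.a (.f (nat_lit 589) (nat_lit 621) (nat_lit 5613) (.f (nat_lit 557) (nat_lit 462) (nat_lit 5581) (.d (nat_lit 591) (nat_lit 556) (nat_lit 3628) (nat_lit 593) (nat_lit 3629)))) (.a (.f (nat_lit 621) (nat_lit 589) (nat_lit 5613) (.f (nat_lit 622) (nat_lit 653) (nat_lit 5645) (.d (nat_lit 493) (nat_lit 461) (nat_lit 7629) (nat_lit 525) (nat_lit 7661)))) (.f (nat_lit 493) (nat_lit 461) (nat_lit 7629) (.f (nat_lit 525) (nat_lit 622) (nat_lit 7661) (.f (nat_lit 463) (nat_lit 495) (nat_lit 6606) (.f (nat_lit 462) (nat_lit 431) (nat_lit 6574) (.d (nat_lit 430) (nat_lit 398) (nat_lit 5517) (nat_lit 557) (nat_lit 5549)))))))))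
noncomputable def s35511 : Cert := .r (nat_lit 20261306493394176462361660837852338588310400359870448366043705738623327421537234915052192549388313620359524245151910332264486039557759227193886889896603544140031141355561586524160) (.p (nat_lit 494) (.a (.f (nat_lit 589) (nat_lit 621) (nat_lit 5613) (.f (nat_lit 557) (nat_lit 462) (nat_lit 5581) (.d (nat_lit 593) (nat_lit 559) (nat_lit 557) (nat_lit 591) (nat_lit 3629)))) (.a (.f (nat_lit 589) (nat_lit 621) (nat_lit 5613) (.f (nat_lit 557) (nat_lit 462) (nat_lit 5581) (.d (nat_lit 591) (nat_lit 556) (nat_lit 3628) (nat_lit 593) (nat_lit 3629)))) (.a (.f (nat_lit 589) (nat_lit 621) (nat_lit 5613) (.f (nat_lit 557) (nat_lit 462) (nat_lit 5581) (.f (nat_lit 588) (nat_lit 559) (nat_lit 1580) (.f (nat_lit 493) (nat_lit 461) (nat_lit 7629) (.d (nat_lit 525) (nat_lit 620) (nat_lit 5612) (nat_lit 622) (nat_lit 7661)))))) (.a (.f (nat_lit 621) (nat_lit 589) (nat_lit 5613) (.f (nat_lit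 622) (nat_lit 653) (nat_lit 5645) (.d (nat_lit 493) (nat_lit 461) (nat_lit 7629) (nat_lit 525) (nat_lit 7661)))) (.a (.f (nat_lit 461) (nat_lit 493) (nat_lit 7629) (.f (nat_lit 462) (nat_lit 429) (nat_lit 7597) (.f (nat_lit 557) (nat_lit 589) (nat_lit 5581) (.d (nat_lit 559) (nat_lit 591) (nat_lit 4558) (nat_lit 593) (nat_lit 557))))) (.f (nat_lit 591) (nat_lit 623) (nat_lit 4590) (.f (nat_lit 593) (nat_lit 557) (nat_lit 3629) (.d (nat_lit 559) (nat_lit 462) (nat_lit 4558) (nat_lit 594) (nat_lit 3630))))))))))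
noncomputable def s35515 : Cert := .r (nat_lit 20261306493394176462361660837852338588310400359870448366043705738623327421537234915052192549388313620359524245151910332264486039557759227193886889896603544140031141355561586524160) (.p (nat_lit 494) (.a (.f (nat_lit 589) (nat_lit 621) (nat_lit 5613) (.f (nat_lit 557) (nat_lit 462) (nat_lit 5581) (.d (nat_lit 593) (nat_lit 559) (nat_lit 557) (nat_lit 591) (nat_lit 3629)))) (.a (.f (nat_lit 589) (nat_lit 621) (nat_lit 5613) (.f (nat_lit 557) (nat_lit 462) (nat_lit 5581) (.d (nat_lit 591) (nat_lit 556) (nat_lit 3628) (nat_lit 593) (nat_lit 3629)))) (.a (.f (nat_lit 461) (nat_lit 493) (nat_lit 7629) (.f (nat_lit 462) (nat_lit 429) (nat_lit 7597) (.d (nat_lit 463) (nat_lit 431) (nat_lit 6574) (nat_lit 495) (nat_lit 6606)))) (.f (nat_lit 591) (nat_lit 623) (nat_lit 4590) (.f (nat_lit 589) (nat_lit 621) (nat_lit 5613) (.d (nat_lit 557) (nat_lit 556) (nat_lit 3628) (nat_lit 593) (nat_lit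 3629))))))))
noncomputable def s35521 : Cert := .r (nat_lit 20261306493394176462361660837852338588310400359870448366043705738623327421537234915052192549388313620359524245151910332264486039557759227193886889896603544140031141355561586524160) (.p (nat_lit 494) (.a (.f (nat_lit 621) (nat_lit 589) (nat_lit 5613) (.f (nat_lit 622) (nat_lit 653) (nat_lit 5645) (.d (nat_lit 493) (nat_lit 461) (nat_lit 7629) (nat_lit 525) (nat_lit 7661)))) (.a (.f (nat_lit 461) (nat_lit 493) (nat_lit 7629) (.f (nat_lit 462) (nat_lit 429) (nat_lit 7597) (.d (nat_lit 463) (nat_lit 431) (nat_lit 6574) (nat_lit 495) (nat_lit 6606)))) (.f (nat_lit 621) (nat_lit 589) (nat_lit 5613) (.f (nat_lit 622) (nat_lit 653) (nat_lit 5645) (.f (nat_lit 591) (nat_lit 593) (nat_lit 1613) (.f (nat_lit 462) (nat_lit 559) (nat_lit 4558) (.d (nat_lit 463) (nat_lit 431) (nat_lit 6574) (nat_lit 495) (nat_lit 6606)))))))))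
noncomputable def s35526 : Cert := .r (nat_lit 20261306493394176462361660837852338588310400359870448366043705738623327421537234915052192549388313620359524245151910332264486039557759227193886889896603544140031141355561586524160) (.p (nat_lit 494) (.a (.f (nat_lit 589) (nat_lit 621) (nat_lit 5613) (.f (nat_lit 557) (nat_lit 462) (nat_lit 5581) (.f (nat_lit 588) (nat_lit 559) (nat_lit 1580) (.f (nat_lit 493) (nat_lit 461) (nat_lit 7629) (.d (nat_lit 525) (nat_lit 620) (nat_lit 5612) (nat_lit 622) (nat_lit 7661)))))) (.a (.f (nat_lit 621) (nat_lit 589) (nat_lit 5613) (.f (nat_lit 622) (nat_lit 653) (nat_lit 5645) (.d (nat_lit 493) (nat_lit 461) (nat_lit 7629) (nat_lit 525) (nat_lit 7661)))) (.a (.f (nat_lit 461) (nat_lit 493) (nat_lit 7629) (.f (nat_lit 462) (nat_lit 429) (nat_lit 7597) (.d (nat_lit 463) (nat_lit 431) (nat_lit 6574) (nat_lit 495) (nat_lit 6606)))) (.f (nat_lit 589) (nat_lit 621) (nat_lit 5613) (.f (nat_lit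 557) (nat_lit 462) (nat_lit 5581) (.d (nat_lit 559) (nat_lit 588) (nat_lit 1580) (nat_lit 593) (nat_lit 557))))))))
noncomputable def s35531 : Cert := .r (nat_lit 20261306493394176462361660837852338588310400359870448366043705738623327421537234915052192549388313620359524245151910332264486039557759227193886889896603544140031141355561586524160) (.p (nat_lit 494) (.a (.f (nat_lit 589) (nat_lit 621) (nat_lit 5613) (.f (nat_lit 557) (nat_lit 462) (nat_lit 5581) (.d (nat_lit 593) (nat_lit 559) (nat_lit 557) (nat_lit 591) (nat_lit 3629)))) (.a (.f (nat_lit 589) (nat_lit 621) (nat_lit 5613) (.f (nat_lit 557) (nat_lit 462) (nat_lit 5581) (.d (nat_lit 591) (nat_lit 556) (nat_lit 3628) (nat_lit 593) (nat_lit 3629)))) (.a (.f (nat_lit 589) (nat_lit 621) (nat_lit 5613) (.f (nat_lit 557) (nat_lit 462) (nat_lit 5581) (.f (nat_lit 556) (nat_lit 591) (nat_lit 3628) (.f (nat_lit 588) (nat_lit 559) (nat_lit 1580) (.f (nat_lit 555) (nat_lit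 554) (nat_lit 554) (.f (nat_lit 587) (nat_lit 586) (nat_lit 2602) (.f (nat_lit 523) (nat_lit 522) (nat_lit 3594) (.d (nat_lit 491) (nat_lit 459) (nat_lit 4555) (nat_lit 620) (nat_lit 4587))))))))) (.a (.f (nat_lit 621) (nat_lit 589) (nat_lit 5613) (.f (nat_lit 622) (nat_lit 653) (nat_lit 5645) (.f (nat_lit 591) (nat_lit 593) (nat_lit 1613) (.f (nat_lit 462) (nat_lit 559) (nat_lit 4558) (.d (nat_lit 463) (nat_lit 431) (nat_lit 6574) (nat_lit 495) (nat_lit 6606)))))) (.a (.f (nat_lit 589) (nat_lit 621) (nat_lit 5613) (.f (nat_lit 557) (nat_lit 462) (nat_lit 5581) (.d (nat_lit 559) (nat_lit 588) (nat_lit 1580) (nat_lit 593) (nat_lit 557)))) (.a (.f (nat_lit 591) (nat_lit 623) (nat_lit 4590) (.f (nat_lit 589) (nat_lit 621) (nat_lit 5613) (.d (nat_lit 557) (nat_lit 556) (nat_lit 3628) (nat_lit 593) (nat_lit 3629)))) (.a (.f (nat_lit 463) (nat_lit 495) (nat_lit 6606) (.f (nat_lit 462) (nat_lit 431) (nat_lit 6574) (.f (nat_lit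 559) (nat_lit 591) (nat_lit 4558) (.d (nat_lit 557) (nat_lit 589) (nat_lit 5581) (nat_lit 593) (nat_lit 557))))) (.f (nat_lit 591) (nat_lit 623) (nat_lit 4590) (.f (nat_lit 593) (nat_lit 557) (nat_lit 3629) (.d (nat_lit 559) (nat_lit 462) (nat_lit 4558) (nat_lit 594) (nat_lit 3630))))))))))))
noncomputable def s35535 : Cert := .r (nat_lit 20261306493394176462361660837852338588310400359870448366043705738623327421537234915052192549388313620359524245151910332264486039557759227193886889896603544140031141355561586524160) (.p (nat_lit 494) (.a (.f (nat_lit 493) (nat_lit 461) (nat_lit 7629) (.f (nat_lit 525) (nat_lit 622) (nat_lit 7661) (.f (nat_lit 495) (nat_lit 463) (nat_lit 6606) (.f (nat_lit 524) (nat_lit 523) (nat_lit 2539) (.f (nat_lit 557) (nat_lit 559) (nat_lit 3596) (.d (nat_lit 462) (nat_lit 430) (nat_lit 5549) (nat_lit 589) (nat_lit 6605))))))) (.a (.f (nat_lit 461) (nat_lit 493) (nat_lit 7629) (.f (nat_lit 462) (nat_lit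 429) (nat_lit 7597) (.f (nat_lit 557) (nat_lit 589) (nat_lit 5581) (.d (nat_lit 559) (nat_lit 591) (nat_lit 4558) (nat_lit 593) (nat_lit 557))))) (.a (.f (nat_lit 493) (nat_lit 461) (nat_lit 7629) (.f (nat_lit 525) (nat_lit 622) (nat_lit 7661) (.f (nat_lit 463) (nat_lit 495) (nat_lit 6606) (.f (nat_lit 462) (nat_lit 431) (nat_lit 6574) (.d (nat_lit 430) (nat_lit 398) (nat_lit 5517) (nat_lit 557) (nat_lit 5549)))))) (.a (.f (nat_lit 461) (nat_lit 493) (nat_lit 7629) (.f (nat_lit 462) (nat_lit 429) (nat_lit 7597) (.d (nat_lit 463) (nat_lit 431) (nat_lit 6574) (nat_lit 495) (nat_lit 6606)))) (.a (.f (nat_lit 463) (nat_lit 495) (nat_lit 6606) (.f (nat_lit 462) (nat_lit 431) (nat_lit 6574) (.f (nat_lit 559) (nat_lit 591) (nat_lit 4558) (.d (nat_lit 557) (nat_lit 589) (nat_lit 5581) (nat_lit 593) (nat_lit 557))))) (.f (nat_lit 591) (nat_lit 623) (nat_lit 4590) (.f (nat_lit 557) (nat_lit 593) (nat_lit 3629) (.d (nat_lit 556) (nat_lit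 555) (nat_lit 555) (nat_lit 589) (nat_lit 3628))))))))))
noncomputable def s35540 : Cert := .r (nat_lit 20261306493394176462361660837852338588310400359870448366043705738623327421537234915052192549388313620359524245151910332264486039557759227193886889896603544140031141355561586524160) (.p (nat_lit 494) (.a (.f (nat_lit 493) (nat_lit 461) (nat_lit 7629) (.f (nat_lit 525) (nat_lit 622) (nat_lit 7661) (.f (nat_lit 463) (nat_lit 495) (nat_lit 6606) (.f (nat_lit 462) (nat_lit 431) (nat_lit 6574) (.d (nat_lit 430) (nat_lit 398) (nat_lit 5517) (nat_lit 557) (nat_lit 5549)))))) (.a (.f (nat_lit 591) (nat_lit 623) (nat_lit 4590) (.f (nat_lit 593) (nat_lit 557) (nat_lit 3629) (.d (nat_lit 559) (nat_lit 462) (nat_lit 4558) (nat_lit 594) (nat_lit 3630)))) (.a (.f (nat_lit 461) (nat_lit 493) (nat_lit 7629) (.f (nat_lit 462) (nat_lit 429) (nat_lit 7597) (.d (nat_lit 463) (nat_lit 431) (nat_lit 6574) (nat_lit 495) (nat_lit 6606)))) (.f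 (nat_lit 591) (nat_lit 623) (nat_lit 4590) (.f (nat_lit 593) (nat_lit 557) (nat_lit 3629) (.f (nat_lit 594) (nat_lit 559) (nat_lit 3630) (.d (nat_lit 626) (nat_lit 625) (nat_lit 590) (nat_lit 627) (nat_lit 591)))))))))
noncomputable def s35546 : Cert := .r (nat_lit 20261306493394176462141987312728159077430979534299843783091083809018741648436612084358255167519588626691602336650743786505212557593231839736698986280612611538028772450245904695296) (.p (nat_lit 591) (.a (.f (nat_lit 557) (nat_lit 593) (nat_lit 3629) (.d (nat_lit 556) (nat_lit 555) (nat_lit 555) (nat_lit 589) (nat_lit 3628))) (.a (.f (nat_lit 589) (nat_lit 561) (nat_lit 2605) (.f (nat_lit 557) (nat_lit 556) (nat_lit 3628) (.f (nat_lit 621) (nat_lit 620) (nat_lit 1612) (.d (nat_lit 526) (nat_lit 494) (nat_lit 5613) (nat_lit 653) (nat_lit 6669))))) (.a (.f (nat_lit 589) (nat_lit 561) (nat_lit 2605) (.f (nat_lit 621) (nat_lit 620) (nat_lit 1612) (.f (nat_lit 622)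 (nat_lit 593) (nat_lit 1613) (.d (nat_lit 526) (nat_lit 494) (nat_lit 5613) (nat_lit 653) (nat_lit 5645))))) (.f (nat_lit 593) (nat_lit 557) (nat_lit 3629) (.f (nat_lit 622) (nat_lit 621) (nat_lit 1613) (.f (nat_lit 623) (nat_lit 594) (nat_lit 1614) (.d (nat_lit 526) (nat_lit 494) (nat_lit 4590) (nat_lit 655) (nat_lit 4622)))))))))
noncomputable def s35584 : Cert := .r (nat_lit 17404329768881130783254602814453279293064266359110361593699229303641907658539147938513488958585288400317754175296927681921620498241416468414202990400922520629108074620762937451477571993600) (.p (nat_lit 654) (.a (.f (nat_lit 687) (nat_lit 655) (nat_lit 4654) (.f (nat_lit 686) (nat_lit 719) (nat_lit 4686) (.d (nat_lit 685) (nat_lit 653) (nat_lit 5677) (nat_lit 717) (nat_lit 5709)))) (.a (.f (nat_lit 685) (nat_lit 653) (nat_lit 5677) (.f (nat_lit 686) (nat_lit 717) (nat_lit 5709) (.f (nat_lit 591) (nat_lit 559) (nat_lit 6702) (.f (nat_lit 623) (nat_lit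 718) (nat_lit 6734) (.f (nat_lit 589) (nat_lit 561) (nat_lit 2605) (.d (nat_lit 588) (nat_lit 587) (nat_lit 587) (nat_lit 624) (nat_lit 588))))))) (.f (nat_lit 655) (nat_lit 687) (nat_lit 4654) (.d (nat_lit 623) (nat_lit 526) (nat_lit 4622) (nat_lit 624) (nat_lit 5647))))))
noncomputable def s35594 : Cert := .r (nat_lit 17404329768881130783254602814453279293064266359110361593699229303641907658539147938513488958585288400317754175296927681921620498241416468414202990400922520629108074620762937451477571993600) (.p (nat_lit 654) (.a (.f (nat_lit 687) (nat_lit 655) (nat_lit 4654) (.f (nat_lit 686) (nat_lit 719) (nat_lit 4686) (.d (nat_lit 685) (nat_lit 653) (nat_lit 5677) (nat_lit 717) (nat_lit 5709)))) (.a (.f (nat_lit 685) (nat_lit 653) (nat_lit 5677) (.f (nat_lit 686) (nat_lit 717) (nat_lit 5709) (.f (nat_lit 591) (nat_lit 559) (nat_lit 6702) (.f (nat_lit 589) (nat_lit 561) (nat_lit 2605) (.d (nat_lit 621) (nat_lit 620) (nat_lit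 1612) (nat_lit 718) (nat_lit 7757)))))) (.a (.f (nat_lit 687) (nat_lit 655) (nat_lit 4654) (.f (nat_lit 686) (nat_lit 719) (nat_lit 4686) (.f (nat_lit 591) (nat_lit 559) (nat_lit 6702) (.f (nat_lit 621) (nat_lit 593) (nat_lit 1613) (.d (nat_lit 620) (nat_lit 589) (nat_lit 1612) (nat_lit 619) (nat_lit 2635)))))) (.f (nat_lit 655) (nat_lit 687) (nat_lit 4654) (.f (nat_lit 623) (nat_lit 624) (nat_lit 5647) (.f (nat_lit 591) (nat_lit 559) (nat_lit 6671) (.d (nat_lit 593) (nat_lit 594) (nat_lit 1614) (nat_lit 621) (nat_lit 1613)))))))))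
noncomputable def s35595 : Cert := .r (nat_lit 17404329768881130783254602814453279293064266359110361593699229303641907658539147938513488958585288400317754175296927681921620498241416468414202990400922520629108074620762937451477571993600) (.p (nat_lit 526) (.a (.f (nat_lit 621) (nat_lit 653) (nat_lit 5645) (.f (nat_lit 591) (nat_lit 593) (nat_lit 1613) (.d (nat_lit 589) (nat_lit 494) (nat_lit 5613) (nat_lit 620) (nat_lit 1612)))) (.a (.f (nat_lit 621) (nat_lit 653) (nat_lit 5645) (.f (nat_lit 494) (nat_lit 589) (nat_lit 5613) (.d (nat_lit 493) (nat_lit 461) (nat_lit 7629) (nat_lit 525) (nat_lit 7661)))) (.a (.f (nat_lit 621) (nat_lit 653) (nat_lit 5645) (.f (nat_lit 591) (nat_lit 593) (nat_lit 1613) (.d (nat_lit 620) (nat_lit 589) (nat_lit 1612) (nat_lit 619) (nat_lit 2635)))) (.a (.f (nat_lit 623) (nat_lit 655) (nat_lit 4622) (.f (nat_lit 591) (nat_lit 494) (nat_lit 4590) (.f (nat_lit 589) (nat_lit 561) (nat_lit 2605) (.d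 (nat_lit 588) (nat_lit 559) (nat_lit 2604) (nat_lit 587) (nat_lit 587))))) (.f (nat_lit 621) (nat_lit 653) (nat_lit 5645) (.f (nat_lit 591) (nat_lit 593) (nat_lit 1613) (.f (nat_lit 493) (nat_lit 525) (nat_lit 7661) (.f (nat_lit 494) (nat_lit 461) (nat_lit 7629) (.f (nat_lit 463) (nat_lit 495) (nat_lit 6606) (.d (nat_lit 462) (nat_lit 431) (nat_lit 6574) (nat_lit 559) (nat_lit 4558))))))))))))
noncomputable def s35625 : Cert := .r (nat_lit 17404329768881130783254602814453279293064266359110361593699229303641907658539147938513488958585288400317754175296927681921620498241416468414202990400922520629108074620762937451477571993600) (.p (nat_lit 526) (.a (.f (nat_lit 621) (nat_lit 653) (nat_lit 5645) (.f (nat_lit 494) (nat_lit 589) (nat_lit 5613) (.d (nat_lit 493) (nat_lit 461) (nat_lit 7629) (nat_lit 525) (nat_lit 7661)))) (.a (.f (nat_lit 621) (nat_lit 653) (nat_lit 5645) (.f (nat_lit 494) (nat_lit 589) (nat_lit 5613) (.f (nat_lit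 463) (nat_lit 495) (nat_lit 6606) (.f (nat_lit 462) (nat_lit 431) (nat_lit 6574) (.d (nat_lit 461) (nat_lit 429) (nat_lit 7597) (nat_lit 493) (nat_lit 7629)))))) (.a (.f (nat_lit 525) (nat_lit 493) (nat_lit 7661) (.f (nat_lit 654) (nat_lit 557) (nat_lit 7693) (.d (nat_lit 653) (nat_lit 621) (nat_lit 5645) (nat_lit 685) (nat_lit 5677)))) (.a (.f (nat_lit 653) (nat_lit 621) (nat_lit 5645) (.f (nat_lit 654) (nat_lit 685) (nat_lit 5677) (.f (nat_lit 687) (nat_lit 655) (nat_lit 4654) (.f (nat_lit 686) (nat_lit 719) (nat_lit 4686) (.d (nat_lit 557) (nat_lit 525) (nat_lit 7693) (nat_lit 589) (nat_lit 7725)))))) (.a (.f (nat_lit 525) (nat_lit 493) (nat_lit 7661) (.f (nat_lit 654) (nat_lit 557) (nat_lit 7693) (.f (nat_lit 687) (nat_lit 655) (nat_lit 4654) (.f (nat_lit 686) (nat_lit 719) (nat_lit 4686) (.d (nat_lit 685) (nat_lit 653) (nat_lit 5677) (nat_lit 717) (nat_lit 5709)))))) (.f (nat_lit 493) (nat_lit 525) (nat_lit 7661) (.f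 (nat_lit 494) (nat_lit 461) (nat_lit 7629) (.f (nat_lit 463) (nat_lit 495) (nat_lit 6606) (.f (nat_lit 462) (nat_lit 431) (nat_lit 6574) (.d (nat_lit 589) (nat_lit 557) (nat_lit 5581) (nat_lit 621) (nat_lit 5613))))))))))))
noncomputable def s35640 : Cert := .r (nat_lit 17404329768881130783254602814453279293064266359110361593699229303641907658539147938513488958585288400317754175296927681921620498241416468414202990400922520629108074620762937451477571993600) (.p (nat_lit 526) (.a (.f (nat_lit 621) (nat_lit 653) (nat_lit 5645) (.f (nat_lit 494) (nat_lit 589) (nat_lit 5613) (.d (nat_lit 493) (nat_lit 461) (nat_lit 7629) (nat_lit 525) (nat_lit 7661)))) (.a (.f (nat_lit 621) (nat_lit 653) (nat_lit 5645) (.f (nat_lit 494) (nat_lit 589) (nat_lit 5613) (.f (nat_lit 463) (nat_lit 495) (nat_lit 6606) (.f (nat_lit 462) (nat_lit 431) (nat_lit 6574) (.d (nat_lit 461) (nat_lit 429) (nat_lit 7597) (nat_lit 493) (nat_lit 7629)))))) (.a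 (.f (nat_lit 525) (nat_lit 493) (nat_lit 7661) (.f (nat_lit 559) (nat_lit 561) (nat_lit 3597) (.d (nat_lit 524) (nat_lit 523) (nat_lit 523) (nat_lit 557) (nat_lit 3596)))) (.f (nat_lit 621) (nat_lit 653) (nat_lit 5645) (.f (nat_lit 589) (nat_lit 494) (nat_lit 5613) (.f (nat_lit 559) (nat_lit 561) (nat_lit 1581) (.d (nat_lit 557) (nat_lit 588) (nat_lit 1580) (nat_lit 593) (nat_lit 557)))))))))
noncomputable def s35731 : Cert := .r (nat_lit 20261306493394176462361660837852338588310400359870448366043705738623327421537234915052192549388313620359524245151910332264486039557759227193886889896603544140031141355561586524160) (.p (nat_lit 494) (.a (.f (nat_lit 493) (nat_lit 461) (nat_lit 7629) (.f (nat_lit 525) (nat_lit 622) (nat_lit 7661) (.f (nat_lit 463) (nat_lit 495) (nat_lit 6606) (.f (nat_lit 462) (nat_lit 431) (nat_lit 6574) (.d (nat_lit 430) (nat_lit 398) (nat_lit 5517) (nat_lit 557) (nat_lit 5549)))))) (.a (.f (nat_lit 591)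 (nat_lit 623) (nat_lit 4590) (.f (nat_lit 593) (nat_lit 557) (nat_lit 3629) (.d (nat_lit 559) (nat_lit 462) (nat_lit 4558) (nat_lit 594) (nat_lit 3630)))) (.a (.f (nat_lit 461) (nat_lit 493) (nat_lit 7629) (.f (nat_lit 462) (nat_lit 429) (nat_lit 7597) (.d (nat_lit 463) (nat_lit 431) (nat_lit 6574) (nat_lit 495) (nat_lit 6606)))) (.f (nat_lit 591) (nat_lit 623) (nat_lit 4590) (.f (nat_lit 593) (nat_lit 557) (nat_lit 3629) (.f (nat_lit 622) (nat_lit 621) (nat_lit 1613) (.d (nat_lit 493) (nat_lit 461) (nat_lit 7629) (nat_lit 525) (nat_lit 7661)))))))))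
noncomputable def s35795 : Cert := .r (nat_lit 69617319014740603652835881871387155234072588204148507771897385865294379207100366808744119581266388098712250821112903717734250633450028200877116442393593123674594463868965432455172573888512) (.p (nat_lit 589) (.a (.f (nat_lit 591) (nat_lit 625) (nat_lit 589) (.f (nat_lit 588) (nat_lit 559) (nat_lit 2604) (.d (nat_lit 620) (nat_lit 619) (nat_lit 1611) (nat_lit 621) (nat_lit 1612)))) (.a (.f (nat_lit 591) (nat_lit 625) (nat_lit 589) (.d (nat_lit 623) (nat_lit 588) (nat_lit 588) (nat_lit 655) (nat_lit 5647))) (.a (.f (nat_lit 623) (nat_lit 655) (nat_lit 5647) (.f (nat_lit 588) (nat_lit 591) (nat_lit 588) (.d (nat_lit 587) (nat_lit 559) (nat_lit 2603) (nat_lit 622) (nat_lit 587)))) (.a (.f (nat_lit 623) (nat_lit 655) (nat_lit 5647) (.f (nat_lit 622) (nat_lit 625) (nat_lit 3661) (.d (nat_lit 588) (nat_lit 587) (nat_lit 587) (nat_lit 621) (nat_lit 3660)))) (.f (nat_lit 591) (nat_lit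 625) (nat_lit 589) (.f (nat_lit 623) (nat_lit 655) (nat_lit 5647) (.f (nat_lit 621) (nat_lit 620) (nat_lit 1612) (.f (nat_lit 526) (nat_lit 494) (nat_lit 4590) (.d (nat_lit 653) (nat_lit 622) (nat_lit 5645) (nat_lit 685) (nat_lit 6701)))))))))))
noncomputable def s35805 : Cert := .r (nat_lit 69617319014740603652835881871387155234072588204148507771897385865294379207100366808744119581266388098712250821112903717734250633450028200877116442393593123674594463868965432455172573888512) (.p (nat_lit 656) (.a (.f (nat_lit 687) (nat_lit 655) (nat_lit 5679) (.f (nat_lit 688) (nat_lit 719) (nat_lit 5711) (.d (nat_lit 689) (nat_lit 657) (nat_lit 4656) (nat_lit 721) (nat_lit 4688)))) (.a (.d (nat_lit 655) (nat_lit 623) (nat_lit 5647) (nat_lit 687) (nat_lit 5679)) (.a (.f (nat_lit 689) (nat_lit 657) (nat_lit 4656) (.f (nat_lit 688) (nat_lit 721) (nat_lit 4688) (.f (nat_lit 591) (nat_lit 559) (nat_lit 7727) (.f (nat_lit 719) (nat_lit 687)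 (nat_lit 5711) (.d (nat_lit 720) (nat_lit 623) (nat_lit 7759) (nat_lit 751) (nat_lit 5743)))))) (.f (nat_lit 623) (nat_lit 655) (nat_lit 5647) (.f (nat_lit 689) (nat_lit 657) (nat_lit 4656) (.f (nat_lit 688) (nat_lit 721) (nat_lit 4688) (.d (nat_lit 591) (nat_lit 559) (nat_lit 7727) (nat_lit 720) (nat_lit 7759)))))))))
noncomputable def s36051 : Cert := .r (nat_lit 69617319010688342355100537185339881929686688642612915748223131080142370096074338672598701469547924183724844772003335469090402206514095436155034630569484847469405046205819747100288287244288) (.p (nat_lit 594) (.a (.f (nat_lit 623) (nat_lit 655) (nat_lit 5647) (.f (nat_lit 593) (nat_lit 595) (nat_lit 1615) (.d (nat_lit 622) (nat_lit 591) (nat_lit 1614) (nat_lit 621) (nat_lit 2637)))) (.a (.p (nat_lit 593) (.a (.f (nat_lit 625) (nat_lit 657) (nat_lit 4624) (.f (nat_lit 595) (nat_lit 596) (nat_lit 1616) (.f (nat_lit 627) (nat_lit 628) (nat_lit 592) (.f (nat_lit 626)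 (nat_lit 591) (nat_lit 591) (.f (nat_lit 659) (nat_lit 660) (nat_lit 624) (.d (nat_lit 562) (nat_lit 530) (nat_lit 4626) (nat_lit 691) (nat_lit 7730))))))) (.a (.d (nat_lit 559) (nat_lit 561) (nat_lit 558) (nat_lit 591) (nat_lit 3630)) (.d (nat_lit 559) (nat_lit 561) (nat_lit 558) (nat_lit 595) (nat_lit 3631))))) (.a (.f (nat_lit 625) (nat_lit 657) (nat_lit 4624) (.f (nat_lit 623) (nat_lit 655) (nat_lit 5647) (.f (nat_lit 626) (nat_lit 595) (nat_lit 2639) (.d (nat_lit 591) (nat_lit 590) (nat_lit 3662) (nat_lit 627) (nat_lit 3663))))) (.a (.f (nat_lit 623) (nat_lit 655) (nat_lit 5647) (.f (nat_lit 625) (nat_lit 657) (nat_lit 4624) (.f (nat_lit 593) (nat_lit 622) (nat_lit 2638) (.d (nat_lit 559) (nat_lit 561) (nat_lit 558) (nat_lit 591) (nat_lit 3630))))) (.f (nat_lit 623) (nat_lit 655) (nat_lit 5647) (.f (nat_lit 593) (nat_lit 595) (nat_lit 1615) (.d (nat_lit 622) (nat_lit 621) (nat_lit 2637) (nat_lit 625) (nat_lit 2638)))))))))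
noncomputable def s36062 : Cert := .r (nat_lit 69617319010688342355100537185339881929686688642612915748223131080142370096074338672598701469547924183724844772003335469090402206514095436155034630569484847469405046205819747100288287244288) (.p (nat_lit 593) (.a (.f (nat_lit 559) (nat_lit 557) (nat_lit 557) (.d (nat_lit 594) (nat_lit 561) (nat_lit 558) (nat_lit 595) (nat_lit 3631))) (.a (.f (nat_lit 623) (nat_lit 655) (nat_lit 5647) (.f (nat_lit 594) (nat_lit 595) (nat_lit 1615) (.d (nat_lit 622) (nat_lit 621) (nat_lit 2637) (nat_lit 625) (nat_lit 2638)))) (.a (.f (nat_lit 559) (nat_lit 557) (nat_lit 557) (.f (nat_lit 561) (nat_lit 594) (nat_lit 558) (.f (nat_lit 656) (nat_lit 688) (nat_lit 6704) (.d (nat_lit 655) (nat_lit 623) (nat_lit 5647) (nat_lit 687) (nat_lit 5679))))) (.f (nat_lit 655) (nat_lit 623) (nat_lit 5647) (.f (nat_lit 656) (nat_lit 687) (nat_lit 5679) (.f (nat_lit 688) (nat_lit 561) (nat_lit 6704) (.f (nat_lit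 720) (nat_lit 625) (nat_lit 6736) (.d (nat_lit 721) (nat_lit 689) (nat_lit 4688) (nat_lit 753) (nat_lit 4720))))))))))
noncomputable def s36083 : Cert := .r (nat_lit 87021648763360427942696308223698447214408695485827889831296771385845203056620773098820996455493421331510416369718229063005127345186232111698087593057816658023089926951699597456404241186816) (.p (nat_lit 526) (.a (.f (nat_lit 621) (nat_lit 653) (nat_lit 5645) (.f (nat_lit 494) (nat_lit 589) (nat_lit 5613) (.d (nat_lit 493) (nat_lit 461) (nat_lit 7629) (nat_lit 525) (nat_lit 7661)))) (.a (.f (nat_lit 621) (nat_lit 653) (nat_lit 5645) (.f (nat_lit 494) (nat_lit 589) (nat_lit 5613) (.f (nat_lit 463) (nat_lit 495) (nat_lit 6606) (.f (nat_lit 462) (nat_lit 431) (nat_lit 6574) (.d (nat_lit 461) (nat_lit 429) (nat_lit 7597) (nat_lit 493) (nat_lit 7629)))))) (.a (.f (nat_lit 525) (nat_lit 493) (nat_lit 7661) (.f (nat_lit 557) (nat_lit 654) (nat_lit 7693) (.d (nat_lit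 559) (nat_lit 524) (nat_lit 3596) (nat_lit 593) (nat_lit 557)))) (.f (nat_lit 653) (nat_lit 621) (nat_lit 5645) (.f (nat_lit 654) (nat_lit 685) (nat_lit 5677) (.f (nat_lit 557) (nat_lit 525) (nat_lit 7693) (.f (nat_lit 589) (nat_lit 686) (nat_lit 7725) (.d (nat_lit 559) (nat_lit 588) (nat_lit 1580) (nat_lit 593) (nat_lit 557))))))))))
noncomputable def s36129 : Cert := .r (nat_lit 69617319014740603652835881871606828759196767715027928597467990448247001136704952581844742411960325480580975814780825626235417179209301682841643829850781027290585396470967801360488255717376) (.p (nat_lit 494) (.a (.f (nat_lit 621) (nat_lit 589) (nat_lit 5613) (.f (nat_lit 622) (nat_lit 653) (nat_lit 5645) (.d (nat_lit 493) (nat_lit 461) (nat_lit 7629) (nat_lit 525) (nat_lit 7661)))) (.a (.f (nat_lit 589) (nat_lit 621) (nat_lit 5613) (.f (nat_lit 462) (nat_lit 557) (nat_lit 5581) (.d (nat_lit 463) (nat_lit 431) (nat_lit 6574) (nat_lit 495) (nat_lit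 6606)))) (.f (nat_lit 493) (nat_lit 461) (nat_lit 7629) (.f (nat_lit 525) (nat_lit 622) (nat_lit 7661) (.f (nat_lit 463) (nat_lit 495) (nat_lit 6606) (.f (nat_lit 462) (nat_lit 431) (nat_lit 6574) (.d (nat_lit 430) (nat_lit 398) (nat_lit 5517) (nat_lit 557) (nat_lit 5549)))))))))
noncomputable def s36144 : Cert := .r (nat_lit 69617319014740603652835881871606828759196767715027928597467990448247001136704952581844742411960325480580975814780825626235417179209301682841643829850781027290585396470967801360488255717376) (.p (nat_lit 494) (.a (.f (nat_lit 589) (nat_lit 621) (nat_lit 5613) (.f (nat_lit 462) (nat_lit 557) (nat_lit 5581) (.d (nat_lit 463) (nat_lit 431) (nat_lit 6574) (nat_lit 495) (nat_lit 6606)))) (.a (.f (nat_lit 589) (nat_lit 621) (nat_lit 5613) (.f (nat_lit 559) (nat_lit 561) (nat_lit 1581) (.d (nat_lit 557) (nat_lit 462) (nat_lit 5581) (nat_lit 588) (nat_lit 1580)))) (.a (.f (nat_lit 463) (nat_lit 495) (nat_lit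 6606) (.f (nat_lit 462) (nat_lit 431) (nat_lit 6574) (.d (nat_lit 461) (nat_lit 429) (nat_lit 7597) (nat_lit 493) (nat_lit 7629)))) (.f (nat_lit 589) (nat_lit 621) (nat_lit 5613) (.f (nat_lit 559) (nat_lit 561) (nat_lit 1581) (.d (nat_lit 557) (nat_lit 588) (nat_lit 1580) (nat_lit 593) (nat_lit 557))))))))
noncomputable def s36198 : Cert := .r (nat_lit 69617319014740603652835881871606828759196767715027928597467990448247001136704952581844742411960325480580975814780825626235417179209301682841643829850781027290585396470967801360488255717376) (.p (nat_lit 525) (.a (.f (nat_lit 622) (nat_lit 493) (nat_lit 7661) (.f (nat_lit 557) (nat_lit 654) (nat_lit 7693) (.d (nat_lit 559) (nat_lit 524) (nat_lit 3596) (nat_lit 593) (nat_lit 557)))) (.a (.f (nat_lit 622) (nat_lit 493) (nat_lit 7661) (.f (nat_lit 654) (nat_lit 557) (nat_lit 7693) (.d (nat_lit 653) (nat_lit 621) (nat_lit 5645) (nat_lit 685) (nat_lit 5677)))) (.a (.f (nat_lit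 559) (nat_lit 561) (nat_lit 3597) (.f (nat_lit 622) (nat_lit 493) (nat_lit 7661) (.f (nat_lit 621) (nat_lit 653) (nat_lit 5645) (.f (nat_lit 623) (nat_lit 593) (nat_lit 2637) (.f (nat_lit 588) (nat_lit 589) (nat_lit 3660) (.f (nat_lit 620) (nat_lit 587) (nat_lit 3659) (.f (nat_lit 651) (nat_lit 652) (nat_lit 1643) (.f (nat_lit 619) (nat_lit 650) (nat_lit 1642) (.d (nat_lit 524) (nat_lit 523) (nat_lit 523) (nat_lit 556) (nat_lit 5643)))))))))) (.f (nat_lit 559) (nat_lit 561) (nat_lit 3597) (.d (nat_lit 524) (nat_lit 523) (nat_lit 523) (nat_lit 557) (nat_lit 3596)))))))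
noncomputable def s36209 : Cert := .r (nat_lit 69617319014740603652835881871606828759196767715027928597467990448247001136704952581844742411960325480580975814780825626235417179209301682841643829850781027290585396470967801360488255717376) (.p (nat_lit 494) (.a (.f (nat_lit 493) (nat_lit 461) (nat_lit 7629) (.f (nat_lit 525) (nat_lit 622) (nat_lit 7661) (.f (nat_lit 463) (nat_lit 495) (nat_lit 6606) (.f (nat_lit 462) (nat_lit 431) (nat_lit 6574) (.d (nat_lit 430) (nat_lit 398) (nat_lit 5517) (nat_lit 557) (nat_lit 5549)))))) (.a (.f (nat_lit 493) (nat_lit 461) (nat_lit 7629) (.f (nat_lit 525) (nat_lit 622) (nat_lit 7661) (.f (nat_lit 559) (nat_lit 561) (nat_lit 3597) (.d (nat_lit 524) (nat_lit 523) (nat_lit 523) (nat_lit 557) (nat_lit 3596))))) (.a (.f (nat_lit 463) (nat_lit 495) (nat_lit 6606) (.f (nat_lit 462) (nat_lit 431) (nat_lit 6574) (.d (nat_lit 461) (nat_lit 429) (nat_lit 7597) (nat_lit 493) (nat_lit 7629)))) (.f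 (nat_lit 463) (nat_lit 495) (nat_lit 6606) (.f (nat_lit 462) (nat_lit 431) (nat_lit 6574) (.f (nat_lit 557) (nat_lit 589) (nat_lit 5581) (.f (nat_lit 525) (nat_lit 430) (nat_lit 5549) (.d (nat_lit 559) (nat_lit 524) (nat_lit 3596) (nat_lit 593) (nat_lit 557))))))))))
noncomputable def s36213 : Cert := .r (nat_lit 69617319014740603652835881871387155234072588204148507771897385865294379207100366808744119581266388098712250821112903717734250633450028200877116442393593123674594463868965432455172573888512) (.p (nat_lit 526) (.a s36129 (.a (.p (nat_lit 494) (.a (.f (nat_lit 621) (nat_lit 589) (nat_lit 5613) (.f (nat_lit 622) (nat_lit 653) (nat_lit 5645) (.d (nat_lit 493) (nat_lit 461) (nat_lit 7629) (nat_lit 525) (nat_lit 7661)))) (.a (.f (nat_lit 589) (nat_lit 621) (nat_lit 5613) (.f (nat_lit 559) (nat_lit 561) (nat_lit 1581) (.d (nat_lit 557) (nat_lit 462) (nat_lit 5581) (nat_lit 588) (nat_lit 1580)))) (.f (nat_lit 493) (nat_lit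 461) (nat_lit 7629) (.f (nat_lit 525) (nat_lit 622) (nat_lit 7661) (.f (nat_lit 559) (nat_lit 561) (nat_lit 3597) (.d (nat_lit 524) (nat_lit 523) (nat_lit 523) (nat_lit 557) (nat_lit 3596)))))))) (.a s36144 (.a (.p (nat_lit 656) (.a (.f (nat_lit 689) (nat_lit 657) (nat_lit 4656) (.f (nat_lit 688) (nat_lit 721) (nat_lit 4688) (.f (nat_lit 561) (nat_lit 593) (nat_lit 6704) (.d (nat_lit 559) (nat_lit 525) (nat_lit 3597) (nat_lit 589) (nat_lit 1581))))) (.a (.p (nat_lit 494) (.a (.f (nat_lit 461) (nat_lit 493) (nat_lit 7629) (.f (nat_lit 462) (nat_lit 429) (nat_lit 7597) (.d (nat_lit 463) (nat_lit 431) (nat_lit 6574) (nat_lit 495) (nat_lit 6606)))) (.a (.f (nat_lit 621) (nat_lit 589) (nat_lit 5613) (.f (nat_lit 622) (nat_lit 653) (nat_lit 5645) (.d (nat_lit 493) (nat_lit 461) (nat_lit 7629) (nat_lit 525) (nat_lit 7661)))) (.f (nat_lit 621) (nat_lit 589) (nat_lit 5613) (.f (nat_lit 622) (nat_lit 653) (nat_lit 5645) (.d (nat_lit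 623) (nat_lit 593) (nat_lit 2637) (nat_lit 657) (nat_lit 621))))))) (.a (.p (nat_lit 494) (.a (.f (nat_lit 461) (nat_lit 493) (nat_lit 7629) (.f (nat_lit 462) (nat_lit 429) (nat_lit 7597) (.d (nat_lit 463) (nat_lit 431) (nat_lit 6574) (nat_lit 495) (nat_lit 6606)))) (.a (.f (nat_lit 621) (nat_lit 589) (nat_lit 5613) (.f (nat_lit 622) (nat_lit 653) (nat_lit 5645) (.d (nat_lit 493) (nat_lit 461) (nat_lit 7629) (nat_lit 525) (nat_lit 7661)))) (.f (nat_lit 589) (nat_lit 621) (nat_lit 5613) (.f (nat_lit 561) (nat_lit 559) (nat_lit 1581) (.f (nat_lit 688) (nat_lit 593) (nat_lit 6704) (.f (nat_lit 721) (nat_lit 689) (nat_lit 4688) (.f (nat_lit 720) (nat_lit 753) (nat_lit 4720) (.d (nat_lit 719) (nat_lit 687) (nat_lit 5711) (nat_lit 751) (nat_lit 5743)))))))))) (.a (.p (nat_lit 494) (.a (.f (nat_lit 461) (nat_lit 493) (nat_lit 7629) (.f (nat_lit 462) (nat_lit 429) (nat_lit 7597) (.d (nat_lit 463) (nat_lit 431) (nat_lit 6574) (nat_lit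 495) (nat_lit 6606)))) (.a (.f (nat_lit 621) (nat_lit 589) (nat_lit 5613) (.f (nat_lit 622) (nat_lit 653) (nat_lit 5645) (.d (nat_lit 493) (nat_lit 461) (nat_lit 7629) (nat_lit 525) (nat_lit 7661)))) (.f (nat_lit 621) (nat_lit 589) (nat_lit 5613) (.f (nat_lit 622) (nat_lit 653) (nat_lit 5645) (.d (nat_lit 657) (nat_lit 623) (nat_lit 621) (nat_lit 689) (nat_lit 4656))))))) (.a (.f (nat_lit 689) (nat_lit 657) (nat_lit 4656) (.f (nat_lit 688) (nat_lit 721) (nat_lit 4688) (.f (nat_lit 561) (nat_lit 593) (nat_lit 6704) (.f (nat_lit 589) (nat_lit 559) (nat_lit 1581) (.f (nat_lit 494) (nat_lit 621) (nat_lit 5613) (.f (nat_lit 463) (nat_lit 495) (nat_lit 6606) (.f (nat_lit 462) (nat_lit 431) (nat_lit 6574) (.d (nat_lit 461) (nat_lit 429) (nat_lit 7597) (nat_lit 493) (nat_lit 7629))))))))) (.f (nat_lit 689) (nat_lit 657) (nat_lit 4656) (.f (nat_lit 688) (nat_lit 721) (nat_lit 4688) (.f (nat_lit 561) (nat_lit 593) (nat_lit 6704)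 (.f (nat_lit 525) (nat_lit 559) (nat_lit 3597) (.f (nat_lit 493) (nat_lit 622) (nat_lit 7661) (.d (nat_lit 461) (nat_lit 429) (nat_lit 4525) (nat_lit 494) (nat_lit 7629))))))))))))) (.a s36198 (.a (.p (nat_lit 589) (.a (.f (nat_lit 621) (nat_lit 494) (nat_lit 5613) (.d (nat_lit 653) (nat_lit 622) (nat_lit 5645) (nat_lit 685) (nat_lit 6701))) (.f (nat_lit 559) (nat_lit 561) (nat_lit 1581) (.d (nat_lit 557) (nat_lit 588) (nat_lit 1580) (nat_lit 593) (nat_lit 557))))) (.a s36209 (.p (nat_lit 525) (.a (.f (nat_lit 493) (nat_lit 622) (nat_lit 7661) (.d (nat_lit 461) (nat_lit 429) (nat_lit 4525) (nat_lit 494) (nat_lit 7629))) (.a (.f (nat_lit 622) (nat_lit 493) (nat_lit 7661) (.f (nat_lit 557) (nat_lit 654) (nat_lit 7693) (.d (nat_lit 559) (nat_lit 524) (nat_lit 3596) (nat_lit 593) (nat_lit 557)))) (.f (nat_lit 559) (nat_lit 561) (nat_lit 3597) (.d (nat_lit 524) (nat_lit 523) (nat_lit 523) (nat_lit 557) (nat_lit 3596))))))))))))))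
noncomputable def s36554 : Cert := .r (nat_lit 16209045194715341169889328670281870870648320287896358692834964590898661937229787932041754039510650896287619396121528265811588831646207381755109511917282835312024913084449269219328) (.p (nat_lit 558) (.a (.p (nat_lit 624) (.a (.f (nat_lit 655) (nat_lit 623) (nat_lit 5647) (.f (nat_lit 656) (nat_lit 687) (nat_lit 5679) (.f (nat_lit 689) (nat_lit 657) (nat_lit 4656) (.f (nat_lit 688) (nat_lit 721) (nat_lit 4688) (.f (nat_lit 559) (nat_lit 591) (nat_lit 7727) (.d (nat_lit 593) (nat_lit 557) (nat_lit 557) (nat_lit 561) (nat_lit 6704))))))) (.a (.f (nat_lit 657) (nat_lit 625) (nat_lit 4624) (.f (nat_lit 656) (nat_lit 689) (nat_lit 4656) (.f (nat_lit 687) (nat_lit 655) (nat_lit 5679) (.f (nat_lit 688) (nat_lit 719) (nat_lit 5711) (.f (nat_lit 559) (nat_lit 591) (nat_lit 7727) (.d (nat_lit 593) (nat_lit 557) (nat_lit 557) (nat_lit 561) (nat_lit 6704))))))) (.a (.f (nat_lit 655) (nat_lit 623) (nat_lit 5647) (.f (nat_lit 656) (nat_lit 687) (nat_lit 5679) (.d (nat_lit 657) (nat_lit 625) (nat_lit 4624) (nat_lit 689) (nat_lit 4656)))) (.a (.p (nat_lit 559) (.a (.f (nat_lit 593) (nat_lit 557) (nat_lit 557) (.d (nat_lit 594) (nat_lit 561) (nat_lit 558) (nat_lit 591) (nat_lit 3630))) (.a (.f (nat_lit 557) (nat_lit 593) (nat_lit 557) (.f (nat_lit 591) (nat_lit 556) (nat_lit 556) (.f (nat_lit 589) (nat_lit 588) (nat_lit 1580) (.f (nat_lit 590) (nat_lit 625) (nat_lit 589) (.f (nat_lit 621) (nat_lit 620) (nat_lit 1612) (.d (nat_lit 653) (nat_lit 526) (nat_lit 6669) (nat_lit 685) (nat_lit 6701))))))) (.a (.f (nat_lit 655) (nat_lit 623) (nat_lit 5647) (.f (nat_lit 656) (nat_lit 687) (nat_lit 5679) (.f (nat_lit 591) (nat_lit 688) (nat_lit 7727) (.f (nat_lit 557) (nat_lit 556) (nat_lit 556) (.f (nat_lit 589) (nat_lit 588) (nat_lit 1580) (.d (nat_lit 590) (nat_lit 561) (nat_lit 1581) (nat_lit 625) (nat_lit 589))))))) (.a (.f (nat_lit 655) (nat_lit 623) (nat_lit 5647) (.f (nat_lit 656) (nat_lit 687) (nat_lit 5679) (.f (nat_lit 688) (nat_lit 591) (nat_lit 7727) (.f (nat_lit 593) (nat_lit 561) (nat_lit 6704) (.f (nat_lit 720) (nat_lit 625) (nat_lit 6736) (.d (nat_lit 721) (nat_lit 689) (nat_lit 4688) (nat_lit 753) (nat_lit 4720))))))) (.f (nat_lit 593) (nat_lit 557) (nat_lit 557) (.d (nat_lit 594) (nat_lit 561) (nat_lit 558) (nat_lit 595) (nat_lit 3631)))))))) (.a (.p (nat_lit 593) (.a (.f (nat_lit 559) (nat_lit 557) (nat_lit 557) (.d (nat_lit 594) (nat_lit 561) (nat_lit 558) (nat_lit 591) (nat_lit 3630))) (.a (.f (nat_lit 559) (nat_lit 557) (nat_lit 557) (.d (nat_lit 594) (nat_lit 591) (nat_lit 3630) (nat_lit 595) (nat_lit 3631))) (.a (.f (nat_lit 657) (nat_lit 625) (nat_lit 4624) (.f (nat_lit 656) (nat_lit 689) (nat_lit 4656) (.f (nat_lit 688) (nat_lit 561) (nat_lit 6704) (.f (nat_lit 719) (nat_lit 687) (nat_lit 5711) (.f (nat_lit 720) (nat_lit 751) (nat_lit 5743) (.f (nat_lit 591) (nat_lit 623) (nat_lit 7759) (.f (nat_lit 590) (nat_lit 557) (nat_lit 3629) (.f (nat_lit 621) (nat_lit 622) (nat_lit 1613) (.f (nat_lit 589) (nat_lit 620) (nat_lit 1612) (.f (nat_lit 721) (nat_lit 753) (nat_lit 4720) (.f (nat_lit 685) (nat_lit 653) (nat_lit 6701) (.f (nat_lit 718) (nat_lit 686) (nat_lit 3757) (.f (nat_lit 717) (nat_lit 684) (nat_lit 3756) (.d (nat_lit 749) (nat_lit 748) (nat_lit 1740) (nat_lit 750) (nat_lit 1741))))))))))))))) (.a (.f (nat_lit 657) (nat_lit 625) (nat_lit 4624) (.f (nat_lit 656) (nat_lit 689) (nat_lit 4656) (.f (nat_lit 688) (nat_lit 561) (nat_lit 6704) (.f (nat_lit 591) (nat_lit 559) (nat_lit 7727) (.f (nat_lit 623) (nat_lit 720) (nat_lit 7759) (.d (nat_lit 622) (nat_lit 594) (nat_lit 1614) (nat_lit 621) (nat_lit 621))))))) (.f (nat_lit 559) (nat_lit 557) (nat_lit 557) (.d (nat_lit 594) (nat_lit 561) (nat_lit 558) (nat_lit 595) (nat_lit 3631)))))))) (.p (nat_lit 593) (.a (.f (nat_lit 559) (nat_lit 557) (nat_lit 557) (.d (nat_lit 594) (nat_lit 561) (nat_lit 558) (nat_lit 591) (nat_lit 3630))) (.a (.f (nat_lit 559) (nat_lit 557) (nat_lit 557) (.d (nat_lit 594) (nat_lit 591) (nat_lit 3630) (nat_lit 595) (nat_lit 3631))) (.a (.f (nat_lit 625) (nat_lit 657) (nat_lit 4624) (.f (nat_lit 623) (nat_lit 655) (nat_lit 5647) (.d (nat_lit 594) (nat_lit 595) (nat_lit 1615) (nat_lit 622) (nat_lit 2638)))) (.f (nat_lit 625) (nat_lit 657) (nat_lit 4624) (.f (nat_lit 623) (nat_lit 655) (nat_lit 5647) (.f (nat_lit 622) (nat_lit 621) (nat_lit 2637) (.f (nat_lit 590) (nat_lit 589) (nat_lit 3661) (.d (nat_lit 557) (nat_lit 559) (nat_lit 557) (nat_lit 591) (nat_lit 3629)))))))))))))))) (.a (.p (nat_lit 590) (.a s34871 (.a (.p (nat_lit 622) (.a (.p (nat_lit 526) (.a (.f (nat_lit 621) (nat_lit 653) (nat_lit 5645) (.f (nat_lit 591) (nat_lit 593) (nat_lit 1613) (.d (nat_lit 589) (nat_lit 494) (nat_lit 5613) (nat_lit 620) (nat_lit 1612)))) (.a (.f (nat_lit 621) (nat_lit 653) (nat_lit 5645) (.f (nat_lit 589) (nat_lit 494) (nat_lit 5613) (.f (nat_lit 591) (nat_lit 620) (nat_lit 1612) (.f (nat_lit 557) (nat_lit 556) (nat_lit 3628) (.d (nat_lit 654) (nat_lit 525) (nat_lit 7693) (nat_lit 686) (nat_lit 7725)))))) (.a (.f (nat_lit 621) (nat_lit 653) (nat_lit 5645) (.f (nat_lit 591) (nat_lit 593) (nat_lit 1613) (.d (nat_lit 620) (nat_lit 589) (nat_lit 1612) (nat_lit 619) (nat_lit 2635)))) (.f (nat_lit 525) (nat_lit 493) (nat_lit 7661) (.f (nat_lit 557) (nat_lit 654) (nat_lit 7693) (.d (nat_lit 559) (nat_lit 524) (nat_lit 3596) (nat_lit 593) (nat_lit 557)))))))) (.a (.p (nat_lit 526) (.a (.f (nat_lit 621) (nat_lit 653) (nat_lit 5645) (.f (nat_lit 591) (nat_lit 593) (nat_lit 1613) (.d (nat_lit 589) (nat_lit 494) (nat_lit 5613) (nat_lit 620) (nat_lit 1612)))) (.a (.f (nat_lit 621) (nat_lit 653) (nat_lit 5645) (.f (nat_lit 589) (nat_lit 494) (nat_lit 5613) (.f (nat_lit 591) (nat_lit 620) (nat_lit 1612) (.f (nat_lit 557) (nat_lit 556) (nat_lit 3628) (.d (nat_lit 654) (nat_lit 525) (nat_lit 7693) (nat_lit 686) (nat_lit 7725)))))) (.a (.f (nat_lit 621) (nat_lit 653) (nat_lit 5645) (.f (nat_lit 591) (nat_lit 593) (nat_lit 1613) (.d (nat_lit 620) (nat_lit 589) (nat_lit 1612) (nat_lit 619) (nat_lit 2635)))) (.a (.f (nat_lit 621) (nat_lit 653) (nat_lit 5645) (.f (nat_lit 494) (nat_lit 589) (nat_lit 5613) (.d (nat_lit 493) (nat_lit 461) (nat_lit 7629) (nat_lit 525) (nat_lit 7661)))) (.a (.f (nat_lit 525) (nat_lit 493) (nat_lit 7661) (.f (nat_lit 557) (nat_lit 654) (nat_lit 7693) (.f (nat_lit 591) (nat_lit 593) (nat_lit 3629) (.d (nat_lit 556) (nat_lit 555) (nat_lit 555) (nat_lit 589) (nat_lit 3628))))) (.f (nat_lit 525) (nat_lit 493) (nat_lit 7661) (.f (nat_lit 654) (nat_lit 557) (nat_lit 7693) (.d (nat_lit 653) (nat_lit 621) (nat_lit 5645) (nat_lit 685) (nat_lit 5677)))))))))) (.a (.p (nat_lit 526) (.a (.f (nat_lit 621) (nat_lit 653) (nat_lit 5645) (.f (nat_lit 589) (nat_lit 494) (nat_lit 5613) (.f (nat_lit 591) (nat_lit 620) (nat_lit 1612) (.f (nat_lit 557) (nat_lit 556) (nat_lit 3628) (.d (nat_lit 654) (nat_lit 525) (nat_lit 7693) (nat_lit 686) (nat_lit 7725)))))) (.a (.f (nat_lit 621) (nat_lit 653) (nat_lit 5645) (.f (nat_lit 589) (nat_lit 494) (nat_lit 5613) (.f (nat_lit 591) (nat_lit 620) (nat_lit 1612) (.f (nat_lit 588) (nat_lit 559) (nat_lit 2604) (.d (nat_lit 556) (nat_lit 555) (nat_lit 3627) (nat_lit 557) (nat_lit 3628)))))) (.a (.f (nat_lit 621) (nat_lit 653) (nat_lit 5645) (.f (nat_lit 494) (nat_lit 589) (nat_lit 5613) (.d (nat_lit 493) (nat_lit 461) (nat_lit 7629) (nat_lit 525) (nat_lit 7661)))) (.a (.f (nat_lit 525) (nat_lit 493) (nat_lit 7661) (.f (nat_lit 654) (nat_lit 557) (nat_lit 7693) (.d (nat_lit 653) (nat_lit 621) (nat_lit 5645) (nat_lit 685) (nat_lit 5677)))) (.f (nat_lit 525) (nat_lit 493) (nat_lit 7661) (.f (nat_lit 557) (nat_lit 654) (nat_lit 7693) (.f (nat_lit 559) (nat_lit 524) (nat_lit 3596) (.f (nat_lit 556) (nat_lit 591) (nat_lit 556) (.d (nat_lit 588) (nat_lit 587) (nat_lit 1579) (nat_lit 589) (nat_lit 1580))))))))))) (.a (.p (nat_lit 654) (.a (.f (nat_lit 653) (nat_lit 685) (nat_lit 5677) (.f (nat_lit 621) (nat_lit 526) (nat_lit 5645) (.f (nat_lit 591) (nat_lit 593) (nat_lit 1613) (.d (nat_lit 620) (nat_lit 589) (nat_lit 1612) (nat_lit 619) (nat_lit 2635))))) (.a (.f (nat_lit 653) (nat_lit 685) (nat_lit 5677) (.f (nat_lit 621) (nat_lit 526) (nat_lit 5645) (.f (nat_lit 655) (nat_lit 687) (nat_lit 4654) (.d (nat_lit 656) (nat_lit 620) (nat_lit 3692) (nat_lit 657) (nat_lit 3693))))) (.a (.f (nat_lit 687) (nat_lit 655) (nat_lit 4654) (.f (nat_lit 686) (nat_lit 719) (nat_lit 4686) (.d (nat_lit 685) (nat_lit 653) (nat_lit 5677) (nat_lit 717) (nat_lit 5709)))) (.f (nat_lit 687) (nat_lit 655) (nat_lit 4654) (.f (nat_lit 686) (nat_lit 719) (nat_lit 4686) (.f (nat_lit 591) (nat_lit 559) (nat_lit 6702) (.d (nat_lit 557) (nat_lit 589) (nat_lit 7725) (nat_lit 593) (nat_lit 3629))))))))) (.a s34930 (.a s34941 (.a (.p (nat_lit 557) (.a (.d (nat_lit 593) (nat_lit 559) (nat_lit 557) (nat_lit 591) (nat_lit 3629)) (.a (.f (nat_lit 591) (nat_lit 593) (nat_lit 3629) (.d (nat_lit 556) (nat_lit 555) (nat_lit 555) (nat_lit 589) (nat_lit 3628))) (.f (nat_lit 525) (nat_lit 654) (nat_lit 7693) (.d (nat_lit 493) (nat_lit 461) (nat_lit 4557) (nat_lit 526) (nat_lit 7661)))))) (.a (.p (nat_lit 526) (.a (.f (nat_lit 525) (nat_lit 493) (nat_lit 7661) (.f (nat_lit 557) (nat_lit 654) (nat_lit 7693) (.d (nat_lit 559) (nat_lit 524) (nat_lit 3596) (nat_lit 593) (nat_lit 557)))) (.a (.f (nat_lit 525) (nat_lit 493) (nat_lit 7661) (.f (nat_lit 654) (nat_lit 557) (nat_lit 7693) (.d (nat_lit 653) (nat_lit 621) (nat_lit 5645) (nat_lit 685) (nat_lit 5677)))) (.a (.f (nat_lit 653) (nat_lit 621) (nat_lit 5645) (.f (nat_lit 654) (nat_lit 685) (nat_lit 5677) (.f (nat_lit 687) (nat_lit 655) (nat_lit 4654) (.f (nat_lit 686) (nat_lit 719) (nat_lit 4686) (.f (nat_lit 591) (nat_lit 559) (nat_lit 6702) (.f (nat_lit 593) (nat_lit 557) (nat_lit 3629) (.f (nat_lit 625) (nat_lit 626) (nat_lit 590) (.d (nat_lit 689) (nat_lit 657) (nat_lit 7728) (nat_lit 688) (nat_lit 3725))))))))) (.f (nat_lit 621) (nat_lit 653) (nat_lit 5645) (.f (nat_lit 591) (nat_lit 593) (nat_lit 1613) (.f (nat_lit 493) (nat_lit 525) (nat_lit 7661) (.f (nat_lit 494) (nat_lit 461) (nat_lit 7629) (.f (nat_lit 463) (nat_lit 495) (nat_lit 6606) (.d (nat_lit 462) (nat_lit 431) (nat_lit 6574) (nat_lit 559) (nat_lit 4558))))))))))) (.a (.p (nat_lit 557) (.a (.d (nat_lit 593) (nat_lit 559) (nat_lit 557) (nat_lit 591) (nat_lit 3629)) (.a (.f (nat_lit 591) (nat_lit 593) (nat_lit 3629) (.d (nat_lit 556) (nat_lit 555) (nat_lit 555) (nat_lit 589) (nat_lit 3628))) (.a (.f (nat_lit 654) (nat_lit 525) (nat_lit 7693) (.f (nat_lit 589) (nat_lit 686) (nat_lit 7725) (.f (nat_lit 591) (nat_lit 556) (nat_lit 3628) (.f (nat_lit 588) (nat_lit 559) (nat_lit 2604) (.d (nat_lit 620) (nat_lit 619) (nat_lit 1611) (nat_lit 621) (nat_lit 1612)))))) (.f (nat_lit 654) (nat_lit 525) (nat_lit 7693) (.f (nat_lit 686) (nat_lit 589) (nat_lit 7725) (.d (nat_lit 685) (nat_lit 653) (nat_lit 5677) (nat_lit 717) (nat_lit 5709)))))))) (.p (nat_lit 526) (.a (.f (nat_lit 621) (nat_lit 653) (nat_lit 5645) (.f (nat_lit 591) (nat_lit 593) (nat_lit 1613) (.d (nat_lit 589) (nat_lit 494) (nat_lit 5613) (nat_lit 620) (nat_lit 1612)))) (.a (.f (nat_lit 621) (nat_lit 653) (nat_lit 5645) (.f (nat_lit 494) (nat_lit 589) (nat_lit 5613) (.d (nat_lit 493) (nat_lit 461) (nat_lit 7629) (nat_lit 525) (nat_lit 7661)))) (.a (.f (nat_lit 621) (nat_lit 653) (nat_lit 5645) (.f (nat_lit 591) (nat_lit 593) (nat_lit 1613) (.d (nat_lit 620) (nat_lit 589) (nat_lit 1612) (nat_lit 619) (nat_lit 2635)))) (.a (.f (nat_lit 493) (nat_lit 525) (nat_lit 7661) (.f (nat_lit 494) (nat_lit 461) (nat_lit 7629) (.f (nat_lit 463) (nat_lit 495) (nat_lit 6606) (.f (nat_lit 462) (nat_lit 431) (nat_lit 6574) (.f (nat_lit 557) (nat_lit 589) (nat_lit 5581) (.d (nat_lit 591) (nat_lit 559) (nat_lit 4558) (nat_lit 593) (nat_lit 3629))))))) (.f (nat_lit 621) (nat_lit 653) (nat_lit 5645) (.f (nat_lit 591) (nat_lit 593) (nat_lit 1613) (.f (nat_lit 493) (nat_lit 525) (nat_lit 7661) (.f (nat_lit 494) (nat_lit 461) (nat_lit 7629) (.f (nat_lit 463) (nat_lit 495) (nat_lit 6606) (.d (nat_lit 462) (nat_lit 431) (nat_lit 6574) (nat_lit 559) (nat_lit 4558)))))))))))))))))))))) (.a (.p (nat_lit 591) (.a (.f (nat_lit 593) (nat_lit 557) (nat_lit 3629) (.f (nat_lit 625) (nat_lit 626) (nat_lit 590) (.d (nat_lit 624) (nat_lit 589) (nat_lit 589) (nat_lit 657) (nat_lit 4624)))) (.a (.f (nat_lit 557) (nat_lit 593) (nat_lit 3629) (.d (nat_lit 556) (nat_lit 555) (nat_lit 555) (nat_lit 589) (nat_lit 3628))) (.a (.f (nat_lit 589) (nat_lit 561) (nat_lit 2605) (.f (nat_lit 557) (nat_lit 556) (nat_lit 3628) (.f (nat_lit 621) (nat_lit 620) (nat_lit 1612) (.d (nat_lit 526) (nat_lit 494) (nat_lit 5613) (nat_lit 653) (nat_lit 6669))))) (.a (.f (nat_lit 589) (nat_lit 561) (nat_lit 2605) (.f (nat_lit 621) (nat_lit 620) (nat_lit 1612) (.f (nat_lit 622) (nat_lit 593) (nat_lit 1613) (.d (nat_lit 526) (nat_lit 494) (nat_lit 5613) (nat_lit 653) (nat_lit 5645))))) (.f (nat_lit 593) (nat_lit 557) (nat_lit 3629) (.f (nat_lit 625) (nat_lit 626) (nat_lit 590) (.d (nat_lit 657) (nat_lit 561) (nat_lit 7696) (nat_lit 624) (nat_lit 4624))))))))) (.a s35064 (.a (.p (nat_lit 591) (.a (.f (nat_lit 589) (nat_lit 561) (nat_lit 2605) (.f (nat_lit 588) (nat_lit 559) (nat_lit 2604) (.d (nat_lit 620) (nat_lit 619) (nat_lit 1611) (nat_lit 621) (nat_lit 1612)))) (.a (.p (nat_lit 589) (.a (.f (nat_lit 621) (nat_lit 620) (nat_lit 1612) (.f (nat_lit 622) (nat_lit 593) (nat_lit 1613) (.d (nat_lit 526) (nat_lit 494) (nat_lit 5613) (nat_lit 653) (nat_lit 5645)))) (.a (.f (nat_lit 588) (nat_lit 559) (nat_lit 2604) (.d (nat_lit 620) (nat_lit 619) (nat_lit 1611) (nat_lit 621) (nat_lit 1612))) (.a (.f (nat_lit 588) (nat_lit 559) (nat_lit 2604) (.f (nat_lit 619) (nat_lit 620) (nat_lit 1611) (.f (nat_lit 587) (nat_lit 618) (nat_lit 1610) (.d (nat_lit 555) (nat_lit 554) (nat_lit 3626) (nat_lit 556) (nat_lit 3627))))) (.f (nat_lit 559) (nat_lit 588) (nat_lit 2604) (.f (nat_lit 593) (nat_lit 594) (nat_lit 3630) (.d (nat_lit 625) (nat_lit 624) (nat_lit 589) (nat_lit 626) (nat_lit 590)))))))) (.a (.f (nat_lit 589) (nat_lit 561) (nat_lit 2605) (.f (nat_lit 621) (nat_lit 620) (nat_lit 1612) (.f (nat_lit 622) (nat_lit 593) (nat_lit 1613) (.d (nat_lit 526) (nat_lit 494) (nat_lit 5613) (nat_lit 653) (nat_lit 5645))))) (.a (.f (nat_lit 561) (nat_lit 589) (nat_lit 2605) (.d (nat_lit 562) (nat_lit 563) (nat_lit 1583) (nat_lit 593) (nat_lit 2606))) (.p (nat_lit 593) (.a (.f (nat_lit 561) (nat_lit 562) (nat_lit 2606) (.d (nat_lit 625) (nat_lit 626) (nat_lit 590) (nat_lit 657) (nat_lit 7696))) (.a (.f (nat_lit 594) (nat_lit 559) (nat_lit 3630) (.d (nat_lit 626) (nat_lit 625) (nat_lit 590) (nat_lit 627) (nat_lit 591))) (.f (nat_lit 594) (nat_lit 559) (nat_lit 3630) (.d (nat_lit 562) (nat_lit 561) (nat_lit 2606) (nat_lit 563) (nat_lit 2607))))))))))) (.a (.p (nat_lit 559) (.a (.f (nat_lit 557) (nat_lit 593) (nat_lit 557) (.d (nat_lit 589) (nat_lit 561) (nat_lit 1581) (nat_lit 588) (nat_lit 1580))) (.a (.f (nat_lit 557) (nat_lit 593) (nat_lit 557) (.f (nat_lit 589) (nat_lit 588) (nat_lit 1580) (.f (nat_lit 525) (nat_lit 524) (nat_lit 3596) (.d (nat_lit 493) (nat_lit 461) (nat_lit 4557) (nat_lit 622) (nat_lit 4589))))) (.a (.f (nat_lit 589) (nat_lit 561) (nat_lit 1581) (.d (nat_lit 588) (nat_lit 557) (nat_lit 1580) (nat_lit 587) (nat_lit 2603))) (.a (.f (nat_lit 561) (nat_lit 589) (nat_lit 1581) (.p (nat_lit 562) (.a (.d (nat_lit 594) (nat_lit 593) (nat_lit 558) (nat_lit 595) (nat_lit 559)) (.a (.f (nat_lit 531) (nat_lit 530) (nat_lit 2575) (.f (nat_lit 563) (nat_lit 532) (nat_lit 2576) (.d (nat_lit 595) (nat_lit 594) (nat_lit 559) (nat_lit 596) (nat_lit 560)))) (.a (.f (nat_lit 593) (nat_lit 594) (nat_lit 558) (.f (nat_lit 563) (nat_lit 564) (nat_lit 1584) (.d (nat_lit 531) (nat_lit 530) (nat_lit 2575) (nat_lit 532) (nat_lit 2576)))) (.f (nat_lit 531) (nat_lit 530) (nat_lit 2575) (.f (nat_lit 563) (nat_lit 532) (nat_lit 2576) (.f (nat_lit 564) (nat_lit 593) (nat_lit 1584) (.d (nat_lit 596) (nat_lit 595) (nat_lit 560) (nat_lit 597) (nat_lit 561)))))))))) (.f (nat_lit 593) (nat_lit 557) (nat_lit 557) (.d (nat_lit 594) (nat_lit 561) (nat_lit 558) (nat_lit 595) (nat_lit 3631)))))))) (.p (nat_lit 593) (.a (.d (nat_lit 557) (nat_lit 559) (nat_lit 557) (nat_lit 591) (nat_lit 3629)) (.a (.f (nat_lit 591) (nat_lit 557) (nat_lit 3629) (.f (nat_lit 625) (nat_lit 626) (nat_lit 590) (.d (nat_lit 657) (nat_lit 561) (nat_lit 7696) (nat_lit 624) (nat_lit 4624)))) (.a (.p (nat_lit 625) (.a (.d (nat_lit 657) (nat_lit 624) (nat_lit 4624) (nat_lit 689) (nat_lit 7728)) (.f (nat_lit 591) (nat_lit 626) (nat_lit 590) (.f (nat_lit 594) (nat_lit 559) (nat_lit 3630) (.d (nat_lit 562) (nat_lit 561) (nat_lit 2606) (nat_lit 563) (nat_lit 2607)))))) (.f (nat_lit 559) (nat_lit 557) (nat_lit 557) (.d (nat_lit 594) (nat_lit 561) (nat_lit 558) (nat_lit 595) (nat_lit 3631)))))))))))))) (.a (.p (nat_lit 624) (.a (.f (nat_lit 655) (nat_lit 623) (nat_lit 5647) (.f (nat_lit 656) (nat_lit 687) (nat_lit 5679) (.d (nat_lit 657) (nat_lit 625) (nat_lit 4624) (nat_lit 689) (nat_lit 4656)))) (.a (.f (nat_lit 657) (nat_lit 625) (nat_lit 4624) (.f (nat_lit 656) (nat_lit 689) (nat_lit 4656) (.f (nat_lit 687) (nat_lit 655) (nat_lit 5679) (.f (nat_lit 688) (nat_lit 719) (nat_lit 5711) (.f (nat_lit 559) (nat_lit 591) (nat_lit 7727) (.f (nat_lit 557) (nat_lit 593) (nat_lit 557) (.f (nat_lit 588) (nat_lit 589) (nat_lit 1580) (.f (nat_lit 556) (nat_lit 587) (nat_lit 1579) (.d (nat_lit 524) (nat_lit 523) (nat_lit 3595) (nat_lit 525) (nat_lit 3596)))))))))) (.a (.p (nat_lit 593) (.a (.f (nat_lit 559) (nat_lit 557) (nat_lit 557) (.d (nat_lit 594) (nat_lit 591) (nat_lit 3630) (nat_lit 595) (nat_lit 3631))) (.a (.f (nat_lit 623) (nat_lit 655) (nat_lit 5647) (.f (nat_lit 622) (nat_lit 621) (nat_lit 2637) (.d (nat_lit 594) (nat_lit 591) (nat_lit 1614) (nat_lit 595) (nat_lit 1615)))) (.a (.f (nat_lit 623) (nat_lit 655) (nat_lit 5647) (.f (nat_lit 622) (nat_lit 621) (nat_lit 2637) (.d (nat_lit 594) (nat_lit 591) (nat_lit 1614) (nat_lit 625) (nat_lit 2638)))) (.a (.f (nat_lit 623) (nat_lit 655) (nat_lit 5647) (.f (nat_lit 622) (nat_lit 621) (nat_lit 2637) (.f (nat_lit 557) (nat_lit 559) (nat_lit 557) (.f (nat_lit 590) (nat_lit 591) (nat_lit 3629) (.f (nat_lit 589) (nat_lit 625) (nat_lit 3661) (.d (nat_lit 525) (nat_lit 493) (nat_lit 4589) (nat_lit 654) (nat_lit 7693))))))) (.f (nat_lit 623) (nat_lit 655) (nat_lit 5647) (.f (nat_lit 594) (nat_lit 595) (nat_lit 1615) (.d (nat_lit 622) (nat_lit 621) (nat_lit 2637) (nat_lit 625) (nat_lit 2638))))))))) (.a (.p (nat_lit 656) (.a (.d (nat_lit 657) (nat_lit 625) (nat_lit 4624) (nat_lit 689) (nat_lit 4656)) (.a (.p (nat_lit 559) (.a (.f (nat_lit 557) (nat_lit 593) (nat_lit 557) (.d (nat_lit 591) (nat_lit 556) (nat_lit 556) (nat_lit 688) (nat_lit 7727))) (.a (.f (nat_lit 688) (nat_lit 591) (nat_lit 7727) (.f (nat_lit 721) (nat_lit 689) (nat_lit 4688) (.f (nat_lit 720) (nat_lit 753) (nat_lit 4720) (.d (nat_lit 719) (nat_lit 687) (nat_lit 5711) (nat_lit 751) (nat_lit 5743))))) (.f (nat_lit 557) (nat_lit 593) (nat_lit 557) (.f (nat_lit 588) (nat_lit 589) (nat_lit 1580) (.f (nat_lit 556) (nat_lit 587) (nat_lit 1579) (.d (nat_lit 524) (nat_lit 523) (nat_lit 3595) (nat_lit 525) (nat_lit 3596)))))))) (.p (nat_lit 559) (.a (.f (nat_lit 557) (nat_lit 593) (nat_lit 557) (.d (nat_lit 591) (nat_lit 556) (nat_lit 556) (nat_lit 688) (nat_lit 7727))) (.a (.f (nat_lit 591) (nat_lit 688) (nat_lit 7727) (.f (nat_lit 557) (nat_lit 556) (nat_lit 556) (.f (nat_lit 589) (nat_lit 588) (nat_lit 1580) (.d (nat_lit 625) (nat_lit 590) (nat_lit 589) (nat_lit 657) (nat_lit 4624))))) (.a (.f (nat_lit 591) (nat_lit 688) (nat_lit 7727) (.f (nat_lit 593) (nat_lit 594) (nat_lit 3630) (.f (nat_lit 625) (nat_lit 657) (nat_lit 4624) (.d (nat_lit 590) (nat_lit 589) (nat_lit 589) (nat_lit 626) (nat_lit 590))))) (.f (nat_lit 557) (nat_lit 593) (nat_lit 557) (.f (nat_lit 588) (nat_lit 589) (nat_lit 1580) (.f (nat_lit 556) (nat_lit 587) (nat_lit 1579) (.d (nat_lit 524) (nat_lit 523) (nat_lit 3595) (nat_lit 525) (nat_lit 3596)))))))))))) (.f (nat_lit 655) (nat_lit 623) (nat_lit 5647) (.f (nat_lit 656) (nat_lit 687) (nat_lit 5679) (.f (nat_lit 689) (nat_lit 657) (nat_lit 4656) (.f (nat_lit 688) (nat_lit 721) (nat_lit 4688) (.f (nat_lit 559) (nat_lit 591) (nat_lit 7727) (.f (nat_lit 557) (nat_lit 593) (nat_lit 557) (.f (nat_lit 588) (nat_lit 589) (nat_lit 1580) (.f (nat_lit 556) (nat_lit 587) (nat_lit 1579) (.d (nat_lit 524) (nat_lit 523) (nat_lit 3595) (nat_lit 525) (nat_lit 3596))))))))))))))) (.a (.p (nat_lit 624) (.a (.f (nat_lit 655) (nat_lit 623) (nat_lit 5647) (.f (nat_lit 656) (nat_lit 687) (nat_lit 5679) (.d (nat_lit 657) (nat_lit 625) (nat_lit 4624) (nat_lit 689) (nat_lit 4656)))) (.a s35182 (.a (.p (nat_lit 590) (.a (.p (nat_lit 591) (.a (.f (nat_lit 557) (nat_lit 593) (nat_lit 3629) (.d (nat_lit 589) (nat_lit 556) (nat_lit 3628) (nat_lit 625) (nat_lit 589))) (.a (.f (nat_lit 557) (nat_lit 593) (nat_lit 3629) (.d (nat_lit 556) (nat_lit 555) (nat_lit 555) (nat_lit 589) (nat_lit 3628))) (.a (.d (nat_lit 589) (nat_lit 561) (nat_lit 2605) (nat_lit 625) (nat_lit 589)) (.f (nat_lit 593) (nat_lit 557) (nat_lit 3629) (.f (nat_lit 562) (nat_lit 561) (nat_lit 2606) (.f (nat_lit 594) (nat_lit 563) (nat_lit 2607) (.d (nat_lit 626) (nat_lit 625) (nat_lit 590) (nat_lit 627) (nat_lit 591))))))))) (.a (.p (nat_lit 589) (.a (.f (nat_lit 591) (nat_lit 625) (nat_lit 589) (.d (nat_lit 557) (nat_lit 556) (nat_lit 3628) (nat_lit 593) (nat_lit 3629))) (.a (.f (nat_lit 623) (nat_lit 655) (nat_lit 5647) (.f (nat_lit 591) (nat_lit 588) (nat_lit 588) (.d (nat_lit 557) (nat_lit 556) (nat_lit 3628) (nat_lit 593) (nat_lit 3629)))) (.a (.f (nat_lit 591) (nat_lit 625) (nat_lit 589) (.d (nat_lit 623) (nat_lit 588) (nat_lit 588) (nat_lit 655) (nat_lit 5647))) (.f (nat_lit 623) (nat_lit 655) (nat_lit 5647) (.f (nat_lit 622) (nat_lit 625) (nat_lit 3661) (.d (nat_lit 588) (nat_lit 587) (nat_lit 587) (nat_lit 621) (nat_lit 3660)))))))) (.a s35213 (.a (.p (nat_lit 589) (.a (.d (nat_lit 591) (nat_lit 561) (nat_lit 2605) (nat_lit 625) (nat_lit 589)) (.a (.f (nat_lit 591) (nat_lit 625) (nat_lit 589) (.d (nat_lit 623) (nat_lit 588) (nat_lit 588) (nat_lit 655) (nat_lit 5647))) (.a (.f (nat_lit 591) (nat_lit 561) (nat_lit 2605) (.f (nat_lit 557) (nat_lit 556) (nat_lit 3628) (.f (nat_lit 621) (nat_lit 620) (nat_lit 1612) (.d (nat_lit 526) (nat_lit 494) (nat_lit 5613) (nat_lit 653) (nat_lit 6669))))) (.f (nat_lit 623) (nat_lit 655) (nat_lit 5647) (.f (nat_lit 622) (nat_lit 625) (nat_lit 3661) (.d (nat_lit 588) (nat_lit 587) (nat_lit 587) (nat_lit 621) (nat_lit 3660)))))))) (.a (.p (nat_lit 589) (.a (.d (nat_lit 591) (nat_lit 561) (nat_lit 2605) (nat_lit 625) (nat_lit 589)) (.a (.f (nat_lit 591) (nat_lit 625) (nat_lit 589) (.d (nat_lit 623) (nat_lit 588) (nat_lit 588) (nat_lit 655) (nat_lit 5647))) (.a (.f (nat_lit 591) (nat_lit 561) (nat_lit 2605) (.d (nat_lit 623) (nat_lit 588) (nat_lit 588) (nat_lit 655) (nat_lit 5647))) (.f (nat_lit 623) (nat_lit 655) (nat_lit 5647) (.f (nat_lit 622) (nat_lit 625) (nat_lit 3661) (.d (nat_lit 588) (nat_lit 587) (nat_lit 587) (nat_lit 621) (nat_lit 3660)))))))) (.a (.p (nat_lit 622) (.a (.f (nat_lit 623) (nat_lit 655) (nat_lit 5647) (.f (nat_lit 621) (nat_lit 593) (nat_lit 2637) (.d (nat_lit 653) (nat_lit 526) (nat_lit 5645) (nat_lit 652) (nat_lit 1644)))) (.a s35248 (.a s35261 (.f (nat_lit 655) (nat_lit 623) (nat_lit 5647) (.d (nat_lit 687) (nat_lit 654) (nat_lit 4654) (nat_lit 656) (nat_lit 5679))))))) (.p (nat_lit 593) (.a (.f (nat_lit 623) (nat_lit 655) (nat_lit 5647) (.f (nat_lit 622) (nat_lit 621) (nat_lit 2637) (.d (nat_lit 594) (nat_lit 595) (nat_lit 1615) (nat_lit 625) (nat_lit 2638)))) (.a (.f (nat_lit 591) (nat_lit 557) (nat_lit 3629) (.f (nat_lit 562) (nat_lit 561) (nat_lit 2606) (.f (nat_lit 594) (nat_lit 563) (nat_lit 2607) (.d (nat_lit 626) (nat_lit 625) (nat_lit 590) (nat_lit 627) (nat_lit 591))))) (.a (.f (nat_lit 591) (nat_lit 557) (nat_lit 3629) (.f (nat_lit 622) (nat_lit 621) (nat_lit 1613) (.f (nat_lit 594) (nat_lit 623) (nat_lit 1614) (.f (nat_lit 627) (nat_lit 626) (nat_lit 591) (.f (nat_lit 595) (nat_lit 628) (nat_lit 592) (.d (nat_lit 563) (nat_lit 562) (nat_lit 2607) (nat_lit 564) (nat_lit 2608))))))) (.f (nat_lit 591) (nat_lit 557) (nat_lit 3629) (.f (nat_lit 655) (nat_lit 623) (nat_lit 5647) (.f (nat_lit 656) (nat_lit 687) (nat_lit 5679) (.d (nat_lit 561) (nat_lit 562) (nat_lit 2606) (nat_lit 688) (nat_lit 6704)))))))))))))))) (.a (.p (nat_lit 590) (.a (.f (nat_lit 625) (nat_lit 657) (nat_lit 4624) (.f (nat_lit 591) (nat_lit 589) (nat_lit 589) (.d (nat_lit 626) (nat_lit 593) (nat_lit 590) (nat_lit 627) (nat_lit 3663)))) (.a (.p (nat_lit 591) (.a (.f (nat_lit 557) (nat_lit 593) (nat_lit 3629) (.d (nat_lit 589) (nat_lit 556) (nat_lit 3628) (nat_lit 625) (nat_lit 589))) (.a (.f (nat_lit 557) (nat_lit 593) (nat_lit 3629) (.d (nat_lit 556) (nat_lit 555) (nat_lit 555) (nat_lit 589) (nat_lit 3628))) (.a (.d (nat_lit 589) (nat_lit 561) (nat_lit 2605) (nat_lit 625) (nat_lit 589)) (.f (nat_lit 593) (nat_lit 557) (nat_lit 3629) (.f (nat_lit 562) (nat_lit 561) (nat_lit 2606) (.f (nat_lit 594) (nat_lit 563) (nat_lit 2607) (.d (nat_lit 626) (nat_lit 625) (nat_lit 590) (nat_lit 627) (nat_lit 591))))))))) (.a s35288 (.a (.f (nat_lit 625) (nat_lit 657) (nat_lit 4624) (.f (nat_lit 591) (nat_lit 589) (nat_lit 589) (.d (nat_lit 626) (nat_lit 623) (nat_lit 3662) (nat_lit 627) (nat_lit 3663)))) (.a s35334 s35337)))))) (.a (.p (nat_lit 590) (.a (.f (nat_lit 655) (nat_lit 623) (nat_lit 5647) (.f (nat_lit 656) (nat_lit 687) (nat_lit 5679) (.f (nat_lit 689) (nat_lit 657) (nat_lit 4656) (.f (nat_lit 688) (nat_lit 721) (nat_lit 4688) (.f (nat_lit 653) (nat_lit 654) (nat_lit 653) (.f (nat_lit 593) (nat_lit 561) (nat_lit 6704) (.f (nat_lit 591) (nat_lit 557) (nat_lit 3629) (.f (nat_lit 621) (nat_lit 622) (nat_lit 1613) (.d (nat_lit 589) (nat_lit 620) (nat_lit 1612) (nat_lit 685) (nat_lit 6701)))))))))) (.a (.p (nat_lit 622) (.a (.p (nat_lit 526) (.a (.f (nat_lit 621) (nat_lit 653) (nat_lit 5645) (.f (nat_lit 494) (nat_lit 589) (nat_lit 5613) (.d (nat_lit 493) (nat_lit 461) (nat_lit 7629) (nat_lit 525) (nat_lit 7661)))) (.a (.f (nat_lit 621) (nat_lit 653) (nat_lit 5645) (.f (nat_lit 494) (nat_lit 589) (nat_lit 5613) (.f (nat_lit 463) (nat_lit 495) (nat_lit 6606) (.f (nat_lit 462) (nat_lit 431) (nat_lit 6574) (.d (nat_lit 461) (nat_lit 429) (nat_lit 7597) (nat_lit 493) (nat_lit 7629)))))) (.a (.f (nat_lit 621) (nat_lit 653) (nat_lit 5645) (.f (nat_lit 591) (nat_lit 593) (nat_lit 1613) (.d (nat_lit 620) (nat_lit 589) (nat_lit 1612) (nat_lit 619) (nat_lit 2635)))) (.a (.f (nat_lit 525) (nat_lit 493) (nat_lit 7661) (.f (nat_lit 557) (nat_lit 654) (nat_lit 7693) (.f (nat_lit 591) (nat_lit 593) (nat_lit 3629) (.d (nat_lit 556) (nat_lit 555) (nat_lit 555) (nat_lit 589) (nat_lit 3628))))) (.f (nat_lit 525) (nat_lit 493) (nat_lit 7661) (.f (nat_lit 654) (nat_lit 557) (nat_lit 7693) (.d (nat_lit 653) (nat_lit 621) (nat_lit 5645) (nat_lit 685) (nat_lit 5677))))))))) (.a (.p (nat_lit 526) (.a (.f (nat_lit 621) (nat_lit 653) (nat_lit 5645) (.f (nat_lit 494) (nat_lit 589) (nat_lit 5613) (.d (nat_lit 493) (nat_lit 461) (nat_lit 7629) (nat_lit 525) (nat_lit 7661)))) (.a (.f (nat_lit 621) (nat_lit 653) (nat_lit 5645) (.f (nat_lit 591) (nat_lit 593) (nat_lit 1613) (.d (nat_lit 589) (nat_lit 494) (nat_lit 5613) (nat_lit 620) (nat_lit 1612)))) (.a (.f (nat_lit 621) (nat_lit 653) (nat_lit 5645) (.f (nat_lit 591) (nat_lit 593) (nat_lit 1613) (.d (nat_lit 620) (nat_lit 589) (nat_lit 1612) (nat_lit 619) (nat_lit 2635)))) (.a (.f (nat_lit 525) (nat_lit 493) (nat_lit 7661) (.f (nat_lit 557) (nat_lit 654) (nat_lit 7693) (.f (nat_lit 591) (nat_lit 593) (nat_lit 3629) (.d (nat_lit 556) (nat_lit 555) (nat_lit 555) (nat_lit 589) (nat_lit 3628))))) (.f (nat_lit 525) (nat_lit 493) (nat_lit 7661) (.f (nat_lit 654) (nat_lit 557) (nat_lit 7693) (.d (nat_lit 653) (nat_lit 621) (nat_lit 5645) (nat_lit 685) (nat_lit 5677))))))))) (.a s35248 (.a (.p (nat_lit 656) (.a (.f (nat_lit 687) (nat_lit 655) (nat_lit 5679) (.f (nat_lit 688) (nat_lit 719) (nat_lit 5711) (.f (nat_lit 721) (nat_lit 689) (nat_lit 4688) (.f (nat_lit 720) (nat_lit 753) (nat_lit 4720) (.f (nat_lit 685) (nat_lit 686) (nat_lit 685) (.f (nat_lit 653) (nat_lit 654) (nat_lit 5677) (.d (nat_lit 621) (nat_lit 526) (nat_lit 5645) (nat_lit 589) (nat_lit 6701)))))))) (.a (.f (nat_lit 689) (nat_lit 657) (nat_lit 4656) (.f (nat_lit 688) (nat_lit 721) (nat_lit 4688) (.f (nat_lit 593) (nat_lit 561) (nat_lit 6704) (.d (nat_lit 591) (nat_lit 557) (nat_lit 3629) (nat_lit 621) (nat_lit 1613))))) (.a (.f (nat_lit 687) (nat_lit 655) (nat_lit 5679) (.f (nat_lit 688) (nat_lit 719) (nat_lit 5711) (.f (nat_lit 593) (nat_lit 561) (nat_lit 6704) (.d (nat_lit 591) (nat_lit 557) (nat_lit 3629) (nat_lit 621) (nat_lit 1613))))) (.a (.f (nat_lit 655) (nat_lit 687) (nat_lit 5679) (.f (nat_lit 657) (nat_lit 689) (nat_lit 4656) (.f (nat_lit 654) (nat_lit 621) (nat_lit 3693) (.d (nat_lit 685) (nat_lit 653) (nat_lit 5677) (nat_lit 686) (nat_lit 1677))))) (.f (nat_lit 687) (nat_lit 655) (nat_lit 5679) (.f (nat_lit 688) (nat_lit 719) (nat_lit 5711) (.d (nat_lit 689) (nat_lit 657) (nat_lit 4656) (nat_lit 721) (nat_lit 4688))))))))) (.a (.p (nat_lit 656) (.a (.f (nat_lit 687) (nat_lit 655) (nat_lit 5679) (.f (nat_lit 688) (nat_lit 719) (nat_lit 5711) (.f (nat_lit 721) (nat_lit 689) (nat_lit 4688) (.f (nat_lit 720) (nat_lit 753) (nat_lit 4720) (.f (nat_lit 685) (nat_lit 686) (nat_lit 685) (.f (nat_lit 653) (nat_lit 654) (nat_lit 5677) (.d (nat_lit 621) (nat_lit 526) (nat_lit 5645) (nat_lit 589) (nat_lit 6701)))))))) (.a (.f (nat_lit 689) (nat_lit 657) (nat_lit 4656) (.f (nat_lit 688) (nat_lit 721) (nat_lit 4688) (.f (nat_lit 719) (nat_lit 687) (nat_lit 5711) (.f (nat_lit 720) (nat_lit 751) (nat_lit 5743) (.f (nat_lit 717) (nat_lit 718) (nat_lit 2733) (.f (nat_lit 593) (nat_lit 561) (nat_lit 6704) (.f (nat_lit 621) (nat_lit 591) (nat_lit 1613) (.d (nat_lit 653) (nat_lit 526) (nat_lit 5645) (nat_lit 685) (nat_lit 6733))))))))) (.a (.f (nat_lit 687) (nat_lit 655) (nat_lit 5679) (.f (nat_lit 688) (nat_lit 719) (nat_lit 5711) (.f (nat_lit 593) (nat_lit 561) (nat_lit 6704) (.f (nat_lit 621) (nat_lit 591) (nat_lit 1613) (.f (nat_lit 653) (nat_lit 526) (nat_lit 5645) (.d (nat_lit 685) (nat_lit 589) (nat_lit 6701) (nat_lit 654) (nat_lit 5677))))))) (.a (.f (nat_lit 689) (nat_lit 657) (nat_lit 4656) (.f (nat_lit 688) (nat_lit 721) (nat_lit 4688) (.f (nat_lit 593) (nat_lit 561) (nat_lit 6704) (.f (nat_lit 621) (nat_lit 591) (nat_lit 1613) (.f (nat_lit 653) (nat_lit 526) (nat_lit 5645) (.d (nat_lit 654) (nat_lit 655) (nat_lit 653) (nat_lit 685) (nat_lit 5677))))))) (.a (.f (nat_lit 655) (nat_lit 687) (nat_lit 5679) (.f (nat_lit 657) (nat_lit 689) (nat_lit 4656) (.f (nat_lit 654) (nat_lit 621) (nat_lit 3693) (.d (nat_lit 685) (nat_lit 653) (nat_lit 5677) (nat_lit 686) (nat_lit 1677))))) (.f (nat_lit 687) (nat_lit 655) (nat_lit 5679) (.f (nat_lit 688) (nat_lit 719) (nat_lit 5711) (.d (nat_lit 689) (nat_lit 657) (nat_lit 4656) (nat_lit 721) (nat_lit 4688)))))))))) (.a (.p (nat_lit 557) (.a (.f (nat_lit 591) (nat_lit 593) (nat_lit 3629) (.d (nat_lit 556) (nat_lit 555) (nat_lit 555) (nat_lit 589) (nat_lit 3628))) (.f (nat_lit 654) (nat_lit 525) (nat_lit 7693) (.f (nat_lit 687) (nat_lit 655) (nat_lit 4654) (.f (nat_lit 686) (nat_lit 719) (nat_lit 4686) (.d (nat_lit 685) (nat_lit 653) (nat_lit 5677) (nat_lit 717) (nat_lit 5709))))))) (.a (.p (nat_lit 656) (.a (.f (nat_lit 687) (nat_lit 655) (nat_lit 5679) (.f (nat_lit 688) (nat_lit 719) (nat_lit 5711) (.d (nat_lit 689) (nat_lit 657) (nat_lit 4656) (nat_lit 721) (nat_lit 4688)))) (.a (.f (nat_lit 687) (nat_lit 655) (nat_lit 5679) (.f (nat_lit 688) (nat_lit 719) (nat_lit 5711) (.f (nat_lit 593) (nat_lit 561) (nat_lit 6704) (.d (nat_lit 591) (nat_lit 557) (nat_lit 3629) (nat_lit 621) (nat_lit 1613))))) (.a (.f (nat_lit 689) (nat_lit 657) (nat_lit 4656) (.f (nat_lit 688) (nat_lit 721) (nat_lit 4688) (.f (nat_lit 593) (nat_lit 561) (nat_lit 6704) (.d (nat_lit 591) (nat_lit 557) (nat_lit 3629) (nat_lit 621) (nat_lit 1613))))) (.f (nat_lit 655) (nat_lit 687) (nat_lit 5679) (.f (nat_lit 657) (nat_lit 689) (nat_lit 4656) (.f (nat_lit 654) (nat_lit 621) (nat_lit 3693) (.d (nat_lit 685) (nat_lit 653) (nat_lit 5677) (nat_lit 686) (nat_lit 1677))))))))) (.a (.p (nat_lit 591) (.a (.d (nat_lit 593) (nat_lit 557) (nat_lit 3629) (nat_lit 621) (nat_lit 1613)) (.a (.f (nat_lit 589) (nat_lit 561) (nat_lit 2605) (.f (nat_lit 621) (nat_lit 620) (nat_lit 1612) (.d (nat_lit 526) (nat_lit 494) (nat_lit 5613) (nat_lit 653) (nat_lit 5645)))) (.f (nat_lit 557) (nat_lit 593) (nat_lit 3629) (.d (nat_lit 589) (nat_lit 556) (nat_lit 3628) (nat_lit 561) (nat_lit 2605)))))) (.p (nat_lit 656) (.a (.f (nat_lit 687) (nat_lit 655) (nat_lit 5679) (.f (nat_lit 688) (nat_lit 719) (nat_lit 5711) (.d (nat_lit 689) (nat_lit 657) (nat_lit 4656) (nat_lit 721) (nat_lit 4688)))) (.a (.f (nat_lit 687) (nat_lit 655) (nat_lit 5679) (.f (nat_lit 688) (nat_lit 719) (nat_lit 5711) (.f (nat_lit 593) (nat_lit 561) (nat_lit 6704) (.d (nat_lit 591) (nat_lit 557) (nat_lit 3629) (nat_lit 621) (nat_lit 1613))))) (.a (.f (nat_lit 689) (nat_lit 657) (nat_lit 4656) (.f (nat_lit 688) (nat_lit 721) (nat_lit 4688) (.f (nat_lit 593) (nat_lit 561) (nat_lit 6704) (.d (nat_lit 591) (nat_lit 557) (nat_lit 3629) (nat_lit 621) (nat_lit 1613))))) (.f (nat_lit 655) (nat_lit 687) (nat_lit 5679) (.f (nat_lit 657) (nat_lit 689) (nat_lit 4656) (.f (nat_lit 654) (nat_lit 621) (nat_lit 3693) (.f (nat_lit 557) (nat_lit 525) (nat_lit 7693) (.d (nat_lit 686) (nat_lit 589) (nat_lit 7725) (nat_lit 685) (nat_lit 1677))))))))))))))))))) (.a (.p (nat_lit 656) (.a (.f (nat_lit 687) (nat_lit 655) (nat_lit 5679) (.f (nat_lit 688) (nat_lit 719) (nat_lit 5711) (.d (nat_lit 689) (nat_lit 657) (nat_lit 4656) (nat_lit 721) (nat_lit 4688)))) (.a (.d (nat_lit 655) (nat_lit 623) (nat_lit 5647) (nat_lit 687) (nat_lit 5679)) (.a (.f (nat_lit 689) (nat_lit 657) (nat_lit 4656) (.f (nat_lit 688) (nat_lit 721) (nat_lit 4688) (.f (nat_lit 719) (nat_lit 687) (nat_lit 5711) (.f (nat_lit 720) (nat_lit 751) (nat_lit 5743) (.f (nat_lit 591) (nat_lit 623) (nat_lit 7759) (.f (nat_lit 557) (nat_lit 593) (nat_lit 3629) (.d (nat_lit 556) (nat_lit 555) (nat_lit 555) (nat_lit 589) (nat_lit 3628)))))))) (.f (nat_lit 623) (nat_lit 655) (nat_lit 5647) (.f (nat_lit 689) (nat_lit 657) (nat_lit 4656) (.f (nat_lit 688) (nat_lit 721) (nat_lit 4688) (.f (nat_lit 591) (nat_lit 720) (nat_lit 7759) (.f (nat_lit 593) (nat_lit 557) (nat_lit 3629) (.d (nat_lit 622) (nat_lit 594) (nat_lit 1614) (nat_lit 621) (nat_lit 2637))))))))))) (.a s35213 (.a s35288 (.a (.p (nat_lit 656) (.a (.f (nat_lit 687) (nat_lit 655) (nat_lit 5679) (.f (nat_lit 688) (nat_lit 719) (nat_lit 5711) (.d (nat_lit 689) (nat_lit 657) (nat_lit 4656) (nat_lit 721) (nat_lit 4688)))) (.a (.d (nat_lit 655) (nat_lit 623) (nat_lit 5647) (nat_lit 687) (nat_lit 5679)) (.a (.f (nat_lit 689) (nat_lit 657) (nat_lit 4656) (.f (nat_lit 688) (nat_lit 721) (nat_lit 4688) (.f (nat_lit 719) (nat_lit 687) (nat_lit 5711) (.f (nat_lit 720) (nat_lit 751) (nat_lit 5743) (.f (nat_lit 591) (nat_lit 623) (nat_lit 7759) (.f (nat_lit 589) (nat_lit 561) (nat_lit 2605) (.f (nat_lit 557) (nat_lit 556) (nat_lit 3628) (.f (nat_lit 621) (nat_lit 620) (nat_lit 1612) (.d (nat_lit 526) (nat_lit 494) (nat_lit 5613) (nat_lit 653) (nat_lit 6669)))))))))) (.f (nat_lit 623) (nat_lit 655) (nat_lit 5647) (.f (nat_lit 689) (nat_lit 657) (nat_lit 4656) (.f (nat_lit 688) (nat_lit 721) (nat_lit 4688) (.f (nat_lit 591) (nat_lit 720) (nat_lit 7759) (.d (nat_lit 589) (nat_lit 561) (nat_lit 2605) (nat_lit 588) (nat_lit 588)))))))))) (.a (.f (nat_lit 655) (nat_lit 623) (nat_lit 5647) (.f (nat_lit 656) (nat_lit 687) (nat_lit 5679) (.f (nat_lit 689) (nat_lit 657) (nat_lit 4656) (.f (nat_lit 688) (nat_lit 721) (nat_lit 4688) (.f (nat_lit 653) (nat_lit 654) (nat_lit 653) (.f (nat_lit 561) (nat_lit 593) (nat_lit 6704) (.f (nat_lit 589) (nat_lit 591) (nat_lit 2605) (.f (nat_lit 621) (nat_lit 685) (nat_lit 6701) (.d (nat_lit 526) (nat_lit 494) (nat_lit 5613) (nat_lit 622) (nat_lit 5645)))))))))) (.a s35468 (.a (.f (nat_lit 655) (nat_lit 623) (nat_lit 5647) (.f (nat_lit 656) (nat_lit 687) (nat_lit 5679) (.f (nat_lit 689) (nat_lit 657) (nat_lit 4656) (.f (nat_lit 688) (nat_lit 721) (nat_lit 4688) (.f (nat_lit 593) (nat_lit 561) (nat_lit 6704) (.f (nat_lit 557) (nat_lit 591) (nat_lit 3629) (.f (nat_lit 654) (nat_lit 653) (nat_lit 653) (.f (nat_lit 622) (nat_lit 525) (nat_lit 7693) (.f (nat_lit 686) (nat_lit 589) (nat_lit 7725) (.f (nat_lit 717) (nat_lit 685) (nat_lit 5709) (.f (nat_lit 718) (nat_lit 749) (nat_lit 5741) (.d (nat_lit 719) (nat_lit 720) (nat_lit 2733) (nat_lit 751) (nat_lit 4718))))))))))))) (.p (nat_lit 656) (.a (.f (nat_lit 687) (nat_lit 655) (nat_lit 5679) (.f (nat_lit 688) (nat_lit 719) (nat_lit 5711) (.d (nat_lit 689) (nat_lit 657) (nat_lit 4656) (nat_lit 721) (nat_lit 4688)))) (.a (.d (nat_lit 655) (nat_lit 623) (nat_lit 5647) (nat_lit 687) (nat_lit 5679)) (.a (.f (nat_lit 689) (nat_lit 657) (nat_lit 4656) (.f (nat_lit 688) (nat_lit 721) (nat_lit 4688) (.f (nat_lit 719) (nat_lit 687) (nat_lit 5711) (.f (nat_lit 720) (nat_lit 751) (nat_lit 5743) (.f (nat_lit 591) (nat_lit 623) (nat_lit 7759) (.d (nat_lit 593) (nat_lit 557) (nat_lit 3629) (nat_lit 561) (nat_lit 6704))))))) (.f (nat_lit 623) (nat_lit 655) (nat_lit 5647) (.f (nat_lit 689) (nat_lit 657) (nat_lit 4656) (.f (nat_lit 688) (nat_lit 721) (nat_lit 4688) (.f (nat_lit 591) (nat_lit 720) (nat_lit 7759) (.f (nat_lit 593) (nat_lit 557) (nat_lit 3629) (.d (nat_lit 622) (nat_lit 594) (nat_lit 1614) (nat_lit 621) (nat_lit 2637))))))))))))))))))))) (.p (nat_lit 590) (.a (.f (nat_lit 625) (nat_lit 657) (nat_lit 4624) (.f (nat_lit 591) (nat_lit 589) (nat_lit 589) (.d (nat_lit 626) (nat_lit 593) (nat_lit 590) (nat_lit 627) (nat_lit 3663)))) (.a (.p (nat_lit 591) (.a (.f (nat_lit 557) (nat_lit 593) (nat_lit 3629) (.d (nat_lit 589) (nat_lit 556) (nat_lit 3628) (nat_lit 625) (nat_lit 589))) (.a (.f (nat_lit 557) (nat_lit 593) (nat_lit 3629) (.d (nat_lit 556) (nat_lit 555) (nat_lit 555) (nat_lit 589) (nat_lit 3628))) (.a (.d (nat_lit 589) (nat_lit 561) (nat_lit 2605) (nat_lit 625) (nat_lit 589)) (.f (nat_lit 593) (nat_lit 557) (nat_lit 3629) (.f (nat_lit 562) (nat_lit 561) (nat_lit 2606) (.f (nat_lit 594) (nat_lit 563) (nat_lit 2607) (.d (nat_lit 626) (nat_lit 625) (nat_lit 590) (nat_lit 627) (nat_lit 591))))))))) (.a s35213 (.a (.f (nat_lit 623) (nat_lit 655) (nat_lit 5647) (.f (nat_lit 625) (nat_lit 657) (nat_lit 4624) (.d (nat_lit 591) (nat_lit 589) (nat_lit 589) (nat_lit 626) (nat_lit 3662)))) (.a (.f (nat_lit 623) (nat_lit 655) (nat_lit 5647) (.f (nat_lit 625) (nat_lit 657) (nat_lit 4624) (.f (nat_lit 622) (nat_lit 589) (nat_lit 3661) (.d (nat_lit 593) (nat_lit 594) (nat_lit 2638) (nat_lit 621) (nat_lit 2637))))) s35337)))))))))))) (.a (.p (nat_lit 590) (.a s34871 (.a (.p (nat_lit 526) (.a s35500 (.a s35511 (.a s35015 (.a s35515 (.a s35521 (.a (.p (nat_lit 622) (.a (.f (nat_lit 621) (nat_lit 653) (nat_lit 5645) (.f (nat_lit 591) (nat_lit 593) (nat_lit 1613) (.d (nat_lit 620) (nat_lit 589) (nat_lit 1612) (nat_lit 619) (nat_lit 2635)))) (.a (.f (nat_lit 525) (nat_lit 493) (nat_lit 7661) (.f (nat_lit 654) (nat_lit 557) (nat_lit 7693) (.d (nat_lit 653) (nat_lit 621) (nat_lit 5645) (nat_lit 685) (nat_lit 5677)))) (.f (nat_lit 525) (nat_lit 493) (nat_lit 7661) (.f (nat_lit 557) (nat_lit 654) (nat_lit 7693) (.d (nat_lit 559) (nat_lit 524) (nat_lit 3596) (nat_lit 593) (nat_lit 557))))))) (.a s35526 (.a s35531 (.a s35535 s35540)))))))))) (.a s35546 (.a s35064 (.a (.p (nat_lit 622) (.a (.p (nat_lit 621) (.a (.f (nat_lit 591) (nat_lit 593) (nat_lit 1613) (.d (nat_lit 620) (nat_lit 589) (nat_lit 1612) (nat_lit 619) (nat_lit 2635))) (.a (.f (nat_lit 653) (nat_lit 526) (nat_lit 5645) (.d (nat_lit 685) (nat_lit 589) (nat_lit 6701) (nat_lit 654) (nat_lit 5677))) (.f (nat_lit 653) (nat_lit 526) (nat_lit 5645) (.d (nat_lit 685) (nat_lit 654) (nat_lit 5677) (nat_lit 717) (nat_lit 6733)))))) (.a (.p (nat_lit 526) (.a (.f (nat_lit 621) (nat_lit 653) (nat_lit 5645) (.f (nat_lit 494) (nat_lit 589) (nat_lit 5613) (.d (nat_lit 493) (nat_lit 461) (nat_lit 7629) (nat_lit 525) (nat_lit 7661)))) (.a (.f (nat_lit 621) (nat_lit 653) (nat_lit 5645) (.f (nat_lit 494) (nat_lit 589) (nat_lit 5613) (.f (nat_lit 463) (nat_lit 495) (nat_lit 6606) (.f (nat_lit 462) (nat_lit 431) (nat_lit 6574) (.d (nat_lit 461) (nat_lit 429) (nat_lit 7597) (nat_lit 493) (nat_lit 7629)))))) (.a (.f (nat_lit 653) (nat_lit 621) (nat_lit 5645) (.f (nat_lit 654) (nat_lit 685) (nat_lit 5677) (.f (nat_lit 687) (nat_lit 655) (nat_lit 4654) (.f (nat_lit 686) (nat_lit 719) (nat_lit 4686) (.f (nat_lit 559) (nat_lit 591) (nat_lit 6702) (.d (nat_lit 525) (nat_lit 493) (nat_lit 7661) (nat_lit 561) (nat_lit 3597))))))) (.a (.f (nat_lit 621) (nat_lit 653) (nat_lit 5645) (.f (nat_lit 589) (nat_lit 494) (nat_lit 5613) (.d (nat_lit 591) (nat_lit 561) (nat_lit 2605) (nat_lit 620) (nat_lit 1612)))) (.f (nat_lit 623) (nat_lit 655) (nat_lit 4622) (.f (nat_lit 591) (nat_lit 494) (nat_lit 4590) (.f (nat_lit 589) (nat_lit 561) (nat_lit 2605) (.d (nat_lit 588) (nat_lit 559) (nat_lit 2604) (nat_lit 587) (nat_lit 587)))))))))) (.a (.p (nat_lit 655) (.a (.f (nat_lit 654) (nat_lit 687) (nat_lit 4654) (.f (nat_lit 653) (nat_lit 685) (nat_lit 5677) (.f (nat_lit 621) (nat_lit 526) (nat_lit 5645) (.d (nat_lit 620) (nat_lit 619) (nat_lit 619) (nat_lit 656) (nat_lit 3692))))) (.a (.d (nat_lit 623) (nat_lit 526) (nat_lit 4622) (nat_lit 624) (nat_lit 5647)) (.f (nat_lit 687) (nat_lit 654) (nat_lit 4654) (.d (nat_lit 624) (nat_lit 623) (nat_lit 5647) (nat_lit 656) (nat_lit 5679)))))) (.a s35584 (.a s35594 (.a s35595 (.p (nat_lit 591) (.a (.f (nat_lit 621) (nat_lit 593) (nat_lit 1613) (.d (nat_lit 620) (nat_lit 589) (nat_lit 1612) (nat_lit 619) (nat_lit 2635))) (.a (.f (nat_lit 589) (nat_lit 561) (nat_lit 2605) (.f (nat_lit 588) (nat_lit 559) (nat_lit 2604) (.d (nat_lit 623) (nat_lit 587) (nat_lit 587) (nat_lit 624) (nat_lit 588)))) (.f (nat_lit 593) (nat_lit 621) (nat_lit 1613) (.f (nat_lit 594) (nat_lit 559) (nat_lit 3630) (.d (nat_lit 626) (nat_lit 625) (nat_lit 590) (nat_lit 627) (nat_lit 591)))))))))))))) (.a (.p (nat_lit 622) (.a s34941 (.a (.p (nat_lit 526) (.a (.f (nat_lit 525) (nat_lit 493) (nat_lit 7661) (.f (nat_lit 557) (nat_lit 654) (nat_lit 7693) (.d (nat_lit 559) (nat_lit 524) (nat_lit 3596) (nat_lit 593) (nat_lit 557)))) (.a (.f (nat_lit 621) (nat_lit 653) (nat_lit 5645) (.f (nat_lit 494) (nat_lit 589) (nat_lit 5613) (.d (nat_lit 493) (nat_lit 461) (nat_lit 7629) (nat_lit 525) (nat_lit 7661)))) (.f (nat_lit 621) (nat_lit 653) (nat_lit 5645) (.f (nat_lit 589) (nat_lit 494) (nat_lit 5613) (.f (nat_lit 559) (nat_lit 561) (nat_lit 1581) (.d (nat_lit 557) (nat_lit 588) (nat_lit 1580) (nat_lit 593) (nat_lit 557)))))))) (.a s35625 (.a (.p (nat_lit 655) (.a (.f (nat_lit 654) (nat_lit 687) (nat_lit 4654) (.f (nat_lit 653) (nat_lit 685) (nat_lit 5677) (.f (nat_lit 621) (nat_lit 526) (nat_lit 5645) (.d (nat_lit 620) (nat_lit 619) (nat_lit 619) (nat_lit 656) (nat_lit 3692))))) (.a (.d (nat_lit 623) (nat_lit 526) (nat_lit 4622) (nat_lit 624) (nat_lit 5647)) (.f (nat_lit 687) (nat_lit 654) (nat_lit 4654) (.d (nat_lit 624) (nat_lit 623) (nat_lit 5647) (nat_lit 656) (nat_lit 5679)))))) (.a (.p (nat_lit 557) (.a (.f (nat_lit 525) (nat_lit 654) (nat_lit 7693) (.d (nat_lit 493) (nat_lit 461) (nat_lit 4557) (nat_lit 526) (nat_lit 7661))) (.f (nat_lit 559) (nat_lit 593) (nat_lit 557) (.d (nat_lit 589) (nat_lit 561) (nat_lit 1581) (nat_lit 588) (nat_lit 1580))))) (.a (.p (nat_lit 557) (.a (.f (nat_lit 654) (nat_lit 525) (nat_lit 7693) (.f (nat_lit 686) (nat_lit 589) (nat_lit 7725) (.d (nat_lit 685) (nat_lit 653) (nat_lit 5677) (nat_lit 717) (nat_lit 5709)))) (.a (.f (nat_lit 559) (nat_lit 593) (nat_lit 557) (.d (nat_lit 589) (nat_lit 561) (nat_lit 1581) (nat_lit 588) (nat_lit 1580))) (.f (nat_lit 654) (nat_lit 525) (nat_lit 7693) (.f (nat_lit 655) (nat_lit 687) (nat_lit 4654) (.f (nat_lit 653) (nat_lit 685) (nat_lit 5677) (.f (nat_lit 624) (nat_lit 623) (nat_lit 5647) (.f (nat_lit 656) (nat_lit 625) (nat_lit 2669) (.f (nat_lit 688) (nat_lit 689) (nat_lit 653) (.d (nat_lit 593) (nat_lit 559) (nat_lit 557) (nat_lit 561) (nat_lit 6704))))))))))) s35640))))))) (.p (nat_lit 526) (.a s35037 (.a s35540 (.a (.p (nat_lit 494) (.a (.f (nat_lit 493) (nat_lit 461) (nat_lit 7629) (.f (nat_lit 525) (nat_lit 622) (nat_lit 7661) (.f (nat_lit 463) (nat_lit 495) (nat_lit 6606) (.f (nat_lit 462) (nat_lit 431) (nat_lit 6574) (.d (nat_lit 430) (nat_lit 398) (nat_lit 5517) (nat_lit 557) (nat_lit 5549)))))) (.a (.f (nat_lit 591) (nat_lit 623) (nat_lit 4590) (.f (nat_lit 593) (nat_lit 557) (nat_lit 3629) (.f (nat_lit 622) (nat_lit 621) (nat_lit 1613) (.d (nat_lit 493) (nat_lit 461) (nat_lit 7629) (nat_lit 525) (nat_lit 7661))))) (.a (.f (nat_lit 461) (nat_lit 493) (nat_lit 7629) (.f (nat_lit 462) (nat_lit 429) (nat_lit 7597) (.d (nat_lit 463) (nat_lit 431) (nat_lit 6574) (nat_lit 495) (nat_lit 6606)))) (.f (nat_lit 591) (nat_lit 623) (nat_lit 4590) (.f (nat_lit 593) (nat_lit 557) (nat_lit 3629) (.f (nat_lit 562) (nat_lit 561) (nat_lit 2606) (.f (nat_lit 594) (nat_lit 563) (nat_lit 2607) (.d (nat_lit 626) (nat_lit 625) (nat_lit 590) (nat_lit 627) (nat_lit 591)))))))))) (.a (.p (nat_lit 494) (.a (.f (nat_lit 461) (nat_lit 493) (nat_lit 7629) (.f (nat_lit 462) (nat_lit 429) (nat_lit 7597) (.d (nat_lit 463) (nat_lit 431) (nat_lit 6574) (nat_lit 495) (nat_lit 6606)))) (.a (.f (nat_lit 591) (nat_lit 623) (nat_lit 4590) (.f (nat_lit 593) (nat_lit 557) (nat_lit 3629) (.d (nat_lit 559) (nat_lit 462) (nat_lit 4558) (nat_lit 594) (nat_lit 3630)))) (.f (nat_lit 591) (nat_lit 623) (nat_lit 4590) (.f (nat_lit 593) (nat_lit 557) (nat_lit 3629) (.f (nat_lit 594) (nat_lit 559) (nat_lit 3630) (.d (nat_lit 626) (nat_lit 625) (nat_lit 590) (nat_lit 627) (nat_lit 591)))))))) (.a (.p (nat_lit 494) (.a (.f (nat_lit 461) (nat_lit 493) (nat_lit 7629) (.f (nat_lit 462) (nat_lit 429) (nat_lit 7597) (.d (nat_lit 463) (nat_lit 431) (nat_lit 6574) (nat_lit 495) (nat_lit 6606)))) (.a (.f (nat_lit 591) (nat_lit 623) (nat_lit 4590) (.f (nat_lit 559) (nat_lit 462) (nat_lit 4558) (.d (nat_lit 561) (nat_lit 525) (nat_lit 3597) (nat_lit 562) (nat_lit 1582)))) (.f (nat_lit 591) (nat_lit 623) (nat_lit 4590) (.f (nat_lit 493) (nat_lit 461) (nat_lit 7629) (.f (nat_lit 622) (nat_lit 525) (nat_lit 7661) (.d (nat_lit 621) (nat_lit 593) (nat_lit 1613) (nat_lit 653) (nat_lit 5645)))))))) (.a (.p (nat_lit 525) (.a (.f (nat_lit 493) (nat_lit 622) (nat_lit 7661) (.d (nat_lit 461) (nat_lit 429) (nat_lit 4525) (nat_lit 494) (nat_lit 7629))) (.a (.f (nat_lit 622) (nat_lit 493) (nat_lit 7661) (.f (nat_lit 654) (nat_lit 557) (nat_lit 7693) (.d (nat_lit 653) (nat_lit 621) (nat_lit 5645) (nat_lit 685) (nat_lit 5677)))) (.f (nat_lit 559) (nat_lit 561) (nat_lit 3597) (.d (nat_lit 524) (nat_lit 523) (nat_lit 523) (nat_lit 557) (nat_lit 3596)))))) (.p (nat_lit 622) (.a (.f (nat_lit 655) (nat_lit 623) (nat_lit 4622) (.f (nat_lit 654) (nat_lit 687) (nat_lit 4654) (.d (nat_lit 653) (nat_lit 621) (nat_lit 5645) (nat_lit 685) (nat_lit 5677)))) (.a (.f (nat_lit 621) (nat_lit 653) (nat_lit 5645) (.f (nat_lit 593) (nat_lit 591) (nat_lit 1613) (.f (nat_lit 559) (nat_lit 557) (nat_lit 557) (.d (nat_lit 561) (nat_lit 525) (nat_lit 3597) (nat_lit 594) (nat_lit 558))))) (.f (nat_lit 623) (nat_lit 655) (nat_lit 4622) (.f (nat_lit 591) (nat_lit 494) (nat_lit 4590) (.d (nat_lit 593) (nat_lit 557) (nat_lit 3629) (nat_lit 594) (nat_lit 1614))))))))))))))))))))) (.a (.p (nat_lit 559) (.a (.f (nat_lit 593) (nat_lit 557) (nat_lit 557) (.d (nat_lit 594) (nat_lit 561) (nat_lit 558) (nat_lit 591) (nat_lit 3630))) (.a (.f (nat_lit 557) (nat_lit 593) (nat_lit 557) (.f (nat_lit 556) (nat_lit 591) (nat_lit 556) (.d (nat_lit 588) (nat_lit 587) (nat_lit 1579) (nat_lit 589) (nat_lit 1580)))) (.a (.p (nat_lit 525) (.a (.f (nat_lit 557) (nat_lit 524) (nat_lit 3596) (.f (nat_lit 589) (nat_lit 588) (nat_lit 1580) (.d (nat_lit 561) (nat_lit 526) (nat_lit 3597) (nat_lit 590) (nat_lit 1581)))) (.a (.f (nat_lit 557) (nat_lit 524) (nat_lit 3596) (.f (nat_lit 556) (nat_lit 591) (nat_lit 556) (.d (nat_lit 588) (nat_lit 587) (nat_lit 1579) (nat_lit 589) (nat_lit 1580)))) (.a (.f (nat_lit 561) (nat_lit 526) (nat_lit 3597) (.f (nat_lit 590) (nat_lit 589) (nat_lit 1581) (.f (nat_lit 562) (nat_lit 591) (nat_lit 1582) (.f (nat_lit 595) (nat_lit 594) (nat_lit 559) (.f (nat_lit 563) (nat_lit 596) (nat_lit 560) (.d (nat_lit 531) (nat_lit 530) (nat_lit 2575) (nat_lit 532) (nat_lit 2576))))))) (.f (nat_lit 557) (nat_lit 524) (nat_lit 3596) (.f (nat_lit 556) (nat_lit 591) (nat_lit 556) (.f (nat_lit 526) (nat_lit 561) (nat_lit 3597) (.f (nat_lit 555) (nat_lit 554) (nat_lit 2570) (.d (nat_lit 587) (nat_lit 586) (nat_lit 1578) (nat_lit 588) (nat_lit 1579)))))))))) (.a (.p (nat_lit 561) (.a (.f (nat_lit 590) (nat_lit 589) (nat_lit 1581) (.f (nat_lit 562) (nat_lit 591) (nat_lit 1582) (.f (nat_lit 531) (nat_lit 530) (nat_lit 2575) (.f (nat_lit 563) (nat_lit 532) (nat_lit 2576) (.d (nat_lit 595) (nat_lit 594) (nat_lit 559) (nat_lit 596) (nat_lit 560)))))) (.a (.f (nat_lit 593) (nat_lit 594) (nat_lit 558) (.f (nat_lit 590) (nat_lit 589) (nat_lit 1581) (.f (nat_lit 591) (nat_lit 562) (nat_lit 1582) (.d (nat_lit 625) (nat_lit 626) (nat_lit 590) (nat_lit 657) (nat_lit 7696))))) (.a (.f (nat_lit 590) (nat_lit 589) (nat_lit 1581) (.f (nat_lit 562) (nat_lit 591) (nat_lit 1582) (.f (nat_lit 531) (nat_lit 530) (nat_lit 2575) (.f (nat_lit 563) (nat_lit 532) (nat_lit 2576) (.f (nat_lit 564) (nat_lit 593) (nat_lit 1584) (.d (nat_lit 596) (nat_lit 595) (nat_lit 560) (nat_lit 597) (nat_lit 561))))))) (.a (.p (nat_lit 562) (.a (.d (nat_lit 594) (nat_lit 593) (nat_lit 558) (nat_lit 595) (nat_lit 559)) (.a (.f (nat_lit 531) (nat_lit 530) (nat_lit 2575) (.f (nat_lit 563) (nat_lit 532) (nat_lit 2576) (.d (nat_lit 595) (nat_lit 594) (nat_lit 559) (nat_lit 596) (nat_lit 560)))) (.a (.f (nat_lit 593) (nat_lit 594) (nat_lit 558) (.f (nat_lit 563) (nat_lit 564) (nat_lit 1584) (.d (nat_lit 531) (nat_lit 530) (nat_lit 2575) (nat_lit 532) (nat_lit 2576)))) (.f (nat_lit 531) (nat_lit 530) (nat_lit 2575) (.f (nat_lit 563) (nat_lit 532) (nat_lit 2576) (.f (nat_lit 564) (nat_lit 593) (nat_lit 1584) (.d (nat_lit 596) (nat_lit 595) (nat_lit 560) (nat_lit 597) (nat_lit 561))))))))) (.f (nat_lit 593) (nat_lit 594) (nat_lit 558) (.f (nat_lit 625) (nat_lit 657) (nat_lit 7696) (.f (nat_lit 590) (nat_lit 589) (nat_lit 1581) (.f (nat_lit 591) (nat_lit 626) (nat_lit 590) (.f (nat_lit 526) (nat_lit 525) (nat_lit 3597) (.d (nat_lit 494) (nat_lit 462) (nat_lit 4558) (nat_lit 623) (nat_lit 4590)))))))))))) (.f (nat_lit 557) (nat_lit 593) (nat_lit 557) (.f (nat_lit 589) (nat_lit 588) (nat_lit 1580) (.f (nat_lit 525) (nat_lit 524) (nat_lit 3596) (.d (nat_lit 561) (nat_lit 526) (nat_lit 3597) (nat_lit 590) (nat_lit 1581)))))))))) (.a (.p (nat_lit 590) (.a s34871 (.a (.p (nat_lit 526) (.a s35500 (.a s35511 (.a s35015 (.a s35515 (.a s35521 (.a (.p (nat_lit 622) (.a (.f (nat_lit 621) (nat_lit 653) (nat_lit 5645) (.f (nat_lit 591) (nat_lit 593) (nat_lit 1613) (.d (nat_lit 620) (nat_lit 589) (nat_lit 1612) (nat_lit 619) (nat_lit 2635)))) (.a (.f (nat_lit 525) (nat_lit 493) (nat_lit 7661) (.f (nat_lit 654) (nat_lit 557) (nat_lit 7693) (.d (nat_lit 653) (nat_lit 621) (nat_lit 5645) (nat_lit 685) (nat_lit 5677)))) (.f (nat_lit 525) (nat_lit 493) (nat_lit 7661) (.f (nat_lit 557) (nat_lit 654) (nat_lit 7693) (.d (nat_lit 559) (nat_lit 524) (nat_lit 3596) (nat_lit 593) (nat_lit 557))))))) (.a s35526 (.a s35531 (.a s35535 s35731)))))))))) (.a s35546 (.a s35064 (.a (.p (nat_lit 622) (.a s34930 (.a (.p (nat_lit 621) (.a (.f (nat_lit 591) (nat_lit 593) (nat_lit 1613) (.d (nat_lit 620) (nat_lit 589) (nat_lit 1612) (nat_lit 619) (nat_lit 2635))) (.a (.f (nat_lit 653) (nat_lit 526) (nat_lit 5645) (.d (nat_lit 685) (nat_lit 589) (nat_lit 6701) (nat_lit 654) (nat_lit 5677))) (.f (nat_lit 653) (nat_lit 526) (nat_lit 5645) (.d (nat_lit 685) (nat_lit 654) (nat_lit 5677) (nat_lit 717) (nat_lit 6733)))))) (.a (.p (nat_lit 654) (.a (.f (nat_lit 653) (nat_lit 685) (nat_lit 5677) (.f (nat_lit 621) (nat_lit 526) (nat_lit 5645) (.f (nat_lit 655) (nat_lit 687) (nat_lit 4654) (.d (nat_lit 656) (nat_lit 620) (nat_lit 3692) (nat_lit 657) (nat_lit 3693))))) (.a (.f (nat_lit 687) (nat_lit 655) (nat_lit 4654) (.f (nat_lit 686) (nat_lit 719) (nat_lit 4686) (.d (nat_lit 685) (nat_lit 653) (nat_lit 5677) (nat_lit 717) (nat_lit 5709)))) (.a (.f (nat_lit 685) (nat_lit 653) (nat_lit 5677) (.f (nat_lit 686) (nat_lit 717) (nat_lit 5709) (.f (nat_lit 591) (nat_lit 559) (nat_lit 6702) (.f (nat_lit 589) (nat_lit 561) (nat_lit 2605) (.d (nat_lit 621) (nat_lit 620) (nat_lit 1612) (nat_lit 718) (nat_lit 7757)))))) (.f (nat_lit 687) (nat_lit 655) (nat_lit 4654) (.f (nat_lit 686) (nat_lit 719) (nat_lit 4686) (.f (nat_lit 591) (nat_lit 559) (nat_lit 6702) (.f (nat_lit 589) (nat_lit 561) (nat_lit 2605) (.d (nat_lit 621) (nat_lit 620) (nat_lit 1612) (nat_lit 718) (nat_lit 7757)))))))))) (.a (.p (nat_lit 655) (.a (.f (nat_lit 654) (nat_lit 687) (nat_lit 4654) (.f (nat_lit 653) (nat_lit 685) (nat_lit 5677) (.f (nat_lit 621) (nat_lit 526) (nat_lit 5645) (.d (nat_lit 620) (nat_lit 619) (nat_lit 619) (nat_lit 656) (nat_lit 3692))))) (.a (.d (nat_lit 623) (nat_lit 526) (nat_lit 4622) (nat_lit 624) (nat_lit 5647)) (.f (nat_lit 687) (nat_lit 654) (nat_lit 4654) (.d (nat_lit 624) (nat_lit 623) (nat_lit 5647) (nat_lit 656) (nat_lit 5679)))))) (.a s35584 (.a s35594 (.a s35595 (.p (nat_lit 591) (.a (.f (nat_lit 621) (nat_lit 593) (nat_lit 1613) (.d (nat_lit 620) (nat_lit 589) (nat_lit 1612) (nat_lit 619) (nat_lit 2635))) (.a (.f (nat_lit 589) (nat_lit 561) (nat_lit 2605) (.f (nat_lit 588) (nat_lit 559) (nat_lit 2604) (.d (nat_lit 623) (nat_lit 587) (nat_lit 587) (nat_lit 624) (nat_lit 588)))) (.f (nat_lit 593) (nat_lit 621) (nat_lit 1613) (.f (nat_lit 594) (nat_lit 559) (nat_lit 3630) (.d (nat_lit 562) (nat_lit 561) (nat_lit 2606) (nat_lit 563) (nat_lit 2607))))))))))))))) (.a (.p (nat_lit 622) (.a s34941 (.a (.p (nat_lit 526) (.a (.f (nat_lit 525) (nat_lit 493) (nat_lit 7661) (.f (nat_lit 557) (nat_lit 654) (nat_lit 7693) (.d (nat_lit 559) (nat_lit 524) (nat_lit 3596) (nat_lit 593) (nat_lit 557)))) (.a (.f (nat_lit 621) (nat_lit 653) (nat_lit 5645) (.f (nat_lit 494) (nat_lit 589) (nat_lit 5613) (.d (nat_lit 493) (nat_lit 461) (nat_lit 7629) (nat_lit 525) (nat_lit 7661)))) (.f (nat_lit 621) (nat_lit 653) (nat_lit 5645) (.f (nat_lit 589) (nat_lit 494) (nat_lit 5613) (.f (nat_lit 559) (nat_lit 561) (nat_lit 1581) (.d (nat_lit 557) (nat_lit 588) (nat_lit 1580) (nat_lit 593) (nat_lit 557)))))))) (.a s35625 (.a (.p (nat_lit 655) (.a (.f (nat_lit 654) (nat_lit 687) (nat_lit 4654) (.f (nat_lit 653) (nat_lit 685) (nat_lit 5677) (.f (nat_lit 621) (nat_lit 526) (nat_lit 5645) (.d (nat_lit 620) (nat_lit 619) (nat_lit 619) (nat_lit 656) (nat_lit 3692))))) (.a (.d (nat_lit 623) (nat_lit 526) (nat_lit 4622) (nat_lit 624) (nat_lit 5647)) (.f (nat_lit 687) (nat_lit 654) (nat_lit 4654) (.d (nat_lit 624) (nat_lit 623) (nat_lit 5647) (nat_lit 656) (nat_lit 5679)))))) (.a (.p (nat_lit 557) (.a (.f (nat_lit 525) (nat_lit 654) (nat_lit 7693) (.d (nat_lit 493) (nat_lit 461) (nat_lit 4557) (nat_lit 526) (nat_lit 7661))) (.f (nat_lit 559) (nat_lit 593) (nat_lit 557) (.d (nat_lit 589) (nat_lit 561) (nat_lit 1581) (nat_lit 588) (nat_lit 1580))))) (.a (.p (nat_lit 557) (.a (.f (nat_lit 654) (nat_lit 525) (nat_lit 7693) (.f (nat_lit 686) (nat_lit 589) (nat_lit 7725) (.d (nat_lit 685) (nat_lit 653) (nat_lit 5677) (nat_lit 717) (nat_lit 5709)))) (.a (.f (nat_lit 559) (nat_lit 593) (nat_lit 557) (.d (nat_lit 589) (nat_lit 561) (nat_lit 1581) (nat_lit 588) (nat_lit 1580))) (.f (nat_lit 654) (nat_lit 525) (nat_lit 7693) (.f (nat_lit 655) (nat_lit 687) (nat_lit 4654) (.f (nat_lit 653) (nat_lit 685) (nat_lit 5677) (.f (nat_lit 623) (nat_lit 624) (nat_lit 5647) (.f (nat_lit 652) (nat_lit 651) (nat_lit 2667) (.f (nat_lit 620) (nat_lit 619) (nat_lit 3691) (.f (nat_lit 656) (nat_lit 621) (nat_lit 620) (.f (nat_lit 657) (nat_lit 658) (nat_lit 3694) (.d (nat_lit 689) (nat_lit 688) (nat_lit 653) (nat_lit 690) (nat_lit 654))))))))))))) s35640))))))) (.p (nat_lit 526) (.a s35037 (.a s35731 (.a (.p (nat_lit 494) (.a (.f (nat_lit 493) (nat_lit 461) (nat_lit 7629) (.f (nat_lit 525) (nat_lit 622) (nat_lit 7661) (.f (nat_lit 463) (nat_lit 495) (nat_lit 6606) (.f (nat_lit 462) (nat_lit 431) (nat_lit 6574) (.d (nat_lit 430) (nat_lit 398) (nat_lit 5517) (nat_lit 557) (nat_lit 5549)))))) (.a (.f (nat_lit 591) (nat_lit 623) (nat_lit 4590) (.f (nat_lit 593) (nat_lit 557) (nat_lit 3629) (.f (nat_lit 622) (nat_lit 621) (nat_lit 1613) (.d (nat_lit 493) (nat_lit 461) (nat_lit 7629) (nat_lit 525) (nat_lit 7661))))) (.a (.f (nat_lit 461) (nat_lit 493) (nat_lit 7629) (.f (nat_lit 462) (nat_lit 429) (nat_lit 7597) (.d (nat_lit 463) (nat_lit 431) (nat_lit 6574) (nat_lit 495) (nat_lit 6606)))) (.a (.f (nat_lit 591) (nat_lit 623) (nat_lit 4590) (.f (nat_lit 557) (nat_lit 593) (nat_lit 3629) (.f (nat_lit 463) (nat_lit 495) (nat_lit 6606) (.f (nat_lit 462) (nat_lit 431) (nat_lit 6574) (.f (nat_lit 430) (nat_lit 525) (nat_lit 5549) (.d (nat_lit 429) (nat_lit 397) (nat_lit 7565) (nat_lit 461) (nat_lit 7597))))))) (.f (nat_lit 591) (nat_lit 623) (nat_lit 4590) (.f (nat_lit 557) (nat_lit 593) (nat_lit 3629) (.f (nat_lit 463) (nat_lit 495) (nat_lit 6606) (.f (nat_lit 462) (nat_lit 431) (nat_lit 6574) (.f (nat_lit 525) (nat_lit 430) (nat_lit 5549) (.d (nat_lit 622) (nat_lit 493) (nat_lit 7661) (nat_lit 654) (nat_lit 7693)))))))))))) (.a (.p (nat_lit 494) (.a (.f (nat_lit 461) (nat_lit 493) (nat_lit 7629) (.f (nat_lit 462) (nat_lit 429) (nat_lit 7597) (.d (nat_lit 463) (nat_lit 431) (nat_lit 6574) (nat_lit 495) (nat_lit 6606)))) (.a (.f (nat_lit 591) (nat_lit 623) (nat_lit 4590) (.f (nat_lit 593) (nat_lit 557) (nat_lit 3629) (.d (nat_lit 559) (nat_lit 462) (nat_lit 4558) (nat_lit 594) (nat_lit 3630)))) (.f (nat_lit 591) (nat_lit 623) (nat_lit 4590) (.f (nat_lit 593) (nat_lit 557) (nat_lit 3629) (.f (nat_lit 594) (nat_lit 559) (nat_lit 3630) (.d (nat_lit 562) (nat_lit 561) (nat_lit 2606) (nat_lit 563) (nat_lit 2607)))))))) (.a (.p (nat_lit 494) (.a (.f (nat_lit 461) (nat_lit 493) (nat_lit 7629) (.f (nat_lit 462) (nat_lit 429) (nat_lit 7597) (.d (nat_lit 463) (nat_lit 431) (nat_lit 6574) (nat_lit 495) (nat_lit 6606)))) (.a (.f (nat_lit 591) (nat_lit 623) (nat_lit 4590) (.f (nat_lit 559) (nat_lit 462) (nat_lit 4558) (.d (nat_lit 561) (nat_lit 525) (nat_lit 3597) (nat_lit 562) (nat_lit 1582)))) (.f (nat_lit 591) (nat_lit 623) (nat_lit 4590) (.f (nat_lit 493) (nat_lit 461) (nat_lit 7629) (.f (nat_lit 622) (nat_lit 525) (nat_lit 7661) (.d (nat_lit 621) (nat_lit 593) (nat_lit 1613) (nat_lit 653) (nat_lit 5645)))))))) (.a (.p (nat_lit 525) (.a (.f (nat_lit 493) (nat_lit 622) (nat_lit 7661) (.d (nat_lit 461) (nat_lit 429) (nat_lit 4525) (nat_lit 494) (nat_lit 7629))) (.a (.f (nat_lit 622) (nat_lit 493) (nat_lit 7661) (.f (nat_lit 654) (nat_lit 557) (nat_lit 7693) (.d (nat_lit 653) (nat_lit 621) (nat_lit 5645) (nat_lit 685) (nat_lit 5677)))) (.f (nat_lit 559) (nat_lit 561) (nat_lit 3597) (.d (nat_lit 524) (nat_lit 523) (nat_lit 523) (nat_lit 557) (nat_lit 3596)))))) (.p (nat_lit 622) (.a (.f (nat_lit 655) (nat_lit 623) (nat_lit 4622) (.f (nat_lit 654) (nat_lit 687) (nat_lit 4654) (.d (nat_lit 653) (nat_lit 621) (nat_lit 5645) (nat_lit 685) (nat_lit 5677)))) (.a (.f (nat_lit 621) (nat_lit 653) (nat_lit 5645) (.f (nat_lit 593) (nat_lit 591) (nat_lit 1613) (.f (nat_lit 559) (nat_lit 557) (nat_lit 557) (.d (nat_lit 561) (nat_lit 525) (nat_lit 3597) (nat_lit 594) (nat_lit 558))))) (.f (nat_lit 623) (nat_lit 655) (nat_lit 4622) (.f (nat_lit 591) (nat_lit 494) (nat_lit 4590) (.d (nat_lit 593) (nat_lit 557) (nat_lit 3629) (nat_lit 594) (nat_lit 1614))))))))))))))))))))) (.a (.p (nat_lit 590) (.a s35064 (.a (.p (nat_lit 624) (.a (.p (nat_lit 656) (.a (.f (nat_lit 687) (nat_lit 655) (nat_lit 5679) (.f (nat_lit 688) (nat_lit 719) (nat_lit 5711) (.f (nat_lit 591) (nat_lit 559) (nat_lit 7727) (.f (nat_lit 589) (nat_lit 625) (nat_lit 589) (.f (nat_lit 557) (nat_lit 556) (nat_lit 3628) (.f (nat_lit 621) (nat_lit 620) (nat_lit 1612) (.d (nat_lit 526) (nat_lit 494) (nat_lit 5613) (nat_lit 653) (nat_lit 6669)))))))) (.a (.f (nat_lit 687) (nat_lit 655) (nat_lit 5679) (.f (nat_lit 688) (nat_lit 719) (nat_lit 5711) (.d (nat_lit 689) (nat_lit 657) (nat_lit 4656) (nat_lit 721) (nat_lit 4688)))) (.d (nat_lit 657) (nat_lit 625) (nat_lit 4624) (nat_lit 689) (nat_lit 4656))))) (.a (.f (nat_lit 623) (nat_lit 655) (nat_lit 5647) (.f (nat_lit 625) (nat_lit 657) (nat_lit 4624) (.d (nat_lit 591) (nat_lit 589) (nat_lit 589) (nat_lit 626) (nat_lit 3662)))) (.a s35795 (.a (.f (nat_lit 625) (nat_lit 657) (nat_lit 4624) (.f (nat_lit 591) (nat_lit 589) (nat_lit 589) (.d (nat_lit 626) (nat_lit 623) (nat_lit 3662) (nat_lit 627) (nat_lit 3663)))) (.a s35805 (.f (nat_lit 655) (nat_lit 623) (nat_lit 5647) (.f (nat_lit 656) (nat_lit 687) (nat_lit 5679) (.d (nat_lit 657) (nat_lit 625) (nat_lit 4624) (nat_lit 689) (nat_lit 4656)))))))))) (.a (.p (nat_lit 526) (.a (.p (nat_lit 494) (.a (.f (nat_lit 621) (nat_lit 589) (nat_lit 5613) (.f (nat_lit 622) (nat_lit 653) (nat_lit 5645) (.d (nat_lit 493) (nat_lit 461) (nat_lit 7629) (nat_lit 525) (nat_lit 7661)))) (.a (.f (nat_lit 461) (nat_lit 493) (nat_lit 7629) (.f (nat_lit 462) (nat_lit 429) (nat_lit 7597) (.d (nat_lit 463) (nat_lit 431) (nat_lit 6574) (nat_lit 495) (nat_lit 6606)))) (.f (nat_lit 589) (nat_lit 621) (nat_lit 5613) (.f (nat_lit 591) (nat_lit 561) (nat_lit 2605) (.d (nat_lit 557) (nat_lit 462) (nat_lit 5581) (nat_lit 556) (nat_lit 3628))))))) (.a (.p (nat_lit 494) (.a (.f (nat_lit 621) (nat_lit 589) (nat_lit 5613) (.f (nat_lit 622) (nat_lit 653) (nat_lit 5645) (.d (nat_lit 493) (nat_lit 461) (nat_lit 7629) (nat_lit 525) (nat_lit 7661)))) (.a (.f (nat_lit 461) (nat_lit 493) (nat_lit 7629) (.f (nat_lit 462) (nat_lit 429) (nat_lit 7597) (.d (nat_lit 463) (nat_lit 431) (nat_lit 6574) (nat_lit 495) (nat_lit 6606)))) (.f (nat_lit 589) (nat_lit 621) (nat_lit 5613) (.f (nat_lit 462) (nat_lit 557) (nat_lit 5581) (.d (nat_lit 463) (nat_lit 431) (nat_lit 6574) (nat_lit 495) (nat_lit 6606))))))) (.a (.p (nat_lit 494) (.a (.f (nat_lit 621) (nat_lit 589) (nat_lit 5613) (.f (nat_lit 622) (nat_lit 653) (nat_lit 5645) (.d (nat_lit 493) (nat_lit 461) (nat_lit 7629) (nat_lit 525) (nat_lit 7661)))) (.a (.f (nat_lit 589) (nat_lit 621) (nat_lit 5613) (.f (nat_lit 591) (nat_lit 561) (nat_lit 2605) (.d (nat_lit 557) (nat_lit 462) (nat_lit 5581) (nat_lit 556) (nat_lit 3628)))) (.f (nat_lit 623) (nat_lit 591) (nat_lit 4590) (.d (nat_lit 655) (nat_lit 622) (nat_lit 4622) (nat_lit 624) (nat_lit 5647)))))) (.a (.p (nat_lit 494) (.a (.f (nat_lit 461) (nat_lit 493) (nat_lit 7629) (.f (nat_lit 462) (nat_lit 429) (nat_lit 7597) (.d (nat_lit 463) (nat_lit 431) (nat_lit 6574) (nat_lit 495) (nat_lit 6606)))) (.a (.f (nat_lit 589) (nat_lit 621) (nat_lit 5613) (.f (nat_lit 591) (nat_lit 561) (nat_lit 2605) (.d (nat_lit 557) (nat_lit 462) (nat_lit 5581) (nat_lit 556) (nat_lit 3628)))) (.f (nat_lit 591) (nat_lit 623) (nat_lit 4590) (.d (nat_lit 589) (nat_lit 561) (nat_lit 2605) (nat_lit 621) (nat_lit 5613)))))) (.a (.p (nat_lit 494) (.a (.f (nat_lit 621) (nat_lit 589) (nat_lit 5613) (.f (nat_lit 622) (nat_lit 653) (nat_lit 5645) (.d (nat_lit 493) (nat_lit 461) (nat_lit 7629) (nat_lit 525) (nat_lit 7661)))) (.a (.f (nat_lit 461) (nat_lit 493) (nat_lit 7629) (.f (nat_lit 462) (nat_lit 429) (nat_lit 7597) (.d (nat_lit 463) (nat_lit 431) (nat_lit 6574) (nat_lit 495) (nat_lit 6606)))) (.f (nat_lit 591) (nat_lit 623) (nat_lit 4590) (.d (nat_lit 589) (nat_lit 561) (nat_lit 2605) (nat_lit 621) (nat_lit 5613)))))) (.a (.p (nat_lit 622) (.a (.f (nat_lit 525) (nat_lit 493) (nat_lit 7661) (.f (nat_lit 654) (nat_lit 557) (nat_lit 7693) (.d (nat_lit 653) (nat_lit 621) (nat_lit 5645) (nat_lit 685) (nat_lit 5677)))) (.a (.f (nat_lit 655) (nat_lit 623) (nat_lit 4622) (.f (nat_lit 654) (nat_lit 687) (nat_lit 4654) (.d (nat_lit 653) (nat_lit 621) (nat_lit 5645) (nat_lit 685) (nat_lit 5677)))) (.a (.f (nat_lit 525) (nat_lit 493) (nat_lit 7661) (.f (nat_lit 654) (nat_lit 557) (nat_lit 7693) (.f (nat_lit 687) (nat_lit 655) (nat_lit 4654) (.f (nat_lit 686) (nat_lit 719) (nat_lit 4686) (.d (nat_lit 685) (nat_lit 653) (nat_lit 5677) (nat_lit 717) (nat_lit 5709)))))) (.a (.f (nat_lit 623) (nat_lit 655) (nat_lit 4622) (.f (nat_lit 621) (nat_lit 653) (nat_lit 5645) (.f (nat_lit 620) (nat_lit 591) (nat_lit 2636) (.f (nat_lit 588) (nat_lit 587) (nat_lit 3659) (.f (nat_lit 589) (nat_lit 624) (nat_lit 3660) (.f (nat_lit 652) (nat_lit 651) (nat_lit 1643) (.d (nat_lit 525) (nat_lit 493) (nat_lit 7661) (nat_lit 557) (nat_lit 5644)))))))) (.f (nat_lit 655) (nat_lit 623) (nat_lit 4622) (.f (nat_lit 654) (nat_lit 687) (nat_lit 4654) (.d (nat_lit 525) (nat_lit 493) (nat_lit 7661) (nat_lit 557) (nat_lit 7693))))))))) (.a (.p (nat_lit 494) (.a (.f (nat_lit 589) (nat_lit 621) (nat_lit 5613) (.f (nat_lit 591) (nat_lit 561) (nat_lit 2605) (.d (nat_lit 557) (nat_lit 462) (nat_lit 5581) (nat_lit 556) (nat_lit 3628)))) (.a (.f (nat_lit 589) (nat_lit 621) (nat_lit 5613) (.f (nat_lit 462) (nat_lit 557) (nat_lit 5581) (.d (nat_lit 463) (nat_lit 431) (nat_lit 6574) (nat_lit 495) (nat_lit 6606)))) (.a (.f (nat_lit 591) (nat_lit 623) (nat_lit 4590) (.d (nat_lit 589) (nat_lit 561) (nat_lit 2605) (nat_lit 621) (nat_lit 5613))) (.f (nat_lit 623) (nat_lit 591) (nat_lit 4590) (.d (nat_lit 655) (nat_lit 622) (nat_lit 4622) (nat_lit 624) (nat_lit 5647))))))) (.p (nat_lit 494) (.a (.f (nat_lit 493) (nat_lit 461) (nat_lit 7629) (.f (nat_lit 525) (nat_lit 622) (nat_lit 7661) (.f (nat_lit 463) (nat_lit 495) (nat_lit 6606) (.f (nat_lit 462) (nat_lit 431) (nat_lit 6574) (.d (nat_lit 430) (nat_lit 398) (nat_lit 5517) (nat_lit 557) (nat_lit 5549)))))) (.a (.f (nat_lit 623) (nat_lit 591) (nat_lit 4590) (.d (nat_lit 655) (nat_lit 622) (nat_lit 4622) (nat_lit 624) (nat_lit 5647))) (.f (nat_lit 461) (nat_lit 493) (nat_lit 7629) (.f (nat_lit 462) (nat_lit 429) (nat_lit 7597) (.d (nat_lit 463) (nat_lit 431) (nat_lit 6574) (nat_lit 495) (nat_lit 6606))))))))))))))) (.a (.p (nat_lit 526) (.a s35015 (.a s35022 (.a (.p (nat_lit 494) (.a (.f (nat_lit 621) (nat_lit 589) (nat_lit 5613) (.f (nat_lit 622) (nat_lit 653) (nat_lit 5645) (.d (nat_lit 493) (nat_lit 461) (nat_lit 7629) (nat_lit 525) (nat_lit 7661)))) (.a (.f (nat_lit 461) (nat_lit 493) (nat_lit 7629) (.f (nat_lit 462) (nat_lit 429) (nat_lit 7597) (.d (nat_lit 463) (nat_lit 431) (nat_lit 6574) (nat_lit 495) (nat_lit 6606)))) (.f (nat_lit 589) (nat_lit 621) (nat_lit 5613) (.f (nat_lit 591) (nat_lit 561) (nat_lit 2605) (.d (nat_lit 557) (nat_lit 462) (nat_lit 5581) (nat_lit 556) (nat_lit 3628))))))) (.a (.p (nat_lit 494) (.a (.f (nat_lit 589) (nat_lit 621) (nat_lit 5613) (.d (nat_lit 561) (nat_lit 559) (nat_lit 1581) (nat_lit 591) (nat_lit 2605))) (.f (nat_lit 461) (nat_lit 493) (nat_lit 7629) (.f (nat_lit 462) (nat_lit 429) (nat_lit 7597) (.d (nat_lit 463) (nat_lit 431) (nat_lit 6574) (nat_lit 495) (nat_lit 6606)))))) (.a (.p (nat_lit 525) (.a (.f (nat_lit 622) (nat_lit 493) (nat_lit 7661) (.f (nat_lit 654) (nat_lit 557) (nat_lit 7693) (.d (nat_lit 653) (nat_lit 621) (nat_lit 5645) (nat_lit 685) (nat_lit 5677)))) (.a (.f (nat_lit 561) (nat_lit 559) (nat_lit 3597) (.f (nat_lit 591) (nat_lit 589) (nat_lit 2605) (.f (nat_lit 622) (nat_lit 493) (nat_lit 7661) (.f (nat_lit 621) (nat_lit 653) (nat_lit 5645) (.d (nat_lit 620) (nat_lit 619) (nat_lit 2635) (nat_lit 623) (nat_lit 2636)))))) (.f (nat_lit 559) (nat_lit 561) (nat_lit 3597) (.d (nat_lit 524) (nat_lit 523) (nat_lit 523) (nat_lit 557) (nat_lit 3596)))))) (.a s35041 (.a s35051 (.a s35063 (.p (nat_lit 525) (.a (.f (nat_lit 493) (nat_lit 622) (nat_lit 7661) (.d (nat_lit 461) (nat_lit 429) (nat_lit 4525) (nat_lit 494) (nat_lit 7629))) (.a (.f (nat_lit 622) (nat_lit 493) (nat_lit 7661) (.f (nat_lit 654) (nat_lit 557) (nat_lit 7693) (.d (nat_lit 653) (nat_lit 621) (nat_lit 5645) (nat_lit 685) (nat_lit 5677)))) (.f (nat_lit 559) (nat_lit 561) (nat_lit 3597) (.d (nat_lit 524) (nat_lit 523) (nat_lit 523) (nat_lit 557) (nat_lit 3596))))))))))))))) (.a (.p (nat_lit 624) (.a s35795 (.a (.f (nat_lit 657) (nat_lit 625) (nat_lit 4624) (.f (nat_lit 656) (nat_lit 689) (nat_lit 4656) (.f (nat_lit 687) (nat_lit 655) (nat_lit 5679) (.f (nat_lit 688) (nat_lit 719) (nat_lit 5711) (.f (nat_lit 591) (nat_lit 559) (nat_lit 7727) (.f (nat_lit 589) (nat_lit 561) (nat_lit 2605) (.f (nat_lit 621) (nat_lit 620) (nat_lit 1612) (.d (nat_lit 685) (nat_lit 653) (nat_lit 6701) (nat_lit 686) (nat_lit 2701))))))))) (.a (.f (nat_lit 623) (nat_lit 655) (nat_lit 5647) (.f (nat_lit 625) (nat_lit 657) (nat_lit 4624) (.d (nat_lit 591) (nat_lit 589) (nat_lit 589) (nat_lit 626) (nat_lit 3662)))) (.a (.f (nat_lit 625) (nat_lit 657) (nat_lit 4624) (.f (nat_lit 591) (nat_lit 589) (nat_lit 589) (.d (nat_lit 626) (nat_lit 623) (nat_lit 3662) (nat_lit 627) (nat_lit 3663)))) (.a s35805 (.f (nat_lit 655) (nat_lit 623) (nat_lit 5647) (.f (nat_lit 656) (nat_lit 687) (nat_lit 5679) (.d (nat_lit 657) (nat_lit 625) (nat_lit 4624) (nat_lit 689) (nat_lit 4656)))))))))) (.a (.p (nat_lit 624) (.a (.p (nat_lit 589) (.a (.d (nat_lit 591) (nat_lit 561) (nat_lit 2605) (nat_lit 625) (nat_lit 589)) (.a (.f (nat_lit 591) (nat_lit 625) (nat_lit 589) (.f (nat_lit 588) (nat_lit 559) (nat_lit 2604) (.d (nat_lit 620) (nat_lit 619) (nat_lit 1611) (nat_lit 621) (nat_lit 1612)))) (.a (.d (nat_lit 561) (nat_lit 559) (nat_lit 1581) (nat_lit 591) (nat_lit 2605)) (.f (nat_lit 559) (nat_lit 561) (nat_lit 1581) (.d (nat_lit 588) (nat_lit 557) (nat_lit 1580) (nat_lit 587) (nat_lit 2603))))))) (.a (.f (nat_lit 623) (nat_lit 655) (nat_lit 5647) (.f (nat_lit 625) (nat_lit 657) (nat_lit 4624) (.d (nat_lit 591) (nat_lit 589) (nat_lit 589) (nat_lit 626) (nat_lit 3662)))) (.a s35805 (.f (nat_lit 655) (nat_lit 623) (nat_lit 5647) (.f (nat_lit 656) (nat_lit 687) (nat_lit 5679) (.d (nat_lit 657) (nat_lit 625) (nat_lit 4624) (nat_lit 689) (nat_lit 4656)))))))) (.a (.p (nat_lit 622) (.a s35625 (.a (.p (nat_lit 655) (.a (.f (nat_lit 654) (nat_lit 687) (nat_lit 4654) (.f (nat_lit 653) (nat_lit 685) (nat_lit 5677) (.f (nat_lit 621) (nat_lit 526) (nat_lit 5645) (.d (nat_lit 620) (nat_lit 619) (nat_lit 619) (nat_lit 656) (nat_lit 3692))))) (.a (.d (nat_lit 623) (nat_lit 526) (nat_lit 4622) (nat_lit 624) (nat_lit 5647)) (.f (nat_lit 687) (nat_lit 654) (nat_lit 4654) (.d (nat_lit 624) (nat_lit 623) (nat_lit 5647) (nat_lit 656) (nat_lit 5679)))))) (.a (.p (nat_lit 526) (.a (.f (nat_lit 621) (nat_lit 653) (nat_lit 5645) (.f (nat_lit 494) (nat_lit 589) (nat_lit 5613) (.d (nat_lit 493) (nat_lit 461) (nat_lit 7629) (nat_lit 525) (nat_lit 7661)))) (.a (.f (nat_lit 621) (nat_lit 653) (nat_lit 5645) (.f (nat_lit 494) (nat_lit 589) (nat_lit 5613) (.f (nat_lit 463) (nat_lit 495) (nat_lit 6606) (.f (nat_lit 462) (nat_lit 431) (nat_lit 6574) (.d (nat_lit 461) (nat_lit 429) (nat_lit 7597) (nat_lit 493) (nat_lit 7629)))))) (.a (.f (nat_lit 525) (nat_lit 493) (nat_lit 7661) (.f (nat_lit 654) (nat_lit 557) (nat_lit 7693) (.d (nat_lit 653) (nat_lit 621) (nat_lit 5645) (nat_lit 685) (nat_lit 5677)))) (.a (.f (nat_lit 621) (nat_lit 653) (nat_lit 5645) (.f (nat_lit 589) (nat_lit 494) (nat_lit 5613) (.f (nat_lit 559) (nat_lit 561) (nat_lit 1581) (.d (nat_lit 588) (nat_lit 557) (nat_lit 1580) (nat_lit 587) (nat_lit 2603))))) (.f (nat_lit 525) (nat_lit 493) (nat_lit 7661) (.f (nat_lit 559) (nat_lit 561) (nat_lit 3597) (.d (nat_lit 524) (nat_lit 523) (nat_lit 523) (nat_lit 557) (nat_lit 3596))))))))) (.a (.p (nat_lit 654) (.a (.f (nat_lit 687) (nat_lit 655) (nat_lit 4654) (.f (nat_lit 686) (nat_lit 719) (nat_lit 4686) (.d (nat_lit 685) (nat_lit 653) (nat_lit 5677) (nat_lit 717) (nat_lit 5709)))) (.a (.f (nat_lit 557) (nat_lit 525) (nat_lit 7693) (.f (nat_lit 589) (nat_lit 686) (nat_lit 7725) (.d (nat_lit 559) (nat_lit 561) (nat_lit 1581) (nat_lit 588) (nat_lit 1580)))) (.f (nat_lit 655) (nat_lit 687) (nat_lit 4654) (.d (nat_lit 623) (nat_lit 526) (nat_lit 4622) (nat_lit 624) (nat_lit 5647)))))) (.a (.p (nat_lit 624) (.a (.f (nat_lit 657) (nat_lit 625) (nat_lit 4624) (.f (nat_lit 656) (nat_lit 689) (nat_lit 4656) (.f (nat_lit 655) (nat_lit 687) (nat_lit 5679) (.f (nat_lit 654) (nat_lit 621) (nat_lit 3693) (.d (nat_lit 685) (nat_lit 653) (nat_lit 5677) (nat_lit 686) (nat_lit 1677)))))) (.a (.f (nat_lit 623) (nat_lit 655) (nat_lit 5647) (.f (nat_lit 589) (nat_lit 625) (nat_lit 3661) (.d (nat_lit 588) (nat_lit 587) (nat_lit 587) (nat_lit 621) (nat_lit 3660)))) (.a (.f (nat_lit 625) (nat_lit 657) (nat_lit 4624) (.f (nat_lit 589) (nat_lit 623) (nat_lit 3661) (.f (nat_lit 559) (nat_lit 561) (nat_lit 1581) (.d (nat_lit 588) (nat_lit 557) (nat_lit 1580) (nat_lit 587) (nat_lit 2603))))) (.f (nat_lit 655) (nat_lit 623) (nat_lit 5647) (.d (nat_lit 687) (nat_lit 654) (nat_lit 4654) (nat_lit 656) (nat_lit 5679))))))) (.a (.p (nat_lit 526) (.a (.f (nat_lit 621) (nat_lit 653) (nat_lit 5645) (.f (nat_lit 494) (nat_lit 589) (nat_lit 5613) (.d (nat_lit 493) (nat_lit 461) (nat_lit 7629) (nat_lit 525) (nat_lit 7661)))) (.a (.f (nat_lit 621) (nat_lit 653) (nat_lit 5645) (.f (nat_lit 494) (nat_lit 589) (nat_lit 5613) (.f (nat_lit 463) (nat_lit 495) (nat_lit 6606) (.f (nat_lit 462) (nat_lit 431) (nat_lit 6574) (.d (nat_lit 461) (nat_lit 429) (nat_lit 7597) (nat_lit 493) (nat_lit 7629)))))) (.a (.f (nat_lit 525) (nat_lit 493) (nat_lit 7661) (.f (nat_lit 559) (nat_lit 561) (nat_lit 3597) (.d (nat_lit 524) (nat_lit 523) (nat_lit 523) (nat_lit 557) (nat_lit 3596)))) (.f (nat_lit 621) (nat_lit 653) (nat_lit 5645) (.f (nat_lit 589) (nat_lit 494) (nat_lit 5613) (.f (nat_lit 559) (nat_lit 561) (nat_lit 1581) (.d (nat_lit 588) (nat_lit 557) (nat_lit 1580) (nat_lit 587) (nat_lit 2603))))))))) (.p (nat_lit 624) (.a (.f (nat_lit 623) (nat_lit 655) (nat_lit 5647) (.f (nat_lit 589) (nat_lit 625) (nat_lit 3661) (.d (nat_lit 588) (nat_lit 587) (nat_lit 587) (nat_lit 621) (nat_lit 3660)))) (.a (.f (nat_lit 657) (nat_lit 625) (nat_lit 4624) (.f (nat_lit 656) (nat_lit 689) (nat_lit 4656) (.f (nat_lit 655) (nat_lit 687) (nat_lit 5679) (.f (nat_lit 654) (nat_lit 621) (nat_lit 3693) (.f (nat_lit 686) (nat_lit 685) (nat_lit 1677) (.d (nat_lit 557) (nat_lit 525) (nat_lit 7693) (nat_lit 589) (nat_lit 7725))))))) (.a (.f (nat_lit 625) (nat_lit 657) (nat_lit 4624) (.f (nat_lit 589) (nat_lit 623) (nat_lit 3661) (.f (nat_lit 559) (nat_lit 561) (nat_lit 1581) (.d (nat_lit 588) (nat_lit 557) (nat_lit 1580) (nat_lit 587) (nat_lit 2603))))) (.f (nat_lit 655) (nat_lit 623) (nat_lit 5647) (.d (nat_lit 687) (nat_lit 654) (nat_lit 4654) (nat_lit 656) (nat_lit 5679)))))))))))))) (.a (.p (nat_lit 624) (.a (.f (nat_lit 625) (nat_lit 657) (nat_lit 4624) (.f (nat_lit 589) (nat_lit 591) (nat_lit 589) (.f (nat_lit 559) (nat_lit 561) (nat_lit 1581) (.d (nat_lit 588) (nat_lit 557) (nat_lit 1580) (nat_lit 587) (nat_lit 2603))))) (.a (.f (nat_lit 623) (nat_lit 655) (nat_lit 5647) (.f (nat_lit 625) (nat_lit 657) (nat_lit 4624) (.d (nat_lit 591) (nat_lit 589) (nat_lit 589) (nat_lit 626) (nat_lit 3662)))) (.a (.p (nat_lit 589) (.a (.d (nat_lit 591) (nat_lit 561) (nat_lit 2605) (nat_lit 625) (nat_lit 589)) (.a (.f (nat_lit 591) (nat_lit 625) (nat_lit 589) (.d (nat_lit 623) (nat_lit 588) (nat_lit 588) (nat_lit 655) (nat_lit 5647))) (.a (.d (nat_lit 561) (nat_lit 559) (nat_lit 1581) (nat_lit 591) (nat_lit 2605)) (.f (nat_lit 559) (nat_lit 561) (nat_lit 1581) (.d (nat_lit 588) (nat_lit 557) (nat_lit 1580) (nat_lit 587) (nat_lit 2603))))))) (.a s35805 (.f (nat_lit 655) (nat_lit 623) (nat_lit 5647) (.f (nat_lit 656) (nat_lit 687) (nat_lit 5679) (.d (nat_lit 657) (nat_lit 625) (nat_lit 4624) (nat_lit 689) (nat_lit 4656))))))))) (.p (nat_lit 622) (.a (.p (nat_lit 655) (.a (.f (nat_lit 654) (nat_lit 687) (nat_lit 4654) (.f (nat_lit 653) (nat_lit 685) (nat_lit 5677) (.f (nat_lit 621) (nat_lit 526) (nat_lit 5645) (.d (nat_lit 620) (nat_lit 619) (nat_lit 619) (nat_lit 656) (nat_lit 3692))))) (.a (.d (nat_lit 623) (nat_lit 526) (nat_lit 4622) (nat_lit 624) (nat_lit 5647)) (.f (nat_lit 687) (nat_lit 654) (nat_lit 4654) (.d (nat_lit 624) (nat_lit 623) (nat_lit 5647) (nat_lit 656) (nat_lit 5679)))))) (.a (.p (nat_lit 525) (.a (.f (nat_lit 654) (nat_lit 557) (nat_lit 7693) (.f (nat_lit 653) (nat_lit 685) (nat_lit 5677) (.f (nat_lit 621) (nat_lit 526) (nat_lit 5645) (.f (nat_lit 655) (nat_lit 687) (nat_lit 4654) (.d (nat_lit 656) (nat_lit 620) (nat_lit 3692) (nat_lit 657) (nat_lit 3693)))))) (.a (.f (nat_lit 526) (nat_lit 493) (nat_lit 7661) (.f (nat_lit 559) (nat_lit 561) (nat_lit 3597) (.f (nat_lit 653) (nat_lit 621) (nat_lit 5645) (.f (nat_lit 654) (nat_lit 685) (nat_lit 5677) (.f (nat_lit 687) (nat_lit 655) (nat_lit 4654) (.d (nat_lit 686) (nat_lit 591) (nat_lit 6702) (nat_lit 719) (nat_lit 4686))))))) (.a (.f (nat_lit 654) (nat_lit 557) (nat_lit 7693) (.f (nat_lit 526) (nat_lit 493) (nat_lit 7661) (.d (nat_lit 653) (nat_lit 621) (nat_lit 5645) (nat_lit 685) (nat_lit 5677)))) (.a (.f (nat_lit 526) (nat_lit 493) (nat_lit 7661) (.f (nat_lit 559) (nat_lit 561) (nat_lit 3597) (.d (nat_lit 524) (nat_lit 523) (nat_lit 523) (nat_lit 557) (nat_lit 3596)))) (.f (nat_lit 654) (nat_lit 557) (nat_lit 7693) (.f (nat_lit 685) (nat_lit 653) (nat_lit 5677) (.f (nat_lit 686) (nat_lit 717) (nat_lit 5709) (.d (nat_lit 687) (nat_lit 655) (nat_lit 4654) (nat_lit 719) (nat_lit 4686)))))))))) (.a (.p (nat_lit 525) (.a (.f (nat_lit 654) (nat_lit 557) (nat_lit 7693) (.f (nat_lit 526) (nat_lit 493) (nat_lit 7661) (.d (nat_lit 653) (nat_lit 621) (nat_lit 5645) (nat_lit 685) (nat_lit 5677)))) (.a (.f (nat_lit 526) (nat_lit 493) (nat_lit 7661) (.f (nat_lit 559) (nat_lit 561) (nat_lit 3597) (.f (nat_lit 653) (nat_lit 621) (nat_lit 5645) (.f (nat_lit 654) (nat_lit 685) (nat_lit 5677) (.f (nat_lit 591) (nat_lit 686) (nat_lit 6702) (.d (nat_lit 494) (nat_lit 462) (nat_lit 4558) (nat_lit 623) (nat_lit 4590))))))) (.a (.f (nat_lit 654) (nat_lit 557) (nat_lit 7693) (.f (nat_lit 653) (nat_lit 685) (nat_lit 5677) (.f (nat_lit 526) (nat_lit 621) (nat_lit 5645) (.f (nat_lit 559) (nat_lit 561) (nat_lit 3597) (.f (nat_lit 591) (nat_lit 686) (nat_lit 6702) (.d (nat_lit 494) (nat_lit 462) (nat_lit 4558) (nat_lit 623) (nat_lit 4590))))))) (.a (.f (nat_lit 526) (nat_lit 493) (nat_lit 7661) (.f (nat_lit 559) (nat_lit 561) (nat_lit 3597) (.d (nat_lit 524) (nat_lit 523) (nat_lit 523) (nat_lit 557) (nat_lit 3596)))) (.f (nat_lit 654) (nat_lit 557) (nat_lit 7693) (.f (nat_lit 685) (nat_lit 653) (nat_lit 5677) (.f (nat_lit 686) (nat_lit 717) (nat_lit 5709) (.f (nat_lit 719) (nat_lit 687) (nat_lit 4686) (.f (nat_lit 718) (nat_lit 751) (nat_lit 4718) (.d (nat_lit 591) (nat_lit 559) (nat_lit 6702) (nat_lit 623) (nat_lit 6734)))))))))))) (.a (.p (nat_lit 526) (.a (.f (nat_lit 525) (nat_lit 493) (nat_lit 7661) (.f (nat_lit 654) (nat_lit 557) (nat_lit 7693) (.d (nat_lit 653) (nat_lit 621) (nat_lit 5645) (nat_lit 685) (nat_lit 5677)))) (.a (.f (nat_lit 623) (nat_lit 655) (nat_lit 4622) (.f (nat_lit 591) (nat_lit 494) (nat_lit 4590) (.d (nat_lit 621) (nat_lit 620) (nat_lit 2636) (nat_lit 653) (nat_lit 5645)))) (.f (nat_lit 525) (nat_lit 493) (nat_lit 7661) (.f (nat_lit 559) (nat_lit 561) (nat_lit 3597) (.d (nat_lit 524) (nat_lit 523) (nat_lit 523) (nat_lit 557) (nat_lit 3596))))))) (.a (.p (nat_lit 526) (.a (.f (nat_lit 525) (nat_lit 493) (nat_lit 7661) (.f (nat_lit 654) (nat_lit 557) (nat_lit 7693) (.f (nat_lit 687) (nat_lit 655) (nat_lit 4654) (.f (nat_lit 686) (nat_lit 719) (nat_lit 4686) (.d (nat_lit 685) (nat_lit 653) (nat_lit 5677) (nat_lit 717) (nat_lit 5709)))))) (.a (.f (nat_lit 525) (nat_lit 493) (nat_lit 7661) (.f (nat_lit 559) (nat_lit 561) (nat_lit 3597) (.d (nat_lit 524) (nat_lit 523) (nat_lit 523) (nat_lit 557) (nat_lit 3596)))) (.a (.f (nat_lit 623) (nat_lit 655) (nat_lit 4622) (.f (nat_lit 494) (nat_lit 591) (nat_lit 4590) (.f (nat_lit 463) (nat_lit 495) (nat_lit 6606) (.f (nat_lit 462) (nat_lit 431) (nat_lit 6574) (.d (nat_lit 461) (nat_lit 429) (nat_lit 7597) (nat_lit 493) (nat_lit 7629)))))) (.f (nat_lit 655) (nat_lit 623) (nat_lit 4622) (.f (nat_lit 654) (nat_lit 687) (nat_lit 4654) (.f (nat_lit 685) (nat_lit 653) (nat_lit 5677) (.f (nat_lit 686) (nat_lit 717) (nat_lit 5709) (.f (nat_lit 559) (nat_lit 591) (nat_lit 6702) (.d (nat_lit 525) (nat_lit 557) (nat_lit 7693) (nat_lit 561) (nat_lit 3597))))))))))) (.a (.p (nat_lit 654) (.a (.f (nat_lit 687) (nat_lit 655) (nat_lit 4654) (.f (nat_lit 686) (nat_lit 719) (nat_lit 4686) (.d (nat_lit 685) (nat_lit 653) (nat_lit 5677) (nat_lit 717) (nat_lit 5709)))) (.a (.f (nat_lit 685) (nat_lit 653) (nat_lit 5677) (.f (nat_lit 686) (nat_lit 717) (nat_lit 5709) (.f (nat_lit 591) (nat_lit 559) (nat_lit 6702) (.f (nat_lit 719) (nat_lit 687) (nat_lit 4686) (.d (nat_lit 718) (nat_lit 623) (nat_lit 6734) (nat_lit 751) (nat_lit 4718)))))) (.a (.f (nat_lit 685) (nat_lit 653) (nat_lit 5677) (.f (nat_lit 686) (nat_lit 717) (nat_lit 5709) (.f (nat_lit 591) (nat_lit 559) (nat_lit 6702) (.f (nat_lit 623) (nat_lit 718) (nat_lit 6734) (.f (nat_lit 624) (nat_lit 655) (nat_lit 5647) (.d (nat_lit 625) (nat_lit 626) (nat_lit 3662) (nat_lit 657) (nat_lit 4624))))))) (.f (nat_lit 655) (nat_lit 687) (nat_lit 4654) (.f (nat_lit 624) (nat_lit 623) (nat_lit 5647) (.f (nat_lit 657) (nat_lit 625) (nat_lit 4624) (.d (nat_lit 656) (nat_lit 621) (nat_lit 3693) (nat_lit 689) (nat_lit 4656))))))))) (.a (.p (nat_lit 526) (.a (.f (nat_lit 525) (nat_lit 493) (nat_lit 7661) (.f (nat_lit 559) (nat_lit 561) (nat_lit 3597) (.d (nat_lit 524) (nat_lit 523) (nat_lit 523) (nat_lit 557) (nat_lit 3596)))) (.f (nat_lit 623) (nat_lit 655) (nat_lit 4622) (.f (nat_lit 591) (nat_lit 494) (nat_lit 4590) (.d (nat_lit 621) (nat_lit 620) (nat_lit 2636) (nat_lit 653) (nat_lit 5645)))))) (.p (nat_lit 654) (.a (.f (nat_lit 655) (nat_lit 687) (nat_lit 4654) (.d (nat_lit 623) (nat_lit 526) (nat_lit 4622) (nat_lit 624) (nat_lit 5647))) (.a (.f (nat_lit 525) (nat_lit 557) (nat_lit 7693) (.f (nat_lit 526) (nat_lit 493) (nat_lit 7661) (.f (nat_lit 559) (nat_lit 561) (nat_lit 3597) (.f (nat_lit 686) (nat_lit 591) (nat_lit 6702) (.d (nat_lit 687) (nat_lit 655) (nat_lit 4654) (nat_lit 719) (nat_lit 4686)))))) (.a (.f (nat_lit 525) (nat_lit 557) (nat_lit 7693) (.f (nat_lit 526) (nat_lit 493) (nat_lit 7661) (.f (nat_lit 559) (nat_lit 561) (nat_lit 3597) (.f (nat_lit 591) (nat_lit 686) (nat_lit 6702) (.d (nat_lit 494) (nat_lit 462) (nat_lit 4558) (nat_lit 623) (nat_lit 4590)))))) (.f (nat_lit 655) (nat_lit 687) (nat_lit 4654) (.f (nat_lit 624) (nat_lit 623) (nat_lit 5647) (.f (nat_lit 657) (nat_lit 625) (nat_lit 4624) (.d (nat_lit 656) (nat_lit 621) (nat_lit 3693) (nat_lit 689) (nat_lit 4656)))))))))))))))))))))))))) (.a (.p (nat_lit 624) (.a (.f (nat_lit 655) (nat_lit 623) (nat_lit 5647) (.f (nat_lit 656) (nat_lit 687) (nat_lit 5679) (.d (nat_lit 657) (nat_lit 625) (nat_lit 4624) (nat_lit 689) (nat_lit 4656)))) (.a s35182 (.a (.p (nat_lit 656) (.a (.d (nat_lit 655) (nat_lit 623) (nat_lit 5647) (nat_lit 687) (nat_lit 5679)) (.a (.f (nat_lit 687) (nat_lit 655) (nat_lit 5679) (.f (nat_lit 688) (nat_lit 719) (nat_lit 5711) (.f (nat_lit 721) (nat_lit 689) (nat_lit 4688) (.f (nat_lit 720) (nat_lit 753) (nat_lit 4720) (.d (nat_lit 593) (nat_lit 561) (nat_lit 6704) (nat_lit 625) (nat_lit 6736)))))) (.a (.p (nat_lit 593) (.a (.f (nat_lit 688) (nat_lit 561) (nat_lit 6704) (.f (nat_lit 720) (nat_lit 625) (nat_lit 6736) (.d (nat_lit 719) (nat_lit 687) (nat_lit 5711) (nat_lit 751) (nat_lit 5743)))) (.a (.p (nat_lit 594) (.a (.d (nat_lit 595) (nat_lit 559) (nat_lit 3631) (nat_lit 623) (nat_lit 1615)) (.a (.d (nat_lit 559) (nat_lit 591) (nat_lit 3630) (nat_lit 595) (nat_lit 3631)) (.a (.f (nat_lit 595) (nat_lit 623) (nat_lit 1615) (.f (nat_lit 596) (nat_lit 625) (nat_lit 1616) (.d (nat_lit 564) (nat_lit 563) (nat_lit 2608) (nat_lit 565) (nat_lit 2609)))) (.f (nat_lit 591) (nat_lit 559) (nat_lit 3630) (.f (nat_lit 622) (nat_lit 623) (nat_lit 1614) (.f (nat_lit 590) (nat_lit 621) (nat_lit 1613) (.d (nat_lit 626) (nat_lit 625) (nat_lit 590) (nat_lit 627) (nat_lit 591))))))))) (.f (nat_lit 688) (nat_lit 561) (nat_lit 6704) (.f (nat_lit 591) (nat_lit 559) (nat_lit 7727) (.f (nat_lit 623) (nat_lit 720) (nat_lit 7759) (.d (nat_lit 622) (nat_lit 594) (nat_lit 1614) (nat_lit 621) (nat_lit 2637)))))))) (.p (nat_lit 593) (.a (.f (nat_lit 623) (nat_lit 655) (nat_lit 5647) (.f (nat_lit 594) (nat_lit 595) (nat_lit 1615) (.d (nat_lit 622) (nat_lit 591) (nat_lit 1614) (nat_lit 621) (nat_lit 2637)))) (.a (.f (nat_lit 688) (nat_lit 561) (nat_lit 6704) (.f (nat_lit 591) (nat_lit 559) (nat_lit 7727) (.f (nat_lit 625) (nat_lit 720) (nat_lit 6736) (.d (nat_lit 590) (nat_lit 589) (nat_lit 589) (nat_lit 626) (nat_lit 590))))) (.f (nat_lit 688) (nat_lit 561) (nat_lit 6704) (.f (nat_lit 720) (nat_lit 625) (nat_lit 6736) (.d (nat_lit 721) (nat_lit 689) (nat_lit 4688) (nat_lit 753) (nat_lit 4720))))))))))) (.a (.p (nat_lit 593) (.a (.f (nat_lit 657) (nat_lit 625) (nat_lit 4624) (.f (nat_lit 656) (nat_lit 689) (nat_lit 4656) (.f (nat_lit 688) (nat_lit 561) (nat_lit 6704) (.f (nat_lit 591) (nat_lit 559) (nat_lit 7727) (.f (nat_lit 623) (nat_lit 720) (nat_lit 7759) (.d (nat_lit 622) (nat_lit 594) (nat_lit 1614) (nat_lit 621) (nat_lit 621))))))) (.a (.p (nat_lit 656) (.a (.f (nat_lit 688) (nat_lit 561) (nat_lit 6704) (.f (nat_lit 720) (nat_lit 625) (nat_lit 6736) (.d (nat_lit 719) (nat_lit 687) (nat_lit 5711) (nat_lit 751) (nat_lit 5743)))) (.a (.d (nat_lit 657) (nat_lit 625) (nat_lit 4624) (nat_lit 689) (nat_lit 4656)) (.f (nat_lit 688) (nat_lit 561) (nat_lit 6704) (.d (nat_lit 689) (nat_lit 657) (nat_lit 4656) (nat_lit 721) (nat_lit 4688)))))) (.a (.p (nat_lit 594) (.a (.f (nat_lit 625) (nat_lit 657) (nat_lit 4624) (.f (nat_lit 595) (nat_lit 596) (nat_lit 1616) (.f (nat_lit 627) (nat_lit 628) (nat_lit 592) (.f (nat_lit 626) (nat_lit 591) (nat_lit 591) (.f (nat_lit 659) (nat_lit 660) (nat_lit 624) (.d (nat_lit 562) (nat_lit 530) (nat_lit 4626) (nat_lit 691) (nat_lit 7730))))))) (.a (.f (nat_lit 595) (nat_lit 623) (nat_lit 1615) (.f (nat_lit 596) (nat_lit 625) (nat_lit 1616) (.d (nat_lit 564) (nat_lit 563) (nat_lit 2608) (nat_lit 565) (nat_lit 2609)))) (.a (.f (nat_lit 595) (nat_lit 623) (nat_lit 1615) (.f (nat_lit 627) (nat_lit 628) (nat_lit 592) (.f (nat_lit 563) (nat_lit 564) (nat_lit 2608) (.d (nat_lit 591) (nat_lit 562) (nat_lit 2607) (nat_lit 626) (nat_lit 591))))) (.f (nat_lit 591) (nat_lit 559) (nat_lit 3630) (.f (nat_lit 625) (nat_lit 657) (nat_lit 4624) (.d (nat_lit 590) (nat_lit 589) (nat_lit 589) (nat_lit 626) (nat_lit 590)))))))) (.a (.p (nat_lit 594) (.a (.f (nat_lit 595) (nat_lit 623) (nat_lit 1615) (.d (nat_lit 596) (nat_lit 561) (nat_lit 3632) (nat_lit 625) (nat_lit 1616))) (.a (.d (nat_lit 559) (nat_lit 561) (nat_lit 558) (nat_lit 591) (nat_lit 3630)) (.f (nat_lit 595) (nat_lit 623) (nat_lit 1615) (.f (nat_lit 596) (nat_lit 625) (nat_lit 1616) (.d (nat_lit 564) (nat_lit 563) (nat_lit 2608) (nat_lit 565) (nat_lit 2609))))))) (.p (nat_lit 594) (.a (.f (nat_lit 595) (nat_lit 623) (nat_lit 1615) (.f (nat_lit 627) (nat_lit 628) (nat_lit 592) (.f (nat_lit 563) (nat_lit 564) (nat_lit 2608) (.d (nat_lit 591) (nat_lit 562) (nat_lit 2607) (nat_lit 626) (nat_lit 591))))) (.a (.d (nat_lit 559) (nat_lit 561) (nat_lit 558) (nat_lit 591) (nat_lit 3630)) (.d (nat_lit 559) (nat_lit 561) (nat_lit 558) (nat_lit 595) (nat_lit 3631)))))))))) (.a (.p (nat_lit 656) (.a (.d (nat_lit 655) (nat_lit 623) (nat_lit 5647) (nat_lit 687) (nat_lit 5679)) (.a (.f (nat_lit 687) (nat_lit 655) (nat_lit 5679) (.f (nat_lit 688) (nat_lit 719) (nat_lit 5711) (.d (nat_lit 689) (nat_lit 657) (nat_lit 4656) (nat_lit 721) (nat_lit 4688)))) (.a (.f (nat_lit 689) (nat_lit 657) (nat_lit 4656) (.f (nat_lit 688) (nat_lit 721) (nat_lit 4688) (.f (nat_lit 719) (nat_lit 687) (nat_lit 5711) (.f (nat_lit 720) (nat_lit 751) (nat_lit 5743) (.d (nat_lit 591) (nat_lit 559) (nat_lit 7727) (nat_lit 623) (nat_lit 7759)))))) (.f (nat_lit 623) (nat_lit 655) (nat_lit 5647) (.f (nat_lit 689) (nat_lit 657) (nat_lit 4656) (.f (nat_lit 688) (nat_lit 721) (nat_lit 4688) (.d (nat_lit 591) (nat_lit 559) (nat_lit 7727) (nat_lit 720) (nat_lit 7759))))))))) s36051)))))) (.a (.p (nat_lit 624) (.a (.f (nat_lit 655) (nat_lit 623) (nat_lit 5647) (.f (nat_lit 656) (nat_lit 687) (nat_lit 5679) (.d (nat_lit 657) (nat_lit 625) (nat_lit 4624) (nat_lit 689) (nat_lit 4656)))) (.a s35182 (.a s36062 (.a (.p (nat_lit 590) (.a s35334 (.a (.p (nat_lit 559) (.a (.f (nat_lit 589) (nat_lit 561) (nat_lit 1581) (.d (nat_lit 588) (nat_lit 557) (nat_lit 1580) (nat_lit 587) (nat_lit 2603))) (.a (.f (nat_lit 557) (nat_lit 593) (nat_lit 557) (.f (nat_lit 589) (nat_lit 588) (nat_lit 1580) (.f (nat_lit 525) (nat_lit 524) (nat_lit 3596) (.d (nat_lit 493) (nat_lit 461) (nat_lit 4557) (nat_lit 622) (nat_lit 4589))))) (.a (.f (nat_lit 561) (nat_lit 589) (nat_lit 1581) (.f (nat_lit 593) (nat_lit 594) (nat_lit 558) (.f (nat_lit 657) (nat_lit 625) (nat_lit 4624) (.d (nat_lit 656) (nat_lit 688) (nat_lit 6704) (nat_lit 689) (nat_lit 4656))))) (.f (nat_lit 593) (nat_lit 557) (nat_lit 557) (.d (nat_lit 594) (nat_lit 561) (nat_lit 558) (nat_lit 595) (nat_lit 3631))))))) (.a (.p (nat_lit 622) (.a s36083 (.a s35261 (.a (.p (nat_lit 526) (.a (.f (nat_lit 621) (nat_lit 653) (nat_lit 5645) (.f (nat_lit 494) (nat_lit 589) (nat_lit 5613) (.d (nat_lit 493) (nat_lit 461) (nat_lit 7629) (nat_lit 525) (nat_lit 7661)))) (.a (.f (nat_lit 621) (nat_lit 653) (nat_lit 5645) (.f (nat_lit 494) (nat_lit 589) (nat_lit 5613) (.f (nat_lit 463) (nat_lit 495) (nat_lit 6606) (.f (nat_lit 462) (nat_lit 431) (nat_lit 6574) (.d (nat_lit 461) (nat_lit 429) (nat_lit 7597) (nat_lit 493) (nat_lit 7629)))))) (.a (.f (nat_lit 525) (nat_lit 493) (nat_lit 7661) (.f (nat_lit 654) (nat_lit 557) (nat_lit 7693) (.d (nat_lit 653) (nat_lit 621) (nat_lit 5645) (nat_lit 685) (nat_lit 5677)))) (.a (.f (nat_lit 621) (nat_lit 653) (nat_lit 5645) (.f (nat_lit 589) (nat_lit 494) (nat_lit 5613) (.d (nat_lit 623) (nat_lit 588) (nat_lit 3660) (nat_lit 625) (nat_lit 3661)))) (.f (nat_lit 525) (nat_lit 493) (nat_lit 7661) (.f (nat_lit 559) (nat_lit 561) (nat_lit 3597) (.d (nat_lit 557) (nat_lit 524) (nat_lit 3596) (nat_lit 654) (nat_lit 7693))))))))) (.a (.p (nat_lit 589) (.a (.f (nat_lit 559) (nat_lit 561) (nat_lit 1581) (.d (nat_lit 557) (nat_lit 588) (nat_lit 1580) (nat_lit 593) (nat_lit 557))) (.a (.f (nat_lit 623) (nat_lit 625) (nat_lit 3661) (.d (nat_lit 588) (nat_lit 587) (nat_lit 587) (nat_lit 621) (nat_lit 3660))) (.f (nat_lit 623) (nat_lit 625) (nat_lit 3661) (.f (nat_lit 621) (nat_lit 593) (nat_lit 2637) (.d (nat_lit 526) (nat_lit 494) (nat_lit 5613) (nat_lit 653) (nat_lit 5645))))))) (.a (.p (nat_lit 621) (.a (.f (nat_lit 653) (nat_lit 526) (nat_lit 5645) (.d (nat_lit 685) (nat_lit 589) (nat_lit 6701) (nat_lit 654) (nat_lit 5677))) (.a (.f (nat_lit 653) (nat_lit 526) (nat_lit 5645) (.d (nat_lit 685) (nat_lit 654) (nat_lit 5677) (nat_lit 717) (nat_lit 6733))) (.f (nat_lit 623) (nat_lit 593) (nat_lit 2637) (.d (nat_lit 589) (nat_lit 588) (nat_lit 3660) (nat_lit 625) (nat_lit 3661)))))) (.a (.p (nat_lit 557) (.a (.f (nat_lit 559) (nat_lit 593) (nat_lit 557) (.d (nat_lit 589) (nat_lit 561) (nat_lit 1581) (nat_lit 588) (nat_lit 1580))) (.a (.f (nat_lit 525) (nat_lit 654) (nat_lit 7693) (.d (nat_lit 559) (nat_lit 524) (nat_lit 3596) (nat_lit 593) (nat_lit 557))) (.f (nat_lit 525) (nat_lit 654) (nat_lit 7693) (.d (nat_lit 493) (nat_lit 461) (nat_lit 4557) (nat_lit 526) (nat_lit 7661)))))) (.a (.p (nat_lit 557) (.a (.f (nat_lit 525) (nat_lit 654) (nat_lit 7693) (.d (nat_lit 559) (nat_lit 524) (nat_lit 3596) (nat_lit 593) (nat_lit 557))) (.a (.f (nat_lit 525) (nat_lit 654) (nat_lit 7693) (.d (nat_lit 493) (nat_lit 461) (nat_lit 4557) (nat_lit 526) (nat_lit 7661))) (.f (nat_lit 593) (nat_lit 559) (nat_lit 557) (.f (nat_lit 623) (nat_lit 621) (nat_lit 2637) (.d (nat_lit 594) (nat_lit 595) (nat_lit 1615) (nat_lit 625) (nat_lit 2638))))))) (.p (nat_lit 557) (.a (.f (nat_lit 559) (nat_lit 593) (nat_lit 557) (.d (nat_lit 589) (nat_lit 561) (nat_lit 1581) (nat_lit 588) (nat_lit 1580))) (.a (.f (nat_lit 525) (nat_lit 654) (nat_lit 7693) (.d (nat_lit 559) (nat_lit 524) (nat_lit 3596) (nat_lit 593) (nat_lit 557))) (.f (nat_lit 654) (nat_lit 525) (nat_lit 7693) (.f (nat_lit 686) (nat_lit 589) (nat_lit 7725) (.d (nat_lit 685) (nat_lit 653) (nat_lit 5677) (nat_lit 717) (nat_lit 5709))))))))))))))) (.a s36213 (.a (.p (nat_lit 526) (.a s36129 (.a (.p (nat_lit 494) (.a (.f (nat_lit 621) (nat_lit 589) (nat_lit 5613) (.f (nat_lit 622) (nat_lit 653) (nat_lit 5645) (.d (nat_lit 493) (nat_lit 461) (nat_lit 7629) (nat_lit 525) (nat_lit 7661)))) (.a (.f (nat_lit 589) (nat_lit 621) (nat_lit 5613) (.f (nat_lit 559) (nat_lit 561) (nat_lit 1581) (.d (nat_lit 557) (nat_lit 462) (nat_lit 5581) (nat_lit 588) (nat_lit 1580)))) (.f (nat_lit 493) (nat_lit 461) (nat_lit 7629) (.f (nat_lit 525) (nat_lit 622) (nat_lit 7661) (.f (nat_lit 559) (nat_lit 561) (nat_lit 3597) (.d (nat_lit 524) (nat_lit 523) (nat_lit 523) (nat_lit 557) (nat_lit 3596)))))))) (.a (.p (nat_lit 494) (.a (.f (nat_lit 589) (nat_lit 621) (nat_lit 5613) (.f (nat_lit 462) (nat_lit 557) (nat_lit 5581) (.d (nat_lit 463) (nat_lit 431) (nat_lit 6574) (nat_lit 495) (nat_lit 6606)))) (.a (.f (nat_lit 589) (nat_lit 621) (nat_lit 5613) (.f (nat_lit 559) (nat_lit 561) (nat_lit 1581) (.d (nat_lit 557) (nat_lit 462) (nat_lit 5581) (nat_lit 588) (nat_lit 1580)))) (.a (.f (nat_lit 463) (nat_lit 495) (nat_lit 6606) (.f (nat_lit 462) (nat_lit 431) (nat_lit 6574) (.d (nat_lit 461) (nat_lit 429) (nat_lit 7597) (nat_lit 493) (nat_lit 7629)))) (.f (nat_lit 589) (nat_lit 621) (nat_lit 5613) (.f (nat_lit 559) (nat_lit 561) (nat_lit 1581) (.d (nat_lit 588) (nat_lit 557) (nat_lit 1580) (nat_lit 587) (nat_lit 2603)))))))) (.a (.p (nat_lit 494) (.a (.f (nat_lit 621) (nat_lit 589) (nat_lit 5613) (.f (nat_lit 622) (nat_lit 653) (nat_lit 5645) (.d (nat_lit 493) (nat_lit 461) (nat_lit 7629) (nat_lit 525) (nat_lit 7661)))) (.a (.f (nat_lit 463) (nat_lit 495) (nat_lit 6606) (.f (nat_lit 462) (nat_lit 431) (nat_lit 6574) (.d (nat_lit 461) (nat_lit 429) (nat_lit 7597) (nat_lit 493) (nat_lit 7629)))) (.f (nat_lit 657) (nat_lit 625) (nat_lit 4624) (.f (nat_lit 621) (nat_lit 589) (nat_lit 5613) (.f (nat_lit 656) (nat_lit 689) (nat_lit 4656) (.d (nat_lit 622) (nat_lit 623) (nat_lit 621) (nat_lit 653) (nat_lit 5645)))))))) (.a (.p (nat_lit 525) (.a (.f (nat_lit 622) (nat_lit 493) (nat_lit 7661) (.f (nat_lit 654) (nat_lit 557) (nat_lit 7693) (.d (nat_lit 653) (nat_lit 621) (nat_lit 5645) (nat_lit 685) (nat_lit 5677)))) (.a (.f (nat_lit 622) (nat_lit 493) (nat_lit 7661) (.f (nat_lit 653) (nat_lit 621) (nat_lit 5645) (.f (nat_lit 625) (nat_lit 657) (nat_lit 4624) (.d (nat_lit 623) (nat_lit 589) (nat_lit 3661) (nat_lit 654) (nat_lit 1645))))) (.f (nat_lit 559) (nat_lit 561) (nat_lit 3597) (.d (nat_lit 524) (nat_lit 523) (nat_lit 523) (nat_lit 557) (nat_lit 3596)))))) (.a (.p (nat_lit 622) (.a (.f (nat_lit 657) (nat_lit 625) (nat_lit 4624) (.f (nat_lit 653) (nat_lit 621) (nat_lit 5645) (.f (nat_lit 654) (nat_lit 685) (nat_lit 5677) (.f (nat_lit 557) (nat_lit 525) (nat_lit 7693) (.f (nat_lit 686) (nat_lit 589) (nat_lit 7725) (.f (nat_lit 687) (nat_lit 719) (nat_lit 4686) (.d (nat_lit 689) (nat_lit 656) (nat_lit 4656) (nat_lit 688) (nat_lit 3725)))))))) (.a (.f (nat_lit 621) (nat_lit 653) (nat_lit 5645) (.f (nat_lit 589) (nat_lit 494) (nat_lit 5613) (.d (nat_lit 623) (nat_lit 588) (nat_lit 3660) (nat_lit 625) (nat_lit 3661)))) (.a (.f (nat_lit 621) (nat_lit 653) (nat_lit 5645) (.f (nat_lit 589) (nat_lit 494) (nat_lit 5613) (.f (nat_lit 588) (nat_lit 623) (nat_lit 3660) (.d (nat_lit 559) (nat_lit 561) (nat_lit 1581) (nat_lit 587) (nat_lit 2603))))) (.a (.f (nat_lit 625) (nat_lit 657) (nat_lit 4624) (.f (nat_lit 589) (nat_lit 623) (nat_lit 3661) (.f (nat_lit 559) (nat_lit 561) (nat_lit 1581) (.d (nat_lit 588) (nat_lit 557) (nat_lit 1580) (nat_lit 587) (nat_lit 2603))))) (.f (nat_lit 657) (nat_lit 625) (nat_lit 4624) (.f (nat_lit 656) (nat_lit 689) (nat_lit 4656) (.d (nat_lit 621) (nat_lit 623) (nat_lit 621) (nat_lit 653) (nat_lit 5645))))))))) (.a (.p (nat_lit 494) (.a (.f (nat_lit 493) (nat_lit 461) (nat_lit 7629) (.f (nat_lit 525) (nat_lit 622) (nat_lit 7661) (.f (nat_lit 463) (nat_lit 495) (nat_lit 6606) (.f (nat_lit 462) (nat_lit 431) (nat_lit 6574) (.d (nat_lit 430) (nat_lit 398) (nat_lit 5517) (nat_lit 557) (nat_lit 5549)))))) (.a (.f (nat_lit 493) (nat_lit 461) (nat_lit 7629) (.f (nat_lit 525) (nat_lit 622) (nat_lit 7661) (.f (nat_lit 559) (nat_lit 561) (nat_lit 3597) (.d (nat_lit 524) (nat_lit 523) (nat_lit 523) (nat_lit 557) (nat_lit 3596))))) (.a (.f (nat_lit 463) (nat_lit 495) (nat_lit 6606) (.f (nat_lit 462) (nat_lit 431) (nat_lit 6574) (.d (nat_lit 461) (nat_lit 429) (nat_lit 7597) (nat_lit 493) (nat_lit 7629)))) (.a (.f (nat_lit 463) (nat_lit 495) (nat_lit 6606) (.f (nat_lit 462) (nat_lit 431) (nat_lit 6574) (.f (nat_lit 557) (nat_lit 589) (nat_lit 5581) (.f (nat_lit 430) (nat_lit 525) (nat_lit 5549) (.d (nat_lit 429) (nat_lit 397) (nat_lit 7565) (nat_lit 461) (nat_lit 7597)))))) (.f (nat_lit 463) (nat_lit 495) (nat_lit 6606) (.f (nat_lit 462) (nat_lit 431) (nat_lit 6574) (.f (nat_lit 557) (nat_lit 589) (nat_lit 5581) (.f (nat_lit 525) (nat_lit 430) (nat_lit 5549) (.d (nat_lit 559) (nat_lit 524) (nat_lit 3596) (nat_lit 561) (nat_lit 3597))))))))))) (.p (nat_lit 525) (.a (.f (nat_lit 493) (nat_lit 622) (nat_lit 7661) (.d (nat_lit 461) (nat_lit 429) (nat_lit 4525) (nat_lit 494) (nat_lit 7629))) (.a (.f (nat_lit 622) (nat_lit 493) (nat_lit 7661) (.f (nat_lit 654) (nat_lit 557) (nat_lit 7693) (.d (nat_lit 653) (nat_lit 621) (nat_lit 5645) (nat_lit 685) (nat_lit 5677)))) (.f (nat_lit 559) (nat_lit 561) (nat_lit 3597) (.d (nat_lit 524) (nat_lit 523) (nat_lit 523) (nat_lit 557) (nat_lit 3596)))))))))))))) (.a (.p (nat_lit 559) (.a (.f (nat_lit 589) (nat_lit 561) (nat_lit 1581) (.d (nat_lit 588) (nat_lit 557) (nat_lit 1580) (nat_lit 587) (nat_lit 2603))) (.a (.f (nat_lit 557) (nat_lit 593) (nat_lit 557) (.f (nat_lit 589) (nat_lit 588) (nat_lit 1580) (.f (nat_lit 625) (nat_lit 657) (nat_lit 4624) (.f (nat_lit 622) (nat_lit 623) (nat_lit 3661) (.f (nat_lit 654) (nat_lit 686) (nat_lit 7725) (.f (nat_lit 653) (nat_lit 685) (nat_lit 5677) (.f (nat_lit 621) (nat_lit 526) (nat_lit 5645) (.f (nat_lit 556) (nat_lit 524) (nat_lit 7692) (.f (nat_lit 555) (nat_lit 554) (nat_lit 554) (.f (nat_lit 652) (nat_lit 684) (nat_lit 5676) (.f (nat_lit 651) (nat_lit 650) (nat_lit 2666) (.f (nat_lit 619) (nat_lit 618) (nat_lit 3690) (.f (nat_lit 587) (nat_lit 586) (nat_lit 1578) (.d (nat_lit 523) (nat_lit 522) (nat_lit 3594) (nat_lit 620) (nat_lit 4619))))))))))))))) (.a (.f (nat_lit 561) (nat_lit 589) (nat_lit 1581) (.f (nat_lit 593) (nat_lit 594) (nat_lit 558) (.f (nat_lit 657) (nat_lit 625) (nat_lit 4624) (.d (nat_lit 656) (nat_lit 688) (nat_lit 6704) (nat_lit 689) (nat_lit 4656))))) (.f (nat_lit 593) (nat_lit 557) (nat_lit 557) (.d (nat_lit 594) (nat_lit 561) (nat_lit 558) (nat_lit 595) (nat_lit 3631))))))) (.a (.p (nat_lit 561) (.a (.f (nat_lit 559) (nat_lit 589) (nat_lit 1581) (.f (nat_lit 593) (nat_lit 594) (nat_lit 558) (.f (nat_lit 657) (nat_lit 625) (nat_lit 4624) (.d (nat_lit 656) (nat_lit 688) (nat_lit 6704) (nat_lit 689) (nat_lit 4656))))) (.a (.p (nat_lit 656) (.a (.f (nat_lit 688) (nat_lit 593) (nat_lit 6704) (.f (nat_lit 719) (nat_lit 687) (nat_lit 5711) (.f (nat_lit 720) (nat_lit 751) (nat_lit 5743) (.d (nat_lit 721) (nat_lit 689) (nat_lit 4688) (nat_lit 753) (nat_lit 4720))))) (.a (.d (nat_lit 657) (nat_lit 625) (nat_lit 4624) (nat_lit 689) (nat_lit 4656)) (.p (nat_lit 622) (.a (.f (nat_lit 688) (nat_lit 593) (nat_lit 6704) (.f (nat_lit 687) (nat_lit 719) (nat_lit 5711) (.f (nat_lit 657) (nat_lit 625) (nat_lit 4624) (.f (nat_lit 685) (nat_lit 686) (nat_lit 2701) (.f (nat_lit 653) (nat_lit 654) (nat_lit 5677) (.d (nat_lit 621) (nat_lit 526) (nat_lit 5645) (nat_lit 589) (nat_lit 6701))))))) (.a (.f (nat_lit 593) (nat_lit 688) (nat_lit 6704) (.f (nat_lit 621) (nat_lit 623) (nat_lit 2637) (.f (nat_lit 653) (nat_lit 526) (nat_lit 5645) (.d (nat_lit 685) (nat_lit 589) (nat_lit 6701) (nat_lit 654) (nat_lit 5677))))) (.a (.f (nat_lit 625) (nat_lit 657) (nat_lit 4624) (.f (nat_lit 623) (nat_lit 589) (nat_lit 3661) (.f (nat_lit 653) (nat_lit 654) (nat_lit 1645) (.d (nat_lit 621) (nat_lit 526) (nat_lit 5645) (nat_lit 652) (nat_lit 1644))))) (.a (.f (nat_lit 625) (nat_lit 657) (nat_lit 4624) (.f (nat_lit 593) (nat_lit 688) (nat_lit 6704) (.d (nat_lit 623) (nat_lit 589) (nat_lit 3661) (nat_lit 594) (nat_lit 2638)))) (.f (nat_lit 593) (nat_lit 688) (nat_lit 6704) (.f (nat_lit 625) (nat_lit 657) (nat_lit 4624) (.d (nat_lit 623) (nat_lit 594) (nat_lit 2638) (nat_lit 621) (nat_lit 2637)))))))))))) (.a (.f (nat_lit 559) (nat_lit 589) (nat_lit 1581) (.p (nat_lit 562) (.a (.d (nat_lit 594) (nat_lit 593) (nat_lit 558) (nat_lit 595) (nat_lit 559)) (.a (.f (nat_lit 531) (nat_lit 530) (nat_lit 2575) (.f (nat_lit 563) (nat_lit 532) (nat_lit 2576) (.d (nat_lit 595) (nat_lit 594) (nat_lit 559) (nat_lit 596) (nat_lit 560)))) (.a (.f (nat_lit 593) (nat_lit 594) (nat_lit 558) (.f (nat_lit 563) (nat_lit 564) (nat_lit 1584) (.d (nat_lit 531) (nat_lit 530) (nat_lit 2575) (nat_lit 532) (nat_lit 2576)))) (.f (nat_lit 531) (nat_lit 530) (nat_lit 2575) (.f (nat_lit 563) (nat_lit 532) (nat_lit 2576) (.f (nat_lit 564) (nat_lit 593) (nat_lit 1584) (.d (nat_lit 596) (nat_lit 595) (nat_lit 560) (nat_lit 597) (nat_lit 561)))))))))) (.a (.p (nat_lit 526) (.a (.d (nat_lit 559) (nat_lit 525) (nat_lit 3597) (nat_lit 589) (nat_lit 1581)) (.a (.p (nat_lit 494) (.a (.f (nat_lit 657) (nat_lit 625) (nat_lit 4624) (.f (nat_lit 656) (nat_lit 689) (nat_lit 4656) (.f (nat_lit 621) (nat_lit 589) (nat_lit 5613) (.d (nat_lit 622) (nat_lit 623) (nat_lit 621) (nat_lit 653) (nat_lit 5645))))) (.a (.f (nat_lit 493) (nat_lit 461) (nat_lit 7629) (.f (nat_lit 621) (nat_lit 589) (nat_lit 5613) (.d (nat_lit 622) (nat_lit 525) (nat_lit 7661) (nat_lit 653) (nat_lit 5645)))) (.f (nat_lit 461) (nat_lit 493) (nat_lit 7629) (.f (nat_lit 462) (nat_lit 429) (nat_lit 7597) (.d (nat_lit 463) (nat_lit 431) (nat_lit 6574) (nat_lit 495) (nat_lit 6606))))))) (.a (.f (nat_lit 589) (nat_lit 559) (nat_lit 1581) (.f (nat_lit 494) (nat_lit 621) (nat_lit 5613) (.f (nat_lit 461) (nat_lit 493) (nat_lit 7629) (.f (nat_lit 462) (nat_lit 429) (nat_lit 7597) (.d (nat_lit 463) (nat_lit 431) (nat_lit 6574) (nat_lit 495) (nat_lit 6606)))))) (.f (nat_lit 525) (nat_lit 559) (nat_lit 3597) (.f (nat_lit 493) (nat_lit 622) (nat_lit 7661) (.d (nat_lit 461) (nat_lit 429) (nat_lit 4525) (nat_lit 494) (nat_lit 7629)))))))) (.f (nat_lit 657) (nat_lit 625) (nat_lit 4624) (.f (nat_lit 656) (nat_lit 689) (nat_lit 4656) (.f (nat_lit 593) (nat_lit 688) (nat_lit 6704) (.f (nat_lit 594) (nat_lit 559) (nat_lit 558) (.d (nat_lit 595) (nat_lit 596) (nat_lit 3632) (nat_lit 623) (nat_lit 1615))))))))))) (.a (.p (nat_lit 559) (.a (.f (nat_lit 589) (nat_lit 561) (nat_lit 1581) (.d (nat_lit 588) (nat_lit 557) (nat_lit 1580) (nat_lit 587) (nat_lit 2603))) (.a (.f (nat_lit 557) (nat_lit 593) (nat_lit 557) (.f (nat_lit 589) (nat_lit 588) (nat_lit 1580) (.f (nat_lit 525) (nat_lit 524) (nat_lit 3596) (.f (nat_lit 493) (nat_lit 461) (nat_lit 4557) (.f (nat_lit 494) (nat_lit 462) (nat_lit 6605) (.f (nat_lit 621) (nat_lit 526) (nat_lit 5613) (.f (nat_lit 653) (nat_lit 685) (nat_lit 6701) (.d (nat_lit 652) (nat_lit 620) (nat_lit 5644) (nat_lit 684) (nat_lit 5676))))))))) (.a (.f (nat_lit 561) (nat_lit 589) (nat_lit 1581) (.f (nat_lit 593) (nat_lit 594) (nat_lit 558) (.f (nat_lit 657) (nat_lit 625) (nat_lit 4624) (.d (nat_lit 656) (nat_lit 688) (nat_lit 6704) (nat_lit 689) (nat_lit 4656))))) (.f (nat_lit 593) (nat_lit 557) (nat_lit 557) (.d (nat_lit 594) (nat_lit 561) (nat_lit 558) (nat_lit 595) (nat_lit 3631))))))) (.p (nat_lit 593) (.a (.f (nat_lit 559) (nat_lit 557) (nat_lit 557) (.d (nat_lit 594) (nat_lit 561) (nat_lit 558) (nat_lit 595) (nat_lit 3631))) (.a (.p (nat_lit 594) (.a (.d (nat_lit 559) (nat_lit 557) (nat_lit 557) (nat_lit 595) (nat_lit 3631)) (.a (.f (nat_lit 595) (nat_lit 623) (nat_lit 1615) (.f (nat_lit 596) (nat_lit 625) (nat_lit 1616) (.d (nat_lit 628) (nat_lit 627) (nat_lit 592) (nat_lit 629) (nat_lit 593)))) (.f (nat_lit 625) (nat_lit 657) (nat_lit 4624) (.f (nat_lit 622) (nat_lit 623) (nat_lit 2638) (.f (nat_lit 557) (nat_lit 559) (nat_lit 557) (.f (nat_lit 525) (nat_lit 654) (nat_lit 7693) (.d (nat_lit 493) (nat_lit 461) (nat_lit 4557) (nat_lit 526) (nat_lit 7661))))))))) (.p (nat_lit 656) (.a (.f (nat_lit 688) (nat_lit 561) (nat_lit 6704) (.f (nat_lit 720) (nat_lit 625) (nat_lit 6736) (.d (nat_lit 719) (nat_lit 687) (nat_lit 5711) (nat_lit 751) (nat_lit 5743)))) (.a (.d (nat_lit 657) (nat_lit 625) (nat_lit 4624) (nat_lit 689) (nat_lit 4656)) (.f (nat_lit 688) (nat_lit 561) (nat_lit 6704) (.d (nat_lit 689) (nat_lit 657) (nat_lit 4656) (nat_lit 721) (nat_lit 4688)))))))))))))))))) (.a (.p (nat_lit 590) (.a (.f (nat_lit 655) (nat_lit 623) (nat_lit 5647) (.f (nat_lit 656) (nat_lit 687) (nat_lit 5679) (.f (nat_lit 689) (nat_lit 657) (nat_lit 4656) (.f (nat_lit 688) (nat_lit 721) (nat_lit 4688) (.f (nat_lit 653) (nat_lit 654) (nat_lit 653) (.f (nat_lit 561) (nat_lit 593) (nat_lit 6704) (.f (nat_lit 589) (nat_lit 559) (nat_lit 1581) (.f (nat_lit 621) (nat_lit 685) (nat_lit 6701) (.d (nat_lit 526) (nat_lit 494) (nat_lit 5613) (nat_lit 557) (nat_lit 6669)))))))))) (.a (.p (nat_lit 622) (.a s36083 (.a (.p (nat_lit 557) (.a (.f (nat_lit 559) (nat_lit 593) (nat_lit 557) (.d (nat_lit 589) (nat_lit 561) (nat_lit 1581) (nat_lit 588) (nat_lit 1580))) (.a (.f (nat_lit 525) (nat_lit 654) (nat_lit 7693) (.d (nat_lit 559) (nat_lit 524) (nat_lit 3596) (nat_lit 593) (nat_lit 557))) (.f (nat_lit 525) (nat_lit 654) (nat_lit 7693) (.d (nat_lit 493) (nat_lit 461) (nat_lit 4557) (nat_lit 526) (nat_lit 7661)))))) (.a s35248 (.a (.p (nat_lit 559) (.a (.f (nat_lit 589) (nat_lit 561) (nat_lit 1581) (.d (nat_lit 557) (nat_lit 588) (nat_lit 1580) (nat_lit 593) (nat_lit 557))) (.a (.f (nat_lit 557) (nat_lit 593) (nat_lit 557) (.f (nat_lit 589) (nat_lit 588) (nat_lit 1580) (.f (nat_lit 654) (nat_lit 686) (nat_lit 7725) (.f (nat_lit 653) (nat_lit 685) (nat_lit 5677) (.f (nat_lit 621) (nat_lit 526) (nat_lit 5645) (.f (nat_lit 655) (nat_lit 687) (nat_lit 4654) (.d (nat_lit 620) (nat_lit 619) (nat_lit 619) (nat_lit 656) (nat_lit 3692)))))))) (.a (.f (nat_lit 589) (nat_lit 561) (nat_lit 1581) (.d (nat_lit 588) (nat_lit 557) (nat_lit 1580) (nat_lit 587) (nat_lit 2603))) (.a (.f (nat_lit 561) (nat_lit 589) (nat_lit 1581) (.f (nat_lit 593) (nat_lit 594) (nat_lit 558) (.f (nat_lit 656) (nat_lit 688) (nat_lit 6704) (.f (nat_lit 655) (nat_lit 687) (nat_lit 5679) (.f (nat_lit 657) (nat_lit 689) (nat_lit 4656) (.f (nat_lit 654) (nat_lit 621) (nat_lit 3693) (.d (nat_lit 685) (nat_lit 653) (nat_lit 5677) (nat_lit 686) (nat_lit 1677)))))))) (.f (nat_lit 593) (nat_lit 557) (nat_lit 557) (.d (nat_lit 594) (nat_lit 561) (nat_lit 558) (nat_lit 595) (nat_lit 3631)))))))) (.a (.p (nat_lit 656) (.a (.f (nat_lit 687) (nat_lit 655) (nat_lit 5679) (.f (nat_lit 688) (nat_lit 719) (nat_lit 5711) (.f (nat_lit 721) (nat_lit 689) (nat_lit 4688) (.f (nat_lit 720) (nat_lit 753) (nat_lit 4720) (.f (nat_lit 685) (nat_lit 686) (nat_lit 685) (.f (nat_lit 653) (nat_lit 654) (nat_lit 5677) (.d (nat_lit 621) (nat_lit 526) (nat_lit 5645) (nat_lit 589) (nat_lit 6701)))))))) (.a (.f (nat_lit 689) (nat_lit 657) (nat_lit 4656) (.f (nat_lit 688) (nat_lit 721) (nat_lit 4688) (.f (nat_lit 687) (nat_lit 719) (nat_lit 5711) (.f (nat_lit 561) (nat_lit 593) (nat_lit 6704) (.f (nat_lit 559) (nat_lit 589) (nat_lit 1581) (.f (nat_lit 526) (nat_lit 525) (nat_lit 3597) (.f (nat_lit 653) (nat_lit 621) (nat_lit 5645) (.d (nat_lit 654) (nat_lit 685) (nat_lit 5677) (nat_lit 686) (nat_lit 3725))))))))) (.a (.f (nat_lit 687) (nat_lit 655) (nat_lit 5679) (.f (nat_lit 688) (nat_lit 719) (nat_lit 5711) (.f (nat_lit 561) (nat_lit 593) (nat_lit 6704) (.f (nat_lit 559) (nat_lit 589) (nat_lit 1581) (.f (nat_lit 526) (nat_lit 525) (nat_lit 3597) (.f (nat_lit 653) (nat_lit 621) (nat_lit 5645) (.f (nat_lit 685) (nat_lit 654) (nat_lit 5677) (.d (nat_lit 686) (nat_lit 652) (nat_lit 3724) (nat_lit 657) (nat_lit 2701))))))))) (.a (.f (nat_lit 689) (nat_lit 657) (nat_lit 4656) (.f (nat_lit 688) (nat_lit 721) (nat_lit 4688) (.f (nat_lit 561) (nat_lit 593) (nat_lit 6704) (.f (nat_lit 559) (nat_lit 589) (nat_lit 1581) (.f (nat_lit 526) (nat_lit 525) (nat_lit 3597) (.f (nat_lit 653) (nat_lit 621) (nat_lit 5645) (.d (nat_lit 654) (nat_lit 655) (nat_lit 653) (nat_lit 685) (nat_lit 5677)))))))) (.a (.f (nat_lit 655) (nat_lit 687) (nat_lit 5679) (.f (nat_lit 657) (nat_lit 689) (nat_lit 4656) (.f (nat_lit 654) (nat_lit 621) (nat_lit 3693) (.d (nat_lit 685) (nat_lit 653) (nat_lit 5677) (nat_lit 686) (nat_lit 1677))))) (.f (nat_lit 687) (nat_lit 655) (nat_lit 5679) (.f (nat_lit 688) (nat_lit 719) (nat_lit 5711) (.d (nat_lit 689) (nat_lit 657) (nat_lit 4656) (nat_lit 721) (nat_lit 4688)))))))))) (.a (.p (nat_lit 656) (.a (.f (nat_lit 687) (nat_lit 655) (nat_lit 5679) (.f (nat_lit 688) (nat_lit 719) (nat_lit 5711) (.d (nat_lit 689) (nat_lit 657) (nat_lit 4656) (nat_lit 721) (nat_lit 4688)))) (.a (.f (nat_lit 687) (nat_lit 655) (nat_lit 5679) (.f (nat_lit 688) (nat_lit 719) (nat_lit 5711) (.f (nat_lit 721) (nat_lit 689) (nat_lit 4688) (.f (nat_lit 720) (nat_lit 753) (nat_lit 4720) (.f (nat_lit 685) (nat_lit 686) (nat_lit 685) (.f (nat_lit 653) (nat_lit 654) (nat_lit 5677) (.d (nat_lit 621) (nat_lit 526) (nat_lit 5645) (nat_lit 717) (nat_lit 6733)))))))) (.a (.f (nat_lit 689) (nat_lit 657) (nat_lit 4656) (.f (nat_lit 688) (nat_lit 721) (nat_lit 4688) (.f (nat_lit 593) (nat_lit 561) (nat_lit 6704) (.f (nat_lit 557) (nat_lit 559) (nat_lit 557) (.f (nat_lit 525) (nat_lit 654) (nat_lit 7693) (.d (nat_lit 493) (nat_lit 461) (nat_lit 4557) (nat_lit 526) (nat_lit 7661))))))) (.a (.f (nat_lit 687) (nat_lit 655) (nat_lit 5679) (.f (nat_lit 688) (nat_lit 719) (nat_lit 5711) (.f (nat_lit 593) (nat_lit 561) (nat_lit 6704) (.f (nat_lit 557) (nat_lit 559) (nat_lit 557) (.f (nat_lit 525) (nat_lit 654) (nat_lit 7693) (.d (nat_lit 493) (nat_lit 461) (nat_lit 4557) (nat_lit 526) (nat_lit 7661))))))) (.f (nat_lit 655) (nat_lit 687) (nat_lit 5679) (.f (nat_lit 657) (nat_lit 689) (nat_lit 4656) (.f (nat_lit 654) (nat_lit 621) (nat_lit 3693) (.d (nat_lit 685) (nat_lit 653) (nat_lit 5677) (nat_lit 686) (nat_lit 1677)))))))))) (.a (.p (nat_lit 557) (.a (.f (nat_lit 559) (nat_lit 593) (nat_lit 557) (.d (nat_lit 589) (nat_lit 561) (nat_lit 1581) (nat_lit 588) (nat_lit 1580))) (.a (.f (nat_lit 525) (nat_lit 654) (nat_lit 7693) (.d (nat_lit 559) (nat_lit 524) (nat_lit 3596) (nat_lit 593) (nat_lit 557))) (.f (nat_lit 654) (nat_lit 525) (nat_lit 7693) (.f (nat_lit 686) (nat_lit 589) (nat_lit 7725) (.d (nat_lit 685) (nat_lit 653) (nat_lit 5677) (nat_lit 717) (nat_lit 5709))))))) (.p (nat_lit 526) (.a (.f (nat_lit 621) (nat_lit 653) (nat_lit 5645) (.f (nat_lit 494) (nat_lit 589) (nat_lit 5613) (.d (nat_lit 493) (nat_lit 461) (nat_lit 7629) (nat_lit 525) (nat_lit 7661)))) (.a (.f (nat_lit 621) (nat_lit 653) (nat_lit 5645) (.f (nat_lit 494) (nat_lit 589) (nat_lit 5613) (.f (nat_lit 463) (nat_lit 495) (nat_lit 6606) (.f (nat_lit 462) (nat_lit 431) (nat_lit 6574) (.d (nat_lit 461) (nat_lit 429) (nat_lit 7597) (nat_lit 493) (nat_lit 7629)))))) (.a (.f (nat_lit 525) (nat_lit 493) (nat_lit 7661) (.f (nat_lit 559) (nat_lit 561) (nat_lit 3597) (.d (nat_lit 524) (nat_lit 523) (nat_lit 523) (nat_lit 557) (nat_lit 3596)))) (.f (nat_lit 621) (nat_lit 653) (nat_lit 5645) (.f (nat_lit 589) (nat_lit 494) (nat_lit 5613) (.f (nat_lit 559) (nat_lit 561) (nat_lit 1581) (.d (nat_lit 557) (nat_lit 588) (nat_lit 1580) (nat_lit 593) (nat_lit 557))))))))))))))))) (.a s35468 (.a s36213 (.a (.p (nat_lit 589) (.a (.f (nat_lit 559) (nat_lit 561) (nat_lit 1581) (.d (nat_lit 588) (nat_lit 557) (nat_lit 1580) (nat_lit 587) (nat_lit 2603))) (.a (.f (nat_lit 655) (nat_lit 623) (nat_lit 5647) (.f (nat_lit 656) (nat_lit 687) (nat_lit 5679) (.f (nat_lit 689) (nat_lit 657) (nat_lit 4656) (.f (nat_lit 688) (nat_lit 721) (nat_lit 4688) (.f (nat_lit 653) (nat_lit 654) (nat_lit 653) (.f (nat_lit 621) (nat_lit 685) (nat_lit 6701) (.d (nat_lit 526) (nat_lit 494) (nat_lit 5613) (nat_lit 557) (nat_lit 6669)))))))) (.f (nat_lit 655) (nat_lit 623) (nat_lit 5647) (.f (nat_lit 656) (nat_lit 687) (nat_lit 5679) (.f (nat_lit 689) (nat_lit 657) (nat_lit 4656) (.f (nat_lit 688) (nat_lit 721) (nat_lit 4688) (.f (nat_lit 653) (nat_lit 654) (nat_lit 653) (.f (nat_lit 621) (nat_lit 685) (nat_lit 6701) (.d (nat_lit 526) (nat_lit 494) (nat_lit 5613) (nat_lit 622) (nat_lit 5645))))))))))) (.a (.p (nat_lit 526) (.a s36129 (.a (.p (nat_lit 494) (.a (.f (nat_lit 621) (nat_lit 589) (nat_lit 5613) (.f (nat_lit 622) (nat_lit 653) (nat_lit 5645) (.d (nat_lit 493) (nat_lit 461) (nat_lit 7629) (nat_lit 525) (nat_lit 7661)))) (.a (.f (nat_lit 589) (nat_lit 621) (nat_lit 5613) (.f (nat_lit 559) (nat_lit 561) (nat_lit 1581) (.d (nat_lit 557) (nat_lit 462) (nat_lit 5581) (nat_lit 588) (nat_lit 1580)))) (.f (nat_lit 493) (nat_lit 461) (nat_lit 7629) (.f (nat_lit 525) (nat_lit 622) (nat_lit 7661) (.f (nat_lit 559) (nat_lit 561) (nat_lit 3597) (.d (nat_lit 524) (nat_lit 523) (nat_lit 523) (nat_lit 557) (nat_lit 3596)))))))) (.a s36144 (.a (.p (nat_lit 494) (.a (.f (nat_lit 621) (nat_lit 589) (nat_lit 5613) (.f (nat_lit 622) (nat_lit 653) (nat_lit 5645) (.d (nat_lit 493) (nat_lit 461) (nat_lit 7629) (nat_lit 525) (nat_lit 7661)))) (.a (.f (nat_lit 463) (nat_lit 495) (nat_lit 6606) (.f (nat_lit 462) (nat_lit 431) (nat_lit 6574) (.d (nat_lit 461) (nat_lit 429) (nat_lit 7597) (nat_lit 493) (nat_lit 7629)))) (.f (nat_lit 623) (nat_lit 655) (nat_lit 5647) (.f (nat_lit 621) (nat_lit 589) (nat_lit 5613) (.d (nat_lit 622) (nat_lit 593) (nat_lit 2637) (nat_lit 653) (nat_lit 5645))))))) (.a s36198 (.a (.p (nat_lit 589) (.a (.f (nat_lit 621) (nat_lit 494) (nat_lit 5613) (.d (nat_lit 653) (nat_lit 622) (nat_lit 5645) (nat_lit 685) (nat_lit 6701))) (.f (nat_lit 559) (nat_lit 561) (nat_lit 1581) (.d (nat_lit 557) (nat_lit 588) (nat_lit 1580) (nat_lit 593) (nat_lit 557))))) (.a s36209 (.p (nat_lit 525) (.a (.f (nat_lit 493) (nat_lit 622) (nat_lit 7661) (.d (nat_lit 461) (nat_lit 429) (nat_lit 4525) (nat_lit 494) (nat_lit 7629))) (.a (.f (nat_lit 622) (nat_lit 493) (nat_lit 7661) (.f (nat_lit 557) (nat_lit 654) (nat_lit 7693) (.d (nat_lit 559) (nat_lit 524) (nat_lit 3596) (nat_lit 593) (nat_lit 557)))) (.f (nat_lit 559) (nat_lit 561) (nat_lit 3597) (.d (nat_lit 524) (nat_lit 523) (nat_lit 523) (nat_lit 557) (nat_lit 3596)))))))))))))) (.a (.f (nat_lit 655) (nat_lit 623) (nat_lit 5647) (.f (nat_lit 656) (nat_lit 687) (nat_lit 5679) (.f (nat_lit 689) (nat_lit 657) (nat_lit 4656) (.f (nat_lit 688) (nat_lit 721) (nat_lit 4688) (.f (nat_lit 653) (nat_lit 654) (nat_lit 653) (.f (nat_lit 561) (nat_lit 593) (nat_lit 6704) (.f (nat_lit 589) (nat_lit 559) (nat_lit 1581) (.f (nat_lit 621) (nat_lit 685) (nat_lit 6701) (.d (nat_lit 526) (nat_lit 494) (nat_lit 5613) (nat_lit 622) (nat_lit 5645)))))))))) (.a (.f (nat_lit 655) (nat_lit 623) (nat_lit 5647) (.f (nat_lit 656) (nat_lit 687) (nat_lit 5679) (.f (nat_lit 689) (nat_lit 657) (nat_lit 4656) (.f (nat_lit 688) (nat_lit 721) (nat_lit 4688) (.f (nat_lit 653) (nat_lit 654) (nat_lit 653) (.f (nat_lit 561) (nat_lit 593) (nat_lit 6704) (.f (nat_lit 589) (nat_lit 559) (nat_lit 1581) (.f (nat_lit 621) (nat_lit 685) (nat_lit 6701) (.d (nat_lit 526) (nat_lit 557) (nat_lit 6669) (nat_lit 622) (nat_lit 5645)))))))))) (.a (.f (nat_lit 655) (nat_lit 623) (nat_lit 5647) (.f (nat_lit 656) (nat_lit 687) (nat_lit 5679) (.f (nat_lit 689) (nat_lit 657) (nat_lit 4656) (.f (nat_lit 688) (nat_lit 721) (nat_lit 4688) (.f (nat_lit 593) (nat_lit 561) (nat_lit 6704) (.f (nat_lit 557) (nat_lit 559) (nat_lit 557) (.f (nat_lit 654) (nat_lit 653) (nat_lit 653) (.f (nat_lit 622) (nat_lit 525) (nat_lit 7693) (.f (nat_lit 686) (nat_lit 589) (nat_lit 7725) (.f (nat_lit 717) (nat_lit 685) (nat_lit 5709) (.f (nat_lit 718) (nat_lit 749) (nat_lit 5741) (.d (nat_lit 719) (nat_lit 720) (nat_lit 2733) (nat_lit 751) (nat_lit 4718))))))))))))) (.a (.p (nat_lit 593) (.a (.f (nat_lit 655) (nat_lit 623) (nat_lit 5647) (.f (nat_lit 656) (nat_lit 687) (nat_lit 5679) (.f (nat_lit 689) (nat_lit 657) (nat_lit 4656) (.d (nat_lit 688) (nat_lit 561) (nat_lit 6704) (nat_lit 721) (nat_lit 4688))))) (.a (.f (nat_lit 559) (nat_lit 557) (nat_lit 557) (.d (nat_lit 594) (nat_lit 561) (nat_lit 558) (nat_lit 595) (nat_lit 3631))) (.f (nat_lit 623) (nat_lit 655) (nat_lit 5647) (.f (nat_lit 622) (nat_lit 621) (nat_lit 2637) (.f (nat_lit 557) (nat_lit 559) (nat_lit 557) (.f (nat_lit 525) (nat_lit 654) (nat_lit 7693) (.d (nat_lit 493) (nat_lit 461) (nat_lit 4557) (nat_lit 526) (nat_lit 7661))))))))) (.p (nat_lit 559) (.a (.f (nat_lit 589) (nat_lit 561) (nat_lit 1581) (.d (nat_lit 588) (nat_lit 557) (nat_lit 1580) (nat_lit 587) (nat_lit 2603))) (.a (.f (nat_lit 557) (nat_lit 593) (nat_lit 557) (.f (nat_lit 589) (nat_lit 588) (nat_lit 1580) (.f (nat_lit 525) (nat_lit 524) (nat_lit 3596) (.d (nat_lit 493) (nat_lit 461) (nat_lit 4557) (nat_lit 622) (nat_lit 4589))))) (.a (.f (nat_lit 561) (nat_lit 589) (nat_lit 1581) (.f (nat_lit 593) (nat_lit 594) (nat_lit 558) (.f (nat_lit 655) (nat_lit 623) (nat_lit 5647) (.d (nat_lit 656) (nat_lit 687) (nat_lit 5679) (nat_lit 688) (nat_lit 6704))))) (.f (nat_lit 593) (nat_lit 557) (nat_lit 557) (.d (nat_lit 594) (nat_lit 561) (nat_lit 558) (nat_lit 595) (nat_lit 3631)))))))))))))))))) (.p (nat_lit 593) (.a (.f (nat_lit 559) (nat_lit 557) (nat_lit 557) (.d (nat_lit 594) (nat_lit 561) (nat_lit 558) (nat_lit 595) (nat_lit 3631))) (.a (.f (nat_lit 625) (nat_lit 657) (nat_lit 4624) (.f (nat_lit 623) (nat_lit 655) (nat_lit 5647) (.d (nat_lit 594) (nat_lit 595) (nat_lit 1615) (nat_lit 622) (nat_lit 2638)))) (.a (.f (nat_lit 625) (nat_lit 657) (nat_lit 4624) (.f (nat_lit 623) (nat_lit 655) (nat_lit 5647) (.d (nat_lit 622) (nat_lit 594) (nat_lit 2638) (nat_lit 621) (nat_lit 2637)))) (.f (nat_lit 625) (nat_lit 657) (nat_lit 4624) (.f (nat_lit 623) (nat_lit 655) (nat_lit 5647) (.f (nat_lit 622) (nat_lit 621) (nat_lit 2637) (.f (nat_lit 590) (nat_lit 589) (nat_lit 3661) (.f (nat_lit 654) (nat_lit 653) (nat_lit 1645) (.d (nat_lit 557) (nat_lit 525) (nat_lit 7693) (nat_lit 559) (nat_lit 557))))))))))))))))) (.a (.p (nat_lit 624) (.a (.f (nat_lit 655) (nat_lit 623) (nat_lit 5647) (.f (nat_lit 656) (nat_lit 687) (nat_lit 5679) (.f (nat_lit 689) (nat_lit 657) (nat_lit 4656) (.f (nat_lit 688) (nat_lit 721) (nat_lit 4688) (.f (nat_lit 559) (nat_lit 591) (nat_lit 7727) (.d (nat_lit 593) (nat_lit 557) (nat_lit 557) (nat_lit 561) (nat_lit 6704))))))) (.a (.f (nat_lit 657) (nat_lit 625) (nat_lit 4624) (.f (nat_lit 656) (nat_lit 689) (nat_lit 4656) (.f (nat_lit 687) (nat_lit 655) (nat_lit 5679) (.f (nat_lit 688) (nat_lit 719) (nat_lit 5711) (.f (nat_lit 559) (nat_lit 591) (nat_lit 7727) (.d (nat_lit 593) (nat_lit 557) (nat_lit 557) (nat_lit 561) (nat_lit 6704))))))) (.a (.f (nat_lit 655) (nat_lit 623) (nat_lit 5647) (.f (nat_lit 656) (nat_lit 687) (nat_lit 5679) (.d (nat_lit 657) (nat_lit 625) (nat_lit 4624) (nat_lit 689) (nat_lit 4656)))) (.a s36062 (.a (.p (nat_lit 656) (.a (.d (nat_lit 657) (nat_lit 625) (nat_lit 4624) (nat_lit 689) (nat_lit 4656)) (.a (.p (nat_lit 559) (.a (.f (nat_lit 557) (nat_lit 593) (nat_lit 557) (.d (nat_lit 591) (nat_lit 556) (nat_lit 556) (nat_lit 688) (nat_lit 7727))) (.a (.f (nat_lit 688) (nat_lit 591) (nat_lit 7727) (.f (nat_lit 721) (nat_lit 689) (nat_lit 4688) (.f (nat_lit 720) (nat_lit 753) (nat_lit 4720) (.d (nat_lit 719) (nat_lit 687) (nat_lit 5711) (nat_lit 751) (nat_lit 5743))))) (.f (nat_lit 557) (nat_lit 593) (nat_lit 557) (.f (nat_lit 588) (nat_lit 589) (nat_lit 1580) (.f (nat_lit 556) (nat_lit 587) (nat_lit 1579) (.d (nat_lit 524) (nat_lit 523) (nat_lit 3595) (nat_lit 525) (nat_lit 3596)))))))) (.p (nat_lit 559) (.a (.f (nat_lit 593) (nat_lit 557) (nat_lit 557) (.d (nat_lit 594) (nat_lit 561) (nat_lit 558) (nat_lit 591) (nat_lit 3630))) (.a (.f (nat_lit 557) (nat_lit 593) (nat_lit 557) (.d (nat_lit 591) (nat_lit 556) (nat_lit 556) (nat_lit 688) (nat_lit 7727))) (.a (.f (nat_lit 591) (nat_lit 688) (nat_lit 7727) (.f (nat_lit 557) (nat_lit 556) (nat_lit 556) (.f (nat_lit 525) (nat_lit 524) (nat_lit 3596) (.f (nat_lit 589) (nat_lit 588) (nat_lit 1580) (.f (nat_lit 526) (nat_lit 561) (nat_lit 3597) (.d (nat_lit 494) (nat_lit 462) (nat_lit 4558) (nat_lit 621) (nat_lit 6637))))))) (.a (.f (nat_lit 688) (nat_lit 591) (nat_lit 7727) (.f (nat_lit 593) (nat_lit 561) (nat_lit 6704) (.f (nat_lit 720) (nat_lit 625) (nat_lit 6736) (.d (nat_lit 719) (nat_lit 687) (nat_lit 5711) (nat_lit 751) (nat_lit 5743))))) (.f (nat_lit 593) (nat_lit 557) (nat_lit 557) (.d (nat_lit 594) (nat_lit 561) (nat_lit 558) (nat_lit 595) (nat_lit 3631))))))))))) (.p (nat_lit 594) (.a (.f (nat_lit 623) (nat_lit 655) (nat_lit 5647) (.f (nat_lit 593) (nat_lit 595) (nat_lit 1615) (.d (nat_lit 559) (nat_lit 557) (nat_lit 557) (nat_lit 561) (nat_lit 558)))) (.a (.p (nat_lit 593) (.a (.d (nat_lit 559) (nat_lit 557) (nat_lit 557) (nat_lit 595) (nat_lit 3631)) (.a (.f (nat_lit 625) (nat_lit 657) (nat_lit 4624) (.f (nat_lit 595) (nat_lit 596) (nat_lit 1616) (.f (nat_lit 627) (nat_lit 628) (nat_lit 592) (.f (nat_lit 626) (nat_lit 591) (nat_lit 591) (.f (nat_lit 659) (nat_lit 660) (nat_lit 624) (.d (nat_lit 562) (nat_lit 530) (nat_lit 4626) (nat_lit 691) (nat_lit 7730))))))) (.d (nat_lit 559) (nat_lit 557) (nat_lit 557) (nat_lit 591) (nat_lit 3630))))) (.a (.f (nat_lit 623) (nat_lit 655) (nat_lit 5647) (.f (nat_lit 593) (nat_lit 595) (nat_lit 1615) (.d (nat_lit 622) (nat_lit 591) (nat_lit 1614) (nat_lit 621) (nat_lit 2637)))) (.a (.f (nat_lit 623) (nat_lit 655) (nat_lit 5647) (.f (nat_lit 625) (nat_lit 657) (nat_lit 4624) (.f (nat_lit 626) (nat_lit 595) (nat_lit 2639) (.f (nat_lit 659) (nat_lit 658) (nat_lit 623) (.d (nat_lit 627) (nat_lit 591) (nat_lit 3663) (nat_lit 660) (nat_lit 624)))))) (.f (nat_lit 623) (nat_lit 655) (nat_lit 5647) (.f (nat_lit 625) (nat_lit 657) (nat_lit 4624) (.f (nat_lit 593) (nat_lit 622) (nat_lit 2638) (.d (nat_lit 559) (nat_lit 561) (nat_lit 558) (nat_lit 591) (nat_lit 3630)))))))))))))))) (.p (nat_lit 624) (.a (.f (nat_lit 655) (nat_lit 623) (nat_lit 5647) (.f (nat_lit 656) (nat_lit 687) (nat_lit 5679) (.f (nat_lit 689) (nat_lit 657) (nat_lit 4656) (.f (nat_lit 688) (nat_lit 721) (nat_lit 4688) (.f (nat_lit 559) (nat_lit 591) (nat_lit 7727) (.d (nat_lit 593) (nat_lit 557) (nat_lit 557) (nat_lit 561) (nat_lit 6704))))))) (.a (.f (nat_lit 657) (nat_lit 625) (nat_lit 4624) (.f (nat_lit 656) (nat_lit 689) (nat_lit 4656) (.f (nat_lit 687) (nat_lit 655) (nat_lit 5679) (.f (nat_lit 688) (nat_lit 719) (nat_lit 5711) (.f (nat_lit 559) (nat_lit 591) (nat_lit 7727) (.d (nat_lit 593) (nat_lit 557) (nat_lit 557) (nat_lit 561) (nat_lit 6704))))))) (.a (.f (nat_lit 655) (nat_lit 623) (nat_lit 5647) (.f (nat_lit 656) (nat_lit 687) (nat_lit 5679) (.d (nat_lit 657) (nat_lit 625) (nat_lit 4624) (nat_lit 689) (nat_lit 4656)))) (.a s36062 (.a (.p (nat_lit 656) (.a (.d (nat_lit 657) (nat_lit 625) (nat_lit 4624) (nat_lit 689) (nat_lit 4656)) (.a (.p (nat_lit 559) (.a (.f (nat_lit 593) (nat_lit 557) (nat_lit 557) (.d (nat_lit 594) (nat_lit 561) (nat_lit 558) (nat_lit 591) (nat_lit 3630))) (.a (.f (nat_lit 557) (nat_lit 593) (nat_lit 557) (.d (nat_lit 591) (nat_lit 556) (nat_lit 556) (nat_lit 688) (nat_lit 7727))) (.a (.f (nat_lit 688) (nat_lit 591) (nat_lit 7727) (.f (nat_lit 721) (nat_lit 689) (nat_lit 4688) (.f (nat_lit 720) (nat_lit 753) (nat_lit 4720) (.d (nat_lit 719) (nat_lit 687) (nat_lit 5711) (nat_lit 751) (nat_lit 5743))))) (.f (nat_lit 593) (nat_lit 557) (nat_lit 557) (.d (nat_lit 594) (nat_lit 561) (nat_lit 558) (nat_lit 595) (nat_lit 3631))))))) (.p (nat_lit 559) (.a (.f (nat_lit 593) (nat_lit 557) (nat_lit 557) (.d (nat_lit 594) (nat_lit 561) (nat_lit 558) (nat_lit 591) (nat_lit 3630))) (.a (.f (nat_lit 557) (nat_lit 593) (nat_lit 557) (.d (nat_lit 591) (nat_lit 556) (nat_lit 556) (nat_lit 688) (nat_lit 7727))) (.a (.f (nat_lit 591) (nat_lit 688) (nat_lit 7727) (.f (nat_lit 557) (nat_lit 556) (nat_lit 556) (.f (nat_lit 525) (nat_lit 524) (nat_lit 3596) (.f (nat_lit 561) (nat_lit 526) (nat_lit 3597) (.d (nat_lit 562) (nat_lit 563) (nat_lit 1583) (nat_lit 590) (nat_lit 1582)))))) (.a (.f (nat_lit 688) (nat_lit 591) (nat_lit 7727) (.f (nat_lit 593) (nat_lit 561) (nat_lit 6704) (.f (nat_lit 720) (nat_lit 625) (nat_lit 6736) (.d (nat_lit 719) (nat_lit 687) (nat_lit 5711) (nat_lit 751) (nat_lit 5743))))) (.f (nat_lit 593) (nat_lit 557) (nat_lit 557) (.d (nat_lit 594) (nat_lit 561) (nat_lit 558) (nat_lit 595) (nat_lit 3631))))))))))) s36051))))))))))))))))))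
noncomputable def s36650 : Cert := .r (nat_lit 16209045195187086480131410906589526856454500372730486082034735289518808314087364816261045757339259344390222847192865430159410136710316561565107307104084108844708148876309847605248) (.f (nat_lit 593) (nat_lit 625) (nat_lit 4592) (.f (nat_lit 558) (nat_lit 559) (nat_lit 557) (.f (nat_lit 461) (nat_lit 590) (nat_lit 4557) (.f (nat_lit 556) (nat_lit 588) (nat_lit 5580) (.f (nat_lit 524) (nat_lit 429) (nat_lit 5548) (.f (nat_lit 460) (nat_lit 428) (nat_lit 7596) (.f (nat_lit 492) (nat_lit 589) (nat_lit 4556) (.f (nat_lit 523) (nat_lit 522) (nat_lit 522) (.f (nat_lit 555) (nat_lit 587) (nat_lit 5579) (.f (nat_lit 459) (nat_lit 427) (nat_lit 7595) (.f (nat_lit 458) (nat_lit 457) (nat_lit 457) (.d (nat_lit 426) (nat_lit 425) (nat_lit 3497) (nat_lit 491) (nat_lit 7594)))))))))))))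
noncomputable def s36716 : Cert := .r (nat_lit 17404329764828869485047512832442702886900060774009693823770393558079093520662522088179530246820240776324173847711136672503716594299317921303546410009584278397820062110677584244312385781760) (.p (nat_lit 624) (.a (.d (nat_lit 625) (nat_lit 593) (nat_lit 4592) (nat_lit 657) (nat_lit 4624)) (.a (.f (nat_lit 623) (nat_lit 655) (nat_lit 5647) (.d (nat_lit 593) (nat_lit 621) (nat_lit 2637) (nat_lit 625) (nat_lit 4592))) (.a (.f (nat_lit 623) (nat_lit 655) (nat_lit 5647) (.f (nat_lit 621) (nat_lit 593) (nat_lit 2637) (.f (nat_lit 652) (nat_lit 653) (nat_lit 1644) (.f (nat_lit 620) (nat_lit 651) (nat_lit 1643) (.d (nat_lit 588) (nat_lit 556) (nat_lit 6668) (nat_lit 587) (nat_lit 3659)))))) (.f (nat_lit 657) (nat_lit 625) (nat_lit 4624) (.f (nat_lit 656) (nat_lit 689) (nat_lit 4656) (.d (nat_lit 623) (nat_lit 621) (nat_lit 621) (nat_lit 655) (nat_lit 5647))))))))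
noncomputable def s37053 : Cert := .r (nat_lit 145881406722246371130431627217775498339328118900307135990984894569788179015207317104050534051749973880434332899805175293998908377857623234005161084985233261075589123931260271460352) (.f (nat_lit 563) (nat_lit 466) (nat_lit 7634) (.f (nat_lit 596) (nat_lit 628) (nat_lit 4595) (.f (nat_lit 626) (nat_lit 594) (nat_lit 5618) (.f (nat_lit 627) (nat_lit 658) (nat_lit 5650) (.f (nat_lit 624) (nat_lit 625) (nat_lit 2640) (.f (nat_lit 655) (nat_lit 623) (nat_lit 5647) (.f (nat_lit 656) (nat_lit 687) (nat_lit 5679) (.f (nat_lit 689) (nat_lit 657) (nat_lit 4656) (.f (nat_lit 688) (nat_lit 721) (nat_lit 4688) (.f (nat_lit 691) (nat_lit 690) (nat_lit 3727) (.f (nat_lit 659) (nat_lit 564) (nat_lit 6707) (.d (nat_lit 692) (nat_lit 660) (nat_lit 4659) (nat_lit 724) (nat_lit 4691)))))))))))))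
noncomputable def s37322 : Cert := .r (nat_lit 16209045195187086473101858102078741861705073178922100492915055556261520739188493917030447047461787596044079855994999466340440063062872816320416567242424559428573021608396317523968) (.p (nat_lit 558) (.a (.f (nat_lit 559) (nat_lit 524) (nat_lit 3596) (.d (nat_lit 591) (nat_lit 556) (nat_lit 556) (nat_lit 623) (nat_lit 5615))) (.a (.f (nat_lit 559) (nat_lit 524) (nat_lit 3596) (.f (nat_lit 556) (nat_lit 591) (nat_lit 556) (.d (nat_lit 588) (nat_lit 587) (nat_lit 1579) (nat_lit 589) (nat_lit 1580)))) (.a (.f (nat_lit 623) (nat_lit 591) (nat_lit 5615) (.f (nat_lit 624) (nat_lit 655) (nat_lit 5647) (.f (nat_lit 657) (nat_lit 625) (nat_lit 4624) (.f (nat_lit 656) (nat_lit 689) (nat_lit 4656) (.f (nat_lit 622) (nat_lit 621) (nat_lit 621) (.f (nat_lit 590) (nat_lit 654) (nat_lit 7693) (.d (nat_lit 493) (nat_lit 461) (nat_lit 4557) (nat_lit 589) (nat_lit 4589)))))))) (.f (nat_lit 524)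 (nat_lit 559) (nat_lit 3596) (.f (nat_lit 495) (nat_lit 463) (nat_lit 7631) (.f (nat_lit 493) (nat_lit 494) (nat_lit 1516) (.f (nat_lit 461) (nat_lit 590) (nat_lit 4557) (.d (nat_lit 556) (nat_lit 429) (nat_lit 5548) (nat_lit 588) (nat_lit 5580))))))))))
noncomputable def s37722 : Cert := .r (nat_lit 18235175844054758816125494754271691642472869190759227885491060111774534807261202972889679004955490620598863980316923679808406445423913722232470705345019268260145864285838460846080) (.p (nat_lit 494) (.a (.f (nat_lit 493) (nat_lit 462) (nat_lit 6605) (.f (nat_lit 621) (nat_lit 526) (nat_lit 6637) (.d (nat_lit 620) (nat_lit 588) (nat_lit 5612) (nat_lit 652) (nat_lit 5644)))) (.a (.f (nat_lit 621) (nat_lit 526) (nat_lit 6637) (.f (nat_lit 524) (nat_lit 492) (nat_lit 7660) (.f (nat_lit 653) (nat_lit 556) (nat_lit 7692) (.d (nat_lit 654) (nat_lit 622) (nat_lit 4621) (nat_lit 686) (nat_lit 4653))))) (.f (nat_lit 493) (nat_lit 462)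 (nat_lit 6605) (.f (nat_lit 588) (nat_lit 620) (nat_lit 5612) (.f (nat_lit 461) (nat_lit 556) (nat_lit 5580) (.d (nat_lit 460) (nat_lit 428) (nat_lit 7596) (nat_lit 492) (nat_lit 7628))))))))
noncomputable def s37735 : Cert := .r (nat_lit 18235175844054758816125494754271691642472869190759227885491060111774534807261202972889679004955490620598863980316923679808406445423913722232470705345019268260145864285838460846080) (.p (nat_lit 590) (.a (.d (nat_lit 591) (nat_lit 556) (nat_lit 3628) (nat_lit 561) (nat_lit 2605)) (.a (.f (nat_lit 493) (nat_lit 622) (nat_lit 4589) (.f (nat_lit 556) (nat_lit 591) (nat_lit 3628) (.d (nat_lit 588) (nat_lit 461) (nat_lit 5580) (nat_lit 620) (nat_lit 5612)))) (.a (.f (nat_lit 493) (nat_lit 622) (nat_lit 4589) (.f (nat_lit 588) (nat_lit 620) (nat_lit 5612) (.f (nat_lit 556) (nat_lit 461) (nat_lit 5580) (.f (nat_lit 492) (nat_lit 460) (nat_lit 7628) (.f (nat_lit 524) (nat_lit 621) (nat_lit 4588)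 (.f (nat_lit 491) (nat_lit 459) (nat_lit 7627) (.d (nat_lit 490) (nat_lit 489) (nat_lit 489) (nat_lit 526) (nat_lit 490)))))))) (.f (nat_lit 591) (nat_lit 561) (nat_lit 2605) (.f (nat_lit 621) (nat_lit 620) (nat_lit 1612) (.d (nat_lit 622) (nat_lit 493) (nat_lit 4589) (nat_lit 654) (nat_lit 4621))))))))
noncomputable def s37766 : Cert := .r (nat_lit 18235175844054758816125494754271691642472869190759227885491060111774534807261202972889679004955490620598863980316923679808406445423913722232470705345019268260145864285838460846080) (.p (nat_lit 494) (.a (.f (nat_lit 493) (nat_lit 462) (nat_lit 6605) (.f (nat_lit 621) (nat_lit 526) (nat_lit 6637) (.d (nat_lit 620) (nat_lit 588) (nat_lit 5612) (nat_lit 652) (nat_lit 5644)))) (.a (.f (nat_lit 621) (nat_lit 526) (nat_lit 6637) (.f (nat_lit 524) (nat_lit 492) (nat_lit 7660) (.f (nat_lit 653) (nat_lit 556) (nat_lit 7692) (.d (nat_lit 652) (nat_lit 620) (nat_lit 5644) (nat_lit 684)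 (nat_lit 5676))))) (.a (.f (nat_lit 493) (nat_lit 462) (nat_lit 6605) (.f (nat_lit 588) (nat_lit 620) (nat_lit 5612) (.f (nat_lit 558) (nat_lit 559) (nat_lit 1580) (.d (nat_lit 461) (nat_lit 556) (nat_lit 5580) (nat_lit 590) (nat_lit 4557))))) (.f (nat_lit 526) (nat_lit 621) (nat_lit 6637) (.d (nat_lit 462) (nat_lit 493) (nat_lit 6605) (nat_lit 558) (nat_lit 5581)))))))
noncomputable def s37823 : Cert := .r (nat_lit 18235175844054758816125494754271691642472869190759227885491060111774534807261202972889679004955490620598863980316923679808406445423913722232470705345019268260145864285838460846080) (.p (nat_lit 622) (.a (.f (nat_lit 621) (nat_lit 654) (nat_lit 4621) (.f (nat_lit 493) (nat_lit 590) (nat_lit 4589) (.d (nat_lit 620) (nat_lit 588) (nat_lit 5612) (nat_lit 652) (nat_lit 5644)))) (.a (.f (nat_lit 621) (nat_lit 654) (nat_lit 4621) (.f (nat_lit 620) (nat_lit 652) (nat_lit 5644) (.f (nat_lit 588) (nat_lit 493) (nat_lit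 5612) (.f (nat_lit 524) (nat_lit 492) (nat_lit 7660) (.f (nat_lit 556) (nat_lit 653) (nat_lit 4620) (.f (nat_lit 587) (nat_lit 586) (nat_lit 586) (.f (nat_lit 619) (nat_lit 651) (nat_lit 5643) (.f (nat_lit 523) (nat_lit 491) (nat_lit 7659) (.f (nat_lit 522) (nat_lit 521) (nat_lit 521) (.d (nat_lit 490) (nat_lit 489) (nat_lit 3561) (nat_lit 555) (nat_lit 7658))))))))))) (.a (.f (nat_lit 621) (nat_lit 654) (nat_lit 4621) (.f (nat_lit 652) (nat_lit 620) (nat_lit 5644) (.f (nat_lit 653) (nat_lit 684) (nat_lit 5676) (.d (nat_lit 524) (nat_lit 492) (nat_lit 7660) (nat_lit 556) (nat_lit 7692))))) (.a (.f (nat_lit 590) (nat_lit 493) (nat_lit 4589) (.d (nat_lit 654) (nat_lit 558) (nat_lit 7693) (nat_lit 686) (nat_lit 7725))) (.f (nat_lit 493) (nat_lit 590) (nat_lit 4589) (.f (nat_lit 588) (nat_lit 620) (nat_lit 5612) (.f (nat_lit 461) (nat_lit 556) (nat_lit 5580) (.d (nat_lit 460) (nat_lit 428) (nat_lit 7596) (nat_lit 492) (nat_lit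 7628))))))))))
noncomputable def s37887 : Cert := .r (nat_lit 18235175844054758816125494754271691642472869190759227885491060111774534807261202972889679004955490620598863980316923679808406445423913722232470705345019268260145864285838460846080) (.p (nat_lit 624) (.a (.f (nat_lit 657) (nat_lit 625) (nat_lit 4624) (.f (nat_lit 656) (nat_lit 689) (nat_lit 4656) (.f (nat_lit 687) (nat_lit 655) (nat_lit 5679) (.f (nat_lit 688) (nat_lit 719) (nat_lit 5711) (.f (nat_lit 559) (nat_lit 591) (nat_lit 7727) (.d (nat_lit 558) (nat_lit 524) (nat_lit 3596) (nat_lit 588) (nat_lit 1580))))))) (.a (.f (nat_lit 657) (nat_lit 625) (nat_lit 4624) (.f (nat_lit 656) (nat_lit 689) (nat_lit 4656) (.d (nat_lit 655) (nat_lit 623) (nat_lit 5647) (nat_lit 687) (nat_lit 5679)))) (.a (.d (nat_lit 623) (nat_lit 591) (nat_lit 5615) (nat_lit 655) (nat_lit 5647)) (.f (nat_lit 591) (nat_lit 623) (nat_lit 5615) (.f (nat_lit 657) (nat_lit 625) (nat_lit 4624)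 (.f (nat_lit 656) (nat_lit 689) (nat_lit 4656) (.f (nat_lit 559) (nat_lit 688) (nat_lit 7727) (.d (nat_lit 558) (nat_lit 524) (nat_lit 3596) (nat_lit 556) (nat_lit 556))))))))))
noncomputable def s37933 : Cert := .r (nat_lit 18235175844054758816125494754271691642472869190759227885491060111774534807261202972889679004955490620598863980316923679808406445423913722232470705345019268260145864285838460846080) (.p (nat_lit 493) (.a (.f (nat_lit 588) (nat_lit 620) (nat_lit 5612) (.f (nat_lit 461) (nat_lit 556) (nat_lit 5580) (.d (nat_lit 460) (nat_lit 428) (nat_lit 7596) (nat_lit 492) (nat_lit 7628)))) (.a (.f (nat_lit 588) (nat_lit 620) (nat_lit 5612) (.f (nat_lit 558) (nat_lit 559) (nat_lit 1580) (.f (nat_lit 492) (nat_lit 460) (nat_lit 7628) (.f (nat_lit 621) (nat_lit 524) (nat_lit 7660) (.f (nat_lit 653) (nat_lit 526) (nat_lit 6669) (.d (nat_lit 654) (nat_lit 622) (nat_lit 4621) (nat_lit 686) (nat_lit 4653))))))) (.a (.f (nat_lit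 588) (nat_lit 620) (nat_lit 5612) (.f (nat_lit 558) (nat_lit 559) (nat_lit 1580) (.f (nat_lit 461) (nat_lit 556) (nat_lit 5580) (.f (nat_lit 429) (nat_lit 526) (nat_lit 4525) (.d (nat_lit 430) (nat_lit 398) (nat_lit 6541) (nat_lit 462) (nat_lit 6573)))))) (.a (.f (nat_lit 492) (nat_lit 460) (nat_lit 7628) (.f (nat_lit 621) (nat_lit 524) (nat_lit 7660) (.f (nat_lit 652) (nat_lit 620) (nat_lit 5644) (.f (nat_lit 653) (nat_lit 684) (nat_lit 5676) (.d (nat_lit 654) (nat_lit 622) (nat_lit 4621) (nat_lit 686) (nat_lit 4653)))))) (.f (nat_lit 492) (nat_lit 460) (nat_lit 7628) (.f (nat_lit 621) (nat_lit 524) (nat_lit 7660) (.f (nat_lit 654) (nat_lit 622) (nat_lit 4621) (.f (nat_lit 653) (nat_lit 686) (nat_lit 4653) (.f (nat_lit 684) (nat_lit 652) (nat_lit 5676) (.f (nat_lit 685) (nat_lit 716) (nat_lit 5708) (.f (nat_lit 558) (nat_lit 526) (nat_lit 6669) (.d (nat_lit 588) (nat_lit 556) (nat_lit 7724) (nat_lit 559) (nat_lit 1580))))))))))))))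
noncomputable def s37954 : Cert := .r (nat_lit 18235175844054758816125494754271691642472869190759227885491060111774534807261202972889679004955490620598863980316923679808406445423913722232470705345019268260145864285838460846080) (.p (nat_lit 493) (.a (.f (nat_lit 588) (nat_lit 620) (nat_lit 5612) (.f (nat_lit 461) (nat_lit 556) (nat_lit 5580) (.d (nat_lit 460) (nat_lit 428) (nat_lit 7596) (nat_lit 492) (nat_lit 7628)))) (.a (.f (nat_lit 588) (nat_lit 620) (nat_lit 5612) (.f (nat_lit 558) (nat_lit 559) (nat_lit 1580) (.f (nat_lit 492) (nat_lit 460) (nat_lit 7628) (.f (nat_lit 621) (nat_lit 524) (nat_lit 7660) (.f (nat_lit 653) (nat_lit 526) (nat_lit 6669) (.d (nat_lit 685) (nat_lit 556) (nat_lit 7724) (nat_lit 590) (nat_lit 6701))))))) (.a (.f (nat_lit 588) (nat_lit 620) (nat_lit 5612) (.f (nat_lit 558) (nat_lit 559) (nat_lit 1580) (.f (nat_lit 461) (nat_lit 556) (nat_lit 5580) (.f (nat_lit 429) (nat_lit 526) (nat_lit 4525)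 (.d (nat_lit 430) (nat_lit 398) (nat_lit 6541) (nat_lit 462) (nat_lit 6573)))))) (.f (nat_lit 492) (nat_lit 460) (nat_lit 7628) (.f (nat_lit 524) (nat_lit 621) (nat_lit 7660) (.f (nat_lit 558) (nat_lit 559) (nat_lit 3596) (.f (nat_lit 461) (nat_lit 590) (nat_lit 4557) (.d (nat_lit 429) (nat_lit 397) (nat_lit 5516) (nat_lit 526) (nat_lit 4525))))))))))
noncomputable def s38125 : Cert := .r (nat_lit 16209045195187086473101858102104315225829261787281578537421521174638213255173205360698285261275038641328491375955025013936736189290614118540163130297184069245337751241625446645760) (.p (nat_lit 558) (.a (.f (nat_lit 461) (nat_lit 590) (nat_lit 4557) (.f (nat_lit 524) (nat_lit 559) (nat_lit 3596) (.d (nat_lit 556) (nat_lit 429) (nat_lit 5548) (nat_lit 588) (nat_lit 5580)))) (.a (.f (nat_lit 461) (nat_lit 590) (nat_lit 4557) (.f (nat_lit 556) (nat_lit 588) (nat_lit 5580) (.f (nat_lit 524) (nat_lit 429) (nat_lit 5548) (.f (nat_lit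 460) (nat_lit 428) (nat_lit 7596) (.f (nat_lit 492) (nat_lit 589) (nat_lit 4556) (.f (nat_lit 459) (nat_lit 427) (nat_lit 7595) (.d (nat_lit 458) (nat_lit 457) (nat_lit 457) (nat_lit 494) (nat_lit 458)))))))) (.a (.f (nat_lit 559) (nat_lit 524) (nat_lit 3596) (.f (nat_lit 588) (nat_lit 589) (nat_lit 1580) (.d (nat_lit 556) (nat_lit 461) (nat_lit 5580) (nat_lit 587) (nat_lit 1579)))) (.a (.f (nat_lit 559) (nat_lit 524) (nat_lit 3596) (.f (nat_lit 589) (nat_lit 588) (nat_lit 1580) (.d (nat_lit 590) (nat_lit 561) (nat_lit 1581) (nat_lit 622) (nat_lit 4589)))) (.a (.f (nat_lit 461) (nat_lit 590) (nat_lit 4557) (.f (nat_lit 588) (nat_lit 556) (nat_lit 5580) (.d (nat_lit 589) (nat_lit 559) (nat_lit 1580) (nat_lit 620) (nat_lit 5612)))) (.f (nat_lit 590) (nat_lit 461) (nat_lit 4557) (.d (nat_lit 622) (nat_lit 589) (nat_lit 4589) (nat_lit 654) (nat_lit 7693)))))))))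
noncomputable def s38468 : Cert := .r (nat_lit 16209045209811190872690270482667069759626691128824487394104751807171640402966090718112287531296816231612050120067497163475602991431240843895622671369916043688618459204928990609408) (.f (nat_lit 625) (nat_lit 593) (nat_lit 4592) (.f (nat_lit 657) (nat_lit 624) (nat_lit 4624) (.f (nat_lit 594) (nat_lit 626) (nat_lit 5649) (.f (nat_lit 499) (nat_lit 467) (nat_lit 6610) (.f (nat_lit 531) (nat_lit 532) (nat_lit 496) (.f (nat_lit 595) (nat_lit 627) (nat_lit 4594) (.f (nat_lit 563) (nat_lit 466) (nat_lit 4562) (.f (nat_lit 500) (nat_lit 468) (nat_lit 6611) (.f (nat_lit 501) (nat_lit 502) (nat_lit 1522) (.f (nat_lit 596) (nat_lit 628) (nat_lit 4595) (.f (nat_lit 597) (nat_lit 598) (nat_lit 3634) (.f (nat_lit 565) (nat_lit 566) (nat_lit 2610) (.f (nat_lit 533) (nat_lit 534) (nat_lit 498) (.d (nat_lit 469) (nat_lit 470) (nat_lit 2514) (nat_lit 564) (nat_lit 5588)))))))))))))))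
noncomputable def s38866 : Cert := .r (nat_lit 81045225973576705845931866949627069092164377097227944492984597027833477444416665918448477798159662945026638604269180977679937456620529127218513606168635333462204500003028469809152) (.p (nat_lit 498) (.a (.f (nat_lit 497) (nat_lit 465) (nat_lit 6608) (.f (nat_lit 495) (nat_lit 463) (nat_lit 7631) (.f (nat_lit 530) (nat_lit 531) (nat_lit 495) (.d (nat_lit 467) (nat_lit 466) (nat_lit 2511) (nat_lit 499) (nat_lit 6610))))) (.a (.p (nat_lit 595) (.a (.f (nat_lit 593) (nat_lit 559) (nat_lit 3631) (.d (nat_lit 627) (nat_lit 530) (nat_lit 4594) (nat_lit 628) (nat_lit 592))) (.a (.f (nat_lit 530) (nat_lit 627) (nat_lit 4594) (.f (nat_lit 563) (nat_lit 466) (nat_lit 4562) (.d (nat_lit 593) (nat_lit 564) (nat_lit 2608) (nat_lit 591) (nat_lit 2607)))) (.a (.f (nat_lit 530) (nat_lit 627) (nat_lit 4594) (.f (nat_lit 466) (nat_lit 563) (nat_lit 4562) (.d (nat_lit 467) (nat_lit 435) (nat_lit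 6578) (nat_lit 499) (nat_lit 6610)))) (.f (nat_lit 593) (nat_lit 559) (nat_lit 3631) (.d (nat_lit 563) (nat_lit 564) (nat_lit 2608) (nat_lit 591) (nat_lit 2607))))))) (.a (.f (nat_lit 497) (nat_lit 465) (nat_lit 6608) (.f (nat_lit 495) (nat_lit 463) (nat_lit 7631) (.f (nat_lit 467) (nat_lit 466) (nat_lit 2511) (.f (nat_lit 499) (nat_lit 468) (nat_lit 2512) (.d (nat_lit 531) (nat_lit 532) (nat_lit 496) (nat_lit 563) (nat_lit 5586)))))) (.a (.f (nat_lit 497) (nat_lit 465) (nat_lit 6608) (.f (nat_lit 495) (nat_lit 463) (nat_lit 7631) (.f (nat_lit 530) (nat_lit 531) (nat_lit 495) (.f (nat_lit 595) (nat_lit 627) (nat_lit 4594) (.d (nat_lit 466) (nat_lit 467) (nat_lit 2511) (nat_lit 563) (nat_lit 4562)))))) (.f (nat_lit 497) (nat_lit 465) (nat_lit 6608) (.f (nat_lit 495) (nat_lit 463) (nat_lit 7631) (.f (nat_lit 530) (nat_lit 531) (nat_lit 495) (.f (nat_lit 595) (nat_lit 627) (nat_lit 4594) (.f (nat_lit 593) (nat_lit 559) (nat_lit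 3631) (.d (nat_lit 563) (nat_lit 564) (nat_lit 2608) (nat_lit 591) (nat_lit 2607))))))))))))
noncomputable def s38929 : Cert := .r (nat_lit 278469276058962414611343527482912538635004785599034490047618112821797778620159978085646695906081009522930311722711844128603208365459200029756067537846090155744562742785951140022735146582016) (.p (nat_lit 658) (.a (.f (nat_lit 659) (nat_lit 691) (nat_lit 4658) (.f (nat_lit 627) (nat_lit 530) (nat_lit 4626) (.f (nat_lit 657) (nat_lit 689) (nat_lit 5681) (.d (nat_lit 628) (nat_lit 629) (nat_lit 1649) (nat_lit 656) (nat_lit 2672))))) (.a (.f (nat_lit 659) (nat_lit 691) (nat_lit 4658) (.f (nat_lit 530) (nat_lit 627) (nat_lit 4626) (.d (nat_lit 531) (nat_lit 499) (nat_lit 6642) (nat_lit 563) (nat_lit 6674)))) (.a (.f (nat_lit 691) (nat_lit 659) (nat_lit 4658) (.f (nat_lit 690) (nat_lit 723) (nat_lit 4690) (.d (nat_lit 689) (nat_lit 657) (nat_lit 5681) (nat_lit 721) (nat_lit 5713)))) (.f (nat_lit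 531) (nat_lit 563) (nat_lit 6674) (.f (nat_lit 497) (nat_lit 465) (nat_lit 6608) (.f (nat_lit 495) (nat_lit 463) (nat_lit 7631) (.d (nat_lit 530) (nat_lit 498) (nat_lit 495) (nat_lit 499) (nat_lit 6642)))))))))
noncomputable def s38963 : Cert := .r (nat_lit 1196016433544422019454433704016040696555723032439171280040786333459805702254549303428365986095627704129653419123790644032765023939083451184073145678753327654011221047660060037860476112275028846837760) (.f (nat_lit 689) (nat_lit 657) (nat_lit 5681) (.f (nat_lit 690) (nat_lit 721) (nat_lit 5713) (.f (nat_lit 593) (nat_lit 561) (nat_lit 7729) (.f (nat_lit 723) (nat_lit 691) (nat_lit 4690) (.f (nat_lit 722) (nat_lit 755) (nat_lit 4722) (.f (nat_lit 591) (nat_lit 627) (nat_lit 591) (.f (nat_lit 558) (nat_lit 559) (nat_lit 3630) (.f (nat_lit 590) (nat_lit 557) (nat_lit 3629) (.f (nat_lit 622) (nat_lit 621) (nat_lit 1613) (.f (nat_lit 687) (nat_lit 688) (nat_lit 687) (.f (nat_lit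 654) (nat_lit 655) (nat_lit 4654) (.f (nat_lit 686) (nat_lit 719) (nat_lit 4686) (.d (nat_lit 685) (nat_lit 653) (nat_lit 5677) (nat_lit 717) (nat_lit 5709))))))))))))))
noncomputable def s39219 : Cert := .r (nat_lit 16209045209811190872690270482257895933639673395072838682001301913144560147210707619426876110284799507061465800707088401934864971787380008379677662493763886620382785073262924660736) (.p (nat_lit 594) (.a (.f (nat_lit 595) (nat_lit 627) (nat_lit 4594) (.f (nat_lit 561) (nat_lit 559) (nat_lit 559) (.d (nat_lit 563) (nat_lit 466) (nat_lit 4562) (nat_lit 596) (nat_lit 560)))) (.a (.f (nat_lit 595) (nat_lit 627) (nat_lit 4594) (.f (nat_lit 466) (nat_lit 563) (nat_lit 4562) (.d (nat_lit 467) (nat_lit 435) (nat_lit 6578) (nat_lit 499) (nat_lit 6610)))) (.a (.f (nat_lit 499) (nat_lit 467) (nat_lit 6610) (.f (nat_lit 531) (nat_lit 626) (nat_lit 6642) (.f (nat_lit 561) (nat_lit 559) (nat_lit 2575) (.d (nat_lit 532) (nat_lit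 533) (nat_lit 1553) (nat_lit 563) (nat_lit 2576))))) (.f (nat_lit 499) (nat_lit 467) (nat_lit 6610) (.f (nat_lit 626) (nat_lit 531) (nat_lit 6642) (.d (nat_lit 627) (nat_lit 595) (nat_lit 4594) (nat_lit 659) (nat_lit 4626))))))))
noncomputable def s39387 : Cert := .r (nat_lit 20261306508490026161537989484461054069817274377628655312284881434339399863847111698616524977304466386511490520747404940278273687996508289742964613056929893378878578143334359891968) (.p (nat_lit 622) (.a (.f (nat_lit 557) (nat_lit 654) (nat_lit 7693) (.d (nat_lit 493) (nat_lit 526) (nat_lit 7661) (nat_lit 589) (nat_lit 4589))) (.a (.f (nat_lit 526) (nat_lit 493) (nat_lit 7661) (.f (nat_lit 655) (nat_lit 623) (nat_lit 4622) (.f (nat_lit 654) (nat_lit 687) (nat_lit 4654) (.d (nat_lit 653) (nat_lit 621) (nat_lit 5645) (nat_lit 685) (nat_lit 5677))))) (.a (.f (nat_lit 654) (nat_lit 557) (nat_lit 7693) (.f (nat_lit 653) (nat_lit 685) (nat_lit 5677) (.f (nat_lit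 621) (nat_lit 526) (nat_lit 5645) (.f (nat_lit 655) (nat_lit 687) (nat_lit 4654) (.d (nat_lit 656) (nat_lit 620) (nat_lit 3692) (nat_lit 657) (nat_lit 3693)))))) (.a (.f (nat_lit 557) (nat_lit 654) (nat_lit 7693) (.d (nat_lit 493) (nat_lit 461) (nat_lit 4557) (nat_lit 589) (nat_lit 4589))) (.f (nat_lit 493) (nat_lit 526) (nat_lit 7661) (.d (nat_lit 557) (nat_lit 461) (nat_lit 4557) (nat_lit 589) (nat_lit 4589))))))))
noncomputable def s39390 : Cert := .r (nat_lit 16209045210754681475490716180075154508281682353954400527132872323313371727701693586898061062317060337401922272103556513342340923274426477918856336851740475715732892788450073247744) (.p (nat_lit 590) (.a (.p (nat_lit 622) (.a (.f (nat_lit 557) (nat_lit 654) (nat_lit 7693) (.d (nat_lit 493) (nat_lit 526) (nat_lit 7661) (nat_lit 589) (nat_lit 4589))) (.a (.f (nat_lit 526) (nat_lit 493) (nat_lit 7661) (.f (nat_lit 621) (nat_lit 653) (nat_lit 5645) (.f (nat_lit 589)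 (nat_lit 494) (nat_lit 5613) (.d (nat_lit 591) (nat_lit 561) (nat_lit 2605) (nat_lit 620) (nat_lit 1612))))) (.a (.f (nat_lit 654) (nat_lit 557) (nat_lit 7693) (.f (nat_lit 653) (nat_lit 685) (nat_lit 5677) (.f (nat_lit 621) (nat_lit 526) (nat_lit 5645) (.f (nat_lit 655) (nat_lit 687) (nat_lit 4654) (.d (nat_lit 656) (nat_lit 620) (nat_lit 3692) (nat_lit 657) (nat_lit 3693)))))) (.f (nat_lit 557) (nat_lit 654) (nat_lit 7693) (.d (nat_lit 493) (nat_lit 461) (nat_lit 4557) (nat_lit 589) (nat_lit 4589))))))) (.a (.p (nat_lit 622) (.a (.f (nat_lit 557) (nat_lit 654) (nat_lit 7693) (.d (nat_lit 493) (nat_lit 526) (nat_lit 7661) (nat_lit 589) (nat_lit 4589))) (.a (.f (nat_lit 526) (nat_lit 493) (nat_lit 7661) (.f (nat_lit 621) (nat_lit 653) (nat_lit 5645) (.f (nat_lit 589) (nat_lit 494) (nat_lit 5613) (.f (nat_lit 620) (nat_lit 591) (nat_lit 1612) (.f (nat_lit 619) (nat_lit 618) (nat_lit 2634) (.f (nat_lit 654) (nat_lit 655)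 (nat_lit 619) (.f (nat_lit 587) (nat_lit 586) (nat_lit 3658) (.f (nat_lit 651) (nat_lit 650) (nat_lit 1642) (.f (nat_lit 686) (nat_lit 718) (nat_lit 7757) (.f (nat_lit 685) (nat_lit 717) (nat_lit 5709) (.f (nat_lit 687) (nat_lit 719) (nat_lit 4686) (.f (nat_lit 684) (nat_lit 652) (nat_lit 3723) (.d (nat_lit 716) (nat_lit 683) (nat_lit 4683) (nat_lit 715) (nat_lit 1707)))))))))))))) (.a (.f (nat_lit 654) (nat_lit 557) (nat_lit 7693) (.f (nat_lit 653) (nat_lit 685) (nat_lit 5677) (.f (nat_lit 621) (nat_lit 526) (nat_lit 5645) (.f (nat_lit 655) (nat_lit 687) (nat_lit 4654) (.d (nat_lit 656) (nat_lit 620) (nat_lit 3692) (nat_lit 657) (nat_lit 3693)))))) (.a (.f (nat_lit 557) (nat_lit 654) (nat_lit 7693) (.d (nat_lit 493) (nat_lit 461) (nat_lit 4557) (nat_lit 589) (nat_lit 4589))) (.f (nat_lit 493) (nat_lit 526) (nat_lit 7661) (.d (nat_lit 557) (nat_lit 461) (nat_lit 4557) (nat_lit 589) (nat_lit 4589)))))))) (.a (.f (nat_lit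 591) (nat_lit 623) (nat_lit 5615) (.f (nat_lit 557) (nat_lit 593) (nat_lit 3629) (.d (nat_lit 556) (nat_lit 555) (nat_lit 555) (nat_lit 589) (nat_lit 3628)))) (.a (.f (nat_lit 591) (nat_lit 623) (nat_lit 5615) (.d (nat_lit 561) (nat_lit 589) (nat_lit 2605) (nat_lit 593) (nat_lit 2606))) (.a s39387 (.f (nat_lit 591) (nat_lit 623) (nat_lit 5615) (.d (nat_lit 593) (nat_lit 557) (nat_lit 3629) (nat_lit 561) (nat_lit 2606)))))))))
noncomputable def s39642 : Cert := .r (nat_lit 3773962425700235452738272624505952193199339552226928146794549392648115485167898379561026699849346401546134558067857772757880134458676407096525164659442171664912122642432) (.p (nat_lit 592) (.a (.p (nat_lit 624) (.a (.f (nat_lit 625) (nat_lit 657) (nat_lit 4624) (.f (nat_lit 623) (nat_lit 655) (nat_lit 5647) (.d (nat_lit 496) (nat_lit 591) (nat_lit 5615) (nat_lit 593) (nat_lit 4592)))) (.a (.f (nat_lit 625) (nat_lit 657) (nat_lit 4624) (.f (nat_lit 496) (nat_lit 593) (nat_lit 4592) (.f (nat_lit 465) (nat_lit 497) (nat_lit 6608) (.f (nat_lit 464) (nat_lit 433) (nat_lit 6576) (.d (nat_lit 463) (nat_lit 431) (nat_lit 7599) (nat_lit 495) (nat_lit 7631)))))) (.a (.f (nat_lit 623) (nat_lit 655) (nat_lit 5647) (.f (nat_lit 496) (nat_lit 591) (nat_lit 5615) (.f (nat_lit 593) (nat_lit 625) (nat_lit 4592) (.f (nat_lit 464) (nat_lit 561) (nat_lit 4560) (.d (nat_lit 465) (nat_lit 433) (nat_lit 6576) (nat_lit 497) (nat_lit 6608)))))) (.a (.f (nat_lit 623) (nat_lit 655) (nat_lit 5647) (.f (nat_lit 496) (nat_lit 591) (nat_lit 5615) (.f (nat_lit 465) (nat_lit 497) (nat_lit 6608) (.f (nat_lit 464) (nat_lit 433) (nat_lit 6576) (.d (nat_lit 463) (nat_lit 431) (nat_lit 7599) (nat_lit 495) (nat_lit 7631)))))) (.f (nat_lit 655) (nat_lit 623) (nat_lit 5647) (.f (nat_lit 656) (nat_lit 687) (nat_lit 5679) (.d (nat_lit 657) (nat_lit 625) (nat_lit 4624) (nat_lit 689) (nat_lit 4656))))))))) (.a (.p (nat_lit 496) (.a (.f (nat_lit 593) (nat_lit 625) (nat_lit 4592) (.f (nat_lit 591) (nat_lit 623) (nat_lit 5615) (.d (nat_lit 464) (nat_lit 559) (nat_lit 5583) (nat_lit 561) (nat_lit 4560)))) (.a (.f (nat_lit 593) (nat_lit 625) (nat_lit 4592) (.f (nat_lit 464) (nat_lit 561) (nat_lit 4560) (.d (nat_lit 465) (nat_lit 433) (nat_lit 6576) (nat_lit 497) (nat_lit 6608)))) (.a (.f (nat_lit 591) (nat_lit 623) (nat_lit 5615) (.f (nat_lit 593) (nat_lit 625) (nat_lit 4592) (.f (nat_lit 559) (nat_lit 464) (nat_lit 5583) (.d (nat_lit 594) (nat_lit 558) (nat_lit 3630) (nat_lit 595) (nat_lit 3631))))) (.a (.f (nat_lit 591) (nat_lit 623) (nat_lit 5615) (.f (nat_lit 464) (nat_lit 559) (nat_lit 5583) (.d (nat_lit 465) (nat_lit 433) (nat_lit 6576) (nat_lit 497) (nat_lit 6608)))) (.f (nat_lit 623) (nat_lit 591) (nat_lit 5615) (.f (nat_lit 624) (nat_lit 655) (nat_lit 5647) (.d (nat_lit 625) (nat_lit 593) (nat_lit 4592) (nat_lit 657) (nat_lit 4624))))))))) (.a (.p (nat_lit 496) (.a (.f (nat_lit 593) (nat_lit 625) (nat_lit 4592) (.f (nat_lit 591) (nat_lit 623) (nat_lit 5615) (.d (nat_lit 464) (nat_lit 559) (nat_lit 5583) (nat_lit 561) (nat_lit 4560)))) (.a (.f (nat_lit 593) (nat_lit 625) (nat_lit 4592) (.f (nat_lit 464) (nat_lit 561) (nat_lit 4560) (.d (nat_lit 463) (nat_lit 431) (nat_lit 7599) (nat_lit 495) (nat_lit 7631)))) (.a (.f (nat_lit 591) (nat_lit 623) (nat_lit 5615) (.f (nat_lit 593) (nat_lit 625) (nat_lit 4592) (.f (nat_lit 559) (nat_lit 464) (nat_lit 5583) (.d (nat_lit 594) (nat_lit 558) (nat_lit 3630) (nat_lit 595) (nat_lit 3631))))) (.a (.f (nat_lit 591) (nat_lit 623) (nat_lit 5615) (.f (nat_lit 464) (nat_lit 559) (nat_lit 5583) (.d (nat_lit 463) (nat_lit 431) (nat_lit 7599) (nat_lit 495) (nat_lit 7631)))) (.f (nat_lit 623) (nat_lit 591) (nat_lit 5615) (.f (nat_lit 624) (nat_lit 655) (nat_lit 5647) (.d (nat_lit 625) (nat_lit 593) (nat_lit 4592) (nat_lit 657) (nat_lit 4624))))))))) (.a (.p (nat_lit 623) (.a (.f (nat_lit 591) (nat_lit 496) (nat_lit 5615) (.d (nat_lit 655) (nat_lit 559) (nat_lit 6671) (nat_lit 624) (nat_lit 5647))) (.a (.f (nat_lit 496) (nat_lit 591) (nat_lit 5615) (.f (nat_lit 624) (nat_lit 655) (nat_lit 5647) (.d (nat_lit 625) (nat_lit 593) (nat_lit 4592) (nat_lit 657) (nat_lit 4624)))) (.a (.p (nat_lit 625) (.a (.d (nat_lit 496) (nat_lit 591) (nat_lit 5615) (nat_lit 593) (nat_lit 4592)) (.a (.f (nat_lit 624) (nat_lit 657) (nat_lit 4624) (.f (nat_lit 591) (nat_lit 496) (nat_lit 5615) (.d (nat_lit 626) (nat_lit 590) (nat_lit 3662) (nat_lit 627) (nat_lit 3663)))) (.a (.f (nat_lit 593) (nat_lit 496) (nat_lit 4592) (.d (nat_lit 657) (nat_lit 561) (nat_lit 7696) (nat_lit 624) (nat_lit 4624))) (.f (nat_lit 657) (nat_lit 624) (nat_lit 4624) (.d (nat_lit 593) (nat_lit 561) (nat_lit 7696) (nat_lit 689) (nat_lit 7728))))))) (.a (.f (nat_lit 591) (nat_lit 496) (nat_lit 5615) (.d (nat_lit 655) (nat_lit 559) (nat_lit 6671) (nat_lit 687) (nat_lit 6703))) (.a (.f (nat_lit 624) (nat_lit 655) (nat_lit 5647) (.f (nat_lit 625) (nat_lit 657) (nat_lit 4624) (.f (nat_lit 593) (nat_lit 496) (nat_lit 4592) (.d (nat_lit 594) (nat_lit 595) (nat_lit 1615) (nat_lit 622) (nat_lit 2638))))) (.f (nat_lit 655) (nat_lit 624) (nat_lit 5647) (.d (nat_lit 591) (nat_lit 559) (nat_lit 6671) (nat_lit 687) (nat_lit 6703))))))))) (.a s36554 (.a (.p (nat_lit 624) (.a (.f (nat_lit 625) (nat_lit 657) (nat_lit 4624) (.f (nat_lit 623) (nat_lit 655) (nat_lit 5647) (.d (nat_lit 496) (nat_lit 591) (nat_lit 5615) (nat_lit 593) (nat_lit 4592)))) (.a (.f (nat_lit 625) (nat_lit 657) (nat_lit 4624) (.f (nat_lit 496) (nat_lit 593) (nat_lit 4592) (.f (nat_lit 465) (nat_lit 497) (nat_lit 6608) (.f (nat_lit 464) (nat_lit 433) (nat_lit 6576) (.d (nat_lit 463) (nat_lit 431) (nat_lit 7599) (nat_lit 495) (nat_lit 7631)))))) (.a (.f (nat_lit 623) (nat_lit 655) (nat_lit 5647) (.f (nat_lit 496) (nat_lit 591) (nat_lit 5615) (.f (nat_lit 465) (nat_lit 497) (nat_lit 6608) (.f (nat_lit 464) (nat_lit 433) (nat_lit 6576) (.d (nat_lit 463) (nat_lit 431) (nat_lit 7599) (nat_lit 495) (nat_lit 7631)))))) (.f (nat_lit 655) (nat_lit 623) (nat_lit 5647) (.f (nat_lit 656) (nat_lit 687) (nat_lit 5679) (.d (nat_lit 657) (nat_lit 625) (nat_lit 4624) (nat_lit 689) (nat_lit 4656)))))))) (.a (.p (nat_lit 496) (.a (.f (nat_lit 593) (nat_lit 625) (nat_lit 4592) (.f (nat_lit 464) (nat_lit 561) (nat_lit 4560) (.d (nat_lit 465) (nat_lit 433) (nat_lit 6576) (nat_lit 497) (nat_lit 6608)))) (.a (.f (nat_lit 593) (nat_lit 625) (nat_lit 4592) (.f (nat_lit 464) (nat_lit 561) (nat_lit 4560) (.d (nat_lit 463) (nat_lit 431) (nat_lit 7599) (nat_lit 495) (nat_lit 7631)))) (.a (.f (nat_lit 495) (nat_lit 463) (nat_lit 7631) (.f (nat_lit 497) (nat_lit 465) (nat_lit 6608) (.p (nat_lit 531) (.a (.f (nat_lit 498) (nat_lit 530) (nat_lit 495) (.f (nat_lit 499) (nat_lit 532) (nat_lit 496) (.d (nat_lit 467) (nat_lit 466) (nat_lit 2511) (nat_lit 468) (nat_lit 2512)))) (.a (.f (nat_lit 625) (nat_lit 593) (nat_lit 4592) (.f (nat_lit 624) (nat_lit 657) (nat_lit 4624) (.f (nat_lit 623) (nat_lit 655) (nat_lit 5647) (.f (nat_lit 498) (nat_lit 530) (nat_lit 495) (.f (nat_lit 499) (nat_lit 532) (nat_lit 496) (.f (nat_lit 468) (nat_lit 467) (nat_lit 2512) (.f (nat_lit 500) (nat_lit 469) (nat_lit 2513) (.f (nat_lit 595) (nat_lit 563) (nat_lit 6611) (.f (nat_lit 626) (nat_lit 594) (nat_lit 2639) (.f (nat_lit 627) (nat_lit 596) (nat_lit 2640) (.d (nat_lit 659) (nat_lit 658) (nat_lit 623) (nat_lit 660) (nat_lit 624)))))))))))) (.a (.p (nat_lit 624) (.a (.d (nat_lit 625) (nat_lit 593) (nat_lit 4592) (nat_lit 657) (nat_lit 4624)) (.a (.f (nat_lit 593) (nat_lit 625) (nat_lit 4592) (.f (nat_lit 655) (nat_lit 623) (nat_lit 5647) (.f (nat_lit 656) (nat_lit 687) (nat_lit 5679) (.f (nat_lit 561) (nat_lit 688) (nat_lit 6704) (.f (nat_lit 530) (nat_lit 498) (nat_lit 495) (.f (nat_lit 559) (nat_lit 562) (nat_lit 2575) (.d (nat_lit 558) (nat_lit 557) (nat_lit 557) (nat_lit 594) (nat_lit 558)))))))) (.a (.f (nat_lit 655) (nat_lit 623) (nat_lit 5647) (.f (nat_lit 656) (nat_lit 687) (nat_lit 5679) (.f (nat_lit 689) (nat_lit 657) (nat_lit 4656) (.f (nat_lit 688) (nat_lit 721) (nat_lit 4688) (.f (nat_lit 530) (nat_lit 498) (nat_lit 495) (.f (nat_lit 561) (nat_lit 593) (nat_lit 6704) (.f (nat_lit 562) (nat_lit 559) (nat_lit 2575) (.d (nat_lit 532) (nat_lit 533) (nat_lit 1553) (nat_lit 563) (nat_lit 2576))))))))) (.f (nat_lit 657) (nat_lit 625) (nat_lit 4624) (.f (nat_lit 656) (nat_lit 689) (nat_lit 4656) (.d (nat_lit 655) (nat_lit 623) (nat_lit 5647) (nat_lit 687) (nat_lit 5679)))))))) (.a (.p (nat_lit 525) (.a (.f (nat_lit 494) (nat_lit 526) (nat_lit 1517) (.f (nat_lit 493) (nat_lit 524) (nat_lit 1516) (.d (nat_lit 461) (nat_lit 460) (nat_lit 3532) (nat_lit 462) (nat_lit 3533)))) (.a (.p (nat_lit 561) (.a (.p (nat_lit 624) (.a (.f (nat_lit 655) (nat_lit 623) (nat_lit 5647) (.f (nat_lit 656) (nat_lit 687) (nat_lit 5679) (.f (nat_lit 689) (nat_lit 657) (nat_lit 4656) (.d (nat_lit 688) (nat_lit 593) (nat_lit 6704) (nat_lit 721) (nat_lit 4688))))) (.a (.d (nat_lit 625) (nat_lit 593) (nat_lit 4592) (nat_lit 657) (nat_lit 4624)) (.a (.f (nat_lit 593) (nat_lit 625) (nat_lit 4592) (.f (nat_lit 623) (nat_lit 655) (nat_lit 5647) (.f (nat_lit 594) (nat_lit 595) (nat_lit 1615) (.f (nat_lit 559) (nat_lit 558) (nat_lit 558) (.f (nat_lit 562) (nat_lit 530) (nat_lit 2575) (.d (nat_lit 563) (nat_lit 532) (nat_lit 2576) (nat_lit 564) (nat_lit 1584))))))) (.f (nat_lit 655) (nat_lit 623) (nat_lit 5647) (.f (nat_lit 656) (nat_lit 687) (nat_lit 5679) (.d (nat_lit 657) (nat_lit 625) (nat_lit 4624) (nat_lit 689) (nat_lit 4656)))))))) (.a (.p (nat_lit 562) (.a (.f (nat_lit 593) (nat_lit 625) (nat_lit 4592) (.d (nat_lit 563) (nat_lit 532) (nat_lit 2576) (nat_lit 564) (nat_lit 1584))) (.a (.f (nat_lit 563) (nat_lit 532) (nat_lit 2576) (.f (nat_lit 595) (nat_lit 596) (nat_lit 560) (.d (nat_lit 559) (nat_lit 530) (nat_lit 2575) (nat_lit 594) (nat_lit 559)))) (.f (nat_lit 559) (nat_lit 530) (nat_lit 2575) (.f (nat_lit 593) (nat_lit 625) (nat_lit 4592) (.d (nat_lit 558) (nat_lit 526) (nat_lit 3597) (nat_lit 557) (nat_lit 557))))))) (.a (.p (nat_lit 624) (.a (.f (nat_lit 655) (nat_lit 623) (nat_lit 5647) (.f (nat_lit 656) (nat_lit 687) (nat_lit 5679) (.f (nat_lit 689) (nat_lit 657) (nat_lit 4656) (.d (nat_lit 688) (nat_lit 593) (nat_lit 6704) (nat_lit 721) (nat_lit 4688))))) (.a (.d (nat_lit 625) (nat_lit 593) (nat_lit 4592) (nat_lit 657) (nat_lit 4624)) (.a (.f (nat_lit 593) (nat_lit 625) (nat_lit 4592) (.f (nat_lit 656) (nat_lit 688) (nat_lit 6704) (.d (nat_lit 655) (nat_lit 623) (nat_lit 5647) (nat_lit 687) (nat_lit 5679)))) (.f (nat_lit 655) (nat_lit 623) (nat_lit 5647) (.f (nat_lit 656) (nat_lit 687) (nat_lit 5679) (.d (nat_lit 657) (nat_lit 625) (nat_lit 4624) (nat_lit 689) (nat_lit 4656)))))))) (.a (.p (nat_lit 562) (.a (.f (nat_lit 563) (nat_lit 532) (nat_lit 2576) (.f (nat_lit 595) (nat_lit 596) (nat_lit 560) (.d (nat_lit 559) (nat_lit 530) (nat_lit 2575) (nat_lit 594) (nat_lit 559)))) (.a (.f (nat_lit 563) (nat_lit 532) (nat_lit 2576) (.f (nat_lit 564) (nat_lit 593) (nat_lit 1584) (.d (nat_lit 596) (nat_lit 595) (nat_lit 560) (nat_lit 597) (nat_lit 561)))) (.f (nat_lit 559) (nat_lit 530) (nat_lit 2575) (.f (nat_lit 558) (nat_lit 526) (nat_lit 3597) (.f (nat_lit 557) (nat_lit 524) (nat_lit 3596) (.d (nat_lit 589) (nat_lit 588) (nat_lit 1580) (nat_lit 590) (nat_lit 1581)))))))) (.p (nat_lit 559) (.a (.f (nat_lit 558) (nat_lit 526) (nat_lit 3597) (.f (nat_lit 557) (nat_lit 524) (nat_lit 3596) (.d (nat_lit 589) (nat_lit 588) (nat_lit 1580) (nat_lit 590) (nat_lit 1581)))) (.f (nat_lit 562) (nat_lit 530) (nat_lit 2575) (.f (nat_lit 563) (nat_lit 532) (nat_lit 2576) (.d (nat_lit 595) (nat_lit 594) (nat_lit 559) (nat_lit 596) (nat_lit 560))))))))))) (.a (.p (nat_lit 557) (.a (.p (nat_lit 493) (.a (.f (nat_lit 494) (nat_lit 524) (nat_lit 1516) (.d (nat_lit 461) (nat_lit 460) (nat_lit 3532) (nat_lit 462) (nat_lit 3533))) (.a s36650 (.a (.f (nat_lit 524) (nat_lit 494) (nat_lit 1516) (.f (nat_lit 558) (nat_lit 559) (nat_lit 3596) (.f (nat_lit 625) (nat_lit 593) (nat_lit 4592) (.f (nat_lit 624) (nat_lit 657) (nat_lit 4624) (.f (nat_lit 655) (nat_lit 623) (nat_lit 5647) (.f (nat_lit 656) (nat_lit 687) (nat_lit 5679) (.f (nat_lit 654) (nat_lit 653) (nat_lit 2669) (.f (nat_lit 622) (nat_lit 590) (nat_lit 7693) (.f (nat_lit 589) (nat_lit 621) (nat_lit 4621) (.f (nat_lit 492) (nat_lit 460) (nat_lit 7628) (.f (nat_lit 588) (nat_lit 620) (nat_lit 5612) (.f (nat_lit 522) (nat_lit 523) (nat_lit 522) (.f (nat_lit 587) (nat_lit 586) (nat_lit 2602) (.f (nat_lit 556) (nat_lit 619) (nat_lit 5611) (.f (nat_lit 491) (nat_lit 459) (nat_lit 7627) (.d (nat_lit 490) (nat_lit 489) (nat_lit 489) (nat_lit 521) (nat_lit 1513))))))))))))))))) (.a (.f (nat_lit 494) (nat_lit 524) (nat_lit 1516) (.d (nat_lit 462) (nat_lit 461) (nat_lit 3533) (nat_lit 589) (nat_lit 6605))) (.f (nat_lit 593) (nat_lit 625) (nat_lit 4592) (.f (nat_lit 558) (nat_lit 559) (nat_lit 557) (.f (nat_lit 461) (nat_lit 590) (nat_lit 4557) (.d (nat_lit 494) (nat_lit 460) (nat_lit 3532) (nat_lit 462) (nat_lit 3533)))))))))) (.a (.p (nat_lit 493) (.a (.f (nat_lit 494) (nat_lit 524) (nat_lit 1516) (.d (nat_lit 461) (nat_lit 460) (nat_lit 3532) (nat_lit 462) (nat_lit 3533))) (.a s36650 (.a (.f (nat_lit 494) (nat_lit 524) (nat_lit 1516) (.f (nat_lit 589) (nat_lit 462) (nat_lit 6605) (.f (nat_lit 620) (nat_lit 588) (nat_lit 5612) (.f (nat_lit 621) (nat_lit 652) (nat_lit 5644) (.d (nat_lit 622) (nat_lit 590) (nat_lit 4589) (nat_lit 654) (nat_lit 4621)))))) (.f (nat_lit 593) (nat_lit 625) (nat_lit 4592) (.f (nat_lit 558) (nat_lit 559) (nat_lit 557) (.f (nat_lit 461) (nat_lit 590) (nat_lit 4557) (.d (nat_lit 494) (nat_lit 460) (nat_lit 3532) (nat_lit 462) (nat_lit 3533))))))))) (.a (.p (nat_lit 622) (.a (.f (nat_lit 625) (nat_lit 593) (nat_lit 4592) (.f (nat_lit 624) (nat_lit 657) (nat_lit 4624) (.f (nat_lit 623) (nat_lit 655) (nat_lit 5647) (.f (nat_lit 589) (nat_lit 590) (nat_lit 3661) (.d (nat_lit 621) (nat_lit 588) (nat_lit 3660) (nat_lit 654) (nat_lit 4621)))))) (.a (.p (nat_lit 493) (.a (.f (nat_lit 589) (nat_lit 590) (nat_lit 4589) (.d (nat_lit 494) (nat_lit 462) (nat_lit 6605) (nat_lit 524) (nat_lit 1516))) (.a (.f (nat_lit 589) (nat_lit 590) (nat_lit 4589) (.f (nat_lit 621) (nat_lit 654) (nat_lit 4621) (.d (nat_lit 620) (nat_lit 588) (nat_lit 5612) (nat_lit 652) (nat_lit 5644)))) (.f (nat_lit 494) (nat_lit 524) (nat_lit 1516) (.d (nat_lit 461) (nat_lit 460) (nat_lit 3532) (nat_lit 462) (nat_lit 3533)))))) (.a (.f (nat_lit 625) (nat_lit 593) (nat_lit 4592) (.f (nat_lit 624) (nat_lit 657) (nat_lit 4624) (.f (nat_lit 623) (nat_lit 655) (nat_lit 5647) (.f (nat_lit 653) (nat_lit 654) (nat_lit 1645) (.f (nat_lit 621) (nat_lit 652) (nat_lit 1644) (.f (nat_lit 589) (nat_lit 588) (nat_lit 3660) (.d (nat_lit 524) (nat_lit 492) (nat_lit 7660) (nat_lit 556) (nat_lit 7692)))))))) (.a (.f (nat_lit 625) (nat_lit 593) (nat_lit 4592) (.f (nat_lit 624) (nat_lit 657) (nat_lit 4624) (.f (nat_lit 623) (nat_lit 655) (nat_lit 5647) (.f (nat_lit 590) (nat_lit 589) (nat_lit 3661) (.d (nat_lit 654) (nat_lit 558) (nat_lit 7693) (nat_lit 653) (nat_lit 1645)))))) s36716))))) (.a (.p (nat_lit 558) (.a (.p (nat_lit 493) (.a (.f (nat_lit 461) (nat_lit 590) (nat_lit 4557) (.d (nat_lit 494) (nat_lit 462) (nat_lit 3533) (nat_lit 524) (nat_lit 1516))) (.a (.f (nat_lit 461) (nat_lit 590) (nat_lit 4557) (.f (nat_lit 556) (nat_lit 588) (nat_lit 5580) (.f (nat_lit 524) (nat_lit 429) (nat_lit 5548) (.f (nat_lit 460) (nat_lit 428) (nat_lit 7596) (.f (nat_lit 492) (nat_lit 589) (nat_lit 4556) (.f (nat_lit 523) (nat_lit 522) (nat_lit 522) (.f (nat_lit 555) (nat_lit 587) (nat_lit 5579) (.f (nat_lit 459) (nat_lit 427) (nat_lit 7595) (.f (nat_lit 458) (nat_lit 457) (nat_lit 457) (.d (nat_lit 426) (nat_lit 425) (nat_lit 3497) (nat_lit 491) (nat_lit 7594))))))))))) (.a (.f (nat_lit 494) (nat_lit 524) (nat_lit 1516) (.d (nat_lit 461) (nat_lit 460) (nat_lit 3532) (nat_lit 462) (nat_lit 3533))) (.a (.f (nat_lit 494) (nat_lit 524) (nat_lit 1516) (.f (nat_lit 589) (nat_lit 462) (nat_lit 6605) (.f (nat_lit 622) (nat_lit 590) (nat_lit 4589) (.f (nat_lit 621) (nat_lit 654) (nat_lit 4621) (.d (nat_lit 620) (nat_lit 588) (nat_lit 5612) (nat_lit 652) (nat_lit 5644)))))) (.f (nat_lit 461) (nat_lit 590) (nat_lit 4557) (.d (nat_lit 494) (nat_lit 460) (nat_lit 3532) (nat_lit 462) (nat_lit 3533)))))))) (.a (.d (nat_lit 559) (nat_lit 524) (nat_lit 3596) (nat_lit 593) (nat_lit 557)) (.f (nat_lit 559) (nat_lit 593) (nat_lit 557) (.f (nat_lit 589) (nat_lit 588) (nat_lit 1580) (.f (nat_lit 590) (nat_lit 561) (nat_lit 1581) (.d (nat_lit 493) (nat_lit 461) (nat_lit 4557) (nat_lit 622) (nat_lit 4589)))))))) (.a (.p (nat_lit 493) (.a (.f (nat_lit 494) (nat_lit 524) (nat_lit 1516) (.d (nat_lit 461) (nat_lit 460) (nat_lit 3532) (nat_lit 462) (nat_lit 3533))) (.a (.p (nat_lit 558) (.a (.f (nat_lit 461) (nat_lit 590) (nat_lit 4557) (.f (nat_lit 556) (nat_lit 588) (nat_lit 5580) (.f (nat_lit 524) (nat_lit 429) (nat_lit 5548) (.f (nat_lit 460) (nat_lit 428) (nat_lit 7596) (.f (nat_lit 492) (nat_lit 589) (nat_lit 4556) (.f (nat_lit 523) (nat_lit 522) (nat_lit 522) (.f (nat_lit 555) (nat_lit 587) (nat_lit 5579) (.f (nat_lit 459) (nat_lit 427) (nat_lit 7595) (.f (nat_lit 458) (nat_lit 457) (nat_lit 457) (.d (nat_lit 426) (nat_lit 425) (nat_lit 3497) (nat_lit 491) (nat_lit 7594))))))))))) (.a (.f (nat_lit 559) (nat_lit 524) (nat_lit 3596) (.f (nat_lit 588) (nat_lit 589) (nat_lit 1580) (.d (nat_lit 556) (nat_lit 461) (nat_lit 5580) (nat_lit 587) (nat_lit 1579)))) (.a (.f (nat_lit 461) (nat_lit 590) (nat_lit 4557) (.f (nat_lit 524) (nat_lit 559) (nat_lit 3596) (.d (nat_lit 556) (nat_lit 429) (nat_lit 5548) (nat_lit 588) (nat_lit 5580)))) (.a (.f (nat_lit 559) (nat_lit 524) (nat_lit 3596) (.f (nat_lit 589) (nat_lit 588) (nat_lit 1580) (.d (nat_lit 590) (nat_lit 561) (nat_lit 1581) (nat_lit 622) (nat_lit 4589)))) (.a (.f (nat_lit 461) (nat_lit 590) (nat_lit 4557) (.f (nat_lit 588) (nat_lit 556) (nat_lit 5580) (.d (nat_lit 589) (nat_lit 559) (nat_lit 1580) (nat_lit 620) (nat_lit 5612)))) (.f (nat_lit 461) (nat_lit 590) (nat_lit 4557) (.f (nat_lit 524) (nat_lit 559) (nat_lit 3596) (.f (nat_lit 429) (nat_lit 556) (nat_lit 5548) (.d (nat_lit 430) (nat_lit 398) (nat_lit 6541) (nat_lit 462) (nat_lit 6573))))))))))) (.a (.f (nat_lit 524) (nat_lit 494) (nat_lit 1516) (.f (nat_lit 558) (nat_lit 559) (nat_lit 3596) (.f (nat_lit 461) (nat_lit 590) (nat_lit 4557) (.d (nat_lit 556) (nat_lit 429) (nat_lit 5548) (nat_lit 588) (nat_lit 5580))))) (.a (.f (nat_lit 494) (nat_lit 524) (nat_lit 1516) (.f (nat_lit 589) (nat_lit 462) (nat_lit 6605) (.f (nat_lit 620) (nat_lit 588) (nat_lit 5612) (.f (nat_lit 621) (nat_lit 652) (nat_lit 5644) (.d (nat_lit 622) (nat_lit 590) (nat_lit 4589) (nat_lit 654) (nat_lit 4621)))))) (.p (nat_lit 494) (.a (.d (nat_lit 461) (nat_lit 460) (nat_lit 3532) (nat_lit 462) (nat_lit 3533)) (.a (.f (nat_lit 461) (nat_lit 460) (nat_lit 3532) (.f (nat_lit 588) (nat_lit 556) (nat_lit 5580) (.f (nat_lit 589) (nat_lit 620) (nat_lit 5612) (.d (nat_lit 590) (nat_lit 558) (nat_lit 4557) (nat_lit 622) (nat_lit 4589))))) (.f (nat_lit 589) (nat_lit 462) (nat_lit 6605) (.f (nat_lit 588) (nat_lit 620) (nat_lit 5612) (.f (nat_lit 622) (nat_lit 590) (nat_lit 4589) (.f (nat_lit 621) (nat_lit 654) (nat_lit 4621) (.f (nat_lit 624) (nat_lit 623) (nat_lit 3660) (.f (nat_lit 657) (nat_lit 625) (nat_lit 4624) (.f (nat_lit 656) (nat_lit 689) (nat_lit 4656) (.f (nat_lit 687) (nat_lit 655) (nat_lit 5679) (.f (nat_lit 688) (nat_lit 719) (nat_lit 5711) (.f (nat_lit 685) (nat_lit 686) (nat_lit 2701) (.f (nat_lit 653) (nat_lit 556) (nat_lit 7724) (.d (nat_lit 684) (nat_lit 652) (nat_lit 5676) (nat_lit 716) (nat_lit 5708))))))))))))))))))))) (.a (.p (nat_lit 622) (.a (.f (nat_lit 625) (nat_lit 593) (nat_lit 4592) (.f (nat_lit 624) (nat_lit 657) (nat_lit 4624) (.f (nat_lit 623) (nat_lit 655) (nat_lit 5647) (.f (nat_lit 589) (nat_lit 590) (nat_lit 3661) (.d (nat_lit 621) (nat_lit 588) (nat_lit 3660) (nat_lit 654) (nat_lit 4621)))))) (.a (.p (nat_lit 493) (.a (.f (nat_lit 589) (nat_lit 590) (nat_lit 4589) (.d (nat_lit 494) (nat_lit 462) (nat_lit 6605) (nat_lit 524) (nat_lit 1516))) (.a (.f (nat_lit 589) (nat_lit 590) (nat_lit 4589) (.f (nat_lit 621) (nat_lit 654) (nat_lit 4621) (.d (nat_lit 620) (nat_lit 588) (nat_lit 5612) (nat_lit 652) (nat_lit 5644)))) (.f (nat_lit 494) (nat_lit 524) (nat_lit 1516) (.d (nat_lit 461) (nat_lit 460) (nat_lit 3532) (nat_lit 462) (nat_lit 3533)))))) (.a (.f (nat_lit 625) (nat_lit 593) (nat_lit 4592) (.f (nat_lit 624) (nat_lit 657) (nat_lit 4624) (.f (nat_lit 623) (nat_lit 655) (nat_lit 5647) (.f (nat_lit 653) (nat_lit 654) (nat_lit 1645) (.f (nat_lit 621) (nat_lit 652) (nat_lit 1644) (.f (nat_lit 589) (nat_lit 588) (nat_lit 3660) (.d (nat_lit 524) (nat_lit 492) (nat_lit 7660) (nat_lit 556) (nat_lit 7692)))))))) (.a (.p (nat_lit 493) (.a (.f (nat_lit 589) (nat_lit 590) (nat_lit 4589) (.d (nat_lit 494) (nat_lit 462) (nat_lit 6605) (nat_lit 524) (nat_lit 1516))) (.a (.f (nat_lit 589) (nat_lit 590) (nat_lit 4589) (.f (nat_lit 588) (nat_lit 620) (nat_lit 5612) (.f (nat_lit 461) (nat_lit 556) (nat_lit 5580) (.d (nat_lit 460) (nat_lit 428) (nat_lit 7596) (nat_lit 492) (nat_lit 7628))))) (.f (nat_lit 494) (nat_lit 524) (nat_lit 1516) (.d (nat_lit 461) (nat_lit 460) (nat_lit 3532) (nat_lit 462) (nat_lit 3533)))))) (.a s36716 (.f (nat_lit 625) (nat_lit 593) (nat_lit 4592) (.f (nat_lit 624) (nat_lit 657) (nat_lit 4624) (.f (nat_lit 623) (nat_lit 655) (nat_lit 5647) (.f (nat_lit 589) (nat_lit 590) (nat_lit 3661) (.d (nat_lit 654) (nat_lit 621) (nat_lit 4621) (nat_lit 653) (nat_lit 1645)))))))))))) (.a (.p (nat_lit 558) (.a (.d (nat_lit 593) (nat_lit 559) (nat_lit 557) (nat_lit 625) (nat_lit 4592)) (.a (.p (nat_lit 622) (.a (.f (nat_lit 590) (nat_lit 654) (nat_lit 7693) (.d (nat_lit 493) (nat_lit 461) (nat_lit 4557) (nat_lit 589) (nat_lit 4589))) (.a (.f (nat_lit 625) (nat_lit 593) (nat_lit 4592) (.f (nat_lit 624) (nat_lit 657) (nat_lit 4624) (.f (nat_lit 623) (nat_lit 655) (nat_lit 5647) (.f (nat_lit 653) (nat_lit 654) (nat_lit 1645) (.f (nat_lit 621) (nat_lit 652) (nat_lit 1644) (.f (nat_lit 589) (nat_lit 588) (nat_lit 3660) (.d (nat_lit 524) (nat_lit 492) (nat_lit 7660) (nat_lit 556) (nat_lit 7692)))))))) (.a (.f (nat_lit 625) (nat_lit 593) (nat_lit 4592) (.f (nat_lit 624) (nat_lit 657) (nat_lit 4624) (.f (nat_lit 623) (nat_lit 655) (nat_lit 5647) (.d (nat_lit 654) (nat_lit 590) (nat_lit 7693) (nat_lit 653) (nat_lit 1645))))) (.f (nat_lit 625) (nat_lit 593) (nat_lit 4592) (.f (nat_lit 624) (nat_lit 657) (nat_lit 4624) (.f (nat_lit 623) (nat_lit 655) (nat_lit 5647) (.f (nat_lit 589) (nat_lit 590) (nat_lit 3661) (.f (nat_lit 621) (nat_lit 588) (nat_lit 3660) (.d (nat_lit 652) (nat_lit 620) (nat_lit 5644) (nat_lit 653) (nat_lit 1644))))))))))) (.a (.d (nat_lit 559) (nat_lit 524) (nat_lit 3596) (nat_lit 593) (nat_lit 557)) (.f (nat_lit 559) (nat_lit 524) (nat_lit 3596) (.f (nat_lit 589) (nat_lit 588) (nat_lit 1580) (.f (nat_lit 590) (nat_lit 561) (nat_lit 1581) (.d (nat_lit 493) (nat_lit 461) (nat_lit 4557) (nat_lit 622) (nat_lit 4589))))))))) (.a (.p (nat_lit 493) (.a (.f (nat_lit 494) (nat_lit 524) (nat_lit 1516) (.d (nat_lit 461) (nat_lit 460) (nat_lit 3532) (nat_lit 462) (nat_lit 3533))) (.a (.p (nat_lit 589) (.a (.f (nat_lit 588) (nat_lit 620) (nat_lit 5612) (.f (nat_lit 461) (nat_lit 556) (nat_lit 5580) (.d (nat_lit 460) (nat_lit 428) (nat_lit 7596) (nat_lit 492) (nat_lit 7628)))) (.a (.f (nat_lit 588) (nat_lit 620) (nat_lit 5612) (.f (nat_lit 492) (nat_lit 460) (nat_lit 7628) (.f (nat_lit 621) (nat_lit 524) (nat_lit 7660) (.f (nat_lit 622) (nat_lit 654) (nat_lit 4621) (.f (nat_lit 624) (nat_lit 623) (nat_lit 3660) (.d (nat_lit 625) (nat_lit 593) (nat_lit 4592) (nat_lit 657) (nat_lit 4624))))))) (.a (.f (nat_lit 588) (nat_lit 620) (nat_lit 5612) (.f (nat_lit 556) (nat_lit 461) (nat_lit 5580) (.f (nat_lit 625) (nat_lit 593) (nat_lit 4592) (.f (nat_lit 624) (nat_lit 657) (nat_lit 4624) (.f (nat_lit 623) (nat_lit 655) (nat_lit 5647) (.f (nat_lit 621) (nat_lit 622) (nat_lit 3660) (.d (nat_lit 653) (nat_lit 524) (nat_lit 7692) (nat_lit 685) (nat_lit 7724)))))))) (.a (.f (nat_lit 492) (nat_lit 460) (nat_lit 7628) (.f (nat_lit 621) (nat_lit 524) (nat_lit 7660) (.f (nat_lit 652) (nat_lit 620) (nat_lit 5644) (.f (nat_lit 653) (nat_lit 684) (nat_lit 5676) (.d (nat_lit 654) (nat_lit 622) (nat_lit 4621) (nat_lit 686) (nat_lit 4653)))))) (.f (nat_lit 492) (nat_lit 460) (nat_lit 7628) (.f (nat_lit 621) (nat_lit 524) (nat_lit 7660) (.f (nat_lit 625) (nat_lit 593) (nat_lit 4592) (.f (nat_lit 624) (nat_lit 657) (nat_lit 4624) (.f (nat_lit 623) (nat_lit 655) (nat_lit 5647) (.d (nat_lit 622) (nat_lit 588) (nat_lit 3660) (nat_lit 654) (nat_lit 4621)))))))))))) (.a (.f (nat_lit 494) (nat_lit 524) (nat_lit 1516) (.f (nat_lit 589) (nat_lit 462) (nat_lit 6605) (.f (nat_lit 625) (nat_lit 593) (nat_lit 4592) (.f (nat_lit 624) (nat_lit 657) (nat_lit 4624) (.f (nat_lit 655) (nat_lit 623) (nat_lit 5647) (.f (nat_lit 656) (nat_lit 687) (nat_lit 5679) (.f (nat_lit 654) (nat_lit 653) (nat_lit 2669) (.f (nat_lit 620) (nat_lit 588) (nat_lit 5612) (.d (nat_lit 621) (nat_lit 622) (nat_lit 4621) (nat_lit 652) (nat_lit 5644)))))))))) (.p (nat_lit 494) (.a (.d (nat_lit 461) (nat_lit 460) (nat_lit 3532) (nat_lit 462) (nat_lit 3533)) (.a (.f (nat_lit 460) (nat_lit 461) (nat_lit 3532) (.d (nat_lit 492) (nat_lit 459) (nat_lit 3531) (nat_lit 589) (nat_lit 7628))) (.f (nat_lit 589) (nat_lit 462) (nat_lit 6605) (.f (nat_lit 625) (nat_lit 593) (nat_lit 4592) (.f (nat_lit 624) (nat_lit 657) (nat_lit 4624) (.f (nat_lit 655) (nat_lit 623) (nat_lit 5647) (.f (nat_lit 656) (nat_lit 687) (nat_lit 5679) (.f (nat_lit 654) (nat_lit 653) (nat_lit 2669) (.f (nat_lit 620) (nat_lit 588) (nat_lit 5612) (.d (nat_lit 621) (nat_lit 622) (nat_lit 4621) (nat_lit 652) (nat_lit 5644)))))))))))))))) (.a (.p (nat_lit 624) (.a (.d (nat_lit 625) (nat_lit 593) (nat_lit 4592) (nat_lit 657) (nat_lit 4624)) (.a (.f (nat_lit 593) (nat_lit 625) (nat_lit 4592) (.f (nat_lit 559) (nat_lit 558) (nat_lit 557) (.f (nat_lit 655) (nat_lit 623) (nat_lit 5647) (.f (nat_lit 656) (nat_lit 687) (nat_lit 5679) (.f (nat_lit 561) (nat_lit 688) (nat_lit 6704) (.f (nat_lit 562) (nat_lit 530) (nat_lit 2575) (.d (nat_lit 563) (nat_lit 532) (nat_lit 2576) (nat_lit 564) (nat_lit 1584)))))))) (.a (.p (nat_lit 559) (.a (.d (nat_lit 558) (nat_lit 524) (nat_lit 3596) (nat_lit 593) (nat_lit 557)) (.a (.f (nat_lit 558) (nat_lit 524) (nat_lit 3596) (.f (nat_lit 589) (nat_lit 588) (nat_lit 1580) (.f (nat_lit 655) (nat_lit 623) (nat_lit 5647) (.f (nat_lit 656) (nat_lit 687) (nat_lit 5679) (.f (nat_lit 689) (nat_lit 657) (nat_lit 4656) (.f (nat_lit 688) (nat_lit 721) (nat_lit 4688) (.f (nat_lit 654) (nat_lit 653) (nat_lit 653) (.d (nat_lit 622) (nat_lit 590) (nat_lit 7693) (nat_lit 621) (nat_lit 4621))))))))) (.f (nat_lit 655) (nat_lit 623) (nat_lit 5647) (.f (nat_lit 656) (nat_lit 687) (nat_lit 5679) (.f (nat_lit 689) (nat_lit 657) (nat_lit 4656) (.f (nat_lit 688) (nat_lit 721) (nat_lit 4688) (.f (nat_lit 561) (nat_lit 593) (nat_lit 6704) (.f (nat_lit 562) (nat_lit 530) (nat_lit 2575) (.f (nat_lit 563) (nat_lit 532) (nat_lit 2576) (.d (nat_lit 595) (nat_lit 594) (nat_lit 559) (nat_lit 596) (nat_lit 560)))))))))))) (.f (nat_lit 657) (nat_lit 625) (nat_lit 4624) (.f (nat_lit 656) (nat_lit 689) (nat_lit 4656) (.d (nat_lit 655) (nat_lit 623) (nat_lit 5647) (nat_lit 687) (nat_lit 5679)))))))) (.a (.p (nat_lit 558) (.a (.d (nat_lit 593) (nat_lit 559) (nat_lit 557) (nat_lit 625) (nat_lit 4592)) (.a (.p (nat_lit 493) (.a (.f (nat_lit 461) (nat_lit 590) (nat_lit 4557) (.d (nat_lit 494) (nat_lit 462) (nat_lit 3533) (nat_lit 524) (nat_lit 1516))) (.a (.f (nat_lit 461) (nat_lit 590) (nat_lit 4557) (.f (nat_lit 556) (nat_lit 588) (nat_lit 5580) (.f (nat_lit 524) (nat_lit 429) (nat_lit 5548) (.f (nat_lit 460) (nat_lit 428) (nat_lit 7596) (.f (nat_lit 492) (nat_lit 589) (nat_lit 4556) (.f (nat_lit 523) (nat_lit 522) (nat_lit 522) (.f (nat_lit 555) (nat_lit 587) (nat_lit 5579) (.f (nat_lit 459) (nat_lit 427) (nat_lit 7595) (.f (nat_lit 458) (nat_lit 457) (nat_lit 457) (.d (nat_lit 426) (nat_lit 425) (nat_lit 3497) (nat_lit 491) (nat_lit 7594))))))))))) (.a (.f (nat_lit 494) (nat_lit 524) (nat_lit 1516) (.d (nat_lit 461) (nat_lit 460) (nat_lit 3532) (nat_lit 462) (nat_lit 3533))) (.a (.f (nat_lit 494) (nat_lit 524) (nat_lit 1516) (.f (nat_lit 589) (nat_lit 462) (nat_lit 6605) (.f (nat_lit 625) (nat_lit 593) (nat_lit 4592) (.f (nat_lit 624) (nat_lit 657) (nat_lit 4624) (.f (nat_lit 655) (nat_lit 623) (nat_lit 5647) (.f (nat_lit 656) (nat_lit 687) (nat_lit 5679) (.f (nat_lit 620) (nat_lit 588) (nat_lit 5612) (.f (nat_lit 653) (nat_lit 654) (nat_lit 2669) (.f (nat_lit 621) (nat_lit 652) (nat_lit 5644) (.f (nat_lit 685) (nat_lit 590) (nat_lit 6701) (.f (nat_lit 716) (nat_lit 684) (nat_lit 5708) (.f (nat_lit 717) (nat_lit 748) (nat_lit 5740) (.d (nat_lit 718) (nat_lit 686) (nat_lit 4685) (nat_lit 750) (nat_lit 4717)))))))))))))) (.f (nat_lit 461) (nat_lit 590) (nat_lit 4557) (.d (nat_lit 494) (nat_lit 460) (nat_lit 3532) (nat_lit 462) (nat_lit 3533)))))))) (.a (.d (nat_lit 559) (nat_lit 524) (nat_lit 3596) (nat_lit 593) (nat_lit 557)) (.f (nat_lit 524) (nat_lit 559) (nat_lit 3596) (.f (nat_lit 493) (nat_lit 494) (nat_lit 1516) (.f (nat_lit 461) (nat_lit 590) (nat_lit 4557) (.d (nat_lit 556) (nat_lit 429) (nat_lit 5548) (nat_lit 588) (nat_lit 5580))))))))) (.a (.p (nat_lit 624) (.a (.d (nat_lit 625) (nat_lit 593) (nat_lit 4592) (nat_lit 657) (nat_lit 4624)) (.a (.f (nat_lit 593) (nat_lit 625) (nat_lit 4592) (.f (nat_lit 559) (nat_lit 558) (nat_lit 557) (.f (nat_lit 655) (nat_lit 623) (nat_lit 5647) (.f (nat_lit 656) (nat_lit 687) (nat_lit 5679) (.f (nat_lit 561) (nat_lit 688) (nat_lit 6704) (.f (nat_lit 562) (nat_lit 530) (nat_lit 2575) (.d (nat_lit 563) (nat_lit 532) (nat_lit 2576) (nat_lit 564) (nat_lit 1584)))))))) (.a (.p (nat_lit 493) (.a (.f (nat_lit 655) (nat_lit 623) (nat_lit 5647) (.f (nat_lit 656) (nat_lit 687) (nat_lit 5679) (.f (nat_lit 689) (nat_lit 657) (nat_lit 4656) (.f (nat_lit 688) (nat_lit 721) (nat_lit 4688) (.f (nat_lit 654) (nat_lit 653) (nat_lit 653) (.f (nat_lit 593) (nat_lit 561) (nat_lit 6704) (.f (nat_lit 558) (nat_lit 559) (nat_lit 557) (.d (nat_lit 590) (nat_lit 461) (nat_lit 4557) (nat_lit 622) (nat_lit 7693))))))))) (.a (.f (nat_lit 494) (nat_lit 524) (nat_lit 1516) (.d (nat_lit 461) (nat_lit 460) (nat_lit 3532) (nat_lit 462) (nat_lit 3533))) (.f (nat_lit 524) (nat_lit 494) (nat_lit 1516) (.f (nat_lit 559) (nat_lit 558) (nat_lit 3596) (.f (nat_lit 655) (nat_lit 623) (nat_lit 5647) (.f (nat_lit 656) (nat_lit 687) (nat_lit 5679) (.f (nat_lit 689) (nat_lit 657) (nat_lit 4656) (.f (nat_lit 688) (nat_lit 721) (nat_lit 4688) (.f (nat_lit 561) (nat_lit 593) (nat_lit 6704) (.f (nat_lit 562) (nat_lit 530) (nat_lit 2575) (.f (nat_lit 563) (nat_lit 532) (nat_lit 2576) (.d (nat_lit 595) (nat_lit 594) (nat_lit 559) (nat_lit 596) (nat_lit 560)))))))))))))) (.f (nat_lit 657) (nat_lit 625) (nat_lit 4624) (.f (nat_lit 656) (nat_lit 689) (nat_lit 4656) (.d (nat_lit 655) (nat_lit 623) (nat_lit 5647) (nat_lit 687) (nat_lit 5679)))))))) (.a (.p (nat_lit 493) (.a (.f (nat_lit 494) (nat_lit 524) (nat_lit 1516) (.d (nat_lit 461) (nat_lit 460) (nat_lit 3532) (nat_lit 462) (nat_lit 3533))) (.a s36650 (.a (.f (nat_lit 494) (nat_lit 524) (nat_lit 1516) (.f (nat_lit 589) (nat_lit 462) (nat_lit 6605) (.f (nat_lit 588) (nat_lit 620) (nat_lit 5612) (.f (nat_lit 625) (nat_lit 593) (nat_lit 4592) (.f (nat_lit 624) (nat_lit 657) (nat_lit 4624) (.f (nat_lit 623) (nat_lit 655) (nat_lit 5647) (.d (nat_lit 622) (nat_lit 590) (nat_lit 4589) (nat_lit 621) (nat_lit 3660)))))))) (.f (nat_lit 593) (nat_lit 625) (nat_lit 4592) (.f (nat_lit 558) (nat_lit 559) (nat_lit 557) (.f (nat_lit 461) (nat_lit 590) (nat_lit 4557) (.d (nat_lit 494) (nat_lit 460) (nat_lit 3532) (nat_lit 462) (nat_lit 3533))))))))) (.p (nat_lit 622) (.a (.f (nat_lit 625) (nat_lit 593) (nat_lit 4592) (.f (nat_lit 624) (nat_lit 657) (nat_lit 4624) (.f (nat_lit 623) (nat_lit 655) (nat_lit 5647) (.f (nat_lit 589) (nat_lit 590) (nat_lit 3661) (.d (nat_lit 621) (nat_lit 588) (nat_lit 3660) (nat_lit 654) (nat_lit 4621)))))) (.a (.f (nat_lit 593) (nat_lit 625) (nat_lit 4592) (.f (nat_lit 558) (nat_lit 559) (nat_lit 557) (.f (nat_lit 590) (nat_lit 654) (nat_lit 7693) (.d (nat_lit 493) (nat_lit 461) (nat_lit 4557) (nat_lit 589) (nat_lit 4589))))) (.a (.p (nat_lit 589) (.a (.f (nat_lit 621) (nat_lit 654) (nat_lit 4621) (.f (nat_lit 493) (nat_lit 590) (nat_lit 4589) (.d (nat_lit 620) (nat_lit 588) (nat_lit 5612) (nat_lit 652) (nat_lit 5644)))) (.a (.f (nat_lit 621) (nat_lit 654) (nat_lit 4621) (.f (nat_lit 620) (nat_lit 652) (nat_lit 5644) (.f (nat_lit 588) (nat_lit 493) (nat_lit 5612) (.d (nat_lit 623) (nat_lit 587) (nat_lit 3659) (nat_lit 624) (nat_lit 3660))))) (.a (.f (nat_lit 654) (nat_lit 621) (nat_lit 4621) (.d (nat_lit 590) (nat_lit 558) (nat_lit 7693) (nat_lit 686) (nat_lit 7725))) (.a (.f (nat_lit 590) (nat_lit 493) (nat_lit 4589) (.d (nat_lit 654) (nat_lit 558) (nat_lit 7693) (nat_lit 686) (nat_lit 7725))) (.f (nat_lit 493) (nat_lit 590) (nat_lit 4589) (.f (nat_lit 588) (nat_lit 620) (nat_lit 5612) (.f (nat_lit 461) (nat_lit 556) (nat_lit 5580) (.d (nat_lit 460) (nat_lit 428) (nat_lit 7596) (nat_lit 492) (nat_lit 7628)))))))))) s36716))))))))))))))))) (.p (nat_lit 624) (.a (.d (nat_lit 625) (nat_lit 593) (nat_lit 4592) (nat_lit 657) (nat_lit 4624)) (.a (.f (nat_lit 593) (nat_lit 625) (nat_lit 4592) (.f (nat_lit 655) (nat_lit 623) (nat_lit 5647) (.f (nat_lit 656) (nat_lit 687) (nat_lit 5679) (.f (nat_lit 561) (nat_lit 688) (nat_lit 6704) (.f (nat_lit 526) (nat_lit 494) (nat_lit 1517) (.f (nat_lit 559) (nat_lit 558) (nat_lit 3597) (.f (nat_lit 562) (nat_lit 530) (nat_lit 2575) (.d (nat_lit 563) (nat_lit 532) (nat_lit 2576) (nat_lit 564) (nat_lit 1584))))))))) (.a (.f (nat_lit 655) (nat_lit 623) (nat_lit 5647) (.f (nat_lit 656) (nat_lit 687) (nat_lit 5679) (.f (nat_lit 689) (nat_lit 657) (nat_lit 4656) (.f (nat_lit 688) (nat_lit 721) (nat_lit 4688) (.f (nat_lit 561) (nat_lit 593) (nat_lit 6704) (.f (nat_lit 526) (nat_lit 494) (nat_lit 1517) (.f (nat_lit 559) (nat_lit 558) (nat_lit 3597) (.f (nat_lit 562) (nat_lit 530) (nat_lit 2575) (.f (nat_lit 563) (nat_lit 532) (nat_lit 2576) (.d (nat_lit 595) (nat_lit 594) (nat_lit 559) (nat_lit 596) (nat_lit 560))))))))))) (.f (nat_lit 657) (nat_lit 625) (nat_lit 4624) (.f (nat_lit 656) (nat_lit 689) (nat_lit 4656) (.d (nat_lit 655) (nat_lit 623) (nat_lit 5647) (nat_lit 687) (nat_lit 5679)))))))))))) (.a (.p (nat_lit 595) (.a (.f (nat_lit 593) (nat_lit 625) (nat_lit 4592) (.f (nat_lit 594) (nat_lit 559) (nat_lit 3631) (.f (nat_lit 563) (nat_lit 564) (nat_lit 2608) (.f (nat_lit 499) (nat_lit 626) (nat_lit 5618) (.d (nat_lit 596) (nat_lit 561) (nat_lit 3632) (nat_lit 628) (nat_lit 4595)))))) (.a (.f (nat_lit 593) (nat_lit 625) (nat_lit 4592) (.f (nat_lit 594) (nat_lit 559) (nat_lit 3631) (.f (nat_lit 563) (nat_lit 564) (nat_lit 2608) (.f (nat_lit 499) (nat_lit 626) (nat_lit 5618) (.d (nat_lit 628) (nat_lit 596) (nat_lit 4595) (nat_lit 627) (nat_lit 592)))))) (.a (.f (nat_lit 625) (nat_lit 593) (nat_lit 4592) (.f (nat_lit 624) (nat_lit 657) (nat_lit 4624) (.f (nat_lit 623) (nat_lit 655) (nat_lit 5647) (.f (nat_lit 626) (nat_lit 594) (nat_lit 2639) (.f (nat_lit 627) (nat_lit 596) (nat_lit 2640) (.d (nat_lit 659) (nat_lit 658) (nat_lit 623) (nat_lit 660) (nat_lit 624))))))) (.a (.p (nat_lit 594) (.a (.f (nat_lit 593) (nat_lit 559) (nat_lit 3631) (.f (nat_lit 563) (nat_lit 564) (nat_lit 2608) (.f (nat_lit 627) (nat_lit 628) (nat_lit 592) (.d (nat_lit 626) (nat_lit 499) (nat_lit 5618) (nat_lit 658) (nat_lit 5650))))) (.a (.p (nat_lit 563) (.a (.f (nat_lit 593) (nat_lit 564) (nat_lit 2608) (.f (nat_lit 627) (nat_lit 628) (nat_lit 592) (.d (nat_lit 626) (nat_lit 499) (nat_lit 5618) (nat_lit 658) (nat_lit 5650)))) (.a (.f (nat_lit 499) (nat_lit 626) (nat_lit 5618) (.f (nat_lit 467) (nat_lit 562) (nat_lit 5586) (.d (nat_lit 596) (nat_lit 564) (nat_lit 4563) (nat_lit 628) (nat_lit 4595)))) (.a (.f (nat_lit 593) (nat_lit 564) (nat_lit 2608) (.f (nat_lit 596) (nat_lit 561) (nat_lit 3632) (.d (nat_lit 628) (nat_lit 627) (nat_lit 592) (nat_lit 629) (nat_lit 593)))) (.a (.f (nat_lit 564) (nat_lit 593) (nat_lit 2608) (.f (nat_lit 499) (nat_lit 626) (nat_lit 5618) (.d (nat_lit 467) (nat_lit 562) (nat_lit 5586) (nat_lit 596) (nat_lit 4563)))) (.f (nat_lit 499) (nat_lit 626) (nat_lit 5618) (.f (nat_lit 562) (nat_lit 467) (nat_lit 5586) (.d (nat_lit 561) (nat_lit 532) (nat_lit 2576) (nat_lit 596) (nat_lit 560))))))))) (.a (.p (nat_lit 499) (.a (.f (nat_lit 563) (nat_lit 626) (nat_lit 5618) (.f (nat_lit 596) (nat_lit 628) (nat_lit 4595) (.d (nat_lit 467) (nat_lit 562) (nat_lit 5586) (nat_lit 564) (nat_lit 4563)))) (.a (.f (nat_lit 563) (nat_lit 626) (nat_lit 5618) (.d (nat_lit 498) (nat_lit 466) (nat_lit 7634) (nat_lit 532) (nat_lit 496))) (.f (nat_lit 498) (nat_lit 532) (nat_lit 496) (.d (nat_lit 467) (nat_lit 466) (nat_lit 2511) (nat_lit 468) (nat_lit 2512)))))) (.a (.f (nat_lit 593) (nat_lit 559) (nat_lit 3631) (.f (nat_lit 596) (nat_lit 561) (nat_lit 3632) (.d (nat_lit 564) (nat_lit 563) (nat_lit 2608) (nat_lit 565) (nat_lit 2609)))) (.f (nat_lit 593) (nat_lit 559) (nat_lit 3631) (.f (nat_lit 596) (nat_lit 561) (nat_lit 3632) (.d (nat_lit 628) (nat_lit 627) (nat_lit 592) (nat_lit 629) (nat_lit 593))))))))) (.a (.p (nat_lit 499) (.a (.f (nat_lit 498) (nat_lit 532) (nat_lit 496) (.d (nat_lit 467) (nat_lit 466) (nat_lit 2511) (nat_lit 468) (nat_lit 2512))) (.a (.p (nat_lit 563) (.a (.f (nat_lit 596) (nat_lit 628) (nat_lit 4595) (.f (nat_lit 562) (nat_lit 561) (nat_lit 560) (.d (nat_lit 467) (nat_lit 564) (nat_lit 4563) (nat_lit 594) (nat_lit 5586)))) (.a (.f (nat_lit 596) (nat_lit 628) (nat_lit 4595) (.f (nat_lit 467) (nat_lit 564) (nat_lit 4563) (.d (nat_lit 594) (nat_lit 562) (nat_lit 5586) (nat_lit 626) (nat_lit 5618)))) (.a (.f (nat_lit 596) (nat_lit 628) (nat_lit 4595) (.f (nat_lit 467) (nat_lit 564) (nat_lit 4563) (.d (nat_lit 468) (nat_lit 436) (nat_lit 6579) (nat_lit 500) (nat_lit 6611)))) (.f (nat_lit 626) (nat_lit 594) (nat_lit 5618) (.f (nat_lit 627) (nat_lit 658) (nat_lit 5650) (.d (nat_lit 500) (nat_lit 468) (nat_lit 6611) (nat_lit 532) (nat_lit 6643)))))))) (.a (.f (nat_lit 498) (nat_lit 532) (nat_lit 496) s37053) (.p (nat_lit 498) (.a (.d (nat_lit 467) (nat_lit 466) (nat_lit 2511) (nat_lit 468) (nat_lit 2512)) (.a (.f (nat_lit 468) (nat_lit 467) (nat_lit 2512) (.d (nat_lit 500) (nat_lit 469) (nat_lit 2513) (nat_lit 563) (nat_lit 6611))) s37053))))))) (.a (.p (nat_lit 563) (.a (.p (nat_lit 627) (.a (.f (nat_lit 532) (nat_lit 500) (nat_lit 6643) (.f (nat_lit 499) (nat_lit 498) (nat_lit 496) (.d (nat_lit 628) (nat_lit 596) (nat_lit 4595) (nat_lit 660) (nat_lit 4627)))) (.a (.f (nat_lit 532) (nat_lit 500) (nat_lit 6643) (.f (nat_lit 659) (nat_lit 564) (nat_lit 6675) (.d (nat_lit 658) (nat_lit 626) (nat_lit 5650) (nat_lit 690) (nat_lit 5682)))) (.f (nat_lit 628) (nat_lit 660) (nat_lit 4627) (.f (nat_lit 596) (nat_lit 499) (nat_lit 4595) (.f (nat_lit 626) (nat_lit 658) (nat_lit 5650) (.d (nat_lit 597) (nat_lit 598) (nat_lit 1618) (nat_lit 625) (nat_lit 2641)))))))) (.a (.p (nat_lit 627) (.a (.f (nat_lit 532) (nat_lit 500) (nat_lit 6643) (.f (nat_lit 499) (nat_lit 498) (nat_lit 496) (.d (nat_lit 628) (nat_lit 596) (nat_lit 4595) (nat_lit 660) (nat_lit 4627)))) (.a (.f (nat_lit 532) (nat_lit 500) (nat_lit 6643) (.f (nat_lit 659) (nat_lit 564) (nat_lit 6675) (.d (nat_lit 658) (nat_lit 626) (nat_lit 5650) (nat_lit 690) (nat_lit 5682)))) (.a (.f (nat_lit 628) (nat_lit 660) (nat_lit 4627) (.f (nat_lit 499) (nat_lit 596) (nat_lit 4595) (.f (nat_lit 468) (nat_lit 500) (nat_lit 6611) (.d (nat_lit 498) (nat_lit 466) (nat_lit 7634) (nat_lit 467) (nat_lit 2512))))) (.f (nat_lit 628) (nat_lit 660) (nat_lit 4627) (.f (nat_lit 499) (nat_lit 596) (nat_lit 4595) (.d (nat_lit 498) (nat_lit 466) (nat_lit 7634) (nat_lit 532) (nat_lit 496)))))))) (.a (.p (nat_lit 624) (.a (.f (nat_lit 657) (nat_lit 625) (nat_lit 4624) (.f (nat_lit 656) (nat_lit 689) (nat_lit 4656) (.d (nat_lit 655) (nat_lit 623) (nat_lit 5647) (nat_lit 687) (nat_lit 5679)))) (.a (.d (nat_lit 625) (nat_lit 593) (nat_lit 4592) (nat_lit 657) (nat_lit 4624)) (.a (.f (nat_lit 593) (nat_lit 625) (nat_lit 4592) (.f (nat_lit 655) (nat_lit 623) (nat_lit 5647) (.f (nat_lit 656) (nat_lit 687) (nat_lit 5679) (.f (nat_lit 561) (nat_lit 688) (nat_lit 6704) (.d (nat_lit 562) (nat_lit 532) (nat_lit 2576) (nat_lit 596) (nat_lit 560)))))) (.f (nat_lit 655) (nat_lit 623) (nat_lit 5647) (.f (nat_lit 656) (nat_lit 687) (nat_lit 5679) (.f (nat_lit 689) (nat_lit 657) (nat_lit 4656) (.f (nat_lit 688) (nat_lit 721) (nat_lit 4688) (.f (nat_lit 561) (nat_lit 593) (nat_lit 6704) (.d (nat_lit 562) (nat_lit 532) (nat_lit 2576) (nat_lit 596) (nat_lit 560))))))))))) (.a (.f (nat_lit 625) (nat_lit 593) (nat_lit 4592) (.f (nat_lit 624) (nat_lit 657) (nat_lit 4624) (.f (nat_lit 655) (nat_lit 623) (nat_lit 5647) (.f (nat_lit 656) (nat_lit 687) (nat_lit 5679) (.f (nat_lit 627) (nat_lit 626) (nat_lit 1647) (.f (nat_lit 532) (nat_lit 500) (nat_lit 6643) (.f (nat_lit 659) (nat_lit 564) (nat_lit 6675) (.d (nat_lit 660) (nat_lit 628) (nat_lit 4627) (nat_lit 692) (nat_lit 4659))))))))) (.f (nat_lit 625) (nat_lit 593) (nat_lit 4592) (.f (nat_lit 624) (nat_lit 657) (nat_lit 4624) (.f (nat_lit 655) (nat_lit 623) (nat_lit 5647) (.f (nat_lit 656) (nat_lit 687) (nat_lit 5679) (.f (nat_lit 627) (nat_lit 626) (nat_lit 1647) (.f (nat_lit 628) (nat_lit 660) (nat_lit 4627) (.f (nat_lit 499) (nat_lit 596) (nat_lit 4595) (.f (nat_lit 468) (nat_lit 500) (nat_lit 6611) (.d (nat_lit 498) (nat_lit 466) (nat_lit 7634) (nat_lit 467) (nat_lit 2512))))))))))))))) (.a (.f (nat_lit 593) (nat_lit 625) (nat_lit 4592) (.f (nat_lit 594) (nat_lit 559) (nat_lit 3631) (.f (nat_lit 596) (nat_lit 561) (nat_lit 3632) (.d (nat_lit 628) (nat_lit 627) (nat_lit 592) (nat_lit 629) (nat_lit 593))))) (.f (nat_lit 593) (nat_lit 625) (nat_lit 4592) (.f (nat_lit 594) (nat_lit 559) (nat_lit 3631) (.f (nat_lit 563) (nat_lit 564) (nat_lit 2608) (.f (nat_lit 499) (nat_lit 626) (nat_lit 5618) (.d (nat_lit 498) (nat_lit 466) (nat_lit 7634) (nat_lit 532) (nat_lit 496)))))))))))))) (.p (nat_lit 594) (.a (.f (nat_lit 593) (nat_lit 625) (nat_lit 4592) (.f (nat_lit 595) (nat_lit 559) (nat_lit 3631) (.f (nat_lit 563) (nat_lit 564) (nat_lit 2608) (.f (nat_lit 627) (nat_lit 628) (nat_lit 592) (.d (nat_lit 626) (nat_lit 499) (nat_lit 5618) (nat_lit 658) (nat_lit 5650)))))) (.a (.f (nat_lit 593) (nat_lit 625) (nat_lit 4592) (.f (nat_lit 498) (nat_lit 530) (nat_lit 495) (.f (nat_lit 467) (nat_lit 466) (nat_lit 2511) (.f (nat_lit 499) (nat_lit 468) (nat_lit 2512) (.f (nat_lit 563) (nat_lit 562) (nat_lit 5586) (.d (nat_lit 564) (nat_lit 595) (nat_lit 2608) (nat_lit 596) (nat_lit 4563))))))) (.a (.f (nat_lit 498) (nat_lit 530) (nat_lit 495) (.f (nat_lit 467) (nat_lit 466) (nat_lit 2511) (.f (nat_lit 499) (nat_lit 468) (nat_lit 2512) (.f (nat_lit 563) (nat_lit 562) (nat_lit 5586) (.f (nat_lit 595) (nat_lit 626) (nat_lit 5618) (.d (nat_lit 596) (nat_lit 564) (nat_lit 4563) (nat_lit 628) (nat_lit 4595))))))) (.a (.f (nat_lit 625) (nat_lit 593) (nat_lit 4592) (.f (nat_lit 624) (nat_lit 657) (nat_lit 4624) (.f (nat_lit 655) (nat_lit 623) (nat_lit 5647) (.f (nat_lit 656) (nat_lit 687) (nat_lit 5679) (.f (nat_lit 626) (nat_lit 627) (nat_lit 1647) (.f (nat_lit 530) (nat_lit 498) (nat_lit 495) (.f (nat_lit 562) (nat_lit 499) (nat_lit 6642) (.f (nat_lit 658) (nat_lit 563) (nat_lit 6674) (.f (nat_lit 691) (nat_lit 659) (nat_lit 4658) (.f (nat_lit 690) (nat_lit 723) (nat_lit 4690) (.d (nat_lit 689) (nat_lit 688) (nat_lit 3727) (nat_lit 721) (nat_lit 5713)))))))))))) (.f (nat_lit 593) (nat_lit 625) (nat_lit 4592) (.f (nat_lit 595) (nat_lit 559) (nat_lit 3631) (.f (nat_lit 596) (nat_lit 561) (nat_lit 3632) (.d (nat_lit 628) (nat_lit 627) (nat_lit 592) (nat_lit 629) (nat_lit 593)))))))))))))))))) (.f (nat_lit 465) (nat_lit 497) (nat_lit 6608) (.f (nat_lit 464) (nat_lit 433) (nat_lit 6576) (.d (nat_lit 463) (nat_lit 431) (nat_lit 7599) (nat_lit 495) (nat_lit 7631)))))))) (.a (.p (nat_lit 496) (.a (.f (nat_lit 591) (nat_lit 623) (nat_lit 5615) (.f (nat_lit 464) (nat_lit 559) (nat_lit 5583) (.d (nat_lit 465) (nat_lit 433) (nat_lit 6576) (nat_lit 497) (nat_lit 6608)))) (.a (.f (nat_lit 591) (nat_lit 623) (nat_lit 5615) (.f (nat_lit 464) (nat_lit 559) (nat_lit 5583) (.d (nat_lit 463) (nat_lit 431) (nat_lit 7599) (nat_lit 495) (nat_lit 7631)))) (.a (.p (nat_lit 525) (.a (.f (nat_lit 495) (nat_lit 463) (nat_lit 7631) (.f (nat_lit 497) (nat_lit 465) (nat_lit 6608) (.f (nat_lit 494) (nat_lit 526) (nat_lit 1517) (.f (nat_lit 493) (nat_lit 524) (nat_lit 1516) (.d (nat_lit 461) (nat_lit 460) (nat_lit 3532) (nat_lit 462) (nat_lit 3533)))))) (.a (.p (nat_lit 557) (.a (.p (nat_lit 558) (.a (.f (nat_lit 559) (nat_lit 524) (nat_lit 3596) (.d (nat_lit 591) (nat_lit 556) (nat_lit 556) (nat_lit 623) (nat_lit 5615))) (.a (.f (nat_lit 559) (nat_lit 524) (nat_lit 3596) (.f (nat_lit 556) (nat_lit 591) (nat_lit 556) (.d (nat_lit 588) (nat_lit 587) (nat_lit 1579) (nat_lit 589) (nat_lit 1580)))) (.a (.f (nat_lit 623) (nat_lit 591) (nat_lit 5615) (.f (nat_lit 624) (nat_lit 655) (nat_lit 5647) (.f (nat_lit 657) (nat_lit 625) (nat_lit 4624) (.f (nat_lit 656) (nat_lit 689) (nat_lit 4656) (.f (nat_lit 622) (nat_lit 621) (nat_lit 621) (.f (nat_lit 590) (nat_lit 654) (nat_lit 7693) (.d (nat_lit 493) (nat_lit 461) (nat_lit 4557) (nat_lit 526) (nat_lit 7661)))))))) (.f (nat_lit 524) (nat_lit 559) (nat_lit 3596) (.f (nat_lit 523) (nat_lit 522) (nat_lit 522) (.f (nat_lit 495) (nat_lit 463) (nat_lit 7631) (.d (nat_lit 494) (nat_lit 493) (nat_lit 1516) (nat_lit 526) (nat_lit 2539))))))))) (.a (.p (nat_lit 558) (.a (.f (nat_lit 559) (nat_lit 524) (nat_lit 3596) (.f (nat_lit 556) (nat_lit 591) (nat_lit 556) (.d (nat_lit 588) (nat_lit 587) (nat_lit 1579) (nat_lit 589) (nat_lit 1580)))) (.a (.p (nat_lit 493) (.a (.f (nat_lit 461) (nat_lit 590) (nat_lit 4557) (.f (nat_lit 429) (nat_lit 526) (nat_lit 4525) (.d (nat_lit 556) (nat_lit 524) (nat_lit 5548) (nat_lit 588) (nat_lit 5580)))) (.a (.f (nat_lit 495) (nat_lit 463) (nat_lit 7631) (.f (nat_lit 494) (nat_lit 524) (nat_lit 1516) (.f (nat_lit 461) (nat_lit 460) (nat_lit 3532) (.d (nat_lit 462) (nat_lit 430) (nat_lit 6573) (nat_lit 589) (nat_lit 6605))))) (.a (.f (nat_lit 495) (nat_lit 463) (nat_lit 7631) (.f (nat_lit 494) (nat_lit 524) (nat_lit 1516) (.f (nat_lit 589) (nat_lit 462) (nat_lit 6605) (.f (nat_lit 590) (nat_lit 622) (nat_lit 4589) (.d (nat_lit 591) (nat_lit 556) (nat_lit 3628) (nat_lit 561) (nat_lit 2605)))))) (.f (nat_lit 461) (nat_lit 590) (nat_lit 4557) (.f (nat_lit 429) (nat_lit 526) (nat_lit 4525) (.d (nat_lit 430) (nat_lit 398) (nat_lit 6541) (nat_lit 462) (nat_lit 6573)))))))) (.a (.f (nat_lit 524) (nat_lit 559) (nat_lit 3596) (.f (nat_lit 523) (nat_lit 522) (nat_lit 522) (.f (nat_lit 495) (nat_lit 463) (nat_lit 7631) (.d (nat_lit 494) (nat_lit 493) (nat_lit 1516) (nat_lit 526) (nat_lit 2539))))) (.p (nat_lit 559) (.a (.f (nat_lit 589) (nat_lit 588) (nat_lit 1580) (.d (nat_lit 561) (nat_lit 526) (nat_lit 3597) (nat_lit 590) (nat_lit 1581))) (.a (.f (nat_lit 556) (nat_lit 591) (nat_lit 556) (.d (nat_lit 588) (nat_lit 587) (nat_lit 1579) (nat_lit 589) (nat_lit 1580))) (.a (.f (nat_lit 556) (nat_lit 591) (nat_lit 556) (.f (nat_lit 526) (nat_lit 561) (nat_lit 3597) (.f (nat_lit 555) (nat_lit 554) (nat_lit 2570) (.d (nat_lit 587) (nat_lit 586) (nat_lit 1578) (nat_lit 588) (nat_lit 1579))))) (.f (nat_lit 561) (nat_lit 526) (nat_lit 3597) (.f (nat_lit 590) (nat_lit 589) (nat_lit 1581) (.d (nat_lit 591) (nat_lit 556) (nat_lit 556) (nat_lit 562) (nat_lit 1582)))))))))))) (.a (.p (nat_lit 558) (.a (.f (nat_lit 559) (nat_lit 524) (nat_lit 3596) (.d (nat_lit 591) (nat_lit 556) (nat_lit 556) (nat_lit 623) (nat_lit 5615))) (.a (.f (nat_lit 559) (nat_lit 524) (nat_lit 3596) (.f (nat_lit 556) (nat_lit 591) (nat_lit 556) (.d (nat_lit 588) (nat_lit 587) (nat_lit 1579) (nat_lit 589) (nat_lit 1580)))) (.a (.f (nat_lit 623) (nat_lit 591) (nat_lit 5615) (.f (nat_lit 624) (nat_lit 655) (nat_lit 5647) (.f (nat_lit 657) (nat_lit 625) (nat_lit 4624) (.f (nat_lit 656) (nat_lit 689) (nat_lit 4656) (.f (nat_lit 622) (nat_lit 621) (nat_lit 621) (.f (nat_lit 590) (nat_lit 654) (nat_lit 7693) (.d (nat_lit 493) (nat_lit 461) (nat_lit 4557) (nat_lit 526) (nat_lit 7661)))))))) (.f (nat_lit 559) (nat_lit 524) (nat_lit 3596) (.f (nat_lit 589) (nat_lit 588) (nat_lit 1580) (.d (nat_lit 561) (nat_lit 526) (nat_lit 3597) (nat_lit 590) (nat_lit 1581)))))))) (.a (.p (nat_lit 494) (.a (.f (nat_lit 495) (nat_lit 463) (nat_lit 7631) (.f (nat_lit 493) (nat_lit 524) (nat_lit 1516) (.f (nat_lit 461) (nat_lit 460) (nat_lit 3532) (.d (nat_lit 462) (nat_lit 430) (nat_lit 6573) (nat_lit 589) (nat_lit 6605))))) (.a (.f (nat_lit 623) (nat_lit 591) (nat_lit 5615) (.f (nat_lit 624) (nat_lit 655) (nat_lit 5647) (.f (nat_lit 657) (nat_lit 625) (nat_lit 4624) (.f (nat_lit 656) (nat_lit 689) (nat_lit 4656) (.f (nat_lit 621) (nat_lit 622) (nat_lit 621) (.f (nat_lit 589) (nat_lit 526) (nat_lit 6637) (.f (nat_lit 493) (nat_lit 462) (nat_lit 6605) (.d (nat_lit 620) (nat_lit 588) (nat_lit 5612) (nat_lit 652) (nat_lit 5644))))))))) (.a (.f (nat_lit 623) (nat_lit 591) (nat_lit 5615) (.f (nat_lit 624) (nat_lit 655) (nat_lit 5647) (.f (nat_lit 657) (nat_lit 625) (nat_lit 4624) (.f (nat_lit 656) (nat_lit 689) (nat_lit 4656) (.f (nat_lit 621) (nat_lit 622) (nat_lit 621) (.f (nat_lit 589) (nat_lit 526) (nat_lit 6637) (.f (nat_lit 524) (nat_lit 492) (nat_lit 7660) (.f (nat_lit 653) (nat_lit 556) (nat_lit 7692) (.d (nat_lit 652) (nat_lit 620) (nat_lit 5644) (nat_lit 684) (nat_lit 5676)))))))))) (.f (nat_lit 495) (nat_lit 463) (nat_lit 7631) (.f (nat_lit 493) (nat_lit 524) (nat_lit 1516) (.f (nat_lit 461) (nat_lit 460) (nat_lit 3532) (.f (nat_lit 462) (nat_lit 430) (nat_lit 6573) (.f (nat_lit 558) (nat_lit 590) (nat_lit 4557) (.f (nat_lit 429) (nat_lit 526) (nat_lit 4525) (.f (nat_lit 397) (nat_lit 365) (nat_lit 4461) (.d (nat_lit 396) (nat_lit 364) (nat_lit 7532) (nat_lit 428) (nat_lit 7564))))))))))))) (.a (.p (nat_lit 494) (.a (.f (nat_lit 495) (nat_lit 463) (nat_lit 7631) (.f (nat_lit 493) (nat_lit 524) (nat_lit 1516) (.f (nat_lit 461) (nat_lit 460) (nat_lit 3532) (.d (nat_lit 462) (nat_lit 430) (nat_lit 6573) (nat_lit 589) (nat_lit 6605))))) (.a (.f (nat_lit 623) (nat_lit 591) (nat_lit 5615) (.f (nat_lit 624) (nat_lit 655) (nat_lit 5647) (.f (nat_lit 657) (nat_lit 625) (nat_lit 4624) (.f (nat_lit 656) (nat_lit 689) (nat_lit 4656) (.f (nat_lit 621) (nat_lit 622) (nat_lit 621) (.f (nat_lit 589) (nat_lit 526) (nat_lit 6637) (.f (nat_lit 493) (nat_lit 462) (nat_lit 6605) (.d (nat_lit 620) (nat_lit 588) (nat_lit 5612) (nat_lit 652) (nat_lit 5644))))))))) (.a (.f (nat_lit 623) (nat_lit 591) (nat_lit 5615) (.f (nat_lit 624) (nat_lit 655) (nat_lit 5647) (.f (nat_lit 657) (nat_lit 625) (nat_lit 4624) (.f (nat_lit 656) (nat_lit 689) (nat_lit 4656) (.f (nat_lit 621) (nat_lit 622) (nat_lit 621) (.f (nat_lit 589) (nat_lit 526) (nat_lit 6637) (.f (nat_lit 524) (nat_lit 492) (nat_lit 7660) (.f (nat_lit 653) (nat_lit 556) (nat_lit 7692) (.d (nat_lit 652) (nat_lit 620) (nat_lit 5644) (nat_lit 684) (nat_lit 5676)))))))))) (.f (nat_lit 495) (nat_lit 463) (nat_lit 7631) (.f (nat_lit 493) (nat_lit 524) (nat_lit 1516) (.f (nat_lit 461) (nat_lit 460) (nat_lit 3532) (.f (nat_lit 430) (nat_lit 462) (nat_lit 6573) (.f (nat_lit 429) (nat_lit 398) (nat_lit 6541) (.f (nat_lit 397) (nat_lit 526) (nat_lit 4493) (.d (nat_lit 396) (nat_lit 364) (nat_lit 7532) (nat_lit 428) (nat_lit 7564)))))))))))) (.a (.p (nat_lit 493) (.a (.f (nat_lit 495) (nat_lit 463) (nat_lit 7631) (.f (nat_lit 494) (nat_lit 524) (nat_lit 1516) (.f (nat_lit 461) (nat_lit 460) (nat_lit 3532) (.d (nat_lit 462) (nat_lit 430) (nat_lit 6573) (nat_lit 589) (nat_lit 6605))))) (.a (.p (nat_lit 558) (.a (.f (nat_lit 461) (nat_lit 590) (nat_lit 4557) (.f (nat_lit 429) (nat_lit 526) (nat_lit 4525) (.d (nat_lit 556) (nat_lit 524) (nat_lit 5548) (nat_lit 588) (nat_lit 5580)))) (.a (.f (nat_lit 524) (nat_lit 559) (nat_lit 3596) (.f (nat_lit 494) (nat_lit 495) (nat_lit 1516) (.f (nat_lit 589) (nat_lit 462) (nat_lit 6605) (.d (nat_lit 621) (nat_lit 492) (nat_lit 7660) (nat_lit 526) (nat_lit 6637))))) (.a (.f (nat_lit 461) (nat_lit 590) (nat_lit 4557) (.f (nat_lit 524) (nat_lit 559) (nat_lit 3596) (.d (nat_lit 556) (nat_lit 429) (nat_lit 5548) (nat_lit 588) (nat_lit 5580)))) (.f (nat_lit 461) (nat_lit 590) (nat_lit 4557) (.f (nat_lit 429) (nat_lit 526) (nat_lit 4525) (.d (nat_lit 430) (nat_lit 398) (nat_lit 6541) (nat_lit 462) (nat_lit 6573)))))))) (.a (.p (nat_lit 558) (.a (.f (nat_lit 461) (nat_lit 590) (nat_lit 4557) (.f (nat_lit 429) (nat_lit 526) (nat_lit 4525) (.d (nat_lit 556) (nat_lit 524) (nat_lit 5548) (nat_lit 588) (nat_lit 5580)))) (.a (.f (nat_lit 559) (nat_lit 524) (nat_lit 3596) (.f (nat_lit 589) (nat_lit 588) (nat_lit 1580) (.f (nat_lit 526) (nat_lit 561) (nat_lit 3597) (.d (nat_lit 494) (nat_lit 462) (nat_lit 6605) (nat_lit 621) (nat_lit 6637))))) (.a (.f (nat_lit 461) (nat_lit 590) (nat_lit 4557) (.f (nat_lit 524) (nat_lit 559) (nat_lit 3596) (.d (nat_lit 556) (nat_lit 429) (nat_lit 5548) (nat_lit 588) (nat_lit 5580)))) (.f (nat_lit 461) (nat_lit 590) (nat_lit 4557) (.f (nat_lit 429) (nat_lit 526) (nat_lit 4525) (.d (nat_lit 430) (nat_lit 398) (nat_lit 6541) (nat_lit 462) (nat_lit 6573)))))))) (.a (.p (nat_lit 558) (.a (.f (nat_lit 461) (nat_lit 590) (nat_lit 4557) (.f (nat_lit 429) (nat_lit 526) (nat_lit 4525) (.d (nat_lit 556) (nat_lit 524) (nat_lit 5548) (nat_lit 588) (nat_lit 5580)))) (.a (.f (nat_lit 559) (nat_lit 524) (nat_lit 3596) (.f (nat_lit 588) (nat_lit 589) (nat_lit 1580) (.d (nat_lit 556) (nat_lit 461) (nat_lit 5580) (nat_lit 587) (nat_lit 1579)))) (.a (.f (nat_lit 559) (nat_lit 524) (nat_lit 3596) (.f (nat_lit 589) (nat_lit 588) (nat_lit 1580) (.d (nat_lit 561) (nat_lit 526) (nat_lit 3597) (nat_lit 590) (nat_lit 1581)))) (.f (nat_lit 461) (nat_lit 590) (nat_lit 4557) (.f (nat_lit 429) (nat_lit 526) (nat_lit 4525) (.d (nat_lit 430) (nat_lit 398) (nat_lit 6541) (nat_lit 462) (nat_lit 6573)))))))) (.a (.f (nat_lit 495) (nat_lit 463) (nat_lit 7631) (.f (nat_lit 524) (nat_lit 494) (nat_lit 1516) (.f (nat_lit 558) (nat_lit 559) (nat_lit 3596) (.f (nat_lit 461) (nat_lit 590) (nat_lit 4557) (.d (nat_lit 429) (nat_lit 526) (nat_lit 4525) (nat_lit 556) (nat_lit 5548)))))) (.a (.f (nat_lit 495) (nat_lit 463) (nat_lit 7631) (.f (nat_lit 494) (nat_lit 524) (nat_lit 1516) (.f (nat_lit 589) (nat_lit 462) (nat_lit 6605) (.f (nat_lit 621) (nat_lit 526) (nat_lit 6637) (.d (nat_lit 620) (nat_lit 588) (nat_lit 5612) (nat_lit 652) (nat_lit 5644)))))) (.p (nat_lit 494) (.a (.f (nat_lit 589) (nat_lit 462) (nat_lit 6605) (.f (nat_lit 621) (nat_lit 526) (nat_lit 6637) (.d (nat_lit 620) (nat_lit 588) (nat_lit 5612) (nat_lit 652) (nat_lit 5644)))) (.a (.f (nat_lit 495) (nat_lit 463) (nat_lit 7631) (.f (nat_lit 461) (nat_lit 460) (nat_lit 3532) (.f (nat_lit 558) (nat_lit 590) (nat_lit 4557) (.f (nat_lit 526) (nat_lit 429) (nat_lit 4525) (.f (nat_lit 589) (nat_lit 621) (nat_lit 6637) (.d (nat_lit 588) (nat_lit 556) (nat_lit 5580) (nat_lit 620) (nat_lit 5612))))))) (.a (.f (nat_lit 589) (nat_lit 462) (nat_lit 6605) (.f (nat_lit 588) (nat_lit 620) (nat_lit 5612) (.f (nat_lit 461) (nat_lit 556) (nat_lit 5580) (.d (nat_lit 590) (nat_lit 558) (nat_lit 4557) (nat_lit 622) (nat_lit 4589))))) (.f (nat_lit 495) (nat_lit 463) (nat_lit 7631) (.f (nat_lit 461) (nat_lit 460) (nat_lit 3532) (.f (nat_lit 558) (nat_lit 590) (nat_lit 4557) (.f (nat_lit 429) (nat_lit 526) (nat_lit 4525) (.d (nat_lit 430) (nat_lit 398) (nat_lit 6541) (nat_lit 462) (nat_lit 6573))))))))))))))))) (.a (.p (nat_lit 624) (.a (.f (nat_lit 657) (nat_lit 625) (nat_lit 4624) (.f (nat_lit 656) (nat_lit 689) (nat_lit 4656) (.f (nat_lit 687) (nat_lit 655) (nat_lit 5679) (.f (nat_lit 688) (nat_lit 719) (nat_lit 5711) (.f (nat_lit 559) (nat_lit 591) (nat_lit 7727) (.f (nat_lit 558) (nat_lit 524) (nat_lit 3596) (.f (nat_lit 589) (nat_lit 588) (nat_lit 1580) (.d (nat_lit 561) (nat_lit 526) (nat_lit 3597) (nat_lit 590) (nat_lit 1581))))))))) (.a (.d (nat_lit 623) (nat_lit 591) (nat_lit 5615) (nat_lit 655) (nat_lit 5647)) (.a (.f (nat_lit 591) (nat_lit 623) (nat_lit 5615) (.f (nat_lit 657) (nat_lit 625) (nat_lit 4624) (.f (nat_lit 656) (nat_lit 689) (nat_lit 4656) (.f (nat_lit 559) (nat_lit 688) (nat_lit 7727) (.d (nat_lit 558) (nat_lit 524) (nat_lit 3596) (nat_lit 556) (nat_lit 556)))))) (.f (nat_lit 657) (nat_lit 625) (nat_lit 4624) (.f (nat_lit 656) (nat_lit 689) (nat_lit 4656) (.d (nat_lit 655) (nat_lit 623) (nat_lit 5647) (nat_lit 687) (nat_lit 5679)))))))) (.a (.p (nat_lit 558) (.a (.f (nat_lit 559) (nat_lit 524) (nat_lit 3596) (.d (nat_lit 591) (nat_lit 556) (nat_lit 556) (nat_lit 623) (nat_lit 5615))) (.a (.f (nat_lit 524) (nat_lit 559) (nat_lit 3596) (.f (nat_lit 523) (nat_lit 522) (nat_lit 522) (.f (nat_lit 495) (nat_lit 463) (nat_lit 7631) (.d (nat_lit 494) (nat_lit 493) (nat_lit 1516) (nat_lit 526) (nat_lit 2539))))) (.f (nat_lit 623) (nat_lit 591) (nat_lit 5615) (.f (nat_lit 624) (nat_lit 655) (nat_lit 5647) (.f (nat_lit 657) (nat_lit 625) (nat_lit 4624) (.f (nat_lit 656) (nat_lit 689) (nat_lit 4656) (.f (nat_lit 622) (nat_lit 621) (nat_lit 621) (.f (nat_lit 590) (nat_lit 654) (nat_lit 7693) (.d (nat_lit 493) (nat_lit 461) (nat_lit 4557) (nat_lit 526) (nat_lit 7661))))))))))) (.a s37322 (.a (.p (nat_lit 590) (.a (.p (nat_lit 622) (.a (.f (nat_lit 589) (nat_lit 493) (nat_lit 4589) (.d (nat_lit 591) (nat_lit 556) (nat_lit 3628) (nat_lit 561) (nat_lit 2605))) (.a (.f (nat_lit 589) (nat_lit 493) (nat_lit 4589) (.d (nat_lit 654) (nat_lit 558) (nat_lit 7693) (nat_lit 621) (nat_lit 4621))) (.a (.f (nat_lit 654) (nat_lit 558) (nat_lit 7693) (.d (nat_lit 589) (nat_lit 621) (nat_lit 4621) (nat_lit 686) (nat_lit 7725))) (.f (nat_lit 558) (nat_lit 654) (nat_lit 7693) (.d (nat_lit 493) (nat_lit 461) (nat_lit 4557) (nat_lit 526) (nat_lit 7661))))))) (.a (.f (nat_lit 591) (nat_lit 623) (nat_lit 5615) (.f (nat_lit 589) (nat_lit 556) (nat_lit 3628) (.f (nat_lit 621) (nat_lit 620) (nat_lit 1612) (.d (nat_lit 622) (nat_lit 493) (nat_lit 4589) (nat_lit 654) (nat_lit 4621))))) (.a (.p (nat_lit 622) (.a (.f (nat_lit 589) (nat_lit 493) (nat_lit 4589) (.d (nat_lit 654) (nat_lit 558) (nat_lit 7693) (nat_lit 621) (nat_lit 4621))) (.a (.f (nat_lit 589) (nat_lit 493) (nat_lit 4589) (.d (nat_lit 654) (nat_lit 621) (nat_lit 4621) (nat_lit 686) (nat_lit 7725))) (.a (.f (nat_lit 654) (nat_lit 558) (nat_lit 7693) (.d (nat_lit 589) (nat_lit 621) (nat_lit 4621) (nat_lit 686) (nat_lit 7725))) (.a (.f (nat_lit 558) (nat_lit 654) (nat_lit 7693) (.d (nat_lit 493) (nat_lit 461) (nat_lit 4557) (nat_lit 526) (nat_lit 7661))) (.f (nat_lit 493) (nat_lit 589) (nat_lit 4589) (.d (nat_lit 558) (nat_lit 461) (nat_lit 4557) (nat_lit 526) (nat_lit 7661)))))))) (.a (.f (nat_lit 591) (nat_lit 623) (nat_lit 5615) (.d (nat_lit 589) (nat_lit 556) (nat_lit 3628) (nat_lit 561) (nat_lit 2605))) (.f (nat_lit 623) (nat_lit 591) (nat_lit 5615) (.f (nat_lit 624) (nat_lit 655) (nat_lit 5647) (.f (nat_lit 657) (nat_lit 625) (nat_lit 4624) (.f (nat_lit 656) (nat_lit 689) (nat_lit 4656) (.f (nat_lit 622) (nat_lit 621) (nat_lit 621) (.f (nat_lit 558) (nat_lit 654) (nat_lit 7693) (.d (nat_lit 493) (nat_lit 461) (nat_lit 4557) (nat_lit 526) (nat_lit 7661))))))))))))) (.p (nat_lit 558) (.a (.f (nat_lit 623) (nat_lit 591) (nat_lit 5615) (.f (nat_lit 624) (nat_lit 655) (nat_lit 5647) (.f (nat_lit 657) (nat_lit 625) (nat_lit 4624) (.f (nat_lit 656) (nat_lit 689) (nat_lit 4656) (.f (nat_lit 622) (nat_lit 621) (nat_lit 621) (.f (nat_lit 590) (nat_lit 654) (nat_lit 7693) (.d (nat_lit 493) (nat_lit 461) (nat_lit 4557) (nat_lit 526) (nat_lit 7661)))))))) (.a (.f (nat_lit 524) (nat_lit 559) (nat_lit 3596) (.f (nat_lit 523) (nat_lit 522) (nat_lit 522) (.f (nat_lit 495) (nat_lit 463) (nat_lit 7631) (.d (nat_lit 494) (nat_lit 493) (nat_lit 1516) (nat_lit 526) (nat_lit 2539))))) (.a (.f (nat_lit 559) (nat_lit 524) (nat_lit 3596) (.f (nat_lit 589) (nat_lit 588) (nat_lit 1580) (.d (nat_lit 561) (nat_lit 526) (nat_lit 3597) (nat_lit 590) (nat_lit 1581)))) (.f (nat_lit 623) (nat_lit 591) (nat_lit 5615) (.f (nat_lit 624) (nat_lit 655) (nat_lit 5647) (.f (nat_lit 657) (nat_lit 625) (nat_lit 4624) (.f (nat_lit 656) (nat_lit 689) (nat_lit 4656) (.f (nat_lit 622) (nat_lit 621) (nat_lit 621) (.f (nat_lit 590) (nat_lit 654) (nat_lit 7693) (.d (nat_lit 493) (nat_lit 461) (nat_lit 4557) (nat_lit 589) (nat_lit 4589))))))))))))))))))))))) (.a (.p (nat_lit 494) (.a (.f (nat_lit 497) (nat_lit 465) (nat_lit 6608) (.f (nat_lit 495) (nat_lit 526) (nat_lit 1517) (.f (nat_lit 493) (nat_lit 524) (nat_lit 1516) (.d (nat_lit 461) (nat_lit 460) (nat_lit 3532) (nat_lit 462) (nat_lit 3533))))) (.a (.p (nat_lit 558) (.a (.p (nat_lit 624) (.a (.f (nat_lit 657) (nat_lit 625) (nat_lit 4624) (.f (nat_lit 656) (nat_lit 689) (nat_lit 4656) (.f (nat_lit 687) (nat_lit 655) (nat_lit 5679) (.f (nat_lit 688) (nat_lit 719) (nat_lit 5711) (.f (nat_lit 559) (nat_lit 591) (nat_lit 7727) (.f (nat_lit 557) (nat_lit 524) (nat_lit 3596) (.f (nat_lit 589) (nat_lit 588) (nat_lit 1580) (.f (nat_lit 493) (nat_lit 462) (nat_lit 6605) (.d (nat_lit 590) (nat_lit 561) (nat_lit 1581) (nat_lit 622) (nat_lit 4589)))))))))) (.a (.f (nat_lit 657) (nat_lit 625) (nat_lit 4624) (.f (nat_lit 656) (nat_lit 689) (nat_lit 4656) (.f (nat_lit 687) (nat_lit 655) (nat_lit 5679) (.f (nat_lit 688) (nat_lit 719) (nat_lit 5711) (.f (nat_lit 559) (nat_lit 591) (nat_lit 7727) (.f (nat_lit 557) (nat_lit 524) (nat_lit 3596) (.f (nat_lit 589) (nat_lit 588) (nat_lit 1580) (.f (nat_lit 493) (nat_lit 462) (nat_lit 6605) (.d (nat_lit 590) (nat_lit 461) (nat_lit 4557) (nat_lit 622) (nat_lit 4589)))))))))) (.a (.d (nat_lit 623) (nat_lit 591) (nat_lit 5615) (nat_lit 655) (nat_lit 5647)) (.a (.f (nat_lit 591) (nat_lit 623) (nat_lit 5615) (.f (nat_lit 657) (nat_lit 625) (nat_lit 4624) (.f (nat_lit 656) (nat_lit 689) (nat_lit 4656) (.f (nat_lit 559) (nat_lit 688) (nat_lit 7727) (.d (nat_lit 557) (nat_lit 524) (nat_lit 3596) (nat_lit 556) (nat_lit 556)))))) (.f (nat_lit 657) (nat_lit 625) (nat_lit 4624) (.f (nat_lit 656) (nat_lit 689) (nat_lit 4656) (.d (nat_lit 655) (nat_lit 623) (nat_lit 5647) (nat_lit 687) (nat_lit 5679))))))))) (.a (.p (nat_lit 559) (.a (.f (nat_lit 557) (nat_lit 524) (nat_lit 3596) (.f (nat_lit 589) (nat_lit 588) (nat_lit 1580) (.d (nat_lit 561) (nat_lit 526) (nat_lit 3597) (nat_lit 590) (nat_lit 1581)))) (.a (.f (nat_lit 557) (nat_lit 524) (nat_lit 3596) (.f (nat_lit 589) (nat_lit 588) (nat_lit 1580) (.d (nat_lit 462) (nat_lit 493) (nat_lit 6605) (nat_lit 526) (nat_lit 5581)))) (.a (.f (nat_lit 526) (nat_lit 561) (nat_lit 3597) (.f (nat_lit 524) (nat_lit 523) (nat_lit 523) (.f (nat_lit 493) (nat_lit 495) (nat_lit 1516) (.d (nat_lit 461) (nat_lit 429) (nat_lit 4525) (nat_lit 590) (nat_lit 7629))))) (.a (.f (nat_lit 557) (nat_lit 524) (nat_lit 3596) (.f (nat_lit 589) (nat_lit 588) (nat_lit 1580) (.f (nat_lit 590) (nat_lit 561) (nat_lit 1581) (.d (nat_lit 493) (nat_lit 461) (nat_lit 4557) (nat_lit 462) (nat_lit 6605))))) (.f (nat_lit 526) (nat_lit 561) (nat_lit 3597) (.f (nat_lit 462) (nat_lit 591) (nat_lit 4558) (.d (nat_lit 557) (nat_lit 430) (nat_lit 5549) (nat_lit 589) (nat_lit 5581))))))))) (.a (.p (nat_lit 493) (.a (.f (nat_lit 623) (nat_lit 591) (nat_lit 5615) (.f (nat_lit 624) (nat_lit 655) (nat_lit 5647) (.f (nat_lit 657) (nat_lit 625) (nat_lit 4624) (.f (nat_lit 656) (nat_lit 689) (nat_lit 4656) (.f (nat_lit 622) (nat_lit 621) (nat_lit 621) (.f (nat_lit 590) (nat_lit 526) (nat_lit 7661) (.d (nat_lit 557) (nat_lit 461) (nat_lit 4557) (nat_lit 654) (nat_lit 7693)))))))) (.a (.f (nat_lit 495) (nat_lit 524) (nat_lit 1516) (.f (nat_lit 461) (nat_lit 460) (nat_lit 3532) (.d (nat_lit 590) (nat_lit 526) (nat_lit 7629) (nat_lit 557) (nat_lit 4557)))) (.a (.f (nat_lit 495) (nat_lit 524) (nat_lit 1516) (.f (nat_lit 461) (nat_lit 460) (nat_lit 3532) (.d (nat_lit 526) (nat_lit 429) (nat_lit 4525) (nat_lit 590) (nat_lit 7629)))) (.a (.f (nat_lit 495) (nat_lit 524) (nat_lit 1516) (.f (nat_lit 461) (nat_lit 460) (nat_lit 3532) (.f (nat_lit 429) (nat_lit 526) (nat_lit 4525) (.f (nat_lit 430) (nat_lit 398) (nat_lit 6541) (.f (nat_lit 462) (nat_lit 557) (nat_lit 6573) (.f (nat_lit 397) (nat_lit 365) (nat_lit 4461) (.d (nat_lit 396) (nat_lit 364) (nat_lit 7532) (nat_lit 428) (nat_lit 7564)))))))) (.a (.f (nat_lit 495) (nat_lit 524) (nat_lit 1516) (.f (nat_lit 461) (nat_lit 460) (nat_lit 3532) (.f (nat_lit 557) (nat_lit 590) (nat_lit 4557) (.d (nat_lit 462) (nat_lit 430) (nat_lit 6573) (nat_lit 589) (nat_lit 6605))))) (.f (nat_lit 623) (nat_lit 591) (nat_lit 5615) (.f (nat_lit 624) (nat_lit 655) (nat_lit 5647) (.f (nat_lit 657) (nat_lit 625) (nat_lit 4624) (.f (nat_lit 656) (nat_lit 689) (nat_lit 4656) (.f (nat_lit 622) (nat_lit 621) (nat_lit 621) (.f (nat_lit 590) (nat_lit 526) (nat_lit 7661) (.d (nat_lit 557) (nat_lit 589) (nat_lit 4589) (nat_lit 654) (nat_lit 7693)))))))))))))) (.a (.p (nat_lit 624) (.a (.f (nat_lit 657) (nat_lit 625) (nat_lit 4624) (.f (nat_lit 656) (nat_lit 689) (nat_lit 4656) (.f (nat_lit 687) (nat_lit 655) (nat_lit 5679) (.f (nat_lit 688) (nat_lit 719) (nat_lit 5711) (.f (nat_lit 559) (nat_lit 591) (nat_lit 7727) (.f (nat_lit 526) (nat_lit 561) (nat_lit 3597) (.f (nat_lit 524) (nat_lit 523) (nat_lit 523) (.f (nat_lit 493) (nat_lit 495) (nat_lit 1516) (.d (nat_lit 461) (nat_lit 429) (nat_lit 4525) (nat_lit 590) (nat_lit 7629)))))))))) (.a (.d (nat_lit 623) (nat_lit 591) (nat_lit 5615) (nat_lit 655) (nat_lit 5647)) (.a (.f (nat_lit 591) (nat_lit 623) (nat_lit 5615) (.f (nat_lit 657) (nat_lit 625) (nat_lit 4624) (.f (nat_lit 656) (nat_lit 689) (nat_lit 4656) (.f (nat_lit 559) (nat_lit 688) (nat_lit 7727) (.d (nat_lit 526) (nat_lit 462) (nat_lit 4558) (nat_lit 561) (nat_lit 3597)))))) (.f (nat_lit 657) (nat_lit 625) (nat_lit 4624) (.f (nat_lit 656) (nat_lit 689) (nat_lit 4656) (.d (nat_lit 655) (nat_lit 623) (nat_lit 5647) (nat_lit 687) (nat_lit 5679)))))))) (.a (.p (nat_lit 559) (.a (.f (nat_lit 557) (nat_lit 524) (nat_lit 3596) (.f (nat_lit 589) (nat_lit 588) (nat_lit 1580) (.d (nat_lit 561) (nat_lit 526) (nat_lit 3597) (nat_lit 590) (nat_lit 1581)))) (.a (.f (nat_lit 557) (nat_lit 524) (nat_lit 3596) (.f (nat_lit 589) (nat_lit 588) (nat_lit 1580) (.d (nat_lit 462) (nat_lit 493) (nat_lit 6605) (nat_lit 526) (nat_lit 5581)))) (.a (.f (nat_lit 526) (nat_lit 561) (nat_lit 3597) (.f (nat_lit 524) (nat_lit 523) (nat_lit 523) (.f (nat_lit 493) (nat_lit 495) (nat_lit 1516) (.d (nat_lit 461) (nat_lit 429) (nat_lit 4525) (nat_lit 590) (nat_lit 7629))))) (.a (.f (nat_lit 557) (nat_lit 524) (nat_lit 3596) (.f (nat_lit 589) (nat_lit 588) (nat_lit 1580) (.f (nat_lit 590) (nat_lit 561) (nat_lit 1581) (.d (nat_lit 493) (nat_lit 461) (nat_lit 4557) (nat_lit 462) (nat_lit 6605))))) (.f (nat_lit 561) (nat_lit 526) (nat_lit 3597) (.f (nat_lit 589) (nat_lit 590) (nat_lit 1581) (.f (nat_lit 557) (nat_lit 588) (nat_lit 1580) (.f (nat_lit 493) (nat_lit 462) (nat_lit 6605) (.f (nat_lit 460) (nat_lit 492) (nat_lit 7628) (.d (nat_lit 461) (nat_lit 428) (nat_lit 7596) (nat_lit 495) (nat_lit 3532)))))))))))) (.a (.p (nat_lit 624) (.a (.f (nat_lit 657) (nat_lit 625) (nat_lit 4624) (.f (nat_lit 656) (nat_lit 689) (nat_lit 4656) (.f (nat_lit 687) (nat_lit 655) (nat_lit 5679) (.f (nat_lit 688) (nat_lit 719) (nat_lit 5711) (.f (nat_lit 559) (nat_lit 591) (nat_lit 7727) (.f (nat_lit 526) (nat_lit 561) (nat_lit 3597) (.d (nat_lit 524) (nat_lit 523) (nat_lit 523) (nat_lit 557) (nat_lit 3596)))))))) (.a (.f (nat_lit 657) (nat_lit 625) (nat_lit 4624) (.f (nat_lit 656) (nat_lit 689) (nat_lit 4656) (.f (nat_lit 687) (nat_lit 655) (nat_lit 5679) (.f (nat_lit 688) (nat_lit 719) (nat_lit 5711) (.f (nat_lit 559) (nat_lit 591) (nat_lit 7727) (.f (nat_lit 557) (nat_lit 524) (nat_lit 3596) (.f (nat_lit 589) (nat_lit 588) (nat_lit 1580) (.d (nat_lit 462) (nat_lit 493) (nat_lit 6605) (nat_lit 526) (nat_lit 5581))))))))) (.a (.d (nat_lit 623) (nat_lit 591) (nat_lit 5615) (nat_lit 655) (nat_lit 5647)) (.a (.f (nat_lit 591) (nat_lit 623) (nat_lit 5615) (.f (nat_lit 657) (nat_lit 625) (nat_lit 4624) (.f (nat_lit 656) (nat_lit 689) (nat_lit 4656) (.f (nat_lit 559) (nat_lit 688) (nat_lit 7727) (.d (nat_lit 557) (nat_lit 524) (nat_lit 3596) (nat_lit 556) (nat_lit 556)))))) (.f (nat_lit 657) (nat_lit 625) (nat_lit 4624) (.f (nat_lit 656) (nat_lit 689) (nat_lit 4656) (.d (nat_lit 655) (nat_lit 623) (nat_lit 5647) (nat_lit 687) (nat_lit 5679))))))))) (.a (.p (nat_lit 624) (.a (.f (nat_lit 657) (nat_lit 625) (nat_lit 4624) (.f (nat_lit 656) (nat_lit 689) (nat_lit 4656) (.f (nat_lit 687) (nat_lit 655) (nat_lit 5679) (.f (nat_lit 688) (nat_lit 719) (nat_lit 5711) (.f (nat_lit 559) (nat_lit 591) (nat_lit 7727) (.f (nat_lit 526) (nat_lit 561) (nat_lit 3597) (.d (nat_lit 524) (nat_lit 523) (nat_lit 523) (nat_lit 557) (nat_lit 3596)))))))) (.a (.f (nat_lit 657) (nat_lit 625) (nat_lit 4624) (.f (nat_lit 656) (nat_lit 689) (nat_lit 4656) (.f (nat_lit 687) (nat_lit 655) (nat_lit 5679) (.f (nat_lit 688) (nat_lit 719) (nat_lit 5711) (.f (nat_lit 559) (nat_lit 591) (nat_lit 7727) (.f (nat_lit 557) (nat_lit 524) (nat_lit 3596) (.f (nat_lit 589) (nat_lit 588) (nat_lit 1580) (.d (nat_lit 526) (nat_lit 462) (nat_lit 5581) (nat_lit 621) (nat_lit 6637))))))))) (.a (.d (nat_lit 623) (nat_lit 591) (nat_lit 5615) (nat_lit 655) (nat_lit 5647)) (.a (.f (nat_lit 591) (nat_lit 623) (nat_lit 5615) (.f (nat_lit 657) (nat_lit 625) (nat_lit 4624) (.f (nat_lit 656) (nat_lit 689) (nat_lit 4656) (.f (nat_lit 559) (nat_lit 688) (nat_lit 7727) (.d (nat_lit 557) (nat_lit 524) (nat_lit 3596) (nat_lit 556) (nat_lit 556)))))) (.f (nat_lit 657) (nat_lit 625) (nat_lit 4624) (.f (nat_lit 656) (nat_lit 689) (nat_lit 4656) (.d (nat_lit 655) (nat_lit 623) (nat_lit 5647) (nat_lit 687) (nat_lit 5679))))))))) (.a (.p (nat_lit 624) (.a (.f (nat_lit 657) (nat_lit 625) (nat_lit 4624) (.f (nat_lit 656) (nat_lit 689) (nat_lit 4656) (.f (nat_lit 687) (nat_lit 655) (nat_lit 5679) (.f (nat_lit 688) (nat_lit 719) (nat_lit 5711) (.f (nat_lit 559) (nat_lit 591) (nat_lit 7727) (.f (nat_lit 526) (nat_lit 561) (nat_lit 3597) (.d (nat_lit 524) (nat_lit 523) (nat_lit 523) (nat_lit 557) (nat_lit 3596)))))))) (.a (.d (nat_lit 623) (nat_lit 591) (nat_lit 5615) (nat_lit 655) (nat_lit 5647)) (.a (.f (nat_lit 591) (nat_lit 623) (nat_lit 5615) (.f (nat_lit 657) (nat_lit 625) (nat_lit 4624) (.f (nat_lit 656) (nat_lit 689) (nat_lit 4656) (.f (nat_lit 559) (nat_lit 688) (nat_lit 7727) (.d (nat_lit 557) (nat_lit 524) (nat_lit 3596) (nat_lit 556) (nat_lit 556)))))) (.f (nat_lit 657) (nat_lit 625) (nat_lit 4624) (.f (nat_lit 656) (nat_lit 689) (nat_lit 4656) (.d (nat_lit 655) (nat_lit 623) (nat_lit 5647) (nat_lit 687) (nat_lit 5679)))))))) (.p (nat_lit 624) (.a (.f (nat_lit 657) (nat_lit 625) (nat_lit 4624) (.f (nat_lit 656) (nat_lit 689) (nat_lit 4656) (.f (nat_lit 687) (nat_lit 655) (nat_lit 5679) (.f (nat_lit 688) (nat_lit 719) (nat_lit 5711) (.f (nat_lit 559) (nat_lit 591) (nat_lit 7727) (.f (nat_lit 561) (nat_lit 526) (nat_lit 3597) (.f (nat_lit 589) (nat_lit 590) (nat_lit 1581) (.f (nat_lit 557) (nat_lit 588) (nat_lit 1580) (.f (nat_lit 493) (nat_lit 462) (nat_lit 6605) (.f (nat_lit 460) (nat_lit 492) (nat_lit 7628) (.d (nat_lit 461) (nat_lit 428) (nat_lit 7596) (nat_lit 495) (nat_lit 3532)))))))))))) (.a (.d (nat_lit 623) (nat_lit 591) (nat_lit 5615) (nat_lit 655) (nat_lit 5647)) (.a (.f (nat_lit 591) (nat_lit 623) (nat_lit 5615) (.f (nat_lit 657) (nat_lit 625) (nat_lit 4624) (.f (nat_lit 656) (nat_lit 689) (nat_lit 4656) (.f (nat_lit 559) (nat_lit 688) (nat_lit 7727) (.d (nat_lit 526) (nat_lit 462) (nat_lit 4558) (nat_lit 561) (nat_lit 3597)))))) (.f (nat_lit 657) (nat_lit 625) (nat_lit 4624) (.f (nat_lit 656) (nat_lit 689) (nat_lit 4656) (.d (nat_lit 655) (nat_lit 623) (nat_lit 5647) (nat_lit 687) (nat_lit 5679))))))))))))))))) (.a (.p (nat_lit 557) (.a (.f (nat_lit 623) (nat_lit 591) (nat_lit 5615) (.f (nat_lit 624) (nat_lit 655) (nat_lit 5647) (.f (nat_lit 657) (nat_lit 625) (nat_lit 4624) (.f (nat_lit 656) (nat_lit 689) (nat_lit 4656) (.f (nat_lit 621) (nat_lit 622) (nat_lit 621) (.f (nat_lit 589) (nat_lit 526) (nat_lit 6637) (.f (nat_lit 493) (nat_lit 462) (nat_lit 6605) (.d (nat_lit 620) (nat_lit 588) (nat_lit 5612) (nat_lit 652) (nat_lit 5644))))))))) (.a (.p (nat_lit 589) (.a (.f (nat_lit 493) (nat_lit 462) (nat_lit 6605) (.f (nat_lit 621) (nat_lit 526) (nat_lit 6637) (.d (nat_lit 620) (nat_lit 588) (nat_lit 5612) (nat_lit 652) (nat_lit 5644)))) (.a (.f (nat_lit 621) (nat_lit 526) (nat_lit 6637) (.f (nat_lit 524) (nat_lit 492) (nat_lit 7660) (.f (nat_lit 653) (nat_lit 556) (nat_lit 7692) (.d (nat_lit 654) (nat_lit 622) (nat_lit 4621) (nat_lit 686) (nat_lit 4653))))) (.f (nat_lit 493) (nat_lit 462) (nat_lit 6605) (.f (nat_lit 588) (nat_lit 620) (nat_lit 5612) (.f (nat_lit 558) (nat_lit 559) (nat_lit 1580) (.d (nat_lit 461) (nat_lit 556) (nat_lit 5580) (nat_lit 590) (nat_lit 4557)))))))) (.a (.f (nat_lit 623) (nat_lit 591) (nat_lit 5615) (.f (nat_lit 624) (nat_lit 655) (nat_lit 5647) (.f (nat_lit 657) (nat_lit 625) (nat_lit 4624) (.f (nat_lit 656) (nat_lit 689) (nat_lit 4656) (.f (nat_lit 621) (nat_lit 622) (nat_lit 621) (.f (nat_lit 589) (nat_lit 526) (nat_lit 6637) (.f (nat_lit 524) (nat_lit 492) (nat_lit 7660) (.f (nat_lit 653) (nat_lit 556) (nat_lit 7692) (.d (nat_lit 652) (nat_lit 620) (nat_lit 5644) (nat_lit 684) (nat_lit 5676)))))))))) (.a (.p (nat_lit 624) (.a (.f (nat_lit 657) (nat_lit 625) (nat_lit 4624) (.f (nat_lit 656) (nat_lit 689) (nat_lit 4656) (.f (nat_lit 687) (nat_lit 655) (nat_lit 5679) (.f (nat_lit 688) (nat_lit 719) (nat_lit 5711) (.f (nat_lit 559) (nat_lit 591) (nat_lit 7727) (.f (nat_lit 558) (nat_lit 524) (nat_lit 3596) (.f (nat_lit 589) (nat_lit 588) (nat_lit 1580) (.d (nat_lit 561) (nat_lit 526) (nat_lit 3597) (nat_lit 590) (nat_lit 1581))))))))) (.a (.f (nat_lit 657) (nat_lit 625) (nat_lit 4624) (.f (nat_lit 656) (nat_lit 689) (nat_lit 4656) (.f (nat_lit 687) (nat_lit 655) (nat_lit 5679) (.f (nat_lit 688) (nat_lit 719) (nat_lit 5711) (.f (nat_lit 559) (nat_lit 591) (nat_lit 7727) (.f (nat_lit 558) (nat_lit 524) (nat_lit 3596) (.f (nat_lit 589) (nat_lit 588) (nat_lit 1580) (.d (nat_lit 462) (nat_lit 493) (nat_lit 6605) (nat_lit 526) (nat_lit 5581))))))))) (.a (.f (nat_lit 657) (nat_lit 625) (nat_lit 4624) (.f (nat_lit 656) (nat_lit 689) (nat_lit 4656) (.d (nat_lit 655) (nat_lit 623) (nat_lit 5647) (nat_lit 687) (nat_lit 5679)))) (.a (.d (nat_lit 623) (nat_lit 591) (nat_lit 5615) (nat_lit 655) (nat_lit 5647)) (.f (nat_lit 591) (nat_lit 623) (nat_lit 5615) (.f (nat_lit 625) (nat_lit 657) (nat_lit 4624) (.f (nat_lit 589) (nat_lit 590) (nat_lit 589) (.f (nat_lit 493) (nat_lit 462) (nat_lit 6605) (.f (nat_lit 621) (nat_lit 526) (nat_lit 6637) (.d (nat_lit 620) (nat_lit 588) (nat_lit 5612) (nat_lit 652) (nat_lit 5644)))))))))))) (.a (.p (nat_lit 624) (.a (.f (nat_lit 657) (nat_lit 625) (nat_lit 4624) (.f (nat_lit 656) (nat_lit 689) (nat_lit 4656) (.f (nat_lit 687) (nat_lit 655) (nat_lit 5679) (.f (nat_lit 688) (nat_lit 719) (nat_lit 5711) (.f (nat_lit 559) (nat_lit 591) (nat_lit 7727) (.f (nat_lit 558) (nat_lit 524) (nat_lit 3596) (.f (nat_lit 589) (nat_lit 588) (nat_lit 1580) (.d (nat_lit 561) (nat_lit 526) (nat_lit 3597) (nat_lit 590) (nat_lit 1581))))))))) (.a (.f (nat_lit 657) (nat_lit 625) (nat_lit 4624) (.f (nat_lit 656) (nat_lit 689) (nat_lit 4656) (.f (nat_lit 687) (nat_lit 655) (nat_lit 5679) (.f (nat_lit 688) (nat_lit 719) (nat_lit 5711) (.f (nat_lit 559) (nat_lit 591) (nat_lit 7727) (.f (nat_lit 558) (nat_lit 524) (nat_lit 3596) (.f (nat_lit 589) (nat_lit 588) (nat_lit 1580) (.d (nat_lit 462) (nat_lit 493) (nat_lit 6605) (nat_lit 526) (nat_lit 5581))))))))) (.a (.f (nat_lit 657) (nat_lit 625) (nat_lit 4624) (.f (nat_lit 656) (nat_lit 689) (nat_lit 4656) (.d (nat_lit 655) (nat_lit 623) (nat_lit 5647) (nat_lit 687) (nat_lit 5679)))) (.a (.d (nat_lit 623) (nat_lit 591) (nat_lit 5615) (nat_lit 655) (nat_lit 5647)) (.f (nat_lit 591) (nat_lit 623) (nat_lit 5615) (.f (nat_lit 625) (nat_lit 657) (nat_lit 4624) (.f (nat_lit 589) (nat_lit 590) (nat_lit 589) (.f (nat_lit 493) (nat_lit 462) (nat_lit 6605) (.f (nat_lit 588) (nat_lit 620) (nat_lit 5612) (.f (nat_lit 461) (nat_lit 556) (nat_lit 5580) (.d (nat_lit 460) (nat_lit 428) (nat_lit 7596) (nat_lit 492) (nat_lit 7628))))))))))))) (.a (.p (nat_lit 558) (.a (.f (nat_lit 591) (nat_lit 623) (nat_lit 5615) (.f (nat_lit 559) (nat_lit 556) (nat_lit 556) (.d (nat_lit 526) (nat_lit 462) (nat_lit 4558) (nat_lit 561) (nat_lit 3597)))) (.a (.f (nat_lit 559) (nat_lit 524) (nat_lit 3596) (.f (nat_lit 526) (nat_lit 561) (nat_lit 3597) (.d (nat_lit 591) (nat_lit 462) (nat_lit 4558) (nat_lit 556) (nat_lit 556)))) (.a (.f (nat_lit 559) (nat_lit 524) (nat_lit 3596) (.d (nat_lit 591) (nat_lit 556) (nat_lit 556) (nat_lit 623) (nat_lit 5615))) (.a (.f (nat_lit 623) (nat_lit 591) (nat_lit 5615) (.f (nat_lit 624) (nat_lit 655) (nat_lit 5647) (.f (nat_lit 657) (nat_lit 625) (nat_lit 4624) (.f (nat_lit 656) (nat_lit 689) (nat_lit 4656) (.f (nat_lit 622) (nat_lit 621) (nat_lit 621) (.f (nat_lit 590) (nat_lit 654) (nat_lit 7693) (.d (nat_lit 493) (nat_lit 461) (nat_lit 4557) (nat_lit 526) (nat_lit 7661)))))))) (.f (nat_lit 559) (nat_lit 524) (nat_lit 3596) (.f (nat_lit 526) (nat_lit 561) (nat_lit 3597) (.f (nat_lit 462) (nat_lit 430) (nat_lit 5549) (.f (nat_lit 461) (nat_lit 429) (nat_lit 7597) (.f (nat_lit 493) (nat_lit 590) (nat_lit 4557) (.f (nat_lit 556) (nat_lit 588) (nat_lit 5580) (.f (nat_lit 555) (nat_lit 554) (nat_lit 2570) (.f (nat_lit 460) (nat_lit 428) (nat_lit 7596) (.f (nat_lit 459) (nat_lit 458) (nat_lit 458) (.f (nat_lit 491) (nat_lit 490) (nat_lit 1482) (.f (nat_lit 523) (nat_lit 522) (nat_lit 3594) (.d (nat_lit 587) (nat_lit 492) (nat_lit 6603) (nat_lit 586) (nat_lit 1578)))))))))))))))))) (.p (nat_lit 558) (.a (.f (nat_lit 559) (nat_lit 524) (nat_lit 3596) (.f (nat_lit 589) (nat_lit 588) (nat_lit 1580) (.f (nat_lit 590) (nat_lit 561) (nat_lit 1581) (.d (nat_lit 493) (nat_lit 461) (nat_lit 4557) (nat_lit 462) (nat_lit 6605))))) (.a (.f (nat_lit 623) (nat_lit 591) (nat_lit 5615) (.f (nat_lit 624) (nat_lit 655) (nat_lit 5647) (.f (nat_lit 657) (nat_lit 625) (nat_lit 4624) (.f (nat_lit 656) (nat_lit 689) (nat_lit 4656) (.f (nat_lit 622) (nat_lit 621) (nat_lit 621) (.f (nat_lit 590) (nat_lit 654) (nat_lit 7693) (.d (nat_lit 493) (nat_lit 461) (nat_lit 4557) (nat_lit 589) (nat_lit 4589)))))))) (.f (nat_lit 559) (nat_lit 524) (nat_lit 3596) (.d (nat_lit 591) (nat_lit 556) (nat_lit 556) (nat_lit 623) (nat_lit 5615))))))))))))) (.a (.p (nat_lit 624) (.a (.f (nat_lit 497) (nat_lit 465) (nat_lit 6608) (.f (nat_lit 526) (nat_lit 495) (nat_lit 1517) (.f (nat_lit 657) (nat_lit 625) (nat_lit 4624) (.f (nat_lit 656) (nat_lit 689) (nat_lit 4656) (.f (nat_lit 687) (nat_lit 655) (nat_lit 5679) (.f (nat_lit 688) (nat_lit 719) (nat_lit 5711) (.f (nat_lit 559) (nat_lit 591) (nat_lit 7727) (.f (nat_lit 558) (nat_lit 561) (nat_lit 3597) (.d (nat_lit 524) (nat_lit 523) (nat_lit 523) (nat_lit 557) (nat_lit 3596)))))))))) (.a (.d (nat_lit 623) (nat_lit 591) (nat_lit 5615) (nat_lit 655) (nat_lit 5647)) (.a (.f (nat_lit 497) (nat_lit 465) (nat_lit 6608) (.f (nat_lit 591) (nat_lit 623) (nat_lit 5615) (.f (nat_lit 625) (nat_lit 657) (nat_lit 4624) (.f (nat_lit 589) (nat_lit 590) (nat_lit 589) (.f (nat_lit 526) (nat_lit 495) (nat_lit 1517) (.f (nat_lit 557) (nat_lit 621) (nat_lit 6637) (.d (nat_lit 462) (nat_lit 430) (nat_lit 5549) (nat_lit 558) (nat_lit 5581)))))))) (.f (nat_lit 657) (nat_lit 625) (nat_lit 4624) (.f (nat_lit 656) (nat_lit 689) (nat_lit 4656) (.d (nat_lit 655) (nat_lit 623) (nat_lit 5647) (nat_lit 687) (nat_lit 5679)))))))) (.a (.f (nat_lit 497) (nat_lit 465) (nat_lit 6608) (.f (nat_lit 495) (nat_lit 526) (nat_lit 1517) (.f (nat_lit 493) (nat_lit 524) (nat_lit 1516) (.f (nat_lit 460) (nat_lit 461) (nat_lit 3532) (.f (nat_lit 492) (nat_lit 459) (nat_lit 3531) (.f (nat_lit 623) (nat_lit 591) (nat_lit 5615) (.f (nat_lit 624) (nat_lit 655) (nat_lit 5647) (.f (nat_lit 625) (nat_lit 657) (nat_lit 4624) (.f (nat_lit 589) (nat_lit 557) (nat_lit 7628) (.f (nat_lit 622) (nat_lit 590) (nat_lit 3661) (.f (nat_lit 621) (nat_lit 588) (nat_lit 3660) (.d (nat_lit 653) (nat_lit 652) (nat_lit 1644) (nat_lit 654) (nat_lit 1645))))))))))))) (.a (.p (nat_lit 493) (.a (.f (nat_lit 495) (nat_lit 524) (nat_lit 1516) (.f (nat_lit 461) (nat_lit 460) (nat_lit 3532) (.d (nat_lit 497) (nat_lit 462) (nat_lit 3533) (nat_lit 465) (nat_lit 6608)))) (.a (.f (nat_lit 623) (nat_lit 591) (nat_lit 5615) (.f (nat_lit 624) (nat_lit 655) (nat_lit 5647) (.f (nat_lit 625) (nat_lit 657) (nat_lit 4624) (.f (nat_lit 495) (nat_lit 524) (nat_lit 1516) (.f (nat_lit 460) (nat_lit 461) (nat_lit 3532) (.f (nat_lit 492) (nat_lit 459) (nat_lit 3531) (.f (nat_lit 589) (nat_lit 557) (nat_lit 7628) (.f (nat_lit 622) (nat_lit 590) (nat_lit 3661) (.f (nat_lit 621) (nat_lit 588) (nat_lit 3660) (.d (nat_lit 653) (nat_lit 652) (nat_lit 1644) (nat_lit 654) (nat_lit 1645))))))))))) (.a (.p (nat_lit 589) (.a (.f (nat_lit 557) (nat_lit 462) (nat_lit 6605) (.f (nat_lit 590) (nat_lit 622) (nat_lit 4589) (.d (nat_lit 591) (nat_lit 561) (nat_lit 2605) (nat_lit 623) (nat_lit 5615)))) (.a (.f (nat_lit 557) (nat_lit 462) (nat_lit 6605) (.f (nat_lit 590) (nat_lit 622) (nat_lit 4589) (.d (nat_lit 591) (nat_lit 556) (nat_lit 3628) (nat_lit 561) (nat_lit 2605)))) (.a (.f (nat_lit 557) (nat_lit 462) (nat_lit 6605) (.f (nat_lit 590) (nat_lit 622) (nat_lit 4589) (.d (nat_lit 591) (nat_lit 556) (nat_lit 3628) (nat_lit 623) (nat_lit 5615)))) (.a (.f (nat_lit 591) (nat_lit 623) (nat_lit 5615) (.f (nat_lit 590) (nat_lit 561) (nat_lit 2605) (.f (nat_lit 588) (nat_lit 559) (nat_lit 2604) (.d (nat_lit 620) (nat_lit 619) (nat_lit 1611) (nat_lit 621) (nat_lit 1612))))) (.a (.f (nat_lit 557) (nat_lit 462) (nat_lit 6605) (.f (nat_lit 588) (nat_lit 620) (nat_lit 5612) (.f (nat_lit 558) (nat_lit 559) (nat_lit 1580) (.d (nat_lit 461) (nat_lit 556) (nat_lit 5580) (nat_lit 590) (nat_lit 4557))))) (.f (nat_lit 557) (nat_lit 462) (nat_lit 6605) (.f (nat_lit 588) (nat_lit 620) (nat_lit 5612) (.f (nat_lit 556) (nat_lit 461) (nat_lit 5580) (.f (nat_lit 558) (nat_lit 559) (nat_lit 1580) (.f (nat_lit 492) (nat_lit 460) (nat_lit 7628) (.f (nat_lit 524) (nat_lit 621) (nat_lit 4588) (.d (nat_lit 587) (nat_lit 586) (nat_lit 2602) (nat_lit 619) (nat_lit 5611)))))))))))))) (.a (.p (nat_lit 624) (.a (.f (nat_lit 524) (nat_lit 495) (nat_lit 1516) (.f (nat_lit 657) (nat_lit 625) (nat_lit 4624) (.f (nat_lit 656) (nat_lit 689) (nat_lit 4656) (.f (nat_lit 687) (nat_lit 655) (nat_lit 5679) (.f (nat_lit 688) (nat_lit 719) (nat_lit 5711) (.f (nat_lit 559) (nat_lit 591) (nat_lit 7727) (.f (nat_lit 557) (nat_lit 558) (nat_lit 3596) (.f (nat_lit 589) (nat_lit 462) (nat_lit 6605) (.d (nat_lit 492) (nat_lit 460) (nat_lit 7628) (nat_lit 621) (nat_lit 7660)))))))))) (.a (.d (nat_lit 623) (nat_lit 591) (nat_lit 5615) (nat_lit 655) (nat_lit 5647)) (.a (.f (nat_lit 524) (nat_lit 495) (nat_lit 1516) (.f (nat_lit 591) (nat_lit 623) (nat_lit 5615) (.f (nat_lit 625) (nat_lit 657) (nat_lit 4624) (.f (nat_lit 589) (nat_lit 590) (nat_lit 589) (.f (nat_lit 557) (nat_lit 462) (nat_lit 6605) (.d (nat_lit 492) (nat_lit 460) (nat_lit 7628) (nat_lit 621) (nat_lit 7660))))))) (.f (nat_lit 655) (nat_lit 623) (nat_lit 5647) (.f (nat_lit 656) (nat_lit 687) (nat_lit 5679) (.d (nat_lit 657) (nat_lit 625) (nat_lit 4624) (nat_lit 689) (nat_lit 4656)))))))) (.a (.f (nat_lit 623) (nat_lit 591) (nat_lit 5615) (.f (nat_lit 624) (nat_lit 655) (nat_lit 5647) (.f (nat_lit 625) (nat_lit 657) (nat_lit 4624) (.f (nat_lit 495) (nat_lit 524) (nat_lit 1516) (.f (nat_lit 497) (nat_lit 465) (nat_lit 6608) (.f (nat_lit 462) (nat_lit 461) (nat_lit 3533) (.f (nat_lit 589) (nat_lit 557) (nat_lit 6605) (.f (nat_lit 622) (nat_lit 590) (nat_lit 3661) (.f (nat_lit 621) (nat_lit 588) (nat_lit 3660) (.d (nat_lit 653) (nat_lit 652) (nat_lit 1644) (nat_lit 654) (nat_lit 1645))))))))))) (.p (nat_lit 589) (.a (.f (nat_lit 557) (nat_lit 462) (nat_lit 6605) (.f (nat_lit 590) (nat_lit 622) (nat_lit 4589) (.d (nat_lit 591) (nat_lit 561) (nat_lit 2605) (nat_lit 623) (nat_lit 5615)))) (.a (.f (nat_lit 557) (nat_lit 462) (nat_lit 6605) (.f (nat_lit 590) (nat_lit 622) (nat_lit 4589) (.d (nat_lit 591) (nat_lit 556) (nat_lit 3628) (nat_lit 561) (nat_lit 2605)))) (.a (.f (nat_lit 557) (nat_lit 462) (nat_lit 6605) (.f (nat_lit 590) (nat_lit 622) (nat_lit 4589) (.d (nat_lit 591) (nat_lit 556) (nat_lit 3628) (nat_lit 623) (nat_lit 5615)))) (.a (.f (nat_lit 591) (nat_lit 623) (nat_lit 5615) (.f (nat_lit 590) (nat_lit 561) (nat_lit 2605) (.f (nat_lit 588) (nat_lit 559) (nat_lit 2604) (.d (nat_lit 620) (nat_lit 619) (nat_lit 1611) (nat_lit 621) (nat_lit 1612))))) (.a (.f (nat_lit 557) (nat_lit 462) (nat_lit 6605) (.f (nat_lit 588) (nat_lit 620) (nat_lit 5612) (.f (nat_lit 558) (nat_lit 559) (nat_lit 1580) (.d (nat_lit 461) (nat_lit 556) (nat_lit 5580) (nat_lit 590) (nat_lit 4557))))) (.f (nat_lit 557) (nat_lit 462) (nat_lit 6605) (.f (nat_lit 588) (nat_lit 620) (nat_lit 5612) (.f (nat_lit 461) (nat_lit 556) (nat_lit 5580) (.d (nat_lit 460) (nat_lit 492) (nat_lit 7628) (nat_lit 495) (nat_lit 3532))))))))))))))))) (.p (nat_lit 590) (.a (.f (nat_lit 591) (nat_lit 623) (nat_lit 5615) (.f (nat_lit 589) (nat_lit 561) (nat_lit 2605) (.f (nat_lit 557) (nat_lit 556) (nat_lit 3628) (.d (nat_lit 493) (nat_lit 462) (nat_lit 6605) (nat_lit 622) (nat_lit 4589))))) (.a (.f (nat_lit 497) (nat_lit 465) (nat_lit 6608) (.f (nat_lit 495) (nat_lit 526) (nat_lit 1517) (.f (nat_lit 461) (nat_lit 462) (nat_lit 3533) (.f (nat_lit 493) (nat_lit 460) (nat_lit 3532) (.f (nat_lit 557) (nat_lit 558) (nat_lit 4557) (.f (nat_lit 589) (nat_lit 622) (nat_lit 4589) (.d (nat_lit 556) (nat_lit 588) (nat_lit 5580) (nat_lit 591) (nat_lit 3628)))))))) (.a (.f (nat_lit 591) (nat_lit 623) (nat_lit 5615) (.f (nat_lit 589) (nat_lit 561) (nat_lit 2605) (.f (nat_lit 588) (nat_lit 559) (nat_lit 2604) (.d (nat_lit 620) (nat_lit 619) (nat_lit 1611) (nat_lit 621) (nat_lit 1612))))) (.a (.f (nat_lit 497) (nat_lit 465) (nat_lit 6608) (.f (nat_lit 495) (nat_lit 526) (nat_lit 1517) (.f (nat_lit 461) (nat_lit 462) (nat_lit 3533) (.f (nat_lit 493) (nat_lit 460) (nat_lit 3532) (.f (nat_lit 557) (nat_lit 558) (nat_lit 4557) (.f (nat_lit 589) (nat_lit 622) (nat_lit 4589) (.d (nat_lit 588) (nat_lit 556) (nat_lit 5580) (nat_lit 620) (nat_lit 5612)))))))) (.f (nat_lit 497) (nat_lit 465) (nat_lit 6608) (.f (nat_lit 623) (nat_lit 591) (nat_lit 5615) (.f (nat_lit 624) (nat_lit 655) (nat_lit 5647) (.f (nat_lit 657) (nat_lit 625) (nat_lit 4624) (.f (nat_lit 656) (nat_lit 689) (nat_lit 4656) (.f (nat_lit 526) (nat_lit 495) (nat_lit 1517) (.f (nat_lit 622) (nat_lit 621) (nat_lit 621) (.f (nat_lit 558) (nat_lit 493) (nat_lit 7661) (.f (nat_lit 654) (nat_lit 557) (nat_lit 7693) (.f (nat_lit 685) (nat_lit 653) (nat_lit 5677) (.f (nat_lit 686) (nat_lit 717) (nat_lit 5709) (.d (nat_lit 687) (nat_lit 688) (nat_lit 2701) (nat_lit 719) (nat_lit 4686))))))))))))))))))))))))) (.a (.p (nat_lit 589) (.a (.f (nat_lit 591) (nat_lit 623) (nat_lit 5615) (.f (nat_lit 590) (nat_lit 561) (nat_lit 2605) (.f (nat_lit 557) (nat_lit 556) (nat_lit 3628) (.f (nat_lit 621) (nat_lit 620) (nat_lit 1612) (.d (nat_lit 622) (nat_lit 493) (nat_lit 4589) (nat_lit 654) (nat_lit 4621)))))) (.a (.p (nat_lit 557) (.a (.p (nat_lit 494) (.a (.f (nat_lit 493) (nat_lit 462) (nat_lit 6605) (.f (nat_lit 621) (nat_lit 526) (nat_lit 6637) (.d (nat_lit 620) (nat_lit 588) (nat_lit 5612) (nat_lit 652) (nat_lit 5644)))) (.a (.f (nat_lit 621) (nat_lit 526) (nat_lit 6637) (.f (nat_lit 524) (nat_lit 492) (nat_lit 7660) (.f (nat_lit 653) (nat_lit 556) (nat_lit 7692) (.d (nat_lit 654) (nat_lit 622) (nat_lit 4621) (nat_lit 686) (nat_lit 4653))))) (.f (nat_lit 493) (nat_lit 462) (nat_lit 6605) (.f (nat_lit 590) (nat_lit 622) (nat_lit 4589) (.d (nat_lit 591) (nat_lit 556) (nat_lit 3628) (nat_lit 561) (nat_lit 2605))))))) (.a s37722 (.a s37735 (.a (.p (nat_lit 621) (.a (.f (nat_lit 524) (nat_lit 492) (nat_lit 7660) (.f (nat_lit 558) (nat_lit 559) (nat_lit 3596) (.d (nat_lit 526) (nat_lit 494) (nat_lit 6637) (nat_lit 653) (nat_lit 6669)))) (.a (.f (nat_lit 620) (nat_lit 652) (nat_lit 5644) (.f (nat_lit 590) (nat_lit 591) (nat_lit 1612) (.f (nat_lit 622) (nat_lit 654) (nat_lit 4621) (.f (nat_lit 526) (nat_lit 494) (nat_lit 6637) (.f (nat_lit 653) (nat_lit 558) (nat_lit 5645) (.d (nat_lit 524) (nat_lit 492) (nat_lit 7660) (nat_lit 556) (nat_lit 7692))))))) (.a (.f (nat_lit 654) (nat_lit 622) (nat_lit 4621) (.f (nat_lit 653) (nat_lit 686) (nat_lit 4653) (.d (nat_lit 524) (nat_lit 492) (nat_lit 7660) (nat_lit 556) (nat_lit 7692)))) (.a (.f (nat_lit 526) (nat_lit 494) (nat_lit 6637) (.f (nat_lit 558) (nat_lit 653) (nat_lit 6669) (.d (nat_lit 559) (nat_lit 561) (nat_lit 3597) (nat_lit 588) (nat_lit 1580)))) (.f (nat_lit 620) (nat_lit 652) (nat_lit 5644) (.f (nat_lit 590) (nat_lit 591) (nat_lit 1612) (.f (nat_lit 622) (nat_lit 654) (nat_lit 4621) (.f (nat_lit 619) (nat_lit 618) (nat_lit 2634) (.f (nat_lit 524) (nat_lit 492) (nat_lit 7660) (.f (nat_lit 587) (nat_lit 586) (nat_lit 3658) (.f (nat_lit 651) (nat_lit 650) (nat_lit 1642) (.d (nat_lit 556) (nat_lit 555) (nat_lit 6667) (nat_lit 588) (nat_lit 5643)))))))))))))) (.a s37766 (.a (.p (nat_lit 590) (.a (.d (nat_lit 591) (nat_lit 556) (nat_lit 3628) (nat_lit 561) (nat_lit 2605)) (.a (.f (nat_lit 493) (nat_lit 622) (nat_lit 4589) (.f (nat_lit 556) (nat_lit 591) (nat_lit 3628) (.d (nat_lit 588) (nat_lit 461) (nat_lit 5580) (nat_lit 620) (nat_lit 5612)))) (.f (nat_lit 493) (nat_lit 622) (nat_lit 4589) (.f (nat_lit 558) (nat_lit 461) (nat_lit 4557) (.d (nat_lit 559) (nat_lit 524) (nat_lit 3596) (nat_lit 588) (nat_lit 1580))))))) (.a (.p (nat_lit 494) (.a (.f (nat_lit 493) (nat_lit 462) (nat_lit 6605) (.f (nat_lit 621) (nat_lit 526) (nat_lit 6637) (.d (nat_lit 620) (nat_lit 588) (nat_lit 5612) (nat_lit 652) (nat_lit 5644)))) (.a (.f (nat_lit 621) (nat_lit 526) (nat_lit 6637) (.f (nat_lit 620) (nat_lit 652) (nat_lit 5644) (.f (nat_lit 590) (nat_lit 591) (nat_lit 1612) (.f (nat_lit 654) (nat_lit 622) (nat_lit 4621) (.f (nat_lit 653) (nat_lit 686) (nat_lit 4653) (.f (nat_lit 685) (nat_lit 558) (nat_lit 6701) (.d (nat_lit 588) (nat_lit 556) (nat_lit 7724) (nat_lit 717) (nat_lit 7756)))))))) (.a (.f (nat_lit 493) (nat_lit 462) (nat_lit 6605) (.f (nat_lit 588) (nat_lit 620) (nat_lit 5612) (.f (nat_lit 558) (nat_lit 559) (nat_lit 1580) (.d (nat_lit 461) (nat_lit 556) (nat_lit 5580) (nat_lit 590) (nat_lit 4557))))) (.f (nat_lit 493) (nat_lit 462) (nat_lit 6605) (.f (nat_lit 590) (nat_lit 622) (nat_lit 4589) (.d (nat_lit 591) (nat_lit 556) (nat_lit 3628) (nat_lit 561) (nat_lit 2605)))))))) (.a (.p (nat_lit 494) (.a (.f (nat_lit 621) (nat_lit 526) (nat_lit 6637) (.f (nat_lit 524) (nat_lit 492) (nat_lit 7660) (.f (nat_lit 653) (nat_lit 556) (nat_lit 7692) (.d (nat_lit 654) (nat_lit 622) (nat_lit 4621) (nat_lit 686) (nat_lit 4653))))) (.a (.f (nat_lit 621) (nat_lit 526) (nat_lit 6637) (.f (nat_lit 524) (nat_lit 492) (nat_lit 7660) (.f (nat_lit 653) (nat_lit 556) (nat_lit 7692) (.d (nat_lit 652) (nat_lit 620) (nat_lit 5644) (nat_lit 684) (nat_lit 5676))))) (.a (.f (nat_lit 493) (nat_lit 462) (nat_lit 6605) (.f (nat_lit 590) (nat_lit 622) (nat_lit 4589) (.d (nat_lit 591) (nat_lit 556) (nat_lit 3628) (nat_lit 561) (nat_lit 2605)))) (.f (nat_lit 526) (nat_lit 621) (nat_lit 6637) (.d (nat_lit 462) (nat_lit 493) (nat_lit 6605) (nat_lit 558) (nat_lit 5581))))))) (.a (.p (nat_lit 494) (.a (.f (nat_lit 621) (nat_lit 526) (nat_lit 6637) (.f (nat_lit 524) (nat_lit 492) (nat_lit 7660) (.f (nat_lit 653) (nat_lit 556) (nat_lit 7692) (.d (nat_lit 654) (nat_lit 622) (nat_lit 4621) (nat_lit 686) (nat_lit 4653))))) (.a (.f (nat_lit 526) (nat_lit 621) (nat_lit 6637) (.d (nat_lit 462) (nat_lit 493) (nat_lit 6605) (nat_lit 558) (nat_lit 5581))) (.f (nat_lit 493) (nat_lit 462) (nat_lit 6605) (.f (nat_lit 590) (nat_lit 622) (nat_lit 4589) (.d (nat_lit 591) (nat_lit 556) (nat_lit 3628) (nat_lit 561) (nat_lit 2605))))))) (.p (nat_lit 494) (.a (.f (nat_lit 493) (nat_lit 462) (nat_lit 6605) (.f (nat_lit 621) (nat_lit 526) (nat_lit 6637) (.d (nat_lit 620) (nat_lit 588) (nat_lit 5612) (nat_lit 652) (nat_lit 5644)))) (.a (.f (nat_lit 621) (nat_lit 526) (nat_lit 6637) (.f (nat_lit 620) (nat_lit 652) (nat_lit 5644) (.f (nat_lit 590) (nat_lit 591) (nat_lit 1612) (.f (nat_lit 654) (nat_lit 622) (nat_lit 4621) (.f (nat_lit 653) (nat_lit 686) (nat_lit 4653) (.f (nat_lit 558) (nat_lit 685) (nat_lit 6701) (.d (nat_lit 524) (nat_lit 492) (nat_lit 7660) (nat_lit 559) (nat_lit 3596)))))))) (.f (nat_lit 493) (nat_lit 462) (nat_lit 6605) (.f (nat_lit 590) (nat_lit 622) (nat_lit 4589) (.f (nat_lit 558) (nat_lit 461) (nat_lit 4557) (.d (nat_lit 559) (nat_lit 524) (nat_lit 3596) (nat_lit 588) (nat_lit 1580)))))))))))))))))) (.a (.f (nat_lit 623) (nat_lit 591) (nat_lit 5615) (.f (nat_lit 624) (nat_lit 655) (nat_lit 5647) (.f (nat_lit 625) (nat_lit 657) (nat_lit 4624) (.f (nat_lit 622) (nat_lit 590) (nat_lit 3661) (.f (nat_lit 621) (nat_lit 588) (nat_lit 3660) (.d (nat_lit 653) (nat_lit 652) (nat_lit 1644) (nat_lit 654) (nat_lit 1645))))))) (.a (.p (nat_lit 557) (.a s37722 (.a s37823 (.a (.p (nat_lit 621) (.a (.f (nat_lit 524) (nat_lit 492) (nat_lit 7660) (.f (nat_lit 558) (nat_lit 559) (nat_lit 3596) (.d (nat_lit 526) (nat_lit 494) (nat_lit 6637) (nat_lit 653) (nat_lit 6669)))) (.a (.f (nat_lit 654) (nat_lit 622) (nat_lit 4621) (.f (nat_lit 653) (nat_lit 686) (nat_lit 4653) (.d (nat_lit 524) (nat_lit 492) (nat_lit 7660) (nat_lit 556) (nat_lit 7692)))) (.a (.f (nat_lit 526) (nat_lit 494) (nat_lit 6637) (.f (nat_lit 558) (nat_lit 653) (nat_lit 6669) (.d (nat_lit 559) (nat_lit 561) (nat_lit 3597) (nat_lit 588) (nat_lit 1580)))) (.f (nat_lit 524) (nat_lit 492) (nat_lit 7660) (.f (nat_lit 558) (nat_lit 559) (nat_lit 3596) (.f (nat_lit 526) (nat_lit 494) (nat_lit 6637) (.f (nat_lit 523) (nat_lit 522) (nat_lit 522) (.f (nat_lit 620) (nat_lit 652) (nat_lit 5644) (.f (nat_lit 555) (nat_lit 554) (nat_lit 1546) (.f (nat_lit 491) (nat_lit 490) (nat_lit 3562) (.d (nat_lit 588) (nat_lit 556) (nat_lit 7659) (nat_lit 587) (nat_lit 4587))))))))))))) (.a s37766 (.a (.p (nat_lit 493) (.a (.f (nat_lit 588) (nat_lit 620) (nat_lit 5612) (.f (nat_lit 461) (nat_lit 556) (nat_lit 5580) (.d (nat_lit 460) (nat_lit 428) (nat_lit 7596) (nat_lit 492) (nat_lit 7628)))) (.a (.f (nat_lit 588) (nat_lit 620) (nat_lit 5612) (.f (nat_lit 558) (nat_lit 559) (nat_lit 1580) (.f (nat_lit 590) (nat_lit 622) (nat_lit 4589) (.f (nat_lit 587) (nat_lit 586) (nat_lit 2602) (.f (nat_lit 555) (nat_lit 554) (nat_lit 3626) (.f (nat_lit 619) (nat_lit 618) (nat_lit 1610) (.f (nat_lit 492) (nat_lit 460) (nat_lit 7628) (.d (nat_lit 524) (nat_lit 523) (nat_lit 6635) (nat_lit 556) (nat_lit 5611))))))))) (.a (.f (nat_lit 588) (nat_lit 620) (nat_lit 5612) (.f (nat_lit 461) (nat_lit 556) (nat_lit 5580) (.d (nat_lit 462) (nat_lit 430) (nat_lit 6573) (nat_lit 494) (nat_lit 6605)))) (.f (nat_lit 590) (nat_lit 622) (nat_lit 4589) (.f (nat_lit 461) (nat_lit 558) (nat_lit 4557) (.d (nat_lit 462) (nat_lit 430) (nat_lit 6573) (nat_lit 494) (nat_lit 6605)))))))) (.a (.p (nat_lit 494) (.a (.f (nat_lit 493) (nat_lit 462) (nat_lit 6605) (.f (nat_lit 621) (nat_lit 526) (nat_lit 6637) (.d (nat_lit 620) (nat_lit 588) (nat_lit 5612) (nat_lit 652) (nat_lit 5644)))) (.a (.f (nat_lit 621) (nat_lit 526) (nat_lit 6637) (.f (nat_lit 652) (nat_lit 620) (nat_lit 5644) (.f (nat_lit 653) (nat_lit 684) (nat_lit 5676) (.d (nat_lit 654) (nat_lit 622) (nat_lit 4621) (nat_lit 686) (nat_lit 4653))))) (.a (.f (nat_lit 493) (nat_lit 462) (nat_lit 6605) (.f (nat_lit 588) (nat_lit 620) (nat_lit 5612) (.f (nat_lit 558) (nat_lit 559) (nat_lit 1580) (.d (nat_lit 461) (nat_lit 556) (nat_lit 5580) (nat_lit 590) (nat_lit 4557))))) (.f (nat_lit 526) (nat_lit 621) (nat_lit 6637) (.d (nat_lit 462) (nat_lit 493) (nat_lit 6605) (nat_lit 558) (nat_lit 5581))))))) (.a (.p (nat_lit 494) (.a (.f (nat_lit 621) (nat_lit 526) (nat_lit 6637) (.f (nat_lit 524) (nat_lit 492) (nat_lit 7660) (.f (nat_lit 653) (nat_lit 556) (nat_lit 7692) (.d (nat_lit 654) (nat_lit 622) (nat_lit 4621) (nat_lit 686) (nat_lit 4653))))) (.a (.f (nat_lit 621) (nat_lit 526) (nat_lit 6637) (.f (nat_lit 524) (nat_lit 492) (nat_lit 7660) (.f (nat_lit 653) (nat_lit 556) (nat_lit 7692) (.d (nat_lit 652) (nat_lit 620) (nat_lit 5644) (nat_lit 684) (nat_lit 5676))))) (.a (.f (nat_lit 493) (nat_lit 462) (nat_lit 6605) (.f (nat_lit 590) (nat_lit 622) (nat_lit 4589) (.f (nat_lit 461) (nat_lit 558) (nat_lit 4557) (.d (nat_lit 460) (nat_lit 428) (nat_lit 7596) (nat_lit 492) (nat_lit 7628))))) (.f (nat_lit 526) (nat_lit 621) (nat_lit 6637) (.d (nat_lit 462) (nat_lit 493) (nat_lit 6605) (nat_lit 558) (nat_lit 5581))))))) (.a (.p (nat_lit 494) (.a (.f (nat_lit 621) (nat_lit 526) (nat_lit 6637) (.f (nat_lit 524) (nat_lit 492) (nat_lit 7660) (.f (nat_lit 653) (nat_lit 556) (nat_lit 7692) (.d (nat_lit 654) (nat_lit 622) (nat_lit 4621) (nat_lit 686) (nat_lit 4653))))) (.a (.f (nat_lit 526) (nat_lit 621) (nat_lit 6637) (.d (nat_lit 462) (nat_lit 493) (nat_lit 6605) (nat_lit 558) (nat_lit 5581))) (.f (nat_lit 493) (nat_lit 462) (nat_lit 6605) (.f (nat_lit 590) (nat_lit 622) (nat_lit 4589) (.f (nat_lit 558) (nat_lit 461) (nat_lit 4557) (.d (nat_lit 559) (nat_lit 524) (nat_lit 3596) (nat_lit 588) (nat_lit 1580)))))))) (.p (nat_lit 494) (.a (.f (nat_lit 493) (nat_lit 462) (nat_lit 6605) (.f (nat_lit 621) (nat_lit 526) (nat_lit 6637) (.d (nat_lit 620) (nat_lit 588) (nat_lit 5612) (nat_lit 652) (nat_lit 5644)))) (.a (.f (nat_lit 621) (nat_lit 526) (nat_lit 6637) (.f (nat_lit 652) (nat_lit 620) (nat_lit 5644) (.f (nat_lit 653) (nat_lit 684) (nat_lit 5676) (.d (nat_lit 654) (nat_lit 622) (nat_lit 4621) (nat_lit 686) (nat_lit 4653))))) (.f (nat_lit 493) (nat_lit 462) (nat_lit 6605) (.f (nat_lit 590) (nat_lit 622) (nat_lit 4589) (.f (nat_lit 558) (nat_lit 461) (nat_lit 4557) (.d (nat_lit 559) (nat_lit 524) (nat_lit 3596) (nat_lit 588) (nat_lit 1580))))))))))))))))) (.a (.p (nat_lit 557) (.a s37722 (.a (.f (nat_lit 623) (nat_lit 591) (nat_lit 5615) (.f (nat_lit 624) (nat_lit 655) (nat_lit 5647) (.f (nat_lit 657) (nat_lit 625) (nat_lit 4624) (.f (nat_lit 656) (nat_lit 689) (nat_lit 4656) (.f (nat_lit 621) (nat_lit 622) (nat_lit 621) (.f (nat_lit 524) (nat_lit 492) (nat_lit 7660) (.f (nat_lit 558) (nat_lit 559) (nat_lit 3596) (.d (nat_lit 653) (nat_lit 526) (nat_lit 6669) (nat_lit 556) (nat_lit 7692))))))))) (.a s37887 (.f (nat_lit 623) (nat_lit 591) (nat_lit 5615) (.f (nat_lit 624) (nat_lit 655) (nat_lit 5647) (.f (nat_lit 657) (nat_lit 625) (nat_lit 4624) (.f (nat_lit 656) (nat_lit 689) (nat_lit 4656) (.f (nat_lit 621) (nat_lit 622) (nat_lit 621) (.f (nat_lit 526) (nat_lit 494) (nat_lit 6637) (.f (nat_lit 653) (nat_lit 558) (nat_lit 6669) (.d (nat_lit 652) (nat_lit 620) (nat_lit 5644) (nat_lit 684) (nat_lit 5676))))))))))))) (.a (.f (nat_lit 591) (nat_lit 623) (nat_lit 5615) (.f (nat_lit 590) (nat_lit 561) (nat_lit 2605) (.f (nat_lit 557) (nat_lit 556) (nat_lit 3628) (.f (nat_lit 621) (nat_lit 620) (nat_lit 1612) (.f (nat_lit 559) (nat_lit 588) (nat_lit 2604) (.d (nat_lit 524) (nat_lit 492) (nat_lit 7660) (nat_lit 558) (nat_lit 3596))))))) (.f (nat_lit 591) (nat_lit 623) (nat_lit 5615) (.f (nat_lit 590) (nat_lit 561) (nat_lit 2605) (.f (nat_lit 557) (nat_lit 556) (nat_lit 3628) (.f (nat_lit 493) (nat_lit 622) (nat_lit 4589) (.d (nat_lit 588) (nat_lit 559) (nat_lit 2604) (nat_lit 620) (nat_lit 5612))))))))))))) (.a (.p (nat_lit 589) (.a (.f (nat_lit 591) (nat_lit 623) (nat_lit 5615) (.f (nat_lit 590) (nat_lit 561) (nat_lit 2605) (.f (nat_lit 557) (nat_lit 556) (nat_lit 3628) (.f (nat_lit 621) (nat_lit 620) (nat_lit 1612) (.d (nat_lit 622) (nat_lit 493) (nat_lit 4589) (nat_lit 654) (nat_lit 4621)))))) (.a (.p (nat_lit 557) (.a s37735 (.a s37823 (.a s37933 (.a (.p (nat_lit 621) (.a (.f (nat_lit 654) (nat_lit 622) (nat_lit 4621) (.f (nat_lit 653) (nat_lit 686) (nat_lit 4653) (.d (nat_lit 524) (nat_lit 492) (nat_lit 7660) (nat_lit 556) (nat_lit 7692)))) (.a (.f (nat_lit 524) (nat_lit 492) (nat_lit 7660) (.f (nat_lit 558) (nat_lit 559) (nat_lit 3596) (.d (nat_lit 653) (nat_lit 526) (nat_lit 6669) (nat_lit 556) (nat_lit 7692)))) (.a (.f (nat_lit 620) (nat_lit 652) (nat_lit 5644) (.f (nat_lit 590) (nat_lit 591) (nat_lit 1612) (.f (nat_lit 654) (nat_lit 622) (nat_lit 4621) (.f (nat_lit 653) (nat_lit 686) (nat_lit 4653) (.d (nat_lit 558) (nat_lit 526) (nat_lit 6669) (nat_lit 685) (nat_lit 6701)))))) (.f (nat_lit 620) (nat_lit 652) (nat_lit 5644) (.f (nat_lit 590) (nat_lit 591) (nat_lit 1612) (.f (nat_lit 622) (nat_lit 654) (nat_lit 4621) (.f (nat_lit 619) (nat_lit 618) (nat_lit 2634) (.f (nat_lit 524) (nat_lit 492) (nat_lit 7660) (.f (nat_lit 587) (nat_lit 586) (nat_lit 3658) (.f (nat_lit 651) (nat_lit 650) (nat_lit 1642) (.d (nat_lit 556) (nat_lit 555) (nat_lit 6667) (nat_lit 588) (nat_lit 5643))))))))))))) (.a s37954 (.a (.p (nat_lit 590) (.a (.d (nat_lit 591) (nat_lit 556) (nat_lit 3628) (nat_lit 561) (nat_lit 2605)) (.a (.f (nat_lit 493) (nat_lit 622) (nat_lit 4589) (.f (nat_lit 556) (nat_lit 591) (nat_lit 3628) (.d (nat_lit 588) (nat_lit 461) (nat_lit 5580) (nat_lit 620) (nat_lit 5612)))) (.f (nat_lit 493) (nat_lit 622) (nat_lit 4589) (.f (nat_lit 558) (nat_lit 461) (nat_lit 4557) (.d (nat_lit 559) (nat_lit 524) (nat_lit 3596) (nat_lit 588) (nat_lit 1580))))))) (.a (.p (nat_lit 590) (.a (.d (nat_lit 591) (nat_lit 556) (nat_lit 3628) (nat_lit 561) (nat_lit 2605)) (.a (.f (nat_lit 493) (nat_lit 622) (nat_lit 4589) (.f (nat_lit 556) (nat_lit 591) (nat_lit 3628) (.d (nat_lit 588) (nat_lit 461) (nat_lit 5580) (nat_lit 620) (nat_lit 5612)))) (.a (.f (nat_lit 493) (nat_lit 622) (nat_lit 4589) (.f (nat_lit 461) (nat_lit 558) (nat_lit 4557) (.d (nat_lit 588) (nat_lit 556) (nat_lit 5580) (nat_lit 620) (nat_lit 5612)))) (.f (nat_lit 591) (nat_lit 561) (nat_lit 2605) (.f (nat_lit 621) (nat_lit 620) (nat_lit 1612) (.d (nat_lit 622) (nat_lit 493) (nat_lit 4589) (nat_lit 654) (nat_lit 4621)))))))) (.a (.p (nat_lit 590) (.a (.d (nat_lit 591) (nat_lit 556) (nat_lit 3628) (nat_lit 561) (nat_lit 2605)) (.a (.f (nat_lit 493) (nat_lit 622) (nat_lit 4589) (.f (nat_lit 558) (nat_lit 461) (nat_lit 4557) (.f (nat_lit 556) (nat_lit 591) (nat_lit 3628) (.f (nat_lit 524) (nat_lit 559) (nat_lit 3596) (.d (nat_lit 621) (nat_lit 492) (nat_lit 7660) (nat_lit 653) (nat_lit 7692)))))) (.f (nat_lit 622) (nat_lit 493) (nat_lit 4589) (.d (nat_lit 654) (nat_lit 558) (nat_lit 7693) (nat_lit 621) (nat_lit 4621)))))) (.p (nat_lit 590) (.a (.f (nat_lit 591) (nat_lit 561) (nat_lit 2605) (.f (nat_lit 621) (nat_lit 620) (nat_lit 1612) (.d (nat_lit 622) (nat_lit 493) (nat_lit 4589) (nat_lit 654) (nat_lit 4621)))) (.a (.f (nat_lit 493) (nat_lit 622) (nat_lit 4589) (.f (nat_lit 558) (nat_lit 461) (nat_lit 4557) (.d (nat_lit 559) (nat_lit 524) (nat_lit 3596) (nat_lit 588) (nat_lit 1580)))) (.f (nat_lit 591) (nat_lit 561) (nat_lit 2605) (.f (nat_lit 621) (nat_lit 620) (nat_lit 1612) (.f (nat_lit 559) (nat_lit 588) (nat_lit 2604) (.d (nat_lit 524) (nat_lit 492) (nat_lit 7660) (nat_lit 558) (nat_lit 3596))))))))))))))))) (.a (.f (nat_lit 623) (nat_lit 591) (nat_lit 5615) (.f (nat_lit 624) (nat_lit 655) (nat_lit 5647) (.f (nat_lit 625) (nat_lit 657) (nat_lit 4624) (.f (nat_lit 622) (nat_lit 590) (nat_lit 3661) (.f (nat_lit 621) (nat_lit 588) (nat_lit 3660) (.d (nat_lit 653) (nat_lit 652) (nat_lit 1644) (nat_lit 654) (nat_lit 1645))))))) (.a (.p (nat_lit 557) (.a s37823 (.a (.p (nat_lit 622) (.a (.f (nat_lit 621) (nat_lit 654) (nat_lit 4621) (.f (nat_lit 493) (nat_lit 590) (nat_lit 4589) (.d (nat_lit 620) (nat_lit 588) (nat_lit 5612) (nat_lit 652) (nat_lit 5644)))) (.a (.f (nat_lit 621) (nat_lit 654) (nat_lit 4621) (.f (nat_lit 620) (nat_lit 652) (nat_lit 5644) (.f (nat_lit 588) (nat_lit 493) (nat_lit 5612) (.f (nat_lit 524) (nat_lit 492) (nat_lit 7660) (.f (nat_lit 556) (nat_lit 653) (nat_lit 4620) (.f (nat_lit 587) (nat_lit 586) (nat_lit 586) (.f (nat_lit 619) (nat_lit 651) (nat_lit 5643) (.f (nat_lit 523) (nat_lit 491) (nat_lit 7659) (.f (nat_lit 522) (nat_lit 521) (nat_lit 521) (.d (nat_lit 490) (nat_lit 489) (nat_lit 3561) (nat_lit 555) (nat_lit 7658))))))))))) (.a (.f (nat_lit 621) (nat_lit 654) (nat_lit 4621) (.f (nat_lit 652) (nat_lit 620) (nat_lit 5644) (.f (nat_lit 653) (nat_lit 684) (nat_lit 5676) (.d (nat_lit 524) (nat_lit 492) (nat_lit 7660) (nat_lit 556) (nat_lit 7692))))) (.a (.f (nat_lit 493) (nat_lit 590) (nat_lit 4589) (.f (nat_lit 588) (nat_lit 620) (nat_lit 5612) (.f (nat_lit 461) (nat_lit 556) (nat_lit 5580) (.d (nat_lit 460) (nat_lit 428) (nat_lit 7596) (nat_lit 492) (nat_lit 7628))))) (.f (nat_lit 621) (nat_lit 654) (nat_lit 4621) (.f (nat_lit 493) (nat_lit 590) (nat_lit 4589) (.d (nat_lit 492) (nat_lit 460) (nat_lit 7628) (nat_lit 524) (nat_lit 7660))))))))) (.a s37933 (.a (.p (nat_lit 621) (.a (.f (nat_lit 654) (nat_lit 622) (nat_lit 4621) (.f (nat_lit 653) (nat_lit 686) (nat_lit 4653) (.d (nat_lit 524) (nat_lit 492) (nat_lit 7660) (nat_lit 556) (nat_lit 7692)))) (.a (.f (nat_lit 524) (nat_lit 492) (nat_lit 7660) (.f (nat_lit 558) (nat_lit 559) (nat_lit 3596) (.d (nat_lit 653) (nat_lit 526) (nat_lit 6669) (nat_lit 556) (nat_lit 7692)))) (.a (.f (nat_lit 654) (nat_lit 622) (nat_lit 4621) (.f (nat_lit 653) (nat_lit 686) (nat_lit 4653) (.d (nat_lit 652) (nat_lit 620) (nat_lit 5644) (nat_lit 684) (nat_lit 5676)))) (.p (nat_lit 588) (.a (.f (nat_lit 558) (nat_lit 559) (nat_lit 1580) (.f (nat_lit 622) (nat_lit 654) (nat_lit 4621) (.f (nat_lit 587) (nat_lit 586) (nat_lit 2602) (.d (nat_lit 623) (nat_lit 590) (nat_lit 587) (nat_lit 624) (nat_lit 3660))))) (.a (.f (nat_lit 558) (nat_lit 559) (nat_lit 1580) (.f (nat_lit 620) (nat_lit 652) (nat_lit 5644) (.f (nat_lit 587) (nat_lit 586) (nat_lit 2602) (.f (nat_lit 524) (nat_lit 492) (nat_lit 7660) (.f (nat_lit 523) (nat_lit 522) (nat_lit 522) (.d (nat_lit 491) (nat_lit 555) (nat_lit 4587) (nat_lit 556) (nat_lit 7659))))))) (.a (.f (nat_lit 622) (nat_lit 654) (nat_lit 4621) (.f (nat_lit 620) (nat_lit 652) (nat_lit 5644) (.d (nat_lit 623) (nat_lit 587) (nat_lit 3659) (nat_lit 624) (nat_lit 3660)))) (.f (nat_lit 524) (nat_lit 492) (nat_lit 7660) (.f (nat_lit 558) (nat_lit 559) (nat_lit 3596) (.f (nat_lit 620) (nat_lit 652) (nat_lit 5644) (.f (nat_lit 523) (nat_lit 522) (nat_lit 522) (.f (nat_lit 556) (nat_lit 491) (nat_lit 7659) (.f (nat_lit 619) (nat_lit 651) (nat_lit 5643) (.d (nat_lit 618) (nat_lit 590) (nat_lit 2634) (nat_lit 617) (nat_lit 2633)))))))))))))))) (.a s37954 (.a (.p (nat_lit 493) (.a (.f (nat_lit 588) (nat_lit 620) (nat_lit 5612) (.f (nat_lit 461) (nat_lit 556) (nat_lit 5580) (.d (nat_lit 460) (nat_lit 428) (nat_lit 7596) (nat_lit 492) (nat_lit 7628)))) (.a (.f (nat_lit 588) (nat_lit 620) (nat_lit 5612) (.f (nat_lit 558) (nat_lit 559) (nat_lit 1580) (.f (nat_lit 590) (nat_lit 622) (nat_lit 4589) (.f (nat_lit 587) (nat_lit 586) (nat_lit 2602) (.f (nat_lit 555) (nat_lit 554) (nat_lit 3626) (.f (nat_lit 619) (nat_lit 618) (nat_lit 1610) (.f (nat_lit 492) (nat_lit 460) (nat_lit 7628) (.d (nat_lit 524) (nat_lit 523) (nat_lit 6635) (nat_lit 556) (nat_lit 5611))))))))) (.a (.f (nat_lit 588) (nat_lit 620) (nat_lit 5612) (.f (nat_lit 558) (nat_lit 559) (nat_lit 1580) (.f (nat_lit 461) (nat_lit 556) (nat_lit 5580) (.f (nat_lit 429) (nat_lit 526) (nat_lit 4525) (.d (nat_lit 430) (nat_lit 398) (nat_lit 6541) (nat_lit 462) (nat_lit 6573)))))) (.f (nat_lit 590) (nat_lit 622) (nat_lit 4589) (.f (nat_lit 461) (nat_lit 558) (nat_lit 4557) (.d (nat_lit 460) (nat_lit 428) (nat_lit 7596) (nat_lit 492) (nat_lit 7628)))))))) (.a (.p (nat_lit 622) (.a (.f (nat_lit 621) (nat_lit 654) (nat_lit 4621) (.f (nat_lit 493) (nat_lit 590) (nat_lit 4589) (.d (nat_lit 620) (nat_lit 588) (nat_lit 5612) (nat_lit 652) (nat_lit 5644)))) (.a (.f (nat_lit 621) (nat_lit 654) (nat_lit 4621) (.f (nat_lit 620) (nat_lit 652) (nat_lit 5644) (.f (nat_lit 588) (nat_lit 493) (nat_lit 5612) (.d (nat_lit 623) (nat_lit 587) (nat_lit 3659) (nat_lit 624) (nat_lit 3660))))) (.a (.f (nat_lit 621) (nat_lit 654) (nat_lit 4621) (.f (nat_lit 652) (nat_lit 620) (nat_lit 5644) (.f (nat_lit 653) (nat_lit 684) (nat_lit 5676) (.f (nat_lit 558) (nat_lit 526) (nat_lit 6669) (.f (nat_lit 685) (nat_lit 590) (nat_lit 6701) (.d (nat_lit 588) (nat_lit 556) (nat_lit 7724) (nat_lit 559) (nat_lit 1580))))))) (.a (.f (nat_lit 590) (nat_lit 493) (nat_lit 4589) (.d (nat_lit 654) (nat_lit 558) (nat_lit 7693) (nat_lit 686) (nat_lit 7725))) (.f (nat_lit 493) (nat_lit 590) (nat_lit 4589) (.f (nat_lit 588) (nat_lit 620) (nat_lit 5612) (.f (nat_lit 461) (nat_lit 556) (nat_lit 5580) (.d (nat_lit 460) (nat_lit 428) (nat_lit 7596) (nat_lit 492) (nat_lit 7628)))))))))) (.a (.p (nat_lit 622) (.a (.f (nat_lit 621) (nat_lit 654) (nat_lit 4621) (.f (nat_lit 652) (nat_lit 620) (nat_lit 5644) (.f (nat_lit 653) (nat_lit 684) (nat_lit 5676) (.d (nat_lit 524) (nat_lit 492) (nat_lit 7660) (nat_lit 556) (nat_lit 7692))))) (.a (.f (nat_lit 590) (nat_lit 493) (nat_lit 4589) (.d (nat_lit 654) (nat_lit 558) (nat_lit 7693) (nat_lit 686) (nat_lit 7725))) (.f (nat_lit 493) (nat_lit 590) (nat_lit 4589) (.f (nat_lit 460) (nat_lit 492) (nat_lit 7628) (.f (nat_lit 461) (nat_lit 428) (nat_lit 7596) (.f (nat_lit 430) (nat_lit 462) (nat_lit 6573) (.f (nat_lit 429) (nat_lit 398) (nat_lit 6541) (.f (nat_lit 558) (nat_lit 526) (nat_lit 4525) (.d (nat_lit 524) (nat_lit 556) (nat_lit 5548) (nat_lit 559) (nat_lit 3596))))))))))) (.a (.p (nat_lit 622) (.a (.f (nat_lit 590) (nat_lit 493) (nat_lit 4589) (.d (nat_lit 654) (nat_lit 558) (nat_lit 7693) (nat_lit 686) (nat_lit 7725))) (.a (.f (nat_lit 621) (nat_lit 654) (nat_lit 4621) (.f (nat_lit 493) (nat_lit 590) (nat_lit 4589) (.d (nat_lit 492) (nat_lit 460) (nat_lit 7628) (nat_lit 524) (nat_lit 7660)))) (.a (.f (nat_lit 621) (nat_lit 654) (nat_lit 4621) (.f (nat_lit 524) (nat_lit 492) (nat_lit 7660) (.f (nat_lit 558) (nat_lit 559) (nat_lit 3596) (.d (nat_lit 653) (nat_lit 526) (nat_lit 6669) (nat_lit 556) (nat_lit 7692))))) (.f (nat_lit 493) (nat_lit 590) (nat_lit 4589) (.f (nat_lit 460) (nat_lit 492) (nat_lit 7628) (.f (nat_lit 461) (nat_lit 428) (nat_lit 7596) (.f (nat_lit 430) (nat_lit 462) (nat_lit 6573) (.f (nat_lit 429) (nat_lit 398) (nat_lit 6541) (.f (nat_lit 558) (nat_lit 526) (nat_lit 4525) (.d (nat_lit 524) (nat_lit 556) (nat_lit 5548) (nat_lit 559) (nat_lit 3596)))))))))))) (.a (.p (nat_lit 622) (.a (.f (nat_lit 621) (nat_lit 654) (nat_lit 4621) (.f (nat_lit 493) (nat_lit 590) (nat_lit 4589) (.d (nat_lit 620) (nat_lit 588) (nat_lit 5612) (nat_lit 652) (nat_lit 5644)))) (.a (.f (nat_lit 621) (nat_lit 654) (nat_lit 4621) (.f (nat_lit 620) (nat_lit 652) (nat_lit 5644) (.f (nat_lit 588) (nat_lit 493) (nat_lit 5612) (.d (nat_lit 623) (nat_lit 587) (nat_lit 3659) (nat_lit 624) (nat_lit 3660))))) (.a (.f (nat_lit 621) (nat_lit 654) (nat_lit 4621) (.f (nat_lit 620) (nat_lit 652) (nat_lit 5644) (.f (nat_lit 524) (nat_lit 492) (nat_lit 7660) (.f (nat_lit 558) (nat_lit 559) (nat_lit 3596) (.f (nat_lit 653) (nat_lit 526) (nat_lit 6669) (.f (nat_lit 685) (nat_lit 590) (nat_lit 6701) (.f (nat_lit 588) (nat_lit 717) (nat_lit 7756) (.d (nat_lit 623) (nat_lit 587) (nat_lit 3659) (nat_lit 624) (nat_lit 3660))))))))) (.a (.f (nat_lit 590) (nat_lit 493) (nat_lit 4589) (.d (nat_lit 654) (nat_lit 558) (nat_lit 7693) (nat_lit 686) (nat_lit 7725))) (.f (nat_lit 493) (nat_lit 590) (nat_lit 4589) (.f (nat_lit 588) (nat_lit 620) (nat_lit 5612) (.f (nat_lit 558) (nat_lit 559) (nat_lit 1580) (.f (nat_lit 492) (nat_lit 460) (nat_lit 7628) (.f (nat_lit 621) (nat_lit 524) (nat_lit 7660) (.f (nat_lit 624) (nat_lit 623) (nat_lit 3660) (.f (nat_lit 653) (nat_lit 526) (nat_lit 6669) (.f (nat_lit 684) (nat_lit 652) (nat_lit 5676) (.f (nat_lit 685) (nat_lit 716) (nat_lit 5708) (.f (nat_lit 718) (nat_lit 686) (nat_lit 4685) (.f (nat_lit 717) (nat_lit 750) (nat_lit 4717) (.f (nat_lit 657) (nat_lit 625) (nat_lit 4624) (.f (nat_lit 656) (nat_lit 689) (nat_lit 4656) (.f (nat_lit 719) (nat_lit 720) (nat_lit 3756) (.d (nat_lit 687) (nat_lit 655) (nat_lit 5679) (nat_lit 688) (nat_lit 5711))))))))))))))))))))) (.p (nat_lit 622) (.a (.f (nat_lit 621) (nat_lit 654) (nat_lit 4621) (.f (nat_lit 493) (nat_lit 590) (nat_lit 4589) (.d (nat_lit 620) (nat_lit 588) (nat_lit 5612) (nat_lit 652) (nat_lit 5644)))) (.a (.f (nat_lit 621) (nat_lit 654) (nat_lit 4621) (.f (nat_lit 620) (nat_lit 652) (nat_lit 5644) (.f (nat_lit 588) (nat_lit 493) (nat_lit 5612) (.d (nat_lit 623) (nat_lit 587) (nat_lit 3659) (nat_lit 624) (nat_lit 3660))))) (.a (.f (nat_lit 621) (nat_lit 654) (nat_lit 4621) (.f (nat_lit 652) (nat_lit 620) (nat_lit 5644) (.f (nat_lit 653) (nat_lit 684) (nat_lit 5676) (.f (nat_lit 558) (nat_lit 526) (nat_lit 6669) (.f (nat_lit 685) (nat_lit 590) (nat_lit 6701) (.d (nat_lit 588) (nat_lit 556) (nat_lit 7724) (nat_lit 559) (nat_lit 1580))))))) (.a (.f (nat_lit 590) (nat_lit 493) (nat_lit 4589) (.d (nat_lit 654) (nat_lit 558) (nat_lit 7693) (nat_lit 686) (nat_lit 7725))) (.f (nat_lit 493) (nat_lit 590) (nat_lit 4589) (.f (nat_lit 588) (nat_lit 620) (nat_lit 5612) (.f (nat_lit 558) (nat_lit 559) (nat_lit 1580) (.f (nat_lit 461) (nat_lit 556) (nat_lit 5580) (.f (nat_lit 429) (nat_lit 526) (nat_lit 4525) (.d (nat_lit 430) (nat_lit 398) (nat_lit 6541) (nat_lit 462) (nat_lit 6573))))))))))))))))))))))) (.a (.p (nat_lit 557) (.a (.f (nat_lit 623) (nat_lit 591) (nat_lit 5615) (.f (nat_lit 624) (nat_lit 655) (nat_lit 5647) (.f (nat_lit 657) (nat_lit 625) (nat_lit 4624) (.f (nat_lit 656) (nat_lit 689) (nat_lit 4656) (.f (nat_lit 621) (nat_lit 622) (nat_lit 621) (.f (nat_lit 524) (nat_lit 492) (nat_lit 7660) (.f (nat_lit 558) (nat_lit 559) (nat_lit 3596) (.d (nat_lit 653) (nat_lit 526) (nat_lit 6669) (nat_lit 556) (nat_lit 7692))))))))) (.a s37933 (.a (.f (nat_lit 623) (nat_lit 591) (nat_lit 5615) (.f (nat_lit 624) (nat_lit 655) (nat_lit 5647) (.f (nat_lit 657) (nat_lit 625) (nat_lit 4624) (.f (nat_lit 656) (nat_lit 689) (nat_lit 4656) (.f (nat_lit 621) (nat_lit 622) (nat_lit 621) (.f (nat_lit 524) (nat_lit 492) (nat_lit 7660) (.f (nat_lit 653) (nat_lit 556) (nat_lit 7692) (.d (nat_lit 652) (nat_lit 620) (nat_lit 5644) (nat_lit 684) (nat_lit 5676))))))))) (.a s37887 (.a (.f (nat_lit 623) (nat_lit 591) (nat_lit 5615) (.f (nat_lit 624) (nat_lit 655) (nat_lit 5647) (.f (nat_lit 657) (nat_lit 625) (nat_lit 4624) (.f (nat_lit 656) (nat_lit 689) (nat_lit 4656) (.f (nat_lit 621) (nat_lit 622) (nat_lit 621) (.f (nat_lit 620) (nat_lit 652) (nat_lit 5644) (.f (nat_lit 588) (nat_lit 493) (nat_lit 5612) (.f (nat_lit 558) (nat_lit 559) (nat_lit 1580) (.f (nat_lit 653) (nat_lit 526) (nat_lit 6669) (.d (nat_lit 685) (nat_lit 556) (nat_lit 7724) (nat_lit 717) (nat_lit 7756))))))))))) (.f (nat_lit 623) (nat_lit 591) (nat_lit 5615) (.f (nat_lit 624) (nat_lit 655) (nat_lit 5647) (.f (nat_lit 657) (nat_lit 625) (nat_lit 4624) (.f (nat_lit 656) (nat_lit 689) (nat_lit 4656) (.f (nat_lit 621) (nat_lit 622) (nat_lit 621) (.f (nat_lit 524) (nat_lit 492) (nat_lit 7660) (.f (nat_lit 558) (nat_lit 559) (nat_lit 3596) (.f (nat_lit 653) (nat_lit 526) (nat_lit 6669) (.d (nat_lit 652) (nat_lit 620) (nat_lit 5644) (nat_lit 684) (nat_lit 5676)))))))))))))))) (.a (.f (nat_lit 591) (nat_lit 623) (nat_lit 5615) (.f (nat_lit 590) (nat_lit 561) (nat_lit 2605) (.f (nat_lit 557) (nat_lit 556) (nat_lit 3628) (.f (nat_lit 621) (nat_lit 620) (nat_lit 1612) (.f (nat_lit 559) (nat_lit 588) (nat_lit 2604) (.d (nat_lit 524) (nat_lit 492) (nat_lit 7660) (nat_lit 558) (nat_lit 3596))))))) (.f (nat_lit 591) (nat_lit 623) (nat_lit 5615) (.f (nat_lit 590) (nat_lit 561) (nat_lit 2605) (.f (nat_lit 557) (nat_lit 556) (nat_lit 3628) (.f (nat_lit 493) (nat_lit 622) (nat_lit 4589) (.d (nat_lit 588) (nat_lit 559) (nat_lit 2604) (nat_lit 620) (nat_lit 5612))))))))))))) (.a (.p (nat_lit 624) (.a (.d (nat_lit 623) (nat_lit 591) (nat_lit 5615) (nat_lit 655) (nat_lit 5647)) (.a (.f (nat_lit 657) (nat_lit 625) (nat_lit 4624) (.f (nat_lit 656) (nat_lit 689) (nat_lit 4656) (.f (nat_lit 687) (nat_lit 655) (nat_lit 5679) (.f (nat_lit 688) (nat_lit 719) (nat_lit 5711) (.f (nat_lit 497) (nat_lit 465) (nat_lit 6608) (.f (nat_lit 495) (nat_lit 463) (nat_lit 7631) (.f (nat_lit 559) (nat_lit 591) (nat_lit 7727) (.f (nat_lit 526) (nat_lit 494) (nat_lit 1517) (.f (nat_lit 558) (nat_lit 561) (nat_lit 3597) (.d (nat_lit 524) (nat_lit 523) (nat_lit 523) (nat_lit 557) (nat_lit 3596))))))))))) (.a (.f (nat_lit 591) (nat_lit 623) (nat_lit 5615) (.f (nat_lit 657) (nat_lit 625) (nat_lit 4624) (.f (nat_lit 656) (nat_lit 689) (nat_lit 4656) (.f (nat_lit 559) (nat_lit 688) (nat_lit 7727) (.f (nat_lit 497) (nat_lit 465) (nat_lit 6608) (.f (nat_lit 495) (nat_lit 463) (nat_lit 7631) (.f (nat_lit 526) (nat_lit 494) (nat_lit 1517) (.f (nat_lit 561) (nat_lit 558) (nat_lit 3597) (.d (nat_lit 590) (nat_lit 562) (nat_lit 1582) (nat_lit 589) (nat_lit 2605)))))))))) (.f (nat_lit 657) (nat_lit 625) (nat_lit 4624) (.f (nat_lit 656) (nat_lit 689) (nat_lit 4656) (.d (nat_lit 655) (nat_lit 623) (nat_lit 5647) (nat_lit 687) (nat_lit 5679)))))))) (.a (.p (nat_lit 557) (.a s37322 (.a (.p (nat_lit 493) (.a (.f (nat_lit 495) (nat_lit 463) (nat_lit 7631) (.f (nat_lit 494) (nat_lit 524) (nat_lit 1516) (.f (nat_lit 461) (nat_lit 460) (nat_lit 3532) (.d (nat_lit 462) (nat_lit 430) (nat_lit 6573) (nat_lit 589) (nat_lit 6605))))) (.a s38125 (.a (.p (nat_lit 589) (.a (.f (nat_lit 590) (nat_lit 622) (nat_lit 4589) (.d (nat_lit 591) (nat_lit 556) (nat_lit 3628) (nat_lit 561) (nat_lit 2605))) (.a (.f (nat_lit 590) (nat_lit 622) (nat_lit 4589) (.f (nat_lit 556) (nat_lit 591) (nat_lit 3628) (.d (nat_lit 588) (nat_lit 461) (nat_lit 5580) (nat_lit 620) (nat_lit 5612)))) (.a (.f (nat_lit 588) (nat_lit 620) (nat_lit 5612) (.f (nat_lit 461) (nat_lit 556) (nat_lit 5580) (.d (nat_lit 460) (nat_lit 428) (nat_lit 7596) (nat_lit 492) (nat_lit 7628)))) (.f (nat_lit 622) (nat_lit 590) (nat_lit 4589) (.f (nat_lit 621) (nat_lit 654) (nat_lit 4621) (.d (nat_lit 492) (nat_lit 460) (nat_lit 7628) (nat_lit 524) (nat_lit 7660)))))))) (.a (.f (nat_lit 495) (nat_lit 463) (nat_lit 7631) (.f (nat_lit 494) (nat_lit 524) (nat_lit 1516) (.f (nat_lit 461) (nat_lit 460) (nat_lit 3532) (.d (nat_lit 497) (nat_lit 462) (nat_lit 3533) (nat_lit 465) (nat_lit 6608))))) (.a (.f (nat_lit 495) (nat_lit 463) (nat_lit 7631) (.f (nat_lit 494) (nat_lit 524) (nat_lit 1516) (.f (nat_lit 589) (nat_lit 462) (nat_lit 6605) (.f (nat_lit 590) (nat_lit 622) (nat_lit 4589) (.d (nat_lit 591) (nat_lit 556) (nat_lit 3628) (nat_lit 561) (nat_lit 2605)))))) (.p (nat_lit 494) (.a (.f (nat_lit 589) (nat_lit 462) (nat_lit 6605) (.f (nat_lit 588) (nat_lit 620) (nat_lit 5612) (.f (nat_lit 461) (nat_lit 556) (nat_lit 5580) (.d (nat_lit 590) (nat_lit 558) (nat_lit 4557) (nat_lit 622) (nat_lit 4589))))) (.a (.f (nat_lit 462) (nat_lit 589) (nat_lit 6605) (.d (nat_lit 430) (nat_lit 398) (nat_lit 5517) (nat_lit 461) (nat_lit 6573))) (.a (.f (nat_lit 495) (nat_lit 463) (nat_lit 7631) (.f (nat_lit 461) (nat_lit 460) (nat_lit 3532) (.f (nat_lit 590) (nat_lit 558) (nat_lit 4557) (.f (nat_lit 589) (nat_lit 622) (nat_lit 4589) (.d (nat_lit 556) (nat_lit 588) (nat_lit 5580) (nat_lit 591) (nat_lit 3628)))))) (.a (.f (nat_lit 495) (nat_lit 463) (nat_lit 7631) (.f (nat_lit 461) (nat_lit 460) (nat_lit 3532) (.d (nat_lit 497) (nat_lit 462) (nat_lit 3533) (nat_lit 465) (nat_lit 6608)))) (.f (nat_lit 589) (nat_lit 462) (nat_lit 6605) (.f (nat_lit 590) (nat_lit 622) (nat_lit 4589) (.d (nat_lit 591) (nat_lit 556) (nat_lit 3628) (nat_lit 561) (nat_lit 2605))))))))))))))) (.a (.p (nat_lit 558) (.a (.f (nat_lit 559) (nat_lit 524) (nat_lit 3596) (.d (nat_lit 591) (nat_lit 556) (nat_lit 556) (nat_lit 623) (nat_lit 5615))) (.a (.f (nat_lit 559) (nat_lit 524) (nat_lit 3596) (.f (nat_lit 556) (nat_lit 591) (nat_lit 556) (.d (nat_lit 588) (nat_lit 587) (nat_lit 1579) (nat_lit 589) (nat_lit 1580)))) (.a (.f (nat_lit 623) (nat_lit 591) (nat_lit 5615) (.f (nat_lit 624) (nat_lit 655) (nat_lit 5647) (.f (nat_lit 657) (nat_lit 625) (nat_lit 4624) (.f (nat_lit 656) (nat_lit 689) (nat_lit 4656) (.f (nat_lit 622) (nat_lit 621) (nat_lit 621) (.f (nat_lit 590) (nat_lit 654) (nat_lit 7693) (.d (nat_lit 493) (nat_lit 461) (nat_lit 4557) (nat_lit 589) (nat_lit 4589)))))))) (.f (nat_lit 559) (nat_lit 524) (nat_lit 3596) (.f (nat_lit 589) (nat_lit 588) (nat_lit 1580) (.f (nat_lit 590) (nat_lit 561) (nat_lit 1581) (.d (nat_lit 493) (nat_lit 461) (nat_lit 4557) (nat_lit 622) (nat_lit 4589))))))))) (.a (.p (nat_lit 493) (.a (.f (nat_lit 495) (nat_lit 463) (nat_lit 7631) (.f (nat_lit 494) (nat_lit 524) (nat_lit 1516) (.f (nat_lit 461) (nat_lit 460) (nat_lit 3532) (.d (nat_lit 462) (nat_lit 430) (nat_lit 6573) (nat_lit 589) (nat_lit 6605))))) (.a (.f (nat_lit 623) (nat_lit 591) (nat_lit 5615) (.f (nat_lit 624) (nat_lit 655) (nat_lit 5647) (.f (nat_lit 657) (nat_lit 625) (nat_lit 4624) (.f (nat_lit 656) (nat_lit 689) (nat_lit 4656) (.f (nat_lit 622) (nat_lit 621) (nat_lit 621) (.f (nat_lit 589) (nat_lit 590) (nat_lit 4589) (.f (nat_lit 588) (nat_lit 620) (nat_lit 5612) (.f (nat_lit 461) (nat_lit 556) (nat_lit 5580) (.d (nat_lit 460) (nat_lit 428) (nat_lit 7596) (nat_lit 492) (nat_lit 7628)))))))))) (.a (.f (nat_lit 495) (nat_lit 463) (nat_lit 7631) (.f (nat_lit 494) (nat_lit 524) (nat_lit 1516) (.f (nat_lit 461) (nat_lit 460) (nat_lit 3532) (.d (nat_lit 497) (nat_lit 462) (nat_lit 3533) (nat_lit 465) (nat_lit 6608))))) (.f (nat_lit 495) (nat_lit 463) (nat_lit 7631) (.f (nat_lit 494) (nat_lit 524) (nat_lit 1516) (.f (nat_lit 589) (nat_lit 462) (nat_lit 6605) (.f (nat_lit 590) (nat_lit 622) (nat_lit 4589) (.d (nat_lit 591) (nat_lit 556) (nat_lit 3628) (nat_lit 561) (nat_lit 2605)))))))))) (.a (.p (nat_lit 493) (.a (.f (nat_lit 495) (nat_lit 463) (nat_lit 7631) (.f (nat_lit 494) (nat_lit 524) (nat_lit 1516) (.f (nat_lit 461) (nat_lit 460) (nat_lit 3532) (.d (nat_lit 462) (nat_lit 430) (nat_lit 6573) (nat_lit 589) (nat_lit 6605))))) (.a s38125 (.a (.p (nat_lit 589) (.a (.f (nat_lit 588) (nat_lit 620) (nat_lit 5612) (.f (nat_lit 461) (nat_lit 556) (nat_lit 5580) (.d (nat_lit 460) (nat_lit 428) (nat_lit 7596) (nat_lit 492) (nat_lit 7628)))) (.a (.f (nat_lit 622) (nat_lit 590) (nat_lit 4589) (.f (nat_lit 621) (nat_lit 654) (nat_lit 4621) (.d (nat_lit 492) (nat_lit 460) (nat_lit 7628) (nat_lit 524) (nat_lit 7660)))) (.a (.f (nat_lit 588) (nat_lit 620) (nat_lit 5612) (.f (nat_lit 556) (nat_lit 461) (nat_lit 5580) (.f (nat_lit 622) (nat_lit 590) (nat_lit 4589) (.f (nat_lit 621) (nat_lit 654) (nat_lit 4621) (.d (nat_lit 524) (nat_lit 492) (nat_lit 4588) (nat_lit 653) (nat_lit 7692)))))) (.f (nat_lit 588) (nat_lit 620) (nat_lit 5612) (.f (nat_lit 461) (nat_lit 556) (nat_lit 5580) (.f (nat_lit 428) (nat_lit 460) (nat_lit 7596) (.f (nat_lit 429) (nat_lit 396) (nat_lit 7564) (.d (nat_lit 430) (nat_lit 398) (nat_lit 6541) (nat_lit 462) (nat_lit 6573)))))))))) (.a (.f (nat_lit 495) (nat_lit 463) (nat_lit 7631) (.f (nat_lit 494) (nat_lit 524) (nat_lit 1516) (.f (nat_lit 461) (nat_lit 460) (nat_lit 3532) (.d (nat_lit 497) (nat_lit 462) (nat_lit 3533) (nat_lit 465) (nat_lit 6608))))) (.a (.f (nat_lit 495) (nat_lit 463) (nat_lit 7631) (.f (nat_lit 494) (nat_lit 524) (nat_lit 1516) (.f (nat_lit 589) (nat_lit 462) (nat_lit 6605) (.f (nat_lit 588) (nat_lit 620) (nat_lit 5612) (.f (nat_lit 622) (nat_lit 590) (nat_lit 4589) (.f (nat_lit 621) (nat_lit 654) (nat_lit 4621) (.f (nat_lit 624) (nat_lit 623) (nat_lit 3660) (.f (nat_lit 657) (nat_lit 625) (nat_lit 4624) (.f (nat_lit 656) (nat_lit 689) (nat_lit 4656) (.f (nat_lit 687) (nat_lit 655) (nat_lit 5679) (.f (nat_lit 688) (nat_lit 719) (nat_lit 5711) (.f (nat_lit 685) (nat_lit 686) (nat_lit 2701) (.f (nat_lit 653) (nat_lit 556) (nat_lit 7724) (.d (nat_lit 684) (nat_lit 652) (nat_lit 5676) (nat_lit 716) (nat_lit 5708))))))))))))))) (.p (nat_lit 494) (.a (.f (nat_lit 589) (nat_lit 462) (nat_lit 6605) (.f (nat_lit 588) (nat_lit 620) (nat_lit 5612) (.f (nat_lit 461) (nat_lit 556) (nat_lit 5580) (.d (nat_lit 590) (nat_lit 558) (nat_lit 4557) (nat_lit 622) (nat_lit 4589))))) (.a (.f (nat_lit 462) (nat_lit 589) (nat_lit 6605) (.d (nat_lit 430) (nat_lit 398) (nat_lit 5517) (nat_lit 461) (nat_lit 6573))) (.a (.f (nat_lit 495) (nat_lit 463) (nat_lit 7631) (.f (nat_lit 461) (nat_lit 460) (nat_lit 3532) (.f (nat_lit 588) (nat_lit 556) (nat_lit 5580) (.f (nat_lit 589) (nat_lit 620) (nat_lit 5612) (.d (nat_lit 590) (nat_lit 558) (nat_lit 4557) (nat_lit 622) (nat_lit 4589)))))) (.a (.f (nat_lit 495) (nat_lit 463) (nat_lit 7631) (.f (nat_lit 461) (nat_lit 460) (nat_lit 3532) (.d (nat_lit 497) (nat_lit 462) (nat_lit 3533) (nat_lit 465) (nat_lit 6608)))) (.f (nat_lit 589) (nat_lit 462) (nat_lit 6605) (.f (nat_lit 588) (nat_lit 620) (nat_lit 5612) (.f (nat_lit 622) (nat_lit 590) (nat_lit 4589) (.f (nat_lit 621) (nat_lit 654) (nat_lit 4621) (.f (nat_lit 624) (nat_lit 623) (nat_lit 3660) (.f (nat_lit 657) (nat_lit 625) (nat_lit 4624) (.f (nat_lit 656) (nat_lit 689) (nat_lit 4656) (.f (nat_lit 687) (nat_lit 655) (nat_lit 5679) (.f (nat_lit 688) (nat_lit 719) (nat_lit 5711) (.f (nat_lit 685) (nat_lit 686) (nat_lit 2701) (.f (nat_lit 653) (nat_lit 556) (nat_lit 7724) (.d (nat_lit 684) (nat_lit 652) (nat_lit 5676) (nat_lit 716) (nat_lit 5708)))))))))))))))))))))))) (.a (.p (nat_lit 493) (.a (.f (nat_lit 495) (nat_lit 463) (nat_lit 7631) (.f (nat_lit 494) (nat_lit 524) (nat_lit 1516) (.f (nat_lit 461) (nat_lit 460) (nat_lit 3532) (.d (nat_lit 462) (nat_lit 430) (nat_lit 6573) (nat_lit 589) (nat_lit 6605))))) (.a (.p (nat_lit 589) (.a (.f (nat_lit 588) (nat_lit 620) (nat_lit 5612) (.f (nat_lit 461) (nat_lit 556) (nat_lit 5580) (.d (nat_lit 460) (nat_lit 428) (nat_lit 7596) (nat_lit 492) (nat_lit 7628)))) (.a (.f (nat_lit 492) (nat_lit 460) (nat_lit 7628) (.f (nat_lit 621) (nat_lit 524) (nat_lit 7660) (.f (nat_lit 652) (nat_lit 620) (nat_lit 5644) (.f (nat_lit 653) (nat_lit 684) (nat_lit 5676) (.d (nat_lit 654) (nat_lit 622) (nat_lit 4621) (nat_lit 686) (nat_lit 4653)))))) (.a (.f (nat_lit 588) (nat_lit 620) (nat_lit 5612) (.f (nat_lit 556) (nat_lit 461) (nat_lit 5580) (.f (nat_lit 623) (nat_lit 591) (nat_lit 5615) (.f (nat_lit 624) (nat_lit 655) (nat_lit 5647) (.f (nat_lit 621) (nat_lit 622) (nat_lit 3660) (.d (nat_lit 653) (nat_lit 524) (nat_lit 7692) (nat_lit 685) (nat_lit 7724))))))) (.f (nat_lit 492) (nat_lit 460) (nat_lit 7628) (.f (nat_lit 621) (nat_lit 524) (nat_lit 7660) (.f (nat_lit 623) (nat_lit 591) (nat_lit 5615) (.f (nat_lit 624) (nat_lit 655) (nat_lit 5647) (.d (nat_lit 622) (nat_lit 588) (nat_lit 3660) (nat_lit 654) (nat_lit 4621)))))))))) (.a (.f (nat_lit 495) (nat_lit 463) (nat_lit 7631) (.f (nat_lit 494) (nat_lit 524) (nat_lit 1516) (.f (nat_lit 461) (nat_lit 460) (nat_lit 3532) (.d (nat_lit 497) (nat_lit 462) (nat_lit 3533) (nat_lit 465) (nat_lit 6608))))) (.a (.f (nat_lit 623) (nat_lit 591) (nat_lit 5615) (.f (nat_lit 624) (nat_lit 655) (nat_lit 5647) (.f (nat_lit 657) (nat_lit 625) (nat_lit 4624) (.f (nat_lit 656) (nat_lit 689) (nat_lit 4656) (.f (nat_lit 621) (nat_lit 622) (nat_lit 621) (.f (nat_lit 495) (nat_lit 463) (nat_lit 7631) (.f (nat_lit 524) (nat_lit 494) (nat_lit 1516) (.f (nat_lit 589) (nat_lit 492) (nat_lit 7660) (.d (nat_lit 620) (nat_lit 588) (nat_lit 5612) (nat_lit 652) (nat_lit 5644)))))))))) (.p (nat_lit 494) (.a (.f (nat_lit 462) (nat_lit 589) (nat_lit 6605) (.d (nat_lit 430) (nat_lit 398) (nat_lit 5517) (nat_lit 461) (nat_lit 6573))) (.a (.f (nat_lit 495) (nat_lit 463) (nat_lit 7631) (.f (nat_lit 460) (nat_lit 461) (nat_lit 3532) (.d (nat_lit 492) (nat_lit 459) (nat_lit 3531) (nat_lit 589) (nat_lit 7628)))) (.a (.f (nat_lit 495) (nat_lit 463) (nat_lit 7631) (.f (nat_lit 461) (nat_lit 460) (nat_lit 3532) (.d (nat_lit 497) (nat_lit 462) (nat_lit 3533) (nat_lit 465) (nat_lit 6608)))) (.f (nat_lit 589) (nat_lit 462) (nat_lit 6605) (.f (nat_lit 623) (nat_lit 591) (nat_lit 5615) (.f (nat_lit 624) (nat_lit 655) (nat_lit 5647) (.f (nat_lit 657) (nat_lit 625) (nat_lit 4624) (.f (nat_lit 656) (nat_lit 689) (nat_lit 4656) (.f (nat_lit 621) (nat_lit 622) (nat_lit 621) (.d (nat_lit 620) (nat_lit 588) (nat_lit 5612) (nat_lit 652) (nat_lit 5644))))))))))))))))) (.a (.p (nat_lit 624) (.a (.d (nat_lit 623) (nat_lit 591) (nat_lit 5615) (nat_lit 655) (nat_lit 5647)) (.a (.p (nat_lit 559) (.a (.f (nat_lit 558) (nat_lit 524) (nat_lit 3596) (.f (nat_lit 556) (nat_lit 591) (nat_lit 556) (.d (nat_lit 588) (nat_lit 587) (nat_lit 1579) (nat_lit 589) (nat_lit 1580)))) (.a (.f (nat_lit 657) (nat_lit 625) (nat_lit 4624) (.f (nat_lit 656) (nat_lit 689) (nat_lit 4656) (.f (nat_lit 687) (nat_lit 655) (nat_lit 5679) (.d (nat_lit 688) (nat_lit 591) (nat_lit 7727) (nat_lit 719) (nat_lit 5711))))) (.f (nat_lit 558) (nat_lit 524) (nat_lit 3596) (.f (nat_lit 589) (nat_lit 588) (nat_lit 1580) (.f (nat_lit 590) (nat_lit 561) (nat_lit 1581) (.f (nat_lit 654) (nat_lit 622) (nat_lit 7693) (.f (nat_lit 657) (nat_lit 625) (nat_lit 4624) (.f (nat_lit 656) (nat_lit 689) (nat_lit 4656) (.f (nat_lit 655) (nat_lit 687) (nat_lit 5679) (.f (nat_lit 685) (nat_lit 686) (nat_lit 1677) (.d (nat_lit 653) (nat_lit 621) (nat_lit 6701) (nat_lit 684) (nat_lit 1676))))))))))))) (.a (.f (nat_lit 591) (nat_lit 623) (nat_lit 5615) (.f (nat_lit 657) (nat_lit 625) (nat_lit 4624) (.f (nat_lit 656) (nat_lit 689) (nat_lit 4656) (.f (nat_lit 559) (nat_lit 688) (nat_lit 7727) (.d (nat_lit 558) (nat_lit 524) (nat_lit 3596) (nat_lit 556) (nat_lit 556)))))) (.f (nat_lit 657) (nat_lit 625) (nat_lit 4624) (.f (nat_lit 656) (nat_lit 689) (nat_lit 4656) (.d (nat_lit 655) (nat_lit 623) (nat_lit 5647) (nat_lit 687) (nat_lit 5679)))))))) (.a (.p (nat_lit 558) (.a (.f (nat_lit 559) (nat_lit 524) (nat_lit 3596) (.d (nat_lit 591) (nat_lit 556) (nat_lit 556) (nat_lit 623) (nat_lit 5615))) (.a (.f (nat_lit 559) (nat_lit 524) (nat_lit 3596) (.f (nat_lit 556) (nat_lit 591) (nat_lit 556) (.d (nat_lit 588) (nat_lit 587) (nat_lit 1579) (nat_lit 589) (nat_lit 1580)))) (.a (.p (nat_lit 493) (.a (.f (nat_lit 495) (nat_lit 463) (nat_lit 7631) (.f (nat_lit 494) (nat_lit 524) (nat_lit 1516) (.f (nat_lit 461) (nat_lit 460) (nat_lit 3532) (.d (nat_lit 462) (nat_lit 430) (nat_lit 6573) (nat_lit 589) (nat_lit 6605))))) (.a (.f (nat_lit 461) (nat_lit 590) (nat_lit 4557) (.f (nat_lit 556) (nat_lit 588) (nat_lit 5580) (.f (nat_lit 524) (nat_lit 429) (nat_lit 5548) (.f (nat_lit 460) (nat_lit 428) (nat_lit 7596) (.f (nat_lit 492) (nat_lit 589) (nat_lit 4556) (.f (nat_lit 459) (nat_lit 427) (nat_lit 7595) (.d (nat_lit 458) (nat_lit 457) (nat_lit 457) (nat_lit 494) (nat_lit 458)))))))) (.a (.f (nat_lit 461) (nat_lit 590) (nat_lit 4557) (.f (nat_lit 556) (nat_lit 588) (nat_lit 5580) (.f (nat_lit 524) (nat_lit 429) (nat_lit 5548) (.f (nat_lit 460) (nat_lit 428) (nat_lit 7596) (.f (nat_lit 492) (nat_lit 589) (nat_lit 4556) (.f (nat_lit 462) (nat_lit 430) (nat_lit 6573) (.d (nat_lit 463) (nat_lit 491) (nat_lit 1483) (nat_lit 495) (nat_lit 7631)))))))) (.a (.f (nat_lit 461) (nat_lit 590) (nat_lit 4557) (.f (nat_lit 495) (nat_lit 463) (nat_lit 7631) (.d (nat_lit 460) (nat_lit 428) (nat_lit 7596) (nat_lit 494) (nat_lit 3532)))) (.f (nat_lit 591) (nat_lit 623) (nat_lit 5615) (.f (nat_lit 495) (nat_lit 463) (nat_lit 7631) (.f (nat_lit 494) (nat_lit 524) (nat_lit 1516) (.f (nat_lit 589) (nat_lit 462) (nat_lit 6605) (.d (nat_lit 590) (nat_lit 556) (nat_lit 3628) (nat_lit 561) (nat_lit 2605))))))))))) (.a (.f (nat_lit 524) (nat_lit 559) (nat_lit 3596) (.f (nat_lit 495) (nat_lit 463) (nat_lit 7631) (.f (nat_lit 493) (nat_lit 494) (nat_lit 1516) (.f (nat_lit 461) (nat_lit 590) (nat_lit 4557) (.d (nat_lit 556) (nat_lit 429) (nat_lit 5548) (nat_lit 588) (nat_lit 5580)))))) (.a (.f (nat_lit 591) (nat_lit 623) (nat_lit 5615) (.f (nat_lit 556) (nat_lit 559) (nat_lit 556) (.d (nat_lit 590) (nat_lit 555) (nat_lit 555) (nat_lit 589) (nat_lit 3628)))) (.f (nat_lit 524) (nat_lit 559) (nat_lit 3596) (.f (nat_lit 495) (nat_lit 463) (nat_lit 7631) (.f (nat_lit 493) (nat_lit 494) (nat_lit 1516) (.f (nat_lit 461) (nat_lit 590) (nat_lit 4557) (.f (nat_lit 460) (nat_lit 428) (nat_lit 7596) (.f (nat_lit 492) (nat_lit 589) (nat_lit 7628) (.f (nat_lit 429) (nat_lit 397) (nat_lit 5516) (.d (nat_lit 430) (nat_lit 398) (nat_lit 6541) (nat_lit 462) (nat_lit 6573))))))))))))))) (.a (.p (nat_lit 493) (.a (.f (nat_lit 495) (nat_lit 463) (nat_lit 7631) (.f (nat_lit 494) (nat_lit 524) (nat_lit 1516) (.f (nat_lit 461) (nat_lit 460) (nat_lit 3532) (.d (nat_lit 497) (nat_lit 462) (nat_lit 3533) (nat_lit 465) (nat_lit 6608))))) (.a (.f (nat_lit 495) (nat_lit 463) (nat_lit 7631) (.f (nat_lit 524) (nat_lit 494) (nat_lit 1516) (.f (nat_lit 558) (nat_lit 559) (nat_lit 3596) (.f (nat_lit 461) (nat_lit 590) (nat_lit 4557) (.d (nat_lit 556) (nat_lit 429) (nat_lit 5548) (nat_lit 588) (nat_lit 5580)))))) (.a (.p (nat_lit 558) (.a (.f (nat_lit 461) (nat_lit 590) (nat_lit 4557) (.f (nat_lit 524) (nat_lit 559) (nat_lit 3596) (.d (nat_lit 556) (nat_lit 429) (nat_lit 5548) (nat_lit 588) (nat_lit 5580)))) (.a (.f (nat_lit 461) (nat_lit 590) (nat_lit 4557) (.f (nat_lit 556) (nat_lit 588) (nat_lit 5580) (.f (nat_lit 524) (nat_lit 429) (nat_lit 5548) (.f (nat_lit 523) (nat_lit 522) (nat_lit 522) (.f (nat_lit 460) (nat_lit 428) (nat_lit 7596) (.f (nat_lit 494) (nat_lit 495) (nat_lit 1516) (.f (nat_lit 459) (nat_lit 458) (nat_lit 458) (.d (nat_lit 427) (nat_lit 491) (nat_lit 4523) (nat_lit 492) (nat_lit 7595))))))))) (.a (.f (nat_lit 559) (nat_lit 524) (nat_lit 3596) (.f (nat_lit 556) (nat_lit 591) (nat_lit 556) (.d (nat_lit 588) (nat_lit 461) (nat_lit 5580) (nat_lit 587) (nat_lit 1579)))) (.a (.f (nat_lit 559) (nat_lit 524) (nat_lit 3596) (.d (nat_lit 591) (nat_lit 556) (nat_lit 556) (nat_lit 623) (nat_lit 5615))) (.a (.f (nat_lit 461) (nat_lit 590) (nat_lit 4557) (.f (nat_lit 556) (nat_lit 588) (nat_lit 5580) (.d (nat_lit 591) (nat_lit 559) (nat_lit 556) (nat_lit 623) (nat_lit 5615)))) (.f (nat_lit 461) (nat_lit 590) (nat_lit 4557) (.f (nat_lit 524) (nat_lit 559) (nat_lit 3596) (.f (nat_lit 494) (nat_lit 495) (nat_lit 1516) (.f (nat_lit 460) (nat_lit 428) (nat_lit 7596) (.f (nat_lit 462) (nat_lit 430) (nat_lit 6573) (.f (nat_lit 459) (nat_lit 458) (nat_lit 458) (.f (nat_lit 491) (nat_lit 490) (nat_lit 1482) (.f (nat_lit 427) (nat_lit 426) (nat_lit 3498) (.f (nat_lit 395) (nat_lit 492) (nat_lit 4491) (.f (nat_lit 364) (nat_lit 396) (nat_lit 6507) (.f (nat_lit 363) (nat_lit 332) (nat_lit 6475) (.d (nat_lit 362) (nat_lit 330) (nat_lit 7498) (nat_lit 394) (nat_lit 7530))))))))))))))))))) (.a (.p (nat_lit 558) (.a (.f (nat_lit 461) (nat_lit 590) (nat_lit 4557) (.f (nat_lit 524) (nat_lit 559) (nat_lit 3596) (.d (nat_lit 556) (nat_lit 429) (nat_lit 5548) (nat_lit 588) (nat_lit 5580)))) (.a (.f (nat_lit 461) (nat_lit 590) (nat_lit 4557) (.f (nat_lit 556) (nat_lit 588) (nat_lit 5580) (.f (nat_lit 429) (nat_lit 524) (nat_lit 5548) (.d (nat_lit 430) (nat_lit 398) (nat_lit 6541) (nat_lit 462) (nat_lit 6573))))) (.a (.f (nat_lit 559) (nat_lit 524) (nat_lit 3596) (.f (nat_lit 556) (nat_lit 591) (nat_lit 556) (.d (nat_lit 588) (nat_lit 461) (nat_lit 5580) (nat_lit 587) (nat_lit 1579)))) (.a (.f (nat_lit 559) (nat_lit 524) (nat_lit 3596) (.d (nat_lit 591) (nat_lit 556) (nat_lit 556) (nat_lit 623) (nat_lit 5615))) (.a (.f (nat_lit 461) (nat_lit 590) (nat_lit 4557) (.f (nat_lit 556) (nat_lit 588) (nat_lit 5580) (.d (nat_lit 591) (nat_lit 559) (nat_lit 556) (nat_lit 623) (nat_lit 5615)))) (.f (nat_lit 461) (nat_lit 590) (nat_lit 4557) (.f (nat_lit 428) (nat_lit 460) (nat_lit 7596) (.f (nat_lit 429) (nat_lit 396) (nat_lit 7564) (.d (nat_lit 430) (nat_lit 398) (nat_lit 6541) (nat_lit 462) (nat_lit 6573))))))))))) (.a (.p (nat_lit 624) (.a (.f (nat_lit 657) (nat_lit 625) (nat_lit 4624) (.f (nat_lit 656) (nat_lit 689) (nat_lit 4656) (.f (nat_lit 687) (nat_lit 655) (nat_lit 5679) (.f (nat_lit 688) (nat_lit 719) (nat_lit 5711) (.f (nat_lit 559) (nat_lit 591) (nat_lit 7727) (.f (nat_lit 524) (nat_lit 558) (nat_lit 3596) (.d (nat_lit 495) (nat_lit 463) (nat_lit 7631) (nat_lit 494) (nat_lit 1516)))))))) (.a (.f (nat_lit 657) (nat_lit 625) (nat_lit 4624) (.f (nat_lit 656) (nat_lit 689) (nat_lit 4656) (.d (nat_lit 655) (nat_lit 623) (nat_lit 5647) (nat_lit 687) (nat_lit 5679)))) (.a (.d (nat_lit 623) (nat_lit 591) (nat_lit 5615) (nat_lit 655) (nat_lit 5647)) (.f (nat_lit 657) (nat_lit 625) (nat_lit 4624) (.f (nat_lit 656) (nat_lit 689) (nat_lit 4656) (.f (nat_lit 591) (nat_lit 623) (nat_lit 5615) (.f (nat_lit 559) (nat_lit 688) (nat_lit 7727) (.d (nat_lit 558) (nat_lit 524) (nat_lit 3596) (nat_lit 556) (nat_lit 556)))))))))) (.p (nat_lit 558) (.a (.f (nat_lit 461) (nat_lit 590) (nat_lit 4557) (.f (nat_lit 495) (nat_lit 463) (nat_lit 7631) (.d (nat_lit 460) (nat_lit 428) (nat_lit 7596) (nat_lit 494) (nat_lit 3532)))) (.a (.f (nat_lit 461) (nat_lit 590) (nat_lit 4557) (.f (nat_lit 556) (nat_lit 588) (nat_lit 5580) (.d (nat_lit 591) (nat_lit 559) (nat_lit 556) (nat_lit 623) (nat_lit 5615)))) (.a (.f (nat_lit 591) (nat_lit 623) (nat_lit 5615) (.f (nat_lit 556) (nat_lit 559) (nat_lit 556) (.f (nat_lit 461) (nat_lit 588) (nat_lit 5580) (.f (nat_lit 460) (nat_lit 428) (nat_lit 7596) (.d (nat_lit 495) (nat_lit 463) (nat_lit 7631) (nat_lit 494) (nat_lit 3532)))))) (.f (nat_lit 591) (nat_lit 623) (nat_lit 5615) (.f (nat_lit 556) (nat_lit 559) (nat_lit 556) (.f (nat_lit 555) (nat_lit 590) (nat_lit 555) (.f (nat_lit 586) (nat_lit 587) (nat_lit 1578) (.f (nat_lit 554) (nat_lit 585) (nat_lit 1577) (.d (nat_lit 522) (nat_lit 521) (nat_lit 3593) (nat_lit 523) (nat_lit 3594))))))))))))))))) (.a (.p (nat_lit 622) (.a (.f (nat_lit 623) (nat_lit 591) (nat_lit 5615) (.f (nat_lit 624) (nat_lit 655) (nat_lit 5647) (.f (nat_lit 625) (nat_lit 657) (nat_lit 4624) (.f (nat_lit 589) (nat_lit 590) (nat_lit 3661) (.d (nat_lit 621) (nat_lit 588) (nat_lit 3660) (nat_lit 654) (nat_lit 4621)))))) (.a (.p (nat_lit 589) (.a (.f (nat_lit 621) (nat_lit 654) (nat_lit 4621) (.f (nat_lit 590) (nat_lit 493) (nat_lit 4589) (.d (nat_lit 591) (nat_lit 556) (nat_lit 3628) (nat_lit 620) (nat_lit 1612)))) (.a (.f (nat_lit 621) (nat_lit 654) (nat_lit 4621) (.f (nat_lit 493) (nat_lit 590) (nat_lit 4589) (.d (nat_lit 620) (nat_lit 588) (nat_lit 5612) (nat_lit 652) (nat_lit 5644)))) (.a (.f (nat_lit 621) (nat_lit 654) (nat_lit 4621) (.f (nat_lit 620) (nat_lit 652) (nat_lit 5644) (.f (nat_lit 493) (nat_lit 588) (nat_lit 5612) (.f (nat_lit 460) (nat_lit 492) (nat_lit 7628) (.f (nat_lit 461) (nat_lit 428) (nat_lit 7596) (.d (nat_lit 462) (nat_lit 430) (nat_lit 6573) (nat_lit 494) (nat_lit 6605))))))) (.a (.f (nat_lit 654) (nat_lit 621) (nat_lit 4621) (.d (nat_lit 590) (nat_lit 558) (nat_lit 7693) (nat_lit 686) (nat_lit 7725))) (.f (nat_lit 493) (nat_lit 590) (nat_lit 4589) (.f (nat_lit 588) (nat_lit 620) (nat_lit 5612) (.f (nat_lit 461) (nat_lit 556) (nat_lit 5580) (.d (nat_lit 462) (nat_lit 430) (nat_lit 6573) (nat_lit 494) (nat_lit 6605)))))))))) (.a (.p (nat_lit 589) (.a (.f (nat_lit 621) (nat_lit 654) (nat_lit 4621) (.f (nat_lit 493) (nat_lit 590) (nat_lit 4589) (.d (nat_lit 620) (nat_lit 588) (nat_lit 5612) (nat_lit 652) (nat_lit 5644)))) (.a (.f (nat_lit 621) (nat_lit 654) (nat_lit 4621) (.f (nat_lit 620) (nat_lit 652) (nat_lit 5644) (.f (nat_lit 588) (nat_lit 493) (nat_lit 5612) (.d (nat_lit 623) (nat_lit 587) (nat_lit 3659) (nat_lit 624) (nat_lit 3660))))) (.a (.f (nat_lit 654) (nat_lit 621) (nat_lit 4621) (.d (nat_lit 590) (nat_lit 558) (nat_lit 7693) (nat_lit 686) (nat_lit 7725))) (.f (nat_lit 493) (nat_lit 590) (nat_lit 4589) (.f (nat_lit 588) (nat_lit 620) (nat_lit 5612) (.f (nat_lit 461) (nat_lit 556) (nat_lit 5580) (.d (nat_lit 462) (nat_lit 430) (nat_lit 6573) (nat_lit 494) (nat_lit 6605))))))))) (.a (.f (nat_lit 623) (nat_lit 591) (nat_lit 5615) (.f (nat_lit 624) (nat_lit 655) (nat_lit 5647) (.f (nat_lit 657) (nat_lit 625) (nat_lit 4624) (.d (nat_lit 656) (nat_lit 621) (nat_lit 621) (nat_lit 689) (nat_lit 4656))))) (.f (nat_lit 623) (nat_lit 591) (nat_lit 5615) (.f (nat_lit 624) (nat_lit 655) (nat_lit 5647) (.f (nat_lit 625) (nat_lit 657) (nat_lit 4624) (.f (nat_lit 590) (nat_lit 589) (nat_lit 3661) (.d (nat_lit 654) (nat_lit 558) (nat_lit 7693) (nat_lit 653) (nat_lit 1645))))))))))) (.a (.p (nat_lit 558) (.a (.f (nat_lit 559) (nat_lit 524) (nat_lit 3596) (.d (nat_lit 591) (nat_lit 556) (nat_lit 556) (nat_lit 623) (nat_lit 5615))) (.a (.f (nat_lit 524) (nat_lit 559) (nat_lit 3596) (.f (nat_lit 495) (nat_lit 463) (nat_lit 7631) (.f (nat_lit 493) (nat_lit 494) (nat_lit 1516) (.f (nat_lit 461) (nat_lit 590) (nat_lit 4557) (.f (nat_lit 460) (nat_lit 428) (nat_lit 7596) (.f (nat_lit 492) (nat_lit 589) (nat_lit 7628) (.f (nat_lit 429) (nat_lit 397) (nat_lit 5516) (.d (nat_lit 430) (nat_lit 398) (nat_lit 6541) (nat_lit 462) (nat_lit 6573))))))))) (.f (nat_lit 623) (nat_lit 591) (nat_lit 5615) (.f (nat_lit 624) (nat_lit 655) (nat_lit 5647) (.f (nat_lit 657) (nat_lit 625) (nat_lit 4624) (.f (nat_lit 656) (nat_lit 689) (nat_lit 4656) (.f (nat_lit 622) (nat_lit 621) (nat_lit 621) (.f (nat_lit 590) (nat_lit 654) (nat_lit 7693) (.d (nat_lit 493) (nat_lit 461) (nat_lit 4557) (nat_lit 589) (nat_lit 4589))))))))))) (.p (nat_lit 558) (.a (.f (nat_lit 623) (nat_lit 591) (nat_lit 5615) (.f (nat_lit 624) (nat_lit 655) (nat_lit 5647) (.f (nat_lit 657) (nat_lit 625) (nat_lit 4624) (.f (nat_lit 656) (nat_lit 689) (nat_lit 4656) (.f (nat_lit 622) (nat_lit 621) (nat_lit 621) (.f (nat_lit 590) (nat_lit 654) (nat_lit 7693) (.d (nat_lit 493) (nat_lit 461) (nat_lit 4557) (nat_lit 589) (nat_lit 4589)))))))) (.a (.f (nat_lit 559) (nat_lit 524) (nat_lit 3596) (.f (nat_lit 589) (nat_lit 588) (nat_lit 1580) (.f (nat_lit 590) (nat_lit 561) (nat_lit 1581) (.d (nat_lit 493) (nat_lit 461) (nat_lit 4557) (nat_lit 622) (nat_lit 4589))))) (.a (.f (nat_lit 524) (nat_lit 559) (nat_lit 3596) (.f (nat_lit 495) (nat_lit 463) (nat_lit 7631) (.f (nat_lit 493) (nat_lit 494) (nat_lit 1516) (.f (nat_lit 623) (nat_lit 591) (nat_lit 5615) (.f (nat_lit 624) (nat_lit 655) (nat_lit 5647) (.f (nat_lit 657) (nat_lit 625) (nat_lit 4624) (.f (nat_lit 656) (nat_lit 689) (nat_lit 4656) (.f (nat_lit 621) (nat_lit 622) (nat_lit 621) (.f (nat_lit 589) (nat_lit 492) (nat_lit 7660) (.d (nat_lit 620) (nat_lit 588) (nat_lit 5612) (nat_lit 652) (nat_lit 5644))))))))))) (.a (.f (nat_lit 559) (nat_lit 524) (nat_lit 3596) (.f (nat_lit 589) (nat_lit 588) (nat_lit 1580) (.f (nat_lit 591) (nat_lit 623) (nat_lit 5615) (.f (nat_lit 590) (nat_lit 561) (nat_lit 2605) (.f (nat_lit 621) (nat_lit 620) (nat_lit 1612) (.f (nat_lit 654) (nat_lit 622) (nat_lit 7693) (.d (nat_lit 653) (nat_lit 685) (nat_lit 6701) (nat_lit 686) (nat_lit 4653)))))))) (.a (.f (nat_lit 524) (nat_lit 559) (nat_lit 3596) (.f (nat_lit 495) (nat_lit 463) (nat_lit 7631) (.f (nat_lit 493) (nat_lit 494) (nat_lit 1516) (.f (nat_lit 461) (nat_lit 590) (nat_lit 4557) (.f (nat_lit 460) (nat_lit 428) (nat_lit 7596) (.f (nat_lit 492) (nat_lit 589) (nat_lit 7628) (.f (nat_lit 429) (nat_lit 397) (nat_lit 5516) (.d (nat_lit 430) (nat_lit 398) (nat_lit 6541) (nat_lit 462) (nat_lit 6573))))))))) (.f (nat_lit 524) (nat_lit 559) (nat_lit 3596) (.f (nat_lit 495) (nat_lit 463) (nat_lit 7631) (.f (nat_lit 493) (nat_lit 494) (nat_lit 1516) (.f (nat_lit 461) (nat_lit 590) (nat_lit 4557) (.f (nat_lit 428) (nat_lit 460) (nat_lit 7596) (.f (nat_lit 429) (nat_lit 396) (nat_lit 7564) (.d (nat_lit 430) (nat_lit 398) (nat_lit 6541) (nat_lit 462) (nat_lit 6573)))))))))))))))))))))))))) (.p (nat_lit 590) (.a (.f (nat_lit 591) (nat_lit 623) (nat_lit 5615) (.f (nat_lit 589) (nat_lit 561) (nat_lit 2605) (.f (nat_lit 557) (nat_lit 556) (nat_lit 3628) (.f (nat_lit 621) (nat_lit 620) (nat_lit 1612) (.d (nat_lit 622) (nat_lit 493) (nat_lit 4589) (nat_lit 654) (nat_lit 4621)))))) (.a (.f (nat_lit 495) (nat_lit 463) (nat_lit 7631) (.f (nat_lit 497) (nat_lit 465) (nat_lit 6608) (.f (nat_lit 494) (nat_lit 526) (nat_lit 1517) (.f (nat_lit 461) (nat_lit 462) (nat_lit 3533) (.f (nat_lit 493) (nat_lit 460) (nat_lit 3532) (.f (nat_lit 557) (nat_lit 558) (nat_lit 4557) (.f (nat_lit 589) (nat_lit 622) (nat_lit 4589) (.d (nat_lit 556) (nat_lit 588) (nat_lit 5580) (nat_lit 591) (nat_lit 3628))))))))) (.a (.f (nat_lit 591) (nat_lit 623) (nat_lit 5615) (.f (nat_lit 589) (nat_lit 561) (nat_lit 2605) (.f (nat_lit 588) (nat_lit 559) (nat_lit 2604) (.d (nat_lit 620) (nat_lit 619) (nat_lit 1611) (nat_lit 621) (nat_lit 1612))))) (.a (.f (nat_lit 497) (nat_lit 465) (nat_lit 6608) (.f (nat_lit 495) (nat_lit 463) (nat_lit 7631) (.f (nat_lit 494) (nat_lit 526) (nat_lit 1517) (.f (nat_lit 461) (nat_lit 462) (nat_lit 3533) (.f (nat_lit 493) (nat_lit 460) (nat_lit 3532) (.f (nat_lit 557) (nat_lit 558) (nat_lit 4557) (.f (nat_lit 589) (nat_lit 622) (nat_lit 4589) (.d (nat_lit 588) (nat_lit 556) (nat_lit 5580) (nat_lit 620) (nat_lit 5612))))))))) (.f (nat_lit 623) (nat_lit 591) (nat_lit 5615) (.f (nat_lit 624) (nat_lit 655) (nat_lit 5647) (.f (nat_lit 657) (nat_lit 625) (nat_lit 4624) (.f (nat_lit 656) (nat_lit 689) (nat_lit 4656) (.f (nat_lit 622) (nat_lit 621) (nat_lit 621) (.f (nat_lit 495) (nat_lit 463) (nat_lit 7631) (.f (nat_lit 497) (nat_lit 465) (nat_lit 6608) (.f (nat_lit 526) (nat_lit 494) (nat_lit 1517) (.f (nat_lit 558) (nat_lit 493) (nat_lit 7661) (.f (nat_lit 654) (nat_lit 557) (nat_lit 7693) (.f (nat_lit 685) (nat_lit 653) (nat_lit 5677) (.f (nat_lit 686) (nat_lit 717) (nat_lit 5709) (.d (nat_lit 687) (nat_lit 688) (nat_lit 2701) (nat_lit 719) (nat_lit 4686))))))))))))))))))))))))))) (.f (nat_lit 465) (nat_lit 497) (nat_lit 6608) (.f (nat_lit 464) (nat_lit 433) (nat_lit 6576) (.d (nat_lit 463) (nat_lit 431) (nat_lit 7599) (nat_lit 495) (nat_lit 7631)))))))) (.a (.p (nat_lit 496) (.a (.f (nat_lit 593) (nat_lit 625) (nat_lit 4592) (.f (nat_lit 464) (nat_lit 561) (nat_lit 4560) (.d (nat_lit 465) (nat_lit 433) (nat_lit 6576) (nat_lit 497) (nat_lit 6608)))) (.a (.f (nat_lit 593) (nat_lit 625) (nat_lit 4592) (.f (nat_lit 464) (nat_lit 561) (nat_lit 4560) (.d (nat_lit 463) (nat_lit 431) (nat_lit 7599) (nat_lit 495) (nat_lit 7631)))) (.a (.f (nat_lit 497) (nat_lit 465) (nat_lit 6608) (.p (nat_lit 498) (.a (.f (nat_lit 495) (nat_lit 463) (nat_lit 7631) (.f (nat_lit 531) (nat_lit 530) (nat_lit 495) (.f (nat_lit 499) (nat_lit 532) (nat_lit 496) (.d (nat_lit 467) (nat_lit 466) (nat_lit 2511) (nat_lit 468) (nat_lit 2512))))) (.a (.p (nat_lit 562) (.a (.p (nat_lit 530) (.a (.f (nat_lit 531) (nat_lit 495) (nat_lit 495) (.d (nat_lit 532) (nat_lit 499) (nat_lit 496) (nat_lit 533) (nat_lit 3569))) (.f (nat_lit 593) (nat_lit 625) (nat_lit 4592) (.f (nat_lit 561) (nat_lit 466) (nat_lit 5585) (.d (nat_lit 563) (nat_lit 564) (nat_lit 1584) (nat_lit 591) (nat_lit 1583)))))) (.a (.p (nat_lit 530) (.a (.f (nat_lit 531) (nat_lit 495) (nat_lit 495) (.d (nat_lit 532) (nat_lit 499) (nat_lit 496) (nat_lit 533) (nat_lit 3569))) (.a s38468 (.a (.f (nat_lit 625) (nat_lit 593) (nat_lit 4592) (.f (nat_lit 657) (nat_lit 624) (nat_lit 4624) (.f (nat_lit 594) (nat_lit 626) (nat_lit 5649) (.f (nat_lit 467) (nat_lit 499) (nat_lit 6610) (.d (nat_lit 466) (nat_lit 435) (nat_lit 6578) (nat_lit 495) (nat_lit 2511)))))) (.f (nat_lit 625) (nat_lit 593) (nat_lit 4592) (.f (nat_lit 495) (nat_lit 531) (nat_lit 495) (.f (nat_lit 466) (nat_lit 467) (nat_lit 2511) (.f (nat_lit 624) (nat_lit 657) (nat_lit 4624) (.f (nat_lit 595) (nat_lit 563) (nat_lit 4562) (.f (nat_lit 627) (nat_lit 594) (nat_lit 4594) (.d (nat_lit 626) (nat_lit 591) (nat_lit 3663) (nat_lit 596) (nat_lit 2640)))))))))))) (.a (.p (nat_lit 561) (.a (.f (nat_lit 593) (nat_lit 625) (nat_lit 4592) (.d (nat_lit 591) (nat_lit 563) (nat_lit 1583) (nat_lit 590) (nat_lit 2606))) (.a (.f (nat_lit 563) (nat_lit 591) (nat_lit 1583) (.f (nat_lit 595) (nat_lit 596) (nat_lit 560) (.f (nat_lit 531) (nat_lit 532) (nat_lit 2576) (.d (nat_lit 559) (nat_lit 530) (nat_lit 2575) (nat_lit 594) (nat_lit 559))))) (.a (.f (nat_lit 593) (nat_lit 625) (nat_lit 4592) (.f (nat_lit 563) (nat_lit 564) (nat_lit 1584) (.f (nat_lit 595) (nat_lit 596) (nat_lit 560) (.f (nat_lit 530) (nat_lit 466) (nat_lit 5585) (.d (nat_lit 594) (nat_lit 559) (nat_lit 559) (nat_lit 627) (nat_lit 4594)))))) (.f (nat_lit 593) (nat_lit 625) (nat_lit 4592) (.f (nat_lit 530) (nat_lit 466) (nat_lit 5585) (.f (nat_lit 559) (nat_lit 531) (nat_lit 2575) (.d (nat_lit 558) (nat_lit 557) (nat_lit 557) (nat_lit 594) (nat_lit 558))))))))) (.a (.p (nat_lit 531) (.a (.f (nat_lit 530) (nat_lit 495) (nat_lit 495) (.d (nat_lit 532) (nat_lit 499) (nat_lit 496) (nat_lit 533) (nat_lit 3569))) (.a (.f (nat_lit 499) (nat_lit 532) (nat_lit 496) (.f (nat_lit 467) (nat_lit 468) (nat_lit 2512) (.d (nat_lit 594) (nat_lit 530) (nat_lit 6610) (nat_lit 563) (nat_lit 5586)))) (.a (.f (nat_lit 499) (nat_lit 532) (nat_lit 496) (.f (nat_lit 467) (nat_lit 468) (nat_lit 2512) (.f (nat_lit 563) (nat_lit 594) (nat_lit 5586) (.d (nat_lit 466) (nat_lit 434) (nat_lit 7602) (nat_lit 495) (nat_lit 2511))))) (.a (.f (nat_lit 530) (nat_lit 495) (nat_lit 495) (.f (nat_lit 561) (nat_lit 559) (nat_lit 2575) (.d (nat_lit 563) (nat_lit 532) (nat_lit 2576) (nat_lit 591) (nat_lit 1583)))) (.f (nat_lit 530) (nat_lit 495) (nat_lit 495) (.f (nat_lit 561) (nat_lit 559) (nat_lit 2575) (.f (nat_lit 563) (nat_lit 591) (nat_lit 1583) (.d (nat_lit 593) (nat_lit 466) (nat_lit 5585) (nat_lit 564) (nat_lit 1584)))))))))) (.a (.p (nat_lit 531) (.a (.f (nat_lit 530) (nat_lit 495) (nat_lit 495) (.d (nat_lit 532) (nat_lit 499) (nat_lit 496) (nat_lit 533) (nat_lit 3569))) (.a (.f (nat_lit 499) (nat_lit 532) (nat_lit 496) (.f (nat_lit 467) (nat_lit 468) (nat_lit 2512) (.d (nat_lit 594) (nat_lit 530) (nat_lit 6610) (nat_lit 563) (nat_lit 5586)))) (.a (.f (nat_lit 499) (nat_lit 532) (nat_lit 496) (.f (nat_lit 467) (nat_lit 468) (nat_lit 2512) (.f (nat_lit 563) (nat_lit 594) (nat_lit 5586) (.d (nat_lit 466) (nat_lit 434) (nat_lit 7602) (nat_lit 495) (nat_lit 2511))))) (.a (.f (nat_lit 530) (nat_lit 495) (nat_lit 495) (.f (nat_lit 561) (nat_lit 559) (nat_lit 2575) (.d (nat_lit 563) (nat_lit 532) (nat_lit 2576) (nat_lit 591) (nat_lit 1583)))) (.f (nat_lit 530) (nat_lit 495) (nat_lit 495) (.f (nat_lit 561) (nat_lit 559) (nat_lit 2575) (.f (nat_lit 563) (nat_lit 591) (nat_lit 1583) (.d (nat_lit 466) (nat_lit 434) (nat_lit 4530) (nat_lit 595) (nat_lit 4562)))))))))) (.a (.p (nat_lit 561) (.a (.f (nat_lit 593) (nat_lit 625) (nat_lit 4592) (.d (nat_lit 591) (nat_lit 563) (nat_lit 1583) (nat_lit 590) (nat_lit 2606))) (.a (.f (nat_lit 591) (nat_lit 563) (nat_lit 1583) (.d (nat_lit 590) (nat_lit 559) (nat_lit 1582) (nat_lit 589) (nat_lit 2605))) (.a (.f (nat_lit 593) (nat_lit 625) (nat_lit 4592) (.f (nat_lit 563) (nat_lit 564) (nat_lit 1584) (.f (nat_lit 595) (nat_lit 596) (nat_lit 560) (.f (nat_lit 530) (nat_lit 466) (nat_lit 5585) (.d (nat_lit 594) (nat_lit 559) (nat_lit 559) (nat_lit 627) (nat_lit 4594)))))) (.f (nat_lit 593) (nat_lit 625) (nat_lit 4592) (.f (nat_lit 466) (nat_lit 530) (nat_lit 5585) (.f (nat_lit 467) (nat_lit 495) (nat_lit 2511) (.d (nat_lit 468) (nat_lit 469) (nat_lit 1489) (nat_lit 499) (nat_lit 2512))))))))) (.a (.p (nat_lit 530) (.a (.f (nat_lit 531) (nat_lit 495) (nat_lit 495) (.d (nat_lit 532) (nat_lit 499) (nat_lit 496) (nat_lit 533) (nat_lit 3569))) (.a s38468 (.a (.f (nat_lit 625) (nat_lit 593) (nat_lit 4592) (.f (nat_lit 657) (nat_lit 624) (nat_lit 4624) (.f (nat_lit 594) (nat_lit 626) (nat_lit 5649) (.f (nat_lit 467) (nat_lit 499) (nat_lit 6610) (.d (nat_lit 466) (nat_lit 435) (nat_lit 6578) (nat_lit 495) (nat_lit 2511)))))) (.f (nat_lit 593) (nat_lit 625) (nat_lit 4592) (.f (nat_lit 466) (nat_lit 561) (nat_lit 5585) (.d (nat_lit 495) (nat_lit 467) (nat_lit 2511) (nat_lit 531) (nat_lit 495)))))))) (.a (.p (nat_lit 530) (.a (.f (nat_lit 531) (nat_lit 495) (nat_lit 495) (.d (nat_lit 532) (nat_lit 499) (nat_lit 496) (nat_lit 533) (nat_lit 3569))) (.a (.f (nat_lit 593) (nat_lit 625) (nat_lit 4592) (.f (nat_lit 561) (nat_lit 466) (nat_lit 5585) (.f (nat_lit 559) (nat_lit 531) (nat_lit 2575) (.d (nat_lit 558) (nat_lit 557) (nat_lit 557) (nat_lit 594) (nat_lit 558))))) (.f (nat_lit 625) (nat_lit 593) (nat_lit 4592) (.f (nat_lit 657) (nat_lit 624) (nat_lit 4624) (.f (nat_lit 594) (nat_lit 626) (nat_lit 5649) (.f (nat_lit 467) (nat_lit 499) (nat_lit 6610) (.d (nat_lit 466) (nat_lit 435) (nat_lit 6578) (nat_lit 495) (nat_lit 2511))))))))) (.a (.p (nat_lit 563) (.a (.f (nat_lit 561) (nat_lit 591) (nat_lit 1583) (.d (nat_lit 593) (nat_lit 564) (nat_lit 1584) (nat_lit 625) (nat_lit 4592))) (.a (.f (nat_lit 593) (nat_lit 625) (nat_lit 4592) (.f (nat_lit 594) (nat_lit 591) (nat_lit 2607) (.d (nat_lit 564) (nat_lit 565) (nat_lit 1585) (nat_lit 595) (nat_lit 2608)))) (.a (.f (nat_lit 561) (nat_lit 591) (nat_lit 1583) (.f (nat_lit 564) (nat_lit 593) (nat_lit 1584) (.d (nat_lit 596) (nat_lit 595) (nat_lit 560) (nat_lit 597) (nat_lit 561)))) (.a (.f (nat_lit 561) (nat_lit 591) (nat_lit 1583) (.f (nat_lit 532) (nat_lit 531) (nat_lit 2576) (.f (nat_lit 564) (nat_lit 533) (nat_lit 2577) (.d (nat_lit 596) (nat_lit 595) (nat_lit 560) (nat_lit 597) (nat_lit 561))))) (.a (.f (nat_lit 593) (nat_lit 625) (nat_lit 4592) (.f (nat_lit 561) (nat_lit 564) (nat_lit 1584) (.f (nat_lit 595) (nat_lit 596) (nat_lit 560) (.f (nat_lit 594) (nat_lit 559) (nat_lit 559) (.f (nat_lit 531) (nat_lit 532) (nat_lit 2576) (.d (nat_lit 499) (nat_lit 466) (nat_lit 7634) (nat_lit 467) (nat_lit 5586))))))) (.f (nat_lit 561) (nat_lit 591) (nat_lit 1583) (.f (nat_lit 595) (nat_lit 596) (nat_lit 560) (.f (nat_lit 594) (nat_lit 559) (nat_lit 559) (.f (nat_lit 531) (nat_lit 532) (nat_lit 2576) (.d (nat_lit 499) (nat_lit 466) (nat_lit 7634) (nat_lit 467) (nat_lit 5586)))))))))))) (.p (nat_lit 530) (.a (.f (nat_lit 531) (nat_lit 495) (nat_lit 495) (.d (nat_lit 532) (nat_lit 499) (nat_lit 496) (nat_lit 533) (nat_lit 3569))) (.f (nat_lit 625) (nat_lit 593) (nat_lit 4592) (.f (nat_lit 657) (nat_lit 624) (nat_lit 4624) (.f (nat_lit 594) (nat_lit 626) (nat_lit 5649) (.f (nat_lit 595) (nat_lit 627) (nat_lit 4594) (.f (nat_lit 561) (nat_lit 559) (nat_lit 559) (.d (nat_lit 563) (nat_lit 591) (nat_lit 1583) (nat_lit 596) (nat_lit 560))))))))))))))))))) (.a (.p (nat_lit 499) (.a (.f (nat_lit 468) (nat_lit 467) (nat_lit 2512) (.f (nat_lit 500) (nat_lit 469) (nat_lit 2513) (.d (nat_lit 532) (nat_lit 531) (nat_lit 496) (nat_lit 533) (nat_lit 497)))) (.a (.p (nat_lit 595) (.a (.f (nat_lit 468) (nat_lit 467) (nat_lit 2512) (.f (nat_lit 500) (nat_lit 469) (nat_lit 2513) (.f (nat_lit 532) (nat_lit 533) (nat_lit 497) (.f (nat_lit 564) (nat_lit 563) (nat_lit 5587) (.f (nat_lit 596) (nat_lit 627) (nat_lit 5619) (.d (nat_lit 597) (nat_lit 565) (nat_lit 4564) (nat_lit 629) (nat_lit 4596))))))) (.a (.f (nat_lit 593) (nat_lit 625) (nat_lit 4592) (.f (nat_lit 594) (nat_lit 559) (nat_lit 3631) (.f (nat_lit 627) (nat_lit 628) (nat_lit 592) (.f (nat_lit 596) (nat_lit 561) (nat_lit 3632) (.f (nat_lit 564) (nat_lit 565) (nat_lit 2609) (.f (nat_lit 500) (nat_lit 532) (nat_lit 5619) (.d (nat_lit 468) (nat_lit 467) (nat_lit 2512) (nat_lit 469) (nat_lit 2513)))))))) (.a (.f (nat_lit 593) (nat_lit 625) (nat_lit 4592) (.f (nat_lit 594) (nat_lit 559) (nat_lit 3631) (.f (nat_lit 563) (nat_lit 564) (nat_lit 2608) (.f (nat_lit 562) (nat_lit 591) (nat_lit 2607) (.d (nat_lit 467) (nat_lit 468) (nat_lit 2512) (nat_lit 530) (nat_lit 6610)))))) (.a (.f (nat_lit 593) (nat_lit 625) (nat_lit 4592) (.f (nat_lit 594) (nat_lit 559) (nat_lit 3631) (.f (nat_lit 563) (nat_lit 564) (nat_lit 2608) (.f (nat_lit 562) (nat_lit 591) (nat_lit 2607) (.d (nat_lit 627) (nat_lit 530) (nat_lit 4594) (nat_lit 628) (nat_lit 592)))))) (.f (nat_lit 593) (nat_lit 625) (nat_lit 4592) (.f (nat_lit 594) (nat_lit 559) (nat_lit 3631) (.f (nat_lit 627) (nat_lit 628) (nat_lit 592) (.f (nat_lit 562) (nat_lit 530) (nat_lit 4594) (.d (nat_lit 591) (nat_lit 563) (nat_lit 2607) (nat_lit 626) (nat_lit 591))))))))))) (.a (.p (nat_lit 595) (.a (.f (nat_lit 531) (nat_lit 532) (nat_lit 496) (.f (nat_lit 563) (nat_lit 466) (nat_lit 7634) (.f (nat_lit 594) (nat_lit 626) (nat_lit 5618) (.d (nat_lit 593) (nat_lit 564) (nat_lit 2608) (nat_lit 625) (nat_lit 4592))))) (.a (.f (nat_lit 531) (nat_lit 532) (nat_lit 496) (.f (nat_lit 563) (nat_lit 466) (nat_lit 7634) (.f (nat_lit 594) (nat_lit 626) (nat_lit 5618) (.d (nat_lit 593) (nat_lit 559) (nat_lit 3631) (nat_lit 564) (nat_lit 2608))))) (.a (.f (nat_lit 531) (nat_lit 532) (nat_lit 496) (.f (nat_lit 563) (nat_lit 466) (nat_lit 7634) (.f (nat_lit 627) (nat_lit 530) (nat_lit 7666) (.d (nat_lit 626) (nat_lit 594) (nat_lit 5618) (nat_lit 658) (nat_lit 5650))))) (.a (.f (nat_lit 531) (nat_lit 532) (nat_lit 496) (.f (nat_lit 563) (nat_lit 466) (nat_lit 7634) (.f (nat_lit 627) (nat_lit 530) (nat_lit 7666) (.d (nat_lit 628) (nat_lit 596) (nat_lit 4595) (nat_lit 660) (nat_lit 4627))))) (.a (.f (nat_lit 593) (nat_lit 625) (nat_lit 4592) (.f (nat_lit 594) (nat_lit 559) (nat_lit 3631) (.f (nat_lit 563) (nat_lit 564) (nat_lit 2608) (.f (nat_lit 562) (nat_lit 591) (nat_lit 2607) (.d (nat_lit 627) (nat_lit 530) (nat_lit 4594) (nat_lit 628) (nat_lit 592)))))) (.f (nat_lit 593) (nat_lit 625) (nat_lit 4592) (.f (nat_lit 594) (nat_lit 559) (nat_lit 3631) (.f (nat_lit 627) (nat_lit 628) (nat_lit 592) (.f (nat_lit 596) (nat_lit 561) (nat_lit 3632) (.f (nat_lit 532) (nat_lit 531) (nat_lit 496) (.d (nat_lit 500) (nat_lit 533) (nat_lit 497) (nat_lit 564) (nat_lit 5619))))))))))))) (.p (nat_lit 594) (.a (.f (nat_lit 593) (nat_lit 625) (nat_lit 4592) (.f (nat_lit 595) (nat_lit 559) (nat_lit 3631) (.f (nat_lit 563) (nat_lit 564) (nat_lit 2608) (.f (nat_lit 562) (nat_lit 591) (nat_lit 2607) (.d (nat_lit 467) (nat_lit 468) (nat_lit 2512) (nat_lit 530) (nat_lit 6610)))))) (.a (.f (nat_lit 593) (nat_lit 625) (nat_lit 4592) (.f (nat_lit 467) (nat_lit 468) (nat_lit 2512) (.f (nat_lit 562) (nat_lit 530) (nat_lit 6610) (.f (nat_lit 563) (nat_lit 591) (nat_lit 2607) (.d (nat_lit 564) (nat_lit 565) (nat_lit 1585) (nat_lit 595) (nat_lit 2608)))))) (.a (.f (nat_lit 467) (nat_lit 468) (nat_lit 2512) (.f (nat_lit 562) (nat_lit 530) (nat_lit 6610) (.f (nat_lit 563) (nat_lit 531) (nat_lit 5586) (.d (nat_lit 591) (nat_lit 561) (nat_lit 1583) (nat_lit 593) (nat_lit 2607))))) (.a (.f (nat_lit 467) (nat_lit 468) (nat_lit 2512) (.f (nat_lit 562) (nat_lit 530) (nat_lit 6610) (.f (nat_lit 563) (nat_lit 531) (nat_lit 5586) (.f (nat_lit 561) (nat_lit 591) (nat_lit 1583) (.d (nat_lit 595) (nat_lit 559) (nat_lit 559) (nat_lit 596) (nat_lit 560)))))) (.a (.f (nat_lit 593) (nat_lit 625) (nat_lit 4592) (.f (nat_lit 595) (nat_lit 559) (nat_lit 3631) (.f (nat_lit 563) (nat_lit 564) (nat_lit 2608) (.d (nat_lit 531) (nat_lit 466) (nat_lit 7634) (nat_lit 626) (nat_lit 5618))))) (.f (nat_lit 593) (nat_lit 625) (nat_lit 4592) (.f (nat_lit 595) (nat_lit 559) (nat_lit 3631) (.f (nat_lit 627) (nat_lit 628) (nat_lit 592) (.f (nat_lit 596) (nat_lit 561) (nat_lit 3632) (.f (nat_lit 626) (nat_lit 591) (nat_lit 591) (.f (nat_lit 597) (nat_lit 598) (nat_lit 1618) (.d (nat_lit 565) (nat_lit 564) (nat_lit 2609) (nat_lit 566) (nat_lit 2610)))))))))))))))))) (.a (.f (nat_lit 593) (nat_lit 625) (nat_lit 4592) (.p (nat_lit 594) (.a (.f (nat_lit 595) (nat_lit 559) (nat_lit 3631) (.f (nat_lit 563) (nat_lit 564) (nat_lit 2608) (.f (nat_lit 562) (nat_lit 591) (nat_lit 2607) (.d (nat_lit 627) (nat_lit 530) (nat_lit 4594) (nat_lit 628) (nat_lit 592))))) (.a (.f (nat_lit 495) (nat_lit 463) (nat_lit 7631) (.f (nat_lit 467) (nat_lit 466) (nat_lit 2511) (.f (nat_lit 499) (nat_lit 468) (nat_lit 2512) (.f (nat_lit 562) (nat_lit 530) (nat_lit 6610) (.f (nat_lit 563) (nat_lit 591) (nat_lit 2607) (.d (nat_lit 564) (nat_lit 565) (nat_lit 1585) (nat_lit 595) (nat_lit 2608))))))) (.a (.f (nat_lit 495) (nat_lit 463) (nat_lit 7631) (.f (nat_lit 467) (nat_lit 466) (nat_lit 2511) (.f (nat_lit 499) (nat_lit 468) (nat_lit 2512) (.f (nat_lit 562) (nat_lit 530) (nat_lit 6610) (.f (nat_lit 591) (nat_lit 563) (nat_lit 2607) (.f (nat_lit 590) (nat_lit 561) (nat_lit 2606) (.d (nat_lit 558) (nat_lit 557) (nat_lit 3629) (nat_lit 559) (nat_lit 3630)))))))) (.a (.f (nat_lit 595) (nat_lit 559) (nat_lit 3631) (.f (nat_lit 596) (nat_lit 561) (nat_lit 3632) (.d (nat_lit 564) (nat_lit 563) (nat_lit 2608) (nat_lit 565) (nat_lit 2609)))) (.f (nat_lit 595) (nat_lit 559) (nat_lit 3631) (.f (nat_lit 627) (nat_lit 628) (nat_lit 592) (.f (nat_lit 596) (nat_lit 561) (nat_lit 3632) (.f (nat_lit 626) (nat_lit 591) (nat_lit 591) (.f (nat_lit 597) (nat_lit 598) (nat_lit 1618) (.d (nat_lit 565) (nat_lit 564) (nat_lit 2609) (nat_lit 566) (nat_lit 2610))))))))))))) (.a (.p (nat_lit 595) (.a (.f (nat_lit 593) (nat_lit 625) (nat_lit 4592) (.f (nat_lit 594) (nat_lit 559) (nat_lit 3631) (.f (nat_lit 563) (nat_lit 564) (nat_lit 2608) (.f (nat_lit 562) (nat_lit 591) (nat_lit 2607) (.f (nat_lit 596) (nat_lit 561) (nat_lit 560) (.d (nat_lit 628) (nat_lit 627) (nat_lit 592) (nat_lit 629) (nat_lit 593))))))) (.a (.f (nat_lit 593) (nat_lit 625) (nat_lit 4592) (.f (nat_lit 594) (nat_lit 559) (nat_lit 3631) (.f (nat_lit 563) (nat_lit 564) (nat_lit 2608) (.f (nat_lit 627) (nat_lit 628) (nat_lit 592) (.d (nat_lit 591) (nat_lit 562) (nat_lit 2607) (nat_lit 626) (nat_lit 591)))))) (.a (.f (nat_lit 495) (nat_lit 463) (nat_lit 7631) (.f (nat_lit 593) (nat_lit 625) (nat_lit 4592) (.f (nat_lit 467) (nat_lit 466) (nat_lit 2511) (.f (nat_lit 499) (nat_lit 468) (nat_lit 2512) (.f (nat_lit 532) (nat_lit 531) (nat_lit 496) (.f (nat_lit 500) (nat_lit 533) (nat_lit 497) (.f (nat_lit 596) (nat_lit 564) (nat_lit 7635) (.f (nat_lit 594) (nat_lit 561) (nat_lit 3632) (.d (nat_lit 628) (nat_lit 627) (nat_lit 592) (nat_lit 629) (nat_lit 593)))))))))) (.a (.p (nat_lit 594) (.a (.f (nat_lit 593) (nat_lit 559) (nat_lit 3631) (.f (nat_lit 563) (nat_lit 564) (nat_lit 2608) (.f (nat_lit 562) (nat_lit 591) (nat_lit 2607) (.f (nat_lit 596) (nat_lit 561) (nat_lit 560) (.d (nat_lit 628) (nat_lit 627) (nat_lit 592) (nat_lit 629) (nat_lit 593)))))) (.a (.f (nat_lit 593) (nat_lit 559) (nat_lit 3631) (.f (nat_lit 563) (nat_lit 564) (nat_lit 2608) (.f (nat_lit 627) (nat_lit 628) (nat_lit 592) (.d (nat_lit 591) (nat_lit 562) (nat_lit 2607) (nat_lit 626) (nat_lit 591))))) (.a (.f (nat_lit 495) (nat_lit 463) (nat_lit 7631) (.f (nat_lit 467) (nat_lit 466) (nat_lit 2511) (.f (nat_lit 499) (nat_lit 468) (nat_lit 2512) (.f (nat_lit 531) (nat_lit 532) (nat_lit 496) (.d (nat_lit 563) (nat_lit 562) (nat_lit 5586) (nat_lit 626) (nat_lit 5618)))))) (.a (.f (nat_lit 593) (nat_lit 559) (nat_lit 3631) (.f (nat_lit 596) (nat_lit 561) (nat_lit 3632) (.d (nat_lit 564) (nat_lit 563) (nat_lit 2608) (nat_lit 565) (nat_lit 2609)))) (.f (nat_lit 593) (nat_lit 559) (nat_lit 3631) (.f (nat_lit 596) (nat_lit 561) (nat_lit 3632) (.d (nat_lit 628) (nat_lit 627) (nat_lit 592) (nat_lit 629) (nat_lit 593))))))))) (.a (.p (nat_lit 499) (.a (.f (nat_lit 531) (nat_lit 532) (nat_lit 496) (.f (nat_lit 563) (nat_lit 466) (nat_lit 7634) (.d (nat_lit 468) (nat_lit 467) (nat_lit 2512) (nat_lit 500) (nat_lit 6611)))) (.a (.f (nat_lit 468) (nat_lit 467) (nat_lit 2512) (.f (nat_lit 500) (nat_lit 469) (nat_lit 2513) (.f (nat_lit 532) (nat_lit 533) (nat_lit 497) (.f (nat_lit 564) (nat_lit 563) (nat_lit 5587) (.f (nat_lit 596) (nat_lit 627) (nat_lit 5619) (.d (nat_lit 597) (nat_lit 565) (nat_lit 4564) (nat_lit 629) (nat_lit 4596))))))) (.a (.f (nat_lit 468) (nat_lit 467) (nat_lit 2512) (.f (nat_lit 500) (nat_lit 469) (nat_lit 2513) (.d (nat_lit 532) (nat_lit 531) (nat_lit 496) (nat_lit 533) (nat_lit 497)))) (.a (.f (nat_lit 531) (nat_lit 532) (nat_lit 496) (.f (nat_lit 563) (nat_lit 466) (nat_lit 7634) (.f (nat_lit 626) (nat_lit 594) (nat_lit 5618) (.f (nat_lit 627) (nat_lit 658) (nat_lit 5650) (.d (nat_lit 628) (nat_lit 596) (nat_lit 4595) (nat_lit 660) (nat_lit 4627)))))) (.f (nat_lit 495) (nat_lit 463) (nat_lit 7631) (.d (nat_lit 467) (nat_lit 466) (nat_lit 2511) (nat_lit 468) (nat_lit 2512)))))))) (.a (.p (nat_lit 499) (.a (.f (nat_lit 531) (nat_lit 532) (nat_lit 496) (.f (nat_lit 563) (nat_lit 466) (nat_lit 7634) (.d (nat_lit 468) (nat_lit 467) (nat_lit 2512) (nat_lit 500) (nat_lit 6611)))) (.a (.f (nat_lit 468) (nat_lit 467) (nat_lit 2512) (.f (nat_lit 500) (nat_lit 469) (nat_lit 2513) (.f (nat_lit 532) (nat_lit 533) (nat_lit 497) (.f (nat_lit 564) (nat_lit 563) (nat_lit 5587) (.f (nat_lit 596) (nat_lit 627) (nat_lit 5619) (.d (nat_lit 597) (nat_lit 565) (nat_lit 4564) (nat_lit 629) (nat_lit 4596))))))) (.a (.f (nat_lit 468) (nat_lit 467) (nat_lit 2512) (.f (nat_lit 500) (nat_lit 469) (nat_lit 2513) (.d (nat_lit 532) (nat_lit 531) (nat_lit 496) (nat_lit 533) (nat_lit 497)))) (.a (.f (nat_lit 531) (nat_lit 532) (nat_lit 496) (.f (nat_lit 563) (nat_lit 466) (nat_lit 7634) (.f (nat_lit 628) (nat_lit 596) (nat_lit 4595) (.f (nat_lit 627) (nat_lit 660) (nat_lit 4627) (.f (nat_lit 625) (nat_lit 593) (nat_lit 4592) (.f (nat_lit 626) (nat_lit 658) (nat_lit 5650) (.d (nat_lit 624) (nat_lit 591) (nat_lit 3663) (nat_lit 657) (nat_lit 4624)))))))) (.f (nat_lit 495) (nat_lit 463) (nat_lit 7631) (.d (nat_lit 467) (nat_lit 466) (nat_lit 2511) (nat_lit 468) (nat_lit 2512)))))))) (.a (.f (nat_lit 593) (nat_lit 625) (nat_lit 4592) (.f (nat_lit 594) (nat_lit 559) (nat_lit 3631) (.f (nat_lit 563) (nat_lit 564) (nat_lit 2608) (.f (nat_lit 562) (nat_lit 591) (nat_lit 2607) (.f (nat_lit 596) (nat_lit 561) (nat_lit 560) (.f (nat_lit 597) (nat_lit 598) (nat_lit 3634) (.d (nat_lit 629) (nat_lit 628) (nat_lit 593) (nat_lit 630) (nat_lit 594)))))))) (.a (.f (nat_lit 495) (nat_lit 463) (nat_lit 7631) (.f (nat_lit 593) (nat_lit 625) (nat_lit 4592) (.f (nat_lit 594) (nat_lit 559) (nat_lit 3631) (.f (nat_lit 563) (nat_lit 564) (nat_lit 2608) (.f (nat_lit 562) (nat_lit 591) (nat_lit 2607) (.f (nat_lit 561) (nat_lit 596) (nat_lit 560) (.f (nat_lit 531) (nat_lit 532) (nat_lit 2576) (.d (nat_lit 466) (nat_lit 467) (nat_lit 2511) (nat_lit 499) (nat_lit 7634))))))))) (.f (nat_lit 593) (nat_lit 625) (nat_lit 4592) (.f (nat_lit 594) (nat_lit 559) (nat_lit 3631) (.f (nat_lit 596) (nat_lit 561) (nat_lit 3632) (.d (nat_lit 628) (nat_lit 627) (nat_lit 592) (nat_lit 629) (nat_lit 593)))))))))))))) (.a (.f (nat_lit 495) (nat_lit 463) (nat_lit 7631) (.f (nat_lit 593) (nat_lit 625) (nat_lit 4592) (.f (nat_lit 530) (nat_lit 531) (nat_lit 495) (.f (nat_lit 466) (nat_lit 467) (nat_lit 2511) (.f (nat_lit 562) (nat_lit 561) (nat_lit 5585) (.f (nat_lit 595) (nat_lit 563) (nat_lit 4562) (.d (nat_lit 594) (nat_lit 559) (nat_lit 3631) (nat_lit 627) (nat_lit 4594)))))))) (.a (.f (nat_lit 495) (nat_lit 463) (nat_lit 7631) (.f (nat_lit 531) (nat_lit 530) (nat_lit 495) (.f (nat_lit 499) (nat_lit 532) (nat_lit 496) (.f (nat_lit 468) (nat_lit 467) (nat_lit 2512) (.f (nat_lit 500) (nat_lit 469) (nat_lit 2513) (.f (nat_lit 593) (nat_lit 625) (nat_lit 4592) (.f (nat_lit 595) (nat_lit 563) (nat_lit 6611) (.f (nat_lit 594) (nat_lit 559) (nat_lit 3631) (.f (nat_lit 596) (nat_lit 561) (nat_lit 3632) (.d (nat_lit 628) (nat_lit 627) (nat_lit 592) (nat_lit 629) (nat_lit 593))))))))))) (.p (nat_lit 595) (.a (.f (nat_lit 593) (nat_lit 625) (nat_lit 4592) (.f (nat_lit 594) (nat_lit 559) (nat_lit 3631) (.f (nat_lit 563) (nat_lit 564) (nat_lit 2608) (.f (nat_lit 562) (nat_lit 591) (nat_lit 2607) (.d (nat_lit 627) (nat_lit 530) (nat_lit 4594) (nat_lit 628) (nat_lit 592)))))) (.a (.f (nat_lit 495) (nat_lit 463) (nat_lit 7631) (.f (nat_lit 531) (nat_lit 530) (nat_lit 495) (.f (nat_lit 499) (nat_lit 532) (nat_lit 496) (.f (nat_lit 563) (nat_lit 466) (nat_lit 7634) (.f (nat_lit 593) (nat_lit 625) (nat_lit 4592) (.d (nat_lit 594) (nat_lit 564) (nat_lit 2608) (nat_lit 626) (nat_lit 5618))))))) (.a (.f (nat_lit 495) (nat_lit 463) (nat_lit 7631) (.f (nat_lit 531) (nat_lit 530) (nat_lit 495) (.f (nat_lit 499) (nat_lit 532) (nat_lit 496) (.f (nat_lit 563) (nat_lit 466) (nat_lit 7634) (.f (nat_lit 594) (nat_lit 626) (nat_lit 5618) (.d (nat_lit 593) (nat_lit 559) (nat_lit 3631) (nat_lit 564) (nat_lit 2608))))))) (.a (.f (nat_lit 495) (nat_lit 463) (nat_lit 7631) (.f (nat_lit 531) (nat_lit 530) (nat_lit 495) (.f (nat_lit 499) (nat_lit 532) (nat_lit 496) (.f (nat_lit 563) (nat_lit 466) (nat_lit 7634) (.f (nat_lit 626) (nat_lit 594) (nat_lit 5618) (.f (nat_lit 627) (nat_lit 658) (nat_lit 5650) (.d (nat_lit 628) (nat_lit 596) (nat_lit 4595) (nat_lit 660) (nat_lit 4627)))))))) (.a (.f (nat_lit 495) (nat_lit 463) (nat_lit 7631) (.f (nat_lit 531) (nat_lit 530) (nat_lit 495) (.f (nat_lit 499) (nat_lit 532) (nat_lit 496) (.f (nat_lit 563) (nat_lit 466) (nat_lit 7634) (.f (nat_lit 625) (nat_lit 593) (nat_lit 4592) (.f (nat_lit 624) (nat_lit 657) (nat_lit 4624) (.f (nat_lit 628) (nat_lit 596) (nat_lit 4595) (.f (nat_lit 627) (nat_lit 660) (nat_lit 4627) (.d (nat_lit 626) (nat_lit 591) (nat_lit 3663) (nat_lit 658) (nat_lit 5650)))))))))) (.f (nat_lit 593) (nat_lit 625) (nat_lit 4592) (.f (nat_lit 594) (nat_lit 559) (nat_lit 3631) (.f (nat_lit 596) (nat_lit 561) (nat_lit 3632) (.d (nat_lit 628) (nat_lit 627) (nat_lit 592) (nat_lit 629) (nat_lit 593)))))))))))))))))))) (.f (nat_lit 465) (nat_lit 497) (nat_lit 6608) (.f (nat_lit 464) (nat_lit 433) (nat_lit 6576) (.d (nat_lit 463) (nat_lit 431) (nat_lit 7599) (nat_lit 495) (nat_lit 7631)))))))) (.a (.p (nat_lit 496) (.a (.f (nat_lit 593) (nat_lit 625) (nat_lit 4592) (.f (nat_lit 591) (nat_lit 623) (nat_lit 5615) (.d (nat_lit 464) (nat_lit 559) (nat_lit 5583) (nat_lit 561) (nat_lit 4560)))) (.a (.f (nat_lit 593) (nat_lit 625) (nat_lit 4592) (.f (nat_lit 464) (nat_lit 561) (nat_lit 4560) (.d (nat_lit 465) (nat_lit 433) (nat_lit 6576) (nat_lit 497) (nat_lit 6608)))) (.a (.f (nat_lit 591) (nat_lit 623) (nat_lit 5615) (.f (nat_lit 593) (nat_lit 625) (nat_lit 4592) (.f (nat_lit 559) (nat_lit 464) (nat_lit 5583) (.d (nat_lit 594) (nat_lit 558) (nat_lit 3630) (nat_lit 595) (nat_lit 3631))))) (.a (.f (nat_lit 591) (nat_lit 623) (nat_lit 5615) (.f (nat_lit 464) (nat_lit 559) (nat_lit 5583) (.d (nat_lit 465) (nat_lit 433) (nat_lit 6576) (nat_lit 497) (nat_lit 6608)))) (.f (nat_lit 593) (nat_lit 625) (nat_lit 4592) (.p (nat_lit 558) (.a (.f (nat_lit 591) (nat_lit 623) (nat_lit 5615) (.d (nat_lit 559) (nat_lit 557) (nat_lit 557) (nat_lit 594) (nat_lit 3630))) (.a (.f (nat_lit 559) (nat_lit 557) (nat_lit 557) (.d (nat_lit 594) (nat_lit 561) (nat_lit 558) (nat_lit 591) (nat_lit 3630))) (.a (.f (nat_lit 591) (nat_lit 623) (nat_lit 5615) (.f (nat_lit 590) (nat_lit 557) (nat_lit 3629) (.d (nat_lit 561) (nat_lit 562) (nat_lit 2606) (nat_lit 589) (nat_lit 2605)))) (.a (.f (nat_lit 591) (nat_lit 623) (nat_lit 5615) (.f (nat_lit 594) (nat_lit 559) (nat_lit 3630) (.f (nat_lit 562) (nat_lit 563) (nat_lit 2607) (.f (nat_lit 561) (nat_lit 590) (nat_lit 2606) (.f (nat_lit 595) (nat_lit 596) (nat_lit 3632) (.d (nat_lit 627) (nat_lit 626) (nat_lit 591) (nat_lit 628) (nat_lit 592))))))) (.f (nat_lit 559) (nat_lit 557) (nat_lit 557) (.d (nat_lit 594) (nat_lit 561) (nat_lit 558) (nat_lit 595) (nat_lit 3631)))))))))))))) (.p (nat_lit 496) (.a (.f (nat_lit 591) (nat_lit 623) (nat_lit 5615) (.f (nat_lit 464) (nat_lit 559) (nat_lit 5583) (.d (nat_lit 465) (nat_lit 433) (nat_lit 6576) (nat_lit 497) (nat_lit 6608)))) (.a (.f (nat_lit 591) (nat_lit 623) (nat_lit 5615) (.f (nat_lit 464) (nat_lit 559) (nat_lit 5583) (.d (nat_lit 463) (nat_lit 431) (nat_lit 7599) (nat_lit 495) (nat_lit 7631)))) (.a (.p (nat_lit 562) (.a (.f (nat_lit 591) (nat_lit 623) (nat_lit 5615) (.f (nat_lit 561) (nat_lit 563) (nat_lit 1583) (.d (nat_lit 590) (nat_lit 559) (nat_lit 1582) (nat_lit 589) (nat_lit 2605)))) (.a (.p (nat_lit 594) (.a (.p (nat_lit 498) (.a (.f (nat_lit 497) (nat_lit 465) (nat_lit 6608) (.f (nat_lit 495) (nat_lit 463) (nat_lit 7631) (.f (nat_lit 530) (nat_lit 531) (nat_lit 495) (.d (nat_lit 467) (nat_lit 466) (nat_lit 2511) (nat_lit 499) (nat_lit 6610))))) (.a (.p (nat_lit 530) (.a (.f (nat_lit 595) (nat_lit 627) (nat_lit 4594) (.f (nat_lit 561) (nat_lit 559) (nat_lit 559) (.d (nat_lit 563) (nat_lit 466) (nat_lit 4562) (nat_lit 596) (nat_lit 560)))) (.a (.f (nat_lit 595) (nat_lit 627) (nat_lit 4594) (.f (nat_lit 466) (nat_lit 563) (nat_lit 4562) (.d (nat_lit 467) (nat_lit 435) (nat_lit 6578) (nat_lit 499) (nat_lit 6610)))) (.a (.f (nat_lit 499) (nat_lit 467) (nat_lit 6610) (.f (nat_lit 531) (nat_lit 626) (nat_lit 6642) (.f (nat_lit 561) (nat_lit 559) (nat_lit 2575) (.d (nat_lit 563) (nat_lit 532) (nat_lit 2576) (nat_lit 591) (nat_lit 1583))))) (.f (nat_lit 499) (nat_lit 467) (nat_lit 6610) (.f (nat_lit 626) (nat_lit 531) (nat_lit 6642) (.d (nat_lit 627) (nat_lit 595) (nat_lit 4594) (nat_lit 659) (nat_lit 4626)))))))) (.a (.f (nat_lit 497) (nat_lit 465) (nat_lit 6608) (.f (nat_lit 495) (nat_lit 463) (nat_lit 7631) (.f (nat_lit 467) (nat_lit 466) (nat_lit 2511) (.d (nat_lit 499) (nat_lit 468) (nat_lit 2512) (nat_lit 530) (nat_lit 6610))))) (.a (.f (nat_lit 497) (nat_lit 465) (nat_lit 6608) (.f (nat_lit 495) (nat_lit 463) (nat_lit 7631) (.f (nat_lit 467) (nat_lit 466) (nat_lit 2511) (.f (nat_lit 499) (nat_lit 468) (nat_lit 2512) (.d (nat_lit 531) (nat_lit 532) (nat_lit 496) (nat_lit 563) (nat_lit 5586)))))) (.a (.f (nat_lit 497) (nat_lit 465) (nat_lit 6608) (.f (nat_lit 495) (nat_lit 463) (nat_lit 7631) (.f (nat_lit 530) (nat_lit 531) (nat_lit 495) (.f (nat_lit 595) (nat_lit 627) (nat_lit 4594) (.d (nat_lit 466) (nat_lit 467) (nat_lit 2511) (nat_lit 563) (nat_lit 4562)))))) (.f (nat_lit 497) (nat_lit 465) (nat_lit 6608) (.f (nat_lit 495) (nat_lit 463) (nat_lit 7631) (.f (nat_lit 530) (nat_lit 531) (nat_lit 495) (.f (nat_lit 595) (nat_lit 627) (nat_lit 4594) (.f (nat_lit 561) (nat_lit 559) (nat_lit 559) (.d (nat_lit 563) (nat_lit 591) (nat_lit 1583) (nat_lit 596) (nat_lit 560))))))))))))) (.a (.p (nat_lit 561) (.a (.f (nat_lit 595) (nat_lit 559) (nat_lit 559) (.d (nat_lit 596) (nat_lit 563) (nat_lit 560) (nat_lit 597) (nat_lit 3633))) (.a (.f (nat_lit 563) (nat_lit 591) (nat_lit 1583) (.f (nat_lit 564) (nat_lit 593) (nat_lit 1584) (.d (nat_lit 532) (nat_lit 531) (nat_lit 2576) (nat_lit 533) (nat_lit 2577)))) (.f (nat_lit 559) (nat_lit 595) (nat_lit 559) (.f (nat_lit 558) (nat_lit 593) (nat_lit 558) (.d (nat_lit 590) (nat_lit 589) (nat_lit 1581) (nat_lit 591) (nat_lit 1582))))))) (.a s38866 (.a (.p (nat_lit 498) (.a (.f (nat_lit 497) (nat_lit 465) (nat_lit 6608) (.f (nat_lit 495) (nat_lit 463) (nat_lit 7631) (.f (nat_lit 530) (nat_lit 531) (nat_lit 495) (.d (nat_lit 467) (nat_lit 466) (nat_lit 2511) (nat_lit 499) (nat_lit 6610))))) (.a (.p (nat_lit 530) (.a (.f (nat_lit 595) (nat_lit 627) (nat_lit 4594) (.f (nat_lit 466) (nat_lit 563) (nat_lit 4562) (.d (nat_lit 467) (nat_lit 435) (nat_lit 6578) (nat_lit 499) (nat_lit 6610)))) (.a (.f (nat_lit 467) (nat_lit 499) (nat_lit 6610) (.f (nat_lit 466) (nat_lit 435) (nat_lit 6578) (.f (nat_lit 561) (nat_lit 593) (nat_lit 5585) (.f (nat_lit 563) (nat_lit 591) (nat_lit 1583) (.d (nat_lit 531) (nat_lit 434) (nat_lit 4530) (nat_lit 532) (nat_lit 2576)))))) (.a (.f (nat_lit 499) (nat_lit 467) (nat_lit 6610) (.f (nat_lit 626) (nat_lit 531) (nat_lit 6642) (.d (nat_lit 627) (nat_lit 595) (nat_lit 4594) (nat_lit 659) (nat_lit 4626)))) (.a (.f (nat_lit 595) (nat_lit 627) (nat_lit 4594) (.f (nat_lit 466) (nat_lit 563) (nat_lit 4562) (.f (nat_lit 435) (nat_lit 467) (nat_lit 6578) (.f (nat_lit 434) (nat_lit 403) (nat_lit 6546) (.d (nat_lit 433) (nat_lit 401) (nat_lit 7569) (nat_lit 465) (nat_lit 7601)))))) (.f (nat_lit 595) (nat_lit 627) (nat_lit 4594) (.f (nat_lit 563) (nat_lit 466) (nat_lit 4562) (.d (nat_lit 561) (nat_lit 591) (nat_lit 1583) (nat_lit 596) (nat_lit 560))))))))) (.a (.p (nat_lit 530) (.a (.f (nat_lit 595) (nat_lit 627) (nat_lit 4594) (.f (nat_lit 466) (nat_lit 563) (nat_lit 4562) (.d (nat_lit 467) (nat_lit 435) (nat_lit 6578) (nat_lit 499) (nat_lit 6610)))) (.a (.f (nat_lit 467) (nat_lit 499) (nat_lit 6610) (.f (nat_lit 466) (nat_lit 435) (nat_lit 6578) (.f (nat_lit 561) (nat_lit 593) (nat_lit 5585) (.f (nat_lit 563) (nat_lit 591) (nat_lit 1583) (.d (nat_lit 531) (nat_lit 434) (nat_lit 4530) (nat_lit 532) (nat_lit 2576)))))) (.a (.f (nat_lit 499) (nat_lit 467) (nat_lit 6610) (.f (nat_lit 626) (nat_lit 531) (nat_lit 6642) (.d (nat_lit 627) (nat_lit 595) (nat_lit 4594) (nat_lit 659) (nat_lit 4626)))) (.f (nat_lit 595) (nat_lit 627) (nat_lit 4594) (.f (nat_lit 563) (nat_lit 466) (nat_lit 4562) (.d (nat_lit 561) (nat_lit 591) (nat_lit 1583) (nat_lit 596) (nat_lit 560)))))))) (.a (.f (nat_lit 497) (nat_lit 465) (nat_lit 6608) (.f (nat_lit 495) (nat_lit 463) (nat_lit 7631) (.f (nat_lit 467) (nat_lit 466) (nat_lit 2511) (.d (nat_lit 499) (nat_lit 468) (nat_lit 2512) (nat_lit 530) (nat_lit 6610))))) (.a (.f (nat_lit 497) (nat_lit 465) (nat_lit 6608) (.f (nat_lit 495) (nat_lit 463) (nat_lit 7631) (.f (nat_lit 467) (nat_lit 466) (nat_lit 2511) (.f (nat_lit 499) (nat_lit 468) (nat_lit 2512) (.d (nat_lit 531) (nat_lit 532) (nat_lit 496) (nat_lit 563) (nat_lit 5586)))))) (.a (.f (nat_lit 497) (nat_lit 465) (nat_lit 6608) (.f (nat_lit 495) (nat_lit 463) (nat_lit 7631) (.f (nat_lit 530) (nat_lit 531) (nat_lit 495) (.f (nat_lit 595) (nat_lit 627) (nat_lit 4594) (.d (nat_lit 466) (nat_lit 467) (nat_lit 2511) (nat_lit 563) (nat_lit 4562)))))) (.a (.f (nat_lit 497) (nat_lit 465) (nat_lit 6608) (.f (nat_lit 495) (nat_lit 463) (nat_lit 7631) (.f (nat_lit 531) (nat_lit 530) (nat_lit 495) (.f (nat_lit 499) (nat_lit 532) (nat_lit 496) (.d (nat_lit 467) (nat_lit 468) (nat_lit 2512) (nat_lit 563) (nat_lit 5586)))))) (.f (nat_lit 497) (nat_lit 465) (nat_lit 6608) (.f (nat_lit 495) (nat_lit 463) (nat_lit 7631) (.f (nat_lit 530) (nat_lit 531) (nat_lit 495) (.f (nat_lit 595) (nat_lit 627) (nat_lit 4594) (.f (nat_lit 563) (nat_lit 466) (nat_lit 4562) (.d (nat_lit 561) (nat_lit 591) (nat_lit 1583) (nat_lit 596) (nat_lit 560))))))))))))))) (.a (.p (nat_lit 626) (.a (.p (nat_lit 530) (.a (.f (nat_lit 531) (nat_lit 499) (nat_lit 6642) (.f (nat_lit 561) (nat_lit 559) (nat_lit 2575) (.d (nat_lit 563) (nat_lit 532) (nat_lit 2576) (nat_lit 658) (nat_lit 6674)))) (.a (.f (nat_lit 531) (nat_lit 499) (nat_lit 6642) (.f (nat_lit 658) (nat_lit 563) (nat_lit 6674) (.d (nat_lit 659) (nat_lit 627) (nat_lit 4626) (nat_lit 691) (nat_lit 4658)))) (.a (.f (nat_lit 627) (nat_lit 659) (nat_lit 4626) (.f (nat_lit 591) (nat_lit 593) (nat_lit 591) (.f (nat_lit 561) (nat_lit 563) (nat_lit 1583) (.d (nat_lit 590) (nat_lit 559) (nat_lit 1582) (nat_lit 589) (nat_lit 2605))))) (.f (nat_lit 531) (nat_lit 499) (nat_lit 6642) (.f (nat_lit 497) (nat_lit 465) (nat_lit 6608) (.d (nat_lit 495) (nat_lit 463) (nat_lit 7631) (nat_lit 498) (nat_lit 495)))))))) (.a (.p (nat_lit 530) (.a (.f (nat_lit 531) (nat_lit 499) (nat_lit 6642) (.f (nat_lit 561) (nat_lit 559) (nat_lit 2575) (.d (nat_lit 563) (nat_lit 532) (nat_lit 2576) (nat_lit 658) (nat_lit 6674)))) (.a (.f (nat_lit 531) (nat_lit 499) (nat_lit 6642) (.f (nat_lit 658) (nat_lit 563) (nat_lit 6674) (.d (nat_lit 659) (nat_lit 627) (nat_lit 4626) (nat_lit 691) (nat_lit 4658)))) (.a (.f (nat_lit 627) (nat_lit 659) (nat_lit 4626) (.f (nat_lit 591) (nat_lit 593) (nat_lit 591) (.f (nat_lit 561) (nat_lit 563) (nat_lit 1583) (.d (nat_lit 590) (nat_lit 559) (nat_lit 1582) (nat_lit 589) (nat_lit 2605))))) (.f (nat_lit 531) (nat_lit 499) (nat_lit 6642) (.f (nat_lit 561) (nat_lit 559) (nat_lit 2575) (.f (nat_lit 659) (nat_lit 627) (nat_lit 4626) (.f (nat_lit 658) (nat_lit 691) (nat_lit 4658) (.f (nat_lit 689) (nat_lit 657) (nat_lit 5681) (.d (nat_lit 690) (nat_lit 593) (nat_lit 7729) (nat_lit 721) (nat_lit 5713))))))))))) (.a s38929 (.a (.p (nat_lit 658) (.a (.f (nat_lit 659) (nat_lit 691) (nat_lit 4658) (.f (nat_lit 627) (nat_lit 530) (nat_lit 4626) (.f (nat_lit 657) (nat_lit 689) (nat_lit 5681) (.d (nat_lit 628) (nat_lit 629) (nat_lit 1649) (nat_lit 656) (nat_lit 2672))))) (.a (.f (nat_lit 659) (nat_lit 691) (nat_lit 4658) (.f (nat_lit 627) (nat_lit 530) (nat_lit 4626) (.f (nat_lit 593) (nat_lit 591) (nat_lit 591) (.f (nat_lit 690) (nat_lit 561) (nat_lit 7729) (.f (nat_lit 722) (nat_lit 754) (nat_lit 6770) (.d (nat_lit 721) (nat_lit 689) (nat_lit 5713) (nat_lit 753) (nat_lit 5745))))))) (.a (.f (nat_lit 659) (nat_lit 691) (nat_lit 4658) (.f (nat_lit 627) (nat_lit 530) (nat_lit 4626) (.f (nat_lit 591) (nat_lit 593) (nat_lit 591) (.f (nat_lit 561) (nat_lit 563) (nat_lit 1583) (.d (nat_lit 590) (nat_lit 559) (nat_lit 1582) (nat_lit 589) (nat_lit 2605)))))) (.a (.f (nat_lit 691) (nat_lit 659) (nat_lit 4658) (.f (nat_lit 690) (nat_lit 723) (nat_lit 4690) (.d (nat_lit 689) (nat_lit 657) (nat_lit 5681) (nat_lit 721) (nat_lit 5713)))) (.f (nat_lit 689) (nat_lit 657) (nat_lit 5681) (.f (nat_lit 690) (nat_lit 721) (nat_lit 5713) (.f (nat_lit 593) (nat_lit 561) (nat_lit 7729) (.d (nat_lit 591) (nat_lit 563) (nat_lit 2607) (nat_lit 627) (nat_lit 591)))))))))) (.a (.p (nat_lit 658) (.a (.f (nat_lit 659) (nat_lit 691) (nat_lit 4658) (.f (nat_lit 627) (nat_lit 530) (nat_lit 4626) (.f (nat_lit 657) (nat_lit 689) (nat_lit 5681) (.d (nat_lit 628) (nat_lit 629) (nat_lit 1649) (nat_lit 656) (nat_lit 2672))))) (.a (.f (nat_lit 659) (nat_lit 691) (nat_lit 4658) (.f (nat_lit 627) (nat_lit 530) (nat_lit 4626) (.f (nat_lit 593) (nat_lit 591) (nat_lit 591) (.f (nat_lit 690) (nat_lit 561) (nat_lit 7729) (.f (nat_lit 722) (nat_lit 754) (nat_lit 6770) (.d (nat_lit 721) (nat_lit 689) (nat_lit 5713) (nat_lit 753) (nat_lit 5745))))))) (.a (.f (nat_lit 659) (nat_lit 691) (nat_lit 4658) (.f (nat_lit 530) (nat_lit 627) (nat_lit 4626) (.f (nat_lit 531) (nat_lit 499) (nat_lit 6642) (.f (nat_lit 497) (nat_lit 465) (nat_lit 6608) (.d (nat_lit 495) (nat_lit 463) (nat_lit 7631) (nat_lit 498) (nat_lit 495)))))) (.a (.f (nat_lit 691) (nat_lit 659) (nat_lit 4658) (.f (nat_lit 690) (nat_lit 723) (nat_lit 4690) (.d (nat_lit 689) (nat_lit 657) (nat_lit 5681) (nat_lit 721) (nat_lit 5713)))) (.a s38963 (.f (nat_lit 689) (nat_lit 657) (nat_lit 5681) (.f (nat_lit 690) (nat_lit 721) (nat_lit 5713) (.f (nat_lit 593) (nat_lit 561) (nat_lit 7729) (.f (nat_lit 627) (nat_lit 591) (nat_lit 591) (.f (nat_lit 530) (nat_lit 659) (nat_lit 4626) (.f (nat_lit 497) (nat_lit 465) (nat_lit 6608) (.f (nat_lit 495) (nat_lit 463) (nat_lit 7631) (.d (nat_lit 531) (nat_lit 498) (nat_lit 495) (nat_lit 499) (nat_lit 6642))))))))))))))) (.a (.p (nat_lit 658) (.a (.f (nat_lit 691) (nat_lit 659) (nat_lit 4658) (.f (nat_lit 690) (nat_lit 723) (nat_lit 4690) (.d (nat_lit 689) (nat_lit 657) (nat_lit 5681) (nat_lit 721) (nat_lit 5713)))) (.f (nat_lit 563) (nat_lit 531) (nat_lit 6674) (.d (nat_lit 591) (nat_lit 561) (nat_lit 1583) (nat_lit 593) (nat_lit 2607))))) (.a (.p (nat_lit 530) (.a (.f (nat_lit 531) (nat_lit 499) (nat_lit 6642) (.f (nat_lit 561) (nat_lit 559) (nat_lit 2575) (.d (nat_lit 532) (nat_lit 533) (nat_lit 1553) (nat_lit 563) (nat_lit 2576)))) (.a (.f (nat_lit 531) (nat_lit 499) (nat_lit 6642) (.f (nat_lit 497) (nat_lit 465) (nat_lit 6608) (.d (nat_lit 495) (nat_lit 463) (nat_lit 7631) (nat_lit 498) (nat_lit 495)))) (.f (nat_lit 627) (nat_lit 659) (nat_lit 4626) (.f (nat_lit 591) (nat_lit 593) (nat_lit 591) (.f (nat_lit 561) (nat_lit 563) (nat_lit 1583) (.d (nat_lit 590) (nat_lit 559) (nat_lit 1582) (nat_lit 589) (nat_lit 2605)))))))) (.p (nat_lit 658) (.a (.f (nat_lit 531) (nat_lit 563) (nat_lit 6674) (.f (nat_lit 497) (nat_lit 465) (nat_lit 6608) (.f (nat_lit 495) (nat_lit 463) (nat_lit 7631) (.d (nat_lit 530) (nat_lit 498) (nat_lit 495) (nat_lit 499) (nat_lit 6642))))) (.a (.f (nat_lit 689) (nat_lit 657) (nat_lit 5681) (.f (nat_lit 690) (nat_lit 721) (nat_lit 5713) (.f (nat_lit 593) (nat_lit 561) (nat_lit 7729) (.d (nat_lit 591) (nat_lit 563) (nat_lit 2607) (nat_lit 627) (nat_lit 591))))) s38963))))))))))) (.a (.p (nat_lit 561) (.a (.f (nat_lit 595) (nat_lit 559) (nat_lit 559) (.d (nat_lit 596) (nat_lit 563) (nat_lit 560) (nat_lit 597) (nat_lit 3633))) (.a (.f (nat_lit 563) (nat_lit 591) (nat_lit 1583) (.f (nat_lit 595) (nat_lit 596) (nat_lit 560) (.f (nat_lit 564) (nat_lit 593) (nat_lit 1584) (.f (nat_lit 565) (nat_lit 566) (nat_lit 1586) (.d (nat_lit 533) (nat_lit 532) (nat_lit 2577) (nat_lit 534) (nat_lit 2578)))))) (.a (.f (nat_lit 591) (nat_lit 563) (nat_lit 1583) (.d (nat_lit 590) (nat_lit 559) (nat_lit 1582) (nat_lit 589) (nat_lit 2605))) (.f (nat_lit 559) (nat_lit 595) (nat_lit 559) (.f (nat_lit 558) (nat_lit 593) (nat_lit 558) (.d (nat_lit 590) (nat_lit 589) (nat_lit 1581) (nat_lit 591) (nat_lit 1582)))))))) (.a (.p (nat_lit 498) (.a (.f (nat_lit 497) (nat_lit 465) (nat_lit 6608) (.f (nat_lit 495) (nat_lit 463) (nat_lit 7631) (.f (nat_lit 530) (nat_lit 531) (nat_lit 495) (.d (nat_lit 467) (nat_lit 466) (nat_lit 2511) (nat_lit 499) (nat_lit 6610))))) (.a (.p (nat_lit 530) (.a (.f (nat_lit 595) (nat_lit 627) (nat_lit 4594) (.f (nat_lit 561) (nat_lit 559) (nat_lit 559) (.d (nat_lit 563) (nat_lit 466) (nat_lit 4562) (nat_lit 596) (nat_lit 560)))) (.a (.f (nat_lit 595) (nat_lit 627) (nat_lit 4594) (.f (nat_lit 466) (nat_lit 563) (nat_lit 4562) (.d (nat_lit 467) (nat_lit 435) (nat_lit 6578) (nat_lit 499) (nat_lit 6610)))) (.a (.f (nat_lit 499) (nat_lit 467) (nat_lit 6610) (.f (nat_lit 531) (nat_lit 626) (nat_lit 6642) (.f (nat_lit 561) (nat_lit 559) (nat_lit 2575) (.d (nat_lit 532) (nat_lit 533) (nat_lit 1553) (nat_lit 563) (nat_lit 2576))))) (.f (nat_lit 499) (nat_lit 467) (nat_lit 6610) (.f (nat_lit 626) (nat_lit 531) (nat_lit 6642) (.d (nat_lit 627) (nat_lit 595) (nat_lit 4594) (nat_lit 659) (nat_lit 4626)))))))) (.a (.f (nat_lit 497) (nat_lit 465) (nat_lit 6608) (.f (nat_lit 495) (nat_lit 463) (nat_lit 7631) (.f (nat_lit 467) (nat_lit 466) (nat_lit 2511) (.d (nat_lit 499) (nat_lit 468) (nat_lit 2512) (nat_lit 530) (nat_lit 6610))))) (.a (.f (nat_lit 497) (nat_lit 465) (nat_lit 6608) (.f (nat_lit 495) (nat_lit 463) (nat_lit 7631) (.f (nat_lit 467) (nat_lit 466) (nat_lit 2511) (.f (nat_lit 499) (nat_lit 468) (nat_lit 2512) (.d (nat_lit 531) (nat_lit 532) (nat_lit 496) (nat_lit 563) (nat_lit 5586)))))) (.a (.f (nat_lit 497) (nat_lit 465) (nat_lit 6608) (.f (nat_lit 495) (nat_lit 463) (nat_lit 7631) (.f (nat_lit 530) (nat_lit 531) (nat_lit 495) (.f (nat_lit 595) (nat_lit 627) (nat_lit 4594) (.d (nat_lit 466) (nat_lit 467) (nat_lit 2511) (nat_lit 563) (nat_lit 4562)))))) (.f (nat_lit 497) (nat_lit 465) (nat_lit 6608) (.f (nat_lit 495) (nat_lit 463) (nat_lit 7631) (.f (nat_lit 530) (nat_lit 531) (nat_lit 495) (.f (nat_lit 595) (nat_lit 627) (nat_lit 4594) (.f (nat_lit 561) (nat_lit 559) (nat_lit 559) (.d (nat_lit 596) (nat_lit 563) (nat_lit 560) (nat_lit 597) (nat_lit 3633))))))))))))) (.a (.p (nat_lit 498) (.a (.f (nat_lit 497) (nat_lit 465) (nat_lit 6608) (.f (nat_lit 495) (nat_lit 463) (nat_lit 7631) (.f (nat_lit 530) (nat_lit 531) (nat_lit 495) (.d (nat_lit 467) (nat_lit 466) (nat_lit 2511) (nat_lit 499) (nat_lit 6610))))) (.a (.p (nat_lit 530) (.a (.f (nat_lit 499) (nat_lit 467) (nat_lit 6610) (.f (nat_lit 626) (nat_lit 531) (nat_lit 6642) (.d (nat_lit 627) (nat_lit 595) (nat_lit 4594) (nat_lit 659) (nat_lit 4626)))) (.a (.f (nat_lit 499) (nat_lit 467) (nat_lit 6610) (.f (nat_lit 531) (nat_lit 626) (nat_lit 6642) (.f (nat_lit 561) (nat_lit 559) (nat_lit 2575) (.f (nat_lit 466) (nat_lit 593) (nat_lit 5585) (.f (nat_lit 434) (nat_lit 402) (nat_lit 4498) (.d (nat_lit 433) (nat_lit 401) (nat_lit 7569) (nat_lit 465) (nat_lit 7601))))))) (.f (nat_lit 595) (nat_lit 627) (nat_lit 4594) (.d (nat_lit 559) (nat_lit 561) (nat_lit 559) (nat_lit 593) (nat_lit 3631)))))) (.a (.p (nat_lit 530) (.a (.f (nat_lit 499) (nat_lit 467) (nat_lit 6610) (.f (nat_lit 626) (nat_lit 531) (nat_lit 6642) (.d (nat_lit 627) (nat_lit 595) (nat_lit 4594) (nat_lit 659) (nat_lit 4626)))) (.a (.f (nat_lit 499) (nat_lit 467) (nat_lit 6610) (.f (nat_lit 531) (nat_lit 626) (nat_lit 6642) (.d (nat_lit 495) (nat_lit 463) (nat_lit 7631) (nat_lit 497) (nat_lit 495)))) (.f (nat_lit 595) (nat_lit 627) (nat_lit 4594) (.d (nat_lit 559) (nat_lit 561) (nat_lit 559) (nat_lit 593) (nat_lit 3631)))))) (.a (.f (nat_lit 497) (nat_lit 465) (nat_lit 6608) (.f (nat_lit 495) (nat_lit 463) (nat_lit 7631) (.f (nat_lit 467) (nat_lit 466) (nat_lit 2511) (.d (nat_lit 499) (nat_lit 468) (nat_lit 2512) (nat_lit 530) (nat_lit 6610))))) (.a (.p (nat_lit 595) (.a (.d (nat_lit 559) (nat_lit 561) (nat_lit 559) (nat_lit 593) (nat_lit 3631)) (.a (.f (nat_lit 593) (nat_lit 559) (nat_lit 3631) (.f (nat_lit 497) (nat_lit 465) (nat_lit 6608) (.f (nat_lit 495) (nat_lit 463) (nat_lit 7631) (.f (nat_lit 628) (nat_lit 627) (nat_lit 592) (.f (nat_lit 596) (nat_lit 629) (nat_lit 593) (.f (nat_lit 565) (nat_lit 564) (nat_lit 2609) (.f (nat_lit 597) (nat_lit 566) (nat_lit 2610) (.f (nat_lit 467) (nat_lit 466) (nat_lit 2511) (.f (nat_lit 499) (nat_lit 468) (nat_lit 2512) (.f (nat_lit 533) (nat_lit 501) (nat_lit 5620) (.d (nat_lit 532) (nat_lit 500) (nat_lit 497) (nat_lit 531) (nat_lit 496)))))))))))) (.a (.f (nat_lit 497) (nat_lit 465) (nat_lit 6608) (.f (nat_lit 495) (nat_lit 463) (nat_lit 7631) (.f (nat_lit 467) (nat_lit 466) (nat_lit 2511) (.f (nat_lit 499) (nat_lit 468) (nat_lit 2512) (.f (nat_lit 532) (nat_lit 531) (nat_lit 496) (.f (nat_lit 500) (nat_lit 533) (nat_lit 497) (.f (nat_lit 596) (nat_lit 564) (nat_lit 7635) (.d (nat_lit 561) (nat_lit 593) (nat_lit 3632) (nat_lit 597) (nat_lit 3633))))))))) (.f (nat_lit 497) (nat_lit 465) (nat_lit 6608) (.f (nat_lit 495) (nat_lit 463) (nat_lit 7631) (.f (nat_lit 561) (nat_lit 559) (nat_lit 559) (.f (nat_lit 467) (nat_lit 466) (nat_lit 2511) (.f (nat_lit 499) (nat_lit 468) (nat_lit 2512) (.f (nat_lit 532) (nat_lit 531) (nat_lit 496) (.f (nat_lit 500) (nat_lit 533) (nat_lit 497) (.d (nat_lit 596) (nat_lit 564) (nat_lit 7635) (nat_lit 597) (nat_lit 3633))))))))))))) (.f (nat_lit 497) (nat_lit 465) (nat_lit 6608) (.f (nat_lit 495) (nat_lit 463) (nat_lit 7631) (.f (nat_lit 530) (nat_lit 531) (nat_lit 495) (.f (nat_lit 595) (nat_lit 627) (nat_lit 4594) (.d (nat_lit 559) (nat_lit 561) (nat_lit 559) (nat_lit 593) (nat_lit 3631)))))))))))) (.p (nat_lit 561) (.a (.f (nat_lit 595) (nat_lit 559) (nat_lit 559) (.d (nat_lit 596) (nat_lit 563) (nat_lit 560) (nat_lit 597) (nat_lit 3633))) (.a (.f (nat_lit 563) (nat_lit 591) (nat_lit 1583) (.f (nat_lit 595) (nat_lit 596) (nat_lit 560) (.f (nat_lit 593) (nat_lit 564) (nat_lit 1584) (.f (nat_lit 627) (nat_lit 628) (nat_lit 592) (.d (nat_lit 530) (nat_lit 498) (nat_lit 4594) (nat_lit 659) (nat_lit 7698)))))) (.a (.f (nat_lit 591) (nat_lit 563) (nat_lit 1583) (.d (nat_lit 590) (nat_lit 559) (nat_lit 1582) (nat_lit 589) (nat_lit 2605))) (.f (nat_lit 559) (nat_lit 595) (nat_lit 559) (.f (nat_lit 558) (nat_lit 593) (nat_lit 558) (.d (nat_lit 590) (nat_lit 589) (nat_lit 1581) (nat_lit 591) (nat_lit 1582))))))))))))))))) (.a (.p (nat_lit 594) (.a (.f (nat_lit 591) (nat_lit 623) (nat_lit 5615) (.f (nat_lit 593) (nat_lit 563) (nat_lit 2607) (.d (nat_lit 559) (nat_lit 558) (nat_lit 3630) (nat_lit 595) (nat_lit 3631)))) (.a s38866 (.a (.p (nat_lit 498) (.a (.f (nat_lit 497) (nat_lit 465) (nat_lit 6608) (.f (nat_lit 495) (nat_lit 463) (nat_lit 7631) (.f (nat_lit 530) (nat_lit 531) (nat_lit 495) (.d (nat_lit 467) (nat_lit 466) (nat_lit 2511) (nat_lit 499) (nat_lit 6610))))) (.a (.f (nat_lit 591) (nat_lit 623) (nat_lit 5615) (.f (nat_lit 593) (nat_lit 563) (nat_lit 2607) (.f (nat_lit 627) (nat_lit 626) (nat_lit 591) (.d (nat_lit 595) (nat_lit 530) (nat_lit 4594) (nat_lit 628) (nat_lit 592))))) (.f (nat_lit 497) (nat_lit 465) (nat_lit 6608) (.f (nat_lit 495) (nat_lit 463) (nat_lit 7631) (.f (nat_lit 467) (nat_lit 466) (nat_lit 2511) (.f (nat_lit 499) (nat_lit 468) (nat_lit 2512) (.d (nat_lit 531) (nat_lit 532) (nat_lit 496) (nat_lit 563) (nat_lit 5586))))))))) (.a (.p (nat_lit 498) (.a (.f (nat_lit 497) (nat_lit 465) (nat_lit 6608) (.f (nat_lit 495) (nat_lit 463) (nat_lit 7631) (.f (nat_lit 530) (nat_lit 531) (nat_lit 495) (.d (nat_lit 467) (nat_lit 466) (nat_lit 2511) (nat_lit 499) (nat_lit 6610))))) (.a (.p (nat_lit 530) (.a (.f (nat_lit 595) (nat_lit 627) (nat_lit 4594) (.f (nat_lit 466) (nat_lit 563) (nat_lit 4562) (.d (nat_lit 467) (nat_lit 435) (nat_lit 6578) (nat_lit 499) (nat_lit 6610)))) (.a (.f (nat_lit 499) (nat_lit 467) (nat_lit 6610) (.f (nat_lit 626) (nat_lit 531) (nat_lit 6642) (.f (nat_lit 623) (nat_lit 591) (nat_lit 5615) (.f (nat_lit 659) (nat_lit 627) (nat_lit 4626) (.f (nat_lit 658) (nat_lit 691) (nat_lit 4658) (.f (nat_lit 657) (nat_lit 689) (nat_lit 5681) (.d (nat_lit 624) (nat_lit 655) (nat_lit 5647) (nat_lit 656) (nat_lit 3695)))))))) (.a (.f (nat_lit 467) (nat_lit 499) (nat_lit 6610) (.f (nat_lit 466) (nat_lit 435) (nat_lit 6578) (.f (nat_lit 433) (nat_lit 465) (nat_lit 7601) (.f (nat_lit 434) (nat_lit 401) (nat_lit 7569) (.d (nat_lit 563) (nat_lit 531) (nat_lit 4530) (nat_lit 595) (nat_lit 4562)))))) (.a (.f (nat_lit 595) (nat_lit 627) (nat_lit 4594) (.f (nat_lit 466) (nat_lit 563) (nat_lit 4562) (.f (nat_lit 435) (nat_lit 467) (nat_lit 6578) (.f (nat_lit 434) (nat_lit 403) (nat_lit 6546) (.d (nat_lit 433) (nat_lit 401) (nat_lit 7569) (nat_lit 465) (nat_lit 7601)))))) (.f (nat_lit 627) (nat_lit 595) (nat_lit 4594) (.f (nat_lit 626) (nat_lit 659) (nat_lit 4626) (.f (nat_lit 623) (nat_lit 591) (nat_lit 5615) (.f (nat_lit 531) (nat_lit 499) (nat_lit 6642) (.f (nat_lit 658) (nat_lit 563) (nat_lit 6674) (.f (nat_lit 657) (nat_lit 689) (nat_lit 5681) (.d (nat_lit 655) (nat_lit 624) (nat_lit 5647) (nat_lit 656) (nat_lit 2671))))))))))))) (.a (.p (nat_lit 530) (.a (.f (nat_lit 595) (nat_lit 627) (nat_lit 4594) (.f (nat_lit 466) (nat_lit 563) (nat_lit 4562) (.d (nat_lit 467) (nat_lit 435) (nat_lit 6578) (nat_lit 499) (nat_lit 6610)))) (.a (.f (nat_lit 499) (nat_lit 467) (nat_lit 6610) (.f (nat_lit 531) (nat_lit 626) (nat_lit 6642) (.d (nat_lit 495) (nat_lit 463) (nat_lit 7631) (nat_lit 497) (nat_lit 495)))) (.a (.f (nat_lit 495) (nat_lit 463) (nat_lit 7631) (.f (nat_lit 497) (nat_lit 531) (nat_lit 495) (.f (nat_lit 466) (nat_lit 467) (nat_lit 2511) (.d (nat_lit 595) (nat_lit 563) (nat_lit 4562) (nat_lit 627) (nat_lit 4594))))) (.f (nat_lit 627) (nat_lit 595) (nat_lit 4594) (.f (nat_lit 626) (nat_lit 659) (nat_lit 4626) (.f (nat_lit 623) (nat_lit 591) (nat_lit 5615) (.f (nat_lit 531) (nat_lit 499) (nat_lit 6642) (.f (nat_lit 658) (nat_lit 563) (nat_lit 6674) (.f (nat_lit 657) (nat_lit 689) (nat_lit 5681) (.d (nat_lit 655) (nat_lit 624) (nat_lit 5647) (nat_lit 656) (nat_lit 2671)))))))))))) (.a (.f (nat_lit 497) (nat_lit 465) (nat_lit 6608) (.f (nat_lit 495) (nat_lit 463) (nat_lit 7631) (.f (nat_lit 467) (nat_lit 466) (nat_lit 2511) (.d (nat_lit 499) (nat_lit 468) (nat_lit 2512) (nat_lit 530) (nat_lit 6610))))) (.a (.f (nat_lit 497) (nat_lit 465) (nat_lit 6608) (.f (nat_lit 495) (nat_lit 463) (nat_lit 7631) (.f (nat_lit 467) (nat_lit 466) (nat_lit 2511) (.f (nat_lit 499) (nat_lit 468) (nat_lit 2512) (.d (nat_lit 531) (nat_lit 532) (nat_lit 496) (nat_lit 563) (nat_lit 5586)))))) (.a (.f (nat_lit 497) (nat_lit 465) (nat_lit 6608) (.f (nat_lit 495) (nat_lit 463) (nat_lit 7631) (.f (nat_lit 530) (nat_lit 531) (nat_lit 495) (.f (nat_lit 595) (nat_lit 627) (nat_lit 4594) (.d (nat_lit 466) (nat_lit 467) (nat_lit 2511) (nat_lit 563) (nat_lit 4562)))))) (.a (.f (nat_lit 497) (nat_lit 465) (nat_lit 6608) (.f (nat_lit 495) (nat_lit 463) (nat_lit 7631) (.f (nat_lit 531) (nat_lit 530) (nat_lit 495) (.f (nat_lit 499) (nat_lit 532) (nat_lit 496) (.d (nat_lit 467) (nat_lit 468) (nat_lit 2512) (nat_lit 563) (nat_lit 5586)))))) (.p (nat_lit 530) (.a (.f (nat_lit 627) (nat_lit 595) (nat_lit 4594) (.f (nat_lit 626) (nat_lit 659) (nat_lit 4626) (.f (nat_lit 623) (nat_lit 591) (nat_lit 5615) (.f (nat_lit 531) (nat_lit 499) (nat_lit 6642) (.f (nat_lit 658) (nat_lit 563) (nat_lit 6674) (.f (nat_lit 657) (nat_lit 689) (nat_lit 5681) (.d (nat_lit 655) (nat_lit 624) (nat_lit 5647) (nat_lit 656) (nat_lit 2671)))))))) (.a (.f (nat_lit 497) (nat_lit 465) (nat_lit 7633) (.d (nat_lit 495) (nat_lit 463) (nat_lit 7631) (nat_lit 531) (nat_lit 495))) (.f (nat_lit 465) (nat_lit 497) (nat_lit 6608) (.f (nat_lit 466) (nat_lit 433) (nat_lit 7601) (.d (nat_lit 595) (nat_lit 563) (nat_lit 4562) (nat_lit 627) (nat_lit 4594))))))))))))))) (.a (.p (nat_lit 626) (.a s38929 (.a (.f (nat_lit 591) (nat_lit 623) (nat_lit 5615) (.d (nat_lit 593) (nat_lit 563) (nat_lit 2607) (nat_lit 627) (nat_lit 591))) (.a (.f (nat_lit 591) (nat_lit 623) (nat_lit 5615) (.f (nat_lit 627) (nat_lit 593) (nat_lit 591) (.f (nat_lit 659) (nat_lit 530) (nat_lit 4626) (.d (nat_lit 691) (nat_lit 658) (nat_lit 4658) (nat_lit 723) (nat_lit 7762))))) (.f (nat_lit 591) (nat_lit 623) (nat_lit 5615) (.f (nat_lit 563) (nat_lit 593) (nat_lit 2607) (.f (nat_lit 658) (nat_lit 531) (nat_lit 6674) (.f (nat_lit 689) (nat_lit 657) (nat_lit 5681) (.f (nat_lit 690) (nat_lit 721) (nat_lit 5713) (.d (nat_lit 691) (nat_lit 659) (nat_lit 4658) (nat_lit 723) (nat_lit 4690))))))))))) (.a (.p (nat_lit 498) (.a (.f (nat_lit 497) (nat_lit 465) (nat_lit 6608) (.f (nat_lit 495) (nat_lit 463) (nat_lit 7631) (.f (nat_lit 530) (nat_lit 531) (nat_lit 495) (.d (nat_lit 467) (nat_lit 466) (nat_lit 2511) (nat_lit 499) (nat_lit 6610))))) (.a (.p (nat_lit 595) (.a (.f (nat_lit 593) (nat_lit 559) (nat_lit 3631) (.d (nat_lit 627) (nat_lit 530) (nat_lit 4594) (nat_lit 628) (nat_lit 592))) (.a (.f (nat_lit 530) (nat_lit 627) (nat_lit 4594) (.f (nat_lit 466) (nat_lit 563) (nat_lit 4562) (.d (nat_lit 467) (nat_lit 435) (nat_lit 6578) (nat_lit 499) (nat_lit 6610)))) (.a (.f (nat_lit 593) (nat_lit 559) (nat_lit 3631) (.f (nat_lit 563) (nat_lit 564) (nat_lit 2608) (.f (nat_lit 627) (nat_lit 628) (nat_lit 592) (.f (nat_lit 659) (nat_lit 691) (nat_lit 7730) (.f (nat_lit 658) (nat_lit 690) (nat_lit 5682) (.f (nat_lit 531) (nat_lit 626) (nat_lit 5650) (.d (nat_lit 499) (nat_lit 466) (nat_lit 7634) (nat_lit 467) (nat_lit 5586)))))))) (.f (nat_lit 593) (nat_lit 559) (nat_lit 3631) (.f (nat_lit 563) (nat_lit 564) (nat_lit 2608) (.f (nat_lit 530) (nat_lit 466) (nat_lit 4562) (.f (nat_lit 499) (nat_lit 467) (nat_lit 6610) (.f (nat_lit 531) (nat_lit 626) (nat_lit 5618) (.f (nat_lit 596) (nat_lit 628) (nat_lit 4595) (.f (nat_lit 597) (nat_lit 598) (nat_lit 3634) (.f (nat_lit 500) (nat_lit 468) (nat_lit 6611) (.f (nat_lit 501) (nat_lit 502) (nat_lit 1522) (.f (nat_lit 533) (nat_lit 534) (nat_lit 498) (.f (nat_lit 565) (nat_lit 566) (nat_lit 2610) (.d (nat_lit 629) (nat_lit 532) (nat_lit 7668) (nat_lit 630) (nat_lit 594))))))))))))))))) (.a (.f (nat_lit 497) (nat_lit 465) (nat_lit 6608) (.f (nat_lit 495) (nat_lit 463) (nat_lit 7631) (.f (nat_lit 467) (nat_lit 466) (nat_lit 2511) (.d (nat_lit 499) (nat_lit 468) (nat_lit 2512) (nat_lit 530) (nat_lit 6610))))) (.a (.f (nat_lit 497) (nat_lit 465) (nat_lit 6608) (.f (nat_lit 495) (nat_lit 463) (nat_lit 7631) (.f (nat_lit 467) (nat_lit 466) (nat_lit 2511) (.f (nat_lit 499) (nat_lit 468) (nat_lit 2512) (.d (nat_lit 531) (nat_lit 532) (nat_lit 496) (nat_lit 563) (nat_lit 5586)))))) (.a (.f (nat_lit 497) (nat_lit 465) (nat_lit 6608) (.f (nat_lit 495) (nat_lit 463) (nat_lit 7631) (.f (nat_lit 530) (nat_lit 531) (nat_lit 495) (.f (nat_lit 595) (nat_lit 627) (nat_lit 4594) (.d (nat_lit 466) (nat_lit 467) (nat_lit 2511) (nat_lit 563) (nat_lit 4562)))))) (.a (.f (nat_lit 497) (nat_lit 465) (nat_lit 6608) (.f (nat_lit 495) (nat_lit 463) (nat_lit 7631) (.f (nat_lit 531) (nat_lit 530) (nat_lit 495) (.f (nat_lit 499) (nat_lit 532) (nat_lit 496) (.d (nat_lit 467) (nat_lit 468) (nat_lit 2512) (nat_lit 563) (nat_lit 5586)))))) (.f (nat_lit 497) (nat_lit 465) (nat_lit 6608) (.f (nat_lit 495) (nat_lit 463) (nat_lit 7631) (.f (nat_lit 530) (nat_lit 531) (nat_lit 495) (.f (nat_lit 595) (nat_lit 627) (nat_lit 4594) (.f (nat_lit 593) (nat_lit 559) (nat_lit 3631) (.d (nat_lit 563) (nat_lit 466) (nat_lit 4562) (nat_lit 564) (nat_lit 2608)))))))))))))) (.p (nat_lit 494) (.a (.f (nat_lit 495) (nat_lit 463) (nat_lit 7631) (.f (nat_lit 497) (nat_lit 465) (nat_lit 6608) (.f (nat_lit 461) (nat_lit 462) (nat_lit 3533) (.f (nat_lit 493) (nat_lit 460) (nat_lit 3532) (.d (nat_lit 525) (nat_lit 524) (nat_lit 1516) (nat_lit 526) (nat_lit 1517)))))) (.a (.p (nat_lit 593) (.a (.f (nat_lit 595) (nat_lit 559) (nat_lit 3631) (.f (nat_lit 627) (nat_lit 628) (nat_lit 592) (.f (nat_lit 626) (nat_lit 591) (nat_lit 591) (.d (nat_lit 530) (nat_lit 498) (nat_lit 4594) (nat_lit 659) (nat_lit 4626))))) (.a (.f (nat_lit 623) (nat_lit 591) (nat_lit 5615) (.d (nat_lit 624) (nat_lit 595) (nat_lit 1615) (nat_lit 655) (nat_lit 5647))) (.a (.f (nat_lit 591) (nat_lit 623) (nat_lit 5615) (.f (nat_lit 558) (nat_lit 559) (nat_lit 3630) (.f (nat_lit 590) (nat_lit 557) (nat_lit 3629) (.f (nat_lit 621) (nat_lit 622) (nat_lit 1613) (.d (nat_lit 589) (nat_lit 526) (nat_lit 5613) (nat_lit 620) (nat_lit 1612)))))) (.f (nat_lit 595) (nat_lit 559) (nat_lit 3631) (.f (nat_lit 627) (nat_lit 628) (nat_lit 592) (.f (nat_lit 659) (nat_lit 691) (nat_lit 7730) (.d (nat_lit 530) (nat_lit 498) (nat_lit 4594) (nat_lit 626) (nat_lit 4626))))))))) (.p (nat_lit 590) (.a (.f (nat_lit 591) (nat_lit 623) (nat_lit 5615) (.f (nat_lit 495) (nat_lit 463) (nat_lit 7631) (.f (nat_lit 497) (nat_lit 465) (nat_lit 6608) (.f (nat_lit 461) (nat_lit 462) (nat_lit 3533) (.f (nat_lit 493) (nat_lit 460) (nat_lit 3532) (.f (nat_lit 525) (nat_lit 524) (nat_lit 1516) (.f (nat_lit 557) (nat_lit 558) (nat_lit 4557) (.d (nat_lit 556) (nat_lit 588) (nat_lit 5580) (nat_lit 589) (nat_lit 3628))))))))) (.a (.p (nat_lit 593) (.a (.f (nat_lit 591) (nat_lit 623) (nat_lit 5615) (.d (nat_lit 559) (nat_lit 558) (nat_lit 3630) (nat_lit 595) (nat_lit 3631))) (.a (.f (nat_lit 595) (nat_lit 559) (nat_lit 3631) (.f (nat_lit 627) (nat_lit 628) (nat_lit 592) (.f (nat_lit 626) (nat_lit 591) (nat_lit 591) (.d (nat_lit 530) (nat_lit 498) (nat_lit 4594) (nat_lit 659) (nat_lit 4626))))) (.a (.f (nat_lit 591) (nat_lit 623) (nat_lit 5615) (.f (nat_lit 557) (nat_lit 558) (nat_lit 3629) (.f (nat_lit 589) (nat_lit 556) (nat_lit 3628) (.d (nat_lit 621) (nat_lit 620) (nat_lit 1612) (nat_lit 622) (nat_lit 1613))))) (.f (nat_lit 595) (nat_lit 559) (nat_lit 3631) (.f (nat_lit 627) (nat_lit 628) (nat_lit 592) (.f (nat_lit 659) (nat_lit 691) (nat_lit 7730) (.d (nat_lit 530) (nat_lit 498) (nat_lit 4594) (nat_lit 626) (nat_lit 4626))))))))) (.a (.f (nat_lit 495) (nat_lit 463) (nat_lit 7631) (.f (nat_lit 497) (nat_lit 465) (nat_lit 6608) (.f (nat_lit 461) (nat_lit 462) (nat_lit 3533) (.f (nat_lit 493) (nat_lit 460) (nat_lit 3532) (.f (nat_lit 525) (nat_lit 524) (nat_lit 1516) (.f (nat_lit 557) (nat_lit 558) (nat_lit 4557) (.f (nat_lit 589) (nat_lit 622) (nat_lit 4589) (.d (nat_lit 556) (nat_lit 588) (nat_lit 5580) (nat_lit 591) (nat_lit 3628))))))))) (.a (.f (nat_lit 591) (nat_lit 623) (nat_lit 5615) (.f (nat_lit 495) (nat_lit 463) (nat_lit 7631) (.f (nat_lit 497) (nat_lit 465) (nat_lit 6608) (.f (nat_lit 461) (nat_lit 462) (nat_lit 3533) (.f (nat_lit 493) (nat_lit 460) (nat_lit 3532) (.f (nat_lit 524) (nat_lit 525) (nat_lit 1516) (.f (nat_lit 492) (nat_lit 523) (nat_lit 1515) (.f (nat_lit 588) (nat_lit 556) (nat_lit 6604) (.f (nat_lit 589) (nat_lit 559) (nat_lit 2604) (.d (nat_lit 620) (nat_lit 619) (nat_lit 1611) (nat_lit 621) (nat_lit 1612))))))))))) (.a (.f (nat_lit 495) (nat_lit 463) (nat_lit 7631) (.f (nat_lit 497) (nat_lit 465) (nat_lit 6608) (.f (nat_lit 461) (nat_lit 462) (nat_lit 3533) (.f (nat_lit 493) (nat_lit 460) (nat_lit 3532) (.f (nat_lit 525) (nat_lit 524) (nat_lit 1516) (.f (nat_lit 557) (nat_lit 558) (nat_lit 4557) (.f (nat_lit 589) (nat_lit 622) (nat_lit 4589) (.d (nat_lit 588) (nat_lit 556) (nat_lit 5580) (nat_lit 620) (nat_lit 5612))))))))) (.p (nat_lit 593) (.a (.f (nat_lit 591) (nat_lit 623) (nat_lit 5615) (.d (nat_lit 559) (nat_lit 558) (nat_lit 3630) (nat_lit 595) (nat_lit 3631))) (.a (.f (nat_lit 595) (nat_lit 559) (nat_lit 3631) (.f (nat_lit 627) (nat_lit 628) (nat_lit 592) (.f (nat_lit 626) (nat_lit 591) (nat_lit 591) (.d (nat_lit 530) (nat_lit 498) (nat_lit 4594) (nat_lit 659) (nat_lit 4626))))) (.a (.f (nat_lit 623) (nat_lit 591) (nat_lit 5615) (.d (nat_lit 624) (nat_lit 595) (nat_lit 1615) (nat_lit 655) (nat_lit 5647))) (.a (.f (nat_lit 591) (nat_lit 623) (nat_lit 5615) (.d (nat_lit 558) (nat_lit 557) (nat_lit 3629) (nat_lit 559) (nat_lit 3630))) (.f (nat_lit 595) (nat_lit 559) (nat_lit 3631) (.f (nat_lit 627) (nat_lit 628) (nat_lit 592) (.f (nat_lit 659) (nat_lit 691) (nat_lit 7730) (.d (nat_lit 530) (nat_lit 498) (nat_lit 4594) (nat_lit 626) (nat_lit 4626)))))))))))))))))))))))))) (.a (.f (nat_lit 591) (nat_lit 623) (nat_lit 5615) (.f (nat_lit 561) (nat_lit 563) (nat_lit 1583) (.d (nat_lit 590) (nat_lit 589) (nat_lit 2605) (nat_lit 593) (nat_lit 2606)))) (.a (.p (nat_lit 498) (.a (.f (nat_lit 497) (nat_lit 465) (nat_lit 6608) (.f (nat_lit 495) (nat_lit 463) (nat_lit 7631) (.f (nat_lit 467) (nat_lit 466) (nat_lit 2511) (.f (nat_lit 499) (nat_lit 468) (nat_lit 2512) (.d (nat_lit 531) (nat_lit 530) (nat_lit 495) (nat_lit 532) (nat_lit 496)))))) (.a (.p (nat_lit 530) (.a s39219 (.a (.p (nat_lit 466) (.a (.f (nat_lit 595) (nat_lit 563) (nat_lit 4562) (.f (nat_lit 594) (nat_lit 627) (nat_lit 4594) (.d (nat_lit 467) (nat_lit 435) (nat_lit 6578) (nat_lit 499) (nat_lit 6610)))) (.a (.f (nat_lit 467) (nat_lit 435) (nat_lit 6578) (.f (nat_lit 499) (nat_lit 594) (nat_lit 6610) (.f (nat_lit 433) (nat_lit 465) (nat_lit 7601) (.f (nat_lit 434) (nat_lit 401) (nat_lit 7569) (.d (nat_lit 402) (nat_lit 370) (nat_lit 4466) (nat_lit 531) (nat_lit 4498)))))) (.a (.f (nat_lit 435) (nat_lit 467) (nat_lit 6578) (.f (nat_lit 434) (nat_lit 403) (nat_lit 6546) (.d (nat_lit 563) (nat_lit 531) (nat_lit 4530) (nat_lit 595) (nat_lit 4562)))) (.f (nat_lit 563) (nat_lit 595) (nat_lit 4562) (.f (nat_lit 434) (nat_lit 531) (nat_lit 4530) (.d (nat_lit 433) (nat_lit 401) (nat_lit 7569) (nat_lit 465) (nat_lit 7601)))))))) (.a (.p (nat_lit 561) (.a (.f (nat_lit 531) (nat_lit 559) (nat_lit 2575) (.d (nat_lit 532) (nat_lit 533) (nat_lit 1553) (nat_lit 563) (nat_lit 2576))) (.a (.f (nat_lit 466) (nat_lit 593) (nat_lit 5585) (.f (nat_lit 467) (nat_lit 435) (nat_lit 6578) (.f (nat_lit 499) (nat_lit 594) (nat_lit 6610) (.f (nat_lit 433) (nat_lit 465) (nat_lit 7601) (.f (nat_lit 434) (nat_lit 401) (nat_lit 7569) (.d (nat_lit 402) (nat_lit 370) (nat_lit 4466) (nat_lit 531) (nat_lit 4498))))))) (.f (nat_lit 466) (nat_lit 593) (nat_lit 5585) (.f (nat_lit 435) (nat_lit 467) (nat_lit 6578) (.f (nat_lit 434) (nat_lit 403) (nat_lit 6546) (.d (nat_lit 433) (nat_lit 401) (nat_lit 7569) (nat_lit 465) (nat_lit 7601)))))))) (.a (.p (nat_lit 561) (.a (.f (nat_lit 531) (nat_lit 559) (nat_lit 2575) (.d (nat_lit 532) (nat_lit 533) (nat_lit 1553) (nat_lit 563) (nat_lit 2576))) (.f (nat_lit 466) (nat_lit 593) (nat_lit 5585) (.f (nat_lit 435) (nat_lit 467) (nat_lit 6578) (.f (nat_lit 434) (nat_lit 403) (nat_lit 6546) (.d (nat_lit 433) (nat_lit 401) (nat_lit 7569) (nat_lit 465) (nat_lit 7601))))))) (.a (.p (nat_lit 595) (.a (.f (nat_lit 594) (nat_lit 627) (nat_lit 4594) (.f (nat_lit 563) (nat_lit 466) (nat_lit 4562) (.d (nat_lit 593) (nat_lit 559) (nat_lit 3631) (nat_lit 564) (nat_lit 2608)))) (.a (.f (nat_lit 466) (nat_lit 563) (nat_lit 4562) (.f (nat_lit 594) (nat_lit 627) (nat_lit 4594) (.d (nat_lit 467) (nat_lit 435) (nat_lit 6578) (nat_lit 499) (nat_lit 6610)))) (.a (.f (nat_lit 466) (nat_lit 563) (nat_lit 4562) (.f (nat_lit 435) (nat_lit 467) (nat_lit 6578) (.f (nat_lit 434) (nat_lit 403) (nat_lit 6546) (.d (nat_lit 433) (nat_lit 401) (nat_lit 7569) (nat_lit 465) (nat_lit 7601))))) (.f (nat_lit 594) (nat_lit 627) (nat_lit 4594) (.d (nat_lit 559) (nat_lit 561) (nat_lit 559) (nat_lit 593) (nat_lit 3631))))))) (.a (.p (nat_lit 594) (.a (.f (nat_lit 499) (nat_lit 467) (nat_lit 6610) (.f (nat_lit 626) (nat_lit 531) (nat_lit 6642) (.d (nat_lit 627) (nat_lit 595) (nat_lit 4594) (nat_lit 659) (nat_lit 4626)))) (.a (.f (nat_lit 499) (nat_lit 467) (nat_lit 6610) (.f (nat_lit 531) (nat_lit 626) (nat_lit 6642) (.f (nat_lit 561) (nat_lit 559) (nat_lit 2575) (.f (nat_lit 466) (nat_lit 593) (nat_lit 5585) (.f (nat_lit 434) (nat_lit 402) (nat_lit 4498) (.d (nat_lit 433) (nat_lit 401) (nat_lit 7569) (nat_lit 465) (nat_lit 7601))))))) (.f (nat_lit 595) (nat_lit 627) (nat_lit 4594) (.d (nat_lit 559) (nat_lit 561) (nat_lit 559) (nat_lit 593) (nat_lit 3631)))))) (.a (.p (nat_lit 594) (.a (.f (nat_lit 499) (nat_lit 467) (nat_lit 6610) (.f (nat_lit 626) (nat_lit 531) (nat_lit 6642) (.d (nat_lit 627) (nat_lit 595) (nat_lit 4594) (nat_lit 659) (nat_lit 4626)))) (.a (.f (nat_lit 499) (nat_lit 467) (nat_lit 6610) (.f (nat_lit 531) (nat_lit 626) (nat_lit 6642) (.f (nat_lit 561) (nat_lit 559) (nat_lit 2575) (.d (nat_lit 532) (nat_lit 533) (nat_lit 1553) (nat_lit 563) (nat_lit 2576))))) (.f (nat_lit 595) (nat_lit 627) (nat_lit 4594) (.d (nat_lit 559) (nat_lit 561) (nat_lit 559) (nat_lit 593) (nat_lit 3631)))))) (.p (nat_lit 595) (.a (.f (nat_lit 594) (nat_lit 627) (nat_lit 4594) (.f (nat_lit 563) (nat_lit 466) (nat_lit 4562) (.d (nat_lit 593) (nat_lit 559) (nat_lit 3631) (nat_lit 564) (nat_lit 2608)))) (.a (.f (nat_lit 563) (nat_lit 466) (nat_lit 4562) (.d (nat_lit 627) (nat_lit 531) (nat_lit 7666) (nat_lit 659) (nat_lit 7698))) (.a (.f (nat_lit 594) (nat_lit 627) (nat_lit 4594) (.d (nat_lit 559) (nat_lit 561) (nat_lit 559) (nat_lit 593) (nat_lit 3631))) (.f (nat_lit 466) (nat_lit 563) (nat_lit 4562) (.f (nat_lit 561) (nat_lit 593) (nat_lit 5585) (.d (nat_lit 559) (nat_lit 531) (nat_lit 2575) (nat_lit 594) (nat_lit 559)))))))))))))))) (.a (.p (nat_lit 530) (.a s39219 (.a (.f (nat_lit 495) (nat_lit 463) (nat_lit 7631) (.f (nat_lit 497) (nat_lit 531) (nat_lit 495) (.f (nat_lit 467) (nat_lit 466) (nat_lit 2511) (.d (nat_lit 499) (nat_lit 468) (nat_lit 2512) (nat_lit 594) (nat_lit 6610))))) (.a (.f (nat_lit 495) (nat_lit 463) (nat_lit 7631) (.f (nat_lit 531) (nat_lit 497) (nat_lit 495) (.f (nat_lit 561) (nat_lit 559) (nat_lit 2575) (.d (nat_lit 532) (nat_lit 533) (nat_lit 1553) (nat_lit 563) (nat_lit 2576))))) (.p (nat_lit 594) (.a (.f (nat_lit 595) (nat_lit 627) (nat_lit 4594) (.f (nat_lit 561) (nat_lit 559) (nat_lit 559) (.d (nat_lit 563) (nat_lit 466) (nat_lit 4562) (nat_lit 596) (nat_lit 560)))) (.a (.f (nat_lit 595) (nat_lit 627) (nat_lit 4594) (.f (nat_lit 466) (nat_lit 563) (nat_lit 4562) (.d (nat_lit 467) (nat_lit 435) (nat_lit 6578) (nat_lit 499) (nat_lit 6610)))) (.a (.f (nat_lit 467) (nat_lit 499) (nat_lit 6610) (.f (nat_lit 466) (nat_lit 435) (nat_lit 6578) (.d (nat_lit 495) (nat_lit 463) (nat_lit 7631) (nat_lit 497) (nat_lit 2511)))) (.f (nat_lit 595) (nat_lit 627) (nat_lit 4594) (.d (nat_lit 559) (nat_lit 561) (nat_lit 559) (nat_lit 593) (nat_lit 3631))))))))))) (.a (.p (nat_lit 466) (.a (.f (nat_lit 497) (nat_lit 465) (nat_lit 6608) (.d (nat_lit 495) (nat_lit 463) (nat_lit 7631) (nat_lit 467) (nat_lit 2511))) (.a (.p (nat_lit 530) (.a (.f (nat_lit 595) (nat_lit 563) (nat_lit 4562) (.f (nat_lit 594) (nat_lit 627) (nat_lit 4594) (.d (nat_lit 467) (nat_lit 435) (nat_lit 6578) (nat_lit 499) (nat_lit 6610)))) (.a (.f (nat_lit 435) (nat_lit 467) (nat_lit 6578) (.f (nat_lit 434) (nat_lit 403) (nat_lit 6546) (.d (nat_lit 433) (nat_lit 401) (nat_lit 7569) (nat_lit 465) (nat_lit 7601)))) (.f (nat_lit 595) (nat_lit 563) (nat_lit 4562) (.f (nat_lit 594) (nat_lit 627) (nat_lit 4594) (.d (nat_lit 593) (nat_lit 559) (nat_lit 3631) (nat_lit 561) (nat_lit 5585))))))) (.a (.f (nat_lit 495) (nat_lit 463) (nat_lit 7631) (.f (nat_lit 467) (nat_lit 497) (nat_lit 2511) (.f (nat_lit 530) (nat_lit 435) (nat_lit 6578) (.f (nat_lit 595) (nat_lit 563) (nat_lit 4562) (.d (nat_lit 594) (nat_lit 499) (nat_lit 6610) (nat_lit 627) (nat_lit 4594)))))) (.f (nat_lit 465) (nat_lit 497) (nat_lit 6608) (.f (nat_lit 530) (nat_lit 433) (nat_lit 7601) (.f (nat_lit 595) (nat_lit 563) (nat_lit 4562) (.f (nat_lit 594) (nat_lit 627) (nat_lit 4594) (.d (nat_lit 593) (nat_lit 559) (nat_lit 3631) (nat_lit 561) (nat_lit 5585)))))))))) (.a (.f (nat_lit 497) (nat_lit 465) (nat_lit 6608) (.f (nat_lit 495) (nat_lit 463) (nat_lit 7631) (.f (nat_lit 467) (nat_lit 466) (nat_lit 2511) (.f (nat_lit 499) (nat_lit 468) (nat_lit 2512) (.f (nat_lit 531) (nat_lit 532) (nat_lit 496) (.f (nat_lit 563) (nat_lit 594) (nat_lit 5586) (.f (nat_lit 596) (nat_lit 564) (nat_lit 4563) (.d (nat_lit 595) (nat_lit 561) (nat_lit 560) (nat_lit 628) (nat_lit 4595))))))))) (.a (.f (nat_lit 497) (nat_lit 465) (nat_lit 6608) (.f (nat_lit 495) (nat_lit 463) (nat_lit 7631) (.f (nat_lit 530) (nat_lit 531) (nat_lit 495) (.f (nat_lit 466) (nat_lit 467) (nat_lit 2511) (.f (nat_lit 595) (nat_lit 563) (nat_lit 4562) (.f (nat_lit 594) (nat_lit 627) (nat_lit 4594) (.d (nat_lit 593) (nat_lit 559) (nat_lit 3631) (nat_lit 561) (nat_lit 5585)))))))) (.a (.f (nat_lit 497) (nat_lit 465) (nat_lit 6608) (.f (nat_lit 495) (nat_lit 463) (nat_lit 7631) (.f (nat_lit 531) (nat_lit 530) (nat_lit 495) (.f (nat_lit 499) (nat_lit 532) (nat_lit 496) (.f (nat_lit 467) (nat_lit 468) (nat_lit 2512) (.f (nat_lit 563) (nat_lit 594) (nat_lit 5586) (.f (nat_lit 596) (nat_lit 564) (nat_lit 4563) (.d (nat_lit 595) (nat_lit 561) (nat_lit 560) (nat_lit 628) (nat_lit 4595))))))))) (.p (nat_lit 530) (.a (.p (nat_lit 595) (.a (.f (nat_lit 594) (nat_lit 627) (nat_lit 4594) (.f (nat_lit 563) (nat_lit 466) (nat_lit 4562) (.d (nat_lit 593) (nat_lit 559) (nat_lit 3631) (nat_lit 564) (nat_lit 2608)))) (.a (.f (nat_lit 563) (nat_lit 466) (nat_lit 4562) (.d (nat_lit 627) (nat_lit 531) (nat_lit 7666) (nat_lit 659) (nat_lit 7698))) (.a (.f (nat_lit 594) (nat_lit 627) (nat_lit 4594) (.d (nat_lit 559) (nat_lit 561) (nat_lit 559) (nat_lit 593) (nat_lit 3631))) (.f (nat_lit 466) (nat_lit 563) (nat_lit 4562) (.f (nat_lit 561) (nat_lit 593) (nat_lit 5585) (.d (nat_lit 559) (nat_lit 531) (nat_lit 2575) (nat_lit 594) (nat_lit 559)))))))) (.a (.f (nat_lit 497) (nat_lit 465) (nat_lit 6608) (.d (nat_lit 495) (nat_lit 463) (nat_lit 7631) (nat_lit 531) (nat_lit 495))) (.f (nat_lit 465) (nat_lit 497) (nat_lit 6608) (.f (nat_lit 466) (nat_lit 433) (nat_lit 7601) (.f (nat_lit 595) (nat_lit 563) (nat_lit 4562) (.f (nat_lit 594) (nat_lit 627) (nat_lit 4594) (.d (nat_lit 593) (nat_lit 559) (nat_lit 3631) (nat_lit 561) (nat_lit 5585))))))))))))))))) (.p (nat_lit 525) (.a (.f (nat_lit 495) (nat_lit 463) (nat_lit 7631) (.f (nat_lit 497) (nat_lit 465) (nat_lit 6608) (.f (nat_lit 494) (nat_lit 526) (nat_lit 1517) (.f (nat_lit 493) (nat_lit 524) (nat_lit 1516) (.d (nat_lit 461) (nat_lit 460) (nat_lit 3532) (nat_lit 462) (nat_lit 3533)))))) (.a (.p (nat_lit 558) (.a (.p (nat_lit 559) (.a (.f (nat_lit 561) (nat_lit 526) (nat_lit 3597) (.f (nat_lit 557) (nat_lit 524) (nat_lit 3596) (.d (nat_lit 589) (nat_lit 588) (nat_lit 1580) (nat_lit 590) (nat_lit 1581)))) (.a (.d (nat_lit 557) (nat_lit 524) (nat_lit 3596) (nat_lit 593) (nat_lit 557)) (.f (nat_lit 561) (nat_lit 526) (nat_lit 3597) (.d (nat_lit 594) (nat_lit 593) (nat_lit 558) (nat_lit 595) (nat_lit 559)))))) (.a (.p (nat_lit 557) (.a (.f (nat_lit 559) (nat_lit 524) (nat_lit 3596) (.f (nat_lit 556) (nat_lit 591) (nat_lit 556) (.d (nat_lit 588) (nat_lit 587) (nat_lit 1579) (nat_lit 589) (nat_lit 1580)))) (.a (.f (nat_lit 591) (nat_lit 623) (nat_lit 5615) (.f (nat_lit 590) (nat_lit 593) (nat_lit 3629) (.d (nat_lit 556) (nat_lit 555) (nat_lit 555) (nat_lit 589) (nat_lit 3628)))) (.f (nat_lit 524) (nat_lit 559) (nat_lit 3596) (.f (nat_lit 523) (nat_lit 522) (nat_lit 522) (.f (nat_lit 495) (nat_lit 463) (nat_lit 7631) (.d (nat_lit 494) (nat_lit 493) (nat_lit 1516) (nat_lit 526) (nat_lit 2539)))))))) (.a s39390 (.a (.p (nat_lit 559) (.a (.f (nat_lit 561) (nat_lit 526) (nat_lit 3597) (.d (nat_lit 590) (nat_lit 589) (nat_lit 1581) (nat_lit 591) (nat_lit 1582))) (.a (.f (nat_lit 557) (nat_lit 524) (nat_lit 3596) (.f (nat_lit 556) (nat_lit 591) (nat_lit 556) (.d (nat_lit 588) (nat_lit 587) (nat_lit 1579) (nat_lit 589) (nat_lit 1580)))) (.a (.f (nat_lit 561) (nat_lit 526) (nat_lit 3597) (.f (nat_lit 557) (nat_lit 524) (nat_lit 3596) (.d (nat_lit 589) (nat_lit 588) (nat_lit 1580) (nat_lit 590) (nat_lit 1581)))) (.f (nat_lit 591) (nat_lit 623) (nat_lit 5615) (.d (nat_lit 561) (nat_lit 526) (nat_lit 3597) (nat_lit 590) (nat_lit 1582))))))) (.a (.p (nat_lit 561) (.a (.f (nat_lit 559) (nat_lit 526) (nat_lit 3597) (.d (nat_lit 590) (nat_lit 589) (nat_lit 1581) (nat_lit 591) (nat_lit 1582))) (.a (.f (nat_lit 591) (nat_lit 623) (nat_lit 5615) (.d (nat_lit 590) (nat_lit 589) (nat_lit 2605) (nat_lit 593) (nat_lit 2606))) (.f (nat_lit 559) (nat_lit 526) (nat_lit 3597) (.d (nat_lit 594) (nat_lit 593) (nat_lit 558) (nat_lit 595) (nat_lit 559)))))) (.a (.p (nat_lit 559) (.a (.f (nat_lit 557) (nat_lit 524) (nat_lit 3596) (.f (nat_lit 556) (nat_lit 591) (nat_lit 556) (.d (nat_lit 588) (nat_lit 587) (nat_lit 1579) (nat_lit 589) (nat_lit 1580)))) (.f (nat_lit 561) (nat_lit 526) (nat_lit 3597) (.d (nat_lit 594) (nat_lit 593) (nat_lit 558) (nat_lit 595) (nat_lit 559))))) (.a (.p (nat_lit 557) (.a (.f (nat_lit 524) (nat_lit 559) (nat_lit 3596) (.f (nat_lit 523) (nat_lit 522) (nat_lit 522) (.f (nat_lit 495) (nat_lit 463) (nat_lit 7631) (.d (nat_lit 494) (nat_lit 493) (nat_lit 1516) (nat_lit 526) (nat_lit 2539))))) (.a (.d (nat_lit 559) (nat_lit 524) (nat_lit 3596) (nat_lit 593) (nat_lit 557)) (.f (nat_lit 591) (nat_lit 623) (nat_lit 5615) (.f (nat_lit 590) (nat_lit 593) (nat_lit 3629) (.f (nat_lit 493) (nat_lit 461) (nat_lit 4557) (.d (nat_lit 622) (nat_lit 526) (nat_lit 7661) (nat_lit 654) (nat_lit 7693)))))))) (.p (nat_lit 557) (.a (.f (nat_lit 559) (nat_lit 524) (nat_lit 3596) (.f (nat_lit 556) (nat_lit 591) (nat_lit 556) (.d (nat_lit 588) (nat_lit 587) (nat_lit 1579) (nat_lit 589) (nat_lit 1580)))) (.a (.f (nat_lit 591) (nat_lit 623) (nat_lit 5615) (.f (nat_lit 590) (nat_lit 593) (nat_lit 3629) (.d (nat_lit 556) (nat_lit 555) (nat_lit 555) (nat_lit 589) (nat_lit 3628)))) (.a (.f (nat_lit 559) (nat_lit 524) (nat_lit 3596) (.f (nat_lit 589) (nat_lit 588) (nat_lit 1580) (.f (nat_lit 590) (nat_lit 561) (nat_lit 1581) (.d (nat_lit 493) (nat_lit 461) (nat_lit 4557) (nat_lit 622) (nat_lit 4589))))) (.f (nat_lit 524) (nat_lit 559) (nat_lit 3596) (.f (nat_lit 495) (nat_lit 463) (nat_lit 7631) (.f (nat_lit 493) (nat_lit 494) (nat_lit 1516) (.f (nat_lit 461) (nat_lit 590) (nat_lit 4557) (.d (nat_lit 556) (nat_lit 429) (nat_lit 5548) (nat_lit 588) (nat_lit 5580)))))))))))))))))) (.a (.p (nat_lit 558) (.a (.p (nat_lit 559) (.a (.f (nat_lit 561) (nat_lit 526) (nat_lit 3597) (.f (nat_lit 557) (nat_lit 524) (nat_lit 3596) (.d (nat_lit 589) (nat_lit 588) (nat_lit 1580) (nat_lit 590) (nat_lit 1581)))) (.a (.d (nat_lit 557) (nat_lit 524) (nat_lit 3596) (nat_lit 593) (nat_lit 557)) (.f (nat_lit 561) (nat_lit 526) (nat_lit 3597) (.d (nat_lit 594) (nat_lit 593) (nat_lit 558) (nat_lit 595) (nat_lit 559)))))) (.a (.p (nat_lit 557) (.a (.f (nat_lit 559) (nat_lit 524) (nat_lit 3596) (.f (nat_lit 556) (nat_lit 591) (nat_lit 556) (.d (nat_lit 588) (nat_lit 587) (nat_lit 1579) (nat_lit 589) (nat_lit 1580)))) (.a (.f (nat_lit 591) (nat_lit 623) (nat_lit 5615) (.f (nat_lit 590) (nat_lit 593) (nat_lit 3629) (.d (nat_lit 556) (nat_lit 555) (nat_lit 555) (nat_lit 589) (nat_lit 3628)))) (.d (nat_lit 559) (nat_lit 524) (nat_lit 3596) (nat_lit 593) (nat_lit 557))))) (.a s39390 (.a (.p (nat_lit 559) (.a (.f (nat_lit 561) (nat_lit 526) (nat_lit 3597) (.d (nat_lit 590) (nat_lit 589) (nat_lit 1581) (nat_lit 591) (nat_lit 1582))) (.a (.f (nat_lit 557) (nat_lit 524) (nat_lit 3596) (.f (nat_lit 556) (nat_lit 591) (nat_lit 556) (.d (nat_lit 588) (nat_lit 587) (nat_lit 1579) (nat_lit 589) (nat_lit 1580)))) (.a (.f (nat_lit 561) (nat_lit 526) (nat_lit 3597) (.f (nat_lit 557) (nat_lit 524) (nat_lit 3596) (.d (nat_lit 589) (nat_lit 588) (nat_lit 1580) (nat_lit 590) (nat_lit 1581)))) (.f (nat_lit 591) (nat_lit 623) (nat_lit 5615) (.d (nat_lit 561) (nat_lit 526) (nat_lit 3597) (nat_lit 590) (nat_lit 1582))))))) (.a (.p (nat_lit 561) (.a (.f (nat_lit 559) (nat_lit 526) (nat_lit 3597) (.d (nat_lit 590) (nat_lit 589) (nat_lit 1581) (nat_lit 591) (nat_lit 1582))) (.a (.f (nat_lit 591) (nat_lit 623) (nat_lit 5615) (.d (nat_lit 590) (nat_lit 589) (nat_lit 2605) (nat_lit 593) (nat_lit 2606))) (.f (nat_lit 559) (nat_lit 526) (nat_lit 3597) (.d (nat_lit 594) (nat_lit 593) (nat_lit 558) (nat_lit 595) (nat_lit 559)))))) (.a (.p (nat_lit 559) (.a (.f (nat_lit 557) (nat_lit 524) (nat_lit 3596) (.f (nat_lit 556) (nat_lit 591) (nat_lit 556) (.d (nat_lit 588) (nat_lit 587) (nat_lit 1579) (nat_lit 589) (nat_lit 1580)))) (.f (nat_lit 561) (nat_lit 526) (nat_lit 3597) (.d (nat_lit 594) (nat_lit 593) (nat_lit 558) (nat_lit 595) (nat_lit 559))))) (.p (nat_lit 557) (.a (.d (nat_lit 559) (nat_lit 524) (nat_lit 3596) (nat_lit 593) (nat_lit 557)) (.a (.f (nat_lit 591) (nat_lit 623) (nat_lit 5615) (.f (nat_lit 590) (nat_lit 593) (nat_lit 3629) (.f (nat_lit 493) (nat_lit 461) (nat_lit 4557) (.d (nat_lit 622) (nat_lit 526) (nat_lit 7661) (nat_lit 654) (nat_lit 7693))))) (.f (nat_lit 559) (nat_lit 524) (nat_lit 3596) (.d (nat_lit 591) (nat_lit 556) (nat_lit 556) (nat_lit 623) (nat_lit 5615))))))))))))) (.a (.p (nat_lit 558) (.a (.p (nat_lit 559) (.a (.f (nat_lit 561) (nat_lit 526) (nat_lit 3597) (.f (nat_lit 557) (nat_lit 524) (nat_lit 3596) (.d (nat_lit 589) (nat_lit 588) (nat_lit 1580) (nat_lit 590) (nat_lit 1581)))) (.a (.d (nat_lit 557) (nat_lit 524) (nat_lit 3596) (nat_lit 593) (nat_lit 557)) (.f (nat_lit 561) (nat_lit 526) (nat_lit 3597) (.d (nat_lit 594) (nat_lit 593) (nat_lit 558) (nat_lit 595) (nat_lit 559)))))) (.a (.p (nat_lit 557) (.a (.f (nat_lit 559) (nat_lit 524) (nat_lit 3596) (.f (nat_lit 556) (nat_lit 591) (nat_lit 556) (.d (nat_lit 588) (nat_lit 587) (nat_lit 1579) (nat_lit 589) (nat_lit 1580)))) (.a (.f (nat_lit 591) (nat_lit 623) (nat_lit 5615) (.f (nat_lit 590) (nat_lit 593) (nat_lit 3629) (.d (nat_lit 556) (nat_lit 555) (nat_lit 555) (nat_lit 589) (nat_lit 3628)))) (.d (nat_lit 559) (nat_lit 524) (nat_lit 3596) (nat_lit 593) (nat_lit 557))))) (.a (.p (nat_lit 590) (.a (.f (nat_lit 591) (nat_lit 623) (nat_lit 5615) (.f (nat_lit 557) (nat_lit 593) (nat_lit 3629) (.d (nat_lit 556) (nat_lit 555) (nat_lit 555) (nat_lit 589) (nat_lit 3628)))) (.a (.p (nat_lit 622) (.a (.f (nat_lit 557) (nat_lit 654) (nat_lit 7693) (.d (nat_lit 493) (nat_lit 526) (nat_lit 7661) (nat_lit 589) (nat_lit 4589))) (.a (.f (nat_lit 526) (nat_lit 493) (nat_lit 7661) (.f (nat_lit 621) (nat_lit 653) (nat_lit 5645) (.f (nat_lit 591) (nat_lit 593) (nat_lit 1613) (.d (nat_lit 620) (nat_lit 589) (nat_lit 1612) (nat_lit 619) (nat_lit 2635))))) (.a (.f (nat_lit 654) (nat_lit 557) (nat_lit 7693) (.f (nat_lit 653) (nat_lit 685) (nat_lit 5677) (.f (nat_lit 621) (nat_lit 526) (nat_lit 5645) (.f (nat_lit 655) (nat_lit 687) (nat_lit 4654) (.d (nat_lit 656) (nat_lit 620) (nat_lit 3692) (nat_lit 657) (nat_lit 3693)))))) (.f (nat_lit 557) (nat_lit 654) (nat_lit 7693) (.d (nat_lit 493) (nat_lit 461) (nat_lit 4557) (nat_lit 589) (nat_lit 4589))))))) (.a s39387 (.a (.f (nat_lit 591) (nat_lit 623) (nat_lit 5615) (.d (nat_lit 561) (nat_lit 589) (nat_lit 2605) (nat_lit 593) (nat_lit 2606))) (.f (nat_lit 591) (nat_lit 623) (nat_lit 5615) (.d (nat_lit 593) (nat_lit 557) (nat_lit 3629) (nat_lit 561) (nat_lit 2606)))))))) (.a (.p (nat_lit 559) (.a (.f (nat_lit 561) (nat_lit 526) (nat_lit 3597) (.d (nat_lit 590) (nat_lit 589) (nat_lit 1581) (nat_lit 591) (nat_lit 1582))) (.a (.f (nat_lit 557) (nat_lit 524) (nat_lit 3596) (.f (nat_lit 556) (nat_lit 591) (nat_lit 556) (.d (nat_lit 588) (nat_lit 587) (nat_lit 1579) (nat_lit 589) (nat_lit 1580)))) (.a (.f (nat_lit 561) (nat_lit 526) (nat_lit 3597) (.f (nat_lit 557) (nat_lit 524) (nat_lit 3596) (.d (nat_lit 589) (nat_lit 588) (nat_lit 1580) (nat_lit 590) (nat_lit 1581)))) (.f (nat_lit 591) (nat_lit 623) (nat_lit 5615) (.d (nat_lit 561) (nat_lit 526) (nat_lit 3597) (nat_lit 590) (nat_lit 1582))))))) (.a (.p (nat_lit 561) (.a (.f (nat_lit 559) (nat_lit 526) (nat_lit 3597) (.d (nat_lit 590) (nat_lit 589) (nat_lit 1581) (nat_lit 591) (nat_lit 1582))) (.a (.f (nat_lit 591) (nat_lit 623) (nat_lit 5615) (.d (nat_lit 590) (nat_lit 589) (nat_lit 2605) (nat_lit 593) (nat_lit 2606))) (.f (nat_lit 559) (nat_lit 526) (nat_lit 3597) (.d (nat_lit 594) (nat_lit 593) (nat_lit 558) (nat_lit 595) (nat_lit 559)))))) (.a (.p (nat_lit 559) (.a (.f (nat_lit 557) (nat_lit 524) (nat_lit 3596) (.f (nat_lit 556) (nat_lit 591) (nat_lit 556) (.d (nat_lit 588) (nat_lit 587) (nat_lit 1579) (nat_lit 589) (nat_lit 1580)))) (.f (nat_lit 561) (nat_lit 526) (nat_lit 3597) (.d (nat_lit 594) (nat_lit 593) (nat_lit 558) (nat_lit 595) (nat_lit 559))))) (.p (nat_lit 557) (.a (.d (nat_lit 559) (nat_lit 524) (nat_lit 3596) (nat_lit 593) (nat_lit 557)) (.a (.f (nat_lit 591) (nat_lit 623) (nat_lit 5615) (.f (nat_lit 590) (nat_lit 593) (nat_lit 3629) (.f (nat_lit 493) (nat_lit 461) (nat_lit 4557) (.d (nat_lit 622) (nat_lit 526) (nat_lit 7661) (nat_lit 654) (nat_lit 7693))))) (.f (nat_lit 559) (nat_lit 524) (nat_lit 3596) (.d (nat_lit 591) (nat_lit 556) (nat_lit 556) (nat_lit 623) (nat_lit 5615))))))))))))) (.a (.p (nat_lit 558) (.a (.p (nat_lit 559) (.a (.f (nat_lit 561) (nat_lit 526) (nat_lit 3597) (.f (nat_lit 557) (nat_lit 524) (nat_lit 3596) (.d (nat_lit 589) (nat_lit 588) (nat_lit 1580) (nat_lit 590) (nat_lit 1581)))) (.a (.d (nat_lit 557) (nat_lit 524) (nat_lit 3596) (nat_lit 593) (nat_lit 557)) (.f (nat_lit 561) (nat_lit 526) (nat_lit 3597) (.d (nat_lit 594) (nat_lit 593) (nat_lit 558) (nat_lit 595) (nat_lit 559)))))) (.a (.p (nat_lit 557) (.a (.f (nat_lit 559) (nat_lit 524) (nat_lit 3596) (.f (nat_lit 556) (nat_lit 591) (nat_lit 556) (.d (nat_lit 588) (nat_lit 587) (nat_lit 1579) (nat_lit 589) (nat_lit 1580)))) (.a (.f (nat_lit 591) (nat_lit 623) (nat_lit 5615) (.f (nat_lit 590) (nat_lit 593) (nat_lit 3629) (.d (nat_lit 556) (nat_lit 555) (nat_lit 555) (nat_lit 589) (nat_lit 3628)))) (.d (nat_lit 559) (nat_lit 524) (nat_lit 3596) (nat_lit 593) (nat_lit 557))))) (.a (.f (nat_lit 591) (nat_lit 623) (nat_lit 5615) (.p (nat_lit 590) (.a (.d (nat_lit 561) (nat_lit 589) (nat_lit 2605) (nat_lit 593) (nat_lit 2606)) (.a (.f (nat_lit 557) (nat_lit 593) (nat_lit 3629) (.d (nat_lit 556) (nat_lit 555) (nat_lit 555) (nat_lit 589) (nat_lit 3628))) (.a (.f (nat_lit 589) (nat_lit 561) (nat_lit 2605) (.f (nat_lit 557) (nat_lit 556) (nat_lit 3628) (.f (nat_lit 621) (nat_lit 620) (nat_lit 1612) (.d (nat_lit 526) (nat_lit 494) (nat_lit 5613) (nat_lit 653) (nat_lit 6669))))) (.d (nat_lit 593) (nat_lit 557) (nat_lit 3629) (nat_lit 561) (nat_lit 2606))))))) (.a (.p (nat_lit 559) (.a (.f (nat_lit 561) (nat_lit 526) (nat_lit 3597) (.d (nat_lit 590) (nat_lit 589) (nat_lit 1581) (nat_lit 591) (nat_lit 1582))) (.a (.f (nat_lit 557) (nat_lit 524) (nat_lit 3596) (.f (nat_lit 556) (nat_lit 591) (nat_lit 556) (.d (nat_lit 588) (nat_lit 587) (nat_lit 1579) (nat_lit 589) (nat_lit 1580)))) (.a (.f (nat_lit 561) (nat_lit 526) (nat_lit 3597) (.f (nat_lit 557) (nat_lit 524) (nat_lit 3596) (.d (nat_lit 589) (nat_lit 588) (nat_lit 1580) (nat_lit 590) (nat_lit 1581)))) (.f (nat_lit 591) (nat_lit 623) (nat_lit 5615) (.d (nat_lit 561) (nat_lit 526) (nat_lit 3597) (nat_lit 590) (nat_lit 1582))))))) (.a (.p (nat_lit 561) (.a (.f (nat_lit 559) (nat_lit 526) (nat_lit 3597) (.d (nat_lit 590) (nat_lit 589) (nat_lit 1581) (nat_lit 591) (nat_lit 1582))) (.a (.f (nat_lit 591) (nat_lit 623) (nat_lit 5615) (.d (nat_lit 590) (nat_lit 589) (nat_lit 2605) (nat_lit 593) (nat_lit 2606))) (.f (nat_lit 559) (nat_lit 526) (nat_lit 3597) (.d (nat_lit 594) (nat_lit 593) (nat_lit 558) (nat_lit 595) (nat_lit 559)))))) (.a (.p (nat_lit 559) (.a (.f (nat_lit 557) (nat_lit 524) (nat_lit 3596) (.f (nat_lit 556) (nat_lit 591) (nat_lit 556) (.d (nat_lit 588) (nat_lit 587) (nat_lit 1579) (nat_lit 589) (nat_lit 1580)))) (.f (nat_lit 561) (nat_lit 526) (nat_lit 3597) (.d (nat_lit 594) (nat_lit 593) (nat_lit 558) (nat_lit 595) (nat_lit 559))))) (.f (nat_lit 495) (nat_lit 463) (nat_lit 7631) (.f (nat_lit 497) (nat_lit 465) (nat_lit 6608) (.f (nat_lit 526) (nat_lit 494) (nat_lit 1517) (.f (nat_lit 559) (nat_lit 561) (nat_lit 3597) (.d (nat_lit 524) (nat_lit 523) (nat_lit 523) (nat_lit 557) (nat_lit 3596))))))))))))) (.a (.p (nat_lit 557) (.a (.p (nat_lit 558) (.a (.f (nat_lit 559) (nat_lit 524) (nat_lit 3596) (.f (nat_lit 556) (nat_lit 591) (nat_lit 556) (.d (nat_lit 588) (nat_lit 587) (nat_lit 1579) (nat_lit 589) (nat_lit 1580)))) (.a (.f (nat_lit 591) (nat_lit 623) (nat_lit 5615) (.f (nat_lit 590) (nat_lit 593) (nat_lit 3629) (.d (nat_lit 556) (nat_lit 555) (nat_lit 555) (nat_lit 589) (nat_lit 3628)))) (.a (.f (nat_lit 559) (nat_lit 524) (nat_lit 3596) (.f (nat_lit 589) (nat_lit 588) (nat_lit 1580) (.f (nat_lit 590) (nat_lit 561) (nat_lit 1581) (.d (nat_lit 493) (nat_lit 461) (nat_lit 4557) (nat_lit 622) (nat_lit 4589))))) (.f (nat_lit 524) (nat_lit 559) (nat_lit 3596) (.f (nat_lit 495) (nat_lit 463) (nat_lit 7631) (.f (nat_lit 493) (nat_lit 494) (nat_lit 1516) (.f (nat_lit 461) (nat_lit 590) (nat_lit 4557) (.d (nat_lit 556) (nat_lit 429) (nat_lit 5548) (nat_lit 588) (nat_lit 5580)))))))))) (.a (.p (nat_lit 558) (.a (.f (nat_lit 559) (nat_lit 524) (nat_lit 3596) (.f (nat_lit 556) (nat_lit 591) (nat_lit 556) (.d (nat_lit 588) (nat_lit 587) (nat_lit 1579) (nat_lit 589) (nat_lit 1580)))) (.a (.p (nat_lit 493) (.a (.f (nat_lit 461) (nat_lit 590) (nat_lit 4557) (.f (nat_lit 460) (nat_lit 428) (nat_lit 7596) (.f (nat_lit 462) (nat_lit 430) (nat_lit 6573) (.f (nat_lit 463) (nat_lit 495) (nat_lit 7631) (.d (nat_lit 492) (nat_lit 491) (nat_lit 1483) (nat_lit 589) (nat_lit 7628)))))) (.a (.f (nat_lit 461) (nat_lit 590) (nat_lit 4557) (.f (nat_lit 556) (nat_lit 588) (nat_lit 5580) (.f (nat_lit 524) (nat_lit 429) (nat_lit 5548) (.f (nat_lit 460) (nat_lit 428) (nat_lit 7596) (.f (nat_lit 492) (nat_lit 589) (nat_lit 4556) (.f (nat_lit 523) (nat_lit 522) (nat_lit 522) (.f (nat_lit 555) (nat_lit 587) (nat_lit 5579) (.f (nat_lit 459) (nat_lit 427) (nat_lit 7595) (.f (nat_lit 458) (nat_lit 457) (nat_lit 457) (.d (nat_lit 426) (nat_lit 425) (nat_lit 3497) (nat_lit 491) (nat_lit 7594))))))))))) (.a (.f (nat_lit 495) (nat_lit 463) (nat_lit 7631) (.f (nat_lit 494) (nat_lit 524) (nat_lit 1516) (.f (nat_lit 461) (nat_lit 460) (nat_lit 3532) (.d (nat_lit 497) (nat_lit 462) (nat_lit 3533) (nat_lit 465) (nat_lit 6608))))) (.f (nat_lit 495) (nat_lit 463) (nat_lit 7631) (.f (nat_lit 494) (nat_lit 524) (nat_lit 1516) (.f (nat_lit 589) (nat_lit 462) (nat_lit 6605) (.f (nat_lit 590) (nat_lit 622) (nat_lit 4589) (.d (nat_lit 591) (nat_lit 561) (nat_lit 2605) (nat_lit 593) (nat_lit 3629)))))))))) (.a (.f (nat_lit 559) (nat_lit 524) (nat_lit 3596) (.f (nat_lit 589) (nat_lit 588) (nat_lit 1580) (.f (nat_lit 590) (nat_lit 561) (nat_lit 1581) (.d (nat_lit 493) (nat_lit 461) (nat_lit 4557) (nat_lit 622) (nat_lit 4589))))) (.a (.f (nat_lit 524) (nat_lit 559) (nat_lit 3596) (.f (nat_lit 495) (nat_lit 463) (nat_lit 7631) (.f (nat_lit 493) (nat_lit 494) (nat_lit 1516) (.f (nat_lit 461) (nat_lit 590) (nat_lit 4557) (.d (nat_lit 556) (nat_lit 429) (nat_lit 5548) (nat_lit 588) (nat_lit 5580)))))) (.a (.f (nat_lit 559) (nat_lit 593) (nat_lit 557) (.f (nat_lit 589) (nat_lit 588) (nat_lit 1580) (.f (nat_lit 590) (nat_lit 561) (nat_lit 1581) (.d (nat_lit 622) (nat_lit 493) (nat_lit 4589) (nat_lit 654) (nat_lit 7693))))) (.d (nat_lit 559) (nat_lit 524) (nat_lit 3596) (nat_lit 593) (nat_lit 557)))))))) (.a (.p (nat_lit 558) (.a (.f (nat_lit 559) (nat_lit 524) (nat_lit 3596) (.f (nat_lit 556) (nat_lit 591) (nat_lit 556) (.d (nat_lit 588) (nat_lit 587) (nat_lit 1579) (nat_lit 589) (nat_lit 1580)))) (.a (.f (nat_lit 591) (nat_lit 623) (nat_lit 5615) (.f (nat_lit 590) (nat_lit 593) (nat_lit 3629) (.d (nat_lit 556) (nat_lit 555) (nat_lit 555) (nat_lit 589) (nat_lit 3628)))) (.a (.f (nat_lit 524) (nat_lit 559) (nat_lit 3596) (.f (nat_lit 495) (nat_lit 463) (nat_lit 7631) (.f (nat_lit 493) (nat_lit 494) (nat_lit 1516) (.f (nat_lit 461) (nat_lit 590) (nat_lit 4557) (.d (nat_lit 556) (nat_lit 429) (nat_lit 5548) (nat_lit 588) (nat_lit 5580)))))) (.d (nat_lit 559) (nat_lit 524) (nat_lit 3596) (nat_lit 593) (nat_lit 557)))))) (.a (.p (nat_lit 558) (.a (.f (nat_lit 559) (nat_lit 524) (nat_lit 3596) (.f (nat_lit 556) (nat_lit 591) (nat_lit 556) (.d (nat_lit 588) (nat_lit 587) (nat_lit 1579) (nat_lit 589) (nat_lit 1580)))) (.a (.f (nat_lit 591) (nat_lit 623) (nat_lit 5615) (.f (nat_lit 590) (nat_lit 593) (nat_lit 3629) (.d (nat_lit 556) (nat_lit 555) (nat_lit 555) (nat_lit 589) (nat_lit 3628)))) (.a (.f (nat_lit 559) (nat_lit 524) (nat_lit 3596) (.f (nat_lit 589) (nat_lit 588) (nat_lit 1580) (.f (nat_lit 590) (nat_lit 561) (nat_lit 1581) (.d (nat_lit 493) (nat_lit 461) (nat_lit 4557) (nat_lit 622) (nat_lit 4589))))) (.d (nat_lit 559) (nat_lit 524) (nat_lit 3596) (nat_lit 593) (nat_lit 557)))))) (.a (.p (nat_lit 590) (.a (.f (nat_lit 591) (nat_lit 623) (nat_lit 5615) (.f (nat_lit 558) (nat_lit 593) (nat_lit 3629) (.d (nat_lit 556) (nat_lit 555) (nat_lit 555) (nat_lit 589) (nat_lit 3628)))) (.a (.p (nat_lit 493) (.a (.f (nat_lit 589) (nat_lit 622) (nat_lit 4589) (.f (nat_lit 556) (nat_lit 591) (nat_lit 3628) (.d (nat_lit 588) (nat_lit 461) (nat_lit 5580) (nat_lit 620) (nat_lit 5612)))) (.a (.f (nat_lit 461) (nat_lit 558) (nat_lit 4557) (.f (nat_lit 556) (nat_lit 588) (nat_lit 5580) (.f (nat_lit 429) (nat_lit 524) (nat_lit 5548) (.d (nat_lit 430) (nat_lit 398) (nat_lit 6541) (nat_lit 462) (nat_lit 6573))))) (.a (.f (nat_lit 589) (nat_lit 622) (nat_lit 4589) (.f (nat_lit 620) (nat_lit 588) (nat_lit 5612) (.d (nat_lit 591) (nat_lit 556) (nat_lit 3628) (nat_lit 621) (nat_lit 1612)))) (.f (nat_lit 589) (nat_lit 622) (nat_lit 4589) (.f (nat_lit 461) (nat_lit 558) (nat_lit 4557) (.d (nat_lit 460) (nat_lit 428) (nat_lit 7596) (nat_lit 492) (nat_lit 7628)))))))) (.a (.f (nat_lit 591) (nat_lit 623) (nat_lit 5615) (.d (nat_lit 589) (nat_lit 556) (nat_lit 3628) (nat_lit 561) (nat_lit 2605))) (.a (.p (nat_lit 493) (.a (.f (nat_lit 461) (nat_lit 558) (nat_lit 4557) (.f (nat_lit 556) (nat_lit 588) (nat_lit 5580) (.f (nat_lit 429) (nat_lit 524) (nat_lit 5548) (.d (nat_lit 430) (nat_lit 398) (nat_lit 6541) (nat_lit 462) (nat_lit 6573))))) (.a (.f (nat_lit 589) (nat_lit 622) (nat_lit 4589) (.f (nat_lit 620) (nat_lit 588) (nat_lit 5612) (.f (nat_lit 621) (nat_lit 652) (nat_lit 5644) (.d (nat_lit 492) (nat_lit 460) (nat_lit 7628) (nat_lit 524) (nat_lit 7660))))) (.f (nat_lit 589) (nat_lit 622) (nat_lit 4589) (.f (nat_lit 461) (nat_lit 558) (nat_lit 4557) (.d (nat_lit 460) (nat_lit 428) (nat_lit 7596) (nat_lit 492) (nat_lit 7628))))))) (.f (nat_lit 591) (nat_lit 623) (nat_lit 5615) (.d (nat_lit 593) (nat_lit 558) (nat_lit 3629) (nat_lit 561) (nat_lit 2606)))))))) (.a (.p (nat_lit 559) (.a (.f (nat_lit 558) (nat_lit 524) (nat_lit 3596) (.f (nat_lit 556) (nat_lit 591) (nat_lit 556) (.d (nat_lit 588) (nat_lit 587) (nat_lit 1579) (nat_lit 589) (nat_lit 1580)))) (.a (.f (nat_lit 591) (nat_lit 623) (nat_lit 5615) (.f (nat_lit 590) (nat_lit 561) (nat_lit 1582) (.d (nat_lit 589) (nat_lit 556) (nat_lit 3628) (nat_lit 588) (nat_lit 2604)))) (.a (.f (nat_lit 558) (nat_lit 524) (nat_lit 3596) (.f (nat_lit 589) (nat_lit 588) (nat_lit 1580) (.f (nat_lit 590) (nat_lit 561) (nat_lit 1581) (.d (nat_lit 493) (nat_lit 461) (nat_lit 4557) (nat_lit 622) (nat_lit 4589))))) (.f (nat_lit 591) (nat_lit 623) (nat_lit 5615) (.d (nat_lit 558) (nat_lit 524) (nat_lit 3596) (nat_lit 556) (nat_lit 556))))))) (.a (.p (nat_lit 590) (.a (.f (nat_lit 591) (nat_lit 623) (nat_lit 5615) (.d (nat_lit 589) (nat_lit 556) (nat_lit 3628) (nat_lit 561) (nat_lit 2605))) (.a (.p (nat_lit 493) (.a (.f (nat_lit 589) (nat_lit 622) (nat_lit 4589) (.f (nat_lit 556) (nat_lit 591) (nat_lit 3628) (.d (nat_lit 588) (nat_lit 461) (nat_lit 5580) (nat_lit 620) (nat_lit 5612)))) (.a (.f (nat_lit 589) (nat_lit 622) (nat_lit 4589) (.f (nat_lit 620) (nat_lit 588) (nat_lit 5612) (.f (nat_lit 621) (nat_lit 652) (nat_lit 5644) (.d (nat_lit 492) (nat_lit 460) (nat_lit 7628) (nat_lit 524) (nat_lit 7660))))) (.f (nat_lit 495) (nat_lit 463) (nat_lit 7631) (.f (nat_lit 494) (nat_lit 524) (nat_lit 1516) (.f (nat_lit 461) (nat_lit 460) (nat_lit 3532) (.d (nat_lit 497) (nat_lit 462) (nat_lit 3533) (nat_lit 465) (nat_lit 6608)))))))) (.a (.p (nat_lit 493) (.a (.f (nat_lit 589) (nat_lit 622) (nat_lit 4589) (.f (nat_lit 620) (nat_lit 588) (nat_lit 5612) (.f (nat_lit 621) (nat_lit 652) (nat_lit 5644) (.d (nat_lit 492) (nat_lit 460) (nat_lit 7628) (nat_lit 524) (nat_lit 7660))))) (.a (.f (nat_lit 495) (nat_lit 463) (nat_lit 7631) (.f (nat_lit 494) (nat_lit 524) (nat_lit 1516) (.f (nat_lit 461) (nat_lit 460) (nat_lit 3532) (.d (nat_lit 497) (nat_lit 462) (nat_lit 3533) (nat_lit 465) (nat_lit 6608))))) (.a (.f (nat_lit 589) (nat_lit 622) (nat_lit 4589) (.f (nat_lit 494) (nat_lit 462) (nat_lit 6605) (.d (nat_lit 495) (nat_lit 463) (nat_lit 7631) (nat_lit 524) (nat_lit 1516)))) (.f (nat_lit 589) (nat_lit 622) (nat_lit 4589) (.f (nat_lit 588) (nat_lit 620) (nat_lit 5612) (.f (nat_lit 461) (nat_lit 556) (nat_lit 5580) (.d (nat_lit 462) (nat_lit 430) (nat_lit 6573) (nat_lit 494) (nat_lit 6605))))))))) (.f (nat_lit 591) (nat_lit 623) (nat_lit 5615) (.d (nat_lit 561) (nat_lit 559) (nat_lit 1582) (nat_lit 593) (nat_lit 2606))))))) (.a (.p (nat_lit 558) (.a (.f (nat_lit 559) (nat_lit 524) (nat_lit 3596) (.f (nat_lit 589) (nat_lit 588) (nat_lit 1580) (.f (nat_lit 590) (nat_lit 561) (nat_lit 1581) (.d (nat_lit 493) (nat_lit 461) (nat_lit 4557) (nat_lit 622) (nat_lit 4589))))) (.a (.f (nat_lit 524) (nat_lit 559) (nat_lit 3596) (.f (nat_lit 495) (nat_lit 463) (nat_lit 7631) (.f (nat_lit 493) (nat_lit 494) (nat_lit 1516) (.f (nat_lit 461) (nat_lit 590) (nat_lit 4557) (.d (nat_lit 556) (nat_lit 429) (nat_lit 5548) (nat_lit 588) (nat_lit 5580)))))) (.a (.p (nat_lit 493) (.a (.f (nat_lit 461) (nat_lit 590) (nat_lit 4557) (.f (nat_lit 460) (nat_lit 428) (nat_lit 7596) (.f (nat_lit 462) (nat_lit 430) (nat_lit 6573) (.f (nat_lit 463) (nat_lit 495) (nat_lit 7631) (.d (nat_lit 492) (nat_lit 491) (nat_lit 1483) (nat_lit 589) (nat_lit 7628)))))) (.a (.f (nat_lit 461) (nat_lit 590) (nat_lit 4557) (.f (nat_lit 556) (nat_lit 588) (nat_lit 5580) (.f (nat_lit 524) (nat_lit 429) (nat_lit 5548) (.f (nat_lit 460) (nat_lit 428) (nat_lit 7596) (.f (nat_lit 492) (nat_lit 589) (nat_lit 4556) (.f (nat_lit 523) (nat_lit 522) (nat_lit 522) (.f (nat_lit 555) (nat_lit 587) (nat_lit 5579) (.f (nat_lit 459) (nat_lit 427) (nat_lit 7595) (.f (nat_lit 458) (nat_lit 457) (nat_lit 457) (.d (nat_lit 426) (nat_lit 425) (nat_lit 3497) (nat_lit 491) (nat_lit 7594))))))))))) (.a (.f (nat_lit 495) (nat_lit 463) (nat_lit 7631) (.f (nat_lit 494) (nat_lit 524) (nat_lit 1516) (.f (nat_lit 461) (nat_lit 460) (nat_lit 3532) (.d (nat_lit 497) (nat_lit 462) (nat_lit 3533) (nat_lit 465) (nat_lit 6608))))) (.f (nat_lit 495) (nat_lit 463) (nat_lit 7631) (.f (nat_lit 494) (nat_lit 524) (nat_lit 1516) (.f (nat_lit 589) (nat_lit 462) (nat_lit 6605) (.f (nat_lit 622) (nat_lit 590) (nat_lit 4589) (.f (nat_lit 621) (nat_lit 654) (nat_lit 4621) (.d (nat_lit 620) (nat_lit 588) (nat_lit 5612) (nat_lit 652) (nat_lit 5644))))))))))) (.a (.d (nat_lit 559) (nat_lit 524) (nat_lit 3596) (nat_lit 593) (nat_lit 557)) (.f (nat_lit 559) (nat_lit 593) (nat_lit 557) (.f (nat_lit 589) (nat_lit 588) (nat_lit 1580) (.f (nat_lit 590) (nat_lit 561) (nat_lit 1581) (.d (nat_lit 622) (nat_lit 493) (nat_lit 4589) (nat_lit 654) (nat_lit 7693)))))))))) (.a (.p (nat_lit 493) (.a (.f (nat_lit 495) (nat_lit 463) (nat_lit 7631) (.f (nat_lit 494) (nat_lit 524) (nat_lit 1516) (.f (nat_lit 461) (nat_lit 460) (nat_lit 3532) (.d (nat_lit 462) (nat_lit 430) (nat_lit 6573) (nat_lit 589) (nat_lit 6605))))) (.a (.p (nat_lit 589) (.a (.f (nat_lit 492) (nat_lit 460) (nat_lit 7628) (.f (nat_lit 621) (nat_lit 524) (nat_lit 7660) (.d (nat_lit 620) (nat_lit 588) (nat_lit 5612) (nat_lit 652) (nat_lit 5644)))) (.a (.f (nat_lit 588) (nat_lit 620) (nat_lit 5612) (.f (nat_lit 461) (nat_lit 556) (nat_lit 5580) (.d (nat_lit 460) (nat_lit 428) (nat_lit 7596) (nat_lit 492) (nat_lit 7628)))) (.a (.f (nat_lit 620) (nat_lit 588) (nat_lit 5612) (.f (nat_lit 621) (nat_lit 652) (nat_lit 5644) (.f (nat_lit 654) (nat_lit 622) (nat_lit 4621) (.f (nat_lit 653) (nat_lit 686) (nat_lit 4653) (.d (nat_lit 524) (nat_lit 492) (nat_lit 7660) (nat_lit 556) (nat_lit 7692)))))) (.a (.f (nat_lit 492) (nat_lit 460) (nat_lit 7628) (.f (nat_lit 621) (nat_lit 524) (nat_lit 7660) (.f (nat_lit 652) (nat_lit 620) (nat_lit 5644) (.f (nat_lit 653) (nat_lit 684) (nat_lit 5676) (.d (nat_lit 654) (nat_lit 622) (nat_lit 4621) (nat_lit 686) (nat_lit 4653)))))) (.a (.f (nat_lit 460) (nat_lit 492) (nat_lit 7628) (.f (nat_lit 461) (nat_lit 428) (nat_lit 7596) (.f (nat_lit 430) (nat_lit 462) (nat_lit 6573) (.f (nat_lit 429) (nat_lit 398) (nat_lit 6541) (.d (nat_lit 556) (nat_lit 524) (nat_lit 5548) (nat_lit 588) (nat_lit 5580)))))) (.f (nat_lit 588) (nat_lit 620) (nat_lit 5612) (.f (nat_lit 461) (nat_lit 556) (nat_lit 5580) (.f (nat_lit 430) (nat_lit 462) (nat_lit 6573) (.f (nat_lit 429) (nat_lit 398) (nat_lit 6541) (.d (nat_lit 428) (nat_lit 396) (nat_lit 7564) (nat_lit 460) (nat_lit 7596)))))))))))) (.a (.f (nat_lit 495) (nat_lit 463) (nat_lit 7631) (.f (nat_lit 494) (nat_lit 524) (nat_lit 1516) (.f (nat_lit 460) (nat_lit 461) (nat_lit 3532) (.d (nat_lit 492) (nat_lit 459) (nat_lit 3531) (nat_lit 589) (nat_lit 7628))))) (.a (.f (nat_lit 495) (nat_lit 463) (nat_lit 7631) (.f (nat_lit 494) (nat_lit 524) (nat_lit 1516) (.f (nat_lit 461) (nat_lit 460) (nat_lit 3532) (.d (nat_lit 497) (nat_lit 462) (nat_lit 3533) (nat_lit 465) (nat_lit 6608))))) (.a (.f (nat_lit 623) (nat_lit 591) (nat_lit 5615) (.f (nat_lit 624) (nat_lit 655) (nat_lit 5647) (.f (nat_lit 495) (nat_lit 463) (nat_lit 7631) (.f (nat_lit 494) (nat_lit 524) (nat_lit 1516) (.f (nat_lit 589) (nat_lit 462) (nat_lit 6605) (.f (nat_lit 620) (nat_lit 588) (nat_lit 5612) (.f (nat_lit 621) (nat_lit 652) (nat_lit 5644) (.d (nat_lit 622) (nat_lit 593) (nat_lit 2637) (nat_lit 654) (nat_lit 4621))))))))) (.p (nat_lit 494) (.a (.f (nat_lit 495) (nat_lit 463) (nat_lit 7631) (.f (nat_lit 460) (nat_lit 461) (nat_lit 3532) (.d (nat_lit 492) (nat_lit 459) (nat_lit 3531) (nat_lit 589) (nat_lit 7628)))) (.a (.f (nat_lit 589) (nat_lit 462) (nat_lit 6605) (.f (nat_lit 588) (nat_lit 620) (nat_lit 5612) (.f (nat_lit 461) (nat_lit 556) (nat_lit 5580) (.d (nat_lit 460) (nat_lit 492) (nat_lit 7628) (nat_lit 495) (nat_lit 3532))))) (.a (.f (nat_lit 589) (nat_lit 462) (nat_lit 6605) (.f (nat_lit 588) (nat_lit 620) (nat_lit 5612) (.f (nat_lit 461) (nat_lit 556) (nat_lit 5580) (.d (nat_lit 460) (nat_lit 428) (nat_lit 7596) (nat_lit 492) (nat_lit 7628))))) (.a (.f (nat_lit 495) (nat_lit 463) (nat_lit 7631) (.f (nat_lit 461) (nat_lit 460) (nat_lit 3532) (.d (nat_lit 497) (nat_lit 462) (nat_lit 3533) (nat_lit 465) (nat_lit 6608)))) (.f (nat_lit 589) (nat_lit 462) (nat_lit 6605) (.f (nat_lit 623) (nat_lit 591) (nat_lit 5615) (.f (nat_lit 624) (nat_lit 655) (nat_lit 5647) (.f (nat_lit 620) (nat_lit 588) (nat_lit 5612) (.f (nat_lit 621) (nat_lit 652) (nat_lit 5644) (.d (nat_lit 622) (nat_lit 593) (nat_lit 2637) (nat_lit 654) (nat_lit 4621)))))))))))))))))) (.a (.p (nat_lit 558) (.a (.f (nat_lit 559) (nat_lit 524) (nat_lit 3596) (.f (nat_lit 556) (nat_lit 591) (nat_lit 556) (.d (nat_lit 588) (nat_lit 587) (nat_lit 1579) (nat_lit 589) (nat_lit 1580)))) (.a (.f (nat_lit 591) (nat_lit 623) (nat_lit 5615) (.f (nat_lit 590) (nat_lit 593) (nat_lit 3629) (.d (nat_lit 556) (nat_lit 555) (nat_lit 555) (nat_lit 589) (nat_lit 3628)))) (.d (nat_lit 559) (nat_lit 524) (nat_lit 3596) (nat_lit 593) (nat_lit 557))))) (.a (.f (nat_lit 591) (nat_lit 623) (nat_lit 5615) (.p (nat_lit 590) (.a (.d (nat_lit 561) (nat_lit 559) (nat_lit 1582) (nat_lit 593) (nat_lit 2606)) (.a (.f (nat_lit 558) (nat_lit 593) (nat_lit 3629) (.d (nat_lit 556) (nat_lit 555) (nat_lit 555) (nat_lit 559) (nat_lit 556))) (.a (.d (nat_lit 593) (nat_lit 558) (nat_lit 3629) (nat_lit 561) (nat_lit 2606)) (.f (nat_lit 559) (nat_lit 561) (nat_lit 1582) (.d (nat_lit 558) (nat_lit 524) (nat_lit 3596) (nat_lit 556) (nat_lit 556)))))))) (.a (.p (nat_lit 558) (.a (.f (nat_lit 591) (nat_lit 623) (nat_lit 5615) (.f (nat_lit 590) (nat_lit 593) (nat_lit 3629) (.d (nat_lit 556) (nat_lit 555) (nat_lit 555) (nat_lit 589) (nat_lit 3628)))) (.a (.f (nat_lit 559) (nat_lit 593) (nat_lit 557) (.f (nat_lit 589) (nat_lit 588) (nat_lit 1580) (.f (nat_lit 590) (nat_lit 561) (nat_lit 1581) (.d (nat_lit 622) (nat_lit 493) (nat_lit 4589) (nat_lit 654) (nat_lit 7693))))) (.a (.f (nat_lit 591) (nat_lit 623) (nat_lit 5615) (.f (nat_lit 559) (nat_lit 556) (nat_lit 556) (.f (nat_lit 590) (nat_lit 561) (nat_lit 1582) (.f (nat_lit 589) (nat_lit 588) (nat_lit 1580) (.d (nat_lit 493) (nat_lit 461) (nat_lit 4557) (nat_lit 622) (nat_lit 4589)))))) (.f (nat_lit 559) (nat_lit 593) (nat_lit 557) (.d (nat_lit 591) (nat_lit 556) (nat_lit 556) (nat_lit 623) (nat_lit 5615))))))) (.p (nat_lit 558) (.a (.f (nat_lit 559) (nat_lit 524) (nat_lit 3596) (.f (nat_lit 589) (nat_lit 588) (nat_lit 1580) (.f (nat_lit 590) (nat_lit 561) (nat_lit 1581) (.d (nat_lit 493) (nat_lit 461) (nat_lit 4557) (nat_lit 622) (nat_lit 4589))))) (.a (.d (nat_lit 559) (nat_lit 524) (nat_lit 3596) (nat_lit 593) (nat_lit 557)) (.f (nat_lit 591) (nat_lit 623) (nat_lit 5615) (.f (nat_lit 590) (nat_lit 593) (nat_lit 3629) (.f (nat_lit 589) (nat_lit 561) (nat_lit 2605) (.d (nat_lit 493) (nat_lit 461) (nat_lit 4557) (nat_lit 622) (nat_lit 4589))))))))))))))))))))) (.p (nat_lit 590) (.a (.f (nat_lit 591) (nat_lit 623) (nat_lit 5615) (.d (nat_lit 561) (nat_lit 559) (nat_lit 1582) (nat_lit 593) (nat_lit 2606))) (.a (.f (nat_lit 495) (nat_lit 463) (nat_lit 7631) (.f (nat_lit 497) (nat_lit 465) (nat_lit 6608) (.f (nat_lit 494) (nat_lit 526) (nat_lit 1517) (.f (nat_lit 461) (nat_lit 462) (nat_lit 3533) (.f (nat_lit 493) (nat_lit 460) (nat_lit 3532) (.f (nat_lit 557) (nat_lit 558) (nat_lit 4557) (.f (nat_lit 589) (nat_lit 622) (nat_lit 4589) (.d (nat_lit 556) (nat_lit 588) (nat_lit 5580) (nat_lit 591) (nat_lit 3628))))))))) (.f (nat_lit 497) (nat_lit 465) (nat_lit 6608) (.f (nat_lit 495) (nat_lit 463) (nat_lit 7631) (.f (nat_lit 494) (nat_lit 526) (nat_lit 1517) (.f (nat_lit 461) (nat_lit 462) (nat_lit 3533) (.f (nat_lit 493) (nat_lit 460) (nat_lit 3532) (.f (nat_lit 557) (nat_lit 558) (nat_lit 4557) (.f (nat_lit 589) (nat_lit 622) (nat_lit 4589) (.d (nat_lit 588) (nat_lit 556) (nat_lit 5580) (nat_lit 620) (nat_lit 5612))))))))))))))))))))))))) (.f (nat_lit 465) (nat_lit 497) (nat_lit 6608) (.f (nat_lit 464) (nat_lit 433) (nat_lit 6576) (.d (nat_lit 463) (nat_lit 431) (nat_lit 7599) (nat_lit 495) (nat_lit 7631)))))))))))))))))))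
noncomputable def s46978 : Cert := .r (nat_lit 13208868487754088833342159076976624420491642603268029217735065143262175891148270509776343512793493320399805495644767385007306596033488388677928750288023911774035610959872) (.p (nat_lit 558) (.a (.f (nat_lit 593) (nat_lit 594) (nat_lit 558) (.f (nat_lit 592) (nat_lit 557) (nat_lit 557) (.d (nat_lit 496) (nat_lit 464) (nat_lit 4560) (nat_lit 625) (nat_lit 4592)))) (.a (.f (nat_lit 526) (nat_lit 525) (nat_lit 3597) (.f (nat_lit 562) (nat_lit 527) (nat_lit 3598) (.d (nat_lit 594) (nat_lit 593) (nat_lit 558) (nat_lit 595) (nat_lit 559)))) (.a (.f (nat_lit 526) (nat_lit 525) (nat_lit 3597) (.f (nat_lit 562) (nat_lit 527) (nat_lit 3598) (.f (nat_lit 531) (nat_lit 530) (nat_lit 2575) (.f (nat_lit 563) (nat_lit 532) (nat_lit 2576) (.d (nat_lit 595) (nat_lit 594) (nat_lit 559) (nat_lit 596) (nat_lit 560)))))) (.f (nat_lit 526) (nat_lit 525) (nat_lit 3597) (.f (nat_lit 527) (nat_lit 562)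 (nat_lit 3598) (.f (nat_lit 557) (nat_lit 556) (nat_lit 2572) (.f (nat_lit 592) (nat_lit 593) (nat_lit 557) (.f (nat_lit 624) (nat_lit 656) (nat_lit 7695) (.f (nat_lit 623) (nat_lit 655) (nat_lit 5647) (.d (nat_lit 591) (nat_lit 494) (nat_lit 7662) (nat_lit 496) (nat_lit 5615))))))))))))
noncomputable def s49829 : Cert := .r (nat_lit 3773962425700235452942859537547095162710600801457693578881837785689207274724608166465642803818140937612138585141332039279387761249239044150589503430612132383078045712384) (.f (nat_lit 463) (nat_lit 431) (nat_lit 7599) (.p (nat_lit 462) (.a (.f (nat_lit 465) (nat_lit 433) (nat_lit 6576) (.d (nat_lit 497) (nat_lit 461) (nat_lit 461) (nat_lit 498) (nat_lit 462))) (.a (.f (nat_lit 461) (nat_lit 497) (nat_lit 461) (.f (nat_lit 460) (nat_lit 495) (nat_lit 460) (.d (nat_lit 492) (nat_lit 491) (nat_lit 1483) (nat_lit 493) (nat_lit 1484)))) (.a (.f (nat_lit 465) (nat_lit 433) (nat_lit 6576) (.f (nat_lit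 497) (nat_lit 498) (nat_lit 462) (.f (nat_lit 494) (nat_lit 493) (nat_lit 1485) (.f (nat_lit 466) (nat_lit 495) (nat_lit 1486) (.f (nat_lit 467) (nat_lit 468) (nat_lit 1488) (.d (nat_lit 435) (nat_lit 434) (nat_lit 2479) (nat_lit 436) (nat_lit 2480))))))) (.f (nat_lit 465) (nat_lit 433) (nat_lit 6576) (.f (nat_lit 494) (nat_lit 493) (nat_lit 1485) (.f (nat_lit 495) (nat_lit 466) (nat_lit 1486) (.f (nat_lit 430) (nat_lit 429) (nat_lit 3501) (.d (nat_lit 398) (nat_lit 366) (nat_lit 4462) (nat_lit 527) (nat_lit 4494)))))))))))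
noncomputable def s49963 : Cert := .r (nat_lit 5660943638550353179107408936758928289799009328340392220191824088972173227751847569341540049774019602319201837101786659136820201688014610644787746989163257497368183963648) (.p (nat_lit 561) (.a (.d (nat_lit 526) (nat_lit 525) (nat_lit 525) (nat_lit 562) (nat_lit 3598)) (.a (.f (nat_lit 562) (nat_lit 563) (nat_lit 3599) (.f (nat_lit 591) (nat_lit 590) (nat_lit 1582) (.f (nat_lit 623) (nat_lit 655) (nat_lit 6671) (.f (nat_lit 624) (nat_lit 656) (nat_lit 4623) (.f (nat_lit 592) (nat_lit 495) (nat_lit 7663) (.p (nat_lit 593) (.a (.d (nat_lit 558) (nat_lit 557) (nat_lit 557) (nat_lit 594) (nat_lit 558)) (.d (nat_lit 622) (nat_lit 621) (nat_lit 2637) (nat_lit 654) (nat_lit 5646))))))))) (.f (nat_lit 526) (nat_lit 525) (nat_lit 525) (.p (nat_lit 558) (.a (.f (nat_lit 557) (nat_lit 556) (nat_lit 2572) (.d (nat_lit 593) (nat_lit 592) (nat_lit 557) (nat_lit 594) (nat_lit 558))) (.f (nat_lit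 590) (nat_lit 589) (nat_lit 1581) (.d (nat_lit 495) (nat_lit 463) (nat_lit 5582) (nat_lit 622) (nat_lit 6638)))))))))
noncomputable def s49986 : Cert := .r (nat_lit 13208868488193435883590518098735466071632851769173273076944236689463421552536145273513793500129337137402138587163314348936361370947864195909910615492028649584666974617600) (.f (nat_lit 526) (nat_lit 525) (nat_lit 525) (.p (nat_lit 558) (.a (.f (nat_lit 557) (nat_lit 556) (nat_lit 2572) (.d (nat_lit 593) (nat_lit 592) (nat_lit 557) (nat_lit 594) (nat_lit 558))) (.a (.f (nat_lit 590) (nat_lit 589) (nat_lit 1581) (.f (nat_lit 495) (nat_lit 463) (nat_lit 5582) (.f (nat_lit 592) (nat_lit 624) (nat_lit 7663) (.d (nat_lit 593) (nat_lit 557) (nat_lit 557) (nat_lit 594) (nat_lit 558))))) (.a (.f (nat_lit 557) (nat_lit 556) (nat_lit 2572) (.d (nat_lit 589) (nat_lit 588) (nat_lit 1580) (nat_lit 590) (nat_lit 1581))) (.f (nat_lit 590) (nat_lit 589) (nat_lit 1581) (.f (nat_lit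 495) (nat_lit 463) (nat_lit 5582) (.p (nat_lit 494) (.a (.d (nat_lit 493) (nat_lit 461) (nat_lit 7629) (nat_lit 492) (nat_lit 492)) (.d (nat_lit 462) (nat_lit 430) (nat_lit 4526) (nat_lit 591) (nat_lit 4558)))))))))))
noncomputable def s50000 : Cert := .r (nat_lit 5660943638550353179107408936758928289799009328340392220191824088972173227751847569341540049774019602319201837101786659136820201688014610644787746989163257497368183963648) (.p (nat_lit 495) (.a (.d (nat_lit 463) (nat_lit 431) (nat_lit 4527) (nat_lit 592) (nat_lit 4559)) (.a (.d (nat_lit 592) (nat_lit 463) (nat_lit 4559) (nat_lit 624) (nat_lit 7663)) (.a (.f (nat_lit 463) (nat_lit 431) (nat_lit 4527) (.f (nat_lit 590) (nat_lit 558) (nat_lit 5582) (.f (nat_lit 591) (nat_lit 622) (nat_lit 5614) (.d (nat_lit 462) (nat_lit 430) (nat_lit 7598) (nat_lit 494) (nat_lit 7630))))) (.f (nat_lit 592) (nat_lit 624) (nat_lit 7663) (.p (nat_lit 591) (.a (.f (nat_lit 590) (nat_lit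 622) (nat_lit 5614) (.d (nat_lit 561) (nat_lit 562) (nat_lit 1582) (nat_lit 589) (nat_lit 2605))) (.a (.p (nat_lit 561) (.a (.d (nat_lit 562) (nat_lit 563) (nat_lit 3599) (nat_lit 590) (nat_lit 1582)) (.a (.d (nat_lit 526) (nat_lit 525) (nat_lit 525) (nat_lit 562) (nat_lit 3598)) (.f (nat_lit 526) (nat_lit 525) (nat_lit 525) (.d (nat_lit 494) (nat_lit 462) (nat_lit 7630) (nat_lit 623) (nat_lit 7662)))))) (.f (nat_lit 623) (nat_lit 655) (nat_lit 6671) (.d (nat_lit 494) (nat_lit 462) (nat_lit 7630) (nat_lit 526) (nat_lit 7662)))))))))))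
noncomputable def s50008 : Cert := .r (nat_lit 5660943638550353179107408936758928289799009328340392220191824088972173227751847569341540049774019602319201837101786659136820201688014610644787746989163257497368183963648) (.p (nat_lit 526) (.a (.d (nat_lit 525) (nat_lit 524) (nat_lit 524) (nat_lit 561) (nat_lit 525)) (.a (.f (nat_lit 561) (nat_lit 562) (nat_lit 3598) (.p (nat_lit 558) (.a (.f (nat_lit 557) (nat_lit 556) (nat_lit 2572) (.d (nat_lit 593) (nat_lit 592) (nat_lit 557) (nat_lit 594) (nat_lit 558))) (.f (nat_lit 590) (nat_lit 589) (nat_lit 1581) (.d (nat_lit 495) (nat_lit 463) (nat_lit 5582) (nat_lit 622) (nat_lit 6638)))))) (.f (nat_lit 525) (nat_lit 524) (nat_lit 524) (.f (nat_lit 557) (nat_lit 556) (nat_lit 1548) (.f (nat_lit 493) (nat_lit 492) (nat_lit 3564) (.p (nat_lit 558) (.a (.d (nat_lit 461) (nat_lit 429) (nat_lit 4525) (nat_lit 590) (nat_lit 4557)) (.f (nat_lit 589) (nat_lit 588) (nat_lit 1580) (.d (nat_lit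 494) (nat_lit 462) (nat_lit 5581) (nat_lit 621) (nat_lit 6637)))))))))))
noncomputable def s50043 : Cert := .r (nat_lit 16209045197074067685951975828345584717461294842083858091002657156152025371573705884943043381989296764831106976927964554989184444530847674670768518571649102491235188907935862358016) (.p (nat_lit 493) (.a (.f (nat_lit 492) (nat_lit 494) (nat_lit 492) (.f (nat_lit 460) (nat_lit 589) (nat_lit 7628) (.d (nat_lit 428) (nat_lit 396) (nat_lit 4492) (nat_lit 524) (nat_lit 4524)))) (.a (.p (nat_lit 461) (.a (.p (nat_lit 429) (.a (.d (nat_lit 556) (nat_lit 524) (nat_lit 5548) (nat_lit 588) (nat_lit 5580)) (.d (nat_lit 428) (nat_lit 396) (nat_lit 7564) (nat_lit 460) (nat_lit 7596)))) (.f (nat_lit 462) (nat_lit 430) (nat_lit 6573) (.d (nat_lit 494) (nat_lit 589) (nat_lit 6605) (nat_lit 591) (nat_lit 7630))))) (.a (.p (nat_lit 461) (.a (.p (nat_lit 429) (.a (.d (nat_lit 556) (nat_lit 524) (nat_lit 5548) (nat_lit 588)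 (nat_lit 5580)) (.d (nat_lit 428) (nat_lit 396) (nat_lit 7564) (nat_lit 460) (nat_lit 7596)))) (.a (.f (nat_lit 460) (nat_lit 428) (nat_lit 7596) (.p (nat_lit 429) (.a (.p (nat_lit 397) (.a (.d (nat_lit 398) (nat_lit 366) (nat_lit 6509) (nat_lit 430) (nat_lit 6541)) (.d (nat_lit 492) (nat_lit 524) (nat_lit 5516) (nat_lit 589) (nat_lit 7628)))) (.a (.d (nat_lit 430) (nat_lit 398) (nat_lit 6541) (nat_lit 462) (nat_lit 6573)) (.f (nat_lit 492) (nat_lit 589) (nat_lit 7628) (.d (nat_lit 397) (nat_lit 365) (nat_lit 5484) (nat_lit 524) (nat_lit 5516))))))) (.a (.p (nat_lit 589) (.a (.d (nat_lit 588) (nat_lit 556) (nat_lit 5580) (nat_lit 620) (nat_lit 5612)) (.d (nat_lit 460) (nat_lit 428) (nat_lit 7596) (nat_lit 492) (nat_lit 7628)))) (.p (nat_lit 429) (.a (.d (nat_lit 556) (nat_lit 524) (nat_lit 5548) (nat_lit 588) (nat_lit 5580)) (.d (nat_lit 430) (nat_lit 398) (nat_lit 6541) (nat_lit 462) (nat_lit 6573)))))))) (.f (nat_lit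 494) (nat_lit 492) (nat_lit 492) (.f (nat_lit 462) (nat_lit 591) (nat_lit 7630) (.d (nat_lit 430) (nat_lit 398) (nat_lit 5517) (nat_lit 461) (nat_lit 6573))))))))
noncomputable def s50051 : Cert := .r (nat_lit 16209045196602322382739446396753300639398050817933940646974291137802706697492691449297056084544168427349938676734697735230702222936112657863433967684583456908804917449821847027712) (.p (nat_lit 525) (.a (.d (nat_lit 526) (nat_lit 524) (nat_lit 524) (nat_lit 561) (nat_lit 525)) (.a (.p (nat_lit 557) (.a (.d (nat_lit 558) (nat_lit 556) (nat_lit 2572) (nat_lit 593) (nat_lit 557)) (.a (.d (nat_lit 558) (nat_lit 524) (nat_lit 3596) (nat_lit 593) (nat_lit 557)) s50043))) (.f (nat_lit 526) (nat_lit 561) (nat_lit 525) (.f (nat_lit 557) (nat_lit 556) (nat_lit 1548) (.p (nat_lit 494) (.a (.f (nat_lit 558) (nat_lit 593) (nat_lit 557) (.d (nat_lit 589) (nat_lit 588) (nat_lit 1580) (nat_lit 621) (nat_lit 6637))) (.d (nat_lit 462)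 (nat_lit 430) (nat_lit 4526) (nat_lit 591) (nat_lit 7630)))))))))
noncomputable def s50053 : Cert := .r (nat_lit 5660943638550353179107408936758928289799009328340392220191824088972173227751847569341540049774019602319201837101786659136820201688014610644787746989163257497368183963648) (.p (nat_lit 495) (.a (.d (nat_lit 463) (nat_lit 431) (nat_lit 4527) (nat_lit 592) (nat_lit 4559)) (.a (.d (nat_lit 592) (nat_lit 463) (nat_lit 4559) (nat_lit 624) (nat_lit 7663)) (.a (.f (nat_lit 463) (nat_lit 431) (nat_lit 4527) (.f (nat_lit 462) (nat_lit 430) (nat_lit 7598) (.f (nat_lit 494) (nat_lit 591) (nat_lit 7630) (.f (nat_lit 493) (nat_lit 492) (nat_lit 492) (.d (nat_lit 464) (nat_lit 432) (nat_lit 6575) (nat_lit 465) (nat_lit 1485)))))) (.f (nat_lit 592) (nat_lit 624) (nat_lit 7663) s50051)))))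
noncomputable def s50054 : Cert := .r (nat_lit 5660943638550353179107408936758928289799009328340392220191824088972173227751847569341540049774019602319201837101786659136820201688014610644787746989163257497368183963648) (.p (nat_lit 495) (.a (.d (nat_lit 463) (nat_lit 431) (nat_lit 4527) (nat_lit 592) (nat_lit 4559)) (.a (.d (nat_lit 592) (nat_lit 463) (nat_lit 4559) (nat_lit 624) (nat_lit 7663)) (.a (.f (nat_lit 463) (nat_lit 431) (nat_lit 4527) (.f (nat_lit 462) (nat_lit 430) (nat_lit 7598) (.f (nat_lit 591) (nat_lit 494) (nat_lit 7630) (.f (nat_lit 623) (nat_lit 655) (nat_lit 6671) (.d (nat_lit 622) (nat_lit 590) (nat_lit 5614) (nat_lit 654) (nat_lit 5646)))))) (.f (nat_lit 592) (nat_lit 624) (nat_lit 7663) (.p (nat_lit 591) (.a (.f (nat_lit 590) (nat_lit 622) (nat_lit 5614) (.d (nat_lit 561) (nat_lit 562) (nat_lit 1582) (nat_lit 589) (nat_lit 2605))) (.a (.p (nat_lit 561) (.a (.d (nat_lit 562) (nat_lit 563) (nat_lit 3599)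 (nat_lit 590) (nat_lit 1582)) (.a (.d (nat_lit 526) (nat_lit 525) (nat_lit 525) (nat_lit 562) (nat_lit 3598)) (.f (nat_lit 526) (nat_lit 525) (nat_lit 525) (.d (nat_lit 494) (nat_lit 462) (nat_lit 7630) (nat_lit 623) (nat_lit 7662)))))) (.f (nat_lit 623) (nat_lit 655) (nat_lit 6671) (.d (nat_lit 494) (nat_lit 462) (nat_lit 7630) (nat_lit 526) (nat_lit 7662)))))))))))
noncomputable def s50094 : Cert := .r (nat_lit 16209045196602322382739446396753300639398050817933940646974291137802706697492691449297056084544168427349938676734697735230702222936112657863433967684583456908804917449821847027712) (.p (nat_lit 558) (.a (.d (nat_lit 557) (nat_lit 556) (nat_lit 2572) (nat_lit 593) (nat_lit 557)) (.a (.f (nat_lit 593) (nat_lit 557) (nat_lit 557) (.d (nat_lit 594) (nat_lit 561) (nat_lit 558) (nat_lit 595) (nat_lit 3631))) (.a (.p (nat_lit 561) (.a (.f (nat_lit 562) (nat_lit 563) (nat_lit 3599) (.d (nat_lit 594) (nat_lit 593) (nat_lit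 558) (nat_lit 595) (nat_lit 559))) (.a (.f (nat_lit 590) (nat_lit 589) (nat_lit 1581) (.d (nat_lit 562) (nat_lit 563) (nat_lit 3599) (nat_lit 591) (nat_lit 1582))) (.a (.f (nat_lit 590) (nat_lit 589) (nat_lit 1581) (.d (nat_lit 591) (nat_lit 562) (nat_lit 1582) (nat_lit 622) (nat_lit 5614))) (.f (nat_lit 590) (nat_lit 589) (nat_lit 1581) (.d (nat_lit 622) (nat_lit 591) (nat_lit 5614) (nat_lit 654) (nat_lit 6670))))))) (.f (nat_lit 557) (nat_lit 556) (nat_lit 2572) (.f (nat_lit 589) (nat_lit 588) (nat_lit 1580) (.f (nat_lit 590) (nat_lit 561) (nat_lit 1581) (.d (nat_lit 622) (nat_lit 591) (nat_lit 5614) (nat_lit 654) (nat_lit 6670)))))))))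
noncomputable def s50096 : Cert := .r (nat_lit 5660943638550353179107408936758928289799009328340392220191824088972173227751847569341540049774019602319201837101786659136820201688014610644787746989163257497368183963648) (.p (nat_lit 495) (.a (.d (nat_lit 463) (nat_lit 431) (nat_lit 4527) (nat_lit 592) (nat_lit 4559)) (.a (.d (nat_lit 592) (nat_lit 463) (nat_lit 4559) (nat_lit 624) (nat_lit 7663)) (.a (.f (nat_lit 463) (nat_lit 431) (nat_lit 4527) (.f (nat_lit 558) (nat_lit 590) (nat_lit 5582) (.f (nat_lit 557) (nat_lit 556) (nat_lit 2572) (.f (nat_lit 462) (nat_lit 430) (nat_lit 7598) (.f (nat_lit 494) (nat_lit 591) (nat_lit 7630) (.f (nat_lit 493) (nat_lit 492) (nat_lit 492) (.d (nat_lit 464) (nat_lit 432) (nat_lit 6575) (nat_lit 465) (nat_lit 1485)))))))) (.f (nat_lit 592) (nat_lit 624) (nat_lit 7663) s50094)))))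
noncomputable def s50109 : Cert := .r (nat_lit 13208868488413109408714697609614886897203456352125895006548822462564044383230082655382518493797259045903305132922587830900888758405052099525901548094031018489982656446464) (.p (nat_lit 591) (.a (.d (nat_lit 623) (nat_lit 494) (nat_lit 7662) (nat_lit 655) (nat_lit 6671)) (.a (.f (nat_lit 494) (nat_lit 623) (nat_lit 7662) (.d (nat_lit 462) (nat_lit 430) (nat_lit 4526) (nat_lit 558) (nat_lit 4558))) (.a (.f (nat_lit 623) (nat_lit 655) (nat_lit 6671) (.f (nat_lit 622) (nat_lit 654) (nat_lit 5646) (.f (nat_lit 590) (nat_lit 495) (nat_lit 5614) (.d (nat_lit 589) (nat_lit 558) (nat_lit 1581) (nat_lit 588) (nat_lit 2604))))) (.p (nat_lit 495) (.a (.f (nat_lit 590) (nat_lit 622) (nat_lit 5614) (.d (nat_lit 589) (nat_lit 558) (nat_lit 1581) (nat_lit 588) (nat_lit 2604))) (.f (nat_lit 462) (nat_lit 494) (nat_lit 7630) (.d (nat_lit 463) (nat_lit 430) (nat_lit 7598) (nat_lit 431) (nat_lit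 4527)))))))))
noncomputable def s50120 : Cert := .r (nat_lit 5660943638550353179107408936758928289799009328340392220191824088972173227751847569341540049774019602319201837101786659136820201688014610644787746989163257497368183963648) (.p (nat_lit 526) (.a (.d (nat_lit 525) (nat_lit 524) (nat_lit 524) (nat_lit 561) (nat_lit 525)) (.a (.f (nat_lit 561) (nat_lit 562) (nat_lit 3598) s50109) (.f (nat_lit 525) (nat_lit 524) (nat_lit 524) (.f (nat_lit 557) (nat_lit 556) (nat_lit 1548) (.f (nat_lit 493) (nat_lit 492) (nat_lit 3564) (.p (nat_lit 494) (.a (.f (nat_lit 589) (nat_lit 621) (nat_lit 6637) (.d (nat_lit 588) (nat_lit 558) (nat_lit 1580) (nat_lit 620) (nat_lit 5612))) (.a (.d (nat_lit 462) (nat_lit 430) (nat_lit 5549) (nat_lit 589) (nat_lit 6605)) (.f (nat_lit 462) (nat_lit 430) (nat_lit 4526) (.d (nat_lit 591) (nat_lit 495) (nat_lit 7630) (nat_lit 558) (nat_lit 4558))))))))))))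
noncomputable def s50125 : Cert := .r (nat_lit 5660943638550353179107408936758928289799009328340392220191824088972173227751847569341540049774019602319201837101786659136820201688014610644787746989163257497368183963648) (.p (nat_lit 561) (.a (.d (nat_lit 526) (nat_lit 525) (nat_lit 525) (nat_lit 562) (nat_lit 3598)) (.a (.f (nat_lit 562) (nat_lit 563) (nat_lit 3599) (.f (nat_lit 591) (nat_lit 590) (nat_lit 1582) (.f (nat_lit 623) (nat_lit 655) (nat_lit 6671) (.f (nat_lit 624) (nat_lit 656) (nat_lit 4623) (.f (nat_lit 592) (nat_lit 495) (nat_lit 7663) (.p (nat_lit 593) (.a (.d (nat_lit 558) (nat_lit 557) (nat_lit 557) (nat_lit 594) (nat_lit 558)) (.d (nat_lit 622) (nat_lit 621) (nat_lit 2637) (nat_lit 654) (nat_lit 5646))))))))) (.f (nat_lit 526) (nat_lit 525) (nat_lit 525) (.p (nat_lit 558) (.a (.f (nat_lit 590) (nat_lit 589) (nat_lit 1581) (.d (nat_lit 622) (nat_lit 495) (nat_lit 6638) (nat_lit 654) (nat_lit 6670))) (.f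 (nat_lit 557) (nat_lit 556) (nat_lit 2572) (.d (nat_lit 593) (nat_lit 592) (nat_lit 557) (nat_lit 594) (nat_lit 558)))))))))
noncomputable def s50170 : Cert := .r (nat_lit 5660943638550353179107408936758928289799009328340392220191824088972173227751847569341540049774019602319201837101786659136820201688014610644787746989163257497368183963648) (.p (nat_lit 495) (.a (.d (nat_lit 463) (nat_lit 431) (nat_lit 4527) (nat_lit 592) (nat_lit 4559)) (.a (.d (nat_lit 592) (nat_lit 463) (nat_lit 4559) (nat_lit 624) (nat_lit 7663)) (.a (.f (nat_lit 463) (nat_lit 431) (nat_lit 4527) (.f (nat_lit 558) (nat_lit 590) (nat_lit 5582) (.f (nat_lit 557) (nat_lit 556) (nat_lit 2572) (.f (nat_lit 462) (nat_lit 430) (nat_lit 7598) (.f (nat_lit 494) (nat_lit 591) (nat_lit 7630) (.d (nat_lit 589) (nat_lit 526) (nat_lit 5581) (nat_lit 588) (nat_lit 1580))))))) (.f (nat_lit 592) (nat_lit 624) (nat_lit 7663) (.p (nat_lit 591) (.a (.f (nat_lit 623) (nat_lit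 655) (nat_lit 6671) (.d (nat_lit 622) (nat_lit 590) (nat_lit 5614) (nat_lit 654) (nat_lit 5646))) (.a (.f (nat_lit 623) (nat_lit 655) (nat_lit 6671) (.d (nat_lit 494) (nat_lit 462) (nat_lit 7630) (nat_lit 526) (nat_lit 7662))) (.a (.f (nat_lit 494) (nat_lit 462) (nat_lit 7630) (.f (nat_lit 590) (nat_lit 622) (nat_lit 5614) (.f (nat_lit 526) (nat_lit 623) (nat_lit 7662) (.p (nat_lit 558) (.a (.d (nat_lit 593) (nat_lit 557) (nat_lit 557) (nat_lit 594) (nat_lit 3630)) (.a (.d (nat_lit 557) (nat_lit 556) (nat_lit 2572) (nat_lit 593) (nat_lit 557)) (.d (nat_lit 589) (nat_lit 588) (nat_lit 2604) (nat_lit 621) (nat_lit 5613)))))))) (.f (nat_lit 590) (nat_lit 622) (nat_lit 5614) (.f (nat_lit 589) (nat_lit 588) (nat_lit 2604) (.f (nat_lit 557) (nat_lit 556) (nat_lit 3628) (.f (nat_lit 558) (nat_lit 593) (nat_lit 557) (.p (nat_lit 526) (.a (.d (nat_lit 621) (nat_lit 494) (nat_lit 5613) (nat_lit 620) (nat_lit 1612)) (.a (.p (nat_lit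 493) (.a (.d (nat_lit 492) (nat_lit 494) (nat_lit 492) (nat_lit 525) (nat_lit 3564)) (.a (.d (nat_lit 525) (nat_lit 461) (nat_lit 4557) (nat_lit 524) (nat_lit 3596)) (.d (nat_lit 494) (nat_lit 462) (nat_lit 4558) (nat_lit 492) (nat_lit 492))))) (.d (nat_lit 621) (nat_lit 620) (nat_lit 1612) (nat_lit 653) (nat_lit 6669))))))))))))))))))
noncomputable def s50202 : Cert := .r (nat_lit 5660943638550353179107408936758928289799009328340392220191824088972173227751847569341540049774019602319201837101786659136820201688014610644787746989163257497368183963648) (.p (nat_lit 561) (.a (.d (nat_lit 526) (nat_lit 525) (nat_lit 525) (nat_lit 562) (nat_lit 3598)) (.a (.f (nat_lit 562) (nat_lit 563) (nat_lit 3599) (.f (nat_lit 591) (nat_lit 590) (nat_lit 1582) (.f (nat_lit 623) (nat_lit 655) (nat_lit 6671) (.f (nat_lit 624) (nat_lit 656) (nat_lit 4623) (.f (nat_lit 592) (nat_lit 495) (nat_lit 7663) (.p (nat_lit 593) (.a (.d (nat_lit 558)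 (nat_lit 557) (nat_lit 557) (nat_lit 594) (nat_lit 558)) (.d (nat_lit 622) (nat_lit 621) (nat_lit 2637) (nat_lit 654) (nat_lit 5646))))))))) (.f (nat_lit 526) (nat_lit 525) (nat_lit 525) (.p (nat_lit 495) (.a (.d (nat_lit 463) (nat_lit 431) (nat_lit 4527) (nat_lit 592) (nat_lit 4559)) (.a (.d (nat_lit 592) (nat_lit 463) (nat_lit 4559) (nat_lit 624) (nat_lit 7663)) (.a (.f (nat_lit 463) (nat_lit 431) (nat_lit 4527) (.f (nat_lit 590) (nat_lit 558) (nat_lit 5582) (.f (nat_lit 591) (nat_lit 622) (nat_lit 5614) (.d (nat_lit 623) (nat_lit 494) (nat_lit 7662) (nat_lit 655) (nat_lit 6671))))) (.f (nat_lit 592) (nat_lit 624) (nat_lit 7663) (.p (nat_lit 591) (.a (.d (nat_lit 590) (nat_lit 589) (nat_lit 2605) (nat_lit 622) (nat_lit 5614)) (.d (nat_lit 623) (nat_lit 494) (nat_lit 7662) (nat_lit 655) (nat_lit 6671)))))))))))))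
noncomputable def s50221 : Cert := .r (nat_lit 5660943638550353179107408936758928289799009328340392220191824088972173227751847569341540049774019602319201837101786659136820201688014610644787746989163257497368183963648) (.p (nat_lit 495) (.a (.d (nat_lit 463) (nat_lit 431) (nat_lit 4527) (nat_lit 592) (nat_lit 4559)) (.a (.d (nat_lit 592) (nat_lit 463) (nat_lit 4559) (nat_lit 624) (nat_lit 7663)) (.a (.f (nat_lit 463) (nat_lit 431) (nat_lit 4527) (.f (nat_lit 558) (nat_lit 590) (nat_lit 5582) (.f (nat_lit 557) (nat_lit 556) (nat_lit 2572) (.f (nat_lit 525) (nat_lit 524) (nat_lit 3596) (.f (nat_lit 526) (nat_lit 561) (nat_lit 525) (.f (nat_lit 589) (nat_lit 588) (nat_lit 1580) (.d (nat_lit 621) (nat_lit 494) (nat_lit 6637) (nat_lit 653) (nat_lit 6669)))))))) (.f (nat_lit 592) (nat_lit 624) (nat_lit 7663) (.p (nat_lit 561) (.a (.d (nat_lit 526) (nat_lit 525) (nat_lit 525) (nat_lit 562) (nat_lit 3598)) (.a (.f (nat_lit 562)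 (nat_lit 563) (nat_lit 3599) (.f (nat_lit 590) (nat_lit 591) (nat_lit 1582) (.f (nat_lit 558) (nat_lit 589) (nat_lit 1581) (.d (nat_lit 557) (nat_lit 556) (nat_lit 2572) (nat_lit 593) (nat_lit 557))))) (.f (nat_lit 526) (nat_lit 525) (nat_lit 525) (.p (nat_lit 558) (.a (.d (nat_lit 557) (nat_lit 556) (nat_lit 2572) (nat_lit 593) (nat_lit 557)) (.d (nat_lit 590) (nat_lit 589) (nat_lit 1581) (nat_lit 622) (nat_lit 6638)))))))))))))
noncomputable def s50225 : Cert := .r (nat_lit 5660943638550353179107408936758928289799009328340392220191824088972173227751847569341540049774019602319201837101786659136820201688014610644787746989163257497368183963648) (.p (nat_lit 561) (.a (.d (nat_lit 526) (nat_lit 525) (nat_lit 525) (nat_lit 562) (nat_lit 3598)) (.a (.f (nat_lit 562) (nat_lit 563) (nat_lit 3599) (.f (nat_lit 590) (nat_lit 591) (nat_lit 1582) (.f (nat_lit 558) (nat_lit 589) (nat_lit 1581) (.d (nat_lit 594) (nat_lit 593) (nat_lit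 558) (nat_lit 595) (nat_lit 559))))) (.f (nat_lit 526) (nat_lit 525) (nat_lit 525) (.p (nat_lit 558) (.a (.f (nat_lit 557) (nat_lit 556) (nat_lit 2572) (.d (nat_lit 593) (nat_lit 592) (nat_lit 557) (nat_lit 594) (nat_lit 558))) (.f (nat_lit 590) (nat_lit 589) (nat_lit 1581) (.d (nat_lit 495) (nat_lit 463) (nat_lit 5582) (nat_lit 622) (nat_lit 6638)))))))))
noncomputable def s50271 : Cert := .r (nat_lit 104425978491718945752371426602280861290731341299691179253599769475430838103671260203025305628592282052171511785429211117528565403339811295826715662390393305616874326590436008497372660236288) (.p (nat_lit 625) (.a (.f (nat_lit 593) (nat_lit 657) (nat_lit 7696) (.f (nat_lit 594) (nat_lit 558) (nat_lit 558) (.d (nat_lit 595) (nat_lit 596) (nat_lit 1616) (nat_lit 626) (nat_lit 2639)))) (.a (.f (nat_lit 657) (nat_lit 593) (nat_lit 7696) (.f (nat_lit 658) (nat_lit 622) (nat_lit 622) (.d (nat_lit 659) (nat_lit 626) (nat_lit 623)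 (nat_lit 656) (nat_lit 3695)))) (.a (.f (nat_lit 593) (nat_lit 657) (nat_lit 7696) (.d (nat_lit 594) (nat_lit 558) (nat_lit 558) (nat_lit 622) (nat_lit 2638))) (.a (.p (nat_lit 626) (.a (.p (nat_lit 627) (.a (.d (nat_lit 659) (nat_lit 658) (nat_lit 623) (nat_lit 660) (nat_lit 624)) (.d (nat_lit 655) (nat_lit 654) (nat_lit 1646) (nat_lit 656) (nat_lit 1647)))) (.a (.p (nat_lit 622) (.a (.d (nat_lit 658) (nat_lit 657) (nat_lit 622) (nat_lit 659) (nat_lit 623)) (.d (nat_lit 654) (nat_lit 653) (nat_lit 1645) (nat_lit 655) (nat_lit 1646)))) (.a (.p (nat_lit 627) (.a (.d (nat_lit 655) (nat_lit 654) (nat_lit 1646) (nat_lit 656) (nat_lit 1647)) (.d (nat_lit 595) (nat_lit 594) (nat_lit 2639) (nat_lit 596) (nat_lit 2640)))) (.f (nat_lit 658) (nat_lit 659) (nat_lit 623) (.p (nat_lit 627) (.a (.d (nat_lit 595) (nat_lit 594) (nat_lit 2639) (nat_lit 596) (nat_lit 2640)) (.a (.p (nat_lit 628) (.a (.d (nat_lit 596) (nat_lit 595) (nat_lit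 2640) (nat_lit 597) (nat_lit 2641)) (.d (nat_lit 657) (nat_lit 622) (nat_lit 622) (nat_lit 656) (nat_lit 1648)))) (.f (nat_lit 657) (nat_lit 622) (nat_lit 622) (.d (nat_lit 628) (nat_lit 629) (nat_lit 1649) (nat_lit 656) (nat_lit 1648))))))))))) (.p (nat_lit 626) (.a (.p (nat_lit 627) (.a (.d (nat_lit 659) (nat_lit 658) (nat_lit 623) (nat_lit 660) (nat_lit 624)) (.d (nat_lit 655) (nat_lit 654) (nat_lit 1646) (nat_lit 656) (nat_lit 1647)))) (.f (nat_lit 594) (nat_lit 595) (nat_lit 2639) (.d (nat_lit 593) (nat_lit 558) (nat_lit 558) (nat_lit 622) (nat_lit 2638))))))))))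
noncomputable def s50284 : Cert := .r (nat_lit 5660943638550353179107408936758928289799009328340392220191824088972173227751847569341540049774019602319201837101786659136820201688014610644787746989163257497368183963648) (.p (nat_lit 561) (.a (.d (nat_lit 526) (nat_lit 525) (nat_lit 525) (nat_lit 562) (nat_lit 3598)) (.a (.f (nat_lit 562) (nat_lit 563) (nat_lit 3599) (.f (nat_lit 594) (nat_lit 595) (nat_lit 559) (.f (nat_lit 593) (nat_lit 558) (nat_lit 558) (.f (nat_lit 625) (nat_lit 657) (nat_lit 7696) (.d (nat_lit 530) (nat_lit 498) (nat_lit 5617) (nat_lit 531) (nat_lit 2575)))))) (.f (nat_lit 526) (nat_lit 525) (nat_lit 525) (.p (nat_lit 624) (.a (.d (nat_lit 592) (nat_lit 495) (nat_lit 7663) (nat_lit 656) (nat_lit 7695)) (.a (.p (nat_lit 623) (.a (.d (nat_lit 591) (nat_lit 655) (nat_lit 6671) (nat_lit 656) (nat_lit 4623)) (.a s50271 (.a (.d (nat_lit 591) (nat_lit 494) (nat_lit 7662) (nat_lit 656) (nat_lit 4623)) (.d (nat_lit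 591) (nat_lit 494) (nat_lit 7662) (nat_lit 655) (nat_lit 6671)))))) (.f (nat_lit 592) (nat_lit 495) (nat_lit 7663) (.f (nat_lit 623) (nat_lit 655) (nat_lit 5647) (.p (nat_lit 593) (.a (.d (nat_lit 558) (nat_lit 557) (nat_lit 557) (nat_lit 594) (nat_lit 558)) (.f (nat_lit 625) (nat_lit 657) (nat_lit 4624) (.f (nat_lit 591) (nat_lit 494) (nat_lit 7662) (.d (nat_lit 622) (nat_lit 621) (nat_lit 2637) (nat_lit 654) (nat_lit 5646)))))))))))))))
noncomputable def s50303 : Cert := .r (nat_lit 5660943638550353179107408936758928289799009328340392220191824088972173227751847569341540049774019602319201837101786659136820201688014610644787746989163257497368183963648) (.p (nat_lit 592) (.a (.d (nat_lit 495) (nat_lit 463) (nat_lit 4559) (nat_lit 624) (nat_lit 7663)) (.a (.f (nat_lit 495) (nat_lit 463) (nat_lit 4559) (.p (nat_lit 591) (.a (.f (nat_lit 590) (nat_lit 622) (nat_lit 5614) (.d (nat_lit 561) (nat_lit 562) (nat_lit 1582) (nat_lit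 589) (nat_lit 2605))) (.a (.f (nat_lit 623) (nat_lit 655) (nat_lit 6671) (.f (nat_lit 526) (nat_lit 494) (nat_lit 7662) (.d (nat_lit 525) (nat_lit 524) (nat_lit 524) (nat_lit 561) (nat_lit 525)))) (.f (nat_lit 623) (nat_lit 655) (nat_lit 6671) (.d (nat_lit 622) (nat_lit 590) (nat_lit 5614) (nat_lit 654) (nat_lit 5646))))))) (.a (.d (nat_lit 624) (nat_lit 495) (nat_lit 7663) (nat_lit 656) (nat_lit 7695)) (.f (nat_lit 624) (nat_lit 656) (nat_lit 7695) (.f (nat_lit 623) (nat_lit 655) (nat_lit 5647) (.f (nat_lit 625) (nat_lit 657) (nat_lit 4624) (.p (nat_lit 591) (.a (.d (nat_lit 590) (nat_lit 589) (nat_lit 589) (nat_lit 626) (nat_lit 3662)) (.f (nat_lit 622) (nat_lit 654) (nat_lit 5646) (.d (nat_lit 593) (nat_lit 594) (nat_lit 1614) (nat_lit 621) (nat_lit 2637))))))))))))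
noncomputable def s50313 : Cert := .r (nat_lit 5660943638550353179107408936758928289799009328340392220191824088972173227751847569341540049774019602319201837101786659136820201688014610644787746989163257497368183963648) (.p (nat_lit 592) (.a (.d (nat_lit 495) (nat_lit 463) (nat_lit 4559) (nat_lit 624) (nat_lit 7663)) (.a (.f (nat_lit 495) (nat_lit 463) (nat_lit 4559) s50094) (.a (.d (nat_lit 624) (nat_lit 495) (nat_lit 7663) (nat_lit 656) (nat_lit 7695)) (.f (nat_lit 624) (nat_lit 656) (nat_lit 7695) (.f (nat_lit 623) (nat_lit 655) (nat_lit 5647) (.f (nat_lit 625) (nat_lit 657) (nat_lit 4624) (.p (nat_lit 593) (.a (.f (nat_lit 594) (nat_lit 595) (nat_lit 3631) (.d (nat_lit 558) (nat_lit 557) (nat_lit 557) (nat_lit 561) (nat_lit 558))) (.f (nat_lit 622) (nat_lit 621) (nat_lit 2637) (.d (nat_lit 654) (nat_lit 591) (nat_lit 5646) (nat_lit 653) (nat_lit 1645))))))))))))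
noncomputable def s50353 : Cert := .r (nat_lit 5660943638550353179107408936758928289799009328340392220191824088972173227751847569341540049774019602319201837101786659136820201688014610644787746989163257497368183963648) (.p (nat_lit 592) (.a (.d (nat_lit 495) (nat_lit 463) (nat_lit 4559) (nat_lit 624) (nat_lit 7663)) (.a (.f (nat_lit 495) (nat_lit 463) (nat_lit 4559) (.p (nat_lit 558) (.a (.d (nat_lit 557) (nat_lit 556) (nat_lit 2572) (nat_lit 593) (nat_lit 557)) (.a (.f (nat_lit 593) (nat_lit 557) (nat_lit 557) (.d (nat_lit 594) (nat_lit 561) (nat_lit 558) (nat_lit 595) (nat_lit 3631))) (.p (nat_lit 526) (.a (.d (nat_lit 525) (nat_lit 524) (nat_lit 524) (nat_lit 561) (nat_lit 525)) (.a (.f (nat_lit 590) (nat_lit 622) (nat_lit 6638) (.f (nat_lit 589) (nat_lit 561) (nat_lit 1581) (.d (nat_lit 588) (nat_lit 587) (nat_lit 2603) (nat_lit 591) (nat_lit 2604)))) (.f (nat_lit 590) (nat_lit 622) (nat_lit 6638) (.f (nat_lit 525) (nat_lit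 524) (nat_lit 524) (.p (nat_lit 494) (.a (.d (nat_lit 493) (nat_lit 461) (nat_lit 7629) (nat_lit 492) (nat_lit 3564)) (.f (nat_lit 591) (nat_lit 623) (nat_lit 7662) (.d (nat_lit 589) (nat_lit 588) (nat_lit 2604) (nat_lit 621) (nat_lit 5613)))))))))))))) (.a (.d (nat_lit 624) (nat_lit 495) (nat_lit 7663) (nat_lit 656) (nat_lit 7695)) (.f (nat_lit 624) (nat_lit 656) (nat_lit 7695) (.f (nat_lit 623) (nat_lit 655) (nat_lit 5647) (.f (nat_lit 625) (nat_lit 657) (nat_lit 4624) (.p (nat_lit 591) (.a (.d (nat_lit 590) (nat_lit 589) (nat_lit 589) (nat_lit 626) (nat_lit 3662)) (.f (nat_lit 622) (nat_lit 654) (nat_lit 5646) (.d (nat_lit 593) (nat_lit 594) (nat_lit 1614) (nat_lit 621) (nat_lit 2637))))))))))))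
noncomputable def s50410 : Cert := .r (nat_lit 13208868487754088833342159076976624420491642603268029217735065143262175891148270509776343512793493320399805495644767385007306596033488388677928750288023911774035610959872) (.p (nat_lit 562) (.a (.d (nat_lit 527) (nat_lit 526) (nat_lit 3598) (nat_lit 563) (nat_lit 3599)) (.a (.f (nat_lit 527) (nat_lit 526) (nat_lit 3598) (.f (nat_lit 591) (nat_lit 590) (nat_lit 1582) (.f (nat_lit 594) (nat_lit 595) (nat_lit 559) (.f (nat_lit 593) (nat_lit 558) (nat_lit 558) (.f (nat_lit 530) (nat_lit 531) (nat_lit 2575) (.d (nat_lit 498) (nat_lit 466) (nat_lit 5585) (nat_lit 625) (nat_lit 5617))))))) (.a (.f (nat_lit 563) (nat_lit 527) (nat_lit 3599) (.d (nat_lit 595) (nat_lit 594) (nat_lit 559) (nat_lit 596) (nat_lit 560))) (.f (nat_lit 591) (nat_lit 590) (nat_lit 1582) (.f (nat_lit 563) (nat_lit 592) (nat_lit 1583) (.d (nat_lit 595) (nat_lit 594) (nat_lit 559) (nat_lit 596) (nat_lit 560))))))))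
noncomputable def s50436 : Cert := .r (nat_lit 16209045204150247232602202626360589312254009425338387670759793924159705071084562604775291170585146871373178120318801031051503394700181214580471456565697258013672678442436319510528) (.p (nat_lit 494) (.a (.d (nat_lit 462) (nat_lit 430) (nat_lit 4526) (nat_lit 591) (nat_lit 7630)) (.a (.f (nat_lit 591) (nat_lit 623) (nat_lit 7662) (.p (nat_lit 558) (.a (.d (nat_lit 557) (nat_lit 556) (nat_lit 2572) (nat_lit 593) (nat_lit 557)) (.f (nat_lit 590) (nat_lit 589) (nat_lit 1581) (.d (nat_lit 493) (nat_lit 461) (nat_lit 7629) (nat_lit 492) (nat_lit 492)))))) (.f (nat_lit 462) (nat_lit 430) (nat_lit 4526) (.p (nat_lit 558) (.a (.d (nat_lit 557) (nat_lit 556) (nat_lit 2572) (nat_lit 593) (nat_lit 557)) (.a (.d (nat_lit 557) (nat_lit 589) (nat_lit 5581) (nat_lit 593) (nat_lit 557)) (.f (nat_lit 461) (nat_lit 429) (nat_lit 7597) (.d (nat_lit 493) (nat_lit 492) (nat_lit 492) (nat_lit 590)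 (nat_lit 7629))))))))))
noncomputable def s50457 : Cert := .r (nat_lit 13208868487754088833342159076976624420491642603268029217735065143262175891148270509776343512793493320399805495644767385007306596033488388677928750288023911774035610959872) (.p (nat_lit 562) (.a (.d (nat_lit 527) (nat_lit 526) (nat_lit 3598) (nat_lit 563) (nat_lit 3599)) (.a (.f (nat_lit 527) (nat_lit 526) (nat_lit 3598) (.f (nat_lit 594) (nat_lit 595) (nat_lit 559) (.f (nat_lit 593) (nat_lit 558) (nat_lit 558) (.f (nat_lit 530) (nat_lit 531) (nat_lit 2575) (.d (nat_lit 498) (nat_lit 466) (nat_lit 5585) (nat_lit 625) (nat_lit 5617)))))) (.a (.f (nat_lit 563) (nat_lit 527) (nat_lit 3599) (.d (nat_lit 595) (nat_lit 594) (nat_lit 559) (nat_lit 596) (nat_lit 560))) (.f (nat_lit 594) (nat_lit 595) (nat_lit 559) (.f (nat_lit 593) (nat_lit 558) (nat_lit 558) (.f (nat_lit 530) (nat_lit 531) (nat_lit 2575) (.d (nat_lit 498) (nat_lit 466) (nat_lit 5585) (nat_lit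 625) (nat_lit 5617)))))))))
noncomputable def s50459 : Cert := .r (nat_lit 13208868487754088833342159076976624420491642603268029217735065143262175891148270509776343512793493320399805495644767385007306596033488388677928750288023911774035610959872) (.p (nat_lit 562) (.a (.d (nat_lit 527) (nat_lit 526) (nat_lit 3598) (nat_lit 563) (nat_lit 3599)) (.a (.f (nat_lit 527) (nat_lit 526) (nat_lit 3598) (.f (nat_lit 591) (nat_lit 590) (nat_lit 1582) (.p (nat_lit 624) (.a (.d (nat_lit 592) (nat_lit 495) (nat_lit 7663) (nat_lit 656) (nat_lit 7695)) (.a (.d (nat_lit 623) (nat_lit 655) (nat_lit 6671) (nat_lit 656) (nat_lit 4623)) (.f (nat_lit 495) (nat_lit 592) (nat_lit 7663) (.f (nat_lit 462) (nat_lit 494) (nat_lit 7630) (.d (nat_lit 463) (nat_lit 430) (nat_lit 7598) (nat_lit 431) (nat_lit 4527))))))))) (.a (.f (nat_lit 563) (nat_lit 527) (nat_lit 3599) (.d (nat_lit 595) (nat_lit 594) (nat_lit 559) (nat_lit 596) (nat_lit 560))) (.f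 (nat_lit 591) (nat_lit 590) (nat_lit 1582) (.f (nat_lit 563) (nat_lit 592) (nat_lit 1583) (.d (nat_lit 595) (nat_lit 594) (nat_lit 559) (nat_lit 596) (nat_lit 560))))))))
noncomputable def s50572 : Cert := .r (nat_lit 243660616480677540071254837420771197133522493009622990162232765817863291373341280587579166397079900769809840355409459959535681287614627087305450076583167832623876070519368247040142515109888) (.p (nat_lit 626) (.a (.p (nat_lit 627) (.a (.d (nat_lit 659) (nat_lit 658) (nat_lit 623) (nat_lit 660) (nat_lit 624)) (.d (nat_lit 655) (nat_lit 654) (nat_lit 1646) (nat_lit 656) (nat_lit 1647)))) (.a (.p (nat_lit 622) (.a (.d (nat_lit 658) (nat_lit 657) (nat_lit 622) (nat_lit 659) (nat_lit 623)) (.d (nat_lit 654) (nat_lit 653) (nat_lit 1645) (nat_lit 655) (nat_lit 1646)))) (.a (.p (nat_lit 627) (.a (.d (nat_lit 655) (nat_lit 654) (nat_lit 1646) (nat_lit 656) (nat_lit 1647)) (.d (nat_lit 595) (nat_lit 594) (nat_lit 2639)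 (nat_lit 596) (nat_lit 2640)))) (.f (nat_lit 659) (nat_lit 658) (nat_lit 623) (.f (nat_lit 595) (nat_lit 594) (nat_lit 2639) (.d (nat_lit 627) (nat_lit 596) (nat_lit 2640) (nat_lit 660) (nat_lit 624))))))))
noncomputable def s50586 : Cert := .r (nat_lit 69617318994479297172650573897658277330161420192829169568238910612355052878137217686810397654809568441828184869356206506826914170252587979095738569940932489138921439692026597027825842126848) (.p (nat_lit 623) (.a (.d (nat_lit 591) (nat_lit 655) (nat_lit 6671) (nat_lit 656) (nat_lit 4623)) (.a (.p (nat_lit 625) (.a (.f (nat_lit 593) (nat_lit 657) (nat_lit 7696) (.d (nat_lit 594) (nat_lit 558) (nat_lit 558) (nat_lit 622) (nat_lit 2638))) (.a (.p (nat_lit 626) (.a (.f (nat_lit 593) (nat_lit 657) (nat_lit 7696) (.d (nat_lit 594) (nat_lit 558) (nat_lit 558) (nat_lit 595) (nat_lit 2639))) (.p (nat_lit 627) (.a (.d (nat_lit 659) (nat_lit 658) (nat_lit 623) (nat_lit 660) (nat_lit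 624)) (.d (nat_lit 655) (nat_lit 654) (nat_lit 1646) (nat_lit 656) (nat_lit 1647)))))) (.a (.f (nat_lit 657) (nat_lit 593) (nat_lit 7696) (.f (nat_lit 658) (nat_lit 622) (nat_lit 622) (.d (nat_lit 659) (nat_lit 626) (nat_lit 623) (nat_lit 656) (nat_lit 3695)))) (.a s50572 (.p (nat_lit 594) (.a (.d (nat_lit 593) (nat_lit 558) (nat_lit 558) (nat_lit 622) (nat_lit 2638)) (.a (.f (nat_lit 595) (nat_lit 626) (nat_lit 2639) (.d (nat_lit 593) (nat_lit 558) (nat_lit 558) (nat_lit 596) (nat_lit 3632))) (.a (.f (nat_lit 595) (nat_lit 626) (nat_lit 2639) (.d (nat_lit 593) (nat_lit 596) (nat_lit 1616) (nat_lit 622) (nat_lit 2638))) (.f (nat_lit 626) (nat_lit 595) (nat_lit 2639) (.p (nat_lit 627) (.a (.d (nat_lit 659) (nat_lit 658) (nat_lit 623) (nat_lit 660) (nat_lit 624)) (.d (nat_lit 655) (nat_lit 654) (nat_lit 1646) (nat_lit 656) (nat_lit 1647)))))))))))))) (.a (.d (nat_lit 591) (nat_lit 494) (nat_lit 7662) (nat_lit 656) (nat_lit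 4623)) (.d (nat_lit 591) (nat_lit 494) (nat_lit 7662) (nat_lit 655) (nat_lit 6671))))))
noncomputable def s50678 : Cert := .r (nat_lit 5660943638550353179107408936758928289799009328340392220191824088972173227751847569341540049774019602319201837101786659136820201688014610644787746989163257497368183963648) (.p (nat_lit 561) (.a (.d (nat_lit 526) (nat_lit 525) (nat_lit 525) (nat_lit 562) (nat_lit 3598)) (.a (.f (nat_lit 562) (nat_lit 563) (nat_lit 3599) (.f (nat_lit 591) (nat_lit 590) (nat_lit 1582) (.f (nat_lit 623) (nat_lit 655) (nat_lit 6671) (.f (nat_lit 594) (nat_lit 595) (nat_lit 559) (.f (nat_lit 593) (nat_lit 558) (nat_lit 558) (.f (nat_lit 625) (nat_lit 657) (nat_lit 7696) (.d (nat_lit 530) (nat_lit 498) (nat_lit 5617) (nat_lit 531) (nat_lit 2575)))))))) (.f (nat_lit 526) (nat_lit 525) (nat_lit 525) s50109))))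
noncomputable def s50694 : Cert := .r (nat_lit 5660943638550353179107408936758928289799009328340392220191824088972173227751847569341540049774019602319201837101786659136820201688014610644787746989163257497368183963648) (.p (nat_lit 495) (.a (.d (nat_lit 463) (nat_lit 431) (nat_lit 4527) (nat_lit 592) (nat_lit 4559)) (.a (.d (nat_lit 592) (nat_lit 463) (nat_lit 4559) (nat_lit 624) (nat_lit 7663)) (.a (.f (nat_lit 463) (nat_lit 431) (nat_lit 4527) (.f (nat_lit 462) (nat_lit 430) (nat_lit 7598) (.f (nat_lit 494) (nat_lit 591) (nat_lit 7630) (.f (nat_lit 493) (nat_lit 492) (nat_lit 492) (.d (nat_lit 464) (nat_lit 432) (nat_lit 6575) (nat_lit 465) (nat_lit 1485)))))) (.f (nat_lit 592) (nat_lit 624) (nat_lit 7663) (.p (nat_lit 591) (.a (.f (nat_lit 623) (nat_lit 655) (nat_lit 6671) (.d (nat_lit 622) (nat_lit 590) (nat_lit 5614) (nat_lit 654) (nat_lit 5646))) (.a (.f (nat_lit 623) (nat_lit 655) (nat_lit 6671) (.d (nat_lit 494)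 (nat_lit 462) (nat_lit 7630) (nat_lit 526) (nat_lit 7662))) (.f (nat_lit 590) (nat_lit 622) (nat_lit 5614) (.d (nat_lit 589) (nat_lit 561) (nat_lit 2605) (nat_lit 588) (nat_lit 2604)))))))))))
noncomputable def s50758 : Cert := .r (nat_lit 5660943638550353179107408936758928289799009328340392220191824088972173227751847569341540049774019602319201837101786659136820201688014610644787746989163257497368183963648) (.p (nat_lit 495) (.a (.d (nat_lit 463) (nat_lit 431) (nat_lit 4527) (nat_lit 592) (nat_lit 4559)) (.a (.d (nat_lit 592) (nat_lit 463) (nat_lit 4559) (nat_lit 624) (nat_lit 7663)) (.a (.f (nat_lit 463) (nat_lit 431) (nat_lit 4527) (.f (nat_lit 558) (nat_lit 590) (nat_lit 5582) (.f (nat_lit 557) (nat_lit 556) (nat_lit 2572) (.f (nat_lit 525) (nat_lit 524) (nat_lit 3596) (.f (nat_lit 526) (nat_lit 561) (nat_lit 525) (.p (nat_lit 494) (.a (.d (nat_lit 589) (nat_lit 588) (nat_lit 1580) (nat_lit 621) (nat_lit 6637)) (.d (nat_lit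 462) (nat_lit 430) (nat_lit 4526) (nat_lit 591) (nat_lit 4558))))))))) (.f (nat_lit 592) (nat_lit 624) (nat_lit 7663) (.p (nat_lit 591) (.a (.f (nat_lit 590) (nat_lit 622) (nat_lit 5614) (.d (nat_lit 561) (nat_lit 562) (nat_lit 1582) (nat_lit 589) (nat_lit 2605))) (.a (.p (nat_lit 561) (.a (.d (nat_lit 562) (nat_lit 563) (nat_lit 3599) (nat_lit 590) (nat_lit 1582)) (.a (.d (nat_lit 526) (nat_lit 525) (nat_lit 525) (nat_lit 562) (nat_lit 3598)) (.f (nat_lit 526) (nat_lit 525) (nat_lit 525) (.d (nat_lit 494) (nat_lit 462) (nat_lit 7630) (nat_lit 623) (nat_lit 7662)))))) (.f (nat_lit 623) (nat_lit 655) (nat_lit 6671) (.d (nat_lit 494) (nat_lit 462) (nat_lit 7630) (nat_lit 526) (nat_lit 7662)))))))))))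
noncomputable def s50891 : Cert := .r (nat_lit 5660943638550353179107408936758928289799009328340392220191824088972173227751847569341540049774019602319201837101786659136820201688014610644787746989163257497368183963648) (.p (nat_lit 561) (.a (.d (nat_lit 526) (nat_lit 525) (nat_lit 525) (nat_lit 562) (nat_lit 3598)) (.a (.f (nat_lit 562) (nat_lit 563) (nat_lit 3599) (.f (nat_lit 591) (nat_lit 590) (nat_lit 1582) (.f (nat_lit 594) (nat_lit 595) (nat_lit 559) (.f (nat_lit 593) (nat_lit 558) (nat_lit 558) (.f (nat_lit 530) (nat_lit 531) (nat_lit 2575) (.d (nat_lit 498) (nat_lit 466) (nat_lit 5585) (nat_lit 625) (nat_lit 5617))))))) (.f (nat_lit 526) (nat_lit 525) (nat_lit 525) (.p (nat_lit 558) (.a (.f (nat_lit 557) (nat_lit 556) (nat_lit 2572) (.d (nat_lit 593) (nat_lit 592) (nat_lit 557) (nat_lit 594) (nat_lit 558))) (.f (nat_lit 590) (nat_lit 589) (nat_lit 1581) (.d (nat_lit 495) (nat_lit 463) (nat_lit 5582) (nat_lit 622)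 (nat_lit 6638)))))))))
noncomputable def s50892 : Cert := .r (nat_lit 5660943638550353179107408936758928289799009328340392220191824088972173227751847569341540049774019602319201837101786659136820201688014610644787746989163257497368183963648) (.p (nat_lit 561) (.a (.d (nat_lit 526) (nat_lit 525) (nat_lit 525) (nat_lit 562) (nat_lit 3598)) (.a (.f (nat_lit 562) (nat_lit 563) (nat_lit 3599) (.f (nat_lit 594) (nat_lit 595) (nat_lit 559) (.f (nat_lit 558) (nat_lit 593) (nat_lit 558) (.f (nat_lit 557) (nat_lit 556) (nat_lit 2572) (.d (nat_lit 589) (nat_lit 588) (nat_lit 1580) (nat_lit 590) (nat_lit 1581)))))) (.f (nat_lit 526) (nat_lit 525) (nat_lit 525) (.p (nat_lit 558) (.a (.f (nat_lit 557) (nat_lit 556) (nat_lit 2572) (.d (nat_lit 593) (nat_lit 592) (nat_lit 557) (nat_lit 594) (nat_lit 558))) (.f (nat_lit 590) (nat_lit 589) (nat_lit 1581) (.d (nat_lit 495) (nat_lit 463) (nat_lit 5582) (nat_lit 622) (nat_lit 6638)))))))))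
noncomputable def s50893 : Cert := .r (nat_lit 5660943638550353179107408936758928289799009328340392220191824088972173227751847569341540049774019602319201837101786659136820201688014610644787746989163257497368183963648) (.p (nat_lit 495) (.a (.d (nat_lit 463) (nat_lit 431) (nat_lit 4527) (nat_lit 592) (nat_lit 4559)) (.a (.d (nat_lit 592) (nat_lit 463) (nat_lit 4559) (nat_lit 624) (nat_lit 7663)) (.a (.f (nat_lit 463) (nat_lit 431) (nat_lit 4527) (.f (nat_lit 558) (nat_lit 590) (nat_lit 5582) (.f (nat_lit 557) (nat_lit 556) (nat_lit 2572) (.f (nat_lit 525) (nat_lit 524) (nat_lit 3596) (.f (nat_lit 526) (nat_lit 561) (nat_lit 525) (.p (nat_lit 494) (.a (.d (nat_lit 589) (nat_lit 588) (nat_lit 1580) (nat_lit 621) (nat_lit 6637)) (.d (nat_lit 462) (nat_lit 430) (nat_lit 4526) (nat_lit 591) (nat_lit 4558))))))))) (.f (nat_lit 592) (nat_lit 624) (nat_lit 7663) (.p (nat_lit 591) (.a (.f (nat_lit 590) (nat_lit 622) (nat_lit 5614)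 (.d (nat_lit 561) (nat_lit 562) (nat_lit 1582) (nat_lit 589) (nat_lit 2605))) (.f (nat_lit 623) (nat_lit 655) (nat_lit 6671) (.d (nat_lit 494) (nat_lit 462) (nat_lit 7630) (nat_lit 526) (nat_lit 7662))))))))))
noncomputable def s50894 : Cert := .r (nat_lit 5660943638550353179107408936758928289799009328340392220191824088972173227751847569341540049774019602319201837101786659136820201688014610644787746989163257497368183963648) (.p (nat_lit 495) (.a (.d (nat_lit 463) (nat_lit 431) (nat_lit 4527) (nat_lit 592) (nat_lit 4559)) (.a (.d (nat_lit 592) (nat_lit 463) (nat_lit 4559) (nat_lit 624) (nat_lit 7663)) (.a (.f (nat_lit 463) (nat_lit 431) (nat_lit 4527) (.f (nat_lit 558) (nat_lit 590) (nat_lit 5582) (.f (nat_lit 557) (nat_lit 556) (nat_lit 2572) (.f (nat_lit 525) (nat_lit 524) (nat_lit 3596) (.f (nat_lit 526) (nat_lit 561) (nat_lit 525) (.p (nat_lit 494) (.a (.d (nat_lit 589) (nat_lit 588) (nat_lit 1580) (nat_lit 621) (nat_lit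 6637)) (.d (nat_lit 462) (nat_lit 430) (nat_lit 4526) (nat_lit 591) (nat_lit 4558))))))))) (.f (nat_lit 592) (nat_lit 624) (nat_lit 7663) (.p (nat_lit 591) (.a (.f (nat_lit 623) (nat_lit 655) (nat_lit 6671) (.d (nat_lit 622) (nat_lit 590) (nat_lit 5614) (nat_lit 654) (nat_lit 5646))) (.a (.f (nat_lit 623) (nat_lit 655) (nat_lit 6671) (.d (nat_lit 494) (nat_lit 462) (nat_lit 7630) (nat_lit 526) (nat_lit 7662))) (.f (nat_lit 590) (nat_lit 622) (nat_lit 5614) (.d (nat_lit 589) (nat_lit 561) (nat_lit 2605) (nat_lit 588) (nat_lit 2604)))))))))))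
noncomputable def s50902 : Cert := .r (nat_lit 13208868488413109408714697609614886897203456352125895006548822462564044383230082655382518493797259045903305132922587830900888758405052099525901548094031018489982656446464) (.p (nat_lit 558) (.a (.f (nat_lit 557) (nat_lit 556) (nat_lit 2572) (.d (nat_lit 593) (nat_lit 592) (nat_lit 557) (nat_lit 594) (nat_lit 558))) (.a (.f (nat_lit 590) (nat_lit 589) (nat_lit 1581) (.f (nat_lit 593) (nat_lit 594) (nat_lit 558) (.p (nat_lit 591) (.a (.d (nat_lit 494) (nat_lit 462) (nat_lit 4558) (nat_lit 623) (nat_lit 7662)) (.a (.d (nat_lit 623) (nat_lit 494) (nat_lit 7662) (nat_lit 655) (nat_lit 6671)) (.f (nat_lit 592) (nat_lit 557) (nat_lit 557) (.d (nat_lit 625) (nat_lit 626) (nat_lit 590) (nat_lit 657) (nat_lit 7696)))))))) (.a (.f (nat_lit 557) (nat_lit 556) (nat_lit 2572) (.d (nat_lit 589) (nat_lit 588) (nat_lit 1580) (nat_lit 590) (nat_lit 1581))) (.f (nat_lit 590) (nat_lit 589) (nat_lit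 1581) (.f (nat_lit 622) (nat_lit 654) (nat_lit 6670) (.f (nat_lit 623) (nat_lit 655) (nat_lit 4622) (.f (nat_lit 591) (nat_lit 494) (nat_lit 7662) (.p (nat_lit 592) (.a (.d (nat_lit 593) (nat_lit 594) (nat_lit 3630) (nat_lit 621) (nat_lit 1613)) (.a (.d (nat_lit 621) (nat_lit 593) (nat_lit 1613) (nat_lit 653) (nat_lit 5645)) (.a (.f (nat_lit 593) (nat_lit 594) (nat_lit 558) (.d (nat_lit 625) (nat_lit 626) (nat_lit 590) (nat_lit 657) (nat_lit 7696))) (.d (nat_lit 621) (nat_lit 620) (nat_lit 2636) (nat_lit 653) (nat_lit 5645))))))))))))))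
noncomputable def s50938 : Cert := .r (nat_lit 13208868487754088833342159076976624420491642603268029217735065143262175891148270509776343512793493320399805495644767385007306596033488388677928750288023911774035610959872) (.p (nat_lit 562) (.a (.d (nat_lit 527) (nat_lit 526) (nat_lit 3598) (nat_lit 563) (nat_lit 3599)) (.a (.f (nat_lit 527) (nat_lit 526) (nat_lit 3598) (.f (nat_lit 591) (nat_lit 590) (nat_lit 1582) (.f (nat_lit 623) (nat_lit 655) (nat_lit 6671) (.f (nat_lit 594) (nat_lit 595) (nat_lit 559) (.f (nat_lit 530) (nat_lit 531) (nat_lit 2575) (.p (nat_lit 593) (.a (.d (nat_lit 622) (nat_lit 592) (nat_lit 1614) (nat_lit 654) (nat_lit 5646)) (.d (nat_lit 498) (nat_lit 466) (nat_lit 5585) (nat_lit 625) (nat_lit 5617))))))))) (.a (.f (nat_lit 563) (nat_lit 527) (nat_lit 3599) (.d (nat_lit 595) (nat_lit 594) (nat_lit 559) (nat_lit 596) (nat_lit 560))) (.f (nat_lit 591) (nat_lit 590) (nat_lit 1582) (.f (nat_lit 563) (nat_lit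 592) (nat_lit 1583) (.d (nat_lit 595) (nat_lit 594) (nat_lit 559) (nat_lit 596) (nat_lit 560))))))))
noncomputable def s50944 : Cert := .r (nat_lit 13208868487754088833342159076976624420491642603268029217735065143262175891148270509776343512793493320399805495644767385007306596033488388677928750288023911774035610959872) (.p (nat_lit 558) (.a (.f (nat_lit 526) (nat_lit 525) (nat_lit 3597) (.f (nat_lit 590) (nat_lit 589) (nat_lit 1581) (.d (nat_lit 562) (nat_lit 527) (nat_lit 3598) (nat_lit 591) (nat_lit 1582)))) (.a (.f (nat_lit 526) (nat_lit 525) (nat_lit 3597) (.f (nat_lit 527) (nat_lit 562) (nat_lit 3598) (.f (nat_lit 590) (nat_lit 589) (nat_lit 1581) (.d (nat_lit 495) (nat_lit 463) (nat_lit 5582) (nat_lit 622) (nat_lit 6638))))) (.a (.f (nat_lit 526) (nat_lit 525) (nat_lit 3597) (.f (nat_lit 527) (nat_lit 562) (nat_lit 3598) (.f (nat_lit 557) (nat_lit 556) (nat_lit 2572) (.d (nat_lit 593) (nat_lit 592) (nat_lit 557) (nat_lit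 594) (nat_lit 558))))) (.f (nat_lit 593) (nat_lit 594) (nat_lit 558) (.f (nat_lit 557) (nat_lit 592) (nat_lit 557) (.d (nat_lit 589) (nat_lit 588) (nat_lit 1580) (nat_lit 590) (nat_lit 1581))))))))
noncomputable def s50974 : Cert := .r (nat_lit 14152359093959474171402547722223691643220872908372139324829116718323581931746307722797875194087908012285172589402458346232249242190969586836069108850882085784947959791616) (.f (nat_lit 526) (nat_lit 525) (nat_lit 3597) (.f (nat_lit 590) (nat_lit 589) (nat_lit 1581) (.p (nat_lit 527) (.a (.d (nat_lit 495) (nat_lit 463) (nat_lit 5582) (nat_lit 622) (nat_lit 6638)) (.a (.f (nat_lit 495) (nat_lit 463) (nat_lit 5582) (.p (nat_lit 494) (.a (.d (nat_lit 493) (nat_lit 461) (nat_lit 7629) (nat_lit 492) (nat_lit 492)) (.d (nat_lit 462) (nat_lit 430) (nat_lit 4526) (nat_lit 591) (nat_lit 4558))))) (.a (.d (nat_lit 622) (nat_lit 495) (nat_lit 6638) (nat_lit 654) (nat_lit 6670)) (.f (nat_lit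 622) (nat_lit 654) (nat_lit 6670) (.f (nat_lit 623) (nat_lit 655) (nat_lit 4622) (.f (nat_lit 494) (nat_lit 591) (nat_lit 7662) (.f (nat_lit 461) (nat_lit 493) (nat_lit 7629) (.d (nat_lit 462) (nat_lit 429) (nat_lit 7597) (nat_lit 430) (nat_lit 4526))))))))))))
noncomputable def s51102 : Cert := .r (nat_lit 17404329752672085594200205282674956751641445403462127944460670773242091428623138544054628592907507166411193341447484071116960978013067331975761035419451812124631121093896544053765123080192) (.p (nat_lit 655) (.a (.f (nat_lit 623) (nat_lit 526) (nat_lit 4622) (.d (nat_lit 687) (nat_lit 654) (nat_lit 4654) (nat_lit 719) (nat_lit 7758))) (.a (.f (nat_lit 623) (nat_lit 526) (nat_lit 4622) (.f (nat_lit 624) (nat_lit 592) (nat_lit 5647) (.f (nat_lit 589) (nat_lit 625) (nat_lit 3661) (.d (nat_lit 588) (nat_lit 587) (nat_lit 587) (nat_lit 621) (nat_lit 3660))))) (.a (.f (nat_lit 654) (nat_lit 687) (nat_lit 4654) (.f (nat_lit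 653) (nat_lit 685) (nat_lit 5677) (.p (nat_lit 623) (.a (.d (nat_lit 624) (nat_lit 592) (nat_lit 5647) (nat_lit 652) (nat_lit 2668)) (.a (.p (nat_lit 620) (.a (.d (nat_lit 621) (nat_lit 619) (nat_lit 619) (nat_lit 656) (nat_lit 620)) (.a (.d (nat_lit 652) (nat_lit 619) (nat_lit 3691) (nat_lit 651) (nat_lit 2667)) (.f (nat_lit 656) (nat_lit 621) (nat_lit 620) (.f (nat_lit 657) (nat_lit 658) (nat_lit 3694) (.d (nat_lit 689) (nat_lit 688) (nat_lit 653) (nat_lit 690) (nat_lit 654))))))) (.d (nat_lit 624) (nat_lit 592) (nat_lit 5647) (nat_lit 625) (nat_lit 1645))))))) (.f (nat_lit 654) (nat_lit 687) (nat_lit 4654) (.f (nat_lit 653) (nat_lit 685) (nat_lit 5677) (.f (nat_lit 621) (nat_lit 526) (nat_lit 5645) (.d (nat_lit 620) (nat_lit 619) (nat_lit 619) (nat_lit 656) (nat_lit 3692)))))))))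
noncomputable def s51299 : Cert := .r (nat_lit 6604434244316391466919438560247153861387030467539258468076704117832333606962010018625621743732590477202235839340930656432708072931120001570946240348016693697649169137664) (.p (nat_lit 557) (.a (.f (nat_lit 525) (nat_lit 524) (nat_lit 3596) (.f (nat_lit 589) (nat_lit 588) (nat_lit 1580) (.d (nat_lit 561) (nat_lit 526) (nat_lit 3597) (nat_lit 590) (nat_lit 1581)))) (.a (.f (nat_lit 525) (nat_lit 524) (nat_lit 3596) (.f (nat_lit 589) (nat_lit 588) (nat_lit 1580) (.f (nat_lit 526) (nat_lit 561) (nat_lit 3597) (.d (nat_lit 494) (nat_lit 462) (nat_lit 5581) (nat_lit 621) (nat_lit 6637))))) (.a (.f (nat_lit 525) (nat_lit 524) (nat_lit 3596) (.f (nat_lit 561) (nat_lit 526) (nat_lit 3597) (.d (nat_lit 593) (nat_lit 592) (nat_lit 557) (nat_lit 594) (nat_lit 558)))) (.a (.f (nat_lit 589) (nat_lit 588) (nat_lit 1580) (.f (nat_lit 525) (nat_lit 524) (nat_lit 3596) (.f (nat_lit 590) (nat_lit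 561) (nat_lit 1581) (.d (nat_lit 493) (nat_lit 461) (nat_lit 4557) (nat_lit 622) (nat_lit 4589))))) (.a (.f (nat_lit 589) (nat_lit 588) (nat_lit 1580) (.f (nat_lit 561) (nat_lit 590) (nat_lit 1581) (.d (nat_lit 593) (nat_lit 592) (nat_lit 557) (nat_lit 594) (nat_lit 558)))) (.f (nat_lit 525) (nat_lit 524) (nat_lit 3596) (.f (nat_lit 589) (nat_lit 588) (nat_lit 1580) (.p (nat_lit 493) (.a (.d (nat_lit 590) (nat_lit 461) (nat_lit 4557) (nat_lit 622) (nat_lit 4589)) (.a (.f (nat_lit 461) (nat_lit 590) (nat_lit 4557) (.d (nat_lit 462) (nat_lit 430) (nat_lit 6573) (nat_lit 494) (nat_lit 6605))) (.f (nat_lit 494) (nat_lit 462) (nat_lit 6605) (.f (nat_lit 621) (nat_lit 526) (nat_lit 6637) (.p (nat_lit 653) (.a (.d (nat_lit 654) (nat_lit 622) (nat_lit 4621) (nat_lit 686) (nat_lit 4653)) (.d (nat_lit 652) (nat_lit 620) (nat_lit 5644) (nat_lit 684) (nat_lit 5676)))))))))))))))))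
noncomputable def s51362 : Cert := .r (nat_lit 16209045204621992535595058532854267243562021232277178576342003631281130488049665653395179299974801260470836031970926852647008260558130146150364666891531480810865310628463782133760) (.p (nat_lit 461) (.a (.p (nat_lit 429) (.a (.d (nat_lit 556) (nat_lit 524) (nat_lit 5548) (nat_lit 588) (nat_lit 5580)) (.d (nat_lit 428) (nat_lit 396) (nat_lit 7564) (nat_lit 460) (nat_lit 7596)))) (.a (.f (nat_lit 428) (nat_lit 460) (nat_lit 7596) (.f (nat_lit 429) (nat_lit 396) (nat_lit 7564) (.d (nat_lit 430) (nat_lit 398) (nat_lit 6541) (nat_lit 462) (nat_lit 6573)))) (.a (.p (nat_lit 589) (.a (.d (nat_lit 588) (nat_lit 556) (nat_lit 5580) (nat_lit 620) (nat_lit 5612)) (.d (nat_lit 460) (nat_lit 428) (nat_lit 7596) (nat_lit 492) (nat_lit 7628)))) (.p (nat_lit 429) (.a (.d (nat_lit 556) (nat_lit 524) (nat_lit 5548) (nat_lit 588) (nat_lit 5580)) (.d (nat_lit 430) (nat_lit 398) (nat_lit 6541)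 (nat_lit 462) (nat_lit 6573))))))))
noncomputable def s51556 : Cert := .r (nat_lit 522129892458594728701473734207889112589292920843637144505218487122890970179310782855217325229234197408539510689071426040285605379573088488676919930493706893318689678738247126067234719399936) (.f (nat_lit 594) (nat_lit 595) (nat_lit 2639) (.p (nat_lit 593) (.a (.d (nat_lit 561) (nat_lit 558) (nat_lit 558) (nat_lit 657) (nat_lit 7696)) (.a (.f (nat_lit 657) (nat_lit 561) (nat_lit 7696) (.d (nat_lit 562) (nat_lit 530) (nat_lit 5649) (nat_lit 689) (nat_lit 6705))) (.a (.f (nat_lit 561) (nat_lit 558) (nat_lit 558) (.f (nat_lit 562) (nat_lit 563) (nat_lit 3599) (.d (nat_lit 530) (nat_lit 498) (nat_lit 5617) (nat_lit 531) (nat_lit 2575)))) (.p (nat_lit 627) (.a (.d (nat_lit 655) (nat_lit 654) (nat_lit 1646) (nat_lit 656) (nat_lit 1647)) (.f (nat_lit 628) (nat_lit 629) (nat_lit 3665) (.d (nat_lit 660) (nat_lit 659) (nat_lit 624) (nat_lit 661) (nat_lit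 625))))))))))
noncomputable def s52065 : Cert := .r (nat_lit 104425978507927990943312805346469954508274939545833547348296788616038874547775372747606978075466137712121135981867484112103959111083542354715042909686826410437631997243018749916909806813184) (.f (nat_lit 625) (nat_lit 657) (nat_lit 4624) (.p (nat_lit 626) (.a (.p (nat_lit 593) (.a (.d (nat_lit 558) (nat_lit 557) (nat_lit 557) (nat_lit 594) (nat_lit 558)) (.f (nat_lit 627) (nat_lit 628) (nat_lit 3664) (.d (nat_lit 659) (nat_lit 658) (nat_lit 623) (nat_lit 660) (nat_lit 624))))) (.a (.p (nat_lit 627) (.a (.d (nat_lit 659) (nat_lit 658) (nat_lit 623) (nat_lit 660) (nat_lit 624)) (.f (nat_lit 596) (nat_lit 595) (nat_lit 2640) (.d (nat_lit 628) (nat_lit 593) (nat_lit 3664) (nat_lit 597) (nat_lit 2641))))) (.a (.f (nat_lit 594) (nat_lit 595) (nat_lit 2639) (.d (nat_lit 593) (nat_lit 558) (nat_lit 558) (nat_lit 622) (nat_lit 2638))) (.f (nat_lit 659) (nat_lit 658) (nat_lit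 623) (.f (nat_lit 595) (nat_lit 594) (nat_lit 2639) (.d (nat_lit 627) (nat_lit 596) (nat_lit 2640) (nat_lit 660) (nat_lit 624)))))))))
noncomputable def s52116 : Cert := .r (nat_lit 16209045197074067686171649353469764228340715667654462673955279085756611144674328715636980763858021758499028885429131100748457926495375062127956422187640035093237557813251544186880) (.f (nat_lit 493) (nat_lit 492) (nat_lit 3564) (.p (nat_lit 461) (.a (.p (nat_lit 429) (.a (.d (nat_lit 428) (nat_lit 396) (nat_lit 7564) (nat_lit 460) (nat_lit 7596)) (.a (.f (nat_lit 396) (nat_lit 428) (nat_lit 7564) (.d (nat_lit 397) (nat_lit 364) (nat_lit 7532) (nat_lit 494) (nat_lit 4493))) (.f (nat_lit 397) (nat_lit 494) (nat_lit 4493) (.d (nat_lit 398) (nat_lit 366) (nat_lit 6509) (nat_lit 430) (nat_lit 6541)))))) (.a (.f (nat_lit 462) (nat_lit 430) (nat_lit 6573) (.d (nat_lit 494) (nat_lit 589) (nat_lit 6605) (nat_lit 591) (nat_lit 7630))) (.a (.f (nat_lit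 428) (nat_lit 460) (nat_lit 7596) (.f (nat_lit 429) (nat_lit 396) (nat_lit 7564) (.d (nat_lit 430) (nat_lit 398) (nat_lit 6541) (nat_lit 462) (nat_lit 6573)))) (.p (nat_lit 494) (.a (.f (nat_lit 428) (nat_lit 460) (nat_lit 7596) (.d (nat_lit 429) (nat_lit 396) (nat_lit 7564) (nat_lit 397) (nat_lit 4493))) (.d (nat_lit 591) (nat_lit 462) (nat_lit 7630) (nat_lit 623) (nat_lit 7662)))))))))
noncomputable def s52140 : Cert := .r (nat_lit 13208868487754088833342159076976624420491642603268029217735065143262175891148270509776343512793493320399805495644767385007306596033488388677928750288023911774035610959872) (.p (nat_lit 562) (.a (.d (nat_lit 527) (nat_lit 526) (nat_lit 3598) (nat_lit 563) (nat_lit 3599)) (.a (.f (nat_lit 527) (nat_lit 526) (nat_lit 3598) (.f (nat_lit 591) (nat_lit 590) (nat_lit 1582) (.f (nat_lit 623) (nat_lit 655) (nat_lit 6671) (.f (nat_lit 624) (nat_lit 656) (nat_lit 4623) (.f (nat_lit 592) (nat_lit 495)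 (nat_lit 7663) (.p (nat_lit 593) (.a (.d (nat_lit 594) (nat_lit 595) (nat_lit 3631) (nat_lit 622) (nat_lit 1614)) (.a (.f (nat_lit 625) (nat_lit 657) (nat_lit 4624) (.f (nat_lit 530) (nat_lit 531) (nat_lit 2575) (.d (nat_lit 498) (nat_lit 466) (nat_lit 5585) (nat_lit 594) (nat_lit 5617)))) (.d (nat_lit 622) (nat_lit 621) (nat_lit 2637) (nat_lit 654) (nat_lit 5646)))))))))) (.a (.f (nat_lit 563) (nat_lit 527) (nat_lit 3599) (.d (nat_lit 595) (nat_lit 594) (nat_lit 559) (nat_lit 596) (nat_lit 560))) (.f (nat_lit 591) (nat_lit 590) (nat_lit 1582) (.f (nat_lit 563) (nat_lit 592) (nat_lit 1583) (.d (nat_lit 595) (nat_lit 594) (nat_lit 559) (nat_lit 596) (nat_lit 560))))))))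
noncomputable def s52159 : Cert := .r (nat_lit 28304718187040254242308377400929699984159327484933790931239890344244672540716865918120850413504128390565678995767822764606388934553187559208174487293754695948633192267776) (.f (nat_lit 527) (nat_lit 526) (nat_lit 3598) (.f (nat_lit 530) (nat_lit 531) (nat_lit 2575) (.f (nat_lit 594) (nat_lit 595) (nat_lit 559) (.p (nat_lit 625) (.a (.d (nat_lit 593) (nat_lit 498) (nat_lit 5617) (nat_lit 657) (nat_lit 6673)) (.a (.d (nat_lit 657) (nat_lit 593) (nat_lit 6673) (nat_lit 626) (nat_lit 5649)) (.a (.f (nat_lit 626) (nat_lit 657) (nat_lit 5649) (.p (nat_lit 624) (.a (.d (nat_lit 592) (nat_lit 495) (nat_lit 7663) (nat_lit 656) (nat_lit 7695)) (.f (nat_lit 659) (nat_lit 627) (nat_lit 4626) (.d (nat_lit 658) (nat_lit 623) (nat_lit 623) (nat_lit 691) (nat_lit 4658)))))) (.f (nat_lit 498) (nat_lit 593) (nat_lit 5617) (.p (nat_lit 495) (.a (.d (nat_lit 463) (nat_lit 431) (nat_lit 4527) (nat_lit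 592) (nat_lit 4559)) (.a (.d (nat_lit 592) (nat_lit 463) (nat_lit 4559) (nat_lit 624) (nat_lit 7663)) (.p (nat_lit 466) (.a (.d (nat_lit 467) (nat_lit 435) (nat_lit 6578) (nat_lit 499) (nat_lit 6610)) (.d (nat_lit 465) (nat_lit 433) (nat_lit 7601) (nat_lit 497) (nat_lit 7633)))))))))))))))
noncomputable def s52178 : Cert := .r (nat_lit 28304718187040254242308377400929699984159327484933790931239890344244672540716865918120850413504128390565678995767822764606388934553187559208174487293754695948633192267776) (.f (nat_lit 591) (nat_lit 590) (nat_lit 1582) (.f (nat_lit 623) (nat_lit 655) (nat_lit 6671) (.f (nat_lit 594) (nat_lit 595) (nat_lit 559) (.f (nat_lit 530) (nat_lit 531) (nat_lit 2575) (.p (nat_lit 625) (.a (.d (nat_lit 593) (nat_lit 498) (nat_lit 5617) (nat_lit 657) (nat_lit 6673)) (.a (.d (nat_lit 657) (nat_lit 593) (nat_lit 6673) (nat_lit 626) (nat_lit 5649)) (.a (.p (nat_lit 624) (.a (.d (nat_lit 657) (nat_lit 592)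 (nat_lit 4624) (nat_lit 626) (nat_lit 5649)) (.a (.f (nat_lit 657) (nat_lit 626) (nat_lit 5649) (.f (nat_lit 527) (nat_lit 656) (nat_lit 4623) (.d (nat_lit 622) (nat_lit 654) (nat_lit 5646) (nat_lit 658) (nat_lit 622)))) (.a (.f (nat_lit 527) (nat_lit 656) (nat_lit 4623) (.d (nat_lit 592) (nat_lit 495) (nat_lit 7663) (nat_lit 657) (nat_lit 4624))) (.f (nat_lit 656) (nat_lit 527) (nat_lit 4623) (.d (nat_lit 688) (nat_lit 592) (nat_lit 7727) (nat_lit 720) (nat_lit 7759))))))) (.f (nat_lit 593) (nat_lit 498) (nat_lit 5617) (.d (nat_lit 622) (nat_lit 592) (nat_lit 1614) (nat_lit 624) (nat_lit 2638)))))))))))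
noncomputable def s52191 : Cert := .r (nat_lit 28304718187040254242308377400929699984159327484933790931239890344244672540716865918120850413504128390565678995767822764606388934553187559208174487293754695948633192267776) (.f (nat_lit 527) (nat_lit 526) (nat_lit 3598) (.f (nat_lit 591) (nat_lit 590) (nat_lit 1582) (.f (nat_lit 623) (nat_lit 655) (nat_lit 6671) (.f (nat_lit 530) (nat_lit 531) (nat_lit 2575) (.f (nat_lit 594) (nat_lit 595) (nat_lit 559) (.p (nat_lit 625) (.a (.d (nat_lit 593) (nat_lit 498) (nat_lit 5617) (nat_lit 657) (nat_lit 6673)) (.a (.d (nat_lit 657) (nat_lit 593) (nat_lit 6673) (nat_lit 626) (nat_lit 5649)) (.a (.f (nat_lit 626) (nat_lit 657) (nat_lit 5649) (.f (nat_lit 624) (nat_lit 656) (nat_lit 4623) (.d (nat_lit 659) (nat_lit 627) (nat_lit 4626) (nat_lit 658) (nat_lit 623)))) (.f (nat_lit 593) (nat_lit 498) (nat_lit 5617) (.d (nat_lit 622) (nat_lit 624) (nat_lit 2638) (nat_lit 654) (nat_lit 5646))))))))))))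
noncomputable def s52212 : Cert := .r (nat_lit 24313567814716786303763241118974427248398848210783977539776951930112000771257272647086877027035740876635027779271204839287150821778899789291199275890330897743692464421486792278016) (.f (nat_lit 594) (nat_lit 595) (nat_lit 559) (.p (nat_lit 626) (.a (.f (nat_lit 627) (nat_lit 593) (nat_lit 591) (.d (nat_lit 530) (nat_lit 531) (nat_lit 2575) (nat_lit 659) (nat_lit 4626))) (.a (.f (nat_lit 593) (nat_lit 627) (nat_lit 591) (.f (nat_lit 657) (nat_lit 625) (nat_lit 7696) (.d (nat_lit 658) (nat_lit 689) (nat_lit 5681) (nat_lit 690) (nat_lit 7729)))) (.a (.p (nat_lit 658) (.a (.f (nat_lit 689) (nat_lit 657) (nat_lit 5681) (.d (nat_lit 690) (nat_lit 593) (nat_lit 7729) (nat_lit 721) (nat_lit 5713))) (.a (.f (nat_lit 530) (nat_lit 531) (nat_lit 2575) (.d (nat_lit 657) (nat_lit 625) (nat_lit 5649) (nat_lit 689) (nat_lit 5681))) (.f (nat_lit 690) (nat_lit 593) (nat_lit 7729) (.d (nat_lit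 691) (nat_lit 659) (nat_lit 4658) (nat_lit 723) (nat_lit 4690)))))) (.f (nat_lit 530) (nat_lit 531) (nat_lit 2575) (.p (nat_lit 658) (.a (.d (nat_lit 659) (nat_lit 627) (nat_lit 4626) (nat_lit 691) (nat_lit 4658)) (.d (nat_lit 657) (nat_lit 625) (nat_lit 5649) (nat_lit 689) (nat_lit 5681))))))))))
noncomputable def s52216 : Cert := .r (nat_lit 28304718187040254242308377400929699984159327484933790931239890344244672540716865918120850413504128390565678995767822764606388934553187559208174487293754695948633192267776) (.f (nat_lit 527) (nat_lit 526) (nat_lit 3598) (.f (nat_lit 591) (nat_lit 590) (nat_lit 1582) (.p (nat_lit 495) (.a (.d (nat_lit 463) (nat_lit 431) (nat_lit 4527) (nat_lit 592) (nat_lit 4559)) (.a (.d (nat_lit 592) (nat_lit 463) (nat_lit 4559) (nat_lit 624) (nat_lit 7663)) (.a (.f (nat_lit 462) (nat_lit 494) (nat_lit 7630) (.d (nat_lit 463) (nat_lit 430) (nat_lit 7598) (nat_lit 431) (nat_lit 4527))) (.f (nat_lit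 592) (nat_lit 624) (nat_lit 7663) s52212)))))))
noncomputable def s52224 : Cert := .r (nat_lit 28304718187040254242308377400929699984159327484933790931239890344244672540716865918120850413504128390565678995767822764606388934553187559208174487293754695948633192267776) (.f (nat_lit 591) (nat_lit 590) (nat_lit 1582) (.f (nat_lit 530) (nat_lit 531) (nat_lit 2575) (.f (nat_lit 594) (nat_lit 595) (nat_lit 559) (.f (nat_lit 623) (nat_lit 655) (nat_lit 6671) (.p (nat_lit 625) (.a (.d (nat_lit 593) (nat_lit 498) (nat_lit 5617) (nat_lit 657) (nat_lit 6673)) (.a (.d (nat_lit 657) (nat_lit 593) (nat_lit 6673) (nat_lit 626) (nat_lit 5649)) (.a (.f (nat_lit 626) (nat_lit 657) (nat_lit 5649) (.f (nat_lit 659) (nat_lit 627) (nat_lit 4626) (.d (nat_lit 658) (nat_lit 624) (nat_lit 623) (nat_lit 691) (nat_lit 4658)))) (.f (nat_lit 593) (nat_lit 498) (nat_lit 5617) (.d (nat_lit 622) (nat_lit 592) (nat_lit 1614) (nat_lit 624) (nat_lit 2638)))))))))))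
noncomputable def s52266 : Cert := .r (nat_lit 104425978507927990943312805345810933932902401013195284871584974867181008758961615428305109583384325566514961000863718386600459473805721908821460747315262699589659199437011643200962761326592) (.f (nat_lit 625) (nat_lit 657) (nat_lit 4624) (.f (nat_lit 527) (nat_lit 495) (nat_lit 7663) (.f (nat_lit 526) (nat_lit 525) (nat_lit 525) (.p (nat_lit 626) (.a (.p (nat_lit 593) (.a (.f (nat_lit 594) (nat_lit 595) (nat_lit 3631) (.d (nat_lit 658) (nat_lit 659) (nat_lit 623) (nat_lit 690) (nat_lit 7729))) (.a (.f (nat_lit 627) (nat_lit 628) (nat_lit 3664) (.d (nat_lit 659) (nat_lit 658) (nat_lit 623) (nat_lit 660) (nat_lit 624))) (.d (nat_lit 594) (nat_lit 595) (nat_lit 1615) (nat_lit 622) (nat_lit 2638))))) (.a (.f (nat_lit 659) (nat_lit 658) (nat_lit 623) (.f (nat_lit 595) (nat_lit 594) (nat_lit 2639) (.d (nat_lit 627) (nat_lit 596) (nat_lit 2640) (nat_lit 660) (nat_lit 624)))) (.a (.p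 (nat_lit 627) (.a (.d (nat_lit 659) (nat_lit 658) (nat_lit 623) (nat_lit 660) (nat_lit 624)) (.f (nat_lit 596) (nat_lit 595) (nat_lit 2640) (.d (nat_lit 628) (nat_lit 593) (nat_lit 3664) (nat_lit 597) (nat_lit 2641))))) (.a (.f (nat_lit 594) (nat_lit 595) (nat_lit 2639) (.f (nat_lit 593) (nat_lit 622) (nat_lit 2638) (.d (nat_lit 658) (nat_lit 659) (nat_lit 623) (nat_lit 690) (nat_lit 7729)))) (.a (.p (nat_lit 622) (.a (.d (nat_lit 593) (nat_lit 594) (nat_lit 2638) (nat_lit 621) (nat_lit 2637)) (.a (.f (nat_lit 589) (nat_lit 590) (nat_lit 3661) (.d (nat_lit 621) (nat_lit 588) (nat_lit 3660) (nat_lit 593) (nat_lit 2637))) (.a (.d (nat_lit 594) (nat_lit 593) (nat_lit 2638) (nat_lit 595) (nat_lit 2639)) (.p (nat_lit 621) (.a (.d (nat_lit 653) (nat_lit 652) (nat_lit 1644) (nat_lit 654) (nat_lit 1645)) (.d (nat_lit 589) (nat_lit 588) (nat_lit 3660) (nat_lit 590) (nat_lit 3661)))))))) (.p (nat_lit 593) (.a (.d (nat_lit 622) (nat_lit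 594) (nat_lit 2638) (nat_lit 621) (nat_lit 2637)) (.f (nat_lit 627) (nat_lit 628) (nat_lit 3664) (.d (nat_lit 659) (nat_lit 658) (nat_lit 623) (nat_lit 660) (nat_lit 624))))))))))))))
noncomputable def s52291 : Cert := .r (nat_lit 104425978491718945752371426601621840715358802767052916776887955726572972314857502883723437136510469906565336804425445392025065766061990849933133500018829594768901528784428901781425614749696) (.p (nat_lit 592) (.a (.d (nat_lit 527) (nat_lit 495) (nat_lit 7663) (nat_lit 656) (nat_lit 7695)) (.a s52266 (.a (.f (nat_lit 625) (nat_lit 657) (nat_lit 4624) (.p (nat_lit 593) (.a (.d (nat_lit 656) (nat_lit 527) (nat_lit 7695) (nat_lit 688) (nat_lit 6704)) (.d (nat_lit 594) (nat_lit 595) (nat_lit 1615) (nat_lit 622) (nat_lit 2638))))) (.f (nat_lit 625) (nat_lit 657) (nat_lit 4624) (.p (nat_lit 622) (.a (.f (nat_lit 621) (nat_lit 593) (nat_lit 2637) (.d (nat_lit 653) (nat_lit 652) (nat_lit 1644) (nat_lit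 654) (nat_lit 1645))) (.a (.p (nat_lit 626) (.a (.p (nat_lit 627) (.a (.d (nat_lit 659) (nat_lit 658) (nat_lit 623) (nat_lit 660) (nat_lit 624)) (.a (.f (nat_lit 628) (nat_lit 593) (nat_lit 3664) (.d (nat_lit 660) (nat_lit 659) (nat_lit 624) (nat_lit 661) (nat_lit 625))) (.f (nat_lit 596) (nat_lit 595) (nat_lit 2640) (.d (nat_lit 628) (nat_lit 593) (nat_lit 3664) (nat_lit 597) (nat_lit 2641)))))) (.a (.d (nat_lit 594) (nat_lit 593) (nat_lit 2638) (nat_lit 595) (nat_lit 2639)) (.a (.f (nat_lit 593) (nat_lit 594) (nat_lit 2638) (.f (nat_lit 627) (nat_lit 628) (nat_lit 3664) (.d (nat_lit 659) (nat_lit 658) (nat_lit 623) (nat_lit 660) (nat_lit 624)))) (.f (nat_lit 659) (nat_lit 658) (nat_lit 623) (.f (nat_lit 595) (nat_lit 594) (nat_lit 2639) (.d (nat_lit 627) (nat_lit 596) (nat_lit 2640) (nat_lit 660) (nat_lit 624)))))))) (.p (nat_lit 621) (.a (.d (nat_lit 653) (nat_lit 652) (nat_lit 1644) (nat_lit 654) (nat_lit 1645)) (.d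 (nat_lit 589) (nat_lit 588) (nat_lit 3660) (nat_lit 590) (nat_lit 3661))))))))))))
noncomputable def s52454 : Cert := .r (nat_lit 13208868487754088833342159076976624420491642603268029217735065143262175891148270509776343512793493320399805495644767385007306596033488388677928750288023911774035610959872) (.p (nat_lit 562) (.a (.d (nat_lit 527) (nat_lit 526) (nat_lit 3598) (nat_lit 563) (nat_lit 3599)) (.a s52216 (.a (.f (nat_lit 563) (nat_lit 527) (nat_lit 3599) (.d (nat_lit 595) (nat_lit 594) (nat_lit 559) (nat_lit 596) (nat_lit 560))) (.f (nat_lit 591) (nat_lit 590) (nat_lit 1582) (.f (nat_lit 563) (nat_lit 592) (nat_lit 1583) (.d (nat_lit 595) (nat_lit 594) (nat_lit 559) (nat_lit 596) (nat_lit 560))))))))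
noncomputable def s52476 : Cert := .r (nat_lit 13208868488413109408714697609614886897203456352125895006548822462564044383230082655382518493797259045903305132922587830900888758405052099525901548094031018489982656446464) (.p (nat_lit 495) (.a (.d (nat_lit 463) (nat_lit 431) (nat_lit 4527) (nat_lit 592) (nat_lit 4559)) (.a (.d (nat_lit 592) (nat_lit 463) (nat_lit 4559) (nat_lit 624) (nat_lit 7663)) (.a (.f (nat_lit 463) (nat_lit 431) (nat_lit 4527) (.f (nat_lit 462) (nat_lit 430) (nat_lit 7598) (.f (nat_lit 494) (nat_lit 591) (nat_lit 7630) (.f (nat_lit 464) (nat_lit 432) (nat_lit 6575) (.d (nat_lit 465) (nat_lit 466) (nat_lit 1486) (nat_lit 493) (nat_lit 1485)))))) (.f (nat_lit 624) (nat_lit 592) (nat_lit 7663) s50586)))))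
noncomputable def s52477 : Cert := .r (nat_lit 5660943638770026704231588447638349115369613911293014149796409862072796058445784951210265043441941510820368382861060141101347589145202514260778679591165626402683865792512) (.f (nat_lit 561) (nat_lit 562) (nat_lit 3598) s52476)
noncomputable def s52701 : Cert := .r (nat_lit 13208868487754088833342159076976624420491642603268029217735065143262175891148270509776343512793493320399805495644767385007306596033488388677928750288023911774035610959872) (.p (nat_lit 562) (.a (.d (nat_lit 527) (nat_lit 526) (nat_lit 3598) (nat_lit 563) (nat_lit 3599)) (.a (.f (nat_lit 527) (nat_lit 526) (nat_lit 3598) (.f (nat_lit 591) (nat_lit 590) (nat_lit 1582) (.f (nat_lit 623) (nat_lit 655) (nat_lit 6671) (.f (nat_lit 624) (nat_lit 656) (nat_lit 4623) (.f (nat_lit 592) (nat_lit 495) (nat_lit 7663) (.p (nat_lit 593) (.a (.d (nat_lit 558) (nat_lit 557) (nat_lit 557) (nat_lit 594) (nat_lit 558)) (.d (nat_lit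 622) (nat_lit 621) (nat_lit 2637) (nat_lit 654) (nat_lit 5646))))))))) (.a (.f (nat_lit 563) (nat_lit 527) (nat_lit 3599) (.d (nat_lit 595) (nat_lit 594) (nat_lit 559) (nat_lit 596) (nat_lit 560))) (.f (nat_lit 591) (nat_lit 590) (nat_lit 1582) (.f (nat_lit 563) (nat_lit 592) (nat_lit 1583) (.d (nat_lit 595) (nat_lit 594) (nat_lit 559) (nat_lit 596) (nat_lit 560))))))))
noncomputable def s53200 : Cert := .r (nat_lit 104425978499823468340294191124073304619647492728147563042402622856044109680157146555523025035163100032367895452289264354229825869872328689577755954407196561914157495607854880403895397384192) (.p (nat_lit 622) (.a (.d (nat_lit 527) (nat_lit 654) (nat_lit 5646) (nat_lit 656) (nat_lit 4623)) (.a (.f (nat_lit 656) (nat_lit 527) (nat_lit 4623) (.f (nat_lit 621) (nat_lit 657) (nat_lit 621) (.p (nat_lit 620) (.a (.d (nat_lit 652) (nat_lit 651) (nat_lit 1643) (nat_lit 653) (nat_lit 1644)) (.d (nat_lit 588) (nat_lit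 587) (nat_lit 3659) (nat_lit 589) (nat_lit 3660)))))) (.a (.f (nat_lit 654) (nat_lit 527) (nat_lit 5646) (.f (nat_lit 625) (nat_lit 653) (nat_lit 1645) (.f (nat_lit 594) (nat_lit 593) (nat_lit 2638) (.f (nat_lit 626) (nat_lit 595) (nat_lit 2639) (.d (nat_lit 658) (nat_lit 657) (nat_lit 622) (nat_lit 659) (nat_lit 623)))))) (.p (nat_lit 621) (.a (.p (nat_lit 620) (.a (.d (nat_lit 652) (nat_lit 651) (nat_lit 1643) (nat_lit 653) (nat_lit 1644)) (.d (nat_lit 588) (nat_lit 587) (nat_lit 3659) (nat_lit 589) (nat_lit 3660)))) (.a (.f (nat_lit 653) (nat_lit 652) (nat_lit 1644) (.f (nat_lit 625) (nat_lit 654) (nat_lit 1645) (.d (nat_lit 657) (nat_lit 656) (nat_lit 621) (nat_lit 658) (nat_lit 622)))) (.f (nat_lit 588) (nat_lit 589) (nat_lit 3660) (.f (nat_lit 620) (nat_lit 587) (nat_lit 3659) (.f (nat_lit 657) (nat_lit 656) (nat_lit 621) (.f (nat_lit 625) (nat_lit 658) (nat_lit 622) (.d (nat_lit 593) (nat_lit 561) (nat_lit 7696)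 (nat_lit 594) (nat_lit 2638)))))))))))))
noncomputable def s53263 : Cert := .r (nat_lit 104425978499823468340294191124073304619647492728147563042402622856044109680157146555523025035163100032367895452289264354229825869872328689577755954407196561914157495607854880403895397384192) (.p (nat_lit 625) (.a (.f (nat_lit 592) (nat_lit 657) (nat_lit 4624) (.f (nat_lit 626) (nat_lit 627) (nat_lit 3663) (.f (nat_lit 594) (nat_lit 595) (nat_lit 2639) (.f (nat_lit 593) (nat_lit 558) (nat_lit 3630) (.p (nat_lit 561) (.a (.d (nat_lit 658) (nat_lit 659) (nat_lit 623) (nat_lit 690) (nat_lit 7729)) (.f (nat_lit 562) (nat_lit 563) (nat_lit 1583) (.d (nat_lit 530) (nat_lit 498) (nat_lit 5617) (nat_lit 531) (nat_lit 2575))))))))) (.a (.f (nat_lit 657) (nat_lit 592) (nat_lit 4624) (.f (nat_lit 658) (nat_lit 622) (nat_lit 622) (.d (nat_lit 659) (nat_lit 626) (nat_lit 623) (nat_lit 656) (nat_lit 3695)))) (.a (.f (nat_lit 592) (nat_lit 657) (nat_lit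 4624) (.p (nat_lit 594) (.a (.d (nat_lit 593) (nat_lit 558) (nat_lit 3630) (nat_lit 595) (nat_lit 3631)) (.a (.d (nat_lit 593) (nat_lit 595) (nat_lit 3631) (nat_lit 622) (nat_lit 1614)) (.a (.d (nat_lit 593) (nat_lit 558) (nat_lit 3630) (nat_lit 622) (nat_lit 1614)) (.d (nat_lit 626) (nat_lit 595) (nat_lit 2639) (nat_lit 627) (nat_lit 3663))))))) (.a (.p (nat_lit 593) (.a (.f (nat_lit 561) (nat_lit 657) (nat_lit 7696) (.f (nat_lit 594) (nat_lit 558) (nat_lit 558) (.d (nat_lit 595) (nat_lit 562) (nat_lit 559) (nat_lit 596) (nat_lit 3632)))) (.a (.f (nat_lit 657) (nat_lit 561) (nat_lit 7696) (.f (nat_lit 658) (nat_lit 622) (nat_lit 622) (.d (nat_lit 659) (nat_lit 626) (nat_lit 623) (nat_lit 656) (nat_lit 3695)))) (.f (nat_lit 594) (nat_lit 622) (nat_lit 2638) (.d (nat_lit 595) (nat_lit 596) (nat_lit 1616) (nat_lit 626) (nat_lit 2639)))))) (.a (.f (nat_lit 657) (nat_lit 592) (nat_lit 4624) (.f (nat_lit 622) (nat_lit 658) (nat_lit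 622) (.d (nat_lit 593) (nat_lit 561) (nat_lit 7696) (nat_lit 594) (nat_lit 2638)))) (.p (nat_lit 594) (.a (.f (nat_lit 595) (nat_lit 626) (nat_lit 2639) (.d (nat_lit 593) (nat_lit 592) (nat_lit 1615) (nat_lit 596) (nat_lit 1616))) (.a (.f (nat_lit 593) (nat_lit 622) (nat_lit 2638) (.d (nat_lit 558) (nat_lit 561) (nat_lit 558) (nat_lit 592) (nat_lit 3630))) (.a (.f (nat_lit 595) (nat_lit 626) (nat_lit 2639) (.d (nat_lit 593) (nat_lit 596) (nat_lit 1616) (nat_lit 622) (nat_lit 2638))) (.f (nat_lit 626) (nat_lit 595) (nat_lit 2639) (.f (nat_lit 627) (nat_lit 592) (nat_lit 3663) (.d (nat_lit 659) (nat_lit 658) (nat_lit 623) (nat_lit 660) (nat_lit 624))))))))))))))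
noncomputable def s53275 : Cert := .r (nat_lit 8104522601131633010205552737630849038071270686006309732739166583034708815061763789800900635578902160657312282604565599455105224651929050421855355823184717111449890396505393594368) (.f (nat_lit 623) (nat_lit 655) (nat_lit 6671) (.p (nat_lit 527) (.a (.f (nat_lit 624) (nat_lit 656) (nat_lit 4623) (.f (nat_lit 495) (nat_lit 592) (nat_lit 7663) (.d (nat_lit 622) (nat_lit 590) (nat_lit 5614) (nat_lit 654) (nat_lit 5646)))) (.a (.f (nat_lit 624) (nat_lit 656) (nat_lit 4623) (.f (nat_lit 592) (nat_lit 495) (nat_lit 7663) (.f (nat_lit 625) (nat_lit 657) (nat_lit 4624) (.d (nat_lit 590) (nat_lit 589) (nat_lit 589) (nat_lit 626) (nat_lit 3662))))) (.a (.f (nat_lit 622) (nat_lit 654) (nat_lit 5646) (.f (nat_lit 495) (nat_lit 590) (nat_lit 5614) (.d (nat_lit 463) (nat_lit 431) (nat_lit 4527) (nat_lit 592) (nat_lit 4559)))) (.a (.f (nat_lit 624) (nat_lit 656) (nat_lit 4623) (.f (nat_lit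 592) (nat_lit 495) (nat_lit 7663) (.f (nat_lit 622) (nat_lit 654) (nat_lit 5646) (.d (nat_lit 593) (nat_lit 594) (nat_lit 1614) (nat_lit 621) (nat_lit 2637))))) (.a (.f (nat_lit 622) (nat_lit 654) (nat_lit 5646) (.f (nat_lit 590) (nat_lit 495) (nat_lit 5614) (.f (nat_lit 624) (nat_lit 656) (nat_lit 4623) (.d (nat_lit 589) (nat_lit 588) (nat_lit 588) (nat_lit 625) (nat_lit 3661))))) (.f (nat_lit 624) (nat_lit 656) (nat_lit 4623) (.f (nat_lit 622) (nat_lit 654) (nat_lit 5646) (.p (nat_lit 590) (.a (.f (nat_lit 561) (nat_lit 562) (nat_lit 1582) (.d (nat_lit 589) (nat_lit 588) (nat_lit 2604) (nat_lit 592) (nat_lit 2605))) (.a (.f (nat_lit 625) (nat_lit 626) (nat_lit 3662) (.d (nat_lit 657) (nat_lit 592) (nat_lit 4624) (nat_lit 658) (nat_lit 622))) (.d (nat_lit 589) (nat_lit 588) (nat_lit 588) (nat_lit 625) (nat_lit 3661))))))))))))))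
noncomputable def s53349 : Cert := .r (nat_lit 34808659509396432478587830400875410002688963162965626828479335558992823393101549531360935649973431016162639306977531221790167449863445811015953163574410700725365060940063905753853014835200) (.f (nat_lit 561) (nat_lit 562) (nat_lit 1582) (.p (nat_lit 622) (.a (.d (nat_lit 527) (nat_lit 495) (nat_lit 5614) (nat_lit 654) (nat_lit 5646)) (.a (.f (nat_lit 589) (nat_lit 588) (nat_lit 2604) (.f (nat_lit 624) (nat_lit 625) (nat_lit 3661) (.d (nat_lit 527) (nat_lit 495) (nat_lit 5614) (nat_lit 656) (nat_lit 4623)))) (.a (.d (nat_lit 654) (nat_lit 527) (nat_lit 5646) (nat_lit 686) (nat_lit 6702)) (.p (nat_lit 624) (.a (.p (nat_lit 621) (.a (.f (nat_lit 589) (nat_lit 588) (nat_lit 2604) (.f (nat_lit 654) (nat_lit 686) (nat_lit 6702) (.f (nat_lit 620) (nat_lit 619) (nat_lit 2635) (.d (nat_lit 652) (nat_lit 651) (nat_lit 1643) (nat_lit 653) (nat_lit 1644))))) (.a (.f (nat_lit 620) (nat_lit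 619) (nat_lit 2635) (.d (nat_lit 652) (nat_lit 651) (nat_lit 1643) (nat_lit 653) (nat_lit 1644))) (.a (.f (nat_lit 589) (nat_lit 588) (nat_lit 2604) (.f (nat_lit 686) (nat_lit 654) (nat_lit 6702) (.f (nat_lit 653) (nat_lit 652) (nat_lit 1644) (.d (nat_lit 685) (nat_lit 717) (nat_lit 6733) (nat_lit 718) (nat_lit 4685))))) (.f (nat_lit 588) (nat_lit 589) (nat_lit 2604) (.d (nat_lit 620) (nat_lit 587) (nat_lit 3659) (nat_lit 619) (nat_lit 2635))))))) (.a (.d (nat_lit 589) (nat_lit 588) (nat_lit 588) (nat_lit 625) (nat_lit 3661)) (.f (nat_lit 625) (nat_lit 626) (nat_lit 3662) (.d (nat_lit 657) (nat_lit 593) (nat_lit 7696) (nat_lit 658) (nat_lit 622)))))))))))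
noncomputable def s53484 : Cert := .r (nat_lit 6604434244316391466919438560247153861387030467539258468076704117832333606962010018625621743732590477202235839340930656432708072931120001570946240348016693697649169137664) (.p (nat_lit 557) (.a (.f (nat_lit 525) (nat_lit 524) (nat_lit 3596) (.f (nat_lit 526) (nat_lit 561) (nat_lit 3597) (.f (nat_lit 556) (nat_lit 527) (nat_lit 1548) (.d (nat_lit 588) (nat_lit 587) (nat_lit 1579) (nat_lit 589) (nat_lit 1580))))) (.a (.f (nat_lit 525) (nat_lit 524) (nat_lit 3596) (.f (nat_lit 589) (nat_lit 588) (nat_lit 1580) (.d (nat_lit 561) (nat_lit 526) (nat_lit 3597) (nat_lit 590) (nat_lit 1581)))) (.a (.f (nat_lit 556) (nat_lit 527) (nat_lit 2572) (.d (nat_lit 524) (nat_lit 523) (nat_lit 3595) (nat_lit 525) (nat_lit 3596))) (.f (nat_lit 556) (nat_lit 527) (nat_lit 2572) (.d (nat_lit 588) (nat_lit 587) (nat_lit 1579) (nat_lit 589) (nat_lit 1580)))))))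
noncomputable def s53614 : Cert := .r (nat_lit 6604434244316391466919438560247153861387030467539258468076704117832333606962010018625621743732590477202235839340930656432708072931120001570946240348016693697649169137664) (.p (nat_lit 589) (.a (.f (nat_lit 590) (nat_lit 561) (nat_lit 1581) (.d (nat_lit 588) (nat_lit 557) (nat_lit 1580) (nat_lit 591) (nat_lit 2604))) (.a (.f (nat_lit 557) (nat_lit 588) (nat_lit 1580) (.f (nat_lit 525) (nat_lit 524) (nat_lit 3596) (.d (nat_lit 561) (nat_lit 526) (nat_lit 3597) (nat_lit 590) (nat_lit 1581)))) (.a (.f (nat_lit 557) (nat_lit 588) (nat_lit 1580) (.f (nat_lit 525) (nat_lit 524) (nat_lit 3596) (.f (nat_lit 526) (nat_lit 561) (nat_lit 3597) (.d (nat_lit 494) (nat_lit 462) (nat_lit 5581) (nat_lit 621) (nat_lit 6637))))) (.a (.f (nat_lit 590) (nat_lit 561) (nat_lit 1581) (.d (nat_lit 588) (nat_lit 587) (nat_lit 2603) (nat_lit 591) (nat_lit 2604))) (.a (.f (nat_lit 590) (nat_lit 561) (nat_lit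 1581) (.p (nat_lit 526) (.a (.f (nat_lit 494) (nat_lit 621) (nat_lit 5613) (.d (nat_lit 591) (nat_lit 462) (nat_lit 4558) (nat_lit 623) (nat_lit 4590))) (.a (.f (nat_lit 621) (nat_lit 494) (nat_lit 5613) (.d (nat_lit 653) (nat_lit 557) (nat_lit 6669) (nat_lit 622) (nat_lit 5645))) (.a (.p (nat_lit 494) (.a (.d (nat_lit 591) (nat_lit 462) (nat_lit 4558) (nat_lit 623) (nat_lit 4590)) (.a (.f (nat_lit 623) (nat_lit 591) (nat_lit 4590) (.f (nat_lit 622) (nat_lit 655) (nat_lit 4622) (.d (nat_lit 493) (nat_lit 461) (nat_lit 7629) (nat_lit 525) (nat_lit 7661)))) (.f (nat_lit 462) (nat_lit 557) (nat_lit 5581) (.d (nat_lit 463) (nat_lit 431) (nat_lit 6574) (nat_lit 495) (nat_lit 6606)))))) (.p (nat_lit 622) (.a (.f (nat_lit 525) (nat_lit 493) (nat_lit 7661) (.d (nat_lit 524) (nat_lit 523) (nat_lit 523) (nat_lit 557) (nat_lit 3596))) (.a (.f (nat_lit 621) (nat_lit 653) (nat_lit 5645) (.f (nat_lit 655) (nat_lit 623) (nat_lit 4622)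 (.f (nat_lit 654) (nat_lit 687) (nat_lit 4654) (.d (nat_lit 557) (nat_lit 525) (nat_lit 4621) (nat_lit 686) (nat_lit 7725))))) (.f (nat_lit 655) (nat_lit 623) (nat_lit 4622) (.f (nat_lit 654) (nat_lit 687) (nat_lit 4654) (.d (nat_lit 653) (nat_lit 621) (nat_lit 5645) (nat_lit 685) (nat_lit 5677)))))))))))) (.f (nat_lit 557) (nat_lit 588) (nat_lit 1580) (.f (nat_lit 525) (nat_lit 524) (nat_lit 3596) (.p (nat_lit 493) (.a (.d (nat_lit 590) (nat_lit 461) (nat_lit 4557) (nat_lit 622) (nat_lit 4589)) (.a (.f (nat_lit 461) (nat_lit 590) (nat_lit 4557) (.d (nat_lit 462) (nat_lit 430) (nat_lit 6573) (nat_lit 494) (nat_lit 6605))) (.f (nat_lit 494) (nat_lit 462) (nat_lit 6605) (.f (nat_lit 621) (nat_lit 526) (nat_lit 6637) (.p (nat_lit 653) (.a (.d (nat_lit 654) (nat_lit 622) (nat_lit 4621) (nat_lit 686) (nat_lit 4653)) (.d (nat_lit 652) (nat_lit 620) (nat_lit 5644) (nat_lit 684) (nat_lit 5676)))))))))))))))))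
noncomputable def s53671 : Cert := .r (nat_lit 14152359093959474171402547722223691643220872908372139324829116718323581931746307722797875194087908012285172589402458346232249242190969586836069108850882085784947959791616) (.f (nat_lit 526) (nat_lit 525) (nat_lit 3597) (.f (nat_lit 590) (nat_lit 589) (nat_lit 1581) (.p (nat_lit 591) (.a (.d (nat_lit 494) (nat_lit 462) (nat_lit 4558) (nat_lit 623) (nat_lit 4590)) (.a (.d (nat_lit 623) (nat_lit 494) (nat_lit 4590) (nat_lit 655) (nat_lit 7694)) (.a (.f (nat_lit 623) (nat_lit 655) (nat_lit 6671) (.p (nat_lit 527) (.a (.f (nat_lit 495) (nat_lit 463) (nat_lit 5582) (.d (nat_lit 624) (nat_lit 592) (nat_lit 4591) (nat_lit 656) (nat_lit 4623))) (.a (.d (nat_lit 495) (nat_lit 463) (nat_lit 5582) (nat_lit 622) (nat_lit 5614)) (.a (.d (nat_lit 622) (nat_lit 495) (nat_lit 5614) (nat_lit 654) (nat_lit 5646)) (.f (nat_lit 622) (nat_lit 654) (nat_lit 5646) (.f (nat_lit 621) (nat_lit 653) (nat_lit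 5645) (.d (nat_lit 620) (nat_lit 592) (nat_lit 2636) (nat_lit 619) (nat_lit 2635))))))))) (.f (nat_lit 494) (nat_lit 462) (nat_lit 4558) (.f (nat_lit 495) (nat_lit 463) (nat_lit 6606) (.f (nat_lit 527) (nat_lit 622) (nat_lit 5614) (.d (nat_lit 493) (nat_lit 461) (nat_lit 7629) (nat_lit 492) (nat_lit 492)))))))))))
noncomputable def s53878 : Cert := .r (nat_lit 7076179547419084135949632882870687472751645620091313521623729905363036627261028625136387584379797823144919386219776137045179396009860600650016419629445780703105343553536) (.f (nat_lit 589) (nat_lit 588) (nat_lit 1580) (.f (nat_lit 590) (nat_lit 561) (nat_lit 1581) (.p (nat_lit 591) (.a (.d (nat_lit 556) (nat_lit 555) (nat_lit 555) (nat_lit 592) (nat_lit 556)) (.a (.f (nat_lit 623) (nat_lit 655) (nat_lit 6671) (.f (nat_lit 526) (nat_lit 494) (nat_lit 4590) (.f (nat_lit 621) (nat_lit 653) (nat_lit 6669) (.f (nat_lit 620) (nat_lit 592) (nat_lit 1612) (.d (nat_lit 619)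 (nat_lit 618) (nat_lit 2634) (nat_lit 622) (nat_lit 2635)))))) (.f (nat_lit 655) (nat_lit 623) (nat_lit 6671) (.p (nat_lit 654) (.a (.p (nat_lit 653) (.a (.d (nat_lit 621) (nat_lit 526) (nat_lit 6669) (nat_lit 685) (nat_lit 6701)) (.a (.p (nat_lit 652) (.a (.p (nat_lit 651) (.a (.d (nat_lit 687) (nat_lit 686) (nat_lit 651) (nat_lit 688) (nat_lit 652)) (.d (nat_lit 683) (nat_lit 682) (nat_lit 1674) (nat_lit 684) (nat_lit 1675)))) (.a (.p (nat_lit 651) (.a (.d (nat_lit 683) (nat_lit 682) (nat_lit 1674) (nat_lit 684) (nat_lit 1675)) (.d (nat_lit 619) (nat_lit 618) (nat_lit 3690) (nat_lit 620) (nat_lit 3691)))) (.a (.p (nat_lit 651) (.a (.d (nat_lit 687) (nat_lit 686) (nat_lit 651) (nat_lit 688) (nat_lit 652)) (.d (nat_lit 619) (nat_lit 618) (nat_lit 3690) (nat_lit 620) (nat_lit 3691)))) (.p (nat_lit 656) (.a (.d (nat_lit 688) (nat_lit 687) (nat_lit 652) (nat_lit 689) (nat_lit 653)) (.d (nat_lit 684) (nat_lit 683) (nat_lit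 1675) (nat_lit 685) (nat_lit 1676)))))))) (.d (nat_lit 621) (nat_lit 526) (nat_lit 6669) (nat_lit 686) (nat_lit 4653))))) (.a (.d (nat_lit 622) (nat_lit 686) (nat_lit 6702) (nat_lit 687) (nat_lit 4654)) (.a (.p (nat_lit 653) (.a (.d (nat_lit 622) (nat_lit 685) (nat_lit 5677) (nat_lit 687) (nat_lit 4654)) (.a (.d (nat_lit 621) (nat_lit 526) (nat_lit 6669) (nat_lit 685) (nat_lit 6701)) (.f (nat_lit 621) (nat_lit 526) (nat_lit 6669) (.d (nat_lit 556) (nat_lit 524) (nat_lit 7692) (nat_lit 555) (nat_lit 555)))))) (.p (nat_lit 653) (.a (.d (nat_lit 621) (nat_lit 526) (nat_lit 6669) (nat_lit 685) (nat_lit 6701)) (.a (.d (nat_lit 622) (nat_lit 685) (nat_lit 5677) (nat_lit 686) (nat_lit 6702)) (.d (nat_lit 621) (nat_lit 526) (nat_lit 6669) (nat_lit 686) (nat_lit 4653)))))))))))))))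
noncomputable def s53895 : Cert := .r (nat_lit 7076179547419084135949632882870687472751645620091313521623729905363036627261028625136387584379797823144919386219776137045179396009860600650016419629445780703105343553536) (.f (nat_lit 589) (nat_lit 588) (nat_lit 1580) (.f (nat_lit 525) (nat_lit 524) (nat_lit 3596) (.p (nat_lit 590) (.a (.d (nat_lit 493) (nat_lit 461) (nat_lit 4557) (nat_lit 622) (nat_lit 4589)) (.a (.f (nat_lit 493) (nat_lit 461) (nat_lit 4557) (.f (nat_lit 494) (nat_lit 462) (nat_lit 6605) (.f (nat_lit 526) (nat_lit 621) (nat_lit 5613) (.f (nat_lit 591) (nat_lit 623) (nat_lit 4590) (.d (nat_lit 556) (nat_lit 555) (nat_lit 555) (nat_lit 592) (nat_lit 556)))))) (.f (nat_lit 622) (nat_lit 654) (nat_lit 7693) (.p (nat_lit 621) (.a (.d (nat_lit 526) (nat_lit 494) (nat_lit 5613) (nat_lit 653) (nat_lit 5645)) (.a (.d (nat_lit 653) (nat_lit 526) (nat_lit 6669) (nat_lit 685) (nat_lit 6701)) (.p (nat_lit 591) (.a (.d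 (nat_lit 556) (nat_lit 555) (nat_lit 555) (nat_lit 592) (nat_lit 556)) (.a (.d (nat_lit 620) (nat_lit 592) (nat_lit 1612) (nat_lit 652) (nat_lit 5644)) (.d (nat_lit 620) (nat_lit 619) (nat_lit 2635) (nat_lit 652) (nat_lit 5644))))))))))))))
noncomputable def s54077 : Cert := .r (nat_lit 34808659505344171180852485714828136698303063601430034804805080773840814282075521395215517538254967101175233257867962973146319022927513046293871351750302424520175643276918220398968728190976) (.p (nat_lit 527) (.a (.f (nat_lit 624) (nat_lit 656) (nat_lit 4623) (.f (nat_lit 495) (nat_lit 592) (nat_lit 7663) (.d (nat_lit 622) (nat_lit 590) (nat_lit 5614) (nat_lit 654) (nat_lit 5646)))) (.a (.f (nat_lit 624) (nat_lit 656) (nat_lit 4623) (.f (nat_lit 592) (nat_lit 495) (nat_lit 7663) (.f (nat_lit 625) (nat_lit 657) (nat_lit 4624) (.d (nat_lit 590) (nat_lit 589) (nat_lit 589) (nat_lit 626) (nat_lit 3662))))) (.a (.f (nat_lit 622) (nat_lit 654)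 (nat_lit 5646) (.f (nat_lit 495) (nat_lit 590) (nat_lit 5614) (.d (nat_lit 463) (nat_lit 431) (nat_lit 4527) (nat_lit 592) (nat_lit 4559)))) (.a (.f (nat_lit 624) (nat_lit 656) (nat_lit 4623) (.f (nat_lit 592) (nat_lit 495) (nat_lit 7663) (.f (nat_lit 622) (nat_lit 654) (nat_lit 5646) (.d (nat_lit 593) (nat_lit 594) (nat_lit 1614) (nat_lit 621) (nat_lit 2637))))) (.a (.f (nat_lit 622) (nat_lit 654) (nat_lit 5646) (.f (nat_lit 590) (nat_lit 495) (nat_lit 5614) (.f (nat_lit 589) (nat_lit 588) (nat_lit 2604) (.d (nat_lit 624) (nat_lit 625) (nat_lit 3661) (nat_lit 656) (nat_lit 4623))))) (.f (nat_lit 624) (nat_lit 656) (nat_lit 4623) (.f (nat_lit 622) (nat_lit 654) (nat_lit 5646) (.p (nat_lit 592) (.a (.d (nat_lit 593) (nat_lit 594) (nat_lit 1614) (nat_lit 621) (nat_lit 2637)) (.a (.d (nat_lit 621) (nat_lit 593) (nat_lit 2637) (nat_lit 620) (nat_lit 2636)) (.f (nat_lit 625) (nat_lit 657) (nat_lit 4624) (.d (nat_lit 590) (nat_lit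 589) (nat_lit 589) (nat_lit 626) (nat_lit 3662))))))))))))))
noncomputable def s54279 : Cert := .r (nat_lit 13208868487754088833342159076976624420491642603268029217735065143262175891148270509776343512793493320399805495644767385007306596033488388677928750288023911774035610959872) (.p (nat_lit 558) (.a (.f (nat_lit 526) (nat_lit 525) (nat_lit 3597) (.f (nat_lit 590) (nat_lit 589) (nat_lit 1581) (.d (nat_lit 562) (nat_lit 527) (nat_lit 3598) (nat_lit 591) (nat_lit 1582)))) (.a (.f (nat_lit 526) (nat_lit 525) (nat_lit 3597) (.f (nat_lit 593) (nat_lit 594) (nat_lit 558) (.f (nat_lit 557) (nat_lit 592) (nat_lit 557) (.d (nat_lit 589) (nat_lit 588) (nat_lit 1580) (nat_lit 590) (nat_lit 1581))))) (.a (.f (nat_lit 526) (nat_lit 525) (nat_lit 3597) (.f (nat_lit 527) (nat_lit 562) (nat_lit 3598) (.f (nat_lit 557) (nat_lit 556) (nat_lit 2572) (.d (nat_lit 593) (nat_lit 592) (nat_lit 557) (nat_lit 594) (nat_lit 558))))) (.f (nat_lit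 593) (nat_lit 594) (nat_lit 558) (.f (nat_lit 557) (nat_lit 592) (nat_lit 557) (.d (nat_lit 589) (nat_lit 588) (nat_lit 1580) (nat_lit 590) (nat_lit 1581))))))))
noncomputable def s54649 : Cert := .r (nat_lit 34808659505344171180852485715267483748551422623188876455946289939746058141284692941416763199642841864912683245203806790148652114446060010222926126664678231752157508480922958209600091848704) (.f (nat_lit 526) (nat_lit 494) (nat_lit 7662) (.f (nat_lit 525) (nat_lit 524) (nat_lit 524) (.f (nat_lit 557) (nat_lit 556) (nat_lit 1548) (.f (nat_lit 622) (nat_lit 654) (nat_lit 5646) (.p (nat_lit 590) (.a (.d (nat_lit 493) (nat_lit 492) (nat_lit 3564) (nat_lit 558) (nat_lit 7661)) (.a (.p (nat_lit 621) (.a (.d (nat_lit 592) (nat_lit 593) (nat_lit 1613) (nat_lit 620) (nat_lit 2636)) (.a (.f (nat_lit 588) (nat_lit 589) (nat_lit 2604) (.d (nat_lit 620) (nat_lit 587) (nat_lit 3659) (nat_lit 619) (nat_lit 2635))) (.f (nat_lit 624)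 (nat_lit 656) (nat_lit 4623) (.d (nat_lit 653) (nat_lit 558) (nat_lit 5645) (nat_lit 652) (nat_lit 1644)))))) (.d (nat_lit 493) (nat_lit 492) (nat_lit 3564) (nat_lit 589) (nat_lit 4589)))))))))
noncomputable def s54694 : Cert := .r (nat_lit 34808659505344171180852485715267483748551422623188876455946289939746058141284692941416763199642841864912683245203806790148652114446060010222926126664678231752157508480922958209600091848704) (.f (nat_lit 624) (nat_lit 656) (nat_lit 4623) (.p (nat_lit 558) (.a (.f (nat_lit 526) (nat_lit 494) (nat_lit 7662) (.f (nat_lit 557) (nat_lit 556) (nat_lit 2572) (.f (nat_lit 525) (nat_lit 524) (nat_lit 524) (.f (nat_lit 493) (nat_lit 492) (nat_lit 3564) (.d (nat_lit 461) (nat_lit 429) (nat_lit 4525) (nat_lit 590) (nat_lit 4557)))))) (.a (.f (nat_lit 494) (nat_lit 526) (nat_lit 7662) (.f (nat_lit 495) (nat_lit 462) (nat_lit 7630) (.d (nat_lit 463) (nat_lit 431) (nat_lit 4527) (nat_lit 590) (nat_lit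 5582)))) (.a (.f (nat_lit 557) (nat_lit 556) (nat_lit 2572) (.f (nat_lit 494) (nat_lit 526) (nat_lit 7662) (.f (nat_lit 462) (nat_lit 495) (nat_lit 7630) (.f (nat_lit 525) (nat_lit 524) (nat_lit 3596) (.d (nat_lit 589) (nat_lit 493) (nat_lit 6605) (nat_lit 588) (nat_lit 1580)))))) (.a (.f (nat_lit 557) (nat_lit 556) (nat_lit 2572) (.f (nat_lit 525) (nat_lit 524) (nat_lit 3596) (.p (nat_lit 493) (.a (.f (nat_lit 590) (nat_lit 461) (nat_lit 4557) (.f (nat_lit 492) (nat_lit 526) (nat_lit 3564) (.d (nat_lit 589) (nat_lit 460) (nat_lit 7628) (nat_lit 588) (nat_lit 588)))) (.a (.f (nat_lit 492) (nat_lit 526) (nat_lit 3564) (.d (nat_lit 589) (nat_lit 460) (nat_lit 7628) (nat_lit 588) (nat_lit 1580))) (.a (.f (nat_lit 461) (nat_lit 590) (nat_lit 4557) (.f (nat_lit 428) (nat_lit 460) (nat_lit 7596) (.d (nat_lit 429) (nat_lit 396) (nat_lit 7564) (nat_lit 526) (nat_lit 4525)))) (.a (.f (nat_lit 589) (nat_lit 588) (nat_lit 1580) (.f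 (nat_lit 460) (nat_lit 492) (nat_lit 7628) (.d (nat_lit 461) (nat_lit 428) (nat_lit 7596) (nat_lit 590) (nat_lit 4557)))) (.f (nat_lit 461) (nat_lit 590) (nat_lit 4557) (.d (nat_lit 526) (nat_lit 429) (nat_lit 4525) (nat_lit 492) (nat_lit 3564)))))))))) (.f (nat_lit 557) (nat_lit 556) (nat_lit 2572) (.f (nat_lit 525) (nat_lit 524) (nat_lit 3596) (.f (nat_lit 589) (nat_lit 588) (nat_lit 1580) (.p (nat_lit 493) (.a (.f (nat_lit 460) (nat_lit 492) (nat_lit 7628) (.d (nat_lit 461) (nat_lit 428) (nat_lit 7596) (nat_lit 590) (nat_lit 4557))) (.a (.p (nat_lit 461) (.a (.d (nat_lit 460) (nat_lit 428) (nat_lit 7596) (nat_lit 492) (nat_lit 7628)) (.d (nat_lit 462) (nat_lit 430) (nat_lit 6573) (nat_lit 494) (nat_lit 6605)))) (.a (.f (nat_lit 494) (nat_lit 462) (nat_lit 6605) (.d (nat_lit 492) (nat_lit 460) (nat_lit 7628) (nat_lit 495) (nat_lit 492))) (.f (nat_lit 461) (nat_lit 590) (nat_lit 4557) (.d (nat_lit 462) (nat_lit 430) (nat_lit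 6573) (nat_lit 494) (nat_lit 6605))))))))))))))))
noncomputable def s54718 : Cert := .r (nat_lit 34808659505344171180852485715267483748551422623188876455946289939746058141284692941416763199642841864912683245203806790148652114446060010222926126664678231752157508480922958209600091848704) (.f (nat_lit 624) (nat_lit 656) (nat_lit 4623) (.f (nat_lit 526) (nat_lit 494) (nat_lit 7662) (.f (nat_lit 525) (nat_lit 524) (nat_lit 524) (.f (nat_lit 493) (nat_lit 492) (nat_lit 3564) (.p (nat_lit 461) (.a (.f (nat_lit 557) (nat_lit 556) (nat_lit 1548) (.d (nat_lit 558) (nat_lit 429) (nat_lit 4525) (nat_lit 590) (nat_lit 4557))) (.a (.p (nat_lit 590) (.a (.d (nat_lit 558) (nat_lit 429) (nat_lit 4525) (nat_lit 557) (nat_lit 4557)) (.f (nat_lit 589) (nat_lit 588) (nat_lit 2604) (.d (nat_lit 625) (nat_lit 592) (nat_lit 589) (nat_lit 626) (nat_lit 3662))))) (.a (.f (nat_lit 557) (nat_lit 556) (nat_lit 1548) (.f (nat_lit 428) (nat_lit 460)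 (nat_lit 7596) (.d (nat_lit 429) (nat_lit 396) (nat_lit 7564) (nat_lit 558) (nat_lit 4525)))) (.a (.f (nat_lit 557) (nat_lit 556) (nat_lit 1548) (.f (nat_lit 428) (nat_lit 460) (nat_lit 7596) (.f (nat_lit 429) (nat_lit 396) (nat_lit 7564) (.d (nat_lit 430) (nat_lit 398) (nat_lit 6541) (nat_lit 462) (nat_lit 6573))))) (.a (.p (nat_lit 590) (.a (.d (nat_lit 557) (nat_lit 556) (nat_lit 1548) (nat_lit 558) (nat_lit 4557)) (.f (nat_lit 589) (nat_lit 588) (nat_lit 2604) (.d (nat_lit 625) (nat_lit 592) (nat_lit 589) (nat_lit 626) (nat_lit 3662))))) (.f (nat_lit 429) (nat_lit 558) (nat_lit 4525) (.p (nat_lit 397) (.a (.d (nat_lit 398) (nat_lit 366) (nat_lit 6509) (nat_lit 430) (nat_lit 6541)) (.d (nat_lit 396) (nat_lit 364) (nat_lit 7532) (nat_lit 428) (nat_lit 7564)))))))))))))))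
noncomputable def s54745 : Cert := .r (nat_lit 104425978507927990935764880496167851228419291851218747089751132426348127902209202827813861258600027862342707550508400851517522723744194219021919578055413114324536330934146251113663970672640) (.f (nat_lit 625) (nat_lit 657) (nat_lit 4624) (.f (nat_lit 527) (nat_lit 495) (nat_lit 7663) (.p (nat_lit 622) (.a (.d (nat_lit 593) (nat_lit 594) (nat_lit 2638) (nat_lit 621) (nat_lit 2637)) (.a (.f (nat_lit 621) (nat_lit 593) (nat_lit 2637) (.d (nat_lit 653) (nat_lit 652) (nat_lit 1644) (nat_lit 654) (nat_lit 1645))) (.a (.f (nat_lit 593) (nat_lit 594) (nat_lit 2638) (.f (nat_lit 558) (nat_lit 557) (nat_lit 557) (.d (nat_lit 654) (nat_lit 590) (nat_lit 6670) (nat_lit 653) (nat_lit 1645)))) (.p (nat_lit 621) (.a (.d (nat_lit 653) (nat_lit 652) (nat_lit 1644) (nat_lit 654) (nat_lit 1645)) (.d (nat_lit 589) (nat_lit 588) (nat_lit 3660) (nat_lit 590) (nat_lit 3661))))))))))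
noncomputable def s54771 : Cert := .r (nat_lit 104425978507927990935764880496167851228419291851218747089751132426348127902209202827813861258600027862342707550508400851517522723744194219021919578055413114324536330934146251113663970672640) (.f (nat_lit 625) (nat_lit 657) (nat_lit 4624) (.p (nat_lit 622) (.a (.f (nat_lit 621) (nat_lit 593) (nat_lit 2637) (.d (nat_lit 653) (nat_lit 652) (nat_lit 1644) (nat_lit 654) (nat_lit 1645))) (.a (.p (nat_lit 626) (.a (.p (nat_lit 627) (.a (.d (nat_lit 659) (nat_lit 658) (nat_lit 623) (nat_lit 660) (nat_lit 624)) (.a (.f (nat_lit 628) (nat_lit 593) (nat_lit 3664) (.d (nat_lit 660) (nat_lit 659) (nat_lit 624) (nat_lit 661) (nat_lit 625))) (.f (nat_lit 596) (nat_lit 595) (nat_lit 2640) (.d (nat_lit 628) (nat_lit 593) (nat_lit 3664) (nat_lit 597) (nat_lit 2641)))))) (.a (.d (nat_lit 594) (nat_lit 593) (nat_lit 2638) (nat_lit 595) (nat_lit 2639)) (.a (.f (nat_lit 593) (nat_lit 594) (nat_lit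 2638) (.f (nat_lit 627) (nat_lit 628) (nat_lit 3664) (.d (nat_lit 659) (nat_lit 658) (nat_lit 623) (nat_lit 660) (nat_lit 624)))) (.f (nat_lit 659) (nat_lit 658) (nat_lit 623) (.f (nat_lit 595) (nat_lit 594) (nat_lit 2639) (.d (nat_lit 627) (nat_lit 596) (nat_lit 2640) (nat_lit 660) (nat_lit 624)))))))) (.p (nat_lit 621) (.a (.d (nat_lit 653) (nat_lit 652) (nat_lit 1644) (nat_lit 654) (nat_lit 1645)) (.d (nat_lit 589) (nat_lit 588) (nat_lit 3660) (nat_lit 590) (nat_lit 3661))))))))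
noncomputable def s55026 : Cert := .r (nat_lit 34808659505344171181324231018480013180169280065382263351285115039928269838644922664627914108983417885720888595681074407350169437588726515132849596820833112270981196409749474757484847562752) (.p (nat_lit 492) (.a (.d (nat_lit 460) (nat_lit 428) (nat_lit 7596) (nat_lit 589) (nat_lit 7628)) (.a (.p (nat_lit 429) (.a (.d (nat_lit 556) (nat_lit 524) (nat_lit 5548) (nat_lit 588) (nat_lit 5580)) (.d (nat_lit 428) (nat_lit 396) (nat_lit 7564) (nat_lit 460) (nat_lit 7596)))) (.a (.p (nat_lit 429) (.a (.d (nat_lit 556) (nat_lit 524) (nat_lit 5548) (nat_lit 588) (nat_lit 5580)) (.a (.f (nat_lit 396) (nat_lit 428) (nat_lit 7564) (.d (nat_lit 397) (nat_lit 364) (nat_lit 7532) (nat_lit 524) (nat_lit 5516))) (.p (nat_lit 397) (.a (.d (nat_lit 398) (nat_lit 366) (nat_lit 6509) (nat_lit 430) (nat_lit 6541)) (.d (nat_lit 396) (nat_lit 364) (nat_lit 7532) (nat_lit 428) (nat_lit 7564))))))) (.p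 (nat_lit 524) (.a (.d (nat_lit 589) (nat_lit 460) (nat_lit 7628) (nat_lit 621) (nat_lit 7660)) (.d (nat_lit 556) (nat_lit 429) (nat_lit 5548) (nat_lit 588) (nat_lit 5580))))))))
noncomputable def s55137 : Cert := .r (nat_lit 34808659505344171181324231018480013180143706701252120480096207383774424159634011615497777635288829162357811582684975090341918934204542231817661143472012782639223154063353229667714107179008) (.f (nat_lit 556) (nat_lit 558) (nat_lit 2572) (.p (nat_lit 493) (.a (.f (nat_lit 588) (nat_lit 461) (nat_lit 5580) (.d (nat_lit 620) (nat_lit 589) (nat_lit 5612) (nat_lit 652) (nat_lit 6668))) (.a (.p (nat_lit 589) (.a (.p (nat_lit 621) (.a (.d (nat_lit 620) (nat_lit 588) (nat_lit 5612) (nat_lit 652) (nat_lit 5644)) (.a (.f (nat_lit 622) (nat_lit 654) (nat_lit 5646) (.d (nat_lit 624) (nat_lit 588) (nat_lit 3660) (nat_lit 656) (nat_lit 4623))) (.p (nat_lit 653) (.a (.d (nat_lit 654) (nat_lit 622) (nat_lit 4621) (nat_lit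 686) (nat_lit 4653)) (.d (nat_lit 652) (nat_lit 620) (nat_lit 5644) (nat_lit 684) (nat_lit 5676))))))) (.f (nat_lit 494) (nat_lit 462) (nat_lit 6605) (.d (nat_lit 492) (nat_lit 460) (nat_lit 7628) (nat_lit 495) (nat_lit 492))))) (.a (.f (nat_lit 461) (nat_lit 588) (nat_lit 5580) (.f (nat_lit 428) (nat_lit 460) (nat_lit 7596) (.f (nat_lit 429) (nat_lit 396) (nat_lit 7564) (.d (nat_lit 430) (nat_lit 398) (nat_lit 6541) (nat_lit 462) (nat_lit 6573))))) (.p (nat_lit 494) (.a (.f (nat_lit 492) (nat_lit 495) (nat_lit 492) (.f (nat_lit 460) (nat_lit 589) (nat_lit 7628) (.d (nat_lit 428) (nat_lit 396) (nat_lit 4492) (nat_lit 461) (nat_lit 7596)))) (.a (.d (nat_lit 495) (nat_lit 462) (nat_lit 7630) (nat_lit 492) (nat_lit 492)) (.a (.d (nat_lit 462) (nat_lit 495) (nat_lit 7630) (nat_lit 589) (nat_lit 6605)) (.f (nat_lit 462) (nat_lit 589) (nat_lit 6605) (.d (nat_lit 430) (nat_lit 398) (nat_lit 5517) (nat_lit 461) (nat_lit 6573))))))))))))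
noncomputable def s55144 : Cert := .r (nat_lit 34808659505344171180852485715267483748551422623188876455946289939746058141284692941416763199642841864912683245203806790148652114446060010222926126664678231752157508480922958209600091848704) (.p (nat_lit 525) (.a (.d (nat_lit 526) (nat_lit 494) (nat_lit 7662) (nat_lit 524) (nat_lit 524)) (.a (.f (nat_lit 524) (nat_lit 526) (nat_lit 524) (.f (nat_lit 557) (nat_lit 558) (nat_lit 3596) (.p (nat_lit 621) (.a (.f (nat_lit 589) (nat_lit 492) (nat_lit 7660) (.f (nat_lit 653) (nat_lit 556) (nat_lit 7692) (.d (nat_lit 652) (nat_lit 620) (nat_lit 5644) (nat_lit 684) (nat_lit 5676)))) (.a (.f (nat_lit 589) (nat_lit 492) (nat_lit 7660) (.f (nat_lit 622) (nat_lit 654) (nat_lit 5646) (.d (nat_lit 624) (nat_lit 588) (nat_lit 3660) (nat_lit 656) (nat_lit 4623)))) (.a (.p (nat_lit 589) (.a (.f (nat_lit 653) (nat_lit 556) (nat_lit 7692) (.d (nat_lit 652) (nat_lit 620) (nat_lit 5644) (nat_lit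 684) (nat_lit 5676))) (.f (nat_lit 622) (nat_lit 654) (nat_lit 5646) (.d (nat_lit 624) (nat_lit 588) (nat_lit 3660) (nat_lit 656) (nat_lit 4623))))) (.f (nat_lit 622) (nat_lit 654) (nat_lit 5646) (.p (nat_lit 652) (.a (.d (nat_lit 624) (nat_lit 653) (nat_lit 1644) (nat_lit 656) (nat_lit 4623)) (.f (nat_lit 620) (nat_lit 651) (nat_lit 1643) (.d (nat_lit 588) (nat_lit 556) (nat_lit 6668) (nat_lit 587) (nat_lit 3659)))))))))))) (.a (.p (nat_lit 557) (.a (.d (nat_lit 558) (nat_lit 524) (nat_lit 3596) (nat_lit 556) (nat_lit 2572)) (.a (.p (nat_lit 495) (.a (.f (nat_lit 462) (nat_lit 494) (nat_lit 7630) (.d (nat_lit 463) (nat_lit 430) (nat_lit 7598) (nat_lit 431) (nat_lit 4527))) (.a (.f (nat_lit 463) (nat_lit 431) (nat_lit 4527) (.p (nat_lit 589) (.a (.d (nat_lit 558) (nat_lit 524) (nat_lit 3596) (nat_lit 588) (nat_lit 1580)) (.a (.p (nat_lit 621) (.a (.f (nat_lit 492) (nat_lit 524) (nat_lit 7660) (.d (nat_lit 493) (nat_lit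 460) (nat_lit 7628) (nat_lit 494) (nat_lit 492))) (.f (nat_lit 622) (nat_lit 654) (nat_lit 5646) (.d (nat_lit 624) (nat_lit 588) (nat_lit 3660) (nat_lit 656) (nat_lit 4623))))) (.a (.p (nat_lit 492) (.a (.d (nat_lit 493) (nat_lit 460) (nat_lit 7628) (nat_lit 494) (nat_lit 492)) (.d (nat_lit 524) (nat_lit 558) (nat_lit 3596) (nat_lit 621) (nat_lit 7660)))) (.p (nat_lit 493) (.a (.d (nat_lit 588) (nat_lit 558) (nat_lit 1580) (nat_lit 620) (nat_lit 5612)) (.d (nat_lit 492) (nat_lit 460) (nat_lit 7628) (nat_lit 494) (nat_lit 492))))))))) (.a (.f (nat_lit 462) (nat_lit 494) (nat_lit 7630) (.p (nat_lit 589) (.a (.d (nat_lit 558) (nat_lit 524) (nat_lit 3596) (nat_lit 588) (nat_lit 1580)) (.a (.p (nat_lit 621) (.a (.p (nat_lit 493) (.a (.d (nat_lit 620) (nat_lit 588) (nat_lit 5612) (nat_lit 652) (nat_lit 5644)) (.d (nat_lit 430) (nat_lit 461) (nat_lit 6573) (nat_lit 463) (nat_lit 7598)))) (.a (.f (nat_lit 622) (nat_lit 654) (nat_lit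 5646) (.d (nat_lit 624) (nat_lit 588) (nat_lit 3660) (nat_lit 656) (nat_lit 4623))) (.p (nat_lit 493) (.a (.d (nat_lit 430) (nat_lit 461) (nat_lit 6573) (nat_lit 463) (nat_lit 7598)) (.d (nat_lit 492) (nat_lit 460) (nat_lit 7628) (nat_lit 524) (nat_lit 7660))))))) (.a (.p (nat_lit 621) (.a (.d (nat_lit 524) (nat_lit 492) (nat_lit 7660) (nat_lit 558) (nat_lit 3596)) (.a (.p (nat_lit 493) (.a (.d (nat_lit 430) (nat_lit 461) (nat_lit 6573) (nat_lit 463) (nat_lit 7598)) (.d (nat_lit 492) (nat_lit 460) (nat_lit 7628) (nat_lit 524) (nat_lit 7660)))) (.p (nat_lit 653) (.a (.d (nat_lit 654) (nat_lit 622) (nat_lit 4621) (nat_lit 686) (nat_lit 4653)) (.d (nat_lit 652) (nat_lit 620) (nat_lit 5644) (nat_lit 684) (nat_lit 5676))))))) (.p (nat_lit 493) (.a (.d (nat_lit 588) (nat_lit 558) (nat_lit 1580) (nat_lit 620) (nat_lit 5612)) (.d (nat_lit 430) (nat_lit 461) (nat_lit 6573) (nat_lit 463) (nat_lit 7598))))))))) (.a (.f (nat_lit 463)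 (nat_lit 431) (nat_lit 4527) (.p (nat_lit 589) (.a (.d (nat_lit 558) (nat_lit 524) (nat_lit 3596) (nat_lit 588) (nat_lit 1580)) (.a (.p (nat_lit 621) (.a (.f (nat_lit 620) (nat_lit 652) (nat_lit 5644) (.f (nat_lit 493) (nat_lit 588) (nat_lit 5612) (.d (nat_lit 492) (nat_lit 460) (nat_lit 7628) (nat_lit 524) (nat_lit 7660)))) (.a (.f (nat_lit 622) (nat_lit 654) (nat_lit 5646) (.d (nat_lit 624) (nat_lit 588) (nat_lit 3660) (nat_lit 656) (nat_lit 4623))) (.p (nat_lit 653) (.a (.d (nat_lit 654) (nat_lit 622) (nat_lit 4621) (nat_lit 686) (nat_lit 4653)) (.d (nat_lit 652) (nat_lit 620) (nat_lit 5644) (nat_lit 684) (nat_lit 5676))))))) (.a (.p (nat_lit 621) (.a (.d (nat_lit 524) (nat_lit 492) (nat_lit 7660) (nat_lit 558) (nat_lit 3596)) (.p (nat_lit 653) (.a (.d (nat_lit 654) (nat_lit 622) (nat_lit 4621) (nat_lit 686) (nat_lit 4653)) (.d (nat_lit 652) (nat_lit 620) (nat_lit 5644) (nat_lit 684) (nat_lit 5676)))))) (.f (nat_lit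 588) (nat_lit 558) (nat_lit 1580) (.f (nat_lit 620) (nat_lit 493) (nat_lit 5612) (.d (nat_lit 652) (nat_lit 621) (nat_lit 5644) (nat_lit 684) (nat_lit 6700))))))))) (.f (nat_lit 494) (nat_lit 462) (nat_lit 7630) (.p (nat_lit 589) (.a (.d (nat_lit 558) (nat_lit 524) (nat_lit 3596) (nat_lit 588) (nat_lit 1580)) (.a (.p (nat_lit 621) (.a (.d (nat_lit 492) (nat_lit 493) (nat_lit 492) (nat_lit 524) (nat_lit 7660)) (.f (nat_lit 622) (nat_lit 654) (nat_lit 5646) (.d (nat_lit 624) (nat_lit 588) (nat_lit 3660) (nat_lit 656) (nat_lit 4623))))) (.a (.f (nat_lit 492) (nat_lit 493) (nat_lit 492) (.d (nat_lit 524) (nat_lit 558) (nat_lit 3596) (nat_lit 621) (nat_lit 7660))) (.f (nat_lit 493) (nat_lit 492) (nat_lit 492) (.d (nat_lit 588) (nat_lit 558) (nat_lit 1580) (nat_lit 620) (nat_lit 5612))))))))))))) (.a (.p (nat_lit 493) (.a (.p (nat_lit 461) (.a s55026 (.a (.f (nat_lit 462) (nat_lit 430) (nat_lit 6573) (.d (nat_lit 494) (nat_lit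 495) (nat_lit 7630) (nat_lit 589) (nat_lit 6605))) (.a (.f (nat_lit 462) (nat_lit 430) (nat_lit 6573) (.p (nat_lit 463) (.a (.d (nat_lit 495) (nat_lit 431) (nat_lit 4527) (nat_lit 494) (nat_lit 7630)) (.f (nat_lit 428) (nat_lit 460) (nat_lit 7596) (.d (nat_lit 429) (nat_lit 396) (nat_lit 7564) (nat_lit 464) (nat_lit 3500)))))) (.p (nat_lit 492) (.a (.d (nat_lit 460) (nat_lit 428) (nat_lit 7596) (nat_lit 589) (nat_lit 7628)) (.a (.p (nat_lit 429) (.a (.d (nat_lit 556) (nat_lit 524) (nat_lit 5548) (nat_lit 588) (nat_lit 5580)) (.d (nat_lit 428) (nat_lit 396) (nat_lit 7564) (nat_lit 460) (nat_lit 7596)))) (.f (nat_lit 494) (nat_lit 495) (nat_lit 492) (.f (nat_lit 462) (nat_lit 589) (nat_lit 6605) (.d (nat_lit 463) (nat_lit 464) (nat_lit 1484) (nat_lit 491) (nat_lit 2507))))))))))) (.a (.p (nat_lit 461) (.a s55026 (.a (.p (nat_lit 589) (.a (.d (nat_lit 460) (nat_lit 428) (nat_lit 7596) (nat_lit 492) (nat_lit 7628)) (.p (nat_lit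 621) (.a (.d (nat_lit 620) (nat_lit 588) (nat_lit 5612) (nat_lit 652) (nat_lit 5644)) (.a (.f (nat_lit 622) (nat_lit 654) (nat_lit 5646) (.d (nat_lit 624) (nat_lit 588) (nat_lit 3660) (nat_lit 656) (nat_lit 4623))) (.p (nat_lit 653) (.a (.d (nat_lit 654) (nat_lit 622) (nat_lit 4621) (nat_lit 686) (nat_lit 4653)) (.d (nat_lit 652) (nat_lit 620) (nat_lit 5644) (nat_lit 684) (nat_lit 5676))))))))) (.a (.p (nat_lit 429) (.a (.d (nat_lit 556) (nat_lit 524) (nat_lit 5548) (nat_lit 588) (nat_lit 5580)) (.d (nat_lit 428) (nat_lit 396) (nat_lit 7564) (nat_lit 460) (nat_lit 7596)))) (.a (.f (nat_lit 556) (nat_lit 588) (nat_lit 5580) (.f (nat_lit 429) (nat_lit 524) (nat_lit 5548) (.p (nat_lit 397) (.a (.d (nat_lit 398) (nat_lit 366) (nat_lit 6509) (nat_lit 430) (nat_lit 6541)) (.d (nat_lit 396) (nat_lit 364) (nat_lit 7532) (nat_lit 428) (nat_lit 7564)))))) (.a (.f (nat_lit 588) (nat_lit 556) (nat_lit 5580) (.f (nat_lit 589) (nat_lit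 620) (nat_lit 5612) (.p (nat_lit 621) (.a (.d (nat_lit 492) (nat_lit 460) (nat_lit 7628) (nat_lit 524) (nat_lit 7660)) (.d (nat_lit 622) (nat_lit 624) (nat_lit 3660) (nat_lit 654) (nat_lit 5646)))))) (.f (nat_lit 428) (nat_lit 460) (nat_lit 7596) (.f (nat_lit 429) (nat_lit 396) (nat_lit 7564) (.p (nat_lit 397) (.a (.d (nat_lit 524) (nat_lit 492) (nat_lit 5516) (nat_lit 556) (nat_lit 5548)) (.d (nat_lit 398) (nat_lit 366) (nat_lit 6509) (nat_lit 430) (nat_lit 6541)))))))))))) (.a (.p (nat_lit 494) (.a (.f (nat_lit 492) (nat_lit 495) (nat_lit 492) (.f (nat_lit 460) (nat_lit 589) (nat_lit 7628) (.d (nat_lit 428) (nat_lit 396) (nat_lit 4492) (nat_lit 524) (nat_lit 4524)))) (.a (.d (nat_lit 462) (nat_lit 495) (nat_lit 7630) (nat_lit 589) (nat_lit 6605)) (.a (.d (nat_lit 495) (nat_lit 462) (nat_lit 7630) (nat_lit 492) (nat_lit 492)) (.f (nat_lit 589) (nat_lit 462) (nat_lit 6605) (.f (nat_lit 492) (nat_lit 460) (nat_lit 7628)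 (.f (nat_lit 621) (nat_lit 524) (nat_lit 7660) (.d (nat_lit 620) (nat_lit 588) (nat_lit 5612) (nat_lit 652) (nat_lit 5644))))))))) (.a (.p (nat_lit 461) (.a (.p (nat_lit 429) (.a (.d (nat_lit 556) (nat_lit 524) (nat_lit 5548) (nat_lit 588) (nat_lit 5580)) (.d (nat_lit 428) (nat_lit 396) (nat_lit 7564) (nat_lit 460) (nat_lit 7596)))) (.f (nat_lit 462) (nat_lit 430) (nat_lit 6573) (.d (nat_lit 494) (nat_lit 495) (nat_lit 7630) (nat_lit 589) (nat_lit 6605))))) (.a (.p (nat_lit 461) (.a (.p (nat_lit 429) (.a (.d (nat_lit 556) (nat_lit 524) (nat_lit 5548) (nat_lit 588) (nat_lit 5580)) (.d (nat_lit 428) (nat_lit 396) (nat_lit 7564) (nat_lit 460) (nat_lit 7596)))) (.a (.f (nat_lit 462) (nat_lit 430) (nat_lit 6573) (.p (nat_lit 463) (.a (.d (nat_lit 495) (nat_lit 431) (nat_lit 4527) (nat_lit 494) (nat_lit 7630)) (.f (nat_lit 428) (nat_lit 460) (nat_lit 7596) (.d (nat_lit 429) (nat_lit 396) (nat_lit 7564) (nat_lit 464) (nat_lit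 3500)))))) (.a (.f (nat_lit 462) (nat_lit 430) (nat_lit 6573) (.p (nat_lit 463) (.a (.d (nat_lit 495) (nat_lit 431) (nat_lit 4527) (nat_lit 494) (nat_lit 7630)) (.f (nat_lit 460) (nat_lit 428) (nat_lit 7596) (.d (nat_lit 492) (nat_lit 464) (nat_lit 1484) (nat_lit 491) (nat_lit 1483)))))) (.a (.f (nat_lit 462) (nat_lit 430) (nat_lit 6573) (.p (nat_lit 463) (.a (.d (nat_lit 495) (nat_lit 431) (nat_lit 4527) (nat_lit 494) (nat_lit 7630)) (.p (nat_lit 429) (.a (.d (nat_lit 556) (nat_lit 524) (nat_lit 5548) (nat_lit 588) (nat_lit 5580)) (.d (nat_lit 428) (nat_lit 396) (nat_lit 7564) (nat_lit 464) (nat_lit 3500))))))) (.f (nat_lit 462) (nat_lit 430) (nat_lit 6573) (.p (nat_lit 463) (.a (.d (nat_lit 495) (nat_lit 431) (nat_lit 4527) (nat_lit 494) (nat_lit 7630)) (.a (.f (nat_lit 464) (nat_lit 492) (nat_lit 1484) (.d (nat_lit 495) (nat_lit 432) (nat_lit 6575) (nat_lit 494) (nat_lit 7630))) (.a (.p (nat_lit 432) (.a (.d (nat_lit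 495) (nat_lit 431) (nat_lit 4527) (nat_lit 464) (nat_lit 6575)) (.a (.d (nat_lit 464) (nat_lit 492) (nat_lit 1484) (nat_lit 495) (nat_lit 6575)) (.a (.d (nat_lit 431) (nat_lit 460) (nat_lit 2476) (nat_lit 495) (nat_lit 4527)) (.d (nat_lit 464) (nat_lit 433) (nat_lit 2477) (nat_lit 492) (nat_lit 1484)))))) (.f (nat_lit 492) (nat_lit 464) (nat_lit 1484) (.d (nat_lit 491) (nat_lit 490) (nat_lit 2506) (nat_lit 494) (nat_lit 2507))))))))))))) (.a (.p (nat_lit 462) (.a (.d (nat_lit 494) (nat_lit 495) (nat_lit 7630) (nat_lit 589) (nat_lit 6605)) (.a (.p (nat_lit 588) (.a (.d (nat_lit 461) (nat_lit 430) (nat_lit 6573) (nat_lit 556) (nat_lit 5580)) (.f (nat_lit 589) (nat_lit 620) (nat_lit 5612) (.f (nat_lit 622) (nat_lit 654) (nat_lit 5646) (.d (nat_lit 624) (nat_lit 621) (nat_lit 3660) (nat_lit 656) (nat_lit 4623)))))) (.f (nat_lit 430) (nat_lit 461) (nat_lit 6573) (.d (nat_lit 495) (nat_lit 463) (nat_lit 7598) (nat_lit 494) (nat_lit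 7630)))))) (.p (nat_lit 494) (.a (.f (nat_lit 492) (nat_lit 495) (nat_lit 492) (.f (nat_lit 460) (nat_lit 589) (nat_lit 7628) (.d (nat_lit 428) (nat_lit 396) (nat_lit 4492) (nat_lit 524) (nat_lit 4524)))) (.a (.d (nat_lit 462) (nat_lit 495) (nat_lit 7630) (nat_lit 589) (nat_lit 6605)) (.a (.d (nat_lit 495) (nat_lit 462) (nat_lit 7630) (nat_lit 492) (nat_lit 492)) (.f (nat_lit 462) (nat_lit 589) (nat_lit 6605) (.d (nat_lit 430) (nat_lit 398) (nat_lit 5517) (nat_lit 461) (nat_lit 6573)))))))))))))) s55137)))) (.p (nat_lit 557) (.a (.d (nat_lit 556) (nat_lit 526) (nat_lit 1548) (nat_lit 558) (nat_lit 2572)) (.a (.f (nat_lit 494) (nat_lit 526) (nat_lit 7662) (.f (nat_lit 462) (nat_lit 495) (nat_lit 7630) (.f (nat_lit 493) (nat_lit 589) (nat_lit 6605) (.d (nat_lit 430) (nat_lit 398) (nat_lit 5517) (nat_lit 461) (nat_lit 6573))))) s55137)))))))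
noncomputable def s55160 : Cert := .r (nat_lit 34808659505344171180852485715267483748551422623188876455946289939746058141284692941416763199642841864912683245203806790148652114446060010222926126664678231752157508480922958209600091848704) (.f (nat_lit 624) (nat_lit 656) (nat_lit 4623) (.f (nat_lit 622) (nat_lit 654) (nat_lit 5646) (.f (nat_lit 526) (nat_lit 494) (nat_lit 7662) (.f (nat_lit 525) (nat_lit 524) (nat_lit 524) (.p (nat_lit 621) (.a (.d (nat_lit 592) (nat_lit 593) (nat_lit 2637) (nat_lit 620) (nat_lit 2636)) (.a (.p (nat_lit 620) (.a (.d (nat_lit 652) (nat_lit 651) (nat_lit 1643) (nat_lit 653) (nat_lit 1644)) (.d (nat_lit 588) (nat_lit 587) (nat_lit 3659) (nat_lit 589) (nat_lit 3660)))) (.p (nat_lit 625) (.a (.d (nat_lit 657) (nat_lit 592) (nat_lit 4624) (nat_lit 658) (nat_lit 622)) (.a (.d (nat_lit 592) (nat_lit 593) (nat_lit 2637) (nat_lit 657) (nat_lit 4624)) (.a (.f (nat_lit 594) (nat_lit 593) (nat_lit 2638)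 (.f (nat_lit 626) (nat_lit 595) (nat_lit 2639) (.d (nat_lit 658) (nat_lit 657) (nat_lit 622) (nat_lit 659) (nat_lit 623)))) (.d (nat_lit 593) (nat_lit 592) (nat_lit 2637) (nat_lit 594) (nat_lit 2638)))))))))))))
noncomputable def s55831 : Cert := .r (nat_lit 149502054158244092924433911189739505228060785896923359527442672069744321587466079925854867719571207959692858922905416732844555488595202941729201552356906756711610948325506270735197707316484672323584) (.f (nat_lit 594) (nat_lit 593) (nat_lit 558) (.p (nat_lit 624) (.a (.p (nat_lit 656) (.a (.d (nat_lit 592) (nat_lit 623) (nat_lit 5647) (nat_lit 687) (nat_lit 5679)) (.a (.f (nat_lit 562) (nat_lit 595) (nat_lit 559) (.p (nat_lit 658) (.a (.p (nat_lit 626) (.a (.d (nat_lit 657) (nat_lit 627) (nat_lit 2671) (nat_lit 689) (nat_lit 5681)) (.d (nat_lit 531) (nat_lit 530) (nat_lit 2575) (nat_lit 563) (nat_lit 6674)))) (.a (.p (nat_lit 657) (.a (.d (nat_lit 626) (nat_lit 627)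 (nat_lit 2671) (nat_lit 689) (nat_lit 5681)) (.a (.f (nat_lit 626) (nat_lit 689) (nat_lit 5681) (.d (nat_lit 691) (nat_lit 659) (nat_lit 4658) (nat_lit 690) (nat_lit 655))) (.a (.p (nat_lit 654) (.a (.d (nat_lit 690) (nat_lit 689) (nat_lit 654) (nat_lit 691) (nat_lit 655)) (.d (nat_lit 686) (nat_lit 685) (nat_lit 1677) (nat_lit 687) (nat_lit 1678)))) (.f (nat_lit 626) (nat_lit 627) (nat_lit 2671) (.d (nat_lit 691) (nat_lit 659) (nat_lit 4658) (nat_lit 690) (nat_lit 655))))))) (.a (.p (nat_lit 626) (.a (.d (nat_lit 531) (nat_lit 530) (nat_lit 2575) (nat_lit 563) (nat_lit 6674)) (.f (nat_lit 657) (nat_lit 689) (nat_lit 5681) (.d (nat_lit 691) (nat_lit 659) (nat_lit 4658) (nat_lit 690) (nat_lit 655))))) (.a (.p (nat_lit 657) (.a (.p (nat_lit 654) (.a (.d (nat_lit 690) (nat_lit 689) (nat_lit 654) (nat_lit 691) (nat_lit 655)) (.d (nat_lit 686) (nat_lit 685) (nat_lit 1677) (nat_lit 687) (nat_lit 1678)))) (.a (.f (nat_lit 659)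 (nat_lit 623) (nat_lit 3695) (.d (nat_lit 691) (nat_lit 690) (nat_lit 655) (nat_lit 692) (nat_lit 656))) (.f (nat_lit 659) (nat_lit 623) (nat_lit 3695) (.d (nat_lit 687) (nat_lit 686) (nat_lit 1678) (nat_lit 688) (nat_lit 1679)))))) (.f (nat_lit 531) (nat_lit 530) (nat_lit 2575) (.d (nat_lit 563) (nat_lit 532) (nat_lit 2576) (nat_lit 626) (nat_lit 6674))))))))) (.a (.f (nat_lit 562) (nat_lit 595) (nat_lit 559) (.p (nat_lit 657) (.a (.d (nat_lit 592) (nat_lit 623) (nat_lit 5647) (nat_lit 689) (nat_lit 4656)) (.a (.p (nat_lit 658) (.a (.d (nat_lit 626) (nat_lit 627) (nat_lit 2671) (nat_lit 689) (nat_lit 5681)) (.a (.f (nat_lit 531) (nat_lit 530) (nat_lit 2575) (.d (nat_lit 563) (nat_lit 532) (nat_lit 2576) (nat_lit 626) (nat_lit 6674))) (.f (nat_lit 659) (nat_lit 623) (nat_lit 3695) (.d (nat_lit 691) (nat_lit 690) (nat_lit 655) (nat_lit 692) (nat_lit 656)))))) (.a (.f (nat_lit 689) (nat_lit 592) (nat_lit 4656) (.f (nat_lit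 658) (nat_lit 626) (nat_lit 5681) (.d (nat_lit 690) (nat_lit 654) (nat_lit 654) (nat_lit 691) (nat_lit 655)))) (.p (nat_lit 658) (.a (.d (nat_lit 623) (nat_lit 592) (nat_lit 5647) (nat_lit 659) (nat_lit 3695)) (.f (nat_lit 531) (nat_lit 530) (nat_lit 2575) (.d (nat_lit 563) (nat_lit 532) (nat_lit 2576) (nat_lit 626) (nat_lit 6674)))))))))) (.f (nat_lit 562) (nat_lit 595) (nat_lit 559) (.p (nat_lit 657) (.a (.d (nat_lit 592) (nat_lit 687) (nat_lit 5679) (nat_lit 689) (nat_lit 4656)) (.a (.p (nat_lit 658) (.a (.d (nat_lit 626) (nat_lit 627) (nat_lit 2671) (nat_lit 689) (nat_lit 5681)) (.a (.f (nat_lit 531) (nat_lit 530) (nat_lit 2575) (.d (nat_lit 563) (nat_lit 532) (nat_lit 2576) (nat_lit 626) (nat_lit 6674))) (.p (nat_lit 654) (.a (.d (nat_lit 690) (nat_lit 689) (nat_lit 654) (nat_lit 691) (nat_lit 655)) (.d (nat_lit 686) (nat_lit 685) (nat_lit 1677) (nat_lit 687) (nat_lit 1678))))))) (.a (.f (nat_lit 689) (nat_lit 592)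 (nat_lit 4656) (.f (nat_lit 658) (nat_lit 626) (nat_lit 5681) (.d (nat_lit 690) (nat_lit 654) (nat_lit 654) (nat_lit 691) (nat_lit 655)))) (.p (nat_lit 658) (.a (.d (nat_lit 687) (nat_lit 592) (nat_lit 5679) (nat_lit 686) (nat_lit 1678)) (.f (nat_lit 531) (nat_lit 530) (nat_lit 2575) (.d (nat_lit 563) (nat_lit 532) (nat_lit 2576) (nat_lit 626) (nat_lit 6674)))))))))))))) (.a (.f (nat_lit 592) (nat_lit 623) (nat_lit 5647) (.f (nat_lit 656) (nat_lit 687) (nat_lit 5679) (.d (nat_lit 657) (nat_lit 625) (nat_lit 4624) (nat_lit 689) (nat_lit 4656)))) (.a (.p (nat_lit 626) (.a (.f (nat_lit 562) (nat_lit 595) (nat_lit 559) (.f (nat_lit 531) (nat_lit 530) (nat_lit 2575) (.d (nat_lit 563) (nat_lit 532) (nat_lit 2576) (nat_lit 658) (nat_lit 6674)))) (.a (.f (nat_lit 595) (nat_lit 562) (nat_lit 559) (.f (nat_lit 625) (nat_lit 623) (nat_lit 2639) (.d (nat_lit 596) (nat_lit 597) (nat_lit 1617) (nat_lit 627) (nat_lit 2640)))) (.a (.p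 (nat_lit 656) (.a (.p (nat_lit 658) (.a (.f (nat_lit 657) (nat_lit 627) (nat_lit 2671) (.f (nat_lit 562) (nat_lit 689) (nat_lit 5681) (.d (nat_lit 691) (nat_lit 659) (nat_lit 4658) (nat_lit 690) (nat_lit 655)))) (.a (.p (nat_lit 657) (.a (.f (nat_lit 562) (nat_lit 689) (nat_lit 5681) (.d (nat_lit 691) (nat_lit 659) (nat_lit 4658) (nat_lit 690) (nat_lit 655))) (.a (.f (nat_lit 562) (nat_lit 689) (nat_lit 5681) (.d (nat_lit 531) (nat_lit 530) (nat_lit 2575) (nat_lit 563) (nat_lit 6674))) (.a (.p (nat_lit 654) (.a (.d (nat_lit 690) (nat_lit 689) (nat_lit 654) (nat_lit 691) (nat_lit 655)) (.d (nat_lit 686) (nat_lit 685) (nat_lit 1677) (nat_lit 687) (nat_lit 1678)))) (.p (nat_lit 562) (.a (.d (nat_lit 691) (nat_lit 659) (nat_lit 4658) (nat_lit 690) (nat_lit 655)) (.d (nat_lit 531) (nat_lit 530) (nat_lit 2575) (nat_lit 563) (nat_lit 6674)))))))) (.a (.f (nat_lit 657) (nat_lit 627) (nat_lit 2671) (.f (nat_lit 562) (nat_lit 689)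 (nat_lit 5681) (.d (nat_lit 531) (nat_lit 530) (nat_lit 2575) (nat_lit 563) (nat_lit 6674)))) (.a (.p (nat_lit 691) (.a (.f (nat_lit 562) (nat_lit 659) (nat_lit 4658) (.d (nat_lit 531) (nat_lit 530) (nat_lit 2575) (nat_lit 563) (nat_lit 6674))) (.a (.f (nat_lit 659) (nat_lit 562) (nat_lit 4658) (.d (nat_lit 723) (nat_lit 627) (nat_lit 7762) (nat_lit 690) (nat_lit 4690))) (.f (nat_lit 690) (nat_lit 723) (nat_lit 4690) (.d (nat_lit 689) (nat_lit 688) (nat_lit 3727) (nat_lit 721) (nat_lit 5713)))))) (.a (.f (nat_lit 657) (nat_lit 627) (nat_lit 2671) (.p (nat_lit 654) (.a (.d (nat_lit 690) (nat_lit 689) (nat_lit 654) (nat_lit 691) (nat_lit 655)) (.d (nat_lit 686) (nat_lit 685) (nat_lit 1677) (nat_lit 687) (nat_lit 1678))))) (.f (nat_lit 657) (nat_lit 627) (nat_lit 2671) (.p (nat_lit 562) (.a (.d (nat_lit 691) (nat_lit 659) (nat_lit 4658) (nat_lit 690) (nat_lit 655)) (.d (nat_lit 531) (nat_lit 530) (nat_lit 2575) (nat_lit 563)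 (nat_lit 6674))))))))))) (.a (.f (nat_lit 625) (nat_lit 627) (nat_lit 1647) (.d (nat_lit 654) (nat_lit 623) (nat_lit 1646) (nat_lit 653) (nat_lit 2669))) (.a (.p (nat_lit 654) (.a (.p (nat_lit 653) (.a (.f (nat_lit 620) (nat_lit 621) (nat_lit 3692) (.d (nat_lit 652) (nat_lit 619) (nat_lit 3691) (nat_lit 623) (nat_lit 2668))) (.a (.f (nat_lit 652) (nat_lit 623) (nat_lit 2668) (.d (nat_lit 688) (nat_lit 687) (nat_lit 652) (nat_lit 689) (nat_lit 653))) (.p (nat_lit 657) (.a (.d (nat_lit 689) (nat_lit 688) (nat_lit 653) (nat_lit 690) (nat_lit 654)) (.d (nat_lit 685) (nat_lit 684) (nat_lit 1676) (nat_lit 686) (nat_lit 1677))))))) (.a (.d (nat_lit 625) (nat_lit 623) (nat_lit 1646) (nat_lit 653) (nat_lit 2669)) (.a (.d (nat_lit 625) (nat_lit 623) (nat_lit 1646) (nat_lit 657) (nat_lit 2670)) (.d (nat_lit 625) (nat_lit 653) (nat_lit 2669) (nat_lit 657) (nat_lit 2670)))))) (.p (nat_lit 658) (.a (.f (nat_lit 657) (nat_lit 627) (nat_lit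 2671) (.f (nat_lit 562) (nat_lit 689) (nat_lit 5681) (.d (nat_lit 691) (nat_lit 659) (nat_lit 4658) (nat_lit 690) (nat_lit 655)))) (.a (.p (nat_lit 657) (.a (.f (nat_lit 562) (nat_lit 689) (nat_lit 5681) (.d (nat_lit 691) (nat_lit 659) (nat_lit 4658) (nat_lit 690) (nat_lit 655))) (.a (.f (nat_lit 562) (nat_lit 689) (nat_lit 5681) (.d (nat_lit 530) (nat_lit 531) (nat_lit 2575) (nat_lit 625) (nat_lit 5649))) (.f (nat_lit 659) (nat_lit 623) (nat_lit 3695) (.d (nat_lit 691) (nat_lit 690) (nat_lit 655) (nat_lit 692) (nat_lit 656)))))) (.a (.d (nat_lit 627) (nat_lit 625) (nat_lit 1647) (nat_lit 657) (nat_lit 2671)) (.p (nat_lit 659) (.a (.f (nat_lit 562) (nat_lit 691) (nat_lit 4658) (.d (nat_lit 530) (nat_lit 531) (nat_lit 2575) (nat_lit 627) (nat_lit 4626))) (.a (.d (nat_lit 625) (nat_lit 623) (nat_lit 623) (nat_lit 627) (nat_lit 1647)) (.f (nat_lit 562) (nat_lit 691) (nat_lit 4658) (.d (nat_lit 531) (nat_lit 530) (nat_lit 2575)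 (nat_lit 563) (nat_lit 6674)))))))))))))) (.p (nat_lit 625) (.a (.d (nat_lit 623) (nat_lit 595) (nat_lit 2639) (nat_lit 654) (nat_lit 1646)) (.a (.f (nat_lit 656) (nat_lit 627) (nat_lit 1647) (.d (nat_lit 654) (nat_lit 623) (nat_lit 1646) (nat_lit 653) (nat_lit 2669))) (.a (.f (nat_lit 627) (nat_lit 656) (nat_lit 1647) (.d (nat_lit 595) (nat_lit 596) (nat_lit 2640) (nat_lit 623) (nat_lit 2639))) (.f (nat_lit 627) (nat_lit 656) (nat_lit 1647) (.p (nat_lit 628) (.a (.d (nat_lit 660) (nat_lit 659) (nat_lit 624) (nat_lit 661) (nat_lit 625)) (.d (nat_lit 596) (nat_lit 595) (nat_lit 2640) (nat_lit 597) (nat_lit 2641))))))))))))) (.a (.f (nat_lit 562) (nat_lit 595) (nat_lit 559) (.f (nat_lit 530) (nat_lit 531) (nat_lit 2575) (.p (nat_lit 625) (.a (.d (nat_lit 592) (nat_lit 623) (nat_lit 5647) (nat_lit 657) (nat_lit 4624)) (.a (.f (nat_lit 626) (nat_lit 657) (nat_lit 5649) (.f (nat_lit 623) (nat_lit 654) (nat_lit 1646) (.d (nat_lit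 659) (nat_lit 627) (nat_lit 4626) (nat_lit 658) (nat_lit 623)))) (.a (.f (nat_lit 623) (nat_lit 592) (nat_lit 5647) (.f (nat_lit 626) (nat_lit 654) (nat_lit 1646) (.d (nat_lit 659) (nat_lit 627) (nat_lit 4626) (nat_lit 658) (nat_lit 623)))) (.d (nat_lit 657) (nat_lit 592) (nat_lit 4624) (nat_lit 626) (nat_lit 5649)))))))) (.a (.f (nat_lit 562) (nat_lit 595) (nat_lit 559) (.f (nat_lit 623) (nat_lit 592) (nat_lit 5647) (.p (nat_lit 626) (.a (.f (nat_lit 531) (nat_lit 530) (nat_lit 2575) (.d (nat_lit 563) (nat_lit 532) (nat_lit 2576) (nat_lit 658) (nat_lit 6674))) (.a (.f (nat_lit 625) (nat_lit 654) (nat_lit 1646) (.f (nat_lit 627) (nat_lit 656) (nat_lit 1647) (.d (nat_lit 659) (nat_lit 530) (nat_lit 4626) (nat_lit 658) (nat_lit 623)))) (.a (.f (nat_lit 530) (nat_lit 531) (nat_lit 2575) (.f (nat_lit 625) (nat_lit 654) (nat_lit 1646) (.d (nat_lit 627) (nat_lit 656) (nat_lit 1647) (nat_lit 659) (nat_lit 4626)))) (.f (nat_lit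 625) (nat_lit 654) (nat_lit 1646) (.f (nat_lit 627) (nat_lit 656) (nat_lit 1647) (.d (nat_lit 659) (nat_lit 658) (nat_lit 623) (nat_lit 660) (nat_lit 624)))))))))) (.f (nat_lit 562) (nat_lit 595) (nat_lit 559) (.p (nat_lit 657) (.a (.p (nat_lit 656) (.a (.d (nat_lit 592) (nat_lit 687) (nat_lit 5679) (nat_lit 689) (nat_lit 4656)) (.a (.p (nat_lit 658) (.a (.d (nat_lit 626) (nat_lit 627) (nat_lit 2671) (nat_lit 689) (nat_lit 5681)) (.a (.f (nat_lit 531) (nat_lit 530) (nat_lit 2575) (.d (nat_lit 563) (nat_lit 532) (nat_lit 2576) (nat_lit 626) (nat_lit 6674))) (.p (nat_lit 654) (.a (.d (nat_lit 690) (nat_lit 689) (nat_lit 654) (nat_lit 691) (nat_lit 655)) (.d (nat_lit 686) (nat_lit 685) (nat_lit 1677) (nat_lit 687) (nat_lit 1678))))))) (.a (.f (nat_lit 689) (nat_lit 592) (nat_lit 4656) (.f (nat_lit 658) (nat_lit 626) (nat_lit 5681) (.d (nat_lit 690) (nat_lit 654) (nat_lit 654) (nat_lit 691) (nat_lit 655)))) (.p (nat_lit 658)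 (.a (.d (nat_lit 687) (nat_lit 592) (nat_lit 5679) (nat_lit 686) (nat_lit 1678)) (.f (nat_lit 531) (nat_lit 530) (nat_lit 2575) (.d (nat_lit 563) (nat_lit 532) (nat_lit 2576) (nat_lit 626) (nat_lit 6674))))))))) (.a (.p (nat_lit 656) (.a (.d (nat_lit 592) (nat_lit 687) (nat_lit 5679) (nat_lit 689) (nat_lit 4656)) (.a (.p (nat_lit 626) (.a (.d (nat_lit 658) (nat_lit 627) (nat_lit 2671) (nat_lit 689) (nat_lit 5681)) (.d (nat_lit 625) (nat_lit 530) (nat_lit 5649) (nat_lit 654) (nat_lit 2670)))) (.d (nat_lit 592) (nat_lit 625) (nat_lit 4624) (nat_lit 687) (nat_lit 5679))))) (.a (.f (nat_lit 625) (nat_lit 592) (nat_lit 4624) (.d (nat_lit 530) (nat_lit 531) (nat_lit 2575) (nat_lit 626) (nat_lit 5649))) (.a (.p (nat_lit 626) (.a (.f (nat_lit 658) (nat_lit 689) (nat_lit 5681) (.d (nat_lit 531) (nat_lit 530) (nat_lit 2575) (nat_lit 563) (nat_lit 6674))) (.a (.f (nat_lit 625) (nat_lit 530) (nat_lit 5649) (.d (nat_lit 656) (nat_lit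 627) (nat_lit 1647) (nat_lit 654) (nat_lit 2670))) (.f (nat_lit 658) (nat_lit 689) (nat_lit 5681) (.p (nat_lit 625) (.a (.d (nat_lit 656) (nat_lit 627) (nat_lit 1647) (nat_lit 654) (nat_lit 2670)) (.d (nat_lit 659) (nat_lit 660) (nat_lit 3696) (nat_lit 691) (nat_lit 4658)))))))) (.p (nat_lit 656) (.a (.d (nat_lit 592) (nat_lit 687) (nat_lit 5679) (nat_lit 689) (nat_lit 4656)) (.a (.p (nat_lit 654) (.a (.p (nat_lit 653) (.a (.d (nat_lit 689) (nat_lit 688) (nat_lit 653) (nat_lit 690) (nat_lit 654)) (.d (nat_lit 685) (nat_lit 684) (nat_lit 1676) (nat_lit 686) (nat_lit 1677)))) (.a (.f (nat_lit 653) (nat_lit 625) (nat_lit 2669) (.d (nat_lit 685) (nat_lit 684) (nat_lit 1676) (nat_lit 686) (nat_lit 1677))) (.a (.p (nat_lit 658) (.a (.d (nat_lit 690) (nat_lit 689) (nat_lit 654) (nat_lit 691) (nat_lit 655)) (.d (nat_lit 686) (nat_lit 685) (nat_lit 1677) (nat_lit 687) (nat_lit 1678)))) (.f (nat_lit 653) (nat_lit 625) (nat_lit 2669)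 (.d (nat_lit 689) (nat_lit 688) (nat_lit 653) (nat_lit 690) (nat_lit 654))))))) (.a (.d (nat_lit 592) (nat_lit 625) (nat_lit 4624) (nat_lit 689) (nat_lit 4656)) (.d (nat_lit 592) (nat_lit 625) (nat_lit 4624) (nat_lit 687) (nat_lit 5679)))))))))))))))))))
noncomputable def s56000 : Cert := .r (nat_lit 149502054158244092924433911189739505228060785896923359527442672069744321587466079925854867719571207959692858922905416732844555488595202941729201552356906756711610948325506270735197707316484672323584) (.p (nat_lit 562) (.a (.d (nat_lit 594) (nat_lit 593) (nat_lit 558) (nat_lit 595) (nat_lit 559)) (.a (.f (nat_lit 531) (nat_lit 530) (nat_lit 2575) (.p (nat_lit 657) (.a (.f (nat_lit 563) (nat_lit 532) (nat_lit 2576) (.p (nat_lit 656) (.a (.p (nat_lit 687) (.a (.f (nat_lit 686) (nat_lit 658) (nat_lit 1678) (.d (nat_lit 685) (nat_lit 654) (nat_lit 1677) (nat_lit 684) (nat_lit 2700))) (.p (nat_lit 564) (.a (.d (nat_lit 596) (nat_lit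 595) (nat_lit 560) (nat_lit 597) (nat_lit 561)) (.d (nat_lit 592) (nat_lit 593) (nat_lit 1584) (nat_lit 624) (nat_lit 5679)))))) (.a (.p (nat_lit 654) (.a (.p (nat_lit 653) (.a (.d (nat_lit 689) (nat_lit 688) (nat_lit 653) (nat_lit 690) (nat_lit 654)) (.d (nat_lit 685) (nat_lit 684) (nat_lit 1676) (nat_lit 686) (nat_lit 1677)))) (.f (nat_lit 590) (nat_lit 589) (nat_lit 1581) (.d (nat_lit 622) (nat_lit 621) (nat_lit 3693) (nat_lit 687) (nat_lit 4654))))) (.a (.f (nat_lit 596) (nat_lit 595) (nat_lit 560) (.p (nat_lit 592) (.a (.d (nat_lit 564) (nat_lit 593) (nat_lit 1584) (nat_lit 597) (nat_lit 561)) (.d (nat_lit 624) (nat_lit 687) (nat_lit 5679) (nat_lit 689) (nat_lit 4656))))) (.p (nat_lit 689) (.a (.p (nat_lit 564) (.a (.d (nat_lit 596) (nat_lit 595) (nat_lit 560) (nat_lit 597) (nat_lit 561)) (.d (nat_lit 592) (nat_lit 593) (nat_lit 1584) (nat_lit 624) (nat_lit 4656)))) (.f (nat_lit 690) (nat_lit 654) (nat_lit 654) (.d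 (nat_lit 691) (nat_lit 658) (nat_lit 655) (nat_lit 688) (nat_lit 3727)))))))))) (.a (.f (nat_lit 563) (nat_lit 532) (nat_lit 2576) (.p (nat_lit 592) (.a (.f (nat_lit 596) (nat_lit 595) (nat_lit 560) (.d (nat_lit 564) (nat_lit 593) (nat_lit 1584) (nat_lit 597) (nat_lit 561))) (.a (.d (nat_lit 625) (nat_lit 593) (nat_lit 7696) (nat_lit 624) (nat_lit 4624)) (.f (nat_lit 624) (nat_lit 625) (nat_lit 4624) (.d (nat_lit 656) (nat_lit 687) (nat_lit 5679) (nat_lit 689) (nat_lit 4656))))))) (.a (.f (nat_lit 563) (nat_lit 532) (nat_lit 2576) (.p (nat_lit 564) (.a (.d (nat_lit 596) (nat_lit 595) (nat_lit 560) (nat_lit 597) (nat_lit 561)) (.d (nat_lit 593) (nat_lit 592) (nat_lit 1584) (nat_lit 625) (nat_lit 7696))))) (.a (.f (nat_lit 590) (nat_lit 589) (nat_lit 1581) (.p (nat_lit 654) (.a (.f (nat_lit 622) (nat_lit 687) (nat_lit 4654) (.f (nat_lit 526) (nat_lit 525) (nat_lit 3597) (.d (nat_lit 653) (nat_lit 621) (nat_lit 5645) (nat_lit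 685) (nat_lit 5677)))) (.a (.p (nat_lit 656) (.a (.p (nat_lit 653) (.a (.d (nat_lit 689) (nat_lit 688) (nat_lit 653) (nat_lit 690) (nat_lit 654)) (.d (nat_lit 685) (nat_lit 684) (nat_lit 1676) (nat_lit 686) (nat_lit 1677)))) (.d (nat_lit 625) (nat_lit 593) (nat_lit 7696) (nat_lit 626) (nat_lit 2670)))) (.p (nat_lit 656) (.a (.d (nat_lit 622) (nat_lit 621) (nat_lit 3693) (nat_lit 687) (nat_lit 4654)) (.d (nat_lit 625) (nat_lit 593) (nat_lit 7696) (nat_lit 626) (nat_lit 2670)))))))) (.f (nat_lit 590) (nat_lit 589) (nat_lit 1581) (.p (nat_lit 654) (.a (.f (nat_lit 622) (nat_lit 687) (nat_lit 4654) (.f (nat_lit 526) (nat_lit 525) (nat_lit 3597) (.d (nat_lit 653) (nat_lit 621) (nat_lit 5645) (nat_lit 685) (nat_lit 5677)))) (.a (.p (nat_lit 656) (.a (.p (nat_lit 653) (.a (.d (nat_lit 689) (nat_lit 688) (nat_lit 653) (nat_lit 690) (nat_lit 654)) (.d (nat_lit 685) (nat_lit 684) (nat_lit 1676) (nat_lit 686) (nat_lit 1677)))) (.a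 (.p (nat_lit 624) (.a (.d (nat_lit 592) (nat_lit 687) (nat_lit 5679) (nat_lit 689) (nat_lit 4656)) (.d (nat_lit 625) (nat_lit 626) (nat_lit 2670) (nat_lit 653) (nat_lit 2669)))) (.a (.p (nat_lit 658) (.a (.d (nat_lit 690) (nat_lit 689) (nat_lit 654) (nat_lit 691) (nat_lit 655)) (.d (nat_lit 686) (nat_lit 685) (nat_lit 1677) (nat_lit 687) (nat_lit 1678)))) (.f (nat_lit 625) (nat_lit 626) (nat_lit 2670) (.d (nat_lit 624) (nat_lit 592) (nat_lit 4624) (nat_lit 653) (nat_lit 2669))))))) (.a (.p (nat_lit 656) (.a (.d (nat_lit 622) (nat_lit 621) (nat_lit 3693) (nat_lit 687) (nat_lit 4654)) (.a (.p (nat_lit 658) (.a (.d (nat_lit 690) (nat_lit 689) (nat_lit 654) (nat_lit 691) (nat_lit 655)) (.d (nat_lit 686) (nat_lit 685) (nat_lit 1677) (nat_lit 687) (nat_lit 1678)))) (.p (nat_lit 658) (.a (.d (nat_lit 690) (nat_lit 689) (nat_lit 654) (nat_lit 691) (nat_lit 655)) (.d (nat_lit 626) (nat_lit 625) (nat_lit 2670) (nat_lit 627) (nat_lit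 2671))))))) (.a (.p (nat_lit 656) (.a (.f (nat_lit 622) (nat_lit 621) (nat_lit 3693) (.d (nat_lit 685) (nat_lit 653) (nat_lit 5677) (nat_lit 686) (nat_lit 1677))) (.a (.p (nat_lit 624) (.a (.d (nat_lit 689) (nat_lit 592) (nat_lit 4656) (nat_lit 690) (nat_lit 654)) (.d (nat_lit 625) (nat_lit 626) (nat_lit 2670) (nat_lit 653) (nat_lit 2669)))) (.p (nat_lit 658) (.a (.d (nat_lit 690) (nat_lit 689) (nat_lit 654) (nat_lit 691) (nat_lit 655)) (.d (nat_lit 626) (nat_lit 625) (nat_lit 2670) (nat_lit 627) (nat_lit 2671))))))) (.p (nat_lit 656) (.a (.d (nat_lit 622) (nat_lit 621) (nat_lit 3693) (nat_lit 687) (nat_lit 4654)) (.a (.p (nat_lit 624) (.a (.d (nat_lit 592) (nat_lit 687) (nat_lit 5679) (nat_lit 689) (nat_lit 4656)) (.d (nat_lit 625) (nat_lit 626) (nat_lit 2670) (nat_lit 653) (nat_lit 2669)))) (.p (nat_lit 624) (.a (.d (nat_lit 689) (nat_lit 592) (nat_lit 4656) (nat_lit 690) (nat_lit 654)) (.d (nat_lit 625) (nat_lit 626)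 (nat_lit 2670) (nat_lit 653) (nat_lit 2669))))))))))))))))))) (.a (.f (nat_lit 593) (nat_lit 594) (nat_lit 558) (.f (nat_lit 531) (nat_lit 530) (nat_lit 2575) (.p (nat_lit 656) (.a (.p (nat_lit 592) (.a (.d (nat_lit 563) (nat_lit 532) (nat_lit 2576) (nat_lit 564) (nat_lit 1584)) (.d (nat_lit 624) (nat_lit 687) (nat_lit 5679) (nat_lit 688) (nat_lit 6704)))) (.a (.f (nat_lit 657) (nat_lit 625) (nat_lit 7696) (.p (nat_lit 654) (.a (.p (nat_lit 653) (.a (.d (nat_lit 689) (nat_lit 688) (nat_lit 653) (nat_lit 690) (nat_lit 654)) (.d (nat_lit 685) (nat_lit 684) (nat_lit 1676) (nat_lit 686) (nat_lit 1677)))) (.f (nat_lit 590) (nat_lit 589) (nat_lit 1581) (.d (nat_lit 622) (nat_lit 621) (nat_lit 3693) (nat_lit 687) (nat_lit 4654)))))) (.a (.f (nat_lit 657) (nat_lit 625) (nat_lit 7696) (.p (nat_lit 592) (.a (.d (nat_lit 624) (nat_lit 687) (nat_lit 5679) (nat_lit 689) (nat_lit 4656)) (.d (nat_lit 563) (nat_lit 532) (nat_lit 2576)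 (nat_lit 564) (nat_lit 1584))))) (.f (nat_lit 657) (nat_lit 625) (nat_lit 7696) (.p (nat_lit 689) (.a (.f (nat_lit 563) (nat_lit 532) (nat_lit 2576) (.d (nat_lit 592) (nat_lit 564) (nat_lit 1584) (nat_lit 624) (nat_lit 4656))) (.f (nat_lit 690) (nat_lit 654) (nat_lit 654) (.d (nat_lit 691) (nat_lit 658) (nat_lit 655) (nat_lit 688) (nat_lit 3727)))))))))))) (.f (nat_lit 595) (nat_lit 594) (nat_lit 559) (.f (nat_lit 563) (nat_lit 596) (nat_lit 560) (.d (nat_lit 531) (nat_lit 530) (nat_lit 2575) (nat_lit 532) (nat_lit 2576))))))))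
noncomputable def s56319 : Cert := .r (nat_lit 3773962425700235452738272624505952193199339552226928146794549392648115485167898379561026699849346401546134558067857772757880134458676407096525164659442171664912122642432) (.p (nat_lit 559) (.a (.p (nat_lit 527) (.a s49963 (.a (.p (nat_lit 561) (.a (.d (nat_lit 526) (nat_lit 525) (nat_lit 525) (nat_lit 562) (nat_lit 3598)) (.a (.f (nat_lit 562) (nat_lit 563) (nat_lit 3599) (.f (nat_lit 591) (nat_lit 590) (nat_lit 1582) (.f (nat_lit 594) (nat_lit 595) (nat_lit 559) (.f (nat_lit 558) (nat_lit 593) (nat_lit 558) (.f (nat_lit 557) (nat_lit 556) (nat_lit 2572) (.p (nat_lit 624) (.a (.d (nat_lit 592) (nat_lit 495) (nat_lit 7663) (nat_lit 656) (nat_lit 7695)) (.a (.d (nat_lit 623) (nat_lit 655) (nat_lit 6671) (nat_lit 656) (nat_lit 4623)) (.f (nat_lit 495) (nat_lit 592) (nat_lit 7663) (.f (nat_lit 462) (nat_lit 494) (nat_lit 7630) (.d (nat_lit 463) (nat_lit 430) (nat_lit 7598) (nat_lit 431) (nat_lit 4527)))))))))))) s49986))) (.a s50000 (.a s50008 (.a s50053 (.a s50054 (.a (.p (nat_lit 495) (.a (.d (nat_lit 463) (nat_lit 431) (nat_lit 4527) (nat_lit 592) (nat_lit 4559)) (.a (.d (nat_lit 592) (nat_lit 463) (nat_lit 4559) (nat_lit 624) (nat_lit 7663)) (.a (.f (nat_lit 463) (nat_lit 431) (nat_lit 4527) (.f (nat_lit 558) (nat_lit 590) (nat_lit 5582) (.f (nat_lit 462) (nat_lit 430) (nat_lit 7598) (.f (nat_lit 494) (nat_lit 591) (nat_lit 7630) (.f (nat_lit 464) (nat_lit 432) (nat_lit 6575) (.d (nat_lit 465) (nat_lit 466) (nat_lit 1486) (nat_lit 493) (nat_lit 1485))))))) (.f (nat_lit 592) (nat_lit 624) (nat_lit 7663) (.p (nat_lit 591) (.a (.f (nat_lit 623) (nat_lit 655) (nat_lit 6671) (.d (nat_lit 622) (nat_lit 590) (nat_lit 5614) (nat_lit 654) (nat_lit 5646))) (.a (.f (nat_lit 623) (nat_lit 655) (nat_lit 6671) (.d (nat_lit 494) (nat_lit 462) (nat_lit 7630) (nat_lit 526) (nat_lit 7662))) (.a (.f (nat_lit 494) (nat_lit 462) (nat_lit 7630) (.f (nat_lit 526) (nat_lit 623) (nat_lit 7662) (.d (nat_lit 525) (nat_lit 524) (nat_lit 524) (nat_lit 561) (nat_lit 525)))) (.f (nat_lit 590) (nat_lit 622) (nat_lit 5614) (.f (nat_lit 561) (nat_lit 562) (nat_lit 1582) (.p (nat_lit 558) (.a (.d (nat_lit 557) (nat_lit 556) (nat_lit 2572) (nat_lit 593) (nat_lit 557)) (.a (.d (nat_lit 593) (nat_lit 557) (nat_lit 557) (nat_lit 594) (nat_lit 558)) (.f (nat_lit 494) (nat_lit 462) (nat_lit 7630) (.f (nat_lit 493) (nat_lit 492) (nat_lit 492) (.d (nat_lit 526) (nat_lit 461) (nat_lit 7629) (nat_lit 525) (nat_lit 3597)))))))))))))))))) (.a s50096 (.a s50120 (.a s50125 (.a (.p (nat_lit 561) (.a (.d (nat_lit 526) (nat_lit 525) (nat_lit 525) (nat_lit 562) (nat_lit 3598)) (.a (.f (nat_lit 562) (nat_lit 563) (nat_lit 3599) (.f (nat_lit 591) (nat_lit 590) (nat_lit 1582) (.f (nat_lit 623) (nat_lit 655) (nat_lit 6671) (.f (nat_lit 594) (nat_lit 595) (nat_lit 559) (.f (nat_lit 593) (nat_lit 558) (nat_lit 558) (.d (nat_lit 622) (nat_lit 592) (nat_lit 1614) (nat_lit 654) (nat_lit 5646))))))) (.f (nat_lit 526) (nat_lit 525) (nat_lit 525) (.p (nat_lit 558) (.a (.f (nat_lit 557) (nat_lit 556) (nat_lit 2572) (.d (nat_lit 593) (nat_lit 592) (nat_lit 557) (nat_lit 594) (nat_lit 558))) (.a (.f (nat_lit 590) (nat_lit 589) (nat_lit 1581) (.f (nat_lit 622) (nat_lit 654) (nat_lit 6670) (.f (nat_lit 623) (nat_lit 655) (nat_lit 4622) (.f (nat_lit 591) (nat_lit 494) (nat_lit 7662) (.p (nat_lit 592) (.a (.d (nat_lit 593) (nat_lit 557) (nat_lit 3629) (nat_lit 621) (nat_lit 1613)) (.a (.d (nat_lit 593) (nat_lit 557) (nat_lit 557) (nat_lit 594) (nat_lit 558)) (.a (.d (nat_lit 593) (nat_lit 594) (nat_lit 3630) (nat_lit 621) (nat_lit 1613)) (.d (nat_lit 621) (nat_lit 620) (nat_lit 2636) (nat_lit 653) (nat_lit 5645)))))))))) (.a (.f (nat_lit 557) (nat_lit 556) (nat_lit 2572) (.d (nat_lit 589) (nat_lit 588) (nat_lit 1580) (nat_lit 590) (nat_lit 1581))) (.f (nat_lit 590) (nat_lit 589) (nat_lit 1581) (.f (nat_lit 622) (nat_lit 654) (nat_lit 6670) (.f (nat_lit 623) (nat_lit 655) (nat_lit 4622) (.f (nat_lit 591) (nat_lit 494) (nat_lit 7662) (.f (nat_lit 621) (nat_lit 653) (nat_lit 5645) (.d (nat_lit 593) (nat_lit 592) (nat_lit 1613) (nat_lit 594) (nat_lit 558))))))))))))))) s50170)))))))))))) (.a (.p (nat_lit 527) (.a s49963 (.a (.p (nat_lit 561) (.a (.d (nat_lit 526) (nat_lit 525) (nat_lit 525) (nat_lit 562) (nat_lit 3598)) (.a (.f (nat_lit 562) (nat_lit 563) (nat_lit 3599) (.f (nat_lit 591) (nat_lit 590) (nat_lit 1582) (.f (nat_lit 594) (nat_lit 595) (nat_lit 559) (.f (nat_lit 593) (nat_lit 558) (nat_lit 558) (.f (nat_lit 530) (nat_lit 531) (nat_lit 2575) (.d (nat_lit 498) (nat_lit 466) (nat_lit 5585) (nat_lit 625) (nat_lit 5617))))))) (.f (nat_lit 526) (nat_lit 525) (nat_lit 525) (.p (nat_lit 558) (.a (.f (nat_lit 557) (nat_lit 556) (nat_lit 2572) (.d (nat_lit 593) (nat_lit 592) (nat_lit 557) (nat_lit 594) (nat_lit 558))) (.a (.f (nat_lit 593) (nat_lit 594) (nat_lit 558) (.f (nat_lit 592) (nat_lit 557) (nat_lit 557) (.d (nat_lit 495) (nat_lit 463) (nat_lit 4559) (nat_lit 624) (nat_lit 7663)))) (.a (.f (nat_lit 557) (nat_lit 556) (nat_lit 2572) (.d (nat_lit 589) (nat_lit 588) (nat_lit 1580) (nat_lit 590) (nat_lit 1581))) (.f (nat_lit 590) (nat_lit 589) (nat_lit 1581) (.f (nat_lit 495) (nat_lit 463) (nat_lit 5582) (.f (nat_lit 592) (nat_lit 624) (nat_lit 7663) (.p (nat_lit 591) (.a (.d (nat_lit 623) (nat_lit 494) (nat_lit 7662) (nat_lit 655) (nat_lit 6671)) (.f (nat_lit 593) (nat_lit 594) (nat_lit 558) (.d (nat_lit 625) (nat_lit 626) (nat_lit 590) (nat_lit 657) (nat_lit 7696)))))))))))))))) (.a s50202 (.a s50221 (.a s50225 (.a (.p (nat_lit 561) (.a (.d (nat_lit 526) (nat_lit 525) (nat_lit 525) (nat_lit 562) (nat_lit 3598)) (.a (.f (nat_lit 562) (nat_lit 563) (nat_lit 3599) (.f (nat_lit 594) (nat_lit 595) (nat_lit 559) (.f (nat_lit 558) (nat_lit 593) (nat_lit 558) (.f (nat_lit 557) (nat_lit 556) (nat_lit 2572) (.d (nat_lit 589) (nat_lit 588) (nat_lit 1580) (nat_lit 590) (nat_lit 1581)))))) (.p (nat_lit 558) (.a (.f (nat_lit 525) (nat_lit 526) (nat_lit 525) (.d (nat_lit 557) (nat_lit 524) (nat_lit 3596) (nat_lit 556) (nat_lit 2572))) (.a (.f (nat_lit 525) (nat_lit 526) (nat_lit 525) (.f (nat_lit 557) (nat_lit 524) (nat_lit 3596) (.d (nat_lit 593) (nat_lit 592) (nat_lit 557) (nat_lit 594) (nat_lit 558)))) (.a (.f (nat_lit 557) (nat_lit 556) (nat_lit 2572) (.d (nat_lit 593) (nat_lit 592) (nat_lit 557) (nat_lit 594) (nat_lit 558))) (.f (nat_lit 526) (nat_lit 525) (nat_lit 525) (.f (nat_lit 590) (nat_lit 589) (nat_lit 1581) (.d (nat_lit 495) (nat_lit 463) (nat_lit 5582) (nat_lit 622) (nat_lit 6638))))))))))) (.a s50284 (.a (.p (nat_lit 592) (.a (.d (nat_lit 495) (nat_lit 463) (nat_lit 4559) (nat_lit 624) (nat_lit 7663)) (.a (.f (nat_lit 495) (nat_lit 463) (nat_lit 4559) (.p (nat_lit 561) (.a (.d (nat_lit 526) (nat_lit 525) (nat_lit 525) (nat_lit 562) (nat_lit 3598)) (.a (.f (nat_lit 562) (nat_lit 563) (nat_lit 3599) (.f (nat_lit 591) (nat_lit 590) (nat_lit 1582) (.f (nat_lit 623) (nat_lit 655) (nat_lit 6671) (.f (nat_lit 594) (nat_lit 595) (nat_lit 559) (.d (nat_lit 622) (nat_lit 593) (nat_lit 1614) (nat_lit 654) (nat_lit 5646)))))) (.f (nat_lit 526) (nat_lit 525) (nat_lit 525) (.p (nat_lit 591) (.a (.d (nat_lit 590) (nat_lit 589) (nat_lit 2605) (nat_lit 622) (nat_lit 5614)) (.d (nat_lit 623) (nat_lit 494) (nat_lit 7662) (nat_lit 655) (nat_lit 6671))))))))) (.a (.d (nat_lit 624) (nat_lit 495) (nat_lit 7663) (nat_lit 656) (nat_lit 7695)) (.f (nat_lit 624) (nat_lit 656) (nat_lit 7695) (.f (nat_lit 623) (nat_lit 655) (nat_lit 5647) (.f (nat_lit 625) (nat_lit 657) (nat_lit 4624) (.p (nat_lit 591) (.a (.d (nat_lit 590) (nat_lit 589) (nat_lit 589) (nat_lit 626) (nat_lit 3662)) (.f (nat_lit 622) (nat_lit 654) (nat_lit 5646) (.d (nat_lit 593) (nat_lit 594) (nat_lit 1614) (nat_lit 621) (nat_lit 2637)))))))))))) (.a s50303 (.a s50313 (.a (.p (nat_lit 561) (.a (.d (nat_lit 526) (nat_lit 525) (nat_lit 525) (nat_lit 562) (nat_lit 3598)) (.a (.f (nat_lit 562) (nat_lit 563) (nat_lit 3599) (.f (nat_lit 590) (nat_lit 591) (nat_lit 1582) (.f (nat_lit 558) (nat_lit 589) (nat_lit 1581) (.d (nat_lit 594) (nat_lit 593) (nat_lit 558) (nat_lit 595) (nat_lit 559))))) (.f (nat_lit 525) (nat_lit 526) (nat_lit 525) (.p (nat_lit 558) (.a (.d (nat_lit 557) (nat_lit 524) (nat_lit 3596) (nat_lit 556) (nat_lit 2572)) (.f (nat_lit 590) (nat_lit 589) (nat_lit 1581) (.f (nat_lit 622) (nat_lit 654) (nat_lit 6670) (.d (nat_lit 495) (nat_lit 463) (nat_lit 5582) (nat_lit 591) (nat_lit 5614)))))))))) (.a (.p (nat_lit 495) (.a (.d (nat_lit 463) (nat_lit 431) (nat_lit 4527) (nat_lit 592) (nat_lit 4559)) (.a (.d (nat_lit 592) (nat_lit 463) (nat_lit 4559) (nat_lit 624) (nat_lit 7663)) (.a (.f (nat_lit 463) (nat_lit 431) (nat_lit 4527) (.f (nat_lit 558) (nat_lit 590) (nat_lit 5582) (.f (nat_lit 557) (nat_lit 556) (nat_lit 2572) (.f (nat_lit 525) (nat_lit 524) (nat_lit 3596) (.f (nat_lit 526) (nat_lit 561) (nat_lit 525) (.f (nat_lit 589) (nat_lit 588) (nat_lit 1580) (.d (nat_lit 621) (nat_lit 494) (nat_lit 6637) (nat_lit 653) (nat_lit 6669)))))))) (.f (nat_lit 624) (nat_lit 592) (nat_lit 7663) (.p (nat_lit 526) (.a (.d (nat_lit 525) (nat_lit 524) (nat_lit 524) (nat_lit 561) (nat_lit 525)) (.a (.f (nat_lit 561) (nat_lit 562) (nat_lit 3598) (.p (nat_lit 591) (.a (.d (nat_lit 623) (nat_lit 655) (nat_lit 6671) (nat_lit 656) (nat_lit 4623)) (.a (.d (nat_lit 623) (nat_lit 494) (nat_lit 7662) (nat_lit 656) (nat_lit 4623)) (.a (.d (nat_lit 623) (nat_lit 494) (nat_lit 7662) (nat_lit 655) (nat_lit 6671)) (.f (nat_lit 590) (nat_lit 622) (nat_lit 5614) (.d (nat_lit 589) (nat_lit 558) (nat_lit 1581) (nat_lit 588) (nat_lit 2604)))))))) (.f (nat_lit 525) (nat_lit 524) (nat_lit 524) (.f (nat_lit 493) (nat_lit 492) (nat_lit 3564) (.f (nat_lit 557) (nat_lit 556) (nat_lit 1548) (.p (nat_lit 590) (.a (.f (nat_lit 558) (nat_lit 461) (nat_lit 4557) (.f (nat_lit 589) (nat_lit 588) (nat_lit 1580) (.d (nat_lit 621) (nat_lit 494) (nat_lit 6637) (nat_lit 653) (nat_lit 6669)))) (.a (.d (nat_lit 622) (nat_lit 589) (nat_lit 4589) (nat_lit 591) (nat_lit 5614)) (.d (nat_lit 622) (nat_lit 558) (nat_lit 6638) (nat_lit 591) (nat_lit 5614)))))))))))))))) (.a s50353 (.a (.p (nat_lit 561) (.a (.d (nat_lit 526) (nat_lit 525) (nat_lit 525) (nat_lit 562) (nat_lit 3598)) (.a (.f (nat_lit 562) (nat_lit 563) (nat_lit 3599) (.f (nat_lit 591) (nat_lit 590) (nat_lit 1582) (.f (nat_lit 623) (nat_lit 655) (nat_lit 6671) (.f (nat_lit 594) (nat_lit 595) (nat_lit 559) (.f (nat_lit 593) (nat_lit 558) (nat_lit 558) (.d (nat_lit 622) (nat_lit 592) (nat_lit 1614) (nat_lit 654) (nat_lit 5646))))))) (.f (nat_lit 526) (nat_lit 525) (nat_lit 525) (.p (nat_lit 558) (.a (.f (nat_lit 557) (nat_lit 556) (nat_lit 2572) (.d (nat_lit 593) (nat_lit 592) (nat_lit 557) (nat_lit 594) (nat_lit 558))) (.a (.f (nat_lit 590) (nat_lit 589) (nat_lit 1581) (.f (nat_lit 593) (nat_lit 594) (nat_lit 558) (.f (nat_lit 592) (nat_lit 557) (nat_lit 557) (.p (nat_lit 623) (.a (.d (nat_lit 655) (nat_lit 591) (nat_lit 6671) (nat_lit 624) (nat_lit 5647)) (.a (.d (nat_lit 591) (nat_lit 494) (nat_lit 7662) (nat_lit 655) (nat_lit 6671)) (.a (.d (nat_lit 624) (nat_lit 655) (nat_lit 5647) (nat_lit 656) (nat_lit 7695)) (.f (nat_lit 591) (nat_lit 494) (nat_lit 7662) (.d (nat_lit 625) (nat_lit 626) (nat_lit 590) (nat_lit 657) (nat_lit 7696)))))))))) (.a (.f (nat_lit 557) (nat_lit 556) (nat_lit 2572) (.d (nat_lit 589) (nat_lit 588) (nat_lit 1580) (nat_lit 590) (nat_lit 1581))) (.f (nat_lit 590) (nat_lit 589) (nat_lit 1581) (.f (nat_lit 622) (nat_lit 654) (nat_lit 6670) (.f (nat_lit 623) (nat_lit 655) (nat_lit 4622) (.f (nat_lit 591) (nat_lit 494) (nat_lit 7662) (.p (nat_lit 592) (.a (.d (nat_lit 593) (nat_lit 594) (nat_lit 3630) (nat_lit 621) (nat_lit 1613)) (.a (.d (nat_lit 621) (nat_lit 593) (nat_lit 1613) (nat_lit 653) (nat_lit 5645)) (.a (.f (nat_lit 593) (nat_lit 594) (nat_lit 558) (.d (nat_lit 625) (nat_lit 626) (nat_lit 590) (nat_lit 657) (nat_lit 7696))) (.d (nat_lit 621) (nat_lit 620) (nat_lit 2636) (nat_lit 653) (nat_lit 5645)))))))))))))))))) (.p (nat_lit 592) (.a (.d (nat_lit 495) (nat_lit 463) (nat_lit 4559) (nat_lit 624) (nat_lit 7663)) (.a (.f (nat_lit 495) (nat_lit 463) (nat_lit 4559) (.p (nat_lit 591) (.a (.f (nat_lit 623) (nat_lit 655) (nat_lit 6671) (.d (nat_lit 622) (nat_lit 590) (nat_lit 5614) (nat_lit 654) (nat_lit 5646))) (.a (.f (nat_lit 623) (nat_lit 655) (nat_lit 6671) (.f (nat_lit 526) (nat_lit 494) (nat_lit 7662) (.f (nat_lit 525) (nat_lit 524) (nat_lit 524) (.f (nat_lit 557) (nat_lit 556) (nat_lit 1548) (.f (nat_lit 558) (nat_lit 593) (nat_lit 557) (.f (nat_lit 493) (nat_lit 492) (nat_lit 3564) (.d (nat_lit 461) (nat_lit 429) (nat_lit 4525) (nat_lit 590) (nat_lit 4557)))))))) (.a (.f (nat_lit 623) (nat_lit 655) (nat_lit 6671) (.f (nat_lit 622) (nat_lit 654) (nat_lit 5646) (.f (nat_lit 593) (nat_lit 594) (nat_lit 1614) (.f (nat_lit 526) (nat_lit 494) (nat_lit 7662) (.f (nat_lit 525) (nat_lit 524) (nat_lit 524) (.d (nat_lit 557) (nat_lit 556) (nat_lit 1548) (nat_lit 558) (nat_lit 557))))))) (.a (.f (nat_lit 590) (nat_lit 622) (nat_lit 5614) (.f (nat_lit 589) (nat_lit 588) (nat_lit 2604) (.f (nat_lit 557) (nat_lit 556) (nat_lit 3628) (.f (nat_lit 558) (nat_lit 593) (nat_lit 557) (.p (nat_lit 526) (.a (.d (nat_lit 494) (nat_lit 621) (nat_lit 5613) (nat_lit 623) (nat_lit 4590)) (.a (.p (nat_lit 493) (.a (.d (nat_lit 492) (nat_lit 494) (nat_lit 492) (nat_lit 525) (nat_lit 3564)) (.a (.d (nat_lit 525) (nat_lit 461) (nat_lit 4557) (nat_lit 524) (nat_lit 3596)) (.d (nat_lit 494) (nat_lit 492) (nat_lit 492) (nat_lit 623) (nat_lit 7662))))) (.d (nat_lit 621) (nat_lit 620) (nat_lit 1612) (nat_lit 653) (nat_lit 6669))))))))) (.f (nat_lit 590) (nat_lit 622) (nat_lit 5614) (.f (nat_lit 589) (nat_lit 588) (nat_lit 2604) (.f (nat_lit 557) (nat_lit 556) (nat_lit 3628) (.f (nat_lit 558) (nat_lit 593) (nat_lit 557) (.p (nat_lit 526) (.a (.d (nat_lit 621) (nat_lit 494) (nat_lit 5613) (nat_lit 620) (nat_lit 1612)) (.a (.p (nat_lit 493) (.a (.d (nat_lit 492) (nat_lit 494) (nat_lit 492) (nat_lit 525) (nat_lit 3564)) (.a (.d (nat_lit 525) (nat_lit 461) (nat_lit 4557) (nat_lit 524) (nat_lit 3596)) (.d (nat_lit 494) (nat_lit 461) (nat_lit 7629) (nat_lit 492) (nat_lit 492))))) (.d (nat_lit 621) (nat_lit 620) (nat_lit 1612) (nat_lit 653) (nat_lit 6669))))))))))))))) (.a (.d (nat_lit 624) (nat_lit 495) (nat_lit 7663) (nat_lit 656) (nat_lit 7695)) (.f (nat_lit 624) (nat_lit 656) (nat_lit 7695) (.f (nat_lit 623) (nat_lit 655) (nat_lit 5647) (.f (nat_lit 625) (nat_lit 657) (nat_lit 4624) (.p (nat_lit 591) (.a (.d (nat_lit 590) (nat_lit 589) (nat_lit 589) (nat_lit 626) (nat_lit 3662)) (.f (nat_lit 622) (nat_lit 654) (nat_lit 5646) (.d (nat_lit 593) (nat_lit 594) (nat_lit 1614) (nat_lit 621) (nat_lit 2637))))))))))))))))))))))))))) (.a (.p (nat_lit 561) (.a (.p (nat_lit 562) (.a (.d (nat_lit 527) (nat_lit 526) (nat_lit 3598) (nat_lit 563) (nat_lit 3599)) (.a (.f (nat_lit 527) (nat_lit 526) (nat_lit 3598) (.f (nat_lit 591) (nat_lit 590) (nat_lit 1582) (.f (nat_lit 594) (nat_lit 595) (nat_lit 559) (.f (nat_lit 558) (nat_lit 593) (nat_lit 558) (.f (nat_lit 557) (nat_lit 556) (nat_lit 2572) (.p (nat_lit 624) (.a (.d (nat_lit 592) (nat_lit 495) (nat_lit 7663) (nat_lit 656) (nat_lit 7695)) (.a (.d (nat_lit 623) (nat_lit 655) (nat_lit 6671) (nat_lit 656) (nat_lit 4623)) (.f (nat_lit 495) (nat_lit 592) (nat_lit 7663) (.f (nat_lit 462) (nat_lit 494) (nat_lit 7630) (.d (nat_lit 463) (nat_lit 430) (nat_lit 7598) (nat_lit 431) (nat_lit 4527)))))))))))) (.a (.f (nat_lit 563) (nat_lit 527) (nat_lit 3599) (.d (nat_lit 595) (nat_lit 594) (nat_lit 559) (nat_lit 596) (nat_lit 560))) (.f (nat_lit 591) (nat_lit 590) (nat_lit 1582) (.f (nat_lit 563) (nat_lit 592) (nat_lit 1583) (.d (nat_lit 595) (nat_lit 594) (nat_lit 559) (nat_lit 596) (nat_lit 560)))))))) (.a s50410 (.a (.p (nat_lit 527) (.a (.d (nat_lit 526) (nat_lit 525) (nat_lit 525) (nat_lit 562) (nat_lit 3598)) (.a (.f (nat_lit 562) (nat_lit 563) (nat_lit 3599) (.f (nat_lit 591) (nat_lit 590) (nat_lit 1582) (.p (nat_lit 624) (.a (.d (nat_lit 592) (nat_lit 495) (nat_lit 7663) (nat_lit 656) (nat_lit 7695)) (.a (.d (nat_lit 623) (nat_lit 655) (nat_lit 6671) (nat_lit 656) (nat_lit 4623)) (.f (nat_lit 495) (nat_lit 592) (nat_lit 7663) (.f (nat_lit 462) (nat_lit 494) (nat_lit 7630) (.d (nat_lit 463) (nat_lit 430) (nat_lit 7598) (nat_lit 431) (nat_lit 4527))))))))) (.f (nat_lit 526) (nat_lit 525) (nat_lit 525) (.p (nat_lit 495) (.a (.d (nat_lit 463) (nat_lit 431) (nat_lit 4527) (nat_lit 592) (nat_lit 4559)) (.a (.d (nat_lit 592) (nat_lit 463) (nat_lit 4559) (nat_lit 624) (nat_lit 7663)) (.a (.f (nat_lit 463) (nat_lit 431) (nat_lit 4527) (.f (nat_lit 558) (nat_lit 590) (nat_lit 5582) (.f (nat_lit 462) (nat_lit 430) (nat_lit 7598) (.f (nat_lit 494) (nat_lit 591) (nat_lit 4558) (.d (nat_lit 557) (nat_lit 556) (nat_lit 2572) (nat_lit 589) (nat_lit 5581)))))) (.f (nat_lit 592) (nat_lit 624) (nat_lit 7663) s50436))))))))) (.a (.p (nat_lit 527) (.a (.d (nat_lit 526) (nat_lit 525) (nat_lit 525) (nat_lit 562) (nat_lit 3598)) (.a (.f (nat_lit 562) (nat_lit 563) (nat_lit 3599) (.f (nat_lit 594) (nat_lit 595) (nat_lit 559) (.f (nat_lit 558) (nat_lit 593) (nat_lit 558) (.f (nat_lit 557) (nat_lit 556) (nat_lit 2572) (.d (nat_lit 589) (nat_lit 588) (nat_lit 1580) (nat_lit 590) (nat_lit 1581)))))) (.f (nat_lit 526) (nat_lit 525) (nat_lit 525) (.p (nat_lit 558) (.a (.f (nat_lit 557) (nat_lit 556) (nat_lit 2572) (.d (nat_lit 593) (nat_lit 592) (nat_lit 557) (nat_lit 594) (nat_lit 558))) (.a (.f (nat_lit 593) (nat_lit 594) (nat_lit 558) (.f (nat_lit 592) (nat_lit 557) (nat_lit 557) (.d (nat_lit 495) (nat_lit 463) (nat_lit 4559) (nat_lit 624) (nat_lit 7663)))) (.a (.f (nat_lit 557) (nat_lit 556) (nat_lit 2572) (.d (nat_lit 589) (nat_lit 588) (nat_lit 1580) (nat_lit 590) (nat_lit 1581))) (.f (nat_lit 590) (nat_lit 589) (nat_lit 1581) (.f (nat_lit 593) (nat_lit 594) (nat_lit 558) (.p (nat_lit 494) (.a (.f (nat_lit 495) (nat_lit 463) (nat_lit 5582) (.d (nat_lit 493) (nat_lit 461) (nat_lit 7629) (nat_lit 492) (nat_lit 492))) (.a (.f (nat_lit 463) (nat_lit 495) (nat_lit 5582) (.d (nat_lit 462) (nat_lit 430) (nat_lit 4526) (nat_lit 431) (nat_lit 6574))) (.f (nat_lit 461) (nat_lit 493) (nat_lit 7629) (.d (nat_lit 462) (nat_lit 429) (nat_lit 7597) (nat_lit 430) (nat_lit 4526)))))))))))))))) (.a s50457 (.a s50459 (.a (.p (nat_lit 558) (.a (.f (nat_lit 526) (nat_lit 525) (nat_lit 3597) (.f (nat_lit 527) (nat_lit 562) (nat_lit 3598) (.f (nat_lit 557) (nat_lit 556) (nat_lit 2572) (.d (nat_lit 593) (nat_lit 592) (nat_lit 557) (nat_lit 594) (nat_lit 558))))) (.a (.f (nat_lit 526) (nat_lit 525) (nat_lit 3597) (.f (nat_lit 562) (nat_lit 527) (nat_lit 3598) (.d (nat_lit 594) (nat_lit 593) (nat_lit 558) (nat_lit 595) (nat_lit 559)))) (.a (.f (nat_lit 526) (nat_lit 525) (nat_lit 3597) (.f (nat_lit 527) (nat_lit 562) (nat_lit 3598) (.f (nat_lit 557) (nat_lit 556) (nat_lit 2572) (.d (nat_lit 589) (nat_lit 588) (nat_lit 1580) (nat_lit 590) (nat_lit 1581))))) (.f (nat_lit 593) (nat_lit 594) (nat_lit 558) (.f (nat_lit 557) (nat_lit 592) (nat_lit 557) (.d (nat_lit 589) (nat_lit 588) (nat_lit 1580) (nat_lit 590) (nat_lit 1581)))))))) (.a (.p (nat_lit 562) (.a (.f (nat_lit 563) (nat_lit 527) (nat_lit 3599) (.d (nat_lit 595) (nat_lit 594) (nat_lit 559) (nat_lit 596) (nat_lit 560))) (.a (.f (nat_lit 563) (nat_lit 527) (nat_lit 3599) (.d (nat_lit 591) (nat_lit 590) (nat_lit 1582) (nat_lit 592) (nat_lit 1583))) (.f (nat_lit 594) (nat_lit 595) (nat_lit 559) (.f (nat_lit 593) (nat_lit 558) (nat_lit 558) (.f (nat_lit 530) (nat_lit 531) (nat_lit 2575) (.d (nat_lit 498) (nat_lit 466) (nat_lit 5585) (nat_lit 625) (nat_lit 5617)))))))) (.a (.p (nat_lit 558) (.a (.f (nat_lit 526) (nat_lit 525) (nat_lit 3597) (.f (nat_lit 593) (nat_lit 594) (nat_lit 558) (.f (nat_lit 557) (nat_lit 592) (nat_lit 557) (.d (nat_lit 589) (nat_lit 588) (nat_lit 1580) (nat_lit 590) (nat_lit 1581))))) (.a (.f (nat_lit 526) (nat_lit 525) (nat_lit 3597) (.f (nat_lit 589) (nat_lit 590) (nat_lit 1581) (.f (nat_lit 557) (nat_lit 588) (nat_lit 1580) (.f (nat_lit 556) (nat_lit 527) (nat_lit 2572) (.d (nat_lit 592) (nat_lit 591) (nat_lit 556) (nat_lit 593) (nat_lit 557)))))) (.a (.f (nat_lit 593) (nat_lit 594) (nat_lit 558) (.f (nat_lit 557) (nat_lit 592) (nat_lit 557) (.d (nat_lit 525) (nat_lit 524) (nat_lit 3596) (nat_lit 526) (nat_lit 3597)))) (.a (.f (nat_lit 593) (nat_lit 594) (nat_lit 558) (.f (nat_lit 557) (nat_lit 592) (nat_lit 557) (.d (nat_lit 589) (nat_lit 588) (nat_lit 1580) (nat_lit 590) (nat_lit 1581)))) (.f (nat_lit 526) (nat_lit 525) (nat_lit 3597) (.f (nat_lit 590) (nat_lit 589) (nat_lit 1581) (.p (nat_lit 494) (.a (.d (nat_lit 591) (nat_lit 462) (nat_lit 4558) (nat_lit 623) (nat_lit 4590)) (.a (.f (nat_lit 591) (nat_lit 623) (nat_lit 4590) (.f (nat_lit 495) (nat_lit 463) (nat_lit 6606) (.f (nat_lit 493) (nat_lit 461) (nat_lit 7629) (.f (nat_lit 492) (nat_lit 527) (nat_lit 492) (.p (nat_lit 491) (.a (.d (nat_lit 523) (nat_lit 522) (nat_lit 1514) (nat_lit 524) (nat_lit 1515)) (.d (nat_lit 459) (nat_lit 458) (nat_lit 3530) (nat_lit 460) (nat_lit 3531)))))))) (.f (nat_lit 463) (nat_lit 495) (nat_lit 6606) (.f (nat_lit 462) (nat_lit 431) (nat_lit 6574) (.d (nat_lit 461) (nat_lit 429) (nat_lit 7597) (nat_lit 493) (nat_lit 7629)))))))))))))) (.p (nat_lit 558) (.a (.f (nat_lit 590) (nat_lit 589) (nat_lit 1581) (.f (nat_lit 591) (nat_lit 562) (nat_lit 1582) (.f (nat_lit 623) (nat_lit 655) (nat_lit 6671) (.d (nat_lit 526) (nat_lit 494) (nat_lit 4590) (nat_lit 525) (nat_lit 3597))))) (.a (.f (nat_lit 593) (nat_lit 594) (nat_lit 558) (.f (nat_lit 557) (nat_lit 592) (nat_lit 557) (.d (nat_lit 589) (nat_lit 588) (nat_lit 1580) (nat_lit 590) (nat_lit 1581)))) (.f (nat_lit 593) (nat_lit 594) (nat_lit 558) (.f (nat_lit 557) (nat_lit 592) (nat_lit 557) (.d (nat_lit 525) (nat_lit 524) (nat_lit 3596) (nat_lit 526) (nat_lit 3597))))))))))))))))) (.a (.p (nat_lit 527) (.a s50000 (.a s50202 (.a (.p (nat_lit 561) (.a (.d (nat_lit 526) (nat_lit 525) (nat_lit 525) (nat_lit 562) (nat_lit 3598)) (.a (.f (nat_lit 562) (nat_lit 563) (nat_lit 3599) (.f (nat_lit 591) (nat_lit 590) (nat_lit 1582) (.f (nat_lit 594) (nat_lit 595) (nat_lit 559) (.f (nat_lit 593) (nat_lit 558) (nat_lit 558) (.f (nat_lit 530) (nat_lit 531) (nat_lit 2575) (.d (nat_lit 498) (nat_lit 466) (nat_lit 5585) (nat_lit 625) (nat_lit 5617))))))) (.f (nat_lit 526) (nat_lit 525) (nat_lit 525) (.p (nat_lit 495) (.a (.d (nat_lit 463) (nat_lit 431) (nat_lit 4527) (nat_lit 592) (nat_lit 4559)) (.a (.d (nat_lit 592) (nat_lit 463) (nat_lit 4559) (nat_lit 624) (nat_lit 7663)) (.a (.f (nat_lit 463) (nat_lit 431) (nat_lit 4527) (.f (nat_lit 558) (nat_lit 590) (nat_lit 5582) (.f (nat_lit 462) (nat_lit 430) (nat_lit 7598) (.f (nat_lit 494) (nat_lit 591) (nat_lit 4558) (.f (nat_lit 464) (nat_lit 432) (nat_lit 6575) (.d (nat_lit 465) (nat_lit 466) (nat_lit 1486) (nat_lit 493) (nat_lit 1485))))))) (.f (nat_lit 592) (nat_lit 624) (nat_lit 7663) (.p (nat_lit 591) (.a (.d (nat_lit 494) (nat_lit 462) (nat_lit 7630) (nat_lit 623) (nat_lit 7662)) (.a (.d (nat_lit 623) (nat_lit 494) (nat_lit 7662) (nat_lit 655) (nat_lit 6671)) (.f (nat_lit 590) (nat_lit 589) (nat_lit 2605) (.p (nat_lit 593) (.a (.d (nat_lit 558) (nat_lit 557) (nat_lit 557) (nat_lit 594) (nat_lit 558)) (.d (nat_lit 625) (nat_lit 626) (nat_lit 590) (nat_lit 657) (nat_lit 7696))))))))))))))))) (.a (.p (nat_lit 561) (.a (.d (nat_lit 526) (nat_lit 525) (nat_lit 525) (nat_lit 562) (nat_lit 3598)) (.a (.f (nat_lit 562) (nat_lit 563) (nat_lit 3599) (.f (nat_lit 591) (nat_lit 590) (nat_lit 1582) (.f (nat_lit 594) (nat_lit 595) (nat_lit 559) (.f (nat_lit 593) (nat_lit 558) (nat_lit 558) (.f (nat_lit 530) (nat_lit 531) (nat_lit 2575) (.d (nat_lit 498) (nat_lit 466) (nat_lit 5585) (nat_lit 625) (nat_lit 5617))))))) (.f (nat_lit 526) (nat_lit 525) (nat_lit 525) (.p (nat_lit 495) (.a (.d (nat_lit 463) (nat_lit 431) (nat_lit 4527) (nat_lit 592) (nat_lit 4559)) (.a (.f (nat_lit 463) (nat_lit 592) (nat_lit 4559) (.f (nat_lit 558) (nat_lit 590) (nat_lit 5582) (.f (nat_lit 462) (nat_lit 430) (nat_lit 7598) (.f (nat_lit 494) (nat_lit 591) (nat_lit 4558) (.f (nat_lit 464) (nat_lit 432) (nat_lit 6575) (.d (nat_lit 465) (nat_lit 466) (nat_lit 1486) (nat_lit 493) (nat_lit 1485))))))) (.a (.f (nat_lit 463) (nat_lit 431) (nat_lit 4527) (.f (nat_lit 558) (nat_lit 590) (nat_lit 5582) (.f (nat_lit 462) (nat_lit 430) (nat_lit 7598) (.f (nat_lit 494) (nat_lit 591) (nat_lit 4558) (.f (nat_lit 464) (nat_lit 432) (nat_lit 6575) (.d (nat_lit 465) (nat_lit 466) (nat_lit 1486) (nat_lit 493) (nat_lit 1485))))))) (.p (nat_lit 591) (.a (.d (nat_lit 494) (nat_lit 462) (nat_lit 7630) (nat_lit 623) (nat_lit 7662)) (.a (.d (nat_lit 623) (nat_lit 494) (nat_lit 7662) (nat_lit 655) (nat_lit 6671)) (.f (nat_lit 590) (nat_lit 622) (nat_lit 5614) (.d (nat_lit 589) (nat_lit 558) (nat_lit 1581) (nat_lit 588) (nat_lit 2604)))))))))))))) (.a (.p (nat_lit 561) (.a (.d (nat_lit 526) (nat_lit 525) (nat_lit 525) (nat_lit 562) (nat_lit 3598)) (.a (.f (nat_lit 562) (nat_lit 563) (nat_lit 3599) (.f (nat_lit 594) (nat_lit 595) (nat_lit 559) (.f (nat_lit 593) (nat_lit 558) (nat_lit 558) (.f (nat_lit 625) (nat_lit 657) (nat_lit 7696) (.d (nat_lit 530) (nat_lit 498) (nat_lit 5617) (nat_lit 531) (nat_lit 2575)))))) (.f (nat_lit 526) (nat_lit 525) (nat_lit 525) (.p (nat_lit 495) (.a (.d (nat_lit 463) (nat_lit 431) (nat_lit 4527) (nat_lit 592) (nat_lit 4559)) (.a (.d (nat_lit 592) (nat_lit 463) (nat_lit 4559) (nat_lit 624) (nat_lit 7663)) (.a (.f (nat_lit 463) (nat_lit 431) (nat_lit 4527) (.f (nat_lit 558) (nat_lit 590) (nat_lit 5582) (.f (nat_lit 462) (nat_lit 430) (nat_lit 7598) (.p (nat_lit 461) (.a (.f (nat_lit 494) (nat_lit 429) (nat_lit 7597) (.f (nat_lit 460) (nat_lit 459) (nat_lit 459) (.d (nat_lit 492) (nat_lit 491) (nat_lit 1483) (nat_lit 493) (nat_lit 492)))) (.a (.f (nat_lit 429) (nat_lit 494) (nat_lit 7597) (.d (nat_lit 464) (nat_lit 428) (nat_lit 3500) (nat_lit 432) (nat_lit 6575))) (.a (.p (nat_lit 460) (.a (.f (nat_lit 427) (nat_lit 428) (nat_lit 3499) (.d (nat_lit 459) (nat_lit 426) (nat_lit 3498) (nat_lit 494) (nat_lit 459))) (.a (.p (nat_lit 459) (.a (.d (nat_lit 491) (nat_lit 490) (nat_lit 1482) (nat_lit 492) (nat_lit 1483)) (.d (nat_lit 427) (nat_lit 426) (nat_lit 3498) (nat_lit 428) (nat_lit 3499)))) (.a (.f (nat_lit 459) (nat_lit 494) (nat_lit 459) (.d (nat_lit 491) (nat_lit 490) (nat_lit 1482) (nat_lit 492) (nat_lit 1483))) (.f (nat_lit 464) (nat_lit 432) (nat_lit 6575) (.d (nat_lit 492) (nat_lit 491) (nat_lit 1483) (nat_lit 493) (nat_lit 1484))))))) (.f (nat_lit 464) (nat_lit 432) (nat_lit 6575) (.p (nat_lit 460) (.a (.d (nat_lit 492) (nat_lit 491) (nat_lit 1483) (nat_lit 493) (nat_lit 1484)) (.d (nat_lit 428) (nat_lit 427) (nat_lit 3499) (nat_lit 429) (nat_lit 3500)))))))))))) (.f (nat_lit 592) (nat_lit 624) (nat_lit 7663) (.p (nat_lit 558) (.a (.d (nat_lit 593) (nat_lit 557) (nat_lit 557) (nat_lit 594) (nat_lit 558)) (.d (nat_lit 590) (nat_lit 589) (nat_lit 1581) (nat_lit 622) (nat_lit 6638))))))))))))) (.a (.p (nat_lit 495) (.a (.d (nat_lit 463) (nat_lit 431) (nat_lit 4527) (nat_lit 592) (nat_lit 4559)) (.a (.d (nat_lit 592) (nat_lit 463) (nat_lit 4559) (nat_lit 624) (nat_lit 7663)) (.a (.f (nat_lit 463) (nat_lit 431) (nat_lit 4527) (.f (nat_lit 462) (nat_lit 430) (nat_lit 7598) (.f (nat_lit 494) (nat_lit 591) (nat_lit 7630) (.f (nat_lit 493) (nat_lit 492) (nat_lit 492) (.d (nat_lit 464) (nat_lit 432) (nat_lit 6575) (nat_lit 465) (nat_lit 1485)))))) (.f (nat_lit 624) (nat_lit 592) (nat_lit 7663) (.p (nat_lit 561) (.a (.d (nat_lit 526) (nat_lit 525) (nat_lit 525) (nat_lit 562) (nat_lit 3598)) (.a (.f (nat_lit 562) (nat_lit 563) (nat_lit 3599) (.f (nat_lit 594) (nat_lit 595) (nat_lit 559) (.f (nat_lit 593) (nat_lit 558) (nat_lit 558) (.f (nat_lit 625) (nat_lit 657) (nat_lit 7696) (.d (nat_lit 530) (nat_lit 498) (nat_lit 5617) (nat_lit 531) (nat_lit 2575)))))) (.f (nat_lit 526) (nat_lit 525) (nat_lit 525) s50586))))))))) (.a s50054 (.a (.p (nat_lit 495) (.a (.d (nat_lit 463) (nat_lit 431) (nat_lit 4527) (nat_lit 592) (nat_lit 4559)) (.a (.d (nat_lit 592) (nat_lit 463) (nat_lit 4559) (nat_lit 624) (nat_lit 7663)) (.a (.f (nat_lit 463) (nat_lit 431) (nat_lit 4527) (.f (nat_lit 590) (nat_lit 558) (nat_lit 5582) (.f (nat_lit 591) (nat_lit 622) (nat_lit 5614) (.d (nat_lit 462) (nat_lit 430) (nat_lit 7598) (nat_lit 494) (nat_lit 7630))))) (.f (nat_lit 592) (nat_lit 624) (nat_lit 7663) (.p (nat_lit 591) (.a (.f (nat_lit 590) (nat_lit 622) (nat_lit 5614) (.d (nat_lit 561) (nat_lit 562) (nat_lit 1582) (nat_lit 589) (nat_lit 2605))) (.f (nat_lit 623) (nat_lit 655) (nat_lit 6671) (.d (nat_lit 494) (nat_lit 462) (nat_lit 7630) (nat_lit 526) (nat_lit 7662)))))))))) (.a (.p (nat_lit 561) (.a (.d (nat_lit 526) (nat_lit 525) (nat_lit 525) (nat_lit 562) (nat_lit 3598)) (.a (.f (nat_lit 562) (nat_lit 563) (nat_lit 3599) (.f (nat_lit 591) (nat_lit 590) (nat_lit 1582) (.f (nat_lit 623) (nat_lit 655) (nat_lit 6671) (.f (nat_lit 624) (nat_lit 656) (nat_lit 4623) (.f (nat_lit 592) (nat_lit 495) (nat_lit 7663) (.p (nat_lit 593) (.a (.d (nat_lit 558) (nat_lit 557) (nat_lit 557) (nat_lit 594) (nat_lit 558)) (.d (nat_lit 622) (nat_lit 621) (nat_lit 2637) (nat_lit 654) (nat_lit 5646))))))))) (.f (nat_lit 526) (nat_lit 525) (nat_lit 525) (.p (nat_lit 592) (.a (.d (nat_lit 495) (nat_lit 463) (nat_lit 4559) (nat_lit 624) (nat_lit 7663)) (.a (.f (nat_lit 495) (nat_lit 463) (nat_lit 4559) (.p (nat_lit 591) (.a (.d (nat_lit 590) (nat_lit 589) (nat_lit 2605) (nat_lit 622) (nat_lit 5614)) (.d (nat_lit 494) (nat_lit 462) (nat_lit 7630) (nat_lit 623) (nat_lit 7662))))) (.a (.d (nat_lit 624) (nat_lit 495) (nat_lit 7663) (nat_lit 656) (nat_lit 7695)) (.f (nat_lit 624) (nat_lit 656) (nat_lit 7695) (.f (nat_lit 623) (nat_lit 655) (nat_lit 5647) (.f (nat_lit 591) (nat_lit 494) (nat_lit 7662) (.p (nat_lit 593) (.a (.d (nat_lit 558) (nat_lit 557) (nat_lit 557) (nat_lit 594) (nat_lit 558)) (.d (nat_lit 622) (nat_lit 621) (nat_lit 2637) (nat_lit 654) (nat_lit 5646))))))))))))))) (.a (.p (nat_lit 561) (.a (.d (nat_lit 526) (nat_lit 525) (nat_lit 525) (nat_lit 562) (nat_lit 3598)) (.a (.f (nat_lit 562) (nat_lit 563) (nat_lit 3599) (.f (nat_lit 591) (nat_lit 590) (nat_lit 1582) (.f (nat_lit 623) (nat_lit 655) (nat_lit 6671) (.f (nat_lit 624) (nat_lit 656) (nat_lit 4623) (.f (nat_lit 592) (nat_lit 495) (nat_lit 7663) (.p (nat_lit 593) (.a (.d (nat_lit 558) (nat_lit 557) (nat_lit 557) (nat_lit 594) (nat_lit 558)) (.d (nat_lit 622) (nat_lit 621) (nat_lit 2637) (nat_lit 654) (nat_lit 5646))))))))) (.f (nat_lit 525) (nat_lit 526) (nat_lit 525) (.p (nat_lit 592) (.a (.d (nat_lit 495) (nat_lit 463) (nat_lit 4559) (nat_lit 624) (nat_lit 7663)) (.a (.f (nat_lit 495) (nat_lit 463) (nat_lit 4559) (.p (nat_lit 593) (.a (.d (nat_lit 558) (nat_lit 557) (nat_lit 557) (nat_lit 594) (nat_lit 558)) (.a (.f (nat_lit 558) (nat_lit 557) (nat_lit 557) (.f (nat_lit 590) (nat_lit 589) (nat_lit 1581) (.d (nat_lit 622) (nat_lit 591) (nat_lit 5614) (nat_lit 654) (nat_lit 6670)))) (.f (nat_lit 594) (nat_lit 595) (nat_lit 3631) (.p (nat_lit 591) (.a (.d (nat_lit 590) (nat_lit 589) (nat_lit 2605) (nat_lit 622) (nat_lit 5614)) (.a (.f (nat_lit 626) (nat_lit 627) (nat_lit 591) (.d (nat_lit 590) (nat_lit 589) (nat_lit 2605) (nat_lit 625) (nat_lit 590))) (.d (nat_lit 623) (nat_lit 622) (nat_lit 1614) (nat_lit 655) (nat_lit 6671)))))))))) (.a (.d (nat_lit 624) (nat_lit 495) (nat_lit 7663) (nat_lit 656) (nat_lit 7695)) (.f (nat_lit 624) (nat_lit 656) (nat_lit 7695) (.f (nat_lit 623) (nat_lit 655) (nat_lit 5647) (.f (nat_lit 625) (nat_lit 657) (nat_lit 4624) (.p (nat_lit 593) (.a (.d (nat_lit 558) (nat_lit 557) (nat_lit 557) (nat_lit 594) (nat_lit 558)) (.a (.p (nat_lit 590) (.a (.d (nat_lit 558) (nat_lit 557) (nat_lit 557) (nat_lit 589) (nat_lit 1581)) (.a (.d (nat_lit 591) (nat_lit 589) (nat_lit 589) (nat_lit 626) (nat_lit 590)) (.f (nat_lit 558) (nat_lit 557) (nat_lit 557) (.d (nat_lit 622) (nat_lit 621) (nat_lit 2637) (nat_lit 654) (nat_lit 6670)))))) (.d (nat_lit 594) (nat_lit 595) (nat_lit 1615) (nat_lit 622) (nat_lit 2638)))))))))))))))) (.a (.p (nat_lit 495) (.a (.d (nat_lit 463) (nat_lit 431) (nat_lit 4527) (nat_lit 592) (nat_lit 4559)) (.a (.d (nat_lit 592) (nat_lit 463) (nat_lit 4559) (nat_lit 624) (nat_lit 7663)) (.a (.f (nat_lit 463) (nat_lit 431) (nat_lit 4527) (.f (nat_lit 590) (nat_lit 558) (nat_lit 5582) (.f (nat_lit 591) (nat_lit 622) (nat_lit 5614) (.d (nat_lit 462) (nat_lit 430) (nat_lit 7598) (nat_lit 494) (nat_lit 7630))))) (.f (nat_lit 592) (nat_lit 624) (nat_lit 7663) (.p (nat_lit 590) (.a (.f (nat_lit 591) (nat_lit 622) (nat_lit 5614) (.d (nat_lit 561) (nat_lit 562) (nat_lit 1582) (nat_lit 589) (nat_lit 2605))) (.a (.p (nat_lit 561) (.a (.d (nat_lit 562) (nat_lit 563) (nat_lit 3599) (nat_lit 591) (nat_lit 1582)) (.a (.f (nat_lit 562) (nat_lit 563) (nat_lit 3599) (.f (nat_lit 558) (nat_lit 589) (nat_lit 1581) (.d (nat_lit 594) (nat_lit 593) (nat_lit 558) (nat_lit 595) (nat_lit 559)))) (.d (nat_lit 589) (nat_lit 558) (nat_lit 1581) (nat_lit 591) (nat_lit 2605))))) (.a (.p (nat_lit 558) (.a (.f (nat_lit 557) (nat_lit 593) (nat_lit 557) (.d (nat_lit 589) (nat_lit 561) (nat_lit 1581) (nat_lit 588) (nat_lit 1580))) (.a (.f (nat_lit 593) (nat_lit 557) (nat_lit 557) (.d (nat_lit 594) (nat_lit 561) (nat_lit 558) (nat_lit 595) (nat_lit 3631))) (.a (.f (nat_lit 561) (nat_lit 589) (nat_lit 1581) (.f (nat_lit 562) (nat_lit 563) (nat_lit 3599) (.d (nat_lit 594) (nat_lit 593) (nat_lit 558) (nat_lit 595) (nat_lit 559)))) (.a (.f (nat_lit 589) (nat_lit 561) (nat_lit 1581) (.d (nat_lit 588) (nat_lit 557) (nat_lit 1580) (nat_lit 587) (nat_lit 2603))) (.f (nat_lit 557) (nat_lit 593) (nat_lit 557) (.f (nat_lit 525) (nat_lit 524) (nat_lit 3596) (.f (nat_lit 589) (nat_lit 588) (nat_lit 1580) (.d (nat_lit 493) (nat_lit 461) (nat_lit 4557) (nat_lit 622) (nat_lit 4589)))))))))) (.a (.f (nat_lit 591) (nat_lit 622) (nat_lit 5614) (.f (nat_lit 561) (nat_lit 562) (nat_lit 1582) (.p (nat_lit 593) (.a (.d (nat_lit 558) (nat_lit 557) (nat_lit 557) (nat_lit 594) (nat_lit 558)) (.d (nat_lit 625) (nat_lit 626) (nat_lit 590) (nat_lit 657) (nat_lit 7696)))))) (.a (.f (nat_lit 591) (nat_lit 622) (nat_lit 5614) (.d (nat_lit 589) (nat_lit 561) (nat_lit 2605) (nat_lit 588) (nat_lit 2604))) (.f (nat_lit 622) (nat_lit 591) (nat_lit 5614) (.f (nat_lit 558) (nat_lit 654) (nat_lit 6670) (.f (nat_lit 557) (nat_lit 593) (nat_lit 557) (.f (nat_lit 589) (nat_lit 588) (nat_lit 1580) (.d (nat_lit 525) (nat_lit 493) (nat_lit 4589) (nat_lit 524) (nat_lit 3596))))))))))))))))) (.a s50678 (.a (.p (nat_lit 561) (.a (.d (nat_lit 526) (nat_lit 525) (nat_lit 525) (nat_lit 562) (nat_lit 3598)) (.a (.f (nat_lit 562) (nat_lit 563) (nat_lit 3599) (.f (nat_lit 591) (nat_lit 590) (nat_lit 1582) (.f (nat_lit 623) (nat_lit 655) (nat_lit 6671) (.f (nat_lit 624) (nat_lit 656) (nat_lit 4623) (.f (nat_lit 592) (nat_lit 495) (nat_lit 7663) (.p (nat_lit 593) (.a (.d (nat_lit 558) (nat_lit 557) (nat_lit 557) (nat_lit 594) (nat_lit 558)) (.d (nat_lit 622) (nat_lit 621) (nat_lit 2637) (nat_lit 654) (nat_lit 5646))))))))) (.f (nat_lit 526) (nat_lit 525) (nat_lit 525) (.p (nat_lit 591) (.a (.d (nat_lit 623) (nat_lit 494) (nat_lit 7662) (nat_lit 655) (nat_lit 6671)) (.a (.f (nat_lit 494) (nat_lit 623) (nat_lit 7662) (.d (nat_lit 462) (nat_lit 430) (nat_lit 4526) (nat_lit 558) (nat_lit 4558))) (.a (.f (nat_lit 623) (nat_lit 655) (nat_lit 6671) (.f (nat_lit 624) (nat_lit 656) (nat_lit 4623) (.f (nat_lit 592) (nat_lit 495) (nat_lit 7663) (.p (nat_lit 593) (.a (.d (nat_lit 558) (nat_lit 557) (nat_lit 557) (nat_lit 594) (nat_lit 558)) (.d (nat_lit 622) (nat_lit 621) (nat_lit 2637) (nat_lit 654) (nat_lit 5646))))))) (.p (nat_lit 592) (.a (.d (nat_lit 624) (nat_lit 495) (nat_lit 7663) (nat_lit 656) (nat_lit 7695)) (.f (nat_lit 590) (nat_lit 589) (nat_lit 2605) (.p (nat_lit 593) (.a (.d (nat_lit 558) (nat_lit 557) (nat_lit 557) (nat_lit 594) (nat_lit 558)) (.d (nat_lit 625) (nat_lit 626) (nat_lit 590) (nat_lit 657) (nat_lit 7696))))))))))))))) (.a s50694 (.a (.p (nat_lit 561) (.a (.d (nat_lit 526) (nat_lit 525) (nat_lit 525) (nat_lit 562) (nat_lit 3598)) (.a (.f (nat_lit 562) (nat_lit 563) (nat_lit 3599) (.f (nat_lit 591) (nat_lit 590) (nat_lit 1582) (.f (nat_lit 623) (nat_lit 655) (nat_lit 6671) (.f (nat_lit 594) (nat_lit 595) (nat_lit 559) (.f (nat_lit 593) (nat_lit 558) (nat_lit 558) (.d (nat_lit 622) (nat_lit 592) (nat_lit 1614) (nat_lit 654) (nat_lit 5646))))))) (.f (nat_lit 526) (nat_lit 525) (nat_lit 525) (.p (nat_lit 558) (.a (.f (nat_lit 590) (nat_lit 589) (nat_lit 1581) (.f (nat_lit 622) (nat_lit 654) (nat_lit 6670) (.f (nat_lit 623) (nat_lit 655) (nat_lit 4622) (.f (nat_lit 591) (nat_lit 494) (nat_lit 7662) (.p (nat_lit 592) (.a (.d (nat_lit 593) (nat_lit 557) (nat_lit 3629) (nat_lit 621) (nat_lit 1613)) (.a (.d (nat_lit 593) (nat_lit 557) (nat_lit 557) (nat_lit 594) (nat_lit 558)) (.a (.d (nat_lit 593) (nat_lit 594) (nat_lit 3630) (nat_lit 621) (nat_lit 1613)) (.d (nat_lit 621) (nat_lit 620) (nat_lit 2636) (nat_lit 653) (nat_lit 5645)))))))))) (.a (.f (nat_lit 593) (nat_lit 594) (nat_lit 558) (.f (nat_lit 592) (nat_lit 557) (nat_lit 557) (.f (nat_lit 624) (nat_lit 656) (nat_lit 7695) (.p (nat_lit 591) (.a (.d (nat_lit 494) (nat_lit 462) (nat_lit 4558) (nat_lit 623) (nat_lit 7662)) (.a (.d (nat_lit 623) (nat_lit 494) (nat_lit 7662) (nat_lit 655) (nat_lit 6671)) (.f (nat_lit 625) (nat_lit 657) (nat_lit 4624) (.d (nat_lit 590) (nat_lit 589) (nat_lit 2605) (nat_lit 626) (nat_lit 590))))))))) (.a (.f (nat_lit 590) (nat_lit 589) (nat_lit 1581) (.f (nat_lit 622) (nat_lit 654) (nat_lit 6670) (.f (nat_lit 623) (nat_lit 655) (nat_lit 4622) (.f (nat_lit 591) (nat_lit 494) (nat_lit 7662) (.p (nat_lit 592) (.a (.d (nat_lit 593) (nat_lit 557) (nat_lit 3629) (nat_lit 621) (nat_lit 1613)) (.a (.f (nat_lit 593) (nat_lit 557) (nat_lit 557) (.d (nat_lit 625) (nat_lit 626) (nat_lit 590) (nat_lit 657) (nat_lit 7696))) (.a (.d (nat_lit 621) (nat_lit 593) (nat_lit 1613) (nat_lit 653) (nat_lit 5645)) (.d (nat_lit 621) (nat_lit 620) (nat_lit 2636) (nat_lit 653) (nat_lit 5645)))))))))) (.a (.f (nat_lit 593) (nat_lit 594) (nat_lit 558) (.f (nat_lit 590) (nat_lit 589) (nat_lit 1581) (.f (nat_lit 622) (nat_lit 654) (nat_lit 6670) (.f (nat_lit 592) (nat_lit 557) (nat_lit 557) (.f (nat_lit 624) (nat_lit 656) (nat_lit 7695) (.d (nat_lit 621) (nat_lit 623) (nat_lit 2637) (nat_lit 653) (nat_lit 5645))))))) (.a (.f (nat_lit 593) (nat_lit 594) (nat_lit 558) (.f (nat_lit 592) (nat_lit 557) (nat_lit 557) (.f (nat_lit 624) (nat_lit 656) (nat_lit 7695) (.f (nat_lit 623) (nat_lit 655) (nat_lit 5647) (.f (nat_lit 591) (nat_lit 494) (nat_lit 7662) (.d (nat_lit 622) (nat_lit 621) (nat_lit 2637) (nat_lit 654) (nat_lit 5646))))))) (.a (.f (nat_lit 590) (nat_lit 589) (nat_lit 1581) (.f (nat_lit 622) (nat_lit 654) (nat_lit 6670) (.f (nat_lit 623) (nat_lit 655) (nat_lit 4622) (.f (nat_lit 494) (nat_lit 591) (nat_lit 7662) (.f (nat_lit 461) (nat_lit 493) (nat_lit 7629) (.d (nat_lit 462) (nat_lit 429) (nat_lit 7597) (nat_lit 430) (nat_lit 4526))))))) (.f (nat_lit 593) (nat_lit 594) (nat_lit 558) (.f (nat_lit 590) (nat_lit 589) (nat_lit 1581) (.f (nat_lit 592) (nat_lit 557) (nat_lit 557) (.f (nat_lit 625) (nat_lit 657) (nat_lit 7696) (.f (nat_lit 591) (nat_lit 626) (nat_lit 590) (.d (nat_lit 622) (nat_lit 621) (nat_lit 1613) (nat_lit 654) (nat_lit 6670)))))))))))))))))) (.p (nat_lit 495) (.a (.d (nat_lit 463) (nat_lit 431) (nat_lit 4527) (nat_lit 592) (nat_lit 4559)) (.a (.d (nat_lit 592) (nat_lit 463) (nat_lit 4559) (nat_lit 624) (nat_lit 7663)) (.a (.f (nat_lit 463) (nat_lit 431) (nat_lit 4527) (.f (nat_lit 462) (nat_lit 430) (nat_lit 7598) (.f (nat_lit 494) (nat_lit 591) (nat_lit 7630) (.f (nat_lit 493) (nat_lit 492) (nat_lit 492) (.d (nat_lit 464) (nat_lit 432) (nat_lit 6575) (nat_lit 465) (nat_lit 1485)))))) (.f (nat_lit 592) (nat_lit 624) (nat_lit 7663) (.p (nat_lit 591) (.a (.f (nat_lit 623) (nat_lit 655) (nat_lit 6671) (.d (nat_lit 622) (nat_lit 590) (nat_lit 5614) (nat_lit 654) (nat_lit 5646))) (.a (.f (nat_lit 623) (nat_lit 655) (nat_lit 6671) (.d (nat_lit 494) (nat_lit 462) (nat_lit 7630) (nat_lit 526) (nat_lit 7662))) (.a (.f (nat_lit 494) (nat_lit 462) (nat_lit 7630) (.f (nat_lit 590) (nat_lit 622) (nat_lit 5614) (.f (nat_lit 526) (nat_lit 623) (nat_lit 7662) (.p (nat_lit 558) (.a (.d (nat_lit 593) (nat_lit 557) (nat_lit 557) (nat_lit 594) (nat_lit 3630)) (.d (nat_lit 589) (nat_lit 588) (nat_lit 2604) (nat_lit 621) (nat_lit 5613))))))) (.f (nat_lit 590) (nat_lit 622) (nat_lit 5614) (.f (nat_lit 494) (nat_lit 462) (nat_lit 7630) (.f (nat_lit 589) (nat_lit 588) (nat_lit 2604) (.p (nat_lit 558) (.a (.d (nat_lit 593) (nat_lit 557) (nat_lit 557) (nat_lit 594) (nat_lit 3630)) (.d (nat_lit 621) (nat_lit 526) (nat_lit 5613) (nat_lit 620) (nat_lit 1612)))))))))))))))))))))))))))))))) (.a (.p (nat_lit 527) (.a s50758 (.a s50221 (.a (.p (nat_lit 495) (.a (.d (nat_lit 463) (nat_lit 431) (nat_lit 4527) (nat_lit 592) (nat_lit 4559)) (.a (.d (nat_lit 592) (nat_lit 463) (nat_lit 4559) (nat_lit 624) (nat_lit 7663)) (.a (.f (nat_lit 463) (nat_lit 431) (nat_lit 4527) (.f (nat_lit 558) (nat_lit 590) (nat_lit 5582) (.f (nat_lit 557) (nat_lit 556) (nat_lit 2572) (.f (nat_lit 525) (nat_lit 524) (nat_lit 3596) (.f (nat_lit 526) (nat_lit 561) (nat_lit 525) (.p (nat_lit 494) (.a (.d (nat_lit 589) (nat_lit 588) (nat_lit 1580) (nat_lit 621) (nat_lit 6637)) (.d (nat_lit 462) (nat_lit 430) (nat_lit 4526) (nat_lit 591) (nat_lit 4558))))))))) (.f (nat_lit 592) (nat_lit 624) (nat_lit 7663) (.p (nat_lit 561) (.a (.d (nat_lit 526) (nat_lit 525) (nat_lit 525) (nat_lit 562) (nat_lit 3598)) (.a (.f (nat_lit 562) (nat_lit 563) (nat_lit 3599) (.f (nat_lit 590) (nat_lit 591) (nat_lit 1582) (.f (nat_lit 558) (nat_lit 589) (nat_lit 1581) (.d (nat_lit 557) (nat_lit 556) (nat_lit 2572) (nat_lit 593) (nat_lit 557))))) (.f (nat_lit 526) (nat_lit 525) (nat_lit 525) s50436))))))))) (.a s50000 (.a (.p (nat_lit 526) (.a (.d (nat_lit 525) (nat_lit 524) (nat_lit 524) (nat_lit 561) (nat_lit 525)) (.a (.f (nat_lit 561) (nat_lit 562) (nat_lit 3598) (.p (nat_lit 495) (.a (.d (nat_lit 463) (nat_lit 431) (nat_lit 4527) (nat_lit 592) (nat_lit 4559)) (.a (.f (nat_lit 463) (nat_lit 592) (nat_lit 4559) (.f (nat_lit 558) (nat_lit 590) (nat_lit 5582) (.f (nat_lit 462) (nat_lit 430) (nat_lit 7598) (.f (nat_lit 494) (nat_lit 591) (nat_lit 4558) (.d (nat_lit 557) (nat_lit 556) (nat_lit 2572) (nat_lit 589) (nat_lit 5581)))))) (.a (.f (nat_lit 463) (nat_lit 431) (nat_lit 4527) (.f (nat_lit 558) (nat_lit 590) (nat_lit 5582) (.f (nat_lit 462) (nat_lit 430) (nat_lit 7598) (.f (nat_lit 494) (nat_lit 591) (nat_lit 4558) (.d (nat_lit 557) (nat_lit 556) (nat_lit 2572) (nat_lit 589) (nat_lit 5581)))))) (.p (nat_lit 591) (.a (.d (nat_lit 494) (nat_lit 462) (nat_lit 7630) (nat_lit 623) (nat_lit 7662)) (.a (.d (nat_lit 623) (nat_lit 494) (nat_lit 7662) (nat_lit 655) (nat_lit 6671)) (.f (nat_lit 590) (nat_lit 622) (nat_lit 5614) (.d (nat_lit 589) (nat_lit 558) (nat_lit 1581) (nat_lit 588) (nat_lit 2604))))))))))) (.f (nat_lit 525) (nat_lit 524) (nat_lit 524) (.f (nat_lit 557) (nat_lit 556) (nat_lit 1548) (.f (nat_lit 493) (nat_lit 492) (nat_lit 3564) (.p (nat_lit 558) (.a (.d (nat_lit 461) (nat_lit 429) (nat_lit 4525) (nat_lit 590) (nat_lit 4557)) (.f (nat_lit 589) (nat_lit 588) (nat_lit 1580) (.d (nat_lit 494) (nat_lit 462) (nat_lit 5581) (nat_lit 621) (nat_lit 6637))))))))))) (.a (.p (nat_lit 526) (.a (.d (nat_lit 525) (nat_lit 524) (nat_lit 524) (nat_lit 561) (nat_lit 525)) (.a (.f (nat_lit 561) (nat_lit 562) (nat_lit 3598) (.p (nat_lit 495) (.a (.d (nat_lit 463) (nat_lit 431) (nat_lit 4527) (nat_lit 592) (nat_lit 4559)) (.a (.d (nat_lit 592) (nat_lit 463) (nat_lit 4559) (nat_lit 624) (nat_lit 7663)) (.a (.f (nat_lit 463) (nat_lit 431) (nat_lit 4527) (.f (nat_lit 558) (nat_lit 590) (nat_lit 5582) (.f (nat_lit 557) (nat_lit 556) (nat_lit 2572) (.f (nat_lit 462) (nat_lit 430) (nat_lit 7598) (.d (nat_lit 589) (nat_lit 494) (nat_lit 5581) (nat_lit 588) (nat_lit 1580)))))) (.f (nat_lit 592) (nat_lit 624) (nat_lit 7663) (.p (nat_lit 558) (.a (.d (nat_lit 557) (nat_lit 556) (nat_lit 2572) (nat_lit 593) (nat_lit 557)) (.d (nat_lit 590) (nat_lit 589) (nat_lit 1581) (nat_lit 622) (nat_lit 6638)))))))))) (.f (nat_lit 525) (nat_lit 524) (nat_lit 524) (.f (nat_lit 557) (nat_lit 556) (nat_lit 1548) (.f (nat_lit 493) (nat_lit 492) (nat_lit 3564) (.p (nat_lit 558) (.a (.d (nat_lit 461) (nat_lit 429) (nat_lit 4525) (nat_lit 590) (nat_lit 4557)) (.f (nat_lit 589) (nat_lit 588) (nat_lit 1580) (.d (nat_lit 494) (nat_lit 462) (nat_lit 5581) (nat_lit 621) (nat_lit 6637))))))))))) (.a s50053 (.a (.p (nat_lit 495) (.a (.d (nat_lit 463) (nat_lit 431) (nat_lit 4527) (nat_lit 592) (nat_lit 4559)) (.a (.d (nat_lit 592) (nat_lit 463) (nat_lit 4559) (nat_lit 624) (nat_lit 7663)) (.a (.f (nat_lit 463) (nat_lit 431) (nat_lit 4527) (.f (nat_lit 462) (nat_lit 430) (nat_lit 7598) (.f (nat_lit 591) (nat_lit 494) (nat_lit 7630) (.f (nat_lit 623) (nat_lit 655) (nat_lit 6671) (.d (nat_lit 622) (nat_lit 590) (nat_lit 5614) (nat_lit 654) (nat_lit 5646)))))) (.p (nat_lit 591) (.a (.f (nat_lit 624) (nat_lit 592) (nat_lit 7663) (.d (nat_lit 623) (nat_lit 655) (nat_lit 6671) (nat_lit 656) (nat_lit 4623))) (.a (.f (nat_lit 590) (nat_lit 622) (nat_lit 5614) (.f (nat_lit 561) (nat_lit 562) (nat_lit 1582) (.d (nat_lit 589) (nat_lit 588) (nat_lit 2604) (nat_lit 592) (nat_lit 2605)))) (.f (nat_lit 623) (nat_lit 655) (nat_lit 6671) (.d (nat_lit 622) (nat_lit 590) (nat_lit 5614) (nat_lit 654) (nat_lit 5646)))))))))) (.a (.p (nat_lit 526) (.a (.d (nat_lit 525) (nat_lit 524) (nat_lit 524) (nat_lit 561) (nat_lit 525)) (.a (.f (nat_lit 561) (nat_lit 562) (nat_lit 3598) (.p (nat_lit 558) (.a (.f (nat_lit 590) (nat_lit 589) (nat_lit 1581) (.d (nat_lit 495) (nat_lit 463) (nat_lit 5582) (nat_lit 622) (nat_lit 6638))) (.a (.f (nat_lit 557) (nat_lit 556) (nat_lit 2572) (.d (nat_lit 589) (nat_lit 588) (nat_lit 1580) (nat_lit 590) (nat_lit 1581))) (.f (nat_lit 557) (nat_lit 556) (nat_lit 2572) (.f (nat_lit 592) (nat_lit 593) (nat_lit 557) (.d (nat_lit 495) (nat_lit 463) (nat_lit 4559) (nat_lit 624) (nat_lit 7663)))))))) (.f (nat_lit 525) (nat_lit 524) (nat_lit 524) (.f (nat_lit 557) (nat_lit 556) (nat_lit 1548) (.f (nat_lit 493) (nat_lit 492) (nat_lit 3564) (.p (nat_lit 558) (.a (.d (nat_lit 461) (nat_lit 429) (nat_lit 4525) (nat_lit 590) (nat_lit 4557)) (.f (nat_lit 589) (nat_lit 588) (nat_lit 1580) (.d (nat_lit 494) (nat_lit 462) (nat_lit 5581) (nat_lit 621) (nat_lit 6637))))))))))) (.a (.p (nat_lit 495) (.a (.d (nat_lit 463) (nat_lit 431) (nat_lit 4527) (nat_lit 592) (nat_lit 4559)) (.a (.d (nat_lit 592) (nat_lit 463) (nat_lit 4559) (nat_lit 624) (nat_lit 7663)) (.a (.f (nat_lit 463) (nat_lit 431) (nat_lit 4527) (.p (nat_lit 561) (.a (.d (nat_lit 526) (nat_lit 525) (nat_lit 525) (nat_lit 562) (nat_lit 3598)) (.a (.f (nat_lit 590) (nat_lit 558) (nat_lit 5582) (.d (nat_lit 562) (nat_lit 563) (nat_lit 3599) (nat_lit 591) (nat_lit 1582))) (.f (nat_lit 558) (nat_lit 590) (nat_lit 5582) (.f (nat_lit 525) (nat_lit 526) (nat_lit 525) (.d (nat_lit 557) (nat_lit 524) (nat_lit 3596) (nat_lit 556) (nat_lit 2572)))))))) (.f (nat_lit 592) (nat_lit 624) (nat_lit 7663) (.p (nat_lit 561) (.a (.d (nat_lit 526) (nat_lit 525) (nat_lit 525) (nat_lit 562) (nat_lit 3598)) (.a (.f (nat_lit 562) (nat_lit 563) (nat_lit 3599) (.f (nat_lit 590) (nat_lit 591) (nat_lit 1582) (.f (nat_lit 558) (nat_lit 589) (nat_lit 1581) (.d (nat_lit 557) (nat_lit 556) (nat_lit 2572) (nat_lit 593) (nat_lit 557))))) (.f (nat_lit 526) (nat_lit 525) (nat_lit 525) (.p (nat_lit 558) (.a (.d (nat_lit 557) (nat_lit 556) (nat_lit 2572) (nat_lit 593) (nat_lit 557)) (.d (nat_lit 590) (nat_lit 589) (nat_lit 1581) (nat_lit 622) (nat_lit 6638))))))))))))) (.a (.p (nat_lit 495) (.a (.d (nat_lit 463) (nat_lit 431) (nat_lit 4527) (nat_lit 592) (nat_lit 4559)) (.a (.d (nat_lit 592) (nat_lit 463) (nat_lit 4559) (nat_lit 624) (nat_lit 7663)) (.a (.f (nat_lit 463) (nat_lit 431) (nat_lit 4527) (.f (nat_lit 558) (nat_lit 590) (nat_lit 5582) (.f (nat_lit 462) (nat_lit 430) (nat_lit 7598) (.f (nat_lit 494) (nat_lit 591) (nat_lit 7630) (.f (nat_lit 464) (nat_lit 432) (nat_lit 6575) (.d (nat_lit 465) (nat_lit 466) (nat_lit 1486) (nat_lit 493) (nat_lit 1485))))))) (.f (nat_lit 592) (nat_lit 624) (nat_lit 7663) (.p (nat_lit 591) (.a (.f (nat_lit 623) (nat_lit 655) (nat_lit 6671) (.d (nat_lit 622) (nat_lit 590) (nat_lit 5614) (nat_lit 654) (nat_lit 5646))) (.a (.f (nat_lit 623) (nat_lit 655) (nat_lit 6671) (.d (nat_lit 494) (nat_lit 462) (nat_lit 7630) (nat_lit 526) (nat_lit 7662))) (.a (.f (nat_lit 494) (nat_lit 462) (nat_lit 7630) (.f (nat_lit 526) (nat_lit 623) (nat_lit 7662) (.d (nat_lit 525) (nat_lit 524) (nat_lit 524) (nat_lit 561) (nat_lit 525)))) (.f (nat_lit 590) (nat_lit 622) (nat_lit 5614) (.f (nat_lit 561) (nat_lit 562) (nat_lit 1582) (.f (nat_lit 526) (nat_lit 525) (nat_lit 525) (.p (nat_lit 558) (.a (.d (nat_lit 557) (nat_lit 556) (nat_lit 2572) (nat_lit 593) (nat_lit 557)) (.f (nat_lit 494) (nat_lit 462) (nat_lit 4558) (.d (nat_lit 493) (nat_lit 461) (nat_lit 7629) (nat_lit 492) (nat_lit 492))))))))))))))))) (.a s50120 (.a (.p (nat_lit 526) (.a (.d (nat_lit 525) (nat_lit 524) (nat_lit 524) (nat_lit 561) (nat_lit 525)) (.a (.f (nat_lit 561) (nat_lit 562) (nat_lit 3598) (.p (nat_lit 591) (.a (.d (nat_lit 623) (nat_lit 494) (nat_lit 7662) (nat_lit 655) (nat_lit 6671)) (.a (.f (nat_lit 494) (nat_lit 623) (nat_lit 7662) (.d (nat_lit 462) (nat_lit 430) (nat_lit 4526) (nat_lit 558) (nat_lit 4558))) (.a (.f (nat_lit 623) (nat_lit 655) (nat_lit 6671) (.f (nat_lit 624) (nat_lit 656) (nat_lit 4623) (.f (nat_lit 592) (nat_lit 495) (nat_lit 7663) (.f (nat_lit 590) (nat_lit 589) (nat_lit 2605) (.d (nat_lit 625) (nat_lit 626) (nat_lit 3662) (nat_lit 657) (nat_lit 4624)))))) (.p (nat_lit 592) (.a (.d (nat_lit 624) (nat_lit 495) (nat_lit 7663) (nat_lit 656) (nat_lit 7695)) (.a (.f (nat_lit 590) (nat_lit 589) (nat_lit 2605) (.f (nat_lit 622) (nat_lit 495) (nat_lit 5614) (.d (nat_lit 654) (nat_lit 558) (nat_lit 6670) (nat_lit 686) (nat_lit 6702)))) (.f (nat_lit 590) (nat_lit 589) (nat_lit 2605) (.f (nat_lit 624) (nat_lit 656) (nat_lit 7695) (.p (nat_lit 593) (.a (.f (nat_lit 558) (nat_lit 557) (nat_lit 557) (.d (nat_lit 622) (nat_lit 621) (nat_lit 1613) (nat_lit 654) (nat_lit 6670))) (.d (nat_lit 625) (nat_lit 626) (nat_lit 590) (nat_lit 657) (nat_lit 7696)))))))))))))) (.f (nat_lit 525) (nat_lit 524) (nat_lit 524) (.f (nat_lit 557) (nat_lit 556) (nat_lit 1548) (.f (nat_lit 493) (nat_lit 492) (nat_lit 3564) (.p (nat_lit 558) (.a (.d (nat_lit 461) (nat_lit 429) (nat_lit 4525) (nat_lit 590) (nat_lit 4557)) (.f (nat_lit 589) (nat_lit 588) (nat_lit 1580) (.d (nat_lit 494) (nat_lit 462) (nat_lit 5581) (nat_lit 621) (nat_lit 6637))))))))))) (.a (.p (nat_lit 526) (.a (.d (nat_lit 525) (nat_lit 524) (nat_lit 524) (nat_lit 561) (nat_lit 525)) (.a (.f (nat_lit 561) (nat_lit 562) (nat_lit 3598) (.p (nat_lit 558) (.a (.f (nat_lit 557) (nat_lit 556) (nat_lit 2572) (.d (nat_lit 589) (nat_lit 588) (nat_lit 1580) (nat_lit 590) (nat_lit 1581))) (.a (.f (nat_lit 590) (nat_lit 589) (nat_lit 1581) (.f (nat_lit 622) (nat_lit 654) (nat_lit 6670) (.f (nat_lit 623) (nat_lit 655) (nat_lit 4622) (.f (nat_lit 591) (nat_lit 494) (nat_lit 7662) (.p (nat_lit 592) (.a (.d (nat_lit 593) (nat_lit 557) (nat_lit 3629) (nat_lit 621) (nat_lit 1613)) (.a (.f (nat_lit 593) (nat_lit 557) (nat_lit 557) (.d (nat_lit 625) (nat_lit 626) (nat_lit 590) (nat_lit 657) (nat_lit 7696))) (.a (.d (nat_lit 621) (nat_lit 593) (nat_lit 1613) (nat_lit 653) (nat_lit 5645)) (.d (nat_lit 621) (nat_lit 620) (nat_lit 2636) (nat_lit 653) (nat_lit 5645)))))))))) (.a (.f (nat_lit 557) (nat_lit 556) (nat_lit 2572) (.f (nat_lit 589) (nat_lit 588) (nat_lit 1580) (.f (nat_lit 494) (nat_lit 462) (nat_lit 5581) (.f (nat_lit 592) (nat_lit 593) (nat_lit 557) (.f (nat_lit 624) (nat_lit 656) (nat_lit 7695) (.d (nat_lit 623) (nat_lit 591) (nat_lit 7662) (nat_lit 655) (nat_lit 5647))))))) (.a (.f (nat_lit 557) (nat_lit 556) (nat_lit 2572) (.f (nat_lit 592) (nat_lit 593) (nat_lit 557) (.f (nat_lit 624) (nat_lit 656) (nat_lit 7695) (.f (nat_lit 623) (nat_lit 655) (nat_lit 5647) (.f (nat_lit 591) (nat_lit 494) (nat_lit 7662) (.f (nat_lit 625) (nat_lit 657) (nat_lit 4624) (.d (nat_lit 626) (nat_lit 590) (nat_lit 3662) (nat_lit 627) (nat_lit 3663)))))))) (.f (nat_lit 590) (nat_lit 589) (nat_lit 1581) (.f (nat_lit 622) (nat_lit 654) (nat_lit 6670) (.f (nat_lit 623) (nat_lit 655) (nat_lit 4622) (.f (nat_lit 591) (nat_lit 494) (nat_lit 7662) (.p (nat_lit 592) (.a (.d (nat_lit 621) (nat_lit 593) (nat_lit 1613) (nat_lit 653) (nat_lit 5645)) (.f (nat_lit 624) (nat_lit 656) (nat_lit 7695) (.d (nat_lit 625) (nat_lit 626) (nat_lit 3662) (nat_lit 657) (nat_lit 4624))))))))))))))) (.f (nat_lit 525) (nat_lit 524) (nat_lit 524) (.f (nat_lit 557) (nat_lit 556) (nat_lit 1548) (.f (nat_lit 493) (nat_lit 492) (nat_lit 3564) (.p (nat_lit 558) (.a (.d (nat_lit 461) (nat_lit 429) (nat_lit 4525) (nat_lit 590) (nat_lit 4557)) (.f (nat_lit 589) (nat_lit 588) (nat_lit 1580) (.d (nat_lit 494) (nat_lit 462) (nat_lit 5581) (nat_lit 621) (nat_lit 6637))))))))))) (.p (nat_lit 495) (.a (.d (nat_lit 463) (nat_lit 431) (nat_lit 4527) (nat_lit 592) (nat_lit 4559)) (.a (.d (nat_lit 592) (nat_lit 463) (nat_lit 4559) (nat_lit 624) (nat_lit 7663)) (.a (.f (nat_lit 463) (nat_lit 431) (nat_lit 4527) (.f (nat_lit 558) (nat_lit 590) (nat_lit 5582) (.f (nat_lit 557) (nat_lit 556) (nat_lit 2572) (.f (nat_lit 462) (nat_lit 430) (nat_lit 7598) (.f (nat_lit 494) (nat_lit 591) (nat_lit 7630) (.d (nat_lit 589) (nat_lit 526) (nat_lit 5581) (nat_lit 588) (nat_lit 1580))))))) (.f (nat_lit 592) (nat_lit 624) (nat_lit 7663) (.p (nat_lit 591) (.a (.f (nat_lit 623) (nat_lit 655) (nat_lit 6671) (.d (nat_lit 622) (nat_lit 590) (nat_lit 5614) (nat_lit 654) (nat_lit 5646))) (.a (.f (nat_lit 623) (nat_lit 655) (nat_lit 6671) (.d (nat_lit 494) (nat_lit 462) (nat_lit 7630) (nat_lit 526) (nat_lit 7662))) (.a (.f (nat_lit 590) (nat_lit 622) (nat_lit 5614) (.f (nat_lit 494) (nat_lit 462) (nat_lit 7630) (.f (nat_lit 526) (nat_lit 623) (nat_lit 7662) (.p (nat_lit 557) (.a (.f (nat_lit 558) (nat_lit 593) (nat_lit 557) (.d (nat_lit 589) (nat_lit 588) (nat_lit 2604) (nat_lit 621) (nat_lit 5613))) (.d (nat_lit 525) (nat_lit 524) (nat_lit 524) (nat_lit 556) (nat_lit 1548))))))) (.f (nat_lit 590) (nat_lit 622) (nat_lit 5614) (.f (nat_lit 589) (nat_lit 588) (nat_lit 2604) (.f (nat_lit 557) (nat_lit 556) (nat_lit 3628) (.f (nat_lit 558) (nat_lit 593) (nat_lit 557) (.p (nat_lit 526) (.a (.d (nat_lit 621) (nat_lit 494) (nat_lit 5613) (nat_lit 620) (nat_lit 1612)) (.a (.p (nat_lit 493) (.a (.d (nat_lit 492) (nat_lit 494) (nat_lit 492) (nat_lit 525) (nat_lit 3564)) (.a (.d (nat_lit 525) (nat_lit 461) (nat_lit 4557) (nat_lit 524) (nat_lit 3596)) (.d (nat_lit 494) (nat_lit 462) (nat_lit 4558) (nat_lit 492) (nat_lit 492))))) (.d (nat_lit 621) (nat_lit 620) (nat_lit 1612) (nat_lit 653) (nat_lit 6669))))))))))))))))))))))))))))))))) (.a (.p (nat_lit 527) (.a (.p (nat_lit 495) (.a (.d (nat_lit 463) (nat_lit 431) (nat_lit 4527) (nat_lit 592) (nat_lit 4559)) (.a (.d (nat_lit 592) (nat_lit 463) (nat_lit 4559) (nat_lit 624) (nat_lit 7663)) (.a (.f (nat_lit 463) (nat_lit 431) (nat_lit 4527) (.f (nat_lit 558) (nat_lit 590) (nat_lit 5582) (.f (nat_lit 557) (nat_lit 556) (nat_lit 2572) (.f (nat_lit 525) (nat_lit 524) (nat_lit 3596) (.f (nat_lit 561) (nat_lit 526) (nat_lit 525) (.f (nat_lit 562) (nat_lit 563) (nat_lit 3599) (.d (nat_lit 594) (nat_lit 593) (nat_lit 558) (nat_lit 595) (nat_lit 559)))))))) (.f (nat_lit 592) (nat_lit 624) (nat_lit 7663) (.p (nat_lit 591) (.a (.f (nat_lit 590) (nat_lit 622) (nat_lit 5614) (.d (nat_lit 561) (nat_lit 562) (nat_lit 1582) (nat_lit 589) (nat_lit 2605))) (.a (.p (nat_lit 561) (.a (.d (nat_lit 562) (nat_lit 563) (nat_lit 3599) (nat_lit 590) (nat_lit 1582)) (.a (.d (nat_lit 526) (nat_lit 525) (nat_lit 525) (nat_lit 562) (nat_lit 3598)) (.p (nat_lit 558) (.a (.d (nat_lit 557) (nat_lit 556) (nat_lit 2572) (nat_lit 593) (nat_lit 557)) (.a (.d (nat_lit 593) (nat_lit 557) (nat_lit 557) (nat_lit 594) (nat_lit 558)) (.f (nat_lit 526) (nat_lit 525) (nat_lit 525) (.d (nat_lit 494) (nat_lit 462) (nat_lit 7630) (nat_lit 623) (nat_lit 7662))))))))) (.f (nat_lit 623) (nat_lit 655) (nat_lit 6671) (.d (nat_lit 494) (nat_lit 462) (nat_lit 7630) (nat_lit 526) (nat_lit 7662))))))))))) (.a s49963 (.a (.p (nat_lit 561) (.a (.d (nat_lit 526) (nat_lit 525) (nat_lit 525) (nat_lit 562) (nat_lit 3598)) (.a (.f (nat_lit 562) (nat_lit 563) (nat_lit 3599) (.f (nat_lit 591) (nat_lit 590) (nat_lit 1582) (.f (nat_lit 594) (nat_lit 595) (nat_lit 559) (.f (nat_lit 593) (nat_lit 558) (nat_lit 558) (.f (nat_lit 530) (nat_lit 531) (nat_lit 2575) (.d (nat_lit 498) (nat_lit 466) (nat_lit 5585) (nat_lit 625) (nat_lit 5617))))))) (.f (nat_lit 526) (nat_lit 525) (nat_lit 525) (.p (nat_lit 558) (.a (.f (nat_lit 557) (nat_lit 556) (nat_lit 2572) (.d (nat_lit 593) (nat_lit 592) (nat_lit 557) (nat_lit 594) (nat_lit 558))) (.a (.f (nat_lit 593) (nat_lit 594) (nat_lit 558) (.f (nat_lit 592) (nat_lit 557) (nat_lit 557) (.d (nat_lit 495) (nat_lit 463) (nat_lit 4559) (nat_lit 624) (nat_lit 7663)))) (.a (.f (nat_lit 557) (nat_lit 556) (nat_lit 2572) (.d (nat_lit 589) (nat_lit 588) (nat_lit 1580) (nat_lit 590) (nat_lit 1581))) (.f (nat_lit 590) (nat_lit 589) (nat_lit 1581) (.f (nat_lit 495) (nat_lit 463) (nat_lit 5582) (.p (nat_lit 591) (.a (.d (nat_lit 494) (nat_lit 462) (nat_lit 7630) (nat_lit 623) (nat_lit 7662)) (.a (.d (nat_lit 623) (nat_lit 494) (nat_lit 7662) (nat_lit 655) (nat_lit 6671)) (.a (.f (nat_lit 624) (nat_lit 592) (nat_lit 7663) (.d (nat_lit 623) (nat_lit 655) (nat_lit 6671) (nat_lit 656) (nat_lit 4623))) (.f (nat_lit 593) (nat_lit 594) (nat_lit 558) (.f (nat_lit 592) (nat_lit 624) (nat_lit 7663) (.d (nat_lit 625) (nat_lit 626) (nat_lit 590) (nat_lit 657) (nat_lit 7696)))))))))))))))))) (.a (.p (nat_lit 561) (.a (.d (nat_lit 526) (nat_lit 525) (nat_lit 525) (nat_lit 562) (nat_lit 3598)) (.a (.f (nat_lit 562) (nat_lit 563) (nat_lit 3599) (.f (nat_lit 591) (nat_lit 590) (nat_lit 1582) (.f (nat_lit 623) (nat_lit 655) (nat_lit 6671) (.f (nat_lit 624) (nat_lit 656) (nat_lit 4623) (.f (nat_lit 592) (nat_lit 495) (nat_lit 7663) (.p (nat_lit 593) (.a (.d (nat_lit 558) (nat_lit 557) (nat_lit 557) (nat_lit 594) (nat_lit 558)) (.d (nat_lit 622) (nat_lit 621) (nat_lit 2637) (nat_lit 654) (nat_lit 5646))))))))) (.f (nat_lit 526) (nat_lit 525) (nat_lit 525) (.p (nat_lit 495) (.a (.d (nat_lit 463) (nat_lit 431) (nat_lit 4527) (nat_lit 592) (nat_lit 4559)) (.a (.d (nat_lit 592) (nat_lit 463) (nat_lit 4559) (nat_lit 624) (nat_lit 7663)) (.a (.f (nat_lit 463) (nat_lit 431) (nat_lit 4527) (.f (nat_lit 590) (nat_lit 558) (nat_lit 5582) (.f (nat_lit 591) (nat_lit 622) (nat_lit 5614) (.d (nat_lit 462) (nat_lit 430) (nat_lit 7598) (nat_lit 494) (nat_lit 7630))))) (.f (nat_lit 592) (nat_lit 624) (nat_lit 7663) (.p (nat_lit 591) (.a (.d (nat_lit 590) (nat_lit 589) (nat_lit 2605) (nat_lit 622) (nat_lit 5614)) (.d (nat_lit 494) (nat_lit 462) (nat_lit 7630) (nat_lit 623) (nat_lit 7662))))))))))))) (.a s50758 (.a s50891 (.a s50892 (.a s50284 (.a s50054 (.a s50893 (.a s50313 (.a s50678 (.a s50894 (.a (.p (nat_lit 561) (.a (.d (nat_lit 526) (nat_lit 525) (nat_lit 525) (nat_lit 562) (nat_lit 3598)) (.a (.f (nat_lit 562) (nat_lit 563) (nat_lit 3599) (.f (nat_lit 591) (nat_lit 590) (nat_lit 1582) (.f (nat_lit 623) (nat_lit 655) (nat_lit 6671) (.f (nat_lit 594) (nat_lit 595) (nat_lit 559) (.f (nat_lit 593) (nat_lit 558) (nat_lit 558) (.d (nat_lit 622) (nat_lit 592) (nat_lit 1614) (nat_lit 654) (nat_lit 5646))))))) (.f (nat_lit 526) (nat_lit 525) (nat_lit 525) s50902)))) (.p (nat_lit 495) (.a (.d (nat_lit 463) (nat_lit 431) (nat_lit 4527) (nat_lit 592) (nat_lit 4559)) (.a (.d (nat_lit 592) (nat_lit 463) (nat_lit 4559) (nat_lit 624) (nat_lit 7663)) (.a (.f (nat_lit 463) (nat_lit 431) (nat_lit 4527) (.f (nat_lit 558) (nat_lit 590) (nat_lit 5582) (.f (nat_lit 557) (nat_lit 556) (nat_lit 2572) (.f (nat_lit 462) (nat_lit 430) (nat_lit 7598) (.f (nat_lit 494) (nat_lit 591) (nat_lit 7630) (.d (nat_lit 589) (nat_lit 526) (nat_lit 5581) (nat_lit 588) (nat_lit 1580))))))) (.f (nat_lit 592) (nat_lit 624) (nat_lit 7663) (.p (nat_lit 591) (.a (.f (nat_lit 623) (nat_lit 655) (nat_lit 6671) (.d (nat_lit 622) (nat_lit 590) (nat_lit 5614) (nat_lit 654) (nat_lit 5646))) (.a (.f (nat_lit 623) (nat_lit 655) (nat_lit 6671) (.d (nat_lit 494) (nat_lit 462) (nat_lit 7630) (nat_lit 526) (nat_lit 7662))) (.a (.f (nat_lit 590) (nat_lit 622) (nat_lit 5614) (.f (nat_lit 589) (nat_lit 588) (nat_lit 2604) (.f (nat_lit 557) (nat_lit 556) (nat_lit 3628) (.f (nat_lit 558) (nat_lit 593) (nat_lit 557) (.p (nat_lit 526) (.a (.d (nat_lit 494) (nat_lit 621) (nat_lit 5613) (nat_lit 623) (nat_lit 4590)) (.a (.d (nat_lit 494) (nat_lit 462) (nat_lit 7630) (nat_lit 623) (nat_lit 7662)) (.d (nat_lit 621) (nat_lit 620) (nat_lit 1612) (nat_lit 653) (nat_lit 6669))))))))) (.f (nat_lit 590) (nat_lit 622) (nat_lit 5614) (.f (nat_lit 589) (nat_lit 588) (nat_lit 2604) (.f (nat_lit 557) (nat_lit 556) (nat_lit 3628) (.f (nat_lit 558) (nat_lit 593) (nat_lit 557) (.f (nat_lit 621) (nat_lit 620) (nat_lit 1612) (.d (nat_lit 494) (nat_lit 462) (nat_lit 7630) (nat_lit 526) (nat_lit 5613))))))))))))))))))))))))))))))) (.a (.p (nat_lit 561) (.a (.p (nat_lit 562) (.a (.d (nat_lit 527) (nat_lit 526) (nat_lit 3598) (nat_lit 563) (nat_lit 3599)) (.a (.f (nat_lit 527) (nat_lit 526) (nat_lit 3598) (.f (nat_lit 591) (nat_lit 590) (nat_lit 1582) (.f (nat_lit 623) (nat_lit 655) (nat_lit 6671) (.f (nat_lit 594) (nat_lit 595) (nat_lit 559) (.f (nat_lit 593) (nat_lit 558) (nat_lit 558) (.d (nat_lit 622) (nat_lit 592) (nat_lit 1614) (nat_lit 654) (nat_lit 5646))))))) (.a (.f (nat_lit 563) (nat_lit 527) (nat_lit 3599) (.d (nat_lit 595) (nat_lit 594) (nat_lit 559) (nat_lit 596) (nat_lit 560))) (.f (nat_lit 591) (nat_lit 590) (nat_lit 1582) (.f (nat_lit 563) (nat_lit 592) (nat_lit 1583) (.d (nat_lit 595) (nat_lit 594) (nat_lit 559) (nat_lit 596) (nat_lit 560)))))))) (.a (.p (nat_lit 562) (.a (.d (nat_lit 527) (nat_lit 526) (nat_lit 3598) (nat_lit 563) (nat_lit 3599)) (.a (.f (nat_lit 526) (nat_lit 527) (nat_lit 3598) (.f (nat_lit 558) (nat_lit 525) (nat_lit 3597) (.d (nat_lit 594) (nat_lit 593) (nat_lit 558) (nat_lit 595) (nat_lit 559)))) (.a (.f (nat_lit 563) (nat_lit 527) (nat_lit 3599) (.d (nat_lit 595) (nat_lit 594) (nat_lit 559) (nat_lit 596) (nat_lit 560))) (.f (nat_lit 591) (nat_lit 590) (nat_lit 1582) (.f (nat_lit 563) (nat_lit 592) (nat_lit 1583) (.d (nat_lit 595) (nat_lit 594) (nat_lit 559) (nat_lit 596) (nat_lit 560)))))))) (.a (.p (nat_lit 562) (.a (.d (nat_lit 527) (nat_lit 526) (nat_lit 3598) (nat_lit 563) (nat_lit 3599)) (.a (.f (nat_lit 526) (nat_lit 527) (nat_lit 3598) (.f (nat_lit 558) (nat_lit 525) (nat_lit 3597) (.d (nat_lit 590) (nat_lit 589) (nat_lit 1581) (nat_lit 591) (nat_lit 1582)))) (.a (.f (nat_lit 563) (nat_lit 527) (nat_lit 3599) (.d (nat_lit 591) (nat_lit 590) (nat_lit 1582) (nat_lit 592) (nat_lit 1583))) (.f (nat_lit 591) (nat_lit 590) (nat_lit 1582) (.f (nat_lit 563) (nat_lit 592) (nat_lit 1583) (.d (nat_lit 531) (nat_lit 530) (nat_lit 2575) (nat_lit 532) (nat_lit 2576)))))))) (.a (.p (nat_lit 562) (.a (.d (nat_lit 527) (nat_lit 526) (nat_lit 3598) (nat_lit 563) (nat_lit 3599)) (.a (.f (nat_lit 526) (nat_lit 527) (nat_lit 3598) (.f (nat_lit 558) (nat_lit 525) (nat_lit 3597) (.d (nat_lit 594) (nat_lit 593) (nat_lit 558) (nat_lit 595) (nat_lit 559)))) (.a (.f (nat_lit 563) (nat_lit 527) (nat_lit 3599) (.d (nat_lit 595) (nat_lit 594) (nat_lit 559) (nat_lit 596) (nat_lit 560))) (.f (nat_lit 594) (nat_lit 595) (nat_lit 559) (.f (nat_lit 593) (nat_lit 558) (nat_lit 558) (.f (nat_lit 530) (nat_lit 531) (nat_lit 2575) (.d (nat_lit 498) (nat_lit 466) (nat_lit 5585) (nat_lit 625) (nat_lit 5617))))))))) (.a s50938 (.a s50944 (.a (.p (nat_lit 562) (.a (.f (nat_lit 563) (nat_lit 527) (nat_lit 3599) (.d (nat_lit 595) (nat_lit 594) (nat_lit 559) (nat_lit 596) (nat_lit 560))) (.a (.f (nat_lit 563) (nat_lit 527) (nat_lit 3599) (.d (nat_lit 591) (nat_lit 590) (nat_lit 1582) (nat_lit 592) (nat_lit 1583))) (.f (nat_lit 594) (nat_lit 595) (nat_lit 559) (.f (nat_lit 593) (nat_lit 558) (nat_lit 558) (.f (nat_lit 530) (nat_lit 531) (nat_lit 2575) (.d (nat_lit 498) (nat_lit 466) (nat_lit 5585) (nat_lit 625) (nat_lit 5617)))))))) (.a (.p (nat_lit 558) (.a (.f (nat_lit 526) (nat_lit 525) (nat_lit 3597) (.f (nat_lit 590) (nat_lit 589) (nat_lit 1581) (.p (nat_lit 591) (.a (.d (nat_lit 623) (nat_lit 494) (nat_lit 4590) (nat_lit 655) (nat_lit 7694)) (.a (.d (nat_lit 494) (nat_lit 462) (nat_lit 4558) (nat_lit 623) (nat_lit 4590)) (.a (.f (nat_lit 623) (nat_lit 655) (nat_lit 6671) (.f (nat_lit 593) (nat_lit 594) (nat_lit 558) (.p (nat_lit 527) (.a (.d (nat_lit 557) (nat_lit 556) (nat_lit 2572) (nat_lit 592) (nat_lit 557)) (.d (nat_lit 495) (nat_lit 463) (nat_lit 5582) (nat_lit 622) (nat_lit 5614)))))) (.f (nat_lit 593) (nat_lit 594) (nat_lit 558) (.f (nat_lit 557) (nat_lit 592) (nat_lit 557) (.d (nat_lit 556) (nat_lit 527) (nat_lit 2572) (nat_lit 555) (nat_lit 555)))))))))) (.a (.f (nat_lit 593) (nat_lit 594) (nat_lit 558) (.f (nat_lit 557) (nat_lit 592) (nat_lit 557) (.d (nat_lit 589) (nat_lit 588) (nat_lit 1580) (nat_lit 590) (nat_lit 1581)))) (.a (.f (nat_lit 526) (nat_lit 525) (nat_lit 3597) (.f (nat_lit 590) (nat_lit 589) (nat_lit 1581) (.p (nat_lit 591) (.a (.d (nat_lit 494) (nat_lit 462) (nat_lit 4558) (nat_lit 623) (nat_lit 4590)) (.a (.d (nat_lit 623) (nat_lit 494) (nat_lit 4590) (nat_lit 655) (nat_lit 7694)) (.a (.f (nat_lit 623) (nat_lit 655) (nat_lit 6671) (.p (nat_lit 622) (.a (.d (nat_lit 527) (nat_lit 495) (nat_lit 5614) (nat_lit 654) (nat_lit 5646)) (.p (nat_lit 592) (.a (.d (nat_lit 557) (nat_lit 556) (nat_lit 556) (nat_lit 593) (nat_lit 557)) (.a (.d (nat_lit 593) (nat_lit 557) (nat_lit 3629) (nat_lit 621) (nat_lit 1613)) (.a (.d (nat_lit 621) (nat_lit 593) (nat_lit 1613) (nat_lit 653) (nat_lit 5645)) (.d (nat_lit 621) (nat_lit 620) (nat_lit 2636) (nat_lit 653) (nat_lit 5645))))))))) (.f (nat_lit 494) (nat_lit 462) (nat_lit 4558) (.f (nat_lit 495) (nat_lit 463) (nat_lit 6606) (.f (nat_lit 527) (nat_lit 622) (nat_lit 5614) (.d (nat_lit 493) (nat_lit 461) (nat_lit 7629) (nat_lit 492) (nat_lit 492))))))))))) (.a (.f (nat_lit 593) (nat_lit 594) (nat_lit 558) (.f (nat_lit 557) (nat_lit 592) (nat_lit 557) (.d (nat_lit 525) (nat_lit 524) (nat_lit 3596) (nat_lit 526) (nat_lit 3597)))) s50974))))) (.p (nat_lit 558) (.a (.f (nat_lit 590) (nat_lit 589) (nat_lit 1581) (.f (nat_lit 591) (nat_lit 562) (nat_lit 1582) (.f (nat_lit 526) (nat_lit 525) (nat_lit 3597) (.d (nat_lit 494) (nat_lit 462) (nat_lit 4558) (nat_lit 623) (nat_lit 4590))))) (.a (.f (nat_lit 593) (nat_lit 594) (nat_lit 558) (.f (nat_lit 557) (nat_lit 592) (nat_lit 557) (.d (nat_lit 589) (nat_lit 588) (nat_lit 1580) (nat_lit 590) (nat_lit 1581)))) (.f (nat_lit 593) (nat_lit 594) (nat_lit 558) (.f (nat_lit 557) (nat_lit 592) (nat_lit 557) (.d (nat_lit 525) (nat_lit 524) (nat_lit 3596) (nat_lit 526) (nat_lit 3597)))))))))))))))) (.a (.p (nat_lit 558) (.a (.p (nat_lit 557) (.a (.f (nat_lit 525) (nat_lit 524) (nat_lit 3596) (.f (nat_lit 527) (nat_lit 556) (nat_lit 2572) (.f (nat_lit 561) (nat_lit 526) (nat_lit 525) (.d (nat_lit 593) (nat_lit 592) (nat_lit 557) (nat_lit 594) (nat_lit 558))))) (.a (.f (nat_lit 525) (nat_lit 524) (nat_lit 3596) (.f (nat_lit 561) (nat_lit 526) (nat_lit 3597) (.d (nat_lit 593) (nat_lit 592) (nat_lit 557) (nat_lit 594) (nat_lit 558)))) (.a (.f (nat_lit 525) (nat_lit 524) (nat_lit 3596) (.f (nat_lit 526) (nat_lit 561) (nat_lit 3597) (.f (nat_lit 527) (nat_lit 556) (nat_lit 1548) (.f (nat_lit 493) (nat_lit 492) (nat_lit 3564) (.d (nat_lit 461) (nat_lit 429) (nat_lit 4525) (nat_lit 590) (nat_lit 4557)))))) (.f (nat_lit 556) (nat_lit 527) (nat_lit 2572) (.d (nat_lit 588) (nat_lit 587) (nat_lit 1579) (nat_lit 589) (nat_lit 1580))))))) (.a (.p (nat_lit 561) (.a (.f (nat_lit 526) (nat_lit 525) (nat_lit 3597) (.f (nat_lit 562) (nat_lit 527) (nat_lit 3598) (.d (nat_lit 594) (nat_lit 593) (nat_lit 558) (nat_lit 595) (nat_lit 559)))) (.a (.f (nat_lit 526) (nat_lit 525) (nat_lit 3597) (.f (nat_lit 527) (nat_lit 562) (nat_lit 3598) (.f (nat_lit 590) (nat_lit 589) (nat_lit 1581) (.d (nat_lit 495) (nat_lit 463) (nat_lit 5582) (nat_lit 622) (nat_lit 6638))))) (.f (nat_lit 593) (nat_lit 594) (nat_lit 558) (.f (nat_lit 557) (nat_lit 592) (nat_lit 557) (.d (nat_lit 589) (nat_lit 588) (nat_lit 1580) (nat_lit 590) (nat_lit 1581))))))) (.a (.p (nat_lit 557) (.a (.f (nat_lit 525) (nat_lit 524) (nat_lit 3596) (.f (nat_lit 526) (nat_lit 561) (nat_lit 3597) (.f (nat_lit 527) (nat_lit 556) (nat_lit 1548) (.f (nat_lit 493) (nat_lit 492) (nat_lit 3564) (.d (nat_lit 461) (nat_lit 429) (nat_lit 4525) (nat_lit 590) (nat_lit 4557)))))) (.a (.f (nat_lit 525) (nat_lit 524) (nat_lit 3596) (.f (nat_lit 589) (nat_lit 588) (nat_lit 1580) (.d (nat_lit 561) (nat_lit 526) (nat_lit 3597) (nat_lit 590) (nat_lit 1581)))) (.f (nat_lit 556) (nat_lit 527) (nat_lit 2572) (.d (nat_lit 588) (nat_lit 587) (nat_lit 1579) (nat_lit 589) (nat_lit 1580)))))) (.a (.p (nat_lit 557) (.a (.f (nat_lit 556) (nat_lit 527) (nat_lit 2572) (.d (nat_lit 588) (nat_lit 587) (nat_lit 1579) (nat_lit 589) (nat_lit 1580))) (.f (nat_lit 525) (nat_lit 524) (nat_lit 3596) (.f (nat_lit 561) (nat_lit 526) (nat_lit 3597) (.d (nat_lit 593) (nat_lit 592) (nat_lit 557) (nat_lit 594) (nat_lit 558)))))) (.a (.p (nat_lit 527) (.a (.f (nat_lit 557) (nat_lit 556) (nat_lit 2572) (.f (nat_lit 525) (nat_lit 524) (nat_lit 3596) (.f (nat_lit 526) (nat_lit 561) (nat_lit 525) (.f (nat_lit 493) (nat_lit 492) (nat_lit 3564) (.d (nat_lit 461) (nat_lit 429) (nat_lit 4525) (nat_lit 590) (nat_lit 4557)))))) (.a (.p (nat_lit 561) (.a (.d (nat_lit 526) (nat_lit 525) (nat_lit 3597) (nat_lit 562) (nat_lit 3598)) (.f (nat_lit 593) (nat_lit 594) (nat_lit 558) (.f (nat_lit 592) (nat_lit 557) (nat_lit 557) (.d (nat_lit 495) (nat_lit 463) (nat_lit 4559) (nat_lit 624) (nat_lit 7663)))))) (.a (.f (nat_lit 557) (nat_lit 556) (nat_lit 2572) (.f (nat_lit 592) (nat_lit 593) (nat_lit 557) (.d (nat_lit 495) (nat_lit 463) (nat_lit 4559) (nat_lit 624) (nat_lit 7663)))) (.p (nat_lit 526) (.a (.d (nat_lit 525) (nat_lit 524) (nat_lit 524) (nat_lit 561) (nat_lit 525)) (.a (.f (nat_lit 561) (nat_lit 562) (nat_lit 3598) (.f (nat_lit 593) (nat_lit 594) (nat_lit 558) (.p (nat_lit 590) (.a (.d (nat_lit 495) (nat_lit 463) (nat_lit 5582) (nat_lit 622) (nat_lit 6638)) (.a (.p (nat_lit 494) (.a (.f (nat_lit 495) (nat_lit 463) (nat_lit 5582) (.d (nat_lit 493) (nat_lit 461) (nat_lit 7629) (nat_lit 492) (nat_lit 492))) (.a (.f (nat_lit 463) (nat_lit 495) (nat_lit 5582) (.d (nat_lit 462) (nat_lit 430) (nat_lit 4526) (nat_lit 431) (nat_lit 6574))) (.f (nat_lit 461) (nat_lit 493) (nat_lit 7629) (.d (nat_lit 462) (nat_lit 429) (nat_lit 7597) (nat_lit 430) (nat_lit 4526)))))) (.a (.d (nat_lit 622) (nat_lit 495) (nat_lit 6638) (nat_lit 654) (nat_lit 6670)) (.f (nat_lit 622) (nat_lit 654) (nat_lit 6670) (.f (nat_lit 623) (nat_lit 655) (nat_lit 4622) (.f (nat_lit 621) (nat_lit 653) (nat_lit 5645) (.f (nat_lit 624) (nat_lit 592) (nat_lit 2637) (.d (nat_lit 657) (nat_lit 625) (nat_lit 7696) (nat_lit 656) (nat_lit 621)))))))))))) (.p (nat_lit 495) (.a (.d (nat_lit 463) (nat_lit 431) (nat_lit 4527) (nat_lit 592) (nat_lit 4559)) (.a (.d (nat_lit 592) (nat_lit 463) (nat_lit 4559) (nat_lit 624) (nat_lit 7663)) (.a (.d (nat_lit 463) (nat_lit 431) (nat_lit 4527) (nat_lit 590) (nat_lit 5582)) (.f (nat_lit 525) (nat_lit 524) (nat_lit 524) (.f (nat_lit 493) (nat_lit 492) (nat_lit 3564) (.f (nat_lit 590) (nat_lit 622) (nat_lit 6638) (.d (nat_lit 461) (nat_lit 429) (nat_lit 4525) (nat_lit 494) (nat_lit 7629)))))))))))))))) (.a (.p (nat_lit 557) (.a (.f (nat_lit 556) (nat_lit 527) (nat_lit 2572) (.d (nat_lit 588) (nat_lit 587) (nat_lit 1579) (nat_lit 589) (nat_lit 1580))) (.a (.f (nat_lit 589) (nat_lit 588) (nat_lit 1580) (.f (nat_lit 525) (nat_lit 524) (nat_lit 3596) (.f (nat_lit 590) (nat_lit 561) (nat_lit 1581) (.d (nat_lit 493) (nat_lit 461) (nat_lit 4557) (nat_lit 622) (nat_lit 4589))))) (.f (nat_lit 556) (nat_lit 527) (nat_lit 2572) (.d (nat_lit 524) (nat_lit 523) (nat_lit 3595) (nat_lit 525) (nat_lit 3596)))))) (.a (.p (nat_lit 590) (.a (.f (nat_lit 561) (nat_lit 589) (nat_lit 1581) (.f (nat_lit 526) (nat_lit 525) (nat_lit 3597) (.f (nat_lit 527) (nat_lit 562) (nat_lit 3598) (.d (nat_lit 495) (nat_lit 463) (nat_lit 5582) (nat_lit 622) (nat_lit 6638))))) (.a (.f (nat_lit 561) (nat_lit 589) (nat_lit 1581) (.f (nat_lit 526) (nat_lit 525) (nat_lit 3597) (.f (nat_lit 562) (nat_lit 527) (nat_lit 3598) (.d (nat_lit 594) (nat_lit 593) (nat_lit 558) (nat_lit 595) (nat_lit 559))))) (.a (.p (nat_lit 526) (.a (.f (nat_lit 525) (nat_lit 561) (nat_lit 3597) (.d (nat_lit 524) (nat_lit 523) (nat_lit 523) (nat_lit 527) (nat_lit 524))) (.a (.p (nat_lit 527) (.a (.d (nat_lit 495) (nat_lit 463) (nat_lit 5582) (nat_lit 622) (nat_lit 6638)) (.a (.f (nat_lit 561) (nat_lit 562) (nat_lit 3598) (.f (nat_lit 593) (nat_lit 594) (nat_lit 558) (.p (nat_lit 494) (.a (.f (nat_lit 495) (nat_lit 463) (nat_lit 5582) (.d (nat_lit 493) (nat_lit 461) (nat_lit 7629) (nat_lit 492) (nat_lit 492))) (.a (.f (nat_lit 463) (nat_lit 495) (nat_lit 5582) (.d (nat_lit 462) (nat_lit 430) (nat_lit 4526) (nat_lit 431) (nat_lit 6574))) (.f (nat_lit 461) (nat_lit 493) (nat_lit 7629) (.d (nat_lit 462) (nat_lit 429) (nat_lit 7597) (nat_lit 430) (nat_lit 4526)))))))) (.a (.d (nat_lit 622) (nat_lit 495) (nat_lit 6638) (nat_lit 654) (nat_lit 6670)) (.f (nat_lit 561) (nat_lit 562) (nat_lit 3598) (.f (nat_lit 622) (nat_lit 654) (nat_lit 6670) (.f (nat_lit 593) (nat_lit 594) (nat_lit 558) (.f (nat_lit 623) (nat_lit 655) (nat_lit 4622) (.f (nat_lit 621) (nat_lit 653) (nat_lit 5645) (.f (nat_lit 624) (nat_lit 592) (nat_lit 2637) (.d (nat_lit 657) (nat_lit 625) (nat_lit 7696) (nat_lit 656) (nat_lit 621)))))))))))) (.a (.p (nat_lit 527) (.a (.d (nat_lit 495) (nat_lit 463) (nat_lit 5582) (nat_lit 622) (nat_lit 6638)) (.a (.f (nat_lit 495) (nat_lit 463) (nat_lit 5582) (.f (nat_lit 525) (nat_lit 524) (nat_lit 524) (.f (nat_lit 493) (nat_lit 492) (nat_lit 3564) (.d (nat_lit 461) (nat_lit 429) (nat_lit 4525) (nat_lit 494) (nat_lit 7629))))) (.a (.d (nat_lit 622) (nat_lit 495) (nat_lit 6638) (nat_lit 654) (nat_lit 6670)) (.f (nat_lit 525) (nat_lit 524) (nat_lit 524) (.d (nat_lit 493) (nat_lit 492) (nat_lit 3564) (nat_lit 622) (nat_lit 7661))))))) (.f (nat_lit 525) (nat_lit 561) (nat_lit 3597) (.f (nat_lit 493) (nat_lit 622) (nat_lit 7661) (.d (nat_lit 461) (nat_lit 429) (nat_lit 4525) (nat_lit 494) (nat_lit 7629)))))))) (.a (.f (nat_lit 561) (nat_lit 589) (nat_lit 1581) (.f (nat_lit 594) (nat_lit 593) (nat_lit 558) (.f (nat_lit 562) (nat_lit 595) (nat_lit 559) (.f (nat_lit 563) (nat_lit 527) (nat_lit 3599) (.d (nat_lit 531) (nat_lit 530) (nat_lit 2575) (nat_lit 532) (nat_lit 2576)))))) (.a (.f (nat_lit 561) (nat_lit 589) (nat_lit 1581) (.f (nat_lit 526) (nat_lit 525) (nat_lit 3597) (.f (nat_lit 593) (nat_lit 594) (nat_lit 558) (.p (nat_lit 622) (.a (.d (nat_lit 527) (nat_lit 495) (nat_lit 6638) (nat_lit 654) (nat_lit 6670)) (.a (.f (nat_lit 495) (nat_lit 527) (nat_lit 6638) (.f (nat_lit 623) (nat_lit 655) (nat_lit 4622) (.f (nat_lit 621) (nat_lit 653) (nat_lit 5645) (.f (nat_lit 624) (nat_lit 592) (nat_lit 2637) (.d (nat_lit 657) (nat_lit 625) (nat_lit 7696) (nat_lit 656) (nat_lit 621)))))) (.a (.f (nat_lit 654) (nat_lit 527) (nat_lit 6670) (.d (nat_lit 655) (nat_lit 623) (nat_lit 4622) (nat_lit 687) (nat_lit 4654))) (.f (nat_lit 655) (nat_lit 623) (nat_lit 4622) (.f (nat_lit 654) (nat_lit 687) (nat_lit 4654) (.d (nat_lit 653) (nat_lit 621) (nat_lit 5645) (nat_lit 685) (nat_lit 5677))))))))))) (.a (.p (nat_lit 622) (.a (.f (nat_lit 527) (nat_lit 654) (nat_lit 6670) (.d (nat_lit 495) (nat_lit 463) (nat_lit 5582) (nat_lit 526) (nat_lit 6638))) (.a (.p (nat_lit 526) (.a (.f (nat_lit 527) (nat_lit 495) (nat_lit 6638) (.d (nat_lit 525) (nat_lit 493) (nat_lit 7661) (nat_lit 524) (nat_lit 524))) (.a (.f (nat_lit 527) (nat_lit 495) (nat_lit 6638) (.f (nat_lit 621) (nat_lit 653) (nat_lit 5645) (.f (nat_lit 623) (nat_lit 655) (nat_lit 4622) (.f (nat_lit 589) (nat_lit 494) (nat_lit 5613) (.d (nat_lit 588) (nat_lit 587) (nat_lit 587) (nat_lit 624) (nat_lit 3660)))))) (.a (.f (nat_lit 525) (nat_lit 493) (nat_lit 7661) (.d (nat_lit 524) (nat_lit 523) (nat_lit 523) (nat_lit 527) (nat_lit 524))) (.f (nat_lit 621) (nat_lit 653) (nat_lit 5645) (.f (nat_lit 494) (nat_lit 589) (nat_lit 5613) (.d (nat_lit 493) (nat_lit 461) (nat_lit 7629) (nat_lit 525) (nat_lit 7661)))))))) (.a (.f (nat_lit 654) (nat_lit 527) (nat_lit 6670) (.f (nat_lit 655) (nat_lit 687) (nat_lit 4654) (.f (nat_lit 653) (nat_lit 685) (nat_lit 5677) (.p (nat_lit 623) (.a (.d (nat_lit 624) (nat_lit 592) (nat_lit 5647) (nat_lit 652) (nat_lit 2668)) (.a (.p (nat_lit 620) (.a (.d (nat_lit 621) (nat_lit 619) (nat_lit 619) (nat_lit 656) (nat_lit 620)) (.a (.d (nat_lit 652) (nat_lit 619) (nat_lit 3691) (nat_lit 651) (nat_lit 2667)) (.f (nat_lit 656) (nat_lit 621) (nat_lit 620) (.f (nat_lit 657) (nat_lit 658) (nat_lit 3694) (.d (nat_lit 689) (nat_lit 688) (nat_lit 653) (nat_lit 690) (nat_lit 654))))))) (.d (nat_lit 624) (nat_lit 592) (nat_lit 5647) (nat_lit 625) (nat_lit 1645)))))))) s51102)))) (.p (nat_lit 622) (.a (.f (nat_lit 561) (nat_lit 589) (nat_lit 1581) (.f (nat_lit 526) (nat_lit 525) (nat_lit 3597) (.f (nat_lit 655) (nat_lit 623) (nat_lit 4622) (.f (nat_lit 654) (nat_lit 687) (nat_lit 4654) (.d (nat_lit 653) (nat_lit 621) (nat_lit 5645) (nat_lit 685) (nat_lit 5677)))))) (.a (.f (nat_lit 561) (nat_lit 589) (nat_lit 1581) (.f (nat_lit 526) (nat_lit 525) (nat_lit 3597) (.f (nat_lit 593) (nat_lit 594) (nat_lit 558) (.f (nat_lit 655) (nat_lit 623) (nat_lit 4622) (.f (nat_lit 654) (nat_lit 687) (nat_lit 4654) (.f (nat_lit 685) (nat_lit 653) (nat_lit 5677) (.f (nat_lit 657) (nat_lit 625) (nat_lit 7696) (.d (nat_lit 686) (nat_lit 656) (nat_lit 1677) (nat_lit 717) (nat_lit 5709))))))))) (.a (.p (nat_lit 526) (.a (.d (nat_lit 561) (nat_lit 525) (nat_lit 3597) (nat_lit 589) (nat_lit 1581)) (.a (.d (nat_lit 525) (nat_lit 493) (nat_lit 7661) (nat_lit 561) (nat_lit 3597)) (.a (.f (nat_lit 589) (nat_lit 561) (nat_lit 1581) (.d (nat_lit 621) (nat_lit 494) (nat_lit 5613) (nat_lit 653) (nat_lit 5645))) (.f (nat_lit 621) (nat_lit 653) (nat_lit 5645) (.f (nat_lit 494) (nat_lit 589) (nat_lit 5613) (.d (nat_lit 493) (nat_lit 461) (nat_lit 7629) (nat_lit 525) (nat_lit 7661)))))))) (.a (.p (nat_lit 526) (.a (.d (nat_lit 525) (nat_lit 493) (nat_lit 7661) (nat_lit 561) (nat_lit 3597)) (.a (.f (nat_lit 561) (nat_lit 525) (nat_lit 3597) (.f (nat_lit 593) (nat_lit 594) (nat_lit 558) (.f (nat_lit 655) (nat_lit 623) (nat_lit 4622) (.f (nat_lit 654) (nat_lit 687) (nat_lit 4654) (.d (nat_lit 653) (nat_lit 621) (nat_lit 5645) (nat_lit 685) (nat_lit 5677)))))) (.f (nat_lit 655) (nat_lit 623) (nat_lit 4622) (.f (nat_lit 654) (nat_lit 687) (nat_lit 4654) (.d (nat_lit 653) (nat_lit 621) (nat_lit 5645) (nat_lit 685) (nat_lit 5677))))))) (.a (.f (nat_lit 589) (nat_lit 561) (nat_lit 1581) (.p (nat_lit 621) (.a (.f (nat_lit 588) (nat_lit 587) (nat_lit 2603) (.f (nat_lit 653) (nat_lit 685) (nat_lit 6701) (.p (nat_lit 620) (.a (.p (nat_lit 655) (.a (.d (nat_lit 619) (nat_lit 618) (nat_lit 2634) (nat_lit 654) (nat_lit 619)) (.d (nat_lit 623) (nat_lit 624) (nat_lit 3660) (nat_lit 656) (nat_lit 620)))) (.a (.p (nat_lit 655) (.a (.d (nat_lit 619) (nat_lit 618) (nat_lit 2634) (nat_lit 654) (nat_lit 619)) (.a (.p (nat_lit 651) (.a (.d (nat_lit 619) (nat_lit 618) (nat_lit 2634) (nat_lit 650) (nat_lit 1642)) (.d (nat_lit 623) (nat_lit 652) (nat_lit 1643) (nat_lit 656) (nat_lit 620)))) (.d (nat_lit 654) (nat_lit 656) (nat_lit 3692) (nat_lit 687) (nat_lit 4654))))) (.a (.p (nat_lit 651) (.a (.d (nat_lit 619) (nat_lit 618) (nat_lit 2634) (nat_lit 650) (nat_lit 1642)) (.a (.d (nat_lit 652) (nat_lit 623) (nat_lit 1643) (nat_lit 650) (nat_lit 2666)) (.d (nat_lit 623) (nat_lit 624) (nat_lit 3660) (nat_lit 652) (nat_lit 1643))))) (.a (.p (nat_lit 651) (.a (.d (nat_lit 619) (nat_lit 618) (nat_lit 2634) (nat_lit 650) (nat_lit 1642)) (.a (.f (nat_lit 556) (nat_lit 524) (nat_lit 4620) (.d (nat_lit 652) (nat_lit 650) (nat_lit 2666) (nat_lit 683) (nat_lit 5675))) (.p (nat_lit 683) (.a (.d (nat_lit 619) (nat_lit 618) (nat_lit 2634) (nat_lit 715) (nat_lit 6731)) (.d (nat_lit 556) (nat_lit 524) (nat_lit 4620) (nat_lit 652) (nat_lit 5675))))))) (.f (nat_lit 623) (nat_lit 624) (nat_lit 3660) (.f (nat_lit 655) (nat_lit 656) (nat_lit 620) (.d (nat_lit 687) (nat_lit 654) (nat_lit 4654) (nat_lit 719) (nat_lit 7758))))))))))) (.a (.f (nat_lit 588) (nat_lit 587) (nat_lit 2603) (.f (nat_lit 653) (nat_lit 685) (nat_lit 6701) (.f (nat_lit 623) (nat_lit 624) (nat_lit 3660) (.p (nat_lit 620) (.a (.f (nat_lit 619) (nat_lit 618) (nat_lit 2634) (.d (nat_lit 651) (nat_lit 650) (nat_lit 1642) (nat_lit 652) (nat_lit 1643))) (.a (.f (nat_lit 619) (nat_lit 618) (nat_lit 2634) (.d (nat_lit 655) (nat_lit 654) (nat_lit 619) (nat_lit 656) (nat_lit 620))) (.f (nat_lit 655) (nat_lit 656) (nat_lit 620) (.d (nat_lit 687) (nat_lit 654) (nat_lit 4654) (nat_lit 719) (nat_lit 7758))))))))) (.a (.f (nat_lit 588) (nat_lit 587) (nat_lit 2603) (.f (nat_lit 685) (nat_lit 653) (nat_lit 6701) (.p (nat_lit 654) (.a (.d (nat_lit 686) (nat_lit 717) (nat_lit 5709) (nat_lit 718) (nat_lit 7757)) (.f (nat_lit 655) (nat_lit 687) (nat_lit 4654) (.f (nat_lit 620) (nat_lit 619) (nat_lit 619) (.d (nat_lit 656) (nat_lit 623) (nat_lit 620) (nat_lit 657) (nat_lit 3693)))))))) (.a (.f (nat_lit 685) (nat_lit 653) (nat_lit 6701) (.p (nat_lit 686) (.a (.d (nat_lit 654) (nat_lit 717) (nat_lit 5709) (nat_lit 718) (nat_lit 7757)) (.a (.p (nat_lit 620) (.a (.f (nat_lit 587) (nat_lit 588) (nat_lit 2603) (.d (nat_lit 619) (nat_lit 586) (nat_lit 3658) (nat_lit 618) (nat_lit 2634))) (.a (.p (nat_lit 651) (.a (.d (nat_lit 619) (nat_lit 618) (nat_lit 2634) (nat_lit 650) (nat_lit 1642)) (.f (nat_lit 652) (nat_lit 623) (nat_lit 1643) (.d (nat_lit 684) (nat_lit 687) (nat_lit 3723) (nat_lit 716) (nat_lit 6732))))) (.f (nat_lit 588) (nat_lit 587) (nat_lit 2603) (.p (nat_lit 652) (.a (.d (nat_lit 684) (nat_lit 716) (nat_lit 6732) (nat_lit 717) (nat_lit 4684)) (.d (nat_lit 623) (nat_lit 624) (nat_lit 3660) (nat_lit 651) (nat_lit 1643)))))))) (.p (nat_lit 684) (.a (.p (nat_lit 719) (.a (.d (nat_lit 654) (nat_lit 687) (nat_lit 4686) (nat_lit 718) (nat_lit 7757)) (.a (.p (nat_lit 651) (.a (.d (nat_lit 683) (nat_lit 650) (nat_lit 3722) (nat_lit 718) (nat_lit 683)) (.d (nat_lit 687) (nat_lit 652) (nat_lit 3723) (nat_lit 720) (nat_lit 684)))) (.a (.d (nat_lit 718) (nat_lit 654) (nat_lit 7757) (nat_lit 683) (nat_lit 683)) (.d (nat_lit 687) (nat_lit 654) (nat_lit 4686) (nat_lit 720) (nat_lit 684)))))) (.a (.p (nat_lit 620) (.a (.f (nat_lit 587) (nat_lit 588) (nat_lit 2603) (.d (nat_lit 619) (nat_lit 586) (nat_lit 3658) (nat_lit 618) (nat_lit 2634))) (.a (.p (nat_lit 651) (.a (.d (nat_lit 619) (nat_lit 618) (nat_lit 2634) (nat_lit 650) (nat_lit 1642)) (.d (nat_lit 652) (nat_lit 623) (nat_lit 1643) (nat_lit 716) (nat_lit 6732)))) (.p (nat_lit 623) (.a (.d (nat_lit 588) (nat_lit 587) (nat_lit 3659) (nat_lit 624) (nat_lit 3660)) (.d (nat_lit 652) (nat_lit 651) (nat_lit 1643) (nat_lit 716) (nat_lit 6732))))))) (.p (nat_lit 719) (.a (.d (nat_lit 654) (nat_lit 687) (nat_lit 4686) (nat_lit 718) (nat_lit 7757)) (.a (.p (nat_lit 715) (.a (.d (nat_lit 683) (nat_lit 714) (nat_lit 1706) (nat_lit 718) (nat_lit 683)) (.d (nat_lit 687) (nat_lit 716) (nat_lit 1707) (nat_lit 720) (nat_lit 684)))) (.a (.d (nat_lit 718) (nat_lit 654) (nat_lit 7757) (nat_lit 683) (nat_lit 683)) (.d (nat_lit 687) (nat_lit 654) (nat_lit 4686) (nat_lit 720) (nat_lit 684))))))))))))) (.a (.p (nat_lit 623) (.a (.d (nat_lit 588) (nat_lit 587) (nat_lit 587) (nat_lit 624) (nat_lit 3660)) (.a (.p (nat_lit 620) (.a (.f (nat_lit 588) (nat_lit 587) (nat_lit 2603) (.f (nat_lit 653) (nat_lit 685) (nat_lit 6701) (.f (nat_lit 619) (nat_lit 618) (nat_lit 2634) (.d (nat_lit 651) (nat_lit 650) (nat_lit 1642) (nat_lit 652) (nat_lit 1643))))) (.a (.f (nat_lit 619) (nat_lit 618) (nat_lit 2634) (.d (nat_lit 651) (nat_lit 650) (nat_lit 1642) (nat_lit 652) (nat_lit 1643))) (.a (.f (nat_lit 587) (nat_lit 588) (nat_lit 2603) (.d (nat_lit 619) (nat_lit 586) (nat_lit 3658) (nat_lit 618) (nat_lit 2634))) (.f (nat_lit 588) (nat_lit 587) (nat_lit 2603) (.f (nat_lit 685) (nat_lit 653) (nat_lit 6701) (.f (nat_lit 652) (nat_lit 651) (nat_lit 1643) (.d (nat_lit 684) (nat_lit 716) (nat_lit 6732) (nat_lit 717) (nat_lit 4684))))))))) (.f (nat_lit 624) (nat_lit 625) (nat_lit 3661) (.d (nat_lit 653) (nat_lit 652) (nat_lit 1644) (nat_lit 685) (nat_lit 6701)))))) (.a (.f (nat_lit 588) (nat_lit 587) (nat_lit 2603) (.f (nat_lit 624) (nat_lit 623) (nat_lit 3660) (.p (nat_lit 654) (.a (.f (nat_lit 685) (nat_lit 653) (nat_lit 5677) (.d (nat_lit 686) (nat_lit 717) (nat_lit 5709) (nat_lit 718) (nat_lit 7757))) (.a (.f (nat_lit 687) (nat_lit 655) (nat_lit 4654) (.d (nat_lit 686) (nat_lit 718) (nat_lit 7757) (nat_lit 719) (nat_lit 4686))) (.f (nat_lit 653) (nat_lit 685) (nat_lit 5677) (.f (nat_lit 655) (nat_lit 687) (nat_lit 4654) (.d (nat_lit 656) (nat_lit 625) (nat_lit 2669) (nat_lit 657) (nat_lit 3693))))))))) (.a (.f (nat_lit 653) (nat_lit 685) (nat_lit 6701) (.p (nat_lit 623) (.a (.f (nat_lit 652) (nat_lit 624) (nat_lit 1644) (.d (nat_lit 651) (nat_lit 620) (nat_lit 1643) (nat_lit 650) (nat_lit 2666))) (.a (.p (nat_lit 620) (.a (.f (nat_lit 619) (nat_lit 618) (nat_lit 2634) (.d (nat_lit 651) (nat_lit 650) (nat_lit 1642) (nat_lit 652) (nat_lit 1643))) (.a (.f (nat_lit 619) (nat_lit 618) (nat_lit 2634) (.d (nat_lit 655) (nat_lit 654) (nat_lit 619) (nat_lit 656) (nat_lit 620))) (.f (nat_lit 655) (nat_lit 656) (nat_lit 620) (.d (nat_lit 687) (nat_lit 654) (nat_lit 4654) (nat_lit 719) (nat_lit 7758)))))) (.a (.d (nat_lit 624) (nat_lit 625) (nat_lit 3661) (nat_lit 652) (nat_lit 1644)) (.p (nat_lit 655) (.a (.d (nat_lit 687) (nat_lit 654) (nat_lit 4654) (nat_lit 719) (nat_lit 7758)) (.d (nat_lit 624) (nat_lit 592) (nat_lit 5647) (nat_lit 625) (nat_lit 3661))))))))) (.a (.f (nat_lit 588) (nat_lit 587) (nat_lit 2603) (.f (nat_lit 623) (nat_lit 624) (nat_lit 3660) (.p (nat_lit 620) (.a (.f (nat_lit 619) (nat_lit 618) (nat_lit 2634) (.d (nat_lit 651) (nat_lit 650) (nat_lit 1642) (nat_lit 652) (nat_lit 1643))) (.a (.f (nat_lit 619) (nat_lit 618) (nat_lit 2634) (.d (nat_lit 655) (nat_lit 654) (nat_lit 619) (nat_lit 656) (nat_lit 620))) (.f (nat_lit 655) (nat_lit 656) (nat_lit 620) (.d (nat_lit 687) (nat_lit 654) (nat_lit 4654) (nat_lit 719) (nat_lit 7758)))))))) (.f (nat_lit 588) (nat_lit 587) (nat_lit 2603) (.p (nat_lit 654) (.a (.f (nat_lit 653) (nat_lit 685) (nat_lit 5677) (.f (nat_lit 655) (nat_lit 687) (nat_lit 4654) (.d (nat_lit 620) (nat_lit 619) (nat_lit 619) (nat_lit 656) (nat_lit 3692)))) (.a (.f (nat_lit 685) (nat_lit 653) (nat_lit 5677) (.d (nat_lit 686) (nat_lit 717) (nat_lit 5709) (nat_lit 718) (nat_lit 7757))) (.f (nat_lit 687) (nat_lit 655) (nat_lit 4654) (.d (nat_lit 686) (nat_lit 718) (nat_lit 7757) (nat_lit 719) (nat_lit 4686))))))))))))))))) (.a (.f (nat_lit 589) (nat_lit 561) (nat_lit 1581) (.f (nat_lit 588) (nat_lit 587) (nat_lit 2603) (.p (nat_lit 623) (.a (.f (nat_lit 655) (nat_lit 526) (nat_lit 4622) (.d (nat_lit 687) (nat_lit 654) (nat_lit 4654) (nat_lit 719) (nat_lit 7758))) (.d (nat_lit 624) (nat_lit 621) (nat_lit 3660) (nat_lit 625) (nat_lit 3661)))))) s51102)))))))))))))) (.a (.p (nat_lit 557) (.a (.f (nat_lit 556) (nat_lit 527) (nat_lit 2572) (.d (nat_lit 588) (nat_lit 587) (nat_lit 1579) (nat_lit 589) (nat_lit 1580))) (.a (.f (nat_lit 589) (nat_lit 588) (nat_lit 1580) (.f (nat_lit 561) (nat_lit 590) (nat_lit 1581) (.d (nat_lit 593) (nat_lit 592) (nat_lit 557) (nat_lit 594) (nat_lit 558)))) (.a (.f (nat_lit 556) (nat_lit 527) (nat_lit 2572) (.f (nat_lit 593) (nat_lit 592) (nat_lit 557) (.f (nat_lit 561) (nat_lit 594) (nat_lit 558) (.f (nat_lit 523) (nat_lit 524) (nat_lit 3595) (.f (nat_lit 555) (nat_lit 522) (nat_lit 3594) (.d (nat_lit 587) (nat_lit 586) (nat_lit 1578) (nat_lit 588) (nat_lit 1579))))))) (.f (nat_lit 527) (nat_lit 556) (nat_lit 2572) (.f (nat_lit 592) (nat_lit 593) (nat_lit 557) (.d (nat_lit 495) (nat_lit 463) (nat_lit 4559) (nat_lit 624) (nat_lit 7663)))))))) (.a (.p (nat_lit 557) (.a (.f (nat_lit 556) (nat_lit 527) (nat_lit 2572) (.d (nat_lit 588) (nat_lit 587) (nat_lit 1579) (nat_lit 589) (nat_lit 1580))) (.a (.f (nat_lit 525) (nat_lit 524) (nat_lit 3596) (.f (nat_lit 589) (nat_lit 588) (nat_lit 1580) (.p (nat_lit 493) (.a (.d (nat_lit 590) (nat_lit 461) (nat_lit 4557) (nat_lit 622) (nat_lit 4589)) (.a (.f (nat_lit 461) (nat_lit 590) (nat_lit 4557) (.d (nat_lit 462) (nat_lit 430) (nat_lit 6573) (nat_lit 494) (nat_lit 6605))) (.f (nat_lit 494) (nat_lit 462) (nat_lit 6605) (.f (nat_lit 526) (nat_lit 621) (nat_lit 6637) (.d (nat_lit 492) (nat_lit 460) (nat_lit 7628) (nat_lit 527) (nat_lit 3564))))))))) (.a (.f (nat_lit 556) (nat_lit 527) (nat_lit 2572) (.d (nat_lit 524) (nat_lit 523) (nat_lit 3595) (nat_lit 525) (nat_lit 3596))) (.f (nat_lit 525) (nat_lit 524) (nat_lit 3596) (.f (nat_lit 589) (nat_lit 588) (nat_lit 1580) (.p (nat_lit 493) (.a (.d (nat_lit 590) (nat_lit 461) (nat_lit 4557) (nat_lit 622) (nat_lit 4589)) (.a (.f (nat_lit 461) (nat_lit 590) (nat_lit 4557) (.d (nat_lit 462) (nat_lit 430) (nat_lit 6573) (nat_lit 494) (nat_lit 6605))) (.f (nat_lit 494) (nat_lit 462) (nat_lit 6605) (.f (nat_lit 621) (nat_lit 526) (nat_lit 6637) (.p (nat_lit 653) (.a (.d (nat_lit 654) (nat_lit 622) (nat_lit 4621) (nat_lit 686) (nat_lit 4653)) (.d (nat_lit 652) (nat_lit 620) (nat_lit 5644) (nat_lit 684) (nat_lit 5676))))))))))))))) s51299)))))))))) (.a (.p (nat_lit 527) (.a s50053 (.a s50284 (.a (.p (nat_lit 561) (.a (.d (nat_lit 526) (nat_lit 525) (nat_lit 525) (nat_lit 562) (nat_lit 3598)) (.a (.f (nat_lit 562) (nat_lit 563) (nat_lit 3599) (.f (nat_lit 594) (nat_lit 595) (nat_lit 559) (.f (nat_lit 593) (nat_lit 558) (nat_lit 558) (.f (nat_lit 530) (nat_lit 531) (nat_lit 2575) (.d (nat_lit 498) (nat_lit 466) (nat_lit 5585) (nat_lit 625) (nat_lit 5617)))))) (.f (nat_lit 525) (nat_lit 526) (nat_lit 525) (.p (nat_lit 557) (.a (.d (nat_lit 558) (nat_lit 524) (nat_lit 3596) (nat_lit 556) (nat_lit 2572)) (.a (.f (nat_lit 558) (nat_lit 524) (nat_lit 3596) (.d (nat_lit 593) (nat_lit 592) (nat_lit 557) (nat_lit 594) (nat_lit 558))) (.a (.p (nat_lit 495) (.a (.d (nat_lit 463) (nat_lit 431) (nat_lit 4527) (nat_lit 592) (nat_lit 4559)) (.a (.f (nat_lit 463) (nat_lit 592) (nat_lit 4559) (.f (nat_lit 462) (nat_lit 430) (nat_lit 7598) (.f (nat_lit 494) (nat_lit 591) (nat_lit 7630) (.d (nat_lit 493) (nat_lit 492) (nat_lit 492) (nat_lit 589) (nat_lit 6605))))) (.a (.f (nat_lit 463) (nat_lit 431) (nat_lit 4527) (.f (nat_lit 462) (nat_lit 430) (nat_lit 7598) (.f (nat_lit 494) (nat_lit 591) (nat_lit 7630) (.d (nat_lit 493) (nat_lit 492) (nat_lit 492) (nat_lit 589) (nat_lit 6605))))) (.p (nat_lit 493) (.a (.f (nat_lit 492) (nat_lit 494) (nat_lit 492) (.f (nat_lit 460) (nat_lit 589) (nat_lit 7628) (.d (nat_lit 428) (nat_lit 396) (nat_lit 4492) (nat_lit 524) (nat_lit 4524)))) (.a (.p (nat_lit 461) (.a (.p (nat_lit 429) (.a (.d (nat_lit 556) (nat_lit 524) (nat_lit 5548) (nat_lit 588) (nat_lit 5580)) (.d (nat_lit 428) (nat_lit 396) (nat_lit 7564) (nat_lit 460) (nat_lit 7596)))) (.f (nat_lit 462) (nat_lit 430) (nat_lit 6573) (.d (nat_lit 494) (nat_lit 589) (nat_lit 6605) (nat_lit 591) (nat_lit 7630))))) (.a (.p (nat_lit 461) (.a (.p (nat_lit 429) (.a (.d (nat_lit 556) (nat_lit 524) (nat_lit 5548) (nat_lit 588) (nat_lit 5580)) (.d (nat_lit 428) (nat_lit 396) (nat_lit 7564) (nat_lit 460) (nat_lit 7596)))) (.a (.f (nat_lit 460) (nat_lit 428) (nat_lit 7596) (.p (nat_lit 429) (.a (.p (nat_lit 397) (.a (.d (nat_lit 398) (nat_lit 366) (nat_lit 6509) (nat_lit 430) (nat_lit 6541)) (.d (nat_lit 492) (nat_lit 524) (nat_lit 5516) (nat_lit 589) (nat_lit 7628)))) (.a (.d (nat_lit 430) (nat_lit 398) (nat_lit 6541) (nat_lit 462) (nat_lit 6573)) (.f (nat_lit 492) (nat_lit 589) (nat_lit 7628) (.d (nat_lit 397) (nat_lit 365) (nat_lit 5484) (nat_lit 524) (nat_lit 5516))))))) (.a (.p (nat_lit 589) (.a (.d (nat_lit 588) (nat_lit 556) (nat_lit 5580) (nat_lit 620) (nat_lit 5612)) (.d (nat_lit 460) (nat_lit 428) (nat_lit 7596) (nat_lit 492) (nat_lit 7628)))) (.p (nat_lit 429) (.a (.d (nat_lit 556) (nat_lit 524) (nat_lit 5548) (nat_lit 588) (nat_lit 5580)) (.d (nat_lit 430) (nat_lit 398) (nat_lit 6541) (nat_lit 462) (nat_lit 6573)))))))) (.f (nat_lit 494) (nat_lit 492) (nat_lit 492) (.f (nat_lit 462) (nat_lit 591) (nat_lit 7630) (.d (nat_lit 430) (nat_lit 398) (nat_lit 5517) (nat_lit 461) (nat_lit 6573)))))))))))) (.f (nat_lit 558) (nat_lit 556) (nat_lit 2572) (.d (nat_lit 593) (nat_lit 592) (nat_lit 557) (nat_lit 594) (nat_lit 558))))))))))) (.a (.p (nat_lit 561) (.a (.d (nat_lit 526) (nat_lit 525) (nat_lit 525) (nat_lit 562) (nat_lit 3598)) (.a (.f (nat_lit 562) (nat_lit 563) (nat_lit 3599) (.f (nat_lit 594) (nat_lit 595) (nat_lit 559) (.f (nat_lit 593) (nat_lit 558) (nat_lit 558) (.f (nat_lit 625) (nat_lit 657) (nat_lit 7696) (.d (nat_lit 530) (nat_lit 498) (nat_lit 5617) (nat_lit 531) (nat_lit 2575)))))) (.f (nat_lit 525) (nat_lit 526) (nat_lit 525) (.p (nat_lit 592) (.a (.d (nat_lit 495) (nat_lit 463) (nat_lit 4559) (nat_lit 624) (nat_lit 7663)) (.a (.f (nat_lit 495) (nat_lit 463) (nat_lit 4559) (.p (nat_lit 557) (.a (.d (nat_lit 558) (nat_lit 556) (nat_lit 2572) (nat_lit 593) (nat_lit 557)) (.a (.d (nat_lit 558) (nat_lit 524) (nat_lit 3596) (nat_lit 593) (nat_lit 557)) (.p (nat_lit 493) (.a (.f (nat_lit 492) (nat_lit 494) (nat_lit 492) (.f (nat_lit 460) (nat_lit 589) (nat_lit 7628) (.d (nat_lit 428) (nat_lit 396) (nat_lit 4492) (nat_lit 524) (nat_lit 4524)))) (.a (.p (nat_lit 461) (.a (.p (nat_lit 429) (.a (.d (nat_lit 556) (nat_lit 524) (nat_lit 5548) (nat_lit 588) (nat_lit 5580)) (.d (nat_lit 428) (nat_lit 396) (nat_lit 7564) (nat_lit 460) (nat_lit 7596)))) (.a (.f (nat_lit 462) (nat_lit 430) (nat_lit 6573) (.f (nat_lit 460) (nat_lit 428) (nat_lit 7596) (.d (nat_lit 494) (nat_lit 459) (nat_lit 459) (nat_lit 589) (nat_lit 6605)))) (.p (nat_lit 429) (.a (.d (nat_lit 556) (nat_lit 524) (nat_lit 5548) (nat_lit 588) (nat_lit 5580)) (.d (nat_lit 430) (nat_lit 398) (nat_lit 6541) (nat_lit 462) (nat_lit 6573))))))) (.a s51362 (.a (.p (nat_lit 461) (.a (.p (nat_lit 429) (.a (.d (nat_lit 556) (nat_lit 524) (nat_lit 5548) (nat_lit 588) (nat_lit 5580)) (.d (nat_lit 428) (nat_lit 396) (nat_lit 7564) (nat_lit 460) (nat_lit 7596)))) (.a (.f (nat_lit 494) (nat_lit 492) (nat_lit 492) (.f (nat_lit 428) (nat_lit 460) (nat_lit 7596) (.f (nat_lit 429) (nat_lit 396) (nat_lit 7564) (.d (nat_lit 430) (nat_lit 398) (nat_lit 6541) (nat_lit 462) (nat_lit 6573))))) (.a (.f (nat_lit 494) (nat_lit 492) (nat_lit 492) (.f (nat_lit 460) (nat_lit 428) (nat_lit 7596) (.d (nat_lit 462) (nat_lit 430) (nat_lit 6573) (nat_lit 459) (nat_lit 459)))) (.p (nat_lit 429) (.a (.d (nat_lit 556) (nat_lit 524) (nat_lit 5548) (nat_lit 588) (nat_lit 5580)) (.d (nat_lit 430) (nat_lit 398) (nat_lit 6541) (nat_lit 462) (nat_lit 6573)))))))) (.f (nat_lit 494) (nat_lit 492) (nat_lit 492) (.f (nat_lit 462) (nat_lit 589) (nat_lit 6605) (.d (nat_lit 430) (nat_lit 398) (nat_lit 5517) (nat_lit 461) (nat_lit 6573))))))))))))) (.a (.d (nat_lit 624) (nat_lit 495) (nat_lit 7663) (nat_lit 656) (nat_lit 7695)) (.f (nat_lit 624) (nat_lit 656) (nat_lit 7695) (.f (nat_lit 623) (nat_lit 655) (nat_lit 5647) (.f (nat_lit 625) (nat_lit 657) (nat_lit 4624) (.p (nat_lit 626) (.a (.p (nat_lit 593) (.a (.d (nat_lit 558) (nat_lit 557) (nat_lit 557) (nat_lit 594) (nat_lit 558)) (.f (nat_lit 627) (nat_lit 628) (nat_lit 3664) (.d (nat_lit 659) (nat_lit 658) (nat_lit 623) (nat_lit 660) (nat_lit 624))))) (.a (.p (nat_lit 627) (.a (.d (nat_lit 659) (nat_lit 658) (nat_lit 623) (nat_lit 660) (nat_lit 624)) (.f (nat_lit 596) (nat_lit 595) (nat_lit 2640) (.d (nat_lit 628) (nat_lit 593) (nat_lit 3664) (nat_lit 597) (nat_lit 2641))))) (.a (.f (nat_lit 594) (nat_lit 595) (nat_lit 2639) (.d (nat_lit 593) (nat_lit 558) (nat_lit 558) (nat_lit 622) (nat_lit 2638))) (.f (nat_lit 659) (nat_lit 658) (nat_lit 623) (.f (nat_lit 595) (nat_lit 594) (nat_lit 2639) (.d (nat_lit 627) (nat_lit 596) (nat_lit 2640) (nat_lit 660) (nat_lit 624))))))))))))))))))) (.a (.p (nat_lit 495) (.a (.d (nat_lit 463) (nat_lit 431) (nat_lit 4527) (nat_lit 592) (nat_lit 4559)) (.a (.d (nat_lit 592) (nat_lit 463) (nat_lit 4559) (nat_lit 624) (nat_lit 7663)) (.a (.f (nat_lit 463) (nat_lit 431) (nat_lit 4527) (.f (nat_lit 462) (nat_lit 430) (nat_lit 7598) (.f (nat_lit 494) (nat_lit 591) (nat_lit 7630) (.f (nat_lit 493) (nat_lit 492) (nat_lit 492) (.d (nat_lit 464) (nat_lit 432) (nat_lit 6575) (nat_lit 465) (nat_lit 1485)))))) (.f (nat_lit 624) (nat_lit 592) (nat_lit 7663) (.p (nat_lit 526) (.a (.d (nat_lit 525) (nat_lit 524) (nat_lit 524) (nat_lit 561) (nat_lit 525)) (.a (.f (nat_lit 561) (nat_lit 562) (nat_lit 3598) (.p (nat_lit 623) (.a (.d (nat_lit 591) (nat_lit 655) (nat_lit 6671) (nat_lit 656) (nat_lit 4623)) (.a (.p (nat_lit 625) (.a (.f (nat_lit 657) (nat_lit 593) (nat_lit 7696) (.f (nat_lit 658) (nat_lit 622) (nat_lit 622) (.d (nat_lit 659) (nat_lit 626) (nat_lit 623) (nat_lit 656) (nat_lit 3695)))) (.a (.p (nat_lit 626) (.a (.p (nat_lit 627) (.a (.d (nat_lit 659) (nat_lit 658) (nat_lit 623) (nat_lit 660) (nat_lit 624)) (.d (nat_lit 655) (nat_lit 654) (nat_lit 1646) (nat_lit 656) (nat_lit 1647)))) (.a (.f (nat_lit 593) (nat_lit 657) (nat_lit 7696) (.f (nat_lit 594) (nat_lit 595) (nat_lit 2639) (.d (nat_lit 658) (nat_lit 659) (nat_lit 623) (nat_lit 690) (nat_lit 7729)))) (.p (nat_lit 627) (.a (.d (nat_lit 655) (nat_lit 654) (nat_lit 1646) (nat_lit 656) (nat_lit 1647)) (.d (nat_lit 595) (nat_lit 594) (nat_lit 2639) (nat_lit 596) (nat_lit 2640))))))) (.a (.f (nat_lit 593) (nat_lit 657) (nat_lit 7696) (.f (nat_lit 594) (nat_lit 622) (nat_lit 2638) (.d (nat_lit 595) (nat_lit 596) (nat_lit 1616) (nat_lit 626) (nat_lit 2639)))) (.a (.f (nat_lit 657) (nat_lit 593) (nat_lit 7696) (.f (nat_lit 622) (nat_lit 658) (nat_lit 622) (.f (nat_lit 621) (nat_lit 656) (nat_lit 621) (.d (nat_lit 653) (nat_lit 652) (nat_lit 1644) (nat_lit 654) (nat_lit 1645))))) (.a s50572 (.p (nat_lit 626) (.a (.p (nat_lit 627) (.a (.d (nat_lit 659) (nat_lit 658) (nat_lit 623) (nat_lit 660) (nat_lit 624)) (.d (nat_lit 655) (nat_lit 654) (nat_lit 1646) (nat_lit 656) (nat_lit 1647)))) (.a (.p (nat_lit 622) (.a (.d (nat_lit 654) (nat_lit 653) (nat_lit 1645) (nat_lit 655) (nat_lit 1646)) (.d (nat_lit 594) (nat_lit 593) (nat_lit 2638) (nat_lit 595) (nat_lit 2639)))) (.f (nat_lit 594) (nat_lit 595) (nat_lit 2639) (.f (nat_lit 593) (nat_lit 622) (nat_lit 2638) (.d (nat_lit 658) (nat_lit 659) (nat_lit 623) (nat_lit 690) (nat_lit 7729))))))))))))) (.a (.d (nat_lit 591) (nat_lit 494) (nat_lit 7662) (nat_lit 656) (nat_lit 4623)) (.d (nat_lit 591) (nat_lit 494) (nat_lit 7662) (nat_lit 655) (nat_lit 6671))))))) (.f (nat_lit 525) (nat_lit 524) (nat_lit 524) (.f (nat_lit 557) (nat_lit 556) (nat_lit 1548) (.f (nat_lit 493) (nat_lit 492) (nat_lit 3564) (.p (nat_lit 461) (.a (.p (nat_lit 429) (.a (.d (nat_lit 428) (nat_lit 396) (nat_lit 7564) (nat_lit 460) (nat_lit 7596)) (.a (.f (nat_lit 396) (nat_lit 428) (nat_lit 7564) (.d (nat_lit 397) (nat_lit 364) (nat_lit 7532) (nat_lit 494) (nat_lit 4493))) (.f (nat_lit 397) (nat_lit 494) (nat_lit 4493) (.d (nat_lit 398) (nat_lit 366) (nat_lit 6509) (nat_lit 430) (nat_lit 6541)))))) (.a (.f (nat_lit 462) (nat_lit 430) (nat_lit 6573) (.d (nat_lit 494) (nat_lit 589) (nat_lit 6605) (nat_lit 591) (nat_lit 7630))) (.a (.f (nat_lit 428) (nat_lit 460) (nat_lit 7596) (.f (nat_lit 429) (nat_lit 396) (nat_lit 7564) (.d (nat_lit 430) (nat_lit 398) (nat_lit 6541) (nat_lit 462) (nat_lit 6573)))) (.p (nat_lit 494) (.a (.f (nat_lit 428) (nat_lit 460) (nat_lit 7596) (.d (nat_lit 429) (nat_lit 396) (nat_lit 7564) (nat_lit 397) (nat_lit 4493))) (.d (nat_lit 591) (nat_lit 462) (nat_lit 7630) (nat_lit 623) (nat_lit 7662))))))))))))))))))) (.a (.p (nat_lit 561) (.a (.d (nat_lit 526) (nat_lit 525) (nat_lit 525) (nat_lit 562) (nat_lit 3598)) (.a (.f (nat_lit 562) (nat_lit 563) (nat_lit 3599) (.f (nat_lit 594) (nat_lit 595) (nat_lit 559) (.f (nat_lit 593) (nat_lit 558) (nat_lit 558) (.f (nat_lit 625) (nat_lit 657) (nat_lit 7696) (.d (nat_lit 530) (nat_lit 498) (nat_lit 5617) (nat_lit 531) (nat_lit 2575)))))) (.f (nat_lit 525) (nat_lit 526) (nat_lit 525) (.p (nat_lit 558) (.a (.d (nat_lit 557) (nat_lit 524) (nat_lit 3596) (nat_lit 556) (nat_lit 2572)) (.a (.f (nat_lit 557) (nat_lit 524) (nat_lit 3596) (.d (nat_lit 593) (nat_lit 592) (nat_lit 557) (nat_lit 594) (nat_lit 558))) (.p (nat_lit 624) (.a (.d (nat_lit 592) (nat_lit 495) (nat_lit 7663) (nat_lit 656) (nat_lit 7695)) (.a (.p (nat_lit 623) (.a (.d (nat_lit 591) (nat_lit 655) (nat_lit 6671) (nat_lit 656) (nat_lit 4623)) (.a (.p (nat_lit 625) (.a (.d (nat_lit 593) (nat_lit 594) (nat_lit 558) (nat_lit 657) (nat_lit 7696)) (.a (.f (nat_lit 657) (nat_lit 593) (nat_lit 7696) (.f (nat_lit 658) (nat_lit 622) (nat_lit 622) (.d (nat_lit 659) (nat_lit 626) (nat_lit 623) (nat_lit 656) (nat_lit 3695)))) (.a (.p (nat_lit 626) (.a (.p (nat_lit 627) (.a (.d (nat_lit 659) (nat_lit 658) (nat_lit 623) (nat_lit 660) (nat_lit 624)) (.d (nat_lit 655) (nat_lit 654) (nat_lit 1646) (nat_lit 656) (nat_lit 1647)))) (.a (.p (nat_lit 622) (.a (.d (nat_lit 658) (nat_lit 657) (nat_lit 622) (nat_lit 659) (nat_lit 623)) (.d (nat_lit 654) (nat_lit 653) (nat_lit 1645) (nat_lit 655) (nat_lit 1646)))) (.a (.p (nat_lit 627) (.a (.d (nat_lit 655) (nat_lit 654) (nat_lit 1646) (nat_lit 656) (nat_lit 1647)) (.d (nat_lit 595) (nat_lit 594) (nat_lit 2639) (nat_lit 596) (nat_lit 2640)))) (.f (nat_lit 659) (nat_lit 658) (nat_lit 623) (.f (nat_lit 595) (nat_lit 594) (nat_lit 2639) (.d (nat_lit 627) (nat_lit 596) (nat_lit 2640) (nat_lit 660) (nat_lit 624)))))))) (.p (nat_lit 626) (.a (.d (nat_lit 594) (nat_lit 593) (nat_lit 558) (nat_lit 595) (nat_lit 2639)) (.p (nat_lit 627) (.a (.d (nat_lit 659) (nat_lit 658) (nat_lit 623) (nat_lit 660) (nat_lit 624)) (.d (nat_lit 655) (nat_lit 654) (nat_lit 1646) (nat_lit 656) (nat_lit 1647)))))))))) (.a (.f (nat_lit 593) (nat_lit 594) (nat_lit 558) (.p (nat_lit 622) (.a (.d (nat_lit 591) (nat_lit 654) (nat_lit 5646) (nat_lit 656) (nat_lit 4623)) (.a (.p (nat_lit 621) (.a (.p (nat_lit 620) (.a (.d (nat_lit 652) (nat_lit 651) (nat_lit 1643) (nat_lit 653) (nat_lit 1644)) (.d (nat_lit 588) (nat_lit 587) (nat_lit 3659) (nat_lit 589) (nat_lit 3660)))) (.d (nat_lit 657) (nat_lit 625) (nat_lit 7696) (nat_lit 656) (nat_lit 621)))) (.f (nat_lit 625) (nat_lit 657) (nat_lit 7696) (.d (nat_lit 654) (nat_lit 591) (nat_lit 5646) (nat_lit 653) (nat_lit 1645))))))) (.f (nat_lit 593) (nat_lit 594) (nat_lit 558) (.p (nat_lit 654) (.a (.d (nat_lit 591) (nat_lit 622) (nat_lit 5646) (nat_lit 655) (nat_lit 6671)) (.a (.f (nat_lit 655) (nat_lit 591) (nat_lit 6671) (.d (nat_lit 625) (nat_lit 626) (nat_lit 1646) (nat_lit 657) (nat_lit 7696))) (.a (.f (nat_lit 625) (nat_lit 657) (nat_lit 7696) (.f (nat_lit 653) (nat_lit 622) (nat_lit 1645) (.d (nat_lit 655) (nat_lit 626) (nat_lit 1646) (nat_lit 652) (nat_lit 2668)))) (.f (nat_lit 622) (nat_lit 591) (nat_lit 5646) (.d (nat_lit 625) (nat_lit 653) (nat_lit 1645) (nat_lit 657) (nat_lit 7696)))))))))))) (.f (nat_lit 592) (nat_lit 495) (nat_lit 7663) (.f (nat_lit 593) (nat_lit 594) (nat_lit 558) (.f (nat_lit 623) (nat_lit 655) (nat_lit 5647) (.f (nat_lit 625) (nat_lit 657) (nat_lit 4624) (.f (nat_lit 622) (nat_lit 621) (nat_lit 2637) (.d (nat_lit 654) (nat_lit 591) (nat_lit 5646) (nat_lit 653) (nat_lit 1645))))))))))))))))) (.a (.p (nat_lit 495) (.a (.d (nat_lit 463) (nat_lit 431) (nat_lit 4527) (nat_lit 592) (nat_lit 4559)) (.a (.d (nat_lit 592) (nat_lit 463) (nat_lit 4559) (nat_lit 624) (nat_lit 7663)) (.a (.f (nat_lit 463) (nat_lit 431) (nat_lit 4527) (.f (nat_lit 462) (nat_lit 430) (nat_lit 7598) (.f (nat_lit 494) (nat_lit 591) (nat_lit 7630) (.f (nat_lit 464) (nat_lit 432) (nat_lit 6575) (.d (nat_lit 465) (nat_lit 466) (nat_lit 1486) (nat_lit 493) (nat_lit 1485)))))) (.f (nat_lit 624) (nat_lit 592) (nat_lit 7663) (.p (nat_lit 623) (.a (.d (nat_lit 591) (nat_lit 655) (nat_lit 6671) (nat_lit 656) (nat_lit 4623)) (.a (.p (nat_lit 625) (.a (.p (nat_lit 626) (.a (.f (nat_lit 594) (nat_lit 595) (nat_lit 2639) (.p (nat_lit 657) (.a (.f (nat_lit 658) (nat_lit 659) (nat_lit 623) (.d (nat_lit 562) (nat_lit 530) (nat_lit 5649) (nat_lit 689) (nat_lit 5681))) (.a (.f (nat_lit 593) (nat_lit 561) (nat_lit 7696) (.d (nat_lit 562) (nat_lit 530) (nat_lit 5649) (nat_lit 689) (nat_lit 6705))) (.p (nat_lit 627) (.a (.d (nat_lit 659) (nat_lit 658) (nat_lit 623) (nat_lit 660) (nat_lit 624)) (.d (nat_lit 655) (nat_lit 654) (nat_lit 1646) (nat_lit 656) (nat_lit 1647)))))))) (.a (.f (nat_lit 658) (nat_lit 659) (nat_lit 623) (.f (nat_lit 657) (nat_lit 622) (nat_lit 622) (.p (nat_lit 627) (.a (.d (nat_lit 655) (nat_lit 654) (nat_lit 1646) (nat_lit 656) (nat_lit 1647)) (.a (.d (nat_lit 628) (nat_lit 629) (nat_lit 1649) (nat_lit 656) (nat_lit 1648)) (.p (nat_lit 563) (.a (.d (nat_lit 561) (nat_lit 562) (nat_lit 3599) (nat_lit 593) (nat_lit 7696)) (.d (nat_lit 595) (nat_lit 531) (nat_lit 5650) (nat_lit 596) (nat_lit 2640))))))))) (.a (.f (nat_lit 594) (nat_lit 595) (nat_lit 2639) (.p (nat_lit 657) (.a (.f (nat_lit 562) (nat_lit 530) (nat_lit 5649) (.d (nat_lit 561) (nat_lit 563) (nat_lit 3599) (nat_lit 593) (nat_lit 7696))) (.d (nat_lit 658) (nat_lit 622) (nat_lit 622) (nat_lit 659) (nat_lit 623))))) (.a (.f (nat_lit 594) (nat_lit 595) (nat_lit 2639) (.f (nat_lit 593) (nat_lit 622) (nat_lit 2638) (.d (nat_lit 561) (nat_lit 558) (nat_lit 558) (nat_lit 657) (nat_lit 7696)))) (.a (.f (nat_lit 658) (nat_lit 659) (nat_lit 623) (.f (nat_lit 657) (nat_lit 622) (nat_lit 622) (.p (nat_lit 656) (.a (.d (nat_lit 655) (nat_lit 627) (nat_lit 1647) (nat_lit 654) (nat_lit 1646)) (.p (nat_lit 562) (.a (.d (nat_lit 561) (nat_lit 563) (nat_lit 3599) (nat_lit 593) (nat_lit 7696)) (.d (nat_lit 594) (nat_lit 530) (nat_lit 5649) (nat_lit 689) (nat_lit 5681)))))))) (.a (.f (nat_lit 658) (nat_lit 659) (nat_lit 623) (.f (nat_lit 657) (nat_lit 622) (nat_lit 622) (.p (nat_lit 627) (.a (.d (nat_lit 655) (nat_lit 654) (nat_lit 1646) (nat_lit 656) (nat_lit 1647)) (.d (nat_lit 595) (nat_lit 594) (nat_lit 2639) (nat_lit 596) (nat_lit 2640)))))) (.f (nat_lit 594) (nat_lit 595) (nat_lit 2639) (.f (nat_lit 593) (nat_lit 622) (nat_lit 2638) (.f (nat_lit 561) (nat_lit 558) (nat_lit 558) (.d (nat_lit 658) (nat_lit 659) (nat_lit 623) (nat_lit 690) (nat_lit 7729)))))))))))) (.a (.p (nat_lit 626) (.a (.f (nat_lit 594) (nat_lit 595) (nat_lit 2639) (.p (nat_lit 657) (.a (.f (nat_lit 658) (nat_lit 659) (nat_lit 623) (.d (nat_lit 562) (nat_lit 530) (nat_lit 5649) (nat_lit 689) (nat_lit 5681))) (.a (.f (nat_lit 593) (nat_lit 561) (nat_lit 7696) (.d (nat_lit 562) (nat_lit 530) (nat_lit 5649) (nat_lit 689) (nat_lit 6705))) (.p (nat_lit 627) (.a (.d (nat_lit 659) (nat_lit 658) (nat_lit 623) (nat_lit 660) (nat_lit 624)) (.d (nat_lit 655) (nat_lit 654) (nat_lit 1646) (nat_lit 656) (nat_lit 1647)))))))) (.a (.p (nat_lit 627) (.a (.d (nat_lit 659) (nat_lit 658) (nat_lit 623) (nat_lit 660) (nat_lit 624)) (.d (nat_lit 655) (nat_lit 654) (nat_lit 1646) (nat_lit 656) (nat_lit 1647)))) (.a (.f (nat_lit 594) (nat_lit 595) (nat_lit 2639) (.p (nat_lit 562) (.a (.f (nat_lit 657) (nat_lit 530) (nat_lit 5649) (.d (nat_lit 561) (nat_lit 563) (nat_lit 3599) (nat_lit 593) (nat_lit 7696))) (.a (.f (nat_lit 657) (nat_lit 530) (nat_lit 5649) (.d (nat_lit 593) (nat_lit 561) (nat_lit 7696) (nat_lit 689) (nat_lit 6705))) (.a (.f (nat_lit 658) (nat_lit 659) (nat_lit 623) (.d (nat_lit 657) (nat_lit 530) (nat_lit 5649) (nat_lit 689) (nat_lit 5681))) (.a (.f (nat_lit 561) (nat_lit 563) (nat_lit 3599) (.f (nat_lit 530) (nat_lit 531) (nat_lit 2575) (.d (nat_lit 593) (nat_lit 498) (nat_lit 5617) (nat_lit 558) (nat_lit 558)))) (.f (nat_lit 658) (nat_lit 659) (nat_lit 623) (.d (nat_lit 563) (nat_lit 531) (nat_lit 6674) (nat_lit 561) (nat_lit 3599))))))))) (.a s51556 (.f (nat_lit 594) (nat_lit 595) (nat_lit 2639) (.p (nat_lit 561) (.a (.d (nat_lit 593) (nat_lit 558) (nat_lit 558) (nat_lit 657) (nat_lit 7696)) (.a (.f (nat_lit 657) (nat_lit 593) (nat_lit 7696) (.d (nat_lit 562) (nat_lit 530) (nat_lit 5649) (nat_lit 563) (nat_lit 3599))) (.a (.f (nat_lit 562) (nat_lit 563) (nat_lit 3599) (.d (nat_lit 530) (nat_lit 531) (nat_lit 2575) (nat_lit 657) (nat_lit 5649))) (.f (nat_lit 593) (nat_lit 558) (nat_lit 558) (.f (nat_lit 562) (nat_lit 563) (nat_lit 3599) (.d (nat_lit 530) (nat_lit 498) (nat_lit 5617) (nat_lit 531) (nat_lit 2575)))))))))))))) (.a (.p (nat_lit 626) (.a (.f (nat_lit 658) (nat_lit 659) (nat_lit 623) (.f (nat_lit 657) (nat_lit 622) (nat_lit 622) (.p (nat_lit 627) (.a (.d (nat_lit 655) (nat_lit 654) (nat_lit 1646) (nat_lit 656) (nat_lit 1647)) (.a (.d (nat_lit 628) (nat_lit 629) (nat_lit 1649) (nat_lit 656) (nat_lit 1648)) (.p (nat_lit 563) (.a (.d (nat_lit 561) (nat_lit 562) (nat_lit 3599) (nat_lit 593) (nat_lit 7696)) (.d (nat_lit 595) (nat_lit 531) (nat_lit 5650) (nat_lit 596) (nat_lit 2640))))))))) (.a (.p (nat_lit 627) (.a (.d (nat_lit 659) (nat_lit 658) (nat_lit 623) (nat_lit 660) (nat_lit 624)) (.d (nat_lit 655) (nat_lit 654) (nat_lit 1646) (nat_lit 656) (nat_lit 1647)))) (.a (.p (nat_lit 622) (.a (.d (nat_lit 658) (nat_lit 657) (nat_lit 622) (nat_lit 659) (nat_lit 623)) (.d (nat_lit 654) (nat_lit 653) (nat_lit 1645) (nat_lit 655) (nat_lit 1646)))) (.a (.f (nat_lit 655) (nat_lit 654) (nat_lit 1646) (.f (nat_lit 627) (nat_lit 656) (nat_lit 1647) (.p (nat_lit 628) (.a (.d (nat_lit 660) (nat_lit 659) (nat_lit 624) (nat_lit 661) (nat_lit 625)) (.d (nat_lit 596) (nat_lit 595) (nat_lit 2640) (nat_lit 597) (nat_lit 2641)))))) (.a (.f (nat_lit 658) (nat_lit 659) (nat_lit 623) (.f (nat_lit 657) (nat_lit 622) (nat_lit 622) (.p (nat_lit 627) (.a (.d (nat_lit 628) (nat_lit 629) (nat_lit 1649) (nat_lit 656) (nat_lit 1648)) (.p (nat_lit 563) (.a (.d (nat_lit 561) (nat_lit 562) (nat_lit 3599) (nat_lit 593) (nat_lit 7696)) (.d (nat_lit 595) (nat_lit 531) (nat_lit 5650) (nat_lit 596) (nat_lit 2640)))))))) (.p (nat_lit 657) (.a (.p (nat_lit 627) (.a (.d (nat_lit 655) (nat_lit 654) (nat_lit 1646) (nat_lit 656) (nat_lit 1647)) (.a (.f (nat_lit 628) (nat_lit 656) (nat_lit 1648) (.d (nat_lit 596) (nat_lit 595) (nat_lit 2640) (nat_lit 597) (nat_lit 2641))) (.p (nat_lit 628) (.a (.d (nat_lit 596) (nat_lit 595) (nat_lit 2640) (nat_lit 597) (nat_lit 2641)) (.a (.f (nat_lit 597) (nat_lit 596) (nat_lit 2641) (.d (nat_lit 629) (nat_lit 598) (nat_lit 2642) (nat_lit 658) (nat_lit 1649))) (.f (nat_lit 629) (nat_lit 658) (nat_lit 1649) (.d (nat_lit 661) (nat_lit 660) (nat_lit 625) (nat_lit 662) (nat_lit 626))))))))) (.a (.f (nat_lit 622) (nat_lit 658) (nat_lit 622) (.d (nat_lit 654) (nat_lit 653) (nat_lit 1645) (nat_lit 655) (nat_lit 1646))) (.a (.p (nat_lit 622) (.a (.d (nat_lit 654) (nat_lit 653) (nat_lit 1645) (nat_lit 655) (nat_lit 1646)) (.a (.f (nat_lit 621) (nat_lit 656) (nat_lit 621) (.d (nat_lit 653) (nat_lit 652) (nat_lit 1644) (nat_lit 654) (nat_lit 1645))) (.f (nat_lit 656) (nat_lit 621) (nat_lit 621) (.d (nat_lit 627) (nat_lit 628) (nat_lit 1648) (nat_lit 655) (nat_lit 1647)))))) (.a (.f (nat_lit 622) (nat_lit 658) (nat_lit 622) (.f (nat_lit 621) (nat_lit 656) (nat_lit 621) (.d (nat_lit 653) (nat_lit 652) (nat_lit 1644) (nat_lit 654) (nat_lit 1645)))) (.p (nat_lit 656) (.a (.d (nat_lit 622) (nat_lit 621) (nat_lit 621) (nat_lit 658) (nat_lit 622)) (.d (nat_lit 627) (nat_lit 628) (nat_lit 1648) (nat_lit 655) (nat_lit 1647))))))))))))))) (.a (.p (nat_lit 626) (.a (.f (nat_lit 594) (nat_lit 595) (nat_lit 2639) (.p (nat_lit 657) (.a (.f (nat_lit 658) (nat_lit 659) (nat_lit 623) (.d (nat_lit 562) (nat_lit 530) (nat_lit 5649) (nat_lit 689) (nat_lit 5681))) (.d (nat_lit 593) (nat_lit 561) (nat_lit 7696) (nat_lit 622) (nat_lit 2638))))) (.a (.f (nat_lit 594) (nat_lit 595) (nat_lit 2639) (.p (nat_lit 657) (.a (.f (nat_lit 658) (nat_lit 659) (nat_lit 623) (.d (nat_lit 562) (nat_lit 530) (nat_lit 5649) (nat_lit 689) (nat_lit 5681))) (.a (.f (nat_lit 593) (nat_lit 561) (nat_lit 7696) (.d (nat_lit 562) (nat_lit 530) (nat_lit 5649) (nat_lit 689) (nat_lit 6705))) (.p (nat_lit 627) (.a (.d (nat_lit 659) (nat_lit 658) (nat_lit 623) (nat_lit 660) (nat_lit 624)) (.d (nat_lit 655) (nat_lit 654) (nat_lit 1646) (nat_lit 656) (nat_lit 1647)))))))) (.a (.f (nat_lit 658) (nat_lit 659) (nat_lit 623) (.f (nat_lit 657) (nat_lit 622) (nat_lit 622) (.p (nat_lit 627) (.a (.d (nat_lit 655) (nat_lit 654) (nat_lit 1646) (nat_lit 656) (nat_lit 1647)) (.a (.d (nat_lit 628) (nat_lit 629) (nat_lit 1649) (nat_lit 656) (nat_lit 1648)) (.f (nat_lit 596) (nat_lit 595) (nat_lit 2640) (.d (nat_lit 628) (nat_lit 597) (nat_lit 2641) (nat_lit 629) (nat_lit 1649)))))))) (.a (.f (nat_lit 594) (nat_lit 595) (nat_lit 2639) (.f (nat_lit 593) (nat_lit 622) (nat_lit 2638) (.d (nat_lit 561) (nat_lit 558) (nat_lit 558) (nat_lit 657) (nat_lit 7696)))) (.a (.f (nat_lit 658) (nat_lit 659) (nat_lit 623) (.f (nat_lit 657) (nat_lit 622) (nat_lit 622) (.p (nat_lit 656) (.a (.d (nat_lit 655) (nat_lit 627) (nat_lit 1647) (nat_lit 654) (nat_lit 1646)) (.p (nat_lit 562) (.a (.d (nat_lit 561) (nat_lit 563) (nat_lit 3599) (nat_lit 593) (nat_lit 7696)) (.d (nat_lit 594) (nat_lit 530) (nat_lit 5649) (nat_lit 689) (nat_lit 5681)))))))) (.f (nat_lit 594) (nat_lit 595) (nat_lit 2639) (.f (nat_lit 593) (nat_lit 622) (nat_lit 2638) (.f (nat_lit 561) (nat_lit 558) (nat_lit 558) (.d (nat_lit 658) (nat_lit 659) (nat_lit 623) (nat_lit 690) (nat_lit 7729))))))))))) (.a (.p (nat_lit 622) (.a (.f (nat_lit 657) (nat_lit 658) (nat_lit 622) (.d (nat_lit 593) (nat_lit 561) (nat_lit 7696) (nat_lit 594) (nat_lit 2638))) (.a (.f (nat_lit 657) (nat_lit 658) (nat_lit 622) (.f (nat_lit 621) (nat_lit 656) (nat_lit 621) (.d (nat_lit 653) (nat_lit 652) (nat_lit 1644) (nat_lit 654) (nat_lit 1645)))) (.a (.f (nat_lit 593) (nat_lit 594) (nat_lit 2638) (.p (nat_lit 621) (.a (.d (nat_lit 657) (nat_lit 561) (nat_lit 7696) (nat_lit 656) (nat_lit 621)) (.d (nat_lit 653) (nat_lit 652) (nat_lit 1644) (nat_lit 654) (nat_lit 1645))))) (.f (nat_lit 594) (nat_lit 593) (nat_lit 2638) (.f (nat_lit 626) (nat_lit 595) (nat_lit 2639) (.d (nat_lit 654) (nat_lit 653) (nat_lit 1645) (nat_lit 655) (nat_lit 1646)))))))) (.a (.p (nat_lit 626) (.a (.f (nat_lit 594) (nat_lit 595) (nat_lit 2639) (.f (nat_lit 593) (nat_lit 622) (nat_lit 2638) (.d (nat_lit 561) (nat_lit 558) (nat_lit 558) (nat_lit 657) (nat_lit 7696)))) (.a s51556 (.a (.f (nat_lit 655) (nat_lit 654) (nat_lit 1646) (.f (nat_lit 627) (nat_lit 656) (nat_lit 1647) (.p (nat_lit 628) (.a (.d (nat_lit 660) (nat_lit 659) (nat_lit 624) (nat_lit 661) (nat_lit 625)) (.d (nat_lit 596) (nat_lit 595) (nat_lit 2640) (nat_lit 597) (nat_lit 2641)))))) (.p (nat_lit 622) (.a (.d (nat_lit 654) (nat_lit 653) (nat_lit 1645) (nat_lit 655) (nat_lit 1646)) (.a (.f (nat_lit 593) (nat_lit 594) (nat_lit 2638) (.p (nat_lit 621) (.a (.d (nat_lit 657) (nat_lit 561) (nat_lit 7696) (nat_lit 656) (nat_lit 621)) (.d (nat_lit 653) (nat_lit 652) (nat_lit 1644) (nat_lit 654) (nat_lit 1645))))) (.p (nat_lit 657) (.a (.d (nat_lit 593) (nat_lit 561) (nat_lit 7696) (nat_lit 594) (nat_lit 2638)) (.f (nat_lit 656) (nat_lit 621) (nat_lit 621) (.d (nat_lit 627) (nat_lit 628) (nat_lit 1648) (nat_lit 655) (nat_lit 1647)))))))))))) (.a (.p (nat_lit 593) (.a (.f (nat_lit 594) (nat_lit 622) (nat_lit 2638) (.d (nat_lit 561) (nat_lit 558) (nat_lit 558) (nat_lit 657) (nat_lit 7696))) (.a (.f (nat_lit 561) (nat_lit 657) (nat_lit 7696) (.f (nat_lit 594) (nat_lit 558) (nat_lit 558) (.d (nat_lit 562) (nat_lit 563) (nat_lit 3599) (nat_lit 595) (nat_lit 559)))) (.a (.f (nat_lit 657) (nat_lit 561) (nat_lit 7696) (.f (nat_lit 658) (nat_lit 622) (nat_lit 622) (.d (nat_lit 659) (nat_lit 626) (nat_lit 623) (nat_lit 656) (nat_lit 3695)))) (.f (nat_lit 594) (nat_lit 622) (nat_lit 2638) (.d (nat_lit 595) (nat_lit 596) (nat_lit 1616) (nat_lit 626) (nat_lit 2639))))))) (.a (.p (nat_lit 622) (.a (.f (nat_lit 657) (nat_lit 658) (nat_lit 622) (.d (nat_lit 593) (nat_lit 561) (nat_lit 7696) (nat_lit 594) (nat_lit 2638))) (.a (.f (nat_lit 657) (nat_lit 658) (nat_lit 622) (.f (nat_lit 621) (nat_lit 656) (nat_lit 621) (.d (nat_lit 653) (nat_lit 652) (nat_lit 1644) (nat_lit 654) (nat_lit 1645)))) (.a (.f (nat_lit 654) (nat_lit 653) (nat_lit 1645) (.p (nat_lit 657) (.a (.d (nat_lit 593) (nat_lit 561) (nat_lit 7696) (nat_lit 594) (nat_lit 2638)) (.f (nat_lit 621) (nat_lit 656) (nat_lit 621) (.p (nat_lit 620) (.a (.d (nat_lit 588) (nat_lit 587) (nat_lit 3659) (nat_lit 589) (nat_lit 3660)) (.d (nat_lit 655) (nat_lit 619) (nat_lit 619) (nat_lit 626) (nat_lit 1646)))))))) (.f (nat_lit 593) (nat_lit 594) (nat_lit 2638) (.p (nat_lit 621) (.a (.d (nat_lit 653) (nat_lit 652) (nat_lit 1644) (nat_lit 654) (nat_lit 1645)) (.a (.p (nat_lit 620) (.a (.d (nat_lit 652) (nat_lit 651) (nat_lit 1643) (nat_lit 653) (nat_lit 1644)) (.d (nat_lit 588) (nat_lit 587) (nat_lit 3659) (nat_lit 589) (nat_lit 3660)))) (.a (.p (nat_lit 620) (.a (.d (nat_lit 588) (nat_lit 587) (nat_lit 3659) (nat_lit 589) (nat_lit 3660)) (.p (nat_lit 619) (.a (.d (nat_lit 651) (nat_lit 650) (nat_lit 1642) (nat_lit 652) (nat_lit 1643)) (.d (nat_lit 655) (nat_lit 654) (nat_lit 619) (nat_lit 656) (nat_lit 620)))))) (.f (nat_lit 654) (nat_lit 653) (nat_lit 1645) (.p (nat_lit 620) (.a (.d (nat_lit 588) (nat_lit 587) (nat_lit 3659) (nat_lit 589) (nat_lit 3660)) (.d (nat_lit 655) (nat_lit 626) (nat_lit 1646) (nat_lit 656) (nat_lit 620)))))))))))))) (.a (.p (nat_lit 622) (.a (.f (nat_lit 657) (nat_lit 658) (nat_lit 622) (.d (nat_lit 593) (nat_lit 561) (nat_lit 7696) (nat_lit 594) (nat_lit 2638))) (.a (.f (nat_lit 657) (nat_lit 658) (nat_lit 622) (.f (nat_lit 621) (nat_lit 656) (nat_lit 621) (.d (nat_lit 653) (nat_lit 652) (nat_lit 1644) (nat_lit 654) (nat_lit 1645)))) (.a (.f (nat_lit 593) (nat_lit 594) (nat_lit 2638) (.p (nat_lit 621) (.a (.d (nat_lit 657) (nat_lit 561) (nat_lit 7696) (nat_lit 656) (nat_lit 621)) (.d (nat_lit 653) (nat_lit 652) (nat_lit 1644) (nat_lit 654) (nat_lit 1645))))) (.f (nat_lit 593) (nat_lit 594) (nat_lit 2638) (.p (nat_lit 621) (.a (.d (nat_lit 653) (nat_lit 652) (nat_lit 1644) (nat_lit 654) (nat_lit 1645)) (.a (.p (nat_lit 620) (.a (.d (nat_lit 652) (nat_lit 651) (nat_lit 1643) (nat_lit 653) (nat_lit 1644)) (.d (nat_lit 588) (nat_lit 587) (nat_lit 3659) (nat_lit 589) (nat_lit 3660)))) (.a (.p (nat_lit 620) (.a (.d (nat_lit 588) (nat_lit 587) (nat_lit 3659) (nat_lit 589) (nat_lit 3660)) (.p (nat_lit 619) (.a (.d (nat_lit 651) (nat_lit 650) (nat_lit 1642) (nat_lit 652) (nat_lit 1643)) (.d (nat_lit 655) (nat_lit 654) (nat_lit 619) (nat_lit 656) (nat_lit 620)))))) (.p (nat_lit 620) (.a (.d (nat_lit 588) (nat_lit 587) (nat_lit 3659) (nat_lit 589) (nat_lit 3660)) (.a (.p (nat_lit 619) (.a (.d (nat_lit 587) (nat_lit 586) (nat_lit 3658) (nat_lit 588) (nat_lit 3659)) (.d (nat_lit 654) (nat_lit 653) (nat_lit 1645) (nat_lit 655) (nat_lit 619)))) (.f (nat_lit 654) (nat_lit 653) (nat_lit 1645) (.d (nat_lit 655) (nat_lit 619) (nat_lit 619) (nat_lit 656) (nat_lit 620))))))))))))))) (.a (.p (nat_lit 626) (.a (.f (nat_lit 658) (nat_lit 659) (nat_lit 623) (.f (nat_lit 657) (nat_lit 622) (nat_lit 622) (.p (nat_lit 627) (.a (.d (nat_lit 655) (nat_lit 654) (nat_lit 1646) (nat_lit 656) (nat_lit 1647)) (.d (nat_lit 595) (nat_lit 594) (nat_lit 2639) (nat_lit 596) (nat_lit 2640)))))) (.a (.p (nat_lit 627) (.a (.d (nat_lit 659) (nat_lit 658) (nat_lit 623) (nat_lit 660) (nat_lit 624)) (.d (nat_lit 655) (nat_lit 654) (nat_lit 1646) (nat_lit 656) (nat_lit 1647)))) (.a (.f (nat_lit 658) (nat_lit 659) (nat_lit 623) (.f (nat_lit 657) (nat_lit 622) (nat_lit 622) (.f (nat_lit 594) (nat_lit 595) (nat_lit 2639) (.d (nat_lit 562) (nat_lit 530) (nat_lit 5649) (nat_lit 689) (nat_lit 5681))))) (.p (nat_lit 627) (.a (.d (nat_lit 655) (nat_lit 654) (nat_lit 1646) (nat_lit 656) (nat_lit 1647)) (.d (nat_lit 595) (nat_lit 594) (nat_lit 2639) (nat_lit 596) (nat_lit 2640)))))))) (.a (.p (nat_lit 626) (.a (.f (nat_lit 594) (nat_lit 595) (nat_lit 2639) (.f (nat_lit 593) (nat_lit 622) (nat_lit 2638) (.d (nat_lit 561) (nat_lit 558) (nat_lit 558) (nat_lit 657) (nat_lit 7696)))) (.a (.f (nat_lit 594) (nat_lit 595) (nat_lit 2639) (.p (nat_lit 562) (.a (.f (nat_lit 657) (nat_lit 530) (nat_lit 5649) (.d (nat_lit 561) (nat_lit 563) (nat_lit 3599) (nat_lit 593) (nat_lit 7696))) (.a (.f (nat_lit 657) (nat_lit 530) (nat_lit 5649) (.d (nat_lit 593) (nat_lit 561) (nat_lit 7696) (nat_lit 689) (nat_lit 6705))) (.a (.f (nat_lit 658) (nat_lit 659) (nat_lit 623) (.d (nat_lit 657) (nat_lit 530) (nat_lit 5649) (nat_lit 689) (nat_lit 5681))) (.f (nat_lit 658) (nat_lit 659) (nat_lit 623) (.d (nat_lit 563) (nat_lit 531) (nat_lit 6674) (nat_lit 561) (nat_lit 3599)))))))) (.a (.p (nat_lit 622) (.a (.d (nat_lit 658) (nat_lit 657) (nat_lit 622) (nat_lit 659) (nat_lit 623)) (.d (nat_lit 654) (nat_lit 653) (nat_lit 1645) (nat_lit 655) (nat_lit 1646)))) (.f (nat_lit 594) (nat_lit 595) (nat_lit 2639) (.f (nat_lit 593) (nat_lit 622) (nat_lit 2638) (.f (nat_lit 561) (nat_lit 558) (nat_lit 558) (.d (nat_lit 658) (nat_lit 659) (nat_lit 623) (nat_lit 690) (nat_lit 7729))))))))) (.p (nat_lit 626) (.a (.f (nat_lit 594) (nat_lit 595) (nat_lit 2639) (.f (nat_lit 593) (nat_lit 622) (nat_lit 2638) (.f (nat_lit 561) (nat_lit 558) (nat_lit 558) (.d (nat_lit 658) (nat_lit 659) (nat_lit 623) (nat_lit 690) (nat_lit 7729))))) (.a (.f (nat_lit 659) (nat_lit 658) (nat_lit 623) (.f (nat_lit 595) (nat_lit 594) (nat_lit 2639) (.d (nat_lit 627) (nat_lit 596) (nat_lit 2640) (nat_lit 660) (nat_lit 624)))) (.a (.p (nat_lit 627) (.a (.d (nat_lit 659) (nat_lit 658) (nat_lit 623) (nat_lit 660) (nat_lit 624)) (.d (nat_lit 655) (nat_lit 654) (nat_lit 1646) (nat_lit 656) (nat_lit 1647)))) (.p (nat_lit 622) (.a (.d (nat_lit 654) (nat_lit 653) (nat_lit 1645) (nat_lit 655) (nat_lit 1646)) (.d (nat_lit 594) (nat_lit 593) (nat_lit 2638) (nat_lit 595) (nat_lit 2639)))))))))))))))))))) (.a (.p (nat_lit 622) (.a (.d (nat_lit 591) (nat_lit 654) (nat_lit 5646) (nat_lit 656) (nat_lit 4623)) (.a (.p (nat_lit 621) (.a (.p (nat_lit 620) (.a (.d (nat_lit 652) (nat_lit 651) (nat_lit 1643) (nat_lit 653) (nat_lit 1644)) (.d (nat_lit 588) (nat_lit 587) (nat_lit 3659) (nat_lit 589) (nat_lit 3660)))) (.a (.f (nat_lit 653) (nat_lit 652) (nat_lit 1644) (.f (nat_lit 625) (nat_lit 654) (nat_lit 1645) (.d (nat_lit 657) (nat_lit 656) (nat_lit 621) (nat_lit 658) (nat_lit 622)))) (.f (nat_lit 588) (nat_lit 589) (nat_lit 3660) (.f (nat_lit 620) (nat_lit 587) (nat_lit 3659) (.f (nat_lit 657) (nat_lit 656) (nat_lit 621) (.f (nat_lit 625) (nat_lit 658) (nat_lit 622) (.d (nat_lit 593) (nat_lit 561) (nat_lit 7696) (nat_lit 594) (nat_lit 2638))))))))) (.a (.f (nat_lit 656) (nat_lit 591) (nat_lit 4623) (.f (nat_lit 621) (nat_lit 657) (nat_lit 621) (.p (nat_lit 620) (.a (.d (nat_lit 652) (nat_lit 651) (nat_lit 1643) (nat_lit 653) (nat_lit 1644)) (.d (nat_lit 588) (nat_lit 587) (nat_lit 3659) (nat_lit 589) (nat_lit 3660)))))) (.f (nat_lit 654) (nat_lit 591) (nat_lit 5646) (.f (nat_lit 625) (nat_lit 653) (nat_lit 1645) (.f (nat_lit 657) (nat_lit 658) (nat_lit 622) (.d (nat_lit 593) (nat_lit 561) (nat_lit 7696) (nat_lit 594) (nat_lit 2638))))))))) (.f (nat_lit 655) (nat_lit 591) (nat_lit 6671) (.p (nat_lit 625) (.a (.f (nat_lit 626) (nat_lit 654) (nat_lit 1646) (.f (nat_lit 594) (nat_lit 595) (nat_lit 2639) (.p (nat_lit 657) (.a (.f (nat_lit 562) (nat_lit 530) (nat_lit 5649) (.d (nat_lit 561) (nat_lit 563) (nat_lit 3599) (nat_lit 593) (nat_lit 7696))) (.d (nat_lit 658) (nat_lit 622) (nat_lit 622) (nat_lit 659) (nat_lit 623)))))) (.a (.f (nat_lit 626) (nat_lit 654) (nat_lit 1646) (.f (nat_lit 594) (nat_lit 595) (nat_lit 2639) (.f (nat_lit 658) (nat_lit 659) (nat_lit 623) (.p (nat_lit 562) (.a (.d (nat_lit 657) (nat_lit 530) (nat_lit 5649) (nat_lit 689) (nat_lit 5681)) (.d (nat_lit 563) (nat_lit 531) (nat_lit 6674) (nat_lit 561) (nat_lit 3599))))))) (.a (.f (nat_lit 654) (nat_lit 626) (nat_lit 1646) (.d (nat_lit 653) (nat_lit 622) (nat_lit 1645) (nat_lit 652) (nat_lit 2668))) (.a (.p (nat_lit 594) (.a (.f (nat_lit 593) (nat_lit 622) (nat_lit 2638) (.d (nat_lit 561) (nat_lit 558) (nat_lit 558) (nat_lit 657) (nat_lit 7696))) (.a (.f (nat_lit 595) (nat_lit 626) (nat_lit 2639) (.f (nat_lit 561) (nat_lit 562) (nat_lit 559) (.d (nat_lit 593) (nat_lit 558) (nat_lit 558) (nat_lit 657) (nat_lit 7696)))) (.a (.f (nat_lit 595) (nat_lit 626) (nat_lit 2639) (.d (nat_lit 593) (nat_lit 596) (nat_lit 1616) (nat_lit 622) (nat_lit 2638))) (.f (nat_lit 626) (nat_lit 595) (nat_lit 2639) (.f (nat_lit 658) (nat_lit 659) (nat_lit 623) (.p (nat_lit 562) (.a (.d (nat_lit 657) (nat_lit 530) (nat_lit 5649) (nat_lit 689) (nat_lit 5681)) (.d (nat_lit 563) (nat_lit 531) (nat_lit 6674) (nat_lit 561) (nat_lit 3599)))))))))) (.p (nat_lit 622) (.a (.p (nat_lit 621) (.a (.d (nat_lit 653) (nat_lit 652) (nat_lit 1644) (nat_lit 654) (nat_lit 1645)) (.a (.p (nat_lit 561) (.a (.d (nat_lit 657) (nat_lit 593) (nat_lit 7696) (nat_lit 658) (nat_lit 622)) (.a (.d (nat_lit 593) (nat_lit 594) (nat_lit 2638) (nat_lit 657) (nat_lit 7696)) (.p (nat_lit 620) (.a (.d (nat_lit 652) (nat_lit 651) (nat_lit 1643) (nat_lit 653) (nat_lit 1644)) (.d (nat_lit 588) (nat_lit 587) (nat_lit 3659) (nat_lit 589) (nat_lit 3660))))))) (.p (nat_lit 620) (.a (.d (nat_lit 588) (nat_lit 587) (nat_lit 3659) (nat_lit 589) (nat_lit 3660)) (.a (.f (nat_lit 587) (nat_lit 588) (nat_lit 3659) (.d (nat_lit 619) (nat_lit 586) (nat_lit 3658) (nat_lit 654) (nat_lit 619))) (.f (nat_lit 657) (nat_lit 658) (nat_lit 622) (.d (nat_lit 593) (nat_lit 561) (nat_lit 7696) (nat_lit 594) (nat_lit 2638))))))))) (.a (.p (nat_lit 621) (.a (.d (nat_lit 653) (nat_lit 652) (nat_lit 1644) (nat_lit 654) (nat_lit 1645)) (.a (.p (nat_lit 620) (.a (.d (nat_lit 652) (nat_lit 651) (nat_lit 1643) (nat_lit 653) (nat_lit 1644)) (.d (nat_lit 588) (nat_lit 587) (nat_lit 3659) (nat_lit 589) (nat_lit 3660)))) (.a (.p (nat_lit 620) (.a (.d (nat_lit 588) (nat_lit 587) (nat_lit 3659) (nat_lit 589) (nat_lit 3660)) (.a (.f (nat_lit 587) (nat_lit 588) (nat_lit 3659) (.d (nat_lit 619) (nat_lit 586) (nat_lit 3658) (nat_lit 654) (nat_lit 619))) (.f (nat_lit 619) (nat_lit 654) (nat_lit 619) (.d (nat_lit 651) (nat_lit 650) (nat_lit 1642) (nat_lit 652) (nat_lit 1643)))))) (.p (nat_lit 620) (.a (.d (nat_lit 588) (nat_lit 587) (nat_lit 3659) (nat_lit 589) (nat_lit 3660)) (.d (nat_lit 654) (nat_lit 619) (nat_lit 619) (nat_lit 653) (nat_lit 1645)))))))) (.f (nat_lit 657) (nat_lit 658) (nat_lit 622) (.d (nat_lit 593) (nat_lit 561) (nat_lit 7696) (nat_lit 594) (nat_lit 2638))))))))))))))))))))) (.a (.p (nat_lit 561) (.a (.d (nat_lit 526) (nat_lit 525) (nat_lit 525) (nat_lit 562) (nat_lit 3598)) (.a (.f (nat_lit 562) (nat_lit 563) (nat_lit 3599) (.f (nat_lit 594) (nat_lit 595) (nat_lit 559) (.f (nat_lit 593) (nat_lit 558) (nat_lit 558) (.f (nat_lit 530) (nat_lit 531) (nat_lit 2575) (.d (nat_lit 498) (nat_lit 466) (nat_lit 5585) (nat_lit 625) (nat_lit 5617)))))) (.f (nat_lit 525) (nat_lit 526) (nat_lit 525) (.p (nat_lit 557) (.a (.d (nat_lit 558) (nat_lit 524) (nat_lit 3596) (nat_lit 556) (nat_lit 2572)) (.a (.p (nat_lit 589) (.a (.d (nat_lit 558) (nat_lit 524) (nat_lit 3596) (nat_lit 588) (nat_lit 1580)) (.a (.p (nat_lit 621) (.a (.f (nat_lit 620) (nat_lit 652) (nat_lit 5644) (.f (nat_lit 493) (nat_lit 588) (nat_lit 5612) (.d (nat_lit 492) (nat_lit 460) (nat_lit 7628) (nat_lit 524) (nat_lit 7660)))) (.a (.p (nat_lit 653) (.a (.d (nat_lit 654) (nat_lit 622) (nat_lit 4621) (nat_lit 686) (nat_lit 4653)) (.d (nat_lit 652) (nat_lit 620) (nat_lit 5644) (nat_lit 684) (nat_lit 5676)))) (.f (nat_lit 654) (nat_lit 622) (nat_lit 4621) (.f (nat_lit 653) (nat_lit 686) (nat_lit 4653) (.f (nat_lit 492) (nat_lit 524) (nat_lit 7660) (.f (nat_lit 493) (nat_lit 460) (nat_lit 7628) (.d (nat_lit 494) (nat_lit 462) (nat_lit 6605) (nat_lit 495) (nat_lit 492))))))))) (.a (.f (nat_lit 524) (nat_lit 558) (nat_lit 3596) (.f (nat_lit 492) (nat_lit 621) (nat_lit 7660) (.d (nat_lit 460) (nat_lit 428) (nat_lit 4524) (nat_lit 493) (nat_lit 7628)))) (.f (nat_lit 588) (nat_lit 558) (nat_lit 1580) (.f (nat_lit 493) (nat_lit 620) (nat_lit 5612) (.f (nat_lit 494) (nat_lit 462) (nat_lit 6605) (.d (nat_lit 492) (nat_lit 460) (nat_lit 7628) (nat_lit 495) (nat_lit 492))))))))) (.a (.p (nat_lit 493) (.a (.p (nat_lit 461) (.a (.f (nat_lit 460) (nat_lit 428) (nat_lit 7596) (.f (nat_lit 492) (nat_lit 589) (nat_lit 7628) (.p (nat_lit 429) (.a (.d (nat_lit 397) (nat_lit 365) (nat_lit 5484) (nat_lit 524) (nat_lit 5516)) (.a (.d (nat_lit 556) (nat_lit 524) (nat_lit 5548) (nat_lit 588) (nat_lit 5580)) (.f (nat_lit 397) (nat_lit 365) (nat_lit 5484) (.d (nat_lit 398) (nat_lit 366) (nat_lit 6509) (nat_lit 430) (nat_lit 6541)))))))) (.a (.f (nat_lit 462) (nat_lit 430) (nat_lit 6573) (.p (nat_lit 492) (.a (.d (nat_lit 494) (nat_lit 495) (nat_lit 492) (nat_lit 589) (nat_lit 6605)) (.a (.d (nat_lit 460) (nat_lit 428) (nat_lit 7596) (nat_lit 589) (nat_lit 7628)) (.f (nat_lit 463) (nat_lit 464) (nat_lit 1484) (.d (nat_lit 495) (nat_lit 431) (nat_lit 4527) (nat_lit 494) (nat_lit 492))))))) (.a (.f (nat_lit 462) (nat_lit 430) (nat_lit 6573) (.f (nat_lit 494) (nat_lit 589) (nat_lit 6605) (.f (nat_lit 460) (nat_lit 428) (nat_lit 7596) (.d (nat_lit 459) (nat_lit 458) (nat_lit 458) (nat_lit 495) (nat_lit 459))))) (.a (.f (nat_lit 462) (nat_lit 430) (nat_lit 6573) (.p (nat_lit 492) (.a (.f (nat_lit 460) (nat_lit 428) (nat_lit 7596) (.d (nat_lit 463) (nat_lit 464) (nat_lit 1484) (nat_lit 491) (nat_lit 1483))) (.a (.f (nat_lit 494) (nat_lit 495) (nat_lit 492) (.d (nat_lit 463) (nat_lit 464) (nat_lit 1484) (nat_lit 491) (nat_lit 2507))) (.p (nat_lit 429) (.a (.d (nat_lit 556) (nat_lit 524) (nat_lit 5548) (nat_lit 588) (nat_lit 5580)) (.d (nat_lit 428) (nat_lit 396) (nat_lit 7564) (nat_lit 460) (nat_lit 7596)))))))) (.a (.f (nat_lit 462) (nat_lit 430) (nat_lit 6573) (.f (nat_lit 494) (nat_lit 589) (nat_lit 6605) (.d (nat_lit 495) (nat_lit 492) (nat_lit 492) (nat_lit 591) (nat_lit 7630)))) (.f (nat_lit 460) (nat_lit 428) (nat_lit 7596) (.f (nat_lit 492) (nat_lit 589) (nat_lit 7628) (.p (nat_lit 524) (.a (.d (nat_lit 556) (nat_lit 429) (nat_lit 5548) (nat_lit 588) (nat_lit 5580)) (.p (nat_lit 463) (.a (.d (nat_lit 495) (nat_lit 431) (nat_lit 4527) (nat_lit 494) (nat_lit 492)) (.d (nat_lit 462) (nat_lit 464) (nat_lit 1484) (nat_lit 491) (nat_lit 1483)))))))))))))) (.a (.p (nat_lit 461) (.a (.f (nat_lit 460) (nat_lit 428) (nat_lit 7596) (.f (nat_lit 492) (nat_lit 589) (nat_lit 7628) (.p (nat_lit 429) (.a (.d (nat_lit 397) (nat_lit 365) (nat_lit 5484) (nat_lit 524) (nat_lit 5516)) (.a (.d (nat_lit 556) (nat_lit 524) (nat_lit 5548) (nat_lit 588) (nat_lit 5580)) (.f (nat_lit 397) (nat_lit 365) (nat_lit 5484) (.d (nat_lit 398) (nat_lit 366) (nat_lit 6509) (nat_lit 430) (nat_lit 6541)))))))) (.a (.f (nat_lit 460) (nat_lit 428) (nat_lit 7596) (.f (nat_lit 492) (nat_lit 589) (nat_lit 7628) (.p (nat_lit 429) (.a (.d (nat_lit 397) (nat_lit 365) (nat_lit 5484) (nat_lit 524) (nat_lit 5516)) (.p (nat_lit 431) (.a (.d (nat_lit 430) (nat_lit 398) (nat_lit 6541) (nat_lit 432) (nat_lit 1452)) (.d (nat_lit 495) (nat_lit 463) (nat_lit 4527) (nat_lit 494) (nat_lit 492)))))))) (.a (.p (nat_lit 429) (.a (.d (nat_lit 556) (nat_lit 524) (nat_lit 5548) (nat_lit 588) (nat_lit 5580)) (.d (nat_lit 428) (nat_lit 396) (nat_lit 7564) (nat_lit 460) (nat_lit 7596)))) (.a (.p (nat_lit 589) (.a (.d (nat_lit 588) (nat_lit 556) (nat_lit 5580) (nat_lit 620) (nat_lit 5612)) (.d (nat_lit 460) (nat_lit 428) (nat_lit 7596) (nat_lit 492) (nat_lit 7628)))) (.a (.f (nat_lit 556) (nat_lit 588) (nat_lit 5580) (.f (nat_lit 429) (nat_lit 524) (nat_lit 5548) (.p (nat_lit 397) (.a (.d (nat_lit 398) (nat_lit 366) (nat_lit 6509) (nat_lit 430) (nat_lit 6541)) (.d (nat_lit 396) (nat_lit 364) (nat_lit 7532) (nat_lit 428) (nat_lit 7564)))))) (.p (nat_lit 492) (.a (.p (nat_lit 524) (.a (.d (nat_lit 589) (nat_lit 460) (nat_lit 7628) (nat_lit 621) (nat_lit 7660)) (.d (nat_lit 556) (nat_lit 429) (nat_lit 5548) (nat_lit 588) (nat_lit 5580)))) (.a (.f (nat_lit 589) (nat_lit 460) (nat_lit 7628) (.f (nat_lit 621) (nat_lit 524) (nat_lit 7660) (.d (nat_lit 620) (nat_lit 588) (nat_lit 5612) (nat_lit 652) (nat_lit 5644)))) (.a (.f (nat_lit 556) (nat_lit 588) (nat_lit 5580) (.f (nat_lit 429) (nat_lit 524) (nat_lit 5548) (.p (nat_lit 397) (.a (.d (nat_lit 398) (nat_lit 366) (nat_lit 6509) (nat_lit 430) (nat_lit 6541)) (.d (nat_lit 460) (nat_lit 365) (nat_lit 5484) (nat_lit 589) (nat_lit 7628)))))) (.a (.p (nat_lit 429) (.a (.d (nat_lit 556) (nat_lit 524) (nat_lit 5548) (nat_lit 588) (nat_lit 5580)) (.a (.f (nat_lit 397) (nat_lit 524) (nat_lit 5516) (.d (nat_lit 398) (nat_lit 366) (nat_lit 6509) (nat_lit 430) (nat_lit 6541))) (.p (nat_lit 397) (.a (.d (nat_lit 398) (nat_lit 366) (nat_lit 6509) (nat_lit 430) (nat_lit 6541)) (.f (nat_lit 364) (nat_lit 396) (nat_lit 7532) (.d (nat_lit 365) (nat_lit 332) (nat_lit 7500) (nat_lit 460) (nat_lit 5484)))))))) (.a (.p (nat_lit 589) (.a (.d (nat_lit 588) (nat_lit 556) (nat_lit 5580) (nat_lit 620) (nat_lit 5612)) (.a (.f (nat_lit 621) (nat_lit 524) (nat_lit 7660) (.d (nat_lit 620) (nat_lit 588) (nat_lit 5612) (nat_lit 652) (nat_lit 5644))) (.a (.f (nat_lit 524) (nat_lit 621) (nat_lit 7660) (.d (nat_lit 556) (nat_lit 429) (nat_lit 5548) (nat_lit 588) (nat_lit 5580))) (.f (nat_lit 524) (nat_lit 621) (nat_lit 7660) (.d (nat_lit 429) (nat_lit 397) (nat_lit 5516) (nat_lit 556) (nat_lit 5548))))))) (.a (.p (nat_lit 524) (.a (.d (nat_lit 589) (nat_lit 460) (nat_lit 7628) (nat_lit 621) (nat_lit 7660)) (.d (nat_lit 429) (nat_lit 397) (nat_lit 5516) (nat_lit 556) (nat_lit 5548)))) (.f (nat_lit 589) (nat_lit 460) (nat_lit 7628) (.d (nat_lit 588) (nat_lit 556) (nat_lit 5580) (nat_lit 620) (nat_lit 5612)))))))))))))))) (.a (.p (nat_lit 492) (.a (.f (nat_lit 460) (nat_lit 589) (nat_lit 7628) (.d (nat_lit 428) (nat_lit 396) (nat_lit 4492) (nat_lit 524) (nat_lit 4524))) (.a (.f (nat_lit 495) (nat_lit 494) (nat_lit 492) (.p (nat_lit 461) (.a (.p (nat_lit 429) (.a (.d (nat_lit 428) (nat_lit 396) (nat_lit 7564) (nat_lit 460) (nat_lit 7596)) (.a (.f (nat_lit 396) (nat_lit 428) (nat_lit 7564) (.d (nat_lit 397) (nat_lit 364) (nat_lit 7532) (nat_lit 524) (nat_lit 5516))) (.f (nat_lit 397) (nat_lit 524) (nat_lit 5516) (.d (nat_lit 398) (nat_lit 366) (nat_lit 6509) (nat_lit 430) (nat_lit 6541)))))) (.a (.f (nat_lit 463) (nat_lit 431) (nat_lit 4527) (.d (nat_lit 462) (nat_lit 430) (nat_lit 6573) (nat_lit 464) (nat_lit 1484))) (.f (nat_lit 460) (nat_lit 428) (nat_lit 7596) (.f (nat_lit 463) (nat_lit 431) (nat_lit 4527) (.d (nat_lit 464) (nat_lit 432) (nat_lit 6575) (nat_lit 462) (nat_lit 1484)))))))) (.f (nat_lit 494) (nat_lit 495) (nat_lit 492) (.f (nat_lit 462) (nat_lit 589) (nat_lit 6605) (.d (nat_lit 430) (nat_lit 398) (nat_lit 5517) (nat_lit 461) (nat_lit 6573))))))) (.a (.p (nat_lit 589) (.a (.f (nat_lit 494) (nat_lit 462) (nat_lit 6605) (.d (nat_lit 492) (nat_lit 460) (nat_lit 7628) (nat_lit 495) (nat_lit 492))) (.a (.f (nat_lit 492) (nat_lit 460) (nat_lit 7628) (.f (nat_lit 621) (nat_lit 524) (nat_lit 7660) (.d (nat_lit 620) (nat_lit 588) (nat_lit 5612) (nat_lit 652) (nat_lit 5644)))) (.f (nat_lit 462) (nat_lit 494) (nat_lit 6605) (.p (nat_lit 621) (.a (.d (nat_lit 620) (nat_lit 588) (nat_lit 5612) (nat_lit 652) (nat_lit 5644)) (.a (.p (nat_lit 653) (.a (.d (nat_lit 654) (nat_lit 622) (nat_lit 4621) (nat_lit 686) (nat_lit 4653)) (.a (.p (nat_lit 685) (.a (.d (nat_lit 686) (nat_lit 654) (nat_lit 4653) (nat_lit 718) (nat_lit 4685)) (.d (nat_lit 684) (nat_lit 652) (nat_lit 5676) (nat_lit 716) (nat_lit 5708)))) (.p (nat_lit 685) (.a (.d (nat_lit 684) (nat_lit 652) (nat_lit 5676) (nat_lit 716) (nat_lit 5708)) (.d (nat_lit 556) (nat_lit 524) (nat_lit 7692) (nat_lit 588) (nat_lit 7724))))))) (.a (.p (nat_lit 653) (.a (.d (nat_lit 654) (nat_lit 622) (nat_lit 4621) (nat_lit 686) (nat_lit 4653)) (.d (nat_lit 652) (nat_lit 620) (nat_lit 5644) (nat_lit 684) (nat_lit 5676)))) (.p (nat_lit 653) (.a (.d (nat_lit 654) (nat_lit 622) (nat_lit 4621) (nat_lit 686) (nat_lit 4653)) (.f (nat_lit 556) (nat_lit 524) (nat_lit 7692) (.d (nat_lit 588) (nat_lit 620) (nat_lit 5612) (nat_lit 685) (nat_lit 7724))))))))))))) (.a (.p (nat_lit 461) (.a (.f (nat_lit 462) (nat_lit 430) (nat_lit 6573) (.f (nat_lit 494) (nat_lit 589) (nat_lit 6605) (.f (nat_lit 460) (nat_lit 428) (nat_lit 7596) (.d (nat_lit 459) (nat_lit 458) (nat_lit 458) (nat_lit 495) (nat_lit 459))))) (.a (.p (nat_lit 429) (.a (.d (nat_lit 556) (nat_lit 524) (nat_lit 5548) (nat_lit 588) (nat_lit 5580)) (.d (nat_lit 428) (nat_lit 396) (nat_lit 7564) (nat_lit 460) (nat_lit 7596)))) (.f (nat_lit 462) (nat_lit 430) (nat_lit 6573) (.f (nat_lit 589) (nat_lit 494) (nat_lit 6605) (.d (nat_lit 588) (nat_lit 556) (nat_lit 5580) (nat_lit 620) (nat_lit 5612))))))) (.a (.p (nat_lit 461) (.a (.f (nat_lit 460) (nat_lit 428) (nat_lit 7596) (.f (nat_lit 492) (nat_lit 589) (nat_lit 7628) (.p (nat_lit 429) (.a (.d (nat_lit 556) (nat_lit 524) (nat_lit 5548) (nat_lit 588) (nat_lit 5580)) (.d (nat_lit 430) (nat_lit 398) (nat_lit 6541) (nat_lit 462) (nat_lit 6573)))))) (.a (.f (nat_lit 460) (nat_lit 428) (nat_lit 7596) (.f (nat_lit 492) (nat_lit 589) (nat_lit 7628) (.p (nat_lit 429) (.a (.d (nat_lit 397) (nat_lit 365) (nat_lit 5484) (nat_lit 524) (nat_lit 5516)) (.a (.d (nat_lit 556) (nat_lit 524) (nat_lit 5548) (nat_lit 588) (nat_lit 5580)) (.f (nat_lit 397) (nat_lit 365) (nat_lit 5484) (.d (nat_lit 398) (nat_lit 366) (nat_lit 6509) (nat_lit 430) (nat_lit 6541)))))))) (.a (.f (nat_lit 460) (nat_lit 428) (nat_lit 7596) (.f (nat_lit 462) (nat_lit 430) (nat_lit 6573) (.f (nat_lit 492) (nat_lit 589) (nat_lit 7628) (.d (nat_lit 463) (nat_lit 464) (nat_lit 1484) (nat_lit 491) (nat_lit 1483))))) (.a (.p (nat_lit 429) (.a (.d (nat_lit 556) (nat_lit 524) (nat_lit 5548) (nat_lit 588) (nat_lit 5580)) (.d (nat_lit 430) (nat_lit 398) (nat_lit 6541) (nat_lit 462) (nat_lit 6573)))) (.p (nat_lit 589) (.a (.d (nat_lit 588) (nat_lit 556) (nat_lit 5580) (nat_lit 620) (nat_lit 5612)) (.d (nat_lit 460) (nat_lit 428) (nat_lit 7596) (nat_lit 492) (nat_lit 7628))))))))) (.a (.p (nat_lit 461) (.a (.f (nat_lit 462) (nat_lit 430) (nat_lit 6573) (.p (nat_lit 492) (.a (.f (nat_lit 460) (nat_lit 428) (nat_lit 7596) (.d (nat_lit 463) (nat_lit 464) (nat_lit 1484) (nat_lit 491) (nat_lit 1483))) (.a (.f (nat_lit 494) (nat_lit 495) (nat_lit 492) (.d (nat_lit 463) (nat_lit 464) (nat_lit 1484) (nat_lit 491) (nat_lit 2507))) (.p (nat_lit 429) (.a (.d (nat_lit 556) (nat_lit 524) (nat_lit 5548) (nat_lit 588) (nat_lit 5580)) (.d (nat_lit 428) (nat_lit 396) (nat_lit 7564) (nat_lit 460) (nat_lit 7596)))))))) (.a (.p (nat_lit 429) (.a (.d (nat_lit 556) (nat_lit 524) (nat_lit 5548) (nat_lit 588) (nat_lit 5580)) (.d (nat_lit 428) (nat_lit 396) (nat_lit 7564) (nat_lit 460) (nat_lit 7596)))) (.a (.f (nat_lit 462) (nat_lit 430) (nat_lit 6573) (.p (nat_lit 492) (.a (.f (nat_lit 463) (nat_lit 464) (nat_lit 1484) (.d (nat_lit 495) (nat_lit 431) (nat_lit 4527) (nat_lit 494) (nat_lit 492))) (.a (.f (nat_lit 460) (nat_lit 428) (nat_lit 7596) (.d (nat_lit 463) (nat_lit 464) (nat_lit 1484) (nat_lit 491) (nat_lit 1483))) (.p (nat_lit 429) (.a (.d (nat_lit 428) (nat_lit 396) (nat_lit 7564) (nat_lit 460) (nat_lit 7596)) (.a (.f (nat_lit 396) (nat_lit 428) (nat_lit 7564) (.d (nat_lit 397) (nat_lit 364) (nat_lit 7532) (nat_lit 524) (nat_lit 5516))) (.f (nat_lit 397) (nat_lit 524) (nat_lit 5516) (.d (nat_lit 494) (nat_lit 365) (nat_lit 4461) (nat_lit 495) (nat_lit 492)))))))))) (.a (.f (nat_lit 462) (nat_lit 430) (nat_lit 6573) (.p (nat_lit 463) (.a (.f (nat_lit 492) (nat_lit 464) (nat_lit 1484) (.d (nat_lit 495) (nat_lit 431) (nat_lit 4527) (nat_lit 494) (nat_lit 492))) (.a (.f (nat_lit 495) (nat_lit 431) (nat_lit 4527) (.f (nat_lit 460) (nat_lit 428) (nat_lit 7596) (.d (nat_lit 494) (nat_lit 459) (nat_lit 459) (nat_lit 591) (nat_lit 7630)))) (.a (.f (nat_lit 492) (nat_lit 464) (nat_lit 1484) (.d (nat_lit 491) (nat_lit 490) (nat_lit 2506) (nat_lit 494) (nat_lit 2507))) (.f (nat_lit 460) (nat_lit 428) (nat_lit 7596) (.d (nat_lit 492) (nat_lit 464) (nat_lit 1484) (nat_lit 491) (nat_lit 1483)))))))) (.p (nat_lit 429) (.a (.d (nat_lit 556) (nat_lit 524) (nat_lit 5548) (nat_lit 588) (nat_lit 5580)) (.d (nat_lit 430) (nat_lit 398) (nat_lit 6541) (nat_lit 462) (nat_lit 6573))))))))) (.a (.p (nat_lit 461) (.a (.f (nat_lit 462) (nat_lit 430) (nat_lit 6573) (.f (nat_lit 494) (nat_lit 589) (nat_lit 6605) (.d (nat_lit 495) (nat_lit 492) (nat_lit 492) (nat_lit 591) (nat_lit 7630)))) (.a (.f (nat_lit 556) (nat_lit 588) (nat_lit 5580) (.f (nat_lit 429) (nat_lit 524) (nat_lit 5548) (.p (nat_lit 397) (.a (.d (nat_lit 398) (nat_lit 366) (nat_lit 6509) (nat_lit 430) (nat_lit 6541)) (.d (nat_lit 396) (nat_lit 364) (nat_lit 7532) (nat_lit 428) (nat_lit 7564)))))) (.p (nat_lit 589) (.a (.d (nat_lit 588) (nat_lit 556) (nat_lit 5580) (nat_lit 620) (nat_lit 5612)) (.a (.p (nat_lit 492) (.a (.f (nat_lit 621) (nat_lit 524) (nat_lit 7660) (.d (nat_lit 620) (nat_lit 588) (nat_lit 5612) (nat_lit 652) (nat_lit 5644))) (.d (nat_lit 494) (nat_lit 462) (nat_lit 6605) (nat_lit 495) (nat_lit 492)))) (.a (.p (nat_lit 492) (.a (.f (nat_lit 524) (nat_lit 621) (nat_lit 7660) (.d (nat_lit 556) (nat_lit 429) (nat_lit 5548) (nat_lit 588) (nat_lit 5580))) (.d (nat_lit 494) (nat_lit 462) (nat_lit 6605) (nat_lit 495) (nat_lit 492)))) (.p (nat_lit 492) (.a (.f (nat_lit 524) (nat_lit 621) (nat_lit 7660) (.d (nat_lit 429) (nat_lit 397) (nat_lit 5516) (nat_lit 556) (nat_lit 5548))) (.d (nat_lit 494) (nat_lit 462) (nat_lit 6605) (nat_lit 495) (nat_lit 492))))))))))) (.p (nat_lit 461) (.a (.f (nat_lit 462) (nat_lit 430) (nat_lit 6573) (.f (nat_lit 494) (nat_lit 589) (nat_lit 6605) (.d (nat_lit 495) (nat_lit 492) (nat_lit 492) (nat_lit 591) (nat_lit 7630)))) (.a (.p (nat_lit 589) (.a (.d (nat_lit 588) (nat_lit 556) (nat_lit 5580) (nat_lit 620) (nat_lit 5612)) (.d (nat_lit 460) (nat_lit 428) (nat_lit 7596) (nat_lit 492) (nat_lit 7628)))) (.a (.f (nat_lit 462) (nat_lit 430) (nat_lit 6573) (.f (nat_lit 494) (nat_lit 589) (nat_lit 6605) (.f (nat_lit 460) (nat_lit 428) (nat_lit 7596) (.d (nat_lit 459) (nat_lit 458) (nat_lit 458) (nat_lit 495) (nat_lit 459))))) (.f (nat_lit 462) (nat_lit 430) (nat_lit 6573) (.p (nat_lit 463) (.a (.f (nat_lit 492) (nat_lit 464) (nat_lit 1484) (.d (nat_lit 495) (nat_lit 431) (nat_lit 4527) (nat_lit 494) (nat_lit 492))) (.a (.f (nat_lit 460) (nat_lit 428) (nat_lit 7596) (.d (nat_lit 431) (nat_lit 432) (nat_lit 2476) (nat_lit 495) (nat_lit 4527))) (.f (nat_lit 492) (nat_lit 464) (nat_lit 1484) (.d (nat_lit 491) (nat_lit 490) (nat_lit 2506) (nat_lit 494) (nat_lit 2507)))))))))))))))))))) (.f (nat_lit 556) (nat_lit 558) (nat_lit 2572) (.p (nat_lit 493) (.a (.f (nat_lit 461) (nat_lit 588) (nat_lit 5580) (.f (nat_lit 462) (nat_lit 430) (nat_lit 6573) (.p (nat_lit 492) (.a (.d (nat_lit 494) (nat_lit 495) (nat_lit 492) (nat_lit 589) (nat_lit 6605)) (.a (.d (nat_lit 460) (nat_lit 428) (nat_lit 7596) (nat_lit 589) (nat_lit 7628)) (.f (nat_lit 460) (nat_lit 428) (nat_lit 7596) (.d (nat_lit 463) (nat_lit 464) (nat_lit 1484) (nat_lit 491) (nat_lit 1483)))))))) (.a (.f (nat_lit 588) (nat_lit 461) (nat_lit 5580) (.d (nat_lit 620) (nat_lit 589) (nat_lit 5612) (nat_lit 652) (nat_lit 6668))) (.a (.p (nat_lit 589) (.a (.p (nat_lit 621) (.a (.d (nat_lit 620) (nat_lit 588) (nat_lit 5612) (nat_lit 652) (nat_lit 5644)) (.a (.p (nat_lit 653) (.a (.d (nat_lit 654) (nat_lit 622) (nat_lit 4621) (nat_lit 686) (nat_lit 4653)) (.f (nat_lit 684) (nat_lit 652) (nat_lit 5676) (.d (nat_lit 685) (nat_lit 588) (nat_lit 7724) (nat_lit 716) (nat_lit 5708))))) (.a (.p (nat_lit 653) (.a (.d (nat_lit 654) (nat_lit 622) (nat_lit 4621) (nat_lit 686) (nat_lit 4653)) (.d (nat_lit 652) (nat_lit 620) (nat_lit 5644) (nat_lit 684) (nat_lit 5676)))) (.p (nat_lit 653) (.a (.d (nat_lit 654) (nat_lit 622) (nat_lit 4621) (nat_lit 686) (nat_lit 4653)) (.d (nat_lit 588) (nat_lit 620) (nat_lit 5612) (nat_lit 685) (nat_lit 7724)))))))) (.f (nat_lit 494) (nat_lit 462) (nat_lit 6605) (.d (nat_lit 492) (nat_lit 460) (nat_lit 7628) (nat_lit 495) (nat_lit 492))))) (.a (.f (nat_lit 461) (nat_lit 588) (nat_lit 5580) (.f (nat_lit 462) (nat_lit 430) (nat_lit 6573) (.f (nat_lit 460) (nat_lit 428) (nat_lit 7596) (.p (nat_lit 463) (.a (.d (nat_lit 431) (nat_lit 432) (nat_lit 2476) (nat_lit 495) (nat_lit 4527)) (.d (nat_lit 492) (nat_lit 464) (nat_lit 1484) (nat_lit 491) (nat_lit 1483))))))) (.p (nat_lit 462) (.a (.f (nat_lit 494) (nat_lit 589) (nat_lit 6605) (.d (nat_lit 495) (nat_lit 492) (nat_lit 492) (nat_lit 591) (nat_lit 7630))) (.a (.f (nat_lit 430) (nat_lit 461) (nat_lit 6573) (.d (nat_lit 494) (nat_lit 398) (nat_lit 5517) (nat_lit 589) (nat_lit 6605))) (.a (.f (nat_lit 461) (nat_lit 430) (nat_lit 6573) (.f (nat_lit 460) (nat_lit 428) (nat_lit 7596) (.p (nat_lit 463) (.a (.d (nat_lit 431) (nat_lit 432) (nat_lit 2476) (nat_lit 495) (nat_lit 4527)) (.d (nat_lit 492) (nat_lit 464) (nat_lit 1484) (nat_lit 589) (nat_lit 7628)))))) (.f (nat_lit 430) (nat_lit 461) (nat_lit 6573) (.f (nat_lit 494) (nat_lit 398) (nat_lit 5517) (.d (nat_lit 495) (nat_lit 463) (nat_lit 7598) (nat_lit 492) (nat_lit 492)))))))))))))))))))))) (.a (.p (nat_lit 495) (.a (.d (nat_lit 463) (nat_lit 431) (nat_lit 4527) (nat_lit 592) (nat_lit 4559)) (.a (.d (nat_lit 592) (nat_lit 463) (nat_lit 4559) (nat_lit 624) (nat_lit 7663)) (.a (.f (nat_lit 463) (nat_lit 431) (nat_lit 4527) (.f (nat_lit 462) (nat_lit 430) (nat_lit 7598) (.f (nat_lit 494) (nat_lit 591) (nat_lit 7630) (.f (nat_lit 493) (nat_lit 492) (nat_lit 492) (.d (nat_lit 464) (nat_lit 432) (nat_lit 6575) (nat_lit 465) (nat_lit 1485)))))) (.f (nat_lit 624) (nat_lit 592) (nat_lit 7663) (.p (nat_lit 591) (.a (.d (nat_lit 623) (nat_lit 655) (nat_lit 6671) (nat_lit 656) (nat_lit 4623)) (.a (.f (nat_lit 494) (nat_lit 462) (nat_lit 7630) (.d (nat_lit 623) (nat_lit 526) (nat_lit 7662) (nat_lit 656) (nat_lit 4623))) (.a (.f (nat_lit 623) (nat_lit 655) (nat_lit 6671) (.d (nat_lit 494) (nat_lit 462) (nat_lit 7630) (nat_lit 526) (nat_lit 7662))) (.p (nat_lit 525) (.a (.d (nat_lit 526) (nat_lit 524) (nat_lit 524) (nat_lit 561) (nat_lit 525)) (.a (.p (nat_lit 557) (.a (.d (nat_lit 558) (nat_lit 524) (nat_lit 3596) (nat_lit 556) (nat_lit 2572)) (.a (.f (nat_lit 494) (nat_lit 462) (nat_lit 7630) (.p (nat_lit 589) (.a (.d (nat_lit 558) (nat_lit 524) (nat_lit 3596) (nat_lit 588) (nat_lit 1580)) (.a (.p (nat_lit 621) (.a (.d (nat_lit 492) (nat_lit 493) (nat_lit 492) (nat_lit 524) (nat_lit 7660)) (.p (nat_lit 653) (.a (.d (nat_lit 654) (nat_lit 622) (nat_lit 4621) (nat_lit 686) (nat_lit 4653)) (.d (nat_lit 652) (nat_lit 620) (nat_lit 5644) (nat_lit 684) (nat_lit 5676)))))) (.f (nat_lit 493) (nat_lit 492) (nat_lit 492) (.d (nat_lit 588) (nat_lit 558) (nat_lit 1580) (nat_lit 620) (nat_lit 5612))))))) (.a (.p (nat_lit 493) (.a (.f (nat_lit 492) (nat_lit 494) (nat_lit 492) (.f (nat_lit 460) (nat_lit 589) (nat_lit 7628) (.d (nat_lit 428) (nat_lit 396) (nat_lit 4492) (nat_lit 524) (nat_lit 4524)))) (.a (.p (nat_lit 461) (.a (.p (nat_lit 429) (.a (.d (nat_lit 556) (nat_lit 524) (nat_lit 5548) (nat_lit 588) (nat_lit 5580)) (.d (nat_lit 428) (nat_lit 396) (nat_lit 7564) (nat_lit 460) (nat_lit 7596)))) (.d (nat_lit 462) (nat_lit 430) (nat_lit 6573) (nat_lit 494) (nat_lit 7630)))) (.a (.p (nat_lit 461) (.a (.p (nat_lit 429) (.a (.d (nat_lit 556) (nat_lit 524) (nat_lit 5548) (nat_lit 588) (nat_lit 5580)) (.d (nat_lit 428) (nat_lit 396) (nat_lit 7564) (nat_lit 460) (nat_lit 7596)))) (.a (.f (nat_lit 428) (nat_lit 460) (nat_lit 7596) (.f (nat_lit 429) (nat_lit 396) (nat_lit 7564) (.d (nat_lit 430) (nat_lit 398) (nat_lit 6541) (nat_lit 462) (nat_lit 6573)))) (.a (.p (nat_lit 589) (.a (.d (nat_lit 588) (nat_lit 556) (nat_lit 5580) (nat_lit 620) (nat_lit 5612)) (.d (nat_lit 460) (nat_lit 428) (nat_lit 7596) (nat_lit 492) (nat_lit 7628)))) (.p (nat_lit 429) (.a (.d (nat_lit 556) (nat_lit 524) (nat_lit 5548) (nat_lit 588) (nat_lit 5580)) (.d (nat_lit 430) (nat_lit 398) (nat_lit 6541) (nat_lit 462) (nat_lit 6573)))))))) (.d (nat_lit 494) (nat_lit 462) (nat_lit 7630) (nat_lit 492) (nat_lit 492)))))) (.f (nat_lit 494) (nat_lit 462) (nat_lit 7630) (.p (nat_lit 588) (.a (.d (nat_lit 558) (nat_lit 556) (nat_lit 2572) (nat_lit 589) (nat_lit 1580)) (.a (.f (nat_lit 589) (nat_lit 558) (nat_lit 1580) (.d (nat_lit 493) (nat_lit 492) (nat_lit 492) (nat_lit 620) (nat_lit 5612))) (.a (.f (nat_lit 493) (nat_lit 492) (nat_lit 492) (.f (nat_lit 556) (nat_lit 461) (nat_lit 5580) (.d (nat_lit 620) (nat_lit 589) (nat_lit 5612) (nat_lit 652) (nat_lit 6668)))) (.f (nat_lit 556) (nat_lit 558) (nat_lit 2572) (.d (nat_lit 493) (nat_lit 461) (nat_lit 5580) (nat_lit 492) (nat_lit 492)))))))))))) (.f (nat_lit 526) (nat_lit 561) (nat_lit 525) (.f (nat_lit 494) (nat_lit 462) (nat_lit 7630) (.f (nat_lit 557) (nat_lit 556) (nat_lit 1548) (.f (nat_lit 493) (nat_lit 492) (nat_lit 492) (.f (nat_lit 589) (nat_lit 621) (nat_lit 6637) (.d (nat_lit 588) (nat_lit 558) (nat_lit 1580) (nat_lit 620) (nat_lit 5612))))))))))))))))))) (.a (.p (nat_lit 526) (.a (.d (nat_lit 525) (nat_lit 524) (nat_lit 524) (nat_lit 561) (nat_lit 525)) (.a (.f (nat_lit 561) (nat_lit 562) (nat_lit 3598) (.p (nat_lit 623) (.a (.d (nat_lit 591) (nat_lit 494) (nat_lit 7662) (nat_lit 655) (nat_lit 6671)) (.a (.p (nat_lit 624) (.a (.d (nat_lit 592) (nat_lit 655) (nat_lit 5647) (nat_lit 656) (nat_lit 7695)) (.a (.f (nat_lit 592) (nat_lit 656) (nat_lit 7695) s52065) (.a s50271 (.f (nat_lit 592) (nat_lit 655) (nat_lit 5647) s52065))))) (.f (nat_lit 591) (nat_lit 494) (nat_lit 7662) (.f (nat_lit 624) (nat_lit 656) (nat_lit 4623) (.f (nat_lit 622) (nat_lit 654) (nat_lit 5646) (.p (nat_lit 593) (.a (.d (nat_lit 594) (nat_lit 558) (nat_lit 558) (nat_lit 592) (nat_lit 1614)) (.a (.f (nat_lit 621) (nat_lit 592) (nat_lit 2637) (.p (nat_lit 620) (.a (.d (nat_lit 652) (nat_lit 651) (nat_lit 1643) (nat_lit 653) (nat_lit 1644)) (.d (nat_lit 588) (nat_lit 587) (nat_lit 3659) (nat_lit 589) (nat_lit 3660))))) (.d (nat_lit 594) (nat_lit 558) (nat_lit 558) (nat_lit 625) (nat_lit 2638)))))))))))) (.f (nat_lit 525) (nat_lit 524) (nat_lit 524) (.f (nat_lit 557) (nat_lit 556) (nat_lit 1548) (.f (nat_lit 493) (nat_lit 492) (nat_lit 3564) (.p (nat_lit 494) (.a (.d (nat_lit 462) (nat_lit 430) (nat_lit 5549) (nat_lit 589) (nat_lit 6605)) (.a (.f (nat_lit 589) (nat_lit 621) (nat_lit 6637) (.d (nat_lit 588) (nat_lit 558) (nat_lit 1580) (nat_lit 620) (nat_lit 5612))) (.f (nat_lit 462) (nat_lit 430) (nat_lit 4526) (.d (nat_lit 591) (nat_lit 558) (nat_lit 4558) (nat_lit 623) (nat_lit 7662)))))))))))) (.p (nat_lit 592) (.a (.d (nat_lit 495) (nat_lit 463) (nat_lit 4559) (nat_lit 624) (nat_lit 7663)) (.a (.f (nat_lit 495) (nat_lit 463) (nat_lit 4559) (.p (nat_lit 557) (.a (.d (nat_lit 558) (nat_lit 556) (nat_lit 2572) (nat_lit 593) (nat_lit 557)) (.a (.f (nat_lit 558) (nat_lit 593) (nat_lit 557) (.f (nat_lit 525) (nat_lit 524) (nat_lit 3596) (.f (nat_lit 589) (nat_lit 588) (nat_lit 1580) (.p (nat_lit 494) (.a (.f (nat_lit 621) (nat_lit 526) (nat_lit 6637) (.p (nat_lit 653) (.a (.d (nat_lit 654) (nat_lit 622) (nat_lit 4621) (nat_lit 686) (nat_lit 4653)) (.d (nat_lit 652) (nat_lit 620) (nat_lit 5644) (nat_lit 684) (nat_lit 5676))))) (.a (.d (nat_lit 462) (nat_lit 526) (nat_lit 5581) (nat_lit 591) (nat_lit 7630)) (.d (nat_lit 462) (nat_lit 493) (nat_lit 6605) (nat_lit 591) (nat_lit 7630)))))))) (.p (nat_lit 525) (.a (.d (nat_lit 526) (nat_lit 524) (nat_lit 524) (nat_lit 556) (nat_lit 1548)) (.a (.f (nat_lit 526) (nat_lit 524) (nat_lit 524) s52116) (.a s50043 (.f (nat_lit 526) (nat_lit 556) (nat_lit 1548) s52116))))))))) (.a (.d (nat_lit 624) (nat_lit 495) (nat_lit 7663) (nat_lit 656) (nat_lit 7695)) (.f (nat_lit 624) (nat_lit 656) (nat_lit 7695) (.f (nat_lit 623) (nat_lit 655) (nat_lit 5647) (.f (nat_lit 625) (nat_lit 657) (nat_lit 4624) (.p (nat_lit 593) (.a (.d (nat_lit 594) (nat_lit 595) (nat_lit 1615) (nat_lit 622) (nat_lit 2638)) (.a (.f (nat_lit 594) (nat_lit 595) (nat_lit 3631) (.d (nat_lit 558) (nat_lit 557) (nat_lit 557) (nat_lit 591) (nat_lit 3630))) (.f (nat_lit 622) (nat_lit 621) (nat_lit 2637) (.d (nat_lit 654) (nat_lit 591) (nat_lit 5646) (nat_lit 653) (nat_lit 1645)))))))))))))))))))))))) (.a (.p (nat_lit 561) (.a s50459 (.a s52140 (.a (.p (nat_lit 562) (.a (.d (nat_lit 527) (nat_lit 526) (nat_lit 3598) (nat_lit 563) (nat_lit 3599)) (.a (.f (nat_lit 527) (nat_lit 526) (nat_lit 3598) (.f (nat_lit 591) (nat_lit 590) (nat_lit 1582) (.p (nat_lit 624) (.a (.d (nat_lit 592) (nat_lit 495) (nat_lit 7663) (nat_lit 656) (nat_lit 7695)) (.a (.d (nat_lit 623) (nat_lit 655) (nat_lit 6671) (nat_lit 656) (nat_lit 4623)) (.f (nat_lit 495) (nat_lit 592) (nat_lit 7663) (.f (nat_lit 462) (nat_lit 494) (nat_lit 7630) (.d (nat_lit 463) (nat_lit 430) (nat_lit 7598) (nat_lit 431) (nat_lit 4527))))))))) (.a (.f (nat_lit 563) (nat_lit 527) (nat_lit 3599) (.d (nat_lit 591) (nat_lit 590) (nat_lit 1582) (nat_lit 592) (nat_lit 1583))) (.f (nat_lit 591) (nat_lit 590) (nat_lit 1582) (.f (nat_lit 563) (nat_lit 592) (nat_lit 1583) (.d (nat_lit 531) (nat_lit 530) (nat_lit 2575) (nat_lit 532) (nat_lit 2576)))))))) (.a s50938 (.a (.p (nat_lit 562) (.a (.d (nat_lit 527) (nat_lit 526) (nat_lit 3598) (nat_lit 563) (nat_lit 3599)) (.a s52159 (.a (.f (nat_lit 563) (nat_lit 527) (nat_lit 3599) (.d (nat_lit 595) (nat_lit 594) (nat_lit 559) (nat_lit 596) (nat_lit 560))) (.f (nat_lit 595) (nat_lit 594) (nat_lit 559) (.f (nat_lit 563) (nat_lit 596) (nat_lit 560) (.d (nat_lit 531) (nat_lit 530) (nat_lit 2575) (nat_lit 532) (nat_lit 2576)))))))) (.a (.p (nat_lit 562) (.a (.f (nat_lit 527) (nat_lit 526) (nat_lit 3598) (.f (nat_lit 591) (nat_lit 590) (nat_lit 1582) (.p (nat_lit 624) (.a (.d (nat_lit 592) (nat_lit 495) (nat_lit 7663) (nat_lit 656) (nat_lit 7695)) (.a (.d (nat_lit 623) (nat_lit 655) (nat_lit 6671) (nat_lit 656) (nat_lit 4623)) (.f (nat_lit 495) (nat_lit 592) (nat_lit 7663) (.f (nat_lit 462) (nat_lit 494) (nat_lit 7630) (.d (nat_lit 463) (nat_lit 430) (nat_lit 7598) (nat_lit 431) (nat_lit 4527))))))))) (.a (.f (nat_lit 527) (nat_lit 526) (nat_lit 3598) (.f (nat_lit 591) (nat_lit 590) (nat_lit 1582) (.f (nat_lit 623) (nat_lit 655) (nat_lit 6671) (.f (nat_lit 624) (nat_lit 656) (nat_lit 4623) (.f (nat_lit 592) (nat_lit 495) (nat_lit 7663) (.p (nat_lit 593) (.a (.d (nat_lit 594) (nat_lit 595) (nat_lit 3631) (nat_lit 622) (nat_lit 1614)) (.a (.f (nat_lit 625) (nat_lit 657) (nat_lit 4624) (.f (nat_lit 530) (nat_lit 531) (nat_lit 2575) (.d (nat_lit 498) (nat_lit 466) (nat_lit 5585) (nat_lit 594) (nat_lit 5617)))) (.d (nat_lit 622) (nat_lit 621) (nat_lit 2637) (nat_lit 654) (nat_lit 5646)))))))))) (.a (.f (nat_lit 527) (nat_lit 526) (nat_lit 3598) (.f (nat_lit 591) (nat_lit 590) (nat_lit 1582) (.f (nat_lit 623) (nat_lit 655) (nat_lit 6671) (.f (nat_lit 594) (nat_lit 595) (nat_lit 559) (.f (nat_lit 530) (nat_lit 531) (nat_lit 2575) (.p (nat_lit 593) (.a (.d (nat_lit 622) (nat_lit 592) (nat_lit 1614) (nat_lit 654) (nat_lit 5646)) (.d (nat_lit 498) (nat_lit 466) (nat_lit 5585) (nat_lit 625) (nat_lit 5617))))))))) (.a s52159 (.a s52178 (.a s52191 (.a s52216 s52224)))))))) (.a (.p (nat_lit 562) (.a (.f (nat_lit 563) (nat_lit 527) (nat_lit 3599) (.d (nat_lit 595) (nat_lit 594) (nat_lit 559) (nat_lit 596) (nat_lit 560))) (.a (.f (nat_lit 563) (nat_lit 527) (nat_lit 3599) (.d (nat_lit 591) (nat_lit 590) (nat_lit 1582) (nat_lit 592) (nat_lit 1583))) (.a s52178 (.f (nat_lit 591) (nat_lit 590) (nat_lit 1582) (.f (nat_lit 563) (nat_lit 592) (nat_lit 1583) (.d (nat_lit 595) (nat_lit 594) (nat_lit 559) (nat_lit 596) (nat_lit 560)))))))) (.a (.p (nat_lit 562) (.a (.d (nat_lit 527) (nat_lit 526) (nat_lit 3598) (nat_lit 563) (nat_lit 3599)) (.a s52191 (.a (.f (nat_lit 563) (nat_lit 527) (nat_lit 3599) (.d (nat_lit 595) (nat_lit 594) (nat_lit 559) (nat_lit 596) (nat_lit 560))) (.f (nat_lit 595) (nat_lit 594) (nat_lit 559) (.f (nat_lit 563) (nat_lit 596) (nat_lit 560) (.d (nat_lit 531) (nat_lit 530) (nat_lit 2575) (nat_lit 532) (nat_lit 2576)))))))) (.a (.p (nat_lit 623) (.a (.f (nat_lit 591) (nat_lit 655) (nat_lit 6671) (.p (nat_lit 527) (.a (.d (nat_lit 526) (nat_lit 494) (nat_lit 7662) (nat_lit 525) (nat_lit 525)) (.f (nat_lit 624) (nat_lit 656) (nat_lit 4623) (.f (nat_lit 495) (nat_lit 592) (nat_lit 7663) (.d (nat_lit 622) (nat_lit 590) (nat_lit 5614) (nat_lit 654) (nat_lit 5646))))))) (.a (.f (nat_lit 591) (nat_lit 655) (nat_lit 6671) (.p (nat_lit 527) (.a (.d (nat_lit 526) (nat_lit 494) (nat_lit 7662) (nat_lit 525) (nat_lit 525)) (.f (nat_lit 624) (nat_lit 656) (nat_lit 4623) (.f (nat_lit 592) (nat_lit 495) (nat_lit 7663) (.f (nat_lit 590) (nat_lit 589) (nat_lit 2605) (.d (nat_lit 625) (nat_lit 626) (nat_lit 3662) (nat_lit 657) (nat_lit 4624)))))))) (.a (.f (nat_lit 591) (nat_lit 655) (nat_lit 6671) (.p (nat_lit 527) (.a (.d (nat_lit 526) (nat_lit 494) (nat_lit 7662) (nat_lit 525) (nat_lit 525)) (.f (nat_lit 622) (nat_lit 654) (nat_lit 5646) (.f (nat_lit 590) (nat_lit 495) (nat_lit 5614) (.d (nat_lit 589) (nat_lit 588) (nat_lit 2604) (nat_lit 592) (nat_lit 2605))))))) (.a (.p (nat_lit 624) (.a (.f (nat_lit 592) (nat_lit 655) (nat_lit 5647) (.d (nat_lit 527) (nat_lit 495) (nat_lit 7663) (nat_lit 656) (nat_lit 7695))) (.a s52291 (.a (.p (nat_lit 625) (.a (.f (nat_lit 657) (nat_lit 593) (nat_lit 7696) (.f (nat_lit 622) (nat_lit 658) (nat_lit 622) (.f (nat_lit 621) (nat_lit 656) (nat_lit 621) (.d (nat_lit 653) (nat_lit 652) (nat_lit 1644) (nat_lit 654) (nat_lit 1645))))) (.a (.p (nat_lit 626) (.a (.p (nat_lit 627) (.a (.d (nat_lit 659) (nat_lit 658) (nat_lit 623) (nat_lit 660) (nat_lit 624)) (.d (nat_lit 655) (nat_lit 654) (nat_lit 1646) (nat_lit 656) (nat_lit 1647)))) (.a (.f (nat_lit 593) (nat_lit 657) (nat_lit 7696) (.f (nat_lit 594) (nat_lit 595) (nat_lit 2639) (.d (nat_lit 658) (nat_lit 659) (nat_lit 623) (nat_lit 690) (nat_lit 7729)))) (.p (nat_lit 627) (.a (.d (nat_lit 655) (nat_lit 654) (nat_lit 1646) (nat_lit 656) (nat_lit 1647)) (.d (nat_lit 595) (nat_lit 594) (nat_lit 2639) (nat_lit 596) (nat_lit 2640))))))) (.a (.f (nat_lit 593) (nat_lit 657) (nat_lit 7696) (.f (nat_lit 594) (nat_lit 622) (nat_lit 2638) (.d (nat_lit 595) (nat_lit 596) (nat_lit 1616) (nat_lit 626) (nat_lit 2639)))) (.a (.p (nat_lit 622) (.a (.f (nat_lit 654) (nat_lit 653) (nat_lit 1645) (.f (nat_lit 626) (nat_lit 655) (nat_lit 1646) (.d (nat_lit 658) (nat_lit 657) (nat_lit 622) (nat_lit 659) (nat_lit 623)))) (.a (.f (nat_lit 654) (nat_lit 653) (nat_lit 1645) (.f (nat_lit 589) (nat_lit 590) (nat_lit 3661) (.f (nat_lit 621) (nat_lit 588) (nat_lit 3660) (.f (nat_lit 655) (nat_lit 626) (nat_lit 1646) (.d (nat_lit 656) (nat_lit 620) (nat_lit 620) (nat_lit 657) (nat_lit 621)))))) (.a (.f (nat_lit 657) (nat_lit 658) (nat_lit 622) (.f (nat_lit 621) (nat_lit 656) (nat_lit 621) (.d (nat_lit 653) (nat_lit 652) (nat_lit 1644) (nat_lit 654) (nat_lit 1645)))) (.a (.f (nat_lit 657) (nat_lit 658) (nat_lit 622) (.f (nat_lit 621) (nat_lit 656) (nat_lit 621) (.d (nat_lit 589) (nat_lit 588) (nat_lit 3660) (nat_lit 590) (nat_lit 3661)))) (.f (nat_lit 654) (nat_lit 653) (nat_lit 1645) (.f (nat_lit 626) (nat_lit 655) (nat_lit 1646) (.f (nat_lit 659) (nat_lit 658) (nat_lit 623) (.f (nat_lit 595) (nat_lit 594) (nat_lit 2639) (.d (nat_lit 627) (nat_lit 596) (nat_lit 2640) (nat_lit 660) (nat_lit 624))))))))))) (.p (nat_lit 626) (.a (.p (nat_lit 622) (.a (.d (nat_lit 654) (nat_lit 653) (nat_lit 1645) (nat_lit 655) (nat_lit 1646)) (.d (nat_lit 594) (nat_lit 593) (nat_lit 2638) (nat_lit 595) (nat_lit 2639)))) (.a (.f (nat_lit 659) (nat_lit 658) (nat_lit 623) (.f (nat_lit 595) (nat_lit 594) (nat_lit 2639) (.d (nat_lit 627) (nat_lit 596) (nat_lit 2640) (nat_lit 660) (nat_lit 624)))) (.p (nat_lit 627) (.a (.d (nat_lit 659) (nat_lit 658) (nat_lit 623) (nat_lit 660) (nat_lit 624)) (.d (nat_lit 655) (nat_lit 654) (nat_lit 1646) (nat_lit 656) (nat_lit 1647)))))))))))) (.f (nat_lit 592) (nat_lit 655) (nat_lit 5647) s52266))))) (.a (.f (nat_lit 655) (nat_lit 591) (nat_lit 6671) (.f (nat_lit 624) (nat_lit 592) (nat_lit 5647) (.p (nat_lit 625) (.a (.f (nat_lit 626) (nat_lit 654) (nat_lit 1646) (.f (nat_lit 627) (nat_lit 656) (nat_lit 1647) (.d (nat_lit 659) (nat_lit 658) (nat_lit 623) (nat_lit 660) (nat_lit 624)))) (.a (.f (nat_lit 654) (nat_lit 626) (nat_lit 1646) (.d (nat_lit 653) (nat_lit 622) (nat_lit 1645) (nat_lit 652) (nat_lit 2668))) (.a (.f (nat_lit 657) (nat_lit 593) (nat_lit 7696) (.f (nat_lit 658) (nat_lit 622) (nat_lit 622) (.d (nat_lit 659) (nat_lit 626) (nat_lit 623) (nat_lit 656) (nat_lit 3695)))) (.f (nat_lit 657) (nat_lit 593) (nat_lit 7696) (.f (nat_lit 622) (nat_lit 658) (nat_lit 622) (.f (nat_lit 621) (nat_lit 656) (nat_lit 621) (.d (nat_lit 653) (nat_lit 652) (nat_lit 1644) (nat_lit 654) (nat_lit 1645))))))))))) (.a (.p (nat_lit 624) (.a (.p (nat_lit 527) (.a (.d (nat_lit 592) (nat_lit 495) (nat_lit 7663) (nat_lit 656) (nat_lit 7695)) (.a (.f (nat_lit 591) (nat_lit 656) (nat_lit 4623) (.d (nat_lit 526) (nat_lit 494) (nat_lit 7662) (nat_lit 525) (nat_lit 525))) (.f (nat_lit 495) (nat_lit 592) (nat_lit 7663) (.f (nat_lit 526) (nat_lit 525) (nat_lit 525) (.f (nat_lit 494) (nat_lit 591) (nat_lit 7662) (.f (nat_lit 463) (nat_lit 431) (nat_lit 4527) (.f (nat_lit 493) (nat_lit 492) (nat_lit 492) (.f (nat_lit 462) (nat_lit 430) (nat_lit 4526) (.d (nat_lit 464) (nat_lit 432) (nat_lit 6575) (nat_lit 465) (nat_lit 1485))))))))))) (.a (.p (nat_lit 527) (.a (.d (nat_lit 592) (nat_lit 495) (nat_lit 7663) (nat_lit 656) (nat_lit 7695)) (.a (.f (nat_lit 591) (nat_lit 656) (nat_lit 4623) (.d (nat_lit 526) (nat_lit 494) (nat_lit 7662) (nat_lit 525) (nat_lit 525))) (.f (nat_lit 592) (nat_lit 495) (nat_lit 7663) (.f (nat_lit 625) (nat_lit 657) (nat_lit 4624) (.p (nat_lit 591) (.a (.d (nat_lit 526) (nat_lit 494) (nat_lit 7662) (nat_lit 525) (nat_lit 525)) (.d (nat_lit 590) (nat_lit 589) (nat_lit 2605) (nat_lit 626) (nat_lit 3662))))))))) (.a s52291 (.a (.p (nat_lit 592) (.a (.d (nat_lit 527) (nat_lit 495) (nat_lit 7663) (nat_lit 656) (nat_lit 7695)) (.a (.f (nat_lit 625) (nat_lit 657) (nat_lit 4624) (.p (nat_lit 591) (.a (.d (nat_lit 590) (nat_lit 589) (nat_lit 2605) (nat_lit 626) (nat_lit 3662)) (.a (.f (nat_lit 527) (nat_lit 495) (nat_lit 7663) (.p (nat_lit 593) (.a (.f (nat_lit 626) (nat_lit 627) (nat_lit 3663) (.f (nat_lit 594) (nat_lit 595) (nat_lit 3631) (.d (nat_lit 658) (nat_lit 659) (nat_lit 623) (nat_lit 690) (nat_lit 7729)))) (.d (nat_lit 622) (nat_lit 621) (nat_lit 2637) (nat_lit 654) (nat_lit 5646))))) (.f (nat_lit 590) (nat_lit 589) (nat_lit 2605) (.p (nat_lit 622) (.a (.d (nat_lit 527) (nat_lit 495) (nat_lit 5614) (nat_lit 654) (nat_lit 5646)) (.d (nat_lit 593) (nat_lit 594) (nat_lit 1614) (nat_lit 621) (nat_lit 2637))))))))) (.a (.f (nat_lit 656) (nat_lit 527) (nat_lit 7695) (.d (nat_lit 657) (nat_lit 625) (nat_lit 4624) (nat_lit 689) (nat_lit 4656))) (.f (nat_lit 625) (nat_lit 657) (nat_lit 4624) (.p (nat_lit 591) (.a (.d (nat_lit 590) (nat_lit 589) (nat_lit 2605) (nat_lit 626) (nat_lit 3662)) (.a (.f (nat_lit 626) (nat_lit 627) (nat_lit 3663) (.f (nat_lit 594) (nat_lit 595) (nat_lit 2639) (.f (nat_lit 593) (nat_lit 622) (nat_lit 1614) (.d (nat_lit 658) (nat_lit 659) (nat_lit 623) (nat_lit 690) (nat_lit 7729))))) (.f (nat_lit 590) (nat_lit 589) (nat_lit 2605) (.p (nat_lit 622) (.a (.d (nat_lit 654) (nat_lit 653) (nat_lit 1645) (nat_lit 686) (nat_lit 6702)) (.d (nat_lit 593) (nat_lit 594) (nat_lit 1614) (nat_lit 621) (nat_lit 2637))))))))))))) (.a (.p (nat_lit 625) (.a (.f (nat_lit 593) (nat_lit 657) (nat_lit 7696) (.f (nat_lit 594) (nat_lit 622) (nat_lit 2638) (.d (nat_lit 595) (nat_lit 596) (nat_lit 1616) (nat_lit 626) (nat_lit 2639)))) (.a (.f (nat_lit 593) (nat_lit 657) (nat_lit 7696) (.p (nat_lit 626) (.a (.f (nat_lit 594) (nat_lit 595) (nat_lit 2639) (.d (nat_lit 658) (nat_lit 659) (nat_lit 623) (nat_lit 690) (nat_lit 7729))) (.f (nat_lit 591) (nat_lit 590) (nat_lit 3662) (.f (nat_lit 527) (nat_lit 656) (nat_lit 4623) (.d (nat_lit 526) (nat_lit 494) (nat_lit 7662) (nat_lit 525) (nat_lit 525))))))) (.a (.f (nat_lit 657) (nat_lit 593) (nat_lit 7696) (.f (nat_lit 622) (nat_lit 658) (nat_lit 622) (.f (nat_lit 621) (nat_lit 656) (nat_lit 621) (.d (nat_lit 653) (nat_lit 652) (nat_lit 1644) (nat_lit 654) (nat_lit 1645))))) (.a (.p (nat_lit 622) (.a (.f (nat_lit 590) (nat_lit 589) (nat_lit 3661) (.f (nat_lit 591) (nat_lit 626) (nat_lit 3662) (.d (nat_lit 527) (nat_lit 495) (nat_lit 5614) (nat_lit 656) (nat_lit 4623)))) (.a (.f (nat_lit 657) (nat_lit 658) (nat_lit 622) (.f (nat_lit 621) (nat_lit 656) (nat_lit 621) (.d (nat_lit 653) (nat_lit 652) (nat_lit 1644) (nat_lit 654) (nat_lit 1645)))) (.f (nat_lit 590) (nat_lit 589) (nat_lit 3661) (.f (nat_lit 591) (nat_lit 626) (nat_lit 3662) (.d (nat_lit 527) (nat_lit 495) (nat_lit 5614) (nat_lit 654) (nat_lit 5646))))))) (.p (nat_lit 626) (.a (.f (nat_lit 591) (nat_lit 590) (nat_lit 3662) (.f (nat_lit 527) (nat_lit 656) (nat_lit 4623) (.d (nat_lit 526) (nat_lit 494) (nat_lit 7662) (nat_lit 525) (nat_lit 525)))) (.a (.f (nat_lit 594) (nat_lit 595) (nat_lit 2639) (.f (nat_lit 622) (nat_lit 593) (nat_lit 2638) (.p (nat_lit 621) (.a (.d (nat_lit 653) (nat_lit 652) (nat_lit 1644) (nat_lit 654) (nat_lit 1645)) (.d (nat_lit 589) (nat_lit 588) (nat_lit 3660) (nat_lit 590) (nat_lit 3661)))))) (.f (nat_lit 594) (nat_lit 595) (nat_lit 2639) (.f (nat_lit 593) (nat_lit 622) (nat_lit 2638) (.d (nat_lit 658) (nat_lit 659) (nat_lit 623) (nat_lit 690) (nat_lit 7729)))))))))))) (.a (.p (nat_lit 625) (.a (.d (nat_lit 657) (nat_lit 592) (nat_lit 4624) (nat_lit 593) (nat_lit 7696)) (.a (.f (nat_lit 593) (nat_lit 657) (nat_lit 7696) (.f (nat_lit 594) (nat_lit 622) (nat_lit 2638) (.d (nat_lit 595) (nat_lit 596) (nat_lit 1616) (nat_lit 626) (nat_lit 2639)))) (.a (.f (nat_lit 592) (nat_lit 657) (nat_lit 4624) (.f (nat_lit 527) (nat_lit 495) (nat_lit 7663) (.p (nat_lit 591) (.a (.d (nat_lit 526) (nat_lit 494) (nat_lit 7662) (nat_lit 525) (nat_lit 525)) (.d (nat_lit 590) (nat_lit 589) (nat_lit 2605) (nat_lit 626) (nat_lit 3662)))))) (.p (nat_lit 622) (.a (.f (nat_lit 590) (nat_lit 589) (nat_lit 3661) (.f (nat_lit 591) (nat_lit 626) (nat_lit 3662) (.d (nat_lit 527) (nat_lit 495) (nat_lit 5614) (nat_lit 654) (nat_lit 5646)))) (.a (.f (nat_lit 593) (nat_lit 594) (nat_lit 2638) (.f (nat_lit 621) (nat_lit 592) (nat_lit 2637) (.d (nat_lit 653) (nat_lit 652) (nat_lit 1644) (nat_lit 654) (nat_lit 1645)))) (.f (nat_lit 590) (nat_lit 589) (nat_lit 3661) (.f (nat_lit 626) (nat_lit 591) (nat_lit 3662) (.d (nat_lit 594) (nat_lit 593) (nat_lit 2638) (nat_lit 595) (nat_lit 2639))))))))))) (.a (.p (nat_lit 625) (.a (.d (nat_lit 657) (nat_lit 592) (nat_lit 4624) (nat_lit 593) (nat_lit 7696)) (.a (.f (nat_lit 593) (nat_lit 657) (nat_lit 7696) (.f (nat_lit 594) (nat_lit 622) (nat_lit 2638) (.d (nat_lit 595) (nat_lit 596) (nat_lit 1616) (nat_lit 626) (nat_lit 2639)))) (.a (.f (nat_lit 592) (nat_lit 657) (nat_lit 4624) (.p (nat_lit 591) (.a (.d (nat_lit 656) (nat_lit 527) (nat_lit 4623) (nat_lit 688) (nat_lit 7727)) (.d (nat_lit 590) (nat_lit 589) (nat_lit 2605) (nat_lit 626) (nat_lit 3662))))) (.p (nat_lit 591) (.a (.f (nat_lit 590) (nat_lit 626) (nat_lit 3662) (.d (nat_lit 589) (nat_lit 588) (nat_lit 2604) (nat_lit 592) (nat_lit 2605))) (.f (nat_lit 527) (nat_lit 656) (nat_lit 4623) (.d (nat_lit 526) (nat_lit 494) (nat_lit 7662) (nat_lit 525) (nat_lit 525))))))))) (.p (nat_lit 625) (.a (.d (nat_lit 657) (nat_lit 592) (nat_lit 4624) (nat_lit 593) (nat_lit 7696)) (.a (.f (nat_lit 593) (nat_lit 657) (nat_lit 7696) (.f (nat_lit 594) (nat_lit 622) (nat_lit 2638) (.d (nat_lit 595) (nat_lit 596) (nat_lit 1616) (nat_lit 626) (nat_lit 2639)))) (.a (.f (nat_lit 657) (nat_lit 592) (nat_lit 4624) (.f (nat_lit 622) (nat_lit 658) (nat_lit 622) (.f (nat_lit 621) (nat_lit 656) (nat_lit 621) (.d (nat_lit 653) (nat_lit 652) (nat_lit 1644) (nat_lit 654) (nat_lit 1645))))) (.p (nat_lit 622) (.a (.f (nat_lit 590) (nat_lit 589) (nat_lit 3661) (.f (nat_lit 591) (nat_lit 626) (nat_lit 3662) (.d (nat_lit 654) (nat_lit 653) (nat_lit 1645) (nat_lit 686) (nat_lit 6702)))) (.a (.f (nat_lit 593) (nat_lit 594) (nat_lit 2638) (.f (nat_lit 621) (nat_lit 592) (nat_lit 2637) (.d (nat_lit 653) (nat_lit 652) (nat_lit 1644) (nat_lit 654) (nat_lit 1645)))) (.f (nat_lit 593) (nat_lit 594) (nat_lit 2638) (.f (nat_lit 621) (nat_lit 592) (nat_lit 2637) (.d (nat_lit 589) (nat_lit 588) (nat_lit 3660) (nat_lit 590) (nat_lit 3661))))))))))))))))))) (.f (nat_lit 591) (nat_lit 655) (nat_lit 6671) (.p (nat_lit 527) (.a (.d (nat_lit 526) (nat_lit 494) (nat_lit 7662) (nat_lit 525) (nat_lit 525)) (.f (nat_lit 622) (nat_lit 654) (nat_lit 5646) (.f (nat_lit 590) (nat_lit 495) (nat_lit 5614) (.f (nat_lit 624) (nat_lit 656) (nat_lit 4623) (.d (nat_lit 589) (nat_lit 588) (nat_lit 588) (nat_lit 625) (nat_lit 3661))))))))))))))) (.a s52454 (.p (nat_lit 562) (.a (.f (nat_lit 591) (nat_lit 590) (nat_lit 1582) (.f (nat_lit 563) (nat_lit 592) (nat_lit 1583) (.d (nat_lit 595) (nat_lit 594) (nat_lit 559) (nat_lit 596) (nat_lit 560)))) (.a (.f (nat_lit 591) (nat_lit 590) (nat_lit 1582) (.f (nat_lit 563) (nat_lit 592) (nat_lit 1583) (.d (nat_lit 531) (nat_lit 530) (nat_lit 2575) (nat_lit 532) (nat_lit 2576)))) (.a (.f (nat_lit 595) (nat_lit 594) (nat_lit 559) (.f (nat_lit 563) (nat_lit 596) (nat_lit 560) (.d (nat_lit 531) (nat_lit 530) (nat_lit 2575) (nat_lit 532) (nat_lit 2576)))) s52224))))))))))))))) (.a (.p (nat_lit 527) (.a s50893 (.a s50303 (.a (.p (nat_lit 495) (.a (.d (nat_lit 463) (nat_lit 431) (nat_lit 4527) (nat_lit 592) (nat_lit 4559)) (.a (.d (nat_lit 592) (nat_lit 463) (nat_lit 4559) (nat_lit 624) (nat_lit 7663)) (.a (.f (nat_lit 463) (nat_lit 431) (nat_lit 4527) (.f (nat_lit 558) (nat_lit 590) (nat_lit 5582) (.f (nat_lit 557) (nat_lit 556) (nat_lit 2572) (.f (nat_lit 525) (nat_lit 524) (nat_lit 3596) (.f (nat_lit 526) (nat_lit 561) (nat_lit 525) (.p (nat_lit 494) (.a (.d (nat_lit 589) (nat_lit 588) (nat_lit 1580) (nat_lit 621) (nat_lit 6637)) (.d (nat_lit 462) (nat_lit 430) (nat_lit 4526) (nat_lit 591) (nat_lit 4558))))))))) (.f (nat_lit 592) (nat_lit 624) (nat_lit 7663) (.p (nat_lit 526) (.a (.d (nat_lit 525) (nat_lit 524) (nat_lit 524) (nat_lit 561) (nat_lit 525)) (.a (.f (nat_lit 561) (nat_lit 562) (nat_lit 3598) (.p (nat_lit 558) (.a (.d (nat_lit 557) (nat_lit 556) (nat_lit 2572) (nat_lit 593) (nat_lit 557)) (.a (.d (nat_lit 593) (nat_lit 557) (nat_lit 557) (nat_lit 594) (nat_lit 558)) (.a (.p (nat_lit 591) (.a (.d (nat_lit 623) (nat_lit 494) (nat_lit 7662) (nat_lit 655) (nat_lit 6671)) (.a (.d (nat_lit 494) (nat_lit 462) (nat_lit 7630) (nat_lit 623) (nat_lit 7662)) (.f (nat_lit 593) (nat_lit 594) (nat_lit 558) (.f (nat_lit 590) (nat_lit 589) (nat_lit 1581) (.d (nat_lit 625) (nat_lit 626) (nat_lit 590) (nat_lit 657) (nat_lit 7696))))))) (.f (nat_lit 557) (nat_lit 556) (nat_lit 2572) (.d (nat_lit 589) (nat_lit 588) (nat_lit 1580) (nat_lit 590) (nat_lit 1581)))))))) (.f (nat_lit 525) (nat_lit 524) (nat_lit 524) (.f (nat_lit 557) (nat_lit 556) (nat_lit 1548) (.p (nat_lit 494) (.a (.f (nat_lit 558) (nat_lit 593) (nat_lit 557) (.d (nat_lit 589) (nat_lit 588) (nat_lit 1580) (nat_lit 621) (nat_lit 6637))) (.d (nat_lit 462) (nat_lit 430) (nat_lit 4526) (nat_lit 591) (nat_lit 7630)))))))))))))) (.a s50008 (.a (.p (nat_lit 526) (.a (.d (nat_lit 525) (nat_lit 524) (nat_lit 524) (nat_lit 561) (nat_lit 525)) (.a s52477 (.f (nat_lit 525) (nat_lit 524) (nat_lit 524) (.f (nat_lit 557) (nat_lit 556) (nat_lit 1548) (.f (nat_lit 493) (nat_lit 492) (nat_lit 3564) (.p (nat_lit 494) (.a (.f (nat_lit 589) (nat_lit 621) (nat_lit 6637) (.d (nat_lit 588) (nat_lit 558) (nat_lit 1580) (nat_lit 620) (nat_lit 5612))) (.a (.d (nat_lit 462) (nat_lit 430) (nat_lit 5549) (nat_lit 589) (nat_lit 6605)) (.f (nat_lit 462) (nat_lit 430) (nat_lit 4526) (.d (nat_lit 591) (nat_lit 495) (nat_lit 7630) (nat_lit 558) (nat_lit 4558)))))))))))) (.a (.p (nat_lit 592) (.a (.d (nat_lit 495) (nat_lit 463) (nat_lit 4559) (nat_lit 624) (nat_lit 7663)) (.a (.f (nat_lit 495) (nat_lit 463) (nat_lit 4559) (.p (nat_lit 558) (.a (.d (nat_lit 557) (nat_lit 556) (nat_lit 2572) (nat_lit 593) (nat_lit 557)) (.a (.f (nat_lit 593) (nat_lit 557) (nat_lit 557) (.d (nat_lit 594) (nat_lit 561) (nat_lit 558) (nat_lit 595) (nat_lit 3631))) (.p (nat_lit 561) (.a (.d (nat_lit 526) (nat_lit 525) (nat_lit 3597) (nat_lit 562) (nat_lit 3598)) (.a (.f (nat_lit 590) (nat_lit 589) (nat_lit 1581) (.d (nat_lit 591) (nat_lit 562) (nat_lit 1582) (nat_lit 622) (nat_lit 5614))) (.f (nat_lit 526) (nat_lit 525) (nat_lit 525) (.d (nat_lit 590) (nat_lit 589) (nat_lit 1581) (nat_lit 622) (nat_lit 6638)))))))))) (.a (.d (nat_lit 624) (nat_lit 495) (nat_lit 7663) (nat_lit 656) (nat_lit 7695)) (.f (nat_lit 624) (nat_lit 656) (nat_lit 7695) (.f (nat_lit 623) (nat_lit 655) (nat_lit 5647) (.f (nat_lit 625) (nat_lit 657) (nat_lit 4624) (.p (nat_lit 593) (.a (.f (nat_lit 594) (nat_lit 595) (nat_lit 3631) (.d (nat_lit 558) (nat_lit 557) (nat_lit 557) (nat_lit 561) (nat_lit 558))) (.f (nat_lit 622) (nat_lit 621) (nat_lit 2637) (.d (nat_lit 654) (nat_lit 591) (nat_lit 5646) (nat_lit 653) (nat_lit 1645)))))))))))) (.a (.p (nat_lit 495) (.a (.d (nat_lit 463) (nat_lit 431) (nat_lit 4527) (nat_lit 592) (nat_lit 4559)) (.a (.d (nat_lit 592) (nat_lit 463) (nat_lit 4559) (nat_lit 624) (nat_lit 7663)) (.a (.f (nat_lit 463) (nat_lit 431) (nat_lit 4527) (.f (nat_lit 558) (nat_lit 590) (nat_lit 5582) (.f (nat_lit 462) (nat_lit 430) (nat_lit 7598) (.f (nat_lit 494) (nat_lit 591) (nat_lit 7630) (.f (nat_lit 464) (nat_lit 432) (nat_lit 6575) (.d (nat_lit 465) (nat_lit 466) (nat_lit 1486) (nat_lit 493) (nat_lit 1485))))))) (.f (nat_lit 592) (nat_lit 624) (nat_lit 7663) (.p (nat_lit 591) (.a (.f (nat_lit 623) (nat_lit 655) (nat_lit 6671) (.d (nat_lit 622) (nat_lit 590) (nat_lit 5614) (nat_lit 654) (nat_lit 5646))) (.a (.f (nat_lit 623) (nat_lit 655) (nat_lit 6671) (.d (nat_lit 494) (nat_lit 462) (nat_lit 7630) (nat_lit 526) (nat_lit 7662))) (.a (.f (nat_lit 494) (nat_lit 462) (nat_lit 7630) (.f (nat_lit 526) (nat_lit 623) (nat_lit 7662) (.d (nat_lit 525) (nat_lit 524) (nat_lit 524) (nat_lit 561) (nat_lit 525)))) (.f (nat_lit 590) (nat_lit 622) (nat_lit 5614) (.f (nat_lit 561) (nat_lit 562) (nat_lit 1582) (.p (nat_lit 558) (.a (.d (nat_lit 557) (nat_lit 556) (nat_lit 2572) (nat_lit 593) (nat_lit 557)) (.a (.d (nat_lit 593) (nat_lit 557) (nat_lit 557) (nat_lit 594) (nat_lit 558)) (.a (.f (nat_lit 593) (nat_lit 594) (nat_lit 558) (.d (nat_lit 625) (nat_lit 626) (nat_lit 590) (nat_lit 657) (nat_lit 7696))) (.f (nat_lit 525) (nat_lit 526) (nat_lit 525) (.d (nat_lit 557) (nat_lit 524) (nat_lit 3596) (nat_lit 556) (nat_lit 2572)))))))))))))))))) (.a (.p (nat_lit 495) (.a (.d (nat_lit 463) (nat_lit 431) (nat_lit 4527) (nat_lit 592) (nat_lit 4559)) (.a (.d (nat_lit 592) (nat_lit 463) (nat_lit 4559) (nat_lit 624) (nat_lit 7663)) (.a (.f (nat_lit 463) (nat_lit 431) (nat_lit 4527) (.f (nat_lit 558) (nat_lit 590) (nat_lit 5582) (.f (nat_lit 557) (nat_lit 556) (nat_lit 2572) (.f (nat_lit 462) (nat_lit 430) (nat_lit 7598) (.f (nat_lit 494) (nat_lit 591) (nat_lit 7630) (.f (nat_lit 493) (nat_lit 492) (nat_lit 492) (.d (nat_lit 464) (nat_lit 432) (nat_lit 6575) (nat_lit 465) (nat_lit 1485)))))))) (.f (nat_lit 624) (nat_lit 592) (nat_lit 7663) (.p (nat_lit 591) (.a (.d (nat_lit 623) (nat_lit 655) (nat_lit 6671) (nat_lit 656) (nat_lit 4623)) (.f (nat_lit 590) (nat_lit 622) (nat_lit 5614) (.f (nat_lit 589) (nat_lit 588) (nat_lit 2604) (.d (nat_lit 561) (nat_lit 558) (nat_lit 1581) (nat_lit 562) (nat_lit 1582))))))))))) (.a s50120 (.a (.p (nat_lit 526) (.a (.d (nat_lit 525) (nat_lit 524) (nat_lit 524) (nat_lit 561) (nat_lit 525)) (.a (.f (nat_lit 561) (nat_lit 562) (nat_lit 3598) (.p (nat_lit 558) (.a (.f (nat_lit 590) (nat_lit 589) (nat_lit 1581) (.d (nat_lit 622) (nat_lit 495) (nat_lit 6638) (nat_lit 654) (nat_lit 6670))) (.f (nat_lit 557) (nat_lit 556) (nat_lit 2572) (.d (nat_lit 593) (nat_lit 592) (nat_lit 557) (nat_lit 594) (nat_lit 558)))))) (.f (nat_lit 525) (nat_lit 524) (nat_lit 524) (.f (nat_lit 557) (nat_lit 556) (nat_lit 1548) (.f (nat_lit 493) (nat_lit 492) (nat_lit 3564) (.p (nat_lit 558) (.a (.d (nat_lit 461) (nat_lit 429) (nat_lit 4525) (nat_lit 590) (nat_lit 4557)) (.f (nat_lit 589) (nat_lit 588) (nat_lit 1580) (.d (nat_lit 494) (nat_lit 462) (nat_lit 5581) (nat_lit 621) (nat_lit 6637))))))))))) (.a s50894 (.a (.p (nat_lit 526) (.a (.d (nat_lit 525) (nat_lit 524) (nat_lit 524) (nat_lit 561) (nat_lit 525)) (.a (.f (nat_lit 561) (nat_lit 562) (nat_lit 3598) s50902) (.f (nat_lit 525) (nat_lit 524) (nat_lit 524) (.f (nat_lit 557) (nat_lit 556) (nat_lit 1548) (.f (nat_lit 493) (nat_lit 492) (nat_lit 3564) (.p (nat_lit 558) (.a (.d (nat_lit 461) (nat_lit 429) (nat_lit 4525) (nat_lit 590) (nat_lit 4557)) (.f (nat_lit 589) (nat_lit 588) (nat_lit 1580) (.d (nat_lit 494) (nat_lit 462) (nat_lit 5581) (nat_lit 621) (nat_lit 6637))))))))))) s50170))))))))))))) (.a (.p (nat_lit 527) (.a (.p (nat_lit 495) (.a (.d (nat_lit 463) (nat_lit 431) (nat_lit 4527) (nat_lit 592) (nat_lit 4559)) (.a (.d (nat_lit 592) (nat_lit 463) (nat_lit 4559) (nat_lit 624) (nat_lit 7663)) (.a (.f (nat_lit 463) (nat_lit 431) (nat_lit 4527) (.f (nat_lit 558) (nat_lit 590) (nat_lit 5582) (.f (nat_lit 557) (nat_lit 556) (nat_lit 2572) (.f (nat_lit 525) (nat_lit 524) (nat_lit 3596) (.f (nat_lit 526) (nat_lit 561) (nat_lit 525) (.p (nat_lit 494) (.a (.d (nat_lit 589) (nat_lit 588) (nat_lit 1580) (nat_lit 621) (nat_lit 6637)) (.d (nat_lit 462) (nat_lit 430) (nat_lit 4526) (nat_lit 591) (nat_lit 4558))))))))) (.f (nat_lit 592) (nat_lit 624) (nat_lit 7663) (.p (nat_lit 561) (.a (.d (nat_lit 526) (nat_lit 525) (nat_lit 525) (nat_lit 562) (nat_lit 3598)) (.a (.f (nat_lit 562) (nat_lit 563) (nat_lit 3599) (.f (nat_lit 590) (nat_lit 591) (nat_lit 1582) (.f (nat_lit 558) (nat_lit 589) (nat_lit 1581) (.d (nat_lit 557) (nat_lit 556) (nat_lit 2572) (nat_lit 593) (nat_lit 557))))) (.f (nat_lit 526) (nat_lit 525) (nat_lit 525) (.p (nat_lit 558) (.a (.d (nat_lit 557) (nat_lit 556) (nat_lit 2572) (nat_lit 593) (nat_lit 557)) (.a (.d (nat_lit 593) (nat_lit 557) (nat_lit 557) (nat_lit 594) (nat_lit 558)) (.d (nat_lit 590) (nat_lit 589) (nat_lit 1581) (nat_lit 622) (nat_lit 6638)))))))))))))) (.a s50225 (.a (.p (nat_lit 561) (.a (.d (nat_lit 526) (nat_lit 525) (nat_lit 525) (nat_lit 562) (nat_lit 3598)) (.a (.f (nat_lit 562) (nat_lit 563) (nat_lit 3599) (.f (nat_lit 590) (nat_lit 591) (nat_lit 1582) (.f (nat_lit 558) (nat_lit 589) (nat_lit 1581) (.d (nat_lit 594) (nat_lit 593) (nat_lit 558) (nat_lit 595) (nat_lit 559))))) s49986))) (.a (.p (nat_lit 495) (.a (.d (nat_lit 463) (nat_lit 431) (nat_lit 4527) (nat_lit 592) (nat_lit 4559)) (.a (.d (nat_lit 592) (nat_lit 463) (nat_lit 4559) (nat_lit 624) (nat_lit 7663)) (.a (.f (nat_lit 463) (nat_lit 431) (nat_lit 4527) (.f (nat_lit 590) (nat_lit 558) (nat_lit 5582) (.f (nat_lit 591) (nat_lit 622) (nat_lit 5614) (.d (nat_lit 462) (nat_lit 430) (nat_lit 7598) (nat_lit 494) (nat_lit 7630))))) (.f (nat_lit 592) (nat_lit 624) (nat_lit 7663) (.p (nat_lit 561) (.a (.d (nat_lit 526) (nat_lit 525) (nat_lit 525) (nat_lit 562) (nat_lit 3598)) (.a (.f (nat_lit 562) (nat_lit 563) (nat_lit 3599) (.f (nat_lit 591) (nat_lit 590) (nat_lit 1582) (.f (nat_lit 594) (nat_lit 595) (nat_lit 559) (.f (nat_lit 593) (nat_lit 558) (nat_lit 558) (.f (nat_lit 530) (nat_lit 531) (nat_lit 2575) (.d (nat_lit 498) (nat_lit 466) (nat_lit 5585) (nat_lit 625) (nat_lit 5617))))))) (.f (nat_lit 526) (nat_lit 525) (nat_lit 525) (.p (nat_lit 558) (.a (.d (nat_lit 593) (nat_lit 557) (nat_lit 557) (nat_lit 594) (nat_lit 558)) (.d (nat_lit 590) (nat_lit 589) (nat_lit 1581) (nat_lit 622) (nat_lit 6638))))))))))))) (.a (.p (nat_lit 495) (.a (.d (nat_lit 463) (nat_lit 431) (nat_lit 4527) (nat_lit 592) (nat_lit 4559)) (.a (.d (nat_lit 592) (nat_lit 463) (nat_lit 4559) (nat_lit 624) (nat_lit 7663)) (.a (.f (nat_lit 463) (nat_lit 431) (nat_lit 4527) (.f (nat_lit 558) (nat_lit 590) (nat_lit 5582) (.f (nat_lit 557) (nat_lit 556) (nat_lit 2572) (.f (nat_lit 525) (nat_lit 524) (nat_lit 3596) (.f (nat_lit 526) (nat_lit 561) (nat_lit 525) (.p (nat_lit 494) (.a (.d (nat_lit 589) (nat_lit 588) (nat_lit 1580) (nat_lit 621) (nat_lit 6637)) (.d (nat_lit 462) (nat_lit 430) (nat_lit 4526) (nat_lit 591) (nat_lit 4558))))))))) (.f (nat_lit 592) (nat_lit 624) (nat_lit 7663) (.p (nat_lit 561) (.a (.d (nat_lit 526) (nat_lit 525) (nat_lit 525) (nat_lit 562) (nat_lit 3598)) (.a (.f (nat_lit 562) (nat_lit 563) (nat_lit 3599) (.f (nat_lit 590) (nat_lit 591) (nat_lit 1582) (.f (nat_lit 558) (nat_lit 589) (nat_lit 1581) (.d (nat_lit 557) (nat_lit 556) (nat_lit 2572) (nat_lit 593) (nat_lit 557))))) (.f (nat_lit 526) (nat_lit 525) (nat_lit 525) (.p (nat_lit 558) (.a (.d (nat_lit 557) (nat_lit 556) (nat_lit 2572) (nat_lit 593) (nat_lit 557)) (.d (nat_lit 590) (nat_lit 589) (nat_lit 1581) (nat_lit 622) (nat_lit 6638))))))))))))) (.a s50892 (.a (.p (nat_lit 495) (.a (.d (nat_lit 463) (nat_lit 431) (nat_lit 4527) (nat_lit 592) (nat_lit 4559)) (.a (.d (nat_lit 592) (nat_lit 463) (nat_lit 4559) (nat_lit 624) (nat_lit 7663)) (.a (.f (nat_lit 463) (nat_lit 431) (nat_lit 4527) (.f (nat_lit 462) (nat_lit 430) (nat_lit 7598) (.f (nat_lit 494) (nat_lit 591) (nat_lit 7630) (.f (nat_lit 493) (nat_lit 492) (nat_lit 492) (.d (nat_lit 464) (nat_lit 432) (nat_lit 6575) (nat_lit 465) (nat_lit 1485)))))) (.f (nat_lit 592) (nat_lit 624) (nat_lit 7663) (.p (nat_lit 561) (.a (.d (nat_lit 526) (nat_lit 525) (nat_lit 525) (nat_lit 562) (nat_lit 3598)) (.a (.f (nat_lit 562) (nat_lit 563) (nat_lit 3599) (.f (nat_lit 594) (nat_lit 595) (nat_lit 559) (.f (nat_lit 593) (nat_lit 558) (nat_lit 558) (.f (nat_lit 530) (nat_lit 531) (nat_lit 2575) (.d (nat_lit 498) (nat_lit 466) (nat_lit 5585) (nat_lit 625) (nat_lit 5617)))))) (.f (nat_lit 525) (nat_lit 526) (nat_lit 525) (.p (nat_lit 557) (.a (.d (nat_lit 558) (nat_lit 556) (nat_lit 2572) (nat_lit 593) (nat_lit 557)) (.a (.d (nat_lit 558) (nat_lit 524) (nat_lit 3596) (nat_lit 593) (nat_lit 557)) (.p (nat_lit 493) (.a (.f (nat_lit 492) (nat_lit 494) (nat_lit 492) (.f (nat_lit 460) (nat_lit 589) (nat_lit 7628) (.d (nat_lit 428) (nat_lit 396) (nat_lit 4492) (nat_lit 524) (nat_lit 4524)))) (.a (.p (nat_lit 462) (.a (.d (nat_lit 494) (nat_lit 589) (nat_lit 6605) (nat_lit 591) (nat_lit 7630)) (.a (.f (nat_lit 430) (nat_lit 461) (nat_lit 6573) (.d (nat_lit 494) (nat_lit 398) (nat_lit 5517) (nat_lit 589) (nat_lit 6605))) (.f (nat_lit 461) (nat_lit 430) (nat_lit 6573) (.p (nat_lit 429) (.a (.d (nat_lit 556) (nat_lit 524) (nat_lit 5548) (nat_lit 588) (nat_lit 5580)) (.d (nat_lit 428) (nat_lit 396) (nat_lit 7564) (nat_lit 460) (nat_lit 7596)))))))) (.a s51362 (.a (.p (nat_lit 461) (.a (.p (nat_lit 429) (.a (.d (nat_lit 556) (nat_lit 524) (nat_lit 5548) (nat_lit 588) (nat_lit 5580)) (.d (nat_lit 428) (nat_lit 396) (nat_lit 7564) (nat_lit 460) (nat_lit 7596)))) (.f (nat_lit 494) (nat_lit 492) (nat_lit 492) (.d (nat_lit 462) (nat_lit 430) (nat_lit 6573) (nat_lit 591) (nat_lit 7630))))) (.f (nat_lit 494) (nat_lit 492) (nat_lit 492) (.d (nat_lit 462) (nat_lit 589) (nat_lit 6605) (nat_lit 591) (nat_lit 7630)))))))))))))))))))) (.a (.p (nat_lit 495) (.a (.d (nat_lit 463) (nat_lit 431) (nat_lit 4527) (nat_lit 592) (nat_lit 4559)) (.a (.d (nat_lit 592) (nat_lit 463) (nat_lit 4559) (nat_lit 624) (nat_lit 7663)) (.a (.f (nat_lit 463) (nat_lit 431) (nat_lit 4527) (.f (nat_lit 462) (nat_lit 430) (nat_lit 7598) (.f (nat_lit 494) (nat_lit 591) (nat_lit 7630) (.f (nat_lit 493) (nat_lit 492) (nat_lit 492) (.d (nat_lit 464) (nat_lit 432) (nat_lit 6575) (nat_lit 465) (nat_lit 1485)))))) (.f (nat_lit 592) (nat_lit 624) (nat_lit 7663) (.p (nat_lit 561) (.a (.d (nat_lit 526) (nat_lit 525) (nat_lit 525) (nat_lit 562) (nat_lit 3598)) (.a (.f (nat_lit 562) (nat_lit 563) (nat_lit 3599) (.f (nat_lit 591) (nat_lit 590) (nat_lit 1582) s52212)) (.f (nat_lit 526) (nat_lit 525) (nat_lit 525) (.p (nat_lit 591) (.a (.d (nat_lit 590) (nat_lit 589) (nat_lit 2605) (nat_lit 622) (nat_lit 5614)) (.d (nat_lit 494) (nat_lit 462) (nat_lit 7630) (nat_lit 623) (nat_lit 7662))))))))))))) (.a (.p (nat_lit 495) (.a (.d (nat_lit 463) (nat_lit 431) (nat_lit 4527) (nat_lit 592) (nat_lit 4559)) (.a (.d (nat_lit 592) (nat_lit 463) (nat_lit 4559) (nat_lit 624) (nat_lit 7663)) (.a (.f (nat_lit 463) (nat_lit 431) (nat_lit 4527) (.f (nat_lit 558) (nat_lit 590) (nat_lit 5582) (.f (nat_lit 557) (nat_lit 556) (nat_lit 2572) (.f (nat_lit 525) (nat_lit 524) (nat_lit 3596) (.f (nat_lit 526) (nat_lit 561) (nat_lit 525) (.p (nat_lit 494) (.a (.d (nat_lit 589) (nat_lit 588) (nat_lit 1580) (nat_lit 621) (nat_lit 6637)) (.d (nat_lit 462) (nat_lit 430) (nat_lit 4526) (nat_lit 591) (nat_lit 4558))))))))) (.f (nat_lit 592) (nat_lit 624) (nat_lit 7663) (.p (nat_lit 526) (.a (.d (nat_lit 525) (nat_lit 524) (nat_lit 524) (nat_lit 561) (nat_lit 525)) (.a (.f (nat_lit 561) (nat_lit 562) (nat_lit 3598) (.p (nat_lit 558) (.a (.d (nat_lit 557) (nat_lit 556) (nat_lit 2572) (nat_lit 593) (nat_lit 557)) (.a (.d (nat_lit 593) (nat_lit 557) (nat_lit 557) (nat_lit 594) (nat_lit 558)) (.d (nat_lit 590) (nat_lit 589) (nat_lit 1581) (nat_lit 622) (nat_lit 6638)))))) (.f (nat_lit 525) (nat_lit 524) (nat_lit 524) (.f (nat_lit 557) (nat_lit 556) (nat_lit 1548) (.f (nat_lit 558) (nat_lit 593) (nat_lit 557) (.p (nat_lit 494) (.a (.d (nat_lit 589) (nat_lit 588) (nat_lit 1580) (nat_lit 621) (nat_lit 6637)) (.d (nat_lit 462) (nat_lit 430) (nat_lit 4526) (nat_lit 591) (nat_lit 4558))))))))))))))) (.a (.p (nat_lit 495) (.a (.d (nat_lit 463) (nat_lit 431) (nat_lit 4527) (nat_lit 592) (nat_lit 4559)) (.a (.d (nat_lit 592) (nat_lit 463) (nat_lit 4559) (nat_lit 624) (nat_lit 7663)) (.a (.f (nat_lit 463) (nat_lit 431) (nat_lit 4527) (.f (nat_lit 558) (nat_lit 590) (nat_lit 5582) (.f (nat_lit 462) (nat_lit 430) (nat_lit 7598) (.f (nat_lit 494) (nat_lit 591) (nat_lit 7630) (.f (nat_lit 464) (nat_lit 432) (nat_lit 6575) (.d (nat_lit 465) (nat_lit 466) (nat_lit 1486) (nat_lit 493) (nat_lit 1485))))))) (.f (nat_lit 592) (nat_lit 624) (nat_lit 7663) (.p (nat_lit 561) (.a (.d (nat_lit 526) (nat_lit 525) (nat_lit 525) (nat_lit 562) (nat_lit 3598)) (.a (.f (nat_lit 562) (nat_lit 563) (nat_lit 3599) (.f (nat_lit 591) (nat_lit 590) (nat_lit 1582) (.f (nat_lit 594) (nat_lit 595) (nat_lit 559) (.f (nat_lit 593) (nat_lit 558) (nat_lit 558) (.f (nat_lit 530) (nat_lit 531) (nat_lit 2575) (.d (nat_lit 498) (nat_lit 466) (nat_lit 5585) (nat_lit 625) (nat_lit 5617))))))) (.f (nat_lit 526) (nat_lit 525) (nat_lit 525) (.p (nat_lit 558) (.a (.d (nat_lit 557) (nat_lit 556) (nat_lit 2572) (nat_lit 593) (nat_lit 557)) (.a (.d (nat_lit 593) (nat_lit 557) (nat_lit 557) (nat_lit 594) (nat_lit 558)) (.a (.f (nat_lit 593) (nat_lit 594) (nat_lit 558) (.p (nat_lit 591) (.a (.f (nat_lit 590) (nat_lit 622) (nat_lit 5614) (.d (nat_lit 625) (nat_lit 626) (nat_lit 590) (nat_lit 657) (nat_lit 7696))) (.d (nat_lit 494) (nat_lit 462) (nat_lit 7630) (nat_lit 623) (nat_lit 7662))))) (.f (nat_lit 590) (nat_lit 622) (nat_lit 6638) (.p (nat_lit 494) (.a (.d (nat_lit 493) (nat_lit 461) (nat_lit 7629) (nat_lit 492) (nat_lit 492)) (.d (nat_lit 462) (nat_lit 430) (nat_lit 4526) (nat_lit 591) (nat_lit 4558)))))))))))))))))) (.a s50096 (.a (.p (nat_lit 561) (.a (.d (nat_lit 526) (nat_lit 525) (nat_lit 525) (nat_lit 562) (nat_lit 3598)) (.a (.f (nat_lit 562) (nat_lit 563) (nat_lit 3599) (.f (nat_lit 590) (nat_lit 591) (nat_lit 1582) (.f (nat_lit 558) (nat_lit 589) (nat_lit 1581) (.d (nat_lit 594) (nat_lit 593) (nat_lit 558) (nat_lit 595) (nat_lit 559))))) (.f (nat_lit 526) (nat_lit 525) (nat_lit 525) (.p (nat_lit 590) (.a (.f (nat_lit 558) (nat_lit 589) (nat_lit 1581) (.d (nat_lit 495) (nat_lit 463) (nat_lit 5582) (nat_lit 622) (nat_lit 6638))) (.a (.f (nat_lit 558) (nat_lit 589) (nat_lit 1581) (.f (nat_lit 495) (nat_lit 463) (nat_lit 5582) (.p (nat_lit 494) (.a (.d (nat_lit 493) (nat_lit 461) (nat_lit 7629) (nat_lit 492) (nat_lit 492)) (.d (nat_lit 462) (nat_lit 430) (nat_lit 4526) (nat_lit 591) (nat_lit 4558)))))) (.a (.p (nat_lit 591) (.a (.f (nat_lit 495) (nat_lit 622) (nat_lit 5614) (.d (nat_lit 494) (nat_lit 462) (nat_lit 7630) (nat_lit 623) (nat_lit 7662))) (.a (.f (nat_lit 623) (nat_lit 494) (nat_lit 7662) (.d (nat_lit 622) (nat_lit 495) (nat_lit 5614) (nat_lit 654) (nat_lit 5646))) (.a (.f (nat_lit 494) (nat_lit 623) (nat_lit 7662) (.d (nat_lit 462) (nat_lit 430) (nat_lit 4526) (nat_lit 495) (nat_lit 7630))) (.a (.f (nat_lit 622) (nat_lit 495) (nat_lit 5614) (.d (nat_lit 654) (nat_lit 623) (nat_lit 5646) (nat_lit 686) (nat_lit 6702))) (.a (.f (nat_lit 495) (nat_lit 622) (nat_lit 5614) (.f (nat_lit 462) (nat_lit 494) (nat_lit 7630) (.d (nat_lit 463) (nat_lit 430) (nat_lit 7598) (nat_lit 431) (nat_lit 4527)))) (.f (nat_lit 623) (nat_lit 494) (nat_lit 7662) (.f (nat_lit 624) (nat_lit 656) (nat_lit 4623) (.f (nat_lit 622) (nat_lit 654) (nat_lit 5646) (.d (nat_lit 589) (nat_lit 588) (nat_lit 588) (nat_lit 625) (nat_lit 3661))))))))))) (.a (.p (nat_lit 495) (.a (.d (nat_lit 463) (nat_lit 431) (nat_lit 4527) (nat_lit 558) (nat_lit 5582)) (.a (.f (nat_lit 463) (nat_lit 431) (nat_lit 4527) (.f (nat_lit 591) (nat_lit 622) (nat_lit 5614) (.d (nat_lit 462) (nat_lit 430) (nat_lit 7598) (nat_lit 494) (nat_lit 7630)))) (.a (.d (nat_lit 558) (nat_lit 463) (nat_lit 5582) (nat_lit 622) (nat_lit 6638)) (.d (nat_lit 622) (nat_lit 558) (nat_lit 6638) (nat_lit 591) (nat_lit 5614)))))) (.a (.f (nat_lit 558) (nat_lit 589) (nat_lit 1581) (.d (nat_lit 622) (nat_lit 495) (nat_lit 6638) (nat_lit 654) (nat_lit 6670))) (.f (nat_lit 589) (nat_lit 558) (nat_lit 1581) (.f (nat_lit 591) (nat_lit 588) (nat_lit 2604) (.f (nat_lit 623) (nat_lit 494) (nat_lit 7662) (.f (nat_lit 622) (nat_lit 654) (nat_lit 5646) (.d (nat_lit 624) (nat_lit 625) (nat_lit 3661) (nat_lit 656) (nat_lit 4623)))))))))))))))) (.a (.p (nat_lit 495) (.a (.d (nat_lit 463) (nat_lit 431) (nat_lit 4527) (nat_lit 592) (nat_lit 4559)) (.a (.d (nat_lit 592) (nat_lit 463) (nat_lit 4559) (nat_lit 624) (nat_lit 7663)) (.a (.f (nat_lit 463) (nat_lit 431) (nat_lit 4527) (.f (nat_lit 558) (nat_lit 590) (nat_lit 5582) (.f (nat_lit 557) (nat_lit 556) (nat_lit 2572) (.f (nat_lit 525) (nat_lit 524) (nat_lit 3596) (.f (nat_lit 526) (nat_lit 561) (nat_lit 525) (.p (nat_lit 494) (.a (.d (nat_lit 589) (nat_lit 588) (nat_lit 1580) (nat_lit 621) (nat_lit 6637)) (.d (nat_lit 462) (nat_lit 430) (nat_lit 4526) (nat_lit 591) (nat_lit 4558))))))))) (.f (nat_lit 624) (nat_lit 592) (nat_lit 7663) (.p (nat_lit 526) (.a (.d (nat_lit 525) (nat_lit 524) (nat_lit 524) (nat_lit 561) (nat_lit 525)) (.a (.f (nat_lit 561) (nat_lit 562) (nat_lit 3598) (.p (nat_lit 494) (.a (.d (nat_lit 462) (nat_lit 430) (nat_lit 4526) (nat_lit 591) (nat_lit 7630)) (.a (.f (nat_lit 591) (nat_lit 623) (nat_lit 7662) (.f (nat_lit 590) (nat_lit 622) (nat_lit 5614) (.d (nat_lit 589) (nat_lit 558) (nat_lit 1581) (nat_lit 588) (nat_lit 2604)))) (.f (nat_lit 462) (nat_lit 430) (nat_lit 4526) (.p (nat_lit 558) (.a (.d (nat_lit 557) (nat_lit 556) (nat_lit 2572) (nat_lit 589) (nat_lit 5581)) (.a (.d (nat_lit 590) (nat_lit 589) (nat_lit 1581) (nat_lit 622) (nat_lit 6638)) (.f (nat_lit 461) (nat_lit 429) (nat_lit 7597) (.d (nat_lit 493) (nat_lit 492) (nat_lit 492) (nat_lit 590) (nat_lit 7629))))))))))) (.f (nat_lit 525) (nat_lit 524) (nat_lit 524) (.f (nat_lit 557) (nat_lit 556) (nat_lit 1548) (.f (nat_lit 493) (nat_lit 492) (nat_lit 3564) (.p (nat_lit 494) (.a (.p (nat_lit 590) (.a (.f (nat_lit 558) (nat_lit 461) (nat_lit 7629) (.d (nat_lit 589) (nat_lit 588) (nat_lit 1580) (nat_lit 621) (nat_lit 5613))) (.d (nat_lit 591) (nat_lit 622) (nat_lit 5614) (nat_lit 623) (nat_lit 7662)))) (.a (.d (nat_lit 462) (nat_lit 430) (nat_lit 4526) (nat_lit 591) (nat_lit 7630)) (.d (nat_lit 462) (nat_lit 430) (nat_lit 5549) (nat_lit 589) (nat_lit 6605)))))))))))))))) (.a (.p (nat_lit 561) (.a (.d (nat_lit 526) (nat_lit 525) (nat_lit 525) (nat_lit 562) (nat_lit 3598)) (.a (.f (nat_lit 562) (nat_lit 563) (nat_lit 3599) (.f (nat_lit 590) (nat_lit 591) (nat_lit 1582) (.f (nat_lit 558) (nat_lit 589) (nat_lit 1581) (.d (nat_lit 594) (nat_lit 593) (nat_lit 558) (nat_lit 595) (nat_lit 559))))) (.f (nat_lit 526) (nat_lit 525) (nat_lit 525) (.p (nat_lit 558) (.a (.f (nat_lit 590) (nat_lit 589) (nat_lit 1581) (.d (nat_lit 622) (nat_lit 495) (nat_lit 6638) (nat_lit 654) (nat_lit 6670))) (.f (nat_lit 557) (nat_lit 556) (nat_lit 2572) (.d (nat_lit 593) (nat_lit 592) (nat_lit 557) (nat_lit 594) (nat_lit 558))))))))) (.a (.p (nat_lit 495) (.a (.d (nat_lit 463) (nat_lit 431) (nat_lit 4527) (nat_lit 592) (nat_lit 4559)) (.a (.d (nat_lit 592) (nat_lit 463) (nat_lit 4559) (nat_lit 624) (nat_lit 7663)) (.a (.f (nat_lit 463) (nat_lit 431) (nat_lit 4527) (.f (nat_lit 558) (nat_lit 590) (nat_lit 5582) (.f (nat_lit 557) (nat_lit 556) (nat_lit 2572) (.f (nat_lit 525) (nat_lit 524) (nat_lit 3596) (.f (nat_lit 526) (nat_lit 561) (nat_lit 525) (.p (nat_lit 494) (.a (.d (nat_lit 589) (nat_lit 588) (nat_lit 1580) (nat_lit 621) (nat_lit 6637)) (.d (nat_lit 462) (nat_lit 430) (nat_lit 4526) (nat_lit 591) (nat_lit 4558))))))))) (.f (nat_lit 592) (nat_lit 624) (nat_lit 7663) (.p (nat_lit 558) (.a (.d (nat_lit 557) (nat_lit 556) (nat_lit 2572) (nat_lit 593) (nat_lit 557)) (.a (.f (nat_lit 593) (nat_lit 557) (nat_lit 557) (.d (nat_lit 594) (nat_lit 561) (nat_lit 558) (nat_lit 595) (nat_lit 3631))) (.p (nat_lit 526) (.a (.d (nat_lit 525) (nat_lit 524) (nat_lit 524) (nat_lit 561) (nat_lit 525)) (.a (.f (nat_lit 590) (nat_lit 622) (nat_lit 6638) (.p (nat_lit 494) (.a (.d (nat_lit 589) (nat_lit 561) (nat_lit 1581) (nat_lit 621) (nat_lit 5613)) (.d (nat_lit 462) (nat_lit 430) (nat_lit 4526) (nat_lit 591) (nat_lit 4558))))) (.f (nat_lit 590) (nat_lit 622) (nat_lit 6638) (.p (nat_lit 494) (.a (.d (nat_lit 493) (nat_lit 461) (nat_lit 7629) (nat_lit 492) (nat_lit 492)) (.d (nat_lit 462) (nat_lit 430) (nat_lit 4526) (nat_lit 591) (nat_lit 4558)))))))))))))))) (.a (.p (nat_lit 561) (.a (.d (nat_lit 526) (nat_lit 525) (nat_lit 525) (nat_lit 562) (nat_lit 3598)) (.a (.f (nat_lit 562) (nat_lit 563) (nat_lit 3599) (.f (nat_lit 590) (nat_lit 591) (nat_lit 1582) (.f (nat_lit 558) (nat_lit 589) (nat_lit 1581) (.d (nat_lit 594) (nat_lit 593) (nat_lit 558) (nat_lit 595) (nat_lit 559))))) (.f (nat_lit 526) (nat_lit 525) (nat_lit 525) (.p (nat_lit 558) (.a (.f (nat_lit 557) (nat_lit 556) (nat_lit 2572) (.d (nat_lit 593) (nat_lit 592) (nat_lit 557) (nat_lit 594) (nat_lit 558))) (.a (.f (nat_lit 593) (nat_lit 594) (nat_lit 558) (.f (nat_lit 590) (nat_lit 589) (nat_lit 1581) (.f (nat_lit 592) (nat_lit 557) (nat_lit 557) (.p (nat_lit 591) (.a (.d (nat_lit 494) (nat_lit 462) (nat_lit 4558) (nat_lit 623) (nat_lit 7662)) (.d (nat_lit 625) (nat_lit 626) (nat_lit 590) (nat_lit 657) (nat_lit 7696))))))) (.a (.f (nat_lit 557) (nat_lit 556) (nat_lit 2572) (.d (nat_lit 589) (nat_lit 588) (nat_lit 1580) (nat_lit 590) (nat_lit 1581))) (.f (nat_lit 590) (nat_lit 589) (nat_lit 1581) (.f (nat_lit 593) (nat_lit 594) (nat_lit 558) (.f (nat_lit 622) (nat_lit 654) (nat_lit 6670) (.p (nat_lit 591) (.a (.d (nat_lit 494) (nat_lit 462) (nat_lit 4558) (nat_lit 623) (nat_lit 7662)) (.d (nat_lit 621) (nat_lit 592) (nat_lit 1613) (nat_lit 653) (nat_lit 5645))))))))))))))) (.p (nat_lit 495) (.a (.d (nat_lit 463) (nat_lit 431) (nat_lit 4527) (nat_lit 592) (nat_lit 4559)) (.a (.d (nat_lit 592) (nat_lit 463) (nat_lit 4559) (nat_lit 624) (nat_lit 7663)) (.a (.f (nat_lit 463) (nat_lit 431) (nat_lit 4527) (.f (nat_lit 558) (nat_lit 590) (nat_lit 5582) (.f (nat_lit 557) (nat_lit 556) (nat_lit 2572) (.f (nat_lit 462) (nat_lit 430) (nat_lit 7598) (.f (nat_lit 494) (nat_lit 591) (nat_lit 7630) (.d (nat_lit 589) (nat_lit 526) (nat_lit 5581) (nat_lit 588) (nat_lit 1580))))))) (.f (nat_lit 592) (nat_lit 624) (nat_lit 7663) (.p (nat_lit 591) (.a (.f (nat_lit 494) (nat_lit 462) (nat_lit 7630) (.f (nat_lit 590) (nat_lit 622) (nat_lit 5614) (.f (nat_lit 526) (nat_lit 623) (nat_lit 7662) (.p (nat_lit 558) (.a (.d (nat_lit 593) (nat_lit 557) (nat_lit 557) (nat_lit 594) (nat_lit 3630)) (.a (.d (nat_lit 557) (nat_lit 556) (nat_lit 2572) (nat_lit 593) (nat_lit 557)) (.d (nat_lit 589) (nat_lit 588) (nat_lit 2604) (nat_lit 621) (nat_lit 5613)))))))) (.a (.f (nat_lit 590) (nat_lit 622) (nat_lit 5614) (.f (nat_lit 589) (nat_lit 588) (nat_lit 2604) (.f (nat_lit 557) (nat_lit 556) (nat_lit 3628) (.f (nat_lit 558) (nat_lit 593) (nat_lit 557) (.p (nat_lit 526) (.a (.d (nat_lit 494) (nat_lit 621) (nat_lit 5613) (nat_lit 623) (nat_lit 4590)) (.a (.p (nat_lit 493) (.a (.d (nat_lit 492) (nat_lit 494) (nat_lit 492) (nat_lit 525) (nat_lit 3564)) (.a (.d (nat_lit 525) (nat_lit 461) (nat_lit 4557) (nat_lit 524) (nat_lit 3596)) (.d (nat_lit 494) (nat_lit 492) (nat_lit 492) (nat_lit 623) (nat_lit 7662))))) (.d (nat_lit 621) (nat_lit 620) (nat_lit 1612) (nat_lit 653) (nat_lit 6669))))))))) (.a (.f (nat_lit 494) (nat_lit 462) (nat_lit 7630) (.f (nat_lit 526) (nat_lit 623) (nat_lit 7662) (.f (nat_lit 525) (nat_lit 524) (nat_lit 524) (.p (nat_lit 558) (.a (.d (nat_lit 557) (nat_lit 556) (nat_lit 2572) (nat_lit 593) (nat_lit 557)) (.a (.d (nat_lit 593) (nat_lit 557) (nat_lit 557) (nat_lit 594) (nat_lit 3630)) (.f (nat_lit 493) (nat_lit 492) (nat_lit 492) (.d (nat_lit 461) (nat_lit 429) (nat_lit 4525) (nat_lit 590) (nat_lit 7629))))))))) (.a (.f (nat_lit 494) (nat_lit 462) (nat_lit 7630) (.f (nat_lit 590) (nat_lit 622) (nat_lit 5614) (.f (nat_lit 526) (nat_lit 623) (nat_lit 7662) (.p (nat_lit 558) (.a (.d (nat_lit 593) (nat_lit 557) (nat_lit 557) (nat_lit 594) (nat_lit 3630)) (.d (nat_lit 589) (nat_lit 588) (nat_lit 2604) (nat_lit 621) (nat_lit 5613))))))) (.a (.f (nat_lit 494) (nat_lit 462) (nat_lit 7630) (.f (nat_lit 526) (nat_lit 623) (nat_lit 7662) (.f (nat_lit 525) (nat_lit 524) (nat_lit 524) (.f (nat_lit 557) (nat_lit 556) (nat_lit 1548) (.f (nat_lit 558) (nat_lit 593) (nat_lit 557) (.d (nat_lit 589) (nat_lit 588) (nat_lit 1580) (nat_lit 621) (nat_lit 6637))))))) (.a (.f (nat_lit 494) (nat_lit 462) (nat_lit 7630) (.f (nat_lit 590) (nat_lit 622) (nat_lit 5614) (.f (nat_lit 589) (nat_lit 588) (nat_lit 2604) (.f (nat_lit 526) (nat_lit 623) (nat_lit 7662) (.f (nat_lit 525) (nat_lit 524) (nat_lit 524) (.d (nat_lit 557) (nat_lit 556) (nat_lit 3628) (nat_lit 621) (nat_lit 6637))))))) (.a (.f (nat_lit 590) (nat_lit 622) (nat_lit 5614) (.f (nat_lit 589) (nat_lit 588) (nat_lit 2604) (.f (nat_lit 557) (nat_lit 556) (nat_lit 3628) (.f (nat_lit 558) (nat_lit 593) (nat_lit 557) (.f (nat_lit 621) (nat_lit 620) (nat_lit 1612) (.d (nat_lit 653) (nat_lit 526) (nat_lit 6669) (nat_lit 685) (nat_lit 6701))))))) (.a (.f (nat_lit 590) (nat_lit 622) (nat_lit 5614) (.f (nat_lit 589) (nat_lit 588) (nat_lit 2604) (.f (nat_lit 557) (nat_lit 556) (nat_lit 3628) (.f (nat_lit 558) (nat_lit 593) (nat_lit 557) (.p (nat_lit 493) (.a (.d (nat_lit 525) (nat_lit 461) (nat_lit 4557) (nat_lit 524) (nat_lit 3596)) (.d (nat_lit 494) (nat_lit 462) (nat_lit 7630) (nat_lit 492) (nat_lit 492)))))))) (.f (nat_lit 494) (nat_lit 462) (nat_lit 7630) (.f (nat_lit 590) (nat_lit 622) (nat_lit 5614) (.f (nat_lit 526) (nat_lit 623) (nat_lit 7662) (.f (nat_lit 493) (nat_lit 492) (nat_lit 492) (.f (nat_lit 558) (nat_lit 461) (nat_lit 7629) (.d (nat_lit 589) (nat_lit 588) (nat_lit 2604) (nat_lit 621) (nat_lit 5613)))))))))))))))))))))))))))))))))))))) (.a (.p (nat_lit 561) (.a s52701 (.a s50410 (.a (.p (nat_lit 562) (.a (.d (nat_lit 527) (nat_lit 526) (nat_lit 3598) (nat_lit 563) (nat_lit 3599)) (.a (.f (nat_lit 527) (nat_lit 526) (nat_lit 3598) (.f (nat_lit 591) (nat_lit 590) (nat_lit 1582) (.f (nat_lit 623) (nat_lit 655) (nat_lit 6671) (.f (nat_lit 624) (nat_lit 656) (nat_lit 4623) (.f (nat_lit 592) (nat_lit 495) (nat_lit 7663) (.f (nat_lit 622) (nat_lit 654) (nat_lit 5646) (.d (nat_lit 621) (nat_lit 593) (nat_lit 2637) (nat_lit 620) (nat_lit 2636)))))))) (.a (.f (nat_lit 563) (nat_lit 527) (nat_lit 3599) (.d (nat_lit 591) (nat_lit 590) (nat_lit 1582) (nat_lit 592) (nat_lit 1583))) (.f (nat_lit 591) (nat_lit 590) (nat_lit 1582) (.f (nat_lit 563) (nat_lit 592) (nat_lit 1583) (.d (nat_lit 531) (nat_lit 530) (nat_lit 2575) (nat_lit 532) (nat_lit 2576)))))))) (.a (.p (nat_lit 562) (.a (.d (nat_lit 527) (nat_lit 526) (nat_lit 3598) (nat_lit 563) (nat_lit 3599)) (.a (.f (nat_lit 527) (nat_lit 526) (nat_lit 3598) (.f (nat_lit 594) (nat_lit 595) (nat_lit 559) (.f (nat_lit 558) (nat_lit 593) (nat_lit 558) (.f (nat_lit 557) (nat_lit 556) (nat_lit 2572) (.d (nat_lit 589) (nat_lit 588) (nat_lit 1580) (nat_lit 590) (nat_lit 1581)))))) (.a (.f (nat_lit 563) (nat_lit 527) (nat_lit 3599) (.d (nat_lit 595) (nat_lit 594) (nat_lit 559) (nat_lit 596) (nat_lit 560))) (.f (nat_lit 594) (nat_lit 595) (nat_lit 559) (.f (nat_lit 593) (nat_lit 558) (nat_lit 558) (.f (nat_lit 625) (nat_lit 657) (nat_lit 7696) (.d (nat_lit 530) (nat_lit 498) (nat_lit 5617) (nat_lit 531) (nat_lit 2575))))))))) (.a (.p (nat_lit 562) (.a (.d (nat_lit 527) (nat_lit 526) (nat_lit 3598) (nat_lit 563) (nat_lit 3599)) (.a (.f (nat_lit 527) (nat_lit 526) (nat_lit 3598) (.f (nat_lit 594) (nat_lit 595) (nat_lit 559) (.f (nat_lit 593) (nat_lit 558) (nat_lit 558) (.f (nat_lit 625) (nat_lit 657) (nat_lit 7696) (.d (nat_lit 530) (nat_lit 498) (nat_lit 5617) (nat_lit 531) (nat_lit 2575)))))) (.a (.f (nat_lit 563) (nat_lit 527) (nat_lit 3599) (.d (nat_lit 595) (nat_lit 594) (nat_lit 559) (nat_lit 596) (nat_lit 560))) (.f (nat_lit 594) (nat_lit 595) (nat_lit 559) (.f (nat_lit 593) (nat_lit 558) (nat_lit 558) (.f (nat_lit 625) (nat_lit 657) (nat_lit 7696) (.d (nat_lit 530) (nat_lit 498) (nat_lit 5617) (nat_lit 531) (nat_lit 2575))))))))) (.a (.p (nat_lit 558) (.a (.f (nat_lit 526) (nat_lit 525) (nat_lit 3597) (.f (nat_lit 527) (nat_lit 562) (nat_lit 3598) (.f (nat_lit 590) (nat_lit 589) (nat_lit 1581) (.d (nat_lit 495) (nat_lit 463) (nat_lit 5582) (nat_lit 622) (nat_lit 6638))))) (.a (.f (nat_lit 593) (nat_lit 594) (nat_lit 558) (.f (nat_lit 557) (nat_lit 592) (nat_lit 557) (.d (nat_lit 589) (nat_lit 588) (nat_lit 1580) (nat_lit 590) (nat_lit 1581)))) (.f (nat_lit 593) (nat_lit 594) (nat_lit 558) (.f (nat_lit 557) (nat_lit 592) (nat_lit 557) (.d (nat_lit 525) (nat_lit 524) (nat_lit 3596) (nat_lit 526) (nat_lit 3597))))))) (.a (.p (nat_lit 562) (.a (.f (nat_lit 563) (nat_lit 527) (nat_lit 3599) (.d (nat_lit 595) (nat_lit 594) (nat_lit 559) (nat_lit 596) (nat_lit 560))) (.a (.f (nat_lit 563) (nat_lit 527) (nat_lit 3599) (.d (nat_lit 591) (nat_lit 590) (nat_lit 1582) (nat_lit 592) (nat_lit 1583))) (.f (nat_lit 594) (nat_lit 595) (nat_lit 559) (.f (nat_lit 593) (nat_lit 558) (nat_lit 558) (.f (nat_lit 625) (nat_lit 657) (nat_lit 7696) (.d (nat_lit 530) (nat_lit 498) (nat_lit 5617) (nat_lit 531) (nat_lit 2575)))))))) (.a (.p (nat_lit 562) (.a (.d (nat_lit 527) (nat_lit 526) (nat_lit 3598) (nat_lit 563) (nat_lit 3599)) (.a (.f (nat_lit 527) (nat_lit 526) (nat_lit 3598) (.p (nat_lit 495) (.a (.d (nat_lit 463) (nat_lit 431) (nat_lit 4527) (nat_lit 592) (nat_lit 4559)) (.a (.d (nat_lit 592) (nat_lit 463) (nat_lit 4559) (nat_lit 624) (nat_lit 7663)) (.a (.f (nat_lit 463) (nat_lit 431) (nat_lit 4527) (.d (nat_lit 590) (nat_lit 558) (nat_lit 5582) (nat_lit 591) (nat_lit 1582))) (.f (nat_lit 591) (nat_lit 590) (nat_lit 1582) (.f (nat_lit 624) (nat_lit 592) (nat_lit 7663) (.d (nat_lit 623) (nat_lit 655) (nat_lit 6671) (nat_lit 656) (nat_lit 4623))))))))) (.a (.f (nat_lit 563) (nat_lit 527) (nat_lit 3599) (.d (nat_lit 595) (nat_lit 594) (nat_lit 559) (nat_lit 596) (nat_lit 560))) (.f (nat_lit 591) (nat_lit 590) (nat_lit 1582) (.f (nat_lit 563) (nat_lit 592) (nat_lit 1583) (.d (nat_lit 595) (nat_lit 594) (nat_lit 559) (nat_lit 596) (nat_lit 560)))))))) (.a (.p (nat_lit 558) (.a (.f (nat_lit 593) (nat_lit 594) (nat_lit 558) (.f (nat_lit 557) (nat_lit 592) (nat_lit 557) (.d (nat_lit 525) (nat_lit 524) (nat_lit 3596) (nat_lit 526) (nat_lit 3597)))) (.a (.f (nat_lit 525) (nat_lit 526) (nat_lit 3597) (.f (nat_lit 557) (nat_lit 524) (nat_lit 3596) (.d (nat_lit 589) (nat_lit 588) (nat_lit 1580) (nat_lit 590) (nat_lit 1581)))) (.a (.f (nat_lit 593) (nat_lit 594) (nat_lit 558) (.f (nat_lit 557) (nat_lit 592) (nat_lit 557) (.d (nat_lit 589) (nat_lit 588) (nat_lit 1580) (nat_lit 590) (nat_lit 1581)))) (.f (nat_lit 526) (nat_lit 525) (nat_lit 3597) (.f (nat_lit 590) (nat_lit 589) (nat_lit 1581) (.f (nat_lit 593) (nat_lit 594) (nat_lit 558) (.p (nat_lit 622) (.a (.d (nat_lit 527) (nat_lit 495) (nat_lit 6638) (nat_lit 654) (nat_lit 6670)) (.a (.f (nat_lit 623) (nat_lit 655) (nat_lit 4622) (.p (nat_lit 624) (.a (.d (nat_lit 621) (nat_lit 592) (nat_lit 2637) (nat_lit 653) (nat_lit 5645)) (.a (.f (nat_lit 527) (nat_lit 495) (nat_lit 6638) (.d (nat_lit 656) (nat_lit 591) (nat_lit 4623) (nat_lit 592) (nat_lit 7695))) (.p (nat_lit 656) (.a (.d (nat_lit 527) (nat_lit 495) (nat_lit 6638) (nat_lit 591) (nat_lit 4623)) (.d (nat_lit 621) (nat_lit 653) (nat_lit 5645) (nat_lit 657) (nat_lit 621)))))))) (.a (.f (nat_lit 623) (nat_lit 655) (nat_lit 4622) (.p (nat_lit 591) (.a (.d (nat_lit 654) (nat_lit 527) (nat_lit 6670) (nat_lit 686) (nat_lit 6702)) (.d (nat_lit 621) (nat_lit 592) (nat_lit 1613) (nat_lit 653) (nat_lit 5645))))) (.f (nat_lit 655) (nat_lit 623) (nat_lit 4622) (.f (nat_lit 654) (nat_lit 687) (nat_lit 4654) (.d (nat_lit 653) (nat_lit 621) (nat_lit 5645) (nat_lit 685) (nat_lit 5677))))))))))))))) (.p (nat_lit 562) (.a (.f (nat_lit 591) (nat_lit 590) (nat_lit 1582) (.f (nat_lit 563) (nat_lit 592) (nat_lit 1583) (.d (nat_lit 595) (nat_lit 594) (nat_lit 559) (nat_lit 596) (nat_lit 560)))) (.a (.f (nat_lit 591) (nat_lit 590) (nat_lit 1582) (.f (nat_lit 563) (nat_lit 592) (nat_lit 1583) (.d (nat_lit 531) (nat_lit 530) (nat_lit 2575) (nat_lit 532) (nat_lit 2576)))) (.f (nat_lit 594) (nat_lit 595) (nat_lit 559) (.f (nat_lit 593) (nat_lit 558) (nat_lit 558) (.f (nat_lit 625) (nat_lit 657) (nat_lit 7696) (.d (nat_lit 530) (nat_lit 498) (nat_lit 5617) (nat_lit 531) (nat_lit 2575)))))))))))))))))) (.a (.p (nat_lit 561) (.a s50459 (.a s52701 (.a (.p (nat_lit 527) (.a (.d (nat_lit 526) (nat_lit 525) (nat_lit 525) (nat_lit 562) (nat_lit 3598)) (.a (.f (nat_lit 562) (nat_lit 563) (nat_lit 3599) (.f (nat_lit 591) (nat_lit 590) (nat_lit 1582) (.p (nat_lit 624) (.a (.d (nat_lit 592) (nat_lit 495) (nat_lit 7663) (nat_lit 656) (nat_lit 7695)) (.a (.d (nat_lit 623) (nat_lit 655) (nat_lit 6671) (nat_lit 656) (nat_lit 4623)) (.f (nat_lit 495) (nat_lit 592) (nat_lit 7663) (.f (nat_lit 462) (nat_lit 494) (nat_lit 7630) (.d (nat_lit 463) (nat_lit 430) (nat_lit 7598) (nat_lit 431) (nat_lit 4527))))))))) (.f (nat_lit 526) (nat_lit 525) (nat_lit 525) (.p (nat_lit 495) (.a (.d (nat_lit 463) (nat_lit 431) (nat_lit 4527) (nat_lit 592) (nat_lit 4559)) (.a (.d (nat_lit 592) (nat_lit 463) (nat_lit 4559) (nat_lit 624) (nat_lit 7663)) (.a (.f (nat_lit 463) (nat_lit 431) (nat_lit 4527) (.f (nat_lit 558) (nat_lit 590) (nat_lit 5582) (.f (nat_lit 462) (nat_lit 430) (nat_lit 7598) (.f (nat_lit 494) (nat_lit 591) (nat_lit 4558) (.f (nat_lit 464) (nat_lit 432) (nat_lit 6575) (.d (nat_lit 465) (nat_lit 466) (nat_lit 1486) (nat_lit 493) (nat_lit 1485))))))) (.f (nat_lit 592) (nat_lit 624) (nat_lit 7663) (.p (nat_lit 591) (.a (.d (nat_lit 494) (nat_lit 462) (nat_lit 7630) (nat_lit 623) (nat_lit 7662)) (.a (.d (nat_lit 623) (nat_lit 494) (nat_lit 7662) (nat_lit 655) (nat_lit 6671)) (.a (.f (nat_lit 623) (nat_lit 655) (nat_lit 6671) (.d (nat_lit 622) (nat_lit 590) (nat_lit 5614) (nat_lit 654) (nat_lit 5646))) (.f (nat_lit 494) (nat_lit 462) (nat_lit 7630) (.p (nat_lit 558) (.a (.d (nat_lit 557) (nat_lit 556) (nat_lit 2572) (nat_lit 593) (nat_lit 557)) (.f (nat_lit 590) (nat_lit 622) (nat_lit 5614) (.d (nat_lit 493) (nat_lit 461) (nat_lit 7629) (nat_lit 492) (nat_lit 492))))))))))))))))))) (.a s50410 (.a (.p (nat_lit 527) (.a (.d (nat_lit 526) (nat_lit 525) (nat_lit 525) (nat_lit 562) (nat_lit 3598)) (.a (.f (nat_lit 562) (nat_lit 563) (nat_lit 3599) (.f (nat_lit 594) (nat_lit 595) (nat_lit 559) (.f (nat_lit 593) (nat_lit 558) (nat_lit 558) (.f (nat_lit 625) (nat_lit 657) (nat_lit 7696) (.d (nat_lit 530) (nat_lit 498) (nat_lit 5617) (nat_lit 531) (nat_lit 2575)))))) (.f (nat_lit 526) (nat_lit 525) (nat_lit 525) (.p (nat_lit 592) (.a (.d (nat_lit 495) (nat_lit 463) (nat_lit 4559) (nat_lit 624) (nat_lit 7663)) (.a (.p (nat_lit 558) (.a (.d (nat_lit 557) (nat_lit 556) (nat_lit 2572) (nat_lit 593) (nat_lit 557)) (.a (.d (nat_lit 593) (nat_lit 557) (nat_lit 557) (nat_lit 594) (nat_lit 558)) (.a (.p (nat_lit 494) (.a (.f (nat_lit 495) (nat_lit 463) (nat_lit 4559) (.p (nat_lit 461) (.a (.d (nat_lit 493) (nat_lit 492) (nat_lit 492) (nat_lit 590) (nat_lit 7629)) (.d (nat_lit 462) (nat_lit 429) (nat_lit 7597) (nat_lit 430) (nat_lit 4526))))) (.a (.f (nat_lit 495) (nat_lit 463) (nat_lit 4559) (.f (nat_lit 493) (nat_lit 492) (nat_lit 492) (.d (nat_lit 590) (nat_lit 461) (nat_lit 7629) (nat_lit 622) (nat_lit 6638)))) (.a (.f (nat_lit 463) (nat_lit 495) (nat_lit 4559) (.d (nat_lit 462) (nat_lit 430) (nat_lit 4526) (nat_lit 431) (nat_lit 6574))) (.a (.f (nat_lit 593) (nat_lit 594) (nat_lit 558) (.p (nat_lit 590) (.a (.d (nat_lit 622) (nat_lit 495) (nat_lit 6638) (nat_lit 654) (nat_lit 6670)) (.f (nat_lit 461) (nat_lit 493) (nat_lit 7629) (.d (nat_lit 462) (nat_lit 429) (nat_lit 7597) (nat_lit 430) (nat_lit 4526)))))) (.f (nat_lit 462) (nat_lit 430) (nat_lit 4526) (.f (nat_lit 461) (nat_lit 429) (nat_lit 7597) (.f (nat_lit 493) (nat_lit 590) (nat_lit 7629) (.f (nat_lit 463) (nat_lit 431) (nat_lit 6574) (.d (nat_lit 464) (nat_lit 465) (nat_lit 1485) (nat_lit 492) (nat_lit 1484))))))))))) (.p (nat_lit 494) (.a (.f (nat_lit 495) (nat_lit 463) (nat_lit 4559) (.f (nat_lit 493) (nat_lit 492) (nat_lit 492) (.d (nat_lit 590) (nat_lit 461) (nat_lit 7629) (nat_lit 622) (nat_lit 6638)))) (.a (.f (nat_lit 495) (nat_lit 463) (nat_lit 4559) (.p (nat_lit 461) (.a (.d (nat_lit 493) (nat_lit 492) (nat_lit 492) (nat_lit 590) (nat_lit 7629)) (.d (nat_lit 462) (nat_lit 429) (nat_lit 7597) (nat_lit 430) (nat_lit 4526))))) (.a (.f (nat_lit 463) (nat_lit 495) (nat_lit 4559) (.d (nat_lit 462) (nat_lit 430) (nat_lit 4526) (nat_lit 431) (nat_lit 6574))) (.a (.p (nat_lit 590) (.a (.d (nat_lit 622) (nat_lit 495) (nat_lit 6638) (nat_lit 654) (nat_lit 6670)) (.f (nat_lit 461) (nat_lit 493) (nat_lit 7629) (.d (nat_lit 462) (nat_lit 429) (nat_lit 7597) (nat_lit 430) (nat_lit 4526))))) (.f (nat_lit 462) (nat_lit 430) (nat_lit 4526) (.f (nat_lit 461) (nat_lit 429) (nat_lit 7597) (.f (nat_lit 493) (nat_lit 590) (nat_lit 7629) (.f (nat_lit 463) (nat_lit 431) (nat_lit 6574) (.d (nat_lit 464) (nat_lit 465) (nat_lit 1485) (nat_lit 492) (nat_lit 1484))))))))))))))) (.a (.d (nat_lit 624) (nat_lit 495) (nat_lit 7663) (nat_lit 656) (nat_lit 7695)) (.f (nat_lit 624) (nat_lit 656) (nat_lit 7695) (.p (nat_lit 593) (.a (.d (nat_lit 558) (nat_lit 557) (nat_lit 557) (nat_lit 594) (nat_lit 558)) (.a (.f (nat_lit 625) (nat_lit 657) (nat_lit 4624) (.f (nat_lit 623) (nat_lit 655) (nat_lit 5647) (.f (nat_lit 622) (nat_lit 621) (nat_lit 2637) (.f (nat_lit 558) (nat_lit 557) (nat_lit 557) (.d (nat_lit 654) (nat_lit 590) (nat_lit 6670) (nat_lit 653) (nat_lit 1645)))))) (.f (nat_lit 625) (nat_lit 657) (nat_lit 4624) (.f (nat_lit 594) (nat_lit 595) (nat_lit 3631) (.d (nat_lit 623) (nat_lit 622) (nat_lit 2638) (nat_lit 655) (nat_lit 5647)))))))))))))))) (.a (.p (nat_lit 527) (.a (.d (nat_lit 526) (nat_lit 525) (nat_lit 525) (nat_lit 562) (nat_lit 3598)) (.a (.f (nat_lit 562) (nat_lit 563) (nat_lit 3599) (.f (nat_lit 594) (nat_lit 595) (nat_lit 559) (.f (nat_lit 593) (nat_lit 558) (nat_lit 558) (.f (nat_lit 625) (nat_lit 657) (nat_lit 7696) (.d (nat_lit 530) (nat_lit 498) (nat_lit 5617) (nat_lit 531) (nat_lit 2575)))))) (.f (nat_lit 526) (nat_lit 525) (nat_lit 525) s52476)))) (.a (.p (nat_lit 527) (.a (.d (nat_lit 526) (nat_lit 525) (nat_lit 525) (nat_lit 562) (nat_lit 3598)) (.a (.p (nat_lit 495) (.a (.d (nat_lit 463) (nat_lit 431) (nat_lit 4527) (nat_lit 592) (nat_lit 4559)) (.a (.d (nat_lit 592) (nat_lit 463) (nat_lit 4559) (nat_lit 624) (nat_lit 7663)) (.a (.f (nat_lit 463) (nat_lit 431) (nat_lit 4527) (.f (nat_lit 558) (nat_lit 590) (nat_lit 5582) (.f (nat_lit 462) (nat_lit 430) (nat_lit 7598) (.f (nat_lit 494) (nat_lit 591) (nat_lit 7630) (.f (nat_lit 464) (nat_lit 432) (nat_lit 6575) (.d (nat_lit 465) (nat_lit 466) (nat_lit 1486) (nat_lit 493) (nat_lit 1485))))))) (.f (nat_lit 624) (nat_lit 592) (nat_lit 7663) (.p (nat_lit 591) (.a (.d (nat_lit 623) (nat_lit 655) (nat_lit 6671) (nat_lit 656) (nat_lit 4623)) (.d (nat_lit 590) (nat_lit 562) (nat_lit 1582) (nat_lit 622) (nat_lit 5614))))))))) (.f (nat_lit 526) (nat_lit 525) (nat_lit 525) (.p (nat_lit 495) (.a (.d (nat_lit 463) (nat_lit 431) (nat_lit 4527) (nat_lit 592) (nat_lit 4559)) (.a (.d (nat_lit 592) (nat_lit 463) (nat_lit 4559) (nat_lit 624) (nat_lit 7663)) (.a (.f (nat_lit 463) (nat_lit 431) (nat_lit 4527) (.f (nat_lit 558) (nat_lit 590) (nat_lit 5582) (.f (nat_lit 462) (nat_lit 430) (nat_lit 7598) (.f (nat_lit 494) (nat_lit 591) (nat_lit 4558) (.f (nat_lit 464) (nat_lit 432) (nat_lit 6575) (.d (nat_lit 465) (nat_lit 466) (nat_lit 1486) (nat_lit 493) (nat_lit 1485))))))) (.f (nat_lit 592) (nat_lit 624) (nat_lit 7663) (.p (nat_lit 591) (.a (.d (nat_lit 494) (nat_lit 462) (nat_lit 7630) (nat_lit 623) (nat_lit 7662)) (.a (.d (nat_lit 623) (nat_lit 494) (nat_lit 7662) (nat_lit 655) (nat_lit 6671)) (.a (.f (nat_lit 623) (nat_lit 655) (nat_lit 6671) (.d (nat_lit 622) (nat_lit 590) (nat_lit 5614) (nat_lit 654) (nat_lit 5646))) (.p (nat_lit 558) (.a (.d (nat_lit 557) (nat_lit 556) (nat_lit 2572) (nat_lit 593) (nat_lit 557)) (.a (.d (nat_lit 593) (nat_lit 557) (nat_lit 557) (nat_lit 594) (nat_lit 558)) (.a (.f (nat_lit 593) (nat_lit 594) (nat_lit 558) (.f (nat_lit 590) (nat_lit 622) (nat_lit 5614) (.d (nat_lit 625) (nat_lit 626) (nat_lit 590) (nat_lit 657) (nat_lit 7696)))) (.f (nat_lit 494) (nat_lit 462) (nat_lit 4558) (.f (nat_lit 493) (nat_lit 492) (nat_lit 492) (.d (nat_lit 590) (nat_lit 461) (nat_lit 7629) (nat_lit 622) (nat_lit 6638))))))))))))))))))))) (.a (.p (nat_lit 562) (.a (.f (nat_lit 563) (nat_lit 527) (nat_lit 3599) (.d (nat_lit 595) (nat_lit 594) (nat_lit 559) (nat_lit 596) (nat_lit 560))) (.a (.f (nat_lit 563) (nat_lit 527) (nat_lit 3599) (.d (nat_lit 591) (nat_lit 590) (nat_lit 1582) (nat_lit 592) (nat_lit 1583))) (.f (nat_lit 594) (nat_lit 595) (nat_lit 559) (.f (nat_lit 593) (nat_lit 558) (nat_lit 558) (.f (nat_lit 625) (nat_lit 657) (nat_lit 7696) (.d (nat_lit 530) (nat_lit 498) (nat_lit 5617) (nat_lit 531) (nat_lit 2575)))))))) (.a (.p (nat_lit 562) (.a (.d (nat_lit 527) (nat_lit 526) (nat_lit 3598) (nat_lit 563) (nat_lit 3599)) (.a (.f (nat_lit 526) (nat_lit 527) (nat_lit 3598) (.f (nat_lit 558) (nat_lit 525) (nat_lit 3597) (.d (nat_lit 594) (nat_lit 593) (nat_lit 558) (nat_lit 595) (nat_lit 559)))) (.a (.f (nat_lit 563) (nat_lit 527) (nat_lit 3599) (.d (nat_lit 595) (nat_lit 594) (nat_lit 559) (nat_lit 596) (nat_lit 560))) (.f (nat_lit 594) (nat_lit 595) (nat_lit 559) (.f (nat_lit 593) (nat_lit 558) (nat_lit 558) (.f (nat_lit 530) (nat_lit 531) (nat_lit 2575) (.d (nat_lit 498) (nat_lit 466) (nat_lit 5585) (nat_lit 625) (nat_lit 5617))))))))) (.a (.p (nat_lit 558) (.a (.f (nat_lit 526) (nat_lit 525) (nat_lit 3597) (.f (nat_lit 593) (nat_lit 594) (nat_lit 558) (.f (nat_lit 557) (nat_lit 592) (nat_lit 557) (.f (nat_lit 556) (nat_lit 527) (nat_lit 2572) (.f (nat_lit 523) (nat_lit 524) (nat_lit 3595) (.f (nat_lit 555) (nat_lit 522) (nat_lit 3594) (.d (nat_lit 587) (nat_lit 586) (nat_lit 1578) (nat_lit 588) (nat_lit 1579)))))))) (.a (.f (nat_lit 593) (nat_lit 594) (nat_lit 558) (.f (nat_lit 557) (nat_lit 592) (nat_lit 557) (.d (nat_lit 525) (nat_lit 524) (nat_lit 3596) (nat_lit 526) (nat_lit 3597)))) (.a (.f (nat_lit 526) (nat_lit 525) (nat_lit 3597) (.p (nat_lit 527) (.a (.p (nat_lit 495) (.a (.d (nat_lit 463) (nat_lit 431) (nat_lit 4527) (nat_lit 592) (nat_lit 4559)) (.a (.d (nat_lit 592) (nat_lit 463) (nat_lit 4559) (nat_lit 624) (nat_lit 7663)) (.a (.d (nat_lit 463) (nat_lit 431) (nat_lit 4527) (nat_lit 590) (nat_lit 5582)) (.p (nat_lit 591) (.a (.d (nat_lit 623) (nat_lit 494) (nat_lit 7662) (nat_lit 655) (nat_lit 6671)) (.a (.d (nat_lit 494) (nat_lit 462) (nat_lit 7630) (nat_lit 623) (nat_lit 7662)) (.f (nat_lit 592) (nat_lit 624) (nat_lit 7663) (.d (nat_lit 557) (nat_lit 556) (nat_lit 2572) (nat_lit 593) (nat_lit 557)))))))))) (.a (.p (nat_lit 495) (.a (.d (nat_lit 463) (nat_lit 431) (nat_lit 4527) (nat_lit 592) (nat_lit 4559)) (.a (.d (nat_lit 592) (nat_lit 463) (nat_lit 4559) (nat_lit 624) (nat_lit 7663)) (.a (.d (nat_lit 463) (nat_lit 431) (nat_lit 4527) (nat_lit 590) (nat_lit 5582)) (.f (nat_lit 592) (nat_lit 624) (nat_lit 7663) (.d (nat_lit 557) (nat_lit 556) (nat_lit 2572) (nat_lit 593) (nat_lit 557))))))) (.a (.p (nat_lit 495) (.a (.d (nat_lit 463) (nat_lit 431) (nat_lit 4527) (nat_lit 592) (nat_lit 4559)) (.a (.d (nat_lit 592) (nat_lit 463) (nat_lit 4559) (nat_lit 624) (nat_lit 7663)) (.a (.d (nat_lit 463) (nat_lit 431) (nat_lit 4527) (nat_lit 590) (nat_lit 5582)) (.p (nat_lit 591) (.a (.d (nat_lit 494) (nat_lit 462) (nat_lit 7630) (nat_lit 623) (nat_lit 7662)) (.a (.d (nat_lit 623) (nat_lit 494) (nat_lit 7662) (nat_lit 655) (nat_lit 6671)) (.a (.f (nat_lit 624) (nat_lit 592) (nat_lit 7663) (.d (nat_lit 623) (nat_lit 655) (nat_lit 6671) (nat_lit 656) (nat_lit 4623))) (.f (nat_lit 494) (nat_lit 462) (nat_lit 4558) (.f (nat_lit 493) (nat_lit 492) (nat_lit 492) (.d (nat_lit 590) (nat_lit 461) (nat_lit 7629) (nat_lit 622) (nat_lit 6638)))))))))))) (.a (.f (nat_lit 557) (nat_lit 556) (nat_lit 2572) (.p (nat_lit 495) (.a (.d (nat_lit 463) (nat_lit 431) (nat_lit 4527) (nat_lit 592) (nat_lit 4559)) (.a (.d (nat_lit 592) (nat_lit 463) (nat_lit 4559) (nat_lit 593) (nat_lit 557)) (.a (.d (nat_lit 463) (nat_lit 431) (nat_lit 4527) (nat_lit 590) (nat_lit 5582)) (.f (nat_lit 590) (nat_lit 622) (nat_lit 6638) (.p (nat_lit 494) (.a (.d (nat_lit 493) (nat_lit 461) (nat_lit 7629) (nat_lit 492) (nat_lit 492)) (.d (nat_lit 462) (nat_lit 430) (nat_lit 4526) (nat_lit 591) (nat_lit 4558)))))))))) (.a (.f (nat_lit 557) (nat_lit 556) (nat_lit 2572) (.f (nat_lit 592) (nat_lit 593) (nat_lit 557) (.d (nat_lit 495) (nat_lit 463) (nat_lit 4559) (nat_lit 624) (nat_lit 7663)))) (.a (.p (nat_lit 495) (.a (.d (nat_lit 463) (nat_lit 431) (nat_lit 4527) (nat_lit 590) (nat_lit 5582)) (.a (.f (nat_lit 463) (nat_lit 431) (nat_lit 4527) (.f (nat_lit 462) (nat_lit 430) (nat_lit 7598) (.f (nat_lit 494) (nat_lit 591) (nat_lit 4558) (.f (nat_lit 464) (nat_lit 432) (nat_lit 6575) (.d (nat_lit 465) (nat_lit 466) (nat_lit 1486) (nat_lit 493) (nat_lit 1485)))))) (.a (.d (nat_lit 590) (nat_lit 463) (nat_lit 5582) (nat_lit 622) (nat_lit 6638)) (.f (nat_lit 590) (nat_lit 622) (nat_lit 6638) (.p (nat_lit 494) (.a (.d (nat_lit 493) (nat_lit 461) (nat_lit 7629) (nat_lit 492) (nat_lit 492)) (.d (nat_lit 462) (nat_lit 430) (nat_lit 4526) (nat_lit 591) (nat_lit 4558))))))))) (.a (.f (nat_lit 557) (nat_lit 556) (nat_lit 2572) (.f (nat_lit 592) (nat_lit 593) (nat_lit 557) (.d (nat_lit 624) (nat_lit 495) (nat_lit 7663) (nat_lit 656) (nat_lit 7695)))) (.f (nat_lit 557) (nat_lit 556) (nat_lit 2572) (.f (nat_lit 592) (nat_lit 593) (nat_lit 557) (.f (nat_lit 624) (nat_lit 656) (nat_lit 7695) (.f (nat_lit 623) (nat_lit 655) (nat_lit 5647) (.f (nat_lit 591) (nat_lit 494) (nat_lit 7662) (.f (nat_lit 625) (nat_lit 657) (nat_lit 4624) (.d (nat_lit 626) (nat_lit 590) (nat_lit 3662) (nat_lit 627) (nat_lit 3663))))))))))))))))) (.a (.f (nat_lit 593) (nat_lit 594) (nat_lit 558) (.f (nat_lit 557) (nat_lit 592) (nat_lit 557) (.f (nat_lit 556) (nat_lit 527) (nat_lit 2572) (.d (nat_lit 524) (nat_lit 523) (nat_lit 3595) (nat_lit 525) (nat_lit 3596))))) (.a (.f (nat_lit 526) (nat_lit 525) (nat_lit 3597) (.f (nat_lit 593) (nat_lit 594) (nat_lit 558) (.p (nat_lit 494) (.a (.f (nat_lit 591) (nat_lit 462) (nat_lit 4558) (.d (nat_lit 623) (nat_lit 527) (nat_lit 7662) (nat_lit 655) (nat_lit 6671))) (.a (.p (nat_lit 590) (.a (.f (nat_lit 623) (nat_lit 591) (nat_lit 4590) (.p (nat_lit 527) (.a (.f (nat_lit 495) (nat_lit 463) (nat_lit 5582) (.d (nat_lit 493) (nat_lit 461) (nat_lit 7629) (nat_lit 492) (nat_lit 492))) (.d (nat_lit 622) (nat_lit 654) (nat_lit 6670) (nat_lit 655) (nat_lit 4622))))) (.a (.f (nat_lit 495) (nat_lit 463) (nat_lit 6606) (.f (nat_lit 493) (nat_lit 461) (nat_lit 7629) (.f (nat_lit 492) (nat_lit 527) (nat_lit 492) (.p (nat_lit 491) (.a (.d (nat_lit 523) (nat_lit 522) (nat_lit 1514) (nat_lit 524) (nat_lit 1515)) (.d (nat_lit 459) (nat_lit 458) (nat_lit 3530) (nat_lit 460) (nat_lit 3531))))))) (.a (.f (nat_lit 623) (nat_lit 591) (nat_lit 4590) (.f (nat_lit 622) (nat_lit 655) (nat_lit 4622) (.d (nat_lit 495) (nat_lit 463) (nat_lit 6606) (nat_lit 527) (nat_lit 6638)))) (.a (.f (nat_lit 623) (nat_lit 591) (nat_lit 4590) (.f (nat_lit 622) (nat_lit 655) (nat_lit 4622) (.d (nat_lit 527) (nat_lit 495) (nat_lit 6638) (nat_lit 654) (nat_lit 6670)))) (.a (.f (nat_lit 623) (nat_lit 591) (nat_lit 4590) (.f (nat_lit 622) (nat_lit 655) (nat_lit 4622) (.f (nat_lit 654) (nat_lit 527) (nat_lit 6670) (.d (nat_lit 653) (nat_lit 621) (nat_lit 5645) (nat_lit 685) (nat_lit 5677))))) (.f (nat_lit 623) (nat_lit 591) (nat_lit 4590) (.f (nat_lit 622) (nat_lit 655) (nat_lit 4622) (.f (nat_lit 653) (nat_lit 621) (nat_lit 5645) (.f (nat_lit 625) (nat_lit 657) (nat_lit 7696) (.d (nat_lit 654) (nat_lit 624) (nat_lit 1645) (nat_lit 685) (nat_lit 5677)))))))))))) (.a (.p (nat_lit 462) (.a (.f (nat_lit 463) (nat_lit 431) (nat_lit 6574) (.f (nat_lit 527) (nat_lit 430) (nat_lit 4526) (.f (nat_lit 495) (nat_lit 590) (nat_lit 5582) (.f (nat_lit 493) (nat_lit 492) (nat_lit 492) (.d (nat_lit 464) (nat_lit 432) (nat_lit 6575) (nat_lit 465) (nat_lit 1485)))))) (.a (.f (nat_lit 430) (nat_lit 527) (nat_lit 4526) (.d (nat_lit 431) (nat_lit 399) (nat_lit 6542) (nat_lit 463) (nat_lit 6574))) (.a (.f (nat_lit 527) (nat_lit 430) (nat_lit 4526) (.p (nat_lit 590) (.a (.d (nat_lit 495) (nat_lit 463) (nat_lit 6606) (nat_lit 622) (nat_lit 6638)) (.d (nat_lit 461) (nat_lit 429) (nat_lit 7597) (nat_lit 493) (nat_lit 7629))))) (.a (.f (nat_lit 430) (nat_lit 527) (nat_lit 4526) (.d (nat_lit 429) (nat_lit 397) (nat_lit 7565) (nat_lit 461) (nat_lit 7597))) (.f (nat_lit 463) (nat_lit 431) (nat_lit 6574) (.p (nat_lit 493) (.a (.d (nat_lit 461) (nat_lit 429) (nat_lit 7597) (nat_lit 590) (nat_lit 7629)) (.f (nat_lit 492) (nat_lit 491) (nat_lit 2507) (.d (nat_lit 464) (nat_lit 465) (nat_lit 1485) (nat_lit 495) (nat_lit 2508))))))))))) (.f (nat_lit 591) (nat_lit 462) (nat_lit 4558) (.d (nat_lit 623) (nat_lit 590) (nat_lit 4590) (nat_lit 655) (nat_lit 7694))))))))) (.a (.f (nat_lit 526) (nat_lit 525) (nat_lit 3597) (.p (nat_lit 494) (.a (.f (nat_lit 591) (nat_lit 462) (nat_lit 4558) (.d (nat_lit 623) (nat_lit 527) (nat_lit 7662) (nat_lit 655) (nat_lit 6671))) (.a (.p (nat_lit 590) (.a (.f (nat_lit 623) (nat_lit 591) (nat_lit 4590) (.f (nat_lit 622) (nat_lit 655) (nat_lit 4622) (.d (nat_lit 495) (nat_lit 463) (nat_lit 6606) (nat_lit 527) (nat_lit 6638)))) (.a (.f (nat_lit 591) (nat_lit 623) (nat_lit 4590) (.f (nat_lit 495) (nat_lit 463) (nat_lit 6606) (.f (nat_lit 493) (nat_lit 461) (nat_lit 7629) (.f (nat_lit 492) (nat_lit 527) (nat_lit 492) (.p (nat_lit 491) (.a (.d (nat_lit 523) (nat_lit 522) (nat_lit 1514) (nat_lit 524) (nat_lit 1515)) (.d (nat_lit 459) (nat_lit 458) (nat_lit 3530) (nat_lit 460) (nat_lit 3531)))))))) (.a (.f (nat_lit 495) (nat_lit 463) (nat_lit 6606) (.f (nat_lit 527) (nat_lit 622) (nat_lit 6638) (.d (nat_lit 493) (nat_lit 461) (nat_lit 7629) (nat_lit 492) (nat_lit 492)))) (.a (.f (nat_lit 623) (nat_lit 591) (nat_lit 4590) (.f (nat_lit 622) (nat_lit 655) (nat_lit 4622) (.d (nat_lit 527) (nat_lit 495) (nat_lit 6638) (nat_lit 654) (nat_lit 6670)))) (.a (.f (nat_lit 623) (nat_lit 591) (nat_lit 4590) (.f (nat_lit 622) (nat_lit 655) (nat_lit 4622) (.f (nat_lit 654) (nat_lit 527) (nat_lit 6670) (.d (nat_lit 653) (nat_lit 621) (nat_lit 5645) (nat_lit 685) (nat_lit 5677))))) (.p (nat_lit 622) (.a (.d (nat_lit 623) (nat_lit 591) (nat_lit 4590) (nat_lit 655) (nat_lit 4622)) (.a (.f (nat_lit 655) (nat_lit 623) (nat_lit 4622) (.f (nat_lit 654) (nat_lit 687) (nat_lit 4654) (.d (nat_lit 653) (nat_lit 621) (nat_lit 5645) (nat_lit 685) (nat_lit 5677)))) (.a (.f (nat_lit 591) (nat_lit 623) (nat_lit 4590) (.f (nat_lit 653) (nat_lit 621) (nat_lit 5645) (.d (nat_lit 654) (nat_lit 685) (nat_lit 5677) (nat_lit 686) (nat_lit 6702)))) (.f (nat_lit 653) (nat_lit 621) (nat_lit 5645) (.f (nat_lit 654) (nat_lit 685) (nat_lit 5677) (.f (nat_lit 687) (nat_lit 655) (nat_lit 4654) (.d (nat_lit 686) (nat_lit 591) (nat_lit 6702) (nat_lit 719) (nat_lit 4686))))))))))))))) (.a (.p (nat_lit 527) (.a (.p (nat_lit 495) (.a (.d (nat_lit 463) (nat_lit 431) (nat_lit 4527) (nat_lit 592) (nat_lit 4559)) (.a (.d (nat_lit 592) (nat_lit 463) (nat_lit 4559) (nat_lit 624) (nat_lit 7663)) (.a (.d (nat_lit 463) (nat_lit 431) (nat_lit 4527) (nat_lit 590) (nat_lit 5582)) (.p (nat_lit 461) (.a (.d (nat_lit 493) (nat_lit 492) (nat_lit 492) (nat_lit 590) (nat_lit 7629)) (.d (nat_lit 462) (nat_lit 429) (nat_lit 7597) (nat_lit 430) (nat_lit 4526)))))))) (.a (.p (nat_lit 495) (.a (.d (nat_lit 463) (nat_lit 431) (nat_lit 4527) (nat_lit 592) (nat_lit 4559)) (.a (.d (nat_lit 592) (nat_lit 463) (nat_lit 4559) (nat_lit 624) (nat_lit 7663)) (.a (.d (nat_lit 463) (nat_lit 431) (nat_lit 4527) (nat_lit 590) (nat_lit 5582)) (.f (nat_lit 493) (nat_lit 492) (nat_lit 492) (.d (nat_lit 590) (nat_lit 461) (nat_lit 7629) (nat_lit 622) (nat_lit 6638))))))) (.a (.f (nat_lit 462) (nat_lit 430) (nat_lit 4526) (.f (nat_lit 463) (nat_lit 431) (nat_lit 6574) (.d (nat_lit 495) (nat_lit 590) (nat_lit 5582) (nat_lit 592) (nat_lit 4559)))) (.a (.f (nat_lit 462) (nat_lit 430) (nat_lit 4526) (.f (nat_lit 463) (nat_lit 431) (nat_lit 6574) (.f (nat_lit 495) (nat_lit 592) (nat_lit 4559) (.f (nat_lit 493) (nat_lit 492) (nat_lit 492) (.d (nat_lit 464) (nat_lit 432) (nat_lit 6575) (nat_lit 465) (nat_lit 1485)))))) (.a (.p (nat_lit 495) (.a (.d (nat_lit 592) (nat_lit 463) (nat_lit 4559) (nat_lit 624) (nat_lit 7663)) (.a (.d (nat_lit 463) (nat_lit 590) (nat_lit 5582) (nat_lit 592) (nat_lit 4559)) (.a (.d (nat_lit 590) (nat_lit 463) (nat_lit 6606) (nat_lit 622) (nat_lit 6638)) (.f (nat_lit 493) (nat_lit 492) (nat_lit 492) (.d (nat_lit 590) (nat_lit 461) (nat_lit 7629) (nat_lit 622) (nat_lit 6638))))))) (.a (.f (nat_lit 462) (nat_lit 430) (nat_lit 4526) (.f (nat_lit 463) (nat_lit 431) (nat_lit 6574) (.f (nat_lit 495) (nat_lit 590) (nat_lit 5582) (.f (nat_lit 493) (nat_lit 492) (nat_lit 492) (.d (nat_lit 464) (nat_lit 432) (nat_lit 6575) (nat_lit 465) (nat_lit 1485)))))) (.a (.f (nat_lit 462) (nat_lit 430) (nat_lit 4526) (.f (nat_lit 461) (nat_lit 429) (nat_lit 7597) (.f (nat_lit 493) (nat_lit 590) (nat_lit 7629) (.d (nat_lit 492) (nat_lit 491) (nat_lit 491) (nat_lit 495) (nat_lit 492))))) (.f (nat_lit 462) (nat_lit 430) (nat_lit 4526) (.f (nat_lit 461) (nat_lit 429) (nat_lit 7597) (.f (nat_lit 493) (nat_lit 590) (nat_lit 7629) (.f (nat_lit 463) (nat_lit 431) (nat_lit 6574) (.d (nat_lit 464) (nat_lit 465) (nat_lit 1485) (nat_lit 492) (nat_lit 1484)))))))))))))) (.f (nat_lit 591) (nat_lit 462) (nat_lit 4558) (.d (nat_lit 623) (nat_lit 590) (nat_lit 4590) (nat_lit 655) (nat_lit 7694)))))))) (.f (nat_lit 593) (nat_lit 594) (nat_lit 558) (.f (nat_lit 592) (nat_lit 557) (nat_lit 557) (.f (nat_lit 625) (nat_lit 657) (nat_lit 7696) (.p (nat_lit 624) (.a (.d (nat_lit 527) (nat_lit 495) (nat_lit 7663) (nat_lit 656) (nat_lit 7695)) (.a (.f (nat_lit 623) (nat_lit 655) (nat_lit 5647) (.p (nat_lit 591) (.a (.d (nat_lit 626) (nat_lit 590) (nat_lit 590) (nat_lit 627) (nat_lit 3663)) (.f (nat_lit 527) (nat_lit 495) (nat_lit 7663) (.d (nat_lit 622) (nat_lit 621) (nat_lit 2637) (nat_lit 654) (nat_lit 5646)))))) (.a (.d (nat_lit 656) (nat_lit 527) (nat_lit 7695) (nat_lit 688) (nat_lit 6704)) (.f (nat_lit 656) (nat_lit 688) (nat_lit 6704) (.d (nat_lit 655) (nat_lit 623) (nat_lit 5647) (nat_lit 687) (nat_lit 5679))))))))))))))))) (.p (nat_lit 562) (.a (.f (nat_lit 591) (nat_lit 590) (nat_lit 1582) (.f (nat_lit 563) (nat_lit 592) (nat_lit 1583) (.d (nat_lit 595) (nat_lit 594) (nat_lit 559) (nat_lit 596) (nat_lit 560)))) (.a (.f (nat_lit 591) (nat_lit 590) (nat_lit 1582) (.f (nat_lit 563) (nat_lit 592) (nat_lit 1583) (.d (nat_lit 531) (nat_lit 530) (nat_lit 2575) (nat_lit 532) (nat_lit 2576)))) (.f (nat_lit 594) (nat_lit 595) (nat_lit 559) (.f (nat_lit 593) (nat_lit 558) (nat_lit 558) (.f (nat_lit 625) (nat_lit 657) (nat_lit 7696) (.d (nat_lit 530) (nat_lit 498) (nat_lit 5617) (nat_lit 531) (nat_lit 2575))))))))))))))))))) (.a (.p (nat_lit 591) (.a (.f (nat_lit 623) (nat_lit 655) (nat_lit 6671) (.p (nat_lit 527) (.a (.f (nat_lit 624) (nat_lit 656) (nat_lit 4623) (.f (nat_lit 592) (nat_lit 495) (nat_lit 7663) (.f (nat_lit 622) (nat_lit 654) (nat_lit 5646) (.d (nat_lit 593) (nat_lit 594) (nat_lit 1614) (nat_lit 621) (nat_lit 2637))))) (.a (.f (nat_lit 624) (nat_lit 656) (nat_lit 4623) (.f (nat_lit 495) (nat_lit 592) (nat_lit 7663) (.f (nat_lit 462) (nat_lit 494) (nat_lit 7630) (.d (nat_lit 463) (nat_lit 430) (nat_lit 7598) (nat_lit 431) (nat_lit 4527))))) (.a (.f (nat_lit 622) (nat_lit 654) (nat_lit 5646) (.f (nat_lit 495) (nat_lit 590) (nat_lit 5614) (.d (nat_lit 463) (nat_lit 431) (nat_lit 4527) (nat_lit 592) (nat_lit 4559)))) (.a (.f (nat_lit 622) (nat_lit 654) (nat_lit 5646) (.f (nat_lit 590) (nat_lit 495) (nat_lit 5614) (.f (nat_lit 589) (nat_lit 588) (nat_lit 2604) (.d (nat_lit 561) (nat_lit 558) (nat_lit 1581) (nat_lit 562) (nat_lit 1582))))) (.f (nat_lit 624) (nat_lit 656) (nat_lit 4623) (.f (nat_lit 622) (nat_lit 654) (nat_lit 5646) (.p (nat_lit 621) (.a (.d (nat_lit 592) (nat_lit 593) (nat_lit 2637) (nat_lit 620) (nat_lit 2636)) (.a (.p (nat_lit 620) (.a (.d (nat_lit 652) (nat_lit 651) (nat_lit 1643) (nat_lit 653) (nat_lit 1644)) (.d (nat_lit 588) (nat_lit 587) (nat_lit 3659) (nat_lit 589) (nat_lit 3660)))) (.f (nat_lit 592) (nat_lit 593) (nat_lit 2637) (.f (nat_lit 589) (nat_lit 588) (nat_lit 3660) (.f (nat_lit 590) (nat_lit 561) (nat_lit 2605) (.f (nat_lit 653) (nat_lit 652) (nat_lit 1644) (.d (nat_lit 685) (nat_lit 558) (nat_lit 6701) (nat_lit 717) (nat_lit 6733))))))))))))))))) (.a (.f (nat_lit 623) (nat_lit 655) (nat_lit 6671) (.p (nat_lit 590) (.a (.f (nat_lit 589) (nat_lit 588) (nat_lit 2604) (.d (nat_lit 561) (nat_lit 558) (nat_lit 1581) (nat_lit 562) (nat_lit 1582))) (.a (.f (nat_lit 561) (nat_lit 562) (nat_lit 1582) (.d (nat_lit 589) (nat_lit 588) (nat_lit 2604) (nat_lit 592) (nat_lit 2605))) (.a (.f (nat_lit 561) (nat_lit 562) (nat_lit 1582) (.p (nat_lit 622) (.a (.d (nat_lit 527) (nat_lit 495) (nat_lit 5614) (nat_lit 654) (nat_lit 5646)) (.a (.f (nat_lit 527) (nat_lit 495) (nat_lit 5614) (.f (nat_lit 624) (nat_lit 656) (nat_lit 4623) (.p (nat_lit 593) (.a (.d (nat_lit 592) (nat_lit 594) (nat_lit 1614) (nat_lit 621) (nat_lit 1613)) (.d (nat_lit 625) (nat_lit 626) (nat_lit 3662) (nat_lit 657) (nat_lit 7696)))))) (.a (.d (nat_lit 654) (nat_lit 527) (nat_lit 5646) (nat_lit 686) (nat_lit 6702)) (.f (nat_lit 654) (nat_lit 686) (nat_lit 6702) (.p (nat_lit 593) (.a (.d (nat_lit 592) (nat_lit 594) (nat_lit 1614) (nat_lit 621) (nat_lit 1613)) (.a (.f (nat_lit 592) (nat_lit 621) (nat_lit 1613) (.d (nat_lit 625) (nat_lit 626) (nat_lit 590) (nat_lit 657) (nat_lit 7696))) (.a (.d (nat_lit 594) (nat_lit 558) (nat_lit 558) (nat_lit 592) (nat_lit 1614)) (.p (nat_lit 624) (.a (.f (nat_lit 558) (nat_lit 594) (nat_lit 558) (.f (nat_lit 653) (nat_lit 685) (nat_lit 5677) (.d (nat_lit 652) (nat_lit 621) (nat_lit 1644) (nat_lit 651) (nat_lit 2667)))) (.d (nat_lit 625) (nat_lit 626) (nat_lit 3662) (nat_lit 657) (nat_lit 7696)))))))))))))) (.a (.f (nat_lit 589) (nat_lit 588) (nat_lit 2604) (.d (nat_lit 561) (nat_lit 558) (nat_lit 1581) (nat_lit 592) (nat_lit 2605))) (.f (nat_lit 589) (nat_lit 588) (nat_lit 2604) (.p (nat_lit 592) (.a (.f (nat_lit 557) (nat_lit 556) (nat_lit 3628) (.f (nat_lit 593) (nat_lit 558) (nat_lit 557) (.d (nat_lit 621) (nat_lit 620) (nat_lit 1612) (nat_lit 622) (nat_lit 1613)))) (.f (nat_lit 624) (nat_lit 625) (nat_lit 589) (.d (nat_lit 527) (nat_lit 495) (nat_lit 7663) (nat_lit 656) (nat_lit 7695)))))))))))) (.a (.f (nat_lit 623) (nat_lit 655) (nat_lit 6671) (.p (nat_lit 624) (.a (.f (nat_lit 527) (nat_lit 656) (nat_lit 4623) (.f (nat_lit 495) (nat_lit 592) (nat_lit 7663) (.f (nat_lit 462) (nat_lit 494) (nat_lit 7630) (.d (nat_lit 463) (nat_lit 430) (nat_lit 7598) (nat_lit 431) (nat_lit 4527))))) (.a (.p (nat_lit 592) (.a (.d (nat_lit 527) (nat_lit 495) (nat_lit 7663) (nat_lit 656) (nat_lit 7695)) (.a (.f (nat_lit 527) (nat_lit 495) (nat_lit 7663) (.f (nat_lit 625) (nat_lit 657) (nat_lit 4624) (.d (nat_lit 590) (nat_lit 589) (nat_lit 589) (nat_lit 626) (nat_lit 3662)))) (.a (.d (nat_lit 656) (nat_lit 527) (nat_lit 4623) (nat_lit 688) (nat_lit 7727)) (.f (nat_lit 625) (nat_lit 657) (nat_lit 4624) (.d (nat_lit 590) (nat_lit 589) (nat_lit 589) (nat_lit 626) (nat_lit 3662))))))) (.a (.f (nat_lit 527) (nat_lit 656) (nat_lit 4623) (.p (nat_lit 561) (.a (.d (nat_lit 562) (nat_lit 563) (nat_lit 3599) (nat_lit 590) (nat_lit 1582)) (.a (.f (nat_lit 562) (nat_lit 563) (nat_lit 3599) (.f (nat_lit 594) (nat_lit 595) (nat_lit 559) (.f (nat_lit 593) (nat_lit 558) (nat_lit 558) (.f (nat_lit 530) (nat_lit 531) (nat_lit 2575) (.d (nat_lit 498) (nat_lit 466) (nat_lit 5585) (nat_lit 625) (nat_lit 5617)))))) (.a (.f (nat_lit 590) (nat_lit 562) (nat_lit 1582) (.d (nat_lit 589) (nat_lit 558) (nat_lit 1581) (nat_lit 588) (nat_lit 2604))) (.p (nat_lit 495) (.a (.f (nat_lit 462) (nat_lit 494) (nat_lit 7630) (.d (nat_lit 463) (nat_lit 430) (nat_lit 7598) (nat_lit 431) (nat_lit 4527))) (.a (.f (nat_lit 463) (nat_lit 431) (nat_lit 4527) (.p (nat_lit 625) (.a (.d (nat_lit 590) (nat_lit 558) (nat_lit 5582) (nat_lit 626) (nat_lit 3662)) (.a (.f (nat_lit 593) (nat_lit 657) (nat_lit 7696) (.f (nat_lit 594) (nat_lit 558) (nat_lit 558) (.d (nat_lit 595) (nat_lit 596) (nat_lit 1616) (nat_lit 626) (nat_lit 2639)))) (.a (.f (nat_lit 626) (nat_lit 590) (nat_lit 3662) (.f (nat_lit 659) (nat_lit 658) (nat_lit 623) (.f (nat_lit 595) (nat_lit 594) (nat_lit 2639) (.d (nat_lit 627) (nat_lit 596) (nat_lit 2640) (nat_lit 660) (nat_lit 624))))) (.f (nat_lit 558) (nat_lit 590) (nat_lit 5582) (.d (nat_lit 593) (nat_lit 594) (nat_lit 558) (nat_lit 657) (nat_lit 7696)))))))) (.a (.f (nat_lit 494) (nat_lit 462) (nat_lit 7630) (.p (nat_lit 625) (.a (.f (nat_lit 590) (nat_lit 626) (nat_lit 3662) (.d (nat_lit 589) (nat_lit 558) (nat_lit 1581) (nat_lit 588) (nat_lit 2604))) (.a (.f (nat_lit 593) (nat_lit 657) (nat_lit 7696) (.f (nat_lit 594) (nat_lit 558) (nat_lit 558) (.d (nat_lit 595) (nat_lit 596) (nat_lit 1616) (nat_lit 626) (nat_lit 2639)))) (.a (.f (nat_lit 626) (nat_lit 590) (nat_lit 3662) (.f (nat_lit 659) (nat_lit 658) (nat_lit 623) (.f (nat_lit 595) (nat_lit 594) (nat_lit 2639) (.d (nat_lit 627) (nat_lit 596) (nat_lit 2640) (nat_lit 660) (nat_lit 624))))) (.p (nat_lit 558) (.a (.d (nat_lit 593) (nat_lit 594) (nat_lit 558) (nat_lit 657) (nat_lit 7696)) (.d (nat_lit 590) (nat_lit 463) (nat_lit 5582) (nat_lit 589) (nat_lit 1581))))))))) (.f (nat_lit 494) (nat_lit 462) (nat_lit 7630) (.p (nat_lit 625) (.a (.f (nat_lit 590) (nat_lit 626) (nat_lit 3662) (.d (nat_lit 589) (nat_lit 558) (nat_lit 1581) (nat_lit 588) (nat_lit 2604))) (.a (.f (nat_lit 593) (nat_lit 657) (nat_lit 7696) (.f (nat_lit 594) (nat_lit 558) (nat_lit 558) (.d (nat_lit 595) (nat_lit 596) (nat_lit 1616) (nat_lit 626) (nat_lit 2639)))) (.a (.f (nat_lit 626) (nat_lit 590) (nat_lit 3662) (.f (nat_lit 659) (nat_lit 658) (nat_lit 623) (.f (nat_lit 595) (nat_lit 594) (nat_lit 2639) (.d (nat_lit 627) (nat_lit 596) (nat_lit 2640) (nat_lit 660) (nat_lit 624))))) (.p (nat_lit 558) (.a (.d (nat_lit 593) (nat_lit 594) (nat_lit 558) (nat_lit 657) (nat_lit 7696)) (.f (nat_lit 557) (nat_lit 556) (nat_lit 2572) (.d (nat_lit 589) (nat_lit 588) (nat_lit 1580) (nat_lit 590) (nat_lit 1581))))))))))))))))))) (.p (nat_lit 590) (.a (.f (nat_lit 589) (nat_lit 588) (nat_lit 2604) (.d (nat_lit 561) (nat_lit 558) (nat_lit 1581) (nat_lit 562) (nat_lit 1582))) (.a (.f (nat_lit 561) (nat_lit 562) (nat_lit 1582) (.d (nat_lit 589) (nat_lit 588) (nat_lit 2604) (nat_lit 592) (nat_lit 2605))) (.a (.f (nat_lit 625) (nat_lit 626) (nat_lit 3662) (.f (nat_lit 561) (nat_lit 562) (nat_lit 1582) (.d (nat_lit 657) (nat_lit 592) (nat_lit 4624) (nat_lit 593) (nat_lit 7696)))) (.a (.f (nat_lit 589) (nat_lit 588) (nat_lit 2604) (.d (nat_lit 561) (nat_lit 558) (nat_lit 1581) (nat_lit 592) (nat_lit 2605))) (.f (nat_lit 589) (nat_lit 588) (nat_lit 2604) (.d (nat_lit 625) (nat_lit 592) (nat_lit 589) (nat_lit 626) (nat_lit 3662))))))))))))) (.a (.f (nat_lit 623) (nat_lit 655) (nat_lit 6671) (.p (nat_lit 527) (.a (.f (nat_lit 624) (nat_lit 656) (nat_lit 4623) (.f (nat_lit 495) (nat_lit 592) (nat_lit 7663) (.d (nat_lit 622) (nat_lit 590) (nat_lit 5614) (nat_lit 654) (nat_lit 5646)))) (.a (.f (nat_lit 624) (nat_lit 656) (nat_lit 4623) (.f (nat_lit 495) (nat_lit 592) (nat_lit 7663) (.f (nat_lit 462) (nat_lit 494) (nat_lit 7630) (.d (nat_lit 463) (nat_lit 430) (nat_lit 7598) (nat_lit 431) (nat_lit 4527))))) (.a (.f (nat_lit 622) (nat_lit 654) (nat_lit 5646) (.f (nat_lit 495) (nat_lit 590) (nat_lit 5614) (.d (nat_lit 463) (nat_lit 431) (nat_lit 4527) (nat_lit 592) (nat_lit 4559)))) (.a (.f (nat_lit 622) (nat_lit 654) (nat_lit 5646) (.f (nat_lit 590) (nat_lit 495) (nat_lit 5614) (.f (nat_lit 589) (nat_lit 588) (nat_lit 2604) (.d (nat_lit 561) (nat_lit 558) (nat_lit 1581) (nat_lit 562) (nat_lit 1582))))) (.f (nat_lit 624) (nat_lit 656) (nat_lit 4623) (.f (nat_lit 622) (nat_lit 654) (nat_lit 5646) (.p (nat_lit 590) (.a (.f (nat_lit 589) (nat_lit 588) (nat_lit 2604) (.d (nat_lit 561) (nat_lit 558) (nat_lit 1581) (nat_lit 562) (nat_lit 1582))) (.a (.d (nat_lit 589) (nat_lit 588) (nat_lit 588) (nat_lit 625) (nat_lit 3661)) (.f (nat_lit 625) (nat_lit 626) (nat_lit 3662) (.d (nat_lit 657) (nat_lit 592) (nat_lit 4624) (nat_lit 658) (nat_lit 622)))))))))))))) (.a (.f (nat_lit 623) (nat_lit 655) (nat_lit 6671) (.p (nat_lit 561) (.a (.f (nat_lit 562) (nat_lit 590) (nat_lit 1582) (.d (nat_lit 563) (nat_lit 527) (nat_lit 3599) (nat_lit 592) (nat_lit 1583))) (.a (.p (nat_lit 562) (.a (.d (nat_lit 563) (nat_lit 527) (nat_lit 3599) (nat_lit 592) (nat_lit 1583)) (.f (nat_lit 594) (nat_lit 595) (nat_lit 559) (.f (nat_lit 593) (nat_lit 558) (nat_lit 558) (.f (nat_lit 530) (nat_lit 531) (nat_lit 2575) (.d (nat_lit 498) (nat_lit 466) (nat_lit 5585) (nat_lit 625) (nat_lit 5617))))))) (.a (.f (nat_lit 590) (nat_lit 562) (nat_lit 1582) (.d (nat_lit 589) (nat_lit 558) (nat_lit 1581) (nat_lit 588) (nat_lit 2604))) (.p (nat_lit 558) (.a (.f (nat_lit 590) (nat_lit 589) (nat_lit 1581) (.f (nat_lit 593) (nat_lit 594) (nat_lit 558) (.f (nat_lit 557) (nat_lit 592) (nat_lit 557) (.d (nat_lit 556) (nat_lit 527) (nat_lit 2572) (nat_lit 555) (nat_lit 555))))) (.a (.f (nat_lit 593) (nat_lit 594) (nat_lit 558) (.f (nat_lit 590) (nat_lit 589) (nat_lit 1581) (.f (nat_lit 592) (nat_lit 557) (nat_lit 557) (.d (nat_lit 625) (nat_lit 626) (nat_lit 590) (nat_lit 657) (nat_lit 7696))))) (.a (.f (nat_lit 589) (nat_lit 590) (nat_lit 1581) (.f (nat_lit 557) (nat_lit 588) (nat_lit 1580) (.d (nat_lit 556) (nat_lit 527) (nat_lit 2572) (nat_lit 592) (nat_lit 556)))) (.a (.f (nat_lit 593) (nat_lit 594) (nat_lit 558) (.f (nat_lit 557) (nat_lit 592) (nat_lit 557) (.f (nat_lit 556) (nat_lit 527) (nat_lit 2572) (.d (nat_lit 588) (nat_lit 587) (nat_lit 1579) (nat_lit 589) (nat_lit 1580))))) (.a (.f (nat_lit 593) (nat_lit 594) (nat_lit 558) (.f (nat_lit 557) (nat_lit 592) (nat_lit 557) (.f (nat_lit 556) (nat_lit 527) (nat_lit 2572) (.d (nat_lit 524) (nat_lit 523) (nat_lit 3595) (nat_lit 525) (nat_lit 3596))))) (.a (.f (nat_lit 589) (nat_lit 590) (nat_lit 1581) (.f (nat_lit 557) (nat_lit 588) (nat_lit 1580) (.f (nat_lit 556) (nat_lit 527) (nat_lit 2572) (.d (nat_lit 524) (nat_lit 523) (nat_lit 3595) (nat_lit 525) (nat_lit 3596))))) (.f (nat_lit 590) (nat_lit 589) (nat_lit 1581) (.f (nat_lit 593) (nat_lit 594) (nat_lit 558) (.p (nat_lit 622) (.a (.d (nat_lit 527) (nat_lit 495) (nat_lit 5614) (nat_lit 654) (nat_lit 5646)) (.f (nat_lit 592) (nat_lit 621) (nat_lit 1613) (.d (nat_lit 625) (nat_lit 626) (nat_lit 590) (nat_lit 657) (nat_lit 7696))))))))))))))))))) (.a (.f (nat_lit 623) (nat_lit 655) (nat_lit 6671) (.p (nat_lit 624) (.a (.f (nat_lit 527) (nat_lit 656) (nat_lit 4623) (.f (nat_lit 495) (nat_lit 592) (nat_lit 7663) (.f (nat_lit 462) (nat_lit 494) (nat_lit 7630) (.d (nat_lit 463) (nat_lit 430) (nat_lit 7598) (nat_lit 431) (nat_lit 4527))))) (.a (.f (nat_lit 527) (nat_lit 656) (nat_lit 4623) (.f (nat_lit 592) (nat_lit 495) (nat_lit 7663) (.f (nat_lit 622) (nat_lit 654) (nat_lit 5646) (.d (nat_lit 593) (nat_lit 594) (nat_lit 1614) (nat_lit 621) (nat_lit 2637))))) (.a s53200 (.a (.p (nat_lit 622) (.a (.f (nat_lit 527) (nat_lit 654) (nat_lit 5646) (.f (nat_lit 592) (nat_lit 495) (nat_lit 7663) (.d (nat_lit 593) (nat_lit 594) (nat_lit 1614) (nat_lit 621) (nat_lit 2637)))) (.a (.f (nat_lit 527) (nat_lit 654) (nat_lit 5646) (.f (nat_lit 592) (nat_lit 495) (nat_lit 7663) (.d (nat_lit 621) (nat_lit 593) (nat_lit 2637) (nat_lit 620) (nat_lit 2636)))) (.a (.f (nat_lit 527) (nat_lit 654) (nat_lit 5646) (.f (nat_lit 592) (nat_lit 495) (nat_lit 7663) (.f (nat_lit 594) (nat_lit 593) (nat_lit 1614) (.f (nat_lit 625) (nat_lit 657) (nat_lit 4624) (.d (nat_lit 626) (nat_lit 595) (nat_lit 2639) (nat_lit 627) (nat_lit 3663)))))) (.a (.p (nat_lit 593) (.a (.d (nat_lit 592) (nat_lit 594) (nat_lit 1614) (nat_lit 621) (nat_lit 2637)) (.a (.f (nat_lit 621) (nat_lit 592) (nat_lit 2637) (.p (nat_lit 620) (.a (.d (nat_lit 652) (nat_lit 651) (nat_lit 1643) (nat_lit 653) (nat_lit 1644)) (.d (nat_lit 588) (nat_lit 587) (nat_lit 3659) (nat_lit 589) (nat_lit 3660))))) (.a (.d (nat_lit 594) (nat_lit 592) (nat_lit 1614) (nat_lit 625) (nat_lit 2638)) (.f (nat_lit 625) (nat_lit 594) (nat_lit 2638) (.d (nat_lit 657) (nat_lit 561) (nat_lit 7696) (nat_lit 658) (nat_lit 622))))))) (.a (.f (nat_lit 654) (nat_lit 527) (nat_lit 5646) (.f (nat_lit 625) (nat_lit 653) (nat_lit 1645) (.f (nat_lit 594) (nat_lit 593) (nat_lit 2638) (.f (nat_lit 626) (nat_lit 595) (nat_lit 2639) (.d (nat_lit 658) (nat_lit 657) (nat_lit 622) (nat_lit 659) (nat_lit 623)))))) (.f (nat_lit 527) (nat_lit 654) (nat_lit 5646) (.f (nat_lit 495) (nat_lit 592) (nat_lit 7663) (.f (nat_lit 462) (nat_lit 494) (nat_lit 7630) (.d (nat_lit 463) (nat_lit 430) (nat_lit 7598) (nat_lit 431) (nat_lit 4527))))))))))) s53263)))))) (.a s53275 (.a (.p (nat_lit 590) (.a (.f (nat_lit 589) (nat_lit 588) (nat_lit 2604) (.d (nat_lit 561) (nat_lit 558) (nat_lit 1581) (nat_lit 562) (nat_lit 1582))) (.a (.f (nat_lit 561) (nat_lit 562) (nat_lit 1582) (.d (nat_lit 589) (nat_lit 588) (nat_lit 2604) (nat_lit 592) (nat_lit 2605))) (.a (.f (nat_lit 561) (nat_lit 562) (nat_lit 1582) (.p (nat_lit 527) (.a (.f (nat_lit 495) (nat_lit 622) (nat_lit 5614) (.d (nat_lit 463) (nat_lit 431) (nat_lit 4527) (nat_lit 592) (nat_lit 4559))) (.a (.p (nat_lit 495) (.a (.d (nat_lit 463) (nat_lit 431) (nat_lit 4527) (nat_lit 592) (nat_lit 4559)) (.a (.d (nat_lit 592) (nat_lit 463) (nat_lit 4559) (nat_lit 624) (nat_lit 7663)) (.a (.d (nat_lit 463) (nat_lit 431) (nat_lit 4527) (nat_lit 558) (nat_lit 5582)) (.f (nat_lit 592) (nat_lit 624) (nat_lit 7663) (.p (nat_lit 593) (.a (.d (nat_lit 558) (nat_lit 557) (nat_lit 557) (nat_lit 594) (nat_lit 558)) (.d (nat_lit 625) (nat_lit 626) (nat_lit 590) (nat_lit 657) (nat_lit 7696))))))))) (.a (.f (nat_lit 495) (nat_lit 622) (nat_lit 5614) (.d (nat_lit 592) (nat_lit 463) (nat_lit 4559) (nat_lit 624) (nat_lit 7663))) (.a (.f (nat_lit 495) (nat_lit 622) (nat_lit 5614) (.d (nat_lit 463) (nat_lit 431) (nat_lit 4527) (nat_lit 558) (nat_lit 5582))) (.a (.f (nat_lit 622) (nat_lit 495) (nat_lit 5614) (.d (nat_lit 654) (nat_lit 558) (nat_lit 6670) (nat_lit 623) (nat_lit 5646))) (.p (nat_lit 622) (.a (.d (nat_lit 654) (nat_lit 558) (nat_lit 6670) (nat_lit 623) (nat_lit 5646)) (.a (.d (nat_lit 654) (nat_lit 623) (nat_lit 5646) (nat_lit 686) (nat_lit 6702)) (.a (.p (nat_lit 592) (.a (.f (nat_lit 593) (nat_lit 621) (nat_lit 1613) (.d (nat_lit 558) (nat_lit 557) (nat_lit 557) (nat_lit 594) (nat_lit 558))) (.a (.f (nat_lit 593) (nat_lit 621) (nat_lit 1613) (.d (nat_lit 625) (nat_lit 626) (nat_lit 590) (nat_lit 657) (nat_lit 7696))) (.a (.p (nat_lit 593) (.a (.d (nat_lit 558) (nat_lit 557) (nat_lit 557) (nat_lit 594) (nat_lit 558)) (.d (nat_lit 625) (nat_lit 626) (nat_lit 590) (nat_lit 657) (nat_lit 7696)))) (.f (nat_lit 624) (nat_lit 656) (nat_lit 7695) (.f (nat_lit 625) (nat_lit 657) (nat_lit 4624) (.d (nat_lit 626) (nat_lit 623) (nat_lit 3662) (nat_lit 627) (nat_lit 3663)))))))) (.d (nat_lit 654) (nat_lit 558) (nat_lit 6670) (nat_lit 686) (nat_lit 6702))))))))))))) (.a (.f (nat_lit 589) (nat_lit 588) (nat_lit 2604) (.d (nat_lit 561) (nat_lit 558) (nat_lit 1581) (nat_lit 592) (nat_lit 2605))) (.f (nat_lit 589) (nat_lit 588) (nat_lit 2604) (.p (nat_lit 592) (.a (.f (nat_lit 557) (nat_lit 556) (nat_lit 3628) (.f (nat_lit 593) (nat_lit 558) (nat_lit 557) (.d (nat_lit 621) (nat_lit 620) (nat_lit 1612) (nat_lit 622) (nat_lit 1613)))) (.f (nat_lit 624) (nat_lit 625) (nat_lit 589) (.d (nat_lit 527) (nat_lit 495) (nat_lit 7663) (nat_lit 656) (nat_lit 7695))))))))))) (.a (.f (nat_lit 623) (nat_lit 655) (nat_lit 6671) (.p (nat_lit 527) (.a (.f (nat_lit 624) (nat_lit 656) (nat_lit 4623) (.f (nat_lit 495) (nat_lit 592) (nat_lit 7663) (.d (nat_lit 622) (nat_lit 590) (nat_lit 5614) (nat_lit 654) (nat_lit 5646)))) (.a (.f (nat_lit 624) (nat_lit 656) (nat_lit 4623) (.f (nat_lit 495) (nat_lit 592) (nat_lit 7663) (.f (nat_lit 462) (nat_lit 494) (nat_lit 7630) (.d (nat_lit 463) (nat_lit 430) (nat_lit 7598) (nat_lit 431) (nat_lit 4527))))) (.a (.f (nat_lit 622) (nat_lit 654) (nat_lit 5646) (.f (nat_lit 495) (nat_lit 590) (nat_lit 5614) (.d (nat_lit 463) (nat_lit 431) (nat_lit 4527) (nat_lit 592) (nat_lit 4559)))) (.a (.f (nat_lit 622) (nat_lit 654) (nat_lit 5646) (.f (nat_lit 495) (nat_lit 590) (nat_lit 5614) (.f (nat_lit 462) (nat_lit 494) (nat_lit 7630) (.d (nat_lit 463) (nat_lit 430) (nat_lit 7598) (nat_lit 431) (nat_lit 4527))))) (.f (nat_lit 624) (nat_lit 656) (nat_lit 4623) (.f (nat_lit 622) (nat_lit 654) (nat_lit 5646) (.p (nat_lit 592) (.a (.d (nat_lit 593) (nat_lit 594) (nat_lit 1614) (nat_lit 621) (nat_lit 2637)) (.a (.d (nat_lit 621) (nat_lit 593) (nat_lit 2637) (nat_lit 620) (nat_lit 2636)) (.a (.f (nat_lit 593) (nat_lit 594) (nat_lit 1614) (.f (nat_lit 625) (nat_lit 657) (nat_lit 4624) (.d (nat_lit 626) (nat_lit 590) (nat_lit 3662) (nat_lit 627) (nat_lit 3663)))) (.f (nat_lit 625) (nat_lit 657) (nat_lit 4624) (.d (nat_lit 626) (nat_lit 590) (nat_lit 3662) (nat_lit 627) (nat_lit 3663))))))))))))))) (.a (.f (nat_lit 623) (nat_lit 655) (nat_lit 6671) (.p (nat_lit 590) (.a (.f (nat_lit 589) (nat_lit 588) (nat_lit 2604) (.d (nat_lit 561) (nat_lit 558) (nat_lit 1581) (nat_lit 562) (nat_lit 1582))) (.a s53349 (.a (.f (nat_lit 561) (nat_lit 562) (nat_lit 1582) (.p (nat_lit 527) (.a (.d (nat_lit 622) (nat_lit 495) (nat_lit 5614) (nat_lit 654) (nat_lit 5646)) (.a (.f (nat_lit 624) (nat_lit 656) (nat_lit 4623) (.f (nat_lit 625) (nat_lit 626) (nat_lit 3662) (.p (nat_lit 558) (.a (.d (nat_lit 593) (nat_lit 594) (nat_lit 558) (nat_lit 657) (nat_lit 7696)) (.p (nat_lit 493) (.a (.f (nat_lit 557) (nat_lit 556) (nat_lit 2572) (.d (nat_lit 525) (nat_lit 461) (nat_lit 4557) (nat_lit 524) (nat_lit 3596))) (.f (nat_lit 495) (nat_lit 463) (nat_lit 5582) (.d (nat_lit 494) (nat_lit 462) (nat_lit 7630) (nat_lit 492) (nat_lit 492))))))))) (.f (nat_lit 622) (nat_lit 654) (nat_lit 5646) (.f (nat_lit 624) (nat_lit 656) (nat_lit 4623) (.f (nat_lit 625) (nat_lit 626) (nat_lit 3662) (.d (nat_lit 657) (nat_lit 593) (nat_lit 7696) (nat_lit 658) (nat_lit 622))))))))) (.a (.f (nat_lit 589) (nat_lit 588) (nat_lit 2604) (.p (nat_lit 622) (.a (.d (nat_lit 527) (nat_lit 495) (nat_lit 5614) (nat_lit 654) (nat_lit 5646)) (.a (.f (nat_lit 624) (nat_lit 625) (nat_lit 3661) (.d (nat_lit 527) (nat_lit 495) (nat_lit 5614) (nat_lit 656) (nat_lit 4623))) (.a (.d (nat_lit 654) (nat_lit 527) (nat_lit 5646) (nat_lit 686) (nat_lit 6702)) (.f (nat_lit 654) (nat_lit 686) (nat_lit 6702) (.f (nat_lit 624) (nat_lit 625) (nat_lit 3661) (.f (nat_lit 558) (nat_lit 561) (nat_lit 1581) (.f (nat_lit 557) (nat_lit 525) (nat_lit 7693) (.f (nat_lit 653) (nat_lit 685) (nat_lit 5677) (.d (nat_lit 652) (nat_lit 621) (nat_lit 1644) (nat_lit 651) (nat_lit 2667)))))))))))) (.p (nat_lit 622) (.a (.d (nat_lit 527) (nat_lit 495) (nat_lit 5614) (nat_lit 654) (nat_lit 5646)) (.a (.f (nat_lit 589) (nat_lit 588) (nat_lit 2604) (.f (nat_lit 624) (nat_lit 625) (nat_lit 3661) (.d (nat_lit 527) (nat_lit 495) (nat_lit 5614) (nat_lit 656) (nat_lit 4623)))) (.a (.d (nat_lit 654) (nat_lit 527) (nat_lit 5646) (nat_lit 686) (nat_lit 6702)) (.f (nat_lit 588) (nat_lit 589) (nat_lit 2604) (.f (nat_lit 654) (nat_lit 686) (nat_lit 6702) (.p (nat_lit 653) (.a (.p (nat_lit 621) (.a (.d (nat_lit 652) (nat_lit 624) (nat_lit 1644) (nat_lit 651) (nat_lit 2667)) (.d (nat_lit 620) (nat_lit 587) (nat_lit 3659) (nat_lit 619) (nat_lit 2635)))) (.a (.p (nat_lit 620) (.a (.d (nat_lit 621) (nat_lit 587) (nat_lit 3659) (nat_lit 619) (nat_lit 2635)) (.a (.p (nat_lit 556) (.a (.d (nat_lit 652) (nat_lit 651) (nat_lit 2667) (nat_lit 685) (nat_lit 4652)) (.a (.f (nat_lit 558) (nat_lit 685) (nat_lit 5677) (.d (nat_lit 557) (nat_lit 555) (nat_lit 555) (nat_lit 587) (nat_lit 1579))) (.p (nat_lit 557) (.a (.d (nat_lit 652) (nat_lit 525) (nat_lit 6668) (nat_lit 651) (nat_lit 2667)) (.d (nat_lit 558) (nat_lit 555) (nat_lit 555) (nat_lit 587) (nat_lit 1579))))))) (.f (nat_lit 621) (nat_lit 619) (nat_lit 2635) (.d (nat_lit 685) (nat_lit 558) (nat_lit 5677) (nat_lit 717) (nat_lit 6733)))))) (.a (.f (nat_lit 558) (nat_lit 685) (nat_lit 5677) (.f (nat_lit 557) (nat_lit 525) (nat_lit 7693) (.d (nat_lit 556) (nat_lit 555) (nat_lit 555) (nat_lit 587) (nat_lit 1579)))) (.p (nat_lit 621) (.a (.d (nat_lit 652) (nat_lit 624) (nat_lit 1644) (nat_lit 651) (nat_lit 2667)) (.d (nat_lit 685) (nat_lit 558) (nat_lit 5677) (nat_lit 717) (nat_lit 6733)))))))))))))))))))) (.a (.p (nat_lit 561) (.a (.f (nat_lit 562) (nat_lit 590) (nat_lit 1582) (.d (nat_lit 563) (nat_lit 527) (nat_lit 3599) (nat_lit 592) (nat_lit 1583))) (.a (.p (nat_lit 562) (.a (.d (nat_lit 563) (nat_lit 527) (nat_lit 3599) (nat_lit 592) (nat_lit 1583)) (.f (nat_lit 594) (nat_lit 595) (nat_lit 559) (.f (nat_lit 593) (nat_lit 558) (nat_lit 558) (.f (nat_lit 530) (nat_lit 531) (nat_lit 2575) (.d (nat_lit 498) (nat_lit 466) (nat_lit 5585) (nat_lit 625) (nat_lit 5617))))))) (.a (.f (nat_lit 590) (nat_lit 562) (nat_lit 1582) (.d (nat_lit 589) (nat_lit 558) (nat_lit 1581) (nat_lit 588) (nat_lit 2604))) (.p (nat_lit 558) (.a (.f (nat_lit 590) (nat_lit 589) (nat_lit 1581) (.f (nat_lit 593) (nat_lit 594) (nat_lit 558) (.f (nat_lit 557) (nat_lit 592) (nat_lit 557) (.d (nat_lit 556) (nat_lit 527) (nat_lit 2572) (nat_lit 555) (nat_lit 555))))) (.a (.f (nat_lit 593) (nat_lit 594) (nat_lit 558) (.f (nat_lit 590) (nat_lit 589) (nat_lit 1581) (.f (nat_lit 592) (nat_lit 557) (nat_lit 557) (.d (nat_lit 625) (nat_lit 626) (nat_lit 590) (nat_lit 657) (nat_lit 7696))))) (.a (.f (nat_lit 589) (nat_lit 590) (nat_lit 1581) (.f (nat_lit 557) (nat_lit 588) (nat_lit 1580) (.d (nat_lit 556) (nat_lit 527) (nat_lit 2572) (nat_lit 592) (nat_lit 556)))) (.a (.f (nat_lit 593) (nat_lit 594) (nat_lit 558) (.f (nat_lit 557) (nat_lit 592) (nat_lit 557) (.f (nat_lit 556) (nat_lit 527) (nat_lit 2572) (.d (nat_lit 588) (nat_lit 587) (nat_lit 1579) (nat_lit 589) (nat_lit 1580))))) (.a (.f (nat_lit 593) (nat_lit 594) (nat_lit 558) (.f (nat_lit 557) (nat_lit 592) (nat_lit 557) (.f (nat_lit 556) (nat_lit 527) (nat_lit 2572) (.d (nat_lit 524) (nat_lit 523) (nat_lit 3595) (nat_lit 525) (nat_lit 3596))))) (.a (.f (nat_lit 589) (nat_lit 590) (nat_lit 1581) (.f (nat_lit 557) (nat_lit 588) (nat_lit 1580) (.f (nat_lit 556) (nat_lit 527) (nat_lit 2572) (.d (nat_lit 524) (nat_lit 523) (nat_lit 3595) (nat_lit 525) (nat_lit 3596))))) (.f (nat_lit 590) (nat_lit 589) (nat_lit 1581) (.f (nat_lit 593) (nat_lit 594) (nat_lit 558) (.f (nat_lit 625) (nat_lit 657) (nat_lit 7696) (.f (nat_lit 592) (nat_lit 626) (nat_lit 590) (.p (nat_lit 527) (.a (.d (nat_lit 495) (nat_lit 463) (nat_lit 4559) (nat_lit 624) (nat_lit 7663)) (.a (.d (nat_lit 495) (nat_lit 463) (nat_lit 5582) (nat_lit 622) (nat_lit 5614)) (.a (.d (nat_lit 624) (nat_lit 495) (nat_lit 7663) (nat_lit 656) (nat_lit 7695)) (.d (nat_lit 622) (nat_lit 621) (nat_lit 1613) (nat_lit 654) (nat_lit 6670))))))))))))))))))))) (.a (.f (nat_lit 623) (nat_lit 655) (nat_lit 6671) (.p (nat_lit 590) (.a (.f (nat_lit 589) (nat_lit 588) (nat_lit 2604) (.d (nat_lit 561) (nat_lit 558) (nat_lit 1581) (nat_lit 562) (nat_lit 1582))) (.a (.f (nat_lit 561) (nat_lit 562) (nat_lit 1582) (.d (nat_lit 589) (nat_lit 588) (nat_lit 2604) (nat_lit 592) (nat_lit 2605))) (.a (.f (nat_lit 561) (nat_lit 562) (nat_lit 1582) (.p (nat_lit 593) (.a (.f (nat_lit 594) (nat_lit 558) (nat_lit 558) (.d (nat_lit 595) (nat_lit 592) (nat_lit 3631) (nat_lit 596) (nat_lit 3632))) (.a (.f (nat_lit 625) (nat_lit 657) (nat_lit 7696) (.d (nat_lit 626) (nat_lit 592) (nat_lit 590) (nat_lit 624) (nat_lit 3662))) (.f (nat_lit 625) (nat_lit 657) (nat_lit 7696) (.f (nat_lit 624) (nat_lit 626) (nat_lit 3662) (.d (nat_lit 594) (nat_lit 558) (nat_lit 558) (nat_lit 622) (nat_lit 2638)))))))) (.a (.f (nat_lit 589) (nat_lit 588) (nat_lit 2604) (.d (nat_lit 561) (nat_lit 558) (nat_lit 1581) (nat_lit 592) (nat_lit 2605))) (.f (nat_lit 589) (nat_lit 588) (nat_lit 2604) (.p (nat_lit 592) (.a (.f (nat_lit 557) (nat_lit 556) (nat_lit 3628) (.f (nat_lit 593) (nat_lit 558) (nat_lit 557) (.d (nat_lit 621) (nat_lit 620) (nat_lit 1612) (nat_lit 622) (nat_lit 1613)))) (.f (nat_lit 624) (nat_lit 625) (nat_lit 589) (.d (nat_lit 656) (nat_lit 527) (nat_lit 4623) (nat_lit 688) (nat_lit 7727)))))))))))) (.p (nat_lit 590) (.a (.f (nat_lit 589) (nat_lit 588) (nat_lit 2604) (.d (nat_lit 561) (nat_lit 558) (nat_lit 1581) (nat_lit 562) (nat_lit 1582))) (.a (.f (nat_lit 561) (nat_lit 562) (nat_lit 1582) (.d (nat_lit 589) (nat_lit 588) (nat_lit 2604) (nat_lit 592) (nat_lit 2605))) (.a (.f (nat_lit 623) (nat_lit 655) (nat_lit 6671) (.f (nat_lit 561) (nat_lit 562) (nat_lit 1582) (.p (nat_lit 593) (.a (.f (nat_lit 594) (nat_lit 558) (nat_lit 558) (.d (nat_lit 595) (nat_lit 592) (nat_lit 3631) (nat_lit 596) (nat_lit 3632))) (.a (.f (nat_lit 625) (nat_lit 657) (nat_lit 7696) (.d (nat_lit 626) (nat_lit 592) (nat_lit 590) (nat_lit 624) (nat_lit 3662))) (.f (nat_lit 625) (nat_lit 657) (nat_lit 7696) (.f (nat_lit 624) (nat_lit 626) (nat_lit 3662) (.d (nat_lit 594) (nat_lit 558) (nat_lit 558) (nat_lit 622) (nat_lit 2638))))))))) (.a (.f (nat_lit 589) (nat_lit 588) (nat_lit 2604) (.d (nat_lit 561) (nat_lit 558) (nat_lit 1581) (nat_lit 592) (nat_lit 2605))) (.f (nat_lit 589) (nat_lit 588) (nat_lit 2604) (.p (nat_lit 592) (.a (.f (nat_lit 557) (nat_lit 556) (nat_lit 3628) (.f (nat_lit 593) (nat_lit 558) (nat_lit 557) (.d (nat_lit 621) (nat_lit 620) (nat_lit 1612) (nat_lit 622) (nat_lit 1613)))) (.a (.f (nat_lit 557) (nat_lit 556) (nat_lit 3628) (.f (nat_lit 593) (nat_lit 558) (nat_lit 557) (.d (nat_lit 625) (nat_lit 624) (nat_lit 589) (nat_lit 626) (nat_lit 590)))) (.a (.f (nat_lit 624) (nat_lit 625) (nat_lit 589) (.f (nat_lit 623) (nat_lit 655) (nat_lit 5647) (.f (nat_lit 621) (nat_lit 620) (nat_lit 1612) (.f (nat_lit 622) (nat_lit 593) (nat_lit 1613) (.d (nat_lit 656) (nat_lit 657) (nat_lit 621) (nat_lit 688) (nat_lit 7727)))))) (.f (nat_lit 624) (nat_lit 625) (nat_lit 589) (.f (nat_lit 655) (nat_lit 623) (nat_lit 5647) (.d (nat_lit 656) (nat_lit 687) (nat_lit 5679) (nat_lit 688) (nat_lit 7727))))))))))))))))))))))))))) (.a (.p (nat_lit 558) (.a (.p (nat_lit 561) (.a (.f (nat_lit 526) (nat_lit 525) (nat_lit 3597) (.f (nat_lit 562) (nat_lit 527) (nat_lit 3598) (.d (nat_lit 594) (nat_lit 593) (nat_lit 558) (nat_lit 595) (nat_lit 559)))) (.a (.f (nat_lit 526) (nat_lit 525) (nat_lit 3597) (.f (nat_lit 527) (nat_lit 562) (nat_lit 3598) (.f (nat_lit 590) (nat_lit 589) (nat_lit 1581) (.d (nat_lit 495) (nat_lit 463) (nat_lit 5582) (nat_lit 622) (nat_lit 6638))))) (.a (.f (nat_lit 590) (nat_lit 589) (nat_lit 1581) (.f (nat_lit 562) (nat_lit 591) (nat_lit 1582) (.d (nat_lit 594) (nat_lit 593) (nat_lit 558) (nat_lit 595) (nat_lit 559)))) s50974)))) (.a (.p (nat_lit 561) (.a (.f (nat_lit 526) (nat_lit 525) (nat_lit 3597) (.f (nat_lit 562) (nat_lit 527) (nat_lit 3598) (.d (nat_lit 594) (nat_lit 593) (nat_lit 558) (nat_lit 595) (nat_lit 559)))) (.a (.f (nat_lit 526) (nat_lit 525) (nat_lit 3597) (.f (nat_lit 590) (nat_lit 589) (nat_lit 1581) (.d (nat_lit 562) (nat_lit 527) (nat_lit 3598) (nat_lit 591) (nat_lit 1582)))) (.a (.f (nat_lit 590) (nat_lit 589) (nat_lit 1581) (.f (nat_lit 562) (nat_lit 591) (nat_lit 1582) (.d (nat_lit 594) (nat_lit 593) (nat_lit 558) (nat_lit 595) (nat_lit 559)))) (.f (nat_lit 525) (nat_lit 526) (nat_lit 3597) (.f (nat_lit 557) (nat_lit 524) (nat_lit 3596) (.d (nat_lit 589) (nat_lit 588) (nat_lit 1580) (nat_lit 590) (nat_lit 1581)))))))) (.a s53484 (.a (.p (nat_lit 557) (.a (.f (nat_lit 556) (nat_lit 527) (nat_lit 2572) (.d (nat_lit 588) (nat_lit 587) (nat_lit 1579) (nat_lit 589) (nat_lit 1580))) (.a (.f (nat_lit 525) (nat_lit 524) (nat_lit 3596) (.f (nat_lit 589) (nat_lit 588) (nat_lit 1580) (.f (nat_lit 526) (nat_lit 561) (nat_lit 3597) (.d (nat_lit 494) (nat_lit 462) (nat_lit 5581) (nat_lit 621) (nat_lit 6637))))) (.f (nat_lit 556) (nat_lit 527) (nat_lit 2572) (.d (nat_lit 524) (nat_lit 523) (nat_lit 3595) (nat_lit 525) (nat_lit 3596)))))) (.a (.p (nat_lit 526) (.a (.f (nat_lit 525) (nat_lit 561) (nat_lit 3597) (.d (nat_lit 524) (nat_lit 527) (nat_lit 524) (nat_lit 557) (nat_lit 3596))) (.a (.f (nat_lit 561) (nat_lit 525) (nat_lit 3597) (.f (nat_lit 562) (nat_lit 527) (nat_lit 3598) (.d (nat_lit 594) (nat_lit 593) (nat_lit 558) (nat_lit 595) (nat_lit 559)))) (.a (.p (nat_lit 494) (.a (.f (nat_lit 591) (nat_lit 462) (nat_lit 4558) (.d (nat_lit 623) (nat_lit 527) (nat_lit 7662) (nat_lit 655) (nat_lit 6671))) (.a (.p (nat_lit 590) (.a (.f (nat_lit 591) (nat_lit 623) (nat_lit 4590) (.f (nat_lit 495) (nat_lit 463) (nat_lit 6606) (.f (nat_lit 527) (nat_lit 622) (nat_lit 5614) (.d (nat_lit 493) (nat_lit 461) (nat_lit 7629) (nat_lit 492) (nat_lit 492))))) (.a (.f (nat_lit 591) (nat_lit 623) (nat_lit 4590) (.f (nat_lit 561) (nat_lit 562) (nat_lit 1582) (.f (nat_lit 495) (nat_lit 463) (nat_lit 6606) (.f (nat_lit 493) (nat_lit 461) (nat_lit 7629) (.f (nat_lit 492) (nat_lit 527) (nat_lit 492) (.p (nat_lit 491) (.a (.d (nat_lit 523) (nat_lit 522) (nat_lit 1514) (nat_lit 524) (nat_lit 1515)) (.d (nat_lit 459) (nat_lit 458) (nat_lit 3530) (nat_lit 460) (nat_lit 3531))))))))) (.a (.f (nat_lit 591) (nat_lit 623) (nat_lit 4590) (.f (nat_lit 495) (nat_lit 463) (nat_lit 6606) (.f (nat_lit 622) (nat_lit 527) (nat_lit 5614) (.f (nat_lit 653) (nat_lit 621) (nat_lit 5645) (.d (nat_lit 654) (nat_lit 685) (nat_lit 5677) (nat_lit 686) (nat_lit 6702)))))) (.a (.f (nat_lit 495) (nat_lit 463) (nat_lit 6606) (.f (nat_lit 527) (nat_lit 622) (nat_lit 6638) (.d (nat_lit 493) (nat_lit 461) (nat_lit 7629) (nat_lit 492) (nat_lit 492)))) (.a (.f (nat_lit 623) (nat_lit 591) (nat_lit 4590) (.f (nat_lit 622) (nat_lit 655) (nat_lit 4622) (.d (nat_lit 527) (nat_lit 495) (nat_lit 6638) (nat_lit 654) (nat_lit 6670)))) (.a (.f (nat_lit 623) (nat_lit 591) (nat_lit 4590) (.f (nat_lit 622) (nat_lit 655) (nat_lit 4622) (.f (nat_lit 654) (nat_lit 527) (nat_lit 6670) (.d (nat_lit 653) (nat_lit 621) (nat_lit 5645) (nat_lit 685) (nat_lit 5677))))) (.p (nat_lit 622) (.a (.d (nat_lit 623) (nat_lit 591) (nat_lit 4590) (nat_lit 655) (nat_lit 4622)) (.a (.f (nat_lit 655) (nat_lit 623) (nat_lit 4622) (.f (nat_lit 654) (nat_lit 687) (nat_lit 4654) (.d (nat_lit 653) (nat_lit 621) (nat_lit 5645) (nat_lit 685) (nat_lit 5677)))) (.a (.f (nat_lit 591) (nat_lit 623) (nat_lit 4590) (.f (nat_lit 561) (nat_lit 562) (nat_lit 1582) (.f (nat_lit 653) (nat_lit 621) (nat_lit 5645) (.d (nat_lit 654) (nat_lit 685) (nat_lit 5677) (nat_lit 686) (nat_lit 6702))))) (.f (nat_lit 653) (nat_lit 621) (nat_lit 5645) (.f (nat_lit 654) (nat_lit 685) (nat_lit 5677) (.f (nat_lit 687) (nat_lit 655) (nat_lit 4654) (.d (nat_lit 686) (nat_lit 591) (nat_lit 6702) (nat_lit 719) (nat_lit 4686)))))))))))))))) (.a (.p (nat_lit 462) (.a (.f (nat_lit 463) (nat_lit 431) (nat_lit 6574) (.f (nat_lit 527) (nat_lit 430) (nat_lit 4526) (.f (nat_lit 495) (nat_lit 590) (nat_lit 5582) (.f (nat_lit 493) (nat_lit 492) (nat_lit 492) (.d (nat_lit 464) (nat_lit 432) (nat_lit 6575) (nat_lit 465) (nat_lit 1485)))))) (.a (.f (nat_lit 430) (nat_lit 527) (nat_lit 4526) (.d (nat_lit 431) (nat_lit 399) (nat_lit 6542) (nat_lit 463) (nat_lit 6574))) (.a (.f (nat_lit 527) (nat_lit 430) (nat_lit 4526) (.f (nat_lit 561) (nat_lit 562) (nat_lit 3598) (.p (nat_lit 590) (.a (.d (nat_lit 495) (nat_lit 463) (nat_lit 6606) (nat_lit 622) (nat_lit 6638)) (.d (nat_lit 461) (nat_lit 429) (nat_lit 7597) (nat_lit 493) (nat_lit 7629)))))) (.a (.f (nat_lit 527) (nat_lit 430) (nat_lit 4526) (.f (nat_lit 561) (nat_lit 562) (nat_lit 3598) (.f (nat_lit 461) (nat_lit 429) (nat_lit 7597) (.f (nat_lit 493) (nat_lit 590) (nat_lit 7629) (.d (nat_lit 492) (nat_lit 491) (nat_lit 491) (nat_lit 495) (nat_lit 492)))))) (.f (nat_lit 463) (nat_lit 431) (nat_lit 6574) (.f (nat_lit 461) (nat_lit 429) (nat_lit 7597) (.d (nat_lit 590) (nat_lit 493) (nat_lit 7629) (nat_lit 495) (nat_lit 6606))))))))) (.f (nat_lit 591) (nat_lit 462) (nat_lit 4558) (.d (nat_lit 623) (nat_lit 590) (nat_lit 4590) (nat_lit 655) (nat_lit 7694))))))) (.a (.p (nat_lit 525) (.a (.d (nat_lit 524) (nat_lit 527) (nat_lit 524) (nat_lit 557) (nat_lit 3596)) (.a (.d (nat_lit 524) (nat_lit 523) (nat_lit 523) (nat_lit 527) (nat_lit 524)) (.a (.p (nat_lit 493) (.a (.f (nat_lit 527) (nat_lit 492) (nat_lit 3564) (.f (nat_lit 557) (nat_lit 556) (nat_lit 1548) (.d (nat_lit 461) (nat_lit 429) (nat_lit 4525) (nat_lit 590) (nat_lit 4557)))) (.a (.f (nat_lit 590) (nat_lit 622) (nat_lit 7661) (.d (nat_lit 461) (nat_lit 429) (nat_lit 4525) (nat_lit 557) (nat_lit 4557))) (.a (.f (nat_lit 527) (nat_lit 492) (nat_lit 3564) (.f (nat_lit 557) (nat_lit 556) (nat_lit 1548) (.f (nat_lit 461) (nat_lit 429) (nat_lit 4525) (.f (nat_lit 462) (nat_lit 430) (nat_lit 6573) (.f (nat_lit 494) (nat_lit 591) (nat_lit 4558) (.f (nat_lit 460) (nat_lit 428) (nat_lit 7596) (.d (nat_lit 459) (nat_lit 458) (nat_lit 458) (nat_lit 495) (nat_lit 459)))))))) (.f (nat_lit 590) (nat_lit 622) (nat_lit 7661) (.f (nat_lit 492) (nat_lit 527) (nat_lit 3564) (.p (nat_lit 494) (.a (.p (nat_lit 459) (.a (.d (nat_lit 491) (nat_lit 458) (nat_lit 3530) (nat_lit 490) (nat_lit 490)) (.d (nat_lit 495) (nat_lit 460) (nat_lit 3531) (nat_lit 463) (nat_lit 6606)))) (.d (nat_lit 591) (nat_lit 462) (nat_lit 4558) (nat_lit 623) (nat_lit 4590)))))))))) (.d (nat_lit 524) (nat_lit 523) (nat_lit 523) (nat_lit 557) (nat_lit 3596)))))) (.f (nat_lit 525) (nat_lit 561) (nat_lit 3597) (.d (nat_lit 524) (nat_lit 523) (nat_lit 523) (nat_lit 557) (nat_lit 3596)))))))) (.a (.p (nat_lit 557) (.a (.f (nat_lit 556) (nat_lit 527) (nat_lit 2572) (.d (nat_lit 588) (nat_lit 587) (nat_lit 1579) (nat_lit 589) (nat_lit 1580))) (.a (.f (nat_lit 589) (nat_lit 588) (nat_lit 1580) (.f (nat_lit 525) (nat_lit 524) (nat_lit 3596) (.f (nat_lit 590) (nat_lit 561) (nat_lit 1581) (.d (nat_lit 493) (nat_lit 461) (nat_lit 4557) (nat_lit 622) (nat_lit 4589))))) (.f (nat_lit 556) (nat_lit 527) (nat_lit 2572) (.d (nat_lit 524) (nat_lit 523) (nat_lit 3595) (nat_lit 525) (nat_lit 3596)))))) (.a (.p (nat_lit 561) (.a (.f (nat_lit 590) (nat_lit 589) (nat_lit 1581) (.f (nat_lit 562) (nat_lit 591) (nat_lit 1582) (.d (nat_lit 594) (nat_lit 593) (nat_lit 558) (nat_lit 595) (nat_lit 559)))) (.a (.f (nat_lit 590) (nat_lit 589) (nat_lit 1581) (.f (nat_lit 562) (nat_lit 591) (nat_lit 1582) (.d (nat_lit 527) (nat_lit 526) (nat_lit 3598) (nat_lit 563) (nat_lit 3599)))) (.a (.f (nat_lit 589) (nat_lit 590) (nat_lit 1581) (.f (nat_lit 557) (nat_lit 588) (nat_lit 1580) (.f (nat_lit 527) (nat_lit 556) (nat_lit 2572) (.d (nat_lit 562) (nat_lit 526) (nat_lit 3598) (nat_lit 563) (nat_lit 3599))))) (.a (.f (nat_lit 594) (nat_lit 593) (nat_lit 558) (.f (nat_lit 562) (nat_lit 595) (nat_lit 559) (.d (nat_lit 527) (nat_lit 526) (nat_lit 3598) (nat_lit 563) (nat_lit 3599)))) (.f (nat_lit 593) (nat_lit 594) (nat_lit 558) (.p (nat_lit 557) (.a (.d (nat_lit 589) (nat_lit 588) (nat_lit 1580) (nat_lit 590) (nat_lit 1581)) (.a (.f (nat_lit 556) (nat_lit 527) (nat_lit 2572) (.d (nat_lit 588) (nat_lit 587) (nat_lit 1579) (nat_lit 589) (nat_lit 1580))) (.a (.f (nat_lit 556) (nat_lit 527) (nat_lit 2572) (.f (nat_lit 523) (nat_lit 524) (nat_lit 3595) (.f (nat_lit 555) (nat_lit 522) (nat_lit 3594) (.d (nat_lit 587) (nat_lit 586) (nat_lit 1578) (nat_lit 588) (nat_lit 1579))))) (.f (nat_lit 556) (nat_lit 527) (nat_lit 2572) (.f (nat_lit 590) (nat_lit 589) (nat_lit 1581) (.f (nat_lit 555) (nat_lit 591) (nat_lit 555) (.d (nat_lit 523) (nat_lit 522) (nat_lit 3594) (nat_lit 524) (nat_lit 3595))))))))))))))) (.a (.p (nat_lit 557) (.a (.f (nat_lit 556) (nat_lit 527) (nat_lit 2572) (.d (nat_lit 588) (nat_lit 587) (nat_lit 1579) (nat_lit 589) (nat_lit 1580))) (.a (.f (nat_lit 525) (nat_lit 524) (nat_lit 3596) (.f (nat_lit 589) (nat_lit 588) (nat_lit 1580) (.p (nat_lit 493) (.a (.d (nat_lit 590) (nat_lit 461) (nat_lit 4557) (nat_lit 622) (nat_lit 4589)) (.a (.f (nat_lit 494) (nat_lit 462) (nat_lit 6605) (.f (nat_lit 526) (nat_lit 621) (nat_lit 6637) (.d (nat_lit 461) (nat_lit 429) (nat_lit 4525) (nat_lit 590) (nat_lit 4557)))) (.f (nat_lit 494) (nat_lit 462) (nat_lit 6605) (.f (nat_lit 526) (nat_lit 621) (nat_lit 6637) (.d (nat_lit 492) (nat_lit 460) (nat_lit 7628) (nat_lit 527) (nat_lit 3564))))))))) (.a (.f (nat_lit 556) (nat_lit 527) (nat_lit 2572) (.d (nat_lit 524) (nat_lit 523) (nat_lit 3595) (nat_lit 525) (nat_lit 3596))) (.f (nat_lit 525) (nat_lit 524) (nat_lit 3596) (.f (nat_lit 589) (nat_lit 588) (nat_lit 1580) (.p (nat_lit 493) (.a (.d (nat_lit 590) (nat_lit 461) (nat_lit 4557) (nat_lit 622) (nat_lit 4589)) (.a (.f (nat_lit 461) (nat_lit 590) (nat_lit 4557) (.d (nat_lit 462) (nat_lit 430) (nat_lit 6573) (nat_lit 494) (nat_lit 6605))) (.f (nat_lit 494) (nat_lit 462) (nat_lit 6605) (.f (nat_lit 621) (nat_lit 526) (nat_lit 6637) (.p (nat_lit 653) (.a (.d (nat_lit 654) (nat_lit 622) (nat_lit 4621) (nat_lit 686) (nat_lit 4653)) (.d (nat_lit 652) (nat_lit 620) (nat_lit 5644) (nat_lit 684) (nat_lit 5676))))))))))))))) s53614))))))))) (.a (.p (nat_lit 558) (.a (.p (nat_lit 527) (.a (.f (nat_lit 557) (nat_lit 556) (nat_lit 2572) (.f (nat_lit 525) (nat_lit 524) (nat_lit 3596) (.f (nat_lit 526) (nat_lit 561) (nat_lit 525) (.f (nat_lit 493) (nat_lit 492) (nat_lit 3564) (.d (nat_lit 461) (nat_lit 429) (nat_lit 4525) (nat_lit 590) (nat_lit 4557)))))) (.a (.p (nat_lit 526) (.a (.d (nat_lit 525) (nat_lit 524) (nat_lit 524) (nat_lit 561) (nat_lit 525)) (.a (.p (nat_lit 495) (.a (.d (nat_lit 463) (nat_lit 431) (nat_lit 4527) (nat_lit 592) (nat_lit 4559)) (.a (.d (nat_lit 592) (nat_lit 463) (nat_lit 4559) (nat_lit 624) (nat_lit 7663)) (.a (.d (nat_lit 463) (nat_lit 431) (nat_lit 4527) (nat_lit 590) (nat_lit 5582)) (.f (nat_lit 590) (nat_lit 622) (nat_lit 6638) (.d (nat_lit 561) (nat_lit 562) (nat_lit 3598) (nat_lit 589) (nat_lit 1581))))))) (.f (nat_lit 525) (nat_lit 524) (nat_lit 524) (.p (nat_lit 495) (.a (.d (nat_lit 463) (nat_lit 431) (nat_lit 4527) (nat_lit 592) (nat_lit 4559)) (.a (.d (nat_lit 592) (nat_lit 463) (nat_lit 4559) (nat_lit 624) (nat_lit 7663)) (.a (.d (nat_lit 463) (nat_lit 431) (nat_lit 4527) (nat_lit 590) (nat_lit 5582)) (.f (nat_lit 590) (nat_lit 622) (nat_lit 6638) (.p (nat_lit 494) (.a (.d (nat_lit 493) (nat_lit 461) (nat_lit 7629) (nat_lit 492) (nat_lit 3564)) (.d (nat_lit 462) (nat_lit 430) (nat_lit 4526) (nat_lit 591) (nat_lit 4558))))))))))))) (.a (.f (nat_lit 557) (nat_lit 556) (nat_lit 2572) (.f (nat_lit 525) (nat_lit 524) (nat_lit 3596) (.f (nat_lit 561) (nat_lit 526) (nat_lit 525) (.d (nat_lit 589) (nat_lit 588) (nat_lit 1580) (nat_lit 590) (nat_lit 1581))))) (.a (.f (nat_lit 557) (nat_lit 556) (nat_lit 2572) (.f (nat_lit 525) (nat_lit 524) (nat_lit 3596) (.f (nat_lit 526) (nat_lit 561) (nat_lit 525) (.f (nat_lit 589) (nat_lit 588) (nat_lit 1580) (.d (nat_lit 494) (nat_lit 462) (nat_lit 5581) (nat_lit 621) (nat_lit 6637)))))) (.a (.f (nat_lit 557) (nat_lit 556) (nat_lit 2572) (.f (nat_lit 589) (nat_lit 588) (nat_lit 1580) (.f (nat_lit 590) (nat_lit 561) (nat_lit 1581) (.f (nat_lit 622) (nat_lit 654) (nat_lit 6670) (.d (nat_lit 495) (nat_lit 463) (nat_lit 5582) (nat_lit 591) (nat_lit 5614)))))) (.f (nat_lit 557) (nat_lit 556) (nat_lit 2572) (.f (nat_lit 525) (nat_lit 524) (nat_lit 3596) (.f (nat_lit 589) (nat_lit 588) (nat_lit 1580) (.p (nat_lit 590) (.a (.d (nat_lit 493) (nat_lit 461) (nat_lit 4557) (nat_lit 622) (nat_lit 4589)) (.a (.f (nat_lit 495) (nat_lit 463) (nat_lit 5582) (.p (nat_lit 494) (.a (.d (nat_lit 493) (nat_lit 461) (nat_lit 4557) (nat_lit 492) (nat_lit 492)) (.d (nat_lit 462) (nat_lit 526) (nat_lit 5581) (nat_lit 591) (nat_lit 7630))))) (.f (nat_lit 622) (nat_lit 654) (nat_lit 6670) (.d (nat_lit 495) (nat_lit 463) (nat_lit 5582) (nat_lit 591) (nat_lit 5614))))))))))))))) (.a s53484 (.a (.p (nat_lit 561) (.a (.f (nat_lit 526) (nat_lit 525) (nat_lit 3597) (.f (nat_lit 590) (nat_lit 589) (nat_lit 1581) (.d (nat_lit 562) (nat_lit 527) (nat_lit 3598) (nat_lit 591) (nat_lit 1582)))) (.a (.f (nat_lit 526) (nat_lit 525) (nat_lit 3597) (.f (nat_lit 562) (nat_lit 527) (nat_lit 3598) (.f (nat_lit 589) (nat_lit 590) (nat_lit 1581) (.f (nat_lit 557) (nat_lit 588) (nat_lit 1580) (.f (nat_lit 595) (nat_lit 594) (nat_lit 559) (.f (nat_lit 563) (nat_lit 596) (nat_lit 560) (.d (nat_lit 531) (nat_lit 530) (nat_lit 2575) (nat_lit 532) (nat_lit 2576)))))))) (.a (.f (nat_lit 526) (nat_lit 525) (nat_lit 3597) (.f (nat_lit 562) (nat_lit 527) (nat_lit 3598) (.f (nat_lit 595) (nat_lit 594) (nat_lit 559) (.f (nat_lit 563) (nat_lit 596) (nat_lit 560) (.d (nat_lit 531) (nat_lit 530) (nat_lit 2575) (nat_lit 532) (nat_lit 2576)))))) (.a (.f (nat_lit 590) (nat_lit 589) (nat_lit 1581) (.f (nat_lit 562) (nat_lit 591) (nat_lit 1582) (.f (nat_lit 563) (nat_lit 527) (nat_lit 3599) (.d (nat_lit 595) (nat_lit 594) (nat_lit 559) (nat_lit 596) (nat_lit 560))))) (.a s53671 (.f (nat_lit 590) (nat_lit 589) (nat_lit 1581) (.f (nat_lit 562) (nat_lit 591) (nat_lit 1582) (.f (nat_lit 525) (nat_lit 526) (nat_lit 3597) (.f (nat_lit 557) (nat_lit 524) (nat_lit 3596) (.f (nat_lit 595) (nat_lit 594) (nat_lit 559) (.f (nat_lit 563) (nat_lit 596) (nat_lit 560) (.d (nat_lit 531) (nat_lit 530) (nat_lit 2575) (nat_lit 532) (nat_lit 2576)))))))))))))) (.a (.p (nat_lit 557) (.a (.f (nat_lit 556) (nat_lit 527) (nat_lit 2572) (.d (nat_lit 588) (nat_lit 587) (nat_lit 1579) (nat_lit 589) (nat_lit 1580))) (.a (.f (nat_lit 525) (nat_lit 524) (nat_lit 3596) (.f (nat_lit 589) (nat_lit 588) (nat_lit 1580) (.f (nat_lit 526) (nat_lit 561) (nat_lit 3597) (.d (nat_lit 494) (nat_lit 462) (nat_lit 5581) (nat_lit 621) (nat_lit 6637))))) (.f (nat_lit 556) (nat_lit 527) (nat_lit 2572) (.d (nat_lit 524) (nat_lit 523) (nat_lit 3595) (nat_lit 525) (nat_lit 3596)))))) (.a (.p (nat_lit 527) (.a (.p (nat_lit 526) (.a (.d (nat_lit 525) (nat_lit 524) (nat_lit 524) (nat_lit 561) (nat_lit 525)) (.p (nat_lit 495) (.a (.d (nat_lit 463) (nat_lit 431) (nat_lit 4527) (nat_lit 592) (nat_lit 4559)) (.a (.d (nat_lit 592) (nat_lit 463) (nat_lit 4559) (nat_lit 624) (nat_lit 7663)) (.a (.d (nat_lit 463) (nat_lit 431) (nat_lit 4527) (nat_lit 590) (nat_lit 5582)) (.p (nat_lit 591) (.a (.d (nat_lit 494) (nat_lit 462) (nat_lit 7630) (nat_lit 623) (nat_lit 7662)) (.a (.d (nat_lit 623) (nat_lit 494) (nat_lit 7662) (nat_lit 655) (nat_lit 6671)) (.a (.f (nat_lit 624) (nat_lit 592) (nat_lit 7663) (.d (nat_lit 623) (nat_lit 655) (nat_lit 6671) (nat_lit 656) (nat_lit 4623))) (.f (nat_lit 494) (nat_lit 462) (nat_lit 4558) (.f (nat_lit 493) (nat_lit 492) (nat_lit 492) (.d (nat_lit 590) (nat_lit 461) (nat_lit 7629) (nat_lit 622) (nat_lit 6638)))))))))))))) (.a (.p (nat_lit 526) (.a (.d (nat_lit 525) (nat_lit 524) (nat_lit 524) (nat_lit 561) (nat_lit 525)) (.a (.p (nat_lit 623) (.a (.d (nat_lit 591) (nat_lit 494) (nat_lit 7662) (nat_lit 655) (nat_lit 6671)) (.a (.p (nat_lit 622) (.a (.d (nat_lit 590) (nat_lit 654) (nat_lit 6670) (nat_lit 655) (nat_lit 4622)) (.a (.p (nat_lit 624) (.a (.d (nat_lit 592) (nat_lit 495) (nat_lit 7663) (nat_lit 655) (nat_lit 5647)) (.a (.d (nat_lit 592) (nat_lit 495) (nat_lit 7663) (nat_lit 656) (nat_lit 7695)) (.p (nat_lit 621) (.a (.p (nat_lit 620) (.a (.d (nat_lit 656) (nat_lit 655) (nat_lit 620) (nat_lit 657) (nat_lit 621)) (.d (nat_lit 652) (nat_lit 651) (nat_lit 1643) (nat_lit 653) (nat_lit 1644)))) (.a (.f (nat_lit 653) (nat_lit 652) (nat_lit 1644) (.f (nat_lit 625) (nat_lit 654) (nat_lit 1645) (.d (nat_lit 657) (nat_lit 656) (nat_lit 621) (nat_lit 658) (nat_lit 622)))) (.a (.f (nat_lit 653) (nat_lit 652) (nat_lit 1644) (.p (nat_lit 620) (.a (.f (nat_lit 556) (nat_lit 557) (nat_lit 2572) (.d (nat_lit 588) (nat_lit 524) (nat_lit 4620) (nat_lit 587) (nat_lit 3659))) (.a (.p (nat_lit 619) (.a (.d (nat_lit 587) (nat_lit 586) (nat_lit 3658) (nat_lit 588) (nat_lit 3659)) (.d (nat_lit 654) (nat_lit 625) (nat_lit 1645) (nat_lit 655) (nat_lit 619)))) (.f (nat_lit 654) (nat_lit 625) (nat_lit 1645) (.d (nat_lit 619) (nat_lit 618) (nat_lit 618) (nat_lit 655) (nat_lit 619))))))) (.a (.f (nat_lit 656) (nat_lit 657) (nat_lit 621) (.f (nat_lit 620) (nat_lit 655) (nat_lit 620) (.p (nat_lit 619) (.a (.d (nat_lit 651) (nat_lit 650) (nat_lit 1642) (nat_lit 652) (nat_lit 1643)) (.d (nat_lit 587) (nat_lit 586) (nat_lit 3658) (nat_lit 588) (nat_lit 3659)))))) (.p (nat_lit 625) (.a (.d (nat_lit 657) (nat_lit 656) (nat_lit 621) (nat_lit 658) (nat_lit 622)) (.a (.p (nat_lit 655) (.a (.d (nat_lit 656) (nat_lit 620) (nat_lit 620) (nat_lit 657) (nat_lit 621)) (.d (nat_lit 654) (nat_lit 626) (nat_lit 1646) (nat_lit 653) (nat_lit 1645)))) (.a (.f (nat_lit 654) (nat_lit 653) (nat_lit 1645) (.f (nat_lit 626) (nat_lit 655) (nat_lit 1646) (.d (nat_lit 658) (nat_lit 657) (nat_lit 622) (nat_lit 659) (nat_lit 623)))) (.f (nat_lit 654) (nat_lit 653) (nat_lit 1645) (.f (nat_lit 626) (nat_lit 655) (nat_lit 1646) (.f (nat_lit 659) (nat_lit 658) (nat_lit 623) (.f (nat_lit 595) (nat_lit 594) (nat_lit 2639) (.d (nat_lit 627) (nat_lit 596) (nat_lit 2640) (nat_lit 660) (nat_lit 624)))))))))))))))))) (.a (.d (nat_lit 590) (nat_lit 495) (nat_lit 6638) (nat_lit 654) (nat_lit 6670)) (.d (nat_lit 590) (nat_lit 495) (nat_lit 6638) (nat_lit 655) (nat_lit 4622)))))) (.f (nat_lit 591) (nat_lit 494) (nat_lit 7662) (.f (nat_lit 622) (nat_lit 654) (nat_lit 5646) (.f (nat_lit 495) (nat_lit 590) (nat_lit 5614) (.d (nat_lit 463) (nat_lit 431) (nat_lit 4527) (nat_lit 592) (nat_lit 4559)))))))) (.d (nat_lit 561) (nat_lit 525) (nat_lit 3597) (nat_lit 562) (nat_lit 3598))))) (.a (.f (nat_lit 557) (nat_lit 556) (nat_lit 2572) (.f (nat_lit 525) (nat_lit 524) (nat_lit 3596) (.f (nat_lit 526) (nat_lit 561) (nat_lit 525) (.f (nat_lit 493) (nat_lit 492) (nat_lit 3564) (.d (nat_lit 461) (nat_lit 429) (nat_lit 4525) (nat_lit 590) (nat_lit 4557)))))) (.a (.f (nat_lit 557) (nat_lit 556) (nat_lit 2572) (.f (nat_lit 525) (nat_lit 524) (nat_lit 3596) (.f (nat_lit 526) (nat_lit 561) (nat_lit 525) (.f (nat_lit 493) (nat_lit 492) (nat_lit 3564) (.f (nat_lit 461) (nat_lit 429) (nat_lit 4525) (.f (nat_lit 462) (nat_lit 430) (nat_lit 6573) (.f (nat_lit 494) (nat_lit 591) (nat_lit 4558) (.f (nat_lit 460) (nat_lit 428) (nat_lit 7596) (.d (nat_lit 459) (nat_lit 458) (nat_lit 458) (nat_lit 495) (nat_lit 459)))))))))) (.a (.f (nat_lit 557) (nat_lit 556) (nat_lit 2572) (.p (nat_lit 495) (.a (.d (nat_lit 463) (nat_lit 431) (nat_lit 4527) (nat_lit 592) (nat_lit 4559)) (.a (.d (nat_lit 592) (nat_lit 463) (nat_lit 4559) (nat_lit 624) (nat_lit 7663)) (.a (.d (nat_lit 463) (nat_lit 431) (nat_lit 4527) (nat_lit 590) (nat_lit 5582)) (.f (nat_lit 624) (nat_lit 592) (nat_lit 7663) (.f (nat_lit 525) (nat_lit 524) (nat_lit 3596) (.p (nat_lit 591) (.a (.d (nat_lit 623) (nat_lit 655) (nat_lit 6671) (nat_lit 656) (nat_lit 4623)) (.f (nat_lit 590) (nat_lit 622) (nat_lit 5614) (.f (nat_lit 493) (nat_lit 461) (nat_lit 4557) (.d (nat_lit 494) (nat_lit 462) (nat_lit 7630) (nat_lit 492) (nat_lit 492))))))))))))) (.a (.p (nat_lit 495) (.a (.d (nat_lit 463) (nat_lit 431) (nat_lit 4527) (nat_lit 592) (nat_lit 4559)) (.a (.d (nat_lit 592) (nat_lit 463) (nat_lit 4559) (nat_lit 624) (nat_lit 7663)) (.a (.d (nat_lit 463) (nat_lit 431) (nat_lit 4527) (nat_lit 590) (nat_lit 5582)) (.f (nat_lit 624) (nat_lit 592) (nat_lit 7663) (.p (nat_lit 622) (.a (.d (nat_lit 590) (nat_lit 591) (nat_lit 5614) (nat_lit 654) (nat_lit 6670)) (.a (.d (nat_lit 590) (nat_lit 526) (nat_lit 6638) (nat_lit 654) (nat_lit 6670)) (.a (.p (nat_lit 623) (.a (.d (nat_lit 591) (nat_lit 655) (nat_lit 6671) (nat_lit 656) (nat_lit 4623)) (.a (.p (nat_lit 621) (.a (.p (nat_lit 620) (.a (.d (nat_lit 656) (nat_lit 655) (nat_lit 620) (nat_lit 657) (nat_lit 621)) (.d (nat_lit 652) (nat_lit 651) (nat_lit 1643) (nat_lit 653) (nat_lit 1644)))) (.a (.f (nat_lit 653) (nat_lit 652) (nat_lit 1644) (.f (nat_lit 625) (nat_lit 654) (nat_lit 1645) (.d (nat_lit 657) (nat_lit 656) (nat_lit 621) (nat_lit 658) (nat_lit 622)))) (.a (.f (nat_lit 653) (nat_lit 652) (nat_lit 1644) (.p (nat_lit 620) (.a (.f (nat_lit 556) (nat_lit 557) (nat_lit 2572) (.d (nat_lit 588) (nat_lit 524) (nat_lit 4620) (nat_lit 587) (nat_lit 3659))) (.a (.p (nat_lit 619) (.a (.d (nat_lit 587) (nat_lit 586) (nat_lit 3658) (nat_lit 588) (nat_lit 3659)) (.d (nat_lit 654) (nat_lit 625) (nat_lit 1645) (nat_lit 655) (nat_lit 619)))) (.f (nat_lit 654) (nat_lit 625) (nat_lit 1645) (.d (nat_lit 619) (nat_lit 618) (nat_lit 618) (nat_lit 655) (nat_lit 619))))))) (.a (.f (nat_lit 656) (nat_lit 657) (nat_lit 621) (.f (nat_lit 620) (nat_lit 655) (nat_lit 620) (.p (nat_lit 619) (.a (.d (nat_lit 651) (nat_lit 650) (nat_lit 1642) (nat_lit 652) (nat_lit 1643)) (.d (nat_lit 587) (nat_lit 586) (nat_lit 3658) (nat_lit 588) (nat_lit 3659)))))) (.p (nat_lit 625) (.a (.d (nat_lit 657) (nat_lit 656) (nat_lit 621) (nat_lit 658) (nat_lit 622)) (.a (.p (nat_lit 655) (.a (.d (nat_lit 656) (nat_lit 620) (nat_lit 620) (nat_lit 657) (nat_lit 621)) (.d (nat_lit 654) (nat_lit 626) (nat_lit 1646) (nat_lit 653) (nat_lit 1645)))) (.a (.f (nat_lit 654) (nat_lit 653) (nat_lit 1645) (.f (nat_lit 626) (nat_lit 655) (nat_lit 1646) (.d (nat_lit 658) (nat_lit 657) (nat_lit 622) (nat_lit 659) (nat_lit 623)))) (.f (nat_lit 654) (nat_lit 653) (nat_lit 1645) (.f (nat_lit 626) (nat_lit 655) (nat_lit 1646) (.f (nat_lit 659) (nat_lit 658) (nat_lit 623) (.f (nat_lit 595) (nat_lit 594) (nat_lit 2639) (.d (nat_lit 627) (nat_lit 596) (nat_lit 2640) (nat_lit 660) (nat_lit 624))))))))))))))) (.a (.d (nat_lit 591) (nat_lit 654) (nat_lit 5646) (nat_lit 656) (nat_lit 4623)) (.d (nat_lit 591) (nat_lit 654) (nat_lit 5646) (nat_lit 655) (nat_lit 6671)))))) (.d (nat_lit 590) (nat_lit 526) (nat_lit 6638) (nat_lit 591) (nat_lit 5614))))))))))) (.p (nat_lit 495) (.a (.d (nat_lit 463) (nat_lit 431) (nat_lit 4527) (nat_lit 592) (nat_lit 4559)) (.a (.d (nat_lit 592) (nat_lit 463) (nat_lit 4559) (nat_lit 624) (nat_lit 7663)) (.a (.d (nat_lit 463) (nat_lit 431) (nat_lit 4527) (nat_lit 590) (nat_lit 5582)) (.f (nat_lit 592) (nat_lit 624) (nat_lit 7663) (.p (nat_lit 526) (.a (.d (nat_lit 561) (nat_lit 525) (nat_lit 3597) (nat_lit 562) (nat_lit 3598)) (.p (nat_lit 591) (.a (.d (nat_lit 623) (nat_lit 494) (nat_lit 7662) (nat_lit 655) (nat_lit 6671)) (.a (.d (nat_lit 494) (nat_lit 462) (nat_lit 7630) (nat_lit 623) (nat_lit 7662)) (.a (.f (nat_lit 623) (nat_lit 655) (nat_lit 6671) (.d (nat_lit 622) (nat_lit 590) (nat_lit 5614) (nat_lit 654) (nat_lit 5646))) (.f (nat_lit 494) (nat_lit 462) (nat_lit 4558) (.f (nat_lit 493) (nat_lit 492) (nat_lit 492) (.d (nat_lit 590) (nat_lit 461) (nat_lit 7629) (nat_lit 622) (nat_lit 6638)))))))))))))))))))))) (.a (.p (nat_lit 557) (.a (.f (nat_lit 556) (nat_lit 527) (nat_lit 2572) (.d (nat_lit 588) (nat_lit 587) (nat_lit 1579) (nat_lit 589) (nat_lit 1580))) (.a (.f (nat_lit 589) (nat_lit 588) (nat_lit 1580) (.f (nat_lit 525) (nat_lit 524) (nat_lit 3596) (.f (nat_lit 590) (nat_lit 561) (nat_lit 1581) (.d (nat_lit 493) (nat_lit 461) (nat_lit 4557) (nat_lit 622) (nat_lit 4589))))) (.f (nat_lit 556) (nat_lit 527) (nat_lit 2572) (.d (nat_lit 524) (nat_lit 523) (nat_lit 3595) (nat_lit 525) (nat_lit 3596)))))) (.a (.p (nat_lit 561) (.a (.f (nat_lit 526) (nat_lit 525) (nat_lit 3597) (.f (nat_lit 590) (nat_lit 589) (nat_lit 1581) (.d (nat_lit 562) (nat_lit 527) (nat_lit 3598) (nat_lit 591) (nat_lit 1582)))) (.a (.f (nat_lit 526) (nat_lit 525) (nat_lit 3597) (.f (nat_lit 562) (nat_lit 527) (nat_lit 3598) (.f (nat_lit 590) (nat_lit 589) (nat_lit 1581) (.f (nat_lit 595) (nat_lit 594) (nat_lit 559) (.f (nat_lit 563) (nat_lit 596) (nat_lit 560) (.d (nat_lit 531) (nat_lit 530) (nat_lit 2575) (nat_lit 532) (nat_lit 2576))))))) (.a (.f (nat_lit 526) (nat_lit 525) (nat_lit 3597) (.f (nat_lit 562) (nat_lit 527) (nat_lit 3598) (.f (nat_lit 595) (nat_lit 594) (nat_lit 559) (.f (nat_lit 563) (nat_lit 596) (nat_lit 560) (.d (nat_lit 531) (nat_lit 530) (nat_lit 2575) (nat_lit 532) (nat_lit 2576)))))) (.a (.f (nat_lit 590) (nat_lit 589) (nat_lit 1581) (.f (nat_lit 562) (nat_lit 591) (nat_lit 1582) (.f (nat_lit 563) (nat_lit 527) (nat_lit 3599) (.d (nat_lit 595) (nat_lit 594) (nat_lit 559) (nat_lit 596) (nat_lit 560))))) (.a s53671 (.f (nat_lit 590) (nat_lit 589) (nat_lit 1581) (.f (nat_lit 562) (nat_lit 591) (nat_lit 1582) (.f (nat_lit 526) (nat_lit 525) (nat_lit 3597) (.f (nat_lit 595) (nat_lit 594) (nat_lit 559) (.f (nat_lit 563) (nat_lit 596) (nat_lit 560) (.d (nat_lit 531) (nat_lit 530) (nat_lit 2575) (nat_lit 532) (nat_lit 2576))))))))))))) (.a (.p (nat_lit 557) (.a (.f (nat_lit 556) (nat_lit 527) (nat_lit 2572) (.d (nat_lit 588) (nat_lit 587) (nat_lit 1579) (nat_lit 589) (nat_lit 1580))) (.a (.f (nat_lit 589) (nat_lit 588) (nat_lit 1580) (.f (nat_lit 590) (nat_lit 561) (nat_lit 1581) (.p (nat_lit 526) (.a (.d (nat_lit 494) (nat_lit 462) (nat_lit 5581) (nat_lit 621) (nat_lit 5613)) (.a (.d (nat_lit 621) (nat_lit 494) (nat_lit 5613) (nat_lit 653) (nat_lit 6669)) (.a (.f (nat_lit 494) (nat_lit 462) (nat_lit 5581) (.f (nat_lit 623) (nat_lit 591) (nat_lit 4590) (.f (nat_lit 622) (nat_lit 655) (nat_lit 4622) (.d (nat_lit 495) (nat_lit 463) (nat_lit 6606) (nat_lit 527) (nat_lit 6638))))) (.f (nat_lit 621) (nat_lit 653) (nat_lit 6669) (.p (nat_lit 622) (.a (.d (nat_lit 527) (nat_lit 495) (nat_lit 6638) (nat_lit 654) (nat_lit 6670)) (.a (.p (nat_lit 591) (.a (.d (nat_lit 620) (nat_lit 592) (nat_lit 1612) (nat_lit 619) (nat_lit 2635)) (.f (nat_lit 623) (nat_lit 655) (nat_lit 6671) (.f (nat_lit 624) (nat_lit 625) (nat_lit 3661) (.d (nat_lit 527) (nat_lit 495) (nat_lit 5614) (nat_lit 656) (nat_lit 4623)))))) (.f (nat_lit 655) (nat_lit 623) (nat_lit 4622) (.d (nat_lit 654) (nat_lit 686) (nat_lit 7725) (nat_lit 687) (nat_lit 4654))))))))))))) (.a (.f (nat_lit 556) (nat_lit 527) (nat_lit 2572) (.f (nat_lit 591) (nat_lit 592) (nat_lit 556) (.f (nat_lit 623) (nat_lit 655) (nat_lit 6671) (.f (nat_lit 555) (nat_lit 590) (nat_lit 555) (.d (nat_lit 587) (nat_lit 586) (nat_lit 1578) (nat_lit 588) (nat_lit 1579)))))) (.a (.f (nat_lit 556) (nat_lit 527) (nat_lit 2572) (.f (nat_lit 591) (nat_lit 592) (nat_lit 556) (.f (nat_lit 590) (nat_lit 555) (nat_lit 555) (.d (nat_lit 561) (nat_lit 562) (nat_lit 1582) (nat_lit 589) (nat_lit 1581))))) s53878))))) (.a (.p (nat_lit 557) (.a (.f (nat_lit 556) (nat_lit 527) (nat_lit 2572) (.d (nat_lit 588) (nat_lit 587) (nat_lit 1579) (nat_lit 589) (nat_lit 1580))) (.a (.f (nat_lit 525) (nat_lit 524) (nat_lit 3596) (.f (nat_lit 589) (nat_lit 588) (nat_lit 1580) (.p (nat_lit 493) (.a (.d (nat_lit 590) (nat_lit 461) (nat_lit 4557) (nat_lit 622) (nat_lit 4589)) (.a (.f (nat_lit 494) (nat_lit 462) (nat_lit 6605) (.f (nat_lit 526) (nat_lit 621) (nat_lit 6637) (.d (nat_lit 461) (nat_lit 429) (nat_lit 4525) (nat_lit 590) (nat_lit 4557)))) (.f (nat_lit 494) (nat_lit 462) (nat_lit 6605) (.f (nat_lit 526) (nat_lit 621) (nat_lit 6637) (.d (nat_lit 492) (nat_lit 460) (nat_lit 7628) (nat_lit 527) (nat_lit 3564))))))))) (.a (.f (nat_lit 556) (nat_lit 527) (nat_lit 2572) (.d (nat_lit 524) (nat_lit 523) (nat_lit 3595) (nat_lit 525) (nat_lit 3596))) s53895)))) (.p (nat_lit 557) (.a (.f (nat_lit 525) (nat_lit 524) (nat_lit 3596) (.f (nat_lit 589) (nat_lit 588) (nat_lit 1580) (.d (nat_lit 561) (nat_lit 526) (nat_lit 3597) (nat_lit 590) (nat_lit 1581)))) (.a (.f (nat_lit 525) (nat_lit 524) (nat_lit 3596) (.f (nat_lit 589) (nat_lit 588) (nat_lit 1580) (.f (nat_lit 526) (nat_lit 561) (nat_lit 3597) (.d (nat_lit 494) (nat_lit 462) (nat_lit 5581) (nat_lit 621) (nat_lit 6637))))) (.a (.f (nat_lit 525) (nat_lit 524) (nat_lit 3596) (.f (nat_lit 526) (nat_lit 561) (nat_lit 3597) (.p (nat_lit 591) (.a (.f (nat_lit 623) (nat_lit 655) (nat_lit 6671) (.d (nat_lit 494) (nat_lit 462) (nat_lit 4558) (nat_lit 590) (nat_lit 4590))) (.a (.f (nat_lit 623) (nat_lit 655) (nat_lit 6671) (.f (nat_lit 590) (nat_lit 494) (nat_lit 4590) (.d (nat_lit 556) (nat_lit 555) (nat_lit 555) (nat_lit 592) (nat_lit 556)))) (.f (nat_lit 556) (nat_lit 592) (nat_lit 556) (.f (nat_lit 555) (nat_lit 554) (nat_lit 2570) (.d (nat_lit 587) (nat_lit 586) (nat_lit 1578) (nat_lit 588) (nat_lit 1579))))))))) (.a (.f (nat_lit 589) (nat_lit 588) (nat_lit 1580) (.f (nat_lit 525) (nat_lit 524) (nat_lit 3596) (.f (nat_lit 590) (nat_lit 561) (nat_lit 1581) (.d (nat_lit 493) (nat_lit 461) (nat_lit 4557) (nat_lit 622) (nat_lit 4589))))) (.a s53878 (.a (.f (nat_lit 525) (nat_lit 524) (nat_lit 3596) (.f (nat_lit 526) (nat_lit 561) (nat_lit 3597) (.p (nat_lit 494) (.a (.d (nat_lit 462) (nat_lit 589) (nat_lit 5581) (nat_lit 591) (nat_lit 4558)) (.a (.p (nat_lit 590) (.a (.d (nat_lit 493) (nat_lit 461) (nat_lit 7629) (nat_lit 622) (nat_lit 7661)) (.f (nat_lit 589) (nat_lit 621) (nat_lit 5613) (.f (nat_lit 591) (nat_lit 623) (nat_lit 4590) (.d (nat_lit 556) (nat_lit 555) (nat_lit 555) (nat_lit 592) (nat_lit 556)))))) (.a (.d (nat_lit 462) (nat_lit 430) (nat_lit 5549) (nat_lit 589) (nat_lit 5581)) (.d (nat_lit 462) (nat_lit 430) (nat_lit 5549) (nat_lit 591) (nat_lit 4558)))))))) (.a (.f (nat_lit 589) (nat_lit 588) (nat_lit 1580) (.f (nat_lit 590) (nat_lit 561) (nat_lit 1581) (.p (nat_lit 591) (.a (.d (nat_lit 556) (nat_lit 555) (nat_lit 555) (nat_lit 592) (nat_lit 556)) (.a (.f (nat_lit 623) (nat_lit 655) (nat_lit 6671) (.f (nat_lit 526) (nat_lit 494) (nat_lit 4590) (.p (nat_lit 622) (.a (.d (nat_lit 525) (nat_lit 493) (nat_lit 7661) (nat_lit 654) (nat_lit 7693)) (.a (.d (nat_lit 654) (nat_lit 525) (nat_lit 7693) (nat_lit 686) (nat_lit 6702)) (.f (nat_lit 621) (nat_lit 653) (nat_lit 5645) (.d (nat_lit 620) (nat_lit 592) (nat_lit 1612) (nat_lit 619) (nat_lit 2635)))))))) (.f (nat_lit 623) (nat_lit 655) (nat_lit 6671) (.f (nat_lit 526) (nat_lit 494) (nat_lit 4590) (.p (nat_lit 622) (.a (.d (nat_lit 525) (nat_lit 493) (nat_lit 7661) (nat_lit 654) (nat_lit 7693)) (.a (.d (nat_lit 654) (nat_lit 525) (nat_lit 7693) (nat_lit 686) (nat_lit 6702)) (.a (.f (nat_lit 621) (nat_lit 653) (nat_lit 5645) (.f (nat_lit 525) (nat_lit 493) (nat_lit 7661) (.d (nat_lit 620) (nat_lit 619) (nat_lit 2635) (nat_lit 652) (nat_lit 5644)))) (.f (nat_lit 653) (nat_lit 621) (nat_lit 5645) (.d (nat_lit 654) (nat_lit 685) (nat_lit 5677) (nat_lit 686) (nat_lit 6702)))))))))))))) s53895)))))))))))))))))) (.a (.p (nat_lit 591) (.a (.f (nat_lit 623) (nat_lit 655) (nat_lit 6671) (.p (nat_lit 527) (.a (.f (nat_lit 624) (nat_lit 656) (nat_lit 4623) (.f (nat_lit 495) (nat_lit 592) (nat_lit 7663) (.d (nat_lit 622) (nat_lit 590) (nat_lit 5614) (nat_lit 654) (nat_lit 5646)))) (.a (.f (nat_lit 624) (nat_lit 656) (nat_lit 4623) (.f (nat_lit 495) (nat_lit 592) (nat_lit 7663) (.d (nat_lit 494) (nat_lit 462) (nat_lit 7630) (nat_lit 526) (nat_lit 7662)))) (.a (.f (nat_lit 622) (nat_lit 654) (nat_lit 5646) (.f (nat_lit 590) (nat_lit 495) (nat_lit 5614) (.f (nat_lit 589) (nat_lit 588) (nat_lit 2604) (.d (nat_lit 561) (nat_lit 558) (nat_lit 1581) (nat_lit 562) (nat_lit 1582))))) (.f (nat_lit 624) (nat_lit 656) (nat_lit 4623) (.f (nat_lit 622) (nat_lit 654) (nat_lit 5646) (.f (nat_lit 526) (nat_lit 494) (nat_lit 7662) (.f (nat_lit 561) (nat_lit 562) (nat_lit 3598) (.p (nat_lit 590) (.a (.d (nat_lit 589) (nat_lit 558) (nat_lit 1581) (nat_lit 588) (nat_lit 2604)) (.a (.d (nat_lit 589) (nat_lit 588) (nat_lit 2604) (nat_lit 592) (nat_lit 2605)) (.p (nat_lit 621) (.a (.d (nat_lit 592) (nat_lit 593) (nat_lit 1613) (nat_lit 620) (nat_lit 2636)) (.d (nat_lit 653) (nat_lit 558) (nat_lit 5645) (nat_lit 652) (nat_lit 1644)))))))))))))))) (.a (.f (nat_lit 623) (nat_lit 655) (nat_lit 6671) (.p (nat_lit 527) (.a (.f (nat_lit 624) (nat_lit 656) (nat_lit 4623) (.f (nat_lit 495) (nat_lit 592) (nat_lit 7663) (.d (nat_lit 622) (nat_lit 590) (nat_lit 5614) (nat_lit 654) (nat_lit 5646)))) (.a (.f (nat_lit 624) (nat_lit 656) (nat_lit 4623) (.f (nat_lit 592) (nat_lit 495) (nat_lit 7663) (.f (nat_lit 625) (nat_lit 657) (nat_lit 4624) (.d (nat_lit 590) (nat_lit 589) (nat_lit 589) (nat_lit 626) (nat_lit 3662))))) (.a (.f (nat_lit 622) (nat_lit 654) (nat_lit 5646) (.f (nat_lit 590) (nat_lit 495) (nat_lit 5614) (.f (nat_lit 589) (nat_lit 588) (nat_lit 2604) (.d (nat_lit 561) (nat_lit 558) (nat_lit 1581) (nat_lit 562) (nat_lit 1582))))) (.a (.f (nat_lit 624) (nat_lit 656) (nat_lit 4623) (.f (nat_lit 592) (nat_lit 495) (nat_lit 7663) (.f (nat_lit 622) (nat_lit 654) (nat_lit 5646) (.d (nat_lit 593) (nat_lit 594) (nat_lit 1614) (nat_lit 621) (nat_lit 2637))))) (.f (nat_lit 624) (nat_lit 656) (nat_lit 4623) (.f (nat_lit 622) (nat_lit 654) (nat_lit 5646) (.p (nat_lit 590) (.a (.f (nat_lit 589) (nat_lit 588) (nat_lit 2604) (.d (nat_lit 561) (nat_lit 558) (nat_lit 1581) (nat_lit 562) (nat_lit 1582))) (.a (.d (nat_lit 589) (nat_lit 588) (nat_lit 588) (nat_lit 625) (nat_lit 3661)) (.f (nat_lit 625) (nat_lit 626) (nat_lit 3662) (.d (nat_lit 657) (nat_lit 592) (nat_lit 4624) (nat_lit 658) (nat_lit 622)))))))))))))) (.a (.f (nat_lit 623) (nat_lit 655) (nat_lit 6671) (.p (nat_lit 527) (.a (.f (nat_lit 624) (nat_lit 656) (nat_lit 4623) (.f (nat_lit 495) (nat_lit 592) (nat_lit 7663) (.d (nat_lit 494) (nat_lit 462) (nat_lit 7630) (nat_lit 526) (nat_lit 7662)))) (.a (.f (nat_lit 624) (nat_lit 656) (nat_lit 4623) (.f (nat_lit 592) (nat_lit 495) (nat_lit 7663) (.f (nat_lit 625) (nat_lit 657) (nat_lit 4624) (.d (nat_lit 590) (nat_lit 589) (nat_lit 589) (nat_lit 626) (nat_lit 3662))))) (.a (.f (nat_lit 494) (nat_lit 526) (nat_lit 7662) (.f (nat_lit 495) (nat_lit 462) (nat_lit 7630) (.d (nat_lit 463) (nat_lit 431) (nat_lit 4527) (nat_lit 592) (nat_lit 4559)))) (.a (.f (nat_lit 494) (nat_lit 526) (nat_lit 7662) (.f (nat_lit 495) (nat_lit 462) (nat_lit 7630) (.f (nat_lit 624) (nat_lit 656) (nat_lit 4623) (.p (nat_lit 561) (.a (.d (nat_lit 562) (nat_lit 563) (nat_lit 3599) (nat_lit 590) (nat_lit 1582)) (.a (.f (nat_lit 562) (nat_lit 563) (nat_lit 3599) (.p (nat_lit 466) (.a (.f (nat_lit 463) (nat_lit 431) (nat_lit 4527) (.d (nat_lit 464) (nat_lit 432) (nat_lit 6575) (nat_lit 465) (nat_lit 1486))) (.p (nat_lit 593) (.a (.d (nat_lit 594) (nat_lit 558) (nat_lit 558) (nat_lit 595) (nat_lit 559)) (.d (nat_lit 530) (nat_lit 498) (nat_lit 5585) (nat_lit 531) (nat_lit 2575))))))) (.a (.f (nat_lit 590) (nat_lit 562) (nat_lit 1582) (.d (nat_lit 589) (nat_lit 558) (nat_lit 1581) (nat_lit 588) (nat_lit 2604))) (.p (nat_lit 625) (.a (.f (nat_lit 590) (nat_lit 626) (nat_lit 3662) (.d (nat_lit 589) (nat_lit 558) (nat_lit 1581) (nat_lit 588) (nat_lit 2604))) (.a (.f (nat_lit 593) (nat_lit 657) (nat_lit 7696) (.f (nat_lit 594) (nat_lit 558) (nat_lit 558) (.d (nat_lit 595) (nat_lit 596) (nat_lit 1616) (nat_lit 626) (nat_lit 2639)))) (.a (.f (nat_lit 626) (nat_lit 590) (nat_lit 3662) (.f (nat_lit 659) (nat_lit 658) (nat_lit 623) (.f (nat_lit 595) (nat_lit 594) (nat_lit 2639) (.d (nat_lit 627) (nat_lit 596) (nat_lit 2640) (nat_lit 660) (nat_lit 624))))) (.p (nat_lit 558) (.a (.d (nat_lit 593) (nat_lit 594) (nat_lit 558) (nat_lit 657) (nat_lit 7696)) (.d (nat_lit 463) (nat_lit 431) (nat_lit 4527) (nat_lit 590) (nat_lit 5582))))))))))))))) (.f (nat_lit 624) (nat_lit 656) (nat_lit 4623) (.f (nat_lit 526) (nat_lit 494) (nat_lit 7662) (.f (nat_lit 561) (nat_lit 562) (nat_lit 3598) (.p (nat_lit 590) (.a (.d (nat_lit 589) (nat_lit 558) (nat_lit 1581) (nat_lit 588) (nat_lit 2604)) (.a (.d (nat_lit 589) (nat_lit 588) (nat_lit 2604) (nat_lit 592) (nat_lit 2605)) (.p (nat_lit 593) (.a (.f (nat_lit 558) (nat_lit 594) (nat_lit 558) (.d (nat_lit 557) (nat_lit 556) (nat_lit 2572) (nat_lit 592) (nat_lit 557))) (.d (nat_lit 625) (nat_lit 626) (nat_lit 3662) (nat_lit 657) (nat_lit 7696)))))))))))))))) (.a (.f (nat_lit 623) (nat_lit 655) (nat_lit 6671) (.p (nat_lit 527) (.a (.f (nat_lit 622) (nat_lit 654) (nat_lit 5646) (.f (nat_lit 590) (nat_lit 495) (nat_lit 5614) (.f (nat_lit 589) (nat_lit 588) (nat_lit 2604) (.d (nat_lit 561) (nat_lit 558) (nat_lit 1581) (nat_lit 562) (nat_lit 1582))))) (.a (.f (nat_lit 494) (nat_lit 526) (nat_lit 7662) (.f (nat_lit 495) (nat_lit 462) (nat_lit 7630) (.d (nat_lit 463) (nat_lit 431) (nat_lit 4527) (nat_lit 592) (nat_lit 4559)))) (.f (nat_lit 526) (nat_lit 494) (nat_lit 7662) (.f (nat_lit 561) (nat_lit 562) (nat_lit 3598) (.f (nat_lit 622) (nat_lit 654) (nat_lit 5646) (.p (nat_lit 558) (.a (.f (nat_lit 557) (nat_lit 556) (nat_lit 2572) (.d (nat_lit 593) (nat_lit 592) (nat_lit 557) (nat_lit 594) (nat_lit 558))) (.a (.p (nat_lit 592) (.a (.d (nat_lit 593) (nat_lit 557) (nat_lit 557) (nat_lit 594) (nat_lit 558)) (.a (.f (nat_lit 590) (nat_lit 589) (nat_lit 1581) (.d (nat_lit 593) (nat_lit 557) (nat_lit 557) (nat_lit 621) (nat_lit 1613))) (.a (.f (nat_lit 590) (nat_lit 589) (nat_lit 1581) (.d (nat_lit 593) (nat_lit 594) (nat_lit 3630) (nat_lit 621) (nat_lit 1613))) (.f (nat_lit 590) (nat_lit 589) (nat_lit 1581) (.d (nat_lit 621) (nat_lit 620) (nat_lit 2636) (nat_lit 653) (nat_lit 5645))))))) (.a (.f (nat_lit 557) (nat_lit 556) (nat_lit 2572) (.d (nat_lit 589) (nat_lit 588) (nat_lit 1580) (nat_lit 590) (nat_lit 1581))) (.f (nat_lit 590) (nat_lit 589) (nat_lit 1581) (.p (nat_lit 592) (.a (.d (nat_lit 593) (nat_lit 594) (nat_lit 3630) (nat_lit 621) (nat_lit 1613)) (.a (.d (nat_lit 621) (nat_lit 593) (nat_lit 1613) (nat_lit 653) (nat_lit 5645)) (.a (.f (nat_lit 593) (nat_lit 594) (nat_lit 558) (.d (nat_lit 625) (nat_lit 626) (nat_lit 590) (nat_lit 657) (nat_lit 7696))) (.d (nat_lit 621) (nat_lit 620) (nat_lit 2636) (nat_lit 653) (nat_lit 5645)))))))))))))))))) (.a (.f (nat_lit 623) (nat_lit 655) (nat_lit 6671) (.p (nat_lit 624) (.a (.f (nat_lit 527) (nat_lit 656) (nat_lit 4623) (.f (nat_lit 495) (nat_lit 592) (nat_lit 7663) (.d (nat_lit 494) (nat_lit 462) (nat_lit 7630) (nat_lit 526) (nat_lit 7662)))) (.a (.f (nat_lit 527) (nat_lit 656) (nat_lit 4623) (.f (nat_lit 592) (nat_lit 495) (nat_lit 7663) (.f (nat_lit 622) (nat_lit 654) (nat_lit 5646) (.d (nat_lit 593) (nat_lit 594) (nat_lit 1614) (nat_lit 621) (nat_lit 2637))))) (.a s53200 (.a (.p (nat_lit 622) (.a (.f (nat_lit 527) (nat_lit 654) (nat_lit 5646) (.f (nat_lit 592) (nat_lit 495) (nat_lit 7663) (.d (nat_lit 593) (nat_lit 594) (nat_lit 1614) (nat_lit 621) (nat_lit 2637)))) (.a (.f (nat_lit 527) (nat_lit 654) (nat_lit 5646) (.f (nat_lit 592) (nat_lit 495) (nat_lit 7663) (.d (nat_lit 621) (nat_lit 593) (nat_lit 2637) (nat_lit 620) (nat_lit 2636)))) (.a (.f (nat_lit 527) (nat_lit 654) (nat_lit 5646) (.f (nat_lit 592) (nat_lit 495) (nat_lit 7663) (.f (nat_lit 594) (nat_lit 593) (nat_lit 1614) (.p (nat_lit 562) (.a (.d (nat_lit 561) (nat_lit 563) (nat_lit 3599) (nat_lit 595) (nat_lit 559)) (.a (.d (nat_lit 561) (nat_lit 526) (nat_lit 3598) (nat_lit 595) (nat_lit 559)) (.a (.d (nat_lit 561) (nat_lit 526) (nat_lit 3598) (nat_lit 563) (nat_lit 1583)) (.f (nat_lit 625) (nat_lit 657) (nat_lit 4624) (.d (nat_lit 626) (nat_lit 595) (nat_lit 2639) (nat_lit 627) (nat_lit 3663)))))))))) (.a (.p (nat_lit 593) (.a (.d (nat_lit 592) (nat_lit 594) (nat_lit 1614) (nat_lit 621) (nat_lit 2637)) (.a (.f (nat_lit 621) (nat_lit 592) (nat_lit 2637) (.p (nat_lit 620) (.a (.d (nat_lit 652) (nat_lit 651) (nat_lit 1643) (nat_lit 653) (nat_lit 1644)) (.d (nat_lit 588) (nat_lit 587) (nat_lit 3659) (nat_lit 589) (nat_lit 3660))))) (.a (.d (nat_lit 594) (nat_lit 592) (nat_lit 1614) (nat_lit 625) (nat_lit 2638)) (.f (nat_lit 625) (nat_lit 594) (nat_lit 2638) (.d (nat_lit 657) (nat_lit 561) (nat_lit 7696) (nat_lit 658) (nat_lit 622))))))) (.a (.f (nat_lit 654) (nat_lit 527) (nat_lit 5646) (.f (nat_lit 625) (nat_lit 653) (nat_lit 1645) (.f (nat_lit 594) (nat_lit 593) (nat_lit 2638) (.f (nat_lit 626) (nat_lit 595) (nat_lit 2639) (.d (nat_lit 658) (nat_lit 657) (nat_lit 622) (nat_lit 659) (nat_lit 623)))))) (.f (nat_lit 527) (nat_lit 654) (nat_lit 5646) (.f (nat_lit 495) (nat_lit 592) (nat_lit 7663) (.d (nat_lit 494) (nat_lit 462) (nat_lit 7630) (nat_lit 526) (nat_lit 7662)))))))))) s53263)))))) (.a s53275 (.a (.p (nat_lit 590) (.a (.f (nat_lit 589) (nat_lit 588) (nat_lit 2604) (.d (nat_lit 561) (nat_lit 558) (nat_lit 1581) (nat_lit 562) (nat_lit 1582))) (.a (.f (nat_lit 561) (nat_lit 562) (nat_lit 1582) (.d (nat_lit 589) (nat_lit 588) (nat_lit 2604) (nat_lit 592) (nat_lit 2605))) (.a (.f (nat_lit 561) (nat_lit 562) (nat_lit 1582) (.p (nat_lit 527) (.a (.f (nat_lit 495) (nat_lit 622) (nat_lit 5614) (.d (nat_lit 463) (nat_lit 431) (nat_lit 4527) (nat_lit 592) (nat_lit 4559))) (.a (.p (nat_lit 495) (.a (.d (nat_lit 463) (nat_lit 431) (nat_lit 4527) (nat_lit 592) (nat_lit 4559)) (.a (.d (nat_lit 592) (nat_lit 463) (nat_lit 4559) (nat_lit 624) (nat_lit 7663)) (.a (.d (nat_lit 463) (nat_lit 431) (nat_lit 4527) (nat_lit 558) (nat_lit 5582)) (.f (nat_lit 592) (nat_lit 624) (nat_lit 7663) (.p (nat_lit 593) (.a (.d (nat_lit 558) (nat_lit 557) (nat_lit 557) (nat_lit 594) (nat_lit 558)) (.d (nat_lit 625) (nat_lit 626) (nat_lit 590) (nat_lit 657) (nat_lit 7696))))))))) (.a (.f (nat_lit 495) (nat_lit 622) (nat_lit 5614) (.d (nat_lit 592) (nat_lit 463) (nat_lit 4559) (nat_lit 624) (nat_lit 7663))) (.a (.f (nat_lit 495) (nat_lit 622) (nat_lit 5614) (.d (nat_lit 463) (nat_lit 431) (nat_lit 4527) (nat_lit 558) (nat_lit 5582))) (.a (.f (nat_lit 622) (nat_lit 495) (nat_lit 5614) (.d (nat_lit 654) (nat_lit 558) (nat_lit 6670) (nat_lit 623) (nat_lit 5646))) (.p (nat_lit 622) (.a (.d (nat_lit 654) (nat_lit 558) (nat_lit 6670) (nat_lit 623) (nat_lit 5646)) (.a (.d (nat_lit 654) (nat_lit 623) (nat_lit 5646) (nat_lit 686) (nat_lit 6702)) (.a (.p (nat_lit 592) (.a (.f (nat_lit 593) (nat_lit 621) (nat_lit 1613) (.d (nat_lit 558) (nat_lit 557) (nat_lit 557) (nat_lit 594) (nat_lit 558))) (.a (.f (nat_lit 593) (nat_lit 621) (nat_lit 1613) (.d (nat_lit 625) (nat_lit 626) (nat_lit 590) (nat_lit 657) (nat_lit 7696))) (.a (.p (nat_lit 593) (.a (.d (nat_lit 558) (nat_lit 557) (nat_lit 557) (nat_lit 594) (nat_lit 558)) (.d (nat_lit 625) (nat_lit 626) (nat_lit 590) (nat_lit 657) (nat_lit 7696)))) (.f (nat_lit 624) (nat_lit 656) (nat_lit 7695) (.p (nat_lit 623) (.a (.f (nat_lit 621) (nat_lit 620) (nat_lit 2636) (.f (nat_lit 526) (nat_lit 494) (nat_lit 7662) (.d (nat_lit 653) (nat_lit 558) (nat_lit 5645) (nat_lit 652) (nat_lit 1644)))) (.d (nat_lit 625) (nat_lit 626) (nat_lit 3662) (nat_lit 657) (nat_lit 4624))))))))) (.d (nat_lit 654) (nat_lit 558) (nat_lit 6670) (nat_lit 686) (nat_lit 6702))))))))))))) (.a (.f (nat_lit 589) (nat_lit 588) (nat_lit 2604) (.d (nat_lit 561) (nat_lit 558) (nat_lit 1581) (nat_lit 592) (nat_lit 2605))) (.f (nat_lit 589) (nat_lit 588) (nat_lit 2604) (.p (nat_lit 592) (.a (.f (nat_lit 557) (nat_lit 556) (nat_lit 3628) (.f (nat_lit 593) (nat_lit 558) (nat_lit 557) (.d (nat_lit 621) (nat_lit 620) (nat_lit 1612) (nat_lit 622) (nat_lit 1613)))) (.f (nat_lit 624) (nat_lit 625) (nat_lit 589) (.d (nat_lit 527) (nat_lit 495) (nat_lit 7663) (nat_lit 656) (nat_lit 7695))))))))))) (.a (.f (nat_lit 623) (nat_lit 655) (nat_lit 6671) (.p (nat_lit 527) (.a (.f (nat_lit 624) (nat_lit 656) (nat_lit 4623) (.f (nat_lit 495) (nat_lit 592) (nat_lit 7663) (.d (nat_lit 622) (nat_lit 590) (nat_lit 5614) (nat_lit 654) (nat_lit 5646)))) (.a (.f (nat_lit 624) (nat_lit 656) (nat_lit 4623) (.f (nat_lit 495) (nat_lit 592) (nat_lit 7663) (.d (nat_lit 494) (nat_lit 462) (nat_lit 7630) (nat_lit 526) (nat_lit 7662)))) (.a (.f (nat_lit 622) (nat_lit 654) (nat_lit 5646) (.f (nat_lit 495) (nat_lit 590) (nat_lit 5614) (.d (nat_lit 463) (nat_lit 431) (nat_lit 4527) (nat_lit 592) (nat_lit 4559)))) (.a (.f (nat_lit 622) (nat_lit 654) (nat_lit 5646) (.f (nat_lit 495) (nat_lit 590) (nat_lit 5614) (.d (nat_lit 494) (nat_lit 462) (nat_lit 7630) (nat_lit 526) (nat_lit 7662)))) (.f (nat_lit 624) (nat_lit 656) (nat_lit 4623) (.f (nat_lit 622) (nat_lit 654) (nat_lit 5646) (.p (nat_lit 592) (.a (.d (nat_lit 593) (nat_lit 594) (nat_lit 1614) (nat_lit 621) (nat_lit 2637)) (.a (.d (nat_lit 621) (nat_lit 593) (nat_lit 2637) (nat_lit 620) (nat_lit 2636)) (.a (.f (nat_lit 593) (nat_lit 594) (nat_lit 1614) (.p (nat_lit 561) (.a (.d (nat_lit 562) (nat_lit 563) (nat_lit 3599) (nat_lit 590) (nat_lit 1582)) (.a (.d (nat_lit 562) (nat_lit 526) (nat_lit 3598) (nat_lit 563) (nat_lit 1583)) (.a (.d (nat_lit 562) (nat_lit 526) (nat_lit 3598) (nat_lit 590) (nat_lit 1582)) (.f (nat_lit 625) (nat_lit 657) (nat_lit 4624) (.d (nat_lit 626) (nat_lit 590) (nat_lit 3662) (nat_lit 627) (nat_lit 3663)))))))) (.f (nat_lit 625) (nat_lit 657) (nat_lit 4624) (.d (nat_lit 626) (nat_lit 590) (nat_lit 3662) (nat_lit 627) (nat_lit 3663))))))))))))))) (.a (.f (nat_lit 623) (nat_lit 655) (nat_lit 6671) (.p (nat_lit 590) (.a (.f (nat_lit 589) (nat_lit 588) (nat_lit 2604) (.d (nat_lit 561) (nat_lit 558) (nat_lit 1581) (nat_lit 562) (nat_lit 1582))) (.a s53349 (.a (.p (nat_lit 527) (.a (.d (nat_lit 622) (nat_lit 495) (nat_lit 5614) (nat_lit 654) (nat_lit 5646)) (.a (.f (nat_lit 561) (nat_lit 562) (nat_lit 1582) (.f (nat_lit 494) (nat_lit 526) (nat_lit 7662) (.f (nat_lit 495) (nat_lit 462) (nat_lit 7630) (.d (nat_lit 463) (nat_lit 431) (nat_lit 4527) (nat_lit 558) (nat_lit 5582))))) (.f (nat_lit 622) (nat_lit 654) (nat_lit 5646) (.f (nat_lit 561) (nat_lit 562) (nat_lit 1582) (.f (nat_lit 624) (nat_lit 656) (nat_lit 4623) (.f (nat_lit 625) (nat_lit 626) (nat_lit 3662) (.d (nat_lit 657) (nat_lit 593) (nat_lit 7696) (nat_lit 658) (nat_lit 622))))))))) (.a (.f (nat_lit 589) (nat_lit 588) (nat_lit 2604) (.f (nat_lit 558) (nat_lit 561) (nat_lit 1581) (.f (nat_lit 526) (nat_lit 494) (nat_lit 4590) (.p (nat_lit 622) (.a (.d (nat_lit 527) (nat_lit 495) (nat_lit 5614) (nat_lit 654) (nat_lit 5646)) (.a (.f (nat_lit 624) (nat_lit 625) (nat_lit 3661) (.d (nat_lit 527) (nat_lit 495) (nat_lit 5614) (nat_lit 656) (nat_lit 4623))) (.f (nat_lit 653) (nat_lit 621) (nat_lit 5645) (.d (nat_lit 654) (nat_lit 685) (nat_lit 5677) (nat_lit 686) (nat_lit 6702))))))))) (.f (nat_lit 589) (nat_lit 588) (nat_lit 2604) (.p (nat_lit 527) (.a (.d (nat_lit 622) (nat_lit 495) (nat_lit 5614) (nat_lit 654) (nat_lit 5646)) (.a (.f (nat_lit 494) (nat_lit 526) (nat_lit 7662) (.f (nat_lit 495) (nat_lit 462) (nat_lit 7630) (.d (nat_lit 463) (nat_lit 431) (nat_lit 4527) (nat_lit 558) (nat_lit 5582)))) (.f (nat_lit 622) (nat_lit 654) (nat_lit 5646) (.d (nat_lit 624) (nat_lit 625) (nat_lit 3661) (nat_lit 656) (nat_lit 4623))))))))))))) (.a (.f (nat_lit 623) (nat_lit 655) (nat_lit 6671) (.p (nat_lit 527) (.a (.f (nat_lit 624) (nat_lit 656) (nat_lit 4623) (.f (nat_lit 495) (nat_lit 592) (nat_lit 7663) (.d (nat_lit 622) (nat_lit 590) (nat_lit 5614) (nat_lit 654) (nat_lit 5646)))) (.a (.f (nat_lit 624) (nat_lit 656) (nat_lit 4623) (.f (nat_lit 495) (nat_lit 592) (nat_lit 7663) (.d (nat_lit 494) (nat_lit 462) (nat_lit 7630) (nat_lit 526) (nat_lit 7662)))) (.a (.f (nat_lit 622) (nat_lit 654) (nat_lit 5646) (.f (nat_lit 495) (nat_lit 590) (nat_lit 5614) (.d (nat_lit 463) (nat_lit 431) (nat_lit 4527) (nat_lit 592) (nat_lit 4559)))) (.a (.f (nat_lit 622) (nat_lit 654) (nat_lit 5646) (.f (nat_lit 590) (nat_lit 495) (nat_lit 5614) (.f (nat_lit 589) (nat_lit 588) (nat_lit 2604) (.d (nat_lit 561) (nat_lit 558) (nat_lit 1581) (nat_lit 562) (nat_lit 1582))))) (.f (nat_lit 624) (nat_lit 656) (nat_lit 4623) (.f (nat_lit 622) (nat_lit 654) (nat_lit 5646) (.p (nat_lit 590) (.a (.f (nat_lit 589) (nat_lit 588) (nat_lit 2604) (.d (nat_lit 561) (nat_lit 558) (nat_lit 1581) (nat_lit 562) (nat_lit 1582))) (.a (.d (nat_lit 589) (nat_lit 588) (nat_lit 588) (nat_lit 625) (nat_lit 3661)) (.f (nat_lit 625) (nat_lit 626) (nat_lit 3662) (.d (nat_lit 657) (nat_lit 592) (nat_lit 4624) (nat_lit 658) (nat_lit 622)))))))))))))) (.a (.f (nat_lit 623) (nat_lit 655) (nat_lit 6671) s54077) (.a (.p (nat_lit 561) (.a (.f (nat_lit 562) (nat_lit 590) (nat_lit 1582) (.d (nat_lit 563) (nat_lit 527) (nat_lit 3599) (nat_lit 592) (nat_lit 1583))) (.a (.p (nat_lit 562) (.a (.d (nat_lit 563) (nat_lit 527) (nat_lit 3599) (nat_lit 592) (nat_lit 1583)) (.f (nat_lit 594) (nat_lit 595) (nat_lit 559) (.f (nat_lit 593) (nat_lit 558) (nat_lit 558) (.f (nat_lit 530) (nat_lit 531) (nat_lit 2575) (.d (nat_lit 498) (nat_lit 466) (nat_lit 5585) (nat_lit 625) (nat_lit 5617))))))) (.a (.f (nat_lit 590) (nat_lit 562) (nat_lit 1582) (.d (nat_lit 589) (nat_lit 558) (nat_lit 1581) (nat_lit 588) (nat_lit 2604))) (.p (nat_lit 558) (.a (.f (nat_lit 590) (nat_lit 589) (nat_lit 1581) (.f (nat_lit 593) (nat_lit 594) (nat_lit 558) (.f (nat_lit 557) (nat_lit 592) (nat_lit 557) (.d (nat_lit 556) (nat_lit 527) (nat_lit 2572) (nat_lit 555) (nat_lit 555))))) (.a (.f (nat_lit 593) (nat_lit 594) (nat_lit 558) (.f (nat_lit 590) (nat_lit 589) (nat_lit 1581) (.f (nat_lit 592) (nat_lit 557) (nat_lit 557) (.d (nat_lit 625) (nat_lit 626) (nat_lit 590) (nat_lit 657) (nat_lit 7696))))) (.a (.f (nat_lit 589) (nat_lit 590) (nat_lit 1581) (.f (nat_lit 557) (nat_lit 588) (nat_lit 1580) (.d (nat_lit 556) (nat_lit 527) (nat_lit 2572) (nat_lit 592) (nat_lit 556)))) (.a (.f (nat_lit 593) (nat_lit 594) (nat_lit 558) (.f (nat_lit 557) (nat_lit 592) (nat_lit 557) (.f (nat_lit 556) (nat_lit 527) (nat_lit 2572) (.d (nat_lit 588) (nat_lit 587) (nat_lit 1579) (nat_lit 589) (nat_lit 1580))))) (.a (.f (nat_lit 593) (nat_lit 594) (nat_lit 558) (.f (nat_lit 592) (nat_lit 557) (nat_lit 557) (.f (nat_lit 625) (nat_lit 657) (nat_lit 7696) (.p (nat_lit 624) (.a (.d (nat_lit 527) (nat_lit 495) (nat_lit 7663) (nat_lit 656) (nat_lit 7695)) (.d (nat_lit 626) (nat_lit 590) (nat_lit 590) (nat_lit 627) (nat_lit 3663))))))) (.a (.f (nat_lit 593) (nat_lit 594) (nat_lit 558) (.p (nat_lit 557) (.a (.d (nat_lit 589) (nat_lit 588) (nat_lit 1580) (nat_lit 590) (nat_lit 1581)) (.a (.f (nat_lit 556) (nat_lit 527) (nat_lit 2572) (.d (nat_lit 588) (nat_lit 587) (nat_lit 1579) (nat_lit 589) (nat_lit 1580))) (.a (.f (nat_lit 556) (nat_lit 527) (nat_lit 2572) (.f (nat_lit 555) (nat_lit 590) (nat_lit 555) (.d (nat_lit 587) (nat_lit 586) (nat_lit 1578) (nat_lit 588) (nat_lit 1579)))) (.f (nat_lit 556) (nat_lit 527) (nat_lit 2572) (.d (nat_lit 590) (nat_lit 555) (nat_lit 555) (nat_lit 589) (nat_lit 1581)))))))) (.f (nat_lit 590) (nat_lit 589) (nat_lit 1581) (.f (nat_lit 593) (nat_lit 594) (nat_lit 558) (.f (nat_lit 625) (nat_lit 657) (nat_lit 7696) (.f (nat_lit 592) (nat_lit 626) (nat_lit 590) (.p (nat_lit 527) (.a (.d (nat_lit 495) (nat_lit 463) (nat_lit 4559) (nat_lit 624) (nat_lit 7663)) (.a (.d (nat_lit 495) (nat_lit 463) (nat_lit 5582) (nat_lit 622) (nat_lit 5614)) (.a (.d (nat_lit 624) (nat_lit 495) (nat_lit 7663) (nat_lit 656) (nat_lit 7695)) (.d (nat_lit 622) (nat_lit 621) (nat_lit 1613) (nat_lit 654) (nat_lit 6670))))))))))))))))))))) (.a (.f (nat_lit 623) (nat_lit 655) (nat_lit 6671) (.p (nat_lit 590) (.a (.f (nat_lit 589) (nat_lit 588) (nat_lit 2604) (.d (nat_lit 561) (nat_lit 558) (nat_lit 1581) (nat_lit 562) (nat_lit 1582))) (.a (.f (nat_lit 561) (nat_lit 562) (nat_lit 1582) (.d (nat_lit 589) (nat_lit 588) (nat_lit 2604) (nat_lit 592) (nat_lit 2605))) (.a (.f (nat_lit 561) (nat_lit 562) (nat_lit 1582) (.p (nat_lit 593) (.a (.f (nat_lit 558) (nat_lit 594) (nat_lit 558) (.f (nat_lit 557) (nat_lit 592) (nat_lit 557) (.d (nat_lit 556) (nat_lit 527) (nat_lit 2572) (nat_lit 555) (nat_lit 555)))) (.a (.p (nat_lit 592) (.a (.d (nat_lit 558) (nat_lit 557) (nat_lit 557) (nat_lit 594) (nat_lit 558)) (.d (nat_lit 625) (nat_lit 626) (nat_lit 590) (nat_lit 657) (nat_lit 7696)))) (.a (.f (nat_lit 625) (nat_lit 657) (nat_lit 7696) (.d (nat_lit 626) (nat_lit 592) (nat_lit 590) (nat_lit 624) (nat_lit 3662))) (.f (nat_lit 625) (nat_lit 657) (nat_lit 7696) (.f (nat_lit 624) (nat_lit 626) (nat_lit 3662) (.d (nat_lit 594) (nat_lit 558) (nat_lit 558) (nat_lit 622) (nat_lit 2638))))))))) (.a (.f (nat_lit 589) (nat_lit 588) (nat_lit 2604) (.d (nat_lit 561) (nat_lit 558) (nat_lit 1581) (nat_lit 592) (nat_lit 2605))) (.f (nat_lit 589) (nat_lit 588) (nat_lit 2604) (.p (nat_lit 592) (.a (.f (nat_lit 557) (nat_lit 556) (nat_lit 3628) (.f (nat_lit 593) (nat_lit 558) (nat_lit 557) (.d (nat_lit 621) (nat_lit 620) (nat_lit 1612) (nat_lit 622) (nat_lit 1613)))) (.f (nat_lit 624) (nat_lit 625) (nat_lit 589) (.d (nat_lit 656) (nat_lit 527) (nat_lit 4623) (nat_lit 688) (nat_lit 7727)))))))))))) (.p (nat_lit 590) (.a (.f (nat_lit 589) (nat_lit 588) (nat_lit 2604) (.d (nat_lit 561) (nat_lit 558) (nat_lit 1581) (nat_lit 562) (nat_lit 1582))) (.a (.f (nat_lit 561) (nat_lit 562) (nat_lit 1582) (.d (nat_lit 589) (nat_lit 588) (nat_lit 2604) (nat_lit 592) (nat_lit 2605))) (.a (.f (nat_lit 623) (nat_lit 655) (nat_lit 6671) (.f (nat_lit 561) (nat_lit 562) (nat_lit 1582) (.p (nat_lit 593) (.a (.f (nat_lit 594) (nat_lit 558) (nat_lit 558) (.d (nat_lit 595) (nat_lit 592) (nat_lit 3631) (nat_lit 596) (nat_lit 3632))) (.a (.f (nat_lit 625) (nat_lit 657) (nat_lit 7696) (.d (nat_lit 626) (nat_lit 592) (nat_lit 590) (nat_lit 624) (nat_lit 3662))) (.f (nat_lit 625) (nat_lit 657) (nat_lit 7696) (.f (nat_lit 624) (nat_lit 626) (nat_lit 3662) (.d (nat_lit 594) (nat_lit 558) (nat_lit 558) (nat_lit 622) (nat_lit 2638))))))))) (.a (.f (nat_lit 589) (nat_lit 588) (nat_lit 2604) (.d (nat_lit 561) (nat_lit 558) (nat_lit 1581) (nat_lit 592) (nat_lit 2605))) (.f (nat_lit 623) (nat_lit 655) (nat_lit 6671) (.f (nat_lit 589) (nat_lit 588) (nat_lit 2604) (.p (nat_lit 592) (.a (.f (nat_lit 557) (nat_lit 556) (nat_lit 3628) (.f (nat_lit 593) (nat_lit 558) (nat_lit 557) (.d (nat_lit 621) (nat_lit 620) (nat_lit 1612) (nat_lit 622) (nat_lit 1613)))) (.a (.f (nat_lit 624) (nat_lit 625) (nat_lit 589) (.f (nat_lit 557) (nat_lit 556) (nat_lit 3628) (.f (nat_lit 558) (nat_lit 593) (nat_lit 557) (.f (nat_lit 621) (nat_lit 620) (nat_lit 1612) (.d (nat_lit 526) (nat_lit 494) (nat_lit 5613) (nat_lit 653) (nat_lit 6669)))))) (.a (.f (nat_lit 624) (nat_lit 625) (nat_lit 589) (.f (nat_lit 621) (nat_lit 620) (nat_lit 1612) (.f (nat_lit 593) (nat_lit 622) (nat_lit 1613) (.d (nat_lit 558) (nat_lit 557) (nat_lit 557) (nat_lit 594) (nat_lit 3630))))) (.a (.f (nat_lit 624) (nat_lit 625) (nat_lit 589) (.f (nat_lit 621) (nat_lit 620) (nat_lit 1612) (.f (nat_lit 622) (nat_lit 593) (nat_lit 1613) (.d (nat_lit 656) (nat_lit 657) (nat_lit 621) (nat_lit 688) (nat_lit 7727))))) (.a (.f (nat_lit 624) (nat_lit 625) (nat_lit 589) (.f (nat_lit 557) (nat_lit 556) (nat_lit 3628) (.f (nat_lit 593) (nat_lit 558) (nat_lit 557) (.d (nat_lit 594) (nat_lit 595) (nat_lit 3631) (nat_lit 622) (nat_lit 1614))))) (.f (nat_lit 624) (nat_lit 625) (nat_lit 589) (.f (nat_lit 621) (nat_lit 620) (nat_lit 1612) (.p (nat_lit 653) (.a (.f (nat_lit 558) (nat_lit 685) (nat_lit 6701) (.d (nat_lit 526) (nat_lit 494) (nat_lit 5613) (nat_lit 622) (nat_lit 5645))) (.a (.f (nat_lit 558) (nat_lit 685) (nat_lit 6701) (.d (nat_lit 526) (nat_lit 494) (nat_lit 5613) (nat_lit 557) (nat_lit 6669))) (.f (nat_lit 622) (nat_lit 652) (nat_lit 1644) (.d (nat_lit 656) (nat_lit 657) (nat_lit 621) (nat_lit 688) (nat_lit 7727))))))))))))))))))))))))))))))))))) (.a (.p (nat_lit 527) (.a (.p (nat_lit 495) (.a (.d (nat_lit 463) (nat_lit 431) (nat_lit 4527) (nat_lit 592) (nat_lit 4559)) (.a (.d (nat_lit 592) (nat_lit 463) (nat_lit 4559) (nat_lit 624) (nat_lit 7663)) (.a (.f (nat_lit 463) (nat_lit 431) (nat_lit 4527) (.f (nat_lit 558) (nat_lit 590) (nat_lit 5582) (.f (nat_lit 462) (nat_lit 430) (nat_lit 7598) (.f (nat_lit 494) (nat_lit 591) (nat_lit 7630) (.f (nat_lit 493) (nat_lit 492) (nat_lit 492) (.d (nat_lit 464) (nat_lit 432) (nat_lit 6575) (nat_lit 465) (nat_lit 1485))))))) (.f (nat_lit 592) (nat_lit 624) (nat_lit 7663) (.p (nat_lit 591) (.a (.f (nat_lit 623) (nat_lit 655) (nat_lit 6671) (.d (nat_lit 622) (nat_lit 590) (nat_lit 5614) (nat_lit 654) (nat_lit 5646))) (.a (.p (nat_lit 561) (.a (.d (nat_lit 562) (nat_lit 563) (nat_lit 3599) (nat_lit 590) (nat_lit 1582)) (.a (.d (nat_lit 526) (nat_lit 525) (nat_lit 525) (nat_lit 562) (nat_lit 3598)) (.f (nat_lit 526) (nat_lit 525) (nat_lit 525) (.d (nat_lit 494) (nat_lit 462) (nat_lit 7630) (nat_lit 623) (nat_lit 7662)))))) (.a (.f (nat_lit 623) (nat_lit 655) (nat_lit 6671) (.d (nat_lit 494) (nat_lit 462) (nat_lit 7630) (nat_lit 526) (nat_lit 7662))) (.f (nat_lit 590) (nat_lit 622) (nat_lit 5614) (.d (nat_lit 561) (nat_lit 562) (nat_lit 1582) (nat_lit 589) (nat_lit 2605)))))))))))) (.a s49963 (.a (.p (nat_lit 561) (.a (.d (nat_lit 526) (nat_lit 525) (nat_lit 525) (nat_lit 562) (nat_lit 3598)) (.a (.f (nat_lit 562) (nat_lit 563) (nat_lit 3599) (.f (nat_lit 591) (nat_lit 590) (nat_lit 1582) (.f (nat_lit 594) (nat_lit 595) (nat_lit 559) (.f (nat_lit 593) (nat_lit 558) (nat_lit 558) (.f (nat_lit 530) (nat_lit 531) (nat_lit 2575) (.d (nat_lit 498) (nat_lit 466) (nat_lit 5585) (nat_lit 625) (nat_lit 5617))))))) (.f (nat_lit 526) (nat_lit 525) (nat_lit 525) (.p (nat_lit 558) (.a (.f (nat_lit 557) (nat_lit 556) (nat_lit 2572) (.d (nat_lit 593) (nat_lit 592) (nat_lit 557) (nat_lit 594) (nat_lit 558))) (.a (.f (nat_lit 593) (nat_lit 594) (nat_lit 558) (.f (nat_lit 592) (nat_lit 557) (nat_lit 557) (.d (nat_lit 495) (nat_lit 463) (nat_lit 4559) (nat_lit 624) (nat_lit 7663)))) (.a (.f (nat_lit 557) (nat_lit 556) (nat_lit 2572) (.f (nat_lit 592) (nat_lit 593) (nat_lit 557) (.d (nat_lit 495) (nat_lit 463) (nat_lit 4559) (nat_lit 624) (nat_lit 7663)))) (.f (nat_lit 590) (nat_lit 589) (nat_lit 1581) (.f (nat_lit 495) (nat_lit 463) (nat_lit 5582) (.p (nat_lit 494) (.a (.d (nat_lit 493) (nat_lit 461) (nat_lit 7629) (nat_lit 492) (nat_lit 492)) (.d (nat_lit 462) (nat_lit 430) (nat_lit 4526) (nat_lit 591) (nat_lit 4558)))))))))))))) (.a s50891 (.a (.p (nat_lit 561) (.a (.d (nat_lit 526) (nat_lit 525) (nat_lit 525) (nat_lit 562) (nat_lit 3598)) (.a (.f (nat_lit 562) (nat_lit 563) (nat_lit 3599) (.f (nat_lit 594) (nat_lit 595) (nat_lit 559) (.f (nat_lit 558) (nat_lit 593) (nat_lit 558) (.f (nat_lit 557) (nat_lit 556) (nat_lit 2572) (.f (nat_lit 525) (nat_lit 524) (nat_lit 3596) (.p (nat_lit 493) (.a (.d (nat_lit 590) (nat_lit 461) (nat_lit 4557) (nat_lit 589) (nat_lit 1581)) (.a (.p (nat_lit 492) (.a (.f (nat_lit 460) (nat_lit 589) (nat_lit 7628) (.d (nat_lit 428) (nat_lit 396) (nat_lit 4492) (nat_lit 461) (nat_lit 7596))) (.a (.f (nat_lit 494) (nat_lit 495) (nat_lit 492) (.d (nat_lit 589) (nat_lit 460) (nat_lit 7628) (nat_lit 462) (nat_lit 6605))) (.f (nat_lit 495) (nat_lit 494) (nat_lit 492) (.d (nat_lit 463) (nat_lit 431) (nat_lit 4527) (nat_lit 592) (nat_lit 4559)))))) (.a (.p (nat_lit 495) (.a (.d (nat_lit 463) (nat_lit 431) (nat_lit 4527) (nat_lit 592) (nat_lit 4559)) (.a (.d (nat_lit 592) (nat_lit 463) (nat_lit 4559) (nat_lit 624) (nat_lit 7663)) (.a (.d (nat_lit 463) (nat_lit 431) (nat_lit 4527) (nat_lit 590) (nat_lit 5582)) (.f (nat_lit 492) (nat_lit 494) (nat_lit 492) (.d (nat_lit 589) (nat_lit 460) (nat_lit 7628) (nat_lit 590) (nat_lit 1581))))))) (.f (nat_lit 461) (nat_lit 590) (nat_lit 4557) (.f (nat_lit 428) (nat_lit 460) (nat_lit 7596) (.f (nat_lit 429) (nat_lit 396) (nat_lit 7564) (.d (nat_lit 430) (nat_lit 398) (nat_lit 6541) (nat_lit 462) (nat_lit 6573)))))))))))))) (.a (.d (nat_lit 562) (nat_lit 526) (nat_lit 3598) (nat_lit 563) (nat_lit 3599)) (.f (nat_lit 526) (nat_lit 525) (nat_lit 525) (.p (nat_lit 558) (.a (.f (nat_lit 557) (nat_lit 556) (nat_lit 2572) (.d (nat_lit 593) (nat_lit 592) (nat_lit 557) (nat_lit 594) (nat_lit 558))) (.f (nat_lit 590) (nat_lit 589) (nat_lit 1581) (.d (nat_lit 495) (nat_lit 463) (nat_lit 5582) (nat_lit 622) (nat_lit 6638)))))))))) (.a (.p (nat_lit 526) (.a (.d (nat_lit 525) (nat_lit 524) (nat_lit 524) (nat_lit 561) (nat_lit 525)) (.a s52477 (.f (nat_lit 525) (nat_lit 524) (nat_lit 524) (.f (nat_lit 557) (nat_lit 556) (nat_lit 1548) (.f (nat_lit 493) (nat_lit 492) (nat_lit 3564) (.p (nat_lit 462) (.a (.d (nat_lit 430) (nat_lit 461) (nat_lit 6573) (nat_lit 494) (nat_lit 5549)) (.a (.d (nat_lit 494) (nat_lit 430) (nat_lit 5549) (nat_lit 589) (nat_lit 6605)) (.a (.f (nat_lit 461) (nat_lit 430) (nat_lit 6573) (.p (nat_lit 592) (.a (.d (nat_lit 495) (nat_lit 463) (nat_lit 4559) (nat_lit 624) (nat_lit 7663)) (.d (nat_lit 558) (nat_lit 429) (nat_lit 4525) (nat_lit 593) (nat_lit 557))))) (.f (nat_lit 494) (nat_lit 589) (nat_lit 6605) (.d (nat_lit 591) (nat_lit 495) (nat_lit 7630) (nat_lit 558) (nat_lit 4558))))))))))))) (.a s50054 (.a (.p (nat_lit 495) (.a (.d (nat_lit 463) (nat_lit 431) (nat_lit 4527) (nat_lit 592) (nat_lit 4559)) (.a (.d (nat_lit 592) (nat_lit 463) (nat_lit 4559) (nat_lit 624) (nat_lit 7663)) (.a (.f (nat_lit 463) (nat_lit 431) (nat_lit 4527) (.f (nat_lit 558) (nat_lit 590) (nat_lit 5582) (.f (nat_lit 462) (nat_lit 430) (nat_lit 7598) (.f (nat_lit 494) (nat_lit 591) (nat_lit 7630) (.f (nat_lit 464) (nat_lit 432) (nat_lit 6575) (.d (nat_lit 465) (nat_lit 466) (nat_lit 1486) (nat_lit 493) (nat_lit 1485))))))) (.f (nat_lit 592) (nat_lit 624) (nat_lit 7663) (.p (nat_lit 591) (.a (.f (nat_lit 623) (nat_lit 655) (nat_lit 6671) (.d (nat_lit 622) (nat_lit 590) (nat_lit 5614) (nat_lit 654) (nat_lit 5646))) (.a (.f (nat_lit 623) (nat_lit 655) (nat_lit 6671) (.d (nat_lit 494) (nat_lit 462) (nat_lit 7630) (nat_lit 526) (nat_lit 7662))) (.a (.f (nat_lit 494) (nat_lit 462) (nat_lit 7630) (.f (nat_lit 526) (nat_lit 623) (nat_lit 7662) (.d (nat_lit 525) (nat_lit 524) (nat_lit 524) (nat_lit 561) (nat_lit 525)))) (.f (nat_lit 590) (nat_lit 622) (nat_lit 5614) (.f (nat_lit 561) (nat_lit 562) (nat_lit 1582) (.p (nat_lit 593) (.a (.d (nat_lit 558) (nat_lit 557) (nat_lit 557) (nat_lit 594) (nat_lit 558)) (.d (nat_lit 625) (nat_lit 626) (nat_lit 590) (nat_lit 657) (nat_lit 7696))))))))))))))) (.a (.p (nat_lit 495) (.a (.d (nat_lit 463) (nat_lit 431) (nat_lit 4527) (nat_lit 592) (nat_lit 4559)) (.a (.d (nat_lit 592) (nat_lit 463) (nat_lit 4559) (nat_lit 624) (nat_lit 7663)) (.a (.f (nat_lit 463) (nat_lit 431) (nat_lit 4527) (.f (nat_lit 590) (nat_lit 558) (nat_lit 5582) (.f (nat_lit 591) (nat_lit 622) (nat_lit 5614) (.d (nat_lit 462) (nat_lit 430) (nat_lit 7598) (nat_lit 494) (nat_lit 7630))))) (.f (nat_lit 592) (nat_lit 624) (nat_lit 7663) (.p (nat_lit 558) (.a (.d (nat_lit 557) (nat_lit 556) (nat_lit 2572) (nat_lit 593) (nat_lit 557)) (.a (.f (nat_lit 593) (nat_lit 557) (nat_lit 557) (.d (nat_lit 594) (nat_lit 561) (nat_lit 558) (nat_lit 595) (nat_lit 3631))) (.a (.p (nat_lit 561) (.a (.f (nat_lit 562) (nat_lit 563) (nat_lit 3599) (.d (nat_lit 594) (nat_lit 593) (nat_lit 558) (nat_lit 595) (nat_lit 559))) (.a (.f (nat_lit 590) (nat_lit 589) (nat_lit 1581) (.d (nat_lit 562) (nat_lit 563) (nat_lit 3599) (nat_lit 591) (nat_lit 1582))) (.a (.f (nat_lit 590) (nat_lit 589) (nat_lit 1581) (.d (nat_lit 591) (nat_lit 562) (nat_lit 1582) (nat_lit 622) (nat_lit 5614))) (.f (nat_lit 590) (nat_lit 589) (nat_lit 1581) (.d (nat_lit 622) (nat_lit 591) (nat_lit 5614) (nat_lit 654) (nat_lit 6670))))))) (.f (nat_lit 557) (nat_lit 556) (nat_lit 2572) (.f (nat_lit 525) (nat_lit 524) (nat_lit 3596) (.p (nat_lit 590) (.a (.f (nat_lit 561) (nat_lit 589) (nat_lit 1581) (.d (nat_lit 562) (nat_lit 563) (nat_lit 3599) (nat_lit 591) (nat_lit 1582))) (.a (.f (nat_lit 589) (nat_lit 561) (nat_lit 1581) (.d (nat_lit 493) (nat_lit 461) (nat_lit 4557) (nat_lit 622) (nat_lit 4589))) (.d (nat_lit 622) (nat_lit 591) (nat_lit 5614) (nat_lit 654) (nat_lit 6670)))))))))))))))) (.a (.p (nat_lit 561) (.a (.d (nat_lit 526) (nat_lit 525) (nat_lit 525) (nat_lit 562) (nat_lit 3598)) (.a (.f (nat_lit 562) (nat_lit 563) (nat_lit 3599) (.f (nat_lit 590) (nat_lit 591) (nat_lit 1582) (.f (nat_lit 558) (nat_lit 589) (nat_lit 1581) (.d (nat_lit 594) (nat_lit 593) (nat_lit 558) (nat_lit 595) (nat_lit 559))))) (.f (nat_lit 526) (nat_lit 525) (nat_lit 525) (.p (nat_lit 591) (.a (.d (nat_lit 623) (nat_lit 494) (nat_lit 7662) (nat_lit 655) (nat_lit 6671)) (.a (.f (nat_lit 494) (nat_lit 623) (nat_lit 7662) (.d (nat_lit 462) (nat_lit 430) (nat_lit 4526) (nat_lit 558) (nat_lit 4558))) (.a (.f (nat_lit 623) (nat_lit 655) (nat_lit 6671) (.f (nat_lit 622) (nat_lit 654) (nat_lit 5646) (.f (nat_lit 590) (nat_lit 495) (nat_lit 5614) (.f (nat_lit 624) (nat_lit 656) (nat_lit 4623) (.d (nat_lit 589) (nat_lit 558) (nat_lit 1581) (nat_lit 625) (nat_lit 3661)))))) (.p (nat_lit 495) (.a (.f (nat_lit 463) (nat_lit 431) (nat_lit 4527) (.d (nat_lit 590) (nat_lit 558) (nat_lit 5582) (nat_lit 622) (nat_lit 5614))) (.a (.f (nat_lit 462) (nat_lit 494) (nat_lit 7630) (.d (nat_lit 463) (nat_lit 430) (nat_lit 7598) (nat_lit 431) (nat_lit 4527))) (.a (.f (nat_lit 494) (nat_lit 462) (nat_lit 7630) (.f (nat_lit 590) (nat_lit 622) (nat_lit 5614) (.d (nat_lit 558) (nat_lit 463) (nat_lit 5582) (nat_lit 589) (nat_lit 1581)))) (.f (nat_lit 494) (nat_lit 462) (nat_lit 7630) (.f (nat_lit 590) (nat_lit 622) (nat_lit 5614) (.f (nat_lit 558) (nat_lit 589) (nat_lit 1581) (.d (nat_lit 493) (nat_lit 461) (nat_lit 7629) (nat_lit 492) (nat_lit 492))))))))))))))))) (.a (.p (nat_lit 495) (.a (.d (nat_lit 463) (nat_lit 431) (nat_lit 4527) (nat_lit 592) (nat_lit 4559)) (.a (.d (nat_lit 592) (nat_lit 463) (nat_lit 4559) (nat_lit 624) (nat_lit 7663)) (.a (.f (nat_lit 463) (nat_lit 431) (nat_lit 4527) (.f (nat_lit 590) (nat_lit 558) (nat_lit 5582) (.f (nat_lit 591) (nat_lit 622) (nat_lit 5614) (.d (nat_lit 462) (nat_lit 430) (nat_lit 7598) (nat_lit 494) (nat_lit 7630))))) (.f (nat_lit 592) (nat_lit 624) (nat_lit 7663) (.p (nat_lit 591) (.a (.f (nat_lit 623) (nat_lit 655) (nat_lit 6671) (.d (nat_lit 622) (nat_lit 590) (nat_lit 5614) (nat_lit 654) (nat_lit 5646))) (.a (.f (nat_lit 623) (nat_lit 655) (nat_lit 6671) (.d (nat_lit 494) (nat_lit 462) (nat_lit 7630) (nat_lit 526) (nat_lit 7662))) (.f (nat_lit 590) (nat_lit 622) (nat_lit 5614) (.d (nat_lit 561) (nat_lit 562) (nat_lit 1582) (nat_lit 589) (nat_lit 2605))))))))))) (.a s50125 (.a (.p (nat_lit 495) (.a (.d (nat_lit 463) (nat_lit 431) (nat_lit 4527) (nat_lit 592) (nat_lit 4559)) (.a (.d (nat_lit 592) (nat_lit 463) (nat_lit 4559) (nat_lit 624) (nat_lit 7663)) (.a (.f (nat_lit 463) (nat_lit 431) (nat_lit 4527) (.f (nat_lit 558) (nat_lit 590) (nat_lit 5582) (.f (nat_lit 462) (nat_lit 430) (nat_lit 7598) (.f (nat_lit 494) (nat_lit 591) (nat_lit 7630) (.f (nat_lit 493) (nat_lit 492) (nat_lit 492) (.d (nat_lit 464) (nat_lit 432) (nat_lit 6575) (nat_lit 465) (nat_lit 1485))))))) (.f (nat_lit 592) (nat_lit 624) (nat_lit 7663) (.p (nat_lit 591) (.a (.f (nat_lit 623) (nat_lit 655) (nat_lit 6671) (.d (nat_lit 622) (nat_lit 590) (nat_lit 5614) (nat_lit 654) (nat_lit 5646))) (.a (.f (nat_lit 623) (nat_lit 655) (nat_lit 6671) (.d (nat_lit 494) (nat_lit 462) (nat_lit 7630) (nat_lit 526) (nat_lit 7662))) (.a (.f (nat_lit 590) (nat_lit 622) (nat_lit 5614) (.p (nat_lit 558) (.a (.d (nat_lit 557) (nat_lit 556) (nat_lit 2572) (nat_lit 593) (nat_lit 557)) (.a (.d (nat_lit 593) (nat_lit 557) (nat_lit 557) (nat_lit 594) (nat_lit 3630)) (.f (nat_lit 561) (nat_lit 589) (nat_lit 1581) (.f (nat_lit 494) (nat_lit 462) (nat_lit 7630) (.d (nat_lit 526) (nat_lit 525) (nat_lit 3597) (nat_lit 623) (nat_lit 7662)))))))) (.f (nat_lit 590) (nat_lit 622) (nat_lit 5614) (.p (nat_lit 558) (.a (.d (nat_lit 557) (nat_lit 556) (nat_lit 2572) (nat_lit 593) (nat_lit 557)) (.a (.d (nat_lit 593) (nat_lit 557) (nat_lit 557) (nat_lit 594) (nat_lit 3630)) (.a (.f (nat_lit 561) (nat_lit 589) (nat_lit 1581) (.f (nat_lit 593) (nat_lit 594) (nat_lit 558) (.d (nat_lit 625) (nat_lit 626) (nat_lit 590) (nat_lit 657) (nat_lit 7696)))) (.f (nat_lit 557) (nat_lit 556) (nat_lit 2572) (.p (nat_lit 526) (.a (.d (nat_lit 525) (nat_lit 524) (nat_lit 524) (nat_lit 561) (nat_lit 525)) (.a (.f (nat_lit 494) (nat_lit 462) (nat_lit 4558) (.d (nat_lit 589) (nat_lit 561) (nat_lit 2605) (nat_lit 621) (nat_lit 5613))) (.f (nat_lit 494) (nat_lit 462) (nat_lit 4558) (.d (nat_lit 493) (nat_lit 461) (nat_lit 7629) (nat_lit 492) (nat_lit 492))))))))))))))))))))) (.a (.p (nat_lit 561) (.a (.d (nat_lit 526) (nat_lit 525) (nat_lit 525) (nat_lit 562) (nat_lit 3598)) (.a (.f (nat_lit 562) (nat_lit 563) (nat_lit 3599) (.f (nat_lit 594) (nat_lit 595) (nat_lit 559) (.f (nat_lit 593) (nat_lit 558) (nat_lit 558) (.f (nat_lit 625) (nat_lit 657) (nat_lit 7696) (.d (nat_lit 530) (nat_lit 498) (nat_lit 5617) (nat_lit 531) (nat_lit 2575)))))) (.f (nat_lit 526) (nat_lit 525) (nat_lit 525) (.p (nat_lit 558) (.a (.f (nat_lit 557) (nat_lit 556) (nat_lit 2572) (.d (nat_lit 593) (nat_lit 592) (nat_lit 557) (nat_lit 594) (nat_lit 558))) (.a (.f (nat_lit 590) (nat_lit 589) (nat_lit 1581) (.f (nat_lit 593) (nat_lit 594) (nat_lit 558) (.p (nat_lit 591) (.a (.d (nat_lit 494) (nat_lit 462) (nat_lit 4558) (nat_lit 623) (nat_lit 7662)) (.a (.d (nat_lit 623) (nat_lit 494) (nat_lit 7662) (nat_lit 655) (nat_lit 6671)) (.f (nat_lit 592) (nat_lit 557) (nat_lit 557) (.d (nat_lit 625) (nat_lit 626) (nat_lit 590) (nat_lit 657) (nat_lit 7696)))))))) (.a (.f (nat_lit 557) (nat_lit 556) (nat_lit 2572) (.f (nat_lit 590) (nat_lit 589) (nat_lit 1581) (.f (nat_lit 622) (nat_lit 654) (nat_lit 6670) (.f (nat_lit 623) (nat_lit 655) (nat_lit 4622) (.f (nat_lit 591) (nat_lit 494) (nat_lit 7662) (.f (nat_lit 592) (nat_lit 593) (nat_lit 557) (.d (nat_lit 621) (nat_lit 620) (nat_lit 2636) (nat_lit 653) (nat_lit 5645)))))))) (.a (.f (nat_lit 590) (nat_lit 589) (nat_lit 1581) (.f (nat_lit 622) (nat_lit 654) (nat_lit 6670) (.f (nat_lit 623) (nat_lit 655) (nat_lit 4622) (.f (nat_lit 591) (nat_lit 494) (nat_lit 7662) (.p (nat_lit 625) (.a (.d (nat_lit 593) (nat_lit 594) (nat_lit 558) (nat_lit 657) (nat_lit 7696)) (.d (nat_lit 624) (nat_lit 626) (nat_lit 3662) (nat_lit 656) (nat_lit 4623)))))))) (.f (nat_lit 590) (nat_lit 589) (nat_lit 1581) (.f (nat_lit 622) (nat_lit 654) (nat_lit 6670) (.f (nat_lit 623) (nat_lit 655) (nat_lit 4622) (.f (nat_lit 591) (nat_lit 494) (nat_lit 7662) (.p (nat_lit 592) (.a (.d (nat_lit 621) (nat_lit 620) (nat_lit 2636) (nat_lit 653) (nat_lit 5645)) (.f (nat_lit 624) (nat_lit 656) (nat_lit 7695) (.d (nat_lit 625) (nat_lit 626) (nat_lit 3662) (nat_lit 657) (nat_lit 4624)))))))))))))))))) (.p (nat_lit 495) (.a (.d (nat_lit 463) (nat_lit 431) (nat_lit 4527) (nat_lit 592) (nat_lit 4559)) (.a (.d (nat_lit 592) (nat_lit 463) (nat_lit 4559) (nat_lit 624) (nat_lit 7663)) (.a (.f (nat_lit 463) (nat_lit 431) (nat_lit 4527) (.f (nat_lit 462) (nat_lit 430) (nat_lit 7598) (.f (nat_lit 494) (nat_lit 591) (nat_lit 7630) (.f (nat_lit 493) (nat_lit 492) (nat_lit 492) (.d (nat_lit 464) (nat_lit 432) (nat_lit 6575) (nat_lit 465) (nat_lit 1485)))))) (.f (nat_lit 592) (nat_lit 624) (nat_lit 7663) (.p (nat_lit 591) (.a (.f (nat_lit 623) (nat_lit 655) (nat_lit 6671) (.d (nat_lit 622) (nat_lit 590) (nat_lit 5614) (nat_lit 654) (nat_lit 5646))) (.a (.f (nat_lit 623) (nat_lit 655) (nat_lit 6671) (.d (nat_lit 494) (nat_lit 462) (nat_lit 7630) (nat_lit 526) (nat_lit 7662))) (.a (.f (nat_lit 494) (nat_lit 462) (nat_lit 7630) (.f (nat_lit 526) (nat_lit 623) (nat_lit 7662) (.f (nat_lit 525) (nat_lit 524) (nat_lit 524) (.p (nat_lit 558) (.a (.d (nat_lit 557) (nat_lit 556) (nat_lit 2572) (nat_lit 593) (nat_lit 557)) (.a (.d (nat_lit 593) (nat_lit 557) (nat_lit 557) (nat_lit 594) (nat_lit 3630)) (.f (nat_lit 590) (nat_lit 622) (nat_lit 5614) (.d (nat_lit 493) (nat_lit 461) (nat_lit 7629) (nat_lit 492) (nat_lit 3564))))))))) (.f (nat_lit 590) (nat_lit 622) (nat_lit 5614) (.f (nat_lit 494) (nat_lit 462) (nat_lit 7630) (.p (nat_lit 557) (.a (.f (nat_lit 558) (nat_lit 593) (nat_lit 557) (.f (nat_lit 525) (nat_lit 524) (nat_lit 3596) (.d (nat_lit 493) (nat_lit 461) (nat_lit 4557) (nat_lit 492) (nat_lit 492)))) (.a (.d (nat_lit 558) (nat_lit 556) (nat_lit 2572) (nat_lit 593) (nat_lit 557)) (.f (nat_lit 589) (nat_lit 556) (nat_lit 3628) (.f (nat_lit 621) (nat_lit 620) (nat_lit 1612) (.f (nat_lit 492) (nat_lit 493) (nat_lit 492) (.d (nat_lit 525) (nat_lit 524) (nat_lit 7660) (nat_lit 526) (nat_lit 6637)))))))))))))))))))))))))))))))))) (.a (.p (nat_lit 561) (.a (.p (nat_lit 562) (.a (.d (nat_lit 527) (nat_lit 526) (nat_lit 3598) (nat_lit 563) (nat_lit 3599)) (.a (.f (nat_lit 526) (nat_lit 527) (nat_lit 3598) (.f (nat_lit 558) (nat_lit 525) (nat_lit 3597) (.d (nat_lit 594) (nat_lit 593) (nat_lit 558) (nat_lit 595) (nat_lit 559)))) (.a (.f (nat_lit 563) (nat_lit 527) (nat_lit 3599) (.d (nat_lit 595) (nat_lit 594) (nat_lit 559) (nat_lit 596) (nat_lit 560))) (.f (nat_lit 591) (nat_lit 590) (nat_lit 1582) (.f (nat_lit 563) (nat_lit 592) (nat_lit 1583) (.d (nat_lit 595) (nat_lit 594) (nat_lit 559) (nat_lit 596) (nat_lit 560)))))))) (.a (.p (nat_lit 562) (.a (.d (nat_lit 527) (nat_lit 526) (nat_lit 3598) (nat_lit 563) (nat_lit 3599)) (.a (.f (nat_lit 526) (nat_lit 527) (nat_lit 3598) (.f (nat_lit 558) (nat_lit 525) (nat_lit 3597) (.d (nat_lit 590) (nat_lit 589) (nat_lit 1581) (nat_lit 591) (nat_lit 1582)))) (.a (.f (nat_lit 563) (nat_lit 527) (nat_lit 3599) (.d (nat_lit 591) (nat_lit 590) (nat_lit 1582) (nat_lit 592) (nat_lit 1583))) (.f (nat_lit 591) (nat_lit 590) (nat_lit 1582) (.f (nat_lit 563) (nat_lit 592) (nat_lit 1583) (.d (nat_lit 531) (nat_lit 530) (nat_lit 2575) (nat_lit 532) (nat_lit 2576)))))))) (.a (.p (nat_lit 562) (.a (.d (nat_lit 527) (nat_lit 526) (nat_lit 3598) (nat_lit 563) (nat_lit 3599)) (.a (.f (nat_lit 526) (nat_lit 527) (nat_lit 3598) (.f (nat_lit 558) (nat_lit 525) (nat_lit 3597) (.d (nat_lit 594) (nat_lit 593) (nat_lit 558) (nat_lit 595) (nat_lit 559)))) (.a (.f (nat_lit 563) (nat_lit 527) (nat_lit 3599) (.d (nat_lit 595) (nat_lit 594) (nat_lit 559) (nat_lit 596) (nat_lit 560))) (.f (nat_lit 594) (nat_lit 595) (nat_lit 559) (.f (nat_lit 593) (nat_lit 558) (nat_lit 558) (.f (nat_lit 625) (nat_lit 657) (nat_lit 7696) (.d (nat_lit 530) (nat_lit 498) (nat_lit 5617) (nat_lit 531) (nat_lit 2575))))))))) (.a s52140 (.a s54279 (.a (.p (nat_lit 562) (.a (.f (nat_lit 563) (nat_lit 527) (nat_lit 3599) (.d (nat_lit 595) (nat_lit 594) (nat_lit 559) (nat_lit 596) (nat_lit 560))) (.a (.f (nat_lit 563) (nat_lit 527) (nat_lit 3599) (.d (nat_lit 591) (nat_lit 590) (nat_lit 1582) (nat_lit 592) (nat_lit 1583))) (.f (nat_lit 594) (nat_lit 595) (nat_lit 559) (.f (nat_lit 593) (nat_lit 558) (nat_lit 558) (.f (nat_lit 625) (nat_lit 657) (nat_lit 7696) (.d (nat_lit 530) (nat_lit 498) (nat_lit 5617) (nat_lit 531) (nat_lit 2575)))))))) (.a (.p (nat_lit 558) (.a (.f (nat_lit 526) (nat_lit 525) (nat_lit 3597) (.f (nat_lit 590) (nat_lit 589) (nat_lit 1581) (.p (nat_lit 591) (.a (.d (nat_lit 623) (nat_lit 494) (nat_lit 4590) (nat_lit 655) (nat_lit 7694)) (.a (.d (nat_lit 494) (nat_lit 462) (nat_lit 4558) (nat_lit 623) (nat_lit 4590)) (.a (.f (nat_lit 623) (nat_lit 655) (nat_lit 6671) (.f (nat_lit 593) (nat_lit 594) (nat_lit 558) (.p (nat_lit 527) (.a (.d (nat_lit 557) (nat_lit 556) (nat_lit 2572) (nat_lit 592) (nat_lit 557)) (.d (nat_lit 622) (nat_lit 495) (nat_lit 5614) (nat_lit 654) (nat_lit 5646)))))) (.f (nat_lit 593) (nat_lit 594) (nat_lit 558) (.f (nat_lit 557) (nat_lit 592) (nat_lit 557) (.d (nat_lit 556) (nat_lit 527) (nat_lit 2572) (nat_lit 555) (nat_lit 555)))))))))) (.a (.f (nat_lit 593) (nat_lit 594) (nat_lit 558) (.f (nat_lit 557) (nat_lit 592) (nat_lit 557) (.d (nat_lit 589) (nat_lit 588) (nat_lit 1580) (nat_lit 590) (nat_lit 1581)))) (.a (.f (nat_lit 526) (nat_lit 525) (nat_lit 3597) (.f (nat_lit 590) (nat_lit 589) (nat_lit 1581) (.p (nat_lit 622) (.a (.d (nat_lit 527) (nat_lit 495) (nat_lit 6638) (nat_lit 654) (nat_lit 6670)) (.f (nat_lit 623) (nat_lit 655) (nat_lit 4622) (.f (nat_lit 591) (nat_lit 494) (nat_lit 4590) (.p (nat_lit 592) (.a (.d (nat_lit 557) (nat_lit 556) (nat_lit 556) (nat_lit 593) (nat_lit 557)) (.a (.d (nat_lit 593) (nat_lit 557) (nat_lit 3629) (nat_lit 621) (nat_lit 1613)) (.a (.d (nat_lit 621) (nat_lit 593) (nat_lit 1613) (nat_lit 653) (nat_lit 5645)) (.d (nat_lit 621) (nat_lit 620) (nat_lit 2636) (nat_lit 653) (nat_lit 5645)))))))))))) (.a (.f (nat_lit 593) (nat_lit 594) (nat_lit 558) (.f (nat_lit 557) (nat_lit 592) (nat_lit 557) (.d (nat_lit 525) (nat_lit 524) (nat_lit 3596) (nat_lit 526) (nat_lit 3597)))) (.a (.f (nat_lit 526) (nat_lit 525) (nat_lit 3597) (.f (nat_lit 590) (nat_lit 589) (nat_lit 1581) (.f (nat_lit 593) (nat_lit 594) (nat_lit 558) (.p (nat_lit 622) (.a (.d (nat_lit 527) (nat_lit 495) (nat_lit 6638) (nat_lit 654) (nat_lit 6670)) (.a (.f (nat_lit 623) (nat_lit 655) (nat_lit 4622) (.f (nat_lit 591) (nat_lit 494) (nat_lit 4590) (.f (nat_lit 527) (nat_lit 495) (nat_lit 5614) (.f (nat_lit 624) (nat_lit 656) (nat_lit 4623) (.d (nat_lit 625) (nat_lit 626) (nat_lit 3662) (nat_lit 657) (nat_lit 7696)))))) (.a (.f (nat_lit 623) (nat_lit 655) (nat_lit 4622) (.f (nat_lit 591) (nat_lit 494) (nat_lit 4590) (.d (nat_lit 654) (nat_lit 527) (nat_lit 6670) (nat_lit 686) (nat_lit 6702)))) (.f (nat_lit 623) (nat_lit 655) (nat_lit 4622) (.f (nat_lit 591) (nat_lit 494) (nat_lit 4590) (.f (nat_lit 653) (nat_lit 621) (nat_lit 5645) (.d (nat_lit 654) (nat_lit 685) (nat_lit 5677) (nat_lit 686) (nat_lit 6702)))))))))))) (.f (nat_lit 526) (nat_lit 525) (nat_lit 3597) (.f (nat_lit 590) (nat_lit 589) (nat_lit 1581) (.p (nat_lit 622) (.a (.d (nat_lit 527) (nat_lit 495) (nat_lit 6638) (nat_lit 654) (nat_lit 6670)) (.a (.f (nat_lit 623) (nat_lit 655) (nat_lit 4622) (.f (nat_lit 591) (nat_lit 494) (nat_lit 4590) (.f (nat_lit 527) (nat_lit 495) (nat_lit 5614) (.p (nat_lit 592) (.a (.d (nat_lit 621) (nat_lit 620) (nat_lit 2636) (nat_lit 653) (nat_lit 5645)) (.f (nat_lit 624) (nat_lit 656) (nat_lit 7695) (.d (nat_lit 625) (nat_lit 626) (nat_lit 3662) (nat_lit 657) (nat_lit 4624)))))))) (.a (.f (nat_lit 623) (nat_lit 655) (nat_lit 4622) (.f (nat_lit 591) (nat_lit 494) (nat_lit 4590) (.d (nat_lit 654) (nat_lit 527) (nat_lit 6670) (nat_lit 686) (nat_lit 6702)))) (.f (nat_lit 623) (nat_lit 655) (nat_lit 4622) (.f (nat_lit 591) (nat_lit 494) (nat_lit 4590) (.f (nat_lit 621) (nat_lit 653) (nat_lit 5645) (.d (nat_lit 620) (nat_lit 592) (nat_lit 2636) (nat_lit 619) (nat_lit 2635))))))))))))))))) (.p (nat_lit 558) (.a (.f (nat_lit 590) (nat_lit 589) (nat_lit 1581) (.f (nat_lit 591) (nat_lit 562) (nat_lit 1582) (.f (nat_lit 623) (nat_lit 655) (nat_lit 6671) (.d (nat_lit 526) (nat_lit 494) (nat_lit 4590) (nat_lit 525) (nat_lit 3597))))) (.a (.f (nat_lit 593) (nat_lit 594) (nat_lit 558) (.f (nat_lit 557) (nat_lit 592) (nat_lit 557) (.d (nat_lit 589) (nat_lit 588) (nat_lit 1580) (nat_lit 590) (nat_lit 1581)))) (.f (nat_lit 593) (nat_lit 594) (nat_lit 558) (.f (nat_lit 557) (nat_lit 592) (nat_lit 557) (.d (nat_lit 525) (nat_lit 524) (nat_lit 3596) (nat_lit 526) (nat_lit 3597))))))))))))))) (.a (.p (nat_lit 527) (.a s50894 (.a s50353 (.a (.p (nat_lit 495) (.a (.d (nat_lit 463) (nat_lit 431) (nat_lit 4527) (nat_lit 592) (nat_lit 4559)) (.a (.d (nat_lit 592) (nat_lit 463) (nat_lit 4559) (nat_lit 624) (nat_lit 7663)) (.a (.f (nat_lit 463) (nat_lit 431) (nat_lit 4527) (.f (nat_lit 558) (nat_lit 590) (nat_lit 5582) (.f (nat_lit 557) (nat_lit 556) (nat_lit 2572) (.f (nat_lit 525) (nat_lit 524) (nat_lit 3596) (.f (nat_lit 526) (nat_lit 561) (nat_lit 525) (.p (nat_lit 494) (.a (.d (nat_lit 589) (nat_lit 588) (nat_lit 1580) (nat_lit 621) (nat_lit 6637)) (.d (nat_lit 462) (nat_lit 430) (nat_lit 4526) (nat_lit 591) (nat_lit 4558))))))))) (.f (nat_lit 592) (nat_lit 624) (nat_lit 7663) (.p (nat_lit 558) (.a (.d (nat_lit 557) (nat_lit 556) (nat_lit 2572) (nat_lit 593) (nat_lit 557)) (.a (.f (nat_lit 593) (nat_lit 557) (nat_lit 557) (.d (nat_lit 594) (nat_lit 561) (nat_lit 558) (nat_lit 595) (nat_lit 3631))) (.p (nat_lit 526) (.a (.d (nat_lit 525) (nat_lit 524) (nat_lit 524) (nat_lit 561) (nat_lit 525)) (.a (.p (nat_lit 494) (.a (.d (nat_lit 462) (nat_lit 430) (nat_lit 4526) (nat_lit 591) (nat_lit 4558)) (.a (.f (nat_lit 591) (nat_lit 623) (nat_lit 7662) (.p (nat_lit 590) (.a (.d (nat_lit 589) (nat_lit 561) (nat_lit 1581) (nat_lit 588) (nat_lit 2604)) (.d (nat_lit 493) (nat_lit 461) (nat_lit 7629) (nat_lit 492) (nat_lit 492))))) (.p (nat_lit 461) (.a (.d (nat_lit 493) (nat_lit 492) (nat_lit 492) (nat_lit 590) (nat_lit 7629)) (.d (nat_lit 462) (nat_lit 429) (nat_lit 7597) (nat_lit 430) (nat_lit 4526))))))) (.f (nat_lit 525) (nat_lit 524) (nat_lit 524) (.f (nat_lit 493) (nat_lit 492) (nat_lit 3564) (.p (nat_lit 494) (.a (.d (nat_lit 461) (nat_lit 429) (nat_lit 4525) (nat_lit 590) (nat_lit 7629)) (.d (nat_lit 462) (nat_lit 430) (nat_lit 4526) (nat_lit 591) (nat_lit 4558))))))))))))))))) (.a s50694 (.a (.p (nat_lit 495) (.a (.d (nat_lit 463) (nat_lit 431) (nat_lit 4527) (nat_lit 592) (nat_lit 4559)) (.a (.f (nat_lit 463) (nat_lit 592) (nat_lit 4559) (.f (nat_lit 558) (nat_lit 590) (nat_lit 5582) (.f (nat_lit 557) (nat_lit 556) (nat_lit 2572) (.f (nat_lit 525) (nat_lit 524) (nat_lit 3596) (.f (nat_lit 526) (nat_lit 561) (nat_lit 525) (.p (nat_lit 494) (.a (.d (nat_lit 589) (nat_lit 588) (nat_lit 1580) (nat_lit 621) (nat_lit 6637)) (.d (nat_lit 462) (nat_lit 430) (nat_lit 4526) (nat_lit 591) (nat_lit 4558))))))))) (.a (.f (nat_lit 463) (nat_lit 431) (nat_lit 4527) (.f (nat_lit 558) (nat_lit 590) (nat_lit 5582) (.f (nat_lit 557) (nat_lit 556) (nat_lit 2572) (.f (nat_lit 525) (nat_lit 524) (nat_lit 3596) (.f (nat_lit 526) (nat_lit 561) (nat_lit 525) (.p (nat_lit 494) (.a (.d (nat_lit 589) (nat_lit 588) (nat_lit 1580) (nat_lit 621) (nat_lit 6637)) (.d (nat_lit 462) (nat_lit 430) (nat_lit 4526) (nat_lit 591) (nat_lit 4558))))))))) (.p (nat_lit 591) (.a (.f (nat_lit 623) (nat_lit 655) (nat_lit 6671) (.d (nat_lit 622) (nat_lit 590) (nat_lit 5614) (nat_lit 654) (nat_lit 5646))) (.a (.f (nat_lit 623) (nat_lit 655) (nat_lit 6671) (.d (nat_lit 494) (nat_lit 462) (nat_lit 7630) (nat_lit 526) (nat_lit 7662))) (.a (.f (nat_lit 494) (nat_lit 462) (nat_lit 7630) (.f (nat_lit 526) (nat_lit 623) (nat_lit 7662) (.d (nat_lit 525) (nat_lit 524) (nat_lit 524) (nat_lit 561) (nat_lit 525)))) (.f (nat_lit 590) (nat_lit 622) (nat_lit 5614) (.f (nat_lit 589) (nat_lit 588) (nat_lit 2604) (.d (nat_lit 561) (nat_lit 558) (nat_lit 1581) (nat_lit 592) (nat_lit 2605)))))))))))) (.a (.p (nat_lit 495) (.a (.d (nat_lit 463) (nat_lit 431) (nat_lit 4527) (nat_lit 592) (nat_lit 4559)) (.a (.d (nat_lit 592) (nat_lit 463) (nat_lit 4559) (nat_lit 624) (nat_lit 7663)) (.a (.f (nat_lit 463) (nat_lit 431) (nat_lit 4527) (.f (nat_lit 558) (nat_lit 590) (nat_lit 5582) (.f (nat_lit 557) (nat_lit 556) (nat_lit 2572) (.f (nat_lit 525) (nat_lit 524) (nat_lit 3596) (.f (nat_lit 526) (nat_lit 561) (nat_lit 525) (.p (nat_lit 494) (.a (.d (nat_lit 589) (nat_lit 588) (nat_lit 1580) (nat_lit 621) (nat_lit 6637)) (.a (.d (nat_lit 462) (nat_lit 430) (nat_lit 7598) (nat_lit 589) (nat_lit 5581)) (.f (nat_lit 493) (nat_lit 492) (nat_lit 492) (.f (nat_lit 462) (nat_lit 430) (nat_lit 4526) (.d (nat_lit 464) (nat_lit 432) (nat_lit 6575) (nat_lit 465) (nat_lit 1485)))))))))))) (.f (nat_lit 592) (nat_lit 624) (nat_lit 7663) (.p (nat_lit 558) (.a (.d (nat_lit 557) (nat_lit 556) (nat_lit 2572) (nat_lit 593) (nat_lit 557)) (.a (.f (nat_lit 593) (nat_lit 557) (nat_lit 557) (.d (nat_lit 594) (nat_lit 561) (nat_lit 558) (nat_lit 595) (nat_lit 3631))) (.p (nat_lit 526) (.a (.d (nat_lit 525) (nat_lit 524) (nat_lit 524) (nat_lit 561) (nat_lit 525)) (.a (.f (nat_lit 590) (nat_lit 622) (nat_lit 6638) (.f (nat_lit 589) (nat_lit 561) (nat_lit 1581) (.f (nat_lit 494) (nat_lit 621) (nat_lit 5613) (.d (nat_lit 493) (nat_lit 461) (nat_lit 7629) (nat_lit 492) (nat_lit 492))))) (.f (nat_lit 525) (nat_lit 524) (nat_lit 524) (.f (nat_lit 493) (nat_lit 492) (nat_lit 3564) (.f (nat_lit 590) (nat_lit 622) (nat_lit 6638) (.d (nat_lit 461) (nat_lit 429) (nat_lit 4525) (nat_lit 494) (nat_lit 7629)))))))))))))))) (.a (.p (nat_lit 592) (.a (.d (nat_lit 495) (nat_lit 463) (nat_lit 4559) (nat_lit 624) (nat_lit 7663)) (.a (.f (nat_lit 495) (nat_lit 463) (nat_lit 4559) s50051) (.a (.d (nat_lit 624) (nat_lit 495) (nat_lit 7663) (nat_lit 656) (nat_lit 7695)) (.f (nat_lit 624) (nat_lit 656) (nat_lit 7695) (.f (nat_lit 623) (nat_lit 655) (nat_lit 5647) (.f (nat_lit 625) (nat_lit 657) (nat_lit 4624) (.p (nat_lit 593) (.a (.f (nat_lit 594) (nat_lit 595) (nat_lit 3631) (.d (nat_lit 558) (nat_lit 557) (nat_lit 557) (nat_lit 561) (nat_lit 558))) (.f (nat_lit 622) (nat_lit 621) (nat_lit 2637) (.d (nat_lit 654) (nat_lit 591) (nat_lit 5646) (nat_lit 653) (nat_lit 1645)))))))))))) (.a (.p (nat_lit 592) (.a (.d (nat_lit 495) (nat_lit 463) (nat_lit 4559) (nat_lit 624) (nat_lit 7663)) (.a (.f (nat_lit 495) (nat_lit 463) (nat_lit 4559) (.p (nat_lit 558) (.a (.d (nat_lit 557) (nat_lit 556) (nat_lit 2572) (nat_lit 593) (nat_lit 557)) (.a (.f (nat_lit 593) (nat_lit 557) (nat_lit 557) (.d (nat_lit 594) (nat_lit 561) (nat_lit 558) (nat_lit 595) (nat_lit 3631))) (.p (nat_lit 590) (.a (.d (nat_lit 622) (nat_lit 591) (nat_lit 5614) (nat_lit 654) (nat_lit 6670)) (.a (.f (nat_lit 589) (nat_lit 561) (nat_lit 1581) (.d (nat_lit 588) (nat_lit 587) (nat_lit 2603) (nat_lit 591) (nat_lit 2604))) (.d (nat_lit 622) (nat_lit 526) (nat_lit 6638) (nat_lit 654) (nat_lit 6670))))))))) (.a (.d (nat_lit 624) (nat_lit 495) (nat_lit 7663) (nat_lit 656) (nat_lit 7695)) (.f (nat_lit 624) (nat_lit 656) (nat_lit 7695) (.f (nat_lit 623) (nat_lit 655) (nat_lit 5647) (.f (nat_lit 625) (nat_lit 657) (nat_lit 4624) (.p (nat_lit 593) (.a (.f (nat_lit 594) (nat_lit 595) (nat_lit 3631) (.d (nat_lit 558) (nat_lit 557) (nat_lit 557) (nat_lit 561) (nat_lit 558))) (.f (nat_lit 622) (nat_lit 621) (nat_lit 2637) (.d (nat_lit 654) (nat_lit 591) (nat_lit 5646) (nat_lit 653) (nat_lit 1645)))))))))))) (.a (.p (nat_lit 495) (.a (.d (nat_lit 463) (nat_lit 431) (nat_lit 4527) (nat_lit 592) (nat_lit 4559)) (.a (.d (nat_lit 592) (nat_lit 463) (nat_lit 4559) (nat_lit 624) (nat_lit 7663)) (.a (.f (nat_lit 463) (nat_lit 431) (nat_lit 4527) (.f (nat_lit 558) (nat_lit 590) (nat_lit 5582) (.f (nat_lit 462) (nat_lit 430) (nat_lit 7598) (.f (nat_lit 494) (nat_lit 591) (nat_lit 7630) (.f (nat_lit 464) (nat_lit 432) (nat_lit 6575) (.d (nat_lit 465) (nat_lit 466) (nat_lit 1486) (nat_lit 493) (nat_lit 1485))))))) (.f (nat_lit 592) (nat_lit 624) (nat_lit 7663) (.p (nat_lit 591) (.a (.f (nat_lit 623) (nat_lit 655) (nat_lit 6671) (.d (nat_lit 622) (nat_lit 590) (nat_lit 5614) (nat_lit 654) (nat_lit 5646))) (.a (.f (nat_lit 623) (nat_lit 655) (nat_lit 6671) (.d (nat_lit 494) (nat_lit 462) (nat_lit 7630) (nat_lit 526) (nat_lit 7662))) (.a (.f (nat_lit 494) (nat_lit 462) (nat_lit 7630) (.f (nat_lit 526) (nat_lit 623) (nat_lit 7662) (.d (nat_lit 525) (nat_lit 524) (nat_lit 524) (nat_lit 561) (nat_lit 525)))) (.f (nat_lit 494) (nat_lit 462) (nat_lit 7630) (.p (nat_lit 558) (.a (.d (nat_lit 557) (nat_lit 556) (nat_lit 2572) (nat_lit 593) (nat_lit 557)) (.a (.d (nat_lit 593) (nat_lit 557) (nat_lit 557) (nat_lit 594) (nat_lit 3630)) (.a (.f (nat_lit 593) (nat_lit 594) (nat_lit 3630) (.p (nat_lit 526) (.a (.d (nat_lit 525) (nat_lit 524) (nat_lit 524) (nat_lit 561) (nat_lit 525)) (.f (nat_lit 590) (nat_lit 622) (nat_lit 5614) (.d (nat_lit 493) (nat_lit 461) (nat_lit 7629) (nat_lit 492) (nat_lit 492)))))) (.f (nat_lit 557) (nat_lit 556) (nat_lit 2572) (.p (nat_lit 526) (.a (.d (nat_lit 525) (nat_lit 524) (nat_lit 524) (nat_lit 561) (nat_lit 525)) (.f (nat_lit 493) (nat_lit 492) (nat_lit 492) (.d (nat_lit 590) (nat_lit 461) (nat_lit 7629) (nat_lit 622) (nat_lit 6638)))))))))))))))))))) (.a (.p (nat_lit 495) (.a (.d (nat_lit 463) (nat_lit 431) (nat_lit 4527) (nat_lit 592) (nat_lit 4559)) (.a (.d (nat_lit 592) (nat_lit 463) (nat_lit 4559) (nat_lit 624) (nat_lit 7663)) (.a (.f (nat_lit 463) (nat_lit 431) (nat_lit 4527) (.f (nat_lit 558) (nat_lit 590) (nat_lit 5582) (.f (nat_lit 557) (nat_lit 556) (nat_lit 2572) (.f (nat_lit 462) (nat_lit 430) (nat_lit 7598) (.f (nat_lit 494) (nat_lit 591) (nat_lit 7630) (.f (nat_lit 493) (nat_lit 492) (nat_lit 492) (.d (nat_lit 464) (nat_lit 432) (nat_lit 6575) (nat_lit 465) (nat_lit 1485)))))))) (.f (nat_lit 624) (nat_lit 592) (nat_lit 7663) (.p (nat_lit 591) (.a (.d (nat_lit 623) (nat_lit 655) (nat_lit 6671) (nat_lit 656) (nat_lit 4623)) (.f (nat_lit 590) (nat_lit 622) (nat_lit 5614) (.f (nat_lit 589) (nat_lit 588) (nat_lit 2604) (.f (nat_lit 558) (nat_lit 561) (nat_lit 1581) (.f (nat_lit 557) (nat_lit 556) (nat_lit 2572) (.p (nat_lit 493) (.a (.d (nat_lit 525) (nat_lit 461) (nat_lit 4557) (nat_lit 524) (nat_lit 3596)) (.d (nat_lit 494) (nat_lit 462) (nat_lit 7630) (nat_lit 492) (nat_lit 492))))))))))))))) (.a (.p (nat_lit 526) (.a (.d (nat_lit 525) (nat_lit 524) (nat_lit 524) (nat_lit 561) (nat_lit 525)) (.a (.p (nat_lit 591) (.a (.d (nat_lit 623) (nat_lit 494) (nat_lit 7662) (nat_lit 655) (nat_lit 6671)) (.a (.f (nat_lit 494) (nat_lit 623) (nat_lit 7662) (.d (nat_lit 462) (nat_lit 430) (nat_lit 4526) (nat_lit 558) (nat_lit 4558))) (.a (.f (nat_lit 623) (nat_lit 655) (nat_lit 6671) (.f (nat_lit 622) (nat_lit 654) (nat_lit 5646) (.f (nat_lit 590) (nat_lit 495) (nat_lit 5614) (.f (nat_lit 589) (nat_lit 588) (nat_lit 2604) (.d (nat_lit 624) (nat_lit 625) (nat_lit 3661) (nat_lit 656) (nat_lit 4623)))))) (.p (nat_lit 495) (.a (.f (nat_lit 463) (nat_lit 431) (nat_lit 4527) (.d (nat_lit 590) (nat_lit 558) (nat_lit 5582) (nat_lit 622) (nat_lit 5614))) (.a (.f (nat_lit 462) (nat_lit 494) (nat_lit 7630) (.d (nat_lit 463) (nat_lit 430) (nat_lit 7598) (nat_lit 431) (nat_lit 4527))) (.a (.f (nat_lit 590) (nat_lit 622) (nat_lit 5614) (.f (nat_lit 558) (nat_lit 463) (nat_lit 5582) (.d (nat_lit 589) (nat_lit 561) (nat_lit 1581) (nat_lit 588) (nat_lit 2604)))) (.f (nat_lit 494) (nat_lit 462) (nat_lit 7630) (.f (nat_lit 590) (nat_lit 622) (nat_lit 5614) (.f (nat_lit 589) (nat_lit 588) (nat_lit 2604) (.d (nat_lit 558) (nat_lit 561) (nat_lit 1581) (nat_lit 621) (nat_lit 5613))))))))))))) (.f (nat_lit 525) (nat_lit 524) (nat_lit 524) (.f (nat_lit 557) (nat_lit 556) (nat_lit 1548) (.f (nat_lit 493) (nat_lit 492) (nat_lit 3564) (.p (nat_lit 494) (.a (.f (nat_lit 589) (nat_lit 621) (nat_lit 6637) (.d (nat_lit 588) (nat_lit 558) (nat_lit 1580) (nat_lit 620) (nat_lit 5612))) (.a (.d (nat_lit 462) (nat_lit 430) (nat_lit 5549) (nat_lit 589) (nat_lit 6605)) (.f (nat_lit 462) (nat_lit 430) (nat_lit 4526) (.d (nat_lit 591) (nat_lit 495) (nat_lit 7630) (nat_lit 558) (nat_lit 4558)))))))))))) (.a (.p (nat_lit 526) (.a (.d (nat_lit 525) (nat_lit 524) (nat_lit 524) (nat_lit 561) (nat_lit 525)) (.a (.p (nat_lit 591) (.a (.d (nat_lit 623) (nat_lit 494) (nat_lit 7662) (nat_lit 655) (nat_lit 6671)) (.a (.f (nat_lit 494) (nat_lit 623) (nat_lit 7662) (.d (nat_lit 462) (nat_lit 430) (nat_lit 4526) (nat_lit 558) (nat_lit 4558))) (.a (.f (nat_lit 623) (nat_lit 655) (nat_lit 6671) (.f (nat_lit 624) (nat_lit 656) (nat_lit 4623) (.f (nat_lit 592) (nat_lit 495) (nat_lit 7663) (.f (nat_lit 622) (nat_lit 654) (nat_lit 5646) (.d (nat_lit 593) (nat_lit 594) (nat_lit 1614) (nat_lit 621) (nat_lit 2637)))))) (.p (nat_lit 592) (.a (.d (nat_lit 624) (nat_lit 495) (nat_lit 7663) (nat_lit 656) (nat_lit 7695)) (.a (.p (nat_lit 558) (.a (.d (nat_lit 557) (nat_lit 556) (nat_lit 2572) (nat_lit 593) (nat_lit 557)) (.a (.d (nat_lit 593) (nat_lit 557) (nat_lit 557) (nat_lit 594) (nat_lit 3630)) (.p (nat_lit 590) (.a (.d (nat_lit 589) (nat_lit 561) (nat_lit 1581) (nat_lit 588) (nat_lit 2604)) (.d (nat_lit 622) (nat_lit 495) (nat_lit 5614) (nat_lit 654) (nat_lit 6670))))))) (.f (nat_lit 624) (nat_lit 656) (nat_lit 7695) (.f (nat_lit 625) (nat_lit 657) (nat_lit 4624) (.f (nat_lit 590) (nat_lit 589) (nat_lit 589) (.d (nat_lit 626) (nat_lit 593) (nat_lit 590) (nat_lit 627) (nat_lit 3663)))))))))))) (.f (nat_lit 525) (nat_lit 524) (nat_lit 524) (.f (nat_lit 557) (nat_lit 556) (nat_lit 1548) (.f (nat_lit 493) (nat_lit 492) (nat_lit 3564) (.p (nat_lit 558) (.a (.d (nat_lit 461) (nat_lit 429) (nat_lit 4525) (nat_lit 590) (nat_lit 4557)) (.f (nat_lit 589) (nat_lit 588) (nat_lit 1580) (.d (nat_lit 494) (nat_lit 462) (nat_lit 5581) (nat_lit 621) (nat_lit 6637))))))))))) (.a (.p (nat_lit 526) (.a (.d (nat_lit 525) (nat_lit 524) (nat_lit 524) (nat_lit 561) (nat_lit 525)) (.a (.p (nat_lit 558) (.a (.f (nat_lit 557) (nat_lit 556) (nat_lit 2572) (.f (nat_lit 589) (nat_lit 588) (nat_lit 1580) (.f (nat_lit 494) (nat_lit 462) (nat_lit 5581) (.d (nat_lit 590) (nat_lit 561) (nat_lit 1581) (nat_lit 621) (nat_lit 5613))))) (.a (.f (nat_lit 557) (nat_lit 556) (nat_lit 2572) (.f (nat_lit 589) (nat_lit 588) (nat_lit 1580) (.f (nat_lit 590) (nat_lit 561) (nat_lit 1581) (.d (nat_lit 621) (nat_lit 494) (nat_lit 5613) (nat_lit 653) (nat_lit 6669))))) (.a (.p (nat_lit 494) (.a (.d (nat_lit 462) (nat_lit 430) (nat_lit 4526) (nat_lit 591) (nat_lit 4558)) (.a (.f (nat_lit 623) (nat_lit 591) (nat_lit 7662) (.p (nat_lit 590) (.a (.d (nat_lit 622) (nat_lit 654) (nat_lit 6670) (nat_lit 655) (nat_lit 4622)) (.d (nat_lit 589) (nat_lit 561) (nat_lit 1581) (nat_lit 621) (nat_lit 5613))))) (.f (nat_lit 462) (nat_lit 430) (nat_lit 4526) (.f (nat_lit 589) (nat_lit 557) (nat_lit 5581) (.d (nat_lit 590) (nat_lit 561) (nat_lit 1581) (nat_lit 621) (nat_lit 5613))))))) (.a (.f (nat_lit 557) (nat_lit 556) (nat_lit 2572) (.f (nat_lit 589) (nat_lit 588) (nat_lit 1580) (.f (nat_lit 494) (nat_lit 462) (nat_lit 5581) (.f (nat_lit 592) (nat_lit 593) (nat_lit 557) (.f (nat_lit 624) (nat_lit 656) (nat_lit 7695) (.d (nat_lit 623) (nat_lit 591) (nat_lit 7662) (nat_lit 655) (nat_lit 5647))))))) (.a (.f (nat_lit 557) (nat_lit 556) (nat_lit 2572) (.f (nat_lit 589) (nat_lit 588) (nat_lit 1580) (.f (nat_lit 590) (nat_lit 561) (nat_lit 1581) (.f (nat_lit 622) (nat_lit 654) (nat_lit 6670) (.p (nat_lit 591) (.a (.f (nat_lit 592) (nat_lit 593) (nat_lit 557) (.d (nat_lit 621) (nat_lit 620) (nat_lit 1612) (nat_lit 653) (nat_lit 6669))) (.a (.p (nat_lit 624) (.a (.d (nat_lit 592) (nat_lit 593) (nat_lit 557) (nat_lit 656) (nat_lit 7695)) (.a (.d (nat_lit 623) (nat_lit 655) (nat_lit 6671) (nat_lit 656) (nat_lit 4623)) (.d (nat_lit 592) (nat_lit 593) (nat_lit 3629) (nat_lit 625) (nat_lit 589))))) (.f (nat_lit 623) (nat_lit 655) (nat_lit 6671) (.d (nat_lit 624) (nat_lit 625) (nat_lit 3661) (nat_lit 656) (nat_lit 4623)))))))))) (.a (.f (nat_lit 557) (nat_lit 556) (nat_lit 2572) (.f (nat_lit 592) (nat_lit 593) (nat_lit 557) (.f (nat_lit 624) (nat_lit 656) (nat_lit 7695) (.f (nat_lit 623) (nat_lit 655) (nat_lit 5647) (.f (nat_lit 591) (nat_lit 494) (nat_lit 7662) (.f (nat_lit 625) (nat_lit 657) (nat_lit 4624) (.d (nat_lit 626) (nat_lit 590) (nat_lit 3662) (nat_lit 627) (nat_lit 3663)))))))) (.p (nat_lit 494) (.a (.d (nat_lit 462) (nat_lit 430) (nat_lit 4526) (nat_lit 591) (nat_lit 4558)) (.a (.f (nat_lit 623) (nat_lit 591) (nat_lit 7662) (.p (nat_lit 590) (.a (.d (nat_lit 622) (nat_lit 654) (nat_lit 6670) (nat_lit 655) (nat_lit 4622)) (.d (nat_lit 589) (nat_lit 561) (nat_lit 1581) (nat_lit 621) (nat_lit 5613))))) (.f (nat_lit 462) (nat_lit 430) (nat_lit 4526) (.f (nat_lit 461) (nat_lit 429) (nat_lit 7597) (.f (nat_lit 590) (nat_lit 493) (nat_lit 7629) (.d (nat_lit 589) (nat_lit 561) (nat_lit 1581) (nat_lit 621) (nat_lit 5613))))))))))))))) (.f (nat_lit 525) (nat_lit 524) (nat_lit 524) (.f (nat_lit 557) (nat_lit 556) (nat_lit 1548) (.f (nat_lit 493) (nat_lit 492) (nat_lit 3564) (.p (nat_lit 558) (.a (.d (nat_lit 461) (nat_lit 429) (nat_lit 4525) (nat_lit 590) (nat_lit 4557)) (.f (nat_lit 589) (nat_lit 588) (nat_lit 1580) (.d (nat_lit 494) (nat_lit 462) (nat_lit 5581) (nat_lit 621) (nat_lit 6637))))))))))) s50170)))))))))))))) (.a (.p (nat_lit 561) (.a (.p (nat_lit 562) (.a (.d (nat_lit 527) (nat_lit 526) (nat_lit 3598) (nat_lit 563) (nat_lit 3599)) (.a (.f (nat_lit 527) (nat_lit 526) (nat_lit 3598) (.f (nat_lit 590) (nat_lit 591) (nat_lit 1582) (.f (nat_lit 558) (nat_lit 589) (nat_lit 1581) (.d (nat_lit 594) (nat_lit 593) (nat_lit 558) (nat_lit 595) (nat_lit 559))))) (.a (.f (nat_lit 563) (nat_lit 527) (nat_lit 3599) (.d (nat_lit 595) (nat_lit 594) (nat_lit 559) (nat_lit 596) (nat_lit 560))) (.f (nat_lit 590) (nat_lit 591) (nat_lit 1582) (.f (nat_lit 558) (nat_lit 589) (nat_lit 1581) (.d (nat_lit 594) (nat_lit 593) (nat_lit 558) (nat_lit 595) (nat_lit 559)))))))) (.a (.p (nat_lit 527) (.a (.d (nat_lit 526) (nat_lit 525) (nat_lit 525) (nat_lit 562) (nat_lit 3598)) (.a (.f (nat_lit 562) (nat_lit 563) (nat_lit 3599) (.f (nat_lit 590) (nat_lit 591) (nat_lit 1582) (.f (nat_lit 558) (nat_lit 589) (nat_lit 1581) (.f (nat_lit 495) (nat_lit 463) (nat_lit 5582) (.f (nat_lit 592) (nat_lit 624) (nat_lit 7663) (.d (nat_lit 557) (nat_lit 556) (nat_lit 2572) (nat_lit 593) (nat_lit 557))))))) (.f (nat_lit 526) (nat_lit 525) (nat_lit 525) (.p (nat_lit 495) (.a (.d (nat_lit 463) (nat_lit 431) (nat_lit 4527) (nat_lit 592) (nat_lit 4559)) (.a (.d (nat_lit 592) (nat_lit 463) (nat_lit 4559) (nat_lit 624) (nat_lit 7663)) (.a (.f (nat_lit 463) (nat_lit 431) (nat_lit 4527) (.f (nat_lit 558) (nat_lit 590) (nat_lit 5582) (.f (nat_lit 462) (nat_lit 430) (nat_lit 7598) (.f (nat_lit 494) (nat_lit 591) (nat_lit 4558) (.d (nat_lit 557) (nat_lit 556) (nat_lit 2572) (nat_lit 589) (nat_lit 5581)))))) (.f (nat_lit 592) (nat_lit 624) (nat_lit 7663) (.p (nat_lit 558) (.a (.d (nat_lit 557) (nat_lit 556) (nat_lit 2572) (nat_lit 593) (nat_lit 557)) (.d (nat_lit 590) (nat_lit 589) (nat_lit 1581) (nat_lit 622) (nat_lit 6638))))))))))))) (.a (.p (nat_lit 527) (.a (.d (nat_lit 526) (nat_lit 525) (nat_lit 525) (nat_lit 562) (nat_lit 3598)) (.a (.f (nat_lit 562) (nat_lit 563) (nat_lit 3599) (.f (nat_lit 594) (nat_lit 595) (nat_lit 559) (.f (nat_lit 558) (nat_lit 593) (nat_lit 558) (.f (nat_lit 557) (nat_lit 556) (nat_lit 2572) (.d (nat_lit 589) (nat_lit 588) (nat_lit 1580) (nat_lit 590) (nat_lit 1581)))))) (.f (nat_lit 526) (nat_lit 525) (nat_lit 525) (.p (nat_lit 558) (.a (.f (nat_lit 557) (nat_lit 556) (nat_lit 2572) (.d (nat_lit 593) (nat_lit 592) (nat_lit 557) (nat_lit 594) (nat_lit 558))) (.f (nat_lit 590) (nat_lit 589) (nat_lit 1581) (.d (nat_lit 495) (nat_lit 463) (nat_lit 5582) (nat_lit 622) (nat_lit 6638))))))))) (.a s50457 (.a s52454 (.a s50944 (.a (.p (nat_lit 562) (.a (.f (nat_lit 563) (nat_lit 527) (nat_lit 3599) (.d (nat_lit 595) (nat_lit 594) (nat_lit 559) (nat_lit 596) (nat_lit 560))) (.a (.f (nat_lit 563) (nat_lit 527) (nat_lit 3599) (.d (nat_lit 591) (nat_lit 590) (nat_lit 1582) (nat_lit 592) (nat_lit 1583))) (.f (nat_lit 594) (nat_lit 595) (nat_lit 559) (.f (nat_lit 593) (nat_lit 558) (nat_lit 558) (.f (nat_lit 530) (nat_lit 531) (nat_lit 2575) (.d (nat_lit 498) (nat_lit 466) (nat_lit 5585) (nat_lit 625) (nat_lit 5617)))))))) (.a (.p (nat_lit 562) (.a (.d (nat_lit 527) (nat_lit 526) (nat_lit 3598) (nat_lit 563) (nat_lit 3599)) (.a (.f (nat_lit 526) (nat_lit 527) (nat_lit 3598) (.f (nat_lit 558) (nat_lit 525) (nat_lit 3597) (.d (nat_lit 590) (nat_lit 589) (nat_lit 1581) (nat_lit 591) (nat_lit 1582)))) (.a (.f (nat_lit 563) (nat_lit 527) (nat_lit 3599) (.d (nat_lit 595) (nat_lit 594) (nat_lit 559) (nat_lit 596) (nat_lit 560))) (.f (nat_lit 591) (nat_lit 590) (nat_lit 1582) (.f (nat_lit 563) (nat_lit 592) (nat_lit 1583) (.d (nat_lit 595) (nat_lit 594) (nat_lit 559) (nat_lit 596) (nat_lit 560)))))))) (.a (.p (nat_lit 558) (.a (.f (nat_lit 593) (nat_lit 594) (nat_lit 558) (.f (nat_lit 557) (nat_lit 592) (nat_lit 557) (.d (nat_lit 525) (nat_lit 524) (nat_lit 3596) (nat_lit 526) (nat_lit 3597)))) (.a (.f (nat_lit 525) (nat_lit 526) (nat_lit 3597) (.f (nat_lit 557) (nat_lit 524) (nat_lit 3596) (.d (nat_lit 589) (nat_lit 588) (nat_lit 1580) (nat_lit 590) (nat_lit 1581)))) (.a (.f (nat_lit 593) (nat_lit 594) (nat_lit 558) (.f (nat_lit 557) (nat_lit 592) (nat_lit 557) (.d (nat_lit 589) (nat_lit 588) (nat_lit 1580) (nat_lit 590) (nat_lit 1581)))) (.f (nat_lit 526) (nat_lit 525) (nat_lit 3597) (.f (nat_lit 590) (nat_lit 589) (nat_lit 1581) (.f (nat_lit 593) (nat_lit 594) (nat_lit 558) (.f (nat_lit 625) (nat_lit 657) (nat_lit 7696) (.p (nat_lit 495) (.a (.d (nat_lit 463) (nat_lit 494) (nat_lit 6606) (nat_lit 527) (nat_lit 5582)) (.a (.d (nat_lit 527) (nat_lit 463) (nat_lit 5582) (nat_lit 622) (nat_lit 6638)) (.a (.f (nat_lit 527) (nat_lit 622) (nat_lit 6638) (.p (nat_lit 591) (.a (.d (nat_lit 592) (nat_lit 624) (nat_lit 4591) (nat_lit 626) (nat_lit 590)) (.f (nat_lit 494) (nat_lit 462) (nat_lit 4558) (.d (nat_lit 493) (nat_lit 461) (nat_lit 7629) (nat_lit 492) (nat_lit 492)))))) (.f (nat_lit 494) (nat_lit 463) (nat_lit 6606) (.f (nat_lit 462) (nat_lit 591) (nat_lit 4558) (.d (nat_lit 461) (nat_lit 429) (nat_lit 7597) (nat_lit 493) (nat_lit 7629)))))))))))))))) (.p (nat_lit 562) (.a (.f (nat_lit 590) (nat_lit 591) (nat_lit 1582) (.f (nat_lit 558) (nat_lit 589) (nat_lit 1581) (.d (nat_lit 594) (nat_lit 593) (nat_lit 558) (nat_lit 595) (nat_lit 559)))) (.a (.f (nat_lit 591) (nat_lit 590) (nat_lit 1582) (.f (nat_lit 563) (nat_lit 592) (nat_lit 1583) (.d (nat_lit 531) (nat_lit 530) (nat_lit 2575) (nat_lit 532) (nat_lit 2576)))) (.f (nat_lit 594) (nat_lit 595) (nat_lit 559) (.f (nat_lit 593) (nat_lit 558) (nat_lit 558) (.f (nat_lit 530) (nat_lit 531) (nat_lit 2575) (.d (nat_lit 498) (nat_lit 466) (nat_lit 5585) (nat_lit 625) (nat_lit 5617)))))))))))))))))) (.a (.p (nat_lit 561) (.a (.p (nat_lit 562) (.a (.d (nat_lit 527) (nat_lit 526) (nat_lit 3598) (nat_lit 563) (nat_lit 3599)) (.a (.f (nat_lit 526) (nat_lit 527) (nat_lit 3598) (.f (nat_lit 558) (nat_lit 525) (nat_lit 3597) (.d (nat_lit 594) (nat_lit 593) (nat_lit 558) (nat_lit 595) (nat_lit 559)))) (.a (.f (nat_lit 563) (nat_lit 527) (nat_lit 3599) (.d (nat_lit 595) (nat_lit 594) (nat_lit 559) (nat_lit 596) (nat_lit 560))) (.f (nat_lit 591) (nat_lit 590) (nat_lit 1582) (.f (nat_lit 563) (nat_lit 592) (nat_lit 1583) (.d (nat_lit 595) (nat_lit 594) (nat_lit 559) (nat_lit 596) (nat_lit 560)))))))) (.a (.p (nat_lit 562) (.a (.d (nat_lit 527) (nat_lit 526) (nat_lit 3598) (nat_lit 563) (nat_lit 3599)) (.a (.f (nat_lit 526) (nat_lit 527) (nat_lit 3598) (.f (nat_lit 558) (nat_lit 525) (nat_lit 3597) (.d (nat_lit 590) (nat_lit 589) (nat_lit 1581) (nat_lit 591) (nat_lit 1582)))) (.a (.f (nat_lit 563) (nat_lit 527) (nat_lit 3599) (.d (nat_lit 591) (nat_lit 590) (nat_lit 1582) (nat_lit 592) (nat_lit 1583))) (.f (nat_lit 591) (nat_lit 590) (nat_lit 1582) (.f (nat_lit 563) (nat_lit 592) (nat_lit 1583) (.d (nat_lit 531) (nat_lit 530) (nat_lit 2575) (nat_lit 532) (nat_lit 2576)))))))) (.a (.p (nat_lit 562) (.a (.d (nat_lit 527) (nat_lit 526) (nat_lit 3598) (nat_lit 563) (nat_lit 3599)) (.a (.f (nat_lit 526) (nat_lit 527) (nat_lit 3598) (.f (nat_lit 558) (nat_lit 525) (nat_lit 3597) (.d (nat_lit 594) (nat_lit 593) (nat_lit 558) (nat_lit 595) (nat_lit 559)))) (.a (.f (nat_lit 563) (nat_lit 527) (nat_lit 3599) (.d (nat_lit 595) (nat_lit 594) (nat_lit 559) (nat_lit 596) (nat_lit 560))) (.f (nat_lit 594) (nat_lit 595) (nat_lit 559) (.f (nat_lit 593) (nat_lit 558) (nat_lit 558) (.f (nat_lit 625) (nat_lit 657) (nat_lit 7696) (.d (nat_lit 530) (nat_lit 498) (nat_lit 5617) (nat_lit 531) (nat_lit 2575))))))))) (.a (.p (nat_lit 562) (.a (.d (nat_lit 527) (nat_lit 526) (nat_lit 3598) (nat_lit 563) (nat_lit 3599)) (.a (.f (nat_lit 591) (nat_lit 590) (nat_lit 1582) (.f (nat_lit 527) (nat_lit 526) (nat_lit 3598) (.f (nat_lit 623) (nat_lit 655) (nat_lit 6671) (.f (nat_lit 624) (nat_lit 656) (nat_lit 4623) (.f (nat_lit 594) (nat_lit 595) (nat_lit 559) (.p (nat_lit 593) (.a (.d (nat_lit 622) (nat_lit 592) (nat_lit 1614) (nat_lit 654) (nat_lit 5646)) (.f (nat_lit 625) (nat_lit 657) (nat_lit 7696) (.d (nat_lit 530) (nat_lit 498) (nat_lit 5617) (nat_lit 531) (nat_lit 2575)))))))))) (.a (.f (nat_lit 563) (nat_lit 527) (nat_lit 3599) (.d (nat_lit 595) (nat_lit 594) (nat_lit 559) (nat_lit 596) (nat_lit 560))) (.f (nat_lit 591) (nat_lit 590) (nat_lit 1582) (.f (nat_lit 563) (nat_lit 592) (nat_lit 1583) (.d (nat_lit 595) (nat_lit 594) (nat_lit 559) (nat_lit 596) (nat_lit 560)))))))) (.a s54279 (.a (.p (nat_lit 562) (.a (.f (nat_lit 563) (nat_lit 527) (nat_lit 3599) (.d (nat_lit 595) (nat_lit 594) (nat_lit 559) (nat_lit 596) (nat_lit 560))) (.a (.f (nat_lit 563) (nat_lit 527) (nat_lit 3599) (.d (nat_lit 591) (nat_lit 590) (nat_lit 1582) (nat_lit 592) (nat_lit 1583))) (.f (nat_lit 594) (nat_lit 595) (nat_lit 559) (.f (nat_lit 593) (nat_lit 558) (nat_lit 558) (.f (nat_lit 625) (nat_lit 657) (nat_lit 7696) (.d (nat_lit 530) (nat_lit 498) (nat_lit 5617) (nat_lit 531) (nat_lit 2575)))))))) (.a (.p (nat_lit 558) (.a (.f (nat_lit 526) (nat_lit 525) (nat_lit 3597) (.f (nat_lit 590) (nat_lit 589) (nat_lit 1581) (.p (nat_lit 591) (.a (.d (nat_lit 623) (nat_lit 494) (nat_lit 4590) (nat_lit 655) (nat_lit 7694)) (.a (.d (nat_lit 494) (nat_lit 462) (nat_lit 4558) (nat_lit 623) (nat_lit 4590)) (.a (.f (nat_lit 623) (nat_lit 655) (nat_lit 6671) (.f (nat_lit 593) (nat_lit 594) (nat_lit 558) (.f (nat_lit 592) (nat_lit 557) (nat_lit 557) (.f (nat_lit 622) (nat_lit 621) (nat_lit 1613) (.d (nat_lit 654) (nat_lit 527) (nat_lit 6670) (nat_lit 686) (nat_lit 6702)))))) (.f (nat_lit 593) (nat_lit 594) (nat_lit 558) (.f (nat_lit 557) (nat_lit 592) (nat_lit 557) (.d (nat_lit 556) (nat_lit 527) (nat_lit 2572) (nat_lit 555) (nat_lit 555)))))))))) (.a (.f (nat_lit 593) (nat_lit 594) (nat_lit 558) (.f (nat_lit 557) (nat_lit 592) (nat_lit 557) (.d (nat_lit 589) (nat_lit 588) (nat_lit 1580) (nat_lit 590) (nat_lit 1581)))) (.a (.f (nat_lit 526) (nat_lit 525) (nat_lit 3597) (.f (nat_lit 590) (nat_lit 589) (nat_lit 1581) (.p (nat_lit 623) (.a (.d (nat_lit 591) (nat_lit 494) (nat_lit 4590) (nat_lit 655) (nat_lit 7694)) (.a (.f (nat_lit 622) (nat_lit 655) (nat_lit 4622) (.f (nat_lit 654) (nat_lit 527) (nat_lit 6670) (.d (nat_lit 653) (nat_lit 621) (nat_lit 5645) (nat_lit 685) (nat_lit 5677)))) (.f (nat_lit 591) (nat_lit 494) (nat_lit 4590) (.p (nat_lit 622) (.a (.d (nat_lit 654) (nat_lit 527) (nat_lit 6670) (nat_lit 686) (nat_lit 6702)) (.p (nat_lit 592) (.a (.d (nat_lit 557) (nat_lit 556) (nat_lit 556) (nat_lit 593) (nat_lit 557)) (.a (.d (nat_lit 593) (nat_lit 557) (nat_lit 3629) (nat_lit 621) (nat_lit 1613)) (.a (.d (nat_lit 621) (nat_lit 593) (nat_lit 1613) (nat_lit 653) (nat_lit 5645)) (.d (nat_lit 621) (nat_lit 620) (nat_lit 2636) (nat_lit 653) (nat_lit 5645)))))))))))))) (.a (.f (nat_lit 593) (nat_lit 594) (nat_lit 558) (.f (nat_lit 557) (nat_lit 592) (nat_lit 557) (.d (nat_lit 525) (nat_lit 524) (nat_lit 3596) (nat_lit 526) (nat_lit 3597)))) (.a (.f (nat_lit 526) (nat_lit 525) (nat_lit 3597) (.f (nat_lit 590) (nat_lit 589) (nat_lit 1581) (.f (nat_lit 593) (nat_lit 594) (nat_lit 558) (.p (nat_lit 623) (.a (.d (nat_lit 591) (nat_lit 494) (nat_lit 4590) (nat_lit 655) (nat_lit 7694)) (.a (.f (nat_lit 622) (nat_lit 655) (nat_lit 4622) (.f (nat_lit 654) (nat_lit 527) (nat_lit 6670) (.d (nat_lit 653) (nat_lit 621) (nat_lit 5645) (nat_lit 685) (nat_lit 5677)))) (.f (nat_lit 494) (nat_lit 591) (nat_lit 4590) (.p (nat_lit 462) (.a (.d (nat_lit 461) (nat_lit 429) (nat_lit 7597) (nat_lit 493) (nat_lit 7629)) (.f (nat_lit 430) (nat_lit 527) (nat_lit 4526) (.d (nat_lit 431) (nat_lit 399) (nat_lit 6542) (nat_lit 463) (nat_lit 6574)))))))))))) (.f (nat_lit 526) (nat_lit 525) (nat_lit 3597) (.f (nat_lit 589) (nat_lit 590) (nat_lit 1581) (.p (nat_lit 623) (.a (.f (nat_lit 591) (nat_lit 655) (nat_lit 6671) (.d (nat_lit 494) (nat_lit 462) (nat_lit 4558) (nat_lit 527) (nat_lit 7662))) (.a (.f (nat_lit 591) (nat_lit 655) (nat_lit 6671) (.f (nat_lit 557) (nat_lit 588) (nat_lit 1580) (.d (nat_lit 556) (nat_lit 527) (nat_lit 2572) (nat_lit 592) (nat_lit 556)))) (.a (.p (nat_lit 624) (.a (.f (nat_lit 557) (nat_lit 588) (nat_lit 1580) (.f (nat_lit 527) (nat_lit 556) (nat_lit 2572) (.d (nat_lit 592) (nat_lit 655) (nat_lit 5647) (nat_lit 656) (nat_lit 7695)))) (.a (.f (nat_lit 592) (nat_lit 655) (nat_lit 5647) (.f (nat_lit 656) (nat_lit 527) (nat_lit 7695) (.d (nat_lit 657) (nat_lit 625) (nat_lit 4624) (nat_lit 689) (nat_lit 4656)))) (.a (.f (nat_lit 557) (nat_lit 588) (nat_lit 1580) (.p (nat_lit 657) (.a (.f (nat_lit 527) (nat_lit 556) (nat_lit 2572) (.f (nat_lit 621) (nat_lit 653) (nat_lit 6669) (.d (nat_lit 656) (nat_lit 592) (nat_lit 7695) (nat_lit 622) (nat_lit 621)))) (.a (.f (nat_lit 527) (nat_lit 556) (nat_lit 2572) (.d (nat_lit 592) (nat_lit 625) (nat_lit 4624) (nat_lit 656) (nat_lit 7695))) (.a (.p (nat_lit 656) (.a (.d (nat_lit 592) (nat_lit 527) (nat_lit 7695) (nat_lit 689) (nat_lit 4656)) (.d (nat_lit 621) (nat_lit 622) (nat_lit 621) (nat_lit 653) (nat_lit 6669)))) (.a (.p (nat_lit 658) (.a (.f (nat_lit 621) (nat_lit 653) (nat_lit 6669) (.d (nat_lit 656) (nat_lit 622) (nat_lit 621) (nat_lit 659) (nat_lit 3695))) (.a (.f (nat_lit 659) (nat_lit 656) (nat_lit 3695) (.d (nat_lit 625) (nat_lit 626) (nat_lit 623) (nat_lit 660) (nat_lit 3696))) (.a (.f (nat_lit 621) (nat_lit 653) (nat_lit 6669) (.d (nat_lit 622) (nat_lit 625) (nat_lit 622) (nat_lit 656) (nat_lit 621))) (.f (nat_lit 625) (nat_lit 622) (nat_lit 622) (.d (nat_lit 659) (nat_lit 626) (nat_lit 623) (nat_lit 660) (nat_lit 3696))))))) (.f (nat_lit 625) (nat_lit 592) (nat_lit 4624) (.f (nat_lit 622) (nat_lit 658) (nat_lit 622) (.d (nat_lit 653) (nat_lit 621) (nat_lit 6669) (nat_lit 654) (nat_lit 1645)))))))))) (.a (.p (nat_lit 621) (.a (.d (nat_lit 557) (nat_lit 588) (nat_lit 1580) (nat_lit 653) (nat_lit 6669)) (.a (.f (nat_lit 622) (nat_lit 588) (nat_lit 3660) (.f (nat_lit 653) (nat_lit 652) (nat_lit 1644) (.f (nat_lit 625) (nat_lit 654) (nat_lit 1645) (.d (nat_lit 657) (nat_lit 656) (nat_lit 621) (nat_lit 658) (nat_lit 622))))) (.a (.f (nat_lit 653) (nat_lit 557) (nat_lit 6669) (.f (nat_lit 622) (nat_lit 652) (nat_lit 1644) (.f (nat_lit 625) (nat_lit 654) (nat_lit 1645) (.d (nat_lit 657) (nat_lit 656) (nat_lit 621) (nat_lit 658) (nat_lit 622))))) (.d (nat_lit 588) (nat_lit 557) (nat_lit 1580) (nat_lit 622) (nat_lit 3660)))))) (.f (nat_lit 557) (nat_lit 588) (nat_lit 1580) (.f (nat_lit 653) (nat_lit 621) (nat_lit 6669) (.f (nat_lit 655) (nat_lit 592) (nat_lit 5647) (.f (nat_lit 654) (nat_lit 652) (nat_lit 2668) (.d (nat_lit 625) (nat_lit 622) (nat_lit 1645) (nat_lit 626) (nat_lit 1646))))))))))) (.a (.f (nat_lit 557) (nat_lit 588) (nat_lit 1580) (.f (nat_lit 527) (nat_lit 556) (nat_lit 2572) (.d (nat_lit 494) (nat_lit 462) (nat_lit 5581) (nat_lit 591) (nat_lit 7662)))) (.f (nat_lit 655) (nat_lit 591) (nat_lit 6671) (.f (nat_lit 557) (nat_lit 588) (nat_lit 1580) (.f (nat_lit 653) (nat_lit 621) (nat_lit 6669) (.f (nat_lit 624) (nat_lit 592) (nat_lit 5647) (.f (nat_lit 654) (nat_lit 652) (nat_lit 2668) (.d (nat_lit 625) (nat_lit 622) (nat_lit 1645) (nat_lit 626) (nat_lit 1646)))))))))))))))))))) (.p (nat_lit 558) (.a (.f (nat_lit 590) (nat_lit 589) (nat_lit 1581) (.f (nat_lit 591) (nat_lit 562) (nat_lit 1582) (.f (nat_lit 623) (nat_lit 655) (nat_lit 6671) (.d (nat_lit 526) (nat_lit 494) (nat_lit 4590) (nat_lit 525) (nat_lit 3597))))) (.a (.f (nat_lit 593) (nat_lit 594) (nat_lit 558) (.f (nat_lit 557) (nat_lit 592) (nat_lit 557) (.d (nat_lit 589) (nat_lit 588) (nat_lit 1580) (nat_lit 590) (nat_lit 1581)))) (.f (nat_lit 593) (nat_lit 594) (nat_lit 558) (.f (nat_lit 557) (nat_lit 592) (nat_lit 557) (.d (nat_lit 525) (nat_lit 524) (nat_lit 3596) (nat_lit 526) (nat_lit 3597))))))))))))))) (.a (.p (nat_lit 623) (.a (.f (nat_lit 591) (nat_lit 655) (nat_lit 6671) (.p (nat_lit 527) (.a (.f (nat_lit 624) (nat_lit 656) (nat_lit 4623) (.f (nat_lit 495) (nat_lit 592) (nat_lit 7663) (.d (nat_lit 622) (nat_lit 590) (nat_lit 5614) (nat_lit 654) (nat_lit 5646)))) (.a (.f (nat_lit 624) (nat_lit 656) (nat_lit 4623) (.f (nat_lit 495) (nat_lit 592) (nat_lit 7663) (.d (nat_lit 494) (nat_lit 462) (nat_lit 7630) (nat_lit 526) (nat_lit 7662)))) (.a (.f (nat_lit 526) (nat_lit 494) (nat_lit 7662) (.f (nat_lit 525) (nat_lit 524) (nat_lit 524) (.f (nat_lit 622) (nat_lit 654) (nat_lit 5646) (.f (nat_lit 590) (nat_lit 495) (nat_lit 5614) (.d (nat_lit 493) (nat_lit 492) (nat_lit 3564) (nat_lit 558) (nat_lit 7661)))))) s54649))))) (.a (.f (nat_lit 591) (nat_lit 655) (nat_lit 6671) (.p (nat_lit 527) (.a (.f (nat_lit 624) (nat_lit 656) (nat_lit 4623) (.f (nat_lit 495) (nat_lit 592) (nat_lit 7663) (.d (nat_lit 622) (nat_lit 590) (nat_lit 5614) (nat_lit 654) (nat_lit 5646)))) (.a (.f (nat_lit 624) (nat_lit 656) (nat_lit 4623) (.f (nat_lit 592) (nat_lit 495) (nat_lit 7663) (.f (nat_lit 625) (nat_lit 657) (nat_lit 4624) (.d (nat_lit 590) (nat_lit 589) (nat_lit 589) (nat_lit 626) (nat_lit 3662))))) (.a (.f (nat_lit 526) (nat_lit 494) (nat_lit 7662) (.f (nat_lit 525) (nat_lit 524) (nat_lit 524) (.f (nat_lit 622) (nat_lit 654) (nat_lit 5646) (.f (nat_lit 590) (nat_lit 495) (nat_lit 5614) (.d (nat_lit 493) (nat_lit 492) (nat_lit 3564) (nat_lit 558) (nat_lit 7661)))))) (.a (.f (nat_lit 624) (nat_lit 656) (nat_lit 4623) (.f (nat_lit 592) (nat_lit 495) (nat_lit 7663) (.f (nat_lit 622) (nat_lit 654) (nat_lit 5646) (.d (nat_lit 593) (nat_lit 594) (nat_lit 1614) (nat_lit 621) (nat_lit 2637))))) (.f (nat_lit 624) (nat_lit 656) (nat_lit 4623) (.f (nat_lit 622) (nat_lit 654) (nat_lit 5646) (.p (nat_lit 592) (.a (.d (nat_lit 593) (nat_lit 594) (nat_lit 1614) (nat_lit 621) (nat_lit 2637)) (.a (.d (nat_lit 621) (nat_lit 593) (nat_lit 2637) (nat_lit 620) (nat_lit 2636)) (.f (nat_lit 625) (nat_lit 657) (nat_lit 4624) (.d (nat_lit 590) (nat_lit 589) (nat_lit 589) (nat_lit 626) (nat_lit 3662)))))))))))))) (.a (.f (nat_lit 591) (nat_lit 655) (nat_lit 6671) (.p (nat_lit 527) (.a (.f (nat_lit 624) (nat_lit 656) (nat_lit 4623) (.f (nat_lit 495) (nat_lit 592) (nat_lit 7663) (.d (nat_lit 494) (nat_lit 462) (nat_lit 7630) (nat_lit 526) (nat_lit 7662)))) (.a (.f (nat_lit 624) (nat_lit 656) (nat_lit 4623) (.f (nat_lit 592) (nat_lit 495) (nat_lit 7663) (.f (nat_lit 625) (nat_lit 657) (nat_lit 4624) (.d (nat_lit 590) (nat_lit 589) (nat_lit 589) (nat_lit 626) (nat_lit 3662))))) (.a (.f (nat_lit 494) (nat_lit 526) (nat_lit 7662) (.f (nat_lit 495) (nat_lit 462) (nat_lit 7630) (.d (nat_lit 463) (nat_lit 431) (nat_lit 4527) (nat_lit 592) (nat_lit 4559)))) (.a s54694 s54718)))))) (.a (.f (nat_lit 591) (nat_lit 655) (nat_lit 6671) s54077) (.a (.f (nat_lit 591) (nat_lit 655) (nat_lit 6671) (.p (nat_lit 527) (.a (.f (nat_lit 526) (nat_lit 494) (nat_lit 7662) (.f (nat_lit 525) (nat_lit 524) (nat_lit 524) (.f (nat_lit 622) (nat_lit 654) (nat_lit 5646) (.f (nat_lit 590) (nat_lit 495) (nat_lit 5614) (.d (nat_lit 493) (nat_lit 492) (nat_lit 3564) (nat_lit 558) (nat_lit 7661)))))) (.a (.f (nat_lit 494) (nat_lit 526) (nat_lit 7662) (.f (nat_lit 495) (nat_lit 462) (nat_lit 7630) (.d (nat_lit 463) (nat_lit 431) (nat_lit 4527) (nat_lit 592) (nat_lit 4559)))) (.a (.f (nat_lit 622) (nat_lit 654) (nat_lit 5646) (.f (nat_lit 495) (nat_lit 590) (nat_lit 5614) (.d (nat_lit 463) (nat_lit 431) (nat_lit 4527) (nat_lit 592) (nat_lit 4559)))) (.f (nat_lit 526) (nat_lit 494) (nat_lit 7662) (.f (nat_lit 525) (nat_lit 524) (nat_lit 524) (.f (nat_lit 557) (nat_lit 556) (nat_lit 1548) (.f (nat_lit 622) (nat_lit 654) (nat_lit 5646) (.p (nat_lit 558) (.a (.d (nat_lit 493) (nat_lit 492) (nat_lit 3564) (nat_lit 590) (nat_lit 7661)) (.p (nat_lit 621) (.a (.d (nat_lit 592) (nat_lit 593) (nat_lit 557) (nat_lit 620) (nat_lit 2636)) (.d (nat_lit 589) (nat_lit 588) (nat_lit 1580) (nat_lit 653) (nat_lit 6669))))))))))))))) (.a (.p (nat_lit 624) (.a (.f (nat_lit 592) (nat_lit 655) (nat_lit 5647) (.d (nat_lit 527) (nat_lit 495) (nat_lit 7663) (nat_lit 656) (nat_lit 7695))) (.a (.p (nat_lit 592) (.a (.d (nat_lit 527) (nat_lit 495) (nat_lit 7663) (nat_lit 656) (nat_lit 7695)) (.a s54745 (.a (.f (nat_lit 625) (nat_lit 657) (nat_lit 4624) (.p (nat_lit 622) (.a (.d (nat_lit 593) (nat_lit 594) (nat_lit 2638) (nat_lit 621) (nat_lit 2637)) (.a (.f (nat_lit 621) (nat_lit 593) (nat_lit 2637) (.d (nat_lit 653) (nat_lit 652) (nat_lit 1644) (nat_lit 654) (nat_lit 1645))) (.a (.f (nat_lit 593) (nat_lit 594) (nat_lit 2638) (.f (nat_lit 558) (nat_lit 557) (nat_lit 557) (.f (nat_lit 527) (nat_lit 656) (nat_lit 7695) (.d (nat_lit 654) (nat_lit 590) (nat_lit 6670) (nat_lit 653) (nat_lit 1645))))) (.p (nat_lit 621) (.a (.d (nat_lit 653) (nat_lit 652) (nat_lit 1644) (nat_lit 654) (nat_lit 1645)) (.d (nat_lit 589) (nat_lit 588) (nat_lit 3660) (nat_lit 590) (nat_lit 3661))))))))) s54771)))) (.a (.p (nat_lit 622) (.a (.p (nat_lit 621) (.a (.f (nat_lit 589) (nat_lit 588) (nat_lit 3660) (.f (nat_lit 653) (nat_lit 652) (nat_lit 1644) (.f (nat_lit 656) (nat_lit 657) (nat_lit 621) (.p (nat_lit 654) (.a (.d (nat_lit 557) (nat_lit 525) (nat_lit 4621) (nat_lit 686) (nat_lit 4653)) (.p (nat_lit 590) (.a (.f (nat_lit 655) (nat_lit 620) (nat_lit 620) (.d (nat_lit 685) (nat_lit 684) (nat_lit 1676) (nat_lit 717) (nat_lit 6733))) (.d (nat_lit 558) (nat_lit 526) (nat_lit 5645) (nat_lit 527) (nat_lit 6670))))))))) (.a (.p (nat_lit 620) (.a (.d (nat_lit 656) (nat_lit 655) (nat_lit 620) (nat_lit 657) (nat_lit 621)) (.d (nat_lit 652) (nat_lit 651) (nat_lit 1643) (nat_lit 653) (nat_lit 1644)))) (.a (.f (nat_lit 589) (nat_lit 588) (nat_lit 3660) (.f (nat_lit 653) (nat_lit 652) (nat_lit 1644) (.p (nat_lit 557) (.a (.d (nat_lit 654) (nat_lit 525) (nat_lit 4621) (nat_lit 686) (nat_lit 4653)) (.a (.f (nat_lit 558) (nat_lit 526) (nat_lit 6669) (.d (nat_lit 524) (nat_lit 525) (nat_lit 3596) (nat_lit 556) (nat_lit 7692))) (.f (nat_lit 558) (nat_lit 526) (nat_lit 6669) (.d (nat_lit 556) (nat_lit 524) (nat_lit 7692) (nat_lit 527) (nat_lit 2572)))))))) (.f (nat_lit 588) (nat_lit 589) (nat_lit 3660) (.f (nat_lit 620) (nat_lit 587) (nat_lit 3659) (.d (nat_lit 656) (nat_lit 655) (nat_lit 620) (nat_lit 657) (nat_lit 621)))))))) (.a (.p (nat_lit 625) (.a (.f (nat_lit 654) (nat_lit 653) (nat_lit 1645) (.f (nat_lit 626) (nat_lit 655) (nat_lit 1646) (.d (nat_lit 658) (nat_lit 657) (nat_lit 622) (nat_lit 659) (nat_lit 623)))) (.a (.f (nat_lit 654) (nat_lit 653) (nat_lit 1645) (.f (nat_lit 590) (nat_lit 589) (nat_lit 3661) (.f (nat_lit 655) (nat_lit 626) (nat_lit 1646) (.d (nat_lit 558) (nat_lit 526) (nat_lit 4622) (nat_lit 527) (nat_lit 6670))))) (.f (nat_lit 657) (nat_lit 658) (nat_lit 622) (.f (nat_lit 621) (nat_lit 656) (nat_lit 621) (.d (nat_lit 589) (nat_lit 588) (nat_lit 3660) (nat_lit 590) (nat_lit 3661))))))) (.a (.p (nat_lit 621) (.a (.p (nat_lit 620) (.a (.d (nat_lit 656) (nat_lit 655) (nat_lit 620) (nat_lit 657) (nat_lit 621)) (.d (nat_lit 652) (nat_lit 651) (nat_lit 1643) (nat_lit 653) (nat_lit 1644)))) (.a (.f (nat_lit 653) (nat_lit 652) (nat_lit 1644) (.f (nat_lit 625) (nat_lit 654) (nat_lit 1645) (.d (nat_lit 657) (nat_lit 656) (nat_lit 621) (nat_lit 658) (nat_lit 622)))) (.a (.f (nat_lit 653) (nat_lit 652) (nat_lit 1644) (.f (nat_lit 625) (nat_lit 654) (nat_lit 1645) (.f (nat_lit 588) (nat_lit 589) (nat_lit 3660) (.f (nat_lit 594) (nat_lit 593) (nat_lit 2638) (.f (nat_lit 626) (nat_lit 595) (nat_lit 2639) (.d (nat_lit 658) (nat_lit 657) (nat_lit 622) (nat_lit 659) (nat_lit 623))))))) (.a (.f (nat_lit 653) (nat_lit 652) (nat_lit 1644) (.f (nat_lit 589) (nat_lit 588) (nat_lit 3660) (.f (nat_lit 654) (nat_lit 625) (nat_lit 1645) (.d (nat_lit 557) (nat_lit 525) (nat_lit 4621) (nat_lit 686) (nat_lit 4653))))) (.f (nat_lit 588) (nat_lit 589) (nat_lit 3660) (.f (nat_lit 620) (nat_lit 587) (nat_lit 3659) (.d (nat_lit 656) (nat_lit 655) (nat_lit 620) (nat_lit 657) (nat_lit 621))))))))) (.a (.p (nat_lit 625) (.a (.f (nat_lit 654) (nat_lit 653) (nat_lit 1645) (.f (nat_lit 626) (nat_lit 655) (nat_lit 1646) (.d (nat_lit 658) (nat_lit 657) (nat_lit 622) (nat_lit 659) (nat_lit 623)))) (.a (.f (nat_lit 654) (nat_lit 653) (nat_lit 1645) (.f (nat_lit 590) (nat_lit 589) (nat_lit 3661) (.f (nat_lit 655) (nat_lit 626) (nat_lit 1646) (.d (nat_lit 558) (nat_lit 526) (nat_lit 4622) (nat_lit 527) (nat_lit 6670))))) (.a (.f (nat_lit 594) (nat_lit 593) (nat_lit 2638) (.f (nat_lit 626) (nat_lit 595) (nat_lit 2639) (.d (nat_lit 658) (nat_lit 657) (nat_lit 622) (nat_lit 659) (nat_lit 623)))) (.f (nat_lit 590) (nat_lit 589) (nat_lit 3661) (.f (nat_lit 654) (nat_lit 653) (nat_lit 1645) (.f (nat_lit 558) (nat_lit 527) (nat_lit 6670) (.d (nat_lit 655) (nat_lit 526) (nat_lit 4622) (nat_lit 687) (nat_lit 4654))))))))) (.a (.p (nat_lit 625) (.a (.f (nat_lit 657) (nat_lit 658) (nat_lit 622) (.f (nat_lit 621) (nat_lit 656) (nat_lit 621) (.d (nat_lit 589) (nat_lit 588) (nat_lit 3660) (nat_lit 590) (nat_lit 3661)))) (.a (.f (nat_lit 657) (nat_lit 658) (nat_lit 622) (.f (nat_lit 621) (nat_lit 656) (nat_lit 621) (.d (nat_lit 653) (nat_lit 652) (nat_lit 1644) (nat_lit 654) (nat_lit 1645)))) (.a (.p (nat_lit 621) (.a (.d (nat_lit 653) (nat_lit 652) (nat_lit 1644) (nat_lit 654) (nat_lit 1645)) (.d (nat_lit 589) (nat_lit 588) (nat_lit 3660) (nat_lit 590) (nat_lit 3661)))) (.f (nat_lit 594) (nat_lit 593) (nat_lit 2638) (.f (nat_lit 626) (nat_lit 595) (nat_lit 2639) (.d (nat_lit 658) (nat_lit 657) (nat_lit 622) (nat_lit 659) (nat_lit 623)))))))) (.a (.p (nat_lit 621) (.a (.f (nat_lit 588) (nat_lit 589) (nat_lit 3660) (.f (nat_lit 620) (nat_lit 587) (nat_lit 3659) (.d (nat_lit 656) (nat_lit 655) (nat_lit 620) (nat_lit 657) (nat_lit 621)))) (.a (.f (nat_lit 589) (nat_lit 588) (nat_lit 3660) (.f (nat_lit 625) (nat_lit 590) (nat_lit 3661) (.d (nat_lit 657) (nat_lit 656) (nat_lit 621) (nat_lit 658) (nat_lit 622)))) (.a (.p (nat_lit 620) (.a (.d (nat_lit 656) (nat_lit 655) (nat_lit 620) (nat_lit 657) (nat_lit 621)) (.d (nat_lit 652) (nat_lit 651) (nat_lit 1643) (nat_lit 653) (nat_lit 1644)))) (.a (.f (nat_lit 589) (nat_lit 588) (nat_lit 3660) (.f (nat_lit 625) (nat_lit 590) (nat_lit 3661) (.f (nat_lit 652) (nat_lit 653) (nat_lit 1644) (.f (nat_lit 594) (nat_lit 593) (nat_lit 2638) (.f (nat_lit 626) (nat_lit 595) (nat_lit 2639) (.d (nat_lit 658) (nat_lit 657) (nat_lit 622) (nat_lit 659) (nat_lit 623))))))) (.f (nat_lit 589) (nat_lit 588) (nat_lit 3660) (.f (nat_lit 590) (nat_lit 625) (nat_lit 3661) (.f (nat_lit 653) (nat_lit 652) (nat_lit 1644) (.d (nat_lit 558) (nat_lit 526) (nat_lit 5645) (nat_lit 685) (nat_lit 6701)))))))))) (.a (.p (nat_lit 625) (.a (.f (nat_lit 654) (nat_lit 653) (nat_lit 1645) (.f (nat_lit 626) (nat_lit 655) (nat_lit 1646) (.d (nat_lit 658) (nat_lit 657) (nat_lit 622) (nat_lit 659) (nat_lit 623)))) (.a (.f (nat_lit 594) (nat_lit 593) (nat_lit 2638) (.f (nat_lit 626) (nat_lit 595) (nat_lit 2639) (.d (nat_lit 654) (nat_lit 653) (nat_lit 1645) (nat_lit 655) (nat_lit 1646)))) (.a (.f (nat_lit 657) (nat_lit 658) (nat_lit 622) (.f (nat_lit 594) (nat_lit 593) (nat_lit 2638) (.f (nat_lit 626) (nat_lit 595) (nat_lit 2639) (.f (nat_lit 621) (nat_lit 656) (nat_lit 621) (.d (nat_lit 653) (nat_lit 652) (nat_lit 1644) (nat_lit 654) (nat_lit 1645)))))) (.a (.f (nat_lit 657) (nat_lit 658) (nat_lit 622) (.f (nat_lit 594) (nat_lit 593) (nat_lit 2638) (.f (nat_lit 626) (nat_lit 595) (nat_lit 2639) (.f (nat_lit 656) (nat_lit 621) (nat_lit 621) (.d (nat_lit 627) (nat_lit 628) (nat_lit 1648) (nat_lit 655) (nat_lit 1647)))))) (.f (nat_lit 657) (nat_lit 658) (nat_lit 622) (.f (nat_lit 621) (nat_lit 656) (nat_lit 621) (.d (nat_lit 653) (nat_lit 652) (nat_lit 1644) (nat_lit 654) (nat_lit 1645))))))))) (.a (.p (nat_lit 621) (.a (.f (nat_lit 589) (nat_lit 588) (nat_lit 3660) (.f (nat_lit 653) (nat_lit 652) (nat_lit 1644) (.p (nat_lit 557) (.a (.d (nat_lit 654) (nat_lit 525) (nat_lit 4621) (nat_lit 686) (nat_lit 4653)) (.a (.f (nat_lit 558) (nat_lit 526) (nat_lit 6669) (.d (nat_lit 524) (nat_lit 525) (nat_lit 3596) (nat_lit 556) (nat_lit 7692))) (.p (nat_lit 590) (.a (.d (nat_lit 558) (nat_lit 526) (nat_lit 6669) (nat_lit 685) (nat_lit 6701)) (.a (.f (nat_lit 686) (nat_lit 654) (nat_lit 7725) (.d (nat_lit 685) (nat_lit 717) (nat_lit 6733) (nat_lit 718) (nat_lit 4685))) (.f (nat_lit 558) (nat_lit 526) (nat_lit 5645) (.d (nat_lit 527) (nat_lit 556) (nat_lit 2572) (nat_lit 654) (nat_lit 6670))))))))))) (.a (.f (nat_lit 589) (nat_lit 588) (nat_lit 3660) (.f (nat_lit 653) (nat_lit 652) (nat_lit 1644) (.d (nat_lit 625) (nat_lit 590) (nat_lit 3661) (nat_lit 654) (nat_lit 1645)))) (.a (.f (nat_lit 653) (nat_lit 652) (nat_lit 1644) (.f (nat_lit 589) (nat_lit 588) (nat_lit 3660) (.f (nat_lit 654) (nat_lit 625) (nat_lit 1645) (.d (nat_lit 557) (nat_lit 525) (nat_lit 4621) (nat_lit 686) (nat_lit 4653))))) (.a (.f (nat_lit 589) (nat_lit 588) (nat_lit 3660) (.f (nat_lit 590) (nat_lit 625) (nat_lit 3661) (.f (nat_lit 653) (nat_lit 652) (nat_lit 1644) (.d (nat_lit 558) (nat_lit 526) (nat_lit 5645) (nat_lit 685) (nat_lit 6701))))) (.a (.f (nat_lit 653) (nat_lit 652) (nat_lit 1644) (.f (nat_lit 654) (nat_lit 625) (nat_lit 1645) (.p (nat_lit 620) (.a (.d (nat_lit 655) (nat_lit 619) (nat_lit 619) (nat_lit 656) (nat_lit 620)) (.a (.p (nat_lit 590) (.a (.d (nat_lit 558) (nat_lit 526) (nat_lit 5645) (nat_lit 527) (nat_lit 6670)) (.f (nat_lit 587) (nat_lit 588) (nat_lit 3659) (.d (nat_lit 619) (nat_lit 586) (nat_lit 3658) (nat_lit 618) (nat_lit 618))))) (.p (nat_lit 558) (.a (.d (nat_lit 590) (nat_lit 526) (nat_lit 5645) (nat_lit 527) (nat_lit 6670)) (.a (.p (nat_lit 524) (.a (.f (nat_lit 525) (nat_lit 557) (nat_lit 3596) (.d (nat_lit 526) (nat_lit 523) (nat_lit 523) (nat_lit 527) (nat_lit 524))) (.d (nat_lit 588) (nat_lit 556) (nat_lit 4620) (nat_lit 587) (nat_lit 3659)))) (.a (.d (nat_lit 590) (nat_lit 527) (nat_lit 6670) (nat_lit 685) (nat_lit 5677)) (.d (nat_lit 590) (nat_lit 526) (nat_lit 5645) (nat_lit 685) (nat_lit 5677))))))))))) (.a (.f (nat_lit 653) (nat_lit 652) (nat_lit 1644) (.f (nat_lit 654) (nat_lit 625) (nat_lit 1645) (.p (nat_lit 558) (.a (.d (nat_lit 590) (nat_lit 526) (nat_lit 5645) (nat_lit 527) (nat_lit 6670)) (.a (.p (nat_lit 557) (.a (.d (nat_lit 525) (nat_lit 524) (nat_lit 3596) (nat_lit 589) (nat_lit 4621)) (.a (.p (nat_lit 620) (.a (.d (nat_lit 655) (nat_lit 619) (nat_lit 619) (nat_lit 656) (nat_lit 620)) (.f (nat_lit 556) (nat_lit 527) (nat_lit 2572) (.d (nat_lit 524) (nat_lit 523) (nat_lit 3595) (nat_lit 525) (nat_lit 3596))))) (.d (nat_lit 589) (nat_lit 526) (nat_lit 6669) (nat_lit 686) (nat_lit 4653))))) (.a (.d (nat_lit 590) (nat_lit 527) (nat_lit 6670) (nat_lit 685) (nat_lit 5677)) (.d (nat_lit 590) (nat_lit 526) (nat_lit 5645) (nat_lit 685) (nat_lit 5677)))))))) (.f (nat_lit 589) (nat_lit 588) (nat_lit 3660) (.f (nat_lit 590) (nat_lit 625) (nat_lit 3661) (.p (nat_lit 654) (.a (.d (nat_lit 557) (nat_lit 525) (nat_lit 4621) (nat_lit 686) (nat_lit 7725)) (.p (nat_lit 655) (.a (.d (nat_lit 558) (nat_lit 526) (nat_lit 4622) (nat_lit 527) (nat_lit 6670)) (.d (nat_lit 620) (nat_lit 619) (nat_lit 619) (nat_lit 656) (nat_lit 620))))))))))))))) (.p (nat_lit 625) (.a (.f (nat_lit 657) (nat_lit 658) (nat_lit 622) (.f (nat_lit 621) (nat_lit 656) (nat_lit 621) (.d (nat_lit 589) (nat_lit 588) (nat_lit 3660) (nat_lit 590) (nat_lit 3661)))) (.a (.f (nat_lit 657) (nat_lit 658) (nat_lit 622) (.f (nat_lit 594) (nat_lit 593) (nat_lit 2638) (.f (nat_lit 626) (nat_lit 595) (nat_lit 2639) (.f (nat_lit 656) (nat_lit 621) (nat_lit 621) (.d (nat_lit 655) (nat_lit 627) (nat_lit 1647) (nat_lit 654) (nat_lit 1646)))))) (.a (.f (nat_lit 589) (nat_lit 590) (nat_lit 3661) (.f (nat_lit 621) (nat_lit 588) (nat_lit 3660) (.f (nat_lit 656) (nat_lit 657) (nat_lit 621) (.f (nat_lit 655) (nat_lit 620) (nat_lit 620) (.d (nat_lit 626) (nat_lit 627) (nat_lit 1647) (nat_lit 654) (nat_lit 1646)))))) (.a (.f (nat_lit 594) (nat_lit 593) (nat_lit 2638) (.f (nat_lit 626) (nat_lit 595) (nat_lit 2639) (.d (nat_lit 658) (nat_lit 657) (nat_lit 622) (nat_lit 659) (nat_lit 623)))) (.f (nat_lit 589) (nat_lit 590) (nat_lit 3661) (.f (nat_lit 621) (nat_lit 588) (nat_lit 3660) (.f (nat_lit 594) (nat_lit 593) (nat_lit 2638) (.f (nat_lit 626) (nat_lit 595) (nat_lit 2639) (.f (nat_lit 655) (nat_lit 654) (nat_lit 1646) (.d (nat_lit 656) (nat_lit 620) (nat_lit 620) (nat_lit 627) (nat_lit 1647))))))))))))))))))))) (.a (.f (nat_lit 592) (nat_lit 655) (nat_lit 5647) s54745) (.f (nat_lit 592) (nat_lit 655) (nat_lit 5647) s54771)))))) (.a (.f (nat_lit 591) (nat_lit 655) (nat_lit 6671) (.p (nat_lit 527) (.a (.f (nat_lit 624) (nat_lit 656) (nat_lit 4623) (.f (nat_lit 495) (nat_lit 592) (nat_lit 7663) (.d (nat_lit 494) (nat_lit 462) (nat_lit 7630) (nat_lit 526) (nat_lit 7662)))) (.a (.f (nat_lit 624) (nat_lit 656) (nat_lit 4623) (.f (nat_lit 592) (nat_lit 495) (nat_lit 7663) (.f (nat_lit 622) (nat_lit 654) (nat_lit 5646) (.d (nat_lit 593) (nat_lit 594) (nat_lit 1614) (nat_lit 621) (nat_lit 2637))))) (.a (.f (nat_lit 494) (nat_lit 526) (nat_lit 7662) (.f (nat_lit 495) (nat_lit 462) (nat_lit 7630) (.d (nat_lit 463) (nat_lit 431) (nat_lit 4527) (nat_lit 592) (nat_lit 4559)))) (.a s55144 s55160)))))) (.a (.p (nat_lit 527) (.a (.p (nat_lit 495) (.a (.d (nat_lit 463) (nat_lit 431) (nat_lit 4527) (nat_lit 592) (nat_lit 4559)) (.a (.d (nat_lit 592) (nat_lit 463) (nat_lit 4559) (nat_lit 624) (nat_lit 7663)) (.a (.f (nat_lit 463) (nat_lit 431) (nat_lit 4527) (.f (nat_lit 558) (nat_lit 590) (nat_lit 5582) (.f (nat_lit 557) (nat_lit 556) (nat_lit 2572) (.f (nat_lit 462) (nat_lit 430) (nat_lit 7598) (.f (nat_lit 494) (nat_lit 591) (nat_lit 7630) (.d (nat_lit 589) (nat_lit 526) (nat_lit 5581) (nat_lit 588) (nat_lit 1580))))))) (.f (nat_lit 624) (nat_lit 592) (nat_lit 7663) (.f (nat_lit 591) (nat_lit 656) (nat_lit 4623) (.d (nat_lit 622) (nat_lit 590) (nat_lit 5614) (nat_lit 654) (nat_lit 5646)))))))) (.a (.p (nat_lit 592) (.a (.d (nat_lit 495) (nat_lit 463) (nat_lit 4559) (nat_lit 624) (nat_lit 7663)) (.a (.f (nat_lit 495) (nat_lit 463) (nat_lit 4559) (.p (nat_lit 591) (.a (.d (nat_lit 622) (nat_lit 590) (nat_lit 5614) (nat_lit 654) (nat_lit 5646)) (.a (.f (nat_lit 526) (nat_lit 494) (nat_lit 7662) (.f (nat_lit 525) (nat_lit 524) (nat_lit 524) (.f (nat_lit 557) (nat_lit 556) (nat_lit 1548) (.f (nat_lit 558) (nat_lit 593) (nat_lit 557) (.f (nat_lit 493) (nat_lit 492) (nat_lit 3564) (.d (nat_lit 461) (nat_lit 429) (nat_lit 4525) (nat_lit 590) (nat_lit 4557))))))) (.f (nat_lit 622) (nat_lit 654) (nat_lit 5646) (.f (nat_lit 593) (nat_lit 594) (nat_lit 1614) (.f (nat_lit 526) (nat_lit 494) (nat_lit 7662) (.f (nat_lit 525) (nat_lit 524) (nat_lit 524) (.d (nat_lit 557) (nat_lit 556) (nat_lit 1548) (nat_lit 558) (nat_lit 557)))))))))) (.a (.d (nat_lit 624) (nat_lit 495) (nat_lit 7663) (nat_lit 656) (nat_lit 7695)) (.f (nat_lit 624) (nat_lit 656) (nat_lit 7695) (.f (nat_lit 625) (nat_lit 657) (nat_lit 4624) (.p (nat_lit 591) (.a (.d (nat_lit 590) (nat_lit 589) (nat_lit 589) (nat_lit 626) (nat_lit 3662)) (.f (nat_lit 622) (nat_lit 654) (nat_lit 5646) (.d (nat_lit 593) (nat_lit 594) (nat_lit 1614) (nat_lit 621) (nat_lit 2637))))))))))) (.a (.p (nat_lit 495) (.a (.d (nat_lit 463) (nat_lit 431) (nat_lit 4527) (nat_lit 592) (nat_lit 4559)) (.a (.d (nat_lit 592) (nat_lit 463) (nat_lit 4559) (nat_lit 624) (nat_lit 7663)) (.a (.f (nat_lit 463) (nat_lit 431) (nat_lit 4527) (.f (nat_lit 462) (nat_lit 430) (nat_lit 7598) (.f (nat_lit 494) (nat_lit 591) (nat_lit 7630) (.f (nat_lit 493) (nat_lit 492) (nat_lit 492) (.d (nat_lit 464) (nat_lit 432) (nat_lit 6575) (nat_lit 465) (nat_lit 1485)))))) (.f (nat_lit 624) (nat_lit 592) (nat_lit 7663) (.f (nat_lit 591) (nat_lit 656) (nat_lit 4623) (.d (nat_lit 494) (nat_lit 462) (nat_lit 7630) (nat_lit 526) (nat_lit 7662)))))))) (.a (.p (nat_lit 495) (.a (.d (nat_lit 463) (nat_lit 431) (nat_lit 4527) (nat_lit 592) (nat_lit 4559)) (.a (.f (nat_lit 463) (nat_lit 592) (nat_lit 4559) (.f (nat_lit 558) (nat_lit 590) (nat_lit 5582) (.f (nat_lit 557) (nat_lit 556) (nat_lit 2572) (.f (nat_lit 462) (nat_lit 430) (nat_lit 7598) (.f (nat_lit 494) (nat_lit 591) (nat_lit 7630) (.d (nat_lit 589) (nat_lit 526) (nat_lit 5581) (nat_lit 588) (nat_lit 1580))))))) (.a (.f (nat_lit 463) (nat_lit 431) (nat_lit 4527) (.f (nat_lit 558) (nat_lit 590) (nat_lit 5582) (.f (nat_lit 557) (nat_lit 556) (nat_lit 2572) (.f (nat_lit 462) (nat_lit 430) (nat_lit 7598) (.f (nat_lit 494) (nat_lit 591) (nat_lit 7630) (.d (nat_lit 589) (nat_lit 526) (nat_lit 5581) (nat_lit 588) (nat_lit 1580))))))) (.p (nat_lit 591) (.a (.d (nat_lit 622) (nat_lit 590) (nat_lit 5614) (nat_lit 654) (nat_lit 5646)) (.d (nat_lit 494) (nat_lit 462) (nat_lit 7630) (nat_lit 526) (nat_lit 7662)))))))) (.a (.p (nat_lit 495) (.a (.d (nat_lit 463) (nat_lit 431) (nat_lit 4527) (nat_lit 592) (nat_lit 4559)) (.a (.d (nat_lit 592) (nat_lit 463) (nat_lit 4559) (nat_lit 624) (nat_lit 7663)) (.a (.f (nat_lit 463) (nat_lit 431) (nat_lit 4527) (.f (nat_lit 558) (nat_lit 590) (nat_lit 5582) (.f (nat_lit 557) (nat_lit 556) (nat_lit 2572) (.f (nat_lit 525) (nat_lit 524) (nat_lit 3596) (.p (nat_lit 493) (.a (.d (nat_lit 492) (nat_lit 494) (nat_lit 492) (nat_lit 526) (nat_lit 3564)) (.a (.f (nat_lit 462) (nat_lit 430) (nat_lit 7598) (.d (nat_lit 589) (nat_lit 494) (nat_lit 6605) (nat_lit 588) (nat_lit 1580))) (.f (nat_lit 492) (nat_lit 526) (nat_lit 3564) (.d (nat_lit 589) (nat_lit 460) (nat_lit 7628) (nat_lit 588) (nat_lit 1580)))))))))) (.f (nat_lit 592) (nat_lit 624) (nat_lit 7663) (.p (nat_lit 557) (.a (.d (nat_lit 558) (nat_lit 556) (nat_lit 2572) (nat_lit 593) (nat_lit 557)) (.a (.f (nat_lit 558) (nat_lit 593) (nat_lit 557) (.f (nat_lit 525) (nat_lit 524) (nat_lit 3596) (.p (nat_lit 526) (.a (.f (nat_lit 493) (nat_lit 492) (nat_lit 3564) (.d (nat_lit 590) (nat_lit 461) (nat_lit 4557) (nat_lit 622) (nat_lit 6638))) (.a (.p (nat_lit 494) (.a (.d (nat_lit 589) (nat_lit 588) (nat_lit 1580) (nat_lit 621) (nat_lit 6637)) (.a (.d (nat_lit 462) (nat_lit 430) (nat_lit 5549) (nat_lit 589) (nat_lit 5581)) (.p (nat_lit 461) (.a (.d (nat_lit 493) (nat_lit 492) (nat_lit 3564) (nat_lit 590) (nat_lit 4557)) (.d (nat_lit 462) (nat_lit 429) (nat_lit 7597) (nat_lit 430) (nat_lit 5549))))))) (.f (nat_lit 589) (nat_lit 588) (nat_lit 1580) (.d (nat_lit 494) (nat_lit 462) (nat_lit 5581) (nat_lit 621) (nat_lit 6637)))))))) (.p (nat_lit 525) (.a (.d (nat_lit 526) (nat_lit 524) (nat_lit 524) (nat_lit 556) (nat_lit 1548)) (.a (.p (nat_lit 493) (.a (.d (nat_lit 492) (nat_lit 494) (nat_lit 492) (nat_lit 526) (nat_lit 3564)) (.a (.p (nat_lit 461) (.a (.p (nat_lit 429) (.a (.d (nat_lit 428) (nat_lit 396) (nat_lit 7564) (nat_lit 460) (nat_lit 7596)) (.p (nat_lit 397) (.a (.d (nat_lit 398) (nat_lit 366) (nat_lit 6509) (nat_lit 430) (nat_lit 6541)) (.d (nat_lit 526) (nat_lit 494) (nat_lit 4493) (nat_lit 524) (nat_lit 524)))))) (.a (.f (nat_lit 462) (nat_lit 430) (nat_lit 6573) (.f (nat_lit 460) (nat_lit 428) (nat_lit 7596) (.d (nat_lit 494) (nat_lit 459) (nat_lit 459) (nat_lit 589) (nat_lit 6605)))) (.a (.f (nat_lit 428) (nat_lit 460) (nat_lit 7596) (.f (nat_lit 429) (nat_lit 396) (nat_lit 7564) (.d (nat_lit 430) (nat_lit 398) (nat_lit 6541) (nat_lit 462) (nat_lit 6573)))) (.a (.p (nat_lit 589) (.a (.p (nat_lit 621) (.a (.d (nat_lit 620) (nat_lit 588) (nat_lit 5612) (nat_lit 652) (nat_lit 5644)) (.d (nat_lit 622) (nat_lit 590) (nat_lit 4589) (nat_lit 654) (nat_lit 4621)))) (.d (nat_lit 462) (nat_lit 430) (nat_lit 6573) (nat_lit 494) (nat_lit 6605)))) (.p (nat_lit 494) (.a (.p (nat_lit 429) (.a (.d (nat_lit 428) (nat_lit 396) (nat_lit 7564) (nat_lit 460) (nat_lit 7596)) (.d (nat_lit 526) (nat_lit 397) (nat_lit 4493) (nat_lit 524) (nat_lit 524)))) (.a (.f (nat_lit 460) (nat_lit 428) (nat_lit 7596) (.d (nat_lit 462) (nat_lit 459) (nat_lit 459) (nat_lit 589) (nat_lit 6605))) (.f (nat_lit 526) (nat_lit 524) (nat_lit 524) (.d (nat_lit 589) (nat_lit 462) (nat_lit 6605) (nat_lit 621) (nat_lit 6637))))))))))) (.a (.d (nat_lit 526) (nat_lit 492) (nat_lit 3564) (nat_lit 524) (nat_lit 524)) (.f (nat_lit 492) (nat_lit 494) (nat_lit 492) (.f (nat_lit 460) (nat_lit 589) (nat_lit 7628) (.d (nat_lit 428) (nat_lit 461) (nat_lit 7596) (nat_lit 524) (nat_lit 4524)))))))) (.a (.p (nat_lit 493) (.a (.f (nat_lit 492) (nat_lit 494) (nat_lit 492) (.f (nat_lit 460) (nat_lit 589) (nat_lit 7628) (.d (nat_lit 428) (nat_lit 461) (nat_lit 7596) (nat_lit 524) (nat_lit 4524)))) (.a (.p (nat_lit 589) (.a (.d (nat_lit 494) (nat_lit 462) (nat_lit 6605) (nat_lit 492) (nat_lit 492)) (.a (.d (nat_lit 492) (nat_lit 460) (nat_lit 7628) (nat_lit 494) (nat_lit 492)) (.p (nat_lit 621) (.a (.d (nat_lit 620) (nat_lit 588) (nat_lit 5612) (nat_lit 652) (nat_lit 5644)) (.d (nat_lit 622) (nat_lit 590) (nat_lit 4589) (nat_lit 654) (nat_lit 4621))))))) (.a (.p (nat_lit 461) (.a (.p (nat_lit 429) (.a (.d (nat_lit 556) (nat_lit 524) (nat_lit 5548) (nat_lit 588) (nat_lit 5580)) (.d (nat_lit 428) (nat_lit 396) (nat_lit 7564) (nat_lit 460) (nat_lit 7596)))) (.a (.f (nat_lit 462) (nat_lit 430) (nat_lit 6573) (.f (nat_lit 460) (nat_lit 428) (nat_lit 7596) (.d (nat_lit 494) (nat_lit 459) (nat_lit 459) (nat_lit 589) (nat_lit 6605)))) (.p (nat_lit 429) (.a (.d (nat_lit 556) (nat_lit 524) (nat_lit 5548) (nat_lit 588) (nat_lit 5580)) (.d (nat_lit 430) (nat_lit 398) (nat_lit 6541) (nat_lit 462) (nat_lit 6573))))))) (.a (.p (nat_lit 589) (.a (.p (nat_lit 621) (.a (.d (nat_lit 620) (nat_lit 588) (nat_lit 5612) (nat_lit 652) (nat_lit 5644)) (.d (nat_lit 622) (nat_lit 590) (nat_lit 4589) (nat_lit 654) (nat_lit 4621)))) (.a (.p (nat_lit 461) (.a (.d (nat_lit 588) (nat_lit 556) (nat_lit 5580) (nat_lit 620) (nat_lit 5612)) (.d (nat_lit 460) (nat_lit 428) (nat_lit 7596) (nat_lit 492) (nat_lit 7628)))) (.f (nat_lit 492) (nat_lit 460) (nat_lit 7628) (.f (nat_lit 621) (nat_lit 524) (nat_lit 7660) (.d (nat_lit 622) (nat_lit 590) (nat_lit 4589) (nat_lit 654) (nat_lit 4621))))))) (.a (.p (nat_lit 461) (.a (.p (nat_lit 429) (.a (.d (nat_lit 556) (nat_lit 524) (nat_lit 5548) (nat_lit 588) (nat_lit 5580)) (.d (nat_lit 428) (nat_lit 396) (nat_lit 7564) (nat_lit 460) (nat_lit 7596)))) (.a (.f (nat_lit 494) (nat_lit 492) (nat_lit 492) (.f (nat_lit 428) (nat_lit 460) (nat_lit 7596) (.f (nat_lit 429) (nat_lit 396) (nat_lit 7564) (.d (nat_lit 430) (nat_lit 398) (nat_lit 6541) (nat_lit 462) (nat_lit 6573))))) (.a (.f (nat_lit 494) (nat_lit 492) (nat_lit 492) (.f (nat_lit 460) (nat_lit 428) (nat_lit 7596) (.d (nat_lit 462) (nat_lit 430) (nat_lit 6573) (nat_lit 459) (nat_lit 459)))) (.p (nat_lit 429) (.a (.d (nat_lit 556) (nat_lit 524) (nat_lit 5548) (nat_lit 588) (nat_lit 5580)) (.d (nat_lit 430) (nat_lit 398) (nat_lit 6541) (nat_lit 462) (nat_lit 6573)))))))) (.p (nat_lit 589) (.a (.p (nat_lit 621) (.a (.d (nat_lit 620) (nat_lit 588) (nat_lit 5612) (nat_lit 652) (nat_lit 5644)) (.d (nat_lit 622) (nat_lit 590) (nat_lit 4589) (nat_lit 654) (nat_lit 4621)))) (.d (nat_lit 494) (nat_lit 462) (nat_lit 6605) (nat_lit 492) (nat_lit 492)))))))))) (.f (nat_lit 556) (nat_lit 526) (nat_lit 1548) (.p (nat_lit 493) (.a (.f (nat_lit 588) (nat_lit 461) (nat_lit 5580) (.d (nat_lit 620) (nat_lit 589) (nat_lit 5612) (nat_lit 652) (nat_lit 6668))) (.a (.p (nat_lit 589) (.a (.d (nat_lit 492) (nat_lit 460) (nat_lit 7628) (nat_lit 494) (nat_lit 492)) (.p (nat_lit 621) (.a (.d (nat_lit 620) (nat_lit 588) (nat_lit 5612) (nat_lit 652) (nat_lit 5644)) (.d (nat_lit 622) (nat_lit 590) (nat_lit 4589) (nat_lit 654) (nat_lit 4621)))))) (.a (.f (nat_lit 461) (nat_lit 588) (nat_lit 5580) (.f (nat_lit 428) (nat_lit 460) (nat_lit 7596) (.f (nat_lit 429) (nat_lit 396) (nat_lit 7564) (.d (nat_lit 430) (nat_lit 398) (nat_lit 6541) (nat_lit 462) (nat_lit 6573))))) (.f (nat_lit 494) (nat_lit 492) (nat_lit 492) (.f (nat_lit 462) (nat_lit 589) (nat_lit 6605) (.d (nat_lit 430) (nat_lit 398) (nat_lit 5517) (nat_lit 461) (nat_lit 6573))))))))))))))))))))) (.a (.p (nat_lit 592) (.a (.d (nat_lit 495) (nat_lit 463) (nat_lit 4559) (nat_lit 624) (nat_lit 7663)) (.a (.f (nat_lit 495) (nat_lit 463) (nat_lit 4559) (.p (nat_lit 622) (.a (.d (nat_lit 591) (nat_lit 590) (nat_lit 5614) (nat_lit 654) (nat_lit 5646)) (.a (.p (nat_lit 558) (.a (.d (nat_lit 557) (nat_lit 556) (nat_lit 2572) (nat_lit 593) (nat_lit 557)) (.d (nat_lit 590) (nat_lit 526) (nat_lit 6638) (nat_lit 654) (nat_lit 6670)))) (.a (.p (nat_lit 557) (.a (.d (nat_lit 558) (nat_lit 556) (nat_lit 2572) (nat_lit 593) (nat_lit 557)) (.a (.f (nat_lit 593) (nat_lit 558) (nat_lit 557) (.d (nat_lit 591) (nat_lit 594) (nat_lit 1614) (nat_lit 654) (nat_lit 5646))) (.p (nat_lit 525) (.a (.d (nat_lit 526) (nat_lit 524) (nat_lit 524) (nat_lit 556) (nat_lit 1548)) (.a (.p (nat_lit 621) (.a (.d (nat_lit 591) (nat_lit 620) (nat_lit 2636) (nat_lit 654) (nat_lit 5646)) (.a (.f (nat_lit 589) (nat_lit 654) (nat_lit 4621) (.d (nat_lit 524) (nat_lit 492) (nat_lit 7660) (nat_lit 526) (nat_lit 524))) (.f (nat_lit 620) (nat_lit 591) (nat_lit 2636) (.d (nat_lit 652) (nat_lit 589) (nat_lit 5644) (nat_lit 651) (nat_lit 1643)))))) (.a (.p (nat_lit 621) (.a (.d (nat_lit 591) (nat_lit 620) (nat_lit 2636) (nat_lit 654) (nat_lit 5646)) (.a (.f (nat_lit 589) (nat_lit 654) (nat_lit 4621) (.f (nat_lit 620) (nat_lit 652) (nat_lit 5644) (.f (nat_lit 493) (nat_lit 588) (nat_lit 5612) (.d (nat_lit 492) (nat_lit 460) (nat_lit 7628) (nat_lit 524) (nat_lit 7660))))) (.a (.f (nat_lit 620) (nat_lit 591) (nat_lit 2636) (.d (nat_lit 652) (nat_lit 589) (nat_lit 5644) (nat_lit 651) (nat_lit 1643))) (.d (nat_lit 654) (nat_lit 589) (nat_lit 4621) (nat_lit 591) (nat_lit 5646)))))) (.p (nat_lit 621) (.a (.d (nat_lit 591) (nat_lit 620) (nat_lit 2636) (nat_lit 654) (nat_lit 5646)) (.a (.p (nat_lit 620) (.a (.d (nat_lit 589) (nat_lit 652) (nat_lit 5644) (nat_lit 654) (nat_lit 4621)) (.a (.d (nat_lit 652) (nat_lit 589) (nat_lit 5644) (nat_lit 651) (nat_lit 1643)) (.a (.f (nat_lit 556) (nat_lit 526) (nat_lit 1548) (.d (nat_lit 588) (nat_lit 587) (nat_lit 3659) (nat_lit 652) (nat_lit 6668))) (.p (nat_lit 493) (.a (.d (nat_lit 588) (nat_lit 587) (nat_lit 3659) (nat_lit 589) (nat_lit 5612)) (.d (nat_lit 526) (nat_lit 492) (nat_lit 3564) (nat_lit 556) (nat_lit 1548)))))))) (.a (.f (nat_lit 620) (nat_lit 591) (nat_lit 2636) (.d (nat_lit 652) (nat_lit 589) (nat_lit 5644) (nat_lit 651) (nat_lit 1643))) (.d (nat_lit 654) (nat_lit 589) (nat_lit 4621) (nat_lit 591) (nat_lit 5646))))))))))))) (.f (nat_lit 590) (nat_lit 591) (nat_lit 5614) (.f (nat_lit 558) (nat_lit 526) (nat_lit 6638) (.d (nat_lit 557) (nat_lit 556) (nat_lit 2572) (nat_lit 593) (nat_lit 557))))))))) (.a (.d (nat_lit 624) (nat_lit 495) (nat_lit 7663) (nat_lit 656) (nat_lit 7695)) (.f (nat_lit 624) (nat_lit 656) (nat_lit 7695) (.f (nat_lit 625) (nat_lit 657) (nat_lit 4624) (.p (nat_lit 593) (.a (.d (nat_lit 594) (nat_lit 595) (nat_lit 1615) (nat_lit 622) (nat_lit 2638)) (.a (.f (nat_lit 594) (nat_lit 595) (nat_lit 3631) (.d (nat_lit 558) (nat_lit 557) (nat_lit 557) (nat_lit 591) (nat_lit 3630))) (.f (nat_lit 622) (nat_lit 621) (nat_lit 2637) (.d (nat_lit 654) (nat_lit 591) (nat_lit 5646) (nat_lit 653) (nat_lit 1645)))))))))))) (.a (.p (nat_lit 495) (.a (.d (nat_lit 463) (nat_lit 431) (nat_lit 4527) (nat_lit 592) (nat_lit 4559)) (.a (.d (nat_lit 592) (nat_lit 463) (nat_lit 4559) (nat_lit 624) (nat_lit 7663)) (.a (.f (nat_lit 463) (nat_lit 431) (nat_lit 4527) (.f (nat_lit 590) (nat_lit 558) (nat_lit 5582) (.f (nat_lit 591) (nat_lit 622) (nat_lit 5614) (.d (nat_lit 462) (nat_lit 430) (nat_lit 7598) (nat_lit 494) (nat_lit 7630))))) (.f (nat_lit 624) (nat_lit 592) (nat_lit 7663) (.f (nat_lit 591) (nat_lit 656) (nat_lit 4623) (.d (nat_lit 622) (nat_lit 590) (nat_lit 5614) (nat_lit 654) (nat_lit 5646)))))))) (.a (.p (nat_lit 591) (.a (.f (nat_lit 526) (nat_lit 494) (nat_lit 7662) (.f (nat_lit 525) (nat_lit 524) (nat_lit 524) (.f (nat_lit 622) (nat_lit 654) (nat_lit 5646) (.f (nat_lit 590) (nat_lit 495) (nat_lit 5614) (.d (nat_lit 493) (nat_lit 492) (nat_lit 3564) (nat_lit 558) (nat_lit 7661)))))) (.a s54694 (.a (.f (nat_lit 622) (nat_lit 654) (nat_lit 5646) (.f (nat_lit 590) (nat_lit 495) (nat_lit 5614) (.f (nat_lit 589) (nat_lit 588) (nat_lit 2604) (.d (nat_lit 624) (nat_lit 625) (nat_lit 3661) (nat_lit 656) (nat_lit 4623))))) (.a s55144 (.f (nat_lit 526) (nat_lit 494) (nat_lit 7662) (.f (nat_lit 525) (nat_lit 524) (nat_lit 524) (.f (nat_lit 557) (nat_lit 556) (nat_lit 1548) (.f (nat_lit 622) (nat_lit 654) (nat_lit 5646) (.p (nat_lit 590) (.a (.d (nat_lit 493) (nat_lit 492) (nat_lit 3564) (nat_lit 558) (nat_lit 7661)) (.f (nat_lit 589) (nat_lit 588) (nat_lit 2604) (.d (nat_lit 624) (nat_lit 625) (nat_lit 3661) (nat_lit 656) (nat_lit 4623)))))))))))))) (.a (.p (nat_lit 591) (.a (.f (nat_lit 624) (nat_lit 656) (nat_lit 4623) (.f (nat_lit 495) (nat_lit 592) (nat_lit 7663) (.d (nat_lit 622) (nat_lit 590) (nat_lit 5614) (nat_lit 654) (nat_lit 5646)))) (.a (.f (nat_lit 624) (nat_lit 656) (nat_lit 4623) (.f (nat_lit 592) (nat_lit 495) (nat_lit 7663) (.f (nat_lit 625) (nat_lit 657) (nat_lit 4624) (.d (nat_lit 590) (nat_lit 589) (nat_lit 589) (nat_lit 626) (nat_lit 3662))))) (.a (.f (nat_lit 526) (nat_lit 494) (nat_lit 7662) (.f (nat_lit 525) (nat_lit 524) (nat_lit 524) (.f (nat_lit 622) (nat_lit 654) (nat_lit 5646) (.f (nat_lit 590) (nat_lit 495) (nat_lit 5614) (.d (nat_lit 493) (nat_lit 492) (nat_lit 3564) (nat_lit 558) (nat_lit 7661)))))) (.a (.f (nat_lit 624) (nat_lit 656) (nat_lit 4623) (.f (nat_lit 592) (nat_lit 495) (nat_lit 7663) (.f (nat_lit 622) (nat_lit 654) (nat_lit 5646) (.d (nat_lit 593) (nat_lit 594) (nat_lit 1614) (nat_lit 621) (nat_lit 2637))))) (.f (nat_lit 624) (nat_lit 656) (nat_lit 4623) (.f (nat_lit 622) (nat_lit 654) (nat_lit 5646) (.f (nat_lit 526) (nat_lit 494) (nat_lit 7662) (.f (nat_lit 525) (nat_lit 524) (nat_lit 524) (.p (nat_lit 590) (.a (.d (nat_lit 493) (nat_lit 492) (nat_lit 3564) (nat_lit 558) (nat_lit 7661)) (.d (nat_lit 589) (nat_lit 588) (nat_lit 588) (nat_lit 625) (nat_lit 3661))))))))))))) (.p (nat_lit 591) (.a s54649 (.a s54718 (.a (.f (nat_lit 624) (nat_lit 656) (nat_lit 4623) (.f (nat_lit 622) (nat_lit 654) (nat_lit 5646) (.p (nat_lit 625) (.a (.d (nat_lit 657) (nat_lit 592) (nat_lit 4624) (nat_lit 658) (nat_lit 622)) (.d (nat_lit 590) (nat_lit 589) (nat_lit 3661) (nat_lit 626) (nat_lit 3662)))))) (.a (.f (nat_lit 526) (nat_lit 494) (nat_lit 7662) (.f (nat_lit 525) (nat_lit 524) (nat_lit 524) (.f (nat_lit 557) (nat_lit 556) (nat_lit 1548) (.f (nat_lit 622) (nat_lit 654) (nat_lit 5646) (.p (nat_lit 558) (.a (.d (nat_lit 493) (nat_lit 492) (nat_lit 3564) (nat_lit 590) (nat_lit 7661)) (.p (nat_lit 621) (.a (.d (nat_lit 592) (nat_lit 593) (nat_lit 557) (nat_lit 620) (nat_lit 2636)) (.d (nat_lit 589) (nat_lit 588) (nat_lit 1580) (nat_lit 653) (nat_lit 6669)))))))))) (.a s55160 (.a (.f (nat_lit 624) (nat_lit 656) (nat_lit 4623) (.f (nat_lit 622) (nat_lit 654) (nat_lit 5646) (.f (nat_lit 526) (nat_lit 494) (nat_lit 7662) (.f (nat_lit 525) (nat_lit 524) (nat_lit 524) (.p (nat_lit 592) (.a (.d (nat_lit 593) (nat_lit 594) (nat_lit 1614) (nat_lit 621) (nat_lit 2637)) (.a (.d (nat_lit 621) (nat_lit 593) (nat_lit 2637) (nat_lit 620) (nat_lit 2636)) (.a (.f (nat_lit 593) (nat_lit 594) (nat_lit 1614) (.d (nat_lit 557) (nat_lit 556) (nat_lit 1548) (nat_lit 558) (nat_lit 557))) (.f (nat_lit 625) (nat_lit 657) (nat_lit 4624) (.d (nat_lit 626) (nat_lit 590) (nat_lit 3662) (nat_lit 627) (nat_lit 3663))))))))))) (.f (nat_lit 526) (nat_lit 494) (nat_lit 7662) (.f (nat_lit 525) (nat_lit 524) (nat_lit 524) (.f (nat_lit 557) (nat_lit 556) (nat_lit 1548) (.f (nat_lit 622) (nat_lit 654) (nat_lit 5646) (.p (nat_lit 590) (.a (.d (nat_lit 493) (nat_lit 492) (nat_lit 3564) (nat_lit 558) (nat_lit 7661)) (.f (nat_lit 589) (nat_lit 588) (nat_lit 2604) (.d (nat_lit 624) (nat_lit 625) (nat_lit 3661) (nat_lit 656) (nat_lit 4623)))))))))))))))))))))))))) (.a (.f (nat_lit 591) (nat_lit 655) (nat_lit 6671) (.p (nat_lit 527) (.a (.f (nat_lit 624) (nat_lit 656) (nat_lit 4623) (.f (nat_lit 495) (nat_lit 592) (nat_lit 7663) (.d (nat_lit 622) (nat_lit 590) (nat_lit 5614) (nat_lit 654) (nat_lit 5646)))) (.a (.f (nat_lit 624) (nat_lit 656) (nat_lit 4623) (.f (nat_lit 495) (nat_lit 592) (nat_lit 7663) (.d (nat_lit 494) (nat_lit 462) (nat_lit 7630) (nat_lit 526) (nat_lit 7662)))) (.a (.f (nat_lit 526) (nat_lit 494) (nat_lit 7662) (.f (nat_lit 525) (nat_lit 524) (nat_lit 524) (.f (nat_lit 622) (nat_lit 654) (nat_lit 5646) (.f (nat_lit 495) (nat_lit 590) (nat_lit 5614) (.d (nat_lit 463) (nat_lit 431) (nat_lit 4527) (nat_lit 592) (nat_lit 4559)))))) (.a (.f (nat_lit 526) (nat_lit 494) (nat_lit 7662) (.f (nat_lit 525) (nat_lit 524) (nat_lit 524) (.f (nat_lit 622) (nat_lit 654) (nat_lit 5646) (.f (nat_lit 590) (nat_lit 495) (nat_lit 5614) (.d (nat_lit 493) (nat_lit 492) (nat_lit 3564) (nat_lit 558) (nat_lit 7661)))))) (.f (nat_lit 624) (nat_lit 656) (nat_lit 4623) (.f (nat_lit 622) (nat_lit 654) (nat_lit 5646) (.f (nat_lit 526) (nat_lit 494) (nat_lit 7662) (.f (nat_lit 525) (nat_lit 524) (nat_lit 524) (.p (nat_lit 592) (.a (.d (nat_lit 593) (nat_lit 594) (nat_lit 1614) (nat_lit 621) (nat_lit 2637)) (.a (.d (nat_lit 621) (nat_lit 593) (nat_lit 2637) (nat_lit 620) (nat_lit 2636)) (.a (.f (nat_lit 593) (nat_lit 594) (nat_lit 1614) (.d (nat_lit 557) (nat_lit 556) (nat_lit 1548) (nat_lit 558) (nat_lit 557))) (.f (nat_lit 625) (nat_lit 657) (nat_lit 4624) (.d (nat_lit 626) (nat_lit 590) (nat_lit 3662) (nat_lit 627) (nat_lit 3663))))))))))))))))) (.a (.f (nat_lit 591) (nat_lit 655) (nat_lit 6671) (.p (nat_lit 527) (.a (.f (nat_lit 526) (nat_lit 494) (nat_lit 7662) (.f (nat_lit 525) (nat_lit 524) (nat_lit 524) (.f (nat_lit 622) (nat_lit 654) (nat_lit 5646) (.f (nat_lit 590) (nat_lit 495) (nat_lit 5614) (.d (nat_lit 493) (nat_lit 492) (nat_lit 3564) (nat_lit 558) (nat_lit 7661)))))) (.a s54694 (.a (.f (nat_lit 622) (nat_lit 654) (nat_lit 5646) (.f (nat_lit 590) (nat_lit 495) (nat_lit 5614) (.f (nat_lit 589) (nat_lit 588) (nat_lit 2604) (.d (nat_lit 624) (nat_lit 625) (nat_lit 3661) (nat_lit 656) (nat_lit 4623))))) (.a s55144 (.f (nat_lit 526) (nat_lit 494) (nat_lit 7662) (.f (nat_lit 525) (nat_lit 524) (nat_lit 524) (.f (nat_lit 557) (nat_lit 556) (nat_lit 1548) (.f (nat_lit 622) (nat_lit 654) (nat_lit 5646) (.p (nat_lit 590) (.a (.d (nat_lit 493) (nat_lit 492) (nat_lit 3564) (nat_lit 558) (nat_lit 7661)) (.f (nat_lit 589) (nat_lit 588) (nat_lit 2604) (.d (nat_lit 624) (nat_lit 625) (nat_lit 3661) (nat_lit 656) (nat_lit 4623))))))))))))))) (.a (.f (nat_lit 591) (nat_lit 655) (nat_lit 6671) (.p (nat_lit 527) (.a s54649 (.a s54718 (.a (.f (nat_lit 624) (nat_lit 656) (nat_lit 4623) (.f (nat_lit 622) (nat_lit 654) (nat_lit 5646) (.p (nat_lit 625) (.a (.d (nat_lit 657) (nat_lit 592) (nat_lit 4624) (nat_lit 658) (nat_lit 622)) (.d (nat_lit 590) (nat_lit 589) (nat_lit 3661) (nat_lit 626) (nat_lit 3662)))))) (.a (.f (nat_lit 526) (nat_lit 494) (nat_lit 7662) (.f (nat_lit 525) (nat_lit 524) (nat_lit 524) (.f (nat_lit 557) (nat_lit 556) (nat_lit 1548) (.f (nat_lit 622) (nat_lit 654) (nat_lit 5646) (.p (nat_lit 558) (.a (.d (nat_lit 493) (nat_lit 492) (nat_lit 3564) (nat_lit 590) (nat_lit 7661)) (.p (nat_lit 621) (.a (.d (nat_lit 592) (nat_lit 593) (nat_lit 557) (nat_lit 620) (nat_lit 2636)) (.d (nat_lit 589) (nat_lit 588) (nat_lit 1580) (nat_lit 653) (nat_lit 6669)))))))))) (.a s55160 (.a (.f (nat_lit 624) (nat_lit 656) (nat_lit 4623) (.f (nat_lit 622) (nat_lit 654) (nat_lit 5646) (.f (nat_lit 526) (nat_lit 494) (nat_lit 7662) (.f (nat_lit 525) (nat_lit 524) (nat_lit 524) (.p (nat_lit 592) (.a (.d (nat_lit 593) (nat_lit 594) (nat_lit 1614) (nat_lit 621) (nat_lit 2637)) (.a (.d (nat_lit 621) (nat_lit 593) (nat_lit 2637) (nat_lit 620) (nat_lit 2636)) (.a (.f (nat_lit 593) (nat_lit 594) (nat_lit 1614) (.d (nat_lit 557) (nat_lit 556) (nat_lit 1548) (nat_lit 558) (nat_lit 557))) (.f (nat_lit 625) (nat_lit 657) (nat_lit 4624) (.d (nat_lit 626) (nat_lit 590) (nat_lit 3662) (nat_lit 627) (nat_lit 3663))))))))))) (.f (nat_lit 526) (nat_lit 494) (nat_lit 7662) (.f (nat_lit 525) (nat_lit 524) (nat_lit 524) (.f (nat_lit 557) (nat_lit 556) (nat_lit 1548) (.f (nat_lit 622) (nat_lit 654) (nat_lit 5646) (.p (nat_lit 590) (.a (.d (nat_lit 493) (nat_lit 492) (nat_lit 3564) (nat_lit 558) (nat_lit 7661)) (.f (nat_lit 589) (nat_lit 588) (nat_lit 2604) (.d (nat_lit 624) (nat_lit 625) (nat_lit 3661) (nat_lit 656) (nat_lit 4623))))))))))))))))) (.f (nat_lit 655) (nat_lit 591) (nat_lit 6671) (.f (nat_lit 624) (nat_lit 592) (nat_lit 5647) (.p (nat_lit 625) (.a (.f (nat_lit 626) (nat_lit 654) (nat_lit 1646) (.f (nat_lit 627) (nat_lit 656) (nat_lit 1647) (.d (nat_lit 659) (nat_lit 658) (nat_lit 623) (nat_lit 660) (nat_lit 624)))) (.a (.f (nat_lit 654) (nat_lit 626) (nat_lit 1646) (.d (nat_lit 653) (nat_lit 622) (nat_lit 1645) (nat_lit 652) (nat_lit 2668))) (.a (.p (nat_lit 622) (.a (.f (nat_lit 657) (nat_lit 658) (nat_lit 622) (.f (nat_lit 621) (nat_lit 656) (nat_lit 621) (.d (nat_lit 589) (nat_lit 588) (nat_lit 3660) (nat_lit 590) (nat_lit 3661)))) (.a (.f (nat_lit 657) (nat_lit 658) (nat_lit 622) (.f (nat_lit 621) (nat_lit 656) (nat_lit 621) (.p (nat_lit 620) (.a (.d (nat_lit 652) (nat_lit 651) (nat_lit 1643) (nat_lit 653) (nat_lit 1644)) (.d (nat_lit 588) (nat_lit 587) (nat_lit 3659) (nat_lit 589) (nat_lit 3660)))))) (.a (.f (nat_lit 590) (nat_lit 589) (nat_lit 3661) (.f (nat_lit 594) (nat_lit 593) (nat_lit 2638) (.p (nat_lit 656) (.a (.d (nat_lit 621) (nat_lit 620) (nat_lit 620) (nat_lit 657) (nat_lit 621)) (.d (nat_lit 626) (nat_lit 595) (nat_lit 2639) (nat_lit 627) (nat_lit 1647)))))) (.a (.f (nat_lit 594) (nat_lit 593) (nat_lit 2638) (.f (nat_lit 626) (nat_lit 595) (nat_lit 2639) (.d (nat_lit 658) (nat_lit 657) (nat_lit 622) (nat_lit 659) (nat_lit 623)))) (.f (nat_lit 590) (nat_lit 589) (nat_lit 3661) (.f (nat_lit 594) (nat_lit 593) (nat_lit 2638) (.f (nat_lit 626) (nat_lit 595) (nat_lit 2639) (.f (nat_lit 627) (nat_lit 656) (nat_lit 1647) (.d (nat_lit 659) (nat_lit 658) (nat_lit 623) (nat_lit 660) (nat_lit 624))))))))))) (.p (nat_lit 622) (.a (.f (nat_lit 654) (nat_lit 653) (nat_lit 1645) (.f (nat_lit 590) (nat_lit 589) (nat_lit 3661) (.d (nat_lit 558) (nat_lit 526) (nat_lit 4622) (nat_lit 687) (nat_lit 4654)))) (.a (.f (nat_lit 653) (nat_lit 654) (nat_lit 1645) (.f (nat_lit 621) (nat_lit 652) (nat_lit 1644) (.d (nat_lit 656) (nat_lit 620) (nat_lit 620) (nat_lit 657) (nat_lit 621)))) (.f (nat_lit 657) (nat_lit 658) (nat_lit 622) (.f (nat_lit 621) (nat_lit 656) (nat_lit 621) (.d (nat_lit 589) (nat_lit 588) (nat_lit 3660) (nat_lit 590) (nat_lit 3661))))))))))))))))))))))))) (.p (nat_lit 558) (.a (.p (nat_lit 557) (.a (.f (nat_lit 525) (nat_lit 524) (nat_lit 3596) (.f (nat_lit 589) (nat_lit 588) (nat_lit 1580) (.d (nat_lit 561) (nat_lit 526) (nat_lit 3597) (nat_lit 590) (nat_lit 1581)))) (.a (.f (nat_lit 525) (nat_lit 524) (nat_lit 3596) (.f (nat_lit 589) (nat_lit 588) (nat_lit 1580) (.f (nat_lit 526) (nat_lit 561) (nat_lit 3597) (.d (nat_lit 494) (nat_lit 462) (nat_lit 5581) (nat_lit 621) (nat_lit 6637))))) (.a (.f (nat_lit 525) (nat_lit 524) (nat_lit 3596) (.f (nat_lit 592) (nat_lit 593) (nat_lit 557) (.f (nat_lit 591) (nat_lit 556) (nat_lit 556) (.f (nat_lit 623) (nat_lit 655) (nat_lit 6671) (.f (nat_lit 526) (nat_lit 561) (nat_lit 3597) (.d (nat_lit 494) (nat_lit 462) (nat_lit 4558) (nat_lit 590) (nat_lit 4590))))))) (.a (.f (nat_lit 589) (nat_lit 588) (nat_lit 1580) (.f (nat_lit 525) (nat_lit 524) (nat_lit 3596) (.f (nat_lit 590) (nat_lit 561) (nat_lit 1581) (.d (nat_lit 493) (nat_lit 461) (nat_lit 4557) (nat_lit 622) (nat_lit 4589))))) (.a (.f (nat_lit 589) (nat_lit 588) (nat_lit 1580) (.f (nat_lit 590) (nat_lit 561) (nat_lit 1581) (.f (nat_lit 592) (nat_lit 593) (nat_lit 557) (.f (nat_lit 591) (nat_lit 556) (nat_lit 556) (.f (nat_lit 623) (nat_lit 655) (nat_lit 6671) (.f (nat_lit 621) (nat_lit 620) (nat_lit 1612) (.d (nat_lit 526) (nat_lit 494) (nat_lit 5613) (nat_lit 653) (nat_lit 6669)))))))) (.f (nat_lit 589) (nat_lit 588) (nat_lit 1580) (.f (nat_lit 525) (nat_lit 524) (nat_lit 3596) (.f (nat_lit 592) (nat_lit 593) (nat_lit 557) (.f (nat_lit 591) (nat_lit 556) (nat_lit 556) (.f (nat_lit 623) (nat_lit 655) (nat_lit 6671) (.p (nat_lit 590) (.a (.f (nat_lit 526) (nat_lit 494) (nat_lit 4590) (.d (nat_lit 621) (nat_lit 620) (nat_lit 1612) (nat_lit 653) (nat_lit 6669))) (.d (nat_lit 493) (nat_lit 461) (nat_lit 4557) (nat_lit 622) (nat_lit 4589))))))))))))))) (.a (.p (nat_lit 557) (.a (.f (nat_lit 525) (nat_lit 524) (nat_lit 3596) (.f (nat_lit 589) (nat_lit 588) (nat_lit 1580) (.d (nat_lit 561) (nat_lit 526) (nat_lit 3597) (nat_lit 590) (nat_lit 1581)))) (.a (.f (nat_lit 592) (nat_lit 593) (nat_lit 557) (.f (nat_lit 556) (nat_lit 591) (nat_lit 556) (.d (nat_lit 588) (nat_lit 587) (nat_lit 1579) (nat_lit 589) (nat_lit 1580)))) (.f (nat_lit 592) (nat_lit 593) (nat_lit 557) (.f (nat_lit 556) (nat_lit 591) (nat_lit 556) (.d (nat_lit 524) (nat_lit 523) (nat_lit 3595) (nat_lit 525) (nat_lit 3596))))))) (.a (.p (nat_lit 561) (.a (.f (nat_lit 590) (nat_lit 589) (nat_lit 1581) (.f (nat_lit 591) (nat_lit 562) (nat_lit 1582) (.f (nat_lit 526) (nat_lit 525) (nat_lit 3597) (.d (nat_lit 494) (nat_lit 462) (nat_lit 4558) (nat_lit 623) (nat_lit 4590))))) (.a (.f (nat_lit 593) (nat_lit 594) (nat_lit 558) (.f (nat_lit 590) (nat_lit 589) (nat_lit 1581) (.f (nat_lit 591) (nat_lit 562) (nat_lit 1582) (.f (nat_lit 592) (nat_lit 557) (nat_lit 557) (.d (nat_lit 625) (nat_lit 626) (nat_lit 590) (nat_lit 657) (nat_lit 7696)))))) (.a (.f (nat_lit 593) (nat_lit 594) (nat_lit 558) (.f (nat_lit 557) (nat_lit 592) (nat_lit 557) (.d (nat_lit 589) (nat_lit 588) (nat_lit 1580) (nat_lit 590) (nat_lit 1581)))) (.f (nat_lit 593) (nat_lit 594) (nat_lit 558) (.f (nat_lit 557) (nat_lit 592) (nat_lit 557) (.d (nat_lit 525) (nat_lit 524) (nat_lit 3596) (nat_lit 526) (nat_lit 3597)))))))) (.a s51299 (.a (.p (nat_lit 557) (.a (.f (nat_lit 525) (nat_lit 524) (nat_lit 3596) (.f (nat_lit 589) (nat_lit 588) (nat_lit 1580) (.f (nat_lit 526) (nat_lit 561) (nat_lit 3597) (.d (nat_lit 494) (nat_lit 462) (nat_lit 5581) (nat_lit 621) (nat_lit 6637))))) (.a (.f (nat_lit 592) (nat_lit 593) (nat_lit 557) (.f (nat_lit 556) (nat_lit 591) (nat_lit 556) (.d (nat_lit 588) (nat_lit 587) (nat_lit 1579) (nat_lit 589) (nat_lit 1580)))) (.f (nat_lit 592) (nat_lit 593) (nat_lit 557) (.f (nat_lit 556) (nat_lit 591) (nat_lit 556) (.d (nat_lit 524) (nat_lit 523) (nat_lit 3595) (nat_lit 525) (nat_lit 3596))))))) (.a (.p (nat_lit 592) (.a (.f (nat_lit 593) (nat_lit 557) (nat_lit 557) (.d (nat_lit 594) (nat_lit 561) (nat_lit 558) (nat_lit 595) (nat_lit 3631))) (.a (.f (nat_lit 557) (nat_lit 593) (nat_lit 557) (.f (nat_lit 591) (nat_lit 556) (nat_lit 556) (.f (nat_lit 623) (nat_lit 655) (nat_lit 6671) (.f (nat_lit 525) (nat_lit 524) (nat_lit 3596) (.f (nat_lit 526) (nat_lit 561) (nat_lit 3597) (.d (nat_lit 494) (nat_lit 462) (nat_lit 4558) (nat_lit 590) (nat_lit 4590))))))) (.a (.p (nat_lit 593) (.a (.d (nat_lit 594) (nat_lit 561) (nat_lit 558) (nat_lit 595) (nat_lit 3631)) (.a (.p (nat_lit 657) (.a (.p (nat_lit 655) (.a (.d (nat_lit 623) (nat_lit 591) (nat_lit 6671) (nat_lit 624) (nat_lit 5647)) (.a (.f (nat_lit 623) (nat_lit 591) (nat_lit 6671) (.p (nat_lit 656) (.a (.p (nat_lit 658) (.a (.p (nat_lit 659) (.a (.d (nat_lit 691) (nat_lit 690) (nat_lit 655) (nat_lit 692) (nat_lit 656)) (.d (nat_lit 687) (nat_lit 686) (nat_lit 1678) (nat_lit 688) (nat_lit 1679)))) (.a (.p (nat_lit 659) (.a (.d (nat_lit 691) (nat_lit 690) (nat_lit 655) (nat_lit 692) (nat_lit 656)) (.d (nat_lit 627) (nat_lit 626) (nat_lit 2671) (nat_lit 628) (nat_lit 2672)))) (.a (.p (nat_lit 654) (.a (.d (nat_lit 690) (nat_lit 689) (nat_lit 654) (nat_lit 691) (nat_lit 655)) (.d (nat_lit 686) (nat_lit 685) (nat_lit 1677) (nat_lit 687) (nat_lit 1678)))) (.f (nat_lit 687) (nat_lit 686) (nat_lit 1678) (.f (nat_lit 627) (nat_lit 626) (nat_lit 2671) (.d (nat_lit 659) (nat_lit 628) (nat_lit 2672) (nat_lit 688) (nat_lit 1679)))))))) (.a (.f (nat_lit 622) (nat_lit 658) (nat_lit 3694) (.d (nat_lit 621) (nat_lit 620) (nat_lit 620) (nat_lit 654) (nat_lit 3693))) (.a (.p (nat_lit 654) (.a (.p (nat_lit 653) (.a (.d (nat_lit 689) (nat_lit 688) (nat_lit 653) (nat_lit 690) (nat_lit 654)) (.d (nat_lit 685) (nat_lit 684) (nat_lit 1676) (nat_lit 686) (nat_lit 1677)))) (.f (nat_lit 622) (nat_lit 621) (nat_lit 3693) (.d (nat_lit 590) (nat_lit 526) (nat_lit 4622) (nat_lit 687) (nat_lit 4654))))) (.f (nat_lit 658) (nat_lit 622) (nat_lit 3694) (.p (nat_lit 659) (.a (.d (nat_lit 691) (nat_lit 690) (nat_lit 655) (nat_lit 692) (nat_lit 656)) (.d (nat_lit 687) (nat_lit 686) (nat_lit 1678) (nat_lit 688) (nat_lit 1679)))))))))) (.a (.f (nat_lit 624) (nat_lit 623) (nat_lit 5647) (.d (nat_lit 656) (nat_lit 687) (nat_lit 5679) (nat_lit 689) (nat_lit 4656))) (.p (nat_lit 656) (.a (.d (nat_lit 624) (nat_lit 687) (nat_lit 5679) (nat_lit 689) (nat_lit 4656)) (.a (.p (nat_lit 654) (.a (.p (nat_lit 653) (.a (.d (nat_lit 689) (nat_lit 688) (nat_lit 653) (nat_lit 690) (nat_lit 654)) (.d (nat_lit 685) (nat_lit 684) (nat_lit 1676) (nat_lit 686) (nat_lit 1677)))) (.a (.f (nat_lit 622) (nat_lit 621) (nat_lit 3693) (.f (nat_lit 590) (nat_lit 687) (nat_lit 4654) (.d (nat_lit 685) (nat_lit 653) (nat_lit 5677) (nat_lit 686) (nat_lit 1677)))) (.a (.p (nat_lit 687) (.a (.d (nat_lit 686) (nat_lit 658) (nat_lit 1678) (nat_lit 685) (nat_lit 1677)) (.d (nat_lit 622) (nat_lit 590) (nat_lit 4654) (nat_lit 621) (nat_lit 3693)))) (.p (nat_lit 653) (.a (.d (nat_lit 689) (nat_lit 688) (nat_lit 653) (nat_lit 690) (nat_lit 654)) (.d (nat_lit 621) (nat_lit 620) (nat_lit 3692) (nat_lit 622) (nat_lit 3693)))))))) (.a (.f (nat_lit 624) (nat_lit 689) (nat_lit 4656) (.d (nat_lit 688) (nat_lit 561) (nat_lit 6704) (nat_lit 591) (nat_lit 7727))) (.f (nat_lit 687) (nat_lit 624) (nat_lit 5679) (.f (nat_lit 686) (nat_lit 658) (nat_lit 1678) (.d (nat_lit 685) (nat_lit 654) (nat_lit 1677) (nat_lit 688) (nat_lit 2701)))))))))))) (.a (.d (nat_lit 625) (nat_lit 561) (nat_lit 7696) (nat_lit 624) (nat_lit 4624)) (.a (.d (nat_lit 625) (nat_lit 561) (nat_lit 7696) (nat_lit 689) (nat_lit 7728)) (.d (nat_lit 625) (nat_lit 624) (nat_lit 4624) (nat_lit 689) (nat_lit 7728)))))) (.d (nat_lit 594) (nat_lit 591) (nat_lit 3630) (nat_lit 595) (nat_lit 3631))))) (.a (.p (nat_lit 655) (.a (.d (nat_lit 623) (nat_lit 591) (nat_lit 6671) (nat_lit 624) (nat_lit 5647)) (.a (.f (nat_lit 591) (nat_lit 623) (nat_lit 6671) (.f (nat_lit 557) (nat_lit 556) (nat_lit 556) (.f (nat_lit 525) (nat_lit 524) (nat_lit 3596) (.f (nat_lit 561) (nat_lit 526) (nat_lit 3597) (.d (nat_lit 562) (nat_lit 563) (nat_lit 1583) (nat_lit 590) (nat_lit 1582)))))) (.a (.f (nat_lit 624) (nat_lit 623) (nat_lit 5647) (.f (nat_lit 656) (nat_lit 687) (nat_lit 5679) (.d (nat_lit 657) (nat_lit 625) (nat_lit 4624) (nat_lit 689) (nat_lit 4656)))) (.p (nat_lit 525) (.a (.f (nat_lit 557) (nat_lit 524) (nat_lit 3596) (.f (nat_lit 556) (nat_lit 591) (nat_lit 556) (.f (nat_lit 526) (nat_lit 561) (nat_lit 3597) (.p (nat_lit 493) (.a (.d (nat_lit 461) (nat_lit 429) (nat_lit 4525) (nat_lit 590) (nat_lit 4557)) (.a (.d (nat_lit 461) (nat_lit 429) (nat_lit 4525) (nat_lit 588) (nat_lit 5580)) (.f (nat_lit 555) (nat_lit 554) (nat_lit 2570) (.d (nat_lit 587) (nat_lit 586) (nat_lit 1578) (nat_lit 588) (nat_lit 1579))))))))) (.a (.f (nat_lit 526) (nat_lit 561) (nat_lit 3597) (.d (nat_lit 524) (nat_lit 523) (nat_lit 523) (nat_lit 557) (nat_lit 3596))) (.a (.f (nat_lit 557) (nat_lit 524) (nat_lit 3596) (.p (nat_lit 656) (.a (.f (nat_lit 624) (nat_lit 687) (nat_lit 5679) (.d (nat_lit 591) (nat_lit 556) (nat_lit 556) (nat_lit 688) (nat_lit 7727))) (.a (.f (nat_lit 624) (nat_lit 687) (nat_lit 5679) (.d (nat_lit 657) (nat_lit 625) (nat_lit 4624) (nat_lit 689) (nat_lit 4656))) (.a (.f (nat_lit 556) (nat_lit 591) (nat_lit 556) (.p (nat_lit 654) (.a (.f (nat_lit 588) (nat_lit 587) (nat_lit 1579) (.p (nat_lit 621) (.a (.d (nat_lit 620) (nat_lit 652) (nat_lit 6668) (nat_lit 653) (nat_lit 3692)) (.d (nat_lit 622) (nat_lit 590) (nat_lit 7693) (nat_lit 657) (nat_lit 3693))))) (.a (.p (nat_lit 653) (.a (.f (nat_lit 588) (nat_lit 587) (nat_lit 1579) (.d (nat_lit 620) (nat_lit 621) (nat_lit 3692) (nat_lit 652) (nat_lit 6668))) (.a (.p (nat_lit 652) (.a (.d (nat_lit 684) (nat_lit 683) (nat_lit 1675) (nat_lit 685) (nat_lit 1676)) (.d (nat_lit 688) (nat_lit 687) (nat_lit 652) (nat_lit 689) (nat_lit 653)))) (.p (nat_lit 657) (.a (.d (nat_lit 689) (nat_lit 688) (nat_lit 653) (nat_lit 690) (nat_lit 654)) (.d (nat_lit 685) (nat_lit 684) (nat_lit 1676) (nat_lit 686) (nat_lit 1677))))))) (.a (.p (nat_lit 653) (.a (.p (nat_lit 652) (.a (.d (nat_lit 684) (nat_lit 683) (nat_lit 1675) (nat_lit 685) (nat_lit 1676)) (.d (nat_lit 688) (nat_lit 687) (nat_lit 652) (nat_lit 689) (nat_lit 653)))) (.a (.p (nat_lit 652) (.a (.d (nat_lit 684) (nat_lit 683) (nat_lit 1675) (nat_lit 685) (nat_lit 1676)) (.d (nat_lit 588) (nat_lit 587) (nat_lit 1579) (nat_lit 620) (nat_lit 6668)))) (.a (.p (nat_lit 657) (.a (.d (nat_lit 689) (nat_lit 688) (nat_lit 653) (nat_lit 690) (nat_lit 654)) (.d (nat_lit 685) (nat_lit 684) (nat_lit 1676) (nat_lit 686) (nat_lit 1677)))) (.p (nat_lit 652) (.a (.d (nat_lit 688) (nat_lit 687) (nat_lit 652) (nat_lit 689) (nat_lit 653)) (.d (nat_lit 588) (nat_lit 587) (nat_lit 1579) (nat_lit 620) (nat_lit 6668)))))))) (.a (.p (nat_lit 657) (.a (.d (nat_lit 622) (nat_lit 590) (nat_lit 7693) (nat_lit 621) (nat_lit 3693)) (.p (nat_lit 653) (.a (.d (nat_lit 689) (nat_lit 688) (nat_lit 653) (nat_lit 690) (nat_lit 654)) (.d (nat_lit 685) (nat_lit 684) (nat_lit 1676) (nat_lit 686) (nat_lit 1677)))))) (.a (.p (nat_lit 620) (.a (.d (nat_lit 588) (nat_lit 587) (nat_lit 1579) (nat_lit 652) (nat_lit 6668)) (.f (nat_lit 621) (nat_lit 653) (nat_lit 3692) (.d (nat_lit 622) (nat_lit 590) (nat_lit 7693) (nat_lit 619) (nat_lit 619))))) (.p (nat_lit 657) (.a (.d (nat_lit 622) (nat_lit 590) (nat_lit 7693) (nat_lit 621) (nat_lit 3693)) (.p (nat_lit 658) (.a (.d (nat_lit 690) (nat_lit 689) (nat_lit 654) (nat_lit 691) (nat_lit 655)) (.d (nat_lit 686) (nat_lit 685) (nat_lit 1677) (nat_lit 687) (nat_lit 1678))))))))))))) (.f (nat_lit 556) (nat_lit 591) (nat_lit 556) (.p (nat_lit 657) (.a (.p (nat_lit 654) (.a (.d (nat_lit 689) (nat_lit 624) (nat_lit 4656) (nat_lit 690) (nat_lit 654)) (.d (nat_lit 622) (nat_lit 590) (nat_lit 7693) (nat_lit 621) (nat_lit 3693)))) (.a (.d (nat_lit 624) (nat_lit 625) (nat_lit 4624) (nat_lit 689) (nat_lit 4656)) (.a (.p (nat_lit 654) (.a (.d (nat_lit 622) (nat_lit 590) (nat_lit 7693) (nat_lit 621) (nat_lit 3693)) (.p (nat_lit 653) (.a (.d (nat_lit 689) (nat_lit 688) (nat_lit 653) (nat_lit 690) (nat_lit 654)) (.d (nat_lit 685) (nat_lit 684) (nat_lit 1676) (nat_lit 686) (nat_lit 1677)))))) (.p (nat_lit 654) (.a (.d (nat_lit 622) (nat_lit 590) (nat_lit 7693) (nat_lit 621) (nat_lit 3693)) (.d (nat_lit 625) (nat_lit 624) (nat_lit 4624) (nat_lit 626) (nat_lit 2670)))))))))))))) (.f (nat_lit 561) (nat_lit 526) (nat_lit 3597) (.p (nat_lit 562) (.a (.d (nat_lit 591) (nat_lit 563) (nat_lit 1583) (nat_lit 590) (nat_lit 1582)) (.a (.f (nat_lit 595) (nat_lit 594) (nat_lit 559) (.f (nat_lit 563) (nat_lit 596) (nat_lit 560) (.d (nat_lit 531) (nat_lit 530) (nat_lit 2575) (nat_lit 532) (nat_lit 2576)))) (.p (nat_lit 656) (.a (.f (nat_lit 624) (nat_lit 687) (nat_lit 5679) (.d (nat_lit 591) (nat_lit 590) (nat_lit 1582) (nat_lit 688) (nat_lit 7727))) (.a (.p (nat_lit 654) (.a (.p (nat_lit 653) (.a (.p (nat_lit 652) (.a (.d (nat_lit 684) (nat_lit 683) (nat_lit 1675) (nat_lit 685) (nat_lit 1676)) (.d (nat_lit 688) (nat_lit 687) (nat_lit 652) (nat_lit 689) (nat_lit 653)))) (.a (.f (nat_lit 590) (nat_lit 591) (nat_lit 1582) (.d (nat_lit 622) (nat_lit 685) (nat_lit 5677) (nat_lit 687) (nat_lit 4654))) (.a (.f (nat_lit 590) (nat_lit 591) (nat_lit 1582) (.d (nat_lit 685) (nat_lit 622) (nat_lit 5677) (nat_lit 684) (nat_lit 1676))) (.p (nat_lit 622) (.a (.d (nat_lit 590) (nat_lit 591) (nat_lit 1582) (nat_lit 687) (nat_lit 4654)) (.d (nat_lit 621) (nat_lit 620) (nat_lit 3692) (nat_lit 657) (nat_lit 3693)))))))) (.a (.p (nat_lit 653) (.a (.p (nat_lit 652) (.a (.d (nat_lit 684) (nat_lit 683) (nat_lit 1675) (nat_lit 685) (nat_lit 1676)) (.d (nat_lit 688) (nat_lit 687) (nat_lit 652) (nat_lit 689) (nat_lit 653)))) (.a (.p (nat_lit 652) (.a (.d (nat_lit 684) (nat_lit 683) (nat_lit 1675) (nat_lit 685) (nat_lit 1676)) (.d (nat_lit 620) (nat_lit 619) (nat_lit 3691) (nat_lit 621) (nat_lit 3692)))) (.a (.p (nat_lit 657) (.a (.d (nat_lit 689) (nat_lit 688) (nat_lit 653) (nat_lit 690) (nat_lit 654)) (.d (nat_lit 685) (nat_lit 684) (nat_lit 1676) (nat_lit 686) (nat_lit 1677)))) (.p (nat_lit 652) (.a (.d (nat_lit 688) (nat_lit 687) (nat_lit 652) (nat_lit 689) (nat_lit 653)) (.d (nat_lit 620) (nat_lit 619) (nat_lit 3691) (nat_lit 621) (nat_lit 3692)))))))) (.a (.p (nat_lit 685) (.a (.f (nat_lit 590) (nat_lit 591) (nat_lit 1582) (.d (nat_lit 622) (nat_lit 653) (nat_lit 5677) (nat_lit 687) (nat_lit 4654))) (.a (.f (nat_lit 684) (nat_lit 653) (nat_lit 1676) (.d (nat_lit 686) (nat_lit 657) (nat_lit 1677) (nat_lit 683) (nat_lit 2699))) (.f (nat_lit 686) (nat_lit 657) (nat_lit 1677) (.d (nat_lit 684) (nat_lit 683) (nat_lit 2699) (nat_lit 687) (nat_lit 2700)))))) (.a (.p (nat_lit 653) (.a (.p (nat_lit 652) (.a (.d (nat_lit 684) (nat_lit 683) (nat_lit 1675) (nat_lit 685) (nat_lit 1676)) (.d (nat_lit 688) (nat_lit 687) (nat_lit 652) (nat_lit 689) (nat_lit 653)))) (.a (.f (nat_lit 590) (nat_lit 591) (nat_lit 1582) (.d (nat_lit 622) (nat_lit 685) (nat_lit 5677) (nat_lit 687) (nat_lit 4654))) (.a (.f (nat_lit 590) (nat_lit 591) (nat_lit 1582) (.d (nat_lit 685) (nat_lit 622) (nat_lit 5677) (nat_lit 684) (nat_lit 1676))) (.p (nat_lit 652) (.a (.d (nat_lit 688) (nat_lit 687) (nat_lit 652) (nat_lit 689) (nat_lit 653)) (.d (nat_lit 620) (nat_lit 619) (nat_lit 3691) (nat_lit 621) (nat_lit 3692)))))))) (.a (.p (nat_lit 657) (.a (.f (nat_lit 590) (nat_lit 591) (nat_lit 1582) (.d (nat_lit 622) (nat_lit 621) (nat_lit 3693) (nat_lit 687) (nat_lit 4654))) (.a (.p (nat_lit 658) (.a (.d (nat_lit 690) (nat_lit 689) (nat_lit 654) (nat_lit 691) (nat_lit 655)) (.d (nat_lit 686) (nat_lit 685) (nat_lit 1677) (nat_lit 687) (nat_lit 1678)))) (.p (nat_lit 658) (.a (.d (nat_lit 690) (nat_lit 689) (nat_lit 654) (nat_lit 691) (nat_lit 655)) (.d (nat_lit 626) (nat_lit 625) (nat_lit 2670) (nat_lit 627) (nat_lit 2671))))))) (.a (.p (nat_lit 657) (.a (.p (nat_lit 653) (.a (.d (nat_lit 689) (nat_lit 688) (nat_lit 653) (nat_lit 690) (nat_lit 654)) (.d (nat_lit 685) (nat_lit 684) (nat_lit 1676) (nat_lit 686) (nat_lit 1677)))) (.a (.p (nat_lit 653) (.a (.d (nat_lit 685) (nat_lit 684) (nat_lit 1676) (nat_lit 686) (nat_lit 1677)) (.d (nat_lit 621) (nat_lit 620) (nat_lit 3692) (nat_lit 622) (nat_lit 3693)))) (.p (nat_lit 658) (.a (.d (nat_lit 690) (nat_lit 689) (nat_lit 654) (nat_lit 691) (nat_lit 655)) (.d (nat_lit 626) (nat_lit 625) (nat_lit 2670) (nat_lit 627) (nat_lit 2671))))))) (.p (nat_lit 622) (.a (.d (nat_lit 590) (nat_lit 591) (nat_lit 1582) (nat_lit 687) (nat_lit 4654)) (.f (nat_lit 621) (nat_lit 657) (nat_lit 3693) (.d (nat_lit 620) (nat_lit 619) (nat_lit 619) (nat_lit 653) (nat_lit 3692)))))))))))) (.a (.p (nat_lit 657) (.a (.d (nat_lit 624) (nat_lit 687) (nat_lit 5679) (nat_lit 689) (nat_lit 4656)) (.a (.p (nat_lit 654) (.a (.p (nat_lit 653) (.a (.d (nat_lit 689) (nat_lit 688) (nat_lit 653) (nat_lit 690) (nat_lit 654)) (.d (nat_lit 685) (nat_lit 684) (nat_lit 1676) (nat_lit 686) (nat_lit 1677)))) (.a (.p (nat_lit 653) (.a (.d (nat_lit 685) (nat_lit 684) (nat_lit 1676) (nat_lit 686) (nat_lit 1677)) (.d (nat_lit 621) (nat_lit 620) (nat_lit 3692) (nat_lit 622) (nat_lit 3693)))) (.a (.p (nat_lit 658) (.a (.d (nat_lit 690) (nat_lit 689) (nat_lit 654) (nat_lit 691) (nat_lit 655)) (.d (nat_lit 686) (nat_lit 685) (nat_lit 1677) (nat_lit 687) (nat_lit 1678)))) (.p (nat_lit 653) (.a (.d (nat_lit 689) (nat_lit 688) (nat_lit 653) (nat_lit 690) (nat_lit 654)) (.d (nat_lit 621) (nat_lit 620) (nat_lit 3692) (nat_lit 622) (nat_lit 3693)))))))) (.a (.d (nat_lit 624) (nat_lit 625) (nat_lit 4624) (nat_lit 689) (nat_lit 4656)) (.d (nat_lit 624) (nat_lit 625) (nat_lit 4624) (nat_lit 687) (nat_lit 5679)))))) (.a (.p (nat_lit 657) (.a (.d (nat_lit 624) (nat_lit 687) (nat_lit 5679) (nat_lit 689) (nat_lit 4656)) (.a (.p (nat_lit 654) (.a (.f (nat_lit 590) (nat_lit 591) (nat_lit 1582) (.d (nat_lit 622) (nat_lit 621) (nat_lit 3693) (nat_lit 687) (nat_lit 4654))) (.a (.p (nat_lit 658) (.a (.d (nat_lit 690) (nat_lit 689) (nat_lit 654) (nat_lit 691) (nat_lit 655)) (.d (nat_lit 686) (nat_lit 685) (nat_lit 1677) (nat_lit 687) (nat_lit 1678)))) (.p (nat_lit 653) (.a (.d (nat_lit 685) (nat_lit 684) (nat_lit 1676) (nat_lit 686) (nat_lit 1677)) (.d (nat_lit 621) (nat_lit 620) (nat_lit 3692) (nat_lit 622) (nat_lit 3693))))))) (.a (.d (nat_lit 624) (nat_lit 625) (nat_lit 4624) (nat_lit 689) (nat_lit 4656)) (.d (nat_lit 624) (nat_lit 625) (nat_lit 4624) (nat_lit 687) (nat_lit 5679)))))) (.p (nat_lit 624) (.a (.d (nat_lit 591) (nat_lit 590) (nat_lit 1582) (nat_lit 688) (nat_lit 7727)) (.d (nat_lit 657) (nat_lit 625) (nat_lit 4624) (nat_lit 689) (nat_lit 4656))))))))))))))))))))) (.f (nat_lit 557) (nat_lit 593) (nat_lit 557) (.f (nat_lit 556) (nat_lit 591) (nat_lit 556) (.d (nat_lit 524) (nat_lit 523) (nat_lit 3595) (nat_lit 525) (nat_lit 3596))))))))) (.a (.p (nat_lit 557) (.a (.f (nat_lit 589) (nat_lit 588) (nat_lit 1580) (.f (nat_lit 525) (nat_lit 524) (nat_lit 3596) (.f (nat_lit 590) (nat_lit 561) (nat_lit 1581) (.d (nat_lit 493) (nat_lit 461) (nat_lit 4557) (nat_lit 622) (nat_lit 4589))))) (.a (.f (nat_lit 592) (nat_lit 593) (nat_lit 557) (.f (nat_lit 591) (nat_lit 556) (nat_lit 556) (.f (nat_lit 589) (nat_lit 588) (nat_lit 1580) (.f (nat_lit 590) (nat_lit 561) (nat_lit 1581) (.f (nat_lit 624) (nat_lit 625) (nat_lit 589) (.f (nat_lit 655) (nat_lit 623) (nat_lit 5647) (.d (nat_lit 656) (nat_lit 687) (nat_lit 5679) (nat_lit 688) (nat_lit 7727)))))))) (.a (.f (nat_lit 592) (nat_lit 593) (nat_lit 557) (.f (nat_lit 556) (nat_lit 591) (nat_lit 556) (.d (nat_lit 588) (nat_lit 587) (nat_lit 1579) (nat_lit 589) (nat_lit 1580)))) (.f (nat_lit 592) (nat_lit 593) (nat_lit 557) (.f (nat_lit 556) (nat_lit 591) (nat_lit 556) (.d (nat_lit 524) (nat_lit 523) (nat_lit 3595) (nat_lit 525) (nat_lit 3596)))))))) (.a s53614 (.a (.p (nat_lit 655) (.a (.f (nat_lit 623) (nat_lit 591) (nat_lit 6671) (.f (nat_lit 592) (nat_lit 624) (nat_lit 5647) (.p (nat_lit 561) (.a (.f (nat_lit 594) (nat_lit 593) (nat_lit 558) (.f (nat_lit 562) (nat_lit 595) (nat_lit 559) (.f (nat_lit 531) (nat_lit 530) (nat_lit 2575) (.f (nat_lit 563) (nat_lit 532) (nat_lit 2576) (.f (nat_lit 526) (nat_lit 525) (nat_lit 3597) (.d (nat_lit 590) (nat_lit 589) (nat_lit 1581) (nat_lit 622) (nat_lit 4622))))))) (.a (.p (nat_lit 562) (.a (.d (nat_lit 594) (nat_lit 593) (nat_lit 558) (nat_lit 595) (nat_lit 559)) (.a (.f (nat_lit 531) (nat_lit 530) (nat_lit 2575) (.f (nat_lit 563) (nat_lit 532) (nat_lit 2576) (.f (nat_lit 596) (nat_lit 595) (nat_lit 560) (.d (nat_lit 564) (nat_lit 593) (nat_lit 1584) (nat_lit 597) (nat_lit 561))))) (.a (.f (nat_lit 531) (nat_lit 530) (nat_lit 2575) (.f (nat_lit 563) (nat_lit 532) (nat_lit 2576) (.d (nat_lit 593) (nat_lit 564) (nat_lit 1584) (nat_lit 594) (nat_lit 558)))) (.f (nat_lit 595) (nat_lit 594) (nat_lit 559) (.f (nat_lit 563) (nat_lit 596) (nat_lit 560) (.d (nat_lit 531) (nat_lit 530) (nat_lit 2575) (nat_lit 532) (nat_lit 2576)))))))) (.f (nat_lit 526) (nat_lit 525) (nat_lit 3597) (.d (nat_lit 590) (nat_lit 589) (nat_lit 1581) (nat_lit 622) (nat_lit 4622)))))))) (.a (.p (nat_lit 561) (.a (.f (nat_lit 591) (nat_lit 623) (nat_lit 6671) (.d (nat_lit 590) (nat_lit 562) (nat_lit 1582) (nat_lit 589) (nat_lit 1581))) (.a s55831 (.a (.f (nat_lit 623) (nat_lit 591) (nat_lit 6671) (.f (nat_lit 593) (nat_lit 594) (nat_lit 558) (.f (nat_lit 624) (nat_lit 592) (nat_lit 5647) (.f (nat_lit 625) (nat_lit 657) (nat_lit 7696) (.f (nat_lit 626) (nat_lit 654) (nat_lit 1646) (.f (nat_lit 627) (nat_lit 656) (nat_lit 1647) (.d (nat_lit 659) (nat_lit 658) (nat_lit 623) (nat_lit 660) (nat_lit 624)))))))) (.f (nat_lit 593) (nat_lit 594) (nat_lit 558) (.f (nat_lit 590) (nat_lit 589) (nat_lit 1581) (.f (nat_lit 562) (nat_lit 591) (nat_lit 1582) (.f (nat_lit 531) (nat_lit 530) (nat_lit 2575) (.f (nat_lit 563) (nat_lit 532) (nat_lit 2576) (.f (nat_lit 564) (nat_lit 592) (nat_lit 1584) (.d (nat_lit 596) (nat_lit 595) (nat_lit 560) (nat_lit 597) (nat_lit 561)))))))))))) (.a (.f (nat_lit 623) (nat_lit 591) (nat_lit 6671) (.f (nat_lit 624) (nat_lit 592) (nat_lit 5647) (.p (nat_lit 622) (.a (.f (nat_lit 590) (nat_lit 526) (nat_lit 4622) (.d (nat_lit 687) (nat_lit 654) (nat_lit 4654) (nat_lit 719) (nat_lit 7758))) (.a (.p (nat_lit 621) (.a (.d (nat_lit 656) (nat_lit 620) (nat_lit 620) (nat_lit 657) (nat_lit 621)) (.a (.f (nat_lit 653) (nat_lit 652) (nat_lit 1644) (.f (nat_lit 625) (nat_lit 654) (nat_lit 1645) (.d (nat_lit 657) (nat_lit 656) (nat_lit 621) (nat_lit 658) (nat_lit 622)))) (.f (nat_lit 653) (nat_lit 652) (nat_lit 1644) (.f (nat_lit 654) (nat_lit 625) (nat_lit 1645) (.f (nat_lit 588) (nat_lit 589) (nat_lit 3660) (.d (nat_lit 620) (nat_lit 587) (nat_lit 3659) (nat_lit 619) (nat_lit 619)))))))) (.f (nat_lit 590) (nat_lit 526) (nat_lit 4622) (.d (nat_lit 589) (nat_lit 561) (nat_lit 1581) (nat_lit 625) (nat_lit 3661)))))))) (.a (.f (nat_lit 591) (nat_lit 623) (nat_lit 6671) (.p (nat_lit 561) (.a (.d (nat_lit 590) (nat_lit 562) (nat_lit 1582) (nat_lit 589) (nat_lit 1581)) (.a (.f (nat_lit 594) (nat_lit 593) (nat_lit 558) (.f (nat_lit 562) (nat_lit 595) (nat_lit 559) (.f (nat_lit 563) (nat_lit 592) (nat_lit 1583) (.d (nat_lit 531) (nat_lit 530) (nat_lit 2575) (nat_lit 532) (nat_lit 2576))))) (.f (nat_lit 590) (nat_lit 589) (nat_lit 1581) (.f (nat_lit 593) (nat_lit 594) (nat_lit 558) (.f (nat_lit 526) (nat_lit 525) (nat_lit 3597) (.p (nat_lit 622) (.a (.d (nat_lit 654) (nat_lit 686) (nat_lit 6702) (nat_lit 687) (nat_lit 4654)) (.d (nat_lit 621) (nat_lit 592) (nat_lit 1613) (nat_lit 653) (nat_lit 5645))))))))))) (.a (.p (nat_lit 561) (.a (.f (nat_lit 594) (nat_lit 593) (nat_lit 558) (.f (nat_lit 562) (nat_lit 595) (nat_lit 559) (.f (nat_lit 531) (nat_lit 530) (nat_lit 2575) (.f (nat_lit 590) (nat_lit 589) (nat_lit 1581) (.f (nat_lit 526) (nat_lit 525) (nat_lit 3597) (.f (nat_lit 622) (nat_lit 623) (nat_lit 4622) (.f (nat_lit 654) (nat_lit 687) (nat_lit 4654) (.d (nat_lit 653) (nat_lit 621) (nat_lit 5645) (nat_lit 685) (nat_lit 5677))))))))) (.a s55831 (.a (.f (nat_lit 590) (nat_lit 589) (nat_lit 1581) (.f (nat_lit 526) (nat_lit 525) (nat_lit 3597) (.f (nat_lit 622) (nat_lit 623) (nat_lit 4622) (.f (nat_lit 654) (nat_lit 687) (nat_lit 4654) (.d (nat_lit 653) (nat_lit 621) (nat_lit 5645) (nat_lit 685) (nat_lit 5677)))))) (.a (.f (nat_lit 593) (nat_lit 594) (nat_lit 558) (.f (nat_lit 590) (nat_lit 589) (nat_lit 1581) (.f (nat_lit 526) (nat_lit 525) (nat_lit 3597) (.f (nat_lit 622) (nat_lit 623) (nat_lit 4622) (.f (nat_lit 654) (nat_lit 687) (nat_lit 4654) (.f (nat_lit 685) (nat_lit 653) (nat_lit 5677) (.f (nat_lit 657) (nat_lit 625) (nat_lit 7696) (.d (nat_lit 686) (nat_lit 656) (nat_lit 1677) (nat_lit 717) (nat_lit 5709))))))))) (.a (.f (nat_lit 526) (nat_lit 525) (nat_lit 3597) (.f (nat_lit 590) (nat_lit 589) (nat_lit 1581) (.f (nat_lit 623) (nat_lit 622) (nat_lit 4622) (.f (nat_lit 592) (nat_lit 624) (nat_lit 5647) (.p (nat_lit 562) (.a (.d (nat_lit 594) (nat_lit 593) (nat_lit 558) (nat_lit 595) (nat_lit 559)) (.a (.f (nat_lit 531) (nat_lit 530) (nat_lit 2575) (.f (nat_lit 563) (nat_lit 532) (nat_lit 2576) (.f (nat_lit 596) (nat_lit 595) (nat_lit 560) (.d (nat_lit 564) (nat_lit 593) (nat_lit 1584) (nat_lit 597) (nat_lit 561))))) (.a (.f (nat_lit 531) (nat_lit 530) (nat_lit 2575) (.f (nat_lit 563) (nat_lit 532) (nat_lit 2576) (.d (nat_lit 593) (nat_lit 564) (nat_lit 1584) (nat_lit 594) (nat_lit 558)))) (.f (nat_lit 595) (nat_lit 594) (nat_lit 559) (.f (nat_lit 563) (nat_lit 596) (nat_lit 560) (.d (nat_lit 531) (nat_lit 530) (nat_lit 2575) (nat_lit 532) (nat_lit 2576)))))))))))) s56000)))))) (.a (.f (nat_lit 623) (nat_lit 591) (nat_lit 6671) (.f (nat_lit 624) (nat_lit 592) (nat_lit 5647) (.p (nat_lit 625) (.a (.f (nat_lit 626) (nat_lit 654) (nat_lit 1646) (.f (nat_lit 594) (nat_lit 595) (nat_lit 2639) (.d (nat_lit 593) (nat_lit 561) (nat_lit 558) (nat_lit 622) (nat_lit 2638)))) (.a (.f (nat_lit 626) (nat_lit 654) (nat_lit 1646) (.f (nat_lit 627) (nat_lit 656) (nat_lit 1647) (.d (nat_lit 659) (nat_lit 658) (nat_lit 623) (nat_lit 660) (nat_lit 624)))) (.a (.p (nat_lit 593) (.a (.d (nat_lit 561) (nat_lit 594) (nat_lit 558) (nat_lit 657) (nat_lit 7696)) (.a (.f (nat_lit 657) (nat_lit 561) (nat_lit 7696) (.f (nat_lit 658) (nat_lit 622) (nat_lit 622) (.d (nat_lit 659) (nat_lit 626) (nat_lit 623) (nat_lit 656) (nat_lit 3695)))) (.a (.d (nat_lit 594) (nat_lit 561) (nat_lit 558) (nat_lit 622) (nat_lit 2638)) (.f (nat_lit 594) (nat_lit 622) (nat_lit 2638) (.d (nat_lit 595) (nat_lit 596) (nat_lit 1616) (nat_lit 626) (nat_lit 2639))))))) (.p (nat_lit 622) (.a (.f (nat_lit 657) (nat_lit 658) (nat_lit 622) (.d (nat_lit 593) (nat_lit 561) (nat_lit 7696) (nat_lit 594) (nat_lit 2638))) (.a (.f (nat_lit 657) (nat_lit 658) (nat_lit 622) (.f (nat_lit 621) (nat_lit 656) (nat_lit 621) (.d (nat_lit 653) (nat_lit 652) (nat_lit 1644) (nat_lit 654) (nat_lit 1645)))) (.a (.f (nat_lit 653) (nat_lit 654) (nat_lit 1645) (.f (nat_lit 621) (nat_lit 652) (nat_lit 1644) (.d (nat_lit 656) (nat_lit 620) (nat_lit 620) (nat_lit 657) (nat_lit 621)))) (.f (nat_lit 653) (nat_lit 654) (nat_lit 1645) (.f (nat_lit 621) (nat_lit 652) (nat_lit 1644) (.f (nat_lit 620) (nat_lit 656) (nat_lit 620) (.d (nat_lit 588) (nat_lit 587) (nat_lit 3659) (nat_lit 589) (nat_lit 3660))))))))))))))) (.a (.f (nat_lit 623) (nat_lit 591) (nat_lit 6671) (.f (nat_lit 624) (nat_lit 592) (nat_lit 5647) (.p (nat_lit 622) (.a (.f (nat_lit 590) (nat_lit 526) (nat_lit 4622) (.d (nat_lit 687) (nat_lit 654) (nat_lit 4654) (nat_lit 719) (nat_lit 7758))) (.a (.p (nat_lit 625) (.a (.d (nat_lit 654) (nat_lit 626) (nat_lit 1646) (nat_lit 653) (nat_lit 1645)) (.f (nat_lit 657) (nat_lit 658) (nat_lit 622) (.d (nat_lit 593) (nat_lit 561) (nat_lit 7696) (nat_lit 594) (nat_lit 2638))))) (.f (nat_lit 526) (nat_lit 590) (nat_lit 4622) (.f (nat_lit 561) (nat_lit 525) (nat_lit 3597) (.p (nat_lit 657) (.a (.d (nat_lit 656) (nat_lit 621) (nat_lit 621) (nat_lit 658) (nat_lit 3694)) (.d (nat_lit 593) (nat_lit 594) (nat_lit 558) (nat_lit 625) (nat_lit 7696))))))))))) (.a (.f (nat_lit 591) (nat_lit 623) (nat_lit 6671) (.p (nat_lit 590) (.a (.d (nat_lit 561) (nat_lit 562) (nat_lit 1582) (nat_lit 589) (nat_lit 1581)) (.a (.f (nat_lit 561) (nat_lit 562) (nat_lit 1582) (.p (nat_lit 654) (.a (.d (nat_lit 622) (nat_lit 686) (nat_lit 6702) (nat_lit 687) (nat_lit 4654)) (.a (.p (nat_lit 657) (.a (.p (nat_lit 656) (.a (.p (nat_lit 653) (.a (.d (nat_lit 689) (nat_lit 688) (nat_lit 653) (nat_lit 690) (nat_lit 654)) (.d (nat_lit 685) (nat_lit 684) (nat_lit 1676) (nat_lit 686) (nat_lit 1677)))) (.a (.p (nat_lit 658) (.a (.d (nat_lit 690) (nat_lit 689) (nat_lit 654) (nat_lit 691) (nat_lit 655)) (.d (nat_lit 686) (nat_lit 685) (nat_lit 1677) (nat_lit 687) (nat_lit 1678)))) (.a (.p (nat_lit 653) (.a (.d (nat_lit 685) (nat_lit 684) (nat_lit 1676) (nat_lit 686) (nat_lit 1677)) (.a (.p (nat_lit 652) (.a (.d (nat_lit 684) (nat_lit 683) (nat_lit 1675) (nat_lit 685) (nat_lit 1676)) (.d (nat_lit 688) (nat_lit 687) (nat_lit 652) (nat_lit 689) (nat_lit 653)))) (.p (nat_lit 652) (.a (.d (nat_lit 688) (nat_lit 687) (nat_lit 652) (nat_lit 689) (nat_lit 653)) (.d (nat_lit 620) (nat_lit 619) (nat_lit 3691) (nat_lit 621) (nat_lit 3692))))))) (.a (.p (nat_lit 653) (.a (.d (nat_lit 689) (nat_lit 688) (nat_lit 653) (nat_lit 690) (nat_lit 654)) (.p (nat_lit 652) (.a (.d (nat_lit 684) (nat_lit 683) (nat_lit 1675) (nat_lit 685) (nat_lit 1676)) (.d (nat_lit 620) (nat_lit 619) (nat_lit 3691) (nat_lit 621) (nat_lit 3692)))))) (.a (.p (nat_lit 658) (.a (.d (nat_lit 690) (nat_lit 689) (nat_lit 654) (nat_lit 691) (nat_lit 655)) (.f (nat_lit 687) (nat_lit 686) (nat_lit 1678) (.f (nat_lit 627) (nat_lit 626) (nat_lit 2671) (.d (nat_lit 659) (nat_lit 628) (nat_lit 2672) (nat_lit 688) (nat_lit 1679)))))) (.p (nat_lit 658) (.a (.d (nat_lit 686) (nat_lit 685) (nat_lit 1677) (nat_lit 687) (nat_lit 1678)) (.p (nat_lit 659) (.a (.d (nat_lit 691) (nat_lit 690) (nat_lit 655) (nat_lit 692) (nat_lit 656)) (.d (nat_lit 627) (nat_lit 626) (nat_lit 2671) (nat_lit 628) (nat_lit 2672)))))))))))) (.d (nat_lit 593) (nat_lit 594) (nat_lit 558) (nat_lit 625) (nat_lit 7696)))) (.a (.f (nat_lit 622) (nat_lit 686) (nat_lit 6702) (.f (nat_lit 526) (nat_lit 525) (nat_lit 3597) (.d (nat_lit 653) (nat_lit 621) (nat_lit 5645) (nat_lit 685) (nat_lit 5677)))) (.f (nat_lit 526) (nat_lit 525) (nat_lit 3597) (.p (nat_lit 653) (.a (.d (nat_lit 622) (nat_lit 621) (nat_lit 5645) (nat_lit 687) (nat_lit 4654)) (.a (.p (nat_lit 656) (.a (.p (nat_lit 652) (.a (.d (nat_lit 684) (nat_lit 683) (nat_lit 1675) (nat_lit 685) (nat_lit 1676)) (.d (nat_lit 688) (nat_lit 687) (nat_lit 652) (nat_lit 689) (nat_lit 653)))) (.f (nat_lit 593) (nat_lit 594) (nat_lit 558) (.d (nat_lit 625) (nat_lit 624) (nat_lit 2669) (nat_lit 657) (nat_lit 7696))))) (.d (nat_lit 622) (nat_lit 621) (nat_lit 5645) (nat_lit 685) (nat_lit 5677))))))))))) (.a (.d (nat_lit 589) (nat_lit 561) (nat_lit 1581) (nat_lit 588) (nat_lit 2604)) (.f (nat_lit 589) (nat_lit 588) (nat_lit 2604) (.p (nat_lit 654) (.a (.d (nat_lit 622) (nat_lit 686) (nat_lit 6702) (nat_lit 687) (nat_lit 4654)) (.a (.p (nat_lit 653) (.a (.f (nat_lit 621) (nat_lit 685) (nat_lit 6701) (.f (nat_lit 620) (nat_lit 656) (nat_lit 3692) (.d (nat_lit 619) (nat_lit 618) (nat_lit 2634) (nat_lit 652) (nat_lit 3691)))) (.a (.p (nat_lit 656) (.a (.p (nat_lit 652) (.a (.d (nat_lit 684) (nat_lit 683) (nat_lit 1675) (nat_lit 685) (nat_lit 1676)) (.d (nat_lit 688) (nat_lit 687) (nat_lit 652) (nat_lit 689) (nat_lit 653)))) (.a (.p (nat_lit 657) (.a (.d (nat_lit 685) (nat_lit 684) (nat_lit 1676) (nat_lit 686) (nat_lit 1677)) (.d (nat_lit 625) (nat_lit 624) (nat_lit 2669) (nat_lit 626) (nat_lit 2670)))) (.f (nat_lit 689) (nat_lit 688) (nat_lit 653) (.f (nat_lit 625) (nat_lit 624) (nat_lit 2669) (.d (nat_lit 657) (nat_lit 626) (nat_lit 2670) (nat_lit 690) (nat_lit 654))))))) (.a (.f (nat_lit 621) (nat_lit 685) (nat_lit 6701) (.p (nat_lit 652) (.a (.f (nat_lit 620) (nat_lit 619) (nat_lit 3691) (.d (nat_lit 684) (nat_lit 683) (nat_lit 1675) (nat_lit 716) (nat_lit 6732))) (.a (.p (nat_lit 651) (.a (.d (nat_lit 687) (nat_lit 686) (nat_lit 651) (nat_lit 688) (nat_lit 652)) (.d (nat_lit 683) (nat_lit 682) (nat_lit 1674) (nat_lit 684) (nat_lit 1675)))) (.p (nat_lit 651) (.a (.d (nat_lit 687) (nat_lit 686) (nat_lit 651) (nat_lit 688) (nat_lit 652)) (.d (nat_lit 619) (nat_lit 618) (nat_lit 3690) (nat_lit 620) (nat_lit 3691)))))))) (.a (.f (nat_lit 621) (nat_lit 685) (nat_lit 6701) (.f (nat_lit 656) (nat_lit 620) (nat_lit 3692) (.f (nat_lit 689) (nat_lit 688) (nat_lit 653) (.f (nat_lit 625) (nat_lit 624) (nat_lit 2669) (.d (nat_lit 657) (nat_lit 626) (nat_lit 2670) (nat_lit 690) (nat_lit 654)))))) (.p (nat_lit 652) (.a (.p (nat_lit 621) (.a (.d (nat_lit 620) (nat_lit 619) (nat_lit 3691) (nat_lit 656) (nat_lit 3692)) (.p (nat_lit 651) (.a (.d (nat_lit 687) (nat_lit 686) (nat_lit 651) (nat_lit 688) (nat_lit 652)) (.d (nat_lit 683) (nat_lit 682) (nat_lit 1674) (nat_lit 684) (nat_lit 1675)))))) (.a (.p (nat_lit 651) (.a (.d (nat_lit 687) (nat_lit 686) (nat_lit 651) (nat_lit 688) (nat_lit 652)) (.d (nat_lit 683) (nat_lit 682) (nat_lit 1674) (nat_lit 684) (nat_lit 1675)))) (.a (.f (nat_lit 620) (nat_lit 619) (nat_lit 3691) (.f (nat_lit 621) (nat_lit 656) (nat_lit 3692) (.d (nat_lit 684) (nat_lit 683) (nat_lit 1675) (nat_lit 716) (nat_lit 6732)))) (.p (nat_lit 656) (.a (.d (nat_lit 688) (nat_lit 687) (nat_lit 652) (nat_lit 689) (nat_lit 653)) (.d (nat_lit 620) (nat_lit 619) (nat_lit 3691) (nat_lit 621) (nat_lit 3692))))))))))))) (.a (.f (nat_lit 622) (nat_lit 686) (nat_lit 6702) (.f (nat_lit 653) (nat_lit 685) (nat_lit 5677) (.f (nat_lit 621) (nat_lit 526) (nat_lit 5645) (.d (nat_lit 620) (nat_lit 619) (nat_lit 619) (nat_lit 656) (nat_lit 3692))))) (.f (nat_lit 622) (nat_lit 687) (nat_lit 4654) (.f (nat_lit 653) (nat_lit 685) (nat_lit 5677) (.f (nat_lit 621) (nat_lit 526) (nat_lit 5645) (.d (nat_lit 620) (nat_lit 619) (nat_lit 619) (nat_lit 656) (nat_lit 3692))))))))))))))) (.a (.p (nat_lit 561) (.a (.f (nat_lit 590) (nat_lit 589) (nat_lit 1581) (.f (nat_lit 562) (nat_lit 591) (nat_lit 1582) (.d (nat_lit 594) (nat_lit 593) (nat_lit 558) (nat_lit 595) (nat_lit 559)))) (.a (.f (nat_lit 590) (nat_lit 589) (nat_lit 1581) (.f (nat_lit 526) (nat_lit 525) (nat_lit 3597) (.f (nat_lit 591) (nat_lit 562) (nat_lit 1582) (.p (nat_lit 654) (.a (.p (nat_lit 656) (.a (.p (nat_lit 653) (.a (.p (nat_lit 652) (.a (.d (nat_lit 684) (nat_lit 683) (nat_lit 1675) (nat_lit 685) (nat_lit 1676)) (.d (nat_lit 688) (nat_lit 687) (nat_lit 652) (nat_lit 689) (nat_lit 653)))) (.a (.p (nat_lit 652) (.a (.d (nat_lit 684) (nat_lit 683) (nat_lit 1675) (nat_lit 685) (nat_lit 1676)) (.d (nat_lit 620) (nat_lit 619) (nat_lit 3691) (nat_lit 621) (nat_lit 3692)))) (.a (.p (nat_lit 657) (.a (.d (nat_lit 689) (nat_lit 688) (nat_lit 653) (nat_lit 690) (nat_lit 654)) (.d (nat_lit 685) (nat_lit 684) (nat_lit 1676) (nat_lit 686) (nat_lit 1677)))) (.p (nat_lit 652) (.a (.d (nat_lit 688) (nat_lit 687) (nat_lit 652) (nat_lit 689) (nat_lit 653)) (.d (nat_lit 620) (nat_lit 619) (nat_lit 3691) (nat_lit 621) (nat_lit 3692)))))))) (.a (.p (nat_lit 657) (.a (.p (nat_lit 653) (.a (.d (nat_lit 689) (nat_lit 688) (nat_lit 653) (nat_lit 690) (nat_lit 654)) (.d (nat_lit 685) (nat_lit 684) (nat_lit 1676) (nat_lit 686) (nat_lit 1677)))) (.d (nat_lit 625) (nat_lit 593) (nat_lit 7696) (nat_lit 626) (nat_lit 2670)))) (.a (.p (nat_lit 657) (.a (.p (nat_lit 658) (.a (.d (nat_lit 690) (nat_lit 689) (nat_lit 654) (nat_lit 691) (nat_lit 655)) (.d (nat_lit 686) (nat_lit 685) (nat_lit 1677) (nat_lit 687) (nat_lit 1678)))) (.d (nat_lit 625) (nat_lit 593) (nat_lit 7696) (nat_lit 626) (nat_lit 2670)))) (.a (.p (nat_lit 653) (.a (.p (nat_lit 652) (.a (.d (nat_lit 684) (nat_lit 683) (nat_lit 1675) (nat_lit 685) (nat_lit 1676)) (.d (nat_lit 688) (nat_lit 687) (nat_lit 652) (nat_lit 689) (nat_lit 653)))) (.a (.p (nat_lit 652) (.a (.d (nat_lit 684) (nat_lit 683) (nat_lit 1675) (nat_lit 685) (nat_lit 1676)) (.d (nat_lit 620) (nat_lit 619) (nat_lit 3691) (nat_lit 621) (nat_lit 3692)))) (.f (nat_lit 624) (nat_lit 625) (nat_lit 2669) (.d (nat_lit 592) (nat_lit 687) (nat_lit 5679) (nat_lit 688) (nat_lit 7727)))))) (.p (nat_lit 625) (.a (.d (nat_lit 657) (nat_lit 593) (nat_lit 7696) (nat_lit 626) (nat_lit 2670)) (.a (.f (nat_lit 624) (nat_lit 653) (nat_lit 2669) (.d (nat_lit 657) (nat_lit 592) (nat_lit 4624) (nat_lit 593) (nat_lit 7696))) (.a (.f (nat_lit 624) (nat_lit 653) (nat_lit 2669) (.d (nat_lit 592) (nat_lit 657) (nat_lit 4624) (nat_lit 687) (nat_lit 5679))) (.f (nat_lit 624) (nat_lit 653) (nat_lit 2669) (.d (nat_lit 592) (nat_lit 687) (nat_lit 5679) (nat_lit 688) (nat_lit 7727)))))))))))) (.a (.d (nat_lit 622) (nat_lit 686) (nat_lit 6702) (nat_lit 687) (nat_lit 4654)) (.a (.f (nat_lit 622) (nat_lit 686) (nat_lit 6702) (.d (nat_lit 653) (nat_lit 621) (nat_lit 5645) (nat_lit 685) (nat_lit 5677))) (.f (nat_lit 622) (nat_lit 687) (nat_lit 4654) (.d (nat_lit 653) (nat_lit 621) (nat_lit 5645) (nat_lit 685) (nat_lit 5677)))))))))) (.a s56000 (.a (.f (nat_lit 526) (nat_lit 525) (nat_lit 3597) (.p (nat_lit 562) (.a (.d (nat_lit 594) (nat_lit 593) (nat_lit 558) (nat_lit 595) (nat_lit 559)) (.a (.f (nat_lit 531) (nat_lit 530) (nat_lit 2575) (.f (nat_lit 563) (nat_lit 532) (nat_lit 2576) (.p (nat_lit 564) (.a (.d (nat_lit 596) (nat_lit 595) (nat_lit 560) (nat_lit 597) (nat_lit 561)) (.d (nat_lit 592) (nat_lit 591) (nat_lit 1583) (nat_lit 593) (nat_lit 1584)))))) (.a (.f (nat_lit 593) (nat_lit 594) (nat_lit 558) (.f (nat_lit 531) (nat_lit 530) (nat_lit 2575) (.f (nat_lit 563) (nat_lit 532) (nat_lit 2576) (.d (nat_lit 592) (nat_lit 564) (nat_lit 1584) (nat_lit 591) (nat_lit 1583))))) (.f (nat_lit 595) (nat_lit 594) (nat_lit 559) (.f (nat_lit 563) (nat_lit 596) (nat_lit 560) (.d (nat_lit 531) (nat_lit 530) (nat_lit 2575) (nat_lit 532) (nat_lit 2576))))))))) (.a (.f (nat_lit 590) (nat_lit 589) (nat_lit 1581) (.f (nat_lit 562) (nat_lit 591) (nat_lit 1582) (.f (nat_lit 595) (nat_lit 594) (nat_lit 559) (.f (nat_lit 563) (nat_lit 596) (nat_lit 560) (.d (nat_lit 531) (nat_lit 530) (nat_lit 2575) (nat_lit 532) (nat_lit 2576)))))) (.f (nat_lit 593) (nat_lit 594) (nat_lit 558) (.f (nat_lit 590) (nat_lit 589) (nat_lit 1581) (.f (nat_lit 526) (nat_lit 525) (nat_lit 3597) (.p (nat_lit 654) (.a (.f (nat_lit 622) (nat_lit 687) (nat_lit 4654) (.d (nat_lit 653) (nat_lit 621) (nat_lit 5645) (nat_lit 685) (nat_lit 5677))) (.a (.p (nat_lit 656) (.a (.p (nat_lit 653) (.a (.p (nat_lit 652) (.a (.d (nat_lit 684) (nat_lit 683) (nat_lit 1675) (nat_lit 685) (nat_lit 1676)) (.d (nat_lit 688) (nat_lit 687) (nat_lit 652) (nat_lit 689) (nat_lit 653)))) (.a (.p (nat_lit 652) (.a (.d (nat_lit 684) (nat_lit 683) (nat_lit 1675) (nat_lit 685) (nat_lit 1676)) (.d (nat_lit 620) (nat_lit 619) (nat_lit 3691) (nat_lit 621) (nat_lit 3692)))) (.a (.p (nat_lit 657) (.a (.d (nat_lit 689) (nat_lit 688) (nat_lit 653) (nat_lit 690) (nat_lit 654)) (.d (nat_lit 685) (nat_lit 684) (nat_lit 1676) (nat_lit 686) (nat_lit 1677)))) (.p (nat_lit 652) (.a (.d (nat_lit 688) (nat_lit 687) (nat_lit 652) (nat_lit 689) (nat_lit 653)) (.d (nat_lit 620) (nat_lit 619) (nat_lit 3691) (nat_lit 621) (nat_lit 3692)))))))) (.a (.f (nat_lit 657) (nat_lit 625) (nat_lit 7696) (.p (nat_lit 653) (.a (.d (nat_lit 689) (nat_lit 688) (nat_lit 653) (nat_lit 690) (nat_lit 654)) (.d (nat_lit 685) (nat_lit 684) (nat_lit 1676) (nat_lit 686) (nat_lit 1677))))) (.a (.f (nat_lit 657) (nat_lit 625) (nat_lit 7696) (.p (nat_lit 658) (.a (.d (nat_lit 690) (nat_lit 689) (nat_lit 654) (nat_lit 691) (nat_lit 655)) (.d (nat_lit 686) (nat_lit 685) (nat_lit 1677) (nat_lit 687) (nat_lit 1678))))) (.a (.p (nat_lit 653) (.a (.p (nat_lit 652) (.a (.d (nat_lit 684) (nat_lit 683) (nat_lit 1675) (nat_lit 685) (nat_lit 1676)) (.d (nat_lit 688) (nat_lit 687) (nat_lit 652) (nat_lit 689) (nat_lit 653)))) (.a (.p (nat_lit 652) (.a (.d (nat_lit 684) (nat_lit 683) (nat_lit 1675) (nat_lit 685) (nat_lit 1676)) (.d (nat_lit 620) (nat_lit 619) (nat_lit 3691) (nat_lit 621) (nat_lit 3692)))) (.f (nat_lit 624) (nat_lit 625) (nat_lit 2669) (.d (nat_lit 592) (nat_lit 687) (nat_lit 5679) (nat_lit 688) (nat_lit 6704)))))) (.f (nat_lit 625) (nat_lit 657) (nat_lit 7696) (.f (nat_lit 624) (nat_lit 653) (nat_lit 2669) (.d (nat_lit 592) (nat_lit 687) (nat_lit 5679) (nat_lit 688) (nat_lit 6704))))))))) (.a (.p (nat_lit 656) (.a (.f (nat_lit 622) (nat_lit 687) (nat_lit 4654) (.f (nat_lit 685) (nat_lit 653) (nat_lit 5677) (.d (nat_lit 686) (nat_lit 591) (nat_lit 6702) (nat_lit 657) (nat_lit 1677)))) (.a (.f (nat_lit 657) (nat_lit 625) (nat_lit 7696) (.p (nat_lit 653) (.a (.d (nat_lit 689) (nat_lit 688) (nat_lit 653) (nat_lit 690) (nat_lit 654)) (.d (nat_lit 685) (nat_lit 684) (nat_lit 1676) (nat_lit 686) (nat_lit 1677))))) (.a (.f (nat_lit 687) (nat_lit 622) (nat_lit 4654) (.p (nat_lit 653) (.a (.d (nat_lit 688) (nat_lit 652) (nat_lit 652) (nat_lit 689) (nat_lit 653)) (.d (nat_lit 624) (nat_lit 592) (nat_lit 5679) (nat_lit 625) (nat_lit 2669))))) (.f (nat_lit 657) (nat_lit 625) (nat_lit 7696) (.f (nat_lit 622) (nat_lit 687) (nat_lit 4654) (.d (nat_lit 686) (nat_lit 591) (nat_lit 6702) (nat_lit 685) (nat_lit 1677)))))))) (.a (.f (nat_lit 657) (nat_lit 625) (nat_lit 7696) (.f (nat_lit 622) (nat_lit 687) (nat_lit 4654) (.f (nat_lit 591) (nat_lit 686) (nat_lit 6702) (.d (nat_lit 621) (nat_lit 592) (nat_lit 1613) (nat_lit 656) (nat_lit 3693))))) (.p (nat_lit 656) (.a (.p (nat_lit 622) (.a (.d (nat_lit 653) (nat_lit 621) (nat_lit 5645) (nat_lit 685) (nat_lit 5677)) (.a (.f (nat_lit 685) (nat_lit 653) (nat_lit 5677) (.d (nat_lit 686) (nat_lit 591) (nat_lit 6702) (nat_lit 657) (nat_lit 1677))) (.f (nat_lit 591) (nat_lit 686) (nat_lit 6702) (.d (nat_lit 621) (nat_lit 592) (nat_lit 1613) (nat_lit 657) (nat_lit 3693)))))) (.a (.f (nat_lit 657) (nat_lit 625) (nat_lit 7696) (.p (nat_lit 653) (.a (.d (nat_lit 689) (nat_lit 688) (nat_lit 653) (nat_lit 690) (nat_lit 654)) (.d (nat_lit 685) (nat_lit 684) (nat_lit 1676) (nat_lit 686) (nat_lit 1677))))) (.a (.p (nat_lit 653) (.a (.d (nat_lit 622) (nat_lit 621) (nat_lit 5645) (nat_lit 685) (nat_lit 5677)) (.f (nat_lit 624) (nat_lit 625) (nat_lit 2669) (.d (nat_lit 688) (nat_lit 592) (nat_lit 6704) (nat_lit 689) (nat_lit 653))))) (.a (.f (nat_lit 657) (nat_lit 625) (nat_lit 7696) (.f (nat_lit 622) (nat_lit 621) (nat_lit 3693) (.d (nat_lit 686) (nat_lit 591) (nat_lit 6702) (nat_lit 685) (nat_lit 1677)))) (.f (nat_lit 657) (nat_lit 625) (nat_lit 7696) (.p (nat_lit 653) (.a (.d (nat_lit 689) (nat_lit 688) (nat_lit 653) (nat_lit 690) (nat_lit 654)) (.d (nat_lit 621) (nat_lit 620) (nat_lit 3692) (nat_lit 622) (nat_lit 5645)))))))))))))))))))))))) (.f (nat_lit 623) (nat_lit 591) (nat_lit 6671) (.f (nat_lit 624) (nat_lit 592) (nat_lit 5647) (.p (nat_lit 622) (.a (.f (nat_lit 590) (nat_lit 526) (nat_lit 4622) (.d (nat_lit 687) (nat_lit 654) (nat_lit 4654) (nat_lit 719) (nat_lit 7758))) (.a (.p (nat_lit 621) (.a (.d (nat_lit 656) (nat_lit 620) (nat_lit 620) (nat_lit 657) (nat_lit 621)) (.a (.f (nat_lit 653) (nat_lit 652) (nat_lit 1644) (.f (nat_lit 625) (nat_lit 654) (nat_lit 1645) (.d (nat_lit 657) (nat_lit 656) (nat_lit 621) (nat_lit 658) (nat_lit 622)))) (.f (nat_lit 653) (nat_lit 652) (nat_lit 1644) (.f (nat_lit 654) (nat_lit 625) (nat_lit 1645) (.f (nat_lit 588) (nat_lit 589) (nat_lit 3660) (.d (nat_lit 620) (nat_lit 587) (nat_lit 3659) (nat_lit 619) (nat_lit 619)))))))) (.f (nat_lit 590) (nat_lit 526) (nat_lit 4622) (.f (nat_lit 589) (nat_lit 625) (nat_lit 3661) (.d (nat_lit 588) (nat_lit 587) (nat_lit 587) (nat_lit 621) (nat_lit 3660))))))))))))))))))) (.a (.p (nat_lit 561) (.a (.f (nat_lit 590) (nat_lit 589) (nat_lit 1581) (.f (nat_lit 591) (nat_lit 562) (nat_lit 1582) (.f (nat_lit 593) (nat_lit 594) (nat_lit 558) (.f (nat_lit 592) (nat_lit 557) (nat_lit 557) (.f (nat_lit 655) (nat_lit 623) (nat_lit 6671) (.f (nat_lit 622) (nat_lit 621) (nat_lit 1613) (.d (nat_lit 654) (nat_lit 686) (nat_lit 6702) (nat_lit 687) (nat_lit 4654)))))))) (.a (.f (nat_lit 593) (nat_lit 594) (nat_lit 558) (.f (nat_lit 590) (nat_lit 589) (nat_lit 1581) (.f (nat_lit 591) (nat_lit 562) (nat_lit 1582) (.f (nat_lit 592) (nat_lit 557) (nat_lit 557) (.d (nat_lit 625) (nat_lit 626) (nat_lit 590) (nat_lit 657) (nat_lit 7696)))))) (.a (.f (nat_lit 590) (nat_lit 589) (nat_lit 1581) (.f (nat_lit 591) (nat_lit 562) (nat_lit 1582) (.f (nat_lit 655) (nat_lit 623) (nat_lit 6671) (.p (nat_lit 592) (.a (.d (nat_lit 557) (nat_lit 556) (nat_lit 556) (nat_lit 593) (nat_lit 557)) (.a (.f (nat_lit 593) (nat_lit 557) (nat_lit 557) (.d (nat_lit 625) (nat_lit 626) (nat_lit 590) (nat_lit 657) (nat_lit 7696))) (.a (.p (nat_lit 622) (.a (.d (nat_lit 654) (nat_lit 686) (nat_lit 6702) (nat_lit 687) (nat_lit 4654)) (.f (nat_lit 593) (nat_lit 621) (nat_lit 1613) (.d (nat_lit 625) (nat_lit 626) (nat_lit 590) (nat_lit 657) (nat_lit 7696))))) (.p (nat_lit 654) (.a (.p (nat_lit 656) (.a (.d (nat_lit 624) (nat_lit 687) (nat_lit 5679) (nat_lit 688) (nat_lit 7727)) (.a (.p (nat_lit 653) (.a (.p (nat_lit 652) (.a (.d (nat_lit 684) (nat_lit 683) (nat_lit 1675) (nat_lit 685) (nat_lit 1676)) (.d (nat_lit 688) (nat_lit 687) (nat_lit 652) (nat_lit 689) (nat_lit 653)))) (.a (.p (nat_lit 652) (.a (.d (nat_lit 684) (nat_lit 683) (nat_lit 1675) (nat_lit 685) (nat_lit 1676)) (.d (nat_lit 620) (nat_lit 619) (nat_lit 3691) (nat_lit 621) (nat_lit 3692)))) (.a (.p (nat_lit 657) (.a (.d (nat_lit 689) (nat_lit 688) (nat_lit 653) (nat_lit 690) (nat_lit 654)) (.d (nat_lit 685) (nat_lit 684) (nat_lit 1676) (nat_lit 686) (nat_lit 1677)))) (.p (nat_lit 652) (.a (.d (nat_lit 688) (nat_lit 687) (nat_lit 652) (nat_lit 689) (nat_lit 653)) (.d (nat_lit 620) (nat_lit 619) (nat_lit 3691) (nat_lit 621) (nat_lit 3692)))))))) (.a (.f (nat_lit 624) (nat_lit 687) (nat_lit 5679) (.d (nat_lit 657) (nat_lit 625) (nat_lit 4624) (nat_lit 689) (nat_lit 4656))) (.f (nat_lit 624) (nat_lit 688) (nat_lit 7727) (.d (nat_lit 657) (nat_lit 625) (nat_lit 4624) (nat_lit 689) (nat_lit 4656))))))) (.a (.d (nat_lit 622) (nat_lit 686) (nat_lit 6702) (nat_lit 687) (nat_lit 4654)) (.a (.p (nat_lit 656) (.a (.f (nat_lit 622) (nat_lit 686) (nat_lit 6702) (.f (nat_lit 621) (nat_lit 657) (nat_lit 3693) (.d (nat_lit 653) (nat_lit 526) (nat_lit 5645) (nat_lit 685) (nat_lit 5677)))) (.a (.f (nat_lit 624) (nat_lit 688) (nat_lit 7727) (.d (nat_lit 657) (nat_lit 625) (nat_lit 4624) (nat_lit 689) (nat_lit 4656))) (.p (nat_lit 653) (.a (.d (nat_lit 622) (nat_lit 685) (nat_lit 5677) (nat_lit 686) (nat_lit 6702)) (.d (nat_lit 688) (nat_lit 624) (nat_lit 7727) (nat_lit 689) (nat_lit 653))))))) (.p (nat_lit 656) (.a (.d (nat_lit 624) (nat_lit 687) (nat_lit 5679) (nat_lit 688) (nat_lit 7727)) (.a (.f (nat_lit 622) (nat_lit 687) (nat_lit 4654) (.f (nat_lit 621) (nat_lit 657) (nat_lit 3693) (.d (nat_lit 653) (nat_lit 526) (nat_lit 5645) (nat_lit 685) (nat_lit 5677)))) (.f (nat_lit 624) (nat_lit 688) (nat_lit 7727) (.d (nat_lit 657) (nat_lit 625) (nat_lit 4624) (nat_lit 689) (nat_lit 4656))))))))))))))))) (.a (.f (nat_lit 593) (nat_lit 594) (nat_lit 558) (.f (nat_lit 557) (nat_lit 592) (nat_lit 557) (.d (nat_lit 589) (nat_lit 588) (nat_lit 1580) (nat_lit 590) (nat_lit 1581)))) (.a (.p (nat_lit 562) (.a (.d (nat_lit 594) (nat_lit 593) (nat_lit 558) (nat_lit 595) (nat_lit 559)) (.a (.f (nat_lit 531) (nat_lit 530) (nat_lit 2575) (.f (nat_lit 563) (nat_lit 532) (nat_lit 2576) (.f (nat_lit 592) (nat_lit 591) (nat_lit 1583) (.d (nat_lit 593) (nat_lit 557) (nat_lit 557) (nat_lit 564) (nat_lit 1584))))) (.f (nat_lit 595) (nat_lit 594) (nat_lit 559) (.f (nat_lit 563) (nat_lit 596) (nat_lit 560) (.d (nat_lit 531) (nat_lit 530) (nat_lit 2575) (nat_lit 532) (nat_lit 2576))))))) (.a (.f (nat_lit 590) (nat_lit 589) (nat_lit 1581) (.f (nat_lit 562) (nat_lit 591) (nat_lit 1582) (.d (nat_lit 594) (nat_lit 593) (nat_lit 558) (nat_lit 595) (nat_lit 559)))) (.f (nat_lit 590) (nat_lit 589) (nat_lit 1581) (.f (nat_lit 562) (nat_lit 591) (nat_lit 1582) (.f (nat_lit 595) (nat_lit 594) (nat_lit 559) (.f (nat_lit 563) (nat_lit 596) (nat_lit 560) (.d (nat_lit 531) (nat_lit 530) (nat_lit 2575) (nat_lit 532) (nat_lit 2576))))))))))))) (.a (.p (nat_lit 561) (.a (.f (nat_lit 590) (nat_lit 589) (nat_lit 1581) (.f (nat_lit 591) (nat_lit 562) (nat_lit 1582) (.f (nat_lit 526) (nat_lit 525) (nat_lit 3597) (.d (nat_lit 494) (nat_lit 462) (nat_lit 4558) (nat_lit 623) (nat_lit 4590))))) (.a (.f (nat_lit 593) (nat_lit 594) (nat_lit 558) (.f (nat_lit 590) (nat_lit 589) (nat_lit 1581) (.f (nat_lit 591) (nat_lit 562) (nat_lit 1582) (.f (nat_lit 592) (nat_lit 557) (nat_lit 557) (.d (nat_lit 625) (nat_lit 626) (nat_lit 590) (nat_lit 657) (nat_lit 7696)))))) (.f (nat_lit 593) (nat_lit 594) (nat_lit 558) (.f (nat_lit 557) (nat_lit 592) (nat_lit 557) (.d (nat_lit 525) (nat_lit 524) (nat_lit 3596) (nat_lit 526) (nat_lit 3597))))))) (.p (nat_lit 557) (.a (.f (nat_lit 589) (nat_lit 588) (nat_lit 1580) (.f (nat_lit 525) (nat_lit 524) (nat_lit 3596) (.f (nat_lit 592) (nat_lit 593) (nat_lit 557) (.f (nat_lit 591) (nat_lit 556) (nat_lit 556) (.f (nat_lit 623) (nat_lit 655) (nat_lit 6671) (.p (nat_lit 590) (.a (.f (nat_lit 526) (nat_lit 494) (nat_lit 4590) (.d (nat_lit 621) (nat_lit 620) (nat_lit 1612) (nat_lit 653) (nat_lit 6669))) (.d (nat_lit 493) (nat_lit 461) (nat_lit 4557) (nat_lit 622) (nat_lit 4589))))))))) (.a (.f (nat_lit 592) (nat_lit 593) (nat_lit 557) (.f (nat_lit 556) (nat_lit 591) (nat_lit 556) (.d (nat_lit 588) (nat_lit 587) (nat_lit 1579) (nat_lit 589) (nat_lit 1580)))) (.a (.f (nat_lit 589) (nat_lit 588) (nat_lit 1580) (.f (nat_lit 525) (nat_lit 524) (nat_lit 3596) (.f (nat_lit 592) (nat_lit 593) (nat_lit 557) (.p (nat_lit 621) (.a (.d (nat_lit 526) (nat_lit 494) (nat_lit 6637) (nat_lit 653) (nat_lit 6669)) (.a (.f (nat_lit 622) (nat_lit 654) (nat_lit 4621) (.f (nat_lit 590) (nat_lit 493) (nat_lit 4589) (.d (nat_lit 653) (nat_lit 526) (nat_lit 6669) (nat_lit 685) (nat_lit 6701)))) (.f (nat_lit 622) (nat_lit 654) (nat_lit 4621) (.f (nat_lit 590) (nat_lit 493) (nat_lit 4589) (.d (nat_lit 620) (nat_lit 591) (nat_lit 1612) (nat_lit 652) (nat_lit 5644)))))))))) (.a (.f (nat_lit 525) (nat_lit 524) (nat_lit 3596) (.f (nat_lit 589) (nat_lit 588) (nat_lit 1580) (.p (nat_lit 493) (.a (.d (nat_lit 590) (nat_lit 461) (nat_lit 4557) (nat_lit 622) (nat_lit 4589)) (.a (.f (nat_lit 461) (nat_lit 590) (nat_lit 4557) (.d (nat_lit 462) (nat_lit 430) (nat_lit 6573) (nat_lit 494) (nat_lit 6605))) (.f (nat_lit 494) (nat_lit 462) (nat_lit 6605) (.f (nat_lit 621) (nat_lit 526) (nat_lit 6637) (.p (nat_lit 653) (.a (.d (nat_lit 654) (nat_lit 622) (nat_lit 4621) (nat_lit 686) (nat_lit 4653)) (.d (nat_lit 652) (nat_lit 620) (nat_lit 5644) (nat_lit 684) (nat_lit 5676))))))))))) (.f (nat_lit 592) (nat_lit 593) (nat_lit 557) (.f (nat_lit 556) (nat_lit 591) (nat_lit 556) (.d (nat_lit 524) (nat_lit 523) (nat_lit 3595) (nat_lit 525) (nat_lit 3596))))))))))))))))))))))))))))))))))))))))))))))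
noncomputable def s62667 : Cert := .r (nat_lit 3773962425700235452942859537547095162710600801457693578881837785689207274724608166465642803818140937612138585141332039279387761249239044150589503430612132383078045712384) (.f (nat_lit 463) (nat_lit 431) (nat_lit 7599) (.p (nat_lit 462) (.a (.f (nat_lit 465) (nat_lit 433) (nat_lit 6576) (.d (nat_lit 497) (nat_lit 461) (nat_lit 461) (nat_lit 498) (nat_lit 462))) (.a (.f (nat_lit 461) (nat_lit 497) (nat_lit 461) (.f (nat_lit 460) (nat_lit 495) (nat_lit 460) (.d (nat_lit 492) (nat_lit 491) (nat_lit 1483) (nat_lit 493) (nat_lit 1484)))) (.a (.f (nat_lit 465) (nat_lit 433) (nat_lit 6576) (.f (nat_lit 497) (nat_lit 498) (nat_lit 462) (.f (nat_lit 494) (nat_lit 493) (nat_lit 1485) (.f (nat_lit 466) (nat_lit 495) (nat_lit 1486) (.f (nat_lit 467) (nat_lit 468) (nat_lit 1488) (.d (nat_lit 435) (nat_lit 434) (nat_lit 2479) (nat_lit 436) (nat_lit 2480))))))) (.f (nat_lit 465) (nat_lit 433)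 (nat_lit 6576) (.f (nat_lit 494) (nat_lit 493) (nat_lit 1485) (.f (nat_lit 495) (nat_lit 466) (nat_lit 1486) (.f (nat_lit 559) (nat_lit 591) (nat_lit 5583) (.d (nat_lit 430) (nat_lit 429) (nat_lit 3501) (nat_lit 527) (nat_lit 7598)))))))))))
noncomputable def s62679 : Cert := .r (nat_lit 3773962425700235452942859537547095162710600801457693578881837785689207274724608166465642803818140937612138585141332039279387761249239044150589503430612132383078045712384) (.f (nat_lit 465) (nat_lit 433) (nat_lit 6576) (.p (nat_lit 466) (.a (.f (nat_lit 463) (nat_lit 431) (nat_lit 7599) (.d (nat_lit 495) (nat_lit 467) (nat_lit 1487) (nat_lit 494) (nat_lit 1486))) (.a (.f (nat_lit 467) (nat_lit 495) (nat_lit 1487) (.f (nat_lit 468) (nat_lit 497) (nat_lit 1488) (.d (nat_lit 436) (nat_lit 435) (nat_lit 2480) (nat_lit 437) (nat_lit 2481)))) (.a (.f (nat_lit 463) (nat_lit 431) (nat_lit 7599) (.f (nat_lit 495) (nat_lit 494) (nat_lit 1486) (.f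 (nat_lit 498) (nat_lit 499) (nat_lit 463) (.f (nat_lit 462) (nat_lit 497) (nat_lit 462) (.f (nat_lit 461) (nat_lit 460) (nat_lit 460) (.d (nat_lit 429) (nat_lit 428) (nat_lit 3500) (nat_lit 430) (nat_lit 3501))))))) (.f (nat_lit 463) (nat_lit 431) (nat_lit 7599) (.f (nat_lit 498) (nat_lit 499) (nat_lit 463) (.f (nat_lit 462) (nat_lit 497) (nat_lit 462) (.f (nat_lit 493) (nat_lit 494) (nat_lit 1485) (.f (nat_lit 461) (nat_lit 492) (nat_lit 1484) (.d (nat_lit 429) (nat_lit 428) (nat_lit 3500) (nat_lit 430) (nat_lit 3501))))))))))))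
noncomputable def s62689 : Cert := .r (nat_lit 3773962425700235452942859537547095162710600801457693578881837785689207274724608166465642803818140937612138585141332039279387761249239044150589503430612132383078045712384) (.f (nat_lit 463) (nat_lit 431) (nat_lit 7599) (.p (nat_lit 462) (.a (.f (nat_lit 465) (nat_lit 433) (nat_lit 6576) (.d (nat_lit 497) (nat_lit 461) (nat_lit 461) (nat_lit 498) (nat_lit 462))) (.a (.f (nat_lit 461) (nat_lit 497) (nat_lit 461) (.f (nat_lit 460) (nat_lit 495) (nat_lit 460) (.d (nat_lit 492) (nat_lit 491) (nat_lit 1483) (nat_lit 493) (nat_lit 1484)))) (.a (.f (nat_lit 465) (nat_lit 433) (nat_lit 6576) (.f (nat_lit 497) (nat_lit 498) (nat_lit 462) (.f (nat_lit 494) (nat_lit 493) (nat_lit 1485) (.f (nat_lit 466) (nat_lit 495) (nat_lit 1486) (.f (nat_lit 467) (nat_lit 468) (nat_lit 1488) (.d (nat_lit 435) (nat_lit 434) (nat_lit 2479) (nat_lit 436) (nat_lit 2480))))))) (.f (nat_lit 465) (nat_lit 433)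 (nat_lit 6576) (.f (nat_lit 494) (nat_lit 493) (nat_lit 1485) (.f (nat_lit 495) (nat_lit 466) (nat_lit 1486) (.f (nat_lit 559) (nat_lit 591) (nat_lit 5583) (.f (nat_lit 527) (nat_lit 430) (nat_lit 7598) (.f (nat_lit 561) (nat_lit 593) (nat_lit 4560) (.d (nat_lit 562) (nat_lit 526) (nat_lit 3598) (nat_lit 563) (nat_lit 3599)))))))))))))
noncomputable def s62697 : Cert := .r (nat_lit 3773962425700235452942859537570912214028319248047213821418711918270907394831610204664946674664892125805038408292884667629176365765534110458583633549138194209244490760192) (.p (nat_lit 462) (.a (.f (nat_lit 465) (nat_lit 433) (nat_lit 6576) (.d (nat_lit 497) (nat_lit 461) (nat_lit 461) (nat_lit 498) (nat_lit 462))) (.a (.f (nat_lit 461) (nat_lit 497) (nat_lit 461) (.f (nat_lit 460) (nat_lit 495) (nat_lit 460) (.d (nat_lit 492) (nat_lit 491) (nat_lit 1483) (nat_lit 493) (nat_lit 1484)))) (.a (.f (nat_lit 465) (nat_lit 433) (nat_lit 6576) (.f (nat_lit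 497) (nat_lit 498) (nat_lit 462) (.f (nat_lit 494) (nat_lit 493) (nat_lit 1485) (.f (nat_lit 466) (nat_lit 495) (nat_lit 1486) (.f (nat_lit 467) (nat_lit 468) (nat_lit 1488) (.d (nat_lit 435) (nat_lit 434) (nat_lit 2479) (nat_lit 436) (nat_lit 2480))))))) (.f (nat_lit 465) (nat_lit 433) (nat_lit 6576) (.f (nat_lit 494) (nat_lit 493) (nat_lit 1485) (.f (nat_lit 466) (nat_lit 495) (nat_lit 1486) (.f (nat_lit 499) (nat_lit 498) (nat_lit 463) (.f (nat_lit 467) (nat_lit 500) (nat_lit 464) (.d (nat_lit 435) (nat_lit 434) (nat_lit 2479) (nat_lit 436) (nat_lit 2480)))))))))))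
noncomputable def s62698 : Cert := .r (nat_lit 3773962425700235452942859537547095162710600801457693578881837785689207274724608166465642803818140937612138585141332039279387761249239044150589503430612132383078045712384) (.f (nat_lit 463) (nat_lit 431) (nat_lit 7599) s62697)
noncomputable def s62806 : Cert := .r (nat_lit 6604434244316391466919438560294787964022467360718298953150452382995733847176014095024229485426092853588035485644035913132285281963710134186934500585068817349982059233280) (.p (nat_lit 589) (.a (.f (nat_lit 561) (nat_lit 590) (nat_lit 1581) (.f (nat_lit 557) (nat_lit 588) (nat_lit 1580) (.d (nat_lit 525) (nat_lit 524) (nat_lit 3596) (nat_lit 526) (nat_lit 3597)))) (.a (.f (nat_lit 590) (nat_lit 561) (nat_lit 1581) (.d (nat_lit 588) (nat_lit 557) (nat_lit 1580) (nat_lit 587) (nat_lit 2603))) (.a (.f (nat_lit 590) (nat_lit 561) (nat_lit 1581) (.d (nat_lit 588) (nat_lit 587) (nat_lit 2603) (nat_lit 591) (nat_lit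 2604))) (.a (.f (nat_lit 588) (nat_lit 557) (nat_lit 1580) (.d (nat_lit 590) (nat_lit 587) (nat_lit 2603) (nat_lit 591) (nat_lit 2604))) (.a (.p (nat_lit 526) (.a (.d (nat_lit 561) (nat_lit 525) (nat_lit 3597) (nat_lit 590) (nat_lit 1581)) (.a (.f (nat_lit 590) (nat_lit 561) (nat_lit 1581) (.f (nat_lit 494) (nat_lit 621) (nat_lit 5613) (.d (nat_lit 462) (nat_lit 557) (nat_lit 5581) (nat_lit 591) (nat_lit 4558)))) (.a (.p (nat_lit 494) (.a (.d (nat_lit 462) (nat_lit 557) (nat_lit 5581) (nat_lit 591) (nat_lit 4558)) (.a (.f (nat_lit 590) (nat_lit 621) (nat_lit 5613) (.f (nat_lit 623) (nat_lit 591) (nat_lit 4590) (.f (nat_lit 622) (nat_lit 655) (nat_lit 4622) (.d (nat_lit 493) (nat_lit 461) (nat_lit 7629) (nat_lit 525) (nat_lit 7661))))) (.f (nat_lit 557) (nat_lit 462) (nat_lit 5581) (.d (nat_lit 621) (nat_lit 525) (nat_lit 6637) (nat_lit 590) (nat_lit 5613)))))) (.f (nat_lit 525) (nat_lit 561) (nat_lit 3597) (.d (nat_lit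 524) (nat_lit 523) (nat_lit 523) (nat_lit 557) (nat_lit 3596))))))) (.f (nat_lit 557) (nat_lit 588) (nat_lit 1580) (.f (nat_lit 525) (nat_lit 524) (nat_lit 3596) (.f (nat_lit 526) (nat_lit 561) (nat_lit 3597) (.d (nat_lit 494) (nat_lit 462) (nat_lit 5581) (nat_lit 621) (nat_lit 6637)))))))))))
noncomputable def s62951 : Cert := .r (nat_lit 6604434244316391466919438560330513540999045030602579316955763581868284027336517152323185291696219635877385220371364855656968188738152733648925695762857910089231726804992) (.p (nat_lit 465) (.a (.f (nat_lit 429) (nat_lit 430) (nat_lit 3501) (.f (nat_lit 461) (nat_lit 428) (nat_lit 3500) (.d (nat_lit 433) (nat_lit 432) (nat_lit 2477) (nat_lit 434) (nat_lit 2478)))) (.a (.f (nat_lit 433) (nat_lit 434) (nat_lit 2478) (.f (nat_lit 461) (nat_lit 432) (nat_lit 2477) (.d (nat_lit 493) (nat_lit 492) (nat_lit 1484) (nat_lit 494) (nat_lit 1485)))) (.a (.f (nat_lit 434) (nat_lit 433) (nat_lit 2478)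 (.f (nat_lit 466) (nat_lit 435) (nat_lit 2479) (.d (nat_lit 498) (nat_lit 497) (nat_lit 462) (nat_lit 499) (nat_lit 463)))) (.f (nat_lit 429) (nat_lit 430) (nat_lit 3501) (.f (nat_lit 461) (nat_lit 428) (nat_lit 3500) (.d (nat_lit 493) (nat_lit 492) (nat_lit 1484) (nat_lit 494) (nat_lit 1485))))))))
noncomputable def s63098 : Cert := .r (nat_lit 6604434244316391466919438560330513540999045030602579316955763581868284027336517152323185291696219635877385220371364855656968188738152733648925695762857910089231726804992) (.p (nat_lit 465) (.a (.f (nat_lit 434) (nat_lit 433) (nat_lit 2478) (.f (nat_lit 466) (nat_lit 435) (nat_lit 2479) (.d (nat_lit 498) (nat_lit 497) (nat_lit 462) (nat_lit 499) (nat_lit 463)))) (.a (.f (nat_lit 494) (nat_lit 493) (nat_lit 1485) (.f (nat_lit 495) (nat_lit 466) (nat_lit 1486) (.d (nat_lit 527) (nat_lit 432) (nat_lit 6575) (nat_lit 590) (nat_lit 5582)))) (.f (nat_lit 430) (nat_lit 429) (nat_lit 3501)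 (.f (nat_lit 495) (nat_lit 527) (nat_lit 7598) (.f (nat_lit 494) (nat_lit 493) (nat_lit 1485) (.f (nat_lit 398) (nat_lit 366) (nat_lit 4462) (.f (nat_lit 497) (nat_lit 498) (nat_lit 462) (.f (nat_lit 433) (nat_lit 434) (nat_lit 2478) (.f (nat_lit 397) (nat_lit 365) (nat_lit 7533) (.f (nat_lit 399) (nat_lit 367) (nat_lit 6510) (.f (nat_lit 400) (nat_lit 432) (nat_lit 397) (.d (nat_lit 368) (nat_lit 369) (nat_lit 2413) (nat_lit 401) (nat_lit 7536))))))))))))))
noncomputable def s63110 : Cert := .r (nat_lit 6604434244316391466919438560330513540999045030602579316955763581868284027336517152323185291696219635877385220371364855656968188738152733648925695762857910089231726804992) (.p (nat_lit 461) (.a (.f (nat_lit 492) (nat_lit 493) (nat_lit 1484) (.f (nat_lit 460) (nat_lit 491) (nat_lit 1483) (.d (nat_lit 428) (nat_lit 427) (nat_lit 3499) (nat_lit 429) (nat_lit 3500)))) (.a (.f (nat_lit 493) (nat_lit 492) (nat_lit 1484) (.f (nat_lit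 432) (nat_lit 433) (nat_lit 2477) (.f (nat_lit 527) (nat_lit 495) (nat_lit 6575) (.f (nat_lit 557) (nat_lit 556) (nat_lit 2572) (.d (nat_lit 525) (nat_lit 524) (nat_lit 3596) (nat_lit 590) (nat_lit 4557)))))) (.a (.f (nat_lit 432) (nat_lit 433) (nat_lit 2477) (.f (nat_lit 527) (nat_lit 495) (nat_lit 6575) (.f (nat_lit 557) (nat_lit 556) (nat_lit 2572) (.f (nat_lit 525) (nat_lit 524) (nat_lit 3596) (.d (nat_lit 493) (nat_lit 430) (nat_lit 6573) (nat_lit 590) (nat_lit 4557)))))) (.f (nat_lit 428) (nat_lit 429) (nat_lit 3500) (.f (nat_lit 460) (nat_lit 427) (nat_lit 3499) (.f (nat_lit 491) (nat_lit 492) (nat_lit 1483) (.f (nat_lit 459) (nat_lit 490) (nat_lit 1482) (.f (nat_lit 495) (nat_lit 494) (nat_lit 459) (.d (nat_lit 527) (nat_lit 432) (nat_lit 6575) (nat_lit 590) (nat_lit 5582)))))))))))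
noncomputable def s63112 : Cert := .r (nat_lit 6604434244316391466919438560330513540999045030602579316955763581868284027336517152323185291696219635877385220371364855656968188738152733648925695762857910089231726804992) (.p (nat_lit 461) (.a (.f (nat_lit 492) (nat_lit 493) (nat_lit 1484) (.f (nat_lit 460) (nat_lit 491) (nat_lit 1483) (.d (nat_lit 428) (nat_lit 427) (nat_lit 3499) (nat_lit 429) (nat_lit 3500)))) (.a (.f (nat_lit 429) (nat_lit 428) (nat_lit 3500) (.f (nat_lit 465) (nat_lit 430) (nat_lit 3501) (.d (nat_lit 433) (nat_lit 432) (nat_lit 2477) (nat_lit 434) (nat_lit 2478)))) (.f (nat_lit 493) (nat_lit 492) (nat_lit 1484) (.f (nat_lit 432) (nat_lit 433) (nat_lit 2477) (.f (nat_lit 527) (nat_lit 495) (nat_lit 6575) (.f (nat_lit 557) (nat_lit 556) (nat_lit 2572) (.d (nat_lit 525) (nat_lit 524) (nat_lit 3596) (nat_lit 590) (nat_lit 4557)))))))))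
noncomputable def s63129 : Cert := .r (nat_lit 6604434244316391466919438560330513540999045030602579316955763581868284027336517152323185291696219635877385220371364855656968188738152733648925695762857910089231726804992) (.p (nat_lit 465) (.a (.f (nat_lit 429) (nat_lit 430) (nat_lit 3501) (.f (nat_lit 461) (nat_lit 428) (nat_lit 3500) (.d (nat_lit 493) (nat_lit 492) (nat_lit 1484) (nat_lit 494) (nat_lit 1485)))) (.a (.f (nat_lit 494) (nat_lit 493) (nat_lit 1485) (.f (nat_lit 526) (nat_lit 591) (nat_lit 4558) (.d (nat_lit 495) (nat_lit 466) (nat_lit 1486) (nat_lit 590) (nat_lit 6606)))) (.a (.f (nat_lit 429) (nat_lit 430) (nat_lit 3501) (.f (nat_lit 461) (nat_lit 428) (nat_lit 3500) (.f (nat_lit 494) (nat_lit 526) (nat_lit 7597) (.f (nat_lit 466) (nat_lit 495) (nat_lit 1486) (.d (nat_lit 498) (nat_lit 497) (nat_lit 462) (nat_lit 499) (nat_lit 463)))))) (.f (nat_lit 429) (nat_lit 430) (nat_lit 3501) (.f (nat_lit 461) (nat_lit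 428) (nat_lit 3500) (.f (nat_lit 493) (nat_lit 492) (nat_lit 1484) (.f (nat_lit 525) (nat_lit 526) (nat_lit 4525) (.d (nat_lit 524) (nat_lit 556) (nat_lit 5548) (nat_lit 557) (nat_lit 3596))))))))))
noncomputable def s63335 : Cert := .r (nat_lit 13208868487754088833342159077024258523127079496447069702808813408425576131362274586174951254486995696785605141947872641706883805066078521293917010525076035426368501055488) (.p (nat_lit 562) (.a (.d (nat_lit 527) (nat_lit 526) (nat_lit 3598) (nat_lit 563) (nat_lit 3599)) (.a (.f (nat_lit 563) (nat_lit 527) (nat_lit 3599) (.d (nat_lit 531) (nat_lit 530) (nat_lit 2575) (nat_lit 532) (nat_lit 2576))) (.a (.f (nat_lit 595) (nat_lit 594) (nat_lit 559) (.f (nat_lit 563) (nat_lit 596) (nat_lit 560) (.d (nat_lit 531) (nat_lit 530) (nat_lit 2575) (nat_lit 532) (nat_lit 2576)))) (.f (nat_lit 527) (nat_lit 526) (nat_lit 3598) (.f (nat_lit 496) (nat_lit 432) (nat_lit 5551) (.f (nat_lit 465)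 (nat_lit 433) (nat_lit 6576) (.f (nat_lit 530) (nat_lit 531) (nat_lit 2575) (.f (nat_lit 594) (nat_lit 595) (nat_lit 559) (.f (nat_lit 498) (nat_lit 497) (nat_lit 7633) (.f (nat_lit 467) (nat_lit 499) (nat_lit 6610) (.d (nat_lit 466) (nat_lit 435) (nat_lit 6578) (nat_lit 495) (nat_lit 1487)))))))))))))
noncomputable def s63351 : Cert := .r (nat_lit 3773962425700235452942859537547095162710600801457693578881837785689207274724608166465642803818140937612138585141332039279387761249239044150589503430612132383078045712384) (.f (nat_lit 561) (nat_lit 593) (nat_lit 4560) (.p (nat_lit 562) (.a (.f (nat_lit 559) (nat_lit 591) (nat_lit 5583) (.d (nat_lit 527) (nat_lit 526) (nat_lit 3598) (nat_lit 563) (nat_lit 3599))) (.a (.f (nat_lit 559) (nat_lit 591) (nat_lit 5583) (.f (nat_lit 563) (nat_lit 527) (nat_lit 3599) (.d (nat_lit 531) (nat_lit 530) (nat_lit 2575) (nat_lit 532) (nat_lit 2576)))) (.a (.f (nat_lit 559) (nat_lit 591) (nat_lit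 5583) (.f (nat_lit 595) (nat_lit 594) (nat_lit 559) (.f (nat_lit 563) (nat_lit 596) (nat_lit 560) (.d (nat_lit 531) (nat_lit 530) (nat_lit 2575) (nat_lit 532) (nat_lit 2576))))) (.a (.f (nat_lit 563) (nat_lit 527) (nat_lit 3599) (.f (nat_lit 532) (nat_lit 531) (nat_lit 2576) (.f (nat_lit 564) (nat_lit 533) (nat_lit 2577) (.d (nat_lit 596) (nat_lit 595) (nat_lit 560) (nat_lit 597) (nat_lit 561))))) (.f (nat_lit 559) (nat_lit 591) (nat_lit 5583) (.f (nat_lit 526) (nat_lit 527) (nat_lit 3598) (.f (nat_lit 558) (nat_lit 525) (nat_lit 3597) (.f (nat_lit 589) (nat_lit 590) (nat_lit 1581) (.f (nat_lit 557) (nat_lit 588) (nat_lit 1580) (.f (nat_lit 465) (nat_lit 433) (nat_lit 6576) (.f (nat_lit 494) (nat_lit 462) (nat_lit 5581) (.f (nat_lit 495) (nat_lit 493) (nat_lit 2509) (.d (nat_lit 466) (nat_lit 463) (nat_lit 1486) (nat_lit 467) (nat_lit 1487))))))))))))))))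
noncomputable def s63363 : Cert := .r (nat_lit 3773962425700235452942859537547095162710600801457693578881837785689207274724608166465642803818140937612138585141332039279387761249239044150589503430612132383078045712384) (.f (nat_lit 561) (nat_lit 593) (nat_lit 4560) (.p (nat_lit 562) (.a (.f (nat_lit 559) (nat_lit 591) (nat_lit 5583) (.d (nat_lit 527) (nat_lit 526) (nat_lit 3598) (nat_lit 563) (nat_lit 3599))) (.a (.f (nat_lit 559) (nat_lit 591) (nat_lit 5583) (.f (nat_lit 563) (nat_lit 527) (nat_lit 3599) (.d (nat_lit 531) (nat_lit 530) (nat_lit 2575) (nat_lit 532) (nat_lit 2576)))) (.a (.f (nat_lit 559) (nat_lit 591) (nat_lit 5583) (.f (nat_lit 595) (nat_lit 594) (nat_lit 559) (.f (nat_lit 563) (nat_lit 596) (nat_lit 560) (.d (nat_lit 531) (nat_lit 530) (nat_lit 2575) (nat_lit 532) (nat_lit 2576))))) (.a (.f (nat_lit 563) (nat_lit 527) (nat_lit 3599) (.f (nat_lit 532) (nat_lit 531) (nat_lit 2576) (.f (nat_lit 564) (nat_lit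 533) (nat_lit 2577) (.d (nat_lit 596) (nat_lit 595) (nat_lit 560) (nat_lit 597) (nat_lit 561))))) (.f (nat_lit 559) (nat_lit 591) (nat_lit 5583) (.f (nat_lit 526) (nat_lit 527) (nat_lit 3598) (.f (nat_lit 558) (nat_lit 525) (nat_lit 3597) (.f (nat_lit 589) (nat_lit 590) (nat_lit 1581) (.f (nat_lit 557) (nat_lit 588) (nat_lit 1580) (.f (nat_lit 463) (nat_lit 431) (nat_lit 7599) (.f (nat_lit 462) (nat_lit 494) (nat_lit 5581) (.f (nat_lit 461) (nat_lit 497) (nat_lit 461) (.f (nat_lit 460) (nat_lit 495) (nat_lit 460) (.d (nat_lit 492) (nat_lit 491) (nat_lit 1483) (nat_lit 493) (nat_lit 1484)))))))))))))))))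
noncomputable def s63365 : Cert := .r (nat_lit 3773962425700235452942859537547095162710600801457693578881837785689207274724608166465642803818140937612138585141332039279387761249239044150589503430612132383078045712384) (.f (nat_lit 561) (nat_lit 593) (nat_lit 4560) (.p (nat_lit 562) (.a (.f (nat_lit 559) (nat_lit 591) (nat_lit 5583) (.d (nat_lit 527) (nat_lit 526) (nat_lit 3598) (nat_lit 563) (nat_lit 3599))) (.a (.f (nat_lit 559) (nat_lit 591) (nat_lit 5583) (.f (nat_lit 563) (nat_lit 527) (nat_lit 3599) (.d (nat_lit 531) (nat_lit 530) (nat_lit 2575) (nat_lit 532) (nat_lit 2576)))) (.a (.f (nat_lit 559) (nat_lit 591) (nat_lit 5583) (.f (nat_lit 595) (nat_lit 594) (nat_lit 559) (.f (nat_lit 563) (nat_lit 596) (nat_lit 560) (.d (nat_lit 531) (nat_lit 530) (nat_lit 2575) (nat_lit 532) (nat_lit 2576))))) (.a (.f (nat_lit 563) (nat_lit 527) (nat_lit 3599) (.f (nat_lit 532) (nat_lit 531) (nat_lit 2576) (.f (nat_lit 564) (nat_lit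 533) (nat_lit 2577) (.d (nat_lit 596) (nat_lit 595) (nat_lit 560) (nat_lit 597) (nat_lit 561))))) (.f (nat_lit 559) (nat_lit 591) (nat_lit 5583) (.f (nat_lit 463) (nat_lit 431) (nat_lit 7599) (.f (nat_lit 465) (nat_lit 433) (nat_lit 6576) (.f (nat_lit 530) (nat_lit 531) (nat_lit 2575) (.f (nat_lit 594) (nat_lit 595) (nat_lit 559) (.f (nat_lit 498) (nat_lit 497) (nat_lit 7633) (.d (nat_lit 499) (nat_lit 466) (nat_lit 463) (nat_lit 467) (nat_lit 6610))))))))))))))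
noncomputable def s63445 : Cert := .r (nat_lit 7076179547419084136154219795911830442262906869322078953711018298404128416817738412041003688348592359210923413293250403566687022800423237704080758400615741421271266623488) (.p (nat_lit 461) (.a (.f (nat_lit 463) (nat_lit 431) (nat_lit 7599) (.f (nat_lit 462) (nat_lit 497) (nat_lit 461) (.f (nat_lit 493) (nat_lit 492) (nat_lit 1484) (.d (nat_lit 525) (nat_lit 524) (nat_lit 3596) (nat_lit 590) (nat_lit 4557))))) (.a (.f (nat_lit 525) (nat_lit 524) (nat_lit 3596) (.f (nat_lit 493) (nat_lit 590) (nat_lit 4557) (.f (nat_lit 462) (nat_lit 430) (nat_lit 6573) (.d (nat_lit 463) (nat_lit 492) (nat_lit 1484) (nat_lit 497) (nat_lit 461))))) (.a (.f (nat_lit 525) (nat_lit 524) (nat_lit 3596) (.f (nat_lit 493) (nat_lit 590) (nat_lit 4557) (.f (nat_lit 428) (nat_lit 460) (nat_lit 7596) (.f (nat_lit 429) (nat_lit 396) (nat_lit 7564) (.f (nat_lit 431) (nat_lit 463) (nat_lit 7599) (.f (nat_lit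 430) (nat_lit 398) (nat_lit 6541) (.d (nat_lit 399) (nat_lit 400) (nat_lit 2444) (nat_lit 432) (nat_lit 7567)))))))) (.a (.f (nat_lit 525) (nat_lit 524) (nat_lit 3596) (.f (nat_lit 493) (nat_lit 590) (nat_lit 4557) (.f (nat_lit 428) (nat_lit 460) (nat_lit 7596) (.f (nat_lit 429) (nat_lit 396) (nat_lit 7564) (.d (nat_lit 430) (nat_lit 398) (nat_lit 6541) (nat_lit 462) (nat_lit 6573)))))) (.f (nat_lit 463) (nat_lit 431) (nat_lit 7599) (.f (nat_lit 462) (nat_lit 497) (nat_lit 461) (.f (nat_lit 460) (nat_lit 495) (nat_lit 460) (.d (nat_lit 428) (nat_lit 427) (nat_lit 3499) (nat_lit 429) (nat_lit 3500))))))))))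
noncomputable def s63560 : Cert := .r (nat_lit 3773962425700235454272674472004902797403459115793905734469848616894202345452195284754697158607539975533467060148730603121935476676060322998084013902378073310992760045568) (.p (nat_lit 562) (.a (.f (nat_lit 527) (nat_lit 526) (nat_lit 1518) (.d (nat_lit 561) (nat_lit 563) (nat_lit 3599) (nat_lit 593) (nat_lit 4560))) (.a (.f (nat_lit 530) (nat_lit 531) (nat_lit 495) (.f (nat_lit 466) (nat_lit 467) (nat_lit 2511) (.f (nat_lit 561) (nat_lit 593) (nat_lit 5585) (.d (nat_lit 563) (nat_lit 527) (nat_lit 3599) (nat_lit 595) (nat_lit 4562))))) (.a (.f (nat_lit 530) (nat_lit 531) (nat_lit 495) (.f (nat_lit 466) (nat_lit 467) (nat_lit 2511) (.f (nat_lit 593) (nat_lit 561) (nat_lit 5585) (.d (nat_lit 594) (nat_lit 465) (nat_lit 7633) (nat_lit 625) (nat_lit 5617))))) (.f (nat_lit 530) (nat_lit 531) (nat_lit 495) (.f (nat_lit 466) (nat_lit 467) (nat_lit 2511) (.f (nat_lit 594) (nat_lit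 465) (nat_lit 7633) (.d (nat_lit 595) (nat_lit 563) (nat_lit 4562) (nat_lit 627) (nat_lit 4594)))))))))
noncomputable def s63756 : Cert := .r (nat_lit 3773962425700235453761207189711667040800008513497017344496593619158487448894442354787439108067363649217311271786281705822125223687674407029525669216418045092896314490880) (.f (nat_lit 431) (nat_lit 463) (nat_lit 7599) (.f (nat_lit 499) (nat_lit 531) (nat_lit 4498) (.f (nat_lit 467) (nat_lit 370) (nat_lit 4466) (.f (nat_lit 432) (nat_lit 399) (nat_lit 7567) (.f (nat_lit 401) (nat_lit 369) (nat_lit 7537) (.f (nat_lit 403) (nat_lit 400) (nat_lit 1423) (.f (nat_lit 435) (nat_lit 530) (nat_lit 5522) (.f (nat_lit 436) (nat_lit 437) (nat_lit 3473) (.f (nat_lit 404) (nat_lit 372) (nat_lit 6515) (.f (nat_lit 500) (nat_lit 532) (nat_lit 4499) (.f (nat_lit 501) (nat_lit 502) (nat_lit 3538) (.d (nat_lit 533) (nat_lit 468) (nat_lit 4500) (nat_lit 534) (nat_lit 498)))))))))))))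
noncomputable def s63797 : Cert := .r (nat_lit 3773962425700235453761207189711667040800008513497017344496593619158487448894442354787439108067363649217311271786281705822125223687674407029525669216418045092896314490880) (.f (nat_lit 431) (nat_lit 463) (nat_lit 7599) (.f (nat_lit 371) (nat_lit 403) (nat_lit 6514) (.f (nat_lit 370) (nat_lit 339) (nat_lit 6482) (.f (nat_lit 399) (nat_lit 432) (nat_lit 7567) (.f (nat_lit 401) (nat_lit 400) (nat_lit 2415) (.f (nat_lit 561) (nat_lit 593) (nat_lit 4560) (.f (nat_lit 467) (nat_lit 499) (nat_lit 4466) (.f (nat_lit 435) (nat_lit 338) (nat_lit 4434) (.f (nat_lit 437) (nat_lit 436) (nat_lit 3473) (.f (nat_lit 562) (nat_lit 530) (nat_lit 6578) (.f (nat_lit 563) (nat_lit 527) (nat_lit 3599) (.f (nat_lit 596) (nat_lit 595) (nat_lit 560) (.f (nat_lit 564) (nat_lit 597) (nat_lit 561) (.f (nat_lit 532) (nat_lit 533) (nat_lit 2577) (.f (nat_lit 468) (nat_lit 500) (nat_lit 7603) (.d (nat_lit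 469) (nat_lit 438) (nat_lit 2482) (nat_lit 470) (nat_lit 3506)))))))))))))))))
noncomputable def s63988 : Cert := .r (nat_lit 26417736974629483566187600110483199641336303767904611202125535459285260699734795568476394792608801383180744454555546098856080851270815295507882030405090471579141384699904) (.p (nat_lit 595) (.a (.f (nat_lit 559) (nat_lit 594) (nat_lit 559) (.f (nat_lit 563) (nat_lit 596) (nat_lit 560) (.d (nat_lit 531) (nat_lit 530) (nat_lit 2575) (nat_lit 532) (nat_lit 2576)))) (.a (.f (nat_lit 596) (nat_lit 563) (nat_lit 560) (.d (nat_lit 594) (nat_lit 559) (nat_lit 559) (nat_lit 593) (nat_lit 3632))) (.a (.f (nat_lit 596) (nat_lit 563) (nat_lit 560) (.d (nat_lit 594) (nat_lit 593) (nat_lit 3632) (nat_lit 597) (nat_lit 3633))) (.a (.f (nat_lit 594) (nat_lit 559) (nat_lit 559) (.d (nat_lit 596) (nat_lit 593) (nat_lit 3632) (nat_lit 597) (nat_lit 3633))) (.a (.f (nat_lit 563) (nat_lit 596) (nat_lit 560) (.f (nat_lit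 531) (nat_lit 532) (nat_lit 2576) (.f (nat_lit 530) (nat_lit 559) (nat_lit 2575) (.d (nat_lit 498) (nat_lit 466) (nat_lit 4562) (nat_lit 627) (nat_lit 7666))))) (.p (nat_lit 530) (.a (.d (nat_lit 559) (nat_lit 531) (nat_lit 2575) (nat_lit 594) (nat_lit 559)) (.a (.f (nat_lit 594) (nat_lit 559) (nat_lit 559) (.f (nat_lit 498) (nat_lit 627) (nat_lit 4594) (.d (nat_lit 466) (nat_lit 563) (nat_lit 4562) (nat_lit 593) (nat_lit 5585)))) (.a (.p (nat_lit 498) (.a (.d (nat_lit 466) (nat_lit 563) (nat_lit 4562) (nat_lit 593) (nat_lit 5585)) (.a (.f (nat_lit 594) (nat_lit 627) (nat_lit 4594) (.f (nat_lit 625) (nat_lit 593) (nat_lit 5617) (.f (nat_lit 626) (nat_lit 657) (nat_lit 5649) (.d (nat_lit 499) (nat_lit 467) (nat_lit 6610) (nat_lit 531) (nat_lit 6642))))) (.f (nat_lit 563) (nat_lit 466) (nat_lit 4562) (.d (nat_lit 627) (nat_lit 531) (nat_lit 7666) (nat_lit 594) (nat_lit 4594)))))) (.f (nat_lit 531) (nat_lit 559) (nat_lit 2575)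 (.d (nat_lit 532) (nat_lit 533) (nat_lit 1553) (nat_lit 563) (nat_lit 2576)))))))))))))
noncomputable def s64006 : Cert := .r (nat_lit 11321887275343318157221381786530124077668618886238849488620710258302764050166200160131887891898166313014870954432490719256998512751116124977636293399359687404543803392000) (.p (nat_lit 562) (.a (.f (nat_lit 563) (nat_lit 527) (nat_lit 3599) (.f (nat_lit 595) (nat_lit 596) (nat_lit 560) (.f (nat_lit 594) (nat_lit 559) (nat_lit 559) (.f (nat_lit 531) (nat_lit 532) (nat_lit 2576) (.d (nat_lit 499) (nat_lit 467) (nat_lit 5586) (nat_lit 626) (nat_lit 5618)))))) (.a (.f (nat_lit 563) (nat_lit 527) (nat_lit 3599) (.f (nat_lit 595) (nat_lit 596) (nat_lit 560) (.f (nat_lit 594) (nat_lit 559) (nat_lit 559) (.f (nat_lit 531) (nat_lit 532) (nat_lit 2576) (.d (nat_lit 626) (nat_lit 499) (nat_lit 5618) (nat_lit 658) (nat_lit 6674)))))) (.a (.f (nat_lit 527) (nat_lit 563) (nat_lit 3599) (.d (nat_lit 526)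 (nat_lit 525) (nat_lit 525) (nat_lit 559) (nat_lit 3598))) (.a s63988 (.a (.f (nat_lit 563) (nat_lit 527) (nat_lit 3599) (.f (nat_lit 596) (nat_lit 595) (nat_lit 560) (.f (nat_lit 564) (nat_lit 597) (nat_lit 561) (.d (nat_lit 532) (nat_lit 531) (nat_lit 2576) (nat_lit 533) (nat_lit 2577))))) (.p (nat_lit 559) (.a (.f (nat_lit 594) (nat_lit 595) (nat_lit 559) (.f (nat_lit 593) (nat_lit 558) (nat_lit 558) (.f (nat_lit 530) (nat_lit 531) (nat_lit 2575) (.d (nat_lit 498) (nat_lit 466) (nat_lit 5585) (nat_lit 625) (nat_lit 5617))))) (.a (.f (nat_lit 526) (nat_lit 527) (nat_lit 3598) (.f (nat_lit 558) (nat_lit 525) (nat_lit 3597) (.d (nat_lit 590) (nat_lit 589) (nat_lit 1581) (nat_lit 591) (nat_lit 1582)))) (.f (nat_lit 591) (nat_lit 590) (nat_lit 1582) (.f (nat_lit 527) (nat_lit 526) (nat_lit 3598) (.f (nat_lit 623) (nat_lit 655) (nat_lit 6671) (.f (nat_lit 530) (nat_lit 531) (nat_lit 2575) (.f (nat_lit 594) (nat_lit 595) (nat_lit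 559) (.f (nat_lit 622) (nat_lit 654) (nat_lit 5646) (.f (nat_lit 624) (nat_lit 656) (nat_lit 4623) (.f (nat_lit 625) (nat_lit 593) (nat_lit 2638) (.d (nat_lit 657) (nat_lit 626) (nat_lit 5649) (nat_lit 658) (nat_lit 622)))))))))))))))))))
noncomputable def s64043 : Cert := .r (nat_lit 56609436373201814384120036758389350768671673531236134629135185861250253998871986385165408594030071523512491454801656858054245528310213636568373504416552039928336547315712) (.p (nat_lit 530) (.a (.f (nat_lit 593) (nat_lit 496) (nat_lit 4560) (.f (nat_lit 625) (nat_lit 657) (nat_lit 6673) (.d (nat_lit 498) (nat_lit 466) (nat_lit 5585) (nat_lit 594) (nat_lit 5617)))) (.a (.f (nat_lit 593) (nat_lit 496) (nat_lit 4560) (.f (nat_lit 625) (nat_lit 657) (nat_lit 6673) (.f (nat_lit 594) (nat_lit 498) (nat_lit 5617) (.f (nat_lit 596) (nat_lit 595) (nat_lit 560) (.d (nat_lit 564) (nat_lit 565) (nat_lit 1585) (nat_lit 597) (nat_lit 561)))))) (.a (.f (nat_lit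 595) (nat_lit 596) (nat_lit 560) (.f (nat_lit 498) (nat_lit 466) (nat_lit 4562) (.d (nat_lit 627) (nat_lit 594) (nat_lit 4594) (nat_lit 659) (nat_lit 7698)))) (.a (.f (nat_lit 593) (nat_lit 496) (nat_lit 4560) (.f (nat_lit 596) (nat_lit 595) (nat_lit 560) (.f (nat_lit 564) (nat_lit 597) (nat_lit 561) (.f (nat_lit 565) (nat_lit 594) (nat_lit 1585) (.f (nat_lit 566) (nat_lit 531) (nat_lit 3602) (.d (nat_lit 534) (nat_lit 533) (nat_lit 2578) (nat_lit 535) (nat_lit 2579))))))) (.f (nat_lit 593) (nat_lit 496) (nat_lit 4560) (.f (nat_lit 595) (nat_lit 596) (nat_lit 560) (.f (nat_lit 498) (nat_lit 466) (nat_lit 5585) (.d (nat_lit 627) (nat_lit 531) (nat_lit 7666) (nat_lit 659) (nat_lit 7698))))))))))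
noncomputable def s64061 : Cert := .r (nat_lit 56609436373201814384120036758389350768671673531236134629135185861250253998871986385165408594030071523512491454801656858054245528310213636568373504416552039928336547315712) (.p (nat_lit 530) (.a (.f (nat_lit 593) (nat_lit 496) (nat_lit 4560) (.f (nat_lit 625) (nat_lit 657) (nat_lit 6673) (.d (nat_lit 498) (nat_lit 466) (nat_lit 5585) (nat_lit 594) (nat_lit 5617)))) (.a (.f (nat_lit 531) (nat_lit 532) (nat_lit 2576) (.f (nat_lit 595) (nat_lit 596) (nat_lit 560) (.d (nat_lit 627) (nat_lit 498) (nat_lit 7666) (nat_lit 659) (nat_lit 7698)))) (.f (nat_lit 531) (nat_lit 532) (nat_lit 2576) (.f (nat_lit 595) (nat_lit 596) (nat_lit 560) (.f (nat_lit 627) (nat_lit 659) (nat_lit 7698) (.f (nat_lit 626) (nat_lit 658) (nat_lit 5650) (.f (nat_lit 499) (nat_lit 594) (nat_lit 5618) (.f (nat_lit 467) (nat_lit 435) (nat_lit 5554) (.d (nat_lit 468) (nat_lit 436) (nat_lit 6579) (nat_lit 500) (nat_lit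 6611)))))))))))
noncomputable def s64081 : Cert := .r (nat_lit 56609436373201814384120036758389350768671673531236134629135185861250253998871986385165408594030071523512491454801656858054245528310213636568373504416552039928336547315712) (.p (nat_lit 564) (.a (.d (nat_lit 532) (nat_lit 531) (nat_lit 2576) (nat_lit 533) (nat_lit 2577)) (.a (.f (nat_lit 593) (nat_lit 496) (nat_lit 4560) (.f (nat_lit 565) (nat_lit 594) (nat_lit 1585) (.d (nat_lit 533) (nat_lit 532) (nat_lit 2577) (nat_lit 534) (nat_lit 2578)))) (.a (.f (nat_lit 593) (nat_lit 496) (nat_lit 4560) (.f (nat_lit 565) (nat_lit 594) (nat_lit 1585) (.f (nat_lit 598) (nat_lit 597) (nat_lit 562) (.f (nat_lit 566) (nat_lit 599) (nat_lit 563) (.d (nat_lit 534) (nat_lit 533) (nat_lit 2578) (nat_lit 535) (nat_lit 2579)))))) (.f (nat_lit 593) (nat_lit 496) (nat_lit 4560) (.f (nat_lit 565) (nat_lit 594) (nat_lit 1585) (.f (nat_lit 598) (nat_lit 597) (nat_lit 562) (.f (nat_lit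 566) (nat_lit 599) (nat_lit 563) (.d (nat_lit 531) (nat_lit 530) (nat_lit 3602) (nat_lit 532) (nat_lit 2576))))))))))
noncomputable def s64082 : Cert := .r (nat_lit 26417736974629483566187600110483199641336303767904611202125535459285260699734795568476394792608801383180744454555546098856080851270815295507882030405090471579141384699904) (.p (nat_lit 563) (.a (.f (nat_lit 596) (nat_lit 595) (nat_lit 560) (.f (nat_lit 564) (nat_lit 597) (nat_lit 561) (.d (nat_lit 532) (nat_lit 531) (nat_lit 2576) (nat_lit 533) (nat_lit 2577)))) (.a (.f (nat_lit 593) (nat_lit 496) (nat_lit 4560) (.f (nat_lit 596) (nat_lit 595) (nat_lit 560) (.f (nat_lit 564) (nat_lit 597) (nat_lit 561) (.f (nat_lit 533) (nat_lit 532) (nat_lit 2577) (.d (nat_lit 565) (nat_lit 534) (nat_lit 2578) (nat_lit 594) (nat_lit 1585)))))) (.a s64043 (.a (.f (nat_lit 593) (nat_lit 496) (nat_lit 4560) (.f (nat_lit 596) (nat_lit 595) (nat_lit 560) (.f (nat_lit 564) (nat_lit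 597) (nat_lit 561) (.f (nat_lit 531) (nat_lit 532) (nat_lit 2576) (.f (nat_lit 594) (nat_lit 565) (nat_lit 1585) (.f (nat_lit 499) (nat_lit 467) (nat_lit 4563) (.d (nat_lit 626) (nat_lit 530) (nat_lit 6642) (nat_lit 658) (nat_lit 6674)))))))) (.a s64061 (.a (.f (nat_lit 593) (nat_lit 496) (nat_lit 4560) (.f (nat_lit 532) (nat_lit 531) (nat_lit 2576) (.f (nat_lit 564) (nat_lit 533) (nat_lit 2577) (.f (nat_lit 565) (nat_lit 594) (nat_lit 1585) (.d (nat_lit 597) (nat_lit 596) (nat_lit 561) (nat_lit 598) (nat_lit 562)))))) s64081)))))))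
noncomputable def s64158 : Cert := .r (nat_lit 41513586680945201780764258086525812558269930152468074239085426422509220326251032880668168388895274802825582465138304979895482930484307417254446238947839757250505048326144) (.p (nat_lit 595) (.a (.f (nat_lit 498) (nat_lit 466) (nat_lit 7634) (.f (nat_lit 500) (nat_lit 468) (nat_lit 6611) (.d (nat_lit 627) (nat_lit 530) (nat_lit 7666) (nat_lit 532) (nat_lit 6643)))) (.a (.f (nat_lit 500) (nat_lit 468) (nat_lit 6611) (.f (nat_lit 627) (nat_lit 532) (nat_lit 6643) (.d (nat_lit 626) (nat_lit 594) (nat_lit 5618) (nat_lit 658) (nat_lit 5650)))) (.a (.f (nat_lit 498) (nat_lit 466) (nat_lit 7634) (.f (nat_lit 627) (nat_lit 530) (nat_lit 7666) (.d (nat_lit 628) (nat_lit 596) (nat_lit 4595) (nat_lit 660) (nat_lit 4627)))) (.f (nat_lit 596) (nat_lit 628) (nat_lit 4595) (.f (nat_lit 467) (nat_lit 564) (nat_lit 4563) (.d (nat_lit 468) (nat_lit 436) (nat_lit 6579) (nat_lit 500) (nat_lit 6611))))))))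
noncomputable def s64192 : Cert := .r (nat_lit 41513586680945201780764258086525812558269930152468074239085426422509220326251032880668168388895274802825582465138304979895482930484307417254446238947839757250505048326144) (.p (nat_lit 595) (.a (.f (nat_lit 498) (nat_lit 466) (nat_lit 7634) (.f (nat_lit 500) (nat_lit 468) (nat_lit 6611) (.d (nat_lit 627) (nat_lit 530) (nat_lit 7666) (nat_lit 532) (nat_lit 6643)))) (.a (.f (nat_lit 500) (nat_lit 468) (nat_lit 6611) (.f (nat_lit 627) (nat_lit 532) (nat_lit 6643) (.d (nat_lit 626) (nat_lit 594) (nat_lit 5618) (nat_lit 658) (nat_lit 5650)))) (.a (.f (nat_lit 498) (nat_lit 466) (nat_lit 7634) (.f (nat_lit 496) (nat_lit 593) (nat_lit 4560) (.d (nat_lit 497) (nat_lit 527) (nat_lit 1519) (nat_lit 532) (nat_lit 496)))) (.f (nat_lit 498) (nat_lit 466) (nat_lit 7634) (.f (nat_lit 496) (nat_lit 593) (nat_lit 4560) (.f (nat_lit 497) (nat_lit 527) (nat_lit 1519) (.d (nat_lit 530) (nat_lit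 495) (nat_lit 495) (nat_lit 627) (nat_lit 7666)))))))))
noncomputable def s64233 : Cert := .r (nat_lit 41513586680945201780764258086525812558269930152468074239085426422509220326251032880668168388895274802825582465138304979895482930484307417254446238947839757250505048326144) (.p (nat_lit 595) (.a (.f (nat_lit 498) (nat_lit 466) (nat_lit 7634) (.f (nat_lit 500) (nat_lit 468) (nat_lit 6611) (.d (nat_lit 627) (nat_lit 530) (nat_lit 7666) (nat_lit 532) (nat_lit 6643)))) (.a (.f (nat_lit 500) (nat_lit 468) (nat_lit 6611) (.f (nat_lit 627) (nat_lit 532) (nat_lit 6643) (.d (nat_lit 626) (nat_lit 594) (nat_lit 5618) (nat_lit 658) (nat_lit 5650)))) (.a (.f (nat_lit 498) (nat_lit 466) (nat_lit 7634) (.f (nat_lit 627) (nat_lit 530) (nat_lit 7666) (.d (nat_lit 626) (nat_lit 594) (nat_lit 5618) (nat_lit 658) (nat_lit 5650)))) (.f (nat_lit 466) (nat_lit 498) (nat_lit 7634) (.f (nat_lit 467) (nat_lit 434) (nat_lit 7602) (.d (nat_lit 468)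 (nat_lit 436) (nat_lit 6579) (nat_lit 500) (nat_lit 6611))))))))
noncomputable def s64394 : Cert := .r (nat_lit 3773962425700235452789419352837689089530310204303180232426993888653488792878081940885092338381798600141335034290884224437622854705202265284023639707812847322952938553344) (.p (nat_lit 461) (.a (.f (nat_lit 493) (nat_lit 492) (nat_lit 1484) (.f (nat_lit 429) (nat_lit 428) (nat_lit 3500) (.d (nat_lit 397) (nat_lit 365) (nat_lit 4461) (nat_lit 526) (nat_lit 4493)))) (.a (.f (nat_lit 493) (nat_lit 492) (nat_lit 1484) (.f (nat_lit 429) (nat_lit 428) (nat_lit 3500) (.d (nat_lit 526) (nat_lit 397) (nat_lit 4493) (nat_lit 558) (nat_lit 7597)))) (.a (.f (nat_lit 429) (nat_lit 428) (nat_lit 3500) (.f (nat_lit 526) (nat_lit 558) (nat_lit 7597) (.f (nat_lit 432) (nat_lit 433) (nat_lit 2477) (.f (nat_lit 431) (nat_lit 460) (nat_lit 2476) (.d (nat_lit 399) (nat_lit 367) (nat_lit 5486) (nat_lit 430) (nat_lit 6542)))))) (.a (.f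 (nat_lit 432) (nat_lit 433) (nat_lit 2477) (.f (nat_lit 431) (nat_lit 460) (nat_lit 2476) (.f (nat_lit 526) (nat_lit 558) (nat_lit 6574) (.d (nat_lit 399) (nat_lit 367) (nat_lit 5486) (nat_lit 430) (nat_lit 6542))))) (.f (nat_lit 493) (nat_lit 492) (nat_lit 1484) (.f (nat_lit 429) (nat_lit 428) (nat_lit 3500) (.f (nat_lit 397) (nat_lit 365) (nat_lit 4461) (.f (nat_lit 398) (nat_lit 366) (nat_lit 6509) (.f (nat_lit 430) (nat_lit 525) (nat_lit 5517) (.f (nat_lit 432) (nat_lit 433) (nat_lit 2477) (.d (nat_lit 431) (nat_lit 396) (nat_lit 3468) (nat_lit 460) (nat_lit 2476)))))))))))))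
noncomputable def s64407 : Cert := .r (nat_lit 3773962425700235452789419352837689089530310204303180232426993888653488792878081940885092338381798600141335034290884224437622854705202265284023639707812847322952938553344) (.p (nat_lit 431) (.a (.f (nat_lit 495) (nat_lit 527) (nat_lit 4527) (.d (nat_lit 399) (nat_lit 367) (nat_lit 5486) (nat_lit 526) (nat_lit 5518))) (.a (.f (nat_lit 495) (nat_lit 527) (nat_lit 4527) (.d (nat_lit 526) (nat_lit 399) (nat_lit 5518) (nat_lit 558) (nat_lit 6574))) (.a (.f (nat_lit 495) (nat_lit 527) (nat_lit 4527) (.f (nat_lit 465) (nat_lit 466) (nat_lit 1486) (.f (nat_lit 430) (nat_lit 429) (nat_lit 3501) (.f (nat_lit 433) (nat_lit 434) (nat_lit 2478) (.f (nat_lit 432) (nat_lit 461) (nat_lit 2477) (.d (nat_lit 398) (nat_lit 366) (nat_lit 4462) (nat_lit 397) (nat_lit 3469))))))) (.f (nat_lit 526) (nat_lit 558) (nat_lit 6574) (.d (nat_lit 399) (nat_lit 367) (nat_lit 5486) (nat_lit 430) (nat_lit 6542)))))))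
noncomputable def s64408 : Cert := .r (nat_lit 3773962425700235452789419352813872038212591757713659989890119756071788672771079902685788467535047411948435211139331596087834250188907198976029509589286785496786493505536) (.p (nat_lit 463) (.a (.f (nat_lit 465) (nat_lit 493) (nat_lit 1485) (.f (nat_lit 430) (nat_lit 429) (nat_lit 3501) (.d (nat_lit 466) (nat_lit 431) (nat_lit 3502) (nat_lit 495) (nat_lit 1486)))) (.a (.f (nat_lit 465) (nat_lit 493) (nat_lit 1485) (.f (nat_lit 466) (nat_lit 495) (nat_lit 1486) (.d (nat_lit 498) (nat_lit 497) (nat_lit 462) (nat_lit 499) (nat_lit 463)))) (.a s64394 s64407))))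
noncomputable def s64420 : Cert := .r (nat_lit 3773962425700235452789419352837689089530310204303180232426993888653488792878081940885092338381798600141335034290884224437622854705202265284023639707812847322952938553344) (.p (nat_lit 431) (.a (.f (nat_lit 495) (nat_lit 527) (nat_lit 4527) (.d (nat_lit 399) (nat_lit 367) (nat_lit 5486) (nat_lit 526) (nat_lit 5518))) (.a (.f (nat_lit 495) (nat_lit 527) (nat_lit 4527) (.d (nat_lit 526) (nat_lit 399) (nat_lit 5518) (nat_lit 558) (nat_lit 6574))) (.a (.f (nat_lit 527) (nat_lit 495) (nat_lit 4527) (.f (nat_lit 526) (nat_lit 558) (nat_lit 6574) (.f (nat_lit 525) (nat_lit 561) (nat_lit 525) (.d (nat_lit 559) (nat_lit 430) (nat_lit 4526) (nat_lit 524) (nat_lit 524))))) (.a (.f (nat_lit 526) (nat_lit 558) (nat_lit 6574) (.d (nat_lit 399) (nat_lit 367) (nat_lit 5486) (nat_lit 430) (nat_lit 6542))) (.f (nat_lit 495) (nat_lit 527) (nat_lit 4527) (.f (nat_lit 399) (nat_lit 367) (nat_lit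 5486) (.f (nat_lit 493) (nat_lit 492) (nat_lit 2508) (.f (nat_lit 398) (nat_lit 366) (nat_lit 7534) (.f (nat_lit 430) (nat_lit 525) (nat_lit 5517) (.f (nat_lit 429) (nat_lit 428) (nat_lit 428) (.d (nat_lit 400) (nat_lit 368) (nat_lit 6511) (nat_lit 401) (nat_lit 1421)))))))))))))
noncomputable def s64425 : Cert := .r (nat_lit 3773962425700235452789419352813872038212591757713659989890119756071788672771079902685788467535047411948435211139331596087834250188907198976029509589286785496786493505536) (.p (nat_lit 463) (.a (.f (nat_lit 465) (nat_lit 493) (nat_lit 1485) (.f (nat_lit 430) (nat_lit 429) (nat_lit 3501) (.d (nat_lit 466) (nat_lit 431) (nat_lit 3502) (nat_lit 495) (nat_lit 1486)))) (.a (.f (nat_lit 465) (nat_lit 493) (nat_lit 1485) (.f (nat_lit 466) (nat_lit 495) (nat_lit 1486) (.d (nat_lit 498) (nat_lit 497) (nat_lit 462) (nat_lit 499) (nat_lit 463)))) (.a s64420 (.a s64407 (.f (nat_lit 465) (nat_lit 493) (nat_lit 1485)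 (.f (nat_lit 430) (nat_lit 429) (nat_lit 3501) (.f (nat_lit 431) (nat_lit 466) (nat_lit 3502) (.d (nat_lit 399) (nat_lit 367) (nat_lit 5486) (nat_lit 526) (nat_lit 6542))))))))))
noncomputable def s64433 : Cert := .r (nat_lit 3773962425700235452789419352837689089530310204303180232426993888653488792878081940885092338381798600141335034290884224437622854705202265284023639707812847322952938553344) (.p (nat_lit 461) (.a (.f (nat_lit 493) (nat_lit 492) (nat_lit 1484) (.f (nat_lit 429) (nat_lit 428) (nat_lit 3500) (.d (nat_lit 397) (nat_lit 365) (nat_lit 4461) (nat_lit 526) (nat_lit 4493)))) (.a (.f (nat_lit 493) (nat_lit 492) (nat_lit 1484) (.f (nat_lit 429) (nat_lit 428) (nat_lit 3500) (.d (nat_lit 526) (nat_lit 397) (nat_lit 4493) (nat_lit 558) (nat_lit 7597)))) (.a (.f (nat_lit 429) (nat_lit 428) (nat_lit 3500) (.f (nat_lit 526) (nat_lit 558) (nat_lit 7597) (.f (nat_lit 432) (nat_lit 433) (nat_lit 2477) (.f (nat_lit 431) (nat_lit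 460) (nat_lit 2476) (.d (nat_lit 399) (nat_lit 367) (nat_lit 5486) (nat_lit 430) (nat_lit 6542)))))) (.a (.f (nat_lit 432) (nat_lit 433) (nat_lit 2477) (.f (nat_lit 431) (nat_lit 460) (nat_lit 2476) (.f (nat_lit 526) (nat_lit 558) (nat_lit 6574) (.d (nat_lit 399) (nat_lit 367) (nat_lit 5486) (nat_lit 430) (nat_lit 6542))))) (.f (nat_lit 429) (nat_lit 428) (nat_lit 3500) (.f (nat_lit 432) (nat_lit 433) (nat_lit 2477) (.f (nat_lit 431) (nat_lit 460) (nat_lit 2476) (.f (nat_lit 495) (nat_lit 527) (nat_lit 4527) (.f (nat_lit 400) (nat_lit 368) (nat_lit 5487) (.f (nat_lit 430) (nat_lit 401) (nat_lit 2445) (.d (nat_lit 397) (nat_lit 365) (nat_lit 4461) (nat_lit 396) (nat_lit 3468)))))))))))))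
noncomputable def s64444 : Cert := .r (nat_lit 3773962425700235452789419352837689089530310204303180232426993888653488792878081940885092338381798600141335034290884224437622854705202265284023639707812847322952938553344) (.p (nat_lit 431) (.a (.f (nat_lit 495) (nat_lit 527) (nat_lit 4527) (.d (nat_lit 399) (nat_lit 367) (nat_lit 5486) (nat_lit 526) (nat_lit 5518))) (.a (.f (nat_lit 495) (nat_lit 527) (nat_lit 4527) (.d (nat_lit 526) (nat_lit 399) (nat_lit 5518) (nat_lit 558) (nat_lit 6574))) (.a (.f (nat_lit 527) (nat_lit 495) (nat_lit 4527) (.f (nat_lit 526) (nat_lit 558) (nat_lit 6574) (.f (nat_lit 525) (nat_lit 561) (nat_lit 525) (.d (nat_lit 559) (nat_lit 430) (nat_lit 4526) (nat_lit 524) (nat_lit 524))))) (.a (.f (nat_lit 526) (nat_lit 558) (nat_lit 6574) (.d (nat_lit 399) (nat_lit 367) (nat_lit 5486) (nat_lit 430) (nat_lit 6542))) (.f (nat_lit 495) (nat_lit 527) (nat_lit 4527) (.f (nat_lit 465) (nat_lit 466) (nat_lit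 1486) (.f (nat_lit 430) (nat_lit 429) (nat_lit 3501) (.f (nat_lit 433) (nat_lit 434) (nat_lit 2478) (.f (nat_lit 432) (nat_lit 461) (nat_lit 2477) (.f (nat_lit 400) (nat_lit 368) (nat_lit 5487) (.f (nat_lit 399) (nat_lit 367) (nat_lit 5486) (.f (nat_lit 401) (nat_lit 402) (nat_lit 1422) (.f (nat_lit 398) (nat_lit 397) (nat_lit 397) (.d (nat_lit 369) (nat_lit 337) (nat_lit 5456) (nat_lit 370) (nat_lit 2414))))))))))))))))
noncomputable def s64445 : Cert := .r (nat_lit 3773962425700235452789419352813872038212591757713659989890119756071788672771079902685788467535047411948435211139331596087834250188907198976029509589286785496786493505536) (.p (nat_lit 463) (.a (.f (nat_lit 465) (nat_lit 493) (nat_lit 1485) (.f (nat_lit 430) (nat_lit 429) (nat_lit 3501) (.d (nat_lit 466) (nat_lit 431) (nat_lit 3502) (nat_lit 495) (nat_lit 1486)))) (.a (.f (nat_lit 465) (nat_lit 493) (nat_lit 1485) (.f (nat_lit 466) (nat_lit 495) (nat_lit 1486)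 (.d (nat_lit 498) (nat_lit 497) (nat_lit 462) (nat_lit 499) (nat_lit 463)))) (.a s64433 (.a s64444 (.f (nat_lit 465) (nat_lit 493) (nat_lit 1485) (.f (nat_lit 430) (nat_lit 429) (nat_lit 3501) (.f (nat_lit 431) (nat_lit 466) (nat_lit 3502) (.d (nat_lit 399) (nat_lit 367) (nat_lit 5486) (nat_lit 526) (nat_lit 6542))))))))))
noncomputable def s64464 : Cert := .r (nat_lit 3773962425700235452789419352813872038212591757713659989890119756071788672771079902685788467535047411948435211139331596087834250188907198976029509589286785496786493505536) (.p (nat_lit 463) (.a (.f (nat_lit 465) (nat_lit 493) (nat_lit 1485) (.f (nat_lit 430) (nat_lit 429) (nat_lit 3501) (.d (nat_lit 466) (nat_lit 431) (nat_lit 3502) (nat_lit 495) (nat_lit 1486)))) (.a (.f (nat_lit 465) (nat_lit 493) (nat_lit 1485) (.f (nat_lit 466) (nat_lit 495) (nat_lit 1486) (.d (nat_lit 498) (nat_lit 497) (nat_lit 462) (nat_lit 499) (nat_lit 463)))) (.a (.p (nat_lit 461)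 (.a (.f (nat_lit 493) (nat_lit 492) (nat_lit 1484) (.f (nat_lit 429) (nat_lit 428) (nat_lit 3500) (.d (nat_lit 397) (nat_lit 365) (nat_lit 4461) (nat_lit 526) (nat_lit 4493)))) (.a (.f (nat_lit 493) (nat_lit 492) (nat_lit 1484) (.f (nat_lit 429) (nat_lit 428) (nat_lit 3500) (.d (nat_lit 526) (nat_lit 397) (nat_lit 4493) (nat_lit 558) (nat_lit 7597)))) (.a (.f (nat_lit 429) (nat_lit 428) (nat_lit 3500) (.f (nat_lit 526) (nat_lit 558) (nat_lit 7597) (.f (nat_lit 432) (nat_lit 433) (nat_lit 2477) (.f (nat_lit 431) (nat_lit 460) (nat_lit 2476) (.d (nat_lit 399) (nat_lit 430) (nat_lit 6542) (nat_lit 495) (nat_lit 5518)))))) (.a (.f (nat_lit 432) (nat_lit 433) (nat_lit 2477) (.f (nat_lit 431) (nat_lit 460) (nat_lit 2476) (.f (nat_lit 526) (nat_lit 558) (nat_lit 6574) (.d (nat_lit 399) (nat_lit 430) (nat_lit 6542) (nat_lit 495) (nat_lit 5518))))) (.f (nat_lit 493) (nat_lit 492) (nat_lit 1484) (.f (nat_lit 429) (nat_lit 428) (nat_lit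 3500) (.f (nat_lit 397) (nat_lit 365) (nat_lit 4461) (.f (nat_lit 398) (nat_lit 366) (nat_lit 6509) (.f (nat_lit 430) (nat_lit 525) (nat_lit 5517) (.f (nat_lit 432) (nat_lit 433) (nat_lit 2477) (.d (nat_lit 431) (nat_lit 396) (nat_lit 3468) (nat_lit 460) (nat_lit 2476))))))))))))) (.a (.p (nat_lit 465) (.a (.f (nat_lit 430) (nat_lit 429) (nat_lit 3501) (.d (nat_lit 466) (nat_lit 431) (nat_lit 3502) (nat_lit 495) (nat_lit 1486))) (.a (.f (nat_lit 466) (nat_lit 495) (nat_lit 1486) (.d (nat_lit 498) (nat_lit 497) (nat_lit 462) (nat_lit 499) (nat_lit 463))) (.f (nat_lit 429) (nat_lit 430) (nat_lit 3501) (.f (nat_lit 461) (nat_lit 428) (nat_lit 3500) (.d (nat_lit 433) (nat_lit 432) (nat_lit 2477) (nat_lit 434) (nat_lit 2478))))))) (.f (nat_lit 465) (nat_lit 493) (nat_lit 1485) (.f (nat_lit 430) (nat_lit 429) (nat_lit 3501) (.f (nat_lit 431) (nat_lit 466) (nat_lit 3502) (.d (nat_lit 526) (nat_lit 399) (nat_lit 6542) (nat_lit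 558) (nat_lit 6574))))))))))
noncomputable def s64465 : Cert := .r (nat_lit 3773962425700235452789419352813872038212591757713659989890119756071788672771079902685788467535047411948435211139331596087834250188907198976029509589286785496786493505536) (.p (nat_lit 463) (.a (.f (nat_lit 465) (nat_lit 493) (nat_lit 1485) (.f (nat_lit 430) (nat_lit 429) (nat_lit 3501) (.d (nat_lit 466) (nat_lit 431) (nat_lit 3502) (nat_lit 495) (nat_lit 1486)))) (.a (.f (nat_lit 465) (nat_lit 493) (nat_lit 1485) (.f (nat_lit 466) (nat_lit 495) (nat_lit 1486) (.d (nat_lit 498) (nat_lit 497) (nat_lit 462) (nat_lit 499) (nat_lit 463)))) (.a s64420 (.a (.p (nat_lit 465) (.a (.f (nat_lit 430) (nat_lit 429) (nat_lit 3501) (.d (nat_lit 466) (nat_lit 431) (nat_lit 3502) (nat_lit 495) (nat_lit 1486))) (.a (.f (nat_lit 466) (nat_lit 495) (nat_lit 1486) (.d (nat_lit 498) (nat_lit 497) (nat_lit 462) (nat_lit 499) (nat_lit 463))) (.f (nat_lit 429) (nat_lit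 430) (nat_lit 3501) (.f (nat_lit 461) (nat_lit 428) (nat_lit 3500) (.d (nat_lit 433) (nat_lit 432) (nat_lit 2477) (nat_lit 434) (nat_lit 2478))))))) (.f (nat_lit 465) (nat_lit 493) (nat_lit 1485) (.f (nat_lit 430) (nat_lit 429) (nat_lit 3501) (.f (nat_lit 431) (nat_lit 466) (nat_lit 3502) (.d (nat_lit 399) (nat_lit 367) (nat_lit 5486) (nat_lit 526) (nat_lit 6542))))))))))
noncomputable def s64466 : Cert := .r (nat_lit 3773962425700235452789419352813872038212591757713659989890119756071788672771079902685788467535047411948435211139331596087834250188907198976029509589286785496786493505536) (.p (nat_lit 463) (.a (.f (nat_lit 465) (nat_lit 493) (nat_lit 1485) (.f (nat_lit 430) (nat_lit 429) (nat_lit 3501) (.d (nat_lit 466) (nat_lit 431) (nat_lit 3502) (nat_lit 495) (nat_lit 1486)))) (.a (.f (nat_lit 465) (nat_lit 493) (nat_lit 1485) (.f (nat_lit 466) (nat_lit 495) (nat_lit 1486) (.d (nat_lit 498) (nat_lit 497) (nat_lit 462) (nat_lit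 499) (nat_lit 463)))) (.a s64433 (.a (.p (nat_lit 465) (.a (.f (nat_lit 430) (nat_lit 429) (nat_lit 3501) (.d (nat_lit 466) (nat_lit 431) (nat_lit 3502) (nat_lit 495) (nat_lit 1486))) (.a (.f (nat_lit 466) (nat_lit 495) (nat_lit 1486) (.d (nat_lit 498) (nat_lit 497) (nat_lit 462) (nat_lit 499) (nat_lit 463))) (.f (nat_lit 429) (nat_lit 430) (nat_lit 3501) (.f (nat_lit 461) (nat_lit 428) (nat_lit 3500) (.d (nat_lit 433) (nat_lit 432) (nat_lit 2477) (nat_lit 434) (nat_lit 2478))))))) (.f (nat_lit 465) (nat_lit 493) (nat_lit 1485) (.f (nat_lit 430) (nat_lit 429) (nat_lit 3501) (.f (nat_lit 431) (nat_lit 466) (nat_lit 3502) (.d (nat_lit 399) (nat_lit 367) (nat_lit 5486) (nat_lit 526) (nat_lit 6542))))))))))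
noncomputable def s64476 : Cert := .r (nat_lit 3773962425700235452789419352813872038212591757713659989890119756071788672771079902685788467535047411948435211139331596087834250188907198976029509589286785496786493505536) (.p (nat_lit 463) (.a (.f (nat_lit 465) (nat_lit 493) (nat_lit 1485) (.f (nat_lit 430) (nat_lit 429) (nat_lit 3501) (.d (nat_lit 466) (nat_lit 431) (nat_lit 3502) (nat_lit 495) (nat_lit 1486)))) (.a (.f (nat_lit 465) (nat_lit 493) (nat_lit 1485) (.f (nat_lit 466) (nat_lit 495) (nat_lit 1486) (.d (nat_lit 498) (nat_lit 497) (nat_lit 462) (nat_lit 499) (nat_lit 463)))) (.a (.p (nat_lit 461) (.a (.f (nat_lit 493) (nat_lit 492) (nat_lit 1484) (.f (nat_lit 429) (nat_lit 428) (nat_lit 3500) (.d (nat_lit 397) (nat_lit 365) (nat_lit 4461) (nat_lit 526) (nat_lit 4493)))) (.a (.f (nat_lit 493) (nat_lit 492) (nat_lit 1484) (.f (nat_lit 429) (nat_lit 428) (nat_lit 3500) (.d (nat_lit 526) (nat_lit 397) (nat_lit 4493) (nat_lit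 558) (nat_lit 7597)))) (.a (.f (nat_lit 493) (nat_lit 492) (nat_lit 1484) (.f (nat_lit 432) (nat_lit 433) (nat_lit 2477) (.f (nat_lit 460) (nat_lit 431) (nat_lit 2476) (.d (nat_lit 459) (nat_lit 458) (nat_lit 458) (nat_lit 495) (nat_lit 459))))) (.f (nat_lit 429) (nat_lit 428) (nat_lit 3500) (.f (nat_lit 432) (nat_lit 433) (nat_lit 2477) (.f (nat_lit 431) (nat_lit 460) (nat_lit 2476) (.f (nat_lit 495) (nat_lit 527) (nat_lit 4527) (.f (nat_lit 400) (nat_lit 368) (nat_lit 5487) (.f (nat_lit 430) (nat_lit 401) (nat_lit 2445) (.d (nat_lit 397) (nat_lit 365) (nat_lit 4461) (nat_lit 396) (nat_lit 3468)))))))))))) (.a (.p (nat_lit 465) (.a (.f (nat_lit 430) (nat_lit 429) (nat_lit 3501) (.d (nat_lit 466) (nat_lit 431) (nat_lit 3502) (nat_lit 495) (nat_lit 1486))) (.a (.f (nat_lit 466) (nat_lit 495) (nat_lit 1486) (.d (nat_lit 498) (nat_lit 497) (nat_lit 462) (nat_lit 499) (nat_lit 463))) (.f (nat_lit 429) (nat_lit 430) (nat_lit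 3501) (.f (nat_lit 461) (nat_lit 428) (nat_lit 3500) (.d (nat_lit 433) (nat_lit 432) (nat_lit 2477) (nat_lit 434) (nat_lit 2478))))))) (.f (nat_lit 465) (nat_lit 493) (nat_lit 1485) (.f (nat_lit 430) (nat_lit 429) (nat_lit 3501) (.f (nat_lit 466) (nat_lit 431) (nat_lit 3502) (.d (nat_lit 434) (nat_lit 433) (nat_lit 2478) (nat_lit 435) (nat_lit 2479))))))))))
noncomputable def s64485 : Cert := .r (nat_lit 3773962425700235452789419352813872038212591757713659989890119756071788672771079902685788467535047411948435211139331596087834250188907198976029509589286785496786493505536) (.p (nat_lit 463) (.a (.f (nat_lit 465) (nat_lit 493) (nat_lit 1485) (.f (nat_lit 430) (nat_lit 429) (nat_lit 3501) (.d (nat_lit 466) (nat_lit 431) (nat_lit 3502) (nat_lit 495) (nat_lit 1486)))) (.a (.f (nat_lit 465) (nat_lit 493) (nat_lit 1485) (.f (nat_lit 466) (nat_lit 495) (nat_lit 1486) (.d (nat_lit 498) (nat_lit 497) (nat_lit 462) (nat_lit 499) (nat_lit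 463)))) (.a (.p (nat_lit 431) (.a (.f (nat_lit 495) (nat_lit 527) (nat_lit 4527) (.d (nat_lit 399) (nat_lit 367) (nat_lit 5486) (nat_lit 526) (nat_lit 5518))) (.a (.f (nat_lit 495) (nat_lit 527) (nat_lit 4527) (.d (nat_lit 526) (nat_lit 399) (nat_lit 5518) (nat_lit 558) (nat_lit 6574))) (.a (.f (nat_lit 527) (nat_lit 495) (nat_lit 4527) (.f (nat_lit 526) (nat_lit 558) (nat_lit 6574) (.f (nat_lit 525) (nat_lit 561) (nat_lit 525) (.d (nat_lit 559) (nat_lit 430) (nat_lit 4526) (nat_lit 524) (nat_lit 524))))) (.a (.f (nat_lit 526) (nat_lit 558) (nat_lit 6574) (.d (nat_lit 399) (nat_lit 367) (nat_lit 5486) (nat_lit 430) (nat_lit 6542))) (.f (nat_lit 495) (nat_lit 527) (nat_lit 4527) (.f (nat_lit 399) (nat_lit 367) (nat_lit 5486) (.f (nat_lit 493) (nat_lit 492) (nat_lit 2508) (.f (nat_lit 398) (nat_lit 366) (nat_lit 7534) (.f (nat_lit 400) (nat_lit 368) (nat_lit 6511) (.f (nat_lit 430) (nat_lit 525) (nat_lit 5517) (.d (nat_lit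 401) (nat_lit 402) (nat_lit 1422) (nat_lit 429) (nat_lit 1421))))))))))))) (.a s64407 (.f (nat_lit 465) (nat_lit 493) (nat_lit 1485) (.f (nat_lit 430) (nat_lit 429) (nat_lit 3501) (.f (nat_lit 431) (nat_lit 466) (nat_lit 3502) (.d (nat_lit 399) (nat_lit 367) (nat_lit 5486) (nat_lit 526) (nat_lit 6542))))))))))
noncomputable def s64501 : Cert := .r (nat_lit 3773962425700235452789419352837689089530310204303180232426993888653488792878081940885092338381798600141335034290884224437622854705202265284023639707812847322952938553344) (.p (nat_lit 431) (.a (.f (nat_lit 495) (nat_lit 527) (nat_lit 4527) (.d (nat_lit 399) (nat_lit 367) (nat_lit 5486) (nat_lit 526) (nat_lit 5518))) (.a (.f (nat_lit 495) (nat_lit 527) (nat_lit 4527) (.d (nat_lit 526) (nat_lit 399) (nat_lit 5518) (nat_lit 558) (nat_lit 6574))) (.a (.f (nat_lit 527) (nat_lit 495) (nat_lit 4527) (.f (nat_lit 526) (nat_lit 558) (nat_lit 6574) (.f (nat_lit 525) (nat_lit 561)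 (nat_lit 525) (.d (nat_lit 559) (nat_lit 430) (nat_lit 4526) (nat_lit 524) (nat_lit 524))))) (.a (.f (nat_lit 526) (nat_lit 558) (nat_lit 6574) (.d (nat_lit 399) (nat_lit 367) (nat_lit 5486) (nat_lit 430) (nat_lit 6542))) (.f (nat_lit 495) (nat_lit 527) (nat_lit 4527) (.f (nat_lit 465) (nat_lit 466) (nat_lit 1486) (.f (nat_lit 399) (nat_lit 367) (nat_lit 5486) (.f (nat_lit 433) (nat_lit 434) (nat_lit 2478) (.f (nat_lit 432) (nat_lit 461) (nat_lit 2477) (.f (nat_lit 400) (nat_lit 368) (nat_lit 5487) (.d (nat_lit 398) (nat_lit 366) (nat_lit 7534) (nat_lit 397) (nat_lit 397)))))))))))))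
noncomputable def s64508 : Cert := .r (nat_lit 3773962425700235452789419352813872038212591757713659989890119756071788672771079902685788467535047411948435211139331596087834250188907198976029509589286785496786493505536) (.p (nat_lit 463) (.a (.f (nat_lit 465) (nat_lit 493) (nat_lit 1485) (.f (nat_lit 466) (nat_lit 495) (nat_lit 1486) (.d (nat_lit 498) (nat_lit 497) (nat_lit 462) (nat_lit 499) (nat_lit 463)))) (.a (.p (nat_lit 431) (.a (.f (nat_lit 495) (nat_lit 527) (nat_lit 4527) (.d (nat_lit 399) (nat_lit 367) (nat_lit 5486) (nat_lit 526) (nat_lit 5518))) (.a (.f (nat_lit 495) (nat_lit 527) (nat_lit 4527) (.d (nat_lit 526) (nat_lit 399) (nat_lit 5518) (nat_lit 558) (nat_lit 6574))) (.a (.f (nat_lit 527) (nat_lit 495) (nat_lit 4527) (.f (nat_lit 526) (nat_lit 558) (nat_lit 6574) (.f (nat_lit 525) (nat_lit 561) (nat_lit 525) (.d (nat_lit 559) (nat_lit 430) (nat_lit 4526) (nat_lit 524) (nat_lit 524))))) (.a (.f (nat_lit 526)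 (nat_lit 558) (nat_lit 6574) (.d (nat_lit 399) (nat_lit 367) (nat_lit 5486) (nat_lit 430) (nat_lit 6542))) (.f (nat_lit 495) (nat_lit 527) (nat_lit 4527) (.f (nat_lit 399) (nat_lit 367) (nat_lit 5486) (.f (nat_lit 493) (nat_lit 492) (nat_lit 2508) (.f (nat_lit 398) (nat_lit 366) (nat_lit 7534) (.f (nat_lit 430) (nat_lit 525) (nat_lit 5517) (.f (nat_lit 397) (nat_lit 365) (nat_lit 7533) (.d (nat_lit 396) (nat_lit 395) (nat_lit 395) (nat_lit 432) (nat_lit 396))))))))))))) (.a s64501 (.f (nat_lit 465) (nat_lit 493) (nat_lit 1485) (.f (nat_lit 433) (nat_lit 434) (nat_lit 2478) (.f (nat_lit 432) (nat_lit 461) (nat_lit 2477) (.f (nat_lit 498) (nat_lit 497) (nat_lit 462) (.f (nat_lit 466) (nat_lit 499) (nat_lit 463) (.d (nat_lit 431) (nat_lit 430) (nat_lit 430) (nat_lit 467) (nat_lit 3503)))))))))))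
noncomputable def s64516 : Cert := .r (nat_lit 3773962425700235452789419352837689089530310204303180232426993888653488792878081940885092338381798600141335034290884224437622854705202265284023639707812847322952938553344) (.p (nat_lit 461) (.a (.f (nat_lit 493) (nat_lit 492) (nat_lit 1484) (.f (nat_lit 429) (nat_lit 428) (nat_lit 3500) (.d (nat_lit 397) (nat_lit 365) (nat_lit 4461) (nat_lit 526) (nat_lit 4493)))) (.a (.f (nat_lit 493) (nat_lit 492) (nat_lit 1484) (.f (nat_lit 429) (nat_lit 428) (nat_lit 3500) (.d (nat_lit 526) (nat_lit 397) (nat_lit 4493) (nat_lit 558) (nat_lit 7597)))) (.a (.f (nat_lit 493) (nat_lit 492) (nat_lit 1484) (.f (nat_lit 432) (nat_lit 433) (nat_lit 2477) (.f (nat_lit 460) (nat_lit 431) (nat_lit 2476) (.d (nat_lit 459) (nat_lit 458) (nat_lit 458) (nat_lit 495) (nat_lit 459))))) (.a (.f (nat_lit 429) (nat_lit 428) (nat_lit 3500) (.f (nat_lit 526) (nat_lit 558) (nat_lit 7597) (.d (nat_lit 397) (nat_lit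 365) (nat_lit 4461) (nat_lit 493) (nat_lit 4493)))) (.f (nat_lit 432) (nat_lit 433) (nat_lit 2477) (.f (nat_lit 431) (nat_lit 460) (nat_lit 2476) (.f (nat_lit 495) (nat_lit 527) (nat_lit 4527) (.d (nat_lit 399) (nat_lit 367) (nat_lit 5486) (nat_lit 526) (nat_lit 5518))))))))))
noncomputable def s64528 : Cert := .r (nat_lit 3773962425700235452789419352837689089530310204303180232426993888653488792878081940885092338381798600141335034290884224437622854705202265284023639707812847322952938553344) (.p (nat_lit 465) (.a (.f (nat_lit 466) (nat_lit 495) (nat_lit 1486) (.d (nat_lit 498) (nat_lit 497) (nat_lit 462) (nat_lit 499) (nat_lit 463))) (.a (.f (nat_lit 433) (nat_lit 434) (nat_lit 2478) (.f (nat_lit 461) (nat_lit 432) (nat_lit 2477) (.f (nat_lit 428) (nat_lit 429) (nat_lit 3500) (.f (nat_lit 460) (nat_lit 427) (nat_lit 3499) (.f (nat_lit 491) (nat_lit 492) (nat_lit 1483) (.d (nat_lit 459) (nat_lit 490) (nat_lit 1482) (nat_lit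 495) (nat_lit 459))))))) (.f (nat_lit 433) (nat_lit 434) (nat_lit 2478) (.f (nat_lit 498) (nat_lit 497) (nat_lit 462) (.f (nat_lit 466) (nat_lit 499) (nat_lit 463) (.f (nat_lit 432) (nat_lit 461) (nat_lit 2477) (.d (nat_lit 467) (nat_lit 431) (nat_lit 3503) (nat_lit 468) (nat_lit 3504)))))))))
noncomputable def s64530 : Cert := .r (nat_lit 3773962425700235452789419352813872038212591757713659989890119756071788672771079902685788467535047411948435211139331596087834250188907198976029509589286785496786493505536) (.p (nat_lit 463) (.a (.f (nat_lit 465) (nat_lit 493) (nat_lit 1485) (.f (nat_lit 466) (nat_lit 495) (nat_lit 1486) (.d (nat_lit 498) (nat_lit 497) (nat_lit 462) (nat_lit 499) (nat_lit 463)))) (.a s64516 (.a s64528 (.f (nat_lit 465) (nat_lit 493) (nat_lit 1485) (.f (nat_lit 433) (nat_lit 434) (nat_lit 2478) (.f (nat_lit 498) (nat_lit 497) (nat_lit 462) (.f (nat_lit 466) (nat_lit 499) (nat_lit 463) (.f (nat_lit 432) (nat_lit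 461) (nat_lit 2477) (.d (nat_lit 467) (nat_lit 431) (nat_lit 3503) (nat_lit 468) (nat_lit 3504)))))))))))
noncomputable def s64543 : Cert := .r (nat_lit 3773962425919908977913598863693292863783196340666281919494705529172411503465017284554513461202969320449601756898605078052361637646095102592020442191289154402102175334400) (.p (nat_lit 558) (.a (.f (nat_lit 559) (nat_lit 591) (nat_lit 4558) (.f (nat_lit 527) (nat_lit 430) (nat_lit 4526) (.d (nat_lit 561) (nat_lit 525) (nat_lit 3597) (nat_lit 562) (nat_lit 3598)))) (.a (.f (nat_lit 559) (nat_lit 591) (nat_lit 4558) (.f (nat_lit 525) (nat_lit 561) (nat_lit 3597) (.d (nat_lit 557) (nat_lit 524) (nat_lit 3596) (nat_lit 589) (nat_lit 5581)))) (.a (.f (nat_lit 559) (nat_lit 591) (nat_lit 4558) (.f (nat_lit 527) (nat_lit 430) (nat_lit 4526) (.d (nat_lit 557) (nat_lit 556) (nat_lit 2572) (nat_lit 589) (nat_lit 5581)))) (.f (nat_lit 461) (nat_lit 429) (nat_lit 7597) (.f (nat_lit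 493) (nat_lit 590) (nat_lit 7629) (.d (nat_lit 463) (nat_lit 465) (nat_lit 1485) (nat_lit 492) (nat_lit 1484))))))))
noncomputable def s64556 : Cert := .r (nat_lit 3773962425919908977913598863693292863783196340666281919494705529172411503465017284554513461202969320449601756898605078052361637646095102592020442191289154402102175334400) (.p (nat_lit 558) (.a (.f (nat_lit 559) (nat_lit 591) (nat_lit 4558) (.f (nat_lit 527) (nat_lit 430) (nat_lit 4526) (.d (nat_lit 561) (nat_lit 525) (nat_lit 3597) (nat_lit 562) (nat_lit 3598)))) (.a (.f (nat_lit 559) (nat_lit 591) (nat_lit 4558) (.f (nat_lit 525) (nat_lit 561) (nat_lit 3597) (.d (nat_lit 557) (nat_lit 524) (nat_lit 3596) (nat_lit 589) (nat_lit 5581)))) (.a (.f (nat_lit 559) (nat_lit 591) (nat_lit 4558) (.f (nat_lit 527) (nat_lit 430) (nat_lit 4526) (.d (nat_lit 557) (nat_lit 556) (nat_lit 2572) (nat_lit 589) (nat_lit 5581)))) (.f (nat_lit 461) (nat_lit 429) (nat_lit 7597) (.f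 (nat_lit 590) (nat_lit 493) (nat_lit 7629) (.d (nat_lit 589) (nat_lit 557) (nat_lit 5581) (nat_lit 621) (nat_lit 5613))))))))
noncomputable def s64560 : Cert := .r (nat_lit 3773962425919908977913598863693292863783196340666281919494705529172411503465017284554513461202969320449601756898605078052361637646095102592020442191289154402102175334400) (.p (nat_lit 558) (.a (.f (nat_lit 559) (nat_lit 591) (nat_lit 4558) (.f (nat_lit 527) (nat_lit 430) (nat_lit 4526) (.d (nat_lit 561) (nat_lit 525) (nat_lit 3597) (nat_lit 562) (nat_lit 3598)))) (.a (.f (nat_lit 559) (nat_lit 591) (nat_lit 4558) (.f (nat_lit 525) (nat_lit 561) (nat_lit 3597) (.d (nat_lit 557) (nat_lit 524) (nat_lit 3596) (nat_lit 589) (nat_lit 5581)))) (.a (.f (nat_lit 559) (nat_lit 591) (nat_lit 4558) (.f (nat_lit 527) (nat_lit 430) (nat_lit 4526) (.d (nat_lit 557) (nat_lit 556) (nat_lit 2572) (nat_lit 589) (nat_lit 5581)))) (.f (nat_lit 557) (nat_lit 589) (nat_lit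 5581) (.f (nat_lit 525) (nat_lit 430) (nat_lit 5549) (.d (nat_lit 527) (nat_lit 556) (nat_lit 1548) (nat_lit 561) (nat_lit 525))))))))
noncomputable def s64572 : Cert := .r (nat_lit 3773962425919908977913598863693292863783196340666281919494705529172411503465017284554513461202969320449601756898605078052361637646095102592020442191289154402102175334400) (.p (nat_lit 527) (.a (.f (nat_lit 559) (nat_lit 430) (nat_lit 4526) (.d (nat_lit 561) (nat_lit 525) (nat_lit 525) (nat_lit 562) (nat_lit 3598))) (.a (.f (nat_lit 525) (nat_lit 561) (nat_lit 525) (.f (nat_lit 493) (nat_lit 492) (nat_lit 3564) (.f (nat_lit 524) (nat_lit 559) (nat_lit 524) (.d (nat_lit 523) (nat_lit 495) (nat_lit 2539) (nat_lit 522) (nat_lit 2538))))) (.a (.f (nat_lit 559) (nat_lit 430) (nat_lit 4526) (.d (nat_lit 591) (nat_lit 495) (nat_lit 7630) (nat_lit 558) (nat_lit 4558))) (.f (nat_lit 525) (nat_lit 561) (nat_lit 525) (.f (nat_lit 493) (nat_lit 492) (nat_lit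 3564) (.f (nat_lit 430) (nat_lit 398) (nat_lit 5517) (.f (nat_lit 429) (nat_lit 397) (nat_lit 7565) (.f (nat_lit 461) (nat_lit 558) (nat_lit 4525) (.d (nat_lit 463) (nat_lit 428) (nat_lit 3500) (nat_lit 465) (nat_lit 1485)))))))))))
noncomputable def s64588 : Cert := .r (nat_lit 3773962425919908977913598863693292863783196340666281919494705529172411503465017284554513461202969320449601756898605078052361637646095102592020442191289154402102175334400) (.p (nat_lit 525) (.a (.f (nat_lit 557) (nat_lit 430) (nat_lit 5549) (.d (nat_lit 527) (nat_lit 556) (nat_lit 1548) (nat_lit 561) (nat_lit 525))) (.a (.f (nat_lit 527) (nat_lit 561) (nat_lit 525) (.f (nat_lit 493) (nat_lit 492) (nat_lit 3564) (.d (nat_lit 557) (nat_lit 556) (nat_lit 1548) (nat_lit 589) (nat_lit 6605)))) (.a (.f (nat_lit 557) (nat_lit 430) (nat_lit 5549) (.d (nat_lit 589) (nat_lit 493) (nat_lit 6605) (nat_lit 558) (nat_lit 5581))) (.f (nat_lit 527) (nat_lit 561)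 (nat_lit 525) (.f (nat_lit 493) (nat_lit 492) (nat_lit 3564) (.f (nat_lit 430) (nat_lit 398) (nat_lit 5517) (.f (nat_lit 429) (nat_lit 397) (nat_lit 7565) (.f (nat_lit 461) (nat_lit 558) (nat_lit 4525) (.d (nat_lit 463) (nat_lit 428) (nat_lit 3500) (nat_lit 465) (nat_lit 1485)))))))))))
noncomputable def s64589 : Cert := .r (nat_lit 3773962425700235452789419352813872038212591757713659989890119756071788672771079902685788467535047411948435211139331596087834250188907198976029509589286785496786493505536) (.p (nat_lit 526) (.a s64543 (.a (.p (nat_lit 527) (.a (.f (nat_lit 559) (nat_lit 430) (nat_lit 4526) (.d (nat_lit 561) (nat_lit 525) (nat_lit 525) (nat_lit 562) (nat_lit 3598))) (.a (.f (nat_lit 525) (nat_lit 561) (nat_lit 525) (.f (nat_lit 493) (nat_lit 492) (nat_lit 3564) (.d (nat_lit 557) (nat_lit 556) (nat_lit 1548) (nat_lit 589) (nat_lit 6605)))) (.f (nat_lit 559) (nat_lit 430) (nat_lit 4526) (.d (nat_lit 591) (nat_lit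 495) (nat_lit 7630) (nat_lit 558) (nat_lit 4558)))))) (.a (.p (nat_lit 558) (.a (.f (nat_lit 559) (nat_lit 591) (nat_lit 4558) (.f (nat_lit 525) (nat_lit 561) (nat_lit 3597) (.d (nat_lit 557) (nat_lit 524) (nat_lit 3596) (nat_lit 589) (nat_lit 5581)))) (.f (nat_lit 461) (nat_lit 429) (nat_lit 7597) (.f (nat_lit 493) (nat_lit 590) (nat_lit 7629) (.d (nat_lit 463) (nat_lit 465) (nat_lit 1485) (nat_lit 492) (nat_lit 1484)))))) (.a s64556 (.a s64560 (.a (.p (nat_lit 558) (.a (.f (nat_lit 559) (nat_lit 591) (nat_lit 4558) (.f (nat_lit 527) (nat_lit 430) (nat_lit 4526) (.d (nat_lit 557) (nat_lit 556) (nat_lit 2572) (nat_lit 589) (nat_lit 5581)))) (.f (nat_lit 461) (nat_lit 429) (nat_lit 7597) (.f (nat_lit 493) (nat_lit 590) (nat_lit 7629) (.d (nat_lit 463) (nat_lit 465) (nat_lit 1485) (nat_lit 492) (nat_lit 1484)))))) (.a s64572 (.a (.p (nat_lit 430) (.a (.f (nat_lit 527) (nat_lit 559) (nat_lit 4526) (.d (nat_lit 525) (nat_lit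 557) (nat_lit 5549) (nat_lit 561) (nat_lit 525))) (.a (.f (nat_lit 527) (nat_lit 559) (nat_lit 4526) (.f (nat_lit 398) (nat_lit 495) (nat_lit 4494) (.d (nat_lit 397) (nat_lit 365) (nat_lit 7533) (nat_lit 429) (nat_lit 7565)))) (.f (nat_lit 429) (nat_lit 397) (nat_lit 7565) (.f (nat_lit 463) (nat_lit 465) (nat_lit 3501) (.d (nat_lit 428) (nat_lit 427) (nat_lit 427) (nat_lit 461) (nat_lit 3500))))))) s64588)))))))))
noncomputable def s64597 : Cert := .r (nat_lit 3773962425700235452789419352837689089530310204303180232426993888653488792878081940885092338381798600141335034290884224437622854705202265284023639707812847322952938553344) (.p (nat_lit 431) (.a (.f (nat_lit 495) (nat_lit 527) (nat_lit 4527) (.d (nat_lit 399) (nat_lit 367) (nat_lit 5486) (nat_lit 526) (nat_lit 5518))) (.a (.f (nat_lit 495) (nat_lit 527) (nat_lit 4527) (.d (nat_lit 526) (nat_lit 399) (nat_lit 5518) (nat_lit 558) (nat_lit 6574))) (.a (.f (nat_lit 527)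 (nat_lit 495) (nat_lit 4527) (.f (nat_lit 526) (nat_lit 558) (nat_lit 6574) (.f (nat_lit 525) (nat_lit 561) (nat_lit 525) (.d (nat_lit 559) (nat_lit 430) (nat_lit 4526) (nat_lit 524) (nat_lit 524))))) (.a (.f (nat_lit 526) (nat_lit 558) (nat_lit 6574) (.d (nat_lit 399) (nat_lit 367) (nat_lit 5486) (nat_lit 430) (nat_lit 6542))) (.f (nat_lit 495) (nat_lit 527) (nat_lit 4527) (.f (nat_lit 465) (nat_lit 466) (nat_lit 1486) (.f (nat_lit 430) (nat_lit 429) (nat_lit 3501) (.f (nat_lit 399) (nat_lit 367) (nat_lit 5486) (.f (nat_lit 398) (nat_lit 366) (nat_lit 7534) (.f (nat_lit 397) (nat_lit 365) (nat_lit 7533) (.d (nat_lit 433) (nat_lit 432) (nat_lit 3469) (nat_lit 434) (nat_lit 2478)))))))))))))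
noncomputable def s64598 : Cert := .r (nat_lit 3773962425700235452789419352813872038212591757713659989890119756071788672771079902685788467535047411948435211139331596087834250188907198976029509589286785496786493505536) (.p (nat_lit 463) (.a (.f (nat_lit 465) (nat_lit 493) (nat_lit 1485) (.f (nat_lit 430) (nat_lit 429) (nat_lit 3501) (.d (nat_lit 466) (nat_lit 431) (nat_lit 3502) (nat_lit 495) (nat_lit 1486)))) (.a (.f (nat_lit 465) (nat_lit 493) (nat_lit 1485) (.f (nat_lit 466) (nat_lit 495) (nat_lit 1486) (.d (nat_lit 498) (nat_lit 497) (nat_lit 462) (nat_lit 499) (nat_lit 463)))) (.a s64420 (.a s64597 (.f (nat_lit 465) (nat_lit 493) (nat_lit 1485) (.f (nat_lit 430) (nat_lit 429) (nat_lit 3501) (.f (nat_lit 431) (nat_lit 466) (nat_lit 3502) (.d (nat_lit 399) (nat_lit 367) (nat_lit 5486) (nat_lit 526) (nat_lit 6542))))))))))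
noncomputable def s64606 : Cert := .r (nat_lit 3773962425919908977913598863693292863783196340666281919494705529172411503465017284554513461202969320449601756898605078052361637646095102592020442191289154402102175334400) (.p (nat_lit 558) (.a (.f (nat_lit 559) (nat_lit 591) (nat_lit 4558) (.f (nat_lit 525) (nat_lit 561) (nat_lit 3597) (.d (nat_lit 557) (nat_lit 524) (nat_lit 3596) (nat_lit 589) (nat_lit 5581)))) (.a (.f (nat_lit 461) (nat_lit 429) (nat_lit 7597) (.f (nat_lit 590) (nat_lit 493) (nat_lit 7629) (.d (nat_lit 589) (nat_lit 557) (nat_lit 5581) (nat_lit 621) (nat_lit 5613)))) (.a (.f (nat_lit 559) (nat_lit 591) (nat_lit 4558) (.f (nat_lit 561) (nat_lit 525) (nat_lit 3597) (.f (nat_lit 590) (nat_lit 589) (nat_lit 1581) (.d (nat_lit 461) (nat_lit 429) (nat_lit 7597) (nat_lit 493) (nat_lit 7629))))) (.f (nat_lit 559) (nat_lit 591) (nat_lit 4558) (.f (nat_lit 525) (nat_lit 561) (nat_lit 3597) (.d (nat_lit 524) (nat_lit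 523) (nat_lit 523) (nat_lit 557) (nat_lit 3596))))))))
noncomputable def s64623 : Cert := .r (nat_lit 3773962425700235452789419352813872038212591757713659989890119756071788672771079902685788467535047411948435211139331596087834250188907198976029509589286785496786493505536) (.p (nat_lit 526) (.a (.p (nat_lit 527) (.a (.f (nat_lit 559) (nat_lit 430) (nat_lit 4526) (.d (nat_lit 561) (nat_lit 525) (nat_lit 525) (nat_lit 562) (nat_lit 3598))) (.a (.f (nat_lit 525) (nat_lit 561) (nat_lit 525) (.f (nat_lit 493) (nat_lit 492) (nat_lit 3564) (.d (nat_lit 557) (nat_lit 556) (nat_lit 1548) (nat_lit 589) (nat_lit 6605)))) (.f (nat_lit 559) (nat_lit 430) (nat_lit 4526) (.d (nat_lit 591) (nat_lit 495) (nat_lit 7630) (nat_lit 558) (nat_lit 4558)))))) (.a s64606 (.a s64560 (.a (.p (nat_lit 430) (.a (.f (nat_lit 527) (nat_lit 559) (nat_lit 4526) (.f (nat_lit 398) (nat_lit 495) (nat_lit 4494) (.d (nat_lit 397) (nat_lit 365) (nat_lit 7533)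 (nat_lit 429) (nat_lit 7565)))) (.a (.f (nat_lit 527) (nat_lit 559) (nat_lit 4526) (.f (nat_lit 398) (nat_lit 495) (nat_lit 4494) (.d (nat_lit 399) (nat_lit 367) (nat_lit 6510) (nat_lit 431) (nat_lit 6542)))) (.f (nat_lit 429) (nat_lit 397) (nat_lit 7565) (.f (nat_lit 431) (nat_lit 399) (nat_lit 6542) (.f (nat_lit 461) (nat_lit 558) (nat_lit 7597) (.d (nat_lit 432) (nat_lit 460) (nat_lit 1452) (nat_lit 465) (nat_lit 429)))))))) (.a (.p (nat_lit 430) (.a (.f (nat_lit 527) (nat_lit 559) (nat_lit 4526) (.d (nat_lit 525) (nat_lit 557) (nat_lit 5549) (nat_lit 561) (nat_lit 525))) (.a (.f (nat_lit 527) (nat_lit 559) (nat_lit 4526) (.f (nat_lit 398) (nat_lit 495) (nat_lit 4494) (.d (nat_lit 397) (nat_lit 365) (nat_lit 7533) (nat_lit 429) (nat_lit 7565)))) (.f (nat_lit 525) (nat_lit 557) (nat_lit 5549) (.f (nat_lit 398) (nat_lit 493) (nat_lit 5517) (.d (nat_lit 399) (nat_lit 367) (nat_lit 6510) (nat_lit 431) (nat_lit 6542)))))))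 (.p (nat_lit 430) (.a (.f (nat_lit 429) (nat_lit 397) (nat_lit 7565) (.f (nat_lit 431) (nat_lit 399) (nat_lit 6542) (.f (nat_lit 461) (nat_lit 558) (nat_lit 7597) (.d (nat_lit 432) (nat_lit 460) (nat_lit 1452) (nat_lit 465) (nat_lit 429))))) (.a (.f (nat_lit 525) (nat_lit 557) (nat_lit 5549) (.f (nat_lit 398) (nat_lit 493) (nat_lit 5517) (.d (nat_lit 399) (nat_lit 367) (nat_lit 6510) (nat_lit 431) (nat_lit 6542)))) (.f (nat_lit 525) (nat_lit 557) (nat_lit 5549) (.f (nat_lit 493) (nat_lit 398) (nat_lit 5517) (.d (nat_lit 527) (nat_lit 492) (nat_lit 3564) (nat_lit 561) (nat_lit 525)))))))))))))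
noncomputable def s64634 : Cert := .r (nat_lit 3773962425919908977913598863693292863783196340666281919494705529172411503465017284554513461202969320449601756898605078052361637646095102592020442191289154402102175334400) (.p (nat_lit 430) (.a (.f (nat_lit 527) (nat_lit 559) (nat_lit 4526) (.f (nat_lit 398) (nat_lit 495) (nat_lit 4494) (.d (nat_lit 397) (nat_lit 365) (nat_lit 7533) (nat_lit 429) (nat_lit 7565)))) (.a (.f (nat_lit 527) (nat_lit 559) (nat_lit 4526) (.f (nat_lit 398) (nat_lit 495) (nat_lit 4494) (.d (nat_lit 399) (nat_lit 367) (nat_lit 6510) (nat_lit 431) (nat_lit 6542)))) (.a (.f (nat_lit 527) (nat_lit 559) (nat_lit 4526) (.f (nat_lit 431) (nat_lit 399) (nat_lit 6542) (.d (nat_lit 463) (nat_lit 495) (nat_lit 4527) (nat_lit 558) (nat_lit 6574)))) (.f (nat_lit 429) (nat_lit 397) (nat_lit 7565) (.f (nat_lit 431) (nat_lit 399) (nat_lit 6542) (.d (nat_lit 558) (nat_lit 461) (nat_lit 7597) (nat_lit 463) (nat_lit 6574))))))))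
noncomputable def s64636 : Cert := .r (nat_lit 3773962425700235452789419352813872038212591757713659989890119756071788672771079902685788467535047411948435211139331596087834250188907198976029509589286785496786493505536) (.p (nat_lit 526) (.a (.p (nat_lit 527) (.a (.f (nat_lit 559) (nat_lit 430) (nat_lit 4526) (.d (nat_lit 561) (nat_lit 525) (nat_lit 525) (nat_lit 562) (nat_lit 3598))) (.a (.f (nat_lit 525) (nat_lit 561) (nat_lit 525) (.f (nat_lit 493) (nat_lit 492) (nat_lit 3564) (.d (nat_lit 557) (nat_lit 556) (nat_lit 1548) (nat_lit 589) (nat_lit 6605)))) (.f (nat_lit 559) (nat_lit 430) (nat_lit 4526) (.d (nat_lit 591) (nat_lit 495) (nat_lit 7630) (nat_lit 558) (nat_lit 4558)))))) (.a s64606 (.a s64560 (.a (.p (nat_lit 558) (.a (.f (nat_lit 559) (nat_lit 591) (nat_lit 4558) (.f (nat_lit 527) (nat_lit 430) (nat_lit 4526) (.d (nat_lit 557) (nat_lit 556) (nat_lit 2572) (nat_lit 589) (nat_lit 5581)))) (.a (.f (nat_lit 461)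 (nat_lit 429) (nat_lit 7597) (.f (nat_lit 590) (nat_lit 493) (nat_lit 7629) (.d (nat_lit 589) (nat_lit 557) (nat_lit 5581) (nat_lit 621) (nat_lit 5613)))) (.f (nat_lit 463) (nat_lit 431) (nat_lit 6574) (.f (nat_lit 461) (nat_lit 429) (nat_lit 7597) (.d (nat_lit 590) (nat_lit 493) (nat_lit 7629) (nat_lit 495) (nat_lit 6606))))))) (.a s64634 (.a (.p (nat_lit 430) (.a (.f (nat_lit 527) (nat_lit 559) (nat_lit 4526) (.d (nat_lit 525) (nat_lit 557) (nat_lit 5549) (nat_lit 561) (nat_lit 525))) (.a (.f (nat_lit 527) (nat_lit 559) (nat_lit 4526) (.f (nat_lit 398) (nat_lit 495) (nat_lit 4494) (.d (nat_lit 397) (nat_lit 365) (nat_lit 7533) (nat_lit 429) (nat_lit 7565)))) (.f (nat_lit 525) (nat_lit 557) (nat_lit 5549) (.f (nat_lit 398) (nat_lit 493) (nat_lit 5517) (.d (nat_lit 399) (nat_lit 367) (nat_lit 6510) (nat_lit 431) (nat_lit 6542))))))) (.p (nat_lit 430) (.a (.f (nat_lit 525) (nat_lit 557) (nat_lit 5549) (.f (nat_lit 398) (nat_lit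 493) (nat_lit 5517) (.d (nat_lit 399) (nat_lit 367) (nat_lit 6510) (nat_lit 431) (nat_lit 6542)))) (.a (.f (nat_lit 525) (nat_lit 557) (nat_lit 5549) (.f (nat_lit 493) (nat_lit 398) (nat_lit 5517) (.d (nat_lit 527) (nat_lit 492) (nat_lit 3564) (nat_lit 561) (nat_lit 525)))) (.f (nat_lit 429) (nat_lit 397) (nat_lit 7565) (.f (nat_lit 431) (nat_lit 399) (nat_lit 6542) (.d (nat_lit 558) (nat_lit 461) (nat_lit 7597) (nat_lit 463) (nat_lit 6574))))))))))))))
noncomputable def s64637 : Cert := .r (nat_lit 3773962425700235452789419352837689089530310204303180232426993888653488792878081940885092338381798600141335034290884224437622854705202265284023639707812847322952938553344) (.p (nat_lit 461) (.a (.f (nat_lit 429) (nat_lit 428) (nat_lit 3500) (.f (nat_lit 526) (nat_lit 558) (nat_lit 7597) (.f (nat_lit 432) (nat_lit 433) (nat_lit 2477) (.f (nat_lit 431) (nat_lit 460) (nat_lit 2476) (.d (nat_lit 399) (nat_lit 367) (nat_lit 5486)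 (nat_lit 430) (nat_lit 6542)))))) (.a (.f (nat_lit 429) (nat_lit 428) (nat_lit 3500) (.f (nat_lit 432) (nat_lit 433) (nat_lit 2477) (.f (nat_lit 431) (nat_lit 460) (nat_lit 2476) (.f (nat_lit 495) (nat_lit 527) (nat_lit 4527) (.f (nat_lit 400) (nat_lit 368) (nat_lit 5487) (.f (nat_lit 430) (nat_lit 401) (nat_lit 2445) (.d (nat_lit 397) (nat_lit 365) (nat_lit 4461) (nat_lit 396) (nat_lit 3468)))))))) (.a (.f (nat_lit 432) (nat_lit 433) (nat_lit 2477) (.f (nat_lit 431) (nat_lit 460) (nat_lit 2476) (.f (nat_lit 526) (nat_lit 558) (nat_lit 6574) (.d (nat_lit 399) (nat_lit 367) (nat_lit 5486) (nat_lit 430) (nat_lit 6542))))) (.f (nat_lit 429) (nat_lit 428) (nat_lit 3500) (.f (nat_lit 526) (nat_lit 558) (nat_lit 7597) (.d (nat_lit 397) (nat_lit 365) (nat_lit 4461) (nat_lit 493) (nat_lit 4493))))))))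
noncomputable def s64638 : Cert := .r (nat_lit 3773962425700235452789419352813872038212591757713659989890119756071788672771079902685788467535047411948435211139331596087834250188907198976029509589286785496786493505536) (.p (nat_lit 463) (.a (.f (nat_lit 465) (nat_lit 493) (nat_lit 1485) (.f (nat_lit 430) (nat_lit 429) (nat_lit 3501) (.d (nat_lit 466) (nat_lit 431) (nat_lit 3502) (nat_lit 495) (nat_lit 1486)))) (.a (.f (nat_lit 465) (nat_lit 493) (nat_lit 1485) (.f (nat_lit 466) (nat_lit 495) (nat_lit 1486) (.d (nat_lit 498) (nat_lit 497) (nat_lit 462) (nat_lit 499) (nat_lit 463)))) (.a s64637 (.a s64407 (.f (nat_lit 465) (nat_lit 493) (nat_lit 1485) (.f (nat_lit 430) (nat_lit 429) (nat_lit 3501) (.f (nat_lit 431) (nat_lit 466) (nat_lit 3502) (.d (nat_lit 399) (nat_lit 367) (nat_lit 5486) (nat_lit 526) (nat_lit 6542))))))))))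
noncomputable def s64647 : Cert := .r (nat_lit 3773962425700235452789419352837689089530310204303180232426993888653488792878081940885092338381798600141335034290884224437622854705202265284023639707812847322952938553344) (.p (nat_lit 431) (.a (.f (nat_lit 495) (nat_lit 527) (nat_lit 4527) (.d (nat_lit 399) (nat_lit 367) (nat_lit 5486) (nat_lit 526) (nat_lit 5518))) (.a (.f (nat_lit 495) (nat_lit 527) (nat_lit 4527) (.d (nat_lit 526) (nat_lit 399) (nat_lit 5518) (nat_lit 558) (nat_lit 6574))) (.a (.f (nat_lit 527) (nat_lit 495) (nat_lit 4527) (.f (nat_lit 526) (nat_lit 558) (nat_lit 6574) (.f (nat_lit 525) (nat_lit 561) (nat_lit 525) (.d (nat_lit 559) (nat_lit 430) (nat_lit 4526) (nat_lit 524) (nat_lit 524))))) (.a (.f (nat_lit 526) (nat_lit 558) (nat_lit 6574) (.d (nat_lit 399) (nat_lit 367) (nat_lit 5486) (nat_lit 430) (nat_lit 6542))) (.f (nat_lit 495) (nat_lit 527) (nat_lit 4527) (.f (nat_lit 465) (nat_lit 466) (nat_lit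 1486) (.f (nat_lit 399) (nat_lit 367) (nat_lit 5486) (.f (nat_lit 429) (nat_lit 430) (nat_lit 3501) (.f (nat_lit 428) (nat_lit 461) (nat_lit 3500) (.f (nat_lit 398) (nat_lit 366) (nat_lit 7534) (.d (nat_lit 400) (nat_lit 368) (nat_lit 6511) (nat_lit 397) (nat_lit 1420)))))))))))))
noncomputable def s64651 : Cert := .r (nat_lit 3773962425700235452789419352837689089530310204303180232426993888653488792878081940885092338381798600141335034290884224437622854705202265284023639707812847322952938553344) (.p (nat_lit 461) (.a (.f (nat_lit 429) (nat_lit 428) (nat_lit 3500) (.f (nat_lit 526) (nat_lit 558) (nat_lit 7597) (.f (nat_lit 432) (nat_lit 433) (nat_lit 2477) (.f (nat_lit 431) (nat_lit 460) (nat_lit 2476) (.d (nat_lit 399) (nat_lit 367) (nat_lit 5486) (nat_lit 430) (nat_lit 6542)))))) (.a (.f (nat_lit 429) (nat_lit 428) (nat_lit 3500) (.f (nat_lit 432) (nat_lit 433) (nat_lit 2477) (.f (nat_lit 431) (nat_lit 460) (nat_lit 2476)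 (.f (nat_lit 495) (nat_lit 527) (nat_lit 4527) (.f (nat_lit 400) (nat_lit 368) (nat_lit 5487) (.f (nat_lit 430) (nat_lit 401) (nat_lit 2445) (.d (nat_lit 397) (nat_lit 365) (nat_lit 4461) (nat_lit 396) (nat_lit 3468)))))))) (.a (.f (nat_lit 432) (nat_lit 433) (nat_lit 2477) (.f (nat_lit 431) (nat_lit 460) (nat_lit 2476) (.f (nat_lit 526) (nat_lit 558) (nat_lit 6574) (.d (nat_lit 399) (nat_lit 367) (nat_lit 5486) (nat_lit 430) (nat_lit 6542))))) (.a (.f (nat_lit 432) (nat_lit 433) (nat_lit 2477) (.f (nat_lit 431) (nat_lit 460) (nat_lit 2476) (.f (nat_lit 495) (nat_lit 527) (nat_lit 4527) (.d (nat_lit 399) (nat_lit 367) (nat_lit 5486) (nat_lit 526) (nat_lit 5518))))) (.f (nat_lit 429) (nat_lit 428) (nat_lit 3500) (.f (nat_lit 526) (nat_lit 558) (nat_lit 7597) (.d (nat_lit 397) (nat_lit 365) (nat_lit 4461) (nat_lit 430) (nat_lit 7565)))))))))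
noncomputable def s64652 : Cert := .r (nat_lit 3773962425700235452789419352837689089530310204303180232426993888653488792878081940885092338381798600141335034290884224437622854705202265284023639707812847322952938553344) (.p (nat_lit 465) (.a (.f (nat_lit 429) (nat_lit 430) (nat_lit 3501) (.f (nat_lit 461) (nat_lit 428) (nat_lit 3500) (.d (nat_lit 433) (nat_lit 432) (nat_lit 2477) (nat_lit 434) (nat_lit 2478)))) (.a (.f (nat_lit 433) (nat_lit 434) (nat_lit 2478) (.f (nat_lit 498) (nat_lit 497) (nat_lit 462) (.f (nat_lit 466) (nat_lit 499) (nat_lit 463) (.f (nat_lit 432) (nat_lit 461) (nat_lit 2477) (.d (nat_lit 467) (nat_lit 431) (nat_lit 3503) (nat_lit 468) (nat_lit 3504)))))) (.f (nat_lit 430) (nat_lit 429) (nat_lit 3501) (.f (nat_lit 431) (nat_lit 466) (nat_lit 3502) (.d (nat_lit 399) (nat_lit 367) (nat_lit 5486) (nat_lit 526) (nat_lit 6542)))))))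
noncomputable def s64653 : Cert := .r (nat_lit 3773962425700235452789419352813872038212591757713659989890119756071788672771079902685788467535047411948435211139331596087834250188907198976029509589286785496786493505536) (.p (nat_lit 463) (.a s64407 (.a s64444 (.a (.p (nat_lit 465) (.a (.f (nat_lit 430) (nat_lit 429) (nat_lit 3501) (.d (nat_lit 466) (nat_lit 431) (nat_lit 3502) (nat_lit 495) (nat_lit 1486))) (.a (.f (nat_lit 466) (nat_lit 495) (nat_lit 1486) (.d (nat_lit 498) (nat_lit 497) (nat_lit 462) (nat_lit 499) (nat_lit 463))) (.f (nat_lit 429) (nat_lit 430) (nat_lit 3501) (.f (nat_lit 461) (nat_lit 428) (nat_lit 3500) (.d (nat_lit 433) (nat_lit 432) (nat_lit 2477) (nat_lit 434) (nat_lit 2478))))))) (.a s64501 (.a s64528 (.a (.p (nat_lit 465) (.a (.f (nat_lit 466) (nat_lit 495) (nat_lit 1486) (.d (nat_lit 498) (nat_lit 497) (nat_lit 462) (nat_lit 499) (nat_lit 463))) (.f (nat_lit 429) (nat_lit 430) (nat_lit 3501) (.f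 (nat_lit 461) (nat_lit 428) (nat_lit 3500) (.d (nat_lit 433) (nat_lit 432) (nat_lit 2477) (nat_lit 434) (nat_lit 2478)))))) (.a s64647 (.a s64597 (.a s64651 s64652))))))))))
noncomputable def s64655 : Cert := .r (nat_lit 3773962425700235452789419352813872038212591757713659989890119756071788672771079902685788467535047411948435211139331596087834250188907198976029509589286785496786493505536) (.p (nat_lit 463) (.a s64394 (.a (.f (nat_lit 465) (nat_lit 493) (nat_lit 1485) (.f (nat_lit 430) (nat_lit 429) (nat_lit 3501) (.f (nat_lit 431) (nat_lit 466) (nat_lit 3502) (.d (nat_lit 399) (nat_lit 367) (nat_lit 5486) (nat_lit 526) (nat_lit 6542))))) (.a (.f (nat_lit 465) (nat_lit 493) (nat_lit 1485) (.f (nat_lit 430) (nat_lit 429) (nat_lit 3501) (.f (nat_lit 431) (nat_lit 466) (nat_lit 3502) (.d (nat_lit 526) (nat_lit 399) (nat_lit 6542) (nat_lit 558) (nat_lit 6574))))) (.a (.f (nat_lit 465) (nat_lit 493) (nat_lit 1485) (.f (nat_lit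 430) (nat_lit 429) (nat_lit 3501) (.f (nat_lit 466) (nat_lit 431) (nat_lit 3502) (.d (nat_lit 434) (nat_lit 433) (nat_lit 2478) (nat_lit 435) (nat_lit 2479))))) (.a (.f (nat_lit 465) (nat_lit 493) (nat_lit 1485) (.f (nat_lit 433) (nat_lit 434) (nat_lit 2478) (.f (nat_lit 432) (nat_lit 461) (nat_lit 2477) (.f (nat_lit 498) (nat_lit 497) (nat_lit 462) (.f (nat_lit 466) (nat_lit 499) (nat_lit 463) (.d (nat_lit 431) (nat_lit 430) (nat_lit 430) (nat_lit 467) (nat_lit 3503))))))) (.a (.f (nat_lit 465) (nat_lit 493) (nat_lit 1485) (.f (nat_lit 433) (nat_lit 434) (nat_lit 2478) (.f (nat_lit 498) (nat_lit 497) (nat_lit 462) (.f (nat_lit 466) (nat_lit 499) (nat_lit 463) (.f (nat_lit 432) (nat_lit 461) (nat_lit 2477) (.d (nat_lit 467) (nat_lit 431) (nat_lit 3503) (nat_lit 468) (nat_lit 3504))))))) (.a (.f (nat_lit 465) (nat_lit 493) (nat_lit 1485) (.f (nat_lit 429) (nat_lit 430) (nat_lit 3501) (.f (nat_lit 461) (nat_lit 428) (nat_lit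 3500) (.d (nat_lit 433) (nat_lit 432) (nat_lit 2477) (nat_lit 434) (nat_lit 2478))))) s64652))))))))
noncomputable def s64673 : Cert := .r (nat_lit 3773962425700235452789419352813872038212591757713659989890119756071788672771079902685788467535047411948435211139331596087834250188907198976029509589286785496786493505536) (.p (nat_lit 463) (.a (.f (nat_lit 465) (nat_lit 493) (nat_lit 1485) (.f (nat_lit 430) (nat_lit 429) (nat_lit 3501) (.d (nat_lit 466) (nat_lit 431) (nat_lit 3502) (nat_lit 495) (nat_lit 1486)))) (.a (.f (nat_lit 465) (nat_lit 493) (nat_lit 1485) (.f (nat_lit 466) (nat_lit 495) (nat_lit 1486) (.d (nat_lit 498) (nat_lit 497) (nat_lit 462) (nat_lit 499) (nat_lit 463)))) (.a (.p (nat_lit 461) (.a (.f (nat_lit 493) (nat_lit 492) (nat_lit 1484) (.f (nat_lit 429) (nat_lit 428) (nat_lit 3500) (.f (nat_lit 397) (nat_lit 365) (nat_lit 4461) (.f (nat_lit 398) (nat_lit 366) (nat_lit 6509) (.f (nat_lit 430) (nat_lit 525)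 (nat_lit 5517) (.f (nat_lit 432) (nat_lit 433) (nat_lit 2477) (.d (nat_lit 431) (nat_lit 396) (nat_lit 3468) (nat_lit 460) (nat_lit 2476)))))))) (.a (.f (nat_lit 493) (nat_lit 492) (nat_lit 1484) (.f (nat_lit 432) (nat_lit 433) (nat_lit 2477) (.f (nat_lit 460) (nat_lit 431) (nat_lit 2476) (.d (nat_lit 459) (nat_lit 458) (nat_lit 458) (nat_lit 495) (nat_lit 459))))) (.a (.f (nat_lit 493) (nat_lit 492) (nat_lit 1484) (.f (nat_lit 429) (nat_lit 428) (nat_lit 3500) (.f (nat_lit 397) (nat_lit 365) (nat_lit 4461) (.f (nat_lit 398) (nat_lit 366) (nat_lit 6509) (.f (nat_lit 430) (nat_lit 525) (nat_lit 5517) (.f (nat_lit 495) (nat_lit 527) (nat_lit 4494) (.f (nat_lit 399) (nat_lit 367) (nat_lit 6510) (.f (nat_lit 400) (nat_lit 401) (nat_lit 1421) (.d (nat_lit 368) (nat_lit 369) (nat_lit 2413) (nat_lit 432) (nat_lit 5487)))))))))) (.a (.f (nat_lit 493) (nat_lit 492) (nat_lit 1484) (.f (nat_lit 429) (nat_lit 428) (nat_lit 3500) (.f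 (nat_lit 397) (nat_lit 365) (nat_lit 4461) (.f (nat_lit 398) (nat_lit 366) (nat_lit 6509) (.f (nat_lit 430) (nat_lit 525) (nat_lit 5517) (.f (nat_lit 396) (nat_lit 364) (nat_lit 7532) (.d (nat_lit 395) (nat_lit 394) (nat_lit 394) (nat_lit 431) (nat_lit 395)))))))) (.f (nat_lit 429) (nat_lit 428) (nat_lit 3500) (.f (nat_lit 432) (nat_lit 433) (nat_lit 2477) (.f (nat_lit 431) (nat_lit 460) (nat_lit 2476) (.f (nat_lit 495) (nat_lit 527) (nat_lit 4527) (.f (nat_lit 400) (nat_lit 368) (nat_lit 5487) (.f (nat_lit 430) (nat_lit 401) (nat_lit 2445) (.d (nat_lit 397) (nat_lit 365) (nat_lit 4461) (nat_lit 396) (nat_lit 3468))))))))))))) (.a (.p (nat_lit 465) (.a (.f (nat_lit 430) (nat_lit 429) (nat_lit 3501) (.d (nat_lit 466) (nat_lit 431) (nat_lit 3502) (nat_lit 495) (nat_lit 1486))) (.a (.f (nat_lit 466) (nat_lit 495) (nat_lit 1486) (.d (nat_lit 498) (nat_lit 497) (nat_lit 462) (nat_lit 499) (nat_lit 463))) (.f (nat_lit 429) (nat_lit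 430) (nat_lit 3501) (.f (nat_lit 461) (nat_lit 428) (nat_lit 3500) (.d (nat_lit 433) (nat_lit 432) (nat_lit 2477) (nat_lit 434) (nat_lit 2478))))))) (.f (nat_lit 465) (nat_lit 493) (nat_lit 1485) (.f (nat_lit 430) (nat_lit 429) (nat_lit 3501) (.f (nat_lit 466) (nat_lit 431) (nat_lit 3502) (.d (nat_lit 434) (nat_lit 433) (nat_lit 2478) (nat_lit 435) (nat_lit 2479))))))))))
noncomputable def s64734 : Cert := .r (nat_lit 3773962425919908977862452135468732698381958698242870925278194629784688736236342895127315241480897468722450484857565453946667637722897042790495552676285756961810362138624) (.p (nat_lit 465) (.a (.f (nat_lit 494) (nat_lit 493) (nat_lit 1485) (.f (nat_lit 430) (nat_lit 429) (nat_lit 3501) (.f (nat_lit 495) (nat_lit 466) (nat_lit 1486) (.d (nat_lit 398) (nat_lit 366) (nat_lit 4462) (nat_lit 527) (nat_lit 4494))))) (.a (.f (nat_lit 494) (nat_lit 493) (nat_lit 1485) (.f (nat_lit 430) (nat_lit 429) (nat_lit 3501)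 (.f (nat_lit 527) (nat_lit 559) (nat_lit 4526) (.d (nat_lit 495) (nat_lit 398) (nat_lit 4494) (nat_lit 466) (nat_lit 1486))))) (.a (.f (nat_lit 494) (nat_lit 493) (nat_lit 1485) (.f (nat_lit 430) (nat_lit 429) (nat_lit 3501) (.f (nat_lit 527) (nat_lit 559) (nat_lit 4526) (.d (nat_lit 525) (nat_lit 557) (nat_lit 5549) (nat_lit 561) (nat_lit 525))))) (.a (.f (nat_lit 494) (nat_lit 493) (nat_lit 1485) (.f (nat_lit 495) (nat_lit 466) (nat_lit 1486) (.f (nat_lit 558) (nat_lit 590) (nat_lit 6606) (.f (nat_lit 559) (nat_lit 591) (nat_lit 4558) (.d (nat_lit 527) (nat_lit 430) (nat_lit 4526) (nat_lit 432) (nat_lit 6575)))))) (.a (.f (nat_lit 494) (nat_lit 493) (nat_lit 1485) (.f (nat_lit 466) (nat_lit 495) (nat_lit 1486) (.d (nat_lit 498) (nat_lit 497) (nat_lit 462) (nat_lit 499) (nat_lit 463)))) (.a (.f (nat_lit 430) (nat_lit 429) (nat_lit 3501) (.f (nat_lit 498) (nat_lit 497) (nat_lit 462) (.f (nat_lit 466) (nat_lit 499) (nat_lit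 463) (.f (nat_lit 494) (nat_lit 495) (nat_lit 1486) (.f (nat_lit 527) (nat_lit 559) (nat_lit 4526) (.d (nat_lit 525) (nat_lit 557) (nat_lit 5549) (nat_lit 561) (nat_lit 525))))))) (.f (nat_lit 433) (nat_lit 434) (nat_lit 2478) (.f (nat_lit 461) (nat_lit 432) (nat_lit 2477) (.d (nat_lit 429) (nat_lit 428) (nat_lit 3500) (nat_lit 430) (nat_lit 3501)))))))))))
noncomputable def s64751 : Cert := .r (nat_lit 3773962425919908977862452135468732698381958698242870925278194629784688736236342895127315241480897468722450484857565453946667637722897042790495552676285756961810362138624) (.p (nat_lit 527) (.a (.f (nat_lit 495) (nat_lit 431) (nat_lit 4527) (.d (nat_lit 559) (nat_lit 430) (nat_lit 7598) (nat_lit 432) (nat_lit 6575))) (.a (.f (nat_lit 495) (nat_lit 431) (nat_lit 4527) (.f (nat_lit 559) (nat_lit 432) (nat_lit 6575) (.d (nat_lit 525) (nat_lit 524) (nat_lit 524) (nat_lit 561) (nat_lit 525)))) (.a (.f (nat_lit 525) (nat_lit 561)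 (nat_lit 525) (.f (nat_lit 559) (nat_lit 524) (nat_lit 524) (.d (nat_lit 495) (nat_lit 430) (nat_lit 7598) (nat_lit 432) (nat_lit 6575)))) (.a (.f (nat_lit 495) (nat_lit 431) (nat_lit 4527) (.f (nat_lit 559) (nat_lit 430) (nat_lit 7598) (.d (nat_lit 525) (nat_lit 524) (nat_lit 524) (nat_lit 561) (nat_lit 525)))) (.f (nat_lit 525) (nat_lit 561) (nat_lit 525) (.f (nat_lit 557) (nat_lit 556) (nat_lit 1548) (.f (nat_lit 494) (nat_lit 430) (nat_lit 5549) (.d (nat_lit 558) (nat_lit 431) (nat_lit 6574) (nat_lit 589) (nat_lit 5581))))))))))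
noncomputable def s64787 : Cert := .r (nat_lit 3773962425919908977862452135468732698381958698242870925278194629784688736236342895127315241480897468722450484857565453946667637722897042790495552676285756961810362138624) (.p (nat_lit 461) (.a (.f (nat_lit 432) (nat_lit 433) (nat_lit 2477) (.f (nat_lit 431) (nat_lit 460) (nat_lit 2476) (.f (nat_lit 527) (nat_lit 495) (nat_lit 4527) (.f (nat_lit 429) (nat_lit 428) (nat_lit 3500) (.f (nat_lit 525) (nat_lit 561) (nat_lit 525) (.d (nat_lit 493) (nat_lit 492) (nat_lit 1484) (nat_lit 558) (nat_lit 4525))))))) (.a (.f (nat_lit 432) (nat_lit 433) (nat_lit 2477) (.f (nat_lit 431) (nat_lit 460) (nat_lit 2476) (.f (nat_lit 527) (nat_lit 495) (nat_lit 4527) (.f (nat_lit 525) (nat_lit 561) (nat_lit 525) (.f (nat_lit 493) (nat_lit 492) (nat_lit 1484) (.d (nat_lit 557) (nat_lit 430) (nat_lit 6573) (nat_lit 556) (nat_lit 1548))))))) (.a (.f (nat_lit 429) (nat_lit 428) (nat_lit 3500) (.f (nat_lit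 493) (nat_lit 492) (nat_lit 1484) (.f (nat_lit 525) (nat_lit 558) (nat_lit 4525) (.d (nat_lit 430) (nat_lit 398) (nat_lit 6541) (nat_lit 465) (nat_lit 3501))))) (.a (.f (nat_lit 432) (nat_lit 433) (nat_lit 2477) (.f (nat_lit 431) (nat_lit 460) (nat_lit 2476) (.f (nat_lit 527) (nat_lit 495) (nat_lit 4527) (.f (nat_lit 429) (nat_lit 428) (nat_lit 3500) (.f (nat_lit 430) (nat_lit 465) (nat_lit 429) (.f (nat_lit 525) (nat_lit 561) (nat_lit 525) (.d (nat_lit 493) (nat_lit 398) (nat_lit 6541) (nat_lit 558) (nat_lit 4525)))))))) (.a (.f (nat_lit 432) (nat_lit 433) (nat_lit 2477) (.f (nat_lit 431) (nat_lit 460) (nat_lit 2476) (.f (nat_lit 527) (nat_lit 495) (nat_lit 4527) (.f (nat_lit 525) (nat_lit 561) (nat_lit 525) (.f (nat_lit 524) (nat_lit 559) (nat_lit 524) (.d (nat_lit 556) (nat_lit 555) (nat_lit 1547) (nat_lit 557) (nat_lit 1548))))))) (.f (nat_lit 432) (nat_lit 433) (nat_lit 2477) (.f (nat_lit 431) (nat_lit 460) (nat_lit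 2476) (.f (nat_lit 495) (nat_lit 527) (nat_lit 4527) (.f (nat_lit 429) (nat_lit 428) (nat_lit 3500) (.f (nat_lit 430) (nat_lit 465) (nat_lit 429) (.d (nat_lit 400) (nat_lit 368) (nat_lit 5487) (nat_lit 401) (nat_lit 2445)))))))))))))
noncomputable def s64790 : Cert := .r (nat_lit 3773962425919908977862452135468732698381958698242870925278194629784688736236342895127315241480897468722450484857565453946667637722897042790495552676285756961810362138624) (.p (nat_lit 494) (.a (.f (nat_lit 558) (nat_lit 431) (nat_lit 6574) (.f (nat_lit 493) (nat_lit 465) (nat_lit 1485) (.d (nat_lit 461) (nat_lit 429) (nat_lit 7597) (nat_lit 492) (nat_lit 1484)))) (.a (.f (nat_lit 493) (nat_lit 465) (nat_lit 1485) (.d (nat_lit 492) (nat_lit 461) (nat_lit 1484) (nat_lit 491) (nat_lit 2507))) (.a (.f (nat_lit 465) (nat_lit 493) (nat_lit 1485) (.f (nat_lit 430) (nat_lit 429) (nat_lit 3501) (.f (nat_lit 495) (nat_lit 466) (nat_lit 1486) (.d (nat_lit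 398) (nat_lit 366) (nat_lit 4462) (nat_lit 527) (nat_lit 4494))))) (.a (.f (nat_lit 558) (nat_lit 431) (nat_lit 6574) (.f (nat_lit 461) (nat_lit 429) (nat_lit 7597) (.d (nat_lit 590) (nat_lit 493) (nat_lit 7629) (nat_lit 495) (nat_lit 6606)))) (.f (nat_lit 431) (nat_lit 558) (nat_lit 6574) (.d (nat_lit 399) (nat_lit 367) (nat_lit 5486) (nat_lit 430) (nat_lit 6542))))))))
noncomputable def s64791 : Cert := .r (nat_lit 3773962425919908977862452135468732698381958698242870925278194629784688736236342895127315241480897468722450484857565453946667637722897042790495552676285756961810362138624) (.p (nat_lit 465) (.a (.f (nat_lit 494) (nat_lit 493) (nat_lit 1485) (.f (nat_lit 430) (nat_lit 429) (nat_lit 3501) (.f (nat_lit 495) (nat_lit 466) (nat_lit 1486) (.d (nat_lit 398) (nat_lit 366) (nat_lit 4462) (nat_lit 527) (nat_lit 4494))))) (.a (.f (nat_lit 494) (nat_lit 493) (nat_lit 1485) (.f (nat_lit 430) (nat_lit 429) (nat_lit 3501)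 (.f (nat_lit 527) (nat_lit 559) (nat_lit 4526) (.d (nat_lit 495) (nat_lit 398) (nat_lit 4494) (nat_lit 466) (nat_lit 1486))))) (.a (.f (nat_lit 494) (nat_lit 493) (nat_lit 1485) (.f (nat_lit 430) (nat_lit 429) (nat_lit 3501) (.f (nat_lit 527) (nat_lit 559) (nat_lit 4526) (.d (nat_lit 525) (nat_lit 557) (nat_lit 5549) (nat_lit 561) (nat_lit 525))))) (.a (.f (nat_lit 494) (nat_lit 493) (nat_lit 1485) (.f (nat_lit 466) (nat_lit 495) (nat_lit 1486) (.d (nat_lit 498) (nat_lit 497) (nat_lit 462) (nat_lit 499) (nat_lit 463)))) (.a (.f (nat_lit 430) (nat_lit 429) (nat_lit 3501) (.f (nat_lit 498) (nat_lit 497) (nat_lit 462) (.f (nat_lit 466) (nat_lit 499) (nat_lit 463) (.f (nat_lit 494) (nat_lit 495) (nat_lit 1486) (.f (nat_lit 527) (nat_lit 559) (nat_lit 4526) (.d (nat_lit 525) (nat_lit 557) (nat_lit 5549) (nat_lit 561) (nat_lit 525))))))) (.f (nat_lit 433) (nat_lit 434) (nat_lit 2478) (.f (nat_lit 461) (nat_lit 432) (nat_lit 2477)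 (.d (nat_lit 429) (nat_lit 428) (nat_lit 3500) (nat_lit 430) (nat_lit 3501))))))))))
noncomputable def s64792 : Cert := .r (nat_lit 3773962425919908977862452135444915647064240251653350682741320497202988616129340856928011370634146280529550661706012825596879033206601976482501422557759695135643917090816) (.p (nat_lit 463) (.a (.p (nat_lit 494) (.a (.f (nat_lit 558) (nat_lit 431) (nat_lit 6574) (.f (nat_lit 559) (nat_lit 591) (nat_lit 4558) (.f (nat_lit 527) (nat_lit 430) (nat_lit 4526) (.d (nat_lit 561) (nat_lit 525) (nat_lit 3597) (nat_lit 562) (nat_lit 3598))))) (.a (.f (nat_lit 558) (nat_lit 431) (nat_lit 6574) (.f (nat_lit 493) (nat_lit 465) (nat_lit 1485) (.d (nat_lit 461) (nat_lit 429) (nat_lit 7597) (nat_lit 492) (nat_lit 1484)))) (.f (nat_lit 493) (nat_lit 465) (nat_lit 1485) (.d (nat_lit 492) (nat_lit 461) (nat_lit 1484) (nat_lit 491) (nat_lit 2507)))))) (.a (.p (nat_lit 494) (.a (.f (nat_lit 558) (nat_lit 431) (nat_lit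 6574) (.f (nat_lit 559) (nat_lit 591) (nat_lit 4558) (.f (nat_lit 527) (nat_lit 430) (nat_lit 4526) (.d (nat_lit 561) (nat_lit 525) (nat_lit 3597) (nat_lit 562) (nat_lit 3598))))) (.f (nat_lit 493) (nat_lit 465) (nat_lit 1485) (.d (nat_lit 492) (nat_lit 461) (nat_lit 1484) (nat_lit 491) (nat_lit 2507))))) (.a (.p (nat_lit 494) (.a (.f (nat_lit 558) (nat_lit 431) (nat_lit 6574) (.f (nat_lit 493) (nat_lit 465) (nat_lit 1485) (.d (nat_lit 461) (nat_lit 429) (nat_lit 7597) (nat_lit 492) (nat_lit 1484)))) (.a (.f (nat_lit 493) (nat_lit 465) (nat_lit 1485) (.d (nat_lit 492) (nat_lit 461) (nat_lit 1484) (nat_lit 491) (nat_lit 2507))) (.f (nat_lit 558) (nat_lit 431) (nat_lit 6574) (.f (nat_lit 559) (nat_lit 591) (nat_lit 4558) (.f (nat_lit 525) (nat_lit 561) (nat_lit 3597) (.d (nat_lit 557) (nat_lit 524) (nat_lit 3596) (nat_lit 589) (nat_lit 5581)))))))) (.a s64734 (.a (.p (nat_lit 494) (.a (.f (nat_lit 558) (nat_lit 431) (nat_lit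 6574) (.f (nat_lit 559) (nat_lit 591) (nat_lit 4558) (.f (nat_lit 527) (nat_lit 430) (nat_lit 4526) (.d (nat_lit 561) (nat_lit 525) (nat_lit 3597) (nat_lit 562) (nat_lit 3598))))) (.a (.f (nat_lit 558) (nat_lit 431) (nat_lit 6574) (.f (nat_lit 559) (nat_lit 591) (nat_lit 4558) (.f (nat_lit 525) (nat_lit 561) (nat_lit 3597) (.d (nat_lit 557) (nat_lit 524) (nat_lit 3596) (nat_lit 589) (nat_lit 5581))))) (.f (nat_lit 465) (nat_lit 493) (nat_lit 1485) (.f (nat_lit 430) (nat_lit 429) (nat_lit 3501) (.f (nat_lit 495) (nat_lit 466) (nat_lit 1486) (.d (nat_lit 398) (nat_lit 366) (nat_lit 4462) (nat_lit 527) (nat_lit 4494)))))))) (.a s64751 (.a s64787 (.a s64790 s64791)))))))))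
noncomputable def s64794 : Cert := .r (nat_lit 3773962425919908977862452135444915647064240251653350682741320497202988616129340856928011370634146280529550661706012825596879033206601976482501422557759695135643917090816) (.p (nat_lit 494) (.a s64543 (.a (.p (nat_lit 527) (.a (.f (nat_lit 559) (nat_lit 430) (nat_lit 4526) (.d (nat_lit 561) (nat_lit 525) (nat_lit 525) (nat_lit 562) (nat_lit 3598))) (.a (.f (nat_lit 525) (nat_lit 561) (nat_lit 525) (.f (nat_lit 493) (nat_lit 492) (nat_lit 3564) (.d (nat_lit 557) (nat_lit 556) (nat_lit 1548) (nat_lit 589) (nat_lit 6605)))) (.f (nat_lit 559) (nat_lit 430) (nat_lit 4526) (.d (nat_lit 591) (nat_lit 495) (nat_lit 7630) (nat_lit 558) (nat_lit 4558)))))) (.a (.p (nat_lit 558) (.a (.f (nat_lit 559) (nat_lit 591) (nat_lit 4558) (.f (nat_lit 525) (nat_lit 561) (nat_lit 3597) (.d (nat_lit 557) (nat_lit 524) (nat_lit 3596) (nat_lit 589) (nat_lit 5581)))) (.f (nat_lit 461) (nat_lit 429) (nat_lit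 7597) (.f (nat_lit 493) (nat_lit 590) (nat_lit 7629) (.d (nat_lit 463) (nat_lit 465) (nat_lit 1485) (nat_lit 492) (nat_lit 1484)))))) (.a s64556 (.a s64560 (.a (.p (nat_lit 558) (.a (.f (nat_lit 559) (nat_lit 591) (nat_lit 4558) (.f (nat_lit 527) (nat_lit 430) (nat_lit 4526) (.d (nat_lit 557) (nat_lit 556) (nat_lit 2572) (nat_lit 589) (nat_lit 5581)))) (.f (nat_lit 461) (nat_lit 429) (nat_lit 7597) (.f (nat_lit 493) (nat_lit 590) (nat_lit 7629) (.d (nat_lit 463) (nat_lit 465) (nat_lit 1485) (nat_lit 492) (nat_lit 1484)))))) (.a s64572 (.a (.p (nat_lit 430) (.a (.f (nat_lit 527) (nat_lit 559) (nat_lit 4526) (.d (nat_lit 525) (nat_lit 557) (nat_lit 5549) (nat_lit 561) (nat_lit 525))) (.f (nat_lit 429) (nat_lit 397) (nat_lit 7565) (.f (nat_lit 463) (nat_lit 465) (nat_lit 3501) (.d (nat_lit 428) (nat_lit 427) (nat_lit 427) (nat_lit 461) (nat_lit 3500)))))) s64588)))))))))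
noncomputable def s64800 : Cert := .r (nat_lit 3773962425919908977862452135468732698381958698242870925278194629784688736236342895127315241480897468722450484857565453946667637722897042790495552676285756961810362138624) (.p (nat_lit 461) (.a (.f (nat_lit 432) (nat_lit 433) (nat_lit 2477) (.f (nat_lit 431) (nat_lit 460) (nat_lit 2476) (.f (nat_lit 527) (nat_lit 495) (nat_lit 4527) (.f (nat_lit 429) (nat_lit 428) (nat_lit 3500) (.f (nat_lit 525) (nat_lit 561) (nat_lit 525) (.d (nat_lit 493) (nat_lit 492) (nat_lit 1484) (nat_lit 558) (nat_lit 4525))))))) (.a (.f (nat_lit 432) (nat_lit 433) (nat_lit 2477) (.f (nat_lit 431) (nat_lit 460) (nat_lit 2476) (.f (nat_lit 527) (nat_lit 495) (nat_lit 4527) (.f (nat_lit 525) (nat_lit 561) (nat_lit 525) (.f (nat_lit 493) (nat_lit 492) (nat_lit 1484) (.d (nat_lit 557) (nat_lit 430) (nat_lit 6573) (nat_lit 556) (nat_lit 1548))))))) (.a (.f (nat_lit 429) (nat_lit 428) (nat_lit 3500) (.f (nat_lit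 493) (nat_lit 492) (nat_lit 1484) (.f (nat_lit 525) (nat_lit 558) (nat_lit 4525) (.d (nat_lit 430) (nat_lit 465) (nat_lit 3501) (nat_lit 557) (nat_lit 6573))))) (.a (.f (nat_lit 432) (nat_lit 433) (nat_lit 2477) (.f (nat_lit 431) (nat_lit 460) (nat_lit 2476) (.f (nat_lit 527) (nat_lit 495) (nat_lit 4527) (.f (nat_lit 525) (nat_lit 561) (nat_lit 525) (.f (nat_lit 524) (nat_lit 559) (nat_lit 524) (.d (nat_lit 556) (nat_lit 555) (nat_lit 1547) (nat_lit 557) (nat_lit 1548))))))) (.f (nat_lit 432) (nat_lit 433) (nat_lit 2477) (.f (nat_lit 431) (nat_lit 460) (nat_lit 2476) (.f (nat_lit 495) (nat_lit 527) (nat_lit 4527) (.f (nat_lit 429) (nat_lit 428) (nat_lit 3500) (.f (nat_lit 430) (nat_lit 465) (nat_lit 429) (.d (nat_lit 400) (nat_lit 368) (nat_lit 5487) (nat_lit 401) (nat_lit 2445))))))))))))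
noncomputable def s64801 : Cert := .r (nat_lit 3773962425919908977862452135468732698381958698242870925278194629784688736236342895127315241480897468722450484857565453946667637722897042790495552676285756961810362138624) (.p (nat_lit 465) (.a (.f (nat_lit 494) (nat_lit 493) (nat_lit 1485) (.f (nat_lit 495) (nat_lit 466) (nat_lit 1486) (.f (nat_lit 558) (nat_lit 590) (nat_lit 6606) (.f (nat_lit 559) (nat_lit 591) (nat_lit 4558) (.d (nat_lit 527) (nat_lit 430) (nat_lit 4526) (nat_lit 432) (nat_lit 6575)))))) (.a (.f (nat_lit 494) (nat_lit 493) (nat_lit 1485) (.f (nat_lit 466) (nat_lit 495) (nat_lit 1486) (.d (nat_lit 498) (nat_lit 497) (nat_lit 462) (nat_lit 499) (nat_lit 463)))) (.f (nat_lit 433) (nat_lit 434) (nat_lit 2478) (.f (nat_lit 461) (nat_lit 432) (nat_lit 2477) (.d (nat_lit 429) (nat_lit 428) (nat_lit 3500) (nat_lit 430) (nat_lit 3501)))))))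
noncomputable def s64802 : Cert := .r (nat_lit 3773962425919908977862452135468732698381958698242870925278194629784688736236342895127315241480897468722450484857565453946667637722897042790495552676285756961810362138624) (.p (nat_lit 465) (.a (.f (nat_lit 494) (nat_lit 493) (nat_lit 1485) (.f (nat_lit 430) (nat_lit 429) (nat_lit 3501) (.f (nat_lit 527) (nat_lit 559) (nat_lit 4526) (.d (nat_lit 525) (nat_lit 557) (nat_lit 5549) (nat_lit 561) (nat_lit 525))))) (.a (.f (nat_lit 494) (nat_lit 493) (nat_lit 1485) (.f (nat_lit 466) (nat_lit 495) (nat_lit 1486) (.d (nat_lit 498) (nat_lit 497) (nat_lit 462) (nat_lit 499) (nat_lit 463)))) (.a (.f (nat_lit 430) (nat_lit 429) (nat_lit 3501) (.f (nat_lit 498) (nat_lit 497) (nat_lit 462) (.f (nat_lit 466) (nat_lit 499) (nat_lit 463) (.f (nat_lit 494) (nat_lit 495) (nat_lit 1486) (.f (nat_lit 527) (nat_lit 559) (nat_lit 4526) (.d (nat_lit 525) (nat_lit 557) (nat_lit 5549) (nat_lit 561)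 (nat_lit 525))))))) (.f (nat_lit 433) (nat_lit 434) (nat_lit 2478) (.f (nat_lit 461) (nat_lit 432) (nat_lit 2477) (.d (nat_lit 429) (nat_lit 428) (nat_lit 3500) (nat_lit 430) (nat_lit 3501))))))))
noncomputable def s64804 : Cert := .r (nat_lit 3773962425919908977862452135444915647064240251653350682741320497202988616129340856928011370634146280529550661706012825596879033206601976482501422557759695135643917090816) (.p (nat_lit 463) (.a (.p (nat_lit 494) (.a (.f (nat_lit 558) (nat_lit 431) (nat_lit 6574) (.f (nat_lit 559) (nat_lit 591) (nat_lit 4558) (.f (nat_lit 527) (nat_lit 430) (nat_lit 4526) (.d (nat_lit 561) (nat_lit 525) (nat_lit 3597) (nat_lit 562) (nat_lit 3598))))) (.a (.f (nat_lit 558) (nat_lit 431) (nat_lit 6574) (.f (nat_lit 493) (nat_lit 465) (nat_lit 1485) (.d (nat_lit 461) (nat_lit 429) (nat_lit 7597) (nat_lit 492) (nat_lit 1484)))) (.f (nat_lit 493) (nat_lit 465) (nat_lit 1485) (.d (nat_lit 492) (nat_lit 461)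 (nat_lit 1484) (nat_lit 491) (nat_lit 2507)))))) (.a (.p (nat_lit 494) (.a (.f (nat_lit 558) (nat_lit 431) (nat_lit 6574) (.f (nat_lit 559) (nat_lit 591) (nat_lit 4558) (.f (nat_lit 527) (nat_lit 430) (nat_lit 4526) (.d (nat_lit 561) (nat_lit 525) (nat_lit 3597) (nat_lit 562) (nat_lit 3598))))) (.f (nat_lit 493) (nat_lit 465) (nat_lit 1485) (.d (nat_lit 492) (nat_lit 461) (nat_lit 1484) (nat_lit 491) (nat_lit 2507))))) (.a (.p (nat_lit 494) (.a (.f (nat_lit 558) (nat_lit 431) (nat_lit 6574) (.f (nat_lit 493) (nat_lit 465) (nat_lit 1485) (.d (nat_lit 461) (nat_lit 429) (nat_lit 7597) (nat_lit 492) (nat_lit 1484)))) (.a (.f (nat_lit 493) (nat_lit 465) (nat_lit 1485) (.d (nat_lit 492) (nat_lit 461) (nat_lit 1484) (nat_lit 491) (nat_lit 2507))) (.f (nat_lit 558) (nat_lit 431) (nat_lit 6574) (.f (nat_lit 559) (nat_lit 591) (nat_lit 4558) (.f (nat_lit 525) (nat_lit 561) (nat_lit 3597) (.d (nat_lit 557) (nat_lit 524) (nat_lit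 3596) (nat_lit 589) (nat_lit 5581)))))))) (.a (.p (nat_lit 465) (.a (.f (nat_lit 494) (nat_lit 493) (nat_lit 1485) (.f (nat_lit 430) (nat_lit 429) (nat_lit 3501) (.f (nat_lit 527) (nat_lit 559) (nat_lit 4526) (.d (nat_lit 525) (nat_lit 557) (nat_lit 5549) (nat_lit 561) (nat_lit 525))))) (.a (.f (nat_lit 494) (nat_lit 493) (nat_lit 1485) (.f (nat_lit 495) (nat_lit 466) (nat_lit 1486) (.f (nat_lit 558) (nat_lit 590) (nat_lit 6606) (.f (nat_lit 559) (nat_lit 591) (nat_lit 4558) (.d (nat_lit 527) (nat_lit 430) (nat_lit 4526) (nat_lit 432) (nat_lit 6575)))))) (.a (.f (nat_lit 494) (nat_lit 493) (nat_lit 1485) (.f (nat_lit 466) (nat_lit 495) (nat_lit 1486) (.d (nat_lit 498) (nat_lit 497) (nat_lit 462) (nat_lit 499) (nat_lit 463)))) (.a (.f (nat_lit 430) (nat_lit 429) (nat_lit 3501) (.f (nat_lit 498) (nat_lit 497) (nat_lit 462) (.f (nat_lit 466) (nat_lit 499) (nat_lit 463) (.f (nat_lit 494) (nat_lit 495) (nat_lit 1486) (.f (nat_lit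 527) (nat_lit 559) (nat_lit 4526) (.d (nat_lit 525) (nat_lit 557) (nat_lit 5549) (nat_lit 561) (nat_lit 525))))))) (.f (nat_lit 433) (nat_lit 434) (nat_lit 2478) (.f (nat_lit 461) (nat_lit 432) (nat_lit 2477) (.d (nat_lit 429) (nat_lit 428) (nat_lit 3500) (nat_lit 430) (nat_lit 3501))))))))) (.a s64751 (.a s64800 (.a s64801 (.a s64802 (.p (nat_lit 465) (.a (.f (nat_lit 494) (nat_lit 493) (nat_lit 1485) (.f (nat_lit 466) (nat_lit 495) (nat_lit 1486) (.d (nat_lit 498) (nat_lit 497) (nat_lit 462) (nat_lit 499) (nat_lit 463)))) (.f (nat_lit 433) (nat_lit 434) (nat_lit 2478) (.f (nat_lit 461) (nat_lit 432) (nat_lit 2477) (.d (nat_lit 429) (nat_lit 428) (nat_lit 3500) (nat_lit 430) (nat_lit 3501)))))))))))))))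
noncomputable def s64807 : Cert := .r (nat_lit 3773962425919908977862452135444915647064240251653350682741320497202988616129340856928011370634146280529550661706012825596879033206601976482501422557759695135643917090816) (.p (nat_lit 494) (.a s64543 (.a (.p (nat_lit 527) (.a (.f (nat_lit 559) (nat_lit 430) (nat_lit 4526) (.d (nat_lit 561) (nat_lit 525) (nat_lit 525) (nat_lit 562) (nat_lit 3598))) (.a (.f (nat_lit 525) (nat_lit 561) (nat_lit 525) (.f (nat_lit 493) (nat_lit 492) (nat_lit 3564) (.d (nat_lit 557) (nat_lit 556) (nat_lit 1548) (nat_lit 589) (nat_lit 6605)))) (.f (nat_lit 559) (nat_lit 430) (nat_lit 4526) (.d (nat_lit 591) (nat_lit 495) (nat_lit 7630) (nat_lit 558) (nat_lit 4558)))))) (.a (.p (nat_lit 558) (.a (.f (nat_lit 559) (nat_lit 591) (nat_lit 4558) (.f (nat_lit 525) (nat_lit 561) (nat_lit 3597) (.d (nat_lit 557) (nat_lit 524) (nat_lit 3596) (nat_lit 589) (nat_lit 5581)))) (.f (nat_lit 461) (nat_lit 429) (nat_lit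 7597) (.f (nat_lit 493) (nat_lit 590) (nat_lit 7629) (.d (nat_lit 463) (nat_lit 465) (nat_lit 1485) (nat_lit 492) (nat_lit 1484)))))) (.a s64556 (.a s64560 (.a (.p (nat_lit 558) (.a (.f (nat_lit 559) (nat_lit 591) (nat_lit 4558) (.f (nat_lit 527) (nat_lit 430) (nat_lit 4526) (.d (nat_lit 557) (nat_lit 556) (nat_lit 2572) (nat_lit 589) (nat_lit 5581)))) (.f (nat_lit 461) (nat_lit 429) (nat_lit 7597) (.f (nat_lit 493) (nat_lit 590) (nat_lit 7629) (.d (nat_lit 463) (nat_lit 465) (nat_lit 1485) (nat_lit 492) (nat_lit 1484)))))) (.a (.p (nat_lit 463) (.a (.f (nat_lit 558) (nat_lit 431) (nat_lit 6574) (.f (nat_lit 559) (nat_lit 591) (nat_lit 4558) (.f (nat_lit 527) (nat_lit 430) (nat_lit 4526) (.d (nat_lit 561) (nat_lit 525) (nat_lit 3597) (nat_lit 562) (nat_lit 3598))))) (.a (.f (nat_lit 558) (nat_lit 431) (nat_lit 6574) (.f (nat_lit 493) (nat_lit 465) (nat_lit 1485) (.d (nat_lit 461) (nat_lit 429) (nat_lit 7597) (nat_lit 492)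 (nat_lit 1484)))) (.f (nat_lit 493) (nat_lit 465) (nat_lit 1485) (.d (nat_lit 492) (nat_lit 461) (nat_lit 1484) (nat_lit 491) (nat_lit 2507)))))) (.a (.p (nat_lit 430) (.a (.f (nat_lit 527) (nat_lit 559) (nat_lit 4526) (.d (nat_lit 525) (nat_lit 557) (nat_lit 5549) (nat_lit 561) (nat_lit 525))) (.a (.f (nat_lit 527) (nat_lit 559) (nat_lit 4526) (.f (nat_lit 398) (nat_lit 495) (nat_lit 4494) (.d (nat_lit 399) (nat_lit 367) (nat_lit 6510) (nat_lit 431) (nat_lit 6542)))) (.f (nat_lit 525) (nat_lit 557) (nat_lit 5549) (.f (nat_lit 398) (nat_lit 493) (nat_lit 5517) (.d (nat_lit 399) (nat_lit 367) (nat_lit 6510) (nat_lit 431) (nat_lit 6542))))))) (.p (nat_lit 430) (.a (.f (nat_lit 429) (nat_lit 397) (nat_lit 7565) (.f (nat_lit 431) (nat_lit 399) (nat_lit 6542) (.f (nat_lit 461) (nat_lit 558) (nat_lit 7597) (.d (nat_lit 432) (nat_lit 460) (nat_lit 1452) (nat_lit 465) (nat_lit 429))))) (.a (.f (nat_lit 525) (nat_lit 557) (nat_lit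 5549) (.f (nat_lit 398) (nat_lit 493) (nat_lit 5517) (.d (nat_lit 399) (nat_lit 367) (nat_lit 6510) (nat_lit 431) (nat_lit 6542)))) (.f (nat_lit 525) (nat_lit 557) (nat_lit 5549) (.f (nat_lit 493) (nat_lit 398) (nat_lit 5517) (.d (nat_lit 527) (nat_lit 492) (nat_lit 3564) (nat_lit 561) (nat_lit 525))))))))))))))))
noncomputable def s64810 : Cert := .r (nat_lit 3773962425919908977862452135444915647064240251653350682741320497202988616129340856928011370634146280529550661706012825596879033206601976482501422557759695135643917090816) (.p (nat_lit 494) (.a (.p (nat_lit 527) (.a (.f (nat_lit 559) (nat_lit 430) (nat_lit 4526) (.d (nat_lit 561) (nat_lit 525) (nat_lit 525) (nat_lit 562) (nat_lit 3598))) (.a (.f (nat_lit 525) (nat_lit 561) (nat_lit 525) (.f (nat_lit 493) (nat_lit 492) (nat_lit 3564) (.d (nat_lit 557) (nat_lit 556) (nat_lit 1548) (nat_lit 589) (nat_lit 6605)))) (.f (nat_lit 559) (nat_lit 430) (nat_lit 4526) (.d (nat_lit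 591) (nat_lit 495) (nat_lit 7630) (nat_lit 558) (nat_lit 4558)))))) (.a (.p (nat_lit 463) (.a (.f (nat_lit 493) (nat_lit 465) (nat_lit 1485) (.d (nat_lit 492) (nat_lit 461) (nat_lit 1484) (nat_lit 491) (nat_lit 2507))) (.f (nat_lit 558) (nat_lit 431) (nat_lit 6574) (.f (nat_lit 559) (nat_lit 591) (nat_lit 4558) (.f (nat_lit 525) (nat_lit 561) (nat_lit 3597) (.d (nat_lit 557) (nat_lit 524) (nat_lit 3596) (nat_lit 589) (nat_lit 5581))))))) (.a s64560 (.a (.p (nat_lit 463) (.a (.f (nat_lit 493) (nat_lit 465) (nat_lit 1485) (.d (nat_lit 492) (nat_lit 461) (nat_lit 1484) (nat_lit 491) (nat_lit 2507))) (.f (nat_lit 431) (nat_lit 558) (nat_lit 6574) (.d (nat_lit 399) (nat_lit 367) (nat_lit 5486) (nat_lit 430) (nat_lit 6542))))) (.p (nat_lit 430) (.a (.f (nat_lit 527) (nat_lit 559) (nat_lit 4526) (.d (nat_lit 525) (nat_lit 557) (nat_lit 5549) (nat_lit 561) (nat_lit 525))) (.a (.f (nat_lit 527) (nat_lit 559) (nat_lit 4526) (.f (nat_lit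 398) (nat_lit 495) (nat_lit 4494) (.d (nat_lit 399) (nat_lit 367) (nat_lit 6510) (nat_lit 431) (nat_lit 6542)))) (.f (nat_lit 525) (nat_lit 557) (nat_lit 5549) (.f (nat_lit 398) (nat_lit 493) (nat_lit 5517) (.d (nat_lit 399) (nat_lit 367) (nat_lit 6510) (nat_lit 431) (nat_lit 6542))))))))))))
noncomputable def s64866 : Cert := .r (nat_lit 3773962425919908977862452135468732698381958698242870925278194629784688736236342895127315241480897468722450484857565453946667637722897042790495552676285756961810362138624) (.p (nat_lit 527) (.a (.f (nat_lit 495) (nat_lit 431) (nat_lit 4527) (.f (nat_lit 559) (nat_lit 432) (nat_lit 6575) (.d (nat_lit 525) (nat_lit 524) (nat_lit 524) (nat_lit 561) (nat_lit 525)))) (.a (.f (nat_lit 525) (nat_lit 561) (nat_lit 525) (.f (nat_lit 524) (nat_lit 559) (nat_lit 524) (.d (nat_lit 556) (nat_lit 555) (nat_lit 1547) (nat_lit 557) (nat_lit 1548)))) (.a (.f (nat_lit 495) (nat_lit 431) (nat_lit 4527) (.f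 (nat_lit 559) (nat_lit 432) (nat_lit 6575) (.d (nat_lit 561) (nat_lit 525) (nat_lit 525) (nat_lit 562) (nat_lit 3598)))) (.a (.f (nat_lit 495) (nat_lit 431) (nat_lit 4527) (.f (nat_lit 559) (nat_lit 432) (nat_lit 6575) (.f (nat_lit 558) (nat_lit 590) (nat_lit 5582) (.f (nat_lit 494) (nat_lit 591) (nat_lit 4558) (.d (nat_lit 557) (nat_lit 556) (nat_lit 2572) (nat_lit 589) (nat_lit 5581)))))) (.f (nat_lit 495) (nat_lit 431) (nat_lit 4527) (.f (nat_lit 525) (nat_lit 561) (nat_lit 525) (.f (nat_lit 556) (nat_lit 557) (nat_lit 1548) (.f (nat_lit 524) (nat_lit 555) (nat_lit 1547) (.f (nat_lit 494) (nat_lit 523) (nat_lit 2539) (.f (nat_lit 465) (nat_lit 466) (nat_lit 1486) (.f (nat_lit 558) (nat_lit 590) (nat_lit 6606) (.f (nat_lit 461) (nat_lit 429) (nat_lit 7597) (.d (nat_lit 433) (nat_lit 432) (nat_lit 2477) (nat_lit 434) (nat_lit 2478)))))))))))))))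
noncomputable def s64872 : Cert := .r (nat_lit 3773962425919908977862452135468732698381958698242870925278194629784688736236342895127315241480897468722450484857565453946667637722897042790495552676285756961810362138624) (.p (nat_lit 461) (.a (.f (nat_lit 432) (nat_lit 433) (nat_lit 2477) (.f (nat_lit 431) (nat_lit 460) (nat_lit 2476) (.f (nat_lit 527) (nat_lit 495) (nat_lit 4527) (.f (nat_lit 429) (nat_lit 428) (nat_lit 3500) (.f (nat_lit 525) (nat_lit 561) (nat_lit 525) (.d (nat_lit 493) (nat_lit 492) (nat_lit 1484) (nat_lit 558) (nat_lit 4525))))))) (.a (.f (nat_lit 432) (nat_lit 433) (nat_lit 2477) (.f (nat_lit 431) (nat_lit 460) (nat_lit 2476) (.f (nat_lit 527) (nat_lit 495) (nat_lit 4527) (.f (nat_lit 525) (nat_lit 561) (nat_lit 525) (.f (nat_lit 524) (nat_lit 559) (nat_lit 524) (.d (nat_lit 556) (nat_lit 555) (nat_lit 1547) (nat_lit 557) (nat_lit 1548))))))) (.a (.f (nat_lit 492) (nat_lit 493) (nat_lit 1484) (.f (nat_lit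 460) (nat_lit 491) (nat_lit 1483) (.d (nat_lit 428) (nat_lit 427) (nat_lit 3499) (nat_lit 429) (nat_lit 3500)))) (.f (nat_lit 493) (nat_lit 492) (nat_lit 1484) (.f (nat_lit 429) (nat_lit 428) (nat_lit 3500) (.f (nat_lit 525) (nat_lit 558) (nat_lit 4525) (.f (nat_lit 527) (nat_lit 561) (nat_lit 525) (.d (nat_lit 524) (nat_lit 556) (nat_lit 5548) (nat_lit 559) (nat_lit 524))))))))))
noncomputable def s64877 : Cert := .r (nat_lit 3773962425919908977862452135468732698381958698242870925278194629784688736236342895127315241480897468722450484857565453946667637722897042790495552676285756961810362138624) (.p (nat_lit 494) (.a (.f (nat_lit 558) (nat_lit 431) (nat_lit 6574) (.f (nat_lit 493) (nat_lit 465) (nat_lit 1485) (.d (nat_lit 461) (nat_lit 429) (nat_lit 7597) (nat_lit 492) (nat_lit 1484)))) (.a (.f (nat_lit 493) (nat_lit 465) (nat_lit 1485) (.d (nat_lit 492) (nat_lit 461) (nat_lit 1484) (nat_lit 491) (nat_lit 2507))) (.a (.f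 (nat_lit 465) (nat_lit 493) (nat_lit 1485) (.f (nat_lit 466) (nat_lit 495) (nat_lit 1486) (.d (nat_lit 498) (nat_lit 497) (nat_lit 462) (nat_lit 499) (nat_lit 463)))) (.a (.f (nat_lit 558) (nat_lit 431) (nat_lit 6574) (.f (nat_lit 461) (nat_lit 429) (nat_lit 7597) (.d (nat_lit 590) (nat_lit 493) (nat_lit 7629) (nat_lit 495) (nat_lit 6606)))) (.f (nat_lit 558) (nat_lit 431) (nat_lit 6574) (.f (nat_lit 559) (nat_lit 591) (nat_lit 4558) (.f (nat_lit 561) (nat_lit 525) (nat_lit 3597) (.d (nat_lit 589) (nat_lit 557) (nat_lit 5581) (nat_lit 590) (nat_lit 1581))))))))))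
noncomputable def s64881 : Cert := .r (nat_lit 3773962425919908977862452135468732698381958698242870925278194629784688736236342895127315241480897468722450484857565453946667637722897042790495552676285756961810362138624) (.p (nat_lit 494) (.a (.f (nat_lit 558) (nat_lit 431) (nat_lit 6574) (.f (nat_lit 493) (nat_lit 465) (nat_lit 1485) (.d (nat_lit 461) (nat_lit 429) (nat_lit 7597) (nat_lit 492) (nat_lit 1484)))) (.a (.f (nat_lit 493) (nat_lit 465) (nat_lit 1485) (.d (nat_lit 492) (nat_lit 461) (nat_lit 1484) (nat_lit 491) (nat_lit 2507))) (.a (.f (nat_lit 465) (nat_lit 493) (nat_lit 1485) (.f (nat_lit 466) (nat_lit 495) (nat_lit 1486) (.d (nat_lit 498) (nat_lit 497) (nat_lit 462) (nat_lit 499) (nat_lit 463)))) (.a (.f (nat_lit 558) (nat_lit 431) (nat_lit 6574) (.f (nat_lit 461) (nat_lit 429) (nat_lit 7597) (.d (nat_lit 590) (nat_lit 493) (nat_lit 7629) (nat_lit 495) (nat_lit 6606)))) (.f (nat_lit 558) (nat_lit 431) (nat_lit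 6574) (.f (nat_lit 590) (nat_lit 495) (nat_lit 6606) (.d (nat_lit 589) (nat_lit 557) (nat_lit 5581) (nat_lit 621) (nat_lit 5613)))))))))
noncomputable def s64885 : Cert := .r (nat_lit 3773962425919908977862452135468732698381958698242870925278194629784688736236342895127315241480897468722450484857565453946667637722897042790495552676285756961810362138624) (.p (nat_lit 461) (.a (.f (nat_lit 432) (nat_lit 433) (nat_lit 2477) (.f (nat_lit 431) (nat_lit 460) (nat_lit 2476) (.f (nat_lit 527) (nat_lit 495) (nat_lit 4527) (.f (nat_lit 429) (nat_lit 428) (nat_lit 3500) (.f (nat_lit 525) (nat_lit 561) (nat_lit 525) (.d (nat_lit 493) (nat_lit 492) (nat_lit 1484) (nat_lit 558) (nat_lit 4525))))))) (.a (.f (nat_lit 493) (nat_lit 492) (nat_lit 1484) (.f (nat_lit 494) (nat_lit 465) (nat_lit 1485) (.d (nat_lit 429) (nat_lit 397) (nat_lit 4493) (nat_lit 558) (nat_lit 7597)))) (.a (.f (nat_lit 493) (nat_lit 492) (nat_lit 1484) (.f (nat_lit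 494) (nat_lit 465) (nat_lit 1485) (.d (nat_lit 558) (nat_lit 431) (nat_lit 6574) (nat_lit 590) (nat_lit 7629)))) (.a (.f (nat_lit 429) (nat_lit 428) (nat_lit 3500) (.f (nat_lit 494) (nat_lit 558) (nat_lit 7597) (.d (nat_lit 493) (nat_lit 397) (nat_lit 4493) (nat_lit 465) (nat_lit 1485)))) (.a (.f (nat_lit 433) (nat_lit 432) (nat_lit 2477) (.f (nat_lit 465) (nat_lit 434) (nat_lit 2478) (.f (nat_lit 498) (nat_lit 497) (nat_lit 462) (.f (nat_lit 466) (nat_lit 499) (nat_lit 463) (.f (nat_lit 494) (nat_lit 495) (nat_lit 1486) (.d (nat_lit 429) (nat_lit 428) (nat_lit 3500) (nat_lit 558) (nat_lit 7597))))))) (.f (nat_lit 493) (nat_lit 492) (nat_lit 1484) (.f (nat_lit 494) (nat_lit 465) (nat_lit 1485) (.d (nat_lit 429) (nat_lit 397) (nat_lit 4493) (nat_lit 428) (nat_lit 3500))))))))))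
noncomputable def s64887 : Cert := .r (nat_lit 3773962425919908977862452135444915647064240251653350682741320497202988616129340856928011370634146280529550661706012825596879033206601976482501422557759695135643917090816) (.p (nat_lit 463) (.a (.p (nat_lit 494) (.a (.f (nat_lit 558) (nat_lit 431) (nat_lit 6574) (.f (nat_lit 493) (nat_lit 465) (nat_lit 1485) (.d (nat_lit 461) (nat_lit 429) (nat_lit 7597) (nat_lit 492) (nat_lit 1484)))) (.a (.f (nat_lit 493) (nat_lit 465) (nat_lit 1485) (.d (nat_lit 492) (nat_lit 461) (nat_lit 1484) (nat_lit 491) (nat_lit 2507))) (.f (nat_lit 558) (nat_lit 431) (nat_lit 6574) (.f (nat_lit 559) (nat_lit 591) (nat_lit 4558) (.f (nat_lit 525) (nat_lit 561) (nat_lit 3597) (.d (nat_lit 557) (nat_lit 524) (nat_lit 3596) (nat_lit 589) (nat_lit 5581)))))))) (.a (.p (nat_lit 494) (.a (.f (nat_lit 493) (nat_lit 465) (nat_lit 1485) (.d (nat_lit 492) (nat_lit 461) (nat_lit 1484) (nat_lit 491) (nat_lit 2507)))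 (.f (nat_lit 558) (nat_lit 431) (nat_lit 6574) (.f (nat_lit 559) (nat_lit 591) (nat_lit 4558) (.f (nat_lit 525) (nat_lit 561) (nat_lit 3597) (.d (nat_lit 557) (nat_lit 524) (nat_lit 3596) (nat_lit 589) (nat_lit 5581))))))) (.a (.p (nat_lit 461) (.a (.f (nat_lit 493) (nat_lit 492) (nat_lit 1484) (.f (nat_lit 494) (nat_lit 465) (nat_lit 1485) (.d (nat_lit 429) (nat_lit 397) (nat_lit 4493) (nat_lit 428) (nat_lit 3500)))) (.a (.f (nat_lit 493) (nat_lit 492) (nat_lit 1484) (.f (nat_lit 494) (nat_lit 465) (nat_lit 1485) (.d (nat_lit 429) (nat_lit 428) (nat_lit 3500) (nat_lit 558) (nat_lit 7597)))) (.a (.f (nat_lit 493) (nat_lit 492) (nat_lit 1484) (.f (nat_lit 494) (nat_lit 465) (nat_lit 1485) (.d (nat_lit 429) (nat_lit 397) (nat_lit 4493) (nat_lit 558) (nat_lit 7597)))) (.a (.f (nat_lit 493) (nat_lit 492) (nat_lit 1484) (.f (nat_lit 494) (nat_lit 465) (nat_lit 1485) (.f (nat_lit 558) (nat_lit 590) (nat_lit 7629) (.f (nat_lit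 559) (nat_lit 591) (nat_lit 4558) (.f (nat_lit 525) (nat_lit 561) (nat_lit 3597) (.d (nat_lit 557) (nat_lit 524) (nat_lit 3596) (nat_lit 589) (nat_lit 5581))))))) (.a (.f (nat_lit 493) (nat_lit 492) (nat_lit 1484) (.f (nat_lit 429) (nat_lit 428) (nat_lit 3500) (.d (nat_lit 558) (nat_lit 494) (nat_lit 7597) (nat_lit 525) (nat_lit 4525)))) (.a (.f (nat_lit 429) (nat_lit 428) (nat_lit 3500) (.f (nat_lit 494) (nat_lit 558) (nat_lit 7597) (.d (nat_lit 493) (nat_lit 397) (nat_lit 4493) (nat_lit 465) (nat_lit 1485)))) (.a (.f (nat_lit 433) (nat_lit 432) (nat_lit 2477) (.f (nat_lit 465) (nat_lit 434) (nat_lit 2478) (.f (nat_lit 498) (nat_lit 497) (nat_lit 462) (.f (nat_lit 466) (nat_lit 499) (nat_lit 463) (.f (nat_lit 494) (nat_lit 495) (nat_lit 1486) (.d (nat_lit 429) (nat_lit 428) (nat_lit 3500) (nat_lit 558) (nat_lit 7597))))))) (.f (nat_lit 492) (nat_lit 493) (nat_lit 1484) (.f (nat_lit 460) (nat_lit 491) (nat_lit 1483) (.d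 (nat_lit 428) (nat_lit 427) (nat_lit 3499) (nat_lit 429) (nat_lit 3500)))))))))))) (.a (.p (nat_lit 494) (.a (.f (nat_lit 558) (nat_lit 431) (nat_lit 6574) (.f (nat_lit 559) (nat_lit 591) (nat_lit 4558) (.f (nat_lit 525) (nat_lit 561) (nat_lit 3597) (.d (nat_lit 557) (nat_lit 524) (nat_lit 3596) (nat_lit 589) (nat_lit 5581))))) (.f (nat_lit 465) (nat_lit 493) (nat_lit 1485) (.f (nat_lit 466) (nat_lit 495) (nat_lit 1486) (.d (nat_lit 498) (nat_lit 497) (nat_lit 462) (nat_lit 499) (nat_lit 463)))))) (.a (.p (nat_lit 461) (.a (.f (nat_lit 432) (nat_lit 433) (nat_lit 2477) (.f (nat_lit 431) (nat_lit 460) (nat_lit 2476) (.f (nat_lit 527) (nat_lit 495) (nat_lit 4527) (.f (nat_lit 429) (nat_lit 428) (nat_lit 3500) (.f (nat_lit 525) (nat_lit 561) (nat_lit 525) (.d (nat_lit 493) (nat_lit 492) (nat_lit 1484) (nat_lit 558) (nat_lit 4525))))))) (.a (.f (nat_lit 432) (nat_lit 433) (nat_lit 2477) (.f (nat_lit 431) (nat_lit 460) (nat_lit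 2476) (.f (nat_lit 527) (nat_lit 495) (nat_lit 4527) (.f (nat_lit 525) (nat_lit 561) (nat_lit 525) (.f (nat_lit 524) (nat_lit 559) (nat_lit 524) (.d (nat_lit 556) (nat_lit 555) (nat_lit 1547) (nat_lit 557) (nat_lit 1548))))))) (.a (.f (nat_lit 493) (nat_lit 492) (nat_lit 1484) (.f (nat_lit 429) (nat_lit 428) (nat_lit 3500) (.d (nat_lit 558) (nat_lit 494) (nat_lit 7597) (nat_lit 525) (nat_lit 4525)))) (.f (nat_lit 492) (nat_lit 493) (nat_lit 1484) (.f (nat_lit 460) (nat_lit 491) (nat_lit 1483) (.d (nat_lit 428) (nat_lit 427) (nat_lit 3499) (nat_lit 429) (nat_lit 3500)))))))) (.a s64866 (.a s64872 (.a s64877 (.a s64881 (.a s64885 (.p (nat_lit 461) (.a (.f (nat_lit 432) (nat_lit 433) (nat_lit 2477) (.f (nat_lit 431) (nat_lit 460) (nat_lit 2476) (.f (nat_lit 527) (nat_lit 495) (nat_lit 4527) (.f (nat_lit 525) (nat_lit 561) (nat_lit 525) (.f (nat_lit 524) (nat_lit 559) (nat_lit 524) (.d (nat_lit 556) (nat_lit 555) (nat_lit 1547)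 (nat_lit 557) (nat_lit 1548))))))) (.f (nat_lit 493) (nat_lit 492) (nat_lit 1484) (.f (nat_lit 494) (nat_lit 465) (nat_lit 1485) (.d (nat_lit 429) (nat_lit 397) (nat_lit 4493) (nat_lit 428) (nat_lit 3500)))))))))))))))))
noncomputable def s64896 : Cert := .r (nat_lit 3773962425919908977862452135444915647064240251653350682741320497202988616129340856928011370634146280529550661706012825596879033206601976482501422557759695135643917090816) (.p (nat_lit 494) (.a (.p (nat_lit 527) (.a (.f (nat_lit 559) (nat_lit 430) (nat_lit 4526) (.d (nat_lit 561) (nat_lit 525) (nat_lit 525) (nat_lit 562) (nat_lit 3598))) (.a (.f (nat_lit 525) (nat_lit 561) (nat_lit 525) (.f (nat_lit 493) (nat_lit 492) (nat_lit 3564) (.d (nat_lit 557) (nat_lit 556) (nat_lit 1548) (nat_lit 589) (nat_lit 6605)))) (.f (nat_lit 559) (nat_lit 430) (nat_lit 4526) (.d (nat_lit 591) (nat_lit 495) (nat_lit 7630) (nat_lit 558) (nat_lit 4558)))))) (.a (.p (nat_lit 558)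 (.a (.f (nat_lit 559) (nat_lit 591) (nat_lit 4558) (.f (nat_lit 525) (nat_lit 561) (nat_lit 3597) (.d (nat_lit 557) (nat_lit 524) (nat_lit 3596) (nat_lit 589) (nat_lit 5581)))) (.a (.f (nat_lit 559) (nat_lit 591) (nat_lit 4558) (.f (nat_lit 561) (nat_lit 525) (nat_lit 3597) (.d (nat_lit 589) (nat_lit 557) (nat_lit 5581) (nat_lit 590) (nat_lit 1581)))) (.f (nat_lit 463) (nat_lit 431) (nat_lit 6574) (.f (nat_lit 495) (nat_lit 590) (nat_lit 6606) (.d (nat_lit 493) (nat_lit 465) (nat_lit 1485) (nat_lit 492) (nat_lit 2508))))))) (.a s64560 (.a (.p (nat_lit 463) (.a (.f (nat_lit 465) (nat_lit 493) (nat_lit 1485) (.f (nat_lit 430) (nat_lit 429) (nat_lit 3501) (.f (nat_lit 495) (nat_lit 466) (nat_lit 1486) (.d (nat_lit 398) (nat_lit 366) (nat_lit 4462) (nat_lit 527) (nat_lit 4494))))) (.a (.f (nat_lit 431) (nat_lit 558) (nat_lit 6574) (.d (nat_lit 399) (nat_lit 367) (nat_lit 5486) (nat_lit 430) (nat_lit 6542))) (.f (nat_lit 465)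 (nat_lit 493) (nat_lit 1485) (.f (nat_lit 466) (nat_lit 495) (nat_lit 1486) (.d (nat_lit 498) (nat_lit 497) (nat_lit 462) (nat_lit 499) (nat_lit 463))))))) (.p (nat_lit 430) (.a (.f (nat_lit 527) (nat_lit 559) (nat_lit 4526) (.d (nat_lit 525) (nat_lit 557) (nat_lit 5549) (nat_lit 561) (nat_lit 525))) (.a (.f (nat_lit 527) (nat_lit 559) (nat_lit 4526) (.f (nat_lit 398) (nat_lit 495) (nat_lit 4494) (.d (nat_lit 399) (nat_lit 367) (nat_lit 6510) (nat_lit 431) (nat_lit 6542)))) (.f (nat_lit 525) (nat_lit 557) (nat_lit 5549) (.f (nat_lit 398) (nat_lit 493) (nat_lit 5517) (.d (nat_lit 399) (nat_lit 367) (nat_lit 6510) (nat_lit 431) (nat_lit 6542))))))))))))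
noncomputable def s64907 : Cert := .r (nat_lit 3773962425919908977913598863693292863783196340666281919494705529172411503465017284554513461202969320449601756898605078052361637646095102592020442191289154402102175334400) (.p (nat_lit 558) (.a (.f (nat_lit 559) (nat_lit 591) (nat_lit 4558) (.f (nat_lit 527) (nat_lit 430) (nat_lit 4526) (.d (nat_lit 557) (nat_lit 556) (nat_lit 2572) (nat_lit 589) (nat_lit 5581)))) (.a (.f (nat_lit 461) (nat_lit 429) (nat_lit 7597) (.f (nat_lit 590) (nat_lit 493) (nat_lit 7629) (.d (nat_lit 589) (nat_lit 557) (nat_lit 5581) (nat_lit 621) (nat_lit 5613)))) (.a (.f (nat_lit 559) (nat_lit 591) (nat_lit 4558) (.f (nat_lit 527) (nat_lit 430) (nat_lit 4526) (.f (nat_lit 561) (nat_lit 562) (nat_lit 3598) (.f (nat_lit 590) (nat_lit 589) (nat_lit 1581) (.d (nat_lit 461) (nat_lit 429) (nat_lit 7597) (nat_lit 493) (nat_lit 7629)))))) (.f (nat_lit 559) (nat_lit 591) (nat_lit 4558) (.f (nat_lit 527) (nat_lit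 430) (nat_lit 4526) (.f (nat_lit 461) (nat_lit 429) (nat_lit 7597) (.f (nat_lit 590) (nat_lit 493) (nat_lit 7629) (.d (nat_lit 622) (nat_lit 495) (nat_lit 6638) (nat_lit 654) (nat_lit 6670))))))))))
noncomputable def s64915 : Cert := .r (nat_lit 3773962425919908977913598863693292863783196340666281919494705529172411503465017284554513461202969320449601756898605078052361637646095102592020442191289154402102175334400) (.p (nat_lit 527) (.a (.f (nat_lit 559) (nat_lit 430) (nat_lit 4526) (.d (nat_lit 561) (nat_lit 525) (nat_lit 525) (nat_lit 562) (nat_lit 3598))) (.a (.f (nat_lit 525) (nat_lit 561) (nat_lit 525) (.f (nat_lit 493) (nat_lit 492) (nat_lit 3564) (.f (nat_lit 524) (nat_lit 559) (nat_lit 524) (.d (nat_lit 523) (nat_lit 495) (nat_lit 2539) (nat_lit 522) (nat_lit 2538))))) (.a (.f (nat_lit 559) (nat_lit 430) (nat_lit 4526) (.d (nat_lit 591) (nat_lit 495) (nat_lit 7630) (nat_lit 558) (nat_lit 4558))) (.f (nat_lit 525)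 (nat_lit 561) (nat_lit 525) (.f (nat_lit 493) (nat_lit 492) (nat_lit 3564) (.f (nat_lit 430) (nat_lit 398) (nat_lit 5517) (.f (nat_lit 429) (nat_lit 397) (nat_lit 7565) (.f (nat_lit 461) (nat_lit 558) (nat_lit 4525) (.f (nat_lit 431) (nat_lit 399) (nat_lit 6542) (.d (nat_lit 432) (nat_lit 460) (nat_lit 1452) (nat_lit 465) (nat_lit 429))))))))))))
noncomputable def s64927 : Cert := .r (nat_lit 3773962425919908977913598863693292863783196340666281919494705529172411503465017284554513461202969320449601756898605078052361637646095102592020442191289154402102175334400) (.p (nat_lit 527) (.a (.f (nat_lit 559) (nat_lit 430) (nat_lit 4526) (.d (nat_lit 561) (nat_lit 525) (nat_lit 525) (nat_lit 562) (nat_lit 3598))) (.a (.f (nat_lit 525) (nat_lit 561) (nat_lit 525) (.f (nat_lit 493) (nat_lit 492) (nat_lit 3564) (.f (nat_lit 524) (nat_lit 559) (nat_lit 524) (.d (nat_lit 523) (nat_lit 495) (nat_lit 2539) (nat_lit 522) (nat_lit 2538)))))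 (.a (.f (nat_lit 559) (nat_lit 430) (nat_lit 4526) (.d (nat_lit 591) (nat_lit 495) (nat_lit 7630) (nat_lit 558) (nat_lit 4558))) (.f (nat_lit 525) (nat_lit 561) (nat_lit 525) (.f (nat_lit 493) (nat_lit 492) (nat_lit 3564) (.f (nat_lit 430) (nat_lit 398) (nat_lit 5517) (.f (nat_lit 429) (nat_lit 397) (nat_lit 7565) (.f (nat_lit 461) (nat_lit 558) (nat_lit 4525) (.d (nat_lit 428) (nat_lit 396) (nat_lit 7564) (nat_lit 463) (nat_lit 3500)))))))))))
noncomputable def s64938 : Cert := .r (nat_lit 3773962425919908977862452135468732698381958698242870925278194629784688736236342895127315241480897468722450484857565453946667637722897042790495552676285756961810362138624) (.p (nat_lit 465) (.a (.f (nat_lit 430) (nat_lit 429) (nat_lit 3501) (.f (nat_lit 498) (nat_lit 497) (nat_lit 462) (.f (nat_lit 466) (nat_lit 499) (nat_lit 463) (.f (nat_lit 494) (nat_lit 495) (nat_lit 1486) (.f (nat_lit 527) (nat_lit 559) (nat_lit 4526) (.d (nat_lit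 525) (nat_lit 557) (nat_lit 5549) (nat_lit 561) (nat_lit 525))))))) (.a (.f (nat_lit 433) (nat_lit 434) (nat_lit 2478) (.f (nat_lit 498) (nat_lit 497) (nat_lit 462) (.f (nat_lit 466) (nat_lit 499) (nat_lit 463) (.f (nat_lit 432) (nat_lit 461) (nat_lit 2477) (.f (nat_lit 495) (nat_lit 494) (nat_lit 1486) (.f (nat_lit 527) (nat_lit 559) (nat_lit 6575) (.f (nat_lit 562) (nat_lit 530) (nat_lit 7601) (.d (nat_lit 561) (nat_lit 525) (nat_lit 525) (nat_lit 563) (nat_lit 3599))))))))) (.f (nat_lit 433) (nat_lit 434) (nat_lit 2478) (.f (nat_lit 461) (nat_lit 432) (nat_lit 2477) (.d (nat_lit 429) (nat_lit 428) (nat_lit 3500) (nat_lit 430) (nat_lit 3501)))))))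
noncomputable def s64969 : Cert := .r (nat_lit 3773962425919908977862452135468732698381958698242870925278194629784688736236342895127315241480897468722450484857565453946667637722897042790495552676285756961810362138624) (.p (nat_lit 465) (.a (.f (nat_lit 433) (nat_lit 434) (nat_lit 2478) (.f (nat_lit 461) (nat_lit 432) (nat_lit 2477) (.d (nat_lit 429) (nat_lit 428) (nat_lit 3500) (nat_lit 430) (nat_lit 3501)))) (.a (.f (nat_lit 430) (nat_lit 429) (nat_lit 3501) (.f (nat_lit 431) (nat_lit 466) (nat_lit 3502) (.f (nat_lit 433) (nat_lit 434) (nat_lit 2478) (.f (nat_lit 432) (nat_lit 461) (nat_lit 2477) (.f (nat_lit 401) (nat_lit 402) (nat_lit 2446) (.f (nat_lit 497) (nat_lit 498) (nat_lit 462) (.f (nat_lit 368) (nat_lit 400) (nat_lit 4464) (.d (nat_lit 369) (nat_lit 336) (nat_lit 7504) (nat_lit 337) (nat_lit 5456))))))))) (.a (.f (nat_lit 433) (nat_lit 434) (nat_lit 2478) (.f (nat_lit 432) (nat_lit 461) (nat_lit 2477) (.f (nat_lit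 498) (nat_lit 497) (nat_lit 462) (.f (nat_lit 466) (nat_lit 499) (nat_lit 463) (.d (nat_lit 431) (nat_lit 430) (nat_lit 430) (nat_lit 467) (nat_lit 3503)))))) (.a (.f (nat_lit 433) (nat_lit 434) (nat_lit 2478) (.f (nat_lit 432) (nat_lit 461) (nat_lit 2477) (.f (nat_lit 498) (nat_lit 497) (nat_lit 462) (.f (nat_lit 466) (nat_lit 499) (nat_lit 463) (.d (nat_lit 467) (nat_lit 431) (nat_lit 3503) (nat_lit 468) (nat_lit 3504)))))) (.a (.f (nat_lit 430) (nat_lit 429) (nat_lit 3501) (.f (nat_lit 466) (nat_lit 431) (nat_lit 3502) (.d (nat_lit 434) (nat_lit 433) (nat_lit 2478) (nat_lit 435) (nat_lit 2479)))) (.f (nat_lit 430) (nat_lit 429) (nat_lit 3501) (.f (nat_lit 431) (nat_lit 466) (nat_lit 3502) (.f (nat_lit 527) (nat_lit 495) (nat_lit 4527) (.f (nat_lit 525) (nat_lit 561) (nat_lit 525) (.f (nat_lit 524) (nat_lit 559) (nat_lit 524) (.d (nat_lit 556) (nat_lit 555) (nat_lit 1547) (nat_lit 557) (nat_lit 1548)))))))))))))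
noncomputable def s64973 : Cert := .r (nat_lit 3773962425919908977862452135468732698381958698242870925278194629784688736236342895127315241480897468722450484857565453946667637722897042790495552676285756961810362138624) (.p (nat_lit 465) (.a (.f (nat_lit 433) (nat_lit 434) (nat_lit 2478) (.f (nat_lit 461) (nat_lit 432) (nat_lit 2477) (.d (nat_lit 429) (nat_lit 428) (nat_lit 3500) (nat_lit 430) (nat_lit 3501)))) (.a (.f (nat_lit 430) (nat_lit 429) (nat_lit 3501) (.f (nat_lit 431) (nat_lit 466) (nat_lit 3502) (.f (nat_lit 433) (nat_lit 434) (nat_lit 2478) (.f (nat_lit 432) (nat_lit 461) (nat_lit 2477) (.f (nat_lit 401) (nat_lit 402) (nat_lit 2446) (.f (nat_lit 497) (nat_lit 498) (nat_lit 462) (.f (nat_lit 368) (nat_lit 400) (nat_lit 4464) (.d (nat_lit 369) (nat_lit 336) (nat_lit 7504) (nat_lit 337) (nat_lit 5456))))))))) (.a (.f (nat_lit 433) (nat_lit 434) (nat_lit 2478) (.f (nat_lit 432) (nat_lit 461) (nat_lit 2477) (.f (nat_lit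 498) (nat_lit 497) (nat_lit 462) (.f (nat_lit 466) (nat_lit 499) (nat_lit 463) (.d (nat_lit 431) (nat_lit 430) (nat_lit 430) (nat_lit 467) (nat_lit 3503)))))) (.a (.f (nat_lit 433) (nat_lit 434) (nat_lit 2478) (.f (nat_lit 432) (nat_lit 461) (nat_lit 2477) (.f (nat_lit 498) (nat_lit 497) (nat_lit 462) (.f (nat_lit 466) (nat_lit 499) (nat_lit 463) (.d (nat_lit 467) (nat_lit 431) (nat_lit 3503) (nat_lit 468) (nat_lit 3504)))))) (.a (.f (nat_lit 430) (nat_lit 429) (nat_lit 3501) (.f (nat_lit 466) (nat_lit 431) (nat_lit 3502) (.d (nat_lit 434) (nat_lit 433) (nat_lit 2478) (nat_lit 435) (nat_lit 2479)))) (.f (nat_lit 430) (nat_lit 429) (nat_lit 3501) (.f (nat_lit 431) (nat_lit 466) (nat_lit 3502) (.d (nat_lit 494) (nat_lit 399) (nat_lit 6542) (nat_lit 558) (nat_lit 6574))))))))))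
noncomputable def s64974 : Cert := .r (nat_lit 3773962425919908977862452135444915647064240251653350682741320497202988616129340856928011370634146280529550661706012825596879033206601976482501422557759695135643917090816) (.p (nat_lit 463) (.a s64751 (.a s64866 (.a s64938 (.a (.p (nat_lit 527) (.a (.f (nat_lit 495) (nat_lit 431) (nat_lit 4527) (.f (nat_lit 559) (nat_lit 430) (nat_lit 7598) (.d (nat_lit 525) (nat_lit 524) (nat_lit 524) (nat_lit 561) (nat_lit 525)))) (.a (.f (nat_lit 525) (nat_lit 561) (nat_lit 525) (.f (nat_lit 524) (nat_lit 559) (nat_lit 524) (.d (nat_lit 556) (nat_lit 555) (nat_lit 1547) (nat_lit 557) (nat_lit 1548)))) (.a (.f (nat_lit 525) (nat_lit 561) (nat_lit 525) (.f (nat_lit 557) (nat_lit 556) (nat_lit 1548) (.f (nat_lit 494) (nat_lit 430) (nat_lit 5549) (.d (nat_lit 558) (nat_lit 431) (nat_lit 6574) (nat_lit 589) (nat_lit 5581))))) (.f (nat_lit 495) (nat_lit 431) (nat_lit 4527) (.f (nat_lit 559) (nat_lit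 430) (nat_lit 7598) (.f (nat_lit 558) (nat_lit 590) (nat_lit 5582) (.f (nat_lit 494) (nat_lit 591) (nat_lit 4558) (.d (nat_lit 557) (nat_lit 556) (nat_lit 2572) (nat_lit 589) (nat_lit 5581)))))))))) (.a s64969 s64973))))))
noncomputable def s64979 : Cert := .r (nat_lit 3773962425919908977862452135468732698381958698242870925278194629784688736236342895127315241480897468722450484857565453946667637722897042790495552676285756961810362138624) (.p (nat_lit 527) (.a (.f (nat_lit 495) (nat_lit 431) (nat_lit 4527) (.d (nat_lit 559) (nat_lit 430) (nat_lit 7598) (nat_lit 432) (nat_lit 6575))) (.a (.f (nat_lit 495) (nat_lit 431) (nat_lit 4527) (.f (nat_lit 559) (nat_lit 432) (nat_lit 6575) (.d (nat_lit 525) (nat_lit 524) (nat_lit 524) (nat_lit 561) (nat_lit 525)))) (.a (.f (nat_lit 525) (nat_lit 561) (nat_lit 525) (.f (nat_lit 559) (nat_lit 524) (nat_lit 524) (.d (nat_lit 495) (nat_lit 430) (nat_lit 7598) (nat_lit 432) (nat_lit 6575))))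 (.a (.f (nat_lit 495) (nat_lit 431) (nat_lit 4527) (.f (nat_lit 559) (nat_lit 430) (nat_lit 7598) (.d (nat_lit 525) (nat_lit 524) (nat_lit 524) (nat_lit 561) (nat_lit 525)))) (.a (.f (nat_lit 525) (nat_lit 561) (nat_lit 525) (.f (nat_lit 524) (nat_lit 559) (nat_lit 524) (.d (nat_lit 556) (nat_lit 555) (nat_lit 1547) (nat_lit 557) (nat_lit 1548)))) (.f (nat_lit 525) (nat_lit 561) (nat_lit 525) (.f (nat_lit 492) (nat_lit 493) (nat_lit 3564) (.f (nat_lit 524) (nat_lit 491) (nat_lit 3563) (.d (nat_lit 556) (nat_lit 555) (nat_lit 1547) (nat_lit 557) (nat_lit 1548)))))))))))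
noncomputable def s64996 : Cert := .r (nat_lit 3773962425919908977862452135468732698381958698242870925278194629784688736236342895127315241480897468722450484857565453946667637722897042790495552676285756961810362138624) (.p (nat_lit 465) (.a (.f (nat_lit 433) (nat_lit 434) (nat_lit 2478) (.f (nat_lit 461) (nat_lit 432) (nat_lit 2477) (.d (nat_lit 429) (nat_lit 428) (nat_lit 3500) (nat_lit 430) (nat_lit 3501)))) (.a (.f (nat_lit 433) (nat_lit 434) (nat_lit 2478) (.f (nat_lit 461) (nat_lit 432) (nat_lit 2477) (.f (nat_lit 493) (nat_lit 492) (nat_lit 1484) (.f (nat_lit 430) (nat_lit 429) (nat_lit 3501) (.f (nat_lit 525) (nat_lit 557) (nat_lit 6573) (.f (nat_lit 527) (nat_lit 561) (nat_lit 525) (.d (nat_lit 559) (nat_lit 495) (nat_lit 7598) (nat_lit 524) (nat_lit 524)))))))) (.a (.f (nat_lit 434) (nat_lit 433) (nat_lit 2478) (.f (nat_lit 466) (nat_lit 435) (nat_lit 2479) (.d (nat_lit 498) (nat_lit 497) (nat_lit 462) (nat_lit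 499) (nat_lit 463)))) (.f (nat_lit 429) (nat_lit 430) (nat_lit 3501) (.f (nat_lit 461) (nat_lit 428) (nat_lit 3500) (.f (nat_lit 493) (nat_lit 492) (nat_lit 1484) (.f (nat_lit 525) (nat_lit 558) (nat_lit 4525) (.f (nat_lit 527) (nat_lit 561) (nat_lit 525) (.d (nat_lit 524) (nat_lit 556) (nat_lit 5548) (nat_lit 559) (nat_lit 524)))))))))))
noncomputable def s65005 : Cert := .r (nat_lit 3773962425919908977862452135468732698381958698242870925278194629784688736236342895127315241480897468722450484857565453946667637722897042790495552676285756961810362138624) (.p (nat_lit 527) (.a (.f (nat_lit 495) (nat_lit 431) (nat_lit 4527) (.f (nat_lit 559) (nat_lit 430) (nat_lit 7598) (.d (nat_lit 525) (nat_lit 524) (nat_lit 524) (nat_lit 561) (nat_lit 525)))) (.a (.f (nat_lit 525) (nat_lit 561) (nat_lit 525) (.f (nat_lit 524) (nat_lit 559) (nat_lit 524) (.d (nat_lit 556) (nat_lit 555) (nat_lit 1547) (nat_lit 557) (nat_lit 1548)))) (.a (.f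 (nat_lit 495) (nat_lit 431) (nat_lit 4527) (.f (nat_lit 559) (nat_lit 430) (nat_lit 7598) (.d (nat_lit 561) (nat_lit 525) (nat_lit 525) (nat_lit 562) (nat_lit 3598)))) (.a (.f (nat_lit 495) (nat_lit 431) (nat_lit 4527) (.f (nat_lit 430) (nat_lit 559) (nat_lit 7598) (.f (nat_lit 465) (nat_lit 429) (nat_lit 3501) (.f (nat_lit 434) (nat_lit 433) (nat_lit 2478) (.f (nat_lit 466) (nat_lit 435) (nat_lit 2479) (.d (nat_lit 498) (nat_lit 497) (nat_lit 462) (nat_lit 499) (nat_lit 463))))))) (.f (nat_lit 525) (nat_lit 561) (nat_lit 525) (.f (nat_lit 492) (nat_lit 493) (nat_lit 3564) (.f (nat_lit 524) (nat_lit 491) (nat_lit 3563) (.d (nat_lit 556) (nat_lit 555) (nat_lit 1547) (nat_lit 557) (nat_lit 1548))))))))))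
noncomputable def s65012 : Cert := .r (nat_lit 3773962425919908977862452135468732698381958698242870925278194629784688736236342895127315241480897468722450484857565453946667637722897042790495552676285756961810362138624) (.p (nat_lit 461) (.a (.f (nat_lit 429) (nat_lit 428) (nat_lit 3500) (.f (nat_lit 493) (nat_lit 492) (nat_lit 1484) (.f (nat_lit 525) (nat_lit 558) (nat_lit 4525) (.d (nat_lit 430) (nat_lit 398) (nat_lit 6541) (nat_lit 465) (nat_lit 3501))))) (.a (.f (nat_lit 429) (nat_lit 428) (nat_lit 3500) (.f (nat_lit 493) (nat_lit 492) (nat_lit 1484) (.f (nat_lit 525) (nat_lit 558) (nat_lit 4525) (.d (nat_lit 430) (nat_lit 465) (nat_lit 3501) (nat_lit 557) (nat_lit 6573))))) (.a (.f (nat_lit 432) (nat_lit 433) (nat_lit 2477) (.f (nat_lit 460) (nat_lit 431) (nat_lit 2476) (.d (nat_lit 492) (nat_lit 491) (nat_lit 1483) (nat_lit 493) (nat_lit 1484)))) (.f (nat_lit 429) (nat_lit 428) (nat_lit 3500) (.f (nat_lit 465) (nat_lit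 430) (nat_lit 3501) (.d (nat_lit 433) (nat_lit 432) (nat_lit 2477) (nat_lit 434) (nat_lit 2478))))))))
noncomputable def s65016 : Cert := .r (nat_lit 3773962425919908977862452135468732698381958698242870925278194629784688736236342895127315241480897468722450484857565453946667637722897042790495552676285756961810362138624) (.p (nat_lit 465) (.a (.f (nat_lit 433) (nat_lit 434) (nat_lit 2478) (.f (nat_lit 461) (nat_lit 432) (nat_lit 2477) (.d (nat_lit 429) (nat_lit 428) (nat_lit 3500) (nat_lit 430) (nat_lit 3501)))) (.a (.f (nat_lit 430) (nat_lit 429) (nat_lit 3501) (.f (nat_lit 431) (nat_lit 466) (nat_lit 3502) (.f (nat_lit 433) (nat_lit 434) (nat_lit 2478) (.f (nat_lit 432) (nat_lit 461) (nat_lit 2477) (.f (nat_lit 401) (nat_lit 402) (nat_lit 2446) (.f (nat_lit 497) (nat_lit 498) (nat_lit 462) (.f (nat_lit 368) (nat_lit 400) (nat_lit 4464) (.d (nat_lit 369) (nat_lit 336) (nat_lit 7504) (nat_lit 337) (nat_lit 5456))))))))) (.a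 (.f (nat_lit 433) (nat_lit 434) (nat_lit 2478) (.f (nat_lit 432) (nat_lit 461) (nat_lit 2477) (.f (nat_lit 498) (nat_lit 497) (nat_lit 462) (.f (nat_lit 466) (nat_lit 499) (nat_lit 463) (.d (nat_lit 431) (nat_lit 430) (nat_lit 430) (nat_lit 467) (nat_lit 3503)))))) (.a (.f (nat_lit 433) (nat_lit 434) (nat_lit 2478) (.f (nat_lit 432) (nat_lit 461) (nat_lit 2477) (.f (nat_lit 498) (nat_lit 497) (nat_lit 462) (.f (nat_lit 466) (nat_lit 499) (nat_lit 463) (.d (nat_lit 467) (nat_lit 431) (nat_lit 3503) (nat_lit 468) (nat_lit 3504)))))) (.a (.f (nat_lit 430) (nat_lit 429) (nat_lit 3501) (.f (nat_lit 466) (nat_lit 431) (nat_lit 3502) (.d (nat_lit 434) (nat_lit 433) (nat_lit 2478) (nat_lit 435) (nat_lit 2479)))) (.f (nat_lit 430) (nat_lit 429) (nat_lit 3501) (.f (nat_lit 466) (nat_lit 431) (nat_lit 3502) (.d (nat_lit 498) (nat_lit 497) (nat_lit 462) (nat_lit 499) (nat_lit 463))))))))))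
noncomputable def s65018 : Cert := .r (nat_lit 3773962425919908977862452135444915647064240251653350682741320497202988616129340856928011370634146280529550661706012825596879033206601976482501422557759695135643917090816) (.p (nat_lit 494) (.a s64543 (.a s64560 (.a (.p (nat_lit 558) (.a (.f (nat_lit 559) (nat_lit 591) (nat_lit 4558) (.f (nat_lit 525) (nat_lit 561) (nat_lit 3597) (.d (nat_lit 557) (nat_lit 524) (nat_lit 3596) (nat_lit 589) (nat_lit 5581)))) (.f (nat_lit 461) (nat_lit 429) (nat_lit 7597) (.f (nat_lit 493) (nat_lit 590) (nat_lit 7629) (.d (nat_lit 463) (nat_lit 465) (nat_lit 1485) (nat_lit 492) (nat_lit 1484)))))) (.a (.p (nat_lit 558) (.a (.f (nat_lit 559) (nat_lit 591) (nat_lit 4558) (.f (nat_lit 527) (nat_lit 430) (nat_lit 4526) (.d (nat_lit 557) (nat_lit 556) (nat_lit 2572) (nat_lit 589) (nat_lit 5581)))) (.f (nat_lit 461) (nat_lit 429) (nat_lit 7597) (.f (nat_lit 493) (nat_lit 590) (nat_lit 7629) (.d (nat_lit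 463) (nat_lit 465) (nat_lit 1485) (nat_lit 492) (nat_lit 1484)))))) (.a (.p (nat_lit 463) (.a (.f (nat_lit 558) (nat_lit 431) (nat_lit 6574) (.f (nat_lit 559) (nat_lit 591) (nat_lit 4558) (.f (nat_lit 527) (nat_lit 430) (nat_lit 4526) (.d (nat_lit 561) (nat_lit 525) (nat_lit 3597) (nat_lit 562) (nat_lit 3598))))) (.a (.f (nat_lit 558) (nat_lit 431) (nat_lit 6574) (.f (nat_lit 493) (nat_lit 465) (nat_lit 1485) (.d (nat_lit 461) (nat_lit 429) (nat_lit 7597) (nat_lit 492) (nat_lit 1484)))) (.f (nat_lit 493) (nat_lit 465) (nat_lit 1485) (.d (nat_lit 492) (nat_lit 461) (nat_lit 1484) (nat_lit 491) (nat_lit 2507)))))) (.a (.p (nat_lit 430) (.a (.f (nat_lit 527) (nat_lit 559) (nat_lit 4526) (.d (nat_lit 525) (nat_lit 557) (nat_lit 5549) (nat_lit 561) (nat_lit 525))) (.f (nat_lit 429) (nat_lit 397) (nat_lit 7565) (.f (nat_lit 463) (nat_lit 465) (nat_lit 3501) (.d (nat_lit 428) (nat_lit 427) (nat_lit 427) (nat_lit 461) (nat_lit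 3500)))))) s64588)))))))
noncomputable def s65027 : Cert := .r (nat_lit 3773962425919908977862452135468732698381958698242870925278194629784688736236342895127315241480897468722450484857565453946667637722897042790495552676285756961810362138624) (.p (nat_lit 461) (.a (.f (nat_lit 432) (nat_lit 433) (nat_lit 2477) (.f (nat_lit 431) (nat_lit 460) (nat_lit 2476) (.f (nat_lit 527) (nat_lit 495) (nat_lit 4527) (.f (nat_lit 429) (nat_lit 428) (nat_lit 3500) (.f (nat_lit 525) (nat_lit 561) (nat_lit 525) (.d (nat_lit 493) (nat_lit 492) (nat_lit 1484) (nat_lit 558) (nat_lit 4525))))))) (.a (.f (nat_lit 432) (nat_lit 433) (nat_lit 2477) (.f (nat_lit 431) (nat_lit 460) (nat_lit 2476) (.f (nat_lit 527) (nat_lit 495) (nat_lit 4527) (.f (nat_lit 525) (nat_lit 561) (nat_lit 525) (.f (nat_lit 493) (nat_lit 492) (nat_lit 1484) (.d (nat_lit 557) (nat_lit 430) (nat_lit 6573) (nat_lit 556) (nat_lit 1548))))))) (.a (.f (nat_lit 493) (nat_lit 492)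 (nat_lit 1484) (.f (nat_lit 429) (nat_lit 428) (nat_lit 3500) (.d (nat_lit 558) (nat_lit 494) (nat_lit 7597) (nat_lit 525) (nat_lit 4525)))) (.a (.f (nat_lit 429) (nat_lit 428) (nat_lit 3500) (.f (nat_lit 494) (nat_lit 558) (nat_lit 7597) (.d (nat_lit 397) (nat_lit 430) (nat_lit 7565) (nat_lit 493) (nat_lit 4493)))) (.f (nat_lit 432) (nat_lit 433) (nat_lit 2477) (.f (nat_lit 431) (nat_lit 460) (nat_lit 2476) (.f (nat_lit 495) (nat_lit 527) (nat_lit 4527) (.d (nat_lit 494) (nat_lit 399) (nat_lit 5518) (nat_lit 558) (nat_lit 6574))))))))))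
noncomputable def s65028 : Cert := .r (nat_lit 3773962425919908977862452135444915647064240251653350682741320497202988616129340856928011370634146280529550661706012825596879033206601976482501422557759695135643917090816) (.p (nat_lit 463) (.a (.p (nat_lit 494) (.a (.f (nat_lit 558) (nat_lit 431) (nat_lit 6574) (.f (nat_lit 559) (nat_lit 591) (nat_lit 4558) (.f (nat_lit 527) (nat_lit 430) (nat_lit 4526) (.d (nat_lit 561) (nat_lit 525) (nat_lit 3597) (nat_lit 562) (nat_lit 3598))))) (.a (.f (nat_lit 558) (nat_lit 431) (nat_lit 6574) (.f (nat_lit 493) (nat_lit 465) (nat_lit 1485) (.d (nat_lit 461) (nat_lit 429) (nat_lit 7597) (nat_lit 492) (nat_lit 1484)))) (.f (nat_lit 493) (nat_lit 465) (nat_lit 1485) (.d (nat_lit 492) (nat_lit 461) (nat_lit 1484) (nat_lit 491) (nat_lit 2507)))))) (.a (.p (nat_lit 494) (.a (.f (nat_lit 558) (nat_lit 431) (nat_lit 6574) (.f (nat_lit 559) (nat_lit 591) (nat_lit 4558) (.f (nat_lit 527) (nat_lit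 430) (nat_lit 4526) (.d (nat_lit 561) (nat_lit 525) (nat_lit 3597) (nat_lit 562) (nat_lit 3598))))) (.f (nat_lit 493) (nat_lit 465) (nat_lit 1485) (.d (nat_lit 492) (nat_lit 461) (nat_lit 1484) (nat_lit 491) (nat_lit 2507))))) (.a s64877 (.a s64734 (.a (.p (nat_lit 494) (.a (.f (nat_lit 558) (nat_lit 431) (nat_lit 6574) (.f (nat_lit 559) (nat_lit 591) (nat_lit 4558) (.f (nat_lit 527) (nat_lit 430) (nat_lit 4526) (.d (nat_lit 561) (nat_lit 525) (nat_lit 3597) (nat_lit 562) (nat_lit 3598))))) (.f (nat_lit 465) (nat_lit 493) (nat_lit 1485) (.f (nat_lit 466) (nat_lit 495) (nat_lit 1486) (.d (nat_lit 498) (nat_lit 497) (nat_lit 462) (nat_lit 499) (nat_lit 463)))))) (.a s65027 (.a s64938 (.a s65012 s64790)))))))))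
noncomputable def s65033 : Cert := .r (nat_lit 3773962425919908977862452135468732698381958698242870925278194629784688736236342895127315241480897468722450484857565453946667637722897042790495552676285756961810362138624) (.p (nat_lit 465) (.a (.f (nat_lit 494) (nat_lit 493) (nat_lit 1485) (.f (nat_lit 430) (nat_lit 429) (nat_lit 3501) (.f (nat_lit 495) (nat_lit 466) (nat_lit 1486) (.d (nat_lit 398) (nat_lit 366) (nat_lit 4462) (nat_lit 527) (nat_lit 4494))))) (.a (.f (nat_lit 494) (nat_lit 493) (nat_lit 1485) (.f (nat_lit 430) (nat_lit 429) (nat_lit 3501) (.f (nat_lit 527) (nat_lit 559) (nat_lit 4526) (.d (nat_lit 495) (nat_lit 398) (nat_lit 4494) (nat_lit 466) (nat_lit 1486))))) (.a (.f (nat_lit 494) (nat_lit 493) (nat_lit 1485) (.f (nat_lit 495) (nat_lit 466) (nat_lit 1486) (.f (nat_lit 558) (nat_lit 590) (nat_lit 6606) (.f (nat_lit 559) (nat_lit 591) (nat_lit 4558) (.d (nat_lit 527) (nat_lit 430) (nat_lit 4526) (nat_lit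 432) (nat_lit 6575)))))) (.a (.f (nat_lit 494) (nat_lit 493) (nat_lit 1485) (.f (nat_lit 466) (nat_lit 495) (nat_lit 1486) (.d (nat_lit 498) (nat_lit 497) (nat_lit 462) (nat_lit 499) (nat_lit 463)))) (.a (.f (nat_lit 494) (nat_lit 493) (nat_lit 1485) (.f (nat_lit 430) (nat_lit 429) (nat_lit 3501) (.d (nat_lit 431) (nat_lit 399) (nat_lit 6542) (nat_lit 558) (nat_lit 6574)))) (.f (nat_lit 430) (nat_lit 429) (nat_lit 3501) (.f (nat_lit 466) (nat_lit 431) (nat_lit 3502) (.d (nat_lit 434) (nat_lit 433) (nat_lit 2478) (nat_lit 435) (nat_lit 2479))))))))))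
noncomputable def s65034 : Cert := .r (nat_lit 3773962425919908977862452135468732698381958698242870925278194629784688736236342895127315241480897468722450484857565453946667637722897042790495552676285756961810362138624) (.p (nat_lit 461) (.a (.f (nat_lit 492) (nat_lit 493) (nat_lit 1484) (.f (nat_lit 460) (nat_lit 491) (nat_lit 1483) (.d (nat_lit 428) (nat_lit 427) (nat_lit 3499) (nat_lit 429) (nat_lit 3500)))) (.a (.f (nat_lit 432) (nat_lit 433) (nat_lit 2477) (.f (nat_lit 460) (nat_lit 431) (nat_lit 2476) (.d (nat_lit 492) (nat_lit 491) (nat_lit 1483) (nat_lit 493) (nat_lit 1484)))) (.a (.f (nat_lit 429) (nat_lit 428) (nat_lit 3500) (.f (nat_lit 494) (nat_lit 558) (nat_lit 7597) (.d (nat_lit 397) (nat_lit 430) (nat_lit 7565) (nat_lit 493) (nat_lit 4493)))) (.f (nat_lit 432) (nat_lit 433) (nat_lit 2477) (.f (nat_lit 431) (nat_lit 460) (nat_lit 2476) (.f (nat_lit 495) (nat_lit 527) (nat_lit 4527) (.d (nat_lit 494) (nat_lit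 399) (nat_lit 5518) (nat_lit 558) (nat_lit 6574)))))))))
noncomputable def s65041 : Cert := .r (nat_lit 3773962425919908977862452135468732698381958698242870925278194629784688736236342895127315241480897468722450484857565453946667637722897042790495552676285756961810362138624) (.p (nat_lit 461) (.a (.f (nat_lit 493) (nat_lit 492) (nat_lit 1484) (.f (nat_lit 429) (nat_lit 428) (nat_lit 3500) (.d (nat_lit 558) (nat_lit 494) (nat_lit 7597) (nat_lit 525) (nat_lit 4525)))) (.a (.f (nat_lit 432) (nat_lit 433) (nat_lit 2477) (.f (nat_lit 460) (nat_lit 431) (nat_lit 2476) (.d (nat_lit 492) (nat_lit 491) (nat_lit 1483) (nat_lit 493) (nat_lit 1484)))) (.a (.f (nat_lit 429) (nat_lit 428) (nat_lit 3500) (.f (nat_lit 494) (nat_lit 558) (nat_lit 7597) (.d (nat_lit 397) (nat_lit 430) (nat_lit 7565) (nat_lit 493) (nat_lit 4493)))) (.f (nat_lit 429) (nat_lit 428) (nat_lit 3500) (.f (nat_lit 494) (nat_lit 558) (nat_lit 7597) (.f (nat_lit 430)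 (nat_lit 397) (nat_lit 7565) (.f (nat_lit 431) (nat_lit 399) (nat_lit 6542) (.d (nat_lit 432) (nat_lit 433) (nat_lit 2477) (nat_lit 460) (nat_lit 2476))))))))))
noncomputable def s65042 : Cert := .r (nat_lit 3773962425919908977862452135444915647064240251653350682741320497202988616129340856928011370634146280529550661706012825596879033206601976482501422557759695135643917090816) (.p (nat_lit 463) (.a (.p (nat_lit 494) (.a (.f (nat_lit 558) (nat_lit 431) (nat_lit 6574) (.f (nat_lit 493) (nat_lit 465) (nat_lit 1485) (.d (nat_lit 461) (nat_lit 429) (nat_lit 7597) (nat_lit 492) (nat_lit 1484)))) (.a (.f (nat_lit 493) (nat_lit 465) (nat_lit 1485) (.d (nat_lit 492) (nat_lit 461) (nat_lit 1484) (nat_lit 491) (nat_lit 2507))) (.f (nat_lit 558) (nat_lit 431) (nat_lit 6574) (.f (nat_lit 559) (nat_lit 591) (nat_lit 4558) (.f (nat_lit 525) (nat_lit 561) (nat_lit 3597) (.d (nat_lit 557) (nat_lit 524) (nat_lit 3596) (nat_lit 589) (nat_lit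 5581)))))))) (.a (.p (nat_lit 494) (.a (.f (nat_lit 493) (nat_lit 465) (nat_lit 1485) (.d (nat_lit 492) (nat_lit 461) (nat_lit 1484) (nat_lit 491) (nat_lit 2507))) (.f (nat_lit 558) (nat_lit 431) (nat_lit 6574) (.f (nat_lit 559) (nat_lit 591) (nat_lit 4558) (.f (nat_lit 525) (nat_lit 561) (nat_lit 3597) (.d (nat_lit 557) (nat_lit 524) (nat_lit 3596) (nat_lit 589) (nat_lit 5581))))))) (.a (.p (nat_lit 465) (.a (.f (nat_lit 494) (nat_lit 493) (nat_lit 1485) (.f (nat_lit 466) (nat_lit 495) (nat_lit 1486) (.d (nat_lit 498) (nat_lit 497) (nat_lit 462) (nat_lit 499) (nat_lit 463)))) (.f (nat_lit 433) (nat_lit 434) (nat_lit 2478) (.f (nat_lit 461) (nat_lit 432) (nat_lit 2477) (.d (nat_lit 429) (nat_lit 428) (nat_lit 3500) (nat_lit 430) (nat_lit 3501)))))) (.a (.p (nat_lit 494) (.a (.f (nat_lit 558) (nat_lit 431) (nat_lit 6574) (.f (nat_lit 559) (nat_lit 591) (nat_lit 4558) (.f (nat_lit 525) (nat_lit 561) (nat_lit 3597) (.d (nat_lit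 557) (nat_lit 524) (nat_lit 3596) (nat_lit 589) (nat_lit 5581))))) (.f (nat_lit 465) (nat_lit 493) (nat_lit 1485) (.f (nat_lit 466) (nat_lit 495) (nat_lit 1486) (.d (nat_lit 498) (nat_lit 497) (nat_lit 462) (nat_lit 499) (nat_lit 463)))))) (.a s65041 (.a s64973 s65012)))))))
noncomputable def s65043 : Cert := .r (nat_lit 3773962425919908977862452135444915647064240251653350682741320497202988616129340856928011370634146280529550661706012825596879033206601976482501422557759695135643917090816) (.p (nat_lit 463) (.a (.p (nat_lit 494) (.a (.f (nat_lit 558) (nat_lit 431) (nat_lit 6574) (.f (nat_lit 559) (nat_lit 591) (nat_lit 4558) (.f (nat_lit 527) (nat_lit 430) (nat_lit 4526) (.d (nat_lit 561) (nat_lit 525) (nat_lit 3597) (nat_lit 562) (nat_lit 3598))))) (.a (.f (nat_lit 558) (nat_lit 431) (nat_lit 6574) (.f (nat_lit 493) (nat_lit 465) (nat_lit 1485) (.d (nat_lit 461) (nat_lit 429) (nat_lit 7597) (nat_lit 492) (nat_lit 1484))))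 (.f (nat_lit 493) (nat_lit 465) (nat_lit 1485) (.d (nat_lit 492) (nat_lit 461) (nat_lit 1484) (nat_lit 491) (nat_lit 2507)))))) (.a (.p (nat_lit 494) (.a (.f (nat_lit 558) (nat_lit 431) (nat_lit 6574) (.f (nat_lit 559) (nat_lit 591) (nat_lit 4558) (.f (nat_lit 527) (nat_lit 430) (nat_lit 4526) (.d (nat_lit 561) (nat_lit 525) (nat_lit 3597) (nat_lit 562) (nat_lit 3598))))) (.f (nat_lit 493) (nat_lit 465) (nat_lit 1485) (.d (nat_lit 492) (nat_lit 461) (nat_lit 1484) (nat_lit 491) (nat_lit 2507))))) (.a s64885 (.a s64801 (.a (.p (nat_lit 494) (.a (.f (nat_lit 558) (nat_lit 431) (nat_lit 6574) (.f (nat_lit 559) (nat_lit 591) (nat_lit 4558) (.f (nat_lit 527) (nat_lit 430) (nat_lit 4526) (.d (nat_lit 561) (nat_lit 525) (nat_lit 3597) (nat_lit 562) (nat_lit 3598))))) (.f (nat_lit 465) (nat_lit 493) (nat_lit 1485) (.f (nat_lit 466) (nat_lit 495) (nat_lit 1486) (.d (nat_lit 498) (nat_lit 497) (nat_lit 462) (nat_lit 499) (nat_lit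 463)))))) (.a s65034 (.a s64973 s65016))))))))
noncomputable def s65044 : Cert := .r (nat_lit 3773962425919908977862452135444915647064240251653350682741320497202988616129340856928011370634146280529550661706012825596879033206601976482501422557759695135643917090816) (.p (nat_lit 463) (.a s64791 (.a s64802 (.a s64979 (.a (.p (nat_lit 461) (.a (.f (nat_lit 432) (nat_lit 433) (nat_lit 2477) (.f (nat_lit 431) (nat_lit 460) (nat_lit 2476) (.f (nat_lit 527) (nat_lit 495) (nat_lit 4527) (.f (nat_lit 525) (nat_lit 561) (nat_lit 525) (.f (nat_lit 524) (nat_lit 559) (nat_lit 524) (.d (nat_lit 556) (nat_lit 555) (nat_lit 1547) (nat_lit 557) (nat_lit 1548))))))) (.f (nat_lit 493) (nat_lit 492) (nat_lit 1484) (.f (nat_lit 494) (nat_lit 465) (nat_lit 1485) (.d (nat_lit 429) (nat_lit 397) (nat_lit 4493) (nat_lit 428) (nat_lit 3500)))))) (.a s65005 (.a s64938 s65016)))))))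
noncomputable def s65045 : Cert := .r (nat_lit 3773962425919908977862452135468732698381958698242870925278194629784688736236342895127315241480897468722450484857565453946667637722897042790495552676285756961810362138624) (.p (nat_lit 465) (.a (.f (nat_lit 494) (nat_lit 493) (nat_lit 1485) (.f (nat_lit 430) (nat_lit 429) (nat_lit 3501) (.f (nat_lit 495) (nat_lit 466) (nat_lit 1486) (.d (nat_lit 398) (nat_lit 366) (nat_lit 4462) (nat_lit 527) (nat_lit 4494))))) (.a (.f (nat_lit 494) (nat_lit 493) (nat_lit 1485) (.f (nat_lit 466) (nat_lit 495) (nat_lit 1486) (.d (nat_lit 498) (nat_lit 497) (nat_lit 462) (nat_lit 499) (nat_lit 463)))) (.a (.f (nat_lit 494) (nat_lit 493) (nat_lit 1485) (.f (nat_lit 430) (nat_lit 429) (nat_lit 3501) (.d (nat_lit 431) (nat_lit 399) (nat_lit 6542) (nat_lit 558) (nat_lit 6574)))) (.f (nat_lit 430) (nat_lit 429) (nat_lit 3501) (.f (nat_lit 466) (nat_lit 431) (nat_lit 3502) (.d (nat_lit 434) (nat_lit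 433) (nat_lit 2478) (nat_lit 435) (nat_lit 2479))))))))
noncomputable def s65046 : Cert := .r (nat_lit 3773962425919908977862452135444915647064240251653350682741320497202988616129340856928011370634146280529550661706012825596879033206601976482501422557759695135643917090816) (.p (nat_lit 463) (.a s64790 (.a (.p (nat_lit 465) (.a (.f (nat_lit 494) (nat_lit 493) (nat_lit 1485) (.f (nat_lit 466) (nat_lit 495) (nat_lit 1486) (.d (nat_lit 498) (nat_lit 497) (nat_lit 462) (nat_lit 499) (nat_lit 463)))) (.f (nat_lit 433) (nat_lit 434) (nat_lit 2478) (.f (nat_lit 461) (nat_lit 432) (nat_lit 2477) (.d (nat_lit 429) (nat_lit 428) (nat_lit 3500) (nat_lit 430) (nat_lit 3501)))))) (.a (.p (nat_lit 494) (.a (.f (nat_lit 493) (nat_lit 465) (nat_lit 1485) (.d (nat_lit 492) (nat_lit 461) (nat_lit 1484) (nat_lit 491) (nat_lit 2507))) (.f (nat_lit 431) (nat_lit 558) (nat_lit 6574) (.d (nat_lit 399) (nat_lit 367) (nat_lit 5486) (nat_lit 430)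 (nat_lit 6542))))) (.a s64881 (.a s65045 (.a s65027 (.a s64973 s65012))))))))
noncomputable def s65050 : Cert := .r (nat_lit 3773962425700235452789419352813872038212591757713659989890119756071788672771079902685788467535047411948435211139331596087834250188907198976029509589286785496786493505536) (.p (nat_lit 526) (.a s64543 (.a (.p (nat_lit 527) (.a (.f (nat_lit 559) (nat_lit 430) (nat_lit 4526) (.d (nat_lit 561) (nat_lit 525) (nat_lit 525) (nat_lit 562) (nat_lit 3598))) (.a (.f (nat_lit 525) (nat_lit 561) (nat_lit 525) (.f (nat_lit 493) (nat_lit 492) (nat_lit 3564) (.d (nat_lit 557) (nat_lit 556) (nat_lit 1548) (nat_lit 589) (nat_lit 6605)))) (.f (nat_lit 559) (nat_lit 430) (nat_lit 4526) (.d (nat_lit 591) (nat_lit 495) (nat_lit 7630) (nat_lit 558) (nat_lit 4558)))))) (.a (.p (nat_lit 558) (.a (.f (nat_lit 559) (nat_lit 591) (nat_lit 4558) (.f (nat_lit 525) (nat_lit 561) (nat_lit 3597) (.d (nat_lit 557) (nat_lit 524) (nat_lit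 3596) (nat_lit 589) (nat_lit 5581)))) (.f (nat_lit 461) (nat_lit 429) (nat_lit 7597) (.f (nat_lit 493) (nat_lit 590) (nat_lit 7629) (.d (nat_lit 463) (nat_lit 465) (nat_lit 1485) (nat_lit 492) (nat_lit 1484)))))) (.a s64556 (.a s64560 (.a (.p (nat_lit 558) (.a (.f (nat_lit 559) (nat_lit 591) (nat_lit 4558) (.f (nat_lit 527) (nat_lit 430) (nat_lit 4526) (.d (nat_lit 557) (nat_lit 556) (nat_lit 2572) (nat_lit 589) (nat_lit 5581)))) (.f (nat_lit 461) (nat_lit 429) (nat_lit 7597) (.f (nat_lit 493) (nat_lit 590) (nat_lit 7629) (.d (nat_lit 463) (nat_lit 465) (nat_lit 1485) (nat_lit 492) (nat_lit 1484)))))) (.a (.p (nat_lit 463) (.a (.f (nat_lit 558) (nat_lit 431) (nat_lit 6574) (.f (nat_lit 559) (nat_lit 591) (nat_lit 4558) (.f (nat_lit 527) (nat_lit 430) (nat_lit 4526) (.d (nat_lit 561) (nat_lit 525) (nat_lit 3597) (nat_lit 562) (nat_lit 3598))))) (.a (.f (nat_lit 558) (nat_lit 431) (nat_lit 6574) (.f (nat_lit 493) (nat_lit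 465) (nat_lit 1485) (.d (nat_lit 461) (nat_lit 429) (nat_lit 7597) (nat_lit 492) (nat_lit 1484)))) (.f (nat_lit 493) (nat_lit 465) (nat_lit 1485) (.d (nat_lit 492) (nat_lit 461) (nat_lit 1484) (nat_lit 491) (nat_lit 2507)))))) (.a (.p (nat_lit 430) (.a (.f (nat_lit 527) (nat_lit 559) (nat_lit 4526) (.d (nat_lit 525) (nat_lit 557) (nat_lit 5549) (nat_lit 561) (nat_lit 525))) (.a (.f (nat_lit 527) (nat_lit 559) (nat_lit 4526) (.f (nat_lit 398) (nat_lit 495) (nat_lit 4494) (.d (nat_lit 399) (nat_lit 367) (nat_lit 6510) (nat_lit 431) (nat_lit 6542)))) (.f (nat_lit 525) (nat_lit 557) (nat_lit 5549) (.f (nat_lit 398) (nat_lit 493) (nat_lit 5517) (.d (nat_lit 399) (nat_lit 367) (nat_lit 6510) (nat_lit 431) (nat_lit 6542))))))) (.p (nat_lit 463) (.a (.f (nat_lit 493) (nat_lit 465) (nat_lit 1485) (.d (nat_lit 492) (nat_lit 461) (nat_lit 1484) (nat_lit 491) (nat_lit 2507))) (.f (nat_lit 431) (nat_lit 558) (nat_lit 6574) (.d (nat_lit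 399) (nat_lit 367) (nat_lit 5486) (nat_lit 430) (nat_lit 6542))))))))))))))
noncomputable def s65051 : Cert := .r (nat_lit 3773962425700235452789419352813872038212591757713659989890119756071788672771079902685788467535047411948435211139331596087834250188907198976029509589286785496786493505536) (.p (nat_lit 526) (.a (.p (nat_lit 527) (.a (.f (nat_lit 559) (nat_lit 430) (nat_lit 4526) (.d (nat_lit 561) (nat_lit 525) (nat_lit 525) (nat_lit 562) (nat_lit 3598))) (.a (.f (nat_lit 525) (nat_lit 561) (nat_lit 525) (.f (nat_lit 493) (nat_lit 492) (nat_lit 3564) (.d (nat_lit 557) (nat_lit 556) (nat_lit 1548) (nat_lit 589) (nat_lit 6605)))) (.f (nat_lit 559) (nat_lit 430) (nat_lit 4526) (.d (nat_lit 591) (nat_lit 495) (nat_lit 7630) (nat_lit 558) (nat_lit 4558)))))) (.a (.p (nat_lit 463) (.a (.f (nat_lit 493) (nat_lit 465) (nat_lit 1485) (.d (nat_lit 492) (nat_lit 461) (nat_lit 1484) (nat_lit 491) (nat_lit 2507))) (.f (nat_lit 558)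 (nat_lit 431) (nat_lit 6574) (.f (nat_lit 559) (nat_lit 591) (nat_lit 4558) (.f (nat_lit 525) (nat_lit 561) (nat_lit 3597) (.d (nat_lit 557) (nat_lit 524) (nat_lit 3596) (nat_lit 589) (nat_lit 5581))))))) (.a s64560 (.a (.p (nat_lit 463) (.a (.f (nat_lit 493) (nat_lit 465) (nat_lit 1485) (.d (nat_lit 492) (nat_lit 461) (nat_lit 1484) (nat_lit 491) (nat_lit 2507))) (.f (nat_lit 431) (nat_lit 558) (nat_lit 6574) (.d (nat_lit 399) (nat_lit 367) (nat_lit 5486) (nat_lit 430) (nat_lit 6542))))) (.p (nat_lit 430) (.a (.f (nat_lit 527) (nat_lit 559) (nat_lit 4526) (.d (nat_lit 525) (nat_lit 557) (nat_lit 5549) (nat_lit 561) (nat_lit 525))) (.a (.f (nat_lit 527) (nat_lit 559) (nat_lit 4526) (.f (nat_lit 398) (nat_lit 495) (nat_lit 4494) (.d (nat_lit 399) (nat_lit 367) (nat_lit 6510) (nat_lit 431) (nat_lit 6542)))) (.f (nat_lit 525) (nat_lit 557) (nat_lit 5549) (.f (nat_lit 398) (nat_lit 493) (nat_lit 5517) (.d (nat_lit 399) (nat_lit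 367) (nat_lit 6510) (nat_lit 431) (nat_lit 6542))))))))))))
noncomputable def s65053 : Cert := .r (nat_lit 3773962425700235452789419352813872038212591757713659989890119756071788672771079902685788467535047411948435211139331596087834250188907198976029509589286785496786493505536) (.p (nat_lit 526) (.a (.p (nat_lit 527) (.a (.f (nat_lit 559) (nat_lit 430) (nat_lit 4526) (.d (nat_lit 561) (nat_lit 525) (nat_lit 525) (nat_lit 562) (nat_lit 3598))) (.a (.f (nat_lit 525) (nat_lit 561) (nat_lit 525) (.f (nat_lit 493) (nat_lit 492) (nat_lit 3564) (.d (nat_lit 557) (nat_lit 556) (nat_lit 1548) (nat_lit 589) (nat_lit 6605)))) (.f (nat_lit 559) (nat_lit 430) (nat_lit 4526) (.d (nat_lit 591) (nat_lit 495) (nat_lit 7630) (nat_lit 558) (nat_lit 4558)))))) (.a (.p (nat_lit 558) (.a (.f (nat_lit 559) (nat_lit 591) (nat_lit 4558) (.f (nat_lit 525) (nat_lit 561) (nat_lit 3597) (.d (nat_lit 557) (nat_lit 524) (nat_lit 3596) (nat_lit 589) (nat_lit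 5581)))) (.a (.f (nat_lit 559) (nat_lit 591) (nat_lit 4558) (.f (nat_lit 561) (nat_lit 525) (nat_lit 3597) (.d (nat_lit 589) (nat_lit 557) (nat_lit 5581) (nat_lit 590) (nat_lit 1581)))) (.f (nat_lit 463) (nat_lit 431) (nat_lit 6574) (.f (nat_lit 495) (nat_lit 590) (nat_lit 6606) (.d (nat_lit 493) (nat_lit 465) (nat_lit 1485) (nat_lit 492) (nat_lit 2508))))))) (.a s64560 (.a (.p (nat_lit 463) (.a (.f (nat_lit 431) (nat_lit 558) (nat_lit 6574) (.d (nat_lit 399) (nat_lit 367) (nat_lit 5486) (nat_lit 430) (nat_lit 6542))) (.f (nat_lit 465) (nat_lit 493) (nat_lit 1485) (.f (nat_lit 466) (nat_lit 495) (nat_lit 1486) (.d (nat_lit 498) (nat_lit 497) (nat_lit 462) (nat_lit 499) (nat_lit 463)))))) (.p (nat_lit 430) (.a (.f (nat_lit 527) (nat_lit 559) (nat_lit 4526) (.d (nat_lit 525) (nat_lit 557) (nat_lit 5549) (nat_lit 561) (nat_lit 525))) (.a (.f (nat_lit 527) (nat_lit 559) (nat_lit 4526) (.f (nat_lit 398) (nat_lit 495) (nat_lit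 4494) (.d (nat_lit 397) (nat_lit 365) (nat_lit 7533) (nat_lit 429) (nat_lit 7565)))) (.f (nat_lit 525) (nat_lit 557) (nat_lit 5549) (.f (nat_lit 398) (nat_lit 493) (nat_lit 5517) (.d (nat_lit 399) (nat_lit 367) (nat_lit 6510) (nat_lit 431) (nat_lit 6542))))))))))))
noncomputable def s65060 : Cert := .r (nat_lit 3773962425919908977913598863693292863783196340666281919494705529172411503465017284554513461202969320449601756898605078052361637646095102592020442191289154402102175334400) (.p (nat_lit 558) (.a (.f (nat_lit 559) (nat_lit 591) (nat_lit 4558) (.f (nat_lit 525) (nat_lit 561) (nat_lit 3597) (.d (nat_lit 557) (nat_lit 524) (nat_lit 3596) (nat_lit 589) (nat_lit 5581)))) (.a (.f (nat_lit 559) (nat_lit 591) (nat_lit 4558) (.f (nat_lit 561) (nat_lit 525) (nat_lit 3597) (.d (nat_lit 589) (nat_lit 557) (nat_lit 5581) (nat_lit 590) (nat_lit 1581)))) (.a (.f (nat_lit 463) (nat_lit 431) (nat_lit 6574) (.f (nat_lit 590) (nat_lit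 495) (nat_lit 6606) (.d (nat_lit 589) (nat_lit 557) (nat_lit 5581) (nat_lit 621) (nat_lit 5613)))) (.a (.f (nat_lit 559) (nat_lit 591) (nat_lit 4558) (.f (nat_lit 561) (nat_lit 525) (nat_lit 3597) (.f (nat_lit 463) (nat_lit 431) (nat_lit 6574) (.d (nat_lit 590) (nat_lit 495) (nat_lit 6606) (nat_lit 589) (nat_lit 1581))))) (.f (nat_lit 559) (nat_lit 591) (nat_lit 4558) (.f (nat_lit 525) (nat_lit 561) (nat_lit 3597) (.d (nat_lit 524) (nat_lit 523) (nat_lit 523) (nat_lit 557) (nat_lit 3596)))))))))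
noncomputable def s65073 : Cert := .r (nat_lit 3773962425919908977913598863693292863783196340666281919494705529172411503465017284554513461202969320449601756898605078052361637646095102592020442191289154402102175334400) (.p (nat_lit 430) (.a (.f (nat_lit 429) (nat_lit 397) (nat_lit 7565) (.f (nat_lit 463) (nat_lit 465) (nat_lit 3501) (.d (nat_lit 428) (nat_lit 427) (nat_lit 427) (nat_lit 461) (nat_lit 3500)))) (.a (.f (nat_lit 431) (nat_lit 399) (nat_lit 6542) (.f (nat_lit 463) (nat_lit 558) (nat_lit 6574) (.d (nat_lit 429) (nat_lit 428) (nat_lit 428) (nat_lit 465) (nat_lit 3501)))) (.a (.f (nat_lit 429) (nat_lit 397) (nat_lit 7565) (.f (nat_lit 431) (nat_lit 399) (nat_lit 6542) (.f (nat_lit 461) (nat_lit 558) (nat_lit 7597) (.d (nat_lit 432) (nat_lit 460) (nat_lit 1452) (nat_lit 465) (nat_lit 429))))) (.a (.f (nat_lit 431) (nat_lit 399) (nat_lit 6542) (.f (nat_lit 463) (nat_lit 558) (nat_lit 6574) (.f (nat_lit 495) (nat_lit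 527) (nat_lit 4527) (.f (nat_lit 465) (nat_lit 466) (nat_lit 1486) (.f (nat_lit 433) (nat_lit 434) (nat_lit 2478) (.f (nat_lit 432) (nat_lit 461) (nat_lit 2477) (.f (nat_lit 368) (nat_lit 400) (nat_lit 5487) (.f (nat_lit 401) (nat_lit 402) (nat_lit 2446) (.d (nat_lit 369) (nat_lit 336) (nat_lit 7504) (nat_lit 337) (nat_lit 5456)))))))))) (.f (nat_lit 429) (nat_lit 397) (nat_lit 7565) (.f (nat_lit 431) (nat_lit 399) (nat_lit 6542) (.d (nat_lit 558) (nat_lit 461) (nat_lit 7597) (nat_lit 463) (nat_lit 6574)))))))))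
noncomputable def s65074 : Cert := .r (nat_lit 3773962425700235452789419352813872038212591757713659989890119756071788672771079902685788467535047411948435211139331596087834250188907198976029509589286785496786493505536) (.p (nat_lit 526) (.a s64560 (.a s65060 (.a (.p (nat_lit 430) (.a (.f (nat_lit 527) (nat_lit 559) (nat_lit 4526) (.d (nat_lit 525) (nat_lit 557) (nat_lit 5549) (nat_lit 561) (nat_lit 525))) (.a (.f (nat_lit 527) (nat_lit 559) (nat_lit 4526) (.f (nat_lit 398) (nat_lit 495) (nat_lit 4494) (.d (nat_lit 397) (nat_lit 365) (nat_lit 7533) (nat_lit 429) (nat_lit 7565)))) (.f (nat_lit 429) (nat_lit 397) (nat_lit 7565) (.f (nat_lit 463) (nat_lit 465) (nat_lit 3501) (.d (nat_lit 428) (nat_lit 427) (nat_lit 427) (nat_lit 461) (nat_lit 3500))))))) (.a (.p (nat_lit 430) (.a (.f (nat_lit 527) (nat_lit 559) (nat_lit 4526) (.f (nat_lit 398) (nat_lit 495) (nat_lit 4494) (.d (nat_lit 397) (nat_lit 365) (nat_lit 7533) (nat_lit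 429) (nat_lit 7565)))) (.a (.f (nat_lit 527) (nat_lit 559) (nat_lit 4526) (.f (nat_lit 398) (nat_lit 495) (nat_lit 4494) (.d (nat_lit 399) (nat_lit 367) (nat_lit 6510) (nat_lit 431) (nat_lit 6542)))) (.f (nat_lit 429) (nat_lit 397) (nat_lit 7565) (.f (nat_lit 431) (nat_lit 399) (nat_lit 6542) (.f (nat_lit 461) (nat_lit 558) (nat_lit 7597) (.d (nat_lit 432) (nat_lit 460) (nat_lit 1452) (nat_lit 465) (nat_lit 429)))))))) s65073)))))
noncomputable def s65095 : Cert := .r (nat_lit 3773962425700235452789419352813872038212591757713659989890119756071788672771079902685788467535047411948435211139331596087834250188907198976029509589286785496786493505536) (.p (nat_lit 463) (.a (.f (nat_lit 465) (nat_lit 493) (nat_lit 1485) (.f (nat_lit 430) (nat_lit 429) (nat_lit 3501) (.d (nat_lit 466) (nat_lit 431) (nat_lit 3502) (nat_lit 495) (nat_lit 1486)))) (.a (.f (nat_lit 465) (nat_lit 493) (nat_lit 1485) (.f (nat_lit 466) (nat_lit 495) (nat_lit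 1486) (.d (nat_lit 498) (nat_lit 497) (nat_lit 462) (nat_lit 499) (nat_lit 463)))) (.a (.p (nat_lit 461) (.a (.f (nat_lit 429) (nat_lit 428) (nat_lit 3500) (.f (nat_lit 432) (nat_lit 433) (nat_lit 2477) (.f (nat_lit 431) (nat_lit 460) (nat_lit 2476) (.f (nat_lit 495) (nat_lit 527) (nat_lit 4527) (.f (nat_lit 400) (nat_lit 368) (nat_lit 5487) (.f (nat_lit 430) (nat_lit 401) (nat_lit 2445) (.d (nat_lit 397) (nat_lit 365) (nat_lit 4461) (nat_lit 396) (nat_lit 3468)))))))) (.a (.f (nat_lit 493) (nat_lit 492) (nat_lit 1484) (.f (nat_lit 432) (nat_lit 433) (nat_lit 2477) (.f (nat_lit 460) (nat_lit 431) (nat_lit 2476) (.d (nat_lit 459) (nat_lit 458) (nat_lit 458) (nat_lit 495) (nat_lit 459))))) (.a (.f (nat_lit 493) (nat_lit 492) (nat_lit 1484) (.f (nat_lit 428) (nat_lit 429) (nat_lit 3500) (.f (nat_lit 460) (nat_lit 427) (nat_lit 3499) (.d (nat_lit 459) (nat_lit 458) (nat_lit 458) (nat_lit 495) (nat_lit 459))))) (.f (nat_lit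 493) (nat_lit 492) (nat_lit 1484) (.f (nat_lit 429) (nat_lit 428) (nat_lit 3500) (.f (nat_lit 397) (nat_lit 365) (nat_lit 4461) (.f (nat_lit 432) (nat_lit 433) (nat_lit 2477) (.f (nat_lit 396) (nat_lit 364) (nat_lit 7532) (.f (nat_lit 430) (nat_lit 431) (nat_lit 3468) (.d (nat_lit 525) (nat_lit 398) (nat_lit 5517) (nat_lit 557) (nat_lit 6573)))))))))))) (.a (.p (nat_lit 465) (.a (.f (nat_lit 430) (nat_lit 429) (nat_lit 3501) (.d (nat_lit 466) (nat_lit 431) (nat_lit 3502) (nat_lit 495) (nat_lit 1486))) (.a (.f (nat_lit 466) (nat_lit 495) (nat_lit 1486) (.d (nat_lit 498) (nat_lit 497) (nat_lit 462) (nat_lit 499) (nat_lit 463))) (.f (nat_lit 429) (nat_lit 430) (nat_lit 3501) (.f (nat_lit 461) (nat_lit 428) (nat_lit 3500) (.d (nat_lit 433) (nat_lit 432) (nat_lit 2477) (nat_lit 434) (nat_lit 2478))))))) (.f (nat_lit 465) (nat_lit 493) (nat_lit 1485) (.f (nat_lit 430) (nat_lit 429) (nat_lit 3501) (.f (nat_lit 466) (nat_lit 431)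 (nat_lit 3502) (.d (nat_lit 434) (nat_lit 433) (nat_lit 2478) (nat_lit 435) (nat_lit 2479))))))))))
noncomputable def s65098 : Cert := .r (nat_lit 3773962425700235452789419352813872038212591757713659989890119756071788672771079902685788467535047411948435211139331596087834250188907198976029509589286785496786493505536) (.p (nat_lit 463) (.a (.f (nat_lit 465) (nat_lit 493) (nat_lit 1485) (.f (nat_lit 430) (nat_lit 429) (nat_lit 3501) (.d (nat_lit 466) (nat_lit 431) (nat_lit 3502) (nat_lit 495) (nat_lit 1486)))) (.a (.f (nat_lit 465) (nat_lit 493) (nat_lit 1485) (.f (nat_lit 466) (nat_lit 495) (nat_lit 1486) (.d (nat_lit 498) (nat_lit 497) (nat_lit 462) (nat_lit 499) (nat_lit 463)))) (.a (.p (nat_lit 461) (.a (.f (nat_lit 493) (nat_lit 492) (nat_lit 1484) (.f (nat_lit 429) (nat_lit 428) (nat_lit 3500) (.d (nat_lit 526) (nat_lit 397) (nat_lit 4493) (nat_lit 558) (nat_lit 7597)))) (.a (.f (nat_lit 429) (nat_lit 428) (nat_lit 3500)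 (.f (nat_lit 526) (nat_lit 558) (nat_lit 7597) (.f (nat_lit 432) (nat_lit 433) (nat_lit 2477) (.f (nat_lit 431) (nat_lit 460) (nat_lit 2476) (.d (nat_lit 399) (nat_lit 430) (nat_lit 6542) (nat_lit 495) (nat_lit 5518)))))) (.a (.f (nat_lit 432) (nat_lit 433) (nat_lit 2477) (.f (nat_lit 431) (nat_lit 460) (nat_lit 2476) (.f (nat_lit 526) (nat_lit 558) (nat_lit 6574) (.d (nat_lit 399) (nat_lit 430) (nat_lit 6542) (nat_lit 495) (nat_lit 5518))))) (.f (nat_lit 493) (nat_lit 492) (nat_lit 1484) (.f (nat_lit 432) (nat_lit 433) (nat_lit 2477) (.f (nat_lit 460) (nat_lit 431) (nat_lit 2476) (.d (nat_lit 459) (nat_lit 458) (nat_lit 458) (nat_lit 495) (nat_lit 459))))))))) (.a (.p (nat_lit 465) (.a (.f (nat_lit 430) (nat_lit 429) (nat_lit 3501) (.d (nat_lit 466) (nat_lit 431) (nat_lit 3502) (nat_lit 495) (nat_lit 1486))) (.a (.f (nat_lit 466) (nat_lit 495) (nat_lit 1486) (.d (nat_lit 498) (nat_lit 497) (nat_lit 462) (nat_lit 499) (nat_lit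 463))) (.f (nat_lit 429) (nat_lit 430) (nat_lit 3501) (.f (nat_lit 461) (nat_lit 428) (nat_lit 3500) (.d (nat_lit 433) (nat_lit 432) (nat_lit 2477) (nat_lit 434) (nat_lit 2478))))))) (.f (nat_lit 465) (nat_lit 493) (nat_lit 1485) (.f (nat_lit 430) (nat_lit 429) (nat_lit 3501) (.f (nat_lit 431) (nat_lit 466) (nat_lit 3502) (.d (nat_lit 526) (nat_lit 399) (nat_lit 6542) (nat_lit 558) (nat_lit 6574))))))))))
noncomputable def s65103 : Cert := .r (nat_lit 3773962425700235452789419352813872038212591757713659989890119756071788672771079902685788467535047411948435211139331596087834250188907198976029509589286785496786493505536) (.p (nat_lit 526) (.a s64543 (.a (.p (nat_lit 527) (.a (.f (nat_lit 559) (nat_lit 430) (nat_lit 4526) (.d (nat_lit 561) (nat_lit 525) (nat_lit 525) (nat_lit 562) (nat_lit 3598))) (.a (.f (nat_lit 525) (nat_lit 561) (nat_lit 525) (.f (nat_lit 493) (nat_lit 492) (nat_lit 3564) (.d (nat_lit 557) (nat_lit 556)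 (nat_lit 1548) (nat_lit 589) (nat_lit 6605)))) (.f (nat_lit 559) (nat_lit 430) (nat_lit 4526) (.d (nat_lit 591) (nat_lit 495) (nat_lit 7630) (nat_lit 558) (nat_lit 4558)))))) (.a (.p (nat_lit 558) (.a (.f (nat_lit 559) (nat_lit 591) (nat_lit 4558) (.f (nat_lit 525) (nat_lit 561) (nat_lit 3597) (.d (nat_lit 557) (nat_lit 524) (nat_lit 3596) (nat_lit 589) (nat_lit 5581)))) (.f (nat_lit 461) (nat_lit 429) (nat_lit 7597) (.f (nat_lit 493) (nat_lit 590) (nat_lit 7629) (.d (nat_lit 463) (nat_lit 465) (nat_lit 1485) (nat_lit 492) (nat_lit 1484)))))) (.a s64556 (.a s64560 (.a (.p (nat_lit 558) (.a (.f (nat_lit 559) (nat_lit 591) (nat_lit 4558) (.f (nat_lit 527) (nat_lit 430) (nat_lit 4526) (.d (nat_lit 557) (nat_lit 556) (nat_lit 2572) (nat_lit 589) (nat_lit 5581)))) (.f (nat_lit 461) (nat_lit 429) (nat_lit 7597) (.f (nat_lit 493) (nat_lit 590) (nat_lit 7629) (.d (nat_lit 463) (nat_lit 465) (nat_lit 1485) (nat_lit 492) (nat_lit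 1484)))))) (.a (.p (nat_lit 463) (.a (.f (nat_lit 558) (nat_lit 431) (nat_lit 6574) (.f (nat_lit 559) (nat_lit 591) (nat_lit 4558) (.f (nat_lit 527) (nat_lit 430) (nat_lit 4526) (.d (nat_lit 561) (nat_lit 525) (nat_lit 3597) (nat_lit 562) (nat_lit 3598))))) (.a (.f (nat_lit 558) (nat_lit 431) (nat_lit 6574) (.f (nat_lit 493) (nat_lit 465) (nat_lit 1485) (.d (nat_lit 461) (nat_lit 429) (nat_lit 7597) (nat_lit 492) (nat_lit 1484)))) (.f (nat_lit 493) (nat_lit 465) (nat_lit 1485) (.d (nat_lit 492) (nat_lit 461) (nat_lit 1484) (nat_lit 491) (nat_lit 2507)))))) (.a (.p (nat_lit 527) (.a (.f (nat_lit 559) (nat_lit 430) (nat_lit 4526) (.d (nat_lit 561) (nat_lit 525) (nat_lit 525) (nat_lit 562) (nat_lit 3598))) (.a (.f (nat_lit 525) (nat_lit 561) (nat_lit 525) (.f (nat_lit 493) (nat_lit 492) (nat_lit 3564) (.d (nat_lit 557) (nat_lit 556) (nat_lit 1548) (nat_lit 589) (nat_lit 6605)))) (.f (nat_lit 559) (nat_lit 430) (nat_lit 4526)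 (.d (nat_lit 591) (nat_lit 495) (nat_lit 7630) (nat_lit 623) (nat_lit 7662)))))) (.p (nat_lit 463) (.a (.f (nat_lit 558) (nat_lit 431) (nat_lit 6574) (.f (nat_lit 493) (nat_lit 465) (nat_lit 1485) (.d (nat_lit 461) (nat_lit 429) (nat_lit 7597) (nat_lit 492) (nat_lit 1484)))) (.a (.f (nat_lit 493) (nat_lit 465) (nat_lit 1485) (.d (nat_lit 492) (nat_lit 461) (nat_lit 1484) (nat_lit 491) (nat_lit 2507))) (.a (.f (nat_lit 465) (nat_lit 493) (nat_lit 1485) (.f (nat_lit 430) (nat_lit 429) (nat_lit 3501) (.f (nat_lit 495) (nat_lit 466) (nat_lit 1486) (.d (nat_lit 398) (nat_lit 366) (nat_lit 4462) (nat_lit 527) (nat_lit 4494))))) (.a (.f (nat_lit 558) (nat_lit 431) (nat_lit 6574) (.f (nat_lit 461) (nat_lit 429) (nat_lit 7597) (.d (nat_lit 590) (nat_lit 493) (nat_lit 7629) (nat_lit 495) (nat_lit 6606)))) (.f (nat_lit 558) (nat_lit 431) (nat_lit 6574) (.f (nat_lit 590) (nat_lit 495) (nat_lit 6606) (.d (nat_lit 589) (nat_lit 557)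 (nat_lit 5581) (nat_lit 621) (nat_lit 5613))))))))))))))))))
noncomputable def s65106 : Cert := .r (nat_lit 3773962425700235452789419352813872038212591757713659989890119756071788672771079902685788467535047411948435211139331596087834250188907198976029509589286785496786493505536) (.p (nat_lit 526) (.a (.p (nat_lit 527) (.a (.f (nat_lit 559) (nat_lit 430) (nat_lit 4526) (.d (nat_lit 561) (nat_lit 525) (nat_lit 525) (nat_lit 562) (nat_lit 3598))) (.a (.f (nat_lit 525) (nat_lit 561) (nat_lit 525) (.f (nat_lit 493) (nat_lit 492) (nat_lit 3564) (.d (nat_lit 557) (nat_lit 556) (nat_lit 1548) (nat_lit 589) (nat_lit 6605)))) (.f (nat_lit 559) (nat_lit 430) (nat_lit 4526) (.d (nat_lit 591) (nat_lit 495) (nat_lit 7630) (nat_lit 558) (nat_lit 4558)))))) (.a (.p (nat_lit 463) (.a (.f (nat_lit 493) (nat_lit 465) (nat_lit 1485) (.d (nat_lit 492) (nat_lit 461) (nat_lit 1484) (nat_lit 491) (nat_lit 2507))) (.f (nat_lit 558) (nat_lit 431)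 (nat_lit 6574) (.f (nat_lit 559) (nat_lit 591) (nat_lit 4558) (.f (nat_lit 525) (nat_lit 561) (nat_lit 3597) (.d (nat_lit 557) (nat_lit 524) (nat_lit 3596) (nat_lit 589) (nat_lit 5581))))))) (.a s64560 (.a (.p (nat_lit 463) (.a (.f (nat_lit 493) (nat_lit 465) (nat_lit 1485) (.d (nat_lit 492) (nat_lit 461) (nat_lit 1484) (nat_lit 491) (nat_lit 2507))) (.a (.f (nat_lit 465) (nat_lit 493) (nat_lit 1485) (.f (nat_lit 466) (nat_lit 495) (nat_lit 1486) (.d (nat_lit 498) (nat_lit 497) (nat_lit 462) (nat_lit 499) (nat_lit 463)))) (.f (nat_lit 558) (nat_lit 431) (nat_lit 6574) (.f (nat_lit 590) (nat_lit 495) (nat_lit 6606) (.d (nat_lit 589) (nat_lit 557) (nat_lit 5581) (nat_lit 621) (nat_lit 5613))))))) (.a (.p (nat_lit 463) (.a (.f (nat_lit 558) (nat_lit 431) (nat_lit 6574) (.f (nat_lit 559) (nat_lit 591) (nat_lit 4558) (.f (nat_lit 527) (nat_lit 430) (nat_lit 4526) (.d (nat_lit 561) (nat_lit 525) (nat_lit 3597) (nat_lit 562) (nat_lit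 3598))))) (.f (nat_lit 493) (nat_lit 465) (nat_lit 1485) (.d (nat_lit 492) (nat_lit 461) (nat_lit 1484) (nat_lit 491) (nat_lit 2507))))) (.p (nat_lit 527) (.a (.f (nat_lit 559) (nat_lit 430) (nat_lit 4526) (.d (nat_lit 561) (nat_lit 525) (nat_lit 525) (nat_lit 562) (nat_lit 3598))) (.a (.f (nat_lit 525) (nat_lit 561) (nat_lit 525) (.f (nat_lit 493) (nat_lit 492) (nat_lit 3564) (.d (nat_lit 557) (nat_lit 556) (nat_lit 1548) (nat_lit 589) (nat_lit 6605)))) (.f (nat_lit 559) (nat_lit 430) (nat_lit 4526) (.d (nat_lit 591) (nat_lit 495) (nat_lit 7630) (nat_lit 623) (nat_lit 7662))))))))))))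
noncomputable def s65111 : Cert := .r (nat_lit 3773962425700235452789419352813872038212591757713659989890119756071788672771079902685788467535047411948435211139331596087834250188907198976029509589286785496786493505536) (.p (nat_lit 463) (.a (.f (nat_lit 465) (nat_lit 493) (nat_lit 1485) (.f (nat_lit 466) (nat_lit 495) (nat_lit 1486) (.d (nat_lit 498) (nat_lit 497) (nat_lit 462) (nat_lit 499) (nat_lit 463)))) (.a (.p (nat_lit 461) (.a (.f (nat_lit 493) (nat_lit 492) (nat_lit 1484) (.f (nat_lit 429) (nat_lit 428) (nat_lit 3500) (.d (nat_lit 397) (nat_lit 365) (nat_lit 4461) (nat_lit 526) (nat_lit 4493)))) (.a (.f (nat_lit 493) (nat_lit 492) (nat_lit 1484) (.f (nat_lit 429) (nat_lit 428) (nat_lit 3500) (.d (nat_lit 526) (nat_lit 397) (nat_lit 4493) (nat_lit 558) (nat_lit 7597)))) (.a (.f (nat_lit 493) (nat_lit 492) (nat_lit 1484) (.f (nat_lit 432) (nat_lit 433) (nat_lit 2477) (.f (nat_lit 460) (nat_lit 431) (nat_lit 2476) (.d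 (nat_lit 459) (nat_lit 458) (nat_lit 458) (nat_lit 495) (nat_lit 459))))) (.a (.f (nat_lit 429) (nat_lit 428) (nat_lit 3500) (.f (nat_lit 526) (nat_lit 558) (nat_lit 7597) (.d (nat_lit 397) (nat_lit 365) (nat_lit 4461) (nat_lit 493) (nat_lit 4493)))) (.f (nat_lit 432) (nat_lit 433) (nat_lit 2477) (.f (nat_lit 460) (nat_lit 431) (nat_lit 2476) (.d (nat_lit 428) (nat_lit 427) (nat_lit 3499) (nat_lit 429) (nat_lit 3500))))))))) (.a s64528 (.f (nat_lit 465) (nat_lit 493) (nat_lit 1485) (.f (nat_lit 433) (nat_lit 434) (nat_lit 2478) (.f (nat_lit 498) (nat_lit 497) (nat_lit 462) (.f (nat_lit 466) (nat_lit 499) (nat_lit 463) (.f (nat_lit 432) (nat_lit 461) (nat_lit 2477) (.d (nat_lit 467) (nat_lit 431) (nat_lit 3503) (nat_lit 468) (nat_lit 3504)))))))))))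
noncomputable def s65117 : Cert := .r (nat_lit 3773962425700235452789419352813872038212591757713659989890119756071788672771079902685788467535047411948435211139331596087834250188907198976029509589286785496786493505536) (.p (nat_lit 526) (.a (.p (nat_lit 527) (.a (.f (nat_lit 559) (nat_lit 430) (nat_lit 4526) (.d (nat_lit 561) (nat_lit 525) (nat_lit 525) (nat_lit 562) (nat_lit 3598))) (.a (.f (nat_lit 525) (nat_lit 561) (nat_lit 525) (.f (nat_lit 493) (nat_lit 492) (nat_lit 3564) (.d (nat_lit 557) (nat_lit 556) (nat_lit 1548) (nat_lit 589) (nat_lit 6605)))) (.f (nat_lit 559) (nat_lit 430) (nat_lit 4526) (.d (nat_lit 591) (nat_lit 495) (nat_lit 7630) (nat_lit 558) (nat_lit 4558)))))) (.a (.p (nat_lit 558) (.a (.f (nat_lit 559) (nat_lit 591) (nat_lit 4558) (.f (nat_lit 525) (nat_lit 561) (nat_lit 3597) (.d (nat_lit 557) (nat_lit 524) (nat_lit 3596) (nat_lit 589) (nat_lit 5581)))) (.a (.f (nat_lit 559) (nat_lit 591) (nat_lit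 4558) (.f (nat_lit 561) (nat_lit 525) (nat_lit 3597) (.d (nat_lit 589) (nat_lit 557) (nat_lit 5581) (nat_lit 590) (nat_lit 1581)))) (.f (nat_lit 463) (nat_lit 431) (nat_lit 6574) (.f (nat_lit 495) (nat_lit 590) (nat_lit 6606) (.d (nat_lit 493) (nat_lit 465) (nat_lit 1485) (nat_lit 492) (nat_lit 2508))))))) (.a s64560 (.a (.p (nat_lit 463) (.a (.f (nat_lit 465) (nat_lit 493) (nat_lit 1485) (.f (nat_lit 430) (nat_lit 429) (nat_lit 3501) (.f (nat_lit 495) (nat_lit 466) (nat_lit 1486) (.d (nat_lit 398) (nat_lit 366) (nat_lit 4462) (nat_lit 527) (nat_lit 4494))))) (.a (.f (nat_lit 465) (nat_lit 493) (nat_lit 1485) (.f (nat_lit 466) (nat_lit 495) (nat_lit 1486) (.d (nat_lit 498) (nat_lit 497) (nat_lit 462) (nat_lit 499) (nat_lit 463)))) (.a (.f (nat_lit 558) (nat_lit 431) (nat_lit 6574) (.f (nat_lit 590) (nat_lit 495) (nat_lit 6606) (.d (nat_lit 589) (nat_lit 557) (nat_lit 5581) (nat_lit 621) (nat_lit 5613)))) (.f (nat_lit 465)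 (nat_lit 493) (nat_lit 1485) (.f (nat_lit 430) (nat_lit 429) (nat_lit 3501) (.d (nat_lit 431) (nat_lit 466) (nat_lit 3502) (nat_lit 558) (nat_lit 6574)))))))) (.a (.p (nat_lit 463) (.a (.f (nat_lit 558) (nat_lit 431) (nat_lit 6574) (.f (nat_lit 559) (nat_lit 591) (nat_lit 4558) (.f (nat_lit 527) (nat_lit 430) (nat_lit 4526) (.d (nat_lit 561) (nat_lit 525) (nat_lit 3597) (nat_lit 562) (nat_lit 3598))))) (.f (nat_lit 465) (nat_lit 493) (nat_lit 1485) (.f (nat_lit 466) (nat_lit 495) (nat_lit 1486) (.d (nat_lit 498) (nat_lit 497) (nat_lit 462) (nat_lit 499) (nat_lit 463)))))) (.p (nat_lit 527) (.a (.f (nat_lit 559) (nat_lit 430) (nat_lit 4526) (.d (nat_lit 561) (nat_lit 525) (nat_lit 525) (nat_lit 562) (nat_lit 3598))) (.a (.f (nat_lit 525) (nat_lit 561) (nat_lit 525) (.f (nat_lit 493) (nat_lit 492) (nat_lit 3564) (.d (nat_lit 557) (nat_lit 556) (nat_lit 1548) (nat_lit 589) (nat_lit 6605)))) (.f (nat_lit 559) (nat_lit 430)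 (nat_lit 4526) (.d (nat_lit 591) (nat_lit 495) (nat_lit 7630) (nat_lit 623) (nat_lit 7662))))))))))))
noncomputable def s65134 : Cert := .r (nat_lit 3773962425700235452789419352813872038212591757713659989890119756071788672771079902685788467535047411948435211139331596087834250188907198976029509589286785496786493505536) (.p (nat_lit 463) (.a (.f (nat_lit 465) (nat_lit 493) (nat_lit 1485) (.f (nat_lit 430) (nat_lit 429) (nat_lit 3501) (.f (nat_lit 431) (nat_lit 466) (nat_lit 3502) (.d (nat_lit 526) (nat_lit 399) (nat_lit 6542) (nat_lit 558) (nat_lit 6574))))) (.a (.f (nat_lit 465) (nat_lit 493) (nat_lit 1485) (.f (nat_lit 430) (nat_lit 429) (nat_lit 3501) (.f (nat_lit 466) (nat_lit 431) (nat_lit 3502) (.d (nat_lit 434) (nat_lit 433) (nat_lit 2478) (nat_lit 435) (nat_lit 2479))))) (.a (.f (nat_lit 465) (nat_lit 493) (nat_lit 1485) (.f (nat_lit 433) (nat_lit 434) (nat_lit 2478) (.f (nat_lit 432) (nat_lit 461) (nat_lit 2477)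 (.f (nat_lit 498) (nat_lit 497) (nat_lit 462) (.f (nat_lit 466) (nat_lit 499) (nat_lit 463) (.d (nat_lit 431) (nat_lit 430) (nat_lit 430) (nat_lit 467) (nat_lit 3503))))))) (.a (.f (nat_lit 465) (nat_lit 493) (nat_lit 1485) (.f (nat_lit 433) (nat_lit 434) (nat_lit 2478) (.f (nat_lit 498) (nat_lit 497) (nat_lit 462) (.f (nat_lit 466) (nat_lit 499) (nat_lit 463) (.f (nat_lit 432) (nat_lit 461) (nat_lit 2477) (.d (nat_lit 467) (nat_lit 431) (nat_lit 3503) (nat_lit 468) (nat_lit 3504))))))) (.a (.f (nat_lit 465) (nat_lit 493) (nat_lit 1485) (.f (nat_lit 429) (nat_lit 430) (nat_lit 3501) (.f (nat_lit 461) (nat_lit 428) (nat_lit 3500) (.d (nat_lit 433) (nat_lit 432) (nat_lit 2477) (nat_lit 434) (nat_lit 2478))))) (.a (.p (nat_lit 461) (.a (.f (nat_lit 493) (nat_lit 492) (nat_lit 1484) (.f (nat_lit 429) (nat_lit 428) (nat_lit 3500) (.d (nat_lit 397) (nat_lit 365) (nat_lit 4461) (nat_lit 526) (nat_lit 4493)))) (.a (.f (nat_lit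 493) (nat_lit 492) (nat_lit 1484) (.f (nat_lit 429) (nat_lit 428) (nat_lit 3500) (.d (nat_lit 526) (nat_lit 397) (nat_lit 4493) (nat_lit 558) (nat_lit 7597)))) (.a (.f (nat_lit 432) (nat_lit 433) (nat_lit 2477) (.f (nat_lit 460) (nat_lit 431) (nat_lit 2476) (.d (nat_lit 428) (nat_lit 427) (nat_lit 3499) (nat_lit 429) (nat_lit 3500)))) (.f (nat_lit 493) (nat_lit 492) (nat_lit 1484) (.f (nat_lit 432) (nat_lit 433) (nat_lit 2477) (.f (nat_lit 431) (nat_lit 460) (nat_lit 2476) (.f (nat_lit 526) (nat_lit 558) (nat_lit 6574) (.f (nat_lit 430) (nat_lit 399) (nat_lit 6542) (.d (nat_lit 398) (nat_lit 366) (nat_lit 5485) (nat_lit 525) (nat_lit 5517))))))))))) (.p (nat_lit 465) (.a (.f (nat_lit 429) (nat_lit 430) (nat_lit 3501) (.f (nat_lit 461) (nat_lit 428) (nat_lit 3500) (.d (nat_lit 433) (nat_lit 432) (nat_lit 2477) (nat_lit 434) (nat_lit 2478)))) (.a (.f (nat_lit 433) (nat_lit 434) (nat_lit 2478) (.f (nat_lit 498) (nat_lit 497)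 (nat_lit 462) (.f (nat_lit 466) (nat_lit 499) (nat_lit 463) (.f (nat_lit 432) (nat_lit 461) (nat_lit 2477) (.d (nat_lit 467) (nat_lit 431) (nat_lit 3503) (nat_lit 468) (nat_lit 3504)))))) (.a (.f (nat_lit 430) (nat_lit 429) (nat_lit 3501) (.f (nat_lit 466) (nat_lit 431) (nat_lit 3502) (.d (nat_lit 434) (nat_lit 433) (nat_lit 2478) (nat_lit 435) (nat_lit 2479)))) (.f (nat_lit 430) (nat_lit 429) (nat_lit 3501) (.f (nat_lit 431) (nat_lit 466) (nat_lit 3502) (.d (nat_lit 526) (nat_lit 399) (nat_lit 6542) (nat_lit 558) (nat_lit 6574)))))))))))))))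
noncomputable def s65175 : Cert := .r (nat_lit 3773962425700235452738272624589311872811354115290248995673608856684065905542405513258590247812975560221283939098291971982140250265709139174504620074283388056494680309760) (.p (nat_lit 465) (.a (.f (nat_lit 430) (nat_lit 429) (nat_lit 3501) (.f (nat_lit 431) (nat_lit 466) (nat_lit 3502) (.f (nat_lit 495) (nat_lit 527) (nat_lit 4527) (.f (nat_lit 494) (nat_lit 493) (nat_lit 1485) (.d (nat_lit 399) (nat_lit 367) (nat_lit 5486) (nat_lit 526) (nat_lit 5518)))))) (.a (.f (nat_lit 430) (nat_lit 429) (nat_lit 3501) (.f (nat_lit 466) (nat_lit 431) (nat_lit 3502) (.d (nat_lit 434) (nat_lit 433) (nat_lit 2478) (nat_lit 435) (nat_lit 2479)))) (.a (.f (nat_lit 494) (nat_lit 493) (nat_lit 1485) (.f (nat_lit 466) (nat_lit 495) (nat_lit 1486) (.d (nat_lit 498) (nat_lit 497) (nat_lit 462) (nat_lit 499) (nat_lit 463)))) (.f (nat_lit 433) (nat_lit 434) (nat_lit 2478) (.f (nat_lit 461) (nat_lit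 432) (nat_lit 2477) (.d (nat_lit 493) (nat_lit 492) (nat_lit 1484) (nat_lit 494) (nat_lit 1485))))))))
noncomputable def s65182 : Cert := .r (nat_lit 3773962425700235452738272624589311872811354115290248995673608856684065905542405513258590247812975560221283939098291971982140250265709139174504620074283388056494680309760) (.p (nat_lit 465) (.a (.f (nat_lit 494) (nat_lit 493) (nat_lit 1485) (.f (nat_lit 466) (nat_lit 495) (nat_lit 1486) (.d (nat_lit 498) (nat_lit 497) (nat_lit 462) (nat_lit 499) (nat_lit 463)))) (.a (.f (nat_lit 433) (nat_lit 434) (nat_lit 2478) (.f (nat_lit 461) (nat_lit 432) (nat_lit 2477) (.d (nat_lit 493) (nat_lit 492) (nat_lit 1484) (nat_lit 494) (nat_lit 1485)))) (.f (nat_lit 433) (nat_lit 434) (nat_lit 2478) (.f (nat_lit 432) (nat_lit 461) (nat_lit 2477) (.f (nat_lit 498) (nat_lit 497) (nat_lit 462) (.f (nat_lit 466) (nat_lit 499) (nat_lit 463) (.d (nat_lit 431) (nat_lit 430) (nat_lit 430) (nat_lit 467)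 (nat_lit 3503)))))))))
noncomputable def s65199 : Cert := .r (nat_lit 3773962425700235452738272624589311872811354115290248995673608856684065905542405513258590247812975560221283939098291971982140250265709139174504620074283388056494680309760) (.p (nat_lit 461) (.a (.f (nat_lit 432) (nat_lit 433) (nat_lit 2477) (.f (nat_lit 460) (nat_lit 431) (nat_lit 2476) (.d (nat_lit 492) (nat_lit 491) (nat_lit 1483) (nat_lit 493) (nat_lit 1484)))) (.a (.f (nat_lit 493) (nat_lit 492) (nat_lit 1484) (.f (nat_lit 465) (nat_lit 494) (nat_lit 1485) (.d (nat_lit 433) (nat_lit 432) (nat_lit 2477) (nat_lit 434) (nat_lit 2478)))) (.a (.f (nat_lit 493) (nat_lit 492) (nat_lit 1484) (.f (nat_lit 465) (nat_lit 494) (nat_lit 1485) (.f (nat_lit 434) (nat_lit 433) (nat_lit 2478) (.f (nat_lit 466) (nat_lit 435) (nat_lit 2479) (.d (nat_lit 498) (nat_lit 497) (nat_lit 462) (nat_lit 499) (nat_lit 463)))))) (.a (.f (nat_lit 493) (nat_lit 492) (nat_lit 1484)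 (.f (nat_lit 494) (nat_lit 465) (nat_lit 1485) (.f (nat_lit 428) (nat_lit 429) (nat_lit 3500) (.f (nat_lit 460) (nat_lit 427) (nat_lit 3499) (.d (nat_lit 459) (nat_lit 458) (nat_lit 458) (nat_lit 495) (nat_lit 459)))))) (.f (nat_lit 432) (nat_lit 433) (nat_lit 2477) (.f (nat_lit 460) (nat_lit 431) (nat_lit 2476) (.d (nat_lit 428) (nat_lit 427) (nat_lit 3499) (nat_lit 429) (nat_lit 3500)))))))))
noncomputable def s65207 : Cert := .r (nat_lit 3773962425700235452738272624589311872811354115290248995673608856684065905542405513258590247812975560221283939098291971982140250265709139174504620074283388056494680309760) (.p (nat_lit 465) (.a (.f (nat_lit 430) (nat_lit 429) (nat_lit 3501) (.f (nat_lit 431) (nat_lit 466) (nat_lit 3502) (.f (nat_lit 495) (nat_lit 527) (nat_lit 4527) (.f (nat_lit 494) (nat_lit 493) (nat_lit 1485) (.d (nat_lit 399) (nat_lit 367) (nat_lit 5486) (nat_lit 526) (nat_lit 5518)))))) (.a (.f (nat_lit 430) (nat_lit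 429) (nat_lit 3501) (.f (nat_lit 466) (nat_lit 431) (nat_lit 3502) (.d (nat_lit 434) (nat_lit 433) (nat_lit 2478) (nat_lit 435) (nat_lit 2479)))) (.a (.f (nat_lit 494) (nat_lit 493) (nat_lit 1485) (.f (nat_lit 466) (nat_lit 495) (nat_lit 1486) (.d (nat_lit 498) (nat_lit 497) (nat_lit 462) (nat_lit 499) (nat_lit 463)))) (.f (nat_lit 493) (nat_lit 494) (nat_lit 1485) (.f (nat_lit 461) (nat_lit 492) (nat_lit 1484) (.d (nat_lit 429) (nat_lit 428) (nat_lit 3500) (nat_lit 430) (nat_lit 3501))))))))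
noncomputable def s65211 : Cert := .r (nat_lit 3773962425700235452738272624589311872811354115290248995673608856684065905542405513258590247812975560221283939098291971982140250265709139174504620074283388056494680309760) (.p (nat_lit 465) (.a (.f (nat_lit 430) (nat_lit 429) (nat_lit 3501) (.f (nat_lit 431) (nat_lit 466) (nat_lit 3502) (.f (nat_lit 495) (nat_lit 527) (nat_lit 4527) (.f (nat_lit 494) (nat_lit 493) (nat_lit 1485) (.d (nat_lit 399) (nat_lit 367) (nat_lit 5486) (nat_lit 526) (nat_lit 5518)))))) (.a (.f (nat_lit 494) (nat_lit 493) (nat_lit 1485) (.f (nat_lit 466) (nat_lit 495) (nat_lit 1486) (.d (nat_lit 498) (nat_lit 497) (nat_lit 462) (nat_lit 499) (nat_lit 463)))) (.a (.f (nat_lit 493) (nat_lit 494) (nat_lit 1485) (.f (nat_lit 461) (nat_lit 492) (nat_lit 1484) (.d (nat_lit 429) (nat_lit 428) (nat_lit 3500) (nat_lit 430) (nat_lit 3501)))) (.f (nat_lit 430) (nat_lit 429) (nat_lit 3501) (.f (nat_lit 466) (nat_lit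 431) (nat_lit 3502) (.d (nat_lit 498) (nat_lit 497) (nat_lit 462) (nat_lit 499) (nat_lit 463))))))))
noncomputable def s65227 : Cert := .r (nat_lit 3773962425700235452738272624684580078082227901648329965821105387010866385970413666055805731199980312992883231704502485381294668330889404406481140548387635361160460500992) (.p (nat_lit 495) (.a (.f (nat_lit 527) (nat_lit 431) (nat_lit 4527) (.d (nat_lit 559) (nat_lit 430) (nat_lit 7598) (nat_lit 432) (nat_lit 6575))) (.a (.f (nat_lit 494) (nat_lit 493) (nat_lit 1485) (.f (nat_lit 431) (nat_lit 527) (nat_lit 4527) (.d (nat_lit 399) (nat_lit 367) (nat_lit 5486) (nat_lit 526) (nat_lit 5518)))) (.a (.f (nat_lit 430) (nat_lit 429) (nat_lit 3501) (.f (nat_lit 494) (nat_lit 493) (nat_lit 1485) (.d (nat_lit 398) (nat_lit 366) (nat_lit 4462) (nat_lit 527) (nat_lit 4494)))) (.f (nat_lit 494) (nat_lit 493) (nat_lit 1485) (.f (nat_lit 430) (nat_lit 429) (nat_lit 3501) (.f (nat_lit 398) (nat_lit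 366) (nat_lit 4462) (.f (nat_lit 399) (nat_lit 367) (nat_lit 6510) (.f (nat_lit 526) (nat_lit 431) (nat_lit 5518) (.f (nat_lit 558) (nat_lit 590) (nat_lit 6606) (.d (nat_lit 557) (nat_lit 525) (nat_lit 5549) (nat_lit 589) (nat_lit 5581))))))))))))
noncomputable def s65228 : Cert := .r (nat_lit 3773962425700235452738272624589311872811354115290248995673608856684065905542405513258590247812975560221283939098291971982140250265709139174504620074283388056494680309760) (.p (nat_lit 465) (.a (.f (nat_lit 430) (nat_lit 429) (nat_lit 3501) (.f (nat_lit 431) (nat_lit 466) (nat_lit 3502) (.f (nat_lit 495) (nat_lit 527) (nat_lit 4527) (.f (nat_lit 494) (nat_lit 493) (nat_lit 1485) (.d (nat_lit 399) (nat_lit 367) (nat_lit 5486) (nat_lit 526) (nat_lit 5518)))))) (.a (.f (nat_lit 430) (nat_lit 429) (nat_lit 3501) (.f (nat_lit 466) (nat_lit 431) (nat_lit 3502) (.d (nat_lit 434) (nat_lit 433) (nat_lit 2478) (nat_lit 435) (nat_lit 2479))))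 (.a (.f (nat_lit 494) (nat_lit 493) (nat_lit 1485) (.f (nat_lit 466) (nat_lit 495) (nat_lit 1486) (.d (nat_lit 498) (nat_lit 497) (nat_lit 462) (nat_lit 499) (nat_lit 463)))) s65227))))
noncomputable def s65248 : Cert := .r (nat_lit 3773962425700235452738272624595266135640783726937629056307827389829490935569156022808416215524663357269508894886180129069587401394782905751503152603914903513036291571712) (.f (nat_lit 493) (nat_lit 492) (nat_lit 1484) (.p (nat_lit 525) (.a (.f (nat_lit 429) (nat_lit 428) (nat_lit 3500) (.d (nat_lit 430) (nat_lit 398) (nat_lit 6541) (nat_lit 557) (nat_lit 6573))) (.a (.f (nat_lit 557) (nat_lit 430) (nat_lit 6573) (.f (nat_lit 558) (nat_lit 590) (nat_lit 4557) (.d (nat_lit 429) (nat_lit 428) (nat_lit 3500) (nat_lit 526) (nat_lit 4525)))) (.a (.f (nat_lit 557) (nat_lit 430) (nat_lit 6573) (.f (nat_lit 558) (nat_lit 590) (nat_lit 4557) (.f (nat_lit 526) (nat_lit 429) (nat_lit 4525) (.d (nat_lit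 559) (nat_lit 524) (nat_lit 3596) (nat_lit 561) (nat_lit 3597))))) (.a (.f (nat_lit 557) (nat_lit 430) (nat_lit 6573) (.f (nat_lit 558) (nat_lit 590) (nat_lit 4557) (.f (nat_lit 559) (nat_lit 524) (nat_lit 3596) (.d (nat_lit 556) (nat_lit 527) (nat_lit 2572) (nat_lit 588) (nat_lit 5580))))) (.f (nat_lit 429) (nat_lit 428) (nat_lit 3500) (.f (nat_lit 526) (nat_lit 558) (nat_lit 4525) (.f (nat_lit 527) (nat_lit 561) (nat_lit 525) (.d (nat_lit 524) (nat_lit 556) (nat_lit 5548) (nat_lit 559) (nat_lit 524)))))))))))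
noncomputable def s65249 : Cert := .r (nat_lit 3773962425700235452738272624589311872811354115290248995673608856684065905542405513258590247812975560221283939098291971982140250265709139174504620074283388056494680309760) (.p (nat_lit 461) (.a (.f (nat_lit 432) (nat_lit 433) (nat_lit 2477) (.f (nat_lit 460) (nat_lit 431) (nat_lit 2476) (.d (nat_lit 492) (nat_lit 491) (nat_lit 1483) (nat_lit 493) (nat_lit 1484)))) (.a (.f (nat_lit 492) (nat_lit 493) (nat_lit 1484) (.f (nat_lit 460) (nat_lit 491) (nat_lit 1483) (.d (nat_lit 428) (nat_lit 427) (nat_lit 3499) (nat_lit 429) (nat_lit 3500)))) (.a s65248 (.f (nat_lit 432) (nat_lit 433) (nat_lit 2477) (.f (nat_lit 460) (nat_lit 431) (nat_lit 2476) (.d (nat_lit 428) (nat_lit 427) (nat_lit 3499) (nat_lit 429) (nat_lit 3500))))))))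
noncomputable def s65255 : Cert := .r (nat_lit 3773962425700235452738272624589311872811354115290248995673608856684065905542405513258590247812975560221283939098291971982140250265709139174504620074283388056494680309760) (.p (nat_lit 465) (.a (.f (nat_lit 430) (nat_lit 429) (nat_lit 3501) (.f (nat_lit 466) (nat_lit 431) (nat_lit 3502) (.d (nat_lit 434) (nat_lit 433) (nat_lit 2478) (nat_lit 435) (nat_lit 2479)))) (.a (.f (nat_lit 433) (nat_lit 434) (nat_lit 2478) (.f (nat_lit 432) (nat_lit 461) (nat_lit 2477) (.f (nat_lit 498) (nat_lit 497) (nat_lit 462) (.f (nat_lit 466) (nat_lit 499) (nat_lit 463) (.d (nat_lit 431) (nat_lit 430) (nat_lit 430) (nat_lit 467) (nat_lit 3503)))))) (.a (.f (nat_lit 433) (nat_lit 434) (nat_lit 2478) (.f (nat_lit 432) (nat_lit 461) (nat_lit 2477) (.f (nat_lit 498) (nat_lit 497) (nat_lit 462) (.f (nat_lit 466) (nat_lit 499) (nat_lit 463) (.d (nat_lit 467) (nat_lit 431) (nat_lit 3503) (nat_lit 468)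 (nat_lit 3504)))))) (.a (.f (nat_lit 433) (nat_lit 434) (nat_lit 2478) (.f (nat_lit 461) (nat_lit 432) (nat_lit 2477) (.d (nat_lit 429) (nat_lit 428) (nat_lit 3500) (nat_lit 430) (nat_lit 3501)))) (.f (nat_lit 430) (nat_lit 429) (nat_lit 3501) (.f (nat_lit 466) (nat_lit 431) (nat_lit 3502) (.d (nat_lit 498) (nat_lit 497) (nat_lit 462) (nat_lit 499) (nat_lit 463)))))))))
noncomputable def s65268 : Cert := .r (nat_lit 3773962425919908977913598863693292863783196340666281919494705529172411503465017284554513461202969320449601756898605078052361637646095102592020442191289154402102175334400) (.p (nat_lit 527) (.a (.f (nat_lit 559) (nat_lit 430) (nat_lit 4526) (.d (nat_lit 561) (nat_lit 525) (nat_lit 525) (nat_lit 562) (nat_lit 3598))) (.a (.f (nat_lit 525) (nat_lit 561) (nat_lit 525) (.f (nat_lit 493) (nat_lit 492) (nat_lit 3564) (.f (nat_lit 524) (nat_lit 559) (nat_lit 524) (.d (nat_lit 523) (nat_lit 495) (nat_lit 2539) (nat_lit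 522) (nat_lit 2538))))) (.a (.f (nat_lit 559) (nat_lit 430) (nat_lit 4526) (.d (nat_lit 591) (nat_lit 495) (nat_lit 7630) (nat_lit 558) (nat_lit 4558))) (.f (nat_lit 525) (nat_lit 561) (nat_lit 525) (.f (nat_lit 492) (nat_lit 493) (nat_lit 3564) (.f (nat_lit 524) (nat_lit 491) (nat_lit 3563) (.f (nat_lit 523) (nat_lit 495) (nat_lit 2539) (.d (nat_lit 555) (nat_lit 554) (nat_lit 1546) (nat_lit 556) (nat_lit 1547))))))))))
noncomputable def s65270 : Cert := .r (nat_lit 3773962425919908977913598863693292863783196340666281919494705529172411503465017284554513461202969320449601756898605078052361637646095102592020442191289154402102175334400) (.p (nat_lit 525) (.a (.f (nat_lit 557) (nat_lit 430) (nat_lit 5549) (.d (nat_lit 527) (nat_lit 556) (nat_lit 1548) (nat_lit 561) (nat_lit 525))) (.a (.f (nat_lit 527) (nat_lit 561) (nat_lit 525) (.f (nat_lit 493) (nat_lit 492) (nat_lit 3564) (.d (nat_lit 557) (nat_lit 556) (nat_lit 1548)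 (nat_lit 589) (nat_lit 6605)))) (.a (.f (nat_lit 557) (nat_lit 430) (nat_lit 5549) (.d (nat_lit 589) (nat_lit 493) (nat_lit 6605) (nat_lit 558) (nat_lit 5581))) (.f (nat_lit 527) (nat_lit 561) (nat_lit 525) (.f (nat_lit 492) (nat_lit 493) (nat_lit 3564) (.f (nat_lit 524) (nat_lit 491) (nat_lit 3563) (.f (nat_lit 523) (nat_lit 495) (nat_lit 2539) (.d (nat_lit 555) (nat_lit 554) (nat_lit 1546) (nat_lit 556) (nat_lit 1547))))))))))
noncomputable def s65273 : Cert := .r (nat_lit 3773962425919908977913598863693292863783196340666281919494705529172411503465017284554513461202969320449601756898605078052361637646095102592020442191289154402102175334400) (.p (nat_lit 558) (.a (.f (nat_lit 559) (nat_lit 591) (nat_lit 4558) (.f (nat_lit 527) (nat_lit 430) (nat_lit 4526) (.d (nat_lit 557) (nat_lit 556) (nat_lit 2572) (nat_lit 589) (nat_lit 5581)))) (.a (.f (nat_lit 461) (nat_lit 429) (nat_lit 7597) (.f (nat_lit 590) (nat_lit 493) (nat_lit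 7629) (.d (nat_lit 589) (nat_lit 557) (nat_lit 5581) (nat_lit 621) (nat_lit 5613)))) (.f (nat_lit 559) (nat_lit 591) (nat_lit 4558) (.f (nat_lit 527) (nat_lit 430) (nat_lit 4526) (.f (nat_lit 461) (nat_lit 429) (nat_lit 7597) (.f (nat_lit 590) (nat_lit 493) (nat_lit 7629) (.d (nat_lit 622) (nat_lit 495) (nat_lit 6638) (nat_lit 654) (nat_lit 6670)))))))))
noncomputable def s65274 : Cert := .r (nat_lit 3773962425919908977862452135444915647064240251653350682741320497202988616129340856928011370634146280529550661706012825596879033206601976482501422557759695135643917090816) (.p (nat_lit 494) (.a (.p (nat_lit 527) (.a (.f (nat_lit 559) (nat_lit 430) (nat_lit 4526) (.d (nat_lit 561) (nat_lit 525) (nat_lit 525) (nat_lit 562) (nat_lit 3598))) (.a (.f (nat_lit 525) (nat_lit 561) (nat_lit 525) (.f (nat_lit 493) (nat_lit 492) (nat_lit 3564) (.d (nat_lit 557) (nat_lit 556) (nat_lit 1548) (nat_lit 589) (nat_lit 6605)))) (.f (nat_lit 559)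 (nat_lit 430) (nat_lit 4526) (.d (nat_lit 591) (nat_lit 495) (nat_lit 7630) (nat_lit 558) (nat_lit 4558)))))) (.a s64606 (.a s64560 (.a s64907 (.a s65268 (.a (.p (nat_lit 527) (.a (.f (nat_lit 559) (nat_lit 430) (nat_lit 4526) (.d (nat_lit 561) (nat_lit 525) (nat_lit 525) (nat_lit 562) (nat_lit 3598))) (.a (.f (nat_lit 525) (nat_lit 561) (nat_lit 525) (.f (nat_lit 493) (nat_lit 492) (nat_lit 3564) (.d (nat_lit 557) (nat_lit 556) (nat_lit 1548) (nat_lit 589) (nat_lit 6605)))) (.f (nat_lit 559) (nat_lit 430) (nat_lit 4526) (.d (nat_lit 591) (nat_lit 495) (nat_lit 7630) (nat_lit 623) (nat_lit 7662)))))) (.a s65270 s65273))))))))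
noncomputable def s65284 : Cert := .r (nat_lit 3773962425700235452789419352813872038212591757713659989890119756071788672771079902685788467535047411948435211139331596087834250188907198976029509589286785496786493505536) (.p (nat_lit 526) (.a (.p (nat_lit 527) (.a (.f (nat_lit 559) (nat_lit 430) (nat_lit 4526) (.d (nat_lit 561) (nat_lit 525) (nat_lit 525) (nat_lit 562) (nat_lit 3598))) (.a (.f (nat_lit 525) (nat_lit 561) (nat_lit 525) (.f (nat_lit 493) (nat_lit 492) (nat_lit 3564) (.d (nat_lit 557) (nat_lit 556) (nat_lit 1548) (nat_lit 589) (nat_lit 6605)))) (.f (nat_lit 559) (nat_lit 430) (nat_lit 4526) (.d (nat_lit 591) (nat_lit 495) (nat_lit 7630) (nat_lit 558) (nat_lit 4558)))))) (.a s64606 (.a s64560 (.a s64907 (.a s65268 (.a (.p (nat_lit 527) (.a (.f (nat_lit 559) (nat_lit 430) (nat_lit 4526) (.d (nat_lit 561) (nat_lit 525) (nat_lit 525) (nat_lit 562) (nat_lit 3598))) (.a (.f (nat_lit 525) (nat_lit 561) (nat_lit 525)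 (.f (nat_lit 493) (nat_lit 492) (nat_lit 3564) (.d (nat_lit 557) (nat_lit 556) (nat_lit 1548) (nat_lit 589) (nat_lit 6605)))) (.f (nat_lit 559) (nat_lit 430) (nat_lit 4526) (.d (nat_lit 591) (nat_lit 495) (nat_lit 7630) (nat_lit 623) (nat_lit 7662)))))) (.a s65270 s65273))))))))
noncomputable def s65315 : Cert := .r (nat_lit 3773962425919908977862452135468732698381958698242870925278194629784688736236342895127315241480897468722450484857565453946667637722897042790495552676285756961810362138624) (.p (nat_lit 465) (.a (.f (nat_lit 494) (nat_lit 493) (nat_lit 1485) (.f (nat_lit 466) (nat_lit 495) (nat_lit 1486) (.d (nat_lit 498) (nat_lit 497) (nat_lit 462) (nat_lit 499) (nat_lit 463)))) (.a (.f (nat_lit 493) (nat_lit 494) (nat_lit 1485) (.f (nat_lit 461) (nat_lit 492) (nat_lit 1484) (.d (nat_lit 433) (nat_lit 432) (nat_lit 2477) (nat_lit 434) (nat_lit 2478)))) (.a (.f (nat_lit 433) (nat_lit 434) (nat_lit 2478) (.f (nat_lit 498)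 (nat_lit 497) (nat_lit 462) (.f (nat_lit 466) (nat_lit 499) (nat_lit 463) (.f (nat_lit 432) (nat_lit 461) (nat_lit 2477) (.f (nat_lit 495) (nat_lit 494) (nat_lit 1486) (.f (nat_lit 527) (nat_lit 559) (nat_lit 6575) (.f (nat_lit 562) (nat_lit 530) (nat_lit 7601) (.d (nat_lit 561) (nat_lit 525) (nat_lit 525) (nat_lit 563) (nat_lit 3599))))))))) (.f (nat_lit 434) (nat_lit 433) (nat_lit 2478) (.f (nat_lit 466) (nat_lit 435) (nat_lit 2479) (.d (nat_lit 498) (nat_lit 497) (nat_lit 462) (nat_lit 499) (nat_lit 463))))))))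
noncomputable def s65321 : Cert := .r (nat_lit 3773962425919908977862452135468732698381958698242870925278194629784688736236342895127315241480897468722450484857565453946667637722897042790495552676285756961810362138624) (.p (nat_lit 527) (.a (.f (nat_lit 495) (nat_lit 431) (nat_lit 4527) (.f (nat_lit 559) (nat_lit 432) (nat_lit 6575) (.d (nat_lit 525) (nat_lit 524) (nat_lit 524) (nat_lit 561) (nat_lit 525)))) (.a (.f (nat_lit 525) (nat_lit 561) (nat_lit 525) (.f (nat_lit 524) (nat_lit 559) (nat_lit 524) (.d (nat_lit 556) (nat_lit 555) (nat_lit 1547) (nat_lit 557) (nat_lit 1548)))) (.a (.f (nat_lit 495) (nat_lit 431) (nat_lit 4527) (.f (nat_lit 559) (nat_lit 432) (nat_lit 6575) (.d (nat_lit 561) (nat_lit 525) (nat_lit 525) (nat_lit 562) (nat_lit 3598)))) (.a (.f (nat_lit 495) (nat_lit 431) (nat_lit 4527) (.f (nat_lit 432) (nat_lit 559) (nat_lit 6575) (.f (nat_lit 433) (nat_lit 461) (nat_lit 2477) (.d (nat_lit 434) (nat_lit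 435) (nat_lit 1455) (nat_lit 465) (nat_lit 2478))))) (.f (nat_lit 525) (nat_lit 561) (nat_lit 525) (.f (nat_lit 492) (nat_lit 493) (nat_lit 3564) (.f (nat_lit 524) (nat_lit 491) (nat_lit 3563) (.d (nat_lit 556) (nat_lit 555) (nat_lit 1547) (nat_lit 557) (nat_lit 1548))))))))))
noncomputable def s65322 : Cert := .r (nat_lit 3773962425919908977862452135444915647064240251653350682741320497202988616129340856928011370634146280529550661706012825596879033206601976482501422557759695135643917090816) (.p (nat_lit 463) (.a (.p (nat_lit 494) (.a (.f (nat_lit 558) (nat_lit 431) (nat_lit 6574) (.f (nat_lit 493) (nat_lit 465) (nat_lit 1485) (.d (nat_lit 461) (nat_lit 429) (nat_lit 7597) (nat_lit 492) (nat_lit 1484)))) (.a (.f (nat_lit 493) (nat_lit 465) (nat_lit 1485) (.d (nat_lit 492) (nat_lit 461) (nat_lit 1484) (nat_lit 491) (nat_lit 2507))) (.f (nat_lit 558) (nat_lit 431) (nat_lit 6574) (.f (nat_lit 559) (nat_lit 591) (nat_lit 4558)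 (.f (nat_lit 525) (nat_lit 561) (nat_lit 3597) (.d (nat_lit 557) (nat_lit 524) (nat_lit 3596) (nat_lit 589) (nat_lit 5581)))))))) (.a (.p (nat_lit 494) (.a (.f (nat_lit 493) (nat_lit 465) (nat_lit 1485) (.d (nat_lit 492) (nat_lit 461) (nat_lit 1484) (nat_lit 491) (nat_lit 2507))) (.f (nat_lit 558) (nat_lit 431) (nat_lit 6574) (.f (nat_lit 559) (nat_lit 591) (nat_lit 4558) (.f (nat_lit 525) (nat_lit 561) (nat_lit 3597) (.d (nat_lit 557) (nat_lit 524) (nat_lit 3596) (nat_lit 589) (nat_lit 5581))))))) (.a s65315 (.a (.p (nat_lit 494) (.a (.f (nat_lit 558) (nat_lit 431) (nat_lit 6574) (.f (nat_lit 559) (nat_lit 591) (nat_lit 4558) (.f (nat_lit 525) (nat_lit 561) (nat_lit 3597) (.d (nat_lit 557) (nat_lit 524) (nat_lit 3596) (nat_lit 589) (nat_lit 5581))))) (.f (nat_lit 465) (nat_lit 493) (nat_lit 1485) (.f (nat_lit 466) (nat_lit 495) (nat_lit 1486) (.d (nat_lit 498) (nat_lit 497) (nat_lit 462) (nat_lit 499) (nat_lit 463))))))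 (.a (.p (nat_lit 527) (.a (.f (nat_lit 495) (nat_lit 431) (nat_lit 4527) (.f (nat_lit 559) (nat_lit 432) (nat_lit 6575) (.d (nat_lit 525) (nat_lit 524) (nat_lit 524) (nat_lit 561) (nat_lit 525)))) (.a (.f (nat_lit 525) (nat_lit 561) (nat_lit 525) (.f (nat_lit 524) (nat_lit 559) (nat_lit 524) (.d (nat_lit 556) (nat_lit 555) (nat_lit 1547) (nat_lit 557) (nat_lit 1548)))) (.a (.f (nat_lit 495) (nat_lit 431) (nat_lit 4527) (.f (nat_lit 559) (nat_lit 432) (nat_lit 6575) (.d (nat_lit 561) (nat_lit 525) (nat_lit 525) (nat_lit 562) (nat_lit 3598)))) (.a (.f (nat_lit 495) (nat_lit 431) (nat_lit 4527) (.f (nat_lit 559) (nat_lit 432) (nat_lit 6575) (.f (nat_lit 558) (nat_lit 590) (nat_lit 5582) (.f (nat_lit 494) (nat_lit 591) (nat_lit 4558) (.d (nat_lit 557) (nat_lit 556) (nat_lit 2572) (nat_lit 589) (nat_lit 5581)))))) (.f (nat_lit 525) (nat_lit 561) (nat_lit 525) (.f (nat_lit 492) (nat_lit 493) (nat_lit 3564) (.f (nat_lit 524) (nat_lit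 491) (nat_lit 3563) (.d (nat_lit 556) (nat_lit 555) (nat_lit 1547) (nat_lit 557) (nat_lit 1548)))))))))) (.a s64866 (.a s65321 s64881))))))))
noncomputable def s65333 : Cert := .r (nat_lit 3773962425700235452738272624589311872811354115290248995673608856684065905542405513258590247812975560221283939098291971982140250265709139174504620074283388056494680309760) (.p (nat_lit 465) (.a (.f (nat_lit 494) (nat_lit 493) (nat_lit 1485) (.f (nat_lit 466) (nat_lit 495) (nat_lit 1486) (.d (nat_lit 498) (nat_lit 497) (nat_lit 462) (nat_lit 499) (nat_lit 463)))) (.a (.f (nat_lit 433) (nat_lit 434) (nat_lit 2478) (.f (nat_lit 461) (nat_lit 432) (nat_lit 2477) (.d (nat_lit 493) (nat_lit 492) (nat_lit 1484) (nat_lit 494) (nat_lit 1485)))) (.f (nat_lit 433) (nat_lit 434) (nat_lit 2478) (.f (nat_lit 432) (nat_lit 461) (nat_lit 2477) (.f (nat_lit 498) (nat_lit 497) (nat_lit 462) (.f (nat_lit 466) (nat_lit 499) (nat_lit 463) (.d (nat_lit 467)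 (nat_lit 431) (nat_lit 3503) (nat_lit 468) (nat_lit 3504)))))))))
noncomputable def s65363 : Cert := .r (nat_lit 3773962425700235452738272624589311872811354115290248995673608856684065905542405513258590247812975560221283939098291971982140250265709139174504620074283388056494680309760) (.p (nat_lit 465) (.a (.f (nat_lit 430) (nat_lit 429) (nat_lit 3501) (.f (nat_lit 431) (nat_lit 466) (nat_lit 3502) (.f (nat_lit 495) (nat_lit 527) (nat_lit 4527) (.f (nat_lit 494) (nat_lit 493) (nat_lit 1485) (.d (nat_lit 399) (nat_lit 367) (nat_lit 5486) (nat_lit 526) (nat_lit 5518)))))) (.a (.f (nat_lit 494) (nat_lit 493) (nat_lit 1485) (.f (nat_lit 466) (nat_lit 495) (nat_lit 1486) (.d (nat_lit 498) (nat_lit 497) (nat_lit 462) (nat_lit 499) (nat_lit 463)))) (.a s65227 (.f (nat_lit 430) (nat_lit 429) (nat_lit 3501) (.f (nat_lit 466) (nat_lit 431) (nat_lit 3502) (.d (nat_lit 498) (nat_lit 497) (nat_lit 462) (nat_lit 499) (nat_lit 463))))))))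
noncomputable def s65380 : Cert := .r (nat_lit 3773962426139582502986631646348153523952563281195492854882780402885311566930280276996040235148819377223617030616838935911195025180084946406486485278288125867126043967488) (.p (nat_lit 559) (.a (.d (nat_lit 495) (nat_lit 430) (nat_lit 7598) (nat_lit 432) (nat_lit 6575)) (.a (.f (nat_lit 495) (nat_lit 432) (nat_lit 6575) (.f (nat_lit 558) (nat_lit 590) (nat_lit 5582) (.f (nat_lit 494) (nat_lit 591) (nat_lit 7630) (.f (nat_lit 557) (nat_lit 556) (nat_lit 2572) (.d (nat_lit 589) (nat_lit 526) (nat_lit 5581) (nat_lit 588) (nat_lit 1580)))))) (.a (.f (nat_lit 495) (nat_lit 430) (nat_lit 7598) (.f (nat_lit 558) (nat_lit 590) (nat_lit 5582) (.f (nat_lit 494) (nat_lit 591) (nat_lit 7630) (.f (nat_lit 557) (nat_lit 556) (nat_lit 2572) (.d (nat_lit 589) (nat_lit 526) (nat_lit 5581) (nat_lit 588) (nat_lit 1580)))))) (.p (nat_lit 526) (.a (.d (nat_lit 525) (nat_lit 524) (nat_lit 524) (nat_lit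 561) (nat_lit 525)) (.a (.d (nat_lit 561) (nat_lit 525) (nat_lit 525) (nat_lit 562) (nat_lit 3598)) (.f (nat_lit 494) (nat_lit 430) (nat_lit 4526) (.d (nat_lit 591) (nat_lit 558) (nat_lit 4558) (nat_lit 623) (nat_lit 7662))))))))))
noncomputable def s65408 : Cert := .r (nat_lit 3773962426139582502986631646348153523952563281195492854882780402885311566930280276996040235148819377223617030616838935911195025180084946406486485278288125867126043967488) (.p (nat_lit 526) (.a (.f (nat_lit 525) (nat_lit 561) (nat_lit 525) (.f (nat_lit 557) (nat_lit 556) (nat_lit 1548) (.f (nat_lit 494) (nat_lit 430) (nat_lit 5549) (.d (nat_lit 558) (nat_lit 431) (nat_lit 6574) (nat_lit 589) (nat_lit 5581))))) (.a (.f (nat_lit 525) (nat_lit 561) (nat_lit 525) (.f (nat_lit 492) (nat_lit 493) (nat_lit 3564) (.f (nat_lit 524) (nat_lit 491) (nat_lit 3563) (.d (nat_lit 556) (nat_lit 555) (nat_lit 1547) (nat_lit 557) (nat_lit 1548))))) (.f (nat_lit 431)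 (nat_lit 495) (nat_lit 4527) (.f (nat_lit 494) (nat_lit 558) (nat_lit 6574) (.d (nat_lit 399) (nat_lit 367) (nat_lit 5486) (nat_lit 430) (nat_lit 6542)))))))
noncomputable def s65409 : Cert := .r (nat_lit 3773962425700235452738272624589311872811354115290248995673608856684065905542405513258590247812975560221283939098291971982140250265709139174504620074283388056494680309760) (.p (nat_lit 527) (.a (.f (nat_lit 495) (nat_lit 431) (nat_lit 4527) (.d (nat_lit 559) (nat_lit 430) (nat_lit 7598) (nat_lit 432) (nat_lit 6575))) (.a (.f (nat_lit 495) (nat_lit 431) (nat_lit 4527) (.f (nat_lit 559) (nat_lit 432) (nat_lit 6575) (.f (nat_lit 558) (nat_lit 590) (nat_lit 5582) (.f (nat_lit 494) (nat_lit 591) (nat_lit 7630) (.f (nat_lit 557) (nat_lit 556) (nat_lit 2572) (.d (nat_lit 589) (nat_lit 526) (nat_lit 5581) (nat_lit 588) (nat_lit 1580))))))) (.a s65380 (.a (.f (nat_lit 495) (nat_lit 431) (nat_lit 4527) (.f (nat_lit 559) (nat_lit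 430) (nat_lit 7598) (.f (nat_lit 558) (nat_lit 590) (nat_lit 5582) (.f (nat_lit 494) (nat_lit 591) (nat_lit 7630) (.f (nat_lit 557) (nat_lit 556) (nat_lit 2572) (.d (nat_lit 589) (nat_lit 526) (nat_lit 5581) (nat_lit 588) (nat_lit 1580))))))) (.a (.p (nat_lit 526) (.a (.f (nat_lit 525) (nat_lit 561) (nat_lit 525) (.f (nat_lit 557) (nat_lit 556) (nat_lit 1548) (.f (nat_lit 494) (nat_lit 430) (nat_lit 5549) (.d (nat_lit 558) (nat_lit 431) (nat_lit 6574) (nat_lit 589) (nat_lit 5581))))) (.a (.f (nat_lit 525) (nat_lit 561) (nat_lit 525) (.f (nat_lit 524) (nat_lit 559) (nat_lit 524) (.d (nat_lit 556) (nat_lit 555) (nat_lit 1547) (nat_lit 557) (nat_lit 1548)))) (.a (.p (nat_lit 494) (.a (.f (nat_lit 558) (nat_lit 431) (nat_lit 6574) (.d (nat_lit 559) (nat_lit 430) (nat_lit 4526) (nat_lit 591) (nat_lit 4558))) (.a (.f (nat_lit 558) (nat_lit 431) (nat_lit 6574) (.f (nat_lit 559) (nat_lit 591) (nat_lit 4558) (.d (nat_lit 557) (nat_lit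 556) (nat_lit 2572) (nat_lit 589) (nat_lit 5581)))) (.a (.f (nat_lit 559) (nat_lit 430) (nat_lit 4526) (.d (nat_lit 591) (nat_lit 558) (nat_lit 4558) (nat_lit 623) (nat_lit 7662))) (.a (.f (nat_lit 430) (nat_lit 559) (nat_lit 4526) (.f (nat_lit 431) (nat_lit 399) (nat_lit 6542) (.f (nat_lit 397) (nat_lit 429) (nat_lit 7565) (.f (nat_lit 398) (nat_lit 365) (nat_lit 7533) (.f (nat_lit 432) (nat_lit 433) (nat_lit 3469) (.f (nat_lit 366) (nat_lit 334) (nat_lit 4430) (.d (nat_lit 461) (nat_lit 460) (nat_lit 2476) (nat_lit 493) (nat_lit 5485)))))))) (.f (nat_lit 558) (nat_lit 431) (nat_lit 6574) (.f (nat_lit 461) (nat_lit 429) (nat_lit 7597) (.d (nat_lit 493) (nat_lit 492) (nat_lit 1484) (nat_lit 590) (nat_lit 7629))))))))) (.f (nat_lit 525) (nat_lit 561) (nat_lit 525) (.f (nat_lit 559) (nat_lit 524) (nat_lit 524) (.f (nat_lit 494) (nat_lit 430) (nat_lit 4526) (.d (nat_lit 591) (nat_lit 558) (nat_lit 4558) (nat_lit 623) (nat_lit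 7662))))))))) s65408))))))
noncomputable def s65429 : Cert := .r (nat_lit 3773962425700235452738272624589311872811354115290248995673608856684065905542405513258590247812975560221283939098291971982140250265709139174504620074283388056494680309760) (.p (nat_lit 465) (.a (.f (nat_lit 430) (nat_lit 429) (nat_lit 3501) (.f (nat_lit 466) (nat_lit 431) (nat_lit 3502) (.d (nat_lit 434) (nat_lit 433) (nat_lit 2478) (nat_lit 435) (nat_lit 2479)))) (.a (.f (nat_lit 433) (nat_lit 434) (nat_lit 2478) (.f (nat_lit 432) (nat_lit 461) (nat_lit 2477) (.f (nat_lit 498) (nat_lit 497) (nat_lit 462) (.f (nat_lit 466) (nat_lit 499) (nat_lit 463) (.d (nat_lit 431) (nat_lit 430) (nat_lit 430) (nat_lit 467) (nat_lit 3503)))))) (.a (.f (nat_lit 433) (nat_lit 434) (nat_lit 2478) (.f (nat_lit 432) (nat_lit 461) (nat_lit 2477) (.f (nat_lit 498) (nat_lit 497) (nat_lit 462) (.f (nat_lit 466) (nat_lit 499) (nat_lit 463) (.d (nat_lit 467) (nat_lit 431) (nat_lit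 3503) (nat_lit 468) (nat_lit 3504)))))) (.a (.f (nat_lit 434) (nat_lit 433) (nat_lit 2478) (.f (nat_lit 466) (nat_lit 435) (nat_lit 2479) (.d (nat_lit 498) (nat_lit 497) (nat_lit 462) (nat_lit 499) (nat_lit 463)))) (.a (.f (nat_lit 430) (nat_lit 429) (nat_lit 3501) (.f (nat_lit 466) (nat_lit 431) (nat_lit 3502) (.d (nat_lit 498) (nat_lit 497) (nat_lit 462) (nat_lit 499) (nat_lit 463)))) (.p (nat_lit 495) (.a (.f (nat_lit 527) (nat_lit 431) (nat_lit 4527) (.d (nat_lit 559) (nat_lit 430) (nat_lit 7598) (nat_lit 432) (nat_lit 6575))) (.a (.f (nat_lit 527) (nat_lit 431) (nat_lit 4527) (.f (nat_lit 559) (nat_lit 432) (nat_lit 6575) (.f (nat_lit 558) (nat_lit 590) (nat_lit 5582) (.f (nat_lit 557) (nat_lit 556) (nat_lit 2572) (.f (nat_lit 525) (nat_lit 524) (nat_lit 3596) (.f (nat_lit 526) (nat_lit 561) (nat_lit 525) (.d (nat_lit 494) (nat_lit 589) (nat_lit 5581) (nat_lit 591) (nat_lit 7630)))))))) (.a (.f (nat_lit 430) (nat_lit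 429) (nat_lit 3501) (.f (nat_lit 527) (nat_lit 559) (nat_lit 7598) (.d (nat_lit 398) (nat_lit 366) (nat_lit 4462) (nat_lit 494) (nat_lit 4494)))) (.f (nat_lit 433) (nat_lit 434) (nat_lit 2478) (.f (nat_lit 432) (nat_lit 461) (nat_lit 2477) (.f (nat_lit 368) (nat_lit 400) (nat_lit 5487) (.f (nat_lit 430) (nat_lit 429) (nat_lit 3501) (.f (nat_lit 398) (nat_lit 366) (nat_lit 4462) (.f (nat_lit 431) (nat_lit 397) (nat_lit 3469) (.f (nat_lit 401) (nat_lit 402) (nat_lit 2446) (.d (nat_lit 369) (nat_lit 336) (nat_lit 7504) (nat_lit 337) (nat_lit 5456)))))))))))))))))))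
noncomputable def s65468 : Cert := .r (nat_lit 3773962425700235452738272624589311872811354115290248995673608856684065905542405513258590247812975560221283939098291971982140250265709139174504620074283388056494680309760) (.p (nat_lit 465) (.a (.f (nat_lit 430) (nat_lit 429) (nat_lit 3501) (.f (nat_lit 466) (nat_lit 431) (nat_lit 3502) (.d (nat_lit 434) (nat_lit 433) (nat_lit 2478) (nat_lit 435) (nat_lit 2479)))) (.a (.f (nat_lit 433) (nat_lit 434) (nat_lit 2478) (.f (nat_lit 432) (nat_lit 461) (nat_lit 2477) (.f (nat_lit 498) (nat_lit 497) (nat_lit 462) (.f (nat_lit 466) (nat_lit 499) (nat_lit 463) (.d (nat_lit 431) (nat_lit 430) (nat_lit 430) (nat_lit 467) (nat_lit 3503)))))) (.a (.f (nat_lit 433) (nat_lit 434) (nat_lit 2478) (.f (nat_lit 432) (nat_lit 461) (nat_lit 2477) (.f (nat_lit 498) (nat_lit 497) (nat_lit 462) (.f (nat_lit 466) (nat_lit 499) (nat_lit 463) (.d (nat_lit 467) (nat_lit 431) (nat_lit 3503) (nat_lit 468)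 (nat_lit 3504)))))) (.a (.f (nat_lit 434) (nat_lit 433) (nat_lit 2478) (.f (nat_lit 466) (nat_lit 435) (nat_lit 2479) (.d (nat_lit 498) (nat_lit 497) (nat_lit 462) (nat_lit 499) (nat_lit 463)))) (.a (.f (nat_lit 430) (nat_lit 429) (nat_lit 3501) (.f (nat_lit 466) (nat_lit 431) (nat_lit 3502) (.d (nat_lit 498) (nat_lit 497) (nat_lit 462) (nat_lit 499) (nat_lit 463)))) (.f (nat_lit 433) (nat_lit 434) (nat_lit 2478) (.p (nat_lit 401) (.a (.f (nat_lit 432) (nat_lit 461) (nat_lit 2477) (.f (nat_lit 497) (nat_lit 498) (nat_lit 462) (.f (nat_lit 402) (nat_lit 370) (nat_lit 6513) (.d (nat_lit 430) (nat_lit 429) (nat_lit 3501) (nat_lit 431) (nat_lit 2446))))) (.a (.f (nat_lit 432) (nat_lit 461) (nat_lit 2477) (.f (nat_lit 430) (nat_lit 429) (nat_lit 3501) (.f (nat_lit 431) (nat_lit 402) (nat_lit 2446) (.f (nat_lit 495) (nat_lit 527) (nat_lit 4527) (.d (nat_lit 398) (nat_lit 366) (nat_lit 4462) (nat_lit 397) (nat_lit 3469)))))) (.a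 (.f (nat_lit 432) (nat_lit 461) (nat_lit 2477) (.f (nat_lit 497) (nat_lit 498) (nat_lit 462) (.f (nat_lit 400) (nat_lit 368) (nat_lit 4464) (.f (nat_lit 369) (nat_lit 337) (nat_lit 5456) (.f (nat_lit 430) (nat_lit 429) (nat_lit 3501) (.f (nat_lit 370) (nat_lit 338) (nat_lit 6481) (.f (nat_lit 398) (nat_lit 399) (nat_lit 2414) (.f (nat_lit 495) (nat_lit 366) (nat_lit 4462) (.d (nat_lit 431) (nat_lit 397) (nat_lit 3469) (nat_lit 527) (nat_lit 4527)))))))))) (.a (.f (nat_lit 497) (nat_lit 498) (nat_lit 462) (.f (nat_lit 432) (nat_lit 461) (nat_lit 2477) (.f (nat_lit 400) (nat_lit 368) (nat_lit 7536) (.f (nat_lit 402) (nat_lit 370) (nat_lit 6513) (.d (nat_lit 431) (nat_lit 403) (nat_lit 1423) (nat_lit 430) (nat_lit 2446)))))) (.a (.f (nat_lit 497) (nat_lit 498) (nat_lit 462) (.f (nat_lit 432) (nat_lit 461) (nat_lit 2477) (.f (nat_lit 400) (nat_lit 368) (nat_lit 7536) (.f (nat_lit 402) (nat_lit 370) (nat_lit 6513) (.d (nat_lit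 403) (nat_lit 404) (nat_lit 1424) (nat_lit 431) (nat_lit 1423)))))) (.a (.f (nat_lit 497) (nat_lit 498) (nat_lit 462) (.f (nat_lit 432) (nat_lit 461) (nat_lit 2477) (.f (nat_lit 368) (nat_lit 400) (nat_lit 7536) (.d (nat_lit 369) (nat_lit 336) (nat_lit 7504) (nat_lit 337) (nat_lit 5456))))) (.f (nat_lit 497) (nat_lit 498) (nat_lit 462) (.f (nat_lit 368) (nat_lit 400) (nat_lit 7536) (.f (nat_lit 369) (nat_lit 336) (nat_lit 7504) (.d (nat_lit 370) (nat_lit 338) (nat_lit 6481) (nat_lit 402) (nat_lit 6513)))))))))))))))))))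
noncomputable def s65511 : Cert := .r (nat_lit 3773962425700235452738272624589311872811354115290248995673608856684065905542405513258590247812975560221283939098291971982140250265709139174504620074283388056494680309760) (.p (nat_lit 465) (.a (.f (nat_lit 494) (nat_lit 493) (nat_lit 1485) (.f (nat_lit 466) (nat_lit 495) (nat_lit 1486) (.d (nat_lit 498) (nat_lit 497) (nat_lit 462) (nat_lit 499) (nat_lit 463)))) (.a (.p (nat_lit 527) (.a (.f (nat_lit 495) (nat_lit 431) (nat_lit 4527) (.f (nat_lit 494) (nat_lit 493) (nat_lit 1485) (.d (nat_lit 559) (nat_lit 430) (nat_lit 7598) (nat_lit 591) (nat_lit 7630)))) (.a (.f (nat_lit 494) (nat_lit 493) (nat_lit 1485) (.f (nat_lit 431) (nat_lit 495) (nat_lit 4527) (.f (nat_lit 526) (nat_lit 558) (nat_lit 6574) (.f (nat_lit 525) (nat_lit 561) (nat_lit 525) (.f (nat_lit 524) (nat_lit 559) (nat_lit 524) (.d (nat_lit 556) (nat_lit 555) (nat_lit 1547) (nat_lit 557) (nat_lit 1548))))))) (.a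 (.p (nat_lit 559) (.a (.f (nat_lit 494) (nat_lit 493) (nat_lit 1485) (.d (nat_lit 430) (nat_lit 495) (nat_lit 7598) (nat_lit 526) (nat_lit 4526))) (.a (.f (nat_lit 494) (nat_lit 493) (nat_lit 1485) (.f (nat_lit 591) (nat_lit 495) (nat_lit 7630) (.d (nat_lit 623) (nat_lit 526) (nat_lit 7662) (nat_lit 655) (nat_lit 6671)))) (.a (.f (nat_lit 495) (nat_lit 430) (nat_lit 7598) (.f (nat_lit 558) (nat_lit 590) (nat_lit 5582) (.f (nat_lit 557) (nat_lit 556) (nat_lit 2572) (.f (nat_lit 525) (nat_lit 524) (nat_lit 3596) (.f (nat_lit 526) (nat_lit 561) (nat_lit 525) (.d (nat_lit 494) (nat_lit 589) (nat_lit 5581) (nat_lit 591) (nat_lit 7630))))))) (.a (.f (nat_lit 495) (nat_lit 430) (nat_lit 7598) (.f (nat_lit 558) (nat_lit 590) (nat_lit 5582) (.f (nat_lit 557) (nat_lit 556) (nat_lit 2572) (.f (nat_lit 525) (nat_lit 524) (nat_lit 3596) (.f (nat_lit 561) (nat_lit 526) (nat_lit 525) (.f (nat_lit 562) (nat_lit 563) (nat_lit 3599) (.d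 (nat_lit 594) (nat_lit 593) (nat_lit 558) (nat_lit 595) (nat_lit 559)))))))) (.a (.f (nat_lit 494) (nat_lit 493) (nat_lit 1485) (.f (nat_lit 526) (nat_lit 430) (nat_lit 4526) (.d (nat_lit 525) (nat_lit 524) (nat_lit 524) (nat_lit 561) (nat_lit 525)))) (.f (nat_lit 495) (nat_lit 430) (nat_lit 7598) (.d (nat_lit 494) (nat_lit 493) (nat_lit 1485) (nat_lit 591) (nat_lit 7630))))))))) (.a (.f (nat_lit 495) (nat_lit 431) (nat_lit 4527) (.f (nat_lit 559) (nat_lit 430) (nat_lit 7598) (.f (nat_lit 558) (nat_lit 590) (nat_lit 5582) (.f (nat_lit 557) (nat_lit 556) (nat_lit 2572) (.f (nat_lit 525) (nat_lit 524) (nat_lit 3596) (.f (nat_lit 526) (nat_lit 561) (nat_lit 525) (.d (nat_lit 494) (nat_lit 589) (nat_lit 5581) (nat_lit 591) (nat_lit 7630)))))))) (.a (.f (nat_lit 495) (nat_lit 431) (nat_lit 4527) (.f (nat_lit 559) (nat_lit 430) (nat_lit 7598) (.f (nat_lit 558) (nat_lit 590) (nat_lit 5582) (.f (nat_lit 557) (nat_lit 556) (nat_lit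 2572) (.f (nat_lit 525) (nat_lit 524) (nat_lit 3596) (.f (nat_lit 561) (nat_lit 526) (nat_lit 525) (.f (nat_lit 562) (nat_lit 563) (nat_lit 3599) (.d (nat_lit 594) (nat_lit 593) (nat_lit 558) (nat_lit 595) (nat_lit 559))))))))) (.a (.p (nat_lit 526) (.a (.f (nat_lit 494) (nat_lit 493) (nat_lit 1485) (.f (nat_lit 559) (nat_lit 430) (nat_lit 4526) (.d (nat_lit 561) (nat_lit 525) (nat_lit 525) (nat_lit 562) (nat_lit 3598)))) (.a (.f (nat_lit 525) (nat_lit 561) (nat_lit 525) (.d (nat_lit 493) (nat_lit 492) (nat_lit 3564) (nat_lit 494) (nat_lit 1485))) (.a (.f (nat_lit 525) (nat_lit 561) (nat_lit 525) (.f (nat_lit 524) (nat_lit 559) (nat_lit 524) (.d (nat_lit 556) (nat_lit 555) (nat_lit 1547) (nat_lit 557) (nat_lit 1548)))) (.f (nat_lit 494) (nat_lit 493) (nat_lit 1485) (.f (nat_lit 559) (nat_lit 430) (nat_lit 4526) (.d (nat_lit 558) (nat_lit 431) (nat_lit 6574) (nat_lit 591) (nat_lit 4558)))))))) (.f (nat_lit 494) (nat_lit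 493) (nat_lit 1485) (.f (nat_lit 431) (nat_lit 495) (nat_lit 4527) (.f (nat_lit 526) (nat_lit 558) (nat_lit 6574) (.d (nat_lit 399) (nat_lit 367) (nat_lit 5486) (nat_lit 430) (nat_lit 6542)))))))))))) (.f (nat_lit 434) (nat_lit 433) (nat_lit 2478) (.f (nat_lit 466) (nat_lit 435) (nat_lit 2479) (.d (nat_lit 498) (nat_lit 497) (nat_lit 462) (nat_lit 499) (nat_lit 463)))))))
noncomputable def s65612 : Cert := .r (nat_lit 3773962425700235452738272624589311872811354115290248995673608856684065905542405513258590247812975560221283939098291971982140250265709139174504620074283388056494680309760) (.p (nat_lit 525) (.a (.p (nat_lit 493) (.a (.f (nat_lit 494) (nat_lit 465) (nat_lit 1485) (.d (nat_lit 492) (nat_lit 461) (nat_lit 1484) (nat_lit 491) (nat_lit 2507))) (.a (.f (nat_lit 494) (nat_lit 465) (nat_lit 1485) (.d (nat_lit 492) (nat_lit 491) (nat_lit 2507) (nat_lit 495) (nat_lit 2508))) (.a (.f (nat_lit 492) (nat_lit 461) (nat_lit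 1484) (.d (nat_lit 494) (nat_lit 491) (nat_lit 2507) (nat_lit 495) (nat_lit 2508))) (.a (.f (nat_lit 494) (nat_lit 465) (nat_lit 1485) (.d (nat_lit 492) (nat_lit 461) (nat_lit 1484) (nat_lit 495) (nat_lit 2508))) (.a (.f (nat_lit 494) (nat_lit 465) (nat_lit 1485) (.f (nat_lit 557) (nat_lit 589) (nat_lit 6605) (.d (nat_lit 430) (nat_lit 398) (nat_lit 5517) (nat_lit 461) (nat_lit 6573)))) (.f (nat_lit 461) (nat_lit 492) (nat_lit 1484) (.f (nat_lit 557) (nat_lit 430) (nat_lit 6573) (.f (nat_lit 558) (nat_lit 590) (nat_lit 4557) (.f (nat_lit 559) (nat_lit 524) (nat_lit 3596) (.d (nat_lit 556) (nat_lit 527) (nat_lit 2572) (nat_lit 588) (nat_lit 5580)))))))))))) (.a (.p (nat_lit 493) (.a (.f (nat_lit 494) (nat_lit 465) (nat_lit 1485) (.d (nat_lit 492) (nat_lit 461) (nat_lit 1484) (nat_lit 491) (nat_lit 2507))) (.a (.f (nat_lit 494) (nat_lit 465) (nat_lit 1485) (.d (nat_lit 492) (nat_lit 491) (nat_lit 2507) (nat_lit 495) (nat_lit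 2508))) (.a (.f (nat_lit 492) (nat_lit 461) (nat_lit 1484) (.d (nat_lit 494) (nat_lit 491) (nat_lit 2507) (nat_lit 495) (nat_lit 2508))) (.a (.f (nat_lit 494) (nat_lit 465) (nat_lit 1485) (.d (nat_lit 492) (nat_lit 461) (nat_lit 1484) (nat_lit 495) (nat_lit 2508))) (.a (.f (nat_lit 494) (nat_lit 465) (nat_lit 1485) (.f (nat_lit 557) (nat_lit 589) (nat_lit 6605) (.d (nat_lit 430) (nat_lit 461) (nat_lit 6573) (nat_lit 526) (nat_lit 5549)))) (.f (nat_lit 461) (nat_lit 492) (nat_lit 1484) (.f (nat_lit 557) (nat_lit 430) (nat_lit 6573) (.f (nat_lit 558) (nat_lit 590) (nat_lit 4557) (.f (nat_lit 559) (nat_lit 524) (nat_lit 3596) (.d (nat_lit 556) (nat_lit 527) (nat_lit 2572) (nat_lit 588) (nat_lit 5580)))))))))))) (.a (.p (nat_lit 493) (.a (.f (nat_lit 494) (nat_lit 465) (nat_lit 1485) (.d (nat_lit 492) (nat_lit 461) (nat_lit 1484) (nat_lit 491) (nat_lit 2507))) (.a (.f (nat_lit 494) (nat_lit 465) (nat_lit 1485) (.d (nat_lit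 492) (nat_lit 491) (nat_lit 2507) (nat_lit 495) (nat_lit 2508))) (.a (.f (nat_lit 492) (nat_lit 461) (nat_lit 1484) (.d (nat_lit 494) (nat_lit 491) (nat_lit 2507) (nat_lit 495) (nat_lit 2508))) (.a (.f (nat_lit 494) (nat_lit 465) (nat_lit 1485) (.d (nat_lit 492) (nat_lit 461) (nat_lit 1484) (nat_lit 495) (nat_lit 2508))) (.a (.f (nat_lit 465) (nat_lit 494) (nat_lit 1485) (.f (nat_lit 498) (nat_lit 497) (nat_lit 462) (.f (nat_lit 466) (nat_lit 499) (nat_lit 463) (.f (nat_lit 435) (nat_lit 434) (nat_lit 2479) (.f (nat_lit 467) (nat_lit 436) (nat_lit 2480) (.f (nat_lit 431) (nat_lit 432) (nat_lit 3503) (.f (nat_lit 527) (nat_lit 495) (nat_lit 4527) (.f (nat_lit 526) (nat_lit 561) (nat_lit 525) (.f (nat_lit 524) (nat_lit 559) (nat_lit 524) (.d (nat_lit 556) (nat_lit 555) (nat_lit 1547) (nat_lit 557) (nat_lit 1548))))))))))) (.f (nat_lit 492) (nat_lit 461) (nat_lit 1484) (.f (nat_lit 527) (nat_lit 526) (nat_lit 3564) (.f (nat_lit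 495) (nat_lit 431) (nat_lit 4527) (.f (nat_lit 559) (nat_lit 432) (nat_lit 6575) (.f (nat_lit 558) (nat_lit 590) (nat_lit 5582) (.d (nat_lit 557) (nat_lit 524) (nat_lit 3596) (nat_lit 556) (nat_lit 2572))))))))))))) (.a (.p (nat_lit 527) (.a (.f (nat_lit 526) (nat_lit 561) (nat_lit 525) (.f (nat_lit 495) (nat_lit 431) (nat_lit 4527) (.d (nat_lit 559) (nat_lit 430) (nat_lit 7598) (nat_lit 524) (nat_lit 524)))) (.a (.f (nat_lit 526) (nat_lit 561) (nat_lit 525) (.f (nat_lit 495) (nat_lit 431) (nat_lit 4527) (.d (nat_lit 559) (nat_lit 432) (nat_lit 6575) (nat_lit 524) (nat_lit 524)))) (.a (.f (nat_lit 526) (nat_lit 561) (nat_lit 525) (.f (nat_lit 559) (nat_lit 524) (nat_lit 524) (.d (nat_lit 495) (nat_lit 430) (nat_lit 7598) (nat_lit 432) (nat_lit 6575)))) (.a (.f (nat_lit 526) (nat_lit 561) (nat_lit 525) (.f (nat_lit 524) (nat_lit 559) (nat_lit 524) (.d (nat_lit 556) (nat_lit 555) (nat_lit 1547) (nat_lit 557) (nat_lit 1548))))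 (.a (.f (nat_lit 495) (nat_lit 431) (nat_lit 4527) (.d (nat_lit 559) (nat_lit 430) (nat_lit 7598) (nat_lit 432) (nat_lit 6575))) (.f (nat_lit 526) (nat_lit 561) (nat_lit 525) (.f (nat_lit 495) (nat_lit 431) (nat_lit 4527) (.f (nat_lit 493) (nat_lit 492) (nat_lit 3564) (.f (nat_lit 494) (nat_lit 465) (nat_lit 1485) (.d (nat_lit 430) (nat_lit 398) (nat_lit 4494) (nat_lit 557) (nat_lit 5549)))))))))))) (.a (.p (nat_lit 527) (.a (.f (nat_lit 526) (nat_lit 561) (nat_lit 525) (.f (nat_lit 495) (nat_lit 431) (nat_lit 4527) (.d (nat_lit 559) (nat_lit 430) (nat_lit 7598) (nat_lit 524) (nat_lit 524)))) (.a (.f (nat_lit 526) (nat_lit 561) (nat_lit 525) (.f (nat_lit 495) (nat_lit 431) (nat_lit 4527) (.d (nat_lit 559) (nat_lit 432) (nat_lit 6575) (nat_lit 524) (nat_lit 524)))) (.a (.f (nat_lit 526) (nat_lit 561) (nat_lit 525) (.f (nat_lit 559) (nat_lit 524) (nat_lit 524) (.d (nat_lit 495) (nat_lit 430) (nat_lit 7598) (nat_lit 432) (nat_lit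 6575)))) (.a (.f (nat_lit 526) (nat_lit 561) (nat_lit 525) (.f (nat_lit 524) (nat_lit 559) (nat_lit 524) (.d (nat_lit 556) (nat_lit 555) (nat_lit 1547) (nat_lit 557) (nat_lit 1548)))) (.a (.f (nat_lit 495) (nat_lit 431) (nat_lit 4527) (.d (nat_lit 559) (nat_lit 430) (nat_lit 7598) (nat_lit 432) (nat_lit 6575))) (.f (nat_lit 526) (nat_lit 561) (nat_lit 525) (.f (nat_lit 493) (nat_lit 492) (nat_lit 3564) (.f (nat_lit 557) (nat_lit 556) (nat_lit 1548) (.d (nat_lit 430) (nat_lit 461) (nat_lit 6573) (nat_lit 494) (nat_lit 5549))))))))))) (.a (.p (nat_lit 527) (.a (.f (nat_lit 526) (nat_lit 561) (nat_lit 525) (.f (nat_lit 495) (nat_lit 431) (nat_lit 4527) (.d (nat_lit 559) (nat_lit 430) (nat_lit 7598) (nat_lit 524) (nat_lit 524)))) (.a (.f (nat_lit 526) (nat_lit 561) (nat_lit 525) (.f (nat_lit 495) (nat_lit 431) (nat_lit 4527) (.d (nat_lit 559) (nat_lit 432) (nat_lit 6575) (nat_lit 524) (nat_lit 524)))) (.a (.f (nat_lit 526)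 (nat_lit 561) (nat_lit 525) (.f (nat_lit 559) (nat_lit 524) (nat_lit 524) (.d (nat_lit 495) (nat_lit 430) (nat_lit 7598) (nat_lit 432) (nat_lit 6575)))) (.a (.f (nat_lit 526) (nat_lit 561) (nat_lit 525) (.f (nat_lit 524) (nat_lit 559) (nat_lit 524) (.d (nat_lit 556) (nat_lit 555) (nat_lit 1547) (nat_lit 557) (nat_lit 1548)))) (.a (.f (nat_lit 495) (nat_lit 431) (nat_lit 4527) (.d (nat_lit 559) (nat_lit 430) (nat_lit 7598) (nat_lit 432) (nat_lit 6575))) (.f (nat_lit 526) (nat_lit 561) (nat_lit 525) (.f (nat_lit 431) (nat_lit 495) (nat_lit 4527) (.f (nat_lit 494) (nat_lit 558) (nat_lit 6574) (.d (nat_lit 430) (nat_lit 399) (nat_lit 6542) (nat_lit 557) (nat_lit 5549))))))))))) (.a (.p (nat_lit 527) (.a (.f (nat_lit 526) (nat_lit 561) (nat_lit 525) (.f (nat_lit 495) (nat_lit 431) (nat_lit 4527) (.d (nat_lit 559) (nat_lit 430) (nat_lit 7598) (nat_lit 524) (nat_lit 524)))) (.a (.f (nat_lit 526) (nat_lit 561) (nat_lit 525) (.f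 (nat_lit 495) (nat_lit 431) (nat_lit 4527) (.d (nat_lit 559) (nat_lit 432) (nat_lit 6575) (nat_lit 524) (nat_lit 524)))) (.a (.f (nat_lit 526) (nat_lit 561) (nat_lit 525) (.f (nat_lit 559) (nat_lit 524) (nat_lit 524) (.d (nat_lit 495) (nat_lit 430) (nat_lit 7598) (nat_lit 432) (nat_lit 6575)))) (.a (.f (nat_lit 526) (nat_lit 561) (nat_lit 525) (.f (nat_lit 524) (nat_lit 559) (nat_lit 524) (.d (nat_lit 556) (nat_lit 555) (nat_lit 1547) (nat_lit 557) (nat_lit 1548)))) (.a (.f (nat_lit 495) (nat_lit 431) (nat_lit 4527) (.d (nat_lit 559) (nat_lit 430) (nat_lit 7598) (nat_lit 432) (nat_lit 6575))) (.f (nat_lit 526) (nat_lit 561) (nat_lit 525) (.f (nat_lit 492) (nat_lit 493) (nat_lit 3564) (.f (nat_lit 524) (nat_lit 491) (nat_lit 3563) (.d (nat_lit 556) (nat_lit 555) (nat_lit 1547) (nat_lit 557) (nat_lit 1548))))))))))) (.a (.p (nat_lit 493) (.a (.f (nat_lit 494) (nat_lit 465) (nat_lit 1485) (.d (nat_lit 492) (nat_lit 461) (nat_lit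 1484) (nat_lit 491) (nat_lit 2507))) (.a (.f (nat_lit 494) (nat_lit 465) (nat_lit 1485) (.f (nat_lit 557) (nat_lit 589) (nat_lit 6605) (.d (nat_lit 430) (nat_lit 398) (nat_lit 5517) (nat_lit 526) (nat_lit 5549)))) (.f (nat_lit 461) (nat_lit 492) (nat_lit 1484) (.f (nat_lit 557) (nat_lit 430) (nat_lit 6573) (.f (nat_lit 558) (nat_lit 590) (nat_lit 4557) (.f (nat_lit 559) (nat_lit 524) (nat_lit 3596) (.d (nat_lit 556) (nat_lit 527) (nat_lit 2572) (nat_lit 588) (nat_lit 5580))))))))) (.a (.p (nat_lit 493) (.a (.f (nat_lit 494) (nat_lit 465) (nat_lit 1485) (.d (nat_lit 492) (nat_lit 461) (nat_lit 1484) (nat_lit 491) (nat_lit 2507))) (.a (.f (nat_lit 494) (nat_lit 465) (nat_lit 1485) (.d (nat_lit 492) (nat_lit 491) (nat_lit 2507) (nat_lit 495) (nat_lit 2508))) (.a (.f (nat_lit 492) (nat_lit 461) (nat_lit 1484) (.d (nat_lit 494) (nat_lit 491) (nat_lit 2507) (nat_lit 495) (nat_lit 2508))) (.a (.f (nat_lit 494) (nat_lit 465) (nat_lit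 1485) (.d (nat_lit 492) (nat_lit 461) (nat_lit 1484) (nat_lit 495) (nat_lit 2508))) (.a (.f (nat_lit 494) (nat_lit 465) (nat_lit 1485) (.f (nat_lit 557) (nat_lit 589) (nat_lit 6605) (.d (nat_lit 430) (nat_lit 398) (nat_lit 5517) (nat_lit 461) (nat_lit 6573)))) (.f (nat_lit 461) (nat_lit 492) (nat_lit 1484) (.f (nat_lit 557) (nat_lit 430) (nat_lit 6573) (.f (nat_lit 460) (nat_lit 428) (nat_lit 7596) (.f (nat_lit 556) (nat_lit 588) (nat_lit 5580) (.f (nat_lit 527) (nat_lit 526) (nat_lit 1548) (.d (nat_lit 431) (nat_lit 432) (nat_lit 2476) (nat_lit 495) (nat_lit 4527))))))))))))) (.a (.p (nat_lit 493) (.a (.f (nat_lit 494) (nat_lit 465) (nat_lit 1485) (.d (nat_lit 492) (nat_lit 461) (nat_lit 1484) (nat_lit 491) (nat_lit 2507))) (.a (.f (nat_lit 494) (nat_lit 465) (nat_lit 1485) (.d (nat_lit 492) (nat_lit 491) (nat_lit 2507) (nat_lit 495) (nat_lit 2508))) (.a (.f (nat_lit 492) (nat_lit 461) (nat_lit 1484) (.d (nat_lit 494)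 (nat_lit 491) (nat_lit 2507) (nat_lit 495) (nat_lit 2508))) (.a (.f (nat_lit 494) (nat_lit 465) (nat_lit 1485) (.d (nat_lit 492) (nat_lit 461) (nat_lit 1484) (nat_lit 495) (nat_lit 2508))) (.a (.f (nat_lit 494) (nat_lit 465) (nat_lit 1485) (.f (nat_lit 557) (nat_lit 589) (nat_lit 6605) (.d (nat_lit 430) (nat_lit 398) (nat_lit 5517) (nat_lit 461) (nat_lit 6573)))) (.f (nat_lit 461) (nat_lit 492) (nat_lit 1484) (.f (nat_lit 557) (nat_lit 430) (nat_lit 6573) (.f (nat_lit 558) (nat_lit 590) (nat_lit 4557) (.f (nat_lit 559) (nat_lit 524) (nat_lit 3596) (.d (nat_lit 588) (nat_lit 556) (nat_lit 5580) (nat_lit 589) (nat_lit 1580)))))))))))) (.a (.p (nat_lit 493) (.a (.f (nat_lit 494) (nat_lit 465) (nat_lit 1485) (.d (nat_lit 492) (nat_lit 461) (nat_lit 1484) (nat_lit 491) (nat_lit 2507))) (.a (.f (nat_lit 494) (nat_lit 465) (nat_lit 1485) (.d (nat_lit 492) (nat_lit 491) (nat_lit 2507) (nat_lit 495) (nat_lit 2508))) (.a (.f (nat_lit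 492) (nat_lit 461) (nat_lit 1484) (.d (nat_lit 494) (nat_lit 491) (nat_lit 2507) (nat_lit 495) (nat_lit 2508))) (.a (.f (nat_lit 494) (nat_lit 465) (nat_lit 1485) (.d (nat_lit 492) (nat_lit 461) (nat_lit 1484) (nat_lit 495) (nat_lit 2508))) (.a (.f (nat_lit 494) (nat_lit 465) (nat_lit 1485) (.f (nat_lit 557) (nat_lit 589) (nat_lit 6605) (.d (nat_lit 430) (nat_lit 398) (nat_lit 5517) (nat_lit 461) (nat_lit 6573)))) (.f (nat_lit 461) (nat_lit 492) (nat_lit 1484) (.f (nat_lit 557) (nat_lit 430) (nat_lit 6573) (.f (nat_lit 558) (nat_lit 590) (nat_lit 4557) (.f (nat_lit 559) (nat_lit 524) (nat_lit 3596) (.f (nat_lit 561) (nat_lit 526) (nat_lit 3597) (.f (nat_lit 594) (nat_lit 593) (nat_lit 558) (.f (nat_lit 562) (nat_lit 595) (nat_lit 559) (.f (nat_lit 531) (nat_lit 530) (nat_lit 2575) (.d (nat_lit 563) (nat_lit 527) (nat_lit 3599) (nat_lit 532) (nat_lit 2576)))))))))))))))) (.p (nat_lit 527) (.a (.f (nat_lit 526) (nat_lit 561)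 (nat_lit 525) (.f (nat_lit 495) (nat_lit 431) (nat_lit 4527) (.d (nat_lit 559) (nat_lit 430) (nat_lit 7598) (nat_lit 524) (nat_lit 524)))) (.a (.f (nat_lit 526) (nat_lit 561) (nat_lit 525) (.f (nat_lit 495) (nat_lit 431) (nat_lit 4527) (.d (nat_lit 559) (nat_lit 432) (nat_lit 6575) (nat_lit 524) (nat_lit 524)))) (.a (.f (nat_lit 526) (nat_lit 561) (nat_lit 525) (.f (nat_lit 559) (nat_lit 524) (nat_lit 524) (.d (nat_lit 495) (nat_lit 430) (nat_lit 7598) (nat_lit 432) (nat_lit 6575)))) (.a (.f (nat_lit 526) (nat_lit 561) (nat_lit 525) (.f (nat_lit 493) (nat_lit 492) (nat_lit 3564) (.f (nat_lit 494) (nat_lit 465) (nat_lit 1485) (.d (nat_lit 559) (nat_lit 430) (nat_lit 4526) (nat_lit 524) (nat_lit 524))))) (.a (.f (nat_lit 495) (nat_lit 431) (nat_lit 4527) (.d (nat_lit 559) (nat_lit 430) (nat_lit 7598) (nat_lit 432) (nat_lit 6575))) (.f (nat_lit 495) (nat_lit 431) (nat_lit 4527) (.f (nat_lit 526) (nat_lit 561) (nat_lit 525)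 (.f (nat_lit 492) (nat_lit 493) (nat_lit 3564) (.f (nat_lit 524) (nat_lit 491) (nat_lit 3563) (.f (nat_lit 523) (nat_lit 494) (nat_lit 2539) (.d (nat_lit 555) (nat_lit 554) (nat_lit 1546) (nat_lit 556) (nat_lit 1547)))))))))))))))))))))))))
noncomputable def s65644 : Cert := .r (nat_lit 3773962425700235452738272624589311872811354115290248995673608856684065905542405513258590247812975560221283939098291971982140250265709139174504620074283388056494680309760) (.p (nat_lit 461) (.a (.f (nat_lit 432) (nat_lit 433) (nat_lit 2477) (.f (nat_lit 460) (nat_lit 431) (nat_lit 2476) (.d (nat_lit 492) (nat_lit 491) (nat_lit 1483) (nat_lit 493) (nat_lit 1484)))) (.a (.p (nat_lit 460) (.a (.d (nat_lit 492) (nat_lit 491) (nat_lit 1483) (nat_lit 493) (nat_lit 1484)) (.a (.f (nat_lit 493) (nat_lit 492) (nat_lit 1484) (.f (nat_lit 494) (nat_lit 465) (nat_lit 1485) (.d (nat_lit 459) (nat_lit 458) (nat_lit 458) (nat_lit 495) (nat_lit 459)))) (.a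 (.f (nat_lit 427) (nat_lit 428) (nat_lit 3499) (.f (nat_lit 459) (nat_lit 426) (nat_lit 3498) (.f (nat_lit 490) (nat_lit 491) (nat_lit 1482) (.f (nat_lit 458) (nat_lit 489) (nat_lit 1481) (.d (nat_lit 494) (nat_lit 493) (nat_lit 458) (nat_lit 495) (nat_lit 459)))))) (.f (nat_lit 427) (nat_lit 428) (nat_lit 3499) (.f (nat_lit 459) (nat_lit 426) (nat_lit 3498) (.d (nat_lit 491) (nat_lit 490) (nat_lit 1482) (nat_lit 492) (nat_lit 1483)))))))) (.a (.f (nat_lit 493) (nat_lit 492) (nat_lit 1484) (.f (nat_lit 465) (nat_lit 494) (nat_lit 1485) (.f (nat_lit 432) (nat_lit 433) (nat_lit 2477) (.f (nat_lit 498) (nat_lit 497) (nat_lit 462) (.f (nat_lit 466) (nat_lit 499) (nat_lit 463) (.d (nat_lit 431) (nat_lit 430) (nat_lit 3502) (nat_lit 467) (nat_lit 3503))))))) (.a (.f (nat_lit 432) (nat_lit 433) (nat_lit 2477) (.f (nat_lit 460) (nat_lit 431) (nat_lit 2476) (.f (nat_lit 427) (nat_lit 428) (nat_lit 3499) (.f (nat_lit 459) (nat_lit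 426) (nat_lit 3498) (.f (nat_lit 490) (nat_lit 491) (nat_lit 1482) (.f (nat_lit 458) (nat_lit 489) (nat_lit 1481) (.d (nat_lit 494) (nat_lit 493) (nat_lit 458) (nat_lit 495) (nat_lit 459)))))))) (.f (nat_lit 432) (nat_lit 433) (nat_lit 2477) (.f (nat_lit 460) (nat_lit 431) (nat_lit 2476) (.f (nat_lit 491) (nat_lit 492) (nat_lit 1483) (.f (nat_lit 459) (nat_lit 490) (nat_lit 1482) (.d (nat_lit 427) (nat_lit 426) (nat_lit 3498) (nat_lit 428) (nat_lit 3499)))))))))))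
noncomputable def s65649 : Cert := .r (nat_lit 3773962425700235452738272624595266135640783726937629056307827389829490935569156022808416215524663357269508894886180129069587401394782905751503152603914903513036291571712) (.p (nat_lit 460) (.a (.d (nat_lit 492) (nat_lit 491) (nat_lit 1483) (nat_lit 493) (nat_lit 1484)) (.a (.f (nat_lit 493) (nat_lit 492) (nat_lit 1484) (.f (nat_lit 427) (nat_lit 428) (nat_lit 3499) (.f (nat_lit 459) (nat_lit 426) (nat_lit 3498) (.d (nat_lit 494) (nat_lit 458) (nat_lit 458) (nat_lit 495) (nat_lit 459))))) (.a (.f (nat_lit 427) (nat_lit 428) (nat_lit 3499) (.f (nat_lit 459) (nat_lit 426) (nat_lit 3498) (.f (nat_lit 490) (nat_lit 491) (nat_lit 1482) (.f (nat_lit 458) (nat_lit 489) (nat_lit 1481) (.d (nat_lit 494) (nat_lit 493) (nat_lit 458) (nat_lit 495) (nat_lit 459)))))) (.f (nat_lit 427) (nat_lit 428) (nat_lit 3499) (.f (nat_lit 459) (nat_lit 426) (nat_lit 3498) (.d (nat_lit 491) (nat_lit 490)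 (nat_lit 1482) (nat_lit 492) (nat_lit 1483))))))))
noncomputable def s65706 : Cert := .r (nat_lit 3773962425700235452738272624595266135640783726937629056307827389829490935569156022808416215524663357269508894886180129069587401394782905751503152603914903513036291571712) (.p (nat_lit 527) (.a (.f (nat_lit 495) (nat_lit 431) (nat_lit 4527) (.d (nat_lit 432) (nat_lit 433) (nat_lit 2477) (nat_lit 559) (nat_lit 6575))) (.a (.p (nat_lit 526) (.a (.f (nat_lit 525) (nat_lit 561) (nat_lit 525) (.f (nat_lit 493) (nat_lit 492) (nat_lit 1484) (.d (nat_lit 557) (nat_lit 430) (nat_lit 6573) (nat_lit 556) (nat_lit 1548)))) (.a (.f (nat_lit 525) (nat_lit 561) (nat_lit 525) (.f (nat_lit 559) (nat_lit 524) (nat_lit 524) (.d (nat_lit 432) (nat_lit 433) (nat_lit 2477) (nat_lit 495) (nat_lit 6575)))) (.f (nat_lit 493) (nat_lit 492) (nat_lit 1484) (.f (nat_lit 432) (nat_lit 433) (nat_lit 2477) (.f (nat_lit 559) (nat_lit 495) (nat_lit 6575) (.f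 (nat_lit 494) (nat_lit 430) (nat_lit 4526) (.d (nat_lit 558) (nat_lit 590) (nat_lit 7629) (nat_lit 591) (nat_lit 4558))))))))) (.a (.f (nat_lit 495) (nat_lit 431) (nat_lit 4527) (.f (nat_lit 559) (nat_lit 430) (nat_lit 7598) (.f (nat_lit 558) (nat_lit 590) (nat_lit 5582) (.f (nat_lit 494) (nat_lit 591) (nat_lit 7630) (.f (nat_lit 557) (nat_lit 556) (nat_lit 2572) (.d (nat_lit 589) (nat_lit 526) (nat_lit 5581) (nat_lit 588) (nat_lit 1580))))))) (.a (.p (nat_lit 525) (.a (.f (nat_lit 526) (nat_lit 561) (nat_lit 525) (.f (nat_lit 493) (nat_lit 492) (nat_lit 1484) (.d (nat_lit 557) (nat_lit 430) (nat_lit 6573) (nat_lit 556) (nat_lit 1548)))) (.a (.f (nat_lit 526) (nat_lit 561) (nat_lit 525) (.f (nat_lit 493) (nat_lit 492) (nat_lit 1484) (.f (nat_lit 557) (nat_lit 556) (nat_lit 1548) (.f (nat_lit 558) (nat_lit 590) (nat_lit 4557) (.d (nat_lit 494) (nat_lit 431) (nat_lit 6574) (nat_lit 589) (nat_lit 6605)))))) (.a (.f (nat_lit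 526) (nat_lit 561) (nat_lit 525) (.f (nat_lit 557) (nat_lit 556) (nat_lit 1548) (.d (nat_lit 430) (nat_lit 493) (nat_lit 6573) (nat_lit 494) (nat_lit 5549)))) (.a (.f (nat_lit 526) (nat_lit 561) (nat_lit 525) (.f (nat_lit 524) (nat_lit 559) (nat_lit 524) (.d (nat_lit 556) (nat_lit 555) (nat_lit 1547) (nat_lit 557) (nat_lit 1548)))) (.a (.f (nat_lit 493) (nat_lit 492) (nat_lit 1484) (.f (nat_lit 557) (nat_lit 430) (nat_lit 6573) (.f (nat_lit 558) (nat_lit 590) (nat_lit 4557) (.d (nat_lit 556) (nat_lit 559) (nat_lit 2572) (nat_lit 588) (nat_lit 5580))))) (.a (.f (nat_lit 493) (nat_lit 492) (nat_lit 1484) (.f (nat_lit 526) (nat_lit 561) (nat_lit 525) (.f (nat_lit 557) (nat_lit 430) (nat_lit 6573) (.f (nat_lit 558) (nat_lit 590) (nat_lit 4557) (.d (nat_lit 494) (nat_lit 431) (nat_lit 6574) (nat_lit 589) (nat_lit 6605)))))) (.f (nat_lit 526) (nat_lit 561) (nat_lit 525) (.f (nat_lit 493) (nat_lit 492) (nat_lit 1484) (.f (nat_lit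 524) (nat_lit 559) (nat_lit 524) (.f (nat_lit 555) (nat_lit 556) (nat_lit 1547) (.f (nat_lit 523) (nat_lit 554) (nat_lit 1546) (.f (nat_lit 494) (nat_lit 522) (nat_lit 2538) (.d (nat_lit 558) (nat_lit 431) (nat_lit 6574) (nat_lit 590) (nat_lit 7629))))))))))))))) (.p (nat_lit 526) (.a (.f (nat_lit 525) (nat_lit 561) (nat_lit 525) (.f (nat_lit 493) (nat_lit 492) (nat_lit 1484) (.d (nat_lit 557) (nat_lit 430) (nat_lit 6573) (nat_lit 556) (nat_lit 1548)))) (.a (.f (nat_lit 431) (nat_lit 495) (nat_lit 4527) (.f (nat_lit 525) (nat_lit 561) (nat_lit 525) (.f (nat_lit 493) (nat_lit 492) (nat_lit 1484) (.f (nat_lit 557) (nat_lit 556) (nat_lit 1548) (.d (nat_lit 558) (nat_lit 494) (nat_lit 6574) (nat_lit 590) (nat_lit 4557)))))) (.f (nat_lit 431) (nat_lit 495) (nat_lit 4527) (.f (nat_lit 494) (nat_lit 558) (nat_lit 6574) (.d (nat_lit 399) (nat_lit 367) (nat_lit 5486) (nat_lit 430) (nat_lit 6542))))))))))))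
noncomputable def s65707 : Cert := .r (nat_lit 3773962425700235452738272624589311872811354115290248995673608856684065905542405513258590247812975560221283939098291971982140250265709139174504620074283388056494680309760) (.p (nat_lit 461) (.a (.f (nat_lit 432) (nat_lit 433) (nat_lit 2477) (.f (nat_lit 460) (nat_lit 431) (nat_lit 2476) (.d (nat_lit 492) (nat_lit 491) (nat_lit 1483) (nat_lit 493) (nat_lit 1484)))) (.a s65649 (.a s65706 (.a (.f (nat_lit 432) (nat_lit 433) (nat_lit 2477) (.f (nat_lit 460) (nat_lit 431) (nat_lit 2476) (.f (nat_lit 427) (nat_lit 428) (nat_lit 3499) (.f (nat_lit 459) (nat_lit 426) (nat_lit 3498) (.f (nat_lit 490) (nat_lit 491) (nat_lit 1482) (.f (nat_lit 458) (nat_lit 489) (nat_lit 1481) (.d (nat_lit 494) (nat_lit 493) (nat_lit 458) (nat_lit 495) (nat_lit 459)))))))) (.f (nat_lit 432) (nat_lit 433) (nat_lit 2477) (.f (nat_lit 460) (nat_lit 431) (nat_lit 2476) (.f (nat_lit 491) (nat_lit 492) (nat_lit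 1483) (.f (nat_lit 459) (nat_lit 490) (nat_lit 1482) (.d (nat_lit 427) (nat_lit 426) (nat_lit 3498) (nat_lit 428) (nat_lit 3499)))))))))))
noncomputable def s65724 : Cert := .r (nat_lit 3773962425700235452738272624684580078082227901648329965821105387010866385970413666055805731199980312992883231704502485381294668330889404406481140548387635361160460500992) (.f (nat_lit 433) (nat_lit 434) (nat_lit 2478) (.p (nat_lit 401) (.a (.f (nat_lit 497) (nat_lit 498) (nat_lit 462) (.f (nat_lit 432) (nat_lit 461) (nat_lit 2477) (.f (nat_lit 400) (nat_lit 368) (nat_lit 7536) (.f (nat_lit 402) (nat_lit 370) (nat_lit 6513) (.d (nat_lit 431) (nat_lit 403) (nat_lit 1423) (nat_lit 430) (nat_lit 2446)))))) (.a (.f (nat_lit 432) (nat_lit 461) (nat_lit 2477) (.f (nat_lit 497) (nat_lit 498) (nat_lit 462) (.f (nat_lit 402) (nat_lit 370) (nat_lit 6513) (.f (nat_lit 431) (nat_lit 430) (nat_lit 2446) (.d (nat_lit 403) (nat_lit 400) (nat_lit 1423) (nat_lit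 404) (nat_lit 1424)))))) (.a (.f (nat_lit 497) (nat_lit 498) (nat_lit 462) (.f (nat_lit 432) (nat_lit 461) (nat_lit 2477) (.f (nat_lit 368) (nat_lit 400) (nat_lit 7536) (.d (nat_lit 369) (nat_lit 336) (nat_lit 7504) (nat_lit 337) (nat_lit 5456))))) (.a (.f (nat_lit 432) (nat_lit 461) (nat_lit 2477) (.f (nat_lit 369) (nat_lit 337) (nat_lit 5456) (.f (nat_lit 497) (nat_lit 498) (nat_lit 462) (.d (nat_lit 370) (nat_lit 338) (nat_lit 6481) (nat_lit 402) (nat_lit 6513))))) (.a (.f (nat_lit 497) (nat_lit 498) (nat_lit 462) (.f (nat_lit 368) (nat_lit 400) (nat_lit 7536) (.f (nat_lit 369) (nat_lit 336) (nat_lit 7504) (.d (nat_lit 370) (nat_lit 338) (nat_lit 6481) (nat_lit 402) (nat_lit 6513))))) (.f (nat_lit 432) (nat_lit 461) (nat_lit 2477) (.f (nat_lit 369) (nat_lit 337) (nat_lit 5456) (.f (nat_lit 368) (nat_lit 336) (nat_lit 7504) (.f (nat_lit 400) (nat_lit 495) (nat_lit 5487) (.f (nat_lit 367) (nat_lit 335) (nat_lit 7503) (.d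 (nat_lit 366) (nat_lit 365) (nat_lit 365) (nat_lit 402) (nat_lit 366))))))))))))))
noncomputable def s65730 : Cert := .r (nat_lit 3773962425700235452738272624589311872811354115290248995673608856684065905542405513258590247812975560221283939098291971982140250265709139174504620074283388056494680309760) (.p (nat_lit 465) (.a (.f (nat_lit 494) (nat_lit 493) (nat_lit 1485) (.f (nat_lit 466) (nat_lit 495) (nat_lit 1486) (.d (nat_lit 498) (nat_lit 497) (nat_lit 462) (nat_lit 499) (nat_lit 463)))) (.a s65724 (.a (.f (nat_lit 433) (nat_lit 434) (nat_lit 2478) (.f (nat_lit 432) (nat_lit 461) (nat_lit 2477) (.f (nat_lit 498) (nat_lit 497) (nat_lit 462) (.f (nat_lit 466) (nat_lit 499) (nat_lit 463) (.d (nat_lit 431) (nat_lit 430) (nat_lit 430) (nat_lit 467) (nat_lit 3503)))))) (.f (nat_lit 433) (nat_lit 434) (nat_lit 2478) (.f (nat_lit 432) (nat_lit 461) (nat_lit 2477) (.f (nat_lit 494) (nat_lit 493) (nat_lit 1485) (.f (nat_lit 466)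 (nat_lit 495) (nat_lit 1486) (.d (nat_lit 431) (nat_lit 430) (nat_lit 430) (nat_lit 467) (nat_lit 3503))))))))))
noncomputable def s65739 : Cert := .r (nat_lit 3773962425700235452738272624589311872811354115290248995673608856684065905542405513258590247812975560221283939098291971982140250265709139174504620074283388056494680309760) (.p (nat_lit 465) (.a (.f (nat_lit 433) (nat_lit 434) (nat_lit 2478) (.f (nat_lit 432) (nat_lit 461) (nat_lit 2477) (.f (nat_lit 498) (nat_lit 497) (nat_lit 462) (.f (nat_lit 466) (nat_lit 499) (nat_lit 463) (.d (nat_lit 431) (nat_lit 430) (nat_lit 430) (nat_lit 467) (nat_lit 3503)))))) (.a (.f (nat_lit 433) (nat_lit 434) (nat_lit 2478) (.f (nat_lit 432) (nat_lit 461) (nat_lit 2477) (.f (nat_lit 498) (nat_lit 497) (nat_lit 462) (.f (nat_lit 466) (nat_lit 499) (nat_lit 463) (.d (nat_lit 467) (nat_lit 431) (nat_lit 3503) (nat_lit 468) (nat_lit 3504)))))) (.a (.f (nat_lit 434) (nat_lit 433) (nat_lit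 2478) (.f (nat_lit 466) (nat_lit 435) (nat_lit 2479) (.d (nat_lit 498) (nat_lit 497) (nat_lit 462) (nat_lit 499) (nat_lit 463)))) (.a (.f (nat_lit 498) (nat_lit 497) (nat_lit 462) (.f (nat_lit 466) (nat_lit 499) (nat_lit 463) (.f (nat_lit 431) (nat_lit 430) (nat_lit 3502) (.d (nat_lit 495) (nat_lit 494) (nat_lit 1486) (nat_lit 527) (nat_lit 4527))))) (.a s65724 (.f (nat_lit 434) (nat_lit 433) (nat_lit 2478) (.f (nat_lit 466) (nat_lit 435) (nat_lit 2479) (.f (nat_lit 431) (nat_lit 430) (nat_lit 3502) (.d (nat_lit 495) (nat_lit 494) (nat_lit 1486) (nat_lit 527) (nat_lit 4527)))))))))))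
noncomputable def s65763 : Cert := .r (nat_lit 3773962425700235452738272624589311872811354115290248995673608856684065905542405513258590247812975560221283939098291971982140250265709139174504620074283388056494680309760) (.p (nat_lit 465) (.a (.f (nat_lit 433) (nat_lit 434) (nat_lit 2478) (.f (nat_lit 432) (nat_lit 461) (nat_lit 2477) (.f (nat_lit 498) (nat_lit 497) (nat_lit 462) (.f (nat_lit 466) (nat_lit 499) (nat_lit 463) (.d (nat_lit 431) (nat_lit 430) (nat_lit 430) (nat_lit 467) (nat_lit 3503)))))) (.a (.f (nat_lit 433) (nat_lit 434) (nat_lit 2478) (.f (nat_lit 432) (nat_lit 461) (nat_lit 2477) (.f (nat_lit 498) (nat_lit 497) (nat_lit 462) (.f (nat_lit 466) (nat_lit 499) (nat_lit 463) (.d (nat_lit 467) (nat_lit 431) (nat_lit 3503) (nat_lit 468) (nat_lit 3504)))))) (.a (.f (nat_lit 434) (nat_lit 433) (nat_lit 2478) (.f (nat_lit 466) (nat_lit 435) (nat_lit 2479) (.d (nat_lit 498) (nat_lit 497) (nat_lit 462) (nat_lit 499)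 (nat_lit 463)))) (.a (.f (nat_lit 498) (nat_lit 497) (nat_lit 462) (.f (nat_lit 466) (nat_lit 499) (nat_lit 463) (.f (nat_lit 435) (nat_lit 434) (nat_lit 2479) (.f (nat_lit 467) (nat_lit 436) (nat_lit 2480) (.d (nat_lit 431) (nat_lit 430) (nat_lit 3502) (nat_lit 432) (nat_lit 3503)))))) (.a (.f (nat_lit 498) (nat_lit 497) (nat_lit 462) (.f (nat_lit 466) (nat_lit 499) (nat_lit 463) (.f (nat_lit 431) (nat_lit 430) (nat_lit 3502) (.f (nat_lit 432) (nat_lit 467) (nat_lit 3503) (.d (nat_lit 461) (nat_lit 433) (nat_lit 2477) (nat_lit 460) (nat_lit 2476)))))) (.a s65724 (.a (.f (nat_lit 434) (nat_lit 433) (nat_lit 2478) (.f (nat_lit 466) (nat_lit 435) (nat_lit 2479) (.f (nat_lit 499) (nat_lit 498) (nat_lit 463) (.f (nat_lit 467) (nat_lit 500) (nat_lit 464) (.d (nat_lit 431) (nat_lit 430) (nat_lit 3502) (nat_lit 432) (nat_lit 3503)))))) (.p (nat_lit 466) (.a (.d (nat_lit 434) (nat_lit 433) (nat_lit 2478) (nat_lit 435) (nat_lit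 2479)) (.a (.f (nat_lit 431) (nat_lit 430) (nat_lit 3502) (.f (nat_lit 467) (nat_lit 432) (nat_lit 3503) (.d (nat_lit 435) (nat_lit 434) (nat_lit 2479) (nat_lit 436) (nat_lit 2480)))) (.f (nat_lit 431) (nat_lit 430) (nat_lit 3502) (.f (nat_lit 432) (nat_lit 467) (nat_lit 3503) (.d (nat_lit 461) (nat_lit 433) (nat_lit 2477) (nat_lit 460) (nat_lit 2476)))))))))))))))
noncomputable def s65764 : Cert := .r (nat_lit 3773962425700235452738272624589311872811354115290248995673608856684065905542405513258590247812975560221283939098291971982140250265709139174504620074283388056494680309760) (.p (nat_lit 465) (.a (.f (nat_lit 433) (nat_lit 434) (nat_lit 2478) (.f (nat_lit 461) (nat_lit 432) (nat_lit 2477) (.d (nat_lit 493) (nat_lit 492) (nat_lit 1484) (nat_lit 494) (nat_lit 1485)))) (.a (.f (nat_lit 434) (nat_lit 433) (nat_lit 2478) (.f (nat_lit 466) (nat_lit 435) (nat_lit 2479) (.d (nat_lit 498) (nat_lit 497) (nat_lit 462) (nat_lit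 499) (nat_lit 463)))) (.a (.f (nat_lit 498) (nat_lit 497) (nat_lit 462) (.f (nat_lit 466) (nat_lit 499) (nat_lit 463) (.f (nat_lit 435) (nat_lit 434) (nat_lit 2479) (.f (nat_lit 467) (nat_lit 436) (nat_lit 2480) (.d (nat_lit 431) (nat_lit 430) (nat_lit 3502) (nat_lit 432) (nat_lit 3503)))))) (.f (nat_lit 498) (nat_lit 497) (nat_lit 462) (.f (nat_lit 466) (nat_lit 499) (nat_lit 463) (.f (nat_lit 431) (nat_lit 430) (nat_lit 3502) (.f (nat_lit 432) (nat_lit 467) (nat_lit 3503) (.d (nat_lit 461) (nat_lit 433) (nat_lit 2477) (nat_lit 460) (nat_lit 2476))))))))))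
noncomputable def s65790 : Cert := .r (nat_lit 3773962425755153834083250912619638600102700372294568524016486589921000222385485393258899109440984837246639444528850658042625352679372522715401127766695804365896423571456) (.p (nat_lit 526) (.a (.f (nat_lit 558) (nat_lit 431) (nat_lit 6574) (.f (nat_lit 559) (nat_lit 591) (nat_lit 4558) (.d (nat_lit 525) (nat_lit 523) (nat_lit 523) (nat_lit 561) (nat_lit 3597)))) (.a (.p (nat_lit 525) (.a (.d (nat_lit 527) (nat_lit 559) (nat_lit 524) (nat_lit 561) (nat_lit 525)) (.a (.f (nat_lit 523) (nat_lit 495) (nat_lit 2539) (.f (nat_lit 558) (nat_lit 559) (nat_lit 523) (.d (nat_lit 557) (nat_lit 522) (nat_lit 522) (nat_lit 589) (nat_lit 5581)))) (.d (nat_lit 527) (nat_lit 491) (nat_lit 3563) (nat_lit 561) (nat_lit 525))))) (.a (.f (nat_lit 558) (nat_lit 431) (nat_lit 6574) (.f (nat_lit 559) (nat_lit 591) (nat_lit 4558) (.d (nat_lit 525) (nat_lit 527) (nat_lit 524) (nat_lit 561) (nat_lit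 3597)))) (.a (.f (nat_lit 558) (nat_lit 431) (nat_lit 6574) (.f (nat_lit 590) (nat_lit 495) (nat_lit 6606) (.d (nat_lit 589) (nat_lit 557) (nat_lit 5581) (nat_lit 621) (nat_lit 5613)))) (.p (nat_lit 525) (.a (.d (nat_lit 527) (nat_lit 559) (nat_lit 524) (nat_lit 561) (nat_lit 525)) (.f (nat_lit 523) (nat_lit 495) (nat_lit 2539) (.f (nat_lit 555) (nat_lit 554) (nat_lit 1546) (.f (nat_lit 491) (nat_lit 490) (nat_lit 3562) (.d (nat_lit 460) (nat_lit 428) (nat_lit 5547) (nat_lit 587) (nat_lit 6603))))))))))))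
noncomputable def s65863 : Cert := .r (nat_lit 3773962425864990596594193939810971796169046574757948252065394444501888750396777656566759515706122751577171622215895146569406441968473348413877574434167529552096006242304) (.p (nat_lit 557) (.a (.f (nat_lit 589) (nat_lit 621) (nat_lit 7660) (.d (nat_lit 460) (nat_lit 428) (nat_lit 4524) (nat_lit 493) (nat_lit 7628))) (.a (.f (nat_lit 589) (nat_lit 621) (nat_lit 7660) (.d (nat_lit 460) (nat_lit 493) (nat_lit 7628) (nat_lit 556) (nat_lit 4556))) (.a (.f (nat_lit 589) (nat_lit 621) (nat_lit 7660) (.f (nat_lit 493) (nat_lit 494) (nat_lit 6605) (.f (nat_lit 526) (nat_lit 527) (nat_lit 3564) (.f (nat_lit 558) (nat_lit 559) (nat_lit 3596) (.f (nat_lit 590) (nat_lit 622) (nat_lit 7661) (.f (nat_lit 588) (nat_lit 620) (nat_lit 5612) (.f (nat_lit 587) (nat_lit 586) (nat_lit 2602) (.d (nat_lit 619) (nat_lit 556) (nat_lit 5611) (nat_lit 618) (nat_lit 1610))))))))) (.a (.f (nat_lit 589)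 (nat_lit 621) (nat_lit 7660) (.d (nat_lit 460) (nat_lit 428) (nat_lit 4524) (nat_lit 556) (nat_lit 4556))) (.p (nat_lit 526) (.a (.d (nat_lit 527) (nat_lit 493) (nat_lit 3564) (nat_lit 561) (nat_lit 525)) (.a (.d (nat_lit 527) (nat_lit 559) (nat_lit 524) (nat_lit 561) (nat_lit 525)) (.f (nat_lit 558) (nat_lit 559) (nat_lit 3596) (.f (nat_lit 523) (nat_lit 522) (nat_lit 522) (.f (nat_lit 555) (nat_lit 554) (nat_lit 1546) (.f (nat_lit 460) (nat_lit 428) (nat_lit 4524) (.d (nat_lit 587) (nat_lit 556) (nat_lit 5579) (nat_lit 619) (nat_lit 6635))))))))))))))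
noncomputable def s65876 : Cert := .r (nat_lit 3773962425864990596594193939810971796169046574757948252065394444501888750396777656566759515706122751577171622215895146569406441968473348413877574434167529552096006242304) (.p (nat_lit 526) (.a (.d (nat_lit 527) (nat_lit 493) (nat_lit 3564) (nat_lit 559) (nat_lit 524)) (.a (.d (nat_lit 527) (nat_lit 491) (nat_lit 3563) (nat_lit 559) (nat_lit 524)) (.a (.p (nat_lit 523) (.a (.f (nat_lit 558) (nat_lit 559) (nat_lit 523) (.f (nat_lit 522) (nat_lit 557) (nat_lit 522) (.d (nat_lit 554) (nat_lit 553) (nat_lit 1545) (nat_lit 555) (nat_lit 1546)))) (.a (.f (nat_lit 555) (nat_lit 554) (nat_lit 1546) (.f (nat_lit 491) (nat_lit 490) (nat_lit 3562) (.d (nat_lit 460) (nat_lit 428) (nat_lit 5547) (nat_lit 587) (nat_lit 6603)))) (.f (nat_lit 558) (nat_lit 559) (nat_lit 523) (.f (nat_lit 557) (nat_lit 522) (nat_lit 522) (.f (nat_lit 460) (nat_lit 428) (nat_lit 4524) (.d (nat_lit 589) (nat_lit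 556) (nat_lit 4556) (nat_lit 621) (nat_lit 7660)))))))) (.d (nat_lit 527) (nat_lit 491) (nat_lit 3563) (nat_lit 493) (nat_lit 3564))))))
noncomputable def s65906 : Cert := .r (nat_lit 3773962425864990596594193939810971796169046574757948252065394444501888750396777656566759515706122751577171622215895146569406441968473348413877574434167529552096006242304) (.p (nat_lit 557) (.a (.f (nat_lit 589) (nat_lit 621) (nat_lit 7660) (.d (nat_lit 460) (nat_lit 428) (nat_lit 4524) (nat_lit 493) (nat_lit 7628))) (.a (.f (nat_lit 589) (nat_lit 621) (nat_lit 7660) (.d (nat_lit 460) (nat_lit 493) (nat_lit 7628) (nat_lit 556) (nat_lit 4556))) (.a (.f (nat_lit 589) (nat_lit 621) (nat_lit 7660) (.f (nat_lit 493) (nat_lit 494) (nat_lit 6605) (.f (nat_lit 526) (nat_lit 527) (nat_lit 3564) (.f (nat_lit 558) (nat_lit 559) (nat_lit 3596) (.f (nat_lit 590) (nat_lit 622) (nat_lit 7661) (.f (nat_lit 588) (nat_lit 620) (nat_lit 5612) (.f (nat_lit 587)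 (nat_lit 586) (nat_lit 2602) (.d (nat_lit 619) (nat_lit 556) (nat_lit 5611) (nat_lit 618) (nat_lit 1610))))))))) (.a (.f (nat_lit 589) (nat_lit 621) (nat_lit 7660) (.d (nat_lit 460) (nat_lit 428) (nat_lit 4524) (nat_lit 556) (nat_lit 4556))) (.p (nat_lit 556) (.a (.f (nat_lit 460) (nat_lit 428) (nat_lit 4524) (.f (nat_lit 555) (nat_lit 587) (nat_lit 5579) (.f (nat_lit 554) (nat_lit 553) (nat_lit 2569) (.f (nat_lit 459) (nat_lit 427) (nat_lit 7595) (.f (nat_lit 491) (nat_lit 588) (nat_lit 7627) (.f (nat_lit 490) (nat_lit 489) (nat_lit 489) (.d (nat_lit 586) (nat_lit 522) (nat_lit 6602) (nat_lit 585) (nat_lit 1577)))))))) (.a (.f (nat_lit 460) (nat_lit 428) (nat_lit 4524) (.f (nat_lit 587) (nat_lit 555) (nat_lit 5579) (.f (nat_lit 588) (nat_lit 619) (nat_lit 5611) (.d (nat_lit 620) (nat_lit 493) (nat_lit 6636) (nat_lit 652) (nat_lit 6668))))) (.a (.f (nat_lit 526) (nat_lit 527) (nat_lit 1548) (.f (nat_lit 555) (nat_lit 554)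 (nat_lit 2570) (.f (nat_lit 558) (nat_lit 559) (nat_lit 3596) (.d (nat_lit 587) (nat_lit 460) (nat_lit 5579) (nat_lit 586) (nat_lit 1578))))) (.a (.f (nat_lit 526) (nat_lit 527) (nat_lit 1548) (.f (nat_lit 558) (nat_lit 559) (nat_lit 3596) (.f (nat_lit 555) (nat_lit 554) (nat_lit 2570) (.f (nat_lit 590) (nat_lit 591) (nat_lit 555) (.d (nat_lit 622) (nat_lit 493) (nat_lit 7661) (nat_lit 654) (nat_lit 7693)))))) (.f (nat_lit 460) (nat_lit 428) (nat_lit 4524) (.f (nat_lit 459) (nat_lit 427) (nat_lit 7595) (.f (nat_lit 588) (nat_lit 491) (nat_lit 7627) (.d (nat_lit 620) (nat_lit 493) (nat_lit 6636) (nat_lit 652) (nat_lit 6668)))))))))))))))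
noncomputable def s66073 : Cert := .r (nat_lit 4245707728857846503062298507090063200019233222191773310957623875809080835776835724940378342906373896040871188821314399598768489383800260916928807888699679409560119934976) (.p (nat_lit 525) (.a (.f (nat_lit 589) (nat_lit 621) (nat_lit 7660) (.d (nat_lit 460) (nat_lit 428) (nat_lit 4524) (nat_lit 556) (nat_lit 4556))) (.a (.f (nat_lit 558) (nat_lit 559) (nat_lit 3596) (.f (nat_lit 589) (nat_lit 621) (nat_lit 7660) (.f (nat_lit 526) (nat_lit 494) (nat_lit 5581) (.d (nat_lit 556) (nat_lit 460) (nat_lit 4556) (nat_lit 527) (nat_lit 1548))))) (.a (.f (nat_lit 558) (nat_lit 559) (nat_lit 3596) (.f (nat_lit 589) (nat_lit 621) (nat_lit 7660) (.f (nat_lit 526) (nat_lit 494) (nat_lit 5581) (.d (nat_lit 527) (nat_lit 556) (nat_lit 1548) (nat_lit 561) (nat_lit 525))))) (.f (nat_lit 559) (nat_lit 558) (nat_lit 3596) (.f (nat_lit 527) (nat_lit 526) (nat_lit 524) (.f (nat_lit 495) (nat_lit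 431) (nat_lit 4527) (.f (nat_lit 591) (nat_lit 494) (nat_lit 7630) (.f (nat_lit 623) (nat_lit 655) (nat_lit 6671) (.d (nat_lit 622) (nat_lit 590) (nat_lit 5614) (nat_lit 654) (nat_lit 5646)))))))))))
noncomputable def s66100 : Cert := .r (nat_lit 4245707728857846503062298507090063200019233222191773310957623875809080835776835724940378342906373896040871188821314399598768489383800260916928807888699679409560119934976) (.p (nat_lit 589) (.a (.f (nat_lit 556) (nat_lit 460) (nat_lit 4556) (.d (nat_lit 621) (nat_lit 588) (nat_lit 4588) (nat_lit 653) (nat_lit 7692))) (.a (.f (nat_lit 494) (nat_lit 493) (nat_lit 1485) (.f (nat_lit 558) (nat_lit 526) (nat_lit 5581) (.f (nat_lit 559) (nat_lit 588) (nat_lit 1580) (.d (nat_lit 556) (nat_lit 523) (nat_lit 3595) (nat_lit 527) (nat_lit 2572))))) (.a (.f (nat_lit 494) (nat_lit 493) (nat_lit 1485) (.f (nat_lit 558) (nat_lit 526) (nat_lit 5581) (.f (nat_lit 559) (nat_lit 588) (nat_lit 1580)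 (.f (nat_lit 561) (nat_lit 590) (nat_lit 1581) (.f (nat_lit 594) (nat_lit 593) (nat_lit 558) (.f (nat_lit 562) (nat_lit 595) (nat_lit 559) (.f (nat_lit 527) (nat_lit 563) (nat_lit 3599) (.d (nat_lit 495) (nat_lit 431) (nat_lit 4527) (nat_lit 591) (nat_lit 7630))))))))) (.f (nat_lit 494) (nat_lit 493) (nat_lit 1485) (.f (nat_lit 558) (nat_lit 526) (nat_lit 5581) (.f (nat_lit 556) (nat_lit 460) (nat_lit 4556) (.d (nat_lit 559) (nat_lit 523) (nat_lit 3595) (nat_lit 527) (nat_lit 2572)))))))))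
noncomputable def s66117 : Cert := .r (nat_lit 4245707728857846503062298507090063200019233222191773310957623875809080835776835724940378342906373896040871188821314399598768489383800260916928807888699679409560119934976) (.p (nat_lit 558) (.a (.f (nat_lit 559) (nat_lit 525) (nat_lit 3596) (.d (nat_lit 556) (nat_lit 523) (nat_lit 3595) (nat_lit 527) (nat_lit 2572))) (.a (.f (nat_lit 494) (nat_lit 493) (nat_lit 1485) (.f (nat_lit 526) (nat_lit 431) (nat_lit 6574) (.d (nat_lit 559) (nat_lit 525) (nat_lit 3596) (nat_lit 591) (nat_lit 4558)))) (.a (.f (nat_lit 494) (nat_lit 493) (nat_lit 1485) (.f (nat_lit 526) (nat_lit 431) (nat_lit 6574) (.f (nat_lit 559) (nat_lit 591) (nat_lit 4558) (.d (nat_lit 556) (nat_lit 523) (nat_lit 3595) (nat_lit 527) (nat_lit 2572))))) (.f (nat_lit 494) (nat_lit 493) (nat_lit 1485) (.f (nat_lit 526) (nat_lit 431) (nat_lit 6574) (.f (nat_lit 590) (nat_lit 495) (nat_lit 6606) (.f (nat_lit 623) (nat_lit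 591) (nat_lit 4590) (.f (nat_lit 622) (nat_lit 655) (nat_lit 4622) (.f (nat_lit 525) (nat_lit 654) (nat_lit 7693) (.d (nat_lit 527) (nat_lit 556) (nat_lit 1548) (nat_lit 561) (nat_lit 525))))))))))))
noncomputable def s66226 : Cert := .r (nat_lit 4009835077306500168547201345686005320480766665381354844353723718289641360212693523662692923051609368822042600669625224437101985343786579433916464038696646330437058166784) (.p (nat_lit 525) (.a (.f (nat_lit 557) (nat_lit 589) (nat_lit 4556) (.f (nat_lit 558) (nat_lit 559) (nat_lit 3596) (.f (nat_lit 555) (nat_lit 587) (nat_lit 5579) (.f (nat_lit 522) (nat_lit 523) (nat_lit 522) (.d (nat_lit 554) (nat_lit 521) (nat_lit 3593) (nat_lit 553) (nat_lit 2569)))))) (.a (.f (nat_lit 557) (nat_lit 589) (nat_lit 4556) (.f (nat_lit 526) (nat_lit 527) (nat_lit 1548) (.d (nat_lit 555) (nat_lit 554) (nat_lit 2570) (nat_lit 587) (nat_lit 5579)))) (.a (.f (nat_lit 557) (nat_lit 589) (nat_lit 4556)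 (.f (nat_lit 527) (nat_lit 526) (nat_lit 1548) (.f (nat_lit 559) (nat_lit 558) (nat_lit 3596) (.f (nat_lit 495) (nat_lit 431) (nat_lit 4527) (.f (nat_lit 591) (nat_lit 494) (nat_lit 7630) (.f (nat_lit 623) (nat_lit 655) (nat_lit 6671) (.d (nat_lit 622) (nat_lit 590) (nat_lit 5614) (nat_lit 654) (nat_lit 5646)))))))) (.f (nat_lit 555) (nat_lit 587) (nat_lit 5579) (.f (nat_lit 526) (nat_lit 527) (nat_lit 1547) (.d (nat_lit 554) (nat_lit 523) (nat_lit 1546) (nat_lit 553) (nat_lit 2569))))))))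
noncomputable def s66275 : Cert := .r (nat_lit 3773962425864990596594193939810971796169046574757948252065394444501888750396777656566759515706122751577171622215895146569406441968473348413877574434167529552096006242304) (.p (nat_lit 526) (.a (.d (nat_lit 527) (nat_lit 493) (nat_lit 3564) (nat_lit 559) (nat_lit 524)) (.a (.d (nat_lit 527) (nat_lit 491) (nat_lit 3563) (nat_lit 559) (nat_lit 524)) (.a (.p (nat_lit 523) (.a (.f (nat_lit 558) (nat_lit 559) (nat_lit 523) (.f (nat_lit 522) (nat_lit 557) (nat_lit 522) (.d (nat_lit 554) (nat_lit 553) (nat_lit 1545) (nat_lit 555) (nat_lit 1546)))) (.a (.f (nat_lit 491) (nat_lit 490) (nat_lit 3562) (.f (nat_lit 555) (nat_lit 554) (nat_lit 1546) (.d (nat_lit 587) (nat_lit 460) (nat_lit 6603) (nat_lit 619) (nat_lit 6635)))) (.f (nat_lit 491) (nat_lit 490) (nat_lit 3562) (.f (nat_lit 558) (nat_lit 559) (nat_lit 523) (.f (nat_lit 522) (nat_lit 557) (nat_lit 522) (.d (nat_lit 521) (nat_lit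 493) (nat_lit 2537) (nat_lit 520) (nat_lit 2536)))))))) (.d (nat_lit 527) (nat_lit 491) (nat_lit 3563) (nat_lit 493) (nat_lit 3564))))))
noncomputable def s66293 : Cert := .r (nat_lit 3773962425864990596594193939810971796169046574757948252065394444501888750396777656566759515706122751577171622215895146569406441968473348413877574434167529552096006242304) (.p (nat_lit 526) (.a (.d (nat_lit 527) (nat_lit 493) (nat_lit 3564) (nat_lit 559) (nat_lit 524)) (.a (.d (nat_lit 527) (nat_lit 491) (nat_lit 3563) (nat_lit 559) (nat_lit 524)) (.a (.p (nat_lit 523) (.a (.f (nat_lit 558) (nat_lit 559) (nat_lit 523) (.f (nat_lit 522) (nat_lit 557) (nat_lit 522) (.d (nat_lit 554) (nat_lit 553) (nat_lit 1545) (nat_lit 555) (nat_lit 1546)))) (.a (.f (nat_lit 491) (nat_lit 490) (nat_lit 3562) (.f (nat_lit 555) (nat_lit 554) (nat_lit 1546) (.f (nat_lit 587) (nat_lit 619) (nat_lit 6635) (.f (nat_lit 588) (nat_lit 620) (nat_lit 4587) (.f (nat_lit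 558) (nat_lit 559) (nat_lit 523) (.f (nat_lit 586) (nat_lit 618) (nat_lit 5610) (.f (nat_lit 589) (nat_lit 557) (nat_lit 2602) (.f (nat_lit 622) (nat_lit 621) (nat_lit 586) (.d (nat_lit 590) (nat_lit 493) (nat_lit 7661) (nat_lit 623) (nat_lit 587)))))))))) (.a (.f (nat_lit 491) (nat_lit 490) (nat_lit 3562) (.f (nat_lit 558) (nat_lit 559) (nat_lit 523) (.f (nat_lit 522) (nat_lit 557) (nat_lit 522) (.d (nat_lit 521) (nat_lit 493) (nat_lit 2537) (nat_lit 520) (nat_lit 2536))))) (.f (nat_lit 491) (nat_lit 490) (nat_lit 3562) (.f (nat_lit 555) (nat_lit 554) (nat_lit 1546) (.f (nat_lit 587) (nat_lit 619) (nat_lit 6635) (.f (nat_lit 588) (nat_lit 620) (nat_lit 4587) (.f (nat_lit 459) (nat_lit 556) (nat_lit 4555) (.f (nat_lit 427) (nat_lit 395) (nat_lit 4491) (.d (nat_lit 426) (nat_lit 394) (nat_lit 7562) (nat_lit 458) (nat_lit 7594)))))))))))) (.d (nat_lit 527) (nat_lit 491) (nat_lit 3563) (nat_lit 493) (nat_lit 3564))))))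
noncomputable def s66308 : Cert := .r (nat_lit 3773962425864990596594193939810971796169046574757948252065394444501888750396777656566759515706122751577171622215895146569406441968473348413877574434167529552096006242304) (.p (nat_lit 526) (.a (.d (nat_lit 527) (nat_lit 491) (nat_lit 3563) (nat_lit 559) (nat_lit 524)) (.a (.d (nat_lit 527) (nat_lit 559) (nat_lit 524) (nat_lit 561) (nat_lit 525)) (.a (.p (nat_lit 523) (.a (.f (nat_lit 558) (nat_lit 559) (nat_lit 523) (.f (nat_lit 522) (nat_lit 557) (nat_lit 522) (.d (nat_lit 554) (nat_lit 553) (nat_lit 1545) (nat_lit 555) (nat_lit 1546)))) (.a (.f (nat_lit 555) (nat_lit 554) (nat_lit 1546) (.f (nat_lit 491) (nat_lit 490) (nat_lit 3562) (.d (nat_lit 460) (nat_lit 428) (nat_lit 5547) (nat_lit 587) (nat_lit 6603)))) (.f (nat_lit 558) (nat_lit 559) (nat_lit 523) (.f (nat_lit 557) (nat_lit 522) (nat_lit 522) (.f (nat_lit 460) (nat_lit 428) (nat_lit 4524) (.d (nat_lit 589) (nat_lit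 556) (nat_lit 4556) (nat_lit 621) (nat_lit 7660)))))))) (.d (nat_lit 527) (nat_lit 491) (nat_lit 3563) (nat_lit 561) (nat_lit 525))))))
noncomputable def s66346 : Cert := .r (nat_lit 4245707728967683265624388262434505407533661727310003305612420232032591770695796263077525356353330097519855169094740627181877765047213947492947753715596616557552180658176) (.p (nat_lit 590) (.a (.f (nat_lit 589) (nat_lit 621) (nat_lit 7660) (.f (nat_lit 559) (nat_lit 558) (nat_lit 3596) (.f (nat_lit 527) (nat_lit 526) (nat_lit 524) (.f (nat_lit 591) (nat_lit 588) (nat_lit 2604) (.d (nat_lit 495) (nat_lit 431) (nat_lit 4527) (nat_lit 622) (nat_lit 5614)))))) (.a (.f (nat_lit 589) (nat_lit 621) (nat_lit 7660) (.f (nat_lit 559) (nat_lit 558) (nat_lit 3596) (.f (nat_lit 588) (nat_lit 591) (nat_lit 2604) (.d (nat_lit 493) (nat_lit 620) (nat_lit 5612) (nat_lit 622) (nat_lit 4589))))) (.a (.f (nat_lit 589) (nat_lit 621) (nat_lit 7660) (.f (nat_lit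 493) (nat_lit 622) (nat_lit 4589) (.f (nat_lit 526) (nat_lit 527) (nat_lit 3564) (.f (nat_lit 588) (nat_lit 620) (nat_lit 5612) (.f (nat_lit 491) (nat_lit 490) (nat_lit 490) (.f (nat_lit 556) (nat_lit 459) (nat_lit 7627) (.d (nat_lit 591) (nat_lit 555) (nat_lit 3627) (nat_lit 559) (nat_lit 2604)))))))) (.a (.f (nat_lit 589) (nat_lit 621) (nat_lit 7660) (.f (nat_lit 493) (nat_lit 622) (nat_lit 4589) (.f (nat_lit 526) (nat_lit 527) (nat_lit 3564) (.f (nat_lit 588) (nat_lit 620) (nat_lit 5612) (.f (nat_lit 491) (nat_lit 490) (nat_lit 490) (.f (nat_lit 556) (nat_lit 459) (nat_lit 7627) (.d (nat_lit 555) (nat_lit 554) (nat_lit 554) (nat_lit 591) (nat_lit 3627)))))))) (.a (.f (nat_lit 559) (nat_lit 558) (nat_lit 3596) (.f (nat_lit 527) (nat_lit 526) (nat_lit 524) (.f (nat_lit 589) (nat_lit 621) (nat_lit 7660) (.f (nat_lit 622) (nat_lit 493) (nat_lit 4589) (.d (nat_lit 495) (nat_lit 431) (nat_lit 4527) (nat_lit 591) (nat_lit 5614))))))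 (.a (.f (nat_lit 558) (nat_lit 559) (nat_lit 3596) (.f (nat_lit 622) (nat_lit 654) (nat_lit 7693) (.f (nat_lit 526) (nat_lit 493) (nat_lit 7661) (.d (nat_lit 527) (nat_lit 495) (nat_lit 6638) (nat_lit 561) (nat_lit 525))))) (.f (nat_lit 559) (nat_lit 558) (nat_lit 3596) (.f (nat_lit 589) (nat_lit 621) (nat_lit 7660) (.f (nat_lit 588) (nat_lit 591) (nat_lit 2604) (.f (nat_lit 620) (nat_lit 493) (nat_lit 5612) (.d (nat_lit 652) (nat_lit 556) (nat_lit 6668) (nat_lit 684) (nat_lit 6700)))))))))))))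
noncomputable def s66362 : Cert := .r (nat_lit 3773962425864990596594193939810971796169046574757948252065394444501888750396777656566759515706122751577171622215895146569406441968473348413877574434167529552096006242304) (.p (nat_lit 460) (.a (.f (nat_lit 557) (nat_lit 428) (nat_lit 4524) (.d (nat_lit 589) (nat_lit 493) (nat_lit 7628) (nat_lit 556) (nat_lit 4556))) (.a (.p (nat_lit 556) (.a (.f (nat_lit 557) (nat_lit 589) (nat_lit 4556) (.f (nat_lit 558) (nat_lit 559) (nat_lit 3596) (.f (nat_lit 555) (nat_lit 587) (nat_lit 5579) (.f (nat_lit 523) (nat_lit 522) (nat_lit 522) (.f (nat_lit 459) (nat_lit 427) (nat_lit 7595) (.f (nat_lit 491) (nat_lit 588) (nat_lit 4555) (.d (nat_lit 554) (nat_lit 553) (nat_lit 2569) (nat_lit 586) (nat_lit 5578)))))))) (.a (.f (nat_lit 557) (nat_lit 589) (nat_lit 4556) (.f (nat_lit 558) (nat_lit 559) (nat_lit 3596) (.f (nat_lit 555) (nat_lit 587) (nat_lit 5579) (.f (nat_lit 522) (nat_lit 523) (nat_lit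 522) (.d (nat_lit 554) (nat_lit 521) (nat_lit 3593) (nat_lit 553) (nat_lit 2569)))))) (.a (.f (nat_lit 557) (nat_lit 589) (nat_lit 4556) (.f (nat_lit 459) (nat_lit 427) (nat_lit 7595) (.f (nat_lit 588) (nat_lit 491) (nat_lit 7627) (.d (nat_lit 620) (nat_lit 493) (nat_lit 6636) (nat_lit 652) (nat_lit 6668))))) (.f (nat_lit 459) (nat_lit 427) (nat_lit 7595) (.f (nat_lit 588) (nat_lit 491) (nat_lit 7627) (.d (nat_lit 587) (nat_lit 555) (nat_lit 5579) (nat_lit 619) (nat_lit 5611)))))))) (.a (.f (nat_lit 428) (nat_lit 557) (nat_lit 4524) (.f (nat_lit 523) (nat_lit 555) (nat_lit 5547) (.f (nat_lit 491) (nat_lit 396) (nat_lit 5515) (.f (nat_lit 427) (nat_lit 395) (nat_lit 7563) (.f (nat_lit 459) (nat_lit 556) (nat_lit 4523) (.f (nat_lit 490) (nat_lit 489) (nat_lit 489) (.f (nat_lit 522) (nat_lit 554) (nat_lit 5546) (.f (nat_lit 426) (nat_lit 394) (nat_lit 7562) (.f (nat_lit 425) (nat_lit 424) (nat_lit 424) (.d (nat_lit 393) (nat_lit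 392) (nat_lit 3464) (nat_lit 458) (nat_lit 7561))))))))))) (.a (.f (nat_lit 428) (nat_lit 557) (nat_lit 4524) (.f (nat_lit 396) (nat_lit 493) (nat_lit 4492) (.d (nat_lit 523) (nat_lit 491) (nat_lit 5515) (nat_lit 555) (nat_lit 5547)))) (.p (nat_lit 428) (.a (.f (nat_lit 396) (nat_lit 493) (nat_lit 4492) (.d (nat_lit 523) (nat_lit 491) (nat_lit 5515) (nat_lit 555) (nat_lit 5547))) (.a (.f (nat_lit 555) (nat_lit 523) (nat_lit 5547) (.f (nat_lit 556) (nat_lit 587) (nat_lit 5579) (.d (nat_lit 427) (nat_lit 395) (nat_lit 7563) (nat_lit 459) (nat_lit 7595)))) (.f (nat_lit 396) (nat_lit 493) (nat_lit 4492) (.d (nat_lit 397) (nat_lit 365) (nat_lit 6508) (nat_lit 429) (nat_lit 6540)))))))))))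
noncomputable def s66508 : Cert := .r (nat_lit 3773962425864990596594193939810971796169046574757948252065394444501888750396777656566759515706122751577171622215895146569406441968473348413877574434167529552096006242304) (.p (nat_lit 556) (.a (.p (nat_lit 588) (.a (.f (nat_lit 491) (nat_lit 459) (nat_lit 7627) (.d (nat_lit 620) (nat_lit 493) (nat_lit 6636) (nat_lit 523) (nat_lit 7659))) (.a (.f (nat_lit 620) (nat_lit 493) (nat_lit 6636) (.d (nat_lit 619) (nat_lit 587) (nat_lit 5611) (nat_lit 651) (nat_lit 5643))) (.f (nat_lit 491) (nat_lit 459) (nat_lit 7627) (.f (nat_lit 526) (nat_lit 527) (nat_lit 3563) (.d (nat_lit 490) (nat_lit 489) (nat_lit 489) (nat_lit 523) (nat_lit 3562))))))) (.a (.p (nat_lit 555) (.a (.f (nat_lit 526) (nat_lit 527) (nat_lit 1547) (.d (nat_lit 554) (nat_lit 523) (nat_lit 1546) (nat_lit 553) (nat_lit 2569))) (.f (nat_lit 587) (nat_lit 460) (nat_lit 5579) (.d (nat_lit 619) (nat_lit 588) (nat_lit 5611)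 (nat_lit 651) (nat_lit 6667))))) (.a (.p (nat_lit 588) (.a (.f (nat_lit 620) (nat_lit 493) (nat_lit 6636) (.d (nat_lit 619) (nat_lit 587) (nat_lit 5611) (nat_lit 651) (nat_lit 5643))) (.a (.f (nat_lit 587) (nat_lit 619) (nat_lit 5611) (.f (nat_lit 589) (nat_lit 621) (nat_lit 4588) (.f (nat_lit 555) (nat_lit 460) (nat_lit 5579) (.d (nat_lit 590) (nat_lit 554) (nat_lit 3626) (nat_lit 591) (nat_lit 3627))))) (.f (nat_lit 620) (nat_lit 493) (nat_lit 6636) (.d (nat_lit 621) (nat_lit 589) (nat_lit 4588) (nat_lit 653) (nat_lit 4620)))))) (.a (.p (nat_lit 491) (.a (.f (nat_lit 526) (nat_lit 527) (nat_lit 3563) (.d (nat_lit 490) (nat_lit 489) (nat_lit 489) (nat_lit 523) (nat_lit 3562))) (.a (.f (nat_lit 526) (nat_lit 527) (nat_lit 3563) (.d (nat_lit 490) (nat_lit 493) (nat_lit 490) (nat_lit 523) (nat_lit 3562))) (.a (.f (nat_lit 588) (nat_lit 459) (nat_lit 7627) (.d (nat_lit 620) (nat_lit 493) (nat_lit 6636) (nat_lit 523) (nat_lit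 7659))) (.f (nat_lit 588) (nat_lit 459) (nat_lit 7627) (.f (nat_lit 620) (nat_lit 493) (nat_lit 6636) (.d (nat_lit 621) (nat_lit 589) (nat_lit 4588) (nat_lit 653) (nat_lit 4620)))))))) (.p (nat_lit 555) (.a (.f (nat_lit 526) (nat_lit 527) (nat_lit 1547) (.d (nat_lit 554) (nat_lit 523) (nat_lit 1546) (nat_lit 553) (nat_lit 2569))) (.f (nat_lit 460) (nat_lit 587) (nat_lit 5579) (.f (nat_lit 427) (nat_lit 459) (nat_lit 7595) (.f (nat_lit 428) (nat_lit 395) (nat_lit 7563) (.f (nat_lit 397) (nat_lit 429) (nat_lit 6540) (.d (nat_lit 396) (nat_lit 365) (nat_lit 6508) (nat_lit 493) (nat_lit 4492)))))))))))))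
noncomputable def s66572 : Cert := .r (nat_lit 4245707728857846503113445235243172211467315524846623577563512377451703242684503999769664950088192183189322991407696138655096675758113121794471307048124891371352597987328) (.p (nat_lit 460) (.a (.f (nat_lit 556) (nat_lit 589) (nat_lit 4556) (.f (nat_lit 428) (nat_lit 525) (nat_lit 4524) (.d (nat_lit 427) (nat_lit 395) (nat_lit 7563) (nat_lit 459) (nat_lit 7595)))) (.a (.f (nat_lit 556) (nat_lit 589) (nat_lit 4556) (.f (nat_lit 587) (nat_lit 555) (nat_lit 5579) (.f (nat_lit 588) (nat_lit 619) (nat_lit 5611) (.d (nat_lit 459) (nat_lit 427) (nat_lit 7595) (nat_lit 491) (nat_lit 7627))))) (.a (.f (nat_lit 525) (nat_lit 428) (nat_lit 4524) (.d (nat_lit 589) (nat_lit 556) (nat_lit 4556) (nat_lit 621) (nat_lit 7660))) (.f (nat_lit 428) (nat_lit 525) (nat_lit 4524) (.f (nat_lit 395) (nat_lit 427) (nat_lit 7563) (.f (nat_lit 396) (nat_lit 363) (nat_lit 7531) (.d (nat_lit 397) (nat_lit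 365) (nat_lit 6508) (nat_lit 429) (nat_lit 6540)))))))))
noncomputable def s66577 : Cert := .r (nat_lit 4245707728857846503113445235243172211467315524846623577563512377451703242684503999769664950088192183189322991407696138655096675758113121794471307048124891371352597987328) (.p (nat_lit 558) (.a (.d (nat_lit 526) (nat_lit 431) (nat_lit 6574) (nat_lit 589) (nat_lit 5581)) (.a (.f (nat_lit 559) (nat_lit 525) (nat_lit 3596) (.d (nat_lit 589) (nat_lit 526) (nat_lit 5581) (nat_lit 588) (nat_lit 1580))) (.a (.f (nat_lit 559) (nat_lit 525) (nat_lit 3596) (.f (nat_lit 589) (nat_lit 588) (nat_lit 1580) (.f (nat_lit 561) (nat_lit 590) (nat_lit 1581) (.f (nat_lit 594) (nat_lit 593) (nat_lit 558) (.f (nat_lit 562) (nat_lit 595) (nat_lit 559) (.f (nat_lit 531) (nat_lit 530) (nat_lit 2575) (.d (nat_lit 563) (nat_lit 527) (nat_lit 3599) (nat_lit 532) (nat_lit 2576)))))))) (.f (nat_lit 526) (nat_lit 431) (nat_lit 6574) (.d (nat_lit 559)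 (nat_lit 525) (nat_lit 3596) (nat_lit 591) (nat_lit 4558)))))))
noncomputable def s66604 : Cert := .r (nat_lit 4245707728857846503113445235243172211467315524846623577563512377451703242684503999769664950088192183189322991407696138655096675758113121794471307048124891371352597987328) (.p (nat_lit 558) (.a (.f (nat_lit 559) (nat_lit 525) (nat_lit 3596) (.f (nat_lit 527) (nat_lit 556) (nat_lit 2572) (.d (nat_lit 495) (nat_lit 431) (nat_lit 4527) (nat_lit 590) (nat_lit 5582)))) (.a (.f (nat_lit 559) (nat_lit 525) (nat_lit 3596) (.f (nat_lit 527) (nat_lit 556) (nat_lit 2572) (.d (nat_lit 591) (nat_lit 495) (nat_lit 7630) (nat_lit 526) (nat_lit 4558)))) (.a (.f (nat_lit 526) (nat_lit 431) (nat_lit 6574) (.d (nat_lit 559) (nat_lit 525) (nat_lit 3596) (nat_lit 591) (nat_lit 4558))) (.a (.f (nat_lit 526) (nat_lit 431) (nat_lit 6574) (.f (nat_lit 559) (nat_lit 591) (nat_lit 4558) (.f (nat_lit 556) (nat_lit 527) (nat_lit 2572) (.f (nat_lit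 587) (nat_lit 588) (nat_lit 1579) (.d (nat_lit 555) (nat_lit 460) (nat_lit 5579) (nat_lit 586) (nat_lit 1578)))))) (.f (nat_lit 526) (nat_lit 431) (nat_lit 6574) (.f (nat_lit 590) (nat_lit 495) (nat_lit 6606) (.f (nat_lit 591) (nat_lit 623) (nat_lit 4590) (.f (nat_lit 556) (nat_lit 555) (nat_lit 555) (.f (nat_lit 525) (nat_lit 527) (nat_lit 1548) (.f (nat_lit 622) (nat_lit 654) (nat_lit 7693) (.f (nat_lit 621) (nat_lit 653) (nat_lit 5645) (.f (nat_lit 619) (nat_lit 620) (nat_lit 2635) (.f (nat_lit 460) (nat_lit 428) (nat_lit 4524) (.f (nat_lit 588) (nat_lit 587) (nat_lit 5611) (.d (nat_lit 459) (nat_lit 427) (nat_lit 7595) (nat_lit 491) (nat_lit 7627)))))))))))))))))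
noncomputable def s66889 : Cert := .r (nat_lit 3773962425755153834067267560042020719878026594478027512531053767430555570093086509625617206138227637271623477281165579150287038792030920806176434131217848345128217870336) (.p (nat_lit 459) (.a (.f (nat_lit 427) (nat_lit 395) (nat_lit 4491) (.d (nat_lit 556) (nat_lit 523) (nat_lit 4523) (nat_lit 588) (nat_lit 7627))) (.a (.f (nat_lit 556) (nat_lit 588) (nat_lit 7627) (.d (nat_lit 427) (nat_lit 460) (nat_lit 7595) (nat_lit 523) (nat_lit 4523))) (.a (.f (nat_lit 525) (nat_lit 526) (nat_lit 490) (.f (nat_lit 556) (nat_lit 588) (nat_lit 7627) (.f (nat_lit 522) (nat_lit 521) (nat_lit 1513) (.f (nat_lit 554) (nat_lit 586) (nat_lit 6602) (.d (nat_lit 553) (nat_lit 523) (nat_lit 1545) (nat_lit 555) (nat_lit 2569)))))) (.a (.f (nat_lit 427) (nat_lit 395) (nat_lit 4491) (.d (nat_lit 556) (nat_lit 460) (nat_lit 7595) (nat_lit 588) (nat_lit 7627))) (.f (nat_lit 522) (nat_lit 521) (nat_lit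 1513) (.f (nat_lit 427) (nat_lit 395) (nat_lit 4491) (.d (nat_lit 554) (nat_lit 523) (nat_lit 5546) (nat_lit 586) (nat_lit 6602)))))))))
noncomputable def s67117 : Cert := .r (nat_lit 3773962425755153834032104184374238514799152256528857521295105428070325620989043329676153956871798315745854482557153890536626317405942314788905722200722453720666214498304) (.f (nat_lit 525) (nat_lit 557) (nat_lit 4524) (.f (nat_lit 397) (nat_lit 429) (nat_lit 6540) (.f (nat_lit 396) (nat_lit 365) (nat_lit 6508) (.f (nat_lit 363) (nat_lit 395) (nat_lit 7531) (.f (nat_lit 364) (nat_lit 331) (nat_lit 7499) (.f (nat_lit 491) (nat_lit 459) (nat_lit 5483) (.f (nat_lit 527) (nat_lit 526) (nat_lit 3563) (.f (nat_lit 399) (nat_lit 398) (nat_lit 3435) (.f (nat_lit 431) (nat_lit 495) (nat_lit 4527) (.f (nat_lit 367) (nat_lit 494) (nat_lit 5486) (.f (nat_lit 336) (nat_lit 368) (nat_lit 6479) (.f (nat_lit 335) (nat_lit 304) (nat_lit 6447) (.d (nat_lit 334)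 (nat_lit 302) (nat_lit 7470) (nat_lit 366) (nat_lit 7502))))))))))))))
noncomputable def s67161 : Cert := .r (nat_lit 3773962425755153834032104184374238514798459089105327317580210824524289850063184220407310002728005695850700827230202484130866323804416279894381374397982102827708970958848) (.p (nat_lit 556) (.a (.f (nat_lit 589) (nat_lit 557) (nat_lit 4556) (.f (nat_lit 588) (nat_lit 621) (nat_lit 4588) (.d (nat_lit 587) (nat_lit 555) (nat_lit 5579) (nat_lit 619) (nat_lit 5611)))) (.a (.f (nat_lit 557) (nat_lit 589) (nat_lit 4556) (.f (nat_lit 459) (nat_lit 427) (nat_lit 7595) (.f (nat_lit 588) (nat_lit 491) (nat_lit 7627) (.f (nat_lit 619) (nat_lit 587) (nat_lit 5611) (.f (nat_lit 620) (nat_lit 651) (nat_lit 5643) (.f (nat_lit 525) (nat_lit 652) (nat_lit 6668) (.f (nat_lit 558) (nat_lit 559) (nat_lit 3596) (.f (nat_lit 526) (nat_lit 527) (nat_lit 1548) (.f (nat_lit 494) (nat_lit 431) (nat_lit 6574) (.d (nat_lit 523) (nat_lit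 495) (nat_lit 2539) (nat_lit 522) (nat_lit 522))))))))))) (.a (.f (nat_lit 587) (nat_lit 555) (nat_lit 5579) (.f (nat_lit 588) (nat_lit 619) (nat_lit 5611) (.d (nat_lit 459) (nat_lit 427) (nat_lit 7595) (nat_lit 491) (nat_lit 7627)))) (.a (.f (nat_lit 459) (nat_lit 427) (nat_lit 7595) (.f (nat_lit 588) (nat_lit 491) (nat_lit 7627) (.d (nat_lit 589) (nat_lit 557) (nat_lit 4556) (nat_lit 621) (nat_lit 4588)))) s66226)))))
noncomputable def s67184 : Cert := .r (nat_lit 4009835077306500168547201345686005320480766665381354844353723718289641360212693523662692923051609368822042600669625224437101985343786579433916464038696646330437058166784) (.p (nat_lit 588) (.a (.d (nat_lit 589) (nat_lit 557) (nat_lit 4556) (nat_lit 621) (nat_lit 4588)) (.a (.f (nat_lit 619) (nat_lit 587) (nat_lit 5611) (.f (nat_lit 620) (nat_lit 651) (nat_lit 5643) (.d (nat_lit 621) (nat_lit 589) (nat_lit 4588) (nat_lit 653) (nat_lit 4620)))) (.a (.f (nat_lit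 619) (nat_lit 587) (nat_lit 5611) (.f (nat_lit 620) (nat_lit 651) (nat_lit 5643) (.f (nat_lit 653) (nat_lit 621) (nat_lit 4620) (.f (nat_lit 652) (nat_lit 685) (nat_lit 4652) (.f (nat_lit 525) (nat_lit 557) (nat_lit 6668) (.f (nat_lit 461) (nat_lit 429) (nat_lit 6572) (.f (nat_lit 459) (nat_lit 427) (nat_lit 7595) (.f (nat_lit 495) (nat_lit 494) (nat_lit 459) (.f (nat_lit 527) (nat_lit 431) (nat_lit 4527) (.d (nat_lit 526) (nat_lit 559) (nat_lit 524) (nat_lit 561) (nat_lit 525))))))))))) (.f (nat_lit 557) (nat_lit 589) (nat_lit 4556) (.f (nat_lit 619) (nat_lit 587) (nat_lit 5611) (.f (nat_lit 620) (nat_lit 651) (nat_lit 5643) (.f (nat_lit 525) (nat_lit 652) (nat_lit 6668) (.f (nat_lit 558) (nat_lit 559) (nat_lit 3596) (.f (nat_lit 526) (nat_lit 527) (nat_lit 1548) (.f (nat_lit 494) (nat_lit 431) (nat_lit 6574) (.d (nat_lit 523) (nat_lit 495) (nat_lit 2539) (nat_lit 522) (nat_lit 522)))))))))))))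
noncomputable def s67206 : Cert := .r (nat_lit 4009835077306500168547201345686005320480766665381354844353723718289641360212693523662692923051609368822042600669625224437101985343786579433916464038696646330437058166784) (.p (nat_lit 526) (.a (.f (nat_lit 555) (nat_lit 587) (nat_lit 5579) (.f (nat_lit 525) (nat_lit 527) (nat_lit 1547) (.d (nat_lit 554) (nat_lit 523) (nat_lit 1546) (nat_lit 553) (nat_lit 2569)))) (.a (.f (nat_lit 555) (nat_lit 587) (nat_lit 5579) (.f (nat_lit 527) (nat_lit 525) (nat_lit 1547) (.f (nat_lit 495) (nat_lit 431) (nat_lit 4527) (.f (nat_lit 461) (nat_lit 429) (nat_lit 6572) (.d (nat_lit 459) (nat_lit 427) (nat_lit 7595) (nat_lit 494) (nat_lit 459)))))) (.a (.f (nat_lit 587) (nat_lit 555) (nat_lit 5579) (.f (nat_lit 588) (nat_lit 619) (nat_lit 5611) (.f (nat_lit 589) (nat_lit 621) (nat_lit 4588) (.f (nat_lit 461) (nat_lit 429) (nat_lit 6572) (.f (nat_lit 459) (nat_lit 427) (nat_lit 7595) (.f (nat_lit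 494) (nat_lit 495) (nat_lit 459) (.f (nat_lit 558) (nat_lit 431) (nat_lit 6574) (.d (nat_lit 559) (nat_lit 590) (nat_lit 2603) (nat_lit 591) (nat_lit 4558))))))))) (.f (nat_lit 461) (nat_lit 429) (nat_lit 6572) (.f (nat_lit 459) (nat_lit 427) (nat_lit 7595) (.f (nat_lit 494) (nat_lit 495) (nat_lit 459) (.f (nat_lit 558) (nat_lit 431) (nat_lit 6574) (.f (nat_lit 559) (nat_lit 591) (nat_lit 4558) (.d (nat_lit 525) (nat_lit 523) (nat_lit 523) (nat_lit 561) (nat_lit 3597)))))))))))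
noncomputable def s67335 : Cert := .r (nat_lit 3773962425700235452738272624589311872811354115290248995673608856684065905542405513258590247812975560221283939098291971982140250265709139174504620074283388056494680309760) (.p (nat_lit 492) (.a (.f (nat_lit 493) (nat_lit 461) (nat_lit 1484) (.d (nat_lit 494) (nat_lit 465) (nat_lit 1485) (nat_lit 491) (nat_lit 2507))) (.a (.p (nat_lit 524) (.a (.p (nat_lit 494) (.a (.d (nat_lit 493) (nat_lit 491) (nat_lit 2507) (nat_lit 495) (nat_lit 2508)) (.a (.d (nat_lit 493) (nat_lit 465) (nat_lit 1485) (nat_lit 495) (nat_lit 2508)) (.a s65790 (.d (nat_lit 493) (nat_lit 465) (nat_lit 1485) (nat_lit 491) (nat_lit 2507)))))) (.a (.p (nat_lit 494) (.a (.d (nat_lit 493) (nat_lit 491) (nat_lit 2507) (nat_lit 495) (nat_lit 2508)) (.a (.d (nat_lit 493) (nat_lit 465) (nat_lit 1485) (nat_lit 495) (nat_lit 2508)) (.a (.p (nat_lit 526) (.a (.f (nat_lit 558) (nat_lit 431) (nat_lit 6574) (.f (nat_lit 559) (nat_lit 591) (nat_lit 4558) (.d (nat_lit 525) (nat_lit 523) (nat_lit 523) (nat_lit 561) (nat_lit 3597)))) (.a (.p (nat_lit 525) (.a (.d (nat_lit 527) (nat_lit 559) (nat_lit 524) (nat_lit 561) (nat_lit 525)) (.a (.f (nat_lit 523) (nat_lit 495) (nat_lit 2539) (.f (nat_lit 558) (nat_lit 559) (nat_lit 523) (.d (nat_lit 557) (nat_lit 522) (nat_lit 522) (nat_lit 589) (nat_lit 5581)))) (.d (nat_lit 527) (nat_lit 491) (nat_lit 3563) (nat_lit 561) (nat_lit 525))))) (.a (.f (nat_lit 558) (nat_lit 431) (nat_lit 6574) (.f (nat_lit 559) (nat_lit 591) (nat_lit 4558) (.d (nat_lit 525) (nat_lit 527) (nat_lit 524) (nat_lit 561) (nat_lit 3597)))) (.a (.f (nat_lit 558) (nat_lit 431) (nat_lit 6574) (.f (nat_lit 590) (nat_lit 495) (nat_lit 6606) (.d (nat_lit 589) (nat_lit 557) (nat_lit 5581) (nat_lit 621) (nat_lit 5613)))) (.p (nat_lit 525) (.a (.d (nat_lit 527) (nat_lit 559) (nat_lit 524) (nat_lit 561) (nat_lit 525)) (.f (nat_lit 523) (nat_lit 495) (nat_lit 2539) (.f (nat_lit 491) (nat_lit 490) (nat_lit 3562) (.f (nat_lit 555) (nat_lit 554) (nat_lit 1546) (.d (nat_lit 587) (nat_lit 460) (nat_lit 6603) (nat_lit 619) (nat_lit 6635)))))))))))) (.d (nat_lit 493) (nat_lit 465) (nat_lit 1485) (nat_lit 491) (nat_lit 2507)))))) (.a (.p (nat_lit 525) (.a (.p (nat_lit 493) (.a (.d (nat_lit 494) (nat_lit 465) (nat_lit 1485) (nat_lit 495) (nat_lit 2508)) (.a (.d (nat_lit 494) (nat_lit 491) (nat_lit 2507) (nat_lit 495) (nat_lit 2508)) (.p (nat_lit 557) (.a (.d (nat_lit 589) (nat_lit 460) (nat_lit 7628) (nat_lit 621) (nat_lit 7660)) (.a (.f (nat_lit 526) (nat_lit 527) (nat_lit 3564) (.f (nat_lit 558) (nat_lit 559) (nat_lit 3596) (.f (nat_lit 589) (nat_lit 621) (nat_lit 7660) (.f (nat_lit 590) (nat_lit 622) (nat_lit 7661) (.f (nat_lit 588) (nat_lit 620) (nat_lit 5612) (.f (nat_lit 587) (nat_lit 586) (nat_lit 2602) (.d (nat_lit 619) (nat_lit 556) (nat_lit 5611) (nat_lit 618) (nat_lit 1610)))))))) (.f (nat_lit 526) (nat_lit 527) (nat_lit 3564) (.f (nat_lit 558) (nat_lit 559) (nat_lit 3596) (.f (nat_lit 523) (nat_lit 522) (nat_lit 522) (.f (nat_lit 491) (nat_lit 490) (nat_lit 490) (.f (nat_lit 555) (nat_lit 554) (nat_lit 1546) (.d (nat_lit 587) (nat_lit 460) (nat_lit 6603) (nat_lit 619) (nat_lit 6635))))))))))))) (.a (.p (nat_lit 526) (.a (.d (nat_lit 527) (nat_lit 493) (nat_lit 3564) (nat_lit 559) (nat_lit 524)) (.a (.d (nat_lit 527) (nat_lit 491) (nat_lit 3563) (nat_lit 559) (nat_lit 524)) (.a (.p (nat_lit 523) (.a (.f (nat_lit 494) (nat_lit 495) (nat_lit 2539) (.d (nat_lit 491) (nat_lit 490) (nat_lit 3562) (nat_lit 493) (nat_lit 2507))) (.a (.f (nat_lit 494) (nat_lit 495) (nat_lit 2539) (.d (nat_lit 493) (nat_lit 491) (nat_lit 2507) (nat_lit 522) (nat_lit 2538))) (.a (.f (nat_lit 494) (nat_lit 495) (nat_lit 2539) (.d (nat_lit 493) (nat_lit 465) (nat_lit 1485) (nat_lit 522) (nat_lit 2538))) (.a (.f (nat_lit 558) (nat_lit 559) (nat_lit 523) (.f (nat_lit 557) (nat_lit 522) (nat_lit 522) (.d (nat_lit 494) (nat_lit 495) (nat_lit 2539) (nat_lit 589) (nat_lit 5581)))) (.f (nat_lit 558) (nat_lit 559) (nat_lit 523) (.f (nat_lit 522) (nat_lit 557) (nat_lit 522) (.d (nat_lit 554) (nat_lit 553) (nat_lit 1545) (nat_lit 555) (nat_lit 1546))))))))) (.d (nat_lit 527) (nat_lit 491) (nat_lit 3563) (nat_lit 493) (nat_lit 3564)))))) (.a (.p (nat_lit 526) (.a (.d (nat_lit 527) (nat_lit 493) (nat_lit 3564) (nat_lit 559) (nat_lit 524)) (.a (.d (nat_lit 527) (nat_lit 491) (nat_lit 3563) (nat_lit 559) (nat_lit 524)) (.a (.p (nat_lit 523) (.a (.f (nat_lit 494) (nat_lit 495) (nat_lit 2539) (.d (nat_lit 491) (nat_lit 490) (nat_lit 3562) (nat_lit 493) (nat_lit 2507))) (.a (.f (nat_lit 494) (nat_lit 495) (nat_lit 2539) (.d (nat_lit 493) (nat_lit 491) (nat_lit 2507) (nat_lit 522) (nat_lit 2538))) (.a (.f (nat_lit 558) (nat_lit 559) (nat_lit 523) (.f (nat_lit 557) (nat_lit 522) (nat_lit 522) (.d (nat_lit 494) (nat_lit 495) (nat_lit 2539) (nat_lit 589) (nat_lit 5581)))) (.f (nat_lit 558) (nat_lit 559) (nat_lit 523) (.f (nat_lit 522) (nat_lit 557) (nat_lit 522) (.d (nat_lit 554) (nat_lit 553) (nat_lit 1545) (nat_lit 555) (nat_lit 1546)))))))) (.d (nat_lit 527) (nat_lit 491) (nat_lit 3563) (nat_lit 493) (nat_lit 3564)))))) (.a (.p (nat_lit 493) (.a (.d (nat_lit 494) (nat_lit 465) (nat_lit 1485) (nat_lit 495) (nat_lit 2508)) (.a (.d (nat_lit 494) (nat_lit 491) (nat_lit 2507) (nat_lit 495) (nat_lit 2508)) (.p (nat_lit 557) (.a (.d (nat_lit 589) (nat_lit 460) (nat_lit 7628) (nat_lit 621) (nat_lit 7660)) (.a (.f (nat_lit 526) (nat_lit 527) (nat_lit 3564) (.f (nat_lit 558) (nat_lit 559) (nat_lit 3596) (.f (nat_lit 589) (nat_lit 621) (nat_lit 7660) (.f (nat_lit 590) (nat_lit 622) (nat_lit 7661) (.f (nat_lit 588) (nat_lit 620) (nat_lit 5612) (.f (nat_lit 587) (nat_lit 586) (nat_lit 2602) (.d (nat_lit 619) (nat_lit 556) (nat_lit 5611) (nat_lit 618) (nat_lit 1610)))))))) (.f (nat_lit 526) (nat_lit 527) (nat_lit 3564) (.f (nat_lit 558) (nat_lit 559) (nat_lit 3596) (.f (nat_lit 523) (nat_lit 522) (nat_lit 522) (.f (nat_lit 555) (nat_lit 554) (nat_lit 1546) (.f (nat_lit 460) (nat_lit 428) (nat_lit 4524) (.d (nat_lit 587) (nat_lit 491) (nat_lit 6603) (nat_lit 619) (nat_lit 6635))))))))))))) (.a s65863 (.a (.p (nat_lit 526) (.a (.d (nat_lit 527) (nat_lit 491) (nat_lit 3563) (nat_lit 559) (nat_lit 524)) (.a (.d (nat_lit 527) (nat_lit 559) (nat_lit 524) (nat_lit 561) (nat_lit 525)) (.a (.p (nat_lit 523) (.a (.f (nat_lit 558) (nat_lit 559) (nat_lit 523) (.f (nat_lit 557) (nat_lit 522) (nat_lit 522) (.d (nat_lit 494) (nat_lit 495) (nat_lit 2539) (nat_lit 589) (nat_lit 5581)))) (.a (.f (nat_lit 558) (nat_lit 559) (nat_lit 523) (.f (nat_lit 522) (nat_lit 557) (nat_lit 522) (.d (nat_lit 554) (nat_lit 553) (nat_lit 1545) (nat_lit 555) (nat_lit 1546)))) (.f (nat_lit 555) (nat_lit 554) (nat_lit 1546) (.f (nat_lit 491) (nat_lit 490) (nat_lit 3562) (.d (nat_lit 460) (nat_lit 428) (nat_lit 5547) (nat_lit 587) (nat_lit 6603))))))) (.d (nat_lit 527) (nat_lit 491) (nat_lit 3563) (nat_lit 561) (nat_lit 525)))))) (.a s65876 (.a (.p (nat_lit 526) (.a (.d (nat_lit 527) (nat_lit 493) (nat_lit 3564) (nat_lit 559) (nat_lit 524)) (.a (.d (nat_lit 527) (nat_lit 491) (nat_lit 3563) (nat_lit 559) (nat_lit 524)) (.p (nat_lit 494) (.a (.f (nat_lit 523) (nat_lit 495) (nat_lit 2539) (.f (nat_lit 555) (nat_lit 554) (nat_lit 1546) (.f (nat_lit 491) (nat_lit 490) (nat_lit 3562) (.d (nat_lit 460) (nat_lit 428) (nat_lit 5547) (nat_lit 587) (nat_lit 6603))))) (.a (.f (nat_lit 523) (nat_lit 495) (nat_lit 2539) (.f (nat_lit 491) (nat_lit 490) (nat_lit 3562) (.f (nat_lit 555) (nat_lit 554) (nat_lit 1546) (.d (nat_lit 587) (nat_lit 460) (nat_lit 6603) (nat_lit 619) (nat_lit 6635))))) (.a (.d (nat_lit 493) (nat_lit 465) (nat_lit 1485) (nat_lit 491) (nat_lit 2507)) (.d (nat_lit 493) (nat_lit 465) (nat_lit 1485) (nat_lit 495) (nat_lit 2508))))))))) (.a s65906 (.a (.p (nat_lit 460) (.a (.f (nat_lit 428) (nat_lit 557) (nat_lit 4524) (.f (nat_lit 493) (nat_lit 396) (nat_lit 4492) (.d (nat_lit 494) (nat_lit 465) (nat_lit 1485) (nat_lit 495) (nat_lit 2508)))) (.a (.f (nat_lit 557) (nat_lit 428) (nat_lit 4524) (.d (nat_lit 589) (nat_lit 493) (nat_lit 7628) (nat_lit 556) (nat_lit 4556))) (.a (.p (nat_lit 556) (.a (.f (nat_lit 557) (nat_lit 589) (nat_lit 4556) (.f (nat_lit 558) (nat_lit 559) (nat_lit 3596) (.f (nat_lit 555) (nat_lit 587) (nat_lit 5579) (.f (nat_lit 523) (nat_lit 522) (nat_lit 522) (.f (nat_lit 459) (nat_lit 427) (nat_lit 7595) (.f (nat_lit 491) (nat_lit 588) (nat_lit 4555) (.d (nat_lit 554) (nat_lit 553) (nat_lit 2569) (nat_lit 586) (nat_lit 5578)))))))) (.a (.f (nat_lit 557) (nat_lit 589) (nat_lit 4556) (.f (nat_lit 558) (nat_lit 559) (nat_lit 3596) (.f (nat_lit 555) (nat_lit 587) (nat_lit 5579) (.f (nat_lit 522) (nat_lit 523) (nat_lit 522) (.d (nat_lit 554) (nat_lit 521) (nat_lit 3593) (nat_lit 553) (nat_lit 2569)))))) (.a (.f (nat_lit 555) (nat_lit 587) (nat_lit 5579) (.f (nat_lit 459) (nat_lit 427) (nat_lit 7595) (.f (nat_lit 491) (nat_lit 588) (nat_lit 7627) (.f (nat_lit 493) (nat_lit 494) (nat_lit 2507) (.f (nat_lit 458) (nat_lit 457) (nat_lit 457) (.f (nat_lit 554) (nat_lit 553) (nat_lit 2569) (.d (nat_lit 523) (nat_lit 426) (nat_lit 7594) (nat_lit 586) (nat_lit 5578)))))))) (.a (.f (nat_lit 557) (nat_lit 589) (nat_lit 4556) (.f (nat_lit 555) (nat_lit 587) (nat_lit 5579) (.f (nat_lit 554) (nat_lit 553) (nat_lit 2569) (.f (nat_lit 459) (nat_lit 427) (nat_lit 7595) (.f (nat_lit 491) (nat_lit 588) (nat_lit 7627) (.f (nat_lit 490) (nat_lit 489) (nat_lit 489) (.d (nat_lit 586) (nat_lit 522) (nat_lit 6602) (nat_lit 585) (nat_lit 1577)))))))) (.a (.f (nat_lit 557) (nat_lit 589) (nat_lit 4556) (.f (nat_lit 558) (nat_lit 559) (nat_lit 3596) (.f (nat_lit 555) (nat_lit 587) (nat_lit 5579) (.f (nat_lit 523) (nat_lit 522) (nat_lit 3594) (.f (nat_lit 459) (nat_lit 427) (nat_lit 7595) (.f (nat_lit 491) (nat_lit 588) (nat_lit 4555) (.f (nat_lit 493) (nat_lit 494) (nat_lit 2507) (.d (nat_lit 458) (nat_lit 426) (nat_lit 7594) (nat_lit 457) (nat_lit 457))))))))) (.f (nat_lit 557) (nat_lit 589) (nat_lit 4556) (.f (nat_lit 459) (nat_lit 427) (nat_lit 7595) (.f (nat_lit 588) (nat_lit 491) (nat_lit 7627) (.d (nat_lit 620) (nat_lit 493) (nat_lit 6636) (nat_lit 652) (nat_lit 6668))))))))))) (.a (.f (nat_lit 428) (nat_lit 557) (nat_lit 4524) (.f (nat_lit 523) (nat_lit 555) (nat_lit 5547) (.f (nat_lit 491) (nat_lit 396) (nat_lit 5515) (.f (nat_lit 427) (nat_lit 395) (nat_lit 7563) (.f (nat_lit 459) (nat_lit 556) (nat_lit 4523) (.f (nat_lit 490) (nat_lit 489) (nat_lit 489) (.f (nat_lit 522) (nat_lit 554) (nat_lit 5546) (.f (nat_lit 426) (nat_lit 394) (nat_lit 7562) (.f (nat_lit 425) (nat_lit 424) (nat_lit 424) (.d (nat_lit 393) (nat_lit 392) (nat_lit 3464) (nat_lit 458) (nat_lit 7561))))))))))) (.p (nat_lit 493) (.a (.d (nat_lit 494) (nat_lit 465) (nat_lit 1485) (nat_lit 495) (nat_lit 2508)) (.a (.d (nat_lit 494) (nat_lit 491) (nat_lit 2507) (nat_lit 495) (nat_lit 2508)) (.f (nat_lit 428) (nat_lit 396) (nat_lit 4492) (.f (nat_lit 523) (nat_lit 555) (nat_lit 5547) (.f (nat_lit 522) (nat_lit 521) (nat_lit 2537) (.f (nat_lit 427) (nat_lit 395) (nat_lit 7563) (.f (nat_lit 459) (nat_lit 556) (nat_lit 7595) (.d (nat_lit 554) (nat_lit 491) (nat_lit 5546) (nat_lit 553) (nat_lit 1545))))))))))))))) (.a (.p (nat_lit 493) (.a (.d (nat_lit 494) (nat_lit 465) (nat_lit 1485) (nat_lit 495) (nat_lit 2508)) (.a (.d (nat_lit 494) (nat_lit 491) (nat_lit 2507) (nat_lit 495) (nat_lit 2508)) (.p (nat_lit 557) (.a (.d (nat_lit 589) (nat_lit 460) (nat_lit 7628) (nat_lit 621) (nat_lit 7660)) (.a (.f (nat_lit 526) (nat_lit 527) (nat_lit 3564) (.f (nat_lit 558) (nat_lit 559) (nat_lit 3596) (.f (nat_lit 589) (nat_lit 621) (nat_lit 7660) (.f (nat_lit 590) (nat_lit 622) (nat_lit 7661) (.f (nat_lit 588) (nat_lit 620) (nat_lit 5612) (.f (nat_lit 587) (nat_lit 586) (nat_lit 2602) (.d (nat_lit 619) (nat_lit 556) (nat_lit 5611) (nat_lit 618) (nat_lit 1610)))))))) (.f (nat_lit 526) (nat_lit 527) (nat_lit 3564) (.f (nat_lit 558) (nat_lit 559) (nat_lit 3596) (.f (nat_lit 523) (nat_lit 522) (nat_lit 522) (.f (nat_lit 491) (nat_lit 490) (nat_lit 490) (.f (nat_lit 460) (nat_lit 428) (nat_lit 4524) (.f (nat_lit 555) (nat_lit 587) (nat_lit 6603) (.f (nat_lit 590) (nat_lit 622) (nat_lit 7661) (.f (nat_lit 556) (nat_lit 591) (nat_lit 555) (.d (nat_lit 459) (nat_lit 427) (nat_lit 4523) (nat_lit 588) (nat_lit 4555)))))))))))))))) (.a (.p (nat_lit 526) (.a (.d (nat_lit 527) (nat_lit 493) (nat_lit 3564) (nat_lit 559) (nat_lit 524)) (.a (.d (nat_lit 527) (nat_lit 491) (nat_lit 3563) (nat_lit 559) (nat_lit 524)) (.a (.p (nat_lit 494) (.a (.f (nat_lit 523) (nat_lit 495) (nat_lit 2539) (.f (nat_lit 558) (nat_lit 559) (nat_lit 523) (.d (nat_lit 557) (nat_lit 522) (nat_lit 522) (nat_lit 589) (nat_lit 5581)))) (.d (nat_lit 493) (nat_lit 465) (nat_lit 1485) (nat_lit 491) (nat_lit 2507)))) (.d (nat_lit 527) (nat_lit 491) (nat_lit 3563) (nat_lit 493) (nat_lit 3564)))))) (.p (nat_lit 493) (.a (.d (nat_lit 494) (nat_lit 465) (nat_lit 1485) (nat_lit 495) (nat_lit 2508)) (.a (.d (nat_lit 494) (nat_lit 491) (nat_lit 2507) (nat_lit 495) (nat_lit 2508)) (.p (nat_lit 523) (.a (.f (nat_lit 526) (nat_lit 527) (nat_lit 3564) (.f (nat_lit 491) (nat_lit 490) (nat_lit 490) (.f (nat_lit 555) (nat_lit 554) (nat_lit 1546) (.d (nat_lit 460) (nat_lit 428) (nat_lit 5547) (nat_lit 587) (nat_lit 6603))))) (.a (.f (nat_lit 526) (nat_lit 527) (nat_lit 3564) (.f (nat_lit 491) (nat_lit 490) (nat_lit 490) (.f (nat_lit 555) (nat_lit 554) (nat_lit 1546) (.d (nat_lit 587) (nat_lit 460) (nat_lit 6603) (nat_lit 619) (nat_lit 6635))))) (.a (.f (nat_lit 526) (nat_lit 527) (nat_lit 3564) (.f (nat_lit 522) (nat_lit 521) (nat_lit 2537) (.d (nat_lit 554) (nat_lit 553) (nat_lit 1545) (nat_lit 555) (nat_lit 1546)))) (.f (nat_lit 522) (nat_lit 521) (nat_lit 2537) (.f (nat_lit 557) (nat_lit 558) (nat_lit 522) (.d (nat_lit 460) (nat_lit 428) (nat_lit 4524) (nat_lit 589) (nat_lit 7628)))))))))))))))))))))))) (.a (.p (nat_lit 494) (.a (.d (nat_lit 493) (nat_lit 491) (nat_lit 2507) (nat_lit 495) (nat_lit 2508)) (.a (.d (nat_lit 493) (nat_lit 465) (nat_lit 1485) (nat_lit 495) (nat_lit 2508)) (.a (.p (nat_lit 526) (.a (.f (nat_lit 558) (nat_lit 431) (nat_lit 6574) (.f (nat_lit 559) (nat_lit 591) (nat_lit 4558) (.d (nat_lit 525) (nat_lit 523) (nat_lit 523) (nat_lit 561) (nat_lit 3597)))) (.a (.p (nat_lit 525) (.a (.d (nat_lit 527) (nat_lit 559) (nat_lit 524) (nat_lit 561) (nat_lit 525)) (.a (.f (nat_lit 523) (nat_lit 495) (nat_lit 2539) (.f (nat_lit 558) (nat_lit 559) (nat_lit 523) (.d (nat_lit 557) (nat_lit 522) (nat_lit 522) (nat_lit 589) (nat_lit 5581)))) (.d (nat_lit 527) (nat_lit 491) (nat_lit 3563) (nat_lit 561) (nat_lit 525))))) (.a (.f (nat_lit 558) (nat_lit 431) (nat_lit 6574) (.f (nat_lit 559) (nat_lit 591) (nat_lit 4558) (.d (nat_lit 525) (nat_lit 527) (nat_lit 524) (nat_lit 561) (nat_lit 3597)))) (.a (.f (nat_lit 558) (nat_lit 431) (nat_lit 6574) (.f (nat_lit 590) (nat_lit 495) (nat_lit 6606) (.d (nat_lit 589) (nat_lit 557) (nat_lit 5581) (nat_lit 621) (nat_lit 5613)))) (.p (nat_lit 525) (.a (.d (nat_lit 527) (nat_lit 559) (nat_lit 524) (nat_lit 561) (nat_lit 525)) (.f (nat_lit 523) (nat_lit 495) (nat_lit 2539) (.f (nat_lit 491) (nat_lit 490) (nat_lit 3562) (.f (nat_lit 555) (nat_lit 554) (nat_lit 1546) (.f (nat_lit 587) (nat_lit 619) (nat_lit 6635) (.f (nat_lit 588) (nat_lit 620) (nat_lit 4587) (.f (nat_lit 459) (nat_lit 556) (nat_lit 4555) (.f (nat_lit 427) (nat_lit 395) (nat_lit 4491) (.d (nat_lit 426) (nat_lit 394) (nat_lit 7562) (nat_lit 458) (nat_lit 7594)))))))))))))))) (.d (nat_lit 493) (nat_lit 465) (nat_lit 1485) (nat_lit 491) (nat_lit 2507)))))) (.a (.p (nat_lit 494) (.a (.d (nat_lit 493) (nat_lit 491) (nat_lit 2507) (nat_lit 495) (nat_lit 2508)) (.a (.f (nat_lit 495) (nat_lit 493) (nat_lit 2508) (.f (nat_lit 431) (nat_lit 527) (nat_lit 4527) (.d (nat_lit 399) (nat_lit 367) (nat_lit 5486) (nat_lit 526) (nat_lit 5518)))) (.a s65790 (.p (nat_lit 526) (.a (.f (nat_lit 558) (nat_lit 431) (nat_lit 6574) (.f (nat_lit 559) (nat_lit 591) (nat_lit 4558) (.d (nat_lit 525) (nat_lit 523) (nat_lit 523) (nat_lit 561) (nat_lit 3597)))) (.a (.f (nat_lit 491) (nat_lit 493) (nat_lit 2507) (.f (nat_lit 525) (nat_lit 527) (nat_lit 3563) (.d (nat_lit 490) (nat_lit 489) (nat_lit 489) (nat_lit 523) (nat_lit 3562)))) (.a (.f (nat_lit 558) (nat_lit 431) (nat_lit 6574) (.f (nat_lit 559) (nat_lit 591) (nat_lit 4558) (.d (nat_lit 525) (nat_lit 527) (nat_lit 524) (nat_lit 561) (nat_lit 3597)))) (.f (nat_lit 558) (nat_lit 431) (nat_lit 6574) (.f (nat_lit 559) (nat_lit 591) (nat_lit 4558) (.f (nat_lit 557) (nat_lit 589) (nat_lit 5581) (.d (nat_lit 556) (nat_lit 523) (nat_lit 3595) (nat_lit 527) (nat_lit 2572))))))))))))) (.a (.p (nat_lit 494) (.a (.d (nat_lit 493) (nat_lit 491) (nat_lit 2507) (nat_lit 495) (nat_lit 2508)) (.a (.d (nat_lit 493) (nat_lit 465) (nat_lit 1485) (nat_lit 495) (nat_lit 2508)) (.a (.p (nat_lit 526) (.a (.f (nat_lit 558) (nat_lit 431) (nat_lit 6574) (.f (nat_lit 559) (nat_lit 591) (nat_lit 4558) (.d (nat_lit 525) (nat_lit 523) (nat_lit 523) (nat_lit 561) (nat_lit 3597)))) (.a (.p (nat_lit 525) (.a (.d (nat_lit 527) (nat_lit 559) (nat_lit 524) (nat_lit 561) (nat_lit 525)) (.a (.f (nat_lit 523) (nat_lit 495) (nat_lit 2539) (.f (nat_lit 558) (nat_lit 559) (nat_lit 523) (.d (nat_lit 557) (nat_lit 522) (nat_lit 522) (nat_lit 589) (nat_lit 5581)))) (.d (nat_lit 527) (nat_lit 491) (nat_lit 3563) (nat_lit 561) (nat_lit 525))))) (.a (.f (nat_lit 558) (nat_lit 431) (nat_lit 6574) (.f (nat_lit 559) (nat_lit 591) (nat_lit 4558) (.d (nat_lit 525) (nat_lit 527) (nat_lit 524) (nat_lit 561) (nat_lit 3597)))) (.a (.f (nat_lit 558) (nat_lit 431) (nat_lit 6574) (.f (nat_lit 590) (nat_lit 495) (nat_lit 6606) (.d (nat_lit 589) (nat_lit 557) (nat_lit 5581) (nat_lit 621) (nat_lit 5613)))) (.p (nat_lit 525) (.a (.d (nat_lit 527) (nat_lit 559) (nat_lit 524) (nat_lit 561) (nat_lit 525)) (.f (nat_lit 523) (nat_lit 495) (nat_lit 2539) (.f (nat_lit 555) (nat_lit 554) (nat_lit 1546) (.f (nat_lit 460) (nat_lit 428) (nat_lit 5547) (.d (nat_lit 587) (nat_lit 491) (nat_lit 6603) (nat_lit 619) (nat_lit 6635)))))))))))) (.d (nat_lit 493) (nat_lit 465) (nat_lit 1485) (nat_lit 491) (nat_lit 2507)))))) (.a (.p (nat_lit 465) (.a (.f (nat_lit 494) (nat_lit 493) (nat_lit 1485) (.f (nat_lit 466) (nat_lit 495) (nat_lit 1486) (.d (nat_lit 498) (nat_lit 497) (nat_lit 462) (nat_lit 499) (nat_lit 463)))) (.a (.p (nat_lit 557) (.a (.p (nat_lit 525) (.a (.f (nat_lit 493) (nat_lit 494) (nat_lit 1485) (.d (nat_lit 589) (nat_lit 460) (nat_lit 7628) (nat_lit 621) (nat_lit 7660))) (.a (.f (nat_lit 493) (nat_lit 494) (nat_lit 1485) (.f (nat_lit 589) (nat_lit 621) (nat_lit 7660) (.f (nat_lit 558) (nat_lit 559) (nat_lit 3596) (.f (nat_lit 588) (nat_lit 620) (nat_lit 5612) (.f (nat_lit 587) (nat_lit 586) (nat_lit 2602) (.f (nat_lit 590) (nat_lit 622) (nat_lit 4589) (.d (nat_lit 619) (nat_lit 556) (nat_lit 5611) (nat_lit 618) (nat_lit 1610)))))))) (.a (.f (nat_lit 589) (nat_lit 621) (nat_lit 7660) (.d (nat_lit 460) (nat_lit 428) (nat_lit 4524) (nat_lit 556) (nat_lit 4556))) (.f (nat_lit 493) (nat_lit 494) (nat_lit 1485) (.f (nat_lit 526) (nat_lit 527) (nat_lit 3564) (.f (nat_lit 558) (nat_lit 559) (nat_lit 3596) (.f (nat_lit 523) (nat_lit 522) (nat_lit 522) (.f (nat_lit 555) (nat_lit 554) (nat_lit 1546) (.f (nat_lit 460) (nat_lit 428) (nat_lit 4524) (.d (nat_lit 587) (nat_lit 556) (nat_lit 5579) (nat_lit 619) (nat_lit 6635)))))))))))) (.a (.p (nat_lit 525) (.a (.f (nat_lit 493) (nat_lit 494) (nat_lit 1485) (.d (nat_lit 589) (nat_lit 460) (nat_lit 7628) (nat_lit 621) (nat_lit 7660))) (.a (.f (nat_lit 493) (nat_lit 494) (nat_lit 1485) (.f (nat_lit 589) (nat_lit 621) (nat_lit 7660) (.f (nat_lit 558) (nat_lit 559) (nat_lit 3596) (.f (nat_lit 588) (nat_lit 620) (nat_lit 5612) (.f (nat_lit 587) (nat_lit 586) (nat_lit 2602) (.f (nat_lit 590) (nat_lit 622) (nat_lit 4589) (.d (nat_lit 619) (nat_lit 556) (nat_lit 5611) (nat_lit 618) (nat_lit 1610)))))))) (.a (.f (nat_lit 558) (nat_lit 559) (nat_lit 3596) (.f (nat_lit 589) (nat_lit 621) (nat_lit 7660) (.f (nat_lit 526) (nat_lit 494) (nat_lit 5581) (.d (nat_lit 556) (nat_lit 460) (nat_lit 4556) (nat_lit 527) (nat_lit 1548))))) (.a (.f (nat_lit 589) (nat_lit 621) (nat_lit 7660) (.d (nat_lit 460) (nat_lit 493) (nat_lit 7628) (nat_lit 556) (nat_lit 4556))) (.f (nat_lit 493) (nat_lit 494) (nat_lit 1485) (.f (nat_lit 526) (nat_lit 527) (nat_lit 3564) (.f (nat_lit 558) (nat_lit 559) (nat_lit 3596) (.f (nat_lit 523) (nat_lit 522) (nat_lit 522) (.f (nat_lit 555) (nat_lit 554) (nat_lit 1546) (.f (nat_lit 587) (nat_lit 619) (nat_lit 6635) (.d (nat_lit 556) (nat_lit 460) (nat_lit 5579) (nat_lit 586) (nat_lit 1578))))))))))))) (.a (.p (nat_lit 558) (.a (.f (nat_lit 559) (nat_lit 525) (nat_lit 3596) (.d (nat_lit 556) (nat_lit 523) (nat_lit 3595) (nat_lit 527) (nat_lit 2572))) (.f (nat_lit 494) (nat_lit 493) (nat_lit 1485) (.d (nat_lit 526) (nat_lit 431) (nat_lit 6574) (nat_lit 589) (nat_lit 5581))))) (.a s66073 (.a (.p (nat_lit 589) (.a (.f (nat_lit 525) (nat_lit 621) (nat_lit 7660) (.d (nat_lit 460) (nat_lit 493) (nat_lit 7628) (nat_lit 556) (nat_lit 4556))) (.a (.f (nat_lit 621) (nat_lit 525) (nat_lit 7660) (.d (nat_lit 556) (nat_lit 588) (nat_lit 4588) (nat_lit 653) (nat_lit 7692))) (.a (.f (nat_lit 556) (nat_lit 460) (nat_lit 4556) (.d (nat_lit 621) (nat_lit 588) (nat_lit 4588) (nat_lit 653) (nat_lit 7692))) (.a (.f (nat_lit 525) (nat_lit 621) (nat_lit 7660) (.d (nat_lit 460) (nat_lit 428) (nat_lit 4524) (nat_lit 493) (nat_lit 7628))) (.f (nat_lit 460) (nat_lit 556) (nat_lit 4556) (.d (nat_lit 525) (nat_lit 428) (nat_lit 4524) (nat_lit 493) (nat_lit 7628)))))))) (.a s66100 (.a (.p (nat_lit 525) (.a (.f (nat_lit 493) (nat_lit 494) (nat_lit 1485) (.d (nat_lit 589) (nat_lit 460) (nat_lit 7628) (nat_lit 621) (nat_lit 7660))) (.a (.f (nat_lit 559) (nat_lit 558) (nat_lit 3596) (.f (nat_lit 527) (nat_lit 526) (nat_lit 524) (.f (nat_lit 495) (nat_lit 431) (nat_lit 4527) (.f (nat_lit 591) (nat_lit 494) (nat_lit 7630) (.f (nat_lit 623) (nat_lit 655) (nat_lit 6671) (.d (nat_lit 622) (nat_lit 590) (nat_lit 5614) (nat_lit 654) (nat_lit 5646))))))) (.f (nat_lit 589) (nat_lit 621) (nat_lit 7660) (.d (nat_lit 460) (nat_lit 428) (nat_lit 4524) (nat_lit 493) (nat_lit 7628)))))) s66117)))))))) (.f (nat_lit 498) (nat_lit 497) (nat_lit 462) (.f (nat_lit 466) (nat_lit 499) (nat_lit 463) (.d (nat_lit 434) (nat_lit 433) (nat_lit 2478) (nat_lit 435) (nat_lit 2479))))))) (.a (.p (nat_lit 556) (.a (.p (nat_lit 588) (.a (.f (nat_lit 589) (nat_lit 621) (nat_lit 4588) (.f (nat_lit 557) (nat_lit 460) (nat_lit 4556) (.f (nat_lit 558) (nat_lit 559) (nat_lit 1580) (.d (nat_lit 587) (nat_lit 586) (nat_lit 2602) (nat_lit 619) (nat_lit 5611))))) (.a (.f (nat_lit 491) (nat_lit 459) (nat_lit 7627) (.f (nat_lit 620) (nat_lit 523) (nat_lit 7659) (.d (nat_lit 619) (nat_lit 587) (nat_lit 5611) (nat_lit 651) (nat_lit 5643)))) (.f (nat_lit 589) (nat_lit 621) (nat_lit 4588) (.f (nat_lit 557) (nat_lit 460) (nat_lit 4556) (.f (nat_lit 558) (nat_lit 559) (nat_lit 1580) (.f (nat_lit 526) (nat_lit 494) (nat_lit 5581) (.d (nat_lit 527) (nat_lit 525) (nat_lit 1548) (nat_lit 555) (nat_lit 2571))))))))) (.a (.p (nat_lit 588) (.a (.f (nat_lit 589) (nat_lit 621) (nat_lit 4588) (.f (nat_lit 557) (nat_lit 460) (nat_lit 4556) (.f (nat_lit 558) (nat_lit 559) (nat_lit 1580) (.d (nat_lit 587) (nat_lit 586) (nat_lit 2602) (nat_lit 619) (nat_lit 5611))))) (.a (.f (nat_lit 589) (nat_lit 621) (nat_lit 4588) (.f (nat_lit 619) (nat_lit 587) (nat_lit 5611) (.f (nat_lit 620) (nat_lit 651) (nat_lit 5643) (.f (nat_lit 523) (nat_lit 491) (nat_lit 7659) (.f (nat_lit 652) (nat_lit 555) (nat_lit 7691) (.d (nat_lit 557) (nat_lit 525) (nat_lit 6668) (nat_lit 684) (nat_lit 6700))))))) (.a (.f (nat_lit 587) (nat_lit 619) (nat_lit 5611) (.f (nat_lit 555) (nat_lit 460) (nat_lit 5579) (.f (nat_lit 589) (nat_lit 621) (nat_lit 4588) (.d (nat_lit 590) (nat_lit 554) (nat_lit 3626) (nat_lit 591) (nat_lit 3627))))) (.a (.f (nat_lit 589) (nat_lit 621) (nat_lit 4588) (.f (nat_lit 557) (nat_lit 460) (nat_lit 4556) (.f (nat_lit 558) (nat_lit 559) (nat_lit 1580) (.f (nat_lit 526) (nat_lit 494) (nat_lit 5581) (.d (nat_lit 527) (nat_lit 525) (nat_lit 1548) (nat_lit 555) (nat_lit 2571)))))) (.a (.f (nat_lit 619) (nat_lit 587) (nat_lit 5611) (.f (nat_lit 620) (nat_lit 651) (nat_lit 5643) (.f (nat_lit 653) (nat_lit 621) (nat_lit 4620) (.f (nat_lit 652) (nat_lit 685) (nat_lit 4652) (.d (nat_lit 523) (nat_lit 491) (nat_lit 7659) (nat_lit 555) (nat_lit 7691)))))) (.f (nat_lit 587) (nat_lit 619) (nat_lit 5611) (.f (nat_lit 460) (nat_lit 555) (nat_lit 5579) (.f (nat_lit 557) (nat_lit 589) (nat_lit 4556) (.f (nat_lit 525) (nat_lit 428) (nat_lit 4524) (.f (nat_lit 558) (nat_lit 559) (nat_lit 3596) (.f (nat_lit 523) (nat_lit 522) (nat_lit 522) (.d (nat_lit 620) (nat_lit 491) (nat_lit 7659) (nat_lit 652) (nat_lit 6668)))))))))))))) (.a (.p (nat_lit 588) (.a (.f (nat_lit 491) (nat_lit 459) (nat_lit 7627) (.f (nat_lit 620) (nat_lit 523) (nat_lit 7659) (.d (nat_lit 619) (nat_lit 587) (nat_lit 5611) (nat_lit 651) (nat_lit 5643)))) (.a (.f (nat_lit 589) (nat_lit 621) (nat_lit 4588) (.f (nat_lit 619) (nat_lit 587) (nat_lit 5611) (.f (nat_lit 620) (nat_lit 651) (nat_lit 5643) (.f (nat_lit 523) (nat_lit 491) (nat_lit 7659) (.f (nat_lit 652) (nat_lit 555) (nat_lit 7691) (.d (nat_lit 557) (nat_lit 525) (nat_lit 6668) (nat_lit 684) (nat_lit 6700))))))) (.a (.f (nat_lit 619) (nat_lit 587) (nat_lit 5611) (.f (nat_lit 620) (nat_lit 651) (nat_lit 5643) (.d (nat_lit 621) (nat_lit 589) (nat_lit 4588) (nat_lit 653) (nat_lit 4620)))) (.a (.f (nat_lit 491) (nat_lit 459) (nat_lit 7627) (.f (nat_lit 620) (nat_lit 523) (nat_lit 7659) (.d (nat_lit 621) (nat_lit 589) (nat_lit 4588) (nat_lit 653) (nat_lit 4620)))) (.p (nat_lit 557) (.a (.f (nat_lit 589) (nat_lit 621) (nat_lit 4588) (.f (nat_lit 558) (nat_lit 559) (nat_lit 1580) (.d (nat_lit 587) (nat_lit 586) (nat_lit 2602) (nat_lit 619) (nat_lit 5611)))) (.a (.f (nat_lit 589) (nat_lit 621) (nat_lit 4588) (.f (nat_lit 587) (nat_lit 619) (nat_lit 5611) (.f (nat_lit 586) (nat_lit 585) (nat_lit 2601) (.f (nat_lit 554) (nat_lit 553) (nat_lit 3625) (.f (nat_lit 555) (nat_lit 590) (nat_lit 554) (.f (nat_lit 491) (nat_lit 459) (nat_lit 7627) (.d (nat_lit 618) (nat_lit 523) (nat_lit 5610) (nat_lit 617) (nat_lit 1609)))))))) (.a (.f (nat_lit 589) (nat_lit 621) (nat_lit 4588) (.f (nat_lit 558) (nat_lit 559) (nat_lit 1580) (.f (nat_lit 526) (nat_lit 494) (nat_lit 5581) (.d (nat_lit 527) (nat_lit 525) (nat_lit 1548) (nat_lit 555) (nat_lit 2571))))) (.f (nat_lit 587) (nat_lit 619) (nat_lit 5611) (.f (nat_lit 558) (nat_lit 559) (nat_lit 1579) (.d (nat_lit 586) (nat_lit 555) (nat_lit 1578) (nat_lit 585) (nat_lit 2601))))))))))))) (.a (.p (nat_lit 460) (.a (.f (nat_lit 557) (nat_lit 589) (nat_lit 4556) (.f (nat_lit 555) (nat_lit 587) (nat_lit 5579) (.d (nat_lit 428) (nat_lit 523) (nat_lit 5547) (nat_lit 525) (nat_lit 4524)))) (.a (.f (nat_lit 589) (nat_lit 557) (nat_lit 4556) (.f (nat_lit 588) (nat_lit 621) (nat_lit 4588) (.d (nat_lit 587) (nat_lit 555) (nat_lit 5579) (nat_lit 619) (nat_lit 5611)))) (.a (.f (nat_lit 557) (nat_lit 589) (nat_lit 4556) (.f (nat_lit 525) (nat_lit 428) (nat_lit 4524) (.f (nat_lit 558) (nat_lit 559) (nat_lit 3596) (.f (nat_lit 526) (nat_lit 527) (nat_lit 1548) (.f (nat_lit 494) (nat_lit 431) (nat_lit 6574) (.d (nat_lit 523) (nat_lit 495) (nat_lit 2539) (nat_lit 522) (nat_lit 522))))))) (.f (nat_lit 555) (nat_lit 587) (nat_lit 5579) (.f (nat_lit 428) (nat_lit 523) (nat_lit 5547) (.d (nat_lit 427) (nat_lit 395) (nat_lit 7563) (nat_lit 459) (nat_lit 7595)))))))) (.a (.p (nat_lit 588) (.a (.f (nat_lit 589) (nat_lit 621) (nat_lit 4588) (.f (nat_lit 557) (nat_lit 460) (nat_lit 4556) (.f (nat_lit 558) (nat_lit 559) (nat_lit 1580) (.d (nat_lit 587) (nat_lit 586) (nat_lit 2602) (nat_lit 619) (nat_lit 5611))))) (.a (.f (nat_lit 491) (nat_lit 459) (nat_lit 7627) (.f (nat_lit 620) (nat_lit 523) (nat_lit 7659) (.d (nat_lit 619) (nat_lit 587) (nat_lit 5611) (nat_lit 651) (nat_lit 5643)))) (.f (nat_lit 491) (nat_lit 459) (nat_lit 7627) (.f (nat_lit 620) (nat_lit 523) (nat_lit 7659) (.d (nat_lit 621) (nat_lit 589) (nat_lit 4588) (nat_lit 653) (nat_lit 4620))))))) (.a (.p (nat_lit 588) (.a (.f (nat_lit 589) (nat_lit 621) (nat_lit 4588) (.f (nat_lit 557) (nat_lit 460) (nat_lit 4556) (.f (nat_lit 558) (nat_lit 559) (nat_lit 1580) (.d (nat_lit 587) (nat_lit 586) (nat_lit 2602) (nat_lit 619) (nat_lit 5611))))) (.a (.f (nat_lit 619) (nat_lit 587) (nat_lit 5611) (.f (nat_lit 620) (nat_lit 651) (nat_lit 5643) (.d (nat_lit 621) (nat_lit 589) (nat_lit 4588) (nat_lit 653) (nat_lit 4620)))) (.a (.f (nat_lit 589) (nat_lit 621) (nat_lit 4588) (.f (nat_lit 557) (nat_lit 460) (nat_lit 4556) (.f (nat_lit 558) (nat_lit 559) (nat_lit 1580) (.f (nat_lit 526) (nat_lit 494) (nat_lit 5581) (.d (nat_lit 527) (nat_lit 525) (nat_lit 1548) (nat_lit 555) (nat_lit 2571)))))) (.f (nat_lit 587) (nat_lit 619) (nat_lit 5611) (.f (nat_lit 460) (nat_lit 555) (nat_lit 5579) (.d (nat_lit 459) (nat_lit 427) (nat_lit 7595) (nat_lit 491) (nat_lit 7627)))))))) (.a (.p (nat_lit 588) (.a (.f (nat_lit 491) (nat_lit 459) (nat_lit 7627) (.f (nat_lit 620) (nat_lit 523) (nat_lit 7659) (.d (nat_lit 619) (nat_lit 587) (nat_lit 5611) (nat_lit 651) (nat_lit 5643)))) (.a (.f (nat_lit 587) (nat_lit 619) (nat_lit 5611) (.f (nat_lit 555) (nat_lit 460) (nat_lit 5579) (.f (nat_lit 589) (nat_lit 621) (nat_lit 4588) (.d (nat_lit 590) (nat_lit 554) (nat_lit 3626) (nat_lit 591) (nat_lit 3627))))) (.f (nat_lit 491) (nat_lit 459) (nat_lit 7627) (.f (nat_lit 620) (nat_lit 523) (nat_lit 7659) (.d (nat_lit 621) (nat_lit 589) (nat_lit 4588) (nat_lit 653) (nat_lit 4620))))))) (.a (.p (nat_lit 588) (.a (.f (nat_lit 589) (nat_lit 621) (nat_lit 4588) (.f (nat_lit 557) (nat_lit 460) (nat_lit 4556) (.f (nat_lit 558) (nat_lit 559) (nat_lit 1580) (.f (nat_lit 526) (nat_lit 494) (nat_lit 5581) (.d (nat_lit 527) (nat_lit 525) (nat_lit 1548) (nat_lit 555) (nat_lit 2571)))))) (.a (.f (nat_lit 491) (nat_lit 459) (nat_lit 7627) (.f (nat_lit 620) (nat_lit 523) (nat_lit 7659) (.d (nat_lit 621) (nat_lit 589) (nat_lit 4588) (nat_lit 653) (nat_lit 4620)))) (.a (.f (nat_lit 491) (nat_lit 459) (nat_lit 7627) (.f (nat_lit 620) (nat_lit 523) (nat_lit 7659) (.f (nat_lit 651) (nat_lit 619) (nat_lit 5643) (.f (nat_lit 652) (nat_lit 683) (nat_lit 5675) (.d (nat_lit 653) (nat_lit 621) (nat_lit 4620) (nat_lit 685) (nat_lit 4652)))))) (.f (nat_lit 491) (nat_lit 459) (nat_lit 7627) (.f (nat_lit 620) (nat_lit 523) (nat_lit 7659) (.f (nat_lit 651) (nat_lit 619) (nat_lit 5643) (.f (nat_lit 652) (nat_lit 683) (nat_lit 5675) (.f (nat_lit 557) (nat_lit 525) (nat_lit 6668) (.d (nat_lit 589) (nat_lit 460) (nat_lit 4556) (nat_lit 684) (nat_lit 6700))))))))))) (.a (.p (nat_lit 460) (.a (.f (nat_lit 557) (nat_lit 589) (nat_lit 4556) (.f (nat_lit 555) (nat_lit 587) (nat_lit 5579) (.d (nat_lit 428) (nat_lit 523) (nat_lit 5547) (nat_lit 525) (nat_lit 4524)))) (.a s66226 (.a (.f (nat_lit 557) (nat_lit 589) (nat_lit 4556) (.f (nat_lit 525) (nat_lit 428) (nat_lit 4524) (.f (nat_lit 527) (nat_lit 526) (nat_lit 1548) (.f (nat_lit 559) (nat_lit 558) (nat_lit 3596) (.f (nat_lit 495) (nat_lit 431) (nat_lit 4527) (.f (nat_lit 591) (nat_lit 494) (nat_lit 7630) (.f (nat_lit 623) (nat_lit 655) (nat_lit 6671) (.d (nat_lit 622) (nat_lit 590) (nat_lit 5614) (nat_lit 654) (nat_lit 5646))))))))) (.f (nat_lit 555) (nat_lit 587) (nat_lit 5579) (.f (nat_lit 428) (nat_lit 523) (nat_lit 5547) (.d (nat_lit 427) (nat_lit 395) (nat_lit 7563) (nat_lit 459) (nat_lit 7595)))))))) (.p (nat_lit 460) (.a (.f (nat_lit 555) (nat_lit 587) (nat_lit 5579) (.f (nat_lit 428) (nat_lit 523) (nat_lit 5547) (.d (nat_lit 427) (nat_lit 395) (nat_lit 7563) (nat_lit 459) (nat_lit 7595)))) (.a (.f (nat_lit 555) (nat_lit 587) (nat_lit 5579) (.f (nat_lit 523) (nat_lit 428) (nat_lit 5547) (.f (nat_lit 459) (nat_lit 427) (nat_lit 7595) (.f (nat_lit 491) (nat_lit 588) (nat_lit 4555) (.f (nat_lit 554) (nat_lit 586) (nat_lit 5578) (.d (nat_lit 525) (nat_lit 526) (nat_lit 1546) (nat_lit 553) (nat_lit 2569))))))) (.a (.f (nat_lit 555) (nat_lit 587) (nat_lit 5579) (.f (nat_lit 428) (nat_lit 523) (nat_lit 5547) (.f (nat_lit 525) (nat_lit 557) (nat_lit 4524) (.f (nat_lit 527) (nat_lit 526) (nat_lit 1547) (.f (nat_lit 397) (nat_lit 429) (nat_lit 6540) (.f (nat_lit 396) (nat_lit 365) (nat_lit 6508) (.f (nat_lit 363) (nat_lit 395) (nat_lit 7531) (.f (nat_lit 364) (nat_lit 331) (nat_lit 7499) (.f (nat_lit 399) (nat_lit 398) (nat_lit 3435) (.f (nat_lit 431) (nat_lit 495) (nat_lit 4527) (.f (nat_lit 367) (nat_lit 494) (nat_lit 5486) (.f (nat_lit 336) (nat_lit 368) (nat_lit 6479) (.f (nat_lit 335) (nat_lit 304) (nat_lit 6447) (.d (nat_lit 334) (nat_lit 302) (nat_lit 7470) (nat_lit 366) (nat_lit 7502))))))))))))))) (.a (.f (nat_lit 587) (nat_lit 555) (nat_lit 5579) (.f (nat_lit 588) (nat_lit 619) (nat_lit 5611) (.d (nat_lit 459) (nat_lit 427) (nat_lit 7595) (nat_lit 491) (nat_lit 7627)))) (.f (nat_lit 427) (nat_lit 459) (nat_lit 7595) (.f (nat_lit 428) (nat_lit 395) (nat_lit 7563) (.f (nat_lit 397) (nat_lit 429) (nat_lit 6540) (.f (nat_lit 396) (nat_lit 365) (nat_lit 6508) (.f (nat_lit 525) (nat_lit 557) (nat_lit 4524) (.f (nat_lit 491) (nat_lit 523) (nat_lit 5515) (.f (nat_lit 527) (nat_lit 526) (nat_lit 3563) (.f (nat_lit 399) (nat_lit 398) (nat_lit 1419) (.f (nat_lit 431) (nat_lit 495) (nat_lit 4527) (.f (nat_lit 367) (nat_lit 494) (nat_lit 5486) (.f (nat_lit 336) (nat_lit 368) (nat_lit 6479) (.f (nat_lit 335) (nat_lit 304) (nat_lit 6447) (.d (nat_lit 334) (nat_lit 302) (nat_lit 7470) (nat_lit 366) (nat_lit 7502))))))))))))))))))))))))))))) (.a (.p (nat_lit 525) (.a s65876 (.a s66275 (.a s66293 (.a (.p (nat_lit 526) (.a (.d (nat_lit 527) (nat_lit 493) (nat_lit 3564) (nat_lit 559) (nat_lit 524)) (.a (.d (nat_lit 527) (nat_lit 491) (nat_lit 3563) (nat_lit 559) (nat_lit 524)) (.a (.p (nat_lit 557) (.a (.f (nat_lit 558) (nat_lit 559) (nat_lit 3596) (.f (nat_lit 523) (nat_lit 522) (nat_lit 522) (.f (nat_lit 555) (nat_lit 554) (nat_lit 1546) (.f (nat_lit 460) (nat_lit 428) (nat_lit 4524) (.d (nat_lit 587) (nat_lit 556) (nat_lit 5579) (nat_lit 619) (nat_lit 6635)))))) (.a (.f (nat_lit 589) (nat_lit 621) (nat_lit 7660) (.d (nat_lit 460) (nat_lit 493) (nat_lit 7628) (nat_lit 556) (nat_lit 4556))) (.a (.f (nat_lit 558) (nat_lit 559) (nat_lit 3596) (.f (nat_lit 589) (nat_lit 621) (nat_lit 7660) (.f (nat_lit 523) (nat_lit 522) (nat_lit 522) (.f (nat_lit 555) (nat_lit 554) (nat_lit 1546) (.f (nat_lit 587) (nat_lit 619) (nat_lit 6635) (.d (nat_lit 586) (nat_lit 556) (nat_lit 1578) (nat_lit 588) (nat_lit 2602))))))) (.f (nat_lit 589) (nat_lit 621) (nat_lit 7660) (.d (nat_lit 460) (nat_lit 428) (nat_lit 4524) (nat_lit 493) (nat_lit 7628))))))) (.d (nat_lit 527) (nat_lit 491) (nat_lit 3563) (nat_lit 493) (nat_lit 3564)))))) (.a (.p (nat_lit 557) (.a (.f (nat_lit 589) (nat_lit 621) (nat_lit 7660) (.d (nat_lit 460) (nat_lit 428) (nat_lit 4524) (nat_lit 493) (nat_lit 7628))) (.a (.f (nat_lit 589) (nat_lit 621) (nat_lit 7660) (.d (nat_lit 460) (nat_lit 493) (nat_lit 7628) (nat_lit 556) (nat_lit 4556))) (.a (.p (nat_lit 526) (.a (.d (nat_lit 527) (nat_lit 493) (nat_lit 3564) (nat_lit 561) (nat_lit 525)) (.a (.d (nat_lit 527) (nat_lit 559) (nat_lit 524) (nat_lit 561) (nat_lit 525)) (.f (nat_lit 558) (nat_lit 559) (nat_lit 3596) (.f (nat_lit 589) (nat_lit 621) (nat_lit 7660) (.f (nat_lit 523) (nat_lit 522) (nat_lit 522) (.f (nat_lit 555) (nat_lit 554) (nat_lit 1546) (.f (nat_lit 587) (nat_lit 619) (nat_lit 6635) (.d (nat_lit 586) (nat_lit 556) (nat_lit 1578) (nat_lit 588) (nat_lit 2602)))))))))) (.a (.f (nat_lit 589) (nat_lit 621) (nat_lit 7660) (.d (nat_lit 460) (nat_lit 428) (nat_lit 4524) (nat_lit 556) (nat_lit 4556))) (.p (nat_lit 526) (.a (.d (nat_lit 527) (nat_lit 493) (nat_lit 3564) (nat_lit 561) (nat_lit 525)) (.a (.d (nat_lit 527) (nat_lit 559) (nat_lit 524) (nat_lit 561) (nat_lit 525)) (.f (nat_lit 558) (nat_lit 559) (nat_lit 3596) (.f (nat_lit 523) (nat_lit 522) (nat_lit 522) (.f (nat_lit 555) (nat_lit 554) (nat_lit 1546) (.f (nat_lit 460) (nat_lit 428) (nat_lit 4524) (.d (nat_lit 587) (nat_lit 556) (nat_lit 5579) (nat_lit 619) (nat_lit 6635)))))))))))))) (.a s66308 (.a (.p (nat_lit 557) (.a (.f (nat_lit 589) (nat_lit 621) (nat_lit 7660) (.d (nat_lit 460) (nat_lit 428) (nat_lit 4524) (nat_lit 493) (nat_lit 7628))) (.a (.f (nat_lit 589) (nat_lit 621) (nat_lit 7660) (.d (nat_lit 460) (nat_lit 493) (nat_lit 7628) (nat_lit 556) (nat_lit 4556))) (.a s66346 (.a (.f (nat_lit 589) (nat_lit 621) (nat_lit 7660) (.d (nat_lit 460) (nat_lit 428) (nat_lit 4524) (nat_lit 556) (nat_lit 4556))) (.p (nat_lit 556) (.a (.f (nat_lit 460) (nat_lit 428) (nat_lit 4524) (.f (nat_lit 587) (nat_lit 555) (nat_lit 5579) (.f (nat_lit 588) (nat_lit 619) (nat_lit 5611) (.d (nat_lit 620) (nat_lit 493) (nat_lit 6636) (nat_lit 652) (nat_lit 6668))))) (.a (.f (nat_lit 526) (nat_lit 527) (nat_lit 1548) (.f (nat_lit 555) (nat_lit 554) (nat_lit 2570) (.f (nat_lit 558) (nat_lit 559) (nat_lit 3596) (.d (nat_lit 587) (nat_lit 460) (nat_lit 5579) (nat_lit 586) (nat_lit 1578))))) (.a (.f (nat_lit 526) (nat_lit 527) (nat_lit 1548) (.f (nat_lit 558) (nat_lit 559) (nat_lit 3596) (.f (nat_lit 555) (nat_lit 554) (nat_lit 2570) (.f (nat_lit 590) (nat_lit 591) (nat_lit 555) (.d (nat_lit 622) (nat_lit 493) (nat_lit 7661) (nat_lit 654) (nat_lit 7693)))))) (.f (nat_lit 460) (nat_lit 428) (nat_lit 4524) (.f (nat_lit 459) (nat_lit 427) (nat_lit 7595) (.f (nat_lit 588) (nat_lit 491) (nat_lit 7627) (.d (nat_lit 620) (nat_lit 493) (nat_lit 6636) (nat_lit 652) (nat_lit 6668)))))))))))))) (.a s66362 (.a (.p (nat_lit 557) (.a (.f (nat_lit 589) (nat_lit 621) (nat_lit 7660) (.d (nat_lit 460) (nat_lit 428) (nat_lit 4524) (nat_lit 493) (nat_lit 7628))) (.a (.f (nat_lit 589) (nat_lit 621) (nat_lit 7660) (.d (nat_lit 460) (nat_lit 493) (nat_lit 7628) (nat_lit 556) (nat_lit 4556))) (.a (.p (nat_lit 590) (.a (.f (nat_lit 589) (nat_lit 621) (nat_lit 7660) (.f (nat_lit 559) (nat_lit 558) (nat_lit 3596) (.f (nat_lit 527) (nat_lit 526) (nat_lit 524) (.f (nat_lit 591) (nat_lit 588) (nat_lit 2604) (.d (nat_lit 495) (nat_lit 431) (nat_lit 4527) (nat_lit 622) (nat_lit 5614)))))) (.a (.f (nat_lit 589) (nat_lit 621) (nat_lit 7660) (.f (nat_lit 559) (nat_lit 558) (nat_lit 3596) (.f (nat_lit 588) (nat_lit 591) (nat_lit 2604) (.d (nat_lit 493) (nat_lit 620) (nat_lit 5612) (nat_lit 622) (nat_lit 4589))))) (.a (.f (nat_lit 589) (nat_lit 621) (nat_lit 7660) (.f (nat_lit 493) (nat_lit 622) (nat_lit 4589) (.f (nat_lit 526) (nat_lit 527) (nat_lit 3564) (.f (nat_lit 588) (nat_lit 620) (nat_lit 5612) (.f (nat_lit 491) (nat_lit 490) (nat_lit 490) (.f (nat_lit 556) (nat_lit 459) (nat_lit 7627) (.d (nat_lit 591) (nat_lit 555) (nat_lit 3627) (nat_lit 559) (nat_lit 2604)))))))) (.a (.f (nat_lit 589) (nat_lit 621) (nat_lit 7660) (.f (nat_lit 493) (nat_lit 622) (nat_lit 4589) (.f (nat_lit 526) (nat_lit 527) (nat_lit 3564) (.f (nat_lit 588) (nat_lit 620) (nat_lit 5612) (.f (nat_lit 491) (nat_lit 490) (nat_lit 490) (.f (nat_lit 556) (nat_lit 459) (nat_lit 7627) (.f (nat_lit 587) (nat_lit 619) (nat_lit 5611) (.d (nat_lit 586) (nat_lit 558) (nat_lit 2602) (nat_lit 585) (nat_lit 2601))))))))) (.a (.f (nat_lit 559) (nat_lit 558) (nat_lit 3596) (.f (nat_lit 527) (nat_lit 526) (nat_lit 524) (.f (nat_lit 589) (nat_lit 621) (nat_lit 7660) (.f (nat_lit 622) (nat_lit 493) (nat_lit 4589) (.d (nat_lit 495) (nat_lit 431) (nat_lit 4527) (nat_lit 591) (nat_lit 5614)))))) (.a (.f (nat_lit 558) (nat_lit 559) (nat_lit 3596) (.f (nat_lit 622) (nat_lit 654) (nat_lit 7693) (.f (nat_lit 526) (nat_lit 493) (nat_lit 7661) (.d (nat_lit 527) (nat_lit 495) (nat_lit 6638) (nat_lit 561) (nat_lit 525))))) (.f (nat_lit 559) (nat_lit 558) (nat_lit 3596) (.f (nat_lit 589) (nat_lit 621) (nat_lit 7660) (.f (nat_lit 588) (nat_lit 591) (nat_lit 2604) (.f (nat_lit 620) (nat_lit 493) (nat_lit 5612) (.d (nat_lit 652) (nat_lit 556) (nat_lit 6668) (nat_lit 684) (nat_lit 6700))))))))))))) (.a (.f (nat_lit 589) (nat_lit 621) (nat_lit 7660) (.d (nat_lit 460) (nat_lit 428) (nat_lit 4524) (nat_lit 556) (nat_lit 4556))) (.p (nat_lit 556) (.a (.f (nat_lit 460) (nat_lit 428) (nat_lit 4524) (.f (nat_lit 587) (nat_lit 555) (nat_lit 5579) (.f (nat_lit 588) (nat_lit 619) (nat_lit 5611) (.d (nat_lit 620) (nat_lit 493) (nat_lit 6636) (nat_lit 652) (nat_lit 6668))))) (.a (.f (nat_lit 526) (nat_lit 527) (nat_lit 1548) (.f (nat_lit 558) (nat_lit 559) (nat_lit 3596) (.f (nat_lit 523) (nat_lit 522) (nat_lit 522) (.f (nat_lit 491) (nat_lit 490) (nat_lit 3562) (.d (nat_lit 588) (nat_lit 459) (nat_lit 7627) (nat_lit 620) (nat_lit 7659)))))) (.f (nat_lit 526) (nat_lit 527) (nat_lit 1548) (.f (nat_lit 558) (nat_lit 559) (nat_lit 3596) (.f (nat_lit 523) (nat_lit 522) (nat_lit 522) (.f (nat_lit 460) (nat_lit 428) (nat_lit 4524) (.f (nat_lit 491) (nat_lit 490) (nat_lit 3562) (.f (nat_lit 555) (nat_lit 587) (nat_lit 5579) (.f (nat_lit 459) (nat_lit 427) (nat_lit 4523) (.f (nat_lit 458) (nat_lit 426) (nat_lit 7594) (.d (nat_lit 457) (nat_lit 456) (nat_lit 456) (nat_lit 493) (nat_lit 457)))))))))))))))))) (.a (.p (nat_lit 559) (.a (.f (nat_lit 526) (nat_lit 527) (nat_lit 524) (.d (nat_lit 558) (nat_lit 523) (nat_lit 523) (nat_lit 557) (nat_lit 3596))) (.a (.f (nat_lit 557) (nat_lit 558) (nat_lit 3596) (.f (nat_lit 589) (nat_lit 621) (nat_lit 7660) (.d (nat_lit 460) (nat_lit 428) (nat_lit 4524) (nat_lit 493) (nat_lit 7628)))) (.a (.f (nat_lit 526) (nat_lit 527) (nat_lit 524) (.d (nat_lit 558) (nat_lit 523) (nat_lit 523) (nat_lit 561) (nat_lit 3597))) (.p (nat_lit 588) (.a (.p (nat_lit 556) (.a (.f (nat_lit 620) (nat_lit 493) (nat_lit 6636) (.d (nat_lit 619) (nat_lit 587) (nat_lit 5611) (nat_lit 651) (nat_lit 5643))) (.a (.f (nat_lit 589) (nat_lit 621) (nat_lit 4588) (.f (nat_lit 557) (nat_lit 460) (nat_lit 4556) (.f (nat_lit 620) (nat_lit 652) (nat_lit 6668) (.d (nat_lit 619) (nat_lit 587) (nat_lit 5611) (nat_lit 651) (nat_lit 5643))))) (.a (.f (nat_lit 620) (nat_lit 493) (nat_lit 6636) (.d (nat_lit 621) (nat_lit 589) (nat_lit 4588) (nat_lit 653) (nat_lit 4620))) (.f (nat_lit 589) (nat_lit 621) (nat_lit 4588) (.f (nat_lit 460) (nat_lit 557) (nat_lit 4556) (.d (nat_lit 459) (nat_lit 427) (nat_lit 7595) (nat_lit 491) (nat_lit 7627)))))))) (.a (.p (nat_lit 556) (.a (.f (nat_lit 620) (nat_lit 493) (nat_lit 6636) (.d (nat_lit 619) (nat_lit 587) (nat_lit 5611) (nat_lit 651) (nat_lit 5643))) (.a (.f (nat_lit 589) (nat_lit 621) (nat_lit 4588) (.f (nat_lit 557) (nat_lit 460) (nat_lit 4556) (.f (nat_lit 620) (nat_lit 652) (nat_lit 6668) (.d (nat_lit 619) (nat_lit 587) (nat_lit 5611) (nat_lit 651) (nat_lit 5643))))) (.a (.f (nat_lit 620) (nat_lit 493) (nat_lit 6636) (.d (nat_lit 621) (nat_lit 589) (nat_lit 4588) (nat_lit 653) (nat_lit 4620))) (.f (nat_lit 589) (nat_lit 621) (nat_lit 4588) (.f (nat_lit 557) (nat_lit 460) (nat_lit 4556) (.f (nat_lit 590) (nat_lit 591) (nat_lit 2604) (.f (nat_lit 587) (nat_lit 619) (nat_lit 5611) (.d (nat_lit 622) (nat_lit 493) (nat_lit 4589) (nat_lit 623) (nat_lit 587)))))))))) (.a (.p (nat_lit 556) (.a (.f (nat_lit 620) (nat_lit 493) (nat_lit 6636) (.d (nat_lit 619) (nat_lit 587) (nat_lit 5611) (nat_lit 651) (nat_lit 5643))) (.a (.f (nat_lit 491) (nat_lit 459) (nat_lit 7627) (.f (nat_lit 620) (nat_lit 523) (nat_lit 7659) (.d (nat_lit 621) (nat_lit 589) (nat_lit 4588) (nat_lit 653) (nat_lit 4620)))) (.f (nat_lit 589) (nat_lit 621) (nat_lit 4588) (.f (nat_lit 587) (nat_lit 619) (nat_lit 5611) (.f (nat_lit 590) (nat_lit 591) (nat_lit 2604) (.f (nat_lit 491) (nat_lit 459) (nat_lit 7627) (.f (nat_lit 622) (nat_lit 623) (nat_lit 587) (.f (nat_lit 557) (nat_lit 493) (nat_lit 4589) (.f (nat_lit 586) (nat_lit 585) (nat_lit 2601) (.f (nat_lit 554) (nat_lit 553) (nat_lit 3625) (.f (nat_lit 618) (nat_lit 617) (nat_lit 1609) (.f (nat_lit 522) (nat_lit 523) (nat_lit 6634) (.d (nat_lit 489) (nat_lit 490) (nat_lit 489) (nat_lit 521) (nat_lit 7657))))))))))))))) (.a (.p (nat_lit 556) (.a (.f (nat_lit 589) (nat_lit 621) (nat_lit 4588) (.f (nat_lit 557) (nat_lit 460) (nat_lit 4556) (.f (nat_lit 620) (nat_lit 652) (nat_lit 6668) (.d (nat_lit 619) (nat_lit 587) (nat_lit 5611) (nat_lit 651) (nat_lit 5643))))) (.a (.f (nat_lit 491) (nat_lit 459) (nat_lit 7627) (.f (nat_lit 620) (nat_lit 523) (nat_lit 7659) (.d (nat_lit 621) (nat_lit 589) (nat_lit 4588) (nat_lit 653) (nat_lit 4620)))) (.a (.f (nat_lit 491) (nat_lit 459) (nat_lit 7627) (.f (nat_lit 620) (nat_lit 523) (nat_lit 7659) (.d (nat_lit 619) (nat_lit 587) (nat_lit 5611) (nat_lit 651) (nat_lit 5643)))) (.f (nat_lit 589) (nat_lit 621) (nat_lit 4588) (.f (nat_lit 460) (nat_lit 557) (nat_lit 4556) (.d (nat_lit 459) (nat_lit 427) (nat_lit 7595) (nat_lit 491) (nat_lit 7627)))))))) (.a (.p (nat_lit 591) (.a (.f (nat_lit 527) (nat_lit 526) (nat_lit 524) (.f (nat_lit 590) (nat_lit 589) (nat_lit 2604) (.d (nat_lit 495) (nat_lit 431) (nat_lit 4527) (nat_lit 622) (nat_lit 5614)))) (.a (.f (nat_lit 527) (nat_lit 526) (nat_lit 524) (.f (nat_lit 623) (nat_lit 655) (nat_lit 6671) (.f (nat_lit 590) (nat_lit 589) (nat_lit 2604) (.d (nat_lit 622) (nat_lit 495) (nat_lit 5614) (nat_lit 654) (nat_lit 5646))))) (.a (.f (nat_lit 589) (nat_lit 590) (nat_lit 2604) (.f (nat_lit 557) (nat_lit 621) (nat_lit 7660) (.d (nat_lit 460) (nat_lit 428) (nat_lit 4524) (nat_lit 493) (nat_lit 7628)))) (.a (.f (nat_lit 527) (nat_lit 526) (nat_lit 524) (.f (nat_lit 623) (nat_lit 655) (nat_lit 6671) (.f (nat_lit 622) (nat_lit 654) (nat_lit 5646) (.d (nat_lit 495) (nat_lit 431) (nat_lit 4527) (nat_lit 590) (nat_lit 5614))))) (.f (nat_lit 527) (nat_lit 526) (nat_lit 524) (.f (nat_lit 623) (nat_lit 655) (nat_lit 6671) (.f (nat_lit 622) (nat_lit 654) (nat_lit 5646) (.f (nat_lit 624) (nat_lit 656) (nat_lit 4623) (.f (nat_lit 621) (nat_lit 589) (nat_lit 3660) (.f (nat_lit 620) (nat_lit 587) (nat_lit 3659) (.d (nat_lit 652) (nat_lit 651) (nat_lit 1643) (nat_lit 653) (nat_lit 1644))))))))))))) (.a (.p (nat_lit 556) (.a (.f (nat_lit 620) (nat_lit 493) (nat_lit 6636) (.d (nat_lit 619) (nat_lit 587) (nat_lit 5611) (nat_lit 651) (nat_lit 5643))) (.a (.f (nat_lit 491) (nat_lit 459) (nat_lit 7627) (.f (nat_lit 620) (nat_lit 523) (nat_lit 7659) (.d (nat_lit 621) (nat_lit 589) (nat_lit 4588) (nat_lit 653) (nat_lit 4620)))) (.f (nat_lit 526) (nat_lit 527) (nat_lit 524) (.f (nat_lit 491) (nat_lit 459) (nat_lit 7627) (.d (nat_lit 490) (nat_lit 489) (nat_lit 489) (nat_lit 523) (nat_lit 3562))))))) (.a (.p (nat_lit 556) (.a (.f (nat_lit 620) (nat_lit 493) (nat_lit 6636) (.d (nat_lit 621) (nat_lit 589) (nat_lit 4588) (nat_lit 653) (nat_lit 4620))) (.a (.f (nat_lit 589) (nat_lit 621) (nat_lit 4588) (.f (nat_lit 460) (nat_lit 557) (nat_lit 4556) (.d (nat_lit 459) (nat_lit 427) (nat_lit 7595) (nat_lit 491) (nat_lit 7627)))) (.f (nat_lit 526) (nat_lit 527) (nat_lit 524) (.f (nat_lit 491) (nat_lit 459) (nat_lit 7627) (.d (nat_lit 490) (nat_lit 489) (nat_lit 489) (nat_lit 523) (nat_lit 3562))))))) (.a (.p (nat_lit 556) (.a (.f (nat_lit 620) (nat_lit 493) (nat_lit 6636) (.d (nat_lit 619) (nat_lit 587) (nat_lit 5611) (nat_lit 651) (nat_lit 5643))) (.a (.f (nat_lit 491) (nat_lit 459) (nat_lit 7627) (.f (nat_lit 620) (nat_lit 523) (nat_lit 7659) (.d (nat_lit 619) (nat_lit 587) (nat_lit 5611) (nat_lit 651) (nat_lit 5643)))) (.f (nat_lit 526) (nat_lit 527) (nat_lit 524) (.f (nat_lit 491) (nat_lit 459) (nat_lit 7627) (.d (nat_lit 490) (nat_lit 489) (nat_lit 489) (nat_lit 523) (nat_lit 3562))))))) (.p (nat_lit 491) (.a (.f (nat_lit 526) (nat_lit 527) (nat_lit 3563) (.d (nat_lit 490) (nat_lit 489) (nat_lit 489) (nat_lit 523) (nat_lit 3562))) (.a (.f (nat_lit 526) (nat_lit 527) (nat_lit 524) (.d (nat_lit 490) (nat_lit 493) (nat_lit 490) (nat_lit 523) (nat_lit 3562))) (.f (nat_lit 556) (nat_lit 459) (nat_lit 7627) (.f (nat_lit 589) (nat_lit 621) (nat_lit 4588) (.f (nat_lit 557) (nat_lit 460) (nat_lit 4556) (.f (nat_lit 590) (nat_lit 591) (nat_lit 2604) (.f (nat_lit 587) (nat_lit 619) (nat_lit 5611) (.d (nat_lit 622) (nat_lit 493) (nat_lit 4589) (nat_lit 623) (nat_lit 587))))))))))))))))))))))) (.a s66508 (.p (nat_lit 557) (.a (.f (nat_lit 589) (nat_lit 621) (nat_lit 7660) (.d (nat_lit 460) (nat_lit 428) (nat_lit 4524) (nat_lit 493) (nat_lit 7628))) (.a (.f (nat_lit 589) (nat_lit 621) (nat_lit 7660) (.d (nat_lit 460) (nat_lit 493) (nat_lit 7628) (nat_lit 556) (nat_lit 4556))) (.a s66346 (.a (.f (nat_lit 589) (nat_lit 621) (nat_lit 7660) (.d (nat_lit 460) (nat_lit 428) (nat_lit 4524) (nat_lit 556) (nat_lit 4556))) (.p (nat_lit 556) (.a (.f (nat_lit 526) (nat_lit 527) (nat_lit 1548) (.f (nat_lit 558) (nat_lit 559) (nat_lit 3596) (.f (nat_lit 555) (nat_lit 554) (nat_lit 2570) (.f (nat_lit 590) (nat_lit 591) (nat_lit 555) (.d (nat_lit 622) (nat_lit 493) (nat_lit 7661) (nat_lit 654) (nat_lit 7693)))))) (.a (.f (nat_lit 526) (nat_lit 527) (nat_lit 1548) (.f (nat_lit 558) (nat_lit 559) (nat_lit 3596) (.f (nat_lit 523) (nat_lit 522) (nat_lit 522) (.f (nat_lit 491) (nat_lit 490) (nat_lit 3562) (.d (nat_lit 588) (nat_lit 459) (nat_lit 7627) (nat_lit 620) (nat_lit 7659)))))) (.f (nat_lit 460) (nat_lit 428) (nat_lit 4524) (.f (nat_lit 459) (nat_lit 427) (nat_lit 7595) (.f (nat_lit 588) (nat_lit 491) (nat_lit 7627) (.d (nat_lit 620) (nat_lit 493) (nat_lit 6636) (nat_lit 652) (nat_lit 6668))))))))))))))))))))))))) (.a (.p (nat_lit 525) (.a s65863 (.a s66275 (.a s66293 (.a s66308 (.a s66508 (.a s65906 (.a s66362 (.p (nat_lit 526) (.a (.d (nat_lit 527) (nat_lit 493) (nat_lit 3564) (nat_lit 559) (nat_lit 524)) (.a (.d (nat_lit 527) (nat_lit 491) (nat_lit 3563) (nat_lit 559) (nat_lit 524)) (.a (.p (nat_lit 558) (.a (.d (nat_lit 559) (nat_lit 523) (nat_lit 523) (nat_lit 557) (nat_lit 3596)) (.a (.d (nat_lit 559) (nat_lit 557) (nat_lit 3596) (nat_lit 561) (nat_lit 3597)) (.a (.d (nat_lit 559) (nat_lit 523) (nat_lit 523) (nat_lit 561) (nat_lit 3597)) (.f (nat_lit 494) (nat_lit 431) (nat_lit 6574) (.d (nat_lit 493) (nat_lit 465) (nat_lit 1485) (nat_lit 491) (nat_lit 2507))))))) (.d (nat_lit 527) (nat_lit 491) (nat_lit 3563) (nat_lit 493) (nat_lit 3564)))))))))))))) (.a (.p (nat_lit 494) (.a (.d (nat_lit 493) (nat_lit 491) (nat_lit 2507) (nat_lit 495) (nat_lit 2508)) (.a (.d (nat_lit 493) (nat_lit 465) (nat_lit 1485) (nat_lit 495) (nat_lit 2508)) (.a (.p (nat_lit 526) (.a (.f (nat_lit 558) (nat_lit 431) (nat_lit 6574) (.f (nat_lit 559) (nat_lit 591) (nat_lit 4558) (.d (nat_lit 525) (nat_lit 523) (nat_lit 523) (nat_lit 561) (nat_lit 3597)))) (.a (.p (nat_lit 525) (.a (.d (nat_lit 527) (nat_lit 559) (nat_lit 524) (nat_lit 561) (nat_lit 525)) (.f (nat_lit 523) (nat_lit 495) (nat_lit 2539) (.f (nat_lit 555) (nat_lit 554) (nat_lit 1546) (.f (nat_lit 491) (nat_lit 490) (nat_lit 3562) (.d (nat_lit 460) (nat_lit 428) (nat_lit 5547) (nat_lit 587) (nat_lit 6603))))))) (.a (.f (nat_lit 558) (nat_lit 431) (nat_lit 6574) (.f (nat_lit 559) (nat_lit 591) (nat_lit 4558) (.d (nat_lit 525) (nat_lit 527) (nat_lit 524) (nat_lit 561) (nat_lit 3597)))) (.f (nat_lit 558) (nat_lit 431) (nat_lit 6574) (.f (nat_lit 590) (nat_lit 495) (nat_lit 6606) (.d (nat_lit 589) (nat_lit 557) (nat_lit 5581) (nat_lit 621) (nat_lit 5613)))))))) (.d (nat_lit 493) (nat_lit 465) (nat_lit 1485) (nat_lit 491) (nat_lit 2507)))))) (.a (.p (nat_lit 494) (.a (.d (nat_lit 493) (nat_lit 491) (nat_lit 2507) (nat_lit 495) (nat_lit 2508)) (.a (.d (nat_lit 493) (nat_lit 465) (nat_lit 1485) (nat_lit 495) (nat_lit 2508)) (.a (.p (nat_lit 557) (.a (.p (nat_lit 589) (.a (.f (nat_lit 525) (nat_lit 621) (nat_lit 7660) (.d (nat_lit 460) (nat_lit 428) (nat_lit 4524) (nat_lit 556) (nat_lit 4556))) (.a (.f (nat_lit 558) (nat_lit 526) (nat_lit 5581) (.d (nat_lit 525) (nat_lit 559) (nat_lit 3596) (nat_lit 621) (nat_lit 7660))) (.f (nat_lit 558) (nat_lit 526) (nat_lit 5581) (.f (nat_lit 556) (nat_lit 460) (nat_lit 4556) (.d (nat_lit 559) (nat_lit 527) (nat_lit 2572) (nat_lit 588) (nat_lit 1580))))))) (.a (.p (nat_lit 589) (.a (.f (nat_lit 558) (nat_lit 526) (nat_lit 5581) (.d (nat_lit 525) (nat_lit 559) (nat_lit 3596) (nat_lit 621) (nat_lit 7660))) (.a (.f (nat_lit 558) (nat_lit 526) (nat_lit 5581) (.f (nat_lit 556) (nat_lit 460) (nat_lit 4556) (.d (nat_lit 559) (nat_lit 527) (nat_lit 2572) (nat_lit 588) (nat_lit 1580)))) (.f (nat_lit 556) (nat_lit 460) (nat_lit 4556) (.d (nat_lit 621) (nat_lit 525) (nat_lit 7660) (nat_lit 588) (nat_lit 4588)))))) (.a (.p (nat_lit 558) (.a (.d (nat_lit 526) (nat_lit 431) (nat_lit 6574) (nat_lit 589) (nat_lit 5581)) (.a (.f (nat_lit 559) (nat_lit 525) (nat_lit 3596) (.d (nat_lit 589) (nat_lit 526) (nat_lit 5581) (nat_lit 588) (nat_lit 1580))) (.f (nat_lit 559) (nat_lit 525) (nat_lit 3596) (.f (nat_lit 527) (nat_lit 556) (nat_lit 2572) (.d (nat_lit 495) (nat_lit 431) (nat_lit 4527) (nat_lit 590) (nat_lit 5582))))))) (.a (.p (nat_lit 589) (.a (.f (nat_lit 558) (nat_lit 526) (nat_lit 5581) (.f (nat_lit 556) (nat_lit 460) (nat_lit 4556) (.d (nat_lit 559) (nat_lit 527) (nat_lit 2572) (nat_lit 588) (nat_lit 1580)))) (.a (.f (nat_lit 558) (nat_lit 526) (nat_lit 5581) (.f (nat_lit 559) (nat_lit 588) (nat_lit 1580) (.f (nat_lit 527) (nat_lit 556) (nat_lit 2572) (.d (nat_lit 495) (nat_lit 431) (nat_lit 4527) (nat_lit 590) (nat_lit 5582))))) (.a (.f (nat_lit 556) (nat_lit 460) (nat_lit 4556) (.d (nat_lit 621) (nat_lit 588) (nat_lit 4588) (nat_lit 653) (nat_lit 7692))) (.a (.f (nat_lit 558) (nat_lit 526) (nat_lit 5581) (.f (nat_lit 559) (nat_lit 588) (nat_lit 1580) (.f (nat_lit 561) (nat_lit 590) (nat_lit 1581) (.f (nat_lit 594) (nat_lit 593) (nat_lit 558) (.f (nat_lit 562) (nat_lit 595) (nat_lit 559) (.f (nat_lit 531) (nat_lit 530) (nat_lit 2575) (.d (nat_lit 563) (nat_lit 527) (nat_lit 3599) (nat_lit 532) (nat_lit 2576)))))))) (.f (nat_lit 558) (nat_lit 526) (nat_lit 5581) (.f (nat_lit 556) (nat_lit 460) (nat_lit 4556) (.f (nat_lit 559) (nat_lit 527) (nat_lit 2572) (.f (nat_lit 590) (nat_lit 561) (nat_lit 1581) (.d (nat_lit 555) (nat_lit 554) (nat_lit 554) (nat_lit 591) (nat_lit 555))))))))))) (.a s66572 (.a s66577 (.a (.p (nat_lit 525) (.a (.f (nat_lit 589) (nat_lit 621) (nat_lit 7660) (.d (nat_lit 558) (nat_lit 526) (nat_lit 5581) (nat_lit 559) (nat_lit 3596))) (.a (.f (nat_lit 460) (nat_lit 428) (nat_lit 4524) (.d (nat_lit 589) (nat_lit 556) (nat_lit 4556) (nat_lit 621) (nat_lit 7660))) (.f (nat_lit 559) (nat_lit 558) (nat_lit 3596) (.f (nat_lit 527) (nat_lit 526) (nat_lit 524) (.d (nat_lit 495) (nat_lit 431) (nat_lit 4527) (nat_lit 591) (nat_lit 7630))))))) s66604)))))))) (.d (nat_lit 493) (nat_lit 465) (nat_lit 1485) (nat_lit 491) (nat_lit 2507)))))) (.a (.p (nat_lit 556) (.a (.p (nat_lit 588) (.a (.f (nat_lit 589) (nat_lit 621) (nat_lit 4588) (.f (nat_lit 557) (nat_lit 460) (nat_lit 4556) (.f (nat_lit 558) (nat_lit 559) (nat_lit 1580) (.d (nat_lit 587) (nat_lit 586) (nat_lit 2602) (nat_lit 619) (nat_lit 5611))))) (.a (.f (nat_lit 491) (nat_lit 459) (nat_lit 7627) (.f (nat_lit 620) (nat_lit 523) (nat_lit 7659) (.d (nat_lit 619) (nat_lit 587) (nat_lit 5611) (nat_lit 651) (nat_lit 5643)))) (.f (nat_lit 491) (nat_lit 459) (nat_lit 7627) (.f (nat_lit 620) (nat_lit 523) (nat_lit 7659) (.d (nat_lit 621) (nat_lit 589) (nat_lit 4588) (nat_lit 653) (nat_lit 4620))))))) (.a (.p (nat_lit 588) (.a (.f (nat_lit 589) (nat_lit 621) (nat_lit 4588) (.f (nat_lit 557) (nat_lit 460) (nat_lit 4556) (.f (nat_lit 558) (nat_lit 559) (nat_lit 1580) (.d (nat_lit 587) (nat_lit 586) (nat_lit 2602) (nat_lit 619) (nat_lit 5611))))) (.a (.f (nat_lit 619) (nat_lit 587) (nat_lit 5611) (.f (nat_lit 620) (nat_lit 651) (nat_lit 5643) (.f (nat_lit 653) (nat_lit 621) (nat_lit 4620) (.f (nat_lit 652) (nat_lit 685) (nat_lit 4652) (.d (nat_lit 523) (nat_lit 491) (nat_lit 7659) (nat_lit 555) (nat_lit 7691)))))) (.a (.f (nat_lit 589) (nat_lit 621) (nat_lit 4588) (.f (nat_lit 557) (nat_lit 460) (nat_lit 4556) (.f (nat_lit 558) (nat_lit 559) (nat_lit 1580) (.f (nat_lit 494) (nat_lit 526) (nat_lit 5581) (.d (nat_lit 493) (nat_lit 465) (nat_lit 1485) (nat_lit 495) (nat_lit 2508)))))) (.f (nat_lit 619) (nat_lit 587) (nat_lit 5611) (.f (nat_lit 620) (nat_lit 651) (nat_lit 5643) (.f (nat_lit 523) (nat_lit 491) (nat_lit 7659) (.f (nat_lit 555) (nat_lit 652) (nat_lit 7691) (.f (nat_lit 460) (nat_lit 428) (nat_lit 5547) (.f (nat_lit 557) (nat_lit 589) (nat_lit 4556) (.d (nat_lit 558) (nat_lit 522) (nat_lit 3594) (nat_lit 559) (nat_lit 3595)))))))))))) (.a (.p (nat_lit 588) (.a (.f (nat_lit 491) (nat_lit 459) (nat_lit 7627) (.f (nat_lit 620) (nat_lit 523) (nat_lit 7659) (.d (nat_lit 619) (nat_lit 587) (nat_lit 5611) (nat_lit 651) (nat_lit 5643)))) (.a (.f (nat_lit 619) (nat_lit 587) (nat_lit 5611) (.f (nat_lit 620) (nat_lit 651) (nat_lit 5643) (.f (nat_lit 653) (nat_lit 621) (nat_lit 4620) (.f (nat_lit 652) (nat_lit 685) (nat_lit 4652) (.d (nat_lit 523) (nat_lit 491) (nat_lit 7659) (nat_lit 555) (nat_lit 7691)))))) (.a (.f (nat_lit 619) (nat_lit 587) (nat_lit 5611) (.f (nat_lit 620) (nat_lit 651) (nat_lit 5643) (.d (nat_lit 621) (nat_lit 589) (nat_lit 4588) (nat_lit 653) (nat_lit 4620)))) (.a (.f (nat_lit 491) (nat_lit 459) (nat_lit 7627) (.f (nat_lit 620) (nat_lit 523) (nat_lit 7659) (.d (nat_lit 621) (nat_lit 589) (nat_lit 4588) (nat_lit 653) (nat_lit 4620)))) (.p (nat_lit 557) (.a (.f (nat_lit 589) (nat_lit 621) (nat_lit 4588) (.f (nat_lit 558) (nat_lit 559) (nat_lit 1580) (.d (nat_lit 587) (nat_lit 586) (nat_lit 2602) (nat_lit 619) (nat_lit 5611)))) (.a (.f (nat_lit 589) (nat_lit 621) (nat_lit 4588) (.f (nat_lit 587) (nat_lit 619) (nat_lit 5611) (.f (nat_lit 586) (nat_lit 585) (nat_lit 2601) (.f (nat_lit 554) (nat_lit 553) (nat_lit 3625) (.f (nat_lit 555) (nat_lit 590) (nat_lit 554) (.f (nat_lit 491) (nat_lit 459) (nat_lit 7627) (.d (nat_lit 618) (nat_lit 523) (nat_lit 5610) (nat_lit 617) (nat_lit 1609)))))))) (.a (.f (nat_lit 589) (nat_lit 621) (nat_lit 4588) (.f (nat_lit 558) (nat_lit 559) (nat_lit 1580) (.f (nat_lit 494) (nat_lit 526) (nat_lit 5581) (.d (nat_lit 493) (nat_lit 465) (nat_lit 1485) (nat_lit 495) (nat_lit 2508))))) (.f (nat_lit 587) (nat_lit 619) (nat_lit 5611) (.f (nat_lit 558) (nat_lit 559) (nat_lit 1579) (.d (nat_lit 586) (nat_lit 555) (nat_lit 1578) (nat_lit 585) (nat_lit 2601))))))))))))) (.a (.p (nat_lit 465) (.a (.f (nat_lit 494) (nat_lit 493) (nat_lit 1485) (.f (nat_lit 466) (nat_lit 495) (nat_lit 1486) (.d (nat_lit 498) (nat_lit 497) (nat_lit 462) (nat_lit 499) (nat_lit 463)))) (.a (.p (nat_lit 460) (.a (.f (nat_lit 555) (nat_lit 587) (nat_lit 5579) (.f (nat_lit 557) (nat_lit 589) (nat_lit 4556) (.f (nat_lit 523) (nat_lit 428) (nat_lit 5547) (.d (nat_lit 558) (nat_lit 522) (nat_lit 3594) (nat_lit 559) (nat_lit 3595))))) (.a (.f (nat_lit 587) (nat_lit 555) (nat_lit 5579) (.f (nat_lit 588) (nat_lit 619) (nat_lit 5611) (.d (nat_lit 589) (nat_lit 557) (nat_lit 4556) (nat_lit 621) (nat_lit 4588)))) (.f (nat_lit 494) (nat_lit 493) (nat_lit 1485) (.f (nat_lit 427) (nat_lit 459) (nat_lit 7595) (.f (nat_lit 428) (nat_lit 395) (nat_lit 7563) (.f (nat_lit 397) (nat_lit 429) (nat_lit 6540) (.f (nat_lit 396) (nat_lit 365) (nat_lit 6508) (.f (nat_lit 399) (nat_lit 398) (nat_lit 1419) (.f (nat_lit 431) (nat_lit 367) (nat_lit 5486) (.d (nat_lit 495) (nat_lit 526) (nat_lit 5518) (nat_lit 527) (nat_lit 4527)))))))))))) (.f (nat_lit 498) (nat_lit 497) (nat_lit 462) (.f (nat_lit 466) (nat_lit 499) (nat_lit 463) (.d (nat_lit 434) (nat_lit 433) (nat_lit 2478) (nat_lit 435) (nat_lit 2479))))))) (.a (.p (nat_lit 588) (.a (.f (nat_lit 589) (nat_lit 621) (nat_lit 4588) (.f (nat_lit 557) (nat_lit 460) (nat_lit 4556) (.f (nat_lit 558) (nat_lit 559) (nat_lit 1580) (.d (nat_lit 587) (nat_lit 586) (nat_lit 2602) (nat_lit 619) (nat_lit 5611))))) (.a (.f (nat_lit 619) (nat_lit 587) (nat_lit 5611) (.f (nat_lit 620) (nat_lit 651) (nat_lit 5643) (.d (nat_lit 621) (nat_lit 589) (nat_lit 4588) (nat_lit 653) (nat_lit 4620)))) (.a (.f (nat_lit 589) (nat_lit 621) (nat_lit 4588) (.f (nat_lit 557) (nat_lit 460) (nat_lit 4556) (.f (nat_lit 558) (nat_lit 559) (nat_lit 1580) (.f (nat_lit 494) (nat_lit 526) (nat_lit 5581) (.d (nat_lit 493) (nat_lit 465) (nat_lit 1485) (nat_lit 495) (nat_lit 2508)))))) (.f (nat_lit 587) (nat_lit 619) (nat_lit 5611) (.f (nat_lit 460) (nat_lit 555) (nat_lit 5579) (.d (nat_lit 459) (nat_lit 427) (nat_lit 7595) (nat_lit 491) (nat_lit 7627)))))))) (.a (.p (nat_lit 588) (.a (.f (nat_lit 491) (nat_lit 459) (nat_lit 7627) (.f (nat_lit 620) (nat_lit 523) (nat_lit 7659) (.d (nat_lit 619) (nat_lit 587) (nat_lit 5611) (nat_lit 651) (nat_lit 5643)))) (.a (.f (nat_lit 587) (nat_lit 619) (nat_lit 5611) (.f (nat_lit 555) (nat_lit 460) (nat_lit 5579) (.f (nat_lit 589) (nat_lit 621) (nat_lit 4588) (.d (nat_lit 590) (nat_lit 554) (nat_lit 3626) (nat_lit 591) (nat_lit 3627))))) (.f (nat_lit 491) (nat_lit 459) (nat_lit 7627) (.f (nat_lit 620) (nat_lit 523) (nat_lit 7659) (.d (nat_lit 621) (nat_lit 589) (nat_lit 4588) (nat_lit 653) (nat_lit 4620))))))) (.a (.p (nat_lit 588) (.a (.f (nat_lit 491) (nat_lit 459) (nat_lit 7627) (.f (nat_lit 620) (nat_lit 523) (nat_lit 7659) (.d (nat_lit 621) (nat_lit 589) (nat_lit 4588) (nat_lit 653) (nat_lit 4620)))) (.a (.f (nat_lit 589) (nat_lit 621) (nat_lit 4588) (.f (nat_lit 557) (nat_lit 460) (nat_lit 4556) (.f (nat_lit 558) (nat_lit 559) (nat_lit 1580) (.f (nat_lit 494) (nat_lit 526) (nat_lit 5581) (.d (nat_lit 493) (nat_lit 465) (nat_lit 1485) (nat_lit 495) (nat_lit 2508)))))) (.a (.f (nat_lit 491) (nat_lit 459) (nat_lit 7627) (.f (nat_lit 620) (nat_lit 523) (nat_lit 7659) (.f (nat_lit 651) (nat_lit 619) (nat_lit 5643) (.f (nat_lit 652) (nat_lit 683) (nat_lit 5675) (.d (nat_lit 653) (nat_lit 621) (nat_lit 4620) (nat_lit 685) (nat_lit 4652)))))) (.p (nat_lit 557) (.a (.f (nat_lit 589) (nat_lit 460) (nat_lit 4556) (.f (nat_lit 558) (nat_lit 559) (nat_lit 1580) (.f (nat_lit 494) (nat_lit 526) (nat_lit 5581) (.d (nat_lit 493) (nat_lit 465) (nat_lit 1485) (nat_lit 495) (nat_lit 2508))))) (.a (.f (nat_lit 491) (nat_lit 459) (nat_lit 7627) (.f (nat_lit 523) (nat_lit 620) (nat_lit 7659) (.f (nat_lit 558) (nat_lit 559) (nat_lit 3595) (.d (nat_lit 522) (nat_lit 521) (nat_lit 521) (nat_lit 555) (nat_lit 3594))))) (.f (nat_lit 491) (nat_lit 459) (nat_lit 7627) (.f (nat_lit 523) (nat_lit 620) (nat_lit 7659) (.f (nat_lit 460) (nat_lit 589) (nat_lit 4556) (.d (nat_lit 428) (nat_lit 396) (nat_lit 5515) (nat_lit 555) (nat_lit 5547)))))))))))) (.a (.p (nat_lit 558) (.a (.p (nat_lit 494) (.a (.d (nat_lit 493) (nat_lit 465) (nat_lit 1485) (nat_lit 491) (nat_lit 2507)) (.a (.d (nat_lit 493) (nat_lit 491) (nat_lit 2507) (nat_lit 495) (nat_lit 2508)) (.a (.d (nat_lit 493) (nat_lit 465) (nat_lit 1485) (nat_lit 495) (nat_lit 2508)) (.f (nat_lit 526) (nat_lit 431) (nat_lit 6574) (.f (nat_lit 557) (nat_lit 589) (nat_lit 5581) (.d (nat_lit 559) (nat_lit 523) (nat_lit 3595) (nat_lit 591) (nat_lit 4558)))))))) (.a (.p (nat_lit 557) (.a (.d (nat_lit 559) (nat_lit 523) (nat_lit 3595) (nat_lit 527) (nat_lit 2572)) (.f (nat_lit 589) (nat_lit 460) (nat_lit 4556) (.f (nat_lit 494) (nat_lit 526) (nat_lit 5581) (.d (nat_lit 493) (nat_lit 465) (nat_lit 1485) (nat_lit 495) (nat_lit 2508)))))) (.a (.p (nat_lit 557) (.a (.d (nat_lit 559) (nat_lit 523) (nat_lit 3595) (nat_lit 527) (nat_lit 2572)) (.a (.f (nat_lit 527) (nat_lit 559) (nat_lit 2572) (.f (nat_lit 555) (nat_lit 526) (nat_lit 2571) (.d (nat_lit 460) (nat_lit 587) (nat_lit 5579) (nat_lit 589) (nat_lit 4556)))) (.a (.f (nat_lit 523) (nat_lit 559) (nat_lit 3595) (.d (nat_lit 522) (nat_lit 521) (nat_lit 521) (nat_lit 555) (nat_lit 3594))) (.f (nat_lit 460) (nat_lit 589) (nat_lit 4556) (.f (nat_lit 555) (nat_lit 587) (nat_lit 5579) (.d (nat_lit 523) (nat_lit 428) (nat_lit 5547) (nat_lit 522) (nat_lit 3594)))))))) (.a (.p (nat_lit 494) (.a (.d (nat_lit 493) (nat_lit 465) (nat_lit 1485) (nat_lit 491) (nat_lit 2507)) (.a (.d (nat_lit 493) (nat_lit 491) (nat_lit 2507) (nat_lit 495) (nat_lit 2508)) (.a (.d (nat_lit 493) (nat_lit 465) (nat_lit 1485) (nat_lit 495) (nat_lit 2508)) (.f (nat_lit 526) (nat_lit 431) (nat_lit 6574) (.f (nat_lit 557) (nat_lit 589) (nat_lit 5581) (.d (nat_lit 559) (nat_lit 527) (nat_lit 2572) (nat_lit 591) (nat_lit 4558)))))))) (.a (.p (nat_lit 557) (.a (.d (nat_lit 559) (nat_lit 523) (nat_lit 3595) (nat_lit 527) (nat_lit 2572)) (.a (.f (nat_lit 460) (nat_lit 589) (nat_lit 4556) (.f (nat_lit 527) (nat_lit 559) (nat_lit 2572) (.f (nat_lit 427) (nat_lit 459) (nat_lit 7595) (.f (nat_lit 428) (nat_lit 395) (nat_lit 7563) (.f (nat_lit 397) (nat_lit 429) (nat_lit 6540) (.f (nat_lit 396) (nat_lit 365) (nat_lit 6508) (.f (nat_lit 399) (nat_lit 398) (nat_lit 1419) (.f (nat_lit 431) (nat_lit 495) (nat_lit 4527) (.f (nat_lit 367) (nat_lit 494) (nat_lit 5486) (.f (nat_lit 336) (nat_lit 368) (nat_lit 6479) (.f (nat_lit 335) (nat_lit 304) (nat_lit 6447) (.d (nat_lit 334) (nat_lit 302) (nat_lit 7470) (nat_lit 366) (nat_lit 7502))))))))))))) (.a (.f (nat_lit 523) (nat_lit 559) (nat_lit 3595) (.d (nat_lit 522) (nat_lit 521) (nat_lit 521) (nat_lit 555) (nat_lit 3594))) (.f (nat_lit 460) (nat_lit 589) (nat_lit 4556) (.f (nat_lit 555) (nat_lit 587) (nat_lit 5579) (.d (nat_lit 523) (nat_lit 428) (nat_lit 5547) (nat_lit 522) (nat_lit 3594)))))))) (.a (.p (nat_lit 494) (.a (.d (nat_lit 493) (nat_lit 465) (nat_lit 1485) (nat_lit 491) (nat_lit 2507)) (.a (.d (nat_lit 493) (nat_lit 491) (nat_lit 2507) (nat_lit 495) (nat_lit 2508)) (.a (.d (nat_lit 493) (nat_lit 465) (nat_lit 1485) (nat_lit 495) (nat_lit 2508)) (.f (nat_lit 526) (nat_lit 431) (nat_lit 6574) (.f (nat_lit 590) (nat_lit 495) (nat_lit 6606) (.d (nat_lit 591) (nat_lit 559) (nat_lit 4558) (nat_lit 623) (nat_lit 4590)))))))) (.p (nat_lit 494) (.a (.d (nat_lit 493) (nat_lit 465) (nat_lit 1485) (nat_lit 491) (nat_lit 2507)) (.a (.d (nat_lit 493) (nat_lit 491) (nat_lit 2507) (nat_lit 495) (nat_lit 2508)) (.a (.d (nat_lit 493) (nat_lit 465) (nat_lit 1485) (nat_lit 495) (nat_lit 2508)) (.f (nat_lit 526) (nat_lit 431) (nat_lit 6574) (.f (nat_lit 557) (nat_lit 589) (nat_lit 5581) (.f (nat_lit 555) (nat_lit 527) (nat_lit 2571) (.d (nat_lit 590) (nat_lit 495) (nat_lit 6606) (nat_lit 591) (nat_lit 555)))))))))))))))) (.p (nat_lit 460) (.a (.f (nat_lit 555) (nat_lit 587) (nat_lit 5579) (.f (nat_lit 428) (nat_lit 523) (nat_lit 5547) (.d (nat_lit 427) (nat_lit 395) (nat_lit 7563) (nat_lit 459) (nat_lit 7595)))) (.a (.f (nat_lit 587) (nat_lit 555) (nat_lit 5579) (.f (nat_lit 588) (nat_lit 619) (nat_lit 5611) (.d (nat_lit 459) (nat_lit 427) (nat_lit 7595) (nat_lit 491) (nat_lit 7627)))) (.a (.f (nat_lit 555) (nat_lit 587) (nat_lit 5579) (.f (nat_lit 428) (nat_lit 523) (nat_lit 5547) (.f (nat_lit 397) (nat_lit 429) (nat_lit 6540) (.f (nat_lit 396) (nat_lit 365) (nat_lit 6508) (.f (nat_lit 363) (nat_lit 395) (nat_lit 7531) (.f (nat_lit 364) (nat_lit 331) (nat_lit 7499) (.f (nat_lit 491) (nat_lit 459) (nat_lit 5483) (.f (nat_lit 494) (nat_lit 493) (nat_lit 2507) (.f (nat_lit 399) (nat_lit 398) (nat_lit 3435) (.f (nat_lit 431) (nat_lit 367) (nat_lit 5486) (.d (nat_lit 495) (nat_lit 526) (nat_lit 5518) (nat_lit 527) (nat_lit 4527)))))))))))) (.a (.f (nat_lit 555) (nat_lit 587) (nat_lit 5579) (.f (nat_lit 428) (nat_lit 523) (nat_lit 5547) (.f (nat_lit 397) (nat_lit 429) (nat_lit 6540) (.f (nat_lit 396) (nat_lit 365) (nat_lit 6508) (.d (nat_lit 395) (nat_lit 363) (nat_lit 7531) (nat_lit 427) (nat_lit 7563)))))) (.f (nat_lit 427) (nat_lit 459) (nat_lit 7595) (.f (nat_lit 428) (nat_lit 395) (nat_lit 7563) (.f (nat_lit 397) (nat_lit 429) (nat_lit 6540) (.f (nat_lit 396) (nat_lit 365) (nat_lit 6508) (.f (nat_lit 491) (nat_lit 523) (nat_lit 5515) (.f (nat_lit 494) (nat_lit 493) (nat_lit 2507) (.f (nat_lit 399) (nat_lit 398) (nat_lit 1419) (.f (nat_lit 431) (nat_lit 367) (nat_lit 5486) (.d (nat_lit 495) (nat_lit 526) (nat_lit 5518) (nat_lit 527) (nat_lit 4527)))))))))))))))))))))))) (.a (.p (nat_lit 493) (.a (.d (nat_lit 494) (nat_lit 465) (nat_lit 1485) (nat_lit 495) (nat_lit 2508)) (.a (.d (nat_lit 494) (nat_lit 491) (nat_lit 2507) (nat_lit 495) (nat_lit 2508)) (.p (nat_lit 460) (.a (.p (nat_lit 428) (.a (.d (nat_lit 525) (nat_lit 396) (nat_lit 4492) (nat_lit 557) (nat_lit 4524)) (.a (.f (nat_lit 557) (nat_lit 525) (nat_lit 4524) (.f (nat_lit 556) (nat_lit 589) (nat_lit 4556) (.d (nat_lit 555) (nat_lit 523) (nat_lit 5547) (nat_lit 587) (nat_lit 5579)))) (.f (nat_lit 523) (nat_lit 555) (nat_lit 5547) (.f (nat_lit 396) (nat_lit 491) (nat_lit 5515) (.d (nat_lit 397) (nat_lit 365) (nat_lit 6508) (nat_lit 429) (nat_lit 6540))))))) (.a (.p (nat_lit 428) (.a (.d (nat_lit 525) (nat_lit 396) (nat_lit 4492) (nat_lit 557) (nat_lit 4524)) (.a (.f (nat_lit 557) (nat_lit 525) (nat_lit 4524) (.f (nat_lit 556) (nat_lit 589) (nat_lit 4556) (.d (nat_lit 555) (nat_lit 523) (nat_lit 5547) (nat_lit 587) (nat_lit 5579)))) (.f (nat_lit 523) (nat_lit 555) (nat_lit 5547) (.f (nat_lit 491) (nat_lit 396) (nat_lit 5515) (.f (nat_lit 427) (nat_lit 395) (nat_lit 7563) (.f (nat_lit 459) (nat_lit 556) (nat_lit 4523) (.d (nat_lit 522) (nat_lit 521) (nat_lit 2537) (nat_lit 554) (nat_lit 5546))))))))) (.a (.p (nat_lit 556) (.a (.f (nat_lit 557) (nat_lit 589) (nat_lit 4556) (.f (nat_lit 555) (nat_lit 587) (nat_lit 5579) (.d (nat_lit 428) (nat_lit 523) (nat_lit 5547) (nat_lit 525) (nat_lit 4524)))) (.a (.f (nat_lit 557) (nat_lit 589) (nat_lit 4556) (.f (nat_lit 555) (nat_lit 587) (nat_lit 5579) (.f (nat_lit 459) (nat_lit 427) (nat_lit 7595) (.f (nat_lit 588) (nat_lit 491) (nat_lit 7627) (.f (nat_lit 620) (nat_lit 525) (nat_lit 6636) (.f (nat_lit 523) (nat_lit 652) (nat_lit 7691) (.d (nat_lit 558) (nat_lit 522) (nat_lit 3594) (nat_lit 559) (nat_lit 3595)))))))) (.a (.f (nat_lit 557) (nat_lit 589) (nat_lit 4556) (.f (nat_lit 525) (nat_lit 428) (nat_lit 4524) (.f (nat_lit 588) (nat_lit 620) (nat_lit 6636) (.d (nat_lit 587) (nat_lit 555) (nat_lit 5579) (nat_lit 619) (nat_lit 5611))))) (.a (.f (nat_lit 459) (nat_lit 427) (nat_lit 7595) (.f (nat_lit 588) (nat_lit 491) (nat_lit 7627) (.d (nat_lit 587) (nat_lit 555) (nat_lit 5579) (nat_lit 619) (nat_lit 5611)))) (.f (nat_lit 557) (nat_lit 589) (nat_lit 4556) (.f (nat_lit 459) (nat_lit 427) (nat_lit 7595) (.f (nat_lit 588) (nat_lit 491) (nat_lit 7627) (.d (nat_lit 525) (nat_lit 428) (nat_lit 4524) (nat_lit 620) (nat_lit 6636)))))))))) (.a (.p (nat_lit 556) (.a (.f (nat_lit 557) (nat_lit 589) (nat_lit 4556) (.f (nat_lit 555) (nat_lit 587) (nat_lit 5579) (.f (nat_lit 459) (nat_lit 427) (nat_lit 7595) (.f (nat_lit 588) (nat_lit 491) (nat_lit 7627) (.f (nat_lit 620) (nat_lit 525) (nat_lit 6636) (.f (nat_lit 523) (nat_lit 652) (nat_lit 7691) (.d (nat_lit 558) (nat_lit 522) (nat_lit 3594) (nat_lit 559) (nat_lit 3595)))))))) (.a (.f (nat_lit 587) (nat_lit 555) (nat_lit 5579) (.f (nat_lit 588) (nat_lit 619) (nat_lit 5611) (.f (nat_lit 620) (nat_lit 525) (nat_lit 6636) (.d (nat_lit 491) (nat_lit 459) (nat_lit 7627) (nat_lit 523) (nat_lit 7659))))) (.a (.f (nat_lit 589) (nat_lit 557) (nat_lit 4556) (.f (nat_lit 588) (nat_lit 621) (nat_lit 4588) (.d (nat_lit 587) (nat_lit 555) (nat_lit 5579) (nat_lit 619) (nat_lit 5611)))) (.a (.f (nat_lit 459) (nat_lit 427) (nat_lit 7595) (.f (nat_lit 588) (nat_lit 491) (nat_lit 7627) (.d (nat_lit 589) (nat_lit 557) (nat_lit 4556) (nat_lit 621) (nat_lit 4588)))) (.p (nat_lit 523) (.a (.f (nat_lit 557) (nat_lit 589) (nat_lit 4556) (.f (nat_lit 522) (nat_lit 521) (nat_lit 2537) (.d (nat_lit 558) (nat_lit 525) (nat_lit 522) (nat_lit 559) (nat_lit 3595)))) (.a (.f (nat_lit 557) (nat_lit 589) (nat_lit 4556) (.f (nat_lit 555) (nat_lit 587) (nat_lit 5579) (.d (nat_lit 558) (nat_lit 522) (nat_lit 3594) (nat_lit 559) (nat_lit 3595)))) (.f (nat_lit 555) (nat_lit 587) (nat_lit 5579) (.f (nat_lit 459) (nat_lit 427) (nat_lit 7595) (.f (nat_lit 458) (nat_lit 457) (nat_lit 457) (.f (nat_lit 491) (nat_lit 426) (nat_lit 7594) (.f (nat_lit 554) (nat_lit 586) (nat_lit 5578) (.d (nat_lit 553) (nat_lit 525) (nat_lit 2569) (nat_lit 552) (nat_lit 2568))))))))))))))) (.a (.p (nat_lit 428) (.a (.d (nat_lit 525) (nat_lit 396) (nat_lit 4492) (nat_lit 557) (nat_lit 4524)) (.a (.f (nat_lit 557) (nat_lit 525) (nat_lit 4524) (.f (nat_lit 556) (nat_lit 589) (nat_lit 4556) (.d (nat_lit 555) (nat_lit 523) (nat_lit 5547) (nat_lit 587) (nat_lit 5579)))) (.f (nat_lit 427) (nat_lit 395) (nat_lit 7563) (.f (nat_lit 556) (nat_lit 459) (nat_lit 7595) (.d (nat_lit 555) (nat_lit 523) (nat_lit 5547) (nat_lit 587) (nat_lit 5579))))))) (.a (.p (nat_lit 428) (.a (.d (nat_lit 525) (nat_lit 396) (nat_lit 4492) (nat_lit 557) (nat_lit 4524)) (.a (.f (nat_lit 557) (nat_lit 525) (nat_lit 4524) (.f (nat_lit 556) (nat_lit 589) (nat_lit 4556) (.d (nat_lit 427) (nat_lit 395) (nat_lit 7563) (nat_lit 459) (nat_lit 7595)))) (.a (.f (nat_lit 427) (nat_lit 395) (nat_lit 7563) (.f (nat_lit 556) (nat_lit 459) (nat_lit 7595) (.f (nat_lit 587) (nat_lit 555) (nat_lit 5579) (.f (nat_lit 588) (nat_lit 619) (nat_lit 5611) (.d (nat_lit 589) (nat_lit 557) (nat_lit 4556) (nat_lit 621) (nat_lit 4588)))))) (.f (nat_lit 396) (nat_lit 525) (nat_lit 4492) (.d (nat_lit 397) (nat_lit 365) (nat_lit 6508) (nat_lit 429) (nat_lit 6540))))))) (.a (.p (nat_lit 556) (.a (.f (nat_lit 459) (nat_lit 427) (nat_lit 7595) (.f (nat_lit 588) (nat_lit 491) (nat_lit 7627) (.d (nat_lit 587) (nat_lit 555) (nat_lit 5579) (nat_lit 619) (nat_lit 5611)))) (.a (.f (nat_lit 589) (nat_lit 557) (nat_lit 4556) (.f (nat_lit 588) (nat_lit 621) (nat_lit 4588) (.d (nat_lit 587) (nat_lit 555) (nat_lit 5579) (nat_lit 619) (nat_lit 5611)))) (.a (.f (nat_lit 459) (nat_lit 427) (nat_lit 7595) (.f (nat_lit 588) (nat_lit 491) (nat_lit 7627) (.d (nat_lit 589) (nat_lit 557) (nat_lit 4556) (nat_lit 621) (nat_lit 4588)))) (.f (nat_lit 555) (nat_lit 587) (nat_lit 5579) (.f (nat_lit 523) (nat_lit 428) (nat_lit 5547) (.f (nat_lit 557) (nat_lit 589) (nat_lit 4556) (.d (nat_lit 558) (nat_lit 522) (nat_lit 3594) (nat_lit 559) (nat_lit 3595))))))))) (.a (.p (nat_lit 428) (.a (.d (nat_lit 525) (nat_lit 396) (nat_lit 4492) (nat_lit 557) (nat_lit 4524)) (.a (.f (nat_lit 557) (nat_lit 525) (nat_lit 4524) (.f (nat_lit 556) (nat_lit 589) (nat_lit 4556) (.d (nat_lit 427) (nat_lit 395) (nat_lit 7563) (nat_lit 459) (nat_lit 7595)))) (.f (nat_lit 427) (nat_lit 395) (nat_lit 7563) (.f (nat_lit 459) (nat_lit 556) (nat_lit 7595) (.f (nat_lit 397) (nat_lit 429) (nat_lit 6540) (.f (nat_lit 396) (nat_lit 365) (nat_lit 6508) (.d (nat_lit 364) (nat_lit 332) (nat_lit 5451) (nat_lit 491) (nat_lit 5483))))))))) (.a (.p (nat_lit 428) (.a (.d (nat_lit 525) (nat_lit 396) (nat_lit 4492) (nat_lit 557) (nat_lit 4524)) (.a (.f (nat_lit 523) (nat_lit 555) (nat_lit 5547) (.f (nat_lit 525) (nat_lit 557) (nat_lit 4524) (.f (nat_lit 522) (nat_lit 521) (nat_lit 2537) (.f (nat_lit 490) (nat_lit 489) (nat_lit 3561) (.f (nat_lit 554) (nat_lit 553) (nat_lit 1545) (.f (nat_lit 427) (nat_lit 395) (nat_lit 7563) (.d (nat_lit 459) (nat_lit 458) (nat_lit 6570) (nat_lit 491) (nat_lit 5546)))))))) (.f (nat_lit 523) (nat_lit 555) (nat_lit 5547) (.f (nat_lit 396) (nat_lit 491) (nat_lit 5515) (.d (nat_lit 397) (nat_lit 365) (nat_lit 6508) (nat_lit 429) (nat_lit 6540))))))) (.p (nat_lit 428) (.a (.f (nat_lit 523) (nat_lit 555) (nat_lit 5547) (.f (nat_lit 396) (nat_lit 491) (nat_lit 5515) (.d (nat_lit 397) (nat_lit 365) (nat_lit 6508) (nat_lit 429) (nat_lit 6540)))) (.a (.f (nat_lit 523) (nat_lit 555) (nat_lit 5547) (.f (nat_lit 491) (nat_lit 396) (nat_lit 5515) (.f (nat_lit 427) (nat_lit 395) (nat_lit 7563) (.f (nat_lit 459) (nat_lit 556) (nat_lit 4523) (.d (nat_lit 522) (nat_lit 521) (nat_lit 2537) (nat_lit 554) (nat_lit 5546)))))) (.a (.f (nat_lit 427) (nat_lit 395) (nat_lit 7563) (.f (nat_lit 556) (nat_lit 459) (nat_lit 7595) (.d (nat_lit 555) (nat_lit 523) (nat_lit 5547) (nat_lit 587) (nat_lit 5579)))) (.f (nat_lit 396) (nat_lit 525) (nat_lit 4492) (.d (nat_lit 397) (nat_lit 365) (nat_lit 6508) (nat_lit 429) (nat_lit 6540)))))))))))))))))))) (.a (.p (nat_lit 494) (.a (.d (nat_lit 493) (nat_lit 491) (nat_lit 2507) (nat_lit 495) (nat_lit 2508)) (.a (.d (nat_lit 493) (nat_lit 465) (nat_lit 1485) (nat_lit 495) (nat_lit 2508)) (.a (.p (nat_lit 557) (.a (.p (nat_lit 589) (.a (.f (nat_lit 525) (nat_lit 621) (nat_lit 7660) (.d (nat_lit 460) (nat_lit 428) (nat_lit 4524) (nat_lit 556) (nat_lit 4556))) (.a (.f (nat_lit 558) (nat_lit 526) (nat_lit 5581) (.d (nat_lit 525) (nat_lit 559) (nat_lit 3596) (nat_lit 621) (nat_lit 7660))) (.f (nat_lit 558) (nat_lit 526) (nat_lit 5581) (.f (nat_lit 556) (nat_lit 460) (nat_lit 4556) (.d (nat_lit 559) (nat_lit 527) (nat_lit 2572) (nat_lit 588) (nat_lit 1580))))))) (.a (.p (nat_lit 589) (.a (.f (nat_lit 558) (nat_lit 526) (nat_lit 5581) (.d (nat_lit 525) (nat_lit 559) (nat_lit 3596) (nat_lit 621) (nat_lit 7660))) (.a (.f (nat_lit 558) (nat_lit 526) (nat_lit 5581) (.f (nat_lit 556) (nat_lit 460) (nat_lit 4556) (.d (nat_lit 559) (nat_lit 527) (nat_lit 2572) (nat_lit 588) (nat_lit 1580)))) (.f (nat_lit 556) (nat_lit 460) (nat_lit 4556) (.d (nat_lit 621) (nat_lit 525) (nat_lit 7660) (nat_lit 588) (nat_lit 4588)))))) (.a (.p (nat_lit 558) (.a (.d (nat_lit 526) (nat_lit 431) (nat_lit 6574) (nat_lit 589) (nat_lit 5581)) (.a (.f (nat_lit 559) (nat_lit 525) (nat_lit 3596) (.d (nat_lit 589) (nat_lit 526) (nat_lit 5581) (nat_lit 588) (nat_lit 1580))) (.f (nat_lit 559) (nat_lit 525) (nat_lit 3596) (.f (nat_lit 527) (nat_lit 556) (nat_lit 2572) (.d (nat_lit 495) (nat_lit 431) (nat_lit 4527) (nat_lit 590) (nat_lit 5582))))))) (.a (.p (nat_lit 589) (.a (.f (nat_lit 558) (nat_lit 526) (nat_lit 5581) (.f (nat_lit 556) (nat_lit 460) (nat_lit 4556) (.d (nat_lit 559) (nat_lit 527) (nat_lit 2572) (nat_lit 588) (nat_lit 1580)))) (.a (.f (nat_lit 558) (nat_lit 526) (nat_lit 5581) (.f (nat_lit 559) (nat_lit 588) (nat_lit 1580) (.f (nat_lit 527) (nat_lit 556) (nat_lit 2572) (.d (nat_lit 495) (nat_lit 431) (nat_lit 4527) (nat_lit 590) (nat_lit 5582))))) (.a (.f (nat_lit 556) (nat_lit 460) (nat_lit 4556) (.d (nat_lit 621) (nat_lit 588) (nat_lit 4588) (nat_lit 653) (nat_lit 7692))) (.a (.f (nat_lit 558) (nat_lit 526) (nat_lit 5581) (.f (nat_lit 559) (nat_lit 588) (nat_lit 1580) (.f (nat_lit 561) (nat_lit 590) (nat_lit 1581) (.f (nat_lit 594) (nat_lit 593) (nat_lit 558) (.f (nat_lit 562) (nat_lit 595) (nat_lit 559) (.f (nat_lit 531) (nat_lit 530) (nat_lit 2575) (.d (nat_lit 563) (nat_lit 527) (nat_lit 3599) (nat_lit 532) (nat_lit 2576)))))))) (.f (nat_lit 558) (nat_lit 526) (nat_lit 5581) (.f (nat_lit 556) (nat_lit 460) (nat_lit 4556) (.d (nat_lit 559) (nat_lit 523) (nat_lit 3595) (nat_lit 527) (nat_lit 2572))))))))) (.a s66572 (.a s66577 (.a (.p (nat_lit 525) (.a (.f (nat_lit 589) (nat_lit 621) (nat_lit 7660) (.d (nat_lit 558) (nat_lit 526) (nat_lit 5581) (nat_lit 559) (nat_lit 3596))) (.a (.f (nat_lit 460) (nat_lit 428) (nat_lit 4524) (.d (nat_lit 589) (nat_lit 556) (nat_lit 4556) (nat_lit 621) (nat_lit 7660))) (.f (nat_lit 559) (nat_lit 558) (nat_lit 3596) (.f (nat_lit 527) (nat_lit 526) (nat_lit 524) (.d (nat_lit 495) (nat_lit 431) (nat_lit 4527) (nat_lit 591) (nat_lit 7630))))))) s66604)))))))) (.d (nat_lit 493) (nat_lit 465) (nat_lit 1485) (nat_lit 491) (nat_lit 2507)))))) (.a (.p (nat_lit 465) (.a (.f (nat_lit 494) (nat_lit 493) (nat_lit 1485) (.f (nat_lit 466) (nat_lit 495) (nat_lit 1486) (.d (nat_lit 498) (nat_lit 497) (nat_lit 462) (nat_lit 499) (nat_lit 463)))) (.a (.p (nat_lit 557) (.a (.p (nat_lit 558) (.a (.f (nat_lit 559) (nat_lit 525) (nat_lit 3596) (.d (nat_lit 556) (nat_lit 523) (nat_lit 3595) (nat_lit 527) (nat_lit 2572))) (.f (nat_lit 494) (nat_lit 493) (nat_lit 1485) (.d (nat_lit 526) (nat_lit 431) (nat_lit 6574) (nat_lit 589) (nat_lit 5581))))) (.a (.p (nat_lit 589) (.a (.f (nat_lit 525) (nat_lit 621) (nat_lit 7660) (.d (nat_lit 460) (nat_lit 493) (nat_lit 7628) (nat_lit 556) (nat_lit 4556))) (.a (.f (nat_lit 621) (nat_lit 525) (nat_lit 7660) (.d (nat_lit 556) (nat_lit 588) (nat_lit 4588) (nat_lit 653) (nat_lit 7692))) (.a (.f (nat_lit 556) (nat_lit 460) (nat_lit 4556) (.d (nat_lit 621) (nat_lit 588) (nat_lit 4588) (nat_lit 653) (nat_lit 7692))) (.a (.f (nat_lit 525) (nat_lit 621) (nat_lit 7660) (.d (nat_lit 460) (nat_lit 428) (nat_lit 4524) (nat_lit 493) (nat_lit 7628))) (.f (nat_lit 460) (nat_lit 556) (nat_lit 4556) (.d (nat_lit 525) (nat_lit 428) (nat_lit 4524) (nat_lit 493) (nat_lit 7628)))))))) (.a s66073 (.a s66100 (.a (.p (nat_lit 525) (.a (.f (nat_lit 493) (nat_lit 494) (nat_lit 1485) (.d (nat_lit 589) (nat_lit 460) (nat_lit 7628) (nat_lit 621) (nat_lit 7660))) (.a (.f (nat_lit 559) (nat_lit 558) (nat_lit 3596) (.f (nat_lit 527) (nat_lit 526) (nat_lit 524) (.f (nat_lit 495) (nat_lit 431) (nat_lit 4527) (.f (nat_lit 591) (nat_lit 494) (nat_lit 7630) (.f (nat_lit 623) (nat_lit 655) (nat_lit 6671) (.d (nat_lit 622) (nat_lit 590) (nat_lit 5614) (nat_lit 654) (nat_lit 5646))))))) (.f (nat_lit 589) (nat_lit 621) (nat_lit 7660) (.d (nat_lit 460) (nat_lit 428) (nat_lit 4524) (nat_lit 493) (nat_lit 7628)))))) s66117)))))) (.f (nat_lit 498) (nat_lit 497) (nat_lit 462) (.f (nat_lit 466) (nat_lit 499) (nat_lit 463) (.d (nat_lit 434) (nat_lit 433) (nat_lit 2478) (nat_lit 435) (nat_lit 2479))))))) (.a (.p (nat_lit 494) (.a (.d (nat_lit 493) (nat_lit 491) (nat_lit 2507) (nat_lit 495) (nat_lit 2508)) (.a (.d (nat_lit 493) (nat_lit 465) (nat_lit 1485) (nat_lit 495) (nat_lit 2508)) (.a (.p (nat_lit 526) (.a (.f (nat_lit 558) (nat_lit 431) (nat_lit 6574) (.f (nat_lit 559) (nat_lit 591) (nat_lit 4558) (.d (nat_lit 525) (nat_lit 523) (nat_lit 523) (nat_lit 561) (nat_lit 3597)))) (.a (.p (nat_lit 525) (.a (.d (nat_lit 527) (nat_lit 559) (nat_lit 524) (nat_lit 561) (nat_lit 525)) (.f (nat_lit 523) (nat_lit 495) (nat_lit 2539) (.f (nat_lit 555) (nat_lit 554) (nat_lit 1546) (.f (nat_lit 491) (nat_lit 490) (nat_lit 3562) (.d (nat_lit 460) (nat_lit 428) (nat_lit 5547) (nat_lit 587) (nat_lit 6603))))))) (.a (.f (nat_lit 558) (nat_lit 431) (nat_lit 6574) (.f (nat_lit 559) (nat_lit 591) (nat_lit 4558) (.d (nat_lit 525) (nat_lit 527) (nat_lit 524) (nat_lit 561) (nat_lit 3597)))) (.f (nat_lit 431) (nat_lit 558) (nat_lit 6574) (.d (nat_lit 495) (nat_lit 399) (nat_lit 5518) (nat_lit 527) (nat_lit 4527))))))) (.d (nat_lit 493) (nat_lit 465) (nat_lit 1485) (nat_lit 491) (nat_lit 2507)))))) (.p (nat_lit 493) (.a (.d (nat_lit 494) (nat_lit 465) (nat_lit 1485) (nat_lit 495) (nat_lit 2508)) (.a (.d (nat_lit 494) (nat_lit 491) (nat_lit 2507) (nat_lit 495) (nat_lit 2508)) (.p (nat_lit 491) (.a (.p (nat_lit 490) (.a (.d (nat_lit 525) (nat_lit 489) (nat_lit 489) (nat_lit 526) (nat_lit 490)) (.a (.p (nat_lit 523) (.a (.f (nat_lit 525) (nat_lit 526) (nat_lit 3562) (.f (nat_lit 522) (nat_lit 521) (nat_lit 2537) (.f (nat_lit 554) (nat_lit 553) (nat_lit 1545) (.d (nat_lit 459) (nat_lit 427) (nat_lit 5546) (nat_lit 586) (nat_lit 6602))))) (.a (.f (nat_lit 522) (nat_lit 521) (nat_lit 2537) (.f (nat_lit 458) (nat_lit 457) (nat_lit 3529) (.d (nat_lit 426) (nat_lit 394) (nat_lit 4490) (nat_lit 555) (nat_lit 4522)))) (.f (nat_lit 458) (nat_lit 457) (nat_lit 3529) (.f (nat_lit 555) (nat_lit 587) (nat_lit 7626) (.d (nat_lit 426) (nat_lit 394) (nat_lit 4490) (nat_lit 459) (nat_lit 7594))))))) (.f (nat_lit 521) (nat_lit 522) (nat_lit 1513) (.f (nat_lit 489) (nat_lit 520) (nat_lit 1512) (.d (nat_lit 457) (nat_lit 456) (nat_lit 3528) (nat_lit 458) (nat_lit 3529))))))) (.a (.p (nat_lit 490) (.a (.d (nat_lit 525) (nat_lit 489) (nat_lit 489) (nat_lit 526) (nat_lit 490)) (.a (.p (nat_lit 523) (.a (.f (nat_lit 525) (nat_lit 526) (nat_lit 3562) (.f (nat_lit 522) (nat_lit 521) (nat_lit 2537) (.f (nat_lit 554) (nat_lit 553) (nat_lit 1545) (.d (nat_lit 459) (nat_lit 427) (nat_lit 5546) (nat_lit 586) (nat_lit 6602))))) (.a (.f (nat_lit 525) (nat_lit 526) (nat_lit 3562) (.f (nat_lit 522) (nat_lit 521) (nat_lit 2537) (.f (nat_lit 554) (nat_lit 553) (nat_lit 1545) (.d (nat_lit 586) (nat_lit 459) (nat_lit 6602) (nat_lit 618) (nat_lit 6634))))) (.a (.f (nat_lit 522) (nat_lit 521) (nat_lit 2537) (.f (nat_lit 458) (nat_lit 457) (nat_lit 3529) (.d (nat_lit 555) (nat_lit 426) (nat_lit 4522) (nat_lit 587) (nat_lit 7626)))) (.a (.f (nat_lit 458) (nat_lit 457) (nat_lit 3529) (.f (nat_lit 555) (nat_lit 587) (nat_lit 7626) (.d (nat_lit 426) (nat_lit 459) (nat_lit 7594) (nat_lit 522) (nat_lit 4522)))) (.f (nat_lit 458) (nat_lit 457) (nat_lit 3529) (.f (nat_lit 555) (nat_lit 587) (nat_lit 7626) (.f (nat_lit 459) (nat_lit 426) (nat_lit 7594) (.d (nat_lit 427) (nat_lit 395) (nat_lit 4491) (nat_lit 556) (nat_lit 4523)))))))))) (.f (nat_lit 521) (nat_lit 522) (nat_lit 1513) (.f (nat_lit 489) (nat_lit 520) (nat_lit 1512) (.d (nat_lit 457) (nat_lit 456) (nat_lit 3528) (nat_lit 458) (nat_lit 3529))))))) (.a (.p (nat_lit 490) (.a (.d (nat_lit 525) (nat_lit 489) (nat_lit 489) (nat_lit 526) (nat_lit 490)) (.a s66889 (.f (nat_lit 521) (nat_lit 522) (nat_lit 1513) (.f (nat_lit 489) (nat_lit 520) (nat_lit 1512) (.d (nat_lit 457) (nat_lit 456) (nat_lit 3528) (nat_lit 458) (nat_lit 3529))))))) (.a (.p (nat_lit 490) (.a (.d (nat_lit 525) (nat_lit 489) (nat_lit 489) (nat_lit 526) (nat_lit 490)) (.a (.p (nat_lit 523) (.a (.f (nat_lit 522) (nat_lit 521) (nat_lit 2537) (.f (nat_lit 458) (nat_lit 457) (nat_lit 3529) (.d (nat_lit 426) (nat_lit 394) (nat_lit 4490) (nat_lit 555) (nat_lit 4522)))) (.a (.f (nat_lit 525) (nat_lit 526) (nat_lit 3562) (.f (nat_lit 522) (nat_lit 521) (nat_lit 2537) (.f (nat_lit 554) (nat_lit 553) (nat_lit 1545) (.d (nat_lit 586) (nat_lit 459) (nat_lit 6602) (nat_lit 618) (nat_lit 6634))))) (.f (nat_lit 458) (nat_lit 457) (nat_lit 3529) (.f (nat_lit 555) (nat_lit 587) (nat_lit 7626) (.d (nat_lit 426) (nat_lit 394) (nat_lit 4490) (nat_lit 459) (nat_lit 7594))))))) (.f (nat_lit 521) (nat_lit 522) (nat_lit 1513) (.f (nat_lit 489) (nat_lit 520) (nat_lit 1512) (.d (nat_lit 457) (nat_lit 456) (nat_lit 3528) (nat_lit 458) (nat_lit 3529))))))) (.a (.p (nat_lit 490) (.a (.d (nat_lit 525) (nat_lit 489) (nat_lit 489) (nat_lit 526) (nat_lit 490)) (.a (.p (nat_lit 523) (.a (.f (nat_lit 525) (nat_lit 526) (nat_lit 3562) (.f (nat_lit 522) (nat_lit 521) (nat_lit 2537) (.f (nat_lit 554) (nat_lit 553) (nat_lit 1545) (.d (nat_lit 459) (nat_lit 427) (nat_lit 5546) (nat_lit 586) (nat_lit 6602))))) (.a (.f (nat_lit 522) (nat_lit 521) (nat_lit 2537) (.f (nat_lit 458) (nat_lit 457) (nat_lit 3529) (.d (nat_lit 426) (nat_lit 394) (nat_lit 4490) (nat_lit 555) (nat_lit 4522)))) (.f (nat_lit 458) (nat_lit 457) (nat_lit 3529) (.f (nat_lit 555) (nat_lit 587) (nat_lit 7626) (.d (nat_lit 426) (nat_lit 394) (nat_lit 4490) (nat_lit 459) (nat_lit 7594))))))) (.f (nat_lit 521) (nat_lit 522) (nat_lit 1513) (.f (nat_lit 489) (nat_lit 520) (nat_lit 1512) (.f (nat_lit 458) (nat_lit 457) (nat_lit 3529) (.f (nat_lit 523) (nat_lit 488) (nat_lit 488) (.f (nat_lit 555) (nat_lit 587) (nat_lit 7626) (.d (nat_lit 426) (nat_lit 394) (nat_lit 5513) (nat_lit 459) (nat_lit 7594)))))))))) (.a (.p (nat_lit 490) (.a (.d (nat_lit 525) (nat_lit 489) (nat_lit 489) (nat_lit 526) (nat_lit 490)) (.a s66889 (.f (nat_lit 521) (nat_lit 522) (nat_lit 1513) (.f (nat_lit 489) (nat_lit 520) (nat_lit 1512) (.f (nat_lit 488) (nat_lit 523) (nat_lit 488) (.f (nat_lit 459) (nat_lit 460) (nat_lit 2504) (.f (nat_lit 487) (nat_lit 458) (nat_lit 2503) (.d (nat_lit 455) (nat_lit 454) (nat_lit 3526) (nat_lit 456) (nat_lit 3527)))))))))) (.a (.p (nat_lit 490) (.a (.d (nat_lit 525) (nat_lit 489) (nat_lit 489) (nat_lit 526) (nat_lit 490)) (.a s66889 (.f (nat_lit 521) (nat_lit 522) (nat_lit 1513) (.f (nat_lit 489) (nat_lit 520) (nat_lit 1512) (.f (nat_lit 488) (nat_lit 523) (nat_lit 488) (.d (nat_lit 456) (nat_lit 455) (nat_lit 3527) (nat_lit 457) (nat_lit 3528)))))))) (.a (.p (nat_lit 555) (.a (.p (nat_lit 525) (.a (.d (nat_lit 526) (nat_lit 490) (nat_lit 490) (nat_lit 527) (nat_lit 3564)) (.a (.f (nat_lit 526) (nat_lit 527) (nat_lit 3564) (.f (nat_lit 523) (nat_lit 554) (nat_lit 1546) (.d (nat_lit 460) (nat_lit 428) (nat_lit 5547) (nat_lit 587) (nat_lit 6603)))) (.f (nat_lit 490) (nat_lit 489) (nat_lit 489) (.f (nat_lit 522) (nat_lit 521) (nat_lit 1513) (.f (nat_lit 458) (nat_lit 457) (nat_lit 3529) (.d (nat_lit 587) (nat_lit 523) (nat_lit 7626) (nat_lit 554) (nat_lit 4554)))))))) (.a (.p (nat_lit 525) (.a (.d (nat_lit 526) (nat_lit 490) (nat_lit 490) (nat_lit 527) (nat_lit 3564)) (.a (.f (nat_lit 526) (nat_lit 527) (nat_lit 3564) (.f (nat_lit 523) (nat_lit 554) (nat_lit 1546) (.d (nat_lit 587) (nat_lit 460) (nat_lit 6603) (nat_lit 619) (nat_lit 6635)))) (.f (nat_lit 490) (nat_lit 489) (nat_lit 489) (.f (nat_lit 522) (nat_lit 521) (nat_lit 1513) (.f (nat_lit 458) (nat_lit 457) (nat_lit 3529) (.d (nat_lit 587) (nat_lit 523) (nat_lit 7626) (nat_lit 554) (nat_lit 4554)))))))) (.a (.p (nat_lit 587) (.a (.d (nat_lit 460) (nat_lit 523) (nat_lit 6603) (nat_lit 556) (nat_lit 5579)) (.a (.f (nat_lit 523) (nat_lit 619) (nat_lit 6635) (.f (nat_lit 490) (nat_lit 458) (nat_lit 7626) (.d (nat_lit 489) (nat_lit 488) (nat_lit 488) (nat_lit 525) (nat_lit 489)))) (.f (nat_lit 556) (nat_lit 460) (nat_lit 5579) (.d (nat_lit 619) (nat_lit 588) (nat_lit 5611) (nat_lit 651) (nat_lit 6667)))))) (.a (.p (nat_lit 587) (.a (.d (nat_lit 460) (nat_lit 523) (nat_lit 6603) (nat_lit 556) (nat_lit 5579)) (.a (.f (nat_lit 619) (nat_lit 523) (nat_lit 6635) (.d (nat_lit 556) (nat_lit 588) (nat_lit 5611) (nat_lit 651) (nat_lit 6667))) (.a (.f (nat_lit 556) (nat_lit 460) (nat_lit 5579) (.d (nat_lit 619) (nat_lit 588) (nat_lit 5611) (nat_lit 651) (nat_lit 6667))) (.d (nat_lit 523) (nat_lit 460) (nat_lit 6603) (nat_lit 619) (nat_lit 6635)))))) (.a (.p (nat_lit 525) (.a (.d (nat_lit 526) (nat_lit 490) (nat_lit 490) (nat_lit 527) (nat_lit 3564)) (.a (.f (nat_lit 526) (nat_lit 527) (nat_lit 3564) (.f (nat_lit 554) (nat_lit 523) (nat_lit 1546) (.d (nat_lit 556) (nat_lit 553) (nat_lit 2569) (nat_lit 557) (nat_lit 2570)))) (.f (nat_lit 490) (nat_lit 489) (nat_lit 489) (.f (nat_lit 522) (nat_lit 521) (nat_lit 1513) (.f (nat_lit 458) (nat_lit 457) (nat_lit 3529) (.d (nat_lit 587) (nat_lit 523) (nat_lit 7626) (nat_lit 554) (nat_lit 4554)))))))) (.a (.p (nat_lit 490) (.a (.d (nat_lit 525) (nat_lit 489) (nat_lit 489) (nat_lit 526) (nat_lit 490)) (.a (.f (nat_lit 525) (nat_lit 526) (nat_lit 490) (.f (nat_lit 458) (nat_lit 457) (nat_lit 3529) (.f (nat_lit 522) (nat_lit 521) (nat_lit 1513) (.f (nat_lit 554) (nat_lit 587) (nat_lit 4554) (.d (nat_lit 553) (nat_lit 556) (nat_lit 2569) (nat_lit 585) (nat_lit 5577)))))) (.f (nat_lit 521) (nat_lit 522) (nat_lit 1513) (.f (nat_lit 489) (nat_lit 520) (nat_lit 1512) (.d (nat_lit 457) (nat_lit 456) (nat_lit 3528) (nat_lit 458) (nat_lit 3529))))))) (.p (nat_lit 525) (.a (.d (nat_lit 526) (nat_lit 490) (nat_lit 490) (nat_lit 527) (nat_lit 3564)) (.a (.f (nat_lit 526) (nat_lit 527) (nat_lit 3564) (.f (nat_lit 554) (nat_lit 523) (nat_lit 1546) (.d (nat_lit 556) (nat_lit 553) (nat_lit 2569) (nat_lit 557) (nat_lit 2570)))) (.f (nat_lit 490) (nat_lit 489) (nat_lit 489) (.f (nat_lit 522) (nat_lit 521) (nat_lit 1513) (.f (nat_lit 458) (nat_lit 457) (nat_lit 3529) (.f (nat_lit 523) (nat_lit 426) (nat_lit 4522) (.f (nat_lit 460) (nat_lit 428) (nat_lit 5547) (.f (nat_lit 554) (nat_lit 553) (nat_lit 1545) (.f (nat_lit 557) (nat_lit 589) (nat_lit 7628) (.f (nat_lit 586) (nat_lit 618) (nat_lit 6634) (.d (nat_lit 585) (nat_lit 556) (nat_lit 1577) (nat_lit 617) (nat_lit 5609)))))))))))))))))))) (.a (.p (nat_lit 556) (.a (.f (nat_lit 588) (nat_lit 459) (nat_lit 7627) (.d (nat_lit 620) (nat_lit 523) (nat_lit 7659) (nat_lit 525) (nat_lit 6636))) (.a (.p (nat_lit 525) (.a (.d (nat_lit 526) (nat_lit 490) (nat_lit 490) (nat_lit 527) (nat_lit 3563)) (.f (nat_lit 588) (nat_lit 620) (nat_lit 6636) (.f (nat_lit 589) (nat_lit 621) (nat_lit 4588) (.f (nat_lit 460) (nat_lit 557) (nat_lit 4556) (.d (nat_lit 587) (nat_lit 555) (nat_lit 5579) (nat_lit 619) (nat_lit 5611))))))) (.a (.f (nat_lit 588) (nat_lit 459) (nat_lit 7627) (.f (nat_lit 587) (nat_lit 619) (nat_lit 5611) (.f (nat_lit 555) (nat_lit 460) (nat_lit 5579) (.f (nat_lit 589) (nat_lit 621) (nat_lit 4588) (.d (nat_lit 590) (nat_lit 554) (nat_lit 3626) (nat_lit 591) (nat_lit 3627)))))) (.p (nat_lit 460) (.a (.f (nat_lit 459) (nat_lit 427) (nat_lit 7595) (.f (nat_lit 555) (nat_lit 587) (nat_lit 5579) (.f (nat_lit 428) (nat_lit 523) (nat_lit 5547) (.d (nat_lit 396) (nat_lit 364) (nat_lit 5483) (nat_lit 525) (nat_lit 4492))))) (.a (.f (nat_lit 459) (nat_lit 427) (nat_lit 7595) (.f (nat_lit 555) (nat_lit 587) (nat_lit 5579) (.f (nat_lit 523) (nat_lit 428) (nat_lit 5547) (.d (nat_lit 458) (nat_lit 426) (nat_lit 7594) (nat_lit 457) (nat_lit 457))))) (.a (.f (nat_lit 555) (nat_lit 587) (nat_lit 5579) (.f (nat_lit 428) (nat_lit 523) (nat_lit 5547) (.d (nat_lit 525) (nat_lit 396) (nat_lit 4492) (nat_lit 557) (nat_lit 4524)))) (.a (.f (nat_lit 459) (nat_lit 427) (nat_lit 7595) (.f (nat_lit 555) (nat_lit 587) (nat_lit 5579) (.f (nat_lit 458) (nat_lit 457) (nat_lit 457) (.f (nat_lit 523) (nat_lit 426) (nat_lit 7594) (.f (nat_lit 554) (nat_lit 586) (nat_lit 5578) (.d (nat_lit 525) (nat_lit 526) (nat_lit 1546) (nat_lit 553) (nat_lit 2569))))))) (.f (nat_lit 557) (nat_lit 589) (nat_lit 4556) (.f (nat_lit 525) (nat_lit 428) (nat_lit 4524) (.d (nat_lit 526) (nat_lit 490) (nat_lit 490) (nat_lit 527) (nat_lit 3564))))))))))))) (.a (.p (nat_lit 556) (.a (.f (nat_lit 588) (nat_lit 459) (nat_lit 7627) (.d (nat_lit 620) (nat_lit 523) (nat_lit 7659) (nat_lit 525) (nat_lit 6636))) (.a (.p (nat_lit 588) (.a (.d (nat_lit 620) (nat_lit 523) (nat_lit 7659) (nat_lit 525) (nat_lit 6636)) (.f (nat_lit 589) (nat_lit 621) (nat_lit 4588) (.f (nat_lit 460) (nat_lit 557) (nat_lit 4556) (.d (nat_lit 587) (nat_lit 555) (nat_lit 5579) (nat_lit 619) (nat_lit 5611)))))) (.a (.f (nat_lit 588) (nat_lit 459) (nat_lit 7627) (.f (nat_lit 587) (nat_lit 619) (nat_lit 5611) (.f (nat_lit 555) (nat_lit 460) (nat_lit 5579) (.f (nat_lit 589) (nat_lit 621) (nat_lit 4588) (.d (nat_lit 590) (nat_lit 554) (nat_lit 3626) (nat_lit 591) (nat_lit 3627)))))) (.p (nat_lit 460) (.a (.f (nat_lit 459) (nat_lit 427) (nat_lit 7595) (.f (nat_lit 555) (nat_lit 587) (nat_lit 5579) (.f (nat_lit 428) (nat_lit 523) (nat_lit 5547) (.d (nat_lit 396) (nat_lit 364) (nat_lit 5483) (nat_lit 525) (nat_lit 4492))))) (.a (.f (nat_lit 459) (nat_lit 427) (nat_lit 7595) (.f (nat_lit 555) (nat_lit 587) (nat_lit 5579) (.f (nat_lit 523) (nat_lit 428) (nat_lit 5547) (.d (nat_lit 458) (nat_lit 426) (nat_lit 7594) (nat_lit 457) (nat_lit 457))))) (.a (.f (nat_lit 555) (nat_lit 587) (nat_lit 5579) (.f (nat_lit 428) (nat_lit 523) (nat_lit 5547) (.d (nat_lit 525) (nat_lit 396) (nat_lit 4492) (nat_lit 557) (nat_lit 4524)))) (.a (.f (nat_lit 459) (nat_lit 427) (nat_lit 7595) (.f (nat_lit 555) (nat_lit 587) (nat_lit 5579) (.f (nat_lit 458) (nat_lit 457) (nat_lit 457) (.f (nat_lit 523) (nat_lit 426) (nat_lit 7594) (.f (nat_lit 554) (nat_lit 586) (nat_lit 5578) (.d (nat_lit 525) (nat_lit 526) (nat_lit 1546) (nat_lit 553) (nat_lit 2569))))))) (.a (.f (nat_lit 557) (nat_lit 589) (nat_lit 4556) (.f (nat_lit 525) (nat_lit 428) (nat_lit 4524) (.f (nat_lit 526) (nat_lit 527) (nat_lit 3564) (.d (nat_lit 555) (nat_lit 554) (nat_lit 2570) (nat_lit 587) (nat_lit 5579))))) (.f (nat_lit 459) (nat_lit 427) (nat_lit 7595) (.f (nat_lit 557) (nat_lit 589) (nat_lit 4556) (.f (nat_lit 428) (nat_lit 525) (nat_lit 4524) (.d (nat_lit 396) (nat_lit 364) (nat_lit 5483) (nat_lit 523) (nat_lit 5515))))))))))))))) (.a (.p (nat_lit 490) (.a (.d (nat_lit 525) (nat_lit 489) (nat_lit 489) (nat_lit 526) (nat_lit 490)) (.a (.p (nat_lit 459) (.a (.f (nat_lit 427) (nat_lit 395) (nat_lit 4491) (.d (nat_lit 556) (nat_lit 460) (nat_lit 7595) (nat_lit 588) (nat_lit 7627))) (.a (.f (nat_lit 525) (nat_lit 526) (nat_lit 490) (.f (nat_lit 556) (nat_lit 588) (nat_lit 7627) (.f (nat_lit 460) (nat_lit 427) (nat_lit 7595) (.d (nat_lit 428) (nat_lit 396) (nat_lit 4492) (nat_lit 557) (nat_lit 4524))))) (.a (.f (nat_lit 525) (nat_lit 526) (nat_lit 490) (.f (nat_lit 458) (nat_lit 457) (nat_lit 3529) (.f (nat_lit 556) (nat_lit 588) (nat_lit 7627) (.f (nat_lit 522) (nat_lit 521) (nat_lit 1513) (.f (nat_lit 554) (nat_lit 586) (nat_lit 6602) (.d (nat_lit 553) (nat_lit 555) (nat_lit 2569) (nat_lit 585) (nat_lit 5577))))))) (.f (nat_lit 458) (nat_lit 457) (nat_lit 3529) (.f (nat_lit 522) (nat_lit 521) (nat_lit 1513) (.d (nat_lit 427) (nat_lit 395) (nat_lit 4491) (nat_lit 554) (nat_lit 6570)))))))) (.f (nat_lit 521) (nat_lit 522) (nat_lit 1513) (.f (nat_lit 489) (nat_lit 520) (nat_lit 1512) (.d (nat_lit 457) (nat_lit 456) (nat_lit 3528) (nat_lit 458) (nat_lit 3529))))))) (.a (.p (nat_lit 459) (.a (.f (nat_lit 427) (nat_lit 395) (nat_lit 4491) (.d (nat_lit 556) (nat_lit 523) (nat_lit 4523) (nat_lit 588) (nat_lit 7627))) (.a (.f (nat_lit 556) (nat_lit 588) (nat_lit 7627) (.d (nat_lit 427) (nat_lit 460) (nat_lit 7595) (nat_lit 523) (nat_lit 4523))) (.a (.p (nat_lit 490) (.a (.f (nat_lit 458) (nat_lit 457) (nat_lit 3529) (.f (nat_lit 522) (nat_lit 521) (nat_lit 1513) (.f (nat_lit 554) (nat_lit 586) (nat_lit 6602) (.f (nat_lit 555) (nat_lit 587) (nat_lit 4554) (.f (nat_lit 523) (nat_lit 426) (nat_lit 4522) (.d (nat_lit 553) (nat_lit 552) (nat_lit 2568) (nat_lit 585) (nat_lit 5577))))))) (.a (.f (nat_lit 457) (nat_lit 458) (nat_lit 3529) (.f (nat_lit 489) (nat_lit 456) (nat_lit 3528) (.d (nat_lit 488) (nat_lit 460) (nat_lit 2504) (nat_lit 523) (nat_lit 488)))) (.a (.f (nat_lit 521) (nat_lit 522) (nat_lit 1513) (.f (nat_lit 489) (nat_lit 520) (nat_lit 1512) (.d (nat_lit 488) (nat_lit 460) (nat_lit 2504) (nat_lit 523) (nat_lit 488)))) (.f (nat_lit 457) (nat_lit 458) (nat_lit 3529) (.f (nat_lit 489) (nat_lit 456) (nat_lit 3528) (.d (nat_lit 521) (nat_lit 520) (nat_lit 1512) (nat_lit 522) (nat_lit 1513)))))))) (.f (nat_lit 427) (nat_lit 395) (nat_lit 4491) (.d (nat_lit 556) (nat_lit 460) (nat_lit 7595) (nat_lit 588) (nat_lit 7627))))))) (.a (.p (nat_lit 490) (.a (.d (nat_lit 525) (nat_lit 489) (nat_lit 489) (nat_lit 526) (nat_lit 490)) (.p (nat_lit 459) (.a (.f (nat_lit 427) (nat_lit 395) (nat_lit 4491) (.d (nat_lit 556) (nat_lit 523) (nat_lit 4523) (nat_lit 588) (nat_lit 7627))) (.a (.f (nat_lit 556) (nat_lit 588) (nat_lit 7627) (.d (nat_lit 427) (nat_lit 460) (nat_lit 7595) (nat_lit 523) (nat_lit 4523))) (.a (.f (nat_lit 458) (nat_lit 457) (nat_lit 3529) (.f (nat_lit 522) (nat_lit 521) (nat_lit 1513) (.f (nat_lit 554) (nat_lit 586) (nat_lit 6602) (.f (nat_lit 555) (nat_lit 587) (nat_lit 4554) (.f (nat_lit 426) (nat_lit 523) (nat_lit 4522) (.f (nat_lit 394) (nat_lit 362) (nat_lit 4458) (.d (nat_lit 393) (nat_lit 361) (nat_lit 7529) (nat_lit 425) (nat_lit 7561)))))))) (.f (nat_lit 427) (nat_lit 395) (nat_lit 4491) (.d (nat_lit 556) (nat_lit 460) (nat_lit 7595) (nat_lit 588) (nat_lit 7627))))))))) (.a (.p (nat_lit 555) (.a (.p (nat_lit 587) (.a (.d (nat_lit 460) (nat_lit 523) (nat_lit 6603) (nat_lit 556) (nat_lit 5579)) (.a (.f (nat_lit 523) (nat_lit 619) (nat_lit 6635) (.f (nat_lit 490) (nat_lit 458) (nat_lit 7626) (.d (nat_lit 489) (nat_lit 488) (nat_lit 488) (nat_lit 525) (nat_lit 489)))) (.f (nat_lit 556) (nat_lit 460) (nat_lit 5579) (.d (nat_lit 619) (nat_lit 588) (nat_lit 5611) (nat_lit 651) (nat_lit 6667)))))) (.a (.p (nat_lit 587) (.a (.d (nat_lit 460) (nat_lit 523) (nat_lit 6603) (nat_lit 556) (nat_lit 5579)) (.a (.f (nat_lit 619) (nat_lit 523) (nat_lit 6635) (.d (nat_lit 556) (nat_lit 588) (nat_lit 5611) (nat_lit 651) (nat_lit 6667))) (.a (.f (nat_lit 556) (nat_lit 460) (nat_lit 5579) (.d (nat_lit 619) (nat_lit 588) (nat_lit 5611) (nat_lit 651) (nat_lit 6667))) (.d (nat_lit 523) (nat_lit 460) (nat_lit 6603) (nat_lit 619) (nat_lit 6635)))))) (.a (.p (nat_lit 490) (.a (.d (nat_lit 525) (nat_lit 489) (nat_lit 489) (nat_lit 526) (nat_lit 490)) (.f (nat_lit 458) (nat_lit 457) (nat_lit 3529) (.f (nat_lit 523) (nat_lit 587) (nat_lit 7626) (.d (nat_lit 426) (nat_lit 394) (nat_lit 4490) (nat_lit 459) (nat_lit 7594)))))) (.a (.p (nat_lit 556) (.a (.f (nat_lit 460) (nat_lit 587) (nat_lit 5579) (.d (nat_lit 459) (nat_lit 427) (nat_lit 7595) (nat_lit 588) (nat_lit 7627))) (.a (.f (nat_lit 588) (nat_lit 459) (nat_lit 7627) (.d (nat_lit 587) (nat_lit 460) (nat_lit 5579) (nat_lit 619) (nat_lit 5611))) (.a (.f (nat_lit 460) (nat_lit 587) (nat_lit 5579) (.f (nat_lit 557) (nat_lit 589) (nat_lit 4556) (.f (nat_lit 525) (nat_lit 428) (nat_lit 4524) (.d (nat_lit 490) (nat_lit 489) (nat_lit 489) (nat_lit 526) (nat_lit 490))))) (.f (nat_lit 588) (nat_lit 459) (nat_lit 7627) (.f (nat_lit 525) (nat_lit 620) (nat_lit 6636) (.d (nat_lit 490) (nat_lit 489) (nat_lit 489) (nat_lit 526) (nat_lit 490)))))))) (.p (nat_lit 490) (.a (.d (nat_lit 525) (nat_lit 489) (nat_lit 489) (nat_lit 526) (nat_lit 490)) (.f (nat_lit 522) (nat_lit 521) (nat_lit 1513) (.f (nat_lit 458) (nat_lit 457) (nat_lit 3529) (.f (nat_lit 426) (nat_lit 523) (nat_lit 4522) (.f (nat_lit 395) (nat_lit 427) (nat_lit 6538) (.f (nat_lit 394) (nat_lit 363) (nat_lit 6506) (.d (nat_lit 393) (nat_lit 361) (nat_lit 7529) (nat_lit 425) (nat_lit 7561)))))))))))))) (.p (nat_lit 490) (.a (.d (nat_lit 525) (nat_lit 489) (nat_lit 489) (nat_lit 526) (nat_lit 490)) (.a (.p (nat_lit 459) (.a (.f (nat_lit 427) (nat_lit 395) (nat_lit 4491) (.d (nat_lit 556) (nat_lit 523) (nat_lit 4523) (nat_lit 588) (nat_lit 7627))) (.a (.f (nat_lit 556) (nat_lit 588) (nat_lit 7627) (.d (nat_lit 427) (nat_lit 460) (nat_lit 7595) (nat_lit 523) (nat_lit 4523))) (.a (.f (nat_lit 525) (nat_lit 526) (nat_lit 490) (.f (nat_lit 522) (nat_lit 521) (nat_lit 1513) (.f (nat_lit 458) (nat_lit 457) (nat_lit 3529) (.f (nat_lit 554) (nat_lit 586) (nat_lit 6602) (.d (nat_lit 553) (nat_lit 523) (nat_lit 1545) (nat_lit 585) (nat_lit 5577)))))) (.f (nat_lit 427) (nat_lit 395) (nat_lit 4491) (.d (nat_lit 556) (nat_lit 460) (nat_lit 7595) (nat_lit 588) (nat_lit 7627))))))) (.f (nat_lit 521) (nat_lit 522) (nat_lit 1513) (.f (nat_lit 489) (nat_lit 520) (nat_lit 1512) (.d (nat_lit 457) (nat_lit 456) (nat_lit 3528) (nat_lit 458) (nat_lit 3529))))))))))))))))))))))))))))))))))))))))))) (.a (.f (nat_lit 493) (nat_lit 461) (nat_lit 1484) (.d (nat_lit 494) (nat_lit 491) (nat_lit 2507) (nat_lit 495) (nat_lit 2508))) (.a (.f (nat_lit 493) (nat_lit 461) (nat_lit 1484) (.d (nat_lit 494) (nat_lit 465) (nat_lit 1485) (nat_lit 495) (nat_lit 2508))) (.a (.p (nat_lit 460) (.a (.f (nat_lit 461) (nat_lit 491) (nat_lit 1483) (.d (nat_lit 428) (nat_lit 427) (nat_lit 3499) (nat_lit 429) (nat_lit 3500))) (.a (.p (nat_lit 428) (.a (.d (nat_lit 461) (nat_lit 429) (nat_lit 3500) (nat_lit 491) (nat_lit 1483)) (.a (.f (nat_lit 491) (nat_lit 461) (nat_lit 1483) (.f (nat_lit 396) (nat_lit 523) (nat_lit 5515) (.f (nat_lit 364) (nat_lit 459) (nat_lit 5483) (.d (nat_lit 365) (nat_lit 333) (nat_lit 6476) (nat_lit 397) (nat_lit 6508))))) (.a (.p (nat_lit 524) (.a (.f (nat_lit 525) (nat_lit 557) (nat_lit 4524) (.f (nat_lit 523) (nat_lit 555) (nat_lit 5547) (.f (nat_lit 491) (nat_lit 396) (nat_lit 5515) (.d (nat_lit 526) (nat_lit 490) (nat_lit 3562) (nat_lit 527) (nat_lit 3563))))) (.a (.f (nat_lit 555) (nat_lit 523) (nat_lit 5547) (.f (nat_lit 556) (nat_lit 587) (nat_lit 5579) (.d (nat_lit 557) (nat_lit 525) (nat_lit 4524) (nat_lit 589) (nat_lit 4556)))) (.a s67117 (.f (nat_lit 523) (nat_lit 555) (nat_lit 5547) (.f (nat_lit 396) (nat_lit 491) (nat_lit 5515) (.d (nat_lit 397) (nat_lit 365) (nat_lit 6508) (nat_lit 429) (nat_lit 6540)))))))) (.f (nat_lit 429) (nat_lit 461) (nat_lit 3500) (.f (nat_lit 524) (nat_lit 397) (nat_lit 6540) (.f (nat_lit 557) (nat_lit 525) (nat_lit 4524) (.f (nat_lit 556) (nat_lit 589) (nat_lit 4556) (.d (nat_lit 555) (nat_lit 523) (nat_lit 5547) (nat_lit 587) (nat_lit 5579)))))))))) (.a (.p (nat_lit 524) (.a (.f (nat_lit 461) (nat_lit 491) (nat_lit 1483) (.f (nat_lit 556) (nat_lit 429) (nat_lit 6572) (.f (nat_lit 459) (nat_lit 427) (nat_lit 7595) (.f (nat_lit 557) (nat_lit 589) (nat_lit 4556) (.f (nat_lit 555) (nat_lit 587) (nat_lit 5579) (.f (nat_lit 495) (nat_lit 494) (nat_lit 459) (.f (nat_lit 527) (nat_lit 431) (nat_lit 4527) (.d (nat_lit 558) (nat_lit 526) (nat_lit 2571) (nat_lit 559) (nat_lit 2572))))))))) (.a (.f (nat_lit 461) (nat_lit 491) (nat_lit 1483) (.f (nat_lit 556) (nat_lit 429) (nat_lit 6572) (.f (nat_lit 587) (nat_lit 555) (nat_lit 5579) (.f (nat_lit 588) (nat_lit 619) (nat_lit 5611) (.d (nat_lit 589) (nat_lit 557) (nat_lit 4556) (nat_lit 621) (nat_lit 4588)))))) (.a (.p (nat_lit 556) (.a (.f (nat_lit 589) (nat_lit 557) (nat_lit 4556) (.f (nat_lit 588) (nat_lit 621) (nat_lit 4588) (.d (nat_lit 587) (nat_lit 555) (nat_lit 5579) (nat_lit 619) (nat_lit 5611)))) (.a (.f (nat_lit 491) (nat_lit 461) (nat_lit 1483) (.d (nat_lit 459) (nat_lit 427) (nat_lit 7595) (nat_lit 588) (nat_lit 7627))) (.f (nat_lit 557) (nat_lit 589) (nat_lit 4556) (.f (nat_lit 555) (nat_lit 587) (nat_lit 5579) (.f (nat_lit 459) (nat_lit 427) (nat_lit 7595) (.f (nat_lit 461) (nat_lit 491) (nat_lit 1483) (.f (nat_lit 495) (nat_lit 494) (nat_lit 459) (.f (nat_lit 527) (nat_lit 431) (nat_lit 4527) (.d (nat_lit 558) (nat_lit 526) (nat_lit 2571) (nat_lit 559) (nat_lit 2572))))))))))) (.a s67161 (.a (.p (nat_lit 556) (.a (.f (nat_lit 589) (nat_lit 557) (nat_lit 4556) (.f (nat_lit 588) (nat_lit 621) (nat_lit 4588) (.d (nat_lit 587) (nat_lit 555) (nat_lit 5579) (nat_lit 619) (nat_lit 5611)))) (.a s67184 (.a s67206 (.a (.f (nat_lit 557) (nat_lit 589) (nat_lit 4556) (.f (nat_lit 459) (nat_lit 427) (nat_lit 7595) (.f (nat_lit 461) (nat_lit 429) (nat_lit 6572) (.f (nat_lit 495) (nat_lit 494) (nat_lit 459) (.f (nat_lit 527) (nat_lit 431) (nat_lit 4527) (.f (nat_lit 558) (nat_lit 559) (nat_lit 2572) (.d (nat_lit 526) (nat_lit 525) (nat_lit 1548) (nat_lit 555) (nat_lit 2571)))))))) (.f (nat_lit 555) (nat_lit 587) (nat_lit 5579) (.f (nat_lit 459) (nat_lit 427) (nat_lit 7595) (.f (nat_lit 461) (nat_lit 429) (nat_lit 6572) (.f (nat_lit 495) (nat_lit 494) (nat_lit 459) (.f (nat_lit 527) (nat_lit 431) (nat_lit 4527) (.f (nat_lit 526) (nat_lit 525) (nat_lit 1547) (.f (nat_lit 558) (nat_lit 557) (nat_lit 2571) (.d (nat_lit 590) (nat_lit 559) (nat_lit 5582) (nat_lit 622) (nat_lit 6638)))))))))))))) (.a (.p (nat_lit 556) (.a (.f (nat_lit 491) (nat_lit 461) (nat_lit 1483) (.d (nat_lit 459) (nat_lit 427) (nat_lit 7595) (nat_lit 588) (nat_lit 7627))) (.a (.d (nat_lit 461) (nat_lit 429) (nat_lit 6572) (nat_lit 491) (nat_lit 1483)) (.a (.f (nat_lit 557) (nat_lit 589) (nat_lit 4556) (.f (nat_lit 459) (nat_lit 427) (nat_lit 7595) (.f (nat_lit 588) (nat_lit 491) (nat_lit 7627) (.f (nat_lit 619) (nat_lit 587) (nat_lit 5611) (.f (nat_lit 620) (nat_lit 651) (nat_lit 5643) (.f (nat_lit 525) (nat_lit 652) (nat_lit 6668) (.f (nat_lit 558) (nat_lit 559) (nat_lit 3596) (.f (nat_lit 526) (nat_lit 527) (nat_lit 1548) (.f (nat_lit 494) (nat_lit 431) (nat_lit 6574) (.d (nat_lit 523) (nat_lit 495) (nat_lit 2539) (nat_lit 522) (nat_lit 522))))))))))) s67184)))) (.a (.p (nat_lit 526) (.a (.f (nat_lit 491) (nat_lit 461) (nat_lit 1483) (.f (nat_lit 525) (nat_lit 527) (nat_lit 3563) (.d (nat_lit 490) (nat_lit 489) (nat_lit 489) (nat_lit 523) (nat_lit 3562)))) (.a (.p (nat_lit 525) (.a (.d (nat_lit 527) (nat_lit 559) (nat_lit 524) (nat_lit 561) (nat_lit 525)) (.a (.p (nat_lit 523) (.a (.f (nat_lit 558) (nat_lit 559) (nat_lit 523) (.d (nat_lit 494) (nat_lit 431) (nat_lit 6574) (nat_lit 495) (nat_lit 2539))) (.a (.f (nat_lit 558) (nat_lit 559) (nat_lit 523) (.f (nat_lit 494) (nat_lit 495) (nat_lit 2539) (.d (nat_lit 557) (nat_lit 522) (nat_lit 522) (nat_lit 589) (nat_lit 5581)))) (.f (nat_lit 491) (nat_lit 490) (nat_lit 3562) (.d (nat_lit 555) (nat_lit 554) (nat_lit 1546) (nat_lit 587) (nat_lit 6603)))))) (.d (nat_lit 527) (nat_lit 491) (nat_lit 3563) (nat_lit 561) (nat_lit 525))))) (.a (.p (nat_lit 527) (.a (.d (nat_lit 525) (nat_lit 559) (nat_lit 524) (nat_lit 561) (nat_lit 525)) (.f (nat_lit 495) (nat_lit 431) (nat_lit 4527) (.f (nat_lit 461) (nat_lit 491) (nat_lit 1483) (.f (nat_lit 494) (nat_lit 459) (nat_lit 459) (.d (nat_lit 558) (nat_lit 429) (nat_lit 7597) (nat_lit 590) (nat_lit 6606))))))) (.a (.p (nat_lit 525) (.a (.d (nat_lit 527) (nat_lit 559) (nat_lit 524) (nat_lit 561) (nat_lit 525)) (.a (.p (nat_lit 558) (.a (.d (nat_lit 559) (nat_lit 557) (nat_lit 3596) (nat_lit 561) (nat_lit 3597)) (.a (.d (nat_lit 559) (nat_lit 523) (nat_lit 523) (nat_lit 561) (nat_lit 3597)) (.f (nat_lit 494) (nat_lit 431) (nat_lit 6574) (.d (nat_lit 495) (nat_lit 523) (nat_lit 2539) (nat_lit 590) (nat_lit 6606)))))) (.a (.f (nat_lit 527) (nat_lit 561) (nat_lit 525) (.f (nat_lit 495) (nat_lit 431) (nat_lit 4527) (.f (nat_lit 494) (nat_lit 523) (nat_lit 2539) (.f (nat_lit 558) (nat_lit 590) (nat_lit 6606) (.d (nat_lit 461) (nat_lit 429) (nat_lit 7597) (nat_lit 459) (nat_lit 459)))))) (.f (nat_lit 559) (nat_lit 527) (nat_lit 524) (.d (nat_lit 558) (nat_lit 523) (nat_lit 523) (nat_lit 557) (nat_lit 3596))))))) (.a (.p (nat_lit 494) (.a (.f (nat_lit 558) (nat_lit 431) (nat_lit 6574) (.d (nat_lit 461) (nat_lit 429) (nat_lit 7597) (nat_lit 491) (nat_lit 1483))) (.a (.f (nat_lit 558) (nat_lit 431) (nat_lit 6574) (.f (nat_lit 590) (nat_lit 495) (nat_lit 6606) (.d (nat_lit 589) (nat_lit 557) (nat_lit 5581) (nat_lit 621) (nat_lit 5613)))) (.a (.f (nat_lit 461) (nat_lit 491) (nat_lit 1483) (.f (nat_lit 558) (nat_lit 429) (nat_lit 7597) (.d (nat_lit 495) (nat_lit 459) (nat_lit 459) (nat_lit 590) (nat_lit 6606)))) (.f (nat_lit 461) (nat_lit 491) (nat_lit 1483) (.f (nat_lit 495) (nat_lit 459) (nat_lit 459) (.d (nat_lit 431) (nat_lit 399) (nat_lit 5518) (nat_lit 527) (nat_lit 4527)))))))) (.p (nat_lit 558) (.a (.f (nat_lit 494) (nat_lit 431) (nat_lit 6574) (.d (nat_lit 461) (nat_lit 429) (nat_lit 7597) (nat_lit 491) (nat_lit 1483))) (.a (.f (nat_lit 494) (nat_lit 431) (nat_lit 6574) (.f (nat_lit 559) (nat_lit 591) (nat_lit 4558) (.d (nat_lit 525) (nat_lit 523) (nat_lit 523) (nat_lit 561) (nat_lit 3597)))) (.a (.f (nat_lit 461) (nat_lit 491) (nat_lit 1483) (.f (nat_lit 494) (nat_lit 429) (nat_lit 7597) (.d (nat_lit 495) (nat_lit 459) (nat_lit 459) (nat_lit 590) (nat_lit 6606)))) (.p (nat_lit 525) (.a (.d (nat_lit 559) (nat_lit 557) (nat_lit 3596) (nat_lit 561) (nat_lit 3597)) (.a (.d (nat_lit 559) (nat_lit 523) (nat_lit 523) (nat_lit 561) (nat_lit 3597)) (.f (nat_lit 491) (nat_lit 461) (nat_lit 1483) (.d (nat_lit 490) (nat_lit 489) (nat_lit 489) (nat_lit 523) (nat_lit 3562)))))))))))))))) (.a (.p (nat_lit 556) (.a (.f (nat_lit 587) (nat_lit 555) (nat_lit 5579) (.f (nat_lit 588) (nat_lit 619) (nat_lit 5611) (.d (nat_lit 459) (nat_lit 427) (nat_lit 7595) (nat_lit 491) (nat_lit 7627)))) (.a (.d (nat_lit 461) (nat_lit 429) (nat_lit 6572) (nat_lit 491) (nat_lit 1483)) s67206))) (.a (.f (nat_lit 461) (nat_lit 491) (nat_lit 1483) (.f (nat_lit 556) (nat_lit 429) (nat_lit 6572) (.f (nat_lit 459) (nat_lit 427) (nat_lit 7595) (.f (nat_lit 557) (nat_lit 589) (nat_lit 4556) (.f (nat_lit 495) (nat_lit 494) (nat_lit 459) (.f (nat_lit 527) (nat_lit 431) (nat_lit 4527) (.f (nat_lit 558) (nat_lit 559) (nat_lit 2572) (.d (nat_lit 526) (nat_lit 525) (nat_lit 1548) (nat_lit 555) (nat_lit 2571))))))))) (.f (nat_lit 461) (nat_lit 491) (nat_lit 1483) (.f (nat_lit 556) (nat_lit 429) (nat_lit 6572) (.f (nat_lit 459) (nat_lit 427) (nat_lit 7595) (.f (nat_lit 555) (nat_lit 587) (nat_lit 5579) (.f (nat_lit 495) (nat_lit 494) (nat_lit 459) (.f (nat_lit 527) (nat_lit 431) (nat_lit 4527) (.f (nat_lit 526) (nat_lit 525) (nat_lit 1547) (.f (nat_lit 558) (nat_lit 557) (nat_lit 2571) (.d (nat_lit 590) (nat_lit 559) (nat_lit 5582) (nat_lit 622) (nat_lit 6638)))))))))))))))))))) (.a (.p (nat_lit 428) (.a (.f (nat_lit 491) (nat_lit 461) (nat_lit 1483) (.f (nat_lit 396) (nat_lit 523) (nat_lit 5515) (.f (nat_lit 364) (nat_lit 459) (nat_lit 5483) (.d (nat_lit 365) (nat_lit 333) (nat_lit 6476) (nat_lit 397) (nat_lit 6508))))) (.a (.d (nat_lit 461) (nat_lit 427) (nat_lit 3499) (nat_lit 491) (nat_lit 1483)) (.a (.p (nat_lit 524) (.a (.f (nat_lit 525) (nat_lit 557) (nat_lit 4524) (.f (nat_lit 523) (nat_lit 555) (nat_lit 5547) (.f (nat_lit 491) (nat_lit 396) (nat_lit 5515) (.d (nat_lit 526) (nat_lit 490) (nat_lit 3562) (nat_lit 527) (nat_lit 3563))))) (.a (.f (nat_lit 555) (nat_lit 523) (nat_lit 5547) (.f (nat_lit 556) (nat_lit 587) (nat_lit 5579) (.d (nat_lit 557) (nat_lit 525) (nat_lit 4524) (nat_lit 589) (nat_lit 4556)))) (.a (.f (nat_lit 427) (nat_lit 395) (nat_lit 7563) (.f (nat_lit 556) (nat_lit 459) (nat_lit 7595) (.d (nat_lit 557) (nat_lit 525) (nat_lit 4524) (nat_lit 589) (nat_lit 4556)))) (.f (nat_lit 523) (nat_lit 555) (nat_lit 5547) (.f (nat_lit 396) (nat_lit 491) (nat_lit 5515) (.d (nat_lit 395) (nat_lit 363) (nat_lit 7531) (nat_lit 427) (nat_lit 7563)))))))) (.f (nat_lit 427) (nat_lit 461) (nat_lit 3499) (.f (nat_lit 524) (nat_lit 395) (nat_lit 7563) (.f (nat_lit 556) (nat_lit 459) (nat_lit 7595) (.d (nat_lit 555) (nat_lit 523) (nat_lit 5547) (nat_lit 587) (nat_lit 5579))))))))) (.a (.p (nat_lit 524) (.a s67161 (.a (.p (nat_lit 428) (.a (.f (nat_lit 525) (nat_lit 557) (nat_lit 4524) (.f (nat_lit 523) (nat_lit 555) (nat_lit 5547) (.f (nat_lit 491) (nat_lit 396) (nat_lit 5515) (.d (nat_lit 526) (nat_lit 490) (nat_lit 3562) (nat_lit 527) (nat_lit 3563))))) (.a (.f (nat_lit 555) (nat_lit 523) (nat_lit 5547) (.f (nat_lit 556) (nat_lit 587) (nat_lit 5579) (.d (nat_lit 557) (nat_lit 525) (nat_lit 4524) (nat_lit 589) (nat_lit 4556)))) (.a s67117 (.f (nat_lit 523) (nat_lit 555) (nat_lit 5547) (.f (nat_lit 396) (nat_lit 491) (nat_lit 5515) (.d (nat_lit 397) (nat_lit 365) (nat_lit 6508) (nat_lit 429) (nat_lit 6540)))))))) (.a (.p (nat_lit 428) (.a (.f (nat_lit 525) (nat_lit 557) (nat_lit 4524) (.f (nat_lit 523) (nat_lit 555) (nat_lit 5547) (.f (nat_lit 491) (nat_lit 396) (nat_lit 5515) (.d (nat_lit 526) (nat_lit 490) (nat_lit 3562) (nat_lit 527) (nat_lit 3563))))) (.a (.f (nat_lit 555) (nat_lit 523) (nat_lit 5547) (.f (nat_lit 556) (nat_lit 587) (nat_lit 5579) (.d (nat_lit 557) (nat_lit 525) (nat_lit 4524) (nat_lit 589) (nat_lit 4556)))) (.a (.f (nat_lit 427) (nat_lit 395) (nat_lit 7563) (.f (nat_lit 556) (nat_lit 459) (nat_lit 7595) (.d (nat_lit 557) (nat_lit 525) (nat_lit 4524) (nat_lit 589) (nat_lit 4556)))) (.f (nat_lit 523) (nat_lit 555) (nat_lit 5547) (.f (nat_lit 396) (nat_lit 491) (nat_lit 5515) (.d (nat_lit 397) (nat_lit 365) (nat_lit 6508) (nat_lit 429) (nat_lit 6540)))))))) (.a (.p (nat_lit 428) (.a (.f (nat_lit 525) (nat_lit 557) (nat_lit 4524) (.f (nat_lit 523) (nat_lit 555) (nat_lit 5547) (.f (nat_lit 491) (nat_lit 396) (nat_lit 5515) (.d (nat_lit 526) (nat_lit 490) (nat_lit 3562) (nat_lit 527) (nat_lit 3563))))) (.a (.f (nat_lit 555) (nat_lit 523) (nat_lit 5547) (.f (nat_lit 556) (nat_lit 587) (nat_lit 5579) (.d (nat_lit 557) (nat_lit 525) (nat_lit 4524) (nat_lit 589) (nat_lit 4556)))) (.f (nat_lit 395) (nat_lit 427) (nat_lit 7563) (.f (nat_lit 396) (nat_lit 363) (nat_lit 7531) (.d (nat_lit 397) (nat_lit 365) (nat_lit 6508) (nat_lit 429) (nat_lit 6540))))))) (.a (.p (nat_lit 428) (.a (.f (nat_lit 555) (nat_lit 523) (nat_lit 5547) (.f (nat_lit 556) (nat_lit 587) (nat_lit 5579) (.d (nat_lit 557) (nat_lit 525) (nat_lit 4524) (nat_lit 589) (nat_lit 4556)))) (.a (.f (nat_lit 427) (nat_lit 395) (nat_lit 7563) (.f (nat_lit 556) (nat_lit 459) (nat_lit 7595) (.d (nat_lit 557) (nat_lit 525) (nat_lit 4524) (nat_lit 589) (nat_lit 4556)))) (.f (nat_lit 395) (nat_lit 427) (nat_lit 7563) (.f (nat_lit 396) (nat_lit 363) (nat_lit 7531) (.d (nat_lit 397) (nat_lit 365) (nat_lit 6508) (nat_lit 429) (nat_lit 6540))))))) (.a (.p (nat_lit 556) (.a (.f (nat_lit 589) (nat_lit 557) (nat_lit 4556) (.f (nat_lit 588) (nat_lit 621) (nat_lit 4588) (.d (nat_lit 587) (nat_lit 555) (nat_lit 5579) (nat_lit 619) (nat_lit 5611)))) (.a (.f (nat_lit 557) (nat_lit 589) (nat_lit 4556) (.f (nat_lit 525) (nat_lit 428) (nat_lit 4524) (.f (nat_lit 527) (nat_lit 526) (nat_lit 1548) (.f (nat_lit 559) (nat_lit 558) (nat_lit 3596) (.f (nat_lit 495) (nat_lit 431) (nat_lit 4527) (.f (nat_lit 591) (nat_lit 494) (nat_lit 7630) (.f (nat_lit 623) (nat_lit 655) (nat_lit 6671) (.d (nat_lit 622) (nat_lit 590) (nat_lit 5614) (nat_lit 654) (nat_lit 5646))))))))) (.f (nat_lit 587) (nat_lit 555) (nat_lit 5579) (.f (nat_lit 588) (nat_lit 619) (nat_lit 5611) (.d (nat_lit 459) (nat_lit 427) (nat_lit 7595) (nat_lit 491) (nat_lit 7627))))))) (.a (.p (nat_lit 556) (.a (.f (nat_lit 589) (nat_lit 557) (nat_lit 4556) (.f (nat_lit 588) (nat_lit 621) (nat_lit 4588) (.d (nat_lit 587) (nat_lit 555) (nat_lit 5579) (nat_lit 619) (nat_lit 5611)))) (.a (.f (nat_lit 459) (nat_lit 427) (nat_lit 7595) (.f (nat_lit 588) (nat_lit 491) (nat_lit 7627) (.d (nat_lit 589) (nat_lit 557) (nat_lit 4556) (nat_lit 621) (nat_lit 4588)))) (.f (nat_lit 555) (nat_lit 587) (nat_lit 5579) (.f (nat_lit 428) (nat_lit 523) (nat_lit 5547) (.d (nat_lit 427) (nat_lit 395) (nat_lit 7563) (nat_lit 459) (nat_lit 7595))))))) (.a (.p (nat_lit 428) (.a s67117 (.a (.f (nat_lit 427) (nat_lit 395) (nat_lit 7563) (.f (nat_lit 556) (nat_lit 459) (nat_lit 7595) (.d (nat_lit 557) (nat_lit 525) (nat_lit 4524) (nat_lit 589) (nat_lit 4556)))) (.a (.f (nat_lit 397) (nat_lit 429) (nat_lit 6540) (.f (nat_lit 396) (nat_lit 365) (nat_lit 6508) (.f (nat_lit 491) (nat_lit 523) (nat_lit 5515) (.f (nat_lit 459) (nat_lit 364) (nat_lit 5483) (.d (nat_lit 556) (nat_lit 427) (nat_lit 7595) (nat_lit 588) (nat_lit 7627)))))) (.f (nat_lit 395) (nat_lit 427) (nat_lit 7563) (.f (nat_lit 396) (nat_lit 363) (nat_lit 7531) (.d (nat_lit 397) (nat_lit 365) (nat_lit 6508) (nat_lit 429) (nat_lit 6540)))))))) (.a (.p (nat_lit 428) (.a (.f (nat_lit 525) (nat_lit 557) (nat_lit 4524) (.f (nat_lit 523) (nat_lit 555) (nat_lit 5547) (.f (nat_lit 491) (nat_lit 396) (nat_lit 5515) (.d (nat_lit 526) (nat_lit 490) (nat_lit 3562) (nat_lit 527) (nat_lit 3563))))) (.a (.f (nat_lit 525) (nat_lit 557) (nat_lit 4524) (.p (nat_lit 526) (.a (.d (nat_lit 527) (nat_lit 491) (nat_lit 3563) (nat_lit 561) (nat_lit 525)) (.a (.d (nat_lit 527) (nat_lit 559) (nat_lit 524) (nat_lit 561) (nat_lit 525)) (.f (nat_lit 523) (nat_lit 555) (nat_lit 5547) (.f (nat_lit 558) (nat_lit 559) (nat_lit 523) (.d (nat_lit 494) (nat_lit 431) (nat_lit 6574) (nat_lit 495) (nat_lit 2539)))))))) (.f (nat_lit 395) (nat_lit 427) (nat_lit 7563) (.f (nat_lit 396) (nat_lit 363) (nat_lit 7531) (.d (nat_lit 397) (nat_lit 365) (nat_lit 6508) (nat_lit 429) (nat_lit 6540))))))) (.p (nat_lit 428) (.a (.f (nat_lit 523) (nat_lit 555) (nat_lit 5547) (.f (nat_lit 396) (nat_lit 491) (nat_lit 5515) (.d (nat_lit 397) (nat_lit 365) (nat_lit 6508) (nat_lit 429) (nat_lit 6540)))) (.a (.f (nat_lit 523) (nat_lit 555) (nat_lit 5547) (.f (nat_lit 396) (nat_lit 491) (nat_lit 5515) (.d (nat_lit 395) (nat_lit 363) (nat_lit 7531) (nat_lit 427) (nat_lit 7563)))) (.a (.f (nat_lit 427) (nat_lit 395) (nat_lit 7563) (.f (nat_lit 556) (nat_lit 459) (nat_lit 7595) (.d (nat_lit 555) (nat_lit 523) (nat_lit 5547) (nat_lit 587) (nat_lit 5579)))) (.f (nat_lit 395) (nat_lit 427) (nat_lit 7563) (.f (nat_lit 396) (nat_lit 363) (nat_lit 7531) (.d (nat_lit 397) (nat_lit 365) (nat_lit 6508) (nat_lit 429) (nat_lit 6540)))))))))))))))))) (.p (nat_lit 428) (.a (.f (nat_lit 429) (nat_lit 461) (nat_lit 3500) (.f (nat_lit 524) (nat_lit 397) (nat_lit 6540) (.f (nat_lit 557) (nat_lit 525) (nat_lit 4524) (.f (nat_lit 556) (nat_lit 589) (nat_lit 4556) (.d (nat_lit 555) (nat_lit 523) (nat_lit 5547) (nat_lit 587) (nat_lit 5579)))))) (.a (.f (nat_lit 427) (nat_lit 461) (nat_lit 3499) (.f (nat_lit 524) (nat_lit 395) (nat_lit 7563) (.f (nat_lit 556) (nat_lit 459) (nat_lit 7595) (.d (nat_lit 555) (nat_lit 523) (nat_lit 5547) (nat_lit 587) (nat_lit 5579))))) (.a (.p (nat_lit 524) (.a (.f (nat_lit 555) (nat_lit 523) (nat_lit 5547) (.f (nat_lit 556) (nat_lit 587) (nat_lit 5579) (.d (nat_lit 557) (nat_lit 525) (nat_lit 4524) (nat_lit 589) (nat_lit 4556)))) (.a (.f (nat_lit 427) (nat_lit 395) (nat_lit 7563) (.f (nat_lit 556) (nat_lit 459) (nat_lit 7595) (.d (nat_lit 557) (nat_lit 525) (nat_lit 4524) (nat_lit 589) (nat_lit 4556)))) (.f (nat_lit 395) (nat_lit 427) (nat_lit 7563) (.f (nat_lit 396) (nat_lit 363) (nat_lit 7531) (.d (nat_lit 397) (nat_lit 365) (nat_lit 6508) (nat_lit 429) (nat_lit 6540))))))) (.d (nat_lit 461) (nat_lit 427) (nat_lit 3499) (nat_lit 429) (nat_lit 3500)))))))))))) (.f (nat_lit 461) (nat_lit 493) (nat_lit 1484) (.f (nat_lit 460) (nat_lit 491) (nat_lit 1483) (.d (nat_lit 428) (nat_lit 427) (nat_lit 3499) (nat_lit 429) (nat_lit 3500))))))))))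
noncomputable def s67361 : Cert := .r (nat_lit 3773962425700235452738272624589311872811354115290248995673608856684065905542405513258590247812975560221283939098291971982140250265709139174504620074283388056494680309760) (.p (nat_lit 461) (.a (.f (nat_lit 493) (nat_lit 492) (nat_lit 1484) (.f (nat_lit 494) (nat_lit 465) (nat_lit 1485) (.f (nat_lit 428) (nat_lit 429) (nat_lit 3500) (.f (nat_lit 460) (nat_lit 427) (nat_lit 3499) (.d (nat_lit 459) (nat_lit 458) (nat_lit 458) (nat_lit 495) (nat_lit 459)))))) (.a (.f (nat_lit 493) (nat_lit 492) (nat_lit 1484) (.f (nat_lit 494) (nat_lit 465) (nat_lit 1485) (.f (nat_lit 429) (nat_lit 428) (nat_lit 3500) (.d (nat_lit 397) (nat_lit 365) (nat_lit 4461) (nat_lit 526) (nat_lit 4493))))) (.a (.f (nat_lit 493) (nat_lit 492) (nat_lit 1484) (.f (nat_lit 465) (nat_lit 494) (nat_lit 1485) (.f (nat_lit 498) (nat_lit 497) (nat_lit 462) (.f (nat_lit 466) (nat_lit 499) (nat_lit 463) (.f (nat_lit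 435) (nat_lit 434) (nat_lit 2479) (.f (nat_lit 467) (nat_lit 436) (nat_lit 2480) (.f (nat_lit 431) (nat_lit 432) (nat_lit 3503) (.f (nat_lit 527) (nat_lit 495) (nat_lit 4527) (.f (nat_lit 562) (nat_lit 530) (nat_lit 6578) (.f (nat_lit 561) (nat_lit 563) (nat_lit 3599) (.d (nat_lit 526) (nat_lit 525) (nat_lit 525) (nat_lit 559) (nat_lit 3598)))))))))))) (.a (.f (nat_lit 492) (nat_lit 493) (nat_lit 1484) (.f (nat_lit 460) (nat_lit 491) (nat_lit 1483) (.d (nat_lit 428) (nat_lit 427) (nat_lit 3499) (nat_lit 429) (nat_lit 3500)))) (.a (.f (nat_lit 428) (nat_lit 429) (nat_lit 3500) (.f (nat_lit 460) (nat_lit 427) (nat_lit 3499) (.f (nat_lit 431) (nat_lit 432) (nat_lit 2476) (.f (nat_lit 495) (nat_lit 527) (nat_lit 4527) (.f (nat_lit 494) (nat_lit 459) (nat_lit 459) (.d (nat_lit 465) (nat_lit 466) (nat_lit 1486) (nat_lit 493) (nat_lit 1485))))))) (.f (nat_lit 428) (nat_lit 429) (nat_lit 3500) (.f (nat_lit 460) (nat_lit 427) (nat_lit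 3499) (.f (nat_lit 491) (nat_lit 492) (nat_lit 1483) (.f (nat_lit 459) (nat_lit 490) (nat_lit 1482) (.f (nat_lit 495) (nat_lit 494) (nat_lit 459) (.d (nat_lit 431) (nat_lit 432) (nat_lit 2476) (nat_lit 527) (nat_lit 4527)))))))))))))
noncomputable def s67362 : Cert := .r (nat_lit 3773962425700235452738272624589311872811354115290248995673608856684065905542405513258590247812975560221283939098291971982140250265709139174504620074283388056494680309760) (.p (nat_lit 461) (.a (.f (nat_lit 432) (nat_lit 433) (nat_lit 2477) (.f (nat_lit 460) (nat_lit 431) (nat_lit 2476) (.d (nat_lit 492) (nat_lit 491) (nat_lit 1483) (nat_lit 493) (nat_lit 1484)))) (.a (.f (nat_lit 493) (nat_lit 492) (nat_lit 1484) (.f (nat_lit 494) (nat_lit 465) (nat_lit 1485) (.f (nat_lit 428) (nat_lit 429) (nat_lit 3500) (.f (nat_lit 460) (nat_lit 427) (nat_lit 3499) (.d (nat_lit 459) (nat_lit 458) (nat_lit 458) (nat_lit 495) (nat_lit 459)))))) (.a (.f (nat_lit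 493) (nat_lit 492) (nat_lit 1484) (.f (nat_lit 494) (nat_lit 465) (nat_lit 1485) (.f (nat_lit 429) (nat_lit 428) (nat_lit 3500) (.d (nat_lit 397) (nat_lit 365) (nat_lit 4461) (nat_lit 526) (nat_lit 4493))))) (.f (nat_lit 432) (nat_lit 433) (nat_lit 2477) (.f (nat_lit 460) (nat_lit 431) (nat_lit 2476) (.d (nat_lit 428) (nat_lit 427) (nat_lit 3499) (nat_lit 429) (nat_lit 3500))))))))
noncomputable def s67368 : Cert := .r (nat_lit 3773962425919908977913598863717109915100914787255802162031579661754111623572019322753817332049720508642501580050157706402150242162390168900014572309815216228268620382208) (.p (nat_lit 558) (.a (.f (nat_lit 559) (nat_lit 591) (nat_lit 4558) (.f (nat_lit 525) (nat_lit 561) (nat_lit 3597) (.d (nat_lit 557) (nat_lit 524) (nat_lit 3596) (nat_lit 589) (nat_lit 5581)))) (.a (.f (nat_lit 559) (nat_lit 591) (nat_lit 4558) (.f (nat_lit 561) (nat_lit 525) (nat_lit 3597) (.d (nat_lit 590) (nat_lit 495) (nat_lit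 6606) (nat_lit 589) (nat_lit 1581)))) (.a (.f (nat_lit 590) (nat_lit 495) (nat_lit 6606) (.d (nat_lit 589) (nat_lit 557) (nat_lit 5581) (nat_lit 621) (nat_lit 5613))) (.f (nat_lit 559) (nat_lit 591) (nat_lit 4558) (.f (nat_lit 525) (nat_lit 561) (nat_lit 3597) (.d (nat_lit 524) (nat_lit 523) (nat_lit 523) (nat_lit 557) (nat_lit 3596))))))))
noncomputable def s67391 : Cert := .r (nat_lit 3773962425700235452738272624589311872811354115290248995673608856684065905542405513258590247812975560221283939098291971982140250265709139174504620074283388056494680309760) (.p (nat_lit 494) (.a (.f (nat_lit 465) (nat_lit 493) (nat_lit 1485) (.f (nat_lit 466) (nat_lit 495) (nat_lit 1486) (.d (nat_lit 498) (nat_lit 497) (nat_lit 462) (nat_lit 499) (nat_lit 463)))) (.a (.p (nat_lit 526) (.a (.f (nat_lit 558) (nat_lit 431) (nat_lit 6574) (.f (nat_lit 559) (nat_lit 591) (nat_lit 4558) (.f (nat_lit 525) (nat_lit 561) (nat_lit 3597) (.d (nat_lit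 557) (nat_lit 524) (nat_lit 3596) (nat_lit 589) (nat_lit 5581))))) (.a s67368 (.a (.f (nat_lit 558) (nat_lit 431) (nat_lit 6574) (.f (nat_lit 559) (nat_lit 591) (nat_lit 4558) (.f (nat_lit 561) (nat_lit 525) (nat_lit 3597) (.d (nat_lit 589) (nat_lit 557) (nat_lit 5581) (nat_lit 590) (nat_lit 1581))))) (.a (.f (nat_lit 558) (nat_lit 431) (nat_lit 6574) (.f (nat_lit 590) (nat_lit 495) (nat_lit 6606) (.d (nat_lit 589) (nat_lit 557) (nat_lit 5581) (nat_lit 621) (nat_lit 5613)))) (.a (.f (nat_lit 431) (nat_lit 558) (nat_lit 6574) (.d (nat_lit 495) (nat_lit 399) (nat_lit 5518) (nat_lit 527) (nat_lit 4527))) (.p (nat_lit 527) (.a (.f (nat_lit 495) (nat_lit 431) (nat_lit 4527) (.d (nat_lit 559) (nat_lit 432) (nat_lit 6575) (nat_lit 591) (nat_lit 7630))) (.f (nat_lit 525) (nat_lit 561) (nat_lit 525) (.f (nat_lit 493) (nat_lit 492) (nat_lit 3564) (.d (nat_lit 557) (nat_lit 556) (nat_lit 1548) (nat_lit 589) (nat_lit 6605))))))))))))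 (.a (.p (nat_lit 526) (.a (.f (nat_lit 558) (nat_lit 431) (nat_lit 6574) (.f (nat_lit 559) (nat_lit 591) (nat_lit 4558) (.f (nat_lit 525) (nat_lit 561) (nat_lit 3597) (.d (nat_lit 557) (nat_lit 524) (nat_lit 3596) (nat_lit 589) (nat_lit 5581))))) (.a s67368 (.a (.f (nat_lit 558) (nat_lit 431) (nat_lit 6574) (.f (nat_lit 559) (nat_lit 591) (nat_lit 4558) (.f (nat_lit 561) (nat_lit 525) (nat_lit 3597) (.d (nat_lit 589) (nat_lit 557) (nat_lit 5581) (nat_lit 590) (nat_lit 1581))))) (.a (.f (nat_lit 558) (nat_lit 431) (nat_lit 6574) (.f (nat_lit 590) (nat_lit 495) (nat_lit 6606) (.d (nat_lit 589) (nat_lit 557) (nat_lit 5581) (nat_lit 621) (nat_lit 5613)))) (.a (.f (nat_lit 431) (nat_lit 558) (nat_lit 6574) (.d (nat_lit 495) (nat_lit 399) (nat_lit 5518) (nat_lit 527) (nat_lit 4527))) (.p (nat_lit 527) (.a (.f (nat_lit 495) (nat_lit 431) (nat_lit 4527) (.d (nat_lit 559) (nat_lit 432) (nat_lit 6575) (nat_lit 591) (nat_lit 7630)))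 (.a (.f (nat_lit 525) (nat_lit 561) (nat_lit 525) (.f (nat_lit 524) (nat_lit 559) (nat_lit 524) (.d (nat_lit 556) (nat_lit 555) (nat_lit 1547) (nat_lit 557) (nat_lit 1548)))) (.f (nat_lit 495) (nat_lit 431) (nat_lit 4527) (.f (nat_lit 525) (nat_lit 561) (nat_lit 525) (.f (nat_lit 524) (nat_lit 523) (nat_lit 2539) (.d (nat_lit 556) (nat_lit 555) (nat_lit 1547) (nat_lit 557) (nat_lit 1548)))))))))))))) (.f (nat_lit 465) (nat_lit 493) (nat_lit 1485) (.f (nat_lit 434) (nat_lit 433) (nat_lit 2478) (.f (nat_lit 466) (nat_lit 435) (nat_lit 2479) (.d (nat_lit 498) (nat_lit 497) (nat_lit 462) (nat_lit 499) (nat_lit 463)))))))))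
noncomputable def s67413 : Cert := .r (nat_lit 3773962425700235452738272624589311872811354115290248995673608856684065905542405513258590247812975560221283939098291971982140250265709139174504620074283388056494680309760) (.p (nat_lit 461) (.a (.f (nat_lit 432) (nat_lit 433) (nat_lit 2477) (.f (nat_lit 460) (nat_lit 431) (nat_lit 2476) (.d (nat_lit 492) (nat_lit 491) (nat_lit 1483) (nat_lit 493) (nat_lit 1484)))) (.a (.f (nat_lit 492) (nat_lit 493) (nat_lit 1484) (.f (nat_lit 460) (nat_lit 491) (nat_lit 1483) (.d (nat_lit 428) (nat_lit 427) (nat_lit 3499) (nat_lit 429) (nat_lit 3500)))) (.a (.f (nat_lit 429) (nat_lit 428) (nat_lit 3500) (.p (nat_lit 397) (.a (.f (nat_lit 493) (nat_lit 492) (nat_lit 1484) (.d (nat_lit 494) (nat_lit 365) (nat_lit 4461) (nat_lit 526) (nat_lit 4493))) (.a (.f (nat_lit 493) (nat_lit 492) (nat_lit 1484) (.f (nat_lit 526) (nat_lit 494) (nat_lit 4493) (.f (nat_lit 525) (nat_lit 558) (nat_lit 4525)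 (.f (nat_lit 527) (nat_lit 561) (nat_lit 525) (.d (nat_lit 524) (nat_lit 556) (nat_lit 5548) (nat_lit 559) (nat_lit 524)))))) (.a (.f (nat_lit 365) (nat_lit 494) (nat_lit 4461) (.f (nat_lit 366) (nat_lit 334) (nat_lit 6477) (.f (nat_lit 364) (nat_lit 332) (nat_lit 7500) (.d (nat_lit 493) (nat_lit 396) (nat_lit 7532) (nat_lit 398) (nat_lit 6509))))) (.a (.f (nat_lit 365) (nat_lit 494) (nat_lit 4461) (.f (nat_lit 334) (nat_lit 366) (nat_lit 6477) (.f (nat_lit 333) (nat_lit 302) (nat_lit 6445) (.d (nat_lit 332) (nat_lit 300) (nat_lit 7468) (nat_lit 364) (nat_lit 7500))))) (.f (nat_lit 493) (nat_lit 492) (nat_lit 1484) (.f (nat_lit 366) (nat_lit 398) (nat_lit 6509) (.f (nat_lit 365) (nat_lit 334) (nat_lit 6477) (.d (nat_lit 364) (nat_lit 332) (nat_lit 7500) (nat_lit 396) (nat_lit 7532))))))))))) (.f (nat_lit 432) (nat_lit 433) (nat_lit 2477) (.f (nat_lit 460) (nat_lit 431) (nat_lit 2476) (.d (nat_lit 428) (nat_lit 427) (nat_lit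 3499) (nat_lit 429) (nat_lit 3500))))))))
noncomputable def s67422 : Cert := .r (nat_lit 3773962425700235452738272624589311872811354115290248995673608856684065905542405513258590247812975560221283939098291971982140250265709139174504620074283388056494680309760) (.p (nat_lit 465) (.a (.f (nat_lit 494) (nat_lit 493) (nat_lit 1485) (.f (nat_lit 466) (nat_lit 495) (nat_lit 1486) (.d (nat_lit 498) (nat_lit 497) (nat_lit 462) (nat_lit 499) (nat_lit 463)))) (.a (.f (nat_lit 433) (nat_lit 434) (nat_lit 2478) (.f (nat_lit 461) (nat_lit 432) (nat_lit 2477) (.f (nat_lit 494) (nat_lit 493) (nat_lit 1485) (.f (nat_lit 428) (nat_lit 429) (nat_lit 3500) (.f (nat_lit 460) (nat_lit 427) (nat_lit 3499) (.f (nat_lit 495) (nat_lit 459) (nat_lit 459) (.f (nat_lit 431) (nat_lit 527) (nat_lit 4527) (.d (nat_lit 399) (nat_lit 367) (nat_lit 5486) (nat_lit 526) (nat_lit 5518))))))))) (.f (nat_lit 433) (nat_lit 434) (nat_lit 2478) (.f (nat_lit 432)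 (nat_lit 461) (nat_lit 2477) (.f (nat_lit 498) (nat_lit 497) (nat_lit 462) (.f (nat_lit 466) (nat_lit 499) (nat_lit 463) (.d (nat_lit 467) (nat_lit 431) (nat_lit 3503) (nat_lit 468) (nat_lit 3504)))))))))
noncomputable def s67454 : Cert := .r (nat_lit 3773962425700235452738272624589311872811354115290248995673608856684065905542405513258590247812975560221283939098291971982140250265709139174504620074283388056494680309760) (.p (nat_lit 465) (.a (.f (nat_lit 433) (nat_lit 434) (nat_lit 2478) (.f (nat_lit 432) (nat_lit 461) (nat_lit 2477) (.f (nat_lit 498) (nat_lit 497) (nat_lit 462) (.f (nat_lit 466) (nat_lit 499) (nat_lit 463) (.d (nat_lit 467) (nat_lit 431) (nat_lit 3503) (nat_lit 468) (nat_lit 3504)))))) (.a (.f (nat_lit 434) (nat_lit 433) (nat_lit 2478) (.f (nat_lit 466) (nat_lit 435) (nat_lit 2479) (.d (nat_lit 498) (nat_lit 497) (nat_lit 462) (nat_lit 499) (nat_lit 463)))) (.a (.f (nat_lit 498) (nat_lit 497) (nat_lit 462)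 (.f (nat_lit 466) (nat_lit 499) (nat_lit 463) (.f (nat_lit 435) (nat_lit 434) (nat_lit 2479) (.f (nat_lit 467) (nat_lit 436) (nat_lit 2480) (.f (nat_lit 431) (nat_lit 432) (nat_lit 3503) (.d (nat_lit 495) (nat_lit 494) (nat_lit 1486) (nat_lit 527) (nat_lit 4527))))))) (.a (.f (nat_lit 498) (nat_lit 497) (nat_lit 462) (.f (nat_lit 466) (nat_lit 499) (nat_lit 463) (.f (nat_lit 495) (nat_lit 494) (nat_lit 1486) (.f (nat_lit 431) (nat_lit 527) (nat_lit 4527) (.f (nat_lit 432) (nat_lit 467) (nat_lit 3503) (.d (nat_lit 461) (nat_lit 433) (nat_lit 2477) (nat_lit 460) (nat_lit 2476))))))) (.a (.f (nat_lit 433) (nat_lit 434) (nat_lit 2478) (.p (nat_lit 401) (.a (.f (nat_lit 497) (nat_lit 498) (nat_lit 462) (.f (nat_lit 432) (nat_lit 461) (nat_lit 2477) (.f (nat_lit 400) (nat_lit 368) (nat_lit 7536) (.f (nat_lit 402) (nat_lit 370) (nat_lit 6513) (.d (nat_lit 403) (nat_lit 404) (nat_lit 1424) (nat_lit 431) (nat_lit 1423)))))) (.a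 (.f (nat_lit 432) (nat_lit 461) (nat_lit 2477) (.f (nat_lit 369) (nat_lit 337) (nat_lit 5456) (.f (nat_lit 497) (nat_lit 498) (nat_lit 462) (.d (nat_lit 370) (nat_lit 338) (nat_lit 6481) (nat_lit 402) (nat_lit 6513))))) (.a (.f (nat_lit 497) (nat_lit 498) (nat_lit 462) (.f (nat_lit 432) (nat_lit 461) (nat_lit 2477) (.f (nat_lit 368) (nat_lit 400) (nat_lit 7536) (.d (nat_lit 369) (nat_lit 336) (nat_lit 7504) (nat_lit 337) (nat_lit 5456))))) (.a (.f (nat_lit 497) (nat_lit 498) (nat_lit 462) (.f (nat_lit 368) (nat_lit 400) (nat_lit 7536) (.f (nat_lit 369) (nat_lit 336) (nat_lit 7504) (.d (nat_lit 370) (nat_lit 338) (nat_lit 6481) (nat_lit 402) (nat_lit 6513))))) (.f (nat_lit 432) (nat_lit 461) (nat_lit 2477) (.f (nat_lit 369) (nat_lit 337) (nat_lit 5456) (.f (nat_lit 368) (nat_lit 336) (nat_lit 7504) (.f (nat_lit 400) (nat_lit 495) (nat_lit 5487) (.f (nat_lit 367) (nat_lit 335) (nat_lit 7503) (.d (nat_lit 366) (nat_lit 365)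 (nat_lit 365) (nat_lit 402) (nat_lit 366))))))))))))) (.a (.f (nat_lit 434) (nat_lit 433) (nat_lit 2478) (.f (nat_lit 466) (nat_lit 435) (nat_lit 2479) (.f (nat_lit 499) (nat_lit 498) (nat_lit 463) (.f (nat_lit 467) (nat_lit 500) (nat_lit 464) (.f (nat_lit 431) (nat_lit 432) (nat_lit 3503) (.d (nat_lit 495) (nat_lit 494) (nat_lit 1486) (nat_lit 527) (nat_lit 4527))))))) (.f (nat_lit 434) (nat_lit 433) (nat_lit 2478) (.f (nat_lit 466) (nat_lit 435) (nat_lit 2479) (.f (nat_lit 495) (nat_lit 494) (nat_lit 1486) (.f (nat_lit 527) (nat_lit 431) (nat_lit 4527) (.f (nat_lit 559) (nat_lit 432) (nat_lit 6575) (.f (nat_lit 558) (nat_lit 590) (nat_lit 5582) (.f (nat_lit 557) (nat_lit 556) (nat_lit 2572) (.f (nat_lit 525) (nat_lit 524) (nat_lit 3596) (.f (nat_lit 561) (nat_lit 526) (nat_lit 525) (.f (nat_lit 562) (nat_lit 563) (nat_lit 3599) (.d (nat_lit 594) (nat_lit 593) (nat_lit 558) (nat_lit 595) (nat_lit 559)))))))))))))))))))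
noncomputable def s67507 : Cert := .r (nat_lit 3773962425700235452738272624589311872811354115290248995673608856684065905542405513258590247812975560221283939098291971982140250265709139174504620074283388056494680309760) (.p (nat_lit 461) (.a (.f (nat_lit 432) (nat_lit 433) (nat_lit 2477) (.f (nat_lit 460) (nat_lit 431) (nat_lit 2476) (.d (nat_lit 492) (nat_lit 491) (nat_lit 1483) (nat_lit 493) (nat_lit 1484)))) (.a (.f (nat_lit 492) (nat_lit 493) (nat_lit 1484) (.f (nat_lit 460) (nat_lit 491) (nat_lit 1483) (.d (nat_lit 428) (nat_lit 427) (nat_lit 3499) (nat_lit 429) (nat_lit 3500)))) (.a (.p (nat_lit 465) (.a (.d (nat_lit 433) (nat_lit 432) (nat_lit 2477) (nat_lit 434) (nat_lit 2478)) (.a (.f (nat_lit 434) (nat_lit 433) (nat_lit 2478) (.f (nat_lit 466) (nat_lit 435) (nat_lit 2479) (.d (nat_lit 498) (nat_lit 497) (nat_lit 462) (nat_lit 499) (nat_lit 463)))) (.a (.f (nat_lit 498) (nat_lit 497) (nat_lit 462) (.f (nat_lit 466)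 (nat_lit 499) (nat_lit 463) (.f (nat_lit 435) (nat_lit 434) (nat_lit 2479) (.f (nat_lit 467) (nat_lit 436) (nat_lit 2480) (.f (nat_lit 431) (nat_lit 432) (nat_lit 3503) (.f (nat_lit 562) (nat_lit 530) (nat_lit 6578) (.f (nat_lit 527) (nat_lit 495) (nat_lit 4527) (.f (nat_lit 561) (nat_lit 563) (nat_lit 3599) (.d (nat_lit 526) (nat_lit 525) (nat_lit 525) (nat_lit 559) (nat_lit 3598)))))))))) (.p (nat_lit 525) (.a (.f (nat_lit 493) (nat_lit 492) (nat_lit 1484) (.f (nat_lit 429) (nat_lit 428) (nat_lit 3500) (.f (nat_lit 526) (nat_lit 558) (nat_lit 4525) (.f (nat_lit 527) (nat_lit 561) (nat_lit 525) (.d (nat_lit 524) (nat_lit 556) (nat_lit 5548) (nat_lit 559) (nat_lit 524)))))) (.a (.f (nat_lit 498) (nat_lit 497) (nat_lit 462) (.f (nat_lit 466) (nat_lit 499) (nat_lit 463) (.f (nat_lit 432) (nat_lit 433) (nat_lit 2477) (.f (nat_lit 431) (nat_lit 467) (nat_lit 3503) (.f (nat_lit 527) (nat_lit 495) (nat_lit 4527) (.f (nat_lit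 526) (nat_lit 561) (nat_lit 525) (.f (nat_lit 556) (nat_lit 557) (nat_lit 1548) (.d (nat_lit 524) (nat_lit 555) (nat_lit 1547) (nat_lit 559) (nat_lit 524))))))))) (.a (.f (nat_lit 493) (nat_lit 492) (nat_lit 1484) (.f (nat_lit 429) (nat_lit 428) (nat_lit 3500) (.f (nat_lit 526) (nat_lit 558) (nat_lit 4525) (.f (nat_lit 527) (nat_lit 561) (nat_lit 525) (.f (nat_lit 432) (nat_lit 433) (nat_lit 2477) (.d (nat_lit 495) (nat_lit 431) (nat_lit 4527) (nat_lit 559) (nat_lit 6575))))))) (.a (.f (nat_lit 493) (nat_lit 492) (nat_lit 1484) (.f (nat_lit 429) (nat_lit 428) (nat_lit 3500) (.f (nat_lit 432) (nat_lit 433) (nat_lit 2477) (.f (nat_lit 556) (nat_lit 524) (nat_lit 5548) (.f (nat_lit 557) (nat_lit 588) (nat_lit 5580) (.f (nat_lit 558) (nat_lit 590) (nat_lit 4557) (.f (nat_lit 527) (nat_lit 559) (nat_lit 2572) (.f (nat_lit 431) (nat_lit 495) (nat_lit 4527) (.f (nat_lit 466) (nat_lit 467) (nat_lit 3503) (.d (nat_lit 498) (nat_lit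 497) (nat_lit 462) (nat_lit 499) (nat_lit 463))))))))))) (.a (.f (nat_lit 493) (nat_lit 492) (nat_lit 1484) (.f (nat_lit 429) (nat_lit 428) (nat_lit 3500) (.f (nat_lit 558) (nat_lit 526) (nat_lit 4525) (.f (nat_lit 557) (nat_lit 590) (nat_lit 4557) (.d (nat_lit 524) (nat_lit 556) (nat_lit 5548) (nat_lit 559) (nat_lit 3596)))))) (.f (nat_lit 493) (nat_lit 492) (nat_lit 1484) (.f (nat_lit 429) (nat_lit 428) (nat_lit 3500) (.f (nat_lit 526) (nat_lit 558) (nat_lit 4525) (.f (nat_lit 556) (nat_lit 524) (nat_lit 5548) (.d (nat_lit 527) (nat_lit 557) (nat_lit 1548) (nat_lit 561) (nat_lit 525)))))))))))))))) (.f (nat_lit 432) (nat_lit 433) (nat_lit 2477) (.f (nat_lit 460) (nat_lit 431) (nat_lit 2476) (.d (nat_lit 428) (nat_lit 427) (nat_lit 3499) (nat_lit 429) (nat_lit 3500))))))))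
noncomputable def s67508 : Cert := .r (nat_lit 3773962425700235452738272624565494821493635668700728753136734724102365785435403475059286376966224372028384115946739343632351645749414072866510489955757326230328235261952) (.p (nat_lit 463) (.a s65199 (.a s65333 (.a (.p (nat_lit 465) (.a (.f (nat_lit 494) (nat_lit 493) (nat_lit 1485) (.f (nat_lit 466) (nat_lit 495) (nat_lit 1486) (.d (nat_lit 498) (nat_lit 497) (nat_lit 462) (nat_lit 499) (nat_lit 463)))) (.a (.f (nat_lit 433) (nat_lit 434) (nat_lit 2478) (.f (nat_lit 461) (nat_lit 432) (nat_lit 2477) (.d (nat_lit 493) (nat_lit 492) (nat_lit 1484) (nat_lit 494) (nat_lit 1485)))) (.f (nat_lit 434) (nat_lit 433) (nat_lit 2478) (.f (nat_lit 466) (nat_lit 435) (nat_lit 2479) (.d (nat_lit 498) (nat_lit 497) (nat_lit 462) (nat_lit 499) (nat_lit 463))))))) (.a s67335 (.a s67361 (.a s67362 (.a s67391 (.a s67413 (.a s67422 (.a s67454 s67507)))))))))))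
noncomputable def s67551 : Cert := .r (nat_lit 3773962425700235452789419352843643352359739815950560293061212421798913822904832450434918306093486397189559990078772381525070005834276031861022172237444362779494549815296) (.p (nat_lit 526) (.a (.f (nat_lit 493) (nat_lit 492) (nat_lit 1484) (.d (nat_lit 558) (nat_lit 429) (nat_lit 7597) (nat_lit 590) (nat_lit 7629))) (.a (.f (nat_lit 493) (nat_lit 492) (nat_lit 1484) (.f (nat_lit 558) (nat_lit 590) (nat_lit 7629) (.f (nat_lit 559) (nat_lit 591) (nat_lit 4558) (.f (nat_lit 525) (nat_lit 561) (nat_lit 3597) (.d (nat_lit 557) (nat_lit 524) (nat_lit 3596) (nat_lit 589) (nat_lit 5581)))))) (.a (.f (nat_lit 558) (nat_lit 429) (nat_lit 7597) (.d (nat_lit 590) (nat_lit 493) (nat_lit 7629) (nat_lit 495) (nat_lit 6606))) (.a (.f (nat_lit 558) (nat_lit 429) (nat_lit 7597) (.f (nat_lit 559) (nat_lit 591) (nat_lit 4558) (.f (nat_lit 561) (nat_lit 525) (nat_lit 3597) (.d (nat_lit 590) (nat_lit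 495) (nat_lit 6606) (nat_lit 589) (nat_lit 1581))))) (.f (nat_lit 492) (nat_lit 493) (nat_lit 1484) (.f (nat_lit 460) (nat_lit 491) (nat_lit 1483) (.f (nat_lit 495) (nat_lit 459) (nat_lit 459) (.f (nat_lit 432) (nat_lit 433) (nat_lit 2477) (.f (nat_lit 527) (nat_lit 559) (nat_lit 6575) (.f (nat_lit 525) (nat_lit 561) (nat_lit 525) (.f (nat_lit 524) (nat_lit 523) (nat_lit 2539) (.d (nat_lit 556) (nat_lit 555) (nat_lit 1547) (nat_lit 557) (nat_lit 1548))))))))))))))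
noncomputable def s67560 : Cert := .r (nat_lit 3773962425700235452789419352837689089530310204303180232426993888653488792878081940885092338381798600141335034290884224437622854705202265284023639707812847322952938553344) (.p (nat_lit 461) (.a (.f (nat_lit 493) (nat_lit 492) (nat_lit 1484) (.f (nat_lit 429) (nat_lit 428) (nat_lit 3500) (.d (nat_lit 397) (nat_lit 365) (nat_lit 4461) (nat_lit 526) (nat_lit 4493)))) (.a (.f (nat_lit 493) (nat_lit 492) (nat_lit 1484) (.f (nat_lit 429) (nat_lit 428) (nat_lit 3500) (.d (nat_lit 526) (nat_lit 397) (nat_lit 4493) (nat_lit 558) (nat_lit 7597)))) (.a (.f (nat_lit 493) (nat_lit 492) (nat_lit 1484) (.f (nat_lit 428) (nat_lit 429) (nat_lit 3500) (.f (nat_lit 460) (nat_lit 427) (nat_lit 3499) (.d (nat_lit 459) (nat_lit 458) (nat_lit 458) (nat_lit 495) (nat_lit 459))))) (.a s67551 (.a (.f (nat_lit 492) (nat_lit 493) (nat_lit 1484) (.f (nat_lit 460) (nat_lit 491) (nat_lit 1483) (.f (nat_lit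 459) (nat_lit 495) (nat_lit 459) (.d (nat_lit 427) (nat_lit 426) (nat_lit 3498) (nat_lit 428) (nat_lit 3499))))) (.a (.f (nat_lit 429) (nat_lit 428) (nat_lit 3500) (.f (nat_lit 526) (nat_lit 558) (nat_lit 7597) (.d (nat_lit 397) (nat_lit 365) (nat_lit 4461) (nat_lit 493) (nat_lit 4493)))) (.f (nat_lit 428) (nat_lit 429) (nat_lit 3500) (.f (nat_lit 460) (nat_lit 427) (nat_lit 3499) (.f (nat_lit 491) (nat_lit 492) (nat_lit 1483) (.d (nat_lit 459) (nat_lit 490) (nat_lit 1482) (nat_lit 495) (nat_lit 459))))))))))))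
noncomputable def s67576 : Cert := .r (nat_lit 3773962425700235452789419352813872038215364427407780804749698170255931756474516339761164284110217891529049832447137221710874224595011338554126900800248189068615467663360) (.p (nat_lit 398) (.a (.f (nat_lit 495) (nat_lit 527) (nat_lit 4494) (.f (nat_lit 463) (nat_lit 366) (nat_lit 4462) (.d (nat_lit 465) (nat_lit 429) (nat_lit 3501) (nat_lit 493) (nat_lit 1485)))) (.a (.f (nat_lit 527) (nat_lit 495) (nat_lit 4494) (.f (nat_lit 526) (nat_lit 559) (nat_lit 4526) (.d (nat_lit 525) (nat_lit 493) (nat_lit 5517) (nat_lit 561) (nat_lit 525)))) (.a (.f (nat_lit 527) (nat_lit 495) (nat_lit 4494) (.f (nat_lit 526) (nat_lit 559) (nat_lit 4526) (.d (nat_lit 525) (nat_lit 557) (nat_lit 5549) (nat_lit 561) (nat_lit 525)))) (.f (nat_lit 397) (nat_lit 365) (nat_lit 7533) (.f (nat_lit 429) (nat_lit 526) (nat_lit 7565) (.f (nat_lit 399) (nat_lit 367) (nat_lit 6510) (.d (nat_lit 428) (nat_lit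 400) (nat_lit 1420) (nat_lit 427) (nat_lit 2443)))))))))
noncomputable def s67590 : Cert := .r (nat_lit 3773962425700235452789419352813872038215364427407780804749698170255931756474516339761164284110217891529049832447137221710874224595011338554126900800248189068615467663360) (.p (nat_lit 526) (.a (.f (nat_lit 527) (nat_lit 559) (nat_lit 4526) (.d (nat_lit 525) (nat_lit 557) (nat_lit 5549) (nat_lit 561) (nat_lit 525))) (.a (.f (nat_lit 559) (nat_lit 527) (nat_lit 4526) (.f (nat_lit 558) (nat_lit 591) (nat_lit 4558) (.f (nat_lit 589) (nat_lit 557) (nat_lit 5581) (.d (nat_lit 590) (nat_lit 561) (nat_lit 1581) (nat_lit 621) (nat_lit 5613))))) (.a (.f (nat_lit 525) (nat_lit 557) (nat_lit 5549) (.f (nat_lit 493) (nat_lit 398) (nat_lit 5517) (.f (nat_lit 463) (nat_lit 465) (nat_lit 1485) (.d (nat_lit 492) (nat_lit 491) (nat_lit 2507) (nat_lit 495) (nat_lit 2508))))) (.f (nat_lit 527) (nat_lit 559) (nat_lit 4526) (.f (nat_lit 495)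 (nat_lit 398) (nat_lit 4494) (.f (nat_lit 492) (nat_lit 493) (nat_lit 492) (.f (nat_lit 525) (nat_lit 561) (nat_lit 525) (.d (nat_lit 524) (nat_lit 491) (nat_lit 3563) (nat_lit 523) (nat_lit 2539))))))))))
noncomputable def s67605 : Cert := .r (nat_lit 3773962425700235452789419352813872038215364427407780804749698170255931756474516339761164284110217891529049832447137221710874224595011338554126900800248189068615467663360) (.p (nat_lit 526) (.a (.f (nat_lit 527) (nat_lit 559) (nat_lit 4526) (.d (nat_lit 525) (nat_lit 557) (nat_lit 5549) (nat_lit 561) (nat_lit 525))) (.a (.f (nat_lit 559) (nat_lit 527) (nat_lit 4526) (.f (nat_lit 558) (nat_lit 591) (nat_lit 4558) (.f (nat_lit 589) (nat_lit 557) (nat_lit 5581) (.d (nat_lit 590) (nat_lit 561) (nat_lit 1581) (nat_lit 621) (nat_lit 5613))))) (.a (.f (nat_lit 557) (nat_lit 525) (nat_lit 5549) (.f (nat_lit 558) (nat_lit 589) (nat_lit 5581) (.f (nat_lit 591) (nat_lit 559) (nat_lit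 4558) (.f (nat_lit 590) (nat_lit 623) (nat_lit 4590) (.f (nat_lit 463) (nat_lit 495) (nat_lit 6606) (.d (nat_lit 429) (nat_lit 397) (nat_lit 7565) (nat_lit 465) (nat_lit 3501))))))) (.a (.f (nat_lit 527) (nat_lit 559) (nat_lit 4526) (.f (nat_lit 525) (nat_lit 561) (nat_lit 525) (.f (nat_lit 492) (nat_lit 493) (nat_lit 3564) (.f (nat_lit 524) (nat_lit 491) (nat_lit 3563) (.f (nat_lit 523) (nat_lit 495) (nat_lit 2539) (.d (nat_lit 555) (nat_lit 554) (nat_lit 1546) (nat_lit 556) (nat_lit 1547))))))) (.f (nat_lit 525) (nat_lit 557) (nat_lit 5549) (.f (nat_lit 527) (nat_lit 561) (nat_lit 525) (.f (nat_lit 492) (nat_lit 493) (nat_lit 3564) (.f (nat_lit 524) (nat_lit 491) (nat_lit 3563) (.f (nat_lit 523) (nat_lit 495) (nat_lit 2539) (.d (nat_lit 555) (nat_lit 554) (nat_lit 1546) (nat_lit 556) (nat_lit 1547))))))))))))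
noncomputable def s67609 : Cert := .r (nat_lit 3773962425700235452789419352813872038215364427407780804749698170255931756474516339761164284110217891529049832447137221710874224595011338554126900800248189068615467663360) (.p (nat_lit 398) (.a (.f (nat_lit 527) (nat_lit 495) (nat_lit 4494) (.f (nat_lit 526) (nat_lit 559) (nat_lit 4526) (.d (nat_lit 525) (nat_lit 493) (nat_lit 5517) (nat_lit 561) (nat_lit 525)))) (.a (.f (nat_lit 527) (nat_lit 495) (nat_lit 4494) (.f (nat_lit 526) (nat_lit 559) (nat_lit 4526) (.d (nat_lit 525) (nat_lit 557) (nat_lit 5549) (nat_lit 561) (nat_lit 525)))) (.a (.f (nat_lit 397) (nat_lit 365) (nat_lit 7533) (.f (nat_lit 429) (nat_lit 526) (nat_lit 7565) (.f (nat_lit 399) (nat_lit 367) (nat_lit 6510) (.d (nat_lit 428) (nat_lit 400) (nat_lit 1420) (nat_lit 427) (nat_lit 2443))))) (.f (nat_lit 365) (nat_lit 397) (nat_lit 7533) (.f (nat_lit 366) (nat_lit 333) (nat_lit 7501) (.d (nat_lit 367) (nat_lit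 335) (nat_lit 6478) (nat_lit 399) (nat_lit 6510))))))))
noncomputable def s67614 : Cert := .r (nat_lit 3773962425700235452789419352813872038215364427407780804749698170255931756474516339761164284110217891529049832447137221710874224595011338554126900800248189068615467663360) (.p (nat_lit 526) (.a (.f (nat_lit 527) (nat_lit 559) (nat_lit 4526) (.d (nat_lit 525) (nat_lit 557) (nat_lit 5549) (nat_lit 561) (nat_lit 525))) (.a (.f (nat_lit 527) (nat_lit 559) (nat_lit 4526) (.f (nat_lit 398) (nat_lit 495) (nat_lit 4494) (.d (nat_lit 397) (nat_lit 365) (nat_lit 7533) (nat_lit 429) (nat_lit 7565)))) (.a (.f (nat_lit 557) (nat_lit 525) (nat_lit 5549) (.f (nat_lit 558) (nat_lit 589) (nat_lit 5581) (.f (nat_lit 591) (nat_lit 559) (nat_lit 4558) (.f (nat_lit 590) (nat_lit 623) (nat_lit 4590) (.f (nat_lit 463) (nat_lit 495) (nat_lit 6606) (.d (nat_lit 429) (nat_lit 397) (nat_lit 7565) (nat_lit 465) (nat_lit 3501))))))) (.f (nat_lit 525)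 (nat_lit 557) (nat_lit 5549) (.f (nat_lit 527) (nat_lit 561) (nat_lit 525) (.f (nat_lit 398) (nat_lit 495) (nat_lit 4494) (.d (nat_lit 397) (nat_lit 365) (nat_lit 7533) (nat_lit 429) (nat_lit 7565)))))))))
noncomputable def s67621 : Cert := .r (nat_lit 3773962425700235452789419352813872038215364427407780804749698170255931756474516339761164284110217891529049832447137221710874224595011338554126900800248189068615467663360) (.p (nat_lit 526) (.a (.f (nat_lit 527) (nat_lit 559) (nat_lit 4526) (.d (nat_lit 525) (nat_lit 557) (nat_lit 5549) (nat_lit 561) (nat_lit 525))) (.a (.f (nat_lit 559) (nat_lit 527) (nat_lit 4526) (.f (nat_lit 558) (nat_lit 591) (nat_lit 4558) (.f (nat_lit 589) (nat_lit 557) (nat_lit 5581) (.d (nat_lit 590) (nat_lit 561) (nat_lit 1581) (nat_lit 621) (nat_lit 5613))))) (.a (.f (nat_lit 525) (nat_lit 557) (nat_lit 5549) (.f (nat_lit 398) (nat_lit 493) (nat_lit 5517) (.d (nat_lit 397) (nat_lit 365) (nat_lit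 7533) (nat_lit 429) (nat_lit 7565)))) (.f (nat_lit 527) (nat_lit 559) (nat_lit 4526) (.f (nat_lit 525) (nat_lit 561) (nat_lit 525) (.d (nat_lit 493) (nat_lit 398) (nat_lit 5517) (nat_lit 492) (nat_lit 3564))))))))
noncomputable def s67696 : Cert := .r (nat_lit 3773962425700235452789419352813872038215364427407780804749698170255931756474516339761164284110217891529049832447137221710874224595011338554126900800248189068615467663360) (.p (nat_lit 398) (.a (.f (nat_lit 495) (nat_lit 527) (nat_lit 4494) (.f (nat_lit 463) (nat_lit 366) (nat_lit 4462) (.d (nat_lit 465) (nat_lit 429) (nat_lit 3501) (nat_lit 493) (nat_lit 1485)))) (.a (.f (nat_lit 527) (nat_lit 495) (nat_lit 4494) (.f (nat_lit 526) (nat_lit 559) (nat_lit 4526) (.d (nat_lit 525) (nat_lit 493) (nat_lit 5517) (nat_lit 561) (nat_lit 525)))) (.a (.f (nat_lit 527) (nat_lit 495) (nat_lit 4494) (.f (nat_lit 526) (nat_lit 559) (nat_lit 4526) (.d (nat_lit 525) (nat_lit 557)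 (nat_lit 5549) (nat_lit 561) (nat_lit 525)))) (.f (nat_lit 493) (nat_lit 525) (nat_lit 5517) (.f (nat_lit 463) (nat_lit 465) (nat_lit 1485) (.d (nat_lit 461) (nat_lit 366) (nat_lit 5485) (nat_lit 492) (nat_lit 1484))))))))
noncomputable def s67698 : Cert := .r (nat_lit 3773962425700235452789419352813872038212591757713659989890119756071788672771079902685788467535047411948435211139331596087834250188907198976029509589286785496786493505536) (.p (nat_lit 430) (.a s67576 (.a (.p (nat_lit 526) (.a (.f (nat_lit 527) (nat_lit 559) (nat_lit 4526) (.d (nat_lit 525) (nat_lit 557) (nat_lit 5549) (nat_lit 561) (nat_lit 525))) (.f (nat_lit 429) (nat_lit 397) (nat_lit 7565) (.f (nat_lit 463) (nat_lit 465) (nat_lit 3501) (.d (nat_lit 428) (nat_lit 427) (nat_lit 427) (nat_lit 461) (nat_lit 3500)))))) (.a s67696 (.a (.p (nat_lit 398) (.a (.f (nat_lit 527) (nat_lit 495) (nat_lit 4494) (.f (nat_lit 526) (nat_lit 559) (nat_lit 4526) (.d (nat_lit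 525) (nat_lit 493) (nat_lit 5517) (nat_lit 561) (nat_lit 525)))) (.a (.f (nat_lit 527) (nat_lit 495) (nat_lit 4494) (.f (nat_lit 526) (nat_lit 559) (nat_lit 4526) (.d (nat_lit 525) (nat_lit 557) (nat_lit 5549) (nat_lit 561) (nat_lit 525)))) (.f (nat_lit 365) (nat_lit 397) (nat_lit 7533) (.f (nat_lit 366) (nat_lit 333) (nat_lit 7501) (.d (nat_lit 367) (nat_lit 335) (nat_lit 6478) (nat_lit 399) (nat_lit 6510))))))) (.a (.p (nat_lit 398) (.a (.f (nat_lit 495) (nat_lit 527) (nat_lit 4494) (.f (nat_lit 463) (nat_lit 366) (nat_lit 4462) (.d (nat_lit 465) (nat_lit 429) (nat_lit 3501) (nat_lit 493) (nat_lit 1485)))) (.a (.f (nat_lit 397) (nat_lit 365) (nat_lit 7533) (.f (nat_lit 429) (nat_lit 526) (nat_lit 7565) (.f (nat_lit 399) (nat_lit 367) (nat_lit 6510) (.d (nat_lit 428) (nat_lit 400) (nat_lit 1420) (nat_lit 427) (nat_lit 2443))))) (.f (nat_lit 365) (nat_lit 397) (nat_lit 7533) (.f (nat_lit 366) (nat_lit 333) (nat_lit 7501)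 (.d (nat_lit 367) (nat_lit 335) (nat_lit 6478) (nat_lit 399) (nat_lit 6510))))))) (.a (.p (nat_lit 398) (.a (.f (nat_lit 495) (nat_lit 527) (nat_lit 4494) (.f (nat_lit 463) (nat_lit 366) (nat_lit 4462) (.d (nat_lit 465) (nat_lit 429) (nat_lit 3501) (nat_lit 493) (nat_lit 1485)))) (.a (.f (nat_lit 493) (nat_lit 525) (nat_lit 5517) (.f (nat_lit 463) (nat_lit 465) (nat_lit 1485) (.d (nat_lit 492) (nat_lit 491) (nat_lit 2507) (nat_lit 495) (nat_lit 2508)))) (.f (nat_lit 365) (nat_lit 397) (nat_lit 7533) (.f (nat_lit 366) (nat_lit 333) (nat_lit 7501) (.d (nat_lit 367) (nat_lit 335) (nat_lit 6478) (nat_lit 399) (nat_lit 6510))))))) (.p (nat_lit 398) (.a (.f (nat_lit 397) (nat_lit 365) (nat_lit 7533) (.f (nat_lit 429) (nat_lit 526) (nat_lit 7565) (.f (nat_lit 399) (nat_lit 367) (nat_lit 6510) (.d (nat_lit 428) (nat_lit 400) (nat_lit 1420) (nat_lit 427) (nat_lit 2443))))) (.f (nat_lit 493) (nat_lit 525) (nat_lit 5517) (.f (nat_lit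 463) (nat_lit 465) (nat_lit 1485) (.d (nat_lit 492) (nat_lit 491) (nat_lit 2507) (nat_lit 495) (nat_lit 2508)))))))))))))
noncomputable def s67707 : Cert := .r (nat_lit 3773962425700235452789419352837689089530310204303180232426993888653488792878081940885092338381798600141335034290884224437622854705202265284023639707812847322952938553344) (.p (nat_lit 461) (.a (.f (nat_lit 493) (nat_lit 492) (nat_lit 1484) (.f (nat_lit 429) (nat_lit 428) (nat_lit 3500) (.d (nat_lit 397) (nat_lit 365) (nat_lit 4461) (nat_lit 526) (nat_lit 4493)))) (.a (.f (nat_lit 493) (nat_lit 492) (nat_lit 1484) (.f (nat_lit 429) (nat_lit 428) (nat_lit 3500) (.d (nat_lit 526) (nat_lit 397) (nat_lit 4493) (nat_lit 558) (nat_lit 7597)))) (.a (.f (nat_lit 493) (nat_lit 492) (nat_lit 1484) (.f (nat_lit 428) (nat_lit 429) (nat_lit 3500) (.f (nat_lit 460) (nat_lit 427) (nat_lit 3499) (.d (nat_lit 459) (nat_lit 458) (nat_lit 458) (nat_lit 495) (nat_lit 459)))))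 (.a (.p (nat_lit 460) (.a (.d (nat_lit 492) (nat_lit 491) (nat_lit 1483) (nat_lit 493) (nat_lit 1484)) (.a (.f (nat_lit 493) (nat_lit 492) (nat_lit 1484) (.d (nat_lit 459) (nat_lit 458) (nat_lit 458) (nat_lit 495) (nat_lit 459))) (.a (.f (nat_lit 459) (nat_lit 495) (nat_lit 459) (.f (nat_lit 458) (nat_lit 493) (nat_lit 458) (.d (nat_lit 490) (nat_lit 489) (nat_lit 1481) (nat_lit 491) (nat_lit 1482)))) (.f (nat_lit 459) (nat_lit 495) (nat_lit 459) (.d (nat_lit 491) (nat_lit 490) (nat_lit 1482) (nat_lit 492) (nat_lit 1483))))))) (.a (.f (nat_lit 429) (nat_lit 428) (nat_lit 3500) (.f (nat_lit 526) (nat_lit 558) (nat_lit 7597) (.d (nat_lit 397) (nat_lit 365) (nat_lit 4461) (nat_lit 493) (nat_lit 4493)))) (.f (nat_lit 429) (nat_lit 428) (nat_lit 3500) (.f (nat_lit 526) (nat_lit 558) (nat_lit 7597) (.d (nat_lit 397) (nat_lit 365) (nat_lit 4461) (nat_lit 430) (nat_lit 7565))))))))))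
noncomputable def s67721 : Cert := .r (nat_lit 3773962425700235452789419352837689089530310204303180232426993888653488792878081940885092338381798600141335034290884224437622854705202265284023639707812847322952938553344) (.p (nat_lit 461) (.a (.f (nat_lit 493) (nat_lit 492) (nat_lit 1484) (.f (nat_lit 429) (nat_lit 428) (nat_lit 3500) (.f (nat_lit 397) (nat_lit 365) (nat_lit 4461) (.f (nat_lit 398) (nat_lit 366) (nat_lit 6509) (.f (nat_lit 430) (nat_lit 525) (nat_lit 5517) (.f (nat_lit 495) (nat_lit 527) (nat_lit 4494) (.f (nat_lit 399) (nat_lit 367) (nat_lit 6510) (.f (nat_lit 400) (nat_lit 401) (nat_lit 1421) (.d (nat_lit 368) (nat_lit 369) (nat_lit 2413) (nat_lit 432) (nat_lit 5487)))))))))) (.a (.f (nat_lit 493) (nat_lit 492) (nat_lit 1484) (.f (nat_lit 428) (nat_lit 429) (nat_lit 3500) (.f (nat_lit 460) (nat_lit 427) (nat_lit 3499) (.d (nat_lit 459) (nat_lit 458) (nat_lit 458) (nat_lit 495) (nat_lit 459))))) (.a (.p (nat_lit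 460) (.a (.d (nat_lit 492) (nat_lit 491) (nat_lit 1483) (nat_lit 493) (nat_lit 1484)) (.a (.f (nat_lit 493) (nat_lit 492) (nat_lit 1484) (.d (nat_lit 459) (nat_lit 458) (nat_lit 458) (nat_lit 495) (nat_lit 459))) (.a (.f (nat_lit 459) (nat_lit 495) (nat_lit 459) (.f (nat_lit 458) (nat_lit 493) (nat_lit 458) (.d (nat_lit 490) (nat_lit 489) (nat_lit 1481) (nat_lit 491) (nat_lit 1482)))) (.f (nat_lit 459) (nat_lit 495) (nat_lit 459) (.d (nat_lit 491) (nat_lit 490) (nat_lit 1482) (nat_lit 492) (nat_lit 1483))))))) (.a (.f (nat_lit 428) (nat_lit 429) (nat_lit 3500) (.f (nat_lit 460) (nat_lit 427) (nat_lit 3499) (.f (nat_lit 459) (nat_lit 495) (nat_lit 459) (.f (nat_lit 458) (nat_lit 493) (nat_lit 458) (.d (nat_lit 490) (nat_lit 489) (nat_lit 1481) (nat_lit 491) (nat_lit 1482)))))) (.a (.f (nat_lit 428) (nat_lit 429) (nat_lit 3500) (.f (nat_lit 460) (nat_lit 427) (nat_lit 3499) (.f (nat_lit 491) (nat_lit 492) (nat_lit 1483) (.d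 (nat_lit 459) (nat_lit 490) (nat_lit 1482) (nat_lit 495) (nat_lit 459))))) (.f (nat_lit 493) (nat_lit 492) (nat_lit 1484) (.f (nat_lit 429) (nat_lit 428) (nat_lit 3500) (.f (nat_lit 397) (nat_lit 365) (nat_lit 4461) (.f (nat_lit 398) (nat_lit 366) (nat_lit 6509) (.f (nat_lit 525) (nat_lit 430) (nat_lit 5517) (.f (nat_lit 557) (nat_lit 589) (nat_lit 6605) (.d (nat_lit 556) (nat_lit 524) (nat_lit 5548) (nat_lit 588) (nat_lit 5580))))))))))))))
noncomputable def s67732 : Cert := .r (nat_lit 3773962425700235452789419352813872038215364427407780804749698170255931756474516339761164284110217891529049832447137221710874224595011338554126900800248189068615467663360) (.p (nat_lit 398) (.a (.f (nat_lit 495) (nat_lit 527) (nat_lit 4494) (.f (nat_lit 463) (nat_lit 366) (nat_lit 4462) (.d (nat_lit 465) (nat_lit 429) (nat_lit 3501) (nat_lit 493) (nat_lit 1485)))) (.a (.f (nat_lit 493) (nat_lit 525) (nat_lit 5517) (.f (nat_lit 463) (nat_lit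 465) (nat_lit 1485) (.d (nat_lit 492) (nat_lit 491) (nat_lit 2507) (nat_lit 495) (nat_lit 2508)))) (.a (.f (nat_lit 493) (nat_lit 525) (nat_lit 5517) (.f (nat_lit 366) (nat_lit 461) (nat_lit 5485) (.d (nat_lit 367) (nat_lit 335) (nat_lit 6478) (nat_lit 399) (nat_lit 6510)))) (.f (nat_lit 495) (nat_lit 527) (nat_lit 4494) (.f (nat_lit 463) (nat_lit 366) (nat_lit 4462) (.d (nat_lit 465) (nat_lit 429) (nat_lit 3501) (nat_lit 466) (nat_lit 1486))))))))
noncomputable def s67737 : Cert := .r (nat_lit 3773962425700235452789419352813872038215364427407780804749698170255931756474516339761164284110217891529049832447137221710874224595011338554126900800248189068615467663360) (.p (nat_lit 398) (.a (.f (nat_lit 495) (nat_lit 527) (nat_lit 4494) (.f (nat_lit 463) (nat_lit 366) (nat_lit 4462) (.d (nat_lit 465) (nat_lit 429) (nat_lit 3501) (nat_lit 493) (nat_lit 1485)))) (.a (.f (nat_lit 493) (nat_lit 525) (nat_lit 5517) (.f (nat_lit 463)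 (nat_lit 465) (nat_lit 1485) (.d (nat_lit 492) (nat_lit 491) (nat_lit 2507) (nat_lit 495) (nat_lit 2508)))) (.a (.f (nat_lit 493) (nat_lit 525) (nat_lit 5517) (.f (nat_lit 365) (nat_lit 397) (nat_lit 7533) (.d (nat_lit 366) (nat_lit 333) (nat_lit 7501) (nat_lit 461) (nat_lit 5485)))) (.f (nat_lit 495) (nat_lit 527) (nat_lit 4494) (.f (nat_lit 463) (nat_lit 366) (nat_lit 4462) (.d (nat_lit 465) (nat_lit 429) (nat_lit 3501) (nat_lit 466) (nat_lit 1486))))))))
noncomputable def s67769 : Cert := .r (nat_lit 3773962425700235452789419352813872038215364427407780804749698170255931756474516339761164284110217891529049832447137221710874224595011338554126900800248189068615467663360) (.p (nat_lit 527) (.a (.f (nat_lit 495) (nat_lit 398) (nat_lit 4494) (.d (nat_lit 559) (nat_lit 463) (nat_lit 7598) (nat_lit 526) (nat_lit 4526))) (.a (.f (nat_lit 559) (nat_lit 526) (nat_lit 4526) (.d (nat_lit 495) (nat_lit 463) (nat_lit 7598) (nat_lit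 591) (nat_lit 7630))) (.a (.f (nat_lit 526) (nat_lit 559) (nat_lit 4526) (.f (nat_lit 398) (nat_lit 495) (nat_lit 4494) (.d (nat_lit 399) (nat_lit 367) (nat_lit 6510) (nat_lit 431) (nat_lit 6542)))) (.a (.f (nat_lit 526) (nat_lit 559) (nat_lit 4526) (.f (nat_lit 431) (nat_lit 399) (nat_lit 6542) (.f (nat_lit 463) (nat_lit 558) (nat_lit 6574) (.d (nat_lit 465) (nat_lit 466) (nat_lit 3502) (nat_lit 493) (nat_lit 1485))))) (.a (.f (nat_lit 495) (nat_lit 398) (nat_lit 4494) (.d (nat_lit 463) (nat_lit 431) (nat_lit 4527) (nat_lit 559) (nat_lit 7598))) (.f (nat_lit 495) (nat_lit 398) (nat_lit 4494) (.f (nat_lit 463) (nat_lit 431) (nat_lit 4527) (.d (nat_lit 465) (nat_lit 429) (nat_lit 3501) (nat_lit 493) (nat_lit 1485))))))))))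
noncomputable def s67826 : Cert := .r (nat_lit 3773962425700235452789419352813872038215364427407780804749698170255931756474516339761164284110217891529049832447137221710874224595011338554126900800248189068615467663360) (.p (nat_lit 429) (.a (.f (nat_lit 463) (nat_lit 465) (nat_lit 3501) (.d (nat_lit 428) (nat_lit 427) (nat_lit 427) (nat_lit 461) (nat_lit 3500))) (.a (.f (nat_lit 463) (nat_lit 465) (nat_lit 3501) (.d (nat_lit 428) (nat_lit 431) (nat_lit 428) (nat_lit 461) (nat_lit 3500))) (.a (.f (nat_lit 463) (nat_lit 465) (nat_lit 3501) (.f (nat_lit 526) (nat_lit 397) (nat_lit 7565) (.d (nat_lit 558) (nat_lit 431) (nat_lit 6574) (nat_lit 461) (nat_lit 7597)))) (.a (.f (nat_lit 463) (nat_lit 465) (nat_lit 3501) (.d (nat_lit 428) (nat_lit 427) (nat_lit 427) (nat_lit 431) (nat_lit 428))) (.f (nat_lit 397) (nat_lit 526) (nat_lit 7565) (.d (nat_lit 365) (nat_lit 333) (nat_lit 4429) (nat_lit 398) (nat_lit 7533))))))))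
noncomputable def s67837 : Cert := .r (nat_lit 3773962425700235452789419352813872038215364427407780804749698170255931756474516339761164284110217891529049832447137221710874224595011338554126900800248189068615467663360) (.p (nat_lit 526) (.a (.f (nat_lit 527) (nat_lit 559) (nat_lit 4526) (.d (nat_lit 525) (nat_lit 557) (nat_lit 5549) (nat_lit 561) (nat_lit 525))) (.a (.f (nat_lit 559) (nat_lit 527) (nat_lit 4526) (.f (nat_lit 558) (nat_lit 591) (nat_lit 4558) (.f (nat_lit 589) (nat_lit 557) (nat_lit 5581) (.d (nat_lit 590) (nat_lit 561) (nat_lit 1581) (nat_lit 621) (nat_lit 5613))))) (.a (.f (nat_lit 525) (nat_lit 557) (nat_lit 5549) (.f (nat_lit 398) (nat_lit 493) (nat_lit 5517) (.d (nat_lit 399) (nat_lit 367) (nat_lit 6510) (nat_lit 431) (nat_lit 6542)))) (.f (nat_lit 527) (nat_lit 559) (nat_lit 4526) (.f (nat_lit 525) (nat_lit 561) (nat_lit 525) (.d (nat_lit 493) (nat_lit 398) (nat_lit 5517) (nat_lit 492) (nat_lit 3564))))))))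
noncomputable def s67848 : Cert := .r (nat_lit 3773962425700235452789419352813872038215364427407780804749698170255931756474516339761164284110217891529049832447137221710874224595011338554126900800248189068615467663360) (.p (nat_lit 526) (.a (.f (nat_lit 527) (nat_lit 559) (nat_lit 4526) (.d (nat_lit 525) (nat_lit 557) (nat_lit 5549) (nat_lit 561) (nat_lit 525))) (.a (.f (nat_lit 559) (nat_lit 527) (nat_lit 4526) (.f (nat_lit 558) (nat_lit 591) (nat_lit 4558) (.f (nat_lit 589) (nat_lit 557) (nat_lit 5581) (.d (nat_lit 590) (nat_lit 561) (nat_lit 1581) (nat_lit 621) (nat_lit 5613))))) (.a (.f (nat_lit 557) (nat_lit 525) (nat_lit 5549) (.f (nat_lit 558) (nat_lit 589) (nat_lit 5581) (.d (nat_lit 429) (nat_lit 397) (nat_lit 7565) (nat_lit 461) (nat_lit 7597)))) (.f (nat_lit 527) (nat_lit 559) (nat_lit 4526) (.f (nat_lit 525) (nat_lit 561) (nat_lit 525) (.f (nat_lit 492) (nat_lit 493) (nat_lit 3564) (.f (nat_lit 524) (nat_lit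 491) (nat_lit 3563) (.f (nat_lit 523) (nat_lit 495) (nat_lit 2539) (.d (nat_lit 555) (nat_lit 554) (nat_lit 1546) (nat_lit 556) (nat_lit 1547)))))))))))
noncomputable def s67853 : Cert := .r (nat_lit 3773962425700235452789419352813872038215364427407780804749698170255931756474516339761164284110217891529049832447137221710874224595011338554126900800248189068615467663360) (.p (nat_lit 398) (.a (.f (nat_lit 397) (nat_lit 365) (nat_lit 7533) (.f (nat_lit 429) (nat_lit 526) (nat_lit 7565) (.f (nat_lit 399) (nat_lit 367) (nat_lit 6510) (.d (nat_lit 428) (nat_lit 400) (nat_lit 1420) (nat_lit 427) (nat_lit 2443))))) (.a (.f (nat_lit 527) (nat_lit 495) (nat_lit 4494) (.f (nat_lit 526) (nat_lit 559) (nat_lit 4526) (.d (nat_lit 399) (nat_lit 367) (nat_lit 6510) (nat_lit 431) (nat_lit 6542)))) (.a (.f (nat_lit 397) (nat_lit 365) (nat_lit 7533) (.f (nat_lit 526) (nat_lit 429) (nat_lit 7565) (.d (nat_lit 527) (nat_lit 495) (nat_lit 4494)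 (nat_lit 559) (nat_lit 4526)))) (.f (nat_lit 365) (nat_lit 397) (nat_lit 7533) (.f (nat_lit 366) (nat_lit 333) (nat_lit 7501) (.d (nat_lit 367) (nat_lit 335) (nat_lit 6478) (nat_lit 399) (nat_lit 6510))))))))
noncomputable def s67869 : Cert := .r (nat_lit 3773962425700235452789419352813872038215364427408426367219219897403345736267517092729746710558425197407257497286272383616378434893668749892446935258107164861608654536704) (.f (nat_lit 397) (nat_lit 365) (nat_lit 7533) (.p (nat_lit 396) (.a (.f (nat_lit 399) (nat_lit 367) (nat_lit 6510) (.f (nat_lit 395) (nat_lit 431) (nat_lit 395) (.d (nat_lit 427) (nat_lit 426) (nat_lit 1418) (nat_lit 428) (nat_lit 1419)))) (.a (.f (nat_lit 395) (nat_lit 431) (nat_lit 395) (.f (nat_lit 394) (nat_lit 429) (nat_lit 394) (.d (nat_lit 426) (nat_lit 425) (nat_lit 1417) (nat_lit 427) (nat_lit 1418)))) (.a (.f (nat_lit 399) (nat_lit 367) (nat_lit 6510) (.f (nat_lit 428) (nat_lit 427) (nat_lit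 1419) (.f (nat_lit 429) (nat_lit 400) (nat_lit 1420) (.f (nat_lit 493) (nat_lit 525) (nat_lit 5517) (.d (nat_lit 364) (nat_lit 363) (nat_lit 3435) (nat_lit 461) (nat_lit 7532)))))) (.f (nat_lit 399) (nat_lit 367) (nat_lit 6510) (.f (nat_lit 395) (nat_lit 431) (nat_lit 395) (.d (nat_lit 363) (nat_lit 362) (nat_lit 3434) (nat_lit 364) (nat_lit 3435)))))))))
noncomputable def s67871 : Cert := .r (nat_lit 3773962425700235452738272624565494821496408338394849567996313138286508869138839912134662193541394851608998737254544969255391620155518212444607881166718729802157209419776) (.p (nat_lit 494) (.a s67609 (.a s67621 (.a (.p (nat_lit 526) (.a (.f (nat_lit 527) (nat_lit 559) (nat_lit 4526) (.d (nat_lit 525) (nat_lit 557) (nat_lit 5549) (nat_lit 561) (nat_lit 525))) (.a (.f (nat_lit 527) (nat_lit 559) (nat_lit 4526) (.f (nat_lit 398) (nat_lit 495) (nat_lit 4494) (.d (nat_lit 399) (nat_lit 367) (nat_lit 6510) (nat_lit 431) (nat_lit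 6542)))) (.f (nat_lit 525) (nat_lit 557) (nat_lit 5549) (.f (nat_lit 398) (nat_lit 493) (nat_lit 5517) (.d (nat_lit 399) (nat_lit 367) (nat_lit 6510) (nat_lit 431) (nat_lit 6542))))))) (.a s67848 (.a (.p (nat_lit 526) (.a (.f (nat_lit 527) (nat_lit 559) (nat_lit 4526) (.d (nat_lit 525) (nat_lit 557) (nat_lit 5549) (nat_lit 561) (nat_lit 525))) (.a (.f (nat_lit 527) (nat_lit 559) (nat_lit 4526) (.f (nat_lit 398) (nat_lit 495) (nat_lit 4494) (.d (nat_lit 397) (nat_lit 365) (nat_lit 7533) (nat_lit 429) (nat_lit 7565)))) (.f (nat_lit 557) (nat_lit 525) (nat_lit 5549) (.f (nat_lit 558) (nat_lit 589) (nat_lit 5581) (.d (nat_lit 429) (nat_lit 397) (nat_lit 7565) (nat_lit 461) (nat_lit 7597))))))) (.a s67853 (.p (nat_lit 398) (.a (.f (nat_lit 365) (nat_lit 397) (nat_lit 7533) (.f (nat_lit 366) (nat_lit 333) (nat_lit 7501) (.d (nat_lit 367) (nat_lit 335) (nat_lit 6478) (nat_lit 399) (nat_lit 6510)))) (.a (.f (nat_lit 493) (nat_lit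 525) (nat_lit 5517) (.f (nat_lit 366) (nat_lit 461) (nat_lit 5485) (.d (nat_lit 367) (nat_lit 335) (nat_lit 6478) (nat_lit 399) (nat_lit 6510)))) (.a (.f (nat_lit 493) (nat_lit 525) (nat_lit 5517) (.f (nat_lit 365) (nat_lit 397) (nat_lit 7533) (.d (nat_lit 366) (nat_lit 333) (nat_lit 7501) (nat_lit 461) (nat_lit 5485)))) s67869)))))))))))
noncomputable def s67918 : Cert := .r (nat_lit 3773962426139582502986631646324336472637617504300093427205484684487754530526714675872112180877238668611331828773091933184446395069894019676589746370723467612788573077504) (.p (nat_lit 526) (.a (.f (nat_lit 494) (nat_lit 559) (nat_lit 4526) (.d (nat_lit 525) (nat_lit 557) (nat_lit 5549) (nat_lit 561) (nat_lit 525))) (.a (.f (nat_lit 525) (nat_lit 561) (nat_lit 525) (.f (nat_lit 524) (nat_lit 559) (nat_lit 524) (.d (nat_lit 556) (nat_lit 555) (nat_lit 1547) (nat_lit 557) (nat_lit 1548)))) (.a (.f (nat_lit 494) (nat_lit 559) (nat_lit 4526) (.f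 (nat_lit 429) (nat_lit 397) (nat_lit 7565) (.f (nat_lit 463) (nat_lit 465) (nat_lit 3501) (.d (nat_lit 461) (nat_lit 428) (nat_lit 3500) (nat_lit 558) (nat_lit 7597))))) (.f (nat_lit 525) (nat_lit 561) (nat_lit 525) (.d (nat_lit 557) (nat_lit 494) (nat_lit 5549) (nat_lit 556) (nat_lit 1548)))))))
noncomputable def s67987 : Cert := .r (nat_lit 3773962425700235452738272624565494821497794673241909975426628418917121749633605374326030913323112244290261511559486215244534822180195954524992445347837619777550849933312) (.p (nat_lit 364) (.a (.f (nat_lit 335) (nat_lit 336) (nat_lit 2380) (.d (nat_lit 399) (nat_lit 400) (nat_lit 364) (nat_lit 431) (nat_lit 5454))) (.a (.f (nat_lit 463) (nat_lit 465) (nat_lit 3501) (.f (nat_lit 399) (nat_lit 400) (nat_lit 364) (.f (nat_lit 431) (nat_lit 334) (nat_lit 7502) (.f (nat_lit 368) (nat_lit 336) (nat_lit 6479) (.d (nat_lit 332) (nat_lit 331) (nat_lit 3403) (nat_lit 333) (nat_lit 3404))))))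 (.a (.f (nat_lit 463) (nat_lit 465) (nat_lit 3501) (.f (nat_lit 399) (nat_lit 400) (nat_lit 364) (.d (nat_lit 431) (nat_lit 334) (nat_lit 7502) (nat_lit 335) (nat_lit 5454)))) (.f (nat_lit 332) (nat_lit 331) (nat_lit 3403) (.f (nat_lit 368) (nat_lit 333) (nat_lit 3404) (.d (nat_lit 336) (nat_lit 335) (nat_lit 2380) (nat_lit 337) (nat_lit 2381))))))))
noncomputable def s68022 : Cert := .r (nat_lit 3773962425700235452738272624565494821497794673241909975426628418917121749633605374326030913323112244290261511559486215244534822180195954524992445347837619777550849933312) (.p (nat_lit 368) (.a (.f (nat_lit 463) (nat_lit 465) (nat_lit 3501) (.f (nat_lit 336) (nat_lit 337) (nat_lit 2381) (.f (nat_lit 399) (nat_lit 431) (nat_lit 6479) (.d (nat_lit 364) (nat_lit 335) (nat_lit 2380) (nat_lit 400) (nat_lit 364))))) (.a (.f (nat_lit 463) (nat_lit 465) (nat_lit 3501) (.f (nat_lit 400) (nat_lit 401) (nat_lit 365) (.f (nat_lit 399) (nat_lit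 364) (nat_lit 364) (.d (nat_lit 336) (nat_lit 337) (nat_lit 2381) (nat_lit 431) (nat_lit 6479))))) (.a (.f (nat_lit 463) (nat_lit 465) (nat_lit 3501) (.f (nat_lit 400) (nat_lit 401) (nat_lit 365) (.f (nat_lit 399) (nat_lit 364) (nat_lit 364) (.d (nat_lit 431) (nat_lit 335) (nat_lit 5454) (nat_lit 495) (nat_lit 6511))))) (.a (.f (nat_lit 463) (nat_lit 465) (nat_lit 3501) (.f (nat_lit 336) (nat_lit 337) (nat_lit 2381) (.f (nat_lit 399) (nat_lit 431) (nat_lit 6479) (.f (nat_lit 400) (nat_lit 401) (nat_lit 365) (.f (nat_lit 304) (nat_lit 272) (nat_lit 5391) (.f (nat_lit 333) (nat_lit 332) (nat_lit 3404) (.f (nat_lit 334) (nat_lit 369) (nat_lit 3405) (.d (nat_lit 305) (nat_lit 273) (nat_lit 6416) (nat_lit 335) (nat_lit 2349))))))))) (.a (.f (nat_lit 336) (nat_lit 337) (nat_lit 2381) (.f (nat_lit 335) (nat_lit 364) (nat_lit 2380) (.f (nat_lit 333) (nat_lit 332) (nat_lit 3404) (.f (nat_lit 334) (nat_lit 369) (nat_lit 333) (.f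 (nat_lit 304) (nat_lit 305) (nat_lit 2349) (.f (nat_lit 400) (nat_lit 401) (nat_lit 365) (.f (nat_lit 271) (nat_lit 303) (nat_lit 4367) (.d (nat_lit 272) (nat_lit 239) (nat_lit 7407) (nat_lit 240) (nat_lit 5359))))))))) (.f (nat_lit 336) (nat_lit 337) (nat_lit 2381) (.f (nat_lit 335) (nat_lit 364) (nat_lit 2380) (.f (nat_lit 399) (nat_lit 431) (nat_lit 5454) (.f (nat_lit 333) (nat_lit 332) (nat_lit 3404) (.f (nat_lit 334) (nat_lit 369) (nat_lit 333) (.d (nat_lit 304) (nat_lit 272) (nat_lit 5391) (nat_lit 305) (nat_lit 2349)))))))))))))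
noncomputable def s68072 : Cert := .r (nat_lit 3773962425700235452738272624565494821497794673241909975426628418917121749633605374326030913323112244290261511559486215244534822180195954524992445347837619777550849933312) (.p (nat_lit 368) (.a (.f (nat_lit 463) (nat_lit 465) (nat_lit 3501) (.f (nat_lit 336) (nat_lit 337) (nat_lit 2381) (.f (nat_lit 399) (nat_lit 431) (nat_lit 6479) (.f (nat_lit 400) (nat_lit 401) (nat_lit 365) (.f (nat_lit 304) (nat_lit 272) (nat_lit 5391) (.f (nat_lit 333) (nat_lit 332) (nat_lit 3404) (.f (nat_lit 334) (nat_lit 369) (nat_lit 3405) (.d (nat_lit 305) (nat_lit 273) (nat_lit 6416) (nat_lit 335) (nat_lit 2349))))))))) (.a (.f (nat_lit 333) (nat_lit 332) (nat_lit 3404) (.f (nat_lit 369) (nat_lit 334) (nat_lit 3405) (.d (nat_lit 337) (nat_lit 336) (nat_lit 2381) (nat_lit 338) (nat_lit 2382)))) (.a (.f (nat_lit 337) (nat_lit 336) (nat_lit 2381) (.f (nat_lit 369) (nat_lit 338) (nat_lit 2382) (.d (nat_lit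 401) (nat_lit 400) (nat_lit 365) (nat_lit 402) (nat_lit 366)))) (.a (.f (nat_lit 333) (nat_lit 332) (nat_lit 3404) (.f (nat_lit 369) (nat_lit 334) (nat_lit 3405) (.d (nat_lit 401) (nat_lit 400) (nat_lit 365) (nat_lit 402) (nat_lit 366)))) (.f (nat_lit 463) (nat_lit 465) (nat_lit 3501) (.f (nat_lit 336) (nat_lit 337) (nat_lit 2381) (.f (nat_lit 399) (nat_lit 431) (nat_lit 6479) (.f (nat_lit 400) (nat_lit 401) (nat_lit 365) (.f (nat_lit 304) (nat_lit 272) (nat_lit 5391) (.f (nat_lit 303) (nat_lit 271) (nat_lit 7439) (.f (nat_lit 305) (nat_lit 273) (nat_lit 6416) (.f (nat_lit 333) (nat_lit 332) (nat_lit 3404) (.d (nat_lit 334) (nat_lit 302) (nat_lit 1325) (nat_lit 335) (nat_lit 2349)))))))))))))))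
noncomputable def s68073 : Cert := .r (nat_lit 3773962425700235452738272624565494821497794673241909975426628418917121749633605374326030913323112244290261511559486215244534822180195954524992445347837619777550849933312) (.p (nat_lit 364) (.a (.f (nat_lit 332) (nat_lit 331) (nat_lit 3403) (.f (nat_lit 368) (nat_lit 333) (nat_lit 3404) (.d (nat_lit 336) (nat_lit 335) (nat_lit 2380) (nat_lit 337) (nat_lit 2381)))) (.a (.f (nat_lit 335) (nat_lit 336) (nat_lit 2380) (.f (nat_lit 363) (nat_lit 334) (nat_lit 2379) (.d (nat_lit 395) (nat_lit 394) (nat_lit 1386) (nat_lit 396) (nat_lit 1387)))) (.f (nat_lit 332) (nat_lit 331) (nat_lit 3403) (.f (nat_lit 333) (nat_lit 368) (nat_lit 3404) (.f (nat_lit 395) (nat_lit 396) (nat_lit 1387) (.f (nat_lit 363) (nat_lit 394) (nat_lit 1386) (.d (nat_lit 362) (nat_lit 334) (nat_lit 2378) (nat_lit 361) (nat_lit 2377)))))))))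
noncomputable def s68105 : Cert := .r (nat_lit 3773962425700235452738272624565494821497794673242555537895774379251291916110143810399127045846939440960643845219308210594593879034835028512358287965955032578058927210496) (.p (nat_lit 397) (.a (.f (nat_lit 365) (nat_lit 333) (nat_lit 4429) (.f (nat_lit 367) (nat_lit 335) (nat_lit 6478) (.d (nat_lit 396) (nat_lit 368) (nat_lit 1388) (nat_lit 395) (nat_lit 2411)))) (.a (.f (nat_lit 367) (nat_lit 335) (nat_lit 6478) (.f (nat_lit 396) (nat_lit 395) (nat_lit 2411) (.d (nat_lit 368) (nat_lit 365) (nat_lit 1388) (nat_lit 369) (nat_lit 1389)))) (.a (.f (nat_lit 365) (nat_lit 333) (nat_lit 4429) (.f (nat_lit 461) (nat_lit 493) (nat_lit 5485) (.f (nat_lit 364) (nat_lit 332) (nat_lit 7500) (.d (nat_lit 363) (nat_lit 362) (nat_lit 362) (nat_lit 399) (nat_lit 363))))) (.f (nat_lit 367) (nat_lit 335) (nat_lit 6478) (.f (nat_lit 396) (nat_lit 395) (nat_lit 2411) (.d (nat_lit 368) (nat_lit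 369) (nat_lit 1389) (nat_lit 399) (nat_lit 2412))))))))
noncomputable def s68256 : Cert := .r (nat_lit 3773962425700235452738272624565494821497794673241909975426102345378580410990558130672350101828980091399306047908447782066911607358570282233656576772199431588071696498688) (.p (nat_lit 428) (.a (.p (nat_lit 427) (.a (.f (nat_lit 426) (nat_lit 461) (nat_lit 426) (.d (nat_lit 458) (nat_lit 457) (nat_lit 1449) (nat_lit 459) (nat_lit 1450))) (.a (.f (nat_lit 459) (nat_lit 458) (nat_lit 1450) (.f (nat_lit 395) (nat_lit 394) (nat_lit 3466) (.d (nat_lit 431) (nat_lit 396) (nat_lit 3467) (nat_lit 460) (nat_lit 1451)))) (.f (nat_lit 398) (nat_lit 399) (nat_lit 2443) (.d (nat_lit 426) (nat_lit 397) (nat_lit 2442) (nat_lit 461) (nat_lit 426)))))) (.a (.p (nat_lit 427) (.a (.f (nat_lit 426) (nat_lit 461) (nat_lit 426) (.d (nat_lit 458) (nat_lit 457) (nat_lit 1449) (nat_lit 459) (nat_lit 1450))) (.a (.f (nat_lit 459) (nat_lit 458) (nat_lit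 1450) (.f (nat_lit 431) (nat_lit 460) (nat_lit 1451) (.d (nat_lit 399) (nat_lit 398) (nat_lit 2443) (nat_lit 400) (nat_lit 2444)))) (.f (nat_lit 398) (nat_lit 399) (nat_lit 2443) (.d (nat_lit 426) (nat_lit 397) (nat_lit 2442) (nat_lit 461) (nat_lit 426)))))) (.a (.p (nat_lit 427) (.a (.f (nat_lit 426) (nat_lit 461) (nat_lit 426) (.d (nat_lit 458) (nat_lit 457) (nat_lit 1449) (nat_lit 459) (nat_lit 1450))) (.a (.f (nat_lit 459) (nat_lit 458) (nat_lit 1450) (.f (nat_lit 395) (nat_lit 394) (nat_lit 3466) (.d (nat_lit 431) (nat_lit 396) (nat_lit 3467) (nat_lit 460) (nat_lit 1451)))) (.f (nat_lit 461) (nat_lit 426) (nat_lit 426) (.f (nat_lit 398) (nat_lit 399) (nat_lit 2443) (.d (nat_lit 366) (nat_lit 334) (nat_lit 5453) (nat_lit 493) (nat_lit 5485))))))) (.a (.p (nat_lit 427) (.a (.f (nat_lit 426) (nat_lit 461) (nat_lit 426) (.d (nat_lit 458) (nat_lit 457) (nat_lit 1449) (nat_lit 459) (nat_lit 1450))) (.a (.f (nat_lit 459)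 (nat_lit 458) (nat_lit 1450) (.f (nat_lit 395) (nat_lit 394) (nat_lit 3466) (.d (nat_lit 431) (nat_lit 396) (nat_lit 3467) (nat_lit 460) (nat_lit 1451)))) (.f (nat_lit 426) (nat_lit 461) (nat_lit 426) (.d (nat_lit 394) (nat_lit 393) (nat_lit 3465) (nat_lit 395) (nat_lit 3466)))))) (.a (.p (nat_lit 459) (.a (.f (nat_lit 460) (nat_lit 431) (nat_lit 1451) (.d (nat_lit 458) (nat_lit 427) (nat_lit 1450) (nat_lit 457) (nat_lit 2473))) (.a (.f (nat_lit 460) (nat_lit 431) (nat_lit 1451) (.d (nat_lit 458) (nat_lit 457) (nat_lit 2473) (nat_lit 461) (nat_lit 2474))) (.a (.f (nat_lit 458) (nat_lit 427) (nat_lit 1450) (.d (nat_lit 460) (nat_lit 457) (nat_lit 2473) (nat_lit 461) (nat_lit 2474))) (.a (.f (nat_lit 460) (nat_lit 431) (nat_lit 1451) (.d (nat_lit 458) (nat_lit 427) (nat_lit 1450) (nat_lit 461) (nat_lit 2474))) (.a (.f (nat_lit 431) (nat_lit 460) (nat_lit 1451) (.f (nat_lit 399) (nat_lit 400) (nat_lit 2444) (.f (nat_lit 398)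 (nat_lit 427) (nat_lit 2443) (.f (nat_lit 367) (nat_lit 335) (nat_lit 5454) (.f (nat_lit 396) (nat_lit 395) (nat_lit 3467) (.f (nat_lit 397) (nat_lit 368) (nat_lit 2412) (.f (nat_lit 364) (nat_lit 363) (nat_lit 3435) (.d (nat_lit 332) (nat_lit 300) (nat_lit 4396) (nat_lit 461) (nat_lit 4428))))))))) (.f (nat_lit 427) (nat_lit 458) (nat_lit 1450) (.f (nat_lit 395) (nat_lit 394) (nat_lit 3466) (.f (nat_lit 396) (nat_lit 431) (nat_lit 3467) (.d (nat_lit 364) (nat_lit 332) (nat_lit 5451) (nat_lit 491) (nat_lit 6507))))))))))) (.a (.p (nat_lit 460) (.a (.f (nat_lit 459) (nat_lit 431) (nat_lit 1451) (.d (nat_lit 458) (nat_lit 457) (nat_lit 2473) (nat_lit 461) (nat_lit 2474))) (.a (.p (nat_lit 492) (.a (.f (nat_lit 397) (nat_lit 524) (nat_lit 6540) (.d (nat_lit 365) (nat_lit 333) (nat_lit 4429) (nat_lit 396) (nat_lit 6508))) (.a (.f (nat_lit 524) (nat_lit 397) (nat_lit 6540) (.f (nat_lit 525) (nat_lit 557) (nat_lit 4524) (.f (nat_lit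 493) (nat_lit 396) (nat_lit 4492) (.d (nat_lit 461) (nat_lit 398) (nat_lit 6541) (nat_lit 556) (nat_lit 6572))))) (.a (.f (nat_lit 524) (nat_lit 397) (nat_lit 6540) (.f (nat_lit 461) (nat_lit 556) (nat_lit 6572) (.f (nat_lit 525) (nat_lit 557) (nat_lit 4524) (.f (nat_lit 493) (nat_lit 398) (nat_lit 6541) (.d (nat_lit 526) (nat_lit 527) (nat_lit 3564) (nat_lit 558) (nat_lit 4525)))))) (.a (.p (nat_lit 461) (.a (.f (nat_lit 459) (nat_lit 458) (nat_lit 2474) (.f (nat_lit 491) (nat_lit 490) (nat_lit 1482) (.d (nat_lit 523) (nat_lit 396) (nat_lit 5515) (nat_lit 555) (nat_lit 6571)))) (.f (nat_lit 524) (nat_lit 556) (nat_lit 6572) (.f (nat_lit 525) (nat_lit 557) (nat_lit 4524) (.f (nat_lit 493) (nat_lit 398) (nat_lit 6541) (.d (nat_lit 526) (nat_lit 527) (nat_lit 3564) (nat_lit 558) (nat_lit 4525))))))) (.p (nat_lit 396) (.a (.f (nat_lit 397) (nat_lit 365) (nat_lit 6508) (.d (nat_lit 395) (nat_lit 363) (nat_lit 7531) (nat_lit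 394) (nat_lit 394))) (.f (nat_lit 493) (nat_lit 525) (nat_lit 4492) (.f (nat_lit 461) (nat_lit 364) (nat_lit 4460) (.d (nat_lit 491) (nat_lit 490) (nat_lit 2506) (nat_lit 523) (nat_lit 5515))))))))))) (.a (.p (nat_lit 397) (.a (.f (nat_lit 365) (nat_lit 333) (nat_lit 5452) (.d (nat_lit 492) (nat_lit 461) (nat_lit 5484) (nat_lit 524) (nat_lit 6540))) (.a (.f (nat_lit 492) (nat_lit 524) (nat_lit 6540) (.d (nat_lit 365) (nat_lit 396) (nat_lit 6508) (nat_lit 461) (nat_lit 5484))) (.a (.f (nat_lit 431) (nat_lit 459) (nat_lit 1451) (.f (nat_lit 396) (nat_lit 395) (nat_lit 3467) (.f (nat_lit 492) (nat_lit 524) (nat_lit 6540) (.f (nat_lit 493) (nat_lit 525) (nat_lit 4492) (.f (nat_lit 461) (nat_lit 364) (nat_lit 4460) (.d (nat_lit 491) (nat_lit 490) (nat_lit 2506) (nat_lit 523) (nat_lit 5515))))))) (.a (.f (nat_lit 365) (nat_lit 333) (nat_lit 5452) (.d (nat_lit 492) (nat_lit 396) (nat_lit 6508) (nat_lit 524) (nat_lit 6540))) (.f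 (nat_lit 365) (nat_lit 333) (nat_lit 4429) (.f (nat_lit 431) (nat_lit 459) (nat_lit 1451) (.f (nat_lit 396) (nat_lit 395) (nat_lit 3467) (.f (nat_lit 399) (nat_lit 400) (nat_lit 2444) (.f (nat_lit 367) (nat_lit 335) (nat_lit 5454) (.d (nat_lit 368) (nat_lit 366) (nat_lit 1388) (nat_lit 398) (nat_lit 2412)))))))))))) (.a (.p (nat_lit 396) (.a (.f (nat_lit 395) (nat_lit 431) (nat_lit 3467) (.d (nat_lit 394) (nat_lit 393) (nat_lit 393) (nat_lit 397) (nat_lit 394))) (.a (.f (nat_lit 395) (nat_lit 431) (nat_lit 3467) (.f (nat_lit 397) (nat_lit 394) (nat_lit 394) (.d (nat_lit 492) (nat_lit 363) (nat_lit 7531) (nat_lit 365) (nat_lit 6508)))) (.a (.f (nat_lit 395) (nat_lit 431) (nat_lit 3467) (.f (nat_lit 492) (nat_lit 363) (nat_lit 7531) (.d (nat_lit 397) (nat_lit 365) (nat_lit 6508) (nat_lit 524) (nat_lit 6540)))) (.a (.p (nat_lit 364) (.a (.d (nat_lit 461) (nat_lit 332) (nat_lit 4428) (nat_lit 493) (nat_lit 4460)) (.f (nat_lit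 365) (nat_lit 333) (nat_lit 6476) (.f (nat_lit 397) (nat_lit 492) (nat_lit 6508) (.f (nat_lit 363) (nat_lit 331) (nat_lit 7499) (.d (nat_lit 362) (nat_lit 361) (nat_lit 361) (nat_lit 398) (nat_lit 362))))))) (.f (nat_lit 395) (nat_lit 431) (nat_lit 3467) (.f (nat_lit 492) (nat_lit 363) (nat_lit 7531) (.f (nat_lit 493) (nat_lit 525) (nat_lit 4492) (.f (nat_lit 461) (nat_lit 364) (nat_lit 4460) (.d (nat_lit 491) (nat_lit 490) (nat_lit 2506) (nat_lit 523) (nat_lit 5515))))))))))) (.p (nat_lit 365) (.a (.f (nat_lit 397) (nat_lit 333) (nat_lit 5452) (.d (nat_lit 492) (nat_lit 396) (nat_lit 6508) (nat_lit 524) (nat_lit 6540))) (.a (.f (nat_lit 431) (nat_lit 459) (nat_lit 1451) (.f (nat_lit 396) (nat_lit 395) (nat_lit 3467) (.f (nat_lit 492) (nat_lit 397) (nat_lit 6508) (.f (nat_lit 525) (nat_lit 493) (nat_lit 4492) (.f (nat_lit 524) (nat_lit 557) (nat_lit 4524) (.d (nat_lit 523) (nat_lit 491) (nat_lit 5515) (nat_lit 555) (nat_lit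 5547))))))) (.a (.f (nat_lit 333) (nat_lit 397) (nat_lit 5452) (.f (nat_lit 366) (nat_lit 398) (nat_lit 7501) (.f (nat_lit 431) (nat_lit 459) (nat_lit 1451) (.f (nat_lit 399) (nat_lit 400) (nat_lit 2444) (.f (nat_lit 367) (nat_lit 335) (nat_lit 5454) (.f (nat_lit 332) (nat_lit 368) (nat_lit 3404) (.d (nat_lit 331) (nat_lit 330) (nat_lit 330) (nat_lit 364) (nat_lit 3403)))))))) (.f (nat_lit 431) (nat_lit 459) (nat_lit 1451) (.f (nat_lit 396) (nat_lit 395) (nat_lit 3467) (.f (nat_lit 364) (nat_lit 333) (nat_lit 6476) (.f (nat_lit 399) (nat_lit 400) (nat_lit 2444) (.f (nat_lit 363) (nat_lit 331) (nat_lit 7499) (.f (nat_lit 335) (nat_lit 367) (nat_lit 5454) (.d (nat_lit 366) (nat_lit 334) (nat_lit 2379) (nat_lit 398) (nat_lit 363))))))))))))))))) (.a (.p (nat_lit 427) (.a (.f (nat_lit 426) (nat_lit 461) (nat_lit 426) (.d (nat_lit 458) (nat_lit 457) (nat_lit 1449) (nat_lit 459) (nat_lit 1450))) (.a (.f (nat_lit 398) (nat_lit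 399) (nat_lit 2443) (.p (nat_lit 366) (.a (.d (nat_lit 461) (nat_lit 334) (nat_lit 5453) (nat_lit 493) (nat_lit 5485)) (.f (nat_lit 395) (nat_lit 394) (nat_lit 3466) (.f (nat_lit 365) (nat_lit 333) (nat_lit 7501) (.f (nat_lit 367) (nat_lit 335) (nat_lit 6478) (.d (nat_lit 396) (nat_lit 364) (nat_lit 1387) (nat_lit 397) (nat_lit 2411)))))))) (.f (nat_lit 398) (nat_lit 399) (nat_lit 2443) (.f (nat_lit 426) (nat_lit 397) (nat_lit 2442) (.d (nat_lit 458) (nat_lit 457) (nat_lit 1449) (nat_lit 459) (nat_lit 1450))))))) (.a (.p (nat_lit 427) (.a (.f (nat_lit 459) (nat_lit 458) (nat_lit 1450) (.f (nat_lit 395) (nat_lit 394) (nat_lit 3466) (.d (nat_lit 431) (nat_lit 396) (nat_lit 3467) (nat_lit 460) (nat_lit 1451)))) (.f (nat_lit 398) (nat_lit 399) (nat_lit 2443) (.d (nat_lit 426) (nat_lit 397) (nat_lit 2442) (nat_lit 461) (nat_lit 426))))) (.a (.p (nat_lit 427) (.a (.f (nat_lit 398) (nat_lit 399) (nat_lit 2443) (.d (nat_lit 426)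 (nat_lit 397) (nat_lit 2442) (nat_lit 461) (nat_lit 426))) (.a (.f (nat_lit 461) (nat_lit 426) (nat_lit 426) (.f (nat_lit 398) (nat_lit 399) (nat_lit 2443) (.d (nat_lit 366) (nat_lit 334) (nat_lit 5453) (nat_lit 493) (nat_lit 5485)))) (.a (.f (nat_lit 426) (nat_lit 461) (nat_lit 426) (.d (nat_lit 394) (nat_lit 393) (nat_lit 3465) (nat_lit 395) (nat_lit 3466))) (.f (nat_lit 395) (nat_lit 394) (nat_lit 3466) (.f (nat_lit 431) (nat_lit 396) (nat_lit 3467) (.d (nat_lit 399) (nat_lit 398) (nat_lit 2443) (nat_lit 400) (nat_lit 2444)))))))) (.p (nat_lit 427) (.a (.f (nat_lit 459) (nat_lit 458) (nat_lit 1450) (.f (nat_lit 395) (nat_lit 394) (nat_lit 3466) (.d (nat_lit 431) (nat_lit 396) (nat_lit 3467) (nat_lit 460) (nat_lit 1451)))) (.a (.f (nat_lit 459) (nat_lit 458) (nat_lit 1450) (.f (nat_lit 431) (nat_lit 460) (nat_lit 1451) (.d (nat_lit 399) (nat_lit 398) (nat_lit 2443) (nat_lit 400) (nat_lit 2444)))) (.a (.f (nat_lit 398)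 (nat_lit 399) (nat_lit 2443) (.f (nat_lit 426) (nat_lit 397) (nat_lit 2442) (.d (nat_lit 458) (nat_lit 457) (nat_lit 1449) (nat_lit 459) (nat_lit 1450)))) (.f (nat_lit 395) (nat_lit 394) (nat_lit 3466) (.f (nat_lit 431) (nat_lit 396) (nat_lit 3467) (.d (nat_lit 399) (nat_lit 398) (nat_lit 2443) (nat_lit 400) (nat_lit 2444))))))))))))))))))
noncomputable def s68310 : Cert := .r (nat_lit 3773962425700235452738272624565494821496408338395495130465834865433922848931840665103244619989602157487206402093680131160895830454175623782927915624577705595150396293120) (.p (nat_lit 366) (.a (.f (nat_lit 463) (nat_lit 495) (nat_lit 4462) (.f (nat_lit 429) (nat_lit 465) (nat_lit 3501) (.d (nat_lit 461) (nat_lit 428) (nat_lit 3500) (nat_lit 493) (nat_lit 5485)))) (.a (.f (nat_lit 463) (nat_lit 495) (nat_lit 4462) (.f (nat_lit 334) (nat_lit 431) (nat_lit 4430) (.d (nat_lit 429) (nat_lit 461) (nat_lit 5453) (nat_lit 465) (nat_lit 3501)))) (.a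 (.f (nat_lit 463) (nat_lit 495) (nat_lit 4462) (.f (nat_lit 493) (nat_lit 461) (nat_lit 5485) (.d (nat_lit 494) (nat_lit 465) (nat_lit 1485) (nat_lit 525) (nat_lit 5517)))) (.a (.f (nat_lit 463) (nat_lit 495) (nat_lit 4462) (.f (nat_lit 465) (nat_lit 429) (nat_lit 3501) (.d (nat_lit 431) (nat_lit 334) (nat_lit 4430) (nat_lit 466) (nat_lit 3502)))) (.f (nat_lit 367) (nat_lit 335) (nat_lit 6478) (.f (nat_lit 365) (nat_lit 333) (nat_lit 7501) (.d (nat_lit 494) (nat_lit 397) (nat_lit 7533) (nat_lit 399) (nat_lit 6510)))))))))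
noncomputable def s68345 : Cert := .r (nat_lit 3773962425700235452738272624565494821496408338395495130465834865433922848931840665103244619989602157487206402093680131160895830454175623782927915624577705595150396293120) (.p (nat_lit 366) (.a (.f (nat_lit 463) (nat_lit 495) (nat_lit 4462) (.f (nat_lit 334) (nat_lit 431) (nat_lit 4430) (.d (nat_lit 429) (nat_lit 461) (nat_lit 5453) (nat_lit 465) (nat_lit 3501)))) (.a (.f (nat_lit 463) (nat_lit 495) (nat_lit 4462) (.f (nat_lit 493) (nat_lit 461) (nat_lit 5485) (.d (nat_lit 494) (nat_lit 465) (nat_lit 1485) (nat_lit 525) (nat_lit 5517)))) (.a (.f (nat_lit 463) (nat_lit 495) (nat_lit 4462) (.f (nat_lit 465) (nat_lit 429) (nat_lit 3501) (.d (nat_lit 431) (nat_lit 334) (nat_lit 4430) (nat_lit 466) (nat_lit 3502)))) (.f (nat_lit 367) (nat_lit 335) (nat_lit 6478) (.f (nat_lit 365) (nat_lit 333) (nat_lit 7501) (.d (nat_lit 494) (nat_lit 397) (nat_lit 7533) (nat_lit 399) (nat_lit 6510))))))))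
noncomputable def s68369 : Cert := .r (nat_lit 3773962425700235452738272624565494821496408338395495130465834865433922848931840665103244619989602157487206402093680131160895830454175623782927915624577705595150396293120) (.p (nat_lit 366) (.a (.f (nat_lit 367) (nat_lit 335) (nat_lit 6478) (.f (nat_lit 365) (nat_lit 333) (nat_lit 7501) (.d (nat_lit 494) (nat_lit 397) (nat_lit 7533) (nat_lit 399) (nat_lit 6510)))) (.a (.f (nat_lit 367) (nat_lit 335) (nat_lit 6478) (.f (nat_lit 399) (nat_lit 494) (nat_lit 6510) (.f (nat_lit 461) (nat_lit 493) (nat_lit 5485) (.f (nat_lit 429) (nat_lit 334) (nat_lit 5453) (.f (nat_lit 400) (nat_lit 401) (nat_lit 1421) (.d (nat_lit 428) (nat_lit 397) (nat_lit 1420) (nat_lit 427) (nat_lit 2443))))))) (.a (.f (nat_lit 365) (nat_lit 333) (nat_lit 7501) (.f (nat_lit 397) (nat_lit 494) (nat_lit 7533) (.f (nat_lit 461) (nat_lit 493) (nat_lit 5485) (.f (nat_lit 429) (nat_lit 334) (nat_lit 5453) (.f (nat_lit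 364) (nat_lit 332) (nat_lit 7500) (.d (nat_lit 363) (nat_lit 362) (nat_lit 362) (nat_lit 399) (nat_lit 363))))))) (.f (nat_lit 461) (nat_lit 493) (nat_lit 5485) (.f (nat_lit 334) (nat_lit 429) (nat_lit 5453) (.d (nat_lit 335) (nat_lit 303) (nat_lit 6446) (nat_lit 367) (nat_lit 6478))))))))
noncomputable def s68371 : Cert := .r (nat_lit 3773962425700235452738272624565494821496408338395495130465834865433922848931840665103244619989602157487206402093680131160895830454175623782927915624577705595150396293120) (.p (nat_lit 366) (.a (.f (nat_lit 463) (nat_lit 495) (nat_lit 4462) (.f (nat_lit 429) (nat_lit 465) (nat_lit 3501) (.d (nat_lit 461) (nat_lit 428) (nat_lit 3500) (nat_lit 493) (nat_lit 5485)))) (.a (.f (nat_lit 463) (nat_lit 495) (nat_lit 4462) (.f (nat_lit 334) (nat_lit 431) (nat_lit 4430) (.d (nat_lit 429) (nat_lit 461) (nat_lit 5453) (nat_lit 465) (nat_lit 3501)))) (.a (.f (nat_lit 463) (nat_lit 495) (nat_lit 4462) (.f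 (nat_lit 334) (nat_lit 431) (nat_lit 4430) (.d (nat_lit 335) (nat_lit 303) (nat_lit 6446) (nat_lit 367) (nat_lit 6478)))) (.f (nat_lit 461) (nat_lit 493) (nat_lit 5485) (.f (nat_lit 334) (nat_lit 429) (nat_lit 5453) (.d (nat_lit 335) (nat_lit 303) (nat_lit 6446) (nat_lit 367) (nat_lit 6478))))))))
noncomputable def s68405 : Cert := .r (nat_lit 3773962425700235452738272624589311872811354115290248995673608856684065905542405513258590247812975560221283939098291971982140250265709139174504620074283388056494680309760) (.p (nat_lit 493) (.a (.f (nat_lit 492) (nat_lit 461) (nat_lit 1484) (.d (nat_lit 494) (nat_lit 465) (nat_lit 1485) (nat_lit 491) (nat_lit 2507))) (.a (.f (nat_lit 494) (nat_lit 465) (nat_lit 1485) (.d (nat_lit 492) (nat_lit 491) (nat_lit 2507) (nat_lit 495) (nat_lit 2508))) (.a (.f (nat_lit 492) (nat_lit 461) (nat_lit 1484) (.d (nat_lit 494) (nat_lit 491) (nat_lit 2507) (nat_lit 495) (nat_lit 2508))) (.a (.f (nat_lit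 465) (nat_lit 494) (nat_lit 1485) (.f (nat_lit 461) (nat_lit 492) (nat_lit 1484) (.d (nat_lit 429) (nat_lit 428) (nat_lit 3500) (nat_lit 430) (nat_lit 3501)))) (.a (.p (nat_lit 430) (.a (.d (nat_lit 465) (nat_lit 429) (nat_lit 3501) (nat_lit 494) (nat_lit 1485)) (.a (.f (nat_lit 494) (nat_lit 465) (nat_lit 1485) (.f (nat_lit 398) (nat_lit 525) (nat_lit 5517) (.d (nat_lit 366) (nat_lit 461) (nat_lit 5485) (nat_lit 495) (nat_lit 4462)))) (.a (.p (nat_lit 398) (.a (.d (nat_lit 366) (nat_lit 461) (nat_lit 5485) (nat_lit 495) (nat_lit 4462)) (.a (.f (nat_lit 494) (nat_lit 525) (nat_lit 5517) (.f (nat_lit 527) (nat_lit 495) (nat_lit 4494) (.f (nat_lit 526) (nat_lit 559) (nat_lit 4526) (.d (nat_lit 397) (nat_lit 365) (nat_lit 7533) (nat_lit 429) (nat_lit 7565))))) (.f (nat_lit 461) (nat_lit 366) (nat_lit 5485) (.d (nat_lit 525) (nat_lit 429) (nat_lit 6541) (nat_lit 494) (nat_lit 5517)))))) (.f (nat_lit 429) (nat_lit 465) (nat_lit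 3501) (.d (nat_lit 428) (nat_lit 427) (nat_lit 427) (nat_lit 461) (nat_lit 3500))))))) (.f (nat_lit 461) (nat_lit 492) (nat_lit 1484) (.f (nat_lit 429) (nat_lit 428) (nat_lit 3500) (.f (nat_lit 430) (nat_lit 465) (nat_lit 3501) (.d (nat_lit 398) (nat_lit 366) (nat_lit 5485) (nat_lit 525) (nat_lit 6541)))))))))))
noncomputable def s68416 : Cert := .r (nat_lit 3773962425700235452738272624589311872811354115290248995673608856684065905542405513258590247812975560221283939098291971982140250265709139174504620074283388056494680309760) (.p (nat_lit 461) (.a (.f (nat_lit 492) (nat_lit 493) (nat_lit 1484) (.f (nat_lit 460) (nat_lit 491) (nat_lit 1483) (.d (nat_lit 428) (nat_lit 427) (nat_lit 3499) (nat_lit 429) (nat_lit 3500)))) (.a s65248 (.a (.f (nat_lit 492) (nat_lit 493) (nat_lit 1484) (.f (nat_lit 460) (nat_lit 491) (nat_lit 1483) (.f (nat_lit 431) (nat_lit 432) (nat_lit 2476) (.f (nat_lit 459) (nat_lit 430) (nat_lit 2475) (.d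 (nat_lit 495) (nat_lit 494) (nat_lit 459) (nat_lit 527) (nat_lit 4527)))))) (.f (nat_lit 428) (nat_lit 429) (nat_lit 3500) (.f (nat_lit 460) (nat_lit 427) (nat_lit 3499) (.f (nat_lit 431) (nat_lit 432) (nat_lit 2476) (.f (nat_lit 459) (nat_lit 430) (nat_lit 2475) (.d (nat_lit 495) (nat_lit 494) (nat_lit 459) (nat_lit 527) (nat_lit 4527))))))))))
noncomputable def s68430 : Cert := .r (nat_lit 3773962425700235452738272624589311872811354115290248995673608856684065905542405513258590247812975560221283939098291971982140250265709139174504620074283388056494680309760) (.p (nat_lit 430) (.a (.f (nat_lit 429) (nat_lit 465) (nat_lit 3501) (.d (nat_lit 428) (nat_lit 427) (nat_lit 427) (nat_lit 461) (nat_lit 3500))) (.a (.f (nat_lit 465) (nat_lit 429) (nat_lit 3501) (.f (nat_lit 466) (nat_lit 431) (nat_lit 3502) (.d (nat_lit 498) (nat_lit 497) (nat_lit 462) (nat_lit 499) (nat_lit 463)))) (.p (nat_lit 527) (.a (.d (nat_lit 495) (nat_lit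 431) (nat_lit 4527) (nat_lit 559) (nat_lit 7598)) (.a (.f (nat_lit 559) (nat_lit 495) (nat_lit 7598) (.f (nat_lit 526) (nat_lit 494) (nat_lit 4526) (.d (nat_lit 525) (nat_lit 524) (nat_lit 524) (nat_lit 561) (nat_lit 525)))) (.a (.p (nat_lit 526) (.a (.f (nat_lit 494) (nat_lit 559) (nat_lit 4526) (.d (nat_lit 525) (nat_lit 557) (nat_lit 5549) (nat_lit 561) (nat_lit 525))) (.a (.f (nat_lit 525) (nat_lit 561) (nat_lit 525) (.f (nat_lit 524) (nat_lit 559) (nat_lit 524) (.d (nat_lit 556) (nat_lit 555) (nat_lit 1547) (nat_lit 557) (nat_lit 1548)))) (.a (.f (nat_lit 494) (nat_lit 559) (nat_lit 4526) (.d (nat_lit 431) (nat_lit 399) (nat_lit 6542) (nat_lit 558) (nat_lit 6574))) (.f (nat_lit 525) (nat_lit 561) (nat_lit 525) (.d (nat_lit 557) (nat_lit 494) (nat_lit 5549) (nat_lit 556) (nat_lit 1548))))))) (.f (nat_lit 495) (nat_lit 431) (nat_lit 4527) (.d (nat_lit 398) (nat_lit 366) (nat_lit 4462) (nat_lit 494) (nat_lit 4494))))))))))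
noncomputable def s68455 : Cert := .r (nat_lit 3773962425700235452738272624589311872811354115290248995673608856684065905542405513258590247812975560221283939098291971982140250265709139174504620074283388056494680309760) (.p (nat_lit 461) (.a (.f (nat_lit 492) (nat_lit 493) (nat_lit 1484) (.f (nat_lit 460) (nat_lit 491) (nat_lit 1483) (.d (nat_lit 428) (nat_lit 427) (nat_lit 3499) (nat_lit 429) (nat_lit 3500)))) (.a (.f (nat_lit 429) (nat_lit 428) (nat_lit 3500) (.f (nat_lit 430) (nat_lit 465) (nat_lit 3501) (.f (nat_lit 493) (nat_lit 492) (nat_lit 1484) (.d (nat_lit 398) (nat_lit 366) (nat_lit 5485) (nat_lit 525) (nat_lit 6541))))) (.a (.f (nat_lit 492) (nat_lit 493) (nat_lit 1484) (.f (nat_lit 460) (nat_lit 491) (nat_lit 1483) (.f (nat_lit 431) (nat_lit 432) (nat_lit 2476) (.f (nat_lit 430) (nat_lit 459) (nat_lit 2475) (.d (nat_lit 465) (nat_lit 429) (nat_lit 3501) (nat_lit 466) (nat_lit 3502)))))) (.a (.f (nat_lit 492)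 (nat_lit 493) (nat_lit 1484) (.f (nat_lit 460) (nat_lit 491) (nat_lit 1483) (.f (nat_lit 431) (nat_lit 432) (nat_lit 2476) (.f (nat_lit 459) (nat_lit 430) (nat_lit 2475) (.d (nat_lit 427) (nat_lit 426) (nat_lit 3498) (nat_lit 428) (nat_lit 3499)))))) (.f (nat_lit 429) (nat_lit 428) (nat_lit 3500) (.f (nat_lit 465) (nat_lit 430) (nat_lit 3501) (.f (nat_lit 498) (nat_lit 497) (nat_lit 462) (.f (nat_lit 466) (nat_lit 499) (nat_lit 463) (.f (nat_lit 435) (nat_lit 434) (nat_lit 2479) (.f (nat_lit 467) (nat_lit 436) (nat_lit 2480) (.f (nat_lit 431) (nat_lit 432) (nat_lit 3503) (.f (nat_lit 527) (nat_lit 495) (nat_lit 4527) (.f (nat_lit 562) (nat_lit 530) (nat_lit 6578) (.f (nat_lit 561) (nat_lit 563) (nat_lit 3599) (.d (nat_lit 526) (nat_lit 525) (nat_lit 525) (nat_lit 559) (nat_lit 3598)))))))))))))))))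
noncomputable def s68468 : Cert := .r (nat_lit 3773962425700235452738272624589311872811354115290248995673608856684065905542405513258590247812975560221283939098291971982140250265709139174504620074283388056494680309760) (.p (nat_lit 461) (.a (.f (nat_lit 492) (nat_lit 493) (nat_lit 1484) (.f (nat_lit 460) (nat_lit 491) (nat_lit 1483) (.d (nat_lit 428) (nat_lit 427) (nat_lit 3499) (nat_lit 429) (nat_lit 3500)))) (.a (.f (nat_lit 493) (nat_lit 492) (nat_lit 1484) (.f (nat_lit 494) (nat_lit 465) (nat_lit 1485) (.f (nat_lit 429) (nat_lit 428) (nat_lit 3500) (.d (nat_lit 397) (nat_lit 365) (nat_lit 4461) (nat_lit 526) (nat_lit 4493))))) (.a (.f (nat_lit 492) (nat_lit 493) (nat_lit 1484) (.f (nat_lit 460) (nat_lit 491) (nat_lit 1483) (.f (nat_lit 431) (nat_lit 432) (nat_lit 2476) (.f (nat_lit 430) (nat_lit 459) (nat_lit 2475) (.d (nat_lit 465) (nat_lit 429) (nat_lit 3501) (nat_lit 466) (nat_lit 3502)))))) (.a (.f (nat_lit 492)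 (nat_lit 493) (nat_lit 1484) (.f (nat_lit 460) (nat_lit 491) (nat_lit 1483) (.f (nat_lit 431) (nat_lit 432) (nat_lit 2476) (.f (nat_lit 459) (nat_lit 430) (nat_lit 2475) (.d (nat_lit 427) (nat_lit 426) (nat_lit 3498) (nat_lit 428) (nat_lit 3499)))))) (.a (.f (nat_lit 428) (nat_lit 429) (nat_lit 3500) (.f (nat_lit 460) (nat_lit 427) (nat_lit 3499) (.f (nat_lit 431) (nat_lit 432) (nat_lit 2476) (.f (nat_lit 430) (nat_lit 459) (nat_lit 2475) (.f (nat_lit 465) (nat_lit 466) (nat_lit 3502) (.f (nat_lit 494) (nat_lit 493) (nat_lit 1485) (.d (nat_lit 399) (nat_lit 367) (nat_lit 5486) (nat_lit 526) (nat_lit 6542)))))))) (.f (nat_lit 428) (nat_lit 429) (nat_lit 3500) (.f (nat_lit 460) (nat_lit 427) (nat_lit 3499) (.f (nat_lit 491) (nat_lit 492) (nat_lit 1483) (.f (nat_lit 459) (nat_lit 490) (nat_lit 1482) (.d (nat_lit 431) (nat_lit 430) (nat_lit 2475) (nat_lit 432) (nat_lit 2476))))))))))))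
noncomputable def s68523 : Cert := .r (nat_lit 3773962425700235452738272624589311872811354115290248995673608856684065905542405513258590247812975560221283939098291971982140250265709139174504620074283388056494680309760) (.p (nat_lit 465) (.a (.f (nat_lit 494) (nat_lit 493) (nat_lit 1485) (.f (nat_lit 466) (nat_lit 495) (nat_lit 1486) (.d (nat_lit 498) (nat_lit 497) (nat_lit 462) (nat_lit 499) (nat_lit 463)))) (.a (.f (nat_lit 430) (nat_lit 429) (nat_lit 3501) (.p (nat_lit 398) (.a (.f (nat_lit 494) (nat_lit 493) (nat_lit 1485) (.d (nat_lit 495) (nat_lit 366) (nat_lit 4462) (nat_lit 527) (nat_lit 4494))) (.a (.f (nat_lit 494) (nat_lit 493) (nat_lit 1485) (.f (nat_lit 527) (nat_lit 495) (nat_lit 4494) (.f (nat_lit 526) (nat_lit 559) (nat_lit 4526) (.d (nat_lit 525) (nat_lit 557) (nat_lit 5549) (nat_lit 561) (nat_lit 525))))) (.a (.f (nat_lit 366) (nat_lit 495) (nat_lit 4462) (.f (nat_lit 367) (nat_lit 335) (nat_lit 6478) (.f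 (nat_lit 365) (nat_lit 333) (nat_lit 7501) (.d (nat_lit 494) (nat_lit 397) (nat_lit 7533) (nat_lit 399) (nat_lit 6510))))) (.a (.f (nat_lit 366) (nat_lit 495) (nat_lit 4462) (.f (nat_lit 335) (nat_lit 367) (nat_lit 6478) (.f (nat_lit 334) (nat_lit 303) (nat_lit 6446) (.d (nat_lit 333) (nat_lit 301) (nat_lit 7469) (nat_lit 365) (nat_lit 7501))))) (.f (nat_lit 494) (nat_lit 493) (nat_lit 1485) (.f (nat_lit 365) (nat_lit 397) (nat_lit 7533) (.f (nat_lit 366) (nat_lit 333) (nat_lit 7501) (.d (nat_lit 367) (nat_lit 335) (nat_lit 6478) (nat_lit 399) (nat_lit 6510))))))))))) (.f (nat_lit 434) (nat_lit 433) (nat_lit 2478) (.f (nat_lit 466) (nat_lit 435) (nat_lit 2479) (.d (nat_lit 498) (nat_lit 497) (nat_lit 462) (nat_lit 499) (nat_lit 463)))))))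
noncomputable def s68530 : Cert := .r (nat_lit 3773962425700235452738272624589311872811354115290248995673608856684065905542405513258590247812975560221283939098291971982140250265709139174504620074283388056494680309760) (.p (nat_lit 527) (.a (.f (nat_lit 495) (nat_lit 431) (nat_lit 4527) (.d (nat_lit 559) (nat_lit 430) (nat_lit 7598) (nat_lit 432) (nat_lit 6575))) (.a (.f (nat_lit 495) (nat_lit 431) (nat_lit 4527) (.f (nat_lit 559) (nat_lit 432) (nat_lit 6575) (.f (nat_lit 558) (nat_lit 590) (nat_lit 5582) (.f (nat_lit 494) (nat_lit 591) (nat_lit 7630) (.f (nat_lit 557) (nat_lit 556) (nat_lit 2572) (.d (nat_lit 589) (nat_lit 526) (nat_lit 5581) (nat_lit 588) (nat_lit 1580))))))) (.a s65380 (.a (.f (nat_lit 495) (nat_lit 431) (nat_lit 4527) (.f (nat_lit 559) (nat_lit 430) (nat_lit 7598) (.f (nat_lit 558) (nat_lit 590) (nat_lit 5582) (.f (nat_lit 494) (nat_lit 591) (nat_lit 7630) (.f (nat_lit 557) (nat_lit 556) (nat_lit 2572)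 (.d (nat_lit 589) (nat_lit 526) (nat_lit 5581) (nat_lit 588) (nat_lit 1580))))))) (.a (.p (nat_lit 526) (.a (.f (nat_lit 525) (nat_lit 561) (nat_lit 525) (.f (nat_lit 557) (nat_lit 556) (nat_lit 1548) (.f (nat_lit 494) (nat_lit 430) (nat_lit 5549) (.d (nat_lit 558) (nat_lit 431) (nat_lit 6574) (nat_lit 589) (nat_lit 5581))))) (.a (.f (nat_lit 525) (nat_lit 561) (nat_lit 525) (.f (nat_lit 524) (nat_lit 559) (nat_lit 524) (.d (nat_lit 556) (nat_lit 555) (nat_lit 1547) (nat_lit 557) (nat_lit 1548)))) (.a (.p (nat_lit 494) (.a (.f (nat_lit 558) (nat_lit 431) (nat_lit 6574) (.d (nat_lit 559) (nat_lit 430) (nat_lit 4526) (nat_lit 591) (nat_lit 4558))) (.a (.f (nat_lit 558) (nat_lit 431) (nat_lit 6574) (.f (nat_lit 559) (nat_lit 591) (nat_lit 4558) (.d (nat_lit 557) (nat_lit 556) (nat_lit 2572) (nat_lit 589) (nat_lit 5581)))) (.a (.f (nat_lit 559) (nat_lit 430) (nat_lit 4526) (.d (nat_lit 591) (nat_lit 558) (nat_lit 4558) (nat_lit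 623) (nat_lit 7662))) (.a (.f (nat_lit 430) (nat_lit 559) (nat_lit 4526) (.f (nat_lit 431) (nat_lit 399) (nat_lit 6542) (.d (nat_lit 429) (nat_lit 397) (nat_lit 7565) (nat_lit 428) (nat_lit 428)))) (.f (nat_lit 431) (nat_lit 558) (nat_lit 6574) (.d (nat_lit 399) (nat_lit 367) (nat_lit 5486) (nat_lit 430) (nat_lit 6542)))))))) (.f (nat_lit 525) (nat_lit 561) (nat_lit 525) (.f (nat_lit 559) (nat_lit 524) (nat_lit 524) (.f (nat_lit 494) (nat_lit 430) (nat_lit 4526) (.d (nat_lit 591) (nat_lit 558) (nat_lit 4558) (nat_lit 623) (nat_lit 7662))))))))) s65408))))))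
noncomputable def s68548 : Cert := .r (nat_lit 3773962425700235452738272624589311872811354115290248995673608856684065905542405513258590247812975560221283939098291971982140250265709139174504620074283388056494680309760) (.p (nat_lit 465) (.a (.f (nat_lit 430) (nat_lit 429) (nat_lit 3501) (.f (nat_lit 466) (nat_lit 431) (nat_lit 3502) (.d (nat_lit 434) (nat_lit 433) (nat_lit 2478) (nat_lit 435) (nat_lit 2479)))) (.a (.f (nat_lit 434) (nat_lit 433) (nat_lit 2478) (.f (nat_lit 466) (nat_lit 435) (nat_lit 2479) (.d (nat_lit 498) (nat_lit 497) (nat_lit 462) (nat_lit 499) (nat_lit 463)))) (.a (.f (nat_lit 430) (nat_lit 429) (nat_lit 3501) (.f (nat_lit 466) (nat_lit 431) (nat_lit 3502) (.d (nat_lit 498) (nat_lit 497) (nat_lit 462) (nat_lit 499) (nat_lit 463)))) (.p (nat_lit 527) (.a (.f (nat_lit 495) (nat_lit 431) (nat_lit 4527) (.d (nat_lit 430) (nat_lit 429) (nat_lit 3501) (nat_lit 559) (nat_lit 7598))) (.a (.f (nat_lit 495) (nat_lit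 431) (nat_lit 4527) (.f (nat_lit 559) (nat_lit 430) (nat_lit 7598) (.f (nat_lit 558) (nat_lit 590) (nat_lit 5582) (.f (nat_lit 557) (nat_lit 556) (nat_lit 2572) (.f (nat_lit 525) (nat_lit 524) (nat_lit 3596) (.f (nat_lit 526) (nat_lit 561) (nat_lit 525) (.d (nat_lit 494) (nat_lit 589) (nat_lit 5581) (nat_lit 591) (nat_lit 7630)))))))) (.a (.f (nat_lit 495) (nat_lit 431) (nat_lit 4527) (.f (nat_lit 559) (nat_lit 432) (nat_lit 6575) (.f (nat_lit 558) (nat_lit 590) (nat_lit 5582) (.f (nat_lit 557) (nat_lit 556) (nat_lit 2572) (.f (nat_lit 525) (nat_lit 524) (nat_lit 3596) (.f (nat_lit 526) (nat_lit 561) (nat_lit 525) (.d (nat_lit 494) (nat_lit 589) (nat_lit 5581) (nat_lit 591) (nat_lit 7630)))))))) (.a (.f (nat_lit 430) (nat_lit 429) (nat_lit 3501) (.f (nat_lit 559) (nat_lit 495) (nat_lit 7598) (.f (nat_lit 526) (nat_lit 494) (nat_lit 4526) (.d (nat_lit 525) (nat_lit 524) (nat_lit 524) (nat_lit 561) (nat_lit 525))))) (.a (.p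 (nat_lit 526) (.a (.f (nat_lit 525) (nat_lit 561) (nat_lit 525) (.f (nat_lit 524) (nat_lit 559) (nat_lit 524) (.d (nat_lit 556) (nat_lit 555) (nat_lit 1547) (nat_lit 557) (nat_lit 1548)))) (.a (.f (nat_lit 430) (nat_lit 429) (nat_lit 3501) (.f (nat_lit 494) (nat_lit 559) (nat_lit 4526) (.d (nat_lit 525) (nat_lit 557) (nat_lit 5549) (nat_lit 561) (nat_lit 525)))) (.a (.f (nat_lit 430) (nat_lit 429) (nat_lit 3501) (.f (nat_lit 494) (nat_lit 559) (nat_lit 4526) (.d (nat_lit 431) (nat_lit 399) (nat_lit 6542) (nat_lit 558) (nat_lit 6574)))) (.f (nat_lit 430) (nat_lit 429) (nat_lit 3501) (.f (nat_lit 525) (nat_lit 561) (nat_lit 525) (.d (nat_lit 557) (nat_lit 494) (nat_lit 5549) (nat_lit 556) (nat_lit 1548)))))))) (.f (nat_lit 495) (nat_lit 431) (nat_lit 4527) (.f (nat_lit 430) (nat_lit 429) (nat_lit 3501) (.d (nat_lit 398) (nat_lit 366) (nat_lit 4462) (nat_lit 494) (nat_lit 4494))))))))))))))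
noncomputable def s68576 : Cert := .r (nat_lit 3773962425700235452738272624589311872811354115290248995673608856684065905542405513258590247812975560221283939098291971982140250265709139174504620074283388056494680309760) (.p (nat_lit 465) (.a (.f (nat_lit 430) (nat_lit 429) (nat_lit 3501) (.f (nat_lit 466) (nat_lit 431) (nat_lit 3502) (.d (nat_lit 434) (nat_lit 433) (nat_lit 2478) (nat_lit 435) (nat_lit 2479)))) (.a (.f (nat_lit 434) (nat_lit 433) (nat_lit 2478) (.f (nat_lit 466) (nat_lit 435) (nat_lit 2479) (.d (nat_lit 498) (nat_lit 497) (nat_lit 462) (nat_lit 499) (nat_lit 463)))) (.a (.f (nat_lit 430) (nat_lit 429) (nat_lit 3501) (.f (nat_lit 466) (nat_lit 431) (nat_lit 3502) (.d (nat_lit 498) (nat_lit 497) (nat_lit 462) (nat_lit 499) (nat_lit 463)))) (.f (nat_lit 433) (nat_lit 434) (nat_lit 2478) (.f (nat_lit 497) (nat_lit 498) (nat_lit 462) (.p (nat_lit 401) (.a (.f (nat_lit 368) (nat_lit 400) (nat_lit 7536) (.f (nat_lit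 369) (nat_lit 336) (nat_lit 7504) (.d (nat_lit 370) (nat_lit 338) (nat_lit 6481) (nat_lit 402) (nat_lit 6513)))) (.a (.f (nat_lit 430) (nat_lit 429) (nat_lit 3501) (.f (nat_lit 402) (nat_lit 370) (nat_lit 6513) (.f (nat_lit 400) (nat_lit 368) (nat_lit 7536) (.d (nat_lit 431) (nat_lit 399) (nat_lit 1422) (nat_lit 432) (nat_lit 2446))))) (.a (.f (nat_lit 430) (nat_lit 429) (nat_lit 3501) (.f (nat_lit 402) (nat_lit 370) (nat_lit 6513) (.f (nat_lit 431) (nat_lit 432) (nat_lit 2446) (.f (nat_lit 495) (nat_lit 527) (nat_lit 4527) (.f (nat_lit 366) (nat_lit 398) (nat_lit 4462) (.f (nat_lit 399) (nat_lit 400) (nat_lit 1422) (.d (nat_lit 367) (nat_lit 334) (nat_lit 7502) (nat_lit 335) (nat_lit 5454)))))))) (.a (.f (nat_lit 368) (nat_lit 400) (nat_lit 7536) (.f (nat_lit 369) (nat_lit 336) (nat_lit 7504) (.f (nat_lit 337) (nat_lit 432) (nat_lit 5456) (.f (nat_lit 338) (nat_lit 306) (nat_lit 6449) (.f (nat_lit 366) (nat_lit 367) (nat_lit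 2382) (.f (nat_lit 430) (nat_lit 429) (nat_lit 3501) (.f (nat_lit 398) (nat_lit 495) (nat_lit 4462) (.f (nat_lit 334) (nat_lit 431) (nat_lit 4430) (.d (nat_lit 333) (nat_lit 301) (nat_lit 7469) (nat_lit 365) (nat_lit 7501)))))))))) (.f (nat_lit 370) (nat_lit 402) (nat_lit 6513) (.f (nat_lit 369) (nat_lit 338) (nat_lit 6481) (.f (nat_lit 337) (nat_lit 432) (nat_lit 5456) (.d (nat_lit 336) (nat_lit 304) (nat_lit 7472) (nat_lit 368) (nat_lit 7504))))))))))))))))
noncomputable def s68590 : Cert := .r (nat_lit 3773962425700235452738272624589311872811354115290248995673608856684065905542405513258590247812975560221283939098291971982140250265709139174504620074283388056494680309760) (.p (nat_lit 465) (.a (.f (nat_lit 430) (nat_lit 429) (nat_lit 3501) (.f (nat_lit 466) (nat_lit 431) (nat_lit 3502) (.d (nat_lit 434) (nat_lit 433) (nat_lit 2478) (nat_lit 435) (nat_lit 2479)))) (.a (.f (nat_lit 434) (nat_lit 433) (nat_lit 2478) (.f (nat_lit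 466) (nat_lit 435) (nat_lit 2479) (.d (nat_lit 498) (nat_lit 497) (nat_lit 462) (nat_lit 499) (nat_lit 463)))) (.a (.f (nat_lit 430) (nat_lit 429) (nat_lit 3501) (.f (nat_lit 466) (nat_lit 431) (nat_lit 3502) (.d (nat_lit 498) (nat_lit 497) (nat_lit 462) (nat_lit 499) (nat_lit 463)))) (.f (nat_lit 494) (nat_lit 493) (nat_lit 1485) (.p (nat_lit 526) (.a (.f (nat_lit 430) (nat_lit 429) (nat_lit 3501) (.d (nat_lit 431) (nat_lit 399) (nat_lit 6542) (nat_lit 558) (nat_lit 6574))) (.a (.f (nat_lit 430) (nat_lit 429) (nat_lit 3501) (.f (nat_lit 558) (nat_lit 431) (nat_lit 6574) (.d (nat_lit 557) (nat_lit 525) (nat_lit 5549) (nat_lit 589) (nat_lit 5581)))) (.a (.f (nat_lit 558) (nat_lit 431) (nat_lit 6574) (.f (nat_lit 559) (nat_lit 591) (nat_lit 4558) (.f (nat_lit 557) (nat_lit 589) (nat_lit 5581) (.d (nat_lit 430) (nat_lit 525) (nat_lit 5549) (nat_lit 527) (nat_lit 4526))))) (.a (.f (nat_lit 558) (nat_lit 431) (nat_lit 6574)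 (.f (nat_lit 559) (nat_lit 591) (nat_lit 4558) (.f (nat_lit 561) (nat_lit 525) (nat_lit 3597) (.d (nat_lit 589) (nat_lit 557) (nat_lit 5581) (nat_lit 590) (nat_lit 1581))))) (.f (nat_lit 430) (nat_lit 429) (nat_lit 3501) (.f (nat_lit 527) (nat_lit 559) (nat_lit 4526) (.d (nat_lit 525) (nat_lit 557) (nat_lit 5549) (nat_lit 561) (nat_lit 525))))))))))))))
noncomputable def s68600 : Cert := .r (nat_lit 3773962425700235452738272624684580078082227901648329965821105387010866385970413666055805731199980312992883231704502485381294668330889404406481140548387635361160460500992) (.f (nat_lit 430) (nat_lit 429) (nat_lit 3501) (.p (nat_lit 398) (.a (.f (nat_lit 366) (nat_lit 495) (nat_lit 4462) (.f (nat_lit 334) (nat_lit 431) (nat_lit 4430) (.d (nat_lit 335) (nat_lit 303) (nat_lit 6446) (nat_lit 367) (nat_lit 6478)))) (.a (.f (nat_lit 494) (nat_lit 493) (nat_lit 1485) (.f (nat_lit 399) (nat_lit 367) (nat_lit 6510) (.f (nat_lit 431) (nat_lit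 526) (nat_lit 6542) (.f (nat_lit 366) (nat_lit 334) (nat_lit 4430) (.d (nat_lit 365) (nat_lit 333) (nat_lit 7501) (nat_lit 397) (nat_lit 7533)))))) (.a (.f (nat_lit 366) (nat_lit 495) (nat_lit 4462) (.f (nat_lit 367) (nat_lit 335) (nat_lit 6478) (.f (nat_lit 365) (nat_lit 333) (nat_lit 7501) (.d (nat_lit 494) (nat_lit 397) (nat_lit 7533) (nat_lit 399) (nat_lit 6510))))) (.a (.f (nat_lit 494) (nat_lit 493) (nat_lit 1485) (.f (nat_lit 399) (nat_lit 367) (nat_lit 6510) (.f (nat_lit 431) (nat_lit 526) (nat_lit 6542) (.f (nat_lit 397) (nat_lit 365) (nat_lit 7533) (.d (nat_lit 433) (nat_lit 432) (nat_lit 3469) (nat_lit 434) (nat_lit 2478)))))) (.f (nat_lit 494) (nat_lit 493) (nat_lit 1485) (.f (nat_lit 366) (nat_lit 495) (nat_lit 4462) (.d (nat_lit 365) (nat_lit 333) (nat_lit 7501) (nat_lit 397) (nat_lit 7533))))))))))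
noncomputable def s68601 : Cert := .r (nat_lit 3773962425700235452738272624589311872811354115290248995673608856684065905542405513258590247812975560221283939098291971982140250265709139174504620074283388056494680309760) (.p (nat_lit 465) (.a (.f (nat_lit 430) (nat_lit 429) (nat_lit 3501) (.f (nat_lit 466) (nat_lit 431) (nat_lit 3502) (.d (nat_lit 434) (nat_lit 433) (nat_lit 2478) (nat_lit 435) (nat_lit 2479)))) (.a (.f (nat_lit 494) (nat_lit 493) (nat_lit 1485) (.f (nat_lit 466) (nat_lit 495) (nat_lit 1486) (.d (nat_lit 498) (nat_lit 497) (nat_lit 462) (nat_lit 499) (nat_lit 463)))) s68600)))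
noncomputable def s68622 : Cert := .r (nat_lit 3773962425700235452789419352813872038215364427408426367219219897403345736267517092729746710558425197407257497286272383616378434893668749892446935258107164861608654536704) (.p (nat_lit 431) (.a (.f (nat_lit 397) (nat_lit 365) (nat_lit 7533) (.f (nat_lit 432) (nat_lit 433) (nat_lit 3469) (.d (nat_lit 396) (nat_lit 395) (nat_lit 395) (nat_lit 429) (nat_lit 3468)))) (.a (.f (nat_lit 493) (nat_lit 525) (nat_lit 5517) (.f (nat_lit 461) (nat_lit 366) (nat_lit 5485) (.f (nat_lit 432) (nat_lit 433) (nat_lit 1453) (.d (nat_lit 460) (nat_lit 429) (nat_lit 1452) (nat_lit 459) (nat_lit 2475))))) (.a (.f (nat_lit 397) (nat_lit 365) (nat_lit 7533) (.f (nat_lit 432) (nat_lit 433) (nat_lit 3469) (.d (nat_lit 396) (nat_lit 395) (nat_lit 395) (nat_lit 399) (nat_lit 396)))) (.f (nat_lit 493) (nat_lit 525) (nat_lit 5517) (.f (nat_lit 461) (nat_lit 366) (nat_lit 5485) (.f (nat_lit 459) (nat_lit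 460) (nat_lit 2475) (.f (nat_lit 397) (nat_lit 365) (nat_lit 7533) (.f (nat_lit 396) (nat_lit 395) (nat_lit 395) (.f (nat_lit 429) (nat_lit 364) (nat_lit 7532) (.f (nat_lit 492) (nat_lit 524) (nat_lit 5516) (.d (nat_lit 491) (nat_lit 458) (nat_lit 3530) (nat_lit 490) (nat_lit 2506)))))))))))))
noncomputable def s68651 : Cert := .r (nat_lit 3773962425700235452789419352813872038215364427408426367219219897403345736267517092729746710558425197407257497286272383616378434893668749892446935258107164861608654536704) (.f (nat_lit 493) (nat_lit 525) (nat_lit 5517) (.p (nat_lit 492) (.a (.f (nat_lit 495) (nat_lit 527) (nat_lit 4494) (.f (nat_lit 461) (nat_lit 366) (nat_lit 5485) (.f (nat_lit 524) (nat_lit 523) (nat_lit 1515) (.d (nat_lit 397) (nat_lit 365) (nat_lit 7533) (nat_lit 429) (nat_lit 5516))))) (.a (.f (nat_lit 495) (nat_lit 527) (nat_lit 492) (.f (nat_lit 461) (nat_lit 366) (nat_lit 5485) (.f (nat_lit 460) (nat_lit 459) (nat_lit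 3531) (.f (nat_lit 524) (nat_lit 523) (nat_lit 1515) (.d (nat_lit 429) (nat_lit 397) (nat_lit 5516) (nat_lit 556) (nat_lit 6572)))))) (.a (.f (nat_lit 495) (nat_lit 527) (nat_lit 4494) (.f (nat_lit 459) (nat_lit 460) (nat_lit 3531) (.f (nat_lit 491) (nat_lit 458) (nat_lit 3530) (.d (nat_lit 523) (nat_lit 522) (nat_lit 1514) (nat_lit 524) (nat_lit 1515))))) (.a (.f (nat_lit 461) (nat_lit 366) (nat_lit 5485) (.f (nat_lit 397) (nat_lit 365) (nat_lit 7533) (.f (nat_lit 429) (nat_lit 524) (nat_lit 5516) (.f (nat_lit 396) (nat_lit 364) (nat_lit 7532) (.d (nat_lit 395) (nat_lit 394) (nat_lit 394) (nat_lit 431) (nat_lit 395)))))) (.f (nat_lit 495) (nat_lit 527) (nat_lit 4494) (.f (nat_lit 461) (nat_lit 366) (nat_lit 5485) (.f (nat_lit 460) (nat_lit 459) (nat_lit 3531) (.f (nat_lit 491) (nat_lit 490) (nat_lit 2506) (.f (nat_lit 397) (nat_lit 365) (nat_lit 7533) (.f (nat_lit 523) (nat_lit 522) (nat_lit 1514) (.f (nat_lit 396) (nat_lit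 428) (nat_lit 5515) (.f (nat_lit 431) (nat_lit 395) (nat_lit 395) (.d (nat_lit 429) (nat_lit 364) (nat_lit 7532) (nat_lit 432) (nat_lit 1452))))))))))))))))
noncomputable def s68672 : Cert := .r (nat_lit 3773962425700235452789419352813872038215364427408426367219219897403345736267517092729746710558425197407257497286272383616378434893668749892446935258107164861608654536704) (.f (nat_lit 399) (nat_lit 367) (nat_lit 6510) (.p (nat_lit 400) (.a (.f (nat_lit 397) (nat_lit 365) (nat_lit 7533) (.d (nat_lit 429) (nat_lit 401) (nat_lit 1421) (nat_lit 428) (nat_lit 1420))) (.a (.f (nat_lit 401) (nat_lit 429) (nat_lit 1421) (.f (nat_lit 433) (nat_lit 434) (nat_lit 398) (.f (nat_lit 432) (nat_lit 397) (nat_lit 397) (.d (nat_lit 369) (nat_lit 337) (nat_lit 5456) (nat_lit 370) (nat_lit 2414))))) (.a (.f (nat_lit 401) (nat_lit 429) (nat_lit 1421) (.f (nat_lit 402) (nat_lit 431) (nat_lit 1422) (.d (nat_lit 434) (nat_lit 433) (nat_lit 398)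 (nat_lit 435) (nat_lit 399)))) (.a (.f (nat_lit 397) (nat_lit 365) (nat_lit 7533) (.f (nat_lit 432) (nat_lit 433) (nat_lit 397) (.f (nat_lit 396) (nat_lit 431) (nat_lit 396) (.d (nat_lit 428) (nat_lit 427) (nat_lit 1419) (nat_lit 429) (nat_lit 1420))))) (.f (nat_lit 397) (nat_lit 365) (nat_lit 7533) (.f (nat_lit 432) (nat_lit 433) (nat_lit 397) (.f (nat_lit 396) (nat_lit 431) (nat_lit 396) (.f (nat_lit 427) (nat_lit 428) (nat_lit 1419) (.f (nat_lit 395) (nat_lit 426) (nat_lit 1418) (.d (nat_lit 363) (nat_lit 362) (nat_lit 3434) (nat_lit 364) (nat_lit 3435)))))))))))))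
noncomputable def s68707 : Cert := .r (nat_lit 3773962425700235452789419352813872038215364427408426367219219897403345736267517092729746710558425197407257497286272383616378434893668749892446935258107164861608654536704) (.f (nat_lit 493) (nat_lit 525) (nat_lit 5517) (.p (nat_lit 492) (.a (.f (nat_lit 495) (nat_lit 527) (nat_lit 492) (.f (nat_lit 461) (nat_lit 366) (nat_lit 5485) (.f (nat_lit 460) (nat_lit 459) (nat_lit 3531) (.f (nat_lit 524) (nat_lit 523) (nat_lit 1515) (.d (nat_lit 429) (nat_lit 397) (nat_lit 5516) (nat_lit 556) (nat_lit 6572)))))) (.a (.f (nat_lit 495) (nat_lit 527) (nat_lit 4494) (.f (nat_lit 459) (nat_lit 460) (nat_lit 3531) (.f (nat_lit 491) (nat_lit 458) (nat_lit 3530) (.d (nat_lit 523) (nat_lit 522) (nat_lit 1514) (nat_lit 524) (nat_lit 1515))))) (.a (.f (nat_lit 495) (nat_lit 527) (nat_lit 492) (.f (nat_lit 461) (nat_lit 366) (nat_lit 5485) (.f (nat_lit 524) (nat_lit 523) (nat_lit 1515) (.f (nat_lit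 429) (nat_lit 397) (nat_lit 5516) (.d (nat_lit 556) (nat_lit 460) (nat_lit 6572) (nat_lit 588) (nat_lit 6604)))))) (.a (.f (nat_lit 495) (nat_lit 527) (nat_lit 4494) (.f (nat_lit 461) (nat_lit 366) (nat_lit 5485) (.f (nat_lit 491) (nat_lit 490) (nat_lit 2506) (.d (nat_lit 523) (nat_lit 522) (nat_lit 1514) (nat_lit 524) (nat_lit 1515))))) (.a (.f (nat_lit 461) (nat_lit 366) (nat_lit 5485) (.f (nat_lit 491) (nat_lit 490) (nat_lit 2506) (.f (nat_lit 459) (nat_lit 458) (nat_lit 3530) (.f (nat_lit 460) (nat_lit 431) (nat_lit 2475) (.f (nat_lit 427) (nat_lit 426) (nat_lit 3498) (.d (nat_lit 395) (nat_lit 363) (nat_lit 4459) (nat_lit 524) (nat_lit 4491))))))) (.f (nat_lit 495) (nat_lit 527) (nat_lit 4494) (.f (nat_lit 461) (nat_lit 366) (nat_lit 5485) (.f (nat_lit 460) (nat_lit 459) (nat_lit 3531) (.f (nat_lit 491) (nat_lit 490) (nat_lit 2506) (.f (nat_lit 523) (nat_lit 522) (nat_lit 1514) (.f (nat_lit 428) (nat_lit 396) (nat_lit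 5515) (.f (nat_lit 399) (nat_lit 367) (nat_lit 6510) (.f (nat_lit 429) (nat_lit 427) (nat_lit 2443) (.d (nat_lit 400) (nat_lit 401) (nat_lit 1421) (nat_lit 431) (nat_lit 2444)))))))))))))))))
noncomputable def s68714 : Cert := .r (nat_lit 3773962425700235452789419352813872038215364427408426367219219897403345736267517092729746710558425197407257497286272383616378434893668749892446935258107164861608654536704) (.f (nat_lit 493) (nat_lit 525) (nat_lit 5517) (.p (nat_lit 492) (.a (.f (nat_lit 495) (nat_lit 527) (nat_lit 4494) (.f (nat_lit 459) (nat_lit 460) (nat_lit 3531) (.f (nat_lit 491) (nat_lit 458) (nat_lit 3530) (.d (nat_lit 523) (nat_lit 522) (nat_lit 1514) (nat_lit 524) (nat_lit 1515))))) (.a (.f (nat_lit 495) (nat_lit 527) (nat_lit 4494) (.f (nat_lit 461) (nat_lit 366) (nat_lit 5485) (.f (nat_lit 491) (nat_lit 490) (nat_lit 2506) (.d (nat_lit 523) (nat_lit 522) (nat_lit 1514) (nat_lit 524) (nat_lit 1515))))) (.a (.f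 (nat_lit 495) (nat_lit 527) (nat_lit 4494) (.f (nat_lit 461) (nat_lit 366) (nat_lit 5485) (.f (nat_lit 460) (nat_lit 459) (nat_lit 459) (.f (nat_lit 524) (nat_lit 523) (nat_lit 1515) (.d (nat_lit 556) (nat_lit 429) (nat_lit 6572) (nat_lit 588) (nat_lit 6604)))))) (.a (.f (nat_lit 461) (nat_lit 366) (nat_lit 5485) (.f (nat_lit 491) (nat_lit 490) (nat_lit 2506) (.f (nat_lit 459) (nat_lit 458) (nat_lit 3530) (.f (nat_lit 460) (nat_lit 431) (nat_lit 2475) (.f (nat_lit 427) (nat_lit 426) (nat_lit 3498) (.d (nat_lit 395) (nat_lit 363) (nat_lit 4459) (nat_lit 524) (nat_lit 4491))))))) (.f (nat_lit 495) (nat_lit 527) (nat_lit 4494) (.f (nat_lit 461) (nat_lit 366) (nat_lit 5485) (.f (nat_lit 460) (nat_lit 459) (nat_lit 3531) (.f (nat_lit 491) (nat_lit 490) (nat_lit 2506) (.f (nat_lit 523) (nat_lit 522) (nat_lit 1514) (.f (nat_lit 428) (nat_lit 396) (nat_lit 5515) (.f (nat_lit 399) (nat_lit 367) (nat_lit 6510) (.f (nat_lit 429) (nat_lit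 427) (nat_lit 2443) (.d (nat_lit 400) (nat_lit 401) (nat_lit 1421) (nat_lit 431) (nat_lit 2444))))))))))))))))
noncomputable def s68743 : Cert := .r (nat_lit 3773962425700235452738272624565494821501953677783091197715469966654795036545712786285413826691735810770227979870156220501471568967726491600802663588641536945815157735424) (.p (nat_lit 432) (.a (.f (nat_lit 429) (nat_lit 465) (nat_lit 429) (.d (nat_lit 461) (nat_lit 433) (nat_lit 1453) (nat_lit 460) (nat_lit 1452))) (.a (.f (nat_lit 433) (nat_lit 461) (nat_lit 1453) (.f (nat_lit 398) (nat_lit 397) (nat_lit 3469) (.f (nat_lit 399) (nat_lit 434) (nat_lit 3470) (.d (nat_lit 367) (nat_lit 335) (nat_lit 4431) (nat_lit 494) (nat_lit 6510))))) (.a (.f (nat_lit 429) (nat_lit 465) (nat_lit 429) (.f (nat_lit 461) (nat_lit 460) (nat_lit 1452) (.f (nat_lit 397) (nat_lit 396) (nat_lit 3468) (.d (nat_lit 365) (nat_lit 333) (nat_lit 4429) (nat_lit 494) (nat_lit 4461))))) (.f (nat_lit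 429) (nat_lit 465) (nat_lit 429) (.f (nat_lit 397) (nat_lit 396) (nat_lit 3468) (.f (nat_lit 398) (nat_lit 433) (nat_lit 3469) (.d (nat_lit 494) (nat_lit 365) (nat_lit 7533) (nat_lit 526) (nat_lit 7565)))))))))
noncomputable def s68748 : Cert := .r (nat_lit 3773962425700235452738272624565494821501953677783091197715469966654795036545712786285413826691735810770227979870156220501471568967726491600802663588641536945815157735424) (.p (nat_lit 432) (.a (.f (nat_lit 429) (nat_lit 465) (nat_lit 429) (.d (nat_lit 461) (nat_lit 433) (nat_lit 1453) (nat_lit 460) (nat_lit 1452))) (.a (.f (nat_lit 433) (nat_lit 461) (nat_lit 1453) (.f (nat_lit 398) (nat_lit 397) (nat_lit 3469) (.f (nat_lit 399) (nat_lit 434) (nat_lit 3470) (.d (nat_lit 367) (nat_lit 335) (nat_lit 4431) (nat_lit 494) (nat_lit 6510))))) (.a (.f (nat_lit 429) (nat_lit 465) (nat_lit 429) (.f (nat_lit 461) (nat_lit 460) (nat_lit 1452) (.f (nat_lit 397) (nat_lit 396) (nat_lit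 3468) (.d (nat_lit 494) (nat_lit 365) (nat_lit 4461) (nat_lit 526) (nat_lit 7565))))) (.f (nat_lit 429) (nat_lit 465) (nat_lit 429) (.f (nat_lit 397) (nat_lit 396) (nat_lit 3468) (.f (nat_lit 398) (nat_lit 433) (nat_lit 3469) (.d (nat_lit 494) (nat_lit 365) (nat_lit 7533) (nat_lit 526) (nat_lit 7565)))))))))
noncomputable def s68753 : Cert := .r (nat_lit 3773962425700235452738272624565494821501953677783091197715469966654795036545712786285413826691735810770227979870156220501471568967726491600802663588641536945815157735424) (.p (nat_lit 432) (.a (.f (nat_lit 429) (nat_lit 465) (nat_lit 429) (.d (nat_lit 461) (nat_lit 433) (nat_lit 1453) (nat_lit 460) (nat_lit 1452))) (.a (.f (nat_lit 433) (nat_lit 461) (nat_lit 1453) (.f (nat_lit 398) (nat_lit 397) (nat_lit 3469) (.f (nat_lit 434) (nat_lit 399) (nat_lit 3470) (.d (nat_lit 402) (nat_lit 401) (nat_lit 2446) (nat_lit 403) (nat_lit 2447))))) (.a (.f (nat_lit 429) (nat_lit 465)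 (nat_lit 429) (.f (nat_lit 461) (nat_lit 460) (nat_lit 1452) (.f (nat_lit 397) (nat_lit 396) (nat_lit 3468) (.d (nat_lit 365) (nat_lit 333) (nat_lit 4429) (nat_lit 494) (nat_lit 4461))))) (.f (nat_lit 429) (nat_lit 465) (nat_lit 429) (.f (nat_lit 397) (nat_lit 396) (nat_lit 3468) (.f (nat_lit 398) (nat_lit 433) (nat_lit 3469) (.d (nat_lit 494) (nat_lit 365) (nat_lit 7533) (nat_lit 526) (nat_lit 7565)))))))))
noncomputable def s68760 : Cert := .r (nat_lit 3773962425700235452738272624565494821501953677783091197715469966654795036545712786285413826691735810770227979870156220501471568967726491600802663588641536945815157735424) (.p (nat_lit 432) (.a (.f (nat_lit 429) (nat_lit 465) (nat_lit 429) (.d (nat_lit 461) (nat_lit 433) (nat_lit 1453) (nat_lit 460) (nat_lit 1452))) (.a (.f (nat_lit 433) (nat_lit 461) (nat_lit 1453) (.f (nat_lit 398) (nat_lit 397) (nat_lit 3469) (.f (nat_lit 399) (nat_lit 434) (nat_lit 3470) (.d (nat_lit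 367) (nat_lit 335) (nat_lit 4431) (nat_lit 494) (nat_lit 6510))))) (.f (nat_lit 429) (nat_lit 465) (nat_lit 429) (.f (nat_lit 397) (nat_lit 396) (nat_lit 3468) (.f (nat_lit 494) (nat_lit 526) (nat_lit 7565) (.f (nat_lit 400) (nat_lit 401) (nat_lit 2445) (.f (nat_lit 399) (nat_lit 428) (nat_lit 2444) (.d (nat_lit 367) (nat_lit 335) (nat_lit 4431) (nat_lit 398) (nat_lit 6510))))))))))
noncomputable def s68766 : Cert := .r (nat_lit 3773962425700235452738272624565494821501953677783091197715469966654795036545712786285413826691735810770227979870156220501471568967726491600802663588641536945815157735424) (.p (nat_lit 432) (.a (.f (nat_lit 429) (nat_lit 465) (nat_lit 429) (.d (nat_lit 461) (nat_lit 433) (nat_lit 1453) (nat_lit 460) (nat_lit 1452))) (.a (.f (nat_lit 433) (nat_lit 461) (nat_lit 1453) (.f (nat_lit 398) (nat_lit 397) (nat_lit 3469) (.f (nat_lit 399) (nat_lit 434) (nat_lit 3470) (.d (nat_lit 367) (nat_lit 335) (nat_lit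 4431) (nat_lit 494) (nat_lit 6510))))) (.f (nat_lit 429) (nat_lit 465) (nat_lit 429) (.f (nat_lit 400) (nat_lit 401) (nat_lit 2445) (.f (nat_lit 399) (nat_lit 428) (nat_lit 2444) (.f (nat_lit 367) (nat_lit 335) (nat_lit 4431) (.d (nat_lit 494) (nat_lit 398) (nat_lit 6510) (nat_lit 526) (nat_lit 6542)))))))))
noncomputable def s68777 : Cert := .r (nat_lit 3773962425700235452738272624565494821501953677783091197715469966654795036545712786285413826691735810770227979870156220501471568967726491600802663588641536945815157735424) (.p (nat_lit 432) (.a (.f (nat_lit 429) (nat_lit 465) (nat_lit 429) (.d (nat_lit 461) (nat_lit 433) (nat_lit 1453) (nat_lit 460) (nat_lit 1452))) (.a (.f (nat_lit 433) (nat_lit 461) (nat_lit 1453) (.f (nat_lit 465) (nat_lit 466) (nat_lit 430) (.f (nat_lit 401) (nat_lit 402) (nat_lit 2446) (.f (nat_lit 369) (nat_lit 337) (nat_lit 5456) (.f (nat_lit 368) (nat_lit 336) (nat_lit 7504) (.f (nat_lit 400) (nat_lit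 497) (nat_lit 4464) (.f (nat_lit 370) (nat_lit 338) (nat_lit 6481) (.d (nat_lit 399) (nat_lit 371) (nat_lit 1391) (nat_lit 398) (nat_lit 2414))))))))) (.a (.f (nat_lit 429) (nat_lit 465) (nat_lit 429) (.f (nat_lit 400) (nat_lit 401) (nat_lit 2445) (.f (nat_lit 399) (nat_lit 428) (nat_lit 2444) (.f (nat_lit 367) (nat_lit 335) (nat_lit 4431) (.d (nat_lit 494) (nat_lit 398) (nat_lit 6510) (nat_lit 526) (nat_lit 6542)))))) (.f (nat_lit 461) (nat_lit 433) (nat_lit 1453) (.d (nat_lit 460) (nat_lit 429) (nat_lit 1452) (nat_lit 459) (nat_lit 2475)))))))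
noncomputable def s68790 : Cert := .r (nat_lit 3773962425700235452738272624565494821501953677783091197715469966654795036545712786285413826691735810770227979870156220501471568967726491600802663588641536945815157735424) (.p (nat_lit 432) (.a (.f (nat_lit 429) (nat_lit 465) (nat_lit 429) (.d (nat_lit 461) (nat_lit 433) (nat_lit 1453) (nat_lit 460) (nat_lit 1452))) (.a (.f (nat_lit 433) (nat_lit 461) (nat_lit 1453) (.f (nat_lit 465) (nat_lit 466) (nat_lit 430) (.f (nat_lit 401) (nat_lit 402) (nat_lit 2446) (.f (nat_lit 369) (nat_lit 337) (nat_lit 5456) (.f (nat_lit 368) (nat_lit 336) (nat_lit 7504) (.f (nat_lit 400) (nat_lit 497) (nat_lit 4464) (.f (nat_lit 370) (nat_lit 338) (nat_lit 6481) (.d (nat_lit 371) (nat_lit 372) (nat_lit 1392) (nat_lit 399) (nat_lit 1391))))))))) (.a (.f (nat_lit 429) (nat_lit 465) (nat_lit 429) (.f (nat_lit 461) (nat_lit 460) (nat_lit 1452) (.f (nat_lit 397) (nat_lit 396) (nat_lit 3468) (.d (nat_lit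 365) (nat_lit 333) (nat_lit 4429) (nat_lit 494) (nat_lit 4461))))) (.a (.f (nat_lit 429) (nat_lit 465) (nat_lit 429) (.f (nat_lit 400) (nat_lit 401) (nat_lit 2445) (.f (nat_lit 428) (nat_lit 399) (nat_lit 2444) (.d (nat_lit 396) (nat_lit 395) (nat_lit 3467) (nat_lit 397) (nat_lit 3468))))) (.f (nat_lit 461) (nat_lit 433) (nat_lit 1453) (.d (nat_lit 460) (nat_lit 429) (nat_lit 1452) (nat_lit 459) (nat_lit 2475))))))))
noncomputable def s68795 : Cert := .r (nat_lit 3773962425700235452738272624565494821501953677783091197715469966654795036545712786285413826691735810770227979870156220501471568967726491600802663588641536945815157735424) (.p (nat_lit 432) (.a (.f (nat_lit 429) (nat_lit 465) (nat_lit 429) (.d (nat_lit 461) (nat_lit 433) (nat_lit 1453) (nat_lit 460) (nat_lit 1452))) (.a (.f (nat_lit 433) (nat_lit 461) (nat_lit 1453) (.f (nat_lit 466) (nat_lit 465) (nat_lit 430) (.f (nat_lit 434) (nat_lit 467) (nat_lit 431) (.d (nat_lit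 402) (nat_lit 401) (nat_lit 2446) (nat_lit 403) (nat_lit 2447))))) (.a (.f (nat_lit 429) (nat_lit 465) (nat_lit 429) (.f (nat_lit 461) (nat_lit 460) (nat_lit 1452) (.f (nat_lit 397) (nat_lit 396) (nat_lit 3468) (.d (nat_lit 365) (nat_lit 333) (nat_lit 4429) (nat_lit 494) (nat_lit 4461))))) (.a (.f (nat_lit 429) (nat_lit 465) (nat_lit 429) (.f (nat_lit 397) (nat_lit 396) (nat_lit 3468) (.f (nat_lit 398) (nat_lit 433) (nat_lit 3469) (.d (nat_lit 494) (nat_lit 365) (nat_lit 7533) (nat_lit 526) (nat_lit 7565))))) (.f (nat_lit 461) (nat_lit 433) (nat_lit 1453) (.d (nat_lit 460) (nat_lit 429) (nat_lit 1452) (nat_lit 459) (nat_lit 2475))))))))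
noncomputable def s68816 : Cert := .r (nat_lit 3773962425700235452738272624565494821501953677783091197715469966654795036545712786285413826691735810770227979870156220501471568967726491600802663588641536945815157735424) (.p (nat_lit 494) (.a (.f (nat_lit 526) (nat_lit 399) (nat_lit 6542) (.f (nat_lit 527) (nat_lit 559) (nat_lit 4526) (.d (nat_lit 525) (nat_lit 557) (nat_lit 5549) (nat_lit 561) (nat_lit 525)))) (.a (.p (nat_lit 525) (.a (.f (nat_lit 526) (nat_lit 557) (nat_lit 5549) (.d (nat_lit 527) (nat_lit 559) (nat_lit 4526) (nat_lit 561) (nat_lit 525))) (.a (.f (nat_lit 493) (nat_lit 398) (nat_lit 5517) (.d (nat_lit 557) (nat_lit 461) (nat_lit 6573) (nat_lit 589) (nat_lit 6605))) (.f (nat_lit 398) (nat_lit 493) (nat_lit 5517) (.f (nat_lit 527) (nat_lit 495) (nat_lit 4494) (.d (nat_lit 526) (nat_lit 559) (nat_lit 4526) (nat_lit 561) (nat_lit 525))))))) (.a (.f (nat_lit 399) (nat_lit 526) (nat_lit 6542) (.d (nat_lit 367)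 (nat_lit 335) (nat_lit 5454) (nat_lit 398) (nat_lit 6510))) (.p (nat_lit 398) (.a (.f (nat_lit 397) (nat_lit 365) (nat_lit 7533) (.f (nat_lit 432) (nat_lit 433) (nat_lit 3469) (.d (nat_lit 396) (nat_lit 395) (nat_lit 395) (nat_lit 399) (nat_lit 396)))) (.a (.f (nat_lit 367) (nat_lit 399) (nat_lit 6510) (.f (nat_lit 366) (nat_lit 335) (nat_lit 6478) (.d (nat_lit 493) (nat_lit 461) (nat_lit 5485) (nat_lit 525) (nat_lit 5517)))) (.f (nat_lit 493) (nat_lit 525) (nat_lit 5517) (.f (nat_lit 366) (nat_lit 461) (nat_lit 5485) (.d (nat_lit 365) (nat_lit 333) (nat_lit 7501) (nat_lit 397) (nat_lit 7533)))))))))))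
noncomputable def s68826 : Cert := .r (nat_lit 3773962425700235452738272624565494821513044356559574457153783623391367371359458534586917092992417729092686465101378722993631466592143049913192228432487151233131054366720) (.p (nat_lit 433) (.a (.f (nat_lit 398) (nat_lit 397) (nat_lit 3469) (.f (nat_lit 399) (nat_lit 434) (nat_lit 3470) (.d (nat_lit 367) (nat_lit 335) (nat_lit 4431) (nat_lit 494) (nat_lit 6510)))) (.a (.f (nat_lit 398) (nat_lit 397) (nat_lit 3469) (.f (nat_lit 434) (nat_lit 399) (nat_lit 3470) (.d (nat_lit 402) (nat_lit 401) (nat_lit 2446) (nat_lit 403) (nat_lit 2447)))) (.a (.f (nat_lit 465) (nat_lit 466) (nat_lit 430) (.f (nat_lit 401) (nat_lit 402) (nat_lit 2446) (.f (nat_lit 369) (nat_lit 337) (nat_lit 5456) (.f (nat_lit 368) (nat_lit 336) (nat_lit 7504) (.f (nat_lit 400) (nat_lit 497) (nat_lit 4464) (.f (nat_lit 370) (nat_lit 338) (nat_lit 6481) (.d (nat_lit 399) (nat_lit 371) (nat_lit 1391) (nat_lit 398)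 (nat_lit 2414)))))))) (.a (.f (nat_lit 465) (nat_lit 466) (nat_lit 430) (.f (nat_lit 401) (nat_lit 402) (nat_lit 2446) (.f (nat_lit 369) (nat_lit 337) (nat_lit 5456) (.f (nat_lit 368) (nat_lit 336) (nat_lit 7504) (.f (nat_lit 400) (nat_lit 497) (nat_lit 4464) (.f (nat_lit 370) (nat_lit 338) (nat_lit 6481) (.d (nat_lit 371) (nat_lit 372) (nat_lit 1392) (nat_lit 399) (nat_lit 1391)))))))) (.f (nat_lit 466) (nat_lit 465) (nat_lit 430) (.f (nat_lit 434) (nat_lit 467) (nat_lit 431) (.d (nat_lit 402) (nat_lit 401) (nat_lit 2446) (nat_lit 403) (nat_lit 2447)))))))))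
noncomputable def s68833 : Cert := .r (nat_lit 3773962425700235452738272624565494821501953677783091197715469966654795036545712786285413826691735810770227979870156220501471568967726491600802663588641536945815157735424) (.p (nat_lit 432) (.a (.f (nat_lit 429) (nat_lit 465) (nat_lit 429) (.f (nat_lit 397) (nat_lit 396) (nat_lit 3468) (.f (nat_lit 398) (nat_lit 433) (nat_lit 3469) (.d (nat_lit 494) (nat_lit 365) (nat_lit 7533) (nat_lit 526) (nat_lit 7565))))) (.a (.f (nat_lit 429) (nat_lit 465) (nat_lit 429) (.f (nat_lit 397) (nat_lit 396) (nat_lit 3468) (.f (nat_lit 494) (nat_lit 526) (nat_lit 7565) (.f (nat_lit 400) (nat_lit 401) (nat_lit 2445) (.f (nat_lit 399) (nat_lit 428) (nat_lit 2444) (.d (nat_lit 367) (nat_lit 335) (nat_lit 4431) (nat_lit 398) (nat_lit 6510))))))) (.a (.f (nat_lit 429) (nat_lit 465) (nat_lit 429) (.f (nat_lit 400) (nat_lit 401) (nat_lit 2445) (.f (nat_lit 399) (nat_lit 428) (nat_lit 2444) (.f (nat_lit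 367) (nat_lit 335) (nat_lit 4431) (.d (nat_lit 494) (nat_lit 398) (nat_lit 6510) (nat_lit 526) (nat_lit 6542)))))) (.a (.f (nat_lit 429) (nat_lit 465) (nat_lit 429) (.f (nat_lit 400) (nat_lit 401) (nat_lit 2445) (.f (nat_lit 428) (nat_lit 399) (nat_lit 2444) (.d (nat_lit 396) (nat_lit 395) (nat_lit 3467) (nat_lit 397) (nat_lit 3468))))) (.a s68826 (.p (nat_lit 429) (.a (.f (nat_lit 397) (nat_lit 396) (nat_lit 3468) (.f (nat_lit 398) (nat_lit 433) (nat_lit 3469) (.d (nat_lit 494) (nat_lit 365) (nat_lit 7533) (nat_lit 526) (nat_lit 7565)))) (.a (.f (nat_lit 397) (nat_lit 396) (nat_lit 3468) (.f (nat_lit 398) (nat_lit 433) (nat_lit 3469) (.f (nat_lit 400) (nat_lit 401) (nat_lit 2445) (.f (nat_lit 399) (nat_lit 428) (nat_lit 2444) (.d (nat_lit 494) (nat_lit 367) (nat_lit 6510) (nat_lit 526) (nat_lit 6542)))))) (.a (.f (nat_lit 400) (nat_lit 401) (nat_lit 2445) (.f (nat_lit 399) (nat_lit 428) (nat_lit 2444) (.f (nat_lit 367)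 (nat_lit 335) (nat_lit 4431) (.d (nat_lit 494) (nat_lit 398) (nat_lit 6510) (nat_lit 526) (nat_lit 6542))))) (.f (nat_lit 400) (nat_lit 401) (nat_lit 2445) (.f (nat_lit 428) (nat_lit 399) (nat_lit 2444) (.d (nat_lit 396) (nat_lit 395) (nat_lit 3467) (nat_lit 397) (nat_lit 3468))))))))))))))
noncomputable def s68975 : Cert := .r (nat_lit 3773962425700235452814992716938060646574842471914246423126390686240643200142354553574415329394629411489075380043433347938615526814757901608886410617012918701844596785152) (.p (nat_lit 492) (.a (.f (nat_lit 495) (nat_lit 527) (nat_lit 492) (.f (nat_lit 459) (nat_lit 460) (nat_lit 3531) (.f (nat_lit 491) (nat_lit 458) (nat_lit 3530) (.d (nat_lit 523) (nat_lit 522) (nat_lit 1514) (nat_lit 524) (nat_lit 1515))))) (.a (.p (nat_lit 525) (.a (.d (nat_lit 557) (nat_lit 461) (nat_lit 6573) (nat_lit 589) (nat_lit 6605)) (.a (.f (nat_lit 557) (nat_lit 589) (nat_lit 6605) (.f (nat_lit 495) (nat_lit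 527) (nat_lit 492) (.f (nat_lit 524) (nat_lit 523) (nat_lit 1515) (.d (nat_lit 460) (nat_lit 428) (nat_lit 4524) (nat_lit 459) (nat_lit 3531))))) (.f (nat_lit 495) (nat_lit 527) (nat_lit 492) (.f (nat_lit 524) (nat_lit 523) (nat_lit 1515) (.f (nat_lit 460) (nat_lit 459) (nat_lit 3531) (.f (nat_lit 428) (nat_lit 396) (nat_lit 4492) (.f (nat_lit 429) (nat_lit 397) (nat_lit 6540) (.f (nat_lit 461) (nat_lit 556) (nat_lit 5548) (.d (nat_lit 427) (nat_lit 395) (nat_lit 7563) (nat_lit 426) (nat_lit 426))))))))))) (.a (.p (nat_lit 491) (.a (.f (nat_lit 490) (nat_lit 461) (nat_lit 2506) (.d (nat_lit 522) (nat_lit 521) (nat_lit 1513) (nat_lit 523) (nat_lit 1514))) (.a (.f (nat_lit 523) (nat_lit 522) (nat_lit 1514) (.d (nat_lit 495) (nat_lit 524) (nat_lit 1515) (nat_lit 527) (nat_lit 492))) (.a (.f (nat_lit 461) (nat_lit 490) (nat_lit 2506) (.f (nat_lit 525) (nat_lit 557) (nat_lit 6573) (.f (nat_lit 495) (nat_lit 527) (nat_lit 492)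 (.f (nat_lit 524) (nat_lit 523) (nat_lit 1515) (.d (nat_lit 429) (nat_lit 397) (nat_lit 5516) (nat_lit 556) (nat_lit 5548)))))) (.f (nat_lit 490) (nat_lit 461) (nat_lit 2506) (.f (nat_lit 521) (nat_lit 522) (nat_lit 1513) (.f (nat_lit 489) (nat_lit 520) (nat_lit 1512) (.d (nat_lit 457) (nat_lit 456) (nat_lit 3528) (nat_lit 458) (nat_lit 3529))))))))) (.a (.p (nat_lit 491) (.a (.f (nat_lit 490) (nat_lit 461) (nat_lit 2506) (.d (nat_lit 522) (nat_lit 521) (nat_lit 1513) (nat_lit 523) (nat_lit 1514))) (.a (.f (nat_lit 522) (nat_lit 523) (nat_lit 1514) (.f (nat_lit 490) (nat_lit 521) (nat_lit 1513) (.d (nat_lit 458) (nat_lit 457) (nat_lit 3529) (nat_lit 459) (nat_lit 3530)))) (.a (.p (nat_lit 460) (.a (.f (nat_lit 459) (nat_lit 458) (nat_lit 3530) (.f (nat_lit 523) (nat_lit 522) (nat_lit 1514) (.d (nat_lit 428) (nat_lit 396) (nat_lit 5515) (nat_lit 555) (nat_lit 6571)))) (.a (.f (nat_lit 459) (nat_lit 458) (nat_lit 3530) (.f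 (nat_lit 523) (nat_lit 522) (nat_lit 1514) (.d (nat_lit 555) (nat_lit 428) (nat_lit 6571) (nat_lit 587) (nat_lit 6603)))) (.a (.f (nat_lit 459) (nat_lit 458) (nat_lit 3530) (.f (nat_lit 461) (nat_lit 431) (nat_lit 2475) (.f (nat_lit 427) (nat_lit 426) (nat_lit 3498) (.d (nat_lit 395) (nat_lit 363) (nat_lit 4459) (nat_lit 524) (nat_lit 4491))))) (.a (.f (nat_lit 523) (nat_lit 522) (nat_lit 1514) (.f (nat_lit 428) (nat_lit 396) (nat_lit 5515) (.d (nat_lit 555) (nat_lit 459) (nat_lit 6571) (nat_lit 587) (nat_lit 6603)))) (.f (nat_lit 523) (nat_lit 522) (nat_lit 1514) (.f (nat_lit 428) (nat_lit 396) (nat_lit 5515) (.d (nat_lit 555) (nat_lit 524) (nat_lit 5547) (nat_lit 587) (nat_lit 6603))))))))) (.f (nat_lit 461) (nat_lit 490) (nat_lit 2506) (.f (nat_lit 459) (nat_lit 458) (nat_lit 3530) (.f (nat_lit 460) (nat_lit 431) (nat_lit 2475) (.f (nat_lit 427) (nat_lit 426) (nat_lit 3498) (.d (nat_lit 395) (nat_lit 363) (nat_lit 4459)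 (nat_lit 524) (nat_lit 4491)))))))))) (.a (.p (nat_lit 525) (.a (.d (nat_lit 557) (nat_lit 461) (nat_lit 6573) (nat_lit 589) (nat_lit 6605)) (.a (.f (nat_lit 557) (nat_lit 589) (nat_lit 6605) (.f (nat_lit 495) (nat_lit 527) (nat_lit 492) (.f (nat_lit 460) (nat_lit 459) (nat_lit 3531) (.d (nat_lit 428) (nat_lit 396) (nat_lit 4492) (nat_lit 524) (nat_lit 4524))))) (.f (nat_lit 495) (nat_lit 527) (nat_lit 492) (.f (nat_lit 459) (nat_lit 460) (nat_lit 3531) (.f (nat_lit 491) (nat_lit 458) (nat_lit 3530) (.f (nat_lit 490) (nat_lit 461) (nat_lit 2506) (.f (nat_lit 489) (nat_lit 524) (nat_lit 489) (.d (nat_lit 521) (nat_lit 520) (nat_lit 1512) (nat_lit 522) (nat_lit 1513)))))))))) (.f (nat_lit 495) (nat_lit 527) (nat_lit 492) (.f (nat_lit 459) (nat_lit 460) (nat_lit 3531) (.f (nat_lit 491) (nat_lit 458) (nat_lit 3530) (.f (nat_lit 490) (nat_lit 461) (nat_lit 2506) (.d (nat_lit 522) (nat_lit 521) (nat_lit 1513) (nat_lit 523) (nat_lit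 1514))))))))))))
noncomputable def s69119 : Cert := .r (nat_lit 3773962425700235452789419352813872038215364427407780804749698170255931756474516339761164284110217891529049832447137221710874224595011338554126900800248189068615467663360) (.p (nat_lit 526) (.a (.f (nat_lit 527) (nat_lit 559) (nat_lit 4526) (.d (nat_lit 525) (nat_lit 557) (nat_lit 5549) (nat_lit 561) (nat_lit 525))) (.a (.f (nat_lit 559) (nat_lit 527) (nat_lit 4526) (.f (nat_lit 558) (nat_lit 591) (nat_lit 4558) (.f (nat_lit 589) (nat_lit 557) (nat_lit 5581) (.d (nat_lit 590) (nat_lit 561) (nat_lit 1581) (nat_lit 621) (nat_lit 5613))))) (.a (.f (nat_lit 557) (nat_lit 525) (nat_lit 5549) (.f (nat_lit 558) (nat_lit 589) (nat_lit 5581) (.f (nat_lit 461) (nat_lit 429) (nat_lit 7597) (.f (nat_lit 591) (nat_lit 559) (nat_lit 4558) (.d (nat_lit 590) (nat_lit 493) (nat_lit 7629) (nat_lit 623) (nat_lit 4590)))))) (.a (.f (nat_lit 527) (nat_lit 559) (nat_lit 4526) (.f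 (nat_lit 495) (nat_lit 398) (nat_lit 4494) (.f (nat_lit 492) (nat_lit 493) (nat_lit 492) (.f (nat_lit 525) (nat_lit 561) (nat_lit 525) (.d (nat_lit 524) (nat_lit 491) (nat_lit 3563) (nat_lit 523) (nat_lit 2539)))))) (.f (nat_lit 525) (nat_lit 557) (nat_lit 5549) (.f (nat_lit 493) (nat_lit 398) (nat_lit 5517) (.d (nat_lit 527) (nat_lit 492) (nat_lit 3564) (nat_lit 561) (nat_lit 525)))))))))
noncomputable def s69198 : Cert := .r (nat_lit 3773962425700235452834172740031202102844451005294741199378431800376590762686233966902936039806145357337302205579790604514925713778225235238276077437445441719759630499840) (.p (nat_lit 395) (.a (.f (nat_lit 397) (nat_lit 365) (nat_lit 7533) (.f (nat_lit 396) (nat_lit 431) (nat_lit 395) (.f (nat_lit 427) (nat_lit 426) (nat_lit 1418) (.d (nat_lit 459) (nat_lit 458) (nat_lit 3530) (nat_lit 524) (nat_lit 4491))))) (.a (.f (nat_lit 459) (nat_lit 458) (nat_lit 3530) (.f (nat_lit 427) (nat_lit 524)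 (nat_lit 4491) (.f (nat_lit 396) (nat_lit 364) (nat_lit 6507) (.d (nat_lit 397) (nat_lit 426) (nat_lit 1418) (nat_lit 431) (nat_lit 395))))) (.a (.f (nat_lit 459) (nat_lit 458) (nat_lit 3530) (.f (nat_lit 427) (nat_lit 524) (nat_lit 4491) (.f (nat_lit 365) (nat_lit 397) (nat_lit 7533) (.f (nat_lit 366) (nat_lit 333) (nat_lit 7501) (.f (nat_lit 362) (nat_lit 394) (nat_lit 7530) (.f (nat_lit 363) (nat_lit 330) (nat_lit 7498) (.d (nat_lit 364) (nat_lit 332) (nat_lit 6475) (nat_lit 399) (nat_lit 363)))))))) (.a (.f (nat_lit 459) (nat_lit 458) (nat_lit 3530) (.f (nat_lit 427) (nat_lit 524) (nat_lit 4491) (.f (nat_lit 362) (nat_lit 394) (nat_lit 7530) (.f (nat_lit 363) (nat_lit 330) (nat_lit 7498) (.d (nat_lit 364) (nat_lit 332) (nat_lit 6475) (nat_lit 396) (nat_lit 6507)))))) (.f (nat_lit 397) (nat_lit 365) (nat_lit 7533) (.f (nat_lit 396) (nat_lit 431) (nat_lit 395) (.f (nat_lit 394) (nat_lit 429) (nat_lit 394) (.d (nat_lit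 362) (nat_lit 361) (nat_lit 3433) (nat_lit 363) (nat_lit 3434))))))))))
noncomputable def s69308 : Cert := .r (nat_lit 3773962425700235452827779399000154950754581494167479232314736944232998921976273660481040852036835171469088153841581411052486177924631183136266165525395283518459161346048) (.p (nat_lit 491) (.a (.f (nat_lit 490) (nat_lit 461) (nat_lit 2506) (.d (nat_lit 522) (nat_lit 521) (nat_lit 1513) (nat_lit 523) (nat_lit 1514))) (.a (.f (nat_lit 523) (nat_lit 522) (nat_lit 1514) (.d (nat_lit 495) (nat_lit 524) (nat_lit 1515) (nat_lit 527) (nat_lit 492))) (.a (.f (nat_lit 461) (nat_lit 490) (nat_lit 2506) (.f (nat_lit 398) (nat_lit 366) (nat_lit 5485) (.f (nat_lit 495) (nat_lit 527) (nat_lit 492) (.f (nat_lit 397) (nat_lit 365) (nat_lit 7533) (.d (nat_lit 524) (nat_lit 429) (nat_lit 5516) (nat_lit 523) (nat_lit 1515)))))) (.f (nat_lit 490) (nat_lit 461) (nat_lit 2506) (.f (nat_lit 521) (nat_lit 522) (nat_lit 1513) (.f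 (nat_lit 489) (nat_lit 520) (nat_lit 1512) (.d (nat_lit 457) (nat_lit 456) (nat_lit 3528) (nat_lit 458) (nat_lit 3529)))))))))
noncomputable def s69311 : Cert := .r (nat_lit 3773962425700235452827779399000154950754581494167479232314736944232998921976273660481040852036835171469088153841581411052486177924631183136266165525395283518459161346048) (.p (nat_lit 398) (.a (.f (nat_lit 495) (nat_lit 527) (nat_lit 4494) (.f (nat_lit 461) (nat_lit 366) (nat_lit 5485) (.f (nat_lit 524) (nat_lit 523) (nat_lit 1515) (.d (nat_lit 397) (nat_lit 365) (nat_lit 7533) (nat_lit 429) (nat_lit 5516))))) (.a (.f (nat_lit 495) (nat_lit 527) (nat_lit 492) (.f (nat_lit 461) (nat_lit 366) (nat_lit 5485) (.f (nat_lit 460) (nat_lit 459) (nat_lit 3531) (.f (nat_lit 524) (nat_lit 523) (nat_lit 1515) (.d (nat_lit 429) (nat_lit 397) (nat_lit 5516) (nat_lit 556) (nat_lit 6572)))))) (.a (.f (nat_lit 495) (nat_lit 527) (nat_lit 492) (.f (nat_lit 397) (nat_lit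 365) (nat_lit 7533) (.f (nat_lit 460) (nat_lit 459) (nat_lit 3531) (.f (nat_lit 524) (nat_lit 523) (nat_lit 1515) (.f (nat_lit 428) (nat_lit 429) (nat_lit 6540) (.f (nat_lit 395) (nat_lit 427) (nat_lit 7563) (.d (nat_lit 396) (nat_lit 363) (nat_lit 7531) (nat_lit 431) (nat_lit 395)))))))) (.a (.f (nat_lit 495) (nat_lit 527) (nat_lit 4494) (.f (nat_lit 461) (nat_lit 366) (nat_lit 5485) (.f (nat_lit 460) (nat_lit 459) (nat_lit 459) (.f (nat_lit 524) (nat_lit 523) (nat_lit 1515) (.d (nat_lit 556) (nat_lit 429) (nat_lit 6572) (nat_lit 588) (nat_lit 6604)))))) (.f (nat_lit 366) (nat_lit 461) (nat_lit 5485) (.d (nat_lit 365) (nat_lit 333) (nat_lit 7501) (nat_lit 397) (nat_lit 7533))))))))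
noncomputable def s69326 : Cert := .r (nat_lit 3773962425700235452827779399000154950754581494167479232314736944232998921976273660481040852036835171469088153841581411052486177924631183136266165525395283518459161346048) (.p (nat_lit 461) (.a (.f (nat_lit 491) (nat_lit 490) (nat_lit 2506) (.f (nat_lit 459) (nat_lit 458) (nat_lit 3530) (.f (nat_lit 460) (nat_lit 431) (nat_lit 2475) (.f (nat_lit 427) (nat_lit 426) (nat_lit 3498) (.d (nat_lit 395) (nat_lit 363) (nat_lit 4459) (nat_lit 524) (nat_lit 4491)))))) (.a (.f (nat_lit 491) (nat_lit 490) (nat_lit 2506) (.f (nat_lit 459) (nat_lit 458) (nat_lit 3530) (.f (nat_lit 460) (nat_lit 431) (nat_lit 2475) (.f (nat_lit 523) (nat_lit 522) (nat_lit 1514) (.d (nat_lit 428) (nat_lit 396) (nat_lit 5515) (nat_lit 555) (nat_lit 6571)))))) (.a (.f (nat_lit 491) (nat_lit 490) (nat_lit 2506) (.f (nat_lit 459) (nat_lit 458) (nat_lit 3530) (.f (nat_lit 523) (nat_lit 522) (nat_lit 1514) (.f (nat_lit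 398) (nat_lit 366) (nat_lit 5485) (.f (nat_lit 397) (nat_lit 365) (nat_lit 7533) (.f (nat_lit 524) (nat_lit 429) (nat_lit 5516) (.d (nat_lit 427) (nat_lit 395) (nat_lit 4491) (nat_lit 556) (nat_lit 4523)))))))) (.f (nat_lit 398) (nat_lit 366) (nat_lit 5485) (.f (nat_lit 397) (nat_lit 365) (nat_lit 7533) (.f (nat_lit 429) (nat_lit 524) (nat_lit 5516) (.f (nat_lit 396) (nat_lit 364) (nat_lit 7532) (.d (nat_lit 395) (nat_lit 394) (nat_lit 394) (nat_lit 431) (nat_lit 395))))))))))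
noncomputable def s69350 : Cert := .r (nat_lit 3773962425700235452738272624565494821507499017171332827434626795023081203952585660436165459842076769931457222485767471747551517779934770756997446010564344089473106051072) (.p (nat_lit 431) (.a (.f (nat_lit 429) (nat_lit 465) (nat_lit 429) (.d (nat_lit 461) (nat_lit 433) (nat_lit 1453) (nat_lit 460) (nat_lit 1452))) (.a (.f (nat_lit 433) (nat_lit 461) (nat_lit 1453) (.f (nat_lit 398) (nat_lit 397) (nat_lit 3469) (.f (nat_lit 399) (nat_lit 434) (nat_lit 3470) (.d (nat_lit 367) (nat_lit 335) (nat_lit 4431) (nat_lit 494) (nat_lit 6510))))) (.a (.f (nat_lit 429) (nat_lit 465) (nat_lit 429) (.f (nat_lit 461) (nat_lit 460) (nat_lit 1452) (.f (nat_lit 397) (nat_lit 396) (nat_lit 3468) (.d (nat_lit 365) (nat_lit 333) (nat_lit 4429) (nat_lit 494) (nat_lit 4461))))) (.f (nat_lit 429) (nat_lit 465) (nat_lit 429) (.f (nat_lit 397) (nat_lit 396) (nat_lit 3468) (.f (nat_lit 398) (nat_lit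 433) (nat_lit 3469) (.d (nat_lit 494) (nat_lit 365) (nat_lit 7533) (nat_lit 526) (nat_lit 7565)))))))))
noncomputable def s69351 : Cert := .r (nat_lit 3773962425700235452738272624565494821507499017171332827434626795023081203952585660436165459842076769931457222485767471747551517779934770756997446010564344089473106051072) (.p (nat_lit 431) (.a (.f (nat_lit 429) (nat_lit 465) (nat_lit 429) (.d (nat_lit 461) (nat_lit 433) (nat_lit 1453) (nat_lit 460) (nat_lit 1452))) (.a (.f (nat_lit 433) (nat_lit 461) (nat_lit 1453) (.f (nat_lit 398) (nat_lit 397) (nat_lit 3469) (.f (nat_lit 399) (nat_lit 434) (nat_lit 3470) (.d (nat_lit 367) (nat_lit 335) (nat_lit 4431) (nat_lit 494) (nat_lit 6510))))) (.a (.f (nat_lit 429) (nat_lit 465) (nat_lit 429) (.f (nat_lit 461) (nat_lit 460) (nat_lit 1452) (.f (nat_lit 397) (nat_lit 396) (nat_lit 3468) (.d (nat_lit 494) (nat_lit 365) (nat_lit 4461) (nat_lit 526) (nat_lit 7565))))) (.f (nat_lit 429)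 (nat_lit 465) (nat_lit 429) (.f (nat_lit 397) (nat_lit 396) (nat_lit 3468) (.f (nat_lit 398) (nat_lit 433) (nat_lit 3469) (.d (nat_lit 494) (nat_lit 365) (nat_lit 7533) (nat_lit 526) (nat_lit 7565)))))))))
noncomputable def s69352 : Cert := .r (nat_lit 3773962425700235452738272624565494821507499017171332827434626795023081203952585660436165459842076769931457222485767471747551517779934770756997446010564344089473106051072) (.p (nat_lit 431) (.a (.f (nat_lit 429) (nat_lit 465) (nat_lit 429) (.d (nat_lit 461) (nat_lit 433) (nat_lit 1453) (nat_lit 460) (nat_lit 1452))) (.a (.f (nat_lit 433) (nat_lit 461) (nat_lit 1453) (.f (nat_lit 398) (nat_lit 397) (nat_lit 3469) (.f (nat_lit 434) (nat_lit 399) (nat_lit 3470) (.d (nat_lit 402) (nat_lit 401) (nat_lit 2446) (nat_lit 403) (nat_lit 2447))))) (.a (.f (nat_lit 429) (nat_lit 465) (nat_lit 429) (.f (nat_lit 461) (nat_lit 460) (nat_lit 1452) (.f (nat_lit 397) (nat_lit 396) (nat_lit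 3468) (.d (nat_lit 365) (nat_lit 333) (nat_lit 4429) (nat_lit 494) (nat_lit 4461))))) (.f (nat_lit 429) (nat_lit 465) (nat_lit 429) (.f (nat_lit 397) (nat_lit 396) (nat_lit 3468) (.f (nat_lit 398) (nat_lit 433) (nat_lit 3469) (.d (nat_lit 494) (nat_lit 365) (nat_lit 7533) (nat_lit 526) (nat_lit 7565)))))))))
noncomputable def s69358 : Cert := .r (nat_lit 3773962425700235452738272624565494821507499017171332827434626795023081203952585660436165459842076769931457222485767471747551517779934770756997446010564344089473106051072) (.p (nat_lit 431) (.a (.f (nat_lit 429) (nat_lit 465) (nat_lit 429) (.d (nat_lit 461) (nat_lit 433) (nat_lit 1453) (nat_lit 460) (nat_lit 1452))) (.a (.f (nat_lit 433) (nat_lit 461) (nat_lit 1453) (.f (nat_lit 465) (nat_lit 466) (nat_lit 430) (.f (nat_lit 401) (nat_lit 402) (nat_lit 2446) (.f (nat_lit 369) (nat_lit 337) (nat_lit 5456) (.f (nat_lit 368) (nat_lit 336) (nat_lit 7504) (.f (nat_lit 400) (nat_lit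 497) (nat_lit 4464) (.f (nat_lit 370) (nat_lit 338) (nat_lit 6481) (.d (nat_lit 371) (nat_lit 372) (nat_lit 1392) (nat_lit 399) (nat_lit 1391))))))))) (.a (.f (nat_lit 429) (nat_lit 465) (nat_lit 429) (.f (nat_lit 461) (nat_lit 460) (nat_lit 1452) (.f (nat_lit 397) (nat_lit 396) (nat_lit 3468) (.d (nat_lit 365) (nat_lit 333) (nat_lit 4429) (nat_lit 494) (nat_lit 4461))))) (.a (.f (nat_lit 465) (nat_lit 429) (nat_lit 429) (.d (nat_lit 466) (nat_lit 433) (nat_lit 430) (nat_lit 467) (nat_lit 3503))) (.f (nat_lit 461) (nat_lit 433) (nat_lit 1453) (.d (nat_lit 460) (nat_lit 429) (nat_lit 1452) (nat_lit 459) (nat_lit 2475))))))))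
noncomputable def s69359 : Cert := .r (nat_lit 3773962425700235452738272624565494821507499017171332827434626795023081203952585660436165459842076769931457222485767471747551517779934770756997446010564344089473106051072) (.p (nat_lit 431) (.a (.f (nat_lit 429) (nat_lit 465) (nat_lit 429) (.d (nat_lit 461) (nat_lit 433) (nat_lit 1453) (nat_lit 460) (nat_lit 1452))) (.a (.f (nat_lit 433) (nat_lit 461) (nat_lit 1453) (.f (nat_lit 466) (nat_lit 465) (nat_lit 430) (.f (nat_lit 434) (nat_lit 467) (nat_lit 431) (.d (nat_lit 402) (nat_lit 401) (nat_lit 2446) (nat_lit 403) (nat_lit 2447))))) (.a (.f (nat_lit 429) (nat_lit 465) (nat_lit 429) (.f (nat_lit 461) (nat_lit 460) (nat_lit 1452) (.f (nat_lit 397) (nat_lit 396) (nat_lit 3468) (.d (nat_lit 365) (nat_lit 333) (nat_lit 4429) (nat_lit 494) (nat_lit 4461))))) (.a (.f (nat_lit 429) (nat_lit 465) (nat_lit 429) (.f (nat_lit 397) (nat_lit 396) (nat_lit 3468) (.f (nat_lit 398) (nat_lit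 433) (nat_lit 3469) (.d (nat_lit 494) (nat_lit 365) (nat_lit 7533) (nat_lit 526) (nat_lit 7565))))) (.f (nat_lit 461) (nat_lit 433) (nat_lit 1453) (.d (nat_lit 460) (nat_lit 429) (nat_lit 1452) (nat_lit 459) (nat_lit 2475))))))))
noncomputable def s69428 : Cert := .r (nat_lit 3773962425700235452738272624565494821507499017171332827434626795023081203952585660436165459842076769931457222485767471747551517779934770756997446010564344089473106051072) (.p (nat_lit 494) (.a (.p (nat_lit 398) (.a (.f (nat_lit 399) (nat_lit 367) (nat_lit 6510) (.f (nat_lit 431) (nat_lit 526) (nat_lit 6542) (.d (nat_lit 397) (nat_lit 365) (nat_lit 7533) (nat_lit 396) (nat_lit 396)))) (.a (.f (nat_lit 399) (nat_lit 367) (nat_lit 6510) (.f (nat_lit 431) (nat_lit 526) (nat_lit 6542) (.d (nat_lit 433) (nat_lit 434) (nat_lit 3470) (nat_lit 461) (nat_lit 1453)))) (.a (.f (nat_lit 527) (nat_lit 495) (nat_lit 4494) (.f (nat_lit 526) (nat_lit 559) (nat_lit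 4526) (.d (nat_lit 525) (nat_lit 493) (nat_lit 5517) (nat_lit 561) (nat_lit 525)))) (.f (nat_lit 367) (nat_lit 399) (nat_lit 6510) (.f (nat_lit 366) (nat_lit 335) (nat_lit 6478) (.d (nat_lit 493) (nat_lit 461) (nat_lit 5485) (nat_lit 525) (nat_lit 5517)))))))) (.a (.p (nat_lit 398) (.a (.f (nat_lit 399) (nat_lit 367) (nat_lit 6510) (.f (nat_lit 431) (nat_lit 526) (nat_lit 6542) (.d (nat_lit 397) (nat_lit 365) (nat_lit 7533) (nat_lit 396) (nat_lit 396)))) (.a (.f (nat_lit 399) (nat_lit 367) (nat_lit 6510) (.f (nat_lit 431) (nat_lit 526) (nat_lit 6542) (.d (nat_lit 433) (nat_lit 434) (nat_lit 3470) (nat_lit 461) (nat_lit 1453)))) (.a (.f (nat_lit 527) (nat_lit 495) (nat_lit 4494) (.f (nat_lit 526) (nat_lit 559) (nat_lit 4526) (.d (nat_lit 525) (nat_lit 493) (nat_lit 5517) (nat_lit 561) (nat_lit 525)))) (.f (nat_lit 397) (nat_lit 365) (nat_lit 7533) (.f (nat_lit 431) (nat_lit 433) (nat_lit 3469) (.d (nat_lit 399) (nat_lit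 367) (nat_lit 6510) (nat_lit 396) (nat_lit 396)))))))) (.a (.p (nat_lit 526) (.a (.f (nat_lit 527) (nat_lit 559) (nat_lit 4526) (.d (nat_lit 525) (nat_lit 557) (nat_lit 5549) (nat_lit 561) (nat_lit 525))) (.a (.f (nat_lit 431) (nat_lit 399) (nat_lit 6542) (.f (nat_lit 433) (nat_lit 461) (nat_lit 1453) (.f (nat_lit 527) (nat_lit 559) (nat_lit 4526) (.d (nat_lit 398) (nat_lit 397) (nat_lit 3469) (nat_lit 495) (nat_lit 4494))))) (.f (nat_lit 431) (nat_lit 399) (nat_lit 6542) (.f (nat_lit 433) (nat_lit 461) (nat_lit 1453) (.f (nat_lit 525) (nat_lit 557) (nat_lit 5549) (.d (nat_lit 398) (nat_lit 397) (nat_lit 3469) (nat_lit 493) (nat_lit 5517)))))))) (.a (.p (nat_lit 526) (.a (.f (nat_lit 527) (nat_lit 559) (nat_lit 4526) (.d (nat_lit 525) (nat_lit 557) (nat_lit 5549) (nat_lit 561) (nat_lit 525))) (.f (nat_lit 431) (nat_lit 399) (nat_lit 6542) (.f (nat_lit 433) (nat_lit 461) (nat_lit 1453) (.f (nat_lit 466) (nat_lit 465) (nat_lit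 430) (.f (nat_lit 434) (nat_lit 467) (nat_lit 431) (.d (nat_lit 402) (nat_lit 401) (nat_lit 2446) (nat_lit 403) (nat_lit 2447)))))))) (.a (.p (nat_lit 525) (.a (.f (nat_lit 526) (nat_lit 557) (nat_lit 5549) (.d (nat_lit 527) (nat_lit 559) (nat_lit 4526) (nat_lit 561) (nat_lit 525))) (.a (.f (nat_lit 493) (nat_lit 398) (nat_lit 5517) (.d (nat_lit 557) (nat_lit 461) (nat_lit 6573) (nat_lit 589) (nat_lit 6605))) (.f (nat_lit 398) (nat_lit 493) (nat_lit 5517) (.f (nat_lit 527) (nat_lit 495) (nat_lit 4494) (.d (nat_lit 526) (nat_lit 559) (nat_lit 4526) (nat_lit 561) (nat_lit 525))))))) (.a (.p (nat_lit 398) (.a (.f (nat_lit 399) (nat_lit 367) (nat_lit 6510) (.f (nat_lit 431) (nat_lit 526) (nat_lit 6542) (.d (nat_lit 397) (nat_lit 365) (nat_lit 7533) (nat_lit 396) (nat_lit 396)))) (.a (.f (nat_lit 527) (nat_lit 495) (nat_lit 4494) (.f (nat_lit 526) (nat_lit 559) (nat_lit 4526) (.d (nat_lit 525) (nat_lit 493) (nat_lit 5517) (nat_lit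 561) (nat_lit 525)))) (.f (nat_lit 397) (nat_lit 365) (nat_lit 7533) (.f (nat_lit 431) (nat_lit 433) (nat_lit 3469) (.d (nat_lit 399) (nat_lit 367) (nat_lit 6510) (nat_lit 396) (nat_lit 396))))))) (.a (.p (nat_lit 431) (.a (.f (nat_lit 433) (nat_lit 461) (nat_lit 1453) (.f (nat_lit 399) (nat_lit 526) (nat_lit 6542) (.d (nat_lit 398) (nat_lit 367) (nat_lit 6510) (nat_lit 397) (nat_lit 3469)))) (.a (.f (nat_lit 433) (nat_lit 461) (nat_lit 1453) (.f (nat_lit 398) (nat_lit 397) (nat_lit 3469) (.d (nat_lit 399) (nat_lit 434) (nat_lit 3470) (nat_lit 526) (nat_lit 6542)))) (.a (.f (nat_lit 399) (nat_lit 526) (nat_lit 6542) (.d (nat_lit 367) (nat_lit 335) (nat_lit 4431) (nat_lit 398) (nat_lit 6510))) (.a (.f (nat_lit 433) (nat_lit 461) (nat_lit 1453) (.f (nat_lit 399) (nat_lit 526) (nat_lit 6542) (.f (nat_lit 401) (nat_lit 402) (nat_lit 2446) (.f (nat_lit 465) (nat_lit 466) (nat_lit 430) (.f (nat_lit 369) (nat_lit 337) (nat_lit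 5456) (.f (nat_lit 368) (nat_lit 336) (nat_lit 7504) (.f (nat_lit 400) (nat_lit 497) (nat_lit 4464) (.d (nat_lit 370) (nat_lit 338) (nat_lit 6481) (nat_lit 371) (nat_lit 1391))))))))) (.f (nat_lit 433) (nat_lit 461) (nat_lit 1453) (.f (nat_lit 466) (nat_lit 465) (nat_lit 430) (.f (nat_lit 434) (nat_lit 467) (nat_lit 431) (.d (nat_lit 402) (nat_lit 401) (nat_lit 2446) (nat_lit 403) (nat_lit 2447)))))))))) (.p (nat_lit 398) (.a (.f (nat_lit 367) (nat_lit 399) (nat_lit 6510) (.f (nat_lit 366) (nat_lit 335) (nat_lit 6478) (.d (nat_lit 493) (nat_lit 461) (nat_lit 5485) (nat_lit 525) (nat_lit 5517)))) (.a (.f (nat_lit 397) (nat_lit 365) (nat_lit 7533) (.f (nat_lit 431) (nat_lit 433) (nat_lit 3469) (.d (nat_lit 399) (nat_lit 367) (nat_lit 6510) (nat_lit 396) (nat_lit 396)))) (.f (nat_lit 493) (nat_lit 525) (nat_lit 5517) (.f (nat_lit 366) (nat_lit 461) (nat_lit 5485) (.d (nat_lit 365) (nat_lit 333) (nat_lit 7501) (nat_lit 397)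 (nat_lit 7533)))))))))))))))
noncomputable def s69471 : Cert := .r (nat_lit 3773962425700235452789419352813872038226455106184264064188011826992504091288262088062667550410899809851508317678359724203034122219427896866516465644093803355931364294656) (.p (nat_lit 398) (.a (.f (nat_lit 399) (nat_lit 367) (nat_lit 6510) (.f (nat_lit 431) (nat_lit 526) (nat_lit 6542) (.d (nat_lit 397) (nat_lit 365) (nat_lit 7533) (nat_lit 396) (nat_lit 396)))) (.a (.f (nat_lit 527) (nat_lit 495) (nat_lit 4494) (.f (nat_lit 526) (nat_lit 559) (nat_lit 4526) (.f (nat_lit 429) (nat_lit 397) (nat_lit 7565) (.f (nat_lit 461) (nat_lit 558) (nat_lit 7597) (.d (nat_lit 366) (nat_lit 334) (nat_lit 5453) (nat_lit 493) (nat_lit 5485)))))) (.a (.f (nat_lit 527) (nat_lit 495) (nat_lit 4494) (.f (nat_lit 526) (nat_lit 559) (nat_lit 4526) (.f (nat_lit 367) (nat_lit 399) (nat_lit 6510) (.f (nat_lit 366) (nat_lit 335) (nat_lit 6478) (.f (nat_lit 461) (nat_lit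 493) (nat_lit 5485) (.d (nat_lit 429) (nat_lit 334) (nat_lit 5453) (nat_lit 558) (nat_lit 7597))))))) (.f (nat_lit 367) (nat_lit 399) (nat_lit 6510) (.f (nat_lit 366) (nat_lit 335) (nat_lit 6478) (.d (nat_lit 365) (nat_lit 333) (nat_lit 7501) (nat_lit 397) (nat_lit 7533))))))))
noncomputable def s69491 : Cert := .r (nat_lit 3773962425700235452738272624565494821513044356559574457153783623391367371359458534586917092992417729092686465101378722993631466592143049913192228432487151233131054366720) (.p (nat_lit 401) (.a (.f (nat_lit 400) (nat_lit 429) (nat_lit 2445) (.d (nat_lit 402) (nat_lit 403) (nat_lit 1423) (nat_lit 433) (nat_lit 2446))) (.a (.f (nat_lit 433) (nat_lit 402) (nat_lit 2446) (.f (nat_lit 398) (nat_lit 397) (nat_lit 3469) (.f (nat_lit 399) (nat_lit 434) (nat_lit 3470) (.d (nat_lit 367) (nat_lit 335) (nat_lit 4431) (nat_lit 494) (nat_lit 6510))))) (.a (.f (nat_lit 429) (nat_lit 400) (nat_lit 2445) (.f (nat_lit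 397) (nat_lit 396) (nat_lit 3468) (.f (nat_lit 398) (nat_lit 433) (nat_lit 3469) (.d (nat_lit 494) (nat_lit 365) (nat_lit 7533) (nat_lit 526) (nat_lit 7565))))) (.f (nat_lit 400) (nat_lit 429) (nat_lit 2445) (.d (nat_lit 402) (nat_lit 399) (nat_lit 1422) (nat_lit 403) (nat_lit 1423)))))))
noncomputable def s69514 : Cert := .r (nat_lit 3773962425919908977862452135444915647067012921347471497600898911387131699832777294003387187209316760110165283013818451219919007612706116060598813768721098707472891248640) (.p (nat_lit 494) (.a (.f (nat_lit 527) (nat_lit 559) (nat_lit 4526) (.d (nat_lit 525) (nat_lit 557) (nat_lit 5549) (nat_lit 561) (nat_lit 525))) (.a (.f (nat_lit 559) (nat_lit 527) (nat_lit 4526) (.f (nat_lit 558) (nat_lit 591) (nat_lit 4558) (.f (nat_lit 589) (nat_lit 557) (nat_lit 5581) (.d (nat_lit 590) (nat_lit 561) (nat_lit 1581) (nat_lit 621) (nat_lit 5613))))) (.a (.f (nat_lit 557) (nat_lit 525) (nat_lit 5549) (.f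 (nat_lit 558) (nat_lit 589) (nat_lit 5581) (.f (nat_lit 461) (nat_lit 429) (nat_lit 7597) (.f (nat_lit 591) (nat_lit 559) (nat_lit 4558) (.d (nat_lit 590) (nat_lit 493) (nat_lit 7629) (nat_lit 623) (nat_lit 4590)))))) (.a (.f (nat_lit 527) (nat_lit 559) (nat_lit 4526) (.f (nat_lit 525) (nat_lit 561) (nat_lit 525) (.f (nat_lit 492) (nat_lit 493) (nat_lit 3564) (.f (nat_lit 524) (nat_lit 491) (nat_lit 3563) (.f (nat_lit 523) (nat_lit 495) (nat_lit 2539) (.d (nat_lit 555) (nat_lit 554) (nat_lit 1546) (nat_lit 556) (nat_lit 1547))))))) (.f (nat_lit 525) (nat_lit 557) (nat_lit 5549) (.f (nat_lit 527) (nat_lit 561) (nat_lit 525) (.f (nat_lit 492) (nat_lit 493) (nat_lit 3564) (.f (nat_lit 524) (nat_lit 491) (nat_lit 3563) (.f (nat_lit 523) (nat_lit 495) (nat_lit 2539) (.d (nat_lit 555) (nat_lit 554) (nat_lit 1546) (nat_lit 556) (nat_lit 1547))))))))))))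
noncomputable def s69578 : Cert := .r (nat_lit 4245707729187356790735781091228014877609581511113992998351364028743301843152248936915696773107465537428723739212119043305785871284337642851662192501651962391915827036160) (.p (nat_lit 492) (.a (.f (nat_lit 589) (nat_lit 621) (nat_lit 7660) (.d (nat_lit 460) (nat_lit 493) (nat_lit 7628) (nat_lit 556) (nat_lit 4556))) (.a (.f (nat_lit 558) (nat_lit 559) (nat_lit 3596) (.f (nat_lit 523) (nat_lit 522) (nat_lit 522) (.f (nat_lit 491) (nat_lit 490) (nat_lit 3562) (.f (nat_lit 555) (nat_lit 554) (nat_lit 1546) (.f (nat_lit 587) (nat_lit 619) (nat_lit 6635) (.d (nat_lit 586) (nat_lit 556) (nat_lit 1578) (nat_lit 618) (nat_lit 5610))))))) (.f (nat_lit 558) (nat_lit 559) (nat_lit 3596) (.f (nat_lit 589) (nat_lit 621) (nat_lit 7660) (.f (nat_lit 493) (nat_lit 460) (nat_lit 7628) (.f (nat_lit 523) (nat_lit 522) (nat_lit 522) (.f (nat_lit 491) (nat_lit 490) (nat_lit 490) (.f (nat_lit 555)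 (nat_lit 554) (nat_lit 1546) (.f (nat_lit 587) (nat_lit 619) (nat_lit 6635) (.d (nat_lit 586) (nat_lit 588) (nat_lit 2602) (nat_lit 618) (nat_lit 5610))))))))))))
noncomputable def s69595 : Cert := .r (nat_lit 4245707729187356790735781091228014877609581511113992998351364028743301843152248936915696773107465537428723739212119043305785871284337642851662192501651962391915827036160) (.f (nat_lit 558) (nat_lit 559) (nat_lit 3596) (.p (nat_lit 556) (.a (.f (nat_lit 555) (nat_lit 554) (nat_lit 2570) (.f (nat_lit 523) (nat_lit 522) (nat_lit 522) (.f (nat_lit 491) (nat_lit 490) (nat_lit 3562) (.d (nat_lit 459) (nat_lit 427) (nat_lit 4523) (nat_lit 588) (nat_lit 4555))))) (.a (.f (nat_lit 555) (nat_lit 554) (nat_lit 2570) (.f (nat_lit 523) (nat_lit 522) (nat_lit 522) (.f (nat_lit 587) (nat_lit 586) (nat_lit 1578) (.d (nat_lit 619) (nat_lit 492) (nat_lit 6635) (nat_lit 651) (nat_lit 6667))))) (.a (.f (nat_lit 555) (nat_lit 554) (nat_lit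 2570) (.f (nat_lit 590) (nat_lit 591) (nat_lit 555) (.d (nat_lit 622) (nat_lit 493) (nat_lit 7661) (nat_lit 654) (nat_lit 7693)))) (.f (nat_lit 523) (nat_lit 522) (nat_lit 522) (.f (nat_lit 491) (nat_lit 490) (nat_lit 3562) (.f (nat_lit 588) (nat_lit 620) (nat_lit 7659) (.d (nat_lit 459) (nat_lit 427) (nat_lit 4523) (nat_lit 492) (nat_lit 7627))))))))))
noncomputable def s69607 : Cert := .r (nat_lit 4245707729187356790735781091228014877609581511113992998351364028743301843152248936915696773107465537428723739212119043305785871284337642851662192501651962391915827036160) (.p (nat_lit 492) (.a (.f (nat_lit 589) (nat_lit 621) (nat_lit 7660) (.d (nat_lit 460) (nat_lit 428) (nat_lit 4524) (nat_lit 493) (nat_lit 7628))) (.a (.f (nat_lit 589) (nat_lit 621) (nat_lit 7660) (.d (nat_lit 460) (nat_lit 493) (nat_lit 7628) (nat_lit 556) (nat_lit 4556))) (.a (.f (nat_lit 558) (nat_lit 559) (nat_lit 3596) (.f (nat_lit 589) (nat_lit 621)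 (nat_lit 7660) (.f (nat_lit 523) (nat_lit 522) (nat_lit 522) (.f (nat_lit 555) (nat_lit 554) (nat_lit 1546) (.f (nat_lit 587) (nat_lit 619) (nat_lit 6635) (.d (nat_lit 586) (nat_lit 556) (nat_lit 1578) (nat_lit 588) (nat_lit 2602))))))) (.f (nat_lit 558) (nat_lit 559) (nat_lit 3596) (.f (nat_lit 523) (nat_lit 522) (nat_lit 522) (.f (nat_lit 555) (nat_lit 554) (nat_lit 1546) (.f (nat_lit 460) (nat_lit 428) (nat_lit 4524) (.d (nat_lit 587) (nat_lit 556) (nat_lit 5579) (nat_lit 619) (nat_lit 6635))))))))))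
noncomputable def s69623 : Cert := .r (nat_lit 4245707729187356790735781091228014877609581511113992998351364028743301843152248936915696773107465537428723739212119043305785871284337642851662192501651962391915827036160) (.p (nat_lit 492) (.a (.f (nat_lit 558) (nat_lit 559) (nat_lit 3596) (.f (nat_lit 523) (nat_lit 522) (nat_lit 522) (.f (nat_lit 491) (nat_lit 490) (nat_lit 3562) (.f (nat_lit 555) (nat_lit 554) (nat_lit 1546) (.f (nat_lit 587) (nat_lit 619) (nat_lit 6635) (.d (nat_lit 586) (nat_lit 556) (nat_lit 1578) (nat_lit 618) (nat_lit 5610))))))) (.a (.f (nat_lit 558) (nat_lit 559) (nat_lit 3596) (.f (nat_lit 589) (nat_lit 621) (nat_lit 7660) (.f (nat_lit 523) (nat_lit 522) (nat_lit 522) (.f (nat_lit 555) (nat_lit 554) (nat_lit 1546) (.f (nat_lit 587) (nat_lit 619) (nat_lit 6635) (.d (nat_lit 586) (nat_lit 556) (nat_lit 1578) (nat_lit 588) (nat_lit 2602))))))) (.a (.f (nat_lit 589) (nat_lit 621) (nat_lit 7660) (.d (nat_lit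 460) (nat_lit 428) (nat_lit 4524) (nat_lit 556) (nat_lit 4556))) (.f (nat_lit 558) (nat_lit 559) (nat_lit 3596) (.f (nat_lit 523) (nat_lit 522) (nat_lit 522) (.f (nat_lit 555) (nat_lit 554) (nat_lit 1546) (.f (nat_lit 460) (nat_lit 428) (nat_lit 4524) (.d (nat_lit 587) (nat_lit 491) (nat_lit 6603) (nat_lit 619) (nat_lit 6635))))))))))
noncomputable def s69655 : Cert := .r (nat_lit 4245707729187356790735781091228014877609581511113992998351364028743301843152248936915696773107465537428723739212119043305785871284337642851662192501651962391915827036160) (.p (nat_lit 589) (.a (.f (nat_lit 558) (nat_lit 559) (nat_lit 3596) (.d (nat_lit 621) (nat_lit 492) (nat_lit 7660) (nat_lit 653) (nat_lit 6669))) (.a (.f (nat_lit 558) (nat_lit 559) (nat_lit 3596) (.f (nat_lit 621) (nat_lit 653) (nat_lit 6669) (.f (nat_lit 622) (nat_lit 654) (nat_lit 4621) (.f (nat_lit 590) (nat_lit 493) (nat_lit 4589) (.f (nat_lit 623) (nat_lit 655) (nat_lit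 4622) (.d (nat_lit 624) (nat_lit 588) (nat_lit 3660) (nat_lit 625) (nat_lit 3661))))))) (.a (.f (nat_lit 621) (nat_lit 492) (nat_lit 7660) (.f (nat_lit 653) (nat_lit 556) (nat_lit 7692) (.d (nat_lit 652) (nat_lit 620) (nat_lit 5644) (nat_lit 684) (nat_lit 5676)))) (.p (nat_lit 590) (.a (.f (nat_lit 558) (nat_lit 559) (nat_lit 3596) (.d (nat_lit 622) (nat_lit 493) (nat_lit 7661) (nat_lit 654) (nat_lit 7693))) (.a (.f (nat_lit 558) (nat_lit 559) (nat_lit 3596) (.f (nat_lit 622) (nat_lit 654) (nat_lit 7693) (.f (nat_lit 623) (nat_lit 655) (nat_lit 4622) (.f (nat_lit 588) (nat_lit 587) (nat_lit 587) (.d (nat_lit 624) (nat_lit 591) (nat_lit 588) (nat_lit 625) (nat_lit 3661)))))) (.a (.f (nat_lit 493) (nat_lit 622) (nat_lit 4589) (.f (nat_lit 588) (nat_lit 620) (nat_lit 5612) (.f (nat_lit 492) (nat_lit 460) (nat_lit 7628) (.f (nat_lit 491) (nat_lit 490) (nat_lit 490) (.f (nat_lit 556) (nat_lit 459) (nat_lit 7627) (.d (nat_lit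 591) (nat_lit 555) (nat_lit 3627) (nat_lit 559) (nat_lit 2604))))))) (.a (.f (nat_lit 622) (nat_lit 493) (nat_lit 4589) (.d (nat_lit 654) (nat_lit 558) (nat_lit 7693) (nat_lit 686) (nat_lit 7725))) (.f (nat_lit 559) (nat_lit 558) (nat_lit 3596) (.f (nat_lit 588) (nat_lit 591) (nat_lit 2604) (.f (nat_lit 620) (nat_lit 493) (nat_lit 5612) (.d (nat_lit 652) (nat_lit 556) (nat_lit 6668) (nat_lit 684) (nat_lit 6700))))))))))))))
noncomputable def s69687 : Cert := .r (nat_lit 4245707729187356790735781091228014877609581511113992998351364028743301843152248936915696773107465537428723739212119043305785871284337642851662192501651962391915827036160) (.p (nat_lit 589) (.a (.f (nat_lit 558) (nat_lit 559) (nat_lit 3596) (.d (nat_lit 621) (nat_lit 492) (nat_lit 7660) (nat_lit 653) (nat_lit 6669))) (.a (.f (nat_lit 558) (nat_lit 559) (nat_lit 3596) (.f (nat_lit 621) (nat_lit 653) (nat_lit 6669) (.f (nat_lit 622) (nat_lit 654) (nat_lit 4621)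 (.f (nat_lit 590) (nat_lit 493) (nat_lit 4589) (.f (nat_lit 623) (nat_lit 655) (nat_lit 4622) (.d (nat_lit 624) (nat_lit 588) (nat_lit 3660) (nat_lit 625) (nat_lit 3661))))))) (.a (.f (nat_lit 621) (nat_lit 492) (nat_lit 7660) (.f (nat_lit 653) (nat_lit 556) (nat_lit 7692) (.d (nat_lit 652) (nat_lit 620) (nat_lit 5644) (nat_lit 684) (nat_lit 5676)))) (.p (nat_lit 588) (.a (.f (nat_lit 558) (nat_lit 559) (nat_lit 3596) (.f (nat_lit 493) (nat_lit 620) (nat_lit 5612) (.f (nat_lit 492) (nat_lit 460) (nat_lit 7628) (.f (nat_lit 491) (nat_lit 490) (nat_lit 490) (.f (nat_lit 587) (nat_lit 586) (nat_lit 2602) (.d (nat_lit 556) (nat_lit 459) (nat_lit 7627) (nat_lit 619) (nat_lit 5611))))))) (.a (.f (nat_lit 558) (nat_lit 559) (nat_lit 3596) (.f (nat_lit 493) (nat_lit 620) (nat_lit 5612) (.f (nat_lit 590) (nat_lit 622) (nat_lit 4589) (.f (nat_lit 492) (nat_lit 460) (nat_lit 7628) (.f (nat_lit 587) (nat_lit 586) (nat_lit 2602) (.d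 (nat_lit 619) (nat_lit 556) (nat_lit 5611) (nat_lit 618) (nat_lit 1610))))))) (.a (.f (nat_lit 620) (nat_lit 493) (nat_lit 5612) (.d (nat_lit 652) (nat_lit 556) (nat_lit 6668) (nat_lit 684) (nat_lit 6700))) (.a (.f (nat_lit 558) (nat_lit 559) (nat_lit 3596) (.f (nat_lit 523) (nat_lit 522) (nat_lit 522) (.f (nat_lit 491) (nat_lit 490) (nat_lit 3562) (.f (nat_lit 556) (nat_lit 620) (nat_lit 7659) (.d (nat_lit 459) (nat_lit 427) (nat_lit 4523) (nat_lit 492) (nat_lit 7627)))))) (.a (.f (nat_lit 559) (nat_lit 558) (nat_lit 3596) (.f (nat_lit 590) (nat_lit 591) (nat_lit 2604) (.d (nat_lit 493) (nat_lit 620) (nat_lit 5612) (nat_lit 622) (nat_lit 4589)))) (.f (nat_lit 559) (nat_lit 558) (nat_lit 1580) (.f (nat_lit 590) (nat_lit 591) (nat_lit 2604) (.f (nat_lit 622) (nat_lit 493) (nat_lit 4589) (.f (nat_lit 587) (nat_lit 623) (nat_lit 587) (.f (nat_lit 618) (nat_lit 619) (nat_lit 1610) (.f (nat_lit 586) (nat_lit 617) (nat_lit 1609)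 (.f (nat_lit 553) (nat_lit 554) (nat_lit 3625) (.d (nat_lit 585) (nat_lit 552) (nat_lit 3624) (nat_lit 556) (nat_lit 2601)))))))))))))))))))
noncomputable def s69695 : Cert := .r (nat_lit 4245707729187356790735781091228014877609581511113992998351364028743301843152248936915696773107465537428723739212119043305785871284337642851662192501651962391915827036160) (.p (nat_lit 492) (.a (.f (nat_lit 589) (nat_lit 621) (nat_lit 7660) (.d (nat_lit 460) (nat_lit 428) (nat_lit 4524) (nat_lit 493) (nat_lit 7628))) (.a (.f (nat_lit 558) (nat_lit 559) (nat_lit 3596) (.f (nat_lit 589) (nat_lit 621) (nat_lit 7660) (.f (nat_lit 493) (nat_lit 460) (nat_lit 7628) (.f (nat_lit 523) (nat_lit 522) (nat_lit 522) (.f (nat_lit 491) (nat_lit 490) (nat_lit 490) (.f (nat_lit 555) (nat_lit 554) (nat_lit 1546) (.f (nat_lit 587) (nat_lit 619) (nat_lit 6635) (.d (nat_lit 586) (nat_lit 588) (nat_lit 2602) (nat_lit 618) (nat_lit 5610))))))))) (.a (.f (nat_lit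 558) (nat_lit 559) (nat_lit 3596) (.f (nat_lit 523) (nat_lit 522) (nat_lit 522) (.f (nat_lit 589) (nat_lit 621) (nat_lit 7660) (.f (nat_lit 491) (nat_lit 490) (nat_lit 3562) (.f (nat_lit 555) (nat_lit 554) (nat_lit 1546) (.f (nat_lit 587) (nat_lit 619) (nat_lit 6635) (.d (nat_lit 586) (nat_lit 588) (nat_lit 2602) (nat_lit 618) (nat_lit 5610)))))))) (.f (nat_lit 558) (nat_lit 559) (nat_lit 3596) (.f (nat_lit 523) (nat_lit 522) (nat_lit 522) (.f (nat_lit 555) (nat_lit 554) (nat_lit 1546) (.f (nat_lit 460) (nat_lit 428) (nat_lit 4524) (.d (nat_lit 587) (nat_lit 491) (nat_lit 6603) (nat_lit 619) (nat_lit 6635))))))))))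
noncomputable def s69725 : Cert := .r (nat_lit 4245707729187356790735781091228014877609581511113992998351364028743301843152248936915696773107465537428723739212119043305785871284337642851662192501651962391915827036160) (.f (nat_lit 558) (nat_lit 559) (nat_lit 3596) (.p (nat_lit 556) (.a (.f (nat_lit 555) (nat_lit 554) (nat_lit 2570) (.f (nat_lit 523) (nat_lit 522) (nat_lit 522) (.f (nat_lit 491) (nat_lit 490) (nat_lit 3562) (.d (nat_lit 459) (nat_lit 427) (nat_lit 4523) (nat_lit 588) (nat_lit 4555))))) (.a (.f (nat_lit 555) (nat_lit 554) (nat_lit 2570) (.f (nat_lit 523) (nat_lit 522) (nat_lit 522) (.f (nat_lit 587) (nat_lit 586) (nat_lit 1578) (.d (nat_lit 619) (nat_lit 492) (nat_lit 6635) (nat_lit 651) (nat_lit 6667))))) (.a (.f (nat_lit 555) (nat_lit 554) (nat_lit 2570) (.f (nat_lit 587) (nat_lit 586) (nat_lit 1578) (.f (nat_lit 492) (nat_lit 460) (nat_lit 5579) (.d (nat_lit 619) (nat_lit 588) (nat_lit 5611) (nat_lit 651)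 (nat_lit 6667))))) (.f (nat_lit 523) (nat_lit 522) (nat_lit 522) (.f (nat_lit 491) (nat_lit 490) (nat_lit 3562) (.f (nat_lit 588) (nat_lit 620) (nat_lit 7659) (.d (nat_lit 459) (nat_lit 427) (nat_lit 4523) (nat_lit 492) (nat_lit 7627))))))))))
noncomputable def s69739 : Cert := .r (nat_lit 4245707729187356790735781091228014877609581511113992998351364028743301843152248936915696773107465537428723739212119043305785871284337642851662192501651962391915827036160) (.p (nat_lit 492) (.a (.f (nat_lit 558) (nat_lit 559) (nat_lit 3596) (.f (nat_lit 589) (nat_lit 621) (nat_lit 7660) (.f (nat_lit 523) (nat_lit 522) (nat_lit 522) (.f (nat_lit 555) (nat_lit 554) (nat_lit 1546) (.f (nat_lit 587) (nat_lit 619) (nat_lit 6635) (.d (nat_lit 586) (nat_lit 556) (nat_lit 1578) (nat_lit 588) (nat_lit 2602))))))) (.a (.f (nat_lit 589) (nat_lit 621) (nat_lit 7660) (.d (nat_lit 460) (nat_lit 428) (nat_lit 4524) (nat_lit 556) (nat_lit 4556))) (.f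 (nat_lit 558) (nat_lit 559) (nat_lit 3596) (.f (nat_lit 523) (nat_lit 522) (nat_lit 522) (.f (nat_lit 555) (nat_lit 554) (nat_lit 1546) (.f (nat_lit 460) (nat_lit 428) (nat_lit 4524) (.d (nat_lit 587) (nat_lit 491) (nat_lit 6603) (nat_lit 619) (nat_lit 6635)))))))))
noncomputable def s69763 : Cert := .r (nat_lit 5189198335392742128796169736475082100338811816218103105445415603804707883750286149937228454401880229314090832969810004530728517441818841009802551064510136402828175867904) (.p (nat_lit 590) (.a (.f (nat_lit 622) (nat_lit 654) (nat_lit 7693) (.f (nat_lit 621) (nat_lit 653) (nat_lit 5645) (.f (nat_lit 589) (nat_lit 492) (nat_lit 7660) (.f (nat_lit 623) (nat_lit 655) (nat_lit 4622) (.d (nat_lit 624) (nat_lit 588) (nat_lit 3660) (nat_lit 625) (nat_lit 3661)))))) (.a (.f (nat_lit 622) (nat_lit 654) (nat_lit 7693) (.f (nat_lit 621) (nat_lit 653) (nat_lit 5645) (.f (nat_lit 623) (nat_lit 655) (nat_lit 4622) (.f (nat_lit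 523) (nat_lit 522) (nat_lit 522) (.f (nat_lit 555) (nat_lit 554) (nat_lit 1546) (.f (nat_lit 556) (nat_lit 591) (nat_lit 555) (.f (nat_lit 587) (nat_lit 586) (nat_lit 1578) (.d (nat_lit 588) (nat_lit 589) (nat_lit 587) (nat_lit 620) (nat_lit 3659))))))))) (.a (.f (nat_lit 622) (nat_lit 654) (nat_lit 7693) (.f (nat_lit 621) (nat_lit 653) (nat_lit 5645) (.f (nat_lit 523) (nat_lit 522) (nat_lit 522) (.f (nat_lit 555) (nat_lit 554) (nat_lit 1546) (.f (nat_lit 492) (nat_lit 589) (nat_lit 7660) (.f (nat_lit 460) (nat_lit 428) (nat_lit 4524) (.d (nat_lit 556) (nat_lit 587) (nat_lit 5579) (nat_lit 591) (nat_lit 555)))))))) (.f (nat_lit 523) (nat_lit 522) (nat_lit 522) (.f (nat_lit 555) (nat_lit 554) (nat_lit 1546) (.f (nat_lit 556) (nat_lit 591) (nat_lit 555) (.f (nat_lit 587) (nat_lit 586) (nat_lit 1578) (.d (nat_lit 492) (nat_lit 460) (nat_lit 5579) (nat_lit 619) (nat_lit 6635))))))))))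
noncomputable def s69858 : Cert := .r (nat_lit 4245707729214815981376303530087942480805907083983070739551937250380879696988991109649287397315955775991369557432028228551351794716486130803661059076902258505080287264768) (.p (nat_lit 492) (.a (.f (nat_lit 460) (nat_lit 428) (nat_lit 4524) (.d (nat_lit 589) (nat_lit 556) (nat_lit 4556) (nat_lit 621) (nat_lit 7660))) (.a (.f (nat_lit 555) (nat_lit 554) (nat_lit 1546) (.f (nat_lit 587) (nat_lit 619) (nat_lit 6635) (.d (nat_lit 460) (nat_lit 491) (nat_lit 6603) (nat_lit 556) (nat_lit 5579)))) (.a (.f (nat_lit 558) (nat_lit 559) (nat_lit 3596) (.f (nat_lit 555) (nat_lit 554) (nat_lit 1546) (.f (nat_lit 587) (nat_lit 619) (nat_lit 6635) (.f (nat_lit 556) (nat_lit 586) (nat_lit 1578) (.f (nat_lit 621) (nat_lit 589) (nat_lit 7660) (.f (nat_lit 590) (nat_lit 591) (nat_lit 555) (.d (nat_lit 622) (nat_lit 653) (nat_lit 5645) (nat_lit 654) (nat_lit 7693)))))))) (.f (nat_lit 555) (nat_lit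 554) (nat_lit 1546) (.f (nat_lit 460) (nat_lit 428) (nat_lit 4524) (.d (nat_lit 587) (nat_lit 491) (nat_lit 6603) (nat_lit 619) (nat_lit 6635))))))))
noncomputable def s69981 : Cert := .r (nat_lit 4245707729214815981376303530087942480805907083983070739551937250380879696988991109649287397315955775991369557432028228551351794716486130803661059076902258505080287264768) (.f (nat_lit 555) (nat_lit 554) (nat_lit 1546) (.p (nat_lit 587) (.a (.f (nat_lit 491) (nat_lit 490) (nat_lit 3562) (.d (nat_lit 492) (nat_lit 460) (nat_lit 6603) (nat_lit 619) (nat_lit 6635))) (.a (.f (nat_lit 491) (nat_lit 490) (nat_lit 3562) (.f (nat_lit 619) (nat_lit 492) (nat_lit 6635) (.d (nat_lit 618) (nat_lit 586) (nat_lit 5610) (nat_lit 650) (nat_lit 5642)))) (.a (.f (nat_lit 492) (nat_lit 619) (nat_lit 6635) (.d (nat_lit 460) (nat_lit 428) (nat_lit 4524) (nat_lit 491) (nat_lit 6603))) (.a (.f (nat_lit 619) (nat_lit 492) (nat_lit 6635) (.f (nat_lit 652)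 (nat_lit 620) (nat_lit 4619) (.f (nat_lit 651) (nat_lit 684) (nat_lit 4651) (.d (nat_lit 650) (nat_lit 618) (nat_lit 5642) (nat_lit 682) (nat_lit 5674))))) (.a (.f (nat_lit 491) (nat_lit 490) (nat_lit 3562) (.f (nat_lit 620) (nat_lit 588) (nat_lit 4587) (.f (nat_lit 619) (nat_lit 652) (nat_lit 4619) (.d (nat_lit 618) (nat_lit 586) (nat_lit 5610) (nat_lit 650) (nat_lit 5642))))) (.f (nat_lit 558) (nat_lit 559) (nat_lit 3596) (.f (nat_lit 491) (nat_lit 490) (nat_lit 3562) (.f (nat_lit 492) (nat_lit 460) (nat_lit 6603) (.f (nat_lit 589) (nat_lit 621) (nat_lit 7660) (.d (nat_lit 586) (nat_lit 588) (nat_lit 2602) (nat_lit 618) (nat_lit 5610)))))))))))))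
noncomputable def s70095 : Cert := .r (nat_lit 4245707729187356790735781091228014877609581511113992998351364028743301843152248936915696773107465537428723739212119043305785871284337642851662192501651962391915827036160) (.p (nat_lit 460) (.a (.f (nat_lit 492) (nat_lit 428) (nat_lit 4524) (.d (nat_lit 589) (nat_lit 556) (nat_lit 4556) (nat_lit 621) (nat_lit 7660))) (.a (.p (nat_lit 589) (.a (.d (nat_lit 492) (nat_lit 556) (nat_lit 4556) (nat_lit 621) (nat_lit 7660)) (.a (.f (nat_lit 558) (nat_lit 559) (nat_lit 3596) (.f (nat_lit 621) (nat_lit 653) (nat_lit 6669) (.f (nat_lit 622) (nat_lit 654) (nat_lit 4621) (.f (nat_lit 620) (nat_lit 652) (nat_lit 5644) (.f (nat_lit 523) (nat_lit 522) (nat_lit 522) (.f (nat_lit 491) (nat_lit 490) (nat_lit 3562) (.f (nat_lit 588) (nat_lit 556) (nat_lit 7659) (.d (nat_lit 587) (nat_lit 555) (nat_lit 4587) (nat_lit 586) (nat_lit 586))))))))) (.a (.f (nat_lit 558) (nat_lit 559) (nat_lit 3596)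 (.d (nat_lit 621) (nat_lit 492) (nat_lit 7660) (nat_lit 653) (nat_lit 6669))) (.f (nat_lit 558) (nat_lit 559) (nat_lit 3596) (.f (nat_lit 556) (nat_lit 492) (nat_lit 4556) (.f (nat_lit 523) (nat_lit 522) (nat_lit 522) (.f (nat_lit 491) (nat_lit 490) (nat_lit 3562) (.f (nat_lit 588) (nat_lit 620) (nat_lit 7659) (.d (nat_lit 459) (nat_lit 427) (nat_lit 4523) (nat_lit 555) (nat_lit 4555))))))))))) (.a (.p (nat_lit 459) (.a (.f (nat_lit 461) (nat_lit 431) (nat_lit 2475) (.f (nat_lit 458) (nat_lit 429) (nat_lit 2474) (.d (nat_lit 490) (nat_lit 489) (nat_lit 1481) (nat_lit 491) (nat_lit 1482)))) (.a (.f (nat_lit 558) (nat_lit 559) (nat_lit 3596) (.f (nat_lit 461) (nat_lit 431) (nat_lit 2475) (.f (nat_lit 523) (nat_lit 522) (nat_lit 522) (.f (nat_lit 491) (nat_lit 490) (nat_lit 1482) (.d (nat_lit 427) (nat_lit 426) (nat_lit 3498) (nat_lit 556) (nat_lit 4523)))))) (.a (.f (nat_lit 558) (nat_lit 559) (nat_lit 3596) (.f (nat_lit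 523) (nat_lit 522) (nat_lit 522) (.f (nat_lit 491) (nat_lit 490) (nat_lit 3562) (.f (nat_lit 427) (nat_lit 556) (nat_lit 4523) (.d (nat_lit 428) (nat_lit 396) (nat_lit 6539) (nat_lit 555) (nat_lit 6571)))))) (.f (nat_lit 461) (nat_lit 431) (nat_lit 2475) (.f (nat_lit 458) (nat_lit 429) (nat_lit 2474) (.d (nat_lit 426) (nat_lit 425) (nat_lit 3497) (nat_lit 427) (nat_lit 3498)))))))) (.f (nat_lit 558) (nat_lit 559) (nat_lit 3596) (.f (nat_lit 523) (nat_lit 522) (nat_lit 522) (.f (nat_lit 428) (nat_lit 492) (nat_lit 4524) (.f (nat_lit 491) (nat_lit 490) (nat_lit 3562) (.f (nat_lit 459) (nat_lit 555) (nat_lit 6571) (.d (nat_lit 431) (nat_lit 429) (nat_lit 1451) (nat_lit 461) (nat_lit 2475)))))))))))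
noncomputable def s70128 : Cert := .r (nat_lit 4245707729187356790735781091228014877609581511113992998351364028743301843152248936915696773107465537428723739212119043305785871284337642851662192501651962391915827036160) (.p (nat_lit 460) (.a (.f (nat_lit 492) (nat_lit 428) (nat_lit 4524) (.d (nat_lit 589) (nat_lit 556) (nat_lit 4556) (nat_lit 621) (nat_lit 7660))) (.a (.p (nat_lit 459) (.a (.f (nat_lit 461) (nat_lit 431) (nat_lit 2475) (.f (nat_lit 458) (nat_lit 429) (nat_lit 2474) (.d (nat_lit 490) (nat_lit 489) (nat_lit 1481) (nat_lit 491) (nat_lit 1482)))) (.a (.f (nat_lit 558) (nat_lit 559) (nat_lit 3596) (.f (nat_lit 461) (nat_lit 431) (nat_lit 2475) (.f (nat_lit 523) (nat_lit 522) (nat_lit 522) (.f (nat_lit 491) (nat_lit 490) (nat_lit 1482) (.d (nat_lit 427) (nat_lit 426) (nat_lit 3498) (nat_lit 556) (nat_lit 4523)))))) (.a (.f (nat_lit 558) (nat_lit 559) (nat_lit 3596) (.f (nat_lit 523) (nat_lit 522) (nat_lit 522)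 (.f (nat_lit 491) (nat_lit 490) (nat_lit 3562) (.f (nat_lit 427) (nat_lit 556) (nat_lit 4523) (.d (nat_lit 426) (nat_lit 394) (nat_lit 7562) (nat_lit 461) (nat_lit 3498)))))) (.a (.f (nat_lit 558) (nat_lit 559) (nat_lit 3596) (.f (nat_lit 523) (nat_lit 522) (nat_lit 522) (.f (nat_lit 491) (nat_lit 490) (nat_lit 3562) (.f (nat_lit 556) (nat_lit 427) (nat_lit 4523) (.d (nat_lit 588) (nat_lit 492) (nat_lit 7627) (nat_lit 620) (nat_lit 7659)))))) (.f (nat_lit 461) (nat_lit 431) (nat_lit 2475) (.f (nat_lit 458) (nat_lit 429) (nat_lit 2474) (.d (nat_lit 426) (nat_lit 425) (nat_lit 3497) (nat_lit 427) (nat_lit 3498))))))))) (.a (.p (nat_lit 459) (.a (.f (nat_lit 461) (nat_lit 431) (nat_lit 2475) (.f (nat_lit 458) (nat_lit 429) (nat_lit 2474) (.d (nat_lit 490) (nat_lit 489) (nat_lit 1481) (nat_lit 491) (nat_lit 1482)))) (.a (.f (nat_lit 558) (nat_lit 559) (nat_lit 3596) (.f (nat_lit 461) (nat_lit 431) (nat_lit 2475) (.f (nat_lit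 523) (nat_lit 522) (nat_lit 522) (.f (nat_lit 491) (nat_lit 490) (nat_lit 1482) (.d (nat_lit 427) (nat_lit 426) (nat_lit 3498) (nat_lit 556) (nat_lit 4523)))))) (.a (.f (nat_lit 558) (nat_lit 559) (nat_lit 3596) (.f (nat_lit 523) (nat_lit 522) (nat_lit 522) (.f (nat_lit 491) (nat_lit 490) (nat_lit 3562) (.f (nat_lit 427) (nat_lit 556) (nat_lit 4523) (.d (nat_lit 426) (nat_lit 394) (nat_lit 7562) (nat_lit 461) (nat_lit 3498)))))) (.a (.f (nat_lit 558) (nat_lit 559) (nat_lit 3596) (.f (nat_lit 523) (nat_lit 522) (nat_lit 522) (.f (nat_lit 491) (nat_lit 490) (nat_lit 3562) (.f (nat_lit 427) (nat_lit 556) (nat_lit 4523) (.f (nat_lit 428) (nat_lit 396) (nat_lit 6539) (.d (nat_lit 429) (nat_lit 431) (nat_lit 1451) (nat_lit 458) (nat_lit 1450))))))) (.f (nat_lit 461) (nat_lit 431) (nat_lit 2475) (.f (nat_lit 458) (nat_lit 429) (nat_lit 2474) (.d (nat_lit 426) (nat_lit 425) (nat_lit 3497) (nat_lit 427) (nat_lit 3498))))))))) (.p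 (nat_lit 459) (.a (.f (nat_lit 461) (nat_lit 431) (nat_lit 2475) (.f (nat_lit 458) (nat_lit 429) (nat_lit 2474) (.d (nat_lit 490) (nat_lit 489) (nat_lit 1481) (nat_lit 491) (nat_lit 1482)))) (.a (.f (nat_lit 461) (nat_lit 431) (nat_lit 2475) (.f (nat_lit 490) (nat_lit 491) (nat_lit 1482) (.f (nat_lit 458) (nat_lit 489) (nat_lit 1481) (.d (nat_lit 426) (nat_lit 425) (nat_lit 3497) (nat_lit 427) (nat_lit 3498))))) (.a (.f (nat_lit 558) (nat_lit 559) (nat_lit 3596) (.f (nat_lit 492) (nat_lit 428) (nat_lit 4524) (.f (nat_lit 523) (nat_lit 522) (nat_lit 522) (.f (nat_lit 491) (nat_lit 490) (nat_lit 3562) (.f (nat_lit 427) (nat_lit 395) (nat_lit 4491) (.d (nat_lit 426) (nat_lit 394) (nat_lit 7562) (nat_lit 461) (nat_lit 3498))))))) (.f (nat_lit 428) (nat_lit 492) (nat_lit 4524) (.f (nat_lit 429) (nat_lit 431) (nat_lit 1451) (.d (nat_lit 458) (nat_lit 427) (nat_lit 1450) (nat_lit 457) (nat_lit 2473))))))))))))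
noncomputable def s70145 : Cert := .r (nat_lit 4245707729214815981376303530087942480805907083983070739551937250380879696988991109649287397315955775991369557432028228551351794716486130803661059076902258505080287264768) (.p (nat_lit 492) (.a (.f (nat_lit 460) (nat_lit 428) (nat_lit 4524) (.d (nat_lit 589) (nat_lit 556) (nat_lit 4556) (nat_lit 621) (nat_lit 7660))) (.a (.f (nat_lit 555) (nat_lit 554) (nat_lit 1546) (.f (nat_lit 587) (nat_lit 619) (nat_lit 6635) (.d (nat_lit 460) (nat_lit 491) (nat_lit 6603) (nat_lit 556) (nat_lit 5579)))) (.a (.f (nat_lit 554) (nat_lit 555) (nat_lit 1546) (.f (nat_lit 522) (nat_lit 553) (nat_lit 1545) (.f (nat_lit 521) (nat_lit 556) (nat_lit 521) (.f (nat_lit 520) (nat_lit 491) (nat_lit 2536) (.d (nat_lit 488) (nat_lit 487) (nat_lit 3559) (nat_lit 489) (nat_lit 3560)))))) (.f (nat_lit 555) (nat_lit 554) (nat_lit 1546) (.f (nat_lit 460) (nat_lit 428) (nat_lit 4524) (.d (nat_lit 587) (nat_lit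 491) (nat_lit 6603) (nat_lit 619) (nat_lit 6635))))))))
noncomputable def s70162 : Cert := .r (nat_lit 4245707729187356790735781091228014877609581511113992998351364028743301843152248936915696773107465537428723739212119043305785871284337642851662192501651962391915827036160) (.p (nat_lit 492) (.a (.f (nat_lit 558) (nat_lit 559) (nat_lit 3596) (.f (nat_lit 523) (nat_lit 522) (nat_lit 522) (.f (nat_lit 491) (nat_lit 490) (nat_lit 3562) (.f (nat_lit 555) (nat_lit 554) (nat_lit 1546) (.f (nat_lit 587) (nat_lit 619) (nat_lit 6635) (.d (nat_lit 586) (nat_lit 556) (nat_lit 1578) (nat_lit 618) (nat_lit 5610))))))) (.a (.f (nat_lit 558) (nat_lit 559) (nat_lit 3596) (.f (nat_lit 523) (nat_lit 522) (nat_lit 522) (.f (nat_lit 555) (nat_lit 554) (nat_lit 1546) (.f (nat_lit 460) (nat_lit 428) (nat_lit 4524) (.d (nat_lit 587) (nat_lit 556) (nat_lit 5579) (nat_lit 619) (nat_lit 6635)))))) (.a (.f (nat_lit 589) (nat_lit 621) (nat_lit 7660)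 (.d (nat_lit 460) (nat_lit 428) (nat_lit 4524) (nat_lit 556) (nat_lit 4556))) (.f (nat_lit 558) (nat_lit 559) (nat_lit 3596) (.f (nat_lit 523) (nat_lit 522) (nat_lit 522) (.f (nat_lit 555) (nat_lit 554) (nat_lit 1546) (.f (nat_lit 460) (nat_lit 428) (nat_lit 4524) (.d (nat_lit 587) (nat_lit 491) (nat_lit 6603) (nat_lit 619) (nat_lit 6635))))))))))
noncomputable def s70252 : Cert := .r (nat_lit 4245707729187356790735781091228014877609581511113992998351364028743301843152248936915696773107465537428723739212119043305785871284337642851662192501651962391915827036160) (.p (nat_lit 459) (.a (.f (nat_lit 558) (nat_lit 559) (nat_lit 3596) (.f (nat_lit 461) (nat_lit 493) (nat_lit 6573) (.f (nat_lit 460) (nat_lit 431) (nat_lit 2475) (.f (nat_lit 523) (nat_lit 522) (nat_lit 522) (.f (nat_lit 491) (nat_lit 490) (nat_lit 1482) (.d (nat_lit 427) (nat_lit 426) (nat_lit 3498) (nat_lit 556) (nat_lit 4523))))))) (.a (.f (nat_lit 558) (nat_lit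 559) (nat_lit 3596) (.f (nat_lit 461) (nat_lit 493) (nat_lit 6573) (.f (nat_lit 523) (nat_lit 522) (nat_lit 522) (.f (nat_lit 460) (nat_lit 431) (nat_lit 2475) (.f (nat_lit 491) (nat_lit 490) (nat_lit 3562) (.d (nat_lit 555) (nat_lit 428) (nat_lit 6571) (nat_lit 554) (nat_lit 1546))))))) (.a (.f (nat_lit 558) (nat_lit 559) (nat_lit 3596) (.f (nat_lit 493) (nat_lit 461) (nat_lit 6573) (.f (nat_lit 523) (nat_lit 522) (nat_lit 522) (.f (nat_lit 555) (nat_lit 554) (nat_lit 1546) (.f (nat_lit 491) (nat_lit 490) (nat_lit 3562) (.f (nat_lit 590) (nat_lit 622) (nat_lit 7661) (.d (nat_lit 556) (nat_lit 427) (nat_lit 4523) (nat_lit 591) (nat_lit 555)))))))) (.a (.f (nat_lit 558) (nat_lit 559) (nat_lit 3596) (.f (nat_lit 523) (nat_lit 522) (nat_lit 522) (.f (nat_lit 555) (nat_lit 554) (nat_lit 1546) (.f (nat_lit 491) (nat_lit 490) (nat_lit 3562) (.f (nat_lit 427) (nat_lit 556) (nat_lit 4523) (.d (nat_lit 428) (nat_lit 396) (nat_lit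 6539) (nat_lit 460) (nat_lit 6571))))))) (.f (nat_lit 461) (nat_lit 493) (nat_lit 6573) (.f (nat_lit 460) (nat_lit 431) (nat_lit 2475) (.f (nat_lit 426) (nat_lit 427) (nat_lit 3498) (.d (nat_lit 458) (nat_lit 425) (nat_lit 3497) (nat_lit 429) (nat_lit 2474))))))))))
noncomputable def s70262 : Cert := .r (nat_lit 4245707729187356790735781091228014877609581511113992998351364028743301843152248936915696773107465537428723739212119043305785871284337642851662192501651962391915827036160) (.p (nat_lit 460) (.a (.f (nat_lit 558) (nat_lit 559) (nat_lit 3596) (.f (nat_lit 523) (nat_lit 522) (nat_lit 522) (.f (nat_lit 428) (nat_lit 492) (nat_lit 4524) (.f (nat_lit 491) (nat_lit 490) (nat_lit 3562) (.f (nat_lit 459) (nat_lit 555) (nat_lit 6571) (.d (nat_lit 431) (nat_lit 429) (nat_lit 1451) (nat_lit 461) (nat_lit 2475))))))) (.a (.f (nat_lit 461) (nat_lit 493) (nat_lit 6573) (.f (nat_lit 459) (nat_lit 431) (nat_lit 2475) (.f (nat_lit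 490) (nat_lit 491) (nat_lit 1482) (.d (nat_lit 458) (nat_lit 429) (nat_lit 2474) (nat_lit 489) (nat_lit 1481))))) (.a (.f (nat_lit 493) (nat_lit 461) (nat_lit 6573) (.d (nat_lit 492) (nat_lit 428) (nat_lit 4524) (nat_lit 589) (nat_lit 7628))) (.f (nat_lit 492) (nat_lit 428) (nat_lit 4524) (.d (nat_lit 589) (nat_lit 493) (nat_lit 7628) (nat_lit 621) (nat_lit 7660)))))))
noncomputable def s70306 : Cert := .r (nat_lit 4245707729187356790735781091228014877609581511113992998351364028743301843152248936915696773107465537428723739212119043305785871284337642851662192501651962391915827036160) (.p (nat_lit 460) (.a (.f (nat_lit 558) (nat_lit 559) (nat_lit 3596) (.f (nat_lit 523) (nat_lit 522) (nat_lit 522) (.f (nat_lit 428) (nat_lit 492) (nat_lit 4524) (.f (nat_lit 491) (nat_lit 490) (nat_lit 3562) (.f (nat_lit 459) (nat_lit 555) (nat_lit 6571) (.d (nat_lit 431) (nat_lit 429) (nat_lit 1451) (nat_lit 461) (nat_lit 2475))))))) (.a (.f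 (nat_lit 461) (nat_lit 493) (nat_lit 6573) (.f (nat_lit 459) (nat_lit 431) (nat_lit 2475) (.f (nat_lit 490) (nat_lit 491) (nat_lit 1482) (.d (nat_lit 458) (nat_lit 429) (nat_lit 2474) (nat_lit 489) (nat_lit 1481))))) (.a (.f (nat_lit 558) (nat_lit 559) (nat_lit 3596) (.f (nat_lit 493) (nat_lit 461) (nat_lit 6573) (.f (nat_lit 492) (nat_lit 428) (nat_lit 4524) (.f (nat_lit 523) (nat_lit 522) (nat_lit 522) (.f (nat_lit 491) (nat_lit 490) (nat_lit 490) (.f (nat_lit 555) (nat_lit 587) (nat_lit 6603) (.f (nat_lit 590) (nat_lit 622) (nat_lit 7661) (.f (nat_lit 556) (nat_lit 591) (nat_lit 555) (.d (nat_lit 459) (nat_lit 427) (nat_lit 4523) (nat_lit 588) (nat_lit 4555)))))))))) (.a (.f (nat_lit 558) (nat_lit 559) (nat_lit 3596) (.f (nat_lit 461) (nat_lit 493) (nat_lit 6573) (.f (nat_lit 492) (nat_lit 428) (nat_lit 4524) (.f (nat_lit 556) (nat_lit 429) (nat_lit 6572) (.f (nat_lit 523) (nat_lit 522) (nat_lit 522) (.f (nat_lit 587)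 (nat_lit 555) (nat_lit 5579) (.f (nat_lit 588) (nat_lit 619) (nat_lit 5611) (.d (nat_lit 620) (nat_lit 491) (nat_lit 7659) (nat_lit 652) (nat_lit 6668))))))))) (.a (.f (nat_lit 558) (nat_lit 559) (nat_lit 3596) (.f (nat_lit 523) (nat_lit 522) (nat_lit 522) (.f (nat_lit 428) (nat_lit 492) (nat_lit 4524) (.f (nat_lit 491) (nat_lit 490) (nat_lit 3562) (.f (nat_lit 459) (nat_lit 555) (nat_lit 6571) (.d (nat_lit 427) (nat_lit 396) (nat_lit 6539) (nat_lit 556) (nat_lit 4523))))))) (.f (nat_lit 461) (nat_lit 493) (nat_lit 6573) (.f (nat_lit 459) (nat_lit 431) (nat_lit 2475) (.f (nat_lit 492) (nat_lit 428) (nat_lit 4524) (.d (nat_lit 429) (nat_lit 458) (nat_lit 2474) (nat_lit 556) (nat_lit 6572)))))))))))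
noncomputable def s70321 : Cert := .r (nat_lit 4245707729187356790735781091228014877609581511113992998351364028743301843152248936915696773107465537428723739212119043305785871284337642851662192501651962391915827036160) (.p (nat_lit 459) (.a (.f (nat_lit 558) (nat_lit 559) (nat_lit 3596) (.f (nat_lit 461) (nat_lit 493) (nat_lit 6573) (.f (nat_lit 460) (nat_lit 431) (nat_lit 2475) (.f (nat_lit 523) (nat_lit 522) (nat_lit 522) (.f (nat_lit 491) (nat_lit 490) (nat_lit 1482) (.d (nat_lit 427) (nat_lit 426) (nat_lit 3498) (nat_lit 556) (nat_lit 4523))))))) (.a (.f (nat_lit 461) (nat_lit 493) (nat_lit 6573) (.f (nat_lit 460) (nat_lit 431) (nat_lit 2475) (.f (nat_lit 492) (nat_lit 428) (nat_lit 4524) (.d (nat_lit 429) (nat_lit 458) (nat_lit 2474) (nat_lit 556) (nat_lit 6572))))) (.a (.f (nat_lit 558) (nat_lit 559) (nat_lit 3596) (.f (nat_lit 523) (nat_lit 522) (nat_lit 522) (.f (nat_lit 491) (nat_lit 490) (nat_lit 3562) (.f (nat_lit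 427) (nat_lit 556) (nat_lit 4523) (.f (nat_lit 428) (nat_lit 396) (nat_lit 6539) (.d (nat_lit 492) (nat_lit 395) (nat_lit 4491) (nat_lit 460) (nat_lit 4524))))))) (.a (.f (nat_lit 558) (nat_lit 559) (nat_lit 3596) (.f (nat_lit 523) (nat_lit 522) (nat_lit 522) (.f (nat_lit 491) (nat_lit 490) (nat_lit 3562) (.f (nat_lit 427) (nat_lit 556) (nat_lit 4523) (.f (nat_lit 395) (nat_lit 492) (nat_lit 4491) (.d (nat_lit 396) (nat_lit 364) (nat_lit 6507) (nat_lit 428) (nat_lit 6539))))))) (.f (nat_lit 461) (nat_lit 493) (nat_lit 6573) (.f (nat_lit 460) (nat_lit 431) (nat_lit 2475) (.f (nat_lit 426) (nat_lit 427) (nat_lit 3498) (.d (nat_lit 458) (nat_lit 425) (nat_lit 3497) (nat_lit 429) (nat_lit 2474))))))))))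
noncomputable def s70366 : Cert := .r (nat_lit 4245707729187356790735781091228014877609581511113992998351364028743301843152248936915696773107465537428723739212119043305785871284337642851662192501651962391915827036160) (.p (nat_lit 588) (.a (.f (nat_lit 493) (nat_lit 461) (nat_lit 6573) (.d (nat_lit 620) (nat_lit 556) (nat_lit 6636) (nat_lit 589) (nat_lit 5612))) (.a (.f (nat_lit 558) (nat_lit 559) (nat_lit 3596) (.f (nat_lit 523) (nat_lit 522) (nat_lit 522) (.f (nat_lit 555) (nat_lit 554) (nat_lit 1546) (.f (nat_lit 491) (nat_lit 490) (nat_lit 3562) (.d (nat_lit 620) (nat_lit 556) (nat_lit 7659) (nat_lit 587) (nat_lit 4587)))))) (.a (.f (nat_lit 558) (nat_lit 559) (nat_lit 3596) (.f (nat_lit 493) (nat_lit 461) (nat_lit 6573) (.f (nat_lit 523) (nat_lit 522) (nat_lit 522) (.f (nat_lit 620) (nat_lit 589) (nat_lit 5612) (.f (nat_lit 555) (nat_lit 554) (nat_lit 1546) (.d (nat_lit 491) (nat_lit 490) (nat_lit 3562) (nat_lit 587)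 (nat_lit 4587))))))) (.f (nat_lit 558) (nat_lit 559) (nat_lit 3596) (.f (nat_lit 461) (nat_lit 493) (nat_lit 6573) (.f (nat_lit 523) (nat_lit 522) (nat_lit 522) (.f (nat_lit 555) (nat_lit 554) (nat_lit 1546) (.f (nat_lit 491) (nat_lit 490) (nat_lit 3562) (.f (nat_lit 459) (nat_lit 556) (nat_lit 4555) (.d (nat_lit 460) (nat_lit 428) (nat_lit 6571) (nat_lit 431) (nat_lit 2475))))))))))))
noncomputable def s70463 : Cert := .r (nat_lit 3773962425919908977913598863693292863785969010360402734354283943356554587168453721629889277778139800030216378206410703675401612052199242170117833402250557973931149492224) (.p (nat_lit 558) (.a (.d (nat_lit 557) (nat_lit 525) (nat_lit 5549) (nat_lit 589) (nat_lit 5581)) (.a (.f (nat_lit 589) (nat_lit 557) (nat_lit 5581) (.f (nat_lit 590) (nat_lit 621) (nat_lit 5613) (.d (nat_lit 591) (nat_lit 559) (nat_lit 4558) (nat_lit 623) (nat_lit 4590)))) (.a (.f (nat_lit 591) (nat_lit 559) (nat_lit 4558)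 (.f (nat_lit 590) (nat_lit 623) (nat_lit 4590) (.f (nat_lit 621) (nat_lit 589) (nat_lit 5613) (.f (nat_lit 622) (nat_lit 653) (nat_lit 5645) (.d (nat_lit 493) (nat_lit 461) (nat_lit 7629) (nat_lit 525) (nat_lit 7661)))))) (.f (nat_lit 559) (nat_lit 591) (nat_lit 4558) (.d (nat_lit 525) (nat_lit 557) (nat_lit 5549) (nat_lit 561) (nat_lit 3597)))))))
noncomputable def s70474 : Cert := .r (nat_lit 3773962425919908977913598863693292863785969010360402734354283943356554587168453721629889277778139800030216378206410703675401612052199242170117833402250557973931149492224) (.p (nat_lit 558) (.a (.d (nat_lit 557) (nat_lit 525) (nat_lit 5549) (nat_lit 589) (nat_lit 5581)) (.a (.f (nat_lit 589) (nat_lit 557) (nat_lit 5581) (.f (nat_lit 590) (nat_lit 621) (nat_lit 5613) (.d (nat_lit 591) (nat_lit 559) (nat_lit 4558) (nat_lit 623) (nat_lit 4590)))) (.f (nat_lit 559) (nat_lit 591) (nat_lit 4558) (.f (nat_lit 561) (nat_lit 525) (nat_lit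 3597) (.f (nat_lit 594) (nat_lit 593) (nat_lit 558) (.f (nat_lit 562) (nat_lit 595) (nat_lit 559) (.f (nat_lit 530) (nat_lit 531) (nat_lit 2575) (.f (nat_lit 431) (nat_lit 399) (nat_lit 6542) (.f (nat_lit 429) (nat_lit 397) (nat_lit 7565) (.f (nat_lit 465) (nat_lit 432) (nat_lit 429) (.f (nat_lit 498) (nat_lit 497) (nat_lit 7633) (.f (nat_lit 466) (nat_lit 433) (nat_lit 7601) (.d (nat_lit 467) (nat_lit 435) (nat_lit 6578) (nat_lit 499) (nat_lit 6610)))))))))))))))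
noncomputable def s70500 : Cert := .r (nat_lit 3773962426112123312346109207464408869441291931431015686004911462850176676689972503138521556668748430048686010553182747938880471637745531724590879795473171499624112848896) (.f (nat_lit 491) (nat_lit 490) (nat_lit 3562) (.p (nat_lit 459) (.a (.f (nat_lit 555) (nat_lit 554) (nat_lit 1546) (.d (nat_lit 556) (nat_lit 427) (nat_lit 4523) (nat_lit 588) (nat_lit 4555))) (.a (.f (nat_lit 555) (nat_lit 554) (nat_lit 1546) (.f (nat_lit 588) (nat_lit 556) (nat_lit 4555) (.f (nat_lit 587) (nat_lit 620) (nat_lit 4587) (.d (nat_lit 492) (nat_lit 460) (nat_lit 6603) (nat_lit 619) (nat_lit 6635))))) (.a (.f (nat_lit 556) (nat_lit 427) (nat_lit 4523) (.d (nat_lit 588) (nat_lit 492) (nat_lit 7627) (nat_lit 555) (nat_lit 4555))) (.a (.f (nat_lit 427) (nat_lit 556) (nat_lit 4523) (.f (nat_lit 395) (nat_lit 492) (nat_lit 4491) (.d (nat_lit 394) (nat_lit 362) (nat_lit 7530) (nat_lit 426) (nat_lit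 7562)))) (.f (nat_lit 555) (nat_lit 554) (nat_lit 1546) (.f (nat_lit 558) (nat_lit 559) (nat_lit 523) (.f (nat_lit 426) (nat_lit 458) (nat_lit 7594) (.f (nat_lit 427) (nat_lit 394) (nat_lit 7562) (.f (nat_lit 461) (nat_lit 460) (nat_lit 3498) (.d (nat_lit 493) (nat_lit 429) (nat_lit 4525) (nat_lit 557) (nat_lit 6573)))))))))))))
noncomputable def s70512 : Cert := .r (nat_lit 4245707729187356790735781091228014877609581511113992998351364028743301843152248936915696773107465537428723739212119043305785871284337642851662192501651962391915827036160) (.p (nat_lit 589) (.a (.f (nat_lit 558) (nat_lit 559) (nat_lit 3596) (.d (nat_lit 621) (nat_lit 492) (nat_lit 7660) (nat_lit 653) (nat_lit 6669))) (.a (.f (nat_lit 558) (nat_lit 559) (nat_lit 3596) (.f (nat_lit 621) (nat_lit 653) (nat_lit 6669) (.f (nat_lit 622) (nat_lit 654) (nat_lit 4621) (.f (nat_lit 590) (nat_lit 493) (nat_lit 4589) (.f (nat_lit 623) (nat_lit 655) (nat_lit 4622)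 (.d (nat_lit 624) (nat_lit 588) (nat_lit 3660) (nat_lit 625) (nat_lit 3661))))))) (.a (.f (nat_lit 621) (nat_lit 492) (nat_lit 7660) (.f (nat_lit 653) (nat_lit 556) (nat_lit 7692) (.d (nat_lit 652) (nat_lit 620) (nat_lit 5644) (nat_lit 684) (nat_lit 5676)))) (.f (nat_lit 493) (nat_lit 461) (nat_lit 6573) (.f (nat_lit 558) (nat_lit 559) (nat_lit 3596) (.f (nat_lit 590) (nat_lit 622) (nat_lit 7661) (.f (nat_lit 588) (nat_lit 620) (nat_lit 5612) (.f (nat_lit 492) (nat_lit 460) (nat_lit 7628) (.f (nat_lit 587) (nat_lit 586) (nat_lit 2602) (.d (nat_lit 619) (nat_lit 556) (nat_lit 5611) (nat_lit 618) (nat_lit 1610))))))))))))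
noncomputable def s70547 : Cert := .r (nat_lit 3773962426112123312346109207464408869441291931431015686004911462850176676689972503138521556668748430048686010553182747938880471637745531724590879795473171499624112848896) (.f (nat_lit 555) (nat_lit 554) (nat_lit 1546) (.p (nat_lit 587) (.a (.f (nat_lit 491) (nat_lit 490) (nat_lit 3562) (.d (nat_lit 492) (nat_lit 460) (nat_lit 6603) (nat_lit 619) (nat_lit 6635))) (.a (.f (nat_lit 491) (nat_lit 490) (nat_lit 3562) (.f (nat_lit 619) (nat_lit 492) (nat_lit 6635) (.d (nat_lit 618) (nat_lit 586) (nat_lit 5610) (nat_lit 650) (nat_lit 5642)))) (.a (.f (nat_lit 619) (nat_lit 492) (nat_lit 6635) (.f (nat_lit 620) (nat_lit 652) (nat_lit 4619) (.f (nat_lit 588) (nat_lit 491) (nat_lit 4587) (.d (nat_lit 556) (nat_lit 493) (nat_lit 6636) (nat_lit 651) (nat_lit 6667))))) (.a (.f (nat_lit 619) (nat_lit 492) (nat_lit 6635) (.f (nat_lit 651) (nat_lit 556) (nat_lit 6667) (.d (nat_lit 650) (nat_lit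 618) (nat_lit 5642) (nat_lit 682) (nat_lit 5674)))) (.a (.f (nat_lit 491) (nat_lit 490) (nat_lit 3562) (.f (nat_lit 620) (nat_lit 588) (nat_lit 4587) (.f (nat_lit 619) (nat_lit 652) (nat_lit 4619) (.d (nat_lit 618) (nat_lit 586) (nat_lit 5610) (nat_lit 650) (nat_lit 5642))))) (.f (nat_lit 491) (nat_lit 490) (nat_lit 3562) (.f (nat_lit 558) (nat_lit 559) (nat_lit 523) (.f (nat_lit 588) (nat_lit 620) (nat_lit 4587) (.f (nat_lit 586) (nat_lit 618) (nat_lit 5610) (.d (nat_lit 557) (nat_lit 556) (nat_lit 1578) (nat_lit 589) (nat_lit 2602)))))))))))))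
noncomputable def s70569 : Cert := .r (nat_lit 3773962426112123312346109207464408869441291931431015686004911462850176676689972503138521556668748430048686010553182747938880471637745531724590879795473171499624112848896) (.f (nat_lit 491) (nat_lit 490) (nat_lit 3562) (.p (nat_lit 459) (.a (.f (nat_lit 555) (nat_lit 554) (nat_lit 1546) (.d (nat_lit 556) (nat_lit 427) (nat_lit 4523) (nat_lit 588) (nat_lit 4555))) (.a (.f (nat_lit 555) (nat_lit 554) (nat_lit 1546) (.f (nat_lit 588) (nat_lit 556) (nat_lit 4555) (.f (nat_lit 558) (nat_lit 559) (nat_lit 523) (.f (nat_lit 587) (nat_lit 620) (nat_lit 4587) (.f (nat_lit 586) (nat_lit 618) (nat_lit 5610) (.f (nat_lit 589) (nat_lit 557) (nat_lit 2602) (.f (nat_lit 622) (nat_lit 621) (nat_lit 586) (.d (nat_lit 590) (nat_lit 493) (nat_lit 7661) (nat_lit 623) (nat_lit 587))))))))) (.a (.f (nat_lit 556) (nat_lit 427) (nat_lit 4523) (.d (nat_lit 588) (nat_lit 492) (nat_lit 7627) (nat_lit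 555) (nat_lit 4555))) (.a (.f (nat_lit 427) (nat_lit 556) (nat_lit 4523) (.f (nat_lit 395) (nat_lit 492) (nat_lit 4491) (.d (nat_lit 394) (nat_lit 362) (nat_lit 7530) (nat_lit 426) (nat_lit 7562)))) (.f (nat_lit 555) (nat_lit 554) (nat_lit 1546) (.f (nat_lit 558) (nat_lit 559) (nat_lit 523) (.f (nat_lit 426) (nat_lit 458) (nat_lit 7594) (.f (nat_lit 427) (nat_lit 394) (nat_lit 7562) (.f (nat_lit 428) (nat_lit 396) (nat_lit 6539) (.f (nat_lit 461) (nat_lit 429) (nat_lit 426) (.f (nat_lit 557) (nat_lit 493) (nat_lit 6573) (.f (nat_lit 492) (nat_lit 395) (nat_lit 4491) (.f (nat_lit 587) (nat_lit 619) (nat_lit 6635) (.f (nat_lit 589) (nat_lit 621) (nat_lit 7660) (.d (nat_lit 586) (nat_lit 588) (nat_lit 2602) (nat_lit 618) (nat_lit 5610))))))))))))))))))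
noncomputable def s70667 : Cert := .r (nat_lit 3773962426112123312346109207464408869441291931431015686004911462850176676689972503138521556668748430048686010553182747938880471637745531724590879795473171499624112848896) (.f (nat_lit 491) (nat_lit 490) (nat_lit 3562) (.p (nat_lit 459) (.a (.f (nat_lit 555) (nat_lit 554) (nat_lit 1546) (.d (nat_lit 556) (nat_lit 427) (nat_lit 4523) (nat_lit 588) (nat_lit 4555))) (.a (.f (nat_lit 555) (nat_lit 554) (nat_lit 1546) (.f (nat_lit 588) (nat_lit 556) (nat_lit 4555) (.f (nat_lit 558) (nat_lit 559) (nat_lit 523) (.f (nat_lit 587) (nat_lit 620) (nat_lit 4587) (.f (nat_lit 586) (nat_lit 618) (nat_lit 5610) (.f (nat_lit 589) (nat_lit 557) (nat_lit 2602) (.f (nat_lit 622) (nat_lit 621) (nat_lit 586) (.d (nat_lit 590) (nat_lit 493) (nat_lit 7661) (nat_lit 623) (nat_lit 587))))))))) (.a (.f (nat_lit 427) (nat_lit 556) (nat_lit 4523) (.f (nat_lit 428) (nat_lit 396) (nat_lit 6539) (.f (nat_lit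 429) (nat_lit 458) (nat_lit 1450) (.d (nat_lit 426) (nat_lit 394) (nat_lit 7562) (nat_lit 461) (nat_lit 426))))) (.f (nat_lit 555) (nat_lit 554) (nat_lit 1546) (.f (nat_lit 558) (nat_lit 559) (nat_lit 523) (.f (nat_lit 426) (nat_lit 458) (nat_lit 7594) (.f (nat_lit 427) (nat_lit 394) (nat_lit 7562) (.f (nat_lit 461) (nat_lit 460) (nat_lit 3498) (.d (nat_lit 493) (nat_lit 429) (nat_lit 4525) (nat_lit 557) (nat_lit 6573))))))))))))
noncomputable def s70670 : Cert := .r (nat_lit 3773962426112123312346109207464408869441291931431015686004911462850176676689972503138521556668748430048686010553182747938880471637745531724590879795473171499624112848896) (.f (nat_lit 555) (nat_lit 554) (nat_lit 1546) (.p (nat_lit 587) (.a (.f (nat_lit 491) (nat_lit 490) (nat_lit 3562) (.d (nat_lit 492) (nat_lit 460) (nat_lit 6603) (nat_lit 619) (nat_lit 6635))) (.a (.f (nat_lit 491) (nat_lit 490) (nat_lit 3562) (.f (nat_lit 619) (nat_lit 492) (nat_lit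 6635) (.d (nat_lit 618) (nat_lit 586) (nat_lit 5610) (nat_lit 650) (nat_lit 5642)))) (.a (.f (nat_lit 619) (nat_lit 492) (nat_lit 6635) (.f (nat_lit 651) (nat_lit 556) (nat_lit 6667) (.d (nat_lit 650) (nat_lit 618) (nat_lit 5642) (nat_lit 682) (nat_lit 5674)))) (.a (.f (nat_lit 491) (nat_lit 490) (nat_lit 3562) (.f (nat_lit 620) (nat_lit 588) (nat_lit 4587) (.f (nat_lit 619) (nat_lit 652) (nat_lit 4619) (.d (nat_lit 618) (nat_lit 586) (nat_lit 5610) (nat_lit 650) (nat_lit 5642))))) (.f (nat_lit 491) (nat_lit 490) (nat_lit 3562) (.f (nat_lit 558) (nat_lit 559) (nat_lit 523) (.f (nat_lit 588) (nat_lit 620) (nat_lit 4587) (.f (nat_lit 586) (nat_lit 618) (nat_lit 5610) (.d (nat_lit 557) (nat_lit 556) (nat_lit 1578) (nat_lit 589) (nat_lit 2602))))))))))))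
noncomputable def s70706 : Cert := .r (nat_lit 4245707729214815981376303530087942480805907083983070739551937250380879696988991109649287397315955775991369557432028228551351794716486130803661059076902258505080287264768) (.p (nat_lit 492) (.a (.f (nat_lit 460) (nat_lit 428) (nat_lit 4524) (.d (nat_lit 589) (nat_lit 556) (nat_lit 4556) (nat_lit 621) (nat_lit 7660))) (.a (.f (nat_lit 555) (nat_lit 554) (nat_lit 1546) (.f (nat_lit 587) (nat_lit 619) (nat_lit 6635) (.d (nat_lit 460) (nat_lit 491) (nat_lit 6603) (nat_lit 556) (nat_lit 5579)))) (.a (.f (nat_lit 555) (nat_lit 554) (nat_lit 1546) (.f (nat_lit 493) (nat_lit 461) (nat_lit 6573) (.f (nat_lit 589) (nat_lit 621) (nat_lit 7660) (.f (nat_lit 588) (nat_lit 620) (nat_lit 5612) (.f (nat_lit 590) (nat_lit 622) (nat_lit 4589) (.d (nat_lit 591) (nat_lit 556) (nat_lit 3627) (nat_lit 559) (nat_lit 2604))))))) (.f (nat_lit 555) (nat_lit 554) (nat_lit 1546) (.f (nat_lit 460) (nat_lit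 428) (nat_lit 4524) (.d (nat_lit 587) (nat_lit 491) (nat_lit 6603) (nat_lit 619) (nat_lit 6635))))))))
noncomputable def s70784 : Cert := .r (nat_lit 3773962426112123312346109207464408869441291931431015686004911462850176676689972503138521556668748430048686010553182747938880471637745531724590879795473171499624112848896) (.p (nat_lit 461) (.a (.f (nat_lit 493) (nat_lit 557) (nat_lit 6573) (.d (nat_lit 429) (nat_lit 556) (nat_lit 5548) (nat_lit 558) (nat_lit 4525))) (.a (.p (nat_lit 460) (.a (.f (nat_lit 557) (nat_lit 493) (nat_lit 6573) (.f (nat_lit 492) (nat_lit 428) (nat_lit 4524) (.d (nat_lit 589) (nat_lit 556) (nat_lit 4556) (nat_lit 621) (nat_lit 7660)))) (.a (.f (nat_lit 491) (nat_lit 490) (nat_lit 3562) (.f (nat_lit 459) (nat_lit 431) (nat_lit 2475) (.d (nat_lit 427) (nat_lit 426) (nat_lit 3498) (nat_lit 556) (nat_lit 4523)))) (.f (nat_lit 557) (nat_lit 493) (nat_lit 6573) (.f (nat_lit 492) (nat_lit 428) (nat_lit 4524)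 (.f (nat_lit 491) (nat_lit 490) (nat_lit 3562) (.f (nat_lit 459) (nat_lit 431) (nat_lit 2475) (.d (nat_lit 427) (nat_lit 395) (nat_lit 4491) (nat_lit 426) (nat_lit 3498))))))))) (.a (.p (nat_lit 431) (.a (.f (nat_lit 432) (nat_lit 433) (nat_lit 1453) (.d (nat_lit 460) (nat_lit 429) (nat_lit 1452) (nat_lit 459) (nat_lit 2475))) (.a (.f (nat_lit 491) (nat_lit 490) (nat_lit 3562) (.f (nat_lit 459) (nat_lit 460) (nat_lit 2475) (.f (nat_lit 427) (nat_lit 556) (nat_lit 4523) (.f (nat_lit 395) (nat_lit 492) (nat_lit 4491) (.d (nat_lit 396) (nat_lit 364) (nat_lit 6507) (nat_lit 428) (nat_lit 6539)))))) (.a (.f (nat_lit 432) (nat_lit 433) (nat_lit 1453) (.d (nat_lit 429) (nat_lit 460) (nat_lit 1452) (nat_lit 465) (nat_lit 429))) (.f (nat_lit 432) (nat_lit 433) (nat_lit 1453) (.f (nat_lit 429) (nat_lit 465) (nat_lit 429) (.f (nat_lit 400) (nat_lit 401) (nat_lit 2445) (.f (nat_lit 428) (nat_lit 399) (nat_lit 2444) (.d (nat_lit 396)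 (nat_lit 395) (nat_lit 3467) (nat_lit 397) (nat_lit 3468)))))))))) (.f (nat_lit 558) (nat_lit 559) (nat_lit 523) (.d (nat_lit 493) (nat_lit 429) (nat_lit 4525) (nat_lit 557) (nat_lit 6573)))))))
noncomputable def s70799 : Cert := .r (nat_lit 3773962426112123312346109207464408869441291931431015686004911462850176676689972503138521556668748430048686010553182747938880471637745531724590879795473171499624112848896) (.f (nat_lit 555) (nat_lit 554) (nat_lit 1546) (.p (nat_lit 587) (.a (.f (nat_lit 491) (nat_lit 490) (nat_lit 3562) (.d (nat_lit 492) (nat_lit 460) (nat_lit 6603) (nat_lit 619) (nat_lit 6635))) (.a (.f (nat_lit 491) (nat_lit 490) (nat_lit 3562) (.f (nat_lit 619) (nat_lit 492) (nat_lit 6635) (.d (nat_lit 618) (nat_lit 586) (nat_lit 5610) (nat_lit 650) (nat_lit 5642)))) (.a (.f (nat_lit 619) (nat_lit 492) (nat_lit 6635) (.f (nat_lit 618) (nat_lit 650) (nat_lit 5642) (.f (nat_lit 620) (nat_lit 652) (nat_lit 4619) (.d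 (nat_lit 491) (nat_lit 586) (nat_lit 5610) (nat_lit 588) (nat_lit 4587))))) (.a (.f (nat_lit 619) (nat_lit 492) (nat_lit 6635) (.f (nat_lit 650) (nat_lit 618) (nat_lit 5642) (.f (nat_lit 651) (nat_lit 682) (nat_lit 5674) (.d (nat_lit 652) (nat_lit 620) (nat_lit 4619) (nat_lit 684) (nat_lit 4651))))) (.a (.f (nat_lit 491) (nat_lit 490) (nat_lit 3562) (.f (nat_lit 620) (nat_lit 588) (nat_lit 4587) (.f (nat_lit 619) (nat_lit 652) (nat_lit 4619) (.d (nat_lit 618) (nat_lit 586) (nat_lit 5610) (nat_lit 650) (nat_lit 5642))))) (.f (nat_lit 491) (nat_lit 490) (nat_lit 3562) (.f (nat_lit 460) (nat_lit 492) (nat_lit 6603) (.f (nat_lit 459) (nat_lit 428) (nat_lit 6571) (.f (nat_lit 461) (nat_lit 431) (nat_lit 2475) (.d (nat_lit 458) (nat_lit 426) (nat_lit 7594) (nat_lit 429) (nat_lit 2474)))))))))))))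
noncomputable def s71075 : Cert := .r (nat_lit 3773962426084664121718373450669552701839420186638860784309793765777667059700524692086469438958307849990165444025365704350908774880007208588471034393420997931345022812160) (.p (nat_lit 428) (.a (.f (nat_lit 429) (nat_lit 397) (nat_lit 6540) (.f (nat_lit 461) (nat_lit 556) (nat_lit 6572) (.d (nat_lit 427) (nat_lit 395) (nat_lit 7563) (nat_lit 426) (nat_lit 426)))) (.a (.f (nat_lit 429) (nat_lit 397) (nat_lit 6540) (.f (nat_lit 461) (nat_lit 556) (nat_lit 6572) (.d (nat_lit 431) (nat_lit 432) (nat_lit 1452) (nat_lit 459) (nat_lit 1451)))) (.a (.f (nat_lit 427) (nat_lit 395) (nat_lit 7563) (.f (nat_lit 459) (nat_lit 556) (nat_lit 7595) (.d (nat_lit 461) (nat_lit 426) (nat_lit 3498) (nat_lit 431) (nat_lit 2475)))) (.a (.f (nat_lit 429) (nat_lit 397) (nat_lit 6540) (.f (nat_lit 427) (nat_lit 395) (nat_lit 7563) (.d (nat_lit 459) (nat_lit 431) (nat_lit 1451) (nat_lit 556) (nat_lit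 7595)))) (.f (nat_lit 429) (nat_lit 397) (nat_lit 6540) (.f (nat_lit 396) (nat_lit 493) (nat_lit 4492) (.d (nat_lit 395) (nat_lit 427) (nat_lit 7563) (nat_lit 431) (nat_lit 3467)))))))))
noncomputable def s71106 : Cert := .r (nat_lit 3773962426084664121718373450669552701839420186638860784309793765777667059700524692086469438958307849990165444025365704350908774880007208588471034393420997931345022812160) (.p (nat_lit 428) (.a (.f (nat_lit 429) (nat_lit 397) (nat_lit 6540) (.f (nat_lit 427) (nat_lit 395) (nat_lit 7563) (.d (nat_lit 459) (nat_lit 431) (nat_lit 1451) (nat_lit 556) (nat_lit 7595)))) (.a (.f (nat_lit 429) (nat_lit 397) (nat_lit 6540) (.f (nat_lit 459) (nat_lit 431) (nat_lit 1451) (.d (nat_lit 458) (nat_lit 427) (nat_lit 1450) (nat_lit 457) (nat_lit 2473)))) (.a (.f (nat_lit 396) (nat_lit 493) (nat_lit 4492) (.d (nat_lit 395) (nat_lit 363) (nat_lit 7531) (nat_lit 427) (nat_lit 7563))) (.f (nat_lit 429) (nat_lit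 397) (nat_lit 6540) (.f (nat_lit 431) (nat_lit 459) (nat_lit 1451) (.d (nat_lit 396) (nat_lit 395) (nat_lit 3467) (nat_lit 493) (nat_lit 4492))))))))
noncomputable def s71107 : Cert := .r (nat_lit 3773962426084664121718373450669552701839420186638860784309793765777667059700524692086469438958307849990165444025365704350908774880007208588471034393420997931345022812160) (.p (nat_lit 428) (.a (.f (nat_lit 429) (nat_lit 397) (nat_lit 6540) (.f (nat_lit 396) (nat_lit 493) (nat_lit 4492) (.d (nat_lit 395) (nat_lit 427) (nat_lit 7563) (nat_lit 431) (nat_lit 3467)))) (.a (.f (nat_lit 429) (nat_lit 397) (nat_lit 6540) (.f (nat_lit 459) (nat_lit 431) (nat_lit 1451) (.d (nat_lit 458) (nat_lit 427) (nat_lit 1450) (nat_lit 457) (nat_lit 2473)))) (.a (.f (nat_lit 396) (nat_lit 493) (nat_lit 4492) (.d (nat_lit 395) (nat_lit 363) (nat_lit 7531) (nat_lit 427) (nat_lit 7563))) (.f (nat_lit 429) (nat_lit 397) (nat_lit 6540) (.f (nat_lit 431)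 (nat_lit 459) (nat_lit 1451) (.d (nat_lit 396) (nat_lit 395) (nat_lit 3467) (nat_lit 493) (nat_lit 4492))))))))
noncomputable def s71142 : Cert := .r (nat_lit 3773962426084664121718373450669552701839420186638860784309793765777667059700524692086469438958307849990165444025365704350908774880007208588471034393420997931345022812160) (.p (nat_lit 459) (.a (.f (nat_lit 461) (nat_lit 431) (nat_lit 2475) (.d (nat_lit 427) (nat_lit 426) (nat_lit 3498) (nat_lit 556) (nat_lit 7595))) (.a (.f (nat_lit 461) (nat_lit 431) (nat_lit 2475) (.d (nat_lit 556) (nat_lit 427) (nat_lit 7595) (nat_lit 429) (nat_lit 6572))) (.a (.f (nat_lit 461) (nat_lit 431) (nat_lit 2475) (.d (nat_lit 429) (nat_lit 458) (nat_lit 2474) (nat_lit 556) (nat_lit 6572))) (.a (.f (nat_lit 427) (nat_lit 556) (nat_lit 7595) (.d (nat_lit 395) (nat_lit 363) (nat_lit 4459) (nat_lit 428) (nat_lit 7563))) (.f (nat_lit 461) (nat_lit 431) (nat_lit 2475) (.f (nat_lit 427) (nat_lit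 426) (nat_lit 3498) (.d (nat_lit 395) (nat_lit 363) (nat_lit 4459) (nat_lit 491) (nat_lit 4491)))))))))
noncomputable def s71601 : Cert := .r (nat_lit 3773962425700235452795812693846407756012591341446887786971947659685879854691164273570515963807450026659320123132318454445175548230873832300386445844706226134051339632640) (.p (nat_lit 523) (.a (.f (nat_lit 495) (nat_lit 527) (nat_lit 4494) (.f (nat_lit 460) (nat_lit 461) (nat_lit 459) (.f (nat_lit 492) (nat_lit 493) (nat_lit 3531) (.d (nat_lit 428) (nat_lit 396) (nat_lit 5515) (nat_lit 555) (nat_lit 6571))))) (.a (.f (nat_lit 495) (nat_lit 527) (nat_lit 4494) (.f (nat_lit 460) (nat_lit 461) (nat_lit 459) (.f (nat_lit 492) (nat_lit 493) (nat_lit 3531) (.d (nat_lit 555) (nat_lit 428) (nat_lit 6571) (nat_lit 587) (nat_lit 6603))))) (.a (.f (nat_lit 495) (nat_lit 527) (nat_lit 4494) (.f (nat_lit 460) (nat_lit 461) (nat_lit 459) (.f (nat_lit 492) (nat_lit 493) (nat_lit 3531) (.f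 (nat_lit 555) (nat_lit 587) (nat_lit 6603) (.f (nat_lit 556) (nat_lit 588) (nat_lit 4555) (.f (nat_lit 427) (nat_lit 524) (nat_lit 4523) (.d (nat_lit 554) (nat_lit 522) (nat_lit 5546) (nat_lit 586) (nat_lit 5578)))))))) (.a (.p (nat_lit 427) (.a (.f (nat_lit 522) (nat_lit 554) (nat_lit 5546) (.f (nat_lit 492) (nat_lit 493) (nat_lit 1514) (.d (nat_lit 395) (nat_lit 490) (nat_lit 5514) (nat_lit 524) (nat_lit 4491)))) (.a (.f (nat_lit 556) (nat_lit 524) (nat_lit 4523) (.f (nat_lit 555) (nat_lit 588) (nat_lit 4555) (.d (nat_lit 426) (nat_lit 394) (nat_lit 7562) (nat_lit 458) (nat_lit 7594)))) (.f (nat_lit 522) (nat_lit 554) (nat_lit 5546) (.f (nat_lit 395) (nat_lit 490) (nat_lit 5514) (.d (nat_lit 396) (nat_lit 364) (nat_lit 6507) (nat_lit 428) (nat_lit 6539))))))) (.a (.f (nat_lit 495) (nat_lit 527) (nat_lit 4494) (.f (nat_lit 460) (nat_lit 461) (nat_lit 459) (.f (nat_lit 555) (nat_lit 428) (nat_lit 6571) (.f (nat_lit 458)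 (nat_lit 426) (nat_lit 7594) (.f (nat_lit 490) (nat_lit 587) (nat_lit 7626) (.f (nat_lit 554) (nat_lit 586) (nat_lit 5578) (.f (nat_lit 522) (nat_lit 427) (nat_lit 5546) (.f (nat_lit 553) (nat_lit 585) (nat_lit 5577) (.d (nat_lit 552) (nat_lit 524) (nat_lit 2568) (nat_lit 551) (nat_lit 2567)))))))))) (.p (nat_lit 427) (.a (.f (nat_lit 522) (nat_lit 554) (nat_lit 5546) (.f (nat_lit 492) (nat_lit 493) (nat_lit 1514) (.d (nat_lit 395) (nat_lit 490) (nat_lit 5514) (nat_lit 524) (nat_lit 4491)))) (.a (.f (nat_lit 495) (nat_lit 527) (nat_lit 4494) (.f (nat_lit 460) (nat_lit 461) (nat_lit 459) (.f (nat_lit 492) (nat_lit 493) (nat_lit 3531) (.f (nat_lit 524) (nat_lit 556) (nat_lit 4523) (.f (nat_lit 428) (nat_lit 396) (nat_lit 6539) (.f (nat_lit 426) (nat_lit 394) (nat_lit 7562) (.f (nat_lit 425) (nat_lit 424) (nat_lit 424) (.f (nat_lit 457) (nat_lit 456) (nat_lit 1448) (.f (nat_lit 522) (nat_lit 554) (nat_lit 5546) (.f (nat_lit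 521) (nat_lit 520) (nat_lit 2536) (.f (nat_lit 489) (nat_lit 488) (nat_lit 3560) (.d (nat_lit 393) (nat_lit 392) (nat_lit 3464) (nat_lit 490) (nat_lit 4489))))))))))))) (.a (.f (nat_lit 396) (nat_lit 428) (nat_lit 6539) (.f (nat_lit 395) (nat_lit 364) (nat_lit 6507) (.d (nat_lit 524) (nat_lit 492) (nat_lit 4491) (nat_lit 556) (nat_lit 4523)))) (.f (nat_lit 522) (nat_lit 554) (nat_lit 5546) (.f (nat_lit 395) (nat_lit 490) (nat_lit 5514) (.d (nat_lit 396) (nat_lit 364) (nat_lit 6507) (nat_lit 428) (nat_lit 6539))))))))))))))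
noncomputable def s71629 : Cert := .r (nat_lit 3773962425727694643436335132706335359208916914315965528172520881323457708527906446304106588015940265221965941352227639690741471663022320252385312419956522247215799861248) (.f (nat_lit 527) (nat_lit 495) (nat_lit 4494) (.f (nat_lit 526) (nat_lit 559) (nat_lit 4526) (.f (nat_lit 493) (nat_lit 492) (nat_lit 491) (.f (nat_lit 461) (nat_lit 366) (nat_lit 5485) (.f (nat_lit 558) (nat_lit 590) (nat_lit 7629) (.f (nat_lit 557) (nat_lit 589) (nat_lit 5581) (.f (nat_lit 555) (nat_lit 556) (nat_lit 2571) (.f (nat_lit 554) (nat_lit 586) (nat_lit 5578) (.f (nat_lit 522) (nat_lit 427) (nat_lit 5546) (.f (nat_lit 458) (nat_lit 426) (nat_lit 7594) (.f (nat_lit 490) (nat_lit 587) (nat_lit 4554) (.f (nat_lit 553) (nat_lit 585) (nat_lit 5577) (.d (nat_lit 552) (nat_lit 524) (nat_lit 2568) (nat_lit 551) (nat_lit 2567))))))))))))))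
noncomputable def s71665 : Cert := .r (nat_lit 3773962425727694643436335132706335359208916914315965528172520881323457708527906446304106588015940265221965941352227639690741471663022320252385312419956522247215799861248) (.f (nat_lit 527) (nat_lit 495) (nat_lit 4494) (.f (nat_lit 526) (nat_lit 559) (nat_lit 4526) (.f (nat_lit 493) (nat_lit 492) (nat_lit 491) (.f (nat_lit 461) (nat_lit 366) (nat_lit 5485) (.f (nat_lit 558) (nat_lit 590) (nat_lit 7629) (.f (nat_lit 557) (nat_lit 589) (nat_lit 5581) (.f (nat_lit 555) (nat_lit 556) (nat_lit 2571) (.f (nat_lit 458) (nat_lit 426) (nat_lit 7594) (.f (nat_lit 587) (nat_lit 490) (nat_lit 7626) (.f (nat_lit 618) (nat_lit 586) (nat_lit 5610) (.f (nat_lit 619) (nat_lit 650) (nat_lit 5642) (.d (nat_lit 620) (nat_lit 588) (nat_lit 4587) (nat_lit 652) (nat_lit 4619)))))))))))))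
noncomputable def s71674 : Cert := .r (nat_lit 3773962425727694643436335132706335359208916914315965528172520881323457708527906446304106588015940265221965941352227639690741471663022320252385312419956522247215799861248) (.p (nat_lit 427) (.a (.f (nat_lit 522) (nat_lit 554) (nat_lit 5546) (.f (nat_lit 492) (nat_lit 493) (nat_lit 1514) (.d (nat_lit 395) (nat_lit 490) (nat_lit 5514) (nat_lit 524) (nat_lit 4491)))) (.a (.f (nat_lit 522) (nat_lit 554) (nat_lit 5546) (.f (nat_lit 492) (nat_lit 493) (nat_lit 1514) (.f (nat_lit 524) (nat_lit 556) (nat_lit 4523) (.f (nat_lit 521) (nat_lit 520) (nat_lit 2536) (.f (nat_lit 489) (nat_lit 488) (nat_lit 3560) (.f (nat_lit 553) (nat_lit 552) (nat_lit 1544) (.f (nat_lit 426) (nat_lit 394) (nat_lit 7562) (.d (nat_lit 458) (nat_lit 457) (nat_lit 6569) (nat_lit 490) (nat_lit 5545))))))))) (.a (.f (nat_lit 396) (nat_lit 428) (nat_lit 6539) (.f (nat_lit 395) (nat_lit 364) (nat_lit 6507) (.d (nat_lit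 524) (nat_lit 492) (nat_lit 4491) (nat_lit 556) (nat_lit 4523)))) (.f (nat_lit 522) (nat_lit 554) (nat_lit 5546) (.f (nat_lit 395) (nat_lit 490) (nat_lit 5514) (.d (nat_lit 396) (nat_lit 364) (nat_lit 6507) (nat_lit 428) (nat_lit 6539))))))))
noncomputable def s71689 : Cert := .r (nat_lit 3773962425727694643436335132706335359208916914315965528172520881323457708527906446304106588015940265221965941352227639690741471663022320252385312419956522247215799861248) (.p (nat_lit 427) (.a (.f (nat_lit 522) (nat_lit 554) (nat_lit 5546) (.f (nat_lit 492) (nat_lit 493) (nat_lit 1514) (.d (nat_lit 395) (nat_lit 490) (nat_lit 5514) (nat_lit 524) (nat_lit 4491)))) (.a (.f (nat_lit 522) (nat_lit 554) (nat_lit 5546) (.f (nat_lit 492) (nat_lit 493) (nat_lit 1514) (.f (nat_lit 426) (nat_lit 394) (nat_lit 7562) (.f (nat_lit 458) (nat_lit 555) (nat_lit 7594) (.f (nat_lit 456) (nat_lit 457) (nat_lit 456) (.f (nat_lit 521) (nat_lit 520) (nat_lit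 2536) (.f (nat_lit 490) (nat_lit 553) (nat_lit 5545) (.f (nat_lit 425) (nat_lit 393) (nat_lit 7561) (.d (nat_lit 424) (nat_lit 423) (nat_lit 423) (nat_lit 455) (nat_lit 1447)))))))))) (.a (.f (nat_lit 527) (nat_lit 495) (nat_lit 4494) (.f (nat_lit 526) (nat_lit 559) (nat_lit 4526) (.f (nat_lit 492) (nat_lit 493) (nat_lit 491) (.f (nat_lit 395) (nat_lit 524) (nat_lit 4491) (.d (nat_lit 396) (nat_lit 364) (nat_lit 6507) (nat_lit 428) (nat_lit 6539)))))) (.f (nat_lit 522) (nat_lit 554) (nat_lit 5546) (.f (nat_lit 395) (nat_lit 490) (nat_lit 5514) (.d (nat_lit 396) (nat_lit 364) (nat_lit 6507) (nat_lit 428) (nat_lit 6539))))))))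
noncomputable def s71690 : Cert := .r (nat_lit 3773962425700235452795812693846407756012591341446887786971947659685879854691164273570515963807450026659320123132318454445175548230873832300386445844706226134051339632640) (.p (nat_lit 523) (.a (.p (nat_lit 427) (.a (.f (nat_lit 522) (nat_lit 554) (nat_lit 5546) (.f (nat_lit 492) (nat_lit 493) (nat_lit 1514) (.d (nat_lit 395) (nat_lit 490) (nat_lit 5514) (nat_lit 524) (nat_lit 4491)))) (.a (.f (nat_lit 556) (nat_lit 524) (nat_lit 4523) (.f (nat_lit 555) (nat_lit 588) (nat_lit 4555) (.d (nat_lit 426) (nat_lit 394) (nat_lit 7562) (nat_lit 458) (nat_lit 7594)))) (.f (nat_lit 522) (nat_lit 554) (nat_lit 5546) (.f (nat_lit 395) (nat_lit 490) (nat_lit 5514) (.d (nat_lit 396) (nat_lit 364) (nat_lit 6507) (nat_lit 428) (nat_lit 6539))))))) (.a (.f (nat_lit 527) (nat_lit 495) (nat_lit 4494) (.f (nat_lit 526) (nat_lit 559) (nat_lit 4526) (.f (nat_lit 493) (nat_lit 492) (nat_lit 491) (.f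 (nat_lit 461) (nat_lit 366) (nat_lit 5485) (.f (nat_lit 558) (nat_lit 590) (nat_lit 7629) (.f (nat_lit 557) (nat_lit 589) (nat_lit 5581) (.f (nat_lit 555) (nat_lit 556) (nat_lit 2571) (.f (nat_lit 554) (nat_lit 586) (nat_lit 5578) (.f (nat_lit 427) (nat_lit 522) (nat_lit 5546) (.d (nat_lit 426) (nat_lit 394) (nat_lit 7562) (nat_lit 458) (nat_lit 7594))))))))))) (.a s71629 (.a (.f (nat_lit 527) (nat_lit 495) (nat_lit 4494) (.f (nat_lit 526) (nat_lit 559) (nat_lit 4526) (.f (nat_lit 493) (nat_lit 492) (nat_lit 491) (.f (nat_lit 461) (nat_lit 366) (nat_lit 5485) (.f (nat_lit 558) (nat_lit 590) (nat_lit 7629) (.f (nat_lit 557) (nat_lit 589) (nat_lit 5581) (.f (nat_lit 555) (nat_lit 556) (nat_lit 2571) (.f (nat_lit 554) (nat_lit 586) (nat_lit 5578) (.f (nat_lit 427) (nat_lit 522) (nat_lit 5546) (.f (nat_lit 396) (nat_lit 428) (nat_lit 6539) (.f (nat_lit 395) (nat_lit 364) (nat_lit 6507) (.f (nat_lit 362) (nat_lit 394) (nat_lit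 7530) (.d (nat_lit 397) (nat_lit 363) (nat_lit 3434) (nat_lit 431) (nat_lit 395)))))))))))))) (.a (.f (nat_lit 527) (nat_lit 495) (nat_lit 4494) (.f (nat_lit 526) (nat_lit 559) (nat_lit 4526) (.f (nat_lit 493) (nat_lit 492) (nat_lit 491) (.f (nat_lit 461) (nat_lit 366) (nat_lit 5485) (.f (nat_lit 558) (nat_lit 590) (nat_lit 7629) (.f (nat_lit 557) (nat_lit 589) (nat_lit 5581) (.f (nat_lit 555) (nat_lit 556) (nat_lit 2571) (.f (nat_lit 458) (nat_lit 426) (nat_lit 7594) (.f (nat_lit 587) (nat_lit 490) (nat_lit 7626) (.d (nat_lit 586) (nat_lit 554) (nat_lit 5578) (nat_lit 618) (nat_lit 5610))))))))))) (.a (.p (nat_lit 427) (.a (.f (nat_lit 556) (nat_lit 524) (nat_lit 4523) (.f (nat_lit 555) (nat_lit 588) (nat_lit 4555) (.d (nat_lit 426) (nat_lit 394) (nat_lit 7562) (nat_lit 458) (nat_lit 7594)))) (.f (nat_lit 522) (nat_lit 554) (nat_lit 5546) (.f (nat_lit 395) (nat_lit 490) (nat_lit 5514) (.d (nat_lit 396) (nat_lit 364) (nat_lit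 6507) (nat_lit 428) (nat_lit 6539)))))) (.a s71665 (.a s71674 s71689)))))))))
noncomputable def s71716 : Cert := .r (nat_lit 3773962425727694643436335132706335359208916914315965528172520881323457708527906446304106588015940265221965941352227639690741471663022320252385312419956522247215799861248) (.p (nat_lit 555) (.a (.f (nat_lit 458) (nat_lit 426) (nat_lit 7594) (.f (nat_lit 492) (nat_lit 493) (nat_lit 3530) (.d (nat_lit 460) (nat_lit 428) (nat_lit 6571) (nat_lit 587) (nat_lit 6603)))) (.a (.f (nat_lit 460) (nat_lit 428) (nat_lit 6571) (.f (nat_lit 492) (nat_lit 587) (nat_lit 6603) (.d (nat_lit 495) (nat_lit 493) (nat_lit 3531) (nat_lit 527) (nat_lit 4494)))) (.a (.f (nat_lit 458) (nat_lit 426) (nat_lit 7594) (.f (nat_lit 492) (nat_lit 493) (nat_lit 3530) (.d (nat_lit 587) (nat_lit 460) (nat_lit 6603) (nat_lit 490) (nat_lit 7626)))) (.a (.f (nat_lit 458) (nat_lit 426) (nat_lit 7594) (.f (nat_lit 587) (nat_lit 490) (nat_lit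 7626) (.d (nat_lit 588) (nat_lit 556) (nat_lit 4555) (nat_lit 620) (nat_lit 4587)))) (.f (nat_lit 527) (nat_lit 495) (nat_lit 4494) (.f (nat_lit 526) (nat_lit 559) (nat_lit 4526) (.f (nat_lit 492) (nat_lit 493) (nat_lit 491) (.f (nat_lit 556) (nat_lit 588) (nat_lit 4555) (.f (nat_lit 557) (nat_lit 558) (nat_lit 2571) (.f (nat_lit 554) (nat_lit 586) (nat_lit 5578) (.f (nat_lit 460) (nat_lit 428) (nat_lit 6571) (.d (nat_lit 589) (nat_lit 524) (nat_lit 4556) (nat_lit 590) (nat_lit 554))))))))))))))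
noncomputable def s71721 : Cert := .r (nat_lit 3773962425727694643436335132706335359208916914315965528172520881323457708527906446304106588015940265221965941352227639690741471663022320252385312419956522247215799861248) (.p (nat_lit 555) (.a (.f (nat_lit 458) (nat_lit 426) (nat_lit 7594) (.f (nat_lit 492) (nat_lit 493) (nat_lit 3530) (.d (nat_lit 460) (nat_lit 428) (nat_lit 6571) (nat_lit 587) (nat_lit 6603)))) (.a (.f (nat_lit 460) (nat_lit 428) (nat_lit 6571) (.f (nat_lit 492) (nat_lit 587) (nat_lit 6603) (.d (nat_lit 495) (nat_lit 493) (nat_lit 3531) (nat_lit 527) (nat_lit 4494)))) (.a (.f (nat_lit 458) (nat_lit 426) (nat_lit 7594) (.f (nat_lit 492) (nat_lit 493) (nat_lit 3530) (.d (nat_lit 587) (nat_lit 460) (nat_lit 6603) (nat_lit 490) (nat_lit 7626)))) (.a (.f (nat_lit 458) (nat_lit 426) (nat_lit 7594) (.f (nat_lit 587) (nat_lit 490) (nat_lit 7626) (.d (nat_lit 588) (nat_lit 556) (nat_lit 4555) (nat_lit 620) (nat_lit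 4587)))) (.f (nat_lit 428) (nat_lit 460) (nat_lit 6571) (.f (nat_lit 427) (nat_lit 396) (nat_lit 6539) (.d (nat_lit 554) (nat_lit 522) (nat_lit 5546) (nat_lit 586) (nat_lit 5578)))))))))
noncomputable def s71739 : Cert := .r (nat_lit 3773962425700235452795812693846407756012937925158652888829394961458897740154093828204937940879346336606896950795794157648055545031636849747648619746076401580529961402368) (.p (nat_lit 461) (.a (.d (nat_lit 495) (nat_lit 460) (nat_lit 459) (nat_lit 527) (nat_lit 4494)) (.a (.f (nat_lit 527) (nat_lit 495) (nat_lit 4494) (.f (nat_lit 526) (nat_lit 559) (nat_lit 4526) (.f (nat_lit 493) (nat_lit 366) (nat_lit 5485) (.f (nat_lit 558) (nat_lit 590) (nat_lit 7629) (.f (nat_lit 557) (nat_lit 589) (nat_lit 5581) (.f (nat_lit 556) (nat_lit 555) (nat_lit 2571) (.f (nat_lit 523) (nat_lit 524) (nat_lit 4523) (.f (nat_lit 522) (nat_lit 554) (nat_lit 5546) (.f (nat_lit 395) (nat_lit 490) (nat_lit 5514) (.d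 (nat_lit 396) (nat_lit 364) (nat_lit 6507) (nat_lit 428) (nat_lit 6539))))))))))) (.d (nat_lit 460) (nat_lit 426) (nat_lit 3498) (nat_lit 490) (nat_lit 1482)))))
noncomputable def s71750 : Cert := .r (nat_lit 3773962425700235452795812693846407756012937925158652888829394961458897740154093828204937940879346336606896950795794157648055545031636849747648619746076401580529961402368) (.p (nat_lit 461) (.a (.d (nat_lit 495) (nat_lit 460) (nat_lit 459) (nat_lit 527) (nat_lit 4494)) (.a (.f (nat_lit 527) (nat_lit 495) (nat_lit 4494) (.f (nat_lit 526) (nat_lit 559) (nat_lit 4526) (.f (nat_lit 493) (nat_lit 366) (nat_lit 5485) (.f (nat_lit 558) (nat_lit 590) (nat_lit 7629) (.f (nat_lit 557) (nat_lit 589) (nat_lit 5581) (.f (nat_lit 556) (nat_lit 555) (nat_lit 2571) (.f (nat_lit 523) (nat_lit 524) (nat_lit 4523) (.f (nat_lit 522) (nat_lit 554) (nat_lit 5546) (.f (nat_lit 395) (nat_lit 490) (nat_lit 5514) (.d (nat_lit 394) (nat_lit 362)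 (nat_lit 7530) (nat_lit 426) (nat_lit 7562))))))))))) (.d (nat_lit 460) (nat_lit 426) (nat_lit 3498) (nat_lit 490) (nat_lit 1482)))))
noncomputable def s71766 : Cert := .r (nat_lit 3773962425700235452795812693846407756012937925158652888829394961458897740154093828204937940879346336606896950795794157648055545031636849747648619746076401580529961402368) (.p (nat_lit 523) (.a (.f (nat_lit 556) (nat_lit 524) (nat_lit 4523) (.f (nat_lit 555) (nat_lit 588) (nat_lit 4555) (.d (nat_lit 426) (nat_lit 394) (nat_lit 7562) (nat_lit 458) (nat_lit 7594)))) (.a (.f (nat_lit 554) (nat_lit 522) (nat_lit 5546) (.f (nat_lit 555) (nat_lit 586) (nat_lit 5578) (.d (nat_lit 556) (nat_lit 524) (nat_lit 4523) (nat_lit 588) (nat_lit 4555)))) (.a (.f (nat_lit 426) (nat_lit 394) (nat_lit 7562) (.f (nat_lit 460) (nat_lit 461) (nat_lit 3498) (.d (nat_lit 428) (nat_lit 396) (nat_lit 6539) (nat_lit 555) (nat_lit 6571)))) (.f (nat_lit 426) (nat_lit 394)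 (nat_lit 7562) (.f (nat_lit 460) (nat_lit 461) (nat_lit 3498) (.f (nat_lit 428) (nat_lit 396) (nat_lit 6539) (.f (nat_lit 425) (nat_lit 424) (nat_lit 424) (.f (nat_lit 457) (nat_lit 456) (nat_lit 1448) (.f (nat_lit 393) (nat_lit 392) (nat_lit 3464) (.f (nat_lit 522) (nat_lit 554) (nat_lit 5546) (.d (nat_lit 490) (nat_lit 458) (nat_lit 7561) (nat_lit 489) (nat_lit 4489)))))))))))))
noncomputable def s71782 : Cert := .r (nat_lit 3773962425700235452795812693846407756012937925158652888829394961458897740154093828204937940879346336606896950795794157648055545031636849747648619746076401580529961402368) (.p (nat_lit 395) (.a (.f (nat_lit 396) (nat_lit 364) (nat_lit 6507) (.f (nat_lit 362) (nat_lit 394) (nat_lit 7530) (.d (nat_lit 397) (nat_lit 363) (nat_lit 3434) (nat_lit 431) (nat_lit 395)))) (.a (.f (nat_lit 396) (nat_lit 364) (nat_lit 6507) (.f (nat_lit 490) (nat_lit 522) (nat_lit 5514) (.f (nat_lit 523) (nat_lit 428) (nat_lit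 6539) (.f (nat_lit 458) (nat_lit 363) (nat_lit 5482) (.f (nat_lit 555) (nat_lit 587) (nat_lit 7626) (.d (nat_lit 556) (nat_lit 524) (nat_lit 4523) (nat_lit 588) (nat_lit 4555))))))) (.a (.f (nat_lit 396) (nat_lit 364) (nat_lit 6507) (.f (nat_lit 523) (nat_lit 428) (nat_lit 6539) (.d (nat_lit 522) (nat_lit 490) (nat_lit 5514) (nat_lit 554) (nat_lit 5546)))) (.f (nat_lit 490) (nat_lit 522) (nat_lit 5514) (.f (nat_lit 363) (nat_lit 458) (nat_lit 5482) (.d (nat_lit 362) (nat_lit 330) (nat_lit 7498) (nat_lit 394) (nat_lit 7530))))))))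
noncomputable def s71809 : Cert := .r (nat_lit 3773962425700235452795812693846407756012937925158652888829394961458897740154093828204937940879346336606896950795794157648055545031636849747648619746076401580529961402368) (.p (nat_lit 523) (.a (.f (nat_lit 556) (nat_lit 524) (nat_lit 4523) (.f (nat_lit 555) (nat_lit 588) (nat_lit 4555) (.d (nat_lit 426) (nat_lit 394) (nat_lit 7562) (nat_lit 458) (nat_lit 7594)))) (.a (.f (nat_lit 554) (nat_lit 522) (nat_lit 5546) (.f (nat_lit 555) (nat_lit 586) (nat_lit 5578) (.d (nat_lit 556) (nat_lit 524) (nat_lit 4523) (nat_lit 588) (nat_lit 4555)))) (.a (.f (nat_lit 426) (nat_lit 394) (nat_lit 7562) (.f (nat_lit 460) (nat_lit 461) (nat_lit 3498) (.d (nat_lit 555) (nat_lit 428) (nat_lit 6571) (nat_lit 458) (nat_lit 7594)))) (.f (nat_lit 524) (nat_lit 556) (nat_lit 4523) (.f (nat_lit 395) (nat_lit 492) (nat_lit 4491) (.d (nat_lit 522) (nat_lit 490) (nat_lit 5514) (nat_lit 554) (nat_lit 5546))))))))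
noncomputable def s71822 : Cert := .r (nat_lit 3773962425700235452789419352815360603922721830320271382377774530689701993774204720117203202486347146669313736233244422888240222675937191536696568390515043725744057352192) (.p (nat_lit 491) (.a (.f (nat_lit 527) (nat_lit 495) (nat_lit 4494) (.f (nat_lit 526) (nat_lit 559) (nat_lit 4526) (.f (nat_lit 493) (nat_lit 492) (nat_lit 491) (.f (nat_lit 461) (nat_lit 366) (nat_lit 5485) (.d (nat_lit 460) (nat_lit 431) (nat_lit 2475) (nat_lit 458) (nat_lit 458)))))) (.a s71601 (.a (.f (nat_lit 527) (nat_lit 495) (nat_lit 4494) (.f (nat_lit 526) (nat_lit 559) (nat_lit 4526) (.f (nat_lit 493) (nat_lit 492) (nat_lit 491) (.f (nat_lit 461) (nat_lit 366) (nat_lit 5485) (.d (nat_lit 460) (nat_lit 431) (nat_lit 2475) (nat_lit 490) (nat_lit 1482)))))) (.a s71690 (.a (.p (nat_lit 523) (.a (.p (nat_lit 427) (.a (.f (nat_lit 522) (nat_lit 554) (nat_lit 5546) (.f (nat_lit 492) (nat_lit 493) (nat_lit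 1514) (.d (nat_lit 395) (nat_lit 490) (nat_lit 5514) (nat_lit 524) (nat_lit 4491)))) (.a (.f (nat_lit 556) (nat_lit 524) (nat_lit 4523) (.f (nat_lit 555) (nat_lit 588) (nat_lit 4555) (.d (nat_lit 426) (nat_lit 394) (nat_lit 7562) (nat_lit 458) (nat_lit 7594)))) (.f (nat_lit 522) (nat_lit 554) (nat_lit 5546) (.f (nat_lit 395) (nat_lit 490) (nat_lit 5514) (.d (nat_lit 396) (nat_lit 364) (nat_lit 6507) (nat_lit 428) (nat_lit 6539))))))) (.a (.p (nat_lit 555) (.a (.f (nat_lit 458) (nat_lit 426) (nat_lit 7594) (.f (nat_lit 492) (nat_lit 493) (nat_lit 3530) (.d (nat_lit 460) (nat_lit 428) (nat_lit 6571) (nat_lit 587) (nat_lit 6603)))) (.f (nat_lit 556) (nat_lit 588) (nat_lit 4555) (.f (nat_lit 554) (nat_lit 586) (nat_lit 5578) (.d (nat_lit 427) (nat_lit 522) (nat_lit 5546) (nat_lit 524) (nat_lit 4523)))))) (.a (.p (nat_lit 555) (.a (.f (nat_lit 556) (nat_lit 588) (nat_lit 4555) (.f (nat_lit 554) (nat_lit 586) (nat_lit 5578) (.d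 (nat_lit 427) (nat_lit 522) (nat_lit 5546) (nat_lit 524) (nat_lit 4523)))) (.f (nat_lit 460) (nat_lit 428) (nat_lit 6571) (.f (nat_lit 492) (nat_lit 587) (nat_lit 6603) (.d (nat_lit 495) (nat_lit 493) (nat_lit 3531) (nat_lit 527) (nat_lit 4494)))))) (.a s71716 (.a (.p (nat_lit 555) (.a (.f (nat_lit 556) (nat_lit 588) (nat_lit 4555) (.f (nat_lit 554) (nat_lit 586) (nat_lit 5578) (.d (nat_lit 427) (nat_lit 522) (nat_lit 5546) (nat_lit 524) (nat_lit 4523)))) (.f (nat_lit 458) (nat_lit 426) (nat_lit 7594) (.f (nat_lit 492) (nat_lit 493) (nat_lit 3530) (.d (nat_lit 587) (nat_lit 460) (nat_lit 6603) (nat_lit 490) (nat_lit 7626)))))) (.a (.p (nat_lit 427) (.a (.f (nat_lit 556) (nat_lit 524) (nat_lit 4523) (.f (nat_lit 555) (nat_lit 588) (nat_lit 4555) (.d (nat_lit 426) (nat_lit 394) (nat_lit 7562) (nat_lit 458) (nat_lit 7594)))) (.f (nat_lit 522) (nat_lit 554) (nat_lit 5546) (.f (nat_lit 395) (nat_lit 490) (nat_lit 5514) (.d (nat_lit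 396) (nat_lit 364) (nat_lit 6507) (nat_lit 428) (nat_lit 6539)))))) (.a s71721 (.a (.p (nat_lit 427) (.a (.f (nat_lit 556) (nat_lit 524) (nat_lit 4523) (.f (nat_lit 555) (nat_lit 588) (nat_lit 4555) (.d (nat_lit 426) (nat_lit 394) (nat_lit 7562) (nat_lit 458) (nat_lit 7594)))) (.a (.f (nat_lit 396) (nat_lit 428) (nat_lit 6539) (.f (nat_lit 395) (nat_lit 364) (nat_lit 6507) (.d (nat_lit 524) (nat_lit 492) (nat_lit 4491) (nat_lit 556) (nat_lit 4523)))) (.f (nat_lit 396) (nat_lit 428) (nat_lit 6539) (.f (nat_lit 395) (nat_lit 364) (nat_lit 6507) (.d (nat_lit 397) (nat_lit 426) (nat_lit 1418) (nat_lit 431) (nat_lit 395))))))) (.a s71674 s71689)))))))))) (.a (.p (nat_lit 427) (.a s71739 (.a s71750 (.a (.p (nat_lit 523) (.a (.f (nat_lit 556) (nat_lit 524) (nat_lit 4523) (.f (nat_lit 555) (nat_lit 588) (nat_lit 4555) (.d (nat_lit 426) (nat_lit 394) (nat_lit 7562) (nat_lit 458) (nat_lit 7594)))) (.f (nat_lit 522) (nat_lit 554)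 (nat_lit 5546) (.f (nat_lit 395) (nat_lit 490) (nat_lit 5514) (.d (nat_lit 396) (nat_lit 364) (nat_lit 6507) (nat_lit 428) (nat_lit 6539)))))) (.a s71766 (.a s71782 (.a (.p (nat_lit 523) (.a (.f (nat_lit 556) (nat_lit 524) (nat_lit 4523) (.f (nat_lit 555) (nat_lit 588) (nat_lit 4555) (.d (nat_lit 426) (nat_lit 394) (nat_lit 7562) (nat_lit 458) (nat_lit 7594)))) (.a (.f (nat_lit 396) (nat_lit 428) (nat_lit 6539) (.f (nat_lit 395) (nat_lit 364) (nat_lit 6507) (.d (nat_lit 397) (nat_lit 426) (nat_lit 1418) (nat_lit 431) (nat_lit 395)))) (.f (nat_lit 554) (nat_lit 522) (nat_lit 5546) (.f (nat_lit 555) (nat_lit 586) (nat_lit 5578) (.d (nat_lit 556) (nat_lit 524) (nat_lit 4523) (nat_lit 588) (nat_lit 4555))))))) (.a (.p (nat_lit 461) (.a (.d (nat_lit 495) (nat_lit 460) (nat_lit 459) (nat_lit 527) (nat_lit 4494)) (.a (.f (nat_lit 527) (nat_lit 495) (nat_lit 4494) (.f (nat_lit 526) (nat_lit 559) (nat_lit 4526) (.f (nat_lit 493)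 (nat_lit 366) (nat_lit 5485) (.f (nat_lit 558) (nat_lit 590) (nat_lit 7629) (.f (nat_lit 557) (nat_lit 589) (nat_lit 5581) (.f (nat_lit 556) (nat_lit 555) (nat_lit 2571) (.f (nat_lit 523) (nat_lit 524) (nat_lit 4523) (.f (nat_lit 396) (nat_lit 428) (nat_lit 6539) (.f (nat_lit 395) (nat_lit 364) (nat_lit 6507) (.d (nat_lit 426) (nat_lit 394) (nat_lit 7562) (nat_lit 397) (nat_lit 1418))))))))))) (.d (nat_lit 460) (nat_lit 426) (nat_lit 3498) (nat_lit 490) (nat_lit 1482))))) (.p (nat_lit 395) (.a (.f (nat_lit 396) (nat_lit 364) (nat_lit 6507) (.f (nat_lit 362) (nat_lit 394) (nat_lit 7530) (.d (nat_lit 397) (nat_lit 363) (nat_lit 3434) (nat_lit 431) (nat_lit 395)))) (.a (.f (nat_lit 396) (nat_lit 364) (nat_lit 6507) (.d (nat_lit 397) (nat_lit 426) (nat_lit 1418) (nat_lit 431) (nat_lit 395))) (.f (nat_lit 490) (nat_lit 522) (nat_lit 5514) (.f (nat_lit 363) (nat_lit 458) (nat_lit 5482) (.d (nat_lit 362) (nat_lit 330) (nat_lit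 7498) (nat_lit 394) (nat_lit 7530))))))))))))))) (.a (.p (nat_lit 427) (.a (.p (nat_lit 523) (.a (.f (nat_lit 556) (nat_lit 524) (nat_lit 4523) (.f (nat_lit 555) (nat_lit 588) (nat_lit 4555) (.d (nat_lit 426) (nat_lit 394) (nat_lit 7562) (nat_lit 458) (nat_lit 7594)))) (.f (nat_lit 522) (nat_lit 554) (nat_lit 5546) (.f (nat_lit 395) (nat_lit 490) (nat_lit 5514) (.d (nat_lit 396) (nat_lit 364) (nat_lit 6507) (nat_lit 428) (nat_lit 6539)))))) (.a s71766 (.a (.p (nat_lit 395) (.a (.f (nat_lit 396) (nat_lit 364) (nat_lit 6507) (.f (nat_lit 490) (nat_lit 522) (nat_lit 5514) (.f (nat_lit 523) (nat_lit 428) (nat_lit 6539) (.f (nat_lit 458) (nat_lit 363) (nat_lit 5482) (.f (nat_lit 555) (nat_lit 587) (nat_lit 7626) (.d (nat_lit 556) (nat_lit 524) (nat_lit 4523) (nat_lit 588) (nat_lit 4555))))))) (.a (.f (nat_lit 396) (nat_lit 364) (nat_lit 6507) (.f (nat_lit 523) (nat_lit 428) (nat_lit 6539) (.d (nat_lit 522) (nat_lit 490) (nat_lit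 5514) (nat_lit 554) (nat_lit 5546)))) (.a (.f (nat_lit 490) (nat_lit 522) (nat_lit 5514) (.f (nat_lit 460) (nat_lit 461) (nat_lit 1482) (.d (nat_lit 363) (nat_lit 458) (nat_lit 5482) (nat_lit 492) (nat_lit 4459)))) (.f (nat_lit 396) (nat_lit 364) (nat_lit 6507) (.d (nat_lit 397) (nat_lit 426) (nat_lit 1418) (nat_lit 431) (nat_lit 395))))))) (.a s71809 (.a s71782 (.a (.p (nat_lit 395) (.a (.f (nat_lit 396) (nat_lit 364) (nat_lit 6507) (.f (nat_lit 362) (nat_lit 394) (nat_lit 7530) (.d (nat_lit 397) (nat_lit 363) (nat_lit 3434) (nat_lit 431) (nat_lit 395)))) (.a (.f (nat_lit 396) (nat_lit 364) (nat_lit 6507) (.d (nat_lit 397) (nat_lit 426) (nat_lit 1418) (nat_lit 431) (nat_lit 395))) (.f (nat_lit 490) (nat_lit 522) (nat_lit 5514) (.f (nat_lit 363) (nat_lit 458) (nat_lit 5482) (.d (nat_lit 362) (nat_lit 330) (nat_lit 7498) (nat_lit 394) (nat_lit 7530))))))) (.a (.p (nat_lit 395) (.a (.f (nat_lit 396) (nat_lit 364) (nat_lit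 6507) (.f (nat_lit 362) (nat_lit 394) (nat_lit 7530) (.d (nat_lit 397) (nat_lit 363) (nat_lit 3434) (nat_lit 431) (nat_lit 395)))) (.a (.f (nat_lit 396) (nat_lit 364) (nat_lit 6507) (.f (nat_lit 523) (nat_lit 428) (nat_lit 6539) (.d (nat_lit 522) (nat_lit 490) (nat_lit 5514) (nat_lit 554) (nat_lit 5546)))) (.f (nat_lit 492) (nat_lit 524) (nat_lit 4491) (.f (nat_lit 460) (nat_lit 363) (nat_lit 4459) (.d (nat_lit 461) (nat_lit 426) (nat_lit 3498) (nat_lit 495) (nat_lit 459))))))) (.a (.p (nat_lit 523) (.a (.f (nat_lit 556) (nat_lit 524) (nat_lit 4523) (.f (nat_lit 555) (nat_lit 588) (nat_lit 4555) (.d (nat_lit 426) (nat_lit 394) (nat_lit 7562) (nat_lit 458) (nat_lit 7594)))) (.a (.f (nat_lit 396) (nat_lit 428) (nat_lit 6539) (.f (nat_lit 395) (nat_lit 364) (nat_lit 6507) (.d (nat_lit 397) (nat_lit 426) (nat_lit 1418) (nat_lit 431) (nat_lit 395)))) (.f (nat_lit 554) (nat_lit 522) (nat_lit 5546) (.f (nat_lit 555) (nat_lit 586)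 (nat_lit 5578) (.d (nat_lit 556) (nat_lit 524) (nat_lit 4523) (nat_lit 588) (nat_lit 4555))))))) (.p (nat_lit 395) (.a (.f (nat_lit 396) (nat_lit 364) (nat_lit 6507) (.f (nat_lit 362) (nat_lit 394) (nat_lit 7530) (.d (nat_lit 397) (nat_lit 363) (nat_lit 3434) (nat_lit 431) (nat_lit 395)))) (.a (.f (nat_lit 396) (nat_lit 364) (nat_lit 6507) (.d (nat_lit 397) (nat_lit 426) (nat_lit 1418) (nat_lit 431) (nat_lit 395))) (.f (nat_lit 492) (nat_lit 524) (nat_lit 4491) (.f (nat_lit 460) (nat_lit 363) (nat_lit 4459) (.d (nat_lit 461) (nat_lit 426) (nat_lit 3498) (nat_lit 495) (nat_lit 459)))))))))))))))) (.p (nat_lit 461) (.a (.d (nat_lit 460) (nat_lit 431) (nat_lit 2475) (nat_lit 490) (nat_lit 1482)) (.a (.f (nat_lit 493) (nat_lit 366) (nat_lit 5485) (.d (nat_lit 458) (nat_lit 460) (nat_lit 458) (nat_lit 492) (nat_lit 3530))) (.f (nat_lit 493) (nat_lit 366) (nat_lit 5485) (.d (nat_lit 492) (nat_lit 458) (nat_lit 3530) (nat_lit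 490) (nat_lit 2506))))))))))))))
noncomputable def s71829 : Cert := .r (nat_lit 3773962425700235452789419352815360603922721830320271382377774530689701993774204720117203202486347146669313736233244422888240222675937191536696568390515043725744057352192) (.p (nat_lit 395) (.a (.f (nat_lit 397) (nat_lit 365) (nat_lit 7533) (.f (nat_lit 396) (nat_lit 431) (nat_lit 395) (.f (nat_lit 427) (nat_lit 426) (nat_lit 1418) (.f (nat_lit 363) (nat_lit 362) (nat_lit 3434) (.d (nat_lit 364) (nat_lit 332) (nat_lit 6475) (nat_lit 491) (nat_lit 6507)))))) (.a (.f (nat_lit 397) (nat_lit 365) (nat_lit 7533) (.f (nat_lit 396) (nat_lit 431) (nat_lit 395) (.f (nat_lit 427) (nat_lit 426) (nat_lit 1418) (.f (nat_lit 491) (nat_lit 364) (nat_lit 6507) (.d (nat_lit 362) (nat_lit 363) (nat_lit 3434) (nat_lit 394) (nat_lit 7530)))))) (.a (.f (nat_lit 495) (nat_lit 527) (nat_lit 4494) (.f (nat_lit 460) (nat_lit 461) (nat_lit 459) (.f (nat_lit 492) (nat_lit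 493) (nat_lit 3531) (.f (nat_lit 427) (nat_lit 363) (nat_lit 4459) (.d (nat_lit 524) (nat_lit 428) (nat_lit 7563) (nat_lit 491) (nat_lit 4491)))))) (.a (.f (nat_lit 397) (nat_lit 365) (nat_lit 7533) (.f (nat_lit 396) (nat_lit 431) (nat_lit 395) (.f (nat_lit 427) (nat_lit 426) (nat_lit 1418) (.f (nat_lit 491) (nat_lit 364) (nat_lit 6507) (.f (nat_lit 492) (nat_lit 524) (nat_lit 4491) (.f (nat_lit 493) (nat_lit 458) (nat_lit 3530) (.d (nat_lit 490) (nat_lit 461) (nat_lit 2506) (nat_lit 522) (nat_lit 5514)))))))) (.f (nat_lit 397) (nat_lit 365) (nat_lit 7533) (.f (nat_lit 495) (nat_lit 527) (nat_lit 4494) (.f (nat_lit 460) (nat_lit 461) (nat_lit 459) (.f (nat_lit 396) (nat_lit 431) (nat_lit 395) (.f (nat_lit 492) (nat_lit 493) (nat_lit 3531) (.d (nat_lit 363) (nat_lit 362) (nat_lit 3434) (nat_lit 428) (nat_lit 7531))))))))))))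
noncomputable def s71874 : Cert := .r (nat_lit 3773962425700235452795812693846407756012591341446887786971947659685879854691164273570515963807450026659320123132318454445175548230873832300386445844706226134051339632640) (.p (nat_lit 395) (.a (.f (nat_lit 397) (nat_lit 365) (nat_lit 7533) (.f (nat_lit 396) (nat_lit 431) (nat_lit 395) (.d (nat_lit 427) (nat_lit 364) (nat_lit 6507) (nat_lit 426) (nat_lit 1418)))) (.a (.f (nat_lit 397) (nat_lit 365) (nat_lit 7533) (.f (nat_lit 396) (nat_lit 431) (nat_lit 395) (.f (nat_lit 427) (nat_lit 426) (nat_lit 1418) (.d (nat_lit 362) (nat_lit 363) (nat_lit 3434) (nat_lit 394) (nat_lit 7530))))) (.a (.f (nat_lit 527) (nat_lit 495) (nat_lit 4494) (.f (nat_lit 526) (nat_lit 559) (nat_lit 4526) (.f (nat_lit 492) (nat_lit 493) (nat_lit 491) (.f (nat_lit 427) (nat_lit 524) (nat_lit 4491) (.f (nat_lit 396) (nat_lit 364) (nat_lit 6507) (.d (nat_lit 397) (nat_lit 426) (nat_lit 1418) (nat_lit 431)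 (nat_lit 395))))))) (.a (.f (nat_lit 527) (nat_lit 495) (nat_lit 4494) (.f (nat_lit 526) (nat_lit 559) (nat_lit 4526) (.f (nat_lit 492) (nat_lit 493) (nat_lit 491) (.f (nat_lit 427) (nat_lit 524) (nat_lit 4491) (.f (nat_lit 490) (nat_lit 522) (nat_lit 5514) (.f (nat_lit 458) (nat_lit 363) (nat_lit 5482) (.f (nat_lit 394) (nat_lit 362) (nat_lit 7530) (.f (nat_lit 426) (nat_lit 523) (nat_lit 4490) (.f (nat_lit 393) (nat_lit 361) (nat_lit 7529) (.d (nat_lit 392) (nat_lit 391) (nat_lit 391) (nat_lit 428) (nat_lit 392))))))))))) (.a (.f (nat_lit 527) (nat_lit 495) (nat_lit 4494) (.f (nat_lit 526) (nat_lit 559) (nat_lit 4526) (.f (nat_lit 492) (nat_lit 493) (nat_lit 491) (.f (nat_lit 427) (nat_lit 524) (nat_lit 4491) (.f (nat_lit 396) (nat_lit 364) (nat_lit 6507) (.d (nat_lit 397) (nat_lit 365) (nat_lit 7533) (nat_lit 431) (nat_lit 395))))))) (.f (nat_lit 397) (nat_lit 365) (nat_lit 7533) (.f (nat_lit 396) (nat_lit 431) (nat_lit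 395) (.f (nat_lit 362) (nat_lit 363) (nat_lit 3434) (.f (nat_lit 394) (nat_lit 361) (nat_lit 3433) (.d (nat_lit 426) (nat_lit 425) (nat_lit 1417) (nat_lit 458) (nat_lit 4458))))))))))))
noncomputable def s71919 : Cert := .r (nat_lit 3773962425700235452795812693846407756012591341446887786971947659685879854691164273570515963807450026659320123132318454445175548230873832300386445844706226134051339632640) (.p (nat_lit 395) (.a (.f (nat_lit 397) (nat_lit 365) (nat_lit 7533) (.f (nat_lit 396) (nat_lit 431) (nat_lit 395) (.d (nat_lit 427) (nat_lit 364) (nat_lit 6507) (nat_lit 426) (nat_lit 1418)))) (.a (.f (nat_lit 397) (nat_lit 365) (nat_lit 7533) (.f (nat_lit 396) (nat_lit 431) (nat_lit 395) (.f (nat_lit 427) (nat_lit 426) (nat_lit 1418) (.d (nat_lit 362) (nat_lit 363) (nat_lit 3434) (nat_lit 394) (nat_lit 7530))))) (.a (.p (nat_lit 427) (.a (.f (nat_lit 396) (nat_lit 364) (nat_lit 6507) (.f (nat_lit 362) (nat_lit 394) (nat_lit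 7530) (.d (nat_lit 397) (nat_lit 363) (nat_lit 3434) (nat_lit 431) (nat_lit 395)))) (.a (.f (nat_lit 396) (nat_lit 364) (nat_lit 6507) (.f (nat_lit 490) (nat_lit 522) (nat_lit 5514) (.f (nat_lit 523) (nat_lit 428) (nat_lit 6539) (.f (nat_lit 458) (nat_lit 363) (nat_lit 5482) (.f (nat_lit 555) (nat_lit 587) (nat_lit 7626) (.d (nat_lit 556) (nat_lit 524) (nat_lit 4523) (nat_lit 588) (nat_lit 4555))))))) (.a (.f (nat_lit 396) (nat_lit 364) (nat_lit 6507) (.f (nat_lit 523) (nat_lit 428) (nat_lit 6539) (.d (nat_lit 522) (nat_lit 490) (nat_lit 5514) (nat_lit 554) (nat_lit 5546)))) (.f (nat_lit 490) (nat_lit 522) (nat_lit 5514) (.f (nat_lit 363) (nat_lit 458) (nat_lit 5482) (.d (nat_lit 362) (nat_lit 330) (nat_lit 7498) (nat_lit 394) (nat_lit 7530)))))))) (.a (.p (nat_lit 427) (.a (.f (nat_lit 490) (nat_lit 522) (nat_lit 5514) (.f (nat_lit 363) (nat_lit 458) (nat_lit 5482) (.d (nat_lit 362) (nat_lit 330) (nat_lit 7498) (nat_lit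 394) (nat_lit 7530)))) (.a (.f (nat_lit 490) (nat_lit 522) (nat_lit 5514) (.f (nat_lit 458) (nat_lit 363) (nat_lit 5482) (.f (nat_lit 394) (nat_lit 362) (nat_lit 7530) (.f (nat_lit 426) (nat_lit 523) (nat_lit 4490) (.f (nat_lit 393) (nat_lit 361) (nat_lit 7529) (.d (nat_lit 392) (nat_lit 391) (nat_lit 391) (nat_lit 428) (nat_lit 392))))))) (.a (.f (nat_lit 490) (nat_lit 522) (nat_lit 5514) (.f (nat_lit 363) (nat_lit 458) (nat_lit 5482) (.f (nat_lit 365) (nat_lit 397) (nat_lit 7533) (.f (nat_lit 366) (nat_lit 333) (nat_lit 7501) (.d (nat_lit 364) (nat_lit 332) (nat_lit 6475) (nat_lit 394) (nat_lit 1386)))))) (.a (.f (nat_lit 394) (nat_lit 362) (nat_lit 7530) (.f (nat_lit 523) (nat_lit 426) (nat_lit 7562) (.d (nat_lit 522) (nat_lit 490) (nat_lit 5514) (nat_lit 554) (nat_lit 5546)))) (.a (.f (nat_lit 490) (nat_lit 522) (nat_lit 5514) (.f (nat_lit 363) (nat_lit 458) (nat_lit 5482) (.f (nat_lit 365) (nat_lit 397) (nat_lit 7533)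 (.f (nat_lit 366) (nat_lit 333) (nat_lit 7501) (.f (nat_lit 364) (nat_lit 332) (nat_lit 6475) (.d (nat_lit 330) (nat_lit 331) (nat_lit 3402) (nat_lit 362) (nat_lit 7498))))))) (.a (.f (nat_lit 394) (nat_lit 362) (nat_lit 7530) (.f (nat_lit 523) (nat_lit 426) (nat_lit 7562) (.f (nat_lit 556) (nat_lit 524) (nat_lit 4523) (.f (nat_lit 555) (nat_lit 588) (nat_lit 4555) (.d (nat_lit 554) (nat_lit 522) (nat_lit 5546) (nat_lit 586) (nat_lit 5578)))))) (.f (nat_lit 394) (nat_lit 362) (nat_lit 7530) (.f (nat_lit 426) (nat_lit 523) (nat_lit 7562) (.f (nat_lit 365) (nat_lit 397) (nat_lit 7533) (.f (nat_lit 366) (nat_lit 333) (nat_lit 7501) (.f (nat_lit 363) (nat_lit 364) (nat_lit 1386) (.d (nat_lit 331) (nat_lit 299) (nat_lit 5418) (nat_lit 458) (nat_lit 5450)))))))))))))) (.a (.p (nat_lit 427) (.a (.f (nat_lit 396) (nat_lit 364) (nat_lit 6507) (.f (nat_lit 490) (nat_lit 522) (nat_lit 5514) (.f (nat_lit 523) (nat_lit 428) (nat_lit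 6539) (.f (nat_lit 458) (nat_lit 363) (nat_lit 5482) (.f (nat_lit 555) (nat_lit 587) (nat_lit 7626) (.d (nat_lit 556) (nat_lit 524) (nat_lit 4523) (nat_lit 588) (nat_lit 4555))))))) (.a (.f (nat_lit 396) (nat_lit 364) (nat_lit 6507) (.f (nat_lit 523) (nat_lit 428) (nat_lit 6539) (.d (nat_lit 522) (nat_lit 490) (nat_lit 5514) (nat_lit 554) (nat_lit 5546)))) (.a (.f (nat_lit 490) (nat_lit 522) (nat_lit 5514) (.f (nat_lit 363) (nat_lit 458) (nat_lit 5482) (.d (nat_lit 362) (nat_lit 330) (nat_lit 7498) (nat_lit 394) (nat_lit 7530)))) (.a (.f (nat_lit 394) (nat_lit 362) (nat_lit 7530) (.f (nat_lit 523) (nat_lit 426) (nat_lit 7562) (.f (nat_lit 556) (nat_lit 524) (nat_lit 4523) (.f (nat_lit 555) (nat_lit 588) (nat_lit 4555) (.d (nat_lit 554) (nat_lit 522) (nat_lit 5546) (nat_lit 586) (nat_lit 5578)))))) (.f (nat_lit 394) (nat_lit 362) (nat_lit 7530) (.f (nat_lit 523) (nat_lit 426) (nat_lit 7562) (.d (nat_lit 396) (nat_lit 364)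 (nat_lit 6507) (nat_lit 428) (nat_lit 6539))))))))) (.f (nat_lit 397) (nat_lit 365) (nat_lit 7533) (.f (nat_lit 396) (nat_lit 431) (nat_lit 395) (.f (nat_lit 362) (nat_lit 363) (nat_lit 3434) (.f (nat_lit 394) (nat_lit 361) (nat_lit 3433) (.d (nat_lit 426) (nat_lit 425) (nat_lit 1417) (nat_lit 458) (nat_lit 4458))))))))))))
noncomputable def s71997 : Cert := .r (nat_lit 3773962425700235452802206034877454908102460852573584886874811004575484463082248921144901528434578819884102468136284381240298900073142649481366327606129780516482770272256) (.p (nat_lit 427) (.a (.f (nat_lit 363) (nat_lit 460) (nat_lit 4459) (.f (nat_lit 491) (nat_lit 524) (nat_lit 4491) (.d (nat_lit 490) (nat_lit 458) (nat_lit 5482) (nat_lit 522) (nat_lit 5514)))) (.a (.f (nat_lit 491) (nat_lit 524) (nat_lit 4491) (.f (nat_lit 396) (nat_lit 364) (nat_lit 6507) (.f (nat_lit 523) (nat_lit 428) (nat_lit 6539) (.d (nat_lit 394) (nat_lit 362) (nat_lit 7530) (nat_lit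 426) (nat_lit 7562))))) (.f (nat_lit 363) (nat_lit 460) (nat_lit 4459) (.f (nat_lit 458) (nat_lit 490) (nat_lit 5482) (.f (nat_lit 331) (nat_lit 426) (nat_lit 5450) (.d (nat_lit 332) (nat_lit 300) (nat_lit 6443) (nat_lit 364) (nat_lit 6475))))))))
noncomputable def s72088 : Cert := .r (nat_lit 3773962425700235452789419352813872038215364427408426367219219897403345736267517092729746710558425197407257497286272383616378434893668749892446935258107164861608654536704) (.p (nat_lit 459) (.a (.f (nat_lit 495) (nat_lit 527) (nat_lit 4494) (.f (nat_lit 461) (nat_lit 460) (nat_lit 459) (.f (nat_lit 366) (nat_lit 493) (nat_lit 5485) (.d (nat_lit 365) (nat_lit 333) (nat_lit 7501) (nat_lit 397) (nat_lit 7533))))) (.a (.p (nat_lit 395) (.a (.f (nat_lit 397) (nat_lit 365) (nat_lit 7533) (.f (nat_lit 396) (nat_lit 431) (nat_lit 395) (.f (nat_lit 427) (nat_lit 426) (nat_lit 1418) (.f (nat_lit 363) (nat_lit 362) (nat_lit 3434) (.d (nat_lit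 364) (nat_lit 332) (nat_lit 6475) (nat_lit 491) (nat_lit 6507)))))) (.a (.f (nat_lit 397) (nat_lit 365) (nat_lit 7533) (.f (nat_lit 396) (nat_lit 431) (nat_lit 395) (.f (nat_lit 427) (nat_lit 426) (nat_lit 1418) (.f (nat_lit 491) (nat_lit 364) (nat_lit 6507) (.d (nat_lit 362) (nat_lit 363) (nat_lit 3434) (nat_lit 394) (nat_lit 7530)))))) (.a (.f (nat_lit 495) (nat_lit 527) (nat_lit 4494) (.f (nat_lit 460) (nat_lit 461) (nat_lit 459) (.f (nat_lit 492) (nat_lit 493) (nat_lit 3531) (.f (nat_lit 427) (nat_lit 363) (nat_lit 4459) (.d (nat_lit 524) (nat_lit 428) (nat_lit 7563) (nat_lit 491) (nat_lit 4491)))))) (.a (.f (nat_lit 397) (nat_lit 365) (nat_lit 7533) (.f (nat_lit 396) (nat_lit 431) (nat_lit 395) (.f (nat_lit 427) (nat_lit 426) (nat_lit 1418) (.f (nat_lit 491) (nat_lit 364) (nat_lit 6507) (.f (nat_lit 492) (nat_lit 524) (nat_lit 4491) (.f (nat_lit 493) (nat_lit 458) (nat_lit 3530) (.d (nat_lit 490) (nat_lit 461) (nat_lit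 2506) (nat_lit 522) (nat_lit 5514)))))))) (.f (nat_lit 495) (nat_lit 527) (nat_lit 4494) (.f (nat_lit 461) (nat_lit 460) (nat_lit 459) (.f (nat_lit 397) (nat_lit 365) (nat_lit 7533) (.f (nat_lit 396) (nat_lit 431) (nat_lit 395) (.d (nat_lit 366) (nat_lit 367) (nat_lit 2411) (nat_lit 493) (nat_lit 5485))))))))))) (.a s71822 (.a s71829 (.a (.f (nat_lit 495) (nat_lit 527) (nat_lit 4494) (.f (nat_lit 461) (nat_lit 460) (nat_lit 459) (.f (nat_lit 366) (nat_lit 493) (nat_lit 5485) (.f (nat_lit 335) (nat_lit 367) (nat_lit 6478) (.f (nat_lit 334) (nat_lit 303) (nat_lit 6446) (.d (nat_lit 333) (nat_lit 301) (nat_lit 7469) (nat_lit 365) (nat_lit 7501))))))) (.a (.p (nat_lit 491) (.a s71690 (.a (.f (nat_lit 527) (nat_lit 495) (nat_lit 4494) (.f (nat_lit 526) (nat_lit 559) (nat_lit 4526) (.f (nat_lit 493) (nat_lit 492) (nat_lit 491) (.f (nat_lit 366) (nat_lit 461) (nat_lit 5485) (.d (nat_lit 365) (nat_lit 333) (nat_lit 7501) (nat_lit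 397) (nat_lit 7533)))))) (.a s71874 (.a (.f (nat_lit 527) (nat_lit 495) (nat_lit 4494) (.f (nat_lit 526) (nat_lit 559) (nat_lit 4526) (.f (nat_lit 493) (nat_lit 492) (nat_lit 491) (.f (nat_lit 366) (nat_lit 461) (nat_lit 5485) (.f (nat_lit 335) (nat_lit 367) (nat_lit 6478) (.f (nat_lit 334) (nat_lit 303) (nat_lit 6446) (.d (nat_lit 333) (nat_lit 301) (nat_lit 7469) (nat_lit 365) (nat_lit 7501)))))))) s71919))))) (.a (.p (nat_lit 492) (.a (.f (nat_lit 495) (nat_lit 527) (nat_lit 4494) (.f (nat_lit 493) (nat_lit 460) (nat_lit 3531) (.f (nat_lit 491) (nat_lit 458) (nat_lit 3530) (.d (nat_lit 523) (nat_lit 522) (nat_lit 1514) (nat_lit 524) (nat_lit 1515))))) (.a (.p (nat_lit 395) (.a (.f (nat_lit 397) (nat_lit 365) (nat_lit 7533) (.f (nat_lit 396) (nat_lit 431) (nat_lit 395) (.f (nat_lit 427) (nat_lit 426) (nat_lit 1418) (.d (nat_lit 363) (nat_lit 362) (nat_lit 3434) (nat_lit 460) (nat_lit 4459))))) (.a (.f (nat_lit 527) (nat_lit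 495) (nat_lit 4494) (.f (nat_lit 526) (nat_lit 559) (nat_lit 4526) (.f (nat_lit 491) (nat_lit 493) (nat_lit 491) (.f (nat_lit 427) (nat_lit 524) (nat_lit 4491) (.f (nat_lit 396) (nat_lit 364) (nat_lit 6507) (.d (nat_lit 397) (nat_lit 365) (nat_lit 7533) (nat_lit 426) (nat_lit 1418))))))) (.a (.f (nat_lit 527) (nat_lit 495) (nat_lit 4494) (.f (nat_lit 526) (nat_lit 559) (nat_lit 4526) (.f (nat_lit 491) (nat_lit 493) (nat_lit 491) (.f (nat_lit 427) (nat_lit 524) (nat_lit 4491) (.f (nat_lit 396) (nat_lit 364) (nat_lit 6507) (.d (nat_lit 397) (nat_lit 426) (nat_lit 1418) (nat_lit 431) (nat_lit 395))))))) (.a (.f (nat_lit 527) (nat_lit 495) (nat_lit 4494) (.f (nat_lit 526) (nat_lit 559) (nat_lit 4526) (.f (nat_lit 491) (nat_lit 493) (nat_lit 491) (.f (nat_lit 427) (nat_lit 524) (nat_lit 4491) (.f (nat_lit 363) (nat_lit 460) (nat_lit 4459) (.d (nat_lit 362) (nat_lit 330) (nat_lit 7498) (nat_lit 394) (nat_lit 7530))))))) (.f (nat_lit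 365) (nat_lit 397) (nat_lit 7533) (.f (nat_lit 366) (nat_lit 333) (nat_lit 7501) (.f (nat_lit 367) (nat_lit 335) (nat_lit 6478) (.f (nat_lit 364) (nat_lit 396) (nat_lit 1387) (.f (nat_lit 363) (nat_lit 394) (nat_lit 1386) (.d (nat_lit 331) (nat_lit 330) (nat_lit 3402) (nat_lit 332) (nat_lit 3403)))))))))))) (.a (.p (nat_lit 395) (.a (.f (nat_lit 527) (nat_lit 495) (nat_lit 4494) (.f (nat_lit 526) (nat_lit 559) (nat_lit 4526) (.f (nat_lit 491) (nat_lit 493) (nat_lit 491) (.f (nat_lit 427) (nat_lit 524) (nat_lit 4491) (.f (nat_lit 396) (nat_lit 364) (nat_lit 6507) (.d (nat_lit 397) (nat_lit 365) (nat_lit 7533) (nat_lit 426) (nat_lit 1418))))))) (.a (.f (nat_lit 527) (nat_lit 495) (nat_lit 4494) (.f (nat_lit 397) (nat_lit 365) (nat_lit 7533) (.f (nat_lit 396) (nat_lit 431) (nat_lit 395) (.f (nat_lit 427) (nat_lit 426) (nat_lit 1418) (.f (nat_lit 491) (nat_lit 524) (nat_lit 4491) (.d (nat_lit 493) (nat_lit 458) (nat_lit 3530)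 (nat_lit 526) (nat_lit 491))))))) (.a (.f (nat_lit 527) (nat_lit 495) (nat_lit 4494) (.f (nat_lit 526) (nat_lit 559) (nat_lit 4526) (.f (nat_lit 491) (nat_lit 493) (nat_lit 491) (.f (nat_lit 427) (nat_lit 524) (nat_lit 4491) (.f (nat_lit 396) (nat_lit 364) (nat_lit 6507) (.d (nat_lit 397) (nat_lit 426) (nat_lit 1418) (nat_lit 431) (nat_lit 395))))))) (.a (.f (nat_lit 527) (nat_lit 495) (nat_lit 4494) (.f (nat_lit 526) (nat_lit 559) (nat_lit 4526) (.f (nat_lit 491) (nat_lit 493) (nat_lit 491) (.f (nat_lit 427) (nat_lit 524) (nat_lit 4491) (.f (nat_lit 490) (nat_lit 522) (nat_lit 5514) (.f (nat_lit 458) (nat_lit 363) (nat_lit 5482) (.f (nat_lit 394) (nat_lit 362) (nat_lit 7530) (.f (nat_lit 426) (nat_lit 523) (nat_lit 4490) (.f (nat_lit 393) (nat_lit 361) (nat_lit 7529) (.d (nat_lit 392) (nat_lit 391) (nat_lit 391) (nat_lit 428) (nat_lit 392))))))))))) (.f (nat_lit 365) (nat_lit 397) (nat_lit 7533) (.f (nat_lit 366) (nat_lit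 333) (nat_lit 7501) (.f (nat_lit 367) (nat_lit 335) (nat_lit 6478) (.f (nat_lit 364) (nat_lit 396) (nat_lit 1387) (.f (nat_lit 363) (nat_lit 394) (nat_lit 1386) (.d (nat_lit 331) (nat_lit 330) (nat_lit 3402) (nat_lit 332) (nat_lit 3403)))))))))))) (.a (.p (nat_lit 395) (.a (.f (nat_lit 397) (nat_lit 365) (nat_lit 7533) (.f (nat_lit 396) (nat_lit 431) (nat_lit 395) (.f (nat_lit 427) (nat_lit 426) (nat_lit 1418) (.d (nat_lit 363) (nat_lit 362) (nat_lit 3434) (nat_lit 460) (nat_lit 4459))))) (.a (.f (nat_lit 365) (nat_lit 397) (nat_lit 7533) (.f (nat_lit 366) (nat_lit 333) (nat_lit 7501) (.f (nat_lit 367) (nat_lit 335) (nat_lit 6478) (.f (nat_lit 364) (nat_lit 396) (nat_lit 1387) (.f (nat_lit 363) (nat_lit 394) (nat_lit 1386) (.d (nat_lit 331) (nat_lit 330) (nat_lit 3402) (nat_lit 332) (nat_lit 3403))))))) (.a (.f (nat_lit 495) (nat_lit 527) (nat_lit 4494) (.f (nat_lit 397) (nat_lit 365) (nat_lit 7533) (.f (nat_lit 396) (nat_lit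 431) (nat_lit 395) (.f (nat_lit 427) (nat_lit 426) (nat_lit 1418) (.f (nat_lit 460) (nat_lit 493) (nat_lit 3531) (.d (nat_lit 524) (nat_lit 428) (nat_lit 7563) (nat_lit 556) (nat_lit 7595))))))) (.f (nat_lit 495) (nat_lit 527) (nat_lit 4494) (.f (nat_lit 460) (nat_lit 493) (nat_lit 3531) (.f (nat_lit 427) (nat_lit 363) (nat_lit 4459) (.d (nat_lit 524) (nat_lit 428) (nat_lit 7563) (nat_lit 556) (nat_lit 7595))))))))) (.a (.p (nat_lit 395) (.a (.f (nat_lit 397) (nat_lit 365) (nat_lit 7533) (.f (nat_lit 396) (nat_lit 431) (nat_lit 395) (.f (nat_lit 427) (nat_lit 426) (nat_lit 1418) (.d (nat_lit 363) (nat_lit 362) (nat_lit 3434) (nat_lit 460) (nat_lit 4459))))) (.a (.f (nat_lit 365) (nat_lit 397) (nat_lit 7533) (.f (nat_lit 366) (nat_lit 333) (nat_lit 7501) (.f (nat_lit 367) (nat_lit 335) (nat_lit 6478) (.f (nat_lit 364) (nat_lit 396) (nat_lit 1387) (.f (nat_lit 363) (nat_lit 394) (nat_lit 1386) (.d (nat_lit 331) (nat_lit 330)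 (nat_lit 3402) (nat_lit 332) (nat_lit 3403))))))) (.a (.f (nat_lit 397) (nat_lit 365) (nat_lit 7533) (.f (nat_lit 396) (nat_lit 431) (nat_lit 395) (.f (nat_lit 427) (nat_lit 426) (nat_lit 1418) (.d (nat_lit 491) (nat_lit 364) (nat_lit 6507) (nat_lit 524) (nat_lit 4491))))) (.a (.p (nat_lit 427) (.a (.f (nat_lit 491) (nat_lit 524) (nat_lit 4491) (.f (nat_lit 396) (nat_lit 364) (nat_lit 6507) (.d (nat_lit 397) (nat_lit 426) (nat_lit 1418) (nat_lit 431) (nat_lit 395)))) (.a (.f (nat_lit 363) (nat_lit 460) (nat_lit 4459) (.f (nat_lit 491) (nat_lit 524) (nat_lit 4491) (.d (nat_lit 490) (nat_lit 458) (nat_lit 5482) (nat_lit 522) (nat_lit 5514)))) (.f (nat_lit 363) (nat_lit 460) (nat_lit 4459) (.f (nat_lit 458) (nat_lit 490) (nat_lit 5482) (.f (nat_lit 331) (nat_lit 426) (nat_lit 5450) (.d (nat_lit 332) (nat_lit 300) (nat_lit 6443) (nat_lit 364) (nat_lit 6475)))))))) (.a (.f (nat_lit 365) (nat_lit 397) (nat_lit 7533) (.f (nat_lit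 366) (nat_lit 333) (nat_lit 7501) (.f (nat_lit 335) (nat_lit 367) (nat_lit 6478) (.f (nat_lit 334) (nat_lit 303) (nat_lit 6446) (.f (nat_lit 363) (nat_lit 364) (nat_lit 2379) (.f (nat_lit 427) (nat_lit 460) (nat_lit 4459) (.f (nat_lit 491) (nat_lit 524) (nat_lit 4491) (.d (nat_lit 490) (nat_lit 458) (nat_lit 5482) (nat_lit 522) (nat_lit 5514))))))))) s71997)))))) (.f (nat_lit 495) (nat_lit 527) (nat_lit 4494) (.f (nat_lit 493) (nat_lit 460) (nat_lit 3531) (.f (nat_lit 491) (nat_lit 458) (nat_lit 3530) (.f (nat_lit 522) (nat_lit 523) (nat_lit 1514) (.f (nat_lit 490) (nat_lit 521) (nat_lit 1513) (.f (nat_lit 365) (nat_lit 397) (nat_lit 7533) (.f (nat_lit 366) (nat_lit 333) (nat_lit 7501) (.f (nat_lit 367) (nat_lit 335) (nat_lit 6478) (.f (nat_lit 395) (nat_lit 427) (nat_lit 5514) (.f (nat_lit 364) (nat_lit 396) (nat_lit 1387) (.f (nat_lit 363) (nat_lit 394) (nat_lit 1386) (.d (nat_lit 331) (nat_lit 330) (nat_lit 3402) (nat_lit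 332) (nat_lit 3403))))))))))))))))))) (.a (.p (nat_lit 395) (.a (.f (nat_lit 397) (nat_lit 365) (nat_lit 7533) (.f (nat_lit 396) (nat_lit 431) (nat_lit 395) (.f (nat_lit 427) (nat_lit 426) (nat_lit 1418) (.f (nat_lit 363) (nat_lit 362) (nat_lit 3434) (.d (nat_lit 364) (nat_lit 332) (nat_lit 6475) (nat_lit 491) (nat_lit 6507)))))) (.a (.f (nat_lit 397) (nat_lit 365) (nat_lit 7533) (.f (nat_lit 396) (nat_lit 431) (nat_lit 395) (.f (nat_lit 427) (nat_lit 426) (nat_lit 1418) (.f (nat_lit 491) (nat_lit 364) (nat_lit 6507) (.d (nat_lit 362) (nat_lit 363) (nat_lit 3434) (nat_lit 394) (nat_lit 7530)))))) (.a (.f (nat_lit 397) (nat_lit 365) (nat_lit 7533) (.f (nat_lit 396) (nat_lit 431) (nat_lit 395) (.f (nat_lit 427) (nat_lit 426) (nat_lit 1418) (.f (nat_lit 491) (nat_lit 364) (nat_lit 6507) (.f (nat_lit 523) (nat_lit 428) (nat_lit 6539) (.d (nat_lit 522) (nat_lit 490) (nat_lit 5514) (nat_lit 554) (nat_lit 5546))))))) (.a (.f (nat_lit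 397) (nat_lit 365) (nat_lit 7533) (.f (nat_lit 396) (nat_lit 431) (nat_lit 395) (.f (nat_lit 427) (nat_lit 426) (nat_lit 1418) (.f (nat_lit 363) (nat_lit 362) (nat_lit 3434) (.f (nat_lit 460) (nat_lit 492) (nat_lit 4459) (.d (nat_lit 495) (nat_lit 461) (nat_lit 459) (nat_lit 527) (nat_lit 4494))))))) (.a (.p (nat_lit 427) (.a (.f (nat_lit 495) (nat_lit 527) (nat_lit 4494) (.f (nat_lit 460) (nat_lit 461) (nat_lit 459) (.f (nat_lit 363) (nat_lit 492) (nat_lit 4459) (.f (nat_lit 331) (nat_lit 428) (nat_lit 4427) (.d (nat_lit 458) (nat_lit 426) (nat_lit 5450) (nat_lit 490) (nat_lit 5482)))))) (.a (.f (nat_lit 495) (nat_lit 527) (nat_lit 4494) (.f (nat_lit 460) (nat_lit 461) (nat_lit 459) (.f (nat_lit 363) (nat_lit 492) (nat_lit 4459) (.f (nat_lit 362) (nat_lit 330) (nat_lit 7498) (.f (nat_lit 396) (nat_lit 397) (nat_lit 3434) (.d (nat_lit 364) (nat_lit 332) (nat_lit 6475) (nat_lit 491) (nat_lit 6507))))))) (.p (nat_lit 491)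 (.a (.f (nat_lit 396) (nat_lit 364) (nat_lit 6507) (.f (nat_lit 523) (nat_lit 428) (nat_lit 6539) (.d (nat_lit 522) (nat_lit 490) (nat_lit 5514) (nat_lit 554) (nat_lit 5546)))) (.a (.f (nat_lit 394) (nat_lit 362) (nat_lit 7530) (.f (nat_lit 523) (nat_lit 426) (nat_lit 7562) (.d (nat_lit 522) (nat_lit 490) (nat_lit 5514) (nat_lit 554) (nat_lit 5546)))) (.f (nat_lit 396) (nat_lit 364) (nat_lit 6507) (.d (nat_lit 397) (nat_lit 426) (nat_lit 1418) (nat_lit 431) (nat_lit 395))))))))) (.a (.f (nat_lit 365) (nat_lit 397) (nat_lit 7533) (.f (nat_lit 366) (nat_lit 333) (nat_lit 7501) (.f (nat_lit 335) (nat_lit 367) (nat_lit 6478) (.f (nat_lit 334) (nat_lit 303) (nat_lit 6446) (.f (nat_lit 363) (nat_lit 364) (nat_lit 2379) (.f (nat_lit 495) (nat_lit 527) (nat_lit 4494) (.f (nat_lit 460) (nat_lit 461) (nat_lit 459) (.f (nat_lit 427) (nat_lit 492) (nat_lit 4459) (.f (nat_lit 331) (nat_lit 428) (nat_lit 4427) (.d (nat_lit 458) (nat_lit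 426) (nat_lit 5450) (nat_lit 490) (nat_lit 5482))))))))))) (.a (.p (nat_lit 427) (.a (.f (nat_lit 495) (nat_lit 527) (nat_lit 4494) (.f (nat_lit 460) (nat_lit 461) (nat_lit 459) (.f (nat_lit 363) (nat_lit 492) (nat_lit 4459) (.f (nat_lit 331) (nat_lit 428) (nat_lit 4427) (.d (nat_lit 458) (nat_lit 426) (nat_lit 5450) (nat_lit 490) (nat_lit 5482)))))) (.a (.f (nat_lit 495) (nat_lit 527) (nat_lit 4494) (.f (nat_lit 460) (nat_lit 461) (nat_lit 459) (.f (nat_lit 363) (nat_lit 492) (nat_lit 4459) (.f (nat_lit 364) (nat_lit 332) (nat_lit 6475) (.f (nat_lit 491) (nat_lit 396) (nat_lit 6507) (.d (nat_lit 362) (nat_lit 330) (nat_lit 7498) (nat_lit 394) (nat_lit 7530))))))) (.a (.p (nat_lit 491) (.a (.f (nat_lit 396) (nat_lit 364) (nat_lit 6507) (.f (nat_lit 523) (nat_lit 428) (nat_lit 6539) (.d (nat_lit 522) (nat_lit 490) (nat_lit 5514) (nat_lit 554) (nat_lit 5546)))) (.a (.f (nat_lit 394) (nat_lit 362) (nat_lit 7530) (.f (nat_lit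 523) (nat_lit 426) (nat_lit 7562) (.d (nat_lit 522) (nat_lit 490) (nat_lit 5514) (nat_lit 554) (nat_lit 5546)))) (.a (.f (nat_lit 394) (nat_lit 362) (nat_lit 7530) (.f (nat_lit 523) (nat_lit 426) (nat_lit 7562) (.f (nat_lit 556) (nat_lit 524) (nat_lit 4523) (.f (nat_lit 555) (nat_lit 588) (nat_lit 4555) (.d (nat_lit 554) (nat_lit 522) (nat_lit 5546) (nat_lit 586) (nat_lit 5578)))))) (.a (.f (nat_lit 394) (nat_lit 362) (nat_lit 7530) (.f (nat_lit 523) (nat_lit 426) (nat_lit 7562) (.d (nat_lit 396) (nat_lit 364) (nat_lit 6507) (nat_lit 428) (nat_lit 6539)))) (.f (nat_lit 490) (nat_lit 522) (nat_lit 5514) (.f (nat_lit 460) (nat_lit 461) (nat_lit 1482) (.f (nat_lit 492) (nat_lit 524) (nat_lit 4491) (.f (nat_lit 489) (nat_lit 488) (nat_lit 2504) (.f (nat_lit 457) (nat_lit 456) (nat_lit 3528) (.f (nat_lit 521) (nat_lit 520) (nat_lit 1512) (.f (nat_lit 394) (nat_lit 362) (nat_lit 7530) (.d (nat_lit 426) (nat_lit 425) (nat_lit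 6537) (nat_lit 458) (nat_lit 5513)))))))))))))) (.p (nat_lit 491) (.a (.f (nat_lit 396) (nat_lit 364) (nat_lit 6507) (.f (nat_lit 490) (nat_lit 522) (nat_lit 5514) (.f (nat_lit 523) (nat_lit 428) (nat_lit 6539) (.f (nat_lit 458) (nat_lit 363) (nat_lit 5482) (.f (nat_lit 555) (nat_lit 587) (nat_lit 7626) (.d (nat_lit 556) (nat_lit 524) (nat_lit 4523) (nat_lit 588) (nat_lit 4555))))))) (.a (.f (nat_lit 396) (nat_lit 364) (nat_lit 6507) (.f (nat_lit 523) (nat_lit 428) (nat_lit 6539) (.d (nat_lit 522) (nat_lit 490) (nat_lit 5514) (nat_lit 554) (nat_lit 5546)))) (.a (.f (nat_lit 490) (nat_lit 522) (nat_lit 5514) (.f (nat_lit 363) (nat_lit 458) (nat_lit 5482) (.d (nat_lit 362) (nat_lit 330) (nat_lit 7498) (nat_lit 394) (nat_lit 7530)))) (.a (.f (nat_lit 394) (nat_lit 362) (nat_lit 7530) (.f (nat_lit 523) (nat_lit 426) (nat_lit 7562) (.f (nat_lit 556) (nat_lit 524) (nat_lit 4523) (.f (nat_lit 555) (nat_lit 588) (nat_lit 4555)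 (.d (nat_lit 554) (nat_lit 522) (nat_lit 5546) (nat_lit 586) (nat_lit 5578)))))) (.f (nat_lit 394) (nat_lit 362) (nat_lit 7530) (.f (nat_lit 523) (nat_lit 426) (nat_lit 7562) (.d (nat_lit 396) (nat_lit 364) (nat_lit 6507) (nat_lit 428) (nat_lit 6539))))))))))))) (.a (.f (nat_lit 397) (nat_lit 365) (nat_lit 7533) (.f (nat_lit 396) (nat_lit 431) (nat_lit 395) (.f (nat_lit 363) (nat_lit 362) (nat_lit 3434) (.f (nat_lit 495) (nat_lit 527) (nat_lit 4494) (.f (nat_lit 460) (nat_lit 461) (nat_lit 459) (.d (nat_lit 492) (nat_lit 427) (nat_lit 4459) (nat_lit 428) (nat_lit 7531))))))) (.f (nat_lit 397) (nat_lit 365) (nat_lit 7533) (.f (nat_lit 396) (nat_lit 431) (nat_lit 395) (.f (nat_lit 362) (nat_lit 363) (nat_lit 3434) (.f (nat_lit 394) (nat_lit 361) (nat_lit 3433) (.f (nat_lit 426) (nat_lit 425) (nat_lit 1417) (.f (nat_lit 495) (nat_lit 527) (nat_lit 4494) (.f (nat_lit 491) (nat_lit 458) (nat_lit 4458) (.f (nat_lit 460) (nat_lit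 461) (nat_lit 459) (.f (nat_lit 428) (nat_lit 364) (nat_lit 5483) (.d (nat_lit 523) (nat_lit 492) (nat_lit 5515) (nat_lit 555) (nat_lit 6571)))))))))))))))))))) (.f (nat_lit 365) (nat_lit 397) (nat_lit 7533) (.f (nat_lit 366) (nat_lit 333) (nat_lit 7501) (.f (nat_lit 461) (nat_lit 493) (nat_lit 5485) (.f (nat_lit 460) (nat_lit 431) (nat_lit 2475) (.f (nat_lit 490) (nat_lit 491) (nat_lit 1482) (.f (nat_lit 458) (nat_lit 489) (nat_lit 1481) (.d (nat_lit 426) (nat_lit 425) (nat_lit 3497) (nat_lit 427) (nat_lit 3498)))))))))))))))))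
noncomputable def s72359 : Cert := .r (nat_lit 3773962425700235452814992716939549212282546458537937235451082837193444090586096829717366601700473583933484404758772985651545337685121537117688221958023344986582769729536) (.p (nat_lit 363) (.a (.f (nat_lit 458) (nat_lit 490) (nat_lit 5482) (.f (nat_lit 428) (nat_lit 429) (nat_lit 1450) (.d (nat_lit 331) (nat_lit 426) (nat_lit 5450) (nat_lit 460) (nat_lit 4427)))) (.a (.f (nat_lit 362) (nat_lit 330) (nat_lit 7498) (.f (nat_lit 394) (nat_lit 491) (nat_lit 7530) (.f (nat_lit 428) (nat_lit 429) (nat_lit 3466) (.f (nat_lit 393) (nat_lit 392) (nat_lit 392) (.f (nat_lit 458) (nat_lit 490) (nat_lit 5482) (.f (nat_lit 457) (nat_lit 456) (nat_lit 2472) (.d (nat_lit 489) (nat_lit 425) (nat_lit 6505) (nat_lit 426) (nat_lit 5481)))))))) (.f (nat_lit 362) (nat_lit 330) (nat_lit 7498) (.f (nat_lit 364) (nat_lit 332) (nat_lit 6475) (.d (nat_lit 491) (nat_lit 394) (nat_lit 7530) (nat_lit 396)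 (nat_lit 6507)))))))
noncomputable def s72365 : Cert := .r (nat_lit 3773962425700235452814992716939549212282546458537937235451082837193444090586096829717366601700473583933484404758772985651545337685121537117688221958023344986582769729536) (.p (nat_lit 491) (.a (.f (nat_lit 394) (nat_lit 362) (nat_lit 7530) (.f (nat_lit 396) (nat_lit 364) (nat_lit 6507) (.d (nat_lit 429) (nat_lit 397) (nat_lit 394) (nat_lit 428) (nat_lit 3466)))) (.a (.f (nat_lit 364) (nat_lit 396) (nat_lit 6507) (.f (nat_lit 363) (nat_lit 332) (nat_lit 6475) (.d (nat_lit 490) (nat_lit 458) (nat_lit 5482) (nat_lit 522) (nat_lit 5514)))) (.a (.f (nat_lit 394) (nat_lit 362) (nat_lit 7530) (.f (nat_lit 428) (nat_lit 429) (nat_lit 3466) (.d (nat_lit 523) (nat_lit 396) (nat_lit 6539) (nat_lit 426) (nat_lit 7562)))) (.f (nat_lit 394) (nat_lit 362) (nat_lit 7530) (.f (nat_lit 523) (nat_lit 426) (nat_lit 7562) (.d (nat_lit 522) (nat_lit 490) (nat_lit 5514) (nat_lit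 554) (nat_lit 5546))))))))
noncomputable def s72388 : Cert := .r (nat_lit 3773962425700235452814992716939549212282546458537937235451082837193444090586096829717366601700473583933484404758772985651545337685121537117688221958023344986582769729536) (.p (nat_lit 363) (.a (.f (nat_lit 458) (nat_lit 490) (nat_lit 5482) (.f (nat_lit 428) (nat_lit 429) (nat_lit 1450) (.d (nat_lit 331) (nat_lit 426) (nat_lit 5450) (nat_lit 460) (nat_lit 4427)))) (.a (.f (nat_lit 362) (nat_lit 330) (nat_lit 7498) (.f (nat_lit 394) (nat_lit 491) (nat_lit 7530) (.f (nat_lit 428) (nat_lit 429) (nat_lit 3466) (.f (nat_lit 393) (nat_lit 392) (nat_lit 392) (.f (nat_lit 458) (nat_lit 490) (nat_lit 5482) (.f (nat_lit 457) (nat_lit 456) (nat_lit 2472) (.d (nat_lit 489) (nat_lit 425) (nat_lit 6505) (nat_lit 426) (nat_lit 5481)))))))) (.a (.f (nat_lit 362) (nat_lit 330) (nat_lit 7498) (.f (nat_lit 394) (nat_lit 491) (nat_lit 7530) (.f (nat_lit 428) (nat_lit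 429) (nat_lit 3466) (.f (nat_lit 331) (nat_lit 460) (nat_lit 4427) (.d (nat_lit 299) (nat_lit 267) (nat_lit 5386) (nat_lit 396) (nat_lit 4395)))))) (.f (nat_lit 362) (nat_lit 330) (nat_lit 7498) (.f (nat_lit 394) (nat_lit 491) (nat_lit 7530) (.f (nat_lit 458) (nat_lit 490) (nat_lit 5482) (.f (nat_lit 426) (nat_lit 331) (nat_lit 5450) (.f (nat_lit 361) (nat_lit 329) (nat_lit 7497) (.d (nat_lit 360) (nat_lit 359) (nat_lit 359) (nat_lit 396) (nat_lit 360)))))))))))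
noncomputable def s72401 : Cert := .r (nat_lit 3773962425700235452814992716939549212282546458537937235451082837193444090586096829717366601700473583933484404758772985651545337685121537117688221958023344986582769729536) (.p (nat_lit 363) (.a (.f (nat_lit 458) (nat_lit 490) (nat_lit 5482) (.f (nat_lit 428) (nat_lit 429) (nat_lit 1450) (.d (nat_lit 331) (nat_lit 426) (nat_lit 5450) (nat_lit 460) (nat_lit 4427)))) (.a (.f (nat_lit 362) (nat_lit 330) (nat_lit 7498) (.f (nat_lit 394) (nat_lit 491) (nat_lit 7530) (.f (nat_lit 428) (nat_lit 429) (nat_lit 3466) (.f (nat_lit 393) (nat_lit 392) (nat_lit 392) (.f (nat_lit 458) (nat_lit 490) (nat_lit 5482) (.f (nat_lit 457) (nat_lit 456) (nat_lit 2472) (.d (nat_lit 489) (nat_lit 425) (nat_lit 6505) (nat_lit 426) (nat_lit 5481)))))))) (.a (.f (nat_lit 458) (nat_lit 490) (nat_lit 5482) (.f (nat_lit 428) (nat_lit 429) (nat_lit 1450) (.f (nat_lit 331) (nat_lit 460) (nat_lit 4427) (.d (nat_lit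 332) (nat_lit 300) (nat_lit 6443) (nat_lit 364) (nat_lit 6475))))) (.a (.f (nat_lit 458) (nat_lit 490) (nat_lit 5482) (.f (nat_lit 331) (nat_lit 426) (nat_lit 5450) (.d (nat_lit 332) (nat_lit 300) (nat_lit 6443) (nat_lit 364) (nat_lit 6475)))) (.f (nat_lit 362) (nat_lit 330) (nat_lit 7498) (.f (nat_lit 394) (nat_lit 491) (nat_lit 7530) (.f (nat_lit 428) (nat_lit 429) (nat_lit 3466) (.f (nat_lit 331) (nat_lit 460) (nat_lit 4427) (.d (nat_lit 299) (nat_lit 267) (nat_lit 5386) (nat_lit 426) (nat_lit 5418)))))))))))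
noncomputable def s72402 : Cert := .r (nat_lit 3773962425700235452814992716939549212282546458537937235451082837193444090586096829717366601700473583933484404758772985651545337685121537117688221958023344986582769729536) (.p (nat_lit 363) (.a (.f (nat_lit 362) (nat_lit 330) (nat_lit 7498) (.f (nat_lit 364) (nat_lit 332) (nat_lit 6475) (.d (nat_lit 491) (nat_lit 394) (nat_lit 7530) (nat_lit 396) (nat_lit 6507)))) (.a (.f (nat_lit 458) (nat_lit 490) (nat_lit 5482) (.f (nat_lit 428) (nat_lit 429) (nat_lit 1450) (.f (nat_lit 331) (nat_lit 460) (nat_lit 4427) (.d (nat_lit 332) (nat_lit 300) (nat_lit 6443) (nat_lit 364) (nat_lit 6475))))) (.f (nat_lit 362) (nat_lit 330) (nat_lit 7498) (.f (nat_lit 394) (nat_lit 491) (nat_lit 7530) (.f (nat_lit 428) (nat_lit 429) (nat_lit 3466) (.f (nat_lit 331) (nat_lit 460) (nat_lit 4427) (.d (nat_lit 299) (nat_lit 267) (nat_lit 5386) (nat_lit 396) (nat_lit 4395)))))))))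
noncomputable def s72403 : Cert := .r (nat_lit 3773962425700235452814992716939549212282546458537937235451082837193444090586096829717366601700473583933484404758772985651545337685121537117688221958023344986582769729536) (.p (nat_lit 363) (.a (.f (nat_lit 362) (nat_lit 330) (nat_lit 7498) (.f (nat_lit 364) (nat_lit 332) (nat_lit 6475) (.d (nat_lit 491) (nat_lit 394) (nat_lit 7530) (nat_lit 396) (nat_lit 6507)))) (.a (.f (nat_lit 458) (nat_lit 490) (nat_lit 5482) (.f (nat_lit 331) (nat_lit 426) (nat_lit 5450) (.d (nat_lit 332) (nat_lit 300) (nat_lit 6443) (nat_lit 364) (nat_lit 6475)))) (.f (nat_lit 362) (nat_lit 330) (nat_lit 7498) (.f (nat_lit 394) (nat_lit 491) (nat_lit 7530) (.f (nat_lit 458) (nat_lit 490) (nat_lit 5482) (.f (nat_lit 426) (nat_lit 331) (nat_lit 5450) (.f (nat_lit 361) (nat_lit 329) (nat_lit 7497) (.d (nat_lit 360) (nat_lit 359) (nat_lit 359) (nat_lit 396) (nat_lit 360))))))))))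
noncomputable def s72405 : Cert := .r (nat_lit 3773962425700235452814992716939549212282546458537937235451082837193444090586096829717366601700473583933484404758772985651545337685121537117688221958023344986582769729536) (.p (nat_lit 491) (.a (.f (nat_lit 394) (nat_lit 362) (nat_lit 7530) (.f (nat_lit 396) (nat_lit 364) (nat_lit 6507) (.d (nat_lit 429) (nat_lit 397) (nat_lit 394) (nat_lit 428) (nat_lit 3466)))) (.a (.f (nat_lit 396) (nat_lit 364) (nat_lit 6507) (.f (nat_lit 523) (nat_lit 428) (nat_lit 6539) (.d (nat_lit 522) (nat_lit 490) (nat_lit 5514) (nat_lit 554) (nat_lit 5546)))) (.a (.f (nat_lit 394) (nat_lit 362) (nat_lit 7530) (.f (nat_lit 428) (nat_lit 429) (nat_lit 3466) (.d (nat_lit 523) (nat_lit 396) (nat_lit 6539) (nat_lit 426) (nat_lit 7562)))) (.f (nat_lit 394) (nat_lit 362) (nat_lit 7530) (.f (nat_lit 523) (nat_lit 426) (nat_lit 7562) (.d (nat_lit 522) (nat_lit 490) (nat_lit 5514) (nat_lit 554) (nat_lit 5546))))))))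
noncomputable def s72430 : Cert := .r (nat_lit 3773962425700235452814992716939549212282546458537937235451082837193444090586096829717366601700473583933484404758772985651545337685121537117688221958023344986582769729536) (.p (nat_lit 363) (.a (.f (nat_lit 458) (nat_lit 490) (nat_lit 5482) (.f (nat_lit 428) (nat_lit 429) (nat_lit 1450) (.d (nat_lit 331) (nat_lit 426) (nat_lit 5450) (nat_lit 460) (nat_lit 4427)))) (.a (.f (nat_lit 398) (nat_lit 525) (nat_lit 5517) (.f (nat_lit 362) (nat_lit 330) (nat_lit 7498) (.f (nat_lit 396) (nat_lit 397) (nat_lit 3434) (.f (nat_lit 364) (nat_lit 332) (nat_lit 6475) (.f (nat_lit 361) (nat_lit 360) (nat_lit 360) (.f (nat_lit 458) (nat_lit 490) (nat_lit 5482) (.f (nat_lit 393) (nat_lit 392) (nat_lit 1384) (.f (nat_lit 329) (nat_lit 328) (nat_lit 3400) (.d (nat_lit 426) (nat_lit 394) (nat_lit 7497) (nat_lit 425) (nat_lit 4425)))))))))) (.a (.f (nat_lit 458) (nat_lit 490) (nat_lit 5482) (.f (nat_lit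 428) (nat_lit 429) (nat_lit 1450) (.f (nat_lit 331) (nat_lit 460) (nat_lit 4427) (.d (nat_lit 332) (nat_lit 300) (nat_lit 6443) (nat_lit 364) (nat_lit 6475))))) (.f (nat_lit 398) (nat_lit 525) (nat_lit 5517) (.f (nat_lit 362) (nat_lit 330) (nat_lit 7498) (.f (nat_lit 396) (nat_lit 397) (nat_lit 3434) (.f (nat_lit 332) (nat_lit 364) (nat_lit 6475) (.f (nat_lit 331) (nat_lit 300) (nat_lit 6443) (.d (nat_lit 428) (nat_lit 299) (nat_lit 4395) (nat_lit 460) (nat_lit 4427)))))))))))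
noncomputable def s72464 : Cert := .r (nat_lit 3773962425700235452821386057970596364372415969664472944736565750296195204028931289049606559715550550688714833552955121970292636952726001464088095104982155420765903650816) (.p (nat_lit 395) (.a (.f (nat_lit 364) (nat_lit 396) (nat_lit 6507) (.f (nat_lit 363) (nat_lit 332) (nat_lit 6475) (.d (nat_lit 490) (nat_lit 458) (nat_lit 5482) (nat_lit 522) (nat_lit 5514)))) (.a (.f (nat_lit 396) (nat_lit 364) (nat_lit 6507) (.f (nat_lit 428) (nat_lit 523) (nat_lit 6539) (.d (nat_lit 429) (nat_lit 431) (nat_lit 3467) (nat_lit 458) (nat_lit 1450)))) (.a (.f (nat_lit 490) (nat_lit 522) (nat_lit 5514) (.f (nat_lit 458) (nat_lit 363) (nat_lit 5482) (.f (nat_lit 428) (nat_lit 429) (nat_lit 1450) (.f (nat_lit 523) (nat_lit 396) (nat_lit 6539) (.d (nat_lit 555) (nat_lit 460) (nat_lit 6571) (nat_lit 587) (nat_lit 7626)))))) (.a (.f (nat_lit 490) (nat_lit 522) (nat_lit 5514) (.f (nat_lit 363) (nat_lit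 458) (nat_lit 5482) (.d (nat_lit 362) (nat_lit 330) (nat_lit 7498) (nat_lit 394) (nat_lit 7530)))) (.f (nat_lit 396) (nat_lit 364) (nat_lit 6507) (.f (nat_lit 523) (nat_lit 428) (nat_lit 6539) (.d (nat_lit 522) (nat_lit 490) (nat_lit 5514) (nat_lit 554) (nat_lit 5546)))))))))
noncomputable def s72481 : Cert := .r (nat_lit 3773962425700235452821386057970596364372415969664472944736565750296195204028931289049606559715550550688714833552955121970292636952726001464088095104982155420765903650816) (.p (nat_lit 395) (.a (.f (nat_lit 364) (nat_lit 396) (nat_lit 6507) (.f (nat_lit 363) (nat_lit 332) (nat_lit 6475) (.d (nat_lit 490) (nat_lit 458) (nat_lit 5482) (nat_lit 522) (nat_lit 5514)))) (.a (.f (nat_lit 490) (nat_lit 522) (nat_lit 5514) (.f (nat_lit 363) (nat_lit 458) (nat_lit 5482) (.d (nat_lit 362) (nat_lit 330) (nat_lit 7498) (nat_lit 394) (nat_lit 7530)))) (.a (.f (nat_lit 394) (nat_lit 362) (nat_lit 7530) (.f (nat_lit 428)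 (nat_lit 429) (nat_lit 3466) (.f (nat_lit 396) (nat_lit 364) (nat_lit 6507) (.f (nat_lit 393) (nat_lit 392) (nat_lit 392) (.f (nat_lit 425) (nat_lit 424) (nat_lit 1416) (.f (nat_lit 361) (nat_lit 360) (nat_lit 3432) (.f (nat_lit 490) (nat_lit 522) (nat_lit 5514) (.d (nat_lit 458) (nat_lit 426) (nat_lit 7529) (nat_lit 457) (nat_lit 4457))))))))) (.f (nat_lit 394) (nat_lit 362) (nat_lit 7530) (.f (nat_lit 428) (nat_lit 429) (nat_lit 3466) (.f (nat_lit 364) (nat_lit 396) (nat_lit 6507) (.f (nat_lit 363) (nat_lit 332) (nat_lit 6475) (.f (nat_lit 331) (nat_lit 460) (nat_lit 4427) (.f (nat_lit 299) (nat_lit 426) (nat_lit 5418) (.d (nat_lit 298) (nat_lit 266) (nat_lit 7434) (nat_lit 330) (nat_lit 7466))))))))))))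
noncomputable def s72695 : Cert := .r (nat_lit 3773962425700235452738272624565494821501953677783736760184991693802209016338713539253996253139943116648435644709291382406975779266383902939122698046500512738808344608768) (.p (nat_lit 366) (.a (.f (nat_lit 367) (nat_lit 335) (nat_lit 6478) (.f (nat_lit 494) (nat_lit 399) (nat_lit 6510) (.f (nat_lit 527) (nat_lit 495) (nat_lit 4494) (.f (nat_lit 526) (nat_lit 559) (nat_lit 4526) (.d (nat_lit 525) (nat_lit 493) (nat_lit 5517) (nat_lit 561) (nat_lit 525)))))) (.a (.f (nat_lit 333) (nat_lit 365) (nat_lit 7501) (.f (nat_lit 334) (nat_lit 301) (nat_lit 7469) (.f (nat_lit 399) (nat_lit 302) (nat_lit 4398) (.d (nat_lit 494) (nat_lit 367) (nat_lit 6510) (nat_lit 526) (nat_lit 6542))))) (.a (.f (nat_lit 333) (nat_lit 365) (nat_lit 7501) (.f (nat_lit 334) (nat_lit 301) (nat_lit 7469) (.f (nat_lit 303) (nat_lit 335) (nat_lit 6446) (.d (nat_lit 302) (nat_lit 271) (nat_lit 6414) (nat_lit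 399) (nat_lit 4398))))) (.f (nat_lit 333) (nat_lit 365) (nat_lit 7501) (.f (nat_lit 334) (nat_lit 301) (nat_lit 7469) (.d (nat_lit 335) (nat_lit 303) (nat_lit 6446) (nat_lit 367) (nat_lit 6478))))))))
noncomputable def s72925 : Cert := .r (nat_lit 3773962425700235452795812693846407756012591341446887786971947659685879854691164273570515963807450026659320123132318454445175548230873832300386445844706226134051339632640) (.p (nat_lit 523) (.a (.p (nat_lit 427) (.a (.f (nat_lit 522) (nat_lit 554) (nat_lit 5546) (.f (nat_lit 492) (nat_lit 493) (nat_lit 1514) (.d (nat_lit 395) (nat_lit 490) (nat_lit 5514) (nat_lit 524) (nat_lit 4491)))) (.a (.f (nat_lit 556) (nat_lit 524) (nat_lit 4523) (.f (nat_lit 555) (nat_lit 588) (nat_lit 4555) (.d (nat_lit 426) (nat_lit 394) (nat_lit 7562) (nat_lit 458) (nat_lit 7594)))) (.f (nat_lit 522) (nat_lit 554) (nat_lit 5546) (.f (nat_lit 395) (nat_lit 490) (nat_lit 5514) (.d (nat_lit 396) (nat_lit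 364) (nat_lit 6507) (nat_lit 428) (nat_lit 6539))))))) (.a (.f (nat_lit 527) (nat_lit 495) (nat_lit 4494) (.f (nat_lit 526) (nat_lit 559) (nat_lit 4526) (.f (nat_lit 493) (nat_lit 492) (nat_lit 491) (.f (nat_lit 461) (nat_lit 366) (nat_lit 5485) (.f (nat_lit 558) (nat_lit 590) (nat_lit 7629) (.f (nat_lit 557) (nat_lit 589) (nat_lit 5581) (.f (nat_lit 555) (nat_lit 556) (nat_lit 2571) (.f (nat_lit 554) (nat_lit 586) (nat_lit 5578) (.f (nat_lit 427) (nat_lit 522) (nat_lit 5546) (.d (nat_lit 426) (nat_lit 394) (nat_lit 7562) (nat_lit 458) (nat_lit 7594))))))))))) (.a s71629 (.a (.f (nat_lit 527) (nat_lit 495) (nat_lit 4494) (.f (nat_lit 526) (nat_lit 559) (nat_lit 4526) (.f (nat_lit 493) (nat_lit 492) (nat_lit 491) (.f (nat_lit 461) (nat_lit 366) (nat_lit 5485) (.f (nat_lit 558) (nat_lit 590) (nat_lit 7629) (.f (nat_lit 557) (nat_lit 589) (nat_lit 5581) (.f (nat_lit 555) (nat_lit 556) (nat_lit 2571) (.f (nat_lit 586) (nat_lit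 554) (nat_lit 5578) (.f (nat_lit 587) (nat_lit 618) (nat_lit 5610) (.f (nat_lit 620) (nat_lit 588) (nat_lit 4587) (.f (nat_lit 619) (nat_lit 652) (nat_lit 4619) (.d (nat_lit 490) (nat_lit 458) (nat_lit 7626) (nat_lit 522) (nat_lit 7658))))))))))))) (.a (.f (nat_lit 527) (nat_lit 495) (nat_lit 4494) (.f (nat_lit 526) (nat_lit 559) (nat_lit 4526) (.f (nat_lit 493) (nat_lit 492) (nat_lit 491) (.f (nat_lit 461) (nat_lit 366) (nat_lit 5485) (.f (nat_lit 558) (nat_lit 590) (nat_lit 7629) (.f (nat_lit 557) (nat_lit 589) (nat_lit 5581) (.f (nat_lit 555) (nat_lit 556) (nat_lit 2571) (.f (nat_lit 554) (nat_lit 586) (nat_lit 5578) (.f (nat_lit 427) (nat_lit 522) (nat_lit 5546) (.f (nat_lit 396) (nat_lit 428) (nat_lit 6539) (.f (nat_lit 395) (nat_lit 364) (nat_lit 6507) (.d (nat_lit 394) (nat_lit 362) (nat_lit 7530) (nat_lit 426) (nat_lit 7562))))))))))))) (.a (.p (nat_lit 427) (.a (.f (nat_lit 556) (nat_lit 524) (nat_lit 4523) (.f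 (nat_lit 555) (nat_lit 588) (nat_lit 4555) (.d (nat_lit 426) (nat_lit 394) (nat_lit 7562) (nat_lit 458) (nat_lit 7594)))) (.f (nat_lit 522) (nat_lit 554) (nat_lit 5546) (.f (nat_lit 395) (nat_lit 490) (nat_lit 5514) (.d (nat_lit 396) (nat_lit 364) (nat_lit 6507) (nat_lit 428) (nat_lit 6539)))))) (.a (.f (nat_lit 527) (nat_lit 495) (nat_lit 4494) (.f (nat_lit 526) (nat_lit 559) (nat_lit 4526) (.f (nat_lit 493) (nat_lit 492) (nat_lit 491) (.f (nat_lit 461) (nat_lit 366) (nat_lit 5485) (.f (nat_lit 558) (nat_lit 590) (nat_lit 7629) (.f (nat_lit 557) (nat_lit 589) (nat_lit 5581) (.f (nat_lit 555) (nat_lit 556) (nat_lit 2571) (.f (nat_lit 458) (nat_lit 426) (nat_lit 7594) (.f (nat_lit 587) (nat_lit 490) (nat_lit 7626) (.d (nat_lit 586) (nat_lit 554) (nat_lit 5578) (nat_lit 618) (nat_lit 5610))))))))))) (.a s71665 (.a s71674 s71689))))))))))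
noncomputable def s73214 : Cert := .r (nat_lit 3773962425700235452738272624565494821496408338395495130465834865433922848931840665103244619989602157487206402093680131160895830454175623782927915624577705595150396293120) (.p (nat_lit 366) (.a (.f (nat_lit 461) (nat_lit 493) (nat_lit 5485) (.f (nat_lit 334) (nat_lit 429) (nat_lit 5453) (.d (nat_lit 335) (nat_lit 303) (nat_lit 6446) (nat_lit 367) (nat_lit 6478)))) (.a (.f (nat_lit 461) (nat_lit 493) (nat_lit 5485) (.f (nat_lit 334) (nat_lit 429) (nat_lit 5453) (.d (nat_lit 333) (nat_lit 301) (nat_lit 7469) (nat_lit 365) (nat_lit 7501)))) (.a (.f (nat_lit 365) (nat_lit 333) (nat_lit 7501) (.p (nat_lit 364) (.a (.f (nat_lit 367) (nat_lit 335) (nat_lit 6478) (.d (nat_lit 399) (nat_lit 363) (nat_lit 363) (nat_lit 400) (nat_lit 364))) (.a (.f (nat_lit 363) (nat_lit 399) (nat_lit 363) (.f (nat_lit 362) (nat_lit 397) (nat_lit 362) (.d (nat_lit 394) (nat_lit 393) (nat_lit 1385) (nat_lit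 395) (nat_lit 1386)))) (.a (.f (nat_lit 367) (nat_lit 335) (nat_lit 6478) (.f (nat_lit 399) (nat_lit 400) (nat_lit 364) (.f (nat_lit 396) (nat_lit 395) (nat_lit 1387) (.f (nat_lit 368) (nat_lit 397) (nat_lit 1388) (.f (nat_lit 369) (nat_lit 370) (nat_lit 1390) (.d (nat_lit 337) (nat_lit 336) (nat_lit 2381) (nat_lit 338) (nat_lit 2382))))))) (.f (nat_lit 367) (nat_lit 335) (nat_lit 6478) (.f (nat_lit 396) (nat_lit 395) (nat_lit 1387) (.f (nat_lit 397) (nat_lit 368) (nat_lit 1388) (.f (nat_lit 332) (nat_lit 331) (nat_lit 3403) (.d (nat_lit 300) (nat_lit 268) (nat_lit 4364) (nat_lit 429) (nat_lit 4396))))))))))) (.f (nat_lit 335) (nat_lit 367) (nat_lit 6478) (.f (nat_lit 334) (nat_lit 303) (nat_lit 6446) (.d (nat_lit 333) (nat_lit 301) (nat_lit 7469) (nat_lit 365) (nat_lit 7501))))))))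
noncomputable def s73361 : Cert := .r (nat_lit 3773962425700235452738272624565494821496408338394849567997365285363591546424934399442023816529659157390909664556621835610638049798769557027279618317995106181115516289024) (.p (nat_lit 369) (.a (.f (nat_lit 337) (nat_lit 338) (nat_lit 2382) (.f (nat_lit 401) (nat_lit 402) (nat_lit 366) (.d (nat_lit 365) (nat_lit 336) (nat_lit 2381) (nat_lit 400) (nat_lit 365)))) (.a (.f (nat_lit 401) (nat_lit 402) (nat_lit 366) (.f (nat_lit 400) (nat_lit 365) (nat_lit 365) (.d (nat_lit 337) (nat_lit 338) (nat_lit 2382) (nat_lit 432) (nat_lit 6480)))) (.a (.f (nat_lit 401) (nat_lit 402) (nat_lit 366) (.f (nat_lit 397) (nat_lit 398) (nat_lit 1389) (.d (nat_lit 365) (nat_lit 396) (nat_lit 1388) (nat_lit 400) (nat_lit 365)))) (.a (.f (nat_lit 337) (nat_lit 338) (nat_lit 2382) (.f (nat_lit 401) (nat_lit 402) (nat_lit 366) (.d (nat_lit 432) (nat_lit 400) (nat_lit 6480) (nat_lit 433) (nat_lit 5456))))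 (.a (.f (nat_lit 337) (nat_lit 338) (nat_lit 2382) (.f (nat_lit 401) (nat_lit 402) (nat_lit 366) (.f (nat_lit 336) (nat_lit 365) (nat_lit 2381) (.d (nat_lit 433) (nat_lit 304) (nat_lit 7472) (nat_lit 432) (nat_lit 5456))))) (.f (nat_lit 337) (nat_lit 338) (nat_lit 2382) (.f (nat_lit 397) (nat_lit 398) (nat_lit 1389) (.d (nat_lit 365) (nat_lit 336) (nat_lit 2381) (nat_lit 396) (nat_lit 1388))))))))))
noncomputable def s73380 : Cert := .r (nat_lit 3773962425700235452738272624565494821496408338394849567997214978638294021098349472683829298959907113707779532084896568988459988421162222086897941582098480984121472450560) (.p (nat_lit 398) (.a (.f (nat_lit 399) (nat_lit 494) (nat_lit 6510) (.d (nat_lit 335) (nat_lit 366) (nat_lit 6478) (nat_lit 431) (nat_lit 5454))) (.a (.f (nat_lit 399) (nat_lit 494) (nat_lit 6510) (.f (nat_lit 397) (nat_lit 396) (nat_lit 2412) (.d (nat_lit 369) (nat_lit 366) (nat_lit 1389) (nat_lit 370) (nat_lit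 1390)))) (.a (.f (nat_lit 399) (nat_lit 494) (nat_lit 6510) (.d (nat_lit 335) (nat_lit 303) (nat_lit 5422) (nat_lit 431) (nat_lit 5454))) (.f (nat_lit 366) (nat_lit 335) (nat_lit 6478) (.f (nat_lit 369) (nat_lit 397) (nat_lit 1389) (.f (nat_lit 337) (nat_lit 338) (nat_lit 2382) (.f (nat_lit 401) (nat_lit 402) (nat_lit 366) (.d (nat_lit 432) (nat_lit 400) (nat_lit 6480) (nat_lit 433) (nat_lit 5456))))))))))
noncomputable def s73449 : Cert := .r (nat_lit 3773962425700235452738272624565494821496408338394849567998417432440674223711028886749385439517923463172820591858698701965884479442020901609951355469271482560073823158272) (.p (nat_lit 370) (.a (.f (nat_lit 335) (nat_lit 334) (nat_lit 3406) (.f (nat_lit 400) (nat_lit 432) (nat_lit 7503) (.d (nat_lit 371) (nat_lit 336) (nat_lit 3407) (nat_lit 399) (nat_lit 1391)))) (.a (.f (nat_lit 402) (nat_lit 403) (nat_lit 367) (.f (nat_lit 401) (nat_lit 366) (nat_lit 366) (.f (nat_lit 338)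 (nat_lit 339) (nat_lit 2383) (.f (nat_lit 433) (nat_lit 465) (nat_lit 6481) (.d (nat_lit 432) (nat_lit 337) (nat_lit 5456) (nat_lit 431) (nat_lit 2446)))))) (.f (nat_lit 402) (nat_lit 403) (nat_lit 367) (.f (nat_lit 401) (nat_lit 366) (nat_lit 366) (.f (nat_lit 335) (nat_lit 334) (nat_lit 3406) (.f (nat_lit 371) (nat_lit 336) (nat_lit 3407) (.d (nat_lit 399) (nat_lit 400) (nat_lit 2415) (nat_lit 431) (nat_lit 5454)))))))))
noncomputable def s73459 : Cert := .r (nat_lit 3773962425700235452738272624565494821496408338394849567998417432440674223711028886749385439517923463172820591858698701965884479442020901609951355469271482560073823158272) (.p (nat_lit 370) (.a (.f (nat_lit 402) (nat_lit 403) (nat_lit 367) (.f (nat_lit 401) (nat_lit 366) (nat_lit 366) (.f (nat_lit 338) (nat_lit 339) (nat_lit 2383) (.d (nat_lit 306) (nat_lit 274) (nat_lit 5393) (nat_lit 433) (nat_lit 5425))))) (.a (.f (nat_lit 402) (nat_lit 403) (nat_lit 367)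 (.f (nat_lit 401) (nat_lit 366) (nat_lit 366) (.f (nat_lit 338) (nat_lit 339) (nat_lit 2383) (.d (nat_lit 433) (nat_lit 306) (nat_lit 5425) (nat_lit 465) (nat_lit 6481))))) (.a (.f (nat_lit 402) (nat_lit 403) (nat_lit 367) (.f (nat_lit 401) (nat_lit 366) (nat_lit 366) (.f (nat_lit 338) (nat_lit 339) (nat_lit 2383) (.f (nat_lit 433) (nat_lit 465) (nat_lit 6481) (.d (nat_lit 432) (nat_lit 337) (nat_lit 5456) (nat_lit 431) (nat_lit 2446)))))) (.a (.f (nat_lit 403) (nat_lit 402) (nat_lit 367) (.f (nat_lit 371) (nat_lit 404) (nat_lit 368) (.f (nat_lit 400) (nat_lit 399) (nat_lit 1391) (.d (nat_lit 432) (nat_lit 335) (nat_lit 7503) (nat_lit 337) (nat_lit 6480))))) (.f (nat_lit 338) (nat_lit 339) (nat_lit 2383) (.f (nat_lit 337) (nat_lit 366) (nat_lit 2382) (.f (nat_lit 400) (nat_lit 432) (nat_lit 6480) (.f (nat_lit 371) (nat_lit 399) (nat_lit 1391) (.d (nat_lit 372) (nat_lit 336) (nat_lit 3408) (nat_lit 401) (nat_lit 1392)))))))))))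
noncomputable def s73479 : Cert := .r (nat_lit 3773962425700235452738272624565494821496408338394849567998417432440674223711028886749385439517923463172820591858698701965884479442020901609951355469271482560073823158272) (.p (nat_lit 370) (.a (.f (nat_lit 402) (nat_lit 403) (nat_lit 367) (.f (nat_lit 401) (nat_lit 366) (nat_lit 366) (.f (nat_lit 338) (nat_lit 339) (nat_lit 2383) (.d (nat_lit 306) (nat_lit 274) (nat_lit 5393) (nat_lit 433) (nat_lit 5425))))) (.a (.f (nat_lit 402) (nat_lit 403) (nat_lit 367) (.f (nat_lit 401) (nat_lit 366) (nat_lit 366) (.f (nat_lit 338) (nat_lit 339) (nat_lit 2383) (.d (nat_lit 433) (nat_lit 306) (nat_lit 5425) (nat_lit 465) (nat_lit 6481))))) (.a (.f (nat_lit 402) (nat_lit 403) (nat_lit 367) (.f (nat_lit 401) (nat_lit 366) (nat_lit 366) (.f (nat_lit 338) (nat_lit 339) (nat_lit 2383) (.f (nat_lit 433) (nat_lit 465) (nat_lit 6481) (.d (nat_lit 432) (nat_lit 337) (nat_lit 5456) (nat_lit 431)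 (nat_lit 2446)))))) (.a (.f (nat_lit 403) (nat_lit 402) (nat_lit 367) (.f (nat_lit 371) (nat_lit 404) (nat_lit 368) (.f (nat_lit 400) (nat_lit 399) (nat_lit 1391) (.d (nat_lit 432) (nat_lit 335) (nat_lit 7503) (nat_lit 337) (nat_lit 6480))))) (.f (nat_lit 335) (nat_lit 334) (nat_lit 3406) (.f (nat_lit 400) (nat_lit 432) (nat_lit 7503) (.d (nat_lit 399) (nat_lit 371) (nat_lit 1391) (nat_lit 431) (nat_lit 5454)))))))))
noncomputable def s73497 : Cert := .r (nat_lit 3773962425700235452738272624565494821496408338394849567998417432440674223711028886749385439517923463172820591858698701965884479442020901609951355469271482560073823158272) (.p (nat_lit 335) (.a (.f (nat_lit 400) (nat_lit 432) (nat_lit 7503) (.f (nat_lit 399) (nat_lit 431) (nat_lit 5454) (.d (nat_lit 370) (nat_lit 334) (nat_lit 3406) (nat_lit 371) (nat_lit 1391)))) (.a (.f (nat_lit 400) (nat_lit 432) (nat_lit 7503) (.f (nat_lit 399) (nat_lit 431) (nat_lit 5454) (.f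 (nat_lit 370) (nat_lit 371) (nat_lit 1391) (.f (nat_lit 402) (nat_lit 403) (nat_lit 367) (.f (nat_lit 401) (nat_lit 366) (nat_lit 366) (.f (nat_lit 434) (nat_lit 435) (nat_lit 399) (.d (nat_lit 337) (nat_lit 305) (nat_lit 4401) (nat_lit 466) (nat_lit 7505)))))))) (.a (.f (nat_lit 432) (nat_lit 400) (nat_lit 7503) (.f (nat_lit 431) (nat_lit 399) (nat_lit 4431) (.f (nat_lit 465) (nat_lit 429) (nat_lit 429) (.d (nat_lit 466) (nat_lit 433) (nat_lit 430) (nat_lit 467) (nat_lit 3503))))) (.f (nat_lit 370) (nat_lit 334) (nat_lit 3406) (.f (nat_lit 371) (nat_lit 336) (nat_lit 3407) (.d (nat_lit 403) (nat_lit 402) (nat_lit 367) (nat_lit 404) (nat_lit 368))))))))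
noncomputable def s73507 : Cert := .r (nat_lit 3773962425700235452738272624565494821496408338394849567998417432440674223711028886749385439517923463172820591858698701965884479442020901609951355469271482560073823158272) (.p (nat_lit 370) (.a (.f (nat_lit 335) (nat_lit 334) (nat_lit 3406) (.f (nat_lit 400) (nat_lit 432) (nat_lit 7503) (.d (nat_lit 371) (nat_lit 336) (nat_lit 3407) (nat_lit 399) (nat_lit 1391)))) (.a (.f (nat_lit 403) (nat_lit 402) (nat_lit 367) (.f (nat_lit 371) (nat_lit 404) (nat_lit 368) (.f (nat_lit 400) (nat_lit 399) (nat_lit 1391) (.d (nat_lit 432) (nat_lit 335) (nat_lit 7503) (nat_lit 337) (nat_lit 6480))))) (.a (.f (nat_lit 403) (nat_lit 402) (nat_lit 367) (.f (nat_lit 371) (nat_lit 404) (nat_lit 368) (.f (nat_lit 400) (nat_lit 399) (nat_lit 1391) (.f (nat_lit 372) (nat_lit 401) (nat_lit 1392) (.d (nat_lit 340) (nat_lit 339) (nat_lit 2384) (nat_lit 341) (nat_lit 2385)))))) (.a (.f (nat_lit 335) (nat_lit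 334) (nat_lit 3406) (.f (nat_lit 432) (nat_lit 400) (nat_lit 7503) (.f (nat_lit 431) (nat_lit 399) (nat_lit 5454) (.f (nat_lit 402) (nat_lit 403) (nat_lit 367) (.f (nat_lit 433) (nat_lit 401) (nat_lit 2446) (.d (nat_lit 465) (nat_lit 429) (nat_lit 429) (nat_lit 466) (nat_lit 430))))))) (.f (nat_lit 335) (nat_lit 334) (nat_lit 3406) (.f (nat_lit 371) (nat_lit 336) (nat_lit 3407) (.d (nat_lit 339) (nat_lit 338) (nat_lit 2383) (nat_lit 340) (nat_lit 2384)))))))))
noncomputable def s73514 : Cert := .r (nat_lit 3773962425700235452738272624565494821496408338394849567998417432440674223711028886749385439517923463172820591858698701965884479442020901609951355469271482560073823158272) (.p (nat_lit 370) (.a (.f (nat_lit 402) (nat_lit 403) (nat_lit 367) (.f (nat_lit 401) (nat_lit 366) (nat_lit 366) (.f (nat_lit 338) (nat_lit 339) (nat_lit 2383) (.d (nat_lit 306) (nat_lit 274) (nat_lit 5393) (nat_lit 433) (nat_lit 5425))))) (.a (.f (nat_lit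 402) (nat_lit 403) (nat_lit 367) (.f (nat_lit 401) (nat_lit 366) (nat_lit 366) (.f (nat_lit 338) (nat_lit 339) (nat_lit 2383) (.d (nat_lit 433) (nat_lit 306) (nat_lit 5425) (nat_lit 465) (nat_lit 6481))))) (.a (.f (nat_lit 402) (nat_lit 403) (nat_lit 367) (.f (nat_lit 401) (nat_lit 366) (nat_lit 366) (.f (nat_lit 338) (nat_lit 339) (nat_lit 2383) (.f (nat_lit 433) (nat_lit 465) (nat_lit 6481) (.d (nat_lit 432) (nat_lit 337) (nat_lit 5456) (nat_lit 431) (nat_lit 2446)))))) (.a (.f (nat_lit 335) (nat_lit 334) (nat_lit 3406) (.f (nat_lit 371) (nat_lit 336) (nat_lit 3407) (.d (nat_lit 403) (nat_lit 402) (nat_lit 367) (nat_lit 404) (nat_lit 368)))) (.f (nat_lit 335) (nat_lit 334) (nat_lit 3406) (.f (nat_lit 371) (nat_lit 336) (nat_lit 3407) (.d (nat_lit 339) (nat_lit 338) (nat_lit 2383) (nat_lit 340) (nat_lit 2384)))))))))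
noncomputable def s73518 : Cert := .r (nat_lit 3773962425700235452738272624565494821496408338394849567998417432440674223711028886749385439517923463172820591858698701965884479442020901609951355469271482560073823158272) (.p (nat_lit 370) (.a (.f (nat_lit 402) (nat_lit 403) (nat_lit 367) (.f (nat_lit 401) (nat_lit 366) (nat_lit 366) (.f (nat_lit 338) (nat_lit 339) (nat_lit 2383) (.d (nat_lit 306) (nat_lit 274) (nat_lit 5393) (nat_lit 433) (nat_lit 5425))))) (.a (.f (nat_lit 402) (nat_lit 403) (nat_lit 367) (.f (nat_lit 401) (nat_lit 366) (nat_lit 366) (.f (nat_lit 338) (nat_lit 339) (nat_lit 2383) (.d (nat_lit 433) (nat_lit 306) (nat_lit 5425) (nat_lit 465) (nat_lit 6481))))) (.a (.f (nat_lit 402) (nat_lit 403) (nat_lit 367) (.f (nat_lit 401) (nat_lit 366) (nat_lit 366) (.f (nat_lit 335) (nat_lit 334) (nat_lit 3406) (.f (nat_lit 371) (nat_lit 336) (nat_lit 3407) (.d (nat_lit 399) (nat_lit 400) (nat_lit 2415) (nat_lit 431)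 (nat_lit 5454)))))) (.a (.f (nat_lit 403) (nat_lit 402) (nat_lit 367) (.f (nat_lit 371) (nat_lit 404) (nat_lit 368) (.f (nat_lit 400) (nat_lit 399) (nat_lit 1391) (.f (nat_lit 372) (nat_lit 401) (nat_lit 1392) (.d (nat_lit 340) (nat_lit 339) (nat_lit 2384) (nat_lit 341) (nat_lit 2385)))))) (.a (.f (nat_lit 338) (nat_lit 339) (nat_lit 2383) (.f (nat_lit 337) (nat_lit 366) (nat_lit 2382) (.f (nat_lit 402) (nat_lit 403) (nat_lit 367) (.d (nat_lit 305) (nat_lit 273) (nat_lit 4369) (nat_lit 434) (nat_lit 7473))))) (.f (nat_lit 335) (nat_lit 334) (nat_lit 3406) (.f (nat_lit 371) (nat_lit 336) (nat_lit 3407) (.d (nat_lit 339) (nat_lit 338) (nat_lit 2383) (nat_lit 340) (nat_lit 2384))))))))))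
noncomputable def s73519 : Cert := .r (nat_lit 3773962425700235452738272624565494821496408338394849567998417432440674223711028886749385439517923463172820591858698701965884479442020901609951355469271482560073823158272) (.p (nat_lit 370) (.a (.f (nat_lit 335) (nat_lit 334) (nat_lit 3406) (.f (nat_lit 400) (nat_lit 432) (nat_lit 7503) (.d (nat_lit 371) (nat_lit 336) (nat_lit 3407) (nat_lit 399) (nat_lit 1391)))) (.a (.f (nat_lit 403) (nat_lit 402) (nat_lit 367) (.f (nat_lit 371) (nat_lit 404) (nat_lit 368) (.f (nat_lit 400) (nat_lit 399) (nat_lit 1391) (.d (nat_lit 432) (nat_lit 335) (nat_lit 7503) (nat_lit 337) (nat_lit 6480))))) (.a (.f (nat_lit 338) (nat_lit 339) (nat_lit 2383) (.f (nat_lit 337) (nat_lit 366) (nat_lit 2382) (.f (nat_lit 400) (nat_lit 432) (nat_lit 6480) (.f (nat_lit 371) (nat_lit 399) (nat_lit 1391) (.d (nat_lit 372) (nat_lit 336) (nat_lit 3408) (nat_lit 401) (nat_lit 1392)))))) (.f (nat_lit 338) (nat_lit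 339) (nat_lit 2383) (.f (nat_lit 337) (nat_lit 366) (nat_lit 2382) (.f (nat_lit 402) (nat_lit 403) (nat_lit 367) (.d (nat_lit 305) (nat_lit 273) (nat_lit 4369) (nat_lit 434) (nat_lit 7473)))))))))
noncomputable def s73656 : Cert := .r (nat_lit 3773962425700235452738272624565494821496408338394849567996839211825050207781887155788343005035527004499954200905583402433014834977143884735943749742356917991636362854400) (.p (nat_lit 368) (.a (.f (nat_lit 400) (nat_lit 401) (nat_lit 365) (.f (nat_lit 399) (nat_lit 364) (nat_lit 364) (.f (nat_lit 336) (nat_lit 337) (nat_lit 2381) (.d (nat_lit 304) (nat_lit 272) (nat_lit 5391) (nat_lit 431) (nat_lit 5423))))) (.a (.f (nat_lit 337) (nat_lit 336) (nat_lit 2381) (.f (nat_lit 369) (nat_lit 338) (nat_lit 2382) (.d (nat_lit 401) (nat_lit 400) (nat_lit 365) (nat_lit 402) (nat_lit 366)))) (.a (.f (nat_lit 400) (nat_lit 401) (nat_lit 365) (.f (nat_lit 364) (nat_lit 399) (nat_lit 364) (.d (nat_lit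 332) (nat_lit 331) (nat_lit 3403) (nat_lit 333) (nat_lit 3404)))) (.f (nat_lit 333) (nat_lit 332) (nat_lit 3404) (.f (nat_lit 369) (nat_lit 334) (nat_lit 3405) (.d (nat_lit 337) (nat_lit 336) (nat_lit 2381) (nat_lit 338) (nat_lit 2382))))))))
noncomputable def s73887 : Cert := .r (nat_lit 3773962425700235452738272624565494821496408338394930263305397909333863493102498269115239330490291055725644824792024621501161315265133742610391780664911978050160953393152) (.p (nat_lit 299) (.a (.f (nat_lit 394) (nat_lit 426) (nat_lit 5418) (.f (nat_lit 429) (nat_lit 397) (nat_lit 4429) (.d (nat_lit 428) (nat_lit 396) (nat_lit 4395) (nat_lit 427) (nat_lit 3466)))) (.a (.f (nat_lit 428) (nat_lit 396) (nat_lit 4395) (.f (nat_lit 429) (nat_lit 397) (nat_lit 4429) (.f (nat_lit 427) (nat_lit 460) (nat_lit 4427) (.d (nat_lit 458) (nat_lit 426) (nat_lit 5450) (nat_lit 459) (nat_lit 1450))))) (.a (.f (nat_lit 394) (nat_lit 426) (nat_lit 5418) (.f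 (nat_lit 267) (nat_lit 362) (nat_lit 5386) (.d (nat_lit 268) (nat_lit 236) (nat_lit 6379) (nat_lit 300) (nat_lit 6411)))) (.f (nat_lit 429) (nat_lit 397) (nat_lit 4429) (.f (nat_lit 428) (nat_lit 396) (nat_lit 4395) (.d (nat_lit 427) (nat_lit 394) (nat_lit 3466) (nat_lit 460) (nat_lit 4427))))))))
noncomputable def s73888 : Cert := .r (nat_lit 3773962425700235452738272624565494821496408338394930263305397909333863493102498269115239330490291055725644824792024621501161315265133742610391780664911978050160953393152) (.p (nat_lit 299) (.a (.f (nat_lit 394) (nat_lit 426) (nat_lit 5418) (.f (nat_lit 429) (nat_lit 397) (nat_lit 4429) (.d (nat_lit 428) (nat_lit 396) (nat_lit 4395) (nat_lit 427) (nat_lit 3466)))) (.a (.f (nat_lit 428) (nat_lit 396) (nat_lit 4395) (.f (nat_lit 427) (nat_lit 460) (nat_lit 4427) (.d (nat_lit 298) (nat_lit 266) (nat_lit 7434) (nat_lit 330) (nat_lit 7466)))) (.a (.f (nat_lit 298) (nat_lit 266) (nat_lit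 7434) (.f (nat_lit 427) (nat_lit 330) (nat_lit 7466) (.d (nat_lit 426) (nat_lit 394) (nat_lit 5418) (nat_lit 458) (nat_lit 5450)))) (.f (nat_lit 266) (nat_lit 298) (nat_lit 7434) (.f (nat_lit 267) (nat_lit 234) (nat_lit 7402) (.d (nat_lit 268) (nat_lit 236) (nat_lit 6379) (nat_lit 300) (nat_lit 6411))))))))
noncomputable def s73889 : Cert := .r (nat_lit 3773962425700235452738272624565494821496408338394930263305397909333863493102498269115239330490291055725644824792024621501161315265133742610391780664911978050160953393152) (.p (nat_lit 299) (.a (.f (nat_lit 428) (nat_lit 396) (nat_lit 4395) (.f (nat_lit 427) (nat_lit 460) (nat_lit 4427) (.d (nat_lit 298) (nat_lit 266) (nat_lit 7434) (nat_lit 330) (nat_lit 7466)))) (.a (.f (nat_lit 429) (nat_lit 397) (nat_lit 4429) (.f (nat_lit 428) (nat_lit 396) (nat_lit 4395) (.d (nat_lit 427) (nat_lit 394) (nat_lit 3466) (nat_lit 460) (nat_lit 4427)))) (.a (.f (nat_lit 298) (nat_lit 266)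 (nat_lit 7434) (.f (nat_lit 427) (nat_lit 330) (nat_lit 7466) (.f (nat_lit 429) (nat_lit 397) (nat_lit 4429) (.d (nat_lit 428) (nat_lit 394) (nat_lit 3466) (nat_lit 460) (nat_lit 4427))))) (.f (nat_lit 266) (nat_lit 298) (nat_lit 7434) (.f (nat_lit 267) (nat_lit 234) (nat_lit 7402) (.d (nat_lit 268) (nat_lit 236) (nat_lit 6379) (nat_lit 300) (nat_lit 6411))))))))
noncomputable def s73899 : Cert := .r (nat_lit 3773962425700235452738272624565494821496408338394930263305397909333863493102498269115239330490291055725644824792024621501161315265133742610391780664911978050160953393152) (.p (nat_lit 299) (.a (.f (nat_lit 394) (nat_lit 426) (nat_lit 5418) (.f (nat_lit 267) (nat_lit 362) (nat_lit 5386) (.d (nat_lit 268) (nat_lit 236) (nat_lit 6379) (nat_lit 300) (nat_lit 6411)))) (.a (.f (nat_lit 298) (nat_lit 266) (nat_lit 7434) (.f (nat_lit 427) (nat_lit 330) (nat_lit 7466) (.d (nat_lit 426) (nat_lit 394) (nat_lit 5418) (nat_lit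 458) (nat_lit 5450)))) (.f (nat_lit 298) (nat_lit 266) (nat_lit 7434) (.f (nat_lit 330) (nat_lit 427) (nat_lit 7466) (.f (nat_lit 268) (nat_lit 300) (nat_lit 6411) (.f (nat_lit 267) (nat_lit 236) (nat_lit 6379) (.d (nat_lit 235) (nat_lit 203) (nat_lit 5322) (nat_lit 362) (nat_lit 5354)))))))))
noncomputable def s73900 : Cert := .r (nat_lit 3773962425700235452738272624565494821496408338394849567996707693440436745628373174994166527184265142490868866687132726262973288977801566193101776357679606076036805033984) (.p (nat_lit 395) (.a (.p (nat_lit 427) (.a (.f (nat_lit 428) (nat_lit 460) (nat_lit 4427) (.d (nat_lit 429) (nat_lit 394) (nat_lit 3466) (nat_lit 397) (nat_lit 4429))) (.a (.f (nat_lit 460) (nat_lit 428) (nat_lit 4427) (.f (nat_lit 459) (nat_lit 492) (nat_lit 4459) (.d (nat_lit 458) (nat_lit 426) (nat_lit 5450) (nat_lit 490) (nat_lit 5482)))) (.f (nat_lit 458) (nat_lit 426) (nat_lit 5450) (.f (nat_lit 459) (nat_lit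 490) (nat_lit 5482) (.d (nat_lit 330) (nat_lit 298) (nat_lit 7466) (nat_lit 362) (nat_lit 7498))))))) (.a s73887 (.a s73888 (.a (.p (nat_lit 427) (.a (.f (nat_lit 428) (nat_lit 460) (nat_lit 4427) (.f (nat_lit 429) (nat_lit 397) (nat_lit 4429) (.d (nat_lit 396) (nat_lit 299) (nat_lit 4395) (nat_lit 431) (nat_lit 3467)))) (.a (.f (nat_lit 460) (nat_lit 428) (nat_lit 4427) (.f (nat_lit 459) (nat_lit 492) (nat_lit 4459) (.d (nat_lit 458) (nat_lit 426) (nat_lit 5450) (nat_lit 490) (nat_lit 5482)))) (.f (nat_lit 458) (nat_lit 426) (nat_lit 5450) (.f (nat_lit 459) (nat_lit 490) (nat_lit 5482) (.d (nat_lit 330) (nat_lit 298) (nat_lit 7466) (nat_lit 362) (nat_lit 7498))))))) (.a (.p (nat_lit 299) (.a (.f (nat_lit 428) (nat_lit 396) (nat_lit 4395) (.f (nat_lit 427) (nat_lit 460) (nat_lit 4427) (.d (nat_lit 298) (nat_lit 266) (nat_lit 7434) (nat_lit 330) (nat_lit 7466)))) (.f (nat_lit 394) (nat_lit 426) (nat_lit 5418) (.f (nat_lit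 267) (nat_lit 362) (nat_lit 5386) (.d (nat_lit 268) (nat_lit 236) (nat_lit 6379) (nat_lit 300) (nat_lit 6411)))))) (.a s73889 (.a (.p (nat_lit 299) (.a (.f (nat_lit 394) (nat_lit 426) (nat_lit 5418) (.f (nat_lit 267) (nat_lit 362) (nat_lit 5386) (.d (nat_lit 268) (nat_lit 236) (nat_lit 6379) (nat_lit 300) (nat_lit 6411)))) (.a (.f (nat_lit 394) (nat_lit 426) (nat_lit 5418) (.f (nat_lit 396) (nat_lit 428) (nat_lit 4395) (.d (nat_lit 267) (nat_lit 362) (nat_lit 5386) (nat_lit 364) (nat_lit 4363)))) (.a (.f (nat_lit 394) (nat_lit 426) (nat_lit 5418) (.f (nat_lit 396) (nat_lit 428) (nat_lit 4395) (.f (nat_lit 397) (nat_lit 429) (nat_lit 4429) (.f (nat_lit 362) (nat_lit 361) (nat_lit 3433) (.d (nat_lit 364) (nat_lit 334) (nat_lit 2378) (nat_lit 393) (nat_lit 2409)))))) (.f (nat_lit 266) (nat_lit 298) (nat_lit 7434) (.f (nat_lit 267) (nat_lit 234) (nat_lit 7402) (.d (nat_lit 268) (nat_lit 236) (nat_lit 6379) (nat_lit 300) (nat_lit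 6411)))))))) s73899))))))))
noncomputable def s73957 : Cert := .r (nat_lit 3773962425700235452738272624565494821496408338394849567996707693440436745628374193512154694427308276713713071376213251997170121945926884263326453548329487744389896732672) (.p (nat_lit 395) (.a (.f (nat_lit 394) (nat_lit 426) (nat_lit 5418) (.f (nat_lit 429) (nat_lit 397) (nat_lit 4429) (.d (nat_lit 428) (nat_lit 396) (nat_lit 4395) (nat_lit 427) (nat_lit 3466)))) (.a (.f (nat_lit 428) (nat_lit 396) (nat_lit 4395) (.f (nat_lit 429) (nat_lit 397) (nat_lit 4429) (.f (nat_lit 427) (nat_lit 460) (nat_lit 4427) (.d (nat_lit 458) (nat_lit 426) (nat_lit 5450) (nat_lit 459) (nat_lit 1450))))) (.a (.f (nat_lit 394) (nat_lit 426) (nat_lit 5418) (.f (nat_lit 267) (nat_lit 362) (nat_lit 5386) (.d (nat_lit 268) (nat_lit 236) (nat_lit 6379) (nat_lit 300) (nat_lit 6411)))) (.f (nat_lit 429) (nat_lit 397) (nat_lit 4429) (.f (nat_lit 428) (nat_lit 396) (nat_lit 4395)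 (.d (nat_lit 427) (nat_lit 394) (nat_lit 3466) (nat_lit 460) (nat_lit 4427))))))))
noncomputable def s73961 : Cert := .r (nat_lit 3773962425700235452738272624565494821496408338394849567996707693440436745628374193512154694427308276713713071376213251997170121945926884263326453548329487744389896732672) (.p (nat_lit 395) (.a (.f (nat_lit 394) (nat_lit 426) (nat_lit 5418) (.f (nat_lit 429) (nat_lit 397) (nat_lit 4429) (.d (nat_lit 428) (nat_lit 396) (nat_lit 4395) (nat_lit 427) (nat_lit 3466)))) (.a (.f (nat_lit 428) (nat_lit 396) (nat_lit 4395) (.f (nat_lit 429) (nat_lit 397) (nat_lit 4429) (.f (nat_lit 427) (nat_lit 460) (nat_lit 4427) (.d (nat_lit 458) (nat_lit 426) (nat_lit 5450) (nat_lit 459) (nat_lit 1450))))) (.a (.f (nat_lit 394) (nat_lit 426) (nat_lit 5418) (.f (nat_lit 362) (nat_lit 267) (nat_lit 5386) (.d (nat_lit 364) (nat_lit 334) (nat_lit 2378) (nat_lit 393) (nat_lit 1385)))) (.f (nat_lit 429) (nat_lit 397) (nat_lit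 4429) (.f (nat_lit 428) (nat_lit 396) (nat_lit 4395) (.d (nat_lit 427) (nat_lit 394) (nat_lit 3466) (nat_lit 460) (nat_lit 4427))))))))
noncomputable def s74342 : Cert := .r (nat_lit 3773962425700235452738272624565494821496408338394849567998417432440674223711028886749385439517923463172820591858698701965884479442020901609951355469271482560073823158272) (.p (nat_lit 370) (.a (.f (nat_lit 402) (nat_lit 403) (nat_lit 367) (.f (nat_lit 401) (nat_lit 366) (nat_lit 366) (.f (nat_lit 338) (nat_lit 339) (nat_lit 2383) (.d (nat_lit 306) (nat_lit 274) (nat_lit 5393) (nat_lit 433) (nat_lit 5425))))) (.a (.f (nat_lit 402) (nat_lit 403) (nat_lit 367) (.f (nat_lit 401) (nat_lit 366) (nat_lit 366) (.f (nat_lit 338) (nat_lit 339) (nat_lit 2383) (.d (nat_lit 433) (nat_lit 306) (nat_lit 5425) (nat_lit 465) (nat_lit 6481))))) (.a (.f (nat_lit 403) (nat_lit 402) (nat_lit 367) (.f (nat_lit 371) (nat_lit 404) (nat_lit 368) (.f (nat_lit 400) (nat_lit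 399) (nat_lit 1391) (.f (nat_lit 372) (nat_lit 401) (nat_lit 1392) (.d (nat_lit 340) (nat_lit 339) (nat_lit 2384) (nat_lit 341) (nat_lit 2385)))))) (.a (.f (nat_lit 399) (nat_lit 398) (nat_lit 1390) (.f (nat_lit 400) (nat_lit 371) (nat_lit 1391) (.f (nat_lit 402) (nat_lit 403) (nat_lit 367) (.d (nat_lit 401) (nat_lit 366) (nat_lit 366) (nat_lit 431) (nat_lit 1422))))) (.a (.f (nat_lit 399) (nat_lit 398) (nat_lit 1390) (.f (nat_lit 371) (nat_lit 400) (nat_lit 1391) (.d (nat_lit 403) (nat_lit 402) (nat_lit 367) (nat_lit 404) (nat_lit 368)))) (.f (nat_lit 399) (nat_lit 398) (nat_lit 1390) (.f (nat_lit 371) (nat_lit 400) (nat_lit 1391) (.d (nat_lit 339) (nat_lit 338) (nat_lit 2383) (nat_lit 340) (nat_lit 2384))))))))))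
noncomputable def s74410 : Cert := .r (nat_lit 3773962425700235452738272624565494821496408338394849567998417432440674223711028886749385439517923463172820591858698701965884479442020901609951355469271482560073823158272) (.p (nat_lit 370) (.a (.f (nat_lit 402) (nat_lit 403) (nat_lit 367) (.f (nat_lit 401) (nat_lit 366) (nat_lit 366) (.f (nat_lit 338) (nat_lit 339) (nat_lit 2383) (.d (nat_lit 306) (nat_lit 274) (nat_lit 5393) (nat_lit 433) (nat_lit 5425))))) (.a (.f (nat_lit 402) (nat_lit 403) (nat_lit 367) (.f (nat_lit 401) (nat_lit 366) (nat_lit 366) (.f (nat_lit 338) (nat_lit 339) (nat_lit 2383) (.d (nat_lit 433) (nat_lit 306) (nat_lit 5425) (nat_lit 465) (nat_lit 6481))))) (.a (.f (nat_lit 402) (nat_lit 403) (nat_lit 367) (.f (nat_lit 401) (nat_lit 366) (nat_lit 366) (.f (nat_lit 338) (nat_lit 339) (nat_lit 2383) (.f (nat_lit 433) (nat_lit 465) (nat_lit 6481) (.d (nat_lit 432) (nat_lit 337) (nat_lit 5456) (nat_lit 431)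 (nat_lit 2446)))))) (.a (.f (nat_lit 403) (nat_lit 402) (nat_lit 367) (.f (nat_lit 371) (nat_lit 404) (nat_lit 368) (.f (nat_lit 400) (nat_lit 399) (nat_lit 1391) (.f (nat_lit 372) (nat_lit 401) (nat_lit 1392) (.d (nat_lit 340) (nat_lit 339) (nat_lit 2384) (nat_lit 341) (nat_lit 2385)))))) (.a (.f (nat_lit 402) (nat_lit 403) (nat_lit 367) (.f (nat_lit 366) (nat_lit 401) (nat_lit 366) (.f (nat_lit 337) (nat_lit 338) (nat_lit 2382) (.f (nat_lit 400) (nat_lit 432) (nat_lit 6480) (.f (nat_lit 371) (nat_lit 399) (nat_lit 1391) (.f (nat_lit 372) (nat_lit 336) (nat_lit 3408) (.f (nat_lit 341) (nat_lit 340) (nat_lit 2385) (.f (nat_lit 373) (nat_lit 342) (nat_lit 2386) (.d (nat_lit 405) (nat_lit 404) (nat_lit 369) (nat_lit 406) (nat_lit 370)))))))))) (.a (.f (nat_lit 338) (nat_lit 339) (nat_lit 2383) (.f (nat_lit 337) (nat_lit 366) (nat_lit 2382) (.f (nat_lit 402) (nat_lit 403) (nat_lit 367) (.d (nat_lit 305) (nat_lit 273) (nat_lit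 4369) (nat_lit 434) (nat_lit 7473))))) (.f (nat_lit 338) (nat_lit 339) (nat_lit 2383) (.f (nat_lit 337) (nat_lit 366) (nat_lit 2382) (.f (nat_lit 400) (nat_lit 432) (nat_lit 6480) (.f (nat_lit 371) (nat_lit 399) (nat_lit 1391) (.d (nat_lit 372) (nat_lit 336) (nat_lit 3408) (nat_lit 401) (nat_lit 1392)))))))))))))
noncomputable def s74423 : Cert := .r (nat_lit 3773962425700235452738272624565494821496408338394849567998417432440674223711028886749385439517923463172820591858698701965884479442020901609951355469271482560073823158272) (.p (nat_lit 337) (.a (.f (nat_lit 338) (nat_lit 366) (nat_lit 2382) (.d (nat_lit 339) (nat_lit 336) (nat_lit 1359) (nat_lit 340) (nat_lit 1360))) (.a (.f (nat_lit 366) (nat_lit 338) (nat_lit 2382) (.f (nat_lit 401) (nat_lit 402) (nat_lit 366) (.d (nat_lit 432) (nat_lit 400) (nat_lit 6480) (nat_lit 433) (nat_lit 5456)))) (.a (.f (nat_lit 432) (nat_lit 400) (nat_lit 6480) (.f (nat_lit 401) (nat_lit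 433) (nat_lit 5456) (.f (nat_lit 402) (nat_lit 366) (nat_lit 366) (.d (nat_lit 403) (nat_lit 370) (nat_lit 367) (nat_lit 404) (nat_lit 3440))))) (.p (nat_lit 370) (.a (.f (nat_lit 338) (nat_lit 339) (nat_lit 2383) (.f (nat_lit 402) (nat_lit 403) (nat_lit 367) (.d (nat_lit 305) (nat_lit 273) (nat_lit 4369) (nat_lit 434) (nat_lit 7473)))) (.a (.f (nat_lit 338) (nat_lit 339) (nat_lit 2383) (.f (nat_lit 402) (nat_lit 403) (nat_lit 367) (.d (nat_lit 434) (nat_lit 305) (nat_lit 7473) (nat_lit 466) (nat_lit 7505)))) (.a (.f (nat_lit 338) (nat_lit 339) (nat_lit 2383) (.f (nat_lit 402) (nat_lit 403) (nat_lit 367) (.f (nat_lit 434) (nat_lit 466) (nat_lit 7505) (.f (nat_lit 433) (nat_lit 465) (nat_lit 5457) (.d (nat_lit 401) (nat_lit 306) (nat_lit 5425) (nat_lit 432) (nat_lit 5456)))))) (.a (.f (nat_lit 402) (nat_lit 403) (nat_lit 367) (.f (nat_lit 305) (nat_lit 273) (nat_lit 4369) (.d (nat_lit 434) (nat_lit 401) (nat_lit 4401) (nat_lit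 466) (nat_lit 7505)))) (.f (nat_lit 339) (nat_lit 338) (nat_lit 2383) (.f (nat_lit 371) (nat_lit 340) (nat_lit 2384) (.f (nat_lit 372) (nat_lit 336) (nat_lit 3408) (.d (nat_lit 400) (nat_lit 401) (nat_lit 1392) (nat_lit 432) (nat_lit 6480))))))))))))))
noncomputable def s74436 : Cert := .r (nat_lit 3773962425700235452738272624565494821496408338394849567998417432440674223711028886749385439517923463172820591858698701965884479442020901609951355469271482560073823158272) (.p (nat_lit 370) (.a (.f (nat_lit 402) (nat_lit 403) (nat_lit 367) (.f (nat_lit 401) (nat_lit 366) (nat_lit 366) (.f (nat_lit 338) (nat_lit 339) (nat_lit 2383) (.d (nat_lit 306) (nat_lit 274) (nat_lit 5393) (nat_lit 433) (nat_lit 5425))))) (.a (.f (nat_lit 402) (nat_lit 403) (nat_lit 367) (.f (nat_lit 401) (nat_lit 366) (nat_lit 366) (.f (nat_lit 338) (nat_lit 339) (nat_lit 2383) (.d (nat_lit 433) (nat_lit 306) (nat_lit 5425) (nat_lit 465) (nat_lit 6481)))))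 (.a (.f (nat_lit 335) (nat_lit 334) (nat_lit 3406) (.f (nat_lit 371) (nat_lit 336) (nat_lit 3407) (.d (nat_lit 339) (nat_lit 338) (nat_lit 2383) (nat_lit 340) (nat_lit 2384)))) (.f (nat_lit 335) (nat_lit 334) (nat_lit 3406) (.f (nat_lit 371) (nat_lit 336) (nat_lit 3407) (.d (nat_lit 403) (nat_lit 402) (nat_lit 367) (nat_lit 404) (nat_lit 368))))))))
noncomputable def s74812 : Cert := .r (nat_lit 3773962425700235452738272624565494821496408338394849567997214978638399009133139057256199179066808759533316484217579443185408425410269899830859511626413209616618579034112) (.p (nat_lit 366) (.a (.f (nat_lit 369) (nat_lit 370) (nat_lit 3406) (.f (nat_lit 337) (nat_lit 338) (nat_lit 2382) (.f (nat_lit 336) (nat_lit 365) (nat_lit 2381) (.f (nat_lit 400) (nat_lit 432) (nat_lit 7503) (.d (nat_lit 305) (nat_lit 273) (nat_lit 5392) (nat_lit 306) (nat_lit 2350)))))) (.a (.f (nat_lit 369) (nat_lit 370) (nat_lit 3406) (.f (nat_lit 337) (nat_lit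 338) (nat_lit 2382) (.f (nat_lit 336) (nat_lit 365) (nat_lit 2381) (.f (nat_lit 400) (nat_lit 432) (nat_lit 7503) (.f (nat_lit 401) (nat_lit 402) (nat_lit 366) (.d (nat_lit 304) (nat_lit 272) (nat_lit 4368) (nat_lit 433) (nat_lit 4400))))))) (.a (.f (nat_lit 400) (nat_lit 432) (nat_lit 7503) (.f (nat_lit 369) (nat_lit 370) (nat_lit 3406) (.d (nat_lit 401) (nat_lit 365) (nat_lit 365) (nat_lit 402) (nat_lit 366)))) (.a (.f (nat_lit 369) (nat_lit 370) (nat_lit 3406) (.f (nat_lit 337) (nat_lit 338) (nat_lit 2382) (.f (nat_lit 400) (nat_lit 432) (nat_lit 7503) (.f (nat_lit 401) (nat_lit 402) (nat_lit 366) (.f (nat_lit 305) (nat_lit 273) (nat_lit 5392) (.d (nat_lit 306) (nat_lit 274) (nat_lit 6417) (nat_lit 336) (nat_lit 2350))))))) (.a (.f (nat_lit 400) (nat_lit 432) (nat_lit 7503) (.f (nat_lit 365) (nat_lit 401) (nat_lit 365) (.d (nat_lit 364) (nat_lit 336) (nat_lit 2380) (nat_lit 363) (nat_lit 2379)))) (.a (.f (nat_lit 369)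 (nat_lit 370) (nat_lit 3406) (.f (nat_lit 337) (nat_lit 338) (nat_lit 2382) (.f (nat_lit 336) (nat_lit 365) (nat_lit 2381) (.f (nat_lit 401) (nat_lit 402) (nat_lit 366) (.d (nat_lit 433) (nat_lit 304) (nat_lit 7472) (nat_lit 432) (nat_lit 5456)))))) (.f (nat_lit 369) (nat_lit 370) (nat_lit 3406) (.f (nat_lit 337) (nat_lit 338) (nat_lit 2382) (.f (nat_lit 336) (nat_lit 365) (nat_lit 2381) (.f (nat_lit 401) (nat_lit 402) (nat_lit 366) (.d (nat_lit 304) (nat_lit 272) (nat_lit 4368) (nat_lit 433) (nat_lit 7472)))))))))))))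
noncomputable def s74837 : Cert := .r (nat_lit 3773962425700235452738272624565494821496408338394849567997214978638399009133139057256199179066808759533316484217579443185408425410269899830859511626413209616618579034112) (.p (nat_lit 365) (.a (.f (nat_lit 333) (nat_lit 332) (nat_lit 332) (.f (nat_lit 336) (nat_lit 364) (nat_lit 1356) (.f (nat_lit 337) (nat_lit 366) (nat_lit 1357) (.d (nat_lit 301) (nat_lit 300) (nat_lit 3372) (nat_lit 302) (nat_lit 3373))))) (.a (.f (nat_lit 333) (nat_lit 332) (nat_lit 332) (.f (nat_lit 336) (nat_lit 364) (nat_lit 1356) (.f (nat_lit 337) (nat_lit 366) (nat_lit 1357) (.d (nat_lit 305) (nat_lit 304) (nat_lit 2349) (nat_lit 306) (nat_lit 2350))))) (.a (.f (nat_lit 400) (nat_lit 432) (nat_lit 7503) (.f (nat_lit 366) (nat_lit 401) (nat_lit 365) (.d (nat_lit 364) (nat_lit 336) (nat_lit 2380) (nat_lit 363) (nat_lit 2379)))) (.a (.f (nat_lit 333) (nat_lit 332) (nat_lit 332) (.f (nat_lit 397) (nat_lit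 429) (nat_lit 4429) (.f (nat_lit 366) (nat_lit 396) (nat_lit 1388) (.d (nat_lit 400) (nat_lit 401) (nat_lit 365) (nat_lit 432) (nat_lit 7503))))) (.f (nat_lit 333) (nat_lit 332) (nat_lit 332) (.f (nat_lit 336) (nat_lit 364) (nat_lit 1356) (.f (nat_lit 400) (nat_lit 432) (nat_lit 7503) (.f (nat_lit 304) (nat_lit 305) (nat_lit 2349) (.f (nat_lit 303) (nat_lit 271) (nat_lit 4367) (.f (nat_lit 301) (nat_lit 300) (nat_lit 3372) (.f (nat_lit 302) (nat_lit 337) (nat_lit 301) (.d (nat_lit 272) (nat_lit 240) (nat_lit 5359) (nat_lit 273) (nat_lit 2317))))))))))))))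
noncomputable def s74838 : Cert := .r (nat_lit 3773962425700235452738272624565494821496408338394849567997214978638364013121542529065409219031174877591470833506685151786425613080567340582872321611641633405786210172928) (.p (nat_lit 334) (.a (.f (nat_lit 333) (nat_lit 332) (nat_lit 332) (.d (nat_lit 369) (nat_lit 336) (nat_lit 333) (nat_lit 370) (nat_lit 3406))) (.a (.f (nat_lit 369) (nat_lit 370) (nat_lit 3406) (.d (nat_lit 333) (nat_lit 336) (nat_lit 333) (nat_lit 366) (nat_lit 3405))) (.a s74812 (.a (.f (nat_lit 333) (nat_lit 332) (nat_lit 332) (.d (nat_lit 369) (nat_lit 366) (nat_lit 3405) (nat_lit 370) (nat_lit 3406))) s74837)))))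
noncomputable def s74848 : Cert := .r (nat_lit 3773962425700235452738272624565494821496408338394849567998417432440744215734221943130965359589191227056511893280487284763850104101426020105925735498814634981738560880640) (.p (nat_lit 370) (.a (.f (nat_lit 336) (nat_lit 371) (nat_lit 3407) (.f (nat_lit 338) (nat_lit 339) (nat_lit 2383) (.f (nat_lit 337) (nat_lit 366) (nat_lit 2382) (.f (nat_lit 306) (nat_lit 307) (nat_lit 2351) (.d (nat_lit 274) (nat_lit 242) (nat_lit 5361) (nat_lit 401) (nat_lit 5393)))))) (.a (.f (nat_lit 338) (nat_lit 339) (nat_lit 2383) (.f (nat_lit 337) (nat_lit 366) (nat_lit 2382) (.f (nat_lit 402) (nat_lit 403) (nat_lit 367) (.d (nat_lit 305) (nat_lit 273) (nat_lit 4369) (nat_lit 434) (nat_lit 7473))))) (.a (.f (nat_lit 371) (nat_lit 336) (nat_lit 3407) (.d (nat_lit 339) (nat_lit 338) (nat_lit 2383) (nat_lit 340) (nat_lit 2384))) (.f (nat_lit 371) (nat_lit 336) (nat_lit 3407) (.d (nat_lit 403) (nat_lit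 402) (nat_lit 367) (nat_lit 404) (nat_lit 368)))))))
noncomputable def s74869 : Cert := .r (nat_lit 3773962425700235452738272624565494821496408338394849567998417432440744215734221943130965359589191227056511893280487284763850104101426020105925735498814634981738560880640) (.p (nat_lit 366) (.a (.f (nat_lit 334) (nat_lit 333) (nat_lit 3405) (.f (nat_lit 337) (nat_lit 338) (nat_lit 2382) (.f (nat_lit 336) (nat_lit 365) (nat_lit 2381) (.f (nat_lit 399) (nat_lit 431) (nat_lit 5454) (.d (nat_lit 302) (nat_lit 270) (nat_lit 4366) (nat_lit 301) (nat_lit 3373)))))) (.a (.f (nat_lit 337) (nat_lit 338) (nat_lit 2382) (.f (nat_lit 336) (nat_lit 365) (nat_lit 2381) (.f (nat_lit 401) (nat_lit 402) (nat_lit 366) (.d (nat_lit 433) (nat_lit 304) (nat_lit 7472) (nat_lit 432) (nat_lit 5456))))) (.a (.f (nat_lit 333) (nat_lit 334) (nat_lit 3405) (.f (nat_lit 365) (nat_lit 332) (nat_lit 3404) (.d (nat_lit 397) (nat_lit 396) (nat_lit 1388) (nat_lit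 429) (nat_lit 4429)))) (.f (nat_lit 334) (nat_lit 333) (nat_lit 3405) (.f (nat_lit 399) (nat_lit 431) (nat_lit 5454) (.f (nat_lit 302) (nat_lit 270) (nat_lit 4366) (.f (nat_lit 337) (nat_lit 338) (nat_lit 2382) (.f (nat_lit 336) (nat_lit 301) (nat_lit 3373) (.f (nat_lit 304) (nat_lit 272) (nat_lit 5391) (.d (nat_lit 401) (nat_lit 402) (nat_lit 366) (nat_lit 433) (nat_lit 7472))))))))))))
noncomputable def s74870 : Cert := .r (nat_lit 3773962425700235452738272624565494821496408338394849567997214978638364013121542529065409219031174877591470833506685151786425613080567340582872321611641633405786210172928) (.p (nat_lit 369) (.a (.f (nat_lit 370) (nat_lit 334) (nat_lit 3406) (.f (nat_lit 371) (nat_lit 336) (nat_lit 3407) (.d (nat_lit 403) (nat_lit 402) (nat_lit 367) (nat_lit 404) (nat_lit 368)))) (.a s74848 (.a (.f (nat_lit 370) (nat_lit 334) (nat_lit 3406) (.f (nat_lit 338) (nat_lit 339) (nat_lit 2383) (.f (nat_lit 402) (nat_lit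 403) (nat_lit 367) (.d (nat_lit 366) (nat_lit 337) (nat_lit 2382) (nat_lit 401) (nat_lit 366))))) (.a s74869 (.f (nat_lit 370) (nat_lit 334) (nat_lit 3406) (.f (nat_lit 371) (nat_lit 336) (nat_lit 3407) (.d (nat_lit 339) (nat_lit 338) (nat_lit 2383) (nat_lit 340) (nat_lit 2384)))))))))
noncomputable def s74878 : Cert := .r (nat_lit 3773962425700235452738272624565494821496408338394849567997214978638364013121542529065409219031174877591470833506685151786425613080567340582872321611641633405786210172928) (.p (nat_lit 334) (.a (.f (nat_lit 333) (nat_lit 332) (nat_lit 332) (.d (nat_lit 369) (nat_lit 336) (nat_lit 333) (nat_lit 370) (nat_lit 3406))) (.a (.f (nat_lit 369) (nat_lit 370) (nat_lit 3406) (.d (nat_lit 333) (nat_lit 336) (nat_lit 333) (nat_lit 366) (nat_lit 3405))) (.a (.f (nat_lit 399) (nat_lit 431) (nat_lit 5454) (.f (nat_lit 400) (nat_lit 432) (nat_lit 7503) (.f (nat_lit 303) (nat_lit 271) (nat_lit 4367) (.f (nat_lit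 302) (nat_lit 270) (nat_lit 7438) (.f (nat_lit 304) (nat_lit 272) (nat_lit 6415) (.f (nat_lit 305) (nat_lit 306) (nat_lit 1326) (.d (nat_lit 273) (nat_lit 274) (nat_lit 2318) (nat_lit 336) (nat_lit 6416)))))))) (.f (nat_lit 333) (nat_lit 332) (nat_lit 332) (.d (nat_lit 369) (nat_lit 366) (nat_lit 3405) (nat_lit 370) (nat_lit 3406)))))))
noncomputable def s74892 : Cert := .r (nat_lit 3773962425700235452738272624565494821496408338394849567997214978638364013121542529065409219031174877591470833506685151786425613080567340582872321611641633405786210172928) (.p (nat_lit 334) (.a (.f (nat_lit 333) (nat_lit 332) (nat_lit 332) (.d (nat_lit 369) (nat_lit 336) (nat_lit 333) (nat_lit 370) (nat_lit 3406))) (.a (.f (nat_lit 369) (nat_lit 370) (nat_lit 3406) (.d (nat_lit 333) (nat_lit 336) (nat_lit 333) (nat_lit 366) (nat_lit 3405))) (.a (.p (nat_lit 303) (.a (.f (nat_lit 271) (nat_lit 400) (nat_lit 4367) (.d (nat_lit 239) (nat_lit 336)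 (nat_lit 4335) (nat_lit 366) (nat_lit 5358))) (.a (.f (nat_lit 399) (nat_lit 431) (nat_lit 5454) (.f (nat_lit 302) (nat_lit 270) (nat_lit 7438) (.f (nat_lit 304) (nat_lit 272) (nat_lit 6415) (.f (nat_lit 305) (nat_lit 306) (nat_lit 1326) (.f (nat_lit 337) (nat_lit 338) (nat_lit 302) (.f (nat_lit 336) (nat_lit 301) (nat_lit 301) (.d (nat_lit 273) (nat_lit 241) (nat_lit 5360) (nat_lit 274) (nat_lit 2318)))))))) (.f (nat_lit 271) (nat_lit 400) (nat_lit 4367) (.f (nat_lit 239) (nat_lit 366) (nat_lit 5358) (.d (nat_lit 240) (nat_lit 208) (nat_lit 6351) (nat_lit 272) (nat_lit 6383))))))) (.f (nat_lit 333) (nat_lit 332) (nat_lit 332) (.d (nat_lit 369) (nat_lit 366) (nat_lit 3405) (nat_lit 370) (nat_lit 3406)))))))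
noncomputable def s74898 : Cert := .r (nat_lit 3773962425700235452738272624565494821496408338394849567997214978638364013121542529065409219031174877591470833506685151786425613080567340582872321611641633405786210172928) (.p (nat_lit 334) (.a (.f (nat_lit 333) (nat_lit 332) (nat_lit 332) (.d (nat_lit 369) (nat_lit 336) (nat_lit 333) (nat_lit 370) (nat_lit 3406))) (.a (.f (nat_lit 369) (nat_lit 370) (nat_lit 3406) (.d (nat_lit 333) (nat_lit 336) (nat_lit 333) (nat_lit 366) (nat_lit 3405))) (.a (.p (nat_lit 303) (.a (.f (nat_lit 271) (nat_lit 400) (nat_lit 4367) (.d (nat_lit 239) (nat_lit 336) (nat_lit 4335) (nat_lit 366) (nat_lit 5358))) (.a (.f (nat_lit 399) (nat_lit 431) (nat_lit 5454) (.f (nat_lit 302) (nat_lit 270) (nat_lit 7438) (.f (nat_lit 304) (nat_lit 272) (nat_lit 6415) (.f (nat_lit 305) (nat_lit 306) (nat_lit 1326) (.f (nat_lit 337) (nat_lit 338) (nat_lit 302) (.f (nat_lit 336) (nat_lit 301) (nat_lit 301) (.d (nat_lit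 273) (nat_lit 241) (nat_lit 5360) (nat_lit 274) (nat_lit 2318)))))))) (.f (nat_lit 271) (nat_lit 400) (nat_lit 4367) (.f (nat_lit 270) (nat_lit 238) (nat_lit 7406) (.d (nat_lit 399) (nat_lit 302) (nat_lit 7438) (nat_lit 431) (nat_lit 5454))))))) (.f (nat_lit 333) (nat_lit 332) (nat_lit 332) (.d (nat_lit 369) (nat_lit 366) (nat_lit 3405) (nat_lit 370) (nat_lit 3406)))))))
noncomputable def s74903 : Cert := .r (nat_lit 3773962425700235452738272624565494821496408338394849567998417432440744215734221943130965359589191227056511893280487284763850104101426020105925735498814634981738560880640) (.p (nat_lit 366) (.a (.f (nat_lit 334) (nat_lit 333) (nat_lit 3405) (.f (nat_lit 337) (nat_lit 338) (nat_lit 2382) (.f (nat_lit 336) (nat_lit 365) (nat_lit 2381) (.f (nat_lit 399) (nat_lit 431) (nat_lit 5454) (.d (nat_lit 302) (nat_lit 270) (nat_lit 4366) (nat_lit 301) (nat_lit 3373)))))) (.a (.f (nat_lit 333) (nat_lit 334) (nat_lit 3405)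 (.f (nat_lit 365) (nat_lit 332) (nat_lit 3404) (.d (nat_lit 397) (nat_lit 396) (nat_lit 1388) (nat_lit 429) (nat_lit 4429)))) (.a (.f (nat_lit 337) (nat_lit 338) (nat_lit 2382) (.f (nat_lit 365) (nat_lit 336) (nat_lit 2381) (.d (nat_lit 401) (nat_lit 400) (nat_lit 365) (nat_lit 402) (nat_lit 366)))) (.f (nat_lit 334) (nat_lit 333) (nat_lit 3405) (.f (nat_lit 399) (nat_lit 431) (nat_lit 5454) (.f (nat_lit 302) (nat_lit 270) (nat_lit 4366) (.f (nat_lit 337) (nat_lit 338) (nat_lit 2382) (.f (nat_lit 336) (nat_lit 301) (nat_lit 3373) (.f (nat_lit 304) (nat_lit 272) (nat_lit 5391) (.d (nat_lit 401) (nat_lit 402) (nat_lit 366) (nat_lit 433) (nat_lit 7472))))))))))))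
noncomputable def s74904 : Cert := .r (nat_lit 3773962425700235452738272624565494821496408338394849567997214978638364013121542529065409219031174877591470833506685151786425613080567340582872321611641633405786210172928) (.p (nat_lit 369) (.a (.f (nat_lit 370) (nat_lit 334) (nat_lit 3406) (.f (nat_lit 371) (nat_lit 336) (nat_lit 3407) (.d (nat_lit 403) (nat_lit 402) (nat_lit 367) (nat_lit 404) (nat_lit 368)))) (.a s74848 (.a (.f (nat_lit 370) (nat_lit 334) (nat_lit 3406) (.f (nat_lit 338) (nat_lit 339) (nat_lit 2383) (.f (nat_lit 402) (nat_lit 403) (nat_lit 367) (.d (nat_lit 366) (nat_lit 337) (nat_lit 2382) (nat_lit 401) (nat_lit 366))))) (.a s74903 (.f (nat_lit 370) (nat_lit 334) (nat_lit 3406) (.f (nat_lit 371) (nat_lit 336) (nat_lit 3407) (.d (nat_lit 339) (nat_lit 338) (nat_lit 2383) (nat_lit 340) (nat_lit 2384)))))))))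
noncomputable def s74918 : Cert := .r (nat_lit 3773962425700235452738272624565494821496408338394849567997214978638364013121542529065409219031174877591470833506685151786425613080567340582872321611641633405786210172928) (.p (nat_lit 369) (.a (.f (nat_lit 370) (nat_lit 334) (nat_lit 3406) (.f (nat_lit 371) (nat_lit 336) (nat_lit 3407) (.d (nat_lit 403) (nat_lit 402) (nat_lit 367) (nat_lit 404) (nat_lit 368)))) (.a (.p (nat_lit 370) (.a (.f (nat_lit 338) (nat_lit 339) (nat_lit 2383) (.f (nat_lit 337) (nat_lit 366) (nat_lit 2382) (.f (nat_lit 402) (nat_lit 403) (nat_lit 367) (.d (nat_lit 305) (nat_lit 273) (nat_lit 4369) (nat_lit 434) (nat_lit 7473))))) (.a (.f (nat_lit 371) (nat_lit 336) (nat_lit 3407) (.d (nat_lit 339) (nat_lit 338) (nat_lit 2383) (nat_lit 340) (nat_lit 2384))) (.f (nat_lit 371) (nat_lit 336) (nat_lit 3407) (.d (nat_lit 403) (nat_lit 402) (nat_lit 367) (nat_lit 404) (nat_lit 368)))))) (.a (.f (nat_lit 370)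 (nat_lit 334) (nat_lit 3406) (.f (nat_lit 338) (nat_lit 339) (nat_lit 2383) (.f (nat_lit 402) (nat_lit 403) (nat_lit 367) (.d (nat_lit 366) (nat_lit 337) (nat_lit 2382) (nat_lit 401) (nat_lit 366))))) (.a s74869 (.f (nat_lit 370) (nat_lit 334) (nat_lit 3406) (.f (nat_lit 371) (nat_lit 336) (nat_lit 3407) (.d (nat_lit 339) (nat_lit 338) (nat_lit 2383) (nat_lit 340) (nat_lit 2384)))))))))
noncomputable def s75070 : Cert := .r (nat_lit 3773962425700235452738272624565494821496408338394849567996613751737208907826799350223421108787800584800795954330678376696696179899840560069332804682826708828642403680256) (.p (nat_lit 368) (.a (.f (nat_lit 369) (nat_lit 370) (nat_lit 3406) (.d (nat_lit 333) (nat_lit 336) (nat_lit 333) (nat_lit 366) (nat_lit 3405))) (.a (.f (nat_lit 399) (nat_lit 431) (nat_lit 5454) (.f (nat_lit 400) (nat_lit 432) (nat_lit 7503) (.f (nat_lit 369) (nat_lit 370) (nat_lit 3406) (.f (nat_lit 303) (nat_lit 271) (nat_lit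 4367) (.f (nat_lit 304) (nat_lit 272) (nat_lit 6415) (.f (nat_lit 305) (nat_lit 306) (nat_lit 1326) (.d (nat_lit 273) (nat_lit 336) (nat_lit 6416) (nat_lit 337) (nat_lit 5392)))))))) (.a (.f (nat_lit 399) (nat_lit 431) (nat_lit 5454) (.f (nat_lit 400) (nat_lit 432) (nat_lit 7503) (.f (nat_lit 369) (nat_lit 370) (nat_lit 3406) (.f (nat_lit 366) (nat_lit 333) (nat_lit 3405) (.d (nat_lit 365) (nat_lit 364) (nat_lit 364) (nat_lit 401) (nat_lit 365)))))) (.f (nat_lit 399) (nat_lit 431) (nat_lit 5454) (.f (nat_lit 400) (nat_lit 432) (nat_lit 7503) (.f (nat_lit 303) (nat_lit 271) (nat_lit 4367) (.f (nat_lit 304) (nat_lit 272) (nat_lit 6415) (.f (nat_lit 305) (nat_lit 306) (nat_lit 1326) (.d (nat_lit 333) (nat_lit 302) (nat_lit 1325) (nat_lit 336) (nat_lit 2349)))))))))))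
noncomputable def s75137 : Cert := .r (nat_lit 3773962425700235452738272624565494821496408338394849567996613751737208907826799350223421108787800584800795954330678376696696179899840560069332804682826708828642403680256) (.f (nat_lit 399) (nat_lit 431) (nat_lit 5454) (.p (nat_lit 303) (.a (.f (nat_lit 302) (nat_lit 270) (nat_lit 7438) (.f (nat_lit 304) (nat_lit 272) (nat_lit 6415) (.f (nat_lit 305) (nat_lit 306) (nat_lit 1326) (.f (nat_lit 337) (nat_lit 338) (nat_lit 302) (.f (nat_lit 336) (nat_lit 301) (nat_lit 301) (.f (nat_lit 400) (nat_lit 432) (nat_lit 4399) (.d (nat_lit 368) (nat_lit 271) (nat_lit 4367) (nat_lit 273) (nat_lit 6416)))))))) (.a (.f (nat_lit 400) (nat_lit 432) (nat_lit 4399) (.f (nat_lit 271) (nat_lit 368) (nat_lit 4367) (.d (nat_lit 272) (nat_lit 240) (nat_lit 6383) (nat_lit 304) (nat_lit 6415)))) (.a (.f (nat_lit 302) (nat_lit 270) (nat_lit 7438) (.f (nat_lit 304) (nat_lit 272) (nat_lit 6415) (.f (nat_lit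 305) (nat_lit 306) (nat_lit 1326) (.f (nat_lit 337) (nat_lit 338) (nat_lit 302) (.f (nat_lit 336) (nat_lit 301) (nat_lit 301) (.f (nat_lit 400) (nat_lit 432) (nat_lit 4399) (.d (nat_lit 273) (nat_lit 274) (nat_lit 2318) (nat_lit 368) (nat_lit 6416)))))))) (.a (.f (nat_lit 302) (nat_lit 270) (nat_lit 7438) (.f (nat_lit 400) (nat_lit 432) (nat_lit 4399) (.f (nat_lit 368) (nat_lit 271) (nat_lit 4367) (.f (nat_lit 369) (nat_lit 370) (nat_lit 3406) (.f (nat_lit 336) (nat_lit 333) (nat_lit 333) (.d (nat_lit 301) (nat_lit 300) (nat_lit 300) (nat_lit 337) (nat_lit 3373))))))) (.f (nat_lit 302) (nat_lit 270) (nat_lit 7438) (.f (nat_lit 304) (nat_lit 272) (nat_lit 6415) (.d (nat_lit 305) (nat_lit 306) (nat_lit 1326) (nat_lit 333) (nat_lit 1325))))))))))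
noncomputable def s75160 : Cert := .r (nat_lit 3773962425700235452738272624565494821496408338394849567996613751737348891873185462986580948930336112568178557174255542292627429218650797061281564741913013671971879124992) (.p (nat_lit 337) (.a (.d (nat_lit 366) (nat_lit 338) (nat_lit 1358) (nat_lit 365) (nat_lit 1357)) (.a (.f (nat_lit 365) (nat_lit 366) (nat_lit 1357) (.f (nat_lit 333) (nat_lit 364) (nat_lit 1356) (.d (nat_lit 305) (nat_lit 304) (nat_lit 2349) (nat_lit 306) (nat_lit 2350)))) (.a (.f (nat_lit 338) (nat_lit 366) (nat_lit 1358) (.d (nat_lit 370) (nat_lit 369) (nat_lit 334) (nat_lit 371) (nat_lit 335))) (.f (nat_lit 399) (nat_lit 431) (nat_lit 5454) (.f (nat_lit 302) (nat_lit 301) (nat_lit 3373) (.f (nat_lit 303) (nat_lit 338) (nat_lit 3374) (.f (nat_lit 304) (nat_lit 272) (nat_lit 6415) (.d (nat_lit 305) (nat_lit 306) (nat_lit 2350) (nat_lit 333) (nat_lit 2349))))))))))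
noncomputable def s75198 : Cert := .r (nat_lit 3773962425700235452738272624565494821496408338394849567996613751737348891873185462986580948930336112568178557174255542292627429218650797061281564741913013671971879124992) (.p (nat_lit 302) (.a (.f (nat_lit 399) (nat_lit 431) (nat_lit 5454) (.d (nat_lit 270) (nat_lit 238) (nat_lit 4334) (nat_lit 303) (nat_lit 7438))) (.a (.f (nat_lit 399) (nat_lit 431) (nat_lit 7470) (.f (nat_lit 303) (nat_lit 270) (nat_lit 7438) (.d (nat_lit 301) (nat_lit 300) (nat_lit 300) (nat_lit 337) (nat_lit 3373)))) (.a (.f (nat_lit 399) (nat_lit 431) (nat_lit 7470) (.f (nat_lit 337) (nat_lit 301) (nat_lit 3373) (.f (nat_lit 303) (nat_lit 338) (nat_lit 3374) (.f (nat_lit 304) (nat_lit 272) (nat_lit 6415) (.d (nat_lit 305) (nat_lit 306) (nat_lit 2350) (nat_lit 333) (nat_lit 2349)))))) (.f (nat_lit 337) (nat_lit 301) (nat_lit 3373) (.f (nat_lit 305) (nat_lit 306) (nat_lit 2350) (.f (nat_lit 369) (nat_lit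 370) (nat_lit 334) (.f (nat_lit 304) (nat_lit 333) (nat_lit 2349) (.d (nat_lit 272) (nat_lit 240) (nat_lit 4336) (nat_lit 401) (nat_lit 7440))))))))))
noncomputable def s75200 : Cert := .r (nat_lit 3773962425700235452738272624565494821496408338394849567996613751737208907826799350223421108787800584800795954330678376696696179899840560069332804682826708828642403680256) (.p (nat_lit 336) (.a (.p (nat_lit 337) (.a (.d (nat_lit 366) (nat_lit 338) (nat_lit 1358) (nat_lit 365) (nat_lit 1357)) (.a (.f (nat_lit 399) (nat_lit 431) (nat_lit 5454) (.f (nat_lit 302) (nat_lit 301) (nat_lit 3373) (.d (nat_lit 270) (nat_lit 238) (nat_lit 4334) (nat_lit 366) (nat_lit 4366)))) (.f (nat_lit 399) (nat_lit 431) (nat_lit 5454) (.f (nat_lit 302) (nat_lit 301) (nat_lit 3373) (.d (nat_lit 303) (nat_lit 270) (nat_lit 7438) (nat_lit 338) (nat_lit 3374))))))) (.a (.p (nat_lit 337) (.a (.d (nat_lit 366) (nat_lit 338) (nat_lit 1358) (nat_lit 365) (nat_lit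 1357)) (.a (.f (nat_lit 399) (nat_lit 431) (nat_lit 5454) (.f (nat_lit 366) (nat_lit 365) (nat_lit 1357) (.d (nat_lit 302) (nat_lit 270) (nat_lit 4366) (nat_lit 301) (nat_lit 3373)))) (.f (nat_lit 399) (nat_lit 431) (nat_lit 5454) (.f (nat_lit 302) (nat_lit 301) (nat_lit 3373) (.d (nat_lit 303) (nat_lit 270) (nat_lit 7438) (nat_lit 338) (nat_lit 3374))))))) (.a s75160 (.a (.p (nat_lit 337) (.a (.d (nat_lit 366) (nat_lit 338) (nat_lit 1358) (nat_lit 365) (nat_lit 1357)) (.a (.f (nat_lit 365) (nat_lit 366) (nat_lit 1357) (.f (nat_lit 333) (nat_lit 364) (nat_lit 1356) (.d (nat_lit 305) (nat_lit 304) (nat_lit 2349) (nat_lit 306) (nat_lit 2350)))) (.a (.f (nat_lit 338) (nat_lit 366) (nat_lit 1358) (.d (nat_lit 370) (nat_lit 369) (nat_lit 334) (nat_lit 371) (nat_lit 335))) (.f (nat_lit 399) (nat_lit 431) (nat_lit 5454) (.f (nat_lit 305) (nat_lit 306) (nat_lit 2350) (.f (nat_lit 304) (nat_lit 333) (nat_lit 2349) (.d (nat_lit 272)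 (nat_lit 240) (nat_lit 5359) (nat_lit 303) (nat_lit 6415))))))))) (.a (.p (nat_lit 337) (.a (.d (nat_lit 366) (nat_lit 338) (nat_lit 1358) (nat_lit 365) (nat_lit 1357)) (.a (.f (nat_lit 399) (nat_lit 431) (nat_lit 5454) (.f (nat_lit 302) (nat_lit 301) (nat_lit 3373) (.d (nat_lit 270) (nat_lit 238) (nat_lit 4334) (nat_lit 366) (nat_lit 4366)))) (.f (nat_lit 305) (nat_lit 306) (nat_lit 2350) (.f (nat_lit 369) (nat_lit 370) (nat_lit 334) (.f (nat_lit 304) (nat_lit 333) (nat_lit 2349) (.d (nat_lit 272) (nat_lit 240) (nat_lit 4336) (nat_lit 401) (nat_lit 7440)))))))) (.a (.p (nat_lit 304) (.a (.f (nat_lit 399) (nat_lit 431) (nat_lit 5454) (.d (nat_lit 272) (nat_lit 240) (nat_lit 5359) (nat_lit 303) (nat_lit 6415))) (.a (.f (nat_lit 399) (nat_lit 431) (nat_lit 5454) (.f (nat_lit 303) (nat_lit 272) (nat_lit 6415) (.d (nat_lit 305) (nat_lit 306) (nat_lit 1326) (nat_lit 333) (nat_lit 2349)))) (.f (nat_lit 333) (nat_lit 305) (nat_lit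 2349) (.f (nat_lit 365) (nat_lit 364) (nat_lit 1356) (.f (nat_lit 301) (nat_lit 300) (nat_lit 3372) (.f (nat_lit 397) (nat_lit 429) (nat_lit 4429) (.f (nat_lit 270) (nat_lit 302) (nat_lit 6413) (.f (nat_lit 269) (nat_lit 238) (nat_lit 6381) (.f (nat_lit 237) (nat_lit 366) (nat_lit 4333) (.d (nat_lit 236) (nat_lit 204) (nat_lit 7372) (nat_lit 268) (nat_lit 7404)))))))))))) (.a (.p (nat_lit 337) (.a (.f (nat_lit 399) (nat_lit 431) (nat_lit 5454) (.f (nat_lit 302) (nat_lit 301) (nat_lit 3373) (.d (nat_lit 270) (nat_lit 238) (nat_lit 4334) (nat_lit 366) (nat_lit 4366)))) (.a (.f (nat_lit 399) (nat_lit 431) (nat_lit 5454) (.f (nat_lit 302) (nat_lit 301) (nat_lit 3373) (.d (nat_lit 303) (nat_lit 270) (nat_lit 7438) (nat_lit 338) (nat_lit 3374)))) (.f (nat_lit 338) (nat_lit 366) (nat_lit 1358) (.d (nat_lit 370) (nat_lit 369) (nat_lit 334) (nat_lit 371) (nat_lit 335)))))) (.a s75198 (.p (nat_lit 337) (.a (.d (nat_lit 366) (nat_lit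 338) (nat_lit 1358) (nat_lit 365) (nat_lit 1357)) (.a (.f (nat_lit 365) (nat_lit 366) (nat_lit 1357) (.f (nat_lit 333) (nat_lit 364) (nat_lit 1356) (.d (nat_lit 305) (nat_lit 304) (nat_lit 2349) (nat_lit 306) (nat_lit 2350)))) (.a (.f (nat_lit 338) (nat_lit 366) (nat_lit 1358) (.d (nat_lit 370) (nat_lit 369) (nat_lit 334) (nat_lit 371) (nat_lit 335))) (.f (nat_lit 305) (nat_lit 306) (nat_lit 2350) (.f (nat_lit 369) (nat_lit 370) (nat_lit 334) (.f (nat_lit 304) (nat_lit 333) (nat_lit 2349) (.d (nat_lit 272) (nat_lit 240) (nat_lit 4336) (nat_lit 401) (nat_lit 7440))))))))))))))))))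
noncomputable def s75229 : Cert := .r (nat_lit 3773962425700235452738272624565494821496408338394849567996613751737348891873185462986580948930336112568178557174255542292627429218650797061281564741913013671971879124992) (.p (nat_lit 337) (.a (.d (nat_lit 366) (nat_lit 338) (nat_lit 1358) (nat_lit 365) (nat_lit 1357)) (.a (.f (nat_lit 305) (nat_lit 306) (nat_lit 2350) (.f (nat_lit 366) (nat_lit 365) (nat_lit 1357) (.f (nat_lit 302) (nat_lit 301) (nat_lit 3373) (.f (nat_lit 270) (nat_lit 238) (nat_lit 4334) (.f (nat_lit 271) (nat_lit 239) (nat_lit 6382) (.f (nat_lit 269) (nat_lit 237) (nat_lit 7405) (.d (nat_lit 304) (nat_lit 272) (nat_lit 269) (nat_lit 303) (nat_lit 3341)))))))) (.a (.f (nat_lit 338) (nat_lit 366) (nat_lit 1358) (.d (nat_lit 370) (nat_lit 369) (nat_lit 334) (nat_lit 371) (nat_lit 335))) (.f (nat_lit 302) (nat_lit 301) (nat_lit 3373) (.f (nat_lit 338) (nat_lit 303) (nat_lit 3374) (.d (nat_lit 306) (nat_lit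 305) (nat_lit 2350) (nat_lit 307) (nat_lit 2351))))))))
noncomputable def s75383 : Cert := .r (nat_lit 3773962425700235452738272624565494821496408338394849567996613751737226405832597614318816088805617525771718779686125522396187586064691839693326399690212496934058588110848) (.p (nat_lit 332) (.a (.f (nat_lit 331) (nat_lit 366) (nat_lit 331) (.d (nat_lit 363) (nat_lit 362) (nat_lit 1354) (nat_lit 364) (nat_lit 1355))) (.a (.f (nat_lit 399) (nat_lit 431) (nat_lit 5454) (.f (nat_lit 303) (nat_lit 304) (nat_lit 2348) (.f (nat_lit 302) (nat_lit 270) (nat_lit 7438) (.f (nat_lit 300) (nat_lit 299) (nat_lit 3371) (.f (nat_lit 301) (nat_lit 336) (nat_lit 300) (.f (nat_lit 364) (nat_lit 363) (nat_lit 1355) (.d (nat_lit 269) (nat_lit 237) (nat_lit 5356) (nat_lit 396) (nat_lit 6412)))))))) (.f (nat_lit 303) (nat_lit 304) (nat_lit 2348) (.d (nat_lit 331) (nat_lit 302) (nat_lit 2347) (nat_lit 366) (nat_lit 331))))))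
noncomputable def s75404 : Cert := .r (nat_lit 3773962425700235452738272624565494821496408338394849567996613751737226405832597614318816088805617525771718779686125522396187586064691839693326399690212496934058588110848) (.p (nat_lit 332) (.a (.f (nat_lit 331) (nat_lit 366) (nat_lit 331) (.d (nat_lit 363) (nat_lit 362) (nat_lit 1354) (nat_lit 364) (nat_lit 1355))) (.a (.f (nat_lit 399) (nat_lit 431) (nat_lit 5454) (.f (nat_lit 303) (nat_lit 304) (nat_lit 2348) (.f (nat_lit 364) (nat_lit 363) (nat_lit 1355) (.f (nat_lit 365) (nat_lit 336) (nat_lit 1356) (.d (nat_lit 400) (nat_lit 366) (nat_lit 364) (nat_lit 432) (nat_lit 4399)))))) (.a (.f (nat_lit 303) (nat_lit 304) (nat_lit 2348) (.d (nat_lit 331) (nat_lit 302) (nat_lit 2347) (nat_lit 366) (nat_lit 331))) (.f (nat_lit 399) (nat_lit 431) (nat_lit 5454) (.f (nat_lit 303) (nat_lit 304) (nat_lit 2348) (.d (nat_lit 302) (nat_lit 270) (nat_lit 7438) (nat_lit 331) (nat_lit 2347))))))))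
noncomputable def s75412 : Cert := .r (nat_lit 3773962425700235452738272624565494821496408338394849567996613751737226405832597614318816088805617525771718779686125522396187586064691839693326399690212496934058588110848) (.p (nat_lit 332) (.a (.f (nat_lit 331) (nat_lit 366) (nat_lit 331) (.d (nat_lit 363) (nat_lit 362) (nat_lit 1354) (nat_lit 364) (nat_lit 1355))) (.a (.f (nat_lit 364) (nat_lit 363) (nat_lit 1355) (.f (nat_lit 300) (nat_lit 299) (nat_lit 3371) (.d (nat_lit 336) (nat_lit 301) (nat_lit 3372) (nat_lit 365) (nat_lit 1356)))) (.f (nat_lit 303) (nat_lit 304) (nat_lit 2348) (.f (nat_lit 366) (nat_lit 331) (nat_lit 331) (.f (nat_lit 271) (nat_lit 239) (nat_lit 5358) (.f (nat_lit 300) (nat_lit 299) (nat_lit 3371) (.f (nat_lit 301) (nat_lit 336) (nat_lit 3372) (.f (nat_lit 269) (nat_lit 237) (nat_lit 4333) (.d (nat_lit 272) (nat_lit 240) (nat_lit 6383) (nat_lit 270) (nat_lit 1292)))))))))))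
noncomputable def s75423 : Cert := .r (nat_lit 3773962425700235452738272624565494821496408338394849567996613751737226405832597614318816088805617525771718779686125522396187586064691839693326399690212496934058588110848) (.p (nat_lit 332) (.a (.f (nat_lit 331) (nat_lit 366) (nat_lit 331) (.d (nat_lit 363) (nat_lit 362) (nat_lit 1354) (nat_lit 364) (nat_lit 1355))) (.a (.f (nat_lit 364) (nat_lit 363) (nat_lit 1355) (.f (nat_lit 300) (nat_lit 299) (nat_lit 3371) (.d (nat_lit 336) (nat_lit 301) (nat_lit 3372) (nat_lit 365) (nat_lit 1356)))) (.a (.f (nat_lit 399) (nat_lit 431) (nat_lit 5454) (.f (nat_lit 366) (nat_lit 331) (nat_lit 331) (.f (nat_lit 300) (nat_lit 299) (nat_lit 3371) (.f (nat_lit 301) (nat_lit 336) (nat_lit 3372) (.f (nat_lit 269) (nat_lit 237) (nat_lit 4333) (.f (nat_lit 364) (nat_lit 396) (nat_lit 6412) (.f (nat_lit 365) (nat_lit 400) (nat_lit 364) (.d (nat_lit 268) (nat_lit 236) (nat_lit 4332) (nat_lit 397)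 (nat_lit 4364))))))))) (.f (nat_lit 331) (nat_lit 366) (nat_lit 331) (.d (nat_lit 299) (nat_lit 298) (nat_lit 3370) (nat_lit 300) (nat_lit 3371)))))))
noncomputable def s75442 : Cert := .r (nat_lit 3773962425700235452738272624565494821496408338394849567996613751737226405832597614318816088805617525771718779686125522396187586064691839693326399690212496934058588110848) (.p (nat_lit 336) (.a (.f (nat_lit 365) (nat_lit 364) (nat_lit 1356) (.f (nat_lit 301) (nat_lit 300) (nat_lit 3372) (.f (nat_lit 397) (nat_lit 429) (nat_lit 4429) (.f (nat_lit 270) (nat_lit 302) (nat_lit 6413) (.f (nat_lit 269) (nat_lit 238) (nat_lit 6381) (.f (nat_lit 304) (nat_lit 305) (nat_lit 2349) (.f (nat_lit 268) (nat_lit 236) (nat_lit 7404) (.f (nat_lit 240) (nat_lit 272) (nat_lit 5359) (.d (nat_lit 271) (nat_lit 239) (nat_lit 2284) (nat_lit 303) (nat_lit 268)))))))))) (.a (.f (nat_lit 399) (nat_lit 431) (nat_lit 5454) (.f (nat_lit 304) (nat_lit 305)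 (nat_lit 2349) (.d (nat_lit 303) (nat_lit 272) (nat_lit 6415) (nat_lit 332) (nat_lit 2348)))) (.a (.f (nat_lit 365) (nat_lit 364) (nat_lit 1356) (.f (nat_lit 397) (nat_lit 429) (nat_lit 4429) (.f (nat_lit 301) (nat_lit 300) (nat_lit 3372) (.f (nat_lit 270) (nat_lit 302) (nat_lit 6413) (.f (nat_lit 269) (nat_lit 238) (nat_lit 6381) (.f (nat_lit 304) (nat_lit 305) (nat_lit 2349) (.f (nat_lit 303) (nat_lit 332) (nat_lit 2348) (.d (nat_lit 268) (nat_lit 236) (nat_lit 7404) (nat_lit 271) (nat_lit 268))))))))) (.f (nat_lit 365) (nat_lit 364) (nat_lit 1356) (.f (nat_lit 397) (nat_lit 429) (nat_lit 4429) (.f (nat_lit 301) (nat_lit 300) (nat_lit 3372) (.f (nat_lit 270) (nat_lit 302) (nat_lit 6413) (.f (nat_lit 269) (nat_lit 238) (nat_lit 6381) (.f (nat_lit 237) (nat_lit 366) (nat_lit 4333) (.d (nat_lit 236) (nat_lit 204) (nat_lit 7372) (nat_lit 268) (nat_lit 7404))))))))))))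
noncomputable def s75446 : Cert := .r (nat_lit 3773962425700235452738272624565494821496408338394849567996613751737226405832597614318816088805617525771718779686125522396187586064691839693326399690212496934058588110848) (.p (nat_lit 336) (.a (.f (nat_lit 365) (nat_lit 364) (nat_lit 1356) (.f (nat_lit 301) (nat_lit 300) (nat_lit 3372) (.f (nat_lit 397) (nat_lit 429) (nat_lit 4429) (.f (nat_lit 270) (nat_lit 302) (nat_lit 6413) (.f (nat_lit 269) (nat_lit 238) (nat_lit 6381) (.f (nat_lit 304) (nat_lit 305) (nat_lit 2349) (.f (nat_lit 268) (nat_lit 236) (nat_lit 7404) (.f (nat_lit 240) (nat_lit 272) (nat_lit 5359) (.d (nat_lit 271) (nat_lit 239) (nat_lit 2284) (nat_lit 303) (nat_lit 268)))))))))) (.a (.f (nat_lit 399) (nat_lit 431) (nat_lit 5454) (.f (nat_lit 304) (nat_lit 305) (nat_lit 2349) (.d (nat_lit 272) (nat_lit 240) (nat_lit 5359) (nat_lit 303) (nat_lit 6415)))) (.f (nat_lit 365) (nat_lit 364) (nat_lit 1356) (.f (nat_lit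 397) (nat_lit 429) (nat_lit 4429) (.f (nat_lit 301) (nat_lit 300) (nat_lit 3372) (.f (nat_lit 270) (nat_lit 302) (nat_lit 6413) (.f (nat_lit 269) (nat_lit 238) (nat_lit 6381) (.f (nat_lit 237) (nat_lit 366) (nat_lit 4333) (.d (nat_lit 236) (nat_lit 204) (nat_lit 7372) (nat_lit 268) (nat_lit 7404)))))))))))
noncomputable def s75454 : Cert := .r (nat_lit 3773962425700235452738272624565494821496408338394849567996613751737226405832597614318816088805617525771718779686125522396187586064691839693326399690212496934058588110848) (.p (nat_lit 332) (.a (.f (nat_lit 331) (nat_lit 366) (nat_lit 331) (.d (nat_lit 363) (nat_lit 362) (nat_lit 1354) (nat_lit 364) (nat_lit 1355))) (.a (.f (nat_lit 399) (nat_lit 431) (nat_lit 5454) (.f (nat_lit 303) (nat_lit 304) (nat_lit 2348) (.f (nat_lit 300) (nat_lit 299) (nat_lit 3371) (.f (nat_lit 364) (nat_lit 363) (nat_lit 1355) (.f (nat_lit 400) (nat_lit 432) (nat_lit 4399) (.f (nat_lit 365) (nat_lit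 366) (nat_lit 364) (.d (nat_lit 268) (nat_lit 236) (nat_lit 4332) (nat_lit 397) (nat_lit 4364)))))))) (.a (.f (nat_lit 303) (nat_lit 304) (nat_lit 2348) (.d (nat_lit 331) (nat_lit 302) (nat_lit 2347) (nat_lit 366) (nat_lit 331))) (.f (nat_lit 399) (nat_lit 431) (nat_lit 5454) (.f (nat_lit 303) (nat_lit 304) (nat_lit 2348) (.d (nat_lit 302) (nat_lit 270) (nat_lit 7438) (nat_lit 331) (nat_lit 2347))))))))
noncomputable def s75455 : Cert := .r (nat_lit 3773962425700235452738272624565494821496408338394849567996613751737226405832597614318816088805617525771718779686125522396187586064691839693326399690212496934058588110848) (.p (nat_lit 332) (.a (.f (nat_lit 303) (nat_lit 304) (nat_lit 2348) (.d (nat_lit 331) (nat_lit 302) (nat_lit 2347) (nat_lit 366) (nat_lit 331))) (.a (.f (nat_lit 303) (nat_lit 304) (nat_lit 2348) (.f (nat_lit 366) (nat_lit 331) (nat_lit 331) (.f (nat_lit 271) (nat_lit 239) (nat_lit 5358) (.f (nat_lit 300)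 (nat_lit 299) (nat_lit 3371) (.f (nat_lit 301) (nat_lit 336) (nat_lit 3372) (.f (nat_lit 269) (nat_lit 237) (nat_lit 4333) (.d (nat_lit 272) (nat_lit 240) (nat_lit 6383) (nat_lit 270) (nat_lit 1292)))))))) (.a (.f (nat_lit 331) (nat_lit 366) (nat_lit 331) (.d (nat_lit 299) (nat_lit 298) (nat_lit 3370) (nat_lit 300) (nat_lit 3371))) (.f (nat_lit 399) (nat_lit 431) (nat_lit 5454) (.f (nat_lit 303) (nat_lit 304) (nat_lit 2348) (.f (nat_lit 302) (nat_lit 270) (nat_lit 7438) (.f (nat_lit 300) (nat_lit 299) (nat_lit 3371) (.f (nat_lit 301) (nat_lit 336) (nat_lit 300) (.f (nat_lit 268) (nat_lit 267) (nat_lit 3339) (.d (nat_lit 236) (nat_lit 204) (nat_lit 4300) (nat_lit 365) (nat_lit 4332))))))))))))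
noncomputable def s75456 : Cert := .r (nat_lit 3773962425700235452738272624565494821496408338394849567996613751737226405832597614318816088805617525771718779686125522396187586064691839693326399690212496934058588110848) (.p (nat_lit 332) (.a (.f (nat_lit 399) (nat_lit 431) (nat_lit 5454) (.f (nat_lit 303) (nat_lit 304) (nat_lit 2348) (.f (nat_lit 302) (nat_lit 270) (nat_lit 7438) (.f (nat_lit 300) (nat_lit 299) (nat_lit 3371) (.f (nat_lit 301) (nat_lit 336) (nat_lit 300) (.f (nat_lit 364) (nat_lit 363) (nat_lit 1355) (.d (nat_lit 269) (nat_lit 237) (nat_lit 5356) (nat_lit 396) (nat_lit 6412)))))))) (.a (.f (nat_lit 399) (nat_lit 431) (nat_lit 5454) (.f (nat_lit 303) (nat_lit 304) (nat_lit 2348) (.f (nat_lit 302) (nat_lit 270) (nat_lit 7438) (.f (nat_lit 300) (nat_lit 299) (nat_lit 3371) (.f (nat_lit 301) (nat_lit 336) (nat_lit 300) (.f (nat_lit 268) (nat_lit 267) (nat_lit 3339) (.d (nat_lit 236) (nat_lit 204) (nat_lit 4300)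 (nat_lit 365) (nat_lit 4332)))))))) (.a (.f (nat_lit 364) (nat_lit 363) (nat_lit 1355) (.f (nat_lit 300) (nat_lit 299) (nat_lit 3371) (.d (nat_lit 336) (nat_lit 301) (nat_lit 3372) (nat_lit 365) (nat_lit 1356)))) (.f (nat_lit 399) (nat_lit 431) (nat_lit 5454) (.f (nat_lit 303) (nat_lit 304) (nat_lit 2348) (.d (nat_lit 302) (nat_lit 270) (nat_lit 7438) (nat_lit 331) (nat_lit 2347))))))))
noncomputable def s75459 : Cert := .r (nat_lit 3773962425700235452738272624565494821496408338394849567996613751737226405832597614318816088805617525771718779686125522396187586064691839693326399690212496934058588110848) (.p (nat_lit 336) (.a (.f (nat_lit 368) (nat_lit 369) (nat_lit 333) (.f (nat_lit 400) (nat_lit 432) (nat_lit 7503) (.f (nat_lit 304) (nat_lit 305) (nat_lit 2349) (.f (nat_lit 271) (nat_lit 303) (nat_lit 4367) (.d (nat_lit 272) (nat_lit 239) (nat_lit 7407) (nat_lit 240) (nat_lit 5359)))))) (.a (.f (nat_lit 368) (nat_lit 369)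 (nat_lit 333) (.f (nat_lit 400) (nat_lit 432) (nat_lit 7503) (.f (nat_lit 304) (nat_lit 305) (nat_lit 2349) (.f (nat_lit 365) (nat_lit 364) (nat_lit 1356) (.d (nat_lit 401) (nat_lit 366) (nat_lit 365) (nat_lit 433) (nat_lit 4400)))))) (.a (.f (nat_lit 368) (nat_lit 369) (nat_lit 333) (.f (nat_lit 365) (nat_lit 364) (nat_lit 1356) (.f (nat_lit 400) (nat_lit 432) (nat_lit 7503) (.f (nat_lit 397) (nat_lit 429) (nat_lit 4429) (.d (nat_lit 366) (nat_lit 396) (nat_lit 1388) (nat_lit 401) (nat_lit 365)))))) (.f (nat_lit 365) (nat_lit 364) (nat_lit 1356) (.f (nat_lit 301) (nat_lit 300) (nat_lit 3372) (.f (nat_lit 397) (nat_lit 429) (nat_lit 4429) (.f (nat_lit 270) (nat_lit 302) (nat_lit 6413) (.f (nat_lit 269) (nat_lit 238) (nat_lit 6381) (.f (nat_lit 304) (nat_lit 305) (nat_lit 2349) (.f (nat_lit 268) (nat_lit 236) (nat_lit 7404) (.f (nat_lit 240) (nat_lit 272) (nat_lit 5359) (.d (nat_lit 271) (nat_lit 239) (nat_lit 2284) (nat_lit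 303) (nat_lit 268))))))))))))))
noncomputable def s75485 : Cert := .r (nat_lit 3773962425700235452738272624565494821496408338394849567996613751737208907826799350223421108787800584800795954330678376696696179899840560069332804682826708828642403680256) (.p (nat_lit 368) (.a (.f (nat_lit 333) (nat_lit 332) (nat_lit 332) (.d (nat_lit 369) (nat_lit 336) (nat_lit 333) (nat_lit 370) (nat_lit 3406))) (.a (.f (nat_lit 399) (nat_lit 431) (nat_lit 5454) (.f (nat_lit 400) (nat_lit 432) (nat_lit 7503) (.f (nat_lit 303) (nat_lit 271) (nat_lit 4367) (.f (nat_lit 302) (nat_lit 270) (nat_lit 7438) (.f (nat_lit 304) (nat_lit 272) (nat_lit 6415) (.f (nat_lit 305) (nat_lit 306) (nat_lit 1326) (.d (nat_lit 273) (nat_lit 274) (nat_lit 2318) (nat_lit 336) (nat_lit 6416)))))))) (.f (nat_lit 399) (nat_lit 431) (nat_lit 5454) (.f (nat_lit 400) (nat_lit 432) (nat_lit 7503) (.f (nat_lit 303) (nat_lit 271) (nat_lit 4367) (.f (nat_lit 304) (nat_lit 272)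 (nat_lit 6415) (.f (nat_lit 333) (nat_lit 332) (nat_lit 332) (.d (nat_lit 305) (nat_lit 302) (nat_lit 1325) (nat_lit 306) (nat_lit 1326))))))))))
noncomputable def s75504 : Cert := .r (nat_lit 3773962425700235452738272624565494821496408338396140692935657206032036867412800856160585961684215196557211284008948700507704600497155382745972873598544660414628777426944) (.p (nat_lit 303) (.a (.f (nat_lit 302) (nat_lit 270) (nat_lit 7438) (.f (nat_lit 304) (nat_lit 272) (nat_lit 6415) (.d (nat_lit 305) (nat_lit 306) (nat_lit 1326) (nat_lit 333) (nat_lit 1325)))) (.a (.f (nat_lit 304) (nat_lit 272) (nat_lit 6415) (.f (nat_lit 333) (nat_lit 332) (nat_lit 2348) (.d (nat_lit 305) (nat_lit 302) (nat_lit 1325) (nat_lit 306) (nat_lit 1326)))) (.a (.f (nat_lit 270) (nat_lit 302) (nat_lit 7438) (.f (nat_lit 271) (nat_lit 238) (nat_lit 7406) (.f (nat_lit 239) (nat_lit 366) (nat_lit 5358) (.f (nat_lit 336) (nat_lit 368) (nat_lit 4335) (.f (nat_lit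 304) (nat_lit 207) (nat_lit 4303) (.d (nat_lit 333) (nat_lit 305) (nat_lit 2349) (nat_lit 332) (nat_lit 2348))))))) (.a (.f (nat_lit 304) (nat_lit 272) (nat_lit 6415) (.f (nat_lit 333) (nat_lit 332) (nat_lit 2348) (.d (nat_lit 305) (nat_lit 306) (nat_lit 1326) (nat_lit 336) (nat_lit 2349)))) (.f (nat_lit 270) (nat_lit 302) (nat_lit 7438) (.f (nat_lit 271) (nat_lit 238) (nat_lit 7406) (.f (nat_lit 239) (nat_lit 366) (nat_lit 5358) (.d (nat_lit 240) (nat_lit 208) (nat_lit 6351) (nat_lit 272) (nat_lit 6383))))))))))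
noncomputable def s75523 : Cert := .r (nat_lit 3773962425700235452738272624565494821496408338394849567996613751737226405832597614318816088805617525771718779686125522396187586064691839693326399690212496934058588110848) (.p (nat_lit 332) (.a (.f (nat_lit 399) (nat_lit 431) (nat_lit 5454) (.f (nat_lit 303) (nat_lit 304) (nat_lit 2348) (.f (nat_lit 302) (nat_lit 270) (nat_lit 7438) (.f (nat_lit 300) (nat_lit 299) (nat_lit 3371) (.f (nat_lit 301) (nat_lit 336) (nat_lit 300) (.f (nat_lit 364) (nat_lit 363) (nat_lit 1355) (.d (nat_lit 269) (nat_lit 237) (nat_lit 5356) (nat_lit 396) (nat_lit 6412)))))))) (.a (.f (nat_lit 364) (nat_lit 363) (nat_lit 1355) (.f (nat_lit 300) (nat_lit 299) (nat_lit 3371) (.d (nat_lit 336) (nat_lit 301) (nat_lit 3372) (nat_lit 365) (nat_lit 1356)))) (.f (nat_lit 399) (nat_lit 431) (nat_lit 5454) (.f (nat_lit 303) (nat_lit 304) (nat_lit 2348) (.d (nat_lit 302) (nat_lit 270) (nat_lit 7438) (nat_lit 331)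 (nat_lit 2347)))))))
noncomputable def s75531 : Cert := .r (nat_lit 3773962425700235452738272624565494821496408338394849567996613751737226405832597614318816088805617525771718779686125522396187586064691839693326399690212496934058588110848) (.p (nat_lit 336) (.a (.f (nat_lit 365) (nat_lit 364) (nat_lit 1356) (.f (nat_lit 301) (nat_lit 300) (nat_lit 3372) (.f (nat_lit 397) (nat_lit 429) (nat_lit 4429) (.f (nat_lit 270) (nat_lit 302) (nat_lit 6413) (.f (nat_lit 269) (nat_lit 238) (nat_lit 6381) (.f (nat_lit 304) (nat_lit 305) (nat_lit 2349) (.f (nat_lit 268) (nat_lit 236) (nat_lit 7404) (.f (nat_lit 240) (nat_lit 272) (nat_lit 5359) (.d (nat_lit 271) (nat_lit 239) (nat_lit 2284) (nat_lit 303) (nat_lit 268)))))))))) (.a (.f (nat_lit 399) (nat_lit 431) (nat_lit 5454) (.f (nat_lit 304) (nat_lit 305) (nat_lit 2349) (.d (nat_lit 303) (nat_lit 272) (nat_lit 6415) (nat_lit 332) (nat_lit 2348)))) (.a (.f (nat_lit 365) (nat_lit 364)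 (nat_lit 1356) (.f (nat_lit 397) (nat_lit 429) (nat_lit 4429) (.f (nat_lit 301) (nat_lit 300) (nat_lit 3372) (.f (nat_lit 270) (nat_lit 302) (nat_lit 6413) (.f (nat_lit 269) (nat_lit 238) (nat_lit 6381) (.f (nat_lit 304) (nat_lit 305) (nat_lit 2349) (.f (nat_lit 303) (nat_lit 332) (nat_lit 2348) (.d (nat_lit 268) (nat_lit 236) (nat_lit 7404) (nat_lit 271) (nat_lit 268))))))))) (.a (.f (nat_lit 301) (nat_lit 300) (nat_lit 3372) (.f (nat_lit 337) (nat_lit 302) (nat_lit 3373) (.d (nat_lit 305) (nat_lit 304) (nat_lit 2349) (nat_lit 306) (nat_lit 2350)))) (.f (nat_lit 365) (nat_lit 364) (nat_lit 1356) (.f (nat_lit 301) (nat_lit 300) (nat_lit 3372) (.f (nat_lit 302) (nat_lit 337) (nat_lit 3373) (.d (nat_lit 397) (nat_lit 270) (nat_lit 6413) (nat_lit 429) (nat_lit 4429))))))))))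
noncomputable def s75545 : Cert := .r (nat_lit 3773962425700235452738272624565494821496408338394849567996613751737226405832597614318816088805617525771718779686125522396187586064691839693326399690212496934058588110848) (.p (nat_lit 332) (.a (.f (nat_lit 364) (nat_lit 363) (nat_lit 1355) (.f (nat_lit 300) (nat_lit 299) (nat_lit 3371) (.d (nat_lit 336) (nat_lit 301) (nat_lit 3372) (nat_lit 365) (nat_lit 1356)))) (.a (.f (nat_lit 303) (nat_lit 304) (nat_lit 2348) (.f (nat_lit 364) (nat_lit 363) (nat_lit 1355) (.f (nat_lit 336) (nat_lit 365) (nat_lit 1356) (.f (nat_lit 301) (nat_lit 300) (nat_lit 3372) (.d (nat_lit 302) (nat_lit 331) (nat_lit 2347) (nat_lit 337) (nat_lit 3373)))))) (.a (.f (nat_lit 303) (nat_lit 304) (nat_lit 2348) (.f (nat_lit 331) (nat_lit 302) (nat_lit 2347) (.d (nat_lit 363) (nat_lit 362) (nat_lit 1354) (nat_lit 364) (nat_lit 1355)))) (.f (nat_lit 303) (nat_lit 304) (nat_lit 2348) (.f (nat_lit 300) (nat_lit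 299) (nat_lit 3371) (.f (nat_lit 301) (nat_lit 336) (nat_lit 3372) (.f (nat_lit 302) (nat_lit 331) (nat_lit 2347) (.f (nat_lit 268) (nat_lit 267) (nat_lit 3339) (.d (nat_lit 236) (nat_lit 204) (nat_lit 4300) (nat_lit 365) (nat_lit 4332)))))))))))
noncomputable def s75562 : Cert := .r (nat_lit 3773962425700235452738272624565494821496408338394849567996613751737226405832597614318816088805617525771718779686125522396187586064691839693326399690212496934058588110848) (.p (nat_lit 303) (.a (.f (nat_lit 399) (nat_lit 431) (nat_lit 5454) (.d (nat_lit 304) (nat_lit 272) (nat_lit 6415) (nat_lit 332) (nat_lit 2348))) (.a (.f (nat_lit 399) (nat_lit 431) (nat_lit 5454) (.f (nat_lit 302) (nat_lit 270) (nat_lit 7438) (.d (nat_lit 332) (nat_lit 304) (nat_lit 2348) (nat_lit 331) (nat_lit 2347)))) (.a (.f (nat_lit 399) (nat_lit 431) (nat_lit 5454) (.f (nat_lit 302) (nat_lit 270) (nat_lit 7438) (.f (nat_lit 332) (nat_lit 331) (nat_lit 2347)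 (.f (nat_lit 364) (nat_lit 363) (nat_lit 1355) (.f (nat_lit 336) (nat_lit 365) (nat_lit 1356) (.d (nat_lit 337) (nat_lit 301) (nat_lit 3373) (nat_lit 338) (nat_lit 3374))))))) (.a (.f (nat_lit 399) (nat_lit 431) (nat_lit 5454) (.f (nat_lit 302) (nat_lit 270) (nat_lit 7438) (.d (nat_lit 304) (nat_lit 272) (nat_lit 6415) (nat_lit 305) (nat_lit 1325)))) (.f (nat_lit 304) (nat_lit 332) (nat_lit 2348) (.d (nat_lit 305) (nat_lit 302) (nat_lit 1325) (nat_lit 306) (nat_lit 1326))))))))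
noncomputable def s75577 : Cert := .r (nat_lit 3773962425700235452738272624565494821496408338394849567996613751737226405832597614318816088805617525771718779686125522396187586064691839693326399690212496934058588110848) (.p (nat_lit 332) (.a (.f (nat_lit 364) (nat_lit 363) (nat_lit 1355) (.f (nat_lit 300) (nat_lit 299) (nat_lit 3371) (.d (nat_lit 336) (nat_lit 301) (nat_lit 3372) (nat_lit 365) (nat_lit 1356)))) (.a (.f (nat_lit 364) (nat_lit 363) (nat_lit 1355) (.f (nat_lit 336) (nat_lit 365) (nat_lit 1356) (.d (nat_lit 304) (nat_lit 303) (nat_lit 2348) (nat_lit 305) (nat_lit 2349)))) (.a (.f (nat_lit 299) (nat_lit 300) (nat_lit 3371) (.f (nat_lit 331) (nat_lit 298) (nat_lit 3370) (.d (nat_lit 363) (nat_lit 362) (nat_lit 1354) (nat_lit 364) (nat_lit 1355)))) (.f (nat_lit 300) (nat_lit 299) (nat_lit 3371) (.f (nat_lit 336) (nat_lit 301) (nat_lit 3372) (.d (nat_lit 304) (nat_lit 303) (nat_lit 2348) (nat_lit 305) (nat_lit 2349))))))))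
noncomputable def s75618 : Cert := .r (nat_lit 3773962425700235452738272624565494821496408338394849567996613751737226405832597614318816088805617525771718779686125522396187586064691839693326399690212496934058588110848) (.p (nat_lit 332) (.a (.f (nat_lit 364) (nat_lit 363) (nat_lit 1355) (.f (nat_lit 300) (nat_lit 299) (nat_lit 3371) (.d (nat_lit 336) (nat_lit 301) (nat_lit 3372) (nat_lit 365) (nat_lit 1356)))) (.a (.f (nat_lit 364) (nat_lit 363) (nat_lit 1355) (.f (nat_lit 336) (nat_lit 365) (nat_lit 1356) (.f (nat_lit 301) (nat_lit 300) (nat_lit 3372) (.f (nat_lit 302) (nat_lit 337) (nat_lit 3373) (.d (nat_lit 331) (nat_lit 303) (nat_lit 2347) (nat_lit 330) (nat_lit 2346)))))) (.a (.f (nat_lit 363) (nat_lit 364) (nat_lit 1355) (.f (nat_lit 331) (nat_lit 362) (nat_lit 1354) (.f (nat_lit 302) (nat_lit 303) (nat_lit 2347) (.f (nat_lit 330) (nat_lit 301) (nat_lit 2346) (.d (nat_lit 298) (nat_lit 297) (nat_lit 3369) (nat_lit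 299) (nat_lit 3370)))))) (.a (.f (nat_lit 364) (nat_lit 363) (nat_lit 1355) (.f (nat_lit 300) (nat_lit 299) (nat_lit 3371) (.f (nat_lit 365) (nat_lit 336) (nat_lit 1356) (.d (nat_lit 268) (nat_lit 236) (nat_lit 4332) (nat_lit 397) (nat_lit 4364))))) (.a (.f (nat_lit 299) (nat_lit 300) (nat_lit 3371) (.f (nat_lit 331) (nat_lit 298) (nat_lit 3370) (.f (nat_lit 302) (nat_lit 303) (nat_lit 2347) (.f (nat_lit 301) (nat_lit 330) (nat_lit 2346) (.f (nat_lit 270) (nat_lit 238) (nat_lit 4334) (.f (nat_lit 365) (nat_lit 397) (nat_lit 6413) (.d (nat_lit 336) (nat_lit 337) (nat_lit 3373) (nat_lit 364) (nat_lit 1356)))))))) (.f (nat_lit 299) (nat_lit 300) (nat_lit 3371) (.f (nat_lit 331) (nat_lit 298) (nat_lit 3370) (.f (nat_lit 302) (nat_lit 303) (nat_lit 2347) (.f (nat_lit 330) (nat_lit 301) (nat_lit 2346) (.d (nat_lit 362) (nat_lit 361) (nat_lit 1353) (nat_lit 363) (nat_lit 1354))))))))))))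
noncomputable def s75629 : Cert := .r (nat_lit 3773962425700235452738272624565494821496408338394849567996613751737226405832597614318816088805617525771718779686125522396187586064691839693326399690212496934058588110848) (.p (nat_lit 332) (.a (.f (nat_lit 399) (nat_lit 431) (nat_lit 5454) (.f (nat_lit 303) (nat_lit 304) (nat_lit 2348) (.d (nat_lit 302) (nat_lit 270) (nat_lit 7438) (nat_lit 331) (nat_lit 2347)))) (.a (.f (nat_lit 303) (nat_lit 304) (nat_lit 2348) (.f (nat_lit 331) (nat_lit 302) (nat_lit 2347) (.d (nat_lit 363) (nat_lit 362) (nat_lit 1354) (nat_lit 364) (nat_lit 1355)))) (.a (.f (nat_lit 299) (nat_lit 300) (nat_lit 3371) (.f (nat_lit 331) (nat_lit 298) (nat_lit 3370) (.d (nat_lit 363) (nat_lit 362) (nat_lit 1354) (nat_lit 364) (nat_lit 1355)))) (.f (nat_lit 399) (nat_lit 431) (nat_lit 5454) (.f (nat_lit 303) (nat_lit 304) (nat_lit 2348) (.f (nat_lit 270) (nat_lit 302) (nat_lit 7438) (.f (nat_lit 271) (nat_lit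 238) (nat_lit 7406) (.f (nat_lit 240) (nat_lit 272) (nat_lit 6383) (.f (nat_lit 239) (nat_lit 208) (nat_lit 6351) (.f (nat_lit 300) (nat_lit 299) (nat_lit 3371) (.f (nat_lit 268) (nat_lit 269) (nat_lit 2284) (.f (nat_lit 364) (nat_lit 363) (nat_lit 1355) (.d (nat_lit 365) (nat_lit 236) (nat_lit 4332) (nat_lit 397) (nat_lit 4364)))))))))))))))
noncomputable def s75635 : Cert := .r (nat_lit 3773962425700235452738272624565494821496408338394849567996613751737208907826799350223421108787800584800795954330678376696696179899840560069332804682826708828642403680256) (.p (nat_lit 333) (.a s75456 (.a s75523 (.a s75531 (.a (.p (nat_lit 336) (.a (.f (nat_lit 399) (nat_lit 431) (nat_lit 5454) (.f (nat_lit 304) (nat_lit 305) (nat_lit 2349) (.d (nat_lit 303) (nat_lit 272) (nat_lit 6415) (nat_lit 332) (nat_lit 2348)))) (.a (.f (nat_lit 301) (nat_lit 300) (nat_lit 3372) (.f (nat_lit 337) (nat_lit 302) (nat_lit 3373) (.d (nat_lit 305) (nat_lit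 304) (nat_lit 2349) (nat_lit 306) (nat_lit 2350)))) (.f (nat_lit 365) (nat_lit 364) (nat_lit 1356) (.f (nat_lit 301) (nat_lit 300) (nat_lit 3372) (.f (nat_lit 302) (nat_lit 337) (nat_lit 3373) (.d (nat_lit 397) (nat_lit 270) (nat_lit 6413) (nat_lit 429) (nat_lit 4429)))))))) (.a s75545 (.a s75562 (.a (.p (nat_lit 332) (.a (.f (nat_lit 399) (nat_lit 431) (nat_lit 5454) (.f (nat_lit 303) (nat_lit 304) (nat_lit 2348) (.d (nat_lit 302) (nat_lit 270) (nat_lit 7438) (nat_lit 331) (nat_lit 2347)))) (.a (.f (nat_lit 303) (nat_lit 304) (nat_lit 2348) (.f (nat_lit 331) (nat_lit 302) (nat_lit 2347) (.d (nat_lit 363) (nat_lit 362) (nat_lit 1354) (nat_lit 364) (nat_lit 1355)))) (.f (nat_lit 364) (nat_lit 363) (nat_lit 1355) (.f (nat_lit 300) (nat_lit 299) (nat_lit 3371) (.f (nat_lit 365) (nat_lit 336) (nat_lit 1356) (.d (nat_lit 268) (nat_lit 236) (nat_lit 4332) (nat_lit 397) (nat_lit 4364)))))))) (.a s75577 (.a (.p (nat_lit 336) (.a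 (.f (nat_lit 301) (nat_lit 300) (nat_lit 3372) (.f (nat_lit 337) (nat_lit 302) (nat_lit 3373) (.d (nat_lit 305) (nat_lit 304) (nat_lit 2349) (nat_lit 306) (nat_lit 2350)))) (.a (.f (nat_lit 431) (nat_lit 399) (nat_lit 5454) (.f (nat_lit 365) (nat_lit 364) (nat_lit 1356) (.f (nat_lit 429) (nat_lit 397) (nat_lit 4429) (.f (nat_lit 432) (nat_lit 465) (nat_lit 429) (.f (nat_lit 401) (nat_lit 400) (nat_lit 2445) (.f (nat_lit 433) (nat_lit 402) (nat_lit 2446) (.f (nat_lit 337) (nat_lit 369) (nat_lit 5456) (.d (nat_lit 305) (nat_lit 304) (nat_lit 2349) (nat_lit 306) (nat_lit 2350))))))))) (.a (.f (nat_lit 365) (nat_lit 364) (nat_lit 1356) (.f (nat_lit 301) (nat_lit 300) (nat_lit 3372) (.f (nat_lit 302) (nat_lit 337) (nat_lit 3373) (.d (nat_lit 397) (nat_lit 270) (nat_lit 6413) (nat_lit 429) (nat_lit 4429))))) (.f (nat_lit 365) (nat_lit 364) (nat_lit 1356) (.f (nat_lit 397) (nat_lit 429) (nat_lit 4429) (.f (nat_lit 301) (nat_lit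 300) (nat_lit 3372) (.f (nat_lit 270) (nat_lit 302) (nat_lit 6413) (.f (nat_lit 269) (nat_lit 238) (nat_lit 6381) (.f (nat_lit 236) (nat_lit 268) (nat_lit 7404) (.f (nat_lit 237) (nat_lit 204) (nat_lit 7372) (.f (nat_lit 304) (nat_lit 305) (nat_lit 2349) (.d (nat_lit 272) (nat_lit 240) (nat_lit 5359) (nat_lit 271) (nat_lit 3308)))))))))))))) (.a s75618 (.a s75629 (.a (.p (nat_lit 303) (.a (.f (nat_lit 399) (nat_lit 431) (nat_lit 5454) (.d (nat_lit 304) (nat_lit 272) (nat_lit 6415) (nat_lit 332) (nat_lit 2348))) (.a (.f (nat_lit 399) (nat_lit 431) (nat_lit 5454) (.f (nat_lit 302) (nat_lit 270) (nat_lit 7438) (.d (nat_lit 332) (nat_lit 304) (nat_lit 2348) (nat_lit 331) (nat_lit 2347)))) (.a (.f (nat_lit 399) (nat_lit 431) (nat_lit 5454) (.f (nat_lit 302) (nat_lit 270) (nat_lit 7438) (.f (nat_lit 332) (nat_lit 331) (nat_lit 2347) (.f (nat_lit 300) (nat_lit 299) (nat_lit 3371) (.f (nat_lit 301) (nat_lit 336) (nat_lit 300) (.f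 (nat_lit 268) (nat_lit 267) (nat_lit 3339) (.d (nat_lit 236) (nat_lit 204) (nat_lit 4300) (nat_lit 365) (nat_lit 4332)))))))) (.a (.f (nat_lit 399) (nat_lit 431) (nat_lit 5454) (.f (nat_lit 302) (nat_lit 270) (nat_lit 7438) (.d (nat_lit 304) (nat_lit 272) (nat_lit 6415) (nat_lit 305) (nat_lit 1325)))) (.f (nat_lit 304) (nat_lit 332) (nat_lit 2348) (.d (nat_lit 305) (nat_lit 302) (nat_lit 1325) (nat_lit 306) (nat_lit 1326)))))))) (.p (nat_lit 332) (.a (.f (nat_lit 399) (nat_lit 431) (nat_lit 5454) (.f (nat_lit 303) (nat_lit 304) (nat_lit 2348) (.f (nat_lit 302) (nat_lit 270) (nat_lit 7438) (.f (nat_lit 300) (nat_lit 299) (nat_lit 3371) (.f (nat_lit 301) (nat_lit 336) (nat_lit 300) (.f (nat_lit 364) (nat_lit 363) (nat_lit 1355) (.d (nat_lit 269) (nat_lit 237) (nat_lit 5356) (nat_lit 396) (nat_lit 6412)))))))) (.a (.f (nat_lit 399) (nat_lit 431) (nat_lit 5454) (.f (nat_lit 303) (nat_lit 304) (nat_lit 2348) (.d (nat_lit 302)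 (nat_lit 270) (nat_lit 7438) (nat_lit 331) (nat_lit 2347)))) (.a (.f (nat_lit 303) (nat_lit 304) (nat_lit 2348) (.f (nat_lit 331) (nat_lit 302) (nat_lit 2347) (.d (nat_lit 363) (nat_lit 362) (nat_lit 1354) (nat_lit 364) (nat_lit 1355)))) (.f (nat_lit 299) (nat_lit 300) (nat_lit 3371) (.f (nat_lit 331) (nat_lit 298) (nat_lit 3370) (.d (nat_lit 363) (nat_lit 362) (nat_lit 1354) (nat_lit 364) (nat_lit 1355)))))))))))))))))))))
noncomputable def s75671 : Cert := .r (nat_lit 3773962425700235452738272624565494821496408338394849567996613751737348891873185462986580948930336112568178557174255542292627429218650797061281564741913013671971879124992) (.p (nat_lit 337) (.a (.d (nat_lit 366) (nat_lit 338) (nat_lit 1358) (nat_lit 365) (nat_lit 1357)) (.a (.f (nat_lit 365) (nat_lit 366) (nat_lit 1357) (.f (nat_lit 333) (nat_lit 364) (nat_lit 1356) (.d (nat_lit 305) (nat_lit 304) (nat_lit 2349) (nat_lit 306) (nat_lit 2350)))) (.a (.f (nat_lit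 338) (nat_lit 366) (nat_lit 1358) (.d (nat_lit 370) (nat_lit 369) (nat_lit 334) (nat_lit 371) (nat_lit 335))) (.f (nat_lit 305) (nat_lit 306) (nat_lit 2350) (.f (nat_lit 333) (nat_lit 304) (nat_lit 2349) (.f (nat_lit 364) (nat_lit 365) (nat_lit 1356) (.f (nat_lit 332) (nat_lit 363) (nat_lit 1355) (.d (nat_lit 300) (nat_lit 299) (nat_lit 3371) (nat_lit 301) (nat_lit 3372))))))))))
noncomputable def s75689 : Cert := .r (nat_lit 3773962425700235452738272624565494821496408338394849567996613751737226405832597614318816088805617525771718779686125522396187586064691839693326399690212496934058588110848) (.p (nat_lit 332) (.a (.f (nat_lit 331) (nat_lit 366) (nat_lit 331) (.d (nat_lit 363) (nat_lit 362) (nat_lit 1354) (nat_lit 364) (nat_lit 1355))) (.a (.f (nat_lit 399) (nat_lit 431) (nat_lit 5454) (.f (nat_lit 303) (nat_lit 304) (nat_lit 2348) (.f (nat_lit 364) (nat_lit 363) (nat_lit 1355) (.f (nat_lit 365) (nat_lit 336) (nat_lit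 1356) (.d (nat_lit 400) (nat_lit 366) (nat_lit 364) (nat_lit 432) (nat_lit 4399)))))) (.a (.f (nat_lit 303) (nat_lit 304) (nat_lit 2348) (.d (nat_lit 331) (nat_lit 302) (nat_lit 2347) (nat_lit 366) (nat_lit 331))) (.f (nat_lit 303) (nat_lit 304) (nat_lit 2348) (.f (nat_lit 331) (nat_lit 302) (nat_lit 2347) (.d (nat_lit 363) (nat_lit 362) (nat_lit 1354) (nat_lit 364) (nat_lit 1355))))))))
noncomputable def s75931 : Cert := .r (nat_lit 3773962425700235452738272624565494821496408338394849567996613751737348891873185462986580948930336112568178557174255542292627429218650797061281564741913013671971879124992) (.p (nat_lit 333) (.a (.f (nat_lit 365) (nat_lit 364) (nat_lit 1356) (.f (nat_lit 397) (nat_lit 429) (nat_lit 4429) (.f (nat_lit 301) (nat_lit 300) (nat_lit 3372) (.f (nat_lit 270) (nat_lit 302) (nat_lit 6413) (.f (nat_lit 269) (nat_lit 238) (nat_lit 6381) (.f (nat_lit 237) (nat_lit 366) (nat_lit 4333) (.d (nat_lit 236) (nat_lit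 204) (nat_lit 7372) (nat_lit 268) (nat_lit 7404)))))))) (.a (.f (nat_lit 364) (nat_lit 365) (nat_lit 1356) (.f (nat_lit 332) (nat_lit 363) (nat_lit 1355) (.d (nat_lit 300) (nat_lit 299) (nat_lit 3371) (nat_lit 301) (nat_lit 3372)))) (.a (.f (nat_lit 364) (nat_lit 365) (nat_lit 1356) (.f (nat_lit 332) (nat_lit 363) (nat_lit 1355) (.f (nat_lit 303) (nat_lit 304) (nat_lit 2348) (.d (nat_lit 331) (nat_lit 302) (nat_lit 2347) (nat_lit 366) (nat_lit 331))))) (.f (nat_lit 300) (nat_lit 301) (nat_lit 3372) (.f (nat_lit 332) (nat_lit 299) (nat_lit 3371) (.f (nat_lit 303) (nat_lit 304) (nat_lit 2348) (.d (nat_lit 331) (nat_lit 302) (nat_lit 2347) (nat_lit 366) (nat_lit 331)))))))))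
noncomputable def s75956 : Cert := .r (nat_lit 3773962425700235452738272624565494821496408338396140692935657206032036867412800856160585961684215196557211284008948700507704600497155382745972873598544660414628777426944) (.p (nat_lit 303) (.a (.f (nat_lit 302) (nat_lit 270) (nat_lit 7438) (.f (nat_lit 304) (nat_lit 272) (nat_lit 6415) (.d (nat_lit 305) (nat_lit 306) (nat_lit 1326) (nat_lit 333) (nat_lit 1325)))) (.a (.f (nat_lit 304) (nat_lit 272) (nat_lit 6415) (.f (nat_lit 333) (nat_lit 332) (nat_lit 2348) (.d (nat_lit 305) (nat_lit 302) (nat_lit 1325) (nat_lit 306) (nat_lit 1326)))) (.a (.p (nat_lit 271) (.a (.d (nat_lit 270) (nat_lit 238) (nat_lit 7406) (nat_lit 302) (nat_lit 7438)) (.a (.f (nat_lit 302) (nat_lit 270) (nat_lit 7438) (.d (nat_lit 239) (nat_lit 207) (nat_lit 5326) (nat_lit 366) (nat_lit 5358))) (.a (.f (nat_lit 239) (nat_lit 366) (nat_lit 5358) (.f (nat_lit 207) (nat_lit 302) (nat_lit 5326) (.d (nat_lit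 208) (nat_lit 176) (nat_lit 6319) (nat_lit 240) (nat_lit 6351)))) (.f (nat_lit 239) (nat_lit 366) (nat_lit 5358) (.d (nat_lit 238) (nat_lit 206) (nat_lit 7374) (nat_lit 270) (nat_lit 7406))))))) (.f (nat_lit 272) (nat_lit 304) (nat_lit 6415) (.f (nat_lit 271) (nat_lit 240) (nat_lit 6383) (.f (nat_lit 239) (nat_lit 366) (nat_lit 5358) (.d (nat_lit 238) (nat_lit 206) (nat_lit 7374) (nat_lit 270) (nat_lit 7406)))))))))
noncomputable def s75974 : Cert := .r (nat_lit 3773962425700235452738272624565494821496408338394849567996613751737593863954361160322110669179773286161098112150515582085507115526568711797191894845314047147798461153280) (.p (nat_lit 334) (.a (.f (nat_lit 365) (nat_lit 366) (nat_lit 1357) (.f (nat_lit 333) (nat_lit 364) (nat_lit 1356) (.d (nat_lit 305) (nat_lit 304) (nat_lit 2349) (nat_lit 306) (nat_lit 2350)))) (.a (.f (nat_lit 369) (nat_lit 370) (nat_lit 334) (.f (nat_lit 368) (nat_lit 333) (nat_lit 333) (.f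 (nat_lit 400) (nat_lit 432) (nat_lit 6480) (.d (nat_lit 305) (nat_lit 273) (nat_lit 5392) (nat_lit 306) (nat_lit 2350))))) (.a (.f (nat_lit 369) (nat_lit 370) (nat_lit 334) (.f (nat_lit 368) (nat_lit 333) (nat_lit 333) (.f (nat_lit 400) (nat_lit 432) (nat_lit 7503) (.f (nat_lit 366) (nat_lit 365) (nat_lit 1357) (.f (nat_lit 401) (nat_lit 402) (nat_lit 366) (.d (nat_lit 304) (nat_lit 272) (nat_lit 4368) (nat_lit 433) (nat_lit 4400))))))) (.f (nat_lit 305) (nat_lit 306) (nat_lit 2350) (.f (nat_lit 366) (nat_lit 365) (nat_lit 1357) (.f (nat_lit 302) (nat_lit 301) (nat_lit 3373) (.f (nat_lit 270) (nat_lit 238) (nat_lit 4334) (.f (nat_lit 271) (nat_lit 239) (nat_lit 6382) (.f (nat_lit 269) (nat_lit 237) (nat_lit 7405) (.d (nat_lit 304) (nat_lit 272) (nat_lit 269) (nat_lit 303) (nat_lit 3341))))))))))))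
noncomputable def s75994 : Cert := .r (nat_lit 3773962425700235452738272624565494821496408338394849567996613751737593863954361160322110669179773286161098112150515582085507115526568711797191894845314047147798461153280) (.p (nat_lit 334) (.a (.f (nat_lit 365) (nat_lit 366) (nat_lit 1357) (.f (nat_lit 333) (nat_lit 364) (nat_lit 1356) (.d (nat_lit 305) (nat_lit 304) (nat_lit 2349) (nat_lit 306) (nat_lit 2350)))) (.a (.f (nat_lit 369) (nat_lit 370) (nat_lit 334) (.f (nat_lit 368) (nat_lit 333) (nat_lit 333) (.f (nat_lit 400) (nat_lit 432) (nat_lit 6480) (.d (nat_lit 305) (nat_lit 273) (nat_lit 5392) (nat_lit 306) (nat_lit 2350))))) (.a (.f (nat_lit 369) (nat_lit 370) (nat_lit 334) (.f (nat_lit 368) (nat_lit 333) (nat_lit 333) (.f (nat_lit 400) (nat_lit 432) (nat_lit 7503) (.f (nat_lit 366) (nat_lit 365) (nat_lit 1357) (.f (nat_lit 401) (nat_lit 402) (nat_lit 366) (.d (nat_lit 304) (nat_lit 272) (nat_lit 4368) (nat_lit 433)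 (nat_lit 4400))))))) (.p (nat_lit 368) (.a (.f (nat_lit 369) (nat_lit 370) (nat_lit 334) (.f (nat_lit 400) (nat_lit 432) (nat_lit 7503) (.d (nat_lit 305) (nat_lit 273) (nat_lit 5392) (nat_lit 306) (nat_lit 2350)))) (.a (.f (nat_lit 369) (nat_lit 370) (nat_lit 3406) (.f (nat_lit 400) (nat_lit 432) (nat_lit 7503) (.f (nat_lit 366) (nat_lit 365) (nat_lit 1357) (.f (nat_lit 401) (nat_lit 402) (nat_lit 366) (.d (nat_lit 304) (nat_lit 272) (nat_lit 4368) (nat_lit 433) (nat_lit 4400)))))) (.a (.f (nat_lit 400) (nat_lit 432) (nat_lit 7503) (.f (nat_lit 305) (nat_lit 306) (nat_lit 2350) (.d (nat_lit 273) (nat_lit 241) (nat_lit 5360) (nat_lit 304) (nat_lit 6416)))) (.a (.f (nat_lit 369) (nat_lit 370) (nat_lit 334) (.f (nat_lit 366) (nat_lit 365) (nat_lit 1357) (.f (nat_lit 401) (nat_lit 402) (nat_lit 366) (.d (nat_lit 433) (nat_lit 304) (nat_lit 7472) (nat_lit 432) (nat_lit 5456))))) (.f (nat_lit 369) (nat_lit 370) (nat_lit 3406)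 (.f (nat_lit 366) (nat_lit 365) (nat_lit 1357) (.f (nat_lit 401) (nat_lit 402) (nat_lit 366) (.d (nat_lit 304) (nat_lit 272) (nat_lit 4368) (nat_lit 433) (nat_lit 7472))))))))))))))
noncomputable def s76023 : Cert := .r (nat_lit 3773962425700235452738272624565494821496408338394849567996613751737593863954361160322110669179773286161098112150515582085507115526568711797191894845314047147798461153280) (.p (nat_lit 334) (.a (.f (nat_lit 365) (nat_lit 366) (nat_lit 1357) (.f (nat_lit 333) (nat_lit 364) (nat_lit 1356) (.d (nat_lit 305) (nat_lit 304) (nat_lit 2349) (nat_lit 306) (nat_lit 2350)))) (.a (.f (nat_lit 365) (nat_lit 366) (nat_lit 1357) (.f (nat_lit 333) (nat_lit 364) (nat_lit 1356) (.d (nat_lit 301) (nat_lit 300) (nat_lit 3372) (nat_lit 302) (nat_lit 3373)))) (.a (.f (nat_lit 305) (nat_lit 306) (nat_lit 2350) (.f (nat_lit 366) (nat_lit 365) (nat_lit 1357) (.f (nat_lit 302) (nat_lit 301) (nat_lit 3373) (.f (nat_lit 270)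 (nat_lit 238) (nat_lit 4334) (.f (nat_lit 271) (nat_lit 239) (nat_lit 6382) (.f (nat_lit 269) (nat_lit 237) (nat_lit 7405) (.d (nat_lit 304) (nat_lit 272) (nat_lit 269) (nat_lit 303) (nat_lit 3341)))))))) (.f (nat_lit 305) (nat_lit 306) (nat_lit 2350) (.f (nat_lit 369) (nat_lit 370) (nat_lit 334) (.f (nat_lit 304) (nat_lit 333) (nat_lit 2349) (.d (nat_lit 272) (nat_lit 240) (nat_lit 4336) (nat_lit 401) (nat_lit 7440)))))))))
noncomputable def s76078 : Cert := .r (nat_lit 3773962425700235452738272624565494821496408338394849567996613751737593863954361160322110669179773286161098112150515582085507115526568711797191894845314047147798461153280) (.p (nat_lit 334) (.a (.f (nat_lit 369) (nat_lit 370) (nat_lit 334) (.f (nat_lit 368) (nat_lit 333) (nat_lit 333) (.f (nat_lit 400) (nat_lit 432) (nat_lit 7503) (.f (nat_lit 366) (nat_lit 365) (nat_lit 1357) (.f (nat_lit 401) (nat_lit 402) (nat_lit 366) (.d (nat_lit 304) (nat_lit 272)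 (nat_lit 4368) (nat_lit 433) (nat_lit 4400))))))) (.a (.f (nat_lit 365) (nat_lit 366) (nat_lit 1357) (.f (nat_lit 333) (nat_lit 364) (nat_lit 1356) (.d (nat_lit 301) (nat_lit 300) (nat_lit 3372) (nat_lit 302) (nat_lit 3373)))) (.a (.p (nat_lit 304) (.a (.f (nat_lit 369) (nat_lit 370) (nat_lit 334) (.f (nat_lit 272) (nat_lit 240) (nat_lit 5359) (.d (nat_lit 401) (nat_lit 368) (nat_lit 4368) (nat_lit 433) (nat_lit 7472)))) (.a (.f (nat_lit 369) (nat_lit 370) (nat_lit 334) (.f (nat_lit 401) (nat_lit 433) (nat_lit 7472) (.f (nat_lit 368) (nat_lit 272) (nat_lit 4368) (.d (nat_lit 366) (nat_lit 365) (nat_lit 1357) (nat_lit 402) (nat_lit 366))))) (.a (.f (nat_lit 369) (nat_lit 370) (nat_lit 334) (.f (nat_lit 366) (nat_lit 365) (nat_lit 1357) (.f (nat_lit 302) (nat_lit 301) (nat_lit 3373) (.f (nat_lit 270) (nat_lit 238) (nat_lit 4334) (.f (nat_lit 271) (nat_lit 239) (nat_lit 6382) (.f (nat_lit 401) (nat_lit 433) (nat_lit 7472)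 (.f (nat_lit 368) (nat_lit 402) (nat_lit 366) (.d (nat_lit 400) (nat_lit 303) (nat_lit 4367) (nat_lit 432) (nat_lit 6480))))))))) (.f (nat_lit 302) (nat_lit 301) (nat_lit 3373) (.f (nat_lit 366) (nat_lit 365) (nat_lit 1357) (.f (nat_lit 270) (nat_lit 238) (nat_lit 4334) (.f (nat_lit 271) (nat_lit 239) (nat_lit 6382) (.f (nat_lit 269) (nat_lit 237) (nat_lit 7405) (.f (nat_lit 268) (nat_lit 303) (nat_lit 268) (.f (nat_lit 235) (nat_lit 236) (nat_lit 3307) (.f (nat_lit 267) (nat_lit 234) (nat_lit 3306) (.d (nat_lit 299) (nat_lit 298) (nat_lit 1290) (nat_lit 300) (nat_lit 1291)))))))))))))) (.a (.f (nat_lit 369) (nat_lit 370) (nat_lit 334) (.f (nat_lit 368) (nat_lit 333) (nat_lit 333) (.f (nat_lit 400) (nat_lit 432) (nat_lit 7503) (.f (nat_lit 271) (nat_lit 303) (nat_lit 4367) (.f (nat_lit 302) (nat_lit 301) (nat_lit 3373) (.f (nat_lit 270) (nat_lit 238) (nat_lit 4334) (.f (nat_lit 366) (nat_lit 239) (nat_lit 6382) (.f (nat_lit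 401) (nat_lit 402) (nat_lit 366) (.d (nat_lit 304) (nat_lit 272) (nat_lit 4368) (nat_lit 433) (nat_lit 4400)))))))))) (.f (nat_lit 369) (nat_lit 370) (nat_lit 334) (.f (nat_lit 333) (nat_lit 368) (nat_lit 333) (.d (nat_lit 301) (nat_lit 300) (nat_lit 3372) (nat_lit 302) (nat_lit 3373)))))))))
noncomputable def s76191 : Cert := .r (nat_lit 3773962425700235452738272624565494821496408338394849567998417432441024183826994168657285039874262282591277098967641615955712602739046494089823255616987244668397511770112) (.p (nat_lit 336) (.a (.f (nat_lit 400) (nat_lit 432) (nat_lit 7503) (.f (nat_lit 305) (nat_lit 273) (nat_lit 5392) (.f (nat_lit 370) (nat_lit 371) (nat_lit 3407) (.f (nat_lit 402) (nat_lit 403) (nat_lit 367) (.d (nat_lit 434) (nat_lit 401) (nat_lit 4401) (nat_lit 466) (nat_lit 7505)))))) (.a (.f (nat_lit 400) (nat_lit 432) (nat_lit 6480) (.f (nat_lit 338) (nat_lit 339) (nat_lit 1359) (.d (nat_lit 303) (nat_lit 271) (nat_lit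 4367) (nat_lit 302) (nat_lit 3374)))) (.f (nat_lit 338) (nat_lit 339) (nat_lit 1359) (.f (nat_lit 370) (nat_lit 371) (nat_lit 3407) (.f (nat_lit 306) (nat_lit 307) (nat_lit 2351) (.d (nat_lit 274) (nat_lit 242) (nat_lit 5361) (nat_lit 401) (nat_lit 5393))))))))
noncomputable def s76200 : Cert := .r (nat_lit 3773962425700235452738272624565494821496408338394849567998417432441024183826994168657285039874262282591277098967641615955712602739046494089823255616987244668397511770112) (.p (nat_lit 336) (.a (.f (nat_lit 400) (nat_lit 432) (nat_lit 7503) (.f (nat_lit 305) (nat_lit 273) (nat_lit 5392) (.f (nat_lit 370) (nat_lit 371) (nat_lit 3407) (.f (nat_lit 402) (nat_lit 403) (nat_lit 367) (.d (nat_lit 434) (nat_lit 401) (nat_lit 4401) (nat_lit 466) (nat_lit 7505)))))) (.a (.f (nat_lit 400) (nat_lit 432) (nat_lit 6480) (.f (nat_lit 338) (nat_lit 339) (nat_lit 1359) (.d (nat_lit 303) (nat_lit 271) (nat_lit 4367) (nat_lit 302) (nat_lit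 3374)))) (.f (nat_lit 338) (nat_lit 339) (nat_lit 1359) (.f (nat_lit 370) (nat_lit 371) (nat_lit 3407) (.f (nat_lit 402) (nat_lit 403) (nat_lit 367) (.d (nat_lit 305) (nat_lit 273) (nat_lit 4369) (nat_lit 434) (nat_lit 7473))))))))
noncomputable def s76207 : Cert := .r (nat_lit 3773962425700235452738272624565494821496408338394849567998417432441024183826994168657285039874262282591277098967641615955712602739046494089823255616987244668397511770112) (.p (nat_lit 336) (.a (.f (nat_lit 400) (nat_lit 432) (nat_lit 7503) (.f (nat_lit 305) (nat_lit 273) (nat_lit 5392) (.f (nat_lit 370) (nat_lit 371) (nat_lit 3407) (.f (nat_lit 402) (nat_lit 403) (nat_lit 367) (.d (nat_lit 434) (nat_lit 401) (nat_lit 4401) (nat_lit 466) (nat_lit 7505)))))) (.a (.f (nat_lit 338) (nat_lit 339) (nat_lit 1359) (.f (nat_lit 370) (nat_lit 371) (nat_lit 3407) (.f (nat_lit 306) (nat_lit 307) (nat_lit 2351) (.d (nat_lit 274) (nat_lit 242) (nat_lit 5361) (nat_lit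 401) (nat_lit 5393))))) (.a (.f (nat_lit 400) (nat_lit 432) (nat_lit 6480) (.f (nat_lit 338) (nat_lit 339) (nat_lit 1359) (.f (nat_lit 305) (nat_lit 273) (nat_lit 5392) (.f (nat_lit 306) (nat_lit 307) (nat_lit 2351) (.d (nat_lit 401) (nat_lit 274) (nat_lit 6417) (nat_lit 433) (nat_lit 6449)))))) (.f (nat_lit 338) (nat_lit 339) (nat_lit 1359) (.f (nat_lit 370) (nat_lit 371) (nat_lit 3407) (.f (nat_lit 402) (nat_lit 403) (nat_lit 367) (.d (nat_lit 305) (nat_lit 273) (nat_lit 4369) (nat_lit 434) (nat_lit 7473)))))))))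
noncomputable def s76215 : Cert := .r (nat_lit 3773962425700235452738272624565494821496408338394849567998417432441024183826994168657285039874262282591277098967641615955712602739046494089823255616987244668397511770112) (.p (nat_lit 336) (.a (.f (nat_lit 400) (nat_lit 432) (nat_lit 6480) (.f (nat_lit 338) (nat_lit 339) (nat_lit 1359) (.d (nat_lit 303) (nat_lit 271) (nat_lit 4367) (nat_lit 302) (nat_lit 3374)))) (.a (.f (nat_lit 338) (nat_lit 339) (nat_lit 1359) (.f (nat_lit 370) (nat_lit 371) (nat_lit 3407) (.f (nat_lit 306) (nat_lit 307) (nat_lit 2351) (.d (nat_lit 274) (nat_lit 242) (nat_lit 5361) (nat_lit 401) (nat_lit 5393))))) (.f (nat_lit 400) (nat_lit 432) (nat_lit 6480) (.f (nat_lit 370) (nat_lit 371) (nat_lit 3407) (.f (nat_lit 402) (nat_lit 403) (nat_lit 367) (.f (nat_lit 434) (nat_lit 466) (nat_lit 7505) (.f (nat_lit 401) (nat_lit 305) (nat_lit 4401) (.d (nat_lit 304) (nat_lit 272) (nat_lit 4368) (nat_lit 433)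 (nat_lit 4400))))))))))
noncomputable def s76247 : Cert := .r (nat_lit 3773962425700235452738272624565494821496408338394849567998417432441024183826994168657285039874262282591277098967641615955712602739046494089823255616987244668397511770112) (.p (nat_lit 370) (.a (.f (nat_lit 400) (nat_lit 432) (nat_lit 6480) (.f (nat_lit 402) (nat_lit 403) (nat_lit 367) (.f (nat_lit 305) (nat_lit 273) (nat_lit 5392) (.d (nat_lit 434) (nat_lit 401) (nat_lit 4401) (nat_lit 466) (nat_lit 7505))))) (.a (.f (nat_lit 338) (nat_lit 339) (nat_lit 2383) (.f (nat_lit 402) (nat_lit 403) (nat_lit 367) (.d (nat_lit 434) (nat_lit 305) (nat_lit 7473) (nat_lit 466) (nat_lit 7505)))) (.a (.f (nat_lit 338) (nat_lit 339) (nat_lit 2383) (.f (nat_lit 402) (nat_lit 403) (nat_lit 367) (.f (nat_lit 434) (nat_lit 466) (nat_lit 7505) (.f (nat_lit 433) (nat_lit 465) (nat_lit 5457) (.f (nat_lit 306) (nat_lit 401) (nat_lit 5425) (.f (nat_lit 274) (nat_lit 242) (nat_lit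 5361) (.d (nat_lit 275) (nat_lit 243) (nat_lit 6386) (nat_lit 307) (nat_lit 6418)))))))) (.f (nat_lit 400) (nat_lit 432) (nat_lit 6480) (.f (nat_lit 338) (nat_lit 339) (nat_lit 2383) (.f (nat_lit 305) (nat_lit 273) (nat_lit 5392) (.f (nat_lit 303) (nat_lit 271) (nat_lit 4367) (.f (nat_lit 304) (nat_lit 302) (nat_lit 302) (.f (nat_lit 401) (nat_lit 272) (nat_lit 7440) (.d (nat_lit 433) (nat_lit 306) (nat_lit 6449) (nat_lit 465) (nat_lit 6481))))))))))))
noncomputable def s76251 : Cert := .r (nat_lit 3773962425700235452738272624565494821496408338394849567997816205539834082520654461624506969595254107858756569080740549467000357228617154328296548673400743880421336416256) (.p (nat_lit 368) (.a (.f (nat_lit 338) (nat_lit 366) (nat_lit 2382) (.d (nat_lit 339) (nat_lit 340) (nat_lit 1360) (nat_lit 370) (nat_lit 2383))) (.a (.f (nat_lit 432) (nat_lit 400) (nat_lit 6480) (.f (nat_lit 401) (nat_lit 433) (nat_lit 5456) (.f (nat_lit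 402) (nat_lit 366) (nat_lit 366) (.d (nat_lit 403) (nat_lit 370) (nat_lit 367) (nat_lit 404) (nat_lit 3440))))) (.a s76247 (.f (nat_lit 400) (nat_lit 432) (nat_lit 7503) (.f (nat_lit 366) (nat_lit 338) (nat_lit 2382) (.d (nat_lit 401) (nat_lit 365) (nat_lit 365) (nat_lit 402) (nat_lit 366))))))))
noncomputable def s76287 : Cert := .r (nat_lit 3773962425700235452738272624565494821496408338394849567997816205539834082520654461624506969595254107858756569080740549467000357228617154328296548673400743880421336416256) (.p (nat_lit 401) (.a (.f (nat_lit 432) (nat_lit 433) (nat_lit 5456) (.d (nat_lit 400) (nat_lit 305) (nat_lit 5424) (nat_lit 368) (nat_lit 6480))) (.a (.f (nat_lit 433) (nat_lit 432) (nat_lit 5456) (.f (nat_lit 336) (nat_lit 304) (nat_lit 7472) (.f (nat_lit 368) (nat_lit 465) (nat_lit 7504) (.d (nat_lit 366) (nat_lit 365) (nat_lit 2381) (nat_lit 402) (nat_lit 366))))) (.a (.f (nat_lit 433) (nat_lit 432) (nat_lit 5456)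 (.f (nat_lit 434) (nat_lit 466) (nat_lit 4433) (.f (nat_lit 305) (nat_lit 402) (nat_lit 4401) (.d (nat_lit 304) (nat_lit 272) (nat_lit 7440) (nat_lit 336) (nat_lit 7472))))) (.a (.p (nat_lit 305) (.a (.f (nat_lit 402) (nat_lit 434) (nat_lit 4401) (.f (nat_lit 368) (nat_lit 366) (nat_lit 366) (.d (nat_lit 370) (nat_lit 273) (nat_lit 4369) (nat_lit 403) (nat_lit 367)))) (.f (nat_lit 304) (nat_lit 272) (nat_lit 7440) (.f (nat_lit 336) (nat_lit 433) (nat_lit 7472) (.d (nat_lit 306) (nat_lit 274) (nat_lit 6417) (nat_lit 307) (nat_lit 1327)))))) (.p (nat_lit 368) (.a (.f (nat_lit 400) (nat_lit 432) (nat_lit 7503) (.d (nat_lit 366) (nat_lit 365) (nat_lit 365) (nat_lit 402) (nat_lit 366))) (.a (.f (nat_lit 400) (nat_lit 432) (nat_lit 7503) (.d (nat_lit 402) (nat_lit 366) (nat_lit 366) (nat_lit 403) (nat_lit 3439))) (.a (.f (nat_lit 400) (nat_lit 432) (nat_lit 7503) (.f (nat_lit 305) (nat_lit 273) (nat_lit 5392) (.d (nat_lit 402)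 (nat_lit 403) (nat_lit 3439) (nat_lit 434) (nat_lit 4401)))) (.a (.f (nat_lit 402) (nat_lit 366) (nat_lit 366) (.d (nat_lit 403) (nat_lit 370) (nat_lit 367) (nat_lit 404) (nat_lit 3440))) (.f (nat_lit 400) (nat_lit 432) (nat_lit 6480) (.f (nat_lit 305) (nat_lit 273) (nat_lit 5392) (.f (nat_lit 304) (nat_lit 272) (nat_lit 7440) (.f (nat_lit 306) (nat_lit 274) (nat_lit 6417) (.f (nat_lit 307) (nat_lit 336) (nat_lit 1327) (.f (nat_lit 340) (nat_lit 339) (nat_lit 304) (.f (nat_lit 308) (nat_lit 341) (nat_lit 305) (.d (nat_lit 276) (nat_lit 275) (nat_lit 2320) (nat_lit 277) (nat_lit 2321)))))))))))))))))))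
noncomputable def s76300 : Cert := .r (nat_lit 3773962425700235452738272624565494821496408338394849567998417432441024183826994168657285039874262282591277098967641615955712602739046494089823255616987244668397511770112) (.p (nat_lit 336) (.a (.f (nat_lit 400) (nat_lit 432) (nat_lit 7503) (.f (nat_lit 305) (nat_lit 273) (nat_lit 5392) (.f (nat_lit 370) (nat_lit 371) (nat_lit 3407) (.f (nat_lit 402) (nat_lit 403) (nat_lit 367) (.d (nat_lit 434) (nat_lit 401) (nat_lit 4401) (nat_lit 466) (nat_lit 7505)))))) (.a (.f (nat_lit 400) (nat_lit 432) (nat_lit 6480) (.f (nat_lit 370) (nat_lit 371) (nat_lit 3407) (.f (nat_lit 402) (nat_lit 403) (nat_lit 367) (.f (nat_lit 434) (nat_lit 466) (nat_lit 7505) (.f (nat_lit 401) (nat_lit 305) (nat_lit 4401) (.d (nat_lit 304) (nat_lit 272) (nat_lit 4368) (nat_lit 433) (nat_lit 4400))))))) (.a (.f (nat_lit 400) (nat_lit 432) (nat_lit 7503) (.f (nat_lit 303) (nat_lit 271) (nat_lit 4367) (.f (nat_lit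 370) (nat_lit 371) (nat_lit 3407) (.f (nat_lit 338) (nat_lit 302) (nat_lit 3374) (.f (nat_lit 306) (nat_lit 307) (nat_lit 2351) (.d (nat_lit 274) (nat_lit 242) (nat_lit 5361) (nat_lit 401) (nat_lit 5393))))))) (.a (.f (nat_lit 400) (nat_lit 432) (nat_lit 6480) (.f (nat_lit 303) (nat_lit 271) (nat_lit 4367) (.f (nat_lit 302) (nat_lit 338) (nat_lit 3374) (.d (nat_lit 301) (nat_lit 300) (nat_lit 300) (nat_lit 304) (nat_lit 301))))) (.f (nat_lit 370) (nat_lit 371) (nat_lit 3407) (.f (nat_lit 402) (nat_lit 403) (nat_lit 367) (.f (nat_lit 305) (nat_lit 273) (nat_lit 4369) (.d (nat_lit 434) (nat_lit 401) (nat_lit 4401) (nat_lit 466) (nat_lit 7505))))))))))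
noncomputable def s76319 : Cert := .r (nat_lit 3773962425700235452738272624565494821496408338394849567998417432441024183826994168657285039874262282591277098967641615955712602739046494089823255616987244668397511770112) (.p (nat_lit 370) (.a (.f (nat_lit 400) (nat_lit 432) (nat_lit 6480) (.f (nat_lit 402) (nat_lit 403) (nat_lit 367) (.f (nat_lit 305) (nat_lit 273) (nat_lit 5392) (.d (nat_lit 434) (nat_lit 401) (nat_lit 4401) (nat_lit 466) (nat_lit 7505))))) (.a (.f (nat_lit 371) (nat_lit 336) (nat_lit 3407) (.d (nat_lit 403) (nat_lit 402) (nat_lit 367) (nat_lit 404) (nat_lit 368))) (.a (.f (nat_lit 400) (nat_lit 432) (nat_lit 7503) (.f (nat_lit 371) (nat_lit 336) (nat_lit 3407) (.f (nat_lit 372) (nat_lit 401) (nat_lit 1392) (.d (nat_lit 404) (nat_lit 403) (nat_lit 368) (nat_lit 405) (nat_lit 369))))) (.f (nat_lit 400) (nat_lit 432) (nat_lit 7503) (.f (nat_lit 371) (nat_lit 336) (nat_lit 3407) (.f (nat_lit 372) (nat_lit 401)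 (nat_lit 1392) (.d (nat_lit 340) (nat_lit 339) (nat_lit 2384) (nat_lit 341) (nat_lit 2385)))))))))
noncomputable def s76331 : Cert := .r (nat_lit 3773962425700235452738272624565494821496408338394849567998417432441024183826994168657285039874262282591277098967641615955712602739046494089823255616987244668397511770112) (.p (nat_lit 338) (.a (.d (nat_lit 339) (nat_lit 336) (nat_lit 1359) (nat_lit 340) (nat_lit 1360)) (.a (.f (nat_lit 400) (nat_lit 432) (nat_lit 6480) (.f (nat_lit 305) (nat_lit 273) (nat_lit 5392) (.f (nat_lit 339) (nat_lit 340) (nat_lit 1360) (.f (nat_lit 303) (nat_lit 271) (nat_lit 4367) (.d (nat_lit 304) (nat_lit 302) (nat_lit 302) (nat_lit 306) (nat_lit 303)))))) (.f (nat_lit 400) (nat_lit 432) (nat_lit 7503) (.f (nat_lit 303) (nat_lit 271) (nat_lit 4367) (.f (nat_lit 336) (nat_lit 302) (nat_lit 3374) (.f (nat_lit 305) (nat_lit 273) (nat_lit 5392) (.f (nat_lit 306) (nat_lit 307) (nat_lit 2351) (.d (nat_lit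 401) (nat_lit 274) (nat_lit 6417) (nat_lit 433) (nat_lit 6449))))))))))
noncomputable def s76441 : Cert := .r (nat_lit 3773962425700235452738272624565494821496408338394849567997816205539834082520654461624506969595254107858756569080740549467000357228617154328296548673400743880421336416256) (.p (nat_lit 368) (.a (.f (nat_lit 432) (nat_lit 400) (nat_lit 6480) (.f (nat_lit 401) (nat_lit 433) (nat_lit 5456) (.f (nat_lit 402) (nat_lit 366) (nat_lit 366) (.d (nat_lit 403) (nat_lit 370) (nat_lit 367) (nat_lit 404) (nat_lit 3440))))) (.a (.f (nat_lit 400) (nat_lit 432) (nat_lit 6480) (.f (nat_lit 370) (nat_lit 334) (nat_lit 3406) (.f (nat_lit 402) (nat_lit 403) (nat_lit 367) (.f (nat_lit 305) (nat_lit 273) (nat_lit 5392) (.d (nat_lit 434) (nat_lit 401) (nat_lit 4401) (nat_lit 466) (nat_lit 7505)))))) (.a (.f (nat_lit 432) (nat_lit 400) (nat_lit 6480) (.f (nat_lit 401) (nat_lit 433) (nat_lit 5456) (.f (nat_lit 402) (nat_lit 366)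 (nat_lit 366) (.f (nat_lit 305) (nat_lit 434) (nat_lit 4401) (.f (nat_lit 272) (nat_lit 304) (nat_lit 7440) (.f (nat_lit 273) (nat_lit 240) (nat_lit 7408) (.d (nat_lit 274) (nat_lit 242) (nat_lit 6385) (nat_lit 306) (nat_lit 6417)))))))) (.a (.f (nat_lit 370) (nat_lit 334) (nat_lit 3406) (.f (nat_lit 402) (nat_lit 403) (nat_lit 367) (.f (nat_lit 401) (nat_lit 366) (nat_lit 366) (.d (nat_lit 305) (nat_lit 273) (nat_lit 4369) (nat_lit 434) (nat_lit 4401))))) (.f (nat_lit 334) (nat_lit 370) (nat_lit 3406) (.d (nat_lit 333) (nat_lit 332) (nat_lit 332) (nat_lit 366) (nat_lit 3405))))))))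
noncomputable def s76541 : Cert := .r (nat_lit 3773962425700235452738272624565494821496408338394849567998417432441024183826994168657285039874262282591277098967641615955712602739046494089823255616987244668397511770112) (.p (nat_lit 334) (.a (.d (nat_lit 333) (nat_lit 332) (nat_lit 332) (nat_lit 336) (nat_lit 333)) (.a (.f (nat_lit 400) (nat_lit 432) (nat_lit 7503) (.f (nat_lit 336) (nat_lit 333) (nat_lit 333) (.d (nat_lit 305) (nat_lit 273) (nat_lit 5392) (nat_lit 306) (nat_lit 2350)))) (.a (.f (nat_lit 400) (nat_lit 432) (nat_lit 7503) (.f (nat_lit 305) (nat_lit 273) (nat_lit 5392) (.f (nat_lit 336) (nat_lit 306) (nat_lit 2350) (.f (nat_lit 303) (nat_lit 271) (nat_lit 4367) (.f (nat_lit 302) (nat_lit 301) (nat_lit 3373) (.f (nat_lit 270) (nat_lit 238) (nat_lit 4334) (.f (nat_lit 304) (nat_lit 269) (nat_lit 3341) (.d (nat_lit 272) (nat_lit 240) (nat_lit 4336) (nat_lit 401) (nat_lit 4368))))))))) (.f (nat_lit 400) (nat_lit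 432) (nat_lit 7503) (.f (nat_lit 305) (nat_lit 273) (nat_lit 5392) (.f (nat_lit 303) (nat_lit 271) (nat_lit 4367) (.f (nat_lit 304) (nat_lit 306) (nat_lit 1326) (.d (nat_lit 333) (nat_lit 302) (nat_lit 1325) (nat_lit 332) (nat_lit 332))))))))))
noncomputable def s76613 : Cert := .r (nat_lit 3773962425700235452738272624565494821496408338394849567997816205539869078532250989815296929630887989800602219791634840865983169558319713576283738688172320091253705277440) (.p (nat_lit 336) (.a (.f (nat_lit 333) (nat_lit 368) (nat_lit 333) (.d (nat_lit 301) (nat_lit 300) (nat_lit 3372) (nat_lit 302) (nat_lit 3373))) (.a (.f (nat_lit 333) (nat_lit 368) (nat_lit 333) (.d (nat_lit 305) (nat_lit 304) (nat_lit 2349) (nat_lit 306) (nat_lit 2350))) (.f (nat_lit 305) (nat_lit 306) (nat_lit 2350) (.f (nat_lit 366) (nat_lit 365) (nat_lit 1357) (.f (nat_lit 302) (nat_lit 301) (nat_lit 3373) (.f (nat_lit 270) (nat_lit 238) (nat_lit 4334) (.f (nat_lit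 271) (nat_lit 239) (nat_lit 6382) (.f (nat_lit 269) (nat_lit 237) (nat_lit 7405) (.d (nat_lit 304) (nat_lit 272) (nat_lit 269) (nat_lit 303) (nat_lit 3341)))))))))))
noncomputable def s76676 : Cert := .r (nat_lit 3773962425700235452738272624565494821496408338394849567996613751737593863954361160322110669179773286161098112150515582085507115526568711797191894845314047147798461153280) (.p (nat_lit 338) (.a (.f (nat_lit 370) (nat_lit 371) (nat_lit 335) (.f (nat_lit 306) (nat_lit 307) (nat_lit 2351) (.d (nat_lit 334) (nat_lit 305) (nat_lit 2350) (nat_lit 369) (nat_lit 334)))) (.a (.f (nat_lit 370) (nat_lit 371) (nat_lit 335) (.f (nat_lit 369) (nat_lit 334) (nat_lit 334) (.f (nat_lit 306) (nat_lit 307) (nat_lit 2351) (.d (nat_lit 274) (nat_lit 242) (nat_lit 5361) (nat_lit 401) (nat_lit 5393))))) (.a (.f (nat_lit 370) (nat_lit 371) (nat_lit 335) (.f (nat_lit 334) (nat_lit 369) (nat_lit 334) (.d (nat_lit 302) (nat_lit 301) (nat_lit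 3373) (nat_lit 303) (nat_lit 3374)))) (.f (nat_lit 303) (nat_lit 302) (nat_lit 3374) (.f (nat_lit 339) (nat_lit 304) (nat_lit 3375) (.d (nat_lit 307) (nat_lit 306) (nat_lit 2351) (nat_lit 308) (nat_lit 2352))))))))
noncomputable def s76688 : Cert := .r (nat_lit 3773962425700235452738272624565494821496408338394849567996613751737593863954361160322110669179773286161098112150515582085507115526568711797191894845314047147798461153280) (.p (nat_lit 334) (.a (.f (nat_lit 365) (nat_lit 366) (nat_lit 1357) (.f (nat_lit 333) (nat_lit 364) (nat_lit 1356) (.d (nat_lit 305) (nat_lit 304) (nat_lit 2349) (nat_lit 306) (nat_lit 2350)))) (.a (.f (nat_lit 365) (nat_lit 366) (nat_lit 1357) (.f (nat_lit 333) (nat_lit 364) (nat_lit 1356) (.d (nat_lit 301) (nat_lit 300) (nat_lit 3372) (nat_lit 302) (nat_lit 3373)))) (.a (.f (nat_lit 305) (nat_lit 306) (nat_lit 2350) (.f (nat_lit 366) (nat_lit 365) (nat_lit 1357) (.f (nat_lit 302) (nat_lit 301)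 (nat_lit 3373) (.f (nat_lit 270) (nat_lit 238) (nat_lit 4334) (.f (nat_lit 271) (nat_lit 239) (nat_lit 6382) (.f (nat_lit 269) (nat_lit 237) (nat_lit 7405) (.d (nat_lit 304) (nat_lit 272) (nat_lit 269) (nat_lit 303) (nat_lit 3341)))))))) (.f (nat_lit 305) (nat_lit 306) (nat_lit 2350) (.f (nat_lit 333) (nat_lit 304) (nat_lit 2349) (.d (nat_lit 301) (nat_lit 300) (nat_lit 3372) (nat_lit 302) (nat_lit 3373))))))))
noncomputable def s76791 : Cert := .r (nat_lit 3773962425700235452738272624565494821496408338394849567996613751737103919792009765651051228680898938975259002197995502499747742910732882325371234638511980196145297096704) (.p (nat_lit 335) (.a (.p (nat_lit 368) (.a (.f (nat_lit 432) (nat_lit 400) (nat_lit 7503) (.f (nat_lit 431) (nat_lit 399) (nat_lit 4431) (.f (nat_lit 465) (nat_lit 429) (nat_lit 429) (.d (nat_lit 466) (nat_lit 433) (nat_lit 430) (nat_lit 467) (nat_lit 3503))))) (.a s74838 (.a s74870 (.a s74878 s74892))))) (.a (.p (nat_lit 368) (.a (.f (nat_lit 432) (nat_lit 400) (nat_lit 7503) (.f (nat_lit 431) (nat_lit 399) (nat_lit 4431) (.f (nat_lit 465) (nat_lit 429) (nat_lit 429) (.d (nat_lit 466) (nat_lit 433) (nat_lit 430) (nat_lit 467) (nat_lit 3503))))) (.a s74838 (.a s74870 (.a s74878 s74898))))) (.a (.p (nat_lit 368) (.a (.f (nat_lit 432) (nat_lit 400) (nat_lit 7503) (.f (nat_lit 431) (nat_lit 399) (nat_lit 4431) (.f (nat_lit 465) (nat_lit 429) (nat_lit 429) (.d (nat_lit 466) (nat_lit 433) (nat_lit 430) (nat_lit 467) (nat_lit 3503))))) (.a s74838 (.a s74870 (.a s74878 s74904))))) (.a (.p (nat_lit 368) (.a (.f (nat_lit 432) (nat_lit 400) (nat_lit 7503) (.f (nat_lit 431) (nat_lit 399) (nat_lit 4431) (.f (nat_lit 465) (nat_lit 429) (nat_lit 429) (.d (nat_lit 466) (nat_lit 433) (nat_lit 430) (nat_lit 467) (nat_lit 3503))))) (.a (.p (nat_lit 334) (.a (.f (nat_lit 333) (nat_lit 332) (nat_lit 332) (.d (nat_lit 369) (nat_lit 336) (nat_lit 333) (nat_lit 370) (nat_lit 3406))) (.a (.f (nat_lit 369) (nat_lit 370) (nat_lit 3406) (.d (nat_lit 333) (nat_lit 336) (nat_lit 333) (nat_lit 366) (nat_lit 3405))) (.a s74812 (.a (.f (nat_lit 333) (nat_lit 332) (nat_lit 332) (.d (nat_lit 369) (nat_lit 366) (nat_lit 3405) (nat_lit 370) (nat_lit 3406))) (.p (nat_lit 365) (.a (.f (nat_lit 333) (nat_lit 332) (nat_lit 332) (.f (nat_lit 336) (nat_lit 364) (nat_lit 1356) (.f (nat_lit 337) (nat_lit 366) (nat_lit 1357) (.d (nat_lit 301) (nat_lit 300) (nat_lit 3372) (nat_lit 302) (nat_lit 3373))))) (.a (.f (nat_lit 333) (nat_lit 332) (nat_lit 332) (.f (nat_lit 336) (nat_lit 364) (nat_lit 1356) (.f (nat_lit 337) (nat_lit 366) (nat_lit 1357) (.d (nat_lit 305) (nat_lit 304) (nat_lit 2349) (nat_lit 306) (nat_lit 2350))))) (.a (.f (nat_lit 400) (nat_lit 432) (nat_lit 7503) (.f (nat_lit 366) (nat_lit 401) (nat_lit 365) (.d (nat_lit 364) (nat_lit 336) (nat_lit 2380) (nat_lit 363) (nat_lit 2379)))) (.a (.f (nat_lit 333) (nat_lit 332) (nat_lit 332) (.f (nat_lit 397) (nat_lit 429) (nat_lit 4429) (.f (nat_lit 366) (nat_lit 396) (nat_lit 1388) (.d (nat_lit 400) (nat_lit 401) (nat_lit 365) (nat_lit 432) (nat_lit 7503))))) (.f (nat_lit 333) (nat_lit 332) (nat_lit 332) (.f (nat_lit 336) (nat_lit 364) (nat_lit 1356) (.f (nat_lit 400) (nat_lit 432) (nat_lit 7503) (.f (nat_lit 304) (nat_lit 305) (nat_lit 2349) (.f (nat_lit 303) (nat_lit 271) (nat_lit 4367) (.f (nat_lit 301) (nat_lit 300) (nat_lit 3372) (.f (nat_lit 302) (nat_lit 337) (nat_lit 301) (.d (nat_lit 397) (nat_lit 270) (nat_lit 6413) (nat_lit 429) (nat_lit 4429))))))))))))))))))) (.a s74870 (.a s74878 s74898))))) (.a (.p (nat_lit 368) (.a (.f (nat_lit 432) (nat_lit 400) (nat_lit 7503) (.f (nat_lit 431) (nat_lit 399) (nat_lit 4431) (.f (nat_lit 465) (nat_lit 429) (nat_lit 429) (.d (nat_lit 466) (nat_lit 433) (nat_lit 430) (nat_lit 467) (nat_lit 3503))))) (.a s74838 (.a s74918 (.a s74878 s74892))))) (.a (.p (nat_lit 432) (.a (.f (nat_lit 431) (nat_lit 399) (nat_lit 4431) (.f (nat_lit 429) (nat_lit 465) (nat_lit 429) (.d (nat_lit 400) (nat_lit 368) (nat_lit 7503) (nat_lit 401) (nat_lit 2445)))) (.a (.f (nat_lit 431) (nat_lit 399) (nat_lit 5454) (.f (nat_lit 465) (nat_lit 429) (nat_lit 429) (.d (nat_lit 466) (nat_lit 433) (nat_lit 430) (nat_lit 467) (nat_lit 3503)))) (.a (.f (nat_lit 368) (nat_lit 400) (nat_lit 7503) (.p (nat_lit 369) (.a (.f (nat_lit 370) (nat_lit 334) (nat_lit 3406) (.f (nat_lit 338) (nat_lit 339) (nat_lit 2383) (.f (nat_lit 337) (nat_lit 366) (nat_lit 2382) (.f (nat_lit 336) (nat_lit 371) (nat_lit 3407) (.f (nat_lit 401) (nat_lit 433) (nat_lit 5456) (.d (nat_lit 306) (nat_lit 274) (nat_lit 5393) (nat_lit 307) (nat_lit 2351))))))) (.a (.f (nat_lit 370) (nat_lit 334) (nat_lit 3406) (.f (nat_lit 371) (nat_lit 336) (nat_lit 3407) (.d (nat_lit 339) (nat_lit 338) (nat_lit 2383) (nat_lit 340) (nat_lit 2384)))) (.a (.p (nat_lit 370) (.a (.f (nat_lit 338) (nat_lit 339) (nat_lit 2383) (.f (nat_lit 337) (nat_lit 366) (nat_lit 2382) (.f (nat_lit 336) (nat_lit 371) (nat_lit 3407) (.f (nat_lit 401) (nat_lit 433) (nat_lit 5456) (.d (nat_lit 306) (nat_lit 274) (nat_lit 5393) (nat_lit 307) (nat_lit 2351)))))) (.a (.f (nat_lit 371) (nat_lit 336) (nat_lit 3407) (.d (nat_lit 339) (nat_lit 338) (nat_lit 2383) (nat_lit 340) (nat_lit 2384))) (.a (.f (nat_lit 402) (nat_lit 403) (nat_lit 367) (.f (nat_lit 338) (nat_lit 339) (nat_lit 2383) (.d (nat_lit 366) (nat_lit 337) (nat_lit 2382) (nat_lit 401) (nat_lit 366)))) (.f (nat_lit 371) (nat_lit 336) (nat_lit 3407) (.d (nat_lit 403) (nat_lit 402) (nat_lit 367) (nat_lit 404) (nat_lit 368))))))) (.a (.f (nat_lit 370) (nat_lit 334) (nat_lit 3406) (.f (nat_lit 402) (nat_lit 403) (nat_lit 367) (.f (nat_lit 338) (nat_lit 339) (nat_lit 2383) (.d (nat_lit 366) (nat_lit 337) (nat_lit 2382) (nat_lit 401) (nat_lit 366))))) (.a (.f (nat_lit 334) (nat_lit 370) (nat_lit 3406) (.d (nat_lit 333) (nat_lit 332) (nat_lit 332) (nat_lit 366) (nat_lit 3405))) (.p (nat_lit 366) (.a (.f (nat_lit 337) (nat_lit 338) (nat_lit 2382) (.d (nat_lit 401) (nat_lit 402) (nat_lit 366) (nat_lit 433) (nat_lit 5456))) (.f (nat_lit 333) (nat_lit 334) (nat_lit 3405) (.f (nat_lit 365) (nat_lit 332) (nat_lit 3404) (.d (nat_lit 397) (nat_lit 396) (nat_lit 1388) (nat_lit 429) (nat_lit 4429))))))))))))) (.f (nat_lit 399) (nat_lit 431) (nat_lit 5454) (.d (nat_lit 400) (nat_lit 303) (nat_lit 4399) (nat_lit 368) (nat_lit 7503))))))) (.a (.p (nat_lit 368) (.a (.f (nat_lit 432) (nat_lit 400) (nat_lit 7503) (.f (nat_lit 431) (nat_lit 399) (nat_lit 4431) (.f (nat_lit 465) (nat_lit 429) (nat_lit 429) (.d (nat_lit 466) (nat_lit 433) (nat_lit 430) (nat_lit 467) (nat_lit 3503))))) (.a (.p (nat_lit 334) (.a (.f (nat_lit 333) (nat_lit 332) (nat_lit 332) (.d (nat_lit 369) (nat_lit 336) (nat_lit 333) (nat_lit 370) (nat_lit 3406))) (.a (.f (nat_lit 369) (nat_lit 370) (nat_lit 3406) (.d (nat_lit 333) (nat_lit 336) (nat_lit 333) (nat_lit 366) (nat_lit 3405))) (.a (.p (nat_lit 366) (.a (.f (nat_lit 369) (nat_lit 370) (nat_lit 3406) (.f (nat_lit 337) (nat_lit 338) (nat_lit 2382) (.f (nat_lit 336) (nat_lit 365) (nat_lit 2381) (.f (nat_lit 400) (nat_lit 432) (nat_lit 7503) (.d (nat_lit 305) (nat_lit 273) (nat_lit 5392) (nat_lit 306) (nat_lit 2350)))))) (.a (.f (nat_lit 369) (nat_lit 370) (nat_lit 3406) (.f (nat_lit 337) (nat_lit 338) (nat_lit 2382) (.f (nat_lit 336) (nat_lit 365) (nat_lit 2381) (.f (nat_lit 400) (nat_lit 432) (nat_lit 7503) (.f (nat_lit 401) (nat_lit 402) (nat_lit 366) (.d (nat_lit 304) (nat_lit 272) (nat_lit 4368) (nat_lit 433) (nat_lit 4400))))))) (.a (.f (nat_lit 400) (nat_lit 432) (nat_lit 7503) (.f (nat_lit 369) (nat_lit 370) (nat_lit 3406) (.d (nat_lit 401) (nat_lit 365) (nat_lit 365) (nat_lit 402) (nat_lit 366)))) (.a (.f (nat_lit 369) (nat_lit 370) (nat_lit 3406) (.f (nat_lit 337) (nat_lit 338) (nat_lit 2382) (.f (nat_lit 400) (nat_lit 432) (nat_lit 7503) (.f (nat_lit 401) (nat_lit 402) (nat_lit 366) (.f (nat_lit 305) (nat_lit 273) (nat_lit 5392) (.f (nat_lit 336) (nat_lit 306) (nat_lit 2350) (.d (nat_lit 304) (nat_lit 272) (nat_lit 7440) (nat_lit 433) (nat_lit 4400)))))))) (.a (.f (nat_lit 400) (nat_lit 432) (nat_lit 7503) (.f (nat_lit 365) (nat_lit 401) (nat_lit 365) (.d (nat_lit 364) (nat_lit 336) (nat_lit 2380) (nat_lit 363) (nat_lit 2379)))) (.a (.f (nat_lit 369) (nat_lit 370) (nat_lit 3406) (.f (nat_lit 337) (nat_lit 338) (nat_lit 2382) (.f (nat_lit 336) (nat_lit 365) (nat_lit 2381) (.f (nat_lit 401) (nat_lit 402) (nat_lit 366) (.d (nat_lit 433) (nat_lit 304) (nat_lit 7472) (nat_lit 432) (nat_lit 5456)))))) (.f (nat_lit 369) (nat_lit 370) (nat_lit 3406) (.f (nat_lit 337) (nat_lit 338) (nat_lit 2382) (.f (nat_lit 336) (nat_lit 365) (nat_lit 2381) (.f (nat_lit 401) (nat_lit 402) (nat_lit 366) (.d (nat_lit 304) (nat_lit 272) (nat_lit 4368) (nat_lit 433) (nat_lit 7472))))))))))))) (.a (.f (nat_lit 333) (nat_lit 332) (nat_lit 332) (.d (nat_lit 369) (nat_lit 366) (nat_lit 3405) (nat_lit 370) (nat_lit 3406))) s74837))))) (.a s74918 (.a (.p (nat_lit 334) (.a (.f (nat_lit 333) (nat_lit 332) (nat_lit 332) (.d (nat_lit 369) (nat_lit 336) (nat_lit 333) (nat_lit 370) (nat_lit 3406))) (.a (.f (nat_lit 369) (nat_lit 370) (nat_lit 3406) (.d (nat_lit 333) (nat_lit 336) (nat_lit 333) (nat_lit 366) (nat_lit 3405))) (.a (.f (nat_lit 399) (nat_lit 431) (nat_lit 5454) (.f (nat_lit 400) (nat_lit 432) (nat_lit 7503) (.f (nat_lit 303) (nat_lit 271) (nat_lit 4367) (.f (nat_lit 302) (nat_lit 270) (nat_lit 7438) (.f (nat_lit 304) (nat_lit 272) (nat_lit 6415) (.f (nat_lit 369) (nat_lit 370) (nat_lit 3406) (.f (nat_lit 305) (nat_lit 306) (nat_lit 1326) (.d (nat_lit 337) (nat_lit 273) (nat_lit 5392) (nat_lit 338) (nat_lit 302))))))))) (.f (nat_lit 399) (nat_lit 431) (nat_lit 5454) (.f (nat_lit 400) (nat_lit 432) (nat_lit 7503) (.f (nat_lit 303) (nat_lit 271) (nat_lit 4367) (.f (nat_lit 304) (nat_lit 272) (nat_lit 6415) (.f (nat_lit 333) (nat_lit 332) (nat_lit 332) (.d (nat_lit 305) (nat_lit 302) (nat_lit 1325) (nat_lit 306) (nat_lit 1326))))))))))) (.p (nat_lit 334) (.a (.f (nat_lit 333) (nat_lit 332) (nat_lit 332) (.d (nat_lit 369) (nat_lit 336) (nat_lit 333) (nat_lit 370) (nat_lit 3406))) (.a (.f (nat_lit 369) (nat_lit 370) (nat_lit 3406) (.d (nat_lit 333) (nat_lit 336) (nat_lit 333) (nat_lit 366) (nat_lit 3405))) (.a (.p (nat_lit 303) (.a (.f (nat_lit 271) (nat_lit 400) (nat_lit 4367) (.d (nat_lit 239) (nat_lit 336) (nat_lit 4335) (nat_lit 366) (nat_lit 5358))) (.a (.f (nat_lit 271) (nat_lit 400) (nat_lit 4367) (.f (nat_lit 270) (nat_lit 238) (nat_lit 7406) (.d (nat_lit 399) (nat_lit 302) (nat_lit 7438) (nat_lit 431) (nat_lit 5454)))) (.a (.f (nat_lit 399) (nat_lit 431) (nat_lit 5454) (.f (nat_lit 302) (nat_lit 270) (nat_lit 7438) (.f (nat_lit 304) (nat_lit 272) (nat_lit 6415) (.f (nat_lit 369) (nat_lit 370) (nat_lit 3406) (.f (nat_lit 305) (nat_lit 306) (nat_lit 1326) (.f (nat_lit 337) (nat_lit 338) (nat_lit 302) (.f (nat_lit 336) (nat_lit 301) (nat_lit 301) (.d (nat_lit 273) (nat_lit 241) (nat_lit 5360) (nat_lit 400) (nat_lit 5392))))))))) (.f (nat_lit 399) (nat_lit 431) (nat_lit 5454) (.f (nat_lit 302) (nat_lit 270) (nat_lit 7438) (.f (nat_lit 304) (nat_lit 272) (nat_lit 6415) (.f (nat_lit 369) (nat_lit 370) (nat_lit 3406) (.f (nat_lit 305) (nat_lit 306) (nat_lit 1326) (.f (nat_lit 337) (nat_lit 338) (nat_lit 302) (.f (nat_lit 336) (nat_lit 301) (nat_lit 301) (.f (nat_lit 366) (nat_lit 365) (nat_lit 2381) (.d (nat_lit 401) (nat_lit 402) (nat_lit 366) (nat_lit 433) (nat_lit 7472)))))))))))))) (.a (.f (nat_lit 333) (nat_lit 332) (nat_lit 332) (.d (nat_lit 369) (nat_lit 366) (nat_lit 3405) (nat_lit 370) (nat_lit 3406))) (.p (nat_lit 303) (.a (.f (nat_lit 271) (nat_lit 400) (nat_lit 4367) (.d (nat_lit 239) (nat_lit 336) (nat_lit 4335) (nat_lit 366) (nat_lit 5358))) (.a (.f (nat_lit 271) (nat_lit 400) (nat_lit 4367) (.f (nat_lit 270) (nat_lit 238) (nat_lit 7406) (.d (nat_lit 399) (nat_lit 302) (nat_lit 7438) (nat_lit 431) (nat_lit 5454)))) (.f (nat_lit 399) (nat_lit 431) (nat_lit 5454) (.f (nat_lit 333) (nat_lit 332) (nat_lit 332) (.f (nat_lit 302) (nat_lit 270) (nat_lit 7438) (.d (nat_lit 304) (nat_lit 272) (nat_lit 6415) (nat_lit 305) (nat_lit 1325)))))))))))))))))) (.a (.p (nat_lit 368) (.a (.f (nat_lit 432) (nat_lit 400) (nat_lit 7503) (.f (nat_lit 431) (nat_lit 399) (nat_lit 4431) (.f (nat_lit 465) (nat_lit 429) (nat_lit 429) (.d (nat_lit 466) (nat_lit 433) (nat_lit 430) (nat_lit 467) (nat_lit 3503))))) (.a (.p (nat_lit 369) (.a (.f (nat_lit 370) (nat_lit 334) (nat_lit 3406) (.f (nat_lit 371) (nat_lit 336) (nat_lit 3407) (.d (nat_lit 403) (nat_lit 402) (nat_lit 367) (nat_lit 404) (nat_lit 368)))) (.a s74848 (.a (.f (nat_lit 370) (nat_lit 334) (nat_lit 3406) (.f (nat_lit 338) (nat_lit 339) (nat_lit 2383) (.f (nat_lit 402) (nat_lit 403) (nat_lit 367) (.d (nat_lit 366) (nat_lit 337) (nat_lit 2382) (nat_lit 401) (nat_lit 366))))) (.a (.p (nat_lit 366) (.a (.f (nat_lit 337) (nat_lit 338) (nat_lit 2382) (.f (nat_lit 336) (nat_lit 365) (nat_lit 2381) (.f (nat_lit 401) (nat_lit 402) (nat_lit 366) (.d (nat_lit 433) (nat_lit 304) (nat_lit 7472) (nat_lit 432) (nat_lit 5456))))) (.a (.f (nat_lit 333) (nat_lit 334) (nat_lit 3405) (.f (nat_lit 365) (nat_lit 332) (nat_lit 3404) (.d (nat_lit 397) (nat_lit 396) (nat_lit 1388) (nat_lit 429) (nat_lit 4429)))) (.f (nat_lit 337) (nat_lit 338) (nat_lit 2382) (.f (nat_lit 432) (nat_lit 400) (nat_lit 7503) (.d (nat_lit 401) (nat_lit 402) (nat_lit 366) (nat_lit 433) (nat_lit 5456))))))) (.f (nat_lit 370) (nat_lit 334) (nat_lit 3406) (.f (nat_lit 371) (nat_lit 336) (nat_lit 3407) (.d (nat_lit 339) (nat_lit 338) (nat_lit 2383) (nat_lit 340) (nat_lit 2384))))))))) (.a s74870 (.a (.p (nat_lit 334) (.a (.f (nat_lit 333) (nat_lit 332) (nat_lit 332) (.d (nat_lit 369) (nat_lit 336) (nat_lit 333) (nat_lit 370) (nat_lit 3406))) (.a (.f (nat_lit 369) (nat_lit 370) (nat_lit 3406) (.d (nat_lit 333) (nat_lit 336) (nat_lit 333) (nat_lit 366) (nat_lit 3405))) (.a s74812 (.a (.f (nat_lit 333) (nat_lit 332) (nat_lit 332) (.d (nat_lit 369) (nat_lit 366) (nat_lit 3405) (nat_lit 370) (nat_lit 3406))) (.p (nat_lit 336) (.a (.f (nat_lit 399) (nat_lit 431) (nat_lit 5454) (.f (nat_lit 333) (nat_lit 332) (nat_lit 332) (.d (nat_lit 304) (nat_lit 272) (nat_lit 5391) (nat_lit 305) (nat_lit 2349)))) (.a (.f (nat_lit 333) (nat_lit 332) (nat_lit 332) (.f (nat_lit 365) (nat_lit 364) (nat_lit 1356) (.f (nat_lit 337) (nat_lit 366) (nat_lit 1357) (.d (nat_lit 301) (nat_lit 300) (nat_lit 3372) (nat_lit 302) (nat_lit 3373))))) (.a (.f (nat_lit 399) (nat_lit 431) (nat_lit 5454) (.f (nat_lit 304) (nat_lit 272) (nat_lit 5391) (.f (nat_lit 400) (nat_lit 432) (nat_lit 7503) (.d (nat_lit 305) (nat_lit 273) (nat_lit 6416) (nat_lit 333) (nat_lit 2349))))) (.f (nat_lit 399) (nat_lit 431) (nat_lit 5454) (.f (nat_lit 400) (nat_lit 432) (nat_lit 7503) (.f (nat_lit 304) (nat_lit 272) (nat_lit 5391) (.f (nat_lit 401) (nat_lit 433) (nat_lit 4400) (.d (nat_lit 402) (nat_lit 366) (nat_lit 3438) (nat_lit 403) (nat_lit 3439))))))))))))))) (.a s74904 (.f (nat_lit 431) (nat_lit 399) (nat_lit 5454) (.f (nat_lit 432) (nat_lit 400) (nat_lit 7503) (.f (nat_lit 429) (nat_lit 465) (nat_lit 429) (.f (nat_lit 397) (nat_lit 396) (nat_lit 3468) (.f (nat_lit 333) (nat_lit 365) (nat_lit 4429) (.f (nat_lit 334) (nat_lit 332) (nat_lit 332) (.d (nat_lit 369) (nat_lit 336) (nat_lit 333) (nat_lit 366) (nat_lit 3405)))))))))))))) (.a (.p (nat_lit 368) (.a (.f (nat_lit 432) (nat_lit 400) (nat_lit 7503) (.f (nat_lit 431) (nat_lit 399) (nat_lit 4431) (.f (nat_lit 465) (nat_lit 429) (nat_lit 429) (.d (nat_lit 466) (nat_lit 433) (nat_lit 430) (nat_lit 467) (nat_lit 3503))))) (.a (.p (nat_lit 369) (.a (.f (nat_lit 370) (nat_lit 334) (nat_lit 3406) (.f (nat_lit 371) (nat_lit 336) (nat_lit 3407) (.d (nat_lit 403) (nat_lit 402) (nat_lit 367) (nat_lit 404) (nat_lit 368)))) (.a (.p (nat_lit 370) (.a (.f (nat_lit 338) (nat_lit 339) (nat_lit 2383) (.f (nat_lit 337) (nat_lit 366) (nat_lit 2382) (.f (nat_lit 402) (nat_lit 403) (nat_lit 367) (.d (nat_lit 305) (nat_lit 273) (nat_lit 4369) (nat_lit 434) (nat_lit 7473))))) (.a (.f (nat_lit 371) (nat_lit 336) (nat_lit 3407) (.d (nat_lit 339) (nat_lit 338) (nat_lit 2383) (nat_lit 340) (nat_lit 2384))) (.f (nat_lit 371) (nat_lit 336) (nat_lit 3407) (.d (nat_lit 403) (nat_lit 402) (nat_lit 367) (nat_lit 404) (nat_lit 368)))))) (.a (.f (nat_lit 370) (nat_lit 334) (nat_lit 3406) (.f (nat_lit 338) (nat_lit 339) (nat_lit 2383) (.f (nat_lit 402) (nat_lit 403) (nat_lit 367) (.d (nat_lit 366) (nat_lit 337) (nat_lit 2382) (nat_lit 401) (nat_lit 366))))) (.a (.p (nat_lit 366) (.a (.f (nat_lit 337) (nat_lit 338) (nat_lit 2382) (.f (nat_lit 336) (nat_lit 365) (nat_lit 2381) (.f (nat_lit 401) (nat_lit 402) (nat_lit 366) (.d (nat_lit 433) (nat_lit 304) (nat_lit 7472) (nat_lit 432) (nat_lit 5456))))) (.a (.f (nat_lit 333) (nat_lit 334) (nat_lit 3405) (.f (nat_lit 365) (nat_lit 332) (nat_lit 3404) (.d (nat_lit 397) (nat_lit 396) (nat_lit 1388) (nat_lit 429) (nat_lit 4429)))) (.f (nat_lit 337) (nat_lit 338) (nat_lit 2382) (.f (nat_lit 432) (nat_lit 400) (nat_lit 7503) (.d (nat_lit 401) (nat_lit 402) (nat_lit 366) (nat_lit 433) (nat_lit 5456))))))) (.f (nat_lit 370) (nat_lit 334) (nat_lit 3406) (.f (nat_lit 371) (nat_lit 336) (nat_lit 3407) (.d (nat_lit 339) (nat_lit 338) (nat_lit 2383) (nat_lit 340) (nat_lit 2384))))))))) (.a s74918 (.a (.p (nat_lit 333) (.a (.f (nat_lit 334) (nat_lit 332) (nat_lit 332) (.d (nat_lit 369) (nat_lit 336) (nat_lit 333) (nat_lit 366) (nat_lit 3405))) (.a (.f (nat_lit 399) (nat_lit 431) (nat_lit 5454) (.f (nat_lit 400) (nat_lit 432) (nat_lit 7503) (.f (nat_lit 303) (nat_lit 271) (nat_lit 4367) (.f (nat_lit 304) (nat_lit 272) (nat_lit 6415) (.f (nat_lit 302) (nat_lit 270) (nat_lit 7438) (.f (nat_lit 334) (nat_lit 305) (nat_lit 1325) (.d (nat_lit 369) (nat_lit 336) (nat_lit 333) (nat_lit 370) (nat_lit 3406)))))))) (.a (.f (nat_lit 400) (nat_lit 432) (nat_lit 7503) (.f (nat_lit 399) (nat_lit 431) (nat_lit 5454) (.f (nat_lit 303) (nat_lit 271) (nat_lit 4367) (.f (nat_lit 304) (nat_lit 272) (nat_lit 6415) (.f (nat_lit 302) (nat_lit 270) (nat_lit 7438) (.f (nat_lit 301) (nat_lit 332) (nat_lit 1324) (.d (nat_lit 336) (nat_lit 300) (nat_lit 300) (nat_lit 337) (nat_lit 301)))))))) (.f (nat_lit 334) (nat_lit 332) (nat_lit 332) (.d (nat_lit 369) (nat_lit 366) (nat_lit 3405) (nat_lit 370) (nat_lit 3406))))))) (.p (nat_lit 369) (.a (.f (nat_lit 370) (nat_lit 334) (nat_lit 3406) (.f (nat_lit 371) (nat_lit 336) (nat_lit 3407) (.d (nat_lit 403) (nat_lit 402) (nat_lit 367) (nat_lit 404) (nat_lit 368)))) (.a (.p (nat_lit 370) (.a (.f (nat_lit 338) (nat_lit 339) (nat_lit 2383) (.f (nat_lit 337) (nat_lit 366) (nat_lit 2382) (.f (nat_lit 402) (nat_lit 403) (nat_lit 367) (.d (nat_lit 305) (nat_lit 273) (nat_lit 4369) (nat_lit 434) (nat_lit 7473))))) (.a (.f (nat_lit 371) (nat_lit 336) (nat_lit 3407) (.d (nat_lit 339) (nat_lit 338) (nat_lit 2383) (nat_lit 340) (nat_lit 2384))) (.f (nat_lit 371) (nat_lit 336) (nat_lit 3407) (.d (nat_lit 403) (nat_lit 402) (nat_lit 367) (nat_lit 404) (nat_lit 368)))))) (.a (.f (nat_lit 370) (nat_lit 334) (nat_lit 3406) (.f (nat_lit 338) (nat_lit 339) (nat_lit 2383) (.f (nat_lit 402) (nat_lit 403) (nat_lit 367) (.d (nat_lit 366) (nat_lit 337) (nat_lit 2382) (nat_lit 401) (nat_lit 366))))) (.a s74903 (.f (nat_lit 370) (nat_lit 334) (nat_lit 3406) (.f (nat_lit 371) (nat_lit 336) (nat_lit 3407) (.d (nat_lit 339) (nat_lit 338) (nat_lit 2383) (nat_lit 340) (nat_lit 2384)))))))))))))) (.a (.p (nat_lit 334) (.a (.p (nat_lit 368) (.a (.f (nat_lit 369) (nat_lit 370) (nat_lit 3406) (.d (nat_lit 333) (nat_lit 336) (nat_lit 333) (nat_lit 366) (nat_lit 3405))) (.a (.f (nat_lit 399) (nat_lit 431) (nat_lit 5454) (.f (nat_lit 400) (nat_lit 432) (nat_lit 7503) (.f (nat_lit 303) (nat_lit 271) (nat_lit 4367) (.f (nat_lit 302) (nat_lit 270) (nat_lit 7438) (.f (nat_lit 304) (nat_lit 272) (nat_lit 6415) (.f (nat_lit 305) (nat_lit 306) (nat_lit 1326) (.d (nat_lit 273) (nat_lit 274) (nat_lit 2318) (nat_lit 336) (nat_lit 6416)))))))) (.f (nat_lit 399) (nat_lit 431) (nat_lit 5454) (.f (nat_lit 400) (nat_lit 432) (nat_lit 7503) (.f (nat_lit 303) (nat_lit 271) (nat_lit 4367) (.f (nat_lit 302) (nat_lit 270) (nat_lit 7438) (.f (nat_lit 304) (nat_lit 272) (nat_lit 6415) (.f (nat_lit 369) (nat_lit 370) (nat_lit 3406) (.f (nat_lit 305) (nat_lit 306) (nat_lit 1326) (.d (nat_lit 337) (nat_lit 273) (nat_lit 5392) (nat_lit 338) (nat_lit 302)))))))))))) (.a s75070 (.a (.p (nat_lit 368) (.a (.f (nat_lit 369) (nat_lit 370) (nat_lit 3406) (.d (nat_lit 333) (nat_lit 336) (nat_lit 333) (nat_lit 366) (nat_lit 3405))) (.f (nat_lit 431) (nat_lit 399) (nat_lit 5454) (.f (nat_lit 432) (nat_lit 400) (nat_lit 7503) (.f (nat_lit 465) (nat_lit 429) (nat_lit 429) (.d (nat_lit 466) (nat_lit 433) (nat_lit 430) (nat_lit 467) (nat_lit 3503))))))) (.a (.f (nat_lit 399) (nat_lit 431) (nat_lit 5454) (.p (nat_lit 303) (.a (.f (nat_lit 302) (nat_lit 270) (nat_lit 7438) (.f (nat_lit 304) (nat_lit 272) (nat_lit 6415) (.f (nat_lit 305) (nat_lit 306) (nat_lit 1326) (.f (nat_lit 337) (nat_lit 338) (nat_lit 302) (.f (nat_lit 336) (nat_lit 301) (nat_lit 301) (.f (nat_lit 400) (nat_lit 432) (nat_lit 4399) (.d (nat_lit 368) (nat_lit 271) (nat_lit 4367) (nat_lit 273) (nat_lit 6416)))))))) (.a (.f (nat_lit 400) (nat_lit 432) (nat_lit 4399) (.f (nat_lit 271) (nat_lit 368) (nat_lit 4367) (.d (nat_lit 272) (nat_lit 240) (nat_lit 6383) (nat_lit 304) (nat_lit 6415)))) (.a (.f (nat_lit 302) (nat_lit 270) (nat_lit 7438) (.f (nat_lit 304) (nat_lit 272) (nat_lit 6415) (.f (nat_lit 305) (nat_lit 306) (nat_lit 1326) (.f (nat_lit 337) (nat_lit 338) (nat_lit 302) (.f (nat_lit 336) (nat_lit 301) (nat_lit 301) (.f (nat_lit 400) (nat_lit 432) (nat_lit 4399) (.d (nat_lit 273) (nat_lit 274) (nat_lit 2318) (nat_lit 368) (nat_lit 6416)))))))) (.a (.f (nat_lit 302) (nat_lit 270) (nat_lit 7438) (.f (nat_lit 400) (nat_lit 432) (nat_lit 4399) (.f (nat_lit 271) (nat_lit 368) (nat_lit 4367) (.d (nat_lit 239) (nat_lit 207) (nat_lit 5326) (nat_lit 366) (nat_lit 5358))))) (.a (.f (nat_lit 302) (nat_lit 270) (nat_lit 7438) (.f (nat_lit 304) (nat_lit 272) (nat_lit 6415) (.f (nat_lit 305) (nat_lit 306) (nat_lit 1326) (.f (nat_lit 337) (nat_lit 338) (nat_lit 302) (.f (nat_lit 336) (nat_lit 301) (nat_lit 301) (.f (nat_lit 369) (nat_lit 370) (nat_lit 334) (.f (nat_lit 401) (nat_lit 433) (nat_lit 7472) (.f (nat_lit 400) (nat_lit 432) (nat_lit 4399) (.d (nat_lit 366) (nat_lit 365) (nat_lit 1357) (nat_lit 402) (nat_lit 3438)))))))))) (.f (nat_lit 302) (nat_lit 270) (nat_lit 7438) (.f (nat_lit 304) (nat_lit 272) (nat_lit 6415) (.f (nat_lit 305) (nat_lit 306) (nat_lit 1326) (.f (nat_lit 337) (nat_lit 338) (nat_lit 302) (.f (nat_lit 336) (nat_lit 301) (nat_lit 301) (.f (nat_lit 273) (nat_lit 274) (nat_lit 2318) (.d (nat_lit 241) (nat_lit 209) (nat_lit 5328) (nat_lit 368) (nat_lit 5360))))))))))))))) (.a (.p (nat_lit 432) (.a (.f (nat_lit 431) (nat_lit 399) (nat_lit 5454) (.f (nat_lit 429) (nat_lit 465) (nat_lit 429) (.d (nat_lit 400) (nat_lit 368) (nat_lit 7503) (nat_lit 401) (nat_lit 2445)))) (.a (.f (nat_lit 431) (nat_lit 399) (nat_lit 5454) (.f (nat_lit 465) (nat_lit 429) (nat_lit 429) (.d (nat_lit 466) (nat_lit 433) (nat_lit 430) (nat_lit 467) (nat_lit 3503)))) (.f (nat_lit 368) (nat_lit 400) (nat_lit 7503) (.f (nat_lit 369) (nat_lit 370) (nat_lit 3406) (.f (nat_lit 366) (nat_lit 333) (nat_lit 3405) (.f (nat_lit 401) (nat_lit 402) (nat_lit 366) (.d (nat_lit 337) (nat_lit 338) (nat_lit 2382) (nat_lit 433) (nat_lit 5456))))))))) (.a s75137 (.a s75200 (.a (.f (nat_lit 399) (nat_lit 431) (nat_lit 5454) (.p (nat_lit 303) (.a (.f (nat_lit 302) (nat_lit 270) (nat_lit 7438) (.f (nat_lit 304) (nat_lit 272) (nat_lit 6415) (.f (nat_lit 305) (nat_lit 306) (nat_lit 1326) (.f (nat_lit 337) (nat_lit 338) (nat_lit 302) (.f (nat_lit 336) (nat_lit 301) (nat_lit 301) (.f (nat_lit 400) (nat_lit 432) (nat_lit 4399) (.d (nat_lit 368) (nat_lit 271) (nat_lit 4367) (nat_lit 273) (nat_lit 6416)))))))) (.a (.f (nat_lit 400) (nat_lit 432) (nat_lit 4399) (.f (nat_lit 271) (nat_lit 368) (nat_lit 4367) (.d (nat_lit 272) (nat_lit 240) (nat_lit 6383) (nat_lit 304) (nat_lit 6415)))) (.a (.f (nat_lit 302) (nat_lit 270) (nat_lit 7438) (.f (nat_lit 304) (nat_lit 272) (nat_lit 6415) (.f (nat_lit 305) (nat_lit 306) (nat_lit 1326) (.f (nat_lit 337) (nat_lit 338) (nat_lit 302) (.f (nat_lit 336) (nat_lit 301) (nat_lit 301) (.f (nat_lit 400) (nat_lit 432) (nat_lit 4399) (.d (nat_lit 273) (nat_lit 274) (nat_lit 2318) (nat_lit 368) (nat_lit 6416)))))))) (.a (.f (nat_lit 302) (nat_lit 270) (nat_lit 7438) (.f (nat_lit 400) (nat_lit 432) (nat_lit 4399) (.f (nat_lit 271) (nat_lit 368) (nat_lit 4367) (.d (nat_lit 239) (nat_lit 207) (nat_lit 5326) (nat_lit 366) (nat_lit 5358))))) (.f (nat_lit 302) (nat_lit 270) (nat_lit 7438) (.f (nat_lit 304) (nat_lit 272) (nat_lit 6415) (.d (nat_lit 305) (nat_lit 306) (nat_lit 1326) (nat_lit 333) (nat_lit 1325)))))))))) (.p (nat_lit 336) (.a (.p (nat_lit 337) (.a (.d (nat_lit 366) (nat_lit 338) (nat_lit 1358) (nat_lit 365) (nat_lit 1357)) (.a (.f (nat_lit 365) (nat_lit 366) (nat_lit 1357) (.f (nat_lit 333) (nat_lit 364) (nat_lit 1356) (.d (nat_lit 305) (nat_lit 304) (nat_lit 2349) (nat_lit 306) (nat_lit 2350)))) (.a (.f (nat_lit 338) (nat_lit 366) (nat_lit 1358) (.d (nat_lit 370) (nat_lit 369) (nat_lit 334) (nat_lit 371) (nat_lit 335))) (.f (nat_lit 305) (nat_lit 306) (nat_lit 2350) (.f (nat_lit 369) (nat_lit 370) (nat_lit 334) (.f (nat_lit 304) (nat_lit 333) (nat_lit 2349) (.d (nat_lit 272) (nat_lit 240) (nat_lit 4336) (nat_lit 401) (nat_lit 7440))))))))) (.a (.p (nat_lit 337) (.a (.d (nat_lit 366) (nat_lit 338) (nat_lit 1358) (nat_lit 365) (nat_lit 1357)) (.a (.f (nat_lit 365) (nat_lit 366) (nat_lit 1357) (.f (nat_lit 333) (nat_lit 364) (nat_lit 1356) (.d (nat_lit 305) (nat_lit 304) (nat_lit 2349) (nat_lit 306) (nat_lit 2350)))) (.a (.f (nat_lit 338) (nat_lit 366) (nat_lit 1358) (.d (nat_lit 370) (nat_lit 369) (nat_lit 334) (nat_lit 371) (nat_lit 335))) (.f (nat_lit 369) (nat_lit 370) (nat_lit 334) (.f (nat_lit 368) (nat_lit 333) (nat_lit 333) (.f (nat_lit 400) (nat_lit 432) (nat_lit 6480) (.d (nat_lit 305) (nat_lit 273) (nat_lit 5392) (nat_lit 306) (nat_lit 2350))))))))) (.a (.p (nat_lit 337) (.a (.d (nat_lit 366) (nat_lit 338) (nat_lit 1358) (nat_lit 365) (nat_lit 1357)) (.f (nat_lit 369) (nat_lit 370) (nat_lit 334) (.f (nat_lit 368) (nat_lit 333) (nat_lit 333) (.f (nat_lit 400) (nat_lit 432) (nat_lit 6480) (.d (nat_lit 305) (nat_lit 273) (nat_lit 5392) (nat_lit 306) (nat_lit 2350))))))) (.a (.p (nat_lit 337) (.a (.d (nat_lit 366) (nat_lit 338) (nat_lit 1358) (nat_lit 365) (nat_lit 1357)) (.a (.f (nat_lit 369) (nat_lit 370) (nat_lit 334) (.f (nat_lit 368) (nat_lit 333) (nat_lit 333) (.f (nat_lit 400) (nat_lit 432) (nat_lit 7503) (.f (nat_lit 366) (nat_lit 365) (nat_lit 1357) (.f (nat_lit 401) (nat_lit 402) (nat_lit 366) (.d (nat_lit 304) (nat_lit 272) (nat_lit 4368) (nat_lit 433) (nat_lit 4400))))))) (.a (.f (nat_lit 338) (nat_lit 366) (nat_lit 1358) (.d (nat_lit 370) (nat_lit 369) (nat_lit 334) (nat_lit 371) (nat_lit 335))) (.f (nat_lit 369) (nat_lit 370) (nat_lit 334) (.f (nat_lit 368) (nat_lit 333) (nat_lit 333) (.f (nat_lit 400) (nat_lit 432) (nat_lit 6480) (.f (nat_lit 338) (nat_lit 339) (nat_lit 1359) (.d (nat_lit 303) (nat_lit 271) (nat_lit 4367) (nat_lit 302) (nat_lit 3374)))))))))) (.a s75229 (.a (.p (nat_lit 333) (.a (.f (nat_lit 368) (nat_lit 369) (nat_lit 333) (.f (nat_lit 400) (nat_lit 432) (nat_lit 7503) (.f (nat_lit 304) (nat_lit 305) (nat_lit 2349) (.f (nat_lit 271) (nat_lit 303) (nat_lit 4367) (.d (nat_lit 272) (nat_lit 239) (nat_lit 7407) (nat_lit 240) (nat_lit 5359)))))) (.a (.f (nat_lit 368) (nat_lit 369) (nat_lit 333) (.f (nat_lit 400) (nat_lit 432) (nat_lit 7503) (.f (nat_lit 304) (nat_lit 305) (nat_lit 2349) (.f (nat_lit 365) (nat_lit 364) (nat_lit 1356) (.d (nat_lit 401) (nat_lit 366) (nat_lit 365) (nat_lit 433) (nat_lit 4400)))))) (.a (.f (nat_lit 368) (nat_lit 369) (nat_lit 333) (.f (nat_lit 365) (nat_lit 364) (nat_lit 1356) (.f (nat_lit 400) (nat_lit 432) (nat_lit 7503) (.f (nat_lit 397) (nat_lit 429) (nat_lit 4429) (.d (nat_lit 366) (nat_lit 396) (nat_lit 1388) (nat_lit 401) (nat_lit 365)))))) (.f (nat_lit 365) (nat_lit 364) (nat_lit 1356) (.f (nat_lit 301) (nat_lit 300) (nat_lit 3372) (.f (nat_lit 397) (nat_lit 429) (nat_lit 4429) (.f (nat_lit 270) (nat_lit 302) (nat_lit 6413) (.f (nat_lit 269) (nat_lit 238) (nat_lit 6381) (.f (nat_lit 304) (nat_lit 305) (nat_lit 2349) (.f (nat_lit 268) (nat_lit 236) (nat_lit 7404) (.f (nat_lit 240) (nat_lit 272) (nat_lit 5359) (.d (nat_lit 271) (nat_lit 239) (nat_lit 2284) (nat_lit 303) (nat_lit 268)))))))))))))) (.a (.p (nat_lit 337) (.a (.f (nat_lit 338) (nat_lit 366) (nat_lit 1358) (.d (nat_lit 370) (nat_lit 369) (nat_lit 334) (nat_lit 371) (nat_lit 335))) (.a (.f (nat_lit 305) (nat_lit 306) (nat_lit 2350) (.f (nat_lit 369) (nat_lit 370) (nat_lit 334) (.f (nat_lit 304) (nat_lit 333) (nat_lit 2349) (.d (nat_lit 272) (nat_lit 240) (nat_lit 4336) (nat_lit 401) (nat_lit 7440))))) (.f (nat_lit 302) (nat_lit 301) (nat_lit 3373) (.f (nat_lit 338) (nat_lit 303) (nat_lit 3374) (.d (nat_lit 306) (nat_lit 305) (nat_lit 2350) (nat_lit 307) (nat_lit 2351))))))) (.a (.p (nat_lit 337) (.a (.f (nat_lit 305) (nat_lit 306) (nat_lit 2350) (.f (nat_lit 369) (nat_lit 370) (nat_lit 334) (.f (nat_lit 304) (nat_lit 333) (nat_lit 2349) (.d (nat_lit 272) (nat_lit 240) (nat_lit 4336) (nat_lit 401) (nat_lit 7440))))) (.a (.f (nat_lit 369) (nat_lit 370) (nat_lit 334) (.f (nat_lit 368) (nat_lit 333) (nat_lit 333) (.f (nat_lit 400) (nat_lit 432) (nat_lit 6480) (.d (nat_lit 305) (nat_lit 273) (nat_lit 5392) (nat_lit 306) (nat_lit 2350))))) (.a (.f (nat_lit 369) (nat_lit 370) (nat_lit 334) (.f (nat_lit 368) (nat_lit 333) (nat_lit 333) (.f (nat_lit 400) (nat_lit 432) (nat_lit 6480) (.f (nat_lit 338) (nat_lit 339) (nat_lit 1359) (.d (nat_lit 303) (nat_lit 271) (nat_lit 4367) (nat_lit 302) (nat_lit 3374)))))) (.f (nat_lit 302) (nat_lit 301) (nat_lit 3373) (.f (nat_lit 338) (nat_lit 303) (nat_lit 3374) (.d (nat_lit 306) (nat_lit 305) (nat_lit 2350) (nat_lit 307) (nat_lit 2351)))))))) (.p (nat_lit 337) (.a (.d (nat_lit 366) (nat_lit 338) (nat_lit 1358) (nat_lit 365) (nat_lit 1357)) (.a (.f (nat_lit 365) (nat_lit 366) (nat_lit 1357) (.f (nat_lit 333) (nat_lit 364) (nat_lit 1356) (.d (nat_lit 305) (nat_lit 304) (nat_lit 2349) (nat_lit 306) (nat_lit 2350)))) (.f (nat_lit 302) (nat_lit 301) (nat_lit 3373) (.f (nat_lit 338) (nat_lit 303) (nat_lit 3374) (.d (nat_lit 306) (nat_lit 305) (nat_lit 2350) (nat_lit 307) (nat_lit 2351))))))))))))))))))))))))) (.a (.f (nat_lit 399) (nat_lit 431) (nat_lit 5454) (.p (nat_lit 303) (.a (.f (nat_lit 400) (nat_lit 432) (nat_lit 4399) (.f (nat_lit 271) (nat_lit 368) (nat_lit 4367) (.d (nat_lit 272) (nat_lit 240) (nat_lit 6383) (nat_lit 304) (nat_lit 6415)))) (.a (.f (nat_lit 400) (nat_lit 432) (nat_lit 4399) (.f (nat_lit 271) (nat_lit 368) (nat_lit 4367) (.d (nat_lit 270) (nat_lit 238) (nat_lit 7406) (nat_lit 302) (nat_lit 7438)))) (.a (.f (nat_lit 302) (nat_lit 270) (nat_lit 7438) (.p (nat_lit 337) (.a (.f (nat_lit 336) (nat_lit 338) (nat_lit 3374) (.d (nat_lit 301) (nat_lit 300) (nat_lit 300) (nat_lit 334) (nat_lit 3373))) (.a (.f (nat_lit 336) (nat_lit 338) (nat_lit 3374) (.d (nat_lit 301) (nat_lit 304) (nat_lit 301) (nat_lit 334) (nat_lit 3373))) (.a (.f (nat_lit 338) (nat_lit 336) (nat_lit 3374) (.d (nat_lit 304) (nat_lit 272) (nat_lit 6415) (nat_lit 305) (nat_lit 302))) (.a (.f (nat_lit 304) (nat_lit 272) (nat_lit 6415) (.f (nat_lit 305) (nat_lit 338) (nat_lit 302) (.f (nat_lit 400) (nat_lit 432) (nat_lit 4399) (.f (nat_lit 273) (nat_lit 274) (nat_lit 2318) (.f (nat_lit 369) (nat_lit 368) (nat_lit 5392) (.f (nat_lit 402) (nat_lit 370) (nat_lit 4369) (.d (nat_lit 401) (nat_lit 366) (nat_lit 3438) (nat_lit 434) (nat_lit 4401)))))))) (.f (nat_lit 304) (nat_lit 272) (nat_lit 6415) (.f (nat_lit 301) (nat_lit 336) (nat_lit 301) (.f (nat_lit 268) (nat_lit 269) (nat_lit 3340) (.f (nat_lit 300) (nat_lit 267) (nat_lit 3339) (.f (nat_lit 331) (nat_lit 332) (nat_lit 1323) (.d (nat_lit 299) (nat_lit 330) (nat_lit 1322) (nat_lit 334) (nat_lit 299))))))))))))) (.f (nat_lit 270) (nat_lit 302) (nat_lit 7438) (.f (nat_lit 271) (nat_lit 238) (nat_lit 7406) (.d (nat_lit 272) (nat_lit 240) (nat_lit 6383) (nat_lit 304) (nat_lit 6415))))))))) (.a (.f (nat_lit 399) (nat_lit 431) (nat_lit 5454) (.p (nat_lit 303) (.a (.f (nat_lit 400) (nat_lit 432) (nat_lit 4399) (.f (nat_lit 271) (nat_lit 368) (nat_lit 4367) (.d (nat_lit 272) (nat_lit 240) (nat_lit 6383) (nat_lit 304) (nat_lit 6415)))) (.a (.f (nat_lit 400) (nat_lit 432) (nat_lit 4399) (.f (nat_lit 271) (nat_lit 368) (nat_lit 4367) (.d (nat_lit 270) (nat_lit 238) (nat_lit 7406) (nat_lit 302) (nat_lit 7438)))) (.a (.f (nat_lit 302) (nat_lit 270) (nat_lit 7438) (.p (nat_lit 301) (.a (.f (nat_lit 304) (nat_lit 272) (nat_lit 6415) (.d (nat_lit 336) (nat_lit 300) (nat_lit 300) (nat_lit 337) (nat_lit 301))) (.a (.f (nat_lit 336) (nat_lit 300) (nat_lit 300) (.d (nat_lit 337) (nat_lit 304) (nat_lit 301) (nat_lit 338) (nat_lit 3374))) (.a (.f (nat_lit 304) (nat_lit 272) (nat_lit 6415) (.f (nat_lit 337) (nat_lit 336) (nat_lit 301) (.f (nat_lit 400) (nat_lit 432) (nat_lit 4399) (.f (nat_lit 305) (nat_lit 338) (nat_lit 302) (.f (nat_lit 273) (nat_lit 274) (nat_lit 2318) (.f (nat_lit 369) (nat_lit 368) (nat_lit 5392) (.f (nat_lit 402) (nat_lit 370) (nat_lit 4369) (.d (nat_lit 401) (nat_lit 366) (nat_lit 3438) (nat_lit 434) (nat_lit 4401))))))))) (.a (.f (nat_lit 300) (nat_lit 336) (nat_lit 300) (.f (nat_lit 267) (nat_lit 268) (nat_lit 3339) (.f (nat_lit 299) (nat_lit 266) (nat_lit 3338) (.d (nat_lit 331) (nat_lit 330) (nat_lit 1322) (nat_lit 332) (nat_lit 1323))))) (.f (nat_lit 304) (nat_lit 272) (nat_lit 6415) (.f (nat_lit 268) (nat_lit 269) (nat_lit 3340) (.f (nat_lit 300) (nat_lit 267) (nat_lit 3339) (.d (nat_lit 332) (nat_lit 331) (nat_lit 1323) (nat_lit 333) (nat_lit 1324))))))))))) (.f (nat_lit 270) (nat_lit 302) (nat_lit 7438) (.f (nat_lit 271) (nat_lit 238) (nat_lit 7406) (.d (nat_lit 272) (nat_lit 240) (nat_lit 6383) (nat_lit 304) (nat_lit 6415))))))))) (.a (.f (nat_lit 399) (nat_lit 431) (nat_lit 5454) (.p (nat_lit 303) (.a (.f (nat_lit 400) (nat_lit 432) (nat_lit 4399) (.f (nat_lit 271) (nat_lit 368) (nat_lit 4367) (.d (nat_lit 272) (nat_lit 240) (nat_lit 6383) (nat_lit 304) (nat_lit 6415)))) (.a (.f (nat_lit 400) (nat_lit 432) (nat_lit 4399) (.f (nat_lit 271) (nat_lit 368) (nat_lit 4367) (.d (nat_lit 270) (nat_lit 238) (nat_lit 7406) (nat_lit 302) (nat_lit 7438)))) (.a (.f (nat_lit 304) (nat_lit 272) (nat_lit 6415) (.p (nat_lit 305) (.a (.f (nat_lit 302) (nat_lit 270) (nat_lit 7438) (.d (nat_lit 334) (nat_lit 306) (nat_lit 1326) (nat_lit 333) (nat_lit 1325))) (.a (.f (nat_lit 306) (nat_lit 334) (nat_lit 1326) (.f (nat_lit 338) (nat_lit 339) (nat_lit 303) (.f (nat_lit 274) (nat_lit 275) (nat_lit 2319) (.d (nat_lit 302) (nat_lit 273) (nat_lit 2318) (nat_lit 337) (nat_lit 302))))) (.a (.f (nat_lit 306) (nat_lit 334) (nat_lit 1326) (.f (nat_lit 339) (nat_lit 338) (nat_lit 303) (.f (nat_lit 307) (nat_lit 340) (nat_lit 304) (.d (nat_lit 275) (nat_lit 274) (nat_lit 2319) (nat_lit 276) (nat_lit 2320))))) (.a (.f (nat_lit 302) (nat_lit 270) (nat_lit 7438) (.f (nat_lit 333) (nat_lit 334) (nat_lit 1325) (.f (nat_lit 301) (nat_lit 332) (nat_lit 1324) (.f (nat_lit 268) (nat_lit 269) (nat_lit 3340) (.f (nat_lit 300) (nat_lit 267) (nat_lit 3339) (.f (nat_lit 400) (nat_lit 432) (nat_lit 4399) (.f (nat_lit 365) (nat_lit 397) (nat_lit 7436) (.f (nat_lit 366) (nat_lit 364) (nat_lit 364) (.d (nat_lit 401) (nat_lit 368) (nat_lit 365) (nat_lit 402) (nat_lit 3438)))))))))) (.f (nat_lit 302) (nat_lit 270) (nat_lit 7438) (.f (nat_lit 274) (nat_lit 273) (nat_lit 2318) (.f (nat_lit 306) (nat_lit 275) (nat_lit 2319) (.d (nat_lit 338) (nat_lit 337) (nat_lit 302) (nat_lit 339) (nat_lit 303))))))))))) (.f (nat_lit 270) (nat_lit 302) (nat_lit 7438) (.f (nat_lit 271) (nat_lit 238) (nat_lit 7406) (.d (nat_lit 272) (nat_lit 240) (nat_lit 6383) (nat_lit 304) (nat_lit 6415))))))))) (.a (.p (nat_lit 333) (.a (.p (nat_lit 368) (.a (.f (nat_lit 334) (nat_lit 332) (nat_lit 332) (.d (nat_lit 369) (nat_lit 336) (nat_lit 333) (nat_lit 366) (nat_lit 3405))) (.a (.f (nat_lit 399) (nat_lit 431) (nat_lit 5454) (.f (nat_lit 400) (nat_lit 432) (nat_lit 7503) (.f (nat_lit 303) (nat_lit 271) (nat_lit 4367) (.f (nat_lit 304) (nat_lit 272) (nat_lit 6415) (.f (nat_lit 302) (nat_lit 270) (nat_lit 7438) (.f (nat_lit 334) (nat_lit 305) (nat_lit 1325) (.d (nat_lit 369) (nat_lit 336) (nat_lit 333) (nat_lit 370) (nat_lit 3406)))))))) (.a (.f (nat_lit 399) (nat_lit 431) (nat_lit 5454) (.f (nat_lit 400) (nat_lit 432) (nat_lit 7503) (.f (nat_lit 303) (nat_lit 271) (nat_lit 4367) (.f (nat_lit 304) (nat_lit 272) (nat_lit 6415) (.f (nat_lit 302) (nat_lit 270) (nat_lit 7438) (.f (nat_lit 301) (nat_lit 332) (nat_lit 1324) (.f (nat_lit 336) (nat_lit 300) (nat_lit 300) (.f (nat_lit 401) (nat_lit 433) (nat_lit 4400) (.d (nat_lit 402) (nat_lit 366) (nat_lit 3438) (nat_lit 403) (nat_lit 3439)))))))))) (.f (nat_lit 334) (nat_lit 332) (nat_lit 332) (.d (nat_lit 369) (nat_lit 366) (nat_lit 3405) (nat_lit 370) (nat_lit 3406))))))) (.a (.p (nat_lit 368) (.a (.f (nat_lit 334) (nat_lit 332) (nat_lit 332) (.d (nat_lit 369) (nat_lit 336) (nat_lit 333) (nat_lit 366) (nat_lit 3405))) (.f (nat_lit 432) (nat_lit 400) (nat_lit 7503) (.f (nat_lit 431) (nat_lit 399) (nat_lit 5454) (.f (nat_lit 429) (nat_lit 465) (nat_lit 429) (.d (nat_lit 397) (nat_lit 365) (nat_lit 4429) (nat_lit 396) (nat_lit 3468))))))) (.a (.f (nat_lit 399) (nat_lit 431) (nat_lit 5454) (.p (nat_lit 303) (.a (.f (nat_lit 400) (nat_lit 432) (nat_lit 4399) (.f (nat_lit 271) (nat_lit 368) (nat_lit 4367) (.d (nat_lit 272) (nat_lit 240) (nat_lit 6383) (nat_lit 304) (nat_lit 6415)))) (.a (.f (nat_lit 400) (nat_lit 432) (nat_lit 4399) (.f (nat_lit 368) (nat_lit 271) (nat_lit 4367) (.f (nat_lit 304) (nat_lit 272) (nat_lit 6415) (.f (nat_lit 302) (nat_lit 270) (nat_lit 7438) (.f (nat_lit 334) (nat_lit 305) (nat_lit 1325) (.d (nat_lit 369) (nat_lit 336) (nat_lit 333) (nat_lit 370) (nat_lit 3406))))))) (.a (.f (nat_lit 304) (nat_lit 272) (nat_lit 6415) (.f (nat_lit 302) (nat_lit 270) (nat_lit 7438) (.f (nat_lit 305) (nat_lit 334) (nat_lit 1325) (.f (nat_lit 274) (nat_lit 273) (nat_lit 2318) (.f (nat_lit 306) (nat_lit 275) (nat_lit 2319) (.f (nat_lit 307) (nat_lit 336) (nat_lit 1327) (.d (nat_lit 339) (nat_lit 338) (nat_lit 303) (nat_lit 340) (nat_lit 304)))))))) (.f (nat_lit 400) (nat_lit 432) (nat_lit 4399) (.f (nat_lit 271) (nat_lit 368) (nat_lit 4367) (.d (nat_lit 270) (nat_lit 238) (nat_lit 7406) (nat_lit 302) (nat_lit 7438))))))))) (.a (.f (nat_lit 399) (nat_lit 431) (nat_lit 5454) (.p (nat_lit 303) (.a (.f (nat_lit 400) (nat_lit 432) (nat_lit 4399) (.f (nat_lit 271) (nat_lit 368) (nat_lit 4367) (.d (nat_lit 272) (nat_lit 240) (nat_lit 6383) (nat_lit 304) (nat_lit 6415)))) (.a (.f (nat_lit 400) (nat_lit 432) (nat_lit 4399) (.f (nat_lit 271) (nat_lit 368) (nat_lit 4367) (.d (nat_lit 270) (nat_lit 238) (nat_lit 7406) (nat_lit 302) (nat_lit 7438)))) (.f (nat_lit 304) (nat_lit 272) (nat_lit 6415) (.f (nat_lit 302) (nat_lit 270) (nat_lit 7438) (.f (nat_lit 301) (nat_lit 332) (nat_lit 1324) (.f (nat_lit 300) (nat_lit 336) (nat_lit 300) (.d (nat_lit 268) (nat_lit 267) (nat_lit 3339) (nat_lit 269) (nat_lit 3340)))))))))) (.a (.p (nat_lit 368) (.a (.f (nat_lit 334) (nat_lit 332) (nat_lit 332) (.d (nat_lit 369) (nat_lit 366) (nat_lit 3405) (nat_lit 370) (nat_lit 3406))) (.f (nat_lit 432) (nat_lit 400) (nat_lit 7503) (.f (nat_lit 431) (nat_lit 399) (nat_lit 5454) (.f (nat_lit 429) (nat_lit 465) (nat_lit 429) (.d (nat_lit 397) (nat_lit 365) (nat_lit 4429) (nat_lit 396) (nat_lit 3468))))))) (.a (.p (nat_lit 334) (.a s75383 (.a (.p (nat_lit 332) (.a (.f (nat_lit 331) (nat_lit 366) (nat_lit 331) (.d (nat_lit 363) (nat_lit 362) (nat_lit 1354) (nat_lit 364) (nat_lit 1355))) (.f (nat_lit 399) (nat_lit 431) (nat_lit 5454) (.f (nat_lit 303) (nat_lit 304) (nat_lit 2348) (.f (nat_lit 302) (nat_lit 270) (nat_lit 7438) (.f (nat_lit 300) (nat_lit 299) (nat_lit 3371) (.f (nat_lit 301) (nat_lit 336) (nat_lit 300) (.f (nat_lit 268) (nat_lit 267) (nat_lit 3339) (.d (nat_lit 236) (nat_lit 204) (nat_lit 4300) (nat_lit 365) (nat_lit 4332)))))))))) (.a (.p (nat_lit 332) (.a (.f (nat_lit 331) (nat_lit 366) (nat_lit 331) (.d (nat_lit 363) (nat_lit 362) (nat_lit 1354) (nat_lit 364) (nat_lit 1355))) (.a (.f (nat_lit 364) (nat_lit 363) (nat_lit 1355) (.f (nat_lit 300) (nat_lit 299) (nat_lit 3371) (.d (nat_lit 336) (nat_lit 301) (nat_lit 3372) (nat_lit 365) (nat_lit 1356)))) (.f (nat_lit 303) (nat_lit 304) (nat_lit 2348) (.d (nat_lit 331) (nat_lit 302) (nat_lit 2347) (nat_lit 366) (nat_lit 331)))))) (.a s75404 (.a s75412 (.a s75423 (.a s75442 (.a s75446 (.a s75454 (.a s75455 s75456))))))))))) (.a (.p (nat_lit 334) (.a (.p (nat_lit 332) (.a (.f (nat_lit 331) (nat_lit 366) (nat_lit 331) (.d (nat_lit 363) (nat_lit 362) (nat_lit 1354) (nat_lit 364) (nat_lit 1355))) (.a (.f (nat_lit 364) (nat_lit 363) (nat_lit 1355) (.f (nat_lit 300) (nat_lit 299) (nat_lit 3371) (.d (nat_lit 336) (nat_lit 301) (nat_lit 3372) (nat_lit 365) (nat_lit 1356)))) (.f (nat_lit 303) (nat_lit 304) (nat_lit 2348) (.d (nat_lit 331) (nat_lit 302) (nat_lit 2347) (nat_lit 366) (nat_lit 331)))))) (.a (.f (nat_lit 368) (nat_lit 332) (nat_lit 332) (.d (nat_lit 369) (nat_lit 336) (nat_lit 333) (nat_lit 366) (nat_lit 3405))) (.a s75459 (.a (.f (nat_lit 332) (nat_lit 368) (nat_lit 332) (.f (nat_lit 331) (nat_lit 366) (nat_lit 331) (.d (nat_lit 363) (nat_lit 362) (nat_lit 1354) (nat_lit 364) (nat_lit 1355)))) (.f (nat_lit 332) (nat_lit 368) (nat_lit 332) (.f (nat_lit 303) (nat_lit 304) (nat_lit 2348) (.f (nat_lit 302) (nat_lit 331) (nat_lit 2347) (.f (nat_lit 300) (nat_lit 299) (nat_lit 3371) (.f (nat_lit 301) (nat_lit 336) (nat_lit 300) (.f (nat_lit 268) (nat_lit 267) (nat_lit 3339) (.d (nat_lit 236) (nat_lit 204) (nat_lit 4300) (nat_lit 365) (nat_lit 4332))))))))))))) (.p (nat_lit 334) (.a s75383 (.a (.p (nat_lit 332) (.a (.f (nat_lit 331) (nat_lit 366) (nat_lit 331) (.d (nat_lit 363) (nat_lit 362) (nat_lit 1354) (nat_lit 364) (nat_lit 1355))) (.f (nat_lit 399) (nat_lit 431) (nat_lit 5454) (.f (nat_lit 303) (nat_lit 304) (nat_lit 2348) (.f (nat_lit 302) (nat_lit 270) (nat_lit 7438) (.f (nat_lit 300) (nat_lit 299) (nat_lit 3371) (.f (nat_lit 301) (nat_lit 336) (nat_lit 300) (.f (nat_lit 268) (nat_lit 267) (nat_lit 3339) (.d (nat_lit 236) (nat_lit 204) (nat_lit 4300) (nat_lit 365) (nat_lit 4332)))))))))) (.a (.p (nat_lit 332) (.a (.f (nat_lit 331) (nat_lit 366) (nat_lit 331) (.d (nat_lit 363) (nat_lit 362) (nat_lit 1354) (nat_lit 364) (nat_lit 1355))) (.a (.f (nat_lit 364) (nat_lit 363) (nat_lit 1355) (.f (nat_lit 300) (nat_lit 299) (nat_lit 3371) (.d (nat_lit 336) (nat_lit 301) (nat_lit 3372) (nat_lit 365) (nat_lit 1356)))) (.f (nat_lit 303) (nat_lit 304) (nat_lit 2348) (.d (nat_lit 331) (nat_lit 302) (nat_lit 2347) (nat_lit 366) (nat_lit 331)))))) (.a s75442 (.a (.f (nat_lit 368) (nat_lit 332) (nat_lit 332) (.d (nat_lit 369) (nat_lit 336) (nat_lit 333) (nat_lit 366) (nat_lit 3405))) (.a s75446 (.a (.f (nat_lit 332) (nat_lit 368) (nat_lit 332) (.f (nat_lit 331) (nat_lit 366) (nat_lit 331) (.d (nat_lit 363) (nat_lit 362) (nat_lit 1354) (nat_lit 364) (nat_lit 1355)))) s75456)))))))))))))))) (.a (.p (nat_lit 334) (.a s75070 (.a (.p (nat_lit 368) (.a (.f (nat_lit 369) (nat_lit 370) (nat_lit 3406) (.d (nat_lit 333) (nat_lit 336) (nat_lit 333) (nat_lit 366) (nat_lit 3405))) (.f (nat_lit 431) (nat_lit 399) (nat_lit 5454) (.f (nat_lit 432) (nat_lit 400) (nat_lit 7503) (.f (nat_lit 465) (nat_lit 429) (nat_lit 429) (.d (nat_lit 466) (nat_lit 433) (nat_lit 430) (nat_lit 467) (nat_lit 3503))))))) (.a (.f (nat_lit 399) (nat_lit 431) (nat_lit 5454) (.p (nat_lit 303) (.a (.f (nat_lit 400) (nat_lit 432) (nat_lit 4399) (.f (nat_lit 271) (nat_lit 368) (nat_lit 4367) (.d (nat_lit 272) (nat_lit 240) (nat_lit 6383) (nat_lit 304) (nat_lit 6415)))) (.a (.f (nat_lit 302) (nat_lit 270) (nat_lit 7438) (.f (nat_lit 400) (nat_lit 432) (nat_lit 4399) (.f (nat_lit 271) (nat_lit 368) (nat_lit 4367) (.d (nat_lit 239) (nat_lit 207) (nat_lit 5326) (nat_lit 366) (nat_lit 5358))))) (.a (.f (nat_lit 302) (nat_lit 270) (nat_lit 7438) (.f (nat_lit 304) (nat_lit 272) (nat_lit 6415) (.f (nat_lit 400) (nat_lit 432) (nat_lit 4399) (.f (nat_lit 305) (nat_lit 306) (nat_lit 1326) (.f (nat_lit 273) (nat_lit 274) (nat_lit 2318) (.f (nat_lit 336) (nat_lit 368) (nat_lit 6416) (.d (nat_lit 301) (nat_lit 300) (nat_lit 300) (nat_lit 337) (nat_lit 301)))))))) (.f (nat_lit 302) (nat_lit 270) (nat_lit 7438) (.f (nat_lit 272) (nat_lit 304) (nat_lit 6415) (.f (nat_lit 271) (nat_lit 240) (nat_lit 6383) (.d (nat_lit 239) (nat_lit 207) (nat_lit 5326) (nat_lit 366) (nat_lit 5358)))))))))) (.a (.p (nat_lit 368) (.a (.f (nat_lit 333) (nat_lit 332) (nat_lit 332) (.d (nat_lit 369) (nat_lit 366) (nat_lit 3405) (nat_lit 370) (nat_lit 3406))) (.a (.f (nat_lit 399) (nat_lit 431) (nat_lit 5454) (.f (nat_lit 400) (nat_lit 432) (nat_lit 7503) (.f (nat_lit 369) (nat_lit 370) (nat_lit 3406) (.f (nat_lit 366) (nat_lit 333) (nat_lit 3405) (.d (nat_lit 365) (nat_lit 364) (nat_lit 364) (nat_lit 401) (nat_lit 365)))))) (.f (nat_lit 431) (nat_lit 399) (nat_lit 5454) (.f (nat_lit 432) (nat_lit 400) (nat_lit 7503) (.f (nat_lit 465) (nat_lit 429) (nat_lit 429) (.d (nat_lit 466) (nat_lit 433) (nat_lit 430) (nat_lit 467) (nat_lit 3503)))))))) (.a s75485 (.a (.p (nat_lit 333) (.a s75383 (.a (.p (nat_lit 332) (.a (.f (nat_lit 331) (nat_lit 366) (nat_lit 331) (.d (nat_lit 363) (nat_lit 362) (nat_lit 1354) (nat_lit 364) (nat_lit 1355))) (.f (nat_lit 399) (nat_lit 431) (nat_lit 5454) (.f (nat_lit 303) (nat_lit 304) (nat_lit 2348) (.f (nat_lit 302) (nat_lit 270) (nat_lit 7438) (.f (nat_lit 300) (nat_lit 299) (nat_lit 3371) (.f (nat_lit 301) (nat_lit 336) (nat_lit 300) (.f (nat_lit 268) (nat_lit 267) (nat_lit 3339) (.d (nat_lit 236) (nat_lit 204) (nat_lit 4300) (nat_lit 365) (nat_lit 4332)))))))))) (.a (.p (nat_lit 332) (.a (.f (nat_lit 331) (nat_lit 366) (nat_lit 331) (.d (nat_lit 363) (nat_lit 362) (nat_lit 1354) (nat_lit 364) (nat_lit 1355))) (.a (.f (nat_lit 364) (nat_lit 363) (nat_lit 1355) (.f (nat_lit 300) (nat_lit 299) (nat_lit 3371) (.d (nat_lit 336) (nat_lit 301) (nat_lit 3372) (nat_lit 365) (nat_lit 1356)))) (.f (nat_lit 303) (nat_lit 304) (nat_lit 2348) (.d (nat_lit 331) (nat_lit 302) (nat_lit 2347) (nat_lit 366) (nat_lit 331)))))) (.a s75404 (.a s75412 (.a s75423 (.a s75442 (.a s75446 (.a s75454 (.a s75455 s75456))))))))))) (.a (.p (nat_lit 333) (.a (.p (nat_lit 332) (.a (.f (nat_lit 331) (nat_lit 366) (nat_lit 331) (.d (nat_lit 363) (nat_lit 362) (nat_lit 1354) (nat_lit 364) (nat_lit 1355))) (.a (.f (nat_lit 364) (nat_lit 363) (nat_lit 1355) (.f (nat_lit 300) (nat_lit 299) (nat_lit 3371) (.d (nat_lit 336) (nat_lit 301) (nat_lit 3372) (nat_lit 365) (nat_lit 1356)))) (.f (nat_lit 303) (nat_lit 304) (nat_lit 2348) (.d (nat_lit 331) (nat_lit 302) (nat_lit 2347) (nat_lit 366) (nat_lit 331)))))) (.a (.f (nat_lit 368) (nat_lit 332) (nat_lit 332) (.d (nat_lit 369) (nat_lit 336) (nat_lit 333) (nat_lit 366) (nat_lit 3405))) (.a s75459 (.a (.f (nat_lit 332) (nat_lit 368) (nat_lit 332) (.f (nat_lit 331) (nat_lit 366) (nat_lit 331) (.d (nat_lit 363) (nat_lit 362) (nat_lit 1354) (nat_lit 364) (nat_lit 1355)))) (.f (nat_lit 332) (nat_lit 368) (nat_lit 332) (.f (nat_lit 303) (nat_lit 304) (nat_lit 2348) (.f (nat_lit 302) (nat_lit 331) (nat_lit 2347) (.f (nat_lit 300) (nat_lit 299) (nat_lit 3371) (.f (nat_lit 301) (nat_lit 336) (nat_lit 300) (.f (nat_lit 268) (nat_lit 267) (nat_lit 3339) (.d (nat_lit 236) (nat_lit 204) (nat_lit 4300) (nat_lit 365) (nat_lit 4332))))))))))))) (.f (nat_lit 399) (nat_lit 431) (nat_lit 5454) s75504))))))))) (.a (.p (nat_lit 334) (.a s75137 (.a s75485 (.a (.p (nat_lit 368) (.a (.f (nat_lit 333) (nat_lit 332) (nat_lit 332) (.d (nat_lit 369) (nat_lit 336) (nat_lit 333) (nat_lit 370) (nat_lit 3406))) (.a (.f (nat_lit 399) (nat_lit 431) (nat_lit 5454) (.f (nat_lit 400) (nat_lit 432) (nat_lit 7503) (.f (nat_lit 369) (nat_lit 370) (nat_lit 3406) (.f (nat_lit 303) (nat_lit 271) (nat_lit 4367) (.f (nat_lit 304) (nat_lit 272) (nat_lit 6415) (.f (nat_lit 305) (nat_lit 306) (nat_lit 1326) (.d (nat_lit 273) (nat_lit 336) (nat_lit 6416) (nat_lit 337) (nat_lit 5392)))))))) (.f (nat_lit 399) (nat_lit 431) (nat_lit 5454) (.f (nat_lit 400) (nat_lit 432) (nat_lit 7503) (.f (nat_lit 303) (nat_lit 271) (nat_lit 4367) (.f (nat_lit 304) (nat_lit 272) (nat_lit 6415) (.f (nat_lit 333) (nat_lit 332) (nat_lit 332) (.d (nat_lit 305) (nat_lit 302) (nat_lit 1325) (nat_lit 306) (nat_lit 1326)))))))))) (.a (.p (nat_lit 368) (.a (.f (nat_lit 333) (nat_lit 332) (nat_lit 332) (.d (nat_lit 369) (nat_lit 336) (nat_lit 333) (nat_lit 370) (nat_lit 3406))) (.f (nat_lit 431) (nat_lit 399) (nat_lit 5454) (.f (nat_lit 432) (nat_lit 400) (nat_lit 7503) (.f (nat_lit 465) (nat_lit 429) (nat_lit 429) (.d (nat_lit 466) (nat_lit 433) (nat_lit 430) (nat_lit 467) (nat_lit 3503))))))) (.a (.f (nat_lit 399) (nat_lit 431) (nat_lit 5454) (.p (nat_lit 303) (.a (.f (nat_lit 302) (nat_lit 270) (nat_lit 7438) (.f (nat_lit 304) (nat_lit 272) (nat_lit 6415) (.f (nat_lit 305) (nat_lit 306) (nat_lit 1326) (.f (nat_lit 337) (nat_lit 338) (nat_lit 302) (.f (nat_lit 336) (nat_lit 301) (nat_lit 301) (.f (nat_lit 400) (nat_lit 432) (nat_lit 4399) (.d (nat_lit 368) (nat_lit 271) (nat_lit 4367) (nat_lit 273) (nat_lit 6416)))))))) (.a (.f (nat_lit 400) (nat_lit 432) (nat_lit 4399) (.f (nat_lit 271) (nat_lit 368) (nat_lit 4367) (.d (nat_lit 272) (nat_lit 240) (nat_lit 6383) (nat_lit 304) (nat_lit 6415)))) (.a (.f (nat_lit 302) (nat_lit 270) (nat_lit 7438) (.f (nat_lit 304) (nat_lit 272) (nat_lit 6415) (.f (nat_lit 305) (nat_lit 306) (nat_lit 1326) (.f (nat_lit 337) (nat_lit 338) (nat_lit 302) (.f (nat_lit 336) (nat_lit 301) (nat_lit 301) (.f (nat_lit 400) (nat_lit 432) (nat_lit 4399) (.d (nat_lit 273) (nat_lit 274) (nat_lit 2318) (nat_lit 368) (nat_lit 6416)))))))) (.a (.f (nat_lit 400) (nat_lit 432) (nat_lit 4399) (.f (nat_lit 271) (nat_lit 368) (nat_lit 4367) (.d (nat_lit 270) (nat_lit 238) (nat_lit 7406) (nat_lit 302) (nat_lit 7438)))) (.f (nat_lit 302) (nat_lit 270) (nat_lit 7438) (.f (nat_lit 304) (nat_lit 272) (nat_lit 6415) (.f (nat_lit 305) (nat_lit 306) (nat_lit 1326) (.f (nat_lit 337) (nat_lit 338) (nat_lit 302) (.f (nat_lit 301) (nat_lit 336) (nat_lit 301) (.f (nat_lit 300) (nat_lit 299) (nat_lit 299) (.d (nat_lit 268) (nat_lit 267) (nat_lit 3339) (nat_lit 269) (nat_lit 3340)))))))))))))) (.a (.f (nat_lit 399) (nat_lit 431) (nat_lit 5454) (.p (nat_lit 303) (.a (.f (nat_lit 400) (nat_lit 432) (nat_lit 4399) (.f (nat_lit 271) (nat_lit 368) (nat_lit 4367) (.d (nat_lit 272) (nat_lit 240) (nat_lit 6383) (nat_lit 304) (nat_lit 6415)))) (.a (.f (nat_lit 302) (nat_lit 270) (nat_lit 7438) (.f (nat_lit 304) (nat_lit 272) (nat_lit 6415) (.d (nat_lit 305) (nat_lit 306) (nat_lit 1326) (nat_lit 333) (nat_lit 1325)))) (.f (nat_lit 400) (nat_lit 432) (nat_lit 4399) (.f (nat_lit 271) (nat_lit 368) (nat_lit 4367) (.d (nat_lit 270) (nat_lit 238) (nat_lit 7406) (nat_lit 302) (nat_lit 7438)))))))) (.a s75635 (.a (.p (nat_lit 333) (.a (.f (nat_lit 332) (nat_lit 368) (nat_lit 332) (.f (nat_lit 303) (nat_lit 304) (nat_lit 2348) (.f (nat_lit 302) (nat_lit 331) (nat_lit 2347) (.f (nat_lit 300) (nat_lit 299) (nat_lit 3371) (.f (nat_lit 301) (nat_lit 336) (nat_lit 300) (.f (nat_lit 268) (nat_lit 267) (nat_lit 3339) (.d (nat_lit 236) (nat_lit 204) (nat_lit 4300) (nat_lit 365) (nat_lit 4332)))))))) (.a s75577 (.a (.f (nat_lit 368) (nat_lit 332) (nat_lit 332) (.d (nat_lit 369) (nat_lit 336) (nat_lit 333) (nat_lit 370) (nat_lit 3406))) (.a (.p (nat_lit 336) (.a (.f (nat_lit 368) (nat_lit 369) (nat_lit 333) (.f (nat_lit 400) (nat_lit 432) (nat_lit 7503) (.f (nat_lit 304) (nat_lit 305) (nat_lit 2349) (.f (nat_lit 271) (nat_lit 303) (nat_lit 4367) (.d (nat_lit 272) (nat_lit 239) (nat_lit 7407) (nat_lit 240) (nat_lit 5359)))))) (.a (.f (nat_lit 301) (nat_lit 300) (nat_lit 3372) (.f (nat_lit 337) (nat_lit 302) (nat_lit 3373) (.d (nat_lit 305) (nat_lit 304) (nat_lit 2349) (nat_lit 306) (nat_lit 2350)))) (.f (nat_lit 365) (nat_lit 364) (nat_lit 1356) (.f (nat_lit 301) (nat_lit 300) (nat_lit 3372) (.f (nat_lit 302) (nat_lit 337) (nat_lit 3373) (.d (nat_lit 397) (nat_lit 270) (nat_lit 6413) (nat_lit 429) (nat_lit 4429)))))))) (.f (nat_lit 332) (nat_lit 368) (nat_lit 332) (.f (nat_lit 303) (nat_lit 304) (nat_lit 2348) (.f (nat_lit 331) (nat_lit 302) (nat_lit 2347) (.d (nat_lit 363) (nat_lit 362) (nat_lit 1354) (nat_lit 364) (nat_lit 1355)))))))))) (.p (nat_lit 333) (.a s75456 (.a s75523 (.a (.f (nat_lit 332) (nat_lit 368) (nat_lit 332) (.f (nat_lit 303) (nat_lit 304) (nat_lit 2348) (.f (nat_lit 302) (nat_lit 331) (nat_lit 2347) (.f (nat_lit 300) (nat_lit 299) (nat_lit 3371) (.f (nat_lit 301) (nat_lit 336) (nat_lit 300) (.f (nat_lit 268) (nat_lit 267) (nat_lit 3339) (.d (nat_lit 236) (nat_lit 204) (nat_lit 4300) (nat_lit 365) (nat_lit 4332)))))))) (.a s75531 (.a s75562 (.a (.p (nat_lit 332) (.a (.f (nat_lit 399) (nat_lit 431) (nat_lit 5454) (.f (nat_lit 303) (nat_lit 304) (nat_lit 2348) (.d (nat_lit 302) (nat_lit 270) (nat_lit 7438) (nat_lit 331) (nat_lit 2347)))) (.a (.f (nat_lit 303) (nat_lit 304) (nat_lit 2348) (.f (nat_lit 331) (nat_lit 302) (nat_lit 2347) (.d (nat_lit 363) (nat_lit 362) (nat_lit 1354) (nat_lit 364) (nat_lit 1355)))) (.f (nat_lit 364) (nat_lit 363) (nat_lit 1355) (.f (nat_lit 300) (nat_lit 299) (nat_lit 3371) (.f (nat_lit 365) (nat_lit 336) (nat_lit 1356) (.d (nat_lit 268) (nat_lit 236) (nat_lit 4332) (nat_lit 397) (nat_lit 4364)))))))) (.a s75577 (.a (.f (nat_lit 368) (nat_lit 332) (nat_lit 332) (.d (nat_lit 369) (nat_lit 336) (nat_lit 333) (nat_lit 370) (nat_lit 3406))) (.a (.p (nat_lit 336) (.a (.f (nat_lit 365) (nat_lit 364) (nat_lit 1356) (.f (nat_lit 301) (nat_lit 300) (nat_lit 3372) (.f (nat_lit 397) (nat_lit 429) (nat_lit 4429) (.f (nat_lit 270) (nat_lit 302) (nat_lit 6413) (.f (nat_lit 269) (nat_lit 238) (nat_lit 6381) (.f (nat_lit 304) (nat_lit 305) (nat_lit 2349) (.f (nat_lit 268) (nat_lit 236) (nat_lit 7404) (.f (nat_lit 240) (nat_lit 272) (nat_lit 5359) (.d (nat_lit 271) (nat_lit 239) (nat_lit 2284) (nat_lit 303) (nat_lit 268)))))))))) (.a (.f (nat_lit 399) (nat_lit 431) (nat_lit 5454) (.f (nat_lit 304) (nat_lit 305) (nat_lit 2349) (.d (nat_lit 272) (nat_lit 240) (nat_lit 5359) (nat_lit 303) (nat_lit 6415)))) (.a (.f (nat_lit 301) (nat_lit 300) (nat_lit 3372) (.f (nat_lit 337) (nat_lit 302) (nat_lit 3373) (.d (nat_lit 305) (nat_lit 304) (nat_lit 2349) (nat_lit 306) (nat_lit 2350)))) (.f (nat_lit 365) (nat_lit 364) (nat_lit 1356) (.f (nat_lit 301) (nat_lit 300) (nat_lit 3372) (.f (nat_lit 302) (nat_lit 337) (nat_lit 3373) (.d (nat_lit 397) (nat_lit 270) (nat_lit 6413) (nat_lit 429) (nat_lit 4429))))))))) s75629))))))))))))))))))) (.a (.p (nat_lit 334) (.a s75200 (.a (.p (nat_lit 336) (.a (.p (nat_lit 337) (.a (.d (nat_lit 366) (nat_lit 338) (nat_lit 1358) (nat_lit 365) (nat_lit 1357)) (.a (.f (nat_lit 399) (nat_lit 431) (nat_lit 5454) (.f (nat_lit 302) (nat_lit 301) (nat_lit 3373) (.d (nat_lit 270) (nat_lit 238) (nat_lit 4334) (nat_lit 366) (nat_lit 4366)))) (.f (nat_lit 399) (nat_lit 431) (nat_lit 5454) (.f (nat_lit 302) (nat_lit 301) (nat_lit 3373) (.d (nat_lit 303) (nat_lit 270) (nat_lit 7438) (nat_lit 338) (nat_lit 3374))))))) (.a (.p (nat_lit 337) (.a (.d (nat_lit 366) (nat_lit 338) (nat_lit 1358) (nat_lit 365) (nat_lit 1357)) (.a (.f (nat_lit 399) (nat_lit 431) (nat_lit 5454) (.f (nat_lit 366) (nat_lit 365) (nat_lit 1357) (.d (nat_lit 302) (nat_lit 270) (nat_lit 4366) (nat_lit 301) (nat_lit 3373)))) (.f (nat_lit 399) (nat_lit 431) (nat_lit 5454) (.f (nat_lit 302) (nat_lit 301) (nat_lit 3373) (.d (nat_lit 303) (nat_lit 270) (nat_lit 7438) (nat_lit 338) (nat_lit 3374))))))) (.a s75160 (.a (.p (nat_lit 337) (.a (.d (nat_lit 366) (nat_lit 338) (nat_lit 1358) (nat_lit 365) (nat_lit 1357)) (.a (.f (nat_lit 365) (nat_lit 366) (nat_lit 1357) (.f (nat_lit 333) (nat_lit 364) (nat_lit 1356) (.d (nat_lit 305) (nat_lit 304) (nat_lit 2349) (nat_lit 306) (nat_lit 2350)))) (.a (.f (nat_lit 338) (nat_lit 366) (nat_lit 1358) (.d (nat_lit 370) (nat_lit 369) (nat_lit 334) (nat_lit 371) (nat_lit 335))) (.f (nat_lit 399) (nat_lit 431) (nat_lit 5454) (.f (nat_lit 305) (nat_lit 306) (nat_lit 2350) (.f (nat_lit 304) (nat_lit 333) (nat_lit 2349) (.d (nat_lit 272) (nat_lit 240) (nat_lit 5359) (nat_lit 303) (nat_lit 6415))))))))) (.a (.p (nat_lit 337) (.a (.d (nat_lit 366) (nat_lit 338) (nat_lit 1358) (nat_lit 365) (nat_lit 1357)) (.a (.f (nat_lit 399) (nat_lit 431) (nat_lit 5454) (.f (nat_lit 302) (nat_lit 301) (nat_lit 3373) (.d (nat_lit 270) (nat_lit 238) (nat_lit 4334) (nat_lit 366) (nat_lit 4366)))) (.f (nat_lit 305) (nat_lit 306) (nat_lit 2350) (.f (nat_lit 369) (nat_lit 370) (nat_lit 334) (.f (nat_lit 304) (nat_lit 333) (nat_lit 2349) (.d (nat_lit 272) (nat_lit 240) (nat_lit 4336) (nat_lit 401) (nat_lit 7440)))))))) (.a (.p (nat_lit 333) (.a (.f (nat_lit 365) (nat_lit 364) (nat_lit 1356) (.f (nat_lit 301) (nat_lit 300) (nat_lit 3372) (.f (nat_lit 397) (nat_lit 429) (nat_lit 4429) (.f (nat_lit 270) (nat_lit 302) (nat_lit 6413) (.f (nat_lit 269) (nat_lit 238) (nat_lit 6381) (.f (nat_lit 304) (nat_lit 305) (nat_lit 2349) (.f (nat_lit 268) (nat_lit 236) (nat_lit 7404) (.f (nat_lit 240) (nat_lit 272) (nat_lit 5359) (.d (nat_lit 271) (nat_lit 239) (nat_lit 2284) (nat_lit 303) (nat_lit 268)))))))))) (.a (.f (nat_lit 399) (nat_lit 431) (nat_lit 5454) (.f (nat_lit 304) (nat_lit 305) (nat_lit 2349) (.d (nat_lit 303) (nat_lit 272) (nat_lit 6415) (nat_lit 332) (nat_lit 2348)))) (.a (.f (nat_lit 365) (nat_lit 364) (nat_lit 1356) (.f (nat_lit 397) (nat_lit 429) (nat_lit 4429) (.f (nat_lit 301) (nat_lit 300) (nat_lit 3372) (.f (nat_lit 270) (nat_lit 302) (nat_lit 6413) (.f (nat_lit 269) (nat_lit 238) (nat_lit 6381) (.f (nat_lit 304) (nat_lit 305) (nat_lit 2349) (.f (nat_lit 303) (nat_lit 332) (nat_lit 2348) (.d (nat_lit 268) (nat_lit 236) (nat_lit 7404) (nat_lit 271) (nat_lit 268))))))))) (.a (.f (nat_lit 365) (nat_lit 364) (nat_lit 1356) (.f (nat_lit 397) (nat_lit 429) (nat_lit 4429) (.f (nat_lit 301) (nat_lit 300) (nat_lit 3372) (.f (nat_lit 270) (nat_lit 302) (nat_lit 6413) (.f (nat_lit 269) (nat_lit 238) (nat_lit 6381) (.f (nat_lit 304) (nat_lit 305) (nat_lit 2349) (.f (nat_lit 272) (nat_lit 240) (nat_lit 5359) (.f (nat_lit 236) (nat_lit 268) (nat_lit 7404) (.d (nat_lit 237) (nat_lit 271) (nat_lit 3308) (nat_lit 366) (nat_lit 4333)))))))))) (.f (nat_lit 364) (nat_lit 365) (nat_lit 1356) (.f (nat_lit 332) (nat_lit 363) (nat_lit 1355) (.d (nat_lit 300) (nat_lit 299) (nat_lit 3371) (nat_lit 301) (nat_lit 3372))))))))) (.a (.p (nat_lit 337) (.a (.f (nat_lit 399) (nat_lit 431) (nat_lit 5454) (.f (nat_lit 302) (nat_lit 301) (nat_lit 3373) (.d (nat_lit 270) (nat_lit 238) (nat_lit 4334) (nat_lit 366) (nat_lit 4366)))) (.a (.f (nat_lit 399) (nat_lit 431) (nat_lit 5454) (.f (nat_lit 302) (nat_lit 301) (nat_lit 3373) (.d (nat_lit 303) (nat_lit 270) (nat_lit 7438) (nat_lit 338) (nat_lit 3374)))) (.f (nat_lit 338) (nat_lit 366) (nat_lit 1358) (.d (nat_lit 370) (nat_lit 369) (nat_lit 334) (nat_lit 371) (nat_lit 335)))))) (.a s75198 (.p (nat_lit 337) (.a (.d (nat_lit 366) (nat_lit 338) (nat_lit 1358) (nat_lit 365) (nat_lit 1357)) (.a (.f (nat_lit 365) (nat_lit 366) (nat_lit 1357) (.f (nat_lit 333) (nat_lit 364) (nat_lit 1356) (.d (nat_lit 305) (nat_lit 304) (nat_lit 2349) (nat_lit 306) (nat_lit 2350)))) (.a (.f (nat_lit 338) (nat_lit 366) (nat_lit 1358) (.d (nat_lit 370) (nat_lit 369) (nat_lit 334) (nat_lit 371) (nat_lit 335))) (.f (nat_lit 305) (nat_lit 306) (nat_lit 2350) (.f (nat_lit 369) (nat_lit 370) (nat_lit 334) (.f (nat_lit 304) (nat_lit 333) (nat_lit 2349) (.d (nat_lit 272) (nat_lit 240) (nat_lit 4336) (nat_lit 401) (nat_lit 7440)))))))))))))))))) (.a (.p (nat_lit 336) (.a (.p (nat_lit 337) (.a (.d (nat_lit 366) (nat_lit 338) (nat_lit 1358) (nat_lit 365) (nat_lit 1357)) (.a (.f (nat_lit 399) (nat_lit 431) (nat_lit 5454) (.f (nat_lit 302) (nat_lit 301) (nat_lit 3373) (.d (nat_lit 270) (nat_lit 238) (nat_lit 4334) (nat_lit 366) (nat_lit 4366)))) (.f (nat_lit 399) (nat_lit 431) (nat_lit 5454) (.f (nat_lit 302) (nat_lit 301) (nat_lit 3373) (.d (nat_lit 303) (nat_lit 270) (nat_lit 7438) (nat_lit 338) (nat_lit 3374))))))) (.a (.p (nat_lit 337) (.a (.d (nat_lit 366) (nat_lit 338) (nat_lit 1358) (nat_lit 365) (nat_lit 1357)) (.a (.f (nat_lit 399) (nat_lit 431) (nat_lit 5454) (.f (nat_lit 366) (nat_lit 365) (nat_lit 1357) (.d (nat_lit 302) (nat_lit 270) (nat_lit 4366) (nat_lit 301) (nat_lit 3373)))) (.f (nat_lit 399) (nat_lit 431) (nat_lit 5454) (.f (nat_lit 302) (nat_lit 301) (nat_lit 3373) (.d (nat_lit 303) (nat_lit 270) (nat_lit 7438) (nat_lit 338) (nat_lit 3374))))))) (.a s75160 (.a (.p (nat_lit 337) (.a (.d (nat_lit 366) (nat_lit 338) (nat_lit 1358) (nat_lit 365) (nat_lit 1357)) (.a (.f (nat_lit 365) (nat_lit 366) (nat_lit 1357) (.f (nat_lit 333) (nat_lit 364) (nat_lit 1356) (.d (nat_lit 305) (nat_lit 304) (nat_lit 2349) (nat_lit 306) (nat_lit 2350)))) (.a (.f (nat_lit 338) (nat_lit 366) (nat_lit 1358) (.d (nat_lit 370) (nat_lit 369) (nat_lit 334) (nat_lit 371) (nat_lit 335))) (.f (nat_lit 399) (nat_lit 431) (nat_lit 5454) (.f (nat_lit 305) (nat_lit 306) (nat_lit 2350) (.f (nat_lit 304) (nat_lit 333) (nat_lit 2349) (.d (nat_lit 272) (nat_lit 240) (nat_lit 5359) (nat_lit 303) (nat_lit 6415))))))))) (.a (.p (nat_lit 337) (.a (.d (nat_lit 366) (nat_lit 338) (nat_lit 1358) (nat_lit 365) (nat_lit 1357)) (.a (.f (nat_lit 399) (nat_lit 431) (nat_lit 5454) (.f (nat_lit 302) (nat_lit 301) (nat_lit 3373) (.d (nat_lit 270) (nat_lit 238) (nat_lit 4334) (nat_lit 366) (nat_lit 4366)))) (.f (nat_lit 305) (nat_lit 306) (nat_lit 2350) (.f (nat_lit 369) (nat_lit 370) (nat_lit 334) (.f (nat_lit 304) (nat_lit 333) (nat_lit 2349) (.d (nat_lit 272) (nat_lit 240) (nat_lit 4336) (nat_lit 401) (nat_lit 7440)))))))) (.a (.p (nat_lit 333) (.a (.f (nat_lit 399) (nat_lit 431) (nat_lit 5454) (.f (nat_lit 304) (nat_lit 305) (nat_lit 2349) (.d (nat_lit 303) (nat_lit 272) (nat_lit 6415) (nat_lit 332) (nat_lit 2348)))) (.a (.f (nat_lit 364) (nat_lit 365) (nat_lit 1356) (.f (nat_lit 332) (nat_lit 363) (nat_lit 1355) (.d (nat_lit 300) (nat_lit 299) (nat_lit 3371) (nat_lit 301) (nat_lit 3372)))) (.f (nat_lit 399) (nat_lit 431) (nat_lit 5454) (.f (nat_lit 304) (nat_lit 305) (nat_lit 2349) (.d (nat_lit 272) (nat_lit 240) (nat_lit 5359) (nat_lit 303) (nat_lit 6415))))))) (.a (.p (nat_lit 337) (.a (.f (nat_lit 399) (nat_lit 431) (nat_lit 5454) (.f (nat_lit 302) (nat_lit 301) (nat_lit 3373) (.d (nat_lit 270) (nat_lit 238) (nat_lit 4334) (nat_lit 366) (nat_lit 4366)))) (.a (.f (nat_lit 399) (nat_lit 431) (nat_lit 5454) (.f (nat_lit 302) (nat_lit 301) (nat_lit 3373) (.d (nat_lit 303) (nat_lit 270) (nat_lit 7438) (nat_lit 338) (nat_lit 3374)))) (.f (nat_lit 338) (nat_lit 366) (nat_lit 1358) (.d (nat_lit 370) (nat_lit 369) (nat_lit 334) (nat_lit 371) (nat_lit 335)))))) (.p (nat_lit 337) (.a (.d (nat_lit 366) (nat_lit 338) (nat_lit 1358) (nat_lit 365) (nat_lit 1357)) (.a (.f (nat_lit 365) (nat_lit 366) (nat_lit 1357) (.f (nat_lit 333) (nat_lit 364) (nat_lit 1356) (.d (nat_lit 305) (nat_lit 304) (nat_lit 2349) (nat_lit 306) (nat_lit 2350)))) (.a (.f (nat_lit 338) (nat_lit 366) (nat_lit 1358) (.d (nat_lit 370) (nat_lit 369) (nat_lit 334) (nat_lit 371) (nat_lit 335))) (.f (nat_lit 305) (nat_lit 306) (nat_lit 2350) (.f (nat_lit 369) (nat_lit 370) (nat_lit 334) (.f (nat_lit 304) (nat_lit 333) (nat_lit 2349) (.d (nat_lit 272) (nat_lit 240) (nat_lit 4336) (nat_lit 401) (nat_lit 7440))))))))))))))))) (.a (.p (nat_lit 336) (.a (.p (nat_lit 337) (.a (.d (nat_lit 366) (nat_lit 338) (nat_lit 1358) (nat_lit 365) (nat_lit 1357)) (.a (.f (nat_lit 399) (nat_lit 431) (nat_lit 5454) (.f (nat_lit 366) (nat_lit 365) (nat_lit 1357) (.d (nat_lit 302) (nat_lit 270) (nat_lit 4366) (nat_lit 301) (nat_lit 3373)))) (.f (nat_lit 399) (nat_lit 431) (nat_lit 5454) (.f (nat_lit 302) (nat_lit 301) (nat_lit 3373) (.d (nat_lit 303) (nat_lit 270) (nat_lit 7438) (nat_lit 338) (nat_lit 3374))))))) (.a s75160 (.a (.p (nat_lit 337) (.a (.d (nat_lit 366) (nat_lit 338) (nat_lit 1358) (nat_lit 365) (nat_lit 1357)) (.a (.f (nat_lit 365) (nat_lit 366) (nat_lit 1357) (.f (nat_lit 333) (nat_lit 364) (nat_lit 1356) (.d (nat_lit 305) (nat_lit 304) (nat_lit 2349) (nat_lit 306) (nat_lit 2350)))) (.a (.f (nat_lit 338) (nat_lit 366) (nat_lit 1358) (.d (nat_lit 370) (nat_lit 369) (nat_lit 334) (nat_lit 371) (nat_lit 335))) (.f (nat_lit 399) (nat_lit 431) (nat_lit 5454) (.f (nat_lit 305) (nat_lit 306) (nat_lit 2350) (.f (nat_lit 304) (nat_lit 333) (nat_lit 2349) (.d (nat_lit 272) (nat_lit 240) (nat_lit 5359) (nat_lit 303) (nat_lit 6415))))))))) (.a (.p (nat_lit 337) (.a (.d (nat_lit 366) (nat_lit 338) (nat_lit 1358) (nat_lit 365) (nat_lit 1357)) (.a (.f (nat_lit 365) (nat_lit 366) (nat_lit 1357) (.f (nat_lit 333) (nat_lit 364) (nat_lit 1356) (.d (nat_lit 305) (nat_lit 304) (nat_lit 2349) (nat_lit 306) (nat_lit 2350)))) (.a (.f (nat_lit 338) (nat_lit 366) (nat_lit 1358) (.d (nat_lit 370) (nat_lit 369) (nat_lit 334) (nat_lit 371) (nat_lit 335))) (.f (nat_lit 305) (nat_lit 306) (nat_lit 2350) (.f (nat_lit 369) (nat_lit 370) (nat_lit 334) (.f (nat_lit 304) (nat_lit 333) (nat_lit 2349) (.d (nat_lit 272) (nat_lit 240) (nat_lit 4336) (nat_lit 401) (nat_lit 7440))))))))) (.a (.p (nat_lit 333) (.a (.f (nat_lit 399) (nat_lit 431) (nat_lit 5454) (.f (nat_lit 304) (nat_lit 305) (nat_lit 2349) (.d (nat_lit 303) (nat_lit 272) (nat_lit 6415) (nat_lit 332) (nat_lit 2348)))) (.a (.f (nat_lit 364) (nat_lit 365) (nat_lit 1356) (.f (nat_lit 332) (nat_lit 363) (nat_lit 1355) (.d (nat_lit 300) (nat_lit 299) (nat_lit 3371) (nat_lit 301) (nat_lit 3372)))) (.f (nat_lit 399) (nat_lit 431) (nat_lit 5454) (.f (nat_lit 304) (nat_lit 305) (nat_lit 2349) (.d (nat_lit 272) (nat_lit 240) (nat_lit 5359) (nat_lit 303) (nat_lit 6415))))))) (.p (nat_lit 337) (.a (.f (nat_lit 338) (nat_lit 366) (nat_lit 1358) (.d (nat_lit 370) (nat_lit 369) (nat_lit 334) (nat_lit 371) (nat_lit 335))) (.a (.f (nat_lit 305) (nat_lit 306) (nat_lit 2350) (.f (nat_lit 369) (nat_lit 370) (nat_lit 334) (.f (nat_lit 304) (nat_lit 333) (nat_lit 2349) (.d (nat_lit 272) (nat_lit 240) (nat_lit 4336) (nat_lit 401) (nat_lit 7440))))) (.f (nat_lit 302) (nat_lit 301) (nat_lit 3373) (.f (nat_lit 338) (nat_lit 303) (nat_lit 3374) (.d (nat_lit 306) (nat_lit 305) (nat_lit 2350) (nat_lit 307) (nat_lit 2351))))))))))))) (.a (.p (nat_lit 336) (.a (.p (nat_lit 337) (.a (.d (nat_lit 366) (nat_lit 338) (nat_lit 1358) (nat_lit 365) (nat_lit 1357)) (.a (.f (nat_lit 399) (nat_lit 431) (nat_lit 5454) (.f (nat_lit 302) (nat_lit 301) (nat_lit 3373) (.d (nat_lit 270) (nat_lit 238) (nat_lit 4334) (nat_lit 366) (nat_lit 4366)))) (.f (nat_lit 399) (nat_lit 431) (nat_lit 5454) (.f (nat_lit 302) (nat_lit 301) (nat_lit 3373) (.d (nat_lit 303) (nat_lit 270) (nat_lit 7438) (nat_lit 338) (nat_lit 3374))))))) (.a (.p (nat_lit 337) (.a (.d (nat_lit 366) (nat_lit 338) (nat_lit 1358) (nat_lit 365) (nat_lit 1357)) (.a (.f (nat_lit 399) (nat_lit 431) (nat_lit 5454) (.f (nat_lit 366) (nat_lit 365) (nat_lit 1357) (.d (nat_lit 302) (nat_lit 270) (nat_lit 4366) (nat_lit 301) (nat_lit 3373)))) (.f (nat_lit 399) (nat_lit 431) (nat_lit 5454) (.f (nat_lit 302) (nat_lit 301) (nat_lit 3373) (.d (nat_lit 303) (nat_lit 270) (nat_lit 7438) (nat_lit 338) (nat_lit 3374))))))) (.a s75160 (.a (.p (nat_lit 337) (.a (.d (nat_lit 366) (nat_lit 338) (nat_lit 1358) (nat_lit 365) (nat_lit 1357)) (.a (.f (nat_lit 365) (nat_lit 366) (nat_lit 1357) (.f (nat_lit 333) (nat_lit 364) (nat_lit 1356) (.d (nat_lit 305) (nat_lit 304) (nat_lit 2349) (nat_lit 306) (nat_lit 2350)))) (.a (.f (nat_lit 338) (nat_lit 366) (nat_lit 1358) (.d (nat_lit 370) (nat_lit 369) (nat_lit 334) (nat_lit 371) (nat_lit 335))) (.f (nat_lit 399) (nat_lit 431) (nat_lit 5454) (.f (nat_lit 305) (nat_lit 306) (nat_lit 2350) (.f (nat_lit 304) (nat_lit 333) (nat_lit 2349) (.f (nat_lit 303) (nat_lit 272) (nat_lit 6415) (.d (nat_lit 338) (nat_lit 302) (nat_lit 302) (nat_lit 339) (nat_lit 3375)))))))))) (.a s75671 (.a (.p (nat_lit 333) (.a (.f (nat_lit 399) (nat_lit 431) (nat_lit 5454) (.f (nat_lit 304) (nat_lit 305) (nat_lit 2349) (.d (nat_lit 303) (nat_lit 272) (nat_lit 6415) (nat_lit 332) (nat_lit 2348)))) (.a (.f (nat_lit 365) (nat_lit 364) (nat_lit 1356) (.f (nat_lit 397) (nat_lit 429) (nat_lit 4429) (.f (nat_lit 301) (nat_lit 300) (nat_lit 3372) (.f (nat_lit 270) (nat_lit 302) (nat_lit 6413) (.f (nat_lit 269) (nat_lit 238) (nat_lit 6381) (.f (nat_lit 304) (nat_lit 305) (nat_lit 2349) (.f (nat_lit 303) (nat_lit 332) (nat_lit 2348) (.d (nat_lit 268) (nat_lit 236) (nat_lit 7404) (nat_lit 271) (nat_lit 268))))))))) (.f (nat_lit 365) (nat_lit 364) (nat_lit 1356) (.f (nat_lit 397) (nat_lit 429) (nat_lit 4429) (.f (nat_lit 301) (nat_lit 300) (nat_lit 3372) (.f (nat_lit 270) (nat_lit 302) (nat_lit 6413) (.f (nat_lit 269) (nat_lit 238) (nat_lit 6381) (.f (nat_lit 237) (nat_lit 366) (nat_lit 4333) (.d (nat_lit 236) (nat_lit 204) (nat_lit 7372) (nat_lit 268) (nat_lit 7404))))))))))) (.a (.p (nat_lit 337) (.a (.f (nat_lit 399) (nat_lit 431) (nat_lit 5454) (.f (nat_lit 302) (nat_lit 301) (nat_lit 3373) (.d (nat_lit 270) (nat_lit 238) (nat_lit 4334) (nat_lit 366) (nat_lit 4366)))) (.a (.f (nat_lit 399) (nat_lit 431) (nat_lit 5454) (.f (nat_lit 302) (nat_lit 301) (nat_lit 3373) (.d (nat_lit 303) (nat_lit 270) (nat_lit 7438) (nat_lit 338) (nat_lit 3374)))) (.f (nat_lit 338) (nat_lit 366) (nat_lit 1358) (.d (nat_lit 370) (nat_lit 369) (nat_lit 334) (nat_lit 371) (nat_lit 335)))))) (.p (nat_lit 302) (.a (.f (nat_lit 399) (nat_lit 431) (nat_lit 5454) (.d (nat_lit 270) (nat_lit 238) (nat_lit 4334) (nat_lit 303) (nat_lit 7438))) (.a (.f (nat_lit 399) (nat_lit 431) (nat_lit 7470) (.f (nat_lit 303) (nat_lit 270) (nat_lit 7438) (.d (nat_lit 301) (nat_lit 300) (nat_lit 300) (nat_lit 337) (nat_lit 3373)))) (.a (.f (nat_lit 399) (nat_lit 431) (nat_lit 7470) (.f (nat_lit 337) (nat_lit 301) (nat_lit 3373) (.f (nat_lit 303) (nat_lit 338) (nat_lit 3374) (.f (nat_lit 304) (nat_lit 272) (nat_lit 6415) (.d (nat_lit 305) (nat_lit 306) (nat_lit 2350) (nat_lit 333) (nat_lit 2349)))))) (.a (.f (nat_lit 431) (nat_lit 399) (nat_lit 7470) (.f (nat_lit 337) (nat_lit 301) (nat_lit 3373) (.f (nat_lit 305) (nat_lit 306) (nat_lit 2350) (.f (nat_lit 333) (nat_lit 304) (nat_lit 2349) (.f (nat_lit 365) (nat_lit 364) (nat_lit 1356) (.f (nat_lit 429) (nat_lit 397) (nat_lit 4429) (.f (nat_lit 432) (nat_lit 465) (nat_lit 429) (.f (nat_lit 401) (nat_lit 400) (nat_lit 2445) (.d (nat_lit 369) (nat_lit 370) (nat_lit 334) (nat_lit 433) (nat_lit 5456)))))))))) (.f (nat_lit 337) (nat_lit 301) (nat_lit 3373) (.f (nat_lit 338) (nat_lit 303) (nat_lit 3374) (.d (nat_lit 306) (nat_lit 305) (nat_lit 2350) (nat_lit 307) (nat_lit 2351))))))))))))))))) (.a (.p (nat_lit 333) (.a (.p (nat_lit 332) (.a (.f (nat_lit 331) (nat_lit 366) (nat_lit 331) (.d (nat_lit 363) (nat_lit 362) (nat_lit 1354) (nat_lit 364) (nat_lit 1355))) (.a (.f (nat_lit 364) (nat_lit 363) (nat_lit 1355) (.f (nat_lit 300) (nat_lit 299) (nat_lit 3371) (.d (nat_lit 336) (nat_lit 301) (nat_lit 3372) (nat_lit 365) (nat_lit 1356)))) (.f (nat_lit 303) (nat_lit 304) (nat_lit 2348) (.d (nat_lit 331) (nat_lit 302) (nat_lit 2347) (nat_lit 366) (nat_lit 331)))))) (.a (.p (nat_lit 336) (.a (.f (nat_lit 399) (nat_lit 431) (nat_lit 5454) (.f (nat_lit 304) (nat_lit 305) (nat_lit 2349) (.d (nat_lit 303) (nat_lit 272) (nat_lit 6415) (nat_lit 332) (nat_lit 2348)))) (.a (.f (nat_lit 301) (nat_lit 300) (nat_lit 3372) (.f (nat_lit 337) (nat_lit 302) (nat_lit 3373) (.d (nat_lit 305) (nat_lit 304) (nat_lit 2349) (nat_lit 306) (nat_lit 2350)))) (.f (nat_lit 365) (nat_lit 364) (nat_lit 1356) (.f (nat_lit 337) (nat_lit 366) (nat_lit 1357) (.d (nat_lit 301) (nat_lit 300) (nat_lit 3372) (nat_lit 302) (nat_lit 3373))))))) (.a s75689 (.a s75423 (.a (.p (nat_lit 336) (.a (.f (nat_lit 399) (nat_lit 431) (nat_lit 5454) (.f (nat_lit 304) (nat_lit 305) (nat_lit 2349) (.d (nat_lit 272) (nat_lit 240) (nat_lit 5359) (nat_lit 303) (nat_lit 6415)))) (.a (.f (nat_lit 301) (nat_lit 300) (nat_lit 3372) (.f (nat_lit 337) (nat_lit 302) (nat_lit 3373) (.d (nat_lit 305) (nat_lit 304) (nat_lit 2349) (nat_lit 306) (nat_lit 2350)))) (.f (nat_lit 365) (nat_lit 364) (nat_lit 1356) (.f (nat_lit 337) (nat_lit 366) (nat_lit 1357) (.d (nat_lit 301) (nat_lit 300) (nat_lit 3372) (nat_lit 302) (nat_lit 3373))))))) (.a (.p (nat_lit 332) (.a (.f (nat_lit 331) (nat_lit 366) (nat_lit 331) (.d (nat_lit 363) (nat_lit 362) (nat_lit 1354) (nat_lit 364) (nat_lit 1355))) (.a (.f (nat_lit 399) (nat_lit 431) (nat_lit 5454) (.f (nat_lit 303) (nat_lit 304) (nat_lit 2348) (.f (nat_lit 300) (nat_lit 299) (nat_lit 3371) (.f (nat_lit 364) (nat_lit 363) (nat_lit 1355) (.f (nat_lit 400) (nat_lit 432) (nat_lit 4399) (.f (nat_lit 365) (nat_lit 366) (nat_lit 364) (.d (nat_lit 268) (nat_lit 236) (nat_lit 4332) (nat_lit 397) (nat_lit 4364)))))))) (.a (.f (nat_lit 303) (nat_lit 304) (nat_lit 2348) (.d (nat_lit 331) (nat_lit 302) (nat_lit 2347) (nat_lit 366) (nat_lit 331))) (.f (nat_lit 303) (nat_lit 304) (nat_lit 2348) (.f (nat_lit 331) (nat_lit 302) (nat_lit 2347) (.d (nat_lit 363) (nat_lit 362) (nat_lit 1354) (nat_lit 364) (nat_lit 1355)))))))) (.a (.p (nat_lit 332) (.a (.f (nat_lit 303) (nat_lit 304) (nat_lit 2348) (.d (nat_lit 331) (nat_lit 302) (nat_lit 2347) (nat_lit 366) (nat_lit 331))) (.a (.f (nat_lit 331) (nat_lit 366) (nat_lit 331) (.d (nat_lit 299) (nat_lit 298) (nat_lit 3370) (nat_lit 300) (nat_lit 3371))) (.f (nat_lit 300) (nat_lit 299) (nat_lit 3371) (.f (nat_lit 336) (nat_lit 301) (nat_lit 3372) (.d (nat_lit 304) (nat_lit 303) (nat_lit 2348) (nat_lit 305) (nat_lit 2349))))))) s75545)))))))) (.a (.p (nat_lit 336) (.a (.p (nat_lit 337) (.a (.d (nat_lit 366) (nat_lit 338) (nat_lit 1358) (nat_lit 365) (nat_lit 1357)) (.a (.f (nat_lit 399) (nat_lit 431) (nat_lit 5454) (.f (nat_lit 302) (nat_lit 301) (nat_lit 3373) (.d (nat_lit 270) (nat_lit 238) (nat_lit 4334) (nat_lit 366) (nat_lit 4366)))) (.f (nat_lit 399) (nat_lit 431) (nat_lit 5454) (.f (nat_lit 302) (nat_lit 301) (nat_lit 3373) (.d (nat_lit 303) (nat_lit 270) (nat_lit 7438) (nat_lit 338) (nat_lit 3374))))))) (.a (.p (nat_lit 337) (.a (.d (nat_lit 366) (nat_lit 338) (nat_lit 1358) (nat_lit 365) (nat_lit 1357)) (.a (.f (nat_lit 399) (nat_lit 431) (nat_lit 5454) (.f (nat_lit 366) (nat_lit 365) (nat_lit 1357) (.d (nat_lit 302) (nat_lit 270) (nat_lit 4366) (nat_lit 301) (nat_lit 3373)))) (.f (nat_lit 399) (nat_lit 431) (nat_lit 5454) (.f (nat_lit 302) (nat_lit 301) (nat_lit 3373) (.d (nat_lit 303) (nat_lit 270) (nat_lit 7438) (nat_lit 338) (nat_lit 3374))))))) (.a (.p (nat_lit 337) (.a (.d (nat_lit 366) (nat_lit 338) (nat_lit 1358) (nat_lit 365) (nat_lit 1357)) (.a (.f (nat_lit 365) (nat_lit 366) (nat_lit 1357) (.f (nat_lit 333) (nat_lit 364) (nat_lit 1356) (.d (nat_lit 305) (nat_lit 304) (nat_lit 2349) (nat_lit 306) (nat_lit 2350)))) (.f (nat_lit 302) (nat_lit 301) (nat_lit 3373) (.f (nat_lit 338) (nat_lit 303) (nat_lit 3374) (.d (nat_lit 306) (nat_lit 305) (nat_lit 2350) (nat_lit 307) (nat_lit 2351))))))) (.a (.p (nat_lit 337) (.a (.d (nat_lit 366) (nat_lit 338) (nat_lit 1358) (nat_lit 365) (nat_lit 1357)) (.a (.f (nat_lit 365) (nat_lit 366) (nat_lit 1357) (.f (nat_lit 333) (nat_lit 364) (nat_lit 1356) (.d (nat_lit 305) (nat_lit 304) (nat_lit 2349) (nat_lit 306) (nat_lit 2350)))) (.a (.f (nat_lit 338) (nat_lit 366) (nat_lit 1358) (.d (nat_lit 370) (nat_lit 369) (nat_lit 334) (nat_lit 371) (nat_lit 335))) (.f (nat_lit 305) (nat_lit 306) (nat_lit 2350) (.f (nat_lit 304) (nat_lit 333) (nat_lit 2349) (.f (nat_lit 370) (nat_lit 369) (nat_lit 334) (.f (nat_lit 338) (nat_lit 371) (nat_lit 335) (.d (nat_lit 303) (nat_lit 302) (nat_lit 302) (nat_lit 339) (nat_lit 3375)))))))))) (.a s75671 (.a (.p (nat_lit 333) (.a (.f (nat_lit 365) (nat_lit 364) (nat_lit 1356) (.f (nat_lit 397) (nat_lit 429) (nat_lit 4429) (.f (nat_lit 301) (nat_lit 300) (nat_lit 3372) (.f (nat_lit 270) (nat_lit 302) (nat_lit 6413) (.f (nat_lit 269) (nat_lit 238) (nat_lit 6381) (.f (nat_lit 304) (nat_lit 305) (nat_lit 2349) (.f (nat_lit 303) (nat_lit 332) (nat_lit 2348) (.d (nat_lit 268) (nat_lit 236) (nat_lit 7404) (nat_lit 271) (nat_lit 268))))))))) (.a (.f (nat_lit 364) (nat_lit 365) (nat_lit 1356) (.f (nat_lit 332) (nat_lit 363) (nat_lit 1355) (.d (nat_lit 300) (nat_lit 299) (nat_lit 3371) (nat_lit 301) (nat_lit 3372)))) (.a (.f (nat_lit 399) (nat_lit 431) (nat_lit 5454) (.f (nat_lit 304) (nat_lit 305) (nat_lit 2349) (.f (nat_lit 303) (nat_lit 332) (nat_lit 2348) (.f (nat_lit 270) (nat_lit 302) (nat_lit 7438) (.f (nat_lit 271) (nat_lit 238) (nat_lit 7406) (.d (nat_lit 239) (nat_lit 207) (nat_lit 4303) (nat_lit 366) (nat_lit 5358))))))) (.f (nat_lit 365) (nat_lit 364) (nat_lit 1356) (.f (nat_lit 397) (nat_lit 429) (nat_lit 4429) (.f (nat_lit 301) (nat_lit 300) (nat_lit 3372) (.f (nat_lit 270) (nat_lit 302) (nat_lit 6413) (.f (nat_lit 269) (nat_lit 238) (nat_lit 6381) (.f (nat_lit 237) (nat_lit 366) (nat_lit 4333) (.d (nat_lit 236) (nat_lit 204) (nat_lit 7372) (nat_lit 268) (nat_lit 7404)))))))))))) (.a (.p (nat_lit 337) (.a (.f (nat_lit 399) (nat_lit 431) (nat_lit 5454) (.f (nat_lit 302) (nat_lit 301) (nat_lit 3373) (.d (nat_lit 270) (nat_lit 238) (nat_lit 4334) (nat_lit 366) (nat_lit 4366)))) (.a (.f (nat_lit 399) (nat_lit 431) (nat_lit 5454) (.f (nat_lit 302) (nat_lit 301) (nat_lit 3373) (.d (nat_lit 303) (nat_lit 270) (nat_lit 7438) (nat_lit 338) (nat_lit 3374)))) (.f (nat_lit 338) (nat_lit 366) (nat_lit 1358) (.d (nat_lit 370) (nat_lit 369) (nat_lit 334) (nat_lit 371) (nat_lit 335)))))) (.p (nat_lit 302) (.a (.f (nat_lit 399) (nat_lit 431) (nat_lit 5454) (.d (nat_lit 270) (nat_lit 238) (nat_lit 4334) (nat_lit 303) (nat_lit 7438))) (.a (.f (nat_lit 399) (nat_lit 431) (nat_lit 7470) (.f (nat_lit 303) (nat_lit 270) (nat_lit 7438) (.d (nat_lit 301) (nat_lit 300) (nat_lit 300) (nat_lit 337) (nat_lit 3373)))) (.a (.f (nat_lit 431) (nat_lit 399) (nat_lit 7470) (.f (nat_lit 337) (nat_lit 301) (nat_lit 3373) (.f (nat_lit 305) (nat_lit 306) (nat_lit 2350) (.f (nat_lit 333) (nat_lit 304) (nat_lit 2349) (.f (nat_lit 365) (nat_lit 364) (nat_lit 1356) (.f (nat_lit 429) (nat_lit 397) (nat_lit 4429) (.f (nat_lit 432) (nat_lit 465) (nat_lit 429) (.f (nat_lit 401) (nat_lit 400) (nat_lit 2445) (.d (nat_lit 369) (nat_lit 370) (nat_lit 334) (nat_lit 433) (nat_lit 5456)))))))))) (.f (nat_lit 337) (nat_lit 301) (nat_lit 3373) (.f (nat_lit 338) (nat_lit 303) (nat_lit 3374) (.d (nat_lit 306) (nat_lit 305) (nat_lit 2350) (nat_lit 307) (nat_lit 2351)))))))))))))))) (.a (.f (nat_lit 399) (nat_lit 431) (nat_lit 5454) (.p (nat_lit 303) (.a (.f (nat_lit 302) (nat_lit 270) (nat_lit 7438) (.f (nat_lit 304) (nat_lit 272) (nat_lit 6415) (.f (nat_lit 305) (nat_lit 306) (nat_lit 1326) (.f (nat_lit 337) (nat_lit 338) (nat_lit 302) (.f (nat_lit 336) (nat_lit 301) (nat_lit 301) (.f (nat_lit 369) (nat_lit 370) (nat_lit 334) (.f (nat_lit 401) (nat_lit 433) (nat_lit 7472) (.f (nat_lit 400) (nat_lit 432) (nat_lit 4399) (.d (nat_lit 366) (nat_lit 365) (nat_lit 1357) (nat_lit 402) (nat_lit 3438)))))))))) (.a (.f (nat_lit 304) (nat_lit 272) (nat_lit 6415) (.f (nat_lit 333) (nat_lit 332) (nat_lit 2348) (.d (nat_lit 305) (nat_lit 302) (nat_lit 1325) (nat_lit 306) (nat_lit 1326)))) (.a (.p (nat_lit 304) (.a (.f (nat_lit 302) (nat_lit 270) (nat_lit 7438) (.d (nat_lit 333) (nat_lit 305) (nat_lit 1325) (nat_lit 332) (nat_lit 2348))) (.a (.f (nat_lit 333) (nat_lit 332) (nat_lit 2348) (.d (nat_lit 305) (nat_lit 302) (nat_lit 1325) (nat_lit 306) (nat_lit 1326))) (.a (.f (nat_lit 305) (nat_lit 306) (nat_lit 1326) (.d (nat_lit 333) (nat_lit 332) (nat_lit 2348) (nat_lit 336) (nat_lit 2349))) (.f (nat_lit 270) (nat_lit 302) (nat_lit 7438) (.f (nat_lit 271) (nat_lit 238) (nat_lit 7406) (.f (nat_lit 239) (nat_lit 366) (nat_lit 5358) (.f (nat_lit 207) (nat_lit 336) (nat_lit 4303) (.d (nat_lit 208) (nat_lit 176) (nat_lit 6319) (nat_lit 240) (nat_lit 6351)))))))))) (.a (.f (nat_lit 304) (nat_lit 272) (nat_lit 6415) (.f (nat_lit 333) (nat_lit 332) (nat_lit 2348) (.d (nat_lit 305) (nat_lit 306) (nat_lit 1326) (nat_lit 336) (nat_lit 2349)))) (.f (nat_lit 270) (nat_lit 302) (nat_lit 7438) (.f (nat_lit 271) (nat_lit 238) (nat_lit 7406) (.f (nat_lit 239) (nat_lit 366) (nat_lit 5358) (.d (nat_lit 240) (nat_lit 208) (nat_lit 6351) (nat_lit 272) (nat_lit 6383))))))))))) (.a (.p (nat_lit 333) (.a s75404 (.a s75689 (.a (.p (nat_lit 332) (.a (.f (nat_lit 331) (nat_lit 366) (nat_lit 331) (.d (nat_lit 363) (nat_lit 362) (nat_lit 1354) (nat_lit 364) (nat_lit 1355))) (.a (.f (nat_lit 399) (nat_lit 431) (nat_lit 5454) (.f (nat_lit 303) (nat_lit 304) (nat_lit 2348) (.f (nat_lit 364) (nat_lit 363) (nat_lit 1355) (.f (nat_lit 365) (nat_lit 336) (nat_lit 1356) (.d (nat_lit 400) (nat_lit 366) (nat_lit 364) (nat_lit 432) (nat_lit 4399)))))) (.a (.f (nat_lit 331) (nat_lit 366) (nat_lit 331) (.d (nat_lit 299) (nat_lit 298) (nat_lit 3370) (nat_lit 300) (nat_lit 3371))) (.f (nat_lit 364) (nat_lit 363) (nat_lit 1355) (.f (nat_lit 300) (nat_lit 299) (nat_lit 3371) (.f (nat_lit 365) (nat_lit 336) (nat_lit 1356) (.d (nat_lit 268) (nat_lit 236) (nat_lit 4332) (nat_lit 397) (nat_lit 4364))))))))) (.a (.p (nat_lit 332) (.a (.f (nat_lit 331) (nat_lit 366) (nat_lit 331) (.d (nat_lit 363) (nat_lit 362) (nat_lit 1354) (nat_lit 364) (nat_lit 1355))) (.a (.f (nat_lit 364) (nat_lit 363) (nat_lit 1355) (.f (nat_lit 300) (nat_lit 299) (nat_lit 3371) (.f (nat_lit 365) (nat_lit 336) (nat_lit 1356) (.d (nat_lit 268) (nat_lit 236) (nat_lit 4332) (nat_lit 397) (nat_lit 4364))))) (.f (nat_lit 331) (nat_lit 366) (nat_lit 331) (.d (nat_lit 299) (nat_lit 298) (nat_lit 3370) (nat_lit 300) (nat_lit 3371)))))) (.a (.p (nat_lit 336) (.a (.f (nat_lit 399) (nat_lit 431) (nat_lit 5454) (.f (nat_lit 304) (nat_lit 305) (nat_lit 2349) (.d (nat_lit 303) (nat_lit 272) (nat_lit 6415) (nat_lit 332) (nat_lit 2348)))) (.a (.f (nat_lit 431) (nat_lit 399) (nat_lit 5454) (.f (nat_lit 365) (nat_lit 364) (nat_lit 1356) (.f (nat_lit 429) (nat_lit 397) (nat_lit 4429) (.f (nat_lit 432) (nat_lit 465) (nat_lit 429) (.f (nat_lit 401) (nat_lit 400) (nat_lit 2445) (.f (nat_lit 433) (nat_lit 402) (nat_lit 2446) (.f (nat_lit 337) (nat_lit 369) (nat_lit 5456) (.d (nat_lit 305) (nat_lit 304) (nat_lit 2349) (nat_lit 306) (nat_lit 2350))))))))) (.a (.f (nat_lit 365) (nat_lit 364) (nat_lit 1356) (.f (nat_lit 337) (nat_lit 366) (nat_lit 1357) (.f (nat_lit 306) (nat_lit 305) (nat_lit 2350) (.f (nat_lit 338) (nat_lit 307) (nat_lit 2351) (.d (nat_lit 370) (nat_lit 369) (nat_lit 334) (nat_lit 371) (nat_lit 335)))))) (.f (nat_lit 365) (nat_lit 364) (nat_lit 1356) (.f (nat_lit 337) (nat_lit 366) (nat_lit 1357) (.f (nat_lit 370) (nat_lit 369) (nat_lit 334) (.f (nat_lit 338) (nat_lit 371) (nat_lit 335) (.f (nat_lit 303) (nat_lit 302) (nat_lit 3374) (.d (nat_lit 304) (nat_lit 332) (nat_lit 2348) (nat_lit 339) (nat_lit 3375))))))))))) (.a (.p (nat_lit 336) (.a (.f (nat_lit 399) (nat_lit 431) (nat_lit 5454) (.f (nat_lit 304) (nat_lit 305) (nat_lit 2349) (.d (nat_lit 272) (nat_lit 240) (nat_lit 5359) (nat_lit 303) (nat_lit 6415)))) (.a (.f (nat_lit 431) (nat_lit 399) (nat_lit 5454) (.f (nat_lit 365) (nat_lit 364) (nat_lit 1356) (.f (nat_lit 429) (nat_lit 397) (nat_lit 4429) (.f (nat_lit 432) (nat_lit 465) (nat_lit 429) (.f (nat_lit 401) (nat_lit 400) (nat_lit 2445) (.f (nat_lit 433) (nat_lit 402) (nat_lit 2446) (.f (nat_lit 337) (nat_lit 369) (nat_lit 5456) (.d (nat_lit 305) (nat_lit 304) (nat_lit 2349) (nat_lit 306) (nat_lit 2350))))))))) (.a (.f (nat_lit 365) (nat_lit 364) (nat_lit 1356) (.f (nat_lit 337) (nat_lit 366) (nat_lit 1357) (.f (nat_lit 306) (nat_lit 305) (nat_lit 2350) (.f (nat_lit 338) (nat_lit 307) (nat_lit 2351) (.d (nat_lit 370) (nat_lit 369) (nat_lit 334) (nat_lit 371) (nat_lit 335)))))) (.f (nat_lit 399) (nat_lit 431) (nat_lit 5454) (.f (nat_lit 365) (nat_lit 364) (nat_lit 1356) (.f (nat_lit 337) (nat_lit 366) (nat_lit 1357) (.f (nat_lit 370) (nat_lit 369) (nat_lit 334) (.f (nat_lit 338) (nat_lit 371) (nat_lit 335) (.f (nat_lit 303) (nat_lit 302) (nat_lit 3374) (.d (nat_lit 304) (nat_lit 272) (nat_lit 6415) (nat_lit 339) (nat_lit 3375)))))))))))) (.a s75454 (.a (.p (nat_lit 332) (.a (.f (nat_lit 303) (nat_lit 304) (nat_lit 2348) (.d (nat_lit 331) (nat_lit 302) (nat_lit 2347) (nat_lit 366) (nat_lit 331))) (.a (.f (nat_lit 331) (nat_lit 366) (nat_lit 331) (.d (nat_lit 299) (nat_lit 298) (nat_lit 3370) (nat_lit 300) (nat_lit 3371))) (.a (.f (nat_lit 399) (nat_lit 431) (nat_lit 5454) (.f (nat_lit 303) (nat_lit 304) (nat_lit 2348) (.f (nat_lit 270) (nat_lit 302) (nat_lit 7438) (.f (nat_lit 271) (nat_lit 238) (nat_lit 7406) (.f (nat_lit 240) (nat_lit 272) (nat_lit 6383) (.d (nat_lit 239) (nat_lit 208) (nat_lit 6351) (nat_lit 366) (nat_lit 5358))))))) (.f (nat_lit 399) (nat_lit 431) (nat_lit 5454) (.f (nat_lit 303) (nat_lit 304) (nat_lit 2348) (.d (nat_lit 302) (nat_lit 270) (nat_lit 7438) (nat_lit 331) (nat_lit 2347)))))))) (.p (nat_lit 332) (.a (.f (nat_lit 399) (nat_lit 431) (nat_lit 5454) (.f (nat_lit 303) (nat_lit 304) (nat_lit 2348) (.d (nat_lit 302) (nat_lit 270) (nat_lit 7438) (nat_lit 331) (nat_lit 2347)))) (.a (.f (nat_lit 303) (nat_lit 304) (nat_lit 2348) (.f (nat_lit 331) (nat_lit 302) (nat_lit 2347) (.d (nat_lit 363) (nat_lit 362) (nat_lit 1354) (nat_lit 364) (nat_lit 1355)))) (.f (nat_lit 364) (nat_lit 363) (nat_lit 1355) (.f (nat_lit 300) (nat_lit 299) (nat_lit 3371) (.f (nat_lit 365) (nat_lit 336) (nat_lit 1356) (.d (nat_lit 268) (nat_lit 236) (nat_lit 4332) (nat_lit 397) (nat_lit 4364))))))))))))))))) (.a (.p (nat_lit 333) (.a s75412 (.a s75577 (.a (.p (nat_lit 336) (.a (.f (nat_lit 399) (nat_lit 431) (nat_lit 5454) (.f (nat_lit 304) (nat_lit 305) (nat_lit 2349) (.d (nat_lit 303) (nat_lit 272) (nat_lit 6415) (nat_lit 332) (nat_lit 2348)))) (.a (.f (nat_lit 431) (nat_lit 399) (nat_lit 5454) (.f (nat_lit 365) (nat_lit 364) (nat_lit 1356) (.f (nat_lit 429) (nat_lit 397) (nat_lit 4429) (.f (nat_lit 432) (nat_lit 465) (nat_lit 429) (.f (nat_lit 401) (nat_lit 400) (nat_lit 2445) (.f (nat_lit 433) (nat_lit 402) (nat_lit 2446) (.f (nat_lit 337) (nat_lit 369) (nat_lit 5456) (.d (nat_lit 305) (nat_lit 304) (nat_lit 2349) (nat_lit 306) (nat_lit 2350))))))))) (.a (.f (nat_lit 365) (nat_lit 364) (nat_lit 1356) (.f (nat_lit 337) (nat_lit 366) (nat_lit 1357) (.f (nat_lit 306) (nat_lit 305) (nat_lit 2350) (.f (nat_lit 338) (nat_lit 307) (nat_lit 2351) (.d (nat_lit 370) (nat_lit 369) (nat_lit 334) (nat_lit 371) (nat_lit 335)))))) (.f (nat_lit 365) (nat_lit 364) (nat_lit 1356) (.f (nat_lit 431) (nat_lit 399) (nat_lit 5454) (.f (nat_lit 429) (nat_lit 397) (nat_lit 4429) (.f (nat_lit 337) (nat_lit 366) (nat_lit 1357) (.f (nat_lit 432) (nat_lit 465) (nat_lit 429) (.f (nat_lit 401) (nat_lit 400) (nat_lit 2445) (.d (nat_lit 369) (nat_lit 370) (nat_lit 334) (nat_lit 433) (nat_lit 5456)))))))))))) (.a s75423 (.a (.p (nat_lit 336) (.a (.f (nat_lit 399) (nat_lit 431) (nat_lit 5454) (.f (nat_lit 304) (nat_lit 305) (nat_lit 2349) (.d (nat_lit 272) (nat_lit 240) (nat_lit 5359) (nat_lit 303) (nat_lit 6415)))) (.a (.f (nat_lit 431) (nat_lit 399) (nat_lit 5454) (.f (nat_lit 365) (nat_lit 364) (nat_lit 1356) (.f (nat_lit 429) (nat_lit 397) (nat_lit 4429) (.f (nat_lit 432) (nat_lit 465) (nat_lit 429) (.f (nat_lit 401) (nat_lit 400) (nat_lit 2445) (.f (nat_lit 433) (nat_lit 402) (nat_lit 2446) (.f (nat_lit 337) (nat_lit 369) (nat_lit 5456) (.d (nat_lit 305) (nat_lit 304) (nat_lit 2349) (nat_lit 306) (nat_lit 2350))))))))) (.a (.f (nat_lit 365) (nat_lit 364) (nat_lit 1356) (.f (nat_lit 337) (nat_lit 366) (nat_lit 1357) (.f (nat_lit 306) (nat_lit 305) (nat_lit 2350) (.f (nat_lit 338) (nat_lit 307) (nat_lit 2351) (.d (nat_lit 370) (nat_lit 369) (nat_lit 334) (nat_lit 371) (nat_lit 335)))))) (.f (nat_lit 365) (nat_lit 364) (nat_lit 1356) (.f (nat_lit 431) (nat_lit 399) (nat_lit 5454) (.f (nat_lit 429) (nat_lit 397) (nat_lit 4429) (.f (nat_lit 337) (nat_lit 366) (nat_lit 1357) (.f (nat_lit 432) (nat_lit 465) (nat_lit 429) (.f (nat_lit 401) (nat_lit 400) (nat_lit 2445) (.d (nat_lit 369) (nat_lit 370) (nat_lit 334) (nat_lit 433) (nat_lit 5456)))))))))))) (.a (.p (nat_lit 332) (.a (.f (nat_lit 331) (nat_lit 366) (nat_lit 331) (.d (nat_lit 363) (nat_lit 362) (nat_lit 1354) (nat_lit 364) (nat_lit 1355))) (.a (.f (nat_lit 399) (nat_lit 431) (nat_lit 5454) (.f (nat_lit 303) (nat_lit 304) (nat_lit 2348) (.f (nat_lit 300) (nat_lit 299) (nat_lit 3371) (.f (nat_lit 364) (nat_lit 363) (nat_lit 1355) (.f (nat_lit 400) (nat_lit 432) (nat_lit 4399) (.f (nat_lit 365) (nat_lit 366) (nat_lit 364) (.d (nat_lit 268) (nat_lit 236) (nat_lit 4332) (nat_lit 397) (nat_lit 4364)))))))) (.a (.f (nat_lit 331) (nat_lit 366) (nat_lit 331) (.d (nat_lit 299) (nat_lit 298) (nat_lit 3370) (nat_lit 300) (nat_lit 3371))) (.f (nat_lit 299) (nat_lit 300) (nat_lit 3371) (.f (nat_lit 331) (nat_lit 298) (nat_lit 3370) (.d (nat_lit 363) (nat_lit 362) (nat_lit 1354) (nat_lit 364) (nat_lit 1355)))))))) (.a (.p (nat_lit 332) (.a (.f (nat_lit 303) (nat_lit 304) (nat_lit 2348) (.f (nat_lit 366) (nat_lit 331) (nat_lit 331) (.f (nat_lit 271) (nat_lit 239) (nat_lit 5358) (.f (nat_lit 300) (nat_lit 299) (nat_lit 3371) (.f (nat_lit 301) (nat_lit 336) (nat_lit 3372) (.f (nat_lit 269) (nat_lit 237) (nat_lit 4333) (.d (nat_lit 272) (nat_lit 240) (nat_lit 6383) (nat_lit 270) (nat_lit 1292)))))))) (.a (.f (nat_lit 331) (nat_lit 366) (nat_lit 331) (.d (nat_lit 299) (nat_lit 298) (nat_lit 3370) (nat_lit 300) (nat_lit 3371))) (.a (.f (nat_lit 304) (nat_lit 303) (nat_lit 2348) (.f (nat_lit 336) (nat_lit 305) (nat_lit 2349) (.f (nat_lit 366) (nat_lit 331) (nat_lit 331) (.d (nat_lit 337) (nat_lit 338) (nat_lit 1358) (nat_lit 365) (nat_lit 1357))))) (.f (nat_lit 300) (nat_lit 299) (nat_lit 3371) (.f (nat_lit 336) (nat_lit 301) (nat_lit 3372) (.d (nat_lit 304) (nat_lit 303) (nat_lit 2348) (nat_lit 305) (nat_lit 2349)))))))) (.p (nat_lit 332) (.a (.f (nat_lit 331) (nat_lit 366) (nat_lit 331) (.d (nat_lit 363) (nat_lit 362) (nat_lit 1354) (nat_lit 364) (nat_lit 1355))) (.f (nat_lit 300) (nat_lit 299) (nat_lit 3371) (.f (nat_lit 336) (nat_lit 301) (nat_lit 3372) (.d (nat_lit 304) (nat_lit 303) (nat_lit 2348) (nat_lit 305) (nat_lit 2349)))))))))))))) (.a (.p (nat_lit 336) (.a (.p (nat_lit 337) (.a (.d (nat_lit 366) (nat_lit 338) (nat_lit 1358) (nat_lit 365) (nat_lit 1357)) (.a (.f (nat_lit 399) (nat_lit 431) (nat_lit 5454) (.f (nat_lit 302) (nat_lit 301) (nat_lit 3373) (.d (nat_lit 270) (nat_lit 238) (nat_lit 4334) (nat_lit 366) (nat_lit 4366)))) (.f (nat_lit 305) (nat_lit 306) (nat_lit 2350) (.f (nat_lit 369) (nat_lit 370) (nat_lit 334) (.f (nat_lit 304) (nat_lit 333) (nat_lit 2349) (.d (nat_lit 272) (nat_lit 240) (nat_lit 4336) (nat_lit 401) (nat_lit 7440)))))))) (.a (.p (nat_lit 337) (.a (.d (nat_lit 366) (nat_lit 338) (nat_lit 1358) (nat_lit 365) (nat_lit 1357)) (.a (.f (nat_lit 365) (nat_lit 366) (nat_lit 1357) (.f (nat_lit 333) (nat_lit 364) (nat_lit 1356) (.d (nat_lit 305) (nat_lit 304) (nat_lit 2349) (nat_lit 306) (nat_lit 2350)))) (.a (.f (nat_lit 338) (nat_lit 366) (nat_lit 1358) (.d (nat_lit 370) (nat_lit 369) (nat_lit 334) (nat_lit 371) (nat_lit 335))) (.f (nat_lit 305) (nat_lit 306) (nat_lit 2350) (.f (nat_lit 369) (nat_lit 370) (nat_lit 334) (.f (nat_lit 304) (nat_lit 333) (nat_lit 2349) (.d (nat_lit 272) (nat_lit 240) (nat_lit 4336) (nat_lit 401) (nat_lit 7440))))))))) (.a s75671 (.a (.p (nat_lit 337) (.a (.d (nat_lit 366) (nat_lit 338) (nat_lit 1358) (nat_lit 365) (nat_lit 1357)) (.a (.f (nat_lit 399) (nat_lit 431) (nat_lit 5454) (.f (nat_lit 302) (nat_lit 301) (nat_lit 3373) (.d (nat_lit 270) (nat_lit 238) (nat_lit 4334) (nat_lit 366) (nat_lit 4366)))) (.f (nat_lit 306) (nat_lit 305) (nat_lit 2350) (.f (nat_lit 338) (nat_lit 307) (nat_lit 2351) (.d (nat_lit 370) (nat_lit 369) (nat_lit 334) (nat_lit 371) (nat_lit 335))))))) (.a (.p (nat_lit 337) (.a (.d (nat_lit 366) (nat_lit 338) (nat_lit 1358) (nat_lit 365) (nat_lit 1357)) (.a (.f (nat_lit 399) (nat_lit 431) (nat_lit 5454) (.f (nat_lit 302) (nat_lit 301) (nat_lit 3373) (.d (nat_lit 270) (nat_lit 238) (nat_lit 4334) (nat_lit 366) (nat_lit 4366)))) (.f (nat_lit 431) (nat_lit 399) (nat_lit 5454) (.f (nat_lit 369) (nat_lit 370) (nat_lit 334) (.f (nat_lit 301) (nat_lit 302) (nat_lit 3373) (.f (nat_lit 333) (nat_lit 300) (nat_lit 3372) (.f (nat_lit 365) (nat_lit 364) (nat_lit 1356) (.f (nat_lit 429) (nat_lit 397) (nat_lit 4429) (.f (nat_lit 432) (nat_lit 465) (nat_lit 429) (.d (nat_lit 401) (nat_lit 400) (nat_lit 2445) (nat_lit 433) (nat_lit 5456)))))))))))) (.a (.p (nat_lit 333) (.a (.f (nat_lit 365) (nat_lit 364) (nat_lit 1356) (.f (nat_lit 397) (nat_lit 429) (nat_lit 4429) (.f (nat_lit 301) (nat_lit 300) (nat_lit 3372) (.f (nat_lit 270) (nat_lit 302) (nat_lit 6413) (.f (nat_lit 269) (nat_lit 238) (nat_lit 6381) (.f (nat_lit 237) (nat_lit 366) (nat_lit 4333) (.d (nat_lit 236) (nat_lit 204) (nat_lit 7372) (nat_lit 268) (nat_lit 7404)))))))) (.a (.f (nat_lit 365) (nat_lit 364) (nat_lit 1356) (.f (nat_lit 397) (nat_lit 429) (nat_lit 4429) (.f (nat_lit 301) (nat_lit 300) (nat_lit 3372) (.f (nat_lit 270) (nat_lit 302) (nat_lit 6413) (.f (nat_lit 269) (nat_lit 238) (nat_lit 6381) (.f (nat_lit 304) (nat_lit 305) (nat_lit 2349) (.f (nat_lit 272) (nat_lit 240) (nat_lit 5359) (.f (nat_lit 236) (nat_lit 268) (nat_lit 7404) (.d (nat_lit 237) (nat_lit 271) (nat_lit 3308) (nat_lit 366) (nat_lit 4333)))))))))) (.a (.f (nat_lit 364) (nat_lit 365) (nat_lit 1356) (.f (nat_lit 332) (nat_lit 363) (nat_lit 1355) (.d (nat_lit 300) (nat_lit 299) (nat_lit 3371) (nat_lit 301) (nat_lit 3372)))) (.a (.p (nat_lit 302) (.a (.f (nat_lit 399) (nat_lit 431) (nat_lit 7470) (.d (nat_lit 270) (nat_lit 238) (nat_lit 4334) (nat_lit 366) (nat_lit 4366))) (.a (.f (nat_lit 399) (nat_lit 431) (nat_lit 7470) (.f (nat_lit 365) (nat_lit 364) (nat_lit 1356) (.f (nat_lit 397) (nat_lit 429) (nat_lit 6445) (.d (nat_lit 270) (nat_lit 301) (nat_lit 6413) (nat_lit 366) (nat_lit 4366))))) (.a (.f (nat_lit 364) (nat_lit 365) (nat_lit 1356) (.f (nat_lit 332) (nat_lit 363) (nat_lit 1355) (.f (nat_lit 331) (nat_lit 366) (nat_lit 331) (.f (nat_lit 330) (nat_lit 301) (nat_lit 2346) (.d (nat_lit 298) (nat_lit 297) (nat_lit 3369) (nat_lit 299) (nat_lit 3370)))))) (.f (nat_lit 365) (nat_lit 364) (nat_lit 1356) (.f (nat_lit 270) (nat_lit 238) (nat_lit 4334) (.d (nat_lit 397) (nat_lit 301) (nat_lit 6413) (nat_lit 429) (nat_lit 6445)))))))) (.a (.f (nat_lit 364) (nat_lit 365) (nat_lit 1356) (.f (nat_lit 332) (nat_lit 363) (nat_lit 1355) (.f (nat_lit 331) (nat_lit 366) (nat_lit 331) (.d (nat_lit 299) (nat_lit 298) (nat_lit 3370) (nat_lit 300) (nat_lit 3371))))) (.p (nat_lit 332) (.a (.d (nat_lit 300) (nat_lit 299) (nat_lit 3371) (nat_lit 301) (nat_lit 3372)) (.a (.f (nat_lit 331) (nat_lit 366) (nat_lit 331) (.f (nat_lit 301) (nat_lit 300) (nat_lit 3372) (.f (nat_lit 330) (nat_lit 302) (nat_lit 2346) (.d (nat_lit 362) (nat_lit 361) (nat_lit 1353) (nat_lit 363) (nat_lit 1354))))) (.f (nat_lit 331) (nat_lit 366) (nat_lit 331) (.f (nat_lit 298) (nat_lit 299) (nat_lit 3370) (.f (nat_lit 330) (nat_lit 297) (nat_lit 3369) (.d (nat_lit 362) (nat_lit 361) (nat_lit 1353) (nat_lit 363) (nat_lit 1354)))))))))))))) (.a (.p (nat_lit 337) (.a (.f (nat_lit 399) (nat_lit 431) (nat_lit 5454) (.f (nat_lit 302) (nat_lit 301) (nat_lit 3373) (.d (nat_lit 270) (nat_lit 238) (nat_lit 4334) (nat_lit 366) (nat_lit 4366)))) (.a (.f (nat_lit 338) (nat_lit 366) (nat_lit 1358) (.d (nat_lit 370) (nat_lit 369) (nat_lit 334) (nat_lit 371) (nat_lit 335))) (.f (nat_lit 305) (nat_lit 306) (nat_lit 2350) (.f (nat_lit 369) (nat_lit 370) (nat_lit 334) (.f (nat_lit 304) (nat_lit 333) (nat_lit 2349) (.d (nat_lit 272) (nat_lit 240) (nat_lit 4336) (nat_lit 401) (nat_lit 7440)))))))) (.p (nat_lit 333) (.a (.f (nat_lit 301) (nat_lit 300) (nat_lit 3372) (.f (nat_lit 337) (nat_lit 302) (nat_lit 3373) (.d (nat_lit 305) (nat_lit 304) (nat_lit 2349) (nat_lit 306) (nat_lit 2350)))) (.a (.f (nat_lit 431) (nat_lit 399) (nat_lit 5454) (.f (nat_lit 365) (nat_lit 364) (nat_lit 1356) (.f (nat_lit 429) (nat_lit 397) (nat_lit 4429) (.f (nat_lit 432) (nat_lit 465) (nat_lit 429) (.f (nat_lit 401) (nat_lit 400) (nat_lit 2445) (.f (nat_lit 433) (nat_lit 402) (nat_lit 2446) (.f (nat_lit 337) (nat_lit 369) (nat_lit 5456) (.d (nat_lit 305) (nat_lit 304) (nat_lit 2349) (nat_lit 306) (nat_lit 2350))))))))) (.a (.f (nat_lit 365) (nat_lit 364) (nat_lit 1356) (.f (nat_lit 301) (nat_lit 300) (nat_lit 3372) (.f (nat_lit 302) (nat_lit 337) (nat_lit 3373) (.d (nat_lit 397) (nat_lit 270) (nat_lit 6413) (nat_lit 429) (nat_lit 4429))))) (.f (nat_lit 365) (nat_lit 364) (nat_lit 1356) (.f (nat_lit 397) (nat_lit 429) (nat_lit 4429) (.f (nat_lit 301) (nat_lit 300) (nat_lit 3372) (.f (nat_lit 270) (nat_lit 302) (nat_lit 6413) (.f (nat_lit 269) (nat_lit 238) (nat_lit 6381) (.f (nat_lit 236) (nat_lit 268) (nat_lit 7404) (.f (nat_lit 237) (nat_lit 204) (nat_lit 7372) (.f (nat_lit 304) (nat_lit 305) (nat_lit 2349) (.d (nat_lit 272) (nat_lit 240) (nat_lit 5359) (nat_lit 271) (nat_lit 3308)))))))))))))))))))))) (.a (.p (nat_lit 333) (.a s75423 (.a (.p (nat_lit 332) (.a (.f (nat_lit 331) (nat_lit 366) (nat_lit 331) (.d (nat_lit 363) (nat_lit 362) (nat_lit 1354) (nat_lit 364) (nat_lit 1355))) (.a (.f (nat_lit 364) (nat_lit 363) (nat_lit 1355) (.f (nat_lit 300) (nat_lit 299) (nat_lit 3371) (.d (nat_lit 336) (nat_lit 301) (nat_lit 3372) (nat_lit 365) (nat_lit 1356)))) (.f (nat_lit 331) (nat_lit 366) (nat_lit 331) (.d (nat_lit 299) (nat_lit 298) (nat_lit 3370) (nat_lit 300) (nat_lit 3371)))))) (.a (.p (nat_lit 332) (.a (.f (nat_lit 331) (nat_lit 366) (nat_lit 331) (.d (nat_lit 363) (nat_lit 362) (nat_lit 1354) (nat_lit 364) (nat_lit 1355))) (.a (.f (nat_lit 364) (nat_lit 363) (nat_lit 1355) (.f (nat_lit 300) (nat_lit 299) (nat_lit 3371) (.d (nat_lit 336) (nat_lit 301) (nat_lit 3372) (nat_lit 365) (nat_lit 1356)))) (.a (.f (nat_lit 399) (nat_lit 431) (nat_lit 5454) (.f (nat_lit 366) (nat_lit 331) (nat_lit 331) (.f (nat_lit 300) (nat_lit 299) (nat_lit 3371) (.f (nat_lit 301) (nat_lit 336) (nat_lit 3372) (.f (nat_lit 269) (nat_lit 237) (nat_lit 4333) (.f (nat_lit 364) (nat_lit 396) (nat_lit 6412) (.f (nat_lit 365) (nat_lit 400) (nat_lit 364) (.d (nat_lit 268) (nat_lit 236) (nat_lit 4332) (nat_lit 397) (nat_lit 4364))))))))) (.f (nat_lit 331) (nat_lit 366) (nat_lit 331) (.f (nat_lit 302) (nat_lit 303) (nat_lit 2347) (.f (nat_lit 301) (nat_lit 330) (nat_lit 2346) (.d (nat_lit 300) (nat_lit 299) (nat_lit 3371) (nat_lit 336) (nat_lit 3372))))))))) (.a (.p (nat_lit 336) (.a (.f (nat_lit 365) (nat_lit 364) (nat_lit 1356) (.f (nat_lit 397) (nat_lit 429) (nat_lit 4429) (.f (nat_lit 301) (nat_lit 300) (nat_lit 3372) (.f (nat_lit 270) (nat_lit 302) (nat_lit 6413) (.f (nat_lit 269) (nat_lit 238) (nat_lit 6381) (.f (nat_lit 237) (nat_lit 366) (nat_lit 4333) (.d (nat_lit 236) (nat_lit 204) (nat_lit 7372) (nat_lit 268) (nat_lit 7404)))))))) (.a (.f (nat_lit 365) (nat_lit 364) (nat_lit 1356) (.f (nat_lit 301) (nat_lit 300) (nat_lit 3372) (.f (nat_lit 302) (nat_lit 337) (nat_lit 3373) (.d (nat_lit 397) (nat_lit 270) (nat_lit 6413) (nat_lit 429) (nat_lit 4429))))) (.a (.f (nat_lit 365) (nat_lit 364) (nat_lit 1356) (.f (nat_lit 337) (nat_lit 366) (nat_lit 1357) (.d (nat_lit 301) (nat_lit 300) (nat_lit 3372) (nat_lit 302) (nat_lit 3373)))) (.a (.f (nat_lit 365) (nat_lit 364) (nat_lit 1356) (.f (nat_lit 337) (nat_lit 366) (nat_lit 1357) (.f (nat_lit 306) (nat_lit 305) (nat_lit 2350) (.f (nat_lit 338) (nat_lit 307) (nat_lit 2351) (.d (nat_lit 370) (nat_lit 369) (nat_lit 334) (nat_lit 371) (nat_lit 335)))))) (.f (nat_lit 399) (nat_lit 431) (nat_lit 5454) (.f (nat_lit 301) (nat_lit 300) (nat_lit 3372) (.f (nat_lit 302) (nat_lit 337) (nat_lit 3373) (.d (nat_lit 270) (nat_lit 238) (nat_lit 4334) (nat_lit 366) (nat_lit 4366)))))))))) (.a (.p (nat_lit 364) (.a (.f (nat_lit 365) (nat_lit 336) (nat_lit 1356) (.d (nat_lit 363) (nat_lit 332) (nat_lit 1355) (nat_lit 362) (nat_lit 2378))) (.a (.f (nat_lit 365) (nat_lit 336) (nat_lit 1356) (.d (nat_lit 363) (nat_lit 362) (nat_lit 2378) (nat_lit 366) (nat_lit 2379))) (.a (.f (nat_lit 332) (nat_lit 363) (nat_lit 1355) (.f (nat_lit 331) (nat_lit 366) (nat_lit 331) (.f (nat_lit 302) (nat_lit 303) (nat_lit 2347) (.f (nat_lit 330) (nat_lit 301) (nat_lit 2346) (.d (nat_lit 298) (nat_lit 297) (nat_lit 3369) (nat_lit 299) (nat_lit 3370)))))) (.f (nat_lit 365) (nat_lit 336) (nat_lit 1356) (.f (nat_lit 399) (nat_lit 431) (nat_lit 5454) (.f (nat_lit 366) (nat_lit 400) (nat_lit 364) (.f (nat_lit 302) (nat_lit 270) (nat_lit 4366) (.f (nat_lit 397) (nat_lit 429) (nat_lit 6445) (.f (nat_lit 396) (nat_lit 395) (nat_lit 1387) (.d (nat_lit 301) (nat_lit 269) (nat_lit 5388) (nat_lit 428) (nat_lit 5420)))))))))))) (.a (.p (nat_lit 332) (.a (.f (nat_lit 331) (nat_lit 366) (nat_lit 331) (.d (nat_lit 363) (nat_lit 362) (nat_lit 1354) (nat_lit 364) (nat_lit 1355))) (.a (.f (nat_lit 364) (nat_lit 363) (nat_lit 1355) (.f (nat_lit 300) (nat_lit 299) (nat_lit 3371) (.f (nat_lit 365) (nat_lit 336) (nat_lit 1356) (.d (nat_lit 268) (nat_lit 236) (nat_lit 4332) (nat_lit 397) (nat_lit 4364))))) (.f (nat_lit 331) (nat_lit 366) (nat_lit 331) (.d (nat_lit 299) (nat_lit 298) (nat_lit 3370) (nat_lit 300) (nat_lit 3371)))))) (.a (.p (nat_lit 332) (.a (.f (nat_lit 331) (nat_lit 366) (nat_lit 331) (.d (nat_lit 363) (nat_lit 362) (nat_lit 1354) (nat_lit 364) (nat_lit 1355))) (.a (.p (nat_lit 365) (.a (.f (nat_lit 364) (nat_lit 363) (nat_lit 1355) (.f (nat_lit 300) (nat_lit 299) (nat_lit 3371) (.d (nat_lit 268) (nat_lit 236) (nat_lit 4332) (nat_lit 397) (nat_lit 4364)))) (.a (.f (nat_lit 364) (nat_lit 363) (nat_lit 1355) (.f (nat_lit 397) (nat_lit 429) (nat_lit 4429) (.d (nat_lit 300) (nat_lit 268) (nat_lit 4364) (nat_lit 299) (nat_lit 3371)))) (.a (.f (nat_lit 364) (nat_lit 363) (nat_lit 1355) (.f (nat_lit 399) (nat_lit 431) (nat_lit 5454) (.f (nat_lit 397) (nat_lit 429) (nat_lit 4429) (.f (nat_lit 366) (nat_lit 400) (nat_lit 364) (.f (nat_lit 396) (nat_lit 395) (nat_lit 1387) (.d (nat_lit 301) (nat_lit 269) (nat_lit 5388) (nat_lit 428) (nat_lit 5420))))))) (.a (.f (nat_lit 397) (nat_lit 429) (nat_lit 4429) (.f (nat_lit 300) (nat_lit 299) (nat_lit 3371) (.d (nat_lit 268) (nat_lit 236) (nat_lit 4332) (nat_lit 364) (nat_lit 4364)))) (.a (.f (nat_lit 397) (nat_lit 429) (nat_lit 4429) (.f (nat_lit 300) (nat_lit 299) (nat_lit 3371) (.d (nat_lit 268) (nat_lit 236) (nat_lit 4332) (nat_lit 301) (nat_lit 7436)))) (.f (nat_lit 364) (nat_lit 363) (nat_lit 1355) (.f (nat_lit 399) (nat_lit 431) (nat_lit 5454) (.f (nat_lit 300) (nat_lit 299) (nat_lit 3371) (.f (nat_lit 268) (nat_lit 236) (nat_lit 4332) (.f (nat_lit 269) (nat_lit 237) (nat_lit 6380) (.f (nat_lit 396) (nat_lit 301) (nat_lit 5388) (.d (nat_lit 366) (nat_lit 395) (nat_lit 1387) (nat_lit 400) (nat_lit 364)))))))))))))) (.a (.f (nat_lit 331) (nat_lit 366) (nat_lit 331) (.d (nat_lit 299) (nat_lit 298) (nat_lit 3370) (nat_lit 300) (nat_lit 3371))) (.f (nat_lit 299) (nat_lit 300) (nat_lit 3371) (.f (nat_lit 331) (nat_lit 298) (nat_lit 3370) (.d (nat_lit 363) (nat_lit 362) (nat_lit 1354) (nat_lit 364) (nat_lit 1355)))))))) (.a (.p (nat_lit 332) (.a (.f (nat_lit 331) (nat_lit 366) (nat_lit 331) (.d (nat_lit 299) (nat_lit 298) (nat_lit 3370) (nat_lit 300) (nat_lit 3371))) (.a (.f (nat_lit 331) (nat_lit 366) (nat_lit 331) (.f (nat_lit 302) (nat_lit 303) (nat_lit 2347) (.f (nat_lit 301) (nat_lit 330) (nat_lit 2346) (.d (nat_lit 300) (nat_lit 299) (nat_lit 3371) (nat_lit 336) (nat_lit 3372))))) (.a (.f (nat_lit 331) (nat_lit 366) (nat_lit 331) (.f (nat_lit 302) (nat_lit 303) (nat_lit 2347) (.f (nat_lit 301) (nat_lit 330) (nat_lit 2346) (.d (nat_lit 336) (nat_lit 300) (nat_lit 3372) (nat_lit 337) (nat_lit 3373))))) (.a (.f (nat_lit 331) (nat_lit 366) (nat_lit 331) (.f (nat_lit 302) (nat_lit 303) (nat_lit 2347) (.f (nat_lit 330) (nat_lit 301) (nat_lit 2346) (.d (nat_lit 362) (nat_lit 361) (nat_lit 1353) (nat_lit 363) (nat_lit 1354))))) (.a (.p (nat_lit 429) (.a (.f (nat_lit 431) (nat_lit 399) (nat_lit 5454) (.f (nat_lit 397) (nat_lit 365) (nat_lit 4429) (.d (nat_lit 432) (nat_lit 396) (nat_lit 3468) (nat_lit 465) (nat_lit 429)))) (.a (.f (nat_lit 431) (nat_lit 399) (nat_lit 5454) (.f (nat_lit 432) (nat_lit 465) (nat_lit 429) (.f (nat_lit 300) (nat_lit 299) (nat_lit 3371) (.f (nat_lit 401) (nat_lit 400) (nat_lit 2445) (.f (nat_lit 433) (nat_lit 402) (nat_lit 2446) (.f (nat_lit 337) (nat_lit 369) (nat_lit 5456) (.f (nat_lit 336) (nat_lit 301) (nat_lit 3372) (.f (nat_lit 338) (nat_lit 366) (nat_lit 1358) (.d (nat_lit 306) (nat_lit 305) (nat_lit 2350) (nat_lit 307) (nat_lit 2351)))))))))) (.f (nat_lit 300) (nat_lit 299) (nat_lit 3371) (.f (nat_lit 365) (nat_lit 397) (nat_lit 4429) (.f (nat_lit 336) (nat_lit 301) (nat_lit 3372) (.f (nat_lit 337) (nat_lit 366) (nat_lit 1357) (.f (nat_lit 370) (nat_lit 369) (nat_lit 334) (.f (nat_lit 338) (nat_lit 371) (nat_lit 335) (.d (nat_lit 306) (nat_lit 305) (nat_lit 2350) (nat_lit 307) (nat_lit 2351))))))))))) (.f (nat_lit 299) (nat_lit 300) (nat_lit 3371) (.f (nat_lit 331) (nat_lit 298) (nat_lit 3370) (.f (nat_lit 302) (nat_lit 303) (nat_lit 2347) (.f (nat_lit 330) (nat_lit 301) (nat_lit 2346) (.d (nat_lit 362) (nat_lit 361) (nat_lit 1353) (nat_lit 363) (nat_lit 1354)))))))))))) (.a (.p (nat_lit 332) (.a (.f (nat_lit 331) (nat_lit 366) (nat_lit 331) (.d (nat_lit 363) (nat_lit 362) (nat_lit 1354) (nat_lit 364) (nat_lit 1355))) (.a (.f (nat_lit 300) (nat_lit 299) (nat_lit 3371) (.f (nat_lit 364) (nat_lit 363) (nat_lit 1355) (.f (nat_lit 301) (nat_lit 336) (nat_lit 3372) (.d (nat_lit 269) (nat_lit 237) (nat_lit 5356) (nat_lit 396) (nat_lit 6412))))) (.f (nat_lit 331) (nat_lit 366) (nat_lit 331) (.d (nat_lit 299) (nat_lit 298) (nat_lit 3370) (nat_lit 300) (nat_lit 3371)))))) s75618)))))))))) (.a (.p (nat_lit 336) (.a (.p (nat_lit 337) (.a (.d (nat_lit 366) (nat_lit 338) (nat_lit 1358) (nat_lit 365) (nat_lit 1357)) (.a (.f (nat_lit 399) (nat_lit 431) (nat_lit 5454) (.f (nat_lit 302) (nat_lit 301) (nat_lit 3373) (.d (nat_lit 270) (nat_lit 238) (nat_lit 4334) (nat_lit 366) (nat_lit 4366)))) (.f (nat_lit 399) (nat_lit 431) (nat_lit 5454) (.f (nat_lit 302) (nat_lit 301) (nat_lit 3373) (.d (nat_lit 303) (nat_lit 270) (nat_lit 7438) (nat_lit 338) (nat_lit 3374))))))) (.a (.p (nat_lit 337) (.a (.d (nat_lit 366) (nat_lit 338) (nat_lit 1358) (nat_lit 365) (nat_lit 1357)) (.a (.f (nat_lit 399) (nat_lit 431) (nat_lit 5454) (.f (nat_lit 366) (nat_lit 365) (nat_lit 1357) (.d (nat_lit 302) (nat_lit 270) (nat_lit 4366) (nat_lit 301) (nat_lit 3373)))) (.f (nat_lit 399) (nat_lit 431) (nat_lit 5454) (.f (nat_lit 302) (nat_lit 301) (nat_lit 3373) (.d (nat_lit 303) (nat_lit 270) (nat_lit 7438) (nat_lit 338) (nat_lit 3374))))))) (.a (.p (nat_lit 337) (.a (.d (nat_lit 366) (nat_lit 338) (nat_lit 1358) (nat_lit 365) (nat_lit 1357)) (.a (.f (nat_lit 431) (nat_lit 399) (nat_lit 5454) (.f (nat_lit 369) (nat_lit 370) (nat_lit 334) (.f (nat_lit 301) (nat_lit 302) (nat_lit 3373) (.f (nat_lit 333) (nat_lit 300) (nat_lit 3372) (.f (nat_lit 365) (nat_lit 364) (nat_lit 1356) (.f (nat_lit 429) (nat_lit 397) (nat_lit 4429) (.f (nat_lit 432) (nat_lit 465) (nat_lit 429) (.d (nat_lit 401) (nat_lit 400) (nat_lit 2445) (nat_lit 433) (nat_lit 5456))))))))) (.f (nat_lit 338) (nat_lit 366) (nat_lit 1358) (.d (nat_lit 370) (nat_lit 369) (nat_lit 334) (nat_lit 371) (nat_lit 335)))))) (.a (.p (nat_lit 337) (.a (.d (nat_lit 366) (nat_lit 338) (nat_lit 1358) (nat_lit 365) (nat_lit 1357)) (.a (.f (nat_lit 431) (nat_lit 399) (nat_lit 5454) (.f (nat_lit 365) (nat_lit 366) (nat_lit 1357) (.f (nat_lit 333) (nat_lit 364) (nat_lit 1356) (.f (nat_lit 429) (nat_lit 397) (nat_lit 4429) (.f (nat_lit 432) (nat_lit 465) (nat_lit 429) (.f (nat_lit 401) (nat_lit 400) (nat_lit 2445) (.d (nat_lit 369) (nat_lit 370) (nat_lit 334) (nat_lit 433) (nat_lit 5456)))))))) (.a (.f (nat_lit 338) (nat_lit 366) (nat_lit 1358) (.d (nat_lit 370) (nat_lit 369) (nat_lit 334) (nat_lit 371) (nat_lit 335))) (.f (nat_lit 399) (nat_lit 431) (nat_lit 5454) (.f (nat_lit 370) (nat_lit 369) (nat_lit 334) (.f (nat_lit 338) (nat_lit 371) (nat_lit 335) (.f (nat_lit 303) (nat_lit 302) (nat_lit 3374) (.d (nat_lit 304) (nat_lit 272) (nat_lit 6415) (nat_lit 339) (nat_lit 3375)))))))))) (.a (.p (nat_lit 333) (.a (.f (nat_lit 364) (nat_lit 365) (nat_lit 1356) (.f (nat_lit 332) (nat_lit 363) (nat_lit 1355) (.d (nat_lit 300) (nat_lit 299) (nat_lit 3371) (nat_lit 301) (nat_lit 3372)))) (.a (.f (nat_lit 365) (nat_lit 364) (nat_lit 1356) (.f (nat_lit 431) (nat_lit 399) (nat_lit 5454) (.f (nat_lit 429) (nat_lit 397) (nat_lit 4429) (.f (nat_lit 337) (nat_lit 366) (nat_lit 1357) (.f (nat_lit 432) (nat_lit 465) (nat_lit 429) (.f (nat_lit 401) (nat_lit 400) (nat_lit 2445) (.d (nat_lit 369) (nat_lit 370) (nat_lit 334) (nat_lit 433) (nat_lit 5456)))))))) (.a (.f (nat_lit 300) (nat_lit 301) (nat_lit 3372) (.f (nat_lit 332) (nat_lit 299) (nat_lit 3371) (.f (nat_lit 366) (nat_lit 331) (nat_lit 331) (.d (nat_lit 337) (nat_lit 338) (nat_lit 1358) (nat_lit 365) (nat_lit 1357))))) (.f (nat_lit 300) (nat_lit 301) (nat_lit 3372) (.f (nat_lit 332) (nat_lit 299) (nat_lit 3371) (.f (nat_lit 363) (nat_lit 364) (nat_lit 1355) (.d (nat_lit 331) (nat_lit 362) (nat_lit 1354) (nat_lit 366) (nat_lit 331))))))))) (.a s75931 (.a (.p (nat_lit 337) (.a (.f (nat_lit 399) (nat_lit 431) (nat_lit 5454) (.f (nat_lit 302) (nat_lit 301) (nat_lit 3373) (.d (nat_lit 270) (nat_lit 238) (nat_lit 4334) (nat_lit 366) (nat_lit 4366)))) (.a (.f (nat_lit 399) (nat_lit 431) (nat_lit 5454) (.f (nat_lit 302) (nat_lit 301) (nat_lit 3373) (.d (nat_lit 303) (nat_lit 270) (nat_lit 7438) (nat_lit 338) (nat_lit 3374)))) (.f (nat_lit 338) (nat_lit 366) (nat_lit 1358) (.d (nat_lit 370) (nat_lit 369) (nat_lit 334) (nat_lit 371) (nat_lit 335)))))) (.p (nat_lit 302) (.a (.f (nat_lit 399) (nat_lit 431) (nat_lit 5454) (.d (nat_lit 270) (nat_lit 238) (nat_lit 4334) (nat_lit 303) (nat_lit 7438))) (.a (.f (nat_lit 399) (nat_lit 431) (nat_lit 7470) (.f (nat_lit 303) (nat_lit 270) (nat_lit 7438) (.d (nat_lit 301) (nat_lit 300) (nat_lit 300) (nat_lit 337) (nat_lit 3373)))) (.f (nat_lit 301) (nat_lit 337) (nat_lit 3373) (.d (nat_lit 300) (nat_lit 299) (nat_lit 299) (nat_lit 333) (nat_lit 3372)))))))))))))) (.a (.f (nat_lit 399) (nat_lit 431) (nat_lit 5454) (.p (nat_lit 303) (.a (.f (nat_lit 302) (nat_lit 270) (nat_lit 7438) (.f (nat_lit 304) (nat_lit 272) (nat_lit 6415) (.f (nat_lit 305) (nat_lit 306) (nat_lit 1326) (.f (nat_lit 337) (nat_lit 338) (nat_lit 302) (.f (nat_lit 336) (nat_lit 301) (nat_lit 301) (.f (nat_lit 369) (nat_lit 370) (nat_lit 334) (.f (nat_lit 401) (nat_lit 433) (nat_lit 7472) (.f (nat_lit 400) (nat_lit 432) (nat_lit 4399) (.d (nat_lit 366) (nat_lit 365) (nat_lit 1357) (nat_lit 402) (nat_lit 3438)))))))))) (.a (.f (nat_lit 272) (nat_lit 304) (nat_lit 6415) (.f (nat_lit 271) (nat_lit 240) (nat_lit 6383) (.f (nat_lit 239) (nat_lit 366) (nat_lit 5358) (.f (nat_lit 207) (nat_lit 302) (nat_lit 5326) (.d (nat_lit 206) (nat_lit 174) (nat_lit 7342) (nat_lit 238) (nat_lit 7374)))))) (.a (.p (nat_lit 271) (.a (.d (nat_lit 270) (nat_lit 238) (nat_lit 7406) (nat_lit 302) (nat_lit 7438)) (.a (.f (nat_lit 302) (nat_lit 270) (nat_lit 7438) (.d (nat_lit 239) (nat_lit 207) (nat_lit 5326) (nat_lit 366) (nat_lit 5358))) (.a (.f (nat_lit 239) (nat_lit 366) (nat_lit 5358) (.f (nat_lit 207) (nat_lit 302) (nat_lit 5326) (.d (nat_lit 208) (nat_lit 176) (nat_lit 6319) (nat_lit 240) (nat_lit 6351)))) (.f (nat_lit 239) (nat_lit 366) (nat_lit 5358) (.d (nat_lit 238) (nat_lit 206) (nat_lit 7374) (nat_lit 270) (nat_lit 7406))))))) (.a (.f (nat_lit 272) (nat_lit 304) (nat_lit 6415) (.f (nat_lit 271) (nat_lit 240) (nat_lit 6383) (.f (nat_lit 239) (nat_lit 366) (nat_lit 5358) (.d (nat_lit 238) (nat_lit 206) (nat_lit 7374) (nat_lit 270) (nat_lit 7406))))) (.f (nat_lit 302) (nat_lit 270) (nat_lit 7438) (.f (nat_lit 304) (nat_lit 272) (nat_lit 6415) (.f (nat_lit 305) (nat_lit 306) (nat_lit 1326) (.f (nat_lit 337) (nat_lit 338) (nat_lit 302) (.f (nat_lit 301) (nat_lit 336) (nat_lit 301) (.f (nat_lit 300) (nat_lit 299) (nat_lit 299) (.d (nat_lit 268) (nat_lit 267) (nat_lit 3339) (nat_lit 269) (nat_lit 3340)))))))))))))) (.a (.f (nat_lit 399) (nat_lit 431) (nat_lit 5454) s75956) (.a s75635 (.p (nat_lit 336) (.a (.p (nat_lit 337) (.a (.d (nat_lit 366) (nat_lit 338) (nat_lit 1358) (nat_lit 365) (nat_lit 1357)) (.a (.f (nat_lit 365) (nat_lit 366) (nat_lit 1357) (.f (nat_lit 333) (nat_lit 364) (nat_lit 1356) (.d (nat_lit 305) (nat_lit 304) (nat_lit 2349) (nat_lit 306) (nat_lit 2350)))) (.a (.f (nat_lit 338) (nat_lit 366) (nat_lit 1358) (.d (nat_lit 370) (nat_lit 369) (nat_lit 334) (nat_lit 371) (nat_lit 335))) (.f (nat_lit 305) (nat_lit 306) (nat_lit 2350) (.f (nat_lit 369) (nat_lit 370) (nat_lit 334) (.f (nat_lit 304) (nat_lit 333) (nat_lit 2349) (.d (nat_lit 272) (nat_lit 240) (nat_lit 4336) (nat_lit 401) (nat_lit 7440))))))))) (.a s75229 (.a (.p (nat_lit 337) (.a (.d (nat_lit 366) (nat_lit 338) (nat_lit 1358) (nat_lit 365) (nat_lit 1357)) (.a (.f (nat_lit 365) (nat_lit 366) (nat_lit 1357) (.f (nat_lit 333) (nat_lit 364) (nat_lit 1356) (.d (nat_lit 305) (nat_lit 304) (nat_lit 2349) (nat_lit 306) (nat_lit 2350)))) (.f (nat_lit 302) (nat_lit 301) (nat_lit 3373) (.f (nat_lit 338) (nat_lit 303) (nat_lit 3374) (.d (nat_lit 306) (nat_lit 305) (nat_lit 2350) (nat_lit 307) (nat_lit 2351))))))) (.a (.p (nat_lit 337) (.a (.d (nat_lit 366) (nat_lit 338) (nat_lit 1358) (nat_lit 365) (nat_lit 1357)) (.a (.f (nat_lit 365) (nat_lit 366) (nat_lit 1357) (.f (nat_lit 333) (nat_lit 364) (nat_lit 1356) (.d (nat_lit 301) (nat_lit 300) (nat_lit 3372) (nat_lit 302) (nat_lit 3373)))) (.a (.f (nat_lit 338) (nat_lit 366) (nat_lit 1358) (.d (nat_lit 370) (nat_lit 369) (nat_lit 334) (nat_lit 371) (nat_lit 335))) (.f (nat_lit 302) (nat_lit 301) (nat_lit 3373) (.f (nat_lit 338) (nat_lit 303) (nat_lit 3374) (.d (nat_lit 306) (nat_lit 305) (nat_lit 2350) (nat_lit 307) (nat_lit 2351)))))))) (.a s75931 (.a (.p (nat_lit 337) (.a (.f (nat_lit 338) (nat_lit 366) (nat_lit 1358) (.d (nat_lit 370) (nat_lit 369) (nat_lit 334) (nat_lit 371) (nat_lit 335))) (.a (.f (nat_lit 305) (nat_lit 306) (nat_lit 2350) (.f (nat_lit 369) (nat_lit 370) (nat_lit 334) (.f (nat_lit 304) (nat_lit 333) (nat_lit 2349) (.d (nat_lit 272) (nat_lit 240) (nat_lit 4336) (nat_lit 401) (nat_lit 7440))))) (.f (nat_lit 302) (nat_lit 301) (nat_lit 3373) (.f (nat_lit 338) (nat_lit 303) (nat_lit 3374) (.d (nat_lit 306) (nat_lit 305) (nat_lit 2350) (nat_lit 307) (nat_lit 2351))))))) (.p (nat_lit 333) (.a (.f (nat_lit 365) (nat_lit 364) (nat_lit 1356) (.f (nat_lit 301) (nat_lit 300) (nat_lit 3372) (.f (nat_lit 397) (nat_lit 429) (nat_lit 4429) (.f (nat_lit 270) (nat_lit 302) (nat_lit 6413) (.f (nat_lit 269) (nat_lit 238) (nat_lit 6381) (.f (nat_lit 304) (nat_lit 305) (nat_lit 2349) (.f (nat_lit 268) (nat_lit 236) (nat_lit 7404) (.f (nat_lit 240) (nat_lit 272) (nat_lit 5359) (.d (nat_lit 271) (nat_lit 239) (nat_lit 2284) (nat_lit 303) (nat_lit 268)))))))))) (.a (.f (nat_lit 301) (nat_lit 300) (nat_lit 3372) (.f (nat_lit 337) (nat_lit 302) (nat_lit 3373) (.d (nat_lit 305) (nat_lit 304) (nat_lit 2349) (nat_lit 306) (nat_lit 2350)))) (.a (.f (nat_lit 304) (nat_lit 305) (nat_lit 2349) (.f (nat_lit 332) (nat_lit 303) (nat_lit 2348) (.d (nat_lit 364) (nat_lit 363) (nat_lit 1355) (nat_lit 365) (nat_lit 1356)))) (.f (nat_lit 365) (nat_lit 364) (nat_lit 1356) (.f (nat_lit 301) (nat_lit 300) (nat_lit 3372) (.f (nat_lit 302) (nat_lit 337) (nat_lit 3373) (.d (nat_lit 397) (nat_lit 270) (nat_lit 6413) (nat_lit 429) (nat_lit 4429))))))))))))))))))))))))))))))))) (.a (.p (nat_lit 337) (.a (.p (nat_lit 336) (.a (.f (nat_lit 338) (nat_lit 366) (nat_lit 1358) (.f (nat_lit 368) (nat_lit 339) (nat_lit 1359) (.f (nat_lit 400) (nat_lit 432) (nat_lit 7503) (.d (nat_lit 303) (nat_lit 271) (nat_lit 4367) (nat_lit 302) (nat_lit 3374))))) (.a (.f (nat_lit 338) (nat_lit 366) (nat_lit 1358) (.f (nat_lit 339) (nat_lit 368) (nat_lit 1359) (.d (nat_lit 371) (nat_lit 370) (nat_lit 335) (nat_lit 372) (nat_lit 336)))) (.a s75974 (.a (.p (nat_lit 338) (.a (.f (nat_lit 368) (nat_lit 339) (nat_lit 1359) (.f (nat_lit 400) (nat_lit 432) (nat_lit 7503) (.d (nat_lit 303) (nat_lit 271) (nat_lit 4367) (nat_lit 302) (nat_lit 3374)))) (.a (.f (nat_lit 339) (nat_lit 368) (nat_lit 1359) (.d (nat_lit 371) (nat_lit 370) (nat_lit 335) (nat_lit 372) (nat_lit 336))) (.f (nat_lit 370) (nat_lit 371) (nat_lit 335) (.f (nat_lit 306) (nat_lit 307) (nat_lit 2351) (.d (nat_lit 334) (nat_lit 305) (nat_lit 2350) (nat_lit 369) (nat_lit 334))))))) (.f (nat_lit 338) (nat_lit 366) (nat_lit 1358) (.f (nat_lit 306) (nat_lit 307) (nat_lit 2351) (.f (nat_lit 370) (nat_lit 371) (nat_lit 335) (.d (nat_lit 334) (nat_lit 305) (nat_lit 2350) (nat_lit 369) (nat_lit 334)))))))))) (.a (.p (nat_lit 336) (.a (.f (nat_lit 338) (nat_lit 366) (nat_lit 1358) (.f (nat_lit 368) (nat_lit 339) (nat_lit 1359) (.f (nat_lit 400) (nat_lit 432) (nat_lit 7503) (.d (nat_lit 303) (nat_lit 271) (nat_lit 4367) (nat_lit 302) (nat_lit 3374))))) (.a (.f (nat_lit 338) (nat_lit 366) (nat_lit 1358) (.f (nat_lit 339) (nat_lit 368) (nat_lit 1359) (.d (nat_lit 371) (nat_lit 370) (nat_lit 335) (nat_lit 372) (nat_lit 336)))) (.a s75994 (.a (.p (nat_lit 338) (.a (.f (nat_lit 368) (nat_lit 339) (nat_lit 1359) (.f (nat_lit 400) (nat_lit 432) (nat_lit 7503) (.d (nat_lit 303) (nat_lit 271) (nat_lit 4367) (nat_lit 302) (nat_lit 3374)))) (.a (.f (nat_lit 339) (nat_lit 368) (nat_lit 1359) (.d (nat_lit 371) (nat_lit 370) (nat_lit 335) (nat_lit 372) (nat_lit 336))) (.f (nat_lit 370) (nat_lit 371) (nat_lit 335) (.f (nat_lit 306) (nat_lit 307) (nat_lit 2351) (.d (nat_lit 334) (nat_lit 305) (nat_lit 2350) (nat_lit 369) (nat_lit 334))))))) (.f (nat_lit 338) (nat_lit 366) (nat_lit 1358) (.f (nat_lit 306) (nat_lit 307) (nat_lit 2351) (.f (nat_lit 370) (nat_lit 371) (nat_lit 335) (.d (nat_lit 334) (nat_lit 305) (nat_lit 2350) (nat_lit 369) (nat_lit 334)))))))))) (.a (.p (nat_lit 336) (.a (.f (nat_lit 338) (nat_lit 366) (nat_lit 1358) (.f (nat_lit 339) (nat_lit 368) (nat_lit 1359) (.d (nat_lit 371) (nat_lit 370) (nat_lit 335) (nat_lit 372) (nat_lit 336)))) (.a (.p (nat_lit 334) (.a (.f (nat_lit 365) (nat_lit 366) (nat_lit 1357) (.f (nat_lit 333) (nat_lit 364) (nat_lit 1356) (.d (nat_lit 305) (nat_lit 304) (nat_lit 2349) (nat_lit 306) (nat_lit 2350)))) (.a (.f (nat_lit 369) (nat_lit 370) (nat_lit 334) (.f (nat_lit 368) (nat_lit 333) (nat_lit 333) (.f (nat_lit 400) (nat_lit 432) (nat_lit 6480) (.d (nat_lit 305) (nat_lit 273) (nat_lit 5392) (nat_lit 306) (nat_lit 2350))))) (.a (.f (nat_lit 369) (nat_lit 370) (nat_lit 334) (.f (nat_lit 368) (nat_lit 333) (nat_lit 333) (.f (nat_lit 400) (nat_lit 432) (nat_lit 7503) (.f (nat_lit 366) (nat_lit 365) (nat_lit 1357) (.f (nat_lit 401) (nat_lit 402) (nat_lit 366) (.d (nat_lit 304) (nat_lit 272) (nat_lit 4368) (nat_lit 433) (nat_lit 4400))))))) (.f (nat_lit 369) (nat_lit 370) (nat_lit 334) (.f (nat_lit 305) (nat_lit 306) (nat_lit 2350) (.f (nat_lit 366) (nat_lit 365) (nat_lit 1357) (.f (nat_lit 302) (nat_lit 301) (nat_lit 3373) (.f (nat_lit 270) (nat_lit 238) (nat_lit 4334) (.f (nat_lit 269) (nat_lit 237) (nat_lit 7405) (.f (nat_lit 304) (nat_lit 303) (nat_lit 3341) (.d (nat_lit 272) (nat_lit 240) (nat_lit 4336) (nat_lit 401) (nat_lit 7440))))))))))))) (.a (.p (nat_lit 338) (.a (.f (nat_lit 339) (nat_lit 368) (nat_lit 1359) (.d (nat_lit 371) (nat_lit 370) (nat_lit 335) (nat_lit 372) (nat_lit 336))) (.a (.f (nat_lit 370) (nat_lit 371) (nat_lit 335) (.f (nat_lit 306) (nat_lit 307) (nat_lit 2351) (.d (nat_lit 334) (nat_lit 305) (nat_lit 2350) (nat_lit 369) (nat_lit 334)))) (.f (nat_lit 339) (nat_lit 368) (nat_lit 1359) (.d (nat_lit 307) (nat_lit 306) (nat_lit 2351) (nat_lit 308) (nat_lit 2352)))))) (.a (.f (nat_lit 338) (nat_lit 366) (nat_lit 1358) (.f (nat_lit 306) (nat_lit 307) (nat_lit 2351) (.f (nat_lit 370) (nat_lit 371) (nat_lit 335) (.d (nat_lit 334) (nat_lit 305) (nat_lit 2350) (nat_lit 369) (nat_lit 334))))) (.f (nat_lit 338) (nat_lit 366) (nat_lit 1358) (.f (nat_lit 339) (nat_lit 368) (nat_lit 1359) (.d (nat_lit 307) (nat_lit 306) (nat_lit 2351) (nat_lit 308) (nat_lit 2352))))))))) (.a (.p (nat_lit 336) (.a (.f (nat_lit 338) (nat_lit 366) (nat_lit 1358) (.f (nat_lit 368) (nat_lit 339) (nat_lit 1359) (.f (nat_lit 400) (nat_lit 432) (nat_lit 7503) (.d (nat_lit 303) (nat_lit 271) (nat_lit 4367) (nat_lit 302) (nat_lit 3374))))) (.a (.f (nat_lit 338) (nat_lit 366) (nat_lit 1358) (.f (nat_lit 339) (nat_lit 368) (nat_lit 1359) (.d (nat_lit 371) (nat_lit 370) (nat_lit 335) (nat_lit 372) (nat_lit 336)))) (.a (.p (nat_lit 334) (.a (.f (nat_lit 365) (nat_lit 366) (nat_lit 1357) (.f (nat_lit 333) (nat_lit 364) (nat_lit 1356) (.d (nat_lit 305) (nat_lit 304) (nat_lit 2349) (nat_lit 306) (nat_lit 2350)))) (.a (.f (nat_lit 369) (nat_lit 370) (nat_lit 334) (.f (nat_lit 368) (nat_lit 333) (nat_lit 333) (.f (nat_lit 400) (nat_lit 432) (nat_lit 6480) (.d (nat_lit 305) (nat_lit 273) (nat_lit 5392) (nat_lit 306) (nat_lit 2350))))) (.a (.f (nat_lit 365) (nat_lit 366) (nat_lit 1357) (.f (nat_lit 333) (nat_lit 364) (nat_lit 1356) (.d (nat_lit 301) (nat_lit 300) (nat_lit 3372) (nat_lit 302) (nat_lit 3373)))) (.f (nat_lit 369) (nat_lit 370) (nat_lit 334) (.f (nat_lit 305) (nat_lit 306) (nat_lit 2350) (.f (nat_lit 366) (nat_lit 365) (nat_lit 1357) (.f (nat_lit 302) (nat_lit 301) (nat_lit 3373) (.f (nat_lit 270) (nat_lit 238) (nat_lit 4334) (.f (nat_lit 271) (nat_lit 239) (nat_lit 6382) (.f (nat_lit 269) (nat_lit 237) (nat_lit 7405) (.f (nat_lit 303) (nat_lit 304) (nat_lit 3341) (.f (nat_lit 368) (nat_lit 400) (nat_lit 4367) (.f (nat_lit 401) (nat_lit 402) (nat_lit 366) (.d (nat_lit 433) (nat_lit 432) (nat_lit 5456) (nat_lit 465) (nat_lit 7504)))))))))))))))) (.a (.p (nat_lit 338) (.a (.f (nat_lit 368) (nat_lit 339) (nat_lit 1359) (.f (nat_lit 400) (nat_lit 432) (nat_lit 7503) (.d (nat_lit 303) (nat_lit 271) (nat_lit 4367) (nat_lit 302) (nat_lit 3374)))) (.a (.f (nat_lit 339) (nat_lit 368) (nat_lit 1359) (.d (nat_lit 371) (nat_lit 370) (nat_lit 335) (nat_lit 372) (nat_lit 336))) (.f (nat_lit 370) (nat_lit 371) (nat_lit 335) (.f (nat_lit 306) (nat_lit 307) (nat_lit 2351) (.d (nat_lit 334) (nat_lit 305) (nat_lit 2350) (nat_lit 369) (nat_lit 334))))))) (.f (nat_lit 338) (nat_lit 366) (nat_lit 1358) (.f (nat_lit 306) (nat_lit 307) (nat_lit 2351) (.f (nat_lit 370) (nat_lit 371) (nat_lit 335) (.d (nat_lit 334) (nat_lit 305) (nat_lit 2350) (nat_lit 369) (nat_lit 334)))))))))) (.a (.p (nat_lit 336) (.a (.f (nat_lit 338) (nat_lit 366) (nat_lit 1358) (.f (nat_lit 368) (nat_lit 339) (nat_lit 1359) (.f (nat_lit 400) (nat_lit 432) (nat_lit 7503) (.d (nat_lit 303) (nat_lit 271) (nat_lit 4367) (nat_lit 302) (nat_lit 3374))))) (.a (.f (nat_lit 338) (nat_lit 366) (nat_lit 1358) (.f (nat_lit 339) (nat_lit 368) (nat_lit 1359) (.d (nat_lit 371) (nat_lit 370) (nat_lit 335) (nat_lit 372) (nat_lit 336)))) (.a s76023 (.p (nat_lit 338) (.a (.f (nat_lit 368) (nat_lit 339) (nat_lit 1359) (.f (nat_lit 400) (nat_lit 432) (nat_lit 7503) (.d (nat_lit 303) (nat_lit 271) (nat_lit 4367) (nat_lit 302) (nat_lit 3374)))) (.a (.f (nat_lit 339) (nat_lit 368) (nat_lit 1359) (.d (nat_lit 371) (nat_lit 370) (nat_lit 335) (nat_lit 372) (nat_lit 336))) (.f (nat_lit 370) (nat_lit 371) (nat_lit 335) (.f (nat_lit 306) (nat_lit 307) (nat_lit 2351) (.d (nat_lit 334) (nat_lit 305) (nat_lit 2350) (nat_lit 369) (nat_lit 334))))))))))) (.a (.p (nat_lit 336) (.a (.f (nat_lit 338) (nat_lit 366) (nat_lit 1358) (.f (nat_lit 339) (nat_lit 368) (nat_lit 1359) (.d (nat_lit 371) (nat_lit 370) (nat_lit 335) (nat_lit 372) (nat_lit 336)))) (.a s75994 (.a (.p (nat_lit 338) (.a (.f (nat_lit 339) (nat_lit 368) (nat_lit 1359) (.d (nat_lit 371) (nat_lit 370) (nat_lit 335) (nat_lit 372) (nat_lit 336))) (.a (.f (nat_lit 370) (nat_lit 371) (nat_lit 335) (.f (nat_lit 306) (nat_lit 307) (nat_lit 2351) (.d (nat_lit 334) (nat_lit 305) (nat_lit 2350) (nat_lit 369) (nat_lit 334)))) (.f (nat_lit 339) (nat_lit 368) (nat_lit 1359) (.d (nat_lit 307) (nat_lit 306) (nat_lit 2351) (nat_lit 308) (nat_lit 2352)))))) (.a (.f (nat_lit 338) (nat_lit 366) (nat_lit 1358) (.f (nat_lit 306) (nat_lit 307) (nat_lit 2351) (.f (nat_lit 370) (nat_lit 371) (nat_lit 335) (.d (nat_lit 334) (nat_lit 305) (nat_lit 2350) (nat_lit 369) (nat_lit 334))))) (.f (nat_lit 338) (nat_lit 366) (nat_lit 1358) (.f (nat_lit 339) (nat_lit 368) (nat_lit 1359) (.d (nat_lit 307) (nat_lit 306) (nat_lit 2351) (nat_lit 308) (nat_lit 2352))))))))) (.a (.p (nat_lit 336) (.a (.f (nat_lit 338) (nat_lit 366) (nat_lit 1358) (.f (nat_lit 368) (nat_lit 339) (nat_lit 1359) (.f (nat_lit 400) (nat_lit 432) (nat_lit 7503) (.d (nat_lit 303) (nat_lit 271) (nat_lit 4367) (nat_lit 302) (nat_lit 3374))))) (.a (.f (nat_lit 338) (nat_lit 366) (nat_lit 1358) (.f (nat_lit 339) (nat_lit 368) (nat_lit 1359) (.d (nat_lit 371) (nat_lit 370) (nat_lit 335) (nat_lit 372) (nat_lit 336)))) (.a (.p (nat_lit 334) (.a (.f (nat_lit 369) (nat_lit 370) (nat_lit 334) (.f (nat_lit 368) (nat_lit 333) (nat_lit 333) (.f (nat_lit 400) (nat_lit 432) (nat_lit 6480) (.d (nat_lit 305) (nat_lit 273) (nat_lit 5392) (nat_lit 306) (nat_lit 2350))))) (.a (.f (nat_lit 365) (nat_lit 366) (nat_lit 1357) (.f (nat_lit 333) (nat_lit 364) (nat_lit 1356) (.d (nat_lit 301) (nat_lit 300) (nat_lit 3372) (nat_lit 302) (nat_lit 3373)))) (.p (nat_lit 368) (.a (.f (nat_lit 369) (nat_lit 370) (nat_lit 334) (.f (nat_lit 400) (nat_lit 432) (nat_lit 7503) (.d (nat_lit 305) (nat_lit 273) (nat_lit 5392) (nat_lit 306) (nat_lit 2350)))) (.a (.f (nat_lit 400) (nat_lit 432) (nat_lit 7503) (.f (nat_lit 366) (nat_lit 365) (nat_lit 2381) (.f (nat_lit 271) (nat_lit 303) (nat_lit 4367) (.f (nat_lit 302) (nat_lit 301) (nat_lit 3373) (.d (nat_lit 270) (nat_lit 238) (nat_lit 4334) (nat_lit 239) (nat_lit 6382)))))) (.a (.f (nat_lit 369) (nat_lit 370) (nat_lit 334) (.f (nat_lit 366) (nat_lit 365) (nat_lit 2381) (.f (nat_lit 401) (nat_lit 402) (nat_lit 366) (.d (nat_lit 433) (nat_lit 432) (nat_lit 5456) (nat_lit 465) (nat_lit 7504))))) (.f (nat_lit 369) (nat_lit 370) (nat_lit 334) (.f (nat_lit 305) (nat_lit 306) (nat_lit 2350) (.d (nat_lit 273) (nat_lit 241) (nat_lit 5360) (nat_lit 400) (nat_lit 5392))))))))))) (.a (.p (nat_lit 338) (.a (.f (nat_lit 368) (nat_lit 339) (nat_lit 1359) (.f (nat_lit 400) (nat_lit 432) (nat_lit 7503) (.d (nat_lit 303) (nat_lit 271) (nat_lit 4367) (nat_lit 302) (nat_lit 3374)))) (.a (.f (nat_lit 339) (nat_lit 368) (nat_lit 1359) (.d (nat_lit 371) (nat_lit 370) (nat_lit 335) (nat_lit 372) (nat_lit 336))) (.f (nat_lit 370) (nat_lit 371) (nat_lit 335) (.f (nat_lit 306) (nat_lit 307) (nat_lit 2351) (.d (nat_lit 334) (nat_lit 305) (nat_lit 2350) (nat_lit 369) (nat_lit 334))))))) (.f (nat_lit 338) (nat_lit 366) (nat_lit 1358) (.f (nat_lit 306) (nat_lit 307) (nat_lit 2351) (.f (nat_lit 370) (nat_lit 371) (nat_lit 335) (.d (nat_lit 334) (nat_lit 305) (nat_lit 2350) (nat_lit 369) (nat_lit 334)))))))))) (.a (.p (nat_lit 336) (.a (.f (nat_lit 338) (nat_lit 366) (nat_lit 1358) (.f (nat_lit 368) (nat_lit 339) (nat_lit 1359) (.f (nat_lit 400) (nat_lit 432) (nat_lit 7503) (.d (nat_lit 303) (nat_lit 271) (nat_lit 4367) (nat_lit 302) (nat_lit 3374))))) (.a (.f (nat_lit 338) (nat_lit 366) (nat_lit 1358) (.f (nat_lit 339) (nat_lit 368) (nat_lit 1359) (.d (nat_lit 371) (nat_lit 370) (nat_lit 335) (nat_lit 372) (nat_lit 336)))) (.a s76078 (.a (.p (nat_lit 338) (.a (.f (nat_lit 368) (nat_lit 339) (nat_lit 1359) (.f (nat_lit 400) (nat_lit 432) (nat_lit 7503) (.d (nat_lit 303) (nat_lit 271) (nat_lit 4367) (nat_lit 302) (nat_lit 3374)))) (.a (.f (nat_lit 339) (nat_lit 368) (nat_lit 1359) (.d (nat_lit 371) (nat_lit 370) (nat_lit 335) (nat_lit 372) (nat_lit 336))) (.f (nat_lit 370) (nat_lit 371) (nat_lit 335) (.f (nat_lit 369) (nat_lit 334) (nat_lit 334) (.f (nat_lit 306) (nat_lit 307) (nat_lit 2351) (.d (nat_lit 274) (nat_lit 242) (nat_lit 5361) (nat_lit 401) (nat_lit 5393)))))))) (.f (nat_lit 338) (nat_lit 366) (nat_lit 1358) (.f (nat_lit 303) (nat_lit 302) (nat_lit 3374) (.f (nat_lit 339) (nat_lit 304) (nat_lit 3375) (.d (nat_lit 307) (nat_lit 306) (nat_lit 2351) (nat_lit 308) (nat_lit 2352)))))))))) (.a (.p (nat_lit 336) (.a (.f (nat_lit 338) (nat_lit 366) (nat_lit 1358) (.f (nat_lit 368) (nat_lit 339) (nat_lit 1359) (.f (nat_lit 400) (nat_lit 432) (nat_lit 7503) (.d (nat_lit 303) (nat_lit 271) (nat_lit 4367) (nat_lit 302) (nat_lit 3374))))) (.a (.f (nat_lit 338) (nat_lit 366) (nat_lit 1358) (.f (nat_lit 339) (nat_lit 368) (nat_lit 1359) (.d (nat_lit 371) (nat_lit 370) (nat_lit 335) (nat_lit 372) (nat_lit 336)))) (.a s76078 (.a (.p (nat_lit 338) (.a (.f (nat_lit 368) (nat_lit 339) (nat_lit 1359) (.f (nat_lit 400) (nat_lit 432) (nat_lit 7503) (.d (nat_lit 303) (nat_lit 271) (nat_lit 4367) (nat_lit 302) (nat_lit 3374)))) (.a (.f (nat_lit 339) (nat_lit 368) (nat_lit 1359) (.d (nat_lit 371) (nat_lit 370) (nat_lit 335) (nat_lit 372) (nat_lit 336))) (.f (nat_lit 370) (nat_lit 371) (nat_lit 335) (.f (nat_lit 334) (nat_lit 369) (nat_lit 334) (.d (nat_lit 302) (nat_lit 301) (nat_lit 3373) (nat_lit 303) (nat_lit 3374))))))) (.f (nat_lit 338) (nat_lit 366) (nat_lit 1358) (.f (nat_lit 303) (nat_lit 302) (nat_lit 3374) (.f (nat_lit 304) (nat_lit 339) (nat_lit 3375) (.f (nat_lit 272) (nat_lit 240) (nat_lit 5359) (.f (nat_lit 370) (nat_lit 371) (nat_lit 335) (.f (nat_lit 369) (nat_lit 334) (nat_lit 334) (.d (nat_lit 401) (nat_lit 305) (nat_lit 7440) (nat_lit 433) (nat_lit 7472))))))))))))) (.a (.p (nat_lit 336) (.a (.f (nat_lit 338) (nat_lit 366) (nat_lit 1358) (.f (nat_lit 368) (nat_lit 339) (nat_lit 1359) (.f (nat_lit 400) (nat_lit 432) (nat_lit 7503) (.d (nat_lit 303) (nat_lit 271) (nat_lit 4367) (nat_lit 302) (nat_lit 3374))))) (.a (.f (nat_lit 338) (nat_lit 366) (nat_lit 1358) (.f (nat_lit 339) (nat_lit 368) (nat_lit 1359) (.d (nat_lit 371) (nat_lit 370) (nat_lit 335) (nat_lit 372) (nat_lit 336)))) (.a (.p (nat_lit 368) (.a (.p (nat_lit 369) (.a (.d (nat_lit 370) (nat_lit 334) (nat_lit 334) (nat_lit 371) (nat_lit 3407)) (.a (.f (nat_lit 370) (nat_lit 371) (nat_lit 3407) (.f (nat_lit 402) (nat_lit 403) (nat_lit 367) (.d (nat_lit 366) (nat_lit 365) (nat_lit 2381) (nat_lit 401) (nat_lit 366)))) (.f (nat_lit 400) (nat_lit 432) (nat_lit 6480) (.f (nat_lit 366) (nat_lit 365) (nat_lit 2381) (.f (nat_lit 401) (nat_lit 402) (nat_lit 366) (.d (nat_lit 304) (nat_lit 272) (nat_lit 4368) (nat_lit 433) (nat_lit 4400)))))))) (.a (.p (nat_lit 369) (.a (.d (nat_lit 370) (nat_lit 334) (nat_lit 334) (nat_lit 371) (nat_lit 3407)) (.a (.f (nat_lit 370) (nat_lit 371) (nat_lit 3407) (.f (nat_lit 402) (nat_lit 403) (nat_lit 367) (.d (nat_lit 366) (nat_lit 365) (nat_lit 2381) (nat_lit 401) (nat_lit 366)))) (.f (nat_lit 400) (nat_lit 432) (nat_lit 7503) (.f (nat_lit 366) (nat_lit 365) (nat_lit 2381) (.f (nat_lit 401) (nat_lit 402) (nat_lit 366) (.d (nat_lit 433) (nat_lit 304) (nat_lit 4400) (nat_lit 465) (nat_lit 7504)))))))) (.a (.p (nat_lit 369) (.a (.d (nat_lit 370) (nat_lit 334) (nat_lit 334) (nat_lit 371) (nat_lit 3407)) (.a (.f (nat_lit 370) (nat_lit 371) (nat_lit 3407) (.f (nat_lit 402) (nat_lit 403) (nat_lit 367) (.d (nat_lit 366) (nat_lit 365) (nat_lit 2381) (nat_lit 401) (nat_lit 366)))) (.f (nat_lit 400) (nat_lit 432) (nat_lit 7503) (.f (nat_lit 366) (nat_lit 365) (nat_lit 2381) (.f (nat_lit 401) (nat_lit 402) (nat_lit 366) (.f (nat_lit 305) (nat_lit 273) (nat_lit 5392) (.d (nat_lit 306) (nat_lit 274) (nat_lit 6417) (nat_lit 334) (nat_lit 2350))))))))) (.a (.p (nat_lit 304) (.a (.f (nat_lit 400) (nat_lit 432) (nat_lit 7503) (.f (nat_lit 272) (nat_lit 240) (nat_lit 5359) (.d (nat_lit 401) (nat_lit 369) (nat_lit 4368) (nat_lit 433) (nat_lit 4400)))) (.a (.f (nat_lit 400) (nat_lit 432) (nat_lit 7503) (.f (nat_lit 401) (nat_lit 433) (nat_lit 4400) (.f (nat_lit 305) (nat_lit 273) (nat_lit 6416) (.f (nat_lit 369) (nat_lit 272) (nat_lit 7440) (.d (nat_lit 306) (nat_lit 274) (nat_lit 6417) (nat_lit 307) (nat_lit 1327)))))) (.a (.f (nat_lit 400) (nat_lit 432) (nat_lit 7503) (.f (nat_lit 401) (nat_lit 433) (nat_lit 4400) (.f (nat_lit 366) (nat_lit 365) (nat_lit 2381) (.d (nat_lit 402) (nat_lit 369) (nat_lit 366) (nat_lit 403) (nat_lit 3439))))) (.a (.f (nat_lit 400) (nat_lit 432) (nat_lit 7503) (.f (nat_lit 272) (nat_lit 240) (nat_lit 5359) (.d (nat_lit 273) (nat_lit 241) (nat_lit 6384) (nat_lit 305) (nat_lit 6416)))) (.f (nat_lit 272) (nat_lit 240) (nat_lit 5359) (.f (nat_lit 369) (nat_lit 401) (nat_lit 4368) (.f (nat_lit 370) (nat_lit 371) (nat_lit 3407) (.f (nat_lit 273) (nat_lit 241) (nat_lit 6384) (.d (nat_lit 402) (nat_lit 305) (nat_lit 4369) (nat_lit 403) (nat_lit 367))))))))))) (.a (.p (nat_lit 369) (.a (.d (nat_lit 370) (nat_lit 334) (nat_lit 334) (nat_lit 371) (nat_lit 3407)) (.a (.f (nat_lit 400) (nat_lit 432) (nat_lit 7503) (.f (nat_lit 305) (nat_lit 273) (nat_lit 5392) (.f (nat_lit 370) (nat_lit 371) (nat_lit 3407) (.f (nat_lit 402) (nat_lit 403) (nat_lit 367) (.d (nat_lit 401) (nat_lit 366) (nat_lit 366) (nat_lit 434) (nat_lit 4401)))))) (.f (nat_lit 400) (nat_lit 432) (nat_lit 6480) (.f (nat_lit 305) (nat_lit 273) (nat_lit 5392) (.f (nat_lit 306) (nat_lit 334) (nat_lit 2350) (.d (nat_lit 307) (nat_lit 304) (nat_lit 1327) (nat_lit 308) (nat_lit 1328)))))))) (.a (.p (nat_lit 369) (.a (.d (nat_lit 370) (nat_lit 334) (nat_lit 334) (nat_lit 371) (nat_lit 3407)) (.a (.f (nat_lit 400) (nat_lit 432) (nat_lit 7503) (.f (nat_lit 305) (nat_lit 273) (nat_lit 5392) (.f (nat_lit 370) (nat_lit 371) (nat_lit 3407) (.f (nat_lit 402) (nat_lit 403) (nat_lit 367) (.d (nat_lit 434) (nat_lit 401) (nat_lit 4401) (nat_lit 466) (nat_lit 7505)))))) (.f (nat_lit 400) (nat_lit 432) (nat_lit 6480) (.f (nat_lit 305) (nat_lit 273) (nat_lit 5392) (.f (nat_lit 306) (nat_lit 334) (nat_lit 2350) (.d (nat_lit 307) (nat_lit 304) (nat_lit 1327) (nat_lit 308) (nat_lit 1328)))))))) (.a (.p (nat_lit 305) (.a (.f (nat_lit 400) (nat_lit 432) (nat_lit 6448) (.d (nat_lit 273) (nat_lit 241) (nat_lit 5360) (nat_lit 304) (nat_lit 6416))) (.a (.f (nat_lit 400) (nat_lit 432) (nat_lit 7503) (.f (nat_lit 304) (nat_lit 273) (nat_lit 6416) (.d (nat_lit 306) (nat_lit 307) (nat_lit 1327) (nat_lit 334) (nat_lit 2350)))) (.a (.f (nat_lit 306) (nat_lit 334) (nat_lit 2350) (.d (nat_lit 307) (nat_lit 304) (nat_lit 1327) (nat_lit 308) (nat_lit 1328))) (.f (nat_lit 400) (nat_lit 432) (nat_lit 6448) (.f (nat_lit 334) (nat_lit 306) (nat_lit 2350) (.f (nat_lit 366) (nat_lit 365) (nat_lit 2381) (.f (nat_lit 271) (nat_lit 303) (nat_lit 4367) (.f (nat_lit 302) (nat_lit 301) (nat_lit 3373) (.d (nat_lit 270) (nat_lit 238) (nat_lit 4334) (nat_lit 239) (nat_lit 6382))))))))))) (.a (.p (nat_lit 369) (.a (.d (nat_lit 370) (nat_lit 334) (nat_lit 334) (nat_lit 371) (nat_lit 3407)) (.a (.f (nat_lit 370) (nat_lit 371) (nat_lit 3407) (.f (nat_lit 402) (nat_lit 403) (nat_lit 367) (.d (nat_lit 366) (nat_lit 365) (nat_lit 2381) (nat_lit 401) (nat_lit 366)))) (.f (nat_lit 366) (nat_lit 365) (nat_lit 2381) (.f (nat_lit 401) (nat_lit 402) (nat_lit 366) (.d (nat_lit 433) (nat_lit 304) (nat_lit 7472) (nat_lit 432) (nat_lit 5456))))))) (.p (nat_lit 369) (.a (.d (nat_lit 370) (nat_lit 334) (nat_lit 334) (nat_lit 371) (nat_lit 3407)) (.a (.f (nat_lit 370) (nat_lit 371) (nat_lit 3407) (.f (nat_lit 402) (nat_lit 403) (nat_lit 367) (.d (nat_lit 366) (nat_lit 365) (nat_lit 2381) (nat_lit 401) (nat_lit 366)))) (.f (nat_lit 366) (nat_lit 365) (nat_lit 2381) (.f (nat_lit 401) (nat_lit 402) (nat_lit 366) (.d (nat_lit 304) (nat_lit 272) (nat_lit 4368) (nat_lit 433) (nat_lit 7472)))))))))))))))) (.a (.p (nat_lit 338) (.a (.f (nat_lit 368) (nat_lit 339) (nat_lit 1359) (.f (nat_lit 400) (nat_lit 432) (nat_lit 7503) (.d (nat_lit 303) (nat_lit 271) (nat_lit 4367) (nat_lit 302) (nat_lit 3374)))) (.a (.f (nat_lit 339) (nat_lit 368) (nat_lit 1359) (.d (nat_lit 371) (nat_lit 370) (nat_lit 335) (nat_lit 372) (nat_lit 336))) (.f (nat_lit 370) (nat_lit 371) (nat_lit 335) (.f (nat_lit 306) (nat_lit 307) (nat_lit 2351) (.d (nat_lit 334) (nat_lit 305) (nat_lit 2350) (nat_lit 369) (nat_lit 334))))))) (.f (nat_lit 338) (nat_lit 366) (nat_lit 1358) (.f (nat_lit 306) (nat_lit 307) (nat_lit 2351) (.f (nat_lit 370) (nat_lit 371) (nat_lit 335) (.d (nat_lit 334) (nat_lit 305) (nat_lit 2350) (nat_lit 369) (nat_lit 334)))))))))) (.a (.p (nat_lit 369) (.a (.p (nat_lit 368) (.a (.f (nat_lit 338) (nat_lit 366) (nat_lit 2382) (.d (nat_lit 339) (nat_lit 340) (nat_lit 1360) (nat_lit 370) (nat_lit 2383))) (.a (.f (nat_lit 432) (nat_lit 400) (nat_lit 6480) (.f (nat_lit 401) (nat_lit 433) (nat_lit 5456) (.f (nat_lit 402) (nat_lit 366) (nat_lit 366) (.d (nat_lit 403) (nat_lit 370) (nat_lit 367) (nat_lit 404) (nat_lit 3440))))) (.a s76191 (.f (nat_lit 400) (nat_lit 432) (nat_lit 6480) (.f (nat_lit 366) (nat_lit 338) (nat_lit 2382) (.d (nat_lit 365) (nat_lit 336) (nat_lit 2381) (nat_lit 401) (nat_lit 365)))))))) (.a (.p (nat_lit 368) (.a (.f (nat_lit 338) (nat_lit 366) (nat_lit 2382) (.d (nat_lit 339) (nat_lit 340) (nat_lit 1360) (nat_lit 370) (nat_lit 2383))) (.a (.f (nat_lit 432) (nat_lit 400) (nat_lit 6480) (.f (nat_lit 401) (nat_lit 433) (nat_lit 5456) (.f (nat_lit 402) (nat_lit 366) (nat_lit 366) (.d (nat_lit 403) (nat_lit 370) (nat_lit 367) (nat_lit 404) (nat_lit 3440))))) (.a s76200 (.f (nat_lit 400) (nat_lit 432) (nat_lit 6480) (.f (nat_lit 366) (nat_lit 338) (nat_lit 2382) (.d (nat_lit 365) (nat_lit 336) (nat_lit 2381) (nat_lit 401) (nat_lit 365)))))))) (.a (.p (nat_lit 368) (.a (.f (nat_lit 338) (nat_lit 366) (nat_lit 2382) (.d (nat_lit 339) (nat_lit 340) (nat_lit 1360) (nat_lit 370) (nat_lit 2383))) (.a (.f (nat_lit 432) (nat_lit 400) (nat_lit 6480) (.f (nat_lit 401) (nat_lit 433) (nat_lit 5456) (.f (nat_lit 402) (nat_lit 366) (nat_lit 366) (.d (nat_lit 403) (nat_lit 370) (nat_lit 367) (nat_lit 404) (nat_lit 3440))))) (.a s76207 (.f (nat_lit 400) (nat_lit 432) (nat_lit 6480) (.f (nat_lit 366) (nat_lit 338) (nat_lit 2382) (.d (nat_lit 365) (nat_lit 336) (nat_lit 2381) (nat_lit 401) (nat_lit 365)))))))) (.a (.p (nat_lit 368) (.a (.f (nat_lit 338) (nat_lit 366) (nat_lit 2382) (.d (nat_lit 339) (nat_lit 340) (nat_lit 1360) (nat_lit 370) (nat_lit 2383))) (.a (.f (nat_lit 432) (nat_lit 400) (nat_lit 6480) (.f (nat_lit 401) (nat_lit 433) (nat_lit 5456) (.f (nat_lit 402) (nat_lit 366) (nat_lit 366) (.d (nat_lit 403) (nat_lit 370) (nat_lit 367) (nat_lit 404) (nat_lit 3440))))) (.a s76215 (.f (nat_lit 400) (nat_lit 432) (nat_lit 6480) (.f (nat_lit 366) (nat_lit 338) (nat_lit 2382) (.d (nat_lit 365) (nat_lit 336) (nat_lit 2381) (nat_lit 401) (nat_lit 365)))))))) (.a (.p (nat_lit 368) (.a (.f (nat_lit 338) (nat_lit 366) (nat_lit 2382) (.d (nat_lit 339) (nat_lit 340) (nat_lit 1360) (nat_lit 370) (nat_lit 2383))) (.a (.f (nat_lit 432) (nat_lit 400) (nat_lit 6480) (.f (nat_lit 401) (nat_lit 433) (nat_lit 5456) (.f (nat_lit 402) (nat_lit 366) (nat_lit 366) (.d (nat_lit 403) (nat_lit 370) (nat_lit 367) (nat_lit 404) (nat_lit 3440))))) (.a (.p (nat_lit 338) (.a (.d (nat_lit 339) (nat_lit 340) (nat_lit 1360) (nat_lit 370) (nat_lit 2383)) (.a (.f (nat_lit 400) (nat_lit 432) (nat_lit 6480) (.f (nat_lit 303) (nat_lit 271) (nat_lit 4367) (.f (nat_lit 336) (nat_lit 302) (nat_lit 3374) (.f (nat_lit 370) (nat_lit 371) (nat_lit 335) (.f (nat_lit 306) (nat_lit 307) (nat_lit 2351) (.d (nat_lit 274) (nat_lit 242) (nat_lit 5361) (nat_lit 401) (nat_lit 5393))))))) (.d (nat_lit 339) (nat_lit 336) (nat_lit 1359) (nat_lit 340) (nat_lit 1360))))) (.f (nat_lit 400) (nat_lit 432) (nat_lit 6480) (.f (nat_lit 366) (nat_lit 338) (nat_lit 2382) (.d (nat_lit 365) (nat_lit 336) (nat_lit 2381) (nat_lit 401) (nat_lit 365)))))))) (.a s76251 (.a s76287 (.a (.p (nat_lit 368) (.a (.f (nat_lit 432) (nat_lit 400) (nat_lit 6480) (.f (nat_lit 401) (nat_lit 433) (nat_lit 5456) (.f (nat_lit 402) (nat_lit 366) (nat_lit 366) (.d (nat_lit 403) (nat_lit 370) (nat_lit 367) (nat_lit 404) (nat_lit 3440))))) (.a s76300 (.a (.f (nat_lit 400) (nat_lit 432) (nat_lit 6480) (.f (nat_lit 366) (nat_lit 338) (nat_lit 2382) (.d (nat_lit 365) (nat_lit 336) (nat_lit 2381) (nat_lit 401) (nat_lit 365)))) (.a (.f (nat_lit 366) (nat_lit 338) (nat_lit 2382) (.f (nat_lit 336) (nat_lit 365) (nat_lit 2381) (.f (nat_lit 401) (nat_lit 402) (nat_lit 366) (.d (nat_lit 433) (nat_lit 304) (nat_lit 7472) (nat_lit 432) (nat_lit 5456))))) (.f (nat_lit 366) (nat_lit 338) (nat_lit 2382) (.f (nat_lit 365) (nat_lit 336) (nat_lit 2381) (.f (nat_lit 397) (nat_lit 396) (nat_lit 1388) (.d (nat_lit 333) (nat_lit 332) (nat_lit 3404) (nat_lit 429) (nat_lit 4429)))))))))) (.a (.p (nat_lit 368) (.a (.f (nat_lit 338) (nat_lit 366) (nat_lit 2382) (.d (nat_lit 339) (nat_lit 340) (nat_lit 1360) (nat_lit 370) (nat_lit 2383))) (.a (.f (nat_lit 432) (nat_lit 400) (nat_lit 6480) (.f (nat_lit 401) (nat_lit 433) (nat_lit 5456) (.f (nat_lit 402) (nat_lit 366) (nat_lit 366) (.d (nat_lit 403) (nat_lit 370) (nat_lit 367) (nat_lit 404) (nat_lit 3440))))) (.a s76191 (.f (nat_lit 338) (nat_lit 366) (nat_lit 2382) (.d (nat_lit 339) (nat_lit 336) (nat_lit 1359) (nat_lit 340) (nat_lit 1360))))))) (.a (.p (nat_lit 368) (.a s76191 (.a s76200 (.a s76207 (.a s76215 (.a (.p (nat_lit 338) (.a (.d (nat_lit 339) (nat_lit 340) (nat_lit 1360) (nat_lit 370) (nat_lit 2383)) (.a (.f (nat_lit 400) (nat_lit 432) (nat_lit 6480) (.f (nat_lit 303) (nat_lit 271) (nat_lit 4367) (.f (nat_lit 336) (nat_lit 302) (nat_lit 3374) (.f (nat_lit 370) (nat_lit 371) (nat_lit 335) (.f (nat_lit 306) (nat_lit 307) (nat_lit 2351) (.d (nat_lit 274) (nat_lit 242) (nat_lit 5361) (nat_lit 401) (nat_lit 5393))))))) (.d (nat_lit 339) (nat_lit 336) (nat_lit 1359) (nat_lit 340) (nat_lit 1360))))) (.a s76247 (.a s76319 (.a s76300 (.a s76331 (.a (.p (nat_lit 370) (.a (.f (nat_lit 338) (nat_lit 339) (nat_lit 2383) (.f (nat_lit 402) (nat_lit 403) (nat_lit 367) (.d (nat_lit 434) (nat_lit 305) (nat_lit 7473) (nat_lit 466) (nat_lit 7505)))) (.a (.f (nat_lit 338) (nat_lit 339) (nat_lit 2383) (.f (nat_lit 402) (nat_lit 403) (nat_lit 367) (.f (nat_lit 434) (nat_lit 466) (nat_lit 7505) (.f (nat_lit 433) (nat_lit 465) (nat_lit 5457) (.f (nat_lit 306) (nat_lit 401) (nat_lit 5425) (.f (nat_lit 274) (nat_lit 242) (nat_lit 5361) (.d (nat_lit 275) (nat_lit 243) (nat_lit 6386) (nat_lit 307) (nat_lit 6418)))))))) (.a (.f (nat_lit 371) (nat_lit 336) (nat_lit 3407) (.d (nat_lit 403) (nat_lit 402) (nat_lit 367) (nat_lit 404) (nat_lit 368))) (.f (nat_lit 338) (nat_lit 339) (nat_lit 2383) (.f (nat_lit 336) (nat_lit 371) (nat_lit 335) (.f (nat_lit 306) (nat_lit 307) (nat_lit 2351) (.d (nat_lit 274) (nat_lit 242) (nat_lit 5361) (nat_lit 401) (nat_lit 5393))))))))) (.p (nat_lit 370) (.a (.f (nat_lit 338) (nat_lit 339) (nat_lit 2383) (.f (nat_lit 402) (nat_lit 403) (nat_lit 367) (.d (nat_lit 434) (nat_lit 305) (nat_lit 7473) (nat_lit 466) (nat_lit 7505)))) (.a (.f (nat_lit 371) (nat_lit 336) (nat_lit 3407) (.d (nat_lit 403) (nat_lit 402) (nat_lit 367) (nat_lit 404) (nat_lit 368))) (.f (nat_lit 400) (nat_lit 432) (nat_lit 6480) (.f (nat_lit 336) (nat_lit 371) (nat_lit 3407) (.f (nat_lit 338) (nat_lit 339) (nat_lit 1359) (.d (nat_lit 303) (nat_lit 271) (nat_lit 4367) (nat_lit 302) (nat_lit 3374))))))))))))))))))) (.a (.p (nat_lit 401) (.a (.f (nat_lit 433) (nat_lit 432) (nat_lit 5456) (.f (nat_lit 434) (nat_lit 466) (nat_lit 4433) (.f (nat_lit 305) (nat_lit 402) (nat_lit 4401) (.d (nat_lit 304) (nat_lit 272) (nat_lit 7440) (nat_lit 336) (nat_lit 7472))))) (.a (.f (nat_lit 433) (nat_lit 432) (nat_lit 5456) (.f (nat_lit 338) (nat_lit 306) (nat_lit 6449) (.d (nat_lit 336) (nat_lit 304) (nat_lit 7472) (nat_lit 366) (nat_lit 1358)))) (.a (.f (nat_lit 433) (nat_lit 432) (nat_lit 5456) (.f (nat_lit 338) (nat_lit 306) (nat_lit 6449) (.f (nat_lit 370) (nat_lit 465) (nat_lit 6481) (.d (nat_lit 336) (nat_lit 366) (nat_lit 1358) (nat_lit 371) (nat_lit 335))))) (.a (.f (nat_lit 433) (nat_lit 432) (nat_lit 5456) (.f (nat_lit 434) (nat_lit 466) (nat_lit 4433) (.f (nat_lit 305) (nat_lit 402) (nat_lit 4401) (.d (nat_lit 306) (nat_lit 274) (nat_lit 6417) (nat_lit 338) (nat_lit 6449))))) (.a (.p (nat_lit 305) (.a (.f (nat_lit 304) (nat_lit 272) (nat_lit 7440) (.f (nat_lit 336) (nat_lit 433) (nat_lit 7472) (.d (nat_lit 306) (nat_lit 274) (nat_lit 6417) (nat_lit 307) (nat_lit 1327)))) (.a (.f (nat_lit 306) (nat_lit 274) (nat_lit 6417) (.f (nat_lit 338) (nat_lit 433) (nat_lit 6449) (.d (nat_lit 336) (nat_lit 307) (nat_lit 2351) (nat_lit 366) (nat_lit 1358)))) (.a (.f (nat_lit 304) (nat_lit 272) (nat_lit 7440) (.f (nat_lit 336) (nat_lit 433) (nat_lit 7472) (.f (nat_lit 338) (nat_lit 366) (nat_lit 1358) (.d (nat_lit 303) (nat_lit 302) (nat_lit 302) (nat_lit 339) (nat_lit 3375))))) (.f (nat_lit 402) (nat_lit 434) (nat_lit 4401) (.f (nat_lit 273) (nat_lit 370) (nat_lit 4369) (.d (nat_lit 274) (nat_lit 242) (nat_lit 6385) (nat_lit 306) (nat_lit 6417)))))))) (.p (nat_lit 305) (.a (.f (nat_lit 402) (nat_lit 434) (nat_lit 4401) (.f (nat_lit 273) (nat_lit 370) (nat_lit 4369) (.d (nat_lit 274) (nat_lit 242) (nat_lit 6385) (nat_lit 306) (nat_lit 6417)))) (.a (.f (nat_lit 272) (nat_lit 304) (nat_lit 7440) (.f (nat_lit 273) (nat_lit 240) (nat_lit 7408) (.d (nat_lit 402) (nat_lit 370) (nat_lit 4369) (nat_lit 434) (nat_lit 4401)))) (.a (.f (nat_lit 304) (nat_lit 272) (nat_lit 7440) (.f (nat_lit 306) (nat_lit 274) (nat_lit 6417) (.f (nat_lit 307) (nat_lit 336) (nat_lit 1327) (.f (nat_lit 339) (nat_lit 340) (nat_lit 304) (.f (nat_lit 338) (nat_lit 303) (nat_lit 303) (.f (nat_lit 275) (nat_lit 276) (nat_lit 2320) (.d (nat_lit 243) (nat_lit 211) (nat_lit 5330) (nat_lit 370) (nat_lit 5362)))))))) (.f (nat_lit 272) (nat_lit 304) (nat_lit 7440) (.f (nat_lit 273) (nat_lit 240) (nat_lit 7408) (.d (nat_lit 274) (nat_lit 242) (nat_lit 6385) (nat_lit 306) (nat_lit 6417)))))))))))))) (.a (.p (nat_lit 368) (.a (.f (nat_lit 400) (nat_lit 432) (nat_lit 6480) (.f (nat_lit 366) (nat_lit 338) (nat_lit 2382) (.d (nat_lit 365) (nat_lit 336) (nat_lit 2381) (nat_lit 401) (nat_lit 365)))) (.a (.f (nat_lit 400) (nat_lit 432) (nat_lit 7503) (.f (nat_lit 366) (nat_lit 338) (nat_lit 2382) (.d (nat_lit 401) (nat_lit 365) (nat_lit 365) (nat_lit 402) (nat_lit 366)))) (.a (.f (nat_lit 432) (nat_lit 400) (nat_lit 6480) (.f (nat_lit 401) (nat_lit 433) (nat_lit 5456) (.f (nat_lit 402) (nat_lit 366) (nat_lit 366) (.f (nat_lit 305) (nat_lit 434) (nat_lit 4401) (.f (nat_lit 272) (nat_lit 304) (nat_lit 7440) (.f (nat_lit 273) (nat_lit 240) (nat_lit 7408) (.d (nat_lit 274) (nat_lit 242) (nat_lit 6385) (nat_lit 306) (nat_lit 6417)))))))) (.a s76331 (.a (.f (nat_lit 366) (nat_lit 338) (nat_lit 2382) (.f (nat_lit 336) (nat_lit 365) (nat_lit 2381) (.f (nat_lit 401) (nat_lit 402) (nat_lit 366) (.d (nat_lit 433) (nat_lit 304) (nat_lit 7472) (nat_lit 432) (nat_lit 5456))))) (.f (nat_lit 366) (nat_lit 338) (nat_lit 2382) (.f (nat_lit 365) (nat_lit 336) (nat_lit 2381) (.f (nat_lit 397) (nat_lit 396) (nat_lit 1388) (.d (nat_lit 333) (nat_lit 332) (nat_lit 3404) (nat_lit 429) (nat_lit 4429))))))))))) (.a (.p (nat_lit 338) (.a (.d (nat_lit 366) (nat_lit 336) (nat_lit 1358) (nat_lit 368) (nat_lit 2382)) (.a (.f (nat_lit 368) (nat_lit 366) (nat_lit 2382) (.d (nat_lit 339) (nat_lit 340) (nat_lit 1360) (nat_lit 370) (nat_lit 2383))) (.a (.p (nat_lit 368) (.a (.d (nat_lit 339) (nat_lit 340) (nat_lit 1360) (nat_lit 370) (nat_lit 2383)) (.a (.f (nat_lit 400) (nat_lit 432) (nat_lit 7503) (.f (nat_lit 303) (nat_lit 271) (nat_lit 4367) (.f (nat_lit 336) (nat_lit 302) (nat_lit 3374) (.f (nat_lit 370) (nat_lit 371) (nat_lit 335) (.f (nat_lit 305) (nat_lit 273) (nat_lit 5392) (.d (nat_lit 402) (nat_lit 403) (nat_lit 367) (nat_lit 434) (nat_lit 7473))))))) (.d (nat_lit 339) (nat_lit 336) (nat_lit 1359) (nat_lit 340) (nat_lit 1360))))) (.f (nat_lit 336) (nat_lit 366) (nat_lit 1358) (.f (nat_lit 370) (nat_lit 371) (nat_lit 335) (.f (nat_lit 306) (nat_lit 307) (nat_lit 2351) (.f (nat_lit 274) (nat_lit 242) (nat_lit 5361) (.f (nat_lit 273) (nat_lit 241) (nat_lit 7409) (.f (nat_lit 305) (nat_lit 402) (nat_lit 4369) (.f (nat_lit 303) (nat_lit 302) (nat_lit 3374) (.d (nat_lit 275) (nat_lit 243) (nat_lit 6386) (nat_lit 304) (nat_lit 2319))))))))))))) (.a (.p (nat_lit 338) (.a (.d (nat_lit 366) (nat_lit 336) (nat_lit 1358) (nat_lit 368) (nat_lit 2382)) (.a (.f (nat_lit 368) (nat_lit 366) (nat_lit 2382) (.d (nat_lit 339) (nat_lit 340) (nat_lit 1360) (nat_lit 370) (nat_lit 2383))) (.a (.p (nat_lit 336) (.a (.f (nat_lit 368) (nat_lit 339) (nat_lit 1359) (.f (nat_lit 400) (nat_lit 432) (nat_lit 7503) (.d (nat_lit 303) (nat_lit 271) (nat_lit 4367) (nat_lit 302) (nat_lit 3374)))) (.a (.f (nat_lit 368) (nat_lit 339) (nat_lit 1359) (.f (nat_lit 400) (nat_lit 432) (nat_lit 7503) (.f (nat_lit 305) (nat_lit 273) (nat_lit 5392) (.f (nat_lit 306) (nat_lit 307) (nat_lit 2351) (.d (nat_lit 401) (nat_lit 274) (nat_lit 6417) (nat_lit 433) (nat_lit 6449)))))) (.f (nat_lit 306) (nat_lit 307) (nat_lit 2351) (.f (nat_lit 401) (nat_lit 433) (nat_lit 6449) (.d (nat_lit 274) (nat_lit 242) (nat_lit 5361) (nat_lit 305) (nat_lit 6417))))))) (.f (nat_lit 336) (nat_lit 366) (nat_lit 1358) (.f (nat_lit 306) (nat_lit 307) (nat_lit 2351) (.f (nat_lit 401) (nat_lit 433) (nat_lit 6449) (.d (nat_lit 274) (nat_lit 242) (nat_lit 5361) (nat_lit 305) (nat_lit 6417))))))))) (.p (nat_lit 338) (.a (.d (nat_lit 366) (nat_lit 336) (nat_lit 1358) (nat_lit 368) (nat_lit 2382)) (.a (.f (nat_lit 368) (nat_lit 366) (nat_lit 2382) (.d (nat_lit 339) (nat_lit 340) (nat_lit 1360) (nat_lit 370) (nat_lit 2383))) (.a (.p (nat_lit 336) (.a (.f (nat_lit 306) (nat_lit 307) (nat_lit 2351) (.f (nat_lit 401) (nat_lit 433) (nat_lit 6449) (.d (nat_lit 274) (nat_lit 242) (nat_lit 5361) (nat_lit 305) (nat_lit 6417)))) (.f (nat_lit 339) (nat_lit 368) (nat_lit 1359) (.d (nat_lit 371) (nat_lit 370) (nat_lit 335) (nat_lit 372) (nat_lit 336))))) (.f (nat_lit 336) (nat_lit 366) (nat_lit 1358) (.f (nat_lit 370) (nat_lit 371) (nat_lit 335) (.f (nat_lit 306) (nat_lit 307) (nat_lit 2351) (.f (nat_lit 274) (nat_lit 242) (nat_lit 5361) (.f (nat_lit 273) (nat_lit 241) (nat_lit 7409) (.f (nat_lit 305) (nat_lit 402) (nat_lit 4369) (.f (nat_lit 303) (nat_lit 302) (nat_lit 3374) (.d (nat_lit 275) (nat_lit 243) (nat_lit 6386) (nat_lit 304) (nat_lit 2319)))))))))))))))))))))))))))) (.a (.p (nat_lit 369) (.a s76251 (.a (.p (nat_lit 368) (.a (.f (nat_lit 338) (nat_lit 366) (nat_lit 2382) (.d (nat_lit 339) (nat_lit 340) (nat_lit 1360) (nat_lit 370) (nat_lit 2383))) (.a (.f (nat_lit 432) (nat_lit 400) (nat_lit 6480) (.f (nat_lit 401) (nat_lit 433) (nat_lit 5456) (.f (nat_lit 402) (nat_lit 366) (nat_lit 366) (.d (nat_lit 403) (nat_lit 370) (nat_lit 367) (nat_lit 404) (nat_lit 3440))))) (.a (.f (nat_lit 400) (nat_lit 432) (nat_lit 6480) (.f (nat_lit 370) (nat_lit 334) (nat_lit 3406) (.f (nat_lit 402) (nat_lit 403) (nat_lit 367) (.f (nat_lit 305) (nat_lit 273) (nat_lit 5392) (.d (nat_lit 434) (nat_lit 401) (nat_lit 4401) (nat_lit 466) (nat_lit 7505)))))) (.f (nat_lit 400) (nat_lit 432) (nat_lit 7503) (.f (nat_lit 366) (nat_lit 338) (nat_lit 2382) (.d (nat_lit 401) (nat_lit 365) (nat_lit 365) (nat_lit 402) (nat_lit 366)))))))) (.a (.p (nat_lit 368) (.a (.f (nat_lit 338) (nat_lit 366) (nat_lit 2382) (.d (nat_lit 339) (nat_lit 340) (nat_lit 1360) (nat_lit 370) (nat_lit 2383))) (.a (.f (nat_lit 432) (nat_lit 400) (nat_lit 6480) (.f (nat_lit 401) (nat_lit 433) (nat_lit 5456) (.f (nat_lit 402) (nat_lit 366) (nat_lit 366) (.d (nat_lit 403) (nat_lit 370) (nat_lit 367) (nat_lit 404) (nat_lit 3440))))) (.a (.f (nat_lit 432) (nat_lit 400) (nat_lit 6480) (.f (nat_lit 370) (nat_lit 334) (nat_lit 3406) (.f (nat_lit 401) (nat_lit 433) (nat_lit 5456) (.f (nat_lit 402) (nat_lit 403) (nat_lit 367) (.d (nat_lit 434) (nat_lit 305) (nat_lit 4401) (nat_lit 466) (nat_lit 7505)))))) (.f (nat_lit 400) (nat_lit 432) (nat_lit 7503) (.f (nat_lit 366) (nat_lit 338) (nat_lit 2382) (.d (nat_lit 401) (nat_lit 365) (nat_lit 365) (nat_lit 402) (nat_lit 366)))))))) (.a (.p (nat_lit 368) (.a (.f (nat_lit 338) (nat_lit 366) (nat_lit 2382) (.d (nat_lit 339) (nat_lit 340) (nat_lit 1360) (nat_lit 370) (nat_lit 2383))) (.a (.f (nat_lit 432) (nat_lit 400) (nat_lit 6480) (.f (nat_lit 401) (nat_lit 433) (nat_lit 5456) (.f (nat_lit 402) (nat_lit 366) (nat_lit 366) (.d (nat_lit 403) (nat_lit 370) (nat_lit 367) (nat_lit 404) (nat_lit 3440))))) (.a (.f (nat_lit 432) (nat_lit 400) (nat_lit 6480) (.f (nat_lit 370) (nat_lit 334) (nat_lit 3406) (.f (nat_lit 338) (nat_lit 339) (nat_lit 2383) (.f (nat_lit 433) (nat_lit 401) (nat_lit 5456) (.f (nat_lit 402) (nat_lit 403) (nat_lit 367) (.d (nat_lit 434) (nat_lit 465) (nat_lit 5457) (nat_lit 466) (nat_lit 7505))))))) (.f (nat_lit 400) (nat_lit 432) (nat_lit 7503) (.f (nat_lit 366) (nat_lit 338) (nat_lit 2382) (.d (nat_lit 401) (nat_lit 365) (nat_lit 365) (nat_lit 402) (nat_lit 366)))))))) (.a s76441 (.a (.p (nat_lit 401) (.a (.f (nat_lit 432) (nat_lit 433) (nat_lit 5456) (.d (nat_lit 400) (nat_lit 305) (nat_lit 5424) (nat_lit 368) (nat_lit 6480))) (.a (.f (nat_lit 433) (nat_lit 432) (nat_lit 5456) (.f (nat_lit 338) (nat_lit 306) (nat_lit 6449) (.f (nat_lit 370) (nat_lit 465) (nat_lit 6481) (.d (nat_lit 368) (nat_lit 334) (nat_lit 3406) (nat_lit 339) (nat_lit 2383))))) (.a (.f (nat_lit 433) (nat_lit 432) (nat_lit 5456) (.f (nat_lit 434) (nat_lit 466) (nat_lit 4433) (.f (nat_lit 305) (nat_lit 402) (nat_lit 4401) (.d (nat_lit 306) (nat_lit 274) (nat_lit 6417) (nat_lit 338) (nat_lit 6449))))) (.a (.p (nat_lit 305) (.a (.f (nat_lit 402) (nat_lit 434) (nat_lit 4401) (.f (nat_lit 273) (nat_lit 370) (nat_lit 4369) (.d (nat_lit 274) (nat_lit 242) (nat_lit 6385) (nat_lit 306) (nat_lit 6417)))) (.a (.f (nat_lit 272) (nat_lit 304) (nat_lit 7440) (.f (nat_lit 273) (nat_lit 240) (nat_lit 7408) (.d (nat_lit 402) (nat_lit 370) (nat_lit 4369) (nat_lit 434) (nat_lit 4401)))) (.f (nat_lit 306) (nat_lit 274) (nat_lit 6417) (.f (nat_lit 304) (nat_lit 272) (nat_lit 7440) (.f (nat_lit 338) (nat_lit 433) (nat_lit 6449) (.d (nat_lit 303) (nat_lit 302) (nat_lit 302) (nat_lit 334) (nat_lit 1326)))))))) (.p (nat_lit 305) (.a (.f (nat_lit 402) (nat_lit 434) (nat_lit 4401) (.f (nat_lit 273) (nat_lit 370) (nat_lit 4369) (.d (nat_lit 274) (nat_lit 242) (nat_lit 6385) (nat_lit 306) (nat_lit 6417)))) (.a (.f (nat_lit 272) (nat_lit 304) (nat_lit 7440) (.f (nat_lit 273) (nat_lit 240) (nat_lit 7408) (.d (nat_lit 402) (nat_lit 370) (nat_lit 4369) (nat_lit 434) (nat_lit 4401)))) (.a (.f (nat_lit 400) (nat_lit 432) (nat_lit 5424) (.f (nat_lit 402) (nat_lit 434) (nat_lit 4401) (.f (nat_lit 403) (nat_lit 368) (nat_lit 3439) (.f (nat_lit 372) (nat_lit 371) (nat_lit 2416) (.f (nat_lit 404) (nat_lit 373) (nat_lit 2417) (.d (nat_lit 436) (nat_lit 435) (nat_lit 400) (nat_lit 437) (nat_lit 401))))))) (.f (nat_lit 272) (nat_lit 304) (nat_lit 7440) (.f (nat_lit 273) (nat_lit 240) (nat_lit 7408) (.d (nat_lit 274) (nat_lit 242) (nat_lit 6385) (nat_lit 306) (nat_lit 6417))))))))))))) (.a (.p (nat_lit 401) (.a (.f (nat_lit 433) (nat_lit 432) (nat_lit 5456) (.f (nat_lit 434) (nat_lit 466) (nat_lit 4433) (.f (nat_lit 305) (nat_lit 402) (nat_lit 4401) (.d (nat_lit 306) (nat_lit 274) (nat_lit 6417) (nat_lit 338) (nat_lit 6449))))) (.a (.f (nat_lit 433) (nat_lit 432) (nat_lit 5456) (.f (nat_lit 434) (nat_lit 466) (nat_lit 4433) (.f (nat_lit 402) (nat_lit 305) (nat_lit 4401) (.f (nat_lit 338) (nat_lit 306) (nat_lit 6449) (.f (nat_lit 370) (nat_lit 465) (nat_lit 5457) (.f (nat_lit 435) (nat_lit 467) (nat_lit 4434) (.d (nat_lit 436) (nat_lit 400) (nat_lit 3472) (nat_lit 437) (nat_lit 3473)))))))) (.a (.f (nat_lit 433) (nat_lit 432) (nat_lit 5456) (.f (nat_lit 466) (nat_lit 434) (nat_lit 4433) (.f (nat_lit 465) (nat_lit 498) (nat_lit 4465) (.d (nat_lit 338) (nat_lit 306) (nat_lit 6449) (nat_lit 370) (nat_lit 6481))))) (.a (.f (nat_lit 432) (nat_lit 433) (nat_lit 5456) (.f (nat_lit 305) (nat_lit 400) (nat_lit 5424) (.f (nat_lit 402) (nat_lit 434) (nat_lit 4401) (.f (nat_lit 273) (nat_lit 370) (nat_lit 4369) (.d (nat_lit 272) (nat_lit 240) (nat_lit 7408) (nat_lit 304) (nat_lit 7440)))))) (.a (.p (nat_lit 305) (.a (.f (nat_lit 402) (nat_lit 434) (nat_lit 4401) (.f (nat_lit 273) (nat_lit 370) (nat_lit 4369) (.d (nat_lit 274) (nat_lit 242) (nat_lit 6385) (nat_lit 306) (nat_lit 6417)))) (.a (.f (nat_lit 272) (nat_lit 304) (nat_lit 7440) (.f (nat_lit 273) (nat_lit 240) (nat_lit 7408) (.d (nat_lit 402) (nat_lit 370) (nat_lit 4369) (nat_lit 434) (nat_lit 4401)))) (.f (nat_lit 306) (nat_lit 274) (nat_lit 6417) (.f (nat_lit 304) (nat_lit 272) (nat_lit 7440) (.f (nat_lit 338) (nat_lit 433) (nat_lit 6449) (.d (nat_lit 303) (nat_lit 302) (nat_lit 302) (nat_lit 334) (nat_lit 1326)))))))) (.a (.p (nat_lit 305) (.a (.f (nat_lit 402) (nat_lit 434) (nat_lit 4401) (.f (nat_lit 273) (nat_lit 370) (nat_lit 4369) (.d (nat_lit 274) (nat_lit 242) (nat_lit 6385) (nat_lit 306) (nat_lit 6417)))) (.a (.f (nat_lit 272) (nat_lit 304) (nat_lit 7440) (.f (nat_lit 273) (nat_lit 240) (nat_lit 7408) (.d (nat_lit 402) (nat_lit 370) (nat_lit 4369) (nat_lit 434) (nat_lit 4401)))) (.f (nat_lit 304) (nat_lit 272) (nat_lit 7440) (.f (nat_lit 306) (nat_lit 274) (nat_lit 6417) (.f (nat_lit 303) (nat_lit 334) (nat_lit 1326) (.d (nat_lit 338) (nat_lit 302) (nat_lit 302) (nat_lit 339) (nat_lit 303)))))))) (.f (nat_lit 432) (nat_lit 433) (nat_lit 5456) (.f (nat_lit 305) (nat_lit 400) (nat_lit 5424) (.f (nat_lit 274) (nat_lit 306) (nat_lit 6417) (.f (nat_lit 273) (nat_lit 242) (nat_lit 6385) (.d (nat_lit 272) (nat_lit 240) (nat_lit 7408) (nat_lit 304) (nat_lit 7440))))))))))))) (.a (.p (nat_lit 401) (.a (.f (nat_lit 432) (nat_lit 433) (nat_lit 5456) (.d (nat_lit 400) (nat_lit 305) (nat_lit 5424) (nat_lit 368) (nat_lit 6480))) (.a (.f (nat_lit 432) (nat_lit 433) (nat_lit 5456) (.f (nat_lit 368) (nat_lit 400) (nat_lit 6480) (.d (nat_lit 366) (nat_lit 338) (nat_lit 2382) (nat_lit 402) (nat_lit 366)))) (.a (.f (nat_lit 433) (nat_lit 432) (nat_lit 5456) (.f (nat_lit 434) (nat_lit 466) (nat_lit 4433) (.f (nat_lit 305) (nat_lit 402) (nat_lit 4401) (.d (nat_lit 306) (nat_lit 274) (nat_lit 6417) (nat_lit 338) (nat_lit 6449))))) (.a (.p (nat_lit 305) (.a (.f (nat_lit 272) (nat_lit 304) (nat_lit 7440) (.f (nat_lit 273) (nat_lit 240) (nat_lit 7408) (.d (nat_lit 274) (nat_lit 242) (nat_lit 6385) (nat_lit 306) (nat_lit 6417)))) (.a (.f (nat_lit 306) (nat_lit 274) (nat_lit 6417) (.f (nat_lit 304) (nat_lit 272) (nat_lit 7440) (.f (nat_lit 338) (nat_lit 433) (nat_lit 6449) (.d (nat_lit 303) (nat_lit 302) (nat_lit 302) (nat_lit 334) (nat_lit 1326))))) (.a (.f (nat_lit 306) (nat_lit 274) (nat_lit 6417) (.f (nat_lit 338) (nat_lit 433) (nat_lit 6449) (.f (nat_lit 368) (nat_lit 366) (nat_lit 2382) (.f (nat_lit 339) (nat_lit 340) (nat_lit 1360) (.f (nat_lit 303) (nat_lit 304) (nat_lit 303) (.d (nat_lit 400) (nat_lit 271) (nat_lit 4367) (nat_lit 273) (nat_lit 5392))))))) (.f (nat_lit 402) (nat_lit 434) (nat_lit 4401) (.f (nat_lit 368) (nat_lit 366) (nat_lit 366) (.d (nat_lit 400) (nat_lit 273) (nat_lit 5392) (nat_lit 403) (nat_lit 3439)))))))) (.p (nat_lit 368) (.a (.f (nat_lit 400) (nat_lit 432) (nat_lit 7503) (.d (nat_lit 366) (nat_lit 365) (nat_lit 365) (nat_lit 402) (nat_lit 366))) (.a (.f (nat_lit 400) (nat_lit 432) (nat_lit 7503) (.d (nat_lit 402) (nat_lit 366) (nat_lit 366) (nat_lit 403) (nat_lit 3439))) (.a (.f (nat_lit 400) (nat_lit 432) (nat_lit 7503) (.f (nat_lit 305) (nat_lit 273) (nat_lit 5392) (.d (nat_lit 402) (nat_lit 403) (nat_lit 3439) (nat_lit 434) (nat_lit 4401)))) (.a (.d (nat_lit 366) (nat_lit 338) (nat_lit 2382) (nat_lit 402) (nat_lit 366)) (.f (nat_lit 400) (nat_lit 432) (nat_lit 6480) (.d (nat_lit 366) (nat_lit 338) (nat_lit 2382) (nat_lit 365) (nat_lit 365))))))))))))) (.a (.p (nat_lit 368) (.a (.f (nat_lit 338) (nat_lit 366) (nat_lit 2382) (.d (nat_lit 339) (nat_lit 340) (nat_lit 1360) (nat_lit 370) (nat_lit 2383))) (.a (.f (nat_lit 370) (nat_lit 334) (nat_lit 3406) (.f (nat_lit 402) (nat_lit 403) (nat_lit 367) (.f (nat_lit 401) (nat_lit 366) (nat_lit 366) (.d (nat_lit 305) (nat_lit 273) (nat_lit 4369) (nat_lit 434) (nat_lit 4401))))) (.a (.f (nat_lit 370) (nat_lit 334) (nat_lit 3406) (.f (nat_lit 338) (nat_lit 339) (nat_lit 2383) (.f (nat_lit 402) (nat_lit 403) (nat_lit 367) (.d (nat_lit 305) (nat_lit 273) (nat_lit 4369) (nat_lit 434) (nat_lit 7473))))) (.f (nat_lit 366) (nat_lit 338) (nat_lit 2382) (.f (nat_lit 333) (nat_lit 334) (nat_lit 3405) (.f (nat_lit 365) (nat_lit 332) (nat_lit 3404) (.d (nat_lit 397) (nat_lit 396) (nat_lit 1388) (nat_lit 429) (nat_lit 4429))))))))) (.a (.p (nat_lit 368) (.a (.f (nat_lit 338) (nat_lit 366) (nat_lit 2382) (.d (nat_lit 339) (nat_lit 340) (nat_lit 1360) (nat_lit 370) (nat_lit 2383))) (.a (.f (nat_lit 334) (nat_lit 370) (nat_lit 3406) (.d (nat_lit 333) (nat_lit 332) (nat_lit 332) (nat_lit 366) (nat_lit 3405))) (.a (.f (nat_lit 370) (nat_lit 334) (nat_lit 3406) (.f (nat_lit 338) (nat_lit 339) (nat_lit 2383) (.f (nat_lit 402) (nat_lit 403) (nat_lit 367) (.d (nat_lit 305) (nat_lit 273) (nat_lit 4369) (nat_lit 434) (nat_lit 7473))))) (.f (nat_lit 366) (nat_lit 338) (nat_lit 2382) (.f (nat_lit 333) (nat_lit 334) (nat_lit 3405) (.f (nat_lit 365) (nat_lit 332) (nat_lit 3404) (.d (nat_lit 397) (nat_lit 396) (nat_lit 1388) (nat_lit 429) (nat_lit 4429))))))))) (.p (nat_lit 368) (.a (.f (nat_lit 338) (nat_lit 366) (nat_lit 2382) (.d (nat_lit 339) (nat_lit 340) (nat_lit 1360) (nat_lit 370) (nat_lit 2383))) (.a (.f (nat_lit 334) (nat_lit 370) (nat_lit 3406) (.d (nat_lit 333) (nat_lit 332) (nat_lit 332) (nat_lit 366) (nat_lit 3405))) (.a (.f (nat_lit 400) (nat_lit 432) (nat_lit 7503) (.f (nat_lit 370) (nat_lit 334) (nat_lit 3406) (.f (nat_lit 338) (nat_lit 339) (nat_lit 2383) (.f (nat_lit 305) (nat_lit 273) (nat_lit 5392) (.f (nat_lit 303) (nat_lit 271) (nat_lit 4367) (.f (nat_lit 304) (nat_lit 302) (nat_lit 302) (.f (nat_lit 401) (nat_lit 272) (nat_lit 7440) (.d (nat_lit 433) (nat_lit 306) (nat_lit 6449) (nat_lit 465) (nat_lit 6481))))))))) (.f (nat_lit 366) (nat_lit 338) (nat_lit 2382) (.f (nat_lit 333) (nat_lit 334) (nat_lit 3405) (.f (nat_lit 365) (nat_lit 332) (nat_lit 3404) (.d (nat_lit 397) (nat_lit 396) (nat_lit 1388) (nat_lit 429) (nat_lit 4429)))))))))))))))))))) (.a (.p (nat_lit 369) (.a s76287 (.a (.p (nat_lit 368) (.a (.f (nat_lit 432) (nat_lit 400) (nat_lit 6480) (.f (nat_lit 401) (nat_lit 433) (nat_lit 5456) (.f (nat_lit 402) (nat_lit 366) (nat_lit 366) (.d (nat_lit 403) (nat_lit 370) (nat_lit 367) (nat_lit 404) (nat_lit 3440))))) (.a (.f (nat_lit 400) (nat_lit 432) (nat_lit 6480) (.f (nat_lit 370) (nat_lit 334) (nat_lit 3406) (.f (nat_lit 402) (nat_lit 403) (nat_lit 367) (.f (nat_lit 305) (nat_lit 273) (nat_lit 5392) (.d (nat_lit 434) (nat_lit 401) (nat_lit 4401) (nat_lit 466) (nat_lit 7505)))))) (.a (.f (nat_lit 432) (nat_lit 400) (nat_lit 6480) (.f (nat_lit 401) (nat_lit 433) (nat_lit 5456) (.f (nat_lit 366) (nat_lit 402) (nat_lit 366) (.f (nat_lit 365) (nat_lit 336) (nat_lit 2381) (.d (nat_lit 333) (nat_lit 332) (nat_lit 3404) (nat_lit 334) (nat_lit 3405)))))) (.a (.f (nat_lit 370) (nat_lit 334) (nat_lit 3406) (.f (nat_lit 402) (nat_lit 403) (nat_lit 367) (.f (nat_lit 401) (nat_lit 366) (nat_lit 366) (.d (nat_lit 305) (nat_lit 273) (nat_lit 4369) (nat_lit 434) (nat_lit 4401))))) (.f (nat_lit 334) (nat_lit 370) (nat_lit 3406) (.d (nat_lit 333) (nat_lit 332) (nat_lit 332) (nat_lit 366) (nat_lit 3405)))))))) (.a (.p (nat_lit 368) (.a (.f (nat_lit 432) (nat_lit 400) (nat_lit 6480) (.f (nat_lit 401) (nat_lit 433) (nat_lit 5456) (.f (nat_lit 402) (nat_lit 366) (nat_lit 366) (.d (nat_lit 403) (nat_lit 370) (nat_lit 367) (nat_lit 404) (nat_lit 3440))))) (.a (.f (nat_lit 432) (nat_lit 400) (nat_lit 6480) (.f (nat_lit 370) (nat_lit 334) (nat_lit 3406) (.f (nat_lit 401) (nat_lit 433) (nat_lit 5456) (.f (nat_lit 402) (nat_lit 403) (nat_lit 367) (.d (nat_lit 434) (nat_lit 305) (nat_lit 4401) (nat_lit 466) (nat_lit 7505)))))) (.a (.f (nat_lit 432) (nat_lit 400) (nat_lit 6480) (.f (nat_lit 401) (nat_lit 433) (nat_lit 5456) (.f (nat_lit 366) (nat_lit 402) (nat_lit 366) (.f (nat_lit 365) (nat_lit 336) (nat_lit 2381) (.d (nat_lit 333) (nat_lit 332) (nat_lit 3404) (nat_lit 334) (nat_lit 3405)))))) (.f (nat_lit 334) (nat_lit 370) (nat_lit 3406) (.d (nat_lit 333) (nat_lit 332) (nat_lit 332) (nat_lit 366) (nat_lit 3405))))))) (.a (.p (nat_lit 368) (.a (.f (nat_lit 432) (nat_lit 400) (nat_lit 6480) (.f (nat_lit 401) (nat_lit 433) (nat_lit 5456) (.f (nat_lit 402) (nat_lit 366) (nat_lit 366) (.d (nat_lit 403) (nat_lit 370) (nat_lit 367) (nat_lit 404) (nat_lit 3440))))) (.a (.f (nat_lit 370) (nat_lit 334) (nat_lit 3406) (.f (nat_lit 371) (nat_lit 336) (nat_lit 3407) (.d (nat_lit 403) (nat_lit 402) (nat_lit 367) (nat_lit 404) (nat_lit 368)))) (.a (.f (nat_lit 432) (nat_lit 400) (nat_lit 6480) (.f (nat_lit 401) (nat_lit 433) (nat_lit 5456) (.f (nat_lit 366) (nat_lit 402) (nat_lit 366) (.f (nat_lit 365) (nat_lit 336) (nat_lit 2381) (.d (nat_lit 333) (nat_lit 332) (nat_lit 3404) (nat_lit 334) (nat_lit 3405)))))) (.f (nat_lit 334) (nat_lit 370) (nat_lit 3406) (.d (nat_lit 333) (nat_lit 332) (nat_lit 332) (nat_lit 366) (nat_lit 3405))))))) (.a s76441 (.a (.p (nat_lit 368) (.a s76319 (.a (.f (nat_lit 432) (nat_lit 400) (nat_lit 6480) (.f (nat_lit 370) (nat_lit 334) (nat_lit 3406) (.f (nat_lit 401) (nat_lit 433) (nat_lit 5456) (.f (nat_lit 402) (nat_lit 403) (nat_lit 367) (.d (nat_lit 434) (nat_lit 305) (nat_lit 4401) (nat_lit 466) (nat_lit 7505)))))) (.a (.f (nat_lit 370) (nat_lit 334) (nat_lit 3406) (.f (nat_lit 371) (nat_lit 336) (nat_lit 3407) (.d (nat_lit 403) (nat_lit 402) (nat_lit 367) (nat_lit 404) (nat_lit 368)))) s76541)))) (.a (.p (nat_lit 401) (.a (.f (nat_lit 433) (nat_lit 432) (nat_lit 5456) (.f (nat_lit 434) (nat_lit 466) (nat_lit 4433) (.f (nat_lit 305) (nat_lit 402) (nat_lit 4401) (.d (nat_lit 304) (nat_lit 272) (nat_lit 7440) (nat_lit 336) (nat_lit 7472))))) (.a (.f (nat_lit 433) (nat_lit 432) (nat_lit 5456) (.f (nat_lit 434) (nat_lit 466) (nat_lit 4433) (.f (nat_lit 336) (nat_lit 304) (nat_lit 7472) (.f (nat_lit 334) (nat_lit 370) (nat_lit 334) (.d (nat_lit 305) (nat_lit 306) (nat_lit 2350) (nat_lit 402) (nat_lit 4401)))))) (.a (.f (nat_lit 432) (nat_lit 433) (nat_lit 5456) (.f (nat_lit 305) (nat_lit 400) (nat_lit 5424) (.f (nat_lit 402) (nat_lit 434) (nat_lit 4401) (.f (nat_lit 273) (nat_lit 370) (nat_lit 4369) (.d (nat_lit 274) (nat_lit 242) (nat_lit 6385) (nat_lit 306) (nat_lit 6417)))))) (.a (.f (nat_lit 433) (nat_lit 432) (nat_lit 5456) (.f (nat_lit 336) (nat_lit 304) (nat_lit 7472) (.f (nat_lit 334) (nat_lit 370) (nat_lit 334) (.f (nat_lit 365) (nat_lit 366) (nat_lit 1357) (.f (nat_lit 333) (nat_lit 364) (nat_lit 1356) (.d (nat_lit 301) (nat_lit 300) (nat_lit 3372) (nat_lit 302) (nat_lit 3373))))))) (.a (.p (nat_lit 305) (.a (.f (nat_lit 304) (nat_lit 272) (nat_lit 7440) (.f (nat_lit 336) (nat_lit 433) (nat_lit 7472) (.d (nat_lit 306) (nat_lit 274) (nat_lit 6417) (nat_lit 307) (nat_lit 1327)))) (.a (.f (nat_lit 402) (nat_lit 434) (nat_lit 4401) (.f (nat_lit 273) (nat_lit 370) (nat_lit 4369) (.d (nat_lit 274) (nat_lit 242) (nat_lit 6385) (nat_lit 306) (nat_lit 6417)))) (.f (nat_lit 272) (nat_lit 304) (nat_lit 7440) (.f (nat_lit 273) (nat_lit 240) (nat_lit 7408) (.d (nat_lit 402) (nat_lit 370) (nat_lit 4369) (nat_lit 434) (nat_lit 4401))))))) (.p (nat_lit 305) (.a (.f (nat_lit 402) (nat_lit 434) (nat_lit 4401) (.f (nat_lit 273) (nat_lit 370) (nat_lit 4369) (.d (nat_lit 274) (nat_lit 242) (nat_lit 6385) (nat_lit 306) (nat_lit 6417)))) (.a (.f (nat_lit 272) (nat_lit 304) (nat_lit 7440) (.f (nat_lit 273) (nat_lit 240) (nat_lit 7408) (.d (nat_lit 402) (nat_lit 370) (nat_lit 4369) (nat_lit 434) (nat_lit 4401)))) (.f (nat_lit 306) (nat_lit 274) (nat_lit 6417) (.f (nat_lit 336) (nat_lit 334) (nat_lit 2350) (.d (nat_lit 307) (nat_lit 304) (nat_lit 1327) (nat_lit 308) (nat_lit 1328))))))))))))) (.a (.p (nat_lit 368) (.a (.f (nat_lit 432) (nat_lit 400) (nat_lit 6480) (.f (nat_lit 401) (nat_lit 433) (nat_lit 5456) (.f (nat_lit 402) (nat_lit 366) (nat_lit 366) (.f (nat_lit 305) (nat_lit 434) (nat_lit 4401) (.f (nat_lit 272) (nat_lit 304) (nat_lit 7440) (.f (nat_lit 273) (nat_lit 240) (nat_lit 7408) (.d (nat_lit 274) (nat_lit 242) (nat_lit 6385) (nat_lit 306) (nat_lit 6417)))))))) (.a (.f (nat_lit 432) (nat_lit 400) (nat_lit 6480) (.f (nat_lit 401) (nat_lit 433) (nat_lit 5456) (.f (nat_lit 366) (nat_lit 402) (nat_lit 366) (.f (nat_lit 365) (nat_lit 336) (nat_lit 2381) (.d (nat_lit 333) (nat_lit 332) (nat_lit 3404) (nat_lit 334) (nat_lit 3405)))))) (.a s76541 (.a (.p (nat_lit 336) (.a (.f (nat_lit 366) (nat_lit 365) (nat_lit 2381) (.f (nat_lit 401) (nat_lit 402) (nat_lit 366) (.d (nat_lit 433) (nat_lit 304) (nat_lit 7472) (nat_lit 432) (nat_lit 5456)))) (.a (.f (nat_lit 366) (nat_lit 365) (nat_lit 2381) (.f (nat_lit 401) (nat_lit 402) (nat_lit 366) (.d (nat_lit 433) (nat_lit 432) (nat_lit 5456) (nat_lit 465) (nat_lit 7504)))) (.a (.f (nat_lit 334) (nat_lit 333) (nat_lit 333) (.f (nat_lit 305) (nat_lit 306) (nat_lit 2350) (.f (nat_lit 273) (nat_lit 241) (nat_lit 5360) (.f (nat_lit 272) (nat_lit 240) (nat_lit 7408) (.f (nat_lit 401) (nat_lit 304) (nat_lit 4368) (.d (nat_lit 402) (nat_lit 366) (nat_lit 366) (nat_lit 434) (nat_lit 4401))))))) (.a (.f (nat_lit 334) (nat_lit 333) (nat_lit 333) (.f (nat_lit 305) (nat_lit 306) (nat_lit 2350) (.f (nat_lit 273) (nat_lit 241) (nat_lit 5360) (.f (nat_lit 272) (nat_lit 240) (nat_lit 7408) (.f (nat_lit 401) (nat_lit 304) (nat_lit 4368) (.d (nat_lit 433) (nat_lit 432) (nat_lit 5456) (nat_lit 465) (nat_lit 7504))))))) (.f (nat_lit 334) (nat_lit 333) (nat_lit 333) (.f (nat_lit 366) (nat_lit 365) (nat_lit 2381) (.f (nat_lit 302) (nat_lit 301) (nat_lit 3373) (.f (nat_lit 270) (nat_lit 238) (nat_lit 4334) (.f (nat_lit 271) (nat_lit 239) (nat_lit 6382) (.f (nat_lit 305) (nat_lit 306) (nat_lit 2350) (.f (nat_lit 269) (nat_lit 237) (nat_lit 7405) (.d (nat_lit 304) (nat_lit 272) (nat_lit 269) (nat_lit 303) (nat_lit 3341)))))))))))))) (.a (.p (nat_lit 334) (.a (.d (nat_lit 333) (nat_lit 332) (nat_lit 332) (nat_lit 336) (nat_lit 333)) (.a (.f (nat_lit 400) (nat_lit 432) (nat_lit 7503) (.f (nat_lit 336) (nat_lit 333) (nat_lit 333) (.d (nat_lit 305) (nat_lit 273) (nat_lit 5392) (nat_lit 306) (nat_lit 2350)))) (.a (.f (nat_lit 400) (nat_lit 432) (nat_lit 6480) (.f (nat_lit 305) (nat_lit 273) (nat_lit 5392) (.f (nat_lit 336) (nat_lit 306) (nat_lit 2350) (.f (nat_lit 366) (nat_lit 365) (nat_lit 2381) (.f (nat_lit 271) (nat_lit 303) (nat_lit 4367) (.f (nat_lit 302) (nat_lit 301) (nat_lit 3373) (.d (nat_lit 270) (nat_lit 238) (nat_lit 4334) (nat_lit 239) (nat_lit 6382)))))))) (.f (nat_lit 400) (nat_lit 432) (nat_lit 7503) (.f (nat_lit 305) (nat_lit 273) (nat_lit 5392) (.f (nat_lit 303) (nat_lit 271) (nat_lit 4367) (.f (nat_lit 304) (nat_lit 306) (nat_lit 1326) (.d (nat_lit 333) (nat_lit 302) (nat_lit 1325) (nat_lit 332) (nat_lit 332)))))))))) (.p (nat_lit 336) (.a (.f (nat_lit 366) (nat_lit 365) (nat_lit 2381) (.f (nat_lit 401) (nat_lit 402) (nat_lit 366) (.d (nat_lit 304) (nat_lit 272) (nat_lit 4368) (nat_lit 433) (nat_lit 7472)))) (.f (nat_lit 334) (nat_lit 333) (nat_lit 333) (.f (nat_lit 305) (nat_lit 306) (nat_lit 2350) (.d (nat_lit 273) (nat_lit 241) (nat_lit 5360) (nat_lit 400) (nat_lit 5392)))))))))))) (.a (.p (nat_lit 334) (.a (.d (nat_lit 370) (nat_lit 336) (nat_lit 334) (nat_lit 368) (nat_lit 3406)) (.a (.f (nat_lit 368) (nat_lit 370) (nat_lit 3406) (.d (nat_lit 333) (nat_lit 332) (nat_lit 332) (nat_lit 366) (nat_lit 3405))) (.a (.f (nat_lit 336) (nat_lit 370) (nat_lit 334) (.f (nat_lit 305) (nat_lit 306) (nat_lit 2350) (.f (nat_lit 304) (nat_lit 333) (nat_lit 2349) (.d (nat_lit 272) (nat_lit 240) (nat_lit 4336) (nat_lit 401) (nat_lit 7440))))) s76613)))) (.p (nat_lit 334) (.a (.d (nat_lit 370) (nat_lit 336) (nat_lit 334) (nat_lit 368) (nat_lit 3406)) (.a (.f (nat_lit 368) (nat_lit 370) (nat_lit 3406) (.d (nat_lit 333) (nat_lit 332) (nat_lit 332) (nat_lit 366) (nat_lit 3405))) (.a (.f (nat_lit 336) (nat_lit 370) (nat_lit 334) (.f (nat_lit 365) (nat_lit 366) (nat_lit 1357) (.f (nat_lit 333) (nat_lit 364) (nat_lit 1356) (.d (nat_lit 305) (nat_lit 304) (nat_lit 2349) (nat_lit 306) (nat_lit 2350))))) s76613)))))))))))))) (.a (.p (nat_lit 336) (.a s75974 (.a (.f (nat_lit 338) (nat_lit 366) (nat_lit 1358) (.f (nat_lit 306) (nat_lit 307) (nat_lit 2351) (.f (nat_lit 370) (nat_lit 371) (nat_lit 335) (.d (nat_lit 334) (nat_lit 305) (nat_lit 2350) (nat_lit 369) (nat_lit 334))))) (.a (.f (nat_lit 338) (nat_lit 366) (nat_lit 1358) (.f (nat_lit 370) (nat_lit 371) (nat_lit 335) (.f (nat_lit 369) (nat_lit 334) (nat_lit 334) (.f (nat_lit 306) (nat_lit 307) (nat_lit 2351) (.d (nat_lit 274) (nat_lit 242) (nat_lit 5361) (nat_lit 401) (nat_lit 5393)))))) (.a (.f (nat_lit 366) (nat_lit 338) (nat_lit 1358) (.d (nat_lit 365) (nat_lit 334) (nat_lit 1357) (nat_lit 364) (nat_lit 2380))) (.a (.f (nat_lit 366) (nat_lit 338) (nat_lit 1358) (.d (nat_lit 365) (nat_lit 364) (nat_lit 2380) (nat_lit 368) (nat_lit 2381))) (.p (nat_lit 334) (.a (.f (nat_lit 305) (nat_lit 306) (nat_lit 2350) (.f (nat_lit 369) (nat_lit 370) (nat_lit 334) (.f (nat_lit 304) (nat_lit 333) (nat_lit 2349) (.d (nat_lit 272) (nat_lit 240) (nat_lit 4336) (nat_lit 401) (nat_lit 7440))))) (.a (.f (nat_lit 369) (nat_lit 370) (nat_lit 334) (.f (nat_lit 368) (nat_lit 333) (nat_lit 333) (.f (nat_lit 400) (nat_lit 432) (nat_lit 6480) (.d (nat_lit 305) (nat_lit 273) (nat_lit 5392) (nat_lit 306) (nat_lit 2350))))) (.a (.f (nat_lit 369) (nat_lit 370) (nat_lit 334) (.f (nat_lit 333) (nat_lit 368) (nat_lit 333) (.d (nat_lit 301) (nat_lit 300) (nat_lit 3372) (nat_lit 302) (nat_lit 3373)))) (.f (nat_lit 302) (nat_lit 301) (nat_lit 3373) (.f (nat_lit 338) (nat_lit 303) (nat_lit 3374) (.d (nat_lit 306) (nat_lit 305) (nat_lit 2350) (nat_lit 307) (nat_lit 2351)))))))))))))) (.a (.p (nat_lit 336) (.a (.f (nat_lit 338) (nat_lit 366) (nat_lit 1358) (.f (nat_lit 368) (nat_lit 339) (nat_lit 1359) (.f (nat_lit 400) (nat_lit 432) (nat_lit 7503) (.d (nat_lit 303) (nat_lit 271) (nat_lit 4367) (nat_lit 302) (nat_lit 3374))))) (.a (.f (nat_lit 338) (nat_lit 366) (nat_lit 1358) (.f (nat_lit 339) (nat_lit 368) (nat_lit 1359) (.d (nat_lit 371) (nat_lit 370) (nat_lit 335) (nat_lit 372) (nat_lit 336)))) (.a (.p (nat_lit 334) (.a (.f (nat_lit 305) (nat_lit 306) (nat_lit 2350) (.f (nat_lit 369) (nat_lit 370) (nat_lit 334) (.f (nat_lit 304) (nat_lit 333) (nat_lit 2349) (.d (nat_lit 272) (nat_lit 240) (nat_lit 4336) (nat_lit 401) (nat_lit 7440))))) (.a (.f (nat_lit 369) (nat_lit 370) (nat_lit 334) (.f (nat_lit 368) (nat_lit 333) (nat_lit 333) (.f (nat_lit 400) (nat_lit 432) (nat_lit 6480) (.d (nat_lit 305) (nat_lit 273) (nat_lit 5392) (nat_lit 306) (nat_lit 2350))))) (.a (.f (nat_lit 369) (nat_lit 370) (nat_lit 334) (.f (nat_lit 368) (nat_lit 333) (nat_lit 333) (.f (nat_lit 400) (nat_lit 432) (nat_lit 7503) (.f (nat_lit 271) (nat_lit 303) (nat_lit 4367) (.f (nat_lit 302) (nat_lit 301) (nat_lit 3373) (.f (nat_lit 270) (nat_lit 238) (nat_lit 4334) (.f (nat_lit 366) (nat_lit 239) (nat_lit 6382) (.f (nat_lit 401) (nat_lit 402) (nat_lit 366) (.d (nat_lit 304) (nat_lit 272) (nat_lit 4368) (nat_lit 433) (nat_lit 4400)))))))))) (.a (.p (nat_lit 368) (.a (.f (nat_lit 369) (nat_lit 370) (nat_lit 334) (.f (nat_lit 400) (nat_lit 432) (nat_lit 7503) (.d (nat_lit 305) (nat_lit 273) (nat_lit 5392) (nat_lit 306) (nat_lit 2350)))) (.a (.f (nat_lit 369) (nat_lit 370) (nat_lit 334) (.f (nat_lit 400) (nat_lit 432) (nat_lit 7503) (.f (nat_lit 303) (nat_lit 271) (nat_lit 4367) (.f (nat_lit 302) (nat_lit 301) (nat_lit 3373) (.f (nat_lit 305) (nat_lit 306) (nat_lit 2350) (.f (nat_lit 270) (nat_lit 238) (nat_lit 4334) (.f (nat_lit 304) (nat_lit 269) (nat_lit 3341) (.d (nat_lit 272) (nat_lit 240) (nat_lit 4336) (nat_lit 401) (nat_lit 4368))))))))) (.a (.f (nat_lit 369) (nat_lit 370) (nat_lit 334) (.f (nat_lit 400) (nat_lit 432) (nat_lit 7503) (.f (nat_lit 271) (nat_lit 303) (nat_lit 4367) (.f (nat_lit 302) (nat_lit 301) (nat_lit 3373) (.f (nat_lit 270) (nat_lit 238) (nat_lit 4334) (.f (nat_lit 366) (nat_lit 239) (nat_lit 6382) (.f (nat_lit 401) (nat_lit 402) (nat_lit 366) (.d (nat_lit 304) (nat_lit 272) (nat_lit 4368) (nat_lit 433) (nat_lit 4400))))))))) (.a (.f (nat_lit 400) (nat_lit 432) (nat_lit 7503) (.f (nat_lit 305) (nat_lit 306) (nat_lit 2350) (.d (nat_lit 273) (nat_lit 241) (nat_lit 5360) (nat_lit 304) (nat_lit 6416)))) (.f (nat_lit 369) (nat_lit 370) (nat_lit 334) (.f (nat_lit 305) (nat_lit 306) (nat_lit 2350) (.f (nat_lit 273) (nat_lit 241) (nat_lit 5360) (.f (nat_lit 272) (nat_lit 240) (nat_lit 7408) (.f (nat_lit 401) (nat_lit 304) (nat_lit 4368) (.d (nat_lit 402) (nat_lit 366) (nat_lit 366) (nat_lit 434) (nat_lit 4401)))))))))))) (.f (nat_lit 305) (nat_lit 306) (nat_lit 2350) (.f (nat_lit 333) (nat_lit 304) (nat_lit 2349) (.d (nat_lit 301) (nat_lit 300) (nat_lit 3372) (nat_lit 302) (nat_lit 3373))))))))) (.a (.p (nat_lit 338) (.a (.f (nat_lit 368) (nat_lit 339) (nat_lit 1359) (.f (nat_lit 400) (nat_lit 432) (nat_lit 7503) (.d (nat_lit 303) (nat_lit 271) (nat_lit 4367) (nat_lit 302) (nat_lit 3374)))) (.a (.f (nat_lit 339) (nat_lit 368) (nat_lit 1359) (.d (nat_lit 371) (nat_lit 370) (nat_lit 335) (nat_lit 372) (nat_lit 336))) (.f (nat_lit 370) (nat_lit 371) (nat_lit 335) (.f (nat_lit 306) (nat_lit 307) (nat_lit 2351) (.d (nat_lit 334) (nat_lit 305) (nat_lit 2350) (nat_lit 369) (nat_lit 334))))))) (.f (nat_lit 338) (nat_lit 366) (nat_lit 1358) (.f (nat_lit 306) (nat_lit 307) (nat_lit 2351) (.f (nat_lit 370) (nat_lit 371) (nat_lit 335) (.d (nat_lit 334) (nat_lit 305) (nat_lit 2350) (nat_lit 369) (nat_lit 334)))))))))) (.a (.p (nat_lit 336) (.a (.p (nat_lit 338) (.a (.f (nat_lit 368) (nat_lit 339) (nat_lit 1359) (.f (nat_lit 400) (nat_lit 432) (nat_lit 7503) (.d (nat_lit 303) (nat_lit 271) (nat_lit 4367) (nat_lit 302) (nat_lit 3374)))) (.a (.f (nat_lit 339) (nat_lit 368) (nat_lit 1359) (.d (nat_lit 371) (nat_lit 370) (nat_lit 335) (nat_lit 372) (nat_lit 336))) (.f (nat_lit 370) (nat_lit 371) (nat_lit 335) (.f (nat_lit 306) (nat_lit 307) (nat_lit 2351) (.d (nat_lit 334) (nat_lit 305) (nat_lit 2350) (nat_lit 369) (nat_lit 334))))))) (.a (.p (nat_lit 338) (.a (.f (nat_lit 339) (nat_lit 368) (nat_lit 1359) (.d (nat_lit 371) (nat_lit 370) (nat_lit 335) (nat_lit 372) (nat_lit 336))) (.a (.f (nat_lit 370) (nat_lit 371) (nat_lit 335) (.f (nat_lit 306) (nat_lit 307) (nat_lit 2351) (.d (nat_lit 334) (nat_lit 305) (nat_lit 2350) (nat_lit 369) (nat_lit 334)))) (.f (nat_lit 339) (nat_lit 368) (nat_lit 1359) (.d (nat_lit 307) (nat_lit 306) (nat_lit 2351) (nat_lit 308) (nat_lit 2352)))))) (.a (.p (nat_lit 338) (.a (.f (nat_lit 368) (nat_lit 339) (nat_lit 1359) (.f (nat_lit 400) (nat_lit 432) (nat_lit 7503) (.d (nat_lit 303) (nat_lit 271) (nat_lit 4367) (nat_lit 302) (nat_lit 3374)))) (.a (.f (nat_lit 339) (nat_lit 368) (nat_lit 1359) (.d (nat_lit 371) (nat_lit 370) (nat_lit 335) (nat_lit 372) (nat_lit 336))) (.f (nat_lit 370) (nat_lit 371) (nat_lit 335) (.f (nat_lit 369) (nat_lit 334) (nat_lit 334) (.f (nat_lit 306) (nat_lit 307) (nat_lit 2351) (.d (nat_lit 274) (nat_lit 242) (nat_lit 5361) (nat_lit 401) (nat_lit 5393)))))))) (.a (.p (nat_lit 338) (.a (.f (nat_lit 368) (nat_lit 339) (nat_lit 1359) (.f (nat_lit 400) (nat_lit 432) (nat_lit 7503) (.d (nat_lit 303) (nat_lit 271) (nat_lit 4367) (nat_lit 302) (nat_lit 3374)))) (.a (.f (nat_lit 339) (nat_lit 368) (nat_lit 1359) (.d (nat_lit 371) (nat_lit 370) (nat_lit 335) (nat_lit 372) (nat_lit 336))) (.f (nat_lit 370) (nat_lit 371) (nat_lit 335) (.f (nat_lit 334) (nat_lit 369) (nat_lit 334) (.d (nat_lit 302) (nat_lit 301) (nat_lit 3373) (nat_lit 303) (nat_lit 3374))))))) (.a (.p (nat_lit 368) (.a (.f (nat_lit 400) (nat_lit 432) (nat_lit 7503) (.f (nat_lit 303) (nat_lit 271) (nat_lit 4367) (.d (nat_lit 338) (nat_lit 302) (nat_lit 3374) (nat_lit 339) (nat_lit 1359)))) (.a (.p (nat_lit 369) (.a (.f (nat_lit 400) (nat_lit 432) (nat_lit 7503) (.f (nat_lit 305) (nat_lit 273) (nat_lit 5392) (.f (nat_lit 370) (nat_lit 371) (nat_lit 3407) (.f (nat_lit 402) (nat_lit 403) (nat_lit 367) (.d (nat_lit 434) (nat_lit 401) (nat_lit 4401) (nat_lit 466) (nat_lit 7505)))))) (.a (.f (nat_lit 338) (nat_lit 339) (nat_lit 1359) (.f (nat_lit 370) (nat_lit 371) (nat_lit 3407) (.f (nat_lit 306) (nat_lit 307) (nat_lit 2351) (.d (nat_lit 274) (nat_lit 242) (nat_lit 5361) (nat_lit 401) (nat_lit 5393))))) (.a (.f (nat_lit 400) (nat_lit 432) (nat_lit 6480) (.f (nat_lit 338) (nat_lit 339) (nat_lit 1359) (.f (nat_lit 305) (nat_lit 273) (nat_lit 5392) (.f (nat_lit 306) (nat_lit 307) (nat_lit 2351) (.d (nat_lit 401) (nat_lit 274) (nat_lit 6417) (nat_lit 433) (nat_lit 6449)))))) (.f (nat_lit 338) (nat_lit 339) (nat_lit 1359) (.f (nat_lit 370) (nat_lit 371) (nat_lit 3407) (.f (nat_lit 402) (nat_lit 403) (nat_lit 367) (.d (nat_lit 305) (nat_lit 273) (nat_lit 4369) (nat_lit 434) (nat_lit 7473))))))))) (.a (.p (nat_lit 304) (.a (.f (nat_lit 400) (nat_lit 432) (nat_lit 7503) (.f (nat_lit 272) (nat_lit 240) (nat_lit 5359) (.d (nat_lit 401) (nat_lit 369) (nat_lit 4368) (nat_lit 433) (nat_lit 4400)))) (.a (.f (nat_lit 400) (nat_lit 432) (nat_lit 7503) (.f (nat_lit 401) (nat_lit 433) (nat_lit 4400) (.f (nat_lit 305) (nat_lit 273) (nat_lit 6416) (.f (nat_lit 369) (nat_lit 272) (nat_lit 7440) (.d (nat_lit 306) (nat_lit 274) (nat_lit 6417) (nat_lit 307) (nat_lit 1327)))))) (.a (.f (nat_lit 400) (nat_lit 432) (nat_lit 7503) (.f (nat_lit 303) (nat_lit 271) (nat_lit 7439) (.f (nat_lit 305) (nat_lit 273) (nat_lit 6416) (.f (nat_lit 306) (nat_lit 307) (nat_lit 1327) (.f (nat_lit 401) (nat_lit 433) (nat_lit 4400) (.d (nat_lit 274) (nat_lit 275) (nat_lit 2319) (nat_lit 369) (nat_lit 6417))))))) (.a (.f (nat_lit 400) (nat_lit 432) (nat_lit 7503) (.f (nat_lit 272) (nat_lit 240) (nat_lit 5359) (.d (nat_lit 273) (nat_lit 241) (nat_lit 6384) (nat_lit 305) (nat_lit 6416)))) (.f (nat_lit 272) (nat_lit 240) (nat_lit 5359) (.f (nat_lit 369) (nat_lit 401) (nat_lit 4368) (.f (nat_lit 370) (nat_lit 371) (nat_lit 3407) (.f (nat_lit 273) (nat_lit 241) (nat_lit 6384) (.d (nat_lit 402) (nat_lit 305) (nat_lit 4369) (nat_lit 403) (nat_lit 367))))))))))) (.f (nat_lit 338) (nat_lit 339) (nat_lit 1359) (.f (nat_lit 306) (nat_lit 307) (nat_lit 2351) (.f (nat_lit 303) (nat_lit 302) (nat_lit 3374) (.f (nat_lit 271) (nat_lit 239) (nat_lit 4335) (.f (nat_lit 272) (nat_lit 240) (nat_lit 6383) (.f (nat_lit 270) (nat_lit 238) (nat_lit 7406) (.d (nat_lit 305) (nat_lit 273) (nat_lit 270) (nat_lit 304) (nat_lit 3342)))))))))))) (.a (.p (nat_lit 334) (.a (.f (nat_lit 305) (nat_lit 306) (nat_lit 2350) (.f (nat_lit 369) (nat_lit 370) (nat_lit 334) (.f (nat_lit 304) (nat_lit 333) (nat_lit 2349) (.d (nat_lit 272) (nat_lit 240) (nat_lit 4336) (nat_lit 401) (nat_lit 7440))))) (.a (.f (nat_lit 369) (nat_lit 370) (nat_lit 334) (.f (nat_lit 368) (nat_lit 333) (nat_lit 333) (.f (nat_lit 400) (nat_lit 432) (nat_lit 6480) (.d (nat_lit 305) (nat_lit 273) (nat_lit 5392) (nat_lit 306) (nat_lit 2350))))) (.a (.f (nat_lit 369) (nat_lit 370) (nat_lit 334) (.f (nat_lit 333) (nat_lit 368) (nat_lit 333) (.d (nat_lit 301) (nat_lit 300) (nat_lit 3372) (nat_lit 302) (nat_lit 3373)))) (.a (.p (nat_lit 304) (.a (.f (nat_lit 369) (nat_lit 370) (nat_lit 334) (.f (nat_lit 272) (nat_lit 240) (nat_lit 5359) (.d (nat_lit 401) (nat_lit 368) (nat_lit 4368) (nat_lit 433) (nat_lit 7472)))) (.a (.f (nat_lit 305) (nat_lit 306) (nat_lit 2350) (.f (nat_lit 369) (nat_lit 370) (nat_lit 334) (.d (nat_lit 401) (nat_lit 272) (nat_lit 7440) (nat_lit 433) (nat_lit 7472)))) (.a (.f (nat_lit 305) (nat_lit 306) (nat_lit 2350) (.f (nat_lit 369) (nat_lit 370) (nat_lit 334) (.f (nat_lit 401) (nat_lit 433) (nat_lit 7472) (.f (nat_lit 400) (nat_lit 432) (nat_lit 5424) (.f (nat_lit 368) (nat_lit 273) (nat_lit 5392) (.d (nat_lit 402) (nat_lit 403) (nat_lit 3439) (nat_lit 434) (nat_lit 4401))))))) (.f (nat_lit 305) (nat_lit 306) (nat_lit 2350) (.f (nat_lit 302) (nat_lit 301) (nat_lit 3373) (.f (nat_lit 272) (nat_lit 240) (nat_lit 5359) (.f (nat_lit 270) (nat_lit 238) (nat_lit 4334) (.d (nat_lit 269) (nat_lit 271) (nat_lit 269) (nat_lit 303) (nat_lit 3341)))))))))) (.f (nat_lit 305) (nat_lit 306) (nat_lit 2350) (.f (nat_lit 333) (nat_lit 304) (nat_lit 2349) (.f (nat_lit 364) (nat_lit 365) (nat_lit 1356) (.f (nat_lit 332) (nat_lit 363) (nat_lit 1355) (.d (nat_lit 300) (nat_lit 299) (nat_lit 3371) (nat_lit 301) (nat_lit 3372))))))))))) (.a s76676 (.a (.p (nat_lit 338) (.a (.f (nat_lit 368) (nat_lit 339) (nat_lit 1359) (.f (nat_lit 400) (nat_lit 432) (nat_lit 7503) (.d (nat_lit 303) (nat_lit 271) (nat_lit 4367) (nat_lit 302) (nat_lit 3374)))) (.a (.f (nat_lit 339) (nat_lit 368) (nat_lit 1359) (.d (nat_lit 371) (nat_lit 370) (nat_lit 335) (nat_lit 372) (nat_lit 336))) (.f (nat_lit 306) (nat_lit 307) (nat_lit 2351) (.f (nat_lit 305) (nat_lit 334) (nat_lit 2350) (.f (nat_lit 370) (nat_lit 371) (nat_lit 335) (.d (nat_lit 273) (nat_lit 241) (nat_lit 4337) (nat_lit 402) (nat_lit 7441)))))))) (.p (nat_lit 338) (.a (.f (nat_lit 368) (nat_lit 339) (nat_lit 1359) (.f (nat_lit 400) (nat_lit 432) (nat_lit 7503) (.d (nat_lit 303) (nat_lit 271) (nat_lit 4367) (nat_lit 302) (nat_lit 3374)))) (.a (.f (nat_lit 339) (nat_lit 368) (nat_lit 1359) (.d (nat_lit 307) (nat_lit 306) (nat_lit 2351) (nat_lit 308) (nat_lit 2352))) (.f (nat_lit 306) (nat_lit 307) (nat_lit 2351) (.f (nat_lit 334) (nat_lit 305) (nat_lit 2350) (.d (nat_lit 302) (nat_lit 301) (nat_lit 3373) (nat_lit 303) (nat_lit 3374)))))))))))))))) (.a (.p (nat_lit 336) (.a (.f (nat_lit 338) (nat_lit 366) (nat_lit 1358) (.f (nat_lit 306) (nat_lit 307) (nat_lit 2351) (.f (nat_lit 370) (nat_lit 371) (nat_lit 335) (.d (nat_lit 334) (nat_lit 305) (nat_lit 2350) (nat_lit 369) (nat_lit 334))))) (.a (.f (nat_lit 338) (nat_lit 366) (nat_lit 1358) (.f (nat_lit 303) (nat_lit 302) (nat_lit 3374) (.f (nat_lit 339) (nat_lit 304) (nat_lit 3375) (.d (nat_lit 307) (nat_lit 306) (nat_lit 2351) (nat_lit 308) (nat_lit 2352))))) (.a (.f (nat_lit 338) (nat_lit 366) (nat_lit 1358) (.f (nat_lit 303) (nat_lit 302) (nat_lit 3374) (.f (nat_lit 304) (nat_lit 339) (nat_lit 3375) (.f (nat_lit 272) (nat_lit 240) (nat_lit 5359) (.f (nat_lit 370) (nat_lit 371) (nat_lit 335) (.f (nat_lit 369) (nat_lit 334) (nat_lit 334) (.d (nat_lit 401) (nat_lit 305) (nat_lit 7440) (nat_lit 433) (nat_lit 7472)))))))) (.a s76023 s76676))))) (.a (.p (nat_lit 336) (.a (.f (nat_lit 338) (nat_lit 366) (nat_lit 1358) (.f (nat_lit 368) (nat_lit 339) (nat_lit 1359) (.f (nat_lit 400) (nat_lit 432) (nat_lit 7503) (.d (nat_lit 303) (nat_lit 271) (nat_lit 4367) (nat_lit 302) (nat_lit 3374))))) (.a (.f (nat_lit 338) (nat_lit 366) (nat_lit 1358) (.f (nat_lit 339) (nat_lit 368) (nat_lit 1359) (.d (nat_lit 371) (nat_lit 370) (nat_lit 335) (nat_lit 372) (nat_lit 336)))) (.a s76688 (.p (nat_lit 338) (.a (.f (nat_lit 368) (nat_lit 339) (nat_lit 1359) (.f (nat_lit 400) (nat_lit 432) (nat_lit 7503) (.d (nat_lit 303) (nat_lit 271) (nat_lit 4367) (nat_lit 302) (nat_lit 3374)))) (.a (.f (nat_lit 339) (nat_lit 368) (nat_lit 1359) (.d (nat_lit 371) (nat_lit 370) (nat_lit 335) (nat_lit 372) (nat_lit 336))) (.f (nat_lit 306) (nat_lit 307) (nat_lit 2351) (.f (nat_lit 305) (nat_lit 334) (nat_lit 2350) (.f (nat_lit 370) (nat_lit 371) (nat_lit 335) (.d (nat_lit 273) (nat_lit 241) (nat_lit 4337) (nat_lit 402) (nat_lit 7441)))))))))))) (.p (nat_lit 336) (.a (.f (nat_lit 338) (nat_lit 366) (nat_lit 1358) (.f (nat_lit 368) (nat_lit 339) (nat_lit 1359) (.f (nat_lit 400) (nat_lit 432) (nat_lit 7503) (.d (nat_lit 303) (nat_lit 271) (nat_lit 4367) (nat_lit 302) (nat_lit 3374))))) (.a (.f (nat_lit 338) (nat_lit 366) (nat_lit 1358) (.f (nat_lit 339) (nat_lit 368) (nat_lit 1359) (.d (nat_lit 307) (nat_lit 306) (nat_lit 2351) (nat_lit 308) (nat_lit 2352)))) (.a s76688 (.p (nat_lit 338) (.a (.f (nat_lit 368) (nat_lit 339) (nat_lit 1359) (.f (nat_lit 400) (nat_lit 432) (nat_lit 7503) (.d (nat_lit 303) (nat_lit 271) (nat_lit 4367) (nat_lit 302) (nat_lit 3374)))) (.a (.f (nat_lit 339) (nat_lit 368) (nat_lit 1359) (.d (nat_lit 307) (nat_lit 306) (nat_lit 2351) (nat_lit 308) (nat_lit 2352))) (.f (nat_lit 306) (nat_lit 307) (nat_lit 2351) (.f (nat_lit 334) (nat_lit 305) (nat_lit 2350) (.d (nat_lit 302) (nat_lit 301) (nat_lit 3373) (nat_lit 303) (nat_lit 3374)))))))))))))))))))))))))))))) (.f (nat_lit 399) (nat_lit 431) (nat_lit 5454) (.p (nat_lit 334) (.a s75504 (.a (.p (nat_lit 333) (.a (.f (nat_lit 332) (nat_lit 368) (nat_lit 332) (.f (nat_lit 303) (nat_lit 304) (nat_lit 2348) (.d (nat_lit 331) (nat_lit 302) (nat_lit 2347) (nat_lit 366) (nat_lit 331)))) (.a (.f (nat_lit 332) (nat_lit 368) (nat_lit 332) (.f (nat_lit 331) (nat_lit 366) (nat_lit 331) (.d (nat_lit 363) (nat_lit 362) (nat_lit 1354) (nat_lit 364) (nat_lit 1355)))) (.a (.f (nat_lit 368) (nat_lit 332) (nat_lit 332) (.d (nat_lit 369) (nat_lit 336) (nat_lit 333) (nat_lit 366) (nat_lit 3405))) (.a (.p (nat_lit 336) (.a (.f (nat_lit 365) (nat_lit 364) (nat_lit 1356) (.f (nat_lit 337) (nat_lit 366) (nat_lit 1357) (.d (nat_lit 369) (nat_lit 368) (nat_lit 333) (nat_lit 370) (nat_lit 334)))) (.a (.f (nat_lit 304) (nat_lit 305) (nat_lit 2349) (.d (nat_lit 272) (nat_lit 240) (nat_lit 5359) (nat_lit 368) (nat_lit 5391))) (.f (nat_lit 365) (nat_lit 364) (nat_lit 1356) (.f (nat_lit 337) (nat_lit 366) (nat_lit 1357) (.d (nat_lit 301) (nat_lit 300) (nat_lit 3372) (nat_lit 302) (nat_lit 3373))))))) (.a (.f (nat_lit 332) (nat_lit 368) (nat_lit 332) (.f (nat_lit 303) (nat_lit 304) (nat_lit 2348) (.d (nat_lit 302) (nat_lit 270) (nat_lit 7438) (nat_lit 331) (nat_lit 2347)))) (.p (nat_lit 332) (.a (.f (nat_lit 303) (nat_lit 304) (nat_lit 2348) (.d (nat_lit 331) (nat_lit 302) (nat_lit 2347) (nat_lit 366) (nat_lit 331))) (.a (.f (nat_lit 331) (nat_lit 366) (nat_lit 331) (.d (nat_lit 363) (nat_lit 362) (nat_lit 1354) (nat_lit 364) (nat_lit 1355))) (.f (nat_lit 303) (nat_lit 304) (nat_lit 2348) (.f (nat_lit 302) (nat_lit 270) (nat_lit 7438) (.f (nat_lit 300) (nat_lit 299) (nat_lit 3371) (.f (nat_lit 301) (nat_lit 336) (nat_lit 300) (.f (nat_lit 364) (nat_lit 363) (nat_lit 1355) (.d (nat_lit 269) (nat_lit 237) (nat_lit 5356) (nat_lit 396) (nat_lit 6412)))))))))))))))) (.a (.p (nat_lit 333) (.a (.f (nat_lit 332) (nat_lit 368) (nat_lit 332) (.f (nat_lit 303) (nat_lit 304) (nat_lit 2348) (.d (nat_lit 331) (nat_lit 302) (nat_lit 2347) (nat_lit 366) (nat_lit 331)))) (.a (.f (nat_lit 332) (nat_lit 368) (nat_lit 332) (.f (nat_lit 331) (nat_lit 366) (nat_lit 331) (.d (nat_lit 363) (nat_lit 362) (nat_lit 1354) (nat_lit 364) (nat_lit 1355)))) (.a (.f (nat_lit 368) (nat_lit 332) (nat_lit 332) (.d (nat_lit 369) (nat_lit 336) (nat_lit 333) (nat_lit 366) (nat_lit 3405))) (.a (.p (nat_lit 336) (.a (.f (nat_lit 365) (nat_lit 364) (nat_lit 1356) (.f (nat_lit 337) (nat_lit 366) (nat_lit 1357) (.d (nat_lit 369) (nat_lit 368) (nat_lit 333) (nat_lit 370) (nat_lit 334)))) (.a (.f (nat_lit 368) (nat_lit 369) (nat_lit 333) (.d (nat_lit 304) (nat_lit 272) (nat_lit 5391) (nat_lit 305) (nat_lit 2349))) (.f (nat_lit 365) (nat_lit 364) (nat_lit 1356) (.f (nat_lit 337) (nat_lit 366) (nat_lit 1357) (.d (nat_lit 301) (nat_lit 300) (nat_lit 3372) (nat_lit 302) (nat_lit 3373))))))) (.a (.f (nat_lit 332) (nat_lit 368) (nat_lit 332) (.f (nat_lit 303) (nat_lit 304) (nat_lit 2348) (.d (nat_lit 302) (nat_lit 270) (nat_lit 7438) (nat_lit 331) (nat_lit 2347)))) (.p (nat_lit 332) (.a (.f (nat_lit 303) (nat_lit 304) (nat_lit 2348) (.d (nat_lit 331) (nat_lit 302) (nat_lit 2347) (nat_lit 366) (nat_lit 331))) (.a (.f (nat_lit 331) (nat_lit 366) (nat_lit 331) (.d (nat_lit 363) (nat_lit 362) (nat_lit 1354) (nat_lit 364) (nat_lit 1355))) (.f (nat_lit 303) (nat_lit 304) (nat_lit 2348) (.f (nat_lit 302) (nat_lit 270) (nat_lit 7438) (.f (nat_lit 300) (nat_lit 299) (nat_lit 3371) (.f (nat_lit 301) (nat_lit 336) (nat_lit 300) (.f (nat_lit 364) (nat_lit 363) (nat_lit 1355) (.d (nat_lit 269) (nat_lit 237) (nat_lit 5356) (nat_lit 396) (nat_lit 6412)))))))))))))))) (.a (.p (nat_lit 333) (.a (.f (nat_lit 332) (nat_lit 368) (nat_lit 332) (.f (nat_lit 303) (nat_lit 304) (nat_lit 2348) (.d (nat_lit 331) (nat_lit 302) (nat_lit 2347) (nat_lit 366) (nat_lit 331)))) (.a (.f (nat_lit 332) (nat_lit 368) (nat_lit 332) (.f (nat_lit 331) (nat_lit 366) (nat_lit 331) (.d (nat_lit 363) (nat_lit 362) (nat_lit 1354) (nat_lit 364) (nat_lit 1355)))) (.a (.f (nat_lit 368) (nat_lit 332) (nat_lit 332) (.d (nat_lit 369) (nat_lit 336) (nat_lit 333) (nat_lit 366) (nat_lit 3405))) (.a (.p (nat_lit 336) (.a (.f (nat_lit 365) (nat_lit 364) (nat_lit 1356) (.f (nat_lit 337) (nat_lit 366) (nat_lit 1357) (.d (nat_lit 369) (nat_lit 368) (nat_lit 333) (nat_lit 370) (nat_lit 334)))) (.a (.f (nat_lit 304) (nat_lit 305) (nat_lit 2349) (.d (nat_lit 272) (nat_lit 240) (nat_lit 5359) (nat_lit 368) (nat_lit 5391))) (.f (nat_lit 365) (nat_lit 364) (nat_lit 1356) (.f (nat_lit 337) (nat_lit 366) (nat_lit 1357) (.d (nat_lit 301) (nat_lit 300) (nat_lit 3372) (nat_lit 302) (nat_lit 3373))))))) (.a (.f (nat_lit 332) (nat_lit 368) (nat_lit 332) (.f (nat_lit 303) (nat_lit 304) (nat_lit 2348) (.f (nat_lit 331) (nat_lit 302) (nat_lit 2347) (.d (nat_lit 363) (nat_lit 362) (nat_lit 1354) (nat_lit 364) (nat_lit 1355))))) (.p (nat_lit 332) (.a (.f (nat_lit 303) (nat_lit 304) (nat_lit 2348) (.d (nat_lit 331) (nat_lit 302) (nat_lit 2347) (nat_lit 366) (nat_lit 331))) (.a (.f (nat_lit 331) (nat_lit 366) (nat_lit 331) (.d (nat_lit 363) (nat_lit 362) (nat_lit 1354) (nat_lit 364) (nat_lit 1355))) (.f (nat_lit 304) (nat_lit 303) (nat_lit 2348) (.f (nat_lit 336) (nat_lit 305) (nat_lit 2349) (.d (nat_lit 364) (nat_lit 363) (nat_lit 1355) (nat_lit 365) (nat_lit 1356))))))))))))) (.a (.p (nat_lit 333) (.a (.f (nat_lit 332) (nat_lit 368) (nat_lit 332) (.f (nat_lit 303) (nat_lit 304) (nat_lit 2348) (.d (nat_lit 331) (nat_lit 302) (nat_lit 2347) (nat_lit 366) (nat_lit 331)))) (.a (.f (nat_lit 332) (nat_lit 368) (nat_lit 332) (.f (nat_lit 331) (nat_lit 366) (nat_lit 331) (.d (nat_lit 363) (nat_lit 362) (nat_lit 1354) (nat_lit 364) (nat_lit 1355)))) (.a (.f (nat_lit 368) (nat_lit 332) (nat_lit 332) (.d (nat_lit 369) (nat_lit 336) (nat_lit 333) (nat_lit 366) (nat_lit 3405))) (.a (.p (nat_lit 336) (.a (.f (nat_lit 365) (nat_lit 364) (nat_lit 1356) (.f (nat_lit 337) (nat_lit 366) (nat_lit 1357) (.d (nat_lit 369) (nat_lit 368) (nat_lit 333) (nat_lit 370) (nat_lit 334)))) (.a (.f (nat_lit 365) (nat_lit 364) (nat_lit 1356) (.f (nat_lit 397) (nat_lit 429) (nat_lit 4429) (.f (nat_lit 301) (nat_lit 300) (nat_lit 3372) (.f (nat_lit 368) (nat_lit 369) (nat_lit 333) (.d (nat_lit 396) (nat_lit 366) (nat_lit 1388) (nat_lit 428) (nat_lit 5420)))))) (.f (nat_lit 301) (nat_lit 300) (nat_lit 3372) (.f (nat_lit 337) (nat_lit 302) (nat_lit 3373) (.d (nat_lit 305) (nat_lit 304) (nat_lit 2349) (nat_lit 306) (nat_lit 2350))))))) (.a (.f (nat_lit 332) (nat_lit 368) (nat_lit 332) (.f (nat_lit 303) (nat_lit 304) (nat_lit 2348) (.d (nat_lit 302) (nat_lit 270) (nat_lit 7438) (nat_lit 331) (nat_lit 2347)))) (.p (nat_lit 332) (.a (.f (nat_lit 303) (nat_lit 304) (nat_lit 2348) (.d (nat_lit 331) (nat_lit 302) (nat_lit 2347) (nat_lit 366) (nat_lit 331))) (.a (.f (nat_lit 331) (nat_lit 366) (nat_lit 331) (.d (nat_lit 363) (nat_lit 362) (nat_lit 1354) (nat_lit 364) (nat_lit 1355))) (.f (nat_lit 303) (nat_lit 304) (nat_lit 2348) (.f (nat_lit 302) (nat_lit 270) (nat_lit 7438) (.f (nat_lit 300) (nat_lit 299) (nat_lit 3371) (.f (nat_lit 301) (nat_lit 336) (nat_lit 300) (.f (nat_lit 364) (nat_lit 363) (nat_lit 1355) (.d (nat_lit 269) (nat_lit 237) (nat_lit 5356) (nat_lit 396) (nat_lit 6412)))))))))))))))) (.a (.p (nat_lit 333) (.a (.f (nat_lit 332) (nat_lit 368) (nat_lit 332) (.f (nat_lit 331) (nat_lit 366) (nat_lit 331) (.d (nat_lit 363) (nat_lit 362) (nat_lit 1354) (nat_lit 364) (nat_lit 1355)))) (.a (.f (nat_lit 368) (nat_lit 332) (nat_lit 332) (.d (nat_lit 369) (nat_lit 336) (nat_lit 333) (nat_lit 366) (nat_lit 3405))) (.a (.p (nat_lit 336) (.a (.f (nat_lit 365) (nat_lit 364) (nat_lit 1356) (.f (nat_lit 337) (nat_lit 366) (nat_lit 1357) (.d (nat_lit 369) (nat_lit 368) (nat_lit 333) (nat_lit 370) (nat_lit 334)))) (.a (.f (nat_lit 304) (nat_lit 305) (nat_lit 2349) (.d (nat_lit 272) (nat_lit 240) (nat_lit 5359) (nat_lit 368) (nat_lit 5391))) (.f (nat_lit 365) (nat_lit 364) (nat_lit 1356) (.f (nat_lit 337) (nat_lit 366) (nat_lit 1357) (.d (nat_lit 305) (nat_lit 304) (nat_lit 2349) (nat_lit 306) (nat_lit 2350))))))) (.a (.f (nat_lit 332) (nat_lit 368) (nat_lit 332) (.f (nat_lit 304) (nat_lit 303) (nat_lit 2348) (.f (nat_lit 336) (nat_lit 305) (nat_lit 2349) (.d (nat_lit 364) (nat_lit 363) (nat_lit 1355) (nat_lit 365) (nat_lit 1356))))) (.p (nat_lit 332) (.a (.f (nat_lit 331) (nat_lit 366) (nat_lit 331) (.d (nat_lit 363) (nat_lit 362) (nat_lit 1354) (nat_lit 364) (nat_lit 1355))) (.a (.f (nat_lit 304) (nat_lit 303) (nat_lit 2348) (.f (nat_lit 336) (nat_lit 305) (nat_lit 2349) (.d (nat_lit 364) (nat_lit 363) (nat_lit 1355) (nat_lit 365) (nat_lit 1356)))) (.f (nat_lit 304) (nat_lit 303) (nat_lit 2348) (.f (nat_lit 336) (nat_lit 305) (nat_lit 2349) (.d (nat_lit 300) (nat_lit 299) (nat_lit 3371) (nat_lit 301) (nat_lit 3372)))))))))))) (.a (.p (nat_lit 333) (.a (.f (nat_lit 332) (nat_lit 368) (nat_lit 332) (.f (nat_lit 331) (nat_lit 366) (nat_lit 331) (.d (nat_lit 363) (nat_lit 362) (nat_lit 1354) (nat_lit 364) (nat_lit 1355)))) (.a (.f (nat_lit 368) (nat_lit 332) (nat_lit 332) (.d (nat_lit 369) (nat_lit 336) (nat_lit 333) (nat_lit 366) (nat_lit 3405))) (.a (.p (nat_lit 336) (.a (.f (nat_lit 365) (nat_lit 364) (nat_lit 1356) (.f (nat_lit 337) (nat_lit 366) (nat_lit 1357) (.d (nat_lit 369) (nat_lit 368) (nat_lit 333) (nat_lit 370) (nat_lit 334)))) (.a (.f (nat_lit 304) (nat_lit 305) (nat_lit 2349) (.d (nat_lit 272) (nat_lit 240) (nat_lit 5359) (nat_lit 368) (nat_lit 5391))) (.f (nat_lit 365) (nat_lit 364) (nat_lit 1356) (.f (nat_lit 337) (nat_lit 366) (nat_lit 1357) (.d (nat_lit 301) (nat_lit 300) (nat_lit 3372) (nat_lit 302) (nat_lit 3373))))))) (.a (.f (nat_lit 332) (nat_lit 368) (nat_lit 332) (.f (nat_lit 300) (nat_lit 299) (nat_lit 3371) (.f (nat_lit 364) (nat_lit 363) (nat_lit 1355) (.d (nat_lit 336) (nat_lit 301) (nat_lit 3372) (nat_lit 365) (nat_lit 1356))))) (.p (nat_lit 336) (.a (.f (nat_lit 365) (nat_lit 364) (nat_lit 1356) (.f (nat_lit 337) (nat_lit 366) (nat_lit 1357) (.d (nat_lit 301) (nat_lit 300) (nat_lit 3372) (nat_lit 302) (nat_lit 3373)))) (.a (.f (nat_lit 365) (nat_lit 364) (nat_lit 1356) (.f (nat_lit 337) (nat_lit 366) (nat_lit 1357) (.d (nat_lit 305) (nat_lit 304) (nat_lit 2349) (nat_lit 306) (nat_lit 2350)))) (.a (.f (nat_lit 365) (nat_lit 364) (nat_lit 1356) (.f (nat_lit 397) (nat_lit 429) (nat_lit 4429) (.f (nat_lit 301) (nat_lit 300) (nat_lit 3372) (.f (nat_lit 270) (nat_lit 302) (nat_lit 6413) (.f (nat_lit 269) (nat_lit 238) (nat_lit 6381) (.f (nat_lit 237) (nat_lit 366) (nat_lit 4333) (.d (nat_lit 236) (nat_lit 204) (nat_lit 7372) (nat_lit 268) (nat_lit 7404)))))))) (.f (nat_lit 301) (nat_lit 300) (nat_lit 3372) (.f (nat_lit 337) (nat_lit 302) (nat_lit 3373) (.d (nat_lit 305) (nat_lit 304) (nat_lit 2349) (nat_lit 306) (nat_lit 2350))))))))))))) (.a (.p (nat_lit 333) (.a (.f (nat_lit 332) (nat_lit 368) (nat_lit 332) (.f (nat_lit 331) (nat_lit 366) (nat_lit 331) (.d (nat_lit 363) (nat_lit 362) (nat_lit 1354) (nat_lit 364) (nat_lit 1355)))) (.a (.f (nat_lit 368) (nat_lit 332) (nat_lit 332) (.d (nat_lit 369) (nat_lit 336) (nat_lit 333) (nat_lit 366) (nat_lit 3405))) (.a (.p (nat_lit 336) (.a (.f (nat_lit 365) (nat_lit 364) (nat_lit 1356) (.f (nat_lit 337) (nat_lit 366) (nat_lit 1357) (.d (nat_lit 369) (nat_lit 368) (nat_lit 333) (nat_lit 370) (nat_lit 334)))) (.a (.f (nat_lit 365) (nat_lit 364) (nat_lit 1356) (.f (nat_lit 397) (nat_lit 429) (nat_lit 4429) (.f (nat_lit 301) (nat_lit 300) (nat_lit 3372) (.f (nat_lit 368) (nat_lit 369) (nat_lit 333) (.d (nat_lit 396) (nat_lit 366) (nat_lit 1388) (nat_lit 428) (nat_lit 5420)))))) (.a (.f (nat_lit 301) (nat_lit 300) (nat_lit 3372) (.f (nat_lit 337) (nat_lit 302) (nat_lit 3373) (.d (nat_lit 366) (nat_lit 338) (nat_lit 1358) (nat_lit 365) (nat_lit 1357)))) (.f (nat_lit 369) (nat_lit 368) (nat_lit 333) (.f (nat_lit 337) (nat_lit 370) (nat_lit 334) (.d (nat_lit 301) (nat_lit 300) (nat_lit 3372) (nat_lit 302) (nat_lit 3373)))))))) (.a (.f (nat_lit 332) (nat_lit 368) (nat_lit 332) (.f (nat_lit 300) (nat_lit 299) (nat_lit 3371) (.f (nat_lit 364) (nat_lit 363) (nat_lit 1355) (.d (nat_lit 336) (nat_lit 301) (nat_lit 3372) (nat_lit 365) (nat_lit 1356))))) (.p (nat_lit 332) (.a (.f (nat_lit 331) (nat_lit 366) (nat_lit 331) (.d (nat_lit 363) (nat_lit 362) (nat_lit 1354) (nat_lit 364) (nat_lit 1355))) (.a (.f (nat_lit 364) (nat_lit 363) (nat_lit 1355) (.f (nat_lit 300) (nat_lit 299) (nat_lit 3371) (.d (nat_lit 336) (nat_lit 301) (nat_lit 3372) (nat_lit 365) (nat_lit 1356)))) (.f (nat_lit 331) (nat_lit 366) (nat_lit 331) (.d (nat_lit 299) (nat_lit 298) (nat_lit 3370) (nat_lit 300) (nat_lit 3371))))))))))) (.a (.p (nat_lit 303) (.a (.f (nat_lit 302) (nat_lit 270) (nat_lit 7438) (.f (nat_lit 304) (nat_lit 272) (nat_lit 6415) (.f (nat_lit 305) (nat_lit 306) (nat_lit 1326) (.f (nat_lit 337) (nat_lit 338) (nat_lit 302) (.f (nat_lit 336) (nat_lit 301) (nat_lit 301) (.f (nat_lit 273) (nat_lit 274) (nat_lit 2318) (.d (nat_lit 241) (nat_lit 209) (nat_lit 5328) (nat_lit 368) (nat_lit 5360)))))))) (.a (.f (nat_lit 302) (nat_lit 270) (nat_lit 7438) (.f (nat_lit 304) (nat_lit 272) (nat_lit 6415) (.d (nat_lit 305) (nat_lit 306) (nat_lit 1326) (nat_lit 333) (nat_lit 1325)))) (.a (.f (nat_lit 272) (nat_lit 304) (nat_lit 6415) (.f (nat_lit 271) (nat_lit 240) (nat_lit 6383) (.f (nat_lit 239) (nat_lit 366) (nat_lit 5358) (.f (nat_lit 207) (nat_lit 302) (nat_lit 5326) (.d (nat_lit 206) (nat_lit 174) (nat_lit 7342) (nat_lit 238) (nat_lit 7374)))))) (.a (.f (nat_lit 270) (nat_lit 302) (nat_lit 7438) (.f (nat_lit 271) (nat_lit 238) (nat_lit 7406) (.f (nat_lit 239) (nat_lit 366) (nat_lit 5358) (.f (nat_lit 336) (nat_lit 368) (nat_lit 4335) (.f (nat_lit 304) (nat_lit 207) (nat_lit 4303) (.d (nat_lit 305) (nat_lit 306) (nat_lit 3342) (nat_lit 333) (nat_lit 2349))))))) (.a (.f (nat_lit 272) (nat_lit 304) (nat_lit 6415) (.f (nat_lit 271) (nat_lit 240) (nat_lit 6383) (.f (nat_lit 239) (nat_lit 366) (nat_lit 5358) (.d (nat_lit 238) (nat_lit 206) (nat_lit 7374) (nat_lit 270) (nat_lit 7406))))) (.f (nat_lit 270) (nat_lit 302) (nat_lit 7438) (.f (nat_lit 271) (nat_lit 238) (nat_lit 7406) (.f (nat_lit 239) (nat_lit 366) (nat_lit 5358) (.d (nat_lit 240) (nat_lit 208) (nat_lit 6351) (nat_lit 272) (nat_lit 6383))))))))))) (.a (.p (nat_lit 303) (.a (.f (nat_lit 302) (nat_lit 270) (nat_lit 7438) (.f (nat_lit 304) (nat_lit 272) (nat_lit 6415) (.f (nat_lit 305) (nat_lit 306) (nat_lit 1326) (.f (nat_lit 337) (nat_lit 338) (nat_lit 302) (.f (nat_lit 336) (nat_lit 301) (nat_lit 301) (.f (nat_lit 273) (nat_lit 274) (nat_lit 2318) (.d (nat_lit 241) (nat_lit 209) (nat_lit 5328) (nat_lit 368) (nat_lit 5360)))))))) (.a (.f (nat_lit 302) (nat_lit 270) (nat_lit 7438) (.f (nat_lit 272) (nat_lit 304) (nat_lit 6415) (.f (nat_lit 271) (nat_lit 240) (nat_lit 6383) (.d (nat_lit 239) (nat_lit 207) (nat_lit 5326) (nat_lit 366) (nat_lit 5358))))) (.a (.f (nat_lit 272) (nat_lit 304) (nat_lit 6415) (.f (nat_lit 271) (nat_lit 240) (nat_lit 6383) (.f (nat_lit 239) (nat_lit 366) (nat_lit 5358) (.f (nat_lit 207) (nat_lit 302) (nat_lit 5326) (.d (nat_lit 206) (nat_lit 174) (nat_lit 7342) (nat_lit 238) (nat_lit 7374)))))) (.a (.f (nat_lit 270) (nat_lit 302) (nat_lit 7438) (.f (nat_lit 271) (nat_lit 238) (nat_lit 7406) (.f (nat_lit 239) (nat_lit 366) (nat_lit 5358) (.f (nat_lit 336) (nat_lit 368) (nat_lit 4335) (.f (nat_lit 207) (nat_lit 304) (nat_lit 4303) (.d (nat_lit 208) (nat_lit 176) (nat_lit 6319) (nat_lit 240) (nat_lit 6351))))))) (.a (.f (nat_lit 272) (nat_lit 304) (nat_lit 6415) (.f (nat_lit 271) (nat_lit 240) (nat_lit 6383) (.f (nat_lit 239) (nat_lit 366) (nat_lit 5358) (.d (nat_lit 238) (nat_lit 206) (nat_lit 7374) (nat_lit 270) (nat_lit 7406))))) (.f (nat_lit 270) (nat_lit 302) (nat_lit 7438) (.f (nat_lit 271) (nat_lit 238) (nat_lit 7406) (.f (nat_lit 239) (nat_lit 366) (nat_lit 5358) (.d (nat_lit 240) (nat_lit 208) (nat_lit 6351) (nat_lit 272) (nat_lit 6383))))))))))) (.a s75956 (.p (nat_lit 333) (.a (.f (nat_lit 332) (nat_lit 368) (nat_lit 332) (.f (nat_lit 303) (nat_lit 304) (nat_lit 2348) (.d (nat_lit 302) (nat_lit 270) (nat_lit 7438) (nat_lit 331) (nat_lit 2347)))) (.a (.f (nat_lit 332) (nat_lit 368) (nat_lit 332) (.f (nat_lit 303) (nat_lit 304) (nat_lit 2348) (.f (nat_lit 331) (nat_lit 302) (nat_lit 2347) (.d (nat_lit 363) (nat_lit 362) (nat_lit 1354) (nat_lit 364) (nat_lit 1355))))) (.a (.f (nat_lit 332) (nat_lit 368) (nat_lit 332) (.f (nat_lit 304) (nat_lit 303) (nat_lit 2348) (.f (nat_lit 336) (nat_lit 305) (nat_lit 2349) (.d (nat_lit 364) (nat_lit 363) (nat_lit 1355) (nat_lit 365) (nat_lit 1356))))) (.a (.f (nat_lit 332) (nat_lit 368) (nat_lit 332) (.f (nat_lit 300) (nat_lit 299) (nat_lit 3371) (.f (nat_lit 364) (nat_lit 363) (nat_lit 1355) (.d (nat_lit 336) (nat_lit 301) (nat_lit 3372) (nat_lit 365) (nat_lit 1356))))) (.a (.p (nat_lit 336) (.a (.f (nat_lit 304) (nat_lit 305) (nat_lit 2349) (.d (nat_lit 272) (nat_lit 240) (nat_lit 5359) (nat_lit 368) (nat_lit 5391))) (.a (.f (nat_lit 368) (nat_lit 369) (nat_lit 333) (.d (nat_lit 304) (nat_lit 272) (nat_lit 5391) (nat_lit 305) (nat_lit 2349))) (.a (.f (nat_lit 301) (nat_lit 300) (nat_lit 3372) (.f (nat_lit 337) (nat_lit 302) (nat_lit 3373) (.d (nat_lit 305) (nat_lit 304) (nat_lit 2349) (nat_lit 306) (nat_lit 2350)))) (.f (nat_lit 369) (nat_lit 368) (nat_lit 333) (.f (nat_lit 337) (nat_lit 370) (nat_lit 334) (.d (nat_lit 301) (nat_lit 300) (nat_lit 3372) (nat_lit 302) (nat_lit 3373)))))))) (.p (nat_lit 303) (.a (.d (nat_lit 304) (nat_lit 272) (nat_lit 6415) (nat_lit 332) (nat_lit 2348)) (.a (.f (nat_lit 302) (nat_lit 270) (nat_lit 7438) (.d (nat_lit 332) (nat_lit 304) (nat_lit 2348) (nat_lit 331) (nat_lit 2347))) (.a (.f (nat_lit 302) (nat_lit 270) (nat_lit 7438) (.f (nat_lit 332) (nat_lit 331) (nat_lit 2347) (.f (nat_lit 300) (nat_lit 299) (nat_lit 3371) (.f (nat_lit 301) (nat_lit 336) (nat_lit 300) (.f (nat_lit 364) (nat_lit 363) (nat_lit 1355) (.d (nat_lit 269) (nat_lit 237) (nat_lit 5356) (nat_lit 396) (nat_lit 6412))))))) (.f (nat_lit 302) (nat_lit 270) (nat_lit 7438) (.d (nat_lit 304) (nat_lit 272) (nat_lit 6415) (nat_lit 305) (nat_lit 1325)))))))))))))))))))))))))))))))))))))))))))))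
noncomputable def s76954 : Cert := .r (nat_lit 4717453032125294315973987508940360086526289994240996100887551015506318114539746243502091330791748672336822752025675767125572524099741008282937817224334097454123657986048) (.f (nat_lit 559) (nat_lit 591) (nat_lit 4558) (.f (nat_lit 561) (nat_lit 525) (nat_lit 3597) (.f (nat_lit 400) (nat_lit 335) (nat_lit 7503) (.f (nat_lit 594) (nat_lit 593) (nat_lit 558) (.f (nat_lit 562) (nat_lit 595) (nat_lit 559) (.f (nat_lit 531) (nat_lit 530) (nat_lit 2575) (.f (nat_lit 563) (nat_lit 532) (nat_lit 2576) (.f (nat_lit 467) (nat_lit 499) (nat_lit 5586) (.f (nat_lit 465) (nat_lit 497) (nat_lit 4464) (.f (nat_lit 466) (nat_lit 431) (nat_lit 3503) (.f (nat_lit 468) (nat_lit 433) (nat_lit 3504) (.d (nat_lit 436) (nat_lit 435) (nat_lit 2480) (nat_lit 437) (nat_lit 2481)))))))))))))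
noncomputable def s77214 : Cert := .r (nat_lit 4717453032125294315973987508940360086515199315464512841449387665495043305052585421958782582060818797697494399266178531255590687852931784910929929116385108363801805193216) (.p (nat_lit 369) (.a (.f (nat_lit 337) (nat_lit 338) (nat_lit 2382) (.f (nat_lit 401) (nat_lit 402) (nat_lit 366) (.d (nat_lit 365) (nat_lit 336) (nat_lit 2381) (nat_lit 400) (nat_lit 365)))) (.a (.f (nat_lit 401) (nat_lit 402) (nat_lit 366) (.f (nat_lit 337) (nat_lit 338) (nat_lit 2382) (.d (nat_lit 432) (nat_lit 400) (nat_lit 6480) (nat_lit 433) (nat_lit 5456)))) (.a (.p (nat_lit 465) (.a (.f (nat_lit 401) (nat_lit 402) (nat_lit 366) (.f (nat_lit 433) (nat_lit 336) (nat_lit 7504) (.d (nat_lit 400) (nat_lit 365) (nat_lit 365) (nat_lit 497) (nat_lit 7536)))) (.a (.f (nat_lit 401) (nat_lit 402) (nat_lit 366) (.f (nat_lit 400) (nat_lit 365) (nat_lit 365) (.d (nat_lit 497) (nat_lit 432) (nat_lit 4464) (nat_lit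 433) (nat_lit 7536)))) (.a (.f (nat_lit 401) (nat_lit 402) (nat_lit 366) (.f (nat_lit 433) (nat_lit 336) (nat_lit 7504) (.f (nat_lit 466) (nat_lit 498) (nat_lit 4465) (.f (nat_lit 432) (nat_lit 431) (nat_lit 430) (.f (nat_lit 400) (nat_lit 497) (nat_lit 4464) (.f (nat_lit 467) (nat_lit 468) (nat_lit 3504) (.f (nat_lit 370) (nat_lit 338) (nat_lit 6481) (.f (nat_lit 435) (nat_lit 436) (nat_lit 2480) (.f (nat_lit 371) (nat_lit 372) (nat_lit 1392) (.f (nat_lit 403) (nat_lit 404) (nat_lit 368) (.d (nat_lit 339) (nat_lit 340) (nat_lit 2384) (nat_lit 434) (nat_lit 5458)))))))))))) (.a (.f (nat_lit 559) (nat_lit 591) (nat_lit 4558) (.f (nat_lit 561) (nat_lit 525) (nat_lit 3597) (.f (nat_lit 401) (nat_lit 402) (nat_lit 366) (.f (nat_lit 433) (nat_lit 336) (nat_lit 7504) (.f (nat_lit 466) (nat_lit 498) (nat_lit 4465) (.f (nat_lit 432) (nat_lit 431) (nat_lit 430) (.f (nat_lit 467) (nat_lit 468) (nat_lit 3504) (.f (nat_lit 499) (nat_lit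 500) (nat_lit 464) (.f (nat_lit 594) (nat_lit 593) (nat_lit 558) (.f (nat_lit 562) (nat_lit 595) (nat_lit 559) (.d (nat_lit 531) (nat_lit 530) (nat_lit 2575) (nat_lit 563) (nat_lit 5586)))))))))))) (.a (.f (nat_lit 559) (nat_lit 591) (nat_lit 4558) (.f (nat_lit 561) (nat_lit 525) (nat_lit 3597) (.f (nat_lit 594) (nat_lit 593) (nat_lit 558) (.f (nat_lit 562) (nat_lit 595) (nat_lit 559) (.f (nat_lit 530) (nat_lit 531) (nat_lit 2575) (.f (nat_lit 498) (nat_lit 497) (nat_lit 7633) (.f (nat_lit 466) (nat_lit 433) (nat_lit 7601) (.d (nat_lit 467) (nat_lit 435) (nat_lit 6578) (nat_lit 499) (nat_lit 6610))))))))) (.f (nat_lit 559) (nat_lit 591) (nat_lit 4558) (.f (nat_lit 561) (nat_lit 525) (nat_lit 3597) (.f (nat_lit 401) (nat_lit 402) (nat_lit 366) (.f (nat_lit 400) (nat_lit 365) (nat_lit 365) (.f (nat_lit 432) (nat_lit 497) (nat_lit 4464) (.f (nat_lit 431) (nat_lit 429) (nat_lit 2445) (.f (nat_lit 594) (nat_lit 593) (nat_lit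 558) (.f (nat_lit 562) (nat_lit 595) (nat_lit 559) (.f (nat_lit 531) (nat_lit 530) (nat_lit 2575) (.f (nat_lit 563) (nat_lit 532) (nat_lit 2576) (.d (nat_lit 467) (nat_lit 466) (nat_lit 3503) (nat_lit 499) (nat_lit 5586)))))))))))))))))) (.a (.f (nat_lit 401) (nat_lit 402) (nat_lit 366) (.f (nat_lit 400) (nat_lit 365) (nat_lit 365) (.f (nat_lit 432) (nat_lit 337) (nat_lit 6480) (.f (nat_lit 465) (nat_lit 497) (nat_lit 4464) (.f (nat_lit 433) (nat_lit 336) (nat_lit 4432) (.d (nat_lit 431) (nat_lit 429) (nat_lit 2445) (nat_lit 466) (nat_lit 430))))))) (.a (.f (nat_lit 337) (nat_lit 338) (nat_lit 2382) (.f (nat_lit 401) (nat_lit 402) (nat_lit 366) (.f (nat_lit 336) (nat_lit 365) (nat_lit 2381) (.d (nat_lit 433) (nat_lit 304) (nat_lit 7472) (nat_lit 432) (nat_lit 5456))))) (.a (.f (nat_lit 559) (nat_lit 591) (nat_lit 4558) (.f (nat_lit 561) (nat_lit 525) (nat_lit 3597) (.f (nat_lit 338) (nat_lit 337) (nat_lit 2382) (.f (nat_lit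 370) (nat_lit 339) (nat_lit 2383) (.f (nat_lit 403) (nat_lit 402) (nat_lit 367) (.f (nat_lit 371) (nat_lit 404) (nat_lit 368) (.f (nat_lit 594) (nat_lit 593) (nat_lit 558) (.f (nat_lit 562) (nat_lit 595) (nat_lit 559) (.f (nat_lit 531) (nat_lit 530) (nat_lit 2575) (.f (nat_lit 563) (nat_lit 532) (nat_lit 2576) (.d (nat_lit 467) (nat_lit 435) (nat_lit 7506) (nat_lit 499) (nat_lit 5586)))))))))))) (.f (nat_lit 337) (nat_lit 338) (nat_lit 2382) (.f (nat_lit 400) (nat_lit 432) (nat_lit 6480) (.d (nat_lit 365) (nat_lit 336) (nat_lit 2381) (nat_lit 401) (nat_lit 365)))))))))))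
noncomputable def s77305 : Cert := .r (nat_lit 4717453032125294315973987508940360086515199315464512841449387665495043305052585421958782582060818797697494399266178531255590687852931784910929929116385108363801805193216) (.p (nat_lit 465) (.a (.f (nat_lit 559) (nat_lit 591) (nat_lit 4558) (.f (nat_lit 561) (nat_lit 525) (nat_lit 3597) (.f (nat_lit 594) (nat_lit 593) (nat_lit 558) (.f (nat_lit 562) (nat_lit 595) (nat_lit 559) (.f (nat_lit 530) (nat_lit 531) (nat_lit 2575) (.f (nat_lit 498) (nat_lit 497) (nat_lit 7633) (.f (nat_lit 466) (nat_lit 433) (nat_lit 7601) (.d (nat_lit 467) (nat_lit 435) (nat_lit 6578) (nat_lit 499) (nat_lit 6610))))))))) (.a (.p (nat_lit 369) (.a (.f (nat_lit 337) (nat_lit 338) (nat_lit 2382) (.f (nat_lit 432) (nat_lit 400) (nat_lit 6480) (.f (nat_lit 402) (nat_lit 401) (nat_lit 366) (.f (nat_lit 370) (nat_lit 403) (nat_lit 367) (.f (nat_lit 466) (nat_lit 434) (nat_lit 7505) (.d (nat_lit 431) (nat_lit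 429) (nat_lit 429) (nat_lit 467) (nat_lit 3503))))))) (.a (.f (nat_lit 559) (nat_lit 591) (nat_lit 4558) (.f (nat_lit 561) (nat_lit 525) (nat_lit 3597) (.f (nat_lit 402) (nat_lit 401) (nat_lit 366) (.f (nat_lit 370) (nat_lit 403) (nat_lit 367) (.f (nat_lit 339) (nat_lit 338) (nat_lit 2383) (.f (nat_lit 371) (nat_lit 340) (nat_lit 2384) (.f (nat_lit 466) (nat_lit 434) (nat_lit 6482) (.f (nat_lit 594) (nat_lit 593) (nat_lit 558) (.f (nat_lit 562) (nat_lit 595) (nat_lit 559) (.f (nat_lit 530) (nat_lit 531) (nat_lit 2575) (.f (nat_lit 498) (nat_lit 497) (nat_lit 7633) (.d (nat_lit 467) (nat_lit 435) (nat_lit 6578) (nat_lit 499) (nat_lit 6610))))))))))))) (.a (.f (nat_lit 559) (nat_lit 591) (nat_lit 4558) (.f (nat_lit 561) (nat_lit 525) (nat_lit 3597) (.f (nat_lit 402) (nat_lit 401) (nat_lit 366) (.f (nat_lit 370) (nat_lit 403) (nat_lit 367) (.f (nat_lit 594) (nat_lit 593) (nat_lit 558) (.f (nat_lit 562) (nat_lit 595) (nat_lit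 559) (.f (nat_lit 530) (nat_lit 531) (nat_lit 2575) (.f (nat_lit 497) (nat_lit 498) (nat_lit 7633) (.f (nat_lit 466) (nat_lit 434) (nat_lit 5489) (.f (nat_lit 432) (nat_lit 400) (nat_lit 4464) (.d (nat_lit 431) (nat_lit 429) (nat_lit 429) (nat_lit 467) (nat_lit 3503)))))))))))) (.a (.f (nat_lit 559) (nat_lit 591) (nat_lit 4558) (.f (nat_lit 561) (nat_lit 525) (nat_lit 3597) (.f (nat_lit 337) (nat_lit 338) (nat_lit 2382) (.f (nat_lit 432) (nat_lit 400) (nat_lit 6480) (.f (nat_lit 594) (nat_lit 593) (nat_lit 558) (.f (nat_lit 562) (nat_lit 595) (nat_lit 559) (.f (nat_lit 530) (nat_lit 531) (nat_lit 2575) (.f (nat_lit 498) (nat_lit 497) (nat_lit 7633) (.f (nat_lit 467) (nat_lit 499) (nat_lit 6610) (.d (nat_lit 466) (nat_lit 431) (nat_lit 3503) (nat_lit 435) (nat_lit 6578))))))))))) (.f (nat_lit 402) (nat_lit 401) (nat_lit 366) (.f (nat_lit 370) (nat_lit 403) (nat_lit 367) (.d (nat_lit 338) (nat_lit 337) (nat_lit 2382) (nat_lit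 339) (nat_lit 2383))))))))) (.a (.f (nat_lit 559) (nat_lit 591) (nat_lit 4558) (.f (nat_lit 561) (nat_lit 525) (nat_lit 3597) (.f (nat_lit 594) (nat_lit 593) (nat_lit 558) (.f (nat_lit 562) (nat_lit 595) (nat_lit 559) (.f (nat_lit 530) (nat_lit 531) (nat_lit 2575) (.f (nat_lit 497) (nat_lit 498) (nat_lit 7633) (.f (nat_lit 432) (nat_lit 400) (nat_lit 4464) (.f (nat_lit 431) (nat_lit 429) (nat_lit 429) (.d (nat_lit 466) (nat_lit 433) (nat_lit 430) (nat_lit 467) (nat_lit 3503)))))))))) (.a (.f (nat_lit 559) (nat_lit 591) (nat_lit 4558) (.f (nat_lit 561) (nat_lit 525) (nat_lit 3597) (.f (nat_lit 594) (nat_lit 593) (nat_lit 558) (.f (nat_lit 562) (nat_lit 595) (nat_lit 559) (.f (nat_lit 530) (nat_lit 531) (nat_lit 2575) (.f (nat_lit 497) (nat_lit 498) (nat_lit 7633) (.f (nat_lit 400) (nat_lit 432) (nat_lit 4464) (.f (nat_lit 401) (nat_lit 433) (nat_lit 7536) (.d (nat_lit 402) (nat_lit 369) (nat_lit 366) (nat_lit 403) (nat_lit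 3439)))))))))) (.a (.p (nat_lit 369) (.a (.f (nat_lit 559) (nat_lit 591) (nat_lit 4558) (.f (nat_lit 561) (nat_lit 525) (nat_lit 3597) (.f (nat_lit 401) (nat_lit 402) (nat_lit 366) (.f (nat_lit 433) (nat_lit 336) (nat_lit 7504) (.f (nat_lit 466) (nat_lit 498) (nat_lit 4465) (.f (nat_lit 432) (nat_lit 431) (nat_lit 430) (.f (nat_lit 467) (nat_lit 468) (nat_lit 3504) (.f (nat_lit 499) (nat_lit 500) (nat_lit 464) (.f (nat_lit 594) (nat_lit 593) (nat_lit 558) (.f (nat_lit 562) (nat_lit 595) (nat_lit 559) (.d (nat_lit 531) (nat_lit 530) (nat_lit 2575) (nat_lit 563) (nat_lit 5586)))))))))))) (.a (.f (nat_lit 337) (nat_lit 338) (nat_lit 2382) (.f (nat_lit 432) (nat_lit 400) (nat_lit 6480) (.f (nat_lit 402) (nat_lit 401) (nat_lit 366) (.f (nat_lit 370) (nat_lit 403) (nat_lit 367) (.f (nat_lit 466) (nat_lit 434) (nat_lit 7505) (.d (nat_lit 431) (nat_lit 429) (nat_lit 429) (nat_lit 467) (nat_lit 3503))))))) (.a (.f (nat_lit 337)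 (nat_lit 338) (nat_lit 2382) (.f (nat_lit 432) (nat_lit 400) (nat_lit 6480) (.f (nat_lit 431) (nat_lit 429) (nat_lit 429) (.d (nat_lit 466) (nat_lit 433) (nat_lit 430) (nat_lit 467) (nat_lit 3503))))) (.f (nat_lit 402) (nat_lit 401) (nat_lit 366) (.f (nat_lit 370) (nat_lit 403) (nat_lit 367) (.d (nat_lit 338) (nat_lit 337) (nat_lit 2382) (nat_lit 339) (nat_lit 2383)))))))) (.p (nat_lit 369) (.a (.f (nat_lit 337) (nat_lit 338) (nat_lit 2382) (.f (nat_lit 432) (nat_lit 400) (nat_lit 6480) (.f (nat_lit 402) (nat_lit 401) (nat_lit 366) (.f (nat_lit 370) (nat_lit 403) (nat_lit 367) (.f (nat_lit 466) (nat_lit 434) (nat_lit 7505) (.d (nat_lit 431) (nat_lit 429) (nat_lit 429) (nat_lit 467) (nat_lit 3503))))))) (.a (.f (nat_lit 402) (nat_lit 401) (nat_lit 366) (.f (nat_lit 370) (nat_lit 403) (nat_lit 367) (.f (nat_lit 338) (nat_lit 339) (nat_lit 2383) (.f (nat_lit 434) (nat_lit 433) (nat_lit 5457) (.f (nat_lit 467) (nat_lit 435)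 (nat_lit 4434) (.d (nat_lit 466) (nat_lit 497) (nat_lit 5489) (nat_lit 499) (nat_lit 4466))))))) (.a (.f (nat_lit 401) (nat_lit 402) (nat_lit 366) (.f (nat_lit 433) (nat_lit 336) (nat_lit 7504) (.f (nat_lit 432) (nat_lit 337) (nat_lit 5456) (.d (nat_lit 431) (nat_lit 429) (nat_lit 429) (nat_lit 466) (nat_lit 430))))) (.a (.f (nat_lit 337) (nat_lit 338) (nat_lit 2382) (.f (nat_lit 432) (nat_lit 400) (nat_lit 6480) (.f (nat_lit 431) (nat_lit 429) (nat_lit 429) (.d (nat_lit 466) (nat_lit 433) (nat_lit 430) (nat_lit 467) (nat_lit 3503))))) (.f (nat_lit 402) (nat_lit 401) (nat_lit 366) (.f (nat_lit 370) (nat_lit 403) (nat_lit 367) (.d (nat_lit 338) (nat_lit 337) (nat_lit 2382) (nat_lit 339) (nat_lit 2383)))))))))))))))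
noncomputable def s77343 : Cert := .r (nat_lit 4717453032125294315973987508940360086515199315464512841449462818857692067715877885337879840845694819539059465502041164566679718541735452381120767484333420962298827112448) (.p (nat_lit 465) (.a (.f (nat_lit 400) (nat_lit 401) (nat_lit 365) (.f (nat_lit 432) (nat_lit 497) (nat_lit 4464) (.d (nat_lit 336) (nat_lit 337) (nat_lit 2381) (nat_lit 433) (nat_lit 4432)))) (.a (.f (nat_lit 400) (nat_lit 401) (nat_lit 365) (.f (nat_lit 432) (nat_lit 497) (nat_lit 4464) (.f (nat_lit 431) (nat_lit 429) (nat_lit 429) (.d (nat_lit 466) (nat_lit 433) (nat_lit 430) (nat_lit 467) (nat_lit 3503))))) (.a (.f (nat_lit 559) (nat_lit 591) (nat_lit 4558) (.f (nat_lit 561) (nat_lit 525) (nat_lit 3597) (.f (nat_lit 594) (nat_lit 593) (nat_lit 558) (.f (nat_lit 562) (nat_lit 595) (nat_lit 559) (.f (nat_lit 530) (nat_lit 531) (nat_lit 2575) (.f (nat_lit 498) (nat_lit 497) (nat_lit 7633) (.f (nat_lit 466)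 (nat_lit 433) (nat_lit 7601) (.d (nat_lit 467) (nat_lit 435) (nat_lit 6578) (nat_lit 499) (nat_lit 6610))))))))) (.a (.f (nat_lit 559) (nat_lit 591) (nat_lit 4558) (.f (nat_lit 561) (nat_lit 525) (nat_lit 3597) (.f (nat_lit 594) (nat_lit 593) (nat_lit 558) (.f (nat_lit 562) (nat_lit 595) (nat_lit 559) (.f (nat_lit 530) (nat_lit 531) (nat_lit 2575) (.f (nat_lit 400) (nat_lit 401) (nat_lit 365) (.d (nat_lit 497) (nat_lit 432) (nat_lit 4464) (nat_lit 498) (nat_lit 7633)))))))) (.f (nat_lit 559) (nat_lit 591) (nat_lit 4558) (.f (nat_lit 561) (nat_lit 525) (nat_lit 3597) (.f (nat_lit 594) (nat_lit 593) (nat_lit 558) (.f (nat_lit 562) (nat_lit 595) (nat_lit 559) (.f (nat_lit 531) (nat_lit 530) (nat_lit 2575) (.f (nat_lit 563) (nat_lit 532) (nat_lit 2576) (.f (nat_lit 467) (nat_lit 499) (nat_lit 5586) (.f (nat_lit 400) (nat_lit 401) (nat_lit 365) (.f (nat_lit 336) (nat_lit 337) (nat_lit 2381) (.f (nat_lit 432) (nat_lit 433) (nat_lit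 4432) (.d (nat_lit 431) (nat_lit 429) (nat_lit 429) (nat_lit 466) (nat_lit 3503)))))))))))))))))
noncomputable def s77488 : Cert := .r (nat_lit 3773962425700235452789419352813872038215364427407780804750750317333014433760610827068525907098482197310960759749214088066120654238262683136798637951524565447573774532608) (.p (nat_lit 369) (.a (.f (nat_lit 337) (nat_lit 338) (nat_lit 2382) (.f (nat_lit 401) (nat_lit 402) (nat_lit 366) (.d (nat_lit 365) (nat_lit 336) (nat_lit 2381) (nat_lit 400) (nat_lit 365)))) (.a (.f (nat_lit 401) (nat_lit 402) (nat_lit 366) (.f (nat_lit 400) (nat_lit 365) (nat_lit 365) (.d (nat_lit 337) (nat_lit 338) (nat_lit 2382) (nat_lit 432) (nat_lit 6480)))) (.a (.f (nat_lit 401) (nat_lit 402) (nat_lit 366) (.f (nat_lit 400) (nat_lit 365) (nat_lit 365) (.f (nat_lit 432) (nat_lit 335) (nat_lit 7503) (.f (nat_lit 465) (nat_lit 497) (nat_lit 4464) (.f (nat_lit 433) (nat_lit 336) (nat_lit 4432) (.d (nat_lit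 431) (nat_lit 429) (nat_lit 2445) (nat_lit 466) (nat_lit 430))))))) (.a (.f (nat_lit 337) (nat_lit 338) (nat_lit 2382) (.f (nat_lit 401) (nat_lit 402) (nat_lit 366) (.d (nat_lit 432) (nat_lit 400) (nat_lit 6480) (nat_lit 433) (nat_lit 5456)))) (.a (.f (nat_lit 337) (nat_lit 338) (nat_lit 2382) (.f (nat_lit 401) (nat_lit 402) (nat_lit 366) (.f (nat_lit 336) (nat_lit 365) (nat_lit 2381) (.d (nat_lit 433) (nat_lit 304) (nat_lit 7472) (nat_lit 432) (nat_lit 5456))))) (.f (nat_lit 337) (nat_lit 338) (nat_lit 2382) (.f (nat_lit 336) (nat_lit 365) (nat_lit 2381) (.f (nat_lit 400) (nat_lit 432) (nat_lit 6480) (.f (nat_lit 334) (nat_lit 333) (nat_lit 3405) (.f (nat_lit 335) (nat_lit 370) (nat_lit 334) (.d (nat_lit 305) (nat_lit 273) (nat_lit 5392) (nat_lit 306) (nat_lit 2350)))))))))))))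
noncomputable def s77500 : Cert := .r (nat_lit 3773962425700235452789419352813872038215364427407780804750750317333014433760610827068525907098482197310960759749214088066120654238262683136798637951524565447573774532608) (.p (nat_lit 526) (.a (.f (nat_lit 527) (nat_lit 559) (nat_lit 4526) (.d (nat_lit 525) (nat_lit 557) (nat_lit 5549) (nat_lit 561) (nat_lit 525))) (.a (.f (nat_lit 559) (nat_lit 527) (nat_lit 4526) (.f (nat_lit 558) (nat_lit 591) (nat_lit 4558) (.f (nat_lit 589) (nat_lit 557) (nat_lit 5581) (.d (nat_lit 590) (nat_lit 561) (nat_lit 1581) (nat_lit 621) (nat_lit 5613))))) (.f (nat_lit 397) (nat_lit 429) (nat_lit 7565) (.f (nat_lit 365) (nat_lit 396) (nat_lit 1388) (.f (nat_lit 400) (nat_lit 401) (nat_lit 365) (.f (nat_lit 336) (nat_lit 337) (nat_lit 2381) (.d (nat_lit 335) (nat_lit 364) (nat_lit 2380) (nat_lit 432) (nat_lit 7503)))))))))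
noncomputable def s77505 : Cert := .r (nat_lit 3773962425700235452789419352813872038215364427407780804750750317333014433760610827068525907098482197310960759749214088066120654238262683136798637951524565447573774532608) (.p (nat_lit 365) (.a (.f (nat_lit 333) (nat_lit 332) (nat_lit 3404) (.d (nat_lit 397) (nat_lit 396) (nat_lit 1388) (nat_lit 429) (nat_lit 4429))) (.a (.f (nat_lit 397) (nat_lit 396) (nat_lit 1388) (.d (nat_lit 429) (nat_lit 333) (nat_lit 4429) (nat_lit 526) (nat_lit 7565))) (.a (.f (nat_lit 397) (nat_lit 396) (nat_lit 1388) (.f (nat_lit 526) (nat_lit 429) (nat_lit 7565) (.f (nat_lit 527) (nat_lit 559) (nat_lit 4526) (.d (nat_lit 525) (nat_lit 557) (nat_lit 5549) (nat_lit 561) (nat_lit 525))))) (.f (nat_lit 333) (nat_lit 332) (nat_lit 3404) (.f (nat_lit 369) (nat_lit 334) (nat_lit 3405) (.d (nat_lit 337) (nat_lit 336) (nat_lit 2381) (nat_lit 338) (nat_lit 2382))))))))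
noncomputable def s77512 : Cert := .r (nat_lit 3773962425700235452789419352813872038215364427407780804750750317333014433760610827068525907098482197310960759749214088066120654238262683136798637951524565447573774532608) (.p (nat_lit 369) (.a (.f (nat_lit 401) (nat_lit 402) (nat_lit 366) (.f (nat_lit 400) (nat_lit 365) (nat_lit 365) (.d (nat_lit 337) (nat_lit 338) (nat_lit 2382) (nat_lit 432) (nat_lit 6480)))) (.a (.f (nat_lit 333) (nat_lit 334) (nat_lit 3405) (.f (nat_lit 365) (nat_lit 332) (nat_lit 3404) (.d (nat_lit 401) (nat_lit 400) (nat_lit 365) (nat_lit 402) (nat_lit 366)))) (.a (.f (nat_lit 337) (nat_lit 338) (nat_lit 2382) (.f (nat_lit 401) (nat_lit 402) (nat_lit 366) (.d (nat_lit 432) (nat_lit 400) (nat_lit 6480) (nat_lit 433) (nat_lit 5456)))) (.f (nat_lit 333) (nat_lit 334) (nat_lit 3405) (.f (nat_lit 365) (nat_lit 332) (nat_lit 3404) (.d (nat_lit 397) (nat_lit 396) (nat_lit 1388) (nat_lit 429) (nat_lit 4429))))))))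
noncomputable def s77518 : Cert := .r (nat_lit 3773962425700235452789419352813872038215364427407780804750750317333014433760610827068525907098482197310960759749214088066120654238262683136798637951524565447573774532608) (.p (nat_lit 365) (.a (.f (nat_lit 333) (nat_lit 332) (nat_lit 3404) (.d (nat_lit 397) (nat_lit 396) (nat_lit 1388) (nat_lit 429) (nat_lit 4429))) (.a (.f (nat_lit 397) (nat_lit 396) (nat_lit 1388) (.d (nat_lit 429) (nat_lit 333) (nat_lit 4429) (nat_lit 526) (nat_lit 7565))) (.a (.f (nat_lit 397) (nat_lit 396) (nat_lit 1388) (.f (nat_lit 526) (nat_lit 429) (nat_lit 7565) (.f (nat_lit 527) (nat_lit 559) (nat_lit 4526) (.d (nat_lit 525) (nat_lit 557) (nat_lit 5549) (nat_lit 561) (nat_lit 525))))) (.f (nat_lit 333) (nat_lit 332) (nat_lit 3404) (.f (nat_lit 334) (nat_lit 369) (nat_lit 3405) (.f (nat_lit 400) (nat_lit 401) (nat_lit 365) (.f (nat_lit 335) (nat_lit 432) (nat_lit 7503) (.d (nat_lit 364) (nat_lit 336)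 (nat_lit 1356) (nat_lit 363) (nat_lit 2379))))))))))
noncomputable def s77629 : Cert := .r (nat_lit 4717453032125294315973987508940360086515199315464512841450439812572405950431452134792463885334154159014170532255409728802699616133803603477499186385834094429419062951936) (.f (nat_lit 559) (nat_lit 591) (nat_lit 4558) (.f (nat_lit 561) (nat_lit 525) (nat_lit 3597) (.f (nat_lit 432) (nat_lit 400) (nat_lit 6480) (.f (nat_lit 401) (nat_lit 433) (nat_lit 5456) (.f (nat_lit 429) (nat_lit 397) (nat_lit 7565) (.f (nat_lit 594) (nat_lit 593) (nat_lit 558) (.f (nat_lit 562) (nat_lit 595) (nat_lit 559) (.f (nat_lit 530) (nat_lit 531) (nat_lit 2575) (.f (nat_lit 465) (nat_lit 431) (nat_lit 429) (.f (nat_lit 498) (nat_lit 497) (nat_lit 7633) (.f (nat_lit 467) (nat_lit 499) (nat_lit 6610) (.f (nat_lit 466) (nat_lit 435) (nat_lit 6578) (.f (nat_lit 402) (nat_lit 434) (nat_lit 7537) (.d (nat_lit 403) (nat_lit 370) (nat_lit 367) (nat_lit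 404) (nat_lit 3440)))))))))))))))
noncomputable def s77666 : Cert := .r (nat_lit 4717453032125294315973987508940360086515199315464512841450439812572125982338679909266144205049083103479405326568255397610837117496183129493601666267661484742760112062464) (.p (nat_lit 402) (.a (.f (nat_lit 401) (nat_lit 366) (nat_lit 366) (.d (nat_lit 403) (nat_lit 370) (nat_lit 367) (nat_lit 400) (nat_lit 3439))) (.a (.f (nat_lit 403) (nat_lit 370) (nat_lit 367) (.d (nat_lit 401) (nat_lit 400) (nat_lit 3439) (nat_lit 404) (nat_lit 3440))) (.a (.f (nat_lit 401) (nat_lit 366) (nat_lit 366) (.d (nat_lit 403) (nat_lit 400) (nat_lit 3439) (nat_lit 404) (nat_lit 3440))) (.a (.f (nat_lit 401) (nat_lit 366) (nat_lit 366) (.d (nat_lit 403) (nat_lit 370) (nat_lit 367) (nat_lit 404) (nat_lit 3440))) (.a (.f (nat_lit 559) (nat_lit 591) (nat_lit 4558) (.f (nat_lit 561) (nat_lit 525) (nat_lit 3597) (.f (nat_lit 370) (nat_lit 403) (nat_lit 367) (.f (nat_lit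 338) (nat_lit 339) (nat_lit 2383) (.f (nat_lit 594) (nat_lit 593) (nat_lit 558) (.f (nat_lit 562) (nat_lit 595) (nat_lit 559) (.f (nat_lit 531) (nat_lit 530) (nat_lit 2575) (.f (nat_lit 563) (nat_lit 532) (nat_lit 2576) (.f (nat_lit 467) (nat_lit 499) (nat_lit 5586) (.f (nat_lit 434) (nat_lit 435) (nat_lit 4434) (.f (nat_lit 465) (nat_lit 433) (nat_lit 5457) (.f (nat_lit 429) (nat_lit 397) (nat_lit 7565) (.f (nat_lit 432) (nat_lit 431) (nat_lit 429) (.d (nat_lit 497) (nat_lit 400) (nat_lit 4464) (nat_lit 466) (nat_lit 5489))))))))))))))) (.f (nat_lit 366) (nat_lit 401) (nat_lit 366) (.f (nat_lit 333) (nat_lit 334) (nat_lit 3405) (.f (nat_lit 365) (nat_lit 332) (nat_lit 3404) (.d (nat_lit 397) (nat_lit 396) (nat_lit 1388) (nat_lit 429) (nat_lit 7565)))))))))))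
noncomputable def s78385 : Cert := .r (nat_lit 3773962425700235452789419352813872038215364427407780804750750317333014433760610827068525907098482197310960759749214088066120654238262683136798637951524565447573774532608) (.p (nat_lit 526) (.a (.f (nat_lit 527) (nat_lit 559) (nat_lit 4526) (.d (nat_lit 525) (nat_lit 557) (nat_lit 5549) (nat_lit 561) (nat_lit 525))) (.a (.f (nat_lit 559) (nat_lit 527) (nat_lit 4526) (.f (nat_lit 558) (nat_lit 591) (nat_lit 4558) (.f (nat_lit 589) (nat_lit 557) (nat_lit 5581) (.d (nat_lit 590) (nat_lit 561) (nat_lit 1581) (nat_lit 621) (nat_lit 5613))))) (.f (nat_lit 397) (nat_lit 429) (nat_lit 7565) (.f (nat_lit 365) (nat_lit 396) (nat_lit 1388) (.f (nat_lit 333) (nat_lit 332) (nat_lit 3404) (.f (nat_lit 369) (nat_lit 334) (nat_lit 3405) (.f (nat_lit 338) (nat_lit 337) (nat_lit 2382) (.f (nat_lit 370) (nat_lit 339) (nat_lit 2383) (.d (nat_lit 402) (nat_lit 401) (nat_lit 366) (nat_lit 403) (nat_lit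 367)))))))))))
noncomputable def s78525 : Cert := .r (nat_lit 3773962426139582503037778374572713689356573593313024663959395789995718756505438347152295082940193861422338387616722618817552214331012818077444634579891115068725984755712) (.p (nat_lit 368) (.a (.f (nat_lit 337) (nat_lit 336) (nat_lit 2381) (.f (nat_lit 369) (nat_lit 338) (nat_lit 2382) (.d (nat_lit 401) (nat_lit 400) (nat_lit 365) (nat_lit 402) (nat_lit 366)))) (.a (.f (nat_lit 400) (nat_lit 401) (nat_lit 365) (.f (nat_lit 432) (nat_lit 335) (nat_lit 7503) (.f (nat_lit 369) (nat_lit 337) (nat_lit 6480) (.d (nat_lit 333) (nat_lit 332) (nat_lit 3404) (nat_lit 334) (nat_lit 3405))))) (.a (.f (nat_lit 400) (nat_lit 401) (nat_lit 365) (.f (nat_lit 335) (nat_lit 432) (nat_lit 7503) (.f (nat_lit 364) (nat_lit 336) (nat_lit 2380) (.d (nat_lit 332) (nat_lit 331) (nat_lit 3403) (nat_lit 333) (nat_lit 3404))))) (.f (nat_lit 333) (nat_lit 332) (nat_lit 3404) (.f (nat_lit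 369) (nat_lit 334) (nat_lit 3405) (.d (nat_lit 337) (nat_lit 336) (nat_lit 2381) (nat_lit 338) (nat_lit 2382))))))))
noncomputable def s78589 : Cert := .r (nat_lit 3773962425700235452789419352813872038215364427407780804750224243794473095117563583414845095604350044420005296098175654888497439416637010845462769375886377258094621097984) (.p (nat_lit 368) (.a (.f (nat_lit 400) (nat_lit 401) (nat_lit 365) (.f (nat_lit 336) (nat_lit 337) (nat_lit 2381) (.d (nat_lit 335) (nat_lit 364) (nat_lit 2380) (nat_lit 432) (nat_lit 7503)))) (.a (.f (nat_lit 337) (nat_lit 336) (nat_lit 2381) (.f (nat_lit 369) (nat_lit 338) (nat_lit 2382) (.d (nat_lit 401) (nat_lit 400) (nat_lit 365) (nat_lit 402) (nat_lit 366)))) (.a (.f (nat_lit 400) (nat_lit 401) (nat_lit 365) (.f (nat_lit 432) (nat_lit 335) (nat_lit 7503) (.f (nat_lit 465) (nat_lit 497) (nat_lit 4464) (.f (nat_lit 431) (nat_lit 429) (nat_lit 429) (.d (nat_lit 466) (nat_lit 433) (nat_lit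 430) (nat_lit 467) (nat_lit 3503)))))) (.f (nat_lit 336) (nat_lit 337) (nat_lit 2381) (.f (nat_lit 364) (nat_lit 335) (nat_lit 2380) (.d (nat_lit 396) (nat_lit 395) (nat_lit 1387) (nat_lit 397) (nat_lit 1388))))))))
noncomputable def s78636 : Cert := .r (nat_lit 3773962425700235452789419352813872038215364427407780804750224243794473095117563583414845095604350044420005296098175654888497439416637010845462769375886377258094621097984) (.p (nat_lit 368) (.a (.f (nat_lit 400) (nat_lit 401) (nat_lit 365) (.f (nat_lit 336) (nat_lit 337) (nat_lit 2381) (.d (nat_lit 335) (nat_lit 364) (nat_lit 2380) (nat_lit 432) (nat_lit 7503)))) (.a (.f (nat_lit 333) (nat_lit 332) (nat_lit 3404) (.f (nat_lit 369) (nat_lit 334) (nat_lit 3405) (.d (nat_lit 337) (nat_lit 336) (nat_lit 2381) (nat_lit 338) (nat_lit 2382)))) (.f (nat_lit 400) (nat_lit 401) (nat_lit 365) (.f (nat_lit 432) (nat_lit 335) (nat_lit 7503) (.f (nat_lit 465) (nat_lit 497) (nat_lit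 4464) (.f (nat_lit 431) (nat_lit 429) (nat_lit 429) (.d (nat_lit 466) (nat_lit 433) (nat_lit 430) (nat_lit 467) (nat_lit 3503)))))))))
noncomputable def s78687 : Cert := .r (nat_lit 3773962425700235452738272624565494821496408338394849567996613751737103919792009765651051228680898938975259002197995502499747742910732882325371234638511980196145297096704) (.p (nat_lit 494) (.a (.p (nat_lit 398) (.a (.f (nat_lit 397) (nat_lit 365) (nat_lit 7533) (.f (nat_lit 526) (nat_lit 429) (nat_lit 7565) (.d (nat_lit 525) (nat_lit 493) (nat_lit 5517) (nat_lit 557) (nat_lit 5549)))) (.a (.f (nat_lit 527) (nat_lit 495) (nat_lit 4494) (.f (nat_lit 526) (nat_lit 559) (nat_lit 4526) (.d (nat_lit 525) (nat_lit 493) (nat_lit 5517) (nat_lit 561) (nat_lit 525)))) (.a (.f (nat_lit 397) (nat_lit 365) (nat_lit 7533) (.f (nat_lit 526) (nat_lit 429) (nat_lit 7565) (.d (nat_lit 527) (nat_lit 495) (nat_lit 4494) (nat_lit 559) (nat_lit 4526)))) (.f (nat_lit 366) (nat_lit 335) (nat_lit 6478) (.d (nat_lit 365) (nat_lit 333) (nat_lit 7501) (nat_lit 397) (nat_lit 7533))))))) (.a (.p (nat_lit 526) (.a (.f (nat_lit 527) (nat_lit 559) (nat_lit 4526) (.d (nat_lit 525) (nat_lit 557) (nat_lit 5549) (nat_lit 561) (nat_lit 525))) (.a (.f (nat_lit 527) (nat_lit 559) (nat_lit 4526) (.f (nat_lit 398) (nat_lit 495) (nat_lit 4494) (.d (nat_lit 397) (nat_lit 365) (nat_lit 7533) (nat_lit 429) (nat_lit 7565)))) (.f (nat_lit 525) (nat_lit 557) (nat_lit 5549) (.f (nat_lit 398) (nat_lit 493) (nat_lit 5517) (.d (nat_lit 397) (nat_lit 365) (nat_lit 7533) (nat_lit 429) (nat_lit 7565))))))) (.a (.p (nat_lit 526) (.a (.f (nat_lit 527) (nat_lit 559) (nat_lit 4526) (.d (nat_lit 525) (nat_lit 557) (nat_lit 5549) (nat_lit 561) (nat_lit 525))) (.a (.f (nat_lit 559) (nat_lit 527) (nat_lit 4526) (.f (nat_lit 558) (nat_lit 591) (nat_lit 4558) (.f (nat_lit 589) (nat_lit 557) (nat_lit 5581) (.d (nat_lit 590) (nat_lit 561) (nat_lit 1581) (nat_lit 621) (nat_lit 5613))))) (.a (.p (nat_lit 558) (.a (.d (nat_lit 557) (nat_lit 525) (nat_lit 5549) (nat_lit 589) (nat_lit 5581)) (.a (.f (nat_lit 589) (nat_lit 557) (nat_lit 5581) (.f (nat_lit 590) (nat_lit 621) (nat_lit 5613) (.d (nat_lit 591) (nat_lit 559) (nat_lit 4558) (nat_lit 623) (nat_lit 4590)))) (.p (nat_lit 432) (.a (.f (nat_lit 559) (nat_lit 591) (nat_lit 4558) (.f (nat_lit 561) (nat_lit 525) (nat_lit 3597) (.f (nat_lit 429) (nat_lit 397) (nat_lit 7565) (.f (nat_lit 594) (nat_lit 593) (nat_lit 558) (.f (nat_lit 562) (nat_lit 595) (nat_lit 559) (.f (nat_lit 530) (nat_lit 531) (nat_lit 2575) (.f (nat_lit 465) (nat_lit 431) (nat_lit 429) (.f (nat_lit 498) (nat_lit 497) (nat_lit 7633) (.f (nat_lit 466) (nat_lit 433) (nat_lit 7601) (.d (nat_lit 467) (nat_lit 435) (nat_lit 6578) (nat_lit 499) (nat_lit 6610))))))))))) (.a (.p (nat_lit 431) (.a (.f (nat_lit 465) (nat_lit 429) (nat_lit 429) (.d (nat_lit 466) (nat_lit 433) (nat_lit 430) (nat_lit 467) (nat_lit 3503))) (.a (.p (nat_lit 433) (.a (.f (nat_lit 465) (nat_lit 466) (nat_lit 430) (.f (nat_lit 401) (nat_lit 402) (nat_lit 2446) (.f (nat_lit 369) (nat_lit 337) (nat_lit 5456) (.f (nat_lit 368) (nat_lit 336) (nat_lit 7504) (.d (nat_lit 400) (nat_lit 335) (nat_lit 7503) (nat_lit 497) (nat_lit 7536)))))) (.a (.f (nat_lit 559) (nat_lit 591) (nat_lit 4558) (.f (nat_lit 561) (nat_lit 525) (nat_lit 3597) (.f (nat_lit 465) (nat_lit 466) (nat_lit 430) (.f (nat_lit 401) (nat_lit 402) (nat_lit 2446) (.f (nat_lit 369) (nat_lit 337) (nat_lit 5456) (.f (nat_lit 368) (nat_lit 336) (nat_lit 7504) (.f (nat_lit 497) (nat_lit 400) (nat_lit 4464) (.f (nat_lit 594) (nat_lit 593) (nat_lit 558) (.f (nat_lit 562) (nat_lit 595) (nat_lit 559) (.d (nat_lit 530) (nat_lit 498) (nat_lit 4497) (nat_lit 531) (nat_lit 2575))))))))))) (.a (.f (nat_lit 466) (nat_lit 465) (nat_lit 430) (.f (nat_lit 434) (nat_lit 467) (nat_lit 431) (.d (nat_lit 402) (nat_lit 401) (nat_lit 2446) (nat_lit 403) (nat_lit 2447)))) (.a (.f (nat_lit 559) (nat_lit 591) (nat_lit 4558) (.f (nat_lit 561) (nat_lit 525) (nat_lit 3597) (.f (nat_lit 466) (nat_lit 465) (nat_lit 430) (.f (nat_lit 434) (nat_lit 467) (nat_lit 431) (.f (nat_lit 403) (nat_lit 402) (nat_lit 2447) (.f (nat_lit 435) (nat_lit 404) (nat_lit 2448) (.f (nat_lit 530) (nat_lit 498) (nat_lit 6546) (.f (nat_lit 562) (nat_lit 531) (nat_lit 2575) (.d (nat_lit 594) (nat_lit 593) (nat_lit 558) (nat_lit 595) (nat_lit 559)))))))))) (.a (.f (nat_lit 559) (nat_lit 591) (nat_lit 4558) (.f (nat_lit 561) (nat_lit 525) (nat_lit 3597) (.f (nat_lit 466) (nat_lit 465) (nat_lit 430) (.f (nat_lit 594) (nat_lit 593) (nat_lit 558) (.f (nat_lit 562) (nat_lit 595) (nat_lit 559) (.f (nat_lit 530) (nat_lit 531) (nat_lit 2575) (.f (nat_lit 467) (nat_lit 434) (nat_lit 431) (.d (nat_lit 498) (nat_lit 435) (nat_lit 6578) (nat_lit 499) (nat_lit 6610))))))))) (.a (.f (nat_lit 559) (nat_lit 591) (nat_lit 4558) (.f (nat_lit 561) (nat_lit 525) (nat_lit 3597) (.f (nat_lit 401) (nat_lit 402) (nat_lit 2446) (.f (nat_lit 594) (nat_lit 593) (nat_lit 558) (.f (nat_lit 562) (nat_lit 595) (nat_lit 559) (.f (nat_lit 531) (nat_lit 530) (nat_lit 2575) (.f (nat_lit 563) (nat_lit 532) (nat_lit 2576) (.f (nat_lit 467) (nat_lit 499) (nat_lit 5586) (.f (nat_lit 434) (nat_lit 466) (nat_lit 431) (.f (nat_lit 435) (nat_lit 468) (nat_lit 432) (.f (nat_lit 436) (nat_lit 400) (nat_lit 3472) (.d (nat_lit 404) (nat_lit 403) (nat_lit 2448) (nat_lit 405) (nat_lit 2449))))))))))))) (.f (nat_lit 559) (nat_lit 591) (nat_lit 4558) (.f (nat_lit 525) (nat_lit 561) (nat_lit 3597) (.f (nat_lit 401) (nat_lit 402) (nat_lit 2446) (.f (nat_lit 369) (nat_lit 337) (nat_lit 5456) (.f (nat_lit 398) (nat_lit 493) (nat_lit 5517) (.f (nat_lit 335) (nat_lit 366) (nat_lit 6478) (.f (nat_lit 368) (nat_lit 400) (nat_lit 7503) (.f (nat_lit 370) (nat_lit 334) (nat_lit 3406) (.d (nat_lit 336) (nat_lit 371) (nat_lit 3407) (nat_lit 465) (nat_lit 7504))))))))))))))))) (.a (.f (nat_lit 559) (nat_lit 591) (nat_lit 4558) (.f (nat_lit 561) (nat_lit 525) (nat_lit 3597) (.f (nat_lit 594) (nat_lit 593) (nat_lit 558) (.f (nat_lit 562) (nat_lit 595) (nat_lit 559) (.f (nat_lit 531) (nat_lit 530) (nat_lit 2575) (.f (nat_lit 563) (nat_lit 532) (nat_lit 2576) (.f (nat_lit 467) (nat_lit 499) (nat_lit 5586) (.d (nat_lit 465) (nat_lit 429) (nat_lit 429) (nat_lit 466) (nat_lit 3503))))))))) (.f (nat_lit 559) (nat_lit 591) (nat_lit 4558) (.f (nat_lit 525) (nat_lit 561) (nat_lit 3597) (.f (nat_lit 398) (nat_lit 493) (nat_lit 5517) (.f (nat_lit 335) (nat_lit 366) (nat_lit 6478) (.f (nat_lit 400) (nat_lit 368) (nat_lit 7503) (.f (nat_lit 401) (nat_lit 429) (nat_lit 2445) (.d (nat_lit 402) (nat_lit 403) (nat_lit 1423) (nat_lit 433) (nat_lit 2446)))))))))))) (.a (.p (nat_lit 368) (.a (.f (nat_lit 400) (nat_lit 335) (nat_lit 7503) (.f (nat_lit 369) (nat_lit 337) (nat_lit 6480) (.f (nat_lit 465) (nat_lit 497) (nat_lit 4464) (.f (nat_lit 433) (nat_lit 336) (nat_lit 4432) (.f (nat_lit 466) (nat_lit 431) (nat_lit 430) (.f (nat_lit 401) (nat_lit 498) (nat_lit 4465) (.d (nat_lit 402) (nat_lit 366) (nat_lit 366) (nat_lit 403) (nat_lit 3439)))))))) (.a (.p (nat_lit 465) (.a (.f (nat_lit 400) (nat_lit 497) (nat_lit 4464) (.f (nat_lit 433) (nat_lit 336) (nat_lit 4432) (.f (nat_lit 369) (nat_lit 337) (nat_lit 6480) (.f (nat_lit 466) (nat_lit 431) (nat_lit 430) (.f (nat_lit 401) (nat_lit 498) (nat_lit 4465) (.d (nat_lit 402) (nat_lit 366) (nat_lit 366) (nat_lit 403) (nat_lit 3439))))))) (.a (.f (nat_lit 559) (nat_lit 591) (nat_lit 4558) (.f (nat_lit 561) (nat_lit 525) (nat_lit 3597) (.f (nat_lit 594) (nat_lit 593) (nat_lit 558) (.f (nat_lit 562) (nat_lit 595) (nat_lit 559) (.f (nat_lit 531) (nat_lit 530) (nat_lit 2575) (.f (nat_lit 563) (nat_lit 532) (nat_lit 2576) (.f (nat_lit 467) (nat_lit 499) (nat_lit 5586) (.f (nat_lit 466) (nat_lit 431) (nat_lit 3503) (.f (nat_lit 468) (nat_lit 433) (nat_lit 3504) (.d (nat_lit 436) (nat_lit 435) (nat_lit 2480) (nat_lit 437) (nat_lit 2481))))))))))) (.a (.f (nat_lit 400) (nat_lit 497) (nat_lit 4464) (.f (nat_lit 369) (nat_lit 337) (nat_lit 6480) (.f (nat_lit 433) (nat_lit 336) (nat_lit 4432) (.f (nat_lit 559) (nat_lit 591) (nat_lit 4558) (.f (nat_lit 561) (nat_lit 525) (nat_lit 3597) (.f (nat_lit 594) (nat_lit 593) (nat_lit 558) (.f (nat_lit 562) (nat_lit 595) (nat_lit 559) (.f (nat_lit 531) (nat_lit 530) (nat_lit 2575) (.f (nat_lit 563) (nat_lit 532) (nat_lit 2576) (.f (nat_lit 467) (nat_lit 499) (nat_lit 5586) (.f (nat_lit 466) (nat_lit 468) (nat_lit 3504) (.f (nat_lit 401) (nat_lit 498) (nat_lit 4465) (.d (nat_lit 402) (nat_lit 366) (nat_lit 366) (nat_lit 403) (nat_lit 3439)))))))))))))) (.f (nat_lit 559) (nat_lit 591) (nat_lit 4558) (.f (nat_lit 561) (nat_lit 525) (nat_lit 3597) (.f (nat_lit 594) (nat_lit 593) (nat_lit 558) (.f (nat_lit 562) (nat_lit 595) (nat_lit 559) (.f (nat_lit 530) (nat_lit 531) (nat_lit 2575) (.d (nat_lit 497) (nat_lit 400) (nat_lit 4464) (nat_lit 498) (nat_lit 7633))))))))))) (.a s76954 (.a (.f (nat_lit 559) (nat_lit 591) (nat_lit 4558) (.f (nat_lit 525) (nat_lit 561) (nat_lit 3597) (.f (nat_lit 398) (nat_lit 493) (nat_lit 5517) (.f (nat_lit 366) (nat_lit 335) (nat_lit 6478) (.f (nat_lit 369) (nat_lit 397) (nat_lit 1389) (.f (nat_lit 401) (nat_lit 402) (nat_lit 366) (.d (nat_lit 337) (nat_lit 338) (nat_lit 2382) (nat_lit 433) (nat_lit 5456)))))))) (.f (nat_lit 400) (nat_lit 335) (nat_lit 7503) (.f (nat_lit 559) (nat_lit 591) (nat_lit 4558) (.f (nat_lit 525) (nat_lit 561) (nat_lit 3597) (.f (nat_lit 369) (nat_lit 337) (nat_lit 6480) (.f (nat_lit 398) (nat_lit 493) (nat_lit 5517) (.f (nat_lit 366) (nat_lit 397) (nat_lit 1389) (.f (nat_lit 402) (nat_lit 401) (nat_lit 366) (.f (nat_lit 370) (nat_lit 403) (nat_lit 367) (.f (nat_lit 339) (nat_lit 338) (nat_lit 2383) (.f (nat_lit 371) (nat_lit 340) (nat_lit 2384) (.f (nat_lit 466) (nat_lit 434) (nat_lit 6482) (.f (nat_lit 465) (nat_lit 497) (nat_lit 4464) (.f (nat_lit 467) (nat_lit 431) (nat_lit 3503) (.f (nat_lit 436) (nat_lit 435) (nat_lit 2480) (.f (nat_lit 468) (nat_lit 437) (nat_lit 2481) (.d (nat_lit 500) (nat_lit 499) (nat_lit 464) (nat_lit 501) (nat_lit 465)))))))))))))))))))))) (.a (.p (nat_lit 368) (.a (.f (nat_lit 559) (nat_lit 591) (nat_lit 4558) (.f (nat_lit 525) (nat_lit 561) (nat_lit 3597) (.f (nat_lit 398) (nat_lit 493) (nat_lit 5517) (.f (nat_lit 366) (nat_lit 335) (nat_lit 6478) (.f (nat_lit 369) (nat_lit 397) (nat_lit 1389) (.f (nat_lit 401) (nat_lit 402) (nat_lit 366) (.d (nat_lit 337) (nat_lit 338) (nat_lit 2382) (nat_lit 433) (nat_lit 5456)))))))) (.a (.p (nat_lit 369) (.a (.f (nat_lit 337) (nat_lit 400) (nat_lit 6480) (.f (nat_lit 401) (nat_lit 433) (nat_lit 5456) (.d (nat_lit 366) (nat_lit 338) (nat_lit 2382) (nat_lit 402) (nat_lit 366)))) (.a (.f (nat_lit 559) (nat_lit 591) (nat_lit 4558) (.f (nat_lit 561) (nat_lit 525) (nat_lit 3597) (.f (nat_lit 594) (nat_lit 593) (nat_lit 558) (.f (nat_lit 562) (nat_lit 595) (nat_lit 559) (.f (nat_lit 531) (nat_lit 530) (nat_lit 2575) (.f (nat_lit 563) (nat_lit 532) (nat_lit 2576) (.f (nat_lit 397) (nat_lit 429) (nat_lit 7565) (.f (nat_lit 366) (nat_lit 398) (nat_lit 1389) (.f (nat_lit 402) (nat_lit 401) (nat_lit 366) (.f (nat_lit 370) (nat_lit 403) (nat_lit 367) (.f (nat_lit 467) (nat_lit 499) (nat_lit 5586) (.f (nat_lit 338) (nat_lit 339) (nat_lit 2383) (.f (nat_lit 434) (nat_lit 435) (nat_lit 4434) (.f (nat_lit 465) (nat_lit 433) (nat_lit 5457) (.d (nat_lit 497) (nat_lit 400) (nat_lit 4464) (nat_lit 466) (nat_lit 5489)))))))))))))))) (.a (.f (nat_lit 559) (nat_lit 591) (nat_lit 4558) (.f (nat_lit 561) (nat_lit 525) (nat_lit 3597) (.f (nat_lit 400) (nat_lit 337) (nat_lit 6480) (.f (nat_lit 465) (nat_lit 497) (nat_lit 4464) (.f (nat_lit 433) (nat_lit 336) (nat_lit 4432) (.f (nat_lit 594) (nat_lit 593) (nat_lit 558) (.f (nat_lit 562) (nat_lit 595) (nat_lit 559) (.f (nat_lit 530) (nat_lit 531) (nat_lit 2575) (.f (nat_lit 466) (nat_lit 498) (nat_lit 7601) (.f (nat_lit 467) (nat_lit 468) (nat_lit 3504) (.f (nat_lit 499) (nat_lit 500) (nat_lit 464) (.f (nat_lit 397) (nat_lit 429) (nat_lit 7565) (.f (nat_lit 366) (nat_lit 398) (nat_lit 1389) (.f (nat_lit 402) (nat_lit 401) (nat_lit 366) (.d (nat_lit 370) (nat_lit 403) (nat_lit 367) (nat_lit 434) (nat_lit 4466)))))))))))))))) (.a (.f (nat_lit 559) (nat_lit 591) (nat_lit 4558) (.f (nat_lit 561) (nat_lit 525) (nat_lit 3597) (.f (nat_lit 400) (nat_lit 337) (nat_lit 6480) (.f (nat_lit 465) (nat_lit 497) (nat_lit 4464) (.f (nat_lit 433) (nat_lit 336) (nat_lit 4432) (.f (nat_lit 594) (nat_lit 593) (nat_lit 558) (.f (nat_lit 562) (nat_lit 595) (nat_lit 559) (.f (nat_lit 531) (nat_lit 530) (nat_lit 2575) (.f (nat_lit 563) (nat_lit 532) (nat_lit 2576) (.f (nat_lit 467) (nat_lit 499) (nat_lit 5586) (.f (nat_lit 466) (nat_lit 468) (nat_lit 3504) (.f (nat_lit 401) (nat_lit 498) (nat_lit 4465) (.f (nat_lit 370) (nat_lit 338) (nat_lit 6481) (.f (nat_lit 403) (nat_lit 402) (nat_lit 3439) (.d (nat_lit 371) (nat_lit 372) (nat_lit 1392) (nat_lit 404) (nat_lit 368)))))))))))))))) (.a (.f (nat_lit 397) (nat_lit 429) (nat_lit 7565) (.f (nat_lit 366) (nat_lit 398) (nat_lit 1389) (.f (nat_lit 401) (nat_lit 402) (nat_lit 366) (.d (nat_lit 337) (nat_lit 338) (nat_lit 2382) (nat_lit 433) (nat_lit 5456))))) (.f (nat_lit 337) (nat_lit 400) (nat_lit 6480) (.f (nat_lit 338) (nat_lit 366) (nat_lit 2382) (.d (nat_lit 339) (nat_lit 336) (nat_lit 1359) (nat_lit 340) (nat_lit 1360)))))))))) (.a (.f (nat_lit 559) (nat_lit 591) (nat_lit 4558) (.f (nat_lit 525) (nat_lit 561) (nat_lit 3597) (.f (nat_lit 335) (nat_lit 400) (nat_lit 7503) (.d (nat_lit 398) (nat_lit 366) (nat_lit 6478) (nat_lit 493) (nat_lit 5517))))) (.f (nat_lit 400) (nat_lit 335) (nat_lit 7503) (.f (nat_lit 337) (nat_lit 369) (nat_lit 6480) (.f (nat_lit 336) (nat_lit 305) (nat_lit 6448) (.d (nat_lit 465) (nat_lit 433) (nat_lit 4432) (nat_lit 497) (nat_lit 4464))))))))) (.a (.f (nat_lit 559) (nat_lit 591) (nat_lit 4558) (.f (nat_lit 525) (nat_lit 561) (nat_lit 3597) (.f (nat_lit 429) (nat_lit 397) (nat_lit 7565) (.f (nat_lit 431) (nat_lit 465) (nat_lit 429) (.f (nat_lit 400) (nat_lit 401) (nat_lit 2445) (.f (nat_lit 335) (nat_lit 368) (nat_lit 7503) (.d (nat_lit 398) (nat_lit 366) (nat_lit 6478) (nat_lit 493) (nat_lit 5517)))))))) (.a (.p (nat_lit 398) (.a (.f (nat_lit 559) (nat_lit 591) (nat_lit 4558) (.d (nat_lit 525) (nat_lit 493) (nat_lit 5517) (nat_lit 561) (nat_lit 3597))) (.a (.p (nat_lit 431) (.a (.d (nat_lit 397) (nat_lit 429) (nat_lit 7565) (nat_lit 433) (nat_lit 3469)) (.a (.f (nat_lit 335) (nat_lit 366) (nat_lit 6478) (.f (nat_lit 400) (nat_lit 368) (nat_lit 7503) (.f (nat_lit 401) (nat_lit 429) (nat_lit 2445) (.d (nat_lit 402) (nat_lit 403) (nat_lit 1423) (nat_lit 433) (nat_lit 2446))))) (.a (.f (nat_lit 559) (nat_lit 591) (nat_lit 4558) (.f (nat_lit 561) (nat_lit 525) (nat_lit 3597) (.f (nat_lit 433) (nat_lit 397) (nat_lit 3469) (.f (nat_lit 335) (nat_lit 366) (nat_lit 6478) (.f (nat_lit 401) (nat_lit 402) (nat_lit 2446) (.f (nat_lit 400) (nat_lit 368) (nat_lit 7503) (.f (nat_lit 594) (nat_lit 593) (nat_lit 558) (.f (nat_lit 562) (nat_lit 595) (nat_lit 559) (.f (nat_lit 531) (nat_lit 530) (nat_lit 2575) (.f (nat_lit 563) (nat_lit 532) (nat_lit 2576) (.f (nat_lit 467) (nat_lit 499) (nat_lit 5586) (.f (nat_lit 434) (nat_lit 466) (nat_lit 431) (.d (nat_lit 435) (nat_lit 436) (nat_lit 3472) (nat_lit 468) (nat_lit 432)))))))))))))) (.f (nat_lit 429) (nat_lit 397) (nat_lit 7565) (.f (nat_lit 400) (nat_lit 401) (nat_lit 2445) (.d (nat_lit 335) (nat_lit 366) (nat_lit 6478) (nat_lit 368) (nat_lit 7503)))))))) (.p (nat_lit 431) (.a (.d (nat_lit 397) (nat_lit 429) (nat_lit 7565) (nat_lit 433) (nat_lit 3469)) (.a (.f (nat_lit 335) (nat_lit 366) (nat_lit 6478) (.f (nat_lit 400) (nat_lit 368) (nat_lit 7503) (.f (nat_lit 401) (nat_lit 429) (nat_lit 2445) (.d (nat_lit 402) (nat_lit 403) (nat_lit 1423) (nat_lit 433) (nat_lit 2446))))) (.a (.f (nat_lit 433) (nat_lit 397) (nat_lit 3469) (.f (nat_lit 401) (nat_lit 402) (nat_lit 2446) (.f (nat_lit 335) (nat_lit 366) (nat_lit 6478) (.f (nat_lit 369) (nat_lit 337) (nat_lit 5456) (.f (nat_lit 368) (nat_lit 400) (nat_lit 7503) (.f (nat_lit 370) (nat_lit 334) (nat_lit 3406) (.f (nat_lit 371) (nat_lit 336) (nat_lit 3407) (.d (nat_lit 339) (nat_lit 338) (nat_lit 2383) (nat_lit 340) (nat_lit 2384))))))))) (.f (nat_lit 429) (nat_lit 397) (nat_lit 7565) (.f (nat_lit 400) (nat_lit 401) (nat_lit 2445) (.d (nat_lit 335) (nat_lit 366) (nat_lit 6478) (nat_lit 368) (nat_lit 7503))))))))))) (.p (nat_lit 400) (.a (.f (nat_lit 368) (nat_lit 335) (nat_lit 7503) (.f (nat_lit 465) (nat_lit 497) (nat_lit 4464) (.d (nat_lit 429) (nat_lit 397) (nat_lit 7565) (nat_lit 431) (nat_lit 429)))) (.a (.f (nat_lit 429) (nat_lit 397) (nat_lit 7565) (.d (nat_lit 431) (nat_lit 401) (nat_lit 2445) (nat_lit 465) (nat_lit 429))) (.a (.f (nat_lit 368) (nat_lit 335) (nat_lit 7503) (.f (nat_lit 465) (nat_lit 497) (nat_lit 4464) (.f (nat_lit 431) (nat_lit 429) (nat_lit 429) (.d (nat_lit 433) (nat_lit 336) (nat_lit 4432) (nat_lit 466) (nat_lit 430))))) (.a (.f (nat_lit 368) (nat_lit 335) (nat_lit 7503) (.f (nat_lit 369) (nat_lit 337) (nat_lit 6480) (.f (nat_lit 465) (nat_lit 497) (nat_lit 4464) (.f (nat_lit 433) (nat_lit 336) (nat_lit 4432) (.f (nat_lit 466) (nat_lit 431) (nat_lit 430) (.f (nat_lit 401) (nat_lit 498) (nat_lit 4465) (.d (nat_lit 402) (nat_lit 366) (nat_lit 366) (nat_lit 403) (nat_lit 3439)))))))) (.a (.f (nat_lit 368) (nat_lit 335) (nat_lit 7503) (.f (nat_lit 369) (nat_lit 337) (nat_lit 6480) (.f (nat_lit 465) (nat_lit 497) (nat_lit 4464) (.f (nat_lit 433) (nat_lit 336) (nat_lit 4432) (.f (nat_lit 397) (nat_lit 429) (nat_lit 7565) (.f (nat_lit 366) (nat_lit 398) (nat_lit 1389) (.f (nat_lit 401) (nat_lit 402) (nat_lit 366) (.f (nat_lit 370) (nat_lit 338) (nat_lit 6481) (.f (nat_lit 371) (nat_lit 372) (nat_lit 1392) (.f (nat_lit 466) (nat_lit 498) (nat_lit 4465) (.f (nat_lit 467) (nat_lit 468) (nat_lit 3504) (.f (nat_lit 435) (nat_lit 436) (nat_lit 2480) (.f (nat_lit 403) (nat_lit 404) (nat_lit 368) (.d (nat_lit 339) (nat_lit 340) (nat_lit 2384) (nat_lit 434) (nat_lit 5458))))))))))))))) (.f (nat_lit 368) (nat_lit 335) (nat_lit 7503) (.f (nat_lit 369) (nat_lit 337) (nat_lit 6480) (.f (nat_lit 429) (nat_lit 397) (nat_lit 7565) (.f (nat_lit 401) (nat_lit 431) (nat_lit 2445) (.d (nat_lit 402) (nat_lit 366) (nat_lit 366) (nat_lit 403) (nat_lit 3439)))))))))))))))))))))) (.a (.f (nat_lit 527) (nat_lit 559) (nat_lit 4526) (.f (nat_lit 525) (nat_lit 561) (nat_lit 525) (.d (nat_lit 398) (nat_lit 493) (nat_lit 5517) (nat_lit 495) (nat_lit 4494)))) (.a (.f (nat_lit 525) (nat_lit 557) (nat_lit 5549) (.f (nat_lit 527) (nat_lit 561) (nat_lit 525) (.d (nat_lit 493) (nat_lit 398) (nat_lit 5517) (nat_lit 492) (nat_lit 3564)))) (.f (nat_lit 527) (nat_lit 559) (nat_lit 4526) (.f (nat_lit 525) (nat_lit 557) (nat_lit 5549) (.d (nat_lit 398) (nat_lit 493) (nat_lit 5517) (nat_lit 495) (nat_lit 4494)))))))))) (.a (.p (nat_lit 526) (.a (.f (nat_lit 527) (nat_lit 559) (nat_lit 4526) (.d (nat_lit 525) (nat_lit 557) (nat_lit 5549) (nat_lit 561) (nat_lit 525))) (.a (.f (nat_lit 559) (nat_lit 527) (nat_lit 4526) (.f (nat_lit 558) (nat_lit 591) (nat_lit 4558) (.f (nat_lit 589) (nat_lit 557) (nat_lit 5581) (.d (nat_lit 590) (nat_lit 561) (nat_lit 1581) (nat_lit 621) (nat_lit 5613))))) (.a (.p (nat_lit 558) (.a (.d (nat_lit 557) (nat_lit 525) (nat_lit 5549) (nat_lit 589) (nat_lit 5581)) (.a (.f (nat_lit 589) (nat_lit 557) (nat_lit 5581) (.f (nat_lit 590) (nat_lit 621) (nat_lit 5613) (.d (nat_lit 591) (nat_lit 559) (nat_lit 4558) (nat_lit 623) (nat_lit 4590)))) (.p (nat_lit 366) (.a (.f (nat_lit 398) (nat_lit 335) (nat_lit 6478) (.f (nat_lit 559) (nat_lit 591) (nat_lit 4558) (.d (nat_lit 525) (nat_lit 493) (nat_lit 5517) (nat_lit 561) (nat_lit 3597)))) (.a (.p (nat_lit 368) (.a (.f (nat_lit 559) (nat_lit 591) (nat_lit 4558) (.f (nat_lit 525) (nat_lit 561) (nat_lit 3597) (.f (nat_lit 398) (nat_lit 493) (nat_lit 5517) (.f (nat_lit 365) (nat_lit 333) (nat_lit 7501) (.f (nat_lit 337) (nat_lit 336) (nat_lit 2381) (.f (nat_lit 369) (nat_lit 338) (nat_lit 2382) (.d (nat_lit 401) (nat_lit 400) (nat_lit 365) (nat_lit 402) (nat_lit 366)))))))) (.a s77214 (.a (.f (nat_lit 559) (nat_lit 591) (nat_lit 4558) (.f (nat_lit 525) (nat_lit 561) (nat_lit 3597) (.f (nat_lit 398) (nat_lit 493) (nat_lit 5517) (.f (nat_lit 333) (nat_lit 365) (nat_lit 7501) (.d (nat_lit 334) (nat_lit 301) (nat_lit 7469) (nat_lit 369) (nat_lit 3405)))))) (.a s77305 (.a (.p (nat_lit 365) (.a (.d (nat_lit 333) (nat_lit 332) (nat_lit 3404) (nat_lit 398) (nat_lit 7501)) (.a (.f (nat_lit 559) (nat_lit 591) (nat_lit 4558) (.f (nat_lit 525) (nat_lit 561) (nat_lit 3597) (.d (nat_lit 398) (nat_lit 333) (nat_lit 7501) (nat_lit 493) (nat_lit 5517)))) s77343))) (.p (nat_lit 365) (.a (.d (nat_lit 333) (nat_lit 332) (nat_lit 3404) (nat_lit 398) (nat_lit 7501)) (.f (nat_lit 337) (nat_lit 336) (nat_lit 2381) (.f (nat_lit 369) (nat_lit 338) (nat_lit 2382) (.d (nat_lit 401) (nat_lit 400) (nat_lit 365) (nat_lit 402) (nat_lit 366)))))))))))) (.a (.p (nat_lit 368) (.a s77214 (.a s77305 (.a (.p (nat_lit 369) (.a (.f (nat_lit 401) (nat_lit 402) (nat_lit 366) (.f (nat_lit 337) (nat_lit 338) (nat_lit 2382) (.d (nat_lit 432) (nat_lit 400) (nat_lit 6480) (nat_lit 433) (nat_lit 5456)))) (.a (.f (nat_lit 401) (nat_lit 402) (nat_lit 366) (.f (nat_lit 400) (nat_lit 365) (nat_lit 365) (.f (nat_lit 432) (nat_lit 335) (nat_lit 7503) (.f (nat_lit 465) (nat_lit 497) (nat_lit 4464) (.f (nat_lit 431) (nat_lit 429) (nat_lit 429) (.d (nat_lit 466) (nat_lit 433) (nat_lit 430) (nat_lit 467) (nat_lit 3503))))))) (.a (.f (nat_lit 559) (nat_lit 591) (nat_lit 4558) (.f (nat_lit 561) (nat_lit 525) (nat_lit 3597) (.f (nat_lit 338) (nat_lit 337) (nat_lit 2382) (.f (nat_lit 370) (nat_lit 339) (nat_lit 2383) (.f (nat_lit 403) (nat_lit 402) (nat_lit 367) (.f (nat_lit 371) (nat_lit 404) (nat_lit 368) (.f (nat_lit 594) (nat_lit 593) (nat_lit 558) (.f (nat_lit 562) (nat_lit 595) (nat_lit 559) (.f (nat_lit 531) (nat_lit 530) (nat_lit 2575) (.f (nat_lit 563) (nat_lit 532) (nat_lit 2576) (.d (nat_lit 467) (nat_lit 435) (nat_lit 7506) (nat_lit 499) (nat_lit 5586)))))))))))) (.f (nat_lit 337) (nat_lit 338) (nat_lit 2382) (.f (nat_lit 400) (nat_lit 432) (nat_lit 6480) (.f (nat_lit 334) (nat_lit 333) (nat_lit 3405) (.f (nat_lit 335) (nat_lit 370) (nat_lit 3406) (.f (nat_lit 303) (nat_lit 271) (nat_lit 4367) (.f (nat_lit 305) (nat_lit 273) (nat_lit 5392) (.f (nat_lit 401) (nat_lit 365) (nat_lit 365) (.d (nat_lit 306) (nat_lit 274) (nat_lit 6417) (nat_lit 304) (nat_lit 1326))))))))))))) (.a (.p (nat_lit 369) (.a (.f (nat_lit 401) (nat_lit 402) (nat_lit 366) (.f (nat_lit 400) (nat_lit 365) (nat_lit 365) (.f (nat_lit 432) (nat_lit 335) (nat_lit 7503) (.f (nat_lit 465) (nat_lit 497) (nat_lit 4464) (.f (nat_lit 431) (nat_lit 429) (nat_lit 429) (.d (nat_lit 466) (nat_lit 433) (nat_lit 430) (nat_lit 467) (nat_lit 3503))))))) (.a (.f (nat_lit 401) (nat_lit 402) (nat_lit 366) (.f (nat_lit 365) (nat_lit 400) (nat_lit 365) (.d (nat_lit 333) (nat_lit 332) (nat_lit 3404) (nat_lit 334) (nat_lit 3405)))) (.a (.f (nat_lit 334) (nat_lit 333) (nat_lit 3405) (.f (nat_lit 370) (nat_lit 335) (nat_lit 3406) (.d (nat_lit 402) (nat_lit 401) (nat_lit 366) (nat_lit 403) (nat_lit 367)))) (.a (.f (nat_lit 334) (nat_lit 333) (nat_lit 3405) (.f (nat_lit 370) (nat_lit 335) (nat_lit 3406) (.f (nat_lit 403) (nat_lit 402) (nat_lit 367) (.f (nat_lit 371) (nat_lit 404) (nat_lit 368) (.d (nat_lit 339) (nat_lit 338) (nat_lit 2383) (nat_lit 340) (nat_lit 2384)))))) (.f (nat_lit 334) (nat_lit 333) (nat_lit 3405) (.f (nat_lit 335) (nat_lit 370) (nat_lit 3406) (.f (nat_lit 400) (nat_lit 432) (nat_lit 7503) (.f (nat_lit 365) (nat_lit 401) (nat_lit 365) (.d (nat_lit 364) (nat_lit 336) (nat_lit 2380) (nat_lit 363) (nat_lit 2379))))))))))) (.a (.p (nat_lit 365) (.a (.f (nat_lit 400) (nat_lit 401) (nat_lit 365) (.f (nat_lit 335) (nat_lit 432) (nat_lit 7503) (.d (nat_lit 336) (nat_lit 337) (nat_lit 2381) (nat_lit 364) (nat_lit 2380)))) (.a (.f (nat_lit 333) (nat_lit 332) (nat_lit 3404) (.f (nat_lit 369) (nat_lit 334) (nat_lit 3405) (.d (nat_lit 401) (nat_lit 400) (nat_lit 365) (nat_lit 402) (nat_lit 366)))) (.f (nat_lit 333) (nat_lit 332) (nat_lit 3404) (.f (nat_lit 334) (nat_lit 369) (nat_lit 3405) (.f (nat_lit 336) (nat_lit 337) (nat_lit 2381) (.f (nat_lit 364) (nat_lit 335) (nat_lit 2380) (.f (nat_lit 363) (nat_lit 362) (nat_lit 2378) (.d (nat_lit 395) (nat_lit 394) (nat_lit 1386) (nat_lit 396) (nat_lit 1387)))))))))) (.a (.p (nat_lit 365) (.a s77343 (.a (.f (nat_lit 400) (nat_lit 401) (nat_lit 365) (.f (nat_lit 332) (nat_lit 333) (nat_lit 3404) (.f (nat_lit 364) (nat_lit 331) (nat_lit 3403) (.f (nat_lit 395) (nat_lit 396) (nat_lit 1387) (.f (nat_lit 363) (nat_lit 394) (nat_lit 1386) (.d (nat_lit 335) (nat_lit 334) (nat_lit 2379) (nat_lit 432) (nat_lit 7503))))))) (.f (nat_lit 332) (nat_lit 333) (nat_lit 3404) (.f (nat_lit 364) (nat_lit 331) (nat_lit 3403) (.d (nat_lit 336) (nat_lit 335) (nat_lit 2380) (nat_lit 337) (nat_lit 2381))))))) (.a (.p (nat_lit 369) (.a (.f (nat_lit 337) (nat_lit 338) (nat_lit 2382) (.f (nat_lit 401) (nat_lit 402) (nat_lit 366) (.f (nat_lit 336) (nat_lit 365) (nat_lit 2381) (.d (nat_lit 433) (nat_lit 304) (nat_lit 7472) (nat_lit 432) (nat_lit 5456))))) (.a (.f (nat_lit 559) (nat_lit 591) (nat_lit 4558) (.f (nat_lit 561) (nat_lit 525) (nat_lit 3597) (.f (nat_lit 338) (nat_lit 337) (nat_lit 2382) (.f (nat_lit 370) (nat_lit 339) (nat_lit 2383) (.f (nat_lit 403) (nat_lit 402) (nat_lit 367) (.f (nat_lit 371) (nat_lit 404) (nat_lit 368) (.f (nat_lit 594) (nat_lit 593) (nat_lit 558) (.f (nat_lit 562) (nat_lit 595) (nat_lit 559) (.f (nat_lit 531) (nat_lit 530) (nat_lit 2575) (.f (nat_lit 563) (nat_lit 532) (nat_lit 2576) (.d (nat_lit 467) (nat_lit 435) (nat_lit 7506) (nat_lit 499) (nat_lit 5586)))))))))))) (.a (.f (nat_lit 334) (nat_lit 333) (nat_lit 3405) (.f (nat_lit 370) (nat_lit 335) (nat_lit 3406) (.d (nat_lit 402) (nat_lit 401) (nat_lit 366) (nat_lit 403) (nat_lit 367)))) (.f (nat_lit 337) (nat_lit 338) (nat_lit 2382) (.f (nat_lit 336) (nat_lit 365) (nat_lit 2381) (.f (nat_lit 334) (nat_lit 333) (nat_lit 3405) (.f (nat_lit 335) (nat_lit 370) (nat_lit 334) (.f (nat_lit 305) (nat_lit 306) (nat_lit 2350) (.f (nat_lit 273) (nat_lit 241) (nat_lit 5360) (.f (nat_lit 272) (nat_lit 240) (nat_lit 7408) (.f (nat_lit 304) (nat_lit 401) (nat_lit 4368) (.f (nat_lit 302) (nat_lit 301) (nat_lit 3373) (.d (nat_lit 274) (nat_lit 242) (nat_lit 6385) (nat_lit 303) (nat_lit 2318))))))))))))))) (.a (.p (nat_lit 369) (.a (.f (nat_lit 559) (nat_lit 591) (nat_lit 4558) (.f (nat_lit 561) (nat_lit 525) (nat_lit 3597) (.f (nat_lit 338) (nat_lit 337) (nat_lit 2382) (.f (nat_lit 370) (nat_lit 339) (nat_lit 2383) (.f (nat_lit 403) (nat_lit 402) (nat_lit 367) (.f (nat_lit 371) (nat_lit 404) (nat_lit 368) (.f (nat_lit 594) (nat_lit 593) (nat_lit 558) (.f (nat_lit 562) (nat_lit 595) (nat_lit 559) (.f (nat_lit 531) (nat_lit 530) (nat_lit 2575) (.f (nat_lit 563) (nat_lit 532) (nat_lit 2576) (.d (nat_lit 467) (nat_lit 435) (nat_lit 7506) (nat_lit 499) (nat_lit 5586)))))))))))) (.a (.f (nat_lit 334) (nat_lit 333) (nat_lit 3405) (.f (nat_lit 370) (nat_lit 335) (nat_lit 3406) (.f (nat_lit 403) (nat_lit 402) (nat_lit 367) (.f (nat_lit 371) (nat_lit 404) (nat_lit 368) (.d (nat_lit 339) (nat_lit 338) (nat_lit 2383) (nat_lit 340) (nat_lit 2384)))))) (.a (.f (nat_lit 559) (nat_lit 591) (nat_lit 4558) (.f (nat_lit 561) (nat_lit 525) (nat_lit 3597) (.f (nat_lit 334) (nat_lit 333) (nat_lit 3405) (.f (nat_lit 370) (nat_lit 335) (nat_lit 3406) (.f (nat_lit 594) (nat_lit 593) (nat_lit 558) (.f (nat_lit 562) (nat_lit 595) (nat_lit 559) (.f (nat_lit 531) (nat_lit 530) (nat_lit 2575) (.f (nat_lit 563) (nat_lit 532) (nat_lit 2576) (.f (nat_lit 403) (nat_lit 402) (nat_lit 367) (.f (nat_lit 371) (nat_lit 404) (nat_lit 368) (.f (nat_lit 340) (nat_lit 339) (nat_lit 2384) (.f (nat_lit 372) (nat_lit 341) (nat_lit 2385) (.d (nat_lit 467) (nat_lit 435) (nat_lit 6483) (nat_lit 499) (nat_lit 5586)))))))))))))) (.a (.f (nat_lit 337) (nat_lit 338) (nat_lit 2382) (.f (nat_lit 336) (nat_lit 365) (nat_lit 2381) (.f (nat_lit 400) (nat_lit 432) (nat_lit 6480) (.f (nat_lit 334) (nat_lit 333) (nat_lit 3405) (.f (nat_lit 335) (nat_lit 370) (nat_lit 334) (.d (nat_lit 305) (nat_lit 273) (nat_lit 5392) (nat_lit 306) (nat_lit 2350))))))) (.f (nat_lit 337) (nat_lit 338) (nat_lit 2382) (.f (nat_lit 365) (nat_lit 336) (nat_lit 2381) (.d (nat_lit 333) (nat_lit 332) (nat_lit 3404) (nat_lit 334) (nat_lit 3405))))))))) (.p (nat_lit 369) (.a (.f (nat_lit 337) (nat_lit 338) (nat_lit 2382) (.f (nat_lit 401) (nat_lit 402) (nat_lit 366) (.d (nat_lit 365) (nat_lit 336) (nat_lit 2381) (nat_lit 400) (nat_lit 365)))) (.a (.f (nat_lit 559) (nat_lit 591) (nat_lit 4558) (.f (nat_lit 561) (nat_lit 525) (nat_lit 3597) (.f (nat_lit 338) (nat_lit 337) (nat_lit 2382) (.f (nat_lit 370) (nat_lit 339) (nat_lit 2383) (.f (nat_lit 403) (nat_lit 402) (nat_lit 367) (.f (nat_lit 371) (nat_lit 404) (nat_lit 368) (.f (nat_lit 594) (nat_lit 593) (nat_lit 558) (.f (nat_lit 562) (nat_lit 595) (nat_lit 559) (.f (nat_lit 531) (nat_lit 530) (nat_lit 2575) (.f (nat_lit 563) (nat_lit 532) (nat_lit 2576) (.d (nat_lit 467) (nat_lit 435) (nat_lit 7506) (nat_lit 499) (nat_lit 5586)))))))))))) (.a (.f (nat_lit 401) (nat_lit 402) (nat_lit 366) (.f (nat_lit 365) (nat_lit 400) (nat_lit 365) (.d (nat_lit 333) (nat_lit 332) (nat_lit 3404) (nat_lit 334) (nat_lit 3405)))) (.f (nat_lit 337) (nat_lit 338) (nat_lit 2382) (.f (nat_lit 336) (nat_lit 365) (nat_lit 2381) (.f (nat_lit 334) (nat_lit 333) (nat_lit 3405) (.f (nat_lit 335) (nat_lit 370) (nat_lit 334) (.f (nat_lit 305) (nat_lit 306) (nat_lit 2350) (.f (nat_lit 273) (nat_lit 241) (nat_lit 5360) (.f (nat_lit 272) (nat_lit 240) (nat_lit 7408) (.f (nat_lit 304) (nat_lit 401) (nat_lit 4368) (.f (nat_lit 302) (nat_lit 301) (nat_lit 3373) (.d (nat_lit 274) (nat_lit 242) (nat_lit 6385) (nat_lit 303) (nat_lit 2318)))))))))))))))))))))))) (.p (nat_lit 365) (.a (.d (nat_lit 398) (nat_lit 333) (nat_lit 7501) (nat_lit 335) (nat_lit 6478)) (.a (.f (nat_lit 335) (nat_lit 398) (nat_lit 6478) (.f (nat_lit 364) (nat_lit 336) (nat_lit 2380) (.f (nat_lit 363) (nat_lit 334) (nat_lit 2379) (.d (nat_lit 395) (nat_lit 394) (nat_lit 1386) (nat_lit 396) (nat_lit 1387))))) (.a (.f (nat_lit 333) (nat_lit 398) (nat_lit 7501) (.f (nat_lit 368) (nat_lit 332) (nat_lit 3404) (.f (nat_lit 369) (nat_lit 334) (nat_lit 3405) (.d (nat_lit 337) (nat_lit 336) (nat_lit 2381) (nat_lit 338) (nat_lit 2382))))) (.p (nat_lit 368) (.a (.f (nat_lit 337) (nat_lit 336) (nat_lit 2381) (.f (nat_lit 369) (nat_lit 338) (nat_lit 2382) (.d (nat_lit 401) (nat_lit 400) (nat_lit 365) (nat_lit 402) (nat_lit 366)))) (.a (.f (nat_lit 333) (nat_lit 332) (nat_lit 3404) (.f (nat_lit 369) (nat_lit 334) (nat_lit 3405) (.d (nat_lit 401) (nat_lit 400) (nat_lit 365) (nat_lit 402) (nat_lit 366)))) (.a (.f (nat_lit 400) (nat_lit 401) (nat_lit 365) (.f (nat_lit 335) (nat_lit 432) (nat_lit 7503) (.d (nat_lit 336) (nat_lit 337) (nat_lit 2381) (nat_lit 364) (nat_lit 2380)))) (.f (nat_lit 333) (nat_lit 332) (nat_lit 3404) (.f (nat_lit 334) (nat_lit 369) (nat_lit 3405) (.f (nat_lit 336) (nat_lit 337) (nat_lit 2381) (.f (nat_lit 364) (nat_lit 335) (nat_lit 2380) (.f (nat_lit 363) (nat_lit 362) (nat_lit 2378) (.d (nat_lit 395) (nat_lit 394) (nat_lit 1386) (nat_lit 396) (nat_lit 1387)))))))))))))))))))))) (.a (.f (nat_lit 527) (nat_lit 559) (nat_lit 4526) (.f (nat_lit 525) (nat_lit 561) (nat_lit 525) (.d (nat_lit 398) (nat_lit 493) (nat_lit 5517) (nat_lit 495) (nat_lit 4494)))) (.a (.f (nat_lit 525) (nat_lit 557) (nat_lit 5549) (.f (nat_lit 527) (nat_lit 561) (nat_lit 525) (.d (nat_lit 493) (nat_lit 398) (nat_lit 5517) (nat_lit 492) (nat_lit 3564)))) (.f (nat_lit 527) (nat_lit 559) (nat_lit 4526) (.f (nat_lit 525) (nat_lit 557) (nat_lit 5549) (.d (nat_lit 398) (nat_lit 493) (nat_lit 5517) (nat_lit 495) (nat_lit 4494)))))))))) (.a (.p (nat_lit 368) (.a (.p (nat_lit 366) (.a (.p (nat_lit 365) (.a (.f (nat_lit 333) (nat_lit 332) (nat_lit 3404) (.d (nat_lit 397) (nat_lit 396) (nat_lit 1388) (nat_lit 429) (nat_lit 4429))) (.a (.f (nat_lit 397) (nat_lit 396) (nat_lit 1388) (.d (nat_lit 429) (nat_lit 333) (nat_lit 4429) (nat_lit 526) (nat_lit 7565))) (.f (nat_lit 400) (nat_lit 401) (nat_lit 365) (.f (nat_lit 336) (nat_lit 337) (nat_lit 2381) (.d (nat_lit 335) (nat_lit 364) (nat_lit 2380) (nat_lit 432) (nat_lit 7503))))))) (.a s77488 (.a s77500 (.a s77505 (.a s77512 (.a s77518 (.p (nat_lit 369) (.a (.f (nat_lit 337) (nat_lit 338) (nat_lit 2382) (.f (nat_lit 401) (nat_lit 402) (nat_lit 366) (.d (nat_lit 432) (nat_lit 400) (nat_lit 6480) (nat_lit 433) (nat_lit 5456)))) (.a (.f (nat_lit 334) (nat_lit 333) (nat_lit 3405) (.f (nat_lit 370) (nat_lit 335) (nat_lit 3406) (.d (nat_lit 402) (nat_lit 401) (nat_lit 366) (nat_lit 403) (nat_lit 367)))) (.a (.f (nat_lit 337) (nat_lit 338) (nat_lit 2382) (.f (nat_lit 334) (nat_lit 333) (nat_lit 3405) (.f (nat_lit 370) (nat_lit 335) (nat_lit 3406) (.f (nat_lit 403) (nat_lit 402) (nat_lit 367) (.f (nat_lit 371) (nat_lit 404) (nat_lit 368) (.f (nat_lit 340) (nat_lit 339) (nat_lit 2384) (.d (nat_lit 372) (nat_lit 336) (nat_lit 3408) (nat_lit 341) (nat_lit 2385)))))))) (.f (nat_lit 337) (nat_lit 338) (nat_lit 2382) (.f (nat_lit 400) (nat_lit 432) (nat_lit 6480) (.f (nat_lit 334) (nat_lit 333) (nat_lit 3405) (.f (nat_lit 335) (nat_lit 370) (nat_lit 3406) (.f (nat_lit 305) (nat_lit 273) (nat_lit 5392) (.f (nat_lit 336) (nat_lit 306) (nat_lit 2350) (.f (nat_lit 271) (nat_lit 303) (nat_lit 4367) (.f (nat_lit 302) (nat_lit 301) (nat_lit 3373) (.d (nat_lit 270) (nat_lit 238) (nat_lit 4334) (nat_lit 239) (nat_lit 6382))))))))))))))))))))) (.a (.p (nat_lit 366) (.a (.p (nat_lit 365) (.a (.f (nat_lit 333) (nat_lit 332) (nat_lit 3404) (.d (nat_lit 397) (nat_lit 396) (nat_lit 1388) (nat_lit 429) (nat_lit 4429))) (.a (.f (nat_lit 397) (nat_lit 396) (nat_lit 1388) (.d (nat_lit 429) (nat_lit 333) (nat_lit 4429) (nat_lit 526) (nat_lit 7565))) (.f (nat_lit 400) (nat_lit 401) (nat_lit 365) (.f (nat_lit 336) (nat_lit 337) (nat_lit 2381) (.d (nat_lit 335) (nat_lit 364) (nat_lit 2380) (nat_lit 432) (nat_lit 7503))))))) (.a s77488 (.a s77500 (.a s77505 (.a s77512 (.a s77518 (.p (nat_lit 369) (.a (.f (nat_lit 337) (nat_lit 338) (nat_lit 2382) (.f (nat_lit 401) (nat_lit 402) (nat_lit 366) (.d (nat_lit 432) (nat_lit 400) (nat_lit 6480) (nat_lit 433) (nat_lit 5456)))) (.a (.f (nat_lit 334) (nat_lit 333) (nat_lit 3405) (.f (nat_lit 370) (nat_lit 335) (nat_lit 3406) (.d (nat_lit 402) (nat_lit 401) (nat_lit 366) (nat_lit 403) (nat_lit 367)))) (.a (.f (nat_lit 337) (nat_lit 338) (nat_lit 2382) (.f (nat_lit 334) (nat_lit 333) (nat_lit 3405) (.f (nat_lit 370) (nat_lit 335) (nat_lit 3406) (.f (nat_lit 403) (nat_lit 402) (nat_lit 367) (.f (nat_lit 371) (nat_lit 404) (nat_lit 368) (.f (nat_lit 340) (nat_lit 339) (nat_lit 2384) (.d (nat_lit 372) (nat_lit 336) (nat_lit 3408) (nat_lit 341) (nat_lit 2385)))))))) (.f (nat_lit 337) (nat_lit 338) (nat_lit 2382) (.f (nat_lit 400) (nat_lit 432) (nat_lit 6480) (.f (nat_lit 334) (nat_lit 333) (nat_lit 3405) (.f (nat_lit 335) (nat_lit 370) (nat_lit 3406) (.f (nat_lit 305) (nat_lit 273) (nat_lit 5392) (.f (nat_lit 306) (nat_lit 336) (nat_lit 2350) (.d (nat_lit 303) (nat_lit 271) (nat_lit 4367) (nat_lit 304) (nat_lit 1326))))))))))))))))))) (.a (.p (nat_lit 366) (.a (.p (nat_lit 365) (.a (.f (nat_lit 333) (nat_lit 332) (nat_lit 3404) (.d (nat_lit 397) (nat_lit 396) (nat_lit 1388) (nat_lit 429) (nat_lit 4429))) (.a (.f (nat_lit 397) (nat_lit 396) (nat_lit 1388) (.d (nat_lit 429) (nat_lit 333) (nat_lit 4429) (nat_lit 526) (nat_lit 7565))) (.f (nat_lit 400) (nat_lit 401) (nat_lit 365) (.f (nat_lit 336) (nat_lit 337) (nat_lit 2381) (.d (nat_lit 335) (nat_lit 364) (nat_lit 2380) (nat_lit 432) (nat_lit 7503))))))) (.a s77488 (.a s77500 (.a s77505 (.a s77512 (.a s77518 (.p (nat_lit 369) (.a (.f (nat_lit 337) (nat_lit 338) (nat_lit 2382) (.f (nat_lit 401) (nat_lit 402) (nat_lit 366) (.d (nat_lit 432) (nat_lit 400) (nat_lit 6480) (nat_lit 433) (nat_lit 5456)))) (.a (.f (nat_lit 334) (nat_lit 333) (nat_lit 3405) (.f (nat_lit 370) (nat_lit 335) (nat_lit 3406) (.d (nat_lit 402) (nat_lit 401) (nat_lit 366) (nat_lit 403) (nat_lit 367)))) (.a (.f (nat_lit 337) (nat_lit 338) (nat_lit 2382) (.f (nat_lit 334) (nat_lit 333) (nat_lit 3405) (.f (nat_lit 370) (nat_lit 335) (nat_lit 3406) (.f (nat_lit 403) (nat_lit 402) (nat_lit 367) (.f (nat_lit 371) (nat_lit 404) (nat_lit 368) (.f (nat_lit 340) (nat_lit 339) (nat_lit 2384) (.d (nat_lit 372) (nat_lit 336) (nat_lit 3408) (nat_lit 341) (nat_lit 2385)))))))) (.f (nat_lit 337) (nat_lit 338) (nat_lit 2382) (.f (nat_lit 400) (nat_lit 432) (nat_lit 6480) (.f (nat_lit 334) (nat_lit 333) (nat_lit 3405) (.f (nat_lit 305) (nat_lit 273) (nat_lit 5392) (.f (nat_lit 335) (nat_lit 370) (nat_lit 3406) (.f (nat_lit 336) (nat_lit 306) (nat_lit 2350) (.f (nat_lit 302) (nat_lit 301) (nat_lit 3373) (.f (nat_lit 270) (nat_lit 238) (nat_lit 4334) (.f (nat_lit 269) (nat_lit 237) (nat_lit 7405) (.f (nat_lit 304) (nat_lit 303) (nat_lit 3341) (.d (nat_lit 272) (nat_lit 240) (nat_lit 4336) (nat_lit 401) (nat_lit 4368))))))))))))))))))))))) (.a (.p (nat_lit 366) (.a (.p (nat_lit 365) (.a (.f (nat_lit 333) (nat_lit 332) (nat_lit 3404) (.d (nat_lit 397) (nat_lit 396) (nat_lit 1388) (nat_lit 429) (nat_lit 4429))) (.a (.f (nat_lit 397) (nat_lit 396) (nat_lit 1388) (.d (nat_lit 429) (nat_lit 333) (nat_lit 4429) (nat_lit 526) (nat_lit 7565))) (.f (nat_lit 400) (nat_lit 401) (nat_lit 365) (.f (nat_lit 336) (nat_lit 337) (nat_lit 2381) (.d (nat_lit 335) (nat_lit 364) (nat_lit 2380) (nat_lit 432) (nat_lit 7503))))))) (.a s77500 (.a s77505 (.a s77512 (.a s77518 (.p (nat_lit 369) (.a (.f (nat_lit 337) (nat_lit 338) (nat_lit 2382) (.f (nat_lit 401) (nat_lit 402) (nat_lit 366) (.d (nat_lit 432) (nat_lit 400) (nat_lit 6480) (nat_lit 433) (nat_lit 5456)))) (.a (.f (nat_lit 334) (nat_lit 333) (nat_lit 3405) (.f (nat_lit 370) (nat_lit 335) (nat_lit 3406) (.d (nat_lit 402) (nat_lit 401) (nat_lit 366) (nat_lit 403) (nat_lit 367)))) (.a (.f (nat_lit 337) (nat_lit 338) (nat_lit 2382) (.f (nat_lit 334) (nat_lit 333) (nat_lit 3405) (.f (nat_lit 370) (nat_lit 335) (nat_lit 3406) (.f (nat_lit 403) (nat_lit 402) (nat_lit 367) (.f (nat_lit 371) (nat_lit 404) (nat_lit 368) (.f (nat_lit 340) (nat_lit 339) (nat_lit 2384) (.d (nat_lit 372) (nat_lit 336) (nat_lit 3408) (nat_lit 341) (nat_lit 2385)))))))) (.f (nat_lit 334) (nat_lit 333) (nat_lit 3405) (.f (nat_lit 370) (nat_lit 335) (nat_lit 3406) (.d (nat_lit 338) (nat_lit 337) (nat_lit 2382) (nat_lit 339) (nat_lit 2383)))))))))))))) (.a (.p (nat_lit 526) (.a (.f (nat_lit 527) (nat_lit 559) (nat_lit 4526) (.d (nat_lit 525) (nat_lit 557) (nat_lit 5549) (nat_lit 561) (nat_lit 525))) (.a (.f (nat_lit 559) (nat_lit 527) (nat_lit 4526) (.f (nat_lit 558) (nat_lit 591) (nat_lit 4558) (.f (nat_lit 589) (nat_lit 557) (nat_lit 5581) (.d (nat_lit 590) (nat_lit 561) (nat_lit 1581) (nat_lit 621) (nat_lit 5613))))) (.a (.p (nat_lit 558) (.a (.d (nat_lit 557) (nat_lit 525) (nat_lit 5549) (nat_lit 589) (nat_lit 5581)) (.a (.f (nat_lit 589) (nat_lit 557) (nat_lit 5581) (.f (nat_lit 590) (nat_lit 621) (nat_lit 5613) (.d (nat_lit 591) (nat_lit 559) (nat_lit 4558) (nat_lit 623) (nat_lit 4590)))) (.p (nat_lit 432) (.a (.f (nat_lit 400) (nat_lit 335) (nat_lit 7503) (.f (nat_lit 369) (nat_lit 337) (nat_lit 6480) (.f (nat_lit 465) (nat_lit 497) (nat_lit 4464) (.f (nat_lit 433) (nat_lit 336) (nat_lit 4432) (.f (nat_lit 466) (nat_lit 431) (nat_lit 430) (.f (nat_lit 401) (nat_lit 498) (nat_lit 4465) (.d (nat_lit 402) (nat_lit 366) (nat_lit 366) (nat_lit 403) (nat_lit 3439)))))))) (.a (.f (nat_lit 429) (nat_lit 397) (nat_lit 7565) (.f (nat_lit 431) (nat_lit 465) (nat_lit 429) (.f (nat_lit 401) (nat_lit 400) (nat_lit 2445) (.f (nat_lit 402) (nat_lit 433) (nat_lit 2446) (.f (nat_lit 369) (nat_lit 366) (nat_lit 366) (.d (nat_lit 403) (nat_lit 370) (nat_lit 367) (nat_lit 404) (nat_lit 3440))))))) (.a s76954 (.a (.f (nat_lit 559) (nat_lit 591) (nat_lit 4558) (.f (nat_lit 561) (nat_lit 525) (nat_lit 3597) (.f (nat_lit 429) (nat_lit 397) (nat_lit 7565) (.f (nat_lit 594) (nat_lit 593) (nat_lit 558) (.f (nat_lit 562) (nat_lit 595) (nat_lit 559) (.f (nat_lit 530) (nat_lit 531) (nat_lit 2575) (.f (nat_lit 465) (nat_lit 431) (nat_lit 429) (.f (nat_lit 498) (nat_lit 497) (nat_lit 7633) (.f (nat_lit 466) (nat_lit 433) (nat_lit 7601) (.d (nat_lit 467) (nat_lit 435) (nat_lit 6578) (nat_lit 499) (nat_lit 6610))))))))))) (.a (.f (nat_lit 400) (nat_lit 335) (nat_lit 7503) (.f (nat_lit 337) (nat_lit 369) (nat_lit 6480) (.f (nat_lit 336) (nat_lit 305) (nat_lit 6448) (.d (nat_lit 465) (nat_lit 433) (nat_lit 4432) (nat_lit 497) (nat_lit 4464))))) (.a (.f (nat_lit 400) (nat_lit 335) (nat_lit 7503) (.f (nat_lit 429) (nat_lit 397) (nat_lit 7565) (.d (nat_lit 431) (nat_lit 401) (nat_lit 2445) (nat_lit 465) (nat_lit 429)))) (.f (nat_lit 400) (nat_lit 335) (nat_lit 7503) (.f (nat_lit 369) (nat_lit 337) (nat_lit 6480) (.f (nat_lit 429) (nat_lit 397) (nat_lit 7565) (.f (nat_lit 401) (nat_lit 431) (nat_lit 2445) (.d (nat_lit 366) (nat_lit 365) (nat_lit 365) (nat_lit 402) (nat_lit 366)))))))))))))))) (.a (.f (nat_lit 527) (nat_lit 559) (nat_lit 4526) (.f (nat_lit 525) (nat_lit 561) (nat_lit 525) (.f (nat_lit 492) (nat_lit 493) (nat_lit 3564) (.f (nat_lit 524) (nat_lit 491) (nat_lit 3563) (.f (nat_lit 523) (nat_lit 495) (nat_lit 2539) (.d (nat_lit 555) (nat_lit 554) (nat_lit 1546) (nat_lit 556) (nat_lit 1547))))))) (.a (.f (nat_lit 525) (nat_lit 557) (nat_lit 5549) (.f (nat_lit 527) (nat_lit 561) (nat_lit 525) (.f (nat_lit 492) (nat_lit 493) (nat_lit 3564) (.f (nat_lit 524) (nat_lit 491) (nat_lit 3563) (.f (nat_lit 523) (nat_lit 495) (nat_lit 2539) (.d (nat_lit 555) (nat_lit 554) (nat_lit 1546) (nat_lit 556) (nat_lit 1547))))))) (.f (nat_lit 527) (nat_lit 559) (nat_lit 4526) (.f (nat_lit 525) (nat_lit 557) (nat_lit 5549) (.f (nat_lit 492) (nat_lit 493) (nat_lit 3564) (.f (nat_lit 524) (nat_lit 491) (nat_lit 3563) (.f (nat_lit 523) (nat_lit 495) (nat_lit 2539) (.d (nat_lit 555) (nat_lit 554) (nat_lit 1546) (nat_lit 556) (nat_lit 1547))))))))))))) (.a (.p (nat_lit 526) (.a (.f (nat_lit 527) (nat_lit 559) (nat_lit 4526) (.d (nat_lit 525) (nat_lit 557) (nat_lit 5549) (nat_lit 561) (nat_lit 525))) (.a (.f (nat_lit 559) (nat_lit 527) (nat_lit 4526) (.f (nat_lit 558) (nat_lit 591) (nat_lit 4558) (.f (nat_lit 589) (nat_lit 557) (nat_lit 5581) (.d (nat_lit 590) (nat_lit 561) (nat_lit 1581) (nat_lit 621) (nat_lit 5613))))) (.a (.p (nat_lit 558) (.a (.d (nat_lit 557) (nat_lit 525) (nat_lit 5549) (nat_lit 589) (nat_lit 5581)) (.a (.f (nat_lit 589) (nat_lit 557) (nat_lit 5581) (.f (nat_lit 590) (nat_lit 621) (nat_lit 5613) (.d (nat_lit 591) (nat_lit 559) (nat_lit 4558) (nat_lit 623) (nat_lit 4590)))) (.p (nat_lit 369) (.a (.p (nat_lit 337) (.a (.f (nat_lit 366) (nat_lit 338) (nat_lit 2382) (.f (nat_lit 401) (nat_lit 402) (nat_lit 366) (.d (nat_lit 365) (nat_lit 336) (nat_lit 2381) (nat_lit 400) (nat_lit 365)))) (.a (.f (nat_lit 366) (nat_lit 338) (nat_lit 2382) (.f (nat_lit 401) (nat_lit 402) (nat_lit 366) (.d (nat_lit 400) (nat_lit 365) (nat_lit 365) (nat_lit 432) (nat_lit 6480)))) (.a (.f (nat_lit 432) (nat_lit 400) (nat_lit 6480) (.f (nat_lit 401) (nat_lit 433) (nat_lit 5456) (.f (nat_lit 402) (nat_lit 366) (nat_lit 366) (.d (nat_lit 403) (nat_lit 370) (nat_lit 367) (nat_lit 404) (nat_lit 3440))))) (.a s77629 (.a (.f (nat_lit 366) (nat_lit 338) (nat_lit 2382) (.f (nat_lit 401) (nat_lit 402) (nat_lit 366) (.f (nat_lit 336) (nat_lit 365) (nat_lit 2381) (.d (nat_lit 433) (nat_lit 304) (nat_lit 7472) (nat_lit 432) (nat_lit 5456))))) (.f (nat_lit 338) (nat_lit 366) (nat_lit 2382) (.d (nat_lit 339) (nat_lit 336) (nat_lit 1359) (nat_lit 340) (nat_lit 1360))))))))) (.a (.p (nat_lit 366) (.a (.f (nat_lit 337) (nat_lit 338) (nat_lit 2382) (.f (nat_lit 401) (nat_lit 402) (nat_lit 366) (.d (nat_lit 365) (nat_lit 336) (nat_lit 2381) (nat_lit 400) (nat_lit 365)))) (.a (.f (nat_lit 401) (nat_lit 402) (nat_lit 366) (.f (nat_lit 337) (nat_lit 338) (nat_lit 2382) (.d (nat_lit 432) (nat_lit 400) (nat_lit 6480) (nat_lit 433) (nat_lit 5456)))) (.a (.f (nat_lit 401) (nat_lit 402) (nat_lit 366) (.f (nat_lit 365) (nat_lit 400) (nat_lit 365) (.d (nat_lit 333) (nat_lit 332) (nat_lit 3404) (nat_lit 334) (nat_lit 3405)))) (.a (.f (nat_lit 559) (nat_lit 591) (nat_lit 4558) (.f (nat_lit 561) (nat_lit 525) (nat_lit 3597) (.f (nat_lit 338) (nat_lit 337) (nat_lit 2382) (.f (nat_lit 370) (nat_lit 339) (nat_lit 2383) (.f (nat_lit 403) (nat_lit 402) (nat_lit 367) (.f (nat_lit 371) (nat_lit 404) (nat_lit 368) (.f (nat_lit 594) (nat_lit 593) (nat_lit 558) (.f (nat_lit 562) (nat_lit 595) (nat_lit 559) (.f (nat_lit 531) (nat_lit 530) (nat_lit 2575) (.f (nat_lit 563) (nat_lit 532) (nat_lit 2576) (.d (nat_lit 467) (nat_lit 435) (nat_lit 7506) (nat_lit 499) (nat_lit 5586)))))))))))) (.f (nat_lit 337) (nat_lit 338) (nat_lit 2382) (.f (nat_lit 400) (nat_lit 432) (nat_lit 6480) (.d (nat_lit 365) (nat_lit 336) (nat_lit 2381) (nat_lit 401) (nat_lit 365))))))))) (.a (.p (nat_lit 366) (.a (.f (nat_lit 401) (nat_lit 402) (nat_lit 366) (.f (nat_lit 337) (nat_lit 338) (nat_lit 2382) (.d (nat_lit 432) (nat_lit 400) (nat_lit 6480) (nat_lit 433) (nat_lit 5456)))) (.a (.f (nat_lit 401) (nat_lit 402) (nat_lit 366) (.f (nat_lit 365) (nat_lit 400) (nat_lit 365) (.d (nat_lit 333) (nat_lit 332) (nat_lit 3404) (nat_lit 334) (nat_lit 3405)))) (.a (.f (nat_lit 559) (nat_lit 591) (nat_lit 4558) (.f (nat_lit 561) (nat_lit 525) (nat_lit 3597) (.f (nat_lit 338) (nat_lit 337) (nat_lit 2382) (.f (nat_lit 370) (nat_lit 339) (nat_lit 2383) (.f (nat_lit 403) (nat_lit 402) (nat_lit 367) (.f (nat_lit 371) (nat_lit 404) (nat_lit 368) (.f (nat_lit 594) (nat_lit 593) (nat_lit 558) (.f (nat_lit 562) (nat_lit 595) (nat_lit 559) (.f (nat_lit 531) (nat_lit 530) (nat_lit 2575) (.f (nat_lit 563) (nat_lit 532) (nat_lit 2576) (.d (nat_lit 467) (nat_lit 435) (nat_lit 7506) (nat_lit 499) (nat_lit 5586)))))))))))) (.f (nat_lit 337) (nat_lit 338) (nat_lit 2382) (.f (nat_lit 400) (nat_lit 432) (nat_lit 6480) (.f (nat_lit 365) (nat_lit 401) (nat_lit 365) (.d (nat_lit 397) (nat_lit 396) (nat_lit 1388) (nat_lit 429) (nat_lit 7565))))))))) (.a s77666 (.a (.p (nat_lit 432) (.a (.f (nat_lit 400) (nat_lit 337) (nat_lit 6480) (.f (nat_lit 465) (nat_lit 497) (nat_lit 4464) (.d (nat_lit 429) (nat_lit 397) (nat_lit 7565) (nat_lit 431) (nat_lit 429)))) (.a (.f (nat_lit 429) (nat_lit 397) (nat_lit 7565) (.f (nat_lit 431) (nat_lit 465) (nat_lit 429) (.f (nat_lit 401) (nat_lit 400) (nat_lit 2445) (.d (nat_lit 402) (nat_lit 366) (nat_lit 366) (nat_lit 433) (nat_lit 2446))))) (.a (.f (nat_lit 400) (nat_lit 337) (nat_lit 6480) (.f (nat_lit 465) (nat_lit 497) (nat_lit 4464) (.f (nat_lit 433) (nat_lit 336) (nat_lit 4432) (.d (nat_lit 431) (nat_lit 429) (nat_lit 429) (nat_lit 466) (nat_lit 430))))) (.a (.f (nat_lit 559) (nat_lit 591) (nat_lit 4558) (.f (nat_lit 561) (nat_lit 525) (nat_lit 3597) (.f (nat_lit 429) (nat_lit 397) (nat_lit 7565) (.f (nat_lit 594) (nat_lit 593) (nat_lit 558) (.f (nat_lit 562) (nat_lit 595) (nat_lit 559) (.f (nat_lit 530) (nat_lit 531) (nat_lit 2575) (.f (nat_lit 465) (nat_lit 431) (nat_lit 429) (.f (nat_lit 498) (nat_lit 497) (nat_lit 7633) (.f (nat_lit 466) (nat_lit 433) (nat_lit 7601) (.d (nat_lit 467) (nat_lit 435) (nat_lit 6578) (nat_lit 499) (nat_lit 6610))))))))))) (.a (.f (nat_lit 400) (nat_lit 337) (nat_lit 6480) (.f (nat_lit 465) (nat_lit 497) (nat_lit 4464) (.f (nat_lit 433) (nat_lit 336) (nat_lit 4432) (.f (nat_lit 466) (nat_lit 431) (nat_lit 430) (.f (nat_lit 401) (nat_lit 498) (nat_lit 4465) (.d (nat_lit 366) (nat_lit 365) (nat_lit 365) (nat_lit 402) (nat_lit 366))))))) (.a (.f (nat_lit 400) (nat_lit 337) (nat_lit 6480) (.f (nat_lit 559) (nat_lit 591) (nat_lit 4558) (.f (nat_lit 561) (nat_lit 525) (nat_lit 3597) (.f (nat_lit 465) (nat_lit 497) (nat_lit 4464) (.f (nat_lit 433) (nat_lit 336) (nat_lit 4432) (.f (nat_lit 594) (nat_lit 593) (nat_lit 558) (.f (nat_lit 562) (nat_lit 595) (nat_lit 559) (.f (nat_lit 531) (nat_lit 530) (nat_lit 2575) (.f (nat_lit 563) (nat_lit 532) (nat_lit 2576) (.f (nat_lit 467) (nat_lit 499) (nat_lit 5586) (.f (nat_lit 466) (nat_lit 468) (nat_lit 3504) (.f (nat_lit 401) (nat_lit 498) (nat_lit 4465) (.d (nat_lit 366) (nat_lit 365) (nat_lit 365) (nat_lit 402) (nat_lit 366)))))))))))))) (.f (nat_lit 337) (nat_lit 400) (nat_lit 6480) (.f (nat_lit 401) (nat_lit 433) (nat_lit 5456) (.f (nat_lit 402) (nat_lit 366) (nat_lit 366) (.d (nat_lit 403) (nat_lit 370) (nat_lit 367) (nat_lit 404) (nat_lit 3440)))))))))))) (.a (.p (nat_lit 337) (.a (.f (nat_lit 432) (nat_lit 400) (nat_lit 6480) (.f (nat_lit 401) (nat_lit 433) (nat_lit 5456) (.f (nat_lit 402) (nat_lit 366) (nat_lit 366) (.d (nat_lit 403) (nat_lit 370) (nat_lit 367) (nat_lit 404) (nat_lit 3440))))) (.a s77629 (.f (nat_lit 338) (nat_lit 366) (nat_lit 2382) (.d (nat_lit 339) (nat_lit 336) (nat_lit 1359) (nat_lit 340) (nat_lit 1360)))))) (.a (.p (nat_lit 465) (.a (.f (nat_lit 429) (nat_lit 397) (nat_lit 7565) (.f (nat_lit 432) (nat_lit 431) (nat_lit 429) (.d (nat_lit 400) (nat_lit 337) (nat_lit 6480) (nat_lit 497) (nat_lit 4464)))) (.a (.f (nat_lit 559) (nat_lit 591) (nat_lit 4558) (.f (nat_lit 561) (nat_lit 525) (nat_lit 3597) (.f (nat_lit 594) (nat_lit 593) (nat_lit 558) (.f (nat_lit 562) (nat_lit 595) (nat_lit 559) (.f (nat_lit 530) (nat_lit 531) (nat_lit 2575) (.f (nat_lit 498) (nat_lit 497) (nat_lit 7633) (.f (nat_lit 466) (nat_lit 433) (nat_lit 7601) (.d (nat_lit 467) (nat_lit 435) (nat_lit 6578) (nat_lit 499) (nat_lit 6610))))))))) (.f (nat_lit 559) (nat_lit 591) (nat_lit 4558) (.f (nat_lit 561) (nat_lit 525) (nat_lit 3597) (.f (nat_lit 429) (nat_lit 397) (nat_lit 7565) (.f (nat_lit 432) (nat_lit 431) (nat_lit 429) (.f (nat_lit 400) (nat_lit 337) (nat_lit 6480) (.f (nat_lit 433) (nat_lit 336) (nat_lit 4432) (.f (nat_lit 594) (nat_lit 593) (nat_lit 558) (.f (nat_lit 562) (nat_lit 595) (nat_lit 559) (.f (nat_lit 531) (nat_lit 530) (nat_lit 2575) (.f (nat_lit 563) (nat_lit 532) (nat_lit 2576) (.f (nat_lit 467) (nat_lit 499) (nat_lit 5586) (.f (nat_lit 466) (nat_lit 468) (nat_lit 3504) (.f (nat_lit 401) (nat_lit 498) (nat_lit 4465) (.f (nat_lit 370) (nat_lit 338) (nat_lit 6481) (.f (nat_lit 403) (nat_lit 402) (nat_lit 3439) (.d (nat_lit 371) (nat_lit 372) (nat_lit 1392) (nat_lit 404) (nat_lit 368)))))))))))))))))))) (.a (.p (nat_lit 366) (.a (.f (nat_lit 337) (nat_lit 338) (nat_lit 2382) (.f (nat_lit 401) (nat_lit 402) (nat_lit 366) (.d (nat_lit 365) (nat_lit 336) (nat_lit 2381) (nat_lit 400) (nat_lit 365)))) (.a (.f (nat_lit 401) (nat_lit 402) (nat_lit 366) (.f (nat_lit 337) (nat_lit 338) (nat_lit 2382) (.d (nat_lit 432) (nat_lit 400) (nat_lit 6480) (nat_lit 433) (nat_lit 5456)))) (.a (.f (nat_lit 401) (nat_lit 402) (nat_lit 366) (.f (nat_lit 365) (nat_lit 400) (nat_lit 365) (.d (nat_lit 333) (nat_lit 332) (nat_lit 3404) (nat_lit 334) (nat_lit 3405)))) (.a (.f (nat_lit 337) (nat_lit 338) (nat_lit 2382) (.f (nat_lit 401) (nat_lit 402) (nat_lit 366) (.f (nat_lit 336) (nat_lit 365) (nat_lit 2381) (.d (nat_lit 433) (nat_lit 304) (nat_lit 7472) (nat_lit 432) (nat_lit 5456))))) (.f (nat_lit 337) (nat_lit 338) (nat_lit 2382) (.f (nat_lit 365) (nat_lit 336) (nat_lit 2381) (.d (nat_lit 333) (nat_lit 332) (nat_lit 3404) (nat_lit 334) (nat_lit 3405))))))))) (.a (.p (nat_lit 366) (.a (.f (nat_lit 337) (nat_lit 338) (nat_lit 2382) (.f (nat_lit 401) (nat_lit 402) (nat_lit 366) (.f (nat_lit 336) (nat_lit 365) (nat_lit 2381) (.d (nat_lit 433) (nat_lit 304) (nat_lit 7472) (nat_lit 432) (nat_lit 5456))))) (.a (.f (nat_lit 559) (nat_lit 591) (nat_lit 4558) (.f (nat_lit 561) (nat_lit 525) (nat_lit 3597) (.f (nat_lit 338) (nat_lit 337) (nat_lit 2382) (.f (nat_lit 370) (nat_lit 339) (nat_lit 2383) (.f (nat_lit 403) (nat_lit 402) (nat_lit 367) (.f (nat_lit 371) (nat_lit 404) (nat_lit 368) (.f (nat_lit 594) (nat_lit 593) (nat_lit 558) (.f (nat_lit 562) (nat_lit 595) (nat_lit 559) (.f (nat_lit 531) (nat_lit 530) (nat_lit 2575) (.f (nat_lit 563) (nat_lit 532) (nat_lit 2576) (.d (nat_lit 467) (nat_lit 435) (nat_lit 7506) (nat_lit 499) (nat_lit 5586)))))))))))) (.f (nat_lit 333) (nat_lit 334) (nat_lit 3405) (.f (nat_lit 365) (nat_lit 332) (nat_lit 3404) (.d (nat_lit 397) (nat_lit 396) (nat_lit 1388) (nat_lit 429) (nat_lit 7565))))))) (.a (.p (nat_lit 337) (.a (.f (nat_lit 338) (nat_lit 366) (nat_lit 2382) (.d (nat_lit 339) (nat_lit 336) (nat_lit 1359) (nat_lit 340) (nat_lit 1360))) (.a (.f (nat_lit 338) (nat_lit 366) (nat_lit 2382) (.d (nat_lit 339) (nat_lit 340) (nat_lit 1360) (nat_lit 370) (nat_lit 2383))) (.f (nat_lit 559) (nat_lit 591) (nat_lit 4558) (.f (nat_lit 561) (nat_lit 525) (nat_lit 3597) (.f (nat_lit 594) (nat_lit 593) (nat_lit 558) (.f (nat_lit 562) (nat_lit 595) (nat_lit 559) (.f (nat_lit 530) (nat_lit 531) (nat_lit 2575) (.f (nat_lit 432) (nat_lit 400) (nat_lit 6480) (.f (nat_lit 429) (nat_lit 397) (nat_lit 7565) (.f (nat_lit 465) (nat_lit 431) (nat_lit 429) (.f (nat_lit 498) (nat_lit 497) (nat_lit 7633) (.f (nat_lit 466) (nat_lit 433) (nat_lit 7601) (.d (nat_lit 467) (nat_lit 435) (nat_lit 6578) (nat_lit 499) (nat_lit 6610))))))))))))))) (.p (nat_lit 366) (.a (.f (nat_lit 337) (nat_lit 338) (nat_lit 2382) (.f (nat_lit 401) (nat_lit 402) (nat_lit 366) (.d (nat_lit 365) (nat_lit 336) (nat_lit 2381) (nat_lit 400) (nat_lit 365)))) (.a (.f (nat_lit 559) (nat_lit 591) (nat_lit 4558) (.f (nat_lit 561) (nat_lit 525) (nat_lit 3597) (.f (nat_lit 338) (nat_lit 337) (nat_lit 2382) (.f (nat_lit 370) (nat_lit 339) (nat_lit 2383) (.f (nat_lit 403) (nat_lit 402) (nat_lit 367) (.f (nat_lit 371) (nat_lit 404) (nat_lit 368) (.f (nat_lit 594) (nat_lit 593) (nat_lit 558) (.f (nat_lit 562) (nat_lit 595) (nat_lit 559) (.f (nat_lit 531) (nat_lit 530) (nat_lit 2575) (.f (nat_lit 563) (nat_lit 532) (nat_lit 2576) (.d (nat_lit 467) (nat_lit 435) (nat_lit 7506) (nat_lit 499) (nat_lit 5586)))))))))))) (.a (.f (nat_lit 401) (nat_lit 402) (nat_lit 366) (.f (nat_lit 365) (nat_lit 400) (nat_lit 365) (.d (nat_lit 333) (nat_lit 332) (nat_lit 3404) (nat_lit 334) (nat_lit 3405)))) (.f (nat_lit 337) (nat_lit 338) (nat_lit 2382) (.f (nat_lit 365) (nat_lit 336) (nat_lit 2381) (.d (nat_lit 333) (nat_lit 332) (nat_lit 3404) (nat_lit 334) (nat_lit 3405)))))))))))))))))))))) (.a (.f (nat_lit 527) (nat_lit 559) (nat_lit 4526) (.f (nat_lit 525) (nat_lit 561) (nat_lit 525) (.f (nat_lit 492) (nat_lit 493) (nat_lit 3564) (.f (nat_lit 524) (nat_lit 491) (nat_lit 3563) (.f (nat_lit 523) (nat_lit 495) (nat_lit 2539) (.d (nat_lit 555) (nat_lit 554) (nat_lit 1546) (nat_lit 556) (nat_lit 1547))))))) (.a (.f (nat_lit 525) (nat_lit 557) (nat_lit 5549) (.f (nat_lit 527) (nat_lit 561) (nat_lit 525) (.f (nat_lit 492) (nat_lit 493) (nat_lit 3564) (.f (nat_lit 524) (nat_lit 491) (nat_lit 3563) (.f (nat_lit 523) (nat_lit 495) (nat_lit 2539) (.d (nat_lit 555) (nat_lit 554) (nat_lit 1546) (nat_lit 556) (nat_lit 1547))))))) (.f (nat_lit 527) (nat_lit 559) (nat_lit 4526) (.f (nat_lit 525) (nat_lit 557) (nat_lit 5549) (.f (nat_lit 492) (nat_lit 493) (nat_lit 3564) (.f (nat_lit 524) (nat_lit 491) (nat_lit 3563) (.f (nat_lit 523) (nat_lit 495) (nat_lit 2539) (.d (nat_lit 555) (nat_lit 554) (nat_lit 1546) (nat_lit 556) (nat_lit 1547))))))))))))) (.a (.p (nat_lit 526) (.a (.f (nat_lit 527) (nat_lit 559) (nat_lit 4526) (.d (nat_lit 525) (nat_lit 557) (nat_lit 5549) (nat_lit 561) (nat_lit 525))) (.a (.f (nat_lit 559) (nat_lit 527) (nat_lit 4526) (.f (nat_lit 558) (nat_lit 591) (nat_lit 4558) (.f (nat_lit 589) (nat_lit 557) (nat_lit 5581) (.d (nat_lit 590) (nat_lit 561) (nat_lit 1581) (nat_lit 621) (nat_lit 5613))))) (.a (.p (nat_lit 366) (.a (.f (nat_lit 397) (nat_lit 429) (nat_lit 7565) (.f (nat_lit 365) (nat_lit 396) (nat_lit 1388) (.f (nat_lit 333) (nat_lit 332) (nat_lit 3404) (.f (nat_lit 369) (nat_lit 334) (nat_lit 3405) (.d (nat_lit 401) (nat_lit 400) (nat_lit 365) (nat_lit 402) (nat_lit 366)))))) (.a (.f (nat_lit 397) (nat_lit 429) (nat_lit 7565) (.f (nat_lit 365) (nat_lit 396) (nat_lit 1388) (.f (nat_lit 401) (nat_lit 400) (nat_lit 365) (.f (nat_lit 369) (nat_lit 402) (nat_lit 366) (.f (nat_lit 338) (nat_lit 337) (nat_lit 2382) (.f (nat_lit 370) (nat_lit 339) (nat_lit 2383) (.d (nat_lit 334) (nat_lit 333) (nat_lit 3405) (nat_lit 335) (nat_lit 3406)))))))) (.a (.p (nat_lit 369) (.a (.f (nat_lit 337) (nat_lit 338) (nat_lit 2382) (.f (nat_lit 401) (nat_lit 402) (nat_lit 366) (.d (nat_lit 400) (nat_lit 365) (nat_lit 365) (nat_lit 432) (nat_lit 6480)))) (.a (.f (nat_lit 401) (nat_lit 402) (nat_lit 366) (.f (nat_lit 400) (nat_lit 365) (nat_lit 365) (.f (nat_lit 432) (nat_lit 335) (nat_lit 7503) (.d (nat_lit 429) (nat_lit 397) (nat_lit 7565) (nat_lit 431) (nat_lit 2445))))) (.a (.f (nat_lit 337) (nat_lit 338) (nat_lit 2382) (.f (nat_lit 401) (nat_lit 402) (nat_lit 366) (.d (nat_lit 432) (nat_lit 400) (nat_lit 6480) (nat_lit 433) (nat_lit 5456)))) (.a (.f (nat_lit 402) (nat_lit 401) (nat_lit 366) (.f (nat_lit 370) (nat_lit 403) (nat_lit 367) (.d (nat_lit 338) (nat_lit 337) (nat_lit 2382) (nat_lit 339) (nat_lit 2383)))) (.a (.f (nat_lit 338) (nat_lit 337) (nat_lit 2382) (.f (nat_lit 370) (nat_lit 339) (nat_lit 2383) (.f (nat_lit 402) (nat_lit 403) (nat_lit 367) (.f (nat_lit 335) (nat_lit 334) (nat_lit 3406) (.f (nat_lit 432) (nat_lit 400) (nat_lit 7503) (.f (nat_lit 429) (nat_lit 397) (nat_lit 7565) (.f (nat_lit 465) (nat_lit 431) (nat_lit 429) (.f (nat_lit 434) (nat_lit 433) (nat_lit 5457) (.f (nat_lit 466) (nat_lit 497) (nat_lit 5489) (.d (nat_lit 467) (nat_lit 435) (nat_lit 4434) (nat_lit 499) (nat_lit 4466))))))))))) (.f (nat_lit 337) (nat_lit 338) (nat_lit 2382) (.f (nat_lit 400) (nat_lit 432) (nat_lit 6480) (.f (nat_lit 365) (nat_lit 401) (nat_lit 365) (.d (nat_lit 397) (nat_lit 396) (nat_lit 1388) (nat_lit 429) (nat_lit 7565))))))))))) (.a (.p (nat_lit 365) (.a (.d (nat_lit 397) (nat_lit 396) (nat_lit 1388) (nat_lit 429) (nat_lit 7565)) (.a (.f (nat_lit 400) (nat_lit 401) (nat_lit 365) (.f (nat_lit 432) (nat_lit 335) (nat_lit 7503) (.f (nat_lit 429) (nat_lit 397) (nat_lit 7565) (.d (nat_lit 465) (nat_lit 431) (nat_lit 429) (nat_lit 497) (nat_lit 4464))))) (.a (.f (nat_lit 400) (nat_lit 401) (nat_lit 365) (.f (nat_lit 432) (nat_lit 335) (nat_lit 7503) (.f (nat_lit 465) (nat_lit 497) (nat_lit 4464) (.f (nat_lit 431) (nat_lit 429) (nat_lit 429) (.d (nat_lit 466) (nat_lit 433) (nat_lit 430) (nat_lit 467) (nat_lit 3503)))))) (.f (nat_lit 332) (nat_lit 333) (nat_lit 3404) (.f (nat_lit 364) (nat_lit 331) (nat_lit 3403) (.d (nat_lit 396) (nat_lit 395) (nat_lit 1387) (nat_lit 397) (nat_lit 1388)))))))) (.a (.p (nat_lit 369) (.a (.f (nat_lit 337) (nat_lit 338) (nat_lit 2382) (.f (nat_lit 401) (nat_lit 402) (nat_lit 366) (.d (nat_lit 432) (nat_lit 400) (nat_lit 6480) (nat_lit 433) (nat_lit 5456)))) (.a (.f (nat_lit 402) (nat_lit 401) (nat_lit 366) (.f (nat_lit 370) (nat_lit 403) (nat_lit 367) (.d (nat_lit 334) (nat_lit 333) (nat_lit 3405) (nat_lit 335) (nat_lit 3406)))) (.a (.f (nat_lit 338) (nat_lit 337) (nat_lit 2382) (.f (nat_lit 370) (nat_lit 339) (nat_lit 2383) (.f (nat_lit 402) (nat_lit 403) (nat_lit 367) (.f (nat_lit 335) (nat_lit 334) (nat_lit 3406) (.f (nat_lit 432) (nat_lit 400) (nat_lit 7503) (.f (nat_lit 429) (nat_lit 397) (nat_lit 7565) (.f (nat_lit 465) (nat_lit 431) (nat_lit 429) (.f (nat_lit 434) (nat_lit 433) (nat_lit 5457) (.f (nat_lit 466) (nat_lit 497) (nat_lit 5489) (.d (nat_lit 467) (nat_lit 435) (nat_lit 4434) (nat_lit 499) (nat_lit 4466))))))))))) (.f (nat_lit 334) (nat_lit 333) (nat_lit 3405) (.f (nat_lit 370) (nat_lit 335) (nat_lit 3406) (.d (nat_lit 338) (nat_lit 337) (nat_lit 2382) (nat_lit 339) (nat_lit 2383)))))))) (.a (.p (nat_lit 369) (.a (.f (nat_lit 337) (nat_lit 338) (nat_lit 2382) (.f (nat_lit 401) (nat_lit 402) (nat_lit 366) (.d (nat_lit 400) (nat_lit 365) (nat_lit 365) (nat_lit 432) (nat_lit 6480)))) (.a (.f (nat_lit 402) (nat_lit 401) (nat_lit 366) (.f (nat_lit 370) (nat_lit 403) (nat_lit 367) (.d (nat_lit 334) (nat_lit 333) (nat_lit 3405) (nat_lit 335) (nat_lit 3406)))) (.f (nat_lit 334) (nat_lit 333) (nat_lit 3405) (.f (nat_lit 370) (nat_lit 335) (nat_lit 3406) (.d (nat_lit 338) (nat_lit 337) (nat_lit 2382) (nat_lit 339) (nat_lit 2383))))))) (.a (.f (nat_lit 397) (nat_lit 429) (nat_lit 7565) (.f (nat_lit 365) (nat_lit 396) (nat_lit 1388) (.f (nat_lit 333) (nat_lit 332) (nat_lit 3404) (.f (nat_lit 369) (nat_lit 334) (nat_lit 3405) (.f (nat_lit 338) (nat_lit 337) (nat_lit 2382) (.f (nat_lit 370) (nat_lit 339) (nat_lit 2383) (.d (nat_lit 402) (nat_lit 401) (nat_lit 366) (nat_lit 403) (nat_lit 367)))))))) (.p (nat_lit 558) (.a (.d (nat_lit 557) (nat_lit 525) (nat_lit 5549) (nat_lit 589) (nat_lit 5581)) (.a (.f (nat_lit 589) (nat_lit 557) (nat_lit 5581) (.f (nat_lit 590) (nat_lit 621) (nat_lit 5613) (.d (nat_lit 591) (nat_lit 559) (nat_lit 4558) (nat_lit 623) (nat_lit 4590)))) (.f (nat_lit 559) (nat_lit 591) (nat_lit 4558) (.f (nat_lit 561) (nat_lit 525) (nat_lit 3597) (.f (nat_lit 594) (nat_lit 593) (nat_lit 558) (.f (nat_lit 562) (nat_lit 595) (nat_lit 559) (.f (nat_lit 531) (nat_lit 530) (nat_lit 2575) (.f (nat_lit 563) (nat_lit 532) (nat_lit 2576) (.f (nat_lit 397) (nat_lit 429) (nat_lit 7565) (.f (nat_lit 365) (nat_lit 396) (nat_lit 1388) (.f (nat_lit 333) (nat_lit 332) (nat_lit 3404) (.f (nat_lit 369) (nat_lit 334) (nat_lit 3405) (.f (nat_lit 338) (nat_lit 337) (nat_lit 2382) (.f (nat_lit 370) (nat_lit 339) (nat_lit 2383) (.f (nat_lit 403) (nat_lit 402) (nat_lit 367) (.f (nat_lit 371) (nat_lit 404) (nat_lit 368) (.d (nat_lit 467) (nat_lit 435) (nat_lit 7506) (nat_lit 499) (nat_lit 5586))))))))))))))))))))))))))) (.a (.f (nat_lit 527) (nat_lit 559) (nat_lit 4526) (.f (nat_lit 525) (nat_lit 561) (nat_lit 525) (.f (nat_lit 492) (nat_lit 493) (nat_lit 3564) (.f (nat_lit 524) (nat_lit 491) (nat_lit 3563) (.f (nat_lit 523) (nat_lit 495) (nat_lit 2539) (.d (nat_lit 555) (nat_lit 554) (nat_lit 1546) (nat_lit 556) (nat_lit 1547))))))) (.a (.f (nat_lit 525) (nat_lit 557) (nat_lit 5549) (.f (nat_lit 527) (nat_lit 561) (nat_lit 525) (.f (nat_lit 492) (nat_lit 493) (nat_lit 3564) (.f (nat_lit 524) (nat_lit 491) (nat_lit 3563) (.f (nat_lit 523) (nat_lit 495) (nat_lit 2539) (.d (nat_lit 555) (nat_lit 554) (nat_lit 1546) (nat_lit 556) (nat_lit 1547))))))) (.f (nat_lit 527) (nat_lit 559) (nat_lit 4526) (.f (nat_lit 525) (nat_lit 557) (nat_lit 5549) (.f (nat_lit 492) (nat_lit 493) (nat_lit 3564) (.f (nat_lit 524) (nat_lit 491) (nat_lit 3563) (.f (nat_lit 523) (nat_lit 495) (nat_lit 2539) (.d (nat_lit 555) (nat_lit 554) (nat_lit 1546) (nat_lit 556) (nat_lit 1547))))))))))))) (.a (.p (nat_lit 526) (.a (.f (nat_lit 527) (nat_lit 559) (nat_lit 4526) (.d (nat_lit 525) (nat_lit 557) (nat_lit 5549) (nat_lit 561) (nat_lit 525))) (.a (.f (nat_lit 559) (nat_lit 527) (nat_lit 4526) (.f (nat_lit 558) (nat_lit 591) (nat_lit 4558) (.f (nat_lit 589) (nat_lit 557) (nat_lit 5581) (.d (nat_lit 590) (nat_lit 561) (nat_lit 1581) (nat_lit 621) (nat_lit 5613))))) (.a (.p (nat_lit 558) (.a (.d (nat_lit 557) (nat_lit 525) (nat_lit 5549) (nat_lit 589) (nat_lit 5581)) (.a (.f (nat_lit 589) (nat_lit 557) (nat_lit 5581) (.f (nat_lit 590) (nat_lit 621) (nat_lit 5613) (.d (nat_lit 591) (nat_lit 559) (nat_lit 4558) (nat_lit 623) (nat_lit 4590)))) (.p (nat_lit 369) (.a s77666 (.a (.p (nat_lit 370) (.a (.f (nat_lit 335) (nat_lit 334) (nat_lit 3406) (.f (nat_lit 371) (nat_lit 336) (nat_lit 3407) (.d (nat_lit 339) (nat_lit 338) (nat_lit 2383) (nat_lit 340) (nat_lit 2384)))) (.a (.f (nat_lit 402) (nat_lit 403) (nat_lit 367) (.f (nat_lit 401) (nat_lit 366) (nat_lit 366) (.f (nat_lit 338) (nat_lit 339) (nat_lit 2383) (.d (nat_lit 306) (nat_lit 274) (nat_lit 5393) (nat_lit 433) (nat_lit 5425))))) (.f (nat_lit 335) (nat_lit 334) (nat_lit 3406) (.f (nat_lit 371) (nat_lit 336) (nat_lit 3407) (.d (nat_lit 403) (nat_lit 402) (nat_lit 367) (nat_lit 404) (nat_lit 368))))))) (.a (.p (nat_lit 370) (.a (.f (nat_lit 402) (nat_lit 403) (nat_lit 367) (.f (nat_lit 401) (nat_lit 366) (nat_lit 366) (.f (nat_lit 338) (nat_lit 339) (nat_lit 2383) (.d (nat_lit 306) (nat_lit 274) (nat_lit 5393) (nat_lit 433) (nat_lit 5425))))) (.a (.f (nat_lit 402) (nat_lit 403) (nat_lit 367) (.f (nat_lit 401) (nat_lit 366) (nat_lit 366) (.f (nat_lit 338) (nat_lit 339) (nat_lit 2383) (.d (nat_lit 433) (nat_lit 306) (nat_lit 5425) (nat_lit 465) (nat_lit 6481))))) (.a (.f (nat_lit 559) (nat_lit 591) (nat_lit 4558) (.f (nat_lit 561) (nat_lit 525) (nat_lit 3597) (.f (nat_lit 402) (nat_lit 403) (nat_lit 367) (.f (nat_lit 401) (nat_lit 366) (nat_lit 366) (.f (nat_lit 338) (nat_lit 339) (nat_lit 2383) (.f (nat_lit 433) (nat_lit 465) (nat_lit 6481) (.f (nat_lit 594) (nat_lit 593) (nat_lit 558) (.f (nat_lit 562) (nat_lit 595) (nat_lit 559) (.f (nat_lit 531) (nat_lit 530) (nat_lit 2575) (.f (nat_lit 563) (nat_lit 532) (nat_lit 2576) (.f (nat_lit 467) (nat_lit 499) (nat_lit 5586) (.f (nat_lit 432) (nat_lit 431) (nat_lit 2446) (.f (nat_lit 335) (nat_lit 400) (nat_lit 7503) (.f (nat_lit 371) (nat_lit 336) (nat_lit 3407) (.f (nat_lit 372) (nat_lit 373) (nat_lit 1393) (.f (nat_lit 435) (nat_lit 434) (nat_lit 4434) (.f (nat_lit 340) (nat_lit 341) (nat_lit 2385) (.d (nat_lit 404) (nat_lit 405) (nat_lit 369) (nat_lit 436) (nat_lit 5459))))))))))))))))))) (.a (.f (nat_lit 403) (nat_lit 402) (nat_lit 367) (.f (nat_lit 371) (nat_lit 404) (nat_lit 368) (.f (nat_lit 340) (nat_lit 339) (nat_lit 2384) (.f (nat_lit 372) (nat_lit 341) (nat_lit 2385) (.f (nat_lit 400) (nat_lit 401) (nat_lit 1392) (.d (nat_lit 335) (nat_lit 336) (nat_lit 3407) (nat_lit 432) (nat_lit 7503))))))) (.a (.f (nat_lit 559) (nat_lit 591) (nat_lit 4558) (.f (nat_lit 561) (nat_lit 525) (nat_lit 3597) (.f (nat_lit 403) (nat_lit 402) (nat_lit 367) (.f (nat_lit 371) (nat_lit 404) (nat_lit 368) (.f (nat_lit 594) (nat_lit 593) (nat_lit 558) (.f (nat_lit 562) (nat_lit 595) (nat_lit 559) (.f (nat_lit 531) (nat_lit 530) (nat_lit 2575) (.f (nat_lit 563) (nat_lit 532) (nat_lit 2576) (.f (nat_lit 467) (nat_lit 499) (nat_lit 5586) (.f (nat_lit 435) (nat_lit 338) (nat_lit 7506) (.f (nat_lit 372) (nat_lit 340) (nat_lit 6483) (.f (nat_lit 400) (nat_lit 401) (nat_lit 1392) (.d (nat_lit 335) (nat_lit 336) (nat_lit 3407) (nat_lit 432) (nat_lit 7503)))))))))))))) (.a (.f (nat_lit 339) (nat_lit 338) (nat_lit 2383) (.f (nat_lit 371) (nat_lit 340) (nat_lit 2384) (.d (nat_lit 403) (nat_lit 402) (nat_lit 367) (nat_lit 404) (nat_lit 368)))) (.a (.f (nat_lit 339) (nat_lit 338) (nat_lit 2383) (.f (nat_lit 371) (nat_lit 340) (nat_lit 2384) (.f (nat_lit 404) (nat_lit 403) (nat_lit 368) (.f (nat_lit 372) (nat_lit 405) (nat_lit 369) (.f (nat_lit 400) (nat_lit 401) (nat_lit 1392) (.d (nat_lit 335) (nat_lit 336) (nat_lit 3407) (nat_lit 432) (nat_lit 7503))))))) (.f (nat_lit 339) (nat_lit 338) (nat_lit 2383) (.f (nat_lit 371) (nat_lit 340) (nat_lit 2384) (.f (nat_lit 335) (nat_lit 336) (nat_lit 3407) (.f (nat_lit 400) (nat_lit 432) (nat_lit 7503) (.f (nat_lit 401) (nat_lit 372) (nat_lit 1392) (.d (nat_lit 366) (nat_lit 365) (nat_lit 365) (nat_lit 402) (nat_lit 366))))))))))))))) (.a (.p (nat_lit 335) (.a (.f (nat_lit 334) (nat_lit 370) (nat_lit 3406) (.d (nat_lit 333) (nat_lit 332) (nat_lit 332) (nat_lit 366) (nat_lit 3405))) (.a (.f (nat_lit 370) (nat_lit 334) (nat_lit 3406) (.f (nat_lit 371) (nat_lit 336) (nat_lit 3407) (.d (nat_lit 403) (nat_lit 402) (nat_lit 367) (nat_lit 404) (nat_lit 368)))) (.f (nat_lit 559) (nat_lit 591) (nat_lit 4558) (.f (nat_lit 561) (nat_lit 525) (nat_lit 3597) (.f (nat_lit 594) (nat_lit 593) (nat_lit 558) (.f (nat_lit 562) (nat_lit 595) (nat_lit 559) (.f (nat_lit 530) (nat_lit 531) (nat_lit 2575) (.f (nat_lit 432) (nat_lit 400) (nat_lit 7503) (.f (nat_lit 429) (nat_lit 397) (nat_lit 7565) (.f (nat_lit 465) (nat_lit 431) (nat_lit 429) (.f (nat_lit 498) (nat_lit 497) (nat_lit 7633) (.f (nat_lit 466) (nat_lit 433) (nat_lit 7601) (.d (nat_lit 467) (nat_lit 435) (nat_lit 6578) (nat_lit 499) (nat_lit 6610))))))))))))))) (.a (.p (nat_lit 370) (.a (.f (nat_lit 335) (nat_lit 334) (nat_lit 3406) (.f (nat_lit 371) (nat_lit 336) (nat_lit 3407) (.d (nat_lit 339) (nat_lit 338) (nat_lit 2383) (nat_lit 340) (nat_lit 2384)))) (.a (.f (nat_lit 403) (nat_lit 402) (nat_lit 367) (.f (nat_lit 371) (nat_lit 404) (nat_lit 368) (.f (nat_lit 340) (nat_lit 339) (nat_lit 2384) (.f (nat_lit 372) (nat_lit 341) (nat_lit 2385) (.f (nat_lit 400) (nat_lit 401) (nat_lit 1392) (.d (nat_lit 335) (nat_lit 336) (nat_lit 3407) (nat_lit 432) (nat_lit 7503))))))) (.a (.f (nat_lit 339) (nat_lit 338) (nat_lit 2383) (.f (nat_lit 371) (nat_lit 340) (nat_lit 2384) (.d (nat_lit 403) (nat_lit 402) (nat_lit 367) (nat_lit 404) (nat_lit 368)))) (.a (.f (nat_lit 335) (nat_lit 334) (nat_lit 3406) (.f (nat_lit 371) (nat_lit 336) (nat_lit 3407) (.d (nat_lit 403) (nat_lit 402) (nat_lit 367) (nat_lit 404) (nat_lit 368)))) (.f (nat_lit 559) (nat_lit 591) (nat_lit 4558) (.f (nat_lit 561) (nat_lit 525) (nat_lit 3597) (.f (nat_lit 594) (nat_lit 593) (nat_lit 558) (.f (nat_lit 562) (nat_lit 595) (nat_lit 559) (.f (nat_lit 531) (nat_lit 530) (nat_lit 2575) (.f (nat_lit 563) (nat_lit 532) (nat_lit 2576) (.f (nat_lit 338) (nat_lit 339) (nat_lit 2383) (.f (nat_lit 402) (nat_lit 403) (nat_lit 367) (.f (nat_lit 467) (nat_lit 499) (nat_lit 5586) (.f (nat_lit 434) (nat_lit 435) (nat_lit 4434) (.f (nat_lit 433) (nat_lit 465) (nat_lit 5457) (.f (nat_lit 306) (nat_lit 401) (nat_lit 5425) (.f (nat_lit 273) (nat_lit 305) (nat_lit 7441) (.f (nat_lit 274) (nat_lit 241) (nat_lit 7409) (.d (nat_lit 275) (nat_lit 243) (nat_lit 6386) (nat_lit 307) (nat_lit 6418))))))))))))))))))))) (.a (.p (nat_lit 432) (.a (.f (nat_lit 429) (nat_lit 397) (nat_lit 7565) (.f (nat_lit 431) (nat_lit 465) (nat_lit 429) (.f (nat_lit 401) (nat_lit 400) (nat_lit 2445) (.d (nat_lit 402) (nat_lit 366) (nat_lit 366) (nat_lit 433) (nat_lit 2446))))) (.a (.f (nat_lit 559) (nat_lit 591) (nat_lit 4558) (.f (nat_lit 561) (nat_lit 525) (nat_lit 3597) (.f (nat_lit 429) (nat_lit 397) (nat_lit 7565) (.f (nat_lit 594) (nat_lit 593) (nat_lit 558) (.f (nat_lit 562) (nat_lit 595) (nat_lit 559) (.f (nat_lit 530) (nat_lit 531) (nat_lit 2575) (.f (nat_lit 465) (nat_lit 431) (nat_lit 429) (.f (nat_lit 498) (nat_lit 497) (nat_lit 7633) (.f (nat_lit 466) (nat_lit 433) (nat_lit 7601) (.d (nat_lit 467) (nat_lit 435) (nat_lit 6578) (nat_lit 499) (nat_lit 6610))))))))))) (.a (.f (nat_lit 400) (nat_lit 335) (nat_lit 7503) (.f (nat_lit 465) (nat_lit 497) (nat_lit 4464) (.f (nat_lit 433) (nat_lit 336) (nat_lit 4432) (.d (nat_lit 431) (nat_lit 429) (nat_lit 429) (nat_lit 466) (nat_lit 430))))) (.a (.f (nat_lit 400) (nat_lit 335) (nat_lit 7503) (.f (nat_lit 465) (nat_lit 497) (nat_lit 4464) (.f (nat_lit 433) (nat_lit 336) (nat_lit 4432) (.f (nat_lit 466) (nat_lit 431) (nat_lit 430) (.f (nat_lit 401) (nat_lit 498) (nat_lit 4465) (.d (nat_lit 366) (nat_lit 365) (nat_lit 365) (nat_lit 402) (nat_lit 366))))))) (.a (.f (nat_lit 559) (nat_lit 591) (nat_lit 4558) (.f (nat_lit 561) (nat_lit 525) (nat_lit 3597) (.f (nat_lit 400) (nat_lit 335) (nat_lit 7503) (.f (nat_lit 465) (nat_lit 497) (nat_lit 4464) (.f (nat_lit 433) (nat_lit 336) (nat_lit 4432) (.f (nat_lit 594) (nat_lit 593) (nat_lit 558) (.f (nat_lit 562) (nat_lit 595) (nat_lit 559) (.f (nat_lit 531) (nat_lit 530) (nat_lit 2575) (.f (nat_lit 563) (nat_lit 532) (nat_lit 2576) (.f (nat_lit 467) (nat_lit 499) (nat_lit 5586) (.f (nat_lit 466) (nat_lit 468) (nat_lit 3504) (.f (nat_lit 401) (nat_lit 498) (nat_lit 4465) (.d (nat_lit 366) (nat_lit 365) (nat_lit 365) (nat_lit 402) (nat_lit 366)))))))))))))) (.a (.f (nat_lit 400) (nat_lit 335) (nat_lit 7503) (.f (nat_lit 429) (nat_lit 397) (nat_lit 7565) (.d (nat_lit 431) (nat_lit 401) (nat_lit 2445) (nat_lit 465) (nat_lit 429)))) (.f (nat_lit 400) (nat_lit 335) (nat_lit 7503) (.f (nat_lit 429) (nat_lit 397) (nat_lit 7565) (.f (nat_lit 401) (nat_lit 431) (nat_lit 2445) (.d (nat_lit 366) (nat_lit 365) (nat_lit 365) (nat_lit 402) (nat_lit 366)))))))))))) (.a (.p (nat_lit 335) (.a (.f (nat_lit 334) (nat_lit 370) (nat_lit 3406) (.d (nat_lit 333) (nat_lit 332) (nat_lit 332) (nat_lit 366) (nat_lit 3405))) (.f (nat_lit 559) (nat_lit 591) (nat_lit 4558) (.f (nat_lit 561) (nat_lit 525) (nat_lit 3597) (.f (nat_lit 594) (nat_lit 593) (nat_lit 558) (.f (nat_lit 562) (nat_lit 595) (nat_lit 559) (.f (nat_lit 530) (nat_lit 531) (nat_lit 2575) (.f (nat_lit 432) (nat_lit 400) (nat_lit 7503) (.f (nat_lit 429) (nat_lit 397) (nat_lit 7565) (.f (nat_lit 465) (nat_lit 431) (nat_lit 429) (.f (nat_lit 498) (nat_lit 497) (nat_lit 7633) (.f (nat_lit 466) (nat_lit 433) (nat_lit 7601) (.d (nat_lit 467) (nat_lit 435) (nat_lit 6578) (nat_lit 499) (nat_lit 6610)))))))))))))) (.p (nat_lit 370) (.a (.f (nat_lit 335) (nat_lit 334) (nat_lit 3406) (.f (nat_lit 371) (nat_lit 336) (nat_lit 3407) (.d (nat_lit 339) (nat_lit 338) (nat_lit 2383) (nat_lit 340) (nat_lit 2384)))) (.a (.f (nat_lit 403) (nat_lit 402) (nat_lit 367) (.f (nat_lit 371) (nat_lit 404) (nat_lit 368) (.f (nat_lit 340) (nat_lit 339) (nat_lit 2384) (.f (nat_lit 372) (nat_lit 341) (nat_lit 2385) (.f (nat_lit 400) (nat_lit 401) (nat_lit 1392) (.d (nat_lit 335) (nat_lit 336) (nat_lit 3407) (nat_lit 432) (nat_lit 7503))))))) (.a (.f (nat_lit 339) (nat_lit 338) (nat_lit 2383) (.f (nat_lit 371) (nat_lit 340) (nat_lit 2384) (.d (nat_lit 403) (nat_lit 402) (nat_lit 367) (nat_lit 404) (nat_lit 368)))) (.a (.f (nat_lit 335) (nat_lit 334) (nat_lit 3406) (.f (nat_lit 371) (nat_lit 336) (nat_lit 3407) (.d (nat_lit 403) (nat_lit 402) (nat_lit 367) (nat_lit 404) (nat_lit 368)))) (.f (nat_lit 402) (nat_lit 403) (nat_lit 367) (.f (nat_lit 366) (nat_lit 401) (nat_lit 366) (.d (nat_lit 334) (nat_lit 333) (nat_lit 3405) (nat_lit 335) (nat_lit 3406)))))))))))))))))))) (.a (.f (nat_lit 527) (nat_lit 559) (nat_lit 4526) (.f (nat_lit 525) (nat_lit 561) (nat_lit 525) (.f (nat_lit 492) (nat_lit 493) (nat_lit 3564) (.f (nat_lit 524) (nat_lit 491) (nat_lit 3563) (.f (nat_lit 523) (nat_lit 495) (nat_lit 2539) (.d (nat_lit 555) (nat_lit 554) (nat_lit 1546) (nat_lit 556) (nat_lit 1547))))))) (.a (.f (nat_lit 525) (nat_lit 557) (nat_lit 5549) (.f (nat_lit 527) (nat_lit 561) (nat_lit 525) (.f (nat_lit 492) (nat_lit 493) (nat_lit 3564) (.f (nat_lit 524) (nat_lit 491) (nat_lit 3563) (.f (nat_lit 523) (nat_lit 495) (nat_lit 2539) (.d (nat_lit 555) (nat_lit 554) (nat_lit 1546) (nat_lit 556) (nat_lit 1547))))))) (.f (nat_lit 527) (nat_lit 559) (nat_lit 4526) (.f (nat_lit 525) (nat_lit 557) (nat_lit 5549) (.f (nat_lit 492) (nat_lit 493) (nat_lit 3564) (.f (nat_lit 524) (nat_lit 491) (nat_lit 3563) (.f (nat_lit 523) (nat_lit 495) (nat_lit 2539) (.d (nat_lit 555) (nat_lit 554) (nat_lit 1546) (nat_lit 556) (nat_lit 1547))))))))))))) (.a (.p (nat_lit 526) (.a (.f (nat_lit 527) (nat_lit 559) (nat_lit 4526) (.d (nat_lit 525) (nat_lit 557) (nat_lit 5549) (nat_lit 561) (nat_lit 525))) (.a (.f (nat_lit 559) (nat_lit 527) (nat_lit 4526) (.f (nat_lit 558) (nat_lit 591) (nat_lit 4558) (.f (nat_lit 589) (nat_lit 557) (nat_lit 5581) (.d (nat_lit 590) (nat_lit 561) (nat_lit 1581) (nat_lit 621) (nat_lit 5613))))) (.a (.p (nat_lit 558) (.a (.d (nat_lit 557) (nat_lit 525) (nat_lit 5549) (nat_lit 589) (nat_lit 5581)) (.a (.f (nat_lit 589) (nat_lit 557) (nat_lit 5581) (.f (nat_lit 590) (nat_lit 621) (nat_lit 5613) (.d (nat_lit 591) (nat_lit 559) (nat_lit 4558) (nat_lit 623) (nat_lit 4590)))) (.p (nat_lit 432) (.a (.f (nat_lit 400) (nat_lit 335) (nat_lit 7503) (.f (nat_lit 369) (nat_lit 337) (nat_lit 6480) (.f (nat_lit 465) (nat_lit 497) (nat_lit 4464) (.f (nat_lit 433) (nat_lit 336) (nat_lit 4432) (.f (nat_lit 466) (nat_lit 431) (nat_lit 430) (.f (nat_lit 401) (nat_lit 498) (nat_lit 4465) (.d (nat_lit 402) (nat_lit 366) (nat_lit 366) (nat_lit 403) (nat_lit 3439)))))))) (.a (.f (nat_lit 429) (nat_lit 397) (nat_lit 7565) (.f (nat_lit 431) (nat_lit 465) (nat_lit 429) (.f (nat_lit 401) (nat_lit 400) (nat_lit 2445) (.f (nat_lit 402) (nat_lit 433) (nat_lit 2446) (.f (nat_lit 369) (nat_lit 366) (nat_lit 366) (.d (nat_lit 403) (nat_lit 370) (nat_lit 367) (nat_lit 404) (nat_lit 3440))))))) (.a s76954 (.a (.f (nat_lit 559) (nat_lit 591) (nat_lit 4558) (.f (nat_lit 561) (nat_lit 525) (nat_lit 3597) (.f (nat_lit 429) (nat_lit 397) (nat_lit 7565) (.f (nat_lit 594) (nat_lit 593) (nat_lit 558) (.f (nat_lit 562) (nat_lit 595) (nat_lit 559) (.f (nat_lit 530) (nat_lit 531) (nat_lit 2575) (.f (nat_lit 465) (nat_lit 431) (nat_lit 429) (.f (nat_lit 498) (nat_lit 497) (nat_lit 7633) (.f (nat_lit 466) (nat_lit 433) (nat_lit 7601) (.d (nat_lit 467) (nat_lit 435) (nat_lit 6578) (nat_lit 499) (nat_lit 6610))))))))))) (.a (.f (nat_lit 400) (nat_lit 335) (nat_lit 7503) (.f (nat_lit 337) (nat_lit 369) (nat_lit 6480) (.f (nat_lit 336) (nat_lit 305) (nat_lit 6448) (.d (nat_lit 465) (nat_lit 433) (nat_lit 4432) (nat_lit 497) (nat_lit 4464))))) (.a (.f (nat_lit 400) (nat_lit 335) (nat_lit 7503) (.f (nat_lit 429) (nat_lit 397) (nat_lit 7565) (.d (nat_lit 431) (nat_lit 401) (nat_lit 2445) (nat_lit 465) (nat_lit 429)))) (.f (nat_lit 400) (nat_lit 335) (nat_lit 7503) (.f (nat_lit 369) (nat_lit 337) (nat_lit 6480) (.f (nat_lit 429) (nat_lit 397) (nat_lit 7565) (.f (nat_lit 401) (nat_lit 431) (nat_lit 2445) (.d (nat_lit 402) (nat_lit 366) (nat_lit 366) (nat_lit 403) (nat_lit 3439)))))))))))))))) (.a (.f (nat_lit 527) (nat_lit 559) (nat_lit 4526) (.f (nat_lit 525) (nat_lit 561) (nat_lit 525) (.f (nat_lit 492) (nat_lit 493) (nat_lit 3564) (.f (nat_lit 524) (nat_lit 491) (nat_lit 3563) (.f (nat_lit 523) (nat_lit 495) (nat_lit 2539) (.d (nat_lit 555) (nat_lit 554) (nat_lit 1546) (nat_lit 556) (nat_lit 1547))))))) (.a (.f (nat_lit 525) (nat_lit 557) (nat_lit 5549) (.f (nat_lit 527) (nat_lit 561) (nat_lit 525) (.f (nat_lit 492) (nat_lit 493) (nat_lit 3564) (.f (nat_lit 524) (nat_lit 491) (nat_lit 3563) (.f (nat_lit 523) (nat_lit 495) (nat_lit 2539) (.d (nat_lit 555) (nat_lit 554) (nat_lit 1546) (nat_lit 556) (nat_lit 1547))))))) (.f (nat_lit 527) (nat_lit 559) (nat_lit 4526) (.f (nat_lit 525) (nat_lit 557) (nat_lit 5549) (.f (nat_lit 492) (nat_lit 493) (nat_lit 3564) (.f (nat_lit 524) (nat_lit 491) (nat_lit 3563) (.f (nat_lit 523) (nat_lit 495) (nat_lit 2539) (.d (nat_lit 555) (nat_lit 554) (nat_lit 1546) (nat_lit 556) (nat_lit 1547))))))))))))) (.a (.p (nat_lit 526) (.a (.f (nat_lit 527) (nat_lit 559) (nat_lit 4526) (.d (nat_lit 525) (nat_lit 557) (nat_lit 5549) (nat_lit 561) (nat_lit 525))) (.a (.f (nat_lit 559) (nat_lit 527) (nat_lit 4526) (.f (nat_lit 558) (nat_lit 591) (nat_lit 4558) (.f (nat_lit 589) (nat_lit 557) (nat_lit 5581) (.d (nat_lit 590) (nat_lit 561) (nat_lit 1581) (nat_lit 621) (nat_lit 5613))))) (.a (.p (nat_lit 558) (.a (.d (nat_lit 557) (nat_lit 525) (nat_lit 5549) (nat_lit 589) (nat_lit 5581)) (.a (.f (nat_lit 589) (nat_lit 557) (nat_lit 5581) (.f (nat_lit 590) (nat_lit 621) (nat_lit 5613) (.d (nat_lit 591) (nat_lit 559) (nat_lit 4558) (nat_lit 623) (nat_lit 4590)))) (.p (nat_lit 465) (.a (.f (nat_lit 429) (nat_lit 397) (nat_lit 7565) (.f (nat_lit 432) (nat_lit 431) (nat_lit 429) (.d (nat_lit 400) (nat_lit 335) (nat_lit 7503) (nat_lit 497) (nat_lit 4464)))) (.a (.f (nat_lit 429) (nat_lit 397) (nat_lit 7565) (.f (nat_lit 432) (nat_lit 431) (nat_lit 429) (.f (nat_lit 400) (nat_lit 497) (nat_lit 4464) (.f (nat_lit 336) (nat_lit 433) (nat_lit 4432) (.d (nat_lit 337) (nat_lit 305) (nat_lit 6448) (nat_lit 369) (nat_lit 6480)))))) (.a (.f (nat_lit 559) (nat_lit 591) (nat_lit 4558) (.f (nat_lit 561) (nat_lit 525) (nat_lit 3597) (.f (nat_lit 594) (nat_lit 593) (nat_lit 558) (.f (nat_lit 562) (nat_lit 595) (nat_lit 559) (.f (nat_lit 530) (nat_lit 531) (nat_lit 2575) (.f (nat_lit 498) (nat_lit 497) (nat_lit 7633) (.f (nat_lit 466) (nat_lit 433) (nat_lit 7601) (.d (nat_lit 467) (nat_lit 435) (nat_lit 6578) (nat_lit 499) (nat_lit 6610))))))))) (.f (nat_lit 429) (nat_lit 397) (nat_lit 7565) (.f (nat_lit 432) (nat_lit 431) (nat_lit 429) (.f (nat_lit 400) (nat_lit 335) (nat_lit 7503) (.f (nat_lit 336) (nat_lit 433) (nat_lit 4432) (.d (nat_lit 337) (nat_lit 305) (nat_lit 6448) (nat_lit 369) (nat_lit 6480))))))))))))) (.a (.f (nat_lit 527) (nat_lit 559) (nat_lit 4526) (.f (nat_lit 525) (nat_lit 561) (nat_lit 525) (.f (nat_lit 492) (nat_lit 493) (nat_lit 3564) (.f (nat_lit 524) (nat_lit 491) (nat_lit 3563) (.f (nat_lit 523) (nat_lit 495) (nat_lit 2539) (.d (nat_lit 555) (nat_lit 554) (nat_lit 1546) (nat_lit 556) (nat_lit 1547))))))) (.a (.f (nat_lit 525) (nat_lit 557) (nat_lit 5549) (.f (nat_lit 527) (nat_lit 561) (nat_lit 525) (.f (nat_lit 492) (nat_lit 493) (nat_lit 3564) (.f (nat_lit 524) (nat_lit 491) (nat_lit 3563) (.f (nat_lit 523) (nat_lit 495) (nat_lit 2539) (.d (nat_lit 555) (nat_lit 554) (nat_lit 1546) (nat_lit 556) (nat_lit 1547))))))) (.f (nat_lit 527) (nat_lit 559) (nat_lit 4526) (.f (nat_lit 525) (nat_lit 557) (nat_lit 5549) (.f (nat_lit 492) (nat_lit 493) (nat_lit 3564) (.f (nat_lit 524) (nat_lit 491) (nat_lit 3563) (.f (nat_lit 523) (nat_lit 495) (nat_lit 2539) (.d (nat_lit 555) (nat_lit 554) (nat_lit 1546) (nat_lit 556) (nat_lit 1547))))))))))))) (.a (.p (nat_lit 429) (.a (.f (nat_lit 526) (nat_lit 397) (nat_lit 7565) (.f (nat_lit 527) (nat_lit 559) (nat_lit 4526) (.d (nat_lit 525) (nat_lit 557) (nat_lit 5549) (nat_lit 561) (nat_lit 525)))) (.a (.p (nat_lit 465) (.a (.f (nat_lit 432) (nat_lit 431) (nat_lit 429) (.d (nat_lit 400) (nat_lit 335) (nat_lit 7503) (nat_lit 497) (nat_lit 4464))) (.a (.p (nat_lit 526) (.a (.f (nat_lit 527) (nat_lit 559) (nat_lit 4526) (.d (nat_lit 525) (nat_lit 557) (nat_lit 5549) (nat_lit 561) (nat_lit 525))) (.a (.f (nat_lit 559) (nat_lit 527) (nat_lit 4526) (.f (nat_lit 558) (nat_lit 591) (nat_lit 4558) (.f (nat_lit 589) (nat_lit 557) (nat_lit 5581) (.d (nat_lit 590) (nat_lit 561) (nat_lit 1581) (nat_lit 621) (nat_lit 5613))))) (.a (.p (nat_lit 558) (.a (.d (nat_lit 557) (nat_lit 525) (nat_lit 5549) (nat_lit 589) (nat_lit 5581)) (.a (.f (nat_lit 589) (nat_lit 557) (nat_lit 5581) (.f (nat_lit 590) (nat_lit 621) (nat_lit 5613) (.d (nat_lit 591) (nat_lit 559) (nat_lit 4558) (nat_lit 623) (nat_lit 4590)))) (.f (nat_lit 559) (nat_lit 591) (nat_lit 4558) (.f (nat_lit 561) (nat_lit 525) (nat_lit 3597) (.f (nat_lit 432) (nat_lit 431) (nat_lit 429) (.f (nat_lit 594) (nat_lit 593) (nat_lit 558) (.f (nat_lit 562) (nat_lit 595) (nat_lit 559) (.f (nat_lit 530) (nat_lit 531) (nat_lit 2575) (.d (nat_lit 497) (nat_lit 400) (nat_lit 4464) (nat_lit 498) (nat_lit 7633))))))))))) (.a (.f (nat_lit 527) (nat_lit 559) (nat_lit 4526) (.f (nat_lit 525) (nat_lit 561) (nat_lit 525) (.f (nat_lit 492) (nat_lit 493) (nat_lit 3564) (.f (nat_lit 524) (nat_lit 491) (nat_lit 3563) (.f (nat_lit 523) (nat_lit 495) (nat_lit 2539) (.d (nat_lit 555) (nat_lit 554) (nat_lit 1546) (nat_lit 556) (nat_lit 1547))))))) (.a (.f (nat_lit 525) (nat_lit 557) (nat_lit 5549) (.f (nat_lit 527) (nat_lit 561) (nat_lit 525) (.f (nat_lit 492) (nat_lit 493) (nat_lit 3564) (.f (nat_lit 524) (nat_lit 491) (nat_lit 3563) (.f (nat_lit 555) (nat_lit 556) (nat_lit 1547) (.d (nat_lit 523) (nat_lit 495) (nat_lit 2539) (nat_lit 554) (nat_lit 1546))))))) (.f (nat_lit 527) (nat_lit 559) (nat_lit 4526) (.f (nat_lit 525) (nat_lit 557) (nat_lit 5549) (.f (nat_lit 492) (nat_lit 493) (nat_lit 3564) (.f (nat_lit 524) (nat_lit 491) (nat_lit 3563) (.f (nat_lit 555) (nat_lit 556) (nat_lit 1547) (.d (nat_lit 523) (nat_lit 495) (nat_lit 2539) (nat_lit 554) (nat_lit 1546))))))))))))) (.a (.p (nat_lit 526) (.a (.f (nat_lit 527) (nat_lit 559) (nat_lit 4526) (.d (nat_lit 525) (nat_lit 557) (nat_lit 5549) (nat_lit 561) (nat_lit 525))) (.a (.f (nat_lit 559) (nat_lit 527) (nat_lit 4526) (.f (nat_lit 558) (nat_lit 591) (nat_lit 4558) (.f (nat_lit 589) (nat_lit 557) (nat_lit 5581) (.d (nat_lit 590) (nat_lit 561) (nat_lit 1581) (nat_lit 621) (nat_lit 5613))))) (.a (.p (nat_lit 558) (.a (.d (nat_lit 557) (nat_lit 525) (nat_lit 5549) (nat_lit 589) (nat_lit 5581)) (.a (.f (nat_lit 589) (nat_lit 557) (nat_lit 5581) (.f (nat_lit 590) (nat_lit 621) (nat_lit 5613) (.d (nat_lit 591) (nat_lit 559) (nat_lit 4558) (nat_lit 623) (nat_lit 4590)))) (.f (nat_lit 559) (nat_lit 591) (nat_lit 4558) (.f (nat_lit 561) (nat_lit 525) (nat_lit 3597) (.f (nat_lit 594) (nat_lit 593) (nat_lit 558) (.f (nat_lit 562) (nat_lit 595) (nat_lit 559) (.f (nat_lit 530) (nat_lit 531) (nat_lit 2575) (.f (nat_lit 498) (nat_lit 497) (nat_lit 7633) (.f (nat_lit 466) (nat_lit 433) (nat_lit 7601) (.d (nat_lit 467) (nat_lit 435) (nat_lit 6578) (nat_lit 499) (nat_lit 6610)))))))))))) (.a (.f (nat_lit 527) (nat_lit 559) (nat_lit 4526) (.f (nat_lit 525) (nat_lit 561) (nat_lit 525) (.f (nat_lit 492) (nat_lit 493) (nat_lit 3564) (.f (nat_lit 524) (nat_lit 491) (nat_lit 3563) (.f (nat_lit 523) (nat_lit 495) (nat_lit 2539) (.d (nat_lit 555) (nat_lit 554) (nat_lit 1546) (nat_lit 556) (nat_lit 1547))))))) (.a (.f (nat_lit 525) (nat_lit 557) (nat_lit 5549) (.f (nat_lit 527) (nat_lit 561) (nat_lit 525) (.f (nat_lit 492) (nat_lit 493) (nat_lit 3564) (.f (nat_lit 524) (nat_lit 491) (nat_lit 3563) (.f (nat_lit 555) (nat_lit 556) (nat_lit 1547) (.d (nat_lit 523) (nat_lit 495) (nat_lit 2539) (nat_lit 554) (nat_lit 1546))))))) (.f (nat_lit 527) (nat_lit 559) (nat_lit 4526) (.f (nat_lit 525) (nat_lit 557) (nat_lit 5549) (.f (nat_lit 492) (nat_lit 493) (nat_lit 3564) (.f (nat_lit 524) (nat_lit 491) (nat_lit 3563) (.f (nat_lit 555) (nat_lit 556) (nat_lit 1547) (.d (nat_lit 523) (nat_lit 495) (nat_lit 2539) (nat_lit 554) (nat_lit 1546))))))))))))) (.p (nat_lit 467) (.a (.p (nat_lit 466) (.a (.f (nat_lit 432) (nat_lit 431) (nat_lit 429) (.f (nat_lit 468) (nat_lit 433) (nat_lit 3504) (.d (nat_lit 436) (nat_lit 435) (nat_lit 2480) (nat_lit 437) (nat_lit 2481)))) (.a (.f (nat_lit 436) (nat_lit 435) (nat_lit 2480) (.f (nat_lit 468) (nat_lit 437) (nat_lit 2481) (.d (nat_lit 500) (nat_lit 499) (nat_lit 464) (nat_lit 501) (nat_lit 465)))) (.a (.f (nat_lit 432) (nat_lit 431) (nat_lit 429) (.f (nat_lit 468) (nat_lit 433) (nat_lit 3504) (.d (nat_lit 500) (nat_lit 499) (nat_lit 464) (nat_lit 501) (nat_lit 465)))) (.p (nat_lit 434) (.a (.f (nat_lit 435) (nat_lit 436) (nat_lit 2480) (.f (nat_lit 499) (nat_lit 500) (nat_lit 464) (.d (nat_lit 402) (nat_lit 370) (nat_lit 4466) (nat_lit 531) (nat_lit 7570)))) (.a (.f (nat_lit 435) (nat_lit 436) (nat_lit 2480) (.f (nat_lit 499) (nat_lit 500) (nat_lit 464) (.d (nat_lit 531) (nat_lit 402) (nat_lit 7570) (nat_lit 563) (nat_lit 7602)))) (.a (.f (nat_lit 432) (nat_lit 431) (nat_lit 3503) (.f (nat_lit 435) (nat_lit 436) (nat_lit 2480) (.f (nat_lit 499) (nat_lit 500) (nat_lit 464) (.f (nat_lit 531) (nat_lit 563) (nat_lit 7602) (.f (nat_lit 530) (nat_lit 562) (nat_lit 5554) (.f (nat_lit 403) (nat_lit 498) (nat_lit 5522) (.d (nat_lit 404) (nat_lit 372) (nat_lit 6515) (nat_lit 433) (nat_lit 2448)))))))) (.a (.f (nat_lit 499) (nat_lit 500) (nat_lit 464) (.f (nat_lit 402) (nat_lit 370) (nat_lit 4466) (.d (nat_lit 531) (nat_lit 498) (nat_lit 4498) (nat_lit 563) (nat_lit 7602)))) (.f (nat_lit 432) (nat_lit 431) (nat_lit 3503) (.f (nat_lit 435) (nat_lit 436) (nat_lit 2480) (.f (nat_lit 400) (nat_lit 335) (nat_lit 7503) (.f (nat_lit 336) (nat_lit 433) (nat_lit 4432) (.f (nat_lit 337) (nat_lit 305) (nat_lit 6448) (.f (nat_lit 338) (nat_lit 339) (nat_lit 1359) (.f (nat_lit 402) (nat_lit 370) (nat_lit 4434) (.f (nat_lit 403) (nat_lit 401) (nat_lit 3439) (.d (nat_lit 498) (nat_lit 371) (nat_lit 5490) (nat_lit 530) (nat_lit 6546))))))))))))))))))) (.a (.p (nat_lit 466) (.a (.f (nat_lit 432) (nat_lit 431) (nat_lit 429) (.f (nat_lit 468) (nat_lit 433) (nat_lit 3504) (.d (nat_lit 436) (nat_lit 435) (nat_lit 2480) (nat_lit 437) (nat_lit 2481)))) (.a (.f (nat_lit 436) (nat_lit 435) (nat_lit 2480) (.f (nat_lit 468) (nat_lit 437) (nat_lit 2481) (.d (nat_lit 500) (nat_lit 499) (nat_lit 464) (nat_lit 501) (nat_lit 465)))) (.a (.f (nat_lit 432) (nat_lit 431) (nat_lit 429) (.f (nat_lit 468) (nat_lit 433) (nat_lit 3504) (.d (nat_lit 500) (nat_lit 499) (nat_lit 464) (nat_lit 501) (nat_lit 465)))) (.p (nat_lit 434) (.a (.f (nat_lit 435) (nat_lit 436) (nat_lit 2480) (.f (nat_lit 499) (nat_lit 500) (nat_lit 464) (.d (nat_lit 402) (nat_lit 370) (nat_lit 4466) (nat_lit 531) (nat_lit 7570)))) (.a (.f (nat_lit 435) (nat_lit 436) (nat_lit 2480) (.f (nat_lit 499) (nat_lit 500) (nat_lit 464) (.d (nat_lit 531) (nat_lit 402) (nat_lit 7570) (nat_lit 563) (nat_lit 7602)))) (.a (.f (nat_lit 432) (nat_lit 431) (nat_lit 3503) (.f (nat_lit 435) (nat_lit 436) (nat_lit 2480) (.f (nat_lit 499) (nat_lit 500) (nat_lit 464) (.f (nat_lit 531) (nat_lit 563) (nat_lit 7602) (.f (nat_lit 530) (nat_lit 562) (nat_lit 5554) (.f (nat_lit 403) (nat_lit 498) (nat_lit 5522) (.d (nat_lit 404) (nat_lit 372) (nat_lit 6515) (nat_lit 433) (nat_lit 2448)))))))) (.a (.f (nat_lit 499) (nat_lit 500) (nat_lit 464) (.f (nat_lit 402) (nat_lit 370) (nat_lit 4466) (.d (nat_lit 531) (nat_lit 498) (nat_lit 4498) (nat_lit 563) (nat_lit 7602)))) (.f (nat_lit 432) (nat_lit 431) (nat_lit 3503) (.f (nat_lit 435) (nat_lit 436) (nat_lit 2480) (.f (nat_lit 400) (nat_lit 335) (nat_lit 7503) (.f (nat_lit 433) (nat_lit 336) (nat_lit 4432) (.f (nat_lit 403) (nat_lit 404) (nat_lit 2448) (.d (nat_lit 371) (nat_lit 339) (nat_lit 5458) (nat_lit 498) (nat_lit 5490)))))))))))))))) (.a (.p (nat_lit 526) (.a (.f (nat_lit 527) (nat_lit 559) (nat_lit 4526) (.d (nat_lit 525) (nat_lit 557) (nat_lit 5549) (nat_lit 561) (nat_lit 525))) (.a (.f (nat_lit 559) (nat_lit 527) (nat_lit 4526) (.f (nat_lit 558) (nat_lit 591) (nat_lit 4558) (.f (nat_lit 589) (nat_lit 557) (nat_lit 5581) (.d (nat_lit 590) (nat_lit 561) (nat_lit 1581) (nat_lit 621) (nat_lit 5613))))) (.a (.p (nat_lit 558) (.a (.d (nat_lit 557) (nat_lit 525) (nat_lit 5549) (nat_lit 589) (nat_lit 5581)) (.a (.f (nat_lit 589) (nat_lit 557) (nat_lit 5581) (.f (nat_lit 590) (nat_lit 621) (nat_lit 5613) (.d (nat_lit 591) (nat_lit 559) (nat_lit 4558) (nat_lit 623) (nat_lit 4590)))) (.f (nat_lit 559) (nat_lit 591) (nat_lit 4558) (.f (nat_lit 561) (nat_lit 525) (nat_lit 3597) (.f (nat_lit 594) (nat_lit 593) (nat_lit 558) (.f (nat_lit 562) (nat_lit 595) (nat_lit 559) (.f (nat_lit 530) (nat_lit 531) (nat_lit 2575) (.f (nat_lit 498) (nat_lit 499) (nat_lit 6610) (.d (nat_lit 466) (nat_lit 433) (nat_lit 7601) (nat_lit 435) (nat_lit 6578))))))))))) (.a (.f (nat_lit 527) (nat_lit 559) (nat_lit 4526) (.f (nat_lit 525) (nat_lit 561) (nat_lit 525) (.f (nat_lit 492) (nat_lit 493) (nat_lit 3564) (.f (nat_lit 524) (nat_lit 491) (nat_lit 3563) (.f (nat_lit 523) (nat_lit 495) (nat_lit 2539) (.d (nat_lit 555) (nat_lit 554) (nat_lit 1546) (nat_lit 556) (nat_lit 1547))))))) (.a (.f (nat_lit 525) (nat_lit 557) (nat_lit 5549) (.f (nat_lit 527) (nat_lit 561) (nat_lit 525) (.f (nat_lit 492) (nat_lit 493) (nat_lit 3564) (.f (nat_lit 524) (nat_lit 491) (nat_lit 3563) (.f (nat_lit 555) (nat_lit 556) (nat_lit 1547) (.d (nat_lit 523) (nat_lit 495) (nat_lit 2539) (nat_lit 554) (nat_lit 1546))))))) (.f (nat_lit 527) (nat_lit 559) (nat_lit 4526) (.f (nat_lit 525) (nat_lit 557) (nat_lit 5549) (.f (nat_lit 492) (nat_lit 493) (nat_lit 3564) (.f (nat_lit 524) (nat_lit 491) (nat_lit 3563) (.f (nat_lit 523) (nat_lit 495) (nat_lit 2539) (.d (nat_lit 555) (nat_lit 554) (nat_lit 1546) (nat_lit 556) (nat_lit 1547))))))))))))) (.a (.p (nat_lit 526) (.a (.f (nat_lit 527) (nat_lit 559) (nat_lit 4526) (.d (nat_lit 525) (nat_lit 557) (nat_lit 5549) (nat_lit 561) (nat_lit 525))) (.a (.f (nat_lit 559) (nat_lit 527) (nat_lit 4526) (.f (nat_lit 558) (nat_lit 591) (nat_lit 4558) (.f (nat_lit 589) (nat_lit 557) (nat_lit 5581) (.d (nat_lit 590) (nat_lit 561) (nat_lit 1581) (nat_lit 621) (nat_lit 5613))))) (.a (.p (nat_lit 558) (.a (.d (nat_lit 557) (nat_lit 525) (nat_lit 5549) (nat_lit 589) (nat_lit 5581)) (.a (.f (nat_lit 589) (nat_lit 557) (nat_lit 5581) (.f (nat_lit 590) (nat_lit 621) (nat_lit 5613) (.d (nat_lit 591) (nat_lit 559) (nat_lit 4558) (nat_lit 623) (nat_lit 4590)))) (.f (nat_lit 559) (nat_lit 591) (nat_lit 4558) (.f (nat_lit 561) (nat_lit 525) (nat_lit 3597) (.f (nat_lit 594) (nat_lit 593) (nat_lit 558) (.f (nat_lit 562) (nat_lit 595) (nat_lit 559) (.f (nat_lit 531) (nat_lit 530) (nat_lit 2575) (.d (nat_lit 563) (nat_lit 499) (nat_lit 5586) (nat_lit 532) (nat_lit 2576)))))))))) (.a (.f (nat_lit 527) (nat_lit 559) (nat_lit 4526) (.f (nat_lit 525) (nat_lit 561) (nat_lit 525) (.f (nat_lit 492) (nat_lit 493) (nat_lit 3564) (.f (nat_lit 524) (nat_lit 491) (nat_lit 3563) (.f (nat_lit 523) (nat_lit 495) (nat_lit 2539) (.d (nat_lit 555) (nat_lit 554) (nat_lit 1546) (nat_lit 556) (nat_lit 1547))))))) (.a (.f (nat_lit 525) (nat_lit 557) (nat_lit 5549) (.f (nat_lit 527) (nat_lit 561) (nat_lit 525) (.f (nat_lit 492) (nat_lit 493) (nat_lit 3564) (.f (nat_lit 524) (nat_lit 491) (nat_lit 3563) (.f (nat_lit 555) (nat_lit 556) (nat_lit 1547) (.d (nat_lit 523) (nat_lit 495) (nat_lit 2539) (nat_lit 554) (nat_lit 1546))))))) (.f (nat_lit 527) (nat_lit 559) (nat_lit 4526) (.f (nat_lit 525) (nat_lit 557) (nat_lit 5549) (.f (nat_lit 492) (nat_lit 493) (nat_lit 3564) (.f (nat_lit 524) (nat_lit 491) (nat_lit 3563) (.f (nat_lit 523) (nat_lit 495) (nat_lit 2539) (.d (nat_lit 555) (nat_lit 554) (nat_lit 1546) (nat_lit 556) (nat_lit 1547))))))))))))) (.a (.p (nat_lit 526) (.a (.f (nat_lit 527) (nat_lit 559) (nat_lit 4526) (.d (nat_lit 525) (nat_lit 557) (nat_lit 5549) (nat_lit 561) (nat_lit 525))) (.a (.f (nat_lit 559) (nat_lit 527) (nat_lit 4526) (.f (nat_lit 558) (nat_lit 591) (nat_lit 4558) (.f (nat_lit 589) (nat_lit 557) (nat_lit 5581) (.d (nat_lit 590) (nat_lit 561) (nat_lit 1581) (nat_lit 621) (nat_lit 5613))))) (.a (.p (nat_lit 558) (.a (.d (nat_lit 557) (nat_lit 525) (nat_lit 5549) (nat_lit 589) (nat_lit 5581)) (.a (.f (nat_lit 589) (nat_lit 557) (nat_lit 5581) (.f (nat_lit 590) (nat_lit 621) (nat_lit 5613) (.d (nat_lit 591) (nat_lit 559) (nat_lit 4558) (nat_lit 623) (nat_lit 4590)))) (.f (nat_lit 432) (nat_lit 431) (nat_lit 429) (.f (nat_lit 559) (nat_lit 591) (nat_lit 4558) (.f (nat_lit 561) (nat_lit 525) (nat_lit 3597) (.f (nat_lit 400) (nat_lit 335) (nat_lit 7503) (.f (nat_lit 433) (nat_lit 336) (nat_lit 4432) (.f (nat_lit 466) (nat_lit 468) (nat_lit 3504) (.f (nat_lit 435) (nat_lit 436) (nat_lit 2480) (.f (nat_lit 594) (nat_lit 593) (nat_lit 558) (.f (nat_lit 562) (nat_lit 595) (nat_lit 559) (.d (nat_lit 530) (nat_lit 498) (nat_lit 6578) (nat_lit 531) (nat_lit 2575)))))))))))))) (.a (.f (nat_lit 527) (nat_lit 559) (nat_lit 4526) (.f (nat_lit 525) (nat_lit 561) (nat_lit 525) (.f (nat_lit 492) (nat_lit 493) (nat_lit 3564) (.f (nat_lit 524) (nat_lit 491) (nat_lit 3563) (.f (nat_lit 523) (nat_lit 495) (nat_lit 2539) (.d (nat_lit 555) (nat_lit 554) (nat_lit 1546) (nat_lit 556) (nat_lit 1547))))))) (.a (.f (nat_lit 525) (nat_lit 557) (nat_lit 5549) (.f (nat_lit 527) (nat_lit 561) (nat_lit 525) (.f (nat_lit 492) (nat_lit 493) (nat_lit 3564) (.f (nat_lit 524) (nat_lit 491) (nat_lit 3563) (.f (nat_lit 555) (nat_lit 556) (nat_lit 1547) (.d (nat_lit 523) (nat_lit 495) (nat_lit 2539) (nat_lit 554) (nat_lit 1546))))))) (.f (nat_lit 527) (nat_lit 559) (nat_lit 4526) (.f (nat_lit 525) (nat_lit 557) (nat_lit 5549) (.f (nat_lit 492) (nat_lit 493) (nat_lit 3564) (.f (nat_lit 524) (nat_lit 491) (nat_lit 3563) (.f (nat_lit 523) (nat_lit 495) (nat_lit 2539) (.d (nat_lit 555) (nat_lit 554) (nat_lit 1546) (nat_lit 556) (nat_lit 1547))))))))))))) (.a (.p (nat_lit 466) (.a (.f (nat_lit 432) (nat_lit 431) (nat_lit 429) (.f (nat_lit 468) (nat_lit 433) (nat_lit 3504) (.d (nat_lit 436) (nat_lit 435) (nat_lit 2480) (nat_lit 437) (nat_lit 2481)))) (.a (.f (nat_lit 436) (nat_lit 435) (nat_lit 2480) (.f (nat_lit 468) (nat_lit 437) (nat_lit 2481) (.d (nat_lit 500) (nat_lit 499) (nat_lit 464) (nat_lit 501) (nat_lit 465)))) (.a (.f (nat_lit 432) (nat_lit 431) (nat_lit 429) (.f (nat_lit 468) (nat_lit 433) (nat_lit 3504) (.d (nat_lit 500) (nat_lit 499) (nat_lit 464) (nat_lit 501) (nat_lit 465)))) (.p (nat_lit 434) (.a (.f (nat_lit 435) (nat_lit 436) (nat_lit 2480) (.f (nat_lit 499) (nat_lit 500) (nat_lit 464) (.d (nat_lit 402) (nat_lit 370) (nat_lit 4466) (nat_lit 531) (nat_lit 7570)))) (.a (.f (nat_lit 435) (nat_lit 436) (nat_lit 2480) (.f (nat_lit 499) (nat_lit 500) (nat_lit 464) (.d (nat_lit 531) (nat_lit 402) (nat_lit 7570) (nat_lit 563) (nat_lit 7602)))) (.a (.f (nat_lit 432) (nat_lit 431) (nat_lit 3503) (.f (nat_lit 435) (nat_lit 436) (nat_lit 2480) (.f (nat_lit 400) (nat_lit 335) (nat_lit 7503) (.f (nat_lit 433) (nat_lit 336) (nat_lit 4432) (.f (nat_lit 403) (nat_lit 404) (nat_lit 2448) (.d (nat_lit 371) (nat_lit 339) (nat_lit 5458) (nat_lit 498) (nat_lit 5490))))))) (.f (nat_lit 499) (nat_lit 500) (nat_lit 464) (.f (nat_lit 402) (nat_lit 370) (nat_lit 4466) (.d (nat_lit 531) (nat_lit 498) (nat_lit 4498) (nat_lit 563) (nat_lit 7602)))))))))))) (.p (nat_lit 466) (.a (.f (nat_lit 432) (nat_lit 431) (nat_lit 429) (.f (nat_lit 468) (nat_lit 433) (nat_lit 3504) (.d (nat_lit 436) (nat_lit 435) (nat_lit 2480) (nat_lit 437) (nat_lit 2481)))) (.a (.f (nat_lit 436) (nat_lit 435) (nat_lit 2480) (.f (nat_lit 468) (nat_lit 437) (nat_lit 2481) (.d (nat_lit 500) (nat_lit 499) (nat_lit 464) (nat_lit 501) (nat_lit 465)))) (.a (.f (nat_lit 432) (nat_lit 431) (nat_lit 429) (.f (nat_lit 468) (nat_lit 433) (nat_lit 3504) (.d (nat_lit 500) (nat_lit 499) (nat_lit 464) (nat_lit 501) (nat_lit 465)))) (.p (nat_lit 403) (.a (.f (nat_lit 435) (nat_lit 436) (nat_lit 2480) (.f (nat_lit 499) (nat_lit 500) (nat_lit 464) (.d (nat_lit 498) (nat_lit 371) (nat_lit 5490) (nat_lit 530) (nat_lit 5522)))) (.a (.f (nat_lit 432) (nat_lit 431) (nat_lit 3503) (.f (nat_lit 400) (nat_lit 335) (nat_lit 7503) (.f (nat_lit 435) (nat_lit 436) (nat_lit 2480) (.f (nat_lit 499) (nat_lit 500) (nat_lit 464) (.d (nat_lit 402) (nat_lit 370) (nat_lit 7538) (nat_lit 401) (nat_lit 3439)))))) (.a (.f (nat_lit 432) (nat_lit 431) (nat_lit 3503) (.f (nat_lit 400) (nat_lit 335) (nat_lit 7503) (.f (nat_lit 336) (nat_lit 433) (nat_lit 4432) (.f (nat_lit 337) (nat_lit 305) (nat_lit 6448) (.f (nat_lit 402) (nat_lit 401) (nat_lit 3439) (.f (nat_lit 339) (nat_lit 338) (nat_lit 1359) (.f (nat_lit 499) (nat_lit 500) (nat_lit 464) (.f (nat_lit 434) (nat_lit 370) (nat_lit 4466) (.d (nat_lit 371) (nat_lit 307) (nat_lit 5426) (nat_lit 498) (nat_lit 6514)))))))))) (.f (nat_lit 435) (nat_lit 436) (nat_lit 2480) (.f (nat_lit 371) (nat_lit 498) (nat_lit 5490) (.f (nat_lit 339) (nat_lit 434) (nat_lit 5458) (.d (nat_lit 340) (nat_lit 308) (nat_lit 6451) (nat_lit 372) (nat_lit 6483)))))))))))))))))))))))) (.a (.f (nat_lit 397) (nat_lit 526) (nat_lit 7565) (.f (nat_lit 365) (nat_lit 333) (nat_lit 4429) (.f (nat_lit 366) (nat_lit 396) (nat_lit 1388) (.f (nat_lit 400) (nat_lit 401) (nat_lit 365) (.f (nat_lit 336) (nat_lit 337) (nat_lit 2381) (.d (nat_lit 335) (nat_lit 364) (nat_lit 2380) (nat_lit 432) (nat_lit 7503))))))) (.p (nat_lit 365) (.a (.f (nat_lit 397) (nat_lit 333) (nat_lit 4429) (.f (nat_lit 366) (nat_lit 396) (nat_lit 1388) (.f (nat_lit 400) (nat_lit 401) (nat_lit 365) (.f (nat_lit 336) (nat_lit 337) (nat_lit 2381) (.d (nat_lit 335) (nat_lit 364) (nat_lit 2380) (nat_lit 432) (nat_lit 7503)))))) (.a (.p (nat_lit 366) (.a (.f (nat_lit 400) (nat_lit 401) (nat_lit 365) (.f (nat_lit 336) (nat_lit 337) (nat_lit 2381) (.d (nat_lit 335) (nat_lit 364) (nat_lit 2380) (nat_lit 432) (nat_lit 7503)))) (.a (.f (nat_lit 396) (nat_lit 397) (nat_lit 1388) (.f (nat_lit 395) (nat_lit 364) (nat_lit 1387) (.f (nat_lit 428) (nat_lit 431) (nat_lit 3467) (.d (nat_lit 394) (nat_lit 393) (nat_lit 393) (nat_lit 427) (nat_lit 3466))))) (.f (nat_lit 400) (nat_lit 401) (nat_lit 365) (.f (nat_lit 432) (nat_lit 335) (nat_lit 7503) (.d (nat_lit 465) (nat_lit 431) (nat_lit 429) (nat_lit 497) (nat_lit 4464))))))) (.a (.f (nat_lit 397) (nat_lit 333) (nat_lit 4429) (.f (nat_lit 396) (nat_lit 366) (nat_lit 1388) (.f (nat_lit 395) (nat_lit 394) (nat_lit 394) (.d (nat_lit 431) (nat_lit 428) (nat_lit 3467) (nat_lit 432) (nat_lit 3468))))) (.a (.p (nat_lit 432) (.a (.f (nat_lit 431) (nat_lit 465) (nat_lit 429) (.d (nat_lit 400) (nat_lit 335) (nat_lit 7503) (nat_lit 401) (nat_lit 2445))) (.a (.f (nat_lit 431) (nat_lit 465) (nat_lit 429) (.d (nat_lit 397) (nat_lit 333) (nat_lit 4429) (nat_lit 396) (nat_lit 3468))) (.a (.f (nat_lit 400) (nat_lit 335) (nat_lit 7503) (.f (nat_lit 465) (nat_lit 497) (nat_lit 4464) (.f (nat_lit 336) (nat_lit 433) (nat_lit 4432) (.f (nat_lit 305) (nat_lit 337) (nat_lit 6448) (.f (nat_lit 304) (nat_lit 273) (nat_lit 6416) (.f (nat_lit 303) (nat_lit 271) (nat_lit 7439) (.f (nat_lit 333) (nat_lit 397) (nat_lit 4429) (.f (nat_lit 302) (nat_lit 334) (nat_lit 1325) (.f (nat_lit 301) (nat_lit 332) (nat_lit 1324) (.d (nat_lit 269) (nat_lit 268) (nat_lit 3340) (nat_lit 270) (nat_lit 3341))))))))))) (.f (nat_lit 397) (nat_lit 333) (nat_lit 4429) (.f (nat_lit 400) (nat_lit 335) (nat_lit 7503) (.d (nat_lit 431) (nat_lit 396) (nat_lit 3468) (nat_lit 401) (nat_lit 2445)))))))) (.a (.f (nat_lit 333) (nat_lit 397) (nat_lit 4429) (.f (nat_lit 366) (nat_lit 332) (nat_lit 3404) (.f (nat_lit 336) (nat_lit 337) (nat_lit 2381) (.f (nat_lit 335) (nat_lit 364) (nat_lit 2380) (.d (nat_lit 400) (nat_lit 401) (nat_lit 365) (nat_lit 432) (nat_lit 7503)))))) (.a (.p (nat_lit 400) (.a (.f (nat_lit 432) (nat_lit 335) (nat_lit 7503) (.d (nat_lit 465) (nat_lit 431) (nat_lit 429) (nat_lit 497) (nat_lit 4464))) (.a (.p (nat_lit 432) (.a (.d (nat_lit 401) (nat_lit 366) (nat_lit 365) (nat_lit 431) (nat_lit 2445)) (.a (.d (nat_lit 431) (nat_lit 401) (nat_lit 2445) (nat_lit 465) (nat_lit 429)) (.a (.d (nat_lit 465) (nat_lit 431) (nat_lit 429) (nat_lit 497) (nat_lit 4464)) (.f (nat_lit 366) (nat_lit 401) (nat_lit 365) (.f (nat_lit 336) (nat_lit 337) (nat_lit 2381) (.d (nat_lit 465) (nat_lit 433) (nat_lit 4432) (nat_lit 497) (nat_lit 4464)))))))) (.a (.f (nat_lit 366) (nat_lit 401) (nat_lit 365) (.f (nat_lit 335) (nat_lit 432) (nat_lit 7503) (.d (nat_lit 336) (nat_lit 337) (nat_lit 2381) (nat_lit 364) (nat_lit 2380)))) (.f (nat_lit 366) (nat_lit 401) (nat_lit 365) (.f (nat_lit 336) (nat_lit 337) (nat_lit 2381) (.f (nat_lit 364) (nat_lit 335) (nat_lit 2380) (.d (nat_lit 332) (nat_lit 331) (nat_lit 3403) (nat_lit 333) (nat_lit 3404))))))))) (.f (nat_lit 333) (nat_lit 397) (nat_lit 4429) (.f (nat_lit 366) (nat_lit 332) (nat_lit 3404) (.f (nat_lit 336) (nat_lit 337) (nat_lit 2381) (.f (nat_lit 364) (nat_lit 335) (nat_lit 2380) (.f (nat_lit 395) (nat_lit 396) (nat_lit 1387) (.f (nat_lit 363) (nat_lit 394) (nat_lit 1386) (.f (nat_lit 362) (nat_lit 334) (nat_lit 2378) (.d (nat_lit 330) (nat_lit 329) (nat_lit 3401) (nat_lit 331) (nat_lit 3402)))))))))))))))))))) (.a (.p (nat_lit 369) (.a (.p (nat_lit 370) (.a (.f (nat_lit 335) (nat_lit 334) (nat_lit 3406) (.f (nat_lit 371) (nat_lit 336) (nat_lit 3407) (.d (nat_lit 339) (nat_lit 338) (nat_lit 2383) (nat_lit 340) (nat_lit 2384)))) (.a (.f (nat_lit 402) (nat_lit 403) (nat_lit 367) (.f (nat_lit 338) (nat_lit 339) (nat_lit 2383) (.d (nat_lit 366) (nat_lit 337) (nat_lit 2382) (nat_lit 401) (nat_lit 366)))) (.f (nat_lit 335) (nat_lit 334) (nat_lit 3406) (.f (nat_lit 371) (nat_lit 336) (nat_lit 3407) (.d (nat_lit 403) (nat_lit 402) (nat_lit 367) (nat_lit 404) (nat_lit 368))))))) (.a (.p (nat_lit 370) (.a (.f (nat_lit 402) (nat_lit 403) (nat_lit 367) (.f (nat_lit 338) (nat_lit 339) (nat_lit 2383) (.d (nat_lit 366) (nat_lit 337) (nat_lit 2382) (nat_lit 401) (nat_lit 366)))) (.a (.f (nat_lit 402) (nat_lit 403) (nat_lit 367) (.f (nat_lit 401) (nat_lit 366) (nat_lit 366) (.f (nat_lit 338) (nat_lit 339) (nat_lit 2383) (.d (nat_lit 306) (nat_lit 274) (nat_lit 5393) (nat_lit 433) (nat_lit 5425))))) (.a (.f (nat_lit 403) (nat_lit 402) (nat_lit 367) (.f (nat_lit 371) (nat_lit 404) (nat_lit 368) (.f (nat_lit 340) (nat_lit 339) (nat_lit 2384) (.f (nat_lit 372) (nat_lit 341) (nat_lit 2385) (.d (nat_lit 336) (nat_lit 335) (nat_lit 3407) (nat_lit 337) (nat_lit 3408)))))) (.a (.f (nat_lit 402) (nat_lit 403) (nat_lit 367) (.f (nat_lit 366) (nat_lit 401) (nat_lit 366) (.f (nat_lit 337) (nat_lit 338) (nat_lit 2382) (.f (nat_lit 336) (nat_lit 365) (nat_lit 2381) (.d (nat_lit 371) (nat_lit 335) (nat_lit 3407) (nat_lit 372) (nat_lit 3408)))))) (.a (.f (nat_lit 339) (nat_lit 338) (nat_lit 2383) (.f (nat_lit 371) (nat_lit 340) (nat_lit 2384) (.f (nat_lit 404) (nat_lit 403) (nat_lit 368) (.f (nat_lit 372) (nat_lit 405) (nat_lit 369) (.d (nat_lit 336) (nat_lit 335) (nat_lit 3407) (nat_lit 337) (nat_lit 3408)))))) (.f (nat_lit 338) (nat_lit 339) (nat_lit 2383) (.f (nat_lit 366) (nat_lit 337) (nat_lit 2382) (.f (nat_lit 401) (nat_lit 402) (nat_lit 366) (.f (nat_lit 400) (nat_lit 365) (nat_lit 365) (.f (nat_lit 465) (nat_lit 433) (nat_lit 6481) (.d (nat_lit 432) (nat_lit 335) (nat_lit 7503) (nat_lit 497) (nat_lit 4464))))))))))))) (.a (.p (nat_lit 366) (.a (.f (nat_lit 337) (nat_lit 338) (nat_lit 2382) (.f (nat_lit 401) (nat_lit 402) (nat_lit 366) (.d (nat_lit 365) (nat_lit 336) (nat_lit 2381) (nat_lit 400) (nat_lit 365)))) (.a (.f (nat_lit 401) (nat_lit 402) (nat_lit 366) (.f (nat_lit 400) (nat_lit 365) (nat_lit 365) (.d (nat_lit 337) (nat_lit 338) (nat_lit 2382) (nat_lit 432) (nat_lit 6480)))) (.a (.f (nat_lit 333) (nat_lit 334) (nat_lit 3405) (.f (nat_lit 365) (nat_lit 332) (nat_lit 3404) (.d (nat_lit 401) (nat_lit 400) (nat_lit 365) (nat_lit 402) (nat_lit 366)))) (.a (.f (nat_lit 337) (nat_lit 338) (nat_lit 2382) (.f (nat_lit 401) (nat_lit 402) (nat_lit 366) (.d (nat_lit 432) (nat_lit 400) (nat_lit 6480) (nat_lit 433) (nat_lit 5456)))) (.a (.f (nat_lit 337) (nat_lit 338) (nat_lit 2382) (.f (nat_lit 401) (nat_lit 402) (nat_lit 366) (.f (nat_lit 336) (nat_lit 365) (nat_lit 2381) (.d (nat_lit 433) (nat_lit 304) (nat_lit 7472) (nat_lit 432) (nat_lit 5456))))) (.f (nat_lit 337) (nat_lit 338) (nat_lit 2382) (.f (nat_lit 365) (nat_lit 336) (nat_lit 2381) (.d (nat_lit 333) (nat_lit 332) (nat_lit 3404) (nat_lit 334) (nat_lit 3405)))))))))) (.a (.p (nat_lit 370) (.a (.f (nat_lit 402) (nat_lit 403) (nat_lit 367) (.f (nat_lit 338) (nat_lit 339) (nat_lit 2383) (.d (nat_lit 366) (nat_lit 337) (nat_lit 2382) (nat_lit 401) (nat_lit 366)))) (.a (.f (nat_lit 402) (nat_lit 403) (nat_lit 367) (.f (nat_lit 401) (nat_lit 366) (nat_lit 366) (.f (nat_lit 338) (nat_lit 339) (nat_lit 2383) (.d (nat_lit 306) (nat_lit 274) (nat_lit 5393) (nat_lit 433) (nat_lit 5425))))) (.a (.f (nat_lit 402) (nat_lit 403) (nat_lit 367) (.f (nat_lit 401) (nat_lit 366) (nat_lit 366) (.f (nat_lit 335) (nat_lit 334) (nat_lit 3406) (.f (nat_lit 432) (nat_lit 400) (nat_lit 7503) (.d (nat_lit 433) (nat_lit 337) (nat_lit 5456) (nat_lit 431) (nat_lit 2446)))))) (.a (.f (nat_lit 403) (nat_lit 402) (nat_lit 367) (.f (nat_lit 371) (nat_lit 404) (nat_lit 368) (.d (nat_lit 339) (nat_lit 338) (nat_lit 2383) (nat_lit 340) (nat_lit 2384)))) (.f (nat_lit 338) (nat_lit 339) (nat_lit 2383) (.f (nat_lit 337) (nat_lit 366) (nat_lit 2382) (.f (nat_lit 400) (nat_lit 432) (nat_lit 6480) (.f (nat_lit 305) (nat_lit 273) (nat_lit 5392) (.f (nat_lit 335) (nat_lit 334) (nat_lit 3406) (.f (nat_lit 303) (nat_lit 271) (nat_lit 4367) (.f (nat_lit 304) (nat_lit 302) (nat_lit 302) (.f (nat_lit 401) (nat_lit 272) (nat_lit 7440) (.d (nat_lit 433) (nat_lit 306) (nat_lit 6449) (nat_lit 465) (nat_lit 6481))))))))))))))) (.a (.p (nat_lit 370) (.a (.f (nat_lit 335) (nat_lit 334) (nat_lit 3406) (.f (nat_lit 371) (nat_lit 336) (nat_lit 3407) (.d (nat_lit 339) (nat_lit 338) (nat_lit 2383) (nat_lit 340) (nat_lit 2384)))) (.a (.f (nat_lit 402) (nat_lit 403) (nat_lit 367) (.f (nat_lit 401) (nat_lit 366) (nat_lit 366) (.f (nat_lit 338) (nat_lit 339) (nat_lit 2383) (.d (nat_lit 306) (nat_lit 274) (nat_lit 5393) (nat_lit 433) (nat_lit 5425))))) (.f (nat_lit 335) (nat_lit 334) (nat_lit 3406) (.f (nat_lit 371) (nat_lit 336) (nat_lit 3407) (.d (nat_lit 403) (nat_lit 402) (nat_lit 367) (nat_lit 404) (nat_lit 368))))))) (.a (.p (nat_lit 370) (.a (.f (nat_lit 335) (nat_lit 334) (nat_lit 3406) (.f (nat_lit 371) (nat_lit 336) (nat_lit 3407) (.d (nat_lit 403) (nat_lit 402) (nat_lit 367) (nat_lit 404) (nat_lit 368)))) (.a (.f (nat_lit 403) (nat_lit 402) (nat_lit 367) (.f (nat_lit 371) (nat_lit 404) (nat_lit 368) (.f (nat_lit 340) (nat_lit 339) (nat_lit 2384) (.f (nat_lit 372) (nat_lit 341) (nat_lit 2385) (.d (nat_lit 336) (nat_lit 335) (nat_lit 3407) (nat_lit 337) (nat_lit 3408)))))) (.a (.f (nat_lit 403) (nat_lit 402) (nat_lit 367) (.f (nat_lit 371) (nat_lit 404) (nat_lit 368) (.f (nat_lit 340) (nat_lit 339) (nat_lit 2384) (.f (nat_lit 372) (nat_lit 341) (nat_lit 2385) (.f (nat_lit 400) (nat_lit 401) (nat_lit 1392) (.d (nat_lit 337) (nat_lit 336) (nat_lit 3408) (nat_lit 432) (nat_lit 6480))))))) (.a (.f (nat_lit 402) (nat_lit 403) (nat_lit 367) (.f (nat_lit 401) (nat_lit 366) (nat_lit 366) (.f (nat_lit 335) (nat_lit 334) (nat_lit 3406) (.f (nat_lit 432) (nat_lit 400) (nat_lit 7503) (.d (nat_lit 433) (nat_lit 337) (nat_lit 5456) (nat_lit 431) (nat_lit 2446)))))) (.a (.f (nat_lit 335) (nat_lit 334) (nat_lit 3406) (.f (nat_lit 400) (nat_lit 432) (nat_lit 7503) (.f (nat_lit 371) (nat_lit 336) (nat_lit 3407) (.f (nat_lit 372) (nat_lit 401) (nat_lit 1392) (.d (nat_lit 404) (nat_lit 403) (nat_lit 368) (nat_lit 405) (nat_lit 369)))))) (.f (nat_lit 335) (nat_lit 334) (nat_lit 3406) (.f (nat_lit 400) (nat_lit 432) (nat_lit 7503) (.f (nat_lit 371) (nat_lit 336) (nat_lit 3407) (.f (nat_lit 372) (nat_lit 401) (nat_lit 1392) (.d (nat_lit 340) (nat_lit 339) (nat_lit 2384) (nat_lit 341) (nat_lit 2385)))))))))))) (.a (.p (nat_lit 370) (.a (.f (nat_lit 335) (nat_lit 334) (nat_lit 3406) (.f (nat_lit 371) (nat_lit 336) (nat_lit 3407) (.d (nat_lit 339) (nat_lit 338) (nat_lit 2383) (nat_lit 340) (nat_lit 2384)))) (.a (.f (nat_lit 403) (nat_lit 402) (nat_lit 367) (.f (nat_lit 371) (nat_lit 404) (nat_lit 368) (.f (nat_lit 340) (nat_lit 339) (nat_lit 2384) (.f (nat_lit 372) (nat_lit 341) (nat_lit 2385) (.d (nat_lit 336) (nat_lit 335) (nat_lit 3407) (nat_lit 337) (nat_lit 3408)))))) (.a (.f (nat_lit 403) (nat_lit 402) (nat_lit 367) (.f (nat_lit 371) (nat_lit 404) (nat_lit 368) (.d (nat_lit 339) (nat_lit 338) (nat_lit 2383) (nat_lit 340) (nat_lit 2384)))) (.a (.f (nat_lit 335) (nat_lit 334) (nat_lit 3406) (.f (nat_lit 371) (nat_lit 336) (nat_lit 3407) (.d (nat_lit 403) (nat_lit 402) (nat_lit 367) (nat_lit 404) (nat_lit 368)))) (.p (nat_lit 337) (.a (.f (nat_lit 338) (nat_lit 339) (nat_lit 2383) (.f (nat_lit 402) (nat_lit 403) (nat_lit 367) (.d (nat_lit 305) (nat_lit 273) (nat_lit 4369) (nat_lit 434) (nat_lit 7473)))) (.a (.f (nat_lit 338) (nat_lit 339) (nat_lit 2383) (.f (nat_lit 402) (nat_lit 403) (nat_lit 367) (.d (nat_lit 434) (nat_lit 305) (nat_lit 7473) (nat_lit 466) (nat_lit 7505)))) (.a (.f (nat_lit 338) (nat_lit 339) (nat_lit 2383) (.f (nat_lit 335) (nat_lit 334) (nat_lit 3406) (.f (nat_lit 432) (nat_lit 400) (nat_lit 7503) (.f (nat_lit 401) (nat_lit 433) (nat_lit 5456) (.f (nat_lit 402) (nat_lit 403) (nat_lit 367) (.f (nat_lit 306) (nat_lit 274) (nat_lit 5393) (.d (nat_lit 307) (nat_lit 275) (nat_lit 6418) (nat_lit 336) (nat_lit 2351)))))))) (.a (.f (nat_lit 400) (nat_lit 432) (nat_lit 6480) (.f (nat_lit 402) (nat_lit 403) (nat_lit 367) (.f (nat_lit 305) (nat_lit 273) (nat_lit 5392) (.d (nat_lit 434) (nat_lit 401) (nat_lit 4401) (nat_lit 466) (nat_lit 7505))))) (.f (nat_lit 338) (nat_lit 339) (nat_lit 2383) (.f (nat_lit 335) (nat_lit 334) (nat_lit 3406) (.f (nat_lit 400) (nat_lit 432) (nat_lit 7503) (.f (nat_lit 305) (nat_lit 273) (nat_lit 5392) (.f (nat_lit 303) (nat_lit 271) (nat_lit 4367) (.d (nat_lit 302) (nat_lit 304) (nat_lit 302) (nat_lit 336) (nat_lit 3374))))))))))))))))) (.a (.p (nat_lit 370) (.a (.f (nat_lit 335) (nat_lit 334) (nat_lit 3406) (.f (nat_lit 371) (nat_lit 336) (nat_lit 3407) (.d (nat_lit 339) (nat_lit 338) (nat_lit 2383) (nat_lit 340) (nat_lit 2384)))) (.a (.f (nat_lit 403) (nat_lit 402) (nat_lit 367) (.f (nat_lit 371) (nat_lit 404) (nat_lit 368) (.f (nat_lit 340) (nat_lit 339) (nat_lit 2384) (.f (nat_lit 372) (nat_lit 341) (nat_lit 2385) (.d (nat_lit 336) (nat_lit 335) (nat_lit 3407) (nat_lit 337) (nat_lit 3408)))))) (.a (.f (nat_lit 403) (nat_lit 402) (nat_lit 367) (.f (nat_lit 371) (nat_lit 404) (nat_lit 368) (.d (nat_lit 339) (nat_lit 338) (nat_lit 2383) (nat_lit 340) (nat_lit 2384)))) (.a (.f (nat_lit 335) (nat_lit 334) (nat_lit 3406) (.f (nat_lit 371) (nat_lit 336) (nat_lit 3407) (.d (nat_lit 403) (nat_lit 402) (nat_lit 367) (nat_lit 404) (nat_lit 368)))) (.f (nat_lit 335) (nat_lit 334) (nat_lit 3406) (.f (nat_lit 400) (nat_lit 432) (nat_lit 7503) (.f (nat_lit 338) (nat_lit 339) (nat_lit 2383) (.f (nat_lit 337) (nat_lit 366) (nat_lit 2382) (.f (nat_lit 402) (nat_lit 403) (nat_lit 367) (.d (nat_lit 305) (nat_lit 273) (nat_lit 5392) (nat_lit 434) (nat_lit 7473)))))))))))) (.p (nat_lit 370) (.a (.f (nat_lit 335) (nat_lit 334) (nat_lit 3406) (.f (nat_lit 371) (nat_lit 336) (nat_lit 3407) (.d (nat_lit 339) (nat_lit 338) (nat_lit 2383) (nat_lit 340) (nat_lit 2384)))) (.a (.f (nat_lit 339) (nat_lit 338) (nat_lit 2383) (.f (nat_lit 371) (nat_lit 340) (nat_lit 2384) (.f (nat_lit 404) (nat_lit 403) (nat_lit 368) (.f (nat_lit 372) (nat_lit 405) (nat_lit 369) (.d (nat_lit 336) (nat_lit 335) (nat_lit 3407) (nat_lit 337) (nat_lit 3408)))))) (.a (.f (nat_lit 339) (nat_lit 338) (nat_lit 2383) (.f (nat_lit 371) (nat_lit 340) (nat_lit 2384) (.f (nat_lit 404) (nat_lit 403) (nat_lit 368) (.f (nat_lit 372) (nat_lit 405) (nat_lit 369) (.f (nat_lit 400) (nat_lit 401) (nat_lit 1392) (.d (nat_lit 337) (nat_lit 336) (nat_lit 3408) (nat_lit 432) (nat_lit 6480))))))) (.a (.f (nat_lit 338) (nat_lit 339) (nat_lit 2383) (.f (nat_lit 337) (nat_lit 366) (nat_lit 2382) (.f (nat_lit 400) (nat_lit 432) (nat_lit 6480) (.f (nat_lit 305) (nat_lit 273) (nat_lit 5392) (.f (nat_lit 335) (nat_lit 334) (nat_lit 3406) (.f (nat_lit 303) (nat_lit 271) (nat_lit 4367) (.f (nat_lit 304) (nat_lit 302) (nat_lit 302) (.f (nat_lit 401) (nat_lit 272) (nat_lit 7440) (.d (nat_lit 433) (nat_lit 306) (nat_lit 6449) (nat_lit 465) (nat_lit 6481)))))))))) (.f (nat_lit 335) (nat_lit 334) (nat_lit 3406) (.f (nat_lit 400) (nat_lit 432) (nat_lit 7503) (.f (nat_lit 371) (nat_lit 336) (nat_lit 3407) (.f (nat_lit 372) (nat_lit 401) (nat_lit 1392) (.d (nat_lit 404) (nat_lit 403) (nat_lit 368) (nat_lit 405) (nat_lit 369)))))))))))))))))))) (.a (.p (nat_lit 366) (.a s77505 (.a (.p (nat_lit 369) (.a (.f (nat_lit 337) (nat_lit 338) (nat_lit 2382) (.f (nat_lit 401) (nat_lit 402) (nat_lit 366) (.f (nat_lit 336) (nat_lit 365) (nat_lit 2381) (.d (nat_lit 433) (nat_lit 304) (nat_lit 7472) (nat_lit 432) (nat_lit 5456))))) (.a (.f (nat_lit 334) (nat_lit 333) (nat_lit 3405) (.f (nat_lit 370) (nat_lit 335) (nat_lit 3406) (.d (nat_lit 402) (nat_lit 401) (nat_lit 366) (nat_lit 403) (nat_lit 367)))) (.a (.f (nat_lit 337) (nat_lit 338) (nat_lit 2382) (.f (nat_lit 334) (nat_lit 333) (nat_lit 3405) (.f (nat_lit 370) (nat_lit 335) (nat_lit 3406) (.f (nat_lit 403) (nat_lit 402) (nat_lit 367) (.f (nat_lit 371) (nat_lit 404) (nat_lit 368) (.f (nat_lit 340) (nat_lit 339) (nat_lit 2384) (.d (nat_lit 372) (nat_lit 336) (nat_lit 3408) (nat_lit 341) (nat_lit 2385)))))))) (.f (nat_lit 334) (nat_lit 333) (nat_lit 3405) (.f (nat_lit 370) (nat_lit 335) (nat_lit 3406) (.d (nat_lit 338) (nat_lit 337) (nat_lit 2382) (nat_lit 339) (nat_lit 2383)))))))) (.a (.p (nat_lit 369) (.a (.f (nat_lit 337) (nat_lit 338) (nat_lit 2382) (.f (nat_lit 401) (nat_lit 402) (nat_lit 366) (.f (nat_lit 336) (nat_lit 365) (nat_lit 2381) (.d (nat_lit 433) (nat_lit 304) (nat_lit 7472) (nat_lit 432) (nat_lit 5456))))) (.a (.f (nat_lit 337) (nat_lit 338) (nat_lit 2382) (.f (nat_lit 401) (nat_lit 402) (nat_lit 366) (.f (nat_lit 336) (nat_lit 365) (nat_lit 2381) (.d (nat_lit 433) (nat_lit 432) (nat_lit 5456) (nat_lit 465) (nat_lit 7504))))) (.a (.f (nat_lit 338) (nat_lit 337) (nat_lit 2382) (.f (nat_lit 370) (nat_lit 339) (nat_lit 2383) (.d (nat_lit 402) (nat_lit 401) (nat_lit 366) (nat_lit 403) (nat_lit 367)))) (.a (.f (nat_lit 402) (nat_lit 401) (nat_lit 366) (.f (nat_lit 370) (nat_lit 403) (nat_lit 367) (.f (nat_lit 339) (nat_lit 338) (nat_lit 2383) (.f (nat_lit 371) (nat_lit 340) (nat_lit 2384) (.d (nat_lit 335) (nat_lit 334) (nat_lit 3406) (nat_lit 336) (nat_lit 3407)))))) (.a (.f (nat_lit 402) (nat_lit 401) (nat_lit 366) (.f (nat_lit 370) (nat_lit 403) (nat_lit 367) (.f (nat_lit 335) (nat_lit 334) (nat_lit 3406) (.f (nat_lit 336) (nat_lit 371) (nat_lit 3407) (.d (nat_lit 365) (nat_lit 337) (nat_lit 2381) (nat_lit 364) (nat_lit 2380)))))) (.f (nat_lit 337) (nat_lit 338) (nat_lit 2382) (.f (nat_lit 365) (nat_lit 336) (nat_lit 2381) (.f (nat_lit 397) (nat_lit 396) (nat_lit 1388) (.f (nat_lit 526) (nat_lit 429) (nat_lit 7565) (.f (nat_lit 527) (nat_lit 559) (nat_lit 4526) (.d (nat_lit 525) (nat_lit 557) (nat_lit 5549) (nat_lit 561) (nat_lit 525))))))))))))) (.a (.p (nat_lit 526) (.a (.f (nat_lit 527) (nat_lit 559) (nat_lit 4526) (.d (nat_lit 525) (nat_lit 557) (nat_lit 5549) (nat_lit 561) (nat_lit 525))) (.a (.f (nat_lit 559) (nat_lit 527) (nat_lit 4526) (.f (nat_lit 558) (nat_lit 591) (nat_lit 4558) (.f (nat_lit 589) (nat_lit 557) (nat_lit 5581) (.d (nat_lit 590) (nat_lit 561) (nat_lit 1581) (nat_lit 621) (nat_lit 5613))))) (.f (nat_lit 397) (nat_lit 429) (nat_lit 7565) (.f (nat_lit 365) (nat_lit 396) (nat_lit 1388) (.f (nat_lit 336) (nat_lit 337) (nat_lit 2381) (.f (nat_lit 364) (nat_lit 335) (nat_lit 2380) (.d (nat_lit 332) (nat_lit 331) (nat_lit 3403) (nat_lit 333) (nat_lit 3404))))))))) (.a s78385 (.a (.p (nat_lit 365) (.a (.f (nat_lit 333) (nat_lit 332) (nat_lit 3404) (.d (nat_lit 397) (nat_lit 396) (nat_lit 1388) (nat_lit 429) (nat_lit 4429))) (.a (.f (nat_lit 397) (nat_lit 396) (nat_lit 1388) (.d (nat_lit 429) (nat_lit 333) (nat_lit 4429) (nat_lit 526) (nat_lit 7565))) (.a (.f (nat_lit 397) (nat_lit 396) (nat_lit 1388) (.f (nat_lit 526) (nat_lit 429) (nat_lit 7565) (.f (nat_lit 527) (nat_lit 559) (nat_lit 4526) (.d (nat_lit 525) (nat_lit 557) (nat_lit 5549) (nat_lit 561) (nat_lit 525))))) (.p (nat_lit 364) (.a (.d (nat_lit 332) (nat_lit 331) (nat_lit 3403) (nat_lit 333) (nat_lit 3404)) (.a (.f (nat_lit 333) (nat_lit 332) (nat_lit 3404) (.f (nat_lit 334) (nat_lit 369) (nat_lit 3405) (.d (nat_lit 335) (nat_lit 336) (nat_lit 2380) (nat_lit 363) (nat_lit 2379)))) (.a (.f (nat_lit 335) (nat_lit 336) (nat_lit 2380) (.f (nat_lit 334) (nat_lit 363) (nat_lit 2379) (.d (nat_lit 369) (nat_lit 333) (nat_lit 3405) (nat_lit 370) (nat_lit 3406)))) (.f (nat_lit 335) (nat_lit 336) (nat_lit 2380) (.f (nat_lit 363) (nat_lit 334) (nat_lit 2379) (.d (nat_lit 331) (nat_lit 330) (nat_lit 3402) (nat_lit 332) (nat_lit 3403)))))))))))) (.p (nat_lit 369) (.a (.f (nat_lit 334) (nat_lit 333) (nat_lit 3405) (.f (nat_lit 370) (nat_lit 335) (nat_lit 3406) (.d (nat_lit 402) (nat_lit 401) (nat_lit 366) (nat_lit 403) (nat_lit 367)))) (.a (.f (nat_lit 338) (nat_lit 337) (nat_lit 2382) (.f (nat_lit 370) (nat_lit 339) (nat_lit 2383) (.d (nat_lit 402) (nat_lit 401) (nat_lit 366) (nat_lit 403) (nat_lit 367)))) (.a (.f (nat_lit 337) (nat_lit 338) (nat_lit 2382) (.f (nat_lit 401) (nat_lit 402) (nat_lit 366) (.f (nat_lit 433) (nat_lit 432) (nat_lit 5456) (.d (nat_lit 336) (nat_lit 304) (nat_lit 7472) (nat_lit 465) (nat_lit 7504))))) (.a (.f (nat_lit 337) (nat_lit 338) (nat_lit 2382) (.f (nat_lit 334) (nat_lit 333) (nat_lit 3405) (.f (nat_lit 370) (nat_lit 335) (nat_lit 3406) (.f (nat_lit 403) (nat_lit 402) (nat_lit 367) (.f (nat_lit 371) (nat_lit 404) (nat_lit 368) (.f (nat_lit 340) (nat_lit 339) (nat_lit 2384) (.d (nat_lit 372) (nat_lit 336) (nat_lit 3408) (nat_lit 341) (nat_lit 2385)))))))) (.f (nat_lit 334) (nat_lit 333) (nat_lit 3405) (.f (nat_lit 370) (nat_lit 335) (nat_lit 3406) (.d (nat_lit 338) (nat_lit 337) (nat_lit 2382) (nat_lit 339) (nat_lit 2383)))))))))))))))) (.a (.p (nat_lit 369) (.a (.p (nat_lit 370) (.a (.f (nat_lit 335) (nat_lit 334) (nat_lit 3406) (.f (nat_lit 371) (nat_lit 336) (nat_lit 3407) (.d (nat_lit 339) (nat_lit 338) (nat_lit 2383) (nat_lit 340) (nat_lit 2384)))) (.a (.f (nat_lit 402) (nat_lit 403) (nat_lit 367) (.f (nat_lit 338) (nat_lit 339) (nat_lit 2383) (.d (nat_lit 366) (nat_lit 337) (nat_lit 2382) (nat_lit 401) (nat_lit 366)))) (.f (nat_lit 335) (nat_lit 334) (nat_lit 3406) (.f (nat_lit 371) (nat_lit 336) (nat_lit 3407) (.d (nat_lit 403) (nat_lit 402) (nat_lit 367) (nat_lit 404) (nat_lit 368))))))) (.a (.p (nat_lit 370) (.a (.f (nat_lit 402) (nat_lit 403) (nat_lit 367) (.f (nat_lit 338) (nat_lit 339) (nat_lit 2383) (.d (nat_lit 366) (nat_lit 337) (nat_lit 2382) (nat_lit 401) (nat_lit 366)))) (.a (.f (nat_lit 402) (nat_lit 403) (nat_lit 367) (.f (nat_lit 401) (nat_lit 366) (nat_lit 366) (.f (nat_lit 338) (nat_lit 339) (nat_lit 2383) (.d (nat_lit 306) (nat_lit 274) (nat_lit 5393) (nat_lit 433) (nat_lit 5425))))) (.a (.f (nat_lit 403) (nat_lit 402) (nat_lit 367) (.f (nat_lit 371) (nat_lit 404) (nat_lit 368) (.f (nat_lit 340) (nat_lit 339) (nat_lit 2384) (.f (nat_lit 372) (nat_lit 341) (nat_lit 2385) (.d (nat_lit 336) (nat_lit 335) (nat_lit 3407) (nat_lit 337) (nat_lit 3408)))))) (.a (.f (nat_lit 402) (nat_lit 403) (nat_lit 367) (.f (nat_lit 366) (nat_lit 401) (nat_lit 366) (.f (nat_lit 337) (nat_lit 338) (nat_lit 2382) (.f (nat_lit 336) (nat_lit 365) (nat_lit 2381) (.d (nat_lit 371) (nat_lit 335) (nat_lit 3407) (nat_lit 372) (nat_lit 3408)))))) (.a (.f (nat_lit 339) (nat_lit 338) (nat_lit 2383) (.f (nat_lit 371) (nat_lit 340) (nat_lit 2384) (.f (nat_lit 404) (nat_lit 403) (nat_lit 368) (.f (nat_lit 372) (nat_lit 405) (nat_lit 369) (.d (nat_lit 336) (nat_lit 335) (nat_lit 3407) (nat_lit 337) (nat_lit 3408)))))) (.f (nat_lit 338) (nat_lit 339) (nat_lit 2383) (.f (nat_lit 366) (nat_lit 337) (nat_lit 2382) (.f (nat_lit 401) (nat_lit 402) (nat_lit 366) (.f (nat_lit 365) (nat_lit 400) (nat_lit 365) (.f (nat_lit 397) (nat_lit 396) (nat_lit 1388) (.d (nat_lit 333) (nat_lit 332) (nat_lit 3404) (nat_lit 429) (nat_lit 4429))))))))))))) (.a (.p (nat_lit 366) (.a (.f (nat_lit 337) (nat_lit 338) (nat_lit 2382) (.f (nat_lit 401) (nat_lit 402) (nat_lit 366) (.d (nat_lit 365) (nat_lit 336) (nat_lit 2381) (nat_lit 400) (nat_lit 365)))) (.a (.f (nat_lit 333) (nat_lit 334) (nat_lit 3405) (.f (nat_lit 365) (nat_lit 332) (nat_lit 3404) (.d (nat_lit 401) (nat_lit 400) (nat_lit 365) (nat_lit 402) (nat_lit 366)))) (.a (.f (nat_lit 338) (nat_lit 337) (nat_lit 2382) (.f (nat_lit 370) (nat_lit 339) (nat_lit 2383) (.d (nat_lit 402) (nat_lit 401) (nat_lit 366) (nat_lit 403) (nat_lit 367)))) (.f (nat_lit 333) (nat_lit 334) (nat_lit 3405) (.f (nat_lit 365) (nat_lit 332) (nat_lit 3404) (.d (nat_lit 397) (nat_lit 396) (nat_lit 1388) (nat_lit 429) (nat_lit 4429)))))))) (.a (.p (nat_lit 370) (.a (.f (nat_lit 402) (nat_lit 403) (nat_lit 367) (.f (nat_lit 338) (nat_lit 339) (nat_lit 2383) (.d (nat_lit 366) (nat_lit 337) (nat_lit 2382) (nat_lit 401) (nat_lit 366)))) (.a (.f (nat_lit 402) (nat_lit 403) (nat_lit 367) (.f (nat_lit 401) (nat_lit 366) (nat_lit 366) (.f (nat_lit 338) (nat_lit 339) (nat_lit 2383) (.d (nat_lit 306) (nat_lit 274) (nat_lit 5393) (nat_lit 433) (nat_lit 5425))))) (.a (.f (nat_lit 402) (nat_lit 403) (nat_lit 367) (.f (nat_lit 366) (nat_lit 401) (nat_lit 366) (.d (nat_lit 334) (nat_lit 333) (nat_lit 3405) (nat_lit 335) (nat_lit 3406)))) (.a (.f (nat_lit 403) (nat_lit 402) (nat_lit 367) (.f (nat_lit 371) (nat_lit 404) (nat_lit 368) (.d (nat_lit 339) (nat_lit 338) (nat_lit 2383) (nat_lit 340) (nat_lit 2384)))) (.f (nat_lit 338) (nat_lit 339) (nat_lit 2383) (.f (nat_lit 366) (nat_lit 337) (nat_lit 2382) (.d (nat_lit 334) (nat_lit 333) (nat_lit 3405) (nat_lit 335) (nat_lit 3406))))))))) (.a (.p (nat_lit 370) (.a (.f (nat_lit 335) (nat_lit 334) (nat_lit 3406) (.f (nat_lit 371) (nat_lit 336) (nat_lit 3407) (.d (nat_lit 339) (nat_lit 338) (nat_lit 2383) (nat_lit 340) (nat_lit 2384)))) (.a (.f (nat_lit 402) (nat_lit 403) (nat_lit 367) (.f (nat_lit 401) (nat_lit 366) (nat_lit 366) (.f (nat_lit 338) (nat_lit 339) (nat_lit 2383) (.d (nat_lit 306) (nat_lit 274) (nat_lit 5393) (nat_lit 433) (nat_lit 5425))))) (.f (nat_lit 335) (nat_lit 334) (nat_lit 3406) (.f (nat_lit 371) (nat_lit 336) (nat_lit 3407) (.d (nat_lit 403) (nat_lit 402) (nat_lit 367) (nat_lit 404) (nat_lit 368))))))) (.a (.p (nat_lit 366) (.a (.f (nat_lit 333) (nat_lit 334) (nat_lit 3405) (.f (nat_lit 365) (nat_lit 332) (nat_lit 3404) (.d (nat_lit 401) (nat_lit 400) (nat_lit 365) (nat_lit 402) (nat_lit 366)))) (.a (.f (nat_lit 334) (nat_lit 333) (nat_lit 3405) (.f (nat_lit 370) (nat_lit 335) (nat_lit 3406) (.d (nat_lit 402) (nat_lit 401) (nat_lit 366) (nat_lit 403) (nat_lit 367)))) (.a (.f (nat_lit 402) (nat_lit 401) (nat_lit 366) (.f (nat_lit 370) (nat_lit 403) (nat_lit 367) (.f (nat_lit 335) (nat_lit 334) (nat_lit 3406) (.f (nat_lit 336) (nat_lit 371) (nat_lit 3407) (.d (nat_lit 365) (nat_lit 337) (nat_lit 2381) (nat_lit 364) (nat_lit 2380)))))) (.a (.f (nat_lit 401) (nat_lit 402) (nat_lit 366) (.f (nat_lit 365) (nat_lit 400) (nat_lit 365) (.f (nat_lit 336) (nat_lit 337) (nat_lit 2381) (.f (nat_lit 364) (nat_lit 335) (nat_lit 2380) (.d (nat_lit 396) (nat_lit 395) (nat_lit 1387) (nat_lit 397) (nat_lit 1388)))))) (.f (nat_lit 333) (nat_lit 334) (nat_lit 3405) (.f (nat_lit 365) (nat_lit 332) (nat_lit 3404) (.d (nat_lit 397) (nat_lit 396) (nat_lit 1388) (nat_lit 429) (nat_lit 4429))))))))) (.a (.p (nat_lit 370) (.a (.f (nat_lit 335) (nat_lit 334) (nat_lit 3406) (.f (nat_lit 371) (nat_lit 336) (nat_lit 3407) (.d (nat_lit 339) (nat_lit 338) (nat_lit 2383) (nat_lit 340) (nat_lit 2384)))) (.a (.f (nat_lit 403) (nat_lit 402) (nat_lit 367) (.f (nat_lit 371) (nat_lit 404) (nat_lit 368) (.f (nat_lit 340) (nat_lit 339) (nat_lit 2384) (.f (nat_lit 372) (nat_lit 341) (nat_lit 2385) (.d (nat_lit 336) (nat_lit 335) (nat_lit 3407) (nat_lit 337) (nat_lit 3408)))))) (.a (.f (nat_lit 403) (nat_lit 402) (nat_lit 367) (.f (nat_lit 371) (nat_lit 404) (nat_lit 368) (.d (nat_lit 339) (nat_lit 338) (nat_lit 2383) (nat_lit 340) (nat_lit 2384)))) (.a (.f (nat_lit 335) (nat_lit 334) (nat_lit 3406) (.f (nat_lit 371) (nat_lit 336) (nat_lit 3407) (.d (nat_lit 403) (nat_lit 402) (nat_lit 367) (nat_lit 404) (nat_lit 368)))) (.f (nat_lit 338) (nat_lit 339) (nat_lit 2383) (.p (nat_lit 306) (.a (.f (nat_lit 402) (nat_lit 403) (nat_lit 367) (.d (nat_lit 401) (nat_lit 274) (nat_lit 5393) (nat_lit 433) (nat_lit 5425))) (.a (.f (nat_lit 402) (nat_lit 403) (nat_lit 367) (.f (nat_lit 401) (nat_lit 433) (nat_lit 5425) (.f (nat_lit 305) (nat_lit 273) (nat_lit 7441) (.f (nat_lit 337) (nat_lit 434) (nat_lit 4401) (.f (nat_lit 335) (nat_lit 334) (nat_lit 3406) (.d (nat_lit 307) (nat_lit 275) (nat_lit 6418) (nat_lit 336) (nat_lit 2351))))))) (.a (.f (nat_lit 402) (nat_lit 403) (nat_lit 367) (.f (nat_lit 305) (nat_lit 273) (nat_lit 7441) (.f (nat_lit 337) (nat_lit 434) (nat_lit 7473) (.f (nat_lit 335) (nat_lit 334) (nat_lit 3406) (.d (nat_lit 307) (nat_lit 275) (nat_lit 6418) (nat_lit 336) (nat_lit 2351)))))) (.f (nat_lit 274) (nat_lit 401) (nat_lit 5393) (.f (nat_lit 242) (nat_lit 337) (nat_lit 5361) (.d (nat_lit 243) (nat_lit 211) (nat_lit 6354) (nat_lit 275) (nat_lit 6386)))))))))))))) (.a (.p (nat_lit 366) (.a (.f (nat_lit 337) (nat_lit 338) (nat_lit 2382) (.f (nat_lit 401) (nat_lit 402) (nat_lit 366) (.d (nat_lit 365) (nat_lit 336) (nat_lit 2381) (nat_lit 400) (nat_lit 365)))) (.a (.f (nat_lit 333) (nat_lit 334) (nat_lit 3405) (.f (nat_lit 365) (nat_lit 332) (nat_lit 3404) (.d (nat_lit 401) (nat_lit 400) (nat_lit 365) (nat_lit 402) (nat_lit 366)))) (.a (.f (nat_lit 337) (nat_lit 338) (nat_lit 2382) (.p (nat_lit 305) (.a (.f (nat_lit 401) (nat_lit 402) (nat_lit 366) (.f (nat_lit 273) (nat_lit 400) (nat_lit 5392) (.d (nat_lit 274) (nat_lit 242) (nat_lit 6385) (nat_lit 306) (nat_lit 6417)))) (.a (.f (nat_lit 401) (nat_lit 402) (nat_lit 366) (.f (nat_lit 304) (nat_lit 272) (nat_lit 7440) (.f (nat_lit 336) (nat_lit 433) (nat_lit 7472) (.d (nat_lit 273) (nat_lit 241) (nat_lit 5360) (nat_lit 400) (nat_lit 5392))))) (.a (.f (nat_lit 401) (nat_lit 402) (nat_lit 366) (.f (nat_lit 304) (nat_lit 272) (nat_lit 7440) (.f (nat_lit 336) (nat_lit 433) (nat_lit 7472) (.f (nat_lit 306) (nat_lit 274) (nat_lit 6417) (.d (nat_lit 334) (nat_lit 333) (nat_lit 3405) (nat_lit 335) (nat_lit 2350)))))) (.f (nat_lit 273) (nat_lit 400) (nat_lit 5392) (.f (nat_lit 241) (nat_lit 336) (nat_lit 5360) (.d (nat_lit 242) (nat_lit 210) (nat_lit 6353) (nat_lit 274) (nat_lit 6385))))))))) (.f (nat_lit 333) (nat_lit 334) (nat_lit 3405) (.f (nat_lit 365) (nat_lit 332) (nat_lit 3404) (.d (nat_lit 397) (nat_lit 396) (nat_lit 1388) (nat_lit 429) (nat_lit 4429)))))))) (.a (.p (nat_lit 370) (.a (.f (nat_lit 335) (nat_lit 334) (nat_lit 3406) (.f (nat_lit 371) (nat_lit 336) (nat_lit 3407) (.d (nat_lit 339) (nat_lit 338) (nat_lit 2383) (nat_lit 340) (nat_lit 2384)))) (.a (.f (nat_lit 403) (nat_lit 402) (nat_lit 367) (.f (nat_lit 371) (nat_lit 404) (nat_lit 368) (.f (nat_lit 340) (nat_lit 339) (nat_lit 2384) (.f (nat_lit 372) (nat_lit 341) (nat_lit 2385) (.d (nat_lit 336) (nat_lit 335) (nat_lit 3407) (nat_lit 337) (nat_lit 3408)))))) (.a (.f (nat_lit 403) (nat_lit 402) (nat_lit 367) (.f (nat_lit 371) (nat_lit 404) (nat_lit 368) (.d (nat_lit 339) (nat_lit 338) (nat_lit 2383) (nat_lit 340) (nat_lit 2384)))) (.a (.f (nat_lit 335) (nat_lit 334) (nat_lit 3406) (.f (nat_lit 371) (nat_lit 336) (nat_lit 3407) (.d (nat_lit 403) (nat_lit 402) (nat_lit 367) (nat_lit 404) (nat_lit 368)))) (.f (nat_lit 338) (nat_lit 339) (nat_lit 2383) (.f (nat_lit 366) (nat_lit 337) (nat_lit 2382) (.d (nat_lit 334) (nat_lit 333) (nat_lit 3405) (nat_lit 335) (nat_lit 3406))))))))) (.p (nat_lit 366) (.a (.f (nat_lit 333) (nat_lit 334) (nat_lit 3405) (.f (nat_lit 365) (nat_lit 332) (nat_lit 3404) (.d (nat_lit 397) (nat_lit 396) (nat_lit 1388) (nat_lit 429) (nat_lit 4429)))) (.a (.f (nat_lit 334) (nat_lit 333) (nat_lit 3405) (.f (nat_lit 370) (nat_lit 335) (nat_lit 3406) (.d (nat_lit 338) (nat_lit 337) (nat_lit 2382) (nat_lit 339) (nat_lit 2383)))) (.f (nat_lit 337) (nat_lit 338) (nat_lit 2382) (.f (nat_lit 365) (nat_lit 336) (nat_lit 2381) (.f (nat_lit 397) (nat_lit 396) (nat_lit 1388) (.f (nat_lit 526) (nat_lit 429) (nat_lit 7565) (.f (nat_lit 527) (nat_lit 559) (nat_lit 4526) (.d (nat_lit 525) (nat_lit 557) (nat_lit 5549) (nat_lit 561) (nat_lit 525)))))))))))))))))))) (.p (nat_lit 366) (.a (.p (nat_lit 365) (.a (.f (nat_lit 333) (nat_lit 332) (nat_lit 3404) (.d (nat_lit 397) (nat_lit 396) (nat_lit 1388) (nat_lit 429) (nat_lit 4429))) (.a (.f (nat_lit 397) (nat_lit 396) (nat_lit 1388) (.d (nat_lit 429) (nat_lit 333) (nat_lit 4429) (nat_lit 526) (nat_lit 7565))) (.f (nat_lit 400) (nat_lit 401) (nat_lit 365) (.f (nat_lit 336) (nat_lit 337) (nat_lit 2381) (.d (nat_lit 335) (nat_lit 364) (nat_lit 2380) (nat_lit 432) (nat_lit 7503))))))) (.a s77500 (.a s77505 (.a s78385 (.a s77518 (.p (nat_lit 369) (.a (.f (nat_lit 334) (nat_lit 333) (nat_lit 3405) (.f (nat_lit 370) (nat_lit 335) (nat_lit 3406) (.d (nat_lit 402) (nat_lit 401) (nat_lit 366) (nat_lit 403) (nat_lit 367)))) (.a (.f (nat_lit 338) (nat_lit 337) (nat_lit 2382) (.f (nat_lit 370) (nat_lit 339) (nat_lit 2383) (.d (nat_lit 402) (nat_lit 401) (nat_lit 366) (nat_lit 403) (nat_lit 367)))) (.a (.f (nat_lit 337) (nat_lit 338) (nat_lit 2382) (.f (nat_lit 400) (nat_lit 432) (nat_lit 6480) (.f (nat_lit 401) (nat_lit 402) (nat_lit 366) (.f (nat_lit 305) (nat_lit 273) (nat_lit 5392) (.f (nat_lit 304) (nat_lit 272) (nat_lit 7440) (.f (nat_lit 306) (nat_lit 274) (nat_lit 6417) (.f (nat_lit 334) (nat_lit 333) (nat_lit 3405) (.d (nat_lit 335) (nat_lit 303) (nat_lit 1326) (nat_lit 336) (nat_lit 2350))))))))) (.a (.f (nat_lit 337) (nat_lit 338) (nat_lit 2382) (.f (nat_lit 334) (nat_lit 333) (nat_lit 3405) (.f (nat_lit 370) (nat_lit 335) (nat_lit 3406) (.f (nat_lit 403) (nat_lit 402) (nat_lit 367) (.f (nat_lit 371) (nat_lit 404) (nat_lit 368) (.f (nat_lit 340) (nat_lit 339) (nat_lit 2384) (.d (nat_lit 372) (nat_lit 336) (nat_lit 3408) (nat_lit 341) (nat_lit 2385)))))))) (.f (nat_lit 337) (nat_lit 338) (nat_lit 2382) (.f (nat_lit 400) (nat_lit 432) (nat_lit 6480) (.f (nat_lit 334) (nat_lit 333) (nat_lit 3405) (.f (nat_lit 335) (nat_lit 370) (nat_lit 3406) (.f (nat_lit 305) (nat_lit 273) (nat_lit 5392) (.f (nat_lit 336) (nat_lit 306) (nat_lit 2350) (.f (nat_lit 271) (nat_lit 303) (nat_lit 4367) (.f (nat_lit 302) (nat_lit 301) (nat_lit 3373) (.d (nat_lit 270) (nat_lit 238) (nat_lit 4334) (nat_lit 239) (nat_lit 6382)))))))))))))))))))))))))))))))))))) (.a (.p (nat_lit 398) (.a (.f (nat_lit 527) (nat_lit 495) (nat_lit 4494) (.f (nat_lit 526) (nat_lit 559) (nat_lit 4526) (.d (nat_lit 525) (nat_lit 493) (nat_lit 5517) (nat_lit 561) (nat_lit 525)))) (.f (nat_lit 366) (nat_lit 335) (nat_lit 6478) (.d (nat_lit 365) (nat_lit 333) (nat_lit 7501) (nat_lit 397) (nat_lit 7533))))) (.a (.p (nat_lit 398) (.a (.f (nat_lit 397) (nat_lit 365) (nat_lit 7533) (.f (nat_lit 526) (nat_lit 429) (nat_lit 7565) (.d (nat_lit 527) (nat_lit 495) (nat_lit 4494) (nat_lit 559) (nat_lit 4526)))) (.a (.f (nat_lit 527) (nat_lit 495) (nat_lit 4494) (.f (nat_lit 526) (nat_lit 559) (nat_lit 4526) (.d (nat_lit 525) (nat_lit 557) (nat_lit 5549) (nat_lit 561) (nat_lit 525)))) (.f (nat_lit 366) (nat_lit 335) (nat_lit 6478) (.d (nat_lit 365) (nat_lit 333) (nat_lit 7501) (nat_lit 397) (nat_lit 7533)))))) (.a (.p (nat_lit 526) (.a (.f (nat_lit 527) (nat_lit 559) (nat_lit 4526) (.d (nat_lit 525) (nat_lit 557) (nat_lit 5549) (nat_lit 561) (nat_lit 525))) (.a (.f (nat_lit 559) (nat_lit 527) (nat_lit 4526) (.f (nat_lit 558) (nat_lit 591) (nat_lit 4558) (.f (nat_lit 589) (nat_lit 557) (nat_lit 5581) (.d (nat_lit 590) (nat_lit 561) (nat_lit 1581) (nat_lit 621) (nat_lit 5613))))) (.a (.f (nat_lit 525) (nat_lit 557) (nat_lit 5549) (.f (nat_lit 398) (nat_lit 493) (nat_lit 5517) (.d (nat_lit 397) (nat_lit 365) (nat_lit 7533) (nat_lit 429) (nat_lit 7565)))) (.f (nat_lit 527) (nat_lit 559) (nat_lit 4526) (.f (nat_lit 525) (nat_lit 561) (nat_lit 525) (.d (nat_lit 493) (nat_lit 398) (nat_lit 5517) (nat_lit 492) (nat_lit 3564)))))))) (.a (.p (nat_lit 527) (.a (.f (nat_lit 526) (nat_lit 559) (nat_lit 4526) (.f (nat_lit 398) (nat_lit 495) (nat_lit 4494) (.d (nat_lit 397) (nat_lit 365) (nat_lit 7533) (nat_lit 429) (nat_lit 7565)))) (.a (.f (nat_lit 559) (nat_lit 526) (nat_lit 4526) (.d (nat_lit 495) (nat_lit 398) (nat_lit 4494) (nat_lit 591) (nat_lit 7630))) (.a (.f (nat_lit 559) (nat_lit 526) (nat_lit 4526) (.f (nat_lit 591) (nat_lit 495) (nat_lit 7630) (.p (nat_lit 590) (.a (.f (nat_lit 589) (nat_lit 588) (nat_lit 2604) (.d (nat_lit 561) (nat_lit 558) (nat_lit 1581) (nat_lit 562) (nat_lit 1582))) (.a (.f (nat_lit 623) (nat_lit 655) (nat_lit 6671) (.f (nat_lit 624) (nat_lit 656) (nat_lit 4623) (.f (nat_lit 589) (nat_lit 588) (nat_lit 2604) (.d (nat_lit 625) (nat_lit 622) (nat_lit 3661) (nat_lit 626) (nat_lit 3662))))) (.f (nat_lit 623) (nat_lit 655) (nat_lit 6671) (.f (nat_lit 561) (nat_lit 562) (nat_lit 1582) (.f (nat_lit 622) (nat_lit 654) (nat_lit 5646) (.f (nat_lit 624) (nat_lit 656) (nat_lit 4623) (.f (nat_lit 625) (nat_lit 626) (nat_lit 3662) (.d (nat_lit 657) (nat_lit 593) (nat_lit 7696) (nat_lit 658) (nat_lit 622)))))))))))) (.a (.p (nat_lit 365) (.a (.f (nat_lit 526) (nat_lit 559) (nat_lit 4526) (.d (nat_lit 397) (nat_lit 398) (nat_lit 7533) (nat_lit 429) (nat_lit 7565))) (.a (.p (nat_lit 366) (.a (.d (nat_lit 398) (nat_lit 333) (nat_lit 7501) (nat_lit 335) (nat_lit 6478)) (.a (.f (nat_lit 335) (nat_lit 398) (nat_lit 6478) (.f (nat_lit 364) (nat_lit 336) (nat_lit 2380) (.f (nat_lit 363) (nat_lit 334) (nat_lit 2379) (.d (nat_lit 395) (nat_lit 394) (nat_lit 1386) (nat_lit 396) (nat_lit 1387))))) (.a (.f (nat_lit 333) (nat_lit 398) (nat_lit 7501) (.f (nat_lit 368) (nat_lit 332) (nat_lit 3404) (.f (nat_lit 369) (nat_lit 334) (nat_lit 3405) (.d (nat_lit 337) (nat_lit 336) (nat_lit 2381) (nat_lit 338) (nat_lit 2382))))) s78525)))) (.p (nat_lit 366) (.a s78525 (.a (.f (nat_lit 526) (nat_lit 559) (nat_lit 4526) (.f (nat_lit 397) (nat_lit 429) (nat_lit 7565) (.f (nat_lit 368) (nat_lit 396) (nat_lit 1388) (.f (nat_lit 400) (nat_lit 401) (nat_lit 365) (.f (nat_lit 335) (nat_lit 432) (nat_lit 7503) (.d (nat_lit 336) (nat_lit 337) (nat_lit 2381) (nat_lit 364) (nat_lit 2380))))))) (.a (.f (nat_lit 526) (nat_lit 559) (nat_lit 4526) (.f (nat_lit 397) (nat_lit 429) (nat_lit 7565) (.f (nat_lit 368) (nat_lit 396) (nat_lit 1388) (.f (nat_lit 333) (nat_lit 332) (nat_lit 3404) (.f (nat_lit 369) (nat_lit 334) (nat_lit 3405) (.d (nat_lit 337) (nat_lit 336) (nat_lit 2381) (nat_lit 338) (nat_lit 2382))))))) (.a (.f (nat_lit 526) (nat_lit 559) (nat_lit 4526) (.f (nat_lit 397) (nat_lit 429) (nat_lit 7565) (.f (nat_lit 368) (nat_lit 396) (nat_lit 1388) (.f (nat_lit 333) (nat_lit 332) (nat_lit 3404) (.f (nat_lit 369) (nat_lit 334) (nat_lit 3405) (.d (nat_lit 401) (nat_lit 400) (nat_lit 365) (nat_lit 402) (nat_lit 366))))))) (.p (nat_lit 364) (.a (.f (nat_lit 331) (nat_lit 332) (nat_lit 3403) (.f (nat_lit 363) (nat_lit 330) (nat_lit 3402) (.d (nat_lit 335) (nat_lit 334) (nat_lit 2379) (nat_lit 336) (nat_lit 2380)))) (.a (.f (nat_lit 335) (nat_lit 336) (nat_lit 2380) (.f (nat_lit 363) (nat_lit 334) (nat_lit 2379) (.d (nat_lit 395) (nat_lit 394) (nat_lit 1386) (nat_lit 396) (nat_lit 1387)))) (.a (.f (nat_lit 395) (nat_lit 396) (nat_lit 1387) (.f (nat_lit 363) (nat_lit 394) (nat_lit 1386) (.d (nat_lit 331) (nat_lit 330) (nat_lit 3402) (nat_lit 332) (nat_lit 3403)))) (.f (nat_lit 526) (nat_lit 559) (nat_lit 4526) (.f (nat_lit 397) (nat_lit 429) (nat_lit 7565) (.f (nat_lit 396) (nat_lit 395) (nat_lit 1387) (.f (nat_lit 332) (nat_lit 331) (nat_lit 3403) (.f (nat_lit 300) (nat_lit 268) (nat_lit 4364) (.f (nat_lit 301) (nat_lit 269) (nat_lit 6412) (.f (nat_lit 333) (nat_lit 428) (nat_lit 5420) (.f (nat_lit 299) (nat_lit 267) (nat_lit 7435) (.d (nat_lit 335) (nat_lit 334) (nat_lit 3371) (nat_lit 336) (nat_lit 2380)))))))))))))))))))))) (.f (nat_lit 398) (nat_lit 495) (nat_lit 4494) (.f (nat_lit 366) (nat_lit 335) (nat_lit 6478) (.d (nat_lit 365) (nat_lit 333) (nat_lit 7501) (nat_lit 397) (nat_lit 7533))))))))) (.p (nat_lit 365) (.a (.f (nat_lit 398) (nat_lit 397) (nat_lit 7533) (.d (nat_lit 366) (nat_lit 333) (nat_lit 7501) (nat_lit 335) (nat_lit 6478))) (.a (.p (nat_lit 366) (.a (.d (nat_lit 398) (nat_lit 335) (nat_lit 6478) (nat_lit 397) (nat_lit 7533)) (.a (.f (nat_lit 397) (nat_lit 398) (nat_lit 7533) (.f (nat_lit 396) (nat_lit 368) (nat_lit 1388) (.d (nat_lit 395) (nat_lit 364) (nat_lit 1387) (nat_lit 394) (nat_lit 2410)))) (.a (.f (nat_lit 335) (nat_lit 398) (nat_lit 6478) (.f (nat_lit 364) (nat_lit 336) (nat_lit 2380) (.f (nat_lit 363) (nat_lit 334) (nat_lit 2379) (.d (nat_lit 395) (nat_lit 394) (nat_lit 1386) (nat_lit 396) (nat_lit 1387))))) s78589)))) (.a (.f (nat_lit 397) (nat_lit 398) (nat_lit 7533) (.p (nat_lit 396) (.a (.f (nat_lit 429) (nat_lit 333) (nat_lit 4429) (.f (nat_lit 395) (nat_lit 394) (nat_lit 394) (.d (nat_lit 366) (nat_lit 364) (nat_lit 1387) (nat_lit 368) (nat_lit 1388)))) (.a (.f (nat_lit 366) (nat_lit 368) (nat_lit 1388) (.d (nat_lit 395) (nat_lit 364) (nat_lit 1387) (nat_lit 394) (nat_lit 2410))) (.a (.f (nat_lit 429) (nat_lit 333) (nat_lit 4429) (.f (nat_lit 395) (nat_lit 394) (nat_lit 394) (.d (nat_lit 431) (nat_lit 428) (nat_lit 3467) (nat_lit 432) (nat_lit 3468)))) (.a (.f (nat_lit 333) (nat_lit 429) (nat_lit 4429) (.f (nat_lit 366) (nat_lit 368) (nat_lit 1388) (.f (nat_lit 364) (nat_lit 395) (nat_lit 1387) (.d (nat_lit 301) (nat_lit 269) (nat_lit 5388) (nat_lit 428) (nat_lit 5420))))) (.f (nat_lit 333) (nat_lit 429) (nat_lit 4429) (.f (nat_lit 301) (nat_lit 428) (nat_lit 5420) (.f (nat_lit 269) (nat_lit 364) (nat_lit 5388) (.d (nat_lit 270) (nat_lit 238) (nat_lit 6381) (nat_lit 302) (nat_lit 6413))))))))))) (.a (.f (nat_lit 397) (nat_lit 398) (nat_lit 7533) (.f (nat_lit 333) (nat_lit 429) (nat_lit 4429) (.p (nat_lit 301) (.a (.f (nat_lit 396) (nat_lit 428) (nat_lit 5420) (.f (nat_lit 269) (nat_lit 364) (nat_lit 5388) (.d (nat_lit 270) (nat_lit 238) (nat_lit 6381) (nat_lit 302) (nat_lit 6413)))) (.a (.f (nat_lit 268) (nat_lit 300) (nat_lit 7436) (.f (nat_lit 269) (nat_lit 236) (nat_lit 7404) (.d (nat_lit 396) (nat_lit 364) (nat_lit 5388) (nat_lit 428) (nat_lit 5420)))) (.f (nat_lit 300) (nat_lit 268) (nat_lit 7436) (.p (nat_lit 334) (.a (.f (nat_lit 335) (nat_lit 336) (nat_lit 3372) (.d (nat_lit 299) (nat_lit 298) (nat_lit 298) (nat_lit 332) (nat_lit 3371))) (.a (.f (nat_lit 335) (nat_lit 336) (nat_lit 3372) (.d (nat_lit 299) (nat_lit 302) (nat_lit 299) (nat_lit 332) (nat_lit 3371))) (.a (.f (nat_lit 335) (nat_lit 336) (nat_lit 3372) (.f (nat_lit 302) (nat_lit 270) (nat_lit 6413) (.f (nat_lit 332) (nat_lit 368) (nat_lit 332) (.d (nat_lit 303) (nat_lit 304) (nat_lit 1324) (nat_lit 331) (nat_lit 1323))))) (.a (.f (nat_lit 302) (nat_lit 270) (nat_lit 6413) (.d (nat_lit 335) (nat_lit 299) (nat_lit 299) (nat_lit 336) (nat_lit 3372))) (.f (nat_lit 302) (nat_lit 270) (nat_lit 6413) (.f (nat_lit 299) (nat_lit 298) (nat_lit 298) (.f (nat_lit 331) (nat_lit 330) (nat_lit 1322) (.f (nat_lit 303) (nat_lit 332) (nat_lit 1323) (.f (nat_lit 304) (nat_lit 305) (nat_lit 1325) (.d (nat_lit 272) (nat_lit 271) (nat_lit 2316) (nat_lit 273) (nat_lit 2317)))))))))))))))))) (.a (.p (nat_lit 366) (.a (.f (nat_lit 335) (nat_lit 398) (nat_lit 6478) (.f (nat_lit 364) (nat_lit 336) (nat_lit 2380) (.f (nat_lit 363) (nat_lit 334) (nat_lit 2379) (.d (nat_lit 395) (nat_lit 394) (nat_lit 1386) (nat_lit 396) (nat_lit 1387))))) (.a (.d (nat_lit 398) (nat_lit 333) (nat_lit 7501) (nat_lit 335) (nat_lit 6478)) (.a (.f (nat_lit 333) (nat_lit 398) (nat_lit 7501) (.f (nat_lit 368) (nat_lit 332) (nat_lit 3404) (.f (nat_lit 369) (nat_lit 334) (nat_lit 3405) (.d (nat_lit 337) (nat_lit 336) (nat_lit 2381) (nat_lit 338) (nat_lit 2382))))) s78636)))) (.p (nat_lit 366) (.a s78589 (.a (.p (nat_lit 368) (.a (.f (nat_lit 333) (nat_lit 332) (nat_lit 3404) (.d (nat_lit 397) (nat_lit 396) (nat_lit 1388) (nat_lit 429) (nat_lit 4429))) (.f (nat_lit 337) (nat_lit 336) (nat_lit 2381) (.f (nat_lit 369) (nat_lit 338) (nat_lit 2382) (.d (nat_lit 401) (nat_lit 400) (nat_lit 365) (nat_lit 402) (nat_lit 366)))))) (.a (.p (nat_lit 368) (.a (.f (nat_lit 333) (nat_lit 332) (nat_lit 3404) (.d (nat_lit 397) (nat_lit 396) (nat_lit 1388) (nat_lit 429) (nat_lit 4429))) (.a (.f (nat_lit 400) (nat_lit 401) (nat_lit 365) (.f (nat_lit 432) (nat_lit 335) (nat_lit 7503) (.f (nat_lit 465) (nat_lit 497) (nat_lit 4464) (.f (nat_lit 431) (nat_lit 429) (nat_lit 429) (.d (nat_lit 466) (nat_lit 433) (nat_lit 430) (nat_lit 467) (nat_lit 3503)))))) (.f (nat_lit 400) (nat_lit 401) (nat_lit 365) (.f (nat_lit 333) (nat_lit 332) (nat_lit 3404) (.f (nat_lit 369) (nat_lit 334) (nat_lit 3405) (.d (nat_lit 432) (nat_lit 335) (nat_lit 7503) (nat_lit 337) (nat_lit 6480)))))))) (.a (.p (nat_lit 364) (.a (.f (nat_lit 396) (nat_lit 395) (nat_lit 1387) (.f (nat_lit 332) (nat_lit 331) (nat_lit 3403) (.d (nat_lit 368) (nat_lit 333) (nat_lit 3404) (nat_lit 397) (nat_lit 1388)))) (.a (.f (nat_lit 396) (nat_lit 395) (nat_lit 1387) (.f (nat_lit 397) (nat_lit 368) (nat_lit 1388) (.f (nat_lit 333) (nat_lit 429) (nat_lit 4429) (.d (nat_lit 301) (nat_lit 269) (nat_lit 5388) (nat_lit 428) (nat_lit 5420))))) (.a (.f (nat_lit 396) (nat_lit 395) (nat_lit 1387) (.f (nat_lit 332) (nat_lit 331) (nat_lit 3403) (.f (nat_lit 397) (nat_lit 368) (nat_lit 1388) (.d (nat_lit 300) (nat_lit 268) (nat_lit 4364) (nat_lit 429) (nat_lit 4396))))) (.f (nat_lit 331) (nat_lit 332) (nat_lit 3403) (.f (nat_lit 363) (nat_lit 330) (nat_lit 3402) (.d (nat_lit 335) (nat_lit 334) (nat_lit 2379) (nat_lit 336) (nat_lit 2380)))))))) (.a (.p (nat_lit 364) (.a (.f (nat_lit 331) (nat_lit 332) (nat_lit 3403) (.f (nat_lit 363) (nat_lit 330) (nat_lit 3402) (.d (nat_lit 335) (nat_lit 334) (nat_lit 2379) (nat_lit 336) (nat_lit 2380)))) (.a (.f (nat_lit 335) (nat_lit 336) (nat_lit 2380) (.f (nat_lit 363) (nat_lit 334) (nat_lit 2379) (.d (nat_lit 395) (nat_lit 394) (nat_lit 1386) (nat_lit 396) (nat_lit 1387)))) (.a (.f (nat_lit 331) (nat_lit 332) (nat_lit 3403) (.f (nat_lit 363) (nat_lit 330) (nat_lit 3402) (.d (nat_lit 395) (nat_lit 394) (nat_lit 1386) (nat_lit 396) (nat_lit 1387)))) (.p (nat_lit 333) (.a (.f (nat_lit 332) (nat_lit 331) (nat_lit 3403) (.f (nat_lit 396) (nat_lit 395) (nat_lit 1387) (.d (nat_lit 301) (nat_lit 269) (nat_lit 5388) (nat_lit 428) (nat_lit 6444)))) (.a (.f (nat_lit 397) (nat_lit 429) (nat_lit 4429) (.f (nat_lit 396) (nat_lit 395) (nat_lit 1387) (.d (nat_lit 428) (nat_lit 301) (nat_lit 5420) (nat_lit 460) (nat_lit 6476)))) (.a (.f (nat_lit 332) (nat_lit 331) (nat_lit 3403) (.f (nat_lit 397) (nat_lit 429) (nat_lit 4429) (.f (nat_lit 396) (nat_lit 395) (nat_lit 1387) (.f (nat_lit 300) (nat_lit 268) (nat_lit 4364) (.f (nat_lit 335) (nat_lit 336) (nat_lit 2380) (.d (nat_lit 299) (nat_lit 267) (nat_lit 7435) (nat_lit 334) (nat_lit 3371))))))) (.f (nat_lit 332) (nat_lit 331) (nat_lit 3403) (.f (nat_lit 397) (nat_lit 429) (nat_lit 4429) (.f (nat_lit 300) (nat_lit 268) (nat_lit 4364) (.f (nat_lit 335) (nat_lit 336) (nat_lit 2380) (.f (nat_lit 334) (nat_lit 299) (nat_lit 3371) (.f (nat_lit 270) (nat_lit 302) (nat_lit 5389) (.f (nat_lit 303) (nat_lit 304) (nat_lit 2348) (.d (nat_lit 271) (nat_lit 238) (nat_lit 7406) (nat_lit 239) (nat_lit 5358))))))))))))))))) (.a s78636 (.p (nat_lit 368) (.a (.f (nat_lit 400) (nat_lit 401) (nat_lit 365) (.f (nat_lit 336) (nat_lit 337) (nat_lit 2381) (.d (nat_lit 335) (nat_lit 364) (nat_lit 2380) (nat_lit 432) (nat_lit 7503)))) (.a (.f (nat_lit 333) (nat_lit 332) (nat_lit 3404) (.f (nat_lit 369) (nat_lit 334) (nat_lit 3405) (.d (nat_lit 337) (nat_lit 336) (nat_lit 2381) (nat_lit 338) (nat_lit 2382)))) (.a (.f (nat_lit 400) (nat_lit 401) (nat_lit 365) (.f (nat_lit 333) (nat_lit 332) (nat_lit 3404) (.f (nat_lit 369) (nat_lit 334) (nat_lit 3405) (.d (nat_lit 432) (nat_lit 335) (nat_lit 7503) (nat_lit 337) (nat_lit 6480))))) (.f (nat_lit 333) (nat_lit 332) (nat_lit 3404) (.f (nat_lit 334) (nat_lit 369) (nat_lit 3405) (.f (nat_lit 400) (nat_lit 401) (nat_lit 365) (.f (nat_lit 335) (nat_lit 432) (nat_lit 7503) (.d (nat_lit 364) (nat_lit 336) (nat_lit 1356) (nat_lit 363) (nat_lit 2379)))))))))))))))))))))))))))))))))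
noncomputable def s78698 : Cert := .r (nat_lit 3773962425700235452738272624565494821496408338394849567996313138286508869138839912134662193541394851608998737254544969255391620155518212444607881166718729802157209419776) (.p (nat_lit 367) (.a (.p (nat_lit 398) (.a (.f (nat_lit 494) (nat_lit 399) (nat_lit 6510) (.f (nat_lit 397) (nat_lit 365) (nat_lit 7533) (.f (nat_lit 526) (nat_lit 429) (nat_lit 7565) (.d (nat_lit 525) (nat_lit 493) (nat_lit 5517) (nat_lit 557) (nat_lit 5549))))) (.a (.f (nat_lit 399) (nat_lit 494) (nat_lit 6510) (.d (nat_lit 335) (nat_lit 366) (nat_lit 6478) (nat_lit 431) (nat_lit 5454))) (.a (.f (nat_lit 366) (nat_lit 335) (nat_lit 6478) (.f (nat_lit 365) (nat_lit 333) (nat_lit 7501) (.f (nat_lit 397) (nat_lit 494) (nat_lit 7533) (.d (nat_lit 396) (nat_lit 368) (nat_lit 1388) (nat_lit 395) (nat_lit 2411))))) (.f (nat_lit 335) (nat_lit 366) (nat_lit 6478) (.d (nat_lit 399) (nat_lit 303) (nat_lit 5422) (nat_lit 431) (nat_lit 5454))))))) (.a (.p (nat_lit 398) (.a (.f (nat_lit 494) (nat_lit 399) (nat_lit 6510) (.f (nat_lit 397) (nat_lit 365) (nat_lit 7533) (.f (nat_lit 526) (nat_lit 429) (nat_lit 7565) (.d (nat_lit 525) (nat_lit 493) (nat_lit 5517) (nat_lit 557) (nat_lit 5549))))) (.a (.f (nat_lit 399) (nat_lit 494) (nat_lit 6510) (.d (nat_lit 335) (nat_lit 366) (nat_lit 6478) (nat_lit 431) (nat_lit 5454))) (.a (.f (nat_lit 366) (nat_lit 335) (nat_lit 6478) (.f (nat_lit 365) (nat_lit 333) (nat_lit 7501) (.f (nat_lit 397) (nat_lit 494) (nat_lit 7533) (.d (nat_lit 396) (nat_lit 368) (nat_lit 1388) (nat_lit 395) (nat_lit 2411))))) (.f (nat_lit 366) (nat_lit 335) (nat_lit 6478) (.p (nat_lit 397) (.a (.f (nat_lit 365) (nat_lit 333) (nat_lit 7501) (.d (nat_lit 368) (nat_lit 369) (nat_lit 1389) (nat_lit 396) (nat_lit 1388))) (.a (.f (nat_lit 396) (nat_lit 395) (nat_lit 2411) (.d (nat_lit 368) (nat_lit 365) (nat_lit 1388) (nat_lit 369) (nat_lit 1389))) (.a (.f (nat_lit 396) (nat_lit 395) (nat_lit 2411) (.d (nat_lit 368) (nat_lit 369) (nat_lit 1389) (nat_lit 399) (nat_lit 2412))) (.a (.f (nat_lit 396) (nat_lit 395) (nat_lit 2411) (.f (nat_lit 333) (nat_lit 365) (nat_lit 7501) (.f (nat_lit 334) (nat_lit 301) (nat_lit 7469) (.f (nat_lit 429) (nat_lit 302) (nat_lit 5421) (.f (nat_lit 431) (nat_lit 432) (nat_lit 3468) (.f (nat_lit 332) (nat_lit 331) (nat_lit 331) (.f (nat_lit 364) (nat_lit 300) (nat_lit 4396) (.f (nat_lit 399) (nat_lit 363) (nat_lit 3435) (.d (nat_lit 428) (nat_lit 400) (nat_lit 2444) (nat_lit 427) (nat_lit 1419)))))))))) (.f (nat_lit 365) (nat_lit 333) (nat_lit 7501) (.f (nat_lit 368) (nat_lit 369) (nat_lit 1389) (.f (nat_lit 400) (nat_lit 401) (nat_lit 365) (.f (nat_lit 399) (nat_lit 364) (nat_lit 364) (.f (nat_lit 432) (nat_lit 433) (nat_lit 397) (.f (nat_lit 429) (nat_lit 428) (nat_lit 1420) (.d (nat_lit 465) (nat_lit 431) (nat_lit 429) (nat_lit 497) (nat_lit 4464)))))))))))))))))) (.a (.p (nat_lit 368) (.a (.p (nat_lit 335) (.a (.f (nat_lit 399) (nat_lit 431) (nat_lit 5454) (.d (nat_lit 398) (nat_lit 303) (nat_lit 5422) (nat_lit 366) (nat_lit 6478))) (.a (.f (nat_lit 399) (nat_lit 431) (nat_lit 5454) (.d (nat_lit 398) (nat_lit 366) (nat_lit 6478) (nat_lit 494) (nat_lit 6510))) (.a (.f (nat_lit 399) (nat_lit 431) (nat_lit 5454) (.d (nat_lit 398) (nat_lit 303) (nat_lit 5422) (nat_lit 494) (nat_lit 6510))) (.a (.f (nat_lit 432) (nat_lit 400) (nat_lit 7503) (.f (nat_lit 431) (nat_lit 399) (nat_lit 4431) (.f (nat_lit 465) (nat_lit 429) (nat_lit 429) (.d (nat_lit 466) (nat_lit 433) (nat_lit 430) (nat_lit 467) (nat_lit 3503))))) (.f (nat_lit 366) (nat_lit 398) (nat_lit 6478) (.f (nat_lit 400) (nat_lit 432) (nat_lit 7503) (.f (nat_lit 365) (nat_lit 401) (nat_lit 365) (.d (nat_lit 336) (nat_lit 337) (nat_lit 2381) (nat_lit 364) (nat_lit 2380)))))))))) (.a (.p (nat_lit 398) (.a (.f (nat_lit 399) (nat_lit 494) (nat_lit 6510) (.d (nat_lit 335) (nat_lit 366) (nat_lit 6478) (nat_lit 431) (nat_lit 5454))) (.a (.f (nat_lit 494) (nat_lit 399) (nat_lit 6510) (.f (nat_lit 397) (nat_lit 365) (nat_lit 7533) (.f (nat_lit 526) (nat_lit 429) (nat_lit 7565) (.d (nat_lit 525) (nat_lit 493) (nat_lit 5517) (nat_lit 557) (nat_lit 5549))))) (.f (nat_lit 366) (nat_lit 335) (nat_lit 6478) (.f (nat_lit 397) (nat_lit 369) (nat_lit 1389) (.d (nat_lit 396) (nat_lit 365) (nat_lit 1388) (nat_lit 395) (nat_lit 2411))))))) (.a (.p (nat_lit 366) (.a (.p (nat_lit 369) (.a (.f (nat_lit 398) (nat_lit 397) (nat_lit 1389) (.d (nat_lit 399) (nat_lit 370) (nat_lit 1390) (nat_lit 494) (nat_lit 6510))) (.f (nat_lit 337) (nat_lit 338) (nat_lit 2382) (.f (nat_lit 401) (nat_lit 402) (nat_lit 366) (.d (nat_lit 365) (nat_lit 336) (nat_lit 2381) (nat_lit 400) (nat_lit 365)))))) (.a (.p (nat_lit 369) (.a (.f (nat_lit 398) (nat_lit 397) (nat_lit 1389) (.d (nat_lit 399) (nat_lit 370) (nat_lit 1390) (nat_lit 494) (nat_lit 6510))) (.a (.f (nat_lit 398) (nat_lit 397) (nat_lit 1389) (.f (nat_lit 401) (nat_lit 402) (nat_lit 366) (.f (nat_lit 400) (nat_lit 365) (nat_lit 365) (.d (nat_lit 399) (nat_lit 429) (nat_lit 1421) (nat_lit 494) (nat_lit 6510))))) (.f (nat_lit 401) (nat_lit 402) (nat_lit 366) (.f (nat_lit 400) (nat_lit 365) (nat_lit 365) (.d (nat_lit 337) (nat_lit 338) (nat_lit 2382) (nat_lit 432) (nat_lit 6480))))))) (.a (.p (nat_lit 398) (.a (.f (nat_lit 397) (nat_lit 369) (nat_lit 1389) (.d (nat_lit 396) (nat_lit 365) (nat_lit 1388) (nat_lit 395) (nat_lit 2411))) (.a (.f (nat_lit 399) (nat_lit 494) (nat_lit 6510) (.d (nat_lit 397) (nat_lit 369) (nat_lit 1389) (nat_lit 396) (nat_lit 2412))) (.a (.f (nat_lit 494) (nat_lit 399) (nat_lit 6510) (.f (nat_lit 397) (nat_lit 365) (nat_lit 7533) (.f (nat_lit 526) (nat_lit 429) (nat_lit 7565) (.d (nat_lit 525) (nat_lit 493) (nat_lit 5517) (nat_lit 557) (nat_lit 5549))))) (.f (nat_lit 399) (nat_lit 494) (nat_lit 6510) (.f (nat_lit 369) (nat_lit 370) (nat_lit 1390) (.f (nat_lit 401) (nat_lit 402) (nat_lit 366) (.d (nat_lit 400) (nat_lit 365) (nat_lit 365) (nat_lit 429) (nat_lit 1421))))))))) (.a (.p (nat_lit 369) (.a (.f (nat_lit 398) (nat_lit 397) (nat_lit 1389) (.d (nat_lit 399) (nat_lit 370) (nat_lit 1390) (nat_lit 494) (nat_lit 6510))) (.f (nat_lit 337) (nat_lit 338) (nat_lit 2382) (.f (nat_lit 401) (nat_lit 402) (nat_lit 366) (.d (nat_lit 432) (nat_lit 400) (nat_lit 6480) (nat_lit 433) (nat_lit 5456)))))) (.a (.p (nat_lit 365) (.a (.f (nat_lit 397) (nat_lit 396) (nat_lit 1388) (.f (nat_lit 494) (nat_lit 398) (nat_lit 7533) (.f (nat_lit 526) (nat_lit 429) (nat_lit 7565) (.f (nat_lit 527) (nat_lit 559) (nat_lit 4526) (.d (nat_lit 525) (nat_lit 557) (nat_lit 5549) (nat_lit 561) (nat_lit 525)))))) (.f (nat_lit 400) (nat_lit 401) (nat_lit 365) (.f (nat_lit 399) (nat_lit 364) (nat_lit 364) (.f (nat_lit 336) (nat_lit 337) (nat_lit 2381) (.d (nat_lit 304) (nat_lit 272) (nat_lit 5391) (nat_lit 431) (nat_lit 5423))))))) (.a (.p (nat_lit 369) (.a (.f (nat_lit 337) (nat_lit 338) (nat_lit 2382) (.f (nat_lit 401) (nat_lit 402) (nat_lit 366) (.d (nat_lit 365) (nat_lit 336) (nat_lit 2381) (nat_lit 400) (nat_lit 365)))) (.a (.f (nat_lit 401) (nat_lit 402) (nat_lit 366) (.f (nat_lit 400) (nat_lit 365) (nat_lit 365) (.d (nat_lit 337) (nat_lit 338) (nat_lit 2382) (nat_lit 432) (nat_lit 6480)))) (.a (.f (nat_lit 402) (nat_lit 401) (nat_lit 366) (.f (nat_lit 370) (nat_lit 403) (nat_lit 367) (.f (nat_lit 399) (nat_lit 398) (nat_lit 1390) (.f (nat_lit 339) (nat_lit 338) (nat_lit 2383) (.d (nat_lit 371) (nat_lit 340) (nat_lit 2384) (nat_lit 400) (nat_lit 1391)))))) (.a (.f (nat_lit 401) (nat_lit 402) (nat_lit 366) (.f (nat_lit 400) (nat_lit 365) (nat_lit 365) (.f (nat_lit 432) (nat_lit 337) (nat_lit 6480) (.f (nat_lit 465) (nat_lit 497) (nat_lit 4464) (.f (nat_lit 433) (nat_lit 336) (nat_lit 4432) (.d (nat_lit 431) (nat_lit 429) (nat_lit 2445) (nat_lit 466) (nat_lit 430))))))) (.a (.f (nat_lit 337) (nat_lit 338) (nat_lit 2382) (.f (nat_lit 401) (nat_lit 402) (nat_lit 366) (.f (nat_lit 336) (nat_lit 365) (nat_lit 2381) (.d (nat_lit 433) (nat_lit 304) (nat_lit 7472) (nat_lit 432) (nat_lit 5456))))) (.f (nat_lit 337) (nat_lit 338) (nat_lit 2382) (.f (nat_lit 400) (nat_lit 432) (nat_lit 6480) (.f (nat_lit 365) (nat_lit 336) (nat_lit 2381) (.f (nat_lit 399) (nat_lit 364) (nat_lit 364) (.d (nat_lit 370) (nat_lit 371) (nat_lit 1391) (nat_lit 398) (nat_lit 1390)))))))))))) (.a (.p (nat_lit 337) (.a (.f (nat_lit 369) (nat_lit 338) (nat_lit 2382) (.f (nat_lit 401) (nat_lit 402) (nat_lit 366) (.d (nat_lit 365) (nat_lit 336) (nat_lit 2381) (nat_lit 400) (nat_lit 365)))) (.a (.f (nat_lit 369) (nat_lit 338) (nat_lit 2382) (.f (nat_lit 401) (nat_lit 402) (nat_lit 366) (.d (nat_lit 400) (nat_lit 365) (nat_lit 365) (nat_lit 432) (nat_lit 6480)))) (.a (.f (nat_lit 365) (nat_lit 336) (nat_lit 2381) (.f (nat_lit 400) (nat_lit 401) (nat_lit 365) (.f (nat_lit 364) (nat_lit 399) (nat_lit 364) (.d (nat_lit 396) (nat_lit 395) (nat_lit 1387) (nat_lit 397) (nat_lit 1388))))) (.a (.f (nat_lit 369) (nat_lit 338) (nat_lit 2382) (.f (nat_lit 401) (nat_lit 402) (nat_lit 366) (.d (nat_lit 432) (nat_lit 400) (nat_lit 6480) (nat_lit 433) (nat_lit 5456)))) (.a (.f (nat_lit 369) (nat_lit 338) (nat_lit 2382) (.f (nat_lit 401) (nat_lit 402) (nat_lit 366) (.f (nat_lit 336) (nat_lit 365) (nat_lit 2381) (.d (nat_lit 433) (nat_lit 304) (nat_lit 7472) (nat_lit 432) (nat_lit 5456))))) (.f (nat_lit 369) (nat_lit 338) (nat_lit 2382) (.f (nat_lit 400) (nat_lit 432) (nat_lit 6480) (.f (nat_lit 365) (nat_lit 336) (nat_lit 2381) (.f (nat_lit 364) (nat_lit 399) (nat_lit 364) (.d (nat_lit 396) (nat_lit 395) (nat_lit 1387) (nat_lit 397) (nat_lit 1388)))))))))))) (.a s73361 (.a (.p (nat_lit 369) (.a (.f (nat_lit 398) (nat_lit 397) (nat_lit 1389) (.d (nat_lit 399) (nat_lit 370) (nat_lit 1390) (nat_lit 494) (nat_lit 6510))) (.f (nat_lit 337) (nat_lit 338) (nat_lit 2382) (.f (nat_lit 401) (nat_lit 402) (nat_lit 366) (.f (nat_lit 336) (nat_lit 365) (nat_lit 2381) (.d (nat_lit 433) (nat_lit 304) (nat_lit 7472) (nat_lit 432) (nat_lit 5456))))))) (.p (nat_lit 398) (.a (.f (nat_lit 397) (nat_lit 369) (nat_lit 1389) (.d (nat_lit 396) (nat_lit 365) (nat_lit 1388) (nat_lit 395) (nat_lit 2411))) (.a (.f (nat_lit 399) (nat_lit 494) (nat_lit 6510) (.d (nat_lit 397) (nat_lit 369) (nat_lit 1389) (nat_lit 396) (nat_lit 2412))) (.a (.f (nat_lit 494) (nat_lit 399) (nat_lit 6510) (.f (nat_lit 397) (nat_lit 365) (nat_lit 7533) (.f (nat_lit 526) (nat_lit 429) (nat_lit 7565) (.d (nat_lit 525) (nat_lit 493) (nat_lit 5517) (nat_lit 557) (nat_lit 5549))))) (.f (nat_lit 399) (nat_lit 494) (nat_lit 6510) (.f (nat_lit 369) (nat_lit 370) (nat_lit 1390) (.f (nat_lit 337) (nat_lit 338) (nat_lit 2382) (.f (nat_lit 400) (nat_lit 432) (nat_lit 6480) (.d (nat_lit 365) (nat_lit 336) (nat_lit 2381) (nat_lit 364) (nat_lit 364)))))))))))))))))))) (.a s73380 (.a (.p (nat_lit 494) (.a (.f (nat_lit 398) (nat_lit 399) (nat_lit 6510) (.f (nat_lit 527) (nat_lit 495) (nat_lit 4494) (.f (nat_lit 526) (nat_lit 559) (nat_lit 4526) (.d (nat_lit 525) (nat_lit 493) (nat_lit 5517) (nat_lit 561) (nat_lit 525))))) (.a (.p (nat_lit 526) (.a (.f (nat_lit 527) (nat_lit 559) (nat_lit 4526) (.d (nat_lit 525) (nat_lit 557) (nat_lit 5549) (nat_lit 561) (nat_lit 525))) (.a (.f (nat_lit 559) (nat_lit 527) (nat_lit 4526) (.f (nat_lit 558) (nat_lit 591) (nat_lit 4558) (.f (nat_lit 589) (nat_lit 557) (nat_lit 5581) (.d (nat_lit 590) (nat_lit 561) (nat_lit 1581) (nat_lit 621) (nat_lit 5613))))) (.f (nat_lit 431) (nat_lit 399) (nat_lit 6542) (.f (nat_lit 429) (nat_lit 397) (nat_lit 7565) (.f (nat_lit 432) (nat_lit 465) (nat_lit 429) (.d (nat_lit 400) (nat_lit 335) (nat_lit 7503) (nat_lit 401) (nat_lit 2445)))))))) (.a (.p (nat_lit 526) (.a (.f (nat_lit 527) (nat_lit 559) (nat_lit 4526) (.d (nat_lit 525) (nat_lit 557) (nat_lit 5549) (nat_lit 561) (nat_lit 525))) (.a (.f (nat_lit 559) (nat_lit 527) (nat_lit 4526) (.f (nat_lit 558) (nat_lit 591) (nat_lit 4558) (.f (nat_lit 589) (nat_lit 557) (nat_lit 5581) (.d (nat_lit 590) (nat_lit 561) (nat_lit 1581) (nat_lit 621) (nat_lit 5613))))) (.a (.f (nat_lit 525) (nat_lit 557) (nat_lit 5549) (.f (nat_lit 397) (nat_lit 429) (nat_lit 7565) (.d (nat_lit 398) (nat_lit 365) (nat_lit 7533) (nat_lit 493) (nat_lit 5517)))) (.f (nat_lit 527) (nat_lit 559) (nat_lit 4526) (.f (nat_lit 525) (nat_lit 561) (nat_lit 525) (.d (nat_lit 398) (nat_lit 493) (nat_lit 5517) (nat_lit 495) (nat_lit 4494)))))))) (.a (.f (nat_lit 399) (nat_lit 398) (nat_lit 6510) (.d (nat_lit 431) (nat_lit 335) (nat_lit 5454) (nat_lit 526) (nat_lit 6542))) (.p (nat_lit 432) (.a (.f (nat_lit 400) (nat_lit 335) (nat_lit 7503) (.f (nat_lit 465) (nat_lit 497) (nat_lit 4464) (.f (nat_lit 431) (nat_lit 429) (nat_lit 429) (.d (nat_lit 433) (nat_lit 336) (nat_lit 4432) (nat_lit 466) (nat_lit 430))))) (.a (.f (nat_lit 398) (nat_lit 399) (nat_lit 6510) (.f (nat_lit 397) (nat_lit 365) (nat_lit 7533) (.f (nat_lit 431) (nat_lit 433) (nat_lit 3469) (.d (nat_lit 396) (nat_lit 395) (nat_lit 395) (nat_lit 429) (nat_lit 3468))))) (.a (.f (nat_lit 400) (nat_lit 335) (nat_lit 7503) (.f (nat_lit 337) (nat_lit 369) (nat_lit 6480) (.f (nat_lit 336) (nat_lit 305) (nat_lit 6448) (.d (nat_lit 465) (nat_lit 433) (nat_lit 4432) (nat_lit 497) (nat_lit 4464))))) (.f (nat_lit 400) (nat_lit 335) (nat_lit 7503) (.f (nat_lit 399) (nat_lit 398) (nat_lit 6510) (.f (nat_lit 369) (nat_lit 337) (nat_lit 6480) (.f (nat_lit 370) (nat_lit 371) (nat_lit 1391) (.f (nat_lit 402) (nat_lit 403) (nat_lit 367) (.f (nat_lit 431) (nat_lit 401) (nat_lit 1422) (.d (nat_lit 465) (nat_lit 429) (nat_lit 429) (nat_lit 497) (nat_lit 4464))))))))))))))))) (.a (.p (nat_lit 369) (.a (.p (nat_lit 370) (.a (.f (nat_lit 335) (nat_lit 334) (nat_lit 3406) (.f (nat_lit 400) (nat_lit 432) (nat_lit 7503) (.d (nat_lit 371) (nat_lit 336) (nat_lit 3407) (nat_lit 399) (nat_lit 1391)))) (.f (nat_lit 402) (nat_lit 403) (nat_lit 367) (.f (nat_lit 401) (nat_lit 366) (nat_lit 366) (.f (nat_lit 338) (nat_lit 339) (nat_lit 2383) (.d (nat_lit 306) (nat_lit 274) (nat_lit 5393) (nat_lit 433) (nat_lit 5425))))))) (.a (.p (nat_lit 370) (.a (.f (nat_lit 335) (nat_lit 334) (nat_lit 3406) (.f (nat_lit 400) (nat_lit 432) (nat_lit 7503) (.d (nat_lit 371) (nat_lit 336) (nat_lit 3407) (nat_lit 399) (nat_lit 1391)))) (.f (nat_lit 402) (nat_lit 403) (nat_lit 367) (.f (nat_lit 401) (nat_lit 366) (nat_lit 366) (.f (nat_lit 338) (nat_lit 339) (nat_lit 2383) (.d (nat_lit 433) (nat_lit 306) (nat_lit 5425) (nat_lit 465) (nat_lit 6481))))))) (.a s73449 (.a s73459 (.a (.p (nat_lit 370) (.a (.f (nat_lit 402) (nat_lit 403) (nat_lit 367) (.f (nat_lit 401) (nat_lit 366) (nat_lit 366) (.f (nat_lit 338) (nat_lit 339) (nat_lit 2383) (.d (nat_lit 306) (nat_lit 274) (nat_lit 5393) (nat_lit 433) (nat_lit 5425))))) (.a (.f (nat_lit 402) (nat_lit 403) (nat_lit 367) (.f (nat_lit 401) (nat_lit 366) (nat_lit 366) (.f (nat_lit 338) (nat_lit 339) (nat_lit 2383) (.d (nat_lit 433) (nat_lit 306) (nat_lit 5425) (nat_lit 465) (nat_lit 6481))))) (.a (.f (nat_lit 402) (nat_lit 403) (nat_lit 367) (.f (nat_lit 401) (nat_lit 366) (nat_lit 366) (.f (nat_lit 338) (nat_lit 339) (nat_lit 2383) (.f (nat_lit 433) (nat_lit 465) (nat_lit 6481) (.d (nat_lit 432) (nat_lit 337) (nat_lit 5456) (nat_lit 431) (nat_lit 2446)))))) (.a (.f (nat_lit 403) (nat_lit 402) (nat_lit 367) (.f (nat_lit 371) (nat_lit 404) (nat_lit 368) (.f (nat_lit 400) (nat_lit 399) (nat_lit 1391) (.f (nat_lit 372) (nat_lit 401) (nat_lit 1392) (.d (nat_lit 340) (nat_lit 339) (nat_lit 2384) (nat_lit 341) (nat_lit 2385)))))) (.a (.f (nat_lit 402) (nat_lit 403) (nat_lit 367) (.f (nat_lit 366) (nat_lit 401) (nat_lit 366) (.f (nat_lit 337) (nat_lit 338) (nat_lit 2382) (.f (nat_lit 400) (nat_lit 432) (nat_lit 6480) (.f (nat_lit 336) (nat_lit 365) (nat_lit 2381) (.d (nat_lit 371) (nat_lit 372) (nat_lit 3408) (nat_lit 399) (nat_lit 1391))))))) (.a (.f (nat_lit 338) (nat_lit 339) (nat_lit 2383) (.f (nat_lit 337) (nat_lit 366) (nat_lit 2382) (.f (nat_lit 402) (nat_lit 403) (nat_lit 367) (.d (nat_lit 305) (nat_lit 273) (nat_lit 4369) (nat_lit 434) (nat_lit 7473))))) (.f (nat_lit 338) (nat_lit 339) (nat_lit 2383) (.f (nat_lit 337) (nat_lit 366) (nat_lit 2382) (.f (nat_lit 400) (nat_lit 432) (nat_lit 6480) (.f (nat_lit 371) (nat_lit 399) (nat_lit 1391) (.d (nat_lit 372) (nat_lit 336) (nat_lit 3408) (nat_lit 401) (nat_lit 1392))))))))))))) (.a s73479 (.a s73497 (.a s73507 (.a (.p (nat_lit 366) (.a (.f (nat_lit 337) (nat_lit 338) (nat_lit 2382) (.f (nat_lit 401) (nat_lit 402) (nat_lit 366) (.d (nat_lit 365) (nat_lit 336) (nat_lit 2381) (nat_lit 400) (nat_lit 365)))) (.a (.f (nat_lit 401) (nat_lit 402) (nat_lit 366) (.f (nat_lit 400) (nat_lit 365) (nat_lit 365) (.d (nat_lit 337) (nat_lit 338) (nat_lit 2382) (nat_lit 432) (nat_lit 6480)))) (.a (.f (nat_lit 401) (nat_lit 402) (nat_lit 366) (.f (nat_lit 400) (nat_lit 365) (nat_lit 365) (.f (nat_lit 432) (nat_lit 335) (nat_lit 7503) (.f (nat_lit 465) (nat_lit 497) (nat_lit 4464) (.f (nat_lit 433) (nat_lit 336) (nat_lit 4432) (.d (nat_lit 431) (nat_lit 429) (nat_lit 2445) (nat_lit 466) (nat_lit 430))))))) (.a (.f (nat_lit 337) (nat_lit 338) (nat_lit 2382) (.f (nat_lit 401) (nat_lit 402) (nat_lit 366) (.d (nat_lit 432) (nat_lit 400) (nat_lit 6480) (nat_lit 433) (nat_lit 5456)))) (.a (.f (nat_lit 337) (nat_lit 338) (nat_lit 2382) (.f (nat_lit 401) (nat_lit 402) (nat_lit 366) (.f (nat_lit 336) (nat_lit 365) (nat_lit 2381) (.d (nat_lit 433) (nat_lit 304) (nat_lit 7472) (nat_lit 432) (nat_lit 5456))))) (.f (nat_lit 337) (nat_lit 338) (nat_lit 2382) (.f (nat_lit 400) (nat_lit 432) (nat_lit 6480) (.f (nat_lit 365) (nat_lit 336) (nat_lit 2381) (.f (nat_lit 364) (nat_lit 399) (nat_lit 364) (.d (nat_lit 396) (nat_lit 395) (nat_lit 1387) (nat_lit 397) (nat_lit 1388)))))))))))) (.a s73514 (.a (.p (nat_lit 335) (.a (.f (nat_lit 400) (nat_lit 432) (nat_lit 7503) (.f (nat_lit 399) (nat_lit 431) (nat_lit 5454) (.d (nat_lit 370) (nat_lit 334) (nat_lit 3406) (nat_lit 371) (nat_lit 1391)))) (.a (.f (nat_lit 432) (nat_lit 400) (nat_lit 7503) (.f (nat_lit 431) (nat_lit 399) (nat_lit 4431) (.f (nat_lit 465) (nat_lit 429) (nat_lit 429) (.d (nat_lit 466) (nat_lit 433) (nat_lit 430) (nat_lit 467) (nat_lit 3503))))) (.f (nat_lit 370) (nat_lit 334) (nat_lit 3406) (.f (nat_lit 371) (nat_lit 336) (nat_lit 3407) (.d (nat_lit 403) (nat_lit 402) (nat_lit 367) (nat_lit 404) (nat_lit 368))))))) (.a (.p (nat_lit 335) (.a (.f (nat_lit 400) (nat_lit 432) (nat_lit 7503) (.f (nat_lit 399) (nat_lit 431) (nat_lit 5454) (.d (nat_lit 370) (nat_lit 334) (nat_lit 3406) (nat_lit 371) (nat_lit 1391)))) (.a (.f (nat_lit 432) (nat_lit 400) (nat_lit 7503) (.f (nat_lit 431) (nat_lit 399) (nat_lit 4431) (.f (nat_lit 465) (nat_lit 429) (nat_lit 429) (.d (nat_lit 466) (nat_lit 433) (nat_lit 430) (nat_lit 467) (nat_lit 3503))))) (.f (nat_lit 370) (nat_lit 334) (nat_lit 3406) (.f (nat_lit 371) (nat_lit 336) (nat_lit 3407) (.d (nat_lit 339) (nat_lit 338) (nat_lit 2383) (nat_lit 340) (nat_lit 2384))))))) (.a s73518 s73519)))))))))))))) (.a (.p (nat_lit 366) (.a s73361 (.a (.f (nat_lit 398) (nat_lit 335) (nat_lit 6478) (.f (nat_lit 397) (nat_lit 369) (nat_lit 1389) (.d (nat_lit 396) (nat_lit 365) (nat_lit 1388) (nat_lit 395) (nat_lit 2411)))) (.a (.f (nat_lit 398) (nat_lit 335) (nat_lit 6478) (.f (nat_lit 369) (nat_lit 397) (nat_lit 1389) (.f (nat_lit 337) (nat_lit 338) (nat_lit 2382) (.f (nat_lit 401) (nat_lit 402) (nat_lit 366) (.d (nat_lit 432) (nat_lit 400) (nat_lit 6480) (nat_lit 433) (nat_lit 5456)))))) (.a (.f (nat_lit 335) (nat_lit 398) (nat_lit 6478) (.f (nat_lit 400) (nat_lit 432) (nat_lit 7503) (.f (nat_lit 365) (nat_lit 401) (nat_lit 365) (.d (nat_lit 336) (nat_lit 337) (nat_lit 2381) (nat_lit 364) (nat_lit 2380))))) (.p (nat_lit 365) (.a (.f (nat_lit 400) (nat_lit 401) (nat_lit 365) (.f (nat_lit 336) (nat_lit 337) (nat_lit 2381) (.d (nat_lit 335) (nat_lit 364) (nat_lit 2380) (nat_lit 432) (nat_lit 7503)))) (.a (.f (nat_lit 337) (nat_lit 336) (nat_lit 2381) (.f (nat_lit 369) (nat_lit 338) (nat_lit 2382) (.d (nat_lit 401) (nat_lit 400) (nat_lit 365) (nat_lit 402) (nat_lit 366)))) (.a (.f (nat_lit 400) (nat_lit 401) (nat_lit 365) (.f (nat_lit 432) (nat_lit 335) (nat_lit 7503) (.f (nat_lit 465) (nat_lit 497) (nat_lit 4464) (.f (nat_lit 431) (nat_lit 429) (nat_lit 429) (.d (nat_lit 466) (nat_lit 433) (nat_lit 430) (nat_lit 467) (nat_lit 3503)))))) (.f (nat_lit 336) (nat_lit 337) (nat_lit 2381) (.f (nat_lit 364) (nat_lit 335) (nat_lit 2380) (.d (nat_lit 396) (nat_lit 395) (nat_lit 1387) (nat_lit 397) (nat_lit 1388))))))))))))) (.p (nat_lit 398) (.a (.f (nat_lit 494) (nat_lit 399) (nat_lit 6510) (.f (nat_lit 397) (nat_lit 365) (nat_lit 7533) (.f (nat_lit 526) (nat_lit 429) (nat_lit 7565) (.d (nat_lit 525) (nat_lit 493) (nat_lit 5517) (nat_lit 557) (nat_lit 5549))))) (.a (.f (nat_lit 399) (nat_lit 494) (nat_lit 6510) (.f (nat_lit 397) (nat_lit 396) (nat_lit 2412) (.d (nat_lit 369) (nat_lit 366) (nat_lit 1389) (nat_lit 370) (nat_lit 1390)))) (.a (.f (nat_lit 335) (nat_lit 366) (nat_lit 6478) (.d (nat_lit 399) (nat_lit 303) (nat_lit 5422) (nat_lit 494) (nat_lit 6510))) (.f (nat_lit 366) (nat_lit 335) (nat_lit 6478) (.f (nat_lit 397) (nat_lit 369) (nat_lit 1389) (.d (nat_lit 396) (nat_lit 365) (nat_lit 1388) (nat_lit 395) (nat_lit 2411)))))))))))))))) (.a (.p (nat_lit 365) (.a (.p (nat_lit 398) (.a (.d (nat_lit 494) (nat_lit 397) (nat_lit 7533) (nat_lit 399) (nat_lit 6510)) (.a (.f (nat_lit 366) (nat_lit 333) (nat_lit 7501) (.f (nat_lit 399) (nat_lit 494) (nat_lit 6510) (.d (nat_lit 364) (nat_lit 363) (nat_lit 363) (nat_lit 400) (nat_lit 364)))) (.a (.f (nat_lit 397) (nat_lit 494) (nat_lit 7533) (.d (nat_lit 333) (nat_lit 366) (nat_lit 7501) (nat_lit 429) (nat_lit 4429))) (.f (nat_lit 333) (nat_lit 366) (nat_lit 7501) (.d (nat_lit 397) (nat_lit 301) (nat_lit 4397) (nat_lit 429) (nat_lit 4429))))))) (.a (.p (nat_lit 366) (.a (.f (nat_lit 398) (nat_lit 333) (nat_lit 7501) (.d (nat_lit 494) (nat_lit 397) (nat_lit 7533) (nat_lit 399) (nat_lit 6510))) (.a (.p (nat_lit 368) (.a (.f (nat_lit 397) (nat_lit 396) (nat_lit 1388) (.f (nat_lit 494) (nat_lit 398) (nat_lit 7533) (.f (nat_lit 526) (nat_lit 429) (nat_lit 7565) (.f (nat_lit 527) (nat_lit 559) (nat_lit 4526) (.d (nat_lit 525) (nat_lit 557) (nat_lit 5549) (nat_lit 561) (nat_lit 525)))))) (.f (nat_lit 400) (nat_lit 401) (nat_lit 365) (.f (nat_lit 399) (nat_lit 364) (nat_lit 364) (.f (nat_lit 336) (nat_lit 337) (nat_lit 2381) (.d (nat_lit 304) (nat_lit 272) (nat_lit 5391) (nat_lit 431) (nat_lit 5423))))))) (.a (.f (nat_lit 398) (nat_lit 333) (nat_lit 7501) (.f (nat_lit 399) (nat_lit 494) (nat_lit 6510) (.d (nat_lit 364) (nat_lit 363) (nat_lit 363) (nat_lit 400) (nat_lit 364)))) (.a (.p (nat_lit 368) (.a (.f (nat_lit 400) (nat_lit 401) (nat_lit 365) (.f (nat_lit 399) (nat_lit 364) (nat_lit 364) (.f (nat_lit 336) (nat_lit 337) (nat_lit 2381) (.d (nat_lit 304) (nat_lit 272) (nat_lit 5391) (nat_lit 431) (nat_lit 5423))))) (.a (.f (nat_lit 337) (nat_lit 336) (nat_lit 2381) (.f (nat_lit 369) (nat_lit 338) (nat_lit 2382) (.d (nat_lit 401) (nat_lit 400) (nat_lit 365) (nat_lit 402) (nat_lit 366)))) (.f (nat_lit 333) (nat_lit 332) (nat_lit 3404) (.d (nat_lit 397) (nat_lit 396) (nat_lit 1388) (nat_lit 429) (nat_lit 4429)))))) (.f (nat_lit 333) (nat_lit 398) (nat_lit 7501) (.f (nat_lit 368) (nat_lit 332) (nat_lit 3404) (.d (nat_lit 397) (nat_lit 396) (nat_lit 1388) (nat_lit 429) (nat_lit 4429))))))))) (.a (.p (nat_lit 366) (.a (.p (nat_lit 368) (.a (.f (nat_lit 397) (nat_lit 396) (nat_lit 1388) (.f (nat_lit 494) (nat_lit 398) (nat_lit 7533) (.f (nat_lit 526) (nat_lit 429) (nat_lit 7565) (.f (nat_lit 527) (nat_lit 559) (nat_lit 4526) (.d (nat_lit 525) (nat_lit 557) (nat_lit 5549) (nat_lit 561) (nat_lit 525)))))) (.f (nat_lit 400) (nat_lit 401) (nat_lit 365) (.f (nat_lit 399) (nat_lit 364) (nat_lit 364) (.f (nat_lit 336) (nat_lit 337) (nat_lit 2381) (.d (nat_lit 304) (nat_lit 272) (nat_lit 5391) (nat_lit 431) (nat_lit 5423))))))) (.a (.p (nat_lit 364) (.a (.f (nat_lit 399) (nat_lit 400) (nat_lit 364) (.d (nat_lit 398) (nat_lit 363) (nat_lit 363) (nat_lit 494) (nat_lit 6510))) (.a (.f (nat_lit 399) (nat_lit 400) (nat_lit 364) (.f (nat_lit 494) (nat_lit 398) (nat_lit 6510) (.f (nat_lit 526) (nat_lit 431) (nat_lit 6542) (.f (nat_lit 527) (nat_lit 559) (nat_lit 4526) (.d (nat_lit 525) (nat_lit 557) (nat_lit 5549) (nat_lit 561) (nat_lit 525)))))) (.a (.f (nat_lit 396) (nat_lit 395) (nat_lit 1387) (.f (nat_lit 368) (nat_lit 397) (nat_lit 1388) (.d (nat_lit 400) (nat_lit 399) (nat_lit 364) (nat_lit 401) (nat_lit 365)))) (.f (nat_lit 396) (nat_lit 395) (nat_lit 1387) (.f (nat_lit 397) (nat_lit 368) (nat_lit 1388) (.f (nat_lit 332) (nat_lit 331) (nat_lit 3403) (.d (nat_lit 300) (nat_lit 268) (nat_lit 4364) (nat_lit 429) (nat_lit 4396))))))))) (.a (.p (nat_lit 368) (.a (.f (nat_lit 397) (nat_lit 396) (nat_lit 1388) (.f (nat_lit 494) (nat_lit 398) (nat_lit 7533) (.f (nat_lit 526) (nat_lit 429) (nat_lit 7565) (.f (nat_lit 527) (nat_lit 559) (nat_lit 4526) (.d (nat_lit 525) (nat_lit 557) (nat_lit 5549) (nat_lit 561) (nat_lit 525)))))) (.f (nat_lit 337) (nat_lit 336) (nat_lit 2381) (.f (nat_lit 369) (nat_lit 338) (nat_lit 2382) (.d (nat_lit 401) (nat_lit 400) (nat_lit 365) (nat_lit 402) (nat_lit 366)))))) (.a (.p (nat_lit 364) (.a (.f (nat_lit 399) (nat_lit 400) (nat_lit 364) (.d (nat_lit 398) (nat_lit 363) (nat_lit 363) (nat_lit 494) (nat_lit 6510))) (.a (.f (nat_lit 399) (nat_lit 400) (nat_lit 364) (.f (nat_lit 494) (nat_lit 398) (nat_lit 6510) (.f (nat_lit 526) (nat_lit 431) (nat_lit 6542) (.f (nat_lit 527) (nat_lit 559) (nat_lit 4526) (.d (nat_lit 525) (nat_lit 557) (nat_lit 5549) (nat_lit 561) (nat_lit 525)))))) (.f (nat_lit 395) (nat_lit 396) (nat_lit 1387) (.f (nat_lit 363) (nat_lit 394) (nat_lit 1386) (.d (nat_lit 331) (nat_lit 330) (nat_lit 3402) (nat_lit 332) (nat_lit 3403))))))) (.a (.p (nat_lit 399) (.a (.f (nat_lit 398) (nat_lit 494) (nat_lit 6510) (.d (nat_lit 400) (nat_lit 364) (nat_lit 364) (nat_lit 401) (nat_lit 3437))) (.a (.f (nat_lit 494) (nat_lit 398) (nat_lit 6510) (.f (nat_lit 526) (nat_lit 431) (nat_lit 6542) (.f (nat_lit 527) (nat_lit 559) (nat_lit 4526) (.d (nat_lit 525) (nat_lit 557) (nat_lit 5549) (nat_lit 561) (nat_lit 525))))) (.f (nat_lit 400) (nat_lit 364) (nat_lit 364) (.d (nat_lit 401) (nat_lit 368) (nat_lit 365) (nat_lit 402) (nat_lit 3438)))))) (.a (.p (nat_lit 364) (.a (.f (nat_lit 396) (nat_lit 395) (nat_lit 1387) (.f (nat_lit 368) (nat_lit 397) (nat_lit 1388) (.d (nat_lit 400) (nat_lit 399) (nat_lit 364) (nat_lit 401) (nat_lit 365)))) (.a (.f (nat_lit 395) (nat_lit 396) (nat_lit 1387) (.f (nat_lit 363) (nat_lit 394) (nat_lit 1386) (.d (nat_lit 331) (nat_lit 330) (nat_lit 3402) (nat_lit 332) (nat_lit 3403)))) (.f (nat_lit 400) (nat_lit 399) (nat_lit 364) (.f (nat_lit 368) (nat_lit 401) (nat_lit 365) (.f (nat_lit 337) (nat_lit 336) (nat_lit 2381) (.d (nat_lit 369) (nat_lit 338) (nat_lit 2382) (nat_lit 432) (nat_lit 6480)))))))) (.p (nat_lit 397) (.a (.f (nat_lit 398) (nat_lit 494) (nat_lit 7533) (.d (nat_lit 396) (nat_lit 368) (nat_lit 1388) (nat_lit 395) (nat_lit 2411))) (.a (.f (nat_lit 494) (nat_lit 398) (nat_lit 7533) (.f (nat_lit 526) (nat_lit 429) (nat_lit 7565) (.f (nat_lit 527) (nat_lit 559) (nat_lit 4526) (.d (nat_lit 525) (nat_lit 557) (nat_lit 5549) (nat_lit 561) (nat_lit 525))))) (.f (nat_lit 396) (nat_lit 368) (nat_lit 1388) (.d (nat_lit 395) (nat_lit 364) (nat_lit 1387) (nat_lit 394) (nat_lit 2410))))))))))))) (.a (.p (nat_lit 398) (.a (.d (nat_lit 494) (nat_lit 397) (nat_lit 7533) (nat_lit 399) (nat_lit 6510)) (.a (.f (nat_lit 494) (nat_lit 399) (nat_lit 6510) (.f (nat_lit 527) (nat_lit 495) (nat_lit 4494) (.f (nat_lit 526) (nat_lit 559) (nat_lit 4526) (.d (nat_lit 525) (nat_lit 493) (nat_lit 5517) (nat_lit 561) (nat_lit 525))))) (.a (.f (nat_lit 397) (nat_lit 494) (nat_lit 7533) (.d (nat_lit 333) (nat_lit 366) (nat_lit 7501) (nat_lit 429) (nat_lit 4429))) (.f (nat_lit 333) (nat_lit 366) (nat_lit 7501) (.d (nat_lit 397) (nat_lit 301) (nat_lit 4397) (nat_lit 429) (nat_lit 4429))))))) (.a (.p (nat_lit 494) (.a (.d (nat_lit 398) (nat_lit 397) (nat_lit 7533) (nat_lit 399) (nat_lit 6510)) (.a (.f (nat_lit 398) (nat_lit 399) (nat_lit 6510) (.f (nat_lit 527) (nat_lit 495) (nat_lit 4494) (.f (nat_lit 526) (nat_lit 559) (nat_lit 4526) (.d (nat_lit 525) (nat_lit 493) (nat_lit 5517) (nat_lit 561) (nat_lit 525))))) (.a (.p (nat_lit 526) (.a (.f (nat_lit 527) (nat_lit 559) (nat_lit 4526) (.d (nat_lit 525) (nat_lit 557) (nat_lit 5549) (nat_lit 561) (nat_lit 525))) (.a (.f (nat_lit 559) (nat_lit 527) (nat_lit 4526) (.f (nat_lit 558) (nat_lit 591) (nat_lit 4558) (.f (nat_lit 589) (nat_lit 557) (nat_lit 5581) (.d (nat_lit 590) (nat_lit 561) (nat_lit 1581) (nat_lit 621) (nat_lit 5613))))) (.a (.p (nat_lit 558) (.a (.d (nat_lit 557) (nat_lit 525) (nat_lit 5549) (nat_lit 589) (nat_lit 5581)) (.a (.f (nat_lit 589) (nat_lit 557) (nat_lit 5581) (.f (nat_lit 590) (nat_lit 621) (nat_lit 5613) (.d (nat_lit 591) (nat_lit 559) (nat_lit 4558) (nat_lit 623) (nat_lit 4590)))) (.f (nat_lit 559) (nat_lit 591) (nat_lit 4558) (.f (nat_lit 561) (nat_lit 525) (nat_lit 3597) (.f (nat_lit 429) (nat_lit 397) (nat_lit 7565) (.f (nat_lit 431) (nat_lit 399) (nat_lit 6542) (.f (nat_lit 594) (nat_lit 593) (nat_lit 558) (.f (nat_lit 562) (nat_lit 595) (nat_lit 559) (.f (nat_lit 530) (nat_lit 531) (nat_lit 2575) (.f (nat_lit 465) (nat_lit 432) (nat_lit 429) (.f (nat_lit 498) (nat_lit 497) (nat_lit 7633) (.f (nat_lit 466) (nat_lit 433) (nat_lit 7601) (.d (nat_lit 467) (nat_lit 435) (nat_lit 6578) (nat_lit 499) (nat_lit 6610))))))))))))))) (.a (.f (nat_lit 527) (nat_lit 559) (nat_lit 4526) (.f (nat_lit 525) (nat_lit 561) (nat_lit 525) (.f (nat_lit 492) (nat_lit 493) (nat_lit 3564) (.f (nat_lit 524) (nat_lit 491) (nat_lit 3563) (.f (nat_lit 523) (nat_lit 495) (nat_lit 2539) (.d (nat_lit 555) (nat_lit 554) (nat_lit 1546) (nat_lit 556) (nat_lit 1547))))))) (.a (.f (nat_lit 525) (nat_lit 557) (nat_lit 5549) (.f (nat_lit 527) (nat_lit 561) (nat_lit 525) (.f (nat_lit 492) (nat_lit 493) (nat_lit 3564) (.f (nat_lit 524) (nat_lit 491) (nat_lit 3563) (.f (nat_lit 523) (nat_lit 495) (nat_lit 2539) (.d (nat_lit 555) (nat_lit 554) (nat_lit 1546) (nat_lit 556) (nat_lit 1547))))))) (.f (nat_lit 527) (nat_lit 559) (nat_lit 4526) (.f (nat_lit 525) (nat_lit 557) (nat_lit 5549) (.f (nat_lit 492) (nat_lit 493) (nat_lit 3564) (.f (nat_lit 524) (nat_lit 491) (nat_lit 3563) (.f (nat_lit 523) (nat_lit 495) (nat_lit 2539) (.d (nat_lit 555) (nat_lit 554) (nat_lit 1546) (nat_lit 556) (nat_lit 1547))))))))))))) (.f (nat_lit 398) (nat_lit 397) (nat_lit 7533) (.f (nat_lit 527) (nat_lit 495) (nat_lit 4494) (.f (nat_lit 526) (nat_lit 559) (nat_lit 4526) (.d (nat_lit 525) (nat_lit 493) (nat_lit 5517) (nat_lit 561) (nat_lit 525))))))))) (.a (.p (nat_lit 366) (.a (.f (nat_lit 398) (nat_lit 333) (nat_lit 7501) (.f (nat_lit 399) (nat_lit 494) (nat_lit 6510) (.d (nat_lit 364) (nat_lit 363) (nat_lit 363) (nat_lit 400) (nat_lit 364)))) (.a (.p (nat_lit 364) (.a (.f (nat_lit 399) (nat_lit 400) (nat_lit 364) (.d (nat_lit 398) (nat_lit 363) (nat_lit 363) (nat_lit 494) (nat_lit 6510))) (.a (.f (nat_lit 399) (nat_lit 400) (nat_lit 364) (.f (nat_lit 494) (nat_lit 398) (nat_lit 6510) (.f (nat_lit 526) (nat_lit 431) (nat_lit 6542) (.f (nat_lit 527) (nat_lit 559) (nat_lit 4526) (.d (nat_lit 525) (nat_lit 557) (nat_lit 5549) (nat_lit 561) (nat_lit 525)))))) (.f (nat_lit 395) (nat_lit 396) (nat_lit 1387) (.f (nat_lit 363) (nat_lit 394) (nat_lit 1386) (.d (nat_lit 331) (nat_lit 330) (nat_lit 3402) (nat_lit 332) (nat_lit 3403))))))) (.a (.p (nat_lit 399) (.a (.f (nat_lit 398) (nat_lit 494) (nat_lit 6510) (.d (nat_lit 400) (nat_lit 364) (nat_lit 364) (nat_lit 401) (nat_lit 3437))) (.a (.f (nat_lit 494) (nat_lit 398) (nat_lit 6510) (.f (nat_lit 526) (nat_lit 431) (nat_lit 6542) (.f (nat_lit 527) (nat_lit 559) (nat_lit 4526) (.d (nat_lit 525) (nat_lit 557) (nat_lit 5549) (nat_lit 561) (nat_lit 525))))) (.f (nat_lit 400) (nat_lit 364) (nat_lit 364) (.d (nat_lit 401) (nat_lit 368) (nat_lit 365) (nat_lit 402) (nat_lit 3438)))))) (.a (.f (nat_lit 398) (nat_lit 333) (nat_lit 7501) (.f (nat_lit 494) (nat_lit 399) (nat_lit 6510) (.f (nat_lit 527) (nat_lit 495) (nat_lit 4494) (.f (nat_lit 526) (nat_lit 559) (nat_lit 4526) (.d (nat_lit 525) (nat_lit 493) (nat_lit 5517) (nat_lit 561) (nat_lit 525)))))) (.a s73656 (.f (nat_lit 333) (nat_lit 398) (nat_lit 7501) (.f (nat_lit 368) (nat_lit 332) (nat_lit 3404) (.f (nat_lit 369) (nat_lit 334) (nat_lit 3405) (.d (nat_lit 337) (nat_lit 336) (nat_lit 2381) (nat_lit 338) (nat_lit 2382))))))))))) (.a (.p (nat_lit 333) (.a (.f (nat_lit 397) (nat_lit 429) (nat_lit 4429) (.p (nat_lit 301) (.a (.f (nat_lit 396) (nat_lit 428) (nat_lit 5420) (.f (nat_lit 366) (nat_lit 368) (nat_lit 1388) (.d (nat_lit 364) (nat_lit 269) (nat_lit 5388) (nat_lit 395) (nat_lit 1387)))) (.a (.f (nat_lit 396) (nat_lit 428) (nat_lit 5420) (.f (nat_lit 366) (nat_lit 368) (nat_lit 1388) (.d (nat_lit 395) (nat_lit 364) (nat_lit 1387) (nat_lit 394) (nat_lit 2410)))) (.f (nat_lit 270) (nat_lit 302) (nat_lit 6413) (.f (nat_lit 269) (nat_lit 238) (nat_lit 6381) (.d (nat_lit 268) (nat_lit 236) (nat_lit 7404) (nat_lit 300) (nat_lit 7436)))))))) (.a (.f (nat_lit 397) (nat_lit 429) (nat_lit 4429) (.p (nat_lit 396) (.a (.f (nat_lit 366) (nat_lit 368) (nat_lit 1388) (.d (nat_lit 395) (nat_lit 364) (nat_lit 1387) (nat_lit 394) (nat_lit 2410))) (.a (.f (nat_lit 366) (nat_lit 368) (nat_lit 1388) (.f (nat_lit 301) (nat_lit 428) (nat_lit 5420) (.f (nat_lit 270) (nat_lit 302) (nat_lit 6413) (.f (nat_lit 269) (nat_lit 238) (nat_lit 6381) (.f (nat_lit 300) (nat_lit 268) (nat_lit 7436) (.f (nat_lit 237) (nat_lit 334) (nat_lit 4333) (.f (nat_lit 205) (nat_lit 332) (nat_lit 5324) (.f (nat_lit 174) (nat_lit 206) (nat_lit 6317) (.f (nat_lit 173) (nat_lit 142) (nat_lit 6285) (.d (nat_lit 172) (nat_lit 140) (nat_lit 7308) (nat_lit 204) (nat_lit 7340))))))))))) (.f (nat_lit 301) (nat_lit 428) (nat_lit 5420) (.f (nat_lit 269) (nat_lit 364) (nat_lit 5388) (.d (nat_lit 270) (nat_lit 238) (nat_lit 6381) (nat_lit 302) (nat_lit 6413)))))))) (.a (.p (nat_lit 366) (.a (.f (nat_lit 368) (nat_lit 332) (nat_lit 3404) (.d (nat_lit 397) (nat_lit 396) (nat_lit 1388) (nat_lit 429) (nat_lit 4429))) (.a (.f (nat_lit 397) (nat_lit 429) (nat_lit 4429) (.f (nat_lit 396) (nat_lit 368) (nat_lit 1388) (.d (nat_lit 395) (nat_lit 364) (nat_lit 1387) (nat_lit 394) (nat_lit 2410)))) (.a (.p (nat_lit 364) (.a (.f (nat_lit 332) (nat_lit 331) (nat_lit 3403) (.f (nat_lit 396) (nat_lit 395) (nat_lit 1387) (.d (nat_lit 301) (nat_lit 269) (nat_lit 5388) (nat_lit 428) (nat_lit 6444)))) (.a (.f (nat_lit 397) (nat_lit 429) (nat_lit 4429) (.f (nat_lit 396) (nat_lit 395) (nat_lit 1387) (.d (nat_lit 428) (nat_lit 301) (nat_lit 5420) (nat_lit 460) (nat_lit 6476)))) (.a (.f (nat_lit 332) (nat_lit 331) (nat_lit 3403) (.f (nat_lit 395) (nat_lit 396) (nat_lit 1387) (.f (nat_lit 363) (nat_lit 394) (nat_lit 1386) (.d (nat_lit 362) (nat_lit 334) (nat_lit 2378) (nat_lit 361) (nat_lit 2377))))) (.a (.f (nat_lit 331) (nat_lit 332) (nat_lit 3403) (.f (nat_lit 363) (nat_lit 330) (nat_lit 3402) (.f (nat_lit 397) (nat_lit 429) (nat_lit 4429) (.f (nat_lit 362) (nat_lit 334) (nat_lit 2378) (.f (nat_lit 396) (nat_lit 361) (nat_lit 361) (.d (nat_lit 301) (nat_lit 269) (nat_lit 5388) (nat_lit 428) (nat_lit 5420))))))) (.f (nat_lit 331) (nat_lit 332) (nat_lit 3403) (.f (nat_lit 363) (nat_lit 330) (nat_lit 3402) (.f (nat_lit 362) (nat_lit 334) (nat_lit 2378) (.d (nat_lit 394) (nat_lit 393) (nat_lit 1385) (nat_lit 395) (nat_lit 1386)))))))))) (.f (nat_lit 368) (nat_lit 332) (nat_lit 3404) (.f (nat_lit 369) (nat_lit 334) (nat_lit 3405) (.d (nat_lit 337) (nat_lit 336) (nat_lit 2381) (nat_lit 338) (nat_lit 2382)))))))) (.a (.p (nat_lit 366) (.a (.f (nat_lit 368) (nat_lit 332) (nat_lit 3404) (.d (nat_lit 397) (nat_lit 396) (nat_lit 1388) (nat_lit 429) (nat_lit 4429))) (.a (.f (nat_lit 397) (nat_lit 429) (nat_lit 4429) (.f (nat_lit 396) (nat_lit 368) (nat_lit 1388) (.d (nat_lit 395) (nat_lit 364) (nat_lit 1387) (nat_lit 394) (nat_lit 2410)))) (.a (.p (nat_lit 364) (.a (.f (nat_lit 397) (nat_lit 429) (nat_lit 4429) (.f (nat_lit 396) (nat_lit 395) (nat_lit 1387) (.d (nat_lit 428) (nat_lit 301) (nat_lit 5420) (nat_lit 460) (nat_lit 6476)))) (.a (.f (nat_lit 332) (nat_lit 331) (nat_lit 3403) (.f (nat_lit 395) (nat_lit 396) (nat_lit 1387) (.f (nat_lit 363) (nat_lit 394) (nat_lit 1386) (.d (nat_lit 362) (nat_lit 334) (nat_lit 2378) (nat_lit 361) (nat_lit 2377))))) (.a (.f (nat_lit 331) (nat_lit 332) (nat_lit 3403) (.f (nat_lit 363) (nat_lit 330) (nat_lit 3402) (.f (nat_lit 397) (nat_lit 429) (nat_lit 4429) (.f (nat_lit 362) (nat_lit 334) (nat_lit 2378) (.f (nat_lit 396) (nat_lit 361) (nat_lit 361) (.d (nat_lit 428) (nat_lit 301) (nat_lit 5420) (nat_lit 460) (nat_lit 6476))))))) (.f (nat_lit 331) (nat_lit 332) (nat_lit 3403) (.f (nat_lit 363) (nat_lit 330) (nat_lit 3402) (.f (nat_lit 362) (nat_lit 334) (nat_lit 2378) (.d (nat_lit 394) (nat_lit 393) (nat_lit 1385) (nat_lit 395) (nat_lit 1386))))))))) (.f (nat_lit 368) (nat_lit 332) (nat_lit 3404) (.f (nat_lit 369) (nat_lit 334) (nat_lit 3405) (.d (nat_lit 337) (nat_lit 336) (nat_lit 2381) (nat_lit 338) (nat_lit 2382)))))))) (.a (.p (nat_lit 331) (.a (.p (nat_lit 366) (.a (.d (nat_lit 332) (nat_lit 364) (nat_lit 3403) (nat_lit 368) (nat_lit 3404)) (.a (.f (nat_lit 397) (nat_lit 429) (nat_lit 4429) (.f (nat_lit 368) (nat_lit 396) (nat_lit 1388) (.f (nat_lit 369) (nat_lit 334) (nat_lit 3405) (.d (nat_lit 337) (nat_lit 336) (nat_lit 2381) (nat_lit 338) (nat_lit 2382))))) (.d (nat_lit 332) (nat_lit 330) (nat_lit 330) (nat_lit 364) (nat_lit 3403))))) (.a (.p (nat_lit 366) (.a (.d (nat_lit 332) (nat_lit 364) (nat_lit 3403) (nat_lit 368) (nat_lit 3404)) (.a (.f (nat_lit 397) (nat_lit 429) (nat_lit 4429) (.f (nat_lit 368) (nat_lit 396) (nat_lit 1388) (.f (nat_lit 369) (nat_lit 334) (nat_lit 3405) (.d (nat_lit 337) (nat_lit 336) (nat_lit 2381) (nat_lit 338) (nat_lit 2382))))) (.d (nat_lit 332) (nat_lit 334) (nat_lit 331) (nat_lit 364) (nat_lit 3403))))) (.a (.p (nat_lit 363) (.a (.p (nat_lit 364) (.a (.f (nat_lit 366) (nat_lit 330) (nat_lit 3402) (.d (nat_lit 395) (nat_lit 394) (nat_lit 1386) (nat_lit 396) (nat_lit 1387))) (.a (.f (nat_lit 362) (nat_lit 334) (nat_lit 2378) (.f (nat_lit 394) (nat_lit 393) (nat_lit 1385) (.f (nat_lit 395) (nat_lit 366) (nat_lit 1386) (.d (nat_lit 299) (nat_lit 267) (nat_lit 5386) (nat_lit 426) (nat_lit 5418))))) (.a (.f (nat_lit 362) (nat_lit 334) (nat_lit 2378) (.f (nat_lit 394) (nat_lit 393) (nat_lit 1385) (.f (nat_lit 330) (nat_lit 329) (nat_lit 3401) (.d (nat_lit 299) (nat_lit 267) (nat_lit 5386) (nat_lit 426) (nat_lit 6442))))) (.f (nat_lit 366) (nat_lit 330) (nat_lit 3402) (.f (nat_lit 396) (nat_lit 395) (nat_lit 1387) (.d (nat_lit 397) (nat_lit 368) (nat_lit 1388) (nat_lit 429) (nat_lit 4429)))))))) (.a (.p (nat_lit 364) (.a (.f (nat_lit 366) (nat_lit 330) (nat_lit 3402) (.d (nat_lit 395) (nat_lit 394) (nat_lit 1386) (nat_lit 396) (nat_lit 1387))) (.a (.f (nat_lit 362) (nat_lit 334) (nat_lit 2378) (.f (nat_lit 394) (nat_lit 393) (nat_lit 1385) (.f (nat_lit 395) (nat_lit 366) (nat_lit 1386) (.d (nat_lit 426) (nat_lit 299) (nat_lit 5418) (nat_lit 458) (nat_lit 6474))))) (.a (.f (nat_lit 362) (nat_lit 334) (nat_lit 2378) (.f (nat_lit 330) (nat_lit 329) (nat_lit 3401) (.f (nat_lit 394) (nat_lit 393) (nat_lit 1385) (.d (nat_lit 426) (nat_lit 299) (nat_lit 6442) (nat_lit 458) (nat_lit 6474))))) (.f (nat_lit 366) (nat_lit 330) (nat_lit 3402) (.f (nat_lit 396) (nat_lit 395) (nat_lit 1387) (.d (nat_lit 397) (nat_lit 368) (nat_lit 1388) (nat_lit 429) (nat_lit 4429)))))))) (.a (.p (nat_lit 364) (.a (.f (nat_lit 366) (nat_lit 330) (nat_lit 3402) (.d (nat_lit 395) (nat_lit 394) (nat_lit 1386) (nat_lit 396) (nat_lit 1387))) (.a (.f (nat_lit 362) (nat_lit 334) (nat_lit 2378) (.f (nat_lit 394) (nat_lit 393) (nat_lit 1385) (.f (nat_lit 395) (nat_lit 366) (nat_lit 1386) (.f (nat_lit 397) (nat_lit 429) (nat_lit 4429) (.f (nat_lit 396) (nat_lit 361) (nat_lit 3433) (.d (nat_lit 426) (nat_lit 425) (nat_lit 1417) (nat_lit 458) (nat_lit 6474))))))) (.a (.f (nat_lit 362) (nat_lit 334) (nat_lit 2378) (.f (nat_lit 330) (nat_lit 329) (nat_lit 3401) (.f (nat_lit 394) (nat_lit 393) (nat_lit 1385) (.f (nat_lit 426) (nat_lit 458) (nat_lit 6474) (.f (nat_lit 427) (nat_lit 459) (nat_lit 4426) (.f (nat_lit 395) (nat_lit 298) (nat_lit 4394) (.d (nat_lit 429) (nat_lit 397) (nat_lit 4429) (nat_lit 428) (nat_lit 3466)))))))) (.a (.f (nat_lit 366) (nat_lit 330) (nat_lit 3402) (.f (nat_lit 396) (nat_lit 395) (nat_lit 1387) (.d (nat_lit 397) (nat_lit 368) (nat_lit 1388) (nat_lit 429) (nat_lit 4429)))) (.f (nat_lit 362) (nat_lit 334) (nat_lit 2378) (.d (nat_lit 330) (nat_lit 329) (nat_lit 3401) (nat_lit 366) (nat_lit 3402)))))))) (.a (.p (nat_lit 364) (.a (.f (nat_lit 366) (nat_lit 330) (nat_lit 3402) (.d (nat_lit 395) (nat_lit 394) (nat_lit 1386) (nat_lit 396) (nat_lit 1387))) (.a (.f (nat_lit 362) (nat_lit 334) (nat_lit 2378) (.f (nat_lit 394) (nat_lit 393) (nat_lit 1385) (.f (nat_lit 395) (nat_lit 366) (nat_lit 1386) (.d (nat_lit 299) (nat_lit 267) (nat_lit 5386) (nat_lit 426) (nat_lit 5418))))) (.a (.f (nat_lit 362) (nat_lit 334) (nat_lit 2378) (.f (nat_lit 394) (nat_lit 393) (nat_lit 1385) (.f (nat_lit 299) (nat_lit 267) (nat_lit 5386) (.d (nat_lit 426) (nat_lit 330) (nat_lit 6442) (nat_lit 458) (nat_lit 6474))))) (.f (nat_lit 366) (nat_lit 330) (nat_lit 3402) (.f (nat_lit 396) (nat_lit 395) (nat_lit 1387) (.d (nat_lit 397) (nat_lit 368) (nat_lit 1388) (nat_lit 429) (nat_lit 4429)))))))) (.a (.p (nat_lit 364) (.a (.f (nat_lit 362) (nat_lit 334) (nat_lit 2378) (.f (nat_lit 394) (nat_lit 393) (nat_lit 1385) (.f (nat_lit 395) (nat_lit 366) (nat_lit 1386) (.d (nat_lit 299) (nat_lit 267) (nat_lit 5386) (nat_lit 426) (nat_lit 5418))))) (.a (.f (nat_lit 362) (nat_lit 334) (nat_lit 2378) (.f (nat_lit 394) (nat_lit 393) (nat_lit 1385) (.f (nat_lit 395) (nat_lit 366) (nat_lit 1386) (.d (nat_lit 426) (nat_lit 299) (nat_lit 5418) (nat_lit 458) (nat_lit 6474))))) (.a (.f (nat_lit 362) (nat_lit 334) (nat_lit 2378) (.f (nat_lit 394) (nat_lit 393) (nat_lit 1385) (.f (nat_lit 395) (nat_lit 366) (nat_lit 1386) (.f (nat_lit 397) (nat_lit 429) (nat_lit 4429) (.f (nat_lit 396) (nat_lit 361) (nat_lit 3433) (.d (nat_lit 426) (nat_lit 425) (nat_lit 1417) (nat_lit 458) (nat_lit 6474))))))) (.a (.p (nat_lit 366) (.a (.d (nat_lit 395) (nat_lit 394) (nat_lit 1386) (nat_lit 396) (nat_lit 1387)) (.a (.f (nat_lit 396) (nat_lit 395) (nat_lit 1387) (.d (nat_lit 397) (nat_lit 368) (nat_lit 1388) (nat_lit 429) (nat_lit 4429))) (.a (.f (nat_lit 397) (nat_lit 429) (nat_lit 4429) (.f (nat_lit 368) (nat_lit 396) (nat_lit 1388) (.d (nat_lit 400) (nat_lit 399) (nat_lit 364) (nat_lit 401) (nat_lit 365)))) (.f (nat_lit 400) (nat_lit 399) (nat_lit 364) (.f (nat_lit 368) (nat_lit 401) (nat_lit 365) (.f (nat_lit 337) (nat_lit 336) (nat_lit 2381) (.d (nat_lit 369) (nat_lit 338) (nat_lit 2382) (nat_lit 432) (nat_lit 6480))))))))) (.a (.f (nat_lit 362) (nat_lit 334) (nat_lit 2378) (.f (nat_lit 394) (nat_lit 393) (nat_lit 1385) (.f (nat_lit 299) (nat_lit 267) (nat_lit 5386) (.d (nat_lit 426) (nat_lit 395) (nat_lit 5418) (nat_lit 458) (nat_lit 6474))))) (.a (.f (nat_lit 397) (nat_lit 429) (nat_lit 4429) (.f (nat_lit 362) (nat_lit 334) (nat_lit 2378) (.f (nat_lit 396) (nat_lit 361) (nat_lit 361) (.d (nat_lit 366) (nat_lit 368) (nat_lit 1388) (nat_lit 395) (nat_lit 1387))))) (.f (nat_lit 362) (nat_lit 334) (nat_lit 2378) (.f (nat_lit 397) (nat_lit 429) (nat_lit 4429) (.f (nat_lit 361) (nat_lit 396) (nat_lit 361) (.d (nat_lit 393) (nat_lit 392) (nat_lit 1384) (nat_lit 394) (nat_lit 1385)))))))))))) (.a (.p (nat_lit 366) (.a (.f (nat_lit 364) (nat_lit 330) (nat_lit 3402) (.d (nat_lit 395) (nat_lit 394) (nat_lit 1386) (nat_lit 396) (nat_lit 1387))) (.a (.f (nat_lit 397) (nat_lit 429) (nat_lit 4429) (.f (nat_lit 396) (nat_lit 368) (nat_lit 1388) (.d (nat_lit 395) (nat_lit 364) (nat_lit 1387) (nat_lit 394) (nat_lit 2410)))) (.a (.f (nat_lit 397) (nat_lit 429) (nat_lit 4429) (.f (nat_lit 368) (nat_lit 396) (nat_lit 1388) (.f (nat_lit 401) (nat_lit 400) (nat_lit 365) (.f (nat_lit 369) (nat_lit 402) (nat_lit 366) (.d (nat_lit 337) (nat_lit 336) (nat_lit 2381) (nat_lit 338) (nat_lit 2382)))))) (.f (nat_lit 364) (nat_lit 330) (nat_lit 3402) (.f (nat_lit 400) (nat_lit 399) (nat_lit 364) (.f (nat_lit 368) (nat_lit 401) (nat_lit 365) (.f (nat_lit 337) (nat_lit 336) (nat_lit 2381) (.d (nat_lit 369) (nat_lit 338) (nat_lit 2382) (nat_lit 432) (nat_lit 6480)))))))))) (.a (.p (nat_lit 395) (.a (.p (nat_lit 299) (.a (.f (nat_lit 394) (nat_lit 426) (nat_lit 5418) (.f (nat_lit 396) (nat_lit 428) (nat_lit 4395) (.d (nat_lit 397) (nat_lit 366) (nat_lit 2410) (nat_lit 429) (nat_lit 4429)))) (.a (.f (nat_lit 394) (nat_lit 426) (nat_lit 5418) (.f (nat_lit 429) (nat_lit 397) (nat_lit 4429) (.d (nat_lit 428) (nat_lit 396) (nat_lit 4395) (nat_lit 427) (nat_lit 3466)))) (.a (.f (nat_lit 428) (nat_lit 396) (nat_lit 4395) (.f (nat_lit 427) (nat_lit 460) (nat_lit 4427) (.d (nat_lit 298) (nat_lit 266) (nat_lit 7434) (nat_lit 330) (nat_lit 7466)))) (.f (nat_lit 394) (nat_lit 426) (nat_lit 5418) (.f (nat_lit 267) (nat_lit 362) (nat_lit 5386) (.d (nat_lit 268) (nat_lit 236) (nat_lit 6379) (nat_lit 300) (nat_lit 6411)))))))) (.a (.p (nat_lit 299) (.a (.f (nat_lit 394) (nat_lit 426) (nat_lit 5418) (.f (nat_lit 396) (nat_lit 428) (nat_lit 4395) (.d (nat_lit 397) (nat_lit 366) (nat_lit 2410) (nat_lit 429) (nat_lit 4429)))) (.a (.f (nat_lit 394) (nat_lit 426) (nat_lit 5418) (.f (nat_lit 429) (nat_lit 397) (nat_lit 4429) (.d (nat_lit 428) (nat_lit 396) (nat_lit 4395) (nat_lit 427) (nat_lit 3466)))) (.a (.f (nat_lit 428) (nat_lit 396) (nat_lit 4395) (.f (nat_lit 427) (nat_lit 460) (nat_lit 4427) (.d (nat_lit 298) (nat_lit 266) (nat_lit 7434) (nat_lit 330) (nat_lit 7466)))) (.a (.f (nat_lit 394) (nat_lit 426) (nat_lit 5418) (.f (nat_lit 362) (nat_lit 267) (nat_lit 5386) (.f (nat_lit 298) (nat_lit 266) (nat_lit 7434) (.f (nat_lit 427) (nat_lit 330) (nat_lit 4394) (.d (nat_lit 429) (nat_lit 397) (nat_lit 4429) (nat_lit 428) (nat_lit 3466)))))) (.f (nat_lit 394) (nat_lit 426) (nat_lit 5418) (.f (nat_lit 397) (nat_lit 429) (nat_lit 4429) (.f (nat_lit 362) (nat_lit 267) (nat_lit 5386) (.d (nat_lit 396) (nat_lit 361) (nat_lit 3433) (nat_lit 366) (nat_lit 2410)))))))))) (.a (.p (nat_lit 427) (.a (.f (nat_lit 428) (nat_lit 460) (nat_lit 4427) (.d (nat_lit 429) (nat_lit 394) (nat_lit 3466) (nat_lit 397) (nat_lit 4429))) (.a (.f (nat_lit 428) (nat_lit 460) (nat_lit 4427) (.f (nat_lit 429) (nat_lit 397) (nat_lit 4429) (.d (nat_lit 396) (nat_lit 299) (nat_lit 4395) (nat_lit 431) (nat_lit 3467)))) (.a (.f (nat_lit 428) (nat_lit 460) (nat_lit 4427) (.f (nat_lit 394) (nat_lit 429) (nat_lit 3466) (.d (nat_lit 299) (nat_lit 396) (nat_lit 4395) (nat_lit 426) (nat_lit 5418)))) (.a (.f (nat_lit 426) (nat_lit 458) (nat_lit 5450) (.f (nat_lit 394) (nat_lit 299) (nat_lit 5418) (.f (nat_lit 397) (nat_lit 429) (nat_lit 4429) (.d (nat_lit 396) (nat_lit 366) (nat_lit 2410) (nat_lit 425) (nat_lit 1417))))) (.f (nat_lit 426) (nat_lit 458) (nat_lit 5450) (.f (nat_lit 394) (nat_lit 299) (nat_lit 5418) (.f (nat_lit 330) (nat_lit 298) (nat_lit 7466) (.f (nat_lit 362) (nat_lit 459) (nat_lit 4426) (.f (nat_lit 425) (nat_lit 457) (nat_lit 5449) (.d (nat_lit 396) (nat_lit 397) (nat_lit 1417) (nat_lit 424) (nat_lit 2440)))))))))))) (.a (.p (nat_lit 299) (.a (.f (nat_lit 394) (nat_lit 426) (nat_lit 5418) (.f (nat_lit 396) (nat_lit 428) (nat_lit 4395) (.d (nat_lit 397) (nat_lit 366) (nat_lit 2410) (nat_lit 429) (nat_lit 4429)))) (.a (.f (nat_lit 394) (nat_lit 426) (nat_lit 5418) (.f (nat_lit 429) (nat_lit 397) (nat_lit 4429) (.d (nat_lit 428) (nat_lit 396) (nat_lit 4395) (nat_lit 427) (nat_lit 3466)))) (.a (.f (nat_lit 428) (nat_lit 396) (nat_lit 4395) (.f (nat_lit 429) (nat_lit 397) (nat_lit 4429) (.f (nat_lit 427) (nat_lit 460) (nat_lit 4427) (.d (nat_lit 458) (nat_lit 426) (nat_lit 5450) (nat_lit 459) (nat_lit 1450))))) (.a (.f (nat_lit 394) (nat_lit 426) (nat_lit 5418) (.f (nat_lit 267) (nat_lit 362) (nat_lit 5386) (.d (nat_lit 268) (nat_lit 236) (nat_lit 6379) (nat_lit 300) (nat_lit 6411)))) (.f (nat_lit 429) (nat_lit 397) (nat_lit 4429) (.f (nat_lit 428) (nat_lit 396) (nat_lit 4395) (.d (nat_lit 427) (nat_lit 394) (nat_lit 3466) (nat_lit 460) (nat_lit 4427))))))))) (.a (.p (nat_lit 427) (.a (.f (nat_lit 428) (nat_lit 460) (nat_lit 4427) (.d (nat_lit 429) (nat_lit 394) (nat_lit 3466) (nat_lit 397) (nat_lit 4429))) (.a (.f (nat_lit 460) (nat_lit 428) (nat_lit 4427) (.f (nat_lit 459) (nat_lit 492) (nat_lit 4459) (.d (nat_lit 458) (nat_lit 426) (nat_lit 5450) (nat_lit 490) (nat_lit 5482)))) (.f (nat_lit 458) (nat_lit 426) (nat_lit 5450) (.f (nat_lit 459) (nat_lit 490) (nat_lit 5482) (.d (nat_lit 330) (nat_lit 298) (nat_lit 7466) (nat_lit 362) (nat_lit 7498))))))) (.a (.p (nat_lit 299) (.a (.f (nat_lit 394) (nat_lit 426) (nat_lit 5418) (.f (nat_lit 396) (nat_lit 428) (nat_lit 4395) (.d (nat_lit 397) (nat_lit 366) (nat_lit 2410) (nat_lit 429) (nat_lit 4429)))) (.a (.f (nat_lit 394) (nat_lit 426) (nat_lit 5418) (.f (nat_lit 429) (nat_lit 397) (nat_lit 4429) (.d (nat_lit 428) (nat_lit 396) (nat_lit 4395) (nat_lit 427) (nat_lit 3466)))) (.a (.f (nat_lit 428) (nat_lit 396) (nat_lit 4395) (.f (nat_lit 427) (nat_lit 460) (nat_lit 4427) (.d (nat_lit 298) (nat_lit 266) (nat_lit 7434) (nat_lit 330) (nat_lit 7466)))) (.f (nat_lit 298) (nat_lit 266) (nat_lit 7434) (.f (nat_lit 427) (nat_lit 330) (nat_lit 7466) (.d (nat_lit 426) (nat_lit 394) (nat_lit 5418) (nat_lit 458) (nat_lit 5450)))))))) (.a (.p (nat_lit 427) (.a (.f (nat_lit 428) (nat_lit 460) (nat_lit 4427) (.f (nat_lit 429) (nat_lit 397) (nat_lit 4429) (.d (nat_lit 396) (nat_lit 299) (nat_lit 4395) (nat_lit 431) (nat_lit 3467)))) (.a (.f (nat_lit 460) (nat_lit 428) (nat_lit 4427) (.f (nat_lit 459) (nat_lit 492) (nat_lit 4459) (.d (nat_lit 458) (nat_lit 426) (nat_lit 5450) (nat_lit 490) (nat_lit 5482)))) (.f (nat_lit 458) (nat_lit 426) (nat_lit 5450) (.f (nat_lit 459) (nat_lit 490) (nat_lit 5482) (.d (nat_lit 330) (nat_lit 298) (nat_lit 7466) (nat_lit 362) (nat_lit 7498))))))) (.a (.p (nat_lit 299) (.a (.f (nat_lit 428) (nat_lit 396) (nat_lit 4395) (.f (nat_lit 427) (nat_lit 460) (nat_lit 4427) (.d (nat_lit 298) (nat_lit 266) (nat_lit 7434) (nat_lit 330) (nat_lit 7466)))) (.f (nat_lit 394) (nat_lit 426) (nat_lit 5418) (.f (nat_lit 267) (nat_lit 362) (nat_lit 5386) (.d (nat_lit 268) (nat_lit 236) (nat_lit 6379) (nat_lit 300) (nat_lit 6411)))))) (.a (.p (nat_lit 299) (.a (.f (nat_lit 428) (nat_lit 396) (nat_lit 4395) (.f (nat_lit 427) (nat_lit 460) (nat_lit 4427) (.d (nat_lit 298) (nat_lit 266) (nat_lit 7434) (nat_lit 330) (nat_lit 7466)))) (.a (.f (nat_lit 429) (nat_lit 397) (nat_lit 4429) (.f (nat_lit 428) (nat_lit 396) (nat_lit 4395) (.d (nat_lit 427) (nat_lit 394) (nat_lit 3466) (nat_lit 460) (nat_lit 4427)))) (.a (.f (nat_lit 298) (nat_lit 266) (nat_lit 7434) (.f (nat_lit 427) (nat_lit 330) (nat_lit 7466) (.f (nat_lit 429) (nat_lit 397) (nat_lit 4429) (.d (nat_lit 428) (nat_lit 394) (nat_lit 3466) (nat_lit 460) (nat_lit 4427))))) (.a (.f (nat_lit 397) (nat_lit 429) (nat_lit 4429) (.f (nat_lit 396) (nat_lit 428) (nat_lit 4395) (.d (nat_lit 366) (nat_lit 368) (nat_lit 1388) (nat_lit 394) (nat_lit 2410)))) (.f (nat_lit 298) (nat_lit 266) (nat_lit 7434) (.f (nat_lit 330) (nat_lit 427) (nat_lit 7466) (.f (nat_lit 268) (nat_lit 300) (nat_lit 6411) (.f (nat_lit 267) (nat_lit 236) (nat_lit 6379) (.d (nat_lit 235) (nat_lit 203) (nat_lit 5322) (nat_lit 362) (nat_lit 5354))))))))))) (.a (.p (nat_lit 299) (.a (.f (nat_lit 394) (nat_lit 426) (nat_lit 5418) (.f (nat_lit 396) (nat_lit 428) (nat_lit 4395) (.d (nat_lit 397) (nat_lit 366) (nat_lit 2410) (nat_lit 429) (nat_lit 4429)))) (.a (.f (nat_lit 394) (nat_lit 426) (nat_lit 5418) (.f (nat_lit 267) (nat_lit 362) (nat_lit 5386) (.d (nat_lit 268) (nat_lit 236) (nat_lit 6379) (nat_lit 300) (nat_lit 6411)))) (.f (nat_lit 266) (nat_lit 298) (nat_lit 7434) (.f (nat_lit 267) (nat_lit 234) (nat_lit 7402) (.d (nat_lit 268) (nat_lit 236) (nat_lit 6379) (nat_lit 300) (nat_lit 6411))))))) (.p (nat_lit 299) (.a (.f (nat_lit 394) (nat_lit 426) (nat_lit 5418) (.f (nat_lit 267) (nat_lit 362) (nat_lit 5386) (.d (nat_lit 268) (nat_lit 236) (nat_lit 6379) (nat_lit 300) (nat_lit 6411)))) (.a (.f (nat_lit 394) (nat_lit 426) (nat_lit 5418) (.f (nat_lit 397) (nat_lit 429) (nat_lit 4429) (.f (nat_lit 362) (nat_lit 267) (nat_lit 5386) (.d (nat_lit 396) (nat_lit 361) (nat_lit 3433) (nat_lit 366) (nat_lit 2410))))) (.a (.f (nat_lit 298) (nat_lit 266) (nat_lit 7434) (.f (nat_lit 427) (nat_lit 330) (nat_lit 7466) (.d (nat_lit 426) (nat_lit 394) (nat_lit 5418) (nat_lit 458) (nat_lit 5450)))) (.f (nat_lit 298) (nat_lit 266) (nat_lit 7434) (.f (nat_lit 330) (nat_lit 427) (nat_lit 7466) (.f (nat_lit 268) (nat_lit 300) (nat_lit 6411) (.f (nat_lit 267) (nat_lit 236) (nat_lit 6379) (.d (nat_lit 235) (nat_lit 203) (nat_lit 5322) (nat_lit 362) (nat_lit 5354))))))))))))))))))))) (.a s73900 (.a (.p (nat_lit 364) (.a (.f (nat_lit 366) (nat_lit 330) (nat_lit 3402) (.f (nat_lit 396) (nat_lit 395) (nat_lit 1387) (.d (nat_lit 397) (nat_lit 368) (nat_lit 1388) (nat_lit 429) (nat_lit 4429)))) (.a (.f (nat_lit 397) (nat_lit 429) (nat_lit 4429) (.f (nat_lit 362) (nat_lit 334) (nat_lit 2378) (.f (nat_lit 396) (nat_lit 361) (nat_lit 361) (.d (nat_lit 366) (nat_lit 368) (nat_lit 1388) (nat_lit 395) (nat_lit 1387))))) (.a (.f (nat_lit 362) (nat_lit 334) (nat_lit 2378) (.f (nat_lit 397) (nat_lit 429) (nat_lit 4429) (.f (nat_lit 396) (nat_lit 361) (nat_lit 361) (.f (nat_lit 428) (nat_lit 460) (nat_lit 6476) (.d (nat_lit 299) (nat_lit 267) (nat_lit 4363) (nat_lit 395) (nat_lit 4395)))))) (.f (nat_lit 362) (nat_lit 334) (nat_lit 2378) (.d (nat_lit 330) (nat_lit 329) (nat_lit 3401) (nat_lit 366) (nat_lit 3402))))))) (.a (.p (nat_lit 364) (.a (.f (nat_lit 362) (nat_lit 334) (nat_lit 2378) (.f (nat_lit 394) (nat_lit 393) (nat_lit 1385) (.f (nat_lit 330) (nat_lit 329) (nat_lit 3401) (.d (nat_lit 299) (nat_lit 267) (nat_lit 5386) (nat_lit 426) (nat_lit 6442))))) (.a (.f (nat_lit 362) (nat_lit 334) (nat_lit 2378) (.f (nat_lit 330) (nat_lit 329) (nat_lit 3401) (.f (nat_lit 394) (nat_lit 393) (nat_lit 1385) (.d (nat_lit 426) (nat_lit 299) (nat_lit 6442) (nat_lit 458) (nat_lit 6474))))) (.a (.f (nat_lit 362) (nat_lit 334) (nat_lit 2378) (.d (nat_lit 330) (nat_lit 329) (nat_lit 3401) (nat_lit 366) (nat_lit 3402))) (.a (.f (nat_lit 362) (nat_lit 334) (nat_lit 2378) (.f (nat_lit 394) (nat_lit 393) (nat_lit 1385) (.f (nat_lit 299) (nat_lit 267) (nat_lit 5386) (.d (nat_lit 426) (nat_lit 330) (nat_lit 6442) (nat_lit 458) (nat_lit 6474))))) (.a (.f (nat_lit 362) (nat_lit 334) (nat_lit 2378) (.f (nat_lit 397) (nat_lit 429) (nat_lit 4429) (.f (nat_lit 361) (nat_lit 396) (nat_lit 361) (.d (nat_lit 393) (nat_lit 392) (nat_lit 1384) (nat_lit 394) (nat_lit 1385))))) (.a (.f (nat_lit 330) (nat_lit 366) (nat_lit 3402) (.d (nat_lit 329) (nat_lit 328) (nat_lit 328) (nat_lit 362) (nat_lit 3401))) (.f (nat_lit 366) (nat_lit 330) (nat_lit 3402) (.f (nat_lit 397) (nat_lit 429) (nat_lit 4429) (.f (nat_lit 368) (nat_lit 396) (nat_lit 1388) (.d (nat_lit 400) (nat_lit 399) (nat_lit 364) (nat_lit 401) (nat_lit 365)))))))))))) (.a (.p (nat_lit 364) (.a (.f (nat_lit 362) (nat_lit 334) (nat_lit 2378) (.f (nat_lit 394) (nat_lit 393) (nat_lit 1385) (.f (nat_lit 395) (nat_lit 366) (nat_lit 1386) (.d (nat_lit 299) (nat_lit 267) (nat_lit 5386) (nat_lit 426) (nat_lit 5418))))) (.a (.f (nat_lit 362) (nat_lit 334) (nat_lit 2378) (.f (nat_lit 394) (nat_lit 393) (nat_lit 1385) (.f (nat_lit 395) (nat_lit 366) (nat_lit 1386) (.d (nat_lit 426) (nat_lit 299) (nat_lit 5418) (nat_lit 458) (nat_lit 6474))))) (.a (.f (nat_lit 362) (nat_lit 334) (nat_lit 2378) (.f (nat_lit 330) (nat_lit 329) (nat_lit 3401) (.f (nat_lit 394) (nat_lit 393) (nat_lit 1385) (.f (nat_lit 426) (nat_lit 458) (nat_lit 6474) (.f (nat_lit 427) (nat_lit 459) (nat_lit 4426) (.f (nat_lit 395) (nat_lit 298) (nat_lit 4394) (.d (nat_lit 429) (nat_lit 397) (nat_lit 4429) (nat_lit 428) (nat_lit 3466)))))))) (.a (.f (nat_lit 330) (nat_lit 366) (nat_lit 3402) (.d (nat_lit 329) (nat_lit 328) (nat_lit 328) (nat_lit 362) (nat_lit 3401))) (.f (nat_lit 366) (nat_lit 330) (nat_lit 3402) (.f (nat_lit 400) (nat_lit 399) (nat_lit 364) (.f (nat_lit 368) (nat_lit 401) (nat_lit 365) (.f (nat_lit 337) (nat_lit 336) (nat_lit 2381) (.d (nat_lit 369) (nat_lit 334) (nat_lit 3405) (nat_lit 338) (nat_lit 2382))))))))))) (.p (nat_lit 364) (.a (.f (nat_lit 366) (nat_lit 330) (nat_lit 3402) (.d (nat_lit 395) (nat_lit 394) (nat_lit 1386) (nat_lit 396) (nat_lit 1387))) (.a (.f (nat_lit 362) (nat_lit 334) (nat_lit 2378) (.f (nat_lit 394) (nat_lit 393) (nat_lit 1385) (.f (nat_lit 395) (nat_lit 366) (nat_lit 1386) (.d (nat_lit 299) (nat_lit 267) (nat_lit 5386) (nat_lit 426) (nat_lit 5418))))) (.a (.f (nat_lit 362) (nat_lit 334) (nat_lit 2378) (.f (nat_lit 394) (nat_lit 393) (nat_lit 1385) (.f (nat_lit 330) (nat_lit 329) (nat_lit 3401) (.d (nat_lit 299) (nat_lit 267) (nat_lit 5386) (nat_lit 426) (nat_lit 6442))))) (.f (nat_lit 362) (nat_lit 334) (nat_lit 2378) (.d (nat_lit 330) (nat_lit 329) (nat_lit 3401) (nat_lit 366) (nat_lit 3402))))))))))))))))))) (.a (.p (nat_lit 366) (.a (.d (nat_lit 332) (nat_lit 364) (nat_lit 3403) (nat_lit 368) (nat_lit 3404)) (.a (.f (nat_lit 397) (nat_lit 429) (nat_lit 4429) (.f (nat_lit 368) (nat_lit 396) (nat_lit 1388) (.f (nat_lit 400) (nat_lit 401) (nat_lit 365) (.f (nat_lit 337) (nat_lit 336) (nat_lit 2381) (.d (nat_lit 369) (nat_lit 338) (nat_lit 2382) (nat_lit 432) (nat_lit 6480)))))) (.d (nat_lit 332) (nat_lit 330) (nat_lit 330) (nat_lit 364) (nat_lit 3403))))) (.a (.p (nat_lit 366) (.a (.d (nat_lit 332) (nat_lit 364) (nat_lit 3403) (nat_lit 368) (nat_lit 3404)) (.a (.f (nat_lit 397) (nat_lit 429) (nat_lit 4429) (.f (nat_lit 368) (nat_lit 396) (nat_lit 1388) (.f (nat_lit 369) (nat_lit 334) (nat_lit 3405) (.d (nat_lit 401) (nat_lit 400) (nat_lit 365) (nat_lit 402) (nat_lit 366))))) (.d (nat_lit 332) (nat_lit 330) (nat_lit 330) (nat_lit 364) (nat_lit 3403))))) (.a (.p (nat_lit 366) (.a (.f (nat_lit 397) (nat_lit 429) (nat_lit 4429) (.f (nat_lit 368) (nat_lit 396) (nat_lit 1388) (.f (nat_lit 369) (nat_lit 334) (nat_lit 3405) (.d (nat_lit 337) (nat_lit 336) (nat_lit 2381) (nat_lit 338) (nat_lit 2382))))) (.a (.f (nat_lit 397) (nat_lit 429) (nat_lit 4429) (.f (nat_lit 368) (nat_lit 396) (nat_lit 1388) (.f (nat_lit 400) (nat_lit 401) (nat_lit 365) (.f (nat_lit 337) (nat_lit 336) (nat_lit 2381) (.d (nat_lit 369) (nat_lit 338) (nat_lit 2382) (nat_lit 432) (nat_lit 6480)))))) (.a (.f (nat_lit 397) (nat_lit 429) (nat_lit 4429) (.f (nat_lit 368) (nat_lit 396) (nat_lit 1388) (.f (nat_lit 369) (nat_lit 334) (nat_lit 3405) (.d (nat_lit 401) (nat_lit 400) (nat_lit 365) (nat_lit 402) (nat_lit 366))))) (.d (nat_lit 332) (nat_lit 330) (nat_lit 330) (nat_lit 334) (nat_lit 331)))))) (.a (.p (nat_lit 363) (.a s73900 (.a (.p (nat_lit 362) (.a (.d (nat_lit 334) (nat_lit 332) (nat_lit 1354) (nat_lit 364) (nat_lit 2378)) (.a (.f (nat_lit 364) (nat_lit 334) (nat_lit 2378) (.f (nat_lit 394) (nat_lit 393) (nat_lit 1385) (.f (nat_lit 330) (nat_lit 329) (nat_lit 3401) (.d (nat_lit 299) (nat_lit 267) (nat_lit 5386) (nat_lit 426) (nat_lit 6442))))) (.a (.p (nat_lit 330) (.a (.f (nat_lit 364) (nat_lit 329) (nat_lit 3401) (.f (nat_lit 361) (nat_lit 332) (nat_lit 2377) (.d (nat_lit 393) (nat_lit 392) (nat_lit 1384) (nat_lit 394) (nat_lit 1385)))) (.a (.f (nat_lit 361) (nat_lit 332) (nat_lit 1353) (.f (nat_lit 360) (nat_lit 359) (nat_lit 2375) (.f (nat_lit 395) (nat_lit 396) (nat_lit 360) (.d (nat_lit 298) (nat_lit 266) (nat_lit 4362) (nat_lit 427) (nat_lit 7466))))) (.f (nat_lit 364) (nat_lit 329) (nat_lit 3401) (.f (nat_lit 394) (nat_lit 393) (nat_lit 1385) (.d (nat_lit 299) (nat_lit 267) (nat_lit 5386) (nat_lit 426) (nat_lit 6442))))))) (.f (nat_lit 332) (nat_lit 334) (nat_lit 1354) (.d (nat_lit 361) (nat_lit 330) (nat_lit 1353) (nat_lit 360) (nat_lit 2376))))))) (.a (.p (nat_lit 362) (.a (.d (nat_lit 334) (nat_lit 332) (nat_lit 1354) (nat_lit 364) (nat_lit 2378)) (.a (.f (nat_lit 364) (nat_lit 334) (nat_lit 2378) (.f (nat_lit 394) (nat_lit 393) (nat_lit 1385) (.f (nat_lit 330) (nat_lit 329) (nat_lit 3401) (.d (nat_lit 299) (nat_lit 267) (nat_lit 5386) (nat_lit 426) (nat_lit 6442))))) (.a (.p (nat_lit 361) (.a (.d (nat_lit 332) (nat_lit 360) (nat_lit 2376) (nat_lit 364) (nat_lit 2377)) (.a (.f (nat_lit 397) (nat_lit 429) (nat_lit 4429) (.f (nat_lit 364) (nat_lit 396) (nat_lit 361) (.d (nat_lit 393) (nat_lit 392) (nat_lit 1384) (nat_lit 394) (nat_lit 1385)))) (.d (nat_lit 332) (nat_lit 330) (nat_lit 1353) (nat_lit 360) (nat_lit 2376))))) (.f (nat_lit 332) (nat_lit 334) (nat_lit 1354) (.d (nat_lit 361) (nat_lit 330) (nat_lit 1353) (nat_lit 360) (nat_lit 2376))))))) (.a (.p (nat_lit 362) (.a (.d (nat_lit 334) (nat_lit 332) (nat_lit 1354) (nat_lit 364) (nat_lit 2378)) (.a (.f (nat_lit 364) (nat_lit 334) (nat_lit 2378) (.f (nat_lit 330) (nat_lit 329) (nat_lit 3401) (.f (nat_lit 394) (nat_lit 393) (nat_lit 1385) (.d (nat_lit 426) (nat_lit 299) (nat_lit 6442) (nat_lit 458) (nat_lit 6474))))) (.a (.p (nat_lit 361) (.a (.d (nat_lit 332) (nat_lit 360) (nat_lit 2376) (nat_lit 364) (nat_lit 2377)) (.a (.f (nat_lit 397) (nat_lit 429) (nat_lit 4429) (.f (nat_lit 364) (nat_lit 396) (nat_lit 361) (.d (nat_lit 393) (nat_lit 392) (nat_lit 1384) (nat_lit 394) (nat_lit 1385)))) (.d (nat_lit 332) (nat_lit 330) (nat_lit 1353) (nat_lit 360) (nat_lit 2376))))) (.f (nat_lit 332) (nat_lit 334) (nat_lit 1354) (.d (nat_lit 361) (nat_lit 330) (nat_lit 1353) (nat_lit 360) (nat_lit 2376))))))) (.a (.p (nat_lit 362) (.a (.d (nat_lit 334) (nat_lit 332) (nat_lit 1354) (nat_lit 364) (nat_lit 2378)) (.a (.f (nat_lit 364) (nat_lit 334) (nat_lit 2378) (.f (nat_lit 330) (nat_lit 329) (nat_lit 3401) (.f (nat_lit 394) (nat_lit 393) (nat_lit 1385) (.f (nat_lit 426) (nat_lit 458) (nat_lit 6474) (.f (nat_lit 427) (nat_lit 459) (nat_lit 4426) (.f (nat_lit 395) (nat_lit 298) (nat_lit 4394) (.d (nat_lit 429) (nat_lit 397) (nat_lit 4429) (nat_lit 428) (nat_lit 3466)))))))) (.a (.p (nat_lit 361) (.a (.d (nat_lit 332) (nat_lit 360) (nat_lit 2376) (nat_lit 364) (nat_lit 2377)) (.a (.f (nat_lit 397) (nat_lit 429) (nat_lit 4429) (.f (nat_lit 364) (nat_lit 396) (nat_lit 361) (.d (nat_lit 393) (nat_lit 392) (nat_lit 1384) (nat_lit 394) (nat_lit 1385)))) (.d (nat_lit 332) (nat_lit 330) (nat_lit 1353) (nat_lit 360) (nat_lit 2376))))) (.f (nat_lit 332) (nat_lit 334) (nat_lit 1354) (.d (nat_lit 361) (nat_lit 330) (nat_lit 1353) (nat_lit 360) (nat_lit 2376))))))) (.a (.p (nat_lit 299) (.a s73957 (.a s73961 (.a (.p (nat_lit 395) (.a (.f (nat_lit 394) (nat_lit 426) (nat_lit 5418) (.f (nat_lit 429) (nat_lit 397) (nat_lit 4429) (.d (nat_lit 428) (nat_lit 396) (nat_lit 4395) (nat_lit 427) (nat_lit 3466)))) (.a (.f (nat_lit 428) (nat_lit 396) (nat_lit 4395) (.f (nat_lit 429) (nat_lit 397) (nat_lit 4429) (.f (nat_lit 427) (nat_lit 460) (nat_lit 4427) (.d (nat_lit 458) (nat_lit 426) (nat_lit 5450) (nat_lit 459) (nat_lit 1450))))) (.a (.f (nat_lit 300) (nat_lit 268) (nat_lit 6411) (.f (nat_lit 332) (nat_lit 427) (nat_lit 6443) (.d (nat_lit 298) (nat_lit 266) (nat_lit 7434) (nat_lit 334) (nat_lit 3370)))) (.f (nat_lit 394) (nat_lit 426) (nat_lit 5418) (.f (nat_lit 396) (nat_lit 428) (nat_lit 4395) (.f (nat_lit 397) (nat_lit 429) (nat_lit 4429) (.f (nat_lit 362) (nat_lit 361) (nat_lit 3433) (.d (nat_lit 364) (nat_lit 334) (nat_lit 2378) (nat_lit 393) (nat_lit 2409)))))))))) (.a (.p (nat_lit 395) (.a (.f (nat_lit 394) (nat_lit 426) (nat_lit 5418) (.f (nat_lit 429) (nat_lit 397) (nat_lit 4429) (.d (nat_lit 428) (nat_lit 396) (nat_lit 4395) (nat_lit 427) (nat_lit 3466)))) (.a (.f (nat_lit 428) (nat_lit 396) (nat_lit 4395) (.f (nat_lit 429) (nat_lit 397) (nat_lit 4429) (.f (nat_lit 427) (nat_lit 460) (nat_lit 4427) (.d (nat_lit 458) (nat_lit 426) (nat_lit 5450) (nat_lit 459) (nat_lit 1450))))) (.f (nat_lit 266) (nat_lit 298) (nat_lit 7434) (.f (nat_lit 267) (nat_lit 234) (nat_lit 7402) (.d (nat_lit 268) (nat_lit 236) (nat_lit 6379) (nat_lit 300) (nat_lit 6411))))))) (.a (.p (nat_lit 267) (.a (.f (nat_lit 364) (nat_lit 396) (nat_lit 4363) (.f (nat_lit 332) (nat_lit 235) (nat_lit 4331) (.d (nat_lit 334) (nat_lit 298) (nat_lit 3370) (nat_lit 362) (nat_lit 2378)))) (.a (.f (nat_lit 268) (nat_lit 236) (nat_lit 6379) (.f (nat_lit 266) (nat_lit 234) (nat_lit 7402) (.d (nat_lit 395) (nat_lit 298) (nat_lit 7434) (nat_lit 300) (nat_lit 6411)))) (.f (nat_lit 364) (nat_lit 396) (nat_lit 4363) (.f (nat_lit 332) (nat_lit 235) (nat_lit 4331) (.d (nat_lit 362) (nat_lit 334) (nat_lit 2378) (nat_lit 361) (nat_lit 2377))))))) (.a (.p (nat_lit 267) (.a (.f (nat_lit 364) (nat_lit 396) (nat_lit 4363) (.f (nat_lit 332) (nat_lit 235) (nat_lit 4331) (.d (nat_lit 334) (nat_lit 298) (nat_lit 3370) (nat_lit 362) (nat_lit 2378)))) (.a (.f (nat_lit 362) (nat_lit 394) (nat_lit 5386) (.d (nat_lit 364) (nat_lit 334) (nat_lit 2378) (nat_lit 396) (nat_lit 4363))) (.a (.f (nat_lit 364) (nat_lit 396) (nat_lit 4363) (.f (nat_lit 332) (nat_lit 235) (nat_lit 4331) (.d (nat_lit 362) (nat_lit 361) (nat_lit 2377) (nat_lit 394) (nat_lit 5386)))) (.a (.f (nat_lit 364) (nat_lit 396) (nat_lit 4363) (.f (nat_lit 332) (nat_lit 235) (nat_lit 4331) (.f (nat_lit 268) (nat_lit 236) (nat_lit 6379) (.d (nat_lit 397) (nat_lit 300) (nat_lit 4364) (nat_lit 429) (nat_lit 4429))))) (.f (nat_lit 236) (nat_lit 268) (nat_lit 6379) (.f (nat_lit 235) (nat_lit 204) (nat_lit 6347) (.d (nat_lit 234) (nat_lit 202) (nat_lit 7370) (nat_lit 266) (nat_lit 7402))))))))) (.p (nat_lit 267) (.a (.f (nat_lit 268) (nat_lit 236) (nat_lit 6379) (.f (nat_lit 266) (nat_lit 234) (nat_lit 7402) (.d (nat_lit 395) (nat_lit 298) (nat_lit 7434) (nat_lit 300) (nat_lit 6411)))) (.f (nat_lit 362) (nat_lit 394) (nat_lit 5386) (.d (nat_lit 334) (nat_lit 332) (nat_lit 1354) (nat_lit 364) (nat_lit 2378)))))))))))) (.a (.p (nat_lit 395) (.a (.p (nat_lit 427) (.a (.f (nat_lit 428) (nat_lit 460) (nat_lit 4427) (.d (nat_lit 429) (nat_lit 394) (nat_lit 3466) (nat_lit 397) (nat_lit 4429))) (.a (.f (nat_lit 460) (nat_lit 428) (nat_lit 4427) (.f (nat_lit 459) (nat_lit 492) (nat_lit 4459) (.d (nat_lit 458) (nat_lit 426) (nat_lit 5450) (nat_lit 490) (nat_lit 5482)))) (.f (nat_lit 458) (nat_lit 426) (nat_lit 5450) (.f (nat_lit 459) (nat_lit 490) (nat_lit 5482) (.d (nat_lit 330) (nat_lit 298) (nat_lit 7466) (nat_lit 362) (nat_lit 7498))))))) (.a s73887 (.a s73888 (.a (.p (nat_lit 427) (.a (.f (nat_lit 428) (nat_lit 460) (nat_lit 4427) (.f (nat_lit 429) (nat_lit 397) (nat_lit 4429) (.d (nat_lit 396) (nat_lit 299) (nat_lit 4395) (nat_lit 431) (nat_lit 3467)))) (.a (.f (nat_lit 460) (nat_lit 428) (nat_lit 4427) (.f (nat_lit 459) (nat_lit 492) (nat_lit 4459) (.d (nat_lit 458) (nat_lit 426) (nat_lit 5450) (nat_lit 490) (nat_lit 5482)))) (.f (nat_lit 458) (nat_lit 426) (nat_lit 5450) (.f (nat_lit 459) (nat_lit 490) (nat_lit 5482) (.d (nat_lit 330) (nat_lit 298) (nat_lit 7466) (nat_lit 362) (nat_lit 7498))))))) (.a (.p (nat_lit 299) (.a (.f (nat_lit 428) (nat_lit 396) (nat_lit 4395) (.f (nat_lit 427) (nat_lit 460) (nat_lit 4427) (.d (nat_lit 298) (nat_lit 266) (nat_lit 7434) (nat_lit 330) (nat_lit 7466)))) (.f (nat_lit 394) (nat_lit 426) (nat_lit 5418) (.f (nat_lit 267) (nat_lit 362) (nat_lit 5386) (.d (nat_lit 268) (nat_lit 236) (nat_lit 6379) (nat_lit 300) (nat_lit 6411)))))) (.a s73889 (.a (.p (nat_lit 299) (.a (.f (nat_lit 394) (nat_lit 426) (nat_lit 5418) (.f (nat_lit 267) (nat_lit 362) (nat_lit 5386) (.d (nat_lit 268) (nat_lit 236) (nat_lit 6379) (nat_lit 300) (nat_lit 6411)))) (.a (.f (nat_lit 394) (nat_lit 426) (nat_lit 5418) (.f (nat_lit 396) (nat_lit 428) (nat_lit 4395) (.d (nat_lit 267) (nat_lit 362) (nat_lit 5386) (nat_lit 364) (nat_lit 4363)))) (.a (.f (nat_lit 396) (nat_lit 428) (nat_lit 4395) (.f (nat_lit 394) (nat_lit 426) (nat_lit 5418) (.f (nat_lit 397) (nat_lit 429) (nat_lit 4429) (.f (nat_lit 362) (nat_lit 361) (nat_lit 3433) (.f (nat_lit 393) (nat_lit 364) (nat_lit 2409) (.f (nat_lit 298) (nat_lit 266) (nat_lit 7434) (.d (nat_lit 425) (nat_lit 330) (nat_lit 5417) (nat_lit 424) (nat_lit 1416)))))))) (.f (nat_lit 266) (nat_lit 298) (nat_lit 7434) (.f (nat_lit 267) (nat_lit 234) (nat_lit 7402) (.d (nat_lit 268) (nat_lit 236) (nat_lit 6379) (nat_lit 300) (nat_lit 6411)))))))) s73899)))))))) (.a (.p (nat_lit 299) (.a s73957 (.a s73961 (.a (.p (nat_lit 395) (.a (.f (nat_lit 394) (nat_lit 426) (nat_lit 5418) (.f (nat_lit 429) (nat_lit 397) (nat_lit 4429) (.d (nat_lit 428) (nat_lit 396) (nat_lit 4395) (nat_lit 427) (nat_lit 3466)))) (.a (.f (nat_lit 428) (nat_lit 396) (nat_lit 4395) (.f (nat_lit 427) (nat_lit 460) (nat_lit 4427) (.d (nat_lit 298) (nat_lit 266) (nat_lit 7434) (nat_lit 330) (nat_lit 7466)))) (.a (.f (nat_lit 298) (nat_lit 266) (nat_lit 7434) (.f (nat_lit 427) (nat_lit 330) (nat_lit 7466) (.d (nat_lit 426) (nat_lit 394) (nat_lit 5418) (nat_lit 458) (nat_lit 5450)))) (.f (nat_lit 298) (nat_lit 266) (nat_lit 7434) (.f (nat_lit 332) (nat_lit 334) (nat_lit 3370) (.d (nat_lit 297) (nat_lit 296) (nat_lit 296) (nat_lit 330) (nat_lit 3369)))))))) (.a (.p (nat_lit 267) (.a (.f (nat_lit 364) (nat_lit 396) (nat_lit 4363) (.f (nat_lit 332) (nat_lit 235) (nat_lit 4331) (.d (nat_lit 334) (nat_lit 298) (nat_lit 3370) (nat_lit 362) (nat_lit 2378)))) (.a (.f (nat_lit 268) (nat_lit 236) (nat_lit 6379) (.f (nat_lit 266) (nat_lit 234) (nat_lit 7402) (.d (nat_lit 395) (nat_lit 298) (nat_lit 7434) (nat_lit 300) (nat_lit 6411)))) (.f (nat_lit 364) (nat_lit 396) (nat_lit 4363) (.f (nat_lit 332) (nat_lit 235) (nat_lit 4331) (.f (nat_lit 268) (nat_lit 236) (nat_lit 6379) (.d (nat_lit 397) (nat_lit 300) (nat_lit 4364) (nat_lit 429) (nat_lit 4429)))))))) (.a (.p (nat_lit 267) (.a (.f (nat_lit 364) (nat_lit 396) (nat_lit 4363) (.f (nat_lit 332) (nat_lit 235) (nat_lit 4331) (.d (nat_lit 334) (nat_lit 298) (nat_lit 3370) (nat_lit 362) (nat_lit 2378)))) (.a (.f (nat_lit 362) (nat_lit 394) (nat_lit 5386) (.d (nat_lit 364) (nat_lit 334) (nat_lit 2378) (nat_lit 396) (nat_lit 4363))) (.a (.f (nat_lit 364) (nat_lit 396) (nat_lit 4363) (.f (nat_lit 332) (nat_lit 235) (nat_lit 4331) (.f (nat_lit 268) (nat_lit 236) (nat_lit 6379) (.d (nat_lit 397) (nat_lit 300) (nat_lit 4364) (nat_lit 429) (nat_lit 4429))))) (.f (nat_lit 236) (nat_lit 268) (nat_lit 6379) (.f (nat_lit 235) (nat_lit 204) (nat_lit 6347) (.d (nat_lit 234) (nat_lit 202) (nat_lit 7370) (nat_lit 266) (nat_lit 7402)))))))) (.p (nat_lit 267) (.a (.f (nat_lit 268) (nat_lit 236) (nat_lit 6379) (.f (nat_lit 266) (nat_lit 234) (nat_lit 7402) (.d (nat_lit 395) (nat_lit 298) (nat_lit 7434) (nat_lit 300) (nat_lit 6411)))) (.f (nat_lit 362) (nat_lit 394) (nat_lit 5386) (.d (nat_lit 334) (nat_lit 332) (nat_lit 1354) (nat_lit 364) (nat_lit 2378))))))))))) (.a (.p (nat_lit 395) (.a s73888 (.a (.p (nat_lit 427) (.a (.f (nat_lit 428) (nat_lit 460) (nat_lit 4427) (.d (nat_lit 429) (nat_lit 394) (nat_lit 3466) (nat_lit 397) (nat_lit 4429))) (.a (.f (nat_lit 428) (nat_lit 460) (nat_lit 4427) (.f (nat_lit 429) (nat_lit 397) (nat_lit 4429) (.d (nat_lit 396) (nat_lit 299) (nat_lit 4395) (nat_lit 431) (nat_lit 3467)))) (.a (.f (nat_lit 428) (nat_lit 460) (nat_lit 4427) (.f (nat_lit 394) (nat_lit 429) (nat_lit 3466) (.d (nat_lit 299) (nat_lit 396) (nat_lit 4395) (nat_lit 426) (nat_lit 5418)))) (.f (nat_lit 332) (nat_lit 300) (nat_lit 6443) (.f (nat_lit 298) (nat_lit 330) (nat_lit 7466) (.d (nat_lit 299) (nat_lit 266) (nat_lit 7434) (nat_lit 334) (nat_lit 3370)))))))) (.a (.p (nat_lit 427) (.a (.f (nat_lit 428) (nat_lit 460) (nat_lit 4427) (.d (nat_lit 429) (nat_lit 394) (nat_lit 3466) (nat_lit 397) (nat_lit 4429))) (.a (.f (nat_lit 428) (nat_lit 460) (nat_lit 4427) (.f (nat_lit 429) (nat_lit 397) (nat_lit 4429) (.d (nat_lit 396) (nat_lit 299) (nat_lit 4395) (nat_lit 431) (nat_lit 3467)))) (.a (.f (nat_lit 428) (nat_lit 460) (nat_lit 4427) (.f (nat_lit 394) (nat_lit 429) (nat_lit 3466) (.d (nat_lit 299) (nat_lit 396) (nat_lit 4395) (nat_lit 426) (nat_lit 5418)))) (.f (nat_lit 332) (nat_lit 300) (nat_lit 6443) (.f (nat_lit 330) (nat_lit 298) (nat_lit 7466) (.d (nat_lit 364) (nat_lit 329) (nat_lit 329) (nat_lit 459) (nat_lit 6475)))))))) (.a (.p (nat_lit 427) (.a (.f (nat_lit 428) (nat_lit 460) (nat_lit 4427) (.d (nat_lit 429) (nat_lit 394) (nat_lit 3466) (nat_lit 397) (nat_lit 4429))) (.a (.f (nat_lit 428) (nat_lit 460) (nat_lit 4427) (.f (nat_lit 429) (nat_lit 397) (nat_lit 4429) (.d (nat_lit 396) (nat_lit 299) (nat_lit 4395) (nat_lit 431) (nat_lit 3467)))) (.a (.f (nat_lit 428) (nat_lit 460) (nat_lit 4427) (.f (nat_lit 394) (nat_lit 429) (nat_lit 3466) (.d (nat_lit 299) (nat_lit 396) (nat_lit 4395) (nat_lit 426) (nat_lit 5418)))) (.f (nat_lit 332) (nat_lit 300) (nat_lit 6443) (.f (nat_lit 459) (nat_lit 364) (nat_lit 6475) (.d (nat_lit 458) (nat_lit 426) (nat_lit 5450) (nat_lit 490) (nat_lit 5482)))))))) (.a (.p (nat_lit 427) (.a (.f (nat_lit 428) (nat_lit 460) (nat_lit 4427) (.d (nat_lit 429) (nat_lit 394) (nat_lit 3466) (nat_lit 397) (nat_lit 4429))) (.a (.f (nat_lit 460) (nat_lit 428) (nat_lit 4427) (.f (nat_lit 459) (nat_lit 492) (nat_lit 4459) (.d (nat_lit 458) (nat_lit 426) (nat_lit 5450) (nat_lit 490) (nat_lit 5482)))) (.f (nat_lit 332) (nat_lit 300) (nat_lit 6443) (.f (nat_lit 330) (nat_lit 298) (nat_lit 7466) (.d (nat_lit 364) (nat_lit 329) (nat_lit 329) (nat_lit 459) (nat_lit 6475))))))) (.a (.p (nat_lit 427) (.a (.f (nat_lit 428) (nat_lit 460) (nat_lit 4427) (.d (nat_lit 429) (nat_lit 394) (nat_lit 3466) (nat_lit 397) (nat_lit 4429))) (.a (.f (nat_lit 428) (nat_lit 460) (nat_lit 4427) (.f (nat_lit 429) (nat_lit 397) (nat_lit 4429) (.d (nat_lit 396) (nat_lit 299) (nat_lit 4395) (nat_lit 431) (nat_lit 3467)))) (.a (.f (nat_lit 428) (nat_lit 460) (nat_lit 4427) (.f (nat_lit 394) (nat_lit 429) (nat_lit 3466) (.d (nat_lit 299) (nat_lit 396) (nat_lit 4395) (nat_lit 426) (nat_lit 5418)))) (.f (nat_lit 298) (nat_lit 330) (nat_lit 7466) (.f (nat_lit 299) (nat_lit 266) (nat_lit 7434) (.d (nat_lit 426) (nat_lit 394) (nat_lit 5418) (nat_lit 458) (nat_lit 5450)))))))) (.a (.p (nat_lit 427) (.a (.f (nat_lit 428) (nat_lit 460) (nat_lit 4427) (.f (nat_lit 429) (nat_lit 397) (nat_lit 4429) (.d (nat_lit 396) (nat_lit 299) (nat_lit 4395) (nat_lit 431) (nat_lit 3467)))) (.a (.f (nat_lit 460) (nat_lit 428) (nat_lit 4427) (.f (nat_lit 459) (nat_lit 492) (nat_lit 4459) (.d (nat_lit 458) (nat_lit 426) (nat_lit 5450) (nat_lit 490) (nat_lit 5482)))) (.f (nat_lit 332) (nat_lit 300) (nat_lit 6443) (.f (nat_lit 298) (nat_lit 330) (nat_lit 7466) (.d (nat_lit 299) (nat_lit 266) (nat_lit 7434) (nat_lit 334) (nat_lit 3370))))))) (.a (.p (nat_lit 299) (.a (.f (nat_lit 428) (nat_lit 396) (nat_lit 4395) (.f (nat_lit 427) (nat_lit 460) (nat_lit 4427) (.d (nat_lit 298) (nat_lit 266) (nat_lit 7434) (nat_lit 330) (nat_lit 7466)))) (.a (.f (nat_lit 396) (nat_lit 428) (nat_lit 4395) (.f (nat_lit 364) (nat_lit 267) (nat_lit 4363) (.d (nat_lit 394) (nat_lit 393) (nat_lit 2409) (nat_lit 426) (nat_lit 5418)))) (.f (nat_lit 298) (nat_lit 266) (nat_lit 7434) (.f (nat_lit 427) (nat_lit 330) (nat_lit 7466) (.d (nat_lit 426) (nat_lit 394) (nat_lit 5418) (nat_lit 458) (nat_lit 5450))))))) (.a s73889 (.a (.p (nat_lit 299) (.a (.f (nat_lit 266) (nat_lit 298) (nat_lit 7434) (.f (nat_lit 267) (nat_lit 234) (nat_lit 7402) (.d (nat_lit 268) (nat_lit 236) (nat_lit 6379) (nat_lit 300) (nat_lit 6411)))) (.a (.f (nat_lit 298) (nat_lit 266) (nat_lit 7434) (.f (nat_lit 332) (nat_lit 334) (nat_lit 3370) (.d (nat_lit 297) (nat_lit 296) (nat_lit 296) (nat_lit 330) (nat_lit 3369)))) (.f (nat_lit 396) (nat_lit 428) (nat_lit 4395) (.f (nat_lit 364) (nat_lit 267) (nat_lit 4363) (.d (nat_lit 394) (nat_lit 393) (nat_lit 2409) (nat_lit 426) (nat_lit 5418))))))) (.p (nat_lit 299) (.a (.f (nat_lit 298) (nat_lit 266) (nat_lit 7434) (.f (nat_lit 427) (nat_lit 330) (nat_lit 7466) (.d (nat_lit 426) (nat_lit 394) (nat_lit 5418) (nat_lit 458) (nat_lit 5450)))) (.a (.f (nat_lit 300) (nat_lit 268) (nat_lit 6411) (.f (nat_lit 332) (nat_lit 427) (nat_lit 6443) (.d (nat_lit 298) (nat_lit 297) (nat_lit 297) (nat_lit 334) (nat_lit 3370)))) (.a (.f (nat_lit 300) (nat_lit 268) (nat_lit 6411) (.f (nat_lit 427) (nat_lit 332) (nat_lit 6443) (.d (nat_lit 426) (nat_lit 394) (nat_lit 5418) (nat_lit 458) (nat_lit 5450)))) (.f (nat_lit 266) (nat_lit 298) (nat_lit 7434) (.f (nat_lit 267) (nat_lit 234) (nat_lit 7402) (.d (nat_lit 268) (nat_lit 236) (nat_lit 6379) (nat_lit 300) (nat_lit 6411))))))))))))))))))) (.a (.p (nat_lit 395) (.a (.p (nat_lit 427) (.a (.f (nat_lit 428) (nat_lit 460) (nat_lit 4427) (.d (nat_lit 429) (nat_lit 394) (nat_lit 3466) (nat_lit 397) (nat_lit 4429))) (.a (.f (nat_lit 460) (nat_lit 428) (nat_lit 4427) (.f (nat_lit 459) (nat_lit 492) (nat_lit 4459) (.d (nat_lit 458) (nat_lit 426) (nat_lit 5450) (nat_lit 490) (nat_lit 5482)))) (.f (nat_lit 458) (nat_lit 426) (nat_lit 5450) (.f (nat_lit 459) (nat_lit 490) (nat_lit 5482) (.d (nat_lit 330) (nat_lit 298) (nat_lit 7466) (nat_lit 362) (nat_lit 7498))))))) (.a s73887 (.a s73888 (.a (.p (nat_lit 427) (.a (.f (nat_lit 428) (nat_lit 460) (nat_lit 4427) (.f (nat_lit 429) (nat_lit 397) (nat_lit 4429) (.d (nat_lit 396) (nat_lit 299) (nat_lit 4395) (nat_lit 431) (nat_lit 3467)))) (.a (.f (nat_lit 460) (nat_lit 428) (nat_lit 4427) (.f (nat_lit 459) (nat_lit 492) (nat_lit 4459) (.d (nat_lit 458) (nat_lit 426) (nat_lit 5450) (nat_lit 490) (nat_lit 5482)))) (.f (nat_lit 458) (nat_lit 426) (nat_lit 5450) (.f (nat_lit 459) (nat_lit 490) (nat_lit 5482) (.d (nat_lit 330) (nat_lit 298) (nat_lit 7466) (nat_lit 362) (nat_lit 7498))))))) (.a (.p (nat_lit 299) (.a (.f (nat_lit 428) (nat_lit 396) (nat_lit 4395) (.f (nat_lit 427) (nat_lit 460) (nat_lit 4427) (.d (nat_lit 298) (nat_lit 266) (nat_lit 7434) (nat_lit 330) (nat_lit 7466)))) (.f (nat_lit 394) (nat_lit 426) (nat_lit 5418) (.f (nat_lit 267) (nat_lit 362) (nat_lit 5386) (.d (nat_lit 268) (nat_lit 236) (nat_lit 6379) (nat_lit 300) (nat_lit 6411)))))) (.a s73889 (.p (nat_lit 299) (.a (.f (nat_lit 394) (nat_lit 426) (nat_lit 5418) (.f (nat_lit 267) (nat_lit 362) (nat_lit 5386) (.d (nat_lit 268) (nat_lit 236) (nat_lit 6379) (nat_lit 300) (nat_lit 6411)))) (.f (nat_lit 298) (nat_lit 266) (nat_lit 7434) (.f (nat_lit 332) (nat_lit 334) (nat_lit 3370) (.d (nat_lit 297) (nat_lit 296) (nat_lit 296) (nat_lit 330) (nat_lit 3369))))))))))))) (.a (.p (nat_lit 332) (.a (.f (nat_lit 362) (nat_lit 334) (nat_lit 1354) (.d (nat_lit 361) (nat_lit 330) (nat_lit 1353) (nat_lit 360) (nat_lit 2376))) (.a (.f (nat_lit 362) (nat_lit 334) (nat_lit 1354) (.d (nat_lit 361) (nat_lit 360) (nat_lit 2376) (nat_lit 364) (nat_lit 2377))) (.a (.p (nat_lit 330) (.a (.f (nat_lit 364) (nat_lit 329) (nat_lit 329) (.f (nat_lit 362) (nat_lit 361) (nat_lit 2377) (.f (nat_lit 298) (nat_lit 297) (nat_lit 3369) (.d (nat_lit 266) (nat_lit 234) (nat_lit 4330) (nat_lit 395) (nat_lit 4362))))) (.a (.f (nat_lit 364) (nat_lit 329) (nat_lit 329) (.f (nat_lit 362) (nat_lit 361) (nat_lit 2377) (.f (nat_lit 298) (nat_lit 297) (nat_lit 3369) (.d (nat_lit 395) (nat_lit 266) (nat_lit 4362) (nat_lit 427) (nat_lit 7466))))) (.a (.f (nat_lit 329) (nat_lit 364) (nat_lit 329) (.d (nat_lit 297) (nat_lit 296) (nat_lit 3368) (nat_lit 298) (nat_lit 3369))) (.a (.f (nat_lit 362) (nat_lit 361) (nat_lit 1353) (.f (nat_lit 329) (nat_lit 364) (nat_lit 329) (.f (nat_lit 328) (nat_lit 327) (nat_lit 327) (.f (nat_lit 299) (nat_lit 300) (nat_lit 2344) (.f (nat_lit 267) (nat_lit 235) (nat_lit 5354) (.f (nat_lit 266) (nat_lit 234) (nat_lit 7402) (.f (nat_lit 395) (nat_lit 298) (nat_lit 4362) (.f (nat_lit 427) (nat_lit 459) (nat_lit 7498) (.d (nat_lit 428) (nat_lit 396) (nat_lit 4395) (nat_lit 460) (nat_lit 4427)))))))))) (.a (.f (nat_lit 329) (nat_lit 364) (nat_lit 329) (.d (nat_lit 361) (nat_lit 360) (nat_lit 1352) (nat_lit 362) (nat_lit 1353))) (.f (nat_lit 298) (nat_lit 297) (nat_lit 3369) (.f (nat_lit 395) (nat_lit 427) (nat_lit 7466) (.d (nat_lit 266) (nat_lit 234) (nat_lit 4330) (nat_lit 299) (nat_lit 7434)))))))))) (.a (.f (nat_lit 362) (nat_lit 334) (nat_lit 1354) (.d (nat_lit 361) (nat_lit 330) (nat_lit 1353) (nat_lit 364) (nat_lit 2377))) (.a (.p (nat_lit 300) (.a (.f (nat_lit 268) (nat_lit 236) (nat_lit 5355) (.d (nat_lit 397) (nat_lit 364) (nat_lit 4364) (nat_lit 429) (nat_lit 7468))) (.a (.f (nat_lit 397) (nat_lit 429) (nat_lit 7468) (.f (nat_lit 364) (nat_lit 268) (nat_lit 4364) (.f (nat_lit 334) (nat_lit 362) (nat_lit 1354) (.f (nat_lit 299) (nat_lit 298) (nat_lit 3370) (.d (nat_lit 267) (nat_lit 235) (nat_lit 4331) (nat_lit 396) (nat_lit 4363)))))) (.a (.f (nat_lit 334) (nat_lit 362) (nat_lit 1354) (.f (nat_lit 299) (nat_lit 298) (nat_lit 3370) (.f (nat_lit 395) (nat_lit 427) (nat_lit 6443) (.f (nat_lit 396) (nat_lit 428) (nat_lit 4395) (.f (nat_lit 267) (nat_lit 364) (nat_lit 4363) (.f (nat_lit 235) (nat_lit 203) (nat_lit 4299) (.d (nat_lit 234) (nat_lit 202) (nat_lit 7370) (nat_lit 266) (nat_lit 7402)))))))) (.f (nat_lit 268) (nat_lit 236) (nat_lit 5355) (.d (nat_lit 395) (nat_lit 299) (nat_lit 6411) (nat_lit 427) (nat_lit 6443))))))) (.p (nat_lit 330) (.a (.f (nat_lit 329) (nat_lit 364) (nat_lit 329) (.d (nat_lit 297) (nat_lit 296) (nat_lit 3368) (nat_lit 298) (nat_lit 3369))) (.a (.f (nat_lit 298) (nat_lit 297) (nat_lit 3369) (.f (nat_lit 395) (nat_lit 427) (nat_lit 7466) (.d (nat_lit 266) (nat_lit 234) (nat_lit 4330) (nat_lit 299) (nat_lit 7434)))) (.a (.f (nat_lit 329) (nat_lit 364) (nat_lit 329) (.f (nat_lit 360) (nat_lit 361) (nat_lit 1352) (.f (nat_lit 328) (nat_lit 359) (nat_lit 1351) (.f (nat_lit 299) (nat_lit 300) (nat_lit 2344) (.d (nat_lit 298) (nat_lit 327) (nat_lit 2343) (nat_lit 334) (nat_lit 3370)))))) (.f (nat_lit 329) (nat_lit 364) (nat_lit 329) (.f (nat_lit 296) (nat_lit 297) (nat_lit 3368) (.f (nat_lit 328) (nat_lit 295) (nat_lit 3367) (.d (nat_lit 360) (nat_lit 359) (nat_lit 1351) (nat_lit 361) (nat_lit 1352))))))))))))))) (.p (nat_lit 362) (.a (.d (nat_lit 334) (nat_lit 332) (nat_lit 1354) (nat_lit 364) (nat_lit 2378)) (.a (.f (nat_lit 364) (nat_lit 334) (nat_lit 2378) (.f (nat_lit 394) (nat_lit 393) (nat_lit 1385) (.f (nat_lit 330) (nat_lit 329) (nat_lit 3401) (.d (nat_lit 299) (nat_lit 267) (nat_lit 5386) (nat_lit 426) (nat_lit 6442))))) (.a (.p (nat_lit 330) (.a (.f (nat_lit 364) (nat_lit 329) (nat_lit 3401) (.f (nat_lit 361) (nat_lit 332) (nat_lit 2377) (.d (nat_lit 393) (nat_lit 392) (nat_lit 1384) (nat_lit 394) (nat_lit 1385)))) (.a (.f (nat_lit 361) (nat_lit 332) (nat_lit 1353) (.f (nat_lit 360) (nat_lit 359) (nat_lit 2375) (.f (nat_lit 392) (nat_lit 391) (nat_lit 1383) (.f (nat_lit 393) (nat_lit 364) (nat_lit 1384) (.f (nat_lit 298) (nat_lit 266) (nat_lit 5385) (.d (nat_lit 425) (nat_lit 394) (nat_lit 5417) (nat_lit 457) (nat_lit 6473))))))) (.a (.f (nat_lit 364) (nat_lit 329) (nat_lit 3401) (.f (nat_lit 394) (nat_lit 393) (nat_lit 1385) (.d (nat_lit 299) (nat_lit 267) (nat_lit 5386) (nat_lit 426) (nat_lit 6442)))) (.f (nat_lit 332) (nat_lit 361) (nat_lit 1353) (.f (nat_lit 298) (nat_lit 297) (nat_lit 3369) (.d (nat_lit 266) (nat_lit 234) (nat_lit 4330) (nat_lit 395) (nat_lit 4362)))))))) (.f (nat_lit 332) (nat_lit 334) (nat_lit 1354) (.d (nat_lit 361) (nat_lit 330) (nat_lit 1353) (nat_lit 360) (nat_lit 2376))))))))))))))))))) (.p (nat_lit 332) (.a (.d (nat_lit 366) (nat_lit 334) (nat_lit 331) (nat_lit 368) (nat_lit 3404)) (.a (.d (nat_lit 366) (nat_lit 364) (nat_lit 3403) (nat_lit 368) (nat_lit 3404)) (.p (nat_lit 330) (.a (.f (nat_lit 329) (nat_lit 364) (nat_lit 329) (.d (nat_lit 361) (nat_lit 360) (nat_lit 1352) (nat_lit 362) (nat_lit 1353))) (.a (.f (nat_lit 362) (nat_lit 361) (nat_lit 1353) (.f (nat_lit 298) (nat_lit 297) (nat_lit 3369) (.d (nat_lit 334) (nat_lit 299) (nat_lit 3370) (nat_lit 363) (nat_lit 1354)))) (.f (nat_lit 298) (nat_lit 297) (nat_lit 3369) (.f (nat_lit 299) (nat_lit 334) (nat_lit 3370) (.f (nat_lit 329) (nat_lit 364) (nat_lit 329) (.d (nat_lit 328) (nat_lit 300) (nat_lit 2344) (nat_lit 327) (nat_lit 2343))))))))))))))))))) (.a (.f (nat_lit 397) (nat_lit 429) (nat_lit 4429) (.p (nat_lit 301) (.a (.f (nat_lit 270) (nat_lit 302) (nat_lit 6413) (.f (nat_lit 269) (nat_lit 238) (nat_lit 6381) (.d (nat_lit 268) (nat_lit 236) (nat_lit 7404) (nat_lit 300) (nat_lit 7436)))) (.a (.f (nat_lit 270) (nat_lit 302) (nat_lit 6413) (.f (nat_lit 396) (nat_lit 428) (nat_lit 5420) (.f (nat_lit 366) (nat_lit 368) (nat_lit 1388) (.f (nat_lit 269) (nat_lit 238) (nat_lit 6381) (.f (nat_lit 300) (nat_lit 268) (nat_lit 7436) (.f (nat_lit 237) (nat_lit 334) (nat_lit 4333) (.f (nat_lit 205) (nat_lit 332) (nat_lit 5324) (.f (nat_lit 174) (nat_lit 206) (nat_lit 6317) (.f (nat_lit 173) (nat_lit 142) (nat_lit 6285) (.d (nat_lit 172) (nat_lit 140) (nat_lit 7308) (nat_lit 204) (nat_lit 7340))))))))))) (.a (.p (nat_lit 331) (.a (.f (nat_lit 302) (nat_lit 270) (nat_lit 6413) (.f (nat_lit 332) (nat_lit 330) (nat_lit 2346) (.d (nat_lit 366) (nat_lit 334) (nat_lit 331) (nat_lit 368) (nat_lit 3404)))) (.a (.f (nat_lit 396) (nat_lit 428) (nat_lit 5420) (.f (nat_lit 366) (nat_lit 368) (nat_lit 1388) (.d (nat_lit 332) (nat_lit 330) (nat_lit 330) (nat_lit 334) (nat_lit 331)))) (.a (.f (nat_lit 396) (nat_lit 428) (nat_lit 5420) (.f (nat_lit 366) (nat_lit 368) (nat_lit 1388) (.f (nat_lit 334) (nat_lit 332) (nat_lit 331) (.f (nat_lit 269) (nat_lit 237) (nat_lit 4333) (.d (nat_lit 268) (nat_lit 236) (nat_lit 7404) (nat_lit 300) (nat_lit 7436)))))) (.a (.f (nat_lit 302) (nat_lit 270) (nat_lit 6413) (.f (nat_lit 300) (nat_lit 268) (nat_lit 7436) (.f (nat_lit 299) (nat_lit 330) (nat_lit 1322) (.f (nat_lit 298) (nat_lit 334) (nat_lit 298) (.d (nat_lit 266) (nat_lit 265) (nat_lit 3337) (nat_lit 267) (nat_lit 3338)))))) (.f (nat_lit 302) (nat_lit 270) (nat_lit 6413) (.f (nat_lit 332) (nat_lit 330) (nat_lit 2346) (.d (nat_lit 303) (nat_lit 300) (nat_lit 1323) (nat_lit 304) (nat_lit 1324))))))))) (.a (.p (nat_lit 332) (.a (.f (nat_lit 366) (nat_lit 368) (nat_lit 3404) (.d (nat_lit 331) (nat_lit 330) (nat_lit 330) (nat_lit 334) (nat_lit 331))) (.a (.f (nat_lit 366) (nat_lit 368) (nat_lit 3404) (.f (nat_lit 334) (nat_lit 331) (nat_lit 331) (.f (nat_lit 270) (nat_lit 302) (nat_lit 6413) (.d (nat_lit 269) (nat_lit 237) (nat_lit 4333) (nat_lit 238) (nat_lit 6381))))) (.a (.f (nat_lit 366) (nat_lit 368) (nat_lit 3404) (.f (nat_lit 270) (nat_lit 302) (nat_lit 6413) (.f (nat_lit 269) (nat_lit 238) (nat_lit 6381) (.f (nat_lit 237) (nat_lit 334) (nat_lit 4333) (.f (nat_lit 205) (nat_lit 300) (nat_lit 5324) (.d (nat_lit 204) (nat_lit 172) (nat_lit 7340) (nat_lit 236) (nat_lit 7372))))))) (.f (nat_lit 302) (nat_lit 270) (nat_lit 6413) (.f (nat_lit 331) (nat_lit 330) (nat_lit 2346) (.d (nat_lit 303) (nat_lit 300) (nat_lit 1323) (nat_lit 304) (nat_lit 1324)))))))) (.a (.p (nat_lit 331) (.a (.f (nat_lit 302) (nat_lit 270) (nat_lit 6413) (.f (nat_lit 332) (nat_lit 330) (nat_lit 2346) (.d (nat_lit 366) (nat_lit 334) (nat_lit 331) (nat_lit 368) (nat_lit 3404)))) (.a (.f (nat_lit 396) (nat_lit 428) (nat_lit 5420) (.f (nat_lit 366) (nat_lit 368) (nat_lit 1388) (.d (nat_lit 332) (nat_lit 330) (nat_lit 330) (nat_lit 334) (nat_lit 331)))) (.a (.f (nat_lit 302) (nat_lit 270) (nat_lit 6413) (.f (nat_lit 300) (nat_lit 268) (nat_lit 7436) (.f (nat_lit 332) (nat_lit 303) (nat_lit 1323) (.d (nat_lit 366) (nat_lit 334) (nat_lit 331) (nat_lit 368) (nat_lit 3404))))) (.a (.f (nat_lit 302) (nat_lit 270) (nat_lit 6413) (.f (nat_lit 300) (nat_lit 268) (nat_lit 7436) (.f (nat_lit 299) (nat_lit 330) (nat_lit 1322) (.f (nat_lit 298) (nat_lit 334) (nat_lit 298) (.d (nat_lit 266) (nat_lit 265) (nat_lit 3337) (nat_lit 267) (nat_lit 3338)))))) (.f (nat_lit 302) (nat_lit 270) (nat_lit 6413) (.f (nat_lit 332) (nat_lit 330) (nat_lit 2346) (.d (nat_lit 303) (nat_lit 300) (nat_lit 1323) (nat_lit 304) (nat_lit 1324))))))))) (.a (.p (nat_lit 269) (.a (.d (nat_lit 268) (nat_lit 236) (nat_lit 7404) (nat_lit 300) (nat_lit 7436)) (.a (.f (nat_lit 396) (nat_lit 428) (nat_lit 5420) (.f (nat_lit 366) (nat_lit 368) (nat_lit 1388) (.f (nat_lit 237) (nat_lit 334) (nat_lit 4333) (.f (nat_lit 300) (nat_lit 268) (nat_lit 7436) (.f (nat_lit 205) (nat_lit 332) (nat_lit 5324) (.d (nat_lit 206) (nat_lit 174) (nat_lit 6317) (nat_lit 238) (nat_lit 6349))))))) (.f (nat_lit 396) (nat_lit 428) (nat_lit 5420) (.f (nat_lit 366) (nat_lit 368) (nat_lit 1388) (.f (nat_lit 237) (nat_lit 334) (nat_lit 4333) (.f (nat_lit 206) (nat_lit 238) (nat_lit 6349) (.f (nat_lit 205) (nat_lit 174) (nat_lit 6317) (.d (nat_lit 204) (nat_lit 172) (nat_lit 7340) (nat_lit 236) (nat_lit 7372)))))))))) (.f (nat_lit 270) (nat_lit 302) (nat_lit 6413) (.f (nat_lit 269) (nat_lit 238) (nat_lit 6381) (.f (nat_lit 236) (nat_lit 268) (nat_lit 7404) (.f (nat_lit 237) (nat_lit 204) (nat_lit 7372) (.f (nat_lit 366) (nat_lit 334) (nat_lit 4333) (.d (nat_lit 368) (nat_lit 332) (nat_lit 3404) (nat_lit 396) (nat_lit 1388))))))))))))))) (.a (.f (nat_lit 397) (nat_lit 429) (nat_lit 4429) (.p (nat_lit 301) (.a (.f (nat_lit 270) (nat_lit 302) (nat_lit 6413) (.f (nat_lit 269) (nat_lit 238) (nat_lit 6381) (.d (nat_lit 268) (nat_lit 236) (nat_lit 7404) (nat_lit 300) (nat_lit 7436)))) (.a (.f (nat_lit 396) (nat_lit 428) (nat_lit 5420) (.f (nat_lit 269) (nat_lit 364) (nat_lit 5388) (.d (nat_lit 270) (nat_lit 238) (nat_lit 6381) (nat_lit 302) (nat_lit 6413)))) (.a (.f (nat_lit 268) (nat_lit 300) (nat_lit 7436) (.f (nat_lit 269) (nat_lit 236) (nat_lit 7404) (.d (nat_lit 396) (nat_lit 364) (nat_lit 5388) (nat_lit 428) (nat_lit 5420)))) (.f (nat_lit 300) (nat_lit 268) (nat_lit 7436) (.p (nat_lit 299) (.a (.f (nat_lit 302) (nat_lit 270) (nat_lit 6413) (.f (nat_lit 298) (nat_lit 334) (nat_lit 298) (.d (nat_lit 330) (nat_lit 329) (nat_lit 1321) (nat_lit 331) (nat_lit 1322)))) (.a (.f (nat_lit 298) (nat_lit 334) (nat_lit 298) (.f (nat_lit 297) (nat_lit 332) (nat_lit 297) (.d (nat_lit 329) (nat_lit 328) (nat_lit 1320) (nat_lit 330) (nat_lit 1321)))) (.a (.f (nat_lit 302) (nat_lit 270) (nat_lit 6413) (.f (nat_lit 331) (nat_lit 330) (nat_lit 1322) (.f (nat_lit 332) (nat_lit 303) (nat_lit 1323) (.f (nat_lit 267) (nat_lit 266) (nat_lit 3338) (.d (nat_lit 235) (nat_lit 203) (nat_lit 4299) (nat_lit 364) (nat_lit 4331)))))) (.f (nat_lit 302) (nat_lit 270) (nat_lit 6413) (.f (nat_lit 298) (nat_lit 334) (nat_lit 298) (.d (nat_lit 266) (nat_lit 265) (nat_lit 3337) (nat_lit 267) (nat_lit 3338)))))))))))))) (.a (.f (nat_lit 397) (nat_lit 429) (nat_lit 4429) (.p (nat_lit 366) (.a (.f (nat_lit 368) (nat_lit 332) (nat_lit 3404) (.f (nat_lit 369) (nat_lit 334) (nat_lit 3405) (.d (nat_lit 337) (nat_lit 336) (nat_lit 2381) (nat_lit 338) (nat_lit 2382)))) (.a (.p (nat_lit 368) (.a (.f (nat_lit 369) (nat_lit 334) (nat_lit 3405) (.d (nat_lit 337) (nat_lit 336) (nat_lit 2381) (nat_lit 338) (nat_lit 2382))) (.a (.f (nat_lit 400) (nat_lit 401) (nat_lit 365) (.f (nat_lit 337) (nat_lit 336) (nat_lit 2381) (.d (nat_lit 369) (nat_lit 338) (nat_lit 2382) (nat_lit 432) (nat_lit 6480)))) (.a (.f (nat_lit 369) (nat_lit 334) (nat_lit 3405) (.d (nat_lit 401) (nat_lit 400) (nat_lit 365) (nat_lit 402) (nat_lit 366))) (.f (nat_lit 400) (nat_lit 401) (nat_lit 365) (.f (nat_lit 336) (nat_lit 337) (nat_lit 2381) (.f (nat_lit 399) (nat_lit 364) (nat_lit 364) (.d (nat_lit 304) (nat_lit 272) (nat_lit 5391) (nat_lit 431) (nat_lit 5423))))))))) (.a (.f (nat_lit 368) (nat_lit 332) (nat_lit 3404) (.f (nat_lit 400) (nat_lit 401) (nat_lit 365) (.f (nat_lit 337) (nat_lit 336) (nat_lit 2381) (.d (nat_lit 369) (nat_lit 338) (nat_lit 2382) (nat_lit 432) (nat_lit 6480))))) (.a (.f (nat_lit 332) (nat_lit 368) (nat_lit 3404) (.d (nat_lit 331) (nat_lit 330) (nat_lit 330) (nat_lit 364) (nat_lit 3403))) (.p (nat_lit 301) (.a (.f (nat_lit 270) (nat_lit 302) (nat_lit 6413) (.f (nat_lit 269) (nat_lit 238) (nat_lit 6381) (.d (nat_lit 268) (nat_lit 236) (nat_lit 7404) (nat_lit 300) (nat_lit 7436)))) (.a (.f (nat_lit 270) (nat_lit 302) (nat_lit 6413) (.f (nat_lit 269) (nat_lit 238) (nat_lit 6381) (.f (nat_lit 300) (nat_lit 268) (nat_lit 7436) (.f (nat_lit 237) (nat_lit 334) (nat_lit 4333) (.d (nat_lit 332) (nat_lit 205) (nat_lit 5324) (nat_lit 364) (nat_lit 5356)))))) (.a (.p (nat_lit 332) (.a (.d (nat_lit 331) (nat_lit 334) (nat_lit 331) (nat_lit 364) (nat_lit 3403)) (.a (.f (nat_lit 268) (nat_lit 300) (nat_lit 7436) (.f (nat_lit 269) (nat_lit 236) (nat_lit 7404) (.d (nat_lit 237) (nat_lit 334) (nat_lit 4333) (nat_lit 364) (nat_lit 5356)))) (.a (.d (nat_lit 331) (nat_lit 330) (nat_lit 330) (nat_lit 364) (nat_lit 3403)) (.d (nat_lit 331) (nat_lit 330) (nat_lit 330) (nat_lit 334) (nat_lit 331)))))) (.a (.f (nat_lit 270) (nat_lit 302) (nat_lit 6413) (.f (nat_lit 269) (nat_lit 238) (nat_lit 6381) (.f (nat_lit 237) (nat_lit 334) (nat_lit 4333) (.f (nat_lit 332) (nat_lit 364) (nat_lit 5356) (.f (nat_lit 205) (nat_lit 300) (nat_lit 5324) (.d (nat_lit 204) (nat_lit 172) (nat_lit 7340) (nat_lit 236) (nat_lit 7372))))))) (.a (.p (nat_lit 331) (.a (.d (nat_lit 332) (nat_lit 334) (nat_lit 331) (nat_lit 364) (nat_lit 3403)) (.a (.f (nat_lit 302) (nat_lit 270) (nat_lit 6413) (.f (nat_lit 300) (nat_lit 268) (nat_lit 7436) (.f (nat_lit 299) (nat_lit 330) (nat_lit 1322) (.f (nat_lit 298) (nat_lit 334) (nat_lit 298) (.d (nat_lit 266) (nat_lit 265) (nat_lit 3337) (nat_lit 267) (nat_lit 3338)))))) (.d (nat_lit 332) (nat_lit 330) (nat_lit 330) (nat_lit 364) (nat_lit 3403))))) (.f (nat_lit 270) (nat_lit 302) (nat_lit 6413) (.f (nat_lit 269) (nat_lit 238) (nat_lit 6381) (.f (nat_lit 237) (nat_lit 334) (nat_lit 4333) (.d (nat_lit 236) (nat_lit 204) (nat_lit 7372) (nat_lit 268) (nat_lit 7404))))))))))))))))) (.p (nat_lit 366) (.a (.f (nat_lit 368) (nat_lit 332) (nat_lit 3404) (.f (nat_lit 369) (nat_lit 334) (nat_lit 3405) (.d (nat_lit 337) (nat_lit 336) (nat_lit 2381) (nat_lit 338) (nat_lit 2382)))) (.a (.p (nat_lit 368) (.a (.f (nat_lit 369) (nat_lit 334) (nat_lit 3405) (.d (nat_lit 337) (nat_lit 336) (nat_lit 2381) (nat_lit 338) (nat_lit 2382))) (.a (.f (nat_lit 400) (nat_lit 401) (nat_lit 365) (.f (nat_lit 337) (nat_lit 336) (nat_lit 2381) (.d (nat_lit 369) (nat_lit 338) (nat_lit 2382) (nat_lit 432) (nat_lit 6480)))) (.a (.f (nat_lit 369) (nat_lit 334) (nat_lit 3405) (.d (nat_lit 401) (nat_lit 400) (nat_lit 365) (nat_lit 402) (nat_lit 366))) (.f (nat_lit 400) (nat_lit 401) (nat_lit 365) (.f (nat_lit 364) (nat_lit 399) (nat_lit 364) (.f (nat_lit 395) (nat_lit 396) (nat_lit 1387) (.f (nat_lit 363) (nat_lit 394) (nat_lit 1386) (.f (nat_lit 362) (nat_lit 334) (nat_lit 2378) (.d (nat_lit 330) (nat_lit 329) (nat_lit 3401) (nat_lit 331) (nat_lit 3402))))))))))) (.a (.f (nat_lit 368) (nat_lit 332) (nat_lit 3404) (.f (nat_lit 400) (nat_lit 401) (nat_lit 365) (.f (nat_lit 337) (nat_lit 336) (nat_lit 2381) (.d (nat_lit 369) (nat_lit 338) (nat_lit 2382) (nat_lit 432) (nat_lit 6480))))) (.a (.f (nat_lit 332) (nat_lit 368) (nat_lit 3404) (.d (nat_lit 331) (nat_lit 330) (nat_lit 330) (nat_lit 364) (nat_lit 3403))) (.p (nat_lit 364) (.a (.f (nat_lit 332) (nat_lit 331) (nat_lit 3403) (.f (nat_lit 396) (nat_lit 395) (nat_lit 1387) (.d (nat_lit 301) (nat_lit 269) (nat_lit 5388) (nat_lit 428) (nat_lit 6444)))) (.a (.f (nat_lit 332) (nat_lit 331) (nat_lit 3403) (.f (nat_lit 395) (nat_lit 396) (nat_lit 1387) (.f (nat_lit 363) (nat_lit 394) (nat_lit 1386) (.d (nat_lit 362) (nat_lit 334) (nat_lit 2378) (nat_lit 361) (nat_lit 2377))))) (.a (.f (nat_lit 396) (nat_lit 395) (nat_lit 1387) (.f (nat_lit 301) (nat_lit 269) (nat_lit 5388) (.d (nat_lit 428) (nat_lit 332) (nat_lit 6444) (nat_lit 460) (nat_lit 6476)))) (.a (.f (nat_lit 395) (nat_lit 396) (nat_lit 1387) (.f (nat_lit 363) (nat_lit 394) (nat_lit 1386) (.f (nat_lit 362) (nat_lit 334) (nat_lit 2378) (.d (nat_lit 330) (nat_lit 329) (nat_lit 3401) (nat_lit 331) (nat_lit 3402))))) (.p (nat_lit 363) (.a (.d (nat_lit 331) (nat_lit 330) (nat_lit 3402) (nat_lit 332) (nat_lit 3403)) (.a (.f (nat_lit 332) (nat_lit 331) (nat_lit 3403) (.d (nat_lit 362) (nat_lit 334) (nat_lit 2378) (nat_lit 361) (nat_lit 2377))) (.a (.f (nat_lit 362) (nat_lit 334) (nat_lit 2378) (.f (nat_lit 361) (nat_lit 332) (nat_lit 2377) (.d (nat_lit 393) (nat_lit 392) (nat_lit 1384) (nat_lit 394) (nat_lit 1385)))) (.f (nat_lit 362) (nat_lit 334) (nat_lit 2378) (.d (nat_lit 330) (nat_lit 329) (nat_lit 3401) (nat_lit 331) (nat_lit 3402)))))))))))))))))))))))))) (.p (nat_lit 397) (.a (.f (nat_lit 333) (nat_lit 429) (nat_lit 4429) (.d (nat_lit 398) (nat_lit 301) (nat_lit 4397) (nat_lit 494) (nat_lit 7533))) (.a (.f (nat_lit 398) (nat_lit 494) (nat_lit 7533) (.d (nat_lit 333) (nat_lit 366) (nat_lit 7501) (nat_lit 429) (nat_lit 4429))) (.a (.f (nat_lit 494) (nat_lit 398) (nat_lit 7533) (.f (nat_lit 526) (nat_lit 429) (nat_lit 7565) (.f (nat_lit 527) (nat_lit 559) (nat_lit 4526) (.d (nat_lit 525) (nat_lit 557) (nat_lit 5549) (nat_lit 561) (nat_lit 525))))) (.a (.p (nat_lit 396) (.a (.f (nat_lit 429) (nat_lit 333) (nat_lit 4429) (.f (nat_lit 395) (nat_lit 394) (nat_lit 394) (.d (nat_lit 366) (nat_lit 364) (nat_lit 1387) (nat_lit 368) (nat_lit 1388)))) (.a (.f (nat_lit 366) (nat_lit 368) (nat_lit 1388) (.d (nat_lit 395) (nat_lit 364) (nat_lit 1387) (nat_lit 394) (nat_lit 2410))) (.a (.f (nat_lit 429) (nat_lit 333) (nat_lit 4429) (.f (nat_lit 395) (nat_lit 394) (nat_lit 394) (.d (nat_lit 431) (nat_lit 428) (nat_lit 3467) (nat_lit 432) (nat_lit 3468)))) (.a (.f (nat_lit 429) (nat_lit 333) (nat_lit 4429) (.f (nat_lit 431) (nat_lit 432) (nat_lit 3468) (.f (nat_lit 428) (nat_lit 395) (nat_lit 3467) (.d (nat_lit 460) (nat_lit 459) (nat_lit 1451) (nat_lit 492) (nat_lit 6508))))) (.f (nat_lit 333) (nat_lit 429) (nat_lit 4429) (.f (nat_lit 301) (nat_lit 428) (nat_lit 5420) (.f (nat_lit 269) (nat_lit 364) (nat_lit 5388) (.d (nat_lit 270) (nat_lit 238) (nat_lit 6381) (nat_lit 302) (nat_lit 6413)))))))))) (.f (nat_lit 398) (nat_lit 494) (nat_lit 7533) (.d (nat_lit 333) (nat_lit 301) (nat_lit 4397) (nat_lit 366) (nat_lit 7501)))))))))))))))) (.a (.p (nat_lit 368) (.a s73380 (.a (.p (nat_lit 398) (.a (.f (nat_lit 399) (nat_lit 494) (nat_lit 6510) (.d (nat_lit 335) (nat_lit 366) (nat_lit 6478) (nat_lit 431) (nat_lit 5454))) (.a (.f (nat_lit 399) (nat_lit 494) (nat_lit 6510) (.f (nat_lit 397) (nat_lit 396) (nat_lit 2412) (.d (nat_lit 369) (nat_lit 366) (nat_lit 1389) (nat_lit 370) (nat_lit 1390)))) (.a (.f (nat_lit 399) (nat_lit 494) (nat_lit 6510) (.f (nat_lit 397) (nat_lit 396) (nat_lit 2412) (.d (nat_lit 369) (nat_lit 370) (nat_lit 1390) (nat_lit 400) (nat_lit 2413)))) (.f (nat_lit 366) (nat_lit 335) (nat_lit 6478) (.f (nat_lit 369) (nat_lit 397) (nat_lit 1389) (.f (nat_lit 337) (nat_lit 338) (nat_lit 2382) (.f (nat_lit 401) (nat_lit 402) (nat_lit 366) (.d (nat_lit 432) (nat_lit 400) (nat_lit 6480) (nat_lit 433) (nat_lit 5456)))))))))) (.a (.p (nat_lit 369) (.a (.p (nat_lit 370) (.a (.f (nat_lit 402) (nat_lit 403) (nat_lit 367) (.f (nat_lit 401) (nat_lit 366) (nat_lit 366) (.f (nat_lit 338) (nat_lit 339) (nat_lit 2383) (.d (nat_lit 306) (nat_lit 274) (nat_lit 5393) (nat_lit 433) (nat_lit 5425))))) (.a (.f (nat_lit 402) (nat_lit 403) (nat_lit 367) (.f (nat_lit 401) (nat_lit 366) (nat_lit 366) (.f (nat_lit 338) (nat_lit 339) (nat_lit 2383) (.d (nat_lit 433) (nat_lit 306) (nat_lit 5425) (nat_lit 465) (nat_lit 6481))))) (.a (.f (nat_lit 402) (nat_lit 403) (nat_lit 367) (.f (nat_lit 401) (nat_lit 366) (nat_lit 366) (.f (nat_lit 338) (nat_lit 339) (nat_lit 2383) (.f (nat_lit 433) (nat_lit 465) (nat_lit 6481) (.d (nat_lit 432) (nat_lit 337) (nat_lit 5456) (nat_lit 431) (nat_lit 2446)))))) (.a (.f (nat_lit 403) (nat_lit 402) (nat_lit 367) (.f (nat_lit 371) (nat_lit 404) (nat_lit 368) (.f (nat_lit 400) (nat_lit 399) (nat_lit 1391) (.f (nat_lit 372) (nat_lit 401) (nat_lit 1392) (.d (nat_lit 340) (nat_lit 339) (nat_lit 2384) (nat_lit 341) (nat_lit 2385)))))) (.a (.f (nat_lit 399) (nat_lit 398) (nat_lit 1390) (.f (nat_lit 400) (nat_lit 371) (nat_lit 1391) (.f (nat_lit 402) (nat_lit 403) (nat_lit 367) (.d (nat_lit 401) (nat_lit 366) (nat_lit 366) (nat_lit 431) (nat_lit 1422))))) (.a (.f (nat_lit 338) (nat_lit 339) (nat_lit 2383) (.f (nat_lit 337) (nat_lit 366) (nat_lit 2382) (.f (nat_lit 402) (nat_lit 403) (nat_lit 367) (.d (nat_lit 305) (nat_lit 273) (nat_lit 4369) (nat_lit 434) (nat_lit 7473))))) (.f (nat_lit 338) (nat_lit 339) (nat_lit 2383) (.f (nat_lit 337) (nat_lit 366) (nat_lit 2382) (.f (nat_lit 400) (nat_lit 432) (nat_lit 6480) (.f (nat_lit 371) (nat_lit 399) (nat_lit 1391) (.d (nat_lit 372) (nat_lit 336) (nat_lit 3408) (nat_lit 401) (nat_lit 1392))))))))))))) (.a (.p (nat_lit 370) (.a (.f (nat_lit 402) (nat_lit 403) (nat_lit 367) (.f (nat_lit 401) (nat_lit 366) (nat_lit 366) (.f (nat_lit 338) (nat_lit 339) (nat_lit 2383) (.d (nat_lit 306) (nat_lit 274) (nat_lit 5393) (nat_lit 433) (nat_lit 5425))))) (.a (.f (nat_lit 402) (nat_lit 403) (nat_lit 367) (.f (nat_lit 401) (nat_lit 366) (nat_lit 366) (.f (nat_lit 338) (nat_lit 339) (nat_lit 2383) (.d (nat_lit 433) (nat_lit 306) (nat_lit 5425) (nat_lit 465) (nat_lit 6481))))) (.a (.f (nat_lit 402) (nat_lit 403) (nat_lit 367) (.f (nat_lit 401) (nat_lit 366) (nat_lit 366) (.f (nat_lit 338) (nat_lit 339) (nat_lit 2383) (.f (nat_lit 433) (nat_lit 465) (nat_lit 6481) (.d (nat_lit 432) (nat_lit 337) (nat_lit 5456) (nat_lit 431) (nat_lit 2446)))))) (.a (.f (nat_lit 403) (nat_lit 402) (nat_lit 367) (.f (nat_lit 371) (nat_lit 404) (nat_lit 368) (.f (nat_lit 400) (nat_lit 399) (nat_lit 1391) (.f (nat_lit 372) (nat_lit 401) (nat_lit 1392) (.d (nat_lit 340) (nat_lit 339) (nat_lit 2384) (nat_lit 341) (nat_lit 2385)))))) (.a (.f (nat_lit 399) (nat_lit 398) (nat_lit 1390) (.f (nat_lit 400) (nat_lit 371) (nat_lit 1391) (.f (nat_lit 402) (nat_lit 403) (nat_lit 367) (.d (nat_lit 401) (nat_lit 366) (nat_lit 366) (nat_lit 431) (nat_lit 1422))))) (.a (.f (nat_lit 399) (nat_lit 398) (nat_lit 1390) (.f (nat_lit 371) (nat_lit 400) (nat_lit 1391) (.d (nat_lit 403) (nat_lit 402) (nat_lit 367) (nat_lit 404) (nat_lit 368)))) (.f (nat_lit 338) (nat_lit 339) (nat_lit 2383) (.f (nat_lit 337) (nat_lit 366) (nat_lit 2382) (.f (nat_lit 400) (nat_lit 432) (nat_lit 6480) (.f (nat_lit 371) (nat_lit 399) (nat_lit 1391) (.d (nat_lit 372) (nat_lit 336) (nat_lit 3408) (nat_lit 401) (nat_lit 1392))))))))))))) (.a (.p (nat_lit 370) (.a (.f (nat_lit 402) (nat_lit 403) (nat_lit 367) (.f (nat_lit 401) (nat_lit 366) (nat_lit 366) (.f (nat_lit 338) (nat_lit 339) (nat_lit 2383) (.d (nat_lit 433) (nat_lit 306) (nat_lit 5425) (nat_lit 465) (nat_lit 6481))))) (.a (.f (nat_lit 402) (nat_lit 403) (nat_lit 367) (.f (nat_lit 401) (nat_lit 366) (nat_lit 366) (.f (nat_lit 338) (nat_lit 339) (nat_lit 2383) (.f (nat_lit 433) (nat_lit 465) (nat_lit 6481) (.d (nat_lit 432) (nat_lit 337) (nat_lit 5456) (nat_lit 431) (nat_lit 2446)))))) (.a (.f (nat_lit 403) (nat_lit 402) (nat_lit 367) (.f (nat_lit 371) (nat_lit 404) (nat_lit 368) (.f (nat_lit 400) (nat_lit 399) (nat_lit 1391) (.f (nat_lit 372) (nat_lit 401) (nat_lit 1392) (.d (nat_lit 340) (nat_lit 339) (nat_lit 2384) (nat_lit 341) (nat_lit 2385)))))) (.a (.f (nat_lit 399) (nat_lit 398) (nat_lit 1390) (.f (nat_lit 400) (nat_lit 371) (nat_lit 1391) (.f (nat_lit 402) (nat_lit 403) (nat_lit 367) (.d (nat_lit 401) (nat_lit 366) (nat_lit 366) (nat_lit 431) (nat_lit 1422))))) (.a (.f (nat_lit 338) (nat_lit 339) (nat_lit 2383) (.f (nat_lit 337) (nat_lit 366) (nat_lit 2382) (.f (nat_lit 402) (nat_lit 403) (nat_lit 367) (.d (nat_lit 305) (nat_lit 273) (nat_lit 4369) (nat_lit 434) (nat_lit 7473))))) (.f (nat_lit 338) (nat_lit 339) (nat_lit 2383) (.f (nat_lit 337) (nat_lit 366) (nat_lit 2382) (.f (nat_lit 400) (nat_lit 432) (nat_lit 6480) (.f (nat_lit 371) (nat_lit 399) (nat_lit 1391) (.d (nat_lit 372) (nat_lit 336) (nat_lit 3408) (nat_lit 401) (nat_lit 1392)))))))))))) (.a (.p (nat_lit 370) (.a (.f (nat_lit 402) (nat_lit 403) (nat_lit 367) (.f (nat_lit 401) (nat_lit 366) (nat_lit 366) (.f (nat_lit 338) (nat_lit 339) (nat_lit 2383) (.f (nat_lit 433) (nat_lit 465) (nat_lit 6481) (.d (nat_lit 432) (nat_lit 337) (nat_lit 5456) (nat_lit 431) (nat_lit 2446)))))) (.a (.f (nat_lit 403) (nat_lit 402) (nat_lit 367) (.f (nat_lit 371) (nat_lit 404) (nat_lit 368) (.f (nat_lit 400) (nat_lit 399) (nat_lit 1391) (.f (nat_lit 372) (nat_lit 401) (nat_lit 1392) (.d (nat_lit 340) (nat_lit 339) (nat_lit 2384) (nat_lit 341) (nat_lit 2385)))))) (.a (.f (nat_lit 399) (nat_lit 398) (nat_lit 1390) (.f (nat_lit 400) (nat_lit 371) (nat_lit 1391) (.f (nat_lit 402) (nat_lit 403) (nat_lit 367) (.d (nat_lit 401) (nat_lit 366) (nat_lit 366) (nat_lit 431) (nat_lit 1422))))) (.a (.f (nat_lit 338) (nat_lit 339) (nat_lit 2383) (.f (nat_lit 337) (nat_lit 366) (nat_lit 2382) (.f (nat_lit 402) (nat_lit 403) (nat_lit 367) (.d (nat_lit 305) (nat_lit 273) (nat_lit 4369) (nat_lit 434) (nat_lit 7473))))) (.f (nat_lit 338) (nat_lit 339) (nat_lit 2383) (.f (nat_lit 337) (nat_lit 366) (nat_lit 2382) (.f (nat_lit 400) (nat_lit 432) (nat_lit 6480) (.f (nat_lit 371) (nat_lit 399) (nat_lit 1391) (.d (nat_lit 372) (nat_lit 336) (nat_lit 3408) (nat_lit 401) (nat_lit 1392))))))))))) (.a (.p (nat_lit 370) (.a (.f (nat_lit 402) (nat_lit 403) (nat_lit 367) (.f (nat_lit 401) (nat_lit 366) (nat_lit 366) (.f (nat_lit 338) (nat_lit 339) (nat_lit 2383) (.d (nat_lit 306) (nat_lit 274) (nat_lit 5393) (nat_lit 433) (nat_lit 5425))))) (.a (.f (nat_lit 402) (nat_lit 403) (nat_lit 367) (.f (nat_lit 401) (nat_lit 366) (nat_lit 366) (.f (nat_lit 338) (nat_lit 339) (nat_lit 2383) (.d (nat_lit 433) (nat_lit 306) (nat_lit 5425) (nat_lit 465) (nat_lit 6481))))) (.a (.f (nat_lit 402) (nat_lit 403) (nat_lit 367) (.f (nat_lit 401) (nat_lit 366) (nat_lit 366) (.f (nat_lit 338) (nat_lit 339) (nat_lit 2383) (.f (nat_lit 433) (nat_lit 465) (nat_lit 6481) (.d (nat_lit 432) (nat_lit 337) (nat_lit 5456) (nat_lit 431) (nat_lit 2446)))))) (.a (.f (nat_lit 403) (nat_lit 402) (nat_lit 367) (.f (nat_lit 371) (nat_lit 404) (nat_lit 368) (.f (nat_lit 400) (nat_lit 399) (nat_lit 1391) (.f (nat_lit 372) (nat_lit 401) (nat_lit 1392) (.d (nat_lit 340) (nat_lit 339) (nat_lit 2384) (nat_lit 341) (nat_lit 2385)))))) (.a (.f (nat_lit 399) (nat_lit 398) (nat_lit 1390) (.f (nat_lit 400) (nat_lit 371) (nat_lit 1391) (.f (nat_lit 402) (nat_lit 403) (nat_lit 367) (.d (nat_lit 401) (nat_lit 366) (nat_lit 366) (nat_lit 431) (nat_lit 1422))))) (.a (.f (nat_lit 338) (nat_lit 339) (nat_lit 2383) (.f (nat_lit 337) (nat_lit 366) (nat_lit 2382) (.f (nat_lit 402) (nat_lit 403) (nat_lit 367) (.d (nat_lit 305) (nat_lit 273) (nat_lit 4369) (nat_lit 434) (nat_lit 7473))))) (.f (nat_lit 398) (nat_lit 399) (nat_lit 1390) (.f (nat_lit 366) (nat_lit 397) (nat_lit 1389) (.d (nat_lit 338) (nat_lit 337) (nat_lit 2382) (nat_lit 339) (nat_lit 2383))))))))))) (.a s74342 (.a (.p (nat_lit 370) (.a (.f (nat_lit 403) (nat_lit 402) (nat_lit 367) (.f (nat_lit 371) (nat_lit 404) (nat_lit 368) (.f (nat_lit 400) (nat_lit 399) (nat_lit 1391) (.f (nat_lit 372) (nat_lit 401) (nat_lit 1392) (.d (nat_lit 340) (nat_lit 339) (nat_lit 2384) (nat_lit 341) (nat_lit 2385)))))) (.a (.f (nat_lit 399) (nat_lit 398) (nat_lit 1390) (.f (nat_lit 400) (nat_lit 371) (nat_lit 1391) (.f (nat_lit 402) (nat_lit 403) (nat_lit 367) (.d (nat_lit 401) (nat_lit 366) (nat_lit 366) (nat_lit 431) (nat_lit 1422))))) (.a (.f (nat_lit 398) (nat_lit 399) (nat_lit 1390) (.f (nat_lit 366) (nat_lit 397) (nat_lit 1389) (.d (nat_lit 402) (nat_lit 401) (nat_lit 366) (nat_lit 403) (nat_lit 367)))) (.a (.f (nat_lit 403) (nat_lit 402) (nat_lit 367) (.f (nat_lit 371) (nat_lit 404) (nat_lit 368) (.f (nat_lit 340) (nat_lit 339) (nat_lit 2384) (.f (nat_lit 372) (nat_lit 341) (nat_lit 2385) (.f (nat_lit 400) (nat_lit 401) (nat_lit 1392) (.d (nat_lit 337) (nat_lit 336) (nat_lit 3408) (nat_lit 432) (nat_lit 6480))))))) (.a (.f (nat_lit 399) (nat_lit 398) (nat_lit 1390) (.f (nat_lit 371) (nat_lit 400) (nat_lit 1391) (.d (nat_lit 403) (nat_lit 402) (nat_lit 367) (nat_lit 404) (nat_lit 368)))) (.a (.f (nat_lit 399) (nat_lit 398) (nat_lit 1390) (.f (nat_lit 371) (nat_lit 400) (nat_lit 1391) (.f (nat_lit 404) (nat_lit 403) (nat_lit 368) (.f (nat_lit 372) (nat_lit 405) (nat_lit 369) (.d (nat_lit 340) (nat_lit 339) (nat_lit 2384) (nat_lit 341) (nat_lit 2385)))))) (.f (nat_lit 399) (nat_lit 398) (nat_lit 1390) (.f (nat_lit 400) (nat_lit 371) (nat_lit 1391) (.f (nat_lit 432) (nat_lit 337) (nat_lit 6480) (.f (nat_lit 465) (nat_lit 497) (nat_lit 4464) (.f (nat_lit 431) (nat_lit 429) (nat_lit 429) (.d (nat_lit 433) (nat_lit 336) (nat_lit 4432) (nat_lit 466) (nat_lit 430)))))))))))))) (.a (.p (nat_lit 398) (.a (.d (nat_lit 399) (nat_lit 370) (nat_lit 1390) (nat_lit 494) (nat_lit 6510)) (.a (.f (nat_lit 494) (nat_lit 399) (nat_lit 6510) (.f (nat_lit 527) (nat_lit 495) (nat_lit 4494) (.f (nat_lit 526) (nat_lit 559) (nat_lit 4526) (.d (nat_lit 525) (nat_lit 493) (nat_lit 5517) (nat_lit 561) (nat_lit 525))))) (.f (nat_lit 366) (nat_lit 397) (nat_lit 1389) (.f (nat_lit 401) (nat_lit 402) (nat_lit 366) (.f (nat_lit 337) (nat_lit 338) (nat_lit 2382) (.d (nat_lit 432) (nat_lit 400) (nat_lit 6480) (nat_lit 433) (nat_lit 5456)))))))) (.a (.p (nat_lit 370) (.a (.f (nat_lit 403) (nat_lit 402) (nat_lit 367) (.f (nat_lit 371) (nat_lit 404) (nat_lit 368) (.f (nat_lit 400) (nat_lit 399) (nat_lit 1391) (.f (nat_lit 372) (nat_lit 401) (nat_lit 1392) (.d (nat_lit 340) (nat_lit 339) (nat_lit 2384) (nat_lit 341) (nat_lit 2385)))))) (.a (.f (nat_lit 399) (nat_lit 398) (nat_lit 1390) (.f (nat_lit 371) (nat_lit 400) (nat_lit 1391) (.d (nat_lit 403) (nat_lit 402) (nat_lit 367) (nat_lit 404) (nat_lit 368)))) (.a (.p (nat_lit 337) (.a (.f (nat_lit 338) (nat_lit 339) (nat_lit 2383) (.f (nat_lit 402) (nat_lit 403) (nat_lit 367) (.d (nat_lit 305) (nat_lit 273) (nat_lit 4369) (nat_lit 434) (nat_lit 7473)))) (.a (.f (nat_lit 338) (nat_lit 339) (nat_lit 2383) (.f (nat_lit 402) (nat_lit 403) (nat_lit 367) (.d (nat_lit 434) (nat_lit 305) (nat_lit 7473) (nat_lit 466) (nat_lit 7505)))) (.a (.f (nat_lit 338) (nat_lit 339) (nat_lit 2383) (.f (nat_lit 402) (nat_lit 403) (nat_lit 367) (.f (nat_lit 434) (nat_lit 466) (nat_lit 7505) (.f (nat_lit 433) (nat_lit 465) (nat_lit 5457) (.d (nat_lit 401) (nat_lit 306) (nat_lit 5425) (nat_lit 432) (nat_lit 5456)))))) (.a (.f (nat_lit 402) (nat_lit 403) (nat_lit 367) (.f (nat_lit 305) (nat_lit 273) (nat_lit 4369) (.d (nat_lit 434) (nat_lit 401) (nat_lit 4401) (nat_lit 466) (nat_lit 7505)))) (.f (nat_lit 398) (nat_lit 399) (nat_lit 1390) (.f (nat_lit 432) (nat_lit 400) (nat_lit 6480) (.f (nat_lit 433) (nat_lit 401) (nat_lit 5456) (.f (nat_lit 431) (nat_lit 397) (nat_lit 3469) (.d (nat_lit 465) (nat_lit 429) (nat_lit 429) (nat_lit 466) (nat_lit 430))))))))))) (.a (.f (nat_lit 403) (nat_lit 402) (nat_lit 367) (.f (nat_lit 371) (nat_lit 404) (nat_lit 368) (.f (nat_lit 340) (nat_lit 339) (nat_lit 2384) (.f (nat_lit 372) (nat_lit 341) (nat_lit 2385) (.f (nat_lit 400) (nat_lit 401) (nat_lit 1392) (.d (nat_lit 337) (nat_lit 336) (nat_lit 3408) (nat_lit 432) (nat_lit 6480))))))) (.a (.f (nat_lit 339) (nat_lit 338) (nat_lit 2383) (.f (nat_lit 371) (nat_lit 340) (nat_lit 2384) (.d (nat_lit 403) (nat_lit 402) (nat_lit 367) (nat_lit 404) (nat_lit 368)))) (.f (nat_lit 399) (nat_lit 398) (nat_lit 1390) (.f (nat_lit 371) (nat_lit 400) (nat_lit 1391) (.d (nat_lit 339) (nat_lit 338) (nat_lit 2383) (nat_lit 340) (nat_lit 2384)))))))))) (.a (.p (nat_lit 366) (.a (.f (nat_lit 337) (nat_lit 338) (nat_lit 2382) (.f (nat_lit 401) (nat_lit 402) (nat_lit 366) (.d (nat_lit 432) (nat_lit 400) (nat_lit 6480) (nat_lit 433) (nat_lit 5456)))) (.f (nat_lit 398) (nat_lit 397) (nat_lit 1389) (.f (nat_lit 494) (nat_lit 399) (nat_lit 6510) (.f (nat_lit 527) (nat_lit 495) (nat_lit 4494) (.f (nat_lit 526) (nat_lit 559) (nat_lit 4526) (.d (nat_lit 525) (nat_lit 493) (nat_lit 5517) (nat_lit 561) (nat_lit 525)))))))) (.a s74410 (.a s74423 (.a (.p (nat_lit 370) (.a (.f (nat_lit 402) (nat_lit 403) (nat_lit 367) (.f (nat_lit 401) (nat_lit 366) (nat_lit 366) (.f (nat_lit 338) (nat_lit 339) (nat_lit 2383) (.d (nat_lit 306) (nat_lit 274) (nat_lit 5393) (nat_lit 433) (nat_lit 5425))))) (.a (.f (nat_lit 402) (nat_lit 403) (nat_lit 367) (.f (nat_lit 401) (nat_lit 366) (nat_lit 366) (.f (nat_lit 338) (nat_lit 339) (nat_lit 2383) (.d (nat_lit 433) (nat_lit 306) (nat_lit 5425) (nat_lit 465) (nat_lit 6481))))) (.a (.f (nat_lit 402) (nat_lit 403) (nat_lit 367) (.f (nat_lit 401) (nat_lit 366) (nat_lit 366) (.f (nat_lit 338) (nat_lit 339) (nat_lit 2383) (.f (nat_lit 433) (nat_lit 465) (nat_lit 6481) (.d (nat_lit 432) (nat_lit 337) (nat_lit 5456) (nat_lit 431) (nat_lit 2446)))))) (.a (.f (nat_lit 398) (nat_lit 399) (nat_lit 1390) (.f (nat_lit 366) (nat_lit 397) (nat_lit 1389) (.d (nat_lit 402) (nat_lit 401) (nat_lit 366) (nat_lit 403) (nat_lit 367)))) (.a (.f (nat_lit 339) (nat_lit 338) (nat_lit 2383) (.f (nat_lit 371) (nat_lit 340) (nat_lit 2384) (.d (nat_lit 403) (nat_lit 402) (nat_lit 367) (nat_lit 404) (nat_lit 368)))) (.f (nat_lit 398) (nat_lit 399) (nat_lit 1390) (.f (nat_lit 366) (nat_lit 397) (nat_lit 1389) (.d (nat_lit 338) (nat_lit 337) (nat_lit 2382) (nat_lit 339) (nat_lit 2383)))))))))) (.a (.p (nat_lit 370) (.a (.f (nat_lit 338) (nat_lit 339) (nat_lit 2383) (.f (nat_lit 337) (nat_lit 366) (nat_lit 2382) (.f (nat_lit 402) (nat_lit 403) (nat_lit 367) (.d (nat_lit 305) (nat_lit 273) (nat_lit 4369) (nat_lit 434) (nat_lit 7473))))) (.a (.f (nat_lit 399) (nat_lit 398) (nat_lit 1390) (.f (nat_lit 371) (nat_lit 400) (nat_lit 1391) (.d (nat_lit 403) (nat_lit 402) (nat_lit 367) (nat_lit 404) (nat_lit 368)))) (.f (nat_lit 398) (nat_lit 399) (nat_lit 1390) (.f (nat_lit 366) (nat_lit 397) (nat_lit 1389) (.d (nat_lit 338) (nat_lit 337) (nat_lit 2382) (nat_lit 339) (nat_lit 2383))))))) (.p (nat_lit 370) (.a (.f (nat_lit 338) (nat_lit 339) (nat_lit 2383) (.f (nat_lit 337) (nat_lit 366) (nat_lit 2382) (.f (nat_lit 400) (nat_lit 432) (nat_lit 6480) (.f (nat_lit 371) (nat_lit 399) (nat_lit 1391) (.d (nat_lit 372) (nat_lit 336) (nat_lit 3408) (nat_lit 401) (nat_lit 1392)))))) (.a (.f (nat_lit 398) (nat_lit 399) (nat_lit 1390) (.f (nat_lit 366) (nat_lit 397) (nat_lit 1389) (.d (nat_lit 338) (nat_lit 337) (nat_lit 2382) (nat_lit 339) (nat_lit 2383)))) (.a (.f (nat_lit 399) (nat_lit 398) (nat_lit 1390) (.f (nat_lit 371) (nat_lit 400) (nat_lit 1391) (.d (nat_lit 339) (nat_lit 338) (nat_lit 2383) (nat_lit 340) (nat_lit 2384)))) (.a (.f (nat_lit 399) (nat_lit 398) (nat_lit 1390) (.f (nat_lit 371) (nat_lit 400) (nat_lit 1391) (.f (nat_lit 404) (nat_lit 403) (nat_lit 368) (.f (nat_lit 372) (nat_lit 405) (nat_lit 369) (.d (nat_lit 340) (nat_lit 339) (nat_lit 2384) (nat_lit 341) (nat_lit 2385)))))) (.a (.f (nat_lit 399) (nat_lit 398) (nat_lit 1390) (.f (nat_lit 400) (nat_lit 371) (nat_lit 1391) (.f (nat_lit 432) (nat_lit 337) (nat_lit 6480) (.f (nat_lit 465) (nat_lit 497) (nat_lit 4464) (.f (nat_lit 431) (nat_lit 429) (nat_lit 429) (.d (nat_lit 433) (nat_lit 336) (nat_lit 4432) (nat_lit 466) (nat_lit 430))))))) (.f (nat_lit 339) (nat_lit 338) (nat_lit 2383) (.f (nat_lit 371) (nat_lit 340) (nat_lit 2384) (.f (nat_lit 404) (nat_lit 403) (nat_lit 368) (.f (nat_lit 372) (nat_lit 405) (nat_lit 369) (.f (nat_lit 400) (nat_lit 401) (nat_lit 1392) (.d (nat_lit 337) (nat_lit 336) (nat_lit 3408) (nat_lit 432) (nat_lit 6480)))))))))))))))))))))))))))) (.a (.p (nat_lit 369) (.a (.p (nat_lit 370) (.a (.f (nat_lit 335) (nat_lit 334) (nat_lit 3406) (.f (nat_lit 400) (nat_lit 432) (nat_lit 7503) (.d (nat_lit 371) (nat_lit 336) (nat_lit 3407) (nat_lit 399) (nat_lit 1391)))) (.f (nat_lit 402) (nat_lit 403) (nat_lit 367) (.f (nat_lit 401) (nat_lit 366) (nat_lit 366) (.f (nat_lit 338) (nat_lit 339) (nat_lit 2383) (.d (nat_lit 306) (nat_lit 274) (nat_lit 5393) (nat_lit 433) (nat_lit 5425))))))) (.a (.p (nat_lit 370) (.a (.f (nat_lit 335) (nat_lit 334) (nat_lit 3406) (.f (nat_lit 400) (nat_lit 432) (nat_lit 7503) (.d (nat_lit 371) (nat_lit 336) (nat_lit 3407) (nat_lit 399) (nat_lit 1391)))) (.f (nat_lit 402) (nat_lit 403) (nat_lit 367) (.f (nat_lit 401) (nat_lit 366) (nat_lit 366) (.f (nat_lit 338) (nat_lit 339) (nat_lit 2383) (.d (nat_lit 433) (nat_lit 306) (nat_lit 5425) (nat_lit 465) (nat_lit 6481))))))) (.a (.p (nat_lit 335) (.a (.f (nat_lit 400) (nat_lit 432) (nat_lit 7503) (.f (nat_lit 399) (nat_lit 431) (nat_lit 5454) (.d (nat_lit 370) (nat_lit 334) (nat_lit 3406) (nat_lit 371) (nat_lit 1391)))) (.a (.f (nat_lit 432) (nat_lit 400) (nat_lit 7503) (.f (nat_lit 431) (nat_lit 399) (nat_lit 4431) (.f (nat_lit 465) (nat_lit 429) (nat_lit 429) (.d (nat_lit 466) (nat_lit 433) (nat_lit 430) (nat_lit 467) (nat_lit 3503))))) (.f (nat_lit 370) (nat_lit 334) (nat_lit 3406) (.f (nat_lit 371) (nat_lit 336) (nat_lit 3407) (.d (nat_lit 403) (nat_lit 402) (nat_lit 367) (nat_lit 404) (nat_lit 368))))))) (.a s74342 (.a (.p (nat_lit 398) (.a (.f (nat_lit 494) (nat_lit 399) (nat_lit 6510) (.f (nat_lit 527) (nat_lit 495) (nat_lit 4494) (.f (nat_lit 526) (nat_lit 559) (nat_lit 4526) (.d (nat_lit 525) (nat_lit 493) (nat_lit 5517) (nat_lit 561) (nat_lit 525))))) (.d (nat_lit 366) (nat_lit 335) (nat_lit 6478) (nat_lit 397) (nat_lit 1389)))) s74436)))))) (.a (.p (nat_lit 335) (.a (.f (nat_lit 399) (nat_lit 431) (nat_lit 5454) (.d (nat_lit 398) (nat_lit 303) (nat_lit 5422) (nat_lit 366) (nat_lit 6478))) (.a (.f (nat_lit 399) (nat_lit 431) (nat_lit 5454) (.d (nat_lit 398) (nat_lit 366) (nat_lit 6478) (nat_lit 494) (nat_lit 6510))) (.a (.f (nat_lit 399) (nat_lit 431) (nat_lit 5454) (.d (nat_lit 398) (nat_lit 303) (nat_lit 5422) (nat_lit 494) (nat_lit 6510))) (.a (.f (nat_lit 432) (nat_lit 400) (nat_lit 7503) (.f (nat_lit 431) (nat_lit 399) (nat_lit 4431) (.f (nat_lit 465) (nat_lit 429) (nat_lit 429) (.d (nat_lit 466) (nat_lit 433) (nat_lit 430) (nat_lit 467) (nat_lit 3503))))) (.a (.p (nat_lit 369) (.a (.f (nat_lit 370) (nat_lit 334) (nat_lit 3406) (.f (nat_lit 371) (nat_lit 336) (nat_lit 3407) (.d (nat_lit 403) (nat_lit 402) (nat_lit 367) (nat_lit 404) (nat_lit 368)))) (.a (.f (nat_lit 366) (nat_lit 398) (nat_lit 6478) (.f (nat_lit 432) (nat_lit 400) (nat_lit 7503) (.f (nat_lit 401) (nat_lit 402) (nat_lit 366) (.f (nat_lit 433) (nat_lit 337) (nat_lit 5456) (.f (nat_lit 465) (nat_lit 336) (nat_lit 7504) (.d (nat_lit 431) (nat_lit 429) (nat_lit 429) (nat_lit 466) (nat_lit 430))))))) (.f (nat_lit 366) (nat_lit 398) (nat_lit 6478) (.d (nat_lit 334) (nat_lit 333) (nat_lit 3405) (nat_lit 370) (nat_lit 3406)))))) (.f (nat_lit 398) (nat_lit 366) (nat_lit 6478) (.d (nat_lit 399) (nat_lit 303) (nat_lit 5422) (nat_lit 494) (nat_lit 6510))))))))) (.a (.p (nat_lit 432) (.a (.f (nat_lit 400) (nat_lit 335) (nat_lit 7503) (.f (nat_lit 465) (nat_lit 497) (nat_lit 4464) (.f (nat_lit 431) (nat_lit 429) (nat_lit 429) (.d (nat_lit 433) (nat_lit 336) (nat_lit 4432) (nat_lit 466) (nat_lit 430))))) (.a (.p (nat_lit 465) (.a (.f (nat_lit 431) (nat_lit 429) (nat_lit 429) (.d (nat_lit 466) (nat_lit 433) (nat_lit 430) (nat_lit 467) (nat_lit 3503))) (.a (.f (nat_lit 400) (nat_lit 497) (nat_lit 4464) (.f (nat_lit 433) (nat_lit 336) (nat_lit 4432) (.f (nat_lit 431) (nat_lit 466) (nat_lit 430) (.f (nat_lit 401) (nat_lit 402) (nat_lit 2446) (.f (nat_lit 369) (nat_lit 337) (nat_lit 6480) (.f (nat_lit 398) (nat_lit 397) (nat_lit 3469) (.d (nat_lit 370) (nat_lit 338) (nat_lit 6481) (nat_lit 399) (nat_lit 2414)))))))) (.a (.f (nat_lit 400) (nat_lit 497) (nat_lit 4464) (.f (nat_lit 336) (nat_lit 433) (nat_lit 4432) (.d (nat_lit 337) (nat_lit 305) (nat_lit 6448) (nat_lit 369) (nat_lit 6480)))) (.f (nat_lit 400) (nat_lit 497) (nat_lit 4464) (.f (nat_lit 431) (nat_lit 429) (nat_lit 429) (.f (nat_lit 337) (nat_lit 369) (nat_lit 6480) (.f (nat_lit 336) (nat_lit 305) (nat_lit 6448) (.f (nat_lit 399) (nat_lit 304) (nat_lit 5423) (.d (nat_lit 494) (nat_lit 398) (nat_lit 6510) (nat_lit 526) (nat_lit 6542))))))))))) (.a (.f (nat_lit 335) (nat_lit 400) (nat_lit 7503) (.f (nat_lit 399) (nat_lit 431) (nat_lit 5454) (.d (nat_lit 398) (nat_lit 303) (nat_lit 5422) (nat_lit 494) (nat_lit 6510)))) (.a (.p (nat_lit 431) (.a (.f (nat_lit 399) (nat_lit 335) (nat_lit 4431) (.d (nat_lit 494) (nat_lit 398) (nat_lit 6510) (nat_lit 526) (nat_lit 6542))) (.a (.f (nat_lit 429) (nat_lit 465) (nat_lit 429) (.f (nat_lit 397) (nat_lit 396) (nat_lit 3468) (.f (nat_lit 494) (nat_lit 526) (nat_lit 7565) (.d (nat_lit 398) (nat_lit 399) (nat_lit 6510) (nat_lit 433) (nat_lit 3469))))) (.f (nat_lit 465) (nat_lit 429) (nat_lit 429) (.d (nat_lit 466) (nat_lit 433) (nat_lit 430) (nat_lit 467) (nat_lit 3503)))))) (.f (nat_lit 400) (nat_lit 335) (nat_lit 7503) (.f (nat_lit 337) (nat_lit 369) (nat_lit 6480) (.f (nat_lit 336) (nat_lit 305) (nat_lit 6448) (.d (nat_lit 465) (nat_lit 433) (nat_lit 4432) (nat_lit 497) (nat_lit 4464)))))))))) (.a (.p (nat_lit 399) (.a (.f (nat_lit 335) (nat_lit 431) (nat_lit 5454) (.d (nat_lit 398) (nat_lit 303) (nat_lit 5422) (nat_lit 494) (nat_lit 6510))) (.a (.f (nat_lit 335) (nat_lit 431) (nat_lit 5454) (.d (nat_lit 398) (nat_lit 366) (nat_lit 6478) (nat_lit 494) (nat_lit 6510))) (.a (.f (nat_lit 494) (nat_lit 398) (nat_lit 6510) (.f (nat_lit 526) (nat_lit 431) (nat_lit 6542) (.f (nat_lit 527) (nat_lit 559) (nat_lit 4526) (.d (nat_lit 525) (nat_lit 557) (nat_lit 5549) (nat_lit 561) (nat_lit 525))))) (.a (.p (nat_lit 304) (.a (.f (nat_lit 335) (nat_lit 431) (nat_lit 5454) (.d (nat_lit 272) (nat_lit 303) (nat_lit 6415) (nat_lit 336) (nat_lit 5391))) (.a (.f (nat_lit 431) (nat_lit 335) (nat_lit 5454) (.f (nat_lit 400) (nat_lit 336) (nat_lit 5423) (.f (nat_lit 401) (nat_lit 402) (nat_lit 1422) (.d (nat_lit 429) (nat_lit 428) (nat_lit 2444) (nat_lit 432) (nat_lit 2445))))) (.a (.f (nat_lit 336) (nat_lit 272) (nat_lit 5391) (.f (nat_lit 400) (nat_lit 431) (nat_lit 5423) (.f (nat_lit 401) (nat_lit 433) (nat_lit 4400) (.d (nat_lit 402) (nat_lit 366) (nat_lit 3438) (nat_lit 403) (nat_lit 3439))))) (.a (.f (nat_lit 335) (nat_lit 431) (nat_lit 5454) (.f (nat_lit 303) (nat_lit 272) (nat_lit 6415) (.d (nat_lit 400) (nat_lit 271) (nat_lit 4367) (nat_lit 432) (nat_lit 7503)))) (.p (nat_lit 400) (.a (.f (nat_lit 336) (nat_lit 272) (nat_lit 5391) (.f (nat_lit 432) (nat_lit 335) (nat_lit 7503) (.d (nat_lit 305) (nat_lit 273) (nat_lit 6416) (nat_lit 337) (nat_lit 6448)))) (.a (.f (nat_lit 432) (nat_lit 335) (nat_lit 7503) (.f (nat_lit 465) (nat_lit 497) (nat_lit 4464) (.f (nat_lit 336) (nat_lit 433) (nat_lit 4432) (.d (nat_lit 305) (nat_lit 273) (nat_lit 6416) (nat_lit 337) (nat_lit 6448))))) (.a (.f (nat_lit 335) (nat_lit 432) (nat_lit 7503) (.d (nat_lit 272) (nat_lit 303) (nat_lit 6415) (nat_lit 336) (nat_lit 5391))) (.a (.f (nat_lit 336) (nat_lit 272) (nat_lit 5391) (.f (nat_lit 401) (nat_lit 433) (nat_lit 4400) (.d (nat_lit 402) (nat_lit 366) (nat_lit 3438) (nat_lit 403) (nat_lit 3439)))) (.f (nat_lit 335) (nat_lit 432) (nat_lit 7503) (.d (nat_lit 303) (nat_lit 271) (nat_lit 4367) (nat_lit 272) (nat_lit 6415))))))))))))) (.f (nat_lit 398) (nat_lit 494) (nat_lit 6510) (.d (nat_lit 335) (nat_lit 303) (nat_lit 5422) (nat_lit 366) (nat_lit 6478)))))))) (.a (.p (nat_lit 369) (.a (.p (nat_lit 370) (.a (.f (nat_lit 335) (nat_lit 334) (nat_lit 3406) (.f (nat_lit 400) (nat_lit 432) (nat_lit 7503) (.d (nat_lit 371) (nat_lit 336) (nat_lit 3407) (nat_lit 399) (nat_lit 1391)))) (.f (nat_lit 402) (nat_lit 403) (nat_lit 367) (.f (nat_lit 401) (nat_lit 366) (nat_lit 366) (.f (nat_lit 338) (nat_lit 339) (nat_lit 2383) (.d (nat_lit 306) (nat_lit 274) (nat_lit 5393) (nat_lit 433) (nat_lit 5425))))))) (.a (.p (nat_lit 370) (.a (.f (nat_lit 335) (nat_lit 334) (nat_lit 3406) (.f (nat_lit 400) (nat_lit 432) (nat_lit 7503) (.d (nat_lit 371) (nat_lit 336) (nat_lit 3407) (nat_lit 399) (nat_lit 1391)))) (.f (nat_lit 402) (nat_lit 403) (nat_lit 367) (.f (nat_lit 401) (nat_lit 366) (nat_lit 366) (.f (nat_lit 338) (nat_lit 339) (nat_lit 2383) (.d (nat_lit 433) (nat_lit 306) (nat_lit 5425) (nat_lit 465) (nat_lit 6481))))))) (.a s73449 (.a s73459 (.a s74410 (.a s73479 (.a s73497 (.a s73507 (.a (.p (nat_lit 401) (.a (.f (nat_lit 402) (nat_lit 366) (nat_lit 366) (.d (nat_lit 403) (nat_lit 400) (nat_lit 3439) (nat_lit 404) (nat_lit 3440))) (.a (.p (nat_lit 400) (.a (.d (nat_lit 432) (nat_lit 335) (nat_lit 7503) (nat_lit 337) (nat_lit 6480)) (.a (.f (nat_lit 337) (nat_lit 432) (nat_lit 6480) (.f (nat_lit 402) (nat_lit 403) (nat_lit 3439) (.d (nat_lit 305) (nat_lit 273) (nat_lit 5392) (nat_lit 434) (nat_lit 4401)))) (.a (.f (nat_lit 432) (nat_lit 335) (nat_lit 7503) (.f (nat_lit 431) (nat_lit 429) (nat_lit 2445) (.d (nat_lit 402) (nat_lit 403) (nat_lit 3439) (nat_lit 433) (nat_lit 2446)))) (.f (nat_lit 402) (nat_lit 403) (nat_lit 3439) (.f (nat_lit 399) (nat_lit 431) (nat_lit 1422) (.f (nat_lit 434) (nat_lit 435) (nat_lit 399) (.f (nat_lit 337) (nat_lit 305) (nat_lit 4401) (.d (nat_lit 466) (nat_lit 433) (nat_lit 4433) (nat_lit 498) (nat_lit 7537)))))))))) (.a (.f (nat_lit 366) (nat_lit 402) (nat_lit 366) (.f (nat_lit 337) (nat_lit 338) (nat_lit 2382) (.f (nat_lit 433) (nat_lit 432) (nat_lit 5456) (.d (nat_lit 336) (nat_lit 304) (nat_lit 7472) (nat_lit 465) (nat_lit 7504))))) (.p (nat_lit 337) (.a (.d (nat_lit 432) (nat_lit 400) (nat_lit 6480) (nat_lit 433) (nat_lit 5456)) (.a (.f (nat_lit 433) (nat_lit 432) (nat_lit 5456) (.d (nat_lit 338) (nat_lit 306) (nat_lit 6449) (nat_lit 366) (nat_lit 2382))) (.f (nat_lit 338) (nat_lit 366) (nat_lit 2382) (.d (nat_lit 339) (nat_lit 336) (nat_lit 1359) (nat_lit 340) (nat_lit 1360)))))))))) (.a s73514 (.a (.p (nat_lit 335) (.a (.f (nat_lit 400) (nat_lit 432) (nat_lit 7503) (.f (nat_lit 399) (nat_lit 431) (nat_lit 5454) (.d (nat_lit 370) (nat_lit 334) (nat_lit 3406) (nat_lit 371) (nat_lit 1391)))) (.a (.f (nat_lit 432) (nat_lit 400) (nat_lit 7503) (.f (nat_lit 431) (nat_lit 399) (nat_lit 4431) (.f (nat_lit 465) (nat_lit 429) (nat_lit 429) (.d (nat_lit 466) (nat_lit 433) (nat_lit 430) (nat_lit 467) (nat_lit 3503))))) (.f (nat_lit 370) (nat_lit 334) (nat_lit 3406) (.f (nat_lit 371) (nat_lit 336) (nat_lit 3407) (.d (nat_lit 403) (nat_lit 402) (nat_lit 367) (nat_lit 404) (nat_lit 368))))))) (.a (.p (nat_lit 335) (.a (.f (nat_lit 400) (nat_lit 432) (nat_lit 7503) (.f (nat_lit 399) (nat_lit 431) (nat_lit 5454) (.d (nat_lit 370) (nat_lit 334) (nat_lit 3406) (nat_lit 371) (nat_lit 1391)))) (.a (.f (nat_lit 432) (nat_lit 400) (nat_lit 7503) (.f (nat_lit 431) (nat_lit 399) (nat_lit 4431) (.f (nat_lit 465) (nat_lit 429) (nat_lit 429) (.d (nat_lit 466) (nat_lit 433) (nat_lit 430) (nat_lit 467) (nat_lit 3503))))) (.f (nat_lit 370) (nat_lit 334) (nat_lit 3406) (.f (nat_lit 371) (nat_lit 336) (nat_lit 3407) (.d (nat_lit 339) (nat_lit 338) (nat_lit 2383) (nat_lit 340) (nat_lit 2384))))))) (.a s73518 s73519)))))))))))))) (.a (.p (nat_lit 369) (.a s73514 (.a s74423 (.a (.p (nat_lit 366) (.a (.f (nat_lit 337) (nat_lit 338) (nat_lit 2382) (.f (nat_lit 401) (nat_lit 402) (nat_lit 366) (.d (nat_lit 432) (nat_lit 400) (nat_lit 6480) (nat_lit 433) (nat_lit 5456)))) (.d (nat_lit 398) (nat_lit 335) (nat_lit 6478) (nat_lit 397) (nat_lit 1389)))) (.a s74436 (.a (.p (nat_lit 335) (.a (.f (nat_lit 370) (nat_lit 334) (nat_lit 3406) (.f (nat_lit 371) (nat_lit 336) (nat_lit 3407) (.d (nat_lit 403) (nat_lit 402) (nat_lit 367) (nat_lit 404) (nat_lit 368)))) (.a (.f (nat_lit 366) (nat_lit 398) (nat_lit 6478) (.f (nat_lit 432) (nat_lit 400) (nat_lit 7503) (.f (nat_lit 401) (nat_lit 402) (nat_lit 366) (.f (nat_lit 433) (nat_lit 337) (nat_lit 5456) (.f (nat_lit 465) (nat_lit 336) (nat_lit 7504) (.d (nat_lit 431) (nat_lit 429) (nat_lit 429) (nat_lit 466) (nat_lit 430))))))) (.f (nat_lit 366) (nat_lit 398) (nat_lit 6478) (.d (nat_lit 334) (nat_lit 333) (nat_lit 3405) (nat_lit 370) (nat_lit 3406)))))) (.a (.p (nat_lit 370) (.a (.f (nat_lit 335) (nat_lit 334) (nat_lit 3406) (.f (nat_lit 371) (nat_lit 336) (nat_lit 3407) (.d (nat_lit 339) (nat_lit 338) (nat_lit 2383) (nat_lit 340) (nat_lit 2384)))) (.a (.f (nat_lit 403) (nat_lit 402) (nat_lit 367) (.f (nat_lit 371) (nat_lit 404) (nat_lit 368) (.f (nat_lit 340) (nat_lit 339) (nat_lit 2384) (.f (nat_lit 372) (nat_lit 341) (nat_lit 2385) (.f (nat_lit 400) (nat_lit 401) (nat_lit 1392) (.d (nat_lit 337) (nat_lit 336) (nat_lit 3408) (nat_lit 432) (nat_lit 6480))))))) (.a (.f (nat_lit 339) (nat_lit 338) (nat_lit 2383) (.f (nat_lit 371) (nat_lit 340) (nat_lit 2384) (.d (nat_lit 403) (nat_lit 402) (nat_lit 367) (nat_lit 404) (nat_lit 368)))) (.a (.f (nat_lit 335) (nat_lit 334) (nat_lit 3406) (.f (nat_lit 371) (nat_lit 336) (nat_lit 3407) (.d (nat_lit 403) (nat_lit 402) (nat_lit 367) (nat_lit 404) (nat_lit 368)))) (.p (nat_lit 337) (.a (.f (nat_lit 338) (nat_lit 339) (nat_lit 2383) (.f (nat_lit 402) (nat_lit 403) (nat_lit 367) (.d (nat_lit 305) (nat_lit 273) (nat_lit 4369) (nat_lit 434) (nat_lit 7473)))) (.a (.f (nat_lit 338) (nat_lit 339) (nat_lit 2383) (.f (nat_lit 402) (nat_lit 403) (nat_lit 367) (.d (nat_lit 434) (nat_lit 305) (nat_lit 7473) (nat_lit 466) (nat_lit 7505)))) (.a (.f (nat_lit 338) (nat_lit 339) (nat_lit 2383) (.f (nat_lit 402) (nat_lit 403) (nat_lit 367) (.f (nat_lit 434) (nat_lit 466) (nat_lit 7505) (.f (nat_lit 433) (nat_lit 465) (nat_lit 5457) (.d (nat_lit 401) (nat_lit 306) (nat_lit 5425) (nat_lit 432) (nat_lit 5456)))))) (.a (.f (nat_lit 402) (nat_lit 403) (nat_lit 367) (.f (nat_lit 305) (nat_lit 273) (nat_lit 4369) (.d (nat_lit 434) (nat_lit 401) (nat_lit 4401) (nat_lit 466) (nat_lit 7505)))) (.f (nat_lit 338) (nat_lit 339) (nat_lit 2383) (.f (nat_lit 335) (nat_lit 334) (nat_lit 3406) (.f (nat_lit 400) (nat_lit 432) (nat_lit 7503) (.f (nat_lit 305) (nat_lit 273) (nat_lit 5392) (.f (nat_lit 303) (nat_lit 271) (nat_lit 4367) (.d (nat_lit 302) (nat_lit 304) (nat_lit 302) (nat_lit 336) (nat_lit 3374))))))))))))))))) (.a (.p (nat_lit 335) (.a (.f (nat_lit 370) (nat_lit 334) (nat_lit 3406) (.f (nat_lit 371) (nat_lit 336) (nat_lit 3407) (.d (nat_lit 403) (nat_lit 402) (nat_lit 367) (nat_lit 404) (nat_lit 368)))) (.a (.f (nat_lit 366) (nat_lit 398) (nat_lit 6478) (.f (nat_lit 338) (nat_lit 337) (nat_lit 2382) (.f (nat_lit 370) (nat_lit 339) (nat_lit 2383) (.f (nat_lit 403) (nat_lit 402) (nat_lit 367) (.d (nat_lit 371) (nat_lit 336) (nat_lit 3407) (nat_lit 404) (nat_lit 368)))))) (.a (.f (nat_lit 366) (nat_lit 398) (nat_lit 6478) (.d (nat_lit 334) (nat_lit 333) (nat_lit 3405) (nat_lit 370) (nat_lit 3406))) (.f (nat_lit 366) (nat_lit 398) (nat_lit 6478) (.f (nat_lit 334) (nat_lit 333) (nat_lit 3405) (.f (nat_lit 337) (nat_lit 338) (nat_lit 2382) (.f (nat_lit 400) (nat_lit 432) (nat_lit 6480) (.f (nat_lit 305) (nat_lit 273) (nat_lit 5392) (.f (nat_lit 303) (nat_lit 271) (nat_lit 4367) (.d (nat_lit 306) (nat_lit 304) (nat_lit 1326) (nat_lit 336) (nat_lit 2350)))))))))))) (.p (nat_lit 335) (.a (.f (nat_lit 370) (nat_lit 334) (nat_lit 3406) (.f (nat_lit 371) (nat_lit 336) (nat_lit 3407) (.d (nat_lit 339) (nat_lit 338) (nat_lit 2383) (nat_lit 340) (nat_lit 2384)))) (.a (.f (nat_lit 400) (nat_lit 432) (nat_lit 7503) (.f (nat_lit 366) (nat_lit 398) (nat_lit 6478) (.f (nat_lit 338) (nat_lit 337) (nat_lit 2382) (.f (nat_lit 370) (nat_lit 339) (nat_lit 2383) (.f (nat_lit 371) (nat_lit 336) (nat_lit 3407) (.f (nat_lit 372) (nat_lit 401) (nat_lit 1392) (.d (nat_lit 404) (nat_lit 403) (nat_lit 368) (nat_lit 405) (nat_lit 369)))))))) (.a (.f (nat_lit 366) (nat_lit 398) (nat_lit 6478) (.d (nat_lit 334) (nat_lit 333) (nat_lit 3405) (nat_lit 370) (nat_lit 3406))) (.f (nat_lit 366) (nat_lit 398) (nat_lit 6478) (.f (nat_lit 334) (nat_lit 333) (nat_lit 3405) (.f (nat_lit 337) (nat_lit 338) (nat_lit 2382) (.f (nat_lit 400) (nat_lit 432) (nat_lit 6480) (.f (nat_lit 305) (nat_lit 273) (nat_lit 5392) (.f (nat_lit 303) (nat_lit 271) (nat_lit 4367) (.d (nat_lit 306) (nat_lit 304) (nat_lit 1326) (nat_lit 336) (nat_lit 2350)))))))))))))))))))) (.a (.p (nat_lit 398) (.a (.f (nat_lit 399) (nat_lit 494) (nat_lit 6510) (.d (nat_lit 335) (nat_lit 366) (nat_lit 6478) (nat_lit 431) (nat_lit 5454))) (.a (.f (nat_lit 399) (nat_lit 494) (nat_lit 6510) (.f (nat_lit 397) (nat_lit 396) (nat_lit 2412) (.d (nat_lit 369) (nat_lit 366) (nat_lit 1389) (nat_lit 370) (nat_lit 1390)))) (.a (.f (nat_lit 399) (nat_lit 494) (nat_lit 6510) (.d (nat_lit 335) (nat_lit 303) (nat_lit 5422) (nat_lit 431) (nat_lit 5454))) (.f (nat_lit 366) (nat_lit 335) (nat_lit 6478) (.f (nat_lit 369) (nat_lit 397) (nat_lit 1389) (.f (nat_lit 338) (nat_lit 337) (nat_lit 2382) (.f (nat_lit 370) (nat_lit 339) (nat_lit 2383) (.d (nat_lit 402) (nat_lit 401) (nat_lit 366) (nat_lit 403) (nat_lit 367)))))))))) (.a (.p (nat_lit 335) (.a (.f (nat_lit 399) (nat_lit 431) (nat_lit 5454) (.d (nat_lit 398) (nat_lit 303) (nat_lit 5422) (nat_lit 366) (nat_lit 6478))) (.a (.f (nat_lit 399) (nat_lit 431) (nat_lit 5454) (.d (nat_lit 398) (nat_lit 366) (nat_lit 6478) (nat_lit 494) (nat_lit 6510))) (.a (.f (nat_lit 399) (nat_lit 431) (nat_lit 5454) (.d (nat_lit 398) (nat_lit 303) (nat_lit 5422) (nat_lit 494) (nat_lit 6510))) (.a (.f (nat_lit 432) (nat_lit 400) (nat_lit 7503) (.f (nat_lit 431) (nat_lit 399) (nat_lit 4431) (.f (nat_lit 465) (nat_lit 429) (nat_lit 429) (.d (nat_lit 466) (nat_lit 433) (nat_lit 430) (nat_lit 467) (nat_lit 3503))))) (.p (nat_lit 369) (.a (.f (nat_lit 370) (nat_lit 334) (nat_lit 3406) (.f (nat_lit 371) (nat_lit 336) (nat_lit 3407) (.d (nat_lit 403) (nat_lit 402) (nat_lit 367) (nat_lit 404) (nat_lit 368)))) (.a (.f (nat_lit 366) (nat_lit 398) (nat_lit 6478) (.f (nat_lit 338) (nat_lit 337) (nat_lit 2382) (.f (nat_lit 370) (nat_lit 339) (nat_lit 2383) (.f (nat_lit 403) (nat_lit 402) (nat_lit 367) (.d (nat_lit 371) (nat_lit 336) (nat_lit 3407) (nat_lit 404) (nat_lit 368)))))) (.a (.f (nat_lit 366) (nat_lit 398) (nat_lit 6478) (.d (nat_lit 334) (nat_lit 333) (nat_lit 3405) (nat_lit 370) (nat_lit 3406))) (.f (nat_lit 366) (nat_lit 398) (nat_lit 6478) (.f (nat_lit 334) (nat_lit 333) (nat_lit 3405) (.f (nat_lit 337) (nat_lit 338) (nat_lit 2382) (.f (nat_lit 400) (nat_lit 432) (nat_lit 6480) (.f (nat_lit 305) (nat_lit 273) (nat_lit 5392) (.f (nat_lit 303) (nat_lit 271) (nat_lit 4367) (.d (nat_lit 306) (nat_lit 304) (nat_lit 1326) (nat_lit 336) (nat_lit 2350))))))))))))))))) (.a (.p (nat_lit 335) (.a (.f (nat_lit 399) (nat_lit 431) (nat_lit 5454) (.d (nat_lit 398) (nat_lit 303) (nat_lit 5422) (nat_lit 366) (nat_lit 6478))) (.a (.f (nat_lit 399) (nat_lit 431) (nat_lit 5454) (.d (nat_lit 398) (nat_lit 366) (nat_lit 6478) (nat_lit 494) (nat_lit 6510))) (.a (.f (nat_lit 399) (nat_lit 431) (nat_lit 5454) (.d (nat_lit 398) (nat_lit 303) (nat_lit 5422) (nat_lit 494) (nat_lit 6510))) (.a (.f (nat_lit 432) (nat_lit 400) (nat_lit 7503) (.f (nat_lit 431) (nat_lit 399) (nat_lit 4431) (.f (nat_lit 465) (nat_lit 429) (nat_lit 429) (.d (nat_lit 466) (nat_lit 433) (nat_lit 430) (nat_lit 467) (nat_lit 3503))))) (.p (nat_lit 369) (.a (.f (nat_lit 370) (nat_lit 334) (nat_lit 3406) (.f (nat_lit 371) (nat_lit 336) (nat_lit 3407) (.d (nat_lit 339) (nat_lit 338) (nat_lit 2383) (nat_lit 340) (nat_lit 2384)))) (.a (.f (nat_lit 400) (nat_lit 432) (nat_lit 7503) (.f (nat_lit 366) (nat_lit 398) (nat_lit 6478) (.f (nat_lit 338) (nat_lit 337) (nat_lit 2382) (.f (nat_lit 370) (nat_lit 339) (nat_lit 2383) (.f (nat_lit 371) (nat_lit 336) (nat_lit 3407) (.f (nat_lit 372) (nat_lit 401) (nat_lit 1392) (.d (nat_lit 404) (nat_lit 403) (nat_lit 368) (nat_lit 405) (nat_lit 369)))))))) (.a (.f (nat_lit 366) (nat_lit 398) (nat_lit 6478) (.d (nat_lit 334) (nat_lit 333) (nat_lit 3405) (nat_lit 370) (nat_lit 3406))) (.f (nat_lit 366) (nat_lit 398) (nat_lit 6478) (.f (nat_lit 334) (nat_lit 333) (nat_lit 3405) (.f (nat_lit 337) (nat_lit 338) (nat_lit 2382) (.f (nat_lit 400) (nat_lit 432) (nat_lit 6480) (.f (nat_lit 305) (nat_lit 273) (nat_lit 5392) (.f (nat_lit 303) (nat_lit 271) (nat_lit 4367) (.d (nat_lit 306) (nat_lit 304) (nat_lit 1326) (nat_lit 336) (nat_lit 2350))))))))))))))))) (.p (nat_lit 398) (.a (.f (nat_lit 399) (nat_lit 494) (nat_lit 6510) (.f (nat_lit 397) (nat_lit 396) (nat_lit 2412) (.d (nat_lit 369) (nat_lit 366) (nat_lit 1389) (nat_lit 370) (nat_lit 1390)))) (.a (.f (nat_lit 399) (nat_lit 494) (nat_lit 6510) (.f (nat_lit 397) (nat_lit 396) (nat_lit 2412) (.d (nat_lit 369) (nat_lit 370) (nat_lit 1390) (nat_lit 400) (nat_lit 2413)))) (.a (.f (nat_lit 335) (nat_lit 366) (nat_lit 6478) (.d (nat_lit 399) (nat_lit 303) (nat_lit 5422) (nat_lit 494) (nat_lit 6510))) (.f (nat_lit 366) (nat_lit 335) (nat_lit 6478) (.f (nat_lit 369) (nat_lit 397) (nat_lit 1389) (.f (nat_lit 337) (nat_lit 338) (nat_lit 2382) (.f (nat_lit 401) (nat_lit 402) (nat_lit 366) (.d (nat_lit 432) (nat_lit 400) (nat_lit 6480) (nat_lit 433) (nat_lit 5456))))))))))))))))))))))) (.a (.p (nat_lit 399) (.a (.f (nat_lit 335) (nat_lit 431) (nat_lit 5454) (.d (nat_lit 398) (nat_lit 303) (nat_lit 5422) (nat_lit 494) (nat_lit 6510))) (.a (.f (nat_lit 431) (nat_lit 335) (nat_lit 5454) (.d (nat_lit 494) (nat_lit 398) (nat_lit 6510) (nat_lit 526) (nat_lit 6542))) (.a (.f (nat_lit 494) (nat_lit 398) (nat_lit 6510) (.f (nat_lit 526) (nat_lit 431) (nat_lit 6542) (.f (nat_lit 527) (nat_lit 559) (nat_lit 4526) (.d (nat_lit 525) (nat_lit 557) (nat_lit 5549) (nat_lit 561) (nat_lit 525))))) (.a (.f (nat_lit 335) (nat_lit 431) (nat_lit 5454) (.p (nat_lit 303) (.a (.f (nat_lit 400) (nat_lit 432) (nat_lit 4399) (.f (nat_lit 271) (nat_lit 368) (nat_lit 4367) (.d (nat_lit 272) (nat_lit 240) (nat_lit 6383) (nat_lit 304) (nat_lit 6415)))) (.a (.f (nat_lit 400) (nat_lit 432) (nat_lit 4399) (.f (nat_lit 271) (nat_lit 368) (nat_lit 4367) (.d (nat_lit 270) (nat_lit 238) (nat_lit 7406) (nat_lit 302) (nat_lit 7438)))) (.a (.f (nat_lit 304) (nat_lit 272) (nat_lit 6415) (.p (nat_lit 305) (.a (.f (nat_lit 302) (nat_lit 270) (nat_lit 7438) (.d (nat_lit 334) (nat_lit 306) (nat_lit 1326) (nat_lit 333) (nat_lit 1325))) (.a (.f (nat_lit 306) (nat_lit 334) (nat_lit 1326) (.f (nat_lit 307) (nat_lit 336) (nat_lit 1327) (.d (nat_lit 275) (nat_lit 274) (nat_lit 2319) (nat_lit 276) (nat_lit 2320)))) (.a (.f (nat_lit 302) (nat_lit 270) (nat_lit 7438) (.f (nat_lit 333) (nat_lit 334) (nat_lit 1325) (.f (nat_lit 301) (nat_lit 332) (nat_lit 1324) (.d (nat_lit 337) (nat_lit 336) (nat_lit 301) (nat_lit 338) (nat_lit 302))))) (.f (nat_lit 302) (nat_lit 270) (nat_lit 7438) (.f (nat_lit 337) (nat_lit 338) (nat_lit 302) (.f (nat_lit 336) (nat_lit 301) (nat_lit 301) (.f (nat_lit 400) (nat_lit 432) (nat_lit 4399) (.d (nat_lit 273) (nat_lit 274) (nat_lit 2318) (nat_lit 368) (nat_lit 6416))))))))))) (.f (nat_lit 270) (nat_lit 302) (nat_lit 7438) (.f (nat_lit 271) (nat_lit 238) (nat_lit 7406) (.d (nat_lit 272) (nat_lit 240) (nat_lit 6383) (nat_lit 304) (nat_lit 6415))))))))) (.f (nat_lit 398) (nat_lit 494) (nat_lit 6510) (.p (nat_lit 400) (.a (.f (nat_lit 335) (nat_lit 303) (nat_lit 5422) (.f (nat_lit 368) (nat_lit 432) (nat_lit 7503) (.d (nat_lit 369) (nat_lit 370) (nat_lit 1390) (nat_lit 397) (nat_lit 2413)))) (.a (.f (nat_lit 401) (nat_lit 429) (nat_lit 1421) (.f (nat_lit 369) (nat_lit 370) (nat_lit 2414) (.f (nat_lit 368) (nat_lit 397) (nat_lit 2413) (.d (nat_lit 432) (nat_lit 335) (nat_lit 7503) (nat_lit 337) (nat_lit 6480))))) (.a (.f (nat_lit 401) (nat_lit 429) (nat_lit 1421) (.f (nat_lit 369) (nat_lit 370) (nat_lit 2414) (.f (nat_lit 368) (nat_lit 397) (nat_lit 2413) (.f (nat_lit 433) (nat_lit 434) (nat_lit 398) (.d (nat_lit 336) (nat_lit 304) (nat_lit 4400) (nat_lit 465) (nat_lit 7504)))))) (.a (.f (nat_lit 401) (nat_lit 429) (nat_lit 1421) (.f (nat_lit 433) (nat_lit 434) (nat_lit 398) (.f (nat_lit 369) (nat_lit 370) (nat_lit 2414) (.d (nat_lit 432) (nat_lit 337) (nat_lit 5456) (nat_lit 397) (nat_lit 397))))) (.a (.f (nat_lit 429) (nat_lit 401) (nat_lit 1421) (.d (nat_lit 428) (nat_lit 397) (nat_lit 1420) (nat_lit 427) (nat_lit 2443))) (.f (nat_lit 401) (nat_lit 429) (nat_lit 1421) (.f (nat_lit 335) (nat_lit 303) (nat_lit 5422) (.f (nat_lit 368) (nat_lit 432) (nat_lit 7503) (.f (nat_lit 369) (nat_lit 370) (nat_lit 2414) (.f (nat_lit 433) (nat_lit 434) (nat_lit 398) (.d (nat_lit 336) (nat_lit 304) (nat_lit 4400) (nat_lit 465) (nat_lit 7504))))))))))))))))))) (.a (.p (nat_lit 398) (.a (.f (nat_lit 494) (nat_lit 399) (nat_lit 6510) (.f (nat_lit 397) (nat_lit 365) (nat_lit 7533) (.f (nat_lit 526) (nat_lit 429) (nat_lit 7565) (.d (nat_lit 525) (nat_lit 493) (nat_lit 5517) (nat_lit 557) (nat_lit 5549))))) (.a (.f (nat_lit 399) (nat_lit 494) (nat_lit 6510) (.d (nat_lit 335) (nat_lit 366) (nat_lit 6478) (nat_lit 431) (nat_lit 5454))) (.a (.f (nat_lit 366) (nat_lit 335) (nat_lit 6478) (.f (nat_lit 365) (nat_lit 333) (nat_lit 7501) (.f (nat_lit 494) (nat_lit 397) (nat_lit 7533) (.f (nat_lit 527) (nat_lit 495) (nat_lit 4494) (.f (nat_lit 526) (nat_lit 559) (nat_lit 4526) (.d (nat_lit 525) (nat_lit 493) (nat_lit 5517) (nat_lit 561) (nat_lit 525))))))) (.f (nat_lit 335) (nat_lit 366) (nat_lit 6478) (.d (nat_lit 399) (nat_lit 303) (nat_lit 5422) (nat_lit 431) (nat_lit 5454))))))) (.a (.p (nat_lit 366) (.a (.f (nat_lit 398) (nat_lit 335) (nat_lit 6478) (.f (nat_lit 399) (nat_lit 494) (nat_lit 6510) (.f (nat_lit 365) (nat_lit 333) (nat_lit 7501) (.d (nat_lit 364) (nat_lit 363) (nat_lit 363) (nat_lit 400) (nat_lit 364))))) (.a (.f (nat_lit 398) (nat_lit 335) (nat_lit 6478) (.f (nat_lit 494) (nat_lit 399) (nat_lit 6510) (.f (nat_lit 527) (nat_lit 495) (nat_lit 4494) (.f (nat_lit 526) (nat_lit 559) (nat_lit 4526) (.d (nat_lit 525) (nat_lit 493) (nat_lit 5517) (nat_lit 561) (nat_lit 525)))))) (.a (.p (nat_lit 365) (.a (.f (nat_lit 398) (nat_lit 333) (nat_lit 7501) (.f (nat_lit 399) (nat_lit 494) (nat_lit 6510) (.d (nat_lit 364) (nat_lit 363) (nat_lit 363) (nat_lit 400) (nat_lit 364)))) (.a (.p (nat_lit 364) (.a (.f (nat_lit 399) (nat_lit 400) (nat_lit 364) (.d (nat_lit 398) (nat_lit 363) (nat_lit 363) (nat_lit 494) (nat_lit 6510))) (.a (.f (nat_lit 399) (nat_lit 400) (nat_lit 364) (.f (nat_lit 494) (nat_lit 398) (nat_lit 6510) (.f (nat_lit 526) (nat_lit 431) (nat_lit 6542) (.f (nat_lit 527) (nat_lit 559) (nat_lit 4526) (.d (nat_lit 525) (nat_lit 557) (nat_lit 5549) (nat_lit 561) (nat_lit 525)))))) (.f (nat_lit 395) (nat_lit 396) (nat_lit 1387) (.f (nat_lit 363) (nat_lit 394) (nat_lit 1386) (.d (nat_lit 331) (nat_lit 330) (nat_lit 3402) (nat_lit 332) (nat_lit 3403))))))) (.a (.p (nat_lit 399) (.a (.f (nat_lit 398) (nat_lit 494) (nat_lit 6510) (.d (nat_lit 400) (nat_lit 364) (nat_lit 364) (nat_lit 401) (nat_lit 3437))) (.a (.f (nat_lit 494) (nat_lit 398) (nat_lit 6510) (.f (nat_lit 526) (nat_lit 431) (nat_lit 6542) (.f (nat_lit 527) (nat_lit 559) (nat_lit 4526) (.d (nat_lit 525) (nat_lit 557) (nat_lit 5549) (nat_lit 561) (nat_lit 525))))) (.f (nat_lit 400) (nat_lit 364) (nat_lit 364) (.d (nat_lit 401) (nat_lit 368) (nat_lit 365) (nat_lit 402) (nat_lit 3438)))))) (.a (.f (nat_lit 398) (nat_lit 333) (nat_lit 7501) (.f (nat_lit 494) (nat_lit 399) (nat_lit 6510) (.f (nat_lit 527) (nat_lit 495) (nat_lit 4494) (.f (nat_lit 526) (nat_lit 559) (nat_lit 4526) (.d (nat_lit 525) (nat_lit 493) (nat_lit 5517) (nat_lit 561) (nat_lit 525)))))) (.a s73656 (.f (nat_lit 333) (nat_lit 398) (nat_lit 7501) (.f (nat_lit 368) (nat_lit 332) (nat_lit 3404) (.f (nat_lit 369) (nat_lit 334) (nat_lit 3405) (.d (nat_lit 337) (nat_lit 336) (nat_lit 2381) (nat_lit 338) (nat_lit 2382))))))))))) (.a (.p (nat_lit 368) (.a (.p (nat_lit 369) (.a (.f (nat_lit 337) (nat_lit 338) (nat_lit 2382) (.f (nat_lit 401) (nat_lit 402) (nat_lit 366) (.d (nat_lit 365) (nat_lit 336) (nat_lit 2381) (nat_lit 400) (nat_lit 365)))) (.a (.f (nat_lit 401) (nat_lit 402) (nat_lit 366) (.f (nat_lit 400) (nat_lit 365) (nat_lit 365) (.d (nat_lit 337) (nat_lit 338) (nat_lit 2382) (nat_lit 432) (nat_lit 6480)))) (.a (.f (nat_lit 401) (nat_lit 402) (nat_lit 366) (.f (nat_lit 400) (nat_lit 365) (nat_lit 365) (.f (nat_lit 432) (nat_lit 335) (nat_lit 7503) (.f (nat_lit 465) (nat_lit 497) (nat_lit 4464) (.f (nat_lit 433) (nat_lit 336) (nat_lit 4432) (.d (nat_lit 431) (nat_lit 429) (nat_lit 2445) (nat_lit 466) (nat_lit 430))))))) (.a (.f (nat_lit 337) (nat_lit 338) (nat_lit 2382) (.f (nat_lit 401) (nat_lit 402) (nat_lit 366) (.d (nat_lit 432) (nat_lit 400) (nat_lit 6480) (nat_lit 433) (nat_lit 5456)))) (.a (.f (nat_lit 337) (nat_lit 338) (nat_lit 2382) (.f (nat_lit 401) (nat_lit 402) (nat_lit 366) (.f (nat_lit 336) (nat_lit 365) (nat_lit 2381) (.d (nat_lit 433) (nat_lit 304) (nat_lit 7472) (nat_lit 432) (nat_lit 5456))))) (.f (nat_lit 337) (nat_lit 338) (nat_lit 2382) (.f (nat_lit 400) (nat_lit 432) (nat_lit 6480) (.f (nat_lit 336) (nat_lit 365) (nat_lit 2381) (.f (nat_lit 334) (nat_lit 333) (nat_lit 3405) (.f (nat_lit 335) (nat_lit 370) (nat_lit 334) (.d (nat_lit 305) (nat_lit 273) (nat_lit 5392) (nat_lit 306) (nat_lit 2350))))))))))))) (.a (.p (nat_lit 369) (.a (.f (nat_lit 337) (nat_lit 338) (nat_lit 2382) (.f (nat_lit 401) (nat_lit 402) (nat_lit 366) (.d (nat_lit 365) (nat_lit 336) (nat_lit 2381) (nat_lit 400) (nat_lit 365)))) (.a (.f (nat_lit 401) (nat_lit 402) (nat_lit 366) (.f (nat_lit 400) (nat_lit 365) (nat_lit 365) (.d (nat_lit 337) (nat_lit 338) (nat_lit 2382) (nat_lit 432) (nat_lit 6480)))) (.a (.f (nat_lit 401) (nat_lit 402) (nat_lit 366) (.f (nat_lit 400) (nat_lit 365) (nat_lit 365) (.f (nat_lit 432) (nat_lit 335) (nat_lit 7503) (.f (nat_lit 465) (nat_lit 497) (nat_lit 4464) (.f (nat_lit 433) (nat_lit 336) (nat_lit 4432) (.d (nat_lit 431) (nat_lit 429) (nat_lit 2445) (nat_lit 466) (nat_lit 430))))))) (.a (.f (nat_lit 337) (nat_lit 338) (nat_lit 2382) (.f (nat_lit 401) (nat_lit 402) (nat_lit 366) (.d (nat_lit 432) (nat_lit 400) (nat_lit 6480) (nat_lit 433) (nat_lit 5456)))) (.a (.f (nat_lit 337) (nat_lit 338) (nat_lit 2382) (.f (nat_lit 401) (nat_lit 402) (nat_lit 366) (.f (nat_lit 336) (nat_lit 365) (nat_lit 2381) (.d (nat_lit 433) (nat_lit 304) (nat_lit 7472) (nat_lit 432) (nat_lit 5456))))) (.f (nat_lit 337) (nat_lit 338) (nat_lit 2382) (.f (nat_lit 334) (nat_lit 333) (nat_lit 3405) (.f (nat_lit 335) (nat_lit 370) (nat_lit 3406) (.f (nat_lit 336) (nat_lit 365) (nat_lit 2381) (.f (nat_lit 399) (nat_lit 431) (nat_lit 5454) (.d (nat_lit 302) (nat_lit 270) (nat_lit 4366) (nat_lit 301) (nat_lit 3373))))))))))))) (.a (.p (nat_lit 369) (.a (.f (nat_lit 337) (nat_lit 338) (nat_lit 2382) (.f (nat_lit 401) (nat_lit 402) (nat_lit 366) (.d (nat_lit 365) (nat_lit 336) (nat_lit 2381) (nat_lit 400) (nat_lit 365)))) (.a (.f (nat_lit 401) (nat_lit 402) (nat_lit 366) (.f (nat_lit 400) (nat_lit 365) (nat_lit 365) (.d (nat_lit 337) (nat_lit 338) (nat_lit 2382) (nat_lit 432) (nat_lit 6480)))) (.a (.f (nat_lit 401) (nat_lit 402) (nat_lit 366) (.f (nat_lit 400) (nat_lit 365) (nat_lit 365) (.f (nat_lit 432) (nat_lit 335) (nat_lit 7503) (.f (nat_lit 465) (nat_lit 497) (nat_lit 4464) (.f (nat_lit 433) (nat_lit 336) (nat_lit 4432) (.d (nat_lit 431) (nat_lit 429) (nat_lit 2445) (nat_lit 466) (nat_lit 430))))))) (.a (.f (nat_lit 337) (nat_lit 338) (nat_lit 2382) (.f (nat_lit 401) (nat_lit 402) (nat_lit 366) (.d (nat_lit 432) (nat_lit 400) (nat_lit 6480) (nat_lit 433) (nat_lit 5456)))) (.f (nat_lit 337) (nat_lit 338) (nat_lit 2382) (.f (nat_lit 334) (nat_lit 333) (nat_lit 3405) (.f (nat_lit 335) (nat_lit 370) (nat_lit 3406) (.f (nat_lit 336) (nat_lit 365) (nat_lit 2381) (.f (nat_lit 399) (nat_lit 431) (nat_lit 5454) (.d (nat_lit 302) (nat_lit 270) (nat_lit 4366) (nat_lit 301) (nat_lit 3373)))))))))))) (.a (.p (nat_lit 400) (.a (.f (nat_lit 432) (nat_lit 335) (nat_lit 7503) (.f (nat_lit 401) (nat_lit 365) (nat_lit 365) (.d (nat_lit 369) (nat_lit 337) (nat_lit 6480) (nat_lit 402) (nat_lit 366)))) (.a (.f (nat_lit 401) (nat_lit 365) (nat_lit 365) (.d (nat_lit 402) (nat_lit 369) (nat_lit 366) (nat_lit 399) (nat_lit 3438))) (.a (.f (nat_lit 432) (nat_lit 335) (nat_lit 7503) (.f (nat_lit 369) (nat_lit 337) (nat_lit 6480) (.f (nat_lit 401) (nat_lit 402) (nat_lit 366) (.f (nat_lit 465) (nat_lit 497) (nat_lit 4464) (.f (nat_lit 433) (nat_lit 336) (nat_lit 4432) (.d (nat_lit 431) (nat_lit 429) (nat_lit 2445) (nat_lit 466) (nat_lit 430))))))) (.a (.f (nat_lit 335) (nat_lit 432) (nat_lit 7503) (.f (nat_lit 399) (nat_lit 431) (nat_lit 5454) (.d (nat_lit 401) (nat_lit 365) (nat_lit 365) (nat_lit 402) (nat_lit 3438)))) (.f (nat_lit 432) (nat_lit 335) (nat_lit 7503) (.f (nat_lit 337) (nat_lit 369) (nat_lit 6480) (.d (nat_lit 336) (nat_lit 305) (nat_lit 6448) (nat_lit 365) (nat_lit 2381))))))))) (.a (.p (nat_lit 369) (.a (.f (nat_lit 337) (nat_lit 338) (nat_lit 2382) (.f (nat_lit 401) (nat_lit 402) (nat_lit 366) (.d (nat_lit 365) (nat_lit 336) (nat_lit 2381) (nat_lit 400) (nat_lit 365)))) (.a (.f (nat_lit 401) (nat_lit 402) (nat_lit 366) (.f (nat_lit 400) (nat_lit 365) (nat_lit 365) (.d (nat_lit 337) (nat_lit 338) (nat_lit 2382) (nat_lit 432) (nat_lit 6480)))) (.a (.f (nat_lit 401) (nat_lit 402) (nat_lit 366) (.f (nat_lit 365) (nat_lit 400) (nat_lit 365) (.d (nat_lit 333) (nat_lit 332) (nat_lit 3404) (nat_lit 334) (nat_lit 3405)))) (.a (.f (nat_lit 337) (nat_lit 338) (nat_lit 2382) (.f (nat_lit 401) (nat_lit 402) (nat_lit 366) (.d (nat_lit 432) (nat_lit 400) (nat_lit 6480) (nat_lit 433) (nat_lit 5456)))) (.a (.f (nat_lit 337) (nat_lit 338) (nat_lit 2382) (.f (nat_lit 401) (nat_lit 402) (nat_lit 366) (.f (nat_lit 336) (nat_lit 365) (nat_lit 2381) (.d (nat_lit 433) (nat_lit 304) (nat_lit 7472) (nat_lit 432) (nat_lit 5456))))) (.f (nat_lit 337) (nat_lit 338) (nat_lit 2382) (.f (nat_lit 365) (nat_lit 336) (nat_lit 2381) (.d (nat_lit 333) (nat_lit 332) (nat_lit 3404) (nat_lit 334) (nat_lit 3405)))))))))) (.a (.p (nat_lit 369) (.a (.f (nat_lit 401) (nat_lit 402) (nat_lit 366) (.f (nat_lit 400) (nat_lit 365) (nat_lit 365) (.d (nat_lit 337) (nat_lit 338) (nat_lit 2382) (nat_lit 432) (nat_lit 6480)))) (.a (.f (nat_lit 401) (nat_lit 402) (nat_lit 366) (.f (nat_lit 365) (nat_lit 400) (nat_lit 365) (.d (nat_lit 333) (nat_lit 332) (nat_lit 3404) (nat_lit 334) (nat_lit 3405)))) (.a (.f (nat_lit 337) (nat_lit 338) (nat_lit 2382) (.f (nat_lit 401) (nat_lit 402) (nat_lit 366) (.d (nat_lit 432) (nat_lit 400) (nat_lit 6480) (nat_lit 433) (nat_lit 5456)))) (.f (nat_lit 334) (nat_lit 333) (nat_lit 3405) (.f (nat_lit 370) (nat_lit 335) (nat_lit 3406) (.d (nat_lit 338) (nat_lit 337) (nat_lit 2382) (nat_lit 339) (nat_lit 2383)))))))) (.a (.p (nat_lit 400) (.a (.f (nat_lit 401) (nat_lit 365) (nat_lit 365) (.d (nat_lit 402) (nat_lit 369) (nat_lit 366) (nat_lit 399) (nat_lit 3438))) (.a (.f (nat_lit 335) (nat_lit 432) (nat_lit 7503) (.f (nat_lit 399) (nat_lit 431) (nat_lit 5454) (.f (nat_lit 303) (nat_lit 271) (nat_lit 4367) (.f (nat_lit 401) (nat_lit 402) (nat_lit 3438) (.f (nat_lit 304) (nat_lit 272) (nat_lit 6415) (.f (nat_lit 336) (nat_lit 433) (nat_lit 4400) (.f (nat_lit 305) (nat_lit 273) (nat_lit 6416) (.d (nat_lit 334) (nat_lit 306) (nat_lit 1326) (nat_lit 333) (nat_lit 2349))))))))) (.a (.f (nat_lit 401) (nat_lit 365) (nat_lit 365) (.d (nat_lit 402) (nat_lit 369) (nat_lit 366) (nat_lit 403) (nat_lit 3439))) (.f (nat_lit 335) (nat_lit 432) (nat_lit 7503) (.f (nat_lit 399) (nat_lit 431) (nat_lit 5454) (.f (nat_lit 303) (nat_lit 271) (nat_lit 4367) (.f (nat_lit 365) (nat_lit 364) (nat_lit 364) (.f (nat_lit 333) (nat_lit 332) (nat_lit 3404) (.f (nat_lit 334) (nat_lit 369) (nat_lit 3405) (.f (nat_lit 302) (nat_lit 270) (nat_lit 7438) (.d (nat_lit 304) (nat_lit 272) (nat_lit 6415) (nat_lit 305) (nat_lit 1325))))))))))))) (.a (.p (nat_lit 369) (.a (.f (nat_lit 337) (nat_lit 338) (nat_lit 2382) (.f (nat_lit 401) (nat_lit 402) (nat_lit 366) (.d (nat_lit 432) (nat_lit 400) (nat_lit 6480) (nat_lit 433) (nat_lit 5456)))) (.a (.f (nat_lit 334) (nat_lit 333) (nat_lit 3405) (.f (nat_lit 335) (nat_lit 370) (nat_lit 3406) (.f (nat_lit 399) (nat_lit 431) (nat_lit 5454) (.f (nat_lit 400) (nat_lit 432) (nat_lit 7503) (.f (nat_lit 401) (nat_lit 402) (nat_lit 366) (.f (nat_lit 303) (nat_lit 271) (nat_lit 4367) (.f (nat_lit 304) (nat_lit 272) (nat_lit 6415) (.f (nat_lit 336) (nat_lit 433) (nat_lit 4400) (.d (nat_lit 305) (nat_lit 273) (nat_lit 6416) (nat_lit 306) (nat_lit 1326)))))))))) (.f (nat_lit 334) (nat_lit 333) (nat_lit 3405) (.f (nat_lit 370) (nat_lit 335) (nat_lit 3406) (.d (nat_lit 338) (nat_lit 337) (nat_lit 2382) (nat_lit 339) (nat_lit 2383))))))) (.a (.p (nat_lit 365) (.a (.f (nat_lit 400) (nat_lit 401) (nat_lit 365) (.f (nat_lit 399) (nat_lit 364) (nat_lit 364) (.f (nat_lit 336) (nat_lit 337) (nat_lit 2381) (.d (nat_lit 304) (nat_lit 272) (nat_lit 5391) (nat_lit 431) (nat_lit 5423))))) (.a (.f (nat_lit 400) (nat_lit 401) (nat_lit 365) (.f (nat_lit 336) (nat_lit 337) (nat_lit 2381) (.d (nat_lit 335) (nat_lit 364) (nat_lit 2380) (nat_lit 432) (nat_lit 7503)))) (.a (.f (nat_lit 400) (nat_lit 401) (nat_lit 365) (.f (nat_lit 432) (nat_lit 335) (nat_lit 7503) (.f (nat_lit 465) (nat_lit 497) (nat_lit 4464) (.f (nat_lit 431) (nat_lit 429) (nat_lit 429) (.d (nat_lit 466) (nat_lit 433) (nat_lit 430) (nat_lit 467) (nat_lit 3503)))))) (.f (nat_lit 336) (nat_lit 337) (nat_lit 2381) (.f (nat_lit 364) (nat_lit 335) (nat_lit 2380) (.d (nat_lit 332) (nat_lit 331) (nat_lit 3403) (nat_lit 333) (nat_lit 3404)))))))) (.a (.p (nat_lit 369) (.a (.f (nat_lit 337) (nat_lit 338) (nat_lit 2382) (.f (nat_lit 401) (nat_lit 402) (nat_lit 366) (.f (nat_lit 336) (nat_lit 365) (nat_lit 2381) (.d (nat_lit 433) (nat_lit 304) (nat_lit 7472) (nat_lit 432) (nat_lit 5456))))) (.a (.f (nat_lit 337) (nat_lit 338) (nat_lit 2382) (.f (nat_lit 334) (nat_lit 333) (nat_lit 3405) (.f (nat_lit 335) (nat_lit 370) (nat_lit 3406) (.f (nat_lit 336) (nat_lit 365) (nat_lit 2381) (.f (nat_lit 399) (nat_lit 431) (nat_lit 5454) (.d (nat_lit 302) (nat_lit 270) (nat_lit 4366) (nat_lit 301) (nat_lit 3373))))))) (.a (.f (nat_lit 334) (nat_lit 333) (nat_lit 3405) (.f (nat_lit 370) (nat_lit 335) (nat_lit 3406) (.d (nat_lit 338) (nat_lit 337) (nat_lit 2382) (nat_lit 339) (nat_lit 2383)))) (.f (nat_lit 334) (nat_lit 333) (nat_lit 3405) (.f (nat_lit 370) (nat_lit 335) (nat_lit 3406) (.d (nat_lit 402) (nat_lit 401) (nat_lit 366) (nat_lit 403) (nat_lit 367)))))))) (.a (.p (nat_lit 369) (.a (.f (nat_lit 337) (nat_lit 338) (nat_lit 2382) (.f (nat_lit 400) (nat_lit 432) (nat_lit 6480) (.f (nat_lit 336) (nat_lit 365) (nat_lit 2381) (.f (nat_lit 334) (nat_lit 333) (nat_lit 3405) (.f (nat_lit 335) (nat_lit 370) (nat_lit 334) (.d (nat_lit 305) (nat_lit 273) (nat_lit 5392) (nat_lit 306) (nat_lit 2350))))))) (.a (.f (nat_lit 337) (nat_lit 338) (nat_lit 2382) (.f (nat_lit 334) (nat_lit 333) (nat_lit 3405) (.f (nat_lit 335) (nat_lit 370) (nat_lit 3406) (.f (nat_lit 336) (nat_lit 365) (nat_lit 2381) (.f (nat_lit 399) (nat_lit 431) (nat_lit 5454) (.d (nat_lit 302) (nat_lit 270) (nat_lit 4366) (nat_lit 301) (nat_lit 3373))))))) (.a (.f (nat_lit 337) (nat_lit 338) (nat_lit 2382) (.f (nat_lit 400) (nat_lit 432) (nat_lit 6480) (.f (nat_lit 365) (nat_lit 336) (nat_lit 2381) (.f (nat_lit 364) (nat_lit 399) (nat_lit 364) (.f (nat_lit 395) (nat_lit 396) (nat_lit 1387) (.f (nat_lit 363) (nat_lit 394) (nat_lit 1386) (.d (nat_lit 331) (nat_lit 330) (nat_lit 3402) (nat_lit 332) (nat_lit 3403)))))))) (.a (.f (nat_lit 334) (nat_lit 333) (nat_lit 3405) (.f (nat_lit 370) (nat_lit 335) (nat_lit 3406) (.d (nat_lit 338) (nat_lit 337) (nat_lit 2382) (nat_lit 339) (nat_lit 2383)))) (.f (nat_lit 334) (nat_lit 333) (nat_lit 3405) (.f (nat_lit 335) (nat_lit 370) (nat_lit 3406) (.f (nat_lit 399) (nat_lit 431) (nat_lit 5454) (.f (nat_lit 400) (nat_lit 432) (nat_lit 7503) (.f (nat_lit 303) (nat_lit 271) (nat_lit 4367) (.f (nat_lit 302) (nat_lit 270) (nat_lit 4366) (.f (nat_lit 304) (nat_lit 272) (nat_lit 6415) (.f (nat_lit 305) (nat_lit 306) (nat_lit 1326) (.d (nat_lit 273) (nat_lit 274) (nat_lit 2318) (nat_lit 336) (nat_lit 6416))))))))))))))) (.p (nat_lit 369) (.a (.f (nat_lit 337) (nat_lit 338) (nat_lit 2382) (.f (nat_lit 401) (nat_lit 402) (nat_lit 366) (.d (nat_lit 365) (nat_lit 336) (nat_lit 2381) (nat_lit 400) (nat_lit 365)))) (.a (.f (nat_lit 401) (nat_lit 402) (nat_lit 366) (.f (nat_lit 365) (nat_lit 400) (nat_lit 365) (.d (nat_lit 333) (nat_lit 332) (nat_lit 3404) (nat_lit 334) (nat_lit 3405)))) (.f (nat_lit 334) (nat_lit 333) (nat_lit 3405) (.f (nat_lit 370) (nat_lit 335) (nat_lit 3406) (.d (nat_lit 338) (nat_lit 337) (nat_lit 2382) (nat_lit 339) (nat_lit 2383))))))))))))))))))) (.p (nat_lit 365) (.a (.f (nat_lit 333) (nat_lit 398) (nat_lit 7501) (.f (nat_lit 368) (nat_lit 332) (nat_lit 3404) (.f (nat_lit 369) (nat_lit 334) (nat_lit 3405) (.d (nat_lit 337) (nat_lit 336) (nat_lit 2381) (nat_lit 338) (nat_lit 2382))))) (.a (.d (nat_lit 398) (nat_lit 333) (nat_lit 7501) (nat_lit 335) (nat_lit 6478)) (.a (.f (nat_lit 335) (nat_lit 398) (nat_lit 6478) (.f (nat_lit 364) (nat_lit 336) (nat_lit 2380) (.f (nat_lit 363) (nat_lit 334) (nat_lit 2379) (.d (nat_lit 395) (nat_lit 394) (nat_lit 1386) (nat_lit 396) (nat_lit 1387))))) (.p (nat_lit 368) (.a (.f (nat_lit 400) (nat_lit 401) (nat_lit 365) (.f (nat_lit 336) (nat_lit 337) (nat_lit 2381) (.d (nat_lit 335) (nat_lit 364) (nat_lit 2380) (nat_lit 432) (nat_lit 7503)))) (.a (.f (nat_lit 337) (nat_lit 336) (nat_lit 2381) (.f (nat_lit 369) (nat_lit 338) (nat_lit 2382) (.d (nat_lit 401) (nat_lit 400) (nat_lit 365) (nat_lit 402) (nat_lit 366)))) (.a (.f (nat_lit 400) (nat_lit 401) (nat_lit 365) (.f (nat_lit 432) (nat_lit 335) (nat_lit 7503) (.f (nat_lit 465) (nat_lit 497) (nat_lit 4464) (.f (nat_lit 431) (nat_lit 429) (nat_lit 429) (.d (nat_lit 466) (nat_lit 433) (nat_lit 430) (nat_lit 467) (nat_lit 3503)))))) (.f (nat_lit 333) (nat_lit 332) (nat_lit 3404) (.f (nat_lit 369) (nat_lit 334) (nat_lit 3405) (.d (nat_lit 337) (nat_lit 336) (nat_lit 2381) (nat_lit 338) (nat_lit 2382))))))))))))))))) (.a s76791 (.a s78687 (.a (.p (nat_lit 398) (.a (.f (nat_lit 399) (nat_lit 494) (nat_lit 6510) (.d (nat_lit 335) (nat_lit 366) (nat_lit 6478) (nat_lit 431) (nat_lit 5454))) (.a (.f (nat_lit 494) (nat_lit 399) (nat_lit 6510) (.f (nat_lit 527) (nat_lit 495) (nat_lit 4494) (.f (nat_lit 526) (nat_lit 559) (nat_lit 4526) (.d (nat_lit 525) (nat_lit 493) (nat_lit 5517) (nat_lit 561) (nat_lit 525))))) (.a (.f (nat_lit 366) (nat_lit 335) (nat_lit 6478) (.f (nat_lit 365) (nat_lit 333) (nat_lit 7501) (.f (nat_lit 397) (nat_lit 494) (nat_lit 7533) (.d (nat_lit 396) (nat_lit 368) (nat_lit 1388) (nat_lit 395) (nat_lit 2411))))) (.f (nat_lit 335) (nat_lit 366) (nat_lit 6478) (.d (nat_lit 399) (nat_lit 303) (nat_lit 5422) (nat_lit 431) (nat_lit 5454))))))) (.p (nat_lit 398) (.a (.f (nat_lit 494) (nat_lit 399) (nat_lit 6510) (.f (nat_lit 397) (nat_lit 365) (nat_lit 7533) (.f (nat_lit 526) (nat_lit 429) (nat_lit 7565) (.d (nat_lit 525) (nat_lit 493) (nat_lit 5517) (nat_lit 557) (nat_lit 5549))))) (.a (.f (nat_lit 494) (nat_lit 399) (nat_lit 6510) (.f (nat_lit 527) (nat_lit 495) (nat_lit 4494) (.f (nat_lit 526) (nat_lit 559) (nat_lit 4526) (.d (nat_lit 525) (nat_lit 493) (nat_lit 5517) (nat_lit 561) (nat_lit 525))))) (.a (.f (nat_lit 366) (nat_lit 335) (nat_lit 6478) (.f (nat_lit 365) (nat_lit 333) (nat_lit 7501) (.f (nat_lit 397) (nat_lit 494) (nat_lit 7533) (.d (nat_lit 396) (nat_lit 368) (nat_lit 1388) (nat_lit 395) (nat_lit 2411))))) (.f (nat_lit 366) (nat_lit 335) (nat_lit 6478) (.p (nat_lit 397) (.a (.f (nat_lit 365) (nat_lit 333) (nat_lit 7501) (.d (nat_lit 368) (nat_lit 369) (nat_lit 1389) (nat_lit 396) (nat_lit 1388))) (.a (.f (nat_lit 396) (nat_lit 395) (nat_lit 2411) (.d (nat_lit 368) (nat_lit 365) (nat_lit 1388) (nat_lit 369) (nat_lit 1389))) (.a (.f (nat_lit 396) (nat_lit 395) (nat_lit 2411) (.d (nat_lit 368) (nat_lit 369) (nat_lit 1389) (nat_lit 399) (nat_lit 2412))) (.f (nat_lit 333) (nat_lit 365) (nat_lit 7501) (.f (nat_lit 334) (nat_lit 301) (nat_lit 7469) (.f (nat_lit 302) (nat_lit 429) (nat_lit 5421) (.f (nat_lit 270) (nat_lit 399) (nat_lit 4366) (.d (nat_lit 271) (nat_lit 239) (nat_lit 6382) (nat_lit 303) (nat_lit 6414)))))))))))))))))))))))))))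
noncomputable def s78784 : Cert := .r (nat_lit 3773962425700235452789419352813872038216750762255486774649009104495417278119235311267434618846010437197564807940175196427898422096720819681495630863587866647523141615616) (.f (nat_lit 365) (nat_lit 397) (nat_lit 7533) (.f (nat_lit 366) (nat_lit 333) (nat_lit 7501) (.f (nat_lit 334) (nat_lit 461) (nat_lit 5453) (.f (nat_lit 303) (nat_lit 335) (nat_lit 6446) (.f (nat_lit 302) (nat_lit 271) (nat_lit 6414) (.f (nat_lit 431) (nat_lit 399) (nat_lit 4398) (.f (nat_lit 301) (nat_lit 269) (nat_lit 7437) (.f (nat_lit 432) (nat_lit 465) (nat_lit 429) (.f (nat_lit 401) (nat_lit 400) (nat_lit 2445) (.f (nat_lit 433) (nat_lit 402) (nat_lit 2446) (.f (nat_lit 337) (nat_lit 369) (nat_lit 5456) (.f (nat_lit 304) (nat_lit 336) (nat_lit 301) (.f (nat_lit 305) (nat_lit 338) (nat_lit 302) (.d (nat_lit 273) (nat_lit 272) (nat_lit 2317) (nat_lit 274) (nat_lit 2318)))))))))))))))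
noncomputable def s78835 : Cert := .r (nat_lit 3773962425700235452738272624565494821503340012630151605145259173746866578397431004823101734979321050560535290524059033312991556170778561389851359194122238731729644814336) (.p (nat_lit 428) (.a (.f (nat_lit 459) (nat_lit 460) (nat_lit 1451) (.f (nat_lit 427) (nat_lit 458) (nat_lit 1450) (.d (nat_lit 395) (nat_lit 394) (nat_lit 3466) (nat_lit 396) (nat_lit 3467)))) (.a (.f (nat_lit 459) (nat_lit 460) (nat_lit 1451) (.f (nat_lit 427) (nat_lit 458) (nat_lit 1450) (.f (nat_lit 396) (nat_lit 395) (nat_lit 3467) (.f (nat_lit 426) (nat_lit 461) (nat_lit 426) (.f (nat_lit 425) (nat_lit 397) (nat_lit 2441) (.f (nat_lit 456) (nat_lit 457) (nat_lit 1448) (.f (nat_lit 424) (nat_lit 455) (nat_lit 1447) (.d (nat_lit 392) (nat_lit 391) (nat_lit 3463) (nat_lit 393) (nat_lit 3464))))))))) (.a (.p (nat_lit 397) (.a (.f (nat_lit 365) (nat_lit 333) (nat_lit 4429) (.d (nat_lit 494) (nat_lit 461)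 (nat_lit 4461) (nat_lit 526) (nat_lit 7565))) (.a (.f (nat_lit 460) (nat_lit 459) (nat_lit 1451) (.f (nat_lit 492) (nat_lit 524) (nat_lit 6540) (.d (nat_lit 365) (nat_lit 396) (nat_lit 6508) (nat_lit 461) (nat_lit 5484)))) (.a (.f (nat_lit 459) (nat_lit 460) (nat_lit 1451) (.f (nat_lit 427) (nat_lit 458) (nat_lit 1450) (.f (nat_lit 426) (nat_lit 461) (nat_lit 426) (.f (nat_lit 425) (nat_lit 396) (nat_lit 2441) (.d (nat_lit 393) (nat_lit 392) (nat_lit 3464) (nat_lit 394) (nat_lit 3465)))))) (.f (nat_lit 460) (nat_lit 459) (nat_lit 1451) (.f (nat_lit 365) (nat_lit 333) (nat_lit 4429) (.d (nat_lit 492) (nat_lit 396) (nat_lit 6508) (nat_lit 524) (nat_lit 6540)))))))) (.a (.f (nat_lit 459) (nat_lit 460) (nat_lit 1451) (.f (nat_lit 427) (nat_lit 458) (nat_lit 1450) (.f (nat_lit 426) (nat_lit 461) (nat_lit 426) (.d (nat_lit 394) (nat_lit 393) (nat_lit 3465) (nat_lit 395) (nat_lit 3466))))) (.a (.p (nat_lit 365) (.a (.f (nat_lit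 397) (nat_lit 333) (nat_lit 4429) (.d (nat_lit 494) (nat_lit 461) (nat_lit 4461) (nat_lit 526) (nat_lit 7565))) (.a (.f (nat_lit 460) (nat_lit 459) (nat_lit 1451) (.f (nat_lit 396) (nat_lit 395) (nat_lit 3467) (.f (nat_lit 397) (nat_lit 492) (nat_lit 6508) (.d (nat_lit 494) (nat_lit 461) (nat_lit 4461) (nat_lit 526) (nat_lit 7565))))) (.a (.f (nat_lit 460) (nat_lit 459) (nat_lit 1451) (.f (nat_lit 396) (nat_lit 395) (nat_lit 3467) (.f (nat_lit 364) (nat_lit 333) (nat_lit 6476) (.f (nat_lit 331) (nat_lit 363) (nat_lit 7499) (.d (nat_lit 332) (nat_lit 299) (nat_lit 7467) (nat_lit 461) (nat_lit 4428)))))) (.f (nat_lit 397) (nat_lit 333) (nat_lit 4429) (.f (nat_lit 396) (nat_lit 395) (nat_lit 3467) (.d (nat_lit 460) (nat_lit 459) (nat_lit 1451) (nat_lit 492) (nat_lit 6508)))))))) (.p (nat_lit 427) (.a (.d (nat_lit 395) (nat_lit 394) (nat_lit 3466) (nat_lit 396) (nat_lit 3467)) (.a (.f (nat_lit 426) (nat_lit 461) (nat_lit 426)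 (.f (nat_lit 396) (nat_lit 395) (nat_lit 3467) (.f (nat_lit 425) (nat_lit 397) (nat_lit 2441) (.d (nat_lit 457) (nat_lit 456) (nat_lit 1448) (nat_lit 458) (nat_lit 1449))))) (.f (nat_lit 426) (nat_lit 461) (nat_lit 426) (.f (nat_lit 393) (nat_lit 394) (nat_lit 3465) (.f (nat_lit 425) (nat_lit 392) (nat_lit 3464) (.d (nat_lit 457) (nat_lit 456) (nat_lit 1448) (nat_lit 458) (nat_lit 1449))))))))))))))
noncomputable def s78896 : Cert := .r (nat_lit 3773962425700235452738272624565494821504033180053681808860153777292902349323290114091945689123113670455688945851010439718751549772304596284375706996862589624686888353792) (.p (nat_lit 397) (.a (.f (nat_lit 460) (nat_lit 459) (nat_lit 1451) (.f (nat_lit 492) (nat_lit 524) (nat_lit 6540) (.d (nat_lit 365) (nat_lit 396) (nat_lit 6508) (nat_lit 461) (nat_lit 5484)))) (.a (.f (nat_lit 396) (nat_lit 395) (nat_lit 3467) (.f (nat_lit 399) (nat_lit 400) (nat_lit 2444) (.f (nat_lit 367) (nat_lit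 335) (nat_lit 5454) (.f (nat_lit 398) (nat_lit 368) (nat_lit 2412) (.f (nat_lit 364) (nat_lit 363) (nat_lit 3435) (.d (nat_lit 332) (nat_lit 300) (nat_lit 4396) (nat_lit 461) (nat_lit 4428))))))) (.a (.f (nat_lit 460) (nat_lit 459) (nat_lit 1451) (.f (nat_lit 365) (nat_lit 333) (nat_lit 4429) (.d (nat_lit 492) (nat_lit 461) (nat_lit 5484) (nat_lit 524) (nat_lit 6540)))) (.f (nat_lit 460) (nat_lit 459) (nat_lit 1451) (.f (nat_lit 365) (nat_lit 333) (nat_lit 4429) (.d (nat_lit 492) (nat_lit 396) (nat_lit 6508) (nat_lit 524) (nat_lit 6540))))))))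
noncomputable def s78898 : Cert := .r (nat_lit 3773962425700235452738272624565494821497794673241909975426102345378580410990558130672350101828980091399306047908447782066911607358570282233656576772199431588071696498688) (.p (nat_lit 431) (.a (.f (nat_lit 432) (nat_lit 465) (nat_lit 429) (.d (nat_lit 461) (nat_lit 433) (nat_lit 1453) (nat_lit 460) (nat_lit 1452))) (.a (.p (nat_lit 428) (.a (.f (nat_lit 399) (nat_lit 400) (nat_lit 2444) (.f (nat_lit 427) (nat_lit 398) (nat_lit 2443) (.d (nat_lit 459) (nat_lit 458) (nat_lit 1450) (nat_lit 460) (nat_lit 1451)))) (.a (.f (nat_lit 459) (nat_lit 460) (nat_lit 1451) (.f (nat_lit 427) (nat_lit 458) (nat_lit 1450) (.d (nat_lit 395) (nat_lit 394) (nat_lit 3466) (nat_lit 396) (nat_lit 3467)))) (.a s78896 (.f (nat_lit 399) (nat_lit 400) (nat_lit 2444) (.f (nat_lit 427) (nat_lit 398) (nat_lit 2443) (.d (nat_lit 395) (nat_lit 394) (nat_lit 3466) (nat_lit 396) (nat_lit 3467)))))))) (.a (.f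 (nat_lit 432) (nat_lit 465) (nat_lit 429) (.f (nat_lit 397) (nat_lit 396) (nat_lit 3468) (.d (nat_lit 433) (nat_lit 398) (nat_lit 3469) (nat_lit 461) (nat_lit 1453)))) (.f (nat_lit 432) (nat_lit 465) (nat_lit 429) (.f (nat_lit 400) (nat_lit 401) (nat_lit 2445) (.f (nat_lit 428) (nat_lit 399) (nat_lit 2444) (.d (nat_lit 396) (nat_lit 395) (nat_lit 3467) (nat_lit 397) (nat_lit 3468)))))))))
noncomputable def s78928 : Cert := .r (nat_lit 3773962425700235452738272624565494821504033180053681808860153777292902349323290114091945689123113670455688945851010439718751549772304596284375706996862589624686888353792) (.f (nat_lit 460) (nat_lit 459) (nat_lit 1451) (.p (nat_lit 492) (.a (.f (nat_lit 396) (nat_lit 395) (nat_lit 3467) (.d (nat_lit 397) (nat_lit 365) (nat_lit 6508) (nat_lit 524) (nat_lit 6540))) (.a (.f (nat_lit 396) (nat_lit 395) (nat_lit 3467) (.f (nat_lit 493) (nat_lit 525) (nat_lit 4492) (.f (nat_lit 461) (nat_lit 364)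 (nat_lit 4460) (.d (nat_lit 524) (nat_lit 397) (nat_lit 6540) (nat_lit 556) (nat_lit 6572))))) (.a (.f (nat_lit 524) (nat_lit 397) (nat_lit 6540) (.f (nat_lit 525) (nat_lit 557) (nat_lit 4524) (.f (nat_lit 493) (nat_lit 396) (nat_lit 4492) (.d (nat_lit 461) (nat_lit 398) (nat_lit 6541) (nat_lit 556) (nat_lit 6572))))) (.a (.f (nat_lit 524) (nat_lit 397) (nat_lit 6540) (.f (nat_lit 556) (nat_lit 461) (nat_lit 6572) (.d (nat_lit 555) (nat_lit 523) (nat_lit 5547) (nat_lit 587) (nat_lit 5579)))) (.f (nat_lit 396) (nat_lit 395) (nat_lit 3467) (.f (nat_lit 493) (nat_lit 525) (nat_lit 4492) (.f (nat_lit 461) (nat_lit 364) (nat_lit 4460) (.d (nat_lit 491) (nat_lit 490) (nat_lit 2506) (nat_lit 523) (nat_lit 5515)))))))))))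
noncomputable def s78997 : Cert := .r (nat_lit 3773962425700235452738272624571449084327224284889935598529842605671419420810309393190758495988875194325738668535471101059862968786301460148975143759689922837606494633984) (.p (nat_lit 397) (.a (.f (nat_lit 493) (nat_lit 525) (nat_lit 6541) (.f (nat_lit 365) (nat_lit 333) (nat_lit 4429) (.d (nat_lit 492) (nat_lit 460) (nat_lit 5484) (nat_lit 524) (nat_lit 5516)))) (.a (.f (nat_lit 493) (nat_lit 525) (nat_lit 6541) (.f (nat_lit 396) (nat_lit 364) (nat_lit 7532) (.f (nat_lit 431) (nat_lit 432) (nat_lit 3468) (.f (nat_lit 460) (nat_lit 459) (nat_lit 2475) (.d (nat_lit 492) (nat_lit 365) (nat_lit 5484) (nat_lit 524) (nat_lit 5516)))))) (.a (.f (nat_lit 493) (nat_lit 525) (nat_lit 6541) (.f (nat_lit 396) (nat_lit 364) (nat_lit 7532) (.f (nat_lit 431) (nat_lit 432) (nat_lit 3468) (.f (nat_lit 460) (nat_lit 459) (nat_lit 2475) (.f (nat_lit 492) (nat_lit 524) (nat_lit 5516) (.f (nat_lit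 491) (nat_lit 490) (nat_lit 2506) (.f (nat_lit 428) (nat_lit 523) (nat_lit 5515) (.d (nat_lit 399) (nat_lit 400) (nat_lit 2444) (nat_lit 427) (nat_lit 1419))))))))) (.a (.f (nat_lit 493) (nat_lit 525) (nat_lit 6541) (.f (nat_lit 364) (nat_lit 396) (nat_lit 7532) (.d (nat_lit 365) (nat_lit 332) (nat_lit 7500) (nat_lit 333) (nat_lit 4429)))) (.f (nat_lit 365) (nat_lit 333) (nat_lit 4429) (.f (nat_lit 460) (nat_lit 492) (nat_lit 5484) (.d (nat_lit 431) (nat_lit 432) (nat_lit 1452) (nat_lit 459) (nat_lit 2475)))))))))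
noncomputable def s79146 : Cert := .r (nat_lit 3773962425700235452738272624565494821497794673242555537895624072525994390783558883640932528277187397277513712747582943972415817657227693571976611230058407381064883372032) (.p (nat_lit 366) (.a (.d (nat_lit 461) (nat_lit 334) (nat_lit 5453) (nat_lit 493) (nat_lit 5485)) (.a (.p (nat_lit 399) (.a (.f (nat_lit 400) (nat_lit 401) (nat_lit 1421) (.d (nat_lit 428) (nat_lit 397) (nat_lit 1420) (nat_lit 427) (nat_lit 2443))) (.a (.f (nat_lit 400) (nat_lit 401) (nat_lit 1421) (.d (nat_lit 428) (nat_lit 427) (nat_lit 2443) (nat_lit 431) (nat_lit 2444))) (.f (nat_lit 461) (nat_lit 493) (nat_lit 5485) (.f (nat_lit 365) (nat_lit 333) (nat_lit 7501) (.f (nat_lit 367) (nat_lit 335) (nat_lit 6478) (.f (nat_lit 364) (nat_lit 363) (nat_lit 363) (.d (nat_lit 332) (nat_lit 331) (nat_lit 3403) (nat_lit 397) (nat_lit 7500))))))))) (.f (nat_lit 333) (nat_lit 365) (nat_lit 7501) (.f (nat_lit 334)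 (nat_lit 301) (nat_lit 7469) (.d (nat_lit 335) (nat_lit 303) (nat_lit 6446) (nat_lit 367) (nat_lit 6478)))))))
noncomputable def s79154 : Cert := .r (nat_lit 3773962425700235452738272624565494821497794673242555537895624072525994390783558883640932528277187397277513712747582943972415817657227693571976611230058407381064883372032) (.p (nat_lit 366) (.a (.d (nat_lit 461) (nat_lit 334) (nat_lit 5453) (nat_lit 493) (nat_lit 5485)) (.a (.p (nat_lit 399) (.a (.f (nat_lit 400) (nat_lit 401) (nat_lit 1421) (.d (nat_lit 428) (nat_lit 427) (nat_lit 2443) (nat_lit 431) (nat_lit 2444))) (.a (.f (nat_lit 461) (nat_lit 493) (nat_lit 5485) (.f (nat_lit 367) (nat_lit 335) (nat_lit 6478) (.f (nat_lit 365) (nat_lit 333) (nat_lit 7501) (.f (nat_lit 428) (nat_lit 427) (nat_lit 2443) (.f (nat_lit 364) (nat_lit 363) (nat_lit 363) (.d (nat_lit 332) (nat_lit 331) (nat_lit 3403) (nat_lit 396) (nat_lit 4428))))))) (.f (nat_lit 400) (nat_lit 401) (nat_lit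 1421) (.f (nat_lit 367) (nat_lit 335) (nat_lit 6478) (.d (nat_lit 365) (nat_lit 333) (nat_lit 7501) (nat_lit 364) (nat_lit 364))))))) (.f (nat_lit 333) (nat_lit 365) (nat_lit 7501) (.f (nat_lit 334) (nat_lit 301) (nat_lit 7469) (.d (nat_lit 335) (nat_lit 303) (nat_lit 6446) (nat_lit 367) (nat_lit 6478)))))))
noncomputable def s79172 : Cert := .r (nat_lit 3773962425700235452738272624565494821497794673242555537895624072525994390783558883640932528277187397277513712747582943972415817657227693571976611230058407381064883372032) (.p (nat_lit 366) (.a (.d (nat_lit 461) (nat_lit 334) (nat_lit 5453) (nat_lit 493) (nat_lit 5485)) (.a (.p (nat_lit 397) (.a (.f (nat_lit 365) (nat_lit 333) (nat_lit 4429) (.f (nat_lit 461) (nat_lit 493) (nat_lit 5485) (.f (nat_lit 364) (nat_lit 332) (nat_lit 7500) (.d (nat_lit 363) (nat_lit 362) (nat_lit 362) (nat_lit 399) (nat_lit 363))))) (.a (.f (nat_lit 367) (nat_lit 335) (nat_lit 6478) (.f (nat_lit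 368) (nat_lit 369) (nat_lit 1389) (.d (nat_lit 396) (nat_lit 365) (nat_lit 1388) (nat_lit 399) (nat_lit 2412)))) (.a (.f (nat_lit 367) (nat_lit 335) (nat_lit 6478) (.f (nat_lit 368) (nat_lit 369) (nat_lit 1389) (.f (nat_lit 399) (nat_lit 396) (nat_lit 2412) (.d (nat_lit 428) (nat_lit 400) (nat_lit 1420) (nat_lit 427) (nat_lit 2443))))) (.f (nat_lit 365) (nat_lit 333) (nat_lit 4429) (.f (nat_lit 367) (nat_lit 335) (nat_lit 6478) (.d (nat_lit 368) (nat_lit 369) (nat_lit 1389) (nat_lit 396) (nat_lit 1388)))))))) (.f (nat_lit 333) (nat_lit 365) (nat_lit 7501) (.f (nat_lit 334) (nat_lit 301) (nat_lit 7469) (.d (nat_lit 335) (nat_lit 303) (nat_lit 6446) (nat_lit 367) (nat_lit 6478)))))))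
noncomputable def s79217 : Cert := .r (nat_lit 3773962425700235452738272624565494821497794673242555537895624072525994390783558883640932528277187397277513712747582943972415817657227693571976611230058407381064883372032) (.p (nat_lit 366) (.a (.f (nat_lit 333) (nat_lit 365) (nat_lit 7501) (.f (nat_lit 334) (nat_lit 301) (nat_lit 7469) (.d (nat_lit 335) (nat_lit 303) (nat_lit 6446) (nat_lit 367) (nat_lit 6478)))) (.a (.f (nat_lit 335) (nat_lit 367) (nat_lit 6478) (.f (nat_lit 334) (nat_lit 303) (nat_lit 6446) (.f (nat_lit 365) (nat_lit 333) (nat_lit 7501) (.f (nat_lit 302) (nat_lit 397) (nat_lit 5421) (.f (nat_lit 431) (nat_lit 399) (nat_lit 4398) (.f (nat_lit 432) (nat_lit 465) (nat_lit 429) (.f (nat_lit 401) (nat_lit 400) (nat_lit 2445) (.f (nat_lit 433) (nat_lit 402) (nat_lit 2446) (.d (nat_lit 337) (nat_lit 336) (nat_lit 1357) (nat_lit 369) (nat_lit 5456)))))))))) (.a (.f (nat_lit 333) (nat_lit 365) (nat_lit 7501) (.f (nat_lit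 334) (nat_lit 301) (nat_lit 7469) (.f (nat_lit 367) (nat_lit 335) (nat_lit 6478) (.f (nat_lit 302) (nat_lit 397) (nat_lit 5421) (.d (nat_lit 399) (nat_lit 270) (nat_lit 4366) (nat_lit 431) (nat_lit 4398)))))) (.a (.f (nat_lit 335) (nat_lit 367) (nat_lit 6478) (.f (nat_lit 334) (nat_lit 303) (nat_lit 6446) (.f (nat_lit 302) (nat_lit 397) (nat_lit 5421) (.f (nat_lit 301) (nat_lit 269) (nat_lit 7437) (.f (nat_lit 431) (nat_lit 399) (nat_lit 4398) (.f (nat_lit 432) (nat_lit 465) (nat_lit 429) (.f (nat_lit 337) (nat_lit 336) (nat_lit 3373) (.f (nat_lit 401) (nat_lit 400) (nat_lit 2445) (.d (nat_lit 433) (nat_lit 369) (nat_lit 5456) (nat_lit 402) (nat_lit 2446)))))))))) (.a (.p (nat_lit 400) (.a (.f (nat_lit 399) (nat_lit 401) (nat_lit 1421) (.d (nat_lit 428) (nat_lit 397) (nat_lit 1420) (nat_lit 427) (nat_lit 2443))) (.a (.f (nat_lit 399) (nat_lit 401) (nat_lit 1421) (.d (nat_lit 428) (nat_lit 427) (nat_lit 2443) (nat_lit 431)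 (nat_lit 2444))) (.a (.f (nat_lit 365) (nat_lit 333) (nat_lit 7501) (.f (nat_lit 367) (nat_lit 335) (nat_lit 6478) (.f (nat_lit 368) (nat_lit 401) (nat_lit 365) (.d (nat_lit 397) (nat_lit 369) (nat_lit 1389) (nat_lit 396) (nat_lit 1388))))) (.f (nat_lit 365) (nat_lit 333) (nat_lit 7501) (.f (nat_lit 367) (nat_lit 335) (nat_lit 6478) (.f (nat_lit 399) (nat_lit 364) (nat_lit 364) (.d (nat_lit 428) (nat_lit 397) (nat_lit 1420) (nat_lit 431) (nat_lit 2444))))))))) (.a (.f (nat_lit 333) (nat_lit 365) (nat_lit 7501) (.f (nat_lit 334) (nat_lit 301) (nat_lit 7469) (.f (nat_lit 302) (nat_lit 397) (nat_lit 5421) (.f (nat_lit 399) (nat_lit 431) (nat_lit 4398) (.f (nat_lit 270) (nat_lit 367) (nat_lit 4366) (.d (nat_lit 271) (nat_lit 239) (nat_lit 6382) (nat_lit 303) (nat_lit 6414))))))) (.f (nat_lit 333) (nat_lit 365) (nat_lit 7501) (.f (nat_lit 334) (nat_lit 301) (nat_lit 7469) (.f (nat_lit 302) (nat_lit 397) (nat_lit 5421) (.d (nat_lit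 303) (nat_lit 271) (nat_lit 6414) (nat_lit 335) (nat_lit 6446))))))))))))
noncomputable def s79364 : Cert := .r (nat_lit 3773962425700235452738272624565494821497794673242232756660938362314936163550350970535738573837959766179974946563877996330752743196702655373007432369077232083065311854592) (.p (nat_lit 461) (.a (.f (nat_lit 460) (nat_lit 492) (nat_lit 5484) (.d (nat_lit 431) (nat_lit 432) (nat_lit 1452) (nat_lit 459) (nat_lit 2475))) (.a (.f (nat_lit 366) (nat_lit 334) (nat_lit 6477) (.f (nat_lit 493) (nat_lit 398) (nat_lit 5485) (.d (nat_lit 492) (nat_lit 460) (nat_lit 5484) (nat_lit 524) (nat_lit 5516)))) (.f (nat_lit 366) (nat_lit 334) (nat_lit 6477) (.f (nat_lit 398) (nat_lit 493) (nat_lit 5485) (.f (nat_lit 367) (nat_lit 335) (nat_lit 6478) (.f (nat_lit 368) (nat_lit 369) (nat_lit 1389) (.f (nat_lit 400) (nat_lit 401) (nat_lit 365) (.f (nat_lit 399) (nat_lit 428) (nat_lit 1420) (.f (nat_lit 432) (nat_lit 433) (nat_lit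 397) (.d (nat_lit 465) (nat_lit 431) (nat_lit 429) (nat_lit 497) (nat_lit 4464))))))))))))
noncomputable def s79379 : Cert := .r (nat_lit 3773962425700235452738272624565494821497794673242555537895849532613940678773436273778224304631815462802208911455170843905682909723638695982549126333903345176555949129728) (.p (nat_lit 400) (.a (.f (nat_lit 399) (nat_lit 401) (nat_lit 1421) (.d (nat_lit 367) (nat_lit 335) (nat_lit 6478) (nat_lit 364) (nat_lit 364))) (.a (.f (nat_lit 399) (nat_lit 401) (nat_lit 1421) (.d (nat_lit 364) (nat_lit 363) (nat_lit 363) (nat_lit 367) (nat_lit 364))) (.a (.f (nat_lit 399) (nat_lit 401) (nat_lit 1421) (.d (nat_lit 428) (nat_lit 427) (nat_lit 2443) (nat_lit 431) (nat_lit 2444))) (.a (.f (nat_lit 367) (nat_lit 335) (nat_lit 6478) (.f (nat_lit 368) (nat_lit 401) (nat_lit 365) (.f (nat_lit 337) (nat_lit 336) (nat_lit 2381) (.d (nat_lit 369) (nat_lit 338) (nat_lit 2382) (nat_lit 432) (nat_lit 6480)))))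 (.f (nat_lit 367) (nat_lit 335) (nat_lit 6478) (.f (nat_lit 399) (nat_lit 364) (nat_lit 364) (.d (nat_lit 428) (nat_lit 427) (nat_lit 2443) (nat_lit 431) (nat_lit 2444)))))))))
noncomputable def s79381 : Cert := .r (nat_lit 3773962425700235452738272624565494821497794673241909975426327805466526698980435520809641878183608156924001246616035682000178699424981284644229091876044369383562762256384) (.f (nat_lit 398) (nat_lit 333) (nat_lit 7501) s79379)
noncomputable def s79385 : Cert := .r (nat_lit 3773962425700235452738272624565494821497794673241909975426628418917121749633605374326030913323112244290261511559486215244534822180195954524992445347837619777550849933312) (.p (nat_lit 368) (.a (.f (nat_lit 336) (nat_lit 337) (nat_lit 2381) (.f (nat_lit 335) (nat_lit 364) (nat_lit 2380) (.f (nat_lit 333) (nat_lit 332) (nat_lit 3404) (.f (nat_lit 334) (nat_lit 369) (nat_lit 333) (.f (nat_lit 304) (nat_lit 305) (nat_lit 2349) (.f (nat_lit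 400) (nat_lit 401) (nat_lit 365) (.f (nat_lit 271) (nat_lit 303) (nat_lit 4367) (.d (nat_lit 272) (nat_lit 239) (nat_lit 7407) (nat_lit 240) (nat_lit 5359))))))))) (.a (.f (nat_lit 336) (nat_lit 337) (nat_lit 2381) (.f (nat_lit 335) (nat_lit 364) (nat_lit 2380) (.f (nat_lit 399) (nat_lit 431) (nat_lit 5454) (.f (nat_lit 333) (nat_lit 332) (nat_lit 3404) (.f (nat_lit 334) (nat_lit 369) (nat_lit 333) (.d (nat_lit 304) (nat_lit 272) (nat_lit 5391) (nat_lit 305) (nat_lit 2349))))))) (.a (.f (nat_lit 333) (nat_lit 332) (nat_lit 3404) (.f (nat_lit 369) (nat_lit 334) (nat_lit 3405) (.d (nat_lit 337) (nat_lit 336) (nat_lit 2381) (nat_lit 338) (nat_lit 2382)))) (.a (.f (nat_lit 337) (nat_lit 336) (nat_lit 2381) (.f (nat_lit 369) (nat_lit 338) (nat_lit 2382) (.d (nat_lit 401) (nat_lit 400) (nat_lit 365) (nat_lit 402) (nat_lit 366)))) (.a (.f (nat_lit 333) (nat_lit 332) (nat_lit 3404) (.f (nat_lit 369) (nat_lit 334) (nat_lit 3405)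 (.d (nat_lit 401) (nat_lit 400) (nat_lit 365) (nat_lit 402) (nat_lit 366)))) (.f (nat_lit 400) (nat_lit 401) (nat_lit 365) (.f (nat_lit 335) (nat_lit 432) (nat_lit 7503) (.d (nat_lit 399) (nat_lit 364) (nat_lit 364) (nat_lit 431) (nat_lit 5454))))))))))
noncomputable def s79406 : Cert := .r (nat_lit 3773962425700235452738272624565494821497794673241909975426628418917121749633605374326030913323112244290261511559486215244534822180195954524992445347837619777550849933312) (.p (nat_lit 368) (.a (.f (nat_lit 333) (nat_lit 332) (nat_lit 3404) (.f (nat_lit 369) (nat_lit 334) (nat_lit 3405) (.d (nat_lit 337) (nat_lit 336) (nat_lit 2381) (nat_lit 338) (nat_lit 2382)))) (.a (.f (nat_lit 337) (nat_lit 336) (nat_lit 2381) (.f (nat_lit 369) (nat_lit 338) (nat_lit 2382) (.d (nat_lit 401) (nat_lit 400) (nat_lit 365) (nat_lit 402) (nat_lit 366)))) (.a (.f (nat_lit 333) (nat_lit 332) (nat_lit 3404) (.f (nat_lit 369) (nat_lit 334) (nat_lit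 3405) (.d (nat_lit 401) (nat_lit 400) (nat_lit 365) (nat_lit 402) (nat_lit 366)))) (.f (nat_lit 400) (nat_lit 401) (nat_lit 365) (.f (nat_lit 432) (nat_lit 335) (nat_lit 7503) (.d (nat_lit 465) (nat_lit 431) (nat_lit 429) (nat_lit 497) (nat_lit 4464))))))))
noncomputable def s79453 : Cert := .r (nat_lit 3773962425700235452738272624565494821497794673241909975426177498741229173653850594051447360613856113240871114144310415378000638047373949703847415140147744186568718417920) (.f (nat_lit 397) (nat_lit 333) (nat_lit 4429) (.p (nat_lit 461) (.a (.f (nat_lit 460) (nat_lit 492) (nat_lit 5484) (.d (nat_lit 431) (nat_lit 432) (nat_lit 1452) (nat_lit 459) (nat_lit 2475))) (.a (.f (nat_lit 366) (nat_lit 334) (nat_lit 6477) (.f (nat_lit 493) (nat_lit 398) (nat_lit 5485) (.d (nat_lit 492) (nat_lit 460) (nat_lit 5484) (nat_lit 524) (nat_lit 5516)))) (.a (.f (nat_lit 366) (nat_lit 334) (nat_lit 6477) (.f (nat_lit 493) (nat_lit 398) (nat_lit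 5485) (.f (nat_lit 525) (nat_lit 557) (nat_lit 6573) (.d (nat_lit 524) (nat_lit 492) (nat_lit 5516) (nat_lit 556) (nat_lit 5548))))) (.f (nat_lit 366) (nat_lit 334) (nat_lit 6477) (.f (nat_lit 493) (nat_lit 398) (nat_lit 5485) (.f (nat_lit 525) (nat_lit 557) (nat_lit 6573) (.f (nat_lit 526) (nat_lit 558) (nat_lit 4525) (.f (nat_lit 524) (nat_lit 556) (nat_lit 5548) (.d (nat_lit 527) (nat_lit 559) (nat_lit 524) (nat_lit 561) (nat_lit 525))))))))))))
noncomputable def s79465 : Cert := .r (nat_lit 3773962425700235452738272624565494821497794673241909975426327805466526698980435520809641878183608156924001246616035682000178699424981284644229091876044369383562762256384) (.p (nat_lit 461) (.a (.d (nat_lit 398) (nat_lit 334) (nat_lit 5453) (nat_lit 493) (nat_lit 5485)) (.a (.f (nat_lit 493) (nat_lit 398) (nat_lit 5485) (.f (nat_lit 525) (nat_lit 557) (nat_lit 6573) (.f (nat_lit 526) (nat_lit 558) (nat_lit 4525) (.d (nat_lit 527)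 (nat_lit 492) (nat_lit 3564) (nat_lit 561) (nat_lit 525))))) (.a (.f (nat_lit 397) (nat_lit 334) (nat_lit 6477) (.f (nat_lit 492) (nat_lit 460) (nat_lit 5484) (.f (nat_lit 493) (nat_lit 524) (nat_lit 5516) (.f (nat_lit 525) (nat_lit 557) (nat_lit 6573) (.d (nat_lit 526) (nat_lit 527) (nat_lit 3564) (nat_lit 558) (nat_lit 4525)))))) (.d (nat_lit 334) (nat_lit 397) (nat_lit 6477) (nat_lit 398) (nat_lit 5453))))))
noncomputable def s79469 : Cert := .r (nat_lit 3773962425700235452738272624565494821497794673241909975426177498741229173653850594051447360613856113240871114144310415378000638047373949703847415140147744186568718417920) (.p (nat_lit 366) (.a (.f (nat_lit 398) (nat_lit 333) (nat_lit 7501) (.d (nat_lit 461) (nat_lit 334) (nat_lit 5453) (nat_lit 493) (nat_lit 5485))) (.a s79465 (.a (.d (nat_lit 333) (nat_lit 397) (nat_lit 4429) (nat_lit 398) (nat_lit 7501)) (.f (nat_lit 397) (nat_lit 333) (nat_lit 4429) (.f (nat_lit 461)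 (nat_lit 334) (nat_lit 6477) (.f (nat_lit 492) (nat_lit 460) (nat_lit 5484) (.f (nat_lit 493) (nat_lit 524) (nat_lit 5516) (.f (nat_lit 525) (nat_lit 557) (nat_lit 6573) (.d (nat_lit 526) (nat_lit 527) (nat_lit 3564) (nat_lit 558) (nat_lit 4525)))))))))))
noncomputable def s79515 : Cert := .r (nat_lit 3773962425700235452738272624565494821497794673241909975426327805466526698980435520809641878183608156924001246616035682000178699424981284644229091876044369383562762256384) (.p (nat_lit 367) (.a (.p (nat_lit 364) (.a (.f (nat_lit 335) (nat_lit 336) (nat_lit 2380) (.d (nat_lit 399) (nat_lit 400) (nat_lit 364) (nat_lit 431) (nat_lit 5454))) (.a (.f (nat_lit 332) (nat_lit 331) (nat_lit 3403) (.f (nat_lit 368) (nat_lit 333) (nat_lit 3404) (.d (nat_lit 400) (nat_lit 399) (nat_lit 364) (nat_lit 401) (nat_lit 365)))) (.f (nat_lit 332) (nat_lit 331) (nat_lit 3403) (.f (nat_lit 368) (nat_lit 333) (nat_lit 3404) (.d (nat_lit 336) (nat_lit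 335) (nat_lit 2380) (nat_lit 337) (nat_lit 2381))))))) (.a s79385 (.a (.p (nat_lit 335) (.a (.f (nat_lit 399) (nat_lit 431) (nat_lit 5454) (.d (nat_lit 364) (nat_lit 336) (nat_lit 2380) (nat_lit 400) (nat_lit 364))) (.a (.f (nat_lit 399) (nat_lit 431) (nat_lit 5454) (.f (nat_lit 400) (nat_lit 364) (nat_lit 364) (.d (nat_lit 401) (nat_lit 368) (nat_lit 365) (nat_lit 402) (nat_lit 3438)))) (.a (.f (nat_lit 431) (nat_lit 399) (nat_lit 5454) (.f (nat_lit 432) (nat_lit 465) (nat_lit 429) (.d (nat_lit 400) (nat_lit 368) (nat_lit 7503) (nat_lit 401) (nat_lit 2445)))) (.f (nat_lit 336) (nat_lit 364) (nat_lit 2380) (.d (nat_lit 337) (nat_lit 334) (nat_lit 1357) (nat_lit 338) (nat_lit 1358))))))) (.a (.p (nat_lit 368) (.a (.f (nat_lit 400) (nat_lit 401) (nat_lit 365) (.f (nat_lit 364) (nat_lit 399) (nat_lit 364) (.d (nat_lit 332) (nat_lit 331) (nat_lit 3403) (nat_lit 333) (nat_lit 3404)))) (.a (.f (nat_lit 333) (nat_lit 332) (nat_lit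 3404) (.f (nat_lit 369) (nat_lit 334) (nat_lit 3405) (.d (nat_lit 337) (nat_lit 336) (nat_lit 2381) (nat_lit 338) (nat_lit 2382)))) (.f (nat_lit 337) (nat_lit 336) (nat_lit 2381) (.f (nat_lit 369) (nat_lit 338) (nat_lit 2382) (.d (nat_lit 401) (nat_lit 400) (nat_lit 365) (nat_lit 402) (nat_lit 366))))))) (.a (.f (nat_lit 333) (nat_lit 397) (nat_lit 4429) (.f (nat_lit 332) (nat_lit 368) (nat_lit 3404) (.d (nat_lit 331) (nat_lit 330) (nat_lit 330) (nat_lit 364) (nat_lit 3403)))) (.a s79406 (.p (nat_lit 364) (.a (.f (nat_lit 335) (nat_lit 336) (nat_lit 2380) (.d (nat_lit 399) (nat_lit 400) (nat_lit 364) (nat_lit 431) (nat_lit 5454))) (.f (nat_lit 331) (nat_lit 332) (nat_lit 3403) (.f (nat_lit 363) (nat_lit 330) (nat_lit 3402) (.f (nat_lit 394) (nat_lit 395) (nat_lit 1386) (.f (nat_lit 362) (nat_lit 393) (nat_lit 1385) (.d (nat_lit 333) (nat_lit 334) (nat_lit 2378) (nat_lit 397) (nat_lit 4429)))))))))))))))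
noncomputable def s79561 : Cert := .r (nat_lit 3773962425700235452738272624565494821504033180053681808860153777292902349323290114091945689123113670455688945851010439718751549772304596284375706996862589624686888353792) (.p (nat_lit 427) (.a (.f (nat_lit 426) (nat_lit 461) (nat_lit 426) (.f (nat_lit 393) (nat_lit 394) (nat_lit 3465) (.f (nat_lit 425) (nat_lit 392) (nat_lit 3464) (.d (nat_lit 457) (nat_lit 456) (nat_lit 1448) (nat_lit 458) (nat_lit 1449))))) (.a (.d (nat_lit 459) (nat_lit 458) (nat_lit 1450) (nat_lit 460) (nat_lit 1451)) (.p (nat_lit 397) (.a (.f (nat_lit 461) (nat_lit 426) (nat_lit 426) (.f (nat_lit 460) (nat_lit 459) (nat_lit 1451) (.d (nat_lit 365) (nat_lit 333) (nat_lit 4429) (nat_lit 492) (nat_lit 5484)))) (.a (.f (nat_lit 461) (nat_lit 426) (nat_lit 426) (.f (nat_lit 460) (nat_lit 459) (nat_lit 1451) (.d (nat_lit 492) (nat_lit 365) (nat_lit 5484) (nat_lit 524) (nat_lit 6540)))) (.a (.f (nat_lit 426)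 (nat_lit 461) (nat_lit 426) (.f (nat_lit 425) (nat_lit 396) (nat_lit 2441) (.d (nat_lit 393) (nat_lit 392) (nat_lit 3464) (nat_lit 394) (nat_lit 3465)))) (.a (.f (nat_lit 460) (nat_lit 459) (nat_lit 1451) (.f (nat_lit 365) (nat_lit 333) (nat_lit 4429) (.d (nat_lit 492) (nat_lit 461) (nat_lit 5484) (nat_lit 524) (nat_lit 6540)))) (.f (nat_lit 365) (nat_lit 333) (nat_lit 4429) (.f (nat_lit 460) (nat_lit 459) (nat_lit 1451) (.d (nat_lit 492) (nat_lit 396) (nat_lit 6508) (nat_lit 524) (nat_lit 6540))))))))))))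
noncomputable def s79580 : Cert := .r (nat_lit 3773962425700235452738272624565494821503340012630151605145259173746866578397431004823101734979321050560535290524059033312991556170778561389851359194122238731729644814336) (.p (nat_lit 428) (.a (.f (nat_lit 459) (nat_lit 460) (nat_lit 1451) (.f (nat_lit 427) (nat_lit 458) (nat_lit 1450) (.d (nat_lit 395) (nat_lit 394) (nat_lit 3466) (nat_lit 396) (nat_lit 3467)))) (.a (.f (nat_lit 459) (nat_lit 460) (nat_lit 1451) (.f (nat_lit 427) (nat_lit 458) (nat_lit 1450) (.f (nat_lit 396) (nat_lit 395) (nat_lit 3467) (.f (nat_lit 426) (nat_lit 461) (nat_lit 426) (.f (nat_lit 425) (nat_lit 397) (nat_lit 2441) (.f (nat_lit 456) (nat_lit 457) (nat_lit 1448) (.f (nat_lit 424) (nat_lit 455) (nat_lit 1447) (.d (nat_lit 392) (nat_lit 391) (nat_lit 3463) (nat_lit 393) (nat_lit 3464))))))))) (.a s79561 (.a (.f (nat_lit 459) (nat_lit 460) (nat_lit 1451) (.f (nat_lit 427) (nat_lit 458) (nat_lit 1450)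 (.f (nat_lit 426) (nat_lit 461) (nat_lit 426) (.d (nat_lit 394) (nat_lit 393) (nat_lit 3465) (nat_lit 395) (nat_lit 3466))))) (.a s78928 (.p (nat_lit 427) (.a (.d (nat_lit 395) (nat_lit 394) (nat_lit 3466) (nat_lit 396) (nat_lit 3467)) (.a (.f (nat_lit 426) (nat_lit 461) (nat_lit 426) (.f (nat_lit 396) (nat_lit 395) (nat_lit 3467) (.f (nat_lit 425) (nat_lit 397) (nat_lit 2441) (.d (nat_lit 457) (nat_lit 456) (nat_lit 1448) (nat_lit 458) (nat_lit 1449))))) (.f (nat_lit 426) (nat_lit 461) (nat_lit 426) (.f (nat_lit 393) (nat_lit 394) (nat_lit 3465) (.f (nat_lit 425) (nat_lit 392) (nat_lit 3464) (.d (nat_lit 457) (nat_lit 456) (nat_lit 1448) (nat_lit 458) (nat_lit 1449))))))))))))))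
noncomputable def s79597 : Cert := .r (nat_lit 3773962425700235452738272624565494821503340012630151605145259173746866578397431004823101734979321050560535290524059033312991556170778561389851359194122238731729644814336) (.p (nat_lit 428) (.a (.f (nat_lit 459) (nat_lit 460) (nat_lit 1451) (.f (nat_lit 427) (nat_lit 458) (nat_lit 1450) (.d (nat_lit 395) (nat_lit 394) (nat_lit 3466) (nat_lit 396) (nat_lit 3467)))) (.a (.f (nat_lit 432) (nat_lit 465) (nat_lit 429) (.d (nat_lit 396) (nat_lit 395) (nat_lit 3467) (nat_lit 397) (nat_lit 3468))) (.a (.f (nat_lit 432) (nat_lit 465) (nat_lit 429) (.f (nat_lit 397) (nat_lit 396) (nat_lit 3468) (.f (nat_lit 398) (nat_lit 433) (nat_lit 3469) (.d (nat_lit 427) (nat_lit 399) (nat_lit 2443) (nat_lit 426) (nat_lit 2442))))) (.f (nat_lit 432) (nat_lit 465) (nat_lit 429) (.f (nat_lit 459) (nat_lit 460) (nat_lit 1451) (.f (nat_lit 427) (nat_lit 458) (nat_lit 1450) (.f (nat_lit 398) (nat_lit 399)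 (nat_lit 2443) (.d (nat_lit 397) (nat_lit 426) (nat_lit 2442) (nat_lit 433) (nat_lit 3469))))))))))
noncomputable def s79848 : Cert := .r (nat_lit 3773962425700235452738272624565494821497794673242555537895849532613940678773436273778224304631815462802208911455170843905682909723638695982549126333903345176555949129728) (.p (nat_lit 364) (.a (.f (nat_lit 399) (nat_lit 363) (nat_lit 363) (.d (nat_lit 400) (nat_lit 367) (nat_lit 364) (nat_lit 401) (nat_lit 1421))) (.a (.f (nat_lit 367) (nat_lit 335) (nat_lit 6478) (.f (nat_lit 400) (nat_lit 399) (nat_lit 364) (.f (nat_lit 368) (nat_lit 401) (nat_lit 365) (.f (nat_lit 337) (nat_lit 336) (nat_lit 2381) (.d (nat_lit 369) (nat_lit 338) (nat_lit 2382) (nat_lit 432) (nat_lit 6480)))))) (.a (.f (nat_lit 363) (nat_lit 399) (nat_lit 363) (.f (nat_lit 394) (nat_lit 395) (nat_lit 1386) (.f (nat_lit 362) (nat_lit 393) (nat_lit 1385) (.d (nat_lit 330) (nat_lit 329) (nat_lit 3401) (nat_lit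 331) (nat_lit 3402))))) (.f (nat_lit 367) (nat_lit 335) (nat_lit 6478) (.f (nat_lit 331) (nat_lit 332) (nat_lit 3403) (.f (nat_lit 363) (nat_lit 330) (nat_lit 3402) (.d (nat_lit 395) (nat_lit 394) (nat_lit 1386) (nat_lit 396) (nat_lit 1387)))))))))
noncomputable def s79850 : Cert := .r (nat_lit 3773962425700235452738272624565494821497794673241909975426327805466526698980435520809641878183608156924001246616035682000178699424981284644229091876044369383562762256384) (.p (nat_lit 398) (.a (.d (nat_lit 461) (nat_lit 334) (nat_lit 5453) (nat_lit 493) (nat_lit 5485)) s79848))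
noncomputable def s79864 : Cert := .r (nat_lit 3773962425700235452738272624565494821497794673241909975426628418917121749633605374326030913323112244290261511559486215244534822180195954524992445347837619777550849933312) (.p (nat_lit 364) (.a (.f (nat_lit 396) (nat_lit 395) (nat_lit 1387) (.f (nat_lit 368) (nat_lit 397) (nat_lit 1388) (.d (nat_lit 400) (nat_lit 399) (nat_lit 364) (nat_lit 401) (nat_lit 365)))) (.a (.f (nat_lit 396) (nat_lit 395) (nat_lit 1387) (.f (nat_lit 332) (nat_lit 331) (nat_lit 3403) (.d (nat_lit 397) (nat_lit 300) (nat_lit 4396) (nat_lit 461) (nat_lit 7500)))) (.a (.f (nat_lit 332) (nat_lit 331) (nat_lit 3403) (.f (nat_lit 397) (nat_lit 461) (nat_lit 7500) (.d (nat_lit 396) (nat_lit 300) (nat_lit 4396) (nat_lit 368) (nat_lit 1388)))) (.f (nat_lit 400) (nat_lit 399) (nat_lit 364) (.f (nat_lit 368) (nat_lit 401) (nat_lit 365) (.f (nat_lit 337) (nat_lit 336) (nat_lit 2381) (.d (nat_lit 369) (nat_lit 338)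 (nat_lit 2382) (nat_lit 432) (nat_lit 6480)))))))))
noncomputable def s79892 : Cert := .r (nat_lit 3773962425700235452738272624565494821497794673241909975426628418917121749633605374326030913323112244290261511559486215244534822180195954524992445347837619777550849933312) (.p (nat_lit 368) (.a (.f (nat_lit 337) (nat_lit 336) (nat_lit 2381) (.f (nat_lit 369) (nat_lit 338) (nat_lit 2382) (.d (nat_lit 401) (nat_lit 400) (nat_lit 365) (nat_lit 402) (nat_lit 366)))) (.a (.f (nat_lit 397) (nat_lit 396) (nat_lit 1388) (.f (nat_lit 400) (nat_lit 401) (nat_lit 365) (.f (nat_lit 369) (nat_lit 398) (nat_lit 1389) (.d (nat_lit 337) (nat_lit 338) (nat_lit 2382) (nat_lit 432) (nat_lit 6480))))) (.a (.f (nat_lit 397) (nat_lit 396) (nat_lit 1388) (.f (nat_lit 400) (nat_lit 401) (nat_lit 365) (.f (nat_lit 398) (nat_lit 369) (nat_lit 1389) (.f (nat_lit 364) (nat_lit 399) (nat_lit 364) (.f (nat_lit 363) (nat_lit 362) (nat_lit 362) (.d (nat_lit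 331) (nat_lit 330) (nat_lit 3402) (nat_lit 332) (nat_lit 3403))))))) (.a (.f (nat_lit 400) (nat_lit 401) (nat_lit 365) (.f (nat_lit 364) (nat_lit 399) (nat_lit 364) (.d (nat_lit 396) (nat_lit 395) (nat_lit 1387) (nat_lit 397) (nat_lit 1388)))) (.f (nat_lit 397) (nat_lit 396) (nat_lit 1388) (.f (nat_lit 369) (nat_lit 398) (nat_lit 1389) (.d (nat_lit 337) (nat_lit 336) (nat_lit 2381) (nat_lit 338) (nat_lit 2382)))))))))
noncomputable def s79893 : Cert := .r (nat_lit 3773962425700235452738272624565494821497794673241909975426327805466526698980435520809641878183608156924001246616035682000178699424981284644229091876044369383562762256384) (.p (nat_lit 367) (.a (.p (nat_lit 364) (.a (.f (nat_lit 335) (nat_lit 336) (nat_lit 2380) (.d (nat_lit 399) (nat_lit 400) (nat_lit 364) (nat_lit 431) (nat_lit 5454))) (.a (.f (nat_lit 396) (nat_lit 395) (nat_lit 1387) (.f (nat_lit 368) (nat_lit 397) (nat_lit 1388) (.d (nat_lit 400) (nat_lit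 399) (nat_lit 364) (nat_lit 401) (nat_lit 365)))) (.f (nat_lit 335) (nat_lit 336) (nat_lit 2380) (.f (nat_lit 363) (nat_lit 334) (nat_lit 2379) (.d (nat_lit 395) (nat_lit 394) (nat_lit 1386) (nat_lit 396) (nat_lit 1387))))))) (.a (.f (nat_lit 335) (nat_lit 398) (nat_lit 6478) (.f (nat_lit 399) (nat_lit 431) (nat_lit 5454) (.d (nat_lit 364) (nat_lit 336) (nat_lit 2380) (nat_lit 400) (nat_lit 364)))) (.a s79892 (.a (.f (nat_lit 335) (nat_lit 398) (nat_lit 6478) (.f (nat_lit 399) (nat_lit 431) (nat_lit 5454) (.f (nat_lit 400) (nat_lit 364) (nat_lit 364) (.d (nat_lit 401) (nat_lit 368) (nat_lit 365) (nat_lit 402) (nat_lit 3438))))) (.a (.f (nat_lit 335) (nat_lit 398) (nat_lit 6478) (.f (nat_lit 431) (nat_lit 399) (nat_lit 5454) (.f (nat_lit 432) (nat_lit 465) (nat_lit 429) (.d (nat_lit 400) (nat_lit 368) (nat_lit 7503) (nat_lit 401) (nat_lit 2445))))) (.f (nat_lit 335) (nat_lit 398) (nat_lit 6478) (.f (nat_lit 336) (nat_lit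 364) (nat_lit 2380) (.d (nat_lit 337) (nat_lit 334) (nat_lit 1357) (nat_lit 338) (nat_lit 1358))))))))))
noncomputable def s79896 : Cert := .r (nat_lit 3773962425700235452738272624565494821497794673241909975426327805466526698980435520809641878183608156924001246616035682000178699424981284644229091876044369383562762256384) (.f (nat_lit 398) (nat_lit 333) (nat_lit 7501) s79848)
noncomputable def s79902 : Cert := .r (nat_lit 3773962425700235452738272624565494821497794673241909975426177498741229173653850594051447360613856113240871114144310415378000638047373949703847415140147744186568718417920) (.p (nat_lit 366) (.a (.f (nat_lit 397) (nat_lit 333) (nat_lit 4429) (.f (nat_lit 461) (nat_lit 334) (nat_lit 6477) (.f (nat_lit 364) (nat_lit 332) (nat_lit 7500) (.f (nat_lit 396) (nat_lit 493) (nat_lit 7532) (.d (nat_lit 395) (nat_lit 367) (nat_lit 1387) (nat_lit 394) (nat_lit 2410)))))) (.a (.f (nat_lit 398) (nat_lit 333) (nat_lit 7501)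 (.d (nat_lit 461) (nat_lit 334) (nat_lit 5453) (nat_lit 493) (nat_lit 5485))) (.a (.p (nat_lit 461) (.a (.f (nat_lit 397) (nat_lit 334) (nat_lit 6477) (.f (nat_lit 364) (nat_lit 332) (nat_lit 7500) (.f (nat_lit 396) (nat_lit 493) (nat_lit 7532) (.d (nat_lit 395) (nat_lit 367) (nat_lit 1387) (nat_lit 394) (nat_lit 2410))))) (.a (.d (nat_lit 398) (nat_lit 334) (nat_lit 5453) (nat_lit 493) (nat_lit 5485)) (.a (.f (nat_lit 493) (nat_lit 398) (nat_lit 5485) (.f (nat_lit 525) (nat_lit 557) (nat_lit 6573) (.f (nat_lit 526) (nat_lit 558) (nat_lit 4525) (.d (nat_lit 527) (nat_lit 492) (nat_lit 3564) (nat_lit 561) (nat_lit 525))))) (.d (nat_lit 334) (nat_lit 397) (nat_lit 6477) (nat_lit 398) (nat_lit 5453)))))) (.d (nat_lit 333) (nat_lit 397) (nat_lit 4429) (nat_lit 398) (nat_lit 7501))))))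
noncomputable def s79921 : Cert := .r (nat_lit 3773962425700235452738272624565494821497794673241909975426628418917121749633605374326030913323112244290261511559486215244534822180195954524992445347837619777550849933312) (.p (nat_lit 368) (.a (.f (nat_lit 337) (nat_lit 336) (nat_lit 2381) (.f (nat_lit 369) (nat_lit 338) (nat_lit 2382) (.d (nat_lit 401) (nat_lit 400) (nat_lit 365) (nat_lit 402) (nat_lit 366)))) (.a (.f (nat_lit 397) (nat_lit 396) (nat_lit 1388) (.f (nat_lit 400) (nat_lit 401) (nat_lit 365) (.f (nat_lit 369) (nat_lit 398) (nat_lit 1389) (.d (nat_lit 337) (nat_lit 338) (nat_lit 2382) (nat_lit 432) (nat_lit 6480))))) (.a (.f (nat_lit 398) (nat_lit 335) (nat_lit 6478) (.d (nat_lit 397) (nat_lit 369) (nat_lit 1389) (nat_lit 396) (nat_lit 1388))) (.f (nat_lit 400) (nat_lit 401) (nat_lit 365) (.d (nat_lit 335) (nat_lit 398) (nat_lit 6478) (nat_lit 432) (nat_lit 7503)))))))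
noncomputable def s79949 : Cert := .r (nat_lit 3773962425700235452738272624565494821497794673241909975426628418917121749633605374326030913323112244290261511559486215244534822180195954524992445347837619777550849933312) (.p (nat_lit 364) (.a (.f (nat_lit 400) (nat_lit 399) (nat_lit 364) (.f (nat_lit 368) (nat_lit 401) (nat_lit 365) (.f (nat_lit 337) (nat_lit 336) (nat_lit 2381) (.d (nat_lit 369) (nat_lit 338) (nat_lit 2382) (nat_lit 432) (nat_lit 6480))))) (.a (.f (nat_lit 400) (nat_lit 399) (nat_lit 364) (.f (nat_lit 368) (nat_lit 401) (nat_lit 365) (.f (nat_lit 335) (nat_lit 432) (nat_lit 7503) (.f (nat_lit 363) (nat_lit 334) (nat_lit 2379) (.d (nat_lit 331) (nat_lit 330) (nat_lit 3402) (nat_lit 332) (nat_lit 3403)))))) (.f (nat_lit 335) (nat_lit 336) (nat_lit 2380) (.f (nat_lit 363) (nat_lit 334) (nat_lit 2379) (.d (nat_lit 331) (nat_lit 330) (nat_lit 3402) (nat_lit 332) (nat_lit 3403)))))))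
noncomputable def s79952 : Cert := .r (nat_lit 3773962425700235452738272624565494821497794673241909975426327805466526698980435520809641878183608156924001246616035682000178699424981284644229091876044369383562762256384) (.p (nat_lit 367) (.a (.f (nat_lit 335) (nat_lit 398) (nat_lit 6478) (.f (nat_lit 336) (nat_lit 364) (nat_lit 2380) (.d (nat_lit 337) (nat_lit 334) (nat_lit 1357) (nat_lit 338) (nat_lit 1358)))) (.a s79892 (.a (.p (nat_lit 364) (.a (.f (nat_lit 396) (nat_lit 395) (nat_lit 1387) (.f (nat_lit 368) (nat_lit 397) (nat_lit 1388) (.d (nat_lit 400) (nat_lit 399) (nat_lit 364) (nat_lit 401) (nat_lit 365)))) (.a (.f (nat_lit 398) (nat_lit 335) (nat_lit 6478) (.d (nat_lit 399) (nat_lit 363) (nat_lit 363) (nat_lit 400) (nat_lit 364))) (.f (nat_lit 396) (nat_lit 395) (nat_lit 1387) (.f (nat_lit 397) (nat_lit 368) (nat_lit 1388) (.d (nat_lit 332) (nat_lit 300) (nat_lit 4396) (nat_lit 331) (nat_lit 3403))))))) (.a s79921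 (.p (nat_lit 364) (.a (.f (nat_lit 335) (nat_lit 336) (nat_lit 2380) (.f (nat_lit 363) (nat_lit 334) (nat_lit 2379) (.d (nat_lit 395) (nat_lit 394) (nat_lit 1386) (nat_lit 396) (nat_lit 1387)))) (.a (.f (nat_lit 396) (nat_lit 395) (nat_lit 1387) (.f (nat_lit 368) (nat_lit 397) (nat_lit 1388) (.d (nat_lit 400) (nat_lit 399) (nat_lit 364) (nat_lit 401) (nat_lit 365)))) (.f (nat_lit 400) (nat_lit 399) (nat_lit 364) (.f (nat_lit 368) (nat_lit 401) (nat_lit 365) (.f (nat_lit 337) (nat_lit 336) (nat_lit 2381) (.d (nat_lit 369) (nat_lit 338) (nat_lit 2382) (nat_lit 432) (nat_lit 6480)))))))))))))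
noncomputable def s79994 : Cert := .r (nat_lit 3773962425700235452738272624565494821497794673241909975426628418917121749633605374326030913323112244290261511559486215244534822180195954524992445347837619777550849933312) (.p (nat_lit 368) (.a (.f (nat_lit 333) (nat_lit 332) (nat_lit 3404) (.f (nat_lit 369) (nat_lit 334) (nat_lit 3405) (.d (nat_lit 337) (nat_lit 336) (nat_lit 2381) (nat_lit 338) (nat_lit 2382)))) (.a (.f (nat_lit 337) (nat_lit 336) (nat_lit 2381) (.f (nat_lit 369) (nat_lit 338) (nat_lit 2382) (.d (nat_lit 401) (nat_lit 400) (nat_lit 365) (nat_lit 402) (nat_lit 366)))) (.a (.f (nat_lit 333) (nat_lit 332) (nat_lit 3404) (.f (nat_lit 369) (nat_lit 334) (nat_lit 3405) (.d (nat_lit 401) (nat_lit 400) (nat_lit 365) (nat_lit 402) (nat_lit 366)))) (.f (nat_lit 400) (nat_lit 401) (nat_lit 365) (.f (nat_lit 336) (nat_lit 337) (nat_lit 2381) (.f (nat_lit 432) (nat_lit 335) (nat_lit 7503) (.d (nat_lit 465) (nat_lit 433)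 (nat_lit 4432) (nat_lit 497) (nat_lit 4464)))))))))
noncomputable def s80012 : Cert := .r (nat_lit 3773962425700235452738272624565494821497794673242555537895624072525994390783558883640932528277187397277513712747582943972415817657227693571976611230058407381064883372032) (.p (nat_lit 366) (.a (.d (nat_lit 461) (nat_lit 334) (nat_lit 5453) (nat_lit 493) (nat_lit 5485)) (.a s68105 (.f (nat_lit 335) (nat_lit 367) (nat_lit 6478) (.f (nat_lit 334) (nat_lit 303) (nat_lit 6446) (.f (nat_lit 365) (nat_lit 333) (nat_lit 7501) (.f (nat_lit 302) (nat_lit 397) (nat_lit 5421) (.f (nat_lit 431) (nat_lit 399) (nat_lit 4398) (.f (nat_lit 432) (nat_lit 465) (nat_lit 429) (.f (nat_lit 401) (nat_lit 400) (nat_lit 2445) (.f (nat_lit 433) (nat_lit 402) (nat_lit 2446) (.d (nat_lit 337) (nat_lit 336) (nat_lit 1357) (nat_lit 369) (nat_lit 5456)))))))))))))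
noncomputable def s80013 : Cert := .r (nat_lit 3773962425700235452738272624565494821497794673242555537895624072525994390783558883640932528277187397277513712747582943972415817657227693571976611230058407381064883372032) (.p (nat_lit 366) (.a (.d (nat_lit 461) (nat_lit 334) (nat_lit 5453) (nat_lit 493) (nat_lit 5485)) (.a s68105 (.f (nat_lit 333) (nat_lit 365) (nat_lit 7501) (.f (nat_lit 334) (nat_lit 301) (nat_lit 7469) (.f (nat_lit 367) (nat_lit 335) (nat_lit 6478) (.f (nat_lit 302) (nat_lit 397) (nat_lit 5421) (.d (nat_lit 399) (nat_lit 270) (nat_lit 4366) (nat_lit 431) (nat_lit 4398)))))))))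
noncomputable def s80099 : Cert := .r (nat_lit 3773962425700235452738272624565494821497794673242716928513004504312847885731809071883078134889239223747065628957366734448791870231892046406556619844523151329313180090368) (.p (nat_lit 395) (.a (.d (nat_lit 431) (nat_lit 397) (nat_lit 395) (nat_lit 428) (nat_lit 3467)) (.a (.f (nat_lit 428) (nat_lit 431) (nat_lit 3467) (.d (nat_lit 394) (nat_lit 393) (nat_lit 393) (nat_lit 427) (nat_lit 3466))) (.a (.d (nat_lit 397) (nat_lit 394) (nat_lit 394) (nat_lit 431) (nat_lit 395)) (.f (nat_lit 397) (nat_lit 394) (nat_lit 394) (.f (nat_lit 366) (nat_lit 367) (nat_lit 2411) (.f (nat_lit 461) (nat_lit 493) (nat_lit 5485) (.f (nat_lit 365) (nat_lit 333) (nat_lit 4429) (.f (nat_lit 364) (nat_lit 332) (nat_lit 7500) (.f (nat_lit 363) (nat_lit 362) (nat_lit 3434) (.f (nat_lit 331) (nat_lit 330) (nat_lit 3402) (.d (nat_lit 299) (nat_lit 267) (nat_lit 4363) (nat_lit 428) (nat_lit 4395)))))))))))))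
noncomputable def s80142 : Cert := .r (nat_lit 3773962425700235452738272624565494821497794673243846662834667526820822350369560389578097381173602009033929042425853267783424238254542516248616680145776358967051257118720) (.p (nat_lit 431) (.a (.f (nat_lit 432) (nat_lit 465) (nat_lit 429) (.d (nat_lit 433) (nat_lit 397) (nat_lit 3469) (nat_lit 461) (nat_lit 1453))) (.a (.f (nat_lit 432) (nat_lit 465) (nat_lit 429) (.d (nat_lit 433) (nat_lit 434) (nat_lit 3470) (nat_lit 461) (nat_lit 1453))) (.a (.f (nat_lit 367) (nat_lit 335) (nat_lit 5454) (.f (nat_lit 428) (nat_lit 427) (nat_lit 2443) (.f (nat_lit 396) (nat_lit 395) (nat_lit 3467) (.f (nat_lit 397) (nat_lit 368) (nat_lit 2412) (.f (nat_lit 364) (nat_lit 363) (nat_lit 3435) (.d (nat_lit 332) (nat_lit 300) (nat_lit 4396) (nat_lit 461) (nat_lit 4428))))))) (.f (nat_lit 432) (nat_lit 465) (nat_lit 429) (.d (nat_lit 397) (nat_lit 396) (nat_lit 396) (nat_lit 433) (nat_lit 3469)))))))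
noncomputable def s80225 : Cert := .r (nat_lit 3773962425700235452738272624565494821496408338394849567996313138286508869138839912134662193541394851608998737254544969255391620155518212444607881166718729802157209419776) (.p (nat_lit 429) (.a s68256 (.a (.p (nat_lit 431) (.a (.f (nat_lit 432) (nat_lit 465) (nat_lit 429) (.d (nat_lit 461) (nat_lit 433) (nat_lit 1453) (nat_lit 460) (nat_lit 1452))) (.a (.p (nat_lit 428) (.a (.f (nat_lit 399) (nat_lit 400) (nat_lit 2444) (.f (nat_lit 427) (nat_lit 398) (nat_lit 2443) (.d (nat_lit 459) (nat_lit 458) (nat_lit 1450) (nat_lit 460) (nat_lit 1451)))) (.a (.f (nat_lit 459) (nat_lit 460) (nat_lit 1451) (.f (nat_lit 427) (nat_lit 458) (nat_lit 1450) (.d (nat_lit 395) (nat_lit 394) (nat_lit 3466) (nat_lit 396) (nat_lit 3467)))) (.a (.p (nat_lit 397) (.a (.f (nat_lit 460) (nat_lit 459) (nat_lit 1451) (.f (nat_lit 492) (nat_lit 524) (nat_lit 6540) (.d (nat_lit 365) (nat_lit 396) (nat_lit 6508) (nat_lit 461) (nat_lit 5484)))) (.a (.f (nat_lit 396) (nat_lit 395) (nat_lit 3467) (.f (nat_lit 460) (nat_lit 459) (nat_lit 1451) (.f (nat_lit 492) (nat_lit 524) (nat_lit 6540) (.f (nat_lit 493) (nat_lit 525) (nat_lit 4492) (.f (nat_lit 461) (nat_lit 364) (nat_lit 4460) (.d (nat_lit 491) (nat_lit 490) (nat_lit 2506) (nat_lit 523) (nat_lit 5515))))))) (.a (.f (nat_lit 460) (nat_lit 459) (nat_lit 1451) (.f (nat_lit 365) (nat_lit 333) (nat_lit 4429) (.d (nat_lit 492) (nat_lit 461) (nat_lit 5484) (nat_lit 524) (nat_lit 6540)))) (.f (nat_lit 396) (nat_lit 395) (nat_lit 3467) (.f (nat_lit 365) (nat_lit 333) (nat_lit 4429) (.f (nat_lit 399) (nat_lit 400) (nat_lit 2444) (.f (nat_lit 367) (nat_lit 335) (nat_lit 5454) (.d (nat_lit 368) (nat_lit 366) (nat_lit 1388) (nat_lit 398) (nat_lit 2412)))))))))) (.f (nat_lit 399) (nat_lit 400) (nat_lit 2444) (.f (nat_lit 427) (nat_lit 398) (nat_lit 2443) (.d (nat_lit 395) (nat_lit 394) (nat_lit 3466) (nat_lit 396) (nat_lit 3467)))))))) (.a (.f (nat_lit 432) (nat_lit 465) (nat_lit 429) (.f (nat_lit 397) (nat_lit 396) (nat_lit 3468) (.d (nat_lit 433) (nat_lit 398) (nat_lit 3469) (nat_lit 461) (nat_lit 1453)))) (.f (nat_lit 432) (nat_lit 465) (nat_lit 429) (.f (nat_lit 400) (nat_lit 401) (nat_lit 2445) (.f (nat_lit 428) (nat_lit 399) (nat_lit 2444) (.d (nat_lit 396) (nat_lit 395) (nat_lit 3467) (nat_lit 397) (nat_lit 3468))))))))) (.a (.p (nat_lit 431) (.a (.f (nat_lit 432) (nat_lit 465) (nat_lit 429) (.d (nat_lit 461) (nat_lit 433) (nat_lit 1453) (nat_lit 460) (nat_lit 1452))) (.a (.p (nat_lit 428) (.a (.f (nat_lit 399) (nat_lit 400) (nat_lit 2444) (.f (nat_lit 427) (nat_lit 398) (nat_lit 2443) (.d (nat_lit 459) (nat_lit 458) (nat_lit 1450) (nat_lit 460) (nat_lit 1451)))) (.a (.f (nat_lit 459) (nat_lit 460) (nat_lit 1451) (.f (nat_lit 427) (nat_lit 458) (nat_lit 1450) (.d (nat_lit 395) (nat_lit 394) (nat_lit 3466) (nat_lit 396) (nat_lit 3467)))) (.a s78928 (.f (nat_lit 399) (nat_lit 400) (nat_lit 2444) (.f (nat_lit 427) (nat_lit 398) (nat_lit 2443) (.d (nat_lit 395) (nat_lit 394) (nat_lit 3466) (nat_lit 396) (nat_lit 3467)))))))) (.a (.f (nat_lit 432) (nat_lit 465) (nat_lit 429) (.f (nat_lit 397) (nat_lit 396) (nat_lit 3468) (.d (nat_lit 433) (nat_lit 398) (nat_lit 3469) (nat_lit 461) (nat_lit 1453)))) (.f (nat_lit 432) (nat_lit 465) (nat_lit 429) (.f (nat_lit 400) (nat_lit 401) (nat_lit 2445) (.f (nat_lit 428) (nat_lit 399) (nat_lit 2444) (.d (nat_lit 396) (nat_lit 395) (nat_lit 3467) (nat_lit 397) (nat_lit 3468))))))))) (.a (.p (nat_lit 431) (.a (.f (nat_lit 432) (nat_lit 465) (nat_lit 429) (.d (nat_lit 461) (nat_lit 433) (nat_lit 1453) (nat_lit 460) (nat_lit 1452))) (.a (.p (nat_lit 428) (.a (.f (nat_lit 399) (nat_lit 400) (nat_lit 2444) (.f (nat_lit 427) (nat_lit 398) (nat_lit 2443) (.d (nat_lit 459) (nat_lit 458) (nat_lit 1450) (nat_lit 460) (nat_lit 1451)))) (.a (.f (nat_lit 459) (nat_lit 460) (nat_lit 1451) (.f (nat_lit 427) (nat_lit 458) (nat_lit 1450) (.d (nat_lit 395) (nat_lit 394) (nat_lit 3466) (nat_lit 396) (nat_lit 3467)))) (.a (.p (nat_lit 397) (.a (.f (nat_lit 460) (nat_lit 459) (nat_lit 1451) (.f (nat_lit 492) (nat_lit 524) (nat_lit 6540) (.d (nat_lit 365) (nat_lit 396) (nat_lit 6508) (nat_lit 461) (nat_lit 5484)))) (.a (.f (nat_lit 399) (nat_lit 400) (nat_lit 2444) (.f (nat_lit 396) (nat_lit 395) (nat_lit 3467) (.f (nat_lit 460) (nat_lit 459) (nat_lit 1451) (.f (nat_lit 492) (nat_lit 524) (nat_lit 6540) (.f (nat_lit 493) (nat_lit 525) (nat_lit 4492) (.f (nat_lit 367) (nat_lit 335) (nat_lit 5454) (.f (nat_lit 398) (nat_lit 368) (nat_lit 2412) (.f (nat_lit 461) (nat_lit 366) (nat_lit 5485) (.d (nat_lit 491) (nat_lit 490) (nat_lit 2506) (nat_lit 523) (nat_lit 5515)))))))))) (.a (.f (nat_lit 460) (nat_lit 459) (nat_lit 1451) (.f (nat_lit 365) (nat_lit 333) (nat_lit 4429) (.d (nat_lit 492) (nat_lit 461) (nat_lit 5484) (nat_lit 524) (nat_lit 6540)))) (.f (nat_lit 396) (nat_lit 395) (nat_lit 3467) (.f (nat_lit 365) (nat_lit 333) (nat_lit 4429) (.f (nat_lit 399) (nat_lit 400) (nat_lit 2444) (.f (nat_lit 367) (nat_lit 335) (nat_lit 5454) (.d (nat_lit 368) (nat_lit 366) (nat_lit 1388) (nat_lit 398) (nat_lit 2412)))))))))) (.f (nat_lit 399) (nat_lit 400) (nat_lit 2444) (.f (nat_lit 427) (nat_lit 398) (nat_lit 2443) (.d (nat_lit 395) (nat_lit 394) (nat_lit 3466) (nat_lit 396) (nat_lit 3467)))))))) (.a (.f (nat_lit 432) (nat_lit 465) (nat_lit 429) (.f (nat_lit 397) (nat_lit 396) (nat_lit 3468) (.d (nat_lit 433) (nat_lit 398) (nat_lit 3469) (nat_lit 461) (nat_lit 1453)))) (.f (nat_lit 432) (nat_lit 465) (nat_lit 429) (.f (nat_lit 400) (nat_lit 401) (nat_lit 2445) (.f (nat_lit 428) (nat_lit 399) (nat_lit 2444) (.d (nat_lit 396) (nat_lit 395) (nat_lit 3467) (nat_lit 397) (nat_lit 3468))))))))) (.a (.p (nat_lit 431) (.a (.f (nat_lit 432) (nat_lit 465) (nat_lit 429) (.d (nat_lit 461) (nat_lit 433) (nat_lit 1453) (nat_lit 460) (nat_lit 1452))) (.a (.p (nat_lit 428) (.a (.f (nat_lit 399) (nat_lit 400) (nat_lit 2444) (.f (nat_lit 427) (nat_lit 398) (nat_lit 2443) (.d (nat_lit 459) (nat_lit 458) (nat_lit 1450) (nat_lit 460) (nat_lit 1451)))) (.a (.f (nat_lit 459) (nat_lit 460) (nat_lit 1451) (.f (nat_lit 427) (nat_lit 458) (nat_lit 1450) (.d (nat_lit 395) (nat_lit 394) (nat_lit 3466) (nat_lit 396) (nat_lit 3467)))) (.a (.f (nat_lit 460) (nat_lit 459) (nat_lit 1451) (.p (nat_lit 492) (.a (.f (nat_lit 396) (nat_lit 395) (nat_lit 3467) (.f (nat_lit 493) (nat_lit 525) (nat_lit 4492) (.f (nat_lit 461) (nat_lit 364) (nat_lit 4460) (.d (nat_lit 524) (nat_lit 397) (nat_lit 6540) (nat_lit 556) (nat_lit 6572))))) (.a (.f (nat_lit 524) (nat_lit 397) (nat_lit 6540) (.f (nat_lit 525) (nat_lit 557) (nat_lit 4524) (.f (nat_lit 493) (nat_lit 396) (nat_lit 4492) (.d (nat_lit 461) (nat_lit 398) (nat_lit 6541) (nat_lit 556) (nat_lit 6572))))) (.a (.f (nat_lit 524) (nat_lit 397) (nat_lit 6540) (.f (nat_lit 556) (nat_lit 461) (nat_lit 6572) (.d (nat_lit 555) (nat_lit 523) (nat_lit 5547) (nat_lit 587) (nat_lit 5579)))) (.a (.f (nat_lit 396) (nat_lit 395) (nat_lit 3467) (.f (nat_lit 493) (nat_lit 525) (nat_lit 4492) (.f (nat_lit 461) (nat_lit 364) (nat_lit 4460) (.d (nat_lit 491) (nat_lit 490) (nat_lit 2506) (nat_lit 523) (nat_lit 5515))))) (.f (nat_lit 396) (nat_lit 395) (nat_lit 3467) (.f (nat_lit 524) (nat_lit 397) (nat_lit 6540) (.d (nat_lit 523) (nat_lit 491) (nat_lit 5515) (nat_lit 555) (nat_lit 5547)))))))))) (.f (nat_lit 399) (nat_lit 400) (nat_lit 2444) (.f (nat_lit 427) (nat_lit 398) (nat_lit 2443) (.d (nat_lit 395) (nat_lit 394) (nat_lit 3466) (nat_lit 396) (nat_lit 3467)))))))) (.a (.f (nat_lit 432) (nat_lit 465) (nat_lit 429) (.f (nat_lit 397) (nat_lit 396) (nat_lit 3468) (.d (nat_lit 433) (nat_lit 398) (nat_lit 3469) (nat_lit 461) (nat_lit 1453)))) (.f (nat_lit 432) (nat_lit 465) (nat_lit 429) (.f (nat_lit 400) (nat_lit 401) (nat_lit 2445) (.f (nat_lit 428) (nat_lit 399) (nat_lit 2444) (.d (nat_lit 396) (nat_lit 395) (nat_lit 3467) (nat_lit 397) (nat_lit 3468))))))))) (.a (.p (nat_lit 431) (.a (.f (nat_lit 432) (nat_lit 465) (nat_lit 429) (.d (nat_lit 461) (nat_lit 433) (nat_lit 1453) (nat_lit 460) (nat_lit 1452))) (.a (.p (nat_lit 428) (.a (.f (nat_lit 399) (nat_lit 400) (nat_lit 2444) (.f (nat_lit 427) (nat_lit 398) (nat_lit 2443) (.d (nat_lit 459) (nat_lit 458) (nat_lit 1450) (nat_lit 460) (nat_lit 1451)))) (.a (.f (nat_lit 459) (nat_lit 460) (nat_lit 1451) (.f (nat_lit 427) (nat_lit 458) (nat_lit 1450) (.f (nat_lit 396) (nat_lit 395) (nat_lit 3467) (.f (nat_lit 426) (nat_lit 461) (nat_lit 426) (.f (nat_lit 425) (nat_lit 397) (nat_lit 2441) (.f (nat_lit 456) (nat_lit 457) (nat_lit 1448) (.f (nat_lit 424) (nat_lit 455) (nat_lit 1447) (.d (nat_lit 392) (nat_lit 391) (nat_lit 3463) (nat_lit 393) (nat_lit 3464))))))))) (.a s78896 (.f (nat_lit 399) (nat_lit 400) (nat_lit 2444) (.f (nat_lit 398) (nat_lit 427) (nat_lit 2443) (.f (nat_lit 367) (nat_lit 335) (nat_lit 5454) (.f (nat_lit 396) (nat_lit 395) (nat_lit 3467) (.f (nat_lit 397) (nat_lit 368) (nat_lit 2412) (.f (nat_lit 365) (nat_lit 333) (nat_lit 4429) (.f (nat_lit 364) (nat_lit 363) (nat_lit 3435) (.d (nat_lit 461) (nat_lit 332) (nat_lit 7500) (nat_lit 493) (nat_lit 7532))))))))))))) (.a (.f (nat_lit 432) (nat_lit 465) (nat_lit 429) (.f (nat_lit 397) (nat_lit 396) (nat_lit 3468) (.d (nat_lit 433) (nat_lit 398) (nat_lit 3469) (nat_lit 461) (nat_lit 1453)))) (.f (nat_lit 432) (nat_lit 465) (nat_lit 429) (.f (nat_lit 400) (nat_lit 401) (nat_lit 2445) (.f (nat_lit 428) (nat_lit 399) (nat_lit 2444) (.d (nat_lit 396) (nat_lit 395) (nat_lit 3467) (nat_lit 397) (nat_lit 3468))))))))) (.a (.p (nat_lit 398) (.a (.p (nat_lit 366) (.a (.d (nat_lit 461) (nat_lit 334) (nat_lit 5453) (nat_lit 493) (nat_lit 5485)) (.a (.p (nat_lit 397) (.a (.f (nat_lit 365) (nat_lit 333) (nat_lit 4429) (.f (nat_lit 461) (nat_lit 493) (nat_lit 5485) (.f (nat_lit 364) (nat_lit 332) (nat_lit 7500) (.d (nat_lit 363) (nat_lit 362) (nat_lit 362) (nat_lit 399) (nat_lit 363))))) (.a (.f (nat_lit 461) (nat_lit 493) (nat_lit 5485) (.f (nat_lit 365) (nat_lit 333) (nat_lit 4429) (.f (nat_lit 460) (nat_lit 492) (nat_lit 5484) (.d (nat_lit 431) (nat_lit 432) (nat_lit 1452) (nat_lit 459) (nat_lit 2475))))) (.a (.f (nat_lit 367) (nat_lit 335) (nat_lit 6478) (.f (nat_lit 368) (nat_lit 369) (nat_lit 1389) (.d (nat_lit 396) (nat_lit 365) (nat_lit 1388) (nat_lit 399) (nat_lit 2412)))) (.f (nat_lit 367) (nat_lit 335) (nat_lit 6478) (.f (nat_lit 368) (nat_lit 369) (nat_lit 1389) (.f (nat_lit 399) (nat_lit 396) (nat_lit 2412) (.d (nat_lit 428) (nat_lit 400) (nat_lit 1420) (nat_lit 427) (nat_lit 2443))))))))) (.f (nat_lit 333) (nat_lit 365) (nat_lit 7501) (.f (nat_lit 334) (nat_lit 301) (nat_lit 7469) (.d (nat_lit 335) (nat_lit 303) (nat_lit 6446) (nat_lit 367) (nat_lit 6478))))))) (.a (.p (nat_lit 461) (.a (.d (nat_lit 366) (nat_lit 334) (nat_lit 5453) (nat_lit 493) (nat_lit 5485)) (.a (.d (nat_lit 493) (nat_lit 366) (nat_lit 5485) (nat_lit 525) (nat_lit 6541)) (.a s78997 (.p (nat_lit 431) (.a (.d (nat_lit 432) (nat_lit 433) (nat_lit 1453) (nat_lit 465) (nat_lit 429)) (.f (nat_lit 366) (nat_lit 334) (nat_lit 5453) (.f (nat_lit 460) (nat_lit 459) (nat_lit 2475) (.f (nat_lit 365) (nat_lit 333) (nat_lit 7501) (.f (nat_lit 367) (nat_lit 335) (nat_lit 6478) (.f (nat_lit 397) (nat_lit 492) (nat_lit 5484) (.d (nat_lit 368) (nat_lit 369) (nat_lit 1389) (nat_lit 396) (nat_lit 1388))))))))))))) (.a (.p (nat_lit 366) (.a (.d (nat_lit 461) (nat_lit 334) (nat_lit 5453) (nat_lit 493) (nat_lit 5485)) (.a (.p (nat_lit 397) (.a (.f (nat_lit 461) (nat_lit 493) (nat_lit 5485) (.f (nat_lit 365) (nat_lit 333) (nat_lit 4429) (.f (nat_lit 460) (nat_lit 492) (nat_lit 5484) (.d (nat_lit 431) (nat_lit 432) (nat_lit 1452) (nat_lit 459) (nat_lit 2475))))) (.a (.f (nat_lit 367) (nat_lit 335) (nat_lit 6478) (.f (nat_lit 368) (nat_lit 369) (nat_lit 1389) (.d (nat_lit 396) (nat_lit 365) (nat_lit 1388) (nat_lit 399) (nat_lit 2412)))) (.f (nat_lit 367) (nat_lit 335) (nat_lit 6478) (.f (nat_lit 368) (nat_lit 369) (nat_lit 1389) (.f (nat_lit 399) (nat_lit 396) (nat_lit 2412) (.d (nat_lit 428) (nat_lit 400) (nat_lit 1420) (nat_lit 427) (nat_lit 2443)))))))) (.f (nat_lit 333) (nat_lit 365) (nat_lit 7501) (.f (nat_lit 334) (nat_lit 301) (nat_lit 7469) (.d (nat_lit 335) (nat_lit 303) (nat_lit 6446) (nat_lit 367) (nat_lit 6478))))))) (.a (.p (nat_lit 461) (.a (.d (nat_lit 366) (nat_lit 334) (nat_lit 5453) (nat_lit 493) (nat_lit 5485)) (.a (.d (nat_lit 493) (nat_lit 366) (nat_lit 5485) (nat_lit 525) (nat_lit 6541)) (.a (.p (nat_lit 431) (.a (.d (nat_lit 432) (nat_lit 433) (nat_lit 1453) (nat_lit 465) (nat_lit 429)) (.p (nat_lit 428) (.a (.d (nat_lit 427) (nat_lit 399) (nat_lit 2443) (nat_lit 426) (nat_lit 426)) (.a (.f (nat_lit 459) (nat_lit 460) (nat_lit 2475) (.d (nat_lit 427) (nat_lit 426) (nat_lit 426) (nat_lit 458) (nat_lit 1450))) (.a (.d (nat_lit 399) (nat_lit 400) (nat_lit 2444) (nat_lit 427) (nat_lit 2443)) (.f (nat_lit 460) (nat_lit 459) (nat_lit 1451) (.f (nat_lit 493) (nat_lit 525) (nat_lit 6541) (.f (nat_lit 399) (nat_lit 400) (nat_lit 2444) (.f (nat_lit 396) (nat_lit 364) (nat_lit 4460) (.f (nat_lit 367) (nat_lit 335) (nat_lit 5454) (.f (nat_lit 397) (nat_lit 368) (nat_lit 2412) (.d (nat_lit 492) (nat_lit 365) (nat_lit 5484) (nat_lit 524) (nat_lit 5516)))))))))))))) (.p (nat_lit 431) (.a (.d (nat_lit 432) (nat_lit 433) (nat_lit 1453) (nat_lit 465) (nat_lit 429)) (.p (nat_lit 397) (.a (.f (nat_lit 460) (nat_lit 459) (nat_lit 2475) (.f (nat_lit 366) (nat_lit 334) (nat_lit 5453) (.f (nat_lit 367) (nat_lit 335) (nat_lit 6478) (.f (nat_lit 365) (nat_lit 492) (nat_lit 5484) (.d (nat_lit 368) (nat_lit 369) (nat_lit 1389) (nat_lit 396) (nat_lit 1388)))))) (.a (.f (nat_lit 460) (nat_lit 459) (nat_lit 2475) (.f (nat_lit 492) (nat_lit 365) (nat_lit 5484) (.d (nat_lit 524) (nat_lit 428) (nat_lit 6540) (nat_lit 556) (nat_lit 6572)))) (.f (nat_lit 366) (nat_lit 334) (nat_lit 5453) (.f (nat_lit 367) (nat_lit 335) (nat_lit 6478) (.f (nat_lit 368) (nat_lit 369) (nat_lit 1389) (.f (nat_lit 399) (nat_lit 396) (nat_lit 2412) (.d (nat_lit 428) (nat_lit 400) (nat_lit 1420) (nat_lit 427) (nat_lit 2443))))))))))))))) (.a (.p (nat_lit 461) (.a (.d (nat_lit 493) (nat_lit 366) (nat_lit 5485) (nat_lit 525) (nat_lit 6541)) (.a s78997 (.p (nat_lit 365) (.a (.d (nat_lit 333) (nat_lit 366) (nat_lit 7501) (nat_lit 397) (nat_lit 4429)) (.a (.p (nat_lit 431) (.a (.d (nat_lit 432) (nat_lit 433) (nat_lit 1453) (nat_lit 465) (nat_lit 429)) (.f (nat_lit 460) (nat_lit 459) (nat_lit 2475) (.f (nat_lit 397) (nat_lit 492) (nat_lit 5484) (.f (nat_lit 364) (nat_lit 332) (nat_lit 7500) (.f (nat_lit 399) (nat_lit 400) (nat_lit 3436) (.d (nat_lit 363) (nat_lit 362) (nat_lit 362) (nat_lit 396) (nat_lit 3435)))))))) (.p (nat_lit 399) (.a (.f (nat_lit 366) (nat_lit 333) (nat_lit 7501) (.f (nat_lit 400) (nat_lit 401) (nat_lit 1421) (.d (nat_lit 367) (nat_lit 335) (nat_lit 6478) (nat_lit 364) (nat_lit 364)))) (.a (.f (nat_lit 400) (nat_lit 401) (nat_lit 1421) (.d (nat_lit 428) (nat_lit 427) (nat_lit 2443) (nat_lit 431) (nat_lit 2444))) (.f (nat_lit 366) (nat_lit 333) (nat_lit 7501) (.f (nat_lit 367) (nat_lit 335) (nat_lit 6478) (.f (nat_lit 428) (nat_lit 427) (nat_lit 2443) (.f (nat_lit 364) (nat_lit 363) (nat_lit 363) (.d (nat_lit 332) (nat_lit 331) (nat_lit 3403) (nat_lit 396) (nat_lit 4428))))))))))))))) (.a (.p (nat_lit 461) (.a (.d (nat_lit 366) (nat_lit 334) (nat_lit 5453) (nat_lit 493) (nat_lit 5485)) (.a (.d (nat_lit 493) (nat_lit 366) (nat_lit 5485) (nat_lit 525) (nat_lit 6541)) (.a s78997 (.p (nat_lit 431) (.a (.d (nat_lit 432) (nat_lit 433) (nat_lit 1453) (nat_lit 465) (nat_lit 429)) (.f (nat_lit 460) (nat_lit 459) (nat_lit 2475) (.f (nat_lit 366) (nat_lit 334) (nat_lit 5453) (.f (nat_lit 365) (nat_lit 333) (nat_lit 7501) (.f (nat_lit 397) (nat_lit 492) (nat_lit 5484) (.f (nat_lit 364) (nat_lit 332) (nat_lit 7500) (.d (nat_lit 363) (nat_lit 362) (nat_lit 362) (nat_lit 399) (nat_lit 363))))))))))))) (.a (.p (nat_lit 432) (.a (.f (nat_lit 431) (nat_lit 465) (nat_lit 429) (.d (nat_lit 461) (nat_lit 433) (nat_lit 1453) (nat_lit 460) (nat_lit 1452))) (.a (.p (nat_lit 400) (.a (.f (nat_lit 399) (nat_lit 401) (nat_lit 1421) (.d (nat_lit 397) (nat_lit 428) (nat_lit 1420) (nat_lit 433) (nat_lit 397))) (.a (.p (nat_lit 368) (.a (.f (nat_lit 399) (nat_lit 401) (nat_lit 1421) (.f (nat_lit 367) (nat_lit 335) (nat_lit 7503) (.d (nat_lit 369) (nat_lit 337) (nat_lit 6480) (nat_lit 370) (nat_lit 1390)))) (.a (.f (nat_lit 399) (nat_lit 401) (nat_lit 1421) (.f (nat_lit 369) (nat_lit 337) (nat_lit 6480) (.d (nat_lit 370) (nat_lit 367) (nat_lit 1390) (nat_lit 371) (nat_lit 1391)))) (.a (.f (nat_lit 335) (nat_lit 367) (nat_lit 7503) (.f (nat_lit 336) (nat_lit 303) (nat_lit 7471) (.d (nat_lit 465) (nat_lit 433) (nat_lit 4432) (nat_lit 497) (nat_lit 4464)))) (.f (nat_lit 337) (nat_lit 369) (nat_lit 6480) (.f (nat_lit 336) (nat_lit 305) (nat_lit 6448) (.d (nat_lit 465) (nat_lit 433) (nat_lit 4432) (nat_lit 497) (nat_lit 4464)))))))) (.a (.p (nat_lit 368) (.a (.f (nat_lit 335) (nat_lit 367) (nat_lit 7503) (.f (nat_lit 336) (nat_lit 303) (nat_lit 7471) (.d (nat_lit 465) (nat_lit 433) (nat_lit 4432) (nat_lit 497) (nat_lit 4464)))) (.a (.f (nat_lit 337) (nat_lit 369) (nat_lit 6480) (.f (nat_lit 336) (nat_lit 305) (nat_lit 6448) (.d (nat_lit 465) (nat_lit 433) (nat_lit 4432) (nat_lit 497) (nat_lit 4464)))) (.f (nat_lit 367) (nat_lit 335) (nat_lit 7503) (.f (nat_lit 369) (nat_lit 337) (nat_lit 6480) (.f (nat_lit 366) (nat_lit 397) (nat_lit 1389) (.d (nat_lit 334) (nat_lit 333) (nat_lit 3405) (nat_lit 461) (nat_lit 5453)))))))) (.f (nat_lit 399) (nat_lit 401) (nat_lit 1421) (.d (nat_lit 428) (nat_lit 397) (nat_lit 1420) (nat_lit 427) (nat_lit 2443))))))) (.a (.f (nat_lit 431) (nat_lit 465) (nat_lit 429) (.f (nat_lit 461) (nat_lit 460) (nat_lit 1452) (.d (nat_lit 366) (nat_lit 334) (nat_lit 5453) (nat_lit 493) (nat_lit 5485)))) (.a (.f (nat_lit 431) (nat_lit 465) (nat_lit 429) (.d (nat_lit 397) (nat_lit 396) (nat_lit 3468) (nat_lit 433) (nat_lit 3469))) (.p (nat_lit 431) (.a (.d (nat_lit 397) (nat_lit 396) (nat_lit 3468) (nat_lit 433) (nat_lit 3469)) (.a (.d (nat_lit 461) (nat_lit 433) (nat_lit 1453) (nat_lit 460) (nat_lit 1452)) (.f (nat_lit 461) (nat_lit 460) (nat_lit 1452) (.d (nat_lit 366) (nat_lit 334) (nat_lit 5453) (nat_lit 493) (nat_lit 5485))))))))))) (.a (.p (nat_lit 399) (.a (.f (nat_lit 428) (nat_lit 427) (nat_lit 2443) (.d (nat_lit 400) (nat_lit 397) (nat_lit 1420) (nat_lit 401) (nat_lit 1421))) (.a (.f (nat_lit 428) (nat_lit 427) (nat_lit 2443) (.d (nat_lit 400) (nat_lit 401) (nat_lit 1421) (nat_lit 431) (nat_lit 2444))) (.a (.p (nat_lit 431) (.a (.f (nat_lit 432) (nat_lit 465) (nat_lit 429) (.d (nat_lit 461) (nat_lit 433) (nat_lit 1453) (nat_lit 460) (nat_lit 1452))) (.a (.p (nat_lit 397) (.a (.f (nat_lit 428) (nat_lit 427) (nat_lit 2443) (.f (nat_lit 460) (nat_lit 459) (nat_lit 1451) (.f (nat_lit 365) (nat_lit 333) (nat_lit 4429) (.d (nat_lit 492) (nat_lit 396) (nat_lit 6508) (nat_lit 524) (nat_lit 6540))))) (.a (.f (nat_lit 428) (nat_lit 427) (nat_lit 2443) (.f (nat_lit 460) (nat_lit 459) (nat_lit 1451) (.f (nat_lit 492) (nat_lit 524) (nat_lit 6540) (.d (nat_lit 365) (nat_lit 396) (nat_lit 6508) (nat_lit 461) (nat_lit 5484))))) (.a (.f (nat_lit 428) (nat_lit 427) (nat_lit 2443) (.f (nat_lit 367) (nat_lit 335) (nat_lit 5454) (.f (nat_lit 396) (nat_lit 368) (nat_lit 2412) (.f (nat_lit 364) (nat_lit 363) (nat_lit 3435) (.d (nat_lit 332) (nat_lit 300) (nat_lit 4396) (nat_lit 461) (nat_lit 4428)))))) (.a (.f (nat_lit 428) (nat_lit 427) (nat_lit 2443) (.f (nat_lit 460) (nat_lit 459) (nat_lit 1451) (.f (nat_lit 365) (nat_lit 333) (nat_lit 4429) (.d (nat_lit 492) (nat_lit 461) (nat_lit 5484) (nat_lit 524) (nat_lit 6540))))) (.f (nat_lit 367) (nat_lit 335) (nat_lit 5454) (.f (nat_lit 365) (nat_lit 333) (nat_lit 4429) (.f (nat_lit 396) (nat_lit 368) (nat_lit 2412) (.f (nat_lit 364) (nat_lit 363) (nat_lit 3435) (.d (nat_lit 461) (nat_lit 332) (nat_lit 7500) (nat_lit 493) (nat_lit 7532))))))))))) (.a (.f (nat_lit 432) (nat_lit 465) (nat_lit 429) (.d (nat_lit 433) (nat_lit 397) (nat_lit 3469) (nat_lit 461) (nat_lit 1453))) (.f (nat_lit 432) (nat_lit 465) (nat_lit 429) (.d (nat_lit 397) (nat_lit 396) (nat_lit 396) (nat_lit 433) (nat_lit 3469))))))) (.a (.f (nat_lit 400) (nat_lit 401) (nat_lit 1421) (.d (nat_lit 428) (nat_lit 397) (nat_lit 1420) (nat_lit 431) (nat_lit 2444))) (.p (nat_lit 432) (.a (.f (nat_lit 431) (nat_lit 465) (nat_lit 429) (.d (nat_lit 461) (nat_lit 433) (nat_lit 1453) (nat_lit 460) (nat_lit 1452))) (.a (.f (nat_lit 400) (nat_lit 401) (nat_lit 1421) (.f (nat_lit 397) (nat_lit 433) (nat_lit 397) (.d (nat_lit 365) (nat_lit 333) (nat_lit 4429) (nat_lit 364) (nat_lit 3436)))) (.f (nat_lit 431) (nat_lit 465) (nat_lit 429) (.f (nat_lit 400) (nat_lit 401) (nat_lit 1421) (.f (nat_lit 397) (nat_lit 396) (nat_lit 3468) (.d (nat_lit 365) (nat_lit 333) (nat_lit 4429) (nat_lit 364) (nat_lit 3436))))))))))))) (.a s79146 (.a s79154 (.a (.p (nat_lit 366) (.a (.d (nat_lit 461) (nat_lit 334) (nat_lit 5453) (nat_lit 493) (nat_lit 5485)) (.a (.p (nat_lit 431) (.a (.f (nat_lit 432) (nat_lit 465) (nat_lit 429) (.d (nat_lit 461) (nat_lit 460) (nat_lit 1452) (nat_lit 493) (nat_lit 5485))) (.a (.f (nat_lit 461) (nat_lit 493) (nat_lit 5485) (.f (nat_lit 460) (nat_lit 459) (nat_lit 2475) (.f (nat_lit 365) (nat_lit 333) (nat_lit 7501) (.f (nat_lit 397) (nat_lit 492) (nat_lit 5484) (.f (nat_lit 367) (nat_lit 335) (nat_lit 6478) (.d (nat_lit 368) (nat_lit 369) (nat_lit 1389) (nat_lit 396) (nat_lit 1388))))))) (.a (.f (nat_lit 432) (nat_lit 465) (nat_lit 429) (.d (nat_lit 461) (nat_lit 433) (nat_lit 1453) (nat_lit 493) (nat_lit 5485))) (.f (nat_lit 432) (nat_lit 465) (nat_lit 429) (.d (nat_lit 397) (nat_lit 396) (nat_lit 3468) (nat_lit 433) (nat_lit 3469))))))) (.f (nat_lit 333) (nat_lit 365) (nat_lit 7501) (.f (nat_lit 334) (nat_lit 301) (nat_lit 7469) (.d (nat_lit 335) (nat_lit 303) (nat_lit 6446) (nat_lit 367) (nat_lit 6478))))))) (.a s79172 s79217))))))))))))) (.a (.p (nat_lit 365) (.a (.f (nat_lit 397) (nat_lit 333) (nat_lit 4429) (.p (nat_lit 461) (.a (.f (nat_lit 460) (nat_lit 492) (nat_lit 5484) (.d (nat_lit 431) (nat_lit 432) (nat_lit 1452) (nat_lit 459) (nat_lit 2475))) (.f (nat_lit 366) (nat_lit 334) (nat_lit 6477) (.f (nat_lit 398) (nat_lit 493) (nat_lit 5485) (.f (nat_lit 364) (nat_lit 332) (nat_lit 7500) (.d (nat_lit 363) (nat_lit 362) (nat_lit 362) (nat_lit 399) (nat_lit 363)))))))) (.a (.f (nat_lit 397) (nat_lit 333) (nat_lit 4429) (.p (nat_lit 461) (.a (.f (nat_lit 460) (nat_lit 492) (nat_lit 5484) (.d (nat_lit 431) (nat_lit 432) (nat_lit 1452) (nat_lit 459) (nat_lit 2475))) (.f (nat_lit 366) (nat_lit 334) (nat_lit 6477) (.f (nat_lit 398) (nat_lit 493) (nat_lit 5485) (.f (nat_lit 367) (nat_lit 335) (nat_lit 6478) (.f (nat_lit 368) (nat_lit 369) (nat_lit 1389) (.f (nat_lit 400) (nat_lit 401) (nat_lit 365) (.d (nat_lit 399) (nat_lit 364) (nat_lit 364) (nat_lit 428) (nat_lit 1420)))))))))) (.a (.p (nat_lit 400) (.a (.p (nat_lit 431) (.a (.d (nat_lit 432) (nat_lit 401) (nat_lit 2445) (nat_lit 465) (nat_lit 429)) (.a (.f (nat_lit 432) (nat_lit 465) (nat_lit 429) (.d (nat_lit 461) (nat_lit 433) (nat_lit 1453) (nat_lit 460) (nat_lit 1452))) (.f (nat_lit 399) (nat_lit 428) (nat_lit 2444) (.d (nat_lit 401) (nat_lit 398) (nat_lit 1421) (nat_lit 402) (nat_lit 1422)))))) (.a (.p (nat_lit 431) (.a (.d (nat_lit 432) (nat_lit 401) (nat_lit 2445) (nat_lit 465) (nat_lit 429)) (.a (.f (nat_lit 432) (nat_lit 465) (nat_lit 429) (.d (nat_lit 461) (nat_lit 433) (nat_lit 1453) (nat_lit 460) (nat_lit 1452))) (.f (nat_lit 399) (nat_lit 428) (nat_lit 2444) (.f (nat_lit 367) (nat_lit 335) (nat_lit 5454) (.f (nat_lit 366) (nat_lit 364) (nat_lit 364) (.d (nat_lit 401) (nat_lit 368) (nat_lit 365) (nat_lit 402) (nat_lit 1422)))))))) (.a (.p (nat_lit 432) (.a (.d (nat_lit 431) (nat_lit 401) (nat_lit 2445) (nat_lit 465) (nat_lit 429)) (.a (.f (nat_lit 431) (nat_lit 465) (nat_lit 429) (.d (nat_lit 461) (nat_lit 433) (nat_lit 1453) (nat_lit 460) (nat_lit 1452))) (.a (.p (nat_lit 368) (.a (.f (nat_lit 367) (nat_lit 335) (nat_lit 7503) (.f (nat_lit 337) (nat_lit 369) (nat_lit 6480) (.d (nat_lit 366) (nat_lit 336) (nat_lit 2381) (nat_lit 401) (nat_lit 365)))) (.a (.f (nat_lit 337) (nat_lit 369) (nat_lit 6480) (.f (nat_lit 336) (nat_lit 305) (nat_lit 6448) (.d (nat_lit 465) (nat_lit 433) (nat_lit 4432) (nat_lit 497) (nat_lit 4464)))) (.a (.f (nat_lit 367) (nat_lit 335) (nat_lit 7503) (.f (nat_lit 369) (nat_lit 337) (nat_lit 6480) (.f (nat_lit 366) (nat_lit 401) (nat_lit 365) (.f (nat_lit 398) (nat_lit 397) (nat_lit 1389) (.d (nat_lit 461) (nat_lit 334) (nat_lit 5453) (nat_lit 493) (nat_lit 5485)))))) (.f (nat_lit 335) (nat_lit 367) (nat_lit 7503) (.f (nat_lit 336) (nat_lit 303) (nat_lit 7471) (.d (nat_lit 465) (nat_lit 433) (nat_lit 4432) (nat_lit 497) (nat_lit 4464)))))))) (.f (nat_lit 431) (nat_lit 401) (nat_lit 2445) (.d (nat_lit 461) (nat_lit 433) (nat_lit 1453) (nat_lit 460) (nat_lit 1452))))))) (.a (.p (nat_lit 431) (.a (.f (nat_lit 432) (nat_lit 465) (nat_lit 429) (.d (nat_lit 461) (nat_lit 433) (nat_lit 1453) (nat_lit 460) (nat_lit 1452))) (.a (.f (nat_lit 428) (nat_lit 399) (nat_lit 2444) (.f (nat_lit 459) (nat_lit 460) (nat_lit 1451) (.f (nat_lit 427) (nat_lit 458) (nat_lit 1450) (.f (nat_lit 426) (nat_lit 461) (nat_lit 426) (.d (nat_lit 394) (nat_lit 393) (nat_lit 3465) (nat_lit 395) (nat_lit 3466)))))) (.a (.f (nat_lit 432) (nat_lit 465) (nat_lit 429) (.f (nat_lit 399) (nat_lit 428) (nat_lit 2444) (.f (nat_lit 433) (nat_lit 461) (nat_lit 1453) (.d (nat_lit 398) (nat_lit 397) (nat_lit 397) (nat_lit 434) (nat_lit 3470))))) (.p (nat_lit 368) (.a (.f (nat_lit 432) (nat_lit 465) (nat_lit 429) (.f (nat_lit 399) (nat_lit 428) (nat_lit 2444) (.f (nat_lit 367) (nat_lit 335) (nat_lit 7503) (.f (nat_lit 369) (nat_lit 337) (nat_lit 6480) (.d (nat_lit 398) (nat_lit 370) (nat_lit 1390) (nat_lit 397) (nat_lit 2413)))))) (.a (.f (nat_lit 432) (nat_lit 465) (nat_lit 429) (.f (nat_lit 399) (nat_lit 428) (nat_lit 2444) (.f (nat_lit 369) (nat_lit 337) (nat_lit 6480) (.f (nat_lit 398) (nat_lit 397) (nat_lit 2413) (.d (nat_lit 370) (nat_lit 367) (nat_lit 1390) (nat_lit 371) (nat_lit 1391)))))) (.a (.f (nat_lit 399) (nat_lit 428) (nat_lit 2444) (.f (nat_lit 432) (nat_lit 465) (nat_lit 429) (.f (nat_lit 335) (nat_lit 367) (nat_lit 5454) (.d (nat_lit 336) (nat_lit 303) (nat_lit 7471) (nat_lit 304) (nat_lit 5423))))) (.a (.f (nat_lit 432) (nat_lit 465) (nat_lit 429) (.f (nat_lit 399) (nat_lit 428) (nat_lit 2444) (.f (nat_lit 336) (nat_lit 304) (nat_lit 5423) (.d (nat_lit 337) (nat_lit 305) (nat_lit 6448) (nat_lit 369) (nat_lit 6480))))) (.a (.f (nat_lit 432) (nat_lit 465) (nat_lit 429) (.f (nat_lit 335) (nat_lit 367) (nat_lit 7503) (.f (nat_lit 336) (nat_lit 303) (nat_lit 7471) (.d (nat_lit 337) (nat_lit 305) (nat_lit 6448) (nat_lit 369) (nat_lit 6480))))) (.f (nat_lit 399) (nat_lit 428) (nat_lit 2444) (.f (nat_lit 367) (nat_lit 335) (nat_lit 5454) (.f (nat_lit 366) (nat_lit 364) (nat_lit 364) (.d (nat_lit 336) (nat_lit 304) (nat_lit 5423) (nat_lit 337) (nat_lit 2381))))))))))))))) (.a (.p (nat_lit 398) (.a (.f (nat_lit 399) (nat_lit 401) (nat_lit 1421) (.d (nat_lit 428) (nat_lit 397) (nat_lit 1420) (nat_lit 427) (nat_lit 2443))) (.a (.p (nat_lit 366) (.a (.d (nat_lit 461) (nat_lit 334) (nat_lit 5453) (nat_lit 493) (nat_lit 5485)) (.f (nat_lit 399) (nat_lit 401) (nat_lit 1421) (.d (nat_lit 367) (nat_lit 335) (nat_lit 6478) (nat_lit 364) (nat_lit 364))))) (.a (.p (nat_lit 366) (.a (.d (nat_lit 461) (nat_lit 334) (nat_lit 5453) (nat_lit 493) (nat_lit 5485)) (.f (nat_lit 367) (nat_lit 335) (nat_lit 6478) (.f (nat_lit 368) (nat_lit 401) (nat_lit 365) (.f (nat_lit 369) (nat_lit 397) (nat_lit 1389) (.d (nat_lit 337) (nat_lit 336) (nat_lit 2381) (nat_lit 338) (nat_lit 2382))))))) (.p (nat_lit 366) (.a (.d (nat_lit 461) (nat_lit 334) (nat_lit 5453) (nat_lit 493) (nat_lit 5485)) (.a (.f (nat_lit 461) (nat_lit 493) (nat_lit 5485) (.f (nat_lit 367) (nat_lit 335) (nat_lit 6478) (.f (nat_lit 364) (nat_lit 399) (nat_lit 364) (.d (nat_lit 332) (nat_lit 331) (nat_lit 3403) (nat_lit 397) (nat_lit 7500))))) (.f (nat_lit 367) (nat_lit 335) (nat_lit 6478) (.f (nat_lit 399) (nat_lit 364) (nat_lit 364) (.d (nat_lit 428) (nat_lit 397) (nat_lit 1420) (nat_lit 427) (nat_lit 2443))))))))))) (.p (nat_lit 399) (.a (.f (nat_lit 398) (nat_lit 401) (nat_lit 1421) (.d (nat_lit 428) (nat_lit 397) (nat_lit 1420) (nat_lit 431) (nat_lit 2444))) (.a (.f (nat_lit 431) (nat_lit 428) (nat_lit 2444) (.d (nat_lit 401) (nat_lit 398) (nat_lit 1421) (nat_lit 402) (nat_lit 1422))) (.a (.f (nat_lit 431) (nat_lit 428) (nat_lit 2444) (.d (nat_lit 432) (nat_lit 401) (nat_lit 2445) (nat_lit 465) (nat_lit 429))) (.a (.f (nat_lit 428) (nat_lit 431) (nat_lit 2444) (.d (nat_lit 398) (nat_lit 397) (nat_lit 1420) (nat_lit 427) (nat_lit 2443))) (.a (.f (nat_lit 401) (nat_lit 398) (nat_lit 1421) (.d (nat_lit 431) (nat_lit 402) (nat_lit 1422) (nat_lit 432) (nat_lit 2445))) (.f (nat_lit 398) (nat_lit 401) (nat_lit 1421) (.d (nat_lit 428) (nat_lit 397) (nat_lit 1420) (nat_lit 427) (nat_lit 2443))))))))))))))) (.a (.p (nat_lit 431) (.a (.f (nat_lit 432) (nat_lit 465) (nat_lit 429) (.d (nat_lit 461) (nat_lit 433) (nat_lit 1453) (nat_lit 460) (nat_lit 1452))) (.a (.p (nat_lit 428) (.a (.f (nat_lit 399) (nat_lit 400) (nat_lit 2444) (.f (nat_lit 427) (nat_lit 398) (nat_lit 2443) (.d (nat_lit 459) (nat_lit 458) (nat_lit 1450) (nat_lit 460) (nat_lit 1451)))) (.a (.f (nat_lit 460) (nat_lit 459) (nat_lit 1451) (.f (nat_lit 397) (nat_lit 333) (nat_lit 4429) (.d (nat_lit 492) (nat_lit 461) (nat_lit 5484) (nat_lit 524) (nat_lit 6540)))) (.f (nat_lit 399) (nat_lit 400) (nat_lit 2444) (.f (nat_lit 427) (nat_lit 398) (nat_lit 2443) (.f (nat_lit 426) (nat_lit 461) (nat_lit 426) (.d (nat_lit 394) (nat_lit 393) (nat_lit 3465) (nat_lit 395) (nat_lit 3466)))))))) (.a (.f (nat_lit 432) (nat_lit 465) (nat_lit 429) (.f (nat_lit 433) (nat_lit 461) (nat_lit 1453) (.d (nat_lit 401) (nat_lit 400) (nat_lit 2445) (nat_lit 402) (nat_lit 2446)))) (.f (nat_lit 432) (nat_lit 465) (nat_lit 429) (.f (nat_lit 400) (nat_lit 401) (nat_lit 2445) (.f (nat_lit 399) (nat_lit 428) (nat_lit 2444) (.f (nat_lit 397) (nat_lit 333) (nat_lit 4429) (.d (nat_lit 398) (nat_lit 364) (nat_lit 3436) (nat_lit 433) (nat_lit 3469)))))))))) (.a (.f (nat_lit 397) (nat_lit 333) (nat_lit 4429) s79364) (.a (.p (nat_lit 366) (.a (.f (nat_lit 398) (nat_lit 333) (nat_lit 7501) (.d (nat_lit 461) (nat_lit 334) (nat_lit 5453) (nat_lit 493) (nat_lit 5485))) (.a (.p (nat_lit 398) (.a (.d (nat_lit 461) (nat_lit 334) (nat_lit 5453) (nat_lit 493) (nat_lit 5485)) s79379)) (.a s79381 (.p (nat_lit 367) (.a (.p (nat_lit 364) (.a (.f (nat_lit 335) (nat_lit 336) (nat_lit 2380) (.d (nat_lit 399) (nat_lit 400) (nat_lit 364) (nat_lit 431) (nat_lit 5454))) (.a (.f (nat_lit 332) (nat_lit 331) (nat_lit 3403) (.f (nat_lit 368) (nat_lit 333) (nat_lit 3404) (.d (nat_lit 400) (nat_lit 399) (nat_lit 364) (nat_lit 401) (nat_lit 365)))) (.f (nat_lit 332) (nat_lit 331) (nat_lit 3403) (.f (nat_lit 368) (nat_lit 333) (nat_lit 3404) (.d (nat_lit 336) (nat_lit 335) (nat_lit 2380) (nat_lit 337) (nat_lit 2381))))))) (.a s79385 (.a (.p (nat_lit 335) (.a (.f (nat_lit 399) (nat_lit 431) (nat_lit 5454) (.d (nat_lit 364) (nat_lit 336) (nat_lit 2380) (nat_lit 400) (nat_lit 364))) (.a (.f (nat_lit 399) (nat_lit 431) (nat_lit 5454) (.f (nat_lit 400) (nat_lit 364) (nat_lit 364) (.d (nat_lit 401) (nat_lit 368) (nat_lit 365) (nat_lit 402) (nat_lit 3438)))) (.a (.f (nat_lit 431) (nat_lit 399) (nat_lit 5454) (.f (nat_lit 432) (nat_lit 465) (nat_lit 429) (.d (nat_lit 461) (nat_lit 433) (nat_lit 1453) (nat_lit 460) (nat_lit 1452)))) (.f (nat_lit 336) (nat_lit 364) (nat_lit 2380) (.d (nat_lit 337) (nat_lit 334) (nat_lit 1357) (nat_lit 338) (nat_lit 1358))))))) (.a (.p (nat_lit 368) (.a (.f (nat_lit 400) (nat_lit 401) (nat_lit 365) (.f (nat_lit 364) (nat_lit 399) (nat_lit 364) (.d (nat_lit 332) (nat_lit 331) (nat_lit 3403) (nat_lit 333) (nat_lit 3404)))) (.a (.f (nat_lit 333) (nat_lit 332) (nat_lit 3404) (.f (nat_lit 369) (nat_lit 334) (nat_lit 3405) (.d (nat_lit 337) (nat_lit 336) (nat_lit 2381) (nat_lit 338) (nat_lit 2382)))) (.f (nat_lit 337) (nat_lit 336) (nat_lit 2381) (.f (nat_lit 369) (nat_lit 338) (nat_lit 2382) (.d (nat_lit 401) (nat_lit 400) (nat_lit 365) (nat_lit 402) (nat_lit 366))))))) (.a (.p (nat_lit 431) (.a (.f (nat_lit 432) (nat_lit 465) (nat_lit 429) (.d (nat_lit 461) (nat_lit 433) (nat_lit 1453) (nat_lit 460) (nat_lit 1452))) (.f (nat_lit 399) (nat_lit 335) (nat_lit 5454) (.d (nat_lit 400) (nat_lit 364) (nat_lit 364) (nat_lit 428) (nat_lit 2444))))) (.a s79406 (.p (nat_lit 335) (.a (.f (nat_lit 431) (nat_lit 399) (nat_lit 5454) (.f (nat_lit 432) (nat_lit 465) (nat_lit 429) (.d (nat_lit 461) (nat_lit 433) (nat_lit 1453) (nat_lit 460) (nat_lit 1452)))) (.f (nat_lit 336) (nat_lit 364) (nat_lit 2380) (.d (nat_lit 337) (nat_lit 334) (nat_lit 1357) (nat_lit 338) (nat_lit 1358)))))))))))))))) (.a (.p (nat_lit 400) (.a (.p (nat_lit 431) (.a (.d (nat_lit 432) (nat_lit 401) (nat_lit 2445) (nat_lit 465) (nat_lit 429)) (.a (.f (nat_lit 432) (nat_lit 465) (nat_lit 429) (.d (nat_lit 461) (nat_lit 433) (nat_lit 1453) (nat_lit 460) (nat_lit 1452))) (.f (nat_lit 399) (nat_lit 428) (nat_lit 2444) (.f (nat_lit 367) (nat_lit 335) (nat_lit 5454) (.f (nat_lit 366) (nat_lit 364) (nat_lit 364) (.d (nat_lit 401) (nat_lit 368) (nat_lit 365) (nat_lit 402) (nat_lit 1422)))))))) (.a (.p (nat_lit 431) (.a (.d (nat_lit 432) (nat_lit 401) (nat_lit 2445) (nat_lit 465) (nat_lit 429)) (.a (.f (nat_lit 432) (nat_lit 465) (nat_lit 429) (.d (nat_lit 461) (nat_lit 433) (nat_lit 1453) (nat_lit 460) (nat_lit 1452))) (.f (nat_lit 428) (nat_lit 399) (nat_lit 2444) (.f (nat_lit 459) (nat_lit 460) (nat_lit 1451) (.f (nat_lit 427) (nat_lit 458) (nat_lit 1450) (.f (nat_lit 426) (nat_lit 461) (nat_lit 426) (.d (nat_lit 394) (nat_lit 393) (nat_lit 3465) (nat_lit 395) (nat_lit 3466))))))))) (.a (.p (nat_lit 432) (.a (.d (nat_lit 431) (nat_lit 401) (nat_lit 2445) (nat_lit 465) (nat_lit 429)) (.a (.f (nat_lit 431) (nat_lit 465) (nat_lit 429) (.d (nat_lit 461) (nat_lit 433) (nat_lit 1453) (nat_lit 460) (nat_lit 1452))) (.a (.p (nat_lit 368) (.a (.f (nat_lit 367) (nat_lit 335) (nat_lit 7503) (.f (nat_lit 337) (nat_lit 369) (nat_lit 6480) (.d (nat_lit 366) (nat_lit 336) (nat_lit 2381) (nat_lit 401) (nat_lit 365)))) (.a (.f (nat_lit 337) (nat_lit 369) (nat_lit 6480) (.f (nat_lit 336) (nat_lit 305) (nat_lit 6448) (.d (nat_lit 465) (nat_lit 433) (nat_lit 4432) (nat_lit 497) (nat_lit 4464)))) (.f (nat_lit 397) (nat_lit 333) (nat_lit 4429) (.f (nat_lit 367) (nat_lit 335) (nat_lit 7503) (.f (nat_lit 366) (nat_lit 401) (nat_lit 365) (.f (nat_lit 461) (nat_lit 334) (nat_lit 6477) (.f (nat_lit 492) (nat_lit 460) (nat_lit 5484) (.f (nat_lit 493) (nat_lit 524) (nat_lit 5516) (.f (nat_lit 525) (nat_lit 557) (nat_lit 6573) (.d (nat_lit 526) (nat_lit 527) (nat_lit 3564) (nat_lit 558) (nat_lit 4525)))))))))))) (.f (nat_lit 431) (nat_lit 401) (nat_lit 2445) (.d (nat_lit 461) (nat_lit 433) (nat_lit 1453) (nat_lit 460) (nat_lit 1452))))))) (.a (.p (nat_lit 431) (.a (.f (nat_lit 432) (nat_lit 465) (nat_lit 429) (.d (nat_lit 461) (nat_lit 433) (nat_lit 1453) (nat_lit 460) (nat_lit 1452))) (.a (.f (nat_lit 428) (nat_lit 399) (nat_lit 2444) (.f (nat_lit 459) (nat_lit 460) (nat_lit 1451) (.f (nat_lit 427) (nat_lit 458) (nat_lit 1450) (.f (nat_lit 426) (nat_lit 461) (nat_lit 426) (.d (nat_lit 394) (nat_lit 393) (nat_lit 3465) (nat_lit 395) (nat_lit 3466)))))) (.f (nat_lit 432) (nat_lit 465) (nat_lit 429) (.f (nat_lit 399) (nat_lit 428) (nat_lit 2444) (.f (nat_lit 367) (nat_lit 335) (nat_lit 4431) (.f (nat_lit 366) (nat_lit 364) (nat_lit 364) (.f (nat_lit 333) (nat_lit 397) (nat_lit 4429) (.f (nat_lit 368) (nat_lit 332) (nat_lit 3404) (.d (nat_lit 336) (nat_lit 304) (nat_lit 5423) (nat_lit 337) (nat_lit 2381))))))))))) (.a (.f (nat_lit 397) (nat_lit 333) (nat_lit 4429) (.p (nat_lit 461) (.a (.f (nat_lit 364) (nat_lit 332) (nat_lit 7500) (.f (nat_lit 366) (nat_lit 334) (nat_lit 6477) (.f (nat_lit 367) (nat_lit 399) (nat_lit 364) (.f (nat_lit 368) (nat_lit 401) (nat_lit 365) (.d (nat_lit 336) (nat_lit 335) (nat_lit 2380) (nat_lit 337) (nat_lit 2381)))))) (.f (nat_lit 492) (nat_lit 460) (nat_lit 5484) (.f (nat_lit 493) (nat_lit 524) (nat_lit 5516) (.f (nat_lit 525) (nat_lit 557) (nat_lit 6573) (.d (nat_lit 526) (nat_lit 527) (nat_lit 3564) (nat_lit 558) (nat_lit 4525)))))))) (.p (nat_lit 431) (.a (.d (nat_lit 432) (nat_lit 401) (nat_lit 2445) (nat_lit 465) (nat_lit 429)) (.a (.f (nat_lit 432) (nat_lit 465) (nat_lit 429) (.f (nat_lit 399) (nat_lit 428) (nat_lit 2444) (.f (nat_lit 367) (nat_lit 335) (nat_lit 4431) (.f (nat_lit 366) (nat_lit 364) (nat_lit 364) (.f (nat_lit 333) (nat_lit 397) (nat_lit 4429) (.f (nat_lit 368) (nat_lit 332) (nat_lit 3404) (.d (nat_lit 336) (nat_lit 304) (nat_lit 5423) (nat_lit 337) (nat_lit 2381)))))))) (.f (nat_lit 399) (nat_lit 428) (nat_lit 2444) (.f (nat_lit 367) (nat_lit 335) (nat_lit 5454) (.f (nat_lit 366) (nat_lit 364) (nat_lit 364) (.d (nat_lit 401) (nat_lit 368) (nat_lit 365) (nat_lit 402) (nat_lit 1422)))))))))))))) (.a s79453 (.a s79469 (.a (.p (nat_lit 431) (.a (.f (nat_lit 432) (nat_lit 465) (nat_lit 429) (.f (nat_lit 433) (nat_lit 461) (nat_lit 1453) (.d (nat_lit 401) (nat_lit 400) (nat_lit 2445) (nat_lit 402) (nat_lit 2446)))) (.a (.f (nat_lit 432) (nat_lit 465) (nat_lit 429) (.f (nat_lit 433) (nat_lit 461) (nat_lit 1453) (.d (nat_lit 397) (nat_lit 333) (nat_lit 4429) (nat_lit 398) (nat_lit 3469)))) (.p (nat_lit 399) (.a (.f (nat_lit 400) (nat_lit 428) (nat_lit 2444) (.d (nat_lit 401) (nat_lit 398) (nat_lit 1421) (nat_lit 402) (nat_lit 1422))) (.a (.f (nat_lit 400) (nat_lit 428) (nat_lit 2444) (.f (nat_lit 367) (nat_lit 335) (nat_lit 5454) (.f (nat_lit 366) (nat_lit 364) (nat_lit 364) (.d (nat_lit 401) (nat_lit 368) (nat_lit 365) (nat_lit 402) (nat_lit 1422))))) (.f (nat_lit 333) (nat_lit 397) (nat_lit 4429) (.f (nat_lit 366) (nat_lit 398) (nat_lit 7501) (.f (nat_lit 367) (nat_lit 335) (nat_lit 5454) (.f (nat_lit 332) (nat_lit 368) (nat_lit 3404) (.d (nat_lit 331) (nat_lit 330) (nat_lit 330) (nat_lit 364) (nat_lit 3403)))))))))))) (.p (nat_lit 366) (.a s79381 (.a (.p (nat_lit 367) (.a (.f (nat_lit 335) (nat_lit 398) (nat_lit 6478) (.f (nat_lit 399) (nat_lit 431) (nat_lit 5454) (.d (nat_lit 364) (nat_lit 336) (nat_lit 2380) (nat_lit 400) (nat_lit 364)))) (.a (.p (nat_lit 400) (.a (.f (nat_lit 399) (nat_lit 364) (nat_lit 364) (.d (nat_lit 401) (nat_lit 368) (nat_lit 365) (nat_lit 398) (nat_lit 1421))) (.a (.f (nat_lit 401) (nat_lit 368) (nat_lit 365) (.d (nat_lit 399) (nat_lit 398) (nat_lit 1421) (nat_lit 402) (nat_lit 3438))) (.a (.f (nat_lit 399) (nat_lit 364) (nat_lit 364) (.d (nat_lit 401) (nat_lit 398) (nat_lit 1421) (nat_lit 402) (nat_lit 3438))) (.a (.f (nat_lit 401) (nat_lit 368) (nat_lit 365) (.d (nat_lit 399) (nat_lit 364) (nat_lit 364) (nat_lit 402) (nat_lit 3438))) (.a (.f (nat_lit 368) (nat_lit 401) (nat_lit 365) (.f (nat_lit 337) (nat_lit 336) (nat_lit 2381) (.d (nat_lit 369) (nat_lit 338) (nat_lit 2382) (nat_lit 432) (nat_lit 6480)))) (.f (nat_lit 399) (nat_lit 364) (nat_lit 364) (.f (nat_lit 428) (nat_lit 431) (nat_lit 2444) (.d (nat_lit 398) (nat_lit 397) (nat_lit 1420) (nat_lit 427) (nat_lit 2443)))))))))) (.a (.f (nat_lit 335) (nat_lit 398) (nat_lit 6478) (.f (nat_lit 399) (nat_lit 431) (nat_lit 5454) (.f (nat_lit 400) (nat_lit 364) (nat_lit 364) (.d (nat_lit 401) (nat_lit 368) (nat_lit 365) (nat_lit 402) (nat_lit 3438))))) (.a (.f (nat_lit 335) (nat_lit 398) (nat_lit 6478) (.f (nat_lit 431) (nat_lit 399) (nat_lit 5454) (.f (nat_lit 432) (nat_lit 465) (nat_lit 429) (.d (nat_lit 400) (nat_lit 368) (nat_lit 7503) (nat_lit 401) (nat_lit 2445))))) (.a (.p (nat_lit 335) (.a (.f (nat_lit 399) (nat_lit 431) (nat_lit 5454) (.d (nat_lit 364) (nat_lit 336) (nat_lit 2380) (nat_lit 400) (nat_lit 364))) (.a (.f (nat_lit 399) (nat_lit 431) (nat_lit 5454) (.f (nat_lit 400) (nat_lit 364) (nat_lit 364) (.d (nat_lit 401) (nat_lit 368) (nat_lit 365) (nat_lit 402) (nat_lit 3438)))) (.a (.f (nat_lit 431) (nat_lit 399) (nat_lit 5454) (.f (nat_lit 432) (nat_lit 465) (nat_lit 429) (.d (nat_lit 400) (nat_lit 368) (nat_lit 7503) (nat_lit 401) (nat_lit 2445)))) (.f (nat_lit 336) (nat_lit 364) (nat_lit 2380) (.d (nat_lit 337) (nat_lit 334) (nat_lit 1357) (nat_lit 338) (nat_lit 1358))))))) (.f (nat_lit 335) (nat_lit 398) (nat_lit 6478) (.f (nat_lit 336) (nat_lit 364) (nat_lit 2380) (.d (nat_lit 337) (nat_lit 334) (nat_lit 1357) (nat_lit 338) (nat_lit 1358)))))))))) (.a (.d (nat_lit 333) (nat_lit 397) (nat_lit 4429) (nat_lit 398) (nat_lit 7501)) s79515))))))))))))))) (.a (.p (nat_lit 431) (.a (.f (nat_lit 432) (nat_lit 465) (nat_lit 429) (.d (nat_lit 461) (nat_lit 433) (nat_lit 1453) (nat_lit 460) (nat_lit 1452))) (.a (.p (nat_lit 428) (.a (.f (nat_lit 399) (nat_lit 400) (nat_lit 2444) (.f (nat_lit 427) (nat_lit 398) (nat_lit 2443) (.d (nat_lit 459) (nat_lit 458) (nat_lit 1450) (nat_lit 460) (nat_lit 1451)))) (.a (.f (nat_lit 459) (nat_lit 460) (nat_lit 1451) (.f (nat_lit 427) (nat_lit 458) (nat_lit 1450) (.d (nat_lit 395) (nat_lit 394) (nat_lit 3466) (nat_lit 396) (nat_lit 3467)))) (.a (.f (nat_lit 396) (nat_lit 395) (nat_lit 3467) (.p (nat_lit 364) (.a (.f (nat_lit 460) (nat_lit 459) (nat_lit 1451) (.d (nat_lit 461) (nat_lit 332) (nat_lit 4428) (nat_lit 493) (nat_lit 4460))) (.a (.f (nat_lit 460) (nat_lit 459) (nat_lit 1451) (.f (nat_lit 399) (nat_lit 400) (nat_lit 2444) (.f (nat_lit 365) (nat_lit 333) (nat_lit 6476) (.f (nat_lit 363) (nat_lit 331) (nat_lit 7499) (.f (nat_lit 335) (nat_lit 367) (nat_lit 5454) (.d (nat_lit 366) (nat_lit 334) (nat_lit 2379) (nat_lit 398) (nat_lit 363))))))) (.a (.f (nat_lit 461) (nat_lit 332) (nat_lit 4428) (.d (nat_lit 493) (nat_lit 460) (nat_lit 4460) (nat_lit 525) (nat_lit 7564))) (.f (nat_lit 332) (nat_lit 461) (nat_lit 4428) (.f (nat_lit 299) (nat_lit 331) (nat_lit 7467) (.f (nat_lit 300) (nat_lit 267) (nat_lit 7435) (.d (nat_lit 301) (nat_lit 269) (nat_lit 6412) (nat_lit 333) (nat_lit 6444)))))))))) (.f (nat_lit 399) (nat_lit 400) (nat_lit 2444) (.f (nat_lit 427) (nat_lit 398) (nat_lit 2443) (.d (nat_lit 395) (nat_lit 394) (nat_lit 3466) (nat_lit 396) (nat_lit 3467)))))))) (.a (.f (nat_lit 432) (nat_lit 465) (nat_lit 429) (.f (nat_lit 400) (nat_lit 401) (nat_lit 2445) (.f (nat_lit 399) (nat_lit 428) (nat_lit 2444) (.f (nat_lit 433) (nat_lit 461) (nat_lit 1453) (.d (nat_lit 434) (nat_lit 398) (nat_lit 3470) (nat_lit 435) (nat_lit 3471)))))) (.f (nat_lit 432) (nat_lit 465) (nat_lit 429) (.f (nat_lit 400) (nat_lit 401) (nat_lit 2445) (.f (nat_lit 428) (nat_lit 399) (nat_lit 2444) (.f (nat_lit 459) (nat_lit 460) (nat_lit 1451) (.f (nat_lit 427) (nat_lit 458) (nat_lit 1450) (.d (nat_lit 395) (nat_lit 394) (nat_lit 3466) (nat_lit 396) (nat_lit 3467))))))))))) (.a (.p (nat_lit 431) (.a (.f (nat_lit 432) (nat_lit 465) (nat_lit 429) (.d (nat_lit 461) (nat_lit 433) (nat_lit 1453) (nat_lit 460) (nat_lit 1452))) (.a (.p (nat_lit 428) (.a (.f (nat_lit 459) (nat_lit 460) (nat_lit 1451) (.f (nat_lit 427) (nat_lit 458) (nat_lit 1450) (.d (nat_lit 395) (nat_lit 394) (nat_lit 3466) (nat_lit 396) (nat_lit 3467)))) (.a (.f (nat_lit 459) (nat_lit 460) (nat_lit 1451) (.f (nat_lit 427) (nat_lit 458) (nat_lit 1450) (.f (nat_lit 396) (nat_lit 395) (nat_lit 3467) (.f (nat_lit 426) (nat_lit 461) (nat_lit 426) (.f (nat_lit 425) (nat_lit 397) (nat_lit 2441) (.f (nat_lit 456) (nat_lit 457) (nat_lit 1448) (.f (nat_lit 424) (nat_lit 455) (nat_lit 1447) (.d (nat_lit 392) (nat_lit 391) (nat_lit 3463) (nat_lit 393) (nat_lit 3464))))))))) (.a s79561 (.a (.f (nat_lit 459) (nat_lit 460) (nat_lit 1451) (.f (nat_lit 427) (nat_lit 458) (nat_lit 1450) (.f (nat_lit 426) (nat_lit 461) (nat_lit 426) (.d (nat_lit 394) (nat_lit 393) (nat_lit 3465) (nat_lit 395) (nat_lit 3466))))) (.a (.p (nat_lit 397) (.a (.f (nat_lit 460) (nat_lit 459) (nat_lit 1451) (.f (nat_lit 492) (nat_lit 524) (nat_lit 6540) (.d (nat_lit 365) (nat_lit 396) (nat_lit 6508) (nat_lit 461) (nat_lit 5484)))) (.a (.f (nat_lit 396) (nat_lit 395) (nat_lit 3467) (.f (nat_lit 460) (nat_lit 459) (nat_lit 1451) (.f (nat_lit 492) (nat_lit 524) (nat_lit 6540) (.f (nat_lit 493) (nat_lit 525) (nat_lit 4492) (.f (nat_lit 461) (nat_lit 364) (nat_lit 4460) (.d (nat_lit 491) (nat_lit 490) (nat_lit 2506) (nat_lit 523) (nat_lit 5515))))))) (.a (.f (nat_lit 460) (nat_lit 459) (nat_lit 1451) (.f (nat_lit 365) (nat_lit 333) (nat_lit 4429) (.d (nat_lit 492) (nat_lit 461) (nat_lit 5484) (nat_lit 524) (nat_lit 6540)))) (.a (.f (nat_lit 365) (nat_lit 333) (nat_lit 4429) (.f (nat_lit 396) (nat_lit 395) (nat_lit 3467) (.f (nat_lit 460) (nat_lit 492) (nat_lit 6508) (.f (nat_lit 399) (nat_lit 400) (nat_lit 2444) (.f (nat_lit 367) (nat_lit 335) (nat_lit 5454) (.f (nat_lit 366) (nat_lit 368) (nat_lit 1388) (.f (nat_lit 461) (nat_lit 334) (nat_lit 6477) (.d (nat_lit 364) (nat_lit 332) (nat_lit 4428) (nat_lit 493) (nat_lit 4460))))))))) (.a (.f (nat_lit 396) (nat_lit 395) (nat_lit 3467) (.f (nat_lit 365) (nat_lit 333) (nat_lit 4429) (.f (nat_lit 399) (nat_lit 400) (nat_lit 2444) (.f (nat_lit 367) (nat_lit 335) (nat_lit 5454) (.f (nat_lit 366) (nat_lit 368) (nat_lit 1388) (.f (nat_lit 461) (nat_lit 334) (nat_lit 6477) (.d (nat_lit 364) (nat_lit 332) (nat_lit 4428) (nat_lit 493) (nat_lit 7532)))))))) (.f (nat_lit 460) (nat_lit 459) (nat_lit 1451) (.f (nat_lit 365) (nat_lit 333) (nat_lit 4429) (.d (nat_lit 492) (nat_lit 396) (nat_lit 6508) (nat_lit 524) (nat_lit 6540)))))))))) (.p (nat_lit 427) (.a (.d (nat_lit 395) (nat_lit 394) (nat_lit 3466) (nat_lit 396) (nat_lit 3467)) (.a (.f (nat_lit 426) (nat_lit 461) (nat_lit 426) (.f (nat_lit 396) (nat_lit 395) (nat_lit 3467) (.f (nat_lit 425) (nat_lit 397) (nat_lit 2441) (.d (nat_lit 457) (nat_lit 456) (nat_lit 1448) (nat_lit 458) (nat_lit 1449))))) (.f (nat_lit 426) (nat_lit 461) (nat_lit 426) (.f (nat_lit 393) (nat_lit 394) (nat_lit 3465) (.f (nat_lit 425) (nat_lit 392) (nat_lit 3464) (.d (nat_lit 457) (nat_lit 456) (nat_lit 1448) (nat_lit 458) (nat_lit 1449)))))))))))))) (.f (nat_lit 432) (nat_lit 465) (nat_lit 429) (.f (nat_lit 400) (nat_lit 401) (nat_lit 2445) (.f (nat_lit 428) (nat_lit 399) (nat_lit 2444) (.d (nat_lit 396) (nat_lit 395) (nat_lit 3467) (nat_lit 397) (nat_lit 3468)))))))) (.a (.p (nat_lit 431) (.a (.f (nat_lit 432) (nat_lit 465) (nat_lit 429) (.d (nat_lit 461) (nat_lit 433) (nat_lit 1453) (nat_lit 460) (nat_lit 1452))) (.a s79580 (.a (.f (nat_lit 432) (nat_lit 465) (nat_lit 429) (.f (nat_lit 397) (nat_lit 396) (nat_lit 3468) (.d (nat_lit 433) (nat_lit 398) (nat_lit 3469) (nat_lit 461) (nat_lit 1453)))) (.f (nat_lit 432) (nat_lit 465) (nat_lit 429) (.f (nat_lit 397) (nat_lit 396) (nat_lit 3468) (.f (nat_lit 433) (nat_lit 398) (nat_lit 3469) (.d (nat_lit 401) (nat_lit 400) (nat_lit 2445) (nat_lit 402) (nat_lit 2446))))))))) (.a (.p (nat_lit 431) (.a (.f (nat_lit 432) (nat_lit 465) (nat_lit 429) (.d (nat_lit 461) (nat_lit 433) (nat_lit 1453) (nat_lit 460) (nat_lit 1452))) (.a s79580 (.a (.f (nat_lit 432) (nat_lit 465) (nat_lit 429) (.f (nat_lit 397) (nat_lit 396) (nat_lit 3468) (.d (nat_lit 433) (nat_lit 398) (nat_lit 3469) (nat_lit 461) (nat_lit 1453)))) s79597)))) (.a (.p (nat_lit 397) (.a (.f (nat_lit 365) (nat_lit 333) (nat_lit 4429) (.p (nat_lit 461) (.a (.f (nat_lit 460) (nat_lit 492) (nat_lit 5484) (.d (nat_lit 431) (nat_lit 432) (nat_lit 1452) (nat_lit 459) (nat_lit 2475))) (.f (nat_lit 366) (nat_lit 334) (nat_lit 6477) (.f (nat_lit 398) (nat_lit 493) (nat_lit 5485) (.f (nat_lit 364) (nat_lit 332) (nat_lit 7500) (.d (nat_lit 363) (nat_lit 362) (nat_lit 362) (nat_lit 399) (nat_lit 363)))))))) (.a (.f (nat_lit 365) (nat_lit 333) (nat_lit 4429) (.p (nat_lit 461) (.a (.f (nat_lit 460) (nat_lit 492) (nat_lit 5484) (.d (nat_lit 431) (nat_lit 432) (nat_lit 1452) (nat_lit 459) (nat_lit 2475))) (.f (nat_lit 366) (nat_lit 334) (nat_lit 6477) (.f (nat_lit 398) (nat_lit 493) (nat_lit 5485) (.f (nat_lit 367) (nat_lit 335) (nat_lit 6478) (.f (nat_lit 368) (nat_lit 369) (nat_lit 1389) (.f (nat_lit 400) (nat_lit 401) (nat_lit 365) (.d (nat_lit 399) (nat_lit 364) (nat_lit 364) (nat_lit 428) (nat_lit 1420)))))))))) (.a (.p (nat_lit 461) (.a (.p (nat_lit 493) (.a (.d (nat_lit 398) (nat_lit 366) (nat_lit 5485) (nat_lit 525) (nat_lit 6541)) (.a (.d (nat_lit 525) (nat_lit 398) (nat_lit 6541) (nat_lit 557) (nat_lit 6573)) (.a (.f (nat_lit 525) (nat_lit 557) (nat_lit 6573) (.d (nat_lit 524) (nat_lit 492) (nat_lit 5516) (nat_lit 556) (nat_lit 5548))) (.f (nat_lit 398) (nat_lit 366) (nat_lit 6509) (.f (nat_lit 396) (nat_lit 364) (nat_lit 7532) (.d (nat_lit 395) (nat_lit 394) (nat_lit 394) (nat_lit 431) (nat_lit 395)))))))) (.a (.p (nat_lit 431) (.a (.d (nat_lit 432) (nat_lit 396) (nat_lit 3468) (nat_lit 465) (nat_lit 429)) (.a (.d (nat_lit 432) (nat_lit 460) (nat_lit 1452) (nat_lit 465) (nat_lit 429)) (.f (nat_lit 460) (nat_lit 459) (nat_lit 2475) (.f (nat_lit 492) (nat_lit 365) (nat_lit 5484) (.d (nat_lit 524) (nat_lit 428) (nat_lit 6540) (nat_lit 493) (nat_lit 5516))))))) (.a (.p (nat_lit 493) (.a (.d (nat_lit 398) (nat_lit 366) (nat_lit 5485) (nat_lit 525) (nat_lit 6541)) (.a (.d (nat_lit 525) (nat_lit 398) (nat_lit 6541) (nat_lit 557) (nat_lit 6573)) (.a (.f (nat_lit 525) (nat_lit 557) (nat_lit 6573) (.d (nat_lit 524) (nat_lit 492) (nat_lit 5516) (nat_lit 556) (nat_lit 5548))) (.f (nat_lit 492) (nat_lit 524) (nat_lit 5516) (.f (nat_lit 460) (nat_lit 365) (nat_lit 5484) (.d (nat_lit 431) (nat_lit 432) (nat_lit 1452) (nat_lit 459) (nat_lit 2475)))))))) (.a (.p (nat_lit 493) (.a (.d (nat_lit 398) (nat_lit 366) (nat_lit 5485) (nat_lit 525) (nat_lit 6541)) (.a (.d (nat_lit 525) (nat_lit 398) (nat_lit 6541) (nat_lit 557) (nat_lit 6573)) (.a (.f (nat_lit 525) (nat_lit 557) (nat_lit 6573) (.d (nat_lit 524) (nat_lit 492) (nat_lit 5516) (nat_lit 556) (nat_lit 5548))) (.f (nat_lit 366) (nat_lit 398) (nat_lit 6509) (.f (nat_lit 492) (nat_lit 524) (nat_lit 5516) (.d (nat_lit 365) (nat_lit 334) (nat_lit 6477) (nat_lit 460) (nat_lit 5484)))))))) (.a (.p (nat_lit 398) (.a (.d (nat_lit 493) (nat_lit 366) (nat_lit 6509) (nat_lit 525) (nat_lit 6541)) (.a (.f (nat_lit 493) (nat_lit 525) (nat_lit 6541) (.f (nat_lit 396) (nat_lit 364) (nat_lit 7532) (.d (nat_lit 395) (nat_lit 394) (nat_lit 394) (nat_lit 431) (nat_lit 395)))) (.f (nat_lit 366) (nat_lit 334) (nat_lit 5453) (.f (nat_lit 367) (nat_lit 335) (nat_lit 6478) (.f (nat_lit 396) (nat_lit 395) (nat_lit 2411) (.d (nat_lit 368) (nat_lit 365) (nat_lit 1388) (nat_lit 369) (nat_lit 1389)))))))) (.p (nat_lit 431) (.a (.d (nat_lit 432) (nat_lit 396) (nat_lit 3468) (nat_lit 465) (nat_lit 429)) (.a (.d (nat_lit 432) (nat_lit 460) (nat_lit 1452) (nat_lit 465) (nat_lit 429)) (.f (nat_lit 460) (nat_lit 459) (nat_lit 2475) (.f (nat_lit 492) (nat_lit 365) (nat_lit 5484) (.d (nat_lit 524) (nat_lit 428) (nat_lit 6540) (nat_lit 556) (nat_lit 6572))))))))))))) (.a (.f (nat_lit 365) (nat_lit 333) (nat_lit 4429) (.p (nat_lit 461) (.a (.f (nat_lit 460) (nat_lit 492) (nat_lit 5484) (.d (nat_lit 431) (nat_lit 432) (nat_lit 1452) (nat_lit 459) (nat_lit 2475))) (.a (.f (nat_lit 364) (nat_lit 332) (nat_lit 7500) (.f (nat_lit 493) (nat_lit 396) (nat_lit 7532) (.d (nat_lit 492) (nat_lit 460) (nat_lit 5484) (nat_lit 524) (nat_lit 5516)))) (.f (nat_lit 364) (nat_lit 332) (nat_lit 7500) (.f (nat_lit 493) (nat_lit 396) (nat_lit 7532) (.d (nat_lit 525) (nat_lit 398) (nat_lit 6541) (nat_lit 557) (nat_lit 6573)))))))) (.a (.f (nat_lit 365) (nat_lit 333) (nat_lit 4429) s79364) (.a (.p (nat_lit 396) (.a (.f (nat_lit 431) (nat_lit 432) (nat_lit 3468) (.d (nat_lit 395) (nat_lit 394) (nat_lit 394) (nat_lit 428) (nat_lit 3467))) (.a (.f (nat_lit 431) (nat_lit 432) (nat_lit 3468) (.d (nat_lit 395) (nat_lit 398) (nat_lit 395) (nat_lit 428) (nat_lit 3467))) (.a (.p (nat_lit 399) (.a (.f (nat_lit 431) (nat_lit 432) (nat_lit 3468) (.f (nat_lit 400) (nat_lit 428) (nat_lit 2444) (.d (nat_lit 401) (nat_lit 398) (nat_lit 1421) (nat_lit 402) (nat_lit 1422)))) (.a (.f (nat_lit 431) (nat_lit 432) (nat_lit 3468) (.f (nat_lit 428) (nat_lit 400) (nat_lit 2444) (.f (nat_lit 460) (nat_lit 459) (nat_lit 1451) (.f (nat_lit 492) (nat_lit 524) (nat_lit 6540) (.f (nat_lit 493) (nat_lit 525) (nat_lit 4492) (.f (nat_lit 364) (nat_lit 461) (nat_lit 4460) (.f (nat_lit 332) (nat_lit 300) (nat_lit 4396) (.d (nat_lit 331) (nat_lit 299) (nat_lit 7467) (nat_lit 363) (nat_lit 7499))))))))) (.a (.f (nat_lit 431) (nat_lit 432) (nat_lit 3468) (.f (nat_lit 367) (nat_lit 335) (nat_lit 5454) (.f (nat_lit 398) (nat_lit 368) (nat_lit 2412) (.f (nat_lit 364) (nat_lit 363) (nat_lit 3435) (.f (nat_lit 461) (nat_lit 493) (nat_lit 7532) (.d (nat_lit 332) (nat_lit 300) (nat_lit 4396) (nat_lit 428) (nat_lit 4428))))))) (.a (.p (nat_lit 398) (.a (.f (nat_lit 431) (nat_lit 432) (nat_lit 396) (.d (nat_lit 367) (nat_lit 335) (nat_lit 5454) (nat_lit 368) (nat_lit 2412))) (.a (.f (nat_lit 432) (nat_lit 431) (nat_lit 3468) (.d (nat_lit 400) (nat_lit 401) (nat_lit 1421) (nat_lit 433) (nat_lit 397))) (.f (nat_lit 400) (nat_lit 401) (nat_lit 1421) (.d (nat_lit 368) (nat_lit 367) (nat_lit 2412) (nat_lit 369) (nat_lit 2413)))))) (.p (nat_lit 398) (.a (.f (nat_lit 400) (nat_lit 401) (nat_lit 1421) (.d (nat_lit 368) (nat_lit 367) (nat_lit 2412) (nat_lit 369) (nat_lit 2413))) (.a (.d (nat_lit 400) (nat_lit 401) (nat_lit 1421) (nat_lit 428) (nat_lit 1420)) (.f (nat_lit 367) (nat_lit 368) (nat_lit 2412) (.d (nat_lit 335) (nat_lit 303) (nat_lit 5422) (nat_lit 366) (nat_lit 6478))))))))))) (.a (.f (nat_lit 431) (nat_lit 432) (nat_lit 3468) (.d (nat_lit 395) (nat_lit 394) (nat_lit 394) (nat_lit 398) (nat_lit 395))) (.f (nat_lit 395) (nat_lit 394) (nat_lit 394) (.p (nat_lit 398) (.a (.f (nat_lit 366) (nat_lit 367) (nat_lit 2411) (.d (nat_lit 334) (nat_lit 302) (nat_lit 5421) (nat_lit 461) (nat_lit 5453))) (.a (.f (nat_lit 366) (nat_lit 367) (nat_lit 2411) (.d (nat_lit 461) (nat_lit 334) (nat_lit 5453) (nat_lit 493) (nat_lit 5485))) (.a (.f (nat_lit 366) (nat_lit 367) (nat_lit 2411) (.f (nat_lit 461) (nat_lit 493) (nat_lit 5485) (.f (nat_lit 363) (nat_lit 362) (nat_lit 3434) (.f (nat_lit 364) (nat_lit 399) (nat_lit 3435) (.d (nat_lit 332) (nat_lit 300) (nat_lit 4396) (nat_lit 428) (nat_lit 4428)))))) (.f (nat_lit 363) (nat_lit 362) (nat_lit 3434) (.f (nat_lit 399) (nat_lit 364) (nat_lit 3435) (.d (nat_lit 400) (nat_lit 401) (nat_lit 1421) (nat_lit 428) (nat_lit 1420)))))))))))))) (.a (.f (nat_lit 365) (nat_lit 333) (nat_lit 4429) (.p (nat_lit 461) (.a (.f (nat_lit 460) (nat_lit 492) (nat_lit 5484) (.d (nat_lit 431) (nat_lit 432) (nat_lit 1452) (nat_lit 459) (nat_lit 2475))) (.a (.f (nat_lit 364) (nat_lit 332) (nat_lit 7500) (.f (nat_lit 493) (nat_lit 396) (nat_lit 7532) (.d (nat_lit 492) (nat_lit 460) (nat_lit 5484) (nat_lit 524) (nat_lit 5516)))) (.f (nat_lit 364) (nat_lit 332) (nat_lit 7500) (.f (nat_lit 396) (nat_lit 493) (nat_lit 7532) (.f (nat_lit 395) (nat_lit 394) (nat_lit 394) (.d (nat_lit 366) (nat_lit 334) (nat_lit 6477) (nat_lit 367) (nat_lit 1387))))))))) (.a (.f (nat_lit 365) (nat_lit 333) (nat_lit 4429) (.p (nat_lit 461) (.a (.f (nat_lit 366) (nat_lit 334) (nat_lit 6477) (.f (nat_lit 398) (nat_lit 493) (nat_lit 5485) (.f (nat_lit 364) (nat_lit 332) (nat_lit 7500) (.d (nat_lit 363) (nat_lit 362) (nat_lit 362) (nat_lit 399) (nat_lit 363))))) (.a (.f (nat_lit 366) (nat_lit 334) (nat_lit 6477) (.f (nat_lit 398) (nat_lit 493) (nat_lit 5485) (.f (nat_lit 367) (nat_lit 335) (nat_lit 6478) (.f (nat_lit 368) (nat_lit 369) (nat_lit 1389) (.f (nat_lit 400) (nat_lit 401) (nat_lit 365) (.d (nat_lit 399) (nat_lit 364) (nat_lit 364) (nat_lit 428) (nat_lit 1420))))))) (.a (.f (nat_lit 364) (nat_lit 332) (nat_lit 7500) (.f (nat_lit 493) (nat_lit 396) (nat_lit 7532) (.d (nat_lit 492) (nat_lit 460) (nat_lit 5484) (nat_lit 524) (nat_lit 5516)))) (.a (.f (nat_lit 366) (nat_lit 334) (nat_lit 6477) (.f (nat_lit 493) (nat_lit 398) (nat_lit 5485) (.d (nat_lit 492) (nat_lit 460) (nat_lit 5484) (nat_lit 524) (nat_lit 5516)))) (.f (nat_lit 366) (nat_lit 334) (nat_lit 6477) (.f (nat_lit 364) (nat_lit 332) (nat_lit 7500) (.f (nat_lit 460) (nat_lit 492) (nat_lit 5484) (.f (nat_lit 459) (nat_lit 458) (nat_lit 2474) (.f (nat_lit 491) (nat_lit 490) (nat_lit 1482) (.f (nat_lit 396) (nat_lit 428) (nat_lit 5483) (.d (nat_lit 395) (nat_lit 367) (nat_lit 1387) (nat_lit 394) (nat_lit 2410)))))))))))))) (.a (.p (nat_lit 396) (.a (.f (nat_lit 431) (nat_lit 432) (nat_lit 3468) (.d (nat_lit 395) (nat_lit 394) (nat_lit 394) (nat_lit 428) (nat_lit 3467))) (.a (.f (nat_lit 431) (nat_lit 432) (nat_lit 3468) (.d (nat_lit 395) (nat_lit 398) (nat_lit 395) (nat_lit 428) (nat_lit 3467))) (.a (.p (nat_lit 461) (.a (.f (nat_lit 493) (nat_lit 364) (nat_lit 7532) (.d (nat_lit 525) (nat_lit 398) (nat_lit 6541) (nat_lit 557) (nat_lit 6573))) (.a (.f (nat_lit 365) (nat_lit 333) (nat_lit 4429) (.f (nat_lit 366) (nat_lit 334) (nat_lit 6477) (.f (nat_lit 493) (nat_lit 398) (nat_lit 5485) (.d (nat_lit 492) (nat_lit 460) (nat_lit 5484) (nat_lit 524) (nat_lit 5516))))) (.a (.f (nat_lit 365) (nat_lit 333) (nat_lit 4429) (.d (nat_lit 364) (nat_lit 332) (nat_lit 7500) (nat_lit 493) (nat_lit 7532))) (.f (nat_lit 365) (nat_lit 333) (nat_lit 4429) (.f (nat_lit 431) (nat_lit 432) (nat_lit 3468) (.f (nat_lit 364) (nat_lit 332) (nat_lit 7500) (.f (nat_lit 366) (nat_lit 334) (nat_lit 6477) (.f (nat_lit 367) (nat_lit 368) (nat_lit 1388) (.d (nat_lit 335) (nat_lit 336) (nat_lit 2380) (nat_lit 399) (nat_lit 5454))))))))))) (.p (nat_lit 364) (.a (.f (nat_lit 365) (nat_lit 333) (nat_lit 4429) (.d (nat_lit 461) (nat_lit 332) (nat_lit 7500) (nat_lit 493) (nat_lit 7532))) (.a (.f (nat_lit 365) (nat_lit 333) (nat_lit 4429) (.f (nat_lit 395) (nat_lit 394) (nat_lit 394) (.f (nat_lit 366) (nat_lit 367) (nat_lit 1387) (.d (nat_lit 461) (nat_lit 334) (nat_lit 6477) (nat_lit 493) (nat_lit 7532))))) (.a (.f (nat_lit 461) (nat_lit 493) (nat_lit 7532) (.d (nat_lit 332) (nat_lit 300) (nat_lit 4396) (nat_lit 365) (nat_lit 7500))) (.a (.f (nat_lit 461) (nat_lit 493) (nat_lit 7532) (.d (nat_lit 332) (nat_lit 300) (nat_lit 4396) (nat_lit 428) (nat_lit 4428))) (.f (nat_lit 333) (nat_lit 365) (nat_lit 4429) (.f (nat_lit 332) (nat_lit 300) (nat_lit 4396) (.f (nat_lit 428) (nat_lit 301) (nat_lit 6444) (.f (nat_lit 331) (nat_lit 299) (nat_lit 7467) (.f (nat_lit 363) (nat_lit 460) (nat_lit 7499) (.d (nat_lit 362) (nat_lit 334) (nat_lit 1354) (nat_lit 361) (nat_lit 361)))))))))))))))) (.a (.p (nat_lit 396) (.a (.f (nat_lit 431) (nat_lit 432) (nat_lit 3468) (.d (nat_lit 395) (nat_lit 394) (nat_lit 394) (nat_lit 428) (nat_lit 3467))) (.a (.f (nat_lit 431) (nat_lit 432) (nat_lit 3468) (.d (nat_lit 395) (nat_lit 398) (nat_lit 395) (nat_lit 428) (nat_lit 3467))) (.a (.p (nat_lit 461) (.a (.f (nat_lit 493) (nat_lit 364) (nat_lit 7532) (.d (nat_lit 525) (nat_lit 398) (nat_lit 6541) (nat_lit 557) (nat_lit 6573))) (.a (.f (nat_lit 365) (nat_lit 333) (nat_lit 4429) (.f (nat_lit 366) (nat_lit 334) (nat_lit 6477) (.f (nat_lit 493) (nat_lit 398) (nat_lit 5485) (.d (nat_lit 525) (nat_lit 428) (nat_lit 7564) (nat_lit 557) (nat_lit 6573))))) (.a (.f (nat_lit 365) (nat_lit 333) (nat_lit 4429) (.d (nat_lit 364) (nat_lit 332) (nat_lit 7500) (nat_lit 493) (nat_lit 7532))) (.f (nat_lit 365) (nat_lit 333) (nat_lit 4429) (.f (nat_lit 431) (nat_lit 432) (nat_lit 3468) (.f (nat_lit 364) (nat_lit 332) (nat_lit 7500) (.f (nat_lit 366) (nat_lit 334) (nat_lit 6477) (.f (nat_lit 367) (nat_lit 368) (nat_lit 1388) (.d (nat_lit 335) (nat_lit 336) (nat_lit 2380) (nat_lit 399) (nat_lit 5454))))))))))) (.a (.f (nat_lit 431) (nat_lit 432) (nat_lit 3468) (.d (nat_lit 395) (nat_lit 394) (nat_lit 394) (nat_lit 398) (nat_lit 395))) (.p (nat_lit 461) (.a (.f (nat_lit 493) (nat_lit 364) (nat_lit 7532) (.d (nat_lit 525) (nat_lit 398) (nat_lit 6541) (nat_lit 557) (nat_lit 6573))) (.a (.f (nat_lit 365) (nat_lit 333) (nat_lit 4429) (.f (nat_lit 366) (nat_lit 334) (nat_lit 6477) (.f (nat_lit 493) (nat_lit 398) (nat_lit 5485) (.d (nat_lit 525) (nat_lit 428) (nat_lit 7564) (nat_lit 557) (nat_lit 6573))))) (.a (.f (nat_lit 365) (nat_lit 333) (nat_lit 4429) (.d (nat_lit 364) (nat_lit 332) (nat_lit 7500) (nat_lit 493) (nat_lit 7532))) (.f (nat_lit 365) (nat_lit 333) (nat_lit 4429) (.f (nat_lit 366) (nat_lit 334) (nat_lit 6477) (.f (nat_lit 395) (nat_lit 394) (nat_lit 394) (.d (nat_lit 367) (nat_lit 364) (nat_lit 1387) (nat_lit 368) (nat_lit 1388)))))))))))))) (.p (nat_lit 367) (.a (.p (nat_lit 431) (.a (.d (nat_lit 432) (nat_lit 396) (nat_lit 3468) (nat_lit 465) (nat_lit 429)) (.a (.f (nat_lit 432) (nat_lit 465) (nat_lit 429) (.f (nat_lit 399) (nat_lit 335) (nat_lit 5454) (.d (nat_lit 400) (nat_lit 401) (nat_lit 2445) (nat_lit 428) (nat_lit 2444)))) (.f (nat_lit 399) (nat_lit 335) (nat_lit 5454) (.f (nat_lit 400) (nat_lit 428) (nat_lit 2444) (.d (nat_lit 401) (nat_lit 398) (nat_lit 1421) (nat_lit 402) (nat_lit 1422))))))) (.a (.p (nat_lit 396) (.a (.f (nat_lit 395) (nat_lit 394) (nat_lit 394) (.d (nat_lit 431) (nat_lit 398) (nat_lit 395) (nat_lit 432) (nat_lit 3468))) (.a (.f (nat_lit 431) (nat_lit 432) (nat_lit 3468) (.d (nat_lit 395) (nat_lit 398) (nat_lit 395) (nat_lit 428) (nat_lit 3467))) (.a (.f (nat_lit 365) (nat_lit 333) (nat_lit 4429) (.f (nat_lit 431) (nat_lit 432) (nat_lit 3468) (.f (nat_lit 368) (nat_lit 366) (nat_lit 1388) (.f (nat_lit 399) (nat_lit 398) (nat_lit 2412) (.f (nat_lit 428) (nat_lit 400) (nat_lit 2444) (.d (nat_lit 460) (nat_lit 459) (nat_lit 1451) (nat_lit 492) (nat_lit 6508))))))) (.f (nat_lit 365) (nat_lit 333) (nat_lit 4429) (.f (nat_lit 395) (nat_lit 394) (nat_lit 394) (.d (nat_lit 366) (nat_lit 364) (nat_lit 1387) (nat_lit 368) (nat_lit 1388)))))))) (.a (.p (nat_lit 335) (.a (.f (nat_lit 399) (nat_lit 431) (nat_lit 5454) (.d (nat_lit 398) (nat_lit 303) (nat_lit 5422) (nat_lit 366) (nat_lit 6478))) (.a (.f (nat_lit 431) (nat_lit 399) (nat_lit 5454) (.f (nat_lit 432) (nat_lit 465) (nat_lit 429) (.d (nat_lit 398) (nat_lit 366) (nat_lit 6478) (nat_lit 433) (nat_lit 3469)))) (.a (.f (nat_lit 399) (nat_lit 431) (nat_lit 5454) (.f (nat_lit 303) (nat_lit 398) (nat_lit 5422) (.f (nat_lit 400) (nat_lit 432) (nat_lit 4399) (.f (nat_lit 271) (nat_lit 368) (nat_lit 4367) (.d (nat_lit 272) (nat_lit 240) (nat_lit 6383) (nat_lit 304) (nat_lit 6415)))))) (.a (.f (nat_lit 431) (nat_lit 399) (nat_lit 5454) (.f (nat_lit 432) (nat_lit 465) (nat_lit 429) (.d (nat_lit 400) (nat_lit 368) (nat_lit 7503) (nat_lit 401) (nat_lit 2445)))) (.f (nat_lit 366) (nat_lit 398) (nat_lit 6478) (.f (nat_lit 365) (nat_lit 333) (nat_lit 4429) (.f (nat_lit 336) (nat_lit 364) (nat_lit 2380) (.d (nat_lit 337) (nat_lit 334) (nat_lit 1357) (nat_lit 338) (nat_lit 1358)))))))))) (.a (.p (nat_lit 431) (.a (.d (nat_lit 432) (nat_lit 396) (nat_lit 3468) (nat_lit 465) (nat_lit 429)) (.a (.f (nat_lit 432) (nat_lit 465) (nat_lit 429) (.f (nat_lit 399) (nat_lit 335) (nat_lit 5454) (.d (nat_lit 400) (nat_lit 401) (nat_lit 2445) (nat_lit 428) (nat_lit 2444)))) (.f (nat_lit 399) (nat_lit 335) (nat_lit 5454) (.f (nat_lit 428) (nat_lit 400) (nat_lit 2444) (.f (nat_lit 365) (nat_lit 333) (nat_lit 4429) (.f (nat_lit 396) (nat_lit 395) (nat_lit 3467) (.d (nat_lit 460) (nat_lit 459) (nat_lit 1451) (nat_lit 492) (nat_lit 6508))))))))) (.a (.p (nat_lit 396) (.a (.f (nat_lit 395) (nat_lit 394) (nat_lit 394) (.d (nat_lit 431) (nat_lit 398) (nat_lit 395) (nat_lit 432) (nat_lit 3468))) (.a (.f (nat_lit 431) (nat_lit 432) (nat_lit 3468) (.d (nat_lit 395) (nat_lit 398) (nat_lit 395) (nat_lit 428) (nat_lit 3467))) (.a (.f (nat_lit 365) (nat_lit 333) (nat_lit 4429) (.f (nat_lit 366) (nat_lit 368) (nat_lit 1388) (.f (nat_lit 335) (nat_lit 398) (nat_lit 6478) (.f (nat_lit 364) (nat_lit 336) (nat_lit 2380) (.d (nat_lit 332) (nat_lit 300) (nat_lit 4396) (nat_lit 331) (nat_lit 3403)))))) (.f (nat_lit 365) (nat_lit 333) (nat_lit 4429) (.f (nat_lit 395) (nat_lit 394) (nat_lit 394) (.d (nat_lit 366) (nat_lit 364) (nat_lit 1387) (nat_lit 368) (nat_lit 1388)))))))) (.p (nat_lit 366) (.a (.f (nat_lit 398) (nat_lit 335) (nat_lit 6478) (.f (nat_lit 365) (nat_lit 333) (nat_lit 4429) (.d (nat_lit 368) (nat_lit 369) (nat_lit 1389) (nat_lit 396) (nat_lit 1388)))) (.a (.f (nat_lit 398) (nat_lit 335) (nat_lit 6478) (.f (nat_lit 396) (nat_lit 395) (nat_lit 2411) (.d (nat_lit 368) (nat_lit 365) (nat_lit 1388) (nat_lit 369) (nat_lit 1389)))) (.a (.f (nat_lit 365) (nat_lit 333) (nat_lit 4429) (.f (nat_lit 396) (nat_lit 368) (nat_lit 1388) (.d (nat_lit 395) (nat_lit 364) (nat_lit 1387) (nat_lit 394) (nat_lit 394)))) (.a (.f (nat_lit 398) (nat_lit 335) (nat_lit 6478) (.f (nat_lit 396) (nat_lit 395) (nat_lit 2411) (.d (nat_lit 368) (nat_lit 369) (nat_lit 1389) (nat_lit 399) (nat_lit 2412)))) (.f (nat_lit 398) (nat_lit 335) (nat_lit 6478) (.f (nat_lit 333) (nat_lit 365) (nat_lit 4429) (.d (nat_lit 334) (nat_lit 301) (nat_lit 7469) (nat_lit 302) (nat_lit 5421)))))))))))))))))))))))))) (.a (.p (nat_lit 365) (.a (.f (nat_lit 397) (nat_lit 333) (nat_lit 4429) (.p (nat_lit 461) (.a (.f (nat_lit 460) (nat_lit 492) (nat_lit 5484) (.d (nat_lit 431) (nat_lit 432) (nat_lit 1452) (nat_lit 459) (nat_lit 2475))) (.f (nat_lit 366) (nat_lit 334) (nat_lit 6477) (.f (nat_lit 398) (nat_lit 493) (nat_lit 5485) (.f (nat_lit 364) (nat_lit 332) (nat_lit 7500) (.d (nat_lit 363) (nat_lit 362) (nat_lit 362) (nat_lit 399) (nat_lit 363)))))))) (.a s79453 (.a (.p (nat_lit 366) (.a s79465 (.a (.p (nat_lit 398) (.a (.p (nat_lit 397) (.a (.f (nat_lit 367) (nat_lit 335) (nat_lit 6478) (.d (nat_lit 396) (nat_lit 368) (nat_lit 1388) (nat_lit 395) (nat_lit 2411))) (.f (nat_lit 461) (nat_lit 493) (nat_lit 5485) (.f (nat_lit 364) (nat_lit 332) (nat_lit 7500) (.d (nat_lit 363) (nat_lit 362) (nat_lit 362) (nat_lit 399) (nat_lit 363)))))) (.a (.p (nat_lit 397) (.a (.f (nat_lit 367) (nat_lit 335) (nat_lit 6478) (.d (nat_lit 396) (nat_lit 368) (nat_lit 1388) (nat_lit 395) (nat_lit 2411))) (.f (nat_lit 461) (nat_lit 493) (nat_lit 5485) (.f (nat_lit 460) (nat_lit 492) (nat_lit 5484) (.d (nat_lit 431) (nat_lit 432) (nat_lit 1452) (nat_lit 459) (nat_lit 2475)))))) (.a (.p (nat_lit 364) (.a (.f (nat_lit 461) (nat_lit 493) (nat_lit 5485) (.f (nat_lit 397) (nat_lit 332) (nat_lit 7500) (.d (nat_lit 363) (nat_lit 362) (nat_lit 362) (nat_lit 399) (nat_lit 363)))) (.a (.f (nat_lit 399) (nat_lit 363) (nat_lit 363) (.d (nat_lit 400) (nat_lit 367) (nat_lit 364) (nat_lit 401) (nat_lit 1421))) (.f (nat_lit 461) (nat_lit 493) (nat_lit 5485) (.f (nat_lit 397) (nat_lit 332) (nat_lit 7500) (.f (nat_lit 460) (nat_lit 492) (nat_lit 5484) (.d (nat_lit 431) (nat_lit 432) (nat_lit 1452) (nat_lit 459) (nat_lit 2475)))))))) (.a (.p (nat_lit 431) (.a (.f (nat_lit 432) (nat_lit 465) (nat_lit 429) (.d (nat_lit 461) (nat_lit 460) (nat_lit 1452) (nat_lit 493) (nat_lit 5485))) (.a (.f (nat_lit 461) (nat_lit 493) (nat_lit 5485) (.f (nat_lit 460) (nat_lit 459) (nat_lit 2475) (.f (nat_lit 397) (nat_lit 492) (nat_lit 5484) (.f (nat_lit 364) (nat_lit 332) (nat_lit 7500) (.d (nat_lit 363) (nat_lit 362) (nat_lit 362) (nat_lit 399) (nat_lit 363)))))) (.a (.f (nat_lit 432) (nat_lit 465) (nat_lit 429) (.d (nat_lit 461) (nat_lit 433) (nat_lit 1453) (nat_lit 493) (nat_lit 5485))) (.f (nat_lit 432) (nat_lit 465) (nat_lit 429) (.d (nat_lit 397) (nat_lit 396) (nat_lit 3468) (nat_lit 433) (nat_lit 3469))))))) s79848))))) (.a s79850 (.a (.p (nat_lit 367) (.a (.p (nat_lit 364) (.a (.f (nat_lit 335) (nat_lit 336) (nat_lit 2380) (.d (nat_lit 399) (nat_lit 400) (nat_lit 364) (nat_lit 431) (nat_lit 5454))) (.a (.f (nat_lit 396) (nat_lit 395) (nat_lit 1387) (.f (nat_lit 368) (nat_lit 397) (nat_lit 1388) (.d (nat_lit 400) (nat_lit 399) (nat_lit 364) (nat_lit 401) (nat_lit 365)))) (.f (nat_lit 335) (nat_lit 336) (nat_lit 2380) (.f (nat_lit 363) (nat_lit 334) (nat_lit 2379) (.d (nat_lit 395) (nat_lit 394) (nat_lit 1386) (nat_lit 396) (nat_lit 1387))))))) (.a (.p (nat_lit 364) (.a (.f (nat_lit 335) (nat_lit 336) (nat_lit 2380) (.d (nat_lit 399) (nat_lit 400) (nat_lit 364) (nat_lit 431) (nat_lit 5454))) (.a (.f (nat_lit 396) (nat_lit 395) (nat_lit 1387) (.f (nat_lit 368) (nat_lit 397) (nat_lit 1388) (.d (nat_lit 400) (nat_lit 399) (nat_lit 364) (nat_lit 401) (nat_lit 365)))) (.f (nat_lit 396) (nat_lit 395) (nat_lit 1387) (.f (nat_lit 397) (nat_lit 368) (nat_lit 1388) (.d (nat_lit 332) (nat_lit 300) (nat_lit 4396) (nat_lit 331) (nat_lit 3403))))))) (.a s79864 (.a (.p (nat_lit 364) (.a (.f (nat_lit 396) (nat_lit 395) (nat_lit 1387) (.f (nat_lit 368) (nat_lit 397) (nat_lit 1388) (.d (nat_lit 400) (nat_lit 399) (nat_lit 364) (nat_lit 401) (nat_lit 365)))) (.a (.f (nat_lit 396) (nat_lit 395) (nat_lit 1387) (.f (nat_lit 332) (nat_lit 331) (nat_lit 3403) (.d (nat_lit 397) (nat_lit 300) (nat_lit 4396) (nat_lit 461) (nat_lit 7500)))) (.a (.f (nat_lit 332) (nat_lit 331) (nat_lit 3403) (.f (nat_lit 397) (nat_lit 461) (nat_lit 7500) (.d (nat_lit 396) (nat_lit 300) (nat_lit 4396) (nat_lit 368) (nat_lit 1388)))) (.f (nat_lit 399) (nat_lit 400) (nat_lit 364) (.f (nat_lit 431) (nat_lit 335) (nat_lit 5454) (.f (nat_lit 432) (nat_lit 465) (nat_lit 429) (.d (nat_lit 461) (nat_lit 433) (nat_lit 1453) (nat_lit 460) (nat_lit 1452))))))))) (.a (.p (nat_lit 368) (.a (.f (nat_lit 337) (nat_lit 336) (nat_lit 2381) (.f (nat_lit 369) (nat_lit 338) (nat_lit 2382) (.d (nat_lit 401) (nat_lit 400) (nat_lit 365) (nat_lit 402) (nat_lit 366)))) (.a (.f (nat_lit 400) (nat_lit 401) (nat_lit 365) (.f (nat_lit 432) (nat_lit 335) (nat_lit 7503) (.d (nat_lit 465) (nat_lit 431) (nat_lit 429) (nat_lit 497) (nat_lit 4464)))) (.f (nat_lit 397) (nat_lit 396) (nat_lit 1388) (.f (nat_lit 461) (nat_lit 334) (nat_lit 6477) (.f (nat_lit 460) (nat_lit 492) (nat_lit 5484) (.d (nat_lit 431) (nat_lit 432) (nat_lit 1452) (nat_lit 459) (nat_lit 2475)))))))) (.p (nat_lit 335) (.a (.f (nat_lit 431) (nat_lit 399) (nat_lit 5454) (.f (nat_lit 432) (nat_lit 465) (nat_lit 429) (.d (nat_lit 461) (nat_lit 433) (nat_lit 1453) (nat_lit 460) (nat_lit 1452)))) (.f (nat_lit 336) (nat_lit 364) (nat_lit 2380) (.d (nat_lit 337) (nat_lit 334) (nat_lit 1357) (nat_lit 338) (nat_lit 1358))))))))))) s79893))))) (.a (.f (nat_lit 397) (nat_lit 333) (nat_lit 4429) (.p (nat_lit 461) (.a (.f (nat_lit 460) (nat_lit 492) (nat_lit 5484) (.d (nat_lit 431) (nat_lit 432) (nat_lit 1452) (nat_lit 459) (nat_lit 2475))) (.a (.f (nat_lit 364) (nat_lit 332) (nat_lit 7500) (.f (nat_lit 493) (nat_lit 396) (nat_lit 7532) (.d (nat_lit 492) (nat_lit 460) (nat_lit 5484) (nat_lit 524) (nat_lit 5516)))) (.f (nat_lit 364) (nat_lit 332) (nat_lit 7500) (.f (nat_lit 493) (nat_lit 396) (nat_lit 7532) (.d (nat_lit 525) (nat_lit 398) (nat_lit 6541) (nat_lit 557) (nat_lit 6573)))))))) (.a (.p (nat_lit 366) (.a (.f (nat_lit 398) (nat_lit 333) (nat_lit 7501) (.d (nat_lit 461) (nat_lit 334) (nat_lit 5453) (nat_lit 493) (nat_lit 5485))) (.a s79850 (.a s79896 (.p (nat_lit 367) (.a (.p (nat_lit 364) (.a (.f (nat_lit 335) (nat_lit 336) (nat_lit 2380) (.d (nat_lit 399) (nat_lit 400) (nat_lit 364) (nat_lit 431) (nat_lit 5454))) (.a (.f (nat_lit 332) (nat_lit 331) (nat_lit 3403) (.f (nat_lit 368) (nat_lit 333) (nat_lit 3404) (.d (nat_lit 400) (nat_lit 399) (nat_lit 364) (nat_lit 401) (nat_lit 365)))) (.f (nat_lit 332) (nat_lit 331) (nat_lit 3403) (.f (nat_lit 368) (nat_lit 333) (nat_lit 3404) (.d (nat_lit 336) (nat_lit 335) (nat_lit 2380) (nat_lit 337) (nat_lit 2381))))))) (.a s79385 (.a (.p (nat_lit 335) (.a (.f (nat_lit 399) (nat_lit 431) (nat_lit 5454) (.d (nat_lit 364) (nat_lit 336) (nat_lit 2380) (nat_lit 400) (nat_lit 364))) (.a (.f (nat_lit 399) (nat_lit 431) (nat_lit 5454) (.f (nat_lit 400) (nat_lit 364) (nat_lit 364) (.d (nat_lit 401) (nat_lit 368) (nat_lit 365) (nat_lit 402) (nat_lit 3438)))) (.a (.f (nat_lit 431) (nat_lit 399) (nat_lit 5454) (.f (nat_lit 432) (nat_lit 465) (nat_lit 429) (.d (nat_lit 461) (nat_lit 433) (nat_lit 1453) (nat_lit 460) (nat_lit 1452)))) (.f (nat_lit 336) (nat_lit 364) (nat_lit 2380) (.d (nat_lit 337) (nat_lit 334) (nat_lit 1357) (nat_lit 338) (nat_lit 1358))))))) (.a (.p (nat_lit 368) (.a (.f (nat_lit 400) (nat_lit 401) (nat_lit 365) (.f (nat_lit 364) (nat_lit 399) (nat_lit 364) (.d (nat_lit 332) (nat_lit 331) (nat_lit 3403) (nat_lit 333) (nat_lit 3404)))) (.a (.f (nat_lit 333) (nat_lit 332) (nat_lit 3404) (.f (nat_lit 369) (nat_lit 334) (nat_lit 3405) (.d (nat_lit 337) (nat_lit 336) (nat_lit 2381) (nat_lit 338) (nat_lit 2382)))) (.f (nat_lit 337) (nat_lit 336) (nat_lit 2381) (.f (nat_lit 369) (nat_lit 338) (nat_lit 2382) (.d (nat_lit 401) (nat_lit 400) (nat_lit 365) (nat_lit 402) (nat_lit 366))))))) (.a (.p (nat_lit 364) (.a (.f (nat_lit 332) (nat_lit 331) (nat_lit 3403) (.f (nat_lit 368) (nat_lit 333) (nat_lit 3404) (.d (nat_lit 400) (nat_lit 399) (nat_lit 364) (nat_lit 401) (nat_lit 365)))) (.a (.f (nat_lit 399) (nat_lit 400) (nat_lit 364) (.f (nat_lit 431) (nat_lit 335) (nat_lit 5454) (.f (nat_lit 432) (nat_lit 465) (nat_lit 429) (.d (nat_lit 461) (nat_lit 433) (nat_lit 1453) (nat_lit 460) (nat_lit 1452))))) (.f (nat_lit 332) (nat_lit 331) (nat_lit 3403) (.f (nat_lit 333) (nat_lit 368) (nat_lit 3404) (.f (nat_lit 395) (nat_lit 396) (nat_lit 1387) (.f (nat_lit 363) (nat_lit 394) (nat_lit 1386) (.d (nat_lit 362) (nat_lit 334) (nat_lit 2378) (nat_lit 361) (nat_lit 2377))))))))) (.a s79406 (.p (nat_lit 335) (.a (.f (nat_lit 431) (nat_lit 399) (nat_lit 5454) (.f (nat_lit 432) (nat_lit 465) (nat_lit 429) (.d (nat_lit 461) (nat_lit 433) (nat_lit 1453) (nat_lit 460) (nat_lit 1452)))) (.f (nat_lit 336) (nat_lit 364) (nat_lit 2380) (.d (nat_lit 337) (nat_lit 334) (nat_lit 1357) (nat_lit 338) (nat_lit 1358)))))))))))))))) (.a (.f (nat_lit 397) (nat_lit 333) (nat_lit 4429) (.p (nat_lit 461) (.a (.f (nat_lit 460) (nat_lit 492) (nat_lit 5484) (.d (nat_lit 431) (nat_lit 432) (nat_lit 1452) (nat_lit 459) (nat_lit 2475))) (.a (.f (nat_lit 364) (nat_lit 332) (nat_lit 7500) (.f (nat_lit 493) (nat_lit 396) (nat_lit 7532) (.d (nat_lit 492) (nat_lit 460) (nat_lit 5484) (nat_lit 524) (nat_lit 5516)))) (.f (nat_lit 364) (nat_lit 332) (nat_lit 7500) (.f (nat_lit 396) (nat_lit 493) (nat_lit 7532) (.f (nat_lit 395) (nat_lit 394) (nat_lit 394) (.d (nat_lit 366) (nat_lit 334) (nat_lit 6477) (nat_lit 367) (nat_lit 1387))))))))) (.a s79469 (.a s79902 (.p (nat_lit 366) (.a (.d (nat_lit 333) (nat_lit 397) (nat_lit 4429) (nat_lit 398) (nat_lit 7501)) (.a s79893 (.a s79896 s79515))))))))))))) (.a (.p (nat_lit 365) (.a s79469 (.a (.p (nat_lit 366) (.a s79465 (.a (.p (nat_lit 367) (.a s79864 (.a s79892 (.a (.f (nat_lit 335) (nat_lit 398) (nat_lit 6478) (.f (nat_lit 364) (nat_lit 336) (nat_lit 2380) (.f (nat_lit 396) (nat_lit 395) (nat_lit 1387) (.f (nat_lit 397) (nat_lit 368) (nat_lit 1388) (.d (nat_lit 332) (nat_lit 300) (nat_lit 4396) (nat_lit 461) (nat_lit 7500)))))) (.a (.f (nat_lit 335) (nat_lit 398) (nat_lit 6478) (.f (nat_lit 364) (nat_lit 336) (nat_lit 2380) (.f (nat_lit 400) (nat_lit 399) (nat_lit 364) (.d (nat_lit 368) (nat_lit 401) (nat_lit 365) (nat_lit 432) (nat_lit 7503))))) (.a (.p (nat_lit 364) (.a (.f (nat_lit 396) (nat_lit 395) (nat_lit 1387) (.f (nat_lit 368) (nat_lit 397) (nat_lit 1388) (.d (nat_lit 400) (nat_lit 399) (nat_lit 364) (nat_lit 401) (nat_lit 365)))) (.a (.f (nat_lit 396) (nat_lit 395) (nat_lit 1387) (.f (nat_lit 332) (nat_lit 331) (nat_lit 3403) (.d (nat_lit 397) (nat_lit 300) (nat_lit 4396) (nat_lit 461) (nat_lit 7500)))) (.a (.f (nat_lit 332) (nat_lit 331) (nat_lit 3403) (.f (nat_lit 397) (nat_lit 461) (nat_lit 7500) (.d (nat_lit 396) (nat_lit 300) (nat_lit 4396) (nat_lit 368) (nat_lit 1388)))) (.f (nat_lit 398) (nat_lit 335) (nat_lit 6478) (.d (nat_lit 399) (nat_lit 363) (nat_lit 363) (nat_lit 400) (nat_lit 364))))))) (.a s79921 (.f (nat_lit 335) (nat_lit 398) (nat_lit 6478) (.f (nat_lit 364) (nat_lit 336) (nat_lit 2380) (.f (nat_lit 395) (nat_lit 396) (nat_lit 1387) (.f (nat_lit 363) (nat_lit 394) (nat_lit 1386) (.d (nat_lit 331) (nat_lit 330) (nat_lit 3402) (nat_lit 332) (nat_lit 3403))))))))))))) (.a s79850 (.a (.p (nat_lit 367) (.a s79864 (.a (.p (nat_lit 364) (.a (.f (nat_lit 335) (nat_lit 336) (nat_lit 2380) (.f (nat_lit 363) (nat_lit 334) (nat_lit 2379) (.d (nat_lit 395) (nat_lit 394) (nat_lit 1386) (nat_lit 396) (nat_lit 1387)))) (.a (.f (nat_lit 396) (nat_lit 395) (nat_lit 1387) (.f (nat_lit 368) (nat_lit 397) (nat_lit 1388) (.d (nat_lit 400) (nat_lit 399) (nat_lit 364) (nat_lit 401) (nat_lit 365)))) (.f (nat_lit 400) (nat_lit 399) (nat_lit 364) (.f (nat_lit 368) (nat_lit 401) (nat_lit 365) (.f (nat_lit 337) (nat_lit 336) (nat_lit 2381) (.d (nat_lit 369) (nat_lit 338) (nat_lit 2382) (nat_lit 432) (nat_lit 6480)))))))) (.a (.p (nat_lit 364) (.a (.f (nat_lit 396) (nat_lit 395) (nat_lit 1387) (.f (nat_lit 368) (nat_lit 397) (nat_lit 1388) (.d (nat_lit 400) (nat_lit 399) (nat_lit 364) (nat_lit 401) (nat_lit 365)))) (.a (.f (nat_lit 396) (nat_lit 395) (nat_lit 1387) (.f (nat_lit 332) (nat_lit 331) (nat_lit 3403) (.d (nat_lit 397) (nat_lit 300) (nat_lit 4396) (nat_lit 461) (nat_lit 7500)))) (.a (.f (nat_lit 332) (nat_lit 331) (nat_lit 3403) (.f (nat_lit 397) (nat_lit 461) (nat_lit 7500) (.d (nat_lit 396) (nat_lit 300) (nat_lit 4396) (nat_lit 368) (nat_lit 1388)))) (.f (nat_lit 400) (nat_lit 399) (nat_lit 364) (.f (nat_lit 368) (nat_lit 401) (nat_lit 365) (.f (nat_lit 335) (nat_lit 432) (nat_lit 7503) (.f (nat_lit 363) (nat_lit 334) (nat_lit 2379) (.d (nat_lit 331) (nat_lit 330) (nat_lit 3402) (nat_lit 332) (nat_lit 3403)))))))))) (.a (.p (nat_lit 368) (.a (.f (nat_lit 337) (nat_lit 336) (nat_lit 2381) (.f (nat_lit 369) (nat_lit 338) (nat_lit 2382) (.d (nat_lit 401) (nat_lit 400) (nat_lit 365) (nat_lit 402) (nat_lit 366)))) (.f (nat_lit 397) (nat_lit 396) (nat_lit 1388) (.f (nat_lit 461) (nat_lit 334) (nat_lit 6477) (.f (nat_lit 492) (nat_lit 460) (nat_lit 5484) (.f (nat_lit 493) (nat_lit 524) (nat_lit 5516) (.f (nat_lit 525) (nat_lit 557) (nat_lit 6573) (.d (nat_lit 526) (nat_lit 527) (nat_lit 3564) (nat_lit 558) (nat_lit 4525))))))))) (.a (.p (nat_lit 364) (.a (.f (nat_lit 335) (nat_lit 336) (nat_lit 2380) (.f (nat_lit 363) (nat_lit 334) (nat_lit 2379) (.d (nat_lit 395) (nat_lit 394) (nat_lit 1386) (nat_lit 396) (nat_lit 1387)))) (.a (.f (nat_lit 396) (nat_lit 395) (nat_lit 1387) (.f (nat_lit 332) (nat_lit 331) (nat_lit 3403) (.d (nat_lit 397) (nat_lit 300) (nat_lit 4396) (nat_lit 461) (nat_lit 7500)))) (.a (.f (nat_lit 332) (nat_lit 331) (nat_lit 3403) (.f (nat_lit 397) (nat_lit 461) (nat_lit 7500) (.d (nat_lit 300) (nat_lit 268) (nat_lit 4364) (nat_lit 396) (nat_lit 4396)))) (.f (nat_lit 335) (nat_lit 336) (nat_lit 2380) (.f (nat_lit 363) (nat_lit 334) (nat_lit 2379) (.d (nat_lit 331) (nat_lit 330) (nat_lit 3402) (nat_lit 332) (nat_lit 3403)))))))) s79949)))))) s79952))))) (.a (.f (nat_lit 397) (nat_lit 333) (nat_lit 4429) (.p (nat_lit 461) (.a (.f (nat_lit 364) (nat_lit 332) (nat_lit 7500) (.f (nat_lit 493) (nat_lit 396) (nat_lit 7532) (.d (nat_lit 492) (nat_lit 460) (nat_lit 5484) (nat_lit 524) (nat_lit 5516)))) (.a (.f (nat_lit 492) (nat_lit 460) (nat_lit 5484) (.f (nat_lit 493) (nat_lit 524) (nat_lit 5516) (.d (nat_lit 398) (nat_lit 366) (nat_lit 5485) (nat_lit 525) (nat_lit 6541)))) (.a (.f (nat_lit 364) (nat_lit 332) (nat_lit 7500) (.f (nat_lit 493) (nat_lit 396) (nat_lit 7532) (.d (nat_lit 525) (nat_lit 398) (nat_lit 6541) (nat_lit 557) (nat_lit 6573)))) (.f (nat_lit 460) (nat_lit 492) (nat_lit 5484) (.f (nat_lit 459) (nat_lit 458) (nat_lit 2474) (.f (nat_lit 427) (nat_lit 426) (nat_lit 3498) (.f (nat_lit 364) (nat_lit 332) (nat_lit 7500) (.f (nat_lit 491) (nat_lit 490) (nat_lit 1482) (.d (nat_lit 396) (nat_lit 395) (nat_lit 6507) (nat_lit 428) (nat_lit 5483)))))))))))) (.a (.f (nat_lit 397) (nat_lit 333) (nat_lit 4429) (.p (nat_lit 461) (.a (.f (nat_lit 364) (nat_lit 332) (nat_lit 7500) (.f (nat_lit 493) (nat_lit 396) (nat_lit 7532) (.d (nat_lit 492) (nat_lit 460) (nat_lit 5484) (nat_lit 524) (nat_lit 5516)))) (.a (.f (nat_lit 492) (nat_lit 460) (nat_lit 5484) (.f (nat_lit 493) (nat_lit 524) (nat_lit 5516) (.d (nat_lit 525) (nat_lit 398) (nat_lit 6541) (nat_lit 557) (nat_lit 6573)))) (.a (.f (nat_lit 364) (nat_lit 332) (nat_lit 7500) (.f (nat_lit 493) (nat_lit 396) (nat_lit 7532) (.d (nat_lit 525) (nat_lit 398) (nat_lit 6541) (nat_lit 557) (nat_lit 6573)))) (.f (nat_lit 460) (nat_lit 492) (nat_lit 5484) (.f (nat_lit 459) (nat_lit 458) (nat_lit 2474) (.f (nat_lit 427) (nat_lit 426) (nat_lit 3498) (.f (nat_lit 364) (nat_lit 332) (nat_lit 7500) (.f (nat_lit 491) (nat_lit 490) (nat_lit 1482) (.d (nat_lit 396) (nat_lit 395) (nat_lit 6507) (nat_lit 428) (nat_lit 5483)))))))))))) (.a (.p (nat_lit 366) (.a (.f (nat_lit 398) (nat_lit 333) (nat_lit 7501) (.d (nat_lit 461) (nat_lit 334) (nat_lit 5453) (nat_lit 493) (nat_lit 5485))) (.a s79850 (.a s79896 (.p (nat_lit 367) (.a s68073 (.a (.p (nat_lit 368) (.a (.f (nat_lit 336) (nat_lit 337) (nat_lit 2381) (.f (nat_lit 335) (nat_lit 364) (nat_lit 2380) (.f (nat_lit 333) (nat_lit 332) (nat_lit 3404) (.f (nat_lit 334) (nat_lit 369) (nat_lit 333) (.f (nat_lit 304) (nat_lit 305) (nat_lit 2349) (.f (nat_lit 400) (nat_lit 401) (nat_lit 365) (.f (nat_lit 271) (nat_lit 303) (nat_lit 4367) (.d (nat_lit 272) (nat_lit 239) (nat_lit 7407) (nat_lit 240) (nat_lit 5359))))))))) (.a (.f (nat_lit 333) (nat_lit 332) (nat_lit 3404) (.f (nat_lit 369) (nat_lit 334) (nat_lit 3405) (.d (nat_lit 337) (nat_lit 336) (nat_lit 2381) (nat_lit 338) (nat_lit 2382)))) (.a (.f (nat_lit 337) (nat_lit 336) (nat_lit 2381) (.f (nat_lit 369) (nat_lit 338) (nat_lit 2382) (.d (nat_lit 401) (nat_lit 400) (nat_lit 365) (nat_lit 402) (nat_lit 366)))) (.a (.f (nat_lit 333) (nat_lit 332) (nat_lit 3404) (.f (nat_lit 369) (nat_lit 334) (nat_lit 3405) (.d (nat_lit 401) (nat_lit 400) (nat_lit 365) (nat_lit 402) (nat_lit 366)))) (.f (nat_lit 400) (nat_lit 401) (nat_lit 365) (.f (nat_lit 336) (nat_lit 337) (nat_lit 2381) (.d (nat_lit 364) (nat_lit 335) (nat_lit 2380) (nat_lit 399) (nat_lit 364))))))))) (.a (.p (nat_lit 364) (.a (.f (nat_lit 335) (nat_lit 336) (nat_lit 2380) (.f (nat_lit 363) (nat_lit 334) (nat_lit 2379) (.d (nat_lit 395) (nat_lit 394) (nat_lit 1386) (nat_lit 396) (nat_lit 1387)))) (.a (.f (nat_lit 400) (nat_lit 399) (nat_lit 364) (.f (nat_lit 368) (nat_lit 401) (nat_lit 365) (.f (nat_lit 337) (nat_lit 336) (nat_lit 2381) (.d (nat_lit 369) (nat_lit 338) (nat_lit 2382) (nat_lit 432) (nat_lit 6480))))) (.f (nat_lit 395) (nat_lit 396) (nat_lit 1387) (.f (nat_lit 363) (nat_lit 394) (nat_lit 1386) (.f (nat_lit 330) (nat_lit 331) (nat_lit 3402) (.f (nat_lit 362) (nat_lit 329) (nat_lit 3401) (.d (nat_lit 334) (nat_lit 333) (nat_lit 2378) (nat_lit 335) (nat_lit 2379))))))))) (.a s79949 (.a (.p (nat_lit 364) (.a (.f (nat_lit 332) (nat_lit 331) (nat_lit 3403) (.f (nat_lit 368) (nat_lit 333) (nat_lit 3404) (.d (nat_lit 336) (nat_lit 335) (nat_lit 2380) (nat_lit 337) (nat_lit 2381)))) (.a (.f (nat_lit 400) (nat_lit 399) (nat_lit 364) (.f (nat_lit 368) (nat_lit 401) (nat_lit 365) (.f (nat_lit 337) (nat_lit 336) (nat_lit 2381) (.d (nat_lit 369) (nat_lit 338) (nat_lit 2382) (nat_lit 432) (nat_lit 6480))))) (.a (.f (nat_lit 332) (nat_lit 331) (nat_lit 3403) (.f (nat_lit 368) (nat_lit 333) (nat_lit 3404) (.d (nat_lit 400) (nat_lit 399) (nat_lit 364) (nat_lit 401) (nat_lit 365)))) (.f (nat_lit 395) (nat_lit 396) (nat_lit 1387) (.f (nat_lit 363) (nat_lit 394) (nat_lit 1386) (.d (nat_lit 331) (nat_lit 330) (nat_lit 3402) (nat_lit 332) (nat_lit 3403)))))))) (.a (.p (nat_lit 368) (.a (.f (nat_lit 400) (nat_lit 401) (nat_lit 365) (.f (nat_lit 364) (nat_lit 399) (nat_lit 364) (.d (nat_lit 332) (nat_lit 331) (nat_lit 3403) (nat_lit 333) (nat_lit 3404)))) (.a (.f (nat_lit 333) (nat_lit 332) (nat_lit 3404) (.f (nat_lit 369) (nat_lit 334) (nat_lit 3405) (.d (nat_lit 337) (nat_lit 336) (nat_lit 2381) (nat_lit 338) (nat_lit 2382)))) (.f (nat_lit 337) (nat_lit 336) (nat_lit 2381) (.f (nat_lit 369) (nat_lit 338) (nat_lit 2382) (.d (nat_lit 401) (nat_lit 400) (nat_lit 365) (nat_lit 402) (nat_lit 366))))))) (.a (.p (nat_lit 364) (.a (.f (nat_lit 332) (nat_lit 331) (nat_lit 3403) (.f (nat_lit 368) (nat_lit 333) (nat_lit 3404) (.d (nat_lit 400) (nat_lit 399) (nat_lit 364) (nat_lit 401) (nat_lit 365)))) (.a (.f (nat_lit 400) (nat_lit 399) (nat_lit 364) (.f (nat_lit 368) (nat_lit 401) (nat_lit 365) (.f (nat_lit 335) (nat_lit 432) (nat_lit 7503) (.f (nat_lit 334) (nat_lit 363) (nat_lit 2379) (.d (nat_lit 333) (nat_lit 332) (nat_lit 3404) (nat_lit 369) (nat_lit 3405)))))) (.a (.f (nat_lit 395) (nat_lit 396) (nat_lit 1387) (.f (nat_lit 363) (nat_lit 394) (nat_lit 1386) (.f (nat_lit 330) (nat_lit 331) (nat_lit 3402) (.f (nat_lit 362) (nat_lit 329) (nat_lit 3401) (.d (nat_lit 334) (nat_lit 333) (nat_lit 2378) (nat_lit 335) (nat_lit 2379)))))) (.f (nat_lit 400) (nat_lit 399) (nat_lit 364) (.f (nat_lit 368) (nat_lit 401) (nat_lit 365) (.f (nat_lit 335) (nat_lit 432) (nat_lit 7503) (.f (nat_lit 363) (nat_lit 334) (nat_lit 2379) (.d (nat_lit 331) (nat_lit 330) (nat_lit 3402) (nat_lit 332) (nat_lit 3403)))))))))) (.a s79994 (.p (nat_lit 364) (.a (.f (nat_lit 335) (nat_lit 336) (nat_lit 2380) (.f (nat_lit 363) (nat_lit 334) (nat_lit 2379) (.d (nat_lit 395) (nat_lit 394) (nat_lit 1386) (nat_lit 396) (nat_lit 1387)))) (.a (.f (nat_lit 395) (nat_lit 396) (nat_lit 1387) (.f (nat_lit 363) (nat_lit 394) (nat_lit 1386) (.d (nat_lit 331) (nat_lit 330) (nat_lit 3402) (nat_lit 332) (nat_lit 3403)))) (.a (.f (nat_lit 332) (nat_lit 331) (nat_lit 3403) (.f (nat_lit 396) (nat_lit 395) (nat_lit 1387) (.f (nat_lit 428) (nat_lit 461) (nat_lit 4428) (.d (nat_lit 333) (nat_lit 301) (nat_lit 6444) (nat_lit 460) (nat_lit 6476))))) (.f (nat_lit 335) (nat_lit 336) (nat_lit 2380) (.f (nat_lit 363) (nat_lit 334) (nat_lit 2379) (.d (nat_lit 331) (nat_lit 330) (nat_lit 3402) (nat_lit 332) (nat_lit 3403))))))))))))))))))))) (.a (.f (nat_lit 397) (nat_lit 333) (nat_lit 4429) (.p (nat_lit 461) (.a (.f (nat_lit 364) (nat_lit 332) (nat_lit 7500) (.f (nat_lit 493) (nat_lit 396) (nat_lit 7532) (.d (nat_lit 492) (nat_lit 460) (nat_lit 5484) (nat_lit 524) (nat_lit 5516)))) (.a (.f (nat_lit 492) (nat_lit 460) (nat_lit 5484) (.f (nat_lit 493) (nat_lit 524) (nat_lit 5516) (.f (nat_lit 525) (nat_lit 557) (nat_lit 6573) (.d (nat_lit 526) (nat_lit 527) (nat_lit 3564) (nat_lit 558) (nat_lit 4525))))) (.a (.f (nat_lit 364) (nat_lit 332) (nat_lit 7500) (.f (nat_lit 396) (nat_lit 493) (nat_lit 7532) (.f (nat_lit 395) (nat_lit 394) (nat_lit 394) (.d (nat_lit 366) (nat_lit 334) (nat_lit 6477) (nat_lit 367) (nat_lit 1387))))) (.f (nat_lit 366) (nat_lit 334) (nat_lit 6477) (.f (nat_lit 364) (nat_lit 332) (nat_lit 7500) (.f (nat_lit 460) (nat_lit 492) (nat_lit 5484) (.f (nat_lit 459) (nat_lit 458) (nat_lit 2474) (.f (nat_lit 491) (nat_lit 490) (nat_lit 1482) (.f (nat_lit 396) (nat_lit 428) (nat_lit 5483) (.d (nat_lit 395) (nat_lit 367) (nat_lit 1387) (nat_lit 394) (nat_lit 2410))))))))))))) (.a s79902 (.p (nat_lit 366) (.a (.d (nat_lit 333) (nat_lit 397) (nat_lit 4429) (nat_lit 398) (nat_lit 7501)) (.a s79952 (.a s79896 (.p (nat_lit 367) (.a s68073 (.a (.f (nat_lit 397) (nat_lit 333) (nat_lit 4429) (.f (nat_lit 396) (nat_lit 368) (nat_lit 1388) (.d (nat_lit 395) (nat_lit 364) (nat_lit 1387) (nat_lit 394) (nat_lit 394)))) (.a (.p (nat_lit 364) (.a (.f (nat_lit 335) (nat_lit 336) (nat_lit 2380) (.f (nat_lit 363) (nat_lit 334) (nat_lit 2379) (.d (nat_lit 395) (nat_lit 394) (nat_lit 1386) (nat_lit 396) (nat_lit 1387)))) (.a (.f (nat_lit 396) (nat_lit 395) (nat_lit 1387) (.f (nat_lit 368) (nat_lit 397) (nat_lit 1388) (.d (nat_lit 400) (nat_lit 399) (nat_lit 364) (nat_lit 401) (nat_lit 365)))) (.f (nat_lit 400) (nat_lit 399) (nat_lit 364) (.f (nat_lit 368) (nat_lit 401) (nat_lit 365) (.f (nat_lit 337) (nat_lit 336) (nat_lit 2381) (.d (nat_lit 369) (nat_lit 338) (nat_lit 2382) (nat_lit 432) (nat_lit 6480)))))))) (.a s79994 (.p (nat_lit 364) (.a (.f (nat_lit 335) (nat_lit 336) (nat_lit 2380) (.f (nat_lit 363) (nat_lit 334) (nat_lit 2379) (.d (nat_lit 395) (nat_lit 394) (nat_lit 1386) (nat_lit 396) (nat_lit 1387)))) (.a (.f (nat_lit 397) (nat_lit 333) (nat_lit 4429) (.f (nat_lit 396) (nat_lit 395) (nat_lit 1387) (.d (nat_lit 332) (nat_lit 300) (nat_lit 4396) (nat_lit 331) (nat_lit 3403)))) (.f (nat_lit 335) (nat_lit 336) (nat_lit 2380) (.f (nat_lit 363) (nat_lit 334) (nat_lit 2379) (.d (nat_lit 331) (nat_lit 330) (nat_lit 3402) (nat_lit 332) (nat_lit 3403)))))))))))))))))))))))) (.a (.p (nat_lit 398) (.a s79146 (.a s80012 (.a s80013 (.a s79217 (.a (.p (nat_lit 399) (.a (.f (nat_lit 428) (nat_lit 427) (nat_lit 2443) (.d (nat_lit 400) (nat_lit 397) (nat_lit 1420) (nat_lit 401) (nat_lit 1421))) (.a (.f (nat_lit 428) (nat_lit 427) (nat_lit 2443) (.d (nat_lit 400) (nat_lit 401) (nat_lit 1421) (nat_lit 431) (nat_lit 2444))) (.a (.p (nat_lit 431) (.a (.f (nat_lit 432) (nat_lit 465) (nat_lit 429) (.d (nat_lit 461) (nat_lit 433) (nat_lit 1453) (nat_lit 460) (nat_lit 1452))) (.a (.f (nat_lit 367) (nat_lit 335) (nat_lit 5454) (.f (nat_lit 428) (nat_lit 427) (nat_lit 2443) (.f (nat_lit 396) (nat_lit 395) (nat_lit 3467) (.f (nat_lit 397) (nat_lit 368) (nat_lit 2412) (.f (nat_lit 364) (nat_lit 363) (nat_lit 3435) (.d (nat_lit 332) (nat_lit 300) (nat_lit 4396) (nat_lit 461) (nat_lit 4428))))))) (.f (nat_lit 432) (nat_lit 465) (nat_lit 429) (.d (nat_lit 397) (nat_lit 396) (nat_lit 396) (nat_lit 433) (nat_lit 3469)))))) (.a (.f (nat_lit 400) (nat_lit 401) (nat_lit 1421) (.d (nat_lit 428) (nat_lit 397) (nat_lit 1420) (nat_lit 431) (nat_lit 2444))) (.p (nat_lit 432) (.a (.f (nat_lit 431) (nat_lit 465) (nat_lit 429) (.d (nat_lit 461) (nat_lit 433) (nat_lit 1453) (nat_lit 460) (nat_lit 1452))) (.a (.f (nat_lit 400) (nat_lit 401) (nat_lit 1421) (.f (nat_lit 397) (nat_lit 433) (nat_lit 397) (.f (nat_lit 368) (nat_lit 369) (nat_lit 2413) (.d (nat_lit 367) (nat_lit 335) (nat_lit 7503) (nat_lit 396) (nat_lit 2412))))) (.f (nat_lit 431) (nat_lit 465) (nat_lit 429) (.f (nat_lit 461) (nat_lit 460) (nat_lit 1452) (.d (nat_lit 366) (nat_lit 334) (nat_lit 5453) (nat_lit 493) (nat_lit 5485)))))))))))) (.a (.p (nat_lit 399) (.a (.f (nat_lit 428) (nat_lit 427) (nat_lit 2443) (.d (nat_lit 400) (nat_lit 397) (nat_lit 1420) (nat_lit 401) (nat_lit 1421))) (.a (.f (nat_lit 428) (nat_lit 427) (nat_lit 2443) (.d (nat_lit 400) (nat_lit 401) (nat_lit 1421) (nat_lit 431) (nat_lit 2444))) (.a (.p (nat_lit 431) (.a (.f (nat_lit 432) (nat_lit 465) (nat_lit 429) (.d (nat_lit 461) (nat_lit 433) (nat_lit 1453) (nat_lit 460) (nat_lit 1452))) (.a (.f (nat_lit 367) (nat_lit 335) (nat_lit 5454) (.f (nat_lit 428) (nat_lit 427) (nat_lit 2443) (.f (nat_lit 396) (nat_lit 395) (nat_lit 3467) (.f (nat_lit 397) (nat_lit 368) (nat_lit 2412) (.f (nat_lit 364) (nat_lit 363) (nat_lit 3435) (.d (nat_lit 332) (nat_lit 300) (nat_lit 4396) (nat_lit 461) (nat_lit 4428))))))) (.f (nat_lit 432) (nat_lit 465) (nat_lit 429) (.d (nat_lit 397) (nat_lit 396) (nat_lit 396) (nat_lit 433) (nat_lit 3469)))))) (.a (.f (nat_lit 400) (nat_lit 401) (nat_lit 1421) (.d (nat_lit 428) (nat_lit 397) (nat_lit 1420) (nat_lit 431) (nat_lit 2444))) (.p (nat_lit 432) (.a (.f (nat_lit 431) (nat_lit 465) (nat_lit 429) (.d (nat_lit 461) (nat_lit 433) (nat_lit 1453) (nat_lit 460) (nat_lit 1452))) (.a (.f (nat_lit 400) (nat_lit 401) (nat_lit 1421) (.f (nat_lit 397) (nat_lit 433) (nat_lit 397) (.d (nat_lit 365) (nat_lit 333) (nat_lit 4429) (nat_lit 364) (nat_lit 3436)))) (.f (nat_lit 431) (nat_lit 465) (nat_lit 429) (.f (nat_lit 400) (nat_lit 401) (nat_lit 1421) (.f (nat_lit 397) (nat_lit 396) (nat_lit 3468) (.d (nat_lit 365) (nat_lit 333) (nat_lit 4429) (nat_lit 364) (nat_lit 3436))))))))))))) (.a (.p (nat_lit 461) (.a (.d (nat_lit 366) (nat_lit 334) (nat_lit 5453) (nat_lit 493) (nat_lit 5485)) (.a (.d (nat_lit 493) (nat_lit 366) (nat_lit 5485) (nat_lit 525) (nat_lit 6541)) (.a (.p (nat_lit 397) (.a (.f (nat_lit 493) (nat_lit 525) (nat_lit 6541) (.f (nat_lit 365) (nat_lit 333) (nat_lit 4429) (.d (nat_lit 492) (nat_lit 460) (nat_lit 5484) (nat_lit 524) (nat_lit 5516)))) (.a (.f (nat_lit 493) (nat_lit 525) (nat_lit 6541) (.f (nat_lit 396) (nat_lit 364) (nat_lit 7532) (.d (nat_lit 395) (nat_lit 394) (nat_lit 394) (nat_lit 431) (nat_lit 395)))) (.f (nat_lit 365) (nat_lit 333) (nat_lit 4429) (.f (nat_lit 364) (nat_lit 332) (nat_lit 7500) (.f (nat_lit 399) (nat_lit 400) (nat_lit 3436) (.d (nat_lit 363) (nat_lit 362) (nat_lit 362) (nat_lit 396) (nat_lit 3435)))))))) (.p (nat_lit 399) (.a (.f (nat_lit 400) (nat_lit 401) (nat_lit 1421) (.d (nat_lit 428) (nat_lit 397) (nat_lit 1420) (nat_lit 427) (nat_lit 2443))) (.a (.f (nat_lit 428) (nat_lit 427) (nat_lit 2443) (.d (nat_lit 400) (nat_lit 401) (nat_lit 1421) (nat_lit 431) (nat_lit 2444))) (.a (.f (nat_lit 366) (nat_lit 334) (nat_lit 5453) (.f (nat_lit 365) (nat_lit 333) (nat_lit 7501) (.f (nat_lit 364) (nat_lit 363) (nat_lit 363) (.f (nat_lit 428) (nat_lit 427) (nat_lit 2443) (.d (nat_lit 332) (nat_lit 396) (nat_lit 4428) (nat_lit 397) (nat_lit 7500)))))) (.a (.f (nat_lit 400) (nat_lit 401) (nat_lit 1421) (.d (nat_lit 428) (nat_lit 397) (nat_lit 1420) (nat_lit 431) (nat_lit 2444))) (.f (nat_lit 366) (nat_lit 334) (nat_lit 5453) (.f (nat_lit 365) (nat_lit 333) (nat_lit 7501) (.f (nat_lit 400) (nat_lit 401) (nat_lit 1421) (.d (nat_lit 364) (nat_lit 367) (nat_lit 364) (nat_lit 397) (nat_lit 3436)))))))))))))) (.a (.p (nat_lit 400) (.a (.f (nat_lit 399) (nat_lit 401) (nat_lit 1421) (.d (nat_lit 428) (nat_lit 397) (nat_lit 1420) (nat_lit 427) (nat_lit 2443))) (.a (.f (nat_lit 399) (nat_lit 401) (nat_lit 1421) (.d (nat_lit 428) (nat_lit 427) (nat_lit 2443) (nat_lit 431) (nat_lit 2444))) (.a (.p (nat_lit 366) (.a (.f (nat_lit 365) (nat_lit 333) (nat_lit 7501) (.f (nat_lit 367) (nat_lit 335) (nat_lit 6478) (.f (nat_lit 368) (nat_lit 401) (nat_lit 365) (.d (nat_lit 397) (nat_lit 369) (nat_lit 1389) (nat_lit 396) (nat_lit 1388))))) (.d (nat_lit 461) (nat_lit 334) (nat_lit 5453) (nat_lit 493) (nat_lit 5485)))) (.p (nat_lit 431) (.a (.f (nat_lit 432) (nat_lit 465) (nat_lit 429) (.d (nat_lit 461) (nat_lit 433) (nat_lit 1453) (nat_lit 460) (nat_lit 1452))) (.a (.f (nat_lit 428) (nat_lit 399) (nat_lit 2444) (.f (nat_lit 395) (nat_lit 396) (nat_lit 3467) (.f (nat_lit 427) (nat_lit 394) (nat_lit 3466) (.d (nat_lit 426) (nat_lit 397) (nat_lit 2442) (nat_lit 461) (nat_lit 426))))) (.f (nat_lit 399) (nat_lit 428) (nat_lit 2444) (.f (nat_lit 432) (nat_lit 465) (nat_lit 429) (.d (nat_lit 397) (nat_lit 396) (nat_lit 396) (nat_lit 433) (nat_lit 397))))))))))) (.a (.p (nat_lit 461) (.a (.d (nat_lit 366) (nat_lit 334) (nat_lit 5453) (nat_lit 493) (nat_lit 5485)) (.a (.d (nat_lit 493) (nat_lit 366) (nat_lit 5485) (nat_lit 525) (nat_lit 6541)) (.a (.p (nat_lit 397) (.a (.f (nat_lit 493) (nat_lit 525) (nat_lit 6541) (.f (nat_lit 365) (nat_lit 333) (nat_lit 4429) (.d (nat_lit 492) (nat_lit 460) (nat_lit 5484) (nat_lit 524) (nat_lit 5516)))) (.a (.f (nat_lit 493) (nat_lit 525) (nat_lit 6541) (.f (nat_lit 396) (nat_lit 364) (nat_lit 7532) (.d (nat_lit 395) (nat_lit 394) (nat_lit 394) (nat_lit 431) (nat_lit 395)))) (.f (nat_lit 365) (nat_lit 333) (nat_lit 4429) (.f (nat_lit 364) (nat_lit 332) (nat_lit 7500) (.f (nat_lit 399) (nat_lit 400) (nat_lit 3436) (.d (nat_lit 363) (nat_lit 362) (nat_lit 362) (nat_lit 396) (nat_lit 3435)))))))) (.p (nat_lit 399) (.a (.f (nat_lit 400) (nat_lit 401) (nat_lit 1421) (.d (nat_lit 428) (nat_lit 397) (nat_lit 1420) (nat_lit 427) (nat_lit 2443))) (.a (.f (nat_lit 428) (nat_lit 427) (nat_lit 2443) (.d (nat_lit 400) (nat_lit 401) (nat_lit 1421) (nat_lit 431) (nat_lit 2444))) (.a (.f (nat_lit 366) (nat_lit 334) (nat_lit 5453) (.f (nat_lit 365) (nat_lit 333) (nat_lit 7501) (.f (nat_lit 364) (nat_lit 363) (nat_lit 363) (.f (nat_lit 428) (nat_lit 427) (nat_lit 2443) (.d (nat_lit 332) (nat_lit 396) (nat_lit 4428) (nat_lit 397) (nat_lit 7500)))))) (.a (.f (nat_lit 400) (nat_lit 401) (nat_lit 1421) (.d (nat_lit 428) (nat_lit 397) (nat_lit 1420) (nat_lit 431) (nat_lit 2444))) (.f (nat_lit 366) (nat_lit 334) (nat_lit 5453) (.f (nat_lit 365) (nat_lit 333) (nat_lit 7501) (.f (nat_lit 400) (nat_lit 401) (nat_lit 1421) (.d (nat_lit 364) (nat_lit 363) (nat_lit 363) (nat_lit 397) (nat_lit 3436)))))))))))))) (.a s79154 (.a (.p (nat_lit 396) (.a (.p (nat_lit 366) (.a (.d (nat_lit 461) (nat_lit 334) (nat_lit 5453) (nat_lit 493) (nat_lit 5485)) (.f (nat_lit 365) (nat_lit 333) (nat_lit 7501) (.f (nat_lit 367) (nat_lit 335) (nat_lit 6478) (.d (nat_lit 395) (nat_lit 364) (nat_lit 1387) (nat_lit 397) (nat_lit 2411)))))) (.a (.p (nat_lit 461) (.a (.d (nat_lit 366) (nat_lit 334) (nat_lit 5453) (nat_lit 493) (nat_lit 5485)) (.a (.d (nat_lit 493) (nat_lit 366) (nat_lit 5485) (nat_lit 525) (nat_lit 6541)) (.a (.f (nat_lit 493) (nat_lit 525) (nat_lit 6541) (.f (nat_lit 397) (nat_lit 364) (nat_lit 7532) (.d (nat_lit 395) (nat_lit 394) (nat_lit 394) (nat_lit 431) (nat_lit 395)))) (.f (nat_lit 366) (nat_lit 334) (nat_lit 5453) (.f (nat_lit 367) (nat_lit 335) (nat_lit 6478) (.f (nat_lit 397) (nat_lit 395) (nat_lit 2411) (.d (nat_lit 368) (nat_lit 365) (nat_lit 1388) (nat_lit 369) (nat_lit 1389))))))))) (.a s80099 (.a (.p (nat_lit 366) (.a (.d (nat_lit 461) (nat_lit 334) (nat_lit 5453) (nat_lit 493) (nat_lit 5485)) (.f (nat_lit 365) (nat_lit 333) (nat_lit 7501) (.f (nat_lit 367) (nat_lit 335) (nat_lit 6478) (.d (nat_lit 397) (nat_lit 368) (nat_lit 1388) (nat_lit 395) (nat_lit 2411)))))) (.a (.p (nat_lit 461) (.a (.d (nat_lit 366) (nat_lit 334) (nat_lit 5453) (nat_lit 493) (nat_lit 5485)) (.a (.d (nat_lit 493) (nat_lit 366) (nat_lit 5485) (nat_lit 525) (nat_lit 6541)) (.a (.f (nat_lit 493) (nat_lit 525) (nat_lit 6541) (.f (nat_lit 397) (nat_lit 364) (nat_lit 7532) (.d (nat_lit 395) (nat_lit 394) (nat_lit 394) (nat_lit 431) (nat_lit 395)))) (.f (nat_lit 366) (nat_lit 334) (nat_lit 5453) (.f (nat_lit 367) (nat_lit 335) (nat_lit 6478) (.f (nat_lit 395) (nat_lit 397) (nat_lit 2411) (.f (nat_lit 428) (nat_lit 431) (nat_lit 3467) (.d (nat_lit 394) (nat_lit 393) (nat_lit 393) (nat_lit 427) (nat_lit 3466)))))))))) (.a (.p (nat_lit 431) (.a (.d (nat_lit 432) (nat_lit 397) (nat_lit 3468) (nat_lit 465) (nat_lit 429)) (.a (.f (nat_lit 432) (nat_lit 465) (nat_lit 429) (.d (nat_lit 461) (nat_lit 433) (nat_lit 1453) (nat_lit 460) (nat_lit 1452))) (.d (nat_lit 395) (nat_lit 397) (nat_lit 395) (nat_lit 428) (nat_lit 3467))))) (.a (.p (nat_lit 366) (.a (.d (nat_lit 461) (nat_lit 334) (nat_lit 5453) (nat_lit 493) (nat_lit 5485)) (.a (.f (nat_lit 461) (nat_lit 493) (nat_lit 5485) (.f (nat_lit 365) (nat_lit 333) (nat_lit 7501) (.f (nat_lit 367) (nat_lit 335) (nat_lit 6478) (.f (nat_lit 397) (nat_lit 368) (nat_lit 1388) (.f (nat_lit 364) (nat_lit 332) (nat_lit 7500) (.f (nat_lit 363) (nat_lit 362) (nat_lit 362) (.f (nat_lit 460) (nat_lit 492) (nat_lit 5484) (.d (nat_lit 331) (nat_lit 330) (nat_lit 3402) (nat_lit 428) (nat_lit 7499))))))))) (.f (nat_lit 333) (nat_lit 365) (nat_lit 7501) (.f (nat_lit 334) (nat_lit 301) (nat_lit 7469) (.d (nat_lit 335) (nat_lit 303) (nat_lit 6446) (nat_lit 367) (nat_lit 6478))))))) (.a (.p (nat_lit 366) (.a (.d (nat_lit 461) (nat_lit 334) (nat_lit 5453) (nat_lit 493) (nat_lit 5485)) (.a (.f (nat_lit 461) (nat_lit 493) (nat_lit 5485) (.f (nat_lit 367) (nat_lit 335) (nat_lit 6478) (.f (nat_lit 365) (nat_lit 333) (nat_lit 7501) (.f (nat_lit 364) (nat_lit 395) (nat_lit 1387) (.d (nat_lit 332) (nat_lit 331) (nat_lit 3403) (nat_lit 428) (nat_lit 4428)))))) (.f (nat_lit 333) (nat_lit 365) (nat_lit 7501) (.f (nat_lit 334) (nat_lit 301) (nat_lit 7469) (.d (nat_lit 335) (nat_lit 303) (nat_lit 6446) (nat_lit 367) (nat_lit 6478))))))) (.p (nat_lit 395) (.a (.d (nat_lit 431) (nat_lit 397) (nat_lit 395) (nat_lit 428) (nat_lit 3467)) (.a (.f (nat_lit 428) (nat_lit 431) (nat_lit 3467) (.d (nat_lit 394) (nat_lit 393) (nat_lit 393) (nat_lit 427) (nat_lit 3466))) (.a (.d (nat_lit 397) (nat_lit 394) (nat_lit 394) (nat_lit 431) (nat_lit 395)) (.f (nat_lit 397) (nat_lit 394) (nat_lit 394) (.f (nat_lit 366) (nat_lit 367) (nat_lit 2411) (.f (nat_lit 333) (nat_lit 365) (nat_lit 4429) (.d (nat_lit 334) (nat_lit 301) (nat_lit 7469) (nat_lit 302) (nat_lit 5421)))))))))))))))))) s79172)))))))))))) (.a (.p (nat_lit 398) (.a s79146 (.a s80012 (.a s80013 (.a s79217 (.a (.p (nat_lit 399) (.a (.f (nat_lit 428) (nat_lit 427) (nat_lit 2443) (.d (nat_lit 400) (nat_lit 397) (nat_lit 1420) (nat_lit 401) (nat_lit 1421))) (.a (.f (nat_lit 428) (nat_lit 427) (nat_lit 2443) (.d (nat_lit 400) (nat_lit 401) (nat_lit 1421) (nat_lit 431) (nat_lit 2444))) (.a s80142 (.a (.f (nat_lit 400) (nat_lit 401) (nat_lit 1421) (.d (nat_lit 428) (nat_lit 397) (nat_lit 1420) (nat_lit 431) (nat_lit 2444))) (.p (nat_lit 432) (.a (.f (nat_lit 400) (nat_lit 401) (nat_lit 1421) (.f (nat_lit 397) (nat_lit 433) (nat_lit 397) (.f (nat_lit 368) (nat_lit 369) (nat_lit 2413) (.d (nat_lit 367) (nat_lit 335) (nat_lit 7503) (nat_lit 396) (nat_lit 2412))))) (.a (.f (nat_lit 431) (nat_lit 465) (nat_lit 429) (.d (nat_lit 433) (nat_lit 397) (nat_lit 3469) (nat_lit 461) (nat_lit 1453))) (.a (.f (nat_lit 431) (nat_lit 465) (nat_lit 429) (.d (nat_lit 433) (nat_lit 434) (nat_lit 3470) (nat_lit 461) (nat_lit 1453))) (.f (nat_lit 431) (nat_lit 465) (nat_lit 429) (.f (nat_lit 400) (nat_lit 401) (nat_lit 1421) (.f (nat_lit 367) (nat_lit 335) (nat_lit 5454) (.f (nat_lit 397) (nat_lit 396) (nat_lit 3468) (.f (nat_lit 368) (nat_lit 369) (nat_lit 2413) (.f (nat_lit 336) (nat_lit 304) (nat_lit 5423) (.f (nat_lit 365) (nat_lit 364) (nat_lit 3436) (.d (nat_lit 337) (nat_lit 305) (nat_lit 6448) (nat_lit 366) (nat_lit 2381)))))))))))))))))) (.a (.p (nat_lit 366) (.a (.d (nat_lit 461) (nat_lit 334) (nat_lit 5453) (nat_lit 493) (nat_lit 5485)) (.a (.p (nat_lit 399) (.a (.f (nat_lit 400) (nat_lit 401) (nat_lit 1421) (.d (nat_lit 428) (nat_lit 397) (nat_lit 1420) (nat_lit 427) (nat_lit 2443))) (.a (.f (nat_lit 400) (nat_lit 401) (nat_lit 1421) (.d (nat_lit 428) (nat_lit 427) (nat_lit 2443) (nat_lit 431) (nat_lit 2444))) (.a (.f (nat_lit 461) (nat_lit 493) (nat_lit 5485) (.f (nat_lit 428) (nat_lit 427) (nat_lit 2443) (.f (nat_lit 365) (nat_lit 333) (nat_lit 7501) (.f (nat_lit 364) (nat_lit 363) (nat_lit 363) (.d (nat_lit 332) (nat_lit 396) (nat_lit 4428) (nat_lit 397) (nat_lit 7500)))))) (.a (.f (nat_lit 400) (nat_lit 401) (nat_lit 1421) (.d (nat_lit 428) (nat_lit 397) (nat_lit 1420) (nat_lit 431) (nat_lit 2444))) (.f (nat_lit 365) (nat_lit 333) (nat_lit 7501) (.f (nat_lit 400) (nat_lit 401) (nat_lit 3437) (.d (nat_lit 364) (nat_lit 367) (nat_lit 364) (nat_lit 397) (nat_lit 3436))))))))) (.f (nat_lit 333) (nat_lit 365) (nat_lit 7501) (.f (nat_lit 334) (nat_lit 301) (nat_lit 7469) (.f (nat_lit 302) (nat_lit 397) (nat_lit 5421) (.f (nat_lit 399) (nat_lit 431) (nat_lit 4398) (.f (nat_lit 270) (nat_lit 367) (nat_lit 4366) (.d (nat_lit 271) (nat_lit 239) (nat_lit 6382) (nat_lit 303) (nat_lit 6414)))))))))) (.a (.p (nat_lit 400) (.a (.f (nat_lit 399) (nat_lit 401) (nat_lit 1421) (.d (nat_lit 428) (nat_lit 397) (nat_lit 1420) (nat_lit 427) (nat_lit 2443))) (.a (.f (nat_lit 399) (nat_lit 401) (nat_lit 1421) (.d (nat_lit 428) (nat_lit 427) (nat_lit 2443) (nat_lit 431) (nat_lit 2444))) (.a (.p (nat_lit 366) (.a (.f (nat_lit 365) (nat_lit 333) (nat_lit 7501) (.f (nat_lit 367) (nat_lit 335) (nat_lit 6478) (.f (nat_lit 368) (nat_lit 401) (nat_lit 365) (.d (nat_lit 397) (nat_lit 369) (nat_lit 1389) (nat_lit 396) (nat_lit 1388))))) (.d (nat_lit 461) (nat_lit 334) (nat_lit 5453) (nat_lit 493) (nat_lit 5485)))) (.p (nat_lit 431) (.a (.f (nat_lit 428) (nat_lit 399) (nat_lit 2444) (.f (nat_lit 395) (nat_lit 396) (nat_lit 3467) (.f (nat_lit 427) (nat_lit 394) (nat_lit 3466) (.d (nat_lit 426) (nat_lit 397) (nat_lit 2442) (nat_lit 461) (nat_lit 426))))) (.a (.f (nat_lit 399) (nat_lit 428) (nat_lit 2444) (.f (nat_lit 432) (nat_lit 465) (nat_lit 429) (.d (nat_lit 397) (nat_lit 396) (nat_lit 396) (nat_lit 433) (nat_lit 397)))) (.a (.f (nat_lit 399) (nat_lit 428) (nat_lit 2444) (.f (nat_lit 432) (nat_lit 465) (nat_lit 429) (.d (nat_lit 433) (nat_lit 397) (nat_lit 397) (nat_lit 461) (nat_lit 1453)))) (.a (.f (nat_lit 399) (nat_lit 428) (nat_lit 2444) (.f (nat_lit 432) (nat_lit 465) (nat_lit 429) (.d (nat_lit 433) (nat_lit 434) (nat_lit 3470) (nat_lit 461) (nat_lit 1453)))) (.f (nat_lit 432) (nat_lit 465) (nat_lit 429) (.d (nat_lit 433) (nat_lit 397) (nat_lit 3469) (nat_lit 461) (nat_lit 1453)))))))))))) (.a (.p (nat_lit 399) (.a (.f (nat_lit 428) (nat_lit 427) (nat_lit 2443) (.d (nat_lit 400) (nat_lit 397) (nat_lit 1420) (nat_lit 401) (nat_lit 1421))) (.a (.f (nat_lit 428) (nat_lit 427) (nat_lit 2443) (.d (nat_lit 400) (nat_lit 401) (nat_lit 1421) (nat_lit 431) (nat_lit 2444))) (.a s80142 (.a (.f (nat_lit 400) (nat_lit 401) (nat_lit 1421) (.d (nat_lit 428) (nat_lit 397) (nat_lit 1420) (nat_lit 431) (nat_lit 2444))) (.p (nat_lit 432) (.a (.f (nat_lit 400) (nat_lit 401) (nat_lit 1421) (.f (nat_lit 397) (nat_lit 433) (nat_lit 397) (.f (nat_lit 368) (nat_lit 369) (nat_lit 2413) (.d (nat_lit 367) (nat_lit 335) (nat_lit 7503) (nat_lit 396) (nat_lit 2412))))) (.a (.f (nat_lit 431) (nat_lit 465) (nat_lit 429) (.d (nat_lit 433) (nat_lit 397) (nat_lit 3469) (nat_lit 461) (nat_lit 1453))) (.a (.f (nat_lit 431) (nat_lit 465) (nat_lit 429) (.d (nat_lit 433) (nat_lit 434) (nat_lit 3470) (nat_lit 461) (nat_lit 1453))) (.f (nat_lit 431) (nat_lit 465) (nat_lit 429) (.f (nat_lit 335) (nat_lit 367) (nat_lit 4431) (.f (nat_lit 400) (nat_lit 401) (nat_lit 1421) (.f (nat_lit 397) (nat_lit 396) (nat_lit 3468) (.f (nat_lit 368) (nat_lit 369) (nat_lit 2413) (.d (nat_lit 336) (nat_lit 303) (nat_lit 7471) (nat_lit 304) (nat_lit 5423)))))))))))))))) (.a (.p (nat_lit 366) (.a (.d (nat_lit 461) (nat_lit 334) (nat_lit 5453) (nat_lit 493) (nat_lit 5485)) (.a (.p (nat_lit 399) (.a (.f (nat_lit 400) (nat_lit 401) (nat_lit 1421) (.d (nat_lit 428) (nat_lit 397) (nat_lit 1420) (nat_lit 427) (nat_lit 2443))) (.a (.f (nat_lit 400) (nat_lit 401) (nat_lit 1421) (.d (nat_lit 428) (nat_lit 427) (nat_lit 2443) (nat_lit 431) (nat_lit 2444))) (.a (.f (nat_lit 461) (nat_lit 493) (nat_lit 5485) (.f (nat_lit 428) (nat_lit 427) (nat_lit 2443) (.f (nat_lit 365) (nat_lit 333) (nat_lit 7501) (.f (nat_lit 364) (nat_lit 363) (nat_lit 363) (.d (nat_lit 332) (nat_lit 396) (nat_lit 4428) (nat_lit 397) (nat_lit 7500)))))) (.a (.f (nat_lit 400) (nat_lit 401) (nat_lit 1421) (.d (nat_lit 428) (nat_lit 397) (nat_lit 1420) (nat_lit 431) (nat_lit 2444))) (.f (nat_lit 365) (nat_lit 333) (nat_lit 7501) (.f (nat_lit 400) (nat_lit 401) (nat_lit 1421) (.d (nat_lit 364) (nat_lit 363) (nat_lit 363) (nat_lit 397) (nat_lit 3436))))))))) (.f (nat_lit 333) (nat_lit 365) (nat_lit 7501) (.f (nat_lit 334) (nat_lit 301) (nat_lit 7469) (.f (nat_lit 302) (nat_lit 397) (nat_lit 5421) (.d (nat_lit 303) (nat_lit 271) (nat_lit 6414) (nat_lit 335) (nat_lit 6446)))))))) (.a s79154 (.a (.p (nat_lit 396) (.a (.p (nat_lit 366) (.a (.d (nat_lit 461) (nat_lit 334) (nat_lit 5453) (nat_lit 493) (nat_lit 5485)) (.f (nat_lit 365) (nat_lit 333) (nat_lit 7501) (.f (nat_lit 367) (nat_lit 335) (nat_lit 6478) (.d (nat_lit 395) (nat_lit 364) (nat_lit 1387) (nat_lit 397) (nat_lit 2411)))))) (.a (.p (nat_lit 461) (.a (.d (nat_lit 366) (nat_lit 334) (nat_lit 5453) (nat_lit 493) (nat_lit 5485)) (.a (.d (nat_lit 493) (nat_lit 366) (nat_lit 5485) (nat_lit 525) (nat_lit 6541)) (.a (.f (nat_lit 493) (nat_lit 525) (nat_lit 6541) (.f (nat_lit 397) (nat_lit 364) (nat_lit 7532) (.d (nat_lit 395) (nat_lit 394) (nat_lit 394) (nat_lit 431) (nat_lit 395)))) (.f (nat_lit 366) (nat_lit 334) (nat_lit 5453) (.f (nat_lit 367) (nat_lit 335) (nat_lit 6478) (.f (nat_lit 397) (nat_lit 395) (nat_lit 2411) (.d (nat_lit 368) (nat_lit 365) (nat_lit 1388) (nat_lit 369) (nat_lit 1389))))))))) (.a s80099 (.a (.p (nat_lit 366) (.a (.d (nat_lit 461) (nat_lit 334) (nat_lit 5453) (nat_lit 493) (nat_lit 5485)) (.f (nat_lit 365) (nat_lit 333) (nat_lit 7501) (.f (nat_lit 367) (nat_lit 335) (nat_lit 6478) (.d (nat_lit 397) (nat_lit 368) (nat_lit 1388) (nat_lit 395) (nat_lit 2411)))))) (.a (.p (nat_lit 461) (.a (.d (nat_lit 366) (nat_lit 334) (nat_lit 5453) (nat_lit 493) (nat_lit 5485)) (.a (.d (nat_lit 493) (nat_lit 366) (nat_lit 5485) (nat_lit 525) (nat_lit 6541)) (.a (.f (nat_lit 493) (nat_lit 525) (nat_lit 6541) (.f (nat_lit 397) (nat_lit 364) (nat_lit 7532) (.d (nat_lit 395) (nat_lit 394) (nat_lit 394) (nat_lit 431) (nat_lit 395)))) (.f (nat_lit 366) (nat_lit 334) (nat_lit 5453) (.f (nat_lit 367) (nat_lit 335) (nat_lit 6478) (.f (nat_lit 395) (nat_lit 397) (nat_lit 2411) (.f (nat_lit 428) (nat_lit 431) (nat_lit 3467) (.d (nat_lit 394) (nat_lit 393) (nat_lit 393) (nat_lit 427) (nat_lit 3466)))))))))) (.a (.p (nat_lit 395) (.a (.d (nat_lit 431) (nat_lit 397) (nat_lit 395) (nat_lit 428) (nat_lit 3467)) (.a (.f (nat_lit 428) (nat_lit 431) (nat_lit 3467) (.d (nat_lit 394) (nat_lit 393) (nat_lit 393) (nat_lit 427) (nat_lit 3466))) (.a (.d (nat_lit 397) (nat_lit 394) (nat_lit 394) (nat_lit 431) (nat_lit 395)) (.f (nat_lit 394) (nat_lit 397) (nat_lit 394) (.d (nat_lit 428) (nat_lit 393) (nat_lit 393) (nat_lit 427) (nat_lit 3466))))))) (.a (.p (nat_lit 366) (.a (.d (nat_lit 461) (nat_lit 334) (nat_lit 5453) (nat_lit 493) (nat_lit 5485)) (.f (nat_lit 365) (nat_lit 333) (nat_lit 7501) (.f (nat_lit 367) (nat_lit 335) (nat_lit 6478) (.f (nat_lit 368) (nat_lit 397) (nat_lit 1388) (.f (nat_lit 401) (nat_lit 400) (nat_lit 365) (.f (nat_lit 369) (nat_lit 402) (nat_lit 366) (.d (nat_lit 337) (nat_lit 336) (nat_lit 2381) (nat_lit 338) (nat_lit 2382))))))))) (.p (nat_lit 366) (.a (.d (nat_lit 461) (nat_lit 334) (nat_lit 5453) (nat_lit 493) (nat_lit 5485)) (.a (.f (nat_lit 461) (nat_lit 493) (nat_lit 5485) (.f (nat_lit 367) (nat_lit 335) (nat_lit 6478) (.f (nat_lit 365) (nat_lit 333) (nat_lit 7501) (.f (nat_lit 364) (nat_lit 395) (nat_lit 1387) (.d (nat_lit 332) (nat_lit 331) (nat_lit 3403) (nat_lit 428) (nat_lit 4428)))))) (.f (nat_lit 333) (nat_lit 365) (nat_lit 7501) (.f (nat_lit 334) (nat_lit 301) (nat_lit 7469) (.d (nat_lit 335) (nat_lit 303) (nat_lit 6446) (nat_lit 367) (nat_lit 6478))))))))))))))) s79172)))))))))))) (.a (.p (nat_lit 431) (.a (.f (nat_lit 432) (nat_lit 465) (nat_lit 429) (.f (nat_lit 400) (nat_lit 401) (nat_lit 2445) (.f (nat_lit 428) (nat_lit 399) (nat_lit 2444) (.d (nat_lit 396) (nat_lit 395) (nat_lit 3467) (nat_lit 397) (nat_lit 3468))))) (.a (.f (nat_lit 432) (nat_lit 465) (nat_lit 429) (.f (nat_lit 397) (nat_lit 396) (nat_lit 3468) (.f (nat_lit 433) (nat_lit 398) (nat_lit 3469) (.d (nat_lit 401) (nat_lit 400) (nat_lit 2445) (nat_lit 402) (nat_lit 2446))))) (.a (.f (nat_lit 432) (nat_lit 465) (nat_lit 429) (.p (nat_lit 433) (.a (.d (nat_lit 401) (nat_lit 400) (nat_lit 2445) (nat_lit 402) (nat_lit 2446)) (.a (.f (nat_lit 398) (nat_lit 397) (nat_lit 3469) (.f (nat_lit 434) (nat_lit 399) (nat_lit 3470) (.d (nat_lit 402) (nat_lit 401) (nat_lit 2446) (nat_lit 403) (nat_lit 2447)))) (.f (nat_lit 398) (nat_lit 397) (nat_lit 3469) (.f (nat_lit 399) (nat_lit 434) (nat_lit 3470) (.d (nat_lit 428) (nat_lit 400) (nat_lit 2444) (nat_lit 427) (nat_lit 2443)))))))) (.a (.f (nat_lit 432) (nat_lit 465) (nat_lit 429) (.f (nat_lit 400) (nat_lit 401) (nat_lit 2445) (.f (nat_lit 428) (nat_lit 399) (nat_lit 2444) (.f (nat_lit 459) (nat_lit 460) (nat_lit 1451) (.f (nat_lit 427) (nat_lit 458) (nat_lit 1450) (.d (nat_lit 395) (nat_lit 394) (nat_lit 3466) (nat_lit 396) (nat_lit 3467))))))) (.a s79597 (.p (nat_lit 428) (.a (.f (nat_lit 399) (nat_lit 400) (nat_lit 2444) (.f (nat_lit 427) (nat_lit 398) (nat_lit 2443) (.d (nat_lit 459) (nat_lit 458) (nat_lit 1450) (nat_lit 460) (nat_lit 1451)))) (.a (.f (nat_lit 459) (nat_lit 460) (nat_lit 1451) (.f (nat_lit 427) (nat_lit 458) (nat_lit 1450) (.d (nat_lit 395) (nat_lit 394) (nat_lit 3466) (nat_lit 396) (nat_lit 3467)))) (.a (.p (nat_lit 365) (.a (.f (nat_lit 397) (nat_lit 333) (nat_lit 4429) (.f (nat_lit 396) (nat_lit 395) (nat_lit 3467) (.d (nat_lit 460) (nat_lit 459) (nat_lit 1451) (nat_lit 492) (nat_lit 6508)))) (.a (.f (nat_lit 396) (nat_lit 395) (nat_lit 3467) (.f (nat_lit 460) (nat_lit 459) (nat_lit 1451) (.f (nat_lit 492) (nat_lit 397) (nat_lit 6508) (.f (nat_lit 525) (nat_lit 493) (nat_lit 4492) (.f (nat_lit 524) (nat_lit 557) (nat_lit 4524) (.d (nat_lit 523) (nat_lit 491) (nat_lit 5515) (nat_lit 555) (nat_lit 5547))))))) (.a (.f (nat_lit 333) (nat_lit 397) (nat_lit 4429) (.f (nat_lit 399) (nat_lit 400) (nat_lit 2444) (.f (nat_lit 366) (nat_lit 398) (nat_lit 7501) (.f (nat_lit 367) (nat_lit 335) (nat_lit 5454) (.f (nat_lit 332) (nat_lit 368) (nat_lit 3404) (.d (nat_lit 331) (nat_lit 330) (nat_lit 330) (nat_lit 364) (nat_lit 3403))))))) (.f (nat_lit 399) (nat_lit 400) (nat_lit 2444) (.f (nat_lit 396) (nat_lit 395) (nat_lit 3467) (.f (nat_lit 460) (nat_lit 459) (nat_lit 1451) (.f (nat_lit 364) (nat_lit 333) (nat_lit 6476) (.f (nat_lit 363) (nat_lit 331) (nat_lit 7499) (.f (nat_lit 335) (nat_lit 367) (nat_lit 5454) (.d (nat_lit 366) (nat_lit 334) (nat_lit 2379) (nat_lit 398) (nat_lit 363)))))))))))) (.f (nat_lit 399) (nat_lit 400) (nat_lit 2444) (.f (nat_lit 427) (nat_lit 398) (nat_lit 2443) (.d (nat_lit 395) (nat_lit 394) (nat_lit 3466) (nat_lit 396) (nat_lit 3467)))))))))))))) s78898)))))))))))))))))))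
noncomputable def s80226 : Cert := .r (nat_lit 3773962425700235452738272624565494821496408338395495130465834865433922848931840665103244619989602157487206402093680131160895830454175623782927915624577705595150396293120) (.p (nat_lit 366) (.a (.f (nat_lit 367) (nat_lit 335) (nat_lit 6478) (.f (nat_lit 365) (nat_lit 333) (nat_lit 7501) (.d (nat_lit 494) (nat_lit 397) (nat_lit 7533) (nat_lit 399) (nat_lit 6510)))) (.a (.f (nat_lit 367) (nat_lit 335) (nat_lit 6478) (.f (nat_lit 399) (nat_lit 494) (nat_lit 6510) (.f (nat_lit 461) (nat_lit 493) (nat_lit 5485) (.f (nat_lit 429) (nat_lit 334) (nat_lit 5453) (.f (nat_lit 400) (nat_lit 401) (nat_lit 1421) (.d (nat_lit 428) (nat_lit 397) (nat_lit 1420) (nat_lit 427) (nat_lit 2443))))))) (.a (.f (nat_lit 365) (nat_lit 333) (nat_lit 7501) (.f (nat_lit 397) (nat_lit 494) (nat_lit 7533) (.f (nat_lit 461) (nat_lit 493) (nat_lit 5485) (.f (nat_lit 429) (nat_lit 334) (nat_lit 5453) (.f (nat_lit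 364) (nat_lit 332) (nat_lit 7500) (.d (nat_lit 363) (nat_lit 362) (nat_lit 362) (nat_lit 399) (nat_lit 363))))))) (.a (.f (nat_lit 365) (nat_lit 333) (nat_lit 7501) (.f (nat_lit 367) (nat_lit 335) (nat_lit 6478) (.f (nat_lit 399) (nat_lit 494) (nat_lit 6510) (.d (nat_lit 364) (nat_lit 363) (nat_lit 363) (nat_lit 400) (nat_lit 364))))) (.f (nat_lit 461) (nat_lit 493) (nat_lit 5485) (.f (nat_lit 334) (nat_lit 429) (nat_lit 5453) (.d (nat_lit 333) (nat_lit 301) (nat_lit 7469) (nat_lit 365) (nat_lit 7501)))))))))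
noncomputable def s80327 : Cert := .r (nat_lit 3773962425700235452738272624565494821496408338395495130465834865433922848931840665103244619989602157487206402093680131160895830454175623782927915624577705595150396293120) (.p (nat_lit 367) (.a (.f (nat_lit 399) (nat_lit 494) (nat_lit 6510) (.d (nat_lit 335) (nat_lit 366) (nat_lit 6478) (nat_lit 431) (nat_lit 5454))) (.a (.p (nat_lit 397) (.a (.d (nat_lit 494) (nat_lit 365) (nat_lit 7533) (nat_lit 399) (nat_lit 6510)) (.a (.f (nat_lit 399) (nat_lit 494) (nat_lit 6510) (.f (nat_lit 396) (nat_lit 368) (nat_lit 2412) (.d (nat_lit 395) (nat_lit 366) (nat_lit 2411) (nat_lit 431) (nat_lit 395)))) (.a (.f (nat_lit 365) (nat_lit 494) (nat_lit 7533) (.d (nat_lit 333) (nat_lit 301) (nat_lit 4397) (nat_lit 366) (nat_lit 7501))) (.p (nat_lit 396) (.a (.d (nat_lit 395) (nat_lit 366) (nat_lit 2411) (nat_lit 431) (nat_lit 395)) (.a (.f (nat_lit 399) (nat_lit 368) (nat_lit 2412) (.d (nat_lit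 431) (nat_lit 395) (nat_lit 395) (nat_lit 432) (nat_lit 396))) (.f (nat_lit 399) (nat_lit 368) (nat_lit 2412) (.f (nat_lit 364) (nat_lit 363) (nat_lit 3435) (.f (nat_lit 365) (nat_lit 400) (nat_lit 3436) (.d (nat_lit 333) (nat_lit 301) (nat_lit 4397) (nat_lit 366) (nat_lit 7501)))))))))))) (.a (.f (nat_lit 399) (nat_lit 494) (nat_lit 6510) (.d (nat_lit 335) (nat_lit 303) (nat_lit 5422) (nat_lit 431) (nat_lit 5454))) (.a (.f (nat_lit 366) (nat_lit 335) (nat_lit 6478) (.f (nat_lit 365) (nat_lit 333) (nat_lit 7501) (.f (nat_lit 397) (nat_lit 494) (nat_lit 7533) (.d (nat_lit 396) (nat_lit 368) (nat_lit 1388) (nat_lit 395) (nat_lit 2411))))) (.f (nat_lit 335) (nat_lit 366) (nat_lit 6478) (.d (nat_lit 399) (nat_lit 303) (nat_lit 5422) (nat_lit 431) (nat_lit 5454))))))))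
noncomputable def s80344 : Cert := .r (nat_lit 3773962425700235452738272624565494821496408338395495130465834865433922848931840665103244619989602157487206402093680131160895830454175623782927915624577705595150396293120) (.p (nat_lit 366) (.a (.f (nat_lit 367) (nat_lit 335) (nat_lit 6478) (.f (nat_lit 399) (nat_lit 494) (nat_lit 6510) (.f (nat_lit 461) (nat_lit 493) (nat_lit 5485) (.f (nat_lit 429) (nat_lit 334) (nat_lit 5453) (.f (nat_lit 400) (nat_lit 401) (nat_lit 1421) (.d (nat_lit 428) (nat_lit 397) (nat_lit 1420) (nat_lit 427) (nat_lit 2443))))))) (.a (.f (nat_lit 367) (nat_lit 335) (nat_lit 6478) (.f (nat_lit 493) (nat_lit 461) (nat_lit 5485) (.d (nat_lit 494) (nat_lit 399) (nat_lit 6510) (nat_lit 525) (nat_lit 5517)))) (.a (.f (nat_lit 461) (nat_lit 493) (nat_lit 5485) (.f (nat_lit 334) (nat_lit 429) (nat_lit 5453) (.f (nat_lit 301) (nat_lit 333) (nat_lit 7469) (.f (nat_lit 302) (nat_lit 269) (nat_lit 7437) (.f (nat_lit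 271) (nat_lit 303) (nat_lit 6414) (.f (nat_lit 270) (nat_lit 239) (nat_lit 6382) (.d (nat_lit 399) (nat_lit 367) (nat_lit 4366) (nat_lit 431) (nat_lit 4398)))))))) (.a (.f (nat_lit 461) (nat_lit 493) (nat_lit 5485) (.f (nat_lit 334) (nat_lit 429) (nat_lit 5453) (.f (nat_lit 303) (nat_lit 335) (nat_lit 6446) (.f (nat_lit 302) (nat_lit 271) (nat_lit 6414) (.d (nat_lit 301) (nat_lit 269) (nat_lit 7437) (nat_lit 333) (nat_lit 7469)))))) (.f (nat_lit 335) (nat_lit 367) (nat_lit 6478) (.f (nat_lit 334) (nat_lit 303) (nat_lit 6446) (.f (nat_lit 301) (nat_lit 333) (nat_lit 7469) (.f (nat_lit 302) (nat_lit 269) (nat_lit 7437) (.f (nat_lit 429) (nat_lit 397) (nat_lit 5421) (.f (nat_lit 431) (nat_lit 399) (nat_lit 4398) (.f (nat_lit 432) (nat_lit 465) (nat_lit 429) (.f (nat_lit 401) (nat_lit 400) (nat_lit 2445) (.f (nat_lit 433) (nat_lit 402) (nat_lit 2446) (.d (nat_lit 337) (nat_lit 336) (nat_lit 3373) (nat_lit 369) (nat_lit 5456))))))))))))))))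
noncomputable def s80443 : Cert := .r (nat_lit 3773962425700235452738272624565494821496408338395495130465834865433922848931840665103244619989602157487206402093680131160895830454175623782927915624577705595150396293120) (.p (nat_lit 431) (.a (.p (nat_lit 461) (.a (.f (nat_lit 432) (nat_lit 433) (nat_lit 1453) (.d (nat_lit 460) (nat_lit 429) (nat_lit 1452) (nat_lit 459) (nat_lit 2475))) (.f (nat_lit 493) (nat_lit 366) (nat_lit 5485) (.d (nat_lit 525) (nat_lit 494) (nat_lit 5517) (nat_lit 557) (nat_lit 6573))))) (.a (.p (nat_lit 432) (.a (.f (nat_lit 465) (nat_lit 429) (nat_lit 429) (.d (nat_lit 466) (nat_lit 433) (nat_lit 430) (nat_lit 467) (nat_lit 3503))) (.a (.f (nat_lit 433) (nat_lit 397) (nat_lit 3469) (.f (nat_lit 434) (nat_lit 399) (nat_lit 3470) (.d (nat_lit 402) (nat_lit 401) (nat_lit 2446) (nat_lit 403) (nat_lit 2447)))) (.f (nat_lit 429) (nat_lit 465) (nat_lit 429) (.f (nat_lit 396) (nat_lit 397) (nat_lit 3468)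 (.f (nat_lit 428) (nat_lit 395) (nat_lit 3467) (.f (nat_lit 427) (nat_lit 399) (nat_lit 2443) (.d (nat_lit 459) (nat_lit 458) (nat_lit 1450) (nat_lit 460) (nat_lit 1451))))))))) (.a (.p (nat_lit 397) (.a (.f (nat_lit 432) (nat_lit 433) (nat_lit 3469) (.d (nat_lit 396) (nat_lit 395) (nat_lit 395) (nat_lit 399) (nat_lit 396))) (.f (nat_lit 365) (nat_lit 494) (nat_lit 7533) (.d (nat_lit 333) (nat_lit 301) (nat_lit 4397) (nat_lit 366) (nat_lit 7501))))) (.p (nat_lit 366) (.a (.f (nat_lit 333) (nat_lit 365) (nat_lit 7501) (.f (nat_lit 334) (nat_lit 301) (nat_lit 7469) (.f (nat_lit 303) (nat_lit 335) (nat_lit 6446) (.d (nat_lit 302) (nat_lit 271) (nat_lit 6414) (nat_lit 399) (nat_lit 4398))))) (.a (.f (nat_lit 461) (nat_lit 493) (nat_lit 5485) (.f (nat_lit 334) (nat_lit 429) (nat_lit 5453) (.d (nat_lit 333) (nat_lit 301) (nat_lit 7469) (nat_lit 365) (nat_lit 7501)))) (.a (.f (nat_lit 461) (nat_lit 493) (nat_lit 5485) (.f (nat_lit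 429) (nat_lit 334) (nat_lit 5453) (.f (nat_lit 365) (nat_lit 333) (nat_lit 7501) (.f (nat_lit 397) (nat_lit 494) (nat_lit 4461) (.d (nat_lit 460) (nat_lit 459) (nat_lit 2475) (nat_lit 492) (nat_lit 5484)))))) (.a (.f (nat_lit 461) (nat_lit 493) (nat_lit 5485) (.f (nat_lit 334) (nat_lit 429) (nat_lit 5453) (.f (nat_lit 302) (nat_lit 399) (nat_lit 4398) (.d (nat_lit 303) (nat_lit 271) (nat_lit 6414) (nat_lit 335) (nat_lit 6446))))) (.f (nat_lit 365) (nat_lit 333) (nat_lit 7501) (.f (nat_lit 397) (nat_lit 494) (nat_lit 7533) (.f (nat_lit 461) (nat_lit 493) (nat_lit 5485) (.f (nat_lit 396) (nat_lit 395) (nat_lit 395) (.f (nat_lit 460) (nat_lit 459) (nat_lit 2475) (.d (nat_lit 492) (nat_lit 428) (nat_lit 6508) (nat_lit 429) (nat_lit 5484))))))))))))))))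
noncomputable def s80449 : Cert := .r (nat_lit 3773962425700235452738272624565494821493635668700728753136734724102365785435403475059286376966224372028384115946739343632351645749414072866510489955757326230328235261952) (.p (nat_lit 430) (.a s67871 (.a (.p (nat_lit 494) (.a s67621 (.a (.p (nat_lit 526) (.a (.f (nat_lit 527) (nat_lit 559) (nat_lit 4526) (.d (nat_lit 525) (nat_lit 557) (nat_lit 5549) (nat_lit 561) (nat_lit 525))) (.a (.f (nat_lit 527) (nat_lit 559) (nat_lit 4526) (.f (nat_lit 398) (nat_lit 495) (nat_lit 4494) (.d (nat_lit 399) (nat_lit 367) (nat_lit 6510) (nat_lit 431) (nat_lit 6542)))) (.f (nat_lit 525) (nat_lit 557) (nat_lit 5549) (.f (nat_lit 398) (nat_lit 493) (nat_lit 5517) (.d (nat_lit 399) (nat_lit 367) (nat_lit 6510) (nat_lit 431) (nat_lit 6542))))))) (.a s67848 (.a (.p (nat_lit 526) (.a (.f (nat_lit 527) (nat_lit 559) (nat_lit 4526) (.d (nat_lit 525) (nat_lit 557) (nat_lit 5549) (nat_lit 561) (nat_lit 525))) (.a (.f (nat_lit 527) (nat_lit 559) (nat_lit 4526) (.f (nat_lit 398) (nat_lit 495) (nat_lit 4494) (.d (nat_lit 397) (nat_lit 365) (nat_lit 7533) (nat_lit 429) (nat_lit 7565)))) (.f (nat_lit 557) (nat_lit 525) (nat_lit 5549) (.f (nat_lit 558) (nat_lit 589) (nat_lit 5581) (.d (nat_lit 429) (nat_lit 397) (nat_lit 7565) (nat_lit 461) (nat_lit 7597))))))) (.a (.p (nat_lit 526) (.a (.f (nat_lit 527) (nat_lit 559) (nat_lit 4526) (.f (nat_lit 398) (nat_lit 495) (nat_lit 4494) (.d (nat_lit 397) (nat_lit 365) (nat_lit 7533) (nat_lit 429) (nat_lit 7565)))) (.a (.f (nat_lit 527) (nat_lit 559) (nat_lit 4526) (.f (nat_lit 398) (nat_lit 495) (nat_lit 4494) (.d (nat_lit 399) (nat_lit 367) (nat_lit 6510) (nat_lit 431) (nat_lit 6542)))) (.f (nat_lit 429) (nat_lit 397) (nat_lit 7565) (.f (nat_lit 431) (nat_lit 399) (nat_lit 6542) (.f (nat_lit 461) (nat_lit 558) (nat_lit 7597) (.d (nat_lit 432) (nat_lit 460) (nat_lit 1452) (nat_lit 465) (nat_lit 429)))))))) (.a (.p (nat_lit 398) (.a (.f (nat_lit 493) (nat_lit 525) (nat_lit 5517) (.f (nat_lit 366) (nat_lit 461) (nat_lit 5485) (.d (nat_lit 367) (nat_lit 335) (nat_lit 6478) (nat_lit 399) (nat_lit 6510)))) (.a s67869 (.a s68622 (.a s68651 s68672))))) (.p (nat_lit 398) (.a (.f (nat_lit 397) (nat_lit 365) (nat_lit 7533) (.f (nat_lit 429) (nat_lit 526) (nat_lit 7565) (.f (nat_lit 399) (nat_lit 367) (nat_lit 6510) (.d (nat_lit 428) (nat_lit 400) (nat_lit 1420) (nat_lit 427) (nat_lit 2443))))) (.a (.f (nat_lit 493) (nat_lit 525) (nat_lit 5517) (.f (nat_lit 366) (nat_lit 461) (nat_lit 5485) (.d (nat_lit 367) (nat_lit 335) (nat_lit 6478) (nat_lit 399) (nat_lit 6510)))) (.f (nat_lit 397) (nat_lit 365) (nat_lit 7533) (.f (nat_lit 429) (nat_lit 526) (nat_lit 7565) (.f (nat_lit 493) (nat_lit 525) (nat_lit 5517) (.f (nat_lit 461) (nat_lit 366) (nat_lit 5485) (.f (nat_lit 396) (nat_lit 364) (nat_lit 7532) (.d (nat_lit 395) (nat_lit 394) (nat_lit 394) (nat_lit 431) (nat_lit 395))))))))))))))))) (.a (.p (nat_lit 494) (.a s67621 (.a (.p (nat_lit 526) (.a (.f (nat_lit 527) (nat_lit 559) (nat_lit 4526) (.d (nat_lit 525) (nat_lit 557) (nat_lit 5549) (nat_lit 561) (nat_lit 525))) (.a (.f (nat_lit 527) (nat_lit 559) (nat_lit 4526) (.f (nat_lit 398) (nat_lit 495) (nat_lit 4494) (.d (nat_lit 399) (nat_lit 367) (nat_lit 6510) (nat_lit 431) (nat_lit 6542)))) (.f (nat_lit 525) (nat_lit 557) (nat_lit 5549) (.f (nat_lit 398) (nat_lit 493) (nat_lit 5517) (.d (nat_lit 399) (nat_lit 367) (nat_lit 6510) (nat_lit 431) (nat_lit 6542))))))) (.a s67848 (.a (.p (nat_lit 526) (.a (.f (nat_lit 527) (nat_lit 559) (nat_lit 4526) (.d (nat_lit 525) (nat_lit 557) (nat_lit 5549) (nat_lit 561) (nat_lit 525))) (.a (.f (nat_lit 527) (nat_lit 559) (nat_lit 4526) (.f (nat_lit 398) (nat_lit 495) (nat_lit 4494) (.d (nat_lit 397) (nat_lit 365) (nat_lit 7533) (nat_lit 429) (nat_lit 7565)))) (.f (nat_lit 557) (nat_lit 525) (nat_lit 5549) (.f (nat_lit 558) (nat_lit 589) (nat_lit 5581) (.d (nat_lit 429) (nat_lit 397) (nat_lit 7565) (nat_lit 461) (nat_lit 7597))))))) (.a (.p (nat_lit 526) (.a (.f (nat_lit 527) (nat_lit 559) (nat_lit 4526) (.f (nat_lit 398) (nat_lit 495) (nat_lit 4494) (.d (nat_lit 397) (nat_lit 365) (nat_lit 7533) (nat_lit 429) (nat_lit 7565)))) (.a (.f (nat_lit 527) (nat_lit 559) (nat_lit 4526) (.f (nat_lit 398) (nat_lit 495) (nat_lit 4494) (.d (nat_lit 399) (nat_lit 367) (nat_lit 6510) (nat_lit 431) (nat_lit 6542)))) (.f (nat_lit 429) (nat_lit 397) (nat_lit 7565) (.f (nat_lit 431) (nat_lit 399) (nat_lit 6542) (.f (nat_lit 461) (nat_lit 558) (nat_lit 7597) (.d (nat_lit 432) (nat_lit 460) (nat_lit 1452) (nat_lit 465) (nat_lit 429)))))))) (.a (.p (nat_lit 398) (.a (.f (nat_lit 493) (nat_lit 525) (nat_lit 5517) (.f (nat_lit 365) (nat_lit 397) (nat_lit 7533) (.d (nat_lit 366) (nat_lit 333) (nat_lit 7501) (nat_lit 461) (nat_lit 5485)))) (.a s67869 (.a s68707 (.a s68714 s68672))))) (.p (nat_lit 398) (.a (.f (nat_lit 397) (nat_lit 365) (nat_lit 7533) (.f (nat_lit 429) (nat_lit 526) (nat_lit 7565) (.f (nat_lit 399) (nat_lit 367) (nat_lit 6510) (.d (nat_lit 428) (nat_lit 400) (nat_lit 1420) (nat_lit 427) (nat_lit 2443))))) (.a (.f (nat_lit 493) (nat_lit 525) (nat_lit 5517) (.f (nat_lit 461) (nat_lit 366) (nat_lit 5485) (.f (nat_lit 399) (nat_lit 367) (nat_lit 6510) (.f (nat_lit 526) (nat_lit 431) (nat_lit 6542) (.d (nat_lit 429) (nat_lit 397) (nat_lit 4493) (nat_lit 558) (nat_lit 7597)))))) (.a (.f (nat_lit 493) (nat_lit 525) (nat_lit 5517) (.f (nat_lit 365) (nat_lit 397) (nat_lit 7533) (.d (nat_lit 366) (nat_lit 333) (nat_lit 7501) (nat_lit 461) (nat_lit 5485)))) (.f (nat_lit 493) (nat_lit 525) (nat_lit 5517) (.f (nat_lit 461) (nat_lit 366) (nat_lit 5485) (.f (nat_lit 399) (nat_lit 367) (nat_lit 6510) (.f (nat_lit 431) (nat_lit 526) (nat_lit 6542) (.f (nat_lit 460) (nat_lit 459) (nat_lit 2475) (.d (nat_lit 432) (nat_lit 429) (nat_lit 1452) (nat_lit 433) (nat_lit 1453)))))))))))))))))) (.a (.p (nat_lit 431) (.a s68743 (.a s68748 (.a s68753 (.a s68760 (.a s68766 (.a s68777 (.a s68790 (.a s68795 (.a s68816 (.a (.p (nat_lit 494) (.a (.f (nat_lit 526) (nat_lit 399) (nat_lit 6542) (.f (nat_lit 527) (nat_lit 559) (nat_lit 4526) (.d (nat_lit 525) (nat_lit 557) (nat_lit 5549) (nat_lit 561) (nat_lit 525)))) (.a (.p (nat_lit 525) (.a (.f (nat_lit 526) (nat_lit 557) (nat_lit 5549) (.d (nat_lit 527) (nat_lit 559) (nat_lit 4526) (nat_lit 561) (nat_lit 525))) (.a (.f (nat_lit 493) (nat_lit 398) (nat_lit 5517) (.d (nat_lit 557) (nat_lit 461) (nat_lit 6573) (nat_lit 589) (nat_lit 6605))) (.f (nat_lit 398) (nat_lit 493) (nat_lit 5517) (.f (nat_lit 527) (nat_lit 495) (nat_lit 4494) (.d (nat_lit 526) (nat_lit 559) (nat_lit 4526) (nat_lit 561) (nat_lit 525))))))) (.a (.f (nat_lit 399) (nat_lit 526) (nat_lit 6542) (.d (nat_lit 367) (nat_lit 335) (nat_lit 5454) (nat_lit 398) (nat_lit 6510))) (.p (nat_lit 398) (.a (.f (nat_lit 493) (nat_lit 525) (nat_lit 5517) (.f (nat_lit 461) (nat_lit 366) (nat_lit 5485) (.f (nat_lit 459) (nat_lit 460) (nat_lit 2475) (.f (nat_lit 397) (nat_lit 365) (nat_lit 7533) (.f (nat_lit 396) (nat_lit 395) (nat_lit 395) (.f (nat_lit 429) (nat_lit 364) (nat_lit 7532) (.f (nat_lit 492) (nat_lit 524) (nat_lit 5516) (.d (nat_lit 491) (nat_lit 458) (nat_lit 3530) (nat_lit 490) (nat_lit 2506))))))))) (.a (.f (nat_lit 367) (nat_lit 399) (nat_lit 6510) (.f (nat_lit 366) (nat_lit 335) (nat_lit 6478) (.d (nat_lit 493) (nat_lit 461) (nat_lit 5485) (nat_lit 525) (nat_lit 5517)))) (.f (nat_lit 399) (nat_lit 367) (nat_lit 6510) (.f (nat_lit 397) (nat_lit 365) (nat_lit 7533) (.f (nat_lit 396) (nat_lit 395) (nat_lit 395) (.f (nat_lit 428) (nat_lit 427) (nat_lit 1419) (.f (nat_lit 400) (nat_lit 429) (nat_lit 1420) (.f (nat_lit 401) (nat_lit 402) (nat_lit 1422) (.d (nat_lit 369) (nat_lit 368) (nat_lit 2413) (nat_lit 370) (nat_lit 2414))))))))))))))) (.a s68833 (.p (nat_lit 432) (.a (.f (nat_lit 429) (nat_lit 465) (nat_lit 429) (.d (nat_lit 461) (nat_lit 433) (nat_lit 1453) (nat_lit 460) (nat_lit 1452))) (.a (.f (nat_lit 433) (nat_lit 461) (nat_lit 1453) (.f (nat_lit 398) (nat_lit 397) (nat_lit 3469) (.f (nat_lit 434) (nat_lit 399) (nat_lit 3470) (.d (nat_lit 402) (nat_lit 401) (nat_lit 2446) (nat_lit 403) (nat_lit 2447))))) (.f (nat_lit 429) (nat_lit 465) (nat_lit 429) (.f (nat_lit 400) (nat_lit 401) (nat_lit 2445) (.f (nat_lit 428) (nat_lit 399) (nat_lit 2444) (.d (nat_lit 396) (nat_lit 395) (nat_lit 3467) (nat_lit 397) (nat_lit 3468)))))))))))))))))))) (.a (.p (nat_lit 431) (.a s68743 (.a s68748 (.a s68753 (.a s68760 (.a s68766 (.a s68777 (.a s68790 (.a s68795 (.a s68816 (.a (.p (nat_lit 494) (.a (.f (nat_lit 526) (nat_lit 399) (nat_lit 6542) (.f (nat_lit 527) (nat_lit 559) (nat_lit 4526) (.d (nat_lit 525) (nat_lit 557) (nat_lit 5549) (nat_lit 561) (nat_lit 525)))) (.a (.p (nat_lit 525) (.a (.f (nat_lit 526) (nat_lit 557) (nat_lit 5549) (.d (nat_lit 527) (nat_lit 559) (nat_lit 4526) (nat_lit 561) (nat_lit 525))) (.a (.f (nat_lit 493) (nat_lit 398) (nat_lit 5517) (.d (nat_lit 557) (nat_lit 461) (nat_lit 6573) (nat_lit 589) (nat_lit 6605))) (.f (nat_lit 398) (nat_lit 493) (nat_lit 5517) (.f (nat_lit 527) (nat_lit 495) (nat_lit 4494) (.d (nat_lit 526) (nat_lit 559) (nat_lit 4526) (nat_lit 561) (nat_lit 525))))))) (.a (.f (nat_lit 399) (nat_lit 526) (nat_lit 6542) (.d (nat_lit 367) (nat_lit 335) (nat_lit 5454) (nat_lit 398) (nat_lit 6510))) (.p (nat_lit 398) (.a (.f (nat_lit 367) (nat_lit 399) (nat_lit 6510) (.f (nat_lit 366) (nat_lit 335) (nat_lit 6478) (.d (nat_lit 493) (nat_lit 461) (nat_lit 5485) (nat_lit 525) (nat_lit 5517)))) (.a (.f (nat_lit 493) (nat_lit 525) (nat_lit 5517) (.f (nat_lit 366) (nat_lit 461) (nat_lit 5485) (.d (nat_lit 365) (nat_lit 333) (nat_lit 7501) (nat_lit 397) (nat_lit 7533)))) (.f (nat_lit 399) (nat_lit 367) (nat_lit 6510) (.f (nat_lit 397) (nat_lit 365) (nat_lit 7533) (.f (nat_lit 396) (nat_lit 395) (nat_lit 395) (.f (nat_lit 428) (nat_lit 427) (nat_lit 1419) (.f (nat_lit 400) (nat_lit 429) (nat_lit 1420) (.f (nat_lit 401) (nat_lit 402) (nat_lit 1422) (.d (nat_lit 369) (nat_lit 368) (nat_lit 2413) (nat_lit 370) (nat_lit 2414))))))))))))))) (.a s68833 (.p (nat_lit 432) (.a (.f (nat_lit 429) (nat_lit 465) (nat_lit 429) (.d (nat_lit 461) (nat_lit 433) (nat_lit 1453) (nat_lit 460) (nat_lit 1452))) (.a (.f (nat_lit 433) (nat_lit 461) (nat_lit 1453) (.f (nat_lit 398) (nat_lit 397) (nat_lit 3469) (.f (nat_lit 434) (nat_lit 399) (nat_lit 3470) (.d (nat_lit 402) (nat_lit 401) (nat_lit 2446) (nat_lit 403) (nat_lit 2447))))) (.f (nat_lit 429) (nat_lit 465) (nat_lit 429) (.f (nat_lit 400) (nat_lit 401) (nat_lit 2445) (.f (nat_lit 428) (nat_lit 399) (nat_lit 2444) (.d (nat_lit 396) (nat_lit 395) (nat_lit 3467) (nat_lit 397) (nat_lit 3468)))))))))))))))))))) (.a (.p (nat_lit 494) (.a (.p (nat_lit 526) (.a (.f (nat_lit 527) (nat_lit 559) (nat_lit 4526) (.d (nat_lit 525) (nat_lit 557) (nat_lit 5549) (nat_lit 561) (nat_lit 525))) (.a (.f (nat_lit 527) (nat_lit 559) (nat_lit 4526) (.f (nat_lit 398) (nat_lit 495) (nat_lit 4494) (.d (nat_lit 399) (nat_lit 367) (nat_lit 6510) (nat_lit 431) (nat_lit 6542)))) (.f (nat_lit 525) (nat_lit 557) (nat_lit 5549) (.f (nat_lit 398) (nat_lit 493) (nat_lit 5517) (.d (nat_lit 399) (nat_lit 367) (nat_lit 6510) (nat_lit 431) (nat_lit 6542))))))) (.a s67848 (.a (.p (nat_lit 526) (.a (.f (nat_lit 527) (nat_lit 559) (nat_lit 4526) (.d (nat_lit 525) (nat_lit 557) (nat_lit 5549) (nat_lit 561) (nat_lit 525))) (.a (.f (nat_lit 527) (nat_lit 559) (nat_lit 4526) (.f (nat_lit 398) (nat_lit 495) (nat_lit 4494) (.d (nat_lit 399) (nat_lit 367) (nat_lit 6510) (nat_lit 431) (nat_lit 6542)))) (.f (nat_lit 429) (nat_lit 397) (nat_lit 7565) (.f (nat_lit 431) (nat_lit 399) (nat_lit 6542) (.f (nat_lit 461) (nat_lit 558) (nat_lit 7597) (.d (nat_lit 432) (nat_lit 460) (nat_lit 1452) (nat_lit 465) (nat_lit 429)))))))) (.a s67837 (.a (.p (nat_lit 526) (.a (.f (nat_lit 527) (nat_lit 559) (nat_lit 4526) (.f (nat_lit 398) (nat_lit 495) (nat_lit 4494) (.d (nat_lit 399) (nat_lit 367) (nat_lit 6510) (nat_lit 431) (nat_lit 6542)))) (.a (.f (nat_lit 429) (nat_lit 397) (nat_lit 7565) (.f (nat_lit 431) (nat_lit 399) (nat_lit 6542) (.f (nat_lit 461) (nat_lit 558) (nat_lit 7597) (.d (nat_lit 432) (nat_lit 460) (nat_lit 1452) (nat_lit 465) (nat_lit 429))))) (.f (nat_lit 559) (nat_lit 527) (nat_lit 4526) (.f (nat_lit 558) (nat_lit 591) (nat_lit 4558) (.f (nat_lit 589) (nat_lit 557) (nat_lit 5581) (.d (nat_lit 590) (nat_lit 561) (nat_lit 1581) (nat_lit 621) (nat_lit 5613)))))))) (.a (.p (nat_lit 398) (.a (.f (nat_lit 493) (nat_lit 525) (nat_lit 5517) (.f (nat_lit 366) (nat_lit 461) (nat_lit 5485) (.d (nat_lit 367) (nat_lit 335) (nat_lit 6478) (nat_lit 399) (nat_lit 6510)))) (.a s68707 (.a (.f (nat_lit 399) (nat_lit 367) (nat_lit 6510) (.p (nat_lit 400) (.a (.f (nat_lit 401) (nat_lit 429) (nat_lit 1421) (.f (nat_lit 433) (nat_lit 434) (nat_lit 398) (.f (nat_lit 432) (nat_lit 397) (nat_lit 397) (.d (nat_lit 369) (nat_lit 337) (nat_lit 5456) (nat_lit 370) (nat_lit 2414))))) (.a (.f (nat_lit 401) (nat_lit 429) (nat_lit 1421) (.f (nat_lit 402) (nat_lit 431) (nat_lit 1422) (.d (nat_lit 434) (nat_lit 433) (nat_lit 398) (nat_lit 435) (nat_lit 399)))) (.a (.p (nat_lit 397) (.a (.f (nat_lit 432) (nat_lit 433) (nat_lit 397) (.f (nat_lit 431) (nat_lit 396) (nat_lit 396) (.d (nat_lit 429) (nat_lit 428) (nat_lit 2444) (nat_lit 465) (nat_lit 429)))) (.a (.f (nat_lit 432) (nat_lit 433) (nat_lit 397) (.f (nat_lit 429) (nat_lit 428) (nat_lit 1420) (.f (nat_lit 368) (nat_lit 369) (nat_lit 2413) (.d (nat_lit 465) (nat_lit 431) (nat_lit 429) (nat_lit 497) (nat_lit 4464))))) (.a (.f (nat_lit 432) (nat_lit 433) (nat_lit 397) (.f (nat_lit 431) (nat_lit 396) (nat_lit 396) (.f (nat_lit 368) (nat_lit 369) (nat_lit 2413) (.d (nat_lit 465) (nat_lit 429) (nat_lit 429) (nat_lit 497) (nat_lit 4464))))) (.a (.f (nat_lit 432) (nat_lit 433) (nat_lit 397) (.f (nat_lit 396) (nat_lit 431) (nat_lit 396) (.f (nat_lit 363) (nat_lit 364) (nat_lit 3435) (.f (nat_lit 395) (nat_lit 362) (nat_lit 3434) (.d (nat_lit 427) (nat_lit 426) (nat_lit 1418) (nat_lit 428) (nat_lit 1419)))))) (.f (nat_lit 428) (nat_lit 429) (nat_lit 1420) (.f (nat_lit 396) (nat_lit 427) (nat_lit 1419) (.f (nat_lit 363) (nat_lit 364) (nat_lit 3435) (.f (nat_lit 395) (nat_lit 362) (nat_lit 3434) (.f (nat_lit 493) (nat_lit 525) (nat_lit 5517) (.f (nat_lit 492) (nat_lit 460) (nat_lit 7531) (.f (nat_lit 495) (nat_lit 527) (nat_lit 492) (.f (nat_lit 523) (nat_lit 524) (nat_lit 1515) (.f (nat_lit 491) (nat_lit 522) (nat_lit 1514) (.f (nat_lit 490) (nat_lit 461) (nat_lit 2506) (.d (nat_lit 458) (nat_lit 457) (nat_lit 3529) (nat_lit 459) (nat_lit 3530))))))))))))))))) (.a (.p (nat_lit 401) (.a (.f (nat_lit 433) (nat_lit 434) (nat_lit 398) (.f (nat_lit 432) (nat_lit 397) (nat_lit 397) (.d (nat_lit 431) (nat_lit 402) (nat_lit 1422) (nat_lit 461) (nat_lit 1453)))) (.a (.f (nat_lit 402) (nat_lit 431) (nat_lit 1422) (.d (nat_lit 434) (nat_lit 433) (nat_lit 398) (nat_lit 435) (nat_lit 399))) (.a (.f (nat_lit 433) (nat_lit 434) (nat_lit 398) (.f (nat_lit 432) (nat_lit 397) (nat_lit 397) (.d (nat_lit 369) (nat_lit 337) (nat_lit 5456) (nat_lit 370) (nat_lit 2414)))) (.f (nat_lit 402) (nat_lit 431) (nat_lit 1422) (.d (nat_lit 370) (nat_lit 369) (nat_lit 2414) (nat_lit 371) (nat_lit 2415))))))) (.f (nat_lit 429) (nat_lit 401) (nat_lit 1421) (.d (nat_lit 428) (nat_lit 397) (nat_lit 1420) (nat_lit 427) (nat_lit 2443))))))))) (.a (.f (nat_lit 493) (nat_lit 525) (nat_lit 5517) (.p (nat_lit 492) (.a (.f (nat_lit 495) (nat_lit 527) (nat_lit 492) (.f (nat_lit 461) (nat_lit 366) (nat_lit 5485) (.f (nat_lit 460) (nat_lit 459) (nat_lit 3531) (.f (nat_lit 524) (nat_lit 523) (nat_lit 1515) (.d (nat_lit 429) (nat_lit 397) (nat_lit 5516) (nat_lit 556) (nat_lit 6572)))))) (.a (.f (nat_lit 495) (nat_lit 527) (nat_lit 4494) (.f (nat_lit 459) (nat_lit 460) (nat_lit 3531) (.f (nat_lit 491) (nat_lit 458) (nat_lit 3530) (.d (nat_lit 523) (nat_lit 522) (nat_lit 1514) (nat_lit 524) (nat_lit 1515))))) (.a (.f (nat_lit 495) (nat_lit 527) (nat_lit 492) (.f (nat_lit 461) (nat_lit 366) (nat_lit 5485) (.f (nat_lit 524) (nat_lit 523) (nat_lit 1515) (.f (nat_lit 429) (nat_lit 397) (nat_lit 5516) (.d (nat_lit 556) (nat_lit 460) (nat_lit 6572) (nat_lit 588) (nat_lit 6604)))))) (.a (.f (nat_lit 495) (nat_lit 527) (nat_lit 4494) (.f (nat_lit 461) (nat_lit 366) (nat_lit 5485) (.f (nat_lit 491) (nat_lit 490) (nat_lit 2506) (.d (nat_lit 523) (nat_lit 522) (nat_lit 1514) (nat_lit 524) (nat_lit 1515))))) (.a (.f (nat_lit 461) (nat_lit 366) (nat_lit 5485) (.f (nat_lit 491) (nat_lit 490) (nat_lit 2506) (.f (nat_lit 459) (nat_lit 458) (nat_lit 3530) (.f (nat_lit 460) (nat_lit 431) (nat_lit 2475) (.f (nat_lit 427) (nat_lit 426) (nat_lit 3498) (.d (nat_lit 395) (nat_lit 363) (nat_lit 4459) (nat_lit 524) (nat_lit 4491))))))) (.f (nat_lit 495) (nat_lit 527) (nat_lit 4494) (.f (nat_lit 461) (nat_lit 366) (nat_lit 5485) (.f (nat_lit 459) (nat_lit 460) (nat_lit 3531) (.d (nat_lit 491) (nat_lit 458) (nat_lit 3530) (nat_lit 490) (nat_lit 2506)))))))))))) (.f (nat_lit 399) (nat_lit 367) (nat_lit 6510) (.p (nat_lit 400) (.a (.f (nat_lit 401) (nat_lit 429) (nat_lit 1421) (.f (nat_lit 433) (nat_lit 434) (nat_lit 398) (.f (nat_lit 432) (nat_lit 397) (nat_lit 397) (.d (nat_lit 369) (nat_lit 337) (nat_lit 5456) (nat_lit 370) (nat_lit 2414))))) (.a (.f (nat_lit 401) (nat_lit 429) (nat_lit 1421) (.f (nat_lit 402) (nat_lit 431) (nat_lit 1422) (.d (nat_lit 434) (nat_lit 433) (nat_lit 398) (nat_lit 435) (nat_lit 399)))) (.a (.p (nat_lit 397) (.a (.f (nat_lit 432) (nat_lit 433) (nat_lit 397) (.f (nat_lit 431) (nat_lit 396) (nat_lit 396) (.d (nat_lit 429) (nat_lit 428) (nat_lit 2444) (nat_lit 465) (nat_lit 429)))) (.a (.f (nat_lit 432) (nat_lit 433) (nat_lit 397) (.f (nat_lit 429) (nat_lit 428) (nat_lit 1420) (.f (nat_lit 368) (nat_lit 369) (nat_lit 2413) (.d (nat_lit 465) (nat_lit 431) (nat_lit 429) (nat_lit 497) (nat_lit 4464))))) (.a (.f (nat_lit 432) (nat_lit 433) (nat_lit 397) (.f (nat_lit 431) (nat_lit 396) (nat_lit 396) (.f (nat_lit 368) (nat_lit 369) (nat_lit 2413) (.d (nat_lit 465) (nat_lit 429) (nat_lit 429) (nat_lit 497) (nat_lit 4464))))) (.a (.f (nat_lit 432) (nat_lit 433) (nat_lit 397) (.f (nat_lit 396) (nat_lit 431) (nat_lit 396) (.f (nat_lit 363) (nat_lit 364) (nat_lit 3435) (.f (nat_lit 395) (nat_lit 362) (nat_lit 3434) (.d (nat_lit 427) (nat_lit 426) (nat_lit 1418) (nat_lit 428) (nat_lit 1419)))))) (.p (nat_lit 396) (.a (.d (nat_lit 428) (nat_lit 427) (nat_lit 1419) (nat_lit 429) (nat_lit 1420)) (.a (.f (nat_lit 429) (nat_lit 428) (nat_lit 1420) (.f (nat_lit 395) (nat_lit 394) (nat_lit 394) (.d (nat_lit 363) (nat_lit 362) (nat_lit 3434) (nat_lit 364) (nat_lit 3435)))) (.a (.f (nat_lit 363) (nat_lit 364) (nat_lit 3435) (.f (nat_lit 395) (nat_lit 362) (nat_lit 3434) (.f (nat_lit 426) (nat_lit 427) (nat_lit 1418) (.d (nat_lit 394) (nat_lit 425) (nat_lit 1417) (nat_lit 429) (nat_lit 394))))) (.f (nat_lit 363) (nat_lit 364) (nat_lit 3435) (.f (nat_lit 395) (nat_lit 362) (nat_lit 3434) (.d (nat_lit 427) (nat_lit 426) (nat_lit 1418) (nat_lit 428) (nat_lit 1419))))))))))))) (.a (.p (nat_lit 401) (.a (.f (nat_lit 402) (nat_lit 431) (nat_lit 1422) (.d (nat_lit 434) (nat_lit 433) (nat_lit 398) (nat_lit 435) (nat_lit 399))) (.a (.f (nat_lit 433) (nat_lit 434) (nat_lit 398) (.f (nat_lit 432) (nat_lit 397) (nat_lit 397) (.d (nat_lit 369) (nat_lit 337) (nat_lit 5456) (nat_lit 370) (nat_lit 2414)))) (.f (nat_lit 402) (nat_lit 431) (nat_lit 1422) (.d (nat_lit 370) (nat_lit 369) (nat_lit 2414) (nat_lit 371) (nat_lit 2415)))))) (.f (nat_lit 429) (nat_lit 401) (nat_lit 1421) (.d (nat_lit 428) (nat_lit 397) (nat_lit 1420) (nat_lit 427) (nat_lit 2443)))))))))))))) (.p (nat_lit 526) (.a (.f (nat_lit 429) (nat_lit 397) (nat_lit 7565) (.f (nat_lit 431) (nat_lit 399) (nat_lit 6542) (.f (nat_lit 461) (nat_lit 558) (nat_lit 7597) (.d (nat_lit 432) (nat_lit 460) (nat_lit 1452) (nat_lit 465) (nat_lit 429))))) (.a (.f (nat_lit 525) (nat_lit 557) (nat_lit 5549) (.f (nat_lit 398) (nat_lit 493) (nat_lit 5517) (.d (nat_lit 399) (nat_lit 367) (nat_lit 6510) (nat_lit 431) (nat_lit 6542)))) (.f (nat_lit 557) (nat_lit 525) (nat_lit 5549) (.f (nat_lit 558) (nat_lit 589) (nat_lit 5581) (.d (nat_lit 429) (nat_lit 397) (nat_lit 7565) (nat_lit 461) (nat_lit 7597)))))))))))))) (.a (.p (nat_lit 494) (.a s67621 (.a (.p (nat_lit 526) (.a (.f (nat_lit 527) (nat_lit 559) (nat_lit 4526) (.d (nat_lit 525) (nat_lit 557) (nat_lit 5549) (nat_lit 561) (nat_lit 525))) (.a (.f (nat_lit 527) (nat_lit 559) (nat_lit 4526) (.f (nat_lit 398) (nat_lit 495) (nat_lit 4494) (.d (nat_lit 399) (nat_lit 367) (nat_lit 6510) (nat_lit 431) (nat_lit 6542)))) (.f (nat_lit 525) (nat_lit 557) (nat_lit 5549) (.f (nat_lit 398) (nat_lit 493) (nat_lit 5517) (.d (nat_lit 399) (nat_lit 367) (nat_lit 6510) (nat_lit 431) (nat_lit 6542))))))) (.a s67848 (.a (.p (nat_lit 526) (.a (.f (nat_lit 527) (nat_lit 559) (nat_lit 4526) (.d (nat_lit 525) (nat_lit 557) (nat_lit 5549) (nat_lit 561) (nat_lit 525))) (.a (.f (nat_lit 527) (nat_lit 559) (nat_lit 4526) (.f (nat_lit 398) (nat_lit 495) (nat_lit 4494) (.d (nat_lit 397) (nat_lit 365) (nat_lit 7533) (nat_lit 429) (nat_lit 7565)))) (.f (nat_lit 557) (nat_lit 525) (nat_lit 5549) (.f (nat_lit 558) (nat_lit 589) (nat_lit 5581) (.d (nat_lit 429) (nat_lit 397) (nat_lit 7565) (nat_lit 461) (nat_lit 7597))))))) (.a (.p (nat_lit 526) (.a (.f (nat_lit 527) (nat_lit 559) (nat_lit 4526) (.f (nat_lit 398) (nat_lit 495) (nat_lit 4494) (.d (nat_lit 397) (nat_lit 365) (nat_lit 7533) (nat_lit 429) (nat_lit 7565)))) (.a (.f (nat_lit 527) (nat_lit 559) (nat_lit 4526) (.f (nat_lit 398) (nat_lit 495) (nat_lit 4494) (.d (nat_lit 399) (nat_lit 367) (nat_lit 6510) (nat_lit 431) (nat_lit 6542)))) (.f (nat_lit 429) (nat_lit 397) (nat_lit 7565) (.f (nat_lit 431) (nat_lit 399) (nat_lit 6542) (.f (nat_lit 461) (nat_lit 558) (nat_lit 7597) (.d (nat_lit 432) (nat_lit 460) (nat_lit 1452) (nat_lit 465) (nat_lit 429)))))))) (.a (.p (nat_lit 493) (.a (.f (nat_lit 525) (nat_lit 398) (nat_lit 5517) (.d (nat_lit 557) (nat_lit 461) (nat_lit 6573) (nat_lit 589) (nat_lit 6605))) (.a s68975 (.a (.f (nat_lit 398) (nat_lit 525) (nat_lit 5517) (.f (nat_lit 399) (nat_lit 367) (nat_lit 6510) (.p (nat_lit 400) (.a (.f (nat_lit 397) (nat_lit 365) (nat_lit 7533) (.d (nat_lit 429) (nat_lit 401) (nat_lit 1421) (nat_lit 428) (nat_lit 1420))) (.a (.f (nat_lit 401) (nat_lit 429) (nat_lit 1421) (.f (nat_lit 433) (nat_lit 434) (nat_lit 398) (.f (nat_lit 432) (nat_lit 397) (nat_lit 397) (.d (nat_lit 369) (nat_lit 337) (nat_lit 5456) (nat_lit 370) (nat_lit 2414))))) (.a (.f (nat_lit 401) (nat_lit 429) (nat_lit 1421) (.f (nat_lit 402) (nat_lit 431) (nat_lit 1422) (.d (nat_lit 434) (nat_lit 433) (nat_lit 398) (nat_lit 435) (nat_lit 399)))) (.a (.f (nat_lit 397) (nat_lit 365) (nat_lit 7533) (.f (nat_lit 432) (nat_lit 433) (nat_lit 397) (.f (nat_lit 396) (nat_lit 431) (nat_lit 396) (.d (nat_lit 428) (nat_lit 427) (nat_lit 1419) (nat_lit 429) (nat_lit 1420))))) (.f (nat_lit 397) (nat_lit 365) (nat_lit 7533) (.f (nat_lit 432) (nat_lit 433) (nat_lit 397) (.f (nat_lit 396) (nat_lit 431) (nat_lit 396) (.f (nat_lit 427) (nat_lit 428) (nat_lit 1419) (.f (nat_lit 395) (nat_lit 426) (nat_lit 1418) (.d (nat_lit 363) (nat_lit 362) (nat_lit 3434) (nat_lit 364) (nat_lit 3435)))))))))))))) (.p (nat_lit 397) (.a (.f (nat_lit 365) (nat_lit 398) (nat_lit 7533) (.d (nat_lit 429) (nat_lit 333) (nat_lit 4429) (nat_lit 461) (nat_lit 4461))) (.a (.p (nat_lit 492) (.a (.f (nat_lit 495) (nat_lit 527) (nat_lit 492) (.f (nat_lit 460) (nat_lit 459) (nat_lit 3531) (.f (nat_lit 524) (nat_lit 523) (nat_lit 1515) (.d (nat_lit 429) (nat_lit 428) (nat_lit 6540) (nat_lit 461) (nat_lit 5516))))) (.a (.f (nat_lit 495) (nat_lit 527) (nat_lit 492) (.f (nat_lit 459) (nat_lit 460) (nat_lit 3531) (.f (nat_lit 491) (nat_lit 458) (nat_lit 3530) (.d (nat_lit 523) (nat_lit 522) (nat_lit 1514) (nat_lit 524) (nat_lit 1515))))) (.a (.f (nat_lit 398) (nat_lit 365) (nat_lit 7533) (.f (nat_lit 495) (nat_lit 527) (nat_lit 492) (.f (nat_lit 399) (nat_lit 367) (nat_lit 6510) (.f (nat_lit 524) (nat_lit 523) (nat_lit 1515) (.f (nat_lit 429) (nat_lit 461) (nat_lit 5516) (.d (nat_lit 428) (nat_lit 400) (nat_lit 1420) (nat_lit 427) (nat_lit 2443))))))) (.a (.f (nat_lit 365) (nat_lit 398) (nat_lit 7533) (.f (nat_lit 461) (nat_lit 429) (nat_lit 4461) (.f (nat_lit 491) (nat_lit 490) (nat_lit 2506) (.f (nat_lit 459) (nat_lit 458) (nat_lit 3530) (.f (nat_lit 460) (nat_lit 431) (nat_lit 2475) (.f (nat_lit 523) (nat_lit 522) (nat_lit 1514) (.d (nat_lit 428) (nat_lit 396) (nat_lit 6508) (nat_lit 555) (nat_lit 6571)))))))) (.f (nat_lit 398) (nat_lit 365) (nat_lit 7533) (.f (nat_lit 495) (nat_lit 527) (nat_lit 492) (.f (nat_lit 399) (nat_lit 367) (nat_lit 6510) (.f (nat_lit 459) (nat_lit 460) (nat_lit 3531) (.f (nat_lit 491) (nat_lit 458) (nat_lit 3530) (.f (nat_lit 490) (nat_lit 461) (nat_lit 2506) (.f (nat_lit 522) (nat_lit 521) (nat_lit 1513) (.f (nat_lit 427) (nat_lit 395) (nat_lit 5514) (.d (nat_lit 428) (nat_lit 396) (nat_lit 1419) (nat_lit 429) (nat_lit 2443))))))))))))))) (.a (.p (nat_lit 492) (.a (.f (nat_lit 495) (nat_lit 527) (nat_lit 492) (.f (nat_lit 460) (nat_lit 459) (nat_lit 3531) (.f (nat_lit 524) (nat_lit 523) (nat_lit 1515) (.d (nat_lit 429) (nat_lit 428) (nat_lit 6540) (nat_lit 461) (nat_lit 5516))))) (.a (.f (nat_lit 495) (nat_lit 527) (nat_lit 492) (.f (nat_lit 459) (nat_lit 460) (nat_lit 3531) (.f (nat_lit 491) (nat_lit 458) (nat_lit 3530) (.d (nat_lit 523) (nat_lit 522) (nat_lit 1514) (nat_lit 524) (nat_lit 1515))))) (.a (.p (nat_lit 491) (.a (.f (nat_lit 490) (nat_lit 461) (nat_lit 2506) (.d (nat_lit 522) (nat_lit 521) (nat_lit 1513) (nat_lit 523) (nat_lit 1514))) (.a (.f (nat_lit 523) (nat_lit 522) (nat_lit 1514) (.d (nat_lit 495) (nat_lit 524) (nat_lit 1515) (nat_lit 527) (nat_lit 492))) (.a (.f (nat_lit 495) (nat_lit 527) (nat_lit 492) (.f (nat_lit 461) (nat_lit 490) (nat_lit 2506) (.d (nat_lit 524) (nat_lit 429) (nat_lit 5516) (nat_lit 523) (nat_lit 1515)))) (.f (nat_lit 490) (nat_lit 461) (nat_lit 2506) (.f (nat_lit 521) (nat_lit 522) (nat_lit 1513) (.f (nat_lit 489) (nat_lit 520) (nat_lit 1512) (.d (nat_lit 457) (nat_lit 456) (nat_lit 3528) (nat_lit 458) (nat_lit 3529))))))))) (.a (.p (nat_lit 461) (.a (.f (nat_lit 429) (nat_lit 524) (nat_lit 5516) (.f (nat_lit 396) (nat_lit 364) (nat_lit 7532) (.f (nat_lit 431) (nat_lit 432) (nat_lit 3468) (.d (nat_lit 395) (nat_lit 394) (nat_lit 394) (nat_lit 428) (nat_lit 3467))))) (.a (.f (nat_lit 491) (nat_lit 490) (nat_lit 2506) (.f (nat_lit 459) (nat_lit 458) (nat_lit 3530) (.f (nat_lit 524) (nat_lit 429) (nat_lit 5516) (.f (nat_lit 556) (nat_lit 588) (nat_lit 6604) (.d (nat_lit 427) (nat_lit 395) (nat_lit 4491) (nat_lit 523) (nat_lit 4523)))))) (.a (.f (nat_lit 491) (nat_lit 490) (nat_lit 2506) (.f (nat_lit 459) (nat_lit 458) (nat_lit 3530) (.f (nat_lit 460) (nat_lit 431) (nat_lit 2475) (.f (nat_lit 524) (nat_lit 429) (nat_lit 5516) (.d (nat_lit 556) (nat_lit 427) (nat_lit 7595) (nat_lit 588) (nat_lit 7627)))))) (.f (nat_lit 491) (nat_lit 490) (nat_lit 2506) (.f (nat_lit 459) (nat_lit 458) (nat_lit 3530) (.f (nat_lit 523) (nat_lit 522) (nat_lit 1514) (.f (nat_lit 460) (nat_lit 431) (nat_lit 2475) (.d (nat_lit 428) (nat_lit 396) (nat_lit 5515) (nat_lit 555) (nat_lit 6571)))))))))) (.a (.f (nat_lit 495) (nat_lit 527) (nat_lit 492) (.f (nat_lit 459) (nat_lit 460) (nat_lit 3531) (.f (nat_lit 491) (nat_lit 458) (nat_lit 3530) (.f (nat_lit 461) (nat_lit 490) (nat_lit 2506) (.f (nat_lit 429) (nat_lit 524) (nat_lit 5516) (.f (nat_lit 396) (nat_lit 364) (nat_lit 7532) (.f (nat_lit 431) (nat_lit 432) (nat_lit 3468) (.d (nat_lit 395) (nat_lit 394) (nat_lit 394) (nat_lit 428) (nat_lit 3467))))))))) (.f (nat_lit 495) (nat_lit 527) (nat_lit 492) (.f (nat_lit 459) (nat_lit 460) (nat_lit 3531) (.f (nat_lit 491) (nat_lit 458) (nat_lit 3530) (.f (nat_lit 490) (nat_lit 461) (nat_lit 2506) (.d (nat_lit 522) (nat_lit 521) (nat_lit 1513) (nat_lit 523) (nat_lit 1514)))))))))))) (.a (.f (nat_lit 398) (nat_lit 365) (nat_lit 7533) (.p (nat_lit 396) (.a (.f (nat_lit 399) (nat_lit 367) (nat_lit 6510) (.d (nat_lit 431) (nat_lit 395) (nat_lit 395) (nat_lit 432) (nat_lit 396))) (.a (.f (nat_lit 395) (nat_lit 431) (nat_lit 395) (.f (nat_lit 363) (nat_lit 362) (nat_lit 3434) (.f (nat_lit 427) (nat_lit 426) (nat_lit 1418) (.d (nat_lit 399) (nat_lit 364) (nat_lit 3435) (nat_lit 428) (nat_lit 1419))))) (.a (.f (nat_lit 399) (nat_lit 367) (nat_lit 6510) (.f (nat_lit 495) (nat_lit 527) (nat_lit 4494) (.f (nat_lit 364) (nat_lit 363) (nat_lit 3435) (.f (nat_lit 428) (nat_lit 427) (nat_lit 1419) (.f (nat_lit 460) (nat_lit 461) (nat_lit 4460) (.d (nat_lit 459) (nat_lit 491) (nat_lit 5483) (nat_lit 492) (nat_lit 3531))))))) (.f (nat_lit 395) (nat_lit 431) (nat_lit 395) (.f (nat_lit 362) (nat_lit 363) (nat_lit 3434) (.f (nat_lit 394) (nat_lit 361) (nat_lit 3433) (.d (nat_lit 426) (nat_lit 425) (nat_lit 1417) (nat_lit 427) (nat_lit 1418)))))))))) (.f (nat_lit 398) (nat_lit 365) (nat_lit 7533) (.p (nat_lit 431) (.a (.f (nat_lit 399) (nat_lit 367) (nat_lit 6510) (.d (nat_lit 432) (nat_lit 396) (nat_lit 396) (nat_lit 433) (nat_lit 3469))) (.a (.f (nat_lit 432) (nat_lit 433) (nat_lit 3469) (.d (nat_lit 396) (nat_lit 395) (nat_lit 395) (nat_lit 429) (nat_lit 3468))) (.a (.f (nat_lit 399) (nat_lit 367) (nat_lit 6510) (.f (nat_lit 432) (nat_lit 433) (nat_lit 3469) (.f (nat_lit 429) (nat_lit 465) (nat_lit 429) (.d (nat_lit 400) (nat_lit 401) (nat_lit 1421) (nat_lit 428) (nat_lit 1420))))) (.f (nat_lit 399) (nat_lit 367) (nat_lit 6510) (.f (nat_lit 396) (nat_lit 395) (nat_lit 395) (.f (nat_lit 428) (nat_lit 427) (nat_lit 1419) (.f (nat_lit 400) (nat_lit 429) (nat_lit 1420) (.f (nat_lit 401) (nat_lit 402) (nat_lit 1422) (.d (nat_lit 369) (nat_lit 368) (nat_lit 2413) (nat_lit 370) (nat_lit 2414))))))))))))))))))))) (.p (nat_lit 526) (.a (.f (nat_lit 429) (nat_lit 397) (nat_lit 7565) (.f (nat_lit 431) (nat_lit 399) (nat_lit 6542) (.f (nat_lit 461) (nat_lit 558) (nat_lit 7597) (.d (nat_lit 432) (nat_lit 460) (nat_lit 1452) (nat_lit 465) (nat_lit 429))))) (.a (.f (nat_lit 525) (nat_lit 557) (nat_lit 5549) (.f (nat_lit 398) (nat_lit 493) (nat_lit 5517) (.d (nat_lit 399) (nat_lit 367) (nat_lit 6510) (nat_lit 431) (nat_lit 6542)))) (.f (nat_lit 557) (nat_lit 525) (nat_lit 5549) (.f (nat_lit 558) (nat_lit 589) (nat_lit 5581) (.d (nat_lit 429) (nat_lit 397) (nat_lit 7565) (nat_lit 461) (nat_lit 7597)))))))))))))) (.a (.p (nat_lit 494) (.a s67621 (.a s67848 (.a s69119 (.a (.p (nat_lit 525) (.a (.f (nat_lit 526) (nat_lit 557) (nat_lit 5549) (.d (nat_lit 527) (nat_lit 559) (nat_lit 4526) (nat_lit 561) (nat_lit 525))) (.a (.f (nat_lit 493) (nat_lit 398) (nat_lit 5517) (.d (nat_lit 557) (nat_lit 461) (nat_lit 6573) (nat_lit 589) (nat_lit 6605))) (.f (nat_lit 398) (nat_lit 493) (nat_lit 5517) (.f (nat_lit 527) (nat_lit 495) (nat_lit 4494) (.d (nat_lit 526) (nat_lit 559) (nat_lit 4526) (nat_lit 561) (nat_lit 525))))))) (.a (.p (nat_lit 526) (.a (.f (nat_lit 527) (nat_lit 559) (nat_lit 4526) (.d (nat_lit 525) (nat_lit 557) (nat_lit 5549) (nat_lit 561) (nat_lit 525))) (.a (.f (nat_lit 527) (nat_lit 559) (nat_lit 4526) (.f (nat_lit 398) (nat_lit 495) (nat_lit 4494) (.d (nat_lit 397) (nat_lit 365) (nat_lit 7533) (nat_lit 429) (nat_lit 7565)))) (.f (nat_lit 557) (nat_lit 525) (nat_lit 5549) (.f (nat_lit 558) (nat_lit 589) (nat_lit 5581) (.d (nat_lit 429) (nat_lit 397) (nat_lit 7565) (nat_lit 461) (nat_lit 7597))))))) (.a (.p (nat_lit 526) (.a (.f (nat_lit 527) (nat_lit 559) (nat_lit 4526) (.f (nat_lit 398) (nat_lit 495) (nat_lit 4494) (.d (nat_lit 397) (nat_lit 365) (nat_lit 7533) (nat_lit 429) (nat_lit 7565)))) (.a (.f (nat_lit 429) (nat_lit 397) (nat_lit 7565) (.f (nat_lit 431) (nat_lit 399) (nat_lit 6542) (.f (nat_lit 461) (nat_lit 558) (nat_lit 7597) (.d (nat_lit 432) (nat_lit 460) (nat_lit 1452) (nat_lit 465) (nat_lit 429))))) (.f (nat_lit 559) (nat_lit 527) (nat_lit 4526) (.f (nat_lit 558) (nat_lit 591) (nat_lit 4558) (.f (nat_lit 589) (nat_lit 557) (nat_lit 5581) (.d (nat_lit 590) (nat_lit 561) (nat_lit 1581) (nat_lit 621) (nat_lit 5613)))))))) (.a (.p (nat_lit 493) (.a (.f (nat_lit 525) (nat_lit 398) (nat_lit 5517) (.d (nat_lit 557) (nat_lit 461) (nat_lit 6573) (nat_lit 589) (nat_lit 6605))) (.a s68975 (.a (.f (nat_lit 398) (nat_lit 525) (nat_lit 5517) (.p (nat_lit 492) (.a (.f (nat_lit 495) (nat_lit 527) (nat_lit 4494) (.f (nat_lit 459) (nat_lit 460) (nat_lit 3531) (.f (nat_lit 491) (nat_lit 458) (nat_lit 3530) (.d (nat_lit 523) (nat_lit 522) (nat_lit 1514) (nat_lit 524) (nat_lit 1515))))) (.a (.f (nat_lit 495) (nat_lit 527) (nat_lit 4494) (.f (nat_lit 397) (nat_lit 365) (nat_lit 7533) (.f (nat_lit 523) (nat_lit 524) (nat_lit 1515) (.f (nat_lit 491) (nat_lit 522) (nat_lit 1514) (.f (nat_lit 460) (nat_lit 459) (nat_lit 3531) (.f (nat_lit 396) (nat_lit 428) (nat_lit 5515) (.f (nat_lit 395) (nat_lit 431) (nat_lit 395) (.f (nat_lit 394) (nat_lit 429) (nat_lit 394) (.d (nat_lit 426) (nat_lit 425) (nat_lit 1417) (nat_lit 427) (nat_lit 1418)))))))))) (.a (.f (nat_lit 397) (nat_lit 365) (nat_lit 7533) (.p (nat_lit 396) (.a (.f (nat_lit 395) (nat_lit 431) (nat_lit 395) (.f (nat_lit 394) (nat_lit 429) (nat_lit 394) (.d (nat_lit 426) (nat_lit 425) (nat_lit 1417) (nat_lit 427) (nat_lit 1418)))) (.a (.f (nat_lit 431) (nat_lit 395) (nat_lit 395) (.d (nat_lit 432) (nat_lit 399) (nat_lit 396) (nat_lit 429) (nat_lit 3468))) (.a (.f (nat_lit 495) (nat_lit 527) (nat_lit 4494) (.f (nat_lit 523) (nat_lit 524) (nat_lit 1515) (.f (nat_lit 491) (nat_lit 522) (nat_lit 1514) (.f (nat_lit 428) (nat_lit 460) (nat_lit 5515) (.f (nat_lit 399) (nat_lit 427) (nat_lit 1419) (.f (nat_lit 400) (nat_lit 429) (nat_lit 1420) (.d (nat_lit 432) (nat_lit 431) (nat_lit 396) (nat_lit 433) (nat_lit 397)))))))) (.a (.f (nat_lit 395) (nat_lit 431) (nat_lit 395) (.f (nat_lit 363) (nat_lit 362) (nat_lit 3434) (.f (nat_lit 427) (nat_lit 426) (nat_lit 1418) (.d (nat_lit 399) (nat_lit 364) (nat_lit 3435) (nat_lit 428) (nat_lit 1419))))) (.f (nat_lit 495) (nat_lit 527) (nat_lit 4494) (.f (nat_lit 523) (nat_lit 524) (nat_lit 1515) (.f (nat_lit 491) (nat_lit 522) (nat_lit 1514) (.f (nat_lit 428) (nat_lit 460) (nat_lit 5515) (.f (nat_lit 427) (nat_lit 399) (nat_lit 1419) (.d (nat_lit 426) (nat_lit 395) (nat_lit 1418) (nat_lit 425) (nat_lit 2441))))))))))))) (.a (.p (nat_lit 491) (.a (.f (nat_lit 495) (nat_lit 527) (nat_lit 4494) (.d (nat_lit 523) (nat_lit 522) (nat_lit 1514) (nat_lit 524) (nat_lit 1515))) (.a (.f (nat_lit 522) (nat_lit 523) (nat_lit 1514) (.f (nat_lit 490) (nat_lit 521) (nat_lit 1513) (.d (nat_lit 458) (nat_lit 457) (nat_lit 3529) (nat_lit 459) (nat_lit 3530)))) (.a (.f (nat_lit 495) (nat_lit 527) (nat_lit 492) (.f (nat_lit 397) (nat_lit 365) (nat_lit 7533) (.f (nat_lit 459) (nat_lit 458) (nat_lit 3530) (.f (nat_lit 524) (nat_lit 523) (nat_lit 1515) (.f (nat_lit 395) (nat_lit 427) (nat_lit 4491) (.f (nat_lit 396) (nat_lit 431) (nat_lit 395) (.f (nat_lit 394) (nat_lit 429) (nat_lit 394) (.d (nat_lit 362) (nat_lit 361) (nat_lit 3433) (nat_lit 363) (nat_lit 3434))))))))) s69198)))) (.a (.f (nat_lit 495) (nat_lit 527) (nat_lit 492) (.f (nat_lit 397) (nat_lit 365) (nat_lit 7533) (.f (nat_lit 460) (nat_lit 459) (nat_lit 3531) (.f (nat_lit 524) (nat_lit 523) (nat_lit 1515) (.f (nat_lit 428) (nat_lit 429) (nat_lit 6540) (.f (nat_lit 395) (nat_lit 427) (nat_lit 7563) (.d (nat_lit 396) (nat_lit 363) (nat_lit 7531) (nat_lit 431) (nat_lit 395)))))))) (.a (.p (nat_lit 491) (.a (.f (nat_lit 522) (nat_lit 523) (nat_lit 1514) (.f (nat_lit 490) (nat_lit 521) (nat_lit 1513) (.d (nat_lit 458) (nat_lit 457) (nat_lit 3529) (nat_lit 459) (nat_lit 3530)))) (.a s69198 (.a (.p (nat_lit 396) (.a (.f (nat_lit 397) (nat_lit 365) (nat_lit 7533) (.f (nat_lit 395) (nat_lit 431) (nat_lit 395) (.f (nat_lit 427) (nat_lit 426) (nat_lit 1418) (.d (nat_lit 459) (nat_lit 364) (nat_lit 6507) (nat_lit 524) (nat_lit 4491))))) (.a (.f (nat_lit 397) (nat_lit 365) (nat_lit 7533) (.f (nat_lit 395) (nat_lit 431) (nat_lit 395) (.f (nat_lit 427) (nat_lit 426) (nat_lit 1418) (.f (nat_lit 428) (nat_lit 399) (nat_lit 1419) (.d (nat_lit 524) (nat_lit 459) (nat_lit 4491) (nat_lit 460) (nat_lit 7563)))))) (.a (.f (nat_lit 523) (nat_lit 522) (nat_lit 1514) (.f (nat_lit 428) (nat_lit 460) (nat_lit 5515) (.f (nat_lit 427) (nat_lit 459) (nat_lit 6539) (.d (nat_lit 399) (nat_lit 397) (nat_lit 1419) (nat_lit 429) (nat_lit 2443))))) (.a (.f (nat_lit 523) (nat_lit 522) (nat_lit 1514) (.f (nat_lit 428) (nat_lit 460) (nat_lit 5515) (.f (nat_lit 427) (nat_lit 459) (nat_lit 6539) (.f (nat_lit 429) (nat_lit 399) (nat_lit 2443) (.d (nat_lit 395) (nat_lit 394) (nat_lit 3466) (nat_lit 431) (nat_lit 3467)))))) (.f (nat_lit 397) (nat_lit 365) (nat_lit 7533) (.f (nat_lit 431) (nat_lit 395) (nat_lit 395) (.d (nat_lit 432) (nat_lit 399) (nat_lit 396) (nat_lit 429) (nat_lit 3468))))))))) (.p (nat_lit 395) (.a (.f (nat_lit 397) (nat_lit 365) (nat_lit 7533) (.f (nat_lit 396) (nat_lit 431) (nat_lit 395) (.f (nat_lit 394) (nat_lit 429) (nat_lit 394) (.d (nat_lit 362) (nat_lit 361) (nat_lit 3433) (nat_lit 363) (nat_lit 3434))))) (.a (.f (nat_lit 397) (nat_lit 365) (nat_lit 7533) (.f (nat_lit 396) (nat_lit 431) (nat_lit 395) (.f (nat_lit 427) (nat_lit 426) (nat_lit 1418) (.f (nat_lit 428) (nat_lit 399) (nat_lit 1419) (.d (nat_lit 460) (nat_lit 523) (nat_lit 5515) (nat_lit 524) (nat_lit 7563)))))) (.f (nat_lit 522) (nat_lit 523) (nat_lit 1514) (.f (nat_lit 490) (nat_lit 521) (nat_lit 1513) (.f (nat_lit 458) (nat_lit 457) (nat_lit 3529) (.f (nat_lit 426) (nat_lit 427) (nat_lit 6538) (.f (nat_lit 394) (nat_lit 363) (nat_lit 6506) (.d (nat_lit 393) (nat_lit 361) (nat_lit 7529) (nat_lit 425) (nat_lit 7561)))))))))))))) (.a (.p (nat_lit 395) (.a (.f (nat_lit 495) (nat_lit 527) (nat_lit 4494) (.f (nat_lit 397) (nat_lit 365) (nat_lit 7533) (.f (nat_lit 396) (nat_lit 431) (nat_lit 395) (.f (nat_lit 427) (nat_lit 426) (nat_lit 1418) (.f (nat_lit 459) (nat_lit 460) (nat_lit 3531) (.d (nat_lit 491) (nat_lit 364) (nat_lit 6507) (nat_lit 458) (nat_lit 3530))))))) (.a (.f (nat_lit 495) (nat_lit 527) (nat_lit 4494) (.f (nat_lit 397) (nat_lit 365) (nat_lit 7533) (.f (nat_lit 396) (nat_lit 431) (nat_lit 395) (.f (nat_lit 427) (nat_lit 426) (nat_lit 1418) (.f (nat_lit 428) (nat_lit 399) (nat_lit 1419) (.d (nat_lit 460) (nat_lit 459) (nat_lit 3531) (nat_lit 524) (nat_lit 7563))))))) (.a (.f (nat_lit 495) (nat_lit 527) (nat_lit 492) (.f (nat_lit 459) (nat_lit 460) (nat_lit 3531) (.f (nat_lit 491) (nat_lit 458) (nat_lit 3530) (.f (nat_lit 427) (nat_lit 524) (nat_lit 4491) (.f (nat_lit 396) (nat_lit 364) (nat_lit 6507) (.d (nat_lit 397) (nat_lit 426) (nat_lit 1418) (nat_lit 431) (nat_lit 395))))))) (.a (.f (nat_lit 495) (nat_lit 527) (nat_lit 4494) (.f (nat_lit 459) (nat_lit 460) (nat_lit 3531) (.f (nat_lit 491) (nat_lit 458) (nat_lit 3530) (.f (nat_lit 427) (nat_lit 524) (nat_lit 4491) (.f (nat_lit 365) (nat_lit 397) (nat_lit 7533) (.f (nat_lit 366) (nat_lit 333) (nat_lit 7501) (.f (nat_lit 362) (nat_lit 394) (nat_lit 7530) (.f (nat_lit 363) (nat_lit 330) (nat_lit 7498) (.d (nat_lit 364) (nat_lit 332) (nat_lit 6475) (nat_lit 399) (nat_lit 363)))))))))) (.a (.f (nat_lit 495) (nat_lit 527) (nat_lit 492) (.f (nat_lit 459) (nat_lit 460) (nat_lit 3531) (.f (nat_lit 491) (nat_lit 458) (nat_lit 3530) (.f (nat_lit 427) (nat_lit 524) (nat_lit 4491) (.f (nat_lit 362) (nat_lit 394) (nat_lit 7530) (.f (nat_lit 363) (nat_lit 330) (nat_lit 7498) (.d (nat_lit 364) (nat_lit 332) (nat_lit 6475) (nat_lit 396) (nat_lit 6507)))))))) (.f (nat_lit 397) (nat_lit 365) (nat_lit 7533) (.f (nat_lit 396) (nat_lit 431) (nat_lit 395) (.f (nat_lit 394) (nat_lit 429) (nat_lit 394) (.d (nat_lit 362) (nat_lit 361) (nat_lit 3433) (nat_lit 363) (nat_lit 3434))))))))))) (.f (nat_lit 495) (nat_lit 527) (nat_lit 4494) (.f (nat_lit 397) (nat_lit 365) (nat_lit 7533) (.f (nat_lit 459) (nat_lit 460) (nat_lit 3531) (.f (nat_lit 491) (nat_lit 458) (nat_lit 3530) (.f (nat_lit 522) (nat_lit 523) (nat_lit 1514) (.f (nat_lit 490) (nat_lit 521) (nat_lit 1513) (.f (nat_lit 395) (nat_lit 427) (nat_lit 5514) (.f (nat_lit 396) (nat_lit 431) (nat_lit 395) (.f (nat_lit 394) (nat_lit 429) (nat_lit 394) (.d (nat_lit 362) (nat_lit 361) (nat_lit 3433) (nat_lit 363) (nat_lit 3434)))))))))))))))))))) (.p (nat_lit 492) (.a (.f (nat_lit 495) (nat_lit 527) (nat_lit 492) (.f (nat_lit 459) (nat_lit 460) (nat_lit 3531) (.f (nat_lit 491) (nat_lit 458) (nat_lit 3530) (.d (nat_lit 523) (nat_lit 522) (nat_lit 1514) (nat_lit 524) (nat_lit 1515))))) (.a (.f (nat_lit 495) (nat_lit 527) (nat_lit 492) (.f (nat_lit 523) (nat_lit 524) (nat_lit 1515) (.f (nat_lit 491) (nat_lit 522) (nat_lit 1514) (.f (nat_lit 460) (nat_lit 459) (nat_lit 3531) (.f (nat_lit 461) (nat_lit 490) (nat_lit 2506) (.f (nat_lit 398) (nat_lit 366) (nat_lit 5485) (.f (nat_lit 397) (nat_lit 365) (nat_lit 7533) (.f (nat_lit 396) (nat_lit 428) (nat_lit 5515) (.f (nat_lit 431) (nat_lit 395) (nat_lit 395) (.d (nat_lit 432) (nat_lit 399) (nat_lit 396) (nat_lit 429) (nat_lit 1452))))))))))) (.a s69308 (.a s69311 (.a s69326 (.a (.f (nat_lit 495) (nat_lit 527) (nat_lit 492) (.f (nat_lit 459) (nat_lit 460) (nat_lit 3531) (.f (nat_lit 491) (nat_lit 458) (nat_lit 3530) (.f (nat_lit 461) (nat_lit 490) (nat_lit 2506) (.f (nat_lit 398) (nat_lit 366) (nat_lit 5485) (.f (nat_lit 397) (nat_lit 365) (nat_lit 7533) (.f (nat_lit 429) (nat_lit 524) (nat_lit 5516) (.f (nat_lit 396) (nat_lit 364) (nat_lit 7532) (.d (nat_lit 395) (nat_lit 394) (nat_lit 394) (nat_lit 431) (nat_lit 395)))))))))) (.f (nat_lit 495) (nat_lit 527) (nat_lit 492) (.f (nat_lit 459) (nat_lit 460) (nat_lit 3531) (.f (nat_lit 491) (nat_lit 458) (nat_lit 3530) (.f (nat_lit 490) (nat_lit 461) (nat_lit 2506) (.d (nat_lit 522) (nat_lit 521) (nat_lit 1513) (nat_lit 523) (nat_lit 1514))))))))))))))))) (.a (.p (nat_lit 526) (.a (.f (nat_lit 429) (nat_lit 397) (nat_lit 7565) (.f (nat_lit 431) (nat_lit 399) (nat_lit 6542) (.f (nat_lit 461) (nat_lit 558) (nat_lit 7597) (.d (nat_lit 432) (nat_lit 460) (nat_lit 1452) (nat_lit 465) (nat_lit 429))))) (.a (.f (nat_lit 557) (nat_lit 525) (nat_lit 5549) (.f (nat_lit 558) (nat_lit 589) (nat_lit 5581) (.f (nat_lit 461) (nat_lit 429) (nat_lit 7597) (.f (nat_lit 591) (nat_lit 559) (nat_lit 4558) (.d (nat_lit 590) (nat_lit 493) (nat_lit 7629) (nat_lit 623) (nat_lit 4590)))))) (.a (.p (nat_lit 558) (.a (.d (nat_lit 557) (nat_lit 525) (nat_lit 5549) (nat_lit 589) (nat_lit 5581)) (.a (.f (nat_lit 589) (nat_lit 557) (nat_lit 5581) (.f (nat_lit 590) (nat_lit 621) (nat_lit 5613) (.d (nat_lit 591) (nat_lit 559) (nat_lit 4558) (nat_lit 623) (nat_lit 4590)))) (.f (nat_lit 559) (nat_lit 591) (nat_lit 4558) (.f (nat_lit 525) (nat_lit 561) (nat_lit 3597) (.f (nat_lit 493) (nat_lit 398) (nat_lit 5517) (.d (nat_lit 590) (nat_lit 461) (nat_lit 7629) (nat_lit 622) (nat_lit 7661)))))))) (.f (nat_lit 525) (nat_lit 557) (nat_lit 5549) (.f (nat_lit 398) (nat_lit 493) (nat_lit 5517) (.d (nat_lit 397) (nat_lit 365) (nat_lit 7533) (nat_lit 429) (nat_lit 7565)))))))) (.p (nat_lit 526) (.a (.f (nat_lit 527) (nat_lit 559) (nat_lit 4526) (.f (nat_lit 398) (nat_lit 495) (nat_lit 4494) (.d (nat_lit 397) (nat_lit 365) (nat_lit 7533) (nat_lit 429) (nat_lit 7565)))) (.a (.f (nat_lit 429) (nat_lit 397) (nat_lit 7565) (.f (nat_lit 431) (nat_lit 399) (nat_lit 6542) (.f (nat_lit 461) (nat_lit 558) (nat_lit 7597) (.d (nat_lit 432) (nat_lit 460) (nat_lit 1452) (nat_lit 465) (nat_lit 429))))) (.f (nat_lit 527) (nat_lit 559) (nat_lit 4526) (.f (nat_lit 495) (nat_lit 398) (nat_lit 4494) (.f (nat_lit 492) (nat_lit 493) (nat_lit 492) (.f (nat_lit 525) (nat_lit 561) (nat_lit 525) (.d (nat_lit 524) (nat_lit 491) (nat_lit 3563) (nat_lit 523) (nat_lit 2539)))))))))))))))))) (.a (.p (nat_lit 432) (.a s69350 (.a s69351 (.a s69352 (.a (.p (nat_lit 431) (.a (.f (nat_lit 429) (nat_lit 465) (nat_lit 429) (.d (nat_lit 461) (nat_lit 433) (nat_lit 1453) (nat_lit 460) (nat_lit 1452))) (.a (.f (nat_lit 433) (nat_lit 461) (nat_lit 1453) (.f (nat_lit 398) (nat_lit 397) (nat_lit 3469) (.f (nat_lit 399) (nat_lit 434) (nat_lit 3470) (.d (nat_lit 367) (nat_lit 335) (nat_lit 4431) (nat_lit 494) (nat_lit 6510))))) (.f (nat_lit 429) (nat_lit 465) (nat_lit 429) (.f (nat_lit 397) (nat_lit 396) (nat_lit 3468) (.f (nat_lit 494) (nat_lit 526) (nat_lit 7565) (.f (nat_lit 400) (nat_lit 401) (nat_lit 2445) (.f (nat_lit 399) (nat_lit 428) (nat_lit 2444) (.d (nat_lit 367) (nat_lit 335) (nat_lit 4431) (nat_lit 398) (nat_lit 6510)))))))))) (.a (.p (nat_lit 431) (.a (.f (nat_lit 429) (nat_lit 465) (nat_lit 429) (.d (nat_lit 461) (nat_lit 433) (nat_lit 1453) (nat_lit 460) (nat_lit 1452))) (.a (.f (nat_lit 433) (nat_lit 461) (nat_lit 1453) (.f (nat_lit 398) (nat_lit 397) (nat_lit 3469) (.f (nat_lit 399) (nat_lit 434) (nat_lit 3470) (.d (nat_lit 367) (nat_lit 335) (nat_lit 4431) (nat_lit 494) (nat_lit 6510))))) (.f (nat_lit 429) (nat_lit 465) (nat_lit 429) (.f (nat_lit 400) (nat_lit 401) (nat_lit 2445) (.f (nat_lit 399) (nat_lit 428) (nat_lit 2444) (.f (nat_lit 367) (nat_lit 335) (nat_lit 4431) (.d (nat_lit 494) (nat_lit 398) (nat_lit 6510) (nat_lit 526) (nat_lit 6542))))))))) (.a (.p (nat_lit 431) (.a (.f (nat_lit 429) (nat_lit 465) (nat_lit 429) (.d (nat_lit 461) (nat_lit 433) (nat_lit 1453) (nat_lit 460) (nat_lit 1452))) (.a (.f (nat_lit 433) (nat_lit 461) (nat_lit 1453) (.f (nat_lit 465) (nat_lit 466) (nat_lit 430) (.f (nat_lit 401) (nat_lit 402) (nat_lit 2446) (.f (nat_lit 369) (nat_lit 337) (nat_lit 5456) (.f (nat_lit 368) (nat_lit 336) (nat_lit 7504) (.f (nat_lit 400) (nat_lit 497) (nat_lit 4464) (.f (nat_lit 370) (nat_lit 338) (nat_lit 6481) (.d (nat_lit 399) (nat_lit 371) (nat_lit 1391) (nat_lit 398) (nat_lit 2414))))))))) (.a (.f (nat_lit 429) (nat_lit 465) (nat_lit 429) (.f (nat_lit 400) (nat_lit 401) (nat_lit 2445) (.f (nat_lit 399) (nat_lit 428) (nat_lit 2444) (.f (nat_lit 367) (nat_lit 335) (nat_lit 4431) (.d (nat_lit 494) (nat_lit 398) (nat_lit 6510) (nat_lit 526) (nat_lit 6542)))))) (.f (nat_lit 461) (nat_lit 433) (nat_lit 1453) (.d (nat_lit 460) (nat_lit 429) (nat_lit 1452) (nat_lit 459) (nat_lit 2475))))))) (.a s69358 (.a s69359 (.a s69428 (.a (.p (nat_lit 494) (.a (.p (nat_lit 525) (.a (.f (nat_lit 526) (nat_lit 557) (nat_lit 5549) (.d (nat_lit 527) (nat_lit 559) (nat_lit 4526) (nat_lit 561) (nat_lit 525))) (.a (.f (nat_lit 493) (nat_lit 398) (nat_lit 5517) (.d (nat_lit 557) (nat_lit 461) (nat_lit 6573) (nat_lit 589) (nat_lit 6605))) (.f (nat_lit 398) (nat_lit 493) (nat_lit 5517) (.f (nat_lit 527) (nat_lit 495) (nat_lit 4494) (.d (nat_lit 526) (nat_lit 559) (nat_lit 4526) (nat_lit 561) (nat_lit 525))))))) (.a (.p (nat_lit 526) (.a (.f (nat_lit 527) (nat_lit 559) (nat_lit 4526) (.d (nat_lit 525) (nat_lit 557) (nat_lit 5549) (nat_lit 561) (nat_lit 525))) (.a (.f (nat_lit 559) (nat_lit 527) (nat_lit 4526) (.f (nat_lit 558) (nat_lit 591) (nat_lit 4558) (.d (nat_lit 429) (nat_lit 397) (nat_lit 7565) (nat_lit 461) (nat_lit 7597)))) (.f (nat_lit 429) (nat_lit 397) (nat_lit 7565) (.f (nat_lit 558) (nat_lit 461) (nat_lit 7597) (.d (nat_lit 557) (nat_lit 525) (nat_lit 5549) (nat_lit 589) (nat_lit 5581))))))) (.a (.p (nat_lit 398) (.a (.f (nat_lit 527) (nat_lit 495) (nat_lit 4494) (.f (nat_lit 526) (nat_lit 559) (nat_lit 4526) (.d (nat_lit 525) (nat_lit 493) (nat_lit 5517) (nat_lit 561) (nat_lit 525)))) (.a (.f (nat_lit 527) (nat_lit 495) (nat_lit 4494) (.f (nat_lit 526) (nat_lit 559) (nat_lit 4526) (.d (nat_lit 525) (nat_lit 557) (nat_lit 5549) (nat_lit 561) (nat_lit 525)))) (.a (.f (nat_lit 397) (nat_lit 365) (nat_lit 7533) (.f (nat_lit 399) (nat_lit 367) (nat_lit 6510) (.f (nat_lit 400) (nat_lit 433) (nat_lit 397) (.d (nat_lit 429) (nat_lit 428) (nat_lit 1420) (nat_lit 526) (nat_lit 7565))))) (.f (nat_lit 367) (nat_lit 399) (nat_lit 6510) (.f (nat_lit 366) (nat_lit 335) (nat_lit 6478) (.d (nat_lit 365) (nat_lit 333) (nat_lit 7501) (nat_lit 397) (nat_lit 7533)))))))) (.a (.p (nat_lit 398) (.a (.f (nat_lit 397) (nat_lit 365) (nat_lit 7533) (.f (nat_lit 399) (nat_lit 367) (nat_lit 6510) (.f (nat_lit 400) (nat_lit 433) (nat_lit 397) (.d (nat_lit 429) (nat_lit 428) (nat_lit 1420) (nat_lit 526) (nat_lit 7565))))) (.a (.f (nat_lit 527) (nat_lit 495) (nat_lit 4494) (.f (nat_lit 526) (nat_lit 559) (nat_lit 4526) (.f (nat_lit 429) (nat_lit 397) (nat_lit 7565) (.f (nat_lit 461) (nat_lit 558) (nat_lit 7597) (.d (nat_lit 366) (nat_lit 334) (nat_lit 5453) (nat_lit 493) (nat_lit 5485)))))) (.a (.f (nat_lit 527) (nat_lit 495) (nat_lit 4494) (.f (nat_lit 526) (nat_lit 559) (nat_lit 4526) (.f (nat_lit 367) (nat_lit 399) (nat_lit 6510) (.f (nat_lit 366) (nat_lit 335) (nat_lit 6478) (.f (nat_lit 461) (nat_lit 493) (nat_lit 5485) (.d (nat_lit 429) (nat_lit 334) (nat_lit 5453) (nat_lit 558) (nat_lit 7597))))))) (.f (nat_lit 367) (nat_lit 399) (nat_lit 6510) (.f (nat_lit 366) (nat_lit 335) (nat_lit 6478) (.d (nat_lit 365) (nat_lit 333) (nat_lit 7501) (nat_lit 397) (nat_lit 7533)))))))) (.p (nat_lit 398) (.a (.f (nat_lit 367) (nat_lit 399) (nat_lit 6510) (.f (nat_lit 366) (nat_lit 335) (nat_lit 6478) (.d (nat_lit 493) (nat_lit 461) (nat_lit 5485) (nat_lit 525) (nat_lit 5517)))) (.a (.f (nat_lit 493) (nat_lit 525) (nat_lit 5517) (.f (nat_lit 366) (nat_lit 461) (nat_lit 5485) (.d (nat_lit 365) (nat_lit 333) (nat_lit 7501) (nat_lit 397) (nat_lit 7533)))) (.f (nat_lit 399) (nat_lit 367) (nat_lit 6510) (.f (nat_lit 397) (nat_lit 365) (nat_lit 7533) (.f (nat_lit 400) (nat_lit 433) (nat_lit 397) (.d (nat_lit 429) (nat_lit 401) (nat_lit 1421) (nat_lit 428) (nat_lit 1420))))))))))))) (.a (.p (nat_lit 494) (.a (.p (nat_lit 525) (.a (.f (nat_lit 526) (nat_lit 557) (nat_lit 5549) (.d (nat_lit 527) (nat_lit 559) (nat_lit 4526) (nat_lit 561) (nat_lit 525))) (.a (.f (nat_lit 493) (nat_lit 398) (nat_lit 5517) (.d (nat_lit 557) (nat_lit 461) (nat_lit 6573) (nat_lit 589) (nat_lit 6605))) (.f (nat_lit 398) (nat_lit 493) (nat_lit 5517) (.f (nat_lit 527) (nat_lit 495) (nat_lit 4494) (.d (nat_lit 526) (nat_lit 559) (nat_lit 4526) (nat_lit 561) (nat_lit 525))))))) (.a (.p (nat_lit 526) (.a (.f (nat_lit 527) (nat_lit 559) (nat_lit 4526) (.d (nat_lit 525) (nat_lit 557) (nat_lit 5549) (nat_lit 561) (nat_lit 525))) (.a (.f (nat_lit 559) (nat_lit 527) (nat_lit 4526) (.f (nat_lit 558) (nat_lit 591) (nat_lit 4558) (.d (nat_lit 429) (nat_lit 397) (nat_lit 7565) (nat_lit 461) (nat_lit 7597)))) (.f (nat_lit 429) (nat_lit 397) (nat_lit 7565) (.f (nat_lit 558) (nat_lit 461) (nat_lit 7597) (.d (nat_lit 557) (nat_lit 525) (nat_lit 5549) (nat_lit 589) (nat_lit 5581))))))) (.a (.p (nat_lit 526) (.a (.f (nat_lit 527) (nat_lit 559) (nat_lit 4526) (.d (nat_lit 525) (nat_lit 557) (nat_lit 5549) (nat_lit 561) (nat_lit 525))) (.a (.f (nat_lit 527) (nat_lit 559) (nat_lit 4526) (.f (nat_lit 398) (nat_lit 495) (nat_lit 4494) (.d (nat_lit 399) (nat_lit 367) (nat_lit 6510) (nat_lit 431) (nat_lit 6542)))) (.f (nat_lit 431) (nat_lit 399) (nat_lit 6542) (.d (nat_lit 429) (nat_lit 397) (nat_lit 7565) (nat_lit 465) (nat_lit 429)))))) (.a s69471 (.p (nat_lit 398) (.a (.f (nat_lit 367) (nat_lit 399) (nat_lit 6510) (.f (nat_lit 366) (nat_lit 335) (nat_lit 6478) (.d (nat_lit 493) (nat_lit 461) (nat_lit 5485) (nat_lit 525) (nat_lit 5517)))) (.a (.f (nat_lit 493) (nat_lit 525) (nat_lit 5517) (.f (nat_lit 366) (nat_lit 461) (nat_lit 5485) (.d (nat_lit 365) (nat_lit 333) (nat_lit 7501) (nat_lit 397) (nat_lit 7533)))) (.f (nat_lit 399) (nat_lit 367) (nat_lit 6510) (.f (nat_lit 397) (nat_lit 365) (nat_lit 7533) (.f (nat_lit 431) (nat_lit 396) (nat_lit 396) (.f (nat_lit 429) (nat_lit 465) (nat_lit 429) (.d (nat_lit 400) (nat_lit 401) (nat_lit 1421) (nat_lit 428) (nat_lit 1420)))))))))))))) (.a (.p (nat_lit 431) (.a (.f (nat_lit 429) (nat_lit 465) (nat_lit 429) (.f (nat_lit 397) (nat_lit 396) (nat_lit 3468) (.f (nat_lit 398) (nat_lit 433) (nat_lit 3469) (.d (nat_lit 494) (nat_lit 365) (nat_lit 7533) (nat_lit 526) (nat_lit 7565))))) (.a (.f (nat_lit 429) (nat_lit 465) (nat_lit 429) (.f (nat_lit 397) (nat_lit 396) (nat_lit 3468) (.f (nat_lit 494) (nat_lit 526) (nat_lit 7565) (.f (nat_lit 400) (nat_lit 401) (nat_lit 2445) (.f (nat_lit 399) (nat_lit 428) (nat_lit 2444) (.d (nat_lit 367) (nat_lit 335) (nat_lit 4431) (nat_lit 398) (nat_lit 6510))))))) (.a (.f (nat_lit 429) (nat_lit 465) (nat_lit 429) (.f (nat_lit 400) (nat_lit 401) (nat_lit 2445) (.f (nat_lit 399) (nat_lit 428) (nat_lit 2444) (.f (nat_lit 367) (nat_lit 335) (nat_lit 4431) (.d (nat_lit 494) (nat_lit 398) (nat_lit 6510) (nat_lit 526) (nat_lit 6542)))))) (.a (.f (nat_lit 465) (nat_lit 429) (nat_lit 429) (.d (nat_lit 466) (nat_lit 433) (nat_lit 430) (nat_lit 467) (nat_lit 3503))) (.a s68826 s69491)))))) (.p (nat_lit 431) (.a (.f (nat_lit 429) (nat_lit 465) (nat_lit 429) (.d (nat_lit 461) (nat_lit 433) (nat_lit 1453) (nat_lit 460) (nat_lit 1452))) (.a (.f (nat_lit 433) (nat_lit 461) (nat_lit 1453) (.f (nat_lit 398) (nat_lit 397) (nat_lit 3469) (.f (nat_lit 434) (nat_lit 399) (nat_lit 3470) (.d (nat_lit 402) (nat_lit 401) (nat_lit 2446) (nat_lit 403) (nat_lit 2447))))) (.a (.f (nat_lit 429) (nat_lit 465) (nat_lit 429) (.f (nat_lit 461) (nat_lit 460) (nat_lit 1452) (.f (nat_lit 397) (nat_lit 396) (nat_lit 3468) (.f (nat_lit 365) (nat_lit 333) (nat_lit 4429) (.f (nat_lit 366) (nat_lit 334) (nat_lit 6477) (.f (nat_lit 398) (nat_lit 493) (nat_lit 5485) (.f (nat_lit 400) (nat_lit 401) (nat_lit 2445) (.d (nat_lit 399) (nat_lit 364) (nat_lit 3436) (nat_lit 428) (nat_lit 2444))))))))) (.f (nat_lit 465) (nat_lit 429) (nat_lit 429) (.d (nat_lit 466) (nat_lit 433) (nat_lit 430) (nat_lit 467) (nat_lit 3503)))))))))))))))))))) (.a (.p (nat_lit 494) (.a s67609 (.a s67621 (.a (.p (nat_lit 526) (.a (.f (nat_lit 527) (nat_lit 559) (nat_lit 4526) (.d (nat_lit 525) (nat_lit 557) (nat_lit 5549) (nat_lit 561) (nat_lit 525))) (.a (.f (nat_lit 527) (nat_lit 559) (nat_lit 4526) (.f (nat_lit 398) (nat_lit 495) (nat_lit 4494) (.d (nat_lit 399) (nat_lit 367) (nat_lit 6510) (nat_lit 431) (nat_lit 6542)))) (.f (nat_lit 525) (nat_lit 557) (nat_lit 5549) (.f (nat_lit 398) (nat_lit 493) (nat_lit 5517) (.d (nat_lit 399) (nat_lit 367) (nat_lit 6510) (nat_lit 431) (nat_lit 6542))))))) (.a s67848 (.a (.p (nat_lit 526) (.a (.f (nat_lit 527) (nat_lit 559) (nat_lit 4526) (.d (nat_lit 525) (nat_lit 557) (nat_lit 5549) (nat_lit 561) (nat_lit 525))) (.a (.f (nat_lit 527) (nat_lit 559) (nat_lit 4526) (.f (nat_lit 398) (nat_lit 495) (nat_lit 4494) (.d (nat_lit 397) (nat_lit 365) (nat_lit 7533) (nat_lit 429) (nat_lit 7565)))) (.f (nat_lit 557) (nat_lit 525) (nat_lit 5549) (.f (nat_lit 558) (nat_lit 589) (nat_lit 5581) (.d (nat_lit 429) (nat_lit 397) (nat_lit 7565) (nat_lit 461) (nat_lit 7597))))))) (.a s67853 (.p (nat_lit 398) (.a (.f (nat_lit 365) (nat_lit 397) (nat_lit 7533) (.f (nat_lit 366) (nat_lit 333) (nat_lit 7501) (.d (nat_lit 367) (nat_lit 335) (nat_lit 6478) (nat_lit 399) (nat_lit 6510)))) (.a (.f (nat_lit 493) (nat_lit 525) (nat_lit 5517) (.f (nat_lit 366) (nat_lit 461) (nat_lit 5485) (.d (nat_lit 367) (nat_lit 335) (nat_lit 6478) (nat_lit 399) (nat_lit 6510)))) (.a (.f (nat_lit 493) (nat_lit 525) (nat_lit 5517) (.f (nat_lit 365) (nat_lit 397) (nat_lit 7533) (.d (nat_lit 366) (nat_lit 333) (nat_lit 7501) (nat_lit 461) (nat_lit 5485)))) (.f (nat_lit 399) (nat_lit 367) (nat_lit 6510) (.p (nat_lit 400) (.a (.f (nat_lit 397) (nat_lit 365) (nat_lit 7533) (.d (nat_lit 429) (nat_lit 401) (nat_lit 1421) (nat_lit 428) (nat_lit 1420))) (.a (.f (nat_lit 401) (nat_lit 429) (nat_lit 1421) (.f (nat_lit 433) (nat_lit 434) (nat_lit 398) (.f (nat_lit 432) (nat_lit 397) (nat_lit 397) (.d (nat_lit 369) (nat_lit 337) (nat_lit 5456) (nat_lit 370) (nat_lit 2414))))) (.a (.f (nat_lit 401) (nat_lit 429) (nat_lit 1421) (.f (nat_lit 402) (nat_lit 431) (nat_lit 1422) (.d (nat_lit 434) (nat_lit 433) (nat_lit 398) (nat_lit 435) (nat_lit 399)))) (.a (.f (nat_lit 397) (nat_lit 365) (nat_lit 7533) (.f (nat_lit 432) (nat_lit 433) (nat_lit 397) (.f (nat_lit 429) (nat_lit 428) (nat_lit 1420) (.f (nat_lit 368) (nat_lit 369) (nat_lit 2413) (.d (nat_lit 465) (nat_lit 431) (nat_lit 429) (nat_lit 497) (nat_lit 4464)))))) (.f (nat_lit 397) (nat_lit 365) (nat_lit 7533) (.f (nat_lit 433) (nat_lit 432) (nat_lit 397) (.f (nat_lit 401) (nat_lit 434) (nat_lit 398) (.d (nat_lit 369) (nat_lit 368) (nat_lit 2413) (nat_lit 370) (nat_lit 2414)))))))))))))))))))))) (.a (.p (nat_lit 526) (.a (.p (nat_lit 494) (.a (.f (nat_lit 527) (nat_lit 559) (nat_lit 4526) (.d (nat_lit 525) (nat_lit 557) (nat_lit 5549) (nat_lit 561) (nat_lit 525))) (.a (.f (nat_lit 527) (nat_lit 559) (nat_lit 4526) (.f (nat_lit 398) (nat_lit 495) (nat_lit 4494) (.d (nat_lit 399) (nat_lit 367) (nat_lit 6510) (nat_lit 431) (nat_lit 6542)))) (.f (nat_lit 525) (nat_lit 557) (nat_lit 5549) (.f (nat_lit 398) (nat_lit 493) (nat_lit 5517) (.d (nat_lit 399) (nat_lit 367) (nat_lit 6510) (nat_lit 431) (nat_lit 6542))))))) (.a (.p (nat_lit 494) (.a (.f (nat_lit 527) (nat_lit 559) (nat_lit 4526) (.d (nat_lit 525) (nat_lit 557) (nat_lit 5549) (nat_lit 561) (nat_lit 525))) (.a (.f (nat_lit 559) (nat_lit 527) (nat_lit 4526) (.f (nat_lit 558) (nat_lit 591) (nat_lit 4558) (.f (nat_lit 589) (nat_lit 557) (nat_lit 5581) (.d (nat_lit 590) (nat_lit 561) (nat_lit 1581) (nat_lit 621) (nat_lit 5613))))) (.a (.f (nat_lit 557) (nat_lit 525) (nat_lit 5549) (.f (nat_lit 558) (nat_lit 589) (nat_lit 5581) (.f (nat_lit 461) (nat_lit 429) (nat_lit 7597) (.f (nat_lit 591) (nat_lit 559) (nat_lit 4558) (.d (nat_lit 590) (nat_lit 493) (nat_lit 7629) (nat_lit 623) (nat_lit 4590)))))) (.a (.f (nat_lit 527) (nat_lit 559) (nat_lit 4526) (.f (nat_lit 495) (nat_lit 398) (nat_lit 4494) (.f (nat_lit 492) (nat_lit 493) (nat_lit 492) (.f (nat_lit 525) (nat_lit 561) (nat_lit 525) (.d (nat_lit 524) (nat_lit 491) (nat_lit 3563) (nat_lit 523) (nat_lit 2539)))))) (.f (nat_lit 525) (nat_lit 557) (nat_lit 5549) (.f (nat_lit 493) (nat_lit 398) (nat_lit 5517) (.d (nat_lit 527) (nat_lit 492) (nat_lit 3564) (nat_lit 561) (nat_lit 525))))))))) (.a s69514 (.a (.p (nat_lit 527) (.a (.f (nat_lit 494) (nat_lit 559) (nat_lit 4526) (.d (nat_lit 525) (nat_lit 557) (nat_lit 5549) (nat_lit 561) (nat_lit 525))) (.a (.f (nat_lit 525) (nat_lit 561) (nat_lit 525) (.f (nat_lit 524) (nat_lit 559) (nat_lit 524) (.d (nat_lit 556) (nat_lit 555) (nat_lit 1547) (nat_lit 557) (nat_lit 1548)))) (.a (.f (nat_lit 494) (nat_lit 559) (nat_lit 4526) (.f (nat_lit 398) (nat_lit 495) (nat_lit 4494) (.d (nat_lit 399) (nat_lit 367) (nat_lit 6510) (nat_lit 431) (nat_lit 6542)))) (.f (nat_lit 525) (nat_lit 561) (nat_lit 525) (.d (nat_lit 557) (nat_lit 494) (nat_lit 5549) (nat_lit 556) (nat_lit 1548))))))) (.a (.p (nat_lit 525) (.a (.f (nat_lit 527) (nat_lit 561) (nat_lit 525) (.f (nat_lit 524) (nat_lit 559) (nat_lit 524) (.d (nat_lit 556) (nat_lit 555) (nat_lit 1547) (nat_lit 557) (nat_lit 1548)))) (.a (.f (nat_lit 527) (nat_lit 561) (nat_lit 525) (.f (nat_lit 493) (nat_lit 492) (nat_lit 3564) (.d (nat_lit 557) (nat_lit 461) (nat_lit 6573) (nat_lit 556) (nat_lit 1548)))) (.a (.p (nat_lit 557) (.a (.f (nat_lit 493) (nat_lit 461) (nat_lit 6573) (.p (nat_lit 589) (.a (.f (nat_lit 492) (nat_lit 460) (nat_lit 7628) (.f (nat_lit 621) (nat_lit 524) (nat_lit 7660) (.d (nat_lit 622) (nat_lit 590) (nat_lit 4589) (nat_lit 654) (nat_lit 4621)))) (.a (.f (nat_lit 590) (nat_lit 622) (nat_lit 4589) (.f (nat_lit 588) (nat_lit 620) (nat_lit 5612) (.d (nat_lit 559) (nat_lit 558) (nat_lit 1580) (nat_lit 591) (nat_lit 2604)))) (.f (nat_lit 492) (nat_lit 460) (nat_lit 7628) (.f (nat_lit 621) (nat_lit 524) (nat_lit 7660) (.d (nat_lit 620) (nat_lit 588) (nat_lit 5612) (nat_lit 652) (nat_lit 5644)))))))) (.a (.f (nat_lit 493) (nat_lit 461) (nat_lit 6573) (.p (nat_lit 589) (.a (.f (nat_lit 590) (nat_lit 622) (nat_lit 4589) (.f (nat_lit 588) (nat_lit 620) (nat_lit 5612) (.d (nat_lit 559) (nat_lit 558) (nat_lit 1580) (nat_lit 591) (nat_lit 2604)))) (.a (.f (nat_lit 620) (nat_lit 588) (nat_lit 5612) (.f (nat_lit 621) (nat_lit 652) (nat_lit 5644) (.d (nat_lit 622) (nat_lit 590) (nat_lit 4589) (nat_lit 654) (nat_lit 4621)))) (.a (.f (nat_lit 622) (nat_lit 590) (nat_lit 4589) (.f (nat_lit 621) (nat_lit 654) (nat_lit 4621) (.f (nat_lit 653) (nat_lit 558) (nat_lit 6669) (.d (nat_lit 652) (nat_lit 620) (nat_lit 5644) (nat_lit 684) (nat_lit 5676))))) (.a (.f (nat_lit 620) (nat_lit 588) (nat_lit 5612) (.f (nat_lit 621) (nat_lit 652) (nat_lit 5644) (.f (nat_lit 653) (nat_lit 558) (nat_lit 6669) (.d (nat_lit 654) (nat_lit 622) (nat_lit 4621) (nat_lit 686) (nat_lit 4653))))) (.a (.f (nat_lit 622) (nat_lit 590) (nat_lit 4589) (.f (nat_lit 621) (nat_lit 654) (nat_lit 4621) (.f (nat_lit 558) (nat_lit 653) (nat_lit 6669) (.d (nat_lit 559) (nat_lit 561) (nat_lit 3597) (nat_lit 588) (nat_lit 1580))))) (.f (nat_lit 588) (nat_lit 620) (nat_lit 5612) (.f (nat_lit 558) (nat_lit 559) (nat_lit 1580) (.f (nat_lit 621) (nat_lit 653) (nat_lit 6669) (.f (nat_lit 524) (nat_lit 492) (nat_lit 7660) (.f (nat_lit 523) (nat_lit 522) (nat_lit 522) (.f (nat_lit 555) (nat_lit 554) (nat_lit 1546) (.f (nat_lit 587) (nat_lit 586) (nat_lit 2602) (.f (nat_lit 491) (nat_lit 490) (nat_lit 3562) (.f (nat_lit 556) (nat_lit 459) (nat_lit 4555) (.f (nat_lit 590) (nat_lit 591) (nat_lit 555) (.d (nat_lit 619) (nat_lit 618) (nat_lit 1610) (nat_lit 651) (nat_lit 6667))))))))))))))))))) (.a (.p (nat_lit 524) (.a (.p (nat_lit 492) (.a (.f (nat_lit 589) (nat_lit 621) (nat_lit 7660) (.d (nat_lit 460) (nat_lit 428) (nat_lit 4524) (nat_lit 493) (nat_lit 7628))) (.a (.f (nat_lit 589) (nat_lit 621) (nat_lit 7660) (.d (nat_lit 460) (nat_lit 493) (nat_lit 7628) (nat_lit 556) (nat_lit 4556))) (.f (nat_lit 558) (nat_lit 559) (nat_lit 3596) (.f (nat_lit 523) (nat_lit 522) (nat_lit 522) (.f (nat_lit 491) (nat_lit 490) (nat_lit 3562) (.f (nat_lit 555) (nat_lit 554) (nat_lit 1546) (.f (nat_lit 587) (nat_lit 619) (nat_lit 6635) (.d (nat_lit 586) (nat_lit 556) (nat_lit 1578) (nat_lit 618) (nat_lit 5610)))))))))) (.a s69578 (.a s69595 (.a s69607 (.a (.f (nat_lit 558) (nat_lit 559) (nat_lit 3596) (.p (nat_lit 590) (.a (.d (nat_lit 622) (nat_lit 493) (nat_lit 7661) (nat_lit 654) (nat_lit 7693)) (.f (nat_lit 523) (nat_lit 522) (nat_lit 522) (.f (nat_lit 555) (nat_lit 554) (nat_lit 1546) (.f (nat_lit 556) (nat_lit 591) (nat_lit 555) (.f (nat_lit 491) (nat_lit 490) (nat_lit 3562) (.d (nat_lit 459) (nat_lit 427) (nat_lit 4523) (nat_lit 588) (nat_lit 4555))))))))) (.a s69623 (.a s69655 (.a s69687 (.a s69695 (.p (nat_lit 492) (.a (.f (nat_lit 589) (nat_lit 621) (nat_lit 7660) (.d (nat_lit 460) (nat_lit 428) (nat_lit 4524) (nat_lit 493) (nat_lit 7628))) (.a (.f (nat_lit 589) (nat_lit 621) (nat_lit 7660) (.d (nat_lit 460) (nat_lit 493) (nat_lit 7628) (nat_lit 556) (nat_lit 4556))) (.a (.p (nat_lit 523) (.a (.f (nat_lit 491) (nat_lit 490) (nat_lit 3562) (.f (nat_lit 555) (nat_lit 554) (nat_lit 1546) (.f (nat_lit 587) (nat_lit 619) (nat_lit 6635) (.f (nat_lit 588) (nat_lit 620) (nat_lit 4587) (.f (nat_lit 556) (nat_lit 459) (nat_lit 4555) (.d (nat_lit 586) (nat_lit 585) (nat_lit 2601) (nat_lit 618) (nat_lit 5610))))))) (.a (.f (nat_lit 490) (nat_lit 491) (nat_lit 3562) (.f (nat_lit 522) (nat_lit 489) (nat_lit 3561) (.d (nat_lit 521) (nat_lit 493) (nat_lit 2537) (nat_lit 556) (nat_lit 521)))) (.a (.f (nat_lit 554) (nat_lit 555) (nat_lit 1546) (.f (nat_lit 522) (nat_lit 553) (nat_lit 1545) (.d (nat_lit 521) (nat_lit 493) (nat_lit 2537) (nat_lit 556) (nat_lit 521)))) (.f (nat_lit 490) (nat_lit 491) (nat_lit 3562) (.f (nat_lit 522) (nat_lit 489) (nat_lit 3561) (.d (nat_lit 554) (nat_lit 553) (nat_lit 1545) (nat_lit 555) (nat_lit 1546)))))))) (.f (nat_lit 589) (nat_lit 621) (nat_lit 7660) (.d (nat_lit 460) (nat_lit 428) (nat_lit 4524) (nat_lit 556) (nat_lit 4556))))))))))))))))) (.a (.f (nat_lit 493) (nat_lit 461) (nat_lit 6573) (.p (nat_lit 589) (.a (.f (nat_lit 590) (nat_lit 622) (nat_lit 4589) (.f (nat_lit 588) (nat_lit 620) (nat_lit 5612) (.d (nat_lit 559) (nat_lit 558) (nat_lit 1580) (nat_lit 591) (nat_lit 2604)))) (.a (.f (nat_lit 620) (nat_lit 588) (nat_lit 5612) (.f (nat_lit 621) (nat_lit 652) (nat_lit 5644) (.d (nat_lit 622) (nat_lit 590) (nat_lit 4589) (nat_lit 654) (nat_lit 4621)))) (.a (.f (nat_lit 622) (nat_lit 590) (nat_lit 4589) (.f (nat_lit 621) (nat_lit 654) (nat_lit 4621) (.f (nat_lit 653) (nat_lit 558) (nat_lit 6669) (.d (nat_lit 652) (nat_lit 620) (nat_lit 5644) (nat_lit 684) (nat_lit 5676))))) (.a (.f (nat_lit 620) (nat_lit 588) (nat_lit 5612) (.f (nat_lit 621) (nat_lit 652) (nat_lit 5644) (.f (nat_lit 653) (nat_lit 558) (nat_lit 6669) (.d (nat_lit 654) (nat_lit 622) (nat_lit 4621) (nat_lit 686) (nat_lit 4653))))) (.a (.f (nat_lit 622) (nat_lit 590) (nat_lit 4589) (.f (nat_lit 621) (nat_lit 654) (nat_lit 4621) (.f (nat_lit 558) (nat_lit 653) (nat_lit 6669) (.d (nat_lit 559) (nat_lit 561) (nat_lit 3597) (nat_lit 588) (nat_lit 1580))))) (.f (nat_lit 620) (nat_lit 588) (nat_lit 5612) (.f (nat_lit 621) (nat_lit 652) (nat_lit 5644) (.f (nat_lit 558) (nat_lit 653) (nat_lit 6669) (.d (nat_lit 559) (nat_lit 524) (nat_lit 3596) (nat_lit 561) (nat_lit 3597)))))))))))) (.a (.p (nat_lit 524) (.a s69623 (.a s69725 (.a (.f (nat_lit 558) (nat_lit 559) (nat_lit 3596) (.p (nat_lit 556) (.a (.f (nat_lit 555) (nat_lit 554) (nat_lit 2570) (.f (nat_lit 523) (nat_lit 522) (nat_lit 522) (.f (nat_lit 491) (nat_lit 490) (nat_lit 3562) (.d (nat_lit 459) (nat_lit 427) (nat_lit 4523) (nat_lit 588) (nat_lit 4555))))) (.a (.f (nat_lit 555) (nat_lit 554) (nat_lit 2570) (.f (nat_lit 523) (nat_lit 522) (nat_lit 522) (.f (nat_lit 587) (nat_lit 586) (nat_lit 1578) (.d (nat_lit 619) (nat_lit 492) (nat_lit 6635) (nat_lit 651) (nat_lit 6667))))) (.a (.f (nat_lit 555) (nat_lit 554) (nat_lit 2570) (.f (nat_lit 587) (nat_lit 586) (nat_lit 1578) (.f (nat_lit 619) (nat_lit 651) (nat_lit 6667) (.d (nat_lit 492) (nat_lit 523) (nat_lit 6635) (nat_lit 588) (nat_lit 5611))))) (.a (.f (nat_lit 555) (nat_lit 554) (nat_lit 2570) (.f (nat_lit 587) (nat_lit 586) (nat_lit 1578) (.f (nat_lit 619) (nat_lit 651) (nat_lit 6667) (.f (nat_lit 588) (nat_lit 492) (nat_lit 5611) (.f (nat_lit 590) (nat_lit 591) (nat_lit 555) (.f (nat_lit 589) (nat_lit 618) (nat_lit 1610) (.d (nat_lit 622) (nat_lit 623) (nat_lit 587) (nat_lit 654) (nat_lit 7693)))))))) (.f (nat_lit 523) (nat_lit 522) (nat_lit 522) (.f (nat_lit 491) (nat_lit 490) (nat_lit 3562) (.f (nat_lit 588) (nat_lit 620) (nat_lit 7659) (.d (nat_lit 459) (nat_lit 427) (nat_lit 4523) (nat_lit 492) (nat_lit 7627))))))))))) (.a s69739 (.a (.f (nat_lit 558) (nat_lit 559) (nat_lit 3596) s69763) (.a (.f (nat_lit 558) (nat_lit 559) (nat_lit 3596) (.p (nat_lit 555) (.a (.d (nat_lit 523) (nat_lit 522) (nat_lit 522) (nat_lit 554) (nat_lit 1546)) (.a (.d (nat_lit 554) (nat_lit 523) (nat_lit 1546) (nat_lit 556) (nat_lit 2570)) (.a (.f (nat_lit 556) (nat_lit 554) (nat_lit 2570) (.f (nat_lit 587) (nat_lit 586) (nat_lit 1578) (.f (nat_lit 590) (nat_lit 591) (nat_lit 555) (.f (nat_lit 622) (nat_lit 654) (nat_lit 7693) (.f (nat_lit 621) (nat_lit 653) (nat_lit 5645) (.f (nat_lit 623) (nat_lit 655) (nat_lit 4622) (.d (nat_lit 588) (nat_lit 589) (nat_lit 587) (nat_lit 620) (nat_lit 3659)))))))) (.p (nat_lit 556) (.a (.f (nat_lit 523) (nat_lit 522) (nat_lit 3594) (.f (nat_lit 491) (nat_lit 490) (nat_lit 3562) (.d (nat_lit 459) (nat_lit 427) (nat_lit 4523) (nat_lit 588) (nat_lit 4555)))) (.a (.f (nat_lit 523) (nat_lit 522) (nat_lit 3594) (.f (nat_lit 491) (nat_lit 490) (nat_lit 3562) (.d (nat_lit 588) (nat_lit 459) (nat_lit 4555) (nat_lit 620) (nat_lit 7659)))) (.a (.f (nat_lit 523) (nat_lit 522) (nat_lit 3594) (.f (nat_lit 587) (nat_lit 586) (nat_lit 1578) (.f (nat_lit 491) (nat_lit 490) (nat_lit 3562) (.f (nat_lit 620) (nat_lit 588) (nat_lit 4587) (.d (nat_lit 619) (nat_lit 651) (nat_lit 6667) (nat_lit 652) (nat_lit 4619)))))) (.a (.f (nat_lit 523) (nat_lit 522) (nat_lit 3594) (.f (nat_lit 587) (nat_lit 586) (nat_lit 1578) (.f (nat_lit 619) (nat_lit 651) (nat_lit 6667) (.f (nat_lit 620) (nat_lit 652) (nat_lit 4619) (.f (nat_lit 588) (nat_lit 491) (nat_lit 4587) (.f (nat_lit 590) (nat_lit 591) (nat_lit 555) (.d (nat_lit 618) (nat_lit 589) (nat_lit 1610) (nat_lit 650) (nat_lit 5642)))))))) (.a (.f (nat_lit 523) (nat_lit 522) (nat_lit 522) (.f (nat_lit 587) (nat_lit 586) (nat_lit 1578) (.f (nat_lit 619) (nat_lit 651) (nat_lit 6667) (.f (nat_lit 620) (nat_lit 652) (nat_lit 4619) (.f (nat_lit 590) (nat_lit 591) (nat_lit 555) (.f (nat_lit 618) (nat_lit 650) (nat_lit 5642) (.d (nat_lit 589) (nat_lit 588) (nat_lit 1610) (nat_lit 621) (nat_lit 2634)))))))) (.a (.f (nat_lit 590) (nat_lit 591) (nat_lit 555) (.f (nat_lit 622) (nat_lit 654) (nat_lit 7693) (.f (nat_lit 621) (nat_lit 653) (nat_lit 5645) (.f (nat_lit 587) (nat_lit 586) (nat_lit 1578) (.f (nat_lit 623) (nat_lit 655) (nat_lit 4622) (.d (nat_lit 588) (nat_lit 589) (nat_lit 587) (nat_lit 620) (nat_lit 3659))))))) (.f (nat_lit 523) (nat_lit 522) (nat_lit 3594) (.f (nat_lit 491) (nat_lit 490) (nat_lit 3562) (.f (nat_lit 459) (nat_lit 427) (nat_lit 4523) (.f (nat_lit 460) (nat_lit 428) (nat_lit 6571) (.f (nat_lit 458) (nat_lit 426) (nat_lit 7594) (.d (nat_lit 461) (nat_lit 429) (nat_lit 2474) (nat_lit 431) (nat_lit 2475))))))))))))))))))) (.a (.p (nat_lit 523) (.a (.p (nat_lit 556) (.a (.f (nat_lit 558) (nat_lit 559) (nat_lit 3596) (.f (nat_lit 555) (nat_lit 554) (nat_lit 2570) (.f (nat_lit 587) (nat_lit 586) (nat_lit 1578) (.d (nat_lit 492) (nat_lit 460) (nat_lit 5579) (nat_lit 619) (nat_lit 6635))))) (.a (.f (nat_lit 555) (nat_lit 554) (nat_lit 1546) (.f (nat_lit 491) (nat_lit 490) (nat_lit 3562) (.d (nat_lit 459) (nat_lit 427) (nat_lit 4523) (nat_lit 588) (nat_lit 4555)))) (.f (nat_lit 491) (nat_lit 490) (nat_lit 3562) (.f (nat_lit 588) (nat_lit 620) (nat_lit 7659) (.d (nat_lit 459) (nat_lit 427) (nat_lit 4523) (nat_lit 492) (nat_lit 7627))))))) (.a (.p (nat_lit 556) (.a (.f (nat_lit 558) (nat_lit 559) (nat_lit 3596) (.f (nat_lit 555) (nat_lit 554) (nat_lit 2570) (.f (nat_lit 587) (nat_lit 586) (nat_lit 1578) (.d (nat_lit 492) (nat_lit 460) (nat_lit 5579) (nat_lit 619) (nat_lit 6635))))) (.a (.f (nat_lit 558) (nat_lit 559) (nat_lit 3596) (.f (nat_lit 555) (nat_lit 554) (nat_lit 1546) (.f (nat_lit 587) (nat_lit 586) (nat_lit 1578) (.d (nat_lit 619) (nat_lit 492) (nat_lit 6635) (nat_lit 651) (nat_lit 6667))))) (.a (.f (nat_lit 555) (nat_lit 554) (nat_lit 1546) (.f (nat_lit 491) (nat_lit 490) (nat_lit 3562) (.d (nat_lit 588) (nat_lit 459) (nat_lit 4555) (nat_lit 620) (nat_lit 7659)))) (.a (.f (nat_lit 491) (nat_lit 490) (nat_lit 3562) (.f (nat_lit 588) (nat_lit 620) (nat_lit 7659) (.d (nat_lit 459) (nat_lit 492) (nat_lit 7627) (nat_lit 555) (nat_lit 4555)))) (.f (nat_lit 491) (nat_lit 490) (nat_lit 3562) (.f (nat_lit 588) (nat_lit 620) (nat_lit 7659) (.f (nat_lit 492) (nat_lit 459) (nat_lit 7627) (.d (nat_lit 460) (nat_lit 428) (nat_lit 4524) (nat_lit 589) (nat_lit 4556)))))))))) (.a (.p (nat_lit 492) (.a (.f (nat_lit 460) (nat_lit 428) (nat_lit 4524) (.d (nat_lit 589) (nat_lit 556) (nat_lit 4556) (nat_lit 621) (nat_lit 7660))) (.a (.f (nat_lit 555) (nat_lit 554) (nat_lit 1546) (.f (nat_lit 587) (nat_lit 619) (nat_lit 6635) (.d (nat_lit 491) (nat_lit 460) (nat_lit 6603) (nat_lit 490) (nat_lit 3562)))) (.f (nat_lit 558) (nat_lit 559) (nat_lit 3596) (.f (nat_lit 555) (nat_lit 554) (nat_lit 1546) (.f (nat_lit 587) (nat_lit 619) (nat_lit 6635) (.f (nat_lit 491) (nat_lit 490) (nat_lit 3562) (.d (nat_lit 586) (nat_lit 556) (nat_lit 1578) (nat_lit 618) (nat_lit 5610))))))))) (.a (.p (nat_lit 556) (.a (.f (nat_lit 555) (nat_lit 554) (nat_lit 1546) (.f (nat_lit 491) (nat_lit 490) (nat_lit 3562) (.d (nat_lit 459) (nat_lit 427) (nat_lit 4523) (nat_lit 588) (nat_lit 4555)))) (.a (.f (nat_lit 558) (nat_lit 559) (nat_lit 3596) (.f (nat_lit 555) (nat_lit 554) (nat_lit 1546) (.f (nat_lit 587) (nat_lit 586) (nat_lit 1578) (.d (nat_lit 619) (nat_lit 492) (nat_lit 6635) (nat_lit 651) (nat_lit 6667))))) (.f (nat_lit 491) (nat_lit 490) (nat_lit 3562) (.f (nat_lit 588) (nat_lit 620) (nat_lit 7659) (.d (nat_lit 459) (nat_lit 427) (nat_lit 4523) (nat_lit 492) (nat_lit 7627))))))) (.a s69858 (.a (.f (nat_lit 558) (nat_lit 559) (nat_lit 523) (.p (nat_lit 590) (.a (.f (nat_lit 555) (nat_lit 554) (nat_lit 1546) (.f (nat_lit 556) (nat_lit 591) (nat_lit 555) (.f (nat_lit 587) (nat_lit 586) (nat_lit 1578) (.d (nat_lit 492) (nat_lit 460) (nat_lit 5579) (nat_lit 619) (nat_lit 6635))))) (.a (.f (nat_lit 555) (nat_lit 554) (nat_lit 1546) (.f (nat_lit 622) (nat_lit 654) (nat_lit 7693) (.f (nat_lit 621) (nat_lit 653) (nat_lit 5645) (.f (nat_lit 589) (nat_lit 492) (nat_lit 7660) (.f (nat_lit 620) (nat_lit 652) (nat_lit 5644) (.d (nat_lit 591) (nat_lit 556) (nat_lit 555) (nat_lit 619) (nat_lit 2635))))))) (.a (.f (nat_lit 622) (nat_lit 654) (nat_lit 7693) (.f (nat_lit 555) (nat_lit 554) (nat_lit 1546) (.f (nat_lit 621) (nat_lit 653) (nat_lit 5645) (.f (nat_lit 623) (nat_lit 655) (nat_lit 4622) (.f (nat_lit 556) (nat_lit 591) (nat_lit 555) (.f (nat_lit 587) (nat_lit 586) (nat_lit 1578) (.d (nat_lit 588) (nat_lit 589) (nat_lit 587) (nat_lit 620) (nat_lit 3659)))))))) (.f (nat_lit 622) (nat_lit 654) (nat_lit 7693) (.f (nat_lit 621) (nat_lit 653) (nat_lit 5645) (.f (nat_lit 589) (nat_lit 492) (nat_lit 7660) (.f (nat_lit 623) (nat_lit 655) (nat_lit 4622) (.d (nat_lit 624) (nat_lit 588) (nat_lit 3660) (nat_lit 625) (nat_lit 3661))))))))))) (.a (.f (nat_lit 555) (nat_lit 554) (nat_lit 1546) (.p (nat_lit 556) (.a (.f (nat_lit 491) (nat_lit 490) (nat_lit 3562) (.d (nat_lit 459) (nat_lit 427) (nat_lit 4523) (nat_lit 588) (nat_lit 4555))) (.a (.f (nat_lit 491) (nat_lit 490) (nat_lit 3562) (.d (nat_lit 588) (nat_lit 459) (nat_lit 4555) (nat_lit 620) (nat_lit 7659))) (.a (.f (nat_lit 558) (nat_lit 559) (nat_lit 3595) (.f (nat_lit 587) (nat_lit 586) (nat_lit 1578) (.f (nat_lit 491) (nat_lit 490) (nat_lit 3562) (.f (nat_lit 620) (nat_lit 588) (nat_lit 4587) (.d (nat_lit 619) (nat_lit 651) (nat_lit 6667) (nat_lit 652) (nat_lit 4619)))))) (.a (.f (nat_lit 558) (nat_lit 559) (nat_lit 523) (.f (nat_lit 587) (nat_lit 586) (nat_lit 1578) (.f (nat_lit 619) (nat_lit 651) (nat_lit 6667) (.f (nat_lit 620) (nat_lit 652) (nat_lit 4619) (.f (nat_lit 588) (nat_lit 491) (nat_lit 4587) (.f (nat_lit 590) (nat_lit 591) (nat_lit 555) (.d (nat_lit 618) (nat_lit 589) (nat_lit 1610) (nat_lit 650) (nat_lit 5642)))))))) (.a (.f (nat_lit 558) (nat_lit 559) (nat_lit 3596) (.f (nat_lit 587) (nat_lit 586) (nat_lit 1578) (.f (nat_lit 619) (nat_lit 651) (nat_lit 6667) (.f (nat_lit 620) (nat_lit 652) (nat_lit 4619) (.f (nat_lit 590) (nat_lit 591) (nat_lit 555) (.f (nat_lit 618) (nat_lit 650) (nat_lit 5642) (.d (nat_lit 589) (nat_lit 588) (nat_lit 1610) (nat_lit 621) (nat_lit 2634)))))))) (.f (nat_lit 491) (nat_lit 490) (nat_lit 3562) (.f (nat_lit 459) (nat_lit 427) (nat_lit 4523) (.f (nat_lit 460) (nat_lit 428) (nat_lit 6571) (.f (nat_lit 458) (nat_lit 426) (nat_lit 7594) (.d (nat_lit 461) (nat_lit 429) (nat_lit 2474) (nat_lit 431) (nat_lit 2475))))))))))))) (.a (.p (nat_lit 492) (.a (.f (nat_lit 460) (nat_lit 428) (nat_lit 4524) (.d (nat_lit 589) (nat_lit 556) (nat_lit 4556) (nat_lit 621) (nat_lit 7660))) (.a (.f (nat_lit 589) (nat_lit 621) (nat_lit 7660) (.f (nat_lit 556) (nat_lit 460) (nat_lit 4556) (.f (nat_lit 491) (nat_lit 490) (nat_lit 3562) (.d (nat_lit 588) (nat_lit 459) (nat_lit 7627) (nat_lit 620) (nat_lit 7659))))) (.a (.p (nat_lit 588) (.a (.f (nat_lit 491) (nat_lit 490) (nat_lit 3562) (.d (nat_lit 556) (nat_lit 459) (nat_lit 7627) (nat_lit 620) (nat_lit 7659))) (.a (.f (nat_lit 558) (nat_lit 559) (nat_lit 3596) (.f (nat_lit 589) (nat_lit 621) (nat_lit 7660) (.f (nat_lit 587) (nat_lit 586) (nat_lit 2602) (.d (nat_lit 619) (nat_lit 555) (nat_lit 6635) (nat_lit 556) (nat_lit 5611))))) (.f (nat_lit 558) (nat_lit 559) (nat_lit 3596) (.f (nat_lit 589) (nat_lit 621) (nat_lit 7660) (.f (nat_lit 587) (nat_lit 586) (nat_lit 2602) (.f (nat_lit 491) (nat_lit 490) (nat_lit 3562) (.d (nat_lit 555) (nat_lit 619) (nat_lit 6635) (nat_lit 620) (nat_lit 4587))))))))) (.p (nat_lit 459) (.a (.f (nat_lit 460) (nat_lit 428) (nat_lit 4524) (.f (nat_lit 491) (nat_lit 490) (nat_lit 3562) (.f (nat_lit 427) (nat_lit 395) (nat_lit 4491) (.d (nat_lit 461) (nat_lit 426) (nat_lit 3498) (nat_lit 431) (nat_lit 2475))))) (.a (.f (nat_lit 460) (nat_lit 428) (nat_lit 4524) (.f (nat_lit 461) (nat_lit 431) (nat_lit 2475) (.f (nat_lit 458) (nat_lit 429) (nat_lit 2474) (.d (nat_lit 426) (nat_lit 425) (nat_lit 3497) (nat_lit 427) (nat_lit 3498))))) (.a (.f (nat_lit 460) (nat_lit 428) (nat_lit 4524) (.f (nat_lit 490) (nat_lit 491) (nat_lit 3562) (.f (nat_lit 461) (nat_lit 431) (nat_lit 2475) (.d (nat_lit 458) (nat_lit 429) (nat_lit 2474) (nat_lit 489) (nat_lit 1481))))) (.a (.f (nat_lit 491) (nat_lit 490) (nat_lit 3562) (.f (nat_lit 427) (nat_lit 395) (nat_lit 4491) (.f (nat_lit 426) (nat_lit 394) (nat_lit 7562) (.f (nat_lit 460) (nat_lit 461) (nat_lit 3498) (.d (nat_lit 555) (nat_lit 458) (nat_lit 7594) (nat_lit 587) (nat_lit 6603)))))) (.a (.f (nat_lit 491) (nat_lit 490) (nat_lit 3562) (.f (nat_lit 427) (nat_lit 395) (nat_lit 4491) (.f (nat_lit 428) (nat_lit 396) (nat_lit 6539) (.f (nat_lit 426) (nat_lit 394) (nat_lit 7562) (.d (nat_lit 429) (nat_lit 458) (nat_lit 1450) (nat_lit 461) (nat_lit 426)))))) (.f (nat_lit 491) (nat_lit 490) (nat_lit 3562) (.f (nat_lit 428) (nat_lit 460) (nat_lit 4524) (.d (nat_lit 427) (nat_lit 395) (nat_lit 4491) (nat_lit 396) (nat_lit 6539)))))))))))))) (.a (.p (nat_lit 460) (.a (.f (nat_lit 492) (nat_lit 428) (nat_lit 4524) (.d (nat_lit 589) (nat_lit 556) (nat_lit 4556) (nat_lit 621) (nat_lit 7660))) (.a (.p (nat_lit 459) (.a (.f (nat_lit 461) (nat_lit 431) (nat_lit 2475) (.f (nat_lit 491) (nat_lit 490) (nat_lit 3562) (.d (nat_lit 427) (nat_lit 426) (nat_lit 3498) (nat_lit 556) (nat_lit 4523)))) (.a (.f (nat_lit 491) (nat_lit 490) (nat_lit 3562) (.f (nat_lit 556) (nat_lit 427) (nat_lit 4523) (.d (nat_lit 588) (nat_lit 492) (nat_lit 7627) (nat_lit 620) (nat_lit 7659)))) (.a (.f (nat_lit 461) (nat_lit 431) (nat_lit 2475) (.f (nat_lit 490) (nat_lit 491) (nat_lit 3562) (.d (nat_lit 458) (nat_lit 429) (nat_lit 2474) (nat_lit 489) (nat_lit 1481)))) (.a (.f (nat_lit 461) (nat_lit 431) (nat_lit 2475) (.f (nat_lit 427) (nat_lit 426) (nat_lit 3498) (.d (nat_lit 556) (nat_lit 491) (nat_lit 4523) (nat_lit 492) (nat_lit 7595)))) (.f (nat_lit 461) (nat_lit 431) (nat_lit 2475) (.f (nat_lit 458) (nat_lit 429) (nat_lit 2474) (.d (nat_lit 426) (nat_lit 425) (nat_lit 3497) (nat_lit 427) (nat_lit 3498))))))))) (.a (.p (nat_lit 459) (.a (.f (nat_lit 461) (nat_lit 431) (nat_lit 2475) (.f (nat_lit 491) (nat_lit 490) (nat_lit 3562) (.d (nat_lit 427) (nat_lit 426) (nat_lit 3498) (nat_lit 556) (nat_lit 4523)))) (.a (.f (nat_lit 461) (nat_lit 431) (nat_lit 2475) (.f (nat_lit 490) (nat_lit 491) (nat_lit 3562) (.d (nat_lit 458) (nat_lit 429) (nat_lit 2474) (nat_lit 489) (nat_lit 1481)))) (.a (.f (nat_lit 491) (nat_lit 490) (nat_lit 3562) (.f (nat_lit 427) (nat_lit 556) (nat_lit 4523) (.d (nat_lit 426) (nat_lit 394) (nat_lit 7562) (nat_lit 461) (nat_lit 3498)))) (.a (.f (nat_lit 491) (nat_lit 490) (nat_lit 3562) (.f (nat_lit 427) (nat_lit 556) (nat_lit 4523) (.f (nat_lit 428) (nat_lit 396) (nat_lit 6539) (.d (nat_lit 429) (nat_lit 431) (nat_lit 1451) (nat_lit 458) (nat_lit 1450))))) (.f (nat_lit 461) (nat_lit 431) (nat_lit 2475) (.f (nat_lit 458) (nat_lit 429) (nat_lit 2474) (.d (nat_lit 426) (nat_lit 425) (nat_lit 3497) (nat_lit 427) (nat_lit 3498))))))))) (.p (nat_lit 459) (.a (.f (nat_lit 461) (nat_lit 431) (nat_lit 2475) (.f (nat_lit 490) (nat_lit 491) (nat_lit 3562) (.d (nat_lit 458) (nat_lit 429) (nat_lit 2474) (nat_lit 489) (nat_lit 1481)))) (.a (.f (nat_lit 491) (nat_lit 490) (nat_lit 3562) (.f (nat_lit 492) (nat_lit 428) (nat_lit 4524) (.f (nat_lit 427) (nat_lit 395) (nat_lit 4491) (.d (nat_lit 461) (nat_lit 426) (nat_lit 3498) (nat_lit 431) (nat_lit 2475))))) (.a (.f (nat_lit 491) (nat_lit 490) (nat_lit 3562) (.f (nat_lit 428) (nat_lit 492) (nat_lit 4524) (.d (nat_lit 396) (nat_lit 364) (nat_lit 5483) (nat_lit 427) (nat_lit 6539)))) (.f (nat_lit 461) (nat_lit 431) (nat_lit 2475) (.f (nat_lit 458) (nat_lit 429) (nat_lit 2474) (.d (nat_lit 426) (nat_lit 425) (nat_lit 3497) (nat_lit 427) (nat_lit 3498)))))))))))) s69981)))))))))) (.a (.p (nat_lit 556) (.a (.f (nat_lit 555) (nat_lit 554) (nat_lit 2570) (.f (nat_lit 558) (nat_lit 559) (nat_lit 3596) (.f (nat_lit 587) (nat_lit 586) (nat_lit 1578) (.f (nat_lit 492) (nat_lit 460) (nat_lit 5579) (.d (nat_lit 619) (nat_lit 588) (nat_lit 5611) (nat_lit 651) (nat_lit 6667)))))) (.a (.f (nat_lit 558) (nat_lit 559) (nat_lit 3596) (.f (nat_lit 555) (nat_lit 554) (nat_lit 2570) (.f (nat_lit 587) (nat_lit 586) (nat_lit 1578) (.f (nat_lit 619) (nat_lit 651) (nat_lit 6667) (.f (nat_lit 588) (nat_lit 492) (nat_lit 5611) (.f (nat_lit 590) (nat_lit 591) (nat_lit 555) (.f (nat_lit 589) (nat_lit 618) (nat_lit 1610) (.d (nat_lit 622) (nat_lit 623) (nat_lit 587) (nat_lit 654) (nat_lit 7693))))))))) (.a (.f (nat_lit 555) (nat_lit 554) (nat_lit 2570) (.f (nat_lit 558) (nat_lit 559) (nat_lit 3596) (.f (nat_lit 587) (nat_lit 586) (nat_lit 1578) (.f (nat_lit 590) (nat_lit 591) (nat_lit 555) (.f (nat_lit 622) (nat_lit 654) (nat_lit 7693) (.f (nat_lit 621) (nat_lit 653) (nat_lit 5645) (.f (nat_lit 623) (nat_lit 655) (nat_lit 4622) (.d (nat_lit 588) (nat_lit 589) (nat_lit 587) (nat_lit 620) (nat_lit 3659))))))))) (.a (.f (nat_lit 558) (nat_lit 559) (nat_lit 3596) (.p (nat_lit 590) (.a (.f (nat_lit 622) (nat_lit 654) (nat_lit 7693) (.f (nat_lit 621) (nat_lit 653) (nat_lit 5645) (.f (nat_lit 589) (nat_lit 492) (nat_lit 7660) (.f (nat_lit 620) (nat_lit 652) (nat_lit 5644) (.d (nat_lit 591) (nat_lit 555) (nat_lit 555) (nat_lit 619) (nat_lit 2635)))))) (.a (.f (nat_lit 622) (nat_lit 654) (nat_lit 7693) (.f (nat_lit 621) (nat_lit 653) (nat_lit 5645) (.f (nat_lit 623) (nat_lit 655) (nat_lit 4622) (.f (nat_lit 591) (nat_lit 555) (nat_lit 555) (.f (nat_lit 620) (nat_lit 619) (nat_lit 2635) (.d (nat_lit 652) (nat_lit 589) (nat_lit 5644) (nat_lit 651) (nat_lit 1643))))))) (.a (.f (nat_lit 622) (nat_lit 654) (nat_lit 7693) (.f (nat_lit 621) (nat_lit 653) (nat_lit 5645) (.f (nat_lit 589) (nat_lit 492) (nat_lit 7660) (.f (nat_lit 620) (nat_lit 652) (nat_lit 5644) (.d (nat_lit 619) (nat_lit 591) (nat_lit 2635) (nat_lit 618) (nat_lit 2634)))))) (.a (.f (nat_lit 555) (nat_lit 591) (nat_lit 555) (.f (nat_lit 587) (nat_lit 586) (nat_lit 1578) (.f (nat_lit 492) (nat_lit 460) (nat_lit 5579) (.d (nat_lit 619) (nat_lit 588) (nat_lit 5611) (nat_lit 651) (nat_lit 6667))))) (.f (nat_lit 622) (nat_lit 654) (nat_lit 7693) (.f (nat_lit 621) (nat_lit 653) (nat_lit 5645) (.f (nat_lit 589) (nat_lit 492) (nat_lit 7660) (.f (nat_lit 623) (nat_lit 655) (nat_lit 4622) (.d (nat_lit 624) (nat_lit 588) (nat_lit 3660) (nat_lit 625) (nat_lit 3661)))))))))))) (.a (.p (nat_lit 492) (.a (.d (nat_lit 460) (nat_lit 428) (nat_lit 4524) (nat_lit 589) (nat_lit 4556)) (.a (.d (nat_lit 589) (nat_lit 460) (nat_lit 4556) (nat_lit 621) (nat_lit 7660)) (.a (.p (nat_lit 588) (.a (.f (nat_lit 620) (nat_lit 652) (nat_lit 6668) (.d (nat_lit 619) (nat_lit 587) (nat_lit 5611) (nat_lit 651) (nat_lit 5643))) (.a (.f (nat_lit 621) (nat_lit 589) (nat_lit 7660) (.d (nat_lit 620) (nat_lit 652) (nat_lit 6668) (nat_lit 653) (nat_lit 4620))) (.f (nat_lit 589) (nat_lit 621) (nat_lit 7660) (.f (nat_lit 558) (nat_lit 559) (nat_lit 3596) (.d (nat_lit 587) (nat_lit 586) (nat_lit 2602) (nat_lit 619) (nat_lit 5611))))))) (.f (nat_lit 460) (nat_lit 428) (nat_lit 4524) (.f (nat_lit 459) (nat_lit 427) (nat_lit 7595) (.d (nat_lit 461) (nat_lit 429) (nat_lit 6572) (nat_lit 431) (nat_lit 2475)))))))) (.a (.p (nat_lit 492) (.a (.d (nat_lit 460) (nat_lit 428) (nat_lit 4524) (nat_lit 589) (nat_lit 4556)) (.a (.d (nat_lit 589) (nat_lit 460) (nat_lit 4556) (nat_lit 621) (nat_lit 7660)) (.a (.p (nat_lit 588) (.a (.f (nat_lit 620) (nat_lit 652) (nat_lit 6668) (.d (nat_lit 619) (nat_lit 587) (nat_lit 5611) (nat_lit 651) (nat_lit 5643))) (.a (.f (nat_lit 621) (nat_lit 589) (nat_lit 7660) (.d (nat_lit 620) (nat_lit 652) (nat_lit 6668) (nat_lit 653) (nat_lit 4620))) (.f (nat_lit 589) (nat_lit 621) (nat_lit 4588) (.f (nat_lit 554) (nat_lit 555) (nat_lit 2570) (.f (nat_lit 587) (nat_lit 619) (nat_lit 5611) (.d (nat_lit 586) (nat_lit 553) (nat_lit 3625) (nat_lit 585) (nat_lit 2601)))))))) (.f (nat_lit 460) (nat_lit 428) (nat_lit 4524) (.f (nat_lit 459) (nat_lit 427) (nat_lit 7595) (.d (nat_lit 461) (nat_lit 429) (nat_lit 6572) (nat_lit 431) (nat_lit 2475)))))))) (.a (.f (nat_lit 555) (nat_lit 554) (nat_lit 2570) (.f (nat_lit 558) (nat_lit 559) (nat_lit 3596) (.f (nat_lit 590) (nat_lit 591) (nat_lit 555) (.f (nat_lit 622) (nat_lit 654) (nat_lit 7693) (.f (nat_lit 621) (nat_lit 653) (nat_lit 5645) (.f (nat_lit 492) (nat_lit 589) (nat_lit 7660) (.d (nat_lit 460) (nat_lit 428) (nat_lit 4524) (nat_lit 587) (nat_lit 5579)))))))) (.f (nat_lit 558) (nat_lit 559) (nat_lit 3596) (.f (nat_lit 555) (nat_lit 554) (nat_lit 2570) (.f (nat_lit 590) (nat_lit 591) (nat_lit 555) (.f (nat_lit 622) (nat_lit 654) (nat_lit 7693) (.f (nat_lit 621) (nat_lit 653) (nat_lit 5645) (.f (nat_lit 492) (nat_lit 589) (nat_lit 7660) (.f (nat_lit 460) (nat_lit 428) (nat_lit 4524) (.f (nat_lit 459) (nat_lit 427) (nat_lit 7595) (.d (nat_lit 461) (nat_lit 429) (nat_lit 6572) (nat_lit 431) (nat_lit 2475)))))))))))))))))) (.a s70095 (.a s70128 (.a (.p (nat_lit 523) (.a s69981 (.a (.d (nat_lit 558) (nat_lit 522) (nat_lit 522) (nat_lit 559) (nat_lit 3596)) (.f (nat_lit 490) (nat_lit 491) (nat_lit 3562) (.f (nat_lit 522) (nat_lit 489) (nat_lit 3561) (.d (nat_lit 554) (nat_lit 553) (nat_lit 1545) (nat_lit 555) (nat_lit 1546))))))) (.a (.p (nat_lit 523) (.a (.f (nat_lit 490) (nat_lit 491) (nat_lit 3562) (.f (nat_lit 522) (nat_lit 489) (nat_lit 3561) (.d (nat_lit 554) (nat_lit 553) (nat_lit 1545) (nat_lit 555) (nat_lit 1546)))) (.a (.f (nat_lit 554) (nat_lit 555) (nat_lit 1546) (.f (nat_lit 522) (nat_lit 553) (nat_lit 1545) (.f (nat_lit 491) (nat_lit 490) (nat_lit 3562) (.f (nat_lit 556) (nat_lit 521) (nat_lit 521) (.f (nat_lit 459) (nat_lit 427) (nat_lit 5546) (.d (nat_lit 588) (nat_lit 492) (nat_lit 7627) (nat_lit 620) (nat_lit 7659))))))) (.a s70145 (.a (.f (nat_lit 554) (nat_lit 555) (nat_lit 1546) (.f (nat_lit 522) (nat_lit 553) (nat_lit 1545) (.f (nat_lit 521) (nat_lit 556) (nat_lit 521) (.d (nat_lit 489) (nat_lit 488) (nat_lit 3560) (nat_lit 490) (nat_lit 3561))))) (.a (.p (nat_lit 492) (.a (.f (nat_lit 491) (nat_lit 490) (nat_lit 3562) (.f (nat_lit 555) (nat_lit 554) (nat_lit 1546) (.f (nat_lit 587) (nat_lit 619) (nat_lit 6635) (.f (nat_lit 588) (nat_lit 620) (nat_lit 4587) (.f (nat_lit 556) (nat_lit 459) (nat_lit 4555) (.d (nat_lit 586) (nat_lit 585) (nat_lit 2601) (nat_lit 618) (nat_lit 5610))))))) (.a (.f (nat_lit 460) (nat_lit 428) (nat_lit 4524) (.d (nat_lit 589) (nat_lit 556) (nat_lit 4556) (nat_lit 621) (nat_lit 7660))) (.f (nat_lit 555) (nat_lit 554) (nat_lit 1546) (.f (nat_lit 587) (nat_lit 619) (nat_lit 6635) (.d (nat_lit 491) (nat_lit 460) (nat_lit 6603) (nat_lit 490) (nat_lit 3562))))))) (.p (nat_lit 522) (.a (.d (nat_lit 490) (nat_lit 489) (nat_lit 3561) (nat_lit 491) (nat_lit 3562)) (.a (.f (nat_lit 521) (nat_lit 556) (nat_lit 521) (.f (nat_lit 491) (nat_lit 490) (nat_lit 3562) (.f (nat_lit 520) (nat_lit 492) (nat_lit 2536) (.d (nat_lit 552) (nat_lit 551) (nat_lit 1543) (nat_lit 553) (nat_lit 1544))))) (.f (nat_lit 521) (nat_lit 556) (nat_lit 521) (.f (nat_lit 552) (nat_lit 553) (nat_lit 1544) (.f (nat_lit 520) (nat_lit 551) (nat_lit 1543) (.d (nat_lit 488) (nat_lit 487) (nat_lit 3559) (nat_lit 489) (nat_lit 3560)))))))))))))) s70162))))))))))))) (.a (.f (nat_lit 493) (nat_lit 461) (nat_lit 6573) (.p (nat_lit 589) (.a (.f (nat_lit 590) (nat_lit 622) (nat_lit 4589) (.f (nat_lit 588) (nat_lit 620) (nat_lit 5612) (.d (nat_lit 559) (nat_lit 558) (nat_lit 1580) (nat_lit 591) (nat_lit 2604)))) (.a (.f (nat_lit 620) (nat_lit 588) (nat_lit 5612) (.f (nat_lit 621) (nat_lit 652) (nat_lit 5644) (.d (nat_lit 622) (nat_lit 590) (nat_lit 4589) (nat_lit 654) (nat_lit 4621)))) (.a (.f (nat_lit 622) (nat_lit 590) (nat_lit 4589) (.f (nat_lit 621) (nat_lit 654) (nat_lit 4621) (.f (nat_lit 653) (nat_lit 558) (nat_lit 6669) (.d (nat_lit 652) (nat_lit 620) (nat_lit 5644) (nat_lit 684) (nat_lit 5676))))) (.a (.f (nat_lit 620) (nat_lit 588) (nat_lit 5612) (.f (nat_lit 621) (nat_lit 652) (nat_lit 5644) (.f (nat_lit 653) (nat_lit 558) (nat_lit 6669) (.d (nat_lit 654) (nat_lit 622) (nat_lit 4621) (nat_lit 686) (nat_lit 4653))))) (.a (.f (nat_lit 622) (nat_lit 590) (nat_lit 4589) (.f (nat_lit 621) (nat_lit 654) (nat_lit 4621) (.f (nat_lit 558) (nat_lit 653) (nat_lit 6669) (.d (nat_lit 559) (nat_lit 561) (nat_lit 3597) (nat_lit 588) (nat_lit 1580))))) (.p (nat_lit 621) (.a (.d (nat_lit 620) (nat_lit 588) (nat_lit 5612) (nat_lit 652) (nat_lit 5644)) (.a (.f (nat_lit 653) (nat_lit 558) (nat_lit 6669) (.d (nat_lit 652) (nat_lit 620) (nat_lit 5644) (nat_lit 684) (nat_lit 5676))) (.a (.f (nat_lit 653) (nat_lit 558) (nat_lit 6669) (.f (nat_lit 684) (nat_lit 652) (nat_lit 5676) (.f (nat_lit 685) (nat_lit 716) (nat_lit 5708) (.d (nat_lit 686) (nat_lit 654) (nat_lit 4653) (nat_lit 718) (nat_lit 4685))))) (.f (nat_lit 558) (nat_lit 653) (nat_lit 6669) (.d (nat_lit 559) (nat_lit 561) (nat_lit 3597) (nat_lit 588) (nat_lit 1580)))))))))))))) (.a (.f (nat_lit 493) (nat_lit 461) (nat_lit 6573) (.p (nat_lit 589) (.a (.f (nat_lit 492) (nat_lit 460) (nat_lit 7628) (.f (nat_lit 621) (nat_lit 524) (nat_lit 7660) (.d (nat_lit 622) (nat_lit 590) (nat_lit 4589) (nat_lit 654) (nat_lit 4621)))) (.a (.f (nat_lit 620) (nat_lit 588) (nat_lit 5612) (.f (nat_lit 621) (nat_lit 652) (nat_lit 5644) (.d (nat_lit 622) (nat_lit 590) (nat_lit 4589) (nat_lit 654) (nat_lit 4621)))) (.a (.f (nat_lit 492) (nat_lit 460) (nat_lit 7628) (.f (nat_lit 621) (nat_lit 524) (nat_lit 7660) (.d (nat_lit 620) (nat_lit 588) (nat_lit 5612) (nat_lit 652) (nat_lit 5644)))) (.f (nat_lit 492) (nat_lit 460) (nat_lit 7628) (.f (nat_lit 588) (nat_lit 620) (nat_lit 5612) (.f (nat_lit 590) (nat_lit 622) (nat_lit 4589) (.f (nat_lit 591) (nat_lit 559) (nat_lit 2604) (.f (nat_lit 555) (nat_lit 556) (nat_lit 3627) (.f (nat_lit 587) (nat_lit 554) (nat_lit 3626) (.f (nat_lit 619) (nat_lit 618) (nat_lit 1610) (.f (nat_lit 490) (nat_lit 491) (nat_lit 490) (.d (nat_lit 523) (nat_lit 522) (nat_lit 7658) (nat_lit 524) (nat_lit 6635))))))))))))))) (.a (.f (nat_lit 493) (nat_lit 461) (nat_lit 6573) (.p (nat_lit 589) (.a (.f (nat_lit 492) (nat_lit 460) (nat_lit 7628) (.f (nat_lit 621) (nat_lit 524) (nat_lit 7660) (.d (nat_lit 622) (nat_lit 590) (nat_lit 4589) (nat_lit 654) (nat_lit 4621)))) (.a (.f (nat_lit 620) (nat_lit 588) (nat_lit 5612) (.f (nat_lit 621) (nat_lit 652) (nat_lit 5644) (.d (nat_lit 622) (nat_lit 590) (nat_lit 4589) (nat_lit 654) (nat_lit 4621)))) (.a (.f (nat_lit 492) (nat_lit 460) (nat_lit 7628) (.f (nat_lit 621) (nat_lit 524) (nat_lit 7660) (.d (nat_lit 620) (nat_lit 588) (nat_lit 5612) (nat_lit 652) (nat_lit 5644)))) (.p (nat_lit 556) (.a (.f (nat_lit 555) (nat_lit 554) (nat_lit 2570) (.f (nat_lit 588) (nat_lit 620) (nat_lit 5612) (.d (nat_lit 590) (nat_lit 591) (nat_lit 3627) (nat_lit 622) (nat_lit 4589)))) (.a (.f (nat_lit 588) (nat_lit 620) (nat_lit 5612) (.f (nat_lit 590) (nat_lit 622) (nat_lit 4589) (.f (nat_lit 492) (nat_lit 460) (nat_lit 7628) (.f (nat_lit 491) (nat_lit 490) (nat_lit 490) (.f (nat_lit 555) (nat_lit 591) (nat_lit 3627) (.d (nat_lit 459) (nat_lit 523) (nat_lit 4555) (nat_lit 524) (nat_lit 7627))))))) (.a (.f (nat_lit 588) (nat_lit 620) (nat_lit 5612) (.f (nat_lit 492) (nat_lit 460) (nat_lit 7628) (.f (nat_lit 491) (nat_lit 490) (nat_lit 490) (.f (nat_lit 524) (nat_lit 459) (nat_lit 7627) (.f (nat_lit 587) (nat_lit 619) (nat_lit 5611) (.d (nat_lit 586) (nat_lit 558) (nat_lit 2602) (nat_lit 585) (nat_lit 2601))))))) (.a (.f (nat_lit 555) (nat_lit 554) (nat_lit 2570) (.f (nat_lit 492) (nat_lit 460) (nat_lit 7628) (.f (nat_lit 590) (nat_lit 622) (nat_lit 4589) (.f (nat_lit 558) (nat_lit 591) (nat_lit 555) (.f (nat_lit 523) (nat_lit 522) (nat_lit 3594) (.f (nat_lit 587) (nat_lit 586) (nat_lit 1578) (.f (nat_lit 619) (nat_lit 524) (nat_lit 6635) (.f (nat_lit 650) (nat_lit 618) (nat_lit 5642) (.f (nat_lit 651) (nat_lit 682) (nat_lit 5674) (.d (nat_lit 652) (nat_lit 620) (nat_lit 4619) (nat_lit 684) (nat_lit 4651))))))))))) (.f (nat_lit 555) (nat_lit 554) (nat_lit 2570) (.f (nat_lit 590) (nat_lit 622) (nat_lit 4589) (.d (nat_lit 591) (nat_lit 558) (nat_lit 555) (nat_lit 588) (nat_lit 3627)))))))))))))) (.a (.p (nat_lit 524) (.a (.p (nat_lit 492) (.a (.f (nat_lit 589) (nat_lit 621) (nat_lit 7660) (.d (nat_lit 460) (nat_lit 428) (nat_lit 4524) (nat_lit 493) (nat_lit 7628))) (.a (.f (nat_lit 589) (nat_lit 621) (nat_lit 7660) (.d (nat_lit 460) (nat_lit 493) (nat_lit 7628) (nat_lit 556) (nat_lit 4556))) (.f (nat_lit 558) (nat_lit 559) (nat_lit 3596) (.f (nat_lit 523) (nat_lit 522) (nat_lit 522) (.f (nat_lit 491) (nat_lit 490) (nat_lit 3562) (.f (nat_lit 555) (nat_lit 554) (nat_lit 1546) (.f (nat_lit 587) (nat_lit 619) (nat_lit 6635) (.d (nat_lit 586) (nat_lit 556) (nat_lit 1578) (nat_lit 618) (nat_lit 5610)))))))))) (.a (.f (nat_lit 558) (nat_lit 559) (nat_lit 3596) (.f (nat_lit 493) (nat_lit 461) (nat_lit 6573) (.f (nat_lit 523) (nat_lit 522) (nat_lit 522) (.f (nat_lit 590) (nat_lit 622) (nat_lit 7661) (.f (nat_lit 555) (nat_lit 554) (nat_lit 1546) (.f (nat_lit 556) (nat_lit 591) (nat_lit 555) (.f (nat_lit 587) (nat_lit 586) (nat_lit 1578) (.d (nat_lit 619) (nat_lit 492) (nat_lit 6635) (nat_lit 651) (nat_lit 6667))))))))) (.a s70252 (.a s70162 (.a (.p (nat_lit 460) (.a (.f (nat_lit 492) (nat_lit 428) (nat_lit 4524) (.d (nat_lit 589) (nat_lit 556) (nat_lit 4556) (nat_lit 621) (nat_lit 7660))) (.f (nat_lit 461) (nat_lit 493) (nat_lit 6573) (.f (nat_lit 459) (nat_lit 431) (nat_lit 2475) (.f (nat_lit 490) (nat_lit 491) (nat_lit 1482) (.d (nat_lit 458) (nat_lit 429) (nat_lit 2474) (nat_lit 489) (nat_lit 1481))))))) s70262)))))) (.a (.p (nat_lit 524) (.a s69595 (.a (.f (nat_lit 558) (nat_lit 559) (nat_lit 3596) (.f (nat_lit 493) (nat_lit 461) (nat_lit 6573) (.f (nat_lit 523) (nat_lit 522) (nat_lit 522) (.f (nat_lit 590) (nat_lit 622) (nat_lit 7661) (.f (nat_lit 555) (nat_lit 554) (nat_lit 1546) (.f (nat_lit 556) (nat_lit 591) (nat_lit 555) (.f (nat_lit 587) (nat_lit 586) (nat_lit 1578) (.d (nat_lit 619) (nat_lit 492) (nat_lit 6635) (nat_lit 651) (nat_lit 6667))))))))) (.a (.f (nat_lit 558) (nat_lit 559) (nat_lit 3596) (.p (nat_lit 590) (.a (.d (nat_lit 622) (nat_lit 493) (nat_lit 7661) (nat_lit 654) (nat_lit 7693)) (.f (nat_lit 523) (nat_lit 522) (nat_lit 522) (.f (nat_lit 555) (nat_lit 554) (nat_lit 1546) (.f (nat_lit 556) (nat_lit 591) (nat_lit 555) (.f (nat_lit 491) (nat_lit 490) (nat_lit 3562) (.d (nat_lit 459) (nat_lit 427) (nat_lit 4523) (nat_lit 588) (nat_lit 4555))))))))) (.a s69725 (.a (.f (nat_lit 461) (nat_lit 493) (nat_lit 6573) (.p (nat_lit 460) (.a (.f (nat_lit 459) (nat_lit 431) (nat_lit 2475) (.f (nat_lit 492) (nat_lit 428) (nat_lit 4524) (.d (nat_lit 429) (nat_lit 458) (nat_lit 2474) (nat_lit 556) (nat_lit 6572)))) (.a (.f (nat_lit 459) (nat_lit 431) (nat_lit 2475) (.f (nat_lit 491) (nat_lit 490) (nat_lit 1482) (.f (nat_lit 427) (nat_lit 426) (nat_lit 3498) (.d (nat_lit 556) (nat_lit 492) (nat_lit 7595) (nat_lit 523) (nat_lit 4523))))) (.a (.f (nat_lit 492) (nat_lit 428) (nat_lit 4524) (.f (nat_lit 556) (nat_lit 429) (nat_lit 6572) (.d (nat_lit 555) (nat_lit 554) (nat_lit 2570) (nat_lit 587) (nat_lit 5579)))) (.f (nat_lit 459) (nat_lit 431) (nat_lit 2475) (.f (nat_lit 458) (nat_lit 429) (nat_lit 2474) (.d (nat_lit 490) (nat_lit 489) (nat_lit 1481) (nat_lit 491) (nat_lit 1482))))))))) (.a (.f (nat_lit 461) (nat_lit 493) (nat_lit 6573) (.p (nat_lit 460) (.a (.f (nat_lit 459) (nat_lit 431) (nat_lit 2475) (.f (nat_lit 492) (nat_lit 428) (nat_lit 4524) (.d (nat_lit 429) (nat_lit 458) (nat_lit 2474) (nat_lit 556) (nat_lit 6572)))) (.a (.f (nat_lit 459) (nat_lit 431) (nat_lit 2475) (.f (nat_lit 458) (nat_lit 429) (nat_lit 2474) (.d (nat_lit 490) (nat_lit 489) (nat_lit 1481) (nat_lit 491) (nat_lit 1482)))) (.a (.f (nat_lit 459) (nat_lit 431) (nat_lit 2475) (.f (nat_lit 492) (nat_lit 428) (nat_lit 4524) (.d (nat_lit 427) (nat_lit 426) (nat_lit 3498) (nat_lit 556) (nat_lit 7595)))) (.f (nat_lit 492) (nat_lit 428) (nat_lit 4524) (.f (nat_lit 556) (nat_lit 429) (nat_lit 6572) (.d (nat_lit 555) (nat_lit 554) (nat_lit 2570) (nat_lit 587) (nat_lit 5579))))))))) (.a s70306 (.a s70321 (.p (nat_lit 460) (.a (.f (nat_lit 558) (nat_lit 559) (nat_lit 3596) (.f (nat_lit 523) (nat_lit 522) (nat_lit 522) (.f (nat_lit 428) (nat_lit 492) (nat_lit 4524) (.f (nat_lit 491) (nat_lit 490) (nat_lit 3562) (.f (nat_lit 459) (nat_lit 555) (nat_lit 6571) (.d (nat_lit 431) (nat_lit 429) (nat_lit 1451) (nat_lit 461) (nat_lit 2475))))))) (.a (.f (nat_lit 461) (nat_lit 493) (nat_lit 6573) (.f (nat_lit 459) (nat_lit 431) (nat_lit 2475) (.f (nat_lit 490) (nat_lit 491) (nat_lit 1482) (.d (nat_lit 458) (nat_lit 429) (nat_lit 2474) (nat_lit 489) (nat_lit 1481))))) (.a (.f (nat_lit 558) (nat_lit 559) (nat_lit 3596) (.f (nat_lit 523) (nat_lit 522) (nat_lit 522) (.f (nat_lit 492) (nat_lit 428) (nat_lit 4524) (.f (nat_lit 491) (nat_lit 490) (nat_lit 3562) (.d (nat_lit 555) (nat_lit 554) (nat_lit 1546) (nat_lit 587) (nat_lit 6603)))))) (.f (nat_lit 461) (nat_lit 493) (nat_lit 6573) (.f (nat_lit 431) (nat_lit 459) (nat_lit 2475) (.d (nat_lit 432) (nat_lit 429) (nat_lit 1452) (nat_lit 433) (nat_lit 1453))))))))))))))))) (.p (nat_lit 524) (.a (.p (nat_lit 492) (.a (.f (nat_lit 589) (nat_lit 621) (nat_lit 7660) (.d (nat_lit 460) (nat_lit 428) (nat_lit 4524) (nat_lit 493) (nat_lit 7628))) (.a (.f (nat_lit 589) (nat_lit 621) (nat_lit 7660) (.d (nat_lit 460) (nat_lit 493) (nat_lit 7628) (nat_lit 556) (nat_lit 4556))) (.f (nat_lit 558) (nat_lit 559) (nat_lit 3596) (.f (nat_lit 523) (nat_lit 522) (nat_lit 522) (.f (nat_lit 491) (nat_lit 490) (nat_lit 3562) (.f (nat_lit 555) (nat_lit 554) (nat_lit 1546) (.f (nat_lit 587) (nat_lit 619) (nat_lit 6635) (.d (nat_lit 586) (nat_lit 556) (nat_lit 1578) (nat_lit 618) (nat_lit 5610)))))))))) (.a s69578 (.a (.p (nat_lit 589) (.a (.f (nat_lit 558) (nat_lit 559) (nat_lit 3596) (.d (nat_lit 621) (nat_lit 492) (nat_lit 7660) (nat_lit 653) (nat_lit 6669))) (.a (.f (nat_lit 558) (nat_lit 559) (nat_lit 3596) (.f (nat_lit 493) (nat_lit 461) (nat_lit 6573) (.f (nat_lit 621) (nat_lit 653) (nat_lit 6669) (.d (nat_lit 620) (nat_lit 588) (nat_lit 5612) (nat_lit 652) (nat_lit 5644))))) (.a (.f (nat_lit 621) (nat_lit 492) (nat_lit 7660) (.f (nat_lit 653) (nat_lit 556) (nat_lit 7692) (.d (nat_lit 652) (nat_lit 620) (nat_lit 5644) (nat_lit 684) (nat_lit 5676)))) (.f (nat_lit 558) (nat_lit 559) (nat_lit 3596) (.f (nat_lit 493) (nat_lit 461) (nat_lit 6573) (.f (nat_lit 523) (nat_lit 522) (nat_lit 522) (.f (nat_lit 588) (nat_lit 620) (nat_lit 5612) (.f (nat_lit 555) (nat_lit 554) (nat_lit 1546) (.f (nat_lit 587) (nat_lit 586) (nat_lit 2602) (.f (nat_lit 491) (nat_lit 490) (nat_lit 3562) (.f (nat_lit 619) (nat_lit 492) (nat_lit 6635) (.d (nat_lit 556) (nat_lit 459) (nat_lit 4555) (nat_lit 651) (nat_lit 6667)))))))))))))) (.a s69607 (.a s70366 (.a s69623 (.a (.p (nat_lit 460) (.a (.f (nat_lit 492) (nat_lit 428) (nat_lit 4524) (.d (nat_lit 589) (nat_lit 556) (nat_lit 4556) (nat_lit 621) (nat_lit 7660))) (.f (nat_lit 461) (nat_lit 493) (nat_lit 6573) (.f (nat_lit 459) (nat_lit 431) (nat_lit 2475) (.f (nat_lit 490) (nat_lit 491) (nat_lit 1482) (.d (nat_lit 458) (nat_lit 429) (nat_lit 2474) (nat_lit 489) (nat_lit 1481))))))) (.a s69695 s70321)))))))))))))))))))) (.a (.f (nat_lit 527) (nat_lit 561) (nat_lit 525) (.f (nat_lit 493) (nat_lit 492) (nat_lit 3564) (.f (nat_lit 461) (nat_lit 557) (nat_lit 6573) (.d (nat_lit 429) (nat_lit 398) (nat_lit 6541) (nat_lit 558) (nat_lit 4525))))) (.a (.f (nat_lit 527) (nat_lit 561) (nat_lit 525) (.f (nat_lit 524) (nat_lit 559) (nat_lit 524) (.d (nat_lit 492) (nat_lit 491) (nat_lit 3563) (nat_lit 493) (nat_lit 3564)))) (.p (nat_lit 527) (.a (.f (nat_lit 524) (nat_lit 559) (nat_lit 524) (.d (nat_lit 556) (nat_lit 555) (nat_lit 1547) (nat_lit 557) (nat_lit 1548))) (.a (.f (nat_lit 493) (nat_lit 492) (nat_lit 3564) (.d (nat_lit 557) (nat_lit 461) (nat_lit 6573) (nat_lit 556) (nat_lit 1548))) (.a (.f (nat_lit 493) (nat_lit 492) (nat_lit 3564) (.f (nat_lit 461) (nat_lit 557) (nat_lit 6573) (.d (nat_lit 429) (nat_lit 398) (nat_lit 6541) (nat_lit 558) (nat_lit 4525)))) (.f (nat_lit 524) (nat_lit 559) (nat_lit 524) (.d (nat_lit 492) (nat_lit 491) (nat_lit 3563) (nat_lit 493) (nat_lit 3564))))))))))))) (.a (.p (nat_lit 431) (.a (.f (nat_lit 494) (nat_lit 399) (nat_lit 6542) (.f (nat_lit 559) (nat_lit 527) (nat_lit 4526) (.f (nat_lit 558) (nat_lit 591) (nat_lit 4558) (.f (nat_lit 461) (nat_lit 429) (nat_lit 7597) (.f (nat_lit 589) (nat_lit 557) (nat_lit 5581) (.d (nat_lit 590) (nat_lit 493) (nat_lit 7629) (nat_lit 561) (nat_lit 1581))))))) (.a (.p (nat_lit 432) (.a (.f (nat_lit 429) (nat_lit 465) (nat_lit 429) (.d (nat_lit 461) (nat_lit 433) (nat_lit 1453) (nat_lit 460) (nat_lit 1452))) (.a (.f (nat_lit 433) (nat_lit 461) (nat_lit 1453) (.f (nat_lit 466) (nat_lit 465) (nat_lit 430) (.f (nat_lit 434) (nat_lit 467) (nat_lit 431) (.d (nat_lit 402) (nat_lit 401) (nat_lit 2446) (nat_lit 403) (nat_lit 2447))))) (.a (.f (nat_lit 429) (nat_lit 465) (nat_lit 429) (.f (nat_lit 461) (nat_lit 460) (nat_lit 1452) (.f (nat_lit 494) (nat_lit 558) (nat_lit 7597) (.f (nat_lit 527) (nat_lit 559) (nat_lit 4526) (.f (nat_lit 398) (nat_lit 495) (nat_lit 4494) (.d (nat_lit 366) (nat_lit 334) (nat_lit 5453) (nat_lit 493) (nat_lit 5485))))))) (.a (.f (nat_lit 465) (nat_lit 429) (nat_lit 429) (.d (nat_lit 466) (nat_lit 433) (nat_lit 430) (nat_lit 467) (nat_lit 3503))) (.f (nat_lit 461) (nat_lit 433) (nat_lit 1453) (.d (nat_lit 460) (nat_lit 429) (nat_lit 1452) (nat_lit 459) (nat_lit 2475)))))))) (.a (.f (nat_lit 494) (nat_lit 399) (nat_lit 6542) (.f (nat_lit 559) (nat_lit 527) (nat_lit 4526) (.f (nat_lit 558) (nat_lit 591) (nat_lit 4558) (.f (nat_lit 589) (nat_lit 557) (nat_lit 5581) (.d (nat_lit 590) (nat_lit 561) (nat_lit 1581) (nat_lit 621) (nat_lit 5613)))))) (.p (nat_lit 432) (.a (.f (nat_lit 429) (nat_lit 465) (nat_lit 429) (.d (nat_lit 461) (nat_lit 433) (nat_lit 1453) (nat_lit 460) (nat_lit 1452))) (.a (.f (nat_lit 433) (nat_lit 461) (nat_lit 1453) (.f (nat_lit 466) (nat_lit 465) (nat_lit 430) (.f (nat_lit 434) (nat_lit 467) (nat_lit 431) (.d (nat_lit 402) (nat_lit 401) (nat_lit 2446) (nat_lit 403) (nat_lit 2447))))) (.a (.f (nat_lit 429) (nat_lit 465) (nat_lit 429) (.f (nat_lit 400) (nat_lit 401) (nat_lit 2445) (.f (nat_lit 428) (nat_lit 399) (nat_lit 2444) (.d (nat_lit 460) (nat_lit 459) (nat_lit 1451) (nat_lit 461) (nat_lit 1452))))) (.a (.f (nat_lit 465) (nat_lit 429) (nat_lit 429) (.d (nat_lit 466) (nat_lit 433) (nat_lit 430) (nat_lit 467) (nat_lit 3503))) (.f (nat_lit 461) (nat_lit 433) (nat_lit 1453) (.d (nat_lit 460) (nat_lit 429) (nat_lit 1452) (nat_lit 459) (nat_lit 2475)))))))))))) (.a (.p (nat_lit 494) (.a (.f (nat_lit 525) (nat_lit 557) (nat_lit 5549) (.f (nat_lit 398) (nat_lit 493) (nat_lit 5517) (.d (nat_lit 399) (nat_lit 367) (nat_lit 6510) (nat_lit 431) (nat_lit 6542)))) (.a (.f (nat_lit 557) (nat_lit 525) (nat_lit 5549) (.f (nat_lit 558) (nat_lit 589) (nat_lit 5581) (.f (nat_lit 461) (nat_lit 429) (nat_lit 7597) (.f (nat_lit 591) (nat_lit 559) (nat_lit 4558) (.d (nat_lit 590) (nat_lit 493) (nat_lit 7629) (nat_lit 623) (nat_lit 4590)))))) (.a (.p (nat_lit 558) (.a (.d (nat_lit 557) (nat_lit 525) (nat_lit 5549) (nat_lit 589) (nat_lit 5581)) (.a (.f (nat_lit 589) (nat_lit 557) (nat_lit 5581) (.f (nat_lit 590) (nat_lit 621) (nat_lit 5613) (.d (nat_lit 591) (nat_lit 559) (nat_lit 4558) (nat_lit 623) (nat_lit 4590)))) (.f (nat_lit 559) (nat_lit 591) (nat_lit 4558) (.f (nat_lit 561) (nat_lit 525) (nat_lit 3597) (.f (nat_lit 431) (nat_lit 399) (nat_lit 6542) (.f (nat_lit 429) (nat_lit 461) (nat_lit 7597) (.f (nat_lit 594) (nat_lit 593) (nat_lit 558) (.f (nat_lit 562) (nat_lit 595) (nat_lit 559) (.f (nat_lit 530) (nat_lit 531) (nat_lit 2575) (.f (nat_lit 465) (nat_lit 432) (nat_lit 429) (.f (nat_lit 498) (nat_lit 497) (nat_lit 7633) (.f (nat_lit 466) (nat_lit 433) (nat_lit 7601) (.d (nat_lit 467) (nat_lit 435) (nat_lit 6578) (nat_lit 499) (nat_lit 6610))))))))))))))) (.f (nat_lit 431) (nat_lit 399) (nat_lit 6542) (.p (nat_lit 432) (.a (.f (nat_lit 461) (nat_lit 433) (nat_lit 1453) (.d (nat_lit 429) (nat_lit 460) (nat_lit 1452) (nat_lit 465) (nat_lit 429))) (.a (.f (nat_lit 433) (nat_lit 461) (nat_lit 1453) (.f (nat_lit 466) (nat_lit 465) (nat_lit 430) (.f (nat_lit 434) (nat_lit 467) (nat_lit 431) (.d (nat_lit 402) (nat_lit 401) (nat_lit 2446) (nat_lit 403) (nat_lit 2447))))) (.a (.f (nat_lit 429) (nat_lit 465) (nat_lit 429) (.d (nat_lit 461) (nat_lit 460) (nat_lit 1452) (nat_lit 558) (nat_lit 7597))) (.a (.f (nat_lit 465) (nat_lit 429) (nat_lit 429) (.d (nat_lit 466) (nat_lit 433) (nat_lit 430) (nat_lit 467) (nat_lit 3503))) (.f (nat_lit 461) (nat_lit 433) (nat_lit 1453) (.d (nat_lit 460) (nat_lit 429) (nat_lit 1452) (nat_lit 459) (nat_lit 2475))))))))))))) (.a (.p (nat_lit 494) (.a (.f (nat_lit 527) (nat_lit 559) (nat_lit 4526) (.f (nat_lit 398) (nat_lit 495) (nat_lit 4494) (.d (nat_lit 399) (nat_lit 367) (nat_lit 6510) (nat_lit 431) (nat_lit 6542)))) (.a (.f (nat_lit 527) (nat_lit 559) (nat_lit 4526) (.f (nat_lit 495) (nat_lit 398) (nat_lit 4494) (.f (nat_lit 492) (nat_lit 493) (nat_lit 492) (.f (nat_lit 525) (nat_lit 561) (nat_lit 525) (.d (nat_lit 524) (nat_lit 491) (nat_lit 3563) (nat_lit 523) (nat_lit 2539)))))) (.a (.f (nat_lit 527) (nat_lit 559) (nat_lit 4526) (.f (nat_lit 525) (nat_lit 561) (nat_lit 525) (.f (nat_lit 492) (nat_lit 493) (nat_lit 3564) (.f (nat_lit 524) (nat_lit 491) (nat_lit 3563) (.f (nat_lit 523) (nat_lit 495) (nat_lit 2539) (.d (nat_lit 555) (nat_lit 554) (nat_lit 1546) (nat_lit 556) (nat_lit 1547))))))) (.a (.f (nat_lit 527) (nat_lit 559) (nat_lit 4526) (.f (nat_lit 525) (nat_lit 561) (nat_lit 525) (.d (nat_lit 493) (nat_lit 398) (nat_lit 5517) (nat_lit 492) (nat_lit 3564)))) (.f (nat_lit 399) (nat_lit 431) (nat_lit 6542) (.f (nat_lit 398) (nat_lit 367) (nat_lit 6510) (.f (nat_lit 493) (nat_lit 525) (nat_lit 5517) (.f (nat_lit 461) (nat_lit 366) (nat_lit 5485) (.d (nat_lit 558) (nat_lit 429) (nat_lit 7597) (nat_lit 590) (nat_lit 7629))))))))))) (.a (.p (nat_lit 525) (.a (.f (nat_lit 527) (nat_lit 561) (nat_lit 525) (.f (nat_lit 493) (nat_lit 492) (nat_lit 3564) (.d (nat_lit 557) (nat_lit 461) (nat_lit 6573) (nat_lit 556) (nat_lit 1548)))) (.a (.f (nat_lit 494) (nat_lit 557) (nat_lit 5549) (.f (nat_lit 527) (nat_lit 561) (nat_lit 525) (.d (nat_lit 493) (nat_lit 398) (nat_lit 5517) (nat_lit 492) (nat_lit 3564)))) (.a (.f (nat_lit 494) (nat_lit 557) (nat_lit 5549) (.f (nat_lit 398) (nat_lit 493) (nat_lit 5517) (.d (nat_lit 527) (nat_lit 495) (nat_lit 4494) (nat_lit 561) (nat_lit 525)))) (.a (.f (nat_lit 494) (nat_lit 557) (nat_lit 5549) (.f (nat_lit 527) (nat_lit 561) (nat_lit 525) (.f (nat_lit 398) (nat_lit 495) (nat_lit 4494) (.d (nat_lit 399) (nat_lit 367) (nat_lit 6510) (nat_lit 431) (nat_lit 6542))))) (.a (.f (nat_lit 494) (nat_lit 557) (nat_lit 5549) (.f (nat_lit 398) (nat_lit 493) (nat_lit 5517) (.d (nat_lit 399) (nat_lit 367) (nat_lit 6510) (nat_lit 431) (nat_lit 6542)))) (.f (nat_lit 527) (nat_lit 561) (nat_lit 525) (.f (nat_lit 493) (nat_lit 492) (nat_lit 3564) (.f (nat_lit 398) (nat_lit 494) (nat_lit 5517) (.d (nat_lit 461) (nat_lit 366) (nat_lit 5485) (nat_lit 429) (nat_lit 6541))))))))))) (.p (nat_lit 494) (.a (.f (nat_lit 527) (nat_lit 559) (nat_lit 4526) (.f (nat_lit 398) (nat_lit 495) (nat_lit 4494) (.d (nat_lit 399) (nat_lit 367) (nat_lit 6510) (nat_lit 431) (nat_lit 6542)))) (.a (.f (nat_lit 527) (nat_lit 559) (nat_lit 4526) (.f (nat_lit 525) (nat_lit 557) (nat_lit 5549) (.d (nat_lit 398) (nat_lit 493) (nat_lit 5517) (nat_lit 495) (nat_lit 4494)))) (.a (.f (nat_lit 557) (nat_lit 525) (nat_lit 5549) (.f (nat_lit 558) (nat_lit 589) (nat_lit 5581) (.f (nat_lit 461) (nat_lit 429) (nat_lit 7597) (.f (nat_lit 591) (nat_lit 559) (nat_lit 4558) (.d (nat_lit 590) (nat_lit 493) (nat_lit 7629) (nat_lit 623) (nat_lit 4590)))))) (.f (nat_lit 525) (nat_lit 557) (nat_lit 5549) (.f (nat_lit 398) (nat_lit 493) (nat_lit 5517) (.d (nat_lit 399) (nat_lit 367) (nat_lit 6510) (nat_lit 431) (nat_lit 6542)))))))))))))))))) (.a (.p (nat_lit 526) (.a s69514 (.a (.p (nat_lit 494) (.a (.f (nat_lit 527) (nat_lit 559) (nat_lit 4526) (.d (nat_lit 525) (nat_lit 557) (nat_lit 5549) (nat_lit 561) (nat_lit 525))) (.a (.f (nat_lit 559) (nat_lit 527) (nat_lit 4526) (.f (nat_lit 558) (nat_lit 591) (nat_lit 4558) (.f (nat_lit 589) (nat_lit 557) (nat_lit 5581) (.d (nat_lit 590) (nat_lit 561) (nat_lit 1581) (nat_lit 621) (nat_lit 5613))))) (.a s70463 (.a (.f (nat_lit 527) (nat_lit 559) (nat_lit 4526) (.f (nat_lit 525) (nat_lit 561) (nat_lit 525) (.f (nat_lit 492) (nat_lit 493) (nat_lit 3564) (.f (nat_lit 524) (nat_lit 491) (nat_lit 3563) (.f (nat_lit 523) (nat_lit 495) (nat_lit 2539) (.d (nat_lit 555) (nat_lit 554) (nat_lit 1546) (nat_lit 556) (nat_lit 1547))))))) (.a (.f (nat_lit 525) (nat_lit 557) (nat_lit 5549) (.f (nat_lit 527) (nat_lit 561) (nat_lit 525) (.f (nat_lit 492) (nat_lit 493) (nat_lit 3564) (.f (nat_lit 524) (nat_lit 491) (nat_lit 3563) (.f (nat_lit 523) (nat_lit 495) (nat_lit 2539) (.d (nat_lit 555) (nat_lit 554) (nat_lit 1546) (nat_lit 556) (nat_lit 1547))))))) (.f (nat_lit 525) (nat_lit 557) (nat_lit 5549) (.f (nat_lit 527) (nat_lit 559) (nat_lit 4526) (.f (nat_lit 492) (nat_lit 493) (nat_lit 3564) (.f (nat_lit 524) (nat_lit 491) (nat_lit 3563) (.f (nat_lit 523) (nat_lit 495) (nat_lit 2539) (.d (nat_lit 555) (nat_lit 554) (nat_lit 1546) (nat_lit 556) (nat_lit 1547))))))))))))) (.a (.p (nat_lit 494) (.a (.f (nat_lit 527) (nat_lit 559) (nat_lit 4526) (.d (nat_lit 525) (nat_lit 557) (nat_lit 5549) (nat_lit 561) (nat_lit 525))) (.a (.f (nat_lit 559) (nat_lit 527) (nat_lit 4526) (.f (nat_lit 558) (nat_lit 591) (nat_lit 4558) (.f (nat_lit 589) (nat_lit 557) (nat_lit 5581) (.d (nat_lit 590) (nat_lit 561) (nat_lit 1581) (nat_lit 621) (nat_lit 5613))))) (.a s70474 (.a (.f (nat_lit 527) (nat_lit 559) (nat_lit 4526) (.f (nat_lit 525) (nat_lit 561) (nat_lit 525) (.f (nat_lit 492) (nat_lit 493) (nat_lit 3564) (.f (nat_lit 524) (nat_lit 491) (nat_lit 3563) (.f (nat_lit 523) (nat_lit 495) (nat_lit 2539) (.d (nat_lit 555) (nat_lit 554) (nat_lit 1546) (nat_lit 556) (nat_lit 1547))))))) (.a (.f (nat_lit 525) (nat_lit 557) (nat_lit 5549) (.f (nat_lit 527) (nat_lit 561) (nat_lit 525) (.f (nat_lit 492) (nat_lit 493) (nat_lit 3564) (.f (nat_lit 524) (nat_lit 491) (nat_lit 3563) (.f (nat_lit 523) (nat_lit 495) (nat_lit 2539) (.d (nat_lit 555) (nat_lit 554) (nat_lit 1546) (nat_lit 556) (nat_lit 1547))))))) (.f (nat_lit 525) (nat_lit 557) (nat_lit 5549) (.f (nat_lit 527) (nat_lit 559) (nat_lit 4526) (.f (nat_lit 492) (nat_lit 493) (nat_lit 3564) (.f (nat_lit 524) (nat_lit 491) (nat_lit 3563) (.f (nat_lit 523) (nat_lit 495) (nat_lit 2539) (.d (nat_lit 555) (nat_lit 554) (nat_lit 1546) (nat_lit 556) (nat_lit 1547))))))))))))) (.a (.p (nat_lit 494) (.a (.f (nat_lit 527) (nat_lit 559) (nat_lit 4526) (.d (nat_lit 525) (nat_lit 557) (nat_lit 5549) (nat_lit 561) (nat_lit 525))) (.f (nat_lit 429) (nat_lit 397) (nat_lit 7565) (.f (nat_lit 431) (nat_lit 399) (nat_lit 6542) (.f (nat_lit 461) (nat_lit 558) (nat_lit 7597) (.d (nat_lit 432) (nat_lit 460) (nat_lit 1452) (nat_lit 465) (nat_lit 429))))))) (.a (.p (nat_lit 525) (.a (.f (nat_lit 527) (nat_lit 561) (nat_lit 525) (.f (nat_lit 524) (nat_lit 559) (nat_lit 524) (.d (nat_lit 556) (nat_lit 555) (nat_lit 1547) (nat_lit 557) (nat_lit 1548)))) (.a (.f (nat_lit 527) (nat_lit 561) (nat_lit 525) (.f (nat_lit 493) (nat_lit 492) (nat_lit 3564) (.d (nat_lit 557) (nat_lit 461) (nat_lit 6573) (nat_lit 556) (nat_lit 1548)))) (.a (.p (nat_lit 524) (.a (.p (nat_lit 557) (.a (.p (nat_lit 492) (.a (.f (nat_lit 589) (nat_lit 621) (nat_lit 7660) (.d (nat_lit 460) (nat_lit 428) (nat_lit 4524) (nat_lit 493) (nat_lit 7628))) (.a (.f (nat_lit 589) (nat_lit 621) (nat_lit 7660) (.d (nat_lit 460) (nat_lit 493) (nat_lit 7628) (nat_lit 556) (nat_lit 4556))) (.f (nat_lit 558) (nat_lit 559) (nat_lit 3596) (.f (nat_lit 523) (nat_lit 522) (nat_lit 522) (.f (nat_lit 491) (nat_lit 490) (nat_lit 3562) (.f (nat_lit 555) (nat_lit 554) (nat_lit 1546) (.f (nat_lit 587) (nat_lit 619) (nat_lit 6635) (.d (nat_lit 586) (nat_lit 556) (nat_lit 1578) (nat_lit 618) (nat_lit 5610)))))))))) (.a s69578 (.a (.f (nat_lit 558) (nat_lit 559) (nat_lit 3596) (.f (nat_lit 493) (nat_lit 461) (nat_lit 6573) (.f (nat_lit 523) (nat_lit 522) (nat_lit 522) (.f (nat_lit 590) (nat_lit 622) (nat_lit 7661) (.f (nat_lit 555) (nat_lit 554) (nat_lit 1546) (.f (nat_lit 556) (nat_lit 591) (nat_lit 555) (.f (nat_lit 587) (nat_lit 586) (nat_lit 1578) (.d (nat_lit 619) (nat_lit 492) (nat_lit 6635) (nat_lit 651) (nat_lit 6667))))))))) (.a s70252 (.a s69623 (.a (.p (nat_lit 460) (.a (.f (nat_lit 492) (nat_lit 428) (nat_lit 4524) (.d (nat_lit 589) (nat_lit 556) (nat_lit 4556) (nat_lit 621) (nat_lit 7660))) (.f (nat_lit 461) (nat_lit 493) (nat_lit 6573) (.f (nat_lit 459) (nat_lit 431) (nat_lit 2475) (.f (nat_lit 490) (nat_lit 491) (nat_lit 1482) (.d (nat_lit 458) (nat_lit 429) (nat_lit 2474) (nat_lit 489) (nat_lit 1481))))))) s69695))))))) (.a (.p (nat_lit 557) (.a (.p (nat_lit 492) (.a (.f (nat_lit 589) (nat_lit 621) (nat_lit 7660) (.d (nat_lit 460) (nat_lit 428) (nat_lit 4524) (nat_lit 493) (nat_lit 7628))) (.a (.f (nat_lit 589) (nat_lit 621) (nat_lit 7660) (.d (nat_lit 460) (nat_lit 493) (nat_lit 7628) (nat_lit 556) (nat_lit 4556))) (.f (nat_lit 558) (nat_lit 559) (nat_lit 3596) (.f (nat_lit 523) (nat_lit 522) (nat_lit 522) (.f (nat_lit 491) (nat_lit 490) (nat_lit 3562) (.f (nat_lit 555) (nat_lit 554) (nat_lit 1546) (.f (nat_lit 587) (nat_lit 619) (nat_lit 6635) (.d (nat_lit 586) (nat_lit 556) (nat_lit 1578) (nat_lit 618) (nat_lit 5610)))))))))) (.a s69578 (.a (.f (nat_lit 558) (nat_lit 559) (nat_lit 3596) (.f (nat_lit 493) (nat_lit 461) (nat_lit 6573) (.f (nat_lit 523) (nat_lit 522) (nat_lit 522) (.f (nat_lit 590) (nat_lit 622) (nat_lit 7661) (.f (nat_lit 555) (nat_lit 554) (nat_lit 1546) (.f (nat_lit 556) (nat_lit 591) (nat_lit 555) (.f (nat_lit 587) (nat_lit 586) (nat_lit 1578) (.d (nat_lit 619) (nat_lit 492) (nat_lit 6635) (nat_lit 651) (nat_lit 6667))))))))) (.a s70366 (.a s69623 (.a (.p (nat_lit 460) (.a (.f (nat_lit 492) (nat_lit 428) (nat_lit 4524) (.d (nat_lit 589) (nat_lit 556) (nat_lit 4556) (nat_lit 621) (nat_lit 7660))) (.f (nat_lit 461) (nat_lit 493) (nat_lit 6573) (.f (nat_lit 459) (nat_lit 431) (nat_lit 2475) (.f (nat_lit 490) (nat_lit 491) (nat_lit 1482) (.d (nat_lit 458) (nat_lit 429) (nat_lit 2474) (nat_lit 489) (nat_lit 1481))))))) s69695))))))) (.a (.p (nat_lit 523) (.a (.f (nat_lit 558) (nat_lit 559) (nat_lit 523) (.f (nat_lit 522) (nat_lit 557) (nat_lit 522) (.d (nat_lit 554) (nat_lit 553) (nat_lit 1545) (nat_lit 555) (nat_lit 1546)))) (.a s70500 (.a (.f (nat_lit 558) (nat_lit 559) (nat_lit 523) (.f (nat_lit 522) (nat_lit 557) (nat_lit 522) (.d (nat_lit 490) (nat_lit 489) (nat_lit 3561) (nat_lit 491) (nat_lit 3562)))) (.f (nat_lit 490) (nat_lit 491) (nat_lit 3562) (.f (nat_lit 522) (nat_lit 489) (nat_lit 3561) (.d (nat_lit 554) (nat_lit 553) (nat_lit 1545) (nat_lit 555) (nat_lit 1546)))))))) (.a (.p (nat_lit 557) (.a (.p (nat_lit 492) (.a (.f (nat_lit 589) (nat_lit 621) (nat_lit 7660) (.d (nat_lit 460) (nat_lit 428) (nat_lit 4524) (nat_lit 493) (nat_lit 7628))) (.a (.f (nat_lit 589) (nat_lit 621) (nat_lit 7660) (.d (nat_lit 460) (nat_lit 493) (nat_lit 7628) (nat_lit 556) (nat_lit 4556))) (.f (nat_lit 558) (nat_lit 559) (nat_lit 3596) (.f (nat_lit 523) (nat_lit 522) (nat_lit 522) (.f (nat_lit 491) (nat_lit 490) (nat_lit 3562) (.f (nat_lit 555) (nat_lit 554) (nat_lit 1546) (.f (nat_lit 587) (nat_lit 619) (nat_lit 6635) (.d (nat_lit 586) (nat_lit 556) (nat_lit 1578) (nat_lit 618) (nat_lit 5610)))))))))) (.a s69578 (.a (.f (nat_lit 558) (nat_lit 559) (nat_lit 3596) (.f (nat_lit 493) (nat_lit 461) (nat_lit 6573) (.f (nat_lit 523) (nat_lit 522) (nat_lit 522) (.f (nat_lit 590) (nat_lit 622) (nat_lit 7661) (.f (nat_lit 555) (nat_lit 554) (nat_lit 1546) (.f (nat_lit 556) (nat_lit 591) (nat_lit 555) (.f (nat_lit 587) (nat_lit 586) (nat_lit 1578) (.d (nat_lit 619) (nat_lit 492) (nat_lit 6635) (nat_lit 651) (nat_lit 6667))))))))) (.a s70366 (.a s69623 (.a s70512 (.a s69695 (.p (nat_lit 492) (.a (.f (nat_lit 589) (nat_lit 621) (nat_lit 7660) (.d (nat_lit 460) (nat_lit 428) (nat_lit 4524) (nat_lit 493) (nat_lit 7628))) (.a (.f (nat_lit 589) (nat_lit 621) (nat_lit 7660) (.d (nat_lit 460) (nat_lit 493) (nat_lit 7628) (nat_lit 556) (nat_lit 4556))) (.a (.f (nat_lit 493) (nat_lit 461) (nat_lit 6573) (.f (nat_lit 589) (nat_lit 621) (nat_lit 7660) (.f (nat_lit 491) (nat_lit 490) (nat_lit 490) (.f (nat_lit 588) (nat_lit 620) (nat_lit 5612) (.f (nat_lit 556) (nat_lit 459) (nat_lit 7627) (.f (nat_lit 555) (nat_lit 554) (nat_lit 2570) (.d (nat_lit 590) (nat_lit 591) (nat_lit 3627) (nat_lit 622) (nat_lit 4589)))))))) (.a (.f (nat_lit 589) (nat_lit 621) (nat_lit 7660) (.d (nat_lit 460) (nat_lit 428) (nat_lit 4524) (nat_lit 556) (nat_lit 4556))) (.f (nat_lit 460) (nat_lit 428) (nat_lit 4524) (.f (nat_lit 461) (nat_lit 493) (nat_lit 6573) (.f (nat_lit 459) (nat_lit 431) (nat_lit 2475) (.d (nat_lit 427) (nat_lit 426) (nat_lit 3498) (nat_lit 556) (nat_lit 7595)))))))))))))))))) (.a (.p (nat_lit 523) (.a (.f (nat_lit 558) (nat_lit 559) (nat_lit 523) (.f (nat_lit 522) (nat_lit 557) (nat_lit 522) (.d (nat_lit 554) (nat_lit 553) (nat_lit 1545) (nat_lit 555) (nat_lit 1546)))) (.a s70547 (.a (.f (nat_lit 558) (nat_lit 559) (nat_lit 523) (.f (nat_lit 522) (nat_lit 557) (nat_lit 522) (.d (nat_lit 490) (nat_lit 489) (nat_lit 3561) (nat_lit 491) (nat_lit 3562)))) (.f (nat_lit 490) (nat_lit 491) (nat_lit 3562) (.f (nat_lit 522) (nat_lit 489) (nat_lit 3561) (.d (nat_lit 554) (nat_lit 553) (nat_lit 1545) (nat_lit 555) (nat_lit 1546)))))))) (.a (.p (nat_lit 523) (.a (.f (nat_lit 558) (nat_lit 559) (nat_lit 523) (.f (nat_lit 522) (nat_lit 557) (nat_lit 522) (.d (nat_lit 554) (nat_lit 553) (nat_lit 1545) (nat_lit 555) (nat_lit 1546)))) (.a s70569 (.a (.f (nat_lit 558) (nat_lit 559) (nat_lit 523) (.f (nat_lit 522) (nat_lit 557) (nat_lit 522) (.d (nat_lit 490) (nat_lit 489) (nat_lit 3561) (nat_lit 491) (nat_lit 3562)))) (.f (nat_lit 490) (nat_lit 491) (nat_lit 3562) (.f (nat_lit 522) (nat_lit 489) (nat_lit 3561) (.d (nat_lit 554) (nat_lit 553) (nat_lit 1545) (nat_lit 555) (nat_lit 1546)))))))) (.a (.p (nat_lit 557) (.a s69607 (.a (.f (nat_lit 558) (nat_lit 559) (nat_lit 3596) (.f (nat_lit 493) (nat_lit 461) (nat_lit 6573) (.f (nat_lit 523) (nat_lit 522) (nat_lit 522) (.f (nat_lit 590) (nat_lit 622) (nat_lit 7661) (.f (nat_lit 555) (nat_lit 554) (nat_lit 1546) (.f (nat_lit 556) (nat_lit 591) (nat_lit 555) (.f (nat_lit 587) (nat_lit 586) (nat_lit 1578) (.d (nat_lit 619) (nat_lit 492) (nat_lit 6635) (nat_lit 651) (nat_lit 6667))))))))) (.a (.f (nat_lit 558) (nat_lit 559) (nat_lit 3596) (.f (nat_lit 493) (nat_lit 461) (nat_lit 6573) (.f (nat_lit 590) (nat_lit 622) (nat_lit 7661) (.f (nat_lit 523) (nat_lit 522) (nat_lit 522) (.f (nat_lit 555) (nat_lit 554) (nat_lit 1546) (.f (nat_lit 556) (nat_lit 591) (nat_lit 555) (.f (nat_lit 588) (nat_lit 620) (nat_lit 6636) (.f (nat_lit 587) (nat_lit 586) (nat_lit 1578) (.f (nat_lit 619) (nat_lit 651) (nat_lit 6667) (.d (nat_lit 618) (nat_lit 589) (nat_lit 1610) (nat_lit 650) (nat_lit 5642))))))))))) (.a s69739 (.a s70512 (.a (.p (nat_lit 589) (.a (.f (nat_lit 558) (nat_lit 559) (nat_lit 3596) (.d (nat_lit 621) (nat_lit 492) (nat_lit 7660) (nat_lit 653) (nat_lit 6669))) (.a (.f (nat_lit 558) (nat_lit 559) (nat_lit 3596) (.f (nat_lit 621) (nat_lit 653) (nat_lit 6669) (.f (nat_lit 622) (nat_lit 654) (nat_lit 4621) (.f (nat_lit 590) (nat_lit 493) (nat_lit 4589) (.f (nat_lit 623) (nat_lit 655) (nat_lit 4622) (.d (nat_lit 624) (nat_lit 588) (nat_lit 3660) (nat_lit 625) (nat_lit 3661))))))) (.a (.f (nat_lit 493) (nat_lit 461) (nat_lit 6573) (.d (nat_lit 492) (nat_lit 460) (nat_lit 7628) (nat_lit 621) (nat_lit 7660))) (.f (nat_lit 558) (nat_lit 559) (nat_lit 3596) (.f (nat_lit 493) (nat_lit 461) (nat_lit 6573) (.f (nat_lit 523) (nat_lit 522) (nat_lit 522) (.f (nat_lit 492) (nat_lit 460) (nat_lit 7628) (.f (nat_lit 588) (nat_lit 620) (nat_lit 5612) (.f (nat_lit 590) (nat_lit 622) (nat_lit 4589) (.f (nat_lit 587) (nat_lit 586) (nat_lit 2602) (.d (nat_lit 619) (nat_lit 555) (nat_lit 6635) (nat_lit 618) (nat_lit 1610))))))))))))) (.a (.p (nat_lit 492) (.a (.f (nat_lit 589) (nat_lit 621) (nat_lit 7660) (.d (nat_lit 460) (nat_lit 428) (nat_lit 4524) (nat_lit 493) (nat_lit 7628))) (.a (.f (nat_lit 589) (nat_lit 621) (nat_lit 7660) (.d (nat_lit 460) (nat_lit 493) (nat_lit 7628) (nat_lit 556) (nat_lit 4556))) (.a (.f (nat_lit 493) (nat_lit 461) (nat_lit 6573) (.f (nat_lit 589) (nat_lit 621) (nat_lit 7660) (.f (nat_lit 588) (nat_lit 620) (nat_lit 5612) (.f (nat_lit 590) (nat_lit 622) (nat_lit 4589) (.f (nat_lit 591) (nat_lit 559) (nat_lit 2604) (.f (nat_lit 555) (nat_lit 556) (nat_lit 3627) (.d (nat_lit 554) (nat_lit 523) (nat_lit 1546) (nat_lit 587) (nat_lit 3626)))))))) (.a (.f (nat_lit 589) (nat_lit 621) (nat_lit 7660) (.d (nat_lit 460) (nat_lit 428) (nat_lit 4524) (nat_lit 556) (nat_lit 4556))) (.f (nat_lit 460) (nat_lit 428) (nat_lit 4524) (.f (nat_lit 461) (nat_lit 493) (nat_lit 6573) (.f (nat_lit 459) (nat_lit 431) (nat_lit 2475) (.d (nat_lit 427) (nat_lit 426) (nat_lit 3498) (nat_lit 556) (nat_lit 7595)))))))))) (.p (nat_lit 460) (.a (.f (nat_lit 492) (nat_lit 428) (nat_lit 4524) (.d (nat_lit 589) (nat_lit 556) (nat_lit 4556) (nat_lit 621) (nat_lit 7660))) (.f (nat_lit 461) (nat_lit 493) (nat_lit 6573) (.f (nat_lit 431) (nat_lit 459) (nat_lit 2475) (.d (nat_lit 432) (nat_lit 429) (nat_lit 1452) (nat_lit 433) (nat_lit 1453)))))))))))))) (.a (.p (nat_lit 558) (.a (.d (nat_lit 559) (nat_lit 557) (nat_lit 3596) (nat_lit 561) (nat_lit 3597)) (.a (.d (nat_lit 559) (nat_lit 523) (nat_lit 523) (nat_lit 561) (nat_lit 3597)) (.p (nat_lit 557) (.a s69763 (.a (.f (nat_lit 493) (nat_lit 461) (nat_lit 6573) (.f (nat_lit 590) (nat_lit 622) (nat_lit 7661) (.f (nat_lit 523) (nat_lit 522) (nat_lit 522) (.f (nat_lit 555) (nat_lit 554) (nat_lit 1546) (.f (nat_lit 556) (nat_lit 591) (nat_lit 555) (.f (nat_lit 587) (nat_lit 586) (nat_lit 1578) (.d (nat_lit 492) (nat_lit 460) (nat_lit 5579) (nat_lit 619) (nat_lit 6635)))))))) (.a (.f (nat_lit 493) (nat_lit 461) (nat_lit 6573) (.f (nat_lit 590) (nat_lit 622) (nat_lit 7661) (.f (nat_lit 523) (nat_lit 522) (nat_lit 522) (.f (nat_lit 555) (nat_lit 554) (nat_lit 1546) (.f (nat_lit 556) (nat_lit 591) (nat_lit 555) (.f (nat_lit 587) (nat_lit 586) (nat_lit 1578) (.d (nat_lit 619) (nat_lit 492) (nat_lit 6635) (nat_lit 651) (nat_lit 6667)))))))) (.a (.f (nat_lit 493) (nat_lit 461) (nat_lit 6573) (.f (nat_lit 590) (nat_lit 622) (nat_lit 7661) (.f (nat_lit 523) (nat_lit 522) (nat_lit 522) (.f (nat_lit 555) (nat_lit 554) (nat_lit 1546) (.f (nat_lit 556) (nat_lit 591) (nat_lit 555) (.f (nat_lit 620) (nat_lit 588) (nat_lit 6636) (.f (nat_lit 587) (nat_lit 586) (nat_lit 1578) (.d (nat_lit 619) (nat_lit 651) (nat_lit 6667) (nat_lit 652) (nat_lit 4619))))))))) (.a (.p (nat_lit 589) (.a (.d (nat_lit 621) (nat_lit 492) (nat_lit 7660) (nat_lit 653) (nat_lit 6669)) (.a (.f (nat_lit 493) (nat_lit 461) (nat_lit 6573) (.f (nat_lit 622) (nat_lit 590) (nat_lit 7661) (.d (nat_lit 621) (nat_lit 653) (nat_lit 6669) (nat_lit 654) (nat_lit 4621)))) (.f (nat_lit 493) (nat_lit 461) (nat_lit 6573) (.f (nat_lit 590) (nat_lit 622) (nat_lit 7661) (.f (nat_lit 588) (nat_lit 620) (nat_lit 5612) (.f (nat_lit 587) (nat_lit 586) (nat_lit 2602) (.f (nat_lit 555) (nat_lit 554) (nat_lit 3626) (.f (nat_lit 556) (nat_lit 591) (nat_lit 555) (.d (nat_lit 492) (nat_lit 460) (nat_lit 7628) (nat_lit 619) (nat_lit 5611))))))))))) (.a (.p (nat_lit 589) (.a (.d (nat_lit 621) (nat_lit 492) (nat_lit 7660) (nat_lit 653) (nat_lit 6669)) (.a (.f (nat_lit 493) (nat_lit 461) (nat_lit 6573) (.f (nat_lit 622) (nat_lit 590) (nat_lit 7661) (.d (nat_lit 621) (nat_lit 653) (nat_lit 6669) (nat_lit 654) (nat_lit 4621)))) (.f (nat_lit 493) (nat_lit 461) (nat_lit 6573) (.f (nat_lit 590) (nat_lit 622) (nat_lit 7661) (.f (nat_lit 588) (nat_lit 620) (nat_lit 5612) (.f (nat_lit 492) (nat_lit 460) (nat_lit 7628) (.f (nat_lit 587) (nat_lit 586) (nat_lit 2602) (.d (nat_lit 619) (nat_lit 556) (nat_lit 5611) (nat_lit 618) (nat_lit 1610)))))))))) (.a (.p (nat_lit 589) (.a (.d (nat_lit 621) (nat_lit 492) (nat_lit 7660) (nat_lit 653) (nat_lit 6669)) (.a (.f (nat_lit 493) (nat_lit 461) (nat_lit 6573) (.f (nat_lit 622) (nat_lit 590) (nat_lit 7661) (.d (nat_lit 621) (nat_lit 653) (nat_lit 6669) (nat_lit 654) (nat_lit 4621)))) (.f (nat_lit 493) (nat_lit 461) (nat_lit 6573) (.f (nat_lit 523) (nat_lit 522) (nat_lit 522) (.f (nat_lit 492) (nat_lit 460) (nat_lit 7628) (.f (nat_lit 588) (nat_lit 620) (nat_lit 5612) (.f (nat_lit 590) (nat_lit 622) (nat_lit 4589) (.f (nat_lit 587) (nat_lit 586) (nat_lit 2602) (.d (nat_lit 619) (nat_lit 555) (nat_lit 6635) (nat_lit 618) (nat_lit 1610))))))))))) (.a (.p (nat_lit 460) (.a (.f (nat_lit 493) (nat_lit 461) (nat_lit 6573) (.d (nat_lit 492) (nat_lit 428) (nat_lit 4524) (nat_lit 589) (nat_lit 7628))) (.a (.f (nat_lit 493) (nat_lit 461) (nat_lit 6573) (.f (nat_lit 589) (nat_lit 492) (nat_lit 7628) (.f (nat_lit 622) (nat_lit 590) (nat_lit 7661) (.d (nat_lit 621) (nat_lit 653) (nat_lit 6669) (nat_lit 654) (nat_lit 4621))))) (.a (.f (nat_lit 492) (nat_lit 428) (nat_lit 4524) (.d (nat_lit 589) (nat_lit 493) (nat_lit 7628) (nat_lit 556) (nat_lit 4556))) (.a (.f (nat_lit 461) (nat_lit 493) (nat_lit 6573) (.f (nat_lit 459) (nat_lit 431) (nat_lit 2475) (.f (nat_lit 458) (nat_lit 429) (nat_lit 2474) (.d (nat_lit 426) (nat_lit 425) (nat_lit 3497) (nat_lit 427) (nat_lit 3498))))) (.f (nat_lit 492) (nat_lit 428) (nat_lit 4524) (.d (nat_lit 589) (nat_lit 556) (nat_lit 4556) (nat_lit 621) (nat_lit 7660)))))))) (.p (nat_lit 589) (.a (.d (nat_lit 621) (nat_lit 492) (nat_lit 7660) (nat_lit 653) (nat_lit 6669)) (.a (.f (nat_lit 621) (nat_lit 653) (nat_lit 6669) (.f (nat_lit 493) (nat_lit 461) (nat_lit 6573) (.d (nat_lit 620) (nat_lit 588) (nat_lit 5612) (nat_lit 652) (nat_lit 5644)))) (.f (nat_lit 493) (nat_lit 461) (nat_lit 6573) (.f (nat_lit 588) (nat_lit 620) (nat_lit 5612) (.f (nat_lit 492) (nat_lit 460) (nat_lit 7628) (.f (nat_lit 523) (nat_lit 522) (nat_lit 522) (.f (nat_lit 587) (nat_lit 586) (nat_lit 2602) (.d (nat_lit 619) (nat_lit 555) (nat_lit 6635) (nat_lit 556) (nat_lit 5611)))))))))))))))))))))) (.a (.p (nat_lit 523) (.a (.f (nat_lit 558) (nat_lit 559) (nat_lit 523) (.f (nat_lit 522) (nat_lit 557) (nat_lit 522) (.d (nat_lit 554) (nat_lit 553) (nat_lit 1545) (nat_lit 555) (nat_lit 1546)))) (.a s70667 (.a (.f (nat_lit 558) (nat_lit 559) (nat_lit 523) (.f (nat_lit 522) (nat_lit 557) (nat_lit 522) (.d (nat_lit 490) (nat_lit 489) (nat_lit 3561) (nat_lit 491) (nat_lit 3562)))) (.f (nat_lit 490) (nat_lit 491) (nat_lit 3562) (.f (nat_lit 522) (nat_lit 489) (nat_lit 3561) (.d (nat_lit 554) (nat_lit 553) (nat_lit 1545) (nat_lit 555) (nat_lit 1546)))))))) (.a (.p (nat_lit 523) (.a (.f (nat_lit 558) (nat_lit 559) (nat_lit 523) (.f (nat_lit 522) (nat_lit 557) (nat_lit 522) (.d (nat_lit 554) (nat_lit 553) (nat_lit 1545) (nat_lit 555) (nat_lit 1546)))) (.a s70670 (.a (.f (nat_lit 558) (nat_lit 559) (nat_lit 523) (.f (nat_lit 522) (nat_lit 557) (nat_lit 522) (.d (nat_lit 490) (nat_lit 489) (nat_lit 3561) (nat_lit 491) (nat_lit 3562)))) (.f (nat_lit 490) (nat_lit 491) (nat_lit 3562) (.f (nat_lit 522) (nat_lit 489) (nat_lit 3561) (.d (nat_lit 554) (nat_lit 553) (nat_lit 1545) (nat_lit 555) (nat_lit 1546)))))))) (.a (.p (nat_lit 523) (.a s70500 (.a s70547 (.a s70569 (.a (.p (nat_lit 557) (.a s69858 (.a (.f (nat_lit 558) (nat_lit 559) (nat_lit 3596) (.f (nat_lit 493) (nat_lit 461) (nat_lit 6573) (.f (nat_lit 590) (nat_lit 622) (nat_lit 7661) (.f (nat_lit 555) (nat_lit 554) (nat_lit 1546) (.f (nat_lit 556) (nat_lit 591) (nat_lit 555) (.f (nat_lit 587) (nat_lit 586) (nat_lit 1578) (.d (nat_lit 619) (nat_lit 492) (nat_lit 6635) (nat_lit 651) (nat_lit 6667)))))))) (.a (.f (nat_lit 558) (nat_lit 559) (nat_lit 3596) (.f (nat_lit 493) (nat_lit 461) (nat_lit 6573) (.f (nat_lit 590) (nat_lit 622) (nat_lit 7661) (.f (nat_lit 555) (nat_lit 554) (nat_lit 1546) (.f (nat_lit 556) (nat_lit 591) (nat_lit 555) (.f (nat_lit 588) (nat_lit 620) (nat_lit 6636) (.f (nat_lit 587) (nat_lit 586) (nat_lit 1578) (.f (nat_lit 619) (nat_lit 651) (nat_lit 6667) (.d (nat_lit 618) (nat_lit 589) (nat_lit 1610) (nat_lit 650) (nat_lit 5642)))))))))) (.a (.p (nat_lit 589) (.a (.f (nat_lit 558) (nat_lit 559) (nat_lit 3596) (.d (nat_lit 621) (nat_lit 492) (nat_lit 7660) (nat_lit 653) (nat_lit 6669))) (.a (.f (nat_lit 558) (nat_lit 559) (nat_lit 3596) (.f (nat_lit 493) (nat_lit 461) (nat_lit 6573) (.f (nat_lit 622) (nat_lit 590) (nat_lit 7661) (.d (nat_lit 621) (nat_lit 653) (nat_lit 6669) (nat_lit 654) (nat_lit 4621))))) (.a (.f (nat_lit 493) (nat_lit 461) (nat_lit 6573) (.d (nat_lit 492) (nat_lit 460) (nat_lit 7628) (nat_lit 621) (nat_lit 7660))) (.f (nat_lit 558) (nat_lit 559) (nat_lit 523) (.f (nat_lit 493) (nat_lit 461) (nat_lit 6573) (.f (nat_lit 590) (nat_lit 622) (nat_lit 7661) (.f (nat_lit 588) (nat_lit 620) (nat_lit 5612) (.f (nat_lit 492) (nat_lit 460) (nat_lit 7628) (.f (nat_lit 587) (nat_lit 586) (nat_lit 2602) (.d (nat_lit 619) (nat_lit 556) (nat_lit 5611) (nat_lit 618) (nat_lit 1610)))))))))))) (.a (.p (nat_lit 589) (.a (.f (nat_lit 558) (nat_lit 559) (nat_lit 3596) (.d (nat_lit 621) (nat_lit 492) (nat_lit 7660) (nat_lit 653) (nat_lit 6669))) (.a (.f (nat_lit 558) (nat_lit 559) (nat_lit 3596) (.f (nat_lit 493) (nat_lit 461) (nat_lit 6573) (.f (nat_lit 622) (nat_lit 590) (nat_lit 7661) (.d (nat_lit 621) (nat_lit 653) (nat_lit 6669) (nat_lit 654) (nat_lit 4621))))) (.a (.f (nat_lit 493) (nat_lit 461) (nat_lit 6573) (.d (nat_lit 492) (nat_lit 460) (nat_lit 7628) (nat_lit 621) (nat_lit 7660))) (.f (nat_lit 558) (nat_lit 559) (nat_lit 3596) (.f (nat_lit 493) (nat_lit 461) (nat_lit 6573) (.f (nat_lit 492) (nat_lit 460) (nat_lit 7628) (.f (nat_lit 555) (nat_lit 554) (nat_lit 1546) (.f (nat_lit 587) (nat_lit 619) (nat_lit 6635) (.d (nat_lit 588) (nat_lit 586) (nat_lit 2602) (nat_lit 620) (nat_lit 5612))))))))))) (.a s70706 (.a (.p (nat_lit 492) (.a (.f (nat_lit 460) (nat_lit 428) (nat_lit 4524) (.d (nat_lit 589) (nat_lit 556) (nat_lit 4556) (nat_lit 621) (nat_lit 7660))) (.a (.f (nat_lit 555) (nat_lit 554) (nat_lit 1546) (.f (nat_lit 587) (nat_lit 619) (nat_lit 6635) (.d (nat_lit 460) (nat_lit 491) (nat_lit 6603) (nat_lit 556) (nat_lit 5579)))) (.f (nat_lit 493) (nat_lit 461) (nat_lit 6573) (.f (nat_lit 589) (nat_lit 621) (nat_lit 7660) (.f (nat_lit 588) (nat_lit 620) (nat_lit 5612) (.f (nat_lit 555) (nat_lit 554) (nat_lit 1546) (.f (nat_lit 587) (nat_lit 619) (nat_lit 6635) (.f (nat_lit 586) (nat_lit 558) (nat_lit 2602) (.d (nat_lit 618) (nat_lit 491) (nat_lit 5610) (nat_lit 617) (nat_lit 1609))))))))))) (.p (nat_lit 589) (.a (.f (nat_lit 558) (nat_lit 559) (nat_lit 3596) (.d (nat_lit 621) (nat_lit 492) (nat_lit 7660) (nat_lit 653) (nat_lit 6669))) (.a (.f (nat_lit 558) (nat_lit 559) (nat_lit 3596) (.f (nat_lit 493) (nat_lit 461) (nat_lit 6573) (.f (nat_lit 622) (nat_lit 590) (nat_lit 7661) (.d (nat_lit 621) (nat_lit 653) (nat_lit 6669) (nat_lit 654) (nat_lit 4621))))) (.a (.f (nat_lit 493) (nat_lit 461) (nat_lit 6573) (.d (nat_lit 492) (nat_lit 460) (nat_lit 7628) (nat_lit 621) (nat_lit 7660))) (.f (nat_lit 559) (nat_lit 558) (nat_lit 523) (.f (nat_lit 493) (nat_lit 461) (nat_lit 6573) (.f (nat_lit 588) (nat_lit 620) (nat_lit 5612) (.d (nat_lit 590) (nat_lit 591) (nat_lit 2604) (nat_lit 622) (nat_lit 4589))))))))))))))))) (.a (.p (nat_lit 461) (.a (.f (nat_lit 493) (nat_lit 557) (nat_lit 6573) (.d (nat_lit 429) (nat_lit 556) (nat_lit 5548) (nat_lit 558) (nat_lit 4525))) (.a (.p (nat_lit 492) (.a (.f (nat_lit 557) (nat_lit 493) (nat_lit 6573) (.f (nat_lit 460) (nat_lit 428) (nat_lit 4524) (.d (nat_lit 589) (nat_lit 556) (nat_lit 4556) (nat_lit 621) (nat_lit 7660)))) (.a (.f (nat_lit 557) (nat_lit 493) (nat_lit 6573) (.f (nat_lit 558) (nat_lit 559) (nat_lit 3596) (.f (nat_lit 555) (nat_lit 554) (nat_lit 1546) (.f (nat_lit 589) (nat_lit 621) (nat_lit 7660) (.f (nat_lit 556) (nat_lit 460) (nat_lit 4556) (.d (nat_lit 587) (nat_lit 586) (nat_lit 1578) (nat_lit 619) (nat_lit 6635))))))) (.a (.f (nat_lit 557) (nat_lit 493) (nat_lit 6573) (.f (nat_lit 558) (nat_lit 559) (nat_lit 523) (.f (nat_lit 555) (nat_lit 554) (nat_lit 1546) (.f (nat_lit 621) (nat_lit 589) (nat_lit 7660) (.f (nat_lit 587) (nat_lit 619) (nat_lit 6635) (.f (nat_lit 556) (nat_lit 586) (nat_lit 1578) (.f (nat_lit 590) (nat_lit 591) (nat_lit 555) (.d (nat_lit 622) (nat_lit 653) (nat_lit 5645) (nat_lit 654) (nat_lit 7693))))))))) (.a (.f (nat_lit 555) (nat_lit 554) (nat_lit 1546) (.f (nat_lit 460) (nat_lit 428) (nat_lit 5547) (.d (nat_lit 587) (nat_lit 556) (nat_lit 5579) (nat_lit 619) (nat_lit 6635)))) (.f (nat_lit 493) (nat_lit 557) (nat_lit 6573) (.f (nat_lit 555) (nat_lit 554) (nat_lit 1546) (.f (nat_lit 460) (nat_lit 428) (nat_lit 5547) (.f (nat_lit 459) (nat_lit 431) (nat_lit 2475) (.f (nat_lit 458) (nat_lit 457) (nat_lit 457) (.d (nat_lit 426) (nat_lit 425) (nat_lit 3497) (nat_lit 427) (nat_lit 3498)))))))))))) (.a (.p (nat_lit 431) (.a (.f (nat_lit 432) (nat_lit 433) (nat_lit 1453) (.d (nat_lit 460) (nat_lit 429) (nat_lit 1452) (nat_lit 459) (nat_lit 2475))) (.a (.f (nat_lit 555) (nat_lit 554) (nat_lit 1546) (.f (nat_lit 460) (nat_lit 459) (nat_lit 2475) (.f (nat_lit 492) (nat_lit 428) (nat_lit 5547) (.d (nat_lit 587) (nat_lit 556) (nat_lit 5579) (nat_lit 619) (nat_lit 6635))))) (.a (.f (nat_lit 432) (nat_lit 433) (nat_lit 1453) (.d (nat_lit 429) (nat_lit 460) (nat_lit 1452) (nat_lit 465) (nat_lit 429))) (.f (nat_lit 432) (nat_lit 433) (nat_lit 1453) (.f (nat_lit 429) (nat_lit 465) (nat_lit 429) (.f (nat_lit 400) (nat_lit 401) (nat_lit 2445) (.f (nat_lit 428) (nat_lit 399) (nat_lit 2444) (.d (nat_lit 396) (nat_lit 395) (nat_lit 3467) (nat_lit 397) (nat_lit 3468)))))))))) (.f (nat_lit 558) (nat_lit 559) (nat_lit 523) (.d (nat_lit 493) (nat_lit 429) (nat_lit 4525) (nat_lit 557) (nat_lit 6573))))))) (.a s70667 (.a s70670 (.a s70784 s70799))))))))) (.a (.p (nat_lit 461) (.a (.f (nat_lit 493) (nat_lit 557) (nat_lit 6573) (.d (nat_lit 429) (nat_lit 556) (nat_lit 5548) (nat_lit 558) (nat_lit 4525))) (.a (.p (nat_lit 460) (.a (.f (nat_lit 557) (nat_lit 493) (nat_lit 6573) (.f (nat_lit 492) (nat_lit 428) (nat_lit 4524) (.d (nat_lit 589) (nat_lit 556) (nat_lit 4556) (nat_lit 621) (nat_lit 7660)))) (.a (.f (nat_lit 459) (nat_lit 431) (nat_lit 2475) (.f (nat_lit 427) (nat_lit 426) (nat_lit 3498) (.f (nat_lit 492) (nat_lit 556) (nat_lit 7595) (.d (nat_lit 395) (nat_lit 363) (nat_lit 4459) (nat_lit 491) (nat_lit 4491))))) (.f (nat_lit 459) (nat_lit 431) (nat_lit 2475) (.f (nat_lit 426) (nat_lit 427) (nat_lit 3498) (.f (nat_lit 458) (nat_lit 425) (nat_lit 3497) (.d (nat_lit 490) (nat_lit 489) (nat_lit 1481) (nat_lit 491) (nat_lit 1482)))))))) (.a (.p (nat_lit 460) (.a (.f (nat_lit 459) (nat_lit 431) (nat_lit 2475) (.f (nat_lit 427) (nat_lit 426) (nat_lit 3498) (.f (nat_lit 492) (nat_lit 556) (nat_lit 7595) (.d (nat_lit 395) (nat_lit 363) (nat_lit 4459) (nat_lit 491) (nat_lit 4491))))) (.a (.f (nat_lit 459) (nat_lit 431) (nat_lit 2475) (.f (nat_lit 426) (nat_lit 427) (nat_lit 3498) (.f (nat_lit 458) (nat_lit 425) (nat_lit 3497) (.d (nat_lit 490) (nat_lit 489) (nat_lit 1481) (nat_lit 491) (nat_lit 1482))))) (.a (.f (nat_lit 459) (nat_lit 431) (nat_lit 2475) (.f (nat_lit 429) (nat_lit 458) (nat_lit 2474) (.f (nat_lit 492) (nat_lit 556) (nat_lit 6572) (.d (nat_lit 428) (nat_lit 397) (nat_lit 6540) (nat_lit 557) (nat_lit 4524))))) (.a (.p (nat_lit 492) (.a (.f (nat_lit 556) (nat_lit 429) (nat_lit 6572) (.d (nat_lit 557) (nat_lit 428) (nat_lit 4524) (nat_lit 589) (nat_lit 4556))) (.a (.f (nat_lit 556) (nat_lit 429) (nat_lit 6572) (.f (nat_lit 459) (nat_lit 427) (nat_lit 7595) (.d (nat_lit 491) (nat_lit 490) (nat_lit 1482) (nat_lit 588) (nat_lit 7627)))) (.a (.f (nat_lit 557) (nat_lit 428) (nat_lit 4524) (.d (nat_lit 589) (nat_lit 556) (nat_lit 4556) (nat_lit 621) (nat_lit 7660))) (.f (nat_lit 428) (nat_lit 557) (nat_lit 4524) (.f (nat_lit 429) (nat_lit 397) (nat_lit 6540) (.d (nat_lit 427) (nat_lit 395) (nat_lit 7563) (nat_lit 426) (nat_lit 426)))))))) (.p (nat_lit 492) (.a (.f (nat_lit 556) (nat_lit 429) (nat_lit 6572) (.d (nat_lit 557) (nat_lit 428) (nat_lit 4524) (nat_lit 589) (nat_lit 4556))) (.a (.f (nat_lit 556) (nat_lit 429) (nat_lit 6572) (.f (nat_lit 557) (nat_lit 589) (nat_lit 4556) (.d (nat_lit 555) (nat_lit 554) (nat_lit 2570) (nat_lit 587) (nat_lit 5579)))) (.a (.f (nat_lit 557) (nat_lit 428) (nat_lit 4524) (.d (nat_lit 589) (nat_lit 556) (nat_lit 4556) (nat_lit 621) (nat_lit 7660))) (.a (.f (nat_lit 428) (nat_lit 557) (nat_lit 4524) (.f (nat_lit 429) (nat_lit 397) (nat_lit 6540) (.d (nat_lit 427) (nat_lit 395) (nat_lit 7563) (nat_lit 426) (nat_lit 426)))) (.f (nat_lit 429) (nat_lit 556) (nat_lit 6572) (.d (nat_lit 397) (nat_lit 365) (nat_lit 5484) (nat_lit 428) (nat_lit 6540))))))))))))) (.a (.f (nat_lit 493) (nat_lit 557) (nat_lit 6573) (.f (nat_lit 429) (nat_lit 558) (nat_lit 4525) (.f (nat_lit 397) (nat_lit 492) (nat_lit 5516) (.d (nat_lit 396) (nat_lit 364) (nat_lit 7532) (nat_lit 428) (nat_lit 7564))))) (.p (nat_lit 429) (.a (.d (nat_lit 493) (nat_lit 556) (nat_lit 5548) (nat_lit 558) (nat_lit 4525)) (.a (.p (nat_lit 460) (.a (.d (nat_lit 459) (nat_lit 431) (nat_lit 2475) (nat_lit 458) (nat_lit 2474)) (.f (nat_lit 492) (nat_lit 556) (nat_lit 6572) (.d (nat_lit 397) (nat_lit 365) (nat_lit 5484) (nat_lit 428) (nat_lit 6540))))) (.f (nat_lit 493) (nat_lit 558) (nat_lit 4525) (.f (nat_lit 397) (nat_lit 492) (nat_lit 5516) (.d (nat_lit 396) (nat_lit 364) (nat_lit 7532) (nat_lit 428) (nat_lit 7564)))))))))))) (.a (.p (nat_lit 557) (.a s69655 (.a s70512 (.a (.p (nat_lit 589) (.a (.f (nat_lit 558) (nat_lit 559) (nat_lit 3596) (.d (nat_lit 621) (nat_lit 492) (nat_lit 7660) (nat_lit 653) (nat_lit 6669))) (.a (.f (nat_lit 558) (nat_lit 559) (nat_lit 3596) (.f (nat_lit 621) (nat_lit 653) (nat_lit 6669) (.f (nat_lit 622) (nat_lit 654) (nat_lit 4621) (.f (nat_lit 590) (nat_lit 493) (nat_lit 4589) (.f (nat_lit 623) (nat_lit 655) (nat_lit 4622) (.d (nat_lit 624) (nat_lit 588) (nat_lit 3660) (nat_lit 625) (nat_lit 3661))))))) (.a (.f (nat_lit 621) (nat_lit 492) (nat_lit 7660) (.f (nat_lit 653) (nat_lit 556) (nat_lit 7692) (.d (nat_lit 652) (nat_lit 620) (nat_lit 5644) (nat_lit 684) (nat_lit 5676)))) (.f (nat_lit 558) (nat_lit 559) (nat_lit 3596) (.f (nat_lit 493) (nat_lit 461) (nat_lit 6573) (.f (nat_lit 590) (nat_lit 622) (nat_lit 7661) (.f (nat_lit 588) (nat_lit 620) (nat_lit 5612) (.f (nat_lit 587) (nat_lit 586) (nat_lit 2602) (.f (nat_lit 523) (nat_lit 522) (nat_lit 522) (.f (nat_lit 619) (nat_lit 618) (nat_lit 1610) (.d (nat_lit 492) (nat_lit 555) (nat_lit 6635) (nat_lit 556) (nat_lit 5611))))))))))))) (.a (.p (nat_lit 589) (.a (.f (nat_lit 558) (nat_lit 559) (nat_lit 3596) (.f (nat_lit 621) (nat_lit 653) (nat_lit 6669) (.f (nat_lit 622) (nat_lit 654) (nat_lit 4621) (.f (nat_lit 590) (nat_lit 493) (nat_lit 4589) (.f (nat_lit 623) (nat_lit 655) (nat_lit 4622) (.d (nat_lit 624) (nat_lit 588) (nat_lit 3660) (nat_lit 625) (nat_lit 3661))))))) (.a (.f (nat_lit 558) (nat_lit 559) (nat_lit 3596) (.f (nat_lit 621) (nat_lit 653) (nat_lit 6669) (.f (nat_lit 622) (nat_lit 654) (nat_lit 4621) (.f (nat_lit 620) (nat_lit 652) (nat_lit 5644) (.f (nat_lit 523) (nat_lit 522) (nat_lit 522) (.f (nat_lit 491) (nat_lit 490) (nat_lit 3562) (.f (nat_lit 588) (nat_lit 556) (nat_lit 7659) (.d (nat_lit 587) (nat_lit 555) (nat_lit 4587) (nat_lit 586) (nat_lit 586))))))))) (.a (.f (nat_lit 493) (nat_lit 461) (nat_lit 6573) (.f (nat_lit 620) (nat_lit 588) (nat_lit 5612) (.f (nat_lit 621) (nat_lit 652) (nat_lit 5644) (.d (nat_lit 622) (nat_lit 590) (nat_lit 4589) (nat_lit 654) (nat_lit 4621))))) (.a (.f (nat_lit 558) (nat_lit 559) (nat_lit 3596) (.f (nat_lit 493) (nat_lit 461) (nat_lit 6573) (.f (nat_lit 622) (nat_lit 590) (nat_lit 4589) (.d (nat_lit 621) (nat_lit 653) (nat_lit 6669) (nat_lit 654) (nat_lit 4621))))) (.a (.f (nat_lit 493) (nat_lit 461) (nat_lit 6573) (.f (nat_lit 559) (nat_lit 558) (nat_lit 3596) (.f (nat_lit 588) (nat_lit 620) (nat_lit 5612) (.d (nat_lit 590) (nat_lit 591) (nat_lit 2604) (nat_lit 622) (nat_lit 4589))))) (.f (nat_lit 558) (nat_lit 559) (nat_lit 3596) (.f (nat_lit 493) (nat_lit 461) (nat_lit 6573) (.f (nat_lit 621) (nat_lit 653) (nat_lit 6669) (.d (nat_lit 620) (nat_lit 588) (nat_lit 5612) (nat_lit 652) (nat_lit 5644))))))))))) (.a s70095 (.a s70262 (.a (.p (nat_lit 460) (.a (.f (nat_lit 492) (nat_lit 428) (nat_lit 4524) (.d (nat_lit 589) (nat_lit 556) (nat_lit 4556) (nat_lit 621) (nat_lit 7660))) (.f (nat_lit 461) (nat_lit 493) (nat_lit 6573) (.f (nat_lit 459) (nat_lit 431) (nat_lit 2475) (.f (nat_lit 490) (nat_lit 491) (nat_lit 1482) (.d (nat_lit 458) (nat_lit 429) (nat_lit 2474) (nat_lit 489) (nat_lit 1481))))))) s70306)))))))) (.a (.p (nat_lit 557) (.a s69687 (.a (.p (nat_lit 460) (.a (.f (nat_lit 492) (nat_lit 428) (nat_lit 4524) (.d (nat_lit 589) (nat_lit 556) (nat_lit 4556) (nat_lit 621) (nat_lit 7660))) (.f (nat_lit 461) (nat_lit 493) (nat_lit 6573) (.f (nat_lit 459) (nat_lit 431) (nat_lit 2475) (.f (nat_lit 490) (nat_lit 491) (nat_lit 1482) (.d (nat_lit 458) (nat_lit 429) (nat_lit 2474) (nat_lit 489) (nat_lit 1481))))))) (.a s70512 (.a (.p (nat_lit 589) (.a (.f (nat_lit 558) (nat_lit 559) (nat_lit 3596) (.d (nat_lit 621) (nat_lit 492) (nat_lit 7660) (nat_lit 653) (nat_lit 6669))) (.a (.f (nat_lit 558) (nat_lit 559) (nat_lit 3596) (.f (nat_lit 621) (nat_lit 653) (nat_lit 6669) (.f (nat_lit 622) (nat_lit 654) (nat_lit 4621) (.f (nat_lit 590) (nat_lit 493) (nat_lit 4589) (.f (nat_lit 623) (nat_lit 655) (nat_lit 4622) (.d (nat_lit 624) (nat_lit 588) (nat_lit 3660) (nat_lit 625) (nat_lit 3661))))))) (.a (.f (nat_lit 621) (nat_lit 492) (nat_lit 7660) (.f (nat_lit 653) (nat_lit 556) (nat_lit 7692) (.d (nat_lit 652) (nat_lit 620) (nat_lit 5644) (nat_lit 684) (nat_lit 5676)))) (.f (nat_lit 493) (nat_lit 461) (nat_lit 6573) (.f (nat_lit 559) (nat_lit 558) (nat_lit 3596) (.f (nat_lit 588) (nat_lit 620) (nat_lit 5612) (.d (nat_lit 590) (nat_lit 591) (nat_lit 2604) (nat_lit 622) (nat_lit 4589))))))))) (.a (.p (nat_lit 589) (.a (.f (nat_lit 558) (nat_lit 559) (nat_lit 3596) (.f (nat_lit 621) (nat_lit 653) (nat_lit 6669) (.f (nat_lit 622) (nat_lit 654) (nat_lit 4621) (.f (nat_lit 590) (nat_lit 493) (nat_lit 4589) (.f (nat_lit 623) (nat_lit 655) (nat_lit 4622) (.d (nat_lit 624) (nat_lit 588) (nat_lit 3660) (nat_lit 625) (nat_lit 3661))))))) (.a (.f (nat_lit 558) (nat_lit 559) (nat_lit 3596) (.f (nat_lit 621) (nat_lit 653) (nat_lit 6669) (.f (nat_lit 622) (nat_lit 654) (nat_lit 4621) (.f (nat_lit 620) (nat_lit 652) (nat_lit 5644) (.f (nat_lit 523) (nat_lit 522) (nat_lit 522) (.f (nat_lit 491) (nat_lit 490) (nat_lit 3562) (.f (nat_lit 588) (nat_lit 556) (nat_lit 7659) (.d (nat_lit 623) (nat_lit 587) (nat_lit 3659) (nat_lit 624) (nat_lit 3660))))))))) (.a (.f (nat_lit 493) (nat_lit 461) (nat_lit 6573) (.f (nat_lit 620) (nat_lit 588) (nat_lit 5612) (.f (nat_lit 621) (nat_lit 652) (nat_lit 5644) (.d (nat_lit 622) (nat_lit 590) (nat_lit 4589) (nat_lit 654) (nat_lit 4621))))) (.a (.f (nat_lit 558) (nat_lit 559) (nat_lit 3596) (.f (nat_lit 493) (nat_lit 461) (nat_lit 6573) (.f (nat_lit 622) (nat_lit 590) (nat_lit 4589) (.d (nat_lit 621) (nat_lit 653) (nat_lit 6669) (nat_lit 654) (nat_lit 4621))))) (.a (.f (nat_lit 493) (nat_lit 461) (nat_lit 6573) (.f (nat_lit 559) (nat_lit 558) (nat_lit 3596) (.f (nat_lit 588) (nat_lit 620) (nat_lit 5612) (.d (nat_lit 590) (nat_lit 591) (nat_lit 2604) (nat_lit 622) (nat_lit 4589))))) (.f (nat_lit 558) (nat_lit 559) (nat_lit 3596) (.f (nat_lit 493) (nat_lit 461) (nat_lit 6573) (.f (nat_lit 621) (nat_lit 653) (nat_lit 6669) (.d (nat_lit 620) (nat_lit 588) (nat_lit 5612) (nat_lit 652) (nat_lit 5644))))))))))) (.a s70128 (.a (.p (nat_lit 589) (.a (.f (nat_lit 558) (nat_lit 559) (nat_lit 3596) (.d (nat_lit 621) (nat_lit 492) (nat_lit 7660) (nat_lit 653) (nat_lit 6669))) (.a (.f (nat_lit 558) (nat_lit 559) (nat_lit 3596) (.f (nat_lit 621) (nat_lit 653) (nat_lit 6669) (.f (nat_lit 622) (nat_lit 654) (nat_lit 4621) (.f (nat_lit 590) (nat_lit 493) (nat_lit 4589) (.f (nat_lit 623) (nat_lit 655) (nat_lit 4622) (.d (nat_lit 624) (nat_lit 588) (nat_lit 3660) (nat_lit 625) (nat_lit 3661))))))) (.a (.f (nat_lit 493) (nat_lit 461) (nat_lit 6573) (.d (nat_lit 492) (nat_lit 460) (nat_lit 7628) (nat_lit 621) (nat_lit 7660))) (.f (nat_lit 493) (nat_lit 461) (nat_lit 6573) (.f (nat_lit 559) (nat_lit 558) (nat_lit 3596) (.f (nat_lit 588) (nat_lit 620) (nat_lit 5612) (.d (nat_lit 590) (nat_lit 591) (nat_lit 2604) (nat_lit 622) (nat_lit 4589))))))))) s70321)))))))) (.a (.p (nat_lit 523) (.a (.f (nat_lit 558) (nat_lit 559) (nat_lit 523) (.f (nat_lit 522) (nat_lit 557) (nat_lit 522) (.d (nat_lit 554) (nat_lit 553) (nat_lit 1545) (nat_lit 555) (nat_lit 1546)))) (.a s70799 (.f (nat_lit 558) (nat_lit 559) (nat_lit 523) (.f (nat_lit 522) (nat_lit 557) (nat_lit 522) (.d (nat_lit 490) (nat_lit 489) (nat_lit 3561) (nat_lit 491) (nat_lit 3562))))))) (.a (.p (nat_lit 492) (.a (.p (nat_lit 523) (.a (.f (nat_lit 491) (nat_lit 490) (nat_lit 3562) (.f (nat_lit 555) (nat_lit 554) (nat_lit 1546) (.d (nat_lit 460) (nat_lit 428) (nat_lit 5547) (nat_lit 587) (nat_lit 6603)))) (.a (.f (nat_lit 491) (nat_lit 490) (nat_lit 3562) (.f (nat_lit 555) (nat_lit 554) (nat_lit 1546) (.d (nat_lit 587) (nat_lit 460) (nat_lit 6603) (nat_lit 619) (nat_lit 6635)))) (.a (.f (nat_lit 491) (nat_lit 490) (nat_lit 3562) (.f (nat_lit 555) (nat_lit 554) (nat_lit 1546) (.f (nat_lit 587) (nat_lit 619) (nat_lit 6635) (.f (nat_lit 588) (nat_lit 620) (nat_lit 4587) (.f (nat_lit 556) (nat_lit 459) (nat_lit 4555) (.f (nat_lit 589) (nat_lit 621) (nat_lit 4588) (.f (nat_lit 590) (nat_lit 591) (nat_lit 3627) (.f (nat_lit 558) (nat_lit 559) (nat_lit 523) (.d (nat_lit 622) (nat_lit 493) (nat_lit 7661) (nat_lit 623) (nat_lit 587)))))))))) (.a (.f (nat_lit 555) (nat_lit 554) (nat_lit 1546) (.f (nat_lit 460) (nat_lit 428) (nat_lit 5547) (.d (nat_lit 587) (nat_lit 556) (nat_lit 5579) (nat_lit 619) (nat_lit 6635)))) (.a (.p (nat_lit 460) (.a (.f (nat_lit 491) (nat_lit 490) (nat_lit 3562) (.d (nat_lit 428) (nat_lit 396) (nat_lit 5515) (nat_lit 555) (nat_lit 5547))) (.a (.f (nat_lit 491) (nat_lit 490) (nat_lit 3562) (.d (nat_lit 555) (nat_lit 428) (nat_lit 5547) (nat_lit 587) (nat_lit 6603))) (.a (.f (nat_lit 490) (nat_lit 491) (nat_lit 3562) (.f (nat_lit 522) (nat_lit 489) (nat_lit 3561) (.f (nat_lit 521) (nat_lit 493) (nat_lit 2537) (.f (nat_lit 552) (nat_lit 553) (nat_lit 1544) (.f (nat_lit 520) (nat_lit 551) (nat_lit 1543) (.f (nat_lit 556) (nat_lit 555) (nat_lit 520) (.f (nat_lit 461) (nat_lit 429) (nat_lit 6572) (.d (nat_lit 459) (nat_lit 427) (nat_lit 7595) (nat_lit 431) (nat_lit 2475))))))))) (.a (.f (nat_lit 428) (nat_lit 555) (nat_lit 5547) (.d (nat_lit 396) (nat_lit 491) (nat_lit 5515) (nat_lit 493) (nat_lit 4492))) (.a (.f (nat_lit 428) (nat_lit 555) (nat_lit 5547) (.f (nat_lit 429) (nat_lit 397) (nat_lit 6540) (.f (nat_lit 461) (nat_lit 556) (nat_lit 6572) (.d (nat_lit 427) (nat_lit 395) (nat_lit 7563) (nat_lit 426) (nat_lit 426))))) (.f (nat_lit 491) (nat_lit 490) (nat_lit 3562) (.f (nat_lit 428) (nat_lit 396) (nat_lit 5515) (.f (nat_lit 429) (nat_lit 397) (nat_lit 6540) (.f (nat_lit 459) (nat_lit 431) (nat_lit 1451) (.d (nat_lit 427) (nat_lit 395) (nat_lit 7563) (nat_lit 458) (nat_lit 1450)))))))))))) (.f (nat_lit 490) (nat_lit 491) (nat_lit 3562) (.f (nat_lit 522) (nat_lit 489) (nat_lit 3561) (.f (nat_lit 521) (nat_lit 493) (nat_lit 2537) (.d (nat_lit 553) (nat_lit 552) (nat_lit 1544) (nat_lit 554) (nat_lit 1545))))))))))) (.a (.p (nat_lit 523) (.a (.f (nat_lit 491) (nat_lit 490) (nat_lit 3562) (.f (nat_lit 555) (nat_lit 554) (nat_lit 1546) (.d (nat_lit 460) (nat_lit 428) (nat_lit 5547) (nat_lit 587) (nat_lit 6603)))) (.a (.f (nat_lit 491) (nat_lit 490) (nat_lit 3562) (.f (nat_lit 555) (nat_lit 554) (nat_lit 1546) (.d (nat_lit 587) (nat_lit 460) (nat_lit 6603) (nat_lit 619) (nat_lit 6635)))) (.a (.f (nat_lit 491) (nat_lit 490) (nat_lit 3562) (.f (nat_lit 555) (nat_lit 554) (nat_lit 1546) (.f (nat_lit 587) (nat_lit 619) (nat_lit 6635) (.f (nat_lit 588) (nat_lit 620) (nat_lit 4587) (.f (nat_lit 556) (nat_lit 459) (nat_lit 4555) (.f (nat_lit 589) (nat_lit 621) (nat_lit 4588) (.f (nat_lit 590) (nat_lit 591) (nat_lit 3627) (.f (nat_lit 558) (nat_lit 559) (nat_lit 523) (.d (nat_lit 622) (nat_lit 493) (nat_lit 7661) (nat_lit 623) (nat_lit 587)))))))))) (.a (.f (nat_lit 555) (nat_lit 554) (nat_lit 1546) (.f (nat_lit 460) (nat_lit 428) (nat_lit 5547) (.d (nat_lit 587) (nat_lit 556) (nat_lit 5579) (nat_lit 619) (nat_lit 6635)))) (.a (.p (nat_lit 460) (.a (.f (nat_lit 491) (nat_lit 490) (nat_lit 3562) (.d (nat_lit 428) (nat_lit 396) (nat_lit 5515) (nat_lit 555) (nat_lit 5547))) (.a (.f (nat_lit 491) (nat_lit 490) (nat_lit 3562) (.d (nat_lit 555) (nat_lit 428) (nat_lit 5547) (nat_lit 587) (nat_lit 6603))) (.a (.f (nat_lit 490) (nat_lit 491) (nat_lit 3562) (.f (nat_lit 522) (nat_lit 489) (nat_lit 3561) (.f (nat_lit 521) (nat_lit 493) (nat_lit 2537) (.f (nat_lit 552) (nat_lit 553) (nat_lit 1544) (.f (nat_lit 520) (nat_lit 551) (nat_lit 1543) (.f (nat_lit 556) (nat_lit 555) (nat_lit 520) (.f (nat_lit 461) (nat_lit 429) (nat_lit 6572) (.d (nat_lit 459) (nat_lit 427) (nat_lit 7595) (nat_lit 431) (nat_lit 2475))))))))) (.a (.f (nat_lit 428) (nat_lit 555) (nat_lit 5547) (.d (nat_lit 396) (nat_lit 491) (nat_lit 5515) (nat_lit 493) (nat_lit 4492))) (.a (.f (nat_lit 428) (nat_lit 555) (nat_lit 5547) (.f (nat_lit 429) (nat_lit 397) (nat_lit 6540) (.f (nat_lit 461) (nat_lit 556) (nat_lit 6572) (.d (nat_lit 431) (nat_lit 432) (nat_lit 1452) (nat_lit 459) (nat_lit 1451))))) (.f (nat_lit 491) (nat_lit 490) (nat_lit 3562) (.f (nat_lit 428) (nat_lit 396) (nat_lit 5515) (.f (nat_lit 429) (nat_lit 397) (nat_lit 6540) (.f (nat_lit 459) (nat_lit 431) (nat_lit 1451) (.d (nat_lit 458) (nat_lit 427) (nat_lit 1450) (nat_lit 457) (nat_lit 2473)))))))))))) (.f (nat_lit 490) (nat_lit 491) (nat_lit 3562) (.f (nat_lit 522) (nat_lit 489) (nat_lit 3561) (.f (nat_lit 521) (nat_lit 493) (nat_lit 2537) (.d (nat_lit 553) (nat_lit 552) (nat_lit 1544) (nat_lit 554) (nat_lit 1545))))))))))) (.a (.p (nat_lit 523) (.a (.f (nat_lit 491) (nat_lit 490) (nat_lit 3562) (.f (nat_lit 555) (nat_lit 554) (nat_lit 1546) (.d (nat_lit 460) (nat_lit 428) (nat_lit 5547) (nat_lit 587) (nat_lit 6603)))) (.a (.f (nat_lit 491) (nat_lit 490) (nat_lit 3562) (.f (nat_lit 555) (nat_lit 554) (nat_lit 1546) (.d (nat_lit 587) (nat_lit 460) (nat_lit 6603) (nat_lit 619) (nat_lit 6635)))) (.a (.f (nat_lit 491) (nat_lit 490) (nat_lit 3562) (.f (nat_lit 555) (nat_lit 554) (nat_lit 1546) (.f (nat_lit 587) (nat_lit 619) (nat_lit 6635) (.f (nat_lit 588) (nat_lit 620) (nat_lit 4587) (.f (nat_lit 556) (nat_lit 459) (nat_lit 4555) (.f (nat_lit 589) (nat_lit 621) (nat_lit 4588) (.f (nat_lit 590) (nat_lit 591) (nat_lit 3627) (.f (nat_lit 558) (nat_lit 559) (nat_lit 523) (.d (nat_lit 622) (nat_lit 493) (nat_lit 7661) (nat_lit 623) (nat_lit 587)))))))))) (.a (.f (nat_lit 555) (nat_lit 554) (nat_lit 1546) (.f (nat_lit 460) (nat_lit 428) (nat_lit 5547) (.d (nat_lit 587) (nat_lit 556) (nat_lit 5579) (nat_lit 619) (nat_lit 6635)))) (.a (.p (nat_lit 460) (.a (.f (nat_lit 491) (nat_lit 490) (nat_lit 3562) (.d (nat_lit 555) (nat_lit 428) (nat_lit 5547) (nat_lit 587) (nat_lit 6603))) (.a (.f (nat_lit 490) (nat_lit 491) (nat_lit 3562) (.f (nat_lit 522) (nat_lit 489) (nat_lit 3561) (.f (nat_lit 521) (nat_lit 493) (nat_lit 2537) (.f (nat_lit 552) (nat_lit 553) (nat_lit 1544) (.f (nat_lit 520) (nat_lit 551) (nat_lit 1543) (.f (nat_lit 556) (nat_lit 555) (nat_lit 520) (.f (nat_lit 461) (nat_lit 429) (nat_lit 6572) (.d (nat_lit 459) (nat_lit 427) (nat_lit 7595) (nat_lit 431) (nat_lit 2475))))))))) (.a (.f (nat_lit 428) (nat_lit 555) (nat_lit 5547) (.f (nat_lit 429) (nat_lit 397) (nat_lit 6540) (.f (nat_lit 461) (nat_lit 556) (nat_lit 6572) (.d (nat_lit 427) (nat_lit 395) (nat_lit 7563) (nat_lit 426) (nat_lit 426))))) (.f (nat_lit 490) (nat_lit 491) (nat_lit 3562) (.f (nat_lit 522) (nat_lit 489) (nat_lit 3561) (.f (nat_lit 493) (nat_lit 521) (nat_lit 2537) (.f (nat_lit 558) (nat_lit 559) (nat_lit 523) (.f (nat_lit 461) (nat_lit 429) (nat_lit 4525) (.f (nat_lit 459) (nat_lit 431) (nat_lit 2475) (.d (nat_lit 556) (nat_lit 427) (nat_lit 7595) (nat_lit 588) (nat_lit 6604)))))))))))) (.f (nat_lit 490) (nat_lit 491) (nat_lit 3562) (.f (nat_lit 522) (nat_lit 489) (nat_lit 3561) (.f (nat_lit 521) (nat_lit 493) (nat_lit 2537) (.d (nat_lit 553) (nat_lit 552) (nat_lit 1544) (nat_lit 554) (nat_lit 1545))))))))))) (.a (.p (nat_lit 523) (.a (.f (nat_lit 491) (nat_lit 490) (nat_lit 3562) (.f (nat_lit 555) (nat_lit 554) (nat_lit 1546) (.d (nat_lit 460) (nat_lit 428) (nat_lit 5547) (nat_lit 587) (nat_lit 6603)))) (.a (.f (nat_lit 491) (nat_lit 490) (nat_lit 3562) (.f (nat_lit 555) (nat_lit 554) (nat_lit 1546) (.d (nat_lit 587) (nat_lit 460) (nat_lit 6603) (nat_lit 619) (nat_lit 6635)))) (.a (.f (nat_lit 491) (nat_lit 490) (nat_lit 3562) (.f (nat_lit 555) (nat_lit 554) (nat_lit 1546) (.f (nat_lit 587) (nat_lit 619) (nat_lit 6635) (.f (nat_lit 588) (nat_lit 620) (nat_lit 4587) (.f (nat_lit 556) (nat_lit 459) (nat_lit 4555) (.f (nat_lit 589) (nat_lit 621) (nat_lit 4588) (.f (nat_lit 590) (nat_lit 591) (nat_lit 3627) (.f (nat_lit 558) (nat_lit 559) (nat_lit 523) (.d (nat_lit 622) (nat_lit 493) (nat_lit 7661) (nat_lit 623) (nat_lit 587)))))))))) (.a (.f (nat_lit 555) (nat_lit 554) (nat_lit 1546) (.f (nat_lit 460) (nat_lit 428) (nat_lit 5547) (.d (nat_lit 587) (nat_lit 556) (nat_lit 5579) (nat_lit 619) (nat_lit 6635)))) (.a (.p (nat_lit 460) (.a (.f (nat_lit 491) (nat_lit 490) (nat_lit 3562) (.d (nat_lit 428) (nat_lit 396) (nat_lit 5515) (nat_lit 555) (nat_lit 5547))) (.a (.f (nat_lit 491) (nat_lit 490) (nat_lit 3562) (.d (nat_lit 555) (nat_lit 428) (nat_lit 5547) (nat_lit 587) (nat_lit 6603))) (.a (.f (nat_lit 490) (nat_lit 491) (nat_lit 3562) (.f (nat_lit 522) (nat_lit 489) (nat_lit 3561) (.f (nat_lit 521) (nat_lit 493) (nat_lit 2537) (.f (nat_lit 552) (nat_lit 553) (nat_lit 1544) (.f (nat_lit 520) (nat_lit 551) (nat_lit 1543) (.f (nat_lit 556) (nat_lit 555) (nat_lit 520) (.f (nat_lit 461) (nat_lit 429) (nat_lit 6572) (.d (nat_lit 459) (nat_lit 427) (nat_lit 7595) (nat_lit 431) (nat_lit 2475))))))))) (.a (.f (nat_lit 428) (nat_lit 555) (nat_lit 5547) (.d (nat_lit 396) (nat_lit 491) (nat_lit 5515) (nat_lit 493) (nat_lit 4492))) (.a (.f (nat_lit 428) (nat_lit 555) (nat_lit 5547) (.f (nat_lit 493) (nat_lit 396) (nat_lit 4492) (.f (nat_lit 427) (nat_lit 395) (nat_lit 7563) (.f (nat_lit 459) (nat_lit 556) (nat_lit 7595) (.d (nat_lit 458) (nat_lit 429) (nat_lit 1450) (nat_lit 457) (nat_lit 457)))))) (.f (nat_lit 490) (nat_lit 491) (nat_lit 3562) (.f (nat_lit 522) (nat_lit 489) (nat_lit 3561) (.f (nat_lit 493) (nat_lit 521) (nat_lit 2537) (.f (nat_lit 558) (nat_lit 559) (nat_lit 523) (.f (nat_lit 461) (nat_lit 429) (nat_lit 4525) (.f (nat_lit 459) (nat_lit 431) (nat_lit 2475) (.d (nat_lit 556) (nat_lit 427) (nat_lit 7595) (nat_lit 588) (nat_lit 6604)))))))))))))) (.f (nat_lit 490) (nat_lit 491) (nat_lit 3562) (.f (nat_lit 522) (nat_lit 489) (nat_lit 3561) (.f (nat_lit 521) (nat_lit 493) (nat_lit 2537) (.d (nat_lit 553) (nat_lit 552) (nat_lit 1544) (nat_lit 554) (nat_lit 1545))))))))))) (.a (.p (nat_lit 523) (.a (.f (nat_lit 491) (nat_lit 490) (nat_lit 3562) (.f (nat_lit 555) (nat_lit 554) (nat_lit 1546) (.d (nat_lit 460) (nat_lit 428) (nat_lit 5547) (nat_lit 587) (nat_lit 6603)))) (.a (.f (nat_lit 491) (nat_lit 490) (nat_lit 3562) (.f (nat_lit 555) (nat_lit 554) (nat_lit 1546) (.d (nat_lit 587) (nat_lit 460) (nat_lit 6603) (nat_lit 619) (nat_lit 6635)))) (.a (.f (nat_lit 491) (nat_lit 490) (nat_lit 3562) (.f (nat_lit 555) (nat_lit 554) (nat_lit 1546) (.f (nat_lit 587) (nat_lit 619) (nat_lit 6635) (.f (nat_lit 588) (nat_lit 620) (nat_lit 4587) (.f (nat_lit 556) (nat_lit 459) (nat_lit 4555) (.f (nat_lit 589) (nat_lit 621) (nat_lit 4588) (.f (nat_lit 590) (nat_lit 591) (nat_lit 3627) (.f (nat_lit 558) (nat_lit 559) (nat_lit 523) (.d (nat_lit 622) (nat_lit 493) (nat_lit 7661) (nat_lit 623) (nat_lit 587)))))))))) (.a (.f (nat_lit 555) (nat_lit 554) (nat_lit 1546) (.f (nat_lit 460) (nat_lit 428) (nat_lit 5547) (.d (nat_lit 587) (nat_lit 556) (nat_lit 5579) (nat_lit 619) (nat_lit 6635)))) (.a (.p (nat_lit 460) (.a (.f (nat_lit 491) (nat_lit 490) (nat_lit 3562) (.d (nat_lit 428) (nat_lit 396) (nat_lit 5515) (nat_lit 555) (nat_lit 5547))) (.a (.f (nat_lit 491) (nat_lit 490) (nat_lit 3562) (.d (nat_lit 555) (nat_lit 428) (nat_lit 5547) (nat_lit 587) (nat_lit 6603))) (.a (.f (nat_lit 490) (nat_lit 491) (nat_lit 3562) (.f (nat_lit 522) (nat_lit 489) (nat_lit 3561) (.f (nat_lit 493) (nat_lit 521) (nat_lit 2537) (.f (nat_lit 558) (nat_lit 559) (nat_lit 523) (.f (nat_lit 461) (nat_lit 429) (nat_lit 4525) (.f (nat_lit 556) (nat_lit 588) (nat_lit 6604) (.f (nat_lit 555) (nat_lit 587) (nat_lit 5579) (.f (nat_lit 458) (nat_lit 426) (nat_lit 4522) (.d (nat_lit 459) (nat_lit 431) (nat_lit 2475) (nat_lit 457) (nat_lit 457)))))))))) (.a (.f (nat_lit 428) (nat_lit 555) (nat_lit 5547) (.d (nat_lit 396) (nat_lit 491) (nat_lit 5515) (nat_lit 493) (nat_lit 4492))) (.a (.f (nat_lit 428) (nat_lit 555) (nat_lit 5547) (.f (nat_lit 429) (nat_lit 397) (nat_lit 6540) (.f (nat_lit 461) (nat_lit 556) (nat_lit 6572) (.d (nat_lit 431) (nat_lit 432) (nat_lit 1452) (nat_lit 459) (nat_lit 1451))))) (.f (nat_lit 491) (nat_lit 490) (nat_lit 3562) (.f (nat_lit 428) (nat_lit 396) (nat_lit 5515) (.f (nat_lit 429) (nat_lit 397) (nat_lit 6540) (.f (nat_lit 461) (nat_lit 556) (nat_lit 6572) (.d (nat_lit 558) (nat_lit 493) (nat_lit 4525) (nat_lit 559) (nat_lit 523)))))))))))) (.f (nat_lit 490) (nat_lit 491) (nat_lit 3562) (.f (nat_lit 522) (nat_lit 489) (nat_lit 3561) (.f (nat_lit 521) (nat_lit 493) (nat_lit 2537) (.d (nat_lit 553) (nat_lit 552) (nat_lit 1544) (nat_lit 554) (nat_lit 1545))))))))))) (.a (.p (nat_lit 523) (.a (.f (nat_lit 491) (nat_lit 490) (nat_lit 3562) (.f (nat_lit 555) (nat_lit 554) (nat_lit 1546) (.d (nat_lit 587) (nat_lit 460) (nat_lit 6603) (nat_lit 619) (nat_lit 6635)))) (.a (.f (nat_lit 491) (nat_lit 490) (nat_lit 3562) (.f (nat_lit 555) (nat_lit 554) (nat_lit 1546) (.f (nat_lit 587) (nat_lit 619) (nat_lit 6635) (.f (nat_lit 588) (nat_lit 620) (nat_lit 4587) (.f (nat_lit 556) (nat_lit 459) (nat_lit 4555) (.f (nat_lit 589) (nat_lit 621) (nat_lit 4588) (.f (nat_lit 590) (nat_lit 591) (nat_lit 3627) (.f (nat_lit 558) (nat_lit 559) (nat_lit 523) (.d (nat_lit 622) (nat_lit 493) (nat_lit 7661) (nat_lit 623) (nat_lit 587)))))))))) (.a (.f (nat_lit 555) (nat_lit 554) (nat_lit 1546) (.f (nat_lit 587) (nat_lit 619) (nat_lit 6635) (.d (nat_lit 460) (nat_lit 491) (nat_lit 6603) (nat_lit 556) (nat_lit 5579)))) (.a (.f (nat_lit 554) (nat_lit 555) (nat_lit 1546) (.f (nat_lit 522) (nat_lit 553) (nat_lit 1545) (.f (nat_lit 521) (nat_lit 493) (nat_lit 2537) (.d (nat_lit 489) (nat_lit 488) (nat_lit 3560) (nat_lit 490) (nat_lit 3561))))) (.p (nat_lit 522) (.a (.d (nat_lit 490) (nat_lit 489) (nat_lit 3561) (nat_lit 491) (nat_lit 3562)) (.a (.f (nat_lit 491) (nat_lit 490) (nat_lit 3562) (.d (nat_lit 521) (nat_lit 493) (nat_lit 2537) (nat_lit 520) (nat_lit 2536))) (.a (.f (nat_lit 521) (nat_lit 493) (nat_lit 2537) (.f (nat_lit 520) (nat_lit 491) (nat_lit 2536) (.d (nat_lit 552) (nat_lit 551) (nat_lit 1543) (nat_lit 553) (nat_lit 1544)))) (.f (nat_lit 521) (nat_lit 493) (nat_lit 2537) (.d (nat_lit 489) (nat_lit 488) (nat_lit 3560) (nat_lit 490) (nat_lit 3561)))))))))))) (.a (.p (nat_lit 523) (.a (.f (nat_lit 491) (nat_lit 490) (nat_lit 3562) (.f (nat_lit 555) (nat_lit 554) (nat_lit 1546) (.d (nat_lit 460) (nat_lit 428) (nat_lit 5547) (nat_lit 587) (nat_lit 6603)))) (.a (.f (nat_lit 491) (nat_lit 490) (nat_lit 3562) (.f (nat_lit 555) (nat_lit 554) (nat_lit 1546) (.d (nat_lit 587) (nat_lit 460) (nat_lit 6603) (nat_lit 619) (nat_lit 6635)))) (.a (.f (nat_lit 490) (nat_lit 491) (nat_lit 3562) (.f (nat_lit 522) (nat_lit 489) (nat_lit 3561) (.f (nat_lit 521) (nat_lit 493) (nat_lit 2537) (.d (nat_lit 553) (nat_lit 552) (nat_lit 1544) (nat_lit 554) (nat_lit 1545))))) (.a (.f (nat_lit 555) (nat_lit 554) (nat_lit 1546) (.f (nat_lit 460) (nat_lit 428) (nat_lit 5547) (.d (nat_lit 587) (nat_lit 556) (nat_lit 5579) (nat_lit 619) (nat_lit 6635)))) (.p (nat_lit 522) (.a (.d (nat_lit 490) (nat_lit 489) (nat_lit 3561) (nat_lit 491) (nat_lit 3562)) (.a (.f (nat_lit 491) (nat_lit 490) (nat_lit 3562) (.d (nat_lit 521) (nat_lit 493) (nat_lit 2537) (nat_lit 520) (nat_lit 2536))) (.a (.f (nat_lit 521) (nat_lit 493) (nat_lit 2537) (.f (nat_lit 520) (nat_lit 491) (nat_lit 2536) (.d (nat_lit 552) (nat_lit 551) (nat_lit 1543) (nat_lit 553) (nat_lit 1544)))) (.f (nat_lit 521) (nat_lit 493) (nat_lit 2537) (.d (nat_lit 489) (nat_lit 488) (nat_lit 3560) (nat_lit 490) (nat_lit 3561)))))))))))) (.a (.p (nat_lit 523) (.a (.f (nat_lit 491) (nat_lit 490) (nat_lit 3562) (.f (nat_lit 555) (nat_lit 554) (nat_lit 1546) (.f (nat_lit 587) (nat_lit 619) (nat_lit 6635) (.f (nat_lit 588) (nat_lit 620) (nat_lit 4587) (.f (nat_lit 556) (nat_lit 459) (nat_lit 4555) (.f (nat_lit 589) (nat_lit 621) (nat_lit 4588) (.f (nat_lit 590) (nat_lit 591) (nat_lit 3627) (.f (nat_lit 558) (nat_lit 559) (nat_lit 523) (.d (nat_lit 622) (nat_lit 493) (nat_lit 7661) (nat_lit 623) (nat_lit 587)))))))))) (.a (.f (nat_lit 490) (nat_lit 491) (nat_lit 3562) (.f (nat_lit 522) (nat_lit 489) (nat_lit 3561) (.f (nat_lit 521) (nat_lit 493) (nat_lit 2537) (.d (nat_lit 553) (nat_lit 552) (nat_lit 1544) (nat_lit 554) (nat_lit 1545))))) (.a (.f (nat_lit 554) (nat_lit 555) (nat_lit 1546) (.f (nat_lit 522) (nat_lit 553) (nat_lit 1545) (.f (nat_lit 521) (nat_lit 493) (nat_lit 2537) (.f (nat_lit 520) (nat_lit 491) (nat_lit 2536) (.d (nat_lit 488) (nat_lit 487) (nat_lit 3559) (nat_lit 489) (nat_lit 3560)))))) (.a (.f (nat_lit 554) (nat_lit 555) (nat_lit 1546) (.f (nat_lit 522) (nat_lit 553) (nat_lit 1545) (.f (nat_lit 521) (nat_lit 493) (nat_lit 2537) (.d (nat_lit 489) (nat_lit 488) (nat_lit 3560) (nat_lit 490) (nat_lit 3561))))) (.a (.f (nat_lit 491) (nat_lit 490) (nat_lit 3562) (.f (nat_lit 555) (nat_lit 554) (nat_lit 1546) (.f (nat_lit 587) (nat_lit 619) (nat_lit 6635) (.f (nat_lit 588) (nat_lit 620) (nat_lit 4587) (.f (nat_lit 459) (nat_lit 556) (nat_lit 4555) (.f (nat_lit 427) (nat_lit 395) (nat_lit 4491) (.d (nat_lit 426) (nat_lit 394) (nat_lit 7562) (nat_lit 458) (nat_lit 7594)))))))) (.p (nat_lit 522) (.a (.d (nat_lit 490) (nat_lit 489) (nat_lit 3561) (nat_lit 491) (nat_lit 3562)) (.a (.f (nat_lit 491) (nat_lit 490) (nat_lit 3562) (.d (nat_lit 521) (nat_lit 493) (nat_lit 2537) (nat_lit 520) (nat_lit 2536))) (.a (.f (nat_lit 521) (nat_lit 493) (nat_lit 2537) (.f (nat_lit 520) (nat_lit 491) (nat_lit 2536) (.d (nat_lit 552) (nat_lit 551) (nat_lit 1543) (nat_lit 553) (nat_lit 1544)))) (.f (nat_lit 521) (nat_lit 493) (nat_lit 2537) (.d (nat_lit 489) (nat_lit 488) (nat_lit 3560) (nat_lit 490) (nat_lit 3561))))))))))))) (.a (.p (nat_lit 556) (.a (.p (nat_lit 588) (.a (.d (nat_lit 493) (nat_lit 461) (nat_lit 6604) (nat_lit 620) (nat_lit 6636)) (.a (.f (nat_lit 491) (nat_lit 459) (nat_lit 7627) (.d (nat_lit 490) (nat_lit 493) (nat_lit 490) (nat_lit 523) (nat_lit 3562))) (.f (nat_lit 491) (nat_lit 459) (nat_lit 7627) (.d (nat_lit 523) (nat_lit 490) (nat_lit 3562) (nat_lit 620) (nat_lit 7659)))))) (.a (.p (nat_lit 588) (.a (.d (nat_lit 493) (nat_lit 461) (nat_lit 6604) (nat_lit 620) (nat_lit 6636)) (.a (.f (nat_lit 620) (nat_lit 493) (nat_lit 6636) (.d (nat_lit 619) (nat_lit 587) (nat_lit 5611) (nat_lit 651) (nat_lit 5643))) (.f (nat_lit 587) (nat_lit 619) (nat_lit 5611) (.f (nat_lit 555) (nat_lit 460) (nat_lit 5579) (.d (nat_lit 554) (nat_lit 523) (nat_lit 1546) (nat_lit 553) (nat_lit 2569))))))) (.a (.p (nat_lit 588) (.a (.f (nat_lit 491) (nat_lit 459) (nat_lit 7627) (.d (nat_lit 490) (nat_lit 493) (nat_lit 490) (nat_lit 523) (nat_lit 3562))) (.a (.f (nat_lit 620) (nat_lit 493) (nat_lit 6636) (.d (nat_lit 619) (nat_lit 587) (nat_lit 5611) (nat_lit 651) (nat_lit 5643))) (.f (nat_lit 491) (nat_lit 459) (nat_lit 7627) (.d (nat_lit 523) (nat_lit 490) (nat_lit 3562) (nat_lit 620) (nat_lit 7659)))))) (.a (.p (nat_lit 523) (.a (.f (nat_lit 555) (nat_lit 554) (nat_lit 1546) (.d (nat_lit 460) (nat_lit 428) (nat_lit 5547) (nat_lit 587) (nat_lit 5579))) (.a (.f (nat_lit 555) (nat_lit 554) (nat_lit 1546) (.d (nat_lit 587) (nat_lit 460) (nat_lit 5579) (nat_lit 619) (nat_lit 6635))) (.f (nat_lit 491) (nat_lit 490) (nat_lit 3562) (.d (nat_lit 459) (nat_lit 427) (nat_lit 4523) (nat_lit 588) (nat_lit 7627)))))) (.a (.p (nat_lit 588) (.a (.d (nat_lit 493) (nat_lit 461) (nat_lit 6604) (nat_lit 620) (nat_lit 6636)) (.a (.f (nat_lit 620) (nat_lit 493) (nat_lit 6636) (.d (nat_lit 619) (nat_lit 587) (nat_lit 5611) (nat_lit 651) (nat_lit 5643))) (.f (nat_lit 459) (nat_lit 491) (nat_lit 7627) (.f (nat_lit 460) (nat_lit 427) (nat_lit 7595) (.d (nat_lit 461) (nat_lit 429) (nat_lit 6572) (nat_lit 431) (nat_lit 2475))))))) (.p (nat_lit 460) (.a (.f (nat_lit 461) (nat_lit 429) (nat_lit 6572) (.d (nat_lit 459) (nat_lit 427) (nat_lit 7595) (nat_lit 431) (nat_lit 2475))) (.f (nat_lit 555) (nat_lit 587) (nat_lit 5579) (.d (nat_lit 523) (nat_lit 428) (nat_lit 5547) (nat_lit 554) (nat_lit 1546))))))))))) (.a (.p (nat_lit 460) (.a (.p (nat_lit 428) (.a (.f (nat_lit 429) (nat_lit 397) (nat_lit 6540) (.f (nat_lit 461) (nat_lit 556) (nat_lit 6572) (.d (nat_lit 427) (nat_lit 395) (nat_lit 7563) (nat_lit 426) (nat_lit 426)))) (.a (.f (nat_lit 429) (nat_lit 397) (nat_lit 6540) (.f (nat_lit 461) (nat_lit 556) (nat_lit 6572) (.d (nat_lit 431) (nat_lit 432) (nat_lit 1452) (nat_lit 459) (nat_lit 1451)))) (.f (nat_lit 523) (nat_lit 555) (nat_lit 5547) (.d (nat_lit 396) (nat_lit 491) (nat_lit 5515) (nat_lit 493) (nat_lit 4492)))))) (.a (.p (nat_lit 556) (.a (.f (nat_lit 461) (nat_lit 429) (nat_lit 6572) (.d (nat_lit 459) (nat_lit 427) (nat_lit 7595) (nat_lit 431) (nat_lit 2475))) (.f (nat_lit 555) (nat_lit 587) (nat_lit 5579) (.d (nat_lit 523) (nat_lit 428) (nat_lit 5547) (nat_lit 554) (nat_lit 1546))))) (.a (.p (nat_lit 429) (.a (.f (nat_lit 461) (nat_lit 556) (nat_lit 6572) (.d (nat_lit 397) (nat_lit 428) (nat_lit 6540) (nat_lit 493) (nat_lit 5516))) (.a (.f (nat_lit 461) (nat_lit 556) (nat_lit 6572) (.d (nat_lit 459) (nat_lit 431) (nat_lit 2475) (nat_lit 458) (nat_lit 2474))) (.f (nat_lit 428) (nat_lit 397) (nat_lit 6540) (.f (nat_lit 523) (nat_lit 555) (nat_lit 5547) (.d (nat_lit 396) (nat_lit 491) (nat_lit 5515) (nat_lit 493) (nat_lit 4492))))))) (.a (.p (nat_lit 556) (.a (.f (nat_lit 461) (nat_lit 429) (nat_lit 6572) (.d (nat_lit 459) (nat_lit 427) (nat_lit 7595) (nat_lit 431) (nat_lit 2475))) (.a (.f (nat_lit 461) (nat_lit 429) (nat_lit 6572) (.f (nat_lit 588) (nat_lit 493) (nat_lit 6604) (.d (nat_lit 587) (nat_lit 555) (nat_lit 5579) (nat_lit 619) (nat_lit 5611)))) (.f (nat_lit 459) (nat_lit 427) (nat_lit 7595) (.f (nat_lit 588) (nat_lit 491) (nat_lit 7627) (.d (nat_lit 587) (nat_lit 555) (nat_lit 5579) (nat_lit 619) (nat_lit 5611))))))) (.a (.p (nat_lit 428) (.a (.f (nat_lit 523) (nat_lit 555) (nat_lit 5547) (.d (nat_lit 396) (nat_lit 491) (nat_lit 5515) (nat_lit 493) (nat_lit 4492))) (.f (nat_lit 427) (nat_lit 395) (nat_lit 7563) (.f (nat_lit 459) (nat_lit 556) (nat_lit 7595) (.d (nat_lit 461) (nat_lit 426) (nat_lit 3498) (nat_lit 431) (nat_lit 2475)))))) (.a (.p (nat_lit 428) (.a (.f (nat_lit 429) (nat_lit 397) (nat_lit 6540) (.f (nat_lit 461) (nat_lit 556) (nat_lit 6572) (.d (nat_lit 427) (nat_lit 395) (nat_lit 7563) (nat_lit 426) (nat_lit 426)))) (.f (nat_lit 523) (nat_lit 555) (nat_lit 5547) (.d (nat_lit 396) (nat_lit 491) (nat_lit 5515) (nat_lit 493) (nat_lit 4492))))) (.a (.p (nat_lit 428) (.a (.f (nat_lit 523) (nat_lit 555) (nat_lit 5547) (.d (nat_lit 396) (nat_lit 491) (nat_lit 5515) (nat_lit 493) (nat_lit 4492))) (.f (nat_lit 429) (nat_lit 397) (nat_lit 6540) (.f (nat_lit 427) (nat_lit 395) (nat_lit 7563) (.d (nat_lit 459) (nat_lit 431) (nat_lit 1451) (nat_lit 556) (nat_lit 7595)))))) (.a s71075 (.p (nat_lit 428) (.a (.f (nat_lit 523) (nat_lit 555) (nat_lit 5547) (.d (nat_lit 396) (nat_lit 491) (nat_lit 5515) (nat_lit 493) (nat_lit 4492))) (.f (nat_lit 429) (nat_lit 397) (nat_lit 6540) (.f (nat_lit 459) (nat_lit 431) (nat_lit 1451) (.d (nat_lit 427) (nat_lit 395) (nat_lit 7563) (nat_lit 458) (nat_lit 1450))))))))))))))) (.a (.p (nat_lit 460) (.a (.p (nat_lit 556) (.a (.f (nat_lit 461) (nat_lit 429) (nat_lit 6572) (.d (nat_lit 459) (nat_lit 427) (nat_lit 7595) (nat_lit 431) (nat_lit 2475))) (.f (nat_lit 555) (nat_lit 587) (nat_lit 5579) (.d (nat_lit 523) (nat_lit 428) (nat_lit 5547) (nat_lit 554) (nat_lit 1546))))) (.a (.p (nat_lit 429) (.a (.f (nat_lit 461) (nat_lit 556) (nat_lit 6572) (.d (nat_lit 397) (nat_lit 428) (nat_lit 6540) (nat_lit 493) (nat_lit 5516))) (.a (.f (nat_lit 461) (nat_lit 556) (nat_lit 6572) (.d (nat_lit 459) (nat_lit 431) (nat_lit 2475) (nat_lit 458) (nat_lit 2474))) (.f (nat_lit 428) (nat_lit 397) (nat_lit 6540) (.f (nat_lit 431) (nat_lit 459) (nat_lit 1451) (.d (nat_lit 396) (nat_lit 395) (nat_lit 3467) (nat_lit 493) (nat_lit 4492))))))) (.a (.p (nat_lit 556) (.a (.f (nat_lit 461) (nat_lit 429) (nat_lit 6572) (.d (nat_lit 459) (nat_lit 427) (nat_lit 7595) (nat_lit 431) (nat_lit 2475))) (.a (.f (nat_lit 461) (nat_lit 429) (nat_lit 6572) (.f (nat_lit 588) (nat_lit 493) (nat_lit 6604) (.d (nat_lit 587) (nat_lit 555) (nat_lit 5579) (nat_lit 619) (nat_lit 5611)))) (.f (nat_lit 555) (nat_lit 587) (nat_lit 5579) (.d (nat_lit 554) (nat_lit 523) (nat_lit 1546) (nat_lit 553) (nat_lit 2569)))))) (.a (.p (nat_lit 555) (.a (.d (nat_lit 523) (nat_lit 428) (nat_lit 5547) (nat_lit 554) (nat_lit 1546)) (.a (.f (nat_lit 556) (nat_lit 587) (nat_lit 5579) (.d (nat_lit 554) (nat_lit 523) (nat_lit 1546) (nat_lit 553) (nat_lit 2569))) (.f (nat_lit 556) (nat_lit 587) (nat_lit 5579) (.f (nat_lit 427) (nat_lit 459) (nat_lit 7595) (.f (nat_lit 428) (nat_lit 395) (nat_lit 7563) (.f (nat_lit 493) (nat_lit 396) (nat_lit 4492) (.d (nat_lit 588) (nat_lit 461) (nat_lit 6604) (nat_lit 620) (nat_lit 6636))))))))) (.a (.p (nat_lit 428) (.a (.f (nat_lit 429) (nat_lit 397) (nat_lit 6540) (.f (nat_lit 461) (nat_lit 556) (nat_lit 6572) (.d (nat_lit 427) (nat_lit 395) (nat_lit 7563) (nat_lit 426) (nat_lit 426)))) (.a (.f (nat_lit 429) (nat_lit 397) (nat_lit 6540) (.f (nat_lit 461) (nat_lit 556) (nat_lit 6572) (.d (nat_lit 493) (nat_lit 396) (nat_lit 4492) (nat_lit 558) (nat_lit 4525)))) (.f (nat_lit 396) (nat_lit 493) (nat_lit 4492) (.d (nat_lit 395) (nat_lit 363) (nat_lit 7531) (nat_lit 427) (nat_lit 7563)))))) (.a s71106 s71107))))))) (.a (.p (nat_lit 460) (.a (.p (nat_lit 556) (.a (.f (nat_lit 461) (nat_lit 429) (nat_lit 6572) (.d (nat_lit 459) (nat_lit 427) (nat_lit 7595) (nat_lit 431) (nat_lit 2475))) (.f (nat_lit 555) (nat_lit 587) (nat_lit 5579) (.d (nat_lit 523) (nat_lit 428) (nat_lit 5547) (nat_lit 554) (nat_lit 1546))))) (.a (.p (nat_lit 523) (.a (.f (nat_lit 491) (nat_lit 490) (nat_lit 3562) (.d (nat_lit 428) (nat_lit 396) (nat_lit 5515) (nat_lit 555) (nat_lit 5547))) (.a (.f (nat_lit 491) (nat_lit 490) (nat_lit 3562) (.d (nat_lit 555) (nat_lit 428) (nat_lit 5547) (nat_lit 587) (nat_lit 6603))) (.a (.f (nat_lit 491) (nat_lit 490) (nat_lit 3562) (.d (nat_lit 555) (nat_lit 554) (nat_lit 1546) (nat_lit 587) (nat_lit 6603))) (.a (.f (nat_lit 428) (nat_lit 555) (nat_lit 5547) (.f (nat_lit 429) (nat_lit 397) (nat_lit 6540) (.f (nat_lit 461) (nat_lit 556) (nat_lit 6572) (.d (nat_lit 431) (nat_lit 432) (nat_lit 1452) (nat_lit 459) (nat_lit 1451))))) (.f (nat_lit 491) (nat_lit 490) (nat_lit 3562) (.f (nat_lit 428) (nat_lit 396) (nat_lit 5515) (.f (nat_lit 429) (nat_lit 397) (nat_lit 6540) (.f (nat_lit 431) (nat_lit 459) (nat_lit 1451) (.d (nat_lit 432) (nat_lit 461) (nat_lit 1452) (nat_lit 465) (nat_lit 429))))))))))) (.a (.p (nat_lit 556) (.a (.f (nat_lit 461) (nat_lit 429) (nat_lit 6572) (.d (nat_lit 459) (nat_lit 427) (nat_lit 7595) (nat_lit 431) (nat_lit 2475))) (.f (nat_lit 555) (nat_lit 587) (nat_lit 5579) (.d (nat_lit 554) (nat_lit 523) (nat_lit 1546) (nat_lit 553) (nat_lit 2569))))) (.a (.p (nat_lit 523) (.a (.f (nat_lit 491) (nat_lit 490) (nat_lit 3562) (.d (nat_lit 428) (nat_lit 396) (nat_lit 5515) (nat_lit 555) (nat_lit 5547))) (.a (.f (nat_lit 491) (nat_lit 490) (nat_lit 3562) (.d (nat_lit 555) (nat_lit 428) (nat_lit 5547) (nat_lit 587) (nat_lit 6603))) (.a (.f (nat_lit 491) (nat_lit 490) (nat_lit 3562) (.d (nat_lit 555) (nat_lit 554) (nat_lit 1546) (nat_lit 587) (nat_lit 6603))) (.a (.d (nat_lit 555) (nat_lit 428) (nat_lit 5547) (nat_lit 554) (nat_lit 1546)) (.f (nat_lit 491) (nat_lit 490) (nat_lit 3562) (.f (nat_lit 428) (nat_lit 396) (nat_lit 5515) (.f (nat_lit 427) (nat_lit 395) (nat_lit 7563) (.f (nat_lit 459) (nat_lit 556) (nat_lit 4523) (.d (nat_lit 426) (nat_lit 394) (nat_lit 7562) (nat_lit 461) (nat_lit 3498))))))))))) (.a (.p (nat_lit 523) (.a (.f (nat_lit 491) (nat_lit 490) (nat_lit 3562) (.d (nat_lit 428) (nat_lit 396) (nat_lit 5515) (nat_lit 555) (nat_lit 5547))) (.a (.f (nat_lit 491) (nat_lit 490) (nat_lit 3562) (.d (nat_lit 555) (nat_lit 428) (nat_lit 5547) (nat_lit 587) (nat_lit 6603))) (.a (.f (nat_lit 491) (nat_lit 490) (nat_lit 3562) (.d (nat_lit 555) (nat_lit 554) (nat_lit 1546) (nat_lit 587) (nat_lit 6603))) (.a (.f (nat_lit 428) (nat_lit 555) (nat_lit 5547) (.f (nat_lit 429) (nat_lit 397) (nat_lit 6540) (.f (nat_lit 461) (nat_lit 556) (nat_lit 6572) (.d (nat_lit 427) (nat_lit 395) (nat_lit 7563) (nat_lit 426) (nat_lit 426))))) (.f (nat_lit 491) (nat_lit 490) (nat_lit 3562) (.f (nat_lit 428) (nat_lit 396) (nat_lit 5515) (.f (nat_lit 429) (nat_lit 397) (nat_lit 6540) (.f (nat_lit 427) (nat_lit 395) (nat_lit 7563) (.d (nat_lit 461) (nat_lit 426) (nat_lit 426) (nat_lit 556) (nat_lit 6572))))))))))) (.a (.p (nat_lit 523) (.a (.f (nat_lit 491) (nat_lit 490) (nat_lit 3562) (.d (nat_lit 428) (nat_lit 396) (nat_lit 5515) (nat_lit 555) (nat_lit 5547))) (.a (.f (nat_lit 491) (nat_lit 490) (nat_lit 3562) (.d (nat_lit 555) (nat_lit 428) (nat_lit 5547) (nat_lit 587) (nat_lit 6603))) (.a (.f (nat_lit 491) (nat_lit 490) (nat_lit 3562) (.d (nat_lit 555) (nat_lit 554) (nat_lit 1546) (nat_lit 587) (nat_lit 6603))) (.a (.d (nat_lit 555) (nat_lit 428) (nat_lit 5547) (nat_lit 554) (nat_lit 1546)) (.f (nat_lit 491) (nat_lit 490) (nat_lit 3562) (.f (nat_lit 428) (nat_lit 396) (nat_lit 5515) (.f (nat_lit 429) (nat_lit 397) (nat_lit 6540) (.f (nat_lit 459) (nat_lit 431) (nat_lit 1451) (.d (nat_lit 427) (nat_lit 395) (nat_lit 7563) (nat_lit 458) (nat_lit 1450))))))))))) s71142))))))) (.a (.p (nat_lit 556) (.a (.p (nat_lit 588) (.a (.d (nat_lit 493) (nat_lit 461) (nat_lit 6604) (nat_lit 620) (nat_lit 6636)) (.a (.f (nat_lit 620) (nat_lit 493) (nat_lit 6636) (.d (nat_lit 619) (nat_lit 587) (nat_lit 5611) (nat_lit 651) (nat_lit 5643))) (.f (nat_lit 459) (nat_lit 491) (nat_lit 7627) (.f (nat_lit 460) (nat_lit 427) (nat_lit 7595) (.d (nat_lit 461) (nat_lit 429) (nat_lit 6572) (nat_lit 431) (nat_lit 2475))))))) (.a (.p (nat_lit 588) (.a (.d (nat_lit 493) (nat_lit 461) (nat_lit 6604) (nat_lit 620) (nat_lit 6636)) (.a (.f (nat_lit 620) (nat_lit 493) (nat_lit 6636) (.d (nat_lit 619) (nat_lit 587) (nat_lit 5611) (nat_lit 651) (nat_lit 5643))) (.f (nat_lit 587) (nat_lit 619) (nat_lit 5611) (.f (nat_lit 589) (nat_lit 621) (nat_lit 4588) (.f (nat_lit 555) (nat_lit 460) (nat_lit 5579) (.d (nat_lit 590) (nat_lit 554) (nat_lit 3626) (nat_lit 591) (nat_lit 3627)))))))) (.a (.p (nat_lit 588) (.a (.d (nat_lit 493) (nat_lit 461) (nat_lit 6604) (nat_lit 620) (nat_lit 6636)) (.a (.f (nat_lit 620) (nat_lit 493) (nat_lit 6636) (.d (nat_lit 619) (nat_lit 587) (nat_lit 5611) (nat_lit 651) (nat_lit 5643))) (.a (.f (nat_lit 619) (nat_lit 587) (nat_lit 5611) (.f (nat_lit 620) (nat_lit 651) (nat_lit 5643) (.d (nat_lit 621) (nat_lit 589) (nat_lit 4588) (nat_lit 653) (nat_lit 4620)))) (.f (nat_lit 493) (nat_lit 461) (nat_lit 6604) (.d (nat_lit 491) (nat_lit 459) (nat_lit 7627) (nat_lit 490) (nat_lit 490))))))) (.a (.p (nat_lit 588) (.a (.f (nat_lit 620) (nat_lit 493) (nat_lit 6636) (.d (nat_lit 619) (nat_lit 587) (nat_lit 5611) (nat_lit 651) (nat_lit 5643))) (.a (.f (nat_lit 587) (nat_lit 619) (nat_lit 5611) (.f (nat_lit 589) (nat_lit 621) (nat_lit 4588) (.f (nat_lit 555) (nat_lit 460) (nat_lit 5579) (.d (nat_lit 590) (nat_lit 554) (nat_lit 3626) (nat_lit 591) (nat_lit 3627))))) (.f (nat_lit 620) (nat_lit 493) (nat_lit 6636) (.d (nat_lit 621) (nat_lit 589) (nat_lit 4588) (nat_lit 653) (nat_lit 4620)))))) (.a (.p (nat_lit 460) (.a (.f (nat_lit 461) (nat_lit 429) (nat_lit 6572) (.d (nat_lit 459) (nat_lit 427) (nat_lit 7595) (nat_lit 431) (nat_lit 2475))) (.a (.f (nat_lit 461) (nat_lit 429) (nat_lit 6572) (.f (nat_lit 459) (nat_lit 431) (nat_lit 2475) (.d (nat_lit 491) (nat_lit 490) (nat_lit 1482) (nat_lit 588) (nat_lit 7627)))) (.a (.f (nat_lit 459) (nat_lit 427) (nat_lit 7595) (.f (nat_lit 588) (nat_lit 491) (nat_lit 7627) (.d (nat_lit 587) (nat_lit 555) (nat_lit 5579) (nat_lit 619) (nat_lit 5611)))) (.f (nat_lit 429) (nat_lit 461) (nat_lit 6572) (.f (nat_lit 428) (nat_lit 397) (nat_lit 6540) (.f (nat_lit 395) (nat_lit 427) (nat_lit 7563) (.d (nat_lit 396) (nat_lit 363) (nat_lit 7531) (nat_lit 431) (nat_lit 3467))))))))) (.a (.p (nat_lit 588) (.a (.d (nat_lit 493) (nat_lit 461) (nat_lit 6604) (nat_lit 620) (nat_lit 6636)) (.a (.f (nat_lit 620) (nat_lit 493) (nat_lit 6636) (.d (nat_lit 621) (nat_lit 589) (nat_lit 4588) (nat_lit 653) (nat_lit 4620))) (.f (nat_lit 459) (nat_lit 491) (nat_lit 7627) (.f (nat_lit 460) (nat_lit 427) (nat_lit 7595) (.d (nat_lit 461) (nat_lit 429) (nat_lit 6572) (nat_lit 431) (nat_lit 2475))))))) (.p (nat_lit 460) (.a (.f (nat_lit 461) (nat_lit 429) (nat_lit 6572) (.d (nat_lit 459) (nat_lit 427) (nat_lit 7595) (nat_lit 431) (nat_lit 2475))) (.a (.f (nat_lit 461) (nat_lit 429) (nat_lit 6572) (.f (nat_lit 459) (nat_lit 431) (nat_lit 2475) (.f (nat_lit 490) (nat_lit 491) (nat_lit 1482) (.f (nat_lit 458) (nat_lit 489) (nat_lit 1481) (.f (nat_lit 457) (nat_lit 493) (nat_lit 457) (.d (nat_lit 425) (nat_lit 424) (nat_lit 3496) (nat_lit 426) (nat_lit 3497))))))) (.a (.f (nat_lit 459) (nat_lit 427) (nat_lit 7595) (.f (nat_lit 461) (nat_lit 431) (nat_lit 2475) (.f (nat_lit 490) (nat_lit 491) (nat_lit 1482) (.f (nat_lit 458) (nat_lit 489) (nat_lit 1481) (.f (nat_lit 457) (nat_lit 493) (nat_lit 457) (.d (nat_lit 425) (nat_lit 424) (nat_lit 3496) (nat_lit 426) (nat_lit 3497))))))) (.a (.f (nat_lit 461) (nat_lit 429) (nat_lit 6572) (.f (nat_lit 459) (nat_lit 427) (nat_lit 7595) (.f (nat_lit 490) (nat_lit 491) (nat_lit 1482) (.f (nat_lit 458) (nat_lit 489) (nat_lit 1481) (.f (nat_lit 457) (nat_lit 493) (nat_lit 457) (.d (nat_lit 425) (nat_lit 424) (nat_lit 3496) (nat_lit 426) (nat_lit 3497))))))) (.a (.f (nat_lit 429) (nat_lit 461) (nat_lit 6572) (.f (nat_lit 428) (nat_lit 397) (nat_lit 6540) (.f (nat_lit 395) (nat_lit 427) (nat_lit 7563) (.d (nat_lit 396) (nat_lit 363) (nat_lit 7531) (nat_lit 431) (nat_lit 3467))))) (.f (nat_lit 427) (nat_lit 459) (nat_lit 7595) (.f (nat_lit 428) (nat_lit 395) (nat_lit 7563) (.f (nat_lit 397) (nat_lit 429) (nat_lit 6540) (.d (nat_lit 396) (nat_lit 365) (nat_lit 6508) (nat_lit 493) (nat_lit 4492)))))))))))))))))) (.a (.p (nat_lit 460) (.a (.p (nat_lit 428) (.a (.f (nat_lit 429) (nat_lit 397) (nat_lit 6540) (.f (nat_lit 461) (nat_lit 556) (nat_lit 6572) (.d (nat_lit 427) (nat_lit 395) (nat_lit 7563) (nat_lit 426) (nat_lit 426)))) (.a (.f (nat_lit 429) (nat_lit 397) (nat_lit 6540) (.f (nat_lit 461) (nat_lit 556) (nat_lit 6572) (.d (nat_lit 431) (nat_lit 432) (nat_lit 1452) (nat_lit 459) (nat_lit 1451)))) (.f (nat_lit 523) (nat_lit 555) (nat_lit 5547) (.d (nat_lit 396) (nat_lit 491) (nat_lit 5515) (nat_lit 493) (nat_lit 4492)))))) (.a (.p (nat_lit 429) (.a (.f (nat_lit 461) (nat_lit 556) (nat_lit 6572) (.d (nat_lit 397) (nat_lit 428) (nat_lit 6540) (nat_lit 493) (nat_lit 5516))) (.a (.f (nat_lit 461) (nat_lit 556) (nat_lit 6572) (.d (nat_lit 459) (nat_lit 431) (nat_lit 2475) (nat_lit 458) (nat_lit 2474))) (.f (nat_lit 428) (nat_lit 397) (nat_lit 6540) (.f (nat_lit 523) (nat_lit 555) (nat_lit 5547) (.d (nat_lit 396) (nat_lit 491) (nat_lit 5515) (nat_lit 493) (nat_lit 4492))))))) (.a (.p (nat_lit 556) (.a (.f (nat_lit 461) (nat_lit 429) (nat_lit 6572) (.d (nat_lit 459) (nat_lit 427) (nat_lit 7595) (nat_lit 431) (nat_lit 2475))) (.a (.f (nat_lit 461) (nat_lit 429) (nat_lit 6572) (.f (nat_lit 588) (nat_lit 493) (nat_lit 6604) (.d (nat_lit 587) (nat_lit 555) (nat_lit 5579) (nat_lit 619) (nat_lit 5611)))) (.f (nat_lit 459) (nat_lit 427) (nat_lit 7595) (.f (nat_lit 588) (nat_lit 491) (nat_lit 7627) (.d (nat_lit 587) (nat_lit 555) (nat_lit 5579) (nat_lit 619) (nat_lit 5611))))))) (.a (.p (nat_lit 428) (.a (.f (nat_lit 523) (nat_lit 555) (nat_lit 5547) (.d (nat_lit 396) (nat_lit 491) (nat_lit 5515) (nat_lit 493) (nat_lit 4492))) (.f (nat_lit 427) (nat_lit 395) (nat_lit 7563) (.f (nat_lit 459) (nat_lit 556) (nat_lit 7595) (.d (nat_lit 461) (nat_lit 426) (nat_lit 3498) (nat_lit 431) (nat_lit 2475)))))) (.a (.p (nat_lit 428) (.a (.f (nat_lit 429) (nat_lit 397) (nat_lit 6540) (.f (nat_lit 461) (nat_lit 556) (nat_lit 6572) (.d (nat_lit 427) (nat_lit 395) (nat_lit 7563) (nat_lit 426) (nat_lit 426)))) (.f (nat_lit 523) (nat_lit 555) (nat_lit 5547) (.d (nat_lit 396) (nat_lit 491) (nat_lit 5515) (nat_lit 493) (nat_lit 4492))))) (.a (.p (nat_lit 428) (.a (.f (nat_lit 523) (nat_lit 555) (nat_lit 5547) (.d (nat_lit 396) (nat_lit 491) (nat_lit 5515) (nat_lit 493) (nat_lit 4492))) (.f (nat_lit 429) (nat_lit 397) (nat_lit 6540) (.f (nat_lit 427) (nat_lit 395) (nat_lit 7563) (.d (nat_lit 459) (nat_lit 431) (nat_lit 1451) (nat_lit 556) (nat_lit 7595)))))) (.a s71075 (.a s71142 (.p (nat_lit 428) (.a (.f (nat_lit 523) (nat_lit 555) (nat_lit 5547) (.d (nat_lit 396) (nat_lit 491) (nat_lit 5515) (nat_lit 493) (nat_lit 4492))) (.f (nat_lit 429) (nat_lit 397) (nat_lit 6540) (.f (nat_lit 459) (nat_lit 431) (nat_lit 1451) (.d (nat_lit 427) (nat_lit 395) (nat_lit 7563) (nat_lit 458) (nat_lit 1450))))))))))))))) (.a (.p (nat_lit 460) (.a s71075 (.a (.p (nat_lit 461) (.a (.f (nat_lit 556) (nat_lit 429) (nat_lit 6572) (.f (nat_lit 459) (nat_lit 427) (nat_lit 7595) (.d (nat_lit 491) (nat_lit 490) (nat_lit 1482) (nat_lit 588) (nat_lit 7627)))) (.a (.f (nat_lit 429) (nat_lit 556) (nat_lit 6572) (.d (nat_lit 397) (nat_lit 365) (nat_lit 5484) (nat_lit 428) (nat_lit 6540))) (.a (.f (nat_lit 459) (nat_lit 431) (nat_lit 2475) (.d (nat_lit 427) (nat_lit 426) (nat_lit 3498) (nat_lit 556) (nat_lit 7595))) (.f (nat_lit 459) (nat_lit 431) (nat_lit 2475) (.f (nat_lit 490) (nat_lit 491) (nat_lit 1482) (.d (nat_lit 458) (nat_lit 429) (nat_lit 2474) (nat_lit 489) (nat_lit 1481)))))))) (.a s71142 (.a (.p (nat_lit 429) (.a (.f (nat_lit 461) (nat_lit 556) (nat_lit 6572) (.d (nat_lit 397) (nat_lit 428) (nat_lit 6540) (nat_lit 493) (nat_lit 5516))) (.a (.f (nat_lit 461) (nat_lit 556) (nat_lit 6572) (.d (nat_lit 459) (nat_lit 431) (nat_lit 2475) (nat_lit 458) (nat_lit 2474))) (.f (nat_lit 428) (nat_lit 397) (nat_lit 6540) (.f (nat_lit 431) (nat_lit 459) (nat_lit 1451) (.d (nat_lit 396) (nat_lit 395) (nat_lit 3467) (nat_lit 493) (nat_lit 4492))))))) (.a (.p (nat_lit 461) (.a (.f (nat_lit 556) (nat_lit 429) (nat_lit 6572) (.f (nat_lit 459) (nat_lit 427) (nat_lit 7595) (.d (nat_lit 491) (nat_lit 490) (nat_lit 1482) (nat_lit 588) (nat_lit 7627)))) (.a (.f (nat_lit 459) (nat_lit 431) (nat_lit 2475) (.f (nat_lit 490) (nat_lit 491) (nat_lit 1482) (.d (nat_lit 458) (nat_lit 429) (nat_lit 2474) (nat_lit 489) (nat_lit 1481)))) (.a (.f (nat_lit 459) (nat_lit 431) (nat_lit 2475) (.d (nat_lit 427) (nat_lit 426) (nat_lit 3498) (nat_lit 556) (nat_lit 7595))) (.f (nat_lit 429) (nat_lit 556) (nat_lit 6572) (.d (nat_lit 493) (nat_lit 397) (nat_lit 5516) (nat_lit 558) (nat_lit 4525))))))) (.a (.p (nat_lit 459) (.a (.f (nat_lit 461) (nat_lit 431) (nat_lit 2475) (.d (nat_lit 427) (nat_lit 426) (nat_lit 3498) (nat_lit 556) (nat_lit 7595))) (.a (.f (nat_lit 427) (nat_lit 556) (nat_lit 7595) (.d (nat_lit 395) (nat_lit 363) (nat_lit 4459) (nat_lit 428) (nat_lit 7563))) (.f (nat_lit 461) (nat_lit 431) (nat_lit 2475) (.f (nat_lit 490) (nat_lit 491) (nat_lit 1482) (.f (nat_lit 458) (nat_lit 489) (nat_lit 1481) (.f (nat_lit 457) (nat_lit 493) (nat_lit 457) (.d (nat_lit 425) (nat_lit 424) (nat_lit 3496) (nat_lit 426) (nat_lit 3497))))))))) (.a (.p (nat_lit 428) (.a (.f (nat_lit 429) (nat_lit 397) (nat_lit 6540) (.f (nat_lit 461) (nat_lit 556) (nat_lit 6572) (.d (nat_lit 427) (nat_lit 395) (nat_lit 7563) (nat_lit 426) (nat_lit 426)))) (.a (.f (nat_lit 429) (nat_lit 397) (nat_lit 6540) (.f (nat_lit 461) (nat_lit 556) (nat_lit 6572) (.d (nat_lit 493) (nat_lit 396) (nat_lit 4492) (nat_lit 558) (nat_lit 4525)))) (.f (nat_lit 396) (nat_lit 493) (nat_lit 4492) (.d (nat_lit 395) (nat_lit 363) (nat_lit 7531) (nat_lit 427) (nat_lit 7563)))))) (.a s71106 s71107))))))))) (.p (nat_lit 523) (.a (.f (nat_lit 491) (nat_lit 490) (nat_lit 3562) (.f (nat_lit 555) (nat_lit 554) (nat_lit 1546) (.d (nat_lit 460) (nat_lit 428) (nat_lit 5547) (nat_lit 587) (nat_lit 6603)))) (.a (.f (nat_lit 491) (nat_lit 490) (nat_lit 3562) (.f (nat_lit 555) (nat_lit 554) (nat_lit 1546) (.d (nat_lit 587) (nat_lit 460) (nat_lit 6603) (nat_lit 619) (nat_lit 6635)))) (.a (.f (nat_lit 490) (nat_lit 491) (nat_lit 3562) (.f (nat_lit 522) (nat_lit 489) (nat_lit 3561) (.f (nat_lit 521) (nat_lit 493) (nat_lit 2537) (.d (nat_lit 553) (nat_lit 552) (nat_lit 1544) (nat_lit 554) (nat_lit 1545))))) (.a (.f (nat_lit 554) (nat_lit 555) (nat_lit 1546) (.f (nat_lit 522) (nat_lit 553) (nat_lit 1545) (.f (nat_lit 521) (nat_lit 493) (nat_lit 2537) (.f (nat_lit 520) (nat_lit 491) (nat_lit 2536) (.d (nat_lit 488) (nat_lit 487) (nat_lit 3559) (nat_lit 489) (nat_lit 3560)))))) (.a (.f (nat_lit 554) (nat_lit 555) (nat_lit 1546) (.f (nat_lit 522) (nat_lit 553) (nat_lit 1545) (.f (nat_lit 521) (nat_lit 493) (nat_lit 2537) (.d (nat_lit 489) (nat_lit 488) (nat_lit 3560) (nat_lit 490) (nat_lit 3561))))) (.p (nat_lit 522) (.a (.d (nat_lit 490) (nat_lit 489) (nat_lit 3561) (nat_lit 491) (nat_lit 3562)) (.a (.f (nat_lit 491) (nat_lit 490) (nat_lit 3562) (.d (nat_lit 521) (nat_lit 493) (nat_lit 2537) (nat_lit 520) (nat_lit 2536))) (.a (.f (nat_lit 521) (nat_lit 493) (nat_lit 2537) (.f (nat_lit 520) (nat_lit 491) (nat_lit 2536) (.d (nat_lit 552) (nat_lit 551) (nat_lit 1543) (nat_lit 553) (nat_lit 1544)))) (.f (nat_lit 521) (nat_lit 493) (nat_lit 2537) (.d (nat_lit 489) (nat_lit 488) (nat_lit 3560) (nat_lit 490) (nat_lit 3561))))))))))))))))))))))))))))) (.a (.p (nat_lit 523) (.a (.f (nat_lit 490) (nat_lit 491) (nat_lit 3562) (.f (nat_lit 522) (nat_lit 489) (nat_lit 3561) (.d (nat_lit 554) (nat_lit 553) (nat_lit 1545) (nat_lit 555) (nat_lit 1546)))) (.a s70799 (.a (.p (nat_lit 557) (.a s70145 (.a (.f (nat_lit 554) (nat_lit 555) (nat_lit 1546) (.f (nat_lit 522) (nat_lit 553) (nat_lit 1545) (.f (nat_lit 521) (nat_lit 556) (nat_lit 521) (.d (nat_lit 493) (nat_lit 461) (nat_lit 6573) (nat_lit 492) (nat_lit 2537))))) (.a (.p (nat_lit 589) (.a (.f (nat_lit 493) (nat_lit 461) (nat_lit 6573) (.f (nat_lit 620) (nat_lit 588) (nat_lit 5612) (.f (nat_lit 621) (nat_lit 652) (nat_lit 5644) (.d (nat_lit 622) (nat_lit 590) (nat_lit 4589) (nat_lit 654) (nat_lit 4621))))) (.a (.f (nat_lit 554) (nat_lit 555) (nat_lit 1546) (.f (nat_lit 522) (nat_lit 553) (nat_lit 1545) (.f (nat_lit 556) (nat_lit 521) (nat_lit 521) (.f (nat_lit 621) (nat_lit 653) (nat_lit 7692) (.f (nat_lit 620) (nat_lit 652) (nat_lit 5644) (.d (nat_lit 588) (nat_lit 491) (nat_lit 7659) (nat_lit 493) (nat_lit 5612))))))) (.a (.f (nat_lit 554) (nat_lit 555) (nat_lit 1546) (.f (nat_lit 522) (nat_lit 553) (nat_lit 1545) (.f (nat_lit 556) (nat_lit 521) (nat_lit 521) (.f (nat_lit 621) (nat_lit 653) (nat_lit 7692) (.f (nat_lit 620) (nat_lit 652) (nat_lit 5644) (.f (nat_lit 588) (nat_lit 491) (nat_lit 7659) (.f (nat_lit 619) (nat_lit 651) (nat_lit 5643) (.d (nat_lit 590) (nat_lit 591) (nat_lit 1611) (nat_lit 618) (nat_lit 2634))))))))) (.a (.f (nat_lit 554) (nat_lit 555) (nat_lit 1546) (.f (nat_lit 522) (nat_lit 553) (nat_lit 1545) (.f (nat_lit 556) (nat_lit 521) (nat_lit 521) (.f (nat_lit 621) (nat_lit 653) (nat_lit 7692) (.f (nat_lit 493) (nat_lit 461) (nat_lit 6573) (.d (nat_lit 622) (nat_lit 590) (nat_lit 4589) (nat_lit 654) (nat_lit 4621))))))) (.f (nat_lit 493) (nat_lit 461) (nat_lit 6573) (.f (nat_lit 588) (nat_lit 620) (nat_lit 5612) (.f (nat_lit 590) (nat_lit 622) (nat_lit 4589) (.f (nat_lit 555) (nat_lit 554) (nat_lit 1546) (.d (nat_lit 591) (nat_lit 556) (nat_lit 3627) (nat_lit 559) (nat_lit 2604))))))))))) (.a s70706 (.a (.p (nat_lit 460) (.a (.f (nat_lit 492) (nat_lit 428) (nat_lit 4524) (.d (nat_lit 589) (nat_lit 556) (nat_lit 4556) (nat_lit 621) (nat_lit 7660))) (.a (.f (nat_lit 461) (nat_lit 493) (nat_lit 6573) (.f (nat_lit 459) (nat_lit 431) (nat_lit 2475) (.f (nat_lit 427) (nat_lit 426) (nat_lit 3498) (.d (nat_lit 556) (nat_lit 491) (nat_lit 4523) (nat_lit 492) (nat_lit 7595))))) (.a (.f (nat_lit 461) (nat_lit 493) (nat_lit 6573) (.f (nat_lit 459) (nat_lit 431) (nat_lit 2475) (.f (nat_lit 427) (nat_lit 426) (nat_lit 3498) (.f (nat_lit 491) (nat_lit 556) (nat_lit 4523) (.d (nat_lit 428) (nat_lit 396) (nat_lit 6539) (nat_lit 555) (nat_lit 6571)))))) (.f (nat_lit 492) (nat_lit 428) (nat_lit 4524) (.d (nat_lit 589) (nat_lit 493) (nat_lit 7628) (nat_lit 621) (nat_lit 7660))))))) (.a (.p (nat_lit 460) (.a (.f (nat_lit 492) (nat_lit 428) (nat_lit 4524) (.d (nat_lit 589) (nat_lit 556) (nat_lit 4556) (nat_lit 621) (nat_lit 7660))) (.a (.f (nat_lit 461) (nat_lit 493) (nat_lit 6573) (.f (nat_lit 459) (nat_lit 431) (nat_lit 2475) (.f (nat_lit 427) (nat_lit 426) (nat_lit 3498) (.d (nat_lit 556) (nat_lit 491) (nat_lit 4523) (nat_lit 492) (nat_lit 7595))))) (.a (.f (nat_lit 461) (nat_lit 493) (nat_lit 6573) (.f (nat_lit 459) (nat_lit 431) (nat_lit 2475) (.f (nat_lit 427) (nat_lit 426) (nat_lit 3498) (.f (nat_lit 491) (nat_lit 556) (nat_lit 4523) (.f (nat_lit 396) (nat_lit 428) (nat_lit 6539) (.f (nat_lit 395) (nat_lit 364) (nat_lit 6507) (.f (nat_lit 394) (nat_lit 362) (nat_lit 7530) (.d (nat_lit 429) (nat_lit 397) (nat_lit 394) (nat_lit 458) (nat_lit 2474))))))))) (.f (nat_lit 492) (nat_lit 428) (nat_lit 4524) (.d (nat_lit 589) (nat_lit 493) (nat_lit 7628) (nat_lit 621) (nat_lit 7660))))))) (.f (nat_lit 493) (nat_lit 461) (nat_lit 6573) (.f (nat_lit 554) (nat_lit 555) (nat_lit 1546) (.f (nat_lit 522) (nat_lit 553) (nat_lit 1545) (.f (nat_lit 492) (nat_lit 521) (nat_lit 2537) (.d (nat_lit 460) (nat_lit 428) (nat_lit 4524) (nat_lit 589) (nat_lit 7628))))))))))))) (.a (.f (nat_lit 554) (nat_lit 555) (nat_lit 1546) (.f (nat_lit 522) (nat_lit 553) (nat_lit 1545) (.f (nat_lit 489) (nat_lit 490) (nat_lit 3561) (.f (nat_lit 521) (nat_lit 488) (nat_lit 3560) (.f (nat_lit 493) (nat_lit 492) (nat_lit 2537) (.d (nat_lit 557) (nat_lit 461) (nat_lit 6573) (nat_lit 556) (nat_lit 521))))))) (.a (.p (nat_lit 493) (.a (.f (nat_lit 461) (nat_lit 557) (nat_lit 6573) (.f (nat_lit 429) (nat_lit 556) (nat_lit 5548) (.f (nat_lit 492) (nat_lit 397) (nat_lit 5516) (.f (nat_lit 428) (nat_lit 396) (nat_lit 7564) (.f (nat_lit 460) (nat_lit 555) (nat_lit 5547) (.d (nat_lit 431) (nat_lit 432) (nat_lit 1452) (nat_lit 459) (nat_lit 2475))))))) (.a (.f (nat_lit 461) (nat_lit 557) (nat_lit 6573) (.f (nat_lit 490) (nat_lit 491) (nat_lit 3562) (.f (nat_lit 429) (nat_lit 556) (nat_lit 5548) (.f (nat_lit 522) (nat_lit 489) (nat_lit 3561) (.d (nat_lit 492) (nat_lit 397) (nat_lit 5516) (nat_lit 521) (nat_lit 2537)))))) (.a (.f (nat_lit 461) (nat_lit 557) (nat_lit 6573) (.f (nat_lit 429) (nat_lit 556) (nat_lit 5548) (.f (nat_lit 428) (nat_lit 396) (nat_lit 7564) (.f (nat_lit 427) (nat_lit 426) (nat_lit 426) (.f (nat_lit 459) (nat_lit 458) (nat_lit 1450) (.f (nat_lit 431) (nat_lit 460) (nat_lit 1451) (.d (nat_lit 432) (nat_lit 433) (nat_lit 1453) (nat_lit 465) (nat_lit 429)))))))) (.a (.f (nat_lit 490) (nat_lit 491) (nat_lit 3562) (.f (nat_lit 522) (nat_lit 489) (nat_lit 3561) (.f (nat_lit 521) (nat_lit 492) (nat_lit 2537) (.d (nat_lit 557) (nat_lit 461) (nat_lit 6573) (nat_lit 556) (nat_lit 521))))) (.a (.f (nat_lit 490) (nat_lit 491) (nat_lit 3562) (.f (nat_lit 522) (nat_lit 489) (nat_lit 3561) (.f (nat_lit 521) (nat_lit 492) (nat_lit 2537) (.f (nat_lit 556) (nat_lit 557) (nat_lit 521) (.f (nat_lit 520) (nat_lit 555) (nat_lit 520) (.d (nat_lit 552) (nat_lit 551) (nat_lit 1543) (nat_lit 553) (nat_lit 1544))))))) (.a (.f (nat_lit 490) (nat_lit 491) (nat_lit 3562) (.f (nat_lit 522) (nat_lit 489) (nat_lit 3561) (.f (nat_lit 492) (nat_lit 521) (nat_lit 2537) (.f (nat_lit 557) (nat_lit 461) (nat_lit 6573) (.d (nat_lit 460) (nat_lit 428) (nat_lit 4524) (nat_lit 589) (nat_lit 7628)))))) (.p (nat_lit 556) (.a (.f (nat_lit 491) (nat_lit 490) (nat_lit 3562) (.f (nat_lit 588) (nat_lit 620) (nat_lit 7659) (.d (nat_lit 492) (nat_lit 459) (nat_lit 7627) (nat_lit 461) (nat_lit 6604)))) (.a (.f (nat_lit 588) (nat_lit 620) (nat_lit 6636) (.d (nat_lit 461) (nat_lit 429) (nat_lit 5548) (nat_lit 492) (nat_lit 6604))) (.a (.f (nat_lit 491) (nat_lit 490) (nat_lit 3562) (.f (nat_lit 588) (nat_lit 620) (nat_lit 7659) (.d (nat_lit 459) (nat_lit 492) (nat_lit 7627) (nat_lit 555) (nat_lit 4555)))) (.a (.f (nat_lit 491) (nat_lit 490) (nat_lit 3562) (.f (nat_lit 588) (nat_lit 620) (nat_lit 6636) (.d (nat_lit 459) (nat_lit 427) (nat_lit 4523) (nat_lit 555) (nat_lit 4555)))) (.f (nat_lit 491) (nat_lit 490) (nat_lit 3562) (.f (nat_lit 459) (nat_lit 427) (nat_lit 4523) (.f (nat_lit 461) (nat_lit 429) (nat_lit 5548) (.f (nat_lit 460) (nat_lit 431) (nat_lit 2475) (.f (nat_lit 555) (nat_lit 428) (nat_lit 6571) (.f (nat_lit 587) (nat_lit 492) (nat_lit 5579) (.f (nat_lit 619) (nat_lit 651) (nat_lit 6667) (.d (nat_lit 618) (nat_lit 586) (nat_lit 5610) (nat_lit 650) (nat_lit 5642))))))))))))))))))))) (.f (nat_lit 490) (nat_lit 491) (nat_lit 3562) (.f (nat_lit 522) (nat_lit 489) (nat_lit 3561) (.f (nat_lit 553) (nat_lit 554) (nat_lit 1545) (.f (nat_lit 521) (nat_lit 552) (nat_lit 1544) (.f (nat_lit 557) (nat_lit 556) (nat_lit 521) (.d (nat_lit 493) (nat_lit 461) (nat_lit 6573) (nat_lit 492) (nat_lit 2537))))))))))))) (.p (nat_lit 523) (.a (.f (nat_lit 558) (nat_lit 559) (nat_lit 523) (.f (nat_lit 522) (nat_lit 557) (nat_lit 522) (.d (nat_lit 554) (nat_lit 553) (nat_lit 1545) (nat_lit 555) (nat_lit 1546)))) (.a s70784 (.f (nat_lit 490) (nat_lit 491) (nat_lit 3562) (.f (nat_lit 522) (nat_lit 489) (nat_lit 3561) (.d (nat_lit 554) (nat_lit 553) (nat_lit 1545) (nat_lit 555) (nat_lit 1546))))))))))))))))))))))))) (.a (.f (nat_lit 527) (nat_lit 561) (nat_lit 525) (.f (nat_lit 524) (nat_lit 559) (nat_lit 524) (.d (nat_lit 492) (nat_lit 491) (nat_lit 3563) (nat_lit 493) (nat_lit 3564)))) (.p (nat_lit 527) (.a (.f (nat_lit 524) (nat_lit 559) (nat_lit 524) (.d (nat_lit 556) (nat_lit 555) (nat_lit 1547) (nat_lit 557) (nat_lit 1548))) (.a (.f (nat_lit 493) (nat_lit 492) (nat_lit 3564) (.d (nat_lit 557) (nat_lit 461) (nat_lit 6573) (nat_lit 556) (nat_lit 1548))) (.f (nat_lit 524) (nat_lit 559) (nat_lit 524) (.d (nat_lit 492) (nat_lit 491) (nat_lit 3563) (nat_lit 493) (nat_lit 3564))))))))))) (.a (.p (nat_lit 494) (.a (.f (nat_lit 429) (nat_lit 397) (nat_lit 7565) (.f (nat_lit 431) (nat_lit 399) (nat_lit 6542) (.f (nat_lit 461) (nat_lit 558) (nat_lit 7597) (.d (nat_lit 432) (nat_lit 460) (nat_lit 1452) (nat_lit 465) (nat_lit 429))))) (.a (.f (nat_lit 559) (nat_lit 527) (nat_lit 4526) (.f (nat_lit 558) (nat_lit 591) (nat_lit 4558) (.f (nat_lit 589) (nat_lit 557) (nat_lit 5581) (.d (nat_lit 590) (nat_lit 561) (nat_lit 1581) (nat_lit 621) (nat_lit 5613))))) (.f (nat_lit 431) (nat_lit 399) (nat_lit 6542) (.f (nat_lit 429) (nat_lit 397) (nat_lit 7565) (.f (nat_lit 432) (nat_lit 465) (nat_lit 429) (.d (nat_lit 461) (nat_lit 433) (nat_lit 1453) (nat_lit 460) (nat_lit 1452)))))))) (.a (.p (nat_lit 494) (.a (.f (nat_lit 429) (nat_lit 397) (nat_lit 7565) (.f (nat_lit 431) (nat_lit 399) (nat_lit 6542) (.f (nat_lit 461) (nat_lit 558) (nat_lit 7597) (.d (nat_lit 432) (nat_lit 460) (nat_lit 1452) (nat_lit 465) (nat_lit 429))))) (.a (.f (nat_lit 557) (nat_lit 525) (nat_lit 5549) (.f (nat_lit 558) (nat_lit 589) (nat_lit 5581) (.f (nat_lit 461) (nat_lit 429) (nat_lit 7597) (.f (nat_lit 591) (nat_lit 559) (nat_lit 4558) (.d (nat_lit 590) (nat_lit 493) (nat_lit 7629) (nat_lit 623) (nat_lit 4590)))))) (.a s70463 (.a s70474 (.f (nat_lit 431) (nat_lit 399) (nat_lit 6542) (.f (nat_lit 429) (nat_lit 397) (nat_lit 7565) (.f (nat_lit 432) (nat_lit 465) (nat_lit 429) (.d (nat_lit 461) (nat_lit 433) (nat_lit 1453) (nat_lit 460) (nat_lit 1452)))))))))) (.a (.p (nat_lit 494) (.a (.f (nat_lit 429) (nat_lit 397) (nat_lit 7565) (.f (nat_lit 431) (nat_lit 399) (nat_lit 6542) (.f (nat_lit 461) (nat_lit 558) (nat_lit 7597) (.d (nat_lit 432) (nat_lit 460) (nat_lit 1452) (nat_lit 465) (nat_lit 429))))) (.f (nat_lit 527) (nat_lit 559) (nat_lit 4526) (.f (nat_lit 525) (nat_lit 561) (nat_lit 525) (.f (nat_lit 492) (nat_lit 493) (nat_lit 3564) (.f (nat_lit 524) (nat_lit 491) (nat_lit 3563) (.f (nat_lit 523) (nat_lit 495) (nat_lit 2539) (.d (nat_lit 555) (nat_lit 554) (nat_lit 1546) (nat_lit 556) (nat_lit 1547))))))))) (.a (.p (nat_lit 494) (.a (.f (nat_lit 527) (nat_lit 559) (nat_lit 4526) (.d (nat_lit 525) (nat_lit 557) (nat_lit 5549) (nat_lit 561) (nat_lit 525))) (.f (nat_lit 431) (nat_lit 399) (nat_lit 6542) (.f (nat_lit 429) (nat_lit 397) (nat_lit 7565) (.f (nat_lit 432) (nat_lit 465) (nat_lit 429) (.d (nat_lit 461) (nat_lit 433) (nat_lit 1453) (nat_lit 460) (nat_lit 1452))))))) (.a (.p (nat_lit 494) (.a (.f (nat_lit 429) (nat_lit 397) (nat_lit 7565) (.f (nat_lit 431) (nat_lit 399) (nat_lit 6542) (.f (nat_lit 461) (nat_lit 558) (nat_lit 7597) (.d (nat_lit 432) (nat_lit 460) (nat_lit 1452) (nat_lit 465) (nat_lit 429))))) (.f (nat_lit 525) (nat_lit 557) (nat_lit 5549) (.f (nat_lit 527) (nat_lit 561) (nat_lit 525) (.f (nat_lit 492) (nat_lit 493) (nat_lit 3564) (.f (nat_lit 524) (nat_lit 491) (nat_lit 3563) (.f (nat_lit 523) (nat_lit 495) (nat_lit 2539) (.d (nat_lit 555) (nat_lit 554) (nat_lit 1546) (nat_lit 556) (nat_lit 1547))))))))) (.p (nat_lit 494) (.a (.f (nat_lit 429) (nat_lit 397) (nat_lit 7565) (.f (nat_lit 431) (nat_lit 399) (nat_lit 6542) (.f (nat_lit 461) (nat_lit 558) (nat_lit 7597) (.d (nat_lit 432) (nat_lit 460) (nat_lit 1452) (nat_lit 465) (nat_lit 429))))) (.a (.f (nat_lit 557) (nat_lit 525) (nat_lit 5549) (.f (nat_lit 558) (nat_lit 589) (nat_lit 5581) (.f (nat_lit 461) (nat_lit 429) (nat_lit 7597) (.f (nat_lit 591) (nat_lit 559) (nat_lit 4558) (.d (nat_lit 590) (nat_lit 493) (nat_lit 7629) (nat_lit 623) (nat_lit 4590)))))) (.f (nat_lit 525) (nat_lit 557) (nat_lit 5549) (.f (nat_lit 527) (nat_lit 559) (nat_lit 4526) (.f (nat_lit 492) (nat_lit 493) (nat_lit 3564) (.f (nat_lit 524) (nat_lit 491) (nat_lit 3563) (.f (nat_lit 523) (nat_lit 495) (nat_lit 2539) (.d (nat_lit 555) (nat_lit 554) (nat_lit 1546) (nat_lit 556) (nat_lit 1547))))))))))))))))))))) (.a (.p (nat_lit 494) (.a s67621 (.a s67848 (.a s69119 (.a (.p (nat_lit 525) (.a (.f (nat_lit 526) (nat_lit 557) (nat_lit 5549) (.d (nat_lit 527) (nat_lit 559) (nat_lit 4526) (nat_lit 561) (nat_lit 525))) (.a (.f (nat_lit 493) (nat_lit 398) (nat_lit 5517) (.d (nat_lit 557) (nat_lit 461) (nat_lit 6573) (nat_lit 589) (nat_lit 6605))) (.f (nat_lit 398) (nat_lit 493) (nat_lit 5517) (.f (nat_lit 527) (nat_lit 495) (nat_lit 4494) (.d (nat_lit 526) (nat_lit 559) (nat_lit 4526) (nat_lit 561) (nat_lit 525))))))) (.a (.p (nat_lit 526) (.a (.f (nat_lit 527) (nat_lit 559) (nat_lit 4526) (.d (nat_lit 525) (nat_lit 557) (nat_lit 5549) (nat_lit 561) (nat_lit 525))) (.a (.f (nat_lit 527) (nat_lit 559) (nat_lit 4526) (.f (nat_lit 398) (nat_lit 495) (nat_lit 4494) (.d (nat_lit 397) (nat_lit 365) (nat_lit 7533) (nat_lit 429) (nat_lit 7565)))) (.f (nat_lit 557) (nat_lit 525) (nat_lit 5549) (.f (nat_lit 558) (nat_lit 589) (nat_lit 5581) (.d (nat_lit 429) (nat_lit 397) (nat_lit 7565) (nat_lit 461) (nat_lit 7597))))))) (.a (.p (nat_lit 398) (.a (.f (nat_lit 397) (nat_lit 365) (nat_lit 7533) (.f (nat_lit 526) (nat_lit 429) (nat_lit 7565) (.d (nat_lit 527) (nat_lit 495) (nat_lit 4494) (nat_lit 559) (nat_lit 4526)))) (.a (.f (nat_lit 527) (nat_lit 495) (nat_lit 4494) (.f (nat_lit 526) (nat_lit 559) (nat_lit 4526) (.f (nat_lit 429) (nat_lit 397) (nat_lit 7565) (.f (nat_lit 461) (nat_lit 558) (nat_lit 7597) (.d (nat_lit 366) (nat_lit 334) (nat_lit 5453) (nat_lit 493) (nat_lit 5485)))))) (.a (.p (nat_lit 366) (.a (.f (nat_lit 461) (nat_lit 493) (nat_lit 5485) (.f (nat_lit 334) (nat_lit 429) (nat_lit 5453) (.d (nat_lit 335) (nat_lit 303) (nat_lit 6446) (nat_lit 367) (nat_lit 6478)))) (.a (.f (nat_lit 461) (nat_lit 493) (nat_lit 5485) (.f (nat_lit 429) (nat_lit 334) (nat_lit 5453) (.f (nat_lit 527) (nat_lit 495) (nat_lit 4494) (.d (nat_lit 526) (nat_lit 558) (nat_lit 7597) (nat_lit 559) (nat_lit 4526))))) (.a (.f (nat_lit 365) (nat_lit 333) (nat_lit 7501) (.p (nat_lit 364) (.a (.f (nat_lit 367) (nat_lit 335) (nat_lit 6478) (.f (nat_lit 331) (nat_lit 332) (nat_lit 3403) (.f (nat_lit 363) (nat_lit 330) (nat_lit 3402) (.d (nat_lit 395) (nat_lit 394) (nat_lit 1386) (nat_lit 396) (nat_lit 1387))))) (.a (.f (nat_lit 367) (nat_lit 335) (nat_lit 6478) (.f (nat_lit 527) (nat_lit 495) (nat_lit 4494) (.f (nat_lit 526) (nat_lit 559) (nat_lit 4526) (.f (nat_lit 461) (nat_lit 493) (nat_lit 5485) (.f (nat_lit 558) (nat_lit 429) (nat_lit 7597) (.f (nat_lit 395) (nat_lit 396) (nat_lit 1387) (.f (nat_lit 363) (nat_lit 394) (nat_lit 1386) (.f (nat_lit 332) (nat_lit 331) (nat_lit 3403) (.f (nat_lit 459) (nat_lit 427) (nat_lit 6475) (.f (nat_lit 460) (nat_lit 431) (nat_lit 2475) (.f (nat_lit 490) (nat_lit 491) (nat_lit 1482) (.f (nat_lit 458) (nat_lit 489) (nat_lit 1481) (.f (nat_lit 557) (nat_lit 589) (nat_lit 5581) (.f (nat_lit 555) (nat_lit 556) (nat_lit 2571) (.f (nat_lit 426) (nat_lit 425) (nat_lit 3497) (.f (nat_lit 522) (nat_lit 523) (nat_lit 4522) (.f (nat_lit 554) (nat_lit 587) (nat_lit 4554) (.d (nat_lit 553) (nat_lit 521) (nat_lit 5545) (nat_lit 585) (nat_lit 5577))))))))))))))))))) (.a (.f (nat_lit 367) (nat_lit 335) (nat_lit 6478) (.f (nat_lit 527) (nat_lit 495) (nat_lit 4494) (.f (nat_lit 526) (nat_lit 559) (nat_lit 4526) (.f (nat_lit 461) (nat_lit 493) (nat_lit 5485) (.f (nat_lit 429) (nat_lit 558) (nat_lit 7597) (.f (nat_lit 396) (nat_lit 395) (nat_lit 1387) (.f (nat_lit 428) (nat_lit 332) (nat_lit 4428) (.f (nat_lit 427) (nat_lit 426) (nat_lit 426) (.f (nat_lit 459) (nat_lit 458) (nat_lit 1450) (.d (nat_lit 460) (nat_lit 431) (nat_lit 1451) (nat_lit 491) (nat_lit 5483))))))))))) (.a (.f (nat_lit 367) (nat_lit 335) (nat_lit 6478) (.f (nat_lit 527) (nat_lit 495) (nat_lit 4494) (.f (nat_lit 526) (nat_lit 559) (nat_lit 4526) (.f (nat_lit 461) (nat_lit 493) (nat_lit 5485) (.f (nat_lit 558) (nat_lit 429) (nat_lit 7597) (.f (nat_lit 395) (nat_lit 396) (nat_lit 1387) (.f (nat_lit 363) (nat_lit 394) (nat_lit 1386) (.f (nat_lit 330) (nat_lit 331) (nat_lit 3402) (.f (nat_lit 362) (nat_lit 329) (nat_lit 3401) (.f (nat_lit 459) (nat_lit 427) (nat_lit 7498) (.f (nat_lit 460) (nat_lit 431) (nat_lit 2475) (.f (nat_lit 490) (nat_lit 491) (nat_lit 1482) (.f (nat_lit 458) (nat_lit 489) (nat_lit 1481) (.f (nat_lit 557) (nat_lit 589) (nat_lit 5581) (.f (nat_lit 555) (nat_lit 556) (nat_lit 2571) (.f (nat_lit 426) (nat_lit 425) (nat_lit 3497) (.f (nat_lit 522) (nat_lit 523) (nat_lit 4522) (.f (nat_lit 554) (nat_lit 587) (nat_lit 4554) (.d (nat_lit 553) (nat_lit 521) (nat_lit 5545) (nat_lit 585) (nat_lit 5577)))))))))))))))))))) (.a (.p (nat_lit 363) (.a (.f (nat_lit 395) (nat_lit 394) (nat_lit 1386) (.f (nat_lit 331) (nat_lit 330) (nat_lit 3402) (.d (nat_lit 367) (nat_lit 332) (nat_lit 3403) (nat_lit 396) (nat_lit 1387)))) (.a (.f (nat_lit 395) (nat_lit 394) (nat_lit 1386) (.f (nat_lit 396) (nat_lit 367) (nat_lit 1387) (.f (nat_lit 527) (nat_lit 495) (nat_lit 4494) (.f (nat_lit 526) (nat_lit 559) (nat_lit 4526) (.f (nat_lit 461) (nat_lit 493) (nat_lit 5485) (.f (nat_lit 429) (nat_lit 558) (nat_lit 7597) (.d (nat_lit 428) (nat_lit 332) (nat_lit 4428) (nat_lit 431) (nat_lit 3467)))))))) (.a (.f (nat_lit 395) (nat_lit 394) (nat_lit 1386) (.f (nat_lit 331) (nat_lit 330) (nat_lit 3402) (.f (nat_lit 396) (nat_lit 367) (nat_lit 1387) (.d (nat_lit 299) (nat_lit 267) (nat_lit 4363) (nat_lit 428) (nat_lit 4395))))) (.a (.f (nat_lit 394) (nat_lit 395) (nat_lit 1386) (.f (nat_lit 362) (nat_lit 393) (nat_lit 1385) (.d (nat_lit 330) (nat_lit 329) (nat_lit 3401) (nat_lit 331) (nat_lit 3402)))) (.a (.f (nat_lit 331) (nat_lit 330) (nat_lit 3402) (.f (nat_lit 332) (nat_lit 367) (nat_lit 3403) (.f (nat_lit 527) (nat_lit 495) (nat_lit 4494) (.f (nat_lit 526) (nat_lit 559) (nat_lit 4526) (.f (nat_lit 461) (nat_lit 493) (nat_lit 5485) (.f (nat_lit 429) (nat_lit 558) (nat_lit 7597) (.f (nat_lit 428) (nat_lit 396) (nat_lit 4428) (.f (nat_lit 427) (nat_lit 426) (nat_lit 426) (.d (nat_lit 395) (nat_lit 300) (nat_lit 6443) (nat_lit 460) (nat_lit 4427)))))))))) (.f (nat_lit 331) (nat_lit 330) (nat_lit 3402) (.f (nat_lit 527) (nat_lit 495) (nat_lit 4494) (.f (nat_lit 526) (nat_lit 559) (nat_lit 4526) (.f (nat_lit 461) (nat_lit 493) (nat_lit 5485) (.f (nat_lit 332) (nat_lit 367) (nat_lit 3403) (.f (nat_lit 429) (nat_lit 558) (nat_lit 7597) (.f (nat_lit 428) (nat_lit 396) (nat_lit 4428) (.f (nat_lit 427) (nat_lit 426) (nat_lit 426) (.f (nat_lit 459) (nat_lit 458) (nat_lit 1450) (.f (nat_lit 431) (nat_lit 460) (nat_lit 1451) (.d (nat_lit 432) (nat_lit 433) (nat_lit 1453) (nat_lit 465) (nat_lit 429)))))))))))))))))) (.a (.p (nat_lit 363) (.a (.f (nat_lit 394) (nat_lit 395) (nat_lit 1386) (.f (nat_lit 362) (nat_lit 393) (nat_lit 1385) (.d (nat_lit 330) (nat_lit 329) (nat_lit 3401) (nat_lit 331) (nat_lit 3402)))) (.a (.f (nat_lit 527) (nat_lit 495) (nat_lit 4494) (.f (nat_lit 526) (nat_lit 559) (nat_lit 4526) (.f (nat_lit 461) (nat_lit 493) (nat_lit 5485) (.f (nat_lit 394) (nat_lit 395) (nat_lit 1386) (.f (nat_lit 429) (nat_lit 558) (nat_lit 7597) (.f (nat_lit 362) (nat_lit 393) (nat_lit 1385) (.f (nat_lit 331) (nat_lit 330) (nat_lit 3402) (.f (nat_lit 426) (nat_lit 458) (nat_lit 6474) (.f (nat_lit 428) (nat_lit 427) (nat_lit 426) (.d (nat_lit 396) (nat_lit 332) (nat_lit 4428) (nat_lit 460) (nat_lit 7499))))))))))) (.a (.f (nat_lit 395) (nat_lit 394) (nat_lit 1386) (.f (nat_lit 461) (nat_lit 493) (nat_lit 5485) (.f (nat_lit 495) (nat_lit 527) (nat_lit 4494) (.f (nat_lit 459) (nat_lit 460) (nat_lit 459) (.f (nat_lit 427) (nat_lit 332) (nat_lit 6475) (.f (nat_lit 458) (nat_lit 490) (nat_lit 5482) (.f (nat_lit 491) (nat_lit 396) (nat_lit 6507) (.f (nat_lit 426) (nat_lit 331) (nat_lit 5450) (.f (nat_lit 523) (nat_lit 555) (nat_lit 7594) (.d (nat_lit 524) (nat_lit 492) (nat_lit 4491) (nat_lit 556) (nat_lit 4523))))))))))) (.a (.f (nat_lit 394) (nat_lit 395) (nat_lit 1386) (.f (nat_lit 362) (nat_lit 393) (nat_lit 1385) (.f (nat_lit 330) (nat_lit 329) (nat_lit 3401) (.f (nat_lit 461) (nat_lit 493) (nat_lit 5485) (.f (nat_lit 495) (nat_lit 527) (nat_lit 4494) (.f (nat_lit 459) (nat_lit 460) (nat_lit 459) (.f (nat_lit 426) (nat_lit 427) (nat_lit 4426) (.f (nat_lit 458) (nat_lit 491) (nat_lit 4458) (.d (nat_lit 457) (nat_lit 425) (nat_lit 5449) (nat_lit 489) (nat_lit 5481)))))))))) (.a (.f (nat_lit 331) (nat_lit 330) (nat_lit 3402) (.f (nat_lit 461) (nat_lit 493) (nat_lit 5485) (.f (nat_lit 495) (nat_lit 527) (nat_lit 4494) (.f (nat_lit 460) (nat_lit 459) (nat_lit 459) (.f (nat_lit 428) (nat_lit 396) (nat_lit 7499) (.f (nat_lit 427) (nat_lit 395) (nat_lit 4427) (.d (nat_lit 426) (nat_lit 425) (nat_lit 425) (nat_lit 429) (nat_lit 426)))))))) (.f (nat_lit 330) (nat_lit 331) (nat_lit 3402) (.f (nat_lit 362) (nat_lit 329) (nat_lit 3401) (.f (nat_lit 394) (nat_lit 393) (nat_lit 1385) (.f (nat_lit 461) (nat_lit 493) (nat_lit 5485) (.f (nat_lit 495) (nat_lit 527) (nat_lit 4494) (.f (nat_lit 459) (nat_lit 460) (nat_lit 459) (.f (nat_lit 426) (nat_lit 427) (nat_lit 4426) (.f (nat_lit 458) (nat_lit 491) (nat_lit 4458) (.d (nat_lit 457) (nat_lit 425) (nat_lit 5449) (nat_lit 489) (nat_lit 5481)))))))))))))))) (.a (.f (nat_lit 367) (nat_lit 335) (nat_lit 6478) (.f (nat_lit 527) (nat_lit 495) (nat_lit 4494) (.f (nat_lit 526) (nat_lit 559) (nat_lit 4526) (.f (nat_lit 461) (nat_lit 493) (nat_lit 5485) (.f (nat_lit 429) (nat_lit 558) (nat_lit 7597) (.f (nat_lit 332) (nat_lit 331) (nat_lit 3403) (.f (nat_lit 428) (nat_lit 396) (nat_lit 4428) (.f (nat_lit 427) (nat_lit 426) (nat_lit 426) (.f (nat_lit 459) (nat_lit 458) (nat_lit 1450) (.f (nat_lit 431) (nat_lit 460) (nat_lit 1451) (.d (nat_lit 432) (nat_lit 433) (nat_lit 1453) (nat_lit 465) (nat_lit 429)))))))))))) (.p (nat_lit 363) (.a (.f (nat_lit 394) (nat_lit 395) (nat_lit 1386) (.f (nat_lit 362) (nat_lit 393) (nat_lit 1385) (.d (nat_lit 330) (nat_lit 329) (nat_lit 3401) (nat_lit 331) (nat_lit 3402)))) (.a (.f (nat_lit 367) (nat_lit 335) (nat_lit 6478) (.d (nat_lit 331) (nat_lit 330) (nat_lit 3402) (nat_lit 332) (nat_lit 3403))) (.a (.f (nat_lit 367) (nat_lit 335) (nat_lit 6478) (.f (nat_lit 527) (nat_lit 495) (nat_lit 4494) (.f (nat_lit 526) (nat_lit 559) (nat_lit 4526) (.f (nat_lit 461) (nat_lit 493) (nat_lit 5485) (.f (nat_lit 558) (nat_lit 429) (nat_lit 7597) (.f (nat_lit 557) (nat_lit 589) (nat_lit 5581) (.f (nat_lit 395) (nat_lit 394) (nat_lit 1386) (.f (nat_lit 332) (nat_lit 331) (nat_lit 3403) (.f (nat_lit 459) (nat_lit 427) (nat_lit 6475) (.f (nat_lit 460) (nat_lit 431) (nat_lit 2475) (.f (nat_lit 490) (nat_lit 491) (nat_lit 1482) (.f (nat_lit 458) (nat_lit 489) (nat_lit 1481) (.f (nat_lit 555) (nat_lit 556) (nat_lit 2571) (.f (nat_lit 426) (nat_lit 425) (nat_lit 3497) (.f (nat_lit 522) (nat_lit 523) (nat_lit 4522) (.f (nat_lit 554) (nat_lit 587) (nat_lit 4554) (.d (nat_lit 553) (nat_lit 521) (nat_lit 5545) (nat_lit 585) (nat_lit 5577)))))))))))))))))) (.f (nat_lit 394) (nat_lit 395) (nat_lit 1386) (.f (nat_lit 362) (nat_lit 393) (nat_lit 1385) (.f (nat_lit 330) (nat_lit 329) (nat_lit 3401) (.f (nat_lit 461) (nat_lit 493) (nat_lit 5485) (.f (nat_lit 495) (nat_lit 527) (nat_lit 4494) (.f (nat_lit 459) (nat_lit 460) (nat_lit 459) (.f (nat_lit 426) (nat_lit 427) (nat_lit 4426) (.f (nat_lit 458) (nat_lit 491) (nat_lit 4458) (.d (nat_lit 457) (nat_lit 425) (nat_lit 5449) (nat_lit 489) (nat_lit 5481))))))))))))))))))))))) (.f (nat_lit 333) (nat_lit 365) (nat_lit 7501) (.f (nat_lit 334) (nat_lit 301) (nat_lit 7469) (.d (nat_lit 335) (nat_lit 303) (nat_lit 6446) (nat_lit 367) (nat_lit 6478)))))))) (.a s72088 (.a (.f (nat_lit 397) (nat_lit 365) (nat_lit 7533) (.f (nat_lit 526) (nat_lit 429) (nat_lit 7565) (.f (nat_lit 559) (nat_lit 527) (nat_lit 4526) (.f (nat_lit 558) (nat_lit 591) (nat_lit 4558) (.f (nat_lit 589) (nat_lit 557) (nat_lit 5581) (.d (nat_lit 590) (nat_lit 561) (nat_lit 1581) (nat_lit 621) (nat_lit 5613))))))) (.f (nat_lit 365) (nat_lit 397) (nat_lit 7533) (.f (nat_lit 366) (nat_lit 333) (nat_lit 7501) (.f (nat_lit 335) (nat_lit 367) (nat_lit 6478) (.f (nat_lit 334) (nat_lit 303) (nat_lit 6446) (.d (nat_lit 461) (nat_lit 429) (nat_lit 5453) (nat_lit 493) (nat_lit 5485)))))))))))) (.a (.p (nat_lit 493) (.a (.f (nat_lit 525) (nat_lit 398) (nat_lit 5517) (.d (nat_lit 557) (nat_lit 461) (nat_lit 6573) (nat_lit 589) (nat_lit 6605))) (.a s68975 (.a (.p (nat_lit 459) (.a (.f (nat_lit 398) (nat_lit 525) (nat_lit 5517) (.f (nat_lit 495) (nat_lit 527) (nat_lit 4494) (.f (nat_lit 492) (nat_lit 460) (nat_lit 3531) (.f (nat_lit 491) (nat_lit 458) (nat_lit 3530) (.d (nat_lit 523) (nat_lit 522) (nat_lit 1514) (nat_lit 524) (nat_lit 1515)))))) (.a (.p (nat_lit 492) (.a (.d (nat_lit 495) (nat_lit 460) (nat_lit 3531) (nat_lit 527) (nat_lit 492)) (.a (.f (nat_lit 491) (nat_lit 458) (nat_lit 3530) (.f (nat_lit 523) (nat_lit 522) (nat_lit 1514) (.d (nat_lit 495) (nat_lit 524) (nat_lit 1515) (nat_lit 527) (nat_lit 492)))) (.f (nat_lit 491) (nat_lit 458) (nat_lit 3530) (.p (nat_lit 524) (.a (.f (nat_lit 523) (nat_lit 522) (nat_lit 1514) (.d (nat_lit 427) (nat_lit 395) (nat_lit 4491) (nat_lit 556) (nat_lit 4523))) (.a (.f (nat_lit 523) (nat_lit 522) (nat_lit 1514) (.d (nat_lit 556) (nat_lit 427) (nat_lit 4523) (nat_lit 588) (nat_lit 7627))) (.a (.f (nat_lit 522) (nat_lit 523) (nat_lit 1514) (.f (nat_lit 490) (nat_lit 521) (nat_lit 1513) (.f (nat_lit 489) (nat_lit 525) (nat_lit 489) (.f (nat_lit 488) (nat_lit 460) (nat_lit 2504) (.d (nat_lit 456) (nat_lit 455) (nat_lit 3527) (nat_lit 457) (nat_lit 3528)))))) (.f (nat_lit 556) (nat_lit 588) (nat_lit 7627) (.d (nat_lit 427) (nat_lit 395) (nat_lit 4491) (nat_lit 460) (nat_lit 7595))))))))))) (.a (.f (nat_lit 398) (nat_lit 525) (nat_lit 5517) (.p (nat_lit 366) (.a (.d (nat_lit 365) (nat_lit 333) (nat_lit 7501) (nat_lit 397) (nat_lit 7533)) (.a (.f (nat_lit 495) (nat_lit 527) (nat_lit 4494) (.f (nat_lit 397) (nat_lit 365) (nat_lit 7533) (.f (nat_lit 335) (nat_lit 367) (nat_lit 6478) (.f (nat_lit 334) (nat_lit 303) (nat_lit 6446) (.f (nat_lit 429) (nat_lit 302) (nat_lit 5421) (.f (nat_lit 460) (nat_lit 492) (nat_lit 3531) (.f (nat_lit 431) (nat_lit 428) (nat_lit 1451) (.d (nat_lit 432) (nat_lit 396) (nat_lit 3468) (nat_lit 465) (nat_lit 429))))))))) (.a (.f (nat_lit 495) (nat_lit 527) (nat_lit 4494) (.f (nat_lit 335) (nat_lit 367) (nat_lit 6478) (.f (nat_lit 334) (nat_lit 303) (nat_lit 6446) (.f (nat_lit 301) (nat_lit 333) (nat_lit 7469) (.f (nat_lit 302) (nat_lit 269) (nat_lit 7437) (.f (nat_lit 429) (nat_lit 397) (nat_lit 5421) (.f (nat_lit 460) (nat_lit 492) (nat_lit 3531) (.f (nat_lit 431) (nat_lit 428) (nat_lit 1451) (.f (nat_lit 432) (nat_lit 465) (nat_lit 429) (.f (nat_lit 401) (nat_lit 400) (nat_lit 2445) (.f (nat_lit 433) (nat_lit 402) (nat_lit 2446) (.d (nat_lit 337) (nat_lit 336) (nat_lit 3373) (nat_lit 369) (nat_lit 5456))))))))))))) (.f (nat_lit 333) (nat_lit 365) (nat_lit 7501) (.f (nat_lit 334) (nat_lit 301) (nat_lit 7469) (.d (nat_lit 335) (nat_lit 303) (nat_lit 6446) (nat_lit 367) (nat_lit 6478))))))))) (.a (.p (nat_lit 491) (.a (.f (nat_lit 492) (nat_lit 458) (nat_lit 3530) (.f (nat_lit 523) (nat_lit 522) (nat_lit 1514) (.d (nat_lit 495) (nat_lit 524) (nat_lit 1515) (nat_lit 527) (nat_lit 492)))) (.a (.p (nat_lit 523) (.a (.f (nat_lit 522) (nat_lit 492) (nat_lit 1514) (.d (nat_lit 525) (nat_lit 398) (nat_lit 5517) (nat_lit 524) (nat_lit 2538))) (.a (.f (nat_lit 522) (nat_lit 492) (nat_lit 1514) (.f (nat_lit 427) (nat_lit 554) (nat_lit 5546) (.d (nat_lit 524) (nat_lit 525) (nat_lit 2538) (nat_lit 556) (nat_lit 4523)))) (.a (.f (nat_lit 525) (nat_lit 398) (nat_lit 5517) (.f (nat_lit 524) (nat_lit 522) (nat_lit 2538) (.f (nat_lit 556) (nat_lit 427) (nat_lit 4523) (.d (nat_lit 588) (nat_lit 555) (nat_lit 4555) (nat_lit 620) (nat_lit 6636))))) (.a (.f (nat_lit 398) (nat_lit 525) (nat_lit 5517) (.f (nat_lit 495) (nat_lit 527) (nat_lit 4494) (.f (nat_lit 524) (nat_lit 492) (nat_lit 1515) (.f (nat_lit 427) (nat_lit 556) (nat_lit 4523) (.f (nat_lit 397) (nat_lit 365) (nat_lit 7533) (.f (nat_lit 396) (nat_lit 428) (nat_lit 6539) (.d (nat_lit 395) (nat_lit 364) (nat_lit 6507) (nat_lit 431) (nat_lit 395)))))))) (.f (nat_lit 522) (nat_lit 492) (nat_lit 1514) (.f (nat_lit 427) (nat_lit 554) (nat_lit 5546) (.f (nat_lit 395) (nat_lit 490) (nat_lit 5514) (.d (nat_lit 396) (nat_lit 364) (nat_lit 6507) (nat_lit 428) (nat_lit 6539)))))))))) (.a (.p (nat_lit 427) (.a (.f (nat_lit 398) (nat_lit 525) (nat_lit 5517) (.f (nat_lit 365) (nat_lit 397) (nat_lit 7533) (.f (nat_lit 366) (nat_lit 333) (nat_lit 7501) (.f (nat_lit 335) (nat_lit 367) (nat_lit 6478) (.f (nat_lit 334) (nat_lit 303) (nat_lit 6446) (.f (nat_lit 364) (nat_lit 363) (nat_lit 2379) (.f (nat_lit 395) (nat_lit 396) (nat_lit 6507) (.f (nat_lit 394) (nat_lit 362) (nat_lit 7530) (.f (nat_lit 523) (nat_lit 426) (nat_lit 7562) (.d (nat_lit 522) (nat_lit 490) (nat_lit 5514) (nat_lit 554) (nat_lit 5546))))))))))) (.a (.p (nat_lit 523) (.a (.f (nat_lit 522) (nat_lit 554) (nat_lit 5546) (.d (nat_lit 524) (nat_lit 525) (nat_lit 2538) (nat_lit 556) (nat_lit 4523))) (.a (.f (nat_lit 398) (nat_lit 525) (nat_lit 5517) (.f (nat_lit 426) (nat_lit 394) (nat_lit 7562) (.f (nat_lit 428) (nat_lit 396) (nat_lit 6539) (.d (nat_lit 397) (nat_lit 365) (nat_lit 7533) (nat_lit 429) (nat_lit 2442))))) (.f (nat_lit 394) (nat_lit 426) (nat_lit 7562) (.f (nat_lit 395) (nat_lit 362) (nat_lit 7530) (.d (nat_lit 396) (nat_lit 364) (nat_lit 6507) (nat_lit 428) (nat_lit 6539))))))) (.a (.f (nat_lit 398) (nat_lit 525) (nat_lit 5517) (.f (nat_lit 365) (nat_lit 397) (nat_lit 7533) (.f (nat_lit 366) (nat_lit 333) (nat_lit 7501) (.f (nat_lit 335) (nat_lit 367) (nat_lit 6478) (.f (nat_lit 334) (nat_lit 303) (nat_lit 6446) (.f (nat_lit 364) (nat_lit 363) (nat_lit 2379) (.f (nat_lit 396) (nat_lit 395) (nat_lit 6507) (.d (nat_lit 428) (nat_lit 332) (nat_lit 5451) (nat_lit 523) (nat_lit 6539))))))))) (.a (.p (nat_lit 523) (.a (.f (nat_lit 522) (nat_lit 554) (nat_lit 5546) (.d (nat_lit 524) (nat_lit 525) (nat_lit 2538) (nat_lit 556) (nat_lit 4523))) (.a (.f (nat_lit 398) (nat_lit 525) (nat_lit 5517) (.f (nat_lit 426) (nat_lit 394) (nat_lit 7562) (.f (nat_lit 428) (nat_lit 396) (nat_lit 6539) (.d (nat_lit 397) (nat_lit 365) (nat_lit 7533) (nat_lit 429) (nat_lit 2442))))) (.f (nat_lit 394) (nat_lit 426) (nat_lit 7562) (.f (nat_lit 395) (nat_lit 362) (nat_lit 7530) (.d (nat_lit 522) (nat_lit 490) (nat_lit 5514) (nat_lit 554) (nat_lit 5546))))))) (.a (.p (nat_lit 523) (.a (.f (nat_lit 522) (nat_lit 554) (nat_lit 5546) (.d (nat_lit 524) (nat_lit 525) (nat_lit 2538) (nat_lit 556) (nat_lit 4523))) (.f (nat_lit 394) (nat_lit 426) (nat_lit 7562) (.f (nat_lit 395) (nat_lit 362) (nat_lit 7530) (.d (nat_lit 396) (nat_lit 364) (nat_lit 6507) (nat_lit 428) (nat_lit 6539)))))) (.a (.p (nat_lit 523) (.a (.f (nat_lit 522) (nat_lit 554) (nat_lit 5546) (.d (nat_lit 524) (nat_lit 525) (nat_lit 2538) (nat_lit 556) (nat_lit 4523))) (.a (.f (nat_lit 398) (nat_lit 525) (nat_lit 5517) (.f (nat_lit 426) (nat_lit 394) (nat_lit 7562) (.f (nat_lit 428) (nat_lit 396) (nat_lit 6539) (.d (nat_lit 397) (nat_lit 365) (nat_lit 7533) (nat_lit 429) (nat_lit 2442))))) (.f (nat_lit 554) (nat_lit 522) (nat_lit 5546) (.f (nat_lit 555) (nat_lit 586) (nat_lit 5578) (.d (nat_lit 556) (nat_lit 524) (nat_lit 4523) (nat_lit 588) (nat_lit 4555))))))) (.a (.p (nat_lit 523) (.a (.f (nat_lit 522) (nat_lit 554) (nat_lit 5546) (.d (nat_lit 524) (nat_lit 525) (nat_lit 2538) (nat_lit 556) (nat_lit 4523))) (.a (.f (nat_lit 398) (nat_lit 525) (nat_lit 5517) (.f (nat_lit 426) (nat_lit 394) (nat_lit 7562) (.f (nat_lit 458) (nat_lit 555) (nat_lit 7594) (.f (nat_lit 365) (nat_lit 397) (nat_lit 7533) (.f (nat_lit 366) (nat_lit 333) (nat_lit 7501) (.f (nat_lit 335) (nat_lit 367) (nat_lit 6478) (.f (nat_lit 334) (nat_lit 303) (nat_lit 6446) (.f (nat_lit 363) (nat_lit 364) (nat_lit 2379) (.d (nat_lit 395) (nat_lit 331) (nat_lit 5450) (nat_lit 490) (nat_lit 5482)))))))))) (.f (nat_lit 394) (nat_lit 426) (nat_lit 7562) (.f (nat_lit 395) (nat_lit 362) (nat_lit 7530) (.d (nat_lit 522) (nat_lit 490) (nat_lit 5514) (nat_lit 554) (nat_lit 5546))))))) (.a (.p (nat_lit 395) (.a (.f (nat_lit 398) (nat_lit 525) (nat_lit 5517) (.f (nat_lit 396) (nat_lit 364) (nat_lit 6507) (.d (nat_lit 397) (nat_lit 365) (nat_lit 7533) (nat_lit 426) (nat_lit 1418)))) (.a (.f (nat_lit 398) (nat_lit 525) (nat_lit 5517) (.f (nat_lit 397) (nat_lit 365) (nat_lit 7533) (.d (nat_lit 396) (nat_lit 426) (nat_lit 1418) (nat_lit 431) (nat_lit 395)))) (.a (.f (nat_lit 394) (nat_lit 362) (nat_lit 7530) (.f (nat_lit 396) (nat_lit 364) (nat_lit 6507) (.d (nat_lit 429) (nat_lit 397) (nat_lit 394) (nat_lit 428) (nat_lit 3466)))) (.a (.f (nat_lit 398) (nat_lit 525) (nat_lit 5517) (.f (nat_lit 394) (nat_lit 362) (nat_lit 7530) (.f (nat_lit 490) (nat_lit 522) (nat_lit 5514) (.f (nat_lit 363) (nat_lit 458) (nat_lit 5482) (.f (nat_lit 365) (nat_lit 397) (nat_lit 7533) (.d (nat_lit 366) (nat_lit 333) (nat_lit 7501) (nat_lit 364) (nat_lit 1386))))))) (.f (nat_lit 364) (nat_lit 396) (nat_lit 6507) (.f (nat_lit 363) (nat_lit 332) (nat_lit 6475) (.d (nat_lit 490) (nat_lit 458) (nat_lit 5482) (nat_lit 522) (nat_lit 5514))))))))) (.p (nat_lit 523) (.a (.f (nat_lit 394) (nat_lit 426) (nat_lit 7562) (.f (nat_lit 395) (nat_lit 362) (nat_lit 7530) (.d (nat_lit 396) (nat_lit 364) (nat_lit 6507) (nat_lit 428) (nat_lit 6539)))) (.f (nat_lit 554) (nat_lit 522) (nat_lit 5546) (.f (nat_lit 555) (nat_lit 586) (nat_lit 5578) (.d (nat_lit 556) (nat_lit 524) (nat_lit 4523) (nat_lit 588) (nat_lit 4555))))))))))))))) (.a (.f (nat_lit 398) (nat_lit 525) (nat_lit 5517) (.f (nat_lit 492) (nat_lit 458) (nat_lit 3530) (.f (nat_lit 495) (nat_lit 527) (nat_lit 4494) (.f (nat_lit 524) (nat_lit 523) (nat_lit 1515) (.f (nat_lit 365) (nat_lit 397) (nat_lit 7533) (.f (nat_lit 366) (nat_lit 333) (nat_lit 7501) (.f (nat_lit 367) (nat_lit 335) (nat_lit 6478) (.f (nat_lit 395) (nat_lit 427) (nat_lit 4491) (.f (nat_lit 364) (nat_lit 396) (nat_lit 1387) (.f (nat_lit 363) (nat_lit 394) (nat_lit 1386) (.d (nat_lit 331) (nat_lit 330) (nat_lit 3402) (nat_lit 332) (nat_lit 3403)))))))))))) (.a (.p (nat_lit 395) (.a (.f (nat_lit 492) (nat_lit 458) (nat_lit 3530) (.f (nat_lit 427) (nat_lit 524) (nat_lit 4491) (.f (nat_lit 398) (nat_lit 525) (nat_lit 5517) (.f (nat_lit 396) (nat_lit 364) (nat_lit 6507) (.d (nat_lit 397) (nat_lit 365) (nat_lit 7533) (nat_lit 426) (nat_lit 1418)))))) (.a (.f (nat_lit 492) (nat_lit 458) (nat_lit 3530) (.f (nat_lit 398) (nat_lit 525) (nat_lit 5517) (.f (nat_lit 397) (nat_lit 365) (nat_lit 7533) (.f (nat_lit 396) (nat_lit 431) (nat_lit 395) (.d (nat_lit 427) (nat_lit 426) (nat_lit 1418) (nat_lit 524) (nat_lit 4491)))))) (.a (.f (nat_lit 492) (nat_lit 458) (nat_lit 3530) (.f (nat_lit 427) (nat_lit 524) (nat_lit 4491) (.f (nat_lit 396) (nat_lit 364) (nat_lit 6507) (.f (nat_lit 394) (nat_lit 362) (nat_lit 7530) (.d (nat_lit 429) (nat_lit 397) (nat_lit 394) (nat_lit 428) (nat_lit 3466)))))) (.a (.f (nat_lit 492) (nat_lit 458) (nat_lit 3530) (.f (nat_lit 427) (nat_lit 524) (nat_lit 4491) (.f (nat_lit 398) (nat_lit 525) (nat_lit 5517) (.f (nat_lit 362) (nat_lit 394) (nat_lit 7530) (.f (nat_lit 363) (nat_lit 330) (nat_lit 7498) (.f (nat_lit 365) (nat_lit 397) (nat_lit 7533) (.f (nat_lit 364) (nat_lit 332) (nat_lit 6475) (.d (nat_lit 333) (nat_lit 334) (nat_lit 2378) (nat_lit 366) (nat_lit 7501))))))))) (.a (.f (nat_lit 492) (nat_lit 458) (nat_lit 3530) (.f (nat_lit 427) (nat_lit 524) (nat_lit 4491) (.f (nat_lit 394) (nat_lit 362) (nat_lit 7530) (.f (nat_lit 364) (nat_lit 396) (nat_lit 6507) (.f (nat_lit 363) (nat_lit 332) (nat_lit 6475) (.f (nat_lit 398) (nat_lit 525) (nat_lit 5517) (.f (nat_lit 366) (nat_lit 365) (nat_lit 1386) (.f (nat_lit 335) (nat_lit 367) (nat_lit 6478) (.f (nat_lit 334) (nat_lit 303) (nat_lit 6446) (.f (nat_lit 301) (nat_lit 333) (nat_lit 7469) (.f (nat_lit 302) (nat_lit 269) (nat_lit 7437) (.f (nat_lit 299) (nat_lit 300) (nat_lit 299) (.f (nat_lit 331) (nat_lit 426) (nat_lit 5418) (.d (nat_lit 298) (nat_lit 266) (nat_lit 7434) (nat_lit 330) (nat_lit 7466))))))))))))))) (.f (nat_lit 398) (nat_lit 525) (nat_lit 5517) (.f (nat_lit 397) (nat_lit 365) (nat_lit 7533) (.f (nat_lit 396) (nat_lit 431) (nat_lit 395) (.f (nat_lit 394) (nat_lit 429) (nat_lit 394) (.d (nat_lit 362) (nat_lit 361) (nat_lit 3433) (nat_lit 363) (nat_lit 3434)))))))))))) (.f (nat_lit 492) (nat_lit 458) (nat_lit 3530) (.f (nat_lit 398) (nat_lit 525) (nat_lit 5517) (.f (nat_lit 522) (nat_lit 523) (nat_lit 1514) (.f (nat_lit 490) (nat_lit 521) (nat_lit 1513) (.f (nat_lit 365) (nat_lit 397) (nat_lit 7533) (.f (nat_lit 366) (nat_lit 333) (nat_lit 7501) (.f (nat_lit 367) (nat_lit 335) (nat_lit 6478) (.f (nat_lit 395) (nat_lit 427) (nat_lit 5514) (.f (nat_lit 364) (nat_lit 396) (nat_lit 1387) (.f (nat_lit 363) (nat_lit 394) (nat_lit 1386) (.d (nat_lit 331) (nat_lit 330) (nat_lit 3402) (nat_lit 332) (nat_lit 3403)))))))))))))))))) (.a (.p (nat_lit 427) (.a (.p (nat_lit 428) (.a (.f (nat_lit 429) (nat_lit 458) (nat_lit 1450) (.f (nat_lit 395) (nat_lit 394) (nat_lit 3466) (.d (nat_lit 431) (nat_lit 396) (nat_lit 3467) (nat_lit 460) (nat_lit 1451)))) (.a (.f (nat_lit 398) (nat_lit 525) (nat_lit 5517) (.f (nat_lit 429) (nat_lit 458) (nat_lit 1450) (.d (nat_lit 397) (nat_lit 365) (nat_lit 7533) (nat_lit 426) (nat_lit 2442)))) (.f (nat_lit 398) (nat_lit 525) (nat_lit 5517) (.f (nat_lit 365) (nat_lit 397) (nat_lit 7533) (.f (nat_lit 366) (nat_lit 333) (nat_lit 7501) (.f (nat_lit 335) (nat_lit 367) (nat_lit 6478) (.f (nat_lit 334) (nat_lit 303) (nat_lit 6446) (.f (nat_lit 364) (nat_lit 363) (nat_lit 2379) (.f (nat_lit 396) (nat_lit 332) (nat_lit 5451) (.d (nat_lit 491) (nat_lit 395) (nat_lit 6507) (nat_lit 460) (nat_lit 5483)))))))))))) (.a (.p (nat_lit 428) (.a (.f (nat_lit 429) (nat_lit 458) (nat_lit 1450) (.f (nat_lit 395) (nat_lit 394) (nat_lit 3466) (.d (nat_lit 431) (nat_lit 396) (nat_lit 3467) (nat_lit 460) (nat_lit 1451)))) (.a (.f (nat_lit 398) (nat_lit 525) (nat_lit 5517) (.f (nat_lit 429) (nat_lit 458) (nat_lit 1450) (.d (nat_lit 397) (nat_lit 365) (nat_lit 7533) (nat_lit 426) (nat_lit 2442)))) (.p (nat_lit 396) (.a (.f (nat_lit 364) (nat_lit 332) (nat_lit 5451) (.d (nat_lit 491) (nat_lit 460) (nat_lit 5483) (nat_lit 523) (nat_lit 6539))) (.a (.f (nat_lit 491) (nat_lit 523) (nat_lit 6539) (.d (nat_lit 364) (nat_lit 395) (nat_lit 6507) (nat_lit 460) (nat_lit 5483))) (.f (nat_lit 398) (nat_lit 525) (nat_lit 5517) (.f (nat_lit 397) (nat_lit 365) (nat_lit 7533) (.d (nat_lit 395) (nat_lit 426) (nat_lit 1418) (nat_lit 431) (nat_lit 395)))))))))) (.a (.f (nat_lit 398) (nat_lit 525) (nat_lit 5517) (.p (nat_lit 366) (.a (.d (nat_lit 365) (nat_lit 333) (nat_lit 7501) (nat_lit 397) (nat_lit 7533)) (.a (.f (nat_lit 397) (nat_lit 365) (nat_lit 7533) (.f (nat_lit 335) (nat_lit 367) (nat_lit 6478) (.f (nat_lit 334) (nat_lit 303) (nat_lit 6446) (.f (nat_lit 429) (nat_lit 302) (nat_lit 5421) (.d (nat_lit 428) (nat_lit 426) (nat_lit 2442) (nat_lit 458) (nat_lit 1450)))))) (.a (.f (nat_lit 335) (nat_lit 367) (nat_lit 6478) (.f (nat_lit 334) (nat_lit 303) (nat_lit 6446) (.f (nat_lit 301) (nat_lit 333) (nat_lit 7469) (.f (nat_lit 302) (nat_lit 269) (nat_lit 7437) (.f (nat_lit 429) (nat_lit 397) (nat_lit 5421) (.f (nat_lit 428) (nat_lit 458) (nat_lit 1450) (.f (nat_lit 395) (nat_lit 394) (nat_lit 3466) (.d (nat_lit 431) (nat_lit 396) (nat_lit 3467) (nat_lit 460) (nat_lit 1451))))))))) (.f (nat_lit 335) (nat_lit 367) (nat_lit 6478) (.f (nat_lit 334) (nat_lit 303) (nat_lit 6446) (.d (nat_lit 333) (nat_lit 301) (nat_lit 7469) (nat_lit 365) (nat_lit 7501))))))))) (.a (.p (nat_lit 395) (.a s72359 (.a s72365 (.a (.p (nat_lit 491) (.a (.f (nat_lit 394) (nat_lit 362) (nat_lit 7530) (.f (nat_lit 396) (nat_lit 364) (nat_lit 6507) (.d (nat_lit 429) (nat_lit 397) (nat_lit 394) (nat_lit 428) (nat_lit 3466)))) (.a (.f (nat_lit 396) (nat_lit 364) (nat_lit 6507) (.f (nat_lit 428) (nat_lit 523) (nat_lit 6539) (.d (nat_lit 429) (nat_lit 431) (nat_lit 3467) (nat_lit 458) (nat_lit 1450)))) (.a (.f (nat_lit 394) (nat_lit 362) (nat_lit 7530) (.f (nat_lit 428) (nat_lit 429) (nat_lit 3466) (.d (nat_lit 523) (nat_lit 396) (nat_lit 6539) (nat_lit 426) (nat_lit 7562)))) (.f (nat_lit 394) (nat_lit 362) (nat_lit 7530) (.f (nat_lit 523) (nat_lit 426) (nat_lit 7562) (.d (nat_lit 522) (nat_lit 490) (nat_lit 5514) (nat_lit 554) (nat_lit 5546)))))))) (.a (.p (nat_lit 396) (.a (.f (nat_lit 398) (nat_lit 525) (nat_lit 5517) (.d (nat_lit 397) (nat_lit 426) (nat_lit 1418) (nat_lit 431) (nat_lit 395))) (.a (.f (nat_lit 491) (nat_lit 364) (nat_lit 6507) (.f (nat_lit 428) (nat_lit 523) (nat_lit 6539) (.d (nat_lit 429) (nat_lit 431) (nat_lit 3467) (nat_lit 458) (nat_lit 1450)))) (.f (nat_lit 491) (nat_lit 364) (nat_lit 6507) (.f (nat_lit 523) (nat_lit 428) (nat_lit 6539) (.d (nat_lit 522) (nat_lit 490) (nat_lit 5514) (nat_lit 554) (nat_lit 5546))))))) (.a s72388 (.a s72401 (.a s72402 (.a s72403 (.a s72405 (.a (.p (nat_lit 363) (.a (.f (nat_lit 362) (nat_lit 330) (nat_lit 7498) (.f (nat_lit 364) (nat_lit 332) (nat_lit 6475) (.d (nat_lit 491) (nat_lit 394) (nat_lit 7530) (nat_lit 396) (nat_lit 6507)))) (.a (.f (nat_lit 398) (nat_lit 525) (nat_lit 5517) (.f (nat_lit 364) (nat_lit 332) (nat_lit 6475) (.f (nat_lit 396) (nat_lit 491) (nat_lit 6507) (.d (nat_lit 397) (nat_lit 362) (nat_lit 3434) (nat_lit 431) (nat_lit 395))))) (.a (.f (nat_lit 362) (nat_lit 330) (nat_lit 7498) (.f (nat_lit 394) (nat_lit 491) (nat_lit 7530) (.f (nat_lit 428) (nat_lit 429) (nat_lit 3466) (.f (nat_lit 331) (nat_lit 460) (nat_lit 4427) (.d (nat_lit 299) (nat_lit 267) (nat_lit 5386) (nat_lit 396) (nat_lit 4395)))))) (.a (.f (nat_lit 364) (nat_lit 332) (nat_lit 6475) (.f (nat_lit 396) (nat_lit 491) (nat_lit 6507) (.f (nat_lit 398) (nat_lit 525) (nat_lit 5517) (.d (nat_lit 397) (nat_lit 426) (nat_lit 1418) (nat_lit 431) (nat_lit 395))))) (.a (.f (nat_lit 362) (nat_lit 330) (nat_lit 7498) (.f (nat_lit 394) (nat_lit 491) (nat_lit 7530) (.f (nat_lit 428) (nat_lit 429) (nat_lit 3466) (.f (nat_lit 331) (nat_lit 460) (nat_lit 4427) (.d (nat_lit 299) (nat_lit 267) (nat_lit 5386) (nat_lit 426) (nat_lit 5418)))))) (.f (nat_lit 398) (nat_lit 525) (nat_lit 5517) (.f (nat_lit 362) (nat_lit 330) (nat_lit 7498) (.f (nat_lit 396) (nat_lit 397) (nat_lit 3434) (.f (nat_lit 332) (nat_lit 364) (nat_lit 6475) (.f (nat_lit 331) (nat_lit 300) (nat_lit 6443) (.d (nat_lit 428) (nat_lit 299) (nat_lit 4395) (nat_lit 460) (nat_lit 4427))))))))))))) s72430))))))))))) (.a (.f (nat_lit 398) (nat_lit 525) (nat_lit 5517) (.p (nat_lit 366) (.a (.d (nat_lit 365) (nat_lit 333) (nat_lit 7501) (nat_lit 397) (nat_lit 7533)) (.a (.f (nat_lit 397) (nat_lit 365) (nat_lit 7533) (.f (nat_lit 335) (nat_lit 367) (nat_lit 6478) (.f (nat_lit 334) (nat_lit 303) (nat_lit 6446) (.f (nat_lit 429) (nat_lit 302) (nat_lit 5421) (.d (nat_lit 428) (nat_lit 426) (nat_lit 2442) (nat_lit 458) (nat_lit 1450)))))) (.a (.f (nat_lit 335) (nat_lit 367) (nat_lit 6478) (.f (nat_lit 334) (nat_lit 303) (nat_lit 6446) (.f (nat_lit 301) (nat_lit 333) (nat_lit 7469) (.f (nat_lit 302) (nat_lit 269) (nat_lit 7437) (.f (nat_lit 429) (nat_lit 397) (nat_lit 5421) (.f (nat_lit 428) (nat_lit 458) (nat_lit 1450) (.f (nat_lit 431) (nat_lit 460) (nat_lit 1451) (.f (nat_lit 432) (nat_lit 465) (nat_lit 429) (.f (nat_lit 401) (nat_lit 400) (nat_lit 2445) (.f (nat_lit 433) (nat_lit 402) (nat_lit 2446) (.d (nat_lit 337) (nat_lit 336) (nat_lit 3373) (nat_lit 369) (nat_lit 5456)))))))))))) (.f (nat_lit 335) (nat_lit 367) (nat_lit 6478) (.f (nat_lit 334) (nat_lit 303) (nat_lit 6446) (.d (nat_lit 333) (nat_lit 301) (nat_lit 7469) (nat_lit 365) (nat_lit 7501))))))))) (.a (.p (nat_lit 491) (.a (.p (nat_lit 523) (.a (.f (nat_lit 522) (nat_lit 554) (nat_lit 5546) (.d (nat_lit 524) (nat_lit 525) (nat_lit 2538) (nat_lit 556) (nat_lit 4523))) (.f (nat_lit 394) (nat_lit 426) (nat_lit 7562) (.f (nat_lit 395) (nat_lit 362) (nat_lit 7530) (.d (nat_lit 396) (nat_lit 364) (nat_lit 6507) (nat_lit 428) (nat_lit 6539)))))) (.a (.p (nat_lit 523) (.a (.f (nat_lit 522) (nat_lit 554) (nat_lit 5546) (.d (nat_lit 524) (nat_lit 525) (nat_lit 2538) (nat_lit 556) (nat_lit 4523))) (.a (.f (nat_lit 428) (nat_lit 396) (nat_lit 6539) (.f (nat_lit 555) (nat_lit 460) (nat_lit 6571) (.d (nat_lit 556) (nat_lit 524) (nat_lit 4523) (nat_lit 588) (nat_lit 4555)))) (.f (nat_lit 428) (nat_lit 396) (nat_lit 6539) (.f (nat_lit 458) (nat_lit 429) (nat_lit 1450) (.d (nat_lit 555) (nat_lit 426) (nat_lit 7594) (nat_lit 460) (nat_lit 6571))))))) (.a (.p (nat_lit 523) (.a (.f (nat_lit 522) (nat_lit 554) (nat_lit 5546) (.d (nat_lit 524) (nat_lit 525) (nat_lit 2538) (nat_lit 556) (nat_lit 4523))) (.a (.f (nat_lit 426) (nat_lit 394) (nat_lit 7562) (.f (nat_lit 555) (nat_lit 458) (nat_lit 7594) (.d (nat_lit 556) (nat_lit 524) (nat_lit 4523) (nat_lit 588) (nat_lit 4555)))) (.f (nat_lit 394) (nat_lit 426) (nat_lit 7562) (.f (nat_lit 395) (nat_lit 362) (nat_lit 7530) (.d (nat_lit 522) (nat_lit 490) (nat_lit 5514) (nat_lit 554) (nat_lit 5546))))))) (.a s72464 (.a (.p (nat_lit 523) (.a (.f (nat_lit 394) (nat_lit 426) (nat_lit 7562) (.f (nat_lit 395) (nat_lit 362) (nat_lit 7530) (.d (nat_lit 396) (nat_lit 364) (nat_lit 6507) (nat_lit 428) (nat_lit 6539)))) (.a (.f (nat_lit 428) (nat_lit 396) (nat_lit 6539) (.f (nat_lit 555) (nat_lit 460) (nat_lit 6571) (.d (nat_lit 556) (nat_lit 524) (nat_lit 4523) (nat_lit 588) (nat_lit 4555)))) (.f (nat_lit 426) (nat_lit 394) (nat_lit 7562) (.f (nat_lit 555) (nat_lit 458) (nat_lit 7594) (.d (nat_lit 556) (nat_lit 524) (nat_lit 4523) (nat_lit 588) (nat_lit 4555))))))) s72481)))))) (.a (.p (nat_lit 428) (.a (.f (nat_lit 429) (nat_lit 458) (nat_lit 1450) (.f (nat_lit 395) (nat_lit 394) (nat_lit 3466) (.d (nat_lit 431) (nat_lit 396) (nat_lit 3467) (nat_lit 460) (nat_lit 1451)))) (.a (.f (nat_lit 398) (nat_lit 525) (nat_lit 5517) (.f (nat_lit 365) (nat_lit 397) (nat_lit 7533) (.f (nat_lit 366) (nat_lit 333) (nat_lit 7501) (.f (nat_lit 335) (nat_lit 367) (nat_lit 6478) (.f (nat_lit 334) (nat_lit 303) (nat_lit 6446) (.f (nat_lit 364) (nat_lit 363) (nat_lit 2379) (.f (nat_lit 396) (nat_lit 332) (nat_lit 5451) (.d (nat_lit 491) (nat_lit 395) (nat_lit 6507) (nat_lit 460) (nat_lit 5483))))))))) (.a (.f (nat_lit 398) (nat_lit 525) (nat_lit 5517) (.f (nat_lit 429) (nat_lit 458) (nat_lit 1450) (.f (nat_lit 397) (nat_lit 365) (nat_lit 7533) (.f (nat_lit 431) (nat_lit 460) (nat_lit 1451) (.d (nat_lit 432) (nat_lit 396) (nat_lit 3468) (nat_lit 465) (nat_lit 429)))))) (.a (.f (nat_lit 429) (nat_lit 458) (nat_lit 1450) (.f (nat_lit 398) (nat_lit 525) (nat_lit 5517) (.f (nat_lit 365) (nat_lit 397) (nat_lit 7533) (.f (nat_lit 395) (nat_lit 394) (nat_lit 3466) (.f (nat_lit 366) (nat_lit 333) (nat_lit 7501) (.f (nat_lit 335) (nat_lit 367) (nat_lit 6478) (.f (nat_lit 334) (nat_lit 303) (nat_lit 6446) (.f (nat_lit 363) (nat_lit 364) (nat_lit 2379) (.d (nat_lit 460) (nat_lit 331) (nat_lit 4427) (nat_lit 431) (nat_lit 1451)))))))))) (.f (nat_lit 429) (nat_lit 458) (nat_lit 1450) (.f (nat_lit 395) (nat_lit 394) (nat_lit 3466) (.f (nat_lit 396) (nat_lit 431) (nat_lit 3467) (.d (nat_lit 491) (nat_lit 364) (nat_lit 6507) (nat_lit 523) (nat_lit 6539)))))))))) (.a (.p (nat_lit 395) (.a s72403 (.a (.f (nat_lit 398) (nat_lit 525) (nat_lit 5517) (.f (nat_lit 397) (nat_lit 365) (nat_lit 7533) (.d (nat_lit 396) (nat_lit 426) (nat_lit 1418) (nat_lit 431) (nat_lit 395)))) (.a (.f (nat_lit 398) (nat_lit 525) (nat_lit 5517) (.f (nat_lit 365) (nat_lit 397) (nat_lit 7533) (.f (nat_lit 366) (nat_lit 333) (nat_lit 7501) (.f (nat_lit 335) (nat_lit 367) (nat_lit 6478) (.f (nat_lit 334) (nat_lit 303) (nat_lit 6446) (.f (nat_lit 363) (nat_lit 364) (nat_lit 2379) (.f (nat_lit 362) (nat_lit 330) (nat_lit 7498) (.f (nat_lit 458) (nat_lit 490) (nat_lit 5482) (.f (nat_lit 426) (nat_lit 331) (nat_lit 5450) (.f (nat_lit 394) (nat_lit 491) (nat_lit 4458) (.f (nat_lit 457) (nat_lit 489) (nat_lit 5481) (.f (nat_lit 456) (nat_lit 455) (nat_lit 2471) (.f (nat_lit 424) (nat_lit 423) (nat_lit 3495) (.f (nat_lit 425) (nat_lit 460) (nat_lit 424) (.f (nat_lit 361) (nat_lit 329) (nat_lit 7497) (.d (nat_lit 488) (nat_lit 393) (nat_lit 5480) (nat_lit 487) (nat_lit 1479))))))))))))))))) (.f (nat_lit 398) (nat_lit 525) (nat_lit 5517) (.f (nat_lit 397) (nat_lit 365) (nat_lit 7533) (.f (nat_lit 396) (nat_lit 431) (nat_lit 395) (.f (nat_lit 363) (nat_lit 362) (nat_lit 3434) (.d (nat_lit 364) (nat_lit 332) (nat_lit 6475) (nat_lit 491) (nat_lit 6507)))))))))) (.a (.p (nat_lit 395) (.a s72359 (.a s72365 (.a s72388 (.a (.f (nat_lit 398) (nat_lit 525) (nat_lit 5517) (.f (nat_lit 397) (nat_lit 365) (nat_lit 7533) (.f (nat_lit 396) (nat_lit 426) (nat_lit 1418) (.f (nat_lit 364) (nat_lit 491) (nat_lit 6507) (.d (nat_lit 332) (nat_lit 300) (nat_lit 5419) (nat_lit 363) (nat_lit 6475)))))) (.a s72405 (.a s72401 (.a s72402 s72430)))))))) (.a (.p (nat_lit 395) (.a s72405 (.a (.f (nat_lit 398) (nat_lit 525) (nat_lit 5517) (.f (nat_lit 397) (nat_lit 365) (nat_lit 7533) (.d (nat_lit 396) (nat_lit 426) (nat_lit 1418) (nat_lit 431) (nat_lit 395)))) (.a (.f (nat_lit 398) (nat_lit 525) (nat_lit 5517) (.f (nat_lit 365) (nat_lit 397) (nat_lit 7533) (.f (nat_lit 366) (nat_lit 333) (nat_lit 7501) (.f (nat_lit 335) (nat_lit 367) (nat_lit 6478) (.f (nat_lit 334) (nat_lit 303) (nat_lit 6446) (.f (nat_lit 363) (nat_lit 364) (nat_lit 2379) (.f (nat_lit 362) (nat_lit 330) (nat_lit 7498) (.f (nat_lit 394) (nat_lit 491) (nat_lit 7530) (.f (nat_lit 428) (nat_lit 429) (nat_lit 3466) (.f (nat_lit 331) (nat_lit 460) (nat_lit 4427) (.d (nat_lit 299) (nat_lit 267) (nat_lit 5386) (nat_lit 426) (nat_lit 5418)))))))))))) (.a (.p (nat_lit 491) (.a (.f (nat_lit 394) (nat_lit 362) (nat_lit 7530) (.f (nat_lit 428) (nat_lit 429) (nat_lit 3466) (.d (nat_lit 523) (nat_lit 396) (nat_lit 6539) (nat_lit 426) (nat_lit 7562)))) (.a (.f (nat_lit 396) (nat_lit 364) (nat_lit 6507) (.f (nat_lit 523) (nat_lit 428) (nat_lit 6539) (.d (nat_lit 522) (nat_lit 490) (nat_lit 5514) (nat_lit 554) (nat_lit 5546)))) (.a (.f (nat_lit 394) (nat_lit 362) (nat_lit 7530) (.f (nat_lit 523) (nat_lit 426) (nat_lit 7562) (.d (nat_lit 522) (nat_lit 490) (nat_lit 5514) (nat_lit 554) (nat_lit 5546)))) (.f (nat_lit 394) (nat_lit 362) (nat_lit 7530) (.f (nat_lit 428) (nat_lit 429) (nat_lit 3466) (.f (nat_lit 364) (nat_lit 396) (nat_lit 6507) (.f (nat_lit 363) (nat_lit 332) (nat_lit 6475) (.f (nat_lit 331) (nat_lit 460) (nat_lit 4427) (.f (nat_lit 299) (nat_lit 426) (nat_lit 5418) (.d (nat_lit 298) (nat_lit 266) (nat_lit 7434) (nat_lit 330) (nat_lit 7466)))))))))))) (.f (nat_lit 398) (nat_lit 525) (nat_lit 5517) (.f (nat_lit 397) (nat_lit 365) (nat_lit 7533) (.f (nat_lit 396) (nat_lit 431) (nat_lit 395) (.f (nat_lit 363) (nat_lit 362) (nat_lit 3434) (.d (nat_lit 364) (nat_lit 332) (nat_lit 6475) (nat_lit 491) (nat_lit 6507))))))))))) (.a (.p (nat_lit 428) (.a (.f (nat_lit 398) (nat_lit 525) (nat_lit 5517) (.f (nat_lit 429) (nat_lit 458) (nat_lit 1450) (.d (nat_lit 397) (nat_lit 365) (nat_lit 7533) (nat_lit 426) (nat_lit 2442)))) (.a (.f (nat_lit 429) (nat_lit 458) (nat_lit 1450) (.f (nat_lit 395) (nat_lit 394) (nat_lit 3466) (.f (nat_lit 396) (nat_lit 431) (nat_lit 3467) (.d (nat_lit 491) (nat_lit 364) (nat_lit 6507) (nat_lit 523) (nat_lit 6539))))) (.f (nat_lit 398) (nat_lit 525) (nat_lit 5517) (.f (nat_lit 365) (nat_lit 397) (nat_lit 7533) (.f (nat_lit 366) (nat_lit 333) (nat_lit 7501) (.f (nat_lit 335) (nat_lit 367) (nat_lit 6478) (.f (nat_lit 334) (nat_lit 303) (nat_lit 6446) (.f (nat_lit 364) (nat_lit 363) (nat_lit 2379) (.f (nat_lit 396) (nat_lit 332) (nat_lit 5451) (.d (nat_lit 491) (nat_lit 395) (nat_lit 6507) (nat_lit 523) (nat_lit 6539)))))))))))) (.p (nat_lit 491) (.a (.p (nat_lit 523) (.a (.f (nat_lit 394) (nat_lit 426) (nat_lit 7562) (.f (nat_lit 395) (nat_lit 362) (nat_lit 7530) (.d (nat_lit 396) (nat_lit 364) (nat_lit 6507) (nat_lit 428) (nat_lit 6539)))) (.f (nat_lit 554) (nat_lit 522) (nat_lit 5546) (.f (nat_lit 555) (nat_lit 586) (nat_lit 5578) (.d (nat_lit 556) (nat_lit 524) (nat_lit 4523) (nat_lit 588) (nat_lit 4555)))))) (.a (.p (nat_lit 523) (.a (.f (nat_lit 554) (nat_lit 522) (nat_lit 5546) (.f (nat_lit 555) (nat_lit 586) (nat_lit 5578) (.d (nat_lit 556) (nat_lit 524) (nat_lit 4523) (nat_lit 588) (nat_lit 4555)))) (.a (.f (nat_lit 428) (nat_lit 396) (nat_lit 6539) (.f (nat_lit 555) (nat_lit 460) (nat_lit 6571) (.d (nat_lit 556) (nat_lit 524) (nat_lit 4523) (nat_lit 588) (nat_lit 4555)))) (.a (.f (nat_lit 428) (nat_lit 396) (nat_lit 6539) (.f (nat_lit 458) (nat_lit 429) (nat_lit 1450) (.d (nat_lit 555) (nat_lit 426) (nat_lit 7594) (nat_lit 460) (nat_lit 6571)))) (.f (nat_lit 428) (nat_lit 396) (nat_lit 6539) (.f (nat_lit 429) (nat_lit 458) (nat_lit 1450) (.d (nat_lit 394) (nat_lit 395) (nat_lit 3466) (nat_lit 426) (nat_lit 7562)))))))) (.a (.p (nat_lit 523) (.a (.f (nat_lit 554) (nat_lit 522) (nat_lit 5546) (.f (nat_lit 555) (nat_lit 586) (nat_lit 5578) (.d (nat_lit 556) (nat_lit 524) (nat_lit 4523) (nat_lit 588) (nat_lit 4555)))) (.a (.f (nat_lit 428) (nat_lit 396) (nat_lit 6539) (.f (nat_lit 555) (nat_lit 460) (nat_lit 6571) (.d (nat_lit 556) (nat_lit 524) (nat_lit 4523) (nat_lit 588) (nat_lit 4555)))) (.a (.f (nat_lit 428) (nat_lit 396) (nat_lit 6539) (.f (nat_lit 458) (nat_lit 429) (nat_lit 1450) (.d (nat_lit 555) (nat_lit 426) (nat_lit 7594) (nat_lit 460) (nat_lit 6571)))) (.f (nat_lit 428) (nat_lit 396) (nat_lit 6539) (.f (nat_lit 458) (nat_lit 429) (nat_lit 1450) (.f (nat_lit 522) (nat_lit 554) (nat_lit 5546) (.f (nat_lit 490) (nat_lit 395) (nat_lit 5514) (.f (nat_lit 457) (nat_lit 456) (nat_lit 2472) (.f (nat_lit 524) (nat_lit 556) (nat_lit 4523) (.f (nat_lit 489) (nat_lit 488) (nat_lit 488) (.f (nat_lit 425) (nat_lit 393) (nat_lit 4489) (.f (nat_lit 424) (nat_lit 460) (nat_lit 3496) (.d (nat_lit 423) (nat_lit 422) (nat_lit 422) (nat_lit 426) (nat_lit 423))))))))))))))) (.a (.p (nat_lit 523) (.a (.f (nat_lit 554) (nat_lit 522) (nat_lit 5546) (.f (nat_lit 555) (nat_lit 586) (nat_lit 5578) (.d (nat_lit 556) (nat_lit 524) (nat_lit 4523) (nat_lit 588) (nat_lit 4555)))) (.a (.f (nat_lit 428) (nat_lit 396) (nat_lit 6539) (.f (nat_lit 555) (nat_lit 460) (nat_lit 6571) (.d (nat_lit 556) (nat_lit 524) (nat_lit 4523) (nat_lit 588) (nat_lit 4555)))) (.a (.f (nat_lit 428) (nat_lit 396) (nat_lit 6539) (.f (nat_lit 458) (nat_lit 429) (nat_lit 1450) (.d (nat_lit 555) (nat_lit 426) (nat_lit 7594) (nat_lit 460) (nat_lit 6571)))) (.f (nat_lit 428) (nat_lit 396) (nat_lit 6539) (.f (nat_lit 429) (nat_lit 458) (nat_lit 1450) (.f (nat_lit 426) (nat_lit 394) (nat_lit 7562) (.f (nat_lit 460) (nat_lit 431) (nat_lit 1451) (.f (nat_lit 425) (nat_lit 424) (nat_lit 424) (.f (nat_lit 524) (nat_lit 556) (nat_lit 4523) (.f (nat_lit 522) (nat_lit 554) (nat_lit 5546) (.f (nat_lit 393) (nat_lit 392) (nat_lit 3464) (.f (nat_lit 457) (nat_lit 456) (nat_lit 1448) (.f (nat_lit 489) (nat_lit 490) (nat_lit 4489) (.d (nat_lit 488) (nat_lit 520) (nat_lit 5512) (nat_lit 521) (nat_lit 3560)))))))))))))))) (.a (.p (nat_lit 523) (.a (.f (nat_lit 394) (nat_lit 426) (nat_lit 7562) (.f (nat_lit 395) (nat_lit 362) (nat_lit 7530) (.d (nat_lit 522) (nat_lit 490) (nat_lit 5514) (nat_lit 554) (nat_lit 5546)))) (.a (.f (nat_lit 554) (nat_lit 522) (nat_lit 5546) (.f (nat_lit 555) (nat_lit 586) (nat_lit 5578) (.d (nat_lit 556) (nat_lit 524) (nat_lit 4523) (nat_lit 588) (nat_lit 4555)))) (.f (nat_lit 426) (nat_lit 394) (nat_lit 7562) (.f (nat_lit 555) (nat_lit 458) (nat_lit 7594) (.d (nat_lit 556) (nat_lit 524) (nat_lit 4523) (nat_lit 588) (nat_lit 4555))))))) (.a s72464 (.a (.p (nat_lit 523) (.a (.f (nat_lit 394) (nat_lit 426) (nat_lit 7562) (.f (nat_lit 395) (nat_lit 362) (nat_lit 7530) (.d (nat_lit 396) (nat_lit 364) (nat_lit 6507) (nat_lit 428) (nat_lit 6539)))) (.a (.f (nat_lit 428) (nat_lit 396) (nat_lit 6539) (.f (nat_lit 555) (nat_lit 460) (nat_lit 6571) (.d (nat_lit 556) (nat_lit 524) (nat_lit 4523) (nat_lit 588) (nat_lit 4555)))) (.f (nat_lit 426) (nat_lit 394) (nat_lit 7562) (.f (nat_lit 555) (nat_lit 458) (nat_lit 7594) (.d (nat_lit 556) (nat_lit 524) (nat_lit 4523) (nat_lit 588) (nat_lit 4555))))))) s72481)))))))))))))))))))) (.p (nat_lit 492) (.a (.d (nat_lit 495) (nat_lit 460) (nat_lit 3531) (nat_lit 527) (nat_lit 492)) (.a (.f (nat_lit 491) (nat_lit 458) (nat_lit 3530) (.f (nat_lit 523) (nat_lit 522) (nat_lit 1514) (.d (nat_lit 495) (nat_lit 524) (nat_lit 1515) (nat_lit 527) (nat_lit 492)))) (.f (nat_lit 491) (nat_lit 458) (nat_lit 3530) (.p (nat_lit 427) (.a (.f (nat_lit 523) (nat_lit 522) (nat_lit 1514) (.d (nat_lit 524) (nat_lit 395) (nat_lit 4491) (nat_lit 556) (nat_lit 4523))) (.a (.f (nat_lit 523) (nat_lit 522) (nat_lit 1514) (.f (nat_lit 524) (nat_lit 556) (nat_lit 4523) (.f (nat_lit 428) (nat_lit 396) (nat_lit 6539) (.f (nat_lit 555) (nat_lit 460) (nat_lit 5547) (.f (nat_lit 587) (nat_lit 619) (nat_lit 6635) (.d (nat_lit 586) (nat_lit 554) (nat_lit 5578) (nat_lit 618) (nat_lit 5610))))))) (.a (.f (nat_lit 395) (nat_lit 524) (nat_lit 4491) (.f (nat_lit 396) (nat_lit 364) (nat_lit 6507) (.f (nat_lit 428) (nat_lit 523) (nat_lit 6539) (.d (nat_lit 394) (nat_lit 362) (nat_lit 7530) (nat_lit 429) (nat_lit 3466))))) (.a (.f (nat_lit 395) (nat_lit 524) (nat_lit 4491) (.f (nat_lit 363) (nat_lit 460) (nat_lit 4459) (.d (nat_lit 364) (nat_lit 332) (nat_lit 6475) (nat_lit 396) (nat_lit 6507)))) (.f (nat_lit 523) (nat_lit 522) (nat_lit 1514) (.f (nat_lit 428) (nat_lit 396) (nat_lit 6539) (.f (nat_lit 460) (nat_lit 555) (nat_lit 6571) (.f (nat_lit 395) (nat_lit 363) (nat_lit 4459) (.d (nat_lit 394) (nat_lit 362) (nat_lit 7530) (nat_lit 426) (nat_lit 7562))))))))))))))))))))) (.p (nat_lit 492) (.a (.f (nat_lit 495) (nat_lit 527) (nat_lit 492) (.f (nat_lit 459) (nat_lit 460) (nat_lit 3531) (.f (nat_lit 491) (nat_lit 458) (nat_lit 3530) (.d (nat_lit 523) (nat_lit 522) (nat_lit 1514) (nat_lit 524) (nat_lit 1515))))) (.a s69311 (.a s69308 (.a s69326 (.a (.f (nat_lit 495) (nat_lit 527) (nat_lit 492) (.f (nat_lit 459) (nat_lit 460) (nat_lit 3531) (.f (nat_lit 491) (nat_lit 458) (nat_lit 3530) (.f (nat_lit 461) (nat_lit 490) (nat_lit 2506) (.f (nat_lit 398) (nat_lit 366) (nat_lit 5485) (.f (nat_lit 397) (nat_lit 365) (nat_lit 7533) (.f (nat_lit 429) (nat_lit 524) (nat_lit 5516) (.f (nat_lit 396) (nat_lit 364) (nat_lit 7532) (.d (nat_lit 395) (nat_lit 394) (nat_lit 394) (nat_lit 431) (nat_lit 395)))))))))) (.f (nat_lit 495) (nat_lit 527) (nat_lit 492) (.f (nat_lit 459) (nat_lit 460) (nat_lit 3531) (.f (nat_lit 491) (nat_lit 458) (nat_lit 3530) (.f (nat_lit 490) (nat_lit 461) (nat_lit 2506) (.d (nat_lit 522) (nat_lit 521) (nat_lit 1513) (nat_lit 523) (nat_lit 1514)))))))))))))))) (.a (.p (nat_lit 398) (.a (.f (nat_lit 493) (nat_lit 525) (nat_lit 5517) (.f (nat_lit 365) (nat_lit 397) (nat_lit 7533) (.d (nat_lit 366) (nat_lit 333) (nat_lit 7501) (nat_lit 461) (nat_lit 5485)))) (.a (.f (nat_lit 397) (nat_lit 365) (nat_lit 7533) (.f (nat_lit 429) (nat_lit 526) (nat_lit 7565) (.f (nat_lit 493) (nat_lit 525) (nat_lit 5517) (.f (nat_lit 461) (nat_lit 366) (nat_lit 5485) (.f (nat_lit 396) (nat_lit 364) (nat_lit 7532) (.d (nat_lit 395) (nat_lit 394) (nat_lit 394) (nat_lit 431) (nat_lit 395))))))) (.a (.f (nat_lit 525) (nat_lit 493) (nat_lit 5517) (.f (nat_lit 526) (nat_lit 557) (nat_lit 5549) (.f (nat_lit 429) (nat_lit 397) (nat_lit 7565) (.f (nat_lit 558) (nat_lit 461) (nat_lit 7597) (.d (nat_lit 559) (nat_lit 561) (nat_lit 3597) (nat_lit 591) (nat_lit 4558)))))) (.a (.f (nat_lit 493) (nat_lit 525) (nat_lit 5517) (.f (nat_lit 366) (nat_lit 461) (nat_lit 5485) (.f (nat_lit 335) (nat_lit 367) (nat_lit 6478) (.f (nat_lit 334) (nat_lit 303) (nat_lit 6446) (.d (nat_lit 333) (nat_lit 301) (nat_lit 7469) (nat_lit 365) (nat_lit 7501)))))) (.a (.f (nat_lit 397) (nat_lit 365) (nat_lit 7533) (.f (nat_lit 526) (nat_lit 429) (nat_lit 7565) (.d (nat_lit 525) (nat_lit 493) (nat_lit 5517) (nat_lit 557) (nat_lit 5549)))) (.p (nat_lit 366) (.a (.f (nat_lit 333) (nat_lit 365) (nat_lit 7501) (.f (nat_lit 334) (nat_lit 301) (nat_lit 7469) (.d (nat_lit 335) (nat_lit 303) (nat_lit 6446) (nat_lit 367) (nat_lit 6478)))) (.a (.d (nat_lit 365) (nat_lit 333) (nat_lit 7501) (nat_lit 397) (nat_lit 7533)) (.a (.f (nat_lit 397) (nat_lit 365) (nat_lit 7533) (.f (nat_lit 429) (nat_lit 526) (nat_lit 7565) (.d (nat_lit 334) (nat_lit 302) (nat_lit 5421) (nat_lit 461) (nat_lit 5453)))) (.f (nat_lit 335) (nat_lit 367) (nat_lit 6478) (.f (nat_lit 334) (nat_lit 303) (nat_lit 6446) (.f (nat_lit 429) (nat_lit 461) (nat_lit 5453) (.d (nat_lit 397) (nat_lit 302) (nat_lit 5421) (nat_lit 526) (nat_lit 7565))))))))))))))) (.p (nat_lit 398) (.a (.f (nat_lit 527) (nat_lit 495) (nat_lit 4494) (.f (nat_lit 526) (nat_lit 559) (nat_lit 4526) (.d (nat_lit 525) (nat_lit 493) (nat_lit 5517) (nat_lit 561) (nat_lit 525)))) (.a (.f (nat_lit 397) (nat_lit 365) (nat_lit 7533) (.f (nat_lit 526) (nat_lit 429) (nat_lit 7565) (.d (nat_lit 527) (nat_lit 495) (nat_lit 4494) (nat_lit 559) (nat_lit 4526)))) (.f (nat_lit 493) (nat_lit 525) (nat_lit 5517) (.f (nat_lit 365) (nat_lit 397) (nat_lit 7533) (.d (nat_lit 366) (nat_lit 333) (nat_lit 7501) (nat_lit 461) (nat_lit 5485)))))))))))))))) (.a (.p (nat_lit 431) (.a s68743 (.a s68748 (.a s68753 (.a (.p (nat_lit 432) (.a (.f (nat_lit 429) (nat_lit 465) (nat_lit 429) (.d (nat_lit 461) (nat_lit 433) (nat_lit 1453) (nat_lit 460) (nat_lit 1452))) (.a (.f (nat_lit 433) (nat_lit 461) (nat_lit 1453) (.f (nat_lit 398) (nat_lit 397) (nat_lit 3469) (.f (nat_lit 399) (nat_lit 434) (nat_lit 3470) (.d (nat_lit 367) (nat_lit 335) (nat_lit 4431) (nat_lit 494) (nat_lit 6510))))) (.a (.f (nat_lit 429) (nat_lit 465) (nat_lit 429) (.f (nat_lit 461) (nat_lit 460) (nat_lit 1452) (.f (nat_lit 396) (nat_lit 397) (nat_lit 3468) (.f (nat_lit 428) (nat_lit 395) (nat_lit 3467) (.f (nat_lit 493) (nat_lit 525) (nat_lit 7564) (.f (nat_lit 427) (nat_lit 426) (nat_lit 426) (.d (nat_lit 398) (nat_lit 366) (nat_lit 5485) (nat_lit 399) (nat_lit 2443)))))))) (.f (nat_lit 465) (nat_lit 429) (nat_lit 429) (.d (nat_lit 466) (nat_lit 433) (nat_lit 430) (nat_lit 467) (nat_lit 3503))))))) (.a (.p (nat_lit 494) (.a (.f (nat_lit 526) (nat_lit 399) (nat_lit 6542) (.f (nat_lit 527) (nat_lit 559) (nat_lit 4526) (.d (nat_lit 525) (nat_lit 557) (nat_lit 5549) (nat_lit 561) (nat_lit 525)))) (.a (.p (nat_lit 525) (.a (.f (nat_lit 526) (nat_lit 557) (nat_lit 5549) (.d (nat_lit 527) (nat_lit 559) (nat_lit 4526) (nat_lit 561) (nat_lit 525))) (.a (.f (nat_lit 493) (nat_lit 398) (nat_lit 5517) (.d (nat_lit 557) (nat_lit 461) (nat_lit 6573) (nat_lit 589) (nat_lit 6605))) (.f (nat_lit 398) (nat_lit 493) (nat_lit 5517) (.f (nat_lit 527) (nat_lit 495) (nat_lit 4494) (.d (nat_lit 526) (nat_lit 559) (nat_lit 4526) (nat_lit 561) (nat_lit 525))))))) (.a (.f (nat_lit 399) (nat_lit 526) (nat_lit 6542) (.d (nat_lit 367) (nat_lit 335) (nat_lit 5454) (nat_lit 398) (nat_lit 6510))) (.p (nat_lit 398) (.a (.f (nat_lit 493) (nat_lit 525) (nat_lit 5517) (.f (nat_lit 461) (nat_lit 366) (nat_lit 5485) (.f (nat_lit 432) (nat_lit 433) (nat_lit 1453) (.d (nat_lit 460) (nat_lit 429) (nat_lit 1452) (nat_lit 459) (nat_lit 2475))))) (.a (.f (nat_lit 399) (nat_lit 367) (nat_lit 6510) (.f (nat_lit 397) (nat_lit 365) (nat_lit 7533) (.f (nat_lit 432) (nat_lit 433) (nat_lit 3469) (.f (nat_lit 429) (nat_lit 465) (nat_lit 429) (.f (nat_lit 428) (nat_lit 427) (nat_lit 2443) (.d (nat_lit 460) (nat_lit 459) (nat_lit 1451) (nat_lit 461) (nat_lit 1452))))))) (.a (.f (nat_lit 367) (nat_lit 399) (nat_lit 6510) (.f (nat_lit 366) (nat_lit 335) (nat_lit 6478) (.d (nat_lit 493) (nat_lit 461) (nat_lit 5485) (nat_lit 525) (nat_lit 5517)))) (.f (nat_lit 367) (nat_lit 399) (nat_lit 6510) (.f (nat_lit 366) (nat_lit 335) (nat_lit 6478) (.d (nat_lit 365) (nat_lit 333) (nat_lit 7501) (nat_lit 397) (nat_lit 7533)))))))))))) (.a (.p (nat_lit 398) (.a (.p (nat_lit 494) (.a (.f (nat_lit 493) (nat_lit 525) (nat_lit 5517) (.f (nat_lit 461) (nat_lit 366) (nat_lit 5485) (.f (nat_lit 432) (nat_lit 433) (nat_lit 1453) (.d (nat_lit 460) (nat_lit 429) (nat_lit 1452) (nat_lit 459) (nat_lit 2475))))) (.d (nat_lit 399) (nat_lit 367) (nat_lit 6510) (nat_lit 526) (nat_lit 6542)))) (.a (.p (nat_lit 432) (.a (.f (nat_lit 433) (nat_lit 461) (nat_lit 1453) (.d (nat_lit 465) (nat_lit 429) (nat_lit 429) (nat_lit 466) (nat_lit 430))) (.a (.f (nat_lit 433) (nat_lit 461) (nat_lit 1453) (.f (nat_lit 399) (nat_lit 434) (nat_lit 3470) (.d (nat_lit 367) (nat_lit 335) (nat_lit 4431) (nat_lit 494) (nat_lit 6510)))) (.a (.f (nat_lit 429) (nat_lit 465) (nat_lit 429) (.f (nat_lit 460) (nat_lit 461) (nat_lit 1452) (.f (nat_lit 428) (nat_lit 459) (nat_lit 1451) (.f (nat_lit 399) (nat_lit 427) (nat_lit 2443) (.d (nat_lit 367) (nat_lit 335) (nat_lit 4431) (nat_lit 494) (nat_lit 6510)))))) (.f (nat_lit 465) (nat_lit 429) (nat_lit 429) (.d (nat_lit 466) (nat_lit 433) (nat_lit 430) (nat_lit 467) (nat_lit 3503))))))) (.a (.p (nat_lit 461) (.a (.f (nat_lit 432) (nat_lit 433) (nat_lit 1453) (.d (nat_lit 460) (nat_lit 429) (nat_lit 1452) (nat_lit 459) (nat_lit 2475))) (.f (nat_lit 493) (nat_lit 366) (nat_lit 5485) (.d (nat_lit 525) (nat_lit 494) (nat_lit 5517) (nat_lit 557) (nat_lit 6573))))) (.a (.p (nat_lit 494) (.a (.f (nat_lit 367) (nat_lit 399) (nat_lit 6510) (.f (nat_lit 366) (nat_lit 335) (nat_lit 6478) (.d (nat_lit 493) (nat_lit 461) (nat_lit 5485) (nat_lit 525) (nat_lit 5517)))) (.a (.d (nat_lit 399) (nat_lit 367) (nat_lit 6510) (nat_lit 526) (nat_lit 6542)) (.a (.f (nat_lit 526) (nat_lit 399) (nat_lit 6542) (.d (nat_lit 525) (nat_lit 493) (nat_lit 5517) (nat_lit 557) (nat_lit 5549))) (.f (nat_lit 527) (nat_lit 495) (nat_lit 4494) (.f (nat_lit 526) (nat_lit 559) (nat_lit 4526) (.d (nat_lit 525) (nat_lit 493) (nat_lit 5517) (nat_lit 561) (nat_lit 525)))))))) (.a s72695 (.p (nat_lit 366) (.a (.f (nat_lit 333) (nat_lit 365) (nat_lit 7501) (.f (nat_lit 334) (nat_lit 301) (nat_lit 7469) (.f (nat_lit 303) (nat_lit 335) (nat_lit 6446) (.d (nat_lit 302) (nat_lit 271) (nat_lit 6414) (nat_lit 399) (nat_lit 4398))))) (.a (.f (nat_lit 333) (nat_lit 365) (nat_lit 7501) (.f (nat_lit 334) (nat_lit 301) (nat_lit 7469) (.d (nat_lit 335) (nat_lit 303) (nat_lit 6446) (nat_lit 367) (nat_lit 6478)))) (.a (.f (nat_lit 461) (nat_lit 493) (nat_lit 5485) (.f (nat_lit 429) (nat_lit 334) (nat_lit 5453) (.d (nat_lit 432) (nat_lit 433) (nat_lit 1453) (nat_lit 460) (nat_lit 1452)))) (.f (nat_lit 461) (nat_lit 493) (nat_lit 5485) (.f (nat_lit 432) (nat_lit 433) (nat_lit 1453) (.d (nat_lit 460) (nat_lit 429) (nat_lit 1452) (nat_lit 459) (nat_lit 2475)))))))))))))) (.a (.p (nat_lit 432) (.a (.f (nat_lit 429) (nat_lit 465) (nat_lit 429) (.d (nat_lit 461) (nat_lit 433) (nat_lit 1453) (nat_lit 460) (nat_lit 1452))) (.a (.f (nat_lit 433) (nat_lit 461) (nat_lit 1453) (.f (nat_lit 466) (nat_lit 465) (nat_lit 430) (.f (nat_lit 434) (nat_lit 467) (nat_lit 431) (.d (nat_lit 402) (nat_lit 401) (nat_lit 2446) (nat_lit 403) (nat_lit 2447))))) (.a (.f (nat_lit 429) (nat_lit 465) (nat_lit 429) (.f (nat_lit 461) (nat_lit 460) (nat_lit 1452) (.f (nat_lit 397) (nat_lit 396) (nat_lit 3468) (.d (nat_lit 365) (nat_lit 333) (nat_lit 4429) (nat_lit 494) (nat_lit 4461))))) (.a (.f (nat_lit 465) (nat_lit 429) (nat_lit 429) (.d (nat_lit 466) (nat_lit 433) (nat_lit 430) (nat_lit 467) (nat_lit 3503))) (.f (nat_lit 461) (nat_lit 433) (nat_lit 1453) (.d (nat_lit 460) (nat_lit 429) (nat_lit 1452) (nat_lit 459) (nat_lit 2475)))))))) (.a s68816 (.a (.p (nat_lit 494) (.a (.f (nat_lit 526) (nat_lit 399) (nat_lit 6542) (.f (nat_lit 527) (nat_lit 559) (nat_lit 4526) (.d (nat_lit 525) (nat_lit 557) (nat_lit 5549) (nat_lit 561) (nat_lit 525)))) (.a (.p (nat_lit 525) (.a (.f (nat_lit 526) (nat_lit 557) (nat_lit 5549) (.d (nat_lit 527) (nat_lit 559) (nat_lit 4526) (nat_lit 561) (nat_lit 525))) (.a (.f (nat_lit 493) (nat_lit 398) (nat_lit 5517) (.d (nat_lit 557) (nat_lit 461) (nat_lit 6573) (nat_lit 589) (nat_lit 6605))) (.f (nat_lit 398) (nat_lit 493) (nat_lit 5517) (.f (nat_lit 527) (nat_lit 495) (nat_lit 4494) (.d (nat_lit 526) (nat_lit 559) (nat_lit 4526) (nat_lit 561) (nat_lit 525))))))) (.a (.f (nat_lit 399) (nat_lit 526) (nat_lit 6542) (.d (nat_lit 367) (nat_lit 335) (nat_lit 5454) (nat_lit 398) (nat_lit 6510))) (.p (nat_lit 398) (.a (.f (nat_lit 493) (nat_lit 525) (nat_lit 5517) (.f (nat_lit 461) (nat_lit 366) (nat_lit 5485) (.f (nat_lit 459) (nat_lit 460) (nat_lit 2475) (.f (nat_lit 397) (nat_lit 365) (nat_lit 7533) (.f (nat_lit 396) (nat_lit 395) (nat_lit 395) (.f (nat_lit 429) (nat_lit 364) (nat_lit 7532) (.f (nat_lit 492) (nat_lit 524) (nat_lit 5516) (.d (nat_lit 491) (nat_lit 458) (nat_lit 3530) (nat_lit 490) (nat_lit 2506))))))))) (.a (.f (nat_lit 367) (nat_lit 399) (nat_lit 6510) (.f (nat_lit 366) (nat_lit 335) (nat_lit 6478) (.d (nat_lit 493) (nat_lit 461) (nat_lit 5485) (nat_lit 525) (nat_lit 5517)))) (.a (.f (nat_lit 397) (nat_lit 365) (nat_lit 7533) (.f (nat_lit 399) (nat_lit 367) (nat_lit 6510) (.f (nat_lit 396) (nat_lit 395) (nat_lit 395) (.f (nat_lit 428) (nat_lit 427) (nat_lit 1419) (.f (nat_lit 364) (nat_lit 363) (nat_lit 3435) (.f (nat_lit 493) (nat_lit 525) (nat_lit 5517) (.d (nat_lit 461) (nat_lit 429) (nat_lit 7532) (nat_lit 460) (nat_lit 4460)))))))) (.f (nat_lit 367) (nat_lit 399) (nat_lit 6510) (.f (nat_lit 366) (nat_lit 335) (nat_lit 6478) (.d (nat_lit 365) (nat_lit 333) (nat_lit 7501) (nat_lit 397) (nat_lit 7533)))))))))))) (.a (.p (nat_lit 398) (.a s72695 (.a (.p (nat_lit 494) (.a (.f (nat_lit 397) (nat_lit 365) (nat_lit 7533) (.f (nat_lit 432) (nat_lit 433) (nat_lit 3469) (.d (nat_lit 396) (nat_lit 395) (nat_lit 395) (nat_lit 429) (nat_lit 3468)))) (.d (nat_lit 399) (nat_lit 367) (nat_lit 6510) (nat_lit 526) (nat_lit 6542)))) (.a (.p (nat_lit 432) (.a (.f (nat_lit 465) (nat_lit 429) (nat_lit 429) (.d (nat_lit 466) (nat_lit 433) (nat_lit 430) (nat_lit 467) (nat_lit 3503))) (.a (.f (nat_lit 433) (nat_lit 397) (nat_lit 3469) (.f (nat_lit 399) (nat_lit 434) (nat_lit 3470) (.d (nat_lit 367) (nat_lit 335) (nat_lit 4431) (nat_lit 494) (nat_lit 6510)))) (.f (nat_lit 429) (nat_lit 465) (nat_lit 429) (.f (nat_lit 396) (nat_lit 397) (nat_lit 3468) (.f (nat_lit 428) (nat_lit 395) (nat_lit 3467) (.f (nat_lit 399) (nat_lit 427) (nat_lit 2443) (.d (nat_lit 367) (nat_lit 335) (nat_lit 4431) (nat_lit 494) (nat_lit 6510))))))))) (.a (.p (nat_lit 494) (.a (.f (nat_lit 397) (nat_lit 365) (nat_lit 7533) (.f (nat_lit 432) (nat_lit 433) (nat_lit 3469) (.d (nat_lit 396) (nat_lit 395) (nat_lit 395) (nat_lit 429) (nat_lit 3468)))) (.f (nat_lit 526) (nat_lit 399) (nat_lit 6542) (.d (nat_lit 525) (nat_lit 493) (nat_lit 5517) (nat_lit 557) (nat_lit 5549))))) (.a (.p (nat_lit 397) (.a (.f (nat_lit 494) (nat_lit 365) (nat_lit 7533) (.f (nat_lit 429) (nat_lit 526) (nat_lit 7565) (.d (nat_lit 432) (nat_lit 396) (nat_lit 3468) (nat_lit 433) (nat_lit 3469)))) (.a (.f (nat_lit 432) (nat_lit 433) (nat_lit 3469) (.d (nat_lit 396) (nat_lit 395) (nat_lit 395) (nat_lit 429) (nat_lit 3468))) (.a (.f (nat_lit 494) (nat_lit 365) (nat_lit 7533) (.f (nat_lit 526) (nat_lit 429) (nat_lit 7565) (.d (nat_lit 525) (nat_lit 493) (nat_lit 5517) (nat_lit 557) (nat_lit 5549)))) (.f (nat_lit 494) (nat_lit 365) (nat_lit 7533) (.f (nat_lit 527) (nat_lit 495) (nat_lit 4494) (.f (nat_lit 526) (nat_lit 559) (nat_lit 4526) (.d (nat_lit 525) (nat_lit 493) (nat_lit 5517) (nat_lit 561) (nat_lit 525))))))))) (.p (nat_lit 432) (.a (.f (nat_lit 465) (nat_lit 429) (nat_lit 429) (.d (nat_lit 466) (nat_lit 433) (nat_lit 430) (nat_lit 467) (nat_lit 3503))) (.a (.f (nat_lit 433) (nat_lit 397) (nat_lit 3469) (.f (nat_lit 434) (nat_lit 399) (nat_lit 3470) (.d (nat_lit 402) (nat_lit 401) (nat_lit 2446) (nat_lit 403) (nat_lit 2447)))) (.f (nat_lit 429) (nat_lit 465) (nat_lit 429) (.f (nat_lit 396) (nat_lit 397) (nat_lit 3468) (.f (nat_lit 428) (nat_lit 395) (nat_lit 3467) (.f (nat_lit 427) (nat_lit 399) (nat_lit 2443) (.d (nat_lit 459) (nat_lit 458) (nat_lit 1450) (nat_lit 460) (nat_lit 1451))))))))))))))) (.p (nat_lit 432) (.a (.f (nat_lit 429) (nat_lit 465) (nat_lit 429) (.d (nat_lit 461) (nat_lit 433) (nat_lit 1453) (nat_lit 460) (nat_lit 1452))) (.a (.f (nat_lit 433) (nat_lit 461) (nat_lit 1453) (.f (nat_lit 398) (nat_lit 397) (nat_lit 3469) (.f (nat_lit 434) (nat_lit 399) (nat_lit 3470) (.d (nat_lit 402) (nat_lit 401) (nat_lit 2446) (nat_lit 403) (nat_lit 2447))))) (.a (.f (nat_lit 429) (nat_lit 465) (nat_lit 429) (.f (nat_lit 461) (nat_lit 460) (nat_lit 1452) (.f (nat_lit 396) (nat_lit 397) (nat_lit 3468) (.f (nat_lit 428) (nat_lit 395) (nat_lit 3467) (.f (nat_lit 493) (nat_lit 525) (nat_lit 7564) (.f (nat_lit 427) (nat_lit 426) (nat_lit 426) (.d (nat_lit 398) (nat_lit 366) (nat_lit 5485) (nat_lit 399) (nat_lit 2443)))))))) (.f (nat_lit 465) (nat_lit 429) (nat_lit 429) (.d (nat_lit 466) (nat_lit 433) (nat_lit 430) (nat_lit 467) (nat_lit 3503)))))))))))))))))) (.a (.p (nat_lit 432) (.a s69350 (.a s69351 (.a s69352 (.a (.p (nat_lit 431) (.a (.f (nat_lit 429) (nat_lit 465) (nat_lit 429) (.d (nat_lit 461) (nat_lit 433) (nat_lit 1453) (nat_lit 460) (nat_lit 1452))) (.a (.f (nat_lit 433) (nat_lit 461) (nat_lit 1453) (.f (nat_lit 398) (nat_lit 397) (nat_lit 3469) (.f (nat_lit 399) (nat_lit 434) (nat_lit 3470) (.d (nat_lit 367) (nat_lit 335) (nat_lit 4431) (nat_lit 494) (nat_lit 6510))))) (.a (.p (nat_lit 367) (.a (.f (nat_lit 399) (nat_lit 335) (nat_lit 5454) (.d (nat_lit 494) (nat_lit 398) (nat_lit 6510) (nat_lit 526) (nat_lit 6542))) (.a (.f (nat_lit 429) (nat_lit 465) (nat_lit 429) (.f (nat_lit 461) (nat_lit 460) (nat_lit 1452) (.f (nat_lit 397) (nat_lit 396) (nat_lit 3468) (.f (nat_lit 494) (nat_lit 526) (nat_lit 7565) (.f (nat_lit 398) (nat_lit 399) (nat_lit 6510) (.d (nat_lit 366) (nat_lit 334) (nat_lit 5453) (nat_lit 493) (nat_lit 5485))))))) (.a (.f (nat_lit 335) (nat_lit 399) (nat_lit 5454) (.f (nat_lit 429) (nat_lit 465) (nat_lit 429) (.d (nat_lit 400) (nat_lit 368) (nat_lit 7503) (nat_lit 401) (nat_lit 2445)))) (.f (nat_lit 429) (nat_lit 465) (nat_lit 429) (.f (nat_lit 461) (nat_lit 460) (nat_lit 1452) (.f (nat_lit 397) (nat_lit 396) (nat_lit 3468) (.f (nat_lit 526) (nat_lit 494) (nat_lit 7565) (.f (nat_lit 400) (nat_lit 401) (nat_lit 2445) (.f (nat_lit 368) (nat_lit 335) (nat_lit 7503) (.f (nat_lit 369) (nat_lit 337) (nat_lit 6480) (.f (nat_lit 398) (nat_lit 366) (nat_lit 1389) (.f (nat_lit 525) (nat_lit 493) (nat_lit 6541) (.f (nat_lit 527) (nat_lit 561) (nat_lit 525) (.f (nat_lit 524) (nat_lit 559) (nat_lit 524) (.d (nat_lit 556) (nat_lit 555) (nat_lit 1547) (nat_lit 557) (nat_lit 1548))))))))))))))))) s68826)))) (.a (.p (nat_lit 398) (.a (.p (nat_lit 431) (.a (.f (nat_lit 433) (nat_lit 461) (nat_lit 1453) (.d (nat_lit 465) (nat_lit 429) (nat_lit 429) (nat_lit 466) (nat_lit 430))) (.a (.f (nat_lit 433) (nat_lit 461) (nat_lit 1453) (.f (nat_lit 399) (nat_lit 434) (nat_lit 3470) (.d (nat_lit 367) (nat_lit 335) (nat_lit 4431) (nat_lit 494) (nat_lit 6510)))) (.a (.f (nat_lit 429) (nat_lit 465) (nat_lit 429) (.f (nat_lit 461) (nat_lit 460) (nat_lit 1452) (.d (nat_lit 366) (nat_lit 334) (nat_lit 5453) (nat_lit 493) (nat_lit 5485)))) (.f (nat_lit 465) (nat_lit 429) (nat_lit 429) (.d (nat_lit 466) (nat_lit 433) (nat_lit 430) (nat_lit 467) (nat_lit 3503))))))) (.a (.p (nat_lit 431) (.a (.f (nat_lit 433) (nat_lit 461) (nat_lit 1453) (.d (nat_lit 465) (nat_lit 429) (nat_lit 429) (nat_lit 466) (nat_lit 430))) (.a (.f (nat_lit 433) (nat_lit 461) (nat_lit 1453) (.f (nat_lit 399) (nat_lit 434) (nat_lit 3470) (.d (nat_lit 367) (nat_lit 335) (nat_lit 4431) (nat_lit 494) (nat_lit 6510)))) (.a (.f (nat_lit 429) (nat_lit 465) (nat_lit 429) (.f (nat_lit 461) (nat_lit 460) (nat_lit 1452) (.d (nat_lit 493) (nat_lit 366) (nat_lit 5485) (nat_lit 525) (nat_lit 6541)))) (.f (nat_lit 465) (nat_lit 429) (nat_lit 429) (.d (nat_lit 466) (nat_lit 433) (nat_lit 430) (nat_lit 467) (nat_lit 3503))))))) (.a (.p (nat_lit 494) (.a (.f (nat_lit 399) (nat_lit 367) (nat_lit 6510) (.f (nat_lit 431) (nat_lit 526) (nat_lit 6542) (.d (nat_lit 433) (nat_lit 434) (nat_lit 3470) (nat_lit 461) (nat_lit 1453)))) (.a (.f (nat_lit 527) (nat_lit 495) (nat_lit 4494) (.f (nat_lit 526) (nat_lit 559) (nat_lit 4526) (.d (nat_lit 525) (nat_lit 493) (nat_lit 5517) (nat_lit 561) (nat_lit 525)))) (.f (nat_lit 493) (nat_lit 525) (nat_lit 5517) (.f (nat_lit 366) (nat_lit 461) (nat_lit 5485) (.d (nat_lit 365) (nat_lit 333) (nat_lit 7501) (nat_lit 397) (nat_lit 7533))))))) (.a (.p (nat_lit 494) (.a (.f (nat_lit 399) (nat_lit 367) (nat_lit 6510) (.f (nat_lit 431) (nat_lit 526) (nat_lit 6542) (.d (nat_lit 433) (nat_lit 434) (nat_lit 3470) (nat_lit 461) (nat_lit 1453)))) (.a (.f (nat_lit 527) (nat_lit 495) (nat_lit 4494) (.f (nat_lit 526) (nat_lit 559) (nat_lit 4526) (.d (nat_lit 525) (nat_lit 493) (nat_lit 5517) (nat_lit 561) (nat_lit 525)))) (.f (nat_lit 397) (nat_lit 365) (nat_lit 7533) (.f (nat_lit 433) (nat_lit 431) (nat_lit 3469) (.d (nat_lit 399) (nat_lit 367) (nat_lit 6510) (nat_lit 400) (nat_lit 397))))))) (.a (.p (nat_lit 431) (.a (.f (nat_lit 433) (nat_lit 461) (nat_lit 1453) (.d (nat_lit 465) (nat_lit 429) (nat_lit 429) (nat_lit 466) (nat_lit 430))) (.a (.f (nat_lit 433) (nat_lit 397) (nat_lit 3469) (.f (nat_lit 434) (nat_lit 399) (nat_lit 3470) (.d (nat_lit 402) (nat_lit 401) (nat_lit 2446) (nat_lit 403) (nat_lit 2447)))) (.f (nat_lit 429) (nat_lit 465) (nat_lit 429) (.f (nat_lit 461) (nat_lit 460) (nat_lit 1452) (.d (nat_lit 366) (nat_lit 334) (nat_lit 5453) (nat_lit 493) (nat_lit 5485))))))) (.a (.p (nat_lit 431) (.a (.f (nat_lit 433) (nat_lit 461) (nat_lit 1453) (.d (nat_lit 465) (nat_lit 429) (nat_lit 429) (nat_lit 466) (nat_lit 430))) (.a (.d (nat_lit 433) (nat_lit 397) (nat_lit 3469) (nat_lit 461) (nat_lit 1453)) (.a (.f (nat_lit 429) (nat_lit 465) (nat_lit 429) (.f (nat_lit 461) (nat_lit 460) (nat_lit 1452) (.d (nat_lit 366) (nat_lit 334) (nat_lit 5453) (nat_lit 493) (nat_lit 5485)))) (.f (nat_lit 465) (nat_lit 429) (nat_lit 429) (.d (nat_lit 466) (nat_lit 433) (nat_lit 430) (nat_lit 467) (nat_lit 3503))))))) (.a (.p (nat_lit 494) (.a (.f (nat_lit 527) (nat_lit 495) (nat_lit 4494) (.f (nat_lit 526) (nat_lit 559) (nat_lit 4526) (.d (nat_lit 525) (nat_lit 493) (nat_lit 5517) (nat_lit 561) (nat_lit 525)))) (.a (.f (nat_lit 527) (nat_lit 495) (nat_lit 4494) (.f (nat_lit 526) (nat_lit 559) (nat_lit 4526) (.d (nat_lit 525) (nat_lit 557) (nat_lit 5549) (nat_lit 561) (nat_lit 525)))) (.a (.f (nat_lit 367) (nat_lit 399) (nat_lit 6510) (.f (nat_lit 366) (nat_lit 335) (nat_lit 6478) (.d (nat_lit 493) (nat_lit 461) (nat_lit 5485) (nat_lit 525) (nat_lit 5517)))) (.f (nat_lit 367) (nat_lit 399) (nat_lit 6510) (.f (nat_lit 366) (nat_lit 335) (nat_lit 6478) (.d (nat_lit 365) (nat_lit 333) (nat_lit 7501) (nat_lit 397) (nat_lit 7533)))))))) (.a (.p (nat_lit 494) (.a (.f (nat_lit 527) (nat_lit 495) (nat_lit 4494) (.f (nat_lit 526) (nat_lit 559) (nat_lit 4526) (.d (nat_lit 525) (nat_lit 493) (nat_lit 5517) (nat_lit 561) (nat_lit 525)))) (.a (.f (nat_lit 527) (nat_lit 495) (nat_lit 4494) (.f (nat_lit 526) (nat_lit 559) (nat_lit 4526) (.d (nat_lit 525) (nat_lit 557) (nat_lit 5549) (nat_lit 561) (nat_lit 525)))) (.f (nat_lit 367) (nat_lit 399) (nat_lit 6510) (.f (nat_lit 366) (nat_lit 335) (nat_lit 6478) (.d (nat_lit 365) (nat_lit 333) (nat_lit 7501) (nat_lit 397) (nat_lit 7533))))))) (.p (nat_lit 431) (.a (.f (nat_lit 433) (nat_lit 461) (nat_lit 1453) (.d (nat_lit 465) (nat_lit 429) (nat_lit 429) (nat_lit 466) (nat_lit 430))) (.a (.f (nat_lit 433) (nat_lit 461) (nat_lit 1453) (.f (nat_lit 399) (nat_lit 434) (nat_lit 3470) (.d (nat_lit 367) (nat_lit 335) (nat_lit 4431) (nat_lit 494) (nat_lit 6510)))) (.a (.f (nat_lit 429) (nat_lit 465) (nat_lit 429) (.f (nat_lit 461) (nat_lit 460) (nat_lit 1452) (.f (nat_lit 366) (nat_lit 334) (nat_lit 5453) (.f (nat_lit 365) (nat_lit 333) (nat_lit 7501) (.f (nat_lit 494) (nat_lit 397) (nat_lit 4461) (.d (nat_lit 399) (nat_lit 367) (nat_lit 6510) (nat_lit 526) (nat_lit 6542))))))) (.f (nat_lit 465) (nat_lit 429) (nat_lit 429) (.d (nat_lit 466) (nat_lit 433) (nat_lit 430) (nat_lit 467) (nat_lit 3503)))))))))))))))) (.a (.p (nat_lit 525) (.a (.p (nat_lit 431) (.a (.f (nat_lit 461) (nat_lit 433) (nat_lit 1453) (.d (nat_lit 429) (nat_lit 460) (nat_lit 1452) (nat_lit 465) (nat_lit 429))) (.a (.f (nat_lit 433) (nat_lit 461) (nat_lit 1453) (.f (nat_lit 465) (nat_lit 466) (nat_lit 430) (.f (nat_lit 401) (nat_lit 402) (nat_lit 2446) (.f (nat_lit 369) (nat_lit 337) (nat_lit 5456) (.f (nat_lit 368) (nat_lit 336) (nat_lit 7504) (.f (nat_lit 400) (nat_lit 497) (nat_lit 4464) (.f (nat_lit 370) (nat_lit 338) (nat_lit 6481) (.d (nat_lit 399) (nat_lit 371) (nat_lit 1391) (nat_lit 398) (nat_lit 2414))))))))) (.a (.f (nat_lit 429) (nat_lit 465) (nat_lit 429) (.f (nat_lit 461) (nat_lit 460) (nat_lit 1452) (.d (nat_lit 493) (nat_lit 398) (nat_lit 6541) (nat_lit 557) (nat_lit 6573)))) (.a (.f (nat_lit 465) (nat_lit 429) (nat_lit 429) (.d (nat_lit 466) (nat_lit 433) (nat_lit 430) (nat_lit 467) (nat_lit 3503))) (.f (nat_lit 461) (nat_lit 433) (nat_lit 1453) (.d (nat_lit 460) (nat_lit 429) (nat_lit 1452) (nat_lit 459) (nat_lit 2475)))))))) (.a (.p (nat_lit 526) (.a (.f (nat_lit 527) (nat_lit 561) (nat_lit 525) (.d (nat_lit 557) (nat_lit 494) (nat_lit 5549) (nat_lit 556) (nat_lit 1548))) (.a (.f (nat_lit 527) (nat_lit 561) (nat_lit 525) (.f (nat_lit 524) (nat_lit 559) (nat_lit 524) (.d (nat_lit 556) (nat_lit 555) (nat_lit 1547) (nat_lit 557) (nat_lit 1548)))) (.a (.f (nat_lit 494) (nat_lit 557) (nat_lit 5549) (.f (nat_lit 431) (nat_lit 399) (nat_lit 6542) (.f (nat_lit 461) (nat_lit 433) (nat_lit 1453) (.d (nat_lit 429) (nat_lit 460) (nat_lit 1452) (nat_lit 465) (nat_lit 429))))) (.f (nat_lit 527) (nat_lit 561) (nat_lit 525) (.d (nat_lit 559) (nat_lit 494) (nat_lit 4526) (nat_lit 524) (nat_lit 524))))))) (.a (.p (nat_lit 526) (.a (.f (nat_lit 527) (nat_lit 561) (nat_lit 525) (.d (nat_lit 557) (nat_lit 494) (nat_lit 5549) (nat_lit 556) (nat_lit 1548))) (.a (.f (nat_lit 527) (nat_lit 561) (nat_lit 525) (.f (nat_lit 524) (nat_lit 559) (nat_lit 524) (.d (nat_lit 556) (nat_lit 555) (nat_lit 1547) (nat_lit 557) (nat_lit 1548)))) (.a (.f (nat_lit 557) (nat_lit 494) (nat_lit 5549) (.f (nat_lit 461) (nat_lit 493) (nat_lit 6573) (.f (nat_lit 431) (nat_lit 433) (nat_lit 1453) (.d (nat_lit 429) (nat_lit 460) (nat_lit 1452) (nat_lit 465) (nat_lit 429))))) (.f (nat_lit 527) (nat_lit 561) (nat_lit 525) (.d (nat_lit 559) (nat_lit 494) (nat_lit 4526) (nat_lit 524) (nat_lit 524))))))) (.a (.p (nat_lit 526) (.a (.f (nat_lit 527) (nat_lit 561) (nat_lit 525) (.d (nat_lit 557) (nat_lit 494) (nat_lit 5549) (nat_lit 556) (nat_lit 1548))) (.a (.f (nat_lit 527) (nat_lit 561) (nat_lit 525) (.f (nat_lit 524) (nat_lit 559) (nat_lit 524) (.d (nat_lit 556) (nat_lit 555) (nat_lit 1547) (nat_lit 557) (nat_lit 1548)))) (.a (.f (nat_lit 494) (nat_lit 557) (nat_lit 5549) (.f (nat_lit 431) (nat_lit 399) (nat_lit 6542) (.f (nat_lit 433) (nat_lit 461) (nat_lit 1453) (.f (nat_lit 466) (nat_lit 465) (nat_lit 430) (.f (nat_lit 434) (nat_lit 467) (nat_lit 431) (.d (nat_lit 402) (nat_lit 401) (nat_lit 2446) (nat_lit 403) (nat_lit 2447))))))) (.f (nat_lit 527) (nat_lit 561) (nat_lit 525) (.d (nat_lit 559) (nat_lit 494) (nat_lit 4526) (nat_lit 524) (nat_lit 524))))))) (.a (.p (nat_lit 493) (.a (.f (nat_lit 557) (nat_lit 461) (nat_lit 6573) (.d (nat_lit 494) (nat_lit 398) (nat_lit 5517) (nat_lit 526) (nat_lit 5549))) (.a (.f (nat_lit 557) (nat_lit 461) (nat_lit 6573) (.d (nat_lit 494) (nat_lit 526) (nat_lit 5549) (nat_lit 589) (nat_lit 6605))) (.a (.f (nat_lit 494) (nat_lit 398) (nat_lit 5517) (.d (nat_lit 557) (nat_lit 526) (nat_lit 5549) (nat_lit 589) (nat_lit 6605))) (.a (.f (nat_lit 461) (nat_lit 557) (nat_lit 6573) (.d (nat_lit 398) (nat_lit 366) (nat_lit 5485) (nat_lit 429) (nat_lit 6541))) (.f (nat_lit 398) (nat_lit 494) (nat_lit 5517) (.d (nat_lit 461) (nat_lit 366) (nat_lit 5485) (nat_lit 429) (nat_lit 6541)))))))) (.a (.p (nat_lit 526) (.a (.f (nat_lit 527) (nat_lit 561) (nat_lit 525) (.d (nat_lit 557) (nat_lit 494) (nat_lit 5549) (nat_lit 556) (nat_lit 1548))) (.a (.f (nat_lit 527) (nat_lit 561) (nat_lit 525) (.f (nat_lit 524) (nat_lit 559) (nat_lit 524) (.d (nat_lit 556) (nat_lit 555) (nat_lit 1547) (nat_lit 557) (nat_lit 1548)))) (.a (.f (nat_lit 494) (nat_lit 557) (nat_lit 5549) (.f (nat_lit 431) (nat_lit 399) (nat_lit 6542) (.f (nat_lit 465) (nat_lit 429) (nat_lit 429) (.d (nat_lit 466) (nat_lit 433) (nat_lit 430) (nat_lit 467) (nat_lit 3503))))) (.f (nat_lit 527) (nat_lit 561) (nat_lit 525) (.d (nat_lit 559) (nat_lit 494) (nat_lit 4526) (nat_lit 524) (nat_lit 524))))))) (.p (nat_lit 431) (.a (.f (nat_lit 461) (nat_lit 433) (nat_lit 1453) (.d (nat_lit 429) (nat_lit 460) (nat_lit 1452) (nat_lit 465) (nat_lit 429))) (.a (.f (nat_lit 433) (nat_lit 461) (nat_lit 1453) (.f (nat_lit 465) (nat_lit 466) (nat_lit 430) (.f (nat_lit 401) (nat_lit 402) (nat_lit 2446) (.f (nat_lit 369) (nat_lit 337) (nat_lit 5456) (.f (nat_lit 368) (nat_lit 336) (nat_lit 7504) (.f (nat_lit 400) (nat_lit 497) (nat_lit 4464) (.f (nat_lit 370) (nat_lit 338) (nat_lit 6481) (.d (nat_lit 399) (nat_lit 371) (nat_lit 1391) (nat_lit 398) (nat_lit 2414))))))))) (.a (.f (nat_lit 429) (nat_lit 465) (nat_lit 429) (.f (nat_lit 461) (nat_lit 460) (nat_lit 1452) (.f (nat_lit 493) (nat_lit 398) (nat_lit 6541) (.f (nat_lit 526) (nat_lit 558) (nat_lit 4525) (.d (nat_lit 527) (nat_lit 492) (nat_lit 3564) (nat_lit 561) (nat_lit 525)))))) (.a (.f (nat_lit 465) (nat_lit 429) (nat_lit 429) (.d (nat_lit 466) (nat_lit 433) (nat_lit 430) (nat_lit 467) (nat_lit 3503))) (.f (nat_lit 461) (nat_lit 433) (nat_lit 1453) (.d (nat_lit 460) (nat_lit 429) (nat_lit 1452) (nat_lit 459) (nat_lit 2475))))))))))))))) (.a s69358 (.a s69359 (.a s69428 (.a (.p (nat_lit 494) (.a (.p (nat_lit 525) (.a (.f (nat_lit 526) (nat_lit 557) (nat_lit 5549) (.d (nat_lit 527) (nat_lit 559) (nat_lit 4526) (nat_lit 561) (nat_lit 525))) (.a (.f (nat_lit 493) (nat_lit 398) (nat_lit 5517) (.d (nat_lit 557) (nat_lit 461) (nat_lit 6573) (nat_lit 589) (nat_lit 6605))) (.f (nat_lit 398) (nat_lit 493) (nat_lit 5517) (.f (nat_lit 527) (nat_lit 495) (nat_lit 4494) (.d (nat_lit 526) (nat_lit 559) (nat_lit 4526) (nat_lit 561) (nat_lit 525))))))) (.a (.p (nat_lit 526) (.a (.f (nat_lit 527) (nat_lit 559) (nat_lit 4526) (.d (nat_lit 525) (nat_lit 557) (nat_lit 5549) (nat_lit 561) (nat_lit 525))) (.a (.f (nat_lit 559) (nat_lit 527) (nat_lit 4526) (.f (nat_lit 558) (nat_lit 591) (nat_lit 4558) (.d (nat_lit 429) (nat_lit 397) (nat_lit 7565) (nat_lit 461) (nat_lit 7597)))) (.f (nat_lit 429) (nat_lit 397) (nat_lit 7565) (.f (nat_lit 558) (nat_lit 461) (nat_lit 7597) (.d (nat_lit 557) (nat_lit 525) (nat_lit 5549) (nat_lit 589) (nat_lit 5581))))))) (.a (.p (nat_lit 398) (.a (.f (nat_lit 527) (nat_lit 495) (nat_lit 4494) (.f (nat_lit 526) (nat_lit 559) (nat_lit 4526) (.d (nat_lit 525) (nat_lit 493) (nat_lit 5517) (nat_lit 561) (nat_lit 525)))) (.a (.f (nat_lit 527) (nat_lit 495) (nat_lit 4494) (.f (nat_lit 526) (nat_lit 559) (nat_lit 4526) (.d (nat_lit 525) (nat_lit 557) (nat_lit 5549) (nat_lit 561) (nat_lit 525)))) (.f (nat_lit 367) (nat_lit 399) (nat_lit 6510) (.f (nat_lit 366) (nat_lit 335) (nat_lit 6478) (.d (nat_lit 365) (nat_lit 333) (nat_lit 7501) (nat_lit 397) (nat_lit 7533))))))) (.a (.p (nat_lit 398) (.a (.f (nat_lit 367) (nat_lit 399) (nat_lit 6510) (.f (nat_lit 366) (nat_lit 335) (nat_lit 6478) (.d (nat_lit 365) (nat_lit 333) (nat_lit 7501) (nat_lit 397) (nat_lit 7533)))) (.a (.f (nat_lit 527) (nat_lit 495) (nat_lit 4494) (.f (nat_lit 526) (nat_lit 559) (nat_lit 4526) (.f (nat_lit 429) (nat_lit 397) (nat_lit 7565) (.f (nat_lit 461) (nat_lit 558) (nat_lit 7597) (.d (nat_lit 366) (nat_lit 334) (nat_lit 5453) (nat_lit 493) (nat_lit 5485)))))) (.a (.f (nat_lit 397) (nat_lit 365) (nat_lit 7533) (.f (nat_lit 399) (nat_lit 367) (nat_lit 6510) (.f (nat_lit 400) (nat_lit 433) (nat_lit 397) (.d (nat_lit 429) (nat_lit 401) (nat_lit 1421) (nat_lit 526) (nat_lit 7565))))) (.f (nat_lit 527) (nat_lit 495) (nat_lit 4494) (.f (nat_lit 526) (nat_lit 559) (nat_lit 4526) (.f (nat_lit 367) (nat_lit 399) (nat_lit 6510) (.f (nat_lit 366) (nat_lit 335) (nat_lit 6478) (.f (nat_lit 461) (nat_lit 493) (nat_lit 5485) (.d (nat_lit 429) (nat_lit 334) (nat_lit 5453) (nat_lit 558) (nat_lit 7597))))))))))) (.p (nat_lit 398) (.a (.f (nat_lit 367) (nat_lit 399) (nat_lit 6510) (.f (nat_lit 366) (nat_lit 335) (nat_lit 6478) (.d (nat_lit 493) (nat_lit 461) (nat_lit 5485) (nat_lit 525) (nat_lit 5517)))) (.a (.f (nat_lit 493) (nat_lit 525) (nat_lit 5517) (.f (nat_lit 366) (nat_lit 461) (nat_lit 5485) (.d (nat_lit 365) (nat_lit 333) (nat_lit 7501) (nat_lit 397) (nat_lit 7533)))) (.f (nat_lit 397) (nat_lit 365) (nat_lit 7533) (.f (nat_lit 399) (nat_lit 367) (nat_lit 6510) (.f (nat_lit 400) (nat_lit 433) (nat_lit 397) (.f (nat_lit 369) (nat_lit 368) (nat_lit 2413) (.d (nat_lit 401) (nat_lit 370) (nat_lit 2414) (nat_lit 429) (nat_lit 1421)))))))))))))) (.a (.p (nat_lit 494) (.a (.p (nat_lit 525) (.a (.f (nat_lit 526) (nat_lit 557) (nat_lit 5549) (.d (nat_lit 527) (nat_lit 559) (nat_lit 4526) (nat_lit 561) (nat_lit 525))) (.a (.f (nat_lit 493) (nat_lit 398) (nat_lit 5517) (.d (nat_lit 557) (nat_lit 461) (nat_lit 6573) (nat_lit 589) (nat_lit 6605))) (.f (nat_lit 398) (nat_lit 493) (nat_lit 5517) (.f (nat_lit 527) (nat_lit 495) (nat_lit 4494) (.d (nat_lit 526) (nat_lit 559) (nat_lit 4526) (nat_lit 561) (nat_lit 525))))))) (.a (.p (nat_lit 526) (.a (.f (nat_lit 527) (nat_lit 559) (nat_lit 4526) (.d (nat_lit 525) (nat_lit 557) (nat_lit 5549) (nat_lit 561) (nat_lit 525))) (.a (.f (nat_lit 559) (nat_lit 527) (nat_lit 4526) (.f (nat_lit 558) (nat_lit 591) (nat_lit 4558) (.d (nat_lit 429) (nat_lit 397) (nat_lit 7565) (nat_lit 461) (nat_lit 7597)))) (.f (nat_lit 429) (nat_lit 397) (nat_lit 7565) (.f (nat_lit 558) (nat_lit 461) (nat_lit 7597) (.d (nat_lit 557) (nat_lit 525) (nat_lit 5549) (nat_lit 589) (nat_lit 5581))))))) (.a (.p (nat_lit 526) (.a (.f (nat_lit 527) (nat_lit 559) (nat_lit 4526) (.d (nat_lit 525) (nat_lit 557) (nat_lit 5549) (nat_lit 561) (nat_lit 525))) (.a (.f (nat_lit 527) (nat_lit 559) (nat_lit 4526) (.f (nat_lit 398) (nat_lit 495) (nat_lit 4494) (.d (nat_lit 399) (nat_lit 367) (nat_lit 6510) (nat_lit 431) (nat_lit 6542)))) (.f (nat_lit 431) (nat_lit 399) (nat_lit 6542) (.d (nat_lit 429) (nat_lit 397) (nat_lit 7565) (nat_lit 465) (nat_lit 429)))))) (.a s69471 (.p (nat_lit 398) (.a (.f (nat_lit 367) (nat_lit 399) (nat_lit 6510) (.f (nat_lit 366) (nat_lit 335) (nat_lit 6478) (.d (nat_lit 493) (nat_lit 461) (nat_lit 5485) (nat_lit 525) (nat_lit 5517)))) (.a (.f (nat_lit 493) (nat_lit 525) (nat_lit 5517) (.f (nat_lit 366) (nat_lit 461) (nat_lit 5485) (.d (nat_lit 365) (nat_lit 333) (nat_lit 7501) (nat_lit 397) (nat_lit 7533)))) (.f (nat_lit 397) (nat_lit 365) (nat_lit 7533) (.f (nat_lit 399) (nat_lit 367) (nat_lit 6510) (.f (nat_lit 396) (nat_lit 431) (nat_lit 396) (.f (nat_lit 363) (nat_lit 364) (nat_lit 3435) (.f (nat_lit 395) (nat_lit 362) (nat_lit 3434) (.f (nat_lit 426) (nat_lit 427) (nat_lit 1418) (.d (nat_lit 394) (nat_lit 425) (nat_lit 1417) (nat_lit 429) (nat_lit 394)))))))))))))))) (.a (.p (nat_lit 431) (.a (.f (nat_lit 429) (nat_lit 465) (nat_lit 429) (.f (nat_lit 397) (nat_lit 396) (nat_lit 3468) (.f (nat_lit 398) (nat_lit 433) (nat_lit 3469) (.d (nat_lit 494) (nat_lit 365) (nat_lit 7533) (nat_lit 526) (nat_lit 7565))))) (.a s68826 (.a (.f (nat_lit 465) (nat_lit 429) (nat_lit 429) (.d (nat_lit 466) (nat_lit 433) (nat_lit 430) (nat_lit 467) (nat_lit 3503))) (.a (.f (nat_lit 429) (nat_lit 465) (nat_lit 429) (.f (nat_lit 397) (nat_lit 396) (nat_lit 3468) (.f (nat_lit 494) (nat_lit 526) (nat_lit 7565) (.d (nat_lit 365) (nat_lit 333) (nat_lit 4429) (nat_lit 398) (nat_lit 7533))))) s69491))))) (.p (nat_lit 431) (.a (.f (nat_lit 429) (nat_lit 465) (nat_lit 429) (.d (nat_lit 461) (nat_lit 433) (nat_lit 1453) (nat_lit 460) (nat_lit 1452))) (.a (.f (nat_lit 433) (nat_lit 461) (nat_lit 1453) (.f (nat_lit 398) (nat_lit 397) (nat_lit 3469) (.f (nat_lit 434) (nat_lit 399) (nat_lit 3470) (.d (nat_lit 402) (nat_lit 401) (nat_lit 2446) (nat_lit 403) (nat_lit 2447))))) (.a (.f (nat_lit 429) (nat_lit 465) (nat_lit 429) (.f (nat_lit 461) (nat_lit 460) (nat_lit 1452) (.f (nat_lit 397) (nat_lit 396) (nat_lit 3468) (.f (nat_lit 365) (nat_lit 333) (nat_lit 4429) (.f (nat_lit 366) (nat_lit 334) (nat_lit 6477) (.f (nat_lit 398) (nat_lit 493) (nat_lit 5485) (.f (nat_lit 400) (nat_lit 401) (nat_lit 2445) (.d (nat_lit 364) (nat_lit 332) (nat_lit 7500) (nat_lit 399) (nat_lit 3436))))))))) (.f (nat_lit 465) (nat_lit 429) (nat_lit 429) (.d (nat_lit 466) (nat_lit 433) (nat_lit 430) (nat_lit 467) (nat_lit 3503)))))))))))))))))))) (.a (.p (nat_lit 494) (.a (.p (nat_lit 398) (.a (.f (nat_lit 527) (nat_lit 495) (nat_lit 4494) (.f (nat_lit 526) (nat_lit 559) (nat_lit 4526) (.d (nat_lit 525) (nat_lit 493) (nat_lit 5517) (nat_lit 561) (nat_lit 525)))) (.a (.f (nat_lit 527) (nat_lit 495) (nat_lit 4494) (.f (nat_lit 526) (nat_lit 559) (nat_lit 4526) (.d (nat_lit 525) (nat_lit 557) (nat_lit 5549) (nat_lit 561) (nat_lit 525)))) (.f (nat_lit 365) (nat_lit 397) (nat_lit 7533) (.f (nat_lit 366) (nat_lit 333) (nat_lit 7501) (.d (nat_lit 367) (nat_lit 335) (nat_lit 6478) (nat_lit 399) (nat_lit 6510))))))) (.a (.p (nat_lit 526) (.a (.f (nat_lit 527) (nat_lit 559) (nat_lit 4526) (.d (nat_lit 525) (nat_lit 557) (nat_lit 5549) (nat_lit 561) (nat_lit 525))) (.a (.f (nat_lit 527) (nat_lit 559) (nat_lit 4526) (.f (nat_lit 398) (nat_lit 495) (nat_lit 4494) (.d (nat_lit 399) (nat_lit 367) (nat_lit 6510) (nat_lit 431) (nat_lit 6542)))) (.f (nat_lit 525) (nat_lit 557) (nat_lit 5549) (.f (nat_lit 398) (nat_lit 493) (nat_lit 5517) (.d (nat_lit 399) (nat_lit 367) (nat_lit 6510) (nat_lit 431) (nat_lit 6542))))))) (.a (.p (nat_lit 525) (.a (.f (nat_lit 526) (nat_lit 557) (nat_lit 5549) (.d (nat_lit 527) (nat_lit 559) (nat_lit 4526) (nat_lit 561) (nat_lit 525))) (.a (.f (nat_lit 493) (nat_lit 398) (nat_lit 5517) (.d (nat_lit 557) (nat_lit 461) (nat_lit 6573) (nat_lit 589) (nat_lit 6605))) (.f (nat_lit 398) (nat_lit 493) (nat_lit 5517) (.f (nat_lit 527) (nat_lit 495) (nat_lit 4494) (.d (nat_lit 526) (nat_lit 559) (nat_lit 4526) (nat_lit 561) (nat_lit 525))))))) (.a (.p (nat_lit 526) (.a (.f (nat_lit 527) (nat_lit 559) (nat_lit 4526) (.d (nat_lit 525) (nat_lit 557) (nat_lit 5549) (nat_lit 561) (nat_lit 525))) (.a (.f (nat_lit 559) (nat_lit 527) (nat_lit 4526) (.f (nat_lit 558) (nat_lit 591) (nat_lit 4558) (.f (nat_lit 589) (nat_lit 557) (nat_lit 5581) (.d (nat_lit 590) (nat_lit 561) (nat_lit 1581) (nat_lit 621) (nat_lit 5613))))) (.a s70463 (.a (.f (nat_lit 527) (nat_lit 559) (nat_lit 4526) (.f (nat_lit 525) (nat_lit 561) (nat_lit 525) (.f (nat_lit 492) (nat_lit 493) (nat_lit 3564) (.f (nat_lit 524) (nat_lit 491) (nat_lit 3563) (.f (nat_lit 523) (nat_lit 495) (nat_lit 2539) (.d (nat_lit 555) (nat_lit 554) (nat_lit 1546) (nat_lit 556) (nat_lit 1547))))))) (.a (.f (nat_lit 525) (nat_lit 557) (nat_lit 5549) (.f (nat_lit 527) (nat_lit 561) (nat_lit 525) (.f (nat_lit 492) (nat_lit 493) (nat_lit 3564) (.f (nat_lit 524) (nat_lit 491) (nat_lit 3563) (.f (nat_lit 523) (nat_lit 495) (nat_lit 2539) (.d (nat_lit 555) (nat_lit 554) (nat_lit 1546) (nat_lit 556) (nat_lit 1547))))))) (.f (nat_lit 525) (nat_lit 557) (nat_lit 5549) (.f (nat_lit 527) (nat_lit 559) (nat_lit 4526) (.f (nat_lit 492) (nat_lit 493) (nat_lit 3564) (.f (nat_lit 524) (nat_lit 491) (nat_lit 3563) (.f (nat_lit 523) (nat_lit 495) (nat_lit 2539) (.d (nat_lit 555) (nat_lit 554) (nat_lit 1546) (nat_lit 556) (nat_lit 1547))))))))))))) (.a (.p (nat_lit 398) (.a (.f (nat_lit 527) (nat_lit 495) (nat_lit 4494) (.f (nat_lit 526) (nat_lit 559) (nat_lit 4526) (.d (nat_lit 525) (nat_lit 557) (nat_lit 5549) (nat_lit 561) (nat_lit 525)))) (.f (nat_lit 365) (nat_lit 397) (nat_lit 7533) (.f (nat_lit 366) (nat_lit 333) (nat_lit 7501) (.d (nat_lit 367) (nat_lit 335) (nat_lit 6478) (nat_lit 399) (nat_lit 6510)))))) (.a s67837 (.a (.p (nat_lit 398) (.a (.f (nat_lit 365) (nat_lit 397) (nat_lit 7533) (.f (nat_lit 366) (nat_lit 333) (nat_lit 7501) (.d (nat_lit 367) (nat_lit 335) (nat_lit 6478) (nat_lit 399) (nat_lit 6510)))) (.a (.f (nat_lit 527) (nat_lit 495) (nat_lit 4494) (.f (nat_lit 526) (nat_lit 559) (nat_lit 4526) (.d (nat_lit 399) (nat_lit 367) (nat_lit 6510) (nat_lit 431) (nat_lit 6542)))) (.a (.p (nat_lit 459) (.a (.f (nat_lit 495) (nat_lit 527) (nat_lit 4494) (.f (nat_lit 461) (nat_lit 460) (nat_lit 459) (.f (nat_lit 366) (nat_lit 493) (nat_lit 5485) (.d (nat_lit 365) (nat_lit 333) (nat_lit 7501) (nat_lit 397) (nat_lit 7533))))) (.a s71822 (.a s71829 (.a (.p (nat_lit 491) (.a (.f (nat_lit 527) (nat_lit 495) (nat_lit 4494) (.f (nat_lit 526) (nat_lit 559) (nat_lit 4526) (.f (nat_lit 493) (nat_lit 492) (nat_lit 491) (.f (nat_lit 461) (nat_lit 366) (nat_lit 5485) (.d (nat_lit 460) (nat_lit 431) (nat_lit 2475) (nat_lit 458) (nat_lit 458)))))) (.a s71601 (.a (.f (nat_lit 527) (nat_lit 495) (nat_lit 4494) (.f (nat_lit 526) (nat_lit 559) (nat_lit 4526) (.f (nat_lit 493) (nat_lit 492) (nat_lit 491) (.f (nat_lit 461) (nat_lit 366) (nat_lit 5485) (.d (nat_lit 460) (nat_lit 431) (nat_lit 2475) (nat_lit 490) (nat_lit 1482)))))) (.a s72925 (.a (.p (nat_lit 523) (.a (.p (nat_lit 427) (.a (.f (nat_lit 522) (nat_lit 554) (nat_lit 5546) (.f (nat_lit 492) (nat_lit 493) (nat_lit 1514) (.d (nat_lit 395) (nat_lit 490) (nat_lit 5514) (nat_lit 524) (nat_lit 4491)))) (.a (.f (nat_lit 556) (nat_lit 524) (nat_lit 4523) (.f (nat_lit 555) (nat_lit 588) (nat_lit 4555) (.d (nat_lit 426) (nat_lit 394) (nat_lit 7562) (nat_lit 458) (nat_lit 7594)))) (.f (nat_lit 522) (nat_lit 554) (nat_lit 5546) (.f (nat_lit 395) (nat_lit 490) (nat_lit 5514) (.d (nat_lit 396) (nat_lit 364) (nat_lit 6507) (nat_lit 428) (nat_lit 6539))))))) (.a (.p (nat_lit 555) (.a (.f (nat_lit 458) (nat_lit 426) (nat_lit 7594) (.f (nat_lit 492) (nat_lit 493) (nat_lit 3530) (.d (nat_lit 460) (nat_lit 428) (nat_lit 6571) (nat_lit 587) (nat_lit 6603)))) (.f (nat_lit 556) (nat_lit 588) (nat_lit 4555) (.f (nat_lit 554) (nat_lit 586) (nat_lit 5578) (.d (nat_lit 427) (nat_lit 522) (nat_lit 5546) (nat_lit 524) (nat_lit 4523)))))) (.a (.p (nat_lit 555) (.a (.f (nat_lit 556) (nat_lit 588) (nat_lit 4555) (.f (nat_lit 554) (nat_lit 586) (nat_lit 5578) (.d (nat_lit 427) (nat_lit 522) (nat_lit 5546) (nat_lit 524) (nat_lit 4523)))) (.f (nat_lit 460) (nat_lit 428) (nat_lit 6571) (.f (nat_lit 492) (nat_lit 587) (nat_lit 6603) (.d (nat_lit 495) (nat_lit 493) (nat_lit 3531) (nat_lit 527) (nat_lit 4494)))))) (.a s71716 (.a (.p (nat_lit 555) (.a (.f (nat_lit 556) (nat_lit 588) (nat_lit 4555) (.f (nat_lit 554) (nat_lit 586) (nat_lit 5578) (.d (nat_lit 427) (nat_lit 522) (nat_lit 5546) (nat_lit 524) (nat_lit 4523)))) (.f (nat_lit 458) (nat_lit 426) (nat_lit 7594) (.f (nat_lit 492) (nat_lit 493) (nat_lit 3530) (.d (nat_lit 587) (nat_lit 460) (nat_lit 6603) (nat_lit 490) (nat_lit 7626)))))) (.a (.p (nat_lit 427) (.a (.f (nat_lit 556) (nat_lit 524) (nat_lit 4523) (.f (nat_lit 555) (nat_lit 588) (nat_lit 4555) (.d (nat_lit 426) (nat_lit 394) (nat_lit 7562) (nat_lit 458) (nat_lit 7594)))) (.f (nat_lit 522) (nat_lit 554) (nat_lit 5546) (.f (nat_lit 395) (nat_lit 490) (nat_lit 5514) (.d (nat_lit 396) (nat_lit 364) (nat_lit 6507) (nat_lit 428) (nat_lit 6539)))))) (.a s71721 (.a (.p (nat_lit 427) (.a (.f (nat_lit 556) (nat_lit 524) (nat_lit 4523) (.f (nat_lit 555) (nat_lit 588) (nat_lit 4555) (.d (nat_lit 426) (nat_lit 394) (nat_lit 7562) (nat_lit 458) (nat_lit 7594)))) (.a (.f (nat_lit 396) (nat_lit 428) (nat_lit 6539) (.f (nat_lit 395) (nat_lit 364) (nat_lit 6507) (.d (nat_lit 524) (nat_lit 492) (nat_lit 4491) (nat_lit 556) (nat_lit 4523)))) (.f (nat_lit 428) (nat_lit 396) (nat_lit 6539) (.f (nat_lit 555) (nat_lit 460) (nat_lit 6571) (.d (nat_lit 426) (nat_lit 394) (nat_lit 7562) (nat_lit 458) (nat_lit 7594))))))) (.a s71674 s71689)))))))))) (.a (.p (nat_lit 427) (.a s71739 (.a s71750 (.a (.p (nat_lit 523) (.a (.f (nat_lit 556) (nat_lit 524) (nat_lit 4523) (.f (nat_lit 555) (nat_lit 588) (nat_lit 4555) (.d (nat_lit 426) (nat_lit 394) (nat_lit 7562) (nat_lit 458) (nat_lit 7594)))) (.f (nat_lit 522) (nat_lit 554) (nat_lit 5546) (.f (nat_lit 395) (nat_lit 490) (nat_lit 5514) (.d (nat_lit 396) (nat_lit 364) (nat_lit 6507) (nat_lit 428) (nat_lit 6539)))))) (.a s71766 (.a (.f (nat_lit 527) (nat_lit 495) (nat_lit 4494) (.f (nat_lit 526) (nat_lit 559) (nat_lit 4526) (.f (nat_lit 431) (nat_lit 399) (nat_lit 6542) (.f (nat_lit 461) (nat_lit 460) (nat_lit 2475) (.f (nat_lit 493) (nat_lit 366) (nat_lit 5485) (.f (nat_lit 558) (nat_lit 590) (nat_lit 7629) (.f (nat_lit 557) (nat_lit 589) (nat_lit 5581) (.f (nat_lit 556) (nat_lit 555) (nat_lit 2571) (.f (nat_lit 523) (nat_lit 524) (nat_lit 4523) (.f (nat_lit 522) (nat_lit 554) (nat_lit 5546) (.f (nat_lit 395) (nat_lit 490) (nat_lit 5514) (.d (nat_lit 396) (nat_lit 364) (nat_lit 6507) (nat_lit 428) (nat_lit 6539))))))))))))) (.a (.f (nat_lit 527) (nat_lit 495) (nat_lit 4494) (.f (nat_lit 526) (nat_lit 559) (nat_lit 4526) (.f (nat_lit 431) (nat_lit 399) (nat_lit 6542) (.f (nat_lit 461) (nat_lit 460) (nat_lit 2475) (.f (nat_lit 493) (nat_lit 366) (nat_lit 5485) (.f (nat_lit 558) (nat_lit 590) (nat_lit 7629) (.f (nat_lit 557) (nat_lit 589) (nat_lit 5581) (.f (nat_lit 556) (nat_lit 555) (nat_lit 2571) (.f (nat_lit 523) (nat_lit 524) (nat_lit 4523) (.f (nat_lit 394) (nat_lit 426) (nat_lit 7562) (.f (nat_lit 395) (nat_lit 362) (nat_lit 7530) (.d (nat_lit 396) (nat_lit 364) (nat_lit 6507) (nat_lit 428) (nat_lit 6539))))))))))))) (.p (nat_lit 364) (.a (.f (nat_lit 395) (nat_lit 396) (nat_lit 6507) (.f (nat_lit 363) (nat_lit 332) (nat_lit 6475) (.d (nat_lit 490) (nat_lit 458) (nat_lit 5482) (nat_lit 522) (nat_lit 5514)))) (.a (.f (nat_lit 395) (nat_lit 396) (nat_lit 6507) (.f (nat_lit 490) (nat_lit 522) (nat_lit 5514) (.f (nat_lit 363) (nat_lit 458) (nat_lit 5482) (.d (nat_lit 362) (nat_lit 330) (nat_lit 7498) (nat_lit 394) (nat_lit 7530))))) (.a (.f (nat_lit 396) (nat_lit 395) (nat_lit 6507) (.d (nat_lit 428) (nat_lit 332) (nat_lit 5451) (nat_lit 460) (nat_lit 5483))) (.f (nat_lit 495) (nat_lit 527) (nat_lit 4494) (.f (nat_lit 461) (nat_lit 460) (nat_lit 459) (.f (nat_lit 366) (nat_lit 493) (nat_lit 5485) (.f (nat_lit 365) (nat_lit 333) (nat_lit 7501) (.f (nat_lit 363) (nat_lit 399) (nat_lit 363) (.f (nat_lit 330) (nat_lit 331) (nat_lit 3402) (.f (nat_lit 362) (nat_lit 329) (nat_lit 3401) (.d (nat_lit 394) (nat_lit 393) (nat_lit 1385) (nat_lit 426) (nat_lit 4426)))))))))))))))))))) (.a (.p (nat_lit 427) (.a (.p (nat_lit 523) (.a (.f (nat_lit 556) (nat_lit 524) (nat_lit 4523) (.f (nat_lit 555) (nat_lit 588) (nat_lit 4555) (.d (nat_lit 426) (nat_lit 394) (nat_lit 7562) (nat_lit 458) (nat_lit 7594)))) (.f (nat_lit 522) (nat_lit 554) (nat_lit 5546) (.f (nat_lit 395) (nat_lit 490) (nat_lit 5514) (.d (nat_lit 396) (nat_lit 364) (nat_lit 6507) (nat_lit 428) (nat_lit 6539)))))) (.a s71766 (.a (.p (nat_lit 523) (.a (.f (nat_lit 522) (nat_lit 554) (nat_lit 5546) (.f (nat_lit 395) (nat_lit 490) (nat_lit 5514) (.d (nat_lit 396) (nat_lit 364) (nat_lit 6507) (nat_lit 428) (nat_lit 6539)))) (.a (.f (nat_lit 554) (nat_lit 522) (nat_lit 5546) (.f (nat_lit 555) (nat_lit 586) (nat_lit 5578) (.d (nat_lit 556) (nat_lit 524) (nat_lit 4523) (nat_lit 588) (nat_lit 4555)))) (.f (nat_lit 396) (nat_lit 428) (nat_lit 6539) (.f (nat_lit 395) (nat_lit 364) (nat_lit 6507) (.d (nat_lit 524) (nat_lit 492) (nat_lit 4491) (nat_lit 556) (nat_lit 4523))))))) (.a s71809 (.a (.p (nat_lit 395) (.a (.f (nat_lit 490) (nat_lit 522) (nat_lit 5514) (.f (nat_lit 363) (nat_lit 458) (nat_lit 5482) (.d (nat_lit 362) (nat_lit 330) (nat_lit 7498) (nat_lit 394) (nat_lit 7530)))) (.a (.f (nat_lit 490) (nat_lit 522) (nat_lit 5514) (.f (nat_lit 460) (nat_lit 461) (nat_lit 1482) (.d (nat_lit 363) (nat_lit 458) (nat_lit 5482) (nat_lit 492) (nat_lit 4459)))) (.a (.f (nat_lit 394) (nat_lit 362) (nat_lit 7530) (.f (nat_lit 523) (nat_lit 426) (nat_lit 7562) (.d (nat_lit 522) (nat_lit 490) (nat_lit 5514) (nat_lit 554) (nat_lit 5546)))) (.f (nat_lit 492) (nat_lit 524) (nat_lit 4491) (.f (nat_lit 460) (nat_lit 363) (nat_lit 4459) (.d (nat_lit 461) (nat_lit 426) (nat_lit 3498) (nat_lit 495) (nat_lit 459)))))))) (.a (.p (nat_lit 523) (.a (.f (nat_lit 556) (nat_lit 524) (nat_lit 4523) (.f (nat_lit 555) (nat_lit 588) (nat_lit 4555) (.d (nat_lit 426) (nat_lit 394) (nat_lit 7562) (nat_lit 458) (nat_lit 7594)))) (.a (.f (nat_lit 396) (nat_lit 428) (nat_lit 6539) (.f (nat_lit 395) (nat_lit 364) (nat_lit 6507) (.d (nat_lit 524) (nat_lit 492) (nat_lit 4491) (nat_lit 556) (nat_lit 4523)))) (.f (nat_lit 426) (nat_lit 394) (nat_lit 7562) (.f (nat_lit 460) (nat_lit 461) (nat_lit 3498) (.d (nat_lit 428) (nat_lit 396) (nat_lit 6539) (nat_lit 555) (nat_lit 6571))))))) (.a (.p (nat_lit 395) (.a (.f (nat_lit 490) (nat_lit 522) (nat_lit 5514) (.f (nat_lit 363) (nat_lit 458) (nat_lit 5482) (.d (nat_lit 362) (nat_lit 330) (nat_lit 7498) (nat_lit 394) (nat_lit 7530)))) (.a (.f (nat_lit 490) (nat_lit 522) (nat_lit 5514) (.f (nat_lit 460) (nat_lit 461) (nat_lit 1482) (.d (nat_lit 363) (nat_lit 458) (nat_lit 5482) (nat_lit 492) (nat_lit 4459)))) (.a (.f (nat_lit 490) (nat_lit 522) (nat_lit 5514) (.f (nat_lit 460) (nat_lit 461) (nat_lit 1482) (.f (nat_lit 492) (nat_lit 524) (nat_lit 4491) (.f (nat_lit 489) (nat_lit 488) (nat_lit 2504) (.f (nat_lit 457) (nat_lit 456) (nat_lit 3528) (.f (nat_lit 521) (nat_lit 520) (nat_lit 1512) (.f (nat_lit 394) (nat_lit 362) (nat_lit 7530) (.d (nat_lit 426) (nat_lit 425) (nat_lit 6537) (nat_lit 458) (nat_lit 5513))))))))) (.f (nat_lit 492) (nat_lit 524) (nat_lit 4491) (.f (nat_lit 460) (nat_lit 363) (nat_lit 4459) (.d (nat_lit 461) (nat_lit 426) (nat_lit 3498) (nat_lit 495) (nat_lit 459)))))))) (.p (nat_lit 395) (.a (.f (nat_lit 396) (nat_lit 364) (nat_lit 6507) (.f (nat_lit 523) (nat_lit 428) (nat_lit 6539) (.d (nat_lit 522) (nat_lit 490) (nat_lit 5514) (nat_lit 554) (nat_lit 5546)))) (.a (.f (nat_lit 490) (nat_lit 522) (nat_lit 5514) (.f (nat_lit 363) (nat_lit 458) (nat_lit 5482) (.d (nat_lit 362) (nat_lit 330) (nat_lit 7498) (nat_lit 394) (nat_lit 7530)))) (.f (nat_lit 394) (nat_lit 362) (nat_lit 7530) (.f (nat_lit 523) (nat_lit 426) (nat_lit 7562) (.d (nat_lit 396) (nat_lit 364) (nat_lit 6507) (nat_lit 428) (nat_lit 6539))))))))))))))) (.p (nat_lit 461) (.a (.d (nat_lit 460) (nat_lit 431) (nat_lit 2475) (nat_lit 490) (nat_lit 1482)) (.a (.f (nat_lit 493) (nat_lit 366) (nat_lit 5485) (.d (nat_lit 458) (nat_lit 460) (nat_lit 458) (nat_lit 492) (nat_lit 3530))) (.f (nat_lit 493) (nat_lit 366) (nat_lit 5485) (.d (nat_lit 492) (nat_lit 458) (nat_lit 3530) (nat_lit 490) (nat_lit 2506)))))))))))))) (.a (.p (nat_lit 491) (.a s71690 (.a (.f (nat_lit 527) (nat_lit 495) (nat_lit 4494) (.f (nat_lit 526) (nat_lit 559) (nat_lit 4526) (.f (nat_lit 493) (nat_lit 492) (nat_lit 491) (.f (nat_lit 366) (nat_lit 461) (nat_lit 5485) (.d (nat_lit 365) (nat_lit 333) (nat_lit 7501) (nat_lit 397) (nat_lit 7533)))))) (.a s71874 (.a s72925 s71919))))) (.a (.p (nat_lit 492) (.a (.f (nat_lit 495) (nat_lit 527) (nat_lit 4494) (.f (nat_lit 493) (nat_lit 460) (nat_lit 3531) (.f (nat_lit 491) (nat_lit 458) (nat_lit 3530) (.d (nat_lit 523) (nat_lit 522) (nat_lit 1514) (nat_lit 524) (nat_lit 1515))))) (.a (.f (nat_lit 527) (nat_lit 495) (nat_lit 4494) (.f (nat_lit 526) (nat_lit 559) (nat_lit 4526) (.f (nat_lit 491) (nat_lit 493) (nat_lit 491) (.f (nat_lit 397) (nat_lit 365) (nat_lit 7533) (.f (nat_lit 431) (nat_lit 399) (nat_lit 6542) (.f (nat_lit 395) (nat_lit 396) (nat_lit 395) (.f (nat_lit 427) (nat_lit 524) (nat_lit 4491) (.f (nat_lit 363) (nat_lit 460) (nat_lit 4459) (.d (nat_lit 362) (nat_lit 330) (nat_lit 7498) (nat_lit 394) (nat_lit 7530)))))))))) (.a (.f (nat_lit 527) (nat_lit 495) (nat_lit 4494) (.f (nat_lit 526) (nat_lit 559) (nat_lit 4526) (.f (nat_lit 491) (nat_lit 493) (nat_lit 491) (.f (nat_lit 397) (nat_lit 365) (nat_lit 7533) (.f (nat_lit 431) (nat_lit 399) (nat_lit 6542) (.f (nat_lit 395) (nat_lit 396) (nat_lit 395) (.f (nat_lit 427) (nat_lit 524) (nat_lit 4491) (.f (nat_lit 490) (nat_lit 522) (nat_lit 5514) (.f (nat_lit 458) (nat_lit 363) (nat_lit 5482) (.f (nat_lit 394) (nat_lit 362) (nat_lit 7530) (.f (nat_lit 426) (nat_lit 523) (nat_lit 4490) (.f (nat_lit 393) (nat_lit 361) (nat_lit 7529) (.d (nat_lit 392) (nat_lit 391) (nat_lit 391) (nat_lit 428) (nat_lit 392)))))))))))))) (.a (.p (nat_lit 431) (.a (.f (nat_lit 397) (nat_lit 365) (nat_lit 7533) (.f (nat_lit 399) (nat_lit 526) (nat_lit 6542) (.d (nat_lit 432) (nat_lit 396) (nat_lit 396) (nat_lit 433) (nat_lit 3469)))) (.a (.f (nat_lit 527) (nat_lit 495) (nat_lit 4494) (.d (nat_lit 526) (nat_lit 399) (nat_lit 6542) (nat_lit 559) (nat_lit 4526))) (.f (nat_lit 495) (nat_lit 527) (nat_lit 4494) (.f (nat_lit 397) (nat_lit 365) (nat_lit 7533) (.f (nat_lit 460) (nat_lit 493) (nat_lit 3531) (.f (nat_lit 395) (nat_lit 396) (nat_lit 395) (.f (nat_lit 427) (nat_lit 363) (nat_lit 4459) (.d (nat_lit 524) (nat_lit 428) (nat_lit 7563) (nat_lit 556) (nat_lit 7595)))))))))) (.a (.p (nat_lit 395) (.a (.f (nat_lit 397) (nat_lit 365) (nat_lit 7533) (.f (nat_lit 396) (nat_lit 431) (nat_lit 395) (.f (nat_lit 427) (nat_lit 426) (nat_lit 1418) (.d (nat_lit 363) (nat_lit 362) (nat_lit 3434) (nat_lit 460) (nat_lit 4459))))) (.a (.f (nat_lit 397) (nat_lit 365) (nat_lit 7533) (.f (nat_lit 396) (nat_lit 431) (nat_lit 395) (.f (nat_lit 427) (nat_lit 426) (nat_lit 1418) (.d (nat_lit 491) (nat_lit 364) (nat_lit 6507) (nat_lit 524) (nat_lit 4491))))) (.a (.p (nat_lit 427) (.a (.f (nat_lit 491) (nat_lit 524) (nat_lit 4491) (.f (nat_lit 396) (nat_lit 364) (nat_lit 6507) (.d (nat_lit 397) (nat_lit 426) (nat_lit 1418) (nat_lit 431) (nat_lit 395)))) (.a (.f (nat_lit 363) (nat_lit 460) (nat_lit 4459) (.f (nat_lit 491) (nat_lit 524) (nat_lit 4491) (.d (nat_lit 490) (nat_lit 458) (nat_lit 5482) (nat_lit 522) (nat_lit 5514)))) (.f (nat_lit 363) (nat_lit 460) (nat_lit 4459) (.f (nat_lit 458) (nat_lit 490) (nat_lit 5482) (.f (nat_lit 331) (nat_lit 426) (nat_lit 5450) (.d (nat_lit 332) (nat_lit 300) (nat_lit 6443) (nat_lit 364) (nat_lit 6475)))))))) (.a (.f (nat_lit 527) (nat_lit 495) (nat_lit 4494) (.f (nat_lit 526) (nat_lit 559) (nat_lit 4526) (.f (nat_lit 365) (nat_lit 397) (nat_lit 7533) (.f (nat_lit 366) (nat_lit 333) (nat_lit 7501) (.f (nat_lit 399) (nat_lit 431) (nat_lit 6542) (.f (nat_lit 363) (nat_lit 364) (nat_lit 363) (.f (nat_lit 427) (nat_lit 460) (nat_lit 4459) (.f (nat_lit 491) (nat_lit 524) (nat_lit 4491) (.d (nat_lit 490) (nat_lit 458) (nat_lit 5482) (nat_lit 522) (nat_lit 5514)))))))))) (.a s71997 (.f (nat_lit 397) (nat_lit 365) (nat_lit 7533) (.f (nat_lit 431) (nat_lit 396) (nat_lit 395) (.f (nat_lit 527) (nat_lit 495) (nat_lit 4494) (.d (nat_lit 526) (nat_lit 399) (nat_lit 6542) (nat_lit 559) (nat_lit 4526))))))))))) (.a (.p (nat_lit 395) (.a (.f (nat_lit 397) (nat_lit 365) (nat_lit 7533) (.f (nat_lit 396) (nat_lit 431) (nat_lit 395) (.f (nat_lit 427) (nat_lit 426) (nat_lit 1418) (.d (nat_lit 363) (nat_lit 362) (nat_lit 3434) (nat_lit 460) (nat_lit 4459))))) (.a (.f (nat_lit 397) (nat_lit 365) (nat_lit 7533) (.f (nat_lit 396) (nat_lit 431) (nat_lit 395) (.f (nat_lit 427) (nat_lit 426) (nat_lit 1418) (.d (nat_lit 491) (nat_lit 364) (nat_lit 6507) (nat_lit 524) (nat_lit 4491))))) (.a (.p (nat_lit 427) (.a (.f (nat_lit 491) (nat_lit 524) (nat_lit 4491) (.f (nat_lit 396) (nat_lit 364) (nat_lit 6507) (.d (nat_lit 397) (nat_lit 426) (nat_lit 1418) (nat_lit 431) (nat_lit 395)))) (.a (.f (nat_lit 363) (nat_lit 460) (nat_lit 4459) (.f (nat_lit 491) (nat_lit 524) (nat_lit 4491) (.d (nat_lit 490) (nat_lit 458) (nat_lit 5482) (nat_lit 522) (nat_lit 5514)))) (.f (nat_lit 363) (nat_lit 460) (nat_lit 4459) (.f (nat_lit 458) (nat_lit 490) (nat_lit 5482) (.f (nat_lit 331) (nat_lit 426) (nat_lit 5450) (.d (nat_lit 332) (nat_lit 300) (nat_lit 6443) (nat_lit 364) (nat_lit 6475)))))))) (.a (.p (nat_lit 427) (.a (.f (nat_lit 363) (nat_lit 460) (nat_lit 4459) (.f (nat_lit 491) (nat_lit 524) (nat_lit 4491) (.d (nat_lit 490) (nat_lit 458) (nat_lit 5482) (nat_lit 522) (nat_lit 5514)))) (.a (.f (nat_lit 491) (nat_lit 524) (nat_lit 4491) (.f (nat_lit 522) (nat_lit 490) (nat_lit 5514) (.d (nat_lit 493) (nat_lit 458) (nat_lit 3530) (nat_lit 523) (nat_lit 1514)))) (.a (.f (nat_lit 491) (nat_lit 524) (nat_lit 4491) (.f (nat_lit 363) (nat_lit 460) (nat_lit 4459) (.d (nat_lit 362) (nat_lit 330) (nat_lit 7498) (nat_lit 394) (nat_lit 7530)))) (.f (nat_lit 363) (nat_lit 460) (nat_lit 4459) (.f (nat_lit 458) (nat_lit 490) (nat_lit 5482) (.f (nat_lit 331) (nat_lit 426) (nat_lit 5450) (.d (nat_lit 332) (nat_lit 300) (nat_lit 6443) (nat_lit 364) (nat_lit 6475))))))))) (.a (.f (nat_lit 397) (nat_lit 365) (nat_lit 7533) (.f (nat_lit 396) (nat_lit 431) (nat_lit 395) (.f (nat_lit 363) (nat_lit 362) (nat_lit 3434) (.d (nat_lit 460) (nat_lit 427) (nat_lit 4459) (nat_lit 428) (nat_lit 7531))))) (.f (nat_lit 397) (nat_lit 365) (nat_lit 7533) (.f (nat_lit 431) (nat_lit 396) (nat_lit 395) (.f (nat_lit 526) (nat_lit 399) (nat_lit 6542) (.f (nat_lit 559) (nat_lit 527) (nat_lit 4526) (.f (nat_lit 558) (nat_lit 591) (nat_lit 4558) (.f (nat_lit 589) (nat_lit 557) (nat_lit 5581) (.d (nat_lit 590) (nat_lit 561) (nat_lit 1581) (nat_lit 621) (nat_lit 5613)))))))))))))) (.a (.p (nat_lit 493) (.a (.d (nat_lit 495) (nat_lit 460) (nat_lit 3531) (nat_lit 527) (nat_lit 492)) (.a (.f (nat_lit 527) (nat_lit 495) (nat_lit 492) (.d (nat_lit 491) (nat_lit 458) (nat_lit 3530) (nat_lit 526) (nat_lit 491))) (.a (.f (nat_lit 491) (nat_lit 458) (nat_lit 3530) (.f (nat_lit 523) (nat_lit 522) (nat_lit 1514) (.f (nat_lit 526) (nat_lit 527) (nat_lit 491) (.f (nat_lit 397) (nat_lit 365) (nat_lit 7533) (.f (nat_lit 431) (nat_lit 399) (nat_lit 6542) (.f (nat_lit 396) (nat_lit 395) (nat_lit 395) (.d (nat_lit 428) (nat_lit 427) (nat_lit 6539) (nat_lit 460) (nat_lit 5515)))))))) (.f (nat_lit 491) (nat_lit 458) (nat_lit 3530) (.f (nat_lit 523) (nat_lit 522) (nat_lit 1514) (.f (nat_lit 460) (nat_lit 495) (nat_lit 3531) (.d (nat_lit 428) (nat_lit 396) (nat_lit 5515) (nat_lit 555) (nat_lit 6571))))))))) (.p (nat_lit 493) (.a (.f (nat_lit 491) (nat_lit 458) (nat_lit 3530) (.f (nat_lit 523) (nat_lit 522) (nat_lit 1514) (.f (nat_lit 460) (nat_lit 495) (nat_lit 3531) (.d (nat_lit 428) (nat_lit 396) (nat_lit 5515) (nat_lit 555) (nat_lit 6571))))) (.a (.f (nat_lit 491) (nat_lit 458) (nat_lit 3530) (.f (nat_lit 523) (nat_lit 522) (nat_lit 1514) (.d (nat_lit 495) (nat_lit 460) (nat_lit 3531) (nat_lit 524) (nat_lit 1515)))) (.a (.p (nat_lit 395) (.a (.f (nat_lit 397) (nat_lit 365) (nat_lit 7533) (.f (nat_lit 396) (nat_lit 431) (nat_lit 395) (.f (nat_lit 427) (nat_lit 426) (nat_lit 1418) (.d (nat_lit 363) (nat_lit 362) (nat_lit 3434) (nat_lit 460) (nat_lit 4459))))) (.a (.f (nat_lit 460) (nat_lit 495) (nat_lit 3531) (.f (nat_lit 427) (nat_lit 363) (nat_lit 4459) (.d (nat_lit 524) (nat_lit 428) (nat_lit 7563) (nat_lit 491) (nat_lit 4491)))) (.a (.f (nat_lit 397) (nat_lit 365) (nat_lit 7533) (.f (nat_lit 396) (nat_lit 431) (nat_lit 395) (.f (nat_lit 427) (nat_lit 426) (nat_lit 1418) (.d (nat_lit 491) (nat_lit 364) (nat_lit 6507) (nat_lit 524) (nat_lit 4491))))) (.f (nat_lit 397) (nat_lit 365) (nat_lit 7533) (.f (nat_lit 396) (nat_lit 431) (nat_lit 395) (.f (nat_lit 363) (nat_lit 362) (nat_lit 3434) (.d (nat_lit 460) (nat_lit 428) (nat_lit 7531) (nat_lit 495) (nat_lit 3531))))))))) (.a (.f (nat_lit 491) (nat_lit 458) (nat_lit 3530) (.f (nat_lit 523) (nat_lit 522) (nat_lit 1514) (.f (nat_lit 524) (nat_lit 495) (nat_lit 1515) (.d (nat_lit 427) (nat_lit 395) (nat_lit 4491) (nat_lit 556) (nat_lit 4523))))) (.a (.p (nat_lit 395) (.a (.f (nat_lit 397) (nat_lit 365) (nat_lit 7533) (.f (nat_lit 396) (nat_lit 431) (nat_lit 395) (.f (nat_lit 427) (nat_lit 426) (nat_lit 1418) (.d (nat_lit 363) (nat_lit 362) (nat_lit 3434) (nat_lit 460) (nat_lit 4459))))) (.a (.f (nat_lit 460) (nat_lit 495) (nat_lit 3531) (.f (nat_lit 427) (nat_lit 363) (nat_lit 4459) (.d (nat_lit 524) (nat_lit 428) (nat_lit 7563) (nat_lit 556) (nat_lit 7595)))) (.a (.f (nat_lit 397) (nat_lit 365) (nat_lit 7533) (.f (nat_lit 396) (nat_lit 431) (nat_lit 395) (.f (nat_lit 427) (nat_lit 426) (nat_lit 1418) (.f (nat_lit 460) (nat_lit 495) (nat_lit 3531) (.d (nat_lit 428) (nat_lit 399) (nat_lit 1419) (nat_lit 524) (nat_lit 7563)))))) (.a (.f (nat_lit 397) (nat_lit 365) (nat_lit 7533) (.f (nat_lit 396) (nat_lit 431) (nat_lit 395) (.f (nat_lit 363) (nat_lit 362) (nat_lit 3434) (.d (nat_lit 460) (nat_lit 428) (nat_lit 7531) (nat_lit 495) (nat_lit 3531))))) (.f (nat_lit 397) (nat_lit 365) (nat_lit 7533) (.f (nat_lit 396) (nat_lit 431) (nat_lit 395) (.f (nat_lit 427) (nat_lit 426) (nat_lit 1418) (.f (nat_lit 363) (nat_lit 362) (nat_lit 3434) (.d (nat_lit 399) (nat_lit 364) (nat_lit 3435) (nat_lit 428) (nat_lit 1419))))))))))) (.f (nat_lit 491) (nat_lit 458) (nat_lit 3530) (.f (nat_lit 522) (nat_lit 523) (nat_lit 1514) (.f (nat_lit 490) (nat_lit 521) (nat_lit 1513) (.f (nat_lit 395) (nat_lit 427) (nat_lit 5514) (.f (nat_lit 397) (nat_lit 365) (nat_lit 7533) (.f (nat_lit 396) (nat_lit 431) (nat_lit 395) (.f (nat_lit 362) (nat_lit 363) (nat_lit 3434) (.f (nat_lit 394) (nat_lit 361) (nat_lit 3433) (.f (nat_lit 425) (nat_lit 426) (nat_lit 1417) (.f (nat_lit 393) (nat_lit 424) (nat_lit 1416) (.f (nat_lit 489) (nat_lit 457) (nat_lit 4489) (.f (nat_lit 488) (nat_lit 460) (nat_lit 2504) (.f (nat_lit 519) (nat_lit 520) (nat_lit 1511) (.f (nat_lit 487) (nat_lit 518) (nat_lit 1510) (.d (nat_lit 455) (nat_lit 454) (nat_lit 3526) (nat_lit 456) (nat_lit 3527)))))))))))))))))))))))))))))) (.a (.f (nat_lit 397) (nat_lit 365) (nat_lit 7533) (.p (nat_lit 396) (.a (.f (nat_lit 431) (nat_lit 395) (nat_lit 395) (.d (nat_lit 432) (nat_lit 399) (nat_lit 396) (nat_lit 433) (nat_lit 3469))) (.a (.p (nat_lit 399) (.a (.d (nat_lit 431) (nat_lit 432) (nat_lit 396) (nat_lit 526) (nat_lit 6542)) (.f (nat_lit 495) (nat_lit 527) (nat_lit 4494) (.f (nat_lit 428) (nat_lit 427) (nat_lit 1419) (.f (nat_lit 364) (nat_lit 363) (nat_lit 3435) (.d (nat_lit 460) (nat_lit 461) (nat_lit 459) (nat_lit 491) (nat_lit 5483))))))) (.a (.f (nat_lit 395) (nat_lit 431) (nat_lit 395) (.f (nat_lit 427) (nat_lit 426) (nat_lit 1418) (.f (nat_lit 363) (nat_lit 362) (nat_lit 3434) (.d (nat_lit 364) (nat_lit 332) (nat_lit 6475) (nat_lit 491) (nat_lit 6507))))) (.p (nat_lit 427) (.a (.f (nat_lit 395) (nat_lit 426) (nat_lit 1418) (.f (nat_lit 363) (nat_lit 362) (nat_lit 3434) (.d (nat_lit 399) (nat_lit 364) (nat_lit 3435) (nat_lit 428) (nat_lit 1419)))) (.a (.f (nat_lit 428) (nat_lit 399) (nat_lit 1419) (.d (nat_lit 426) (nat_lit 395) (nat_lit 1418) (nat_lit 425) (nat_lit 2441))) (.a (.f (nat_lit 428) (nat_lit 399) (nat_lit 1419) (.f (nat_lit 491) (nat_lit 523) (nat_lit 6539) (.d (nat_lit 364) (nat_lit 332) (nat_lit 5451) (nat_lit 460) (nat_lit 5483)))) (.f (nat_lit 395) (nat_lit 426) (nat_lit 1418) (.f (nat_lit 363) (nat_lit 362) (nat_lit 3434) (.d (nat_lit 364) (nat_lit 332) (nat_lit 6475) (nat_lit 491) (nat_lit 6507))))))))))))) (.f (nat_lit 365) (nat_lit 397) (nat_lit 7533) (.f (nat_lit 366) (nat_lit 333) (nat_lit 7501) (.f (nat_lit 461) (nat_lit 493) (nat_lit 5485) (.f (nat_lit 460) (nat_lit 431) (nat_lit 2475) (.f (nat_lit 490) (nat_lit 491) (nat_lit 1482) (.f (nat_lit 458) (nat_lit 489) (nat_lit 1481) (.d (nat_lit 426) (nat_lit 425) (nat_lit 3497) (nat_lit 427) (nat_lit 3498)))))))))))))))) s72088)))) (.a (.p (nat_lit 398) (.a (.f (nat_lit 365) (nat_lit 397) (nat_lit 7533) (.f (nat_lit 366) (nat_lit 333) (nat_lit 7501) (.d (nat_lit 367) (nat_lit 335) (nat_lit 6478) (nat_lit 399) (nat_lit 6510)))) (.a (.f (nat_lit 493) (nat_lit 525) (nat_lit 5517) (.f (nat_lit 366) (nat_lit 461) (nat_lit 5485) (.d (nat_lit 367) (nat_lit 335) (nat_lit 6478) (nat_lit 399) (nat_lit 6510)))) (.a (.f (nat_lit 493) (nat_lit 525) (nat_lit 5517) (.f (nat_lit 365) (nat_lit 397) (nat_lit 7533) (.d (nat_lit 366) (nat_lit 333) (nat_lit 7501) (nat_lit 461) (nat_lit 5485)))) (.f (nat_lit 397) (nat_lit 365) (nat_lit 7533) (.p (nat_lit 396) (.a (.f (nat_lit 399) (nat_lit 367) (nat_lit 6510) (.f (nat_lit 395) (nat_lit 431) (nat_lit 395) (.d (nat_lit 427) (nat_lit 426) (nat_lit 1418) (nat_lit 428) (nat_lit 1419)))) (.a (.f (nat_lit 395) (nat_lit 431) (nat_lit 395) (.f (nat_lit 427) (nat_lit 426) (nat_lit 1418) (.f (nat_lit 363) (nat_lit 362) (nat_lit 3434) (.d (nat_lit 399) (nat_lit 364) (nat_lit 3435) (nat_lit 428) (nat_lit 1419))))) (.a (.f (nat_lit 399) (nat_lit 367) (nat_lit 6510) (.f (nat_lit 495) (nat_lit 527) (nat_lit 4494) (.f (nat_lit 493) (nat_lit 525) (nat_lit 5517) (.f (nat_lit 364) (nat_lit 363) (nat_lit 3435) (.f (nat_lit 428) (nat_lit 427) (nat_lit 1419) (.f (nat_lit 460) (nat_lit 461) (nat_lit 4460) (.d (nat_lit 459) (nat_lit 491) (nat_lit 5483) (nat_lit 492) (nat_lit 3531)))))))) (.a (.f (nat_lit 395) (nat_lit 431) (nat_lit 395) (.f (nat_lit 426) (nat_lit 427) (nat_lit 1418) (.f (nat_lit 394) (nat_lit 425) (nat_lit 1417) (.d (nat_lit 362) (nat_lit 361) (nat_lit 3433) (nat_lit 363) (nat_lit 3434))))) (.f (nat_lit 399) (nat_lit 367) (nat_lit 6510) (.f (nat_lit 395) (nat_lit 431) (nat_lit 395) (.d (nat_lit 363) (nat_lit 362) (nat_lit 3434) (nat_lit 364) (nat_lit 3435)))))))))))))) (.p (nat_lit 398) (.a (.f (nat_lit 365) (nat_lit 397) (nat_lit 7533) (.f (nat_lit 366) (nat_lit 333) (nat_lit 7501) (.d (nat_lit 367) (nat_lit 335) (nat_lit 6478) (nat_lit 399) (nat_lit 6510)))) (.a (.f (nat_lit 493) (nat_lit 525) (nat_lit 5517) (.f (nat_lit 366) (nat_lit 461) (nat_lit 5485) (.d (nat_lit 367) (nat_lit 335) (nat_lit 6478) (nat_lit 399) (nat_lit 6510)))) (.a (.f (nat_lit 493) (nat_lit 525) (nat_lit 5517) (.f (nat_lit 365) (nat_lit 397) (nat_lit 7533) (.d (nat_lit 366) (nat_lit 333) (nat_lit 7501) (nat_lit 461) (nat_lit 5485)))) (.f (nat_lit 525) (nat_lit 493) (nat_lit 5517) (.f (nat_lit 526) (nat_lit 557) (nat_lit 5549) (.d (nat_lit 399) (nat_lit 367) (nat_lit 6510) (nat_lit 431) (nat_lit 6542))))))))))))))))) (.a (.p (nat_lit 398) (.a s68369 (.a (.p (nat_lit 494) (.a (.f (nat_lit 527) (nat_lit 495) (nat_lit 4494) (.f (nat_lit 526) (nat_lit 559) (nat_lit 4526) (.d (nat_lit 525) (nat_lit 493) (nat_lit 5517) (nat_lit 561) (nat_lit 525)))) (.a (.f (nat_lit 527) (nat_lit 495) (nat_lit 4494) (.f (nat_lit 526) (nat_lit 559) (nat_lit 4526) (.d (nat_lit 525) (nat_lit 557) (nat_lit 5549) (nat_lit 561) (nat_lit 525)))) (.a (.f (nat_lit 397) (nat_lit 365) (nat_lit 7533) (.f (nat_lit 429) (nat_lit 526) (nat_lit 7565) (.f (nat_lit 399) (nat_lit 367) (nat_lit 6510) (.d (nat_lit 428) (nat_lit 400) (nat_lit 1420) (nat_lit 427) (nat_lit 2443))))) (.f (nat_lit 365) (nat_lit 397) (nat_lit 7533) (.f (nat_lit 366) (nat_lit 333) (nat_lit 7501) (.d (nat_lit 367) (nat_lit 335) (nat_lit 6478) (nat_lit 399) (nat_lit 6510)))))))) (.a (.p (nat_lit 494) (.a (.f (nat_lit 527) (nat_lit 495) (nat_lit 4494) (.f (nat_lit 526) (nat_lit 559) (nat_lit 4526) (.d (nat_lit 525) (nat_lit 493) (nat_lit 5517) (nat_lit 561) (nat_lit 525)))) (.a (.f (nat_lit 527) (nat_lit 495) (nat_lit 4494) (.f (nat_lit 526) (nat_lit 559) (nat_lit 4526) (.d (nat_lit 525) (nat_lit 557) (nat_lit 5549) (nat_lit 561) (nat_lit 525)))) (.a (.f (nat_lit 397) (nat_lit 365) (nat_lit 7533) (.f (nat_lit 429) (nat_lit 526) (nat_lit 7565) (.f (nat_lit 399) (nat_lit 367) (nat_lit 6510) (.d (nat_lit 428) (nat_lit 400) (nat_lit 1420) (nat_lit 427) (nat_lit 2443))))) (.f (nat_lit 493) (nat_lit 525) (nat_lit 5517) (.f (nat_lit 366) (nat_lit 461) (nat_lit 5485) (.d (nat_lit 367) (nat_lit 335) (nat_lit 6478) (nat_lit 399) (nat_lit 6510)))))))) (.a (.p (nat_lit 494) (.a (.f (nat_lit 527) (nat_lit 495) (nat_lit 4494) (.f (nat_lit 526) (nat_lit 559) (nat_lit 4526) (.d (nat_lit 525) (nat_lit 493) (nat_lit 5517) (nat_lit 561) (nat_lit 525)))) (.a (.f (nat_lit 527) (nat_lit 495) (nat_lit 4494) (.f (nat_lit 526) (nat_lit 559) (nat_lit 4526) (.d (nat_lit 525) (nat_lit 557) (nat_lit 5549) (nat_lit 561) (nat_lit 525)))) (.a (.f (nat_lit 397) (nat_lit 365) (nat_lit 7533) (.f (nat_lit 429) (nat_lit 526) (nat_lit 7565) (.f (nat_lit 399) (nat_lit 367) (nat_lit 6510) (.d (nat_lit 428) (nat_lit 400) (nat_lit 1420) (nat_lit 427) (nat_lit 2443))))) (.f (nat_lit 493) (nat_lit 525) (nat_lit 5517) (.f (nat_lit 365) (nat_lit 397) (nat_lit 7533) (.d (nat_lit 366) (nat_lit 333) (nat_lit 7501) (nat_lit 461) (nat_lit 5485)))))))) (.a (.p (nat_lit 494) (.a (.f (nat_lit 527) (nat_lit 495) (nat_lit 4494) (.f (nat_lit 526) (nat_lit 559) (nat_lit 4526) (.d (nat_lit 525) (nat_lit 493) (nat_lit 5517) (nat_lit 561) (nat_lit 525)))) (.a (.f (nat_lit 527) (nat_lit 495) (nat_lit 4494) (.f (nat_lit 526) (nat_lit 559) (nat_lit 4526) (.d (nat_lit 525) (nat_lit 557) (nat_lit 5549) (nat_lit 561) (nat_lit 525)))) (.a (.f (nat_lit 493) (nat_lit 525) (nat_lit 5517) (.f (nat_lit 366) (nat_lit 461) (nat_lit 5485) (.d (nat_lit 367) (nat_lit 335) (nat_lit 6478) (nat_lit 399) (nat_lit 6510)))) (.f (nat_lit 527) (nat_lit 495) (nat_lit 4494) (.f (nat_lit 526) (nat_lit 559) (nat_lit 4526) (.f (nat_lit 429) (nat_lit 397) (nat_lit 7565) (.f (nat_lit 461) (nat_lit 558) (nat_lit 7597) (.d (nat_lit 366) (nat_lit 334) (nat_lit 5453) (nat_lit 493) (nat_lit 5485)))))))))) (.a (.p (nat_lit 494) (.a (.f (nat_lit 527) (nat_lit 495) (nat_lit 4494) (.f (nat_lit 526) (nat_lit 559) (nat_lit 4526) (.d (nat_lit 525) (nat_lit 493) (nat_lit 5517) (nat_lit 561) (nat_lit 525)))) (.a (.f (nat_lit 527) (nat_lit 495) (nat_lit 4494) (.f (nat_lit 526) (nat_lit 559) (nat_lit 4526) (.d (nat_lit 525) (nat_lit 557) (nat_lit 5549) (nat_lit 561) (nat_lit 525)))) (.a (.f (nat_lit 397) (nat_lit 365) (nat_lit 7533) (.f (nat_lit 429) (nat_lit 526) (nat_lit 7565) (.f (nat_lit 399) (nat_lit 367) (nat_lit 6510) (.d (nat_lit 428) (nat_lit 400) (nat_lit 1420) (nat_lit 427) (nat_lit 2443))))) (.f (nat_lit 399) (nat_lit 367) (nat_lit 6510) (.p (nat_lit 400) (.a (.f (nat_lit 397) (nat_lit 365) (nat_lit 7533) (.d (nat_lit 429) (nat_lit 401) (nat_lit 1421) (nat_lit 428) (nat_lit 1420))) (.a (.f (nat_lit 401) (nat_lit 429) (nat_lit 1421) (.f (nat_lit 433) (nat_lit 434) (nat_lit 398) (.f (nat_lit 432) (nat_lit 397) (nat_lit 397) (.d (nat_lit 369) (nat_lit 337) (nat_lit 5456) (nat_lit 370) (nat_lit 2414))))) (.a (.f (nat_lit 401) (nat_lit 429) (nat_lit 1421) (.f (nat_lit 433) (nat_lit 434) (nat_lit 398) (.f (nat_lit 369) (nat_lit 370) (nat_lit 2414) (.f (nat_lit 337) (nat_lit 432) (nat_lit 5456) (.f (nat_lit 336) (nat_lit 304) (nat_lit 7472) (.f (nat_lit 368) (nat_lit 465) (nat_lit 7504) (.f (nat_lit 305) (nat_lit 273) (nat_lit 5392) (.d (nat_lit 306) (nat_lit 274) (nat_lit 6417) (nat_lit 338) (nat_lit 6449))))))))) (.a (.f (nat_lit 397) (nat_lit 365) (nat_lit 7533) (.f (nat_lit 428) (nat_lit 429) (nat_lit 1420) (.f (nat_lit 396) (nat_lit 427) (nat_lit 1419) (.f (nat_lit 363) (nat_lit 364) (nat_lit 3435) (.f (nat_lit 395) (nat_lit 362) (nat_lit 3434) (.f (nat_lit 493) (nat_lit 525) (nat_lit 5517) (.f (nat_lit 492) (nat_lit 460) (nat_lit 7531) (.f (nat_lit 495) (nat_lit 527) (nat_lit 4494) (.f (nat_lit 523) (nat_lit 524) (nat_lit 1515) (.f (nat_lit 491) (nat_lit 522) (nat_lit 1514) (.f (nat_lit 490) (nat_lit 461) (nat_lit 2506) (.d (nat_lit 458) (nat_lit 457) (nat_lit 3529) (nat_lit 459) (nat_lit 3530))))))))))))) (.f (nat_lit 397) (nat_lit 365) (nat_lit 7533) (.f (nat_lit 433) (nat_lit 432) (nat_lit 397) (.f (nat_lit 401) (nat_lit 434) (nat_lit 398) (.d (nat_lit 369) (nat_lit 368) (nat_lit 2413) (nat_lit 370) (nat_lit 2414))))))))))))))) (.a (.p (nat_lit 494) (.a (.f (nat_lit 527) (nat_lit 495) (nat_lit 4494) (.f (nat_lit 526) (nat_lit 559) (nat_lit 4526) (.d (nat_lit 525) (nat_lit 493) (nat_lit 5517) (nat_lit 561) (nat_lit 525)))) (.a (.f (nat_lit 527) (nat_lit 495) (nat_lit 4494) (.f (nat_lit 526) (nat_lit 559) (nat_lit 4526) (.d (nat_lit 525) (nat_lit 557) (nat_lit 5549) (nat_lit 561) (nat_lit 525)))) (.a (.f (nat_lit 493) (nat_lit 525) (nat_lit 5517) (.f (nat_lit 365) (nat_lit 397) (nat_lit 7533) (.d (nat_lit 366) (nat_lit 333) (nat_lit 7501) (nat_lit 461) (nat_lit 5485)))) (.f (nat_lit 397) (nat_lit 365) (nat_lit 7533) (.f (nat_lit 526) (nat_lit 429) (nat_lit 7565) (.d (nat_lit 527) (nat_lit 495) (nat_lit 4494) (nat_lit 559) (nat_lit 4526)))))))) (.a (.p (nat_lit 366) (.a (.f (nat_lit 461) (nat_lit 493) (nat_lit 5485) (.f (nat_lit 334) (nat_lit 429) (nat_lit 5453) (.d (nat_lit 335) (nat_lit 303) (nat_lit 6446) (nat_lit 367) (nat_lit 6478)))) (.a (.f (nat_lit 365) (nat_lit 333) (nat_lit 7501) (.f (nat_lit 367) (nat_lit 335) (nat_lit 6478) (.f (nat_lit 399) (nat_lit 494) (nat_lit 6510) (.d (nat_lit 364) (nat_lit 363) (nat_lit 363) (nat_lit 400) (nat_lit 364))))) (.f (nat_lit 461) (nat_lit 493) (nat_lit 5485) (.f (nat_lit 334) (nat_lit 429) (nat_lit 5453) (.d (nat_lit 333) (nat_lit 301) (nat_lit 7469) (nat_lit 365) (nat_lit 7501))))))) (.a (.p (nat_lit 494) (.a (.f (nat_lit 527) (nat_lit 495) (nat_lit 4494) (.f (nat_lit 526) (nat_lit 559) (nat_lit 4526) (.d (nat_lit 525) (nat_lit 493) (nat_lit 5517) (nat_lit 561) (nat_lit 525)))) (.a (.f (nat_lit 527) (nat_lit 495) (nat_lit 4494) (.f (nat_lit 526) (nat_lit 559) (nat_lit 4526) (.d (nat_lit 525) (nat_lit 557) (nat_lit 5549) (nat_lit 561) (nat_lit 525)))) (.f (nat_lit 365) (nat_lit 397) (nat_lit 7533) (.f (nat_lit 366) (nat_lit 333) (nat_lit 7501) (.d (nat_lit 367) (nat_lit 335) (nat_lit 6478) (nat_lit 399) (nat_lit 6510))))))) (.a (.p (nat_lit 494) (.a (.f (nat_lit 527) (nat_lit 495) (nat_lit 4494) (.f (nat_lit 526) (nat_lit 559) (nat_lit 4526) (.d (nat_lit 525) (nat_lit 557) (nat_lit 5549) (nat_lit 561) (nat_lit 525)))) (.a (.f (nat_lit 397) (nat_lit 365) (nat_lit 7533) (.f (nat_lit 429) (nat_lit 526) (nat_lit 7565) (.f (nat_lit 399) (nat_lit 367) (nat_lit 6510) (.d (nat_lit 428) (nat_lit 400) (nat_lit 1420) (nat_lit 427) (nat_lit 2443))))) (.f (nat_lit 365) (nat_lit 397) (nat_lit 7533) (.f (nat_lit 366) (nat_lit 333) (nat_lit 7501) (.d (nat_lit 367) (nat_lit 335) (nat_lit 6478) (nat_lit 399) (nat_lit 6510))))))) s73214))))))))))) (.a s78698 (.a (.p (nat_lit 429) (.a (.p (nat_lit 431) (.a (.f (nat_lit 432) (nat_lit 465) (nat_lit 429) (.d (nat_lit 461) (nat_lit 433) (nat_lit 1453) (nat_lit 460) (nat_lit 1452))) (.a (.p (nat_lit 428) (.a (.f (nat_lit 399) (nat_lit 400) (nat_lit 2444) (.f (nat_lit 427) (nat_lit 398) (nat_lit 2443) (.d (nat_lit 459) (nat_lit 458) (nat_lit 1450) (nat_lit 460) (nat_lit 1451)))) (.a (.f (nat_lit 459) (nat_lit 460) (nat_lit 1451) (.f (nat_lit 427) (nat_lit 458) (nat_lit 1450) (.d (nat_lit 395) (nat_lit 394) (nat_lit 3466) (nat_lit 396) (nat_lit 3467)))) (.f (nat_lit 399) (nat_lit 400) (nat_lit 2444) (.f (nat_lit 494) (nat_lit 526) (nat_lit 6542) (.d (nat_lit 367) (nat_lit 335) (nat_lit 5454) (nat_lit 398) (nat_lit 6510))))))) (.f (nat_lit 432) (nat_lit 465) (nat_lit 429) (.f (nat_lit 397) (nat_lit 396) (nat_lit 3468) (.d (nat_lit 433) (nat_lit 398) (nat_lit 3469) (nat_lit 461) (nat_lit 1453))))))) (.a (.p (nat_lit 431) (.a (.f (nat_lit 432) (nat_lit 465) (nat_lit 429) (.d (nat_lit 461) (nat_lit 433) (nat_lit 1453) (nat_lit 460) (nat_lit 1452))) (.a (.p (nat_lit 428) (.a (.f (nat_lit 399) (nat_lit 400) (nat_lit 2444) (.f (nat_lit 427) (nat_lit 398) (nat_lit 2443) (.d (nat_lit 459) (nat_lit 458) (nat_lit 1450) (nat_lit 460) (nat_lit 1451)))) (.a (.f (nat_lit 459) (nat_lit 460) (nat_lit 1451) (.f (nat_lit 427) (nat_lit 458) (nat_lit 1450) (.d (nat_lit 395) (nat_lit 394) (nat_lit 3466) (nat_lit 396) (nat_lit 3467)))) (.f (nat_lit 396) (nat_lit 395) (nat_lit 3467) (.f (nat_lit 399) (nat_lit 400) (nat_lit 2444) (.f (nat_lit 494) (nat_lit 526) (nat_lit 6542) (.f (nat_lit 398) (nat_lit 367) (nat_lit 6510) (.f (nat_lit 397) (nat_lit 365) (nat_lit 7533) (.f (nat_lit 364) (nat_lit 363) (nat_lit 3435) (.d (nat_lit 332) (nat_lit 300) (nat_lit 4396) (nat_lit 461) (nat_lit 4428))))))))))) (.a (.f (nat_lit 432) (nat_lit 465) (nat_lit 429) (.f (nat_lit 397) (nat_lit 396) (nat_lit 3468) (.d (nat_lit 433) (nat_lit 398) (nat_lit 3469) (nat_lit 461) (nat_lit 1453)))) (.f (nat_lit 432) (nat_lit 465) (nat_lit 429) (.f (nat_lit 397) (nat_lit 396) (nat_lit 3468) (.f (nat_lit 398) (nat_lit 433) (nat_lit 3469) (.d (nat_lit 494) (nat_lit 365) (nat_lit 7533) (nat_lit 526) (nat_lit 7565))))))))) (.a (.p (nat_lit 431) (.a (.f (nat_lit 432) (nat_lit 465) (nat_lit 429) (.d (nat_lit 461) (nat_lit 433) (nat_lit 1453) (nat_lit 460) (nat_lit 1452))) (.a (.p (nat_lit 428) (.a (.f (nat_lit 399) (nat_lit 400) (nat_lit 2444) (.f (nat_lit 427) (nat_lit 398) (nat_lit 2443) (.d (nat_lit 459) (nat_lit 458) (nat_lit 1450) (nat_lit 460) (nat_lit 1451)))) (.a (.f (nat_lit 459) (nat_lit 460) (nat_lit 1451) (.f (nat_lit 427) (nat_lit 458) (nat_lit 1450) (.d (nat_lit 395) (nat_lit 394) (nat_lit 3466) (nat_lit 396) (nat_lit 3467)))) (.a (.p (nat_lit 365) (.a (.f (nat_lit 397) (nat_lit 333) (nat_lit 4429) (.d (nat_lit 494) (nat_lit 461) (nat_lit 4461) (nat_lit 526) (nat_lit 7565))) (.a (.f (nat_lit 460) (nat_lit 459) (nat_lit 1451) (.f (nat_lit 396) (nat_lit 395) (nat_lit 3467) (.f (nat_lit 397) (nat_lit 492) (nat_lit 6508) (.d (nat_lit 494) (nat_lit 461) (nat_lit 4461) (nat_lit 526) (nat_lit 7565))))) (.a (.f (nat_lit 460) (nat_lit 459) (nat_lit 1451) (.f (nat_lit 396) (nat_lit 395) (nat_lit 3467) (.f (nat_lit 364) (nat_lit 333) (nat_lit 6476) (.f (nat_lit 331) (nat_lit 363) (nat_lit 7499) (.d (nat_lit 332) (nat_lit 299) (nat_lit 7467) (nat_lit 461) (nat_lit 4428)))))) (.f (nat_lit 397) (nat_lit 333) (nat_lit 4429) (.d (nat_lit 494) (nat_lit 398) (nat_lit 7533) (nat_lit 526) (nat_lit 7565))))))) (.f (nat_lit 399) (nat_lit 400) (nat_lit 2444) (.f (nat_lit 427) (nat_lit 398) (nat_lit 2443) (.d (nat_lit 395) (nat_lit 394) (nat_lit 3466) (nat_lit 396) (nat_lit 3467)))))))) (.a (.f (nat_lit 432) (nat_lit 465) (nat_lit 429) (.f (nat_lit 397) (nat_lit 396) (nat_lit 3468) (.d (nat_lit 433) (nat_lit 398) (nat_lit 3469) (nat_lit 461) (nat_lit 1453)))) (.f (nat_lit 432) (nat_lit 465) (nat_lit 429) (.f (nat_lit 397) (nat_lit 396) (nat_lit 3468) (.f (nat_lit 398) (nat_lit 433) (nat_lit 3469) (.d (nat_lit 494) (nat_lit 365) (nat_lit 7533) (nat_lit 526) (nat_lit 7565))))))))) (.a (.p (nat_lit 431) (.a (.f (nat_lit 432) (nat_lit 465) (nat_lit 429) (.d (nat_lit 461) (nat_lit 433) (nat_lit 1453) (nat_lit 460) (nat_lit 1452))) (.a (.p (nat_lit 399) (.a (.f (nat_lit 494) (nat_lit 526) (nat_lit 6542) (.d (nat_lit 367) (nat_lit 335) (nat_lit 5454) (nat_lit 398) (nat_lit 6510))) (.a (.f (nat_lit 494) (nat_lit 526) (nat_lit 6542) (.f (nat_lit 398) (nat_lit 367) (nat_lit 6510) (.d (nat_lit 400) (nat_lit 401) (nat_lit 1421) (nat_lit 428) (nat_lit 2444)))) (.a (.f (nat_lit 428) (nat_lit 400) (nat_lit 2444) (.f (nat_lit 494) (nat_lit 526) (nat_lit 6542) (.f (nat_lit 398) (nat_lit 427) (nat_lit 2443) (.f (nat_lit 397) (nat_lit 365) (nat_lit 7533) (.f (nat_lit 396) (nat_lit 395) (nat_lit 3467) (.f (nat_lit 364) (nat_lit 363) (nat_lit 3435) (.d (nat_lit 332) (nat_lit 300) (nat_lit 4396) (nat_lit 461) (nat_lit 4428)))))))) (.f (nat_lit 428) (nat_lit 400) (nat_lit 2444) (.f (nat_lit 459) (nat_lit 460) (nat_lit 1451) (.f (nat_lit 427) (nat_lit 458) (nat_lit 1450) (.f (nat_lit 396) (nat_lit 395) (nat_lit 3467) (.f (nat_lit 426) (nat_lit 461) (nat_lit 426) (.f (nat_lit 425) (nat_lit 397) (nat_lit 2441) (.f (nat_lit 456) (nat_lit 457) (nat_lit 1448) (.f (nat_lit 424) (nat_lit 455) (nat_lit 1447) (.d (nat_lit 392) (nat_lit 391) (nat_lit 3463) (nat_lit 393) (nat_lit 3464)))))))))))))) (.a (.f (nat_lit 432) (nat_lit 465) (nat_lit 429) (.f (nat_lit 397) (nat_lit 396) (nat_lit 3468) (.d (nat_lit 433) (nat_lit 398) (nat_lit 3469) (nat_lit 461) (nat_lit 1453)))) (.f (nat_lit 432) (nat_lit 465) (nat_lit 429) (.f (nat_lit 397) (nat_lit 396) (nat_lit 3468) (.f (nat_lit 398) (nat_lit 433) (nat_lit 3469) (.d (nat_lit 494) (nat_lit 365) (nat_lit 7533) (nat_lit 526) (nat_lit 7565))))))))) (.a (.p (nat_lit 494) (.a (.f (nat_lit 397) (nat_lit 526) (nat_lit 7565) (.d (nat_lit 365) (nat_lit 333) (nat_lit 4429) (nat_lit 398) (nat_lit 7533))) (.a (.f (nat_lit 526) (nat_lit 397) (nat_lit 7565) (.f (nat_lit 527) (nat_lit 559) (nat_lit 4526) (.d (nat_lit 525) (nat_lit 557) (nat_lit 5549) (nat_lit 561) (nat_lit 525)))) (.a (.p (nat_lit 526) (.a (.f (nat_lit 527) (nat_lit 559) (nat_lit 4526) (.d (nat_lit 525) (nat_lit 557) (nat_lit 5549) (nat_lit 561) (nat_lit 525))) (.f (nat_lit 431) (nat_lit 399) (nat_lit 6542) (.f (nat_lit 461) (nat_lit 558) (nat_lit 7597) (.d (nat_lit 432) (nat_lit 460) (nat_lit 1452) (nat_lit 465) (nat_lit 429)))))) (.p (nat_lit 398) (.a (.f (nat_lit 397) (nat_lit 365) (nat_lit 7533) (.f (nat_lit 399) (nat_lit 367) (nat_lit 6510) (.d (nat_lit 428) (nat_lit 400) (nat_lit 1420) (nat_lit 427) (nat_lit 2443)))) (.a (.f (nat_lit 399) (nat_lit 367) (nat_lit 6510) (.f (nat_lit 400) (nat_lit 401) (nat_lit 1421) (.d (nat_lit 428) (nat_lit 397) (nat_lit 1420) (nat_lit 427) (nat_lit 2443)))) (.a s78784 (.a (.f (nat_lit 399) (nat_lit 367) (nat_lit 6510) (.f (nat_lit 400) (nat_lit 401) (nat_lit 1421) (.d (nat_lit 428) (nat_lit 427) (nat_lit 2443) (nat_lit 431) (nat_lit 2444)))) (.f (nat_lit 365) (nat_lit 397) (nat_lit 7533) (.f (nat_lit 366) (nat_lit 333) (nat_lit 7501) (.f (nat_lit 335) (nat_lit 367) (nat_lit 6478) (.d (nat_lit 334) (nat_lit 303) (nat_lit 6446) (nat_lit 461) (nat_lit 5453)))))))))))))) (.a (.p (nat_lit 431) (.a (.f (nat_lit 432) (nat_lit 465) (nat_lit 429) (.d (nat_lit 461) (nat_lit 433) (nat_lit 1453) (nat_lit 460) (nat_lit 1452))) (.a (.p (nat_lit 428) (.a (.f (nat_lit 399) (nat_lit 400) (nat_lit 2444) (.f (nat_lit 427) (nat_lit 398) (nat_lit 2443) (.d (nat_lit 459) (nat_lit 458) (nat_lit 1450) (nat_lit 460) (nat_lit 1451)))) (.a (.f (nat_lit 459) (nat_lit 460) (nat_lit 1451) (.f (nat_lit 427) (nat_lit 458) (nat_lit 1450) (.d (nat_lit 395) (nat_lit 394) (nat_lit 3466) (nat_lit 396) (nat_lit 3467)))) (.f (nat_lit 399) (nat_lit 400) (nat_lit 2444) (.f (nat_lit 494) (nat_lit 526) (nat_lit 6542) (.d (nat_lit 367) (nat_lit 335) (nat_lit 5454) (nat_lit 398) (nat_lit 6510))))))) (.f (nat_lit 432) (nat_lit 465) (nat_lit 429) (.f (nat_lit 400) (nat_lit 401) (nat_lit 2445) (.f (nat_lit 399) (nat_lit 428) (nat_lit 2444) (.f (nat_lit 367) (nat_lit 335) (nat_lit 4431) (.d (nat_lit 494) (nat_lit 398) (nat_lit 6510) (nat_lit 526) (nat_lit 6542))))))))) (.a (.p (nat_lit 431) (.a (.f (nat_lit 432) (nat_lit 465) (nat_lit 429) (.d (nat_lit 461) (nat_lit 433) (nat_lit 1453) (nat_lit 460) (nat_lit 1452))) (.a s78835 (.a (.f (nat_lit 432) (nat_lit 465) (nat_lit 429) (.f (nat_lit 397) (nat_lit 396) (nat_lit 3468) (.f (nat_lit 494) (nat_lit 526) (nat_lit 7565) (.d (nat_lit 365) (nat_lit 333) (nat_lit 4429) (nat_lit 461) (nat_lit 4461))))) (.f (nat_lit 432) (nat_lit 465) (nat_lit 429) (.f (nat_lit 400) (nat_lit 401) (nat_lit 2445) (.f (nat_lit 428) (nat_lit 399) (nat_lit 2444) (.d (nat_lit 396) (nat_lit 395) (nat_lit 3467) (nat_lit 397) (nat_lit 3468))))))))) (.a (.p (nat_lit 431) (.a (.f (nat_lit 432) (nat_lit 465) (nat_lit 429) (.d (nat_lit 461) (nat_lit 433) (nat_lit 1453) (nat_lit 460) (nat_lit 1452))) (.a s78835 (.a (.f (nat_lit 432) (nat_lit 465) (nat_lit 429) (.f (nat_lit 397) (nat_lit 396) (nat_lit 3468) (.d (nat_lit 433) (nat_lit 398) (nat_lit 3469) (nat_lit 461) (nat_lit 1453)))) (.f (nat_lit 432) (nat_lit 465) (nat_lit 429) (.f (nat_lit 397) (nat_lit 396) (nat_lit 3468) (.f (nat_lit 398) (nat_lit 433) (nat_lit 3469) (.d (nat_lit 494) (nat_lit 365) (nat_lit 7533) (nat_lit 526) (nat_lit 7565))))))))) (.a (.p (nat_lit 494) (.a (.f (nat_lit 397) (nat_lit 526) (nat_lit 7565) (.d (nat_lit 365) (nat_lit 333) (nat_lit 4429) (nat_lit 398) (nat_lit 7533))) (.a (.f (nat_lit 526) (nat_lit 397) (nat_lit 7565) (.f (nat_lit 527) (nat_lit 559) (nat_lit 4526) (.d (nat_lit 525) (nat_lit 557) (nat_lit 5549) (nat_lit 561) (nat_lit 525)))) (.a (.p (nat_lit 526) (.a (.f (nat_lit 527) (nat_lit 559) (nat_lit 4526) (.d (nat_lit 525) (nat_lit 557) (nat_lit 5549) (nat_lit 561) (nat_lit 525))) (.f (nat_lit 431) (nat_lit 399) (nat_lit 6542) (.f (nat_lit 461) (nat_lit 558) (nat_lit 7597) (.d (nat_lit 432) (nat_lit 460) (nat_lit 1452) (nat_lit 465) (nat_lit 429)))))) (.p (nat_lit 398) (.a s78784 (.a (.f (nat_lit 365) (nat_lit 397) (nat_lit 7533) (.f (nat_lit 366) (nat_lit 333) (nat_lit 7501) (.f (nat_lit 335) (nat_lit 367) (nat_lit 6478) (.d (nat_lit 334) (nat_lit 303) (nat_lit 6446) (nat_lit 461) (nat_lit 5453))))) (.a (.f (nat_lit 397) (nat_lit 365) (nat_lit 7533) (.f (nat_lit 399) (nat_lit 367) (nat_lit 6510) (.d (nat_lit 400) (nat_lit 401) (nat_lit 1421) (nat_lit 428) (nat_lit 1420)))) (.a (.f (nat_lit 399) (nat_lit 367) (nat_lit 6510) (.f (nat_lit 400) (nat_lit 401) (nat_lit 1421) (.d (nat_lit 428) (nat_lit 397) (nat_lit 1420) (nat_lit 431) (nat_lit 2444)))) (.f (nat_lit 399) (nat_lit 367) (nat_lit 6510) (.f (nat_lit 400) (nat_lit 401) (nat_lit 1421) (.f (nat_lit 431) (nat_lit 428) (nat_lit 2444) (.f (nat_lit 432) (nat_lit 465) (nat_lit 429) (.d (nat_lit 461) (nat_lit 433) (nat_lit 1453) (nat_lit 460) (nat_lit 1452))))))))))))))) (.a (.p (nat_lit 494) (.a (.f (nat_lit 397) (nat_lit 526) (nat_lit 7565) (.d (nat_lit 365) (nat_lit 333) (nat_lit 4429) (nat_lit 398) (nat_lit 7533))) (.a (.f (nat_lit 526) (nat_lit 397) (nat_lit 7565) (.f (nat_lit 527) (nat_lit 559) (nat_lit 4526) (.d (nat_lit 525) (nat_lit 557) (nat_lit 5549) (nat_lit 561) (nat_lit 525)))) (.a (.p (nat_lit 526) (.a (.f (nat_lit 527) (nat_lit 559) (nat_lit 4526) (.d (nat_lit 525) (nat_lit 557) (nat_lit 5549) (nat_lit 561) (nat_lit 525))) (.f (nat_lit 431) (nat_lit 399) (nat_lit 6542) (.f (nat_lit 461) (nat_lit 558) (nat_lit 7597) (.d (nat_lit 432) (nat_lit 460) (nat_lit 1452) (nat_lit 465) (nat_lit 429)))))) (.p (nat_lit 398) (.a s78784 (.a (.f (nat_lit 365) (nat_lit 397) (nat_lit 7533) (.f (nat_lit 366) (nat_lit 333) (nat_lit 7501) (.f (nat_lit 335) (nat_lit 367) (nat_lit 6478) (.d (nat_lit 334) (nat_lit 303) (nat_lit 6446) (nat_lit 461) (nat_lit 5453))))) (.a (.f (nat_lit 397) (nat_lit 365) (nat_lit 7533) (.f (nat_lit 399) (nat_lit 367) (nat_lit 6510) (.f (nat_lit 400) (nat_lit 401) (nat_lit 1421) (.f (nat_lit 432) (nat_lit 433) (nat_lit 397) (.d (nat_lit 431) (nat_lit 396) (nat_lit 396) (nat_lit 465) (nat_lit 429)))))) (.a (.f (nat_lit 367) (nat_lit 399) (nat_lit 6510) (.f (nat_lit 366) (nat_lit 335) (nat_lit 6478) (.f (nat_lit 334) (nat_lit 461) (nat_lit 5453) (.f (nat_lit 302) (nat_lit 397) (nat_lit 5421) (.d (nat_lit 301) (nat_lit 269) (nat_lit 7437) (nat_lit 333) (nat_lit 7469)))))) (.f (nat_lit 367) (nat_lit 399) (nat_lit 6510) (.f (nat_lit 366) (nat_lit 335) (nat_lit 6478) (.f (nat_lit 334) (nat_lit 461) (nat_lit 5453) (.d (nat_lit 333) (nat_lit 301) (nat_lit 7469) (nat_lit 365) (nat_lit 7501)))))))))))))) (.a (.p (nat_lit 494) (.a (.f (nat_lit 397) (nat_lit 526) (nat_lit 7565) (.d (nat_lit 365) (nat_lit 333) (nat_lit 4429) (nat_lit 398) (nat_lit 7533))) (.a (.f (nat_lit 526) (nat_lit 397) (nat_lit 7565) (.f (nat_lit 527) (nat_lit 559) (nat_lit 4526) (.d (nat_lit 525) (nat_lit 557) (nat_lit 5549) (nat_lit 561) (nat_lit 525)))) (.a (.p (nat_lit 526) (.a (.f (nat_lit 527) (nat_lit 559) (nat_lit 4526) (.d (nat_lit 525) (nat_lit 557) (nat_lit 5549) (nat_lit 561) (nat_lit 525))) (.a (.f (nat_lit 558) (nat_lit 461) (nat_lit 7597) (.d (nat_lit 559) (nat_lit 527) (nat_lit 4526) (nat_lit 591) (nat_lit 4558))) (.f (nat_lit 558) (nat_lit 461) (nat_lit 7597) (.d (nat_lit 557) (nat_lit 525) (nat_lit 5549) (nat_lit 589) (nat_lit 5581)))))) (.p (nat_lit 398) (.a (.f (nat_lit 397) (nat_lit 365) (nat_lit 7533) (.f (nat_lit 399) (nat_lit 367) (nat_lit 6510) (.d (nat_lit 428) (nat_lit 400) (nat_lit 1420) (nat_lit 427) (nat_lit 2443)))) (.a (.f (nat_lit 399) (nat_lit 367) (nat_lit 6510) (.f (nat_lit 400) (nat_lit 401) (nat_lit 1421) (.d (nat_lit 428) (nat_lit 397) (nat_lit 1420) (nat_lit 427) (nat_lit 2443)))) (.a (.p (nat_lit 366) (.a (.d (nat_lit 365) (nat_lit 333) (nat_lit 7501) (nat_lit 397) (nat_lit 7533)) (.a (.f (nat_lit 397) (nat_lit 365) (nat_lit 7533) (.d (nat_lit 334) (nat_lit 302) (nat_lit 5421) (nat_lit 461) (nat_lit 5453))) (.a (.f (nat_lit 334) (nat_lit 461) (nat_lit 5453) (.f (nat_lit 302) (nat_lit 397) (nat_lit 5421) (.d (nat_lit 303) (nat_lit 271) (nat_lit 6414) (nat_lit 335) (nat_lit 6446)))) (.f (nat_lit 334) (nat_lit 461) (nat_lit 5453) (.d (nat_lit 333) (nat_lit 301) (nat_lit 7469) (nat_lit 365) (nat_lit 7501))))))) (.f (nat_lit 367) (nat_lit 399) (nat_lit 6510) (.f (nat_lit 366) (nat_lit 335) (nat_lit 6478) (.f (nat_lit 334) (nat_lit 461) (nat_lit 5453) (.d (nat_lit 333) (nat_lit 301) (nat_lit 7469) (nat_lit 365) (nat_lit 7501))))))))))))) (.a (.p (nat_lit 431) (.a (.p (nat_lit 428) (.a (.f (nat_lit 399) (nat_lit 400) (nat_lit 2444) (.f (nat_lit 427) (nat_lit 398) (nat_lit 2443) (.d (nat_lit 459) (nat_lit 458) (nat_lit 1450) (nat_lit 460) (nat_lit 1451)))) (.a (.f (nat_lit 459) (nat_lit 460) (nat_lit 1451) (.f (nat_lit 427) (nat_lit 458) (nat_lit 1450) (.d (nat_lit 395) (nat_lit 394) (nat_lit 3466) (nat_lit 396) (nat_lit 3467)))) (.f (nat_lit 399) (nat_lit 400) (nat_lit 2444) (.f (nat_lit 494) (nat_lit 526) (nat_lit 6542) (.d (nat_lit 367) (nat_lit 335) (nat_lit 5454) (nat_lit 398) (nat_lit 6510))))))) (.a (.f (nat_lit 432) (nat_lit 465) (nat_lit 429) (.f (nat_lit 397) (nat_lit 396) (nat_lit 3468) (.f (nat_lit 398) (nat_lit 433) (nat_lit 3469) (.d (nat_lit 494) (nat_lit 365) (nat_lit 7533) (nat_lit 526) (nat_lit 7565))))) (.a (.f (nat_lit 432) (nat_lit 465) (nat_lit 429) (.f (nat_lit 400) (nat_lit 401) (nat_lit 2445) (.f (nat_lit 399) (nat_lit 428) (nat_lit 2444) (.f (nat_lit 367) (nat_lit 335) (nat_lit 4431) (.d (nat_lit 494) (nat_lit 398) (nat_lit 6510) (nat_lit 526) (nat_lit 6542)))))) (.f (nat_lit 432) (nat_lit 465) (nat_lit 429) (.f (nat_lit 400) (nat_lit 401) (nat_lit 2445) (.f (nat_lit 428) (nat_lit 399) (nat_lit 2444) (.d (nat_lit 396) (nat_lit 395) (nat_lit 3467) (nat_lit 397) (nat_lit 3468))))))))) s78898))))))))))))) (.a s80225 (.a (.p (nat_lit 398) (.a s68369 (.a s80226 (.a (.p (nat_lit 366) (.a (.f (nat_lit 461) (nat_lit 493) (nat_lit 5485) (.f (nat_lit 334) (nat_lit 429) (nat_lit 5453) (.d (nat_lit 335) (nat_lit 303) (nat_lit 6446) (nat_lit 367) (nat_lit 6478)))) (.a (.f (nat_lit 365) (nat_lit 333) (nat_lit 7501) (.f (nat_lit 367) (nat_lit 335) (nat_lit 6478) (.f (nat_lit 399) (nat_lit 494) (nat_lit 6510) (.d (nat_lit 364) (nat_lit 363) (nat_lit 363) (nat_lit 400) (nat_lit 364))))) (.f (nat_lit 461) (nat_lit 493) (nat_lit 5485) (.f (nat_lit 334) (nat_lit 429) (nat_lit 5453) (.d (nat_lit 333) (nat_lit 301) (nat_lit 7469) (nat_lit 365) (nat_lit 7501))))))) (.a (.p (nat_lit 494) (.a (.f (nat_lit 397) (nat_lit 365) (nat_lit 7533) (.f (nat_lit 429) (nat_lit 526) (nat_lit 7565) (.f (nat_lit 399) (nat_lit 367) (nat_lit 6510) (.d (nat_lit 428) (nat_lit 400) (nat_lit 1420) (nat_lit 427) (nat_lit 2443))))) (.a (.f (nat_lit 527) (nat_lit 495) (nat_lit 4494) (.f (nat_lit 526) (nat_lit 559) (nat_lit 4526) (.d (nat_lit 399) (nat_lit 367) (nat_lit 6510) (nat_lit 431) (nat_lit 6542)))) (.a (.f (nat_lit 397) (nat_lit 365) (nat_lit 7533) (.f (nat_lit 526) (nat_lit 429) (nat_lit 7565) (.d (nat_lit 527) (nat_lit 495) (nat_lit 4494) (nat_lit 559) (nat_lit 4526)))) (.p (nat_lit 431) (.a (.f (nat_lit 397) (nat_lit 365) (nat_lit 7533) (.f (nat_lit 432) (nat_lit 433) (nat_lit 3469) (.d (nat_lit 396) (nat_lit 395) (nat_lit 395) (nat_lit 429) (nat_lit 3468)))) (.a (.f (nat_lit 367) (nat_lit 399) (nat_lit 6510) (.f (nat_lit 366) (nat_lit 335) (nat_lit 6478) (.f (nat_lit 461) (nat_lit 493) (nat_lit 5485) (.f (nat_lit 432) (nat_lit 433) (nat_lit 1453) (.d (nat_lit 429) (nat_lit 334) (nat_lit 5453) (nat_lit 460) (nat_lit 1452)))))) (.a (.f (nat_lit 397) (nat_lit 365) (nat_lit 7533) (.f (nat_lit 432) (nat_lit 433) (nat_lit 3469) (.d (nat_lit 396) (nat_lit 395) (nat_lit 395) (nat_lit 399) (nat_lit 396)))) (.f (nat_lit 399) (nat_lit 367) (nat_lit 6510) (.f (nat_lit 397) (nat_lit 365) (nat_lit 7533) (.f (nat_lit 396) (nat_lit 395) (nat_lit 395) (.f (nat_lit 428) (nat_lit 427) (nat_lit 1419) (.f (nat_lit 400) (nat_lit 429) (nat_lit 1420) (.f (nat_lit 401) (nat_lit 402) (nat_lit 1422) (.d (nat_lit 369) (nat_lit 368) (nat_lit 2413) (nat_lit 370) (nat_lit 2414)))))))))))))))) (.a (.p (nat_lit 494) (.a (.f (nat_lit 397) (nat_lit 365) (nat_lit 7533) (.f (nat_lit 429) (nat_lit 526) (nat_lit 7565) (.f (nat_lit 399) (nat_lit 367) (nat_lit 6510) (.d (nat_lit 428) (nat_lit 400) (nat_lit 1420) (nat_lit 427) (nat_lit 2443))))) (.a (.f (nat_lit 527) (nat_lit 495) (nat_lit 4494) (.f (nat_lit 526) (nat_lit 559) (nat_lit 4526) (.d (nat_lit 399) (nat_lit 367) (nat_lit 6510) (nat_lit 431) (nat_lit 6542)))) (.a (.f (nat_lit 397) (nat_lit 365) (nat_lit 7533) (.f (nat_lit 526) (nat_lit 429) (nat_lit 7565) (.d (nat_lit 527) (nat_lit 495) (nat_lit 4494) (nat_lit 559) (nat_lit 4526)))) (.f (nat_lit 365) (nat_lit 397) (nat_lit 7533) (.f (nat_lit 366) (nat_lit 333) (nat_lit 7501) (.d (nat_lit 367) (nat_lit 335) (nat_lit 6478) (nat_lit 399) (nat_lit 6510)))))))) (.a (.p (nat_lit 494) (.a (.f (nat_lit 397) (nat_lit 365) (nat_lit 7533) (.f (nat_lit 429) (nat_lit 526) (nat_lit 7565) (.f (nat_lit 399) (nat_lit 367) (nat_lit 6510) (.d (nat_lit 428) (nat_lit 400) (nat_lit 1420) (nat_lit 427) (nat_lit 2443))))) (.a (.f (nat_lit 527) (nat_lit 495) (nat_lit 4494) (.f (nat_lit 526) (nat_lit 559) (nat_lit 4526) (.d (nat_lit 399) (nat_lit 367) (nat_lit 6510) (nat_lit 431) (nat_lit 6542)))) (.a (.f (nat_lit 397) (nat_lit 365) (nat_lit 7533) (.f (nat_lit 526) (nat_lit 429) (nat_lit 7565) (.d (nat_lit 527) (nat_lit 495) (nat_lit 4494) (nat_lit 559) (nat_lit 4526)))) (.f (nat_lit 365) (nat_lit 397) (nat_lit 7533) (.f (nat_lit 366) (nat_lit 333) (nat_lit 7501) (.f (nat_lit 399) (nat_lit 367) (nat_lit 6510) (.f (nat_lit 400) (nat_lit 401) (nat_lit 3437) (.f (nat_lit 461) (nat_lit 493) (nat_lit 5485) (.f (nat_lit 429) (nat_lit 334) (nat_lit 5453) (.d (nat_lit 428) (nat_lit 427) (nat_lit 2443) (nat_lit 431) (nat_lit 2444)))))))))))) (.a (.p (nat_lit 366) (.a (.f (nat_lit 367) (nat_lit 335) (nat_lit 6478) (.f (nat_lit 399) (nat_lit 494) (nat_lit 6510) (.f (nat_lit 461) (nat_lit 493) (nat_lit 5485) (.f (nat_lit 429) (nat_lit 334) (nat_lit 5453) (.f (nat_lit 400) (nat_lit 401) (nat_lit 1421) (.d (nat_lit 428) (nat_lit 397) (nat_lit 1420) (nat_lit 427) (nat_lit 2443))))))) (.a (.f (nat_lit 367) (nat_lit 335) (nat_lit 6478) (.f (nat_lit 494) (nat_lit 399) (nat_lit 6510) (.f (nat_lit 527) (nat_lit 495) (nat_lit 4494) (.f (nat_lit 526) (nat_lit 559) (nat_lit 4526) (.f (nat_lit 461) (nat_lit 493) (nat_lit 5485) (.d (nat_lit 429) (nat_lit 397) (nat_lit 7565) (nat_lit 558) (nat_lit 7597))))))) (.a (.f (nat_lit 461) (nat_lit 493) (nat_lit 5485) (.f (nat_lit 334) (nat_lit 429) (nat_lit 5453) (.f (nat_lit 301) (nat_lit 333) (nat_lit 7469) (.f (nat_lit 302) (nat_lit 269) (nat_lit 7437) (.f (nat_lit 271) (nat_lit 303) (nat_lit 6414) (.f (nat_lit 270) (nat_lit 239) (nat_lit 6382) (.d (nat_lit 399) (nat_lit 367) (nat_lit 4366) (nat_lit 431) (nat_lit 4398)))))))) (.a (.f (nat_lit 461) (nat_lit 493) (nat_lit 5485) (.f (nat_lit 334) (nat_lit 429) (nat_lit 5453) (.f (nat_lit 303) (nat_lit 335) (nat_lit 6446) (.f (nat_lit 302) (nat_lit 271) (nat_lit 6414) (.d (nat_lit 301) (nat_lit 269) (nat_lit 7437) (nat_lit 333) (nat_lit 7469)))))) (.p (nat_lit 334) (.a (.d (nat_lit 335) (nat_lit 303) (nat_lit 6446) (nat_lit 367) (nat_lit 6478)) (.a (.f (nat_lit 367) (nat_lit 335) (nat_lit 6478) (.f (nat_lit 399) (nat_lit 494) (nat_lit 6510) (.d (nat_lit 302) (nat_lit 270) (nat_lit 4366) (nat_lit 431) (nat_lit 4398)))) (.a (.f (nat_lit 301) (nat_lit 333) (nat_lit 7469) (.f (nat_lit 302) (nat_lit 269) (nat_lit 7437) (.f (nat_lit 271) (nat_lit 303) (nat_lit 6414) (.f (nat_lit 270) (nat_lit 239) (nat_lit 6382) (.d (nat_lit 399) (nat_lit 367) (nat_lit 4366) (nat_lit 431) (nat_lit 4398)))))) (.f (nat_lit 301) (nat_lit 333) (nat_lit 7469) (.f (nat_lit 302) (nat_lit 269) (nat_lit 7437) (.d (nat_lit 303) (nat_lit 271) (nat_lit 6414) (nat_lit 335) (nat_lit 6446))))))))))))) (.a (.p (nat_lit 494) (.a (.f (nat_lit 397) (nat_lit 365) (nat_lit 7533) (.f (nat_lit 429) (nat_lit 526) (nat_lit 7565) (.f (nat_lit 399) (nat_lit 367) (nat_lit 6510) (.d (nat_lit 428) (nat_lit 400) (nat_lit 1420) (nat_lit 427) (nat_lit 2443))))) (.a (.f (nat_lit 527) (nat_lit 495) (nat_lit 4494) (.f (nat_lit 526) (nat_lit 559) (nat_lit 4526) (.d (nat_lit 399) (nat_lit 367) (nat_lit 6510) (nat_lit 431) (nat_lit 6542)))) (.a (.f (nat_lit 397) (nat_lit 365) (nat_lit 7533) (.f (nat_lit 526) (nat_lit 429) (nat_lit 7565) (.d (nat_lit 527) (nat_lit 495) (nat_lit 4494) (nat_lit 559) (nat_lit 4526)))) s68672)))) (.a (.p (nat_lit 431) (.a (.p (nat_lit 432) (.a (.f (nat_lit 465) (nat_lit 429) (nat_lit 429) (.d (nat_lit 466) (nat_lit 433) (nat_lit 430) (nat_lit 467) (nat_lit 3503))) (.a (.f (nat_lit 433) (nat_lit 397) (nat_lit 3469) (.f (nat_lit 434) (nat_lit 399) (nat_lit 3470) (.d (nat_lit 402) (nat_lit 401) (nat_lit 2446) (nat_lit 403) (nat_lit 2447)))) (.f (nat_lit 429) (nat_lit 465) (nat_lit 429) (.f (nat_lit 396) (nat_lit 397) (nat_lit 3468) (.f (nat_lit 428) (nat_lit 395) (nat_lit 3467) (.f (nat_lit 427) (nat_lit 399) (nat_lit 2443) (.d (nat_lit 459) (nat_lit 458) (nat_lit 1450) (nat_lit 460) (nat_lit 1451))))))))) (.a (.p (nat_lit 432) (.a (.f (nat_lit 433) (nat_lit 461) (nat_lit 1453) (.d (nat_lit 465) (nat_lit 429) (nat_lit 429) (nat_lit 466) (nat_lit 430))) (.a (.f (nat_lit 433) (nat_lit 397) (nat_lit 3469) (.f (nat_lit 434) (nat_lit 399) (nat_lit 3470) (.d (nat_lit 402) (nat_lit 401) (nat_lit 2446) (nat_lit 403) (nat_lit 2447)))) (.f (nat_lit 429) (nat_lit 465) (nat_lit 429) (.f (nat_lit 461) (nat_lit 460) (nat_lit 1452) (.d (nat_lit 366) (nat_lit 334) (nat_lit 5453) (nat_lit 493) (nat_lit 5485))))))) (.a (.p (nat_lit 461) (.a (.f (nat_lit 432) (nat_lit 433) (nat_lit 1453) (.d (nat_lit 460) (nat_lit 429) (nat_lit 1452) (nat_lit 459) (nat_lit 2475))) (.f (nat_lit 366) (nat_lit 493) (nat_lit 5485) (.f (nat_lit 333) (nat_lit 365) (nat_lit 7501) (.f (nat_lit 334) (nat_lit 301) (nat_lit 7469) (.f (nat_lit 303) (nat_lit 335) (nat_lit 6446) (.d (nat_lit 302) (nat_lit 271) (nat_lit 6414) (nat_lit 399) (nat_lit 4398)))))))) (.a (.p (nat_lit 432) (.a (.f (nat_lit 433) (nat_lit 461) (nat_lit 1453) (.d (nat_lit 465) (nat_lit 429) (nat_lit 429) (nat_lit 466) (nat_lit 430))) (.a (.d (nat_lit 433) (nat_lit 397) (nat_lit 3469) (nat_lit 461) (nat_lit 1453)) (.a (.f (nat_lit 429) (nat_lit 465) (nat_lit 429) (.f (nat_lit 461) (nat_lit 460) (nat_lit 1452) (.d (nat_lit 366) (nat_lit 334) (nat_lit 5453) (nat_lit 493) (nat_lit 5485)))) (.f (nat_lit 465) (nat_lit 429) (nat_lit 429) (.d (nat_lit 466) (nat_lit 433) (nat_lit 430) (nat_lit 467) (nat_lit 3503))))))) (.a (.p (nat_lit 397) (.a (.f (nat_lit 432) (nat_lit 433) (nat_lit 3469) (.d (nat_lit 396) (nat_lit 395) (nat_lit 395) (nat_lit 399) (nat_lit 396))) (.a (.f (nat_lit 432) (nat_lit 433) (nat_lit 3469) (.f (nat_lit 399) (nat_lit 396) (nat_lit 396) (.d (nat_lit 494) (nat_lit 365) (nat_lit 7533) (nat_lit 526) (nat_lit 6542)))) (.f (nat_lit 365) (nat_lit 494) (nat_lit 7533) (.d (nat_lit 333) (nat_lit 301) (nat_lit 4397) (nat_lit 366) (nat_lit 7501)))))) (.p (nat_lit 494) (.a (.f (nat_lit 397) (nat_lit 365) (nat_lit 7533) (.d (nat_lit 526) (nat_lit 399) (nat_lit 6542) (nat_lit 429) (nat_lit 7565))) (.a (.f (nat_lit 526) (nat_lit 399) (nat_lit 6542) (.d (nat_lit 527) (nat_lit 495) (nat_lit 4494) (nat_lit 559) (nat_lit 4526))) (.a (.f (nat_lit 397) (nat_lit 365) (nat_lit 7533) (.f (nat_lit 526) (nat_lit 429) (nat_lit 7565) (.d (nat_lit 527) (nat_lit 495) (nat_lit 4494) (nat_lit 559) (nat_lit 4526)))) (.f (nat_lit 365) (nat_lit 397) (nat_lit 7533) (.f (nat_lit 366) (nat_lit 333) (nat_lit 7501) (.f (nat_lit 461) (nat_lit 493) (nat_lit 5485) (.f (nat_lit 334) (nat_lit 429) (nat_lit 5453) (.f (nat_lit 302) (nat_lit 399) (nat_lit 4398) (.d (nat_lit 303) (nat_lit 271) (nat_lit 6414) (nat_lit 335) (nat_lit 6446))))))))))))))))) (.a (.p (nat_lit 366) (.a (.f (nat_lit 461) (nat_lit 493) (nat_lit 5485) (.f (nat_lit 334) (nat_lit 429) (nat_lit 5453) (.d (nat_lit 335) (nat_lit 303) (nat_lit 6446) (nat_lit 367) (nat_lit 6478)))) (.a (.f (nat_lit 461) (nat_lit 493) (nat_lit 5485) (.f (nat_lit 334) (nat_lit 429) (nat_lit 5453) (.d (nat_lit 333) (nat_lit 301) (nat_lit 7469) (nat_lit 365) (nat_lit 7501)))) (.f (nat_lit 365) (nat_lit 333) (nat_lit 7501) (.f (nat_lit 397) (nat_lit 494) (nat_lit 7533) (.f (nat_lit 367) (nat_lit 335) (nat_lit 6478) (.d (nat_lit 396) (nat_lit 368) (nat_lit 1388) (nat_lit 395) (nat_lit 2411)))))))) (.a s80327 s73214)))))))))))) (.a (.p (nat_lit 398) (.a s68369 (.a s80226 (.a (.p (nat_lit 366) (.a (.f (nat_lit 461) (nat_lit 493) (nat_lit 5485) (.f (nat_lit 334) (nat_lit 429) (nat_lit 5453) (.d (nat_lit 335) (nat_lit 303) (nat_lit 6446) (nat_lit 367) (nat_lit 6478)))) (.a (.f (nat_lit 365) (nat_lit 333) (nat_lit 7501) (.f (nat_lit 367) (nat_lit 335) (nat_lit 6478) (.f (nat_lit 399) (nat_lit 494) (nat_lit 6510) (.d (nat_lit 364) (nat_lit 363) (nat_lit 363) (nat_lit 400) (nat_lit 364))))) (.f (nat_lit 461) (nat_lit 493) (nat_lit 5485) (.f (nat_lit 334) (nat_lit 429) (nat_lit 5453) (.d (nat_lit 333) (nat_lit 301) (nat_lit 7469) (nat_lit 365) (nat_lit 7501))))))) (.a (.p (nat_lit 494) (.a (.f (nat_lit 493) (nat_lit 525) (nat_lit 5517) (.f (nat_lit 366) (nat_lit 461) (nat_lit 5485) (.d (nat_lit 367) (nat_lit 335) (nat_lit 6478) (nat_lit 399) (nat_lit 6510)))) (.a s67869 (.a s68622 (.a s68651 s68672))))) (.a (.p (nat_lit 494) (.a (.f (nat_lit 493) (nat_lit 525) (nat_lit 5517) (.f (nat_lit 365) (nat_lit 397) (nat_lit 7533) (.d (nat_lit 366) (nat_lit 333) (nat_lit 7501) (nat_lit 461) (nat_lit 5485)))) (.a s67869 (.a s68707 (.a s68714 s68672))))) (.a (.p (nat_lit 366) (.a (.f (nat_lit 461) (nat_lit 493) (nat_lit 5485) (.f (nat_lit 334) (nat_lit 429) (nat_lit 5453) (.d (nat_lit 335) (nat_lit 303) (nat_lit 6446) (nat_lit 367) (nat_lit 6478)))) (.a (.f (nat_lit 461) (nat_lit 493) (nat_lit 5485) (.f (nat_lit 334) (nat_lit 429) (nat_lit 5453) (.d (nat_lit 333) (nat_lit 301) (nat_lit 7469) (nat_lit 365) (nat_lit 7501)))) (.f (nat_lit 365) (nat_lit 333) (nat_lit 7501) (.f (nat_lit 397) (nat_lit 494) (nat_lit 7533) (.f (nat_lit 367) (nat_lit 335) (nat_lit 6478) (.d (nat_lit 396) (nat_lit 368) (nat_lit 1388) (nat_lit 395) (nat_lit 2411)))))))) (.a s80344 (.a (.p (nat_lit 397) (.a (.f (nat_lit 365) (nat_lit 494) (nat_lit 7533) (.d (nat_lit 333) (nat_lit 301) (nat_lit 4397) (nat_lit 429) (nat_lit 4429))) (.a (.p (nat_lit 431) (.a (.f (nat_lit 432) (nat_lit 433) (nat_lit 3469) (.d (nat_lit 396) (nat_lit 395) (nat_lit 395) (nat_lit 429) (nat_lit 3468))) (.a (.f (nat_lit 432) (nat_lit 433) (nat_lit 3469) (.d (nat_lit 396) (nat_lit 399) (nat_lit 396) (nat_lit 429) (nat_lit 3468))) (.a (.f (nat_lit 432) (nat_lit 433) (nat_lit 3469) (.f (nat_lit 429) (nat_lit 465) (nat_lit 429) (.d (nat_lit 365) (nat_lit 333) (nat_lit 4429) (nat_lit 494) (nat_lit 7533)))) (.a (.f (nat_lit 432) (nat_lit 433) (nat_lit 3469) (.d (nat_lit 396) (nat_lit 395) (nat_lit 395) (nat_lit 399) (nat_lit 396))) (.f (nat_lit 494) (nat_lit 365) (nat_lit 7533) (.f (nat_lit 399) (nat_lit 367) (nat_lit 6510) (.f (nat_lit 396) (nat_lit 395) (nat_lit 395) (.f (nat_lit 428) (nat_lit 427) (nat_lit 1419) (.f (nat_lit 400) (nat_lit 429) (nat_lit 1420) (.f (nat_lit 401) (nat_lit 402) (nat_lit 1422) (.d (nat_lit 369) (nat_lit 368) (nat_lit 2413) (nat_lit 370) (nat_lit 2414))))))))))))) (.a (.p (nat_lit 431) (.a (.f (nat_lit 432) (nat_lit 433) (nat_lit 3469) (.d (nat_lit 396) (nat_lit 395) (nat_lit 395) (nat_lit 429) (nat_lit 3468))) (.a (.f (nat_lit 432) (nat_lit 433) (nat_lit 3469) (.d (nat_lit 396) (nat_lit 399) (nat_lit 396) (nat_lit 429) (nat_lit 3468))) (.a (.f (nat_lit 432) (nat_lit 433) (nat_lit 3469) (.f (nat_lit 429) (nat_lit 465) (nat_lit 429) (.f (nat_lit 494) (nat_lit 365) (nat_lit 7533) (.f (nat_lit 399) (nat_lit 367) (nat_lit 6510) (.d (nat_lit 400) (nat_lit 401) (nat_lit 2445) (nat_lit 428) (nat_lit 2444)))))) (.a (.f (nat_lit 432) (nat_lit 433) (nat_lit 3469) (.d (nat_lit 396) (nat_lit 395) (nat_lit 395) (nat_lit 399) (nat_lit 396))) (.f (nat_lit 494) (nat_lit 365) (nat_lit 7533) (.f (nat_lit 399) (nat_lit 367) (nat_lit 6510) (.f (nat_lit 396) (nat_lit 395) (nat_lit 395) (.f (nat_lit 428) (nat_lit 427) (nat_lit 1419) (.f (nat_lit 400) (nat_lit 429) (nat_lit 1420) (.f (nat_lit 401) (nat_lit 402) (nat_lit 1422) (.d (nat_lit 369) (nat_lit 368) (nat_lit 2413) (nat_lit 370) (nat_lit 2414))))))))))))) (.a (.p (nat_lit 399) (.a (.f (nat_lit 367) (nat_lit 494) (nat_lit 6510) (.d (nat_lit 335) (nat_lit 303) (nat_lit 5422) (nat_lit 431) (nat_lit 5454))) (.a (.f (nat_lit 367) (nat_lit 494) (nat_lit 6510) (.f (nat_lit 431) (nat_lit 335) (nat_lit 5454) (.d (nat_lit 396) (nat_lit 368) (nat_lit 2412) (nat_lit 395) (nat_lit 395)))) (.a (.f (nat_lit 367) (nat_lit 494) (nat_lit 6510) (.f (nat_lit 396) (nat_lit 368) (nat_lit 2412) (.d (nat_lit 431) (nat_lit 395) (nat_lit 395) (nat_lit 432) (nat_lit 396)))) (.a (.p (nat_lit 396) (.a (.d (nat_lit 431) (nat_lit 395) (nat_lit 395) (nat_lit 432) (nat_lit 396)) (.a (.f (nat_lit 431) (nat_lit 432) (nat_lit 396) (.f (nat_lit 428) (nat_lit 427) (nat_lit 1419) (.f (nat_lit 400) (nat_lit 429) (nat_lit 1420) (.f (nat_lit 401) (nat_lit 402) (nat_lit 1422) (.d (nat_lit 369) (nat_lit 368) (nat_lit 2413) (nat_lit 370) (nat_lit 2414)))))) (.f (nat_lit 428) (nat_lit 427) (nat_lit 1419) (.f (nat_lit 429) (nat_lit 400) (nat_lit 1420) (.f (nat_lit 364) (nat_lit 363) (nat_lit 3435) (.d (nat_lit 332) (nat_lit 300) (nat_lit 4396) (nat_lit 461) (nat_lit 4428)))))))) (.f (nat_lit 367) (nat_lit 494) (nat_lit 6510) (.f (nat_lit 396) (nat_lit 368) (nat_lit 2412) (.f (nat_lit 428) (nat_lit 427) (nat_lit 1419) (.f (nat_lit 429) (nat_lit 400) (nat_lit 1420) (.f (nat_lit 364) (nat_lit 363) (nat_lit 3435) (.d (nat_lit 332) (nat_lit 300) (nat_lit 4396) (nat_lit 461) (nat_lit 4428)))))))))))) (.a (.p (nat_lit 396) (.a (.f (nat_lit 494) (nat_lit 365) (nat_lit 7533) (.f (nat_lit 399) (nat_lit 367) (nat_lit 6510) (.d (nat_lit 431) (nat_lit 395) (nat_lit 395) (nat_lit 432) (nat_lit 396)))) (.a (.f (nat_lit 431) (nat_lit 395) (nat_lit 395) (.d (nat_lit 432) (nat_lit 399) (nat_lit 396) (nat_lit 433) (nat_lit 3469))) (.a (.f (nat_lit 494) (nat_lit 365) (nat_lit 7533) (.f (nat_lit 399) (nat_lit 367) (nat_lit 6510) (.f (nat_lit 495) (nat_lit 527) (nat_lit 4494) (.f (nat_lit 493) (nat_lit 525) (nat_lit 5517) (.f (nat_lit 364) (nat_lit 363) (nat_lit 3435) (.f (nat_lit 428) (nat_lit 427) (nat_lit 1419) (.f (nat_lit 460) (nat_lit 461) (nat_lit 4460) (.d (nat_lit 459) (nat_lit 491) (nat_lit 5483) (nat_lit 492) (nat_lit 3531))))))))) (.f (nat_lit 395) (nat_lit 431) (nat_lit 395) (.f (nat_lit 362) (nat_lit 363) (nat_lit 3434) (.f (nat_lit 394) (nat_lit 361) (nat_lit 3433) (.d (nat_lit 426) (nat_lit 425) (nat_lit 1417) (nat_lit 427) (nat_lit 1418))))))))) (.p (nat_lit 396) (.a (.f (nat_lit 431) (nat_lit 395) (nat_lit 395) (.d (nat_lit 432) (nat_lit 399) (nat_lit 396) (nat_lit 433) (nat_lit 3469))) (.a (.p (nat_lit 399) (.a (.f (nat_lit 431) (nat_lit 432) (nat_lit 396) (.f (nat_lit 428) (nat_lit 427) (nat_lit 1419) (.f (nat_lit 400) (nat_lit 429) (nat_lit 1420) (.f (nat_lit 401) (nat_lit 402) (nat_lit 1422) (.d (nat_lit 369) (nat_lit 368) (nat_lit 2413) (nat_lit 370) (nat_lit 2414)))))) (.a (.f (nat_lit 428) (nat_lit 427) (nat_lit 1419) (.f (nat_lit 429) (nat_lit 400) (nat_lit 1420) (.f (nat_lit 364) (nat_lit 363) (nat_lit 3435) (.d (nat_lit 332) (nat_lit 300) (nat_lit 4396) (nat_lit 461) (nat_lit 4428))))) (.f (nat_lit 431) (nat_lit 432) (nat_lit 396) (.d (nat_lit 367) (nat_lit 335) (nat_lit 5454) (nat_lit 368) (nat_lit 2412)))))) (.a (.f (nat_lit 395) (nat_lit 431) (nat_lit 395) (.f (nat_lit 362) (nat_lit 363) (nat_lit 3434) (.f (nat_lit 394) (nat_lit 361) (nat_lit 3433) (.d (nat_lit 426) (nat_lit 425) (nat_lit 1417) (nat_lit 427) (nat_lit 1418))))) (.p (nat_lit 399) (.a (.f (nat_lit 428) (nat_lit 427) (nat_lit 1419) (.f (nat_lit 429) (nat_lit 400) (nat_lit 1420) (.f (nat_lit 364) (nat_lit 363) (nat_lit 3435) (.d (nat_lit 332) (nat_lit 300) (nat_lit 4396) (nat_lit 461) (nat_lit 4428))))) (.a (.f (nat_lit 428) (nat_lit 427) (nat_lit 1419) (.f (nat_lit 429) (nat_lit 400) (nat_lit 1420) (.f (nat_lit 364) (nat_lit 363) (nat_lit 3435) (.d (nat_lit 461) (nat_lit 332) (nat_lit 4428) (nat_lit 493) (nat_lit 7532))))) (.a (.f (nat_lit 428) (nat_lit 427) (nat_lit 1419) (.f (nat_lit 429) (nat_lit 400) (nat_lit 1420) (.f (nat_lit 365) (nat_lit 333) (nat_lit 4429) (.f (nat_lit 460) (nat_lit 492) (nat_lit 6508) (.f (nat_lit 364) (nat_lit 363) (nat_lit 3435) (.f (nat_lit 461) (nat_lit 493) (nat_lit 7532) (.d (nat_lit 459) (nat_lit 458) (nat_lit 2474) (nat_lit 491) (nat_lit 5483)))))))) (.a (.f (nat_lit 428) (nat_lit 427) (nat_lit 1419) (.f (nat_lit 400) (nat_lit 429) (nat_lit 1420) (.d (nat_lit 368) (nat_lit 367) (nat_lit 2412) (nat_lit 369) (nat_lit 2413)))) (.a (.f (nat_lit 427) (nat_lit 428) (nat_lit 1419) (.f (nat_lit 395) (nat_lit 426) (nat_lit 1418) (.d (nat_lit 363) (nat_lit 362) (nat_lit 3434) (nat_lit 364) (nat_lit 3435)))) (.f (nat_lit 364) (nat_lit 363) (nat_lit 3435) (.f (nat_lit 400) (nat_lit 365) (nat_lit 3436) (.d (nat_lit 368) (nat_lit 367) (nat_lit 2412) (nat_lit 369) (nat_lit 2413)))))))))))))))))))) (.a s80443 (.a s80327 s73214))))))))))) (.p (nat_lit 398) (.a s68369 (.a s80226 (.a (.p (nat_lit 366) (.a (.f (nat_lit 461) (nat_lit 493) (nat_lit 5485) (.f (nat_lit 334) (nat_lit 429) (nat_lit 5453) (.d (nat_lit 335) (nat_lit 303) (nat_lit 6446) (nat_lit 367) (nat_lit 6478)))) (.a (.f (nat_lit 365) (nat_lit 333) (nat_lit 7501) (.f (nat_lit 367) (nat_lit 335) (nat_lit 6478) (.f (nat_lit 399) (nat_lit 494) (nat_lit 6510) (.d (nat_lit 364) (nat_lit 363) (nat_lit 363) (nat_lit 400) (nat_lit 364))))) (.f (nat_lit 461) (nat_lit 493) (nat_lit 5485) (.f (nat_lit 334) (nat_lit 429) (nat_lit 5453) (.d (nat_lit 333) (nat_lit 301) (nat_lit 7469) (nat_lit 365) (nat_lit 7501))))))) (.a (.p (nat_lit 494) (.a (.f (nat_lit 397) (nat_lit 365) (nat_lit 7533) (.f (nat_lit 429) (nat_lit 526) (nat_lit 7565) (.f (nat_lit 399) (nat_lit 367) (nat_lit 6510) (.d (nat_lit 428) (nat_lit 400) (nat_lit 1420) (nat_lit 427) (nat_lit 2443))))) (.a (.f (nat_lit 493) (nat_lit 525) (nat_lit 5517) (.f (nat_lit 366) (nat_lit 461) (nat_lit 5485) (.d (nat_lit 367) (nat_lit 335) (nat_lit 6478) (nat_lit 399) (nat_lit 6510)))) (.f (nat_lit 397) (nat_lit 365) (nat_lit 7533) (.f (nat_lit 429) (nat_lit 526) (nat_lit 7565) (.f (nat_lit 493) (nat_lit 525) (nat_lit 5517) (.f (nat_lit 461) (nat_lit 366) (nat_lit 5485) (.f (nat_lit 396) (nat_lit 364) (nat_lit 7532) (.d (nat_lit 395) (nat_lit 394) (nat_lit 394) (nat_lit 431) (nat_lit 395)))))))))) (.a (.p (nat_lit 494) (.a (.f (nat_lit 397) (nat_lit 365) (nat_lit 7533) (.f (nat_lit 429) (nat_lit 526) (nat_lit 7565) (.f (nat_lit 399) (nat_lit 367) (nat_lit 6510) (.d (nat_lit 428) (nat_lit 400) (nat_lit 1420) (nat_lit 427) (nat_lit 2443))))) (.a (.f (nat_lit 493) (nat_lit 525) (nat_lit 5517) (.f (nat_lit 461) (nat_lit 366) (nat_lit 5485) (.f (nat_lit 399) (nat_lit 367) (nat_lit 6510) (.f (nat_lit 526) (nat_lit 431) (nat_lit 6542) (.d (nat_lit 429) (nat_lit 397) (nat_lit 4493) (nat_lit 558) (nat_lit 7597)))))) (.a (.f (nat_lit 493) (nat_lit 525) (nat_lit 5517) (.f (nat_lit 365) (nat_lit 397) (nat_lit 7533) (.d (nat_lit 366) (nat_lit 333) (nat_lit 7501) (nat_lit 461) (nat_lit 5485)))) (.f (nat_lit 493) (nat_lit 525) (nat_lit 5517) (.f (nat_lit 461) (nat_lit 366) (nat_lit 5485) (.f (nat_lit 399) (nat_lit 367) (nat_lit 6510) (.f (nat_lit 431) (nat_lit 526) (nat_lit 6542) (.f (nat_lit 460) (nat_lit 459) (nat_lit 2475) (.d (nat_lit 432) (nat_lit 429) (nat_lit 1452) (nat_lit 433) (nat_lit 1453))))))))))) (.a s80344 (.a (.p (nat_lit 494) (.a (.f (nat_lit 397) (nat_lit 365) (nat_lit 7533) (.f (nat_lit 429) (nat_lit 526) (nat_lit 7565) (.f (nat_lit 399) (nat_lit 367) (nat_lit 6510) (.d (nat_lit 428) (nat_lit 400) (nat_lit 1420) (nat_lit 427) (nat_lit 2443))))) (.a (.f (nat_lit 525) (nat_lit 493) (nat_lit 5517) (.f (nat_lit 526) (nat_lit 557) (nat_lit 5549) (.f (nat_lit 429) (nat_lit 397) (nat_lit 7565) (.f (nat_lit 558) (nat_lit 461) (nat_lit 7597) (.d (nat_lit 559) (nat_lit 561) (nat_lit 3597) (nat_lit 591) (nat_lit 4558)))))) (.a (.f (nat_lit 525) (nat_lit 493) (nat_lit 5517) (.f (nat_lit 526) (nat_lit 557) (nat_lit 5549) (.d (nat_lit 399) (nat_lit 367) (nat_lit 6510) (nat_lit 431) (nat_lit 6542)))) s67869)))) (.a s80443 (.a (.p (nat_lit 366) (.a (.f (nat_lit 461) (nat_lit 493) (nat_lit 5485) (.f (nat_lit 334) (nat_lit 429) (nat_lit 5453) (.d (nat_lit 335) (nat_lit 303) (nat_lit 6446) (nat_lit 367) (nat_lit 6478)))) (.a (.f (nat_lit 461) (nat_lit 493) (nat_lit 5485) (.f (nat_lit 334) (nat_lit 429) (nat_lit 5453) (.d (nat_lit 333) (nat_lit 301) (nat_lit 7469) (nat_lit 365) (nat_lit 7501)))) (.f (nat_lit 365) (nat_lit 333) (nat_lit 7501) (.f (nat_lit 397) (nat_lit 494) (nat_lit 7533) (.f (nat_lit 367) (nat_lit 335) (nat_lit 6478) (.d (nat_lit 396) (nat_lit 368) (nat_lit 1388) (nat_lit 395) (nat_lit 2411)))))))) (.a s80327 s73214))))))))))))))))))))))))))))))))))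
noncomputable def s80522 : Cert := .r (nat_lit 3773962425919908977913598863717109915100914787255802162031579661754111623572019322753817332049720508642501580050157706402150242162390168900014572309815216228268620382208) (.p (nat_lit 558) (.a (.f (nat_lit 559) (nat_lit 591) (nat_lit 4558) (.f (nat_lit 525) (nat_lit 561) (nat_lit 3597) (.d (nat_lit 557) (nat_lit 524) (nat_lit 3596) (nat_lit 589) (nat_lit 5581)))) (.a (.f (nat_lit 559) (nat_lit 591) (nat_lit 4558) (.f (nat_lit 561) (nat_lit 525) (nat_lit 3597) (.d (nat_lit 589) (nat_lit 557) (nat_lit 5581) (nat_lit 590) (nat_lit 1581)))) (.a (.f (nat_lit 559) (nat_lit 591) (nat_lit 4558) (.f (nat_lit 527) (nat_lit 430) (nat_lit 4526) (.d (nat_lit 557) (nat_lit 556) (nat_lit 2572) (nat_lit 589) (nat_lit 5581)))) (.a (.f (nat_lit 559) (nat_lit 591) (nat_lit 4558) (.f (nat_lit 527) (nat_lit 430) (nat_lit 4526) (.d (nat_lit 561) (nat_lit 525) (nat_lit 3597) (nat_lit 562) (nat_lit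 3598)))) (.f (nat_lit 461) (nat_lit 429) (nat_lit 7597) (.f (nat_lit 590) (nat_lit 493) (nat_lit 7629) (.d (nat_lit 589) (nat_lit 557) (nat_lit 5581) (nat_lit 621) (nat_lit 5613)))))))))
noncomputable def s80535 : Cert := .r (nat_lit 3773962425919908977913598863717109915100914787255802162031579661754111623572019322753817332049720508642501580050157706402150242162390168900014572309815216228268620382208) (.p (nat_lit 558) (.a (.f (nat_lit 559) (nat_lit 591) (nat_lit 4558) (.f (nat_lit 525) (nat_lit 561) (nat_lit 3597) (.d (nat_lit 557) (nat_lit 524) (nat_lit 3596) (nat_lit 589) (nat_lit 5581)))) (.a (.f (nat_lit 559) (nat_lit 591) (nat_lit 4558) (.f (nat_lit 561) (nat_lit 525) (nat_lit 3597) (.d (nat_lit 589) (nat_lit 557) (nat_lit 5581) (nat_lit 590) (nat_lit 1581)))) (.a (.f (nat_lit 559) (nat_lit 591) (nat_lit 4558) (.f (nat_lit 527) (nat_lit 430) (nat_lit 4526) (.d (nat_lit 557) (nat_lit 556) (nat_lit 2572) (nat_lit 589)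 (nat_lit 5581)))) (.a (.f (nat_lit 559) (nat_lit 591) (nat_lit 4558) (.f (nat_lit 527) (nat_lit 430) (nat_lit 4526) (.d (nat_lit 561) (nat_lit 525) (nat_lit 3597) (nat_lit 562) (nat_lit 3598)))) (.f (nat_lit 557) (nat_lit 589) (nat_lit 5581) (.f (nat_lit 525) (nat_lit 430) (nat_lit 5549) (.d (nat_lit 527) (nat_lit 556) (nat_lit 1548) (nat_lit 561) (nat_lit 525)))))))))
noncomputable def s80750 : Cert := .r (nat_lit 3773962425700235452738272624589311872816899454678490625392765685052352072949278387409341880963316519382513181713903223228220199077917418330699402496206195200152628625408) (.p (nat_lit 461) (.a (.f (nat_lit 428) (nat_lit 429) (nat_lit 3500) (.f (nat_lit 460) (nat_lit 427) (nat_lit 3499) (.f (nat_lit 459) (nat_lit 430) (nat_lit 2475) (.d (nat_lit 495) (nat_lit 494) (nat_lit 459) (nat_lit 527) (nat_lit 4527))))) (.a (.d (nat_lit 432) (nat_lit 433) (nat_lit 2477) (nat_lit 460) (nat_lit 2476)) (.f (nat_lit 432) (nat_lit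 433) (nat_lit 2477) (.f (nat_lit 495) (nat_lit 527) (nat_lit 4527) (.f (nat_lit 400) (nat_lit 368) (nat_lit 5487) (.f (nat_lit 429) (nat_lit 428) (nat_lit 3500) (.f (nat_lit 430) (nat_lit 401) (nat_lit 2445) (.f (nat_lit 398) (nat_lit 366) (nat_lit 4462) (.f (nat_lit 397) (nat_lit 396) (nat_lit 3468) (.d (nat_lit 494) (nat_lit 365) (nat_lit 7533) (nat_lit 526) (nat_lit 7565))))))))))))
noncomputable def s80755 : Cert := .r (nat_lit 3773962425700235452738272624589311872816899454678490625392765685052352072949278387409341880963316519382513181713903223228220199077917418330699402496206195200152628625408) (.p (nat_lit 526) (.a (.f (nat_lit 494) (nat_lit 558) (nat_lit 6574) (.d (nat_lit 399) (nat_lit 367) (nat_lit 5486) (nat_lit 430) (nat_lit 6542))) (.a (.f (nat_lit 495) (nat_lit 527) (nat_lit 4527) (.d (nat_lit 494) (nat_lit 399) (nat_lit 5518) (nat_lit 558) (nat_lit 6574))) (.a (.f (nat_lit 527) (nat_lit 495) (nat_lit 4527)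 (.f (nat_lit 525) (nat_lit 561) (nat_lit 525) (.f (nat_lit 494) (nat_lit 558) (nat_lit 6574) (.d (nat_lit 557) (nat_lit 430) (nat_lit 5549) (nat_lit 556) (nat_lit 1548))))) (.f (nat_lit 527) (nat_lit 495) (nat_lit 4527) (.f (nat_lit 525) (nat_lit 561) (nat_lit 525) (.f (nat_lit 524) (nat_lit 559) (nat_lit 524) (.d (nat_lit 556) (nat_lit 555) (nat_lit 1547) (nat_lit 557) (nat_lit 1548)))))))))
noncomputable def s80777 : Cert := .r (nat_lit 3773962425700235452738272624589311872816899454678490625392765685052352072949278387409341880963316519382513181713903223228220199077917418330699402496206195200152628625408) (.p (nat_lit 432) (.a (.d (nat_lit 461) (nat_lit 433) (nat_lit 2477) (nat_lit 460) (nat_lit 2476)) (.a (.p (nat_lit 399) (.a (.d (nat_lit 367) (nat_lit 335) (nat_lit 4431) (nat_lit 494) (nat_lit 5486)) (.a (.f (nat_lit 495) (nat_lit 527) (nat_lit 4527) (.d (nat_lit 494) (nat_lit 367) (nat_lit 5486) (nat_lit 526) (nat_lit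 5518))) (.a (.f (nat_lit 495) (nat_lit 527) (nat_lit 4527) (.f (nat_lit 400) (nat_lit 368) (nat_lit 5487) (.f (nat_lit 398) (nat_lit 366) (nat_lit 7534) (.f (nat_lit 397) (nat_lit 396) (nat_lit 396) (.f (nat_lit 461) (nat_lit 460) (nat_lit 2476) (.f (nat_lit 429) (nat_lit 428) (nat_lit 1420) (.d (nat_lit 365) (nat_lit 364) (nat_lit 3436) (nat_lit 494) (nat_lit 4461)))))))) (.f (nat_lit 495) (nat_lit 527) (nat_lit 4527) (.f (nat_lit 368) (nat_lit 400) (nat_lit 5487) (.d (nat_lit 367) (nat_lit 335) (nat_lit 4431) (nat_lit 336) (nat_lit 6479)))))))) (.a (.d (nat_lit 433) (nat_lit 434) (nat_lit 1454) (nat_lit 461) (nat_lit 2477)) (.p (nat_lit 399) (.a (.d (nat_lit 367) (nat_lit 335) (nat_lit 4431) (nat_lit 494) (nat_lit 5486)) (.a (.f (nat_lit 495) (nat_lit 527) (nat_lit 4527) (.d (nat_lit 494) (nat_lit 367) (nat_lit 5486) (nat_lit 526) (nat_lit 5518))) (.f (nat_lit 495) (nat_lit 527) (nat_lit 4527) (.f (nat_lit 400) (nat_lit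 368) (nat_lit 5487) (.f (nat_lit 433) (nat_lit 434) (nat_lit 1454) (.d (nat_lit 398) (nat_lit 366) (nat_lit 7534) (nat_lit 397) (nat_lit 397))))))))))))
noncomputable def s80797 : Cert := .r (nat_lit 3773962425700235452738272624589311872816899454678490625392765685052352072949278387409341880963316519382513181713903223228220199077917418330699402496206195200152628625408) (.p (nat_lit 432) (.a (.d (nat_lit 461) (nat_lit 433) (nat_lit 2477) (nat_lit 460) (nat_lit 2476)) (.a (.f (nat_lit 495) (nat_lit 527) (nat_lit 4527) (.f (nat_lit 400) (nat_lit 368) (nat_lit 5487) (.f (nat_lit 461) (nat_lit 460) (nat_lit 2476) (.f (nat_lit 429) (nat_lit 428) (nat_lit 3500) (.f (nat_lit 430) (nat_lit 401) (nat_lit 2445) (.f (nat_lit 398) (nat_lit 366) (nat_lit 4462) (.f (nat_lit 397) (nat_lit 396) (nat_lit 3468) (.f (nat_lit 365) (nat_lit 333) (nat_lit 4429) (.d (nat_lit 364) (nat_lit 332) (nat_lit 7500) (nat_lit 399) (nat_lit 3436))))))))))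 (.a (.d (nat_lit 433) (nat_lit 434) (nat_lit 1454) (nat_lit 461) (nat_lit 2477)) (.p (nat_lit 430) (.a (.f (nat_lit 495) (nat_lit 527) (nat_lit 4527) (.f (nat_lit 398) (nat_lit 366) (nat_lit 4462) (.d (nat_lit 433) (nat_lit 397) (nat_lit 3469) (nat_lit 434) (nat_lit 1454)))) (.a (.f (nat_lit 495) (nat_lit 527) (nat_lit 4527) (.f (nat_lit 400) (nat_lit 368) (nat_lit 5487) (.d (nat_lit 429) (nat_lit 401) (nat_lit 2445) (nat_lit 428) (nat_lit 428)))) (.f (nat_lit 429) (nat_lit 428) (nat_lit 428) (.f (nat_lit 433) (nat_lit 434) (nat_lit 1454) (.d (nat_lit 397) (nat_lit 396) (nat_lit 3468) (nat_lit 398) (nat_lit 3469)))))))))))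
noncomputable def s80840 : Cert := .r (nat_lit 3773962425700235452738272624589311872827990133454973884831079341788924407763024135710845147263998437704971666945125725720380096702333976643088967340051809487468525256704) (.p (nat_lit 430) (.a (.f (nat_lit 429) (nat_lit 428) (nat_lit 428) (.f (nat_lit 433) (nat_lit 434) (nat_lit 1454) (.d (nat_lit 397) (nat_lit 396) (nat_lit 3468) (nat_lit 398) (nat_lit 3469)))) (.a (.f (nat_lit 433) (nat_lit 434) (nat_lit 1454) (.f (nat_lit 429) (nat_lit 428) (nat_lit 428) (.d (nat_lit 401) (nat_lit 400) (nat_lit 2445) (nat_lit 402) (nat_lit 2446)))) (.a (.f (nat_lit 433) (nat_lit 434) (nat_lit 1454) (.f (nat_lit 398) (nat_lit 397) (nat_lit 3469) (.f (nat_lit 401) (nat_lit 402) (nat_lit 2446) (.f (nat_lit 400) (nat_lit 429) (nat_lit 2445) (.f (nat_lit 368) (nat_lit 336) (nat_lit 5455) (.f (nat_lit 367) (nat_lit 335) (nat_lit 7503) (.d (nat_lit 366) (nat_lit 334) (nat_lit 4430) (nat_lit 365)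 (nat_lit 365)))))))) (.a (.f (nat_lit 433) (nat_lit 434) (nat_lit 1454) (.f (nat_lit 398) (nat_lit 397) (nat_lit 3469) (.f (nat_lit 366) (nat_lit 334) (nat_lit 4430) (.f (nat_lit 367) (nat_lit 335) (nat_lit 6478) (.f (nat_lit 399) (nat_lit 494) (nat_lit 5486) (.f (nat_lit 401) (nat_lit 402) (nat_lit 2446) (.d (nat_lit 365) (nat_lit 333) (nat_lit 7501) (nat_lit 400) (nat_lit 3437)))))))) (.f (nat_lit 429) (nat_lit 428) (nat_lit 428) (.f (nat_lit 397) (nat_lit 396) (nat_lit 3468) (.f (nat_lit 494) (nat_lit 526) (nat_lit 7565) (.d (nat_lit 365) (nat_lit 333) (nat_lit 4429) (nat_lit 398) (nat_lit 7533))))))))))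
noncomputable def s80842 : Cert := .r (nat_lit 3773962425700235452738272624589311872811354115290248995673608856684065905542405513258590247812975560221283939098291971982140250265709139174504620074283388056494680309760) (.p (nat_lit 431) (.a s80750 (.a s80755 (.a s80777 (.a s80797 (.p (nat_lit 432) (.a (.d (nat_lit 461) (nat_lit 433) (nat_lit 2477) (nat_lit 460) (nat_lit 2476)) (.a (.p (nat_lit 494) (.a (.f (nat_lit 399) (nat_lit 367) (nat_lit 5486) (.d (nat_lit 526) (nat_lit 430) (nat_lit 6542) (nat_lit 558) (nat_lit 6574))) (.a (.f (nat_lit 526) (nat_lit 558) (nat_lit 6574) (.f (nat_lit 430) (nat_lit 399) (nat_lit 6542) (.d (nat_lit 429) (nat_lit 397) (nat_lit 7565) (nat_lit 428) (nat_lit 428)))) (.a (.f (nat_lit 461) (nat_lit 460) (nat_lit 2476) (.f (nat_lit 429) (nat_lit 428) (nat_lit 3500) (.f (nat_lit 526) (nat_lit 558) (nat_lit 6574) (.d (nat_lit 397) (nat_lit 430) (nat_lit 7565) (nat_lit 493) (nat_lit 4493))))) (.a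 (.f (nat_lit 461) (nat_lit 460) (nat_lit 2476) (.f (nat_lit 526) (nat_lit 558) (nat_lit 6574) (.f (nat_lit 429) (nat_lit 428) (nat_lit 3500) (.d (nat_lit 397) (nat_lit 365) (nat_lit 4461) (nat_lit 493) (nat_lit 4493))))) (.f (nat_lit 367) (nat_lit 399) (nat_lit 5486) (.f (nat_lit 461) (nat_lit 460) (nat_lit 2476) (.f (nat_lit 429) (nat_lit 428) (nat_lit 3500) (.f (nat_lit 397) (nat_lit 365) (nat_lit 4461) (.f (nat_lit 430) (nat_lit 396) (nat_lit 3468) (.f (nat_lit 400) (nat_lit 401) (nat_lit 2445) (.d (nat_lit 368) (nat_lit 335) (nat_lit 7503) (nat_lit 336) (nat_lit 5455))))))))))))) (.a (.d (nat_lit 433) (nat_lit 434) (nat_lit 1454) (nat_lit 461) (nat_lit 2477)) s80840)))))))))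
noncomputable def s80867 : Cert := .r (nat_lit 3773962425700235452738272624589311872811354115290248995673608856684065905542405513258590247812975560221283939098291971982140250265709139174504620074283388056494680309760) (.p (nat_lit 431) (.a s80750 (.a s80755 (.a s80777 (.a s80797 (.p (nat_lit 432) (.a (.d (nat_lit 461) (nat_lit 433) (nat_lit 2477) (nat_lit 460) (nat_lit 2476)) (.a (.p (nat_lit 400) (.a (.f (nat_lit 368) (nat_lit 336) (nat_lit 5455) (.f (nat_lit 367) (nat_lit 335) (nat_lit 7503) (.f (nat_lit 399) (nat_lit 494) (nat_lit 5486) (.f (nat_lit 366) (nat_lit 334) (nat_lit 7502) (.d (nat_lit 365) (nat_lit 364) (nat_lit 364) (nat_lit 401) (nat_lit 365)))))) (.a (.f (nat_lit 368) (nat_lit 336) (nat_lit 5455) (.f (nat_lit 367) (nat_lit 335) (nat_lit 7503) (.f (nat_lit 399) (nat_lit 494) (nat_lit 5486) (.f (nat_lit 369) (nat_lit 337) (nat_lit 6480) (.d (nat_lit 398) (nat_lit 370) (nat_lit 1390) (nat_lit 397) (nat_lit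 2413)))))) (.a (.f (nat_lit 461) (nat_lit 460) (nat_lit 2476) (.f (nat_lit 429) (nat_lit 428) (nat_lit 3500) (.f (nat_lit 430) (nat_lit 401) (nat_lit 2445) (.f (nat_lit 397) (nat_lit 396) (nat_lit 3468) (.d (nat_lit 365) (nat_lit 333) (nat_lit 4429) (nat_lit 494) (nat_lit 4461)))))) (.f (nat_lit 368) (nat_lit 336) (nat_lit 5455) (.f (nat_lit 367) (nat_lit 335) (nat_lit 7503) (.f (nat_lit 369) (nat_lit 337) (nat_lit 6480) (.f (nat_lit 461) (nat_lit 460) (nat_lit 2476) (.f (nat_lit 429) (nat_lit 428) (nat_lit 3500) (.f (nat_lit 401) (nat_lit 430) (nat_lit 2445) (.d (nat_lit 366) (nat_lit 365) (nat_lit 365) (nat_lit 402) (nat_lit 366)))))))))))) (.a (.d (nat_lit 433) (nat_lit 434) (nat_lit 1454) (nat_lit 461) (nat_lit 2477)) s80840)))))))))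
noncomputable def s80874 : Cert := .r (nat_lit 3773962425700235452738272624589311872811354115290248995673608856684065905542405513258590247812975560221283939098291971982140250265709139174504620074283388056494680309760) (.p (nat_lit 461) (.a (.f (nat_lit 432) (nat_lit 433) (nat_lit 2477) (.f (nat_lit 460) (nat_lit 431) (nat_lit 2476) (.d (nat_lit 492) (nat_lit 491) (nat_lit 1483) (nat_lit 493) (nat_lit 1484)))) (.a (.f (nat_lit 492) (nat_lit 493) (nat_lit 1484) (.f (nat_lit 460) (nat_lit 491) (nat_lit 1483) (.d (nat_lit 428) (nat_lit 427) (nat_lit 3499) (nat_lit 429) (nat_lit 3500)))) (.a (.f (nat_lit 429) (nat_lit 428) (nat_lit 3500) (.p (nat_lit 397) (.a (.f (nat_lit 493) (nat_lit 492) (nat_lit 1484) (.d (nat_lit 494) (nat_lit 365) (nat_lit 4461) (nat_lit 526) (nat_lit 4493))) (.a (.f (nat_lit 493) (nat_lit 492) (nat_lit 1484) (.f (nat_lit 526) (nat_lit 494) (nat_lit 4493) (.f (nat_lit 525) (nat_lit 558) (nat_lit 4525)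 (.d (nat_lit 398) (nat_lit 366) (nat_lit 6509) (nat_lit 430) (nat_lit 6541))))) (.a (.f (nat_lit 365) (nat_lit 494) (nat_lit 4461) (.f (nat_lit 366) (nat_lit 334) (nat_lit 6477) (.f (nat_lit 364) (nat_lit 332) (nat_lit 7500) (.d (nat_lit 493) (nat_lit 396) (nat_lit 7532) (nat_lit 398) (nat_lit 6509))))) (.a (.f (nat_lit 365) (nat_lit 494) (nat_lit 4461) (.f (nat_lit 334) (nat_lit 366) (nat_lit 6477) (.f (nat_lit 333) (nat_lit 302) (nat_lit 6445) (.d (nat_lit 332) (nat_lit 300) (nat_lit 7468) (nat_lit 364) (nat_lit 7500))))) (.f (nat_lit 493) (nat_lit 492) (nat_lit 1484) (.f (nat_lit 366) (nat_lit 398) (nat_lit 6509) (.f (nat_lit 365) (nat_lit 334) (nat_lit 6477) (.d (nat_lit 364) (nat_lit 332) (nat_lit 7500) (nat_lit 396) (nat_lit 7532))))))))))) (.f (nat_lit 432) (nat_lit 433) (nat_lit 2477) (.f (nat_lit 460) (nat_lit 431) (nat_lit 2476) (.d (nat_lit 428) (nat_lit 427) (nat_lit 3499) (nat_lit 429) (nat_lit 3500))))))))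
noncomputable def s80882 : Cert := .r (nat_lit 3773962425700235452738272624589311872811354115290248995673608856684065905542405513258590247812975560221283939098291971982140250265709139174504620074283388056494680309760) (.p (nat_lit 461) (.a (.f (nat_lit 432) (nat_lit 433) (nat_lit 2477) (.f (nat_lit 460) (nat_lit 431) (nat_lit 2476) (.d (nat_lit 492) (nat_lit 491) (nat_lit 1483) (nat_lit 493) (nat_lit 1484)))) (.a (.f (nat_lit 492) (nat_lit 493) (nat_lit 1484) (.f (nat_lit 460) (nat_lit 491) (nat_lit 1483) (.d (nat_lit 428) (nat_lit 427) (nat_lit 3499) (nat_lit 429) (nat_lit 3500)))) (.a (.f (nat_lit 429) (nat_lit 428) (nat_lit 3500) (.p (nat_lit 397) (.a (.f (nat_lit 493) (nat_lit 492) (nat_lit 1484) (.d (nat_lit 494) (nat_lit 365) (nat_lit 4461) (nat_lit 526) (nat_lit 4493))) (.a (.f (nat_lit 493) (nat_lit 492) (nat_lit 1484) (.f (nat_lit 398) (nat_lit 366) (nat_lit 6509) (.f (nat_lit 432) (nat_lit 433) (nat_lit 2477)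 (.f (nat_lit 396) (nat_lit 364) (nat_lit 7532) (.d (nat_lit 431) (nat_lit 399) (nat_lit 396) (nat_lit 430) (nat_lit 3468)))))) (.a (.f (nat_lit 365) (nat_lit 494) (nat_lit 4461) (.f (nat_lit 366) (nat_lit 334) (nat_lit 6477) (.f (nat_lit 364) (nat_lit 332) (nat_lit 7500) (.d (nat_lit 493) (nat_lit 396) (nat_lit 7532) (nat_lit 398) (nat_lit 6509))))) (.f (nat_lit 365) (nat_lit 494) (nat_lit 4461) (.f (nat_lit 334) (nat_lit 366) (nat_lit 6477) (.f (nat_lit 333) (nat_lit 302) (nat_lit 6445) (.d (nat_lit 332) (nat_lit 300) (nat_lit 7468) (nat_lit 364) (nat_lit 7500)))))))))) (.f (nat_lit 432) (nat_lit 433) (nat_lit 2477) (.f (nat_lit 460) (nat_lit 431) (nat_lit 2476) (.d (nat_lit 428) (nat_lit 427) (nat_lit 3499) (nat_lit 429) (nat_lit 3500))))))))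
noncomputable def s80901 : Cert := .r (nat_lit 3773962425700235452738272624589311872811354115290248995673608856684065905542405513258590247812975560221283939098291971982140250265709139174504620074283388056494680309760) (.p (nat_lit 461) (.a (.f (nat_lit 432) (nat_lit 433) (nat_lit 2477) (.f (nat_lit 460) (nat_lit 431) (nat_lit 2476) (.d (nat_lit 492) (nat_lit 491) (nat_lit 1483) (nat_lit 493) (nat_lit 1484)))) (.a (.f (nat_lit 492) (nat_lit 493) (nat_lit 1484) (.f (nat_lit 460) (nat_lit 491) (nat_lit 1483) (.d (nat_lit 428) (nat_lit 427) (nat_lit 3499) (nat_lit 429) (nat_lit 3500)))) (.a (.f (nat_lit 493) (nat_lit 492) (nat_lit 1484) (.p (nat_lit 525) (.a (.f (nat_lit 429) (nat_lit 428) (nat_lit 3500) (.d (nat_lit 430) (nat_lit 398) (nat_lit 6541) (nat_lit 557) (nat_lit 6573))) (.a (.f (nat_lit 557) (nat_lit 430) (nat_lit 6573) (.f (nat_lit 558) (nat_lit 590) (nat_lit 4557) (.f (nat_lit 559) (nat_lit 524) (nat_lit 3596)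 (.d (nat_lit 556) (nat_lit 527) (nat_lit 2572) (nat_lit 588) (nat_lit 5580))))) (.a (.f (nat_lit 429) (nat_lit 428) (nat_lit 3500) (.f (nat_lit 432) (nat_lit 433) (nat_lit 2477) (.f (nat_lit 556) (nat_lit 524) (nat_lit 5548) (.f (nat_lit 557) (nat_lit 588) (nat_lit 5580) (.f (nat_lit 558) (nat_lit 590) (nat_lit 4557) (.f (nat_lit 527) (nat_lit 559) (nat_lit 2572) (.f (nat_lit 431) (nat_lit 495) (nat_lit 4527) (.f (nat_lit 494) (nat_lit 589) (nat_lit 6605) (.f (nat_lit 397) (nat_lit 365) (nat_lit 4461) (.f (nat_lit 399) (nat_lit 367) (nat_lit 5486) (.d (nat_lit 398) (nat_lit 366) (nat_lit 6509) (nat_lit 396) (nat_lit 396)))))))))))) (.f (nat_lit 429) (nat_lit 428) (nat_lit 3500) (.f (nat_lit 398) (nat_lit 430) (nat_lit 6541) (.f (nat_lit 397) (nat_lit 366) (nat_lit 6509) (.f (nat_lit 365) (nat_lit 494) (nat_lit 4461) (.d (nat_lit 364) (nat_lit 332) (nat_lit 7500) (nat_lit 396) (nat_lit 7532))))))))))) (.f (nat_lit 432) (nat_lit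 433) (nat_lit 2477) (.f (nat_lit 460) (nat_lit 431) (nat_lit 2476) (.d (nat_lit 428) (nat_lit 427) (nat_lit 3499) (nat_lit 429) (nat_lit 3500))))))))
noncomputable def s81246 : Cert := .r (nat_lit 3773962425700235452789419352837689089530310204303180232426993888653488792878081940885092338381798600141335034290884224437622854705202265284023639707812847322952938553344) (.p (nat_lit 431) (.a (.f (nat_lit 495) (nat_lit 527) (nat_lit 4527) (.d (nat_lit 399) (nat_lit 367) (nat_lit 5486) (nat_lit 526) (nat_lit 5518))) (.a (.f (nat_lit 495) (nat_lit 527) (nat_lit 4527) (.d (nat_lit 526) (nat_lit 399) (nat_lit 5518) (nat_lit 558) (nat_lit 6574))) (.a (.f (nat_lit 527) (nat_lit 495) (nat_lit 4527) (.f (nat_lit 526) (nat_lit 558) (nat_lit 6574) (.f (nat_lit 525) (nat_lit 561) (nat_lit 525) (.d (nat_lit 430) (nat_lit 557) (nat_lit 5549) (nat_lit 559) (nat_lit 4526))))) (.a (.f (nat_lit 526) (nat_lit 558) (nat_lit 6574) (.d (nat_lit 399)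 (nat_lit 367) (nat_lit 5486) (nat_lit 430) (nat_lit 6542))) (.f (nat_lit 495) (nat_lit 527) (nat_lit 4527) (.f (nat_lit 399) (nat_lit 367) (nat_lit 5486) (.f (nat_lit 493) (nat_lit 492) (nat_lit 2508) (.f (nat_lit 398) (nat_lit 366) (nat_lit 7534) (.f (nat_lit 430) (nat_lit 525) (nat_lit 5517) (.f (nat_lit 429) (nat_lit 428) (nat_lit 428) (.d (nat_lit 400) (nat_lit 368) (nat_lit 6511) (nat_lit 401) (nat_lit 1421)))))))))))))
noncomputable def s81251 : Cert := .r (nat_lit 3773962425700235452789419352837689089530310204303180232426993888653488792878081940885092338381798600141335034290884224437622854705202265284023639707812847322952938553344) (.p (nat_lit 431) (.a (.f (nat_lit 495) (nat_lit 527) (nat_lit 4527) (.d (nat_lit 399) (nat_lit 367) (nat_lit 5486) (nat_lit 526) (nat_lit 5518))) (.a (.f (nat_lit 495) (nat_lit 527) (nat_lit 4527) (.d (nat_lit 526) (nat_lit 399) (nat_lit 5518) (nat_lit 558) (nat_lit 6574))) (.a (.f (nat_lit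 527) (nat_lit 495) (nat_lit 4527) (.f (nat_lit 526) (nat_lit 558) (nat_lit 6574) (.f (nat_lit 525) (nat_lit 561) (nat_lit 525) (.d (nat_lit 430) (nat_lit 557) (nat_lit 5549) (nat_lit 559) (nat_lit 4526))))) (.a (.f (nat_lit 526) (nat_lit 558) (nat_lit 6574) (.d (nat_lit 399) (nat_lit 367) (nat_lit 5486) (nat_lit 430) (nat_lit 6542))) (.f (nat_lit 495) (nat_lit 527) (nat_lit 4527) (.f (nat_lit 465) (nat_lit 466) (nat_lit 1486) (.f (nat_lit 399) (nat_lit 367) (nat_lit 5486) (.f (nat_lit 433) (nat_lit 434) (nat_lit 2478) (.f (nat_lit 432) (nat_lit 461) (nat_lit 2477) (.f (nat_lit 400) (nat_lit 368) (nat_lit 5487) (.d (nat_lit 398) (nat_lit 366) (nat_lit 7534) (nat_lit 397) (nat_lit 397)))))))))))))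
noncomputable def s81253 : Cert := .r (nat_lit 3773962425700235452789419352837689089530310204303180232426993888653488792878081940885092338381798600141335034290884224437622854705202265284023639707812847322952938553344) (.p (nat_lit 431) (.a (.f (nat_lit 495) (nat_lit 527) (nat_lit 4527) (.d (nat_lit 399) (nat_lit 367) (nat_lit 5486) (nat_lit 526) (nat_lit 5518))) (.a (.f (nat_lit 495) (nat_lit 527) (nat_lit 4527) (.d (nat_lit 526) (nat_lit 399) (nat_lit 5518) (nat_lit 558) (nat_lit 6574))) (.a (.f (nat_lit 527) (nat_lit 495) (nat_lit 4527) (.f (nat_lit 526) (nat_lit 558) (nat_lit 6574) (.f (nat_lit 525) (nat_lit 561) (nat_lit 525) (.d (nat_lit 430) (nat_lit 557) (nat_lit 5549) (nat_lit 559) (nat_lit 4526))))) (.a (.f (nat_lit 526) (nat_lit 558) (nat_lit 6574) (.d (nat_lit 399) (nat_lit 367) (nat_lit 5486) (nat_lit 430) (nat_lit 6542))) (.f (nat_lit 495) (nat_lit 527) (nat_lit 4527) (.f (nat_lit 465) (nat_lit 466) (nat_lit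 1486) (.f (nat_lit 430) (nat_lit 429) (nat_lit 3501) (.f (nat_lit 399) (nat_lit 367) (nat_lit 5486) (.f (nat_lit 398) (nat_lit 366) (nat_lit 7534) (.f (nat_lit 397) (nat_lit 365) (nat_lit 7533) (.d (nat_lit 433) (nat_lit 432) (nat_lit 3469) (nat_lit 434) (nat_lit 2478)))))))))))))
noncomputable def s81259 : Cert := .r (nat_lit 3773962425919908977913598863693292863783196340666281919494705529172411503465017284554513461202969320449601756898605078052361637646095102592020442191289154402102175334400) (.p (nat_lit 558) (.a (.f (nat_lit 461) (nat_lit 429) (nat_lit 7597) (.f (nat_lit 590) (nat_lit 493) (nat_lit 7629) (.d (nat_lit 589) (nat_lit 557) (nat_lit 5581) (nat_lit 621) (nat_lit 5613)))) (.a (.f (nat_lit 559) (nat_lit 591) (nat_lit 4558) (.f (nat_lit 561) (nat_lit 525) (nat_lit 3597) (.d (nat_lit 589) (nat_lit 557) (nat_lit 5581) (nat_lit 590) (nat_lit 1581)))) (.a (.f (nat_lit 559) (nat_lit 591) (nat_lit 4558) (.f (nat_lit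 561) (nat_lit 525) (nat_lit 3597) (.f (nat_lit 590) (nat_lit 589) (nat_lit 1581) (.d (nat_lit 461) (nat_lit 429) (nat_lit 7597) (nat_lit 493) (nat_lit 7629))))) (.f (nat_lit 559) (nat_lit 591) (nat_lit 4558) (.f (nat_lit 561) (nat_lit 525) (nat_lit 3597) (.f (nat_lit 562) (nat_lit 527) (nat_lit 3598) (.d (nat_lit 594) (nat_lit 593) (nat_lit 558) (nat_lit 595) (nat_lit 559)))))))))
noncomputable def s81263 : Cert := .r (nat_lit 3773962425919908977913598863693292863783196340666281919494705529172411503465017284554513461202969320449601756898605078052361637646095102592020442191289154402102175334400) (.p (nat_lit 558) (.a (.f (nat_lit 461) (nat_lit 429) (nat_lit 7597) (.f (nat_lit 590) (nat_lit 493) (nat_lit 7629) (.d (nat_lit 589) (nat_lit 557) (nat_lit 5581) (nat_lit 621) (nat_lit 5613)))) (.a (.f (nat_lit 559) (nat_lit 591) (nat_lit 4558) (.f (nat_lit 561) (nat_lit 525) (nat_lit 3597) (.d (nat_lit 589) (nat_lit 557) (nat_lit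 5581) (nat_lit 590) (nat_lit 1581)))) (.a (.f (nat_lit 559) (nat_lit 591) (nat_lit 4558) (.f (nat_lit 561) (nat_lit 525) (nat_lit 3597) (.f (nat_lit 590) (nat_lit 589) (nat_lit 1581) (.d (nat_lit 461) (nat_lit 429) (nat_lit 7597) (nat_lit 493) (nat_lit 7629))))) (.a (.f (nat_lit 461) (nat_lit 429) (nat_lit 7597) (.f (nat_lit 590) (nat_lit 493) (nat_lit 7629) (.d (nat_lit 591) (nat_lit 559) (nat_lit 4558) (nat_lit 623) (nat_lit 4590)))) (.f (nat_lit 429) (nat_lit 461) (nat_lit 7597) (.f (nat_lit 430) (nat_lit 397) (nat_lit 7565) (.d (nat_lit 557) (nat_lit 525) (nat_lit 5549) (nat_lit 589) (nat_lit 5581)))))))))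
end Vale.Agent.Lib.P062.Full
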