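import Vale.Agent.Lib.P062.Full.A0_0

set_option maxRecDepth 100000
set_option linter.all false

namespace Vale.Agent.Lib.P062.Full
open Vale.Agent.Lib.P062 Vale.Agent.Lib.P062.V2

noncomputable def s81284 : Cert := .r (nat_lit 3773962425700235452738272624553586295834776445405968631868297657811515725381902455959634441542848777931934204370963029457457343491266539712513424896494295317245012738048) (.p (nat_lit 462) (.a (.p (nat_lit 494) (.a s64408 (.a s64425 (.a s64445 (.a s64464 (.a s64465 (.a s64466 (.a s64476 (.a s64485 (.a s64508 (.a s64530 (.a s64589 (.a s64598 (.a s64623 (.a s64636 (.a s64638 (.a s64653 (.a s64655 s64673)))))))))))))))))) (.a (.p (nat_lit 494) (.a s64408 (.a s64425 (.a s64466 (.a s64464 (.a s64465 (.a s64476 (.a s64485 (.a s64508 (.a s64530 (.a s64589 (.a s64598 (.a s64623 (.a s64636 (.a s64638 (.a (.p (nat_lit 463) (.a s64407 (.a (.p (nat_lit 465) (.a (.f (nat_lit 430) (nat_lit 429) (nat_lit 3501) (.d (nat_lit 466) (nat_lit 431) (nat_lit 3502) (nat_lit 495) (nat_lit 1486))) (.a (.f (nat_lit 466) (nat_lit 495) (nat_lit 1486) (.d (nat_lit 498) (nat_lit 497) (nat_lit 462) (nat_lit 499) (nat_lit 463))) (.f (nat_lit 429) (nat_lit 430) (nat_lit 3501) (.f (nat_lit 461) (nat_lit 428) (nat_lit 3500) (.d (nat_lit 433) (nat_lit 432) (nat_lit 2477) (nat_lit 434) (nat_lit 2478))))))) (.a s64501 (.a s64528 (.a (.p (nat_lit 465) (.a (.f (nat_lit 466) (nat_lit 495) (nat_lit 1486) (.d (nat_lit 498) (nat_lit 497) (nat_lit 462) (nat_lit 499) (nat_lit 463))) (.f (nat_lit 429) (nat_lit 430) (nat_lit 3501) (.f (nat_lit 461) (nat_lit 428) (nat_lit 3500) (.d (nat_lit 433) (nat_lit 432) (nat_lit 2477) (nat_lit 434) (nat_lit 2478)))))) (.a s64647 (.a s64597 (.a s64651 s64652))))))))) (.a s64655 s64673))))))))))))))))) (.a (.p (nat_lit 494) (.a s64408 (.a s64425 (.a s64445 (.a s64464 (.a s64465 (.a s64466 (.a s64476 (.a s64485 (.a s64508 (.a s64530 (.a s64589 (.a s64598 (.a s64623 (.a s64636 (.a s64638 (.a s64653 (.a s64655 (.p (nat_lit 463) (.a (.f (nat_lit 465) (nat_lit 493) (nat_lit 1485) (.f (nat_lit 430) (nat_lit 429) (nat_lit 3501) (.d (nat_lit 466) (nat_lit 431) (nat_lit 3502) (nat_lit 495) (nat_lit 1486)))) (.a (.f (nat_lit 465) (nat_lit 493) (nat_lit 1485) (.f (nat_lit 466) (nat_lit 495) (nat_lit 1486) (.d (nat_lit 498) (nat_lit 497) (nat_lit 462) (nat_lit 499) (nat_lit 463)))) (.a (.p (nat_lit 461) (.a (.f (nat_lit 493) (nat_lit 492) (nat_lit 1484) (.f (nat_lit 429) (nat_lit 428) (nat_lit 3500) (.f (nat_lit 397) (nat_lit 365) (nat_lit 4461) (.f (nat_lit 398) (nat_lit 366) (nat_lit 6509) (.f (nat_lit 430) (nat_lit 525) (nat_lit 5517) (.f (nat_lit 432) (nat_lit 433) (nat_lit 2477) (.d (nat_lit 431) (nat_lit 396) (nat_lit 3468) (nat_lit 460) (nat_lit 2476)))))))) (.a (.f (nat_lit 493) (nat_lit 492) (nat_lit 1484) (.f (nat_lit 432) (nat_lit 433) (nat_lit 2477) (.f (nat_lit 460) (nat_lit 431) (nat_lit 2476) (.d (nat_lit 459) (nat_lit 458) (nat_lit 458) (nat_lit 495) (nat_lit 459))))) (.a (.f (nat_lit 493) (nat_lit 492) (nat_lit 1484) (.f (nat_lit 429) (nat_lit 428) (nat_lit 3500) (.f (nat_lit 397) (nat_lit 365) (nat_lit 4461) (.f (nat_lit 398) (nat_lit 366) (nat_lit 6509) (.f (nat_lit 430) (nat_lit 525) (nat_lit 5517) (.f (nat_lit 495) (nat_lit 527) (nat_lit 4494) (.f (nat_lit 399) (nat_lit 367) (nat_lit 6510) (.f (nat_lit 400) (nat_lit 401) (nat_lit 1421) (.d (nat_lit 368) (nat_lit 369) (nat_lit 2413) (nat_lit 432) (nat_lit 5487)))))))))) (.a (.f (nat_lit 493) (nat_lit 492) (nat_lit 1484) (.f (nat_lit 429) (nat_lit 428) (nat_lit 3500) (.f (nat_lit 397) (nat_lit 365) (nat_lit 4461) (.f (nat_lit 398) (nat_lit 366) (nat_lit 6509) (.f (nat_lit 430) (nat_lit 525) (nat_lit 5517) (.f (nat_lit 495) (nat_lit 527) (nat_lit 4494) (.f (nat_lit 399) (nat_lit 367) (nat_lit 6510) (.f (nat_lit 400) (nat_lit 401) (nat_lit 1421) (.d (nat_lit 368) (nat_lit 369) (nat_lit 2413) (nat_lit 431) (nat_lit 6511)))))))))) (.f (nat_lit 429) (nat_lit 428) (nat_lit 3500) (.f (nat_lit 432) (nat_lit 433) (nat_lit 2477) (.f (nat_lit 431) (nat_lit 460) (nat_lit 2476) (.f (nat_lit 495) (nat_lit 527) (nat_lit 4527) (.f (nat_lit 400) (nat_lit 368) (nat_lit 5487) (.f (nat_lit 430) (nat_lit 401) (nat_lit 2445) (.d (nat_lit 397) (nat_lit 365) (nat_lit 4461) (nat_lit 396) (nat_lit 3468))))))))))))) (.a (.p (nat_lit 465) (.a (.f (nat_lit 430) (nat_lit 429) (nat_lit 3501) (.d (nat_lit 466) (nat_lit 431) (nat_lit 3502) (nat_lit 495) (nat_lit 1486))) (.a (.f (nat_lit 466) (nat_lit 495) (nat_lit 1486) (.d (nat_lit 498) (nat_lit 497) (nat_lit 462) (nat_lit 499) (nat_lit 463))) (.f (nat_lit 429) (nat_lit 430) (nat_lit 3501) (.f (nat_lit 461) (nat_lit 428) (nat_lit 3500) (.d (nat_lit 433) (nat_lit 432) (nat_lit 2477) (nat_lit 434) (nat_lit 2478))))))) (.f (nat_lit 465) (nat_lit 493) (nat_lit 1485) (.f (nat_lit 430) (nat_lit 429) (nat_lit 3501) (.f (nat_lit 466) (nat_lit 431) (nat_lit 3502) (.d (nat_lit 434) (nat_lit 433) (nat_lit 2478) (nat_lit 435) (nat_lit 2479)))))))))))))))))))))))))))) (.a (.p (nat_lit 526) (.a s64792 (.a s64794 (.a s64804 (.a s64807 (.a s64810 (.a s64887 (.a s64896 (.a (.p (nat_lit 494) (.a (.p (nat_lit 527) (.a (.f (nat_lit 559) (nat_lit 430) (nat_lit 4526) (.d (nat_lit 561) (nat_lit 525) (nat_lit 525) (nat_lit 562) (nat_lit 3598))) (.a (.f (nat_lit 525) (nat_lit 561) (nat_lit 525) (.f (nat_lit 493) (nat_lit 492) (nat_lit 3564) (.d (nat_lit 557) (nat_lit 556) (nat_lit 1548) (nat_lit 589) (nat_lit 6605)))) (.f (nat_lit 559) (nat_lit 430) (nat_lit 4526) (.d (nat_lit 591) (nat_lit 495) (nat_lit 7630) (nat_lit 558) (nat_lit 4558)))))) (.a s64606 (.a s64560 (.a s64907 (.a s64915 (.a (.p (nat_lit 430) (.a (.f (nat_lit 527) (nat_lit 559) (nat_lit 4526) (.d (nat_lit 525) (nat_lit 557) (nat_lit 5549) (nat_lit 561) (nat_lit 525))) (.a (.f (nat_lit 527) (nat_lit 559) (nat_lit 4526) (.f (nat_lit 398) (nat_lit 495) (nat_lit 4494) (.d (nat_lit 399) (nat_lit 367) (nat_lit 6510) (nat_lit 431) (nat_lit 6542)))) (.f (nat_lit 525) (nat_lit 557) (nat_lit 5549) (.f (nat_lit 398) (nat_lit 493) (nat_lit 5517) (.d (nat_lit 399) (nat_lit 367) (nat_lit 6510) (nat_lit 431) (nat_lit 6542))))))) (.a (.p (nat_lit 430) (.a (.f (nat_lit 429) (nat_lit 397) (nat_lit 7565) (.f (nat_lit 431) (nat_lit 399) (nat_lit 6542) (.f (nat_lit 461) (nat_lit 558) (nat_lit 7597) (.d (nat_lit 432) (nat_lit 460) (nat_lit 1452) (nat_lit 465) (nat_lit 429))))) (.a (.f (nat_lit 525) (nat_lit 557) (nat_lit 5549) (.f (nat_lit 398) (nat_lit 493) (nat_lit 5517) (.d (nat_lit 399) (nat_lit 367) (nat_lit 6510) (nat_lit 431) (nat_lit 6542)))) (.f (nat_lit 525) (nat_lit 557) (nat_lit 5549) (.f (nat_lit 493) (nat_lit 398) (nat_lit 5517) (.d (nat_lit 527) (nat_lit 492) (nat_lit 3564) (nat_lit 561) (nat_lit 525))))))) (.p (nat_lit 430) (.a (.f (nat_lit 527) (nat_lit 559) (nat_lit 4526) (.f (nat_lit 398) (nat_lit 495) (nat_lit 4494) (.d (nat_lit 399) (nat_lit 367) (nat_lit 6510) (nat_lit 431) (nat_lit 6542)))) (.a (.f (nat_lit 429) (nat_lit 397) (nat_lit 7565) (.f (nat_lit 431) (nat_lit 399) (nat_lit 6542) (.f (nat_lit 461) (nat_lit 558) (nat_lit 7597) (.d (nat_lit 432) (nat_lit 460) (nat_lit 1452) (nat_lit 465) (nat_lit 429))))) (.f (nat_lit 527) (nat_lit 559) (nat_lit 4526) (.f (nat_lit 525) (nat_lit 557) (nat_lit 5549) (.d (nat_lit 398) (nat_lit 493) (nat_lit 5517) (nat_lit 495) (nat_lit 4494))))))))))))))) (.a (.p (nat_lit 494) (.a (.p (nat_lit 527) (.a (.f (nat_lit 559) (nat_lit 430) (nat_lit 4526) (.d (nat_lit 561) (nat_lit 525) (nat_lit 525) (nat_lit 562) (nat_lit 3598))) (.a (.f (nat_lit 525) (nat_lit 561) (nat_lit 525) (.f (nat_lit 493) (nat_lit 492) (nat_lit 3564) (.d (nat_lit 557) (nat_lit 556) (nat_lit 1548) (nat_lit 589) (nat_lit 6605)))) (.f (nat_lit 559) (nat_lit 430) (nat_lit 4526) (.d (nat_lit 591) (nat_lit 495) (nat_lit 7630) (nat_lit 558) (nat_lit 4558)))))) (.a s64606 (.a s64560 (.a (.p (nat_lit 558) (.a (.f (nat_lit 559) (nat_lit 591) (nat_lit 4558) (.f (nat_lit 527) (nat_lit 430) (nat_lit 4526) (.d (nat_lit 557) (nat_lit 556) (nat_lit 2572) (nat_lit 589) (nat_lit 5581)))) (.a (.f (nat_lit 461) (nat_lit 429) (nat_lit 7597) (.f (nat_lit 590) (nat_lit 493) (nat_lit 7629) (.d (nat_lit 589) (nat_lit 557) (nat_lit 5581) (nat_lit 621) (nat_lit 5613)))) (.f (nat_lit 463) (nat_lit 431) (nat_lit 6574) (.f (nat_lit 461) (nat_lit 429) (nat_lit 7597) (.d (nat_lit 590) (nat_lit 493) (nat_lit 7629) (nat_lit 495) (nat_lit 6606))))))) (.a s64927 (.a (.p (nat_lit 430) (.a (.f (nat_lit 527) (nat_lit 559) (nat_lit 4526) (.d (nat_lit 525) (nat_lit 557) (nat_lit 5549) (nat_lit 561) (nat_lit 525))) (.a (.f (nat_lit 527) (nat_lit 559) (nat_lit 4526) (.f (nat_lit 398) (nat_lit 495) (nat_lit 4494) (.d (nat_lit 399) (nat_lit 367) (nat_lit 6510) (nat_lit 431) (nat_lit 6542)))) (.f (nat_lit 525) (nat_lit 557) (nat_lit 5549) (.f (nat_lit 398) (nat_lit 493) (nat_lit 5517) (.d (nat_lit 399) (nat_lit 367) (nat_lit 6510) (nat_lit 431) (nat_lit 6542))))))) (.p (nat_lit 430) (.a (.f (nat_lit 525) (nat_lit 557) (nat_lit 5549) (.f (nat_lit 398) (nat_lit 493) (nat_lit 5517) (.d (nat_lit 399) (nat_lit 367) (nat_lit 6510) (nat_lit 431) (nat_lit 6542)))) (.a (.f (nat_lit 525) (nat_lit 557) (nat_lit 5549) (.f (nat_lit 493) (nat_lit 398) (nat_lit 5517) (.d (nat_lit 527) (nat_lit 492) (nat_lit 3564) (nat_lit 561) (nat_lit 525)))) (.f (nat_lit 429) (nat_lit 397) (nat_lit 7565) (.f (nat_lit 431) (nat_lit 399) (nat_lit 6542) (.d (nat_lit 558) (nat_lit 461) (nat_lit 7597) (nat_lit 463) (nat_lit 6574)))))))))))))) (.a (.p (nat_lit 494) (.a s64556 (.a s64560 (.a s64606 (.a (.p (nat_lit 558) (.a (.f (nat_lit 559) (nat_lit 591) (nat_lit 4558) (.f (nat_lit 527) (nat_lit 430) (nat_lit 4526) (.d (nat_lit 557) (nat_lit 556) (nat_lit 2572) (nat_lit 589) (nat_lit 5581)))) (.a (.f (nat_lit 461) (nat_lit 429) (nat_lit 7597) (.f (nat_lit 590) (nat_lit 493) (nat_lit 7629) (.d (nat_lit 589) (nat_lit 557) (nat_lit 5581) (nat_lit 621) (nat_lit 5613)))) (.f (nat_lit 463) (nat_lit 431) (nat_lit 6574) (.f (nat_lit 461) (nat_lit 429) (nat_lit 7597) (.d (nat_lit 590) (nat_lit 493) (nat_lit 7629) (nat_lit 495) (nat_lit 6606))))))) (.a (.p (nat_lit 463) (.a (.f (nat_lit 465) (nat_lit 493) (nat_lit 1485) (.f (nat_lit 430) (nat_lit 429) (nat_lit 3501) (.f (nat_lit 495) (nat_lit 466) (nat_lit 1486) (.d (nat_lit 398) (nat_lit 366) (nat_lit 4462) (nat_lit 527) (nat_lit 4494))))) (.a (.f (nat_lit 431) (nat_lit 558) (nat_lit 6574) (.d (nat_lit 399) (nat_lit 367) (nat_lit 5486) (nat_lit 430) (nat_lit 6542))) (.f (nat_lit 465) (nat_lit 493) (nat_lit 1485) (.f (nat_lit 466) (nat_lit 495) (nat_lit 1486) (.d (nat_lit 498) (nat_lit 497) (nat_lit 462) (nat_lit 499) (nat_lit 463))))))) (.p (nat_lit 430) (.a (.f (nat_lit 527) (nat_lit 559) (nat_lit 4526) (.d (nat_lit 525) (nat_lit 557) (nat_lit 5549) (nat_lit 561) (nat_lit 525))) (.f (nat_lit 429) (nat_lit 397) (nat_lit 7565) (.f (nat_lit 463) (nat_lit 465) (nat_lit 3501) (.d (nat_lit 428) (nat_lit 427) (nat_lit 427) (nat_lit 461) (nat_lit 3500)))))))))))) (.a s64974 (.a (.p (nat_lit 463) (.a s64787 (.a s64872 (.a s64979 (.a s64996 (.a s65005 (.a s64969 (.a s65012 s65016)))))))) (.a s65018 (.a s65028 (.a (.p (nat_lit 463) (.a s64790 (.a s64801 (.a (.p (nat_lit 494) (.a (.f (nat_lit 493) (nat_lit 465) (nat_lit 1485) (.d (nat_lit 492) (nat_lit 461) (nat_lit 1484) (nat_lit 491) (nat_lit 2507))) (.f (nat_lit 431) (nat_lit 558) (nat_lit 6574) (.d (nat_lit 399) (nat_lit 367) (nat_lit 5486) (nat_lit 430) (nat_lit 6542))))) (.a s64881 (.a s65033 (.a s65034 (.a s64973 s65016)))))))) (.a s65042 (.a s65043 (.a s65044 s65046))))))))))))))))))) (.a (.p (nat_lit 494) (.a s64445 (.a s64466 (.a (.p (nat_lit 463) (.a (.f (nat_lit 465) (nat_lit 493) (nat_lit 1485) (.f (nat_lit 430) (nat_lit 429) (nat_lit 3501) (.d (nat_lit 466) (nat_lit 431) (nat_lit 3502) (nat_lit 495) (nat_lit 1486)))) (.a (.f (nat_lit 465) (nat_lit 493) (nat_lit 1485) (.f (nat_lit 466) (nat_lit 495) (nat_lit 1486) (.d (nat_lit 498) (nat_lit 497) (nat_lit 462) (nat_lit 499) (nat_lit 463)))) (.a (.p (nat_lit 461) (.a (.f (nat_lit 493) (nat_lit 492) (nat_lit 1484) (.f (nat_lit 429) (nat_lit 428) (nat_lit 3500) (.d (nat_lit 526) (nat_lit 397) (nat_lit 4493) (nat_lit 558) (nat_lit 7597)))) (.a (.f (nat_lit 429) (nat_lit 428) (nat_lit 3500) (.f (nat_lit 526) (nat_lit 558) (nat_lit 7597) (.f (nat_lit 432) (nat_lit 433) (nat_lit 2477) (.f (nat_lit 431) (nat_lit 460) (nat_lit 2476) (.d (nat_lit 399) (nat_lit 367) (nat_lit 5486) (nat_lit 430) (nat_lit 6542)))))) (.a (.f (nat_lit 432) (nat_lit 433) (nat_lit 2477) (.f (nat_lit 431) (nat_lit 460) (nat_lit 2476) (.f (nat_lit 526) (nat_lit 558) (nat_lit 6574) (.d (nat_lit 399) (nat_lit 367) (nat_lit 5486) (nat_lit 430) (nat_lit 6542))))) (.f (nat_lit 493) (nat_lit 492) (nat_lit 1484) (.f (nat_lit 432) (nat_lit 433) (nat_lit 2477) (.f (nat_lit 460) (nat_lit 431) (nat_lit 2476) (.d (nat_lit 459) (nat_lit 458) (nat_lit 458) (nat_lit 495) (nat_lit 459))))))))) (.a s64444 (.f (nat_lit 465) (nat_lit 493) (nat_lit 1485) (.f (nat_lit 430) (nat_lit 429) (nat_lit 3501) (.f (nat_lit 431) (nat_lit 466) (nat_lit 3502) (.d (nat_lit 399) (nat_lit 367) (nat_lit 5486) (nat_lit 526) (nat_lit 6542)))))))))) (.a s64476 (.a s64530 (.a s65050 (.a s65051 (.a s64589 (.a s65053 (.a s64623 (.a s64636 (.a (.p (nat_lit 463) (.a (.f (nat_lit 465) (nat_lit 493) (nat_lit 1485) (.f (nat_lit 430) (nat_lit 429) (nat_lit 3501) (.d (nat_lit 466) (nat_lit 431) (nat_lit 3502) (nat_lit 495) (nat_lit 1486)))) (.a (.f (nat_lit 465) (nat_lit 493) (nat_lit 1485) (.f (nat_lit 466) (nat_lit 495) (nat_lit 1486) (.d (nat_lit 498) (nat_lit 497) (nat_lit 462) (nat_lit 499) (nat_lit 463)))) (.a s64637 (.a s64444 (.f (nat_lit 465) (nat_lit 493) (nat_lit 1485) (.f (nat_lit 430) (nat_lit 429) (nat_lit 3501) (.f (nat_lit 431) (nat_lit 466) (nat_lit 3502) (.d (nat_lit 399) (nat_lit 367) (nat_lit 5486) (nat_lit 526) (nat_lit 6542)))))))))) (.a s65074 (.a (.p (nat_lit 463) (.a (.f (nat_lit 465) (nat_lit 493) (nat_lit 1485) (.f (nat_lit 430) (nat_lit 429) (nat_lit 3501) (.f (nat_lit 431) (nat_lit 466) (nat_lit 3502) (.d (nat_lit 399) (nat_lit 367) (nat_lit 5486) (nat_lit 526) (nat_lit 6542))))) (.a (.f (nat_lit 465) (nat_lit 493) (nat_lit 1485) (.f (nat_lit 430) (nat_lit 429) (nat_lit 3501) (.f (nat_lit 431) (nat_lit 466) (nat_lit 3502) (.d (nat_lit 526) (nat_lit 399) (nat_lit 6542) (nat_lit 558) (nat_lit 6574))))) (.a (.f (nat_lit 465) (nat_lit 493) (nat_lit 1485) (.f (nat_lit 430) (nat_lit 429) (nat_lit 3501) (.f (nat_lit 466) (nat_lit 431) (nat_lit 3502) (.d (nat_lit 434) (nat_lit 433) (nat_lit 2478) (nat_lit 435) (nat_lit 2479))))) (.a (.f (nat_lit 465) (nat_lit 493) (nat_lit 1485) (.f (nat_lit 433) (nat_lit 434) (nat_lit 2478) (.f (nat_lit 432) (nat_lit 461) (nat_lit 2477) (.f (nat_lit 498) (nat_lit 497) (nat_lit 462) (.f (nat_lit 466) (nat_lit 499) (nat_lit 463) (.d (nat_lit 431) (nat_lit 430) (nat_lit 430) (nat_lit 467) (nat_lit 3503))))))) (.a (.f (nat_lit 465) (nat_lit 493) (nat_lit 1485) (.f (nat_lit 433) (nat_lit 434) (nat_lit 2478) (.f (nat_lit 498) (nat_lit 497) (nat_lit 462) (.f (nat_lit 466) (nat_lit 499) (nat_lit 463) (.f (nat_lit 432) (nat_lit 461) (nat_lit 2477) (.d (nat_lit 467) (nat_lit 431) (nat_lit 3503) (nat_lit 468) (nat_lit 3504))))))) (.a (.f (nat_lit 465) (nat_lit 493) (nat_lit 1485) (.f (nat_lit 429) (nat_lit 430) (nat_lit 3501) (.f (nat_lit 461) (nat_lit 428) (nat_lit 3500) (.d (nat_lit 433) (nat_lit 432) (nat_lit 2477) (nat_lit 434) (nat_lit 2478))))) (.a (.p (nat_lit 461) (.a (.f (nat_lit 493) (nat_lit 492) (nat_lit 1484) (.f (nat_lit 429) (nat_lit 428) (nat_lit 3500) (.d (nat_lit 397) (nat_lit 365) (nat_lit 4461) (nat_lit 526) (nat_lit 4493)))) (.a (.f (nat_lit 493) (nat_lit 492) (nat_lit 1484) (.f (nat_lit 429) (nat_lit 428) (nat_lit 3500) (.d (nat_lit 526) (nat_lit 397) (nat_lit 4493) (nat_lit 558) (nat_lit 7597)))) (.a (.f (nat_lit 429) (nat_lit 428) (nat_lit 3500) (.f (nat_lit 526) (nat_lit 558) (nat_lit 7597) (.f (nat_lit 432) (nat_lit 433) (nat_lit 2477) (.f (nat_lit 431) (nat_lit 460) (nat_lit 2476) (.d (nat_lit 399) (nat_lit 367) (nat_lit 5486) (nat_lit 430) (nat_lit 6542)))))) (.a (.f (nat_lit 432) (nat_lit 433) (nat_lit 2477) (.f (nat_lit 431) (nat_lit 460) (nat_lit 2476) (.f (nat_lit 526) (nat_lit 558) (nat_lit 6574) (.d (nat_lit 399) (nat_lit 367) (nat_lit 5486) (nat_lit 430) (nat_lit 6542))))) (.f (nat_lit 493) (nat_lit 492) (nat_lit 1484) (.f (nat_lit 429) (nat_lit 428) (nat_lit 3500) (.f (nat_lit 432) (nat_lit 433) (nat_lit 2477) (.f (nat_lit 431) (nat_lit 460) (nat_lit 2476) (.f (nat_lit 397) (nat_lit 365) (nat_lit 4461) (.d (nat_lit 396) (nat_lit 364) (nat_lit 7532) (nat_lit 430) (nat_lit 3468)))))))))))) s64652)))))))) s65095))))))))))))))) (.a (.p (nat_lit 494) (.a s64464 (.a s65098 (.a s65103 (.a s65106 (.a s65111 (.a s64589 (.a s65117 (.a (.p (nat_lit 526) (.a (.p (nat_lit 527) (.a (.f (nat_lit 559) (nat_lit 430) (nat_lit 4526) (.d (nat_lit 561) (nat_lit 525) (nat_lit 525) (nat_lit 562) (nat_lit 3598))) (.a (.f (nat_lit 525) (nat_lit 561) (nat_lit 525) (.f (nat_lit 493) (nat_lit 492) (nat_lit 3564) (.d (nat_lit 557) (nat_lit 556) (nat_lit 1548) (nat_lit 589) (nat_lit 6605)))) (.f (nat_lit 559) (nat_lit 430) (nat_lit 4526) (.d (nat_lit 591) (nat_lit 495) (nat_lit 7630) (nat_lit 558) (nat_lit 4558)))))) (.a s64606 (.a s64560 (.a s64907 (.a s64915 (.a (.p (nat_lit 527) (.a (.f (nat_lit 559) (nat_lit 430) (nat_lit 4526) (.d (nat_lit 561) (nat_lit 525) (nat_lit 525) (nat_lit 562) (nat_lit 3598))) (.a (.f (nat_lit 525) (nat_lit 561) (nat_lit 525) (.f (nat_lit 493) (nat_lit 492) (nat_lit 3564) (.d (nat_lit 557) (nat_lit 556) (nat_lit 1548) (nat_lit 589) (nat_lit 6605)))) (.f (nat_lit 559) (nat_lit 430) (nat_lit 4526) (.d (nat_lit 591) (nat_lit 495) (nat_lit 7630) (nat_lit 623) (nat_lit 7662)))))) (.a (.p (nat_lit 430) (.a (.f (nat_lit 429) (nat_lit 397) (nat_lit 7565) (.f (nat_lit 431) (nat_lit 399) (nat_lit 6542) (.f (nat_lit 461) (nat_lit 558) (nat_lit 7597) (.d (nat_lit 432) (nat_lit 460) (nat_lit 1452) (nat_lit 465) (nat_lit 429))))) (.f (nat_lit 525) (nat_lit 557) (nat_lit 5549) (.f (nat_lit 493) (nat_lit 398) (nat_lit 5517) (.d (nat_lit 527) (nat_lit 492) (nat_lit 3564) (nat_lit 561) (nat_lit 525)))))) (.p (nat_lit 430) (.a (.f (nat_lit 527) (nat_lit 559) (nat_lit 4526) (.f (nat_lit 398) (nat_lit 495) (nat_lit 4494) (.d (nat_lit 397) (nat_lit 365) (nat_lit 7533) (nat_lit 429) (nat_lit 7565)))) (.a (.f (nat_lit 429) (nat_lit 397) (nat_lit 7565) (.f (nat_lit 431) (nat_lit 399) (nat_lit 6542) (.f (nat_lit 461) (nat_lit 558) (nat_lit 7597) (.d (nat_lit 432) (nat_lit 460) (nat_lit 1452) (nat_lit 465) (nat_lit 429))))) (.f (nat_lit 527) (nat_lit 559) (nat_lit 4526) (.f (nat_lit 525) (nat_lit 557) (nat_lit 5549) (.d (nat_lit 398) (nat_lit 493) (nat_lit 5517) (nat_lit 495) (nat_lit 4494))))))))))))))) (.a (.p (nat_lit 526) (.a (.p (nat_lit 527) (.a (.f (nat_lit 559) (nat_lit 430) (nat_lit 4526) (.d (nat_lit 561) (nat_lit 525) (nat_lit 525) (nat_lit 562) (nat_lit 3598))) (.a (.f (nat_lit 525) (nat_lit 561) (nat_lit 525) (.f (nat_lit 493) (nat_lit 492) (nat_lit 3564) (.d (nat_lit 557) (nat_lit 556) (nat_lit 1548) (nat_lit 589) (nat_lit 6605)))) (.f (nat_lit 559) (nat_lit 430) (nat_lit 4526) (.d (nat_lit 591) (nat_lit 495) (nat_lit 7630) (nat_lit 558) (nat_lit 4558)))))) (.a s64606 (.a s64560 (.a (.p (nat_lit 558) (.a (.f (nat_lit 559) (nat_lit 591) (nat_lit 4558) (.f (nat_lit 527) (nat_lit 430) (nat_lit 4526) (.d (nat_lit 557) (nat_lit 556) (nat_lit 2572) (nat_lit 589) (nat_lit 5581)))) (.a (.f (nat_lit 461) (nat_lit 429) (nat_lit 7597) (.f (nat_lit 590) (nat_lit 493) (nat_lit 7629) (.d (nat_lit 589) (nat_lit 557) (nat_lit 5581) (nat_lit 621) (nat_lit 5613)))) (.f (nat_lit 463) (nat_lit 431) (nat_lit 6574) (.f (nat_lit 461) (nat_lit 429) (nat_lit 7597) (.d (nat_lit 590) (nat_lit 493) (nat_lit 7629) (nat_lit 495) (nat_lit 6606))))))) (.a s64927 (.a (.p (nat_lit 527) (.a (.f (nat_lit 559) (nat_lit 430) (nat_lit 4526) (.d (nat_lit 561) (nat_lit 525) (nat_lit 525) (nat_lit 562) (nat_lit 3598))) (.a (.f (nat_lit 525) (nat_lit 561) (nat_lit 525) (.f (nat_lit 493) (nat_lit 492) (nat_lit 3564) (.d (nat_lit 557) (nat_lit 556) (nat_lit 1548) (nat_lit 589) (nat_lit 6605)))) (.f (nat_lit 559) (nat_lit 430) (nat_lit 4526) (.d (nat_lit 591) (nat_lit 495) (nat_lit 7630) (nat_lit 623) (nat_lit 7662)))))) (.p (nat_lit 430) (.a (.f (nat_lit 525) (nat_lit 557) (nat_lit 5549) (.f (nat_lit 493) (nat_lit 398) (nat_lit 5517) (.d (nat_lit 527) (nat_lit 492) (nat_lit 3564) (nat_lit 561) (nat_lit 525)))) (.f (nat_lit 429) (nat_lit 397) (nat_lit 7565) (.f (nat_lit 431) (nat_lit 399) (nat_lit 6542) (.d (nat_lit 558) (nat_lit 461) (nat_lit 7597) (nat_lit 463) (nat_lit 6574))))))))))))) (.a (.p (nat_lit 463) (.a (.f (nat_lit 465) (nat_lit 493) (nat_lit 1485) (.f (nat_lit 430) (nat_lit 429) (nat_lit 3501) (.d (nat_lit 466) (nat_lit 431) (nat_lit 3502) (nat_lit 495) (nat_lit 1486)))) (.a (.f (nat_lit 465) (nat_lit 493) (nat_lit 1485) (.f (nat_lit 466) (nat_lit 495) (nat_lit 1486) (.d (nat_lit 498) (nat_lit 497) (nat_lit 462) (nat_lit 499) (nat_lit 463)))) (.a (.p (nat_lit 461) (.a (.f (nat_lit 429) (nat_lit 428) (nat_lit 3500) (.f (nat_lit 432) (nat_lit 433) (nat_lit 2477) (.f (nat_lit 431) (nat_lit 460) (nat_lit 2476) (.f (nat_lit 495) (nat_lit 527) (nat_lit 4527) (.f (nat_lit 400) (nat_lit 368) (nat_lit 5487) (.f (nat_lit 430) (nat_lit 401) (nat_lit 2445) (.d (nat_lit 397) (nat_lit 365) (nat_lit 4461) (nat_lit 396) (nat_lit 3468)))))))) (.a (.f (nat_lit 429) (nat_lit 428) (nat_lit 3500) (.f (nat_lit 526) (nat_lit 558) (nat_lit 7597) (.f (nat_lit 432) (nat_lit 433) (nat_lit 2477) (.f (nat_lit 431) (nat_lit 460) (nat_lit 2476) (.d (nat_lit 399) (nat_lit 430) (nat_lit 6542) (nat_lit 495) (nat_lit 5518)))))) (.a (.f (nat_lit 432) (nat_lit 433) (nat_lit 2477) (.f (nat_lit 431) (nat_lit 460) (nat_lit 2476) (.f (nat_lit 526) (nat_lit 558) (nat_lit 6574) (.d (nat_lit 399) (nat_lit 430) (nat_lit 6542) (nat_lit 495) (nat_lit 5518))))) (.f (nat_lit 429) (nat_lit 428) (nat_lit 3500) (.f (nat_lit 526) (nat_lit 558) (nat_lit 7597) (.d (nat_lit 397) (nat_lit 365) (nat_lit 4461) (nat_lit 493) (nat_lit 4493)))))))) (.a (.p (nat_lit 465) (.a (.f (nat_lit 430) (nat_lit 429) (nat_lit 3501) (.d (nat_lit 466) (nat_lit 431) (nat_lit 3502) (nat_lit 495) (nat_lit 1486))) (.a (.f (nat_lit 466) (nat_lit 495) (nat_lit 1486) (.d (nat_lit 498) (nat_lit 497) (nat_lit 462) (nat_lit 499) (nat_lit 463))) (.f (nat_lit 429) (nat_lit 430) (nat_lit 3501) (.f (nat_lit 461) (nat_lit 428) (nat_lit 3500) (.d (nat_lit 433) (nat_lit 432) (nat_lit 2477) (nat_lit 434) (nat_lit 2478))))))) (.f (nat_lit 465) (nat_lit 493) (nat_lit 1485) (.f (nat_lit 430) (nat_lit 429) (nat_lit 3501) (.f (nat_lit 431) (nat_lit 466) (nat_lit 3502) (.d (nat_lit 526) (nat_lit 399) (nat_lit 6542) (nat_lit 558) (nat_lit 6574)))))))))) (.a (.p (nat_lit 526) (.a s64560 (.a s65060 (.a (.p (nat_lit 430) (.a (.f (nat_lit 527) (nat_lit 559) (nat_lit 4526) (.d (nat_lit 525) (nat_lit 557) (nat_lit 5549) (nat_lit 561) (nat_lit 525))) (.a (.f (nat_lit 527) (nat_lit 559) (nat_lit 4526) (.f (nat_lit 398) (nat_lit 495) (nat_lit 4494) (.d (nat_lit 397) (nat_lit 365) (nat_lit 7533) (nat_lit 429) (nat_lit 7565)))) (.f (nat_lit 429) (nat_lit 397) (nat_lit 7565) (.f (nat_lit 463) (nat_lit 465) (nat_lit 3501) (.d (nat_lit 428) (nat_lit 427) (nat_lit 427) (nat_lit 461) (nat_lit 3500))))))) s65073)))) (.a s65134 s65095))))))))))))) (.a (.p (nat_lit 494) (.a s64408 (.a s65050 (.a s64464 (.a s64530 (.a s64589 (.a s65051 (.a s65053 (.a s64623 (.a s64636 (.a (.p (nat_lit 463) (.a (.f (nat_lit 465) (nat_lit 493) (nat_lit 1485) (.f (nat_lit 430) (nat_lit 429) (nat_lit 3501) (.d (nat_lit 466) (nat_lit 431) (nat_lit 3502) (nat_lit 495) (nat_lit 1486)))) (.a (.f (nat_lit 465) (nat_lit 493) (nat_lit 1485) (.f (nat_lit 466) (nat_lit 495) (nat_lit 1486) (.d (nat_lit 498) (nat_lit 497) (nat_lit 462) (nat_lit 499) (nat_lit 463)))) (.a (.p (nat_lit 461) (.a (.f (nat_lit 429) (nat_lit 428) (nat_lit 3500) (.f (nat_lit 526) (nat_lit 558) (nat_lit 7597) (.f (nat_lit 432) (nat_lit 433) (nat_lit 2477) (.f (nat_lit 431) (nat_lit 460) (nat_lit 2476) (.d (nat_lit 399) (nat_lit 367) (nat_lit 5486) (nat_lit 430) (nat_lit 6542)))))) (.a (.f (nat_lit 429) (nat_lit 428) (nat_lit 3500) (.f (nat_lit 526) (nat_lit 558) (nat_lit 7597) (.f (nat_lit 432) (nat_lit 433) (nat_lit 2477) (.f (nat_lit 431) (nat_lit 460) (nat_lit 2476) (.d (nat_lit 399) (nat_lit 430) (nat_lit 6542) (nat_lit 495) (nat_lit 5518)))))) (.a (.f (nat_lit 429) (nat_lit 428) (nat_lit 3500) (.f (nat_lit 526) (nat_lit 558) (nat_lit 7597) (.d (nat_lit 397) (nat_lit 365) (nat_lit 4461) (nat_lit 493) (nat_lit 4493)))) (.a (.f (nat_lit 432) (nat_lit 433) (nat_lit 2477) (.f (nat_lit 431) (nat_lit 460) (nat_lit 2476) (.f (nat_lit 526) (nat_lit 558) (nat_lit 6574) (.d (nat_lit 399) (nat_lit 367) (nat_lit 5486) (nat_lit 430) (nat_lit 6542))))) (.f (nat_lit 432) (nat_lit 433) (nat_lit 2477) (.f (nat_lit 460) (nat_lit 431) (nat_lit 2476) (.d (nat_lit 428) (nat_lit 427) (nat_lit 3499) (nat_lit 429) (nat_lit 3500))))))))) (.a s64407 (.f (nat_lit 465) (nat_lit 493) (nat_lit 1485) (.f (nat_lit 430) (nat_lit 429) (nat_lit 3501) (.f (nat_lit 431) (nat_lit 466) (nat_lit 3502) (.d (nat_lit 399) (nat_lit 367) (nat_lit 5486) (nat_lit 526) (nat_lit 6542)))))))))) (.a (.p (nat_lit 463) (.a s64407 (.a (.p (nat_lit 465) (.a (.f (nat_lit 430) (nat_lit 429) (nat_lit 3501) (.d (nat_lit 466) (nat_lit 431) (nat_lit 3502) (nat_lit 495) (nat_lit 1486))) (.a (.f (nat_lit 466) (nat_lit 495) (nat_lit 1486) (.d (nat_lit 498) (nat_lit 497) (nat_lit 462) (nat_lit 499) (nat_lit 463))) (.f (nat_lit 429) (nat_lit 430) (nat_lit 3501) (.f (nat_lit 461) (nat_lit 428) (nat_lit 3500) (.d (nat_lit 433) (nat_lit 432) (nat_lit 2477) (nat_lit 434) (nat_lit 2478))))))) (.a (.p (nat_lit 431) (.a (.f (nat_lit 495) (nat_lit 527) (nat_lit 4527) (.d (nat_lit 399) (nat_lit 367) (nat_lit 5486) (nat_lit 526) (nat_lit 5518))) (.a (.f (nat_lit 495) (nat_lit 527) (nat_lit 4527) (.d (nat_lit 526) (nat_lit 399) (nat_lit 5518) (nat_lit 558) (nat_lit 6574))) (.a (.f (nat_lit 527) (nat_lit 495) (nat_lit 4527) (.f (nat_lit 526) (nat_lit 558) (nat_lit 6574) (.f (nat_lit 525) (nat_lit 561) (nat_lit 525) (.d (nat_lit 559) (nat_lit 430) (nat_lit 4526) (nat_lit 524) (nat_lit 524))))) (.a (.f (nat_lit 526) (nat_lit 558) (nat_lit 6574) (.d (nat_lit 399) (nat_lit 367) (nat_lit 5486) (nat_lit 430) (nat_lit 6542))) (.f (nat_lit 495) (nat_lit 527) (nat_lit 4527) (.f (nat_lit 465) (nat_lit 466) (nat_lit 1486) (.f (nat_lit 433) (nat_lit 434) (nat_lit 2478) (.f (nat_lit 432) (nat_lit 461) (nat_lit 2477) (.f (nat_lit 399) (nat_lit 367) (nat_lit 5486) (.f (nat_lit 398) (nat_lit 366) (nat_lit 7534) (.d (nat_lit 397) (nat_lit 396) (nat_lit 396) (nat_lit 430) (nat_lit 3469))))))))))))) (.a s64528 (.a (.p (nat_lit 465) (.a (.f (nat_lit 466) (nat_lit 495) (nat_lit 1486) (.d (nat_lit 498) (nat_lit 497) (nat_lit 462) (nat_lit 499) (nat_lit 463))) (.f (nat_lit 429) (nat_lit 430) (nat_lit 3501) (.f (nat_lit 461) (nat_lit 428) (nat_lit 3500) (.d (nat_lit 433) (nat_lit 432) (nat_lit 2477) (nat_lit 434) (nat_lit 2478)))))) (.a (.p (nat_lit 431) (.a (.f (nat_lit 495) (nat_lit 527) (nat_lit 4527) (.d (nat_lit 399) (nat_lit 367) (nat_lit 5486) (nat_lit 526) (nat_lit 5518))) (.a (.f (nat_lit 495) (nat_lit 527) (nat_lit 4527) (.d (nat_lit 526) (nat_lit 399) (nat_lit 5518) (nat_lit 558) (nat_lit 6574))) (.a (.f (nat_lit 527) (nat_lit 495) (nat_lit 4527) (.f (nat_lit 526) (nat_lit 558) (nat_lit 6574) (.f (nat_lit 525) (nat_lit 561) (nat_lit 525) (.d (nat_lit 559) (nat_lit 430) (nat_lit 4526) (nat_lit 524) (nat_lit 524))))) (.a (.f (nat_lit 526) (nat_lit 558) (nat_lit 6574) (.d (nat_lit 399) (nat_lit 367) (nat_lit 5486) (nat_lit 430) (nat_lit 6542))) (.f (nat_lit 495) (nat_lit 527) (nat_lit 4527) (.f (nat_lit 465) (nat_lit 466) (nat_lit 1486) (.f (nat_lit 429) (nat_lit 430) (nat_lit 3501) (.f (nat_lit 399) (nat_lit 367) (nat_lit 5486) (.f (nat_lit 428) (nat_lit 461) (nat_lit 3500) (.f (nat_lit 398) (nat_lit 366) (nat_lit 7534) (.f (nat_lit 397) (nat_lit 400) (nat_lit 1420) (.d (nat_lit 427) (nat_lit 396) (nat_lit 1419) (nat_lit 426) (nat_lit 2442)))))))))))))) (.a s64597 (.a (.p (nat_lit 461) (.a (.f (nat_lit 429) (nat_lit 428) (nat_lit 3500) (.f (nat_lit 526) (nat_lit 558) (nat_lit 7597) (.f (nat_lit 432) (nat_lit 433) (nat_lit 2477) (.f (nat_lit 431) (nat_lit 460) (nat_lit 2476) (.d (nat_lit 399) (nat_lit 367) (nat_lit 5486) (nat_lit 430) (nat_lit 6542)))))) (.a (.f (nat_lit 429) (nat_lit 428) (nat_lit 3500) (.f (nat_lit 526) (nat_lit 558) (nat_lit 7597) (.f (nat_lit 432) (nat_lit 433) (nat_lit 2477) (.f (nat_lit 431) (nat_lit 460) (nat_lit 2476) (.d (nat_lit 399) (nat_lit 430) (nat_lit 6542) (nat_lit 495) (nat_lit 5518)))))) (.a (.f (nat_lit 429) (nat_lit 428) (nat_lit 3500) (.f (nat_lit 526) (nat_lit 558) (nat_lit 7597) (.d (nat_lit 397) (nat_lit 365) (nat_lit 4461) (nat_lit 430) (nat_lit 7565)))) (.a (.f (nat_lit 432) (nat_lit 433) (nat_lit 2477) (.f (nat_lit 431) (nat_lit 460) (nat_lit 2476) (.f (nat_lit 526) (nat_lit 558) (nat_lit 6574) (.d (nat_lit 399) (nat_lit 367) (nat_lit 5486) (nat_lit 430) (nat_lit 6542))))) (.a (.f (nat_lit 432) (nat_lit 433) (nat_lit 2477) (.f (nat_lit 431) (nat_lit 460) (nat_lit 2476) (.f (nat_lit 495) (nat_lit 527) (nat_lit 4527) (.d (nat_lit 399) (nat_lit 367) (nat_lit 5486) (nat_lit 526) (nat_lit 5518))))) (.f (nat_lit 432) (nat_lit 433) (nat_lit 2477) (.f (nat_lit 460) (nat_lit 431) (nat_lit 2476) (.d (nat_lit 428) (nat_lit 427) (nat_lit 3499) (nat_lit 429) (nat_lit 3500)))))))))) s64652))))))))) (.a s64655 (.p (nat_lit 463) (.a (.f (nat_lit 465) (nat_lit 493) (nat_lit 1485) (.f (nat_lit 430) (nat_lit 429) (nat_lit 3501) (.d (nat_lit 466) (nat_lit 431) (nat_lit 3502) (nat_lit 495) (nat_lit 1486)))) (.a (.f (nat_lit 465) (nat_lit 493) (nat_lit 1485) (.f (nat_lit 466) (nat_lit 495) (nat_lit 1486) (.d (nat_lit 498) (nat_lit 497) (nat_lit 462) (nat_lit 499) (nat_lit 463)))) (.a (.p (nat_lit 461) (.a (.f (nat_lit 493) (nat_lit 492) (nat_lit 1484) (.f (nat_lit 429) (nat_lit 428) (nat_lit 3500) (.f (nat_lit 397) (nat_lit 365) (nat_lit 4461) (.f (nat_lit 398) (nat_lit 366) (nat_lit 6509) (.f (nat_lit 430) (nat_lit 525) (nat_lit 5517) (.f (nat_lit 432) (nat_lit 433) (nat_lit 2477) (.d (nat_lit 431) (nat_lit 396) (nat_lit 3468) (nat_lit 460) (nat_lit 2476)))))))) (.a (.f (nat_lit 493) (nat_lit 492) (nat_lit 1484) (.f (nat_lit 432) (nat_lit 433) (nat_lit 2477) (.f (nat_lit 460) (nat_lit 431) (nat_lit 2476) (.d (nat_lit 459) (nat_lit 458) (nat_lit 458) (nat_lit 495) (nat_lit 459))))) (.a (.f (nat_lit 493) (nat_lit 492) (nat_lit 1484) (.f (nat_lit 428) (nat_lit 429) (nat_lit 3500) (.f (nat_lit 460) (nat_lit 427) (nat_lit 3499) (.d (nat_lit 459) (nat_lit 458) (nat_lit 458) (nat_lit 495) (nat_lit 459))))) (.a (.f (nat_lit 493) (nat_lit 492) (nat_lit 1484) (.f (nat_lit 429) (nat_lit 428) (nat_lit 3500) (.f (nat_lit 397) (nat_lit 365) (nat_lit 4461) (.f (nat_lit 398) (nat_lit 366) (nat_lit 6509) (.f (nat_lit 430) (nat_lit 525) (nat_lit 5517) (.f (nat_lit 396) (nat_lit 364) (nat_lit 7532) (.d (nat_lit 395) (nat_lit 394) (nat_lit 394) (nat_lit 431) (nat_lit 395)))))))) (.f (nat_lit 432) (nat_lit 433) (nat_lit 2477) (.f (nat_lit 460) (nat_lit 431) (nat_lit 2476) (.d (nat_lit 428) (nat_lit 427) (nat_lit 3499) (nat_lit 429) (nat_lit 3500))))))))) (.a (.p (nat_lit 465) (.a (.f (nat_lit 430) (nat_lit 429) (nat_lit 3501) (.d (nat_lit 466) (nat_lit 431) (nat_lit 3502) (nat_lit 495) (nat_lit 1486))) (.a (.f (nat_lit 466) (nat_lit 495) (nat_lit 1486) (.d (nat_lit 498) (nat_lit 497) (nat_lit 462) (nat_lit 499) (nat_lit 463))) (.f (nat_lit 429) (nat_lit 430) (nat_lit 3501) (.f (nat_lit 461) (nat_lit 428) (nat_lit 3500) (.d (nat_lit 433) (nat_lit 432) (nat_lit 2477) (nat_lit 434) (nat_lit 2478))))))) (.f (nat_lit 465) (nat_lit 493) (nat_lit 1485) (.f (nat_lit 430) (nat_lit 429) (nat_lit 3501) (.f (nat_lit 466) (nat_lit 431) (nat_lit 3502) (.d (nat_lit 434) (nat_lit 433) (nat_lit 2478) (nat_lit 435) (nat_lit 2479))))))))))))))))))))))) (.a (.p (nat_lit 494) (.a s64425 (.a s64530 (.a s64589 (.a s64465 (.a s64485 (.a s65051 (.a s64598 (.a s64623 (.a s64636 (.a s65074 (.a s65134 (.p (nat_lit 463) (.a (.f (nat_lit 465) (nat_lit 493) (nat_lit 1485) (.f (nat_lit 430) (nat_lit 429) (nat_lit 3501) (.d (nat_lit 466) (nat_lit 431) (nat_lit 3502) (nat_lit 495) (nat_lit 1486)))) (.a (.f (nat_lit 465) (nat_lit 493) (nat_lit 1485) (.f (nat_lit 466) (nat_lit 495) (nat_lit 1486) (.d (nat_lit 498) (nat_lit 497) (nat_lit 462) (nat_lit 499) (nat_lit 463)))) (.a (.p (nat_lit 461) (.a (.f (nat_lit 493) (nat_lit 492) (nat_lit 1484) (.f (nat_lit 432) (nat_lit 433) (nat_lit 2477) (.f (nat_lit 460) (nat_lit 431) (nat_lit 2476) (.d (nat_lit 459) (nat_lit 458) (nat_lit 458) (nat_lit 495) (nat_lit 459))))) (.a (.f (nat_lit 493) (nat_lit 492) (nat_lit 1484) (.f (nat_lit 429) (nat_lit 428) (nat_lit 3500) (.f (nat_lit 397) (nat_lit 365) (nat_lit 4461) (.f (nat_lit 398) (nat_lit 366) (nat_lit 6509) (.f (nat_lit 430) (nat_lit 525) (nat_lit 5517) (.f (nat_lit 495) (nat_lit 527) (nat_lit 4494) (.f (nat_lit 399) (nat_lit 367) (nat_lit 6510) (.f (nat_lit 400) (nat_lit 401) (nat_lit 1421) (.d (nat_lit 368) (nat_lit 369) (nat_lit 2413) (nat_lit 432) (nat_lit 5487)))))))))) (.a (.f (nat_lit 493) (nat_lit 492) (nat_lit 1484) (.f (nat_lit 429) (nat_lit 428) (nat_lit 3500) (.f (nat_lit 397) (nat_lit 365) (nat_lit 4461) (.f (nat_lit 398) (nat_lit 366) (nat_lit 6509) (.f (nat_lit 430) (nat_lit 525) (nat_lit 5517) (.f (nat_lit 495) (nat_lit 527) (nat_lit 4494) (.f (nat_lit 399) (nat_lit 367) (nat_lit 6510) (.f (nat_lit 400) (nat_lit 401) (nat_lit 1421) (.d (nat_lit 368) (nat_lit 369) (nat_lit 2413) (nat_lit 431) (nat_lit 6511)))))))))) (.f (nat_lit 432) (nat_lit 433) (nat_lit 2477) (.f (nat_lit 460) (nat_lit 431) (nat_lit 2476) (.d (nat_lit 428) (nat_lit 427) (nat_lit 3499) (nat_lit 429) (nat_lit 3500)))))))) (.a (.p (nat_lit 465) (.a (.f (nat_lit 430) (nat_lit 429) (nat_lit 3501) (.d (nat_lit 466) (nat_lit 431) (nat_lit 3502) (nat_lit 495) (nat_lit 1486))) (.a (.f (nat_lit 466) (nat_lit 495) (nat_lit 1486) (.d (nat_lit 498) (nat_lit 497) (nat_lit 462) (nat_lit 499) (nat_lit 463))) (.f (nat_lit 429) (nat_lit 430) (nat_lit 3501) (.f (nat_lit 461) (nat_lit 428) (nat_lit 3500) (.d (nat_lit 433) (nat_lit 432) (nat_lit 2477) (nat_lit 434) (nat_lit 2478))))))) (.f (nat_lit 465) (nat_lit 493) (nat_lit 1485) (.f (nat_lit 430) (nat_lit 429) (nat_lit 3501) (.f (nat_lit 466) (nat_lit 431) (nat_lit 3502) (.d (nat_lit 434) (nat_lit 433) (nat_lit 2478) (nat_lit 435) (nat_lit 2479)))))))))))))))))))))) (.a (.p (nat_lit 463) (.a s65175 (.a (.p (nat_lit 465) (.a (.f (nat_lit 430) (nat_lit 429) (nat_lit 3501) (.f (nat_lit 466) (nat_lit 431) (nat_lit 3502) (.d (nat_lit 434) (nat_lit 433) (nat_lit 2478) (nat_lit 435) (nat_lit 2479)))) (.a (.f (nat_lit 494) (nat_lit 493) (nat_lit 1485) (.f (nat_lit 466) (nat_lit 495) (nat_lit 1486) (.d (nat_lit 498) (nat_lit 497) (nat_lit 462) (nat_lit 499) (nat_lit 463)))) (.f (nat_lit 433) (nat_lit 434) (nat_lit 2478) (.f (nat_lit 461) (nat_lit 432) (nat_lit 2477) (.d (nat_lit 493) (nat_lit 492) (nat_lit 1484) (nat_lit 494) (nat_lit 1485))))))) (.a s65182 (.a s65199 (.a (.p (nat_lit 465) (.a (.f (nat_lit 494) (nat_lit 493) (nat_lit 1485) (.f (nat_lit 466) (nat_lit 495) (nat_lit 1486) (.d (nat_lit 498) (nat_lit 497) (nat_lit 462) (nat_lit 499) (nat_lit 463)))) (.a (.f (nat_lit 433) (nat_lit 434) (nat_lit 2478) (.f (nat_lit 461) (nat_lit 432) (nat_lit 2477) (.d (nat_lit 493) (nat_lit 492) (nat_lit 1484) (nat_lit 494) (nat_lit 1485)))) (.f (nat_lit 433) (nat_lit 434) (nat_lit 2478) (.f (nat_lit 461) (nat_lit 432) (nat_lit 2477) (.d (nat_lit 429) (nat_lit 428) (nat_lit 3500) (nat_lit 430) (nat_lit 3501))))))) (.a s65207 (.a s65211 (.a s65228 (.a s65249 s65255)))))))))) (.a (.p (nat_lit 526) (.a s64804 (.a s64887 (.a (.p (nat_lit 494) (.a s64543 (.a (.p (nat_lit 527) (.a (.f (nat_lit 559) (nat_lit 430) (nat_lit 4526) (.d (nat_lit 561) (nat_lit 525) (nat_lit 525) (nat_lit 562) (nat_lit 3598))) (.a (.f (nat_lit 525) (nat_lit 561) (nat_lit 525) (.f (nat_lit 493) (nat_lit 492) (nat_lit 3564) (.d (nat_lit 557) (nat_lit 556) (nat_lit 1548) (nat_lit 589) (nat_lit 6605)))) (.f (nat_lit 559) (nat_lit 430) (nat_lit 4526) (.d (nat_lit 591) (nat_lit 495) (nat_lit 7630) (nat_lit 558) (nat_lit 4558)))))) (.a (.p (nat_lit 558) (.a (.f (nat_lit 559) (nat_lit 591) (nat_lit 4558) (.f (nat_lit 525) (nat_lit 561) (nat_lit 3597) (.d (nat_lit 557) (nat_lit 524) (nat_lit 3596) (nat_lit 589) (nat_lit 5581)))) (.f (nat_lit 461) (nat_lit 429) (nat_lit 7597) (.f (nat_lit 493) (nat_lit 590) (nat_lit 7629) (.d (nat_lit 463) (nat_lit 465) (nat_lit 1485) (nat_lit 492) (nat_lit 1484)))))) (.a s64556 (.a s64560 (.a (.p (nat_lit 558) (.a (.f (nat_lit 559) (nat_lit 591) (nat_lit 4558) (.f (nat_lit 527) (nat_lit 430) (nat_lit 4526) (.d (nat_lit 557) (nat_lit 556) (nat_lit 2572) (nat_lit 589) (nat_lit 5581)))) (.f (nat_lit 461) (nat_lit 429) (nat_lit 7597) (.f (nat_lit 493) (nat_lit 590) (nat_lit 7629) (.d (nat_lit 463) (nat_lit 465) (nat_lit 1485) (nat_lit 492) (nat_lit 1484)))))) (.a (.p (nat_lit 463) (.a (.f (nat_lit 558) (nat_lit 431) (nat_lit 6574) (.f (nat_lit 559) (nat_lit 591) (nat_lit 4558) (.f (nat_lit 527) (nat_lit 430) (nat_lit 4526) (.d (nat_lit 561) (nat_lit 525) (nat_lit 3597) (nat_lit 562) (nat_lit 3598))))) (.a (.f (nat_lit 558) (nat_lit 431) (nat_lit 6574) (.f (nat_lit 493) (nat_lit 465) (nat_lit 1485) (.d (nat_lit 461) (nat_lit 429) (nat_lit 7597) (nat_lit 492) (nat_lit 1484)))) (.f (nat_lit 493) (nat_lit 465) (nat_lit 1485) (.d (nat_lit 492) (nat_lit 461) (nat_lit 1484) (nat_lit 491) (nat_lit 2507)))))) (.a (.p (nat_lit 527) (.a (.f (nat_lit 559) (nat_lit 430) (nat_lit 4526) (.d (nat_lit 561) (nat_lit 525) (nat_lit 525) (nat_lit 562) (nat_lit 3598))) (.a (.f (nat_lit 525) (nat_lit 561) (nat_lit 525) (.f (nat_lit 493) (nat_lit 492) (nat_lit 3564) (.d (nat_lit 557) (nat_lit 556) (nat_lit 1548) (nat_lit 589) (nat_lit 6605)))) (.f (nat_lit 559) (nat_lit 430) (nat_lit 4526) (.d (nat_lit 591) (nat_lit 495) (nat_lit 7630) (nat_lit 623) (nat_lit 7662)))))) (.p (nat_lit 463) (.a (.f (nat_lit 493) (nat_lit 465) (nat_lit 1485) (.d (nat_lit 492) (nat_lit 461) (nat_lit 1484) (nat_lit 491) (nat_lit 2507))) (.f (nat_lit 431) (nat_lit 558) (nat_lit 6574) (.d (nat_lit 399) (nat_lit 367) (nat_lit 5486) (nat_lit 430) (nat_lit 6542)))))))))))))) (.a (.p (nat_lit 463) (.a (.p (nat_lit 494) (.a (.f (nat_lit 558) (nat_lit 431) (nat_lit 6574) (.f (nat_lit 559) (nat_lit 591) (nat_lit 4558) (.f (nat_lit 527) (nat_lit 430) (nat_lit 4526) (.d (nat_lit 561) (nat_lit 525) (nat_lit 3597) (nat_lit 562) (nat_lit 3598))))) (.f (nat_lit 493) (nat_lit 465) (nat_lit 1485) (.d (nat_lit 492) (nat_lit 461) (nat_lit 1484) (nat_lit 491) (nat_lit 2507))))) (.a (.p (nat_lit 494) (.a (.f (nat_lit 493) (nat_lit 465) (nat_lit 1485) (.d (nat_lit 492) (nat_lit 461) (nat_lit 1484) (nat_lit 491) (nat_lit 2507))) (.f (nat_lit 558) (nat_lit 431) (nat_lit 6574) (.f (nat_lit 559) (nat_lit 591) (nat_lit 4558) (.f (nat_lit 525) (nat_lit 561) (nat_lit 3597) (.d (nat_lit 557) (nat_lit 524) (nat_lit 3596) (nat_lit 589) (nat_lit 5581))))))) (.a (.p (nat_lit 465) (.a (.f (nat_lit 494) (nat_lit 493) (nat_lit 1485) (.f (nat_lit 495) (nat_lit 466) (nat_lit 1486) (.f (nat_lit 558) (nat_lit 590) (nat_lit 6606) (.f (nat_lit 559) (nat_lit 591) (nat_lit 4558) (.d (nat_lit 527) (nat_lit 430) (nat_lit 4526) (nat_lit 432) (nat_lit 6575)))))) (.a (.f (nat_lit 494) (nat_lit 493) (nat_lit 1485) (.f (nat_lit 466) (nat_lit 495) (nat_lit 1486) (.d (nat_lit 498) (nat_lit 497) (nat_lit 462) (nat_lit 499) (nat_lit 463)))) (.a (.f (nat_lit 493) (nat_lit 494) (nat_lit 1485) (.f (nat_lit 461) (nat_lit 492) (nat_lit 1484) (.d (nat_lit 433) (nat_lit 432) (nat_lit 2477) (nat_lit 434) (nat_lit 2478)))) (.a (.f (nat_lit 433) (nat_lit 434) (nat_lit 2478) (.f (nat_lit 498) (nat_lit 497) (nat_lit 462) (.f (nat_lit 466) (nat_lit 499) (nat_lit 463) (.f (nat_lit 432) (nat_lit 461) (nat_lit 2477) (.f (nat_lit 495) (nat_lit 494) (nat_lit 1486) (.f (nat_lit 527) (nat_lit 559) (nat_lit 6575) (.f (nat_lit 562) (nat_lit 530) (nat_lit 7601) (.d (nat_lit 561) (nat_lit 525) (nat_lit 525) (nat_lit 563) (nat_lit 3599))))))))) (.f (nat_lit 434) (nat_lit 433) (nat_lit 2478) (.f (nat_lit 466) (nat_lit 435) (nat_lit 2479) (.d (nat_lit 498) (nat_lit 497) (nat_lit 462) (nat_lit 499) (nat_lit 463))))))))) (.a s64751 (.a s64979 (.p (nat_lit 494) (.a (.f (nat_lit 493) (nat_lit 465) (nat_lit 1485) (.d (nat_lit 492) (nat_lit 461) (nat_lit 1484) (nat_lit 491) (nat_lit 2507))) (.f (nat_lit 431) (nat_lit 558) (nat_lit 6574) (.d (nat_lit 399) (nat_lit 367) (nat_lit 5486) (nat_lit 430) (nat_lit 6542))))))))))) (.a (.p (nat_lit 494) (.a s64543 (.a (.p (nat_lit 527) (.a (.f (nat_lit 559) (nat_lit 430) (nat_lit 4526) (.d (nat_lit 561) (nat_lit 525) (nat_lit 525) (nat_lit 562) (nat_lit 3598))) (.a (.f (nat_lit 525) (nat_lit 561) (nat_lit 525) (.f (nat_lit 493) (nat_lit 492) (nat_lit 3564) (.d (nat_lit 557) (nat_lit 556) (nat_lit 1548) (nat_lit 589) (nat_lit 6605)))) (.f (nat_lit 559) (nat_lit 430) (nat_lit 4526) (.d (nat_lit 591) (nat_lit 495) (nat_lit 7630) (nat_lit 558) (nat_lit 4558)))))) (.a (.p (nat_lit 558) (.a (.f (nat_lit 559) (nat_lit 591) (nat_lit 4558) (.f (nat_lit 525) (nat_lit 561) (nat_lit 3597) (.d (nat_lit 557) (nat_lit 524) (nat_lit 3596) (nat_lit 589) (nat_lit 5581)))) (.f (nat_lit 461) (nat_lit 429) (nat_lit 7597) (.f (nat_lit 493) (nat_lit 590) (nat_lit 7629) (.d (nat_lit 463) (nat_lit 465) (nat_lit 1485) (nat_lit 492) (nat_lit 1484)))))) (.a s64556 (.a s64560 (.a (.p (nat_lit 558) (.a (.f (nat_lit 559) (nat_lit 591) (nat_lit 4558) (.f (nat_lit 527) (nat_lit 430) (nat_lit 4526) (.d (nat_lit 557) (nat_lit 556) (nat_lit 2572) (nat_lit 589) (nat_lit 5581)))) (.f (nat_lit 461) (nat_lit 429) (nat_lit 7597) (.f (nat_lit 493) (nat_lit 590) (nat_lit 7629) (.d (nat_lit 463) (nat_lit 465) (nat_lit 1485) (nat_lit 492) (nat_lit 1484)))))) (.a s65268 (.a (.p (nat_lit 430) (.a (.f (nat_lit 527) (nat_lit 559) (nat_lit 4526) (.d (nat_lit 525) (nat_lit 557) (nat_lit 5549) (nat_lit 561) (nat_lit 525))) (.f (nat_lit 429) (nat_lit 397) (nat_lit 7565) (.f (nat_lit 463) (nat_lit 465) (nat_lit 3501) (.d (nat_lit 428) (nat_lit 427) (nat_lit 427) (nat_lit 461) (nat_lit 3500)))))) s65270))))))))) (.a (.p (nat_lit 494) (.a (.p (nat_lit 527) (.a (.f (nat_lit 559) (nat_lit 430) (nat_lit 4526) (.d (nat_lit 561) (nat_lit 525) (nat_lit 525) (nat_lit 562) (nat_lit 3598))) (.a (.f (nat_lit 525) (nat_lit 561) (nat_lit 525) (.f (nat_lit 493) (nat_lit 492) (nat_lit 3564) (.d (nat_lit 557) (nat_lit 556) (nat_lit 1548) (nat_lit 589) (nat_lit 6605)))) (.f (nat_lit 559) (nat_lit 430) (nat_lit 4526) (.d (nat_lit 591) (nat_lit 495) (nat_lit 7630) (nat_lit 558) (nat_lit 4558)))))) (.a (.p (nat_lit 558) (.a (.f (nat_lit 559) (nat_lit 591) (nat_lit 4558) (.f (nat_lit 525) (nat_lit 561) (nat_lit 3597) (.d (nat_lit 557) (nat_lit 524) (nat_lit 3596) (nat_lit 589) (nat_lit 5581)))) (.a (.f (nat_lit 559) (nat_lit 591) (nat_lit 4558) (.f (nat_lit 561) (nat_lit 525) (nat_lit 3597) (.d (nat_lit 589) (nat_lit 557) (nat_lit 5581) (nat_lit 590) (nat_lit 1581)))) (.f (nat_lit 463) (nat_lit 431) (nat_lit 6574) (.f (nat_lit 495) (nat_lit 590) (nat_lit 6606) (.d (nat_lit 493) (nat_lit 465) (nat_lit 1485) (nat_lit 492) (nat_lit 2508))))))) (.a s64560 (.a (.p (nat_lit 463) (.a (.f (nat_lit 431) (nat_lit 558) (nat_lit 6574) (.d (nat_lit 399) (nat_lit 367) (nat_lit 5486) (nat_lit 430) (nat_lit 6542))) (.f (nat_lit 465) (nat_lit 493) (nat_lit 1485) (.f (nat_lit 466) (nat_lit 495) (nat_lit 1486) (.d (nat_lit 498) (nat_lit 497) (nat_lit 462) (nat_lit 499) (nat_lit 463)))))) (.p (nat_lit 527) (.a (.f (nat_lit 559) (nat_lit 430) (nat_lit 4526) (.d (nat_lit 561) (nat_lit 525) (nat_lit 525) (nat_lit 562) (nat_lit 3598))) (.a (.f (nat_lit 525) (nat_lit 561) (nat_lit 525) (.f (nat_lit 493) (nat_lit 492) (nat_lit 3564) (.d (nat_lit 557) (nat_lit 556) (nat_lit 1548) (nat_lit 589) (nat_lit 6605)))) (.f (nat_lit 559) (nat_lit 430) (nat_lit 4526) (.d (nat_lit 591) (nat_lit 495) (nat_lit 7630) (nat_lit 623) (nat_lit 7662))))))))))) (.a s65274 (.a s64974 (.a (.p (nat_lit 463) (.a s64800 (.a s64872 (.a s64979 (.a s64996 (.a s65005 (.a s64969 s65016))))))) (.a (.p (nat_lit 494) (.a s64543 (.a s64560 (.a (.p (nat_lit 558) (.a (.f (nat_lit 559) (nat_lit 591) (nat_lit 4558) (.f (nat_lit 525) (nat_lit 561) (nat_lit 3597) (.d (nat_lit 557) (nat_lit 524) (nat_lit 3596) (nat_lit 589) (nat_lit 5581)))) (.f (nat_lit 461) (nat_lit 429) (nat_lit 7597) (.f (nat_lit 493) (nat_lit 590) (nat_lit 7629) (.d (nat_lit 463) (nat_lit 465) (nat_lit 1485) (nat_lit 492) (nat_lit 1484)))))) (.a (.p (nat_lit 558) (.a (.f (nat_lit 559) (nat_lit 591) (nat_lit 4558) (.f (nat_lit 527) (nat_lit 430) (nat_lit 4526) (.d (nat_lit 557) (nat_lit 556) (nat_lit 2572) (nat_lit 589) (nat_lit 5581)))) (.f (nat_lit 461) (nat_lit 429) (nat_lit 7597) (.f (nat_lit 493) (nat_lit 590) (nat_lit 7629) (.d (nat_lit 463) (nat_lit 465) (nat_lit 1485) (nat_lit 492) (nat_lit 1484)))))) (.a (.p (nat_lit 463) (.a (.f (nat_lit 558) (nat_lit 431) (nat_lit 6574) (.f (nat_lit 559) (nat_lit 591) (nat_lit 4558) (.f (nat_lit 527) (nat_lit 430) (nat_lit 4526) (.d (nat_lit 561) (nat_lit 525) (nat_lit 3597) (nat_lit 562) (nat_lit 3598))))) (.a (.f (nat_lit 558) (nat_lit 431) (nat_lit 6574) (.f (nat_lit 493) (nat_lit 465) (nat_lit 1485) (.d (nat_lit 461) (nat_lit 429) (nat_lit 7597) (nat_lit 492) (nat_lit 1484)))) (.f (nat_lit 493) (nat_lit 465) (nat_lit 1485) (.d (nat_lit 492) (nat_lit 461) (nat_lit 1484) (nat_lit 491) (nat_lit 2507)))))) (.a (.p (nat_lit 430) (.a (.f (nat_lit 527) (nat_lit 559) (nat_lit 4526) (.d (nat_lit 525) (nat_lit 557) (nat_lit 5549) (nat_lit 561) (nat_lit 525))) (.f (nat_lit 429) (nat_lit 397) (nat_lit 7565) (.f (nat_lit 463) (nat_lit 465) (nat_lit 3501) (.d (nat_lit 428) (nat_lit 427) (nat_lit 427) (nat_lit 461) (nat_lit 3500)))))) (.p (nat_lit 463) (.a (.f (nat_lit 493) (nat_lit 465) (nat_lit 1485) (.d (nat_lit 492) (nat_lit 461) (nat_lit 1484) (nat_lit 491) (nat_lit 2507))) (.f (nat_lit 431) (nat_lit 558) (nat_lit 6574) (.d (nat_lit 399) (nat_lit 367) (nat_lit 5486) (nat_lit 430) (nat_lit 6542)))))))))))) (.a s65043 (.a (.p (nat_lit 463) (.a s64801 (.a s64881 (.a (.p (nat_lit 494) (.a (.f (nat_lit 493) (nat_lit 465) (nat_lit 1485) (.d (nat_lit 492) (nat_lit 461) (nat_lit 1484) (nat_lit 491) (nat_lit 2507))) (.f (nat_lit 431) (nat_lit 558) (nat_lit 6574) (.d (nat_lit 399) (nat_lit 367) (nat_lit 5486) (nat_lit 430) (nat_lit 6542))))) (.a (.p (nat_lit 465) (.a (.f (nat_lit 494) (nat_lit 493) (nat_lit 1485) (.f (nat_lit 495) (nat_lit 466) (nat_lit 1486) (.f (nat_lit 558) (nat_lit 590) (nat_lit 6606) (.f (nat_lit 559) (nat_lit 591) (nat_lit 4558) (.d (nat_lit 527) (nat_lit 430) (nat_lit 4526) (nat_lit 432) (nat_lit 6575)))))) (.a (.f (nat_lit 494) (nat_lit 493) (nat_lit 1485) (.f (nat_lit 466) (nat_lit 495) (nat_lit 1486) (.d (nat_lit 498) (nat_lit 497) (nat_lit 462) (nat_lit 499) (nat_lit 463)))) (.a (.f (nat_lit 494) (nat_lit 493) (nat_lit 1485) (.f (nat_lit 430) (nat_lit 429) (nat_lit 3501) (.d (nat_lit 431) (nat_lit 399) (nat_lit 6542) (nat_lit 558) (nat_lit 6574)))) (.f (nat_lit 430) (nat_lit 429) (nat_lit 3501) (.f (nat_lit 466) (nat_lit 431) (nat_lit 3502) (.d (nat_lit 434) (nat_lit 433) (nat_lit 2478) (nat_lit 435) (nat_lit 2479)))))))) (.a s65034 (.a s64973 s65016))))))) (.a (.p (nat_lit 463) (.a (.p (nat_lit 494) (.a (.f (nat_lit 558) (nat_lit 431) (nat_lit 6574) (.f (nat_lit 493) (nat_lit 465) (nat_lit 1485) (.d (nat_lit 461) (nat_lit 429) (nat_lit 7597) (nat_lit 492) (nat_lit 1484)))) (.a (.f (nat_lit 493) (nat_lit 465) (nat_lit 1485) (.d (nat_lit 492) (nat_lit 461) (nat_lit 1484) (nat_lit 491) (nat_lit 2507))) (.f (nat_lit 558) (nat_lit 431) (nat_lit 6574) (.f (nat_lit 559) (nat_lit 591) (nat_lit 4558) (.f (nat_lit 525) (nat_lit 561) (nat_lit 3597) (.d (nat_lit 557) (nat_lit 524) (nat_lit 3596) (nat_lit 589) (nat_lit 5581)))))))) (.a (.p (nat_lit 494) (.a (.f (nat_lit 493) (nat_lit 465) (nat_lit 1485) (.d (nat_lit 492) (nat_lit 461) (nat_lit 1484) (nat_lit 491) (nat_lit 2507))) (.f (nat_lit 558) (nat_lit 431) (nat_lit 6574) (.f (nat_lit 559) (nat_lit 591) (nat_lit 4558) (.f (nat_lit 525) (nat_lit 561) (nat_lit 3597) (.d (nat_lit 557) (nat_lit 524) (nat_lit 3596) (nat_lit 589) (nat_lit 5581))))))) (.a (.p (nat_lit 465) (.a (.f (nat_lit 494) (nat_lit 493) (nat_lit 1485) (.f (nat_lit 466) (nat_lit 495) (nat_lit 1486) (.d (nat_lit 498) (nat_lit 497) (nat_lit 462) (nat_lit 499) (nat_lit 463)))) (.f (nat_lit 433) (nat_lit 434) (nat_lit 2478) (.f (nat_lit 461) (nat_lit 432) (nat_lit 2477) (.d (nat_lit 429) (nat_lit 428) (nat_lit 3500) (nat_lit 430) (nat_lit 3501)))))) (.a (.p (nat_lit 494) (.a (.f (nat_lit 558) (nat_lit 431) (nat_lit 6574) (.f (nat_lit 559) (nat_lit 591) (nat_lit 4558) (.f (nat_lit 525) (nat_lit 561) (nat_lit 3597) (.d (nat_lit 557) (nat_lit 524) (nat_lit 3596) (nat_lit 589) (nat_lit 5581))))) (.f (nat_lit 465) (nat_lit 493) (nat_lit 1485) (.f (nat_lit 466) (nat_lit 495) (nat_lit 1486) (.d (nat_lit 498) (nat_lit 497) (nat_lit 462) (nat_lit 499) (nat_lit 463)))))) (.a s65041 (.a s64973 s65016))))))) (.a (.p (nat_lit 463) (.a s64802 (.a s64979 (.a (.p (nat_lit 461) (.a (.f (nat_lit 432) (nat_lit 433) (nat_lit 2477) (.f (nat_lit 431) (nat_lit 460) (nat_lit 2476) (.f (nat_lit 527) (nat_lit 495) (nat_lit 4527) (.f (nat_lit 525) (nat_lit 561) (nat_lit 525) (.f (nat_lit 524) (nat_lit 559) (nat_lit 524) (.d (nat_lit 556) (nat_lit 555) (nat_lit 1547) (nat_lit 557) (nat_lit 1548))))))) (.f (nat_lit 493) (nat_lit 492) (nat_lit 1484) (.f (nat_lit 494) (nat_lit 465) (nat_lit 1485) (.d (nat_lit 429) (nat_lit 397) (nat_lit 4493) (nat_lit 428) (nat_lit 3500)))))) (.a s65005 (.a s64938 s65016)))))) (.p (nat_lit 463) (.a (.p (nat_lit 465) (.a (.f (nat_lit 494) (nat_lit 493) (nat_lit 1485) (.f (nat_lit 466) (nat_lit 495) (nat_lit 1486) (.d (nat_lit 498) (nat_lit 497) (nat_lit 462) (nat_lit 499) (nat_lit 463)))) (.f (nat_lit 433) (nat_lit 434) (nat_lit 2478) (.f (nat_lit 461) (nat_lit 432) (nat_lit 2477) (.d (nat_lit 429) (nat_lit 428) (nat_lit 3500) (nat_lit 430) (nat_lit 3501)))))) (.a s64881 (.a (.p (nat_lit 494) (.a (.f (nat_lit 493) (nat_lit 465) (nat_lit 1485) (.d (nat_lit 492) (nat_lit 461) (nat_lit 1484) (nat_lit 491) (nat_lit 2507))) (.f (nat_lit 431) (nat_lit 558) (nat_lit 6574) (.d (nat_lit 399) (nat_lit 367) (nat_lit 5486) (nat_lit 430) (nat_lit 6542))))) (.a (.p (nat_lit 465) (.a (.f (nat_lit 494) (nat_lit 493) (nat_lit 1485) (.f (nat_lit 466) (nat_lit 495) (nat_lit 1486) (.d (nat_lit 498) (nat_lit 497) (nat_lit 462) (nat_lit 499) (nat_lit 463)))) (.a (.f (nat_lit 494) (nat_lit 493) (nat_lit 1485) (.f (nat_lit 430) (nat_lit 429) (nat_lit 3501) (.d (nat_lit 431) (nat_lit 399) (nat_lit 6542) (nat_lit 558) (nat_lit 6574)))) (.f (nat_lit 430) (nat_lit 429) (nat_lit 3501) (.f (nat_lit 466) (nat_lit 431) (nat_lit 3502) (.d (nat_lit 434) (nat_lit 433) (nat_lit 2478) (nat_lit 435) (nat_lit 2479))))))) (.a s65027 (.a s64973 s65016)))))))))))))))))))))) (.a (.p (nat_lit 494) (.a s64476 (.a s65103 (.a s65106 (.a s65111 (.a s64589 (.a s65117 (.a s65284 (.a (.p (nat_lit 463) (.a (.f (nat_lit 465) (nat_lit 493) (nat_lit 1485) (.f (nat_lit 430) (nat_lit 429) (nat_lit 3501) (.d (nat_lit 466) (nat_lit 431) (nat_lit 3502) (nat_lit 495) (nat_lit 1486)))) (.a (.f (nat_lit 465) (nat_lit 493) (nat_lit 1485) (.f (nat_lit 466) (nat_lit 495) (nat_lit 1486) (.d (nat_lit 498) (nat_lit 497) (nat_lit 462) (nat_lit 499) (nat_lit 463)))) (.a (.p (nat_lit 461) (.a (.f (nat_lit 429) (nat_lit 428) (nat_lit 3500) (.f (nat_lit 432) (nat_lit 433) (nat_lit 2477) (.f (nat_lit 431) (nat_lit 460) (nat_lit 2476) (.f (nat_lit 495) (nat_lit 527) (nat_lit 4527) (.f (nat_lit 400) (nat_lit 368) (nat_lit 5487) (.f (nat_lit 430) (nat_lit 401) (nat_lit 2445) (.d (nat_lit 397) (nat_lit 365) (nat_lit 4461) (nat_lit 396) (nat_lit 3468)))))))) (.a (.f (nat_lit 432) (nat_lit 433) (nat_lit 2477) (.f (nat_lit 460) (nat_lit 431) (nat_lit 2476) (.d (nat_lit 428) (nat_lit 427) (nat_lit 3499) (nat_lit 429) (nat_lit 3500)))) (.a (.f (nat_lit 432) (nat_lit 433) (nat_lit 2477) (.f (nat_lit 431) (nat_lit 460) (nat_lit 2476) (.f (nat_lit 527) (nat_lit 495) (nat_lit 4527) (.f (nat_lit 526) (nat_lit 558) (nat_lit 6574) (.f (nat_lit 525) (nat_lit 561) (nat_lit 525) (.d (nat_lit 559) (nat_lit 430) (nat_lit 4526) (nat_lit 524) (nat_lit 524))))))) (.f (nat_lit 429) (nat_lit 428) (nat_lit 3500) (.f (nat_lit 526) (nat_lit 558) (nat_lit 7597) (.d (nat_lit 397) (nat_lit 365) (nat_lit 4461) (nat_lit 493) (nat_lit 4493)))))))) (.a (.p (nat_lit 465) (.a (.f (nat_lit 430) (nat_lit 429) (nat_lit 3501) (.d (nat_lit 466) (nat_lit 431) (nat_lit 3502) (nat_lit 495) (nat_lit 1486))) (.a (.f (nat_lit 466) (nat_lit 495) (nat_lit 1486) (.d (nat_lit 498) (nat_lit 497) (nat_lit 462) (nat_lit 499) (nat_lit 463))) (.f (nat_lit 429) (nat_lit 430) (nat_lit 3501) (.f (nat_lit 461) (nat_lit 428) (nat_lit 3500) (.d (nat_lit 433) (nat_lit 432) (nat_lit 2477) (nat_lit 434) (nat_lit 2478))))))) (.f (nat_lit 465) (nat_lit 493) (nat_lit 1485) (.f (nat_lit 430) (nat_lit 429) (nat_lit 3501) (.f (nat_lit 466) (nat_lit 431) (nat_lit 3502) (.d (nat_lit 434) (nat_lit 433) (nat_lit 2478) (nat_lit 435) (nat_lit 2479)))))))))) (.a (.p (nat_lit 526) (.a s64560 (.a s65060 (.a (.p (nat_lit 430) (.a (.f (nat_lit 527) (nat_lit 559) (nat_lit 4526) (.d (nat_lit 525) (nat_lit 557) (nat_lit 5549) (nat_lit 561) (nat_lit 525))) (.a (.f (nat_lit 527) (nat_lit 559) (nat_lit 4526) (.f (nat_lit 398) (nat_lit 495) (nat_lit 4494) (.d (nat_lit 397) (nat_lit 365) (nat_lit 7533) (nat_lit 429) (nat_lit 7565)))) (.f (nat_lit 429) (nat_lit 397) (nat_lit 7565) (.f (nat_lit 463) (nat_lit 465) (nat_lit 3501) (.d (nat_lit 428) (nat_lit 427) (nat_lit 427) (nat_lit 461) (nat_lit 3500))))))) (.a (.p (nat_lit 558) (.a (.f (nat_lit 559) (nat_lit 591) (nat_lit 4558) (.f (nat_lit 527) (nat_lit 430) (nat_lit 4526) (.d (nat_lit 557) (nat_lit 556) (nat_lit 2572) (nat_lit 589) (nat_lit 5581)))) (.a (.f (nat_lit 463) (nat_lit 431) (nat_lit 6574) (.f (nat_lit 590) (nat_lit 495) (nat_lit 6606) (.d (nat_lit 589) (nat_lit 557) (nat_lit 5581) (nat_lit 621) (nat_lit 5613)))) (.f (nat_lit 463) (nat_lit 431) (nat_lit 6574) (.f (nat_lit 559) (nat_lit 591) (nat_lit 4558) (.f (nat_lit 495) (nat_lit 590) (nat_lit 6606) (.d (nat_lit 527) (nat_lit 430) (nat_lit 4526) (nat_lit 432) (nat_lit 6575)))))))) (.a (.p (nat_lit 558) (.a (.f (nat_lit 559) (nat_lit 591) (nat_lit 4558) (.f (nat_lit 527) (nat_lit 430) (nat_lit 4526) (.d (nat_lit 561) (nat_lit 525) (nat_lit 3597) (nat_lit 562) (nat_lit 3598)))) (.a (.f (nat_lit 559) (nat_lit 591) (nat_lit 4558) (.f (nat_lit 561) (nat_lit 525) (nat_lit 3597) (.f (nat_lit 463) (nat_lit 431) (nat_lit 6574) (.d (nat_lit 590) (nat_lit 495) (nat_lit 6606) (nat_lit 589) (nat_lit 1581))))) (.a (.f (nat_lit 463) (nat_lit 431) (nat_lit 6574) (.f (nat_lit 559) (nat_lit 591) (nat_lit 4558) (.f (nat_lit 495) (nat_lit 590) (nat_lit 6606) (.d (nat_lit 527) (nat_lit 430) (nat_lit 4526) (nat_lit 432) (nat_lit 6575))))) (.f (nat_lit 463) (nat_lit 431) (nat_lit 6574) (.f (nat_lit 429) (nat_lit 461) (nat_lit 7597) (.d (nat_lit 430) (nat_lit 397) (nat_lit 7565) (nat_lit 465) (nat_lit 3501)))))))) (.p (nat_lit 558) (.a (.f (nat_lit 557) (nat_lit 589) (nat_lit 5581) (.f (nat_lit 525) (nat_lit 430) (nat_lit 5549) (.d (nat_lit 527) (nat_lit 556) (nat_lit 1548) (nat_lit 561) (nat_lit 525)))) (.a (.f (nat_lit 463) (nat_lit 431) (nat_lit 6574) (.f (nat_lit 590) (nat_lit 495) (nat_lit 6606) (.d (nat_lit 589) (nat_lit 557) (nat_lit 5581) (nat_lit 621) (nat_lit 5613)))) (.f (nat_lit 463) (nat_lit 431) (nat_lit 6574) (.f (nat_lit 429) (nat_lit 461) (nat_lit 7597) (.d (nat_lit 430) (nat_lit 397) (nat_lit 7565) (nat_lit 465) (nat_lit 3501))))))))))))) (.a (.p (nat_lit 463) (.a (.f (nat_lit 465) (nat_lit 493) (nat_lit 1485) (.f (nat_lit 430) (nat_lit 429) (nat_lit 3501) (.f (nat_lit 466) (nat_lit 431) (nat_lit 3502) (.d (nat_lit 434) (nat_lit 433) (nat_lit 2478) (nat_lit 435) (nat_lit 2479))))) (.a (.f (nat_lit 465) (nat_lit 493) (nat_lit 1485) (.f (nat_lit 433) (nat_lit 434) (nat_lit 2478) (.f (nat_lit 432) (nat_lit 461) (nat_lit 2477) (.f (nat_lit 498) (nat_lit 497) (nat_lit 462) (.f (nat_lit 466) (nat_lit 499) (nat_lit 463) (.d (nat_lit 431) (nat_lit 430) (nat_lit 430) (nat_lit 467) (nat_lit 3503))))))) (.a (.f (nat_lit 465) (nat_lit 493) (nat_lit 1485) (.f (nat_lit 433) (nat_lit 434) (nat_lit 2478) (.f (nat_lit 498) (nat_lit 497) (nat_lit 462) (.f (nat_lit 466) (nat_lit 499) (nat_lit 463) (.f (nat_lit 432) (nat_lit 461) (nat_lit 2477) (.d (nat_lit 467) (nat_lit 431) (nat_lit 3503) (nat_lit 468) (nat_lit 3504))))))) (.a (.f (nat_lit 465) (nat_lit 493) (nat_lit 1485) (.f (nat_lit 429) (nat_lit 430) (nat_lit 3501) (.f (nat_lit 461) (nat_lit 428) (nat_lit 3500) (.d (nat_lit 433) (nat_lit 432) (nat_lit 2477) (nat_lit 434) (nat_lit 2478))))) (.a (.f (nat_lit 465) (nat_lit 493) (nat_lit 1485) (.f (nat_lit 430) (nat_lit 429) (nat_lit 3501) (.f (nat_lit 466) (nat_lit 431) (nat_lit 3502) (.d (nat_lit 498) (nat_lit 497) (nat_lit 462) (nat_lit 499) (nat_lit 463))))) (.a (.p (nat_lit 461) (.a (.f (nat_lit 493) (nat_lit 492) (nat_lit 1484) (.f (nat_lit 429) (nat_lit 428) (nat_lit 3500) (.d (nat_lit 397) (nat_lit 365) (nat_lit 4461) (nat_lit 526) (nat_lit 4493)))) (.a (.f (nat_lit 493) (nat_lit 492) (nat_lit 1484) (.f (nat_lit 429) (nat_lit 428) (nat_lit 3500) (.d (nat_lit 526) (nat_lit 397) (nat_lit 4493) (nat_lit 558) (nat_lit 7597)))) (.a (.f (nat_lit 432) (nat_lit 433) (nat_lit 2477) (.f (nat_lit 460) (nat_lit 431) (nat_lit 2476) (.d (nat_lit 428) (nat_lit 427) (nat_lit 3499) (nat_lit 429) (nat_lit 3500)))) (.f (nat_lit 492) (nat_lit 493) (nat_lit 1484) (.f (nat_lit 460) (nat_lit 491) (nat_lit 1483) (.d (nat_lit 432) (nat_lit 431) (nat_lit 2476) (nat_lit 433) (nat_lit 2477)))))))) (.p (nat_lit 465) (.a (.f (nat_lit 429) (nat_lit 430) (nat_lit 3501) (.f (nat_lit 461) (nat_lit 428) (nat_lit 3500) (.d (nat_lit 433) (nat_lit 432) (nat_lit 2477) (nat_lit 434) (nat_lit 2478)))) (.a (.f (nat_lit 433) (nat_lit 434) (nat_lit 2478) (.f (nat_lit 498) (nat_lit 497) (nat_lit 462) (.f (nat_lit 466) (nat_lit 499) (nat_lit 463) (.f (nat_lit 432) (nat_lit 461) (nat_lit 2477) (.d (nat_lit 467) (nat_lit 431) (nat_lit 3503) (nat_lit 468) (nat_lit 3504)))))) (.a (.f (nat_lit 430) (nat_lit 429) (nat_lit 3501) (.f (nat_lit 466) (nat_lit 431) (nat_lit 3502) (.d (nat_lit 434) (nat_lit 433) (nat_lit 2478) (nat_lit 435) (nat_lit 2479)))) (.f (nat_lit 430) (nat_lit 429) (nat_lit 3501) (.f (nat_lit 466) (nat_lit 431) (nat_lit 3502) (.d (nat_lit 498) (nat_lit 497) (nat_lit 462) (nat_lit 499) (nat_lit 463))))))))))))))) s65095))))))))))) (.a (.p (nat_lit 526) (.a s64792 (.a s64804 (.a s64807 (.a s64810 (.a s65322 (.a s65274 (.a s64896 (.a s64974 (.a (.p (nat_lit 463) (.a s64787 (.a s64979 (.a s65321 (.a s64996 (.a s65005 (.a s64969 (.a s65012 s65016)))))))) (.a (.p (nat_lit 494) (.a s64543 (.a s64560 (.a (.p (nat_lit 558) (.a (.f (nat_lit 559) (nat_lit 591) (nat_lit 4558) (.f (nat_lit 525) (nat_lit 561) (nat_lit 3597) (.d (nat_lit 557) (nat_lit 524) (nat_lit 3596) (nat_lit 589) (nat_lit 5581)))) (.f (nat_lit 461) (nat_lit 429) (nat_lit 7597) (.f (nat_lit 493) (nat_lit 590) (nat_lit 7629) (.d (nat_lit 463) (nat_lit 465) (nat_lit 1485) (nat_lit 492) (nat_lit 1484)))))) (.a (.p (nat_lit 558) (.a (.f (nat_lit 559) (nat_lit 591) (nat_lit 4558) (.f (nat_lit 527) (nat_lit 430) (nat_lit 4526) (.d (nat_lit 557) (nat_lit 556) (nat_lit 2572) (nat_lit 589) (nat_lit 5581)))) (.f (nat_lit 461) (nat_lit 429) (nat_lit 7597) (.f (nat_lit 493) (nat_lit 590) (nat_lit 7629) (.d (nat_lit 463) (nat_lit 465) (nat_lit 1485) (nat_lit 492) (nat_lit 1484)))))) (.a (.p (nat_lit 463) (.a (.f (nat_lit 558) (nat_lit 431) (nat_lit 6574) (.f (nat_lit 559) (nat_lit 591) (nat_lit 4558) (.f (nat_lit 527) (nat_lit 430) (nat_lit 4526) (.d (nat_lit 561) (nat_lit 525) (nat_lit 3597) (nat_lit 562) (nat_lit 3598))))) (.a (.f (nat_lit 558) (nat_lit 431) (nat_lit 6574) (.f (nat_lit 493) (nat_lit 465) (nat_lit 1485) (.d (nat_lit 461) (nat_lit 429) (nat_lit 7597) (nat_lit 492) (nat_lit 1484)))) (.f (nat_lit 493) (nat_lit 465) (nat_lit 1485) (.d (nat_lit 492) (nat_lit 461) (nat_lit 1484) (nat_lit 491) (nat_lit 2507)))))) (.a (.p (nat_lit 430) (.a (.f (nat_lit 527) (nat_lit 559) (nat_lit 4526) (.d (nat_lit 525) (nat_lit 557) (nat_lit 5549) (nat_lit 561) (nat_lit 525))) (.f (nat_lit 429) (nat_lit 397) (nat_lit 7565) (.f (nat_lit 463) (nat_lit 465) (nat_lit 3501) (.d (nat_lit 428) (nat_lit 431) (nat_lit 428) (nat_lit 461) (nat_lit 3500)))))) s64588))))))) (.a s65028 (.a (.p (nat_lit 463) (.a s64790 (.a s64801 (.a (.p (nat_lit 494) (.a (.f (nat_lit 493) (nat_lit 465) (nat_lit 1485) (.d (nat_lit 492) (nat_lit 461) (nat_lit 1484) (nat_lit 491) (nat_lit 2507))) (.f (nat_lit 431) (nat_lit 558) (nat_lit 6574) (.d (nat_lit 399) (nat_lit 367) (nat_lit 5486) (nat_lit 430) (nat_lit 6542))))) (.a s64881 (.a s65033 (.a (.p (nat_lit 461) (.a (.f (nat_lit 432) (nat_lit 433) (nat_lit 2477) (.f (nat_lit 460) (nat_lit 431) (nat_lit 2476) (.d (nat_lit 492) (nat_lit 491) (nat_lit 1483) (nat_lit 493) (nat_lit 1484)))) (.a (.f (nat_lit 429) (nat_lit 428) (nat_lit 3500) (.f (nat_lit 494) (nat_lit 558) (nat_lit 7597) (.d (nat_lit 397) (nat_lit 430) (nat_lit 7565) (nat_lit 493) (nat_lit 4493)))) (.f (nat_lit 432) (nat_lit 433) (nat_lit 2477) (.f (nat_lit 431) (nat_lit 460) (nat_lit 2476) (.f (nat_lit 495) (nat_lit 527) (nat_lit 4527) (.d (nat_lit 494) (nat_lit 399) (nat_lit 5518) (nat_lit 558) (nat_lit 6574)))))))) (.a s64973 s65016)))))))) (.a s65042 (.a (.p (nat_lit 463) (.a (.p (nat_lit 494) (.a (.f (nat_lit 558) (nat_lit 431) (nat_lit 6574) (.f (nat_lit 559) (nat_lit 591) (nat_lit 4558) (.f (nat_lit 527) (nat_lit 430) (nat_lit 4526) (.d (nat_lit 561) (nat_lit 525) (nat_lit 3597) (nat_lit 562) (nat_lit 3598))))) (.a (.f (nat_lit 558) (nat_lit 431) (nat_lit 6574) (.f (nat_lit 493) (nat_lit 465) (nat_lit 1485) (.d (nat_lit 461) (nat_lit 429) (nat_lit 7597) (nat_lit 492) (nat_lit 1484)))) (.f (nat_lit 493) (nat_lit 465) (nat_lit 1485) (.d (nat_lit 492) (nat_lit 461) (nat_lit 1484) (nat_lit 491) (nat_lit 2507)))))) (.a (.p (nat_lit 494) (.a (.f (nat_lit 558) (nat_lit 431) (nat_lit 6574) (.f (nat_lit 559) (nat_lit 591) (nat_lit 4558) (.f (nat_lit 527) (nat_lit 430) (nat_lit 4526) (.d (nat_lit 561) (nat_lit 525) (nat_lit 3597) (nat_lit 562) (nat_lit 3598))))) (.f (nat_lit 493) (nat_lit 465) (nat_lit 1485) (.d (nat_lit 492) (nat_lit 461) (nat_lit 1484) (nat_lit 491) (nat_lit 2507))))) (.a s64885 (.a s64801 (.a (.p (nat_lit 494) (.a (.f (nat_lit 558) (nat_lit 431) (nat_lit 6574) (.f (nat_lit 559) (nat_lit 591) (nat_lit 4558) (.f (nat_lit 527) (nat_lit 430) (nat_lit 4526) (.d (nat_lit 561) (nat_lit 525) (nat_lit 3597) (nat_lit 562) (nat_lit 3598))))) (.f (nat_lit 465) (nat_lit 493) (nat_lit 1485) (.f (nat_lit 466) (nat_lit 495) (nat_lit 1486) (.d (nat_lit 498) (nat_lit 497) (nat_lit 462) (nat_lit 499) (nat_lit 463)))))) (.a s65041 (.a s64973 s65016)))))))) (.a s65044 s65046)))))))))))))))) (.a (.p (nat_lit 463) (.a s65175 (.a (.p (nat_lit 465) (.a (.f (nat_lit 430) (nat_lit 429) (nat_lit 3501) (.f (nat_lit 466) (nat_lit 431) (nat_lit 3502) (.d (nat_lit 434) (nat_lit 433) (nat_lit 2478) (nat_lit 435) (nat_lit 2479)))) (.a (.f (nat_lit 494) (nat_lit 493) (nat_lit 1485) (.f (nat_lit 466) (nat_lit 495) (nat_lit 1486) (.d (nat_lit 498) (nat_lit 497) (nat_lit 462) (nat_lit 499) (nat_lit 463)))) (.f (nat_lit 433) (nat_lit 434) (nat_lit 2478) (.f (nat_lit 461) (nat_lit 432) (nat_lit 2477) (.d (nat_lit 493) (nat_lit 492) (nat_lit 1484) (nat_lit 494) (nat_lit 1485))))))) (.a s65182 (.a s65333 (.a (.p (nat_lit 465) (.a (.f (nat_lit 494) (nat_lit 493) (nat_lit 1485) (.f (nat_lit 466) (nat_lit 495) (nat_lit 1486) (.d (nat_lit 498) (nat_lit 497) (nat_lit 462) (nat_lit 499) (nat_lit 463)))) (.a (.f (nat_lit 433) (nat_lit 434) (nat_lit 2478) (.f (nat_lit 461) (nat_lit 432) (nat_lit 2477) (.d (nat_lit 493) (nat_lit 492) (nat_lit 1484) (nat_lit 494) (nat_lit 1485)))) (.f (nat_lit 434) (nat_lit 433) (nat_lit 2478) (.f (nat_lit 466) (nat_lit 435) (nat_lit 2479) (.d (nat_lit 498) (nat_lit 497) (nat_lit 462) (nat_lit 499) (nat_lit 463))))))) (.a (.p (nat_lit 465) (.a (.f (nat_lit 430) (nat_lit 429) (nat_lit 3501) (.f (nat_lit 431) (nat_lit 466) (nat_lit 3502) (.f (nat_lit 495) (nat_lit 527) (nat_lit 4527) (.f (nat_lit 494) (nat_lit 493) (nat_lit 1485) (.d (nat_lit 399) (nat_lit 367) (nat_lit 5486) (nat_lit 526) (nat_lit 5518)))))) (.a (.f (nat_lit 430) (nat_lit 429) (nat_lit 3501) (.f (nat_lit 466) (nat_lit 431) (nat_lit 3502) (.d (nat_lit 434) (nat_lit 433) (nat_lit 2478) (nat_lit 435) (nat_lit 2479)))) (.a (.f (nat_lit 494) (nat_lit 493) (nat_lit 1485) (.f (nat_lit 466) (nat_lit 495) (nat_lit 1486) (.d (nat_lit 498) (nat_lit 497) (nat_lit 462) (nat_lit 499) (nat_lit 463)))) (.p (nat_lit 527) (.a (.f (nat_lit 495) (nat_lit 431) (nat_lit 4527) (.d (nat_lit 430) (nat_lit 429) (nat_lit 3501) (nat_lit 559) (nat_lit 7598))) (.a (.f (nat_lit 495) (nat_lit 431) (nat_lit 4527) (.f (nat_lit 494) (nat_lit 493) (nat_lit 1485) (.d (nat_lit 559) (nat_lit 430) (nat_lit 7598) (nat_lit 591) (nat_lit 7630)))) (.a (.f (nat_lit 494) (nat_lit 493) (nat_lit 1485) (.f (nat_lit 431) (nat_lit 495) (nat_lit 4527) (.f (nat_lit 526) (nat_lit 558) (nat_lit 6574) (.f (nat_lit 525) (nat_lit 561) (nat_lit 525) (.f (nat_lit 524) (nat_lit 559) (nat_lit 524) (.d (nat_lit 556) (nat_lit 555) (nat_lit 1547) (nat_lit 557) (nat_lit 1548))))))) (.a (.f (nat_lit 493) (nat_lit 494) (nat_lit 1485) (.f (nat_lit 430) (nat_lit 429) (nat_lit 3501) (.f (nat_lit 461) (nat_lit 492) (nat_lit 1484) (.f (nat_lit 525) (nat_lit 557) (nat_lit 6573) (.f (nat_lit 559) (nat_lit 495) (nat_lit 7598) (.d (nat_lit 526) (nat_lit 524) (nat_lit 524) (nat_lit 561) (nat_lit 525))))))) (.a (.f (nat_lit 494) (nat_lit 493) (nat_lit 1485) (.f (nat_lit 430) (nat_lit 429) (nat_lit 3501) (.f (nat_lit 526) (nat_lit 559) (nat_lit 4526) (.d (nat_lit 525) (nat_lit 557) (nat_lit 5549) (nat_lit 561) (nat_lit 525))))) (.f (nat_lit 494) (nat_lit 493) (nat_lit 1485) (.f (nat_lit 430) (nat_lit 429) (nat_lit 3501) (.d (nat_lit 495) (nat_lit 398) (nat_lit 4494) (nat_lit 431) (nat_lit 4527)))))))))))))) (.a s65363 (.a s65409 (.a s65429 (.a s65468 (.p (nat_lit 465) (.a (.f (nat_lit 430) (nat_lit 429) (nat_lit 3501) (.f (nat_lit 466) (nat_lit 431) (nat_lit 3502) (.d (nat_lit 434) (nat_lit 433) (nat_lit 2478) (nat_lit 435) (nat_lit 2479)))) (.a (.f (nat_lit 433) (nat_lit 434) (nat_lit 2478) (.f (nat_lit 461) (nat_lit 432) (nat_lit 2477) (.d (nat_lit 493) (nat_lit 492) (nat_lit 1484) (nat_lit 494) (nat_lit 1485)))) (.f (nat_lit 430) (nat_lit 429) (nat_lit 3501) (.f (nat_lit 466) (nat_lit 431) (nat_lit 3502) (.d (nat_lit 498) (nat_lit 497) (nat_lit 462) (nat_lit 499) (nat_lit 463)))))))))))))))))) (.a (.p (nat_lit 463) (.a s65182 (.a s65333 (.a (.p (nat_lit 465) (.a (.f (nat_lit 494) (nat_lit 493) (nat_lit 1485) (.f (nat_lit 466) (nat_lit 495) (nat_lit 1486) (.d (nat_lit 498) (nat_lit 497) (nat_lit 462) (nat_lit 499) (nat_lit 463)))) (.a (.f (nat_lit 433) (nat_lit 434) (nat_lit 2478) (.f (nat_lit 461) (nat_lit 432) (nat_lit 2477) (.d (nat_lit 493) (nat_lit 492) (nat_lit 1484) (nat_lit 494) (nat_lit 1485)))) (.f (nat_lit 434) (nat_lit 433) (nat_lit 2478) (.f (nat_lit 466) (nat_lit 435) (nat_lit 2479) (.d (nat_lit 498) (nat_lit 497) (nat_lit 462) (nat_lit 499) (nat_lit 463))))))) (.a s65511 (.a s65612 (.a s65644 (.a s65707 (.a s65730 (.a s65739 (.a s65763 s65764))))))))))) (.a s67508 (.a (.p (nat_lit 494) (.a s64589 (.a s65284 (.a (.p (nat_lit 526) (.a (.p (nat_lit 527) (.a (.f (nat_lit 559) (nat_lit 430) (nat_lit 4526) (.d (nat_lit 561) (nat_lit 525) (nat_lit 525) (nat_lit 562) (nat_lit 3598))) (.a (.f (nat_lit 525) (nat_lit 561) (nat_lit 525) (.f (nat_lit 493) (nat_lit 492) (nat_lit 3564) (.d (nat_lit 557) (nat_lit 556) (nat_lit 1548) (nat_lit 589) (nat_lit 6605)))) (.f (nat_lit 559) (nat_lit 430) (nat_lit 4526) (.d (nat_lit 591) (nat_lit 495) (nat_lit 7630) (nat_lit 558) (nat_lit 4558)))))) (.a (.p (nat_lit 558) (.a (.f (nat_lit 559) (nat_lit 591) (nat_lit 4558) (.f (nat_lit 525) (nat_lit 561) (nat_lit 3597) (.d (nat_lit 557) (nat_lit 524) (nat_lit 3596) (nat_lit 589) (nat_lit 5581)))) (.a (.f (nat_lit 559) (nat_lit 591) (nat_lit 4558) (.f (nat_lit 561) (nat_lit 525) (nat_lit 3597) (.d (nat_lit 589) (nat_lit 557) (nat_lit 5581) (nat_lit 590) (nat_lit 1581)))) (.a (.f (nat_lit 559) (nat_lit 591) (nat_lit 4558) (.f (nat_lit 589) (nat_lit 557) (nat_lit 5581) (.d (nat_lit 590) (nat_lit 561) (nat_lit 1581) (nat_lit 621) (nat_lit 5613)))) (.a (.f (nat_lit 559) (nat_lit 591) (nat_lit 4558) (.f (nat_lit 561) (nat_lit 525) (nat_lit 3597) (.f (nat_lit 590) (nat_lit 589) (nat_lit 1581) (.f (nat_lit 527) (nat_lit 562) (nat_lit 3598) (.d (nat_lit 622) (nat_lit 495) (nat_lit 6638) (nat_lit 654) (nat_lit 6670)))))) (.a (.f (nat_lit 589) (nat_lit 557) (nat_lit 5581) (.f (nat_lit 590) (nat_lit 621) (nat_lit 5613) (.f (nat_lit 493) (nat_lit 461) (nat_lit 7629) (.d (nat_lit 463) (nat_lit 465) (nat_lit 1485) (nat_lit 495) (nat_lit 6606))))) (.f (nat_lit 559) (nat_lit 591) (nat_lit 4558) (.f (nat_lit 525) (nat_lit 561) (nat_lit 3597) (.d (nat_lit 524) (nat_lit 523) (nat_lit 523) (nat_lit 557) (nat_lit 3596)))))))))) (.a s64560 (.a (.p (nat_lit 558) (.a (.f (nat_lit 559) (nat_lit 591) (nat_lit 4558) (.f (nat_lit 527) (nat_lit 430) (nat_lit 4526) (.d (nat_lit 557) (nat_lit 556) (nat_lit 2572) (nat_lit 589) (nat_lit 5581)))) (.a (.f (nat_lit 559) (nat_lit 591) (nat_lit 4558) (.f (nat_lit 589) (nat_lit 557) (nat_lit 5581) (.d (nat_lit 590) (nat_lit 561) (nat_lit 1581) (nat_lit 621) (nat_lit 5613)))) (.a (.f (nat_lit 559) (nat_lit 591) (nat_lit 4558) (.f (nat_lit 527) (nat_lit 430) (nat_lit 4526) (.f (nat_lit 561) (nat_lit 562) (nat_lit 3598) (.f (nat_lit 590) (nat_lit 589) (nat_lit 1581) (.d (nat_lit 495) (nat_lit 463) (nat_lit 5582) (nat_lit 622) (nat_lit 6638)))))) (.a (.f (nat_lit 589) (nat_lit 557) (nat_lit 5581) (.f (nat_lit 590) (nat_lit 621) (nat_lit 5613) (.f (nat_lit 493) (nat_lit 461) (nat_lit 7629) (.d (nat_lit 463) (nat_lit 465) (nat_lit 1485) (nat_lit 495) (nat_lit 6606))))) (.f (nat_lit 591) (nat_lit 559) (nat_lit 4558) (.f (nat_lit 590) (nat_lit 623) (nat_lit 4590) (.f (nat_lit 463) (nat_lit 495) (nat_lit 6606) (.d (nat_lit 493) (nat_lit 461) (nat_lit 7629) (nat_lit 465) (nat_lit 1485)))))))))) (.a (.p (nat_lit 558) (.a (.f (nat_lit 559) (nat_lit 591) (nat_lit 4558) (.f (nat_lit 525) (nat_lit 561) (nat_lit 3597) (.d (nat_lit 557) (nat_lit 524) (nat_lit 3596) (nat_lit 589) (nat_lit 5581)))) (.a (.f (nat_lit 559) (nat_lit 591) (nat_lit 4558) (.f (nat_lit 561) (nat_lit 525) (nat_lit 3597) (.d (nat_lit 589) (nat_lit 557) (nat_lit 5581) (nat_lit 590) (nat_lit 1581)))) (.a (.f (nat_lit 559) (nat_lit 591) (nat_lit 4558) (.f (nat_lit 589) (nat_lit 557) (nat_lit 5581) (.d (nat_lit 590) (nat_lit 561) (nat_lit 1581) (nat_lit 621) (nat_lit 5613)))) (.a (.f (nat_lit 591) (nat_lit 559) (nat_lit 4558) (.f (nat_lit 590) (nat_lit 623) (nat_lit 4590) (.f (nat_lit 463) (nat_lit 495) (nat_lit 6606) (.d (nat_lit 493) (nat_lit 461) (nat_lit 7629) (nat_lit 465) (nat_lit 1485))))) (.f (nat_lit 589) (nat_lit 557) (nat_lit 5581) (.f (nat_lit 590) (nat_lit 621) (nat_lit 5613) (.f (nat_lit 493) (nat_lit 461) (nat_lit 7629) (.d (nat_lit 463) (nat_lit 465) (nat_lit 1485) (nat_lit 495) (nat_lit 6606)))))))))) (.a s65268 (.a (.p (nat_lit 527) (.a (.f (nat_lit 559) (nat_lit 430) (nat_lit 4526) (.d (nat_lit 561) (nat_lit 525) (nat_lit 525) (nat_lit 562) (nat_lit 3598))) (.a (.f (nat_lit 525) (nat_lit 561) (nat_lit 525) (.f (nat_lit 493) (nat_lit 492) (nat_lit 3564) (.d (nat_lit 557) (nat_lit 556) (nat_lit 1548) (nat_lit 589) (nat_lit 6605)))) (.f (nat_lit 559) (nat_lit 430) (nat_lit 4526) (.d (nat_lit 591) (nat_lit 495) (nat_lit 7630) (nat_lit 623) (nat_lit 7662)))))) (.a s65270 (.p (nat_lit 558) (.a (.f (nat_lit 559) (nat_lit 591) (nat_lit 4558) (.f (nat_lit 527) (nat_lit 430) (nat_lit 4526) (.d (nat_lit 557) (nat_lit 556) (nat_lit 2572) (nat_lit 589) (nat_lit 5581)))) (.a (.f (nat_lit 589) (nat_lit 557) (nat_lit 5581) (.f (nat_lit 590) (nat_lit 621) (nat_lit 5613) (.f (nat_lit 493) (nat_lit 461) (nat_lit 7629) (.d (nat_lit 463) (nat_lit 465) (nat_lit 1485) (nat_lit 495) (nat_lit 6606))))) (.f (nat_lit 591) (nat_lit 559) (nat_lit 4558) (.f (nat_lit 590) (nat_lit 623) (nat_lit 4590) (.f (nat_lit 463) (nat_lit 495) (nat_lit 6606) (.d (nat_lit 493) (nat_lit 461) (nat_lit 7629) (nat_lit 465) (nat_lit 1485))))))))))))))))) (.a (.p (nat_lit 463) (.a (.f (nat_lit 465) (nat_lit 493) (nat_lit 1485) (.f (nat_lit 466) (nat_lit 495) (nat_lit 1486) (.d (nat_lit 498) (nat_lit 497) (nat_lit 462) (nat_lit 499) (nat_lit 463)))) (.a s67560 (.a (.p (nat_lit 465) (.a (.f (nat_lit 466) (nat_lit 495) (nat_lit 1486) (.d (nat_lit 498) (nat_lit 497) (nat_lit 462) (nat_lit 499) (nat_lit 463))) (.a (.f (nat_lit 433) (nat_lit 434) (nat_lit 2478) (.f (nat_lit 461) (nat_lit 432) (nat_lit 2477) (.f (nat_lit 428) (nat_lit 429) (nat_lit 3500) (.f (nat_lit 460) (nat_lit 427) (nat_lit 3499) (.f (nat_lit 491) (nat_lit 492) (nat_lit 1483) (.d (nat_lit 459) (nat_lit 490) (nat_lit 1482) (nat_lit 495) (nat_lit 459))))))) (.f (nat_lit 434) (nat_lit 433) (nat_lit 2478) (.f (nat_lit 466) (nat_lit 435) (nat_lit 2479) (.d (nat_lit 498) (nat_lit 497) (nat_lit 462) (nat_lit 499) (nat_lit 463))))))) (.f (nat_lit 465) (nat_lit 493) (nat_lit 1485) (.f (nat_lit 434) (nat_lit 433) (nat_lit 2478) (.f (nat_lit 466) (nat_lit 435) (nat_lit 2479) (.d (nat_lit 498) (nat_lit 497) (nat_lit 462) (nat_lit 499) (nat_lit 463))))))))) (.a (.p (nat_lit 430) (.a s67576 (.a s67590 (.a s67605 (.a s67609 (.a s67614 (.a s67621 (.a (.p (nat_lit 398) (.a (.f (nat_lit 495) (nat_lit 527) (nat_lit 4494) (.f (nat_lit 463) (nat_lit 366) (nat_lit 4462) (.d (nat_lit 465) (nat_lit 429) (nat_lit 3501) (nat_lit 493) (nat_lit 1485)))) (.a (.f (nat_lit 397) (nat_lit 365) (nat_lit 7533) (.f (nat_lit 429) (nat_lit 526) (nat_lit 7565) (.f (nat_lit 399) (nat_lit 367) (nat_lit 6510) (.d (nat_lit 428) (nat_lit 400) (nat_lit 1420) (nat_lit 427) (nat_lit 2443))))) (.f (nat_lit 365) (nat_lit 397) (nat_lit 7533) (.f (nat_lit 366) (nat_lit 333) (nat_lit 7501) (.d (nat_lit 367) (nat_lit 335) (nat_lit 6478) (nat_lit 399) (nat_lit 6510))))))) (.a (.p (nat_lit 398) (.a (.f (nat_lit 495) (nat_lit 527) (nat_lit 4494) (.f (nat_lit 463) (nat_lit 366) (nat_lit 4462) (.d (nat_lit 465) (nat_lit 429) (nat_lit 3501) (nat_lit 493) (nat_lit 1485)))) (.a (.f (nat_lit 493) (nat_lit 525) (nat_lit 5517) (.f (nat_lit 463) (nat_lit 465) (nat_lit 1485) (.d (nat_lit 492) (nat_lit 491) (nat_lit 2507) (nat_lit 495) (nat_lit 2508)))) (.f (nat_lit 365) (nat_lit 397) (nat_lit 7533) (.f (nat_lit 366) (nat_lit 333) (nat_lit 7501) (.d (nat_lit 367) (nat_lit 335) (nat_lit 6478) (nat_lit 399) (nat_lit 6510))))))) (.p (nat_lit 398) (.a (.f (nat_lit 397) (nat_lit 365) (nat_lit 7533) (.f (nat_lit 429) (nat_lit 526) (nat_lit 7565) (.f (nat_lit 399) (nat_lit 367) (nat_lit 6510) (.d (nat_lit 428) (nat_lit 400) (nat_lit 1420) (nat_lit 427) (nat_lit 2443))))) (.f (nat_lit 493) (nat_lit 525) (nat_lit 5517) (.f (nat_lit 463) (nat_lit 465) (nat_lit 1485) (.d (nat_lit 492) (nat_lit 491) (nat_lit 2507) (nat_lit 495) (nat_lit 2508))))))))))))))) (.a (.p (nat_lit 526) (.a s64556 (.a s64560 (.a s64606 (.a (.p (nat_lit 430) (.a (.f (nat_lit 527) (nat_lit 559) (nat_lit 4526) (.d (nat_lit 525) (nat_lit 557) (nat_lit 5549) (nat_lit 561) (nat_lit 525))) (.a (.f (nat_lit 527) (nat_lit 559) (nat_lit 4526) (.f (nat_lit 398) (nat_lit 495) (nat_lit 4494) (.d (nat_lit 397) (nat_lit 365) (nat_lit 7533) (nat_lit 429) (nat_lit 7565)))) (.f (nat_lit 429) (nat_lit 397) (nat_lit 7565) (.f (nat_lit 463) (nat_lit 465) (nat_lit 3501) (.d (nat_lit 428) (nat_lit 427) (nat_lit 427) (nat_lit 461) (nat_lit 3500))))))) (.a s64907 (.a (.p (nat_lit 559) (.a (.f (nat_lit 527) (nat_lit 430) (nat_lit 4526) (.d (nat_lit 525) (nat_lit 524) (nat_lit 524) (nat_lit 561) (nat_lit 525))) (.a (.f (nat_lit 558) (nat_lit 591) (nat_lit 4558) (.f (nat_lit 561) (nat_lit 525) (nat_lit 3597) (.f (nat_lit 590) (nat_lit 589) (nat_lit 1581) (.d (nat_lit 461) (nat_lit 429) (nat_lit 7597) (nat_lit 493) (nat_lit 7629))))) (.f (nat_lit 591) (nat_lit 558) (nat_lit 4558) (.d (nat_lit 527) (nat_lit 430) (nat_lit 4526) (nat_lit 495) (nat_lit 7630)))))) (.a (.p (nat_lit 430) (.a (.f (nat_lit 429) (nat_lit 397) (nat_lit 7565) (.f (nat_lit 463) (nat_lit 465) (nat_lit 3501) (.d (nat_lit 428) (nat_lit 427) (nat_lit 427) (nat_lit 461) (nat_lit 3500)))) (.f (nat_lit 525) (nat_lit 557) (nat_lit 5549) (.f (nat_lit 398) (nat_lit 493) (nat_lit 5517) (.d (nat_lit 527) (nat_lit 495) (nat_lit 4494) (nat_lit 561) (nat_lit 525)))))) s65273)))))))) (.a (.p (nat_lit 526) (.a s64560 (.a (.p (nat_lit 558) (.a (.f (nat_lit 559) (nat_lit 591) (nat_lit 4558) (.f (nat_lit 525) (nat_lit 561) (nat_lit 3597) (.d (nat_lit 557) (nat_lit 524) (nat_lit 3596) (nat_lit 589) (nat_lit 5581)))) (.a (.f (nat_lit 559) (nat_lit 591) (nat_lit 4558) (.f (nat_lit 561) (nat_lit 525) (nat_lit 3597) (.d (nat_lit 589) (nat_lit 557) (nat_lit 5581) (nat_lit 590) (nat_lit 1581)))) (.a (.f (nat_lit 559) (nat_lit 591) (nat_lit 4558) (.f (nat_lit 589) (nat_lit 557) (nat_lit 5581) (.d (nat_lit 590) (nat_lit 561) (nat_lit 1581) (nat_lit 621) (nat_lit 5613)))) (.a (.f (nat_lit 559) (nat_lit 591) (nat_lit 4558) (.f (nat_lit 561) (nat_lit 525) (nat_lit 3597) (.f (nat_lit 590) (nat_lit 589) (nat_lit 1581) (.f (nat_lit 527) (nat_lit 562) (nat_lit 3598) (.d (nat_lit 622) (nat_lit 495) (nat_lit 6638) (nat_lit 654) (nat_lit 6670)))))) (.a (.f (nat_lit 589) (nat_lit 557) (nat_lit 5581) (.f (nat_lit 590) (nat_lit 621) (nat_lit 5613) (.f (nat_lit 623) (nat_lit 591) (nat_lit 4590) (.f (nat_lit 622) (nat_lit 655) (nat_lit 4622) (.d (nat_lit 495) (nat_lit 463) (nat_lit 6606) (nat_lit 527) (nat_lit 6638)))))) (.a (.f (nat_lit 559) (nat_lit 591) (nat_lit 4558) (.f (nat_lit 525) (nat_lit 561) (nat_lit 3597) (.d (nat_lit 524) (nat_lit 523) (nat_lit 523) (nat_lit 557) (nat_lit 3596)))) (.f (nat_lit 589) (nat_lit 557) (nat_lit 5581) (.f (nat_lit 590) (nat_lit 621) (nat_lit 5613) (.f (nat_lit 561) (nat_lit 559) (nat_lit 1581) (.f (nat_lit 495) (nat_lit 463) (nat_lit 6606) (.d (nat_lit 527) (nat_lit 525) (nat_lit 525) (nat_lit 622) (nat_lit 6638))))))))))))) (.a (.p (nat_lit 430) (.a (.f (nat_lit 527) (nat_lit 559) (nat_lit 4526) (.d (nat_lit 525) (nat_lit 557) (nat_lit 5549) (nat_lit 561) (nat_lit 525))) (.a (.f (nat_lit 527) (nat_lit 559) (nat_lit 4526) (.f (nat_lit 398) (nat_lit 495) (nat_lit 4494) (.d (nat_lit 397) (nat_lit 365) (nat_lit 7533) (nat_lit 429) (nat_lit 7565)))) (.f (nat_lit 429) (nat_lit 397) (nat_lit 7565) (.f (nat_lit 463) (nat_lit 465) (nat_lit 3501) (.d (nat_lit 428) (nat_lit 427) (nat_lit 427) (nat_lit 461) (nat_lit 3500))))))) (.a (.p (nat_lit 558) (.a (.f (nat_lit 559) (nat_lit 591) (nat_lit 4558) (.f (nat_lit 527) (nat_lit 430) (nat_lit 4526) (.d (nat_lit 557) (nat_lit 556) (nat_lit 2572) (nat_lit 589) (nat_lit 5581)))) (.a (.f (nat_lit 559) (nat_lit 591) (nat_lit 4558) (.f (nat_lit 589) (nat_lit 557) (nat_lit 5581) (.d (nat_lit 590) (nat_lit 561) (nat_lit 1581) (nat_lit 621) (nat_lit 5613)))) (.a (.f (nat_lit 559) (nat_lit 591) (nat_lit 4558) (.f (nat_lit 527) (nat_lit 430) (nat_lit 4526) (.f (nat_lit 561) (nat_lit 562) (nat_lit 3598) (.f (nat_lit 590) (nat_lit 589) (nat_lit 1581) (.d (nat_lit 495) (nat_lit 463) (nat_lit 5582) (nat_lit 622) (nat_lit 6638)))))) (.a (.f (nat_lit 589) (nat_lit 557) (nat_lit 5581) (.f (nat_lit 590) (nat_lit 621) (nat_lit 5613) (.f (nat_lit 623) (nat_lit 591) (nat_lit 4590) (.f (nat_lit 622) (nat_lit 655) (nat_lit 4622) (.d (nat_lit 495) (nat_lit 463) (nat_lit 6606) (nat_lit 527) (nat_lit 6638)))))) (.a (.f (nat_lit 559) (nat_lit 591) (nat_lit 4558) (.f (nat_lit 430) (nat_lit 527) (nat_lit 4526) (.d (nat_lit 429) (nat_lit 397) (nat_lit 7565) (nat_lit 461) (nat_lit 7597)))) (.f (nat_lit 429) (nat_lit 461) (nat_lit 7597) (.f (nat_lit 430) (nat_lit 397) (nat_lit 7565) (.f (nat_lit 463) (nat_lit 465) (nat_lit 3501) (.f (nat_lit 527) (nat_lit 559) (nat_lit 4526) (.d (nat_lit 495) (nat_lit 398) (nat_lit 4494) (nat_lit 590) (nat_lit 6606)))))))))))) (.a (.p (nat_lit 558) (.a (.f (nat_lit 559) (nat_lit 591) (nat_lit 4558) (.f (nat_lit 525) (nat_lit 561) (nat_lit 3597) (.d (nat_lit 557) (nat_lit 524) (nat_lit 3596) (nat_lit 589) (nat_lit 5581)))) (.a (.f (nat_lit 559) (nat_lit 591) (nat_lit 4558) (.f (nat_lit 561) (nat_lit 525) (nat_lit 3597) (.d (nat_lit 589) (nat_lit 557) (nat_lit 5581) (nat_lit 590) (nat_lit 1581)))) (.a (.f (nat_lit 559) (nat_lit 591) (nat_lit 4558) (.f (nat_lit 589) (nat_lit 557) (nat_lit 5581) (.d (nat_lit 590) (nat_lit 561) (nat_lit 1581) (nat_lit 621) (nat_lit 5613)))) (.a (.f (nat_lit 559) (nat_lit 591) (nat_lit 4558) (.f (nat_lit 561) (nat_lit 525) (nat_lit 3597) (.f (nat_lit 590) (nat_lit 589) (nat_lit 1581) (.f (nat_lit 429) (nat_lit 461) (nat_lit 7597) (.f (nat_lit 430) (nat_lit 397) (nat_lit 7565) (.d (nat_lit 463) (nat_lit 465) (nat_lit 3501) (nat_lit 495) (nat_lit 6606))))))) (.a (.f (nat_lit 429) (nat_lit 461) (nat_lit 7597) (.f (nat_lit 430) (nat_lit 397) (nat_lit 7565) (.d (nat_lit 557) (nat_lit 525) (nat_lit 5549) (nat_lit 589) (nat_lit 5581)))) (.f (nat_lit 559) (nat_lit 591) (nat_lit 4558) (.f (nat_lit 525) (nat_lit 561) (nat_lit 3597) (.d (nat_lit 524) (nat_lit 523) (nat_lit 523) (nat_lit 557) (nat_lit 3596)))))))))) (.a (.p (nat_lit 559) (.a (.f (nat_lit 527) (nat_lit 430) (nat_lit 4526) (.d (nat_lit 525) (nat_lit 524) (nat_lit 524) (nat_lit 561) (nat_lit 525))) (.a (.f (nat_lit 558) (nat_lit 591) (nat_lit 4558) (.f (nat_lit 561) (nat_lit 525) (nat_lit 3597) (.f (nat_lit 590) (nat_lit 589) (nat_lit 1581) (.f (nat_lit 527) (nat_lit 562) (nat_lit 3598) (.d (nat_lit 622) (nat_lit 495) (nat_lit 6638) (nat_lit 654) (nat_lit 6670)))))) (.a (.f (nat_lit 591) (nat_lit 558) (nat_lit 4558) (.d (nat_lit 527) (nat_lit 430) (nat_lit 4526) (nat_lit 495) (nat_lit 7630))) (.f (nat_lit 558) (nat_lit 591) (nat_lit 4558) (.f (nat_lit 561) (nat_lit 525) (nat_lit 3597) (.f (nat_lit 590) (nat_lit 589) (nat_lit 1581) (.f (nat_lit 429) (nat_lit 461) (nat_lit 7597) (.f (nat_lit 430) (nat_lit 397) (nat_lit 7565) (.d (nat_lit 463) (nat_lit 465) (nat_lit 3501) (nat_lit 495) (nat_lit 6606))))))))))) (.a (.p (nat_lit 430) (.a (.f (nat_lit 429) (nat_lit 397) (nat_lit 7565) (.f (nat_lit 463) (nat_lit 465) (nat_lit 3501) (.d (nat_lit 428) (nat_lit 427) (nat_lit 427) (nat_lit 461) (nat_lit 3500)))) (.a (.f (nat_lit 557) (nat_lit 525) (nat_lit 5549) (.f (nat_lit 558) (nat_lit 589) (nat_lit 5581) (.f (nat_lit 429) (nat_lit 461) (nat_lit 7597) (.f (nat_lit 463) (nat_lit 465) (nat_lit 3501) (.f (nat_lit 495) (nat_lit 590) (nat_lit 6606) (.d (nat_lit 398) (nat_lit 366) (nat_lit 4462) (nat_lit 527) (nat_lit 4494))))))) (.f (nat_lit 525) (nat_lit 557) (nat_lit 5549) (.f (nat_lit 527) (nat_lit 561) (nat_lit 525) (.f (nat_lit 398) (nat_lit 495) (nat_lit 4494) (.f (nat_lit 367) (nat_lit 399) (nat_lit 6510) (.f (nat_lit 366) (nat_lit 335) (nat_lit 6478) (.d (nat_lit 365) (nat_lit 333) (nat_lit 7501) (nat_lit 397) (nat_lit 7533)))))))))) (.p (nat_lit 558) (.a (.f (nat_lit 559) (nat_lit 591) (nat_lit 4558) (.f (nat_lit 527) (nat_lit 430) (nat_lit 4526) (.d (nat_lit 557) (nat_lit 556) (nat_lit 2572) (nat_lit 589) (nat_lit 5581)))) (.a (.f (nat_lit 589) (nat_lit 557) (nat_lit 5581) (.f (nat_lit 590) (nat_lit 621) (nat_lit 5613) (.f (nat_lit 623) (nat_lit 591) (nat_lit 4590) (.f (nat_lit 622) (nat_lit 655) (nat_lit 4622) (.d (nat_lit 495) (nat_lit 463) (nat_lit 6606) (nat_lit 527) (nat_lit 6638)))))) (.a (.f (nat_lit 429) (nat_lit 461) (nat_lit 7597) (.f (nat_lit 430) (nat_lit 397) (nat_lit 7565) (.d (nat_lit 557) (nat_lit 525) (nat_lit 5549) (nat_lit 589) (nat_lit 5581)))) (.f (nat_lit 559) (nat_lit 591) (nat_lit 4558) (.f (nat_lit 430) (nat_lit 527) (nat_lit 4526) (.d (nat_lit 429) (nat_lit 397) (nat_lit 7565) (nat_lit 461) (nat_lit 7597)))))))))))))))) (.a (.p (nat_lit 526) (.a s64543 (.a s64560 (.a (.p (nat_lit 558) (.a (.f (nat_lit 559) (nat_lit 591) (nat_lit 4558) (.f (nat_lit 525) (nat_lit 561) (nat_lit 3597) (.d (nat_lit 557) (nat_lit 524) (nat_lit 3596) (nat_lit 589) (nat_lit 5581)))) (.f (nat_lit 461) (nat_lit 429) (nat_lit 7597) (.f (nat_lit 493) (nat_lit 590) (nat_lit 7629) (.d (nat_lit 463) (nat_lit 465) (nat_lit 1485) (nat_lit 492) (nat_lit 1484)))))) (.a (.p (nat_lit 558) (.a (.f (nat_lit 559) (nat_lit 591) (nat_lit 4558) (.f (nat_lit 527) (nat_lit 430) (nat_lit 4526) (.d (nat_lit 557) (nat_lit 556) (nat_lit 2572) (nat_lit 589) (nat_lit 5581)))) (.f (nat_lit 461) (nat_lit 429) (nat_lit 7597) (.f (nat_lit 493) (nat_lit 590) (nat_lit 7629) (.d (nat_lit 463) (nat_lit 465) (nat_lit 1485) (nat_lit 492) (nat_lit 1484)))))) (.a (.p (nat_lit 559) (.a (.f (nat_lit 527) (nat_lit 430) (nat_lit 4526) (.d (nat_lit 525) (nat_lit 524) (nat_lit 524) (nat_lit 561) (nat_lit 525))) (.a (.f (nat_lit 558) (nat_lit 591) (nat_lit 4558) (.f (nat_lit 561) (nat_lit 525) (nat_lit 3597) (.f (nat_lit 590) (nat_lit 589) (nat_lit 1581) (.d (nat_lit 461) (nat_lit 429) (nat_lit 7597) (nat_lit 493) (nat_lit 7629))))) (.f (nat_lit 591) (nat_lit 558) (nat_lit 4558) (.d (nat_lit 623) (nat_lit 527) (nat_lit 7662) (nat_lit 655) (nat_lit 6671)))))) (.a (.p (nat_lit 430) (.a (.f (nat_lit 527) (nat_lit 559) (nat_lit 4526) (.d (nat_lit 525) (nat_lit 557) (nat_lit 5549) (nat_lit 561) (nat_lit 525))) (.f (nat_lit 429) (nat_lit 397) (nat_lit 7565) (.f (nat_lit 463) (nat_lit 465) (nat_lit 3501) (.d (nat_lit 428) (nat_lit 427) (nat_lit 427) (nat_lit 461) (nat_lit 3500)))))) s64588))))))) (.a s67698 (.a (.p (nat_lit 463) (.a (.f (nat_lit 465) (nat_lit 493) (nat_lit 1485) (.f (nat_lit 466) (nat_lit 495) (nat_lit 1486) (.d (nat_lit 498) (nat_lit 497) (nat_lit 462) (nat_lit 499) (nat_lit 463)))) (.a s67707 (.a (.p (nat_lit 465) (.a (.f (nat_lit 466) (nat_lit 495) (nat_lit 1486) (.d (nat_lit 498) (nat_lit 497) (nat_lit 462) (nat_lit 499) (nat_lit 463))) (.f (nat_lit 429) (nat_lit 430) (nat_lit 3501) (.f (nat_lit 461) (nat_lit 428) (nat_lit 3500) (.d (nat_lit 433) (nat_lit 432) (nat_lit 2477) (nat_lit 434) (nat_lit 2478)))))) (.f (nat_lit 465) (nat_lit 493) (nat_lit 1485) (.f (nat_lit 429) (nat_lit 430) (nat_lit 3501) (.f (nat_lit 461) (nat_lit 428) (nat_lit 3500) (.d (nat_lit 433) (nat_lit 432) (nat_lit 2477) (nat_lit 434) (nat_lit 2478))))))))) (.p (nat_lit 463) (.a (.f (nat_lit 465) (nat_lit 493) (nat_lit 1485) (.f (nat_lit 466) (nat_lit 495) (nat_lit 1486) (.d (nat_lit 498) (nat_lit 497) (nat_lit 462) (nat_lit 499) (nat_lit 463)))) (.a s67721 (.a (.p (nat_lit 465) (.a (.f (nat_lit 466) (nat_lit 495) (nat_lit 1486) (.d (nat_lit 498) (nat_lit 497) (nat_lit 462) (nat_lit 499) (nat_lit 463))) (.f (nat_lit 429) (nat_lit 430) (nat_lit 3501) (.f (nat_lit 461) (nat_lit 428) (nat_lit 3500) (.d (nat_lit 433) (nat_lit 432) (nat_lit 2477) (nat_lit 434) (nat_lit 2478)))))) (.f (nat_lit 465) (nat_lit 493) (nat_lit 1485) (.f (nat_lit 429) (nat_lit 430) (nat_lit 3501) (.f (nat_lit 461) (nat_lit 428) (nat_lit 3500) (.d (nat_lit 433) (nat_lit 432) (nat_lit 2477) (nat_lit 434) (nat_lit 2478)))))))))))))))))))) (.a (.p (nat_lit 430) (.a (.p (nat_lit 494) (.a s67576 (.a s67590 (.a s67605 (.a s67609 (.a s67614 (.a s67621 (.a (.p (nat_lit 398) (.a (.f (nat_lit 495) (nat_lit 527) (nat_lit 4494) (.f (nat_lit 463) (nat_lit 366) (nat_lit 4462) (.d (nat_lit 465) (nat_lit 429) (nat_lit 3501) (nat_lit 493) (nat_lit 1485)))) (.a (.f (nat_lit 397) (nat_lit 365) (nat_lit 7533) (.f (nat_lit 429) (nat_lit 526) (nat_lit 7565) (.f (nat_lit 399) (nat_lit 367) (nat_lit 6510) (.d (nat_lit 428) (nat_lit 400) (nat_lit 1420) (nat_lit 427) (nat_lit 2443))))) (.f (nat_lit 365) (nat_lit 397) (nat_lit 7533) (.f (nat_lit 366) (nat_lit 333) (nat_lit 7501) (.d (nat_lit 367) (nat_lit 335) (nat_lit 6478) (nat_lit 399) (nat_lit 6510))))))) (.a (.p (nat_lit 398) (.a (.f (nat_lit 495) (nat_lit 527) (nat_lit 4494) (.f (nat_lit 463) (nat_lit 366) (nat_lit 4462) (.d (nat_lit 465) (nat_lit 429) (nat_lit 3501) (nat_lit 493) (nat_lit 1485)))) (.a (.f (nat_lit 493) (nat_lit 525) (nat_lit 5517) (.f (nat_lit 463) (nat_lit 465) (nat_lit 1485) (.d (nat_lit 492) (nat_lit 491) (nat_lit 2507) (nat_lit 495) (nat_lit 2508)))) (.f (nat_lit 365) (nat_lit 397) (nat_lit 7533) (.f (nat_lit 366) (nat_lit 333) (nat_lit 7501) (.d (nat_lit 367) (nat_lit 335) (nat_lit 6478) (nat_lit 399) (nat_lit 6510))))))) (.p (nat_lit 398) (.a (.f (nat_lit 397) (nat_lit 365) (nat_lit 7533) (.f (nat_lit 429) (nat_lit 526) (nat_lit 7565) (.f (nat_lit 399) (nat_lit 367) (nat_lit 6510) (.d (nat_lit 428) (nat_lit 400) (nat_lit 1420) (nat_lit 427) (nat_lit 2443))))) (.f (nat_lit 493) (nat_lit 525) (nat_lit 5517) (.f (nat_lit 463) (nat_lit 465) (nat_lit 1485) (.d (nat_lit 492) (nat_lit 491) (nat_lit 2507) (nat_lit 495) (nat_lit 2508))))))))))))))) (.a (.p (nat_lit 494) (.a s67576 (.a s67590 (.a s67605 (.a s67621 (.a s67614 (.a (.p (nat_lit 526) (.a (.f (nat_lit 527) (nat_lit 559) (nat_lit 4526) (.f (nat_lit 398) (nat_lit 495) (nat_lit 4494) (.d (nat_lit 397) (nat_lit 365) (nat_lit 7533) (nat_lit 429) (nat_lit 7565)))) (.a (.f (nat_lit 429) (nat_lit 397) (nat_lit 7565) (.f (nat_lit 463) (nat_lit 465) (nat_lit 3501) (.d (nat_lit 428) (nat_lit 427) (nat_lit 427) (nat_lit 461) (nat_lit 3500)))) (.f (nat_lit 527) (nat_lit 559) (nat_lit 4526) (.f (nat_lit 398) (nat_lit 495) (nat_lit 4494) (.d (nat_lit 399) (nat_lit 367) (nat_lit 6510) (nat_lit 431) (nat_lit 6542))))))) (.a s67732 (.p (nat_lit 398) (.a (.f (nat_lit 397) (nat_lit 365) (nat_lit 7533) (.f (nat_lit 429) (nat_lit 526) (nat_lit 7565) (.f (nat_lit 399) (nat_lit 367) (nat_lit 6510) (.d (nat_lit 428) (nat_lit 400) (nat_lit 1420) (nat_lit 427) (nat_lit 2443))))) (.f (nat_lit 493) (nat_lit 525) (nat_lit 5517) (.f (nat_lit 463) (nat_lit 465) (nat_lit 1485) (.d (nat_lit 492) (nat_lit 491) (nat_lit 2507) (nat_lit 495) (nat_lit 2508)))))))))))))) (.a (.p (nat_lit 494) (.a s67576 (.a s67590 (.a s67605 (.a s67621 (.a s67614 (.a (.p (nat_lit 526) (.a (.f (nat_lit 527) (nat_lit 559) (nat_lit 4526) (.f (nat_lit 398) (nat_lit 495) (nat_lit 4494) (.d (nat_lit 397) (nat_lit 365) (nat_lit 7533) (nat_lit 429) (nat_lit 7565)))) (.a (.f (nat_lit 429) (nat_lit 397) (nat_lit 7565) (.f (nat_lit 463) (nat_lit 465) (nat_lit 3501) (.d (nat_lit 428) (nat_lit 427) (nat_lit 427) (nat_lit 461) (nat_lit 3500)))) (.f (nat_lit 527) (nat_lit 559) (nat_lit 4526) (.f (nat_lit 398) (nat_lit 495) (nat_lit 4494) (.d (nat_lit 399) (nat_lit 367) (nat_lit 6510) (nat_lit 431) (nat_lit 6542))))))) (.a s67737 (.p (nat_lit 398) (.a (.f (nat_lit 397) (nat_lit 365) (nat_lit 7533) (.f (nat_lit 429) (nat_lit 526) (nat_lit 7565) (.f (nat_lit 399) (nat_lit 367) (nat_lit 6510) (.d (nat_lit 428) (nat_lit 400) (nat_lit 1420) (nat_lit 427) (nat_lit 2443))))) (.f (nat_lit 493) (nat_lit 525) (nat_lit 5517) (.f (nat_lit 463) (nat_lit 465) (nat_lit 1485) (.d (nat_lit 492) (nat_lit 491) (nat_lit 2507) (nat_lit 495) (nat_lit 2508)))))))))))))) (.a (.p (nat_lit 494) (.a s67590 (.a s67605 (.a (.p (nat_lit 526) (.a (.f (nat_lit 527) (nat_lit 559) (nat_lit 4526) (.d (nat_lit 525) (nat_lit 557) (nat_lit 5549) (nat_lit 561) (nat_lit 525))) (.a (.f (nat_lit 527) (nat_lit 559) (nat_lit 4526) (.f (nat_lit 398) (nat_lit 495) (nat_lit 4494) (.d (nat_lit 399) (nat_lit 367) (nat_lit 6510) (nat_lit 431) (nat_lit 6542)))) (.f (nat_lit 525) (nat_lit 557) (nat_lit 5549) (.f (nat_lit 398) (nat_lit 493) (nat_lit 5517) (.d (nat_lit 399) (nat_lit 367) (nat_lit 6510) (nat_lit 431) (nat_lit 6542))))))) (.a (.p (nat_lit 526) (.a (.f (nat_lit 527) (nat_lit 559) (nat_lit 4526) (.d (nat_lit 525) (nat_lit 557) (nat_lit 5549) (nat_lit 561) (nat_lit 525))) (.f (nat_lit 429) (nat_lit 397) (nat_lit 7565) (.f (nat_lit 463) (nat_lit 465) (nat_lit 3501) (.d (nat_lit 428) (nat_lit 427) (nat_lit 427) (nat_lit 461) (nat_lit 3500)))))) (.a (.p (nat_lit 526) (.a (.f (nat_lit 429) (nat_lit 397) (nat_lit 7565) (.f (nat_lit 463) (nat_lit 465) (nat_lit 3501) (.d (nat_lit 428) (nat_lit 427) (nat_lit 427) (nat_lit 461) (nat_lit 3500)))) (.f (nat_lit 527) (nat_lit 559) (nat_lit 4526) (.f (nat_lit 398) (nat_lit 495) (nat_lit 4494) (.d (nat_lit 399) (nat_lit 367) (nat_lit 6510) (nat_lit 431) (nat_lit 6542)))))) (.a s67732 (.p (nat_lit 526) (.a (.f (nat_lit 429) (nat_lit 397) (nat_lit 7565) (.f (nat_lit 463) (nat_lit 465) (nat_lit 3501) (.d (nat_lit 428) (nat_lit 427) (nat_lit 427) (nat_lit 461) (nat_lit 3500)))) (.f (nat_lit 525) (nat_lit 557) (nat_lit 5549) (.f (nat_lit 398) (nat_lit 493) (nat_lit 5517) (.d (nat_lit 399) (nat_lit 367) (nat_lit 6510) (nat_lit 431) (nat_lit 6542))))))))))))) (.a (.p (nat_lit 494) (.a s67590 (.a s67605 (.a s67621 (.a s67614 (.a (.p (nat_lit 526) (.a (.f (nat_lit 527) (nat_lit 559) (nat_lit 4526) (.f (nat_lit 398) (nat_lit 495) (nat_lit 4494) (.d (nat_lit 397) (nat_lit 365) (nat_lit 7533) (nat_lit 429) (nat_lit 7565)))) (.a (.f (nat_lit 429) (nat_lit 397) (nat_lit 7565) (.f (nat_lit 463) (nat_lit 465) (nat_lit 3501) (.d (nat_lit 428) (nat_lit 427) (nat_lit 427) (nat_lit 461) (nat_lit 3500)))) (.f (nat_lit 527) (nat_lit 559) (nat_lit 4526) (.f (nat_lit 398) (nat_lit 495) (nat_lit 4494) (.d (nat_lit 399) (nat_lit 367) (nat_lit 6510) (nat_lit 431) (nat_lit 6542))))))) (.p (nat_lit 493) (.a (.f (nat_lit 463) (nat_lit 465) (nat_lit 1485) (.d (nat_lit 492) (nat_lit 461) (nat_lit 1484) (nat_lit 491) (nat_lit 2507))) (.a (.f (nat_lit 463) (nat_lit 465) (nat_lit 1485) (.d (nat_lit 492) (nat_lit 491) (nat_lit 2507) (nat_lit 495) (nat_lit 2508))) (.f (nat_lit 525) (nat_lit 398) (nat_lit 5517) (.d (nat_lit 557) (nat_lit 461) (nat_lit 6573) (nat_lit 589) (nat_lit 6605)))))))))))) (.a (.p (nat_lit 494) (.a s67590 (.a s67605 (.a s67621 (.a s67614 (.a (.p (nat_lit 526) (.a (.f (nat_lit 527) (nat_lit 559) (nat_lit 4526) (.f (nat_lit 398) (nat_lit 495) (nat_lit 4494) (.d (nat_lit 397) (nat_lit 365) (nat_lit 7533) (nat_lit 429) (nat_lit 7565)))) (.a (.f (nat_lit 429) (nat_lit 397) (nat_lit 7565) (.f (nat_lit 463) (nat_lit 465) (nat_lit 3501) (.d (nat_lit 428) (nat_lit 427) (nat_lit 427) (nat_lit 461) (nat_lit 3500)))) (.f (nat_lit 527) (nat_lit 559) (nat_lit 4526) (.f (nat_lit 431) (nat_lit 399) (nat_lit 6542) (.d (nat_lit 463) (nat_lit 495) (nat_lit 4527) (nat_lit 558) (nat_lit 6574))))))) (.a s67737 (.p (nat_lit 493) (.a (.f (nat_lit 463) (nat_lit 465) (nat_lit 1485) (.d (nat_lit 492) (nat_lit 461) (nat_lit 1484) (nat_lit 491) (nat_lit 2507))) (.a (.f (nat_lit 463) (nat_lit 465) (nat_lit 1485) (.d (nat_lit 492) (nat_lit 491) (nat_lit 2507) (nat_lit 495) (nat_lit 2508))) (.f (nat_lit 525) (nat_lit 398) (nat_lit 5517) (.d (nat_lit 557) (nat_lit 461) (nat_lit 6573) (nat_lit 589) (nat_lit 6605))))))))))))) (.a (.p (nat_lit 494) (.a s67590 (.a (.p (nat_lit 526) (.a (.f (nat_lit 527) (nat_lit 559) (nat_lit 4526) (.d (nat_lit 525) (nat_lit 557) (nat_lit 5549) (nat_lit 561) (nat_lit 525))) (.a (.f (nat_lit 527) (nat_lit 559) (nat_lit 4526) (.f (nat_lit 431) (nat_lit 399) (nat_lit 6542) (.d (nat_lit 463) (nat_lit 495) (nat_lit 4527) (nat_lit 558) (nat_lit 6574)))) (.f (nat_lit 431) (nat_lit 399) (nat_lit 6542) (.f (nat_lit 463) (nat_lit 558) (nat_lit 6574) (.d (nat_lit 429) (nat_lit 428) (nat_lit 428) (nat_lit 465) (nat_lit 3501))))))) (.a (.p (nat_lit 526) (.a (.f (nat_lit 527) (nat_lit 559) (nat_lit 4526) (.d (nat_lit 525) (nat_lit 557) (nat_lit 5549) (nat_lit 561) (nat_lit 525))) (.a (.f (nat_lit 527) (nat_lit 559) (nat_lit 4526) (.f (nat_lit 398) (nat_lit 495) (nat_lit 4494) (.d (nat_lit 399) (nat_lit 367) (nat_lit 6510) (nat_lit 431) (nat_lit 6542)))) (.f (nat_lit 525) (nat_lit 557) (nat_lit 5549) (.f (nat_lit 398) (nat_lit 493) (nat_lit 5517) (.d (nat_lit 399) (nat_lit 367) (nat_lit 6510) (nat_lit 431) (nat_lit 6542))))))) (.a (.p (nat_lit 526) (.a (.f (nat_lit 527) (nat_lit 559) (nat_lit 4526) (.d (nat_lit 525) (nat_lit 557) (nat_lit 5549) (nat_lit 561) (nat_lit 525))) (.f (nat_lit 431) (nat_lit 399) (nat_lit 6542) (.f (nat_lit 463) (nat_lit 558) (nat_lit 6574) (.d (nat_lit 429) (nat_lit 428) (nat_lit 428) (nat_lit 465) (nat_lit 3501)))))) (.a s67769 (.a s67732 (.p (nat_lit 493) (.a (.f (nat_lit 463) (nat_lit 465) (nat_lit 1485) (.d (nat_lit 492) (nat_lit 461) (nat_lit 1484) (nat_lit 491) (nat_lit 2507))) (.a (.f (nat_lit 463) (nat_lit 465) (nat_lit 1485) (.d (nat_lit 492) (nat_lit 491) (nat_lit 2507) (nat_lit 495) (nat_lit 2508))) (.f (nat_lit 525) (nat_lit 398) (nat_lit 5517) (.d (nat_lit 557) (nat_lit 461) (nat_lit 6573) (nat_lit 589) (nat_lit 6605))))))))))))) (.a (.p (nat_lit 463) (.a (.f (nat_lit 465) (nat_lit 429) (nat_lit 3501) (.f (nat_lit 466) (nat_lit 431) (nat_lit 3502) (.d (nat_lit 434) (nat_lit 433) (nat_lit 2478) (nat_lit 435) (nat_lit 2479)))) (.a (.p (nat_lit 465) (.a (.f (nat_lit 466) (nat_lit 431) (nat_lit 3502) (.d (nat_lit 434) (nat_lit 433) (nat_lit 2478) (nat_lit 435) (nat_lit 2479))) (.a (.f (nat_lit 494) (nat_lit 493) (nat_lit 1485) (.f (nat_lit 466) (nat_lit 495) (nat_lit 1486) (.d (nat_lit 498) (nat_lit 497) (nat_lit 462) (nat_lit 499) (nat_lit 463)))) (.p (nat_lit 527) (.a (.d (nat_lit 495) (nat_lit 431) (nat_lit 4527) (nat_lit 559) (nat_lit 7598)) (.a (.f (nat_lit 559) (nat_lit 495) (nat_lit 7598) (.d (nat_lit 494) (nat_lit 493) (nat_lit 1485) (nat_lit 526) (nat_lit 4526))) (.a (.f (nat_lit 494) (nat_lit 493) (nat_lit 1485) (.f (nat_lit 526) (nat_lit 559) (nat_lit 4526) (.d (nat_lit 525) (nat_lit 557) (nat_lit 5549) (nat_lit 561) (nat_lit 525)))) (.f (nat_lit 494) (nat_lit 493) (nat_lit 1485) (.f (nat_lit 431) (nat_lit 495) (nat_lit 4527) (.d (nat_lit 399) (nat_lit 367) (nat_lit 5486) (nat_lit 526) (nat_lit 6542))))))))))) (.a (.f (nat_lit 465) (nat_lit 429) (nat_lit 3501) (.f (nat_lit 494) (nat_lit 493) (nat_lit 1485) (.f (nat_lit 466) (nat_lit 495) (nat_lit 1486) (.d (nat_lit 498) (nat_lit 497) (nat_lit 462) (nat_lit 499) (nat_lit 463))))) (.p (nat_lit 461) (.a (.f (nat_lit 429) (nat_lit 428) (nat_lit 3500) (.f (nat_lit 493) (nat_lit 492) (nat_lit 1484) (.f (nat_lit 525) (nat_lit 557) (nat_lit 6573) (.f (nat_lit 526) (nat_lit 558) (nat_lit 4525) (.f (nat_lit 494) (nat_lit 397) (nat_lit 4493) (.d (nat_lit 527) (nat_lit 559) (nat_lit 4526) (nat_lit 561) (nat_lit 525))))))) (.a (.f (nat_lit 428) (nat_lit 429) (nat_lit 3500) (.f (nat_lit 460) (nat_lit 427) (nat_lit 3499) (.d (nat_lit 492) (nat_lit 491) (nat_lit 1483) (nat_lit 493) (nat_lit 1484)))) (.a (.f (nat_lit 492) (nat_lit 493) (nat_lit 1484) (.f (nat_lit 460) (nat_lit 491) (nat_lit 1483) (.f (nat_lit 459) (nat_lit 431) (nat_lit 2475) (.f (nat_lit 429) (nat_lit 458) (nat_lit 2474) (.f (nat_lit 397) (nat_lit 365) (nat_lit 5484) (.d (nat_lit 494) (nat_lit 495) (nat_lit 459) (nat_lit 526) (nat_lit 7565))))))) (.a (.f (nat_lit 492) (nat_lit 493) (nat_lit 1484) (.f (nat_lit 460) (nat_lit 491) (nat_lit 1483) (.f (nat_lit 459) (nat_lit 431) (nat_lit 2475) (.d (nat_lit 427) (nat_lit 426) (nat_lit 3498) (nat_lit 428) (nat_lit 3499))))) (.a (.f (nat_lit 428) (nat_lit 429) (nat_lit 3500) (.f (nat_lit 460) (nat_lit 427) (nat_lit 3499) (.f (nat_lit 459) (nat_lit 431) (nat_lit 2475) (.f (nat_lit 494) (nat_lit 495) (nat_lit 459) (.f (nat_lit 458) (nat_lit 493) (nat_lit 458) (.d (nat_lit 490) (nat_lit 489) (nat_lit 1481) (nat_lit 491) (nat_lit 1482))))))) (.f (nat_lit 428) (nat_lit 429) (nat_lit 3500) (.f (nat_lit 460) (nat_lit 427) (nat_lit 3499) (.f (nat_lit 459) (nat_lit 431) (nat_lit 2475) (.d (nat_lit 491) (nat_lit 490) (nat_lit 1482) (nat_lit 492) (nat_lit 1483))))))))))))))) (.a (.p (nat_lit 494) (.a s67590 (.a s67605 (.a s67621 (.a s67614 (.a s67826 s67737)))))) (.a (.p (nat_lit 494) (.a s67590 (.a s67605 (.a s67621 (.a s67614 (.a s67769 (.a (.p (nat_lit 398) (.a (.f (nat_lit 495) (nat_lit 527) (nat_lit 4494) (.f (nat_lit 463) (nat_lit 366) (nat_lit 4462) (.d (nat_lit 465) (nat_lit 429) (nat_lit 3501) (nat_lit 493) (nat_lit 1485)))) (.a (.f (nat_lit 493) (nat_lit 525) (nat_lit 5517) (.f (nat_lit 463) (nat_lit 465) (nat_lit 1485) (.d (nat_lit 492) (nat_lit 491) (nat_lit 2507) (nat_lit 495) (nat_lit 2508)))) (.f (nat_lit 365) (nat_lit 397) (nat_lit 7533) (.f (nat_lit 366) (nat_lit 333) (nat_lit 7501) (.d (nat_lit 367) (nat_lit 335) (nat_lit 6478) (nat_lit 399) (nat_lit 6510))))))) (.p (nat_lit 493) (.a (.f (nat_lit 463) (nat_lit 465) (nat_lit 1485) (.d (nat_lit 492) (nat_lit 461) (nat_lit 1484) (nat_lit 491) (nat_lit 2507))) (.a (.f (nat_lit 463) (nat_lit 465) (nat_lit 1485) (.d (nat_lit 492) (nat_lit 491) (nat_lit 2507) (nat_lit 495) (nat_lit 2508))) (.f (nat_lit 525) (nat_lit 398) (nat_lit 5517) (.d (nat_lit 557) (nat_lit 461) (nat_lit 6573) (nat_lit 589) (nat_lit 6605))))))))))))) (.a (.p (nat_lit 494) (.a s67590 (.a (.p (nat_lit 526) (.a (.f (nat_lit 527) (nat_lit 559) (nat_lit 4526) (.d (nat_lit 525) (nat_lit 557) (nat_lit 5549) (nat_lit 561) (nat_lit 525))) (.a (.f (nat_lit 527) (nat_lit 559) (nat_lit 4526) (.f (nat_lit 431) (nat_lit 399) (nat_lit 6542) (.d (nat_lit 463) (nat_lit 495) (nat_lit 4527) (nat_lit 558) (nat_lit 6574)))) (.f (nat_lit 431) (nat_lit 399) (nat_lit 6542) (.f (nat_lit 463) (nat_lit 558) (nat_lit 6574) (.d (nat_lit 465) (nat_lit 466) (nat_lit 3502) (nat_lit 493) (nat_lit 1485))))))) (.a (.p (nat_lit 398) (.a (.f (nat_lit 527) (nat_lit 495) (nat_lit 4494) (.f (nat_lit 526) (nat_lit 559) (nat_lit 4526) (.d (nat_lit 525) (nat_lit 493) (nat_lit 5517) (nat_lit 561) (nat_lit 525)))) (.a (.f (nat_lit 527) (nat_lit 495) (nat_lit 4494) (.f (nat_lit 526) (nat_lit 559) (nat_lit 4526) (.d (nat_lit 525) (nat_lit 557) (nat_lit 5549) (nat_lit 561) (nat_lit 525)))) (.f (nat_lit 365) (nat_lit 397) (nat_lit 7533) (.f (nat_lit 366) (nat_lit 333) (nat_lit 7501) (.d (nat_lit 367) (nat_lit 335) (nat_lit 6478) (nat_lit 399) (nat_lit 6510))))))) (.a (.p (nat_lit 526) (.a (.f (nat_lit 527) (nat_lit 559) (nat_lit 4526) (.d (nat_lit 525) (nat_lit 557) (nat_lit 5549) (nat_lit 561) (nat_lit 525))) (.a (.f (nat_lit 527) (nat_lit 559) (nat_lit 4526) (.f (nat_lit 398) (nat_lit 495) (nat_lit 4494) (.d (nat_lit 399) (nat_lit 367) (nat_lit 6510) (nat_lit 431) (nat_lit 6542)))) (.f (nat_lit 431) (nat_lit 399) (nat_lit 6542) (.f (nat_lit 558) (nat_lit 463) (nat_lit 6574) (.d (nat_lit 557) (nat_lit 525) (nat_lit 5549) (nat_lit 589) (nat_lit 5581))))))) (.a s67837 (.a (.p (nat_lit 398) (.a (.f (nat_lit 365) (nat_lit 397) (nat_lit 7533) (.f (nat_lit 366) (nat_lit 333) (nat_lit 7501) (.d (nat_lit 367) (nat_lit 335) (nat_lit 6478) (nat_lit 399) (nat_lit 6510)))) (.a (.f (nat_lit 495) (nat_lit 527) (nat_lit 4494) (.f (nat_lit 463) (nat_lit 366) (nat_lit 4462) (.d (nat_lit 493) (nat_lit 465) (nat_lit 1485) (nat_lit 492) (nat_lit 2508)))) (.f (nat_lit 527) (nat_lit 495) (nat_lit 4494) (.f (nat_lit 526) (nat_lit 559) (nat_lit 4526) (.d (nat_lit 399) (nat_lit 367) (nat_lit 6510) (nat_lit 431) (nat_lit 6542))))))) (.p (nat_lit 493) (.a (.f (nat_lit 463) (nat_lit 465) (nat_lit 1485) (.d (nat_lit 492) (nat_lit 461) (nat_lit 1484) (nat_lit 491) (nat_lit 2507))) (.a (.f (nat_lit 463) (nat_lit 465) (nat_lit 1485) (.d (nat_lit 492) (nat_lit 491) (nat_lit 2507) (nat_lit 495) (nat_lit 2508))) (.f (nat_lit 525) (nat_lit 398) (nat_lit 5517) (.d (nat_lit 557) (nat_lit 461) (nat_lit 6573) (nat_lit 589) (nat_lit 6605))))))))))))) (.a s67871 (.a (.p (nat_lit 494) (.a s67576 (.a (.p (nat_lit 526) (.a (.f (nat_lit 527) (nat_lit 559) (nat_lit 4526) (.d (nat_lit 525) (nat_lit 557) (nat_lit 5549) (nat_lit 561) (nat_lit 525))) (.f (nat_lit 429) (nat_lit 397) (nat_lit 7565) (.f (nat_lit 463) (nat_lit 465) (nat_lit 3501) (.d (nat_lit 428) (nat_lit 427) (nat_lit 427) (nat_lit 461) (nat_lit 3500)))))) (.a s67696 (.a (.p (nat_lit 398) (.a (.f (nat_lit 527) (nat_lit 495) (nat_lit 4494) (.f (nat_lit 526) (nat_lit 559) (nat_lit 4526) (.d (nat_lit 525) (nat_lit 493) (nat_lit 5517) (nat_lit 561) (nat_lit 525)))) (.a (.f (nat_lit 527) (nat_lit 495) (nat_lit 4494) (.f (nat_lit 526) (nat_lit 559) (nat_lit 4526) (.d (nat_lit 525) (nat_lit 557) (nat_lit 5549) (nat_lit 561) (nat_lit 525)))) (.f (nat_lit 365) (nat_lit 397) (nat_lit 7533) (.f (nat_lit 366) (nat_lit 333) (nat_lit 7501) (.d (nat_lit 367) (nat_lit 335) (nat_lit 6478) (nat_lit 399) (nat_lit 6510))))))) (.a (.p (nat_lit 398) (.a (.f (nat_lit 495) (nat_lit 527) (nat_lit 4494) (.f (nat_lit 463) (nat_lit 366) (nat_lit 4462) (.d (nat_lit 465) (nat_lit 429) (nat_lit 3501) (nat_lit 493) (nat_lit 1485)))) (.a (.f (nat_lit 397) (nat_lit 365) (nat_lit 7533) (.f (nat_lit 429) (nat_lit 526) (nat_lit 7565) (.f (nat_lit 399) (nat_lit 367) (nat_lit 6510) (.d (nat_lit 428) (nat_lit 400) (nat_lit 1420) (nat_lit 427) (nat_lit 2443))))) (.f (nat_lit 365) (nat_lit 397) (nat_lit 7533) (.f (nat_lit 366) (nat_lit 333) (nat_lit 7501) (.d (nat_lit 367) (nat_lit 335) (nat_lit 6478) (nat_lit 399) (nat_lit 6510))))))) (.a (.p (nat_lit 398) (.a (.f (nat_lit 495) (nat_lit 527) (nat_lit 4494) (.f (nat_lit 463) (nat_lit 366) (nat_lit 4462) (.d (nat_lit 465) (nat_lit 429) (nat_lit 3501) (nat_lit 493) (nat_lit 1485)))) (.a (.f (nat_lit 493) (nat_lit 525) (nat_lit 5517) (.f (nat_lit 463) (nat_lit 465) (nat_lit 1485) (.d (nat_lit 492) (nat_lit 461) (nat_lit 1484) (nat_lit 495) (nat_lit 2508)))) (.f (nat_lit 365) (nat_lit 397) (nat_lit 7533) (.f (nat_lit 366) (nat_lit 333) (nat_lit 7501) (.d (nat_lit 367) (nat_lit 335) (nat_lit 6478) (nat_lit 399) (nat_lit 6510))))))) (.p (nat_lit 526) (.a (.f (nat_lit 429) (nat_lit 397) (nat_lit 7565) (.f (nat_lit 463) (nat_lit 465) (nat_lit 3501) (.d (nat_lit 428) (nat_lit 427) (nat_lit 427) (nat_lit 461) (nat_lit 3500)))) (.f (nat_lit 525) (nat_lit 557) (nat_lit 5549) (.f (nat_lit 398) (nat_lit 493) (nat_lit 5517) (.d (nat_lit 399) (nat_lit 367) (nat_lit 6510) (nat_lit 431) (nat_lit 6542))))))))))))) (.a (.p (nat_lit 527) (.a (.p (nat_lit 463) (.a (.d (nat_lit 495) (nat_lit 431) (nat_lit 4527) (nat_lit 559) (nat_lit 7598)) (.a (.f (nat_lit 465) (nat_lit 429) (nat_lit 3501) (.f (nat_lit 494) (nat_lit 493) (nat_lit 1485) (.d (nat_lit 495) (nat_lit 466) (nat_lit 1486) (nat_lit 559) (nat_lit 7598)))) (.a (.f (nat_lit 465) (nat_lit 429) (nat_lit 3501) (.f (nat_lit 494) (nat_lit 493) (nat_lit 1485) (.f (nat_lit 526) (nat_lit 559) (nat_lit 4526) (.d (nat_lit 525) (nat_lit 557) (nat_lit 5549) (nat_lit 561) (nat_lit 525))))) (.f (nat_lit 431) (nat_lit 495) (nat_lit 4527) (.d (nat_lit 465) (nat_lit 429) (nat_lit 3501) (nat_lit 466) (nat_lit 3502))))))) (.a (.p (nat_lit 494) (.a (.f (nat_lit 495) (nat_lit 398) (nat_lit 4494) (.d (nat_lit 559) (nat_lit 463) (nat_lit 7598) (nat_lit 526) (nat_lit 4526))) (.a (.f (nat_lit 559) (nat_lit 526) (nat_lit 4526) (.d (nat_lit 495) (nat_lit 463) (nat_lit 7598) (nat_lit 591) (nat_lit 7630))) (.a (.f (nat_lit 526) (nat_lit 559) (nat_lit 4526) (.f (nat_lit 398) (nat_lit 495) (nat_lit 4494) (.d (nat_lit 399) (nat_lit 367) (nat_lit 6510) (nat_lit 431) (nat_lit 6542)))) (.a (.f (nat_lit 526) (nat_lit 559) (nat_lit 4526) (.f (nat_lit 431) (nat_lit 399) (nat_lit 6542) (.f (nat_lit 463) (nat_lit 558) (nat_lit 6574) (.d (nat_lit 465) (nat_lit 466) (nat_lit 3502) (nat_lit 493) (nat_lit 1485))))) (.a (.f (nat_lit 495) (nat_lit 398) (nat_lit 4494) (.d (nat_lit 463) (nat_lit 431) (nat_lit 4527) (nat_lit 559) (nat_lit 7598))) (.f (nat_lit 398) (nat_lit 495) (nat_lit 4494) (.f (nat_lit 525) (nat_lit 493) (nat_lit 5517) (.d (nat_lit 526) (nat_lit 557) (nat_lit 5549) (nat_lit 561) (nat_lit 525)))))))))) (.a (.p (nat_lit 494) (.a (.f (nat_lit 495) (nat_lit 398) (nat_lit 4494) (.d (nat_lit 559) (nat_lit 463) (nat_lit 7598) (nat_lit 526) (nat_lit 4526))) (.a (.f (nat_lit 559) (nat_lit 526) (nat_lit 4526) (.d (nat_lit 495) (nat_lit 463) (nat_lit 7598) (nat_lit 591) (nat_lit 7630))) (.a (.f (nat_lit 398) (nat_lit 495) (nat_lit 4494) (.f (nat_lit 525) (nat_lit 493) (nat_lit 5517) (.d (nat_lit 526) (nat_lit 557) (nat_lit 5549) (nat_lit 561) (nat_lit 525)))) (.a (.f (nat_lit 526) (nat_lit 559) (nat_lit 4526) (.d (nat_lit 525) (nat_lit 557) (nat_lit 5549) (nat_lit 561) (nat_lit 525))) (.f (nat_lit 398) (nat_lit 495) (nat_lit 4494) (.f (nat_lit 493) (nat_lit 525) (nat_lit 5517) (.f (nat_lit 366) (nat_lit 461) (nat_lit 5485) (.d (nat_lit 367) (nat_lit 335) (nat_lit 6478) (nat_lit 399) (nat_lit 6510)))))))))) (.a (.p (nat_lit 494) (.a (.f (nat_lit 526) (nat_lit 559) (nat_lit 4526) (.f (nat_lit 398) (nat_lit 495) (nat_lit 4494) (.d (nat_lit 399) (nat_lit 367) (nat_lit 6510) (nat_lit 431) (nat_lit 6542)))) (.a (.f (nat_lit 398) (nat_lit 495) (nat_lit 4494) (.f (nat_lit 525) (nat_lit 493) (nat_lit 5517) (.d (nat_lit 526) (nat_lit 557) (nat_lit 5549) (nat_lit 561) (nat_lit 525)))) (.a (.f (nat_lit 526) (nat_lit 559) (nat_lit 4526) (.d (nat_lit 525) (nat_lit 557) (nat_lit 5549) (nat_lit 561) (nat_lit 525))) (.f (nat_lit 398) (nat_lit 495) (nat_lit 4494) (.f (nat_lit 493) (nat_lit 525) (nat_lit 5517) (.f (nat_lit 366) (nat_lit 461) (nat_lit 5485) (.d (nat_lit 367) (nat_lit 335) (nat_lit 6478) (nat_lit 399) (nat_lit 6510))))))))) (.a (.p (nat_lit 463) (.a (.d (nat_lit 495) (nat_lit 431) (nat_lit 4527) (nat_lit 559) (nat_lit 7598)) (.a (.f (nat_lit 559) (nat_lit 495) (nat_lit 7598) (.f (nat_lit 526) (nat_lit 494) (nat_lit 4526) (.d (nat_lit 525) (nat_lit 524) (nat_lit 524) (nat_lit 561) (nat_lit 525)))) (.f (nat_lit 465) (nat_lit 429) (nat_lit 3501) (.f (nat_lit 466) (nat_lit 431) (nat_lit 3502) (.d (nat_lit 434) (nat_lit 433) (nat_lit 2478) (nat_lit 435) (nat_lit 2479))))))) (.a (.p (nat_lit 463) (.a (.d (nat_lit 495) (nat_lit 431) (nat_lit 4527) (nat_lit 559) (nat_lit 7598)) (.f (nat_lit 465) (nat_lit 429) (nat_lit 3501) (.f (nat_lit 498) (nat_lit 497) (nat_lit 462) (.f (nat_lit 466) (nat_lit 499) (nat_lit 463) (.d (nat_lit 434) (nat_lit 433) (nat_lit 2478) (nat_lit 435) (nat_lit 2479))))))) (.a s67918 (.p (nat_lit 463) (.a (.f (nat_lit 431) (nat_lit 495) (nat_lit 4527) (.d (nat_lit 465) (nat_lit 429) (nat_lit 3501) (nat_lit 466) (nat_lit 3502))) (.a (.f (nat_lit 431) (nat_lit 495) (nat_lit 4527) (.f (nat_lit 465) (nat_lit 466) (nat_lit 3502) (.f (nat_lit 494) (nat_lit 493) (nat_lit 1485) (.d (nat_lit 399) (nat_lit 367) (nat_lit 5486) (nat_lit 526) (nat_lit 6542))))) (.a (.f (nat_lit 465) (nat_lit 429) (nat_lit 3501) (.f (nat_lit 498) (nat_lit 497) (nat_lit 462) (.f (nat_lit 466) (nat_lit 499) (nat_lit 463) (.d (nat_lit 434) (nat_lit 433) (nat_lit 2478) (nat_lit 435) (nat_lit 2479))))) (.f (nat_lit 495) (nat_lit 431) (nat_lit 4527) (.d (nat_lit 398) (nat_lit 366) (nat_lit 4462) (nat_lit 494) (nat_lit 4494))))))))))))))) (.a (.p (nat_lit 527) (.a (.p (nat_lit 463) (.a (.d (nat_lit 495) (nat_lit 431) (nat_lit 4527) (nat_lit 559) (nat_lit 7598)) (.a (.f (nat_lit 559) (nat_lit 495) (nat_lit 7598) (.f (nat_lit 526) (nat_lit 494) (nat_lit 4526) (.d (nat_lit 525) (nat_lit 524) (nat_lit 524) (nat_lit 561) (nat_lit 525)))) (.f (nat_lit 465) (nat_lit 429) (nat_lit 3501) (.f (nat_lit 466) (nat_lit 431) (nat_lit 3502) (.d (nat_lit 434) (nat_lit 433) (nat_lit 2478) (nat_lit 435) (nat_lit 2479))))))) (.a (.p (nat_lit 495) (.a (.d (nat_lit 463) (nat_lit 431) (nat_lit 4527) (nat_lit 559) (nat_lit 7598)) (.a (.f (nat_lit 559) (nat_lit 463) (nat_lit 7598) (.d (nat_lit 494) (nat_lit 398) (nat_lit 4494) (nat_lit 526) (nat_lit 4526))) (.a (.f (nat_lit 494) (nat_lit 398) (nat_lit 4494) (.d (nat_lit 559) (nat_lit 526) (nat_lit 4526) (nat_lit 591) (nat_lit 7630))) (.f (nat_lit 463) (nat_lit 431) (nat_lit 4527) (.d (nat_lit 398) (nat_lit 366) (nat_lit 4462) (nat_lit 494) (nat_lit 4494))))))) (.a s67918 (.a (.p (nat_lit 526) (.a (.f (nat_lit 494) (nat_lit 559) (nat_lit 4526) (.d (nat_lit 525) (nat_lit 557) (nat_lit 5549) (nat_lit 561) (nat_lit 525))) (.a (.f (nat_lit 525) (nat_lit 561) (nat_lit 525) (.f (nat_lit 524) (nat_lit 559) (nat_lit 524) (.d (nat_lit 556) (nat_lit 555) (nat_lit 1547) (nat_lit 557) (nat_lit 1548)))) (.a (.f (nat_lit 494) (nat_lit 559) (nat_lit 4526) (.f (nat_lit 398) (nat_lit 495) (nat_lit 4494) (.d (nat_lit 399) (nat_lit 367) (nat_lit 6510) (nat_lit 431) (nat_lit 6542)))) (.f (nat_lit 525) (nat_lit 561) (nat_lit 525) (.d (nat_lit 557) (nat_lit 494) (nat_lit 5549) (nat_lit 556) (nat_lit 1548))))))) (.a (.p (nat_lit 463) (.a (.d (nat_lit 495) (nat_lit 431) (nat_lit 4527) (nat_lit 559) (nat_lit 7598)) (.f (nat_lit 465) (nat_lit 429) (nat_lit 3501) (.f (nat_lit 498) (nat_lit 497) (nat_lit 462) (.f (nat_lit 466) (nat_lit 499) (nat_lit 463) (.d (nat_lit 434) (nat_lit 433) (nat_lit 2478) (nat_lit 435) (nat_lit 2479))))))) (.p (nat_lit 463) (.a (.f (nat_lit 431) (nat_lit 495) (nat_lit 4527) (.d (nat_lit 465) (nat_lit 429) (nat_lit 3501) (nat_lit 466) (nat_lit 3502))) (.a (.f (nat_lit 495) (nat_lit 431) (nat_lit 4527) (.d (nat_lit 398) (nat_lit 366) (nat_lit 4462) (nat_lit 494) (nat_lit 4494))) (.f (nat_lit 465) (nat_lit 429) (nat_lit 3501) (.f (nat_lit 498) (nat_lit 497) (nat_lit 462) (.f (nat_lit 466) (nat_lit 499) (nat_lit 463) (.d (nat_lit 434) (nat_lit 433) (nat_lit 2478) (nat_lit 435) (nat_lit 2479)))))))))))))) (.a (.p (nat_lit 429) (.a (.f (nat_lit 463) (nat_lit 465) (nat_lit 3501) (.d (nat_lit 428) (nat_lit 427) (nat_lit 427) (nat_lit 461) (nat_lit 3500))) (.a (.f (nat_lit 463) (nat_lit 465) (nat_lit 3501) (.d (nat_lit 428) (nat_lit 431) (nat_lit 428) (nat_lit 461) (nat_lit 3500))) (.a (.p (nat_lit 366) (.a (.f (nat_lit 463) (nat_lit 465) (nat_lit 3501) (.f (nat_lit 398) (nat_lit 495) (nat_lit 4462) (.d (nat_lit 334) (nat_lit 431) (nat_lit 4430) (nat_lit 461) (nat_lit 5453)))) (.a (.f (nat_lit 463) (nat_lit 465) (nat_lit 3501) (.f (nat_lit 495) (nat_lit 398) (nat_lit 4462) (.d (nat_lit 527) (nat_lit 431) (nat_lit 4527) (nat_lit 559) (nat_lit 7598)))) (.a (.p (nat_lit 365) (.a (.f (nat_lit 397) (nat_lit 333) (nat_lit 4429) (.f (nat_lit 461) (nat_lit 334) (nat_lit 6477) (.f (nat_lit 364) (nat_lit 332) (nat_lit 7500) (.f (nat_lit 396) (nat_lit 493) (nat_lit 7532) (.d (nat_lit 395) (nat_lit 367) (nat_lit 1387) (nat_lit 394) (nat_lit 2410)))))) (.a (.f (nat_lit 397) (nat_lit 333) (nat_lit 4429) (.f (nat_lit 461) (nat_lit 334) (nat_lit 6477) (.f (nat_lit 460) (nat_lit 492) (nat_lit 5484) (.d (nat_lit 459) (nat_lit 431) (nat_lit 2475) (nat_lit 458) (nat_lit 2474))))) (.a (.p (nat_lit 461) (.a (.f (nat_lit 397) (nat_lit 334) (nat_lit 6477) (.f (nat_lit 364) (nat_lit 332) (nat_lit 7500) (.f (nat_lit 396) (nat_lit 493) (nat_lit 7532) (.d (nat_lit 395) (nat_lit 367) (nat_lit 1387) (nat_lit 394) (nat_lit 2410))))) (.a (.f (nat_lit 463) (nat_lit 465) (nat_lit 3501) (.f (nat_lit 492) (nat_lit 493) (nat_lit 1484) (.d (nat_lit 397) (nat_lit 334) (nat_lit 6477) (nat_lit 460) (nat_lit 5484)))) (.a (.f (nat_lit 463) (nat_lit 465) (nat_lit 3501) (.f (nat_lit 492) (nat_lit 493) (nat_lit 1484) (.d (nat_lit 460) (nat_lit 397) (nat_lit 5484) (nat_lit 491) (nat_lit 1483)))) (.a (.f (nat_lit 463) (nat_lit 465) (nat_lit 3501) (.f (nat_lit 493) (nat_lit 492) (nat_lit 1484) (.f (nat_lit 525) (nat_lit 557) (nat_lit 6573) (.f (nat_lit 526) (nat_lit 558) (nat_lit 4525) (.f (nat_lit 527) (nat_lit 561) (nat_lit 525) (.d (nat_lit 524) (nat_lit 556) (nat_lit 5548) (nat_lit 559) (nat_lit 524))))))) (.f (nat_lit 397) (nat_lit 334) (nat_lit 6477) (.f (nat_lit 460) (nat_lit 492) (nat_lit 5484) (.d (nat_lit 459) (nat_lit 431) (nat_lit 2475) (nat_lit 458) (nat_lit 2474))))))))) (.a (.p (nat_lit 461) (.a (.f (nat_lit 463) (nat_lit 465) (nat_lit 3501) (.f (nat_lit 492) (nat_lit 493) (nat_lit 1484) (.d (nat_lit 460) (nat_lit 397) (nat_lit 5484) (nat_lit 491) (nat_lit 1483)))) (.a (.f (nat_lit 463) (nat_lit 465) (nat_lit 3501) (.f (nat_lit 493) (nat_lit 492) (nat_lit 1484) (.f (nat_lit 525) (nat_lit 557) (nat_lit 6573) (.f (nat_lit 526) (nat_lit 558) (nat_lit 4525) (.f (nat_lit 527) (nat_lit 561) (nat_lit 525) (.d (nat_lit 524) (nat_lit 556) (nat_lit 5548) (nat_lit 559) (nat_lit 524))))))) (.a (.f (nat_lit 397) (nat_lit 333) (nat_lit 4429) (.f (nat_lit 364) (nat_lit 332) (nat_lit 7500) (.f (nat_lit 396) (nat_lit 493) (nat_lit 7532) (.d (nat_lit 395) (nat_lit 367) (nat_lit 1387) (nat_lit 394) (nat_lit 2410))))) (.f (nat_lit 397) (nat_lit 333) (nat_lit 4429) (.f (nat_lit 460) (nat_lit 492) (nat_lit 5484) (.d (nat_lit 459) (nat_lit 431) (nat_lit 2475) (nat_lit 458) (nat_lit 2474)))))))) (.a (.p (nat_lit 367) (.a s67987 (.a s68022 (.a (.p (nat_lit 364) (.a (.f (nat_lit 335) (nat_lit 336) (nat_lit 2380) (.d (nat_lit 399) (nat_lit 400) (nat_lit 364) (nat_lit 431) (nat_lit 5454))) (.a (.f (nat_lit 463) (nat_lit 465) (nat_lit 3501) (.f (nat_lit 399) (nat_lit 400) (nat_lit 364) (.f (nat_lit 431) (nat_lit 334) (nat_lit 7502) (.f (nat_lit 527) (nat_lit 495) (nat_lit 4527) (.f (nat_lit 395) (nat_lit 396) (nat_lit 1387) (.f (nat_lit 363) (nat_lit 394) (nat_lit 1386) (.f (nat_lit 330) (nat_lit 331) (nat_lit 3402) (.f (nat_lit 362) (nat_lit 329) (nat_lit 3401) (.f (nat_lit 459) (nat_lit 427) (nat_lit 7498) (.f (nat_lit 461) (nat_lit 460) (nat_lit 2475) (.f (nat_lit 493) (nat_lit 492) (nat_lit 1484) (.f (nat_lit 525) (nat_lit 557) (nat_lit 6573) (.d (nat_lit 526) (nat_lit 558) (nat_lit 4525) (nat_lit 561) (nat_lit 525)))))))))))))) (.f (nat_lit 335) (nat_lit 336) (nat_lit 2380) (.f (nat_lit 363) (nat_lit 334) (nat_lit 2379) (.d (nat_lit 395) (nat_lit 394) (nat_lit 1386) (nat_lit 396) (nat_lit 1387))))))) (.a (.p (nat_lit 364) (.a (.f (nat_lit 335) (nat_lit 336) (nat_lit 2380) (.d (nat_lit 399) (nat_lit 400) (nat_lit 364) (nat_lit 431) (nat_lit 5454))) (.a (.f (nat_lit 332) (nat_lit 331) (nat_lit 3403) (.f (nat_lit 368) (nat_lit 333) (nat_lit 3404) (.d (nat_lit 400) (nat_lit 399) (nat_lit 364) (nat_lit 401) (nat_lit 365)))) (.f (nat_lit 332) (nat_lit 331) (nat_lit 3403) (.f (nat_lit 368) (nat_lit 333) (nat_lit 3404) (.d (nat_lit 336) (nat_lit 335) (nat_lit 2380) (nat_lit 337) (nat_lit 2381))))))) (.a (.p (nat_lit 368) (.a (.f (nat_lit 463) (nat_lit 465) (nat_lit 3501) (.f (nat_lit 400) (nat_lit 401) (nat_lit 365) (.f (nat_lit 399) (nat_lit 364) (nat_lit 364) (.d (nat_lit 336) (nat_lit 337) (nat_lit 2381) (nat_lit 431) (nat_lit 6479))))) (.a (.f (nat_lit 400) (nat_lit 401) (nat_lit 365) (.f (nat_lit 364) (nat_lit 399) (nat_lit 364) (.d (nat_lit 332) (nat_lit 331) (nat_lit 3403) (nat_lit 333) (nat_lit 3404)))) (.f (nat_lit 333) (nat_lit 332) (nat_lit 3404) (.f (nat_lit 369) (nat_lit 334) (nat_lit 3405) (.d (nat_lit 337) (nat_lit 336) (nat_lit 2381) (nat_lit 338) (nat_lit 2382))))))) (.a (.p (nat_lit 364) (.a (.f (nat_lit 463) (nat_lit 465) (nat_lit 3501) (.f (nat_lit 399) (nat_lit 400) (nat_lit 364) (.d (nat_lit 431) (nat_lit 334) (nat_lit 7502) (nat_lit 335) (nat_lit 5454)))) (.a (.f (nat_lit 332) (nat_lit 331) (nat_lit 3403) (.f (nat_lit 368) (nat_lit 333) (nat_lit 3404) (.d (nat_lit 400) (nat_lit 399) (nat_lit 364) (nat_lit 401) (nat_lit 365)))) (.f (nat_lit 332) (nat_lit 331) (nat_lit 3403) (.f (nat_lit 333) (nat_lit 368) (nat_lit 3404) (.f (nat_lit 395) (nat_lit 396) (nat_lit 1387) (.f (nat_lit 363) (nat_lit 394) (nat_lit 1386) (.d (nat_lit 362) (nat_lit 334) (nat_lit 2378) (nat_lit 361) (nat_lit 2377))))))))) (.a s68072 s68073)))))))) (.p (nat_lit 367) (.a s67987 (.a s68022 (.a (.f (nat_lit 397) (nat_lit 333) (nat_lit 4429) (.f (nat_lit 396) (nat_lit 368) (nat_lit 1388) (.d (nat_lit 395) (nat_lit 364) (nat_lit 1387) (nat_lit 394) (nat_lit 394)))) (.a (.p (nat_lit 364) (.a (.f (nat_lit 335) (nat_lit 336) (nat_lit 2380) (.d (nat_lit 399) (nat_lit 400) (nat_lit 364) (nat_lit 431) (nat_lit 5454))) (.a (.f (nat_lit 396) (nat_lit 395) (nat_lit 1387) (.f (nat_lit 368) (nat_lit 397) (nat_lit 1388) (.d (nat_lit 400) (nat_lit 399) (nat_lit 364) (nat_lit 401) (nat_lit 365)))) (.f (nat_lit 335) (nat_lit 336) (nat_lit 2380) (.f (nat_lit 363) (nat_lit 334) (nat_lit 2379) (.d (nat_lit 395) (nat_lit 394) (nat_lit 1386) (nat_lit 396) (nat_lit 1387))))))) (.a s68072 (.p (nat_lit 364) (.a (.f (nat_lit 335) (nat_lit 336) (nat_lit 2380) (.d (nat_lit 399) (nat_lit 400) (nat_lit 364) (nat_lit 431) (nat_lit 5454))) (.f (nat_lit 397) (nat_lit 333) (nat_lit 4429) (.f (nat_lit 396) (nat_lit 395) (nat_lit 1387) (.d (nat_lit 332) (nat_lit 300) (nat_lit 4396) (nat_lit 331) (nat_lit 3403)))))))))))))))))) (.a (.f (nat_lit 463) (nat_lit 465) (nat_lit 3501) (.f (nat_lit 398) (nat_lit 495) (nat_lit 4462) (.d (nat_lit 461) (nat_lit 334) (nat_lit 5453) (nat_lit 493) (nat_lit 5485)))) (.p (nat_lit 398) (.a (.d (nat_lit 461) (nat_lit 334) (nat_lit 5453) (nat_lit 493) (nat_lit 5485)) (.a s68105 (.f (nat_lit 333) (nat_lit 365) (nat_lit 7501) (.f (nat_lit 334) (nat_lit 301) (nat_lit 7469) (.d (nat_lit 335) (nat_lit 303) (nat_lit 6446) (nat_lit 367) (nat_lit 6478)))))))))))) (.a (.f (nat_lit 463) (nat_lit 465) (nat_lit 3501) (.d (nat_lit 428) (nat_lit 427) (nat_lit 427) (nat_lit 431) (nat_lit 428))) s68256))))) (.a (.p (nat_lit 494) (.a s67621 (.a (.p (nat_lit 526) (.a (.f (nat_lit 527) (nat_lit 559) (nat_lit 4526) (.d (nat_lit 525) (nat_lit 557) (nat_lit 5549) (nat_lit 561) (nat_lit 525))) (.f (nat_lit 429) (nat_lit 397) (nat_lit 7565) (.f (nat_lit 463) (nat_lit 465) (nat_lit 3501) (.d (nat_lit 428) (nat_lit 427) (nat_lit 427) (nat_lit 461) (nat_lit 3500)))))) (.a (.p (nat_lit 526) (.a (.f (nat_lit 527) (nat_lit 559) (nat_lit 4526) (.d (nat_lit 525) (nat_lit 557) (nat_lit 5549) (nat_lit 561) (nat_lit 525))) (.f (nat_lit 431) (nat_lit 399) (nat_lit 6542) (.f (nat_lit 463) (nat_lit 558) (nat_lit 6574) (.d (nat_lit 429) (nat_lit 428) (nat_lit 428) (nat_lit 465) (nat_lit 3501)))))) (.a s67837 (.a s67826 (.p (nat_lit 398) (.a (.f (nat_lit 365) (nat_lit 397) (nat_lit 7533) (.f (nat_lit 366) (nat_lit 333) (nat_lit 7501) (.d (nat_lit 367) (nat_lit 335) (nat_lit 6478) (nat_lit 399) (nat_lit 6510)))) (.a (.f (nat_lit 493) (nat_lit 525) (nat_lit 5517) (.f (nat_lit 463) (nat_lit 465) (nat_lit 1485) (.d (nat_lit 461) (nat_lit 366) (nat_lit 5485) (nat_lit 492) (nat_lit 1484)))) (.f (nat_lit 493) (nat_lit 525) (nat_lit 5517) (.f (nat_lit 463) (nat_lit 465) (nat_lit 1485) (.d (nat_lit 492) (nat_lit 461) (nat_lit 1484) (nat_lit 491) (nat_lit 2507))))))))))))) (.a (.p (nat_lit 463) (.a (.f (nat_lit 465) (nat_lit 429) (nat_lit 3501) (.f (nat_lit 466) (nat_lit 431) (nat_lit 3502) (.d (nat_lit 434) (nat_lit 433) (nat_lit 2478) (nat_lit 435) (nat_lit 2479)))) (.a (.p (nat_lit 465) (.a (.f (nat_lit 466) (nat_lit 431) (nat_lit 3502) (.d (nat_lit 434) (nat_lit 433) (nat_lit 2478) (nat_lit 435) (nat_lit 2479))) (.a (.f (nat_lit 494) (nat_lit 493) (nat_lit 1485) (.f (nat_lit 466) (nat_lit 495) (nat_lit 1486) (.d (nat_lit 498) (nat_lit 497) (nat_lit 462) (nat_lit 499) (nat_lit 463)))) (.p (nat_lit 398) (.a (.f (nat_lit 494) (nat_lit 493) (nat_lit 1485) (.d (nat_lit 495) (nat_lit 366) (nat_lit 4462) (nat_lit 527) (nat_lit 4494))) (.a (.f (nat_lit 494) (nat_lit 493) (nat_lit 1485) (.f (nat_lit 527) (nat_lit 495) (nat_lit 4494) (.f (nat_lit 526) (nat_lit 559) (nat_lit 4526) (.d (nat_lit 399) (nat_lit 367) (nat_lit 6510) (nat_lit 431) (nat_lit 6542))))) (.a (.f (nat_lit 495) (nat_lit 366) (nat_lit 4462) (.d (nat_lit 527) (nat_lit 431) (nat_lit 4527) (nat_lit 494) (nat_lit 4494))) (.a (.f (nat_lit 366) (nat_lit 495) (nat_lit 4462) (.f (nat_lit 334) (nat_lit 431) (nat_lit 4430) (.d (nat_lit 335) (nat_lit 303) (nat_lit 6446) (nat_lit 367) (nat_lit 6478)))) (.f (nat_lit 494) (nat_lit 493) (nat_lit 1485) (.f (nat_lit 399) (nat_lit 367) (nat_lit 6510) (.f (nat_lit 431) (nat_lit 526) (nat_lit 6542) (.f (nat_lit 366) (nat_lit 334) (nat_lit 4430) (.d (nat_lit 365) (nat_lit 333) (nat_lit 7501) (nat_lit 397) (nat_lit 7533)))))))))))))) (.a (.f (nat_lit 465) (nat_lit 429) (nat_lit 3501) (.f (nat_lit 494) (nat_lit 493) (nat_lit 1485) (.f (nat_lit 466) (nat_lit 495) (nat_lit 1486) (.d (nat_lit 498) (nat_lit 497) (nat_lit 462) (nat_lit 499) (nat_lit 463))))) (.p (nat_lit 461) (.a (.f (nat_lit 428) (nat_lit 429) (nat_lit 3500) (.f (nat_lit 460) (nat_lit 427) (nat_lit 3499) (.d (nat_lit 492) (nat_lit 491) (nat_lit 1483) (nat_lit 493) (nat_lit 1484)))) (.a (.f (nat_lit 492) (nat_lit 493) (nat_lit 1484) (.f (nat_lit 460) (nat_lit 491) (nat_lit 1483) (.f (nat_lit 459) (nat_lit 431) (nat_lit 2475) (.f (nat_lit 429) (nat_lit 458) (nat_lit 2474) (.f (nat_lit 397) (nat_lit 365) (nat_lit 5484) (.d (nat_lit 494) (nat_lit 495) (nat_lit 459) (nat_lit 526) (nat_lit 7565))))))) (.a (.f (nat_lit 492) (nat_lit 493) (nat_lit 1484) (.f (nat_lit 460) (nat_lit 491) (nat_lit 1483) (.f (nat_lit 459) (nat_lit 431) (nat_lit 2475) (.d (nat_lit 427) (nat_lit 426) (nat_lit 3498) (nat_lit 428) (nat_lit 3499))))) (.a (.p (nat_lit 494) (.a (.f (nat_lit 429) (nat_lit 428) (nat_lit 3500) (.d (nat_lit 526) (nat_lit 397) (nat_lit 7565) (nat_lit 558) (nat_lit 7597))) (.a (.f (nat_lit 493) (nat_lit 492) (nat_lit 1484) (.f (nat_lit 398) (nat_lit 366) (nat_lit 5485) (.f (nat_lit 527) (nat_lit 495) (nat_lit 4494) (.f (nat_lit 526) (nat_lit 559) (nat_lit 4526) (.d (nat_lit 399) (nat_lit 367) (nat_lit 6510) (nat_lit 431) (nat_lit 6542)))))) (.f (nat_lit 429) (nat_lit 428) (nat_lit 3500) (.f (nat_lit 493) (nat_lit 492) (nat_lit 1484) (.f (nat_lit 398) (nat_lit 366) (nat_lit 5485) (.f (nat_lit 397) (nat_lit 365) (nat_lit 4461) (.f (nat_lit 396) (nat_lit 364) (nat_lit 7532) (.d (nat_lit 395) (nat_lit 394) (nat_lit 394) (nat_lit 431) (nat_lit 395)))))))))) (.a (.f (nat_lit 428) (nat_lit 429) (nat_lit 3500) (.f (nat_lit 460) (nat_lit 427) (nat_lit 3499) (.f (nat_lit 459) (nat_lit 431) (nat_lit 2475) (.f (nat_lit 494) (nat_lit 495) (nat_lit 459) (.f (nat_lit 458) (nat_lit 493) (nat_lit 458) (.d (nat_lit 490) (nat_lit 489) (nat_lit 1481) (nat_lit 491) (nat_lit 1482))))))) (.f (nat_lit 428) (nat_lit 429) (nat_lit 3500) (.f (nat_lit 460) (nat_lit 427) (nat_lit 3499) (.f (nat_lit 459) (nat_lit 431) (nat_lit 2475) (.d (nat_lit 491) (nat_lit 490) (nat_lit 1482) (nat_lit 492) (nat_lit 1483))))))))))))))) (.a (.p (nat_lit 398) (.a s68310 (.a (.p (nat_lit 463) (.a (.f (nat_lit 495) (nat_lit 366) (nat_lit 4462) (.d (nat_lit 527) (nat_lit 431) (nat_lit 4527) (nat_lit 494) (nat_lit 4494))) (.a (.f (nat_lit 465) (nat_lit 429) (nat_lit 3501) (.f (nat_lit 494) (nat_lit 493) (nat_lit 1485) (.d (nat_lit 466) (nat_lit 431) (nat_lit 3502) (nat_lit 495) (nat_lit 1486)))) (.a (.f (nat_lit 465) (nat_lit 429) (nat_lit 3501) (.f (nat_lit 494) (nat_lit 493) (nat_lit 1485) (.d (nat_lit 495) (nat_lit 366) (nat_lit 4462) (nat_lit 466) (nat_lit 1486)))) (.f (nat_lit 429) (nat_lit 465) (nat_lit 3501) (.d (nat_lit 428) (nat_lit 427) (nat_lit 427) (nat_lit 461) (nat_lit 3500))))))) (.a (.p (nat_lit 429) (.a (.f (nat_lit 463) (nat_lit 465) (nat_lit 3501) (.d (nat_lit 428) (nat_lit 427) (nat_lit 427) (nat_lit 461) (nat_lit 3500))) (.a (.f (nat_lit 463) (nat_lit 465) (nat_lit 3501) (.d (nat_lit 428) (nat_lit 431) (nat_lit 428) (nat_lit 461) (nat_lit 3500))) (.a (.p (nat_lit 493) (.a (.d (nat_lit 525) (nat_lit 461) (nat_lit 6541) (nat_lit 494) (nat_lit 5517)) (.a (.f (nat_lit 494) (nat_lit 525) (nat_lit 5517) (.f (nat_lit 463) (nat_lit 465) (nat_lit 3501) (.d (nat_lit 495) (nat_lit 492) (nat_lit 2508) (nat_lit 527) (nat_lit 4494)))) (.a (.f (nat_lit 461) (nat_lit 525) (nat_lit 6541) (.d (nat_lit 463) (nat_lit 465) (nat_lit 3501) (nat_lit 492) (nat_lit 1484))) (.f (nat_lit 463) (nat_lit 465) (nat_lit 3501) (.f (nat_lit 492) (nat_lit 461) (nat_lit 1484) (.d (nat_lit 494) (nat_lit 491) (nat_lit 2507) (nat_lit 495) (nat_lit 2508)))))))) (.a (.f (nat_lit 463) (nat_lit 465) (nat_lit 3501) (.d (nat_lit 428) (nat_lit 427) (nat_lit 427) (nat_lit 431) (nat_lit 428))) (.p (nat_lit 399) (.a (.f (nat_lit 428) (nat_lit 427) (nat_lit 2443) (.d (nat_lit 400) (nat_lit 397) (nat_lit 1420) (nat_lit 401) (nat_lit 1421))) (.a (.f (nat_lit 428) (nat_lit 427) (nat_lit 2443) (.d (nat_lit 400) (nat_lit 401) (nat_lit 1421) (nat_lit 431) (nat_lit 2444))) (.f (nat_lit 367) (nat_lit 494) (nat_lit 6510) (.d (nat_lit 335) (nat_lit 303) (nat_lit 5422) (nat_lit 431) (nat_lit 5454))))))))))) (.a s68345 (.a (.p (nat_lit 366) (.a (.f (nat_lit 463) (nat_lit 495) (nat_lit 4462) (.f (nat_lit 493) (nat_lit 461) (nat_lit 5485) (.d (nat_lit 494) (nat_lit 465) (nat_lit 1485) (nat_lit 525) (nat_lit 5517)))) (.a (.f (nat_lit 367) (nat_lit 335) (nat_lit 6478) (.f (nat_lit 365) (nat_lit 333) (nat_lit 7501) (.d (nat_lit 494) (nat_lit 397) (nat_lit 7533) (nat_lit 399) (nat_lit 6510)))) (.f (nat_lit 463) (nat_lit 495) (nat_lit 4462) (.f (nat_lit 334) (nat_lit 431) (nat_lit 4430) (.d (nat_lit 335) (nat_lit 303) (nat_lit 6446) (nat_lit 367) (nat_lit 6478))))))) (.a (.p (nat_lit 366) (.a (.f (nat_lit 463) (nat_lit 495) (nat_lit 4462) (.f (nat_lit 429) (nat_lit 465) (nat_lit 3501) (.d (nat_lit 461) (nat_lit 428) (nat_lit 3500) (nat_lit 493) (nat_lit 5485)))) (.a (.f (nat_lit 463) (nat_lit 495) (nat_lit 4462) (.f (nat_lit 493) (nat_lit 461) (nat_lit 5485) (.d (nat_lit 494) (nat_lit 465) (nat_lit 1485) (nat_lit 525) (nat_lit 5517)))) (.f (nat_lit 367) (nat_lit 335) (nat_lit 6478) (.f (nat_lit 365) (nat_lit 333) (nat_lit 7501) (.d (nat_lit 494) (nat_lit 397) (nat_lit 7533) (nat_lit 399) (nat_lit 6510))))))) (.a (.p (nat_lit 463) (.a (.f (nat_lit 495) (nat_lit 366) (nat_lit 4462) (.d (nat_lit 527) (nat_lit 431) (nat_lit 4527) (nat_lit 494) (nat_lit 4494))) (.a (.f (nat_lit 465) (nat_lit 429) (nat_lit 3501) (.f (nat_lit 494) (nat_lit 493) (nat_lit 1485) (.d (nat_lit 466) (nat_lit 431) (nat_lit 3502) (nat_lit 495) (nat_lit 1486)))) (.a (.f (nat_lit 465) (nat_lit 429) (nat_lit 3501) (.f (nat_lit 494) (nat_lit 493) (nat_lit 1485) (.d (nat_lit 495) (nat_lit 366) (nat_lit 4462) (nat_lit 466) (nat_lit 1486)))) (.a (.f (nat_lit 366) (nat_lit 495) (nat_lit 4462) (.f (nat_lit 465) (nat_lit 429) (nat_lit 3501) (.d (nat_lit 431) (nat_lit 334) (nat_lit 4430) (nat_lit 466) (nat_lit 3502)))) (.f (nat_lit 465) (nat_lit 429) (nat_lit 3501) (.f (nat_lit 466) (nat_lit 431) (nat_lit 3502) (.d (nat_lit 434) (nat_lit 433) (nat_lit 2478) (nat_lit 435) (nat_lit 2479))))))))) (.a s68369 (.a (.p (nat_lit 366) (.a (.f (nat_lit 463) (nat_lit 495) (nat_lit 4462) (.f (nat_lit 334) (nat_lit 431) (nat_lit 4430) (.d (nat_lit 429) (nat_lit 461) (nat_lit 5453) (nat_lit 465) (nat_lit 3501)))) (.f (nat_lit 367) (nat_lit 335) (nat_lit 6478) (.f (nat_lit 365) (nat_lit 333) (nat_lit 7501) (.d (nat_lit 494) (nat_lit 397) (nat_lit 7533) (nat_lit 399) (nat_lit 6510)))))) s68371)))))))))) (.p (nat_lit 398) (.a s68310 (.a s68371 (.a (.p (nat_lit 366) (.a (.f (nat_lit 463) (nat_lit 495) (nat_lit 4462) (.f (nat_lit 429) (nat_lit 465) (nat_lit 3501) (.d (nat_lit 461) (nat_lit 428) (nat_lit 3500) (nat_lit 493) (nat_lit 5485)))) (.a (.f (nat_lit 463) (nat_lit 495) (nat_lit 4462) (.f (nat_lit 493) (nat_lit 461) (nat_lit 5485) (.d (nat_lit 494) (nat_lit 465) (nat_lit 1485) (nat_lit 525) (nat_lit 5517)))) (.f (nat_lit 367) (nat_lit 335) (nat_lit 6478) (.f (nat_lit 365) (nat_lit 333) (nat_lit 7501) (.d (nat_lit 494) (nat_lit 397) (nat_lit 7533) (nat_lit 399) (nat_lit 6510))))))) (.a (.p (nat_lit 463) (.a (.f (nat_lit 465) (nat_lit 429) (nat_lit 3501) (.f (nat_lit 494) (nat_lit 493) (nat_lit 1485) (.d (nat_lit 466) (nat_lit 431) (nat_lit 3502) (nat_lit 495) (nat_lit 1486)))) (.a (.f (nat_lit 366) (nat_lit 495) (nat_lit 4462) (.f (nat_lit 493) (nat_lit 461) (nat_lit 5485) (.d (nat_lit 494) (nat_lit 465) (nat_lit 1485) (nat_lit 525) (nat_lit 5517)))) (.a (.f (nat_lit 366) (nat_lit 495) (nat_lit 4462) (.f (nat_lit 461) (nat_lit 493) (nat_lit 5485) (.d (nat_lit 334) (nat_lit 429) (nat_lit 5453) (nat_lit 431) (nat_lit 4430)))) (.f (nat_lit 429) (nat_lit 465) (nat_lit 3501) (.d (nat_lit 428) (nat_lit 427) (nat_lit 427) (nat_lit 461) (nat_lit 3500))))))) (.a (.p (nat_lit 494) (.a (.f (nat_lit 397) (nat_lit 365) (nat_lit 7533) (.f (nat_lit 429) (nat_lit 526) (nat_lit 7565) (.f (nat_lit 399) (nat_lit 367) (nat_lit 6510) (.d (nat_lit 428) (nat_lit 400) (nat_lit 1420) (nat_lit 427) (nat_lit 2443))))) (.f (nat_lit 493) (nat_lit 525) (nat_lit 5517) (.f (nat_lit 463) (nat_lit 465) (nat_lit 1485) (.d (nat_lit 492) (nat_lit 491) (nat_lit 2507) (nat_lit 495) (nat_lit 2508)))))) (.a s68345 (.a (.p (nat_lit 366) (.a (.f (nat_lit 463) (nat_lit 495) (nat_lit 4462) (.f (nat_lit 493) (nat_lit 461) (nat_lit 5485) (.d (nat_lit 494) (nat_lit 465) (nat_lit 1485) (nat_lit 525) (nat_lit 5517)))) (.a (.f (nat_lit 367) (nat_lit 335) (nat_lit 6478) (.f (nat_lit 365) (nat_lit 333) (nat_lit 7501) (.d (nat_lit 494) (nat_lit 397) (nat_lit 7533) (nat_lit 399) (nat_lit 6510)))) (.f (nat_lit 463) (nat_lit 495) (nat_lit 4462) (.f (nat_lit 334) (nat_lit 431) (nat_lit 4430) (.d (nat_lit 335) (nat_lit 303) (nat_lit 6446) (nat_lit 367) (nat_lit 6478))))))) (.a s68369 (.p (nat_lit 366) (.a (.f (nat_lit 463) (nat_lit 495) (nat_lit 4462) (.f (nat_lit 334) (nat_lit 431) (nat_lit 4430) (.d (nat_lit 429) (nat_lit 461) (nat_lit 5453) (nat_lit 465) (nat_lit 3501)))) (.f (nat_lit 367) (nat_lit 335) (nat_lit 6478) (.f (nat_lit 365) (nat_lit 333) (nat_lit 7501) (.d (nat_lit 494) (nat_lit 397) (nat_lit 7533) (nat_lit 399) (nat_lit 6510))))))))))))))))))))))))))))))))))) (.a (.p (nat_lit 463) (.a s65211 (.a s65612 (.a s67361 (.a s65363 (.a s68405 (.a s68416 (.a s68430 (.a s68455 (.a s68468 (.p (nat_lit 465) (.a (.f (nat_lit 494) (nat_lit 493) (nat_lit 1485) (.f (nat_lit 466) (nat_lit 495) (nat_lit 1486) (.d (nat_lit 498) (nat_lit 497) (nat_lit 462) (nat_lit 499) (nat_lit 463)))) (.a (.f (nat_lit 493) (nat_lit 494) (nat_lit 1485) (.f (nat_lit 461) (nat_lit 492) (nat_lit 1484) (.d (nat_lit 429) (nat_lit 428) (nat_lit 3500) (nat_lit 430) (nat_lit 3501)))) (.f (nat_lit 430) (nat_lit 429) (nat_lit 3501) (.f (nat_lit 466) (nat_lit 431) (nat_lit 3502) (.d (nat_lit 498) (nat_lit 497) (nat_lit 462) (nat_lit 499) (nat_lit 463))))))))))))))))) (.a (.p (nat_lit 463) (.a s65211 (.a s65249 (.a s65363 (.a s65644 (.a s67362 (.a s68405 s68430))))))) (.a (.p (nat_lit 526) (.a s64794 (.a s64810 (.a s64974 (.a s65322 (.a s64896 (.a s65274 (.a (.p (nat_lit 463) (.a s64969 (.a s64979 (.a s65321 (.a s64996 (.a s65005 s65016)))))) (.a s65018 (.a (.p (nat_lit 494) (.a (.p (nat_lit 527) (.a (.f (nat_lit 559) (nat_lit 430) (nat_lit 4526) (.d (nat_lit 561) (nat_lit 525) (nat_lit 525) (nat_lit 562) (nat_lit 3598))) (.a (.f (nat_lit 525) (nat_lit 561) (nat_lit 525) (.f (nat_lit 493) (nat_lit 492) (nat_lit 3564) (.d (nat_lit 557) (nat_lit 556) (nat_lit 1548) (nat_lit 589) (nat_lit 6605)))) (.f (nat_lit 559) (nat_lit 430) (nat_lit 4526) (.d (nat_lit 591) (nat_lit 495) (nat_lit 7630) (nat_lit 558) (nat_lit 4558)))))) (.a (.p (nat_lit 463) (.a (.f (nat_lit 493) (nat_lit 465) (nat_lit 1485) (.d (nat_lit 492) (nat_lit 461) (nat_lit 1484) (nat_lit 491) (nat_lit 2507))) (.a (.f (nat_lit 465) (nat_lit 493) (nat_lit 1485) (.f (nat_lit 466) (nat_lit 495) (nat_lit 1486) (.d (nat_lit 498) (nat_lit 497) (nat_lit 462) (nat_lit 499) (nat_lit 463)))) (.f (nat_lit 558) (nat_lit 431) (nat_lit 6574) (.f (nat_lit 590) (nat_lit 495) (nat_lit 6606) (.d (nat_lit 589) (nat_lit 557) (nat_lit 5581) (nat_lit 621) (nat_lit 5613))))))) (.a (.p (nat_lit 430) (.a (.f (nat_lit 527) (nat_lit 559) (nat_lit 4526) (.d (nat_lit 525) (nat_lit 557) (nat_lit 5549) (nat_lit 561) (nat_lit 525))) (.a (.f (nat_lit 527) (nat_lit 559) (nat_lit 4526) (.f (nat_lit 398) (nat_lit 495) (nat_lit 4494) (.d (nat_lit 397) (nat_lit 365) (nat_lit 7533) (nat_lit 429) (nat_lit 7565)))) (.f (nat_lit 429) (nat_lit 397) (nat_lit 7565) (.f (nat_lit 463) (nat_lit 465) (nat_lit 3501) (.d (nat_lit 428) (nat_lit 427) (nat_lit 427) (nat_lit 461) (nat_lit 3500))))))) (.a (.p (nat_lit 558) (.a (.f (nat_lit 559) (nat_lit 591) (nat_lit 4558) (.f (nat_lit 527) (nat_lit 430) (nat_lit 4526) (.d (nat_lit 557) (nat_lit 556) (nat_lit 2572) (nat_lit 589) (nat_lit 5581)))) (.f (nat_lit 461) (nat_lit 429) (nat_lit 7597) (.f (nat_lit 493) (nat_lit 590) (nat_lit 7629) (.d (nat_lit 463) (nat_lit 465) (nat_lit 1485) (nat_lit 492) (nat_lit 1484)))))) s64634))))) (.a (.p (nat_lit 494) (.a (.p (nat_lit 558) (.a (.f (nat_lit 559) (nat_lit 591) (nat_lit 4558) (.f (nat_lit 527) (nat_lit 430) (nat_lit 4526) (.d (nat_lit 557) (nat_lit 556) (nat_lit 2572) (nat_lit 589) (nat_lit 5581)))) (.f (nat_lit 461) (nat_lit 429) (nat_lit 7597) (.f (nat_lit 493) (nat_lit 590) (nat_lit 7629) (.d (nat_lit 463) (nat_lit 465) (nat_lit 1485) (nat_lit 492) (nat_lit 1484)))))) (.a (.p (nat_lit 463) (.a (.f (nat_lit 493) (nat_lit 465) (nat_lit 1485) (.d (nat_lit 492) (nat_lit 461) (nat_lit 1484) (nat_lit 491) (nat_lit 2507))) (.f (nat_lit 431) (nat_lit 558) (nat_lit 6574) (.d (nat_lit 399) (nat_lit 367) (nat_lit 5486) (nat_lit 430) (nat_lit 6542))))) (.a (.p (nat_lit 463) (.a (.f (nat_lit 493) (nat_lit 465) (nat_lit 1485) (.d (nat_lit 492) (nat_lit 461) (nat_lit 1484) (nat_lit 491) (nat_lit 2507))) (.a (.f (nat_lit 465) (nat_lit 493) (nat_lit 1485) (.f (nat_lit 466) (nat_lit 495) (nat_lit 1486) (.d (nat_lit 498) (nat_lit 497) (nat_lit 462) (nat_lit 499) (nat_lit 463)))) (.f (nat_lit 558) (nat_lit 431) (nat_lit 6574) (.f (nat_lit 590) (nat_lit 495) (nat_lit 6606) (.d (nat_lit 589) (nat_lit 557) (nat_lit 5581) (nat_lit 621) (nat_lit 5613))))))) (.a (.p (nat_lit 463) (.a (.f (nat_lit 465) (nat_lit 493) (nat_lit 1485) (.f (nat_lit 430) (nat_lit 429) (nat_lit 3501) (.f (nat_lit 495) (nat_lit 466) (nat_lit 1486) (.d (nat_lit 398) (nat_lit 366) (nat_lit 4462) (nat_lit 527) (nat_lit 4494))))) (.a (.f (nat_lit 431) (nat_lit 558) (nat_lit 6574) (.d (nat_lit 399) (nat_lit 367) (nat_lit 5486) (nat_lit 430) (nat_lit 6542))) (.f (nat_lit 465) (nat_lit 493) (nat_lit 1485) (.f (nat_lit 466) (nat_lit 495) (nat_lit 1486) (.d (nat_lit 498) (nat_lit 497) (nat_lit 462) (nat_lit 499) (nat_lit 463))))))) (.a s64907 (.a s64634 (.p (nat_lit 430) (.a (.f (nat_lit 527) (nat_lit 559) (nat_lit 4526) (.f (nat_lit 398) (nat_lit 495) (nat_lit 4494) (.d (nat_lit 397) (nat_lit 365) (nat_lit 7533) (nat_lit 429) (nat_lit 7565)))) (.a (.f (nat_lit 429) (nat_lit 397) (nat_lit 7565) (.f (nat_lit 463) (nat_lit 465) (nat_lit 3501) (.d (nat_lit 428) (nat_lit 427) (nat_lit 427) (nat_lit 461) (nat_lit 3500)))) (.f (nat_lit 527) (nat_lit 559) (nat_lit 4526) (.f (nat_lit 398) (nat_lit 495) (nat_lit 4494) (.d (nat_lit 399) (nat_lit 367) (nat_lit 6510) (nat_lit 431) (nat_lit 6542)))))))))))))) (.a (.p (nat_lit 494) (.a (.p (nat_lit 558) (.a (.f (nat_lit 559) (nat_lit 591) (nat_lit 4558) (.f (nat_lit 525) (nat_lit 561) (nat_lit 3597) (.d (nat_lit 557) (nat_lit 524) (nat_lit 3596) (nat_lit 589) (nat_lit 5581)))) (.f (nat_lit 461) (nat_lit 429) (nat_lit 7597) (.f (nat_lit 493) (nat_lit 590) (nat_lit 7629) (.d (nat_lit 463) (nat_lit 465) (nat_lit 1485) (nat_lit 492) (nat_lit 1484)))))) (.a (.p (nat_lit 463) (.a (.f (nat_lit 493) (nat_lit 465) (nat_lit 1485) (.d (nat_lit 492) (nat_lit 461) (nat_lit 1484) (nat_lit 491) (nat_lit 2507))) (.f (nat_lit 558) (nat_lit 431) (nat_lit 6574) (.f (nat_lit 559) (nat_lit 591) (nat_lit 4558) (.f (nat_lit 525) (nat_lit 561) (nat_lit 3597) (.d (nat_lit 557) (nat_lit 524) (nat_lit 3596) (nat_lit 589) (nat_lit 5581))))))) (.a (.p (nat_lit 558) (.a (.f (nat_lit 559) (nat_lit 591) (nat_lit 4558) (.f (nat_lit 525) (nat_lit 561) (nat_lit 3597) (.d (nat_lit 557) (nat_lit 524) (nat_lit 3596) (nat_lit 589) (nat_lit 5581)))) (.a (.f (nat_lit 559) (nat_lit 591) (nat_lit 4558) (.f (nat_lit 561) (nat_lit 525) (nat_lit 3597) (.d (nat_lit 589) (nat_lit 557) (nat_lit 5581) (nat_lit 590) (nat_lit 1581)))) (.f (nat_lit 463) (nat_lit 431) (nat_lit 6574) (.f (nat_lit 495) (nat_lit 590) (nat_lit 6606) (.d (nat_lit 493) (nat_lit 465) (nat_lit 1485) (nat_lit 492) (nat_lit 2508))))))) (.a s64606 (.a s65060 (.a (.p (nat_lit 463) (.a (.f (nat_lit 493) (nat_lit 465) (nat_lit 1485) (.d (nat_lit 492) (nat_lit 461) (nat_lit 1484) (nat_lit 491) (nat_lit 2507))) (.f (nat_lit 431) (nat_lit 558) (nat_lit 6574) (.d (nat_lit 399) (nat_lit 367) (nat_lit 5486) (nat_lit 430) (nat_lit 6542))))) (.p (nat_lit 430) (.a (.f (nat_lit 429) (nat_lit 397) (nat_lit 7565) (.f (nat_lit 463) (nat_lit 465) (nat_lit 3501) (.d (nat_lit 428) (nat_lit 427) (nat_lit 427) (nat_lit 461) (nat_lit 3500)))) (.f (nat_lit 525) (nat_lit 557) (nat_lit 5549) (.f (nat_lit 398) (nat_lit 493) (nat_lit 5517) (.d (nat_lit 399) (nat_lit 367) (nat_lit 6510) (nat_lit 431) (nat_lit 6542))))))))))))) (.a (.p (nat_lit 463) (.a (.p (nat_lit 494) (.a (.f (nat_lit 558) (nat_lit 431) (nat_lit 6574) (.f (nat_lit 559) (nat_lit 591) (nat_lit 4558) (.f (nat_lit 527) (nat_lit 430) (nat_lit 4526) (.d (nat_lit 561) (nat_lit 525) (nat_lit 3597) (nat_lit 562) (nat_lit 3598))))) (.a (.f (nat_lit 558) (nat_lit 431) (nat_lit 6574) (.f (nat_lit 493) (nat_lit 465) (nat_lit 1485) (.d (nat_lit 461) (nat_lit 429) (nat_lit 7597) (nat_lit 492) (nat_lit 1484)))) (.f (nat_lit 493) (nat_lit 465) (nat_lit 1485) (.d (nat_lit 492) (nat_lit 461) (nat_lit 1484) (nat_lit 491) (nat_lit 2507)))))) (.a (.p (nat_lit 494) (.a (.f (nat_lit 558) (nat_lit 431) (nat_lit 6574) (.f (nat_lit 559) (nat_lit 591) (nat_lit 4558) (.f (nat_lit 527) (nat_lit 430) (nat_lit 4526) (.d (nat_lit 561) (nat_lit 525) (nat_lit 3597) (nat_lit 562) (nat_lit 3598))))) (.f (nat_lit 493) (nat_lit 465) (nat_lit 1485) (.d (nat_lit 492) (nat_lit 461) (nat_lit 1484) (nat_lit 491) (nat_lit 2507))))) (.a s65315 (.a (.p (nat_lit 494) (.a (.f (nat_lit 558) (nat_lit 431) (nat_lit 6574) (.f (nat_lit 559) (nat_lit 591) (nat_lit 4558) (.f (nat_lit 527) (nat_lit 430) (nat_lit 4526) (.d (nat_lit 561) (nat_lit 525) (nat_lit 3597) (nat_lit 562) (nat_lit 3598))))) (.f (nat_lit 465) (nat_lit 493) (nat_lit 1485) (.f (nat_lit 466) (nat_lit 495) (nat_lit 1486) (.d (nat_lit 498) (nat_lit 497) (nat_lit 462) (nat_lit 499) (nat_lit 463)))))) (.a (.p (nat_lit 527) (.a (.f (nat_lit 495) (nat_lit 431) (nat_lit 4527) (.d (nat_lit 559) (nat_lit 430) (nat_lit 7598) (nat_lit 432) (nat_lit 6575))) (.a (.f (nat_lit 495) (nat_lit 431) (nat_lit 4527) (.f (nat_lit 559) (nat_lit 432) (nat_lit 6575) (.d (nat_lit 525) (nat_lit 524) (nat_lit 524) (nat_lit 561) (nat_lit 525)))) (.a (.f (nat_lit 525) (nat_lit 561) (nat_lit 525) (.f (nat_lit 559) (nat_lit 524) (nat_lit 524) (.d (nat_lit 495) (nat_lit 430) (nat_lit 7598) (nat_lit 432) (nat_lit 6575)))) (.a (.f (nat_lit 495) (nat_lit 431) (nat_lit 4527) (.f (nat_lit 559) (nat_lit 430) (nat_lit 7598) (.d (nat_lit 525) (nat_lit 524) (nat_lit 524) (nat_lit 561) (nat_lit 525)))) (.a (.f (nat_lit 525) (nat_lit 561) (nat_lit 525) (.f (nat_lit 559) (nat_lit 524) (nat_lit 524) (.f (nat_lit 494) (nat_lit 430) (nat_lit 4526) (.d (nat_lit 591) (nat_lit 558) (nat_lit 4558) (nat_lit 623) (nat_lit 7662))))) (.f (nat_lit 431) (nat_lit 495) (nat_lit 4527) (.f (nat_lit 494) (nat_lit 558) (nat_lit 6574) (.d (nat_lit 399) (nat_lit 367) (nat_lit 5486) (nat_lit 430) (nat_lit 6542)))))))))) s65016)))))) (.a (.p (nat_lit 463) (.a s64791 (.a s64802 (.a s64979 (.a s65315 (.a s65005 (.a s64938 s65016))))))) (.a (.p (nat_lit 463) (.a s64790 (.a (.p (nat_lit 465) (.a (.f (nat_lit 494) (nat_lit 493) (nat_lit 1485) (.f (nat_lit 466) (nat_lit 495) (nat_lit 1486) (.d (nat_lit 498) (nat_lit 497) (nat_lit 462) (nat_lit 499) (nat_lit 463)))) (.f (nat_lit 433) (nat_lit 434) (nat_lit 2478) (.f (nat_lit 461) (nat_lit 432) (nat_lit 2477) (.d (nat_lit 429) (nat_lit 428) (nat_lit 3500) (nat_lit 430) (nat_lit 3501)))))) (.a (.p (nat_lit 494) (.a (.f (nat_lit 493) (nat_lit 465) (nat_lit 1485) (.d (nat_lit 492) (nat_lit 461) (nat_lit 1484) (nat_lit 491) (nat_lit 2507))) (.f (nat_lit 431) (nat_lit 558) (nat_lit 6574) (.d (nat_lit 399) (nat_lit 367) (nat_lit 5486) (nat_lit 430) (nat_lit 6542))))) (.a s64881 (.a s65045 (.a (.p (nat_lit 431) (.a (.f (nat_lit 494) (nat_lit 558) (nat_lit 6574) (.d (nat_lit 399) (nat_lit 367) (nat_lit 5486) (nat_lit 430) (nat_lit 6542))) (.a (.f (nat_lit 495) (nat_lit 527) (nat_lit 4527) (.d (nat_lit 494) (nat_lit 399) (nat_lit 5518) (nat_lit 558) (nat_lit 6574))) (.a (.f (nat_lit 527) (nat_lit 495) (nat_lit 4527) (.f (nat_lit 525) (nat_lit 561) (nat_lit 525) (.f (nat_lit 494) (nat_lit 558) (nat_lit 6574) (.d (nat_lit 557) (nat_lit 430) (nat_lit 5549) (nat_lit 556) (nat_lit 1548))))) (.a (.f (nat_lit 527) (nat_lit 495) (nat_lit 4527) (.f (nat_lit 525) (nat_lit 561) (nat_lit 525) (.f (nat_lit 493) (nat_lit 492) (nat_lit 3564) (.f (nat_lit 557) (nat_lit 556) (nat_lit 1548) (.f (nat_lit 461) (nat_lit 430) (nat_lit 6573) (.d (nat_lit 429) (nat_lit 428) (nat_lit 3500) (nat_lit 558) (nat_lit 4525))))))) (.f (nat_lit 495) (nat_lit 527) (nat_lit 4527) (.f (nat_lit 399) (nat_lit 494) (nat_lit 5518) (.f (nat_lit 366) (nat_lit 398) (nat_lit 7534) (.f (nat_lit 367) (nat_lit 334) (nat_lit 7502) (.d (nat_lit 368) (nat_lit 336) (nat_lit 6479) (nat_lit 400) (nat_lit 6511))))))))))) (.a s64973 s65016)))))))) (.p (nat_lit 494) (.a (.p (nat_lit 558) (.a (.f (nat_lit 559) (nat_lit 591) (nat_lit 4558) (.f (nat_lit 527) (nat_lit 430) (nat_lit 4526) (.d (nat_lit 557) (nat_lit 556) (nat_lit 2572) (nat_lit 589) (nat_lit 5581)))) (.f (nat_lit 461) (nat_lit 429) (nat_lit 7597) (.f (nat_lit 493) (nat_lit 590) (nat_lit 7629) (.d (nat_lit 463) (nat_lit 465) (nat_lit 1485) (nat_lit 492) (nat_lit 1484)))))) (.a (.p (nat_lit 463) (.a (.f (nat_lit 493) (nat_lit 465) (nat_lit 1485) (.d (nat_lit 492) (nat_lit 461) (nat_lit 1484) (nat_lit 491) (nat_lit 2507))) (.f (nat_lit 431) (nat_lit 558) (nat_lit 6574) (.d (nat_lit 399) (nat_lit 367) (nat_lit 5486) (nat_lit 430) (nat_lit 6542))))) (.a (.p (nat_lit 463) (.a (.f (nat_lit 493) (nat_lit 465) (nat_lit 1485) (.d (nat_lit 492) (nat_lit 461) (nat_lit 1484) (nat_lit 491) (nat_lit 2507))) (.a (.f (nat_lit 465) (nat_lit 493) (nat_lit 1485) (.f (nat_lit 466) (nat_lit 495) (nat_lit 1486) (.d (nat_lit 498) (nat_lit 497) (nat_lit 462) (nat_lit 499) (nat_lit 463)))) (.f (nat_lit 558) (nat_lit 431) (nat_lit 6574) (.f (nat_lit 590) (nat_lit 495) (nat_lit 6606) (.d (nat_lit 589) (nat_lit 557) (nat_lit 5581) (nat_lit 621) (nat_lit 5613))))))) (.a (.p (nat_lit 463) (.a (.f (nat_lit 465) (nat_lit 493) (nat_lit 1485) (.f (nat_lit 430) (nat_lit 429) (nat_lit 3501) (.f (nat_lit 495) (nat_lit 466) (nat_lit 1486) (.d (nat_lit 398) (nat_lit 366) (nat_lit 4462) (nat_lit 527) (nat_lit 4494))))) (.a (.f (nat_lit 431) (nat_lit 558) (nat_lit 6574) (.d (nat_lit 399) (nat_lit 367) (nat_lit 5486) (nat_lit 430) (nat_lit 6542))) (.f (nat_lit 465) (nat_lit 493) (nat_lit 1485) (.f (nat_lit 466) (nat_lit 495) (nat_lit 1486) (.d (nat_lit 498) (nat_lit 497) (nat_lit 462) (nat_lit 499) (nat_lit 463))))))) (.a s65273 (.a s64634 (.p (nat_lit 430) (.a (.f (nat_lit 527) (nat_lit 559) (nat_lit 4526) (.f (nat_lit 398) (nat_lit 495) (nat_lit 4494) (.d (nat_lit 397) (nat_lit 365) (nat_lit 7533) (nat_lit 429) (nat_lit 7565)))) (.a (.f (nat_lit 429) (nat_lit 397) (nat_lit 7565) (.f (nat_lit 463) (nat_lit 465) (nat_lit 3501) (.d (nat_lit 428) (nat_lit 427) (nat_lit 427) (nat_lit 461) (nat_lit 3500)))) (.f (nat_lit 527) (nat_lit 559) (nat_lit 4526) (.f (nat_lit 398) (nat_lit 495) (nat_lit 4494) (.d (nat_lit 399) (nat_lit 367) (nat_lit 6510) (nat_lit 431) (nat_lit 6542))))))))))))))))))))))))))))) (.a (.p (nat_lit 463) (.a s65228 (.a s65511 (.a s67391 (.a (.p (nat_lit 465) (.a (.f (nat_lit 430) (nat_lit 429) (nat_lit 3501) (.f (nat_lit 466) (nat_lit 431) (nat_lit 3502) (.d (nat_lit 434) (nat_lit 433) (nat_lit 2478) (nat_lit 435) (nat_lit 2479)))) (.a (.f (nat_lit 494) (nat_lit 493) (nat_lit 1485) (.f (nat_lit 466) (nat_lit 495) (nat_lit 1486) (.d (nat_lit 498) (nat_lit 497) (nat_lit 462) (nat_lit 499) (nat_lit 463)))) (.p (nat_lit 527) (.a (.f (nat_lit 495) (nat_lit 431) (nat_lit 4527) (.d (nat_lit 430) (nat_lit 429) (nat_lit 3501) (nat_lit 559) (nat_lit 7598))) (.a (.f (nat_lit 495) (nat_lit 431) (nat_lit 4527) (.f (nat_lit 494) (nat_lit 493) (nat_lit 1485) (.d (nat_lit 559) (nat_lit 430) (nat_lit 7598) (nat_lit 591) (nat_lit 7630)))) (.a (.f (nat_lit 494) (nat_lit 493) (nat_lit 1485) (.f (nat_lit 431) (nat_lit 495) (nat_lit 4527) (.f (nat_lit 526) (nat_lit 558) (nat_lit 6574) (.f (nat_lit 525) (nat_lit 561) (nat_lit 525) (.f (nat_lit 524) (nat_lit 559) (nat_lit 524) (.d (nat_lit 556) (nat_lit 555) (nat_lit 1547) (nat_lit 557) (nat_lit 1548))))))) (.a (.f (nat_lit 494) (nat_lit 493) (nat_lit 1485) (.f (nat_lit 430) (nat_lit 429) (nat_lit 3501) (.f (nat_lit 526) (nat_lit 559) (nat_lit 4526) (.d (nat_lit 525) (nat_lit 557) (nat_lit 5549) (nat_lit 561) (nat_lit 525))))) (.f (nat_lit 494) (nat_lit 493) (nat_lit 1485) (.f (nat_lit 430) (nat_lit 429) (nat_lit 3501) (.d (nat_lit 495) (nat_lit 398) (nat_lit 4494) (nat_lit 431) (nat_lit 4527)))))))))))) (.a s68523 (.a s65363 (.a s68530 (.a s68548 (.a s68576 (.a s68590 s68601))))))))))) (.a s80449 (.a (.p (nat_lit 463) (.a s65249 (.a s65707 (.a s65409 (.a s67413 (.a (.p (nat_lit 494) (.a s67560 (.a (.p (nat_lit 461) (.a (.f (nat_lit 493) (nat_lit 492) (nat_lit 1484) (.f (nat_lit 429) (nat_lit 428) (nat_lit 3500) (.d (nat_lit 526) (nat_lit 397) (nat_lit 4493) (nat_lit 558) (nat_lit 7597)))) (.a (.f (nat_lit 493) (nat_lit 492) (nat_lit 1484) (.f (nat_lit 428) (nat_lit 429) (nat_lit 3500) (.f (nat_lit 460) (nat_lit 427) (nat_lit 3499) (.d (nat_lit 459) (nat_lit 458) (nat_lit 458) (nat_lit 495) (nat_lit 459))))) (.a s67551 (.a (.f (nat_lit 492) (nat_lit 493) (nat_lit 1484) (.f (nat_lit 460) (nat_lit 491) (nat_lit 1483) (.f (nat_lit 459) (nat_lit 495) (nat_lit 459) (.d (nat_lit 427) (nat_lit 426) (nat_lit 3498) (nat_lit 428) (nat_lit 3499))))) (.a (.f (nat_lit 428) (nat_lit 429) (nat_lit 3500) (.f (nat_lit 460) (nat_lit 427) (nat_lit 3499) (.f (nat_lit 459) (nat_lit 495) (nat_lit 459) (.f (nat_lit 458) (nat_lit 493) (nat_lit 458) (.d (nat_lit 490) (nat_lit 489) (nat_lit 1481) (nat_lit 491) (nat_lit 1482)))))) (.f (nat_lit 428) (nat_lit 429) (nat_lit 3500) (.f (nat_lit 460) (nat_lit 427) (nat_lit 3499) (.f (nat_lit 491) (nat_lit 492) (nat_lit 1483) (.d (nat_lit 459) (nat_lit 490) (nat_lit 1482) (nat_lit 495) (nat_lit 459))))))))))) (.a (.p (nat_lit 461) (.a (.f (nat_lit 493) (nat_lit 492) (nat_lit 1484) (.f (nat_lit 428) (nat_lit 429) (nat_lit 3500) (.f (nat_lit 460) (nat_lit 427) (nat_lit 3499) (.d (nat_lit 459) (nat_lit 458) (nat_lit 458) (nat_lit 495) (nat_lit 459))))) (.a s67551 (.a (.f (nat_lit 492) (nat_lit 493) (nat_lit 1484) (.f (nat_lit 460) (nat_lit 491) (nat_lit 1483) (.f (nat_lit 459) (nat_lit 495) (nat_lit 459) (.d (nat_lit 427) (nat_lit 426) (nat_lit 3498) (nat_lit 428) (nat_lit 3499))))) (.a (.f (nat_lit 492) (nat_lit 493) (nat_lit 1484) (.f (nat_lit 428) (nat_lit 429) (nat_lit 3500) (.d (nat_lit 460) (nat_lit 427) (nat_lit 3499) (nat_lit 491) (nat_lit 1483)))) (.a (.p (nat_lit 430) (.a (.f (nat_lit 493) (nat_lit 492) (nat_lit 1484) (.d (nat_lit 525) (nat_lit 398) (nat_lit 5517) (nat_lit 557) (nat_lit 6573))) (.a (.f (nat_lit 493) (nat_lit 492) (nat_lit 1484) (.f (nat_lit 525) (nat_lit 557) (nat_lit 6573) (.f (nat_lit 429) (nat_lit 428) (nat_lit 3500) (.f (nat_lit 526) (nat_lit 558) (nat_lit 7597) (.d (nat_lit 527) (nat_lit 559) (nat_lit 4526) (nat_lit 561) (nat_lit 525)))))) (.a (.f (nat_lit 429) (nat_lit 428) (nat_lit 3500) (.f (nat_lit 526) (nat_lit 558) (nat_lit 7597) (.f (nat_lit 525) (nat_lit 557) (nat_lit 5549) (.d (nat_lit 527) (nat_lit 559) (nat_lit 4526) (nat_lit 561) (nat_lit 525))))) (.f (nat_lit 493) (nat_lit 492) (nat_lit 1484) (.f (nat_lit 398) (nat_lit 366) (nat_lit 5485) (.f (nat_lit 429) (nat_lit 428) (nat_lit 3500) (.f (nat_lit 526) (nat_lit 558) (nat_lit 7597) (.d (nat_lit 527) (nat_lit 495) (nat_lit 4494) (nat_lit 559) (nat_lit 4526)))))))))) (.a (.f (nat_lit 428) (nat_lit 429) (nat_lit 3500) (.f (nat_lit 460) (nat_lit 427) (nat_lit 3499) (.f (nat_lit 459) (nat_lit 495) (nat_lit 459) (.f (nat_lit 458) (nat_lit 493) (nat_lit 458) (.d (nat_lit 490) (nat_lit 489) (nat_lit 1481) (nat_lit 491) (nat_lit 1482)))))) (.f (nat_lit 428) (nat_lit 429) (nat_lit 3500) (.f (nat_lit 460) (nat_lit 427) (nat_lit 3499) (.f (nat_lit 491) (nat_lit 492) (nat_lit 1483) (.d (nat_lit 459) (nat_lit 490) (nat_lit 1482) (nat_lit 495) (nat_lit 459)))))))))))) (.a s67707 (.a (.p (nat_lit 461) (.a (.f (nat_lit 493) (nat_lit 492) (nat_lit 1484) (.f (nat_lit 429) (nat_lit 428) (nat_lit 3500) (.d (nat_lit 397) (nat_lit 365) (nat_lit 4461) (nat_lit 526) (nat_lit 4493)))) (.a (.f (nat_lit 493) (nat_lit 492) (nat_lit 1484) (.f (nat_lit 429) (nat_lit 428) (nat_lit 3500) (.d (nat_lit 526) (nat_lit 397) (nat_lit 4493) (nat_lit 558) (nat_lit 7597)))) (.a s67551 (.a (.p (nat_lit 460) (.a (.d (nat_lit 492) (nat_lit 491) (nat_lit 1483) (nat_lit 493) (nat_lit 1484)) (.a (.f (nat_lit 493) (nat_lit 492) (nat_lit 1484) (.d (nat_lit 459) (nat_lit 458) (nat_lit 458) (nat_lit 495) (nat_lit 459))) (.a (.f (nat_lit 459) (nat_lit 495) (nat_lit 459) (.f (nat_lit 458) (nat_lit 493) (nat_lit 458) (.d (nat_lit 490) (nat_lit 489) (nat_lit 1481) (nat_lit 491) (nat_lit 1482)))) (.f (nat_lit 459) (nat_lit 495) (nat_lit 459) (.d (nat_lit 491) (nat_lit 490) (nat_lit 1482) (nat_lit 492) (nat_lit 1483))))))) (.a (.f (nat_lit 429) (nat_lit 428) (nat_lit 3500) (.f (nat_lit 526) (nat_lit 558) (nat_lit 7597) (.d (nat_lit 397) (nat_lit 365) (nat_lit 4461) (nat_lit 493) (nat_lit 4493)))) (.f (nat_lit 429) (nat_lit 428) (nat_lit 3500) (.f (nat_lit 526) (nat_lit 558) (nat_lit 7597) (.d (nat_lit 397) (nat_lit 365) (nat_lit 4461) (nat_lit 430) (nat_lit 7565)))))))))) (.a (.p (nat_lit 526) (.a s67368 (.a (.p (nat_lit 558) (.a (.f (nat_lit 559) (nat_lit 591) (nat_lit 4558) (.f (nat_lit 525) (nat_lit 561) (nat_lit 3597) (.d (nat_lit 557) (nat_lit 524) (nat_lit 3596) (nat_lit 589) (nat_lit 5581)))) (.a (.f (nat_lit 559) (nat_lit 591) (nat_lit 4558) (.f (nat_lit 561) (nat_lit 525) (nat_lit 3597) (.d (nat_lit 589) (nat_lit 557) (nat_lit 5581) (nat_lit 590) (nat_lit 1581)))) (.f (nat_lit 461) (nat_lit 429) (nat_lit 7597) (.d (nat_lit 493) (nat_lit 492) (nat_lit 1484) (nat_lit 590) (nat_lit 7629)))))) (.a (.p (nat_lit 558) (.a (.f (nat_lit 559) (nat_lit 591) (nat_lit 4558) (.f (nat_lit 561) (nat_lit 525) (nat_lit 3597) (.d (nat_lit 590) (nat_lit 495) (nat_lit 6606) (nat_lit 589) (nat_lit 1581)))) (.a (.f (nat_lit 559) (nat_lit 591) (nat_lit 4558) (.f (nat_lit 561) (nat_lit 525) (nat_lit 3597) (.d (nat_lit 589) (nat_lit 557) (nat_lit 5581) (nat_lit 590) (nat_lit 1581)))) (.a (.f (nat_lit 590) (nat_lit 495) (nat_lit 6606) (.d (nat_lit 589) (nat_lit 557) (nat_lit 5581) (nat_lit 621) (nat_lit 5613))) (.a (.f (nat_lit 461) (nat_lit 429) (nat_lit 7597) (.d (nat_lit 493) (nat_lit 492) (nat_lit 1484) (nat_lit 590) (nat_lit 7629))) (.f (nat_lit 559) (nat_lit 591) (nat_lit 4558) (.f (nat_lit 527) (nat_lit 430) (nat_lit 4526) (.d (nat_lit 561) (nat_lit 525) (nat_lit 3597) (nat_lit 562) (nat_lit 3598))))))))) (.a (.p (nat_lit 558) (.a (.f (nat_lit 590) (nat_lit 495) (nat_lit 6606) (.d (nat_lit 589) (nat_lit 557) (nat_lit 5581) (nat_lit 621) (nat_lit 5613))) (.a (.f (nat_lit 461) (nat_lit 429) (nat_lit 7597) (.d (nat_lit 493) (nat_lit 492) (nat_lit 1484) (nat_lit 590) (nat_lit 7629))) (.f (nat_lit 559) (nat_lit 591) (nat_lit 4558) (.f (nat_lit 527) (nat_lit 430) (nat_lit 4526) (.d (nat_lit 557) (nat_lit 556) (nat_lit 2572) (nat_lit 589) (nat_lit 5581))))))) (.a (.p (nat_lit 527) (.a (.f (nat_lit 559) (nat_lit 430) (nat_lit 4526) (.d (nat_lit 591) (nat_lit 558) (nat_lit 4558) (nat_lit 623) (nat_lit 7662))) (.a (.f (nat_lit 525) (nat_lit 561) (nat_lit 525) (.f (nat_lit 559) (nat_lit 524) (nat_lit 524) (.d (nat_lit 591) (nat_lit 495) (nat_lit 7630) (nat_lit 558) (nat_lit 4558)))) (.a (.f (nat_lit 559) (nat_lit 430) (nat_lit 4526) (.d (nat_lit 561) (nat_lit 525) (nat_lit 525) (nat_lit 562) (nat_lit 3598))) (.f (nat_lit 525) (nat_lit 561) (nat_lit 525) (.f (nat_lit 493) (nat_lit 492) (nat_lit 3564) (.f (nat_lit 430) (nat_lit 398) (nat_lit 5517) (.f (nat_lit 429) (nat_lit 397) (nat_lit 7565) (.f (nat_lit 461) (nat_lit 558) (nat_lit 4525) (.f (nat_lit 524) (nat_lit 556) (nat_lit 5548) (.d (nat_lit 523) (nat_lit 495) (nat_lit 2539) (nat_lit 522) (nat_lit 2538)))))))))))) (.a (.p (nat_lit 527) (.a (.f (nat_lit 525) (nat_lit 561) (nat_lit 525) (.f (nat_lit 493) (nat_lit 492) (nat_lit 3564) (.d (nat_lit 557) (nat_lit 556) (nat_lit 1548) (nat_lit 589) (nat_lit 6605)))) (.a (.f (nat_lit 525) (nat_lit 561) (nat_lit 525) (.f (nat_lit 524) (nat_lit 559) (nat_lit 524) (.d (nat_lit 556) (nat_lit 555) (nat_lit 1547) (nat_lit 557) (nat_lit 1548)))) (.f (nat_lit 559) (nat_lit 430) (nat_lit 4526) (.d (nat_lit 591) (nat_lit 495) (nat_lit 7630) (nat_lit 623) (nat_lit 7662)))))) (.p (nat_lit 525) (.a (.f (nat_lit 557) (nat_lit 430) (nat_lit 5549) (.d (nat_lit 527) (nat_lit 556) (nat_lit 1548) (nat_lit 561) (nat_lit 525))) (.a (.f (nat_lit 527) (nat_lit 561) (nat_lit 525) (.f (nat_lit 493) (nat_lit 492) (nat_lit 3564) (.d (nat_lit 557) (nat_lit 556) (nat_lit 1548) (nat_lit 589) (nat_lit 6605)))) (.a (.f (nat_lit 557) (nat_lit 430) (nat_lit 5549) (.d (nat_lit 589) (nat_lit 493) (nat_lit 6605) (nat_lit 558) (nat_lit 5581))) (.f (nat_lit 527) (nat_lit 561) (nat_lit 525) (.f (nat_lit 493) (nat_lit 492) (nat_lit 3564) (.f (nat_lit 430) (nat_lit 398) (nat_lit 5517) (.f (nat_lit 429) (nat_lit 397) (nat_lit 7565) (.f (nat_lit 461) (nat_lit 558) (nat_lit 4525) (.f (nat_lit 524) (nat_lit 556) (nat_lit 5548) (.d (nat_lit 523) (nat_lit 495) (nat_lit 2539) (nat_lit 522) (nat_lit 2538))))))))))))))))))) (.a (.p (nat_lit 526) (.a s67368 (.a (.p (nat_lit 525) (.a (.f (nat_lit 557) (nat_lit 430) (nat_lit 5549) (.d (nat_lit 527) (nat_lit 556) (nat_lit 1548) (nat_lit 561) (nat_lit 525))) (.a (.f (nat_lit 527) (nat_lit 561) (nat_lit 525) (.f (nat_lit 493) (nat_lit 492) (nat_lit 3564) (.d (nat_lit 557) (nat_lit 556) (nat_lit 1548) (nat_lit 589) (nat_lit 6605)))) (.a (.f (nat_lit 557) (nat_lit 430) (nat_lit 5549) (.d (nat_lit 589) (nat_lit 493) (nat_lit 6605) (nat_lit 558) (nat_lit 5581))) (.f (nat_lit 527) (nat_lit 561) (nat_lit 525) (.d (nat_lit 559) (nat_lit 430) (nat_lit 4526) (nat_lit 524) (nat_lit 524))))))) (.a (.p (nat_lit 527) (.a (.f (nat_lit 559) (nat_lit 430) (nat_lit 4526) (.d (nat_lit 591) (nat_lit 558) (nat_lit 4558) (nat_lit 623) (nat_lit 7662))) (.f (nat_lit 525) (nat_lit 561) (nat_lit 525) (.f (nat_lit 493) (nat_lit 492) (nat_lit 3564) (.d (nat_lit 557) (nat_lit 556) (nat_lit 1548) (nat_lit 589) (nat_lit 6605)))))) (.a (.p (nat_lit 558) (.a (.f (nat_lit 590) (nat_lit 495) (nat_lit 6606) (.d (nat_lit 589) (nat_lit 557) (nat_lit 5581) (nat_lit 621) (nat_lit 5613))) (.a (.f (nat_lit 559) (nat_lit 591) (nat_lit 4558) (.f (nat_lit 527) (nat_lit 430) (nat_lit 4526) (.d (nat_lit 557) (nat_lit 556) (nat_lit 2572) (nat_lit 589) (nat_lit 5581)))) (.f (nat_lit 590) (nat_lit 495) (nat_lit 6606) (.d (nat_lit 591) (nat_lit 559) (nat_lit 4558) (nat_lit 623) (nat_lit 4590)))))) (.a (.p (nat_lit 527) (.a (.f (nat_lit 559) (nat_lit 430) (nat_lit 4526) (.d (nat_lit 591) (nat_lit 558) (nat_lit 4558) (nat_lit 623) (nat_lit 7662))) (.a (.f (nat_lit 525) (nat_lit 561) (nat_lit 525) (.f (nat_lit 559) (nat_lit 524) (nat_lit 524) (.d (nat_lit 591) (nat_lit 495) (nat_lit 7630) (nat_lit 558) (nat_lit 4558)))) (.a (.f (nat_lit 559) (nat_lit 430) (nat_lit 4526) (.d (nat_lit 561) (nat_lit 525) (nat_lit 525) (nat_lit 562) (nat_lit 3598))) (.f (nat_lit 525) (nat_lit 561) (nat_lit 525) (.f (nat_lit 492) (nat_lit 493) (nat_lit 3564) (.f (nat_lit 524) (nat_lit 491) (nat_lit 3563) (.f (nat_lit 523) (nat_lit 495) (nat_lit 2539) (.d (nat_lit 555) (nat_lit 554) (nat_lit 1546) (nat_lit 556) (nat_lit 1547)))))))))) (.a (.p (nat_lit 527) (.a (.f (nat_lit 525) (nat_lit 561) (nat_lit 525) (.f (nat_lit 493) (nat_lit 492) (nat_lit 3564) (.d (nat_lit 557) (nat_lit 556) (nat_lit 1548) (nat_lit 589) (nat_lit 6605)))) (.a (.f (nat_lit 525) (nat_lit 561) (nat_lit 525) (.f (nat_lit 524) (nat_lit 559) (nat_lit 524) (.d (nat_lit 556) (nat_lit 555) (nat_lit 1547) (nat_lit 557) (nat_lit 1548)))) (.f (nat_lit 559) (nat_lit 430) (nat_lit 4526) (.d (nat_lit 591) (nat_lit 495) (nat_lit 7630) (nat_lit 623) (nat_lit 7662)))))) (.p (nat_lit 525) (.a (.f (nat_lit 557) (nat_lit 430) (nat_lit 5549) (.d (nat_lit 527) (nat_lit 556) (nat_lit 1548) (nat_lit 561) (nat_lit 525))) (.a (.f (nat_lit 527) (nat_lit 561) (nat_lit 525) (.f (nat_lit 493) (nat_lit 492) (nat_lit 3564) (.d (nat_lit 557) (nat_lit 556) (nat_lit 1548) (nat_lit 589) (nat_lit 6605)))) (.a (.f (nat_lit 557) (nat_lit 430) (nat_lit 5549) (.d (nat_lit 589) (nat_lit 493) (nat_lit 6605) (nat_lit 558) (nat_lit 5581))) (.f (nat_lit 527) (nat_lit 561) (nat_lit 525) (.f (nat_lit 492) (nat_lit 493) (nat_lit 3564) (.f (nat_lit 524) (nat_lit 491) (nat_lit 3563) (.f (nat_lit 523) (nat_lit 495) (nat_lit 2539) (.d (nat_lit 555) (nat_lit 554) (nat_lit 1546) (nat_lit 556) (nat_lit 1547))))))))))))))))) (.a (.p (nat_lit 526) (.a s67368 (.a s80522 (.a (.p (nat_lit 558) (.a (.f (nat_lit 590) (nat_lit 495) (nat_lit 6606) (.d (nat_lit 589) (nat_lit 557) (nat_lit 5581) (nat_lit 621) (nat_lit 5613))) (.a (.f (nat_lit 559) (nat_lit 591) (nat_lit 4558) (.f (nat_lit 527) (nat_lit 430) (nat_lit 4526) (.d (nat_lit 557) (nat_lit 556) (nat_lit 2572) (nat_lit 589) (nat_lit 5581)))) (.f (nat_lit 590) (nat_lit 495) (nat_lit 6606) (.d (nat_lit 591) (nat_lit 559) (nat_lit 4558) (nat_lit 623) (nat_lit 4590)))))) (.a (.p (nat_lit 558) (.a (.f (nat_lit 559) (nat_lit 591) (nat_lit 4558) (.f (nat_lit 561) (nat_lit 525) (nat_lit 3597) (.d (nat_lit 590) (nat_lit 495) (nat_lit 6606) (nat_lit 589) (nat_lit 1581)))) (.a (.f (nat_lit 559) (nat_lit 591) (nat_lit 4558) (.f (nat_lit 527) (nat_lit 430) (nat_lit 4526) (.d (nat_lit 561) (nat_lit 525) (nat_lit 3597) (nat_lit 562) (nat_lit 3598)))) (.a (.f (nat_lit 590) (nat_lit 495) (nat_lit 6606) (.d (nat_lit 591) (nat_lit 559) (nat_lit 4558) (nat_lit 623) (nat_lit 4590))) (.f (nat_lit 461) (nat_lit 429) (nat_lit 7597) (.d (nat_lit 590) (nat_lit 493) (nat_lit 7629) (nat_lit 495) (nat_lit 6606))))))) (.a (.p (nat_lit 430) (.a (.f (nat_lit 527) (nat_lit 559) (nat_lit 4526) (.d (nat_lit 525) (nat_lit 557) (nat_lit 5549) (nat_lit 561) (nat_lit 525))) (.a (.f (nat_lit 527) (nat_lit 559) (nat_lit 4526) (.f (nat_lit 398) (nat_lit 495) (nat_lit 4494) (.d (nat_lit 397) (nat_lit 365) (nat_lit 7533) (nat_lit 429) (nat_lit 7565)))) (.f (nat_lit 429) (nat_lit 397) (nat_lit 7565) (.d (nat_lit 428) (nat_lit 427) (nat_lit 427) (nat_lit 461) (nat_lit 3500)))))) (.p (nat_lit 558) (.a (.f (nat_lit 590) (nat_lit 495) (nat_lit 6606) (.d (nat_lit 589) (nat_lit 557) (nat_lit 5581) (nat_lit 621) (nat_lit 5613))) (.a (.f (nat_lit 461) (nat_lit 429) (nat_lit 7597) (.f (nat_lit 590) (nat_lit 493) (nat_lit 7629) (.d (nat_lit 589) (nat_lit 557) (nat_lit 5581) (nat_lit 621) (nat_lit 5613)))) (.a (.f (nat_lit 461) (nat_lit 429) (nat_lit 7597) (.d (nat_lit 590) (nat_lit 493) (nat_lit 7629) (nat_lit 495) (nat_lit 6606))) (.f (nat_lit 557) (nat_lit 589) (nat_lit 5581) (.f (nat_lit 525) (nat_lit 430) (nat_lit 5549) (.d (nat_lit 527) (nat_lit 556) (nat_lit 1548) (nat_lit 561) (nat_lit 525)))))))))))))) (.a (.p (nat_lit 526) (.a s67368 (.a s80535 (.a (.p (nat_lit 558) (.a (.f (nat_lit 590) (nat_lit 495) (nat_lit 6606) (.d (nat_lit 589) (nat_lit 557) (nat_lit 5581) (nat_lit 621) (nat_lit 5613))) (.a (.f (nat_lit 559) (nat_lit 591) (nat_lit 4558) (.f (nat_lit 527) (nat_lit 430) (nat_lit 4526) (.d (nat_lit 557) (nat_lit 556) (nat_lit 2572) (nat_lit 589) (nat_lit 5581)))) (.f (nat_lit 590) (nat_lit 495) (nat_lit 6606) (.d (nat_lit 591) (nat_lit 559) (nat_lit 4558) (nat_lit 623) (nat_lit 4590)))))) (.a (.p (nat_lit 559) (.a (.f (nat_lit 527) (nat_lit 430) (nat_lit 4526) (.d (nat_lit 525) (nat_lit 524) (nat_lit 524) (nat_lit 561) (nat_lit 525))) (.a (.f (nat_lit 558) (nat_lit 591) (nat_lit 4558) (.f (nat_lit 561) (nat_lit 525) (nat_lit 3597) (.d (nat_lit 590) (nat_lit 495) (nat_lit 6606) (nat_lit 589) (nat_lit 1581)))) (.f (nat_lit 527) (nat_lit 430) (nat_lit 4526) (.d (nat_lit 591) (nat_lit 558) (nat_lit 4558) (nat_lit 623) (nat_lit 7662)))))) (.a (.p (nat_lit 430) (.a (.f (nat_lit 527) (nat_lit 559) (nat_lit 4526) (.d (nat_lit 525) (nat_lit 557) (nat_lit 5549) (nat_lit 561) (nat_lit 525))) (.a (.f (nat_lit 527) (nat_lit 559) (nat_lit 4526) (.f (nat_lit 398) (nat_lit 495) (nat_lit 4494) (.d (nat_lit 397) (nat_lit 365) (nat_lit 7533) (nat_lit 429) (nat_lit 7565)))) (.f (nat_lit 429) (nat_lit 397) (nat_lit 7565) (.d (nat_lit 428) (nat_lit 427) (nat_lit 427) (nat_lit 461) (nat_lit 3500)))))) (.p (nat_lit 429) (.a (.d (nat_lit 461) (nat_lit 428) (nat_lit 3500) (nat_lit 558) (nat_lit 7597)) (.a (.f (nat_lit 430) (nat_lit 397) (nat_lit 7565) (.f (nat_lit 558) (nat_lit 461) (nat_lit 7597) (.d (nat_lit 557) (nat_lit 525) (nat_lit 5549) (nat_lit 589) (nat_lit 5581)))) (.a (.f (nat_lit 430) (nat_lit 397) (nat_lit 7565) (.f (nat_lit 557) (nat_lit 525) (nat_lit 5549) (.f (nat_lit 558) (nat_lit 589) (nat_lit 5581) (.f (nat_lit 495) (nat_lit 590) (nat_lit 6606) (.d (nat_lit 398) (nat_lit 366) (nat_lit 4462) (nat_lit 527) (nat_lit 4494)))))) (.f (nat_lit 430) (nat_lit 397) (nat_lit 7565) (.d (nat_lit 428) (nat_lit 427) (nat_lit 427) (nat_lit 461) (nat_lit 3500))))))))))))) (.a (.p (nat_lit 526) (.a (.p (nat_lit 558) (.a (.f (nat_lit 559) (nat_lit 591) (nat_lit 4558) (.f (nat_lit 525) (nat_lit 561) (nat_lit 3597) (.d (nat_lit 557) (nat_lit 524) (nat_lit 3596) (nat_lit 589) (nat_lit 5581)))) (.a (.f (nat_lit 559) (nat_lit 591) (nat_lit 4558) (.f (nat_lit 561) (nat_lit 525) (nat_lit 3597) (.d (nat_lit 589) (nat_lit 557) (nat_lit 5581) (nat_lit 590) (nat_lit 1581)))) (.f (nat_lit 461) (nat_lit 429) (nat_lit 7597) (.d (nat_lit 493) (nat_lit 492) (nat_lit 1484) (nat_lit 590) (nat_lit 7629)))))) (.a (.p (nat_lit 525) (.a (.f (nat_lit 557) (nat_lit 430) (nat_lit 5549) (.d (nat_lit 527) (nat_lit 556) (nat_lit 1548) (nat_lit 561) (nat_lit 525))) (.a (.f (nat_lit 527) (nat_lit 561) (nat_lit 525) (.f (nat_lit 493) (nat_lit 492) (nat_lit 3564) (.d (nat_lit 557) (nat_lit 556) (nat_lit 1548) (nat_lit 589) (nat_lit 6605)))) (.a (.f (nat_lit 557) (nat_lit 430) (nat_lit 5549) (.d (nat_lit 589) (nat_lit 493) (nat_lit 6605) (nat_lit 558) (nat_lit 5581))) (.f (nat_lit 527) (nat_lit 561) (nat_lit 525) (.d (nat_lit 559) (nat_lit 430) (nat_lit 4526) (nat_lit 524) (nat_lit 524))))))) (.a s80522 (.a s80535 (.a (.p (nat_lit 527) (.a (.f (nat_lit 559) (nat_lit 430) (nat_lit 4526) (.d (nat_lit 591) (nat_lit 558) (nat_lit 4558) (nat_lit 623) (nat_lit 7662))) (.f (nat_lit 525) (nat_lit 561) (nat_lit 525) (.f (nat_lit 493) (nat_lit 492) (nat_lit 3564) (.d (nat_lit 557) (nat_lit 556) (nat_lit 1548) (nat_lit 589) (nat_lit 6605)))))) (.a (.p (nat_lit 461) (.a (.f (nat_lit 493) (nat_lit 492) (nat_lit 1484) (.d (nat_lit 558) (nat_lit 429) (nat_lit 7597) (nat_lit 590) (nat_lit 7629))) (.a (.f (nat_lit 493) (nat_lit 492) (nat_lit 1484) (.f (nat_lit 558) (nat_lit 590) (nat_lit 7629) (.f (nat_lit 559) (nat_lit 591) (nat_lit 4558) (.f (nat_lit 557) (nat_lit 589) (nat_lit 5581) (.d (nat_lit 527) (nat_lit 430) (nat_lit 4526) (nat_lit 556) (nat_lit 2572)))))) (.a (.d (nat_lit 429) (nat_lit 428) (nat_lit 3500) (nat_lit 558) (nat_lit 7597)) (.f (nat_lit 429) (nat_lit 428) (nat_lit 3500) (.d (nat_lit 397) (nat_lit 365) (nat_lit 4461) (nat_lit 493) (nat_lit 4493))))))) (.a (.p (nat_lit 461) (.a (.f (nat_lit 493) (nat_lit 492) (nat_lit 1484) (.d (nat_lit 558) (nat_lit 429) (nat_lit 7597) (nat_lit 590) (nat_lit 7629))) (.a (.f (nat_lit 493) (nat_lit 492) (nat_lit 1484) (.f (nat_lit 558) (nat_lit 590) (nat_lit 7629) (.f (nat_lit 559) (nat_lit 591) (nat_lit 4558) (.f (nat_lit 561) (nat_lit 525) (nat_lit 3597) (.d (nat_lit 527) (nat_lit 430) (nat_lit 4526) (nat_lit 562) (nat_lit 3598)))))) (.a (.d (nat_lit 429) (nat_lit 428) (nat_lit 3500) (nat_lit 558) (nat_lit 7597)) (.f (nat_lit 429) (nat_lit 428) (nat_lit 3500) (.d (nat_lit 397) (nat_lit 365) (nat_lit 4461) (nat_lit 493) (nat_lit 4493))))))) (.a (.p (nat_lit 430) (.a (.f (nat_lit 527) (nat_lit 559) (nat_lit 4526) (.d (nat_lit 525) (nat_lit 557) (nat_lit 5549) (nat_lit 561) (nat_lit 525))) (.f (nat_lit 429) (nat_lit 397) (nat_lit 7565) (.d (nat_lit 428) (nat_lit 427) (nat_lit 427) (nat_lit 461) (nat_lit 3500))))) (.p (nat_lit 461) (.a (.f (nat_lit 493) (nat_lit 492) (nat_lit 1484) (.d (nat_lit 558) (nat_lit 429) (nat_lit 7597) (nat_lit 590) (nat_lit 7629))) (.a (.f (nat_lit 493) (nat_lit 492) (nat_lit 1484) (.f (nat_lit 558) (nat_lit 590) (nat_lit 7629) (.f (nat_lit 557) (nat_lit 589) (nat_lit 5581) (.f (nat_lit 525) (nat_lit 430) (nat_lit 5549) (.d (nat_lit 527) (nat_lit 556) (nat_lit 1548) (nat_lit 561) (nat_lit 525)))))) (.a (.d (nat_lit 429) (nat_lit 428) (nat_lit 3500) (nat_lit 558) (nat_lit 7597)) (.f (nat_lit 429) (nat_lit 428) (nat_lit 3500) (.d (nat_lit 397) (nat_lit 365) (nat_lit 4461) (nat_lit 493) (nat_lit 4493)))))))))))))))) s67721))))))))))) (.a (.p (nat_lit 461) (.a (.f (nat_lit 492) (nat_lit 493) (nat_lit 1484) (.f (nat_lit 460) (nat_lit 491) (nat_lit 1483) (.d (nat_lit 428) (nat_lit 427) (nat_lit 3499) (nat_lit 429) (nat_lit 3500)))) (.a s65248 (.a (.p (nat_lit 495) (.a (.f (nat_lit 527) (nat_lit 431) (nat_lit 4527) (.f (nat_lit 492) (nat_lit 493) (nat_lit 1484) (.f (nat_lit 559) (nat_lit 430) (nat_lit 7598) (.f (nat_lit 494) (nat_lit 591) (nat_lit 7630) (.d (nat_lit 460) (nat_lit 459) (nat_lit 459) (nat_lit 491) (nat_lit 1483)))))) (.a (.f (nat_lit 492) (nat_lit 493) (nat_lit 1484) (.f (nat_lit 460) (nat_lit 491) (nat_lit 1483) (.f (nat_lit 494) (nat_lit 459) (nat_lit 459) (.f (nat_lit 431) (nat_lit 527) (nat_lit 4527) (.d (nat_lit 399) (nat_lit 367) (nat_lit 5486) (nat_lit 526) (nat_lit 5518)))))) (.a (.p (nat_lit 430) (.a (.f (nat_lit 398) (nat_lit 366) (nat_lit 4462) (.d (nat_lit 527) (nat_lit 494) (nat_lit 4494) (nat_lit 559) (nat_lit 7598))) (.a (.f (nat_lit 493) (nat_lit 492) (nat_lit 1484) (.f (nat_lit 525) (nat_lit 557) (nat_lit 6573) (.d (nat_lit 398) (nat_lit 429) (nat_lit 6541) (nat_lit 494) (nat_lit 5517)))) (.a (.f (nat_lit 493) (nat_lit 492) (nat_lit 1484) (.f (nat_lit 525) (nat_lit 557) (nat_lit 6573) (.f (nat_lit 527) (nat_lit 559) (nat_lit 7598) (.f (nat_lit 526) (nat_lit 561) (nat_lit 525) (.f (nat_lit 429) (nat_lit 558) (nat_lit 4525) (.f (nat_lit 397) (nat_lit 494) (nat_lit 4493) (.f (nat_lit 365) (nat_lit 333) (nat_lit 4429) (.d (nat_lit 364) (nat_lit 332) (nat_lit 7500) (nat_lit 396) (nat_lit 7532))))))))) (.f (nat_lit 493) (nat_lit 492) (nat_lit 1484) (.f (nat_lit 398) (nat_lit 366) (nat_lit 4462) (.d (nat_lit 525) (nat_lit 429) (nat_lit 6541) (nat_lit 557) (nat_lit 6573)))))))) (.a (.f (nat_lit 527) (nat_lit 431) (nat_lit 4527) (.f (nat_lit 559) (nat_lit 430) (nat_lit 7598) (.f (nat_lit 558) (nat_lit 590) (nat_lit 5582) (.f (nat_lit 494) (nat_lit 591) (nat_lit 7630) (.f (nat_lit 526) (nat_lit 429) (nat_lit 7597) (.d (nat_lit 557) (nat_lit 556) (nat_lit 2572) (nat_lit 589) (nat_lit 5581))))))) (.a (.f (nat_lit 527) (nat_lit 431) (nat_lit 4527) (.f (nat_lit 559) (nat_lit 430) (nat_lit 7598) (.f (nat_lit 558) (nat_lit 590) (nat_lit 5582) (.f (nat_lit 557) (nat_lit 556) (nat_lit 2572) (.f (nat_lit 525) (nat_lit 524) (nat_lit 3596) (.f (nat_lit 561) (nat_lit 526) (nat_lit 525) (.f (nat_lit 562) (nat_lit 563) (nat_lit 3599) (.d (nat_lit 594) (nat_lit 593) (nat_lit 558) (nat_lit 595) (nat_lit 559))))))))) (.f (nat_lit 492) (nat_lit 493) (nat_lit 1484) (.f (nat_lit 460) (nat_lit 491) (nat_lit 1483) (.f (nat_lit 459) (nat_lit 494) (nat_lit 459) (.f (nat_lit 430) (nat_lit 431) (nat_lit 2475) (.f (nat_lit 458) (nat_lit 429) (nat_lit 2474) (.d (nat_lit 426) (nat_lit 425) (nat_lit 3497) (nat_lit 427) (nat_lit 3498))))))))))))) (.a s65649 (.a (.p (nat_lit 431) (.a (.f (nat_lit 428) (nat_lit 429) (nat_lit 3500) (.f (nat_lit 460) (nat_lit 427) (nat_lit 3499) (.f (nat_lit 459) (nat_lit 430) (nat_lit 2475) (.d (nat_lit 495) (nat_lit 494) (nat_lit 459) (nat_lit 527) (nat_lit 4527))))) (.a (.p (nat_lit 494) (.a (.f (nat_lit 526) (nat_lit 558) (nat_lit 6574) (.d (nat_lit 399) (nat_lit 367) (nat_lit 5486) (nat_lit 430) (nat_lit 6542))) (.a (.f (nat_lit 526) (nat_lit 558) (nat_lit 6574) (.d (nat_lit 399) (nat_lit 430) (nat_lit 6542) (nat_lit 495) (nat_lit 5518))) (.a (.f (nat_lit 526) (nat_lit 558) (nat_lit 6574) (.f (nat_lit 527) (nat_lit 495) (nat_lit 4527) (.f (nat_lit 430) (nat_lit 559) (nat_lit 4526) (.d (nat_lit 525) (nat_lit 557) (nat_lit 5549) (nat_lit 561) (nat_lit 525))))) (.a (.f (nat_lit 526) (nat_lit 558) (nat_lit 6574) (.d (nat_lit 495) (nat_lit 399) (nat_lit 5518) (nat_lit 527) (nat_lit 4527))) (.f (nat_lit 495) (nat_lit 527) (nat_lit 4527) (.f (nat_lit 399) (nat_lit 367) (nat_lit 5486) (.f (nat_lit 398) (nat_lit 366) (nat_lit 7534) (.f (nat_lit 429) (nat_lit 428) (nat_lit 3500) (.f (nat_lit 397) (nat_lit 365) (nat_lit 4461) (.f (nat_lit 400) (nat_lit 368) (nat_lit 6511) (.f (nat_lit 430) (nat_lit 401) (nat_lit 1421) (.f (nat_lit 493) (nat_lit 525) (nat_lit 6541) (.d (nat_lit 396) (nat_lit 364) (nat_lit 7532) (nat_lit 395) (nat_lit 395))))))))))))))) (.a (.p (nat_lit 526) (.a (.f (nat_lit 494) (nat_lit 558) (nat_lit 6574) (.d (nat_lit 399) (nat_lit 367) (nat_lit 5486) (nat_lit 430) (nat_lit 6542))) (.a (.f (nat_lit 494) (nat_lit 558) (nat_lit 6574) (.d (nat_lit 399) (nat_lit 430) (nat_lit 6542) (nat_lit 495) (nat_lit 5518))) (.a (.f (nat_lit 527) (nat_lit 495) (nat_lit 4527) (.f (nat_lit 494) (nat_lit 558) (nat_lit 6574) (.f (nat_lit 525) (nat_lit 561) (nat_lit 525) (.d (nat_lit 559) (nat_lit 430) (nat_lit 4526) (nat_lit 524) (nat_lit 524))))) (.a (.f (nat_lit 494) (nat_lit 558) (nat_lit 6574) (.d (nat_lit 495) (nat_lit 399) (nat_lit 5518) (nat_lit 527) (nat_lit 4527))) (.a (.f (nat_lit 527) (nat_lit 495) (nat_lit 4527) (.f (nat_lit 525) (nat_lit 561) (nat_lit 525) (.f (nat_lit 557) (nat_lit 556) (nat_lit 1548) (.f (nat_lit 493) (nat_lit 430) (nat_lit 6573) (.d (nat_lit 558) (nat_lit 429) (nat_lit 4525) (nat_lit 590) (nat_lit 4557)))))) (.f (nat_lit 527) (nat_lit 495) (nat_lit 4527) (.f (nat_lit 525) (nat_lit 561) (nat_lit 525) (.f (nat_lit 557) (nat_lit 556) (nat_lit 1548) (.d (nat_lit 430) (nat_lit 493) (nat_lit 6573) (nat_lit 494) (nat_lit 5549))))))))))) (.a (.p (nat_lit 526) (.a (.f (nat_lit 494) (nat_lit 558) (nat_lit 6574) (.d (nat_lit 399) (nat_lit 367) (nat_lit 5486) (nat_lit 430) (nat_lit 6542))) (.a (.f (nat_lit 494) (nat_lit 558) (nat_lit 6574) (.d (nat_lit 399) (nat_lit 430) (nat_lit 6542) (nat_lit 495) (nat_lit 5518))) (.a (.f (nat_lit 527) (nat_lit 495) (nat_lit 4527) (.f (nat_lit 494) (nat_lit 558) (nat_lit 6574) (.f (nat_lit 525) (nat_lit 561) (nat_lit 525) (.d (nat_lit 559) (nat_lit 430) (nat_lit 4526) (nat_lit 524) (nat_lit 524))))) (.a (.f (nat_lit 494) (nat_lit 558) (nat_lit 6574) (.d (nat_lit 495) (nat_lit 399) (nat_lit 5518) (nat_lit 527) (nat_lit 4527))) (.a (.f (nat_lit 527) (nat_lit 495) (nat_lit 4527) (.f (nat_lit 525) (nat_lit 561) (nat_lit 525) (.f (nat_lit 557) (nat_lit 556) (nat_lit 1548) (.f (nat_lit 493) (nat_lit 430) (nat_lit 6573) (.f (nat_lit 590) (nat_lit 558) (nat_lit 4557) (.f (nat_lit 589) (nat_lit 622) (nat_lit 4589) (.f (nat_lit 588) (nat_lit 620) (nat_lit 5612) (.d (nat_lit 559) (nat_lit 524) (nat_lit 524) (nat_lit 591) (nat_lit 2604))))))))) (.f (nat_lit 527) (nat_lit 495) (nat_lit 4527) (.f (nat_lit 525) (nat_lit 561) (nat_lit 525) (.f (nat_lit 557) (nat_lit 556) (nat_lit 1548) (.d (nat_lit 430) (nat_lit 493) (nat_lit 6573) (nat_lit 494) (nat_lit 5549))))))))))) (.a (.f (nat_lit 495) (nat_lit 527) (nat_lit 4527) (.f (nat_lit 428) (nat_lit 429) (nat_lit 3500) (.f (nat_lit 460) (nat_lit 427) (nat_lit 3499) (.f (nat_lit 494) (nat_lit 459) (nat_lit 459) (.d (nat_lit 399) (nat_lit 367) (nat_lit 5486) (nat_lit 526) (nat_lit 5518)))))) (.a (.p (nat_lit 399) (.a (.f (nat_lit 495) (nat_lit 527) (nat_lit 4527) (.f (nat_lit 366) (nat_lit 398) (nat_lit 7534) (.f (nat_lit 367) (nat_lit 334) (nat_lit 7502) (.d (nat_lit 368) (nat_lit 336) (nat_lit 6479) (nat_lit 400) (nat_lit 6511))))) (.a (.f (nat_lit 495) (nat_lit 527) (nat_lit 4527) (.f (nat_lit 428) (nat_lit 429) (nat_lit 3500) (.f (nat_lit 460) (nat_lit 427) (nat_lit 3499) (.f (nat_lit 430) (nat_lit 459) (nat_lit 2475) (.f (nat_lit 367) (nat_lit 335) (nat_lit 5454) (.d (nat_lit 368) (nat_lit 336) (nat_lit 6479) (nat_lit 400) (nat_lit 6511))))))) (.a (.f (nat_lit 495) (nat_lit 527) (nat_lit 4527) (.f (nat_lit 428) (nat_lit 429) (nat_lit 3500) (.f (nat_lit 366) (nat_lit 398) (nat_lit 7534) (.f (nat_lit 460) (nat_lit 427) (nat_lit 3499) (.f (nat_lit 459) (nat_lit 430) (nat_lit 2475) (.f (nat_lit 491) (nat_lit 490) (nat_lit 1482) (.f (nat_lit 364) (nat_lit 396) (nat_lit 5483) (.f (nat_lit 367) (nat_lit 334) (nat_lit 7502) (.d (nat_lit 400) (nat_lit 365) (nat_lit 364) (nat_lit 368) (nat_lit 6511)))))))))) (.a (.f (nat_lit 495) (nat_lit 527) (nat_lit 4527) (.f (nat_lit 400) (nat_lit 368) (nat_lit 6511) (.f (nat_lit 398) (nat_lit 366) (nat_lit 7534) (.f (nat_lit 429) (nat_lit 428) (nat_lit 3500) (.f (nat_lit 401) (nat_lit 430) (nat_lit 1421) (.f (nat_lit 434) (nat_lit 433) (nat_lit 398) (.f (nat_lit 402) (nat_lit 435) (nat_lit 399) (.d (nat_lit 370) (nat_lit 369) (nat_lit 2414) (nat_lit 371) (nat_lit 2415))))))))) (.a (.f (nat_lit 428) (nat_lit 429) (nat_lit 3500) (.f (nat_lit 460) (nat_lit 427) (nat_lit 3499) (.f (nat_lit 430) (nat_lit 459) (nat_lit 2475) (.f (nat_lit 495) (nat_lit 527) (nat_lit 4527) (.f (nat_lit 366) (nat_lit 398) (nat_lit 4462) (.d (nat_lit 367) (nat_lit 334) (nat_lit 7502) (nat_lit 335) (nat_lit 5454))))))) (.f (nat_lit 428) (nat_lit 429) (nat_lit 3500) (.f (nat_lit 460) (nat_lit 427) (nat_lit 3499) (.f (nat_lit 430) (nat_lit 459) (nat_lit 2475) (.f (nat_lit 367) (nat_lit 335) (nat_lit 5454) (.f (nat_lit 366) (nat_lit 334) (nat_lit 7502) (.f (nat_lit 368) (nat_lit 336) (nat_lit 6479) (.f (nat_lit 398) (nat_lit 493) (nat_lit 5485) (.d (nat_lit 397) (nat_lit 369) (nat_lit 1389) (nat_lit 396) (nat_lit 2412))))))))))))))) (.p (nat_lit 494) (.a (.f (nat_lit 526) (nat_lit 558) (nat_lit 6574) (.d (nat_lit 399) (nat_lit 367) (nat_lit 5486) (nat_lit 430) (nat_lit 6542))) (.a (.f (nat_lit 526) (nat_lit 558) (nat_lit 6574) (.f (nat_lit 430) (nat_lit 399) (nat_lit 6542) (.d (nat_lit 429) (nat_lit 397) (nat_lit 7565) (nat_lit 428) (nat_lit 3500)))) (.a (.f (nat_lit 429) (nat_lit 428) (nat_lit 3500) (.f (nat_lit 526) (nat_lit 558) (nat_lit 6574) (.d (nat_lit 397) (nat_lit 430) (nat_lit 7565) (nat_lit 493) (nat_lit 4493)))) (.a (.f (nat_lit 526) (nat_lit 558) (nat_lit 6574) (.f (nat_lit 429) (nat_lit 428) (nat_lit 3500) (.d (nat_lit 397) (nat_lit 365) (nat_lit 4461) (nat_lit 493) (nat_lit 4493)))) (.f (nat_lit 428) (nat_lit 429) (nat_lit 3500) (.f (nat_lit 460) (nat_lit 427) (nat_lit 3499) (.f (nat_lit 459) (nat_lit 430) (nat_lit 2475) (.f (nat_lit 458) (nat_lit 493) (nat_lit 458) (.d (nat_lit 490) (nat_lit 489) (nat_lit 1481) (nat_lit 491) (nat_lit 1482)))))))))))))))))) (.f (nat_lit 428) (nat_lit 429) (nat_lit 3500) (.f (nat_lit 460) (nat_lit 427) (nat_lit 3499) (.f (nat_lit 491) (nat_lit 492) (nat_lit 1483) (.f (nat_lit 459) (nat_lit 490) (nat_lit 1482) (.f (nat_lit 495) (nat_lit 494) (nat_lit 459) (.d (nat_lit 431) (nat_lit 430) (nat_lit 2475) (nat_lit 527) (nat_lit 4527))))))))))))) (.a s68416 (.a s68530 (.a (.p (nat_lit 461) (.a (.f (nat_lit 432) (nat_lit 433) (nat_lit 2477) (.f (nat_lit 460) (nat_lit 431) (nat_lit 2476) (.d (nat_lit 428) (nat_lit 427) (nat_lit 3499) (nat_lit 429) (nat_lit 3500)))) (.a s65248 s65706))) (.a s80842 (.a s80867 (.a s80874 (.a s80882 s80901)))))))))))))) (.a (.p (nat_lit 494) (.a s64408 (.a s64425 (.a s64445 (.a s64464 (.a s64465 (.a s64466 (.a s64476 (.a s64485 (.a s64508 (.a (.p (nat_lit 463) (.a (.f (nat_lit 465) (nat_lit 493) (nat_lit 1485) (.f (nat_lit 466) (nat_lit 495) (nat_lit 1486) (.d (nat_lit 498) (nat_lit 497) (nat_lit 462) (nat_lit 499) (nat_lit 463)))) (.a s64516 (.a (.p (nat_lit 465) (.a (.f (nat_lit 466) (nat_lit 495) (nat_lit 1486) (.d (nat_lit 498) (nat_lit 497) (nat_lit 462) (nat_lit 499) (nat_lit 463))) (.a (.f (nat_lit 433) (nat_lit 434) (nat_lit 2478) (.f (nat_lit 461) (nat_lit 432) (nat_lit 2477) (.f (nat_lit 428) (nat_lit 429) (nat_lit 3500) (.f (nat_lit 460) (nat_lit 427) (nat_lit 3499) (.f (nat_lit 495) (nat_lit 459) (nat_lit 459) (.f (nat_lit 431) (nat_lit 527) (nat_lit 4527) (.d (nat_lit 399) (nat_lit 367) (nat_lit 5486) (nat_lit 526) (nat_lit 5518)))))))) (.f (nat_lit 433) (nat_lit 434) (nat_lit 2478) (.f (nat_lit 498) (nat_lit 497) (nat_lit 462) (.f (nat_lit 466) (nat_lit 499) (nat_lit 463) (.f (nat_lit 432) (nat_lit 461) (nat_lit 2477) (.d (nat_lit 467) (nat_lit 431) (nat_lit 3503) (nat_lit 468) (nat_lit 3504))))))))) (.f (nat_lit 465) (nat_lit 493) (nat_lit 1485) (.f (nat_lit 433) (nat_lit 434) (nat_lit 2478) (.f (nat_lit 498) (nat_lit 497) (nat_lit 462) (.f (nat_lit 466) (nat_lit 499) (nat_lit 463) (.f (nat_lit 432) (nat_lit 461) (nat_lit 2477) (.d (nat_lit 467) (nat_lit 431) (nat_lit 3503) (nat_lit 468) (nat_lit 3504))))))))))) (.a s64589 (.a s64598 (.a s64623 (.a s64636 (.a s64638 (.a s65074 (.a s64655 s64673)))))))))))))))))) (.a (.p (nat_lit 463) (.a s65228 (.a s65255 (.a s65730 (.a s67422 (.a s68523 (.a s65363 s80842))))))) (.a (.p (nat_lit 463) (.a s65255 (.a s65429 (.a s65739 (.a s67454 (.a (.p (nat_lit 465) (.a (.f (nat_lit 433) (nat_lit 434) (nat_lit 2478) (.f (nat_lit 461) (nat_lit 432) (nat_lit 2477) (.d (nat_lit 429) (nat_lit 428) (nat_lit 3500) (nat_lit 430) (nat_lit 3501)))) (.a (.f (nat_lit 434) (nat_lit 433) (nat_lit 2478) (.f (nat_lit 466) (nat_lit 435) (nat_lit 2479) (.d (nat_lit 498) (nat_lit 497) (nat_lit 462) (nat_lit 499) (nat_lit 463)))) (.a (.p (nat_lit 527) (.a (.f (nat_lit 430) (nat_lit 429) (nat_lit 3501) (.f (nat_lit 559) (nat_lit 495) (nat_lit 7598) (.f (nat_lit 526) (nat_lit 494) (nat_lit 4526) (.d (nat_lit 525) (nat_lit 524) (nat_lit 524) (nat_lit 561) (nat_lit 525))))) (.a (.f (nat_lit 498) (nat_lit 497) (nat_lit 462) (.f (nat_lit 466) (nat_lit 499) (nat_lit 463) (.f (nat_lit 495) (nat_lit 494) (nat_lit 1486) (.d (nat_lit 559) (nat_lit 430) (nat_lit 7598) (nat_lit 432) (nat_lit 6575))))) (.a (.f (nat_lit 498) (nat_lit 497) (nat_lit 462) (.f (nat_lit 466) (nat_lit 499) (nat_lit 463) (.f (nat_lit 435) (nat_lit 434) (nat_lit 2479) (.f (nat_lit 467) (nat_lit 436) (nat_lit 2480) (.f (nat_lit 495) (nat_lit 494) (nat_lit 1486) (.f (nat_lit 559) (nat_lit 432) (nat_lit 6575) (.f (nat_lit 562) (nat_lit 530) (nat_lit 6578) (.d (nat_lit 561) (nat_lit 526) (nat_lit 3598) (nat_lit 563) (nat_lit 3599))))))))) (.a (.f (nat_lit 430) (nat_lit 429) (nat_lit 3501) (.f (nat_lit 559) (nat_lit 495) (nat_lit 7598) (.f (nat_lit 498) (nat_lit 497) (nat_lit 462) (.f (nat_lit 466) (nat_lit 499) (nat_lit 463) (.f (nat_lit 435) (nat_lit 434) (nat_lit 2479) (.f (nat_lit 467) (nat_lit 436) (nat_lit 2480) (.f (nat_lit 562) (nat_lit 530) (nat_lit 6578) (.d (nat_lit 561) (nat_lit 526) (nat_lit 3598) (nat_lit 563) (nat_lit 3599))))))))) (.a (.f (nat_lit 498) (nat_lit 497) (nat_lit 462) (.f (nat_lit 466) (nat_lit 499) (nat_lit 463) (.f (nat_lit 435) (nat_lit 434) (nat_lit 2479) (.f (nat_lit 467) (nat_lit 436) (nat_lit 2480) (.f (nat_lit 562) (nat_lit 530) (nat_lit 6578) (.f (nat_lit 561) (nat_lit 563) (nat_lit 3599) (.d (nat_lit 526) (nat_lit 525) (nat_lit 525) (nat_lit 559) (nat_lit 3598)))))))) (.f (nat_lit 429) (nat_lit 430) (nat_lit 3501) (.f (nat_lit 461) (nat_lit 428) (nat_lit 3500) (.f (nat_lit 498) (nat_lit 497) (nat_lit 462) (.f (nat_lit 466) (nat_lit 499) (nat_lit 463) (.f (nat_lit 494) (nat_lit 495) (nat_lit 1486) (.f (nat_lit 526) (nat_lit 558) (nat_lit 7597) (.f (nat_lit 525) (nat_lit 561) (nat_lit 525) (.f (nat_lit 556) (nat_lit 557) (nat_lit 1548) (.f (nat_lit 524) (nat_lit 555) (nat_lit 1547) (.d (nat_lit 492) (nat_lit 460) (nat_lit 6572) (nat_lit 491) (nat_lit 3563))))))))))))))))) (.p (nat_lit 527) (.a (.f (nat_lit 430) (nat_lit 429) (nat_lit 3501) (.f (nat_lit 559) (nat_lit 495) (nat_lit 7598) (.f (nat_lit 526) (nat_lit 494) (nat_lit 4526) (.d (nat_lit 525) (nat_lit 524) (nat_lit 524) (nat_lit 561) (nat_lit 525))))) (.a (.f (nat_lit 498) (nat_lit 497) (nat_lit 462) (.f (nat_lit 466) (nat_lit 499) (nat_lit 463) (.f (nat_lit 495) (nat_lit 494) (nat_lit 1486) (.d (nat_lit 559) (nat_lit 430) (nat_lit 7598) (nat_lit 432) (nat_lit 6575))))) (.a (.f (nat_lit 498) (nat_lit 497) (nat_lit 462) (.f (nat_lit 466) (nat_lit 499) (nat_lit 463) (.f (nat_lit 495) (nat_lit 494) (nat_lit 1486) (.f (nat_lit 559) (nat_lit 432) (nat_lit 6575) (.f (nat_lit 558) (nat_lit 590) (nat_lit 5582) (.f (nat_lit 557) (nat_lit 556) (nat_lit 2572) (.f (nat_lit 525) (nat_lit 524) (nat_lit 3596) (.f (nat_lit 561) (nat_lit 526) (nat_lit 525) (.f (nat_lit 562) (nat_lit 563) (nat_lit 3599) (.d (nat_lit 594) (nat_lit 593) (nat_lit 558) (nat_lit 595) (nat_lit 559))))))))))) (.a (.f (nat_lit 498) (nat_lit 497) (nat_lit 462) (.f (nat_lit 466) (nat_lit 499) (nat_lit 463) (.f (nat_lit 429) (nat_lit 430) (nat_lit 3501) (.f (nat_lit 461) (nat_lit 428) (nat_lit 3500) (.f (nat_lit 433) (nat_lit 432) (nat_lit 2477) (.f (nat_lit 562) (nat_lit 530) (nat_lit 7601) (.f (nat_lit 561) (nat_lit 563) (nat_lit 3599) (.d (nat_lit 526) (nat_lit 525) (nat_lit 525) (nat_lit 559) (nat_lit 3598))))))))) (.f (nat_lit 429) (nat_lit 430) (nat_lit 3501) (.f (nat_lit 461) (nat_lit 428) (nat_lit 3500) (.f (nat_lit 498) (nat_lit 497) (nat_lit 462) (.f (nat_lit 466) (nat_lit 499) (nat_lit 463) (.f (nat_lit 494) (nat_lit 495) (nat_lit 1486) (.f (nat_lit 526) (nat_lit 558) (nat_lit 7597) (.f (nat_lit 525) (nat_lit 561) (nat_lit 525) (.f (nat_lit 556) (nat_lit 557) (nat_lit 1548) (.f (nat_lit 524) (nat_lit 555) (nat_lit 1547) (.d (nat_lit 492) (nat_lit 460) (nat_lit 6572) (nat_lit 491) (nat_lit 3563)))))))))))))))))))) (.a s68430 (.a s68548 s80867)))))))) (.a (.p (nat_lit 463) (.a s65249 (.a s65255 (.a s65468 (.a s65763 (.a s67507 (.a (.p (nat_lit 461) (.a (.f (nat_lit 492) (nat_lit 493) (nat_lit 1484) (.f (nat_lit 460) (nat_lit 491) (nat_lit 1483) (.d (nat_lit 428) (nat_lit 427) (nat_lit 3499) (nat_lit 429) (nat_lit 3500)))) (.a s65248 (.a (.f (nat_lit 493) (nat_lit 492) (nat_lit 1484) (.p (nat_lit 525) (.a (.f (nat_lit 557) (nat_lit 430) (nat_lit 6573) (.f (nat_lit 558) (nat_lit 590) (nat_lit 4557) (.f (nat_lit 526) (nat_lit 429) (nat_lit 4525) (.d (nat_lit 559) (nat_lit 524) (nat_lit 3596) (nat_lit 561) (nat_lit 3597))))) (.a (.f (nat_lit 557) (nat_lit 430) (nat_lit 6573) (.f (nat_lit 558) (nat_lit 590) (nat_lit 4557) (.f (nat_lit 559) (nat_lit 524) (nat_lit 3596) (.d (nat_lit 556) (nat_lit 527) (nat_lit 2572) (nat_lit 588) (nat_lit 5580))))) (.a (.p (nat_lit 557) (.a (.f (nat_lit 558) (nat_lit 590) (nat_lit 4557) (.f (nat_lit 556) (nat_lit 588) (nat_lit 5580) (.d (nat_lit 429) (nat_lit 524) (nat_lit 5548) (nat_lit 526) (nat_lit 4525)))) (.a (.f (nat_lit 558) (nat_lit 590) (nat_lit 4557) (.f (nat_lit 559) (nat_lit 524) (nat_lit 3596) (.d (nat_lit 556) (nat_lit 527) (nat_lit 2572) (nat_lit 588) (nat_lit 5580)))) (.a (.f (nat_lit 558) (nat_lit 590) (nat_lit 4557) (.f (nat_lit 526) (nat_lit 429) (nat_lit 4525) (.d (nat_lit 561) (nat_lit 527) (nat_lit 525) (nat_lit 559) (nat_lit 3597)))) (.a (.f (nat_lit 588) (nat_lit 556) (nat_lit 5580) (.f (nat_lit 589) (nat_lit 620) (nat_lit 5612) (.f (nat_lit 590) (nat_lit 622) (nat_lit 4589) (.f (nat_lit 559) (nat_lit 591) (nat_lit 2604) (.f (nat_lit 432) (nat_lit 433) (nat_lit 2477) (.f (nat_lit 527) (nat_lit 495) (nat_lit 6575) (.d (nat_lit 526) (nat_lit 524) (nat_lit 524) (nat_lit 561) (nat_lit 525)))))))) (.f (nat_lit 556) (nat_lit 588) (nat_lit 5580) (.f (nat_lit 526) (nat_lit 527) (nat_lit 1548) (.d (nat_lit 429) (nat_lit 524) (nat_lit 5548) (nat_lit 558) (nat_lit 4525))))))))) (.a (.f (nat_lit 430) (nat_lit 557) (nat_lit 6573) (.d (nat_lit 429) (nat_lit 398) (nat_lit 6541) (nat_lit 465) (nat_lit 3501))) (.f (nat_lit 433) (nat_lit 432) (nat_lit 2477) (.f (nat_lit 465) (nat_lit 434) (nat_lit 2478) (.f (nat_lit 429) (nat_lit 430) (nat_lit 3501) (.f (nat_lit 526) (nat_lit 558) (nat_lit 4525) (.f (nat_lit 524) (nat_lit 556) (nat_lit 5548) (.d (nat_lit 527) (nat_lit 559) (nat_lit 524) (nat_lit 561) (nat_lit 525))))))))))))) (.a (.p (nat_lit 527) (.a (.f (nat_lit 433) (nat_lit 432) (nat_lit 2477) (.f (nat_lit 465) (nat_lit 434) (nat_lit 2478) (.f (nat_lit 498) (nat_lit 497) (nat_lit 462) (.f (nat_lit 466) (nat_lit 499) (nat_lit 463) (.f (nat_lit 562) (nat_lit 530) (nat_lit 7601) (.f (nat_lit 561) (nat_lit 563) (nat_lit 3599) (.d (nat_lit 526) (nat_lit 525) (nat_lit 525) (nat_lit 559) (nat_lit 3598)))))))) (.a (.p (nat_lit 525) (.a (.f (nat_lit 526) (nat_lit 561) (nat_lit 525) (.f (nat_lit 493) (nat_lit 492) (nat_lit 1484) (.d (nat_lit 557) (nat_lit 430) (nat_lit 6573) (nat_lit 556) (nat_lit 1548)))) (.a (.f (nat_lit 526) (nat_lit 561) (nat_lit 525) (.f (nat_lit 524) (nat_lit 559) (nat_lit 524) (.d (nat_lit 556) (nat_lit 555) (nat_lit 1547) (nat_lit 557) (nat_lit 1548)))) (.a (.f (nat_lit 493) (nat_lit 492) (nat_lit 1484) (.f (nat_lit 557) (nat_lit 430) (nat_lit 6573) (.f (nat_lit 558) (nat_lit 590) (nat_lit 4557) (.d (nat_lit 556) (nat_lit 559) (nat_lit 2572) (nat_lit 588) (nat_lit 5580))))) (.a (.f (nat_lit 493) (nat_lit 492) (nat_lit 1484) (.f (nat_lit 557) (nat_lit 430) (nat_lit 6573) (.f (nat_lit 558) (nat_lit 590) (nat_lit 4557) (.f (nat_lit 559) (nat_lit 524) (nat_lit 3596) (.f (nat_lit 561) (nat_lit 526) (nat_lit 525) (.f (nat_lit 562) (nat_lit 563) (nat_lit 3599) (.d (nat_lit 594) (nat_lit 593) (nat_lit 558) (nat_lit 595) (nat_lit 559)))))))) (.f (nat_lit 526) (nat_lit 561) (nat_lit 525) (.f (nat_lit 492) (nat_lit 493) (nat_lit 1484) (.d (nat_lit 524) (nat_lit 491) (nat_lit 3563) (nat_lit 559) (nat_lit 524))))))))) (.a (.f (nat_lit 433) (nat_lit 432) (nat_lit 2477) (.f (nat_lit 465) (nat_lit 434) (nat_lit 2478) (.f (nat_lit 498) (nat_lit 497) (nat_lit 462) (.f (nat_lit 466) (nat_lit 499) (nat_lit 463) (.f (nat_lit 562) (nat_lit 530) (nat_lit 7601) (.f (nat_lit 561) (nat_lit 563) (nat_lit 3599) (.f (nat_lit 559) (nat_lit 526) (nat_lit 3598) (.f (nat_lit 590) (nat_lit 591) (nat_lit 1582) (.d (nat_lit 495) (nat_lit 430) (nat_lit 7598) (nat_lit 558) (nat_lit 5582)))))))))) (.a (.p (nat_lit 559) (.a (.d (nat_lit 495) (nat_lit 430) (nat_lit 7598) (nat_lit 432) (nat_lit 6575)) (.a (.d (nat_lit 432) (nat_lit 433) (nat_lit 2477) (nat_lit 495) (nat_lit 6575)) (.a (.f (nat_lit 495) (nat_lit 430) (nat_lit 7598) (.f (nat_lit 558) (nat_lit 590) (nat_lit 5582) (.f (nat_lit 492) (nat_lit 493) (nat_lit 1484) (.f (nat_lit 460) (nat_lit 491) (nat_lit 1483) (.f (nat_lit 427) (nat_lit 428) (nat_lit 3499) (.f (nat_lit 459) (nat_lit 426) (nat_lit 3498) (.d (nat_lit 556) (nat_lit 524) (nat_lit 7595) (nat_lit 557) (nat_lit 2572)))))))) (.f (nat_lit 433) (nat_lit 432) (nat_lit 2477) (.f (nat_lit 465) (nat_lit 434) (nat_lit 2478) (.f (nat_lit 498) (nat_lit 497) (nat_lit 462) (.f (nat_lit 466) (nat_lit 499) (nat_lit 463) (.f (nat_lit 562) (nat_lit 530) (nat_lit 7601) (.f (nat_lit 561) (nat_lit 563) (nat_lit 3599) (.f (nat_lit 591) (nat_lit 590) (nat_lit 1582) (.f (nat_lit 623) (nat_lit 655) (nat_lit 6671) (.f (nat_lit 594) (nat_lit 595) (nat_lit 559) (.f (nat_lit 593) (nat_lit 558) (nat_lit 558) (.f (nat_lit 625) (nat_lit 657) (nat_lit 7696) (.d (nat_lit 622) (nat_lit 624) (nat_lit 2638) (nat_lit 654) (nat_lit 5646))))))))))))))))) (.a (.f (nat_lit 433) (nat_lit 432) (nat_lit 2477) (.f (nat_lit 465) (nat_lit 434) (nat_lit 2478) (.f (nat_lit 498) (nat_lit 497) (nat_lit 462) (.f (nat_lit 466) (nat_lit 499) (nat_lit 463) (.f (nat_lit 562) (nat_lit 530) (nat_lit 7601) (.f (nat_lit 561) (nat_lit 563) (nat_lit 3599) (.f (nat_lit 493) (nat_lit 492) (nat_lit 1484) (.f (nat_lit 525) (nat_lit 526) (nat_lit 525) (.f (nat_lit 557) (nat_lit 430) (nat_lit 6573) (.f (nat_lit 588) (nat_lit 556) (nat_lit 5580) (.f (nat_lit 589) (nat_lit 620) (nat_lit 5612) (.d (nat_lit 590) (nat_lit 558) (nat_lit 4557) (nat_lit 622) (nat_lit 4589))))))))))))) (.p (nat_lit 460) (.a (.d (nat_lit 492) (nat_lit 491) (nat_lit 1483) (nat_lit 493) (nat_lit 1484)) (.a (.p (nat_lit 525) (.a (.f (nat_lit 493) (nat_lit 492) (nat_lit 1484) (.d (nat_lit 428) (nat_lit 427) (nat_lit 3499) (nat_lit 557) (nat_lit 7596))) (.a (.f (nat_lit 493) (nat_lit 492) (nat_lit 1484) (.d (nat_lit 557) (nat_lit 428) (nat_lit 7596) (nat_lit 430) (nat_lit 6573))) (.a (.f (nat_lit 493) (nat_lit 492) (nat_lit 1484) (.f (nat_lit 557) (nat_lit 430) (nat_lit 6573) (.d (nat_lit 556) (nat_lit 526) (nat_lit 1548) (nat_lit 588) (nat_lit 5580)))) (.a (.f (nat_lit 432) (nat_lit 433) (nat_lit 2477) (.f (nat_lit 559) (nat_lit 495) (nat_lit 6575) (.f (nat_lit 428) (nat_lit 427) (nat_lit 3499) (.f (nat_lit 557) (nat_lit 493) (nat_lit 7596) (.d (nat_lit 524) (nat_lit 526) (nat_lit 524) (nat_lit 558) (nat_lit 3596)))))) (.a (.f (nat_lit 432) (nat_lit 433) (nat_lit 2477) (.f (nat_lit 559) (nat_lit 495) (nat_lit 6575) (.f (nat_lit 524) (nat_lit 526) (nat_lit 524) (.f (nat_lit 557) (nat_lit 558) (nat_lit 3596) (.d (nat_lit 428) (nat_lit 427) (nat_lit 3499) (nat_lit 492) (nat_lit 4524)))))) (.f (nat_lit 432) (nat_lit 433) (nat_lit 2477) (.f (nat_lit 559) (nat_lit 495) (nat_lit 6575) (.f (nat_lit 427) (nat_lit 428) (nat_lit 3499) (.f (nat_lit 459) (nat_lit 426) (nat_lit 3498) (.f (nat_lit 492) (nat_lit 493) (nat_lit 1484) (.d (nat_lit 524) (nat_lit 526) (nat_lit 524) (nat_lit 556) (nat_lit 7595))))))))))))) (.a (.p (nat_lit 556) (.a (.f (nat_lit 432) (nat_lit 433) (nat_lit 2477) (.f (nat_lit 559) (nat_lit 495) (nat_lit 6575) (.f (nat_lit 557) (nat_lit 558) (nat_lit 2572) (.f (nat_lit 525) (nat_lit 526) (nat_lit 1548) (.d (nat_lit 428) (nat_lit 427) (nat_lit 3499) (nat_lit 493) (nat_lit 7596)))))) (.a (.f (nat_lit 432) (nat_lit 433) (nat_lit 2477) (.f (nat_lit 559) (nat_lit 495) (nat_lit 6575) (.f (nat_lit 557) (nat_lit 558) (nat_lit 2572) (.f (nat_lit 525) (nat_lit 526) (nat_lit 1548) (.d (nat_lit 493) (nat_lit 428) (nat_lit 7596) (nat_lit 588) (nat_lit 5580)))))) (.a (.f (nat_lit 432) (nat_lit 433) (nat_lit 2477) (.f (nat_lit 559) (nat_lit 495) (nat_lit 6575) (.f (nat_lit 557) (nat_lit 558) (nat_lit 2572) (.f (nat_lit 525) (nat_lit 526) (nat_lit 1548) (.d (nat_lit 493) (nat_lit 430) (nat_lit 6573) (nat_lit 588) (nat_lit 5580)))))) (.f (nat_lit 427) (nat_lit 428) (nat_lit 3499) (.f (nat_lit 459) (nat_lit 426) (nat_lit 3498) (.f (nat_lit 491) (nat_lit 490) (nat_lit 1482) (.f (nat_lit 523) (nat_lit 524) (nat_lit 4523) (.f (nat_lit 555) (nat_lit 588) (nat_lit 4555) (.d (nat_lit 554) (nat_lit 522) (nat_lit 5546) (nat_lit 586) (nat_lit 5578))))))))))) (.f (nat_lit 427) (nat_lit 428) (nat_lit 3499) (.f (nat_lit 459) (nat_lit 426) (nat_lit 3498) (.d (nat_lit 491) (nat_lit 490) (nat_lit 1482) (nat_lit 492) (nat_lit 1483)))))))))))))) (.f (nat_lit 429) (nat_lit 428) (nat_lit 3500) (.f (nat_lit 465) (nat_lit 430) (nat_lit 3501) (.d (nat_lit 433) (nat_lit 432) (nat_lit 2477) (nat_lit 434) (nat_lit 2478))))))))) (.a (.p (nat_lit 461) (.a (.f (nat_lit 492) (nat_lit 493) (nat_lit 1484) (.f (nat_lit 460) (nat_lit 491) (nat_lit 1483) (.d (nat_lit 428) (nat_lit 427) (nat_lit 3499) (nat_lit 429) (nat_lit 3500)))) (.a s65248 (.a (.p (nat_lit 525) (.a (.f (nat_lit 493) (nat_lit 492) (nat_lit 1484) (.f (nat_lit 430) (nat_lit 557) (nat_lit 6573) (.d (nat_lit 429) (nat_lit 398) (nat_lit 6541) (nat_lit 465) (nat_lit 3501)))) (.a (.f (nat_lit 493) (nat_lit 492) (nat_lit 1484) (.f (nat_lit 557) (nat_lit 430) (nat_lit 6573) (.f (nat_lit 558) (nat_lit 590) (nat_lit 4557) (.f (nat_lit 556) (nat_lit 588) (nat_lit 5580) (.d (nat_lit 429) (nat_lit 524) (nat_lit 5548) (nat_lit 526) (nat_lit 4525)))))) (.a (.f (nat_lit 493) (nat_lit 492) (nat_lit 1484) (.f (nat_lit 557) (nat_lit 430) (nat_lit 6573) (.f (nat_lit 558) (nat_lit 590) (nat_lit 4557) (.f (nat_lit 559) (nat_lit 524) (nat_lit 3596) (.d (nat_lit 556) (nat_lit 527) (nat_lit 2572) (nat_lit 588) (nat_lit 5580)))))) (.a (.p (nat_lit 526) (.a (.f (nat_lit 527) (nat_lit 561) (nat_lit 525) (.f (nat_lit 493) (nat_lit 492) (nat_lit 1484) (.f (nat_lit 558) (nat_lit 429) (nat_lit 4525) (.d (nat_lit 557) (nat_lit 556) (nat_lit 1548) (nat_lit 590) (nat_lit 4557))))) (.a (.f (nat_lit 527) (nat_lit 561) (nat_lit 525) (.f (nat_lit 492) (nat_lit 493) (nat_lit 1484) (.d (nat_lit 524) (nat_lit 491) (nat_lit 3563) (nat_lit 559) (nat_lit 524)))) (.a (.f (nat_lit 527) (nat_lit 561) (nat_lit 525) (.f (nat_lit 524) (nat_lit 559) (nat_lit 524) (.d (nat_lit 556) (nat_lit 555) (nat_lit 1547) (nat_lit 557) (nat_lit 1548)))) (.f (nat_lit 493) (nat_lit 492) (nat_lit 1484) (.f (nat_lit 558) (nat_lit 429) (nat_lit 4525) (.d (nat_lit 590) (nat_lit 557) (nat_lit 4557) (nat_lit 622) (nat_lit 7661)))))))) (.a (.p (nat_lit 527) (.a (.f (nat_lit 526) (nat_lit 561) (nat_lit 525) (.f (nat_lit 524) (nat_lit 559) (nat_lit 524) (.d (nat_lit 556) (nat_lit 555) (nat_lit 1547) (nat_lit 557) (nat_lit 1548)))) (.a (.f (nat_lit 495) (nat_lit 431) (nat_lit 4527) (.f (nat_lit 430) (nat_lit 559) (nat_lit 7598) (.f (nat_lit 493) (nat_lit 557) (nat_lit 6573) (.d (nat_lit 429) (nat_lit 398) (nat_lit 6541) (nat_lit 465) (nat_lit 3501))))) (.a (.f (nat_lit 526) (nat_lit 561) (nat_lit 525) (.f (nat_lit 495) (nat_lit 431) (nat_lit 4527) (.d (nat_lit 559) (nat_lit 430) (nat_lit 7598) (nat_lit 524) (nat_lit 524)))) (.f (nat_lit 526) (nat_lit 561) (nat_lit 525) (.f (nat_lit 557) (nat_lit 556) (nat_lit 1548) (.f (nat_lit 493) (nat_lit 430) (nat_lit 6573) (.d (nat_lit 558) (nat_lit 429) (nat_lit 4525) (nat_lit 590) (nat_lit 4557))))))))) (.a (.p (nat_lit 527) (.a (.f (nat_lit 526) (nat_lit 561) (nat_lit 525) (.f (nat_lit 524) (nat_lit 559) (nat_lit 524) (.d (nat_lit 556) (nat_lit 555) (nat_lit 1547) (nat_lit 557) (nat_lit 1548)))) (.a (.f (nat_lit 495) (nat_lit 431) (nat_lit 4527) (.f (nat_lit 559) (nat_lit 430) (nat_lit 7598) (.f (nat_lit 561) (nat_lit 526) (nat_lit 525) (.f (nat_lit 558) (nat_lit 590) (nat_lit 5582) (.f (nat_lit 562) (nat_lit 563) (nat_lit 3599) (.d (nat_lit 594) (nat_lit 593) (nat_lit 558) (nat_lit 595) (nat_lit 559))))))) (.a (.f (nat_lit 495) (nat_lit 431) (nat_lit 4527) (.f (nat_lit 559) (nat_lit 430) (nat_lit 7598) (.f (nat_lit 558) (nat_lit 590) (nat_lit 5582) (.d (nat_lit 557) (nat_lit 524) (nat_lit 3596) (nat_lit 556) (nat_lit 2572))))) (.f (nat_lit 526) (nat_lit 561) (nat_lit 525) (.f (nat_lit 431) (nat_lit 495) (nat_lit 4527) (.f (nat_lit 556) (nat_lit 557) (nat_lit 1548) (.f (nat_lit 524) (nat_lit 555) (nat_lit 1547) (.f (nat_lit 492) (nat_lit 491) (nat_lit 3563) (.f (nat_lit 460) (nat_lit 429) (nat_lit 6572) (.d (nat_lit 459) (nat_lit 427) (nat_lit 7595) (nat_lit 430) (nat_lit 2475)))))))))))) (.p (nat_lit 465) (.a (.f (nat_lit 430) (nat_lit 429) (nat_lit 3501) (.f (nat_lit 431) (nat_lit 466) (nat_lit 3502) (.f (nat_lit 492) (nat_lit 493) (nat_lit 1484) (.d (nat_lit 460) (nat_lit 459) (nat_lit 2475) (nat_lit 491) (nat_lit 1483))))) (.a (.f (nat_lit 434) (nat_lit 433) (nat_lit 2478) (.f (nat_lit 466) (nat_lit 435) (nat_lit 2479) (.d (nat_lit 498) (nat_lit 497) (nat_lit 462) (nat_lit 499) (nat_lit 463)))) (.f (nat_lit 493) (nat_lit 492) (nat_lit 1484) (.f (nat_lit 429) (nat_lit 430) (nat_lit 3501) (.f (nat_lit 526) (nat_lit 558) (nat_lit 4525) (.f (nat_lit 527) (nat_lit 561) (nat_lit 525) (.d (nat_lit 524) (nat_lit 556) (nat_lit 5548) (nat_lit 559) (nat_lit 524)))))))))))))))) (.a (.p (nat_lit 525) (.a (.f (nat_lit 493) (nat_lit 492) (nat_lit 1484) (.f (nat_lit 557) (nat_lit 430) (nat_lit 6573) (.f (nat_lit 558) (nat_lit 590) (nat_lit 4557) (.f (nat_lit 559) (nat_lit 524) (nat_lit 3596) (.d (nat_lit 556) (nat_lit 527) (nat_lit 2572) (nat_lit 588) (nat_lit 5580)))))) (.a (.p (nat_lit 526) (.a (.f (nat_lit 527) (nat_lit 561) (nat_lit 525) (.f (nat_lit 492) (nat_lit 493) (nat_lit 1484) (.d (nat_lit 524) (nat_lit 491) (nat_lit 3563) (nat_lit 559) (nat_lit 524)))) (.a (.f (nat_lit 527) (nat_lit 561) (nat_lit 525) (.f (nat_lit 524) (nat_lit 559) (nat_lit 524) (.d (nat_lit 556) (nat_lit 555) (nat_lit 1547) (nat_lit 557) (nat_lit 1548)))) (.a (.f (nat_lit 493) (nat_lit 492) (nat_lit 1484) (.f (nat_lit 561) (nat_lit 527) (nat_lit 525) (.f (nat_lit 558) (nat_lit 559) (nat_lit 3597) (.d (nat_lit 590) (nat_lit 557) (nat_lit 4557) (nat_lit 622) (nat_lit 7661))))) (.a (.p (nat_lit 558) (.a (.f (nat_lit 559) (nat_lit 561) (nat_lit 3597) (.d (nat_lit 524) (nat_lit 523) (nat_lit 523) (nat_lit 557) (nat_lit 3596))) (.a (.f (nat_lit 493) (nat_lit 492) (nat_lit 1484) (.d (nat_lit 590) (nat_lit 557) (nat_lit 4557) (nat_lit 622) (nat_lit 7661))) (.f (nat_lit 559) (nat_lit 561) (nat_lit 3597) (.f (nat_lit 492) (nat_lit 493) (nat_lit 1484) (.f (nat_lit 460) (nat_lit 491) (nat_lit 1483) (.f (nat_lit 427) (nat_lit 428) (nat_lit 3499) (.f (nat_lit 459) (nat_lit 426) (nat_lit 3498) (.d (nat_lit 524) (nat_lit 523) (nat_lit 523) (nat_lit 556) (nat_lit 7595)))))))))) (.a (.f (nat_lit 527) (nat_lit 561) (nat_lit 525) (.f (nat_lit 492) (nat_lit 493) (nat_lit 1484) (.d (nat_lit 491) (nat_lit 460) (nat_lit 1483) (nat_lit 524) (nat_lit 3563)))) (.f (nat_lit 492) (nat_lit 493) (nat_lit 1484) (.f (nat_lit 460) (nat_lit 491) (nat_lit 1483) (.f (nat_lit 428) (nat_lit 427) (nat_lit 3499) (.f (nat_lit 524) (nat_lit 557) (nat_lit 4524) (.f (nat_lit 555) (nat_lit 523) (nat_lit 5547) (.d (nat_lit 527) (nat_lit 556) (nat_lit 1547) (nat_lit 559) (nat_lit 524))))))))))))) (.a (.p (nat_lit 527) (.a (.f (nat_lit 526) (nat_lit 561) (nat_lit 525) (.f (nat_lit 524) (nat_lit 559) (nat_lit 524) (.d (nat_lit 556) (nat_lit 555) (nat_lit 1547) (nat_lit 557) (nat_lit 1548)))) (.a (.f (nat_lit 495) (nat_lit 431) (nat_lit 4527) (.f (nat_lit 559) (nat_lit 430) (nat_lit 7598) (.f (nat_lit 561) (nat_lit 526) (nat_lit 525) (.f (nat_lit 558) (nat_lit 590) (nat_lit 5582) (.f (nat_lit 562) (nat_lit 563) (nat_lit 3599) (.d (nat_lit 594) (nat_lit 593) (nat_lit 558) (nat_lit 595) (nat_lit 559))))))) (.a (.f (nat_lit 495) (nat_lit 431) (nat_lit 4527) (.f (nat_lit 559) (nat_lit 430) (nat_lit 7598) (.f (nat_lit 558) (nat_lit 590) (nat_lit 5582) (.d (nat_lit 557) (nat_lit 524) (nat_lit 3596) (nat_lit 556) (nat_lit 2572))))) (.p (nat_lit 460) (.a (.f (nat_lit 431) (nat_lit 495) (nat_lit 4527) (.f (nat_lit 430) (nat_lit 459) (nat_lit 2475) (.f (nat_lit 557) (nat_lit 493) (nat_lit 6573) (.d (nat_lit 526) (nat_lit 556) (nat_lit 1548) (nat_lit 561) (nat_lit 525))))) (.a (.f (nat_lit 428) (nat_lit 427) (nat_lit 3499) (.f (nat_lit 526) (nat_lit 561) (nat_lit 525) (.d (nat_lit 557) (nat_lit 493) (nat_lit 7596) (nat_lit 556) (nat_lit 1548)))) (.f (nat_lit 431) (nat_lit 495) (nat_lit 4527) (.f (nat_lit 459) (nat_lit 430) (nat_lit 2475) (.d (nat_lit 427) (nat_lit 426) (nat_lit 3498) (nat_lit 428) (nat_lit 3499))))))))))) (.a (.p (nat_lit 527) (.a (.f (nat_lit 526) (nat_lit 561) (nat_lit 525) (.f (nat_lit 524) (nat_lit 559) (nat_lit 524) (.d (nat_lit 556) (nat_lit 555) (nat_lit 1547) (nat_lit 557) (nat_lit 1548)))) (.a (.f (nat_lit 495) (nat_lit 431) (nat_lit 4527) (.f (nat_lit 559) (nat_lit 430) (nat_lit 7598) (.f (nat_lit 561) (nat_lit 526) (nat_lit 525) (.f (nat_lit 558) (nat_lit 590) (nat_lit 5582) (.f (nat_lit 562) (nat_lit 563) (nat_lit 3599) (.d (nat_lit 594) (nat_lit 593) (nat_lit 558) (nat_lit 595) (nat_lit 559))))))) (.a (.f (nat_lit 495) (nat_lit 431) (nat_lit 4527) (.f (nat_lit 559) (nat_lit 430) (nat_lit 7598) (.f (nat_lit 558) (nat_lit 590) (nat_lit 5582) (.d (nat_lit 557) (nat_lit 524) (nat_lit 3596) (nat_lit 556) (nat_lit 2572))))) (.p (nat_lit 460) (.a (.f (nat_lit 431) (nat_lit 495) (nat_lit 4527) (.f (nat_lit 459) (nat_lit 430) (nat_lit 2475) (.d (nat_lit 427) (nat_lit 426) (nat_lit 3498) (nat_lit 428) (nat_lit 3499)))) (.a (.f (nat_lit 526) (nat_lit 561) (nat_lit 525) (.f (nat_lit 492) (nat_lit 491) (nat_lit 1483) (.f (nat_lit 428) (nat_lit 427) (nat_lit 3499) (.d (nat_lit 557) (nat_lit 524) (nat_lit 4524) (nat_lit 556) (nat_lit 1548))))) (.f (nat_lit 491) (nat_lit 492) (nat_lit 1483) (.f (nat_lit 459) (nat_lit 490) (nat_lit 1482) (.d (nat_lit 431) (nat_lit 430) (nat_lit 2475) (nat_lit 495) (nat_lit 4527))))))))))) (.a (.f (nat_lit 493) (nat_lit 492) (nat_lit 1484) (.f (nat_lit 557) (nat_lit 430) (nat_lit 6573) (.f (nat_lit 556) (nat_lit 588) (nat_lit 5580) (.f (nat_lit 527) (nat_lit 526) (nat_lit 1548) (.d (nat_lit 558) (nat_lit 559) (nat_lit 2572) (nat_lit 590) (nat_lit 4557)))))) (.a (.f (nat_lit 493) (nat_lit 492) (nat_lit 1484) (.f (nat_lit 557) (nat_lit 430) (nat_lit 6573) (.f (nat_lit 558) (nat_lit 590) (nat_lit 4557) (.f (nat_lit 559) (nat_lit 524) (nat_lit 3596) (.d (nat_lit 588) (nat_lit 556) (nat_lit 5580) (nat_lit 589) (nat_lit 1580)))))) (.a (.f (nat_lit 493) (nat_lit 492) (nat_lit 1484) (.f (nat_lit 557) (nat_lit 430) (nat_lit 6573) (.f (nat_lit 558) (nat_lit 590) (nat_lit 4557) (.f (nat_lit 559) (nat_lit 524) (nat_lit 3596) (.f (nat_lit 561) (nat_lit 526) (nat_lit 3597) (.f (nat_lit 594) (nat_lit 593) (nat_lit 558) (.f (nat_lit 562) (nat_lit 595) (nat_lit 559) (.f (nat_lit 531) (nat_lit 530) (nat_lit 2575) (.d (nat_lit 563) (nat_lit 527) (nat_lit 3599) (nat_lit 532) (nat_lit 2576)))))))))) (.a (.f (nat_lit 492) (nat_lit 493) (nat_lit 1484) (.f (nat_lit 460) (nat_lit 491) (nat_lit 1483) (.f (nat_lit 427) (nat_lit 428) (nat_lit 3499) (.f (nat_lit 459) (nat_lit 426) (nat_lit 3498) (.f (nat_lit 431) (nat_lit 430) (nat_lit 2475) (.f (nat_lit 527) (nat_lit 495) (nat_lit 4527) (.f (nat_lit 526) (nat_lit 561) (nat_lit 525) (.d (nat_lit 524) (nat_lit 556) (nat_lit 7595) (nat_lit 559) (nat_lit 524))))))))) (.f (nat_lit 493) (nat_lit 492) (nat_lit 1484) (.f (nat_lit 557) (nat_lit 430) (nat_lit 6573) (.f (nat_lit 588) (nat_lit 556) (nat_lit 5580) (.f (nat_lit 589) (nat_lit 620) (nat_lit 5612) (.d (nat_lit 590) (nat_lit 558) (nat_lit 4557) (nat_lit 622) (nat_lit 4589))))))))))))))) (.f (nat_lit 429) (nat_lit 428) (nat_lit 3500) (.f (nat_lit 465) (nat_lit 430) (nat_lit 3501) (.f (nat_lit 434) (nat_lit 433) (nat_lit 2478) (.f (nat_lit 466) (nat_lit 435) (nat_lit 2479) (.d (nat_lit 498) (nat_lit 497) (nat_lit 462) (nat_lit 499) (nat_lit 463))))))))))) (.a s68455 s68576))))))))) (.a (.p (nat_lit 463) (.a s65249 (.a s65255 (.a (.p (nat_lit 465) (.a (.f (nat_lit 430) (nat_lit 429) (nat_lit 3501) (.f (nat_lit 466) (nat_lit 431) (nat_lit 3502) (.d (nat_lit 434) (nat_lit 433) (nat_lit 2478) (nat_lit 435) (nat_lit 2479)))) (.a (.f (nat_lit 433) (nat_lit 434) (nat_lit 2478) (.f (nat_lit 461) (nat_lit 432) (nat_lit 2477) (.d (nat_lit 493) (nat_lit 492) (nat_lit 1484) (nat_lit 494) (nat_lit 1485)))) (.f (nat_lit 430) (nat_lit 429) (nat_lit 3501) (.f (nat_lit 466) (nat_lit 431) (nat_lit 3502) (.d (nat_lit 498) (nat_lit 497) (nat_lit 462) (nat_lit 499) (nat_lit 463))))))) (.a s65764 (.a s67413 (.a (.p (nat_lit 465) (.a (.f (nat_lit 433) (nat_lit 434) (nat_lit 2478) (.f (nat_lit 461) (nat_lit 432) (nat_lit 2477) (.d (nat_lit 493) (nat_lit 492) (nat_lit 1484) (nat_lit 494) (nat_lit 1485)))) (.a (.f (nat_lit 493) (nat_lit 494) (nat_lit 1485) (.f (nat_lit 461) (nat_lit 492) (nat_lit 1484) (.d (nat_lit 429) (nat_lit 428) (nat_lit 3500) (nat_lit 430) (nat_lit 3501)))) (.f (nat_lit 434) (nat_lit 433) (nat_lit 2478) (.f (nat_lit 466) (nat_lit 435) (nat_lit 2479) (.d (nat_lit 498) (nat_lit 497) (nat_lit 462) (nat_lit 499) (nat_lit 463))))))) (.a s68590 s68468)))))))) (.a (.p (nat_lit 494) (.a s64408 (.a s65098 (.a (.p (nat_lit 463) (.a (.f (nat_lit 465) (nat_lit 493) (nat_lit 1485) (.f (nat_lit 430) (nat_lit 429) (nat_lit 3501) (.d (nat_lit 466) (nat_lit 431) (nat_lit 3502) (nat_lit 495) (nat_lit 1486)))) (.a (.f (nat_lit 465) (nat_lit 493) (nat_lit 1485) (.f (nat_lit 466) (nat_lit 495) (nat_lit 1486) (.d (nat_lit 498) (nat_lit 497) (nat_lit 462) (nat_lit 499) (nat_lit 463)))) (.a s81246 (.a (.p (nat_lit 465) (.a (.f (nat_lit 430) (nat_lit 429) (nat_lit 3501) (.d (nat_lit 466) (nat_lit 431) (nat_lit 3502) (nat_lit 495) (nat_lit 1486))) (.a (.f (nat_lit 466) (nat_lit 495) (nat_lit 1486) (.d (nat_lit 498) (nat_lit 497) (nat_lit 462) (nat_lit 499) (nat_lit 463))) (.f (nat_lit 429) (nat_lit 430) (nat_lit 3501) (.f (nat_lit 461) (nat_lit 428) (nat_lit 3500) (.d (nat_lit 433) (nat_lit 432) (nat_lit 2477) (nat_lit 434) (nat_lit 2478))))))) (.f (nat_lit 465) (nat_lit 493) (nat_lit 1485) (.f (nat_lit 430) (nat_lit 429) (nat_lit 3501) (.f (nat_lit 431) (nat_lit 466) (nat_lit 3502) (.d (nat_lit 399) (nat_lit 367) (nat_lit 5486) (nat_lit 526) (nat_lit 6542)))))))))) (.a s64476 (.a (.p (nat_lit 463) (.a (.f (nat_lit 465) (nat_lit 493) (nat_lit 1485) (.f (nat_lit 430) (nat_lit 429) (nat_lit 3501) (.d (nat_lit 466) (nat_lit 431) (nat_lit 3502) (nat_lit 495) (nat_lit 1486)))) (.a (.f (nat_lit 465) (nat_lit 493) (nat_lit 1485) (.f (nat_lit 466) (nat_lit 495) (nat_lit 1486) (.d (nat_lit 498) (nat_lit 497) (nat_lit 462) (nat_lit 499) (nat_lit 463)))) (.a (.p (nat_lit 431) (.a (.f (nat_lit 495) (nat_lit 527) (nat_lit 4527) (.d (nat_lit 399) (nat_lit 367) (nat_lit 5486) (nat_lit 526) (nat_lit 5518))) (.a (.f (nat_lit 495) (nat_lit 527) (nat_lit 4527) (.d (nat_lit 526) (nat_lit 399) (nat_lit 5518) (nat_lit 558) (nat_lit 6574))) (.a (.f (nat_lit 527) (nat_lit 495) (nat_lit 4527) (.f (nat_lit 526) (nat_lit 558) (nat_lit 6574) (.f (nat_lit 525) (nat_lit 561) (nat_lit 525) (.d (nat_lit 430) (nat_lit 557) (nat_lit 5549) (nat_lit 559) (nat_lit 4526))))) (.a (.f (nat_lit 526) (nat_lit 558) (nat_lit 6574) (.d (nat_lit 399) (nat_lit 367) (nat_lit 5486) (nat_lit 430) (nat_lit 6542))) (.f (nat_lit 495) (nat_lit 527) (nat_lit 4527) (.f (nat_lit 399) (nat_lit 367) (nat_lit 5486) (.f (nat_lit 493) (nat_lit 492) (nat_lit 2508) (.f (nat_lit 398) (nat_lit 366) (nat_lit 7534) (.f (nat_lit 400) (nat_lit 368) (nat_lit 6511) (.f (nat_lit 430) (nat_lit 525) (nat_lit 5517) (.d (nat_lit 401) (nat_lit 402) (nat_lit 1422) (nat_lit 429) (nat_lit 1421))))))))))))) (.a s64407 (.f (nat_lit 465) (nat_lit 493) (nat_lit 1485) (.f (nat_lit 430) (nat_lit 429) (nat_lit 3501) (.f (nat_lit 431) (nat_lit 466) (nat_lit 3502) (.d (nat_lit 399) (nat_lit 367) (nat_lit 5486) (nat_lit 526) (nat_lit 6542)))))))))) (.a (.p (nat_lit 463) (.a (.f (nat_lit 465) (nat_lit 493) (nat_lit 1485) (.f (nat_lit 466) (nat_lit 495) (nat_lit 1486) (.d (nat_lit 498) (nat_lit 497) (nat_lit 462) (nat_lit 499) (nat_lit 463)))) (.a (.p (nat_lit 431) (.a (.f (nat_lit 495) (nat_lit 527) (nat_lit 4527) (.d (nat_lit 399) (nat_lit 367) (nat_lit 5486) (nat_lit 526) (nat_lit 5518))) (.a (.f (nat_lit 495) (nat_lit 527) (nat_lit 4527) (.d (nat_lit 526) (nat_lit 399) (nat_lit 5518) (nat_lit 558) (nat_lit 6574))) (.a (.f (nat_lit 527) (nat_lit 495) (nat_lit 4527) (.f (nat_lit 526) (nat_lit 558) (nat_lit 6574) (.f (nat_lit 525) (nat_lit 561) (nat_lit 525) (.d (nat_lit 430) (nat_lit 557) (nat_lit 5549) (nat_lit 559) (nat_lit 4526))))) (.a (.f (nat_lit 526) (nat_lit 558) (nat_lit 6574) (.d (nat_lit 399) (nat_lit 367) (nat_lit 5486) (nat_lit 430) (nat_lit 6542))) (.f (nat_lit 495) (nat_lit 527) (nat_lit 4527) (.f (nat_lit 399) (nat_lit 367) (nat_lit 5486) (.f (nat_lit 493) (nat_lit 492) (nat_lit 2508) (.f (nat_lit 398) (nat_lit 366) (nat_lit 7534) (.f (nat_lit 430) (nat_lit 525) (nat_lit 5517) (.f (nat_lit 397) (nat_lit 365) (nat_lit 7533) (.d (nat_lit 396) (nat_lit 395) (nat_lit 395) (nat_lit 432) (nat_lit 396))))))))))))) (.a s81251 (.f (nat_lit 465) (nat_lit 493) (nat_lit 1485) (.f (nat_lit 433) (nat_lit 434) (nat_lit 2478) (.f (nat_lit 432) (nat_lit 461) (nat_lit 2477) (.f (nat_lit 498) (nat_lit 497) (nat_lit 462) (.f (nat_lit 466) (nat_lit 499) (nat_lit 463) (.d (nat_lit 431) (nat_lit 430) (nat_lit 430) (nat_lit 467) (nat_lit 3503))))))))))) (.a s64530 (.a s67698 (.a (.p (nat_lit 463) (.a (.f (nat_lit 465) (nat_lit 493) (nat_lit 1485) (.f (nat_lit 430) (nat_lit 429) (nat_lit 3501) (.d (nat_lit 466) (nat_lit 431) (nat_lit 3502) (nat_lit 495) (nat_lit 1486)))) (.a (.f (nat_lit 465) (nat_lit 493) (nat_lit 1485) (.f (nat_lit 466) (nat_lit 495) (nat_lit 1486) (.d (nat_lit 498) (nat_lit 497) (nat_lit 462) (nat_lit 499) (nat_lit 463)))) (.a s81246 (.a s81253 (.f (nat_lit 465) (nat_lit 493) (nat_lit 1485) (.f (nat_lit 430) (nat_lit 429) (nat_lit 3501) (.f (nat_lit 431) (nat_lit 466) (nat_lit 3502) (.d (nat_lit 399) (nat_lit 367) (nat_lit 5486) (nat_lit 526) (nat_lit 6542)))))))))) (.a (.p (nat_lit 526) (.a (.p (nat_lit 527) (.a (.f (nat_lit 559) (nat_lit 430) (nat_lit 4526) (.d (nat_lit 561) (nat_lit 525) (nat_lit 525) (nat_lit 562) (nat_lit 3598))) (.a (.f (nat_lit 525) (nat_lit 561) (nat_lit 525) (.f (nat_lit 493) (nat_lit 492) (nat_lit 3564) (.d (nat_lit 557) (nat_lit 556) (nat_lit 1548) (nat_lit 589) (nat_lit 6605)))) (.f (nat_lit 559) (nat_lit 430) (nat_lit 4526) (.d (nat_lit 591) (nat_lit 495) (nat_lit 7630) (nat_lit 558) (nat_lit 4558)))))) (.a s81259 (.a (.p (nat_lit 430) (.a (.f (nat_lit 527) (nat_lit 559) (nat_lit 4526) (.f (nat_lit 398) (nat_lit 495) (nat_lit 4494) (.d (nat_lit 397) (nat_lit 365) (nat_lit 7533) (nat_lit 429) (nat_lit 7565)))) (.a (.f (nat_lit 527) (nat_lit 559) (nat_lit 4526) (.f (nat_lit 398) (nat_lit 495) (nat_lit 4494) (.d (nat_lit 399) (nat_lit 367) (nat_lit 6510) (nat_lit 431) (nat_lit 6542)))) (.f (nat_lit 429) (nat_lit 397) (nat_lit 7565) (.f (nat_lit 431) (nat_lit 399) (nat_lit 6542) (.f (nat_lit 461) (nat_lit 558) (nat_lit 7597) (.d (nat_lit 432) (nat_lit 460) (nat_lit 1452) (nat_lit 465) (nat_lit 429)))))))) (.a s81263 (.a (.p (nat_lit 430) (.a (.f (nat_lit 527) (nat_lit 559) (nat_lit 4526) (.d (nat_lit 525) (nat_lit 557) (nat_lit 5549) (nat_lit 561) (nat_lit 525))) (.a (.f (nat_lit 527) (nat_lit 559) (nat_lit 4526) (.f (nat_lit 398) (nat_lit 495) (nat_lit 4494) (.d (nat_lit 397) (nat_lit 365) (nat_lit 7533) (nat_lit 429) (nat_lit 7565)))) (.f (nat_lit 525) (nat_lit 557) (nat_lit 5549) (.f (nat_lit 398) (nat_lit 493) (nat_lit 5517) (.d (nat_lit 399) (nat_lit 367) (nat_lit 6510) (nat_lit 431) (nat_lit 6542))))))) (.p (nat_lit 430) (.a (.f (nat_lit 429) (nat_lit 397) (nat_lit 7565) (.f (nat_lit 431) (nat_lit 399) (nat_lit 6542) (.f (nat_lit 461) (nat_lit 558) (nat_lit 7597) (.d (nat_lit 432) (nat_lit 460) (nat_lit 1452) (nat_lit 465) (nat_lit 429))))) (.a (.f (nat_lit 525) (nat_lit 557) (nat_lit 5549) (.f (nat_lit 398) (nat_lit 493) (nat_lit 5517) (.d (nat_lit 399) (nat_lit 367) (nat_lit 6510) (nat_lit 431) (nat_lit 6542)))) (.f (nat_lit 525) (nat_lit 557) (nat_lit 5549) (.f (nat_lit 493) (nat_lit 398) (nat_lit 5517) (.d (nat_lit 527) (nat_lit 492) (nat_lit 3564) (nat_lit 561) (nat_lit 525))))))))))))) (.a (.p (nat_lit 526) (.a (.p (nat_lit 527) (.a (.f (nat_lit 559) (nat_lit 430) (nat_lit 4526) (.d (nat_lit 561) (nat_lit 525) (nat_lit 525) (nat_lit 562) (nat_lit 3598))) (.a (.f (nat_lit 525) (nat_lit 561) (nat_lit 525) (.f (nat_lit 493) (nat_lit 492) (nat_lit 3564) (.d (nat_lit 557) (nat_lit 556) (nat_lit 1548) (nat_lit 589) (nat_lit 6605)))) (.f (nat_lit 559) (nat_lit 430) (nat_lit 4526) (.d (nat_lit 591) (nat_lit 495) (nat_lit 7630) (nat_lit 558) (nat_lit 4558)))))) (.a s81259 (.a s64634 (.a s81263 (.a (.p (nat_lit 430) (.a (.f (nat_lit 527) (nat_lit 559) (nat_lit 4526) (.d (nat_lit 525) (nat_lit 557) (nat_lit 5549) (nat_lit 561) (nat_lit 525))) (.a (.f (nat_lit 527) (nat_lit 559) (nat_lit 4526) (.f (nat_lit 398) (nat_lit 495) (nat_lit 4494) (.d (nat_lit 397) (nat_lit 365) (nat_lit 7533) (nat_lit 429) (nat_lit 7565)))) (.f (nat_lit 525) (nat_lit 557) (nat_lit 5549) (.f (nat_lit 398) (nat_lit 493) (nat_lit 5517) (.d (nat_lit 399) (nat_lit 367) (nat_lit 6510) (nat_lit 431) (nat_lit 6542))))))) (.p (nat_lit 430) (.a (.f (nat_lit 525) (nat_lit 557) (nat_lit 5549) (.f (nat_lit 398) (nat_lit 493) (nat_lit 5517) (.d (nat_lit 399) (nat_lit 367) (nat_lit 6510) (nat_lit 431) (nat_lit 6542)))) (.a (.f (nat_lit 525) (nat_lit 557) (nat_lit 5549) (.f (nat_lit 493) (nat_lit 398) (nat_lit 5517) (.d (nat_lit 527) (nat_lit 492) (nat_lit 3564) (nat_lit 561) (nat_lit 525)))) (.f (nat_lit 429) (nat_lit 397) (nat_lit 7565) (.f (nat_lit 431) (nat_lit 399) (nat_lit 6542) (.d (nat_lit 558) (nat_lit 461) (nat_lit 7597) (nat_lit 463) (nat_lit 6574))))))))))))) (.a s64638 (.a (.p (nat_lit 463) (.a s64407 (.a (.p (nat_lit 465) (.a (.f (nat_lit 430) (nat_lit 429) (nat_lit 3501) (.d (nat_lit 466) (nat_lit 431) (nat_lit 3502) (nat_lit 495) (nat_lit 1486))) (.a (.f (nat_lit 466) (nat_lit 495) (nat_lit 1486) (.d (nat_lit 498) (nat_lit 497) (nat_lit 462) (nat_lit 499) (nat_lit 463))) (.f (nat_lit 429) (nat_lit 430) (nat_lit 3501) (.f (nat_lit 461) (nat_lit 428) (nat_lit 3500) (.d (nat_lit 433) (nat_lit 432) (nat_lit 2477) (nat_lit 434) (nat_lit 2478))))))) (.a s81251 (.a s64528 (.a (.p (nat_lit 465) (.a (.f (nat_lit 466) (nat_lit 495) (nat_lit 1486) (.d (nat_lit 498) (nat_lit 497) (nat_lit 462) (nat_lit 499) (nat_lit 463))) (.f (nat_lit 429) (nat_lit 430) (nat_lit 3501) (.f (nat_lit 461) (nat_lit 428) (nat_lit 3500) (.d (nat_lit 433) (nat_lit 432) (nat_lit 2477) (nat_lit 434) (nat_lit 2478)))))) (.a (.p (nat_lit 431) (.a (.f (nat_lit 495) (nat_lit 527) (nat_lit 4527) (.d (nat_lit 399) (nat_lit 367) (nat_lit 5486) (nat_lit 526) (nat_lit 5518))) (.a (.f (nat_lit 495) (nat_lit 527) (nat_lit 4527) (.d (nat_lit 526) (nat_lit 399) (nat_lit 5518) (nat_lit 558) (nat_lit 6574))) (.a (.f (nat_lit 527) (nat_lit 495) (nat_lit 4527) (.f (nat_lit 526) (nat_lit 558) (nat_lit 6574) (.f (nat_lit 525) (nat_lit 561) (nat_lit 525) (.d (nat_lit 430) (nat_lit 557) (nat_lit 5549) (nat_lit 559) (nat_lit 4526))))) (.a (.f (nat_lit 526) (nat_lit 558) (nat_lit 6574) (.d (nat_lit 399) (nat_lit 367) (nat_lit 5486) (nat_lit 430) (nat_lit 6542))) (.f (nat_lit 495) (nat_lit 527) (nat_lit 4527) (.f (nat_lit 465) (nat_lit 466) (nat_lit 1486) (.f (nat_lit 399) (nat_lit 367) (nat_lit 5486) (.f (nat_lit 429) (nat_lit 430) (nat_lit 3501) (.f (nat_lit 428) (nat_lit 461) (nat_lit 3500) (.f (nat_lit 398) (nat_lit 366) (nat_lit 7534) (.d (nat_lit 400) (nat_lit 368) (nat_lit 6511) (nat_lit 397) (nat_lit 1420))))))))))))) (.a s81253 (.a s64651 s64652))))))))) (.a s64655 s64673))))))))))))))) (.a (.p (nat_lit 463) (.a s65175 (.a (.p (nat_lit 465) (.a (.f (nat_lit 430) (nat_lit 429) (nat_lit 3501) (.f (nat_lit 466) (nat_lit 431) (nat_lit 3502) (.d (nat_lit 434) (nat_lit 433) (nat_lit 2478) (nat_lit 435) (nat_lit 2479)))) (.a (.f (nat_lit 494) (nat_lit 493) (nat_lit 1485) (.f (nat_lit 466) (nat_lit 495) (nat_lit 1486) (.d (nat_lit 498) (nat_lit 497) (nat_lit 462) (nat_lit 499) (nat_lit 463)))) (.f (nat_lit 433) (nat_lit 434) (nat_lit 2478) (.f (nat_lit 461) (nat_lit 432) (nat_lit 2477) (.d (nat_lit 493) (nat_lit 492) (nat_lit 1484) (nat_lit 494) (nat_lit 1485))))))) (.a s65182 (.a s65199 (.a (.p (nat_lit 465) (.a (.f (nat_lit 494) (nat_lit 493) (nat_lit 1485) (.f (nat_lit 466) (nat_lit 495) (nat_lit 1486) (.d (nat_lit 498) (nat_lit 497) (nat_lit 462) (nat_lit 499) (nat_lit 463)))) (.a (.f (nat_lit 433) (nat_lit 434) (nat_lit 2478) (.f (nat_lit 461) (nat_lit 432) (nat_lit 2477) (.d (nat_lit 493) (nat_lit 492) (nat_lit 1484) (nat_lit 494) (nat_lit 1485)))) (.f (nat_lit 433) (nat_lit 434) (nat_lit 2478) (.f (nat_lit 461) (nat_lit 432) (nat_lit 2477) (.d (nat_lit 429) (nat_lit 428) (nat_lit 3500) (nat_lit 430) (nat_lit 3501))))))) (.a s65207 (.a s65211 (.a s68601 (.a s80882 s65255)))))))))) (.a (.p (nat_lit 463) (.a (.p (nat_lit 465) (.a (.f (nat_lit 430) (nat_lit 429) (nat_lit 3501) (.f (nat_lit 466) (nat_lit 431) (nat_lit 3502) (.d (nat_lit 434) (nat_lit 433) (nat_lit 2478) (nat_lit 435) (nat_lit 2479)))) (.a (.f (nat_lit 494) (nat_lit 493) (nat_lit 1485) (.f (nat_lit 466) (nat_lit 495) (nat_lit 1486) (.d (nat_lit 498) (nat_lit 497) (nat_lit 462) (nat_lit 499) (nat_lit 463)))) (.f (nat_lit 433) (nat_lit 434) (nat_lit 2478) (.f (nat_lit 461) (nat_lit 432) (nat_lit 2477) (.d (nat_lit 493) (nat_lit 492) (nat_lit 1484) (nat_lit 494) (nat_lit 1485))))))) (.a s65182 (.a s65199 (.a (.p (nat_lit 465) (.a (.f (nat_lit 494) (nat_lit 493) (nat_lit 1485) (.f (nat_lit 466) (nat_lit 495) (nat_lit 1486) (.d (nat_lit 498) (nat_lit 497) (nat_lit 462) (nat_lit 499) (nat_lit 463)))) (.a (.f (nat_lit 433) (nat_lit 434) (nat_lit 2478) (.f (nat_lit 461) (nat_lit 432) (nat_lit 2477) (.d (nat_lit 493) (nat_lit 492) (nat_lit 1484) (nat_lit 494) (nat_lit 1485)))) (.f (nat_lit 433) (nat_lit 434) (nat_lit 2478) (.f (nat_lit 461) (nat_lit 432) (nat_lit 2477) (.d (nat_lit 429) (nat_lit 428) (nat_lit 3500) (nat_lit 430) (nat_lit 3501))))))) (.a (.p (nat_lit 465) (.a (.f (nat_lit 494) (nat_lit 493) (nat_lit 1485) (.f (nat_lit 466) (nat_lit 495) (nat_lit 1486) (.d (nat_lit 498) (nat_lit 497) (nat_lit 462) (nat_lit 499) (nat_lit 463)))) (.a (.f (nat_lit 493) (nat_lit 494) (nat_lit 1485) (.f (nat_lit 461) (nat_lit 492) (nat_lit 1484) (.d (nat_lit 429) (nat_lit 428) (nat_lit 3500) (nat_lit 430) (nat_lit 3501)))) (.f (nat_lit 430) (nat_lit 429) (nat_lit 3501) (.f (nat_lit 466) (nat_lit 431) (nat_lit 3502) (.d (nat_lit 498) (nat_lit 497) (nat_lit 462) (nat_lit 499) (nat_lit 463))))))) (.a (.p (nat_lit 465) (.a (.f (nat_lit 430) (nat_lit 429) (nat_lit 3501) (.f (nat_lit 466) (nat_lit 431) (nat_lit 3502) (.d (nat_lit 434) (nat_lit 433) (nat_lit 2478) (nat_lit 435) (nat_lit 2479)))) (.a (.f (nat_lit 494) (nat_lit 493) (nat_lit 1485) (.f (nat_lit 466) (nat_lit 495) (nat_lit 1486) (.d (nat_lit 498) (nat_lit 497) (nat_lit 462) (nat_lit 499) (nat_lit 463)))) (.p (nat_lit 495) (.a (.f (nat_lit 527) (nat_lit 431) (nat_lit 4527) (.d (nat_lit 559) (nat_lit 430) (nat_lit 7598) (nat_lit 432) (nat_lit 6575))) (.a (.f (nat_lit 527) (nat_lit 431) (nat_lit 4527) (.f (nat_lit 494) (nat_lit 493) (nat_lit 1485) (.d (nat_lit 559) (nat_lit 432) (nat_lit 6575) (nat_lit 591) (nat_lit 7630)))) (.a (.f (nat_lit 430) (nat_lit 429) (nat_lit 3501) (.f (nat_lit 494) (nat_lit 493) (nat_lit 1485) (.d (nat_lit 398) (nat_lit 366) (nat_lit 4462) (nat_lit 527) (nat_lit 4494)))) (.f (nat_lit 430) (nat_lit 429) (nat_lit 3501) (.f (nat_lit 494) (nat_lit 493) (nat_lit 1485) (.f (nat_lit 398) (nat_lit 366) (nat_lit 4462) (.f (nat_lit 399) (nat_lit 367) (nat_lit 6510) (.f (nat_lit 397) (nat_lit 365) (nat_lit 7533) (.f (nat_lit 433) (nat_lit 434) (nat_lit 2478) (.d (nat_lit 432) (nat_lit 400) (nat_lit 397) (nat_lit 431) (nat_lit 3469))))))))))))))) (.a s80901 s65255)))))))) (.p (nat_lit 463) (.a (.p (nat_lit 465) (.a (.f (nat_lit 430) (nat_lit 429) (nat_lit 3501) (.f (nat_lit 466) (nat_lit 431) (nat_lit 3502) (.d (nat_lit 434) (nat_lit 433) (nat_lit 2478) (nat_lit 435) (nat_lit 2479)))) (.a (.f (nat_lit 494) (nat_lit 493) (nat_lit 1485) (.f (nat_lit 466) (nat_lit 495) (nat_lit 1486) (.d (nat_lit 498) (nat_lit 497) (nat_lit 462) (nat_lit 499) (nat_lit 463)))) (.f (nat_lit 433) (nat_lit 434) (nat_lit 2478) (.f (nat_lit 461) (nat_lit 432) (nat_lit 2477) (.d (nat_lit 493) (nat_lit 492) (nat_lit 1484) (nat_lit 494) (nat_lit 1485))))))) (.a s65182 (.a s65199 (.a (.p (nat_lit 465) (.a (.f (nat_lit 494) (nat_lit 493) (nat_lit 1485) (.f (nat_lit 466) (nat_lit 495) (nat_lit 1486) (.d (nat_lit 498) (nat_lit 497) (nat_lit 462) (nat_lit 499) (nat_lit 463)))) (.a (.f (nat_lit 433) (nat_lit 434) (nat_lit 2478) (.f (nat_lit 461) (nat_lit 432) (nat_lit 2477) (.d (nat_lit 493) (nat_lit 492) (nat_lit 1484) (nat_lit 494) (nat_lit 1485)))) (.f (nat_lit 433) (nat_lit 434) (nat_lit 2478) (.f (nat_lit 461) (nat_lit 432) (nat_lit 2477) (.d (nat_lit 429) (nat_lit 428) (nat_lit 3500) (nat_lit 430) (nat_lit 3501))))))) (.a (.p (nat_lit 465) (.a (.f (nat_lit 494) (nat_lit 493) (nat_lit 1485) (.f (nat_lit 466) (nat_lit 495) (nat_lit 1486) (.d (nat_lit 498) (nat_lit 497) (nat_lit 462) (nat_lit 499) (nat_lit 463)))) (.a (.f (nat_lit 493) (nat_lit 494) (nat_lit 1485) (.f (nat_lit 461) (nat_lit 492) (nat_lit 1484) (.d (nat_lit 429) (nat_lit 428) (nat_lit 3500) (nat_lit 430) (nat_lit 3501)))) (.f (nat_lit 430) (nat_lit 429) (nat_lit 3501) (.f (nat_lit 466) (nat_lit 431) (nat_lit 3502) (.d (nat_lit 498) (nat_lit 497) (nat_lit 462) (nat_lit 499) (nat_lit 463))))))) (.a s68601 (.a s80874 s65255))))))))))))))))))))))))))))))))))))))))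
noncomputable def s81309 : Cert := .r (nat_lit 3773962425700235452738272624672671552423368678353569844552668320720016325916912646956153795776604718896433320128726171206400366072741871252484075489124604448077237977088) (.p (nat_lit 466) (.a (.f (nat_lit 496) (nat_lit 433) (nat_lit 6576) (.d (nat_lit 495) (nat_lit 467) (nat_lit 1487) (nat_lit 494) (nat_lit 1486))) (.a (.f (nat_lit 495) (nat_lit 494) (nat_lit 1486) (.f (nat_lit 467) (nat_lit 496) (nat_lit 1487) (.d (nat_lit 499) (nat_lit 498) (nat_lit 463) (nat_lit 500) (nat_lit 464)))) (.a (.f (nat_lit 433) (nat_lit 496) (nat_lit 6576) (.f (nat_lit 434) (nat_lit 435) (nat_lit 2479) (.f (nat_lit 498) (nat_lit 499) (nat_lit 463) (.d (nat_lit 401) (nat_lit 369) (nat_lit 4465) (nat_lit 530) (nat_lit 7569))))) (.f (nat_lit 435) (nat_lit 434) (nat_lit 2479) (.f (nat_lit 467) (nat_lit 436) (nat_lit 2480) (.d (nat_lit 499) (nat_lit 498) (nat_lit 463) (nat_lit 500) (nat_lit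 464))))))))
noncomputable def s81322 : Cert := .r (nat_lit 3773962425700235452738272624589311872811354115290248995673608856684065905542405513258590247812975560221283939098291971982140250265709139174504620074283388056494680309760) (.p (nat_lit 461) (.a (.f (nat_lit 493) (nat_lit 492) (nat_lit 1484) (.f (nat_lit 494) (nat_lit 465) (nat_lit 1485) (.f (nat_lit 428) (nat_lit 429) (nat_lit 3500) (.f (nat_lit 460) (nat_lit 427) (nat_lit 3499) (.d (nat_lit 459) (nat_lit 458) (nat_lit 458) (nat_lit 495) (nat_lit 459)))))) (.a (.f (nat_lit 493) (nat_lit 492) (nat_lit 1484) (.f (nat_lit 494) (nat_lit 465) (nat_lit 1485) (.f (nat_lit 429) (nat_lit 428) (nat_lit 3500) (.d (nat_lit 397) (nat_lit 365) (nat_lit 4461) (nat_lit 526) (nat_lit 4493))))) (.a (.f (nat_lit 496) (nat_lit 497) (nat_lit 461) (.f (nat_lit 493) (nat_lit 492) (nat_lit 1484) (.f (nat_lit 494) (nat_lit 465) (nat_lit 1485) (.f (nat_lit 495) (nat_lit 460) (nat_lit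 460) (.f (nat_lit 525) (nat_lit 524) (nat_lit 1516) (.d (nat_lit 430) (nat_lit 398) (nat_lit 5517) (nat_lit 557) (nat_lit 6573))))))) (.a (.f (nat_lit 492) (nat_lit 493) (nat_lit 1484) (.f (nat_lit 460) (nat_lit 491) (nat_lit 1483) (.d (nat_lit 428) (nat_lit 427) (nat_lit 3499) (nat_lit 429) (nat_lit 3500)))) (.f (nat_lit 496) (nat_lit 497) (nat_lit 461) (.f (nat_lit 460) (nat_lit 495) (nat_lit 460) (.d (nat_lit 428) (nat_lit 427) (nat_lit 3499) (nat_lit 429) (nat_lit 3500)))))))))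
noncomputable def s81343 : Cert := .r (nat_lit 3773962425700235452738272624672671552423368678353569844552668320720016325916912646956153795776604718896433320128726171206400366072741871252484075489124604448077237977088) (.p (nat_lit 466) (.a (.f (nat_lit 435) (nat_lit 434) (nat_lit 2479) (.f (nat_lit 467) (nat_lit 436) (nat_lit 2480) (.d (nat_lit 499) (nat_lit 498) (nat_lit 463) (nat_lit 500) (nat_lit 464)))) (.a (.f (nat_lit 498) (nat_lit 499) (nat_lit 463) (.f (nat_lit 494) (nat_lit 495) (nat_lit 1486) (.d (nat_lit 462) (nat_lit 493) (nat_lit 1485) (nat_lit 497) (nat_lit 462)))) (.f (nat_lit 434) (nat_lit 435) (nat_lit 2479) (.f (nat_lit 431) (nat_lit 430) (nat_lit 3502) (.f (nat_lit 432) (nat_lit 467) (nat_lit 3503) (.f (nat_lit 433) (nat_lit 462) (nat_lit 2478) (.f (nat_lit 402) (nat_lit 403) (nat_lit 2447) (.d (nat_lit 370) (nat_lit 338) (nat_lit 5457) (nat_lit 497) (nat_lit 5489))))))))))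
noncomputable def s81366 : Cert := .r (nat_lit 3773962425700235452738272624672671552423368678353569844552668320720016325916912646956153795776604718896433320128726171206400366072741871252484075489124604448077237977088) (.p (nat_lit 466) (.a (.f (nat_lit 435) (nat_lit 434) (nat_lit 2479) (.f (nat_lit 467) (nat_lit 436) (nat_lit 2480) (.d (nat_lit 499) (nat_lit 498) (nat_lit 463) (nat_lit 500) (nat_lit 464)))) (.a (.f (nat_lit 431) (nat_lit 430) (nat_lit 3502) (.f (nat_lit 467) (nat_lit 432) (nat_lit 3503) (.d (nat_lit 499) (nat_lit 498) (nat_lit 463) (nat_lit 500) (nat_lit 464)))) (.a (.f (nat_lit 434) (nat_lit 435) (nat_lit 2479) (.p (nat_lit 402) (.a (.f (nat_lit 498) (nat_lit 499) (nat_lit 463) (.f (nat_lit 370) (nat_lit 497) (nat_lit 5489) (.d (nat_lit 371) (nat_lit 339) (nat_lit 6482) (nat_lit 403) (nat_lit 6514)))) (.a (.f (nat_lit 498) (nat_lit 499) (nat_lit 463) (.f (nat_lit 401) (nat_lit 369) (nat_lit 7537)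 (.f (nat_lit 433) (nat_lit 530) (nat_lit 7569) (.d (nat_lit 370) (nat_lit 338) (nat_lit 5457) (nat_lit 497) (nat_lit 5489))))) (.a (.f (nat_lit 498) (nat_lit 499) (nat_lit 463) (.f (nat_lit 401) (nat_lit 369) (nat_lit 7537) (.f (nat_lit 433) (nat_lit 530) (nat_lit 7569) (.f (nat_lit 403) (nat_lit 371) (nat_lit 6514) (.d (nat_lit 431) (nat_lit 430) (nat_lit 3502) (nat_lit 432) (nat_lit 2447)))))) (.f (nat_lit 370) (nat_lit 497) (nat_lit 5489) (.f (nat_lit 338) (nat_lit 433) (nat_lit 5457) (.d (nat_lit 339) (nat_lit 307) (nat_lit 6450) (nat_lit 371) (nat_lit 6482))))))))) (.f (nat_lit 431) (nat_lit 430) (nat_lit 3502) (.f (nat_lit 467) (nat_lit 432) (nat_lit 3503) (.d (nat_lit 435) (nat_lit 434) (nat_lit 2479) (nat_lit 436) (nat_lit 2480))))))))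
noncomputable def s81551 : Cert := .r (nat_lit 3773962425700235452738272624505952193199339552226928146794549392648115485167898379561026699849346401546134558067857772757880134458676407096525164659442171664912122642432) (.p (nat_lit 464) (.a (.p (nat_lit 496) (.a (.f (nat_lit 431) (nat_lit 463) (nat_lit 7599) (.f (nat_lit 432) (nat_lit 399) (nat_lit 7567) (.d (nat_lit 433) (nat_lit 401) (nat_lit 6544) (nat_lit 465) (nat_lit 6576)))) (.a (.f (nat_lit 559) (nat_lit 591) (nat_lit 5583) (.f (nat_lit 527) (nat_lit 432) (nat_lit 5551) (.f (nat_lit 561) (nat_lit 593) (nat_lit 4560) (.d (nat_lit 562) (nat_lit 526) (nat_lit 3598) (nat_lit 563) (nat_lit 3599))))) s49829))) (.a (.p (nat_lit 496) (.a (.f (nat_lit 431) (nat_lit 463) (nat_lit 7599) (.f (nat_lit 432) (nat_lit 399) (nat_lit 7567) (.d (nat_lit 433) (nat_lit 401) (nat_lit 6544) (nat_lit 465) (nat_lit 6576)))) (.a (.f (nat_lit 559) (nat_lit 591) (nat_lit 5583) (.f (nat_lit 527) (nat_lit 432) (nat_lit 5551) (.f (nat_lit 561) (nat_lit 593) (nat_lit 4560) (.d (nat_lit 562) (nat_lit 526) (nat_lit 3598) (nat_lit 563) (nat_lit 3599))))) s62667))) (.a (.p (nat_lit 496) (.a (.f (nat_lit 559) (nat_lit 591) (nat_lit 5583) (.f (nat_lit 527) (nat_lit 432) (nat_lit 5551) (.f (nat_lit 561) (nat_lit 593) (nat_lit 4560) (.d (nat_lit 562) (nat_lit 526) (nat_lit 3598) (nat_lit 563) (nat_lit 3599))))) (.a s49829 s62679))) (.a (.p (nat_lit 496) (.a (.f (nat_lit 431) (nat_lit 463) (nat_lit 7599) (.f (nat_lit 432) (nat_lit 399) (nat_lit 7567) (.d (nat_lit 433) (nat_lit 401) (nat_lit 6544) (nat_lit 465) (nat_lit 6576)))) (.a (.f (nat_lit 559) (nat_lit 591) (nat_lit 5583) (.f (nat_lit 527) (nat_lit 432) (nat_lit 5551) (.f (nat_lit 561) (nat_lit 593) (nat_lit 4560) (.d (nat_lit 562) (nat_lit 526) (nat_lit 3598) (nat_lit 563) (nat_lit 3599))))) s62689))) (.a (.p (nat_lit 496) (.a (.f (nat_lit 431) (nat_lit 463) (nat_lit 7599) (.f (nat_lit 432) (nat_lit 399) (nat_lit 7567) (.d (nat_lit 433) (nat_lit 401) (nat_lit 6544) (nat_lit 465) (nat_lit 6576)))) (.a (.f (nat_lit 559) (nat_lit 591) (nat_lit 5583) (.f (nat_lit 527) (nat_lit 432) (nat_lit 5551) (.f (nat_lit 561) (nat_lit 593) (nat_lit 4560) (.d (nat_lit 562) (nat_lit 526) (nat_lit 3598) (nat_lit 563) (nat_lit 3599))))) s62698))) (.a (.p (nat_lit 559) (.a (.f (nat_lit 496) (nat_lit 591) (nat_lit 5583) (.f (nat_lit 527) (nat_lit 432) (nat_lit 5551) (.f (nat_lit 561) (nat_lit 593) (nat_lit 4560) (.d (nat_lit 562) (nat_lit 526) (nat_lit 3598) (nat_lit 563) (nat_lit 3599))))) (.a (.p (nat_lit 561) (.a (.d (nat_lit 496) (nat_lit 591) (nat_lit 5583) (nat_lit 593) (nat_lit 4560)) (.a (.p (nat_lit 562) (.a (.d (nat_lit 527) (nat_lit 526) (nat_lit 3598) (nat_lit 563) (nat_lit 3599)) (.a (.f (nat_lit 563) (nat_lit 527) (nat_lit 3599) (.d (nat_lit 531) (nat_lit 530) (nat_lit 2575) (nat_lit 532) (nat_lit 2576))) (.f (nat_lit 594) (nat_lit 595) (nat_lit 559) (.f (nat_lit 593) (nat_lit 558) (nat_lit 558) (.f (nat_lit 530) (nat_lit 531) (nat_lit 2575) (.d (nat_lit 498) (nat_lit 466) (nat_lit 5585) (nat_lit 625) (nat_lit 5617)))))))) (.f (nat_lit 591) (nat_lit 496) (nat_lit 5583) (.f (nat_lit 562) (nat_lit 590) (nat_lit 1582) (.d (nat_lit 527) (nat_lit 526) (nat_lit 3598) (nat_lit 563) (nat_lit 3599))))))) (.a (.p (nat_lit 558) (.a (.p (nat_lit 561) (.a (.f (nat_lit 526) (nat_lit 525) (nat_lit 3597) (.f (nat_lit 562) (nat_lit 527) (nat_lit 3598) (.d (nat_lit 594) (nat_lit 593) (nat_lit 558) (nat_lit 595) (nat_lit 559)))) (.a (.f (nat_lit 590) (nat_lit 589) (nat_lit 1581) (.f (nat_lit 562) (nat_lit 591) (nat_lit 1582) (.d (nat_lit 594) (nat_lit 593) (nat_lit 558) (nat_lit 595) (nat_lit 559)))) (.f (nat_lit 525) (nat_lit 526) (nat_lit 3597) (.f (nat_lit 557) (nat_lit 524) (nat_lit 3596) (.d (nat_lit 589) (nat_lit 588) (nat_lit 1580) (nat_lit 590) (nat_lit 1581))))))) (.a (.p (nat_lit 561) (.a (.f (nat_lit 526) (nat_lit 525) (nat_lit 3597) (.f (nat_lit 562) (nat_lit 527) (nat_lit 3598) (.d (nat_lit 594) (nat_lit 593) (nat_lit 558) (nat_lit 595) (nat_lit 559)))) (.a (.f (nat_lit 590) (nat_lit 589) (nat_lit 1581) (.f (nat_lit 562) (nat_lit 591) (nat_lit 1582) (.d (nat_lit 594) (nat_lit 593) (nat_lit 558) (nat_lit 595) (nat_lit 559)))) (.a (.p (nat_lit 591) (.a (.f (nat_lit 590) (nat_lit 589) (nat_lit 1581) (.f (nat_lit 526) (nat_lit 525) (nat_lit 3597) (.d (nat_lit 494) (nat_lit 462) (nat_lit 4558) (nat_lit 623) (nat_lit 4590)))) (.a (.f (nat_lit 590) (nat_lit 589) (nat_lit 1581) (.f (nat_lit 623) (nat_lit 655) (nat_lit 6671) (.d (nat_lit 526) (nat_lit 494) (nat_lit 4590) (nat_lit 525) (nat_lit 3597)))) (.a (.f (nat_lit 590) (nat_lit 589) (nat_lit 1581) (.f (nat_lit 623) (nat_lit 655) (nat_lit 6671) (.f (nat_lit 593) (nat_lit 594) (nat_lit 558) (.f (nat_lit 625) (nat_lit 657) (nat_lit 7696) (.f (nat_lit 624) (nat_lit 626) (nat_lit 3662) (.f (nat_lit 527) (nat_lit 656) (nat_lit 4623) (.d (nat_lit 495) (nat_lit 463) (nat_lit 5582) (nat_lit 622) (nat_lit 5614)))))))) (.a (.f (nat_lit 526) (nat_lit 525) (nat_lit 3597) (.f (nat_lit 623) (nat_lit 655) (nat_lit 7694) (.d (nat_lit 494) (nat_lit 527) (nat_lit 7662) (nat_lit 590) (nat_lit 4590)))) (.a (.f (nat_lit 526) (nat_lit 525) (nat_lit 3597) (.f (nat_lit 623) (nat_lit 655) (nat_lit 7694) (.d (nat_lit 494) (nat_lit 462) (nat_lit 4558) (nat_lit 527) (nat_lit 7662)))) (.f (nat_lit 590) (nat_lit 589) (nat_lit 1581) (.f (nat_lit 526) (nat_lit 525) (nat_lit 3597) (.f (nat_lit 494) (nat_lit 462) (nat_lit 4558) (.f (nat_lit 495) (nat_lit 463) (nat_lit 6606) (.f (nat_lit 622) (nat_lit 527) (nat_lit 5614) (.f (nat_lit 654) (nat_lit 686) (nat_lit 6702) (.d (nat_lit 653) (nat_lit 621) (nat_lit 5645) (nat_lit 685) (nat_lit 5677)))))))))))))) (.f (nat_lit 526) (nat_lit 525) (nat_lit 3597) (.f (nat_lit 590) (nat_lit 589) (nat_lit 1581) (.d (nat_lit 562) (nat_lit 527) (nat_lit 3598) (nat_lit 591) (nat_lit 1582)))))))) (.a (.p (nat_lit 561) (.a (.f (nat_lit 590) (nat_lit 589) (nat_lit 1581) (.f (nat_lit 562) (nat_lit 591) (nat_lit 1582) (.d (nat_lit 594) (nat_lit 593) (nat_lit 558) (nat_lit 595) (nat_lit 559)))) (.a (.p (nat_lit 557) (.a (.d (nat_lit 589) (nat_lit 588) (nat_lit 1580) (nat_lit 590) (nat_lit 1581)) (.a (.f (nat_lit 556) (nat_lit 527) (nat_lit 2572) (.f (nat_lit 590) (nat_lit 589) (nat_lit 1581) (.f (nat_lit 555) (nat_lit 591) (nat_lit 555) (.d (nat_lit 523) (nat_lit 522) (nat_lit 3594) (nat_lit 524) (nat_lit 3595))))) (.f (nat_lit 556) (nat_lit 527) (nat_lit 2572) (.f (nat_lit 587) (nat_lit 588) (nat_lit 1579) (.f (nat_lit 555) (nat_lit 586) (nat_lit 1578) (.d (nat_lit 523) (nat_lit 522) (nat_lit 3594) (nat_lit 524) (nat_lit 3595)))))))) (.f (nat_lit 594) (nat_lit 593) (nat_lit 558) (.f (nat_lit 562) (nat_lit 595) (nat_lit 559) (.d (nat_lit 527) (nat_lit 526) (nat_lit 3598) (nat_lit 563) (nat_lit 3599))))))) (.a (.p (nat_lit 557) (.a (.f (nat_lit 556) (nat_lit 527) (nat_lit 2572) (.d (nat_lit 588) (nat_lit 587) (nat_lit 1579) (nat_lit 589) (nat_lit 1580))) (.a (.f (nat_lit 589) (nat_lit 588) (nat_lit 1580) (.f (nat_lit 525) (nat_lit 524) (nat_lit 3596) (.f (nat_lit 590) (nat_lit 561) (nat_lit 1581) (.d (nat_lit 493) (nat_lit 461) (nat_lit 4557) (nat_lit 622) (nat_lit 4589))))) (.f (nat_lit 556) (nat_lit 527) (nat_lit 2572) (.d (nat_lit 524) (nat_lit 523) (nat_lit 3595) (nat_lit 525) (nat_lit 3596)))))) (.a s62806 (.a (.p (nat_lit 557) (.a (.f (nat_lit 556) (nat_lit 527) (nat_lit 2572) (.d (nat_lit 588) (nat_lit 587) (nat_lit 1579) (nat_lit 589) (nat_lit 1580))) (.a (.f (nat_lit 588) (nat_lit 589) (nat_lit 1580) (.f (nat_lit 556) (nat_lit 587) (nat_lit 1579) (.d (nat_lit 524) (nat_lit 523) (nat_lit 3595) (nat_lit 525) (nat_lit 3596)))) (.a (.f (nat_lit 525) (nat_lit 524) (nat_lit 3596) (.p (nat_lit 493) (.a (.f (nat_lit 589) (nat_lit 588) (nat_lit 1580) (.d (nat_lit 590) (nat_lit 461) (nat_lit 4557) (nat_lit 622) (nat_lit 4589))) (.a (.f (nat_lit 589) (nat_lit 588) (nat_lit 1580) (.f (nat_lit 494) (nat_lit 462) (nat_lit 6605) (.f (nat_lit 526) (nat_lit 621) (nat_lit 6637) (.d (nat_lit 492) (nat_lit 460) (nat_lit 7628) (nat_lit 527) (nat_lit 3564))))) (.a (.f (nat_lit 461) (nat_lit 590) (nat_lit 4557) (.f (nat_lit 462) (nat_lit 430) (nat_lit 6573) (.f (nat_lit 494) (nat_lit 589) (nat_lit 6605) (.d (nat_lit 463) (nat_lit 465) (nat_lit 1485) (nat_lit 492) (nat_lit 1484))))) (.f (nat_lit 461) (nat_lit 590) (nat_lit 4557) (.f (nat_lit 462) (nat_lit 430) (nat_lit 6573) (.f (nat_lit 463) (nat_lit 492) (nat_lit 1484) (.d (nat_lit 429) (nat_lit 428) (nat_lit 3500) (nat_lit 526) (nat_lit 4525)))))))))) (.f (nat_lit 556) (nat_lit 527) (nat_lit 2572) (.d (nat_lit 524) (nat_lit 523) (nat_lit 3595) (nat_lit 525) (nat_lit 3596))))))) (.a (.p (nat_lit 463) (.a (.p (nat_lit 527) (.a (.d (nat_lit 495) (nat_lit 432) (nat_lit 6575) (nat_lit 590) (nat_lit 5582)) (.a (.f (nat_lit 495) (nat_lit 590) (nat_lit 5582) (.f (nat_lit 462) (nat_lit 430) (nat_lit 7598) (.f (nat_lit 494) (nat_lit 591) (nat_lit 7630) (.d (nat_lit 493) (nat_lit 465) (nat_lit 1485) (nat_lit 492) (nat_lit 2508))))) (.a (.f (nat_lit 557) (nat_lit 556) (nat_lit 2572) (.f (nat_lit 525) (nat_lit 524) (nat_lit 3596) (.f (nat_lit 526) (nat_lit 561) (nat_lit 525) (.f (nat_lit 493) (nat_lit 492) (nat_lit 3564) (.d (nat_lit 461) (nat_lit 429) (nat_lit 4525) (nat_lit 590) (nat_lit 4557)))))) (.f (nat_lit 495) (nat_lit 432) (nat_lit 6575) (.f (nat_lit 462) (nat_lit 430) (nat_lit 7598) (.f (nat_lit 494) (nat_lit 591) (nat_lit 7630) (.d (nat_lit 493) (nat_lit 465) (nat_lit 1485) (nat_lit 492) (nat_lit 2508))))))))) (.a (.p (nat_lit 527) (.a (.d (nat_lit 495) (nat_lit 432) (nat_lit 6575) (nat_lit 590) (nat_lit 5582)) (.a (.f (nat_lit 495) (nat_lit 590) (nat_lit 5582) (.f (nat_lit 462) (nat_lit 430) (nat_lit 7598) (.f (nat_lit 494) (nat_lit 591) (nat_lit 7630) (.d (nat_lit 493) (nat_lit 465) (nat_lit 1485) (nat_lit 492) (nat_lit 2508))))) (.f (nat_lit 557) (nat_lit 556) (nat_lit 2572) (.f (nat_lit 525) (nat_lit 524) (nat_lit 3596) (.f (nat_lit 561) (nat_lit 526) (nat_lit 525) (.f (nat_lit 562) (nat_lit 563) (nat_lit 3599) (.d (nat_lit 594) (nat_lit 593) (nat_lit 558) (nat_lit 595) (nat_lit 559))))))))) (.a (.p (nat_lit 527) (.a (.d (nat_lit 495) (nat_lit 432) (nat_lit 6575) (nat_lit 590) (nat_lit 5582)) (.a (.f (nat_lit 557) (nat_lit 556) (nat_lit 2572) (.f (nat_lit 525) (nat_lit 524) (nat_lit 3596) (.f (nat_lit 526) (nat_lit 561) (nat_lit 525) (.f (nat_lit 493) (nat_lit 492) (nat_lit 3564) (.d (nat_lit 461) (nat_lit 429) (nat_lit 4525) (nat_lit 590) (nat_lit 4557)))))) (.f (nat_lit 557) (nat_lit 556) (nat_lit 2572) (.f (nat_lit 525) (nat_lit 524) (nat_lit 3596) (.f (nat_lit 561) (nat_lit 526) (nat_lit 525) (.f (nat_lit 562) (nat_lit 563) (nat_lit 3599) (.d (nat_lit 594) (nat_lit 593) (nat_lit 558) (nat_lit 595) (nat_lit 559))))))))) (.a (.p (nat_lit 527) (.a (.f (nat_lit 495) (nat_lit 590) (nat_lit 5582) (.f (nat_lit 462) (nat_lit 430) (nat_lit 7598) (.f (nat_lit 494) (nat_lit 591) (nat_lit 7630) (.d (nat_lit 493) (nat_lit 465) (nat_lit 1485) (nat_lit 492) (nat_lit 2508))))) (.a (.f (nat_lit 557) (nat_lit 556) (nat_lit 2572) (.f (nat_lit 525) (nat_lit 524) (nat_lit 3596) (.f (nat_lit 526) (nat_lit 561) (nat_lit 525) (.f (nat_lit 493) (nat_lit 492) (nat_lit 3564) (.d (nat_lit 461) (nat_lit 429) (nat_lit 4525) (nat_lit 590) (nat_lit 4557)))))) (.f (nat_lit 557) (nat_lit 556) (nat_lit 2572) (.f (nat_lit 525) (nat_lit 524) (nat_lit 3596) (.f (nat_lit 561) (nat_lit 526) (nat_lit 525) (.f (nat_lit 562) (nat_lit 563) (nat_lit 3599) (.d (nat_lit 594) (nat_lit 593) (nat_lit 558) (nat_lit 595) (nat_lit 559))))))))) (.a (.p (nat_lit 527) (.a (.d (nat_lit 495) (nat_lit 432) (nat_lit 6575) (nat_lit 590) (nat_lit 5582)) (.f (nat_lit 557) (nat_lit 556) (nat_lit 2572) (.f (nat_lit 525) (nat_lit 524) (nat_lit 3596) (.f (nat_lit 561) (nat_lit 526) (nat_lit 525) (.f (nat_lit 562) (nat_lit 563) (nat_lit 3599) (.d (nat_lit 594) (nat_lit 593) (nat_lit 558) (nat_lit 595) (nat_lit 559)))))))) (.a (.p (nat_lit 462) (.a (.p (nat_lit 465) (.a (.f (nat_lit 494) (nat_lit 493) (nat_lit 1485) (.f (nat_lit 526) (nat_lit 591) (nat_lit 4558) (.d (nat_lit 430) (nat_lit 429) (nat_lit 3501) (nat_lit 527) (nat_lit 4526)))) (.a (.f (nat_lit 433) (nat_lit 434) (nat_lit 2478) (.f (nat_lit 498) (nat_lit 497) (nat_lit 462) (.f (nat_lit 466) (nat_lit 499) (nat_lit 463) (.f (nat_lit 562) (nat_lit 530) (nat_lit 7601) (.f (nat_lit 494) (nat_lit 493) (nat_lit 1485) (.f (nat_lit 526) (nat_lit 591) (nat_lit 4558) (.d (nat_lit 561) (nat_lit 525) (nat_lit 3597) (nat_lit 527) (nat_lit 3598)))))))) (.f (nat_lit 429) (nat_lit 430) (nat_lit 3501) (.f (nat_lit 461) (nat_lit 428) (nat_lit 3500) (.d (nat_lit 433) (nat_lit 432) (nat_lit 2477) (nat_lit 434) (nat_lit 2478))))))) (.a (.p (nat_lit 465) (.a (.f (nat_lit 494) (nat_lit 493) (nat_lit 1485) (.f (nat_lit 526) (nat_lit 591) (nat_lit 4558) (.d (nat_lit 430) (nat_lit 429) (nat_lit 3501) (nat_lit 527) (nat_lit 4526)))) (.a (.f (nat_lit 433) (nat_lit 434) (nat_lit 2478) (.f (nat_lit 498) (nat_lit 497) (nat_lit 462) (.f (nat_lit 466) (nat_lit 499) (nat_lit 463) (.f (nat_lit 562) (nat_lit 530) (nat_lit 7601) (.f (nat_lit 494) (nat_lit 493) (nat_lit 1485) (.f (nat_lit 526) (nat_lit 591) (nat_lit 4558) (.d (nat_lit 561) (nat_lit 525) (nat_lit 3597) (nat_lit 527) (nat_lit 3598)))))))) (.a (.f (nat_lit 433) (nat_lit 434) (nat_lit 2478) (.f (nat_lit 498) (nat_lit 497) (nat_lit 462) (.f (nat_lit 466) (nat_lit 499) (nat_lit 463) (.f (nat_lit 562) (nat_lit 530) (nat_lit 7601) (.f (nat_lit 461) (nat_lit 432) (nat_lit 2477) (.f (nat_lit 429) (nat_lit 430) (nat_lit 3501) (.f (nat_lit 526) (nat_lit 494) (nat_lit 7597) (.d (nat_lit 561) (nat_lit 525) (nat_lit 3597) (nat_lit 527) (nat_lit 3598))))))))) (.a (.f (nat_lit 433) (nat_lit 434) (nat_lit 2478) (.f (nat_lit 498) (nat_lit 497) (nat_lit 462) (.f (nat_lit 466) (nat_lit 499) (nat_lit 463) (.f (nat_lit 562) (nat_lit 530) (nat_lit 7601) (.f (nat_lit 461) (nat_lit 432) (nat_lit 2477) (.f (nat_lit 493) (nat_lit 492) (nat_lit 1484) (.f (nat_lit 430) (nat_lit 429) (nat_lit 3501) (.f (nat_lit 525) (nat_lit 557) (nat_lit 6573) (.f (nat_lit 561) (nat_lit 526) (nat_lit 3597) (.d (nat_lit 594) (nat_lit 593) (nat_lit 558) (nat_lit 595) (nat_lit 559))))))))))) (.f (nat_lit 433) (nat_lit 434) (nat_lit 2478) (.f (nat_lit 461) (nat_lit 432) (nat_lit 2477) (.d (nat_lit 493) (nat_lit 492) (nat_lit 1484) (nat_lit 494) (nat_lit 1485))))))))) (.a (.p (nat_lit 526) (.a (.f (nat_lit 525) (nat_lit 561) (nat_lit 3597) (.d (nat_lit 524) (nat_lit 523) (nat_lit 523) (nat_lit 557) (nat_lit 3596))) (.a (.f (nat_lit 561) (nat_lit 525) (nat_lit 3597) (.f (nat_lit 562) (nat_lit 527) (nat_lit 3598) (.d (nat_lit 594) (nat_lit 593) (nat_lit 558) (nat_lit 595) (nat_lit 559)))) (.f (nat_lit 494) (nat_lit 591) (nat_lit 4558) (.f (nat_lit 527) (nat_lit 430) (nat_lit 4526) (.f (nat_lit 493) (nat_lit 465) (nat_lit 1485) (.d (nat_lit 492) (nat_lit 461) (nat_lit 1484) (nat_lit 491) (nat_lit 491)))))))) (.a (.p (nat_lit 461) (.a (.f (nat_lit 493) (nat_lit 492) (nat_lit 1484) (.f (nat_lit 429) (nat_lit 428) (nat_lit 3500) (.d (nat_lit 526) (nat_lit 494) (nat_lit 7597) (nat_lit 525) (nat_lit 4525)))) (.a (.f (nat_lit 493) (nat_lit 492) (nat_lit 1484) (.f (nat_lit 494) (nat_lit 465) (nat_lit 1485) (.d (nat_lit 526) (nat_lit 429) (nat_lit 7597) (nat_lit 591) (nat_lit 4558)))) (.a (.f (nat_lit 493) (nat_lit 492) (nat_lit 1484) (.f (nat_lit 465) (nat_lit 494) (nat_lit 1485) (.d (nat_lit 433) (nat_lit 432) (nat_lit 2477) (nat_lit 434) (nat_lit 2478)))) (.a (.f (nat_lit 429) (nat_lit 428) (nat_lit 3500) (.f (nat_lit 526) (nat_lit 494) (nat_lit 7597) (.d (nat_lit 525) (nat_lit 493) (nat_lit 4525) (nat_lit 561) (nat_lit 3597)))) (.a (.f (nat_lit 429) (nat_lit 428) (nat_lit 3500) (.f (nat_lit 526) (nat_lit 494) (nat_lit 7597) (.f (nat_lit 561) (nat_lit 525) (nat_lit 3597) (.f (nat_lit 562) (nat_lit 527) (nat_lit 3598) (.d (nat_lit 594) (nat_lit 593) (nat_lit 558) (nat_lit 595) (nat_lit 559)))))) (.f (nat_lit 492) (nat_lit 493) (nat_lit 1484) (.f (nat_lit 460) (nat_lit 491) (nat_lit 1483) (.d (nat_lit 428) (nat_lit 427) (nat_lit 3499) (nat_lit 429) (nat_lit 3500)))))))))) (.a (.p (nat_lit 465) (.a (.f (nat_lit 494) (nat_lit 493) (nat_lit 1485) (.f (nat_lit 526) (nat_lit 591) (nat_lit 4558) (.d (nat_lit 430) (nat_lit 429) (nat_lit 3501) (nat_lit 527) (nat_lit 4526)))) (.a (.f (nat_lit 433) (nat_lit 434) (nat_lit 2478) (.f (nat_lit 498) (nat_lit 497) (nat_lit 462) (.f (nat_lit 466) (nat_lit 499) (nat_lit 463) (.f (nat_lit 562) (nat_lit 530) (nat_lit 7601) (.f (nat_lit 494) (nat_lit 493) (nat_lit 1485) (.f (nat_lit 526) (nat_lit 591) (nat_lit 4558) (.d (nat_lit 561) (nat_lit 525) (nat_lit 3597) (nat_lit 527) (nat_lit 3598)))))))) (.f (nat_lit 434) (nat_lit 433) (nat_lit 2478) (.f (nat_lit 466) (nat_lit 435) (nat_lit 2479) (.d (nat_lit 498) (nat_lit 497) (nat_lit 462) (nat_lit 499) (nat_lit 463))))))) (.a (.p (nat_lit 526) (.a (.f (nat_lit 525) (nat_lit 561) (nat_lit 3597) (.d (nat_lit 524) (nat_lit 523) (nat_lit 523) (nat_lit 557) (nat_lit 3596))) (.a (.f (nat_lit 561) (nat_lit 525) (nat_lit 3597) (.f (nat_lit 562) (nat_lit 527) (nat_lit 3598) (.d (nat_lit 594) (nat_lit 593) (nat_lit 558) (nat_lit 595) (nat_lit 559)))) (.f (nat_lit 494) (nat_lit 591) (nat_lit 4558) (.f (nat_lit 461) (nat_lit 429) (nat_lit 7597) (.d (nat_lit 493) (nat_lit 492) (nat_lit 1484) (nat_lit 590) (nat_lit 7629))))))) (.a (.p (nat_lit 526) (.a (.f (nat_lit 525) (nat_lit 561) (nat_lit 3597) (.d (nat_lit 524) (nat_lit 523) (nat_lit 523) (nat_lit 557) (nat_lit 3596))) (.a (.f (nat_lit 561) (nat_lit 525) (nat_lit 3597) (.f (nat_lit 562) (nat_lit 527) (nat_lit 3598) (.d (nat_lit 594) (nat_lit 593) (nat_lit 558) (nat_lit 595) (nat_lit 559)))) (.f (nat_lit 494) (nat_lit 591) (nat_lit 4558) (.f (nat_lit 429) (nat_lit 461) (nat_lit 7597) (.d (nat_lit 430) (nat_lit 397) (nat_lit 7565) (nat_lit 527) (nat_lit 4526))))))) (.a (.p (nat_lit 461) (.a (.f (nat_lit 492) (nat_lit 493) (nat_lit 1484) (.f (nat_lit 460) (nat_lit 491) (nat_lit 1483) (.d (nat_lit 428) (nat_lit 427) (nat_lit 3499) (nat_lit 429) (nat_lit 3500)))) (.a (.f (nat_lit 493) (nat_lit 492) (nat_lit 1484) (.f (nat_lit 429) (nat_lit 428) (nat_lit 3500) (.f (nat_lit 525) (nat_lit 526) (nat_lit 4525) (.d (nat_lit 430) (nat_lit 465) (nat_lit 3501) (nat_lit 557) (nat_lit 6573))))) (.a (.f (nat_lit 493) (nat_lit 492) (nat_lit 1484) (.f (nat_lit 433) (nat_lit 432) (nat_lit 2477) (.f (nat_lit 465) (nat_lit 434) (nat_lit 2478) (.f (nat_lit 498) (nat_lit 497) (nat_lit 462) (.f (nat_lit 466) (nat_lit 499) (nat_lit 463) (.f (nat_lit 562) (nat_lit 530) (nat_lit 7601) (.f (nat_lit 430) (nat_lit 429) (nat_lit 3501) (.f (nat_lit 525) (nat_lit 557) (nat_lit 6573) (.f (nat_lit 561) (nat_lit 526) (nat_lit 3597) (.d (nat_lit 594) (nat_lit 593) (nat_lit 558) (nat_lit 595) (nat_lit 559))))))))))) (.a (.f (nat_lit 492) (nat_lit 493) (nat_lit 1484) (.f (nat_lit 460) (nat_lit 491) (nat_lit 1483) (.f (nat_lit 427) (nat_lit 428) (nat_lit 3499) (.f (nat_lit 459) (nat_lit 426) (nat_lit 3498) (.f (nat_lit 524) (nat_lit 556) (nat_lit 7595) (.f (nat_lit 525) (nat_lit 557) (nat_lit 3596) (.d (nat_lit 526) (nat_lit 523) (nat_lit 523) (nat_lit 527) (nat_lit 524)))))))) (.f (nat_lit 429) (nat_lit 428) (nat_lit 3500) (.f (nat_lit 465) (nat_lit 430) (nat_lit 3501) (.d (nat_lit 433) (nat_lit 432) (nat_lit 2477) (nat_lit 434) (nat_lit 2478))))))))) (.a (.p (nat_lit 465) (.a (.f (nat_lit 494) (nat_lit 493) (nat_lit 1485) (.f (nat_lit 526) (nat_lit 591) (nat_lit 4558) (.d (nat_lit 430) (nat_lit 429) (nat_lit 3501) (nat_lit 527) (nat_lit 4526)))) (.a (.f (nat_lit 433) (nat_lit 434) (nat_lit 2478) (.f (nat_lit 461) (nat_lit 432) (nat_lit 2477) (.d (nat_lit 493) (nat_lit 492) (nat_lit 1484) (nat_lit 494) (nat_lit 1485)))) (.f (nat_lit 429) (nat_lit 430) (nat_lit 3501) (.f (nat_lit 461) (nat_lit 428) (nat_lit 3500) (.d (nat_lit 433) (nat_lit 432) (nat_lit 2477) (nat_lit 434) (nat_lit 2478))))))) s62951)))))))))) (.a (.p (nat_lit 561) (.a (.f (nat_lit 526) (nat_lit 525) (nat_lit 3597) (.f (nat_lit 527) (nat_lit 562) (nat_lit 3598) (.d (nat_lit 495) (nat_lit 432) (nat_lit 6575) (nat_lit 590) (nat_lit 5582)))) (.a (.f (nat_lit 526) (nat_lit 525) (nat_lit 3597) (.f (nat_lit 527) (nat_lit 562) (nat_lit 3598) (.f (nat_lit 495) (nat_lit 590) (nat_lit 5582) (.f (nat_lit 462) (nat_lit 430) (nat_lit 7598) (.f (nat_lit 494) (nat_lit 591) (nat_lit 4558) (.d (nat_lit 493) (nat_lit 465) (nat_lit 1485) (nat_lit 492) (nat_lit 2508))))))) (.a (.f (nat_lit 526) (nat_lit 525) (nat_lit 3597) (.f (nat_lit 562) (nat_lit 527) (nat_lit 3598) (.d (nat_lit 594) (nat_lit 593) (nat_lit 558) (nat_lit 595) (nat_lit 559)))) (.a (.f (nat_lit 594) (nat_lit 593) (nat_lit 558) (.f (nat_lit 562) (nat_lit 595) (nat_lit 559) (.d (nat_lit 527) (nat_lit 526) (nat_lit 3598) (nat_lit 563) (nat_lit 3599)))) (.a (.f (nat_lit 594) (nat_lit 593) (nat_lit 558) (.f (nat_lit 562) (nat_lit 595) (nat_lit 559) (.f (nat_lit 527) (nat_lit 563) (nat_lit 3599) (.d (nat_lit 590) (nat_lit 495) (nat_lit 5582) (nat_lit 591) (nat_lit 1582))))) (.a (.f (nat_lit 594) (nat_lit 593) (nat_lit 558) (.f (nat_lit 562) (nat_lit 595) (nat_lit 559) (.f (nat_lit 531) (nat_lit 530) (nat_lit 2575) (.f (nat_lit 563) (nat_lit 532) (nat_lit 2576) (.f (nat_lit 499) (nat_lit 467) (nat_lit 5586) (.f (nat_lit 526) (nat_lit 525) (nat_lit 3597) (.f (nat_lit 590) (nat_lit 591) (nat_lit 1582) (.f (nat_lit 494) (nat_lit 495) (nat_lit 6606) (.f (nat_lit 461) (nat_lit 493) (nat_lit 7629) (.f (nat_lit 462) (nat_lit 429) (nat_lit 7597) (.f (nat_lit 433) (nat_lit 432) (nat_lit 2477) (.f (nat_lit 465) (nat_lit 434) (nat_lit 2478) (.d (nat_lit 498) (nat_lit 466) (nat_lit 463) (nat_lit 497) (nat_lit 462)))))))))))))) (.p (nat_lit 495) (.a (.d (nat_lit 527) (nat_lit 432) (nat_lit 6575) (nat_lit 590) (nat_lit 5582)) (.a (.f (nat_lit 527) (nat_lit 590) (nat_lit 5582) (.f (nat_lit 526) (nat_lit 525) (nat_lit 3597) (.f (nat_lit 462) (nat_lit 430) (nat_lit 7598) (.f (nat_lit 494) (nat_lit 591) (nat_lit 4558) (.d (nat_lit 493) (nat_lit 465) (nat_lit 1485) (nat_lit 492) (nat_lit 2508)))))) (.a (.f (nat_lit 526) (nat_lit 525) (nat_lit 3597) (.f (nat_lit 494) (nat_lit 590) (nat_lit 6606) (.f (nat_lit 462) (nat_lit 591) (nat_lit 4558) (.d (nat_lit 465) (nat_lit 466) (nat_lit 1486) (nat_lit 493) (nat_lit 1485))))) (.f (nat_lit 527) (nat_lit 432) (nat_lit 6575) (.f (nat_lit 526) (nat_lit 525) (nat_lit 3597) (.f (nat_lit 462) (nat_lit 430) (nat_lit 7598) (.f (nat_lit 494) (nat_lit 591) (nat_lit 4558) (.d (nat_lit 493) (nat_lit 465) (nat_lit 1485) (nat_lit 492) (nat_lit 2508))))))))))))))))) (.a (.p (nat_lit 465) (.a (.p (nat_lit 462) (.a (.f (nat_lit 494) (nat_lit 493) (nat_lit 1485) (.f (nat_lit 526) (nat_lit 591) (nat_lit 4558) (.d (nat_lit 430) (nat_lit 429) (nat_lit 3501) (nat_lit 527) (nat_lit 4526)))) (.a (.f (nat_lit 433) (nat_lit 434) (nat_lit 2478) (.f (nat_lit 461) (nat_lit 432) (nat_lit 2477) (.d (nat_lit 493) (nat_lit 492) (nat_lit 1484) (nat_lit 494) (nat_lit 1485)))) (.f (nat_lit 429) (nat_lit 430) (nat_lit 3501) (.f (nat_lit 461) (nat_lit 428) (nat_lit 3500) (.d (nat_lit 433) (nat_lit 432) (nat_lit 2477) (nat_lit 434) (nat_lit 2478))))))) (.a (.p (nat_lit 462) (.a (.f (nat_lit 494) (nat_lit 493) (nat_lit 1485) (.f (nat_lit 526) (nat_lit 591) (nat_lit 4558) (.d (nat_lit 430) (nat_lit 429) (nat_lit 3501) (nat_lit 527) (nat_lit 4526)))) (.a (.f (nat_lit 433) (nat_lit 434) (nat_lit 2478) (.f (nat_lit 461) (nat_lit 432) (nat_lit 2477) (.d (nat_lit 493) (nat_lit 492) (nat_lit 1484) (nat_lit 494) (nat_lit 1485)))) (.f (nat_lit 434) (nat_lit 433) (nat_lit 2478) (.f (nat_lit 466) (nat_lit 435) (nat_lit 2479) (.d (nat_lit 498) (nat_lit 497) (nat_lit 462) (nat_lit 499) (nat_lit 463))))))) (.a (.p (nat_lit 462) (.a (.f (nat_lit 433) (nat_lit 434) (nat_lit 2478) (.f (nat_lit 461) (nat_lit 432) (nat_lit 2477) (.d (nat_lit 493) (nat_lit 492) (nat_lit 1484) (nat_lit 494) (nat_lit 1485)))) (.a (.f (nat_lit 434) (nat_lit 433) (nat_lit 2478) (.f (nat_lit 466) (nat_lit 435) (nat_lit 2479) (.d (nat_lit 498) (nat_lit 497) (nat_lit 462) (nat_lit 499) (nat_lit 463)))) (.f (nat_lit 494) (nat_lit 493) (nat_lit 1485) (.f (nat_lit 495) (nat_lit 466) (nat_lit 1486) (.d (nat_lit 590) (nat_lit 526) (nat_lit 6606) (nat_lit 527) (nat_lit 5582))))))) (.a (.p (nat_lit 462) (.a (.f (nat_lit 494) (nat_lit 493) (nat_lit 1485) (.f (nat_lit 526) (nat_lit 591) (nat_lit 4558) (.d (nat_lit 430) (nat_lit 429) (nat_lit 3501) (nat_lit 527) (nat_lit 4526)))) (.f (nat_lit 434) (nat_lit 433) (nat_lit 2478) (.f (nat_lit 466) (nat_lit 435) (nat_lit 2479) (.d (nat_lit 498) (nat_lit 497) (nat_lit 462) (nat_lit 499) (nat_lit 463)))))) (.a (.p (nat_lit 462) (.a (.f (nat_lit 494) (nat_lit 493) (nat_lit 1485) (.f (nat_lit 526) (nat_lit 591) (nat_lit 4558) (.d (nat_lit 430) (nat_lit 429) (nat_lit 3501) (nat_lit 527) (nat_lit 4526)))) (.a (.f (nat_lit 494) (nat_lit 493) (nat_lit 1485) (.f (nat_lit 495) (nat_lit 466) (nat_lit 1486) (.d (nat_lit 590) (nat_lit 526) (nat_lit 6606) (nat_lit 527) (nat_lit 5582)))) (.a (.f (nat_lit 430) (nat_lit 429) (nat_lit 3501) (.f (nat_lit 527) (nat_lit 495) (nat_lit 7598) (.f (nat_lit 526) (nat_lit 494) (nat_lit 4526) (.f (nat_lit 498) (nat_lit 497) (nat_lit 462) (.f (nat_lit 466) (nat_lit 499) (nat_lit 463) (.f (nat_lit 562) (nat_lit 561) (nat_lit 3598) (.f (nat_lit 435) (nat_lit 434) (nat_lit 2479) (.d (nat_lit 467) (nat_lit 436) (nat_lit 2480) (nat_lit 530) (nat_lit 6578))))))))) (.a (.f (nat_lit 430) (nat_lit 429) (nat_lit 3501) (.f (nat_lit 527) (nat_lit 495) (nat_lit 7598) (.f (nat_lit 498) (nat_lit 497) (nat_lit 462) (.f (nat_lit 466) (nat_lit 499) (nat_lit 463) (.f (nat_lit 435) (nat_lit 434) (nat_lit 2479) (.f (nat_lit 467) (nat_lit 436) (nat_lit 2480) (.f (nat_lit 562) (nat_lit 530) (nat_lit 6578) (.d (nat_lit 561) (nat_lit 526) (nat_lit 3598) (nat_lit 563) (nat_lit 3599))))))))) (.f (nat_lit 429) (nat_lit 430) (nat_lit 3501) (.f (nat_lit 461) (nat_lit 428) (nat_lit 3500) (.d (nat_lit 493) (nat_lit 492) (nat_lit 1484) (nat_lit 494) (nat_lit 1485))))))))) (.a (.p (nat_lit 462) (.a (.f (nat_lit 494) (nat_lit 493) (nat_lit 1485) (.f (nat_lit 526) (nat_lit 591) (nat_lit 4558) (.d (nat_lit 430) (nat_lit 429) (nat_lit 3501) (nat_lit 527) (nat_lit 4526)))) (.a (.f (nat_lit 494) (nat_lit 493) (nat_lit 1485) (.f (nat_lit 495) (nat_lit 466) (nat_lit 1486) (.d (nat_lit 590) (nat_lit 526) (nat_lit 6606) (nat_lit 527) (nat_lit 5582)))) (.a (.f (nat_lit 430) (nat_lit 429) (nat_lit 3501) (.f (nat_lit 495) (nat_lit 527) (nat_lit 7598) (.f (nat_lit 494) (nat_lit 466) (nat_lit 1486) (.d (nat_lit 526) (nat_lit 590) (nat_lit 6606) (nat_lit 591) (nat_lit 4558))))) (.a (.f (nat_lit 498) (nat_lit 497) (nat_lit 462) (.f (nat_lit 466) (nat_lit 499) (nat_lit 463) (.f (nat_lit 429) (nat_lit 430) (nat_lit 3501) (.f (nat_lit 461) (nat_lit 428) (nat_lit 3500) (.f (nat_lit 433) (nat_lit 432) (nat_lit 2477) (.f (nat_lit 562) (nat_lit 530) (nat_lit 7601) (.f (nat_lit 492) (nat_lit 493) (nat_lit 1484) (.f (nat_lit 460) (nat_lit 491) (nat_lit 1483) (.f (nat_lit 556) (nat_lit 524) (nat_lit 6572) (.f (nat_lit 527) (nat_lit 557) (nat_lit 2572) (.d (nat_lit 561) (nat_lit 526) (nat_lit 3598) (nat_lit 563) (nat_lit 3599)))))))))))) (.f (nat_lit 429) (nat_lit 430) (nat_lit 3501) (.f (nat_lit 461) (nat_lit 428) (nat_lit 3500) (.d (nat_lit 493) (nat_lit 492) (nat_lit 1484) (nat_lit 494) (nat_lit 1485))))))))) (.a (.p (nat_lit 466) (.a (.f (nat_lit 495) (nat_lit 494) (nat_lit 1486) (.d (nat_lit 527) (nat_lit 432) (nat_lit 6575) (nat_lit 590) (nat_lit 5582))) (.f (nat_lit 499) (nat_lit 498) (nat_lit 463) (.f (nat_lit 467) (nat_lit 500) (nat_lit 464) (.d (nat_lit 435) (nat_lit 434) (nat_lit 2479) (nat_lit 436) (nat_lit 2480)))))) (.a (.p (nat_lit 462) (.a (.f (nat_lit 429) (nat_lit 430) (nat_lit 3501) (.f (nat_lit 461) (nat_lit 428) (nat_lit 3500) (.d (nat_lit 433) (nat_lit 432) (nat_lit 2477) (nat_lit 434) (nat_lit 2478)))) (.a (.f (nat_lit 434) (nat_lit 433) (nat_lit 2478) (.f (nat_lit 466) (nat_lit 435) (nat_lit 2479) (.d (nat_lit 498) (nat_lit 497) (nat_lit 462) (nat_lit 499) (nat_lit 463)))) (.a (.f (nat_lit 430) (nat_lit 429) (nat_lit 3501) (.f (nat_lit 527) (nat_lit 495) (nat_lit 7598) (.f (nat_lit 498) (nat_lit 497) (nat_lit 462) (.f (nat_lit 466) (nat_lit 499) (nat_lit 463) (.f (nat_lit 435) (nat_lit 434) (nat_lit 2479) (.f (nat_lit 467) (nat_lit 436) (nat_lit 2480) (.f (nat_lit 562) (nat_lit 530) (nat_lit 6578) (.d (nat_lit 561) (nat_lit 526) (nat_lit 3598) (nat_lit 563) (nat_lit 3599))))))))) (.f (nat_lit 498) (nat_lit 497) (nat_lit 462) (.f (nat_lit 466) (nat_lit 499) (nat_lit 463) (.f (nat_lit 429) (nat_lit 430) (nat_lit 3501) (.f (nat_lit 461) (nat_lit 428) (nat_lit 3500) (.f (nat_lit 433) (nat_lit 432) (nat_lit 2477) (.f (nat_lit 562) (nat_lit 530) (nat_lit 7601) (.f (nat_lit 492) (nat_lit 493) (nat_lit 1484) (.f (nat_lit 460) (nat_lit 491) (nat_lit 1483) (.f (nat_lit 556) (nat_lit 524) (nat_lit 6572) (.f (nat_lit 527) (nat_lit 557) (nat_lit 2572) (.d (nat_lit 561) (nat_lit 526) (nat_lit 3598) (nat_lit 563) (nat_lit 3599)))))))))))))))) (.p (nat_lit 462) (.a (.f (nat_lit 429) (nat_lit 430) (nat_lit 3501) (.f (nat_lit 461) (nat_lit 428) (nat_lit 3500) (.d (nat_lit 433) (nat_lit 432) (nat_lit 2477) (nat_lit 434) (nat_lit 2478)))) (.a (.f (nat_lit 433) (nat_lit 434) (nat_lit 2478) (.f (nat_lit 461) (nat_lit 432) (nat_lit 2477) (.d (nat_lit 493) (nat_lit 492) (nat_lit 1484) (nat_lit 494) (nat_lit 1485)))) (.a (.f (nat_lit 434) (nat_lit 433) (nat_lit 2478) (.f (nat_lit 466) (nat_lit 435) (nat_lit 2479) (.d (nat_lit 498) (nat_lit 497) (nat_lit 462) (nat_lit 499) (nat_lit 463)))) (.f (nat_lit 429) (nat_lit 430) (nat_lit 3501) (.f (nat_lit 461) (nat_lit 428) (nat_lit 3500) (.d (nat_lit 493) (nat_lit 492) (nat_lit 1484) (nat_lit 494) (nat_lit 1485))))))))))))))))) (.a (.p (nat_lit 462) (.a s62951 (.a (.p (nat_lit 465) (.a (.f (nat_lit 433) (nat_lit 434) (nat_lit 2478) (.f (nat_lit 461) (nat_lit 432) (nat_lit 2477) (.d (nat_lit 493) (nat_lit 492) (nat_lit 1484) (nat_lit 494) (nat_lit 1485)))) (.a (.f (nat_lit 434) (nat_lit 433) (nat_lit 2478) (.f (nat_lit 466) (nat_lit 435) (nat_lit 2479) (.d (nat_lit 498) (nat_lit 497) (nat_lit 462) (nat_lit 499) (nat_lit 463)))) (.f (nat_lit 494) (nat_lit 493) (nat_lit 1485) (.f (nat_lit 495) (nat_lit 466) (nat_lit 1486) (.d (nat_lit 527) (nat_lit 432) (nat_lit 6575) (nat_lit 590) (nat_lit 5582))))))) (.a (.p (nat_lit 465) (.a (.f (nat_lit 434) (nat_lit 433) (nat_lit 2478) (.f (nat_lit 466) (nat_lit 435) (nat_lit 2479) (.d (nat_lit 498) (nat_lit 497) (nat_lit 462) (nat_lit 499) (nat_lit 463)))) (.f (nat_lit 429) (nat_lit 430) (nat_lit 3501) (.f (nat_lit 461) (nat_lit 428) (nat_lit 3500) (.d (nat_lit 493) (nat_lit 492) (nat_lit 1484) (nat_lit 494) (nat_lit 1485)))))) (.a (.p (nat_lit 465) (.a (.f (nat_lit 429) (nat_lit 430) (nat_lit 3501) (.f (nat_lit 461) (nat_lit 428) (nat_lit 3500) (.d (nat_lit 493) (nat_lit 492) (nat_lit 1484) (nat_lit 494) (nat_lit 1485)))) (.a (.f (nat_lit 494) (nat_lit 493) (nat_lit 1485) (.f (nat_lit 495) (nat_lit 466) (nat_lit 1486) (.d (nat_lit 527) (nat_lit 432) (nat_lit 6575) (nat_lit 590) (nat_lit 5582)))) (.a (.f (nat_lit 430) (nat_lit 429) (nat_lit 3501) (.f (nat_lit 495) (nat_lit 527) (nat_lit 7598) (.f (nat_lit 466) (nat_lit 494) (nat_lit 1486) (.d (nat_lit 498) (nat_lit 497) (nat_lit 462) (nat_lit 499) (nat_lit 463))))) (.f (nat_lit 430) (nat_lit 429) (nat_lit 3501) (.f (nat_lit 527) (nat_lit 495) (nat_lit 7598) (.f (nat_lit 498) (nat_lit 497) (nat_lit 462) (.f (nat_lit 466) (nat_lit 499) (nat_lit 463) (.f (nat_lit 435) (nat_lit 434) (nat_lit 2479) (.f (nat_lit 467) (nat_lit 436) (nat_lit 2480) (.f (nat_lit 562) (nat_lit 530) (nat_lit 6578) (.f (nat_lit 561) (nat_lit 563) (nat_lit 3599) (.d (nat_lit 594) (nat_lit 593) (nat_lit 558) (nat_lit 595) (nat_lit 559)))))))))))))) (.a (.p (nat_lit 461) (.a (.f (nat_lit 492) (nat_lit 493) (nat_lit 1484) (.f (nat_lit 460) (nat_lit 491) (nat_lit 1483) (.d (nat_lit 428) (nat_lit 427) (nat_lit 3499) (nat_lit 429) (nat_lit 3500)))) (.a (.f (nat_lit 493) (nat_lit 492) (nat_lit 1484) (.f (nat_lit 429) (nat_lit 428) (nat_lit 3500) (.d (nat_lit 465) (nat_lit 430) (nat_lit 3501) (nat_lit 494) (nat_lit 1485)))) (.a (.f (nat_lit 493) (nat_lit 492) (nat_lit 1484) (.f (nat_lit 465) (nat_lit 494) (nat_lit 1485) (.f (nat_lit 430) (nat_lit 429) (nat_lit 3501) (.f (nat_lit 557) (nat_lit 525) (nat_lit 6573) (.d (nat_lit 527) (nat_lit 495) (nat_lit 7598) (nat_lit 556) (nat_lit 2572)))))) (.a (.f (nat_lit 493) (nat_lit 492) (nat_lit 1484) (.f (nat_lit 432) (nat_lit 433) (nat_lit 2477) (.f (nat_lit 527) (nat_lit 495) (nat_lit 6575) (.f (nat_lit 557) (nat_lit 556) (nat_lit 2572) (.d (nat_lit 525) (nat_lit 524) (nat_lit 3596) (nat_lit 590) (nat_lit 4557)))))) (.a (.f (nat_lit 429) (nat_lit 428) (nat_lit 3500) (.f (nat_lit 430) (nat_lit 465) (nat_lit 3501) (.f (nat_lit 527) (nat_lit 495) (nat_lit 7598) (.f (nat_lit 557) (nat_lit 556) (nat_lit 2572) (.d (nat_lit 525) (nat_lit 493) (nat_lit 6573) (nat_lit 524) (nat_lit 3596)))))) (.f (nat_lit 429) (nat_lit 428) (nat_lit 3500) (.f (nat_lit 465) (nat_lit 430) (nat_lit 3501) (.f (nat_lit 432) (nat_lit 433) (nat_lit 2477) (.f (nat_lit 495) (nat_lit 527) (nat_lit 6575) (.f (nat_lit 466) (nat_lit 494) (nat_lit 1486) (.d (nat_lit 498) (nat_lit 497) (nat_lit 462) (nat_lit 499) (nat_lit 463))))))))))))) (.a s63098 (.a s63110 (.a (.p (nat_lit 465) (.a (.f (nat_lit 429) (nat_lit 430) (nat_lit 3501) (.f (nat_lit 461) (nat_lit 428) (nat_lit 3500) (.d (nat_lit 433) (nat_lit 432) (nat_lit 2477) (nat_lit 434) (nat_lit 2478)))) (.a (.f (nat_lit 434) (nat_lit 433) (nat_lit 2478) (.f (nat_lit 466) (nat_lit 435) (nat_lit 2479) (.d (nat_lit 498) (nat_lit 497) (nat_lit 462) (nat_lit 499) (nat_lit 463)))) (.f (nat_lit 430) (nat_lit 429) (nat_lit 3501) (.f (nat_lit 495) (nat_lit 527) (nat_lit 7598) (.f (nat_lit 466) (nat_lit 494) (nat_lit 1486) (.d (nat_lit 498) (nat_lit 497) (nat_lit 462) (nat_lit 499) (nat_lit 463)))))))) s63112))))))))) (.a (.p (nat_lit 462) (.a s62951 (.a (.p (nat_lit 465) (.a (.f (nat_lit 433) (nat_lit 434) (nat_lit 2478) (.f (nat_lit 498) (nat_lit 497) (nat_lit 462) (.f (nat_lit 466) (nat_lit 499) (nat_lit 463) (.f (nat_lit 562) (nat_lit 530) (nat_lit 7601) (.f (nat_lit 461) (nat_lit 432) (nat_lit 2477) (.f (nat_lit 493) (nat_lit 492) (nat_lit 1484) (.f (nat_lit 430) (nat_lit 429) (nat_lit 3501) (.f (nat_lit 525) (nat_lit 557) (nat_lit 6573) (.f (nat_lit 561) (nat_lit 526) (nat_lit 3597) (.d (nat_lit 594) (nat_lit 593) (nat_lit 558) (nat_lit 595) (nat_lit 559))))))))))) (.a (.f (nat_lit 433) (nat_lit 434) (nat_lit 2478) (.f (nat_lit 461) (nat_lit 432) (nat_lit 2477) (.d (nat_lit 493) (nat_lit 492) (nat_lit 1484) (nat_lit 494) (nat_lit 1485)))) (.a (.f (nat_lit 434) (nat_lit 433) (nat_lit 2478) (.f (nat_lit 466) (nat_lit 435) (nat_lit 2479) (.d (nat_lit 498) (nat_lit 497) (nat_lit 462) (nat_lit 499) (nat_lit 463)))) (.f (nat_lit 494) (nat_lit 493) (nat_lit 1485) (.f (nat_lit 526) (nat_lit 591) (nat_lit 4558) (.d (nat_lit 495) (nat_lit 466) (nat_lit 1486) (nat_lit 590) (nat_lit 6606)))))))) (.a (.p (nat_lit 465) (.a (.f (nat_lit 433) (nat_lit 434) (nat_lit 2478) (.f (nat_lit 461) (nat_lit 432) (nat_lit 2477) (.d (nat_lit 493) (nat_lit 492) (nat_lit 1484) (nat_lit 494) (nat_lit 1485)))) (.a (.f (nat_lit 434) (nat_lit 433) (nat_lit 2478) (.f (nat_lit 466) (nat_lit 435) (nat_lit 2479) (.d (nat_lit 498) (nat_lit 497) (nat_lit 462) (nat_lit 499) (nat_lit 463)))) (.f (nat_lit 494) (nat_lit 493) (nat_lit 1485) (.f (nat_lit 526) (nat_lit 591) (nat_lit 4558) (.d (nat_lit 495) (nat_lit 466) (nat_lit 1486) (nat_lit 590) (nat_lit 6606))))))) (.a (.p (nat_lit 465) (.a (.f (nat_lit 434) (nat_lit 433) (nat_lit 2478) (.f (nat_lit 466) (nat_lit 435) (nat_lit 2479) (.d (nat_lit 498) (nat_lit 497) (nat_lit 462) (nat_lit 499) (nat_lit 463)))) (.f (nat_lit 429) (nat_lit 430) (nat_lit 3501) (.f (nat_lit 461) (nat_lit 428) (nat_lit 3500) (.d (nat_lit 493) (nat_lit 492) (nat_lit 1484) (nat_lit 494) (nat_lit 1485)))))) (.a s63129 (.a (.p (nat_lit 465) (.a (.f (nat_lit 434) (nat_lit 433) (nat_lit 2478) (.f (nat_lit 466) (nat_lit 435) (nat_lit 2479) (.d (nat_lit 498) (nat_lit 497) (nat_lit 462) (nat_lit 499) (nat_lit 463)))) (.a (.f (nat_lit 494) (nat_lit 493) (nat_lit 1485) (.f (nat_lit 526) (nat_lit 591) (nat_lit 4558) (.d (nat_lit 495) (nat_lit 466) (nat_lit 1486) (nat_lit 590) (nat_lit 6606)))) (.f (nat_lit 494) (nat_lit 493) (nat_lit 1485) (.f (nat_lit 526) (nat_lit 591) (nat_lit 4558) (.f (nat_lit 430) (nat_lit 429) (nat_lit 3501) (.d (nat_lit 525) (nat_lit 557) (nat_lit 5549) (nat_lit 561) (nat_lit 3597)))))))) (.a (.p (nat_lit 526) (.a (.f (nat_lit 525) (nat_lit 561) (nat_lit 3597) (.d (nat_lit 524) (nat_lit 523) (nat_lit 523) (nat_lit 557) (nat_lit 3596))) (.f (nat_lit 494) (nat_lit 591) (nat_lit 4558) (.f (nat_lit 461) (nat_lit 429) (nat_lit 7597) (.d (nat_lit 493) (nat_lit 492) (nat_lit 1484) (nat_lit 590) (nat_lit 7629)))))) (.a (.p (nat_lit 465) (.a (.f (nat_lit 429) (nat_lit 430) (nat_lit 3501) (.f (nat_lit 461) (nat_lit 428) (nat_lit 3500) (.d (nat_lit 433) (nat_lit 432) (nat_lit 2477) (nat_lit 434) (nat_lit 2478)))) (.a (.f (nat_lit 434) (nat_lit 433) (nat_lit 2478) (.f (nat_lit 466) (nat_lit 435) (nat_lit 2479) (.d (nat_lit 498) (nat_lit 497) (nat_lit 462) (nat_lit 499) (nat_lit 463)))) (.f (nat_lit 429) (nat_lit 430) (nat_lit 3501) (.f (nat_lit 461) (nat_lit 428) (nat_lit 3500) (.f (nat_lit 494) (nat_lit 526) (nat_lit 7597) (.f (nat_lit 466) (nat_lit 495) (nat_lit 1486) (.d (nat_lit 498) (nat_lit 497) (nat_lit 462) (nat_lit 499) (nat_lit 463))))))))) (.p (nat_lit 461) (.a (.f (nat_lit 492) (nat_lit 493) (nat_lit 1484) (.f (nat_lit 460) (nat_lit 491) (nat_lit 1483) (.d (nat_lit 428) (nat_lit 427) (nat_lit 3499) (nat_lit 429) (nat_lit 3500)))) (.a (.f (nat_lit 493) (nat_lit 492) (nat_lit 1484) (.f (nat_lit 429) (nat_lit 428) (nat_lit 3500) (.f (nat_lit 525) (nat_lit 526) (nat_lit 4525) (.d (nat_lit 430) (nat_lit 465) (nat_lit 3501) (nat_lit 557) (nat_lit 6573))))) (.a (.f (nat_lit 493) (nat_lit 492) (nat_lit 1484) (.f (nat_lit 433) (nat_lit 432) (nat_lit 2477) (.f (nat_lit 465) (nat_lit 434) (nat_lit 2478) (.f (nat_lit 498) (nat_lit 497) (nat_lit 462) (.f (nat_lit 466) (nat_lit 499) (nat_lit 463) (.f (nat_lit 562) (nat_lit 530) (nat_lit 7601) (.f (nat_lit 430) (nat_lit 429) (nat_lit 3501) (.f (nat_lit 525) (nat_lit 557) (nat_lit 6573) (.f (nat_lit 561) (nat_lit 526) (nat_lit 3597) (.d (nat_lit 594) (nat_lit 593) (nat_lit 558) (nat_lit 595) (nat_lit 559))))))))))) (.a (.f (nat_lit 492) (nat_lit 493) (nat_lit 1484) (.f (nat_lit 460) (nat_lit 491) (nat_lit 1483) (.f (nat_lit 427) (nat_lit 428) (nat_lit 3499) (.f (nat_lit 459) (nat_lit 426) (nat_lit 3498) (.f (nat_lit 524) (nat_lit 556) (nat_lit 7595) (.f (nat_lit 525) (nat_lit 557) (nat_lit 3596) (.d (nat_lit 526) (nat_lit 523) (nat_lit 523) (nat_lit 561) (nat_lit 3597)))))))) (.f (nat_lit 429) (nat_lit 428) (nat_lit 3500) (.f (nat_lit 465) (nat_lit 430) (nat_lit 3501) (.d (nat_lit 433) (nat_lit 432) (nat_lit 2477) (nat_lit 434) (nat_lit 2478)))))))))))))))))) (.a (.p (nat_lit 462) (.a (.p (nat_lit 465) (.a (.f (nat_lit 494) (nat_lit 493) (nat_lit 1485) (.f (nat_lit 526) (nat_lit 591) (nat_lit 4558) (.d (nat_lit 430) (nat_lit 429) (nat_lit 3501) (nat_lit 527) (nat_lit 4526)))) (.a (.f (nat_lit 433) (nat_lit 434) (nat_lit 2478) (.f (nat_lit 461) (nat_lit 432) (nat_lit 2477) (.d (nat_lit 493) (nat_lit 492) (nat_lit 1484) (nat_lit 494) (nat_lit 1485)))) (.f (nat_lit 429) (nat_lit 430) (nat_lit 3501) (.f (nat_lit 461) (nat_lit 428) (nat_lit 3500) (.d (nat_lit 433) (nat_lit 432) (nat_lit 2477) (nat_lit 434) (nat_lit 2478))))))) (.a (.p (nat_lit 465) (.a (.f (nat_lit 433) (nat_lit 434) (nat_lit 2478) (.f (nat_lit 461) (nat_lit 432) (nat_lit 2477) (.d (nat_lit 493) (nat_lit 492) (nat_lit 1484) (nat_lit 494) (nat_lit 1485)))) (.a (.f (nat_lit 434) (nat_lit 433) (nat_lit 2478) (.f (nat_lit 466) (nat_lit 435) (nat_lit 2479) (.d (nat_lit 498) (nat_lit 497) (nat_lit 462) (nat_lit 499) (nat_lit 463)))) (.f (nat_lit 494) (nat_lit 493) (nat_lit 1485) (.f (nat_lit 495) (nat_lit 466) (nat_lit 1486) (.d (nat_lit 527) (nat_lit 432) (nat_lit 6575) (nat_lit 590) (nat_lit 5582))))))) (.a (.p (nat_lit 465) (.a (.f (nat_lit 434) (nat_lit 433) (nat_lit 2478) (.f (nat_lit 466) (nat_lit 435) (nat_lit 2479) (.d (nat_lit 498) (nat_lit 497) (nat_lit 462) (nat_lit 499) (nat_lit 463)))) (.f (nat_lit 429) (nat_lit 430) (nat_lit 3501) (.f (nat_lit 461) (nat_lit 428) (nat_lit 3500) (.d (nat_lit 493) (nat_lit 492) (nat_lit 1484) (nat_lit 494) (nat_lit 1485)))))) (.a s63129 (.a s63098 (.a s63110 (.a (.p (nat_lit 465) (.a (.f (nat_lit 429) (nat_lit 430) (nat_lit 3501) (.f (nat_lit 461) (nat_lit 428) (nat_lit 3500) (.d (nat_lit 433) (nat_lit 432) (nat_lit 2477) (nat_lit 434) (nat_lit 2478)))) (.a (.f (nat_lit 434) (nat_lit 433) (nat_lit 2478) (.f (nat_lit 466) (nat_lit 435) (nat_lit 2479) (.d (nat_lit 498) (nat_lit 497) (nat_lit 462) (nat_lit 499) (nat_lit 463)))) (.f (nat_lit 430) (nat_lit 429) (nat_lit 3501) (.f (nat_lit 495) (nat_lit 527) (nat_lit 7598) (.f (nat_lit 466) (nat_lit 494) (nat_lit 1486) (.d (nat_lit 498) (nat_lit 497) (nat_lit 462) (nat_lit 499) (nat_lit 463)))))))) s63112)))))))) (.p (nat_lit 527) (.a (.f (nat_lit 495) (nat_lit 432) (nat_lit 6575) (.f (nat_lit 462) (nat_lit 430) (nat_lit 7598) (.f (nat_lit 494) (nat_lit 591) (nat_lit 7630) (.d (nat_lit 493) (nat_lit 465) (nat_lit 1485) (nat_lit 492) (nat_lit 2508))))) (.f (nat_lit 557) (nat_lit 556) (nat_lit 2572) (.f (nat_lit 525) (nat_lit 524) (nat_lit 3596) (.f (nat_lit 561) (nat_lit 526) (nat_lit 525) (.f (nat_lit 562) (nat_lit 563) (nat_lit 3599) (.d (nat_lit 594) (nat_lit 593) (nat_lit 558) (nat_lit 595) (nat_lit 559)))))))))))))))))))) (.p (nat_lit 557) (.a (.f (nat_lit 556) (nat_lit 527) (nat_lit 2572) (.d (nat_lit 588) (nat_lit 587) (nat_lit 1579) (nat_lit 589) (nat_lit 1580))) (.a (.f (nat_lit 588) (nat_lit 589) (nat_lit 1580) (.f (nat_lit 556) (nat_lit 587) (nat_lit 1579) (.d (nat_lit 524) (nat_lit 523) (nat_lit 3595) (nat_lit 525) (nat_lit 3596)))) (.a (.f (nat_lit 525) (nat_lit 524) (nat_lit 3596) (.f (nat_lit 526) (nat_lit 561) (nat_lit 3597) (.f (nat_lit 589) (nat_lit 588) (nat_lit 1580) (.d (nat_lit 494) (nat_lit 462) (nat_lit 5581) (nat_lit 621) (nat_lit 6637))))) (.f (nat_lit 556) (nat_lit 527) (nat_lit 2572) (.d (nat_lit 524) (nat_lit 523) (nat_lit 3595) (nat_lit 525) (nat_lit 3596))))))))))))))) (.a (.f (nat_lit 496) (nat_lit 591) (nat_lit 5583) (.f (nat_lit 432) (nat_lit 527) (nat_lit 5551) (.d (nat_lit 433) (nat_lit 401) (nat_lit 6544) (nat_lit 465) (nat_lit 6576)))) (.a (.p (nat_lit 558) (.a s62806 (.a (.f (nat_lit 496) (nat_lit 591) (nat_lit 5583) (.f (nat_lit 561) (nat_lit 593) (nat_lit 4560) (.f (nat_lit 525) (nat_lit 526) (nat_lit 3597) (.f (nat_lit 557) (nat_lit 524) (nat_lit 3596) (.d (nat_lit 589) (nat_lit 588) (nat_lit 1580) (nat_lit 590) (nat_lit 1581)))))) (.a (.f (nat_lit 496) (nat_lit 591) (nat_lit 5583) (.f (nat_lit 561) (nat_lit 593) (nat_lit 4560) (.f (nat_lit 465) (nat_lit 433) (nat_lit 6576) (.f (nat_lit 589) (nat_lit 590) (nat_lit 1581) (.f (nat_lit 557) (nat_lit 588) (nat_lit 1580) (.f (nat_lit 526) (nat_lit 525) (nat_lit 3597) (.f (nat_lit 494) (nat_lit 462) (nat_lit 5581) (.f (nat_lit 495) (nat_lit 493) (nat_lit 2509) (.d (nat_lit 466) (nat_lit 463) (nat_lit 1486) (nat_lit 467) (nat_lit 1487)))))))))) (.a (.p (nat_lit 561) (.a (.f (nat_lit 590) (nat_lit 589) (nat_lit 1581) (.f (nat_lit 562) (nat_lit 591) (nat_lit 1582) (.d (nat_lit 594) (nat_lit 593) (nat_lit 558) (nat_lit 595) (nat_lit 559)))) (.a (.d (nat_lit 593) (nat_lit 496) (nat_lit 4560) (nat_lit 594) (nat_lit 558)) (.f (nat_lit 591) (nat_lit 496) (nat_lit 5583) (.d (nat_lit 590) (nat_lit 562) (nat_lit 1582) (nat_lit 589) (nat_lit 1581)))))) (.a (.p (nat_lit 557) (.a (.f (nat_lit 588) (nat_lit 589) (nat_lit 1580) (.f (nat_lit 556) (nat_lit 587) (nat_lit 1579) (.d (nat_lit 524) (nat_lit 523) (nat_lit 3595) (nat_lit 525) (nat_lit 3596)))) (.a (.f (nat_lit 591) (nat_lit 496) (nat_lit 5583) (.f (nat_lit 588) (nat_lit 589) (nat_lit 1580) (.f (nat_lit 556) (nat_lit 587) (nat_lit 1579) (.f (nat_lit 525) (nat_lit 524) (nat_lit 3596) (.f (nat_lit 590) (nat_lit 555) (nat_lit 555) (.f (nat_lit 493) (nat_lit 461) (nat_lit 5580) (.d (nat_lit 622) (nat_lit 526) (nat_lit 7661) (nat_lit 654) (nat_lit 7693)))))))) (.a (.p (nat_lit 526) (.a (.f (nat_lit 591) (nat_lit 496) (nat_lit 5583) (.f (nat_lit 623) (nat_lit 655) (nat_lit 6671) (.d (nat_lit 494) (nat_lit 462) (nat_lit 4558) (nat_lit 590) (nat_lit 4590)))) (.a (.f (nat_lit 591) (nat_lit 496) (nat_lit 5583) (.f (nat_lit 623) (nat_lit 655) (nat_lit 6671) (.f (nat_lit 590) (nat_lit 494) (nat_lit 4590) (.f (nat_lit 588) (nat_lit 589) (nat_lit 1580) (.d (nat_lit 556) (nat_lit 555) (nat_lit 555) (nat_lit 587) (nat_lit 1579)))))) (.a (.f (nat_lit 591) (nat_lit 496) (nat_lit 5583) (.f (nat_lit 588) (nat_lit 589) (nat_lit 1580) (.f (nat_lit 556) (nat_lit 587) (nat_lit 1579) (.f (nat_lit 555) (nat_lit 590) (nat_lit 555) (.f (nat_lit 554) (nat_lit 525) (nat_lit 2570) (.d (nat_lit 522) (nat_lit 521) (nat_lit 3593) (nat_lit 523) (nat_lit 3594))))))) (.f (nat_lit 589) (nat_lit 588) (nat_lit 1580) (.f (nat_lit 494) (nat_lit 462) (nat_lit 5581) (.d (nat_lit 621) (nat_lit 525) (nat_lit 6637) (nat_lit 653) (nat_lit 6669)))))))) (.a (.f (nat_lit 591) (nat_lit 496) (nat_lit 5583) (.f (nat_lit 588) (nat_lit 589) (nat_lit 1580) (.f (nat_lit 556) (nat_lit 587) (nat_lit 1579) (.f (nat_lit 555) (nat_lit 590) (nat_lit 555) (.d (nat_lit 523) (nat_lit 522) (nat_lit 3594) (nat_lit 524) (nat_lit 3595)))))) (.a (.p (nat_lit 526) (.a (.f (nat_lit 591) (nat_lit 496) (nat_lit 5583) (.f (nat_lit 623) (nat_lit 655) (nat_lit 6671) (.d (nat_lit 494) (nat_lit 462) (nat_lit 4558) (nat_lit 590) (nat_lit 4590)))) (.a (.f (nat_lit 525) (nat_lit 524) (nat_lit 3596) (.f (nat_lit 589) (nat_lit 588) (nat_lit 1580) (.d (nat_lit 621) (nat_lit 494) (nat_lit 6637) (nat_lit 653) (nat_lit 6669)))) (.f (nat_lit 525) (nat_lit 524) (nat_lit 3596) (.f (nat_lit 589) (nat_lit 588) (nat_lit 1580) (.f (nat_lit 621) (nat_lit 653) (nat_lit 6669) (.f (nat_lit 622) (nat_lit 654) (nat_lit 4621) (.f (nat_lit 493) (nat_lit 590) (nat_lit 4589) (.f (nat_lit 461) (nat_lit 429) (nat_lit 4525) (.d (nat_lit 460) (nat_lit 428) (nat_lit 7596) (nat_lit 492) (nat_lit 7628))))))))))) (.p (nat_lit 556) (.a (.d (nat_lit 524) (nat_lit 523) (nat_lit 3595) (nat_lit 525) (nat_lit 3596)) (.a (.f (nat_lit 591) (nat_lit 496) (nat_lit 5583) (.f (nat_lit 555) (nat_lit 590) (nat_lit 555) (.f (nat_lit 525) (nat_lit 524) (nat_lit 3596) (.f (nat_lit 554) (nat_lit 526) (nat_lit 2570) (.d (nat_lit 586) (nat_lit 585) (nat_lit 1577) (nat_lit 587) (nat_lit 1578)))))) (.f (nat_lit 591) (nat_lit 496) (nat_lit 5583) (.f (nat_lit 555) (nat_lit 590) (nat_lit 555) (.f (nat_lit 586) (nat_lit 587) (nat_lit 1578) (.f (nat_lit 554) (nat_lit 585) (nat_lit 1577) (.d (nat_lit 522) (nat_lit 521) (nat_lit 3593) (nat_lit 523) (nat_lit 3594))))))))))))))) (.a (.p (nat_lit 526) (.a (.f (nat_lit 591) (nat_lit 496) (nat_lit 5583) (.f (nat_lit 623) (nat_lit 655) (nat_lit 6671) (.d (nat_lit 494) (nat_lit 462) (nat_lit 4558) (nat_lit 590) (nat_lit 4590)))) (.a (.f (nat_lit 561) (nat_lit 525) (nat_lit 3597) (.d (nat_lit 496) (nat_lit 591) (nat_lit 5583) (nat_lit 593) (nat_lit 4560))) (.f (nat_lit 525) (nat_lit 561) (nat_lit 3597) (.d (nat_lit 524) (nat_lit 523) (nat_lit 523) (nat_lit 557) (nat_lit 3596)))))) (.a (.f (nat_lit 496) (nat_lit 591) (nat_lit 5583) (.p (nat_lit 462) (.a (.f (nat_lit 561) (nat_lit 593) (nat_lit 4560) (.f (nat_lit 525) (nat_lit 526) (nat_lit 3597) (.f (nat_lit 557) (nat_lit 524) (nat_lit 3596) (.f (nat_lit 589) (nat_lit 588) (nat_lit 1580) (.f (nat_lit 493) (nat_lit 494) (nat_lit 6605) (.f (nat_lit 461) (nat_lit 430) (nat_lit 6573) (.d (nat_lit 492) (nat_lit 460) (nat_lit 7628) (nat_lit 463) (nat_lit 1484)))))))) (.a (.f (nat_lit 561) (nat_lit 593) (nat_lit 4560) (.f (nat_lit 465) (nat_lit 433) (nat_lit 6576) (.f (nat_lit 525) (nat_lit 526) (nat_lit 3597) (.f (nat_lit 557) (nat_lit 524) (nat_lit 3596) (.f (nat_lit 589) (nat_lit 588) (nat_lit 1580) (.f (nat_lit 493) (nat_lit 494) (nat_lit 6605) (.f (nat_lit 492) (nat_lit 460) (nat_lit 7628) (.f (nat_lit 463) (nat_lit 461) (nat_lit 1484) (.f (nat_lit 498) (nat_lit 497) (nat_lit 462) (.f (nat_lit 466) (nat_lit 499) (nat_lit 463) (.f (nat_lit 467) (nat_lit 495) (nat_lit 1487) (.d (nat_lit 435) (nat_lit 434) (nat_lit 2479) (nat_lit 436) (nat_lit 2480))))))))))))) (.a (.f (nat_lit 561) (nat_lit 593) (nat_lit 4560) (.f (nat_lit 525) (nat_lit 526) (nat_lit 3597) (.f (nat_lit 557) (nat_lit 524) (nat_lit 3596) (.f (nat_lit 589) (nat_lit 588) (nat_lit 1580) (.f (nat_lit 493) (nat_lit 494) (nat_lit 6605) (.f (nat_lit 461) (nat_lit 430) (nat_lit 6573) (.d (nat_lit 463) (nat_lit 492) (nat_lit 1484) (nat_lit 497) (nat_lit 461)))))))) (.a (.p (nat_lit 557) (.a (.f (nat_lit 561) (nat_lit 593) (nat_lit 4560) (.d (nat_lit 525) (nat_lit 524) (nat_lit 3596) (nat_lit 526) (nat_lit 3597))) (.a (.f (nat_lit 561) (nat_lit 593) (nat_lit 4560) (.f (nat_lit 589) (nat_lit 588) (nat_lit 1580) (.d (nat_lit 526) (nat_lit 494) (nat_lit 5581) (nat_lit 525) (nat_lit 3597)))) (.a (.f (nat_lit 465) (nat_lit 433) (nat_lit 6576) (.f (nat_lit 589) (nat_lit 588) (nat_lit 1580) (.f (nat_lit 494) (nat_lit 526) (nat_lit 5581) (.d (nat_lit 493) (nat_lit 463) (nat_lit 1485) (nat_lit 495) (nat_lit 2509))))) (.f (nat_lit 588) (nat_lit 589) (nat_lit 1580) (.f (nat_lit 556) (nat_lit 587) (nat_lit 1579) (.d (nat_lit 524) (nat_lit 523) (nat_lit 3595) (nat_lit 525) (nat_lit 3596)))))))) (.a (.f (nat_lit 561) (nat_lit 593) (nat_lit 4560) (.f (nat_lit 525) (nat_lit 526) (nat_lit 3597) (.f (nat_lit 557) (nat_lit 524) (nat_lit 3596) (.f (nat_lit 589) (nat_lit 588) (nat_lit 1580) (.f (nat_lit 493) (nat_lit 494) (nat_lit 6605) (.f (nat_lit 461) (nat_lit 430) (nat_lit 6573) (.d (nat_lit 460) (nat_lit 428) (nat_lit 7596) (nat_lit 492) (nat_lit 7628)))))))) (.a (.p (nat_lit 463) (.a (.f (nat_lit 465) (nat_lit 433) (nat_lit 6576) (.d (nat_lit 497) (nat_lit 461) (nat_lit 461) (nat_lit 498) (nat_lit 462))) (.a (.f (nat_lit 461) (nat_lit 497) (nat_lit 461) (.f (nat_lit 460) (nat_lit 495) (nat_lit 460) (.d (nat_lit 428) (nat_lit 427) (nat_lit 3499) (nat_lit 429) (nat_lit 3500)))) (.a (.f (nat_lit 465) (nat_lit 433) (nat_lit 6576) (.f (nat_lit 498) (nat_lit 497) (nat_lit 462) (.f (nat_lit 466) (nat_lit 499) (nat_lit 463) (.d (nat_lit 495) (nat_lit 467) (nat_lit 1487) (nat_lit 494) (nat_lit 1486))))) (.f (nat_lit 465) (nat_lit 433) (nat_lit 6576) (.f (nat_lit 561) (nat_lit 593) (nat_lit 4560) (.f (nat_lit 429) (nat_lit 430) (nat_lit 3501) (.f (nat_lit 461) (nat_lit 428) (nat_lit 3500) (.d (nat_lit 526) (nat_lit 494) (nat_lit 7597) (nat_lit 525) (nat_lit 3597)))))))))) (.a (.f (nat_lit 561) (nat_lit 593) (nat_lit 4560) (.f (nat_lit 433) (nat_lit 465) (nat_lit 6576) (.f (nat_lit 432) (nat_lit 401) (nat_lit 6544) (.f (nat_lit 525) (nat_lit 526) (nat_lit 3597) (.f (nat_lit 557) (nat_lit 524) (nat_lit 3596) (.f (nat_lit 461) (nat_lit 463) (nat_lit 2477) (.f (nat_lit 493) (nat_lit 430) (nat_lit 6573) (.d (nat_lit 588) (nat_lit 556) (nat_lit 5580) (nat_lit 589) (nat_lit 1580))))))))) (.a (.p (nat_lit 463) (.a (.f (nat_lit 465) (nat_lit 433) (nat_lit 6576) (.d (nat_lit 497) (nat_lit 461) (nat_lit 461) (nat_lit 498) (nat_lit 462))) (.a (.f (nat_lit 461) (nat_lit 497) (nat_lit 461) (.f (nat_lit 460) (nat_lit 495) (nat_lit 460) (.d (nat_lit 428) (nat_lit 427) (nat_lit 3499) (nat_lit 429) (nat_lit 3500)))) (.a (.f (nat_lit 465) (nat_lit 433) (nat_lit 6576) (.f (nat_lit 498) (nat_lit 497) (nat_lit 462) (.f (nat_lit 466) (nat_lit 499) (nat_lit 463) (.d (nat_lit 495) (nat_lit 467) (nat_lit 1487) (nat_lit 494) (nat_lit 1486))))) (.f (nat_lit 465) (nat_lit 433) (nat_lit 6576) (.f (nat_lit 494) (nat_lit 493) (nat_lit 1485) (.f (nat_lit 429) (nat_lit 430) (nat_lit 3501) (.d (nat_lit 461) (nat_lit 428) (nat_lit 3500) (nat_lit 526) (nat_lit 7597))))))))) (.p (nat_lit 463) (.a (.f (nat_lit 465) (nat_lit 433) (nat_lit 6576) (.d (nat_lit 497) (nat_lit 461) (nat_lit 461) (nat_lit 498) (nat_lit 462))) (.a (.f (nat_lit 461) (nat_lit 497) (nat_lit 461) (.f (nat_lit 460) (nat_lit 495) (nat_lit 460) (.d (nat_lit 428) (nat_lit 427) (nat_lit 3499) (nat_lit 429) (nat_lit 3500)))) (.a (.f (nat_lit 465) (nat_lit 433) (nat_lit 6576) (.f (nat_lit 498) (nat_lit 497) (nat_lit 462) (.f (nat_lit 466) (nat_lit 499) (nat_lit 463) (.d (nat_lit 495) (nat_lit 467) (nat_lit 1487) (nat_lit 494) (nat_lit 1486))))) (.f (nat_lit 465) (nat_lit 433) (nat_lit 6576) (.f (nat_lit 494) (nat_lit 493) (nat_lit 1485) (.f (nat_lit 466) (nat_lit 495) (nat_lit 1486) (.f (nat_lit 499) (nat_lit 498) (nat_lit 463) (.f (nat_lit 467) (nat_lit 500) (nat_lit 464) (.d (nat_lit 435) (nat_lit 434) (nat_lit 2479) (nat_lit 436) (nat_lit 2480))))))))))))))))))))) (.p (nat_lit 561) (.a (.f (nat_lit 525) (nat_lit 526) (nat_lit 3597) (.f (nat_lit 557) (nat_lit 524) (nat_lit 3596) (.d (nat_lit 589) (nat_lit 588) (nat_lit 1580) (nat_lit 590) (nat_lit 1581)))) (.d (nat_lit 593) (nat_lit 496) (nat_lit 4560) (nat_lit 594) (nat_lit 558)))))))))))) (.p (nat_lit 561) (.a (.p (nat_lit 562) (.a (.d (nat_lit 527) (nat_lit 526) (nat_lit 3598) (nat_lit 563) (nat_lit 3599)) (.a (.f (nat_lit 563) (nat_lit 527) (nat_lit 3599) (.d (nat_lit 531) (nat_lit 530) (nat_lit 2575) (nat_lit 532) (nat_lit 2576))) (.f (nat_lit 594) (nat_lit 595) (nat_lit 559) (.f (nat_lit 593) (nat_lit 558) (nat_lit 558) (.f (nat_lit 530) (nat_lit 531) (nat_lit 2575) (.d (nat_lit 498) (nat_lit 466) (nat_lit 5585) (nat_lit 625) (nat_lit 5617)))))))) (.a (.f (nat_lit 496) (nat_lit 593) (nat_lit 4560) (.f (nat_lit 527) (nat_lit 432) (nat_lit 5551) (.d (nat_lit 562) (nat_lit 526) (nat_lit 3598) (nat_lit 563) (nat_lit 3599)))) (.a (.f (nat_lit 496) (nat_lit 593) (nat_lit 4560) (.f (nat_lit 432) (nat_lit 527) (nat_lit 5551) (.d (nat_lit 433) (nat_lit 401) (nat_lit 6544) (nat_lit 465) (nat_lit 6576)))) (.a (.f (nat_lit 593) (nat_lit 496) (nat_lit 4560) (.f (nat_lit 558) (nat_lit 594) (nat_lit 558) (.f (nat_lit 589) (nat_lit 590) (nat_lit 1581) (.f (nat_lit 557) (nat_lit 588) (nat_lit 1580) (.d (nat_lit 525) (nat_lit 524) (nat_lit 3596) (nat_lit 526) (nat_lit 3597)))))) s63335))))))))))) (.a (.p (nat_lit 496) (.a s49829 (.a s62667 (.a s62689 (.a s62698 (.a s63351 (.a s63363 (.a s63365 (.f (nat_lit 561) (nat_lit 593) (nat_lit 4560) (.p (nat_lit 562) (.a (.f (nat_lit 559) (nat_lit 591) (nat_lit 5583) (.d (nat_lit 527) (nat_lit 526) (nat_lit 3598) (nat_lit 563) (nat_lit 3599))) (.a (.f (nat_lit 559) (nat_lit 591) (nat_lit 5583) (.f (nat_lit 563) (nat_lit 527) (nat_lit 3599) (.d (nat_lit 531) (nat_lit 530) (nat_lit 2575) (nat_lit 532) (nat_lit 2576)))) (.a (.f (nat_lit 559) (nat_lit 591) (nat_lit 5583) (.f (nat_lit 595) (nat_lit 594) (nat_lit 559) (.f (nat_lit 563) (nat_lit 596) (nat_lit 560) (.d (nat_lit 531) (nat_lit 530) (nat_lit 2575) (nat_lit 532) (nat_lit 2576))))) (.a (.f (nat_lit 563) (nat_lit 527) (nat_lit 3599) (.f (nat_lit 532) (nat_lit 531) (nat_lit 2576) (.f (nat_lit 564) (nat_lit 533) (nat_lit 2577) (.d (nat_lit 596) (nat_lit 595) (nat_lit 560) (nat_lit 597) (nat_lit 561))))) (.f (nat_lit 559) (nat_lit 591) (nat_lit 5583) (.f (nat_lit 526) (nat_lit 527) (nat_lit 3598) (.f (nat_lit 558) (nat_lit 525) (nat_lit 3597) (.f (nat_lit 589) (nat_lit 590) (nat_lit 1581) (.f (nat_lit 557) (nat_lit 588) (nat_lit 1580) (.f (nat_lit 465) (nat_lit 433) (nat_lit 6576) (.f (nat_lit 494) (nat_lit 462) (nat_lit 5581) (.f (nat_lit 495) (nat_lit 493) (nat_lit 2509) (.d (nat_lit 466) (nat_lit 467) (nat_lit 1487) (nat_lit 497) (nat_lit 2510)))))))))))))))))))))))) (.a (.p (nat_lit 496) (.a (.f (nat_lit 559) (nat_lit 591) (nat_lit 5583) (.f (nat_lit 527) (nat_lit 432) (nat_lit 5551) (.f (nat_lit 561) (nat_lit 593) (nat_lit 4560) (.d (nat_lit 562) (nat_lit 526) (nat_lit 3598) (nat_lit 563) (nat_lit 3599))))) (.a s63363 (.a (.f (nat_lit 431) (nat_lit 463) (nat_lit 7599) (.f (nat_lit 432) (nat_lit 399) (nat_lit 7567) (.d (nat_lit 559) (nat_lit 527) (nat_lit 5551) (nat_lit 591) (nat_lit 5583)))) (.a (.f (nat_lit 559) (nat_lit 591) (nat_lit 5583) (.p (nat_lit 558) (.a (.f (nat_lit 561) (nat_lit 593) (nat_lit 4560) (.f (nat_lit 525) (nat_lit 526) (nat_lit 3597) (.f (nat_lit 557) (nat_lit 524) (nat_lit 3596) (.d (nat_lit 589) (nat_lit 588) (nat_lit 1580) (nat_lit 590) (nat_lit 1581))))) (.a (.f (nat_lit 561) (nat_lit 593) (nat_lit 4560) (.f (nat_lit 463) (nat_lit 431) (nat_lit 7599) (.f (nat_lit 589) (nat_lit 590) (nat_lit 1581) (.f (nat_lit 557) (nat_lit 588) (nat_lit 1580) (.f (nat_lit 526) (nat_lit 525) (nat_lit 3597) (.f (nat_lit 462) (nat_lit 494) (nat_lit 5581) (.f (nat_lit 461) (nat_lit 497) (nat_lit 461) (.f (nat_lit 460) (nat_lit 495) (nat_lit 460) (.d (nat_lit 492) (nat_lit 491) (nat_lit 1483) (nat_lit 493) (nat_lit 1484)))))))))) (.a (.f (nat_lit 463) (nat_lit 431) (nat_lit 7599) (.p (nat_lit 462) (.a (.f (nat_lit 461) (nat_lit 497) (nat_lit 461) (.f (nat_lit 460) (nat_lit 495) (nat_lit 460) (.d (nat_lit 428) (nat_lit 427) (nat_lit 3499) (nat_lit 429) (nat_lit 3500)))) (.a (.f (nat_lit 461) (nat_lit 497) (nat_lit 461) (.f (nat_lit 493) (nat_lit 492) (nat_lit 1484) (.f (nat_lit 494) (nat_lit 465) (nat_lit 1485) (.d (nat_lit 526) (nat_lit 429) (nat_lit 7597) (nat_lit 590) (nat_lit 7629))))) (.a (.f (nat_lit 497) (nat_lit 461) (nat_lit 461) (.d (nat_lit 498) (nat_lit 465) (nat_lit 462) (nat_lit 495) (nat_lit 3534))) (.a (.f (nat_lit 561) (nat_lit 593) (nat_lit 4560) (.f (nat_lit 589) (nat_lit 590) (nat_lit 1581) (.f (nat_lit 557) (nat_lit 588) (nat_lit 1580) (.f (nat_lit 494) (nat_lit 526) (nat_lit 5581) (.f (nat_lit 465) (nat_lit 493) (nat_lit 1485) (.f (nat_lit 466) (nat_lit 495) (nat_lit 1486) (.d (nat_lit 498) (nat_lit 497) (nat_lit 462) (nat_lit 499) (nat_lit 463)))))))) (.f (nat_lit 561) (nat_lit 593) (nat_lit 4560) (.f (nat_lit 589) (nat_lit 590) (nat_lit 1581) (.f (nat_lit 557) (nat_lit 588) (nat_lit 1580) (.f (nat_lit 494) (nat_lit 526) (nat_lit 5581) (.f (nat_lit 493) (nat_lit 465) (nat_lit 1485) (.d (nat_lit 492) (nat_lit 461) (nat_lit 1484) (nat_lit 491) (nat_lit 2507))))))))))))) (.a (.p (nat_lit 557) (.a (.f (nat_lit 561) (nat_lit 593) (nat_lit 4560) (.d (nat_lit 589) (nat_lit 588) (nat_lit 1580) (nat_lit 590) (nat_lit 1581))) (.a (.f (nat_lit 588) (nat_lit 589) (nat_lit 1580) (.f (nat_lit 556) (nat_lit 587) (nat_lit 1579) (.d (nat_lit 524) (nat_lit 523) (nat_lit 3595) (nat_lit 525) (nat_lit 3596)))) (.a (.f (nat_lit 561) (nat_lit 593) (nat_lit 4560) (.f (nat_lit 463) (nat_lit 431) (nat_lit 7599) (.f (nat_lit 525) (nat_lit 524) (nat_lit 3596) (.f (nat_lit 590) (nat_lit 589) (nat_lit 1581) (.f (nat_lit 461) (nat_lit 493) (nat_lit 4557) (.f (nat_lit 462) (nat_lit 497) (nat_lit 461) (.f (nat_lit 460) (nat_lit 495) (nat_lit 460) (.d (nat_lit 428) (nat_lit 427) (nat_lit 3499) (nat_lit 429) (nat_lit 3500))))))))) s63445)))) (.a (.f (nat_lit 561) (nat_lit 593) (nat_lit 4560) (.f (nat_lit 463) (nat_lit 431) (nat_lit 7599) (.f (nat_lit 590) (nat_lit 589) (nat_lit 1581) (.f (nat_lit 526) (nat_lit 525) (nat_lit 3597) (.f (nat_lit 494) (nat_lit 495) (nat_lit 6606) (.f (nat_lit 461) (nat_lit 493) (nat_lit 7629) (.d (nat_lit 462) (nat_lit 429) (nat_lit 7597) (nat_lit 497) (nat_lit 461)))))))) (.a (.p (nat_lit 557) (.a (.f (nat_lit 588) (nat_lit 589) (nat_lit 1580) (.f (nat_lit 556) (nat_lit 587) (nat_lit 1579) (.d (nat_lit 524) (nat_lit 523) (nat_lit 3595) (nat_lit 525) (nat_lit 3596)))) (.a s63445 (.a (.p (nat_lit 462) (.a (.f (nat_lit 463) (nat_lit 431) (nat_lit 7599) (.f (nat_lit 461) (nat_lit 497) (nat_lit 461) (.f (nat_lit 493) (nat_lit 492) (nat_lit 1484) (.d (nat_lit 525) (nat_lit 430) (nat_lit 6573) (nat_lit 590) (nat_lit 4557))))) (.a (.f (nat_lit 463) (nat_lit 431) (nat_lit 7599) (.f (nat_lit 461) (nat_lit 497) (nat_lit 461) (.f (nat_lit 493) (nat_lit 492) (nat_lit 1484) (.f (nat_lit 494) (nat_lit 465) (nat_lit 1485) (.d (nat_lit 590) (nat_lit 525) (nat_lit 4557) (nat_lit 526) (nat_lit 7629)))))) (.a (.f (nat_lit 589) (nat_lit 588) (nat_lit 1580) (.f (nat_lit 494) (nat_lit 526) (nat_lit 5581) (.f (nat_lit 493) (nat_lit 525) (nat_lit 6605) (.d (nat_lit 465) (nat_lit 463) (nat_lit 1485) (nat_lit 495) (nat_lit 2509))))) (.a (.f (nat_lit 589) (nat_lit 588) (nat_lit 1580) (.f (nat_lit 494) (nat_lit 526) (nat_lit 5581) (.f (nat_lit 493) (nat_lit 525) (nat_lit 6605) (.f (nat_lit 495) (nat_lit 465) (nat_lit 2509) (.d (nat_lit 461) (nat_lit 460) (nat_lit 3532) (nat_lit 497) (nat_lit 3533)))))) (.f (nat_lit 463) (nat_lit 431) (nat_lit 7599) (.f (nat_lit 461) (nat_lit 497) (nat_lit 461) (.f (nat_lit 460) (nat_lit 495) (nat_lit 460) (.d (nat_lit 428) (nat_lit 427) (nat_lit 3499) (nat_lit 429) (nat_lit 3500)))))))))) (.p (nat_lit 461) (.a (.f (nat_lit 463) (nat_lit 431) (nat_lit 7599) (.f (nat_lit 462) (nat_lit 497) (nat_lit 461) (.f (nat_lit 460) (nat_lit 495) (nat_lit 460) (.d (nat_lit 428) (nat_lit 427) (nat_lit 3499) (nat_lit 429) (nat_lit 3500))))) (.a (.f (nat_lit 463) (nat_lit 431) (nat_lit 7599) (.f (nat_lit 462) (nat_lit 497) (nat_lit 461) (.f (nat_lit 493) (nat_lit 492) (nat_lit 1484) (.f (nat_lit 494) (nat_lit 465) (nat_lit 1485) (.d (nat_lit 526) (nat_lit 589) (nat_lit 5581) (nat_lit 590) (nat_lit 7629)))))) (.f (nat_lit 588) (nat_lit 589) (nat_lit 1580) (.f (nat_lit 556) (nat_lit 587) (nat_lit 1579) (.f (nat_lit 524) (nat_lit 523) (nat_lit 3595) (.f (nat_lit 492) (nat_lit 493) (nat_lit 6604) (.f (nat_lit 460) (nat_lit 429) (nat_lit 6572) (.d (nat_lit 459) (nat_lit 427) (nat_lit 7595) (nat_lit 491) (nat_lit 7627)))))))))))))) (.a (.p (nat_lit 461) (.a (.f (nat_lit 561) (nat_lit 593) (nat_lit 4560) (.f (nat_lit 463) (nat_lit 431) (nat_lit 7599) (.f (nat_lit 462) (nat_lit 497) (nat_lit 461) (.f (nat_lit 493) (nat_lit 492) (nat_lit 1484) (.f (nat_lit 525) (nat_lit 526) (nat_lit 3597) (.d (nat_lit 557) (nat_lit 430) (nat_lit 6573) (nat_lit 524) (nat_lit 3596))))))) (.a (.f (nat_lit 561) (nat_lit 593) (nat_lit 4560) (.f (nat_lit 463) (nat_lit 431) (nat_lit 7599) (.f (nat_lit 462) (nat_lit 497) (nat_lit 461) (.f (nat_lit 493) (nat_lit 492) (nat_lit 1484) (.f (nat_lit 494) (nat_lit 465) (nat_lit 1485) (.d (nat_lit 526) (nat_lit 525) (nat_lit 3597) (nat_lit 590) (nat_lit 7629))))))) (.a (.f (nat_lit 561) (nat_lit 593) (nat_lit 4560) (.f (nat_lit 525) (nat_lit 526) (nat_lit 3597) (.f (nat_lit 557) (nat_lit 524) (nat_lit 3596) (.f (nat_lit 493) (nat_lit 590) (nat_lit 4557) (.f (nat_lit 462) (nat_lit 430) (nat_lit 6573) (.d (nat_lit 463) (nat_lit 492) (nat_lit 1484) (nat_lit 497) (nat_lit 461))))))) (.a (.f (nat_lit 561) (nat_lit 593) (nat_lit 4560) (.f (nat_lit 525) (nat_lit 526) (nat_lit 3597) (.f (nat_lit 557) (nat_lit 524) (nat_lit 3596) (.f (nat_lit 493) (nat_lit 590) (nat_lit 4557) (.f (nat_lit 431) (nat_lit 463) (nat_lit 7599) (.f (nat_lit 432) (nat_lit 399) (nat_lit 7567) (.f (nat_lit 428) (nat_lit 460) (nat_lit 7596) (.f (nat_lit 429) (nat_lit 396) (nat_lit 7564) (.d (nat_lit 430) (nat_lit 398) (nat_lit 6541) (nat_lit 465) (nat_lit 429)))))))))) (.a (.f (nat_lit 561) (nat_lit 593) (nat_lit 4560) (.f (nat_lit 525) (nat_lit 526) (nat_lit 3597) (.f (nat_lit 557) (nat_lit 524) (nat_lit 3596) (.f (nat_lit 493) (nat_lit 590) (nat_lit 4557) (.f (nat_lit 428) (nat_lit 460) (nat_lit 7596) (.f (nat_lit 429) (nat_lit 396) (nat_lit 7564) (.d (nat_lit 430) (nat_lit 398) (nat_lit 6541) (nat_lit 462) (nat_lit 6573)))))))) (.f (nat_lit 463) (nat_lit 431) (nat_lit 7599) (.f (nat_lit 462) (nat_lit 497) (nat_lit 461) (.f (nat_lit 460) (nat_lit 495) (nat_lit 460) (.d (nat_lit 428) (nat_lit 427) (nat_lit 3499) (nat_lit 429) (nat_lit 3500))))))))))) (.f (nat_lit 561) (nat_lit 593) (nat_lit 4560) (.f (nat_lit 463) (nat_lit 431) (nat_lit 7599) (.f (nat_lit 525) (nat_lit 526) (nat_lit 3597) (.f (nat_lit 557) (nat_lit 524) (nat_lit 3596) (.f (nat_lit 588) (nat_lit 589) (nat_lit 1580) (.f (nat_lit 556) (nat_lit 587) (nat_lit 1579) (.f (nat_lit 461) (nat_lit 493) (nat_lit 5580) (.f (nat_lit 462) (nat_lit 497) (nat_lit 461) (.f (nat_lit 460) (nat_lit 495) (nat_lit 460) (.d (nat_lit 428) (nat_lit 427) (nat_lit 3499) (nat_lit 429) (nat_lit 3500)))))))))))))))))))) (.p (nat_lit 498) (.a (.f (nat_lit 463) (nat_lit 431) (nat_lit 7599) (.f (nat_lit 497) (nat_lit 499) (nat_lit 3535) (.d (nat_lit 462) (nat_lit 461) (nat_lit 461) (nat_lit 495) (nat_lit 3534)))) (.a (.p (nat_lit 497) (.a (.d (nat_lit 499) (nat_lit 463) (nat_lit 3535) (nat_lit 527) (nat_lit 1519)) (.a (.f (nat_lit 499) (nat_lit 527) (nat_lit 1519) (.f (nat_lit 467) (nat_lit 468) (nat_lit 2512) (.f (nat_lit 466) (nat_lit 495) (nat_lit 2511) (.f (nat_lit 500) (nat_lit 465) (nat_lit 464) (.d (nat_lit 532) (nat_lit 531) (nat_lit 496) (nat_lit 533) (nat_lit 497)))))) (.a (.p (nat_lit 495) (.a (.f (nat_lit 466) (nat_lit 467) (nat_lit 2511) (.f (nat_lit 494) (nat_lit 465) (nat_lit 2510) (.d (nat_lit 526) (nat_lit 525) (nat_lit 1517) (nat_lit 527) (nat_lit 1518)))) (.a (.f (nat_lit 526) (nat_lit 527) (nat_lit 1518) (.f (nat_lit 494) (nat_lit 525) (nat_lit 1517) (.d (nat_lit 462) (nat_lit 461) (nat_lit 3533) (nat_lit 463) (nat_lit 3534)))) (.a s63560 (.a (.f (nat_lit 466) (nat_lit 467) (nat_lit 2511) (.f (nat_lit 465) (nat_lit 494) (nat_lit 2510) (.f (nat_lit 530) (nat_lit 531) (nat_lit 495) (.f (nat_lit 562) (nat_lit 594) (nat_lit 7633) (.f (nat_lit 561) (nat_lit 593) (nat_lit 4560) (.d (nat_lit 563) (nat_lit 527) (nat_lit 3599) (nat_lit 595) (nat_lit 4562))))))) (.f (nat_lit 463) (nat_lit 462) (nat_lit 3534) (.f (nat_lit 466) (nat_lit 467) (nat_lit 2511) (.f (nat_lit 494) (nat_lit 465) (nat_lit 2510) (.f (nat_lit 493) (nat_lit 492) (nat_lit 2508) (.d (nat_lit 525) (nat_lit 524) (nat_lit 1516) (nat_lit 526) (nat_lit 1517))))))))))) (.f (nat_lit 499) (nat_lit 463) (nat_lit 3535) (.f (nat_lit 467) (nat_lit 468) (nat_lit 2512) (.f (nat_lit 466) (nat_lit 495) (nat_lit 2511) (.f (nat_lit 500) (nat_lit 465) (nat_lit 464) (.d (nat_lit 532) (nat_lit 531) (nat_lit 496) (nat_lit 533) (nat_lit 497)))))))))) (.a (.f (nat_lit 463) (nat_lit 431) (nat_lit 7599) (.f (nat_lit 497) (nat_lit 499) (nat_lit 3535) (.d (nat_lit 462) (nat_lit 465) (nat_lit 462) (nat_lit 495) (nat_lit 3534)))) (.a (.p (nat_lit 563) (.a (.f (nat_lit 463) (nat_lit 431) (nat_lit 7599) (.f (nat_lit 499) (nat_lit 497) (nat_lit 3535) (.f (nat_lit 466) (nat_lit 465) (nat_lit 463) (.f (nat_lit 531) (nat_lit 595) (nat_lit 7634) (.d (nat_lit 434) (nat_lit 402) (nat_lit 4498) (nat_lit 467) (nat_lit 7602)))))) (.a (.f (nat_lit 561) (nat_lit 593) (nat_lit 4560) (.f (nat_lit 527) (nat_lit 562) (nat_lit 3599) (.f (nat_lit 497) (nat_lit 499) (nat_lit 1519) (.d (nat_lit 526) (nat_lit 495) (nat_lit 1518) (nat_lit 525) (nat_lit 525))))) (.a (.f (nat_lit 561) (nat_lit 593) (nat_lit 4560) (.f (nat_lit 562) (nat_lit 527) (nat_lit 3599) (.f (nat_lit 595) (nat_lit 596) (nat_lit 560) (.f (nat_lit 531) (nat_lit 532) (nat_lit 2576) (.d (nat_lit 466) (nat_lit 499) (nat_lit 7634) (nat_lit 530) (nat_lit 4562)))))) (.f (nat_lit 561) (nat_lit 593) (nat_lit 4560) (.f (nat_lit 562) (nat_lit 527) (nat_lit 3599) (.f (nat_lit 595) (nat_lit 596) (nat_lit 560) (.f (nat_lit 530) (nat_lit 466) (nat_lit 4562) (.d (nat_lit 627) (nat_lit 531) (nat_lit 7666) (nat_lit 594) (nat_lit 4594)))))))))) (.a (.p (nat_lit 497) (.a (.f (nat_lit 499) (nat_lit 527) (nat_lit 1519) (.f (nat_lit 467) (nat_lit 468) (nat_lit 2512) (.f (nat_lit 466) (nat_lit 495) (nat_lit 2511) (.f (nat_lit 500) (nat_lit 465) (nat_lit 464) (.d (nat_lit 532) (nat_lit 531) (nat_lit 496) (nat_lit 533) (nat_lit 497)))))) (.a (.f (nat_lit 527) (nat_lit 499) (nat_lit 1519) (.d (nat_lit 526) (nat_lit 495) (nat_lit 1518) (nat_lit 525) (nat_lit 2541))) (.a (.f (nat_lit 499) (nat_lit 527) (nat_lit 1519) (.f (nat_lit 500) (nat_lit 465) (nat_lit 3536) (.d (nat_lit 468) (nat_lit 467) (nat_lit 2512) (nat_lit 469) (nat_lit 2513)))) (.a (.p (nat_lit 495) (.a (.f (nat_lit 466) (nat_lit 467) (nat_lit 2511) (.f (nat_lit 494) (nat_lit 465) (nat_lit 2510) (.d (nat_lit 526) (nat_lit 525) (nat_lit 1517) (nat_lit 527) (nat_lit 1518)))) (.a (.p (nat_lit 494) (.a (.d (nat_lit 526) (nat_lit 525) (nat_lit 1517) (nat_lit 527) (nat_lit 1518)) (.a (.f (nat_lit 527) (nat_lit 526) (nat_lit 1518) (.f (nat_lit 493) (nat_lit 492) (nat_lit 492) (.d (nat_lit 461) (nat_lit 460) (nat_lit 3532) (nat_lit 462) (nat_lit 3533)))) (.a (.f (nat_lit 461) (nat_lit 462) (nat_lit 3533) (.f (nat_lit 493) (nat_lit 460) (nat_lit 3532) (.f (nat_lit 524) (nat_lit 525) (nat_lit 1516) (.d (nat_lit 492) (nat_lit 523) (nat_lit 1515) (nat_lit 527) (nat_lit 492))))) (.f (nat_lit 461) (nat_lit 462) (nat_lit 3533) (.f (nat_lit 493) (nat_lit 460) (nat_lit 3532) (.d (nat_lit 525) (nat_lit 524) (nat_lit 1516) (nat_lit 526) (nat_lit 1517)))))))) (.a s63560 (.a (.f (nat_lit 466) (nat_lit 467) (nat_lit 2511) (.f (nat_lit 465) (nat_lit 494) (nat_lit 2510) (.f (nat_lit 530) (nat_lit 531) (nat_lit 495) (.f (nat_lit 562) (nat_lit 594) (nat_lit 7633) (.f (nat_lit 561) (nat_lit 593) (nat_lit 4560) (.d (nat_lit 563) (nat_lit 527) (nat_lit 3599) (nat_lit 595) (nat_lit 4562))))))) (.f (nat_lit 466) (nat_lit 467) (nat_lit 2511) (.f (nat_lit 494) (nat_lit 465) (nat_lit 2510) (.f (nat_lit 461) (nat_lit 462) (nat_lit 3533) (.f (nat_lit 493) (nat_lit 460) (nat_lit 3532) (.d (nat_lit 525) (nat_lit 524) (nat_lit 1516) (nat_lit 526) (nat_lit 1517))))))))))) (.p (nat_lit 499) (.a (.f (nat_lit 500) (nat_lit 465) (nat_lit 3536) (.d (nat_lit 468) (nat_lit 467) (nat_lit 2512) (nat_lit 469) (nat_lit 2513))) (.a (.f (nat_lit 531) (nat_lit 532) (nat_lit 496) (.f (nat_lit 467) (nat_lit 468) (nat_lit 2512) (.d (nat_lit 495) (nat_lit 466) (nat_lit 2511) (nat_lit 530) (nat_lit 495)))) (.f (nat_lit 500) (nat_lit 465) (nat_lit 3536) (.d (nat_lit 532) (nat_lit 531) (nat_lit 496) (nat_lit 533) (nat_lit 497))))))))))) (.a (.f (nat_lit 463) (nat_lit 431) (nat_lit 7599) (.f (nat_lit 497) (nat_lit 499) (nat_lit 3535) (.d (nat_lit 462) (nat_lit 461) (nat_lit 461) (nat_lit 465) (nat_lit 462)))) (.a (.p (nat_lit 466) (.a (.f (nat_lit 463) (nat_lit 431) (nat_lit 7599) (.f (nat_lit 465) (nat_lit 499) (nat_lit 463) (.d (nat_lit 495) (nat_lit 467) (nat_lit 1487) (nat_lit 494) (nat_lit 1486)))) (.a (.p (nat_lit 465) (.a (.f (nat_lit 467) (nat_lit 495) (nat_lit 1487) (.d (nat_lit 499) (nat_lit 463) (nat_lit 463) (nat_lit 500) (nat_lit 464))) (.a (.f (nat_lit 467) (nat_lit 495) (nat_lit 1487) (.f (nat_lit 499) (nat_lit 500) (nat_lit 464) (.f (nat_lit 435) (nat_lit 436) (nat_lit 2480) (.d (nat_lit 403) (nat_lit 371) (nat_lit 5490) (nat_lit 530) (nat_lit 5522))))) (.a (.p (nat_lit 563) (.a (.f (nat_lit 561) (nat_lit 593) (nat_lit 4560) (.f (nat_lit 562) (nat_lit 527) (nat_lit 3599) (.d (nat_lit 595) (nat_lit 530) (nat_lit 4562) (nat_lit 596) (nat_lit 560)))) (.a (.f (nat_lit 499) (nat_lit 463) (nat_lit 463) (.f (nat_lit 531) (nat_lit 595) (nat_lit 7634) (.d (nat_lit 434) (nat_lit 402) (nat_lit 4498) (nat_lit 530) (nat_lit 4530)))) (.a (.f (nat_lit 561) (nat_lit 593) (nat_lit 4560) (.f (nat_lit 562) (nat_lit 527) (nat_lit 3599) (.f (nat_lit 596) (nat_lit 595) (nat_lit 560) (.f (nat_lit 564) (nat_lit 597) (nat_lit 561) (.d (nat_lit 532) (nat_lit 531) (nat_lit 2576) (nat_lit 533) (nat_lit 2577)))))) (.f (nat_lit 463) (nat_lit 499) (nat_lit 463) (.f (nat_lit 561) (nat_lit 593) (nat_lit 4560) (.f (nat_lit 434) (nat_lit 435) (nat_lit 2479) (.f (nat_lit 562) (nat_lit 527) (nat_lit 3599) (.d (nat_lit 531) (nat_lit 530) (nat_lit 4530) (nat_lit 532) (nat_lit 2576)))))))))) (.f (nat_lit 467) (nat_lit 495) (nat_lit 1487) (.f (nat_lit 435) (nat_lit 436) (nat_lit 2480) (.f (nat_lit 434) (nat_lit 463) (nat_lit 2479) (.d (nat_lit 530) (nat_lit 403) (nat_lit 6546) (nat_lit 562) (nat_lit 6578))))))))) (.a (.p (nat_lit 467) (.a (.f (nat_lit 465) (nat_lit 495) (nat_lit 1487) (.f (nat_lit 499) (nat_lit 500) (nat_lit 464) (.f (nat_lit 435) (nat_lit 436) (nat_lit 2480) (.d (nat_lit 403) (nat_lit 371) (nat_lit 5490) (nat_lit 530) (nat_lit 5522))))) (.a (.f (nat_lit 465) (nat_lit 495) (nat_lit 1487) (.f (nat_lit 499) (nat_lit 500) (nat_lit 464) (.f (nat_lit 435) (nat_lit 436) (nat_lit 2480) (.d (nat_lit 530) (nat_lit 403) (nat_lit 5522) (nat_lit 562) (nat_lit 6578))))) (.a (.f (nat_lit 465) (nat_lit 495) (nat_lit 1487) (.f (nat_lit 499) (nat_lit 500) (nat_lit 464) (.f (nat_lit 435) (nat_lit 436) (nat_lit 2480) (.f (nat_lit 562) (nat_lit 530) (nat_lit 6578) (.f (nat_lit 561) (nat_lit 593) (nat_lit 4560) (.f (nat_lit 563) (nat_lit 527) (nat_lit 3599) (.d (nat_lit 531) (nat_lit 532) (nat_lit 2576) (nat_lit 594) (nat_lit 5586)))))))) (.a (.p (nat_lit 563) (.a (.f (nat_lit 465) (nat_lit 495) (nat_lit 1487) (.f (nat_lit 499) (nat_lit 500) (nat_lit 464) (.d (nat_lit 531) (nat_lit 434) (nat_lit 7602) (nat_lit 595) (nat_lit 7634)))) (.a (.f (nat_lit 465) (nat_lit 495) (nat_lit 1487) (.f (nat_lit 499) (nat_lit 500) (nat_lit 464) (.f (nat_lit 531) (nat_lit 595) (nat_lit 7634) (.f (nat_lit 562) (nat_lit 594) (nat_lit 5586) (.d (nat_lit 561) (nat_lit 527) (nat_lit 3599) (nat_lit 593) (nat_lit 4560)))))) (.a (.f (nat_lit 561) (nat_lit 593) (nat_lit 4560) (.f (nat_lit 562) (nat_lit 527) (nat_lit 3599) (.d (nat_lit 595) (nat_lit 530) (nat_lit 4562) (nat_lit 596) (nat_lit 560)))) (.f (nat_lit 465) (nat_lit 495) (nat_lit 1487) (.f (nat_lit 499) (nat_lit 500) (nat_lit 464) (.f (nat_lit 531) (nat_lit 434) (nat_lit 7602) (.f (nat_lit 562) (nat_lit 594) (nat_lit 5586) (.d (nat_lit 561) (nat_lit 527) (nat_lit 3599) (nat_lit 593) (nat_lit 4560)))))))))) (.a (.p (nat_lit 562) (.a (.f (nat_lit 530) (nat_lit 435) (nat_lit 6578) (.f (nat_lit 561) (nat_lit 593) (nat_lit 4560) (.d (nat_lit 563) (nat_lit 527) (nat_lit 3599) (nat_lit 595) (nat_lit 4562)))) (.a (.f (nat_lit 561) (nat_lit 593) (nat_lit 4560) (.f (nat_lit 563) (nat_lit 527) (nat_lit 3599) (.d (nat_lit 595) (nat_lit 530) (nat_lit 4562) (nat_lit 596) (nat_lit 560)))) (.a (.f (nat_lit 530) (nat_lit 435) (nat_lit 6578) (.f (nat_lit 561) (nat_lit 593) (nat_lit 4560) (.f (nat_lit 563) (nat_lit 595) (nat_lit 4562) (.d (nat_lit 531) (nat_lit 434) (nat_lit 4530) (nat_lit 532) (nat_lit 2576))))) (.a (.f (nat_lit 561) (nat_lit 593) (nat_lit 4560) (.f (nat_lit 563) (nat_lit 527) (nat_lit 3599) (.f (nat_lit 531) (nat_lit 532) (nat_lit 2576) (.d (nat_lit 499) (nat_lit 434) (nat_lit 7602) (nat_lit 594) (nat_lit 5586))))) (.a (.f (nat_lit 530) (nat_lit 435) (nat_lit 6578) (.f (nat_lit 594) (nat_lit 499) (nat_lit 6610) (.d (nat_lit 595) (nat_lit 563) (nat_lit 4562) (nat_lit 627) (nat_lit 4594)))) (.f (nat_lit 530) (nat_lit 435) (nat_lit 6578) (.f (nat_lit 593) (nat_lit 561) (nat_lit 5585) (.d (nat_lit 594) (nat_lit 499) (nat_lit 6610) (nat_lit 625) (nat_lit 5617)))))))))) (.a (.f (nat_lit 465) (nat_lit 495) (nat_lit 1487) (.f (nat_lit 435) (nat_lit 436) (nat_lit 2480) (.f (nat_lit 403) (nat_lit 371) (nat_lit 5490) (.d (nat_lit 530) (nat_lit 434) (nat_lit 6546) (nat_lit 562) (nat_lit 6578))))) (.f (nat_lit 465) (nat_lit 495) (nat_lit 1487) (.f (nat_lit 499) (nat_lit 500) (nat_lit 464) (.f (nat_lit 435) (nat_lit 436) (nat_lit 2480) (.f (nat_lit 403) (nat_lit 371) (nat_lit 5490) (.f (nat_lit 402) (nat_lit 370) (nat_lit 7538) (.f (nat_lit 531) (nat_lit 434) (nat_lit 4498) (.f (nat_lit 563) (nat_lit 595) (nat_lit 7634) (.d (nat_lit 564) (nat_lit 532) (nat_lit 4531) (nat_lit 596) (nat_lit 4563)))))))))))))))) (.a (.p (nat_lit 434) (.a (.p (nat_lit 402) (.a (.f (nat_lit 431) (nat_lit 463) (nat_lit 7599) (.f (nat_lit 403) (nat_lit 371) (nat_lit 6514) (.f (nat_lit 401) (nat_lit 369) (nat_lit 7537) (.d (nat_lit 432) (nat_lit 399) (nat_lit 7567) (nat_lit 400) (nat_lit 1423))))) (.a (.f (nat_lit 403) (nat_lit 371) (nat_lit 6514) (.f (nat_lit 435) (nat_lit 530) (nat_lit 6546) (.f (nat_lit 499) (nat_lit 531) (nat_lit 4498) (.f (nat_lit 467) (nat_lit 370) (nat_lit 4466) (.f (nat_lit 404) (nat_lit 372) (nat_lit 6515) (.f (nat_lit 405) (nat_lit 406) (nat_lit 1426) (.f (nat_lit 437) (nat_lit 438) (nat_lit 402) (.f (nat_lit 436) (nat_lit 401) (nat_lit 401) (.f (nat_lit 500) (nat_lit 532) (nat_lit 4499) (.d (nat_lit 373) (nat_lit 374) (nat_lit 2418) (nat_lit 468) (nat_lit 6516))))))))))) (.a (.f (nat_lit 499) (nat_lit 531) (nat_lit 4498) (.f (nat_lit 370) (nat_lit 467) (nat_lit 4466) (.d (nat_lit 369) (nat_lit 337) (nat_lit 7505) (nat_lit 401) (nat_lit 7537)))) (.f (nat_lit 403) (nat_lit 371) (nat_lit 6514) (.f (nat_lit 499) (nat_lit 531) (nat_lit 4498) (.f (nat_lit 467) (nat_lit 370) (nat_lit 4466) (.f (nat_lit 435) (nat_lit 530) (nat_lit 6546) (.f (nat_lit 500) (nat_lit 532) (nat_lit 4499) (.f (nat_lit 501) (nat_lit 502) (nat_lit 3538) (.f (nat_lit 469) (nat_lit 470) (nat_lit 2514) (.f (nat_lit 404) (nat_lit 372) (nat_lit 6515) (.f (nat_lit 533) (nat_lit 534) (nat_lit 498) (.d (nat_lit 436) (nat_lit 437) (nat_lit 7572) (nat_lit 468) (nat_lit 4500))))))))))))))) (.a (.p (nat_lit 402) (.a (.f (nat_lit 431) (nat_lit 463) (nat_lit 7599) (.f (nat_lit 403) (nat_lit 371) (nat_lit 6514) (.f (nat_lit 401) (nat_lit 369) (nat_lit 7537) (.d (nat_lit 432) (nat_lit 399) (nat_lit 7567) (nat_lit 400) (nat_lit 1423))))) (.a (.f (nat_lit 403) (nat_lit 371) (nat_lit 6514) (.f (nat_lit 435) (nat_lit 530) (nat_lit 6546) (.f (nat_lit 499) (nat_lit 531) (nat_lit 4498) (.f (nat_lit 467) (nat_lit 370) (nat_lit 4466) (.f (nat_lit 404) (nat_lit 372) (nat_lit 6515) (.f (nat_lit 405) (nat_lit 406) (nat_lit 1426) (.f (nat_lit 437) (nat_lit 438) (nat_lit 402) (.f (nat_lit 436) (nat_lit 401) (nat_lit 401) (.f (nat_lit 500) (nat_lit 532) (nat_lit 4499) (.d (nat_lit 373) (nat_lit 374) (nat_lit 2418) (nat_lit 468) (nat_lit 6516))))))))))) (.a s63756 (.a (.f (nat_lit 403) (nat_lit 371) (nat_lit 6514) (.f (nat_lit 499) (nat_lit 531) (nat_lit 4498) (.f (nat_lit 467) (nat_lit 370) (nat_lit 4466) (.f (nat_lit 435) (nat_lit 530) (nat_lit 6546) (.f (nat_lit 500) (nat_lit 532) (nat_lit 4499) (.f (nat_lit 501) (nat_lit 502) (nat_lit 3538) (.f (nat_lit 469) (nat_lit 470) (nat_lit 2514) (.f (nat_lit 404) (nat_lit 372) (nat_lit 6515) (.f (nat_lit 533) (nat_lit 534) (nat_lit 498) (.d (nat_lit 436) (nat_lit 437) (nat_lit 7572) (nat_lit 468) (nat_lit 4500))))))))))) (.f (nat_lit 431) (nat_lit 463) (nat_lit 7599) (.f (nat_lit 499) (nat_lit 531) (nat_lit 4498) (.f (nat_lit 370) (nat_lit 467) (nat_lit 4466) (.f (nat_lit 401) (nat_lit 369) (nat_lit 7537) (.f (nat_lit 399) (nat_lit 432) (nat_lit 7567) (.d (nat_lit 371) (nat_lit 339) (nat_lit 6482) (nat_lit 400) (nat_lit 2415)))))))))))) (.a (.p (nat_lit 402) (.a (.f (nat_lit 403) (nat_lit 371) (nat_lit 6514) (.f (nat_lit 435) (nat_lit 530) (nat_lit 6546) (.f (nat_lit 499) (nat_lit 531) (nat_lit 4498) (.f (nat_lit 467) (nat_lit 370) (nat_lit 4466) (.f (nat_lit 404) (nat_lit 372) (nat_lit 6515) (.f (nat_lit 405) (nat_lit 406) (nat_lit 1426) (.f (nat_lit 437) (nat_lit 438) (nat_lit 402) (.f (nat_lit 436) (nat_lit 401) (nat_lit 401) (.f (nat_lit 500) (nat_lit 532) (nat_lit 4499) (.d (nat_lit 373) (nat_lit 374) (nat_lit 2418) (nat_lit 468) (nat_lit 6516))))))))))) (.a (.f (nat_lit 403) (nat_lit 371) (nat_lit 6514) (.f (nat_lit 530) (nat_lit 435) (nat_lit 6546) (.d (nat_lit 531) (nat_lit 499) (nat_lit 4498) (nat_lit 563) (nat_lit 4530)))) (.a (.f (nat_lit 531) (nat_lit 499) (nat_lit 4498) (.f (nat_lit 561) (nat_lit 593) (nat_lit 4560) (.f (nat_lit 563) (nat_lit 530) (nat_lit 4530) (.d (nat_lit 562) (nat_lit 527) (nat_lit 3599) (nat_lit 532) (nat_lit 2576))))) (.a (.f (nat_lit 431) (nat_lit 463) (nat_lit 7599) (.f (nat_lit 403) (nat_lit 371) (nat_lit 6514) (.f (nat_lit 432) (nat_lit 399) (nat_lit 7567) (.f (nat_lit 400) (nat_lit 401) (nat_lit 1423) (.f (nat_lit 530) (nat_lit 435) (nat_lit 6546) (.f (nat_lit 561) (nat_lit 593) (nat_lit 4560) (.f (nat_lit 563) (nat_lit 531) (nat_lit 4530) (.d (nat_lit 527) (nat_lit 495) (nat_lit 5519) (nat_lit 562) (nat_lit 3599))))))))) (.a (.f (nat_lit 371) (nat_lit 403) (nat_lit 6514) (.f (nat_lit 370) (nat_lit 339) (nat_lit 6482) (.d (nat_lit 499) (nat_lit 467) (nat_lit 4466) (nat_lit 531) (nat_lit 4498)))) s63797)))))) (.a (.p (nat_lit 402) (.a (.f (nat_lit 431) (nat_lit 463) (nat_lit 7599) (.f (nat_lit 403) (nat_lit 371) (nat_lit 6514) (.f (nat_lit 401) (nat_lit 369) (nat_lit 7537) (.d (nat_lit 432) (nat_lit 399) (nat_lit 7567) (nat_lit 400) (nat_lit 1423))))) (.a (.f (nat_lit 403) (nat_lit 371) (nat_lit 6514) (.f (nat_lit 530) (nat_lit 435) (nat_lit 6546) (.d (nat_lit 531) (nat_lit 499) (nat_lit 4498) (nat_lit 563) (nat_lit 4530)))) (.f (nat_lit 531) (nat_lit 499) (nat_lit 4498) (.f (nat_lit 561) (nat_lit 593) (nat_lit 4560) (.f (nat_lit 563) (nat_lit 530) (nat_lit 4530) (.d (nat_lit 562) (nat_lit 527) (nat_lit 3599) (nat_lit 532) (nat_lit 2576)))))))) (.a (.p (nat_lit 402) (.a (.f (nat_lit 499) (nat_lit 531) (nat_lit 4498) (.f (nat_lit 370) (nat_lit 467) (nat_lit 4466) (.d (nat_lit 369) (nat_lit 337) (nat_lit 7505) (nat_lit 401) (nat_lit 7537)))) (.a s63756 (.a (.f (nat_lit 531) (nat_lit 499) (nat_lit 4498) (.f (nat_lit 561) (nat_lit 593) (nat_lit 4560) (.f (nat_lit 563) (nat_lit 530) (nat_lit 4530) (.d (nat_lit 562) (nat_lit 527) (nat_lit 3599) (nat_lit 532) (nat_lit 2576))))) (.f (nat_lit 431) (nat_lit 463) (nat_lit 7599) (.f (nat_lit 401) (nat_lit 369) (nat_lit 7537) (.f (nat_lit 399) (nat_lit 432) (nat_lit 7567) (.d (nat_lit 400) (nat_lit 430) (nat_lit 1422) (nat_lit 435) (nat_lit 399))))))))) (.a (.p (nat_lit 402) (.a (.f (nat_lit 403) (nat_lit 371) (nat_lit 6514) (.f (nat_lit 435) (nat_lit 530) (nat_lit 6546) (.f (nat_lit 499) (nat_lit 531) (nat_lit 4498) (.f (nat_lit 467) (nat_lit 370) (nat_lit 4466) (.f (nat_lit 404) (nat_lit 372) (nat_lit 6515) (.f (nat_lit 405) (nat_lit 406) (nat_lit 1426) (.f (nat_lit 437) (nat_lit 438) (nat_lit 402) (.f (nat_lit 436) (nat_lit 401) (nat_lit 401) (.f (nat_lit 500) (nat_lit 532) (nat_lit 4499) (.d (nat_lit 373) (nat_lit 374) (nat_lit 2418) (nat_lit 468) (nat_lit 6516))))))))))) (.a (.f (nat_lit 403) (nat_lit 371) (nat_lit 6514) (.f (nat_lit 530) (nat_lit 435) (nat_lit 6546) (.d (nat_lit 531) (nat_lit 499) (nat_lit 4498) (nat_lit 563) (nat_lit 4530)))) (.a (.f (nat_lit 499) (nat_lit 531) (nat_lit 4498) (.f (nat_lit 370) (nat_lit 467) (nat_lit 4466) (.d (nat_lit 369) (nat_lit 337) (nat_lit 7505) (nat_lit 401) (nat_lit 7537)))) (.f (nat_lit 403) (nat_lit 371) (nat_lit 6514) (.f (nat_lit 401) (nat_lit 369) (nat_lit 7537) (.f (nat_lit 435) (nat_lit 530) (nat_lit 6546) (.d (nat_lit 436) (nat_lit 400) (nat_lit 400) (nat_lit 437) (nat_lit 3473))))))))) (.a (.p (nat_lit 402) (.a (.f (nat_lit 403) (nat_lit 371) (nat_lit 6514) (.f (nat_lit 435) (nat_lit 530) (nat_lit 6546) (.f (nat_lit 499) (nat_lit 531) (nat_lit 4498) (.f (nat_lit 467) (nat_lit 370) (nat_lit 4466) (.f (nat_lit 404) (nat_lit 372) (nat_lit 6515) (.f (nat_lit 405) (nat_lit 406) (nat_lit 1426) (.f (nat_lit 437) (nat_lit 438) (nat_lit 402) (.f (nat_lit 436) (nat_lit 401) (nat_lit 401) (.f (nat_lit 500) (nat_lit 532) (nat_lit 4499) (.d (nat_lit 373) (nat_lit 374) (nat_lit 2418) (nat_lit 468) (nat_lit 6516))))))))))) (.a (.f (nat_lit 403) (nat_lit 371) (nat_lit 6514) (.f (nat_lit 530) (nat_lit 435) (nat_lit 6546) (.d (nat_lit 531) (nat_lit 499) (nat_lit 4498) (nat_lit 563) (nat_lit 4530)))) (.a (.f (nat_lit 499) (nat_lit 531) (nat_lit 4498) (.f (nat_lit 370) (nat_lit 467) (nat_lit 4466) (.d (nat_lit 369) (nat_lit 337) (nat_lit 7505) (nat_lit 401) (nat_lit 7537)))) (.f (nat_lit 403) (nat_lit 371) (nat_lit 6514) (.f (nat_lit 369) (nat_lit 401) (nat_lit 7537) (.f (nat_lit 370) (nat_lit 337) (nat_lit 7505) (.f (nat_lit 435) (nat_lit 530) (nat_lit 6546) (.d (nat_lit 338) (nat_lit 306) (nat_lit 4402) (nat_lit 467) (nat_lit 4434)))))))))) (.a (.p (nat_lit 402) (.a (.f (nat_lit 403) (nat_lit 371) (nat_lit 6514) (.f (nat_lit 499) (nat_lit 531) (nat_lit 4498) (.f (nat_lit 467) (nat_lit 370) (nat_lit 4466) (.f (nat_lit 435) (nat_lit 530) (nat_lit 6546) (.f (nat_lit 500) (nat_lit 532) (nat_lit 4499) (.f (nat_lit 501) (nat_lit 502) (nat_lit 3538) (.f (nat_lit 469) (nat_lit 470) (nat_lit 2514) (.f (nat_lit 404) (nat_lit 372) (nat_lit 6515) (.f (nat_lit 533) (nat_lit 534) (nat_lit 498) (.d (nat_lit 436) (nat_lit 437) (nat_lit 7572) (nat_lit 468) (nat_lit 4500))))))))))) (.a (.f (nat_lit 403) (nat_lit 371) (nat_lit 6514) (.f (nat_lit 530) (nat_lit 435) (nat_lit 6546) (.d (nat_lit 531) (nat_lit 499) (nat_lit 4498) (nat_lit 563) (nat_lit 4530)))) (.a (.f (nat_lit 531) (nat_lit 499) (nat_lit 4498) (.f (nat_lit 561) (nat_lit 593) (nat_lit 4560) (.f (nat_lit 563) (nat_lit 530) (nat_lit 4530) (.d (nat_lit 562) (nat_lit 527) (nat_lit 3599) (nat_lit 532) (nat_lit 2576))))) (.a (.f (nat_lit 403) (nat_lit 371) (nat_lit 6514) (.f (nat_lit 530) (nat_lit 435) (nat_lit 6546) (.f (nat_lit 561) (nat_lit 593) (nat_lit 4560) (.f (nat_lit 563) (nat_lit 531) (nat_lit 4530) (.d (nat_lit 562) (nat_lit 527) (nat_lit 3599) (nat_lit 595) (nat_lit 4562)))))) (.a (.f (nat_lit 371) (nat_lit 403) (nat_lit 6514) (.f (nat_lit 370) (nat_lit 339) (nat_lit 6482) (.d (nat_lit 499) (nat_lit 467) (nat_lit 4466) (nat_lit 531) (nat_lit 4498)))) (.f (nat_lit 371) (nat_lit 403) (nat_lit 6514) (.f (nat_lit 370) (nat_lit 339) (nat_lit 6482) (.f (nat_lit 337) (nat_lit 369) (nat_lit 7505) (.f (nat_lit 338) (nat_lit 305) (nat_lit 7473) (.d (nat_lit 467) (nat_lit 435) (nat_lit 4434) (nat_lit 499) (nat_lit 4466)))))))))))) (.a (.p (nat_lit 563) (.a (.f (nat_lit 530) (nat_lit 531) (nat_lit 4530) (.f (nat_lit 562) (nat_lit 595) (nat_lit 4562) (.d (nat_lit 561) (nat_lit 527) (nat_lit 3599) (nat_lit 593) (nat_lit 4560)))) (.a (.f (nat_lit 530) (nat_lit 531) (nat_lit 4530) (.f (nat_lit 562) (nat_lit 595) (nat_lit 4562) (.d (nat_lit 435) (nat_lit 403) (nat_lit 6546) (nat_lit 467) (nat_lit 6578)))) (.a (.f (nat_lit 561) (nat_lit 593) (nat_lit 4560) (.f (nat_lit 562) (nat_lit 527) (nat_lit 3599) (.f (nat_lit 531) (nat_lit 532) (nat_lit 2576) (.d (nat_lit 595) (nat_lit 499) (nat_lit 7634) (nat_lit 596) (nat_lit 560))))) (.a (.f (nat_lit 561) (nat_lit 593) (nat_lit 4560) (.f (nat_lit 562) (nat_lit 527) (nat_lit 3599) (.d (nat_lit 595) (nat_lit 530) (nat_lit 4562) (nat_lit 596) (nat_lit 560)))) (.a (.f (nat_lit 531) (nat_lit 530) (nat_lit 4530) (.d (nat_lit 499) (nat_lit 467) (nat_lit 7602) (nat_lit 595) (nat_lit 7634))) (.f (nat_lit 561) (nat_lit 593) (nat_lit 4560) (.f (nat_lit 562) (nat_lit 527) (nat_lit 3599) (.d (nat_lit 531) (nat_lit 530) (nat_lit 4530) (nat_lit 532) (nat_lit 2576)))))))))) (.a (.p (nat_lit 402) (.a (.f (nat_lit 499) (nat_lit 531) (nat_lit 4498) (.f (nat_lit 370) (nat_lit 467) (nat_lit 4466) (.d (nat_lit 369) (nat_lit 337) (nat_lit 7505) (nat_lit 401) (nat_lit 7537)))) (.a (.f (nat_lit 431) (nat_lit 463) (nat_lit 7599) (.f (nat_lit 499) (nat_lit 531) (nat_lit 4498) (.f (nat_lit 370) (nat_lit 467) (nat_lit 4466) (.f (nat_lit 401) (nat_lit 369) (nat_lit 7537) (.f (nat_lit 399) (nat_lit 432) (nat_lit 7567) (.d (nat_lit 371) (nat_lit 339) (nat_lit 6482) (nat_lit 400) (nat_lit 2415))))))) (.a (.f (nat_lit 531) (nat_lit 499) (nat_lit 4498) (.f (nat_lit 561) (nat_lit 593) (nat_lit 4560) (.f (nat_lit 563) (nat_lit 530) (nat_lit 4530) (.d (nat_lit 562) (nat_lit 527) (nat_lit 3599) (nat_lit 532) (nat_lit 2576))))) (.f (nat_lit 431) (nat_lit 463) (nat_lit 7599) (.f (nat_lit 401) (nat_lit 369) (nat_lit 7537) (.f (nat_lit 399) (nat_lit 432) (nat_lit 7567) (.d (nat_lit 400) (nat_lit 430) (nat_lit 1422) (nat_lit 435) (nat_lit 399))))))))) (.a (.p (nat_lit 402) (.a (.f (nat_lit 431) (nat_lit 463) (nat_lit 7599) (.f (nat_lit 403) (nat_lit 371) (nat_lit 6514) (.f (nat_lit 401) (nat_lit 369) (nat_lit 7537) (.d (nat_lit 432) (nat_lit 399) (nat_lit 7567) (nat_lit 400) (nat_lit 1423))))) (.f (nat_lit 531) (nat_lit 499) (nat_lit 4498) (.f (nat_lit 561) (nat_lit 593) (nat_lit 4560) (.f (nat_lit 563) (nat_lit 530) (nat_lit 4530) (.d (nat_lit 562) (nat_lit 527) (nat_lit 3599) (nat_lit 532) (nat_lit 2576))))))) (.a (.p (nat_lit 402) (.a (.f (nat_lit 431) (nat_lit 463) (nat_lit 7599) (.f (nat_lit 403) (nat_lit 371) (nat_lit 6514) (.f (nat_lit 401) (nat_lit 369) (nat_lit 7537) (.d (nat_lit 432) (nat_lit 399) (nat_lit 7567) (nat_lit 400) (nat_lit 1423))))) (.a (.f (nat_lit 431) (nat_lit 463) (nat_lit 7599) (.f (nat_lit 403) (nat_lit 371) (nat_lit 6514) (.f (nat_lit 432) (nat_lit 399) (nat_lit 7567) (.f (nat_lit 400) (nat_lit 401) (nat_lit 1423) (.f (nat_lit 530) (nat_lit 435) (nat_lit 6546) (.f (nat_lit 561) (nat_lit 593) (nat_lit 4560) (.f (nat_lit 563) (nat_lit 531) (nat_lit 4530) (.d (nat_lit 527) (nat_lit 495) (nat_lit 5519) (nat_lit 562) (nat_lit 3599))))))))) (.a (.f (nat_lit 431) (nat_lit 463) (nat_lit 7599) (.f (nat_lit 401) (nat_lit 369) (nat_lit 7537) (.f (nat_lit 399) (nat_lit 432) (nat_lit 7567) (.d (nat_lit 400) (nat_lit 430) (nat_lit 1422) (nat_lit 435) (nat_lit 399))))) (.a (.f (nat_lit 403) (nat_lit 371) (nat_lit 6514) (.f (nat_lit 401) (nat_lit 369) (nat_lit 7537) (.f (nat_lit 435) (nat_lit 530) (nat_lit 6546) (.d (nat_lit 436) (nat_lit 400) (nat_lit 400) (nat_lit 437) (nat_lit 3473))))) (.a (.f (nat_lit 403) (nat_lit 371) (nat_lit 6514) (.f (nat_lit 369) (nat_lit 401) (nat_lit 7537) (.f (nat_lit 370) (nat_lit 337) (nat_lit 7505) (.f (nat_lit 435) (nat_lit 530) (nat_lit 6546) (.d (nat_lit 338) (nat_lit 306) (nat_lit 4402) (nat_lit 467) (nat_lit 4434)))))) (.f (nat_lit 403) (nat_lit 371) (nat_lit 6514) (.f (nat_lit 530) (nat_lit 435) (nat_lit 6546) (.f (nat_lit 561) (nat_lit 593) (nat_lit 4560) (.f (nat_lit 563) (nat_lit 531) (nat_lit 4530) (.d (nat_lit 562) (nat_lit 527) (nat_lit 3599) (nat_lit 595) (nat_lit 4562)))))))))))) (.a (.p (nat_lit 402) (.a (.f (nat_lit 431) (nat_lit 463) (nat_lit 7599) (.f (nat_lit 403) (nat_lit 371) (nat_lit 6514) (.f (nat_lit 401) (nat_lit 369) (nat_lit 7537) (.d (nat_lit 432) (nat_lit 399) (nat_lit 7567) (nat_lit 400) (nat_lit 1423))))) (.a (.f (nat_lit 371) (nat_lit 403) (nat_lit 6514) (.f (nat_lit 370) (nat_lit 339) (nat_lit 6482) (.d (nat_lit 499) (nat_lit 467) (nat_lit 4466) (nat_lit 531) (nat_lit 4498)))) (.f (nat_lit 499) (nat_lit 531) (nat_lit 4498) (.f (nat_lit 370) (nat_lit 467) (nat_lit 4466) (.d (nat_lit 369) (nat_lit 337) (nat_lit 7505) (nat_lit 401) (nat_lit 7537))))))) (.p (nat_lit 402) (.a (.f (nat_lit 431) (nat_lit 463) (nat_lit 7599) (.f (nat_lit 403) (nat_lit 371) (nat_lit 6514) (.f (nat_lit 401) (nat_lit 369) (nat_lit 7537) (.d (nat_lit 432) (nat_lit 399) (nat_lit 7567) (nat_lit 400) (nat_lit 1423))))) (.a s63797 (.a (.f (nat_lit 431) (nat_lit 463) (nat_lit 7599) (.f (nat_lit 401) (nat_lit 369) (nat_lit 7537) (.f (nat_lit 399) (nat_lit 432) (nat_lit 7567) (.d (nat_lit 400) (nat_lit 430) (nat_lit 1422) (nat_lit 435) (nat_lit 399))))) (.a (.f (nat_lit 403) (nat_lit 371) (nat_lit 6514) (.f (nat_lit 401) (nat_lit 369) (nat_lit 7537) (.f (nat_lit 435) (nat_lit 530) (nat_lit 6546) (.d (nat_lit 436) (nat_lit 400) (nat_lit 400) (nat_lit 437) (nat_lit 3473))))) (.a (.f (nat_lit 403) (nat_lit 371) (nat_lit 6514) (.f (nat_lit 369) (nat_lit 401) (nat_lit 7537) (.f (nat_lit 370) (nat_lit 337) (nat_lit 7505) (.f (nat_lit 435) (nat_lit 530) (nat_lit 6546) (.d (nat_lit 338) (nat_lit 306) (nat_lit 4402) (nat_lit 467) (nat_lit 4434)))))) (.f (nat_lit 371) (nat_lit 403) (nat_lit 6514) (.f (nat_lit 370) (nat_lit 339) (nat_lit 6482) (.f (nat_lit 337) (nat_lit 369) (nat_lit 7505) (.f (nat_lit 338) (nat_lit 305) (nat_lit 7473) (.d (nat_lit 467) (nat_lit 435) (nat_lit 4434) (nat_lit 499) (nat_lit 4466)))))))))))))))))))))))))) (.a (.p (nat_lit 563) (.a (.f (nat_lit 561) (nat_lit 593) (nat_lit 4560) (.f (nat_lit 562) (nat_lit 527) (nat_lit 3599) (.d (nat_lit 595) (nat_lit 530) (nat_lit 4562) (nat_lit 596) (nat_lit 560)))) (.a (.f (nat_lit 463) (nat_lit 431) (nat_lit 7599) (.f (nat_lit 499) (nat_lit 465) (nat_lit 463) (.f (nat_lit 531) (nat_lit 595) (nat_lit 7634) (.d (nat_lit 434) (nat_lit 402) (nat_lit 4498) (nat_lit 530) (nat_lit 4530))))) (.a (.f (nat_lit 561) (nat_lit 593) (nat_lit 4560) (.f (nat_lit 562) (nat_lit 527) (nat_lit 3599) (.f (nat_lit 596) (nat_lit 595) (nat_lit 560) (.f (nat_lit 564) (nat_lit 597) (nat_lit 561) (.d (nat_lit 532) (nat_lit 531) (nat_lit 2576) (nat_lit 533) (nat_lit 2577)))))) (.f (nat_lit 463) (nat_lit 431) (nat_lit 7599) (.f (nat_lit 465) (nat_lit 499) (nat_lit 463) (.f (nat_lit 561) (nat_lit 593) (nat_lit 4560) (.f (nat_lit 434) (nat_lit 435) (nat_lit 2479) (.f (nat_lit 562) (nat_lit 527) (nat_lit 3599) (.d (nat_lit 531) (nat_lit 530) (nat_lit 4530) (nat_lit 532) (nat_lit 2576))))))))))) (.p (nat_lit 432) (.a (.d (nat_lit 431) (nat_lit 399) (nat_lit 7567) (nat_lit 463) (nat_lit 7599)) (.a (.p (nat_lit 465) (.a (.d (nat_lit 431) (nat_lit 463) (nat_lit 7599) (nat_lit 467) (nat_lit 3503)) (.a (.f (nat_lit 495) (nat_lit 467) (nat_lit 1487) (.d (nat_lit 494) (nat_lit 463) (nat_lit 1486) (nat_lit 493) (nat_lit 2509))) (.a (.d (nat_lit 467) (nat_lit 431) (nat_lit 3503) (nat_lit 495) (nat_lit 1487)) (.f (nat_lit 463) (nat_lit 431) (nat_lit 7599) (.f (nat_lit 495) (nat_lit 494) (nat_lit 1486) (.d (nat_lit 400) (nat_lit 368) (nat_lit 5487) (nat_lit 527) (nat_lit 5519)))))))) (.a (.p (nat_lit 400) (.a (.f (nat_lit 495) (nat_lit 527) (nat_lit 5519) (.f (nat_lit 368) (nat_lit 463) (nat_lit 5487) (.d (nat_lit 369) (nat_lit 337) (nat_lit 6480) (nat_lit 401) (nat_lit 6512)))) (.a (.f (nat_lit 495) (nat_lit 527) (nat_lit 5519) (.f (nat_lit 465) (nat_lit 467) (nat_lit 1487) (.d (nat_lit 463) (nat_lit 368) (nat_lit 5487) (nat_lit 494) (nat_lit 1486)))) (.a (.f (nat_lit 495) (nat_lit 527) (nat_lit 5519) (.f (nat_lit 465) (nat_lit 467) (nat_lit 1487) (.d (nat_lit 494) (nat_lit 463) (nat_lit 1486) (nat_lit 493) (nat_lit 2509)))) (.f (nat_lit 369) (nat_lit 401) (nat_lit 6512) (.f (nat_lit 368) (nat_lit 337) (nat_lit 6480) (.d (nat_lit 367) (nat_lit 335) (nat_lit 7503) (nat_lit 399) (nat_lit 7535)))))))) (.p (nat_lit 467) (.a (.d (nat_lit 465) (nat_lit 431) (nat_lit 3503) (nat_lit 495) (nat_lit 1487)) (.a (.f (nat_lit 465) (nat_lit 495) (nat_lit 1487) (.f (nat_lit 435) (nat_lit 436) (nat_lit 2480) (.f (nat_lit 403) (nat_lit 371) (nat_lit 5490) (.d (nat_lit 530) (nat_lit 434) (nat_lit 6546) (nat_lit 562) (nat_lit 6578))))) (.a (.f (nat_lit 561) (nat_lit 593) (nat_lit 4560) (.f (nat_lit 399) (nat_lit 431) (nat_lit 7567) (.f (nat_lit 400) (nat_lit 367) (nat_lit 7535) (.f (nat_lit 369) (nat_lit 401) (nat_lit 6512) (.f (nat_lit 368) (nat_lit 337) (nat_lit 6480) (.f (nat_lit 371) (nat_lit 370) (nat_lit 1391) (.f (nat_lit 435) (nat_lit 403) (nat_lit 5490) (.f (nat_lit 527) (nat_lit 495) (nat_lit 5519) (.d (nat_lit 562) (nat_lit 530) (nat_lit 6578) (nat_lit 563) (nat_lit 3599)))))))))) (.d (nat_lit 431) (nat_lit 399) (nat_lit 7567) (nat_lit 465) (nat_lit 3503)))))))))))))))) (.f (nat_lit 463) (nat_lit 431) (nat_lit 7599) (.p (nat_lit 462) (.a (.d (nat_lit 497) (nat_lit 465) (nat_lit 462) (nat_lit 495) (nat_lit 3534)) (.a (.d (nat_lit 497) (nat_lit 461) (nat_lit 461) (nat_lit 495) (nat_lit 3534)) (.a (.d (nat_lit 497) (nat_lit 461) (nat_lit 461) (nat_lit 465) (nat_lit 462)) (.p (nat_lit 461) (.a (.f (nat_lit 460) (nat_lit 495) (nat_lit 460) (.d (nat_lit 492) (nat_lit 491) (nat_lit 1483) (nat_lit 493) (nat_lit 1484))) (.a (.f (nat_lit 493) (nat_lit 492) (nat_lit 1484) (.f (nat_lit 429) (nat_lit 428) (nat_lit 3500) (.d (nat_lit 465) (nat_lit 430) (nat_lit 3501) (nat_lit 494) (nat_lit 1485)))) (.a (.f (nat_lit 495) (nat_lit 460) (nat_lit 460) (.f (nat_lit 429) (nat_lit 428) (nat_lit 3500) (.f (nat_lit 465) (nat_lit 430) (nat_lit 3501) (.d (nat_lit 494) (nat_lit 466) (nat_lit 1486) (nat_lit 493) (nat_lit 2509))))) (.f (nat_lit 460) (nat_lit 495) (nat_lit 460) (.d (nat_lit 428) (nat_lit 427) (nat_lit 3499) (nat_lit 429) (nat_lit 3500))))))))))))))))))))))))) (.a (.p (nat_lit 496) (.a (.f (nat_lit 431) (nat_lit 463) (nat_lit 7599) (.f (nat_lit 432) (nat_lit 399) (nat_lit 7567) (.d (nat_lit 433) (nat_lit 401) (nat_lit 6544) (nat_lit 465) (nat_lit 6576)))) (.a (.f (nat_lit 559) (nat_lit 591) (nat_lit 5583) (.f (nat_lit 527) (nat_lit 432) (nat_lit 5551) (.f (nat_lit 561) (nat_lit 593) (nat_lit 4560) (.d (nat_lit 562) (nat_lit 526) (nat_lit 3598) (nat_lit 563) (nat_lit 3599))))) s62679))) (.a (.p (nat_lit 496) (.a (.f (nat_lit 431) (nat_lit 463) (nat_lit 7599) (.f (nat_lit 432) (nat_lit 399) (nat_lit 7567) (.d (nat_lit 433) (nat_lit 401) (nat_lit 6544) (nat_lit 465) (nat_lit 6576)))) (.a (.f (nat_lit 559) (nat_lit 591) (nat_lit 5583) (.f (nat_lit 527) (nat_lit 432) (nat_lit 5551) (.f (nat_lit 561) (nat_lit 593) (nat_lit 4560) (.d (nat_lit 562) (nat_lit 526) (nat_lit 3598) (nat_lit 563) (nat_lit 3599))))) s63351))) (.a (.p (nat_lit 496) (.a (.f (nat_lit 431) (nat_lit 463) (nat_lit 7599) (.f (nat_lit 432) (nat_lit 399) (nat_lit 7567) (.d (nat_lit 433) (nat_lit 401) (nat_lit 6544) (nat_lit 465) (nat_lit 6576)))) (.a (.f (nat_lit 559) (nat_lit 591) (nat_lit 5583) (.f (nat_lit 527) (nat_lit 432) (nat_lit 5551) (.f (nat_lit 561) (nat_lit 593) (nat_lit 4560) (.d (nat_lit 562) (nat_lit 526) (nat_lit 3598) (nat_lit 563) (nat_lit 3599))))) s63365))) (.a (.p (nat_lit 561) (.a (.f (nat_lit 496) (nat_lit 593) (nat_lit 4560) (.f (nat_lit 559) (nat_lit 591) (nat_lit 5583) (.f (nat_lit 527) (nat_lit 432) (nat_lit 5551) (.d (nat_lit 562) (nat_lit 526) (nat_lit 3598) (nat_lit 563) (nat_lit 3599))))) (.a (.p (nat_lit 562) (.a (.f (nat_lit 563) (nat_lit 527) (nat_lit 3599) (.f (nat_lit 595) (nat_lit 596) (nat_lit 560) (.f (nat_lit 594) (nat_lit 559) (nat_lit 559) (.f (nat_lit 531) (nat_lit 532) (nat_lit 2576) (.d (nat_lit 499) (nat_lit 467) (nat_lit 5586) (nat_lit 626) (nat_lit 5618)))))) (.a (.f (nat_lit 563) (nat_lit 527) (nat_lit 3599) (.f (nat_lit 595) (nat_lit 596) (nat_lit 560) (.f (nat_lit 594) (nat_lit 559) (nat_lit 559) (.f (nat_lit 531) (nat_lit 532) (nat_lit 2576) (.d (nat_lit 626) (nat_lit 499) (nat_lit 5618) (nat_lit 658) (nat_lit 6674)))))) (.a (.f (nat_lit 563) (nat_lit 527) (nat_lit 3599) (.f (nat_lit 593) (nat_lit 496) (nat_lit 4560) (.f (nat_lit 595) (nat_lit 596) (nat_lit 560) (.f (nat_lit 594) (nat_lit 559) (nat_lit 559) (.f (nat_lit 625) (nat_lit 657) (nat_lit 7696) (.f (nat_lit 530) (nat_lit 498) (nat_lit 5617) (.f (nat_lit 627) (nat_lit 659) (nat_lit 7698) (.f (nat_lit 531) (nat_lit 532) (nat_lit 2576) (.f (nat_lit 626) (nat_lit 658) (nat_lit 6674) (.d (nat_lit 628) (nat_lit 629) (nat_lit 3665) (nat_lit 660) (nat_lit 4627))))))))))) (.a (.f (nat_lit 496) (nat_lit 593) (nat_lit 4560) (.f (nat_lit 559) (nat_lit 591) (nat_lit 5583) (.f (nat_lit 531) (nat_lit 530) (nat_lit 2575) (.f (nat_lit 563) (nat_lit 532) (nat_lit 2576) (.d (nat_lit 595) (nat_lit 594) (nat_lit 559) (nat_lit 596) (nat_lit 560)))))) (.a (.f (nat_lit 593) (nat_lit 496) (nat_lit 4560) (.f (nat_lit 563) (nat_lit 527) (nat_lit 3599) (.f (nat_lit 596) (nat_lit 595) (nat_lit 560) (.f (nat_lit 564) (nat_lit 597) (nat_lit 561) (.f (nat_lit 565) (nat_lit 594) (nat_lit 1585) (.d (nat_lit 533) (nat_lit 532) (nat_lit 2577) (nat_lit 534) (nat_lit 2578))))))) (.a (.f (nat_lit 527) (nat_lit 563) (nat_lit 3599) (.d (nat_lit 526) (nat_lit 525) (nat_lit 525) (nat_lit 559) (nat_lit 3598))) (.f (nat_lit 496) (nat_lit 593) (nat_lit 4560) (.f (nat_lit 559) (nat_lit 591) (nat_lit 5583) (.f (nat_lit 526) (nat_lit 527) (nat_lit 3598) (.f (nat_lit 558) (nat_lit 525) (nat_lit 3597) (.f (nat_lit 589) (nat_lit 590) (nat_lit 1581) (.f (nat_lit 557) (nat_lit 588) (nat_lit 1580) (.f (nat_lit 465) (nat_lit 433) (nat_lit 6576) (.f (nat_lit 494) (nat_lit 462) (nat_lit 5581) (.f (nat_lit 495) (nat_lit 493) (nat_lit 2509) (.d (nat_lit 466) (nat_lit 467) (nat_lit 1487) (nat_lit 497) (nat_lit 2510)))))))))))))))))) (.a s64006 (.a (.f (nat_lit 496) (nat_lit 593) (nat_lit 4560) (.f (nat_lit 559) (nat_lit 591) (nat_lit 5583) (.f (nat_lit 432) (nat_lit 527) (nat_lit 5551) (.d (nat_lit 433) (nat_lit 401) (nat_lit 6544) (nat_lit 465) (nat_lit 6576))))) (.a (.p (nat_lit 562) (.a (.f (nat_lit 496) (nat_lit 593) (nat_lit 4560) (.f (nat_lit 559) (nat_lit 591) (nat_lit 5583) (.f (nat_lit 531) (nat_lit 530) (nat_lit 2575) (.f (nat_lit 563) (nat_lit 532) (nat_lit 2576) (.d (nat_lit 595) (nat_lit 594) (nat_lit 559) (nat_lit 596) (nat_lit 560)))))) (.a s63988 (.a (.p (nat_lit 559) (.a (.d (nat_lit 496) (nat_lit 591) (nat_lit 5583) (nat_lit 593) (nat_lit 4560)) (.a (.f (nat_lit 594) (nat_lit 595) (nat_lit 559) (.f (nat_lit 558) (nat_lit 593) (nat_lit 558) (.d (nat_lit 590) (nat_lit 589) (nat_lit 1581) (nat_lit 591) (nat_lit 1582)))) (.a (.f (nat_lit 593) (nat_lit 496) (nat_lit 4560) (.d (nat_lit 594) (nat_lit 558) (nat_lit 558) (nat_lit 595) (nat_lit 559))) (.d (nat_lit 591) (nat_lit 496) (nat_lit 5583) (nat_lit 590) (nat_lit 1582)))))) (.a s64082 (.a (.p (nat_lit 559) (.a (.f (nat_lit 595) (nat_lit 594) (nat_lit 559) (.f (nat_lit 563) (nat_lit 596) (nat_lit 560) (.d (nat_lit 531) (nat_lit 530) (nat_lit 2575) (nat_lit 532) (nat_lit 2576)))) (.d (nat_lit 591) (nat_lit 496) (nat_lit 5583) (nat_lit 590) (nat_lit 1582)))) (.a (.f (nat_lit 496) (nat_lit 593) (nat_lit 4560) (.f (nat_lit 559) (nat_lit 591) (nat_lit 5583) (.f (nat_lit 433) (nat_lit 465) (nat_lit 6576) (.f (nat_lit 432) (nat_lit 401) (nat_lit 6544) (.f (nat_lit 431) (nat_lit 399) (nat_lit 7567) (.f (nat_lit 531) (nat_lit 530) (nat_lit 2575) (.f (nat_lit 563) (nat_lit 532) (nat_lit 2576) (.f (nat_lit 596) (nat_lit 595) (nat_lit 560) (.f (nat_lit 564) (nat_lit 597) (nat_lit 561) (.f (nat_lit 467) (nat_lit 499) (nat_lit 4563) (.f (nat_lit 434) (nat_lit 466) (nat_lit 431) (.f (nat_lit 435) (nat_lit 468) (nat_lit 432) (.d (nat_lit 403) (nat_lit 402) (nat_lit 2447) (nat_lit 404) (nat_lit 2448)))))))))))))) (.p (nat_lit 530) (.a (.f (nat_lit 593) (nat_lit 496) (nat_lit 4560) (.f (nat_lit 625) (nat_lit 657) (nat_lit 6673) (.d (nat_lit 498) (nat_lit 466) (nat_lit 5585) (nat_lit 594) (nat_lit 5617)))) (.a (.f (nat_lit 559) (nat_lit 531) (nat_lit 2575) (.d (nat_lit 496) (nat_lit 591) (nat_lit 5583) (nat_lit 593) (nat_lit 4560))) (.f (nat_lit 531) (nat_lit 559) (nat_lit 2575) (.d (nat_lit 532) (nat_lit 533) (nat_lit 1553) (nat_lit 563) (nat_lit 2576))))))))))))) (.a (.p (nat_lit 563) (.a (.f (nat_lit 562) (nat_lit 527) (nat_lit 3599) (.f (nat_lit 596) (nat_lit 595) (nat_lit 560) (.f (nat_lit 564) (nat_lit 597) (nat_lit 561) (.d (nat_lit 532) (nat_lit 531) (nat_lit 2576) (nat_lit 533) (nat_lit 2577))))) (.a (.p (nat_lit 562) (.a (.f (nat_lit 596) (nat_lit 595) (nat_lit 560) (.f (nat_lit 564) (nat_lit 597) (nat_lit 561) (.d (nat_lit 532) (nat_lit 531) (nat_lit 2576) (nat_lit 533) (nat_lit 2577)))) (.a (.f (nat_lit 593) (nat_lit 496) (nat_lit 4560) (.f (nat_lit 596) (nat_lit 595) (nat_lit 560) (.f (nat_lit 564) (nat_lit 597) (nat_lit 561) (.f (nat_lit 533) (nat_lit 532) (nat_lit 2577) (.d (nat_lit 565) (nat_lit 534) (nat_lit 2578) (nat_lit 594) (nat_lit 1585)))))) (.a s64043 (.a (.f (nat_lit 593) (nat_lit 496) (nat_lit 4560) (.f (nat_lit 596) (nat_lit 595) (nat_lit 560) (.f (nat_lit 564) (nat_lit 597) (nat_lit 561) (.f (nat_lit 531) (nat_lit 532) (nat_lit 2576) (.f (nat_lit 594) (nat_lit 565) (nat_lit 1585) (.f (nat_lit 499) (nat_lit 467) (nat_lit 4563) (.d (nat_lit 626) (nat_lit 530) (nat_lit 6642) (nat_lit 658) (nat_lit 6674)))))))) (.a s64061 (.a (.f (nat_lit 593) (nat_lit 496) (nat_lit 4560) (.f (nat_lit 532) (nat_lit 531) (nat_lit 2576) (.f (nat_lit 564) (nat_lit 533) (nat_lit 2577) (.f (nat_lit 565) (nat_lit 594) (nat_lit 1585) (.d (nat_lit 597) (nat_lit 596) (nat_lit 561) (nat_lit 598) (nat_lit 562)))))) s64081))))))) (.a (.f (nat_lit 496) (nat_lit 593) (nat_lit 4560) (.f (nat_lit 527) (nat_lit 562) (nat_lit 3599) (.f (nat_lit 433) (nat_lit 465) (nat_lit 6576) (.f (nat_lit 432) (nat_lit 401) (nat_lit 6544) (.f (nat_lit 400) (nat_lit 495) (nat_lit 5519) (.d (nat_lit 399) (nat_lit 367) (nat_lit 7535) (nat_lit 431) (nat_lit 7567))))))) (.p (nat_lit 499) (.a (.f (nat_lit 496) (nat_lit 593) (nat_lit 4560) (.p (nat_lit 432) (.a (.d (nat_lit 433) (nat_lit 401) (nat_lit 6544) (nat_lit 465) (nat_lit 6576)) (.a (.f (nat_lit 465) (nat_lit 433) (nat_lit 6576) (.f (nat_lit 399) (nat_lit 431) (nat_lit 7567) (.f (nat_lit 400) (nat_lit 367) (nat_lit 7535) (.f (nat_lit 497) (nat_lit 368) (nat_lit 4464) (.d (nat_lit 498) (nat_lit 500) (nat_lit 3536) (nat_lit 527) (nat_lit 1519)))))) (.a (.f (nat_lit 399) (nat_lit 431) (nat_lit 7567) (.f (nat_lit 400) (nat_lit 367) (nat_lit 7535) (.f (nat_lit 369) (nat_lit 401) (nat_lit 6512) (.f (nat_lit 368) (nat_lit 337) (nat_lit 6480) (.f (nat_lit 497) (nat_lit 465) (nat_lit 4464) (.d (nat_lit 527) (nat_lit 495) (nat_lit 5519) (nat_lit 498) (nat_lit 1519))))))) (.f (nat_lit 399) (nat_lit 431) (nat_lit 7567) (.f (nat_lit 400) (nat_lit 367) (nat_lit 7535) (.d (nat_lit 401) (nat_lit 369) (nat_lit 6512) (nat_lit 433) (nat_lit 6544))))))))) (.a (.p (nat_lit 531) (.a (.f (nat_lit 496) (nat_lit 593) (nat_lit 4560) (.f (nat_lit 433) (nat_lit 465) (nat_lit 6576) (.f (nat_lit 432) (nat_lit 401) (nat_lit 6544) (.f (nat_lit 399) (nat_lit 431) (nat_lit 7567) (.f (nat_lit 400) (nat_lit 367) (nat_lit 7535) (.f (nat_lit 434) (nat_lit 435) (nat_lit 3471) (.f (nat_lit 466) (nat_lit 467) (nat_lit 7602) (.d (nat_lit 498) (nat_lit 402) (nat_lit 4498) (nat_lit 530) (nat_lit 4530))))))))) (.a (.p (nat_lit 595) (.a (.f (nat_lit 498) (nat_lit 466) (nat_lit 7634) (.f (nat_lit 500) (nat_lit 468) (nat_lit 6611) (.d (nat_lit 627) (nat_lit 530) (nat_lit 7666) (nat_lit 532) (nat_lit 6643)))) (.f (nat_lit 596) (nat_lit 628) (nat_lit 4595) (.d (nat_lit 594) (nat_lit 593) (nat_lit 3632) (nat_lit 626) (nat_lit 5618))))) (.a (.p (nat_lit 595) (.a (.f (nat_lit 596) (nat_lit 628) (nat_lit 4595) (.d (nat_lit 594) (nat_lit 593) (nat_lit 3632) (nat_lit 626) (nat_lit 5618))) (.a (.f (nat_lit 500) (nat_lit 468) (nat_lit 6611) (.f (nat_lit 627) (nat_lit 532) (nat_lit 6643) (.d (nat_lit 626) (nat_lit 594) (nat_lit 5618) (nat_lit 658) (nat_lit 5650)))) (.f (nat_lit 500) (nat_lit 468) (nat_lit 6611) (.f (nat_lit 627) (nat_lit 532) (nat_lit 6643) (.d (nat_lit 628) (nat_lit 596) (nat_lit 4595) (nat_lit 660) (nat_lit 4627))))))) s64158)))) (.a (.p (nat_lit 531) (.a (.p (nat_lit 595) (.a (.f (nat_lit 498) (nat_lit 466) (nat_lit 7634) (.f (nat_lit 500) (nat_lit 468) (nat_lit 6611) (.d (nat_lit 627) (nat_lit 530) (nat_lit 7666) (nat_lit 532) (nat_lit 6643)))) (.f (nat_lit 596) (nat_lit 628) (nat_lit 4595) (.d (nat_lit 594) (nat_lit 593) (nat_lit 3632) (nat_lit 626) (nat_lit 5618))))) (.a (.p (nat_lit 595) (.a (.f (nat_lit 596) (nat_lit 628) (nat_lit 4595) (.d (nat_lit 594) (nat_lit 593) (nat_lit 3632) (nat_lit 626) (nat_lit 5618))) (.a (.f (nat_lit 500) (nat_lit 468) (nat_lit 6611) (.f (nat_lit 627) (nat_lit 532) (nat_lit 6643) (.d (nat_lit 626) (nat_lit 594) (nat_lit 5618) (nat_lit 658) (nat_lit 5650)))) (.f (nat_lit 500) (nat_lit 468) (nat_lit 6611) (.f (nat_lit 627) (nat_lit 532) (nat_lit 6643) (.d (nat_lit 628) (nat_lit 596) (nat_lit 4595) (nat_lit 660) (nat_lit 4627))))))) (.a (.p (nat_lit 595) (.a (.f (nat_lit 596) (nat_lit 628) (nat_lit 4595) (.d (nat_lit 594) (nat_lit 593) (nat_lit 3632) (nat_lit 626) (nat_lit 5618))) (.a (.f (nat_lit 498) (nat_lit 466) (nat_lit 7634) (.f (nat_lit 627) (nat_lit 530) (nat_lit 7666) (.d (nat_lit 628) (nat_lit 596) (nat_lit 4595) (nat_lit 660) (nat_lit 4627)))) (.f (nat_lit 498) (nat_lit 466) (nat_lit 7634) (.f (nat_lit 496) (nat_lit 593) (nat_lit 4560) (.d (nat_lit 497) (nat_lit 527) (nat_lit 1519) (nat_lit 532) (nat_lit 496))))))) (.a (.p (nat_lit 595) (.a (.f (nat_lit 596) (nat_lit 628) (nat_lit 4595) (.d (nat_lit 594) (nat_lit 593) (nat_lit 3632) (nat_lit 626) (nat_lit 5618))) (.a (.f (nat_lit 498) (nat_lit 466) (nat_lit 7634) (.f (nat_lit 627) (nat_lit 530) (nat_lit 7666) (.d (nat_lit 628) (nat_lit 596) (nat_lit 4595) (nat_lit 660) (nat_lit 4627)))) (.f (nat_lit 498) (nat_lit 466) (nat_lit 7634) (.f (nat_lit 496) (nat_lit 593) (nat_lit 4560) (.f (nat_lit 497) (nat_lit 527) (nat_lit 1519) (.d (nat_lit 530) (nat_lit 495) (nat_lit 495) (nat_lit 627) (nat_lit 7666)))))))) (.a s64158 (.a (.p (nat_lit 467) (.a (.f (nat_lit 466) (nat_lit 434) (nat_lit 7602) (.f (nat_lit 465) (nat_lit 500) (nat_lit 464) (.d (nat_lit 496) (nat_lit 495) (nat_lit 1487) (nat_lit 593) (nat_lit 4560)))) (.a (.f (nat_lit 496) (nat_lit 593) (nat_lit 4560) (.f (nat_lit 465) (nat_lit 433) (nat_lit 6576) (.d (nat_lit 466) (nat_lit 495) (nat_lit 1487) (nat_lit 500) (nat_lit 464)))) (.a (.f (nat_lit 468) (nat_lit 436) (nat_lit 6579) (.f (nat_lit 466) (nat_lit 434) (nat_lit 7602) (.d (nat_lit 595) (nat_lit 498) (nat_lit 7634) (nat_lit 500) (nat_lit 6611)))) (.a (.f (nat_lit 468) (nat_lit 436) (nat_lit 6579) (.f (nat_lit 500) (nat_lit 595) (nat_lit 6611) (.f (nat_lit 564) (nat_lit 596) (nat_lit 4563) (.f (nat_lit 532) (nat_lit 435) (nat_lit 4531) (.f (nat_lit 469) (nat_lit 437) (nat_lit 6580) (.d (nat_lit 498) (nat_lit 470) (nat_lit 1490) (nat_lit 497) (nat_lit 2513))))))) (.f (nat_lit 496) (nat_lit 593) (nat_lit 4560) (.f (nat_lit 466) (nat_lit 434) (nat_lit 7602) (.d (nat_lit 465) (nat_lit 433) (nat_lit 6576) (nat_lit 495) (nat_lit 1487))))))))) (.a (.p (nat_lit 467) (.a (.f (nat_lit 466) (nat_lit 434) (nat_lit 7602) (.f (nat_lit 465) (nat_lit 500) (nat_lit 464) (.d (nat_lit 496) (nat_lit 495) (nat_lit 1487) (nat_lit 593) (nat_lit 4560)))) (.a (.f (nat_lit 496) (nat_lit 593) (nat_lit 4560) (.f (nat_lit 465) (nat_lit 433) (nat_lit 6576) (.d (nat_lit 466) (nat_lit 495) (nat_lit 1487) (nat_lit 500) (nat_lit 464)))) (.f (nat_lit 564) (nat_lit 596) (nat_lit 4563) (.f (nat_lit 435) (nat_lit 532) (nat_lit 4531) (.d (nat_lit 436) (nat_lit 404) (nat_lit 6547) (nat_lit 468) (nat_lit 6579))))))) s64192)))))))) (.a (.p (nat_lit 531) (.a (.p (nat_lit 595) (.a (.f (nat_lit 498) (nat_lit 466) (nat_lit 7634) (.f (nat_lit 500) (nat_lit 468) (nat_lit 6611) (.d (nat_lit 627) (nat_lit 530) (nat_lit 7666) (nat_lit 532) (nat_lit 6643)))) (.f (nat_lit 596) (nat_lit 628) (nat_lit 4595) (.d (nat_lit 594) (nat_lit 593) (nat_lit 3632) (nat_lit 626) (nat_lit 5618))))) (.a (.p (nat_lit 595) (.a (.f (nat_lit 596) (nat_lit 628) (nat_lit 4595) (.d (nat_lit 594) (nat_lit 593) (nat_lit 3632) (nat_lit 626) (nat_lit 5618))) (.a (.f (nat_lit 500) (nat_lit 468) (nat_lit 6611) (.f (nat_lit 627) (nat_lit 532) (nat_lit 6643) (.d (nat_lit 626) (nat_lit 594) (nat_lit 5618) (nat_lit 658) (nat_lit 5650)))) (.f (nat_lit 500) (nat_lit 468) (nat_lit 6611) (.f (nat_lit 627) (nat_lit 532) (nat_lit 6643) (.d (nat_lit 628) (nat_lit 596) (nat_lit 4595) (nat_lit 660) (nat_lit 4627))))))) (.a (.p (nat_lit 595) (.a (.f (nat_lit 596) (nat_lit 628) (nat_lit 4595) (.d (nat_lit 594) (nat_lit 593) (nat_lit 3632) (nat_lit 626) (nat_lit 5618))) (.a (.f (nat_lit 498) (nat_lit 466) (nat_lit 7634) (.f (nat_lit 627) (nat_lit 530) (nat_lit 7666) (.d (nat_lit 628) (nat_lit 596) (nat_lit 4595) (nat_lit 660) (nat_lit 4627)))) (.f (nat_lit 498) (nat_lit 466) (nat_lit 7634) (.f (nat_lit 496) (nat_lit 593) (nat_lit 4560) (.d (nat_lit 497) (nat_lit 527) (nat_lit 1519) (nat_lit 532) (nat_lit 496))))))) (.a (.p (nat_lit 595) (.a (.f (nat_lit 596) (nat_lit 628) (nat_lit 4595) (.d (nat_lit 594) (nat_lit 593) (nat_lit 3632) (nat_lit 626) (nat_lit 5618))) (.a (.f (nat_lit 498) (nat_lit 466) (nat_lit 7634) (.f (nat_lit 627) (nat_lit 530) (nat_lit 7666) (.d (nat_lit 628) (nat_lit 596) (nat_lit 4595) (nat_lit 660) (nat_lit 4627)))) (.f (nat_lit 498) (nat_lit 466) (nat_lit 7634) (.f (nat_lit 496) (nat_lit 593) (nat_lit 4560) (.f (nat_lit 497) (nat_lit 527) (nat_lit 1519) (.d (nat_lit 530) (nat_lit 495) (nat_lit 495) (nat_lit 627) (nat_lit 7666)))))))) (.a s64158 (.a (.p (nat_lit 467) (.a (.f (nat_lit 466) (nat_lit 434) (nat_lit 7602) (.f (nat_lit 465) (nat_lit 500) (nat_lit 464) (.d (nat_lit 496) (nat_lit 495) (nat_lit 1487) (nat_lit 593) (nat_lit 4560)))) (.a (.f (nat_lit 468) (nat_lit 436) (nat_lit 6579) (.f (nat_lit 500) (nat_lit 595) (nat_lit 6611) (.f (nat_lit 564) (nat_lit 596) (nat_lit 4563) (.f (nat_lit 532) (nat_lit 435) (nat_lit 4531) (.f (nat_lit 469) (nat_lit 437) (nat_lit 6580) (.d (nat_lit 498) (nat_lit 470) (nat_lit 1490) (nat_lit 497) (nat_lit 2513))))))) (.f (nat_lit 564) (nat_lit 596) (nat_lit 4563) (.f (nat_lit 435) (nat_lit 532) (nat_lit 4531) (.d (nat_lit 436) (nat_lit 404) (nat_lit 6547) (nat_lit 468) (nat_lit 6579))))))) (.a (.p (nat_lit 467) (.a (.f (nat_lit 466) (nat_lit 434) (nat_lit 7602) (.f (nat_lit 465) (nat_lit 500) (nat_lit 464) (.d (nat_lit 496) (nat_lit 495) (nat_lit 1487) (nat_lit 593) (nat_lit 4560)))) (.f (nat_lit 564) (nat_lit 596) (nat_lit 4563) (.f (nat_lit 435) (nat_lit 532) (nat_lit 4531) (.d (nat_lit 436) (nat_lit 404) (nat_lit 6547) (nat_lit 468) (nat_lit 6579)))))) s64192)))))))) (.a (.p (nat_lit 531) (.a (.p (nat_lit 595) (.a (.f (nat_lit 498) (nat_lit 466) (nat_lit 7634) (.f (nat_lit 500) (nat_lit 468) (nat_lit 6611) (.d (nat_lit 627) (nat_lit 530) (nat_lit 7666) (nat_lit 532) (nat_lit 6643)))) (.f (nat_lit 596) (nat_lit 628) (nat_lit 4595) (.d (nat_lit 594) (nat_lit 593) (nat_lit 3632) (nat_lit 626) (nat_lit 5618))))) (.a (.p (nat_lit 595) (.a (.f (nat_lit 596) (nat_lit 628) (nat_lit 4595) (.d (nat_lit 594) (nat_lit 593) (nat_lit 3632) (nat_lit 626) (nat_lit 5618))) (.a (.f (nat_lit 500) (nat_lit 468) (nat_lit 6611) (.f (nat_lit 627) (nat_lit 532) (nat_lit 6643) (.d (nat_lit 626) (nat_lit 594) (nat_lit 5618) (nat_lit 658) (nat_lit 5650)))) (.f (nat_lit 500) (nat_lit 468) (nat_lit 6611) (.f (nat_lit 627) (nat_lit 532) (nat_lit 6643) (.d (nat_lit 628) (nat_lit 596) (nat_lit 4595) (nat_lit 660) (nat_lit 4627))))))) (.a (.p (nat_lit 595) (.a (.f (nat_lit 596) (nat_lit 628) (nat_lit 4595) (.d (nat_lit 594) (nat_lit 593) (nat_lit 3632) (nat_lit 626) (nat_lit 5618))) (.a (.f (nat_lit 498) (nat_lit 466) (nat_lit 7634) (.f (nat_lit 627) (nat_lit 530) (nat_lit 7666) (.d (nat_lit 628) (nat_lit 596) (nat_lit 4595) (nat_lit 660) (nat_lit 4627)))) (.f (nat_lit 498) (nat_lit 466) (nat_lit 7634) (.f (nat_lit 496) (nat_lit 593) (nat_lit 4560) (.d (nat_lit 497) (nat_lit 527) (nat_lit 1519) (nat_lit 532) (nat_lit 496))))))) (.a (.p (nat_lit 595) (.a (.f (nat_lit 596) (nat_lit 628) (nat_lit 4595) (.d (nat_lit 594) (nat_lit 593) (nat_lit 3632) (nat_lit 626) (nat_lit 5618))) (.a (.f (nat_lit 498) (nat_lit 466) (nat_lit 7634) (.f (nat_lit 627) (nat_lit 530) (nat_lit 7666) (.d (nat_lit 628) (nat_lit 596) (nat_lit 4595) (nat_lit 660) (nat_lit 4627)))) (.f (nat_lit 498) (nat_lit 466) (nat_lit 7634) (.f (nat_lit 496) (nat_lit 593) (nat_lit 4560) (.f (nat_lit 497) (nat_lit 527) (nat_lit 1519) (.d (nat_lit 530) (nat_lit 495) (nat_lit 495) (nat_lit 627) (nat_lit 7666)))))))) (.a s64158 (.a (.p (nat_lit 467) (.a (.f (nat_lit 468) (nat_lit 436) (nat_lit 6579) (.f (nat_lit 466) (nat_lit 434) (nat_lit 7602) (.d (nat_lit 595) (nat_lit 498) (nat_lit 7634) (nat_lit 500) (nat_lit 6611)))) (.a (.f (nat_lit 468) (nat_lit 436) (nat_lit 6579) (.f (nat_lit 500) (nat_lit 595) (nat_lit 6611) (.f (nat_lit 564) (nat_lit 596) (nat_lit 4563) (.f (nat_lit 532) (nat_lit 435) (nat_lit 4531) (.f (nat_lit 469) (nat_lit 437) (nat_lit 6580) (.d (nat_lit 498) (nat_lit 470) (nat_lit 1490) (nat_lit 497) (nat_lit 2513))))))) (.a (.f (nat_lit 564) (nat_lit 596) (nat_lit 4563) (.f (nat_lit 532) (nat_lit 435) (nat_lit 4531) (.f (nat_lit 496) (nat_lit 593) (nat_lit 4560) (.f (nat_lit 498) (nat_lit 497) (nat_lit 496) (.d (nat_lit 466) (nat_lit 434) (nat_lit 7602) (nat_lit 595) (nat_lit 7634)))))) (.f (nat_lit 564) (nat_lit 596) (nat_lit 4563) (.f (nat_lit 435) (nat_lit 532) (nat_lit 4531) (.d (nat_lit 436) (nat_lit 404) (nat_lit 6547) (nat_lit 468) (nat_lit 6579)))))))) (.a (.p (nat_lit 467) (.a (.f (nat_lit 564) (nat_lit 596) (nat_lit 4563) (.f (nat_lit 435) (nat_lit 532) (nat_lit 4531) (.d (nat_lit 436) (nat_lit 404) (nat_lit 6547) (nat_lit 468) (nat_lit 6579)))) (.a (.f (nat_lit 564) (nat_lit 596) (nat_lit 4563) (.f (nat_lit 435) (nat_lit 532) (nat_lit 4531) (.d (nat_lit 434) (nat_lit 402) (nat_lit 7570) (nat_lit 466) (nat_lit 7602)))) (.a (.f (nat_lit 496) (nat_lit 593) (nat_lit 4560) (.f (nat_lit 468) (nat_lit 436) (nat_lit 6579) (.f (nat_lit 498) (nat_lit 497) (nat_lit 2512) (.f (nat_lit 466) (nat_lit 434) (nat_lit 7602) (.f (nat_lit 469) (nat_lit 470) (nat_lit 1490) (.f (nat_lit 501) (nat_lit 502) (nat_lit 466) (.f (nat_lit 437) (nat_lit 438) (nat_lit 2482) (.f (nat_lit 564) (nat_lit 596) (nat_lit 4563) (.d (nat_lit 532) (nat_lit 500) (nat_lit 6580) (nat_lit 533) (nat_lit 5556)))))))))) (.f (nat_lit 434) (nat_lit 466) (nat_lit 7602) (.f (nat_lit 435) (nat_lit 402) (nat_lit 7570) (.d (nat_lit 436) (nat_lit 404) (nat_lit 6547) (nat_lit 468) (nat_lit 6579)))))))) s64192)))))))) (.a (.p (nat_lit 531) (.a (.p (nat_lit 595) (.a (.f (nat_lit 498) (nat_lit 466) (nat_lit 7634) (.f (nat_lit 500) (nat_lit 468) (nat_lit 6611) (.d (nat_lit 627) (nat_lit 530) (nat_lit 7666) (nat_lit 532) (nat_lit 6643)))) (.f (nat_lit 596) (nat_lit 628) (nat_lit 4595) (.d (nat_lit 594) (nat_lit 593) (nat_lit 3632) (nat_lit 626) (nat_lit 5618))))) (.a (.p (nat_lit 595) (.a (.f (nat_lit 596) (nat_lit 628) (nat_lit 4595) (.d (nat_lit 594) (nat_lit 593) (nat_lit 3632) (nat_lit 626) (nat_lit 5618))) (.a (.f (nat_lit 500) (nat_lit 468) (nat_lit 6611) (.f (nat_lit 627) (nat_lit 532) (nat_lit 6643) (.d (nat_lit 626) (nat_lit 594) (nat_lit 5618) (nat_lit 658) (nat_lit 5650)))) (.f (nat_lit 500) (nat_lit 468) (nat_lit 6611) (.f (nat_lit 627) (nat_lit 532) (nat_lit 6643) (.d (nat_lit 628) (nat_lit 596) (nat_lit 4595) (nat_lit 660) (nat_lit 4627))))))) (.a (.p (nat_lit 595) (.a (.f (nat_lit 596) (nat_lit 628) (nat_lit 4595) (.d (nat_lit 594) (nat_lit 593) (nat_lit 3632) (nat_lit 626) (nat_lit 5618))) (.a (.f (nat_lit 498) (nat_lit 466) (nat_lit 7634) (.f (nat_lit 627) (nat_lit 530) (nat_lit 7666) (.d (nat_lit 628) (nat_lit 596) (nat_lit 4595) (nat_lit 660) (nat_lit 4627)))) (.f (nat_lit 498) (nat_lit 466) (nat_lit 7634) (.f (nat_lit 627) (nat_lit 530) (nat_lit 7666) (.d (nat_lit 626) (nat_lit 594) (nat_lit 5618) (nat_lit 658) (nat_lit 5650))))))) (.a s64158 (.a (.p (nat_lit 467) (.a (.f (nat_lit 468) (nat_lit 436) (nat_lit 6579) (.f (nat_lit 466) (nat_lit 434) (nat_lit 7602) (.d (nat_lit 595) (nat_lit 498) (nat_lit 7634) (nat_lit 500) (nat_lit 6611)))) (.a (.f (nat_lit 468) (nat_lit 436) (nat_lit 6579) (.f (nat_lit 500) (nat_lit 595) (nat_lit 6611) (.f (nat_lit 564) (nat_lit 596) (nat_lit 4563) (.f (nat_lit 532) (nat_lit 435) (nat_lit 4531) (.f (nat_lit 469) (nat_lit 437) (nat_lit 6580) (.d (nat_lit 498) (nat_lit 470) (nat_lit 1490) (nat_lit 497) (nat_lit 2513))))))) (.f (nat_lit 564) (nat_lit 596) (nat_lit 4563) (.f (nat_lit 435) (nat_lit 532) (nat_lit 4531) (.d (nat_lit 434) (nat_lit 402) (nat_lit 7570) (nat_lit 466) (nat_lit 7602))))))) (.a (.p (nat_lit 467) (.a (.f (nat_lit 564) (nat_lit 596) (nat_lit 4563) (.f (nat_lit 435) (nat_lit 532) (nat_lit 4531) (.d (nat_lit 436) (nat_lit 404) (nat_lit 6547) (nat_lit 468) (nat_lit 6579)))) (.a (.f (nat_lit 564) (nat_lit 596) (nat_lit 4563) (.f (nat_lit 435) (nat_lit 532) (nat_lit 4531) (.d (nat_lit 434) (nat_lit 402) (nat_lit 7570) (nat_lit 466) (nat_lit 7602)))) (.f (nat_lit 466) (nat_lit 434) (nat_lit 7602) (.f (nat_lit 468) (nat_lit 436) (nat_lit 6579) (.f (nat_lit 465) (nat_lit 500) (nat_lit 464) (.d (nat_lit 432) (nat_lit 431) (nat_lit 3503) (nat_lit 433) (nat_lit 3504)))))))) s64233))))))) (.a (.p (nat_lit 531) (.a (.p (nat_lit 595) (.a (.f (nat_lit 596) (nat_lit 628) (nat_lit 4595) (.d (nat_lit 594) (nat_lit 593) (nat_lit 3632) (nat_lit 626) (nat_lit 5618))) (.a (.f (nat_lit 500) (nat_lit 468) (nat_lit 6611) (.f (nat_lit 627) (nat_lit 532) (nat_lit 6643) (.d (nat_lit 626) (nat_lit 594) (nat_lit 5618) (nat_lit 658) (nat_lit 5650)))) (.f (nat_lit 500) (nat_lit 468) (nat_lit 6611) (.f (nat_lit 627) (nat_lit 532) (nat_lit 6643) (.d (nat_lit 628) (nat_lit 596) (nat_lit 4595) (nat_lit 660) (nat_lit 4627))))))) (.a (.p (nat_lit 595) (.a (.f (nat_lit 596) (nat_lit 628) (nat_lit 4595) (.d (nat_lit 594) (nat_lit 593) (nat_lit 3632) (nat_lit 626) (nat_lit 5618))) (.a (.f (nat_lit 596) (nat_lit 628) (nat_lit 4595) (.f (nat_lit 564) (nat_lit 467) (nat_lit 4563) (.f (nat_lit 626) (nat_lit 594) (nat_lit 5618) (.f (nat_lit 627) (nat_lit 658) (nat_lit 5650) (.d (nat_lit 532) (nat_lit 500) (nat_lit 5619) (nat_lit 659) (nat_lit 6675)))))) (.a (.f (nat_lit 596) (nat_lit 628) (nat_lit 4595) (.f (nat_lit 467) (nat_lit 564) (nat_lit 4563) (.f (nat_lit 466) (nat_lit 434) (nat_lit 7602) (.f (nat_lit 465) (nat_lit 500) (nat_lit 464) (.d (nat_lit 496) (nat_lit 495) (nat_lit 1487) (nat_lit 593) (nat_lit 4560)))))) (.a (.f (nat_lit 626) (nat_lit 594) (nat_lit 5618) (.f (nat_lit 627) (nat_lit 658) (nat_lit 5650) (.f (nat_lit 660) (nat_lit 628) (nat_lit 4627) (.f (nat_lit 659) (nat_lit 692) (nat_lit 4659) (.d (nat_lit 532) (nat_lit 500) (nat_lit 6643) (nat_lit 564) (nat_lit 6675)))))) (.f (nat_lit 593) (nat_lit 496) (nat_lit 4560) (.d (nat_lit 594) (nat_lit 596) (nat_lit 3632) (nat_lit 626) (nat_lit 5618)))))))) (.a (.p (nat_lit 467) (.a (.f (nat_lit 496) (nat_lit 593) (nat_lit 4560) (.f (nat_lit 466) (nat_lit 434) (nat_lit 7602) (.d (nat_lit 465) (nat_lit 433) (nat_lit 6576) (nat_lit 495) (nat_lit 1487)))) (.f (nat_lit 564) (nat_lit 596) (nat_lit 4563) (.f (nat_lit 435) (nat_lit 532) (nat_lit 4531) (.d (nat_lit 436) (nat_lit 404) (nat_lit 6547) (nat_lit 468) (nat_lit 6579)))))) (.a (.f (nat_lit 496) (nat_lit 593) (nat_lit 4560) (.f (nat_lit 433) (nat_lit 465) (nat_lit 6576) (.f (nat_lit 432) (nat_lit 401) (nat_lit 6544) (.f (nat_lit 399) (nat_lit 431) (nat_lit 7567) (.f (nat_lit 400) (nat_lit 367) (nat_lit 7535) (.f (nat_lit 434) (nat_lit 435) (nat_lit 3471) (.f (nat_lit 467) (nat_lit 466) (nat_lit 7602) (.f (nat_lit 468) (nat_lit 436) (nat_lit 6579) (.f (nat_lit 595) (nat_lit 500) (nat_lit 6611) (.d (nat_lit 596) (nat_lit 564) (nat_lit 4563) (nat_lit 628) (nat_lit 4595))))))))))) (.a (.p (nat_lit 467) (.a (.f (nat_lit 564) (nat_lit 596) (nat_lit 4563) (.f (nat_lit 435) (nat_lit 532) (nat_lit 4531) (.d (nat_lit 436) (nat_lit 404) (nat_lit 6547) (nat_lit 468) (nat_lit 6579)))) (.a (.f (nat_lit 564) (nat_lit 596) (nat_lit 4563) (.f (nat_lit 435) (nat_lit 532) (nat_lit 4531) (.d (nat_lit 434) (nat_lit 402) (nat_lit 7570) (nat_lit 466) (nat_lit 7602)))) (.f (nat_lit 466) (nat_lit 434) (nat_lit 7602) (.f (nat_lit 468) (nat_lit 436) (nat_lit 6579) (.f (nat_lit 465) (nat_lit 500) (nat_lit 464) (.d (nat_lit 432) (nat_lit 431) (nat_lit 3503) (nat_lit 433) (nat_lit 3504)))))))) (.p (nat_lit 467) (.a (.f (nat_lit 466) (nat_lit 434) (nat_lit 7602) (.f (nat_lit 465) (nat_lit 500) (nat_lit 464) (.d (nat_lit 496) (nat_lit 495) (nat_lit 1487) (nat_lit 593) (nat_lit 4560)))) (.a (.f (nat_lit 496) (nat_lit 593) (nat_lit 4560) (.f (nat_lit 465) (nat_lit 433) (nat_lit 6576) (.d (nat_lit 466) (nat_lit 495) (nat_lit 1487) (nat_lit 500) (nat_lit 464)))) (.a (.f (nat_lit 434) (nat_lit 466) (nat_lit 7602) (.f (nat_lit 435) (nat_lit 402) (nat_lit 7570) (.d (nat_lit 436) (nat_lit 404) (nat_lit 6547) (nat_lit 468) (nat_lit 6579)))) (.f (nat_lit 468) (nat_lit 436) (nat_lit 6579) (.f (nat_lit 500) (nat_lit 595) (nat_lit 6611) (.f (nat_lit 496) (nat_lit 593) (nat_lit 4560) (.f (nat_lit 433) (nat_lit 465) (nat_lit 6576) (.f (nat_lit 432) (nat_lit 401) (nat_lit 6544) (.f (nat_lit 435) (nat_lit 434) (nat_lit 432) (.d (nat_lit 403) (nat_lit 371) (nat_lit 4467) (nat_lit 532) (nat_lit 4499)))))))))))))))))) (.a (.f (nat_lit 496) (nat_lit 593) (nat_lit 4560) (.p (nat_lit 432) (.a (.d (nat_lit 433) (nat_lit 401) (nat_lit 6544) (nat_lit 465) (nat_lit 6576)) (.a (.f (nat_lit 465) (nat_lit 433) (nat_lit 6576) (.f (nat_lit 399) (nat_lit 431) (nat_lit 7567) (.f (nat_lit 400) (nat_lit 367) (nat_lit 7535) (.f (nat_lit 497) (nat_lit 368) (nat_lit 4464) (.d (nat_lit 527) (nat_lit 495) (nat_lit 5519) (nat_lit 498) (nat_lit 1519)))))) (.a (.f (nat_lit 399) (nat_lit 431) (nat_lit 7567) (.f (nat_lit 400) (nat_lit 367) (nat_lit 7535) (.f (nat_lit 369) (nat_lit 401) (nat_lit 6512) (.f (nat_lit 368) (nat_lit 337) (nat_lit 6480) (.f (nat_lit 497) (nat_lit 465) (nat_lit 4464) (.d (nat_lit 527) (nat_lit 495) (nat_lit 5519) (nat_lit 498) (nat_lit 1519))))))) (.f (nat_lit 399) (nat_lit 431) (nat_lit 7567) (.f (nat_lit 400) (nat_lit 367) (nat_lit 7535) (.d (nat_lit 401) (nat_lit 369) (nat_lit 6512) (nat_lit 433) (nat_lit 6544))))))))) (.p (nat_lit 531) (.a s64158 (.a (.p (nat_lit 595) (.a (.f (nat_lit 498) (nat_lit 466) (nat_lit 7634) (.f (nat_lit 500) (nat_lit 468) (nat_lit 6611) (.d (nat_lit 627) (nat_lit 530) (nat_lit 7666) (nat_lit 532) (nat_lit 6643)))) (.a (.f (nat_lit 500) (nat_lit 468) (nat_lit 6611) (.f (nat_lit 627) (nat_lit 532) (nat_lit 6643) (.d (nat_lit 626) (nat_lit 594) (nat_lit 5618) (nat_lit 658) (nat_lit 5650)))) (.a (.f (nat_lit 498) (nat_lit 466) (nat_lit 7634) (.f (nat_lit 627) (nat_lit 530) (nat_lit 7666) (.d (nat_lit 628) (nat_lit 596) (nat_lit 4595) (nat_lit 660) (nat_lit 4627)))) (.f (nat_lit 596) (nat_lit 628) (nat_lit 4595) (.f (nat_lit 467) (nat_lit 564) (nat_lit 4563) (.d (nat_lit 466) (nat_lit 434) (nat_lit 7602) (nat_lit 498) (nat_lit 7634)))))))) (.a (.p (nat_lit 595) (.a (.f (nat_lit 500) (nat_lit 468) (nat_lit 6611) (.f (nat_lit 627) (nat_lit 532) (nat_lit 6643) (.d (nat_lit 626) (nat_lit 594) (nat_lit 5618) (nat_lit 658) (nat_lit 5650)))) (.a (.f (nat_lit 596) (nat_lit 628) (nat_lit 4595) (.f (nat_lit 564) (nat_lit 467) (nat_lit 4563) (.f (nat_lit 626) (nat_lit 594) (nat_lit 5618) (.f (nat_lit 627) (nat_lit 658) (nat_lit 5650) (.d (nat_lit 532) (nat_lit 500) (nat_lit 5619) (nat_lit 659) (nat_lit 6675)))))) (.a (.f (nat_lit 596) (nat_lit 628) (nat_lit 4595) (.f (nat_lit 564) (nat_lit 467) (nat_lit 4563) (.f (nat_lit 626) (nat_lit 594) (nat_lit 5618) (.f (nat_lit 627) (nat_lit 658) (nat_lit 5650) (.d (nat_lit 659) (nat_lit 532) (nat_lit 6675) (nat_lit 691) (nat_lit 6707)))))) (.f (nat_lit 596) (nat_lit 628) (nat_lit 4595) (.f (nat_lit 467) (nat_lit 564) (nat_lit 4563) (.d (nat_lit 468) (nat_lit 436) (nat_lit 6579) (nat_lit 500) (nat_lit 6611)))))))) (.a (.p (nat_lit 595) (.a (.f (nat_lit 498) (nat_lit 466) (nat_lit 7634) (.f (nat_lit 500) (nat_lit 468) (nat_lit 6611) (.d (nat_lit 627) (nat_lit 530) (nat_lit 7666) (nat_lit 532) (nat_lit 6643)))) (.a (.f (nat_lit 500) (nat_lit 468) (nat_lit 6611) (.f (nat_lit 627) (nat_lit 532) (nat_lit 6643) (.d (nat_lit 626) (nat_lit 594) (nat_lit 5618) (nat_lit 658) (nat_lit 5650)))) (.a (.f (nat_lit 498) (nat_lit 466) (nat_lit 7634) (.f (nat_lit 627) (nat_lit 530) (nat_lit 7666) (.d (nat_lit 628) (nat_lit 596) (nat_lit 4595) (nat_lit 660) (nat_lit 4627)))) (.f (nat_lit 498) (nat_lit 466) (nat_lit 7634) (.f (nat_lit 500) (nat_lit 468) (nat_lit 6611) (.f (nat_lit 497) (nat_lit 465) (nat_lit 3536) (.d (nat_lit 496) (nat_lit 527) (nat_lit 1519) (nat_lit 532) (nat_lit 496))))))))) (.a (.p (nat_lit 595) (.a (.f (nat_lit 498) (nat_lit 466) (nat_lit 7634) (.f (nat_lit 627) (nat_lit 530) (nat_lit 7666) (.d (nat_lit 628) (nat_lit 596) (nat_lit 4595) (nat_lit 660) (nat_lit 4627)))) (.a (.f (nat_lit 596) (nat_lit 628) (nat_lit 4595) (.f (nat_lit 564) (nat_lit 467) (nat_lit 4563) (.f (nat_lit 626) (nat_lit 594) (nat_lit 5618) (.f (nat_lit 627) (nat_lit 658) (nat_lit 5650) (.d (nat_lit 532) (nat_lit 500) (nat_lit 5619) (nat_lit 659) (nat_lit 6675)))))) (.a (.f (nat_lit 498) (nat_lit 466) (nat_lit 7634) (.f (nat_lit 627) (nat_lit 530) (nat_lit 7666) (.d (nat_lit 626) (nat_lit 594) (nat_lit 5618) (nat_lit 658) (nat_lit 5650)))) (.f (nat_lit 596) (nat_lit 628) (nat_lit 4595) (.f (nat_lit 467) (nat_lit 564) (nat_lit 4563) (.d (nat_lit 466) (nat_lit 434) (nat_lit 7602) (nat_lit 498) (nat_lit 7634)))))))) (.a (.p (nat_lit 467) (.a (.f (nat_lit 564) (nat_lit 596) (nat_lit 4563) (.f (nat_lit 435) (nat_lit 532) (nat_lit 4531) (.d (nat_lit 436) (nat_lit 404) (nat_lit 6547) (nat_lit 468) (nat_lit 6579)))) (.a (.f (nat_lit 564) (nat_lit 596) (nat_lit 4563) (.f (nat_lit 435) (nat_lit 532) (nat_lit 4531) (.d (nat_lit 434) (nat_lit 402) (nat_lit 7570) (nat_lit 466) (nat_lit 7602)))) (.f (nat_lit 466) (nat_lit 434) (nat_lit 7602) (.f (nat_lit 468) (nat_lit 436) (nat_lit 6579) (.f (nat_lit 498) (nat_lit 595) (nat_lit 7634) (.d (nat_lit 497) (nat_lit 469) (nat_lit 1489) (nat_lit 496) (nat_lit 2512)))))))) (.a (.p (nat_lit 595) (.a (.f (nat_lit 498) (nat_lit 466) (nat_lit 7634) (.f (nat_lit 627) (nat_lit 530) (nat_lit 7666) (.d (nat_lit 628) (nat_lit 596) (nat_lit 4595) (nat_lit 660) (nat_lit 4627)))) (.a (.f (nat_lit 596) (nat_lit 628) (nat_lit 4595) (.f (nat_lit 467) (nat_lit 564) (nat_lit 4563) (.d (nat_lit 468) (nat_lit 436) (nat_lit 6579) (nat_lit 500) (nat_lit 6611)))) (.f (nat_lit 498) (nat_lit 466) (nat_lit 7634) (.f (nat_lit 627) (nat_lit 530) (nat_lit 7666) (.d (nat_lit 626) (nat_lit 594) (nat_lit 5618) (nat_lit 658) (nat_lit 5650))))))) (.a (.p (nat_lit 467) (.a (.f (nat_lit 564) (nat_lit 596) (nat_lit 4563) (.f (nat_lit 435) (nat_lit 532) (nat_lit 4531) (.d (nat_lit 436) (nat_lit 404) (nat_lit 6547) (nat_lit 468) (nat_lit 6579)))) (.a (.f (nat_lit 564) (nat_lit 596) (nat_lit 4563) (.f (nat_lit 435) (nat_lit 532) (nat_lit 4531) (.d (nat_lit 434) (nat_lit 402) (nat_lit 7570) (nat_lit 466) (nat_lit 7602)))) (.f (nat_lit 466) (nat_lit 434) (nat_lit 7602) (.f (nat_lit 468) (nat_lit 436) (nat_lit 6579) (.f (nat_lit 465) (nat_lit 500) (nat_lit 464) (.d (nat_lit 432) (nat_lit 431) (nat_lit 3503) (nat_lit 433) (nat_lit 3504)))))))) s64233)))))))))))))))))))))) (.p (nat_lit 559) (.a (.f (nat_lit 591) (nat_lit 496) (nat_lit 5583) (.f (nat_lit 562) (nat_lit 590) (nat_lit 1582) (.d (nat_lit 527) (nat_lit 526) (nat_lit 3598) (nat_lit 563) (nat_lit 3599)))) (.a (.p (nat_lit 562) (.a (.d (nat_lit 527) (nat_lit 526) (nat_lit 3598) (nat_lit 563) (nat_lit 3599)) (.a (.f (nat_lit 563) (nat_lit 527) (nat_lit 3599) (.d (nat_lit 531) (nat_lit 530) (nat_lit 2575) (nat_lit 532) (nat_lit 2576))) (.a (.f (nat_lit 595) (nat_lit 594) (nat_lit 559) (.f (nat_lit 563) (nat_lit 596) (nat_lit 560) (.d (nat_lit 531) (nat_lit 530) (nat_lit 2575) (nat_lit 532) (nat_lit 2576)))) (.f (nat_lit 526) (nat_lit 527) (nat_lit 3598) (.f (nat_lit 558) (nat_lit 525) (nat_lit 3597) (.d (nat_lit 590) (nat_lit 589) (nat_lit 1581) (nat_lit 591) (nat_lit 1582)))))))) (.a (.f (nat_lit 496) (nat_lit 591) (nat_lit 5583) (.f (nat_lit 432) (nat_lit 527) (nat_lit 5551) (.d (nat_lit 433) (nat_lit 401) (nat_lit 6544) (nat_lit 465) (nat_lit 6576)))) (.a (.f (nat_lit 591) (nat_lit 496) (nat_lit 5583) (.f (nat_lit 562) (nat_lit 590) (nat_lit 1582) (.f (nat_lit 595) (nat_lit 594) (nat_lit 559) (.f (nat_lit 563) (nat_lit 596) (nat_lit 560) (.d (nat_lit 531) (nat_lit 530) (nat_lit 2575) (nat_lit 532) (nat_lit 2576)))))) s63335)))))))))))) (.a (.p (nat_lit 561) (.a (.f (nat_lit 496) (nat_lit 593) (nat_lit 4560) (.f (nat_lit 559) (nat_lit 591) (nat_lit 5583) (.f (nat_lit 527) (nat_lit 432) (nat_lit 5551) (.d (nat_lit 562) (nat_lit 526) (nat_lit 3598) (nat_lit 563) (nat_lit 3599))))) (.a s64006 (.a (.f (nat_lit 496) (nat_lit 593) (nat_lit 4560) (.f (nat_lit 559) (nat_lit 591) (nat_lit 5583) (.f (nat_lit 432) (nat_lit 527) (nat_lit 5551) (.d (nat_lit 431) (nat_lit 399) (nat_lit 7567) (nat_lit 463) (nat_lit 7599))))) (.a (.p (nat_lit 562) (.a (.f (nat_lit 496) (nat_lit 593) (nat_lit 4560) (.f (nat_lit 559) (nat_lit 591) (nat_lit 5583) (.f (nat_lit 531) (nat_lit 530) (nat_lit 2575) (.f (nat_lit 563) (nat_lit 532) (nat_lit 2576) (.d (nat_lit 595) (nat_lit 594) (nat_lit 559) (nat_lit 596) (nat_lit 560)))))) (.a s63988 (.a (.p (nat_lit 559) (.a (.d (nat_lit 496) (nat_lit 591) (nat_lit 5583) (nat_lit 593) (nat_lit 4560)) (.a (.f (nat_lit 594) (nat_lit 595) (nat_lit 559) (.f (nat_lit 558) (nat_lit 593) (nat_lit 558) (.d (nat_lit 590) (nat_lit 589) (nat_lit 1581) (nat_lit 591) (nat_lit 1582)))) (.a (.f (nat_lit 593) (nat_lit 496) (nat_lit 4560) (.d (nat_lit 594) (nat_lit 558) (nat_lit 558) (nat_lit 595) (nat_lit 559))) (.d (nat_lit 591) (nat_lit 496) (nat_lit 5583) (nat_lit 590) (nat_lit 1582)))))) (.a s64082 (.a (.p (nat_lit 559) (.a (.f (nat_lit 595) (nat_lit 594) (nat_lit 559) (.f (nat_lit 563) (nat_lit 596) (nat_lit 560) (.d (nat_lit 531) (nat_lit 530) (nat_lit 2575) (nat_lit 532) (nat_lit 2576)))) (.d (nat_lit 591) (nat_lit 496) (nat_lit 5583) (nat_lit 590) (nat_lit 1582)))) (.a (.f (nat_lit 496) (nat_lit 593) (nat_lit 4560) (.f (nat_lit 559) (nat_lit 591) (nat_lit 5583) (.f (nat_lit 431) (nat_lit 463) (nat_lit 7599) (.f (nat_lit 432) (nat_lit 399) (nat_lit 7567) (.f (nat_lit 433) (nat_lit 401) (nat_lit 6544) (.f (nat_lit 531) (nat_lit 530) (nat_lit 2575) (.f (nat_lit 563) (nat_lit 532) (nat_lit 2576) (.f (nat_lit 596) (nat_lit 595) (nat_lit 560) (.f (nat_lit 564) (nat_lit 597) (nat_lit 561) (.f (nat_lit 467) (nat_lit 499) (nat_lit 4563) (.f (nat_lit 434) (nat_lit 466) (nat_lit 431) (.f (nat_lit 435) (nat_lit 468) (nat_lit 432) (.d (nat_lit 403) (nat_lit 402) (nat_lit 2447) (nat_lit 404) (nat_lit 2448)))))))))))))) (.p (nat_lit 530) (.a (.f (nat_lit 593) (nat_lit 496) (nat_lit 4560) (.f (nat_lit 625) (nat_lit 657) (nat_lit 6673) (.d (nat_lit 498) (nat_lit 466) (nat_lit 5585) (nat_lit 594) (nat_lit 5617)))) (.a (.f (nat_lit 559) (nat_lit 531) (nat_lit 2575) (.d (nat_lit 496) (nat_lit 591) (nat_lit 5583) (nat_lit 593) (nat_lit 4560))) (.f (nat_lit 531) (nat_lit 559) (nat_lit 2575) (.d (nat_lit 532) (nat_lit 533) (nat_lit 1553) (nat_lit 563) (nat_lit 2576))))))))))))) (.a (.f (nat_lit 496) (nat_lit 593) (nat_lit 4560) (.p (nat_lit 432) (.a (.d (nat_lit 431) (nat_lit 399) (nat_lit 7567) (nat_lit 463) (nat_lit 7599)) (.a (.f (nat_lit 463) (nat_lit 431) (nat_lit 7599) (.f (nat_lit 401) (nat_lit 433) (nat_lit 6544) (.f (nat_lit 400) (nat_lit 369) (nat_lit 6512) (.d (nat_lit 495) (nat_lit 368) (nat_lit 5487) (nat_lit 527) (nat_lit 5519))))) (.a (.f (nat_lit 401) (nat_lit 433) (nat_lit 6544) (.f (nat_lit 400) (nat_lit 369) (nat_lit 6512) (.f (nat_lit 367) (nat_lit 399) (nat_lit 7535) (.f (nat_lit 368) (nat_lit 335) (nat_lit 7503) (.d (nat_lit 495) (nat_lit 463) (nat_lit 5487) (nat_lit 527) (nat_lit 5519)))))) (.f (nat_lit 401) (nat_lit 433) (nat_lit 6544) (.f (nat_lit 400) (nat_lit 369) (nat_lit 6512) (.d (nat_lit 399) (nat_lit 367) (nat_lit 7535) (nat_lit 431) (nat_lit 7567))))))))) (.p (nat_lit 559) (.a (.f (nat_lit 591) (nat_lit 496) (nat_lit 5583) (.f (nat_lit 562) (nat_lit 590) (nat_lit 1582) (.d (nat_lit 527) (nat_lit 526) (nat_lit 3598) (nat_lit 563) (nat_lit 3599)))) (.a (.p (nat_lit 562) (.a (.d (nat_lit 527) (nat_lit 526) (nat_lit 3598) (nat_lit 563) (nat_lit 3599)) (.a (.f (nat_lit 563) (nat_lit 527) (nat_lit 3599) (.d (nat_lit 531) (nat_lit 530) (nat_lit 2575) (nat_lit 532) (nat_lit 2576))) (.a (.f (nat_lit 595) (nat_lit 594) (nat_lit 559) (.f (nat_lit 563) (nat_lit 596) (nat_lit 560) (.d (nat_lit 531) (nat_lit 530) (nat_lit 2575) (nat_lit 532) (nat_lit 2576)))) (.f (nat_lit 526) (nat_lit 527) (nat_lit 3598) (.f (nat_lit 558) (nat_lit 525) (nat_lit 3597) (.d (nat_lit 590) (nat_lit 589) (nat_lit 1581) (nat_lit 591) (nat_lit 1582)))))))) (.a (.f (nat_lit 591) (nat_lit 496) (nat_lit 5583) (.f (nat_lit 562) (nat_lit 590) (nat_lit 1582) (.f (nat_lit 595) (nat_lit 594) (nat_lit 559) (.f (nat_lit 563) (nat_lit 596) (nat_lit 560) (.d (nat_lit 531) (nat_lit 530) (nat_lit 2575) (nat_lit 532) (nat_lit 2576)))))) (.a (.f (nat_lit 496) (nat_lit 591) (nat_lit 5583) (.f (nat_lit 432) (nat_lit 527) (nat_lit 5551) (.d (nat_lit 431) (nat_lit 399) (nat_lit 7567) (nat_lit 463) (nat_lit 7599)))) (.p (nat_lit 558) (.a (.f (nat_lit 525) (nat_lit 526) (nat_lit 3597) (.f (nat_lit 557) (nat_lit 524) (nat_lit 3596) (.d (nat_lit 589) (nat_lit 588) (nat_lit 1580) (nat_lit 590) (nat_lit 1581)))) (.a (.f (nat_lit 526) (nat_lit 525) (nat_lit 3597) (.f (nat_lit 527) (nat_lit 562) (nat_lit 3598) (.f (nat_lit 590) (nat_lit 589) (nat_lit 1581) (.d (nat_lit 495) (nat_lit 463) (nat_lit 5582) (nat_lit 622) (nat_lit 6638))))) (.a (.f (nat_lit 589) (nat_lit 590) (nat_lit 1581) (.f (nat_lit 557) (nat_lit 588) (nat_lit 1580) (.f (nat_lit 527) (nat_lit 556) (nat_lit 2572) (.d (nat_lit 562) (nat_lit 526) (nat_lit 3598) (nat_lit 563) (nat_lit 3599))))) (.a (.f (nat_lit 589) (nat_lit 590) (nat_lit 1581) (.f (nat_lit 557) (nat_lit 588) (nat_lit 1580) (.f (nat_lit 556) (nat_lit 527) (nat_lit 2572) (.d (nat_lit 524) (nat_lit 523) (nat_lit 3595) (nat_lit 525) (nat_lit 3596))))) (.a (.f (nat_lit 526) (nat_lit 525) (nat_lit 3597) (.f (nat_lit 527) (nat_lit 562) (nat_lit 3598) (.f (nat_lit 496) (nat_lit 432) (nat_lit 5551) (.f (nat_lit 463) (nat_lit 431) (nat_lit 7599) (.f (nat_lit 495) (nat_lit 590) (nat_lit 5582) (.f (nat_lit 462) (nat_lit 430) (nat_lit 7598) (.d (nat_lit 461) (nat_lit 460) (nat_lit 460) (nat_lit 497) (nat_lit 461)))))))) (.f (nat_lit 526) (nat_lit 525) (nat_lit 3597) (.f (nat_lit 527) (nat_lit 562) (nat_lit 3598) (.f (nat_lit 557) (nat_lit 556) (nat_lit 2572) (.f (nat_lit 496) (nat_lit 432) (nat_lit 5551) (.f (nat_lit 463) (nat_lit 431) (nat_lit 7599) (.f (nat_lit 589) (nat_lit 588) (nat_lit 1580) (.f (nat_lit 462) (nat_lit 494) (nat_lit 5581) (.f (nat_lit 497) (nat_lit 461) (nat_lit 461) (.d (nat_lit 495) (nat_lit 430) (nat_lit 7598) (nat_lit 498) (nat_lit 1518))))))))))))))))))))))))))) (.a (.p (nat_lit 496) (.a (.f (nat_lit 431) (nat_lit 463) (nat_lit 7599) (.f (nat_lit 432) (nat_lit 399) (nat_lit 7567) (.d (nat_lit 433) (nat_lit 401) (nat_lit 6544) (nat_lit 465) (nat_lit 6576)))) (.a (.f (nat_lit 559) (nat_lit 591) (nat_lit 5583) (.f (nat_lit 527) (nat_lit 432) (nat_lit 5551) (.f (nat_lit 561) (nat_lit 593) (nat_lit 4560) (.d (nat_lit 562) (nat_lit 526) (nat_lit 3598) (nat_lit 563) (nat_lit 3599))))) s63363))) (.a s81284 (.a (.p (nat_lit 496) (.a (.f (nat_lit 431) (nat_lit 463) (nat_lit 7599) (.f (nat_lit 432) (nat_lit 399) (nat_lit 7567) (.d (nat_lit 433) (nat_lit 401) (nat_lit 6544) (nat_lit 465) (nat_lit 6576)))) (.a s49829 (.a (.f (nat_lit 559) (nat_lit 591) (nat_lit 5583) (.f (nat_lit 432) (nat_lit 527) (nat_lit 5551) (.d (nat_lit 433) (nat_lit 401) (nat_lit 6544) (nat_lit 465) (nat_lit 6576)))) (.f (nat_lit 431) (nat_lit 463) (nat_lit 7599) (.f (nat_lit 432) (nat_lit 399) (nat_lit 7567) (.d (nat_lit 559) (nat_lit 527) (nat_lit 5551) (nat_lit 591) (nat_lit 5583)))))))) (.p (nat_lit 463) (.a (.f (nat_lit 496) (nat_lit 431) (nat_lit 7599) s62697) (.a (.p (nat_lit 465) (.a (.f (nat_lit 433) (nat_lit 496) (nat_lit 6576) (.f (nat_lit 462) (nat_lit 434) (nat_lit 2478) (.f (nat_lit 461) (nat_lit 432) (nat_lit 2477) (.d (nat_lit 493) (nat_lit 492) (nat_lit 1484) (nat_lit 494) (nat_lit 1485))))) (.a (.f (nat_lit 433) (nat_lit 496) (nat_lit 6576) (.f (nat_lit 462) (nat_lit 434) (nat_lit 2478) (.f (nat_lit 498) (nat_lit 497) (nat_lit 462) (.f (nat_lit 466) (nat_lit 499) (nat_lit 463) (.d (nat_lit 494) (nat_lit 493) (nat_lit 1485) (nat_lit 495) (nat_lit 1486)))))) (.a (.p (nat_lit 462) (.a (.f (nat_lit 494) (nat_lit 493) (nat_lit 1485) (.f (nat_lit 466) (nat_lit 495) (nat_lit 1486) (.d (nat_lit 498) (nat_lit 497) (nat_lit 462) (nat_lit 499) (nat_lit 463)))) (.a (.f (nat_lit 493) (nat_lit 494) (nat_lit 1485) (.f (nat_lit 461) (nat_lit 492) (nat_lit 1484) (.d (nat_lit 429) (nat_lit 428) (nat_lit 3500) (nat_lit 430) (nat_lit 3501)))) (.f (nat_lit 497) (nat_lit 498) (nat_lit 462) (.f (nat_lit 461) (nat_lit 496) (nat_lit 461) (.d (nat_lit 429) (nat_lit 428) (nat_lit 3500) (nat_lit 430) (nat_lit 3501))))))) (.a s81309 (.a (.f (nat_lit 433) (nat_lit 496) (nat_lit 6576) (.f (nat_lit 462) (nat_lit 434) (nat_lit 2478) (.f (nat_lit 461) (nat_lit 432) (nat_lit 2477) (.d (nat_lit 429) (nat_lit 428) (nat_lit 3500) (nat_lit 430) (nat_lit 3501))))) (.p (nat_lit 462) (.a (.f (nat_lit 494) (nat_lit 493) (nat_lit 1485) (.f (nat_lit 466) (nat_lit 495) (nat_lit 1486) (.d (nat_lit 498) (nat_lit 497) (nat_lit 462) (nat_lit 499) (nat_lit 463)))) (.a (.f (nat_lit 433) (nat_lit 434) (nat_lit 2478) (.f (nat_lit 461) (nat_lit 432) (nat_lit 2477) (.d (nat_lit 493) (nat_lit 492) (nat_lit 1484) (nat_lit 494) (nat_lit 1485)))) (.f (nat_lit 433) (nat_lit 434) (nat_lit 2478) (.f (nat_lit 461) (nat_lit 432) (nat_lit 2477) (.d (nat_lit 429) (nat_lit 428) (nat_lit 3500) (nat_lit 430) (nat_lit 3501))))))))))))) (.a (.p (nat_lit 462) (.a s68468 (.a (.p (nat_lit 465) (.a (.f (nat_lit 494) (nat_lit 493) (nat_lit 1485) (.f (nat_lit 466) (nat_lit 495) (nat_lit 1486) (.d (nat_lit 498) (nat_lit 497) (nat_lit 462) (nat_lit 499) (nat_lit 463)))) (.a (.f (nat_lit 493) (nat_lit 494) (nat_lit 1485) (.f (nat_lit 461) (nat_lit 492) (nat_lit 1484) (.d (nat_lit 429) (nat_lit 428) (nat_lit 3500) (nat_lit 430) (nat_lit 3501)))) (.f (nat_lit 430) (nat_lit 429) (nat_lit 3501) (.f (nat_lit 466) (nat_lit 431) (nat_lit 3502) (.d (nat_lit 498) (nat_lit 497) (nat_lit 462) (nat_lit 499) (nat_lit 463))))))) (.a (.f (nat_lit 496) (nat_lit 431) (nat_lit 7599) (.f (nat_lit 497) (nat_lit 461) (nat_lit 461) (.d (nat_lit 498) (nat_lit 465) (nat_lit 462) (nat_lit 495) (nat_lit 3534)))) (.a s81322 (.a (.p (nat_lit 465) (.a (.f (nat_lit 494) (nat_lit 493) (nat_lit 1485) (.f (nat_lit 466) (nat_lit 495) (nat_lit 1486) (.d (nat_lit 498) (nat_lit 497) (nat_lit 462) (nat_lit 499) (nat_lit 463)))) (.a (.f (nat_lit 431) (nat_lit 496) (nat_lit 7599) (.f (nat_lit 430) (nat_lit 429) (nat_lit 3501) (.f (nat_lit 494) (nat_lit 493) (nat_lit 1485) (.d (nat_lit 399) (nat_lit 367) (nat_lit 5486) (nat_lit 526) (nat_lit 6542))))) (.f (nat_lit 430) (nat_lit 429) (nat_lit 3501) (.f (nat_lit 466) (nat_lit 431) (nat_lit 3502) (.d (nat_lit 498) (nat_lit 497) (nat_lit 462) (nat_lit 499) (nat_lit 463))))))) (.f (nat_lit 496) (nat_lit 431) (nat_lit 7599) (.f (nat_lit 461) (nat_lit 497) (nat_lit 461) (.f (nat_lit 460) (nat_lit 495) (nat_lit 460) (.d (nat_lit 492) (nat_lit 491) (nat_lit 1483) (nat_lit 493) (nat_lit 1484))))))))))) (.a (.p (nat_lit 465) (.a (.f (nat_lit 433) (nat_lit 496) (nat_lit 6576) (.f (nat_lit 462) (nat_lit 434) (nat_lit 2478) (.f (nat_lit 498) (nat_lit 497) (nat_lit 462) (.f (nat_lit 466) (nat_lit 499) (nat_lit 463) (.d (nat_lit 494) (nat_lit 493) (nat_lit 1485) (nat_lit 495) (nat_lit 1486)))))) (.a (.f (nat_lit 431) (nat_lit 496) (nat_lit 7599) (.f (nat_lit 466) (nat_lit 430) (nat_lit 3502) (.f (nat_lit 467) (nat_lit 432) (nat_lit 3503) (.d (nat_lit 435) (nat_lit 434) (nat_lit 2479) (nat_lit 436) (nat_lit 2480))))) (.a (.d (nat_lit 496) (nat_lit 431) (nat_lit 7599) (nat_lit 433) (nat_lit 6576)) s81343)))) (.a (.p (nat_lit 465) (.a s81309 (.a (.f (nat_lit 431) (nat_lit 496) (nat_lit 7599) (.f (nat_lit 466) (nat_lit 430) (nat_lit 3502) (.f (nat_lit 467) (nat_lit 432) (nat_lit 3503) (.d (nat_lit 435) (nat_lit 434) (nat_lit 2479) (nat_lit 436) (nat_lit 2480))))) (.a (.d (nat_lit 496) (nat_lit 431) (nat_lit 7599) (nat_lit 433) (nat_lit 6576)) s81366)))) (.a (.f (nat_lit 431) (nat_lit 496) (nat_lit 7599) (.p (nat_lit 399) (.a (.p (nat_lit 367) (.a (.f (nat_lit 335) (nat_lit 432) (nat_lit 4431) (.d (nat_lit 462) (nat_lit 430) (nat_lit 5454) (nat_lit 494) (nat_lit 5486))) (.f (nat_lit 368) (nat_lit 336) (nat_lit 6479) (.f (nat_lit 366) (nat_lit 334) (nat_lit 7502) (.d (nat_lit 495) (nat_lit 398) (nat_lit 7534) (nat_lit 400) (nat_lit 6511)))))) (.a (.p (nat_lit 367) (.a (.f (nat_lit 335) (nat_lit 432) (nat_lit 4431) (.d (nat_lit 462) (nat_lit 430) (nat_lit 5454) (nat_lit 494) (nat_lit 5486))) (.a (.f (nat_lit 368) (nat_lit 336) (nat_lit 6479) (.f (nat_lit 495) (nat_lit 400) (nat_lit 6511) (.d (nat_lit 494) (nat_lit 462) (nat_lit 5486) (nat_lit 526) (nat_lit 5518)))) (.f (nat_lit 368) (nat_lit 336) (nat_lit 6479) (.f (nat_lit 400) (nat_lit 495) (nat_lit 6511) (.f (nat_lit 432) (nat_lit 335) (nat_lit 4431) (.f (nat_lit 369) (nat_lit 337) (nat_lit 6480) (.d (nat_lit 398) (nat_lit 370) (nat_lit 1390) (nat_lit 397) (nat_lit 2413))))))))) (.a (.p (nat_lit 368) (.a (.f (nat_lit 400) (nat_lit 495) (nat_lit 6511) (.d (nat_lit 336) (nat_lit 367) (nat_lit 6479) (nat_lit 432) (nat_lit 5455))) (.a (.f (nat_lit 495) (nat_lit 400) (nat_lit 6511) (.f (nat_lit 494) (nat_lit 526) (nat_lit 5518) (.f (nat_lit 462) (nat_lit 367) (nat_lit 5486) (.f (nat_lit 493) (nat_lit 492) (nat_lit 2508) (.f (nat_lit 398) (nat_lit 366) (nat_lit 7534) (.f (nat_lit 430) (nat_lit 525) (nat_lit 5517) (.f (nat_lit 397) (nat_lit 365) (nat_lit 7533) (.d (nat_lit 396) (nat_lit 395) (nat_lit 395) (nat_lit 432) (nat_lit 396))))))))) (.a (.f (nat_lit 400) (nat_lit 495) (nat_lit 6511) (.d (nat_lit 336) (nat_lit 304) (nat_lit 5423) (nat_lit 432) (nat_lit 5455))) (.a (.f (nat_lit 367) (nat_lit 336) (nat_lit 6479) (.f (nat_lit 366) (nat_lit 334) (nat_lit 7502) (.f (nat_lit 398) (nat_lit 495) (nat_lit 7534) (.d (nat_lit 397) (nat_lit 369) (nat_lit 1389) (nat_lit 396) (nat_lit 2412))))) (.f (nat_lit 336) (nat_lit 367) (nat_lit 6479) (.d (nat_lit 400) (nat_lit 304) (nat_lit 5423) (nat_lit 432) (nat_lit 5455)))))))) (.a (.p (nat_lit 367) (.a (.f (nat_lit 335) (nat_lit 432) (nat_lit 4431) (.d (nat_lit 462) (nat_lit 430) (nat_lit 5454) (nat_lit 494) (nat_lit 5486))) (.a (.f (nat_lit 366) (nat_lit 334) (nat_lit 7502) (.f (nat_lit 495) (nat_lit 398) (nat_lit 7534) (.d (nat_lit 494) (nat_lit 462) (nat_lit 5486) (nat_lit 526) (nat_lit 5518)))) (.f (nat_lit 335) (nat_lit 432) (nat_lit 4431) (.d (nat_lit 334) (nat_lit 302) (nat_lit 7470) (nat_lit 366) (nat_lit 7502)))))) (.a (.p (nat_lit 400) (.a (.f (nat_lit 368) (nat_lit 495) (nat_lit 6511) (.d (nat_lit 336) (nat_lit 304) (nat_lit 5423) (nat_lit 432) (nat_lit 5455))) (.a (.f (nat_lit 368) (nat_lit 495) (nat_lit 6511) (.f (nat_lit 432) (nat_lit 336) (nat_lit 5455) (.f (nat_lit 369) (nat_lit 337) (nat_lit 6480) (.f (nat_lit 398) (nat_lit 397) (nat_lit 2413) (.d (nat_lit 370) (nat_lit 371) (nat_lit 1391) (nat_lit 401) (nat_lit 2414)))))) (.a (.p (nat_lit 430) (.a (.f (nat_lit 429) (nat_lit 428) (nat_lit 2444) (.d (nat_lit 401) (nat_lit 398) (nat_lit 1421) (nat_lit 402) (nat_lit 1422))) (.a (.f (nat_lit 429) (nat_lit 428) (nat_lit 2444) (.d (nat_lit 401) (nat_lit 402) (nat_lit 1422) (nat_lit 432) (nat_lit 2445))) (.a (.f (nat_lit 429) (nat_lit 428) (nat_lit 428) (.f (nat_lit 495) (nat_lit 368) (nat_lit 6511) (.f (nat_lit 398) (nat_lit 366) (nat_lit 7534) (.f (nat_lit 494) (nat_lit 526) (nat_lit 5518) (.f (nat_lit 493) (nat_lit 492) (nat_lit 2508) (.d (nat_lit 525) (nat_lit 461) (nat_lit 6541) (nat_lit 462) (nat_lit 5517))))))) (.a (.f (nat_lit 401) (nat_lit 402) (nat_lit 1422) (.d (nat_lit 429) (nat_lit 398) (nat_lit 1421) (nat_lit 432) (nat_lit 2445))) (.f (nat_lit 495) (nat_lit 368) (nat_lit 6511) (.f (nat_lit 398) (nat_lit 366) (nat_lit 7534) (.f (nat_lit 494) (nat_lit 526) (nat_lit 5518) (.f (nat_lit 401) (nat_lit 402) (nat_lit 1422) (.f (nat_lit 433) (nat_lit 434) (nat_lit 398) (.f (nat_lit 397) (nat_lit 432) (nat_lit 397) (.d (nat_lit 365) (nat_lit 364) (nat_lit 3436) (nat_lit 462) (nat_lit 7533))))))))))))) (.a (.p (nat_lit 398) (.a (.f (nat_lit 366) (nat_lit 495) (nat_lit 7534) (.d (nat_lit 334) (nat_lit 302) (nat_lit 4398) (nat_lit 430) (nat_lit 4430))) (.a (.f (nat_lit 366) (nat_lit 495) (nat_lit 7534) (.f (nat_lit 430) (nat_lit 334) (nat_lit 4430) (.d (nat_lit 401) (nat_lit 365) (nat_lit 3437) (nat_lit 429) (nat_lit 1421)))) (.a (.f (nat_lit 366) (nat_lit 495) (nat_lit 7534) (.f (nat_lit 401) (nat_lit 365) (nat_lit 3437) (.d (nat_lit 430) (nat_lit 402) (nat_lit 1422) (nat_lit 429) (nat_lit 1421)))) (.a (.p (nat_lit 397) (.a (.d (nat_lit 432) (nat_lit 396) (nat_lit 396) (nat_lit 433) (nat_lit 397)) (.f (nat_lit 429) (nat_lit 428) (nat_lit 1420) (.f (nat_lit 430) (nat_lit 401) (nat_lit 1421) (.f (nat_lit 365) (nat_lit 364) (nat_lit 3436) (.d (nat_lit 333) (nat_lit 301) (nat_lit 4397) (nat_lit 462) (nat_lit 4429))))))) (.f (nat_lit 366) (nat_lit 495) (nat_lit 7534) (.f (nat_lit 401) (nat_lit 365) (nat_lit 3437) (.f (nat_lit 433) (nat_lit 434) (nat_lit 398) (.f (nat_lit 432) (nat_lit 397) (nat_lit 397) (.d (nat_lit 369) (nat_lit 337) (nat_lit 5456) (nat_lit 370) (nat_lit 2414))))))))))) (.a (.p (nat_lit 429) (.a (.f (nat_lit 430) (nat_lit 428) (nat_lit 2444) (.d (nat_lit 401) (nat_lit 398) (nat_lit 1421) (nat_lit 402) (nat_lit 1422))) (.a (.f (nat_lit 428) (nat_lit 430) (nat_lit 2444) (.f (nat_lit 461) (nat_lit 462) (nat_lit 3500) (.f (nat_lit 495) (nat_lit 368) (nat_lit 6511) (.f (nat_lit 494) (nat_lit 526) (nat_lit 5518) (.f (nat_lit 493) (nat_lit 492) (nat_lit 2508) (.f (nat_lit 396) (nat_lit 525) (nat_lit 7564) (.d (nat_lit 364) (nat_lit 332) (nat_lit 4428) (nat_lit 397) (nat_lit 7532)))))))) (.a (.f (nat_lit 495) (nat_lit 368) (nat_lit 6511) (.f (nat_lit 398) (nat_lit 366) (nat_lit 7534) (.f (nat_lit 401) (nat_lit 430) (nat_lit 1421) (.f (nat_lit 434) (nat_lit 433) (nat_lit 398) (.f (nat_lit 402) (nat_lit 435) (nat_lit 399) (.d (nat_lit 370) (nat_lit 369) (nat_lit 2414) (nat_lit 371) (nat_lit 2415))))))) (.f (nat_lit 495) (nat_lit 368) (nat_lit 6511) (.f (nat_lit 398) (nat_lit 366) (nat_lit 7534) (.f (nat_lit 397) (nat_lit 428) (nat_lit 1420) (.f (nat_lit 494) (nat_lit 526) (nat_lit 5518) (.f (nat_lit 365) (nat_lit 364) (nat_lit 3436) (.f (nat_lit 492) (nat_lit 493) (nat_lit 2508) (.d (nat_lit 461) (nat_lit 460) (nat_lit 5484) (nat_lit 462) (nat_lit 4461)))))))))))) (.p (nat_lit 401) (.a (.f (nat_lit 430) (nat_lit 402) (nat_lit 1422) (.d (nat_lit 429) (nat_lit 398) (nat_lit 1421) (nat_lit 428) (nat_lit 428))) (.a (.f (nat_lit 402) (nat_lit 430) (nat_lit 1422) (.f (nat_lit 432) (nat_lit 403) (nat_lit 1423) (.f (nat_lit 434) (nat_lit 435) (nat_lit 399) (.f (nat_lit 433) (nat_lit 462) (nat_lit 1454) (.f (nat_lit 369) (nat_lit 337) (nat_lit 5456) (.d (nat_lit 466) (nat_lit 467) (nat_lit 431) (nat_lit 498) (nat_lit 7537))))))) (.a (.p (nat_lit 398) (.a (.f (nat_lit 430) (nat_lit 429) (nat_lit 1421) (.d (nat_lit 366) (nat_lit 334) (nat_lit 4430) (nat_lit 365) (nat_lit 3437))) (.f (nat_lit 433) (nat_lit 434) (nat_lit 398) (.f (nat_lit 432) (nat_lit 397) (nat_lit 397) (.d (nat_lit 369) (nat_lit 337) (nat_lit 5456) (nat_lit 370) (nat_lit 2414)))))) (.p (nat_lit 432) (.a (.f (nat_lit 368) (nat_lit 336) (nat_lit 5455) (.f (nat_lit 369) (nat_lit 337) (nat_lit 6480) (.d (nat_lit 370) (nat_lit 371) (nat_lit 1391) (nat_lit 398) (nat_lit 2414)))) (.a (.f (nat_lit 402) (nat_lit 403) (nat_lit 1423) (.f (nat_lit 434) (nat_lit 435) (nat_lit 399) (.d (nat_lit 433) (nat_lit 398) (nat_lit 398) (nat_lit 462) (nat_lit 1454)))) (.f (nat_lit 402) (nat_lit 403) (nat_lit 1423) (.f (nat_lit 434) (nat_lit 435) (nat_lit 399) (.f (nat_lit 433) (nat_lit 462) (nat_lit 1454) (.f (nat_lit 369) (nat_lit 337) (nat_lit 5456) (.d (nat_lit 466) (nat_lit 467) (nat_lit 431) (nat_lit 498) (nat_lit 7537))))))))))))))))))) (.a (.p (nat_lit 367) (.a (.f (nat_lit 335) (nat_lit 432) (nat_lit 4431) (.d (nat_lit 462) (nat_lit 430) (nat_lit 5454) (nat_lit 494) (nat_lit 5486))) (.a (.f (nat_lit 368) (nat_lit 336) (nat_lit 6479) (.f (nat_lit 495) (nat_lit 400) (nat_lit 6511) (.d (nat_lit 494) (nat_lit 462) (nat_lit 5486) (nat_lit 526) (nat_lit 5518)))) (.f (nat_lit 335) (nat_lit 432) (nat_lit 4431) (.d (nat_lit 334) (nat_lit 302) (nat_lit 7470) (nat_lit 366) (nat_lit 7502)))))) (.a (.p (nat_lit 367) (.a (.f (nat_lit 368) (nat_lit 336) (nat_lit 6479) (.f (nat_lit 366) (nat_lit 334) (nat_lit 7502) (.d (nat_lit 495) (nat_lit 398) (nat_lit 7534) (nat_lit 400) (nat_lit 6511)))) (.a (.f (nat_lit 368) (nat_lit 336) (nat_lit 6479) (.f (nat_lit 495) (nat_lit 400) (nat_lit 6511) (.d (nat_lit 494) (nat_lit 462) (nat_lit 5486) (nat_lit 526) (nat_lit 5518)))) (.a (.f (nat_lit 366) (nat_lit 334) (nat_lit 7502) (.f (nat_lit 495) (nat_lit 398) (nat_lit 7534) (.d (nat_lit 494) (nat_lit 462) (nat_lit 5486) (nat_lit 526) (nat_lit 5518)))) (.f (nat_lit 335) (nat_lit 432) (nat_lit 4431) (.d (nat_lit 334) (nat_lit 302) (nat_lit 7470) (nat_lit 366) (nat_lit 7502))))))) (.a (.p (nat_lit 367) (.a (.f (nat_lit 368) (nat_lit 336) (nat_lit 6479) (.f (nat_lit 366) (nat_lit 334) (nat_lit 7502) (.d (nat_lit 495) (nat_lit 398) (nat_lit 7534) (nat_lit 400) (nat_lit 6511)))) (.a (.f (nat_lit 368) (nat_lit 336) (nat_lit 6479) (.f (nat_lit 495) (nat_lit 400) (nat_lit 6511) (.d (nat_lit 494) (nat_lit 462) (nat_lit 5486) (nat_lit 526) (nat_lit 5518)))) (.a (.f (nat_lit 366) (nat_lit 334) (nat_lit 7502) (.f (nat_lit 495) (nat_lit 398) (nat_lit 7534) (.d (nat_lit 494) (nat_lit 462) (nat_lit 5486) (nat_lit 526) (nat_lit 5518)))) (.f (nat_lit 462) (nat_lit 494) (nat_lit 5486) (.f (nat_lit 335) (nat_lit 430) (nat_lit 5454) (.d (nat_lit 336) (nat_lit 304) (nat_lit 6447) (nat_lit 368) (nat_lit 6479)))))))) (.a (.p (nat_lit 367) (.a (.f (nat_lit 368) (nat_lit 336) (nat_lit 6479) (.f (nat_lit 366) (nat_lit 334) (nat_lit 7502) (.d (nat_lit 495) (nat_lit 398) (nat_lit 7534) (nat_lit 400) (nat_lit 6511)))) (.a (.f (nat_lit 368) (nat_lit 336) (nat_lit 6479) (.f (nat_lit 400) (nat_lit 495) (nat_lit 6511) (.f (nat_lit 432) (nat_lit 335) (nat_lit 4431) (.f (nat_lit 369) (nat_lit 337) (nat_lit 6480) (.d (nat_lit 398) (nat_lit 370) (nat_lit 1390) (nat_lit 397) (nat_lit 2413)))))) (.f (nat_lit 335) (nat_lit 432) (nat_lit 4431) (.d (nat_lit 334) (nat_lit 302) (nat_lit 7470) (nat_lit 366) (nat_lit 7502)))))) (.p (nat_lit 367) (.a (.f (nat_lit 335) (nat_lit 432) (nat_lit 4431) (.d (nat_lit 462) (nat_lit 430) (nat_lit 5454) (nat_lit 494) (nat_lit 5486))) (.a (.f (nat_lit 462) (nat_lit 494) (nat_lit 5486) (.p (nat_lit 461) (.a (.d (nat_lit 432) (nat_lit 433) (nat_lit 2477) (nat_lit 460) (nat_lit 2476)) (.a (.f (nat_lit 428) (nat_lit 429) (nat_lit 3500) (.f (nat_lit 460) (nat_lit 427) (nat_lit 3499) (.d (nat_lit 492) (nat_lit 491) (nat_lit 1483) (nat_lit 493) (nat_lit 1484)))) (.f (nat_lit 366) (nat_lit 334) (nat_lit 7502) (.f (nat_lit 429) (nat_lit 428) (nat_lit 3500) (.f (nat_lit 493) (nat_lit 492) (nat_lit 1484) (.d (nat_lit 398) (nat_lit 397) (nat_lit 6509) (nat_lit 430) (nat_lit 5485))))))))) (.a (.f (nat_lit 335) (nat_lit 432) (nat_lit 4431) (.d (nat_lit 334) (nat_lit 302) (nat_lit 7470) (nat_lit 366) (nat_lit 7502))) (.f (nat_lit 462) (nat_lit 494) (nat_lit 5486) (.f (nat_lit 335) (nat_lit 430) (nat_lit 5454) (.d (nat_lit 336) (nat_lit 304) (nat_lit 6447) (nat_lit 368) (nat_lit 6479))))))))))))))))))) (.a (.p (nat_lit 462) (.a s67362 (.a (.f (nat_lit 496) (nat_lit 431) (nat_lit 7599) (.f (nat_lit 497) (nat_lit 461) (nat_lit 461) (.d (nat_lit 498) (nat_lit 465) (nat_lit 462) (nat_lit 495) (nat_lit 3534)))) (.a s81322 (.a (.p (nat_lit 494) (.a (.f (nat_lit 496) (nat_lit 431) (nat_lit 7599) (.d (nat_lit 465) (nat_lit 433) (nat_lit 6576) (nat_lit 493) (nat_lit 1485))) (.a (.f (nat_lit 465) (nat_lit 493) (nat_lit 1485) (.d (nat_lit 433) (nat_lit 434) (nat_lit 2478) (nat_lit 496) (nat_lit 6576))) (.a (.f (nat_lit 493) (nat_lit 465) (nat_lit 1485) (.d (nat_lit 492) (nat_lit 491) (nat_lit 2507) (nat_lit 495) (nat_lit 2508))) (.f (nat_lit 431) (nat_lit 496) (nat_lit 7599) (.f (nat_lit 399) (nat_lit 367) (nat_lit 5486) (.d (nat_lit 526) (nat_lit 495) (nat_lit 5518) (nat_lit 558) (nat_lit 6574)))))))) (.a (.f (nat_lit 496) (nat_lit 431) (nat_lit 7599) (.f (nat_lit 461) (nat_lit 497) (nat_lit 461) (.f (nat_lit 460) (nat_lit 495) (nat_lit 460) (.d (nat_lit 492) (nat_lit 491) (nat_lit 1483) (nat_lit 493) (nat_lit 1484))))) (.f (nat_lit 496) (nat_lit 431) (nat_lit 7599) (.f (nat_lit 465) (nat_lit 433) (nat_lit 6576) (.d (nat_lit 497) (nat_lit 461) (nat_lit 461) (nat_lit 498) (nat_lit 462)))))))))) (.a (.f (nat_lit 496) (nat_lit 431) (nat_lit 7599) (.p (nat_lit 462) (.a (.f (nat_lit 465) (nat_lit 433) (nat_lit 6576) (.d (nat_lit 497) (nat_lit 461) (nat_lit 461) (nat_lit 498) (nat_lit 462))) (.a (.f (nat_lit 461) (nat_lit 497) (nat_lit 461) (.f (nat_lit 460) (nat_lit 495) (nat_lit 460) (.d (nat_lit 492) (nat_lit 491) (nat_lit 1483) (nat_lit 493) (nat_lit 1484)))) (.a (.f (nat_lit 465) (nat_lit 433) (nat_lit 6576) (.f (nat_lit 498) (nat_lit 497) (nat_lit 462) (.f (nat_lit 466) (nat_lit 499) (nat_lit 463) (.f (nat_lit 467) (nat_lit 495) (nat_lit 1487) (.d (nat_lit 435) (nat_lit 434) (nat_lit 2479) (nat_lit 436) (nat_lit 2480)))))) (.f (nat_lit 433) (nat_lit 465) (nat_lit 6576) (.d (nat_lit 432) (nat_lit 401) (nat_lit 6544) (nat_lit 461) (nat_lit 2477)))))))) (.a (.p (nat_lit 465) (.a (.f (nat_lit 433) (nat_lit 496) (nat_lit 6576) (.f (nat_lit 462) (nat_lit 434) (nat_lit 2478) (.f (nat_lit 461) (nat_lit 432) (nat_lit 2477) (.d (nat_lit 493) (nat_lit 492) (nat_lit 1484) (nat_lit 494) (nat_lit 1485))))) (.a (.d (nat_lit 496) (nat_lit 431) (nat_lit 7599) (nat_lit 433) (nat_lit 6576)) (.a (.f (nat_lit 431) (nat_lit 496) (nat_lit 7599) (.f (nat_lit 466) (nat_lit 430) (nat_lit 3502) (.f (nat_lit 467) (nat_lit 432) (nat_lit 3503) (.d (nat_lit 435) (nat_lit 434) (nat_lit 2479) (nat_lit 436) (nat_lit 2480))))) (.p (nat_lit 462) (.a (.f (nat_lit 430) (nat_lit 429) (nat_lit 3501) (.f (nat_lit 466) (nat_lit 431) (nat_lit 3502) (.d (nat_lit 434) (nat_lit 433) (nat_lit 2478) (nat_lit 435) (nat_lit 2479)))) (.a (.f (nat_lit 433) (nat_lit 434) (nat_lit 2478) (.f (nat_lit 461) (nat_lit 432) (nat_lit 2477) (.d (nat_lit 493) (nat_lit 492) (nat_lit 1484) (nat_lit 494) (nat_lit 1485)))) (.f (nat_lit 493) (nat_lit 494) (nat_lit 1485) (.f (nat_lit 461) (nat_lit 492) (nat_lit 1484) (.d (nat_lit 429) (nat_lit 428) (nat_lit 3500) (nat_lit 430) (nat_lit 3501))))))))))) (.p (nat_lit 465) (.a (.p (nat_lit 462) (.a (.f (nat_lit 494) (nat_lit 493) (nat_lit 1485) (.f (nat_lit 466) (nat_lit 495) (nat_lit 1486) (.d (nat_lit 498) (nat_lit 497) (nat_lit 462) (nat_lit 499) (nat_lit 463)))) (.a (.f (nat_lit 433) (nat_lit 434) (nat_lit 2478) (.f (nat_lit 461) (nat_lit 432) (nat_lit 2477) (.d (nat_lit 493) (nat_lit 492) (nat_lit 1484) (nat_lit 494) (nat_lit 1485)))) (.f (nat_lit 433) (nat_lit 434) (nat_lit 2478) (.f (nat_lit 461) (nat_lit 432) (nat_lit 2477) (.d (nat_lit 429) (nat_lit 428) (nat_lit 3500) (nat_lit 430) (nat_lit 3501))))))) (.a s81343 (.a (.p (nat_lit 466) (.a (.f (nat_lit 435) (nat_lit 434) (nat_lit 2479) (.f (nat_lit 467) (nat_lit 436) (nat_lit 2480) (.d (nat_lit 499) (nat_lit 498) (nat_lit 463) (nat_lit 500) (nat_lit 464)))) (.a (.f (nat_lit 498) (nat_lit 499) (nat_lit 463) (.f (nat_lit 494) (nat_lit 495) (nat_lit 1486) (.d (nat_lit 462) (nat_lit 493) (nat_lit 1485) (nat_lit 497) (nat_lit 462)))) (.f (nat_lit 434) (nat_lit 435) (nat_lit 2479) (.f (nat_lit 462) (nat_lit 433) (nat_lit 2478) (.d (nat_lit 494) (nat_lit 493) (nat_lit 1485) (nat_lit 495) (nat_lit 1486))))))) (.a (.p (nat_lit 466) (.a (.f (nat_lit 435) (nat_lit 434) (nat_lit 2479) (.f (nat_lit 467) (nat_lit 436) (nat_lit 2480) (.d (nat_lit 499) (nat_lit 498) (nat_lit 463) (nat_lit 500) (nat_lit 464)))) (.a (.f (nat_lit 498) (nat_lit 499) (nat_lit 463) (.f (nat_lit 494) (nat_lit 495) (nat_lit 1486) (.d (nat_lit 462) (nat_lit 493) (nat_lit 1485) (nat_lit 497) (nat_lit 462)))) (.f (nat_lit 431) (nat_lit 430) (nat_lit 3502) (.f (nat_lit 467) (nat_lit 432) (nat_lit 3503) (.d (nat_lit 435) (nat_lit 434) (nat_lit 2479) (nat_lit 436) (nat_lit 2480))))))) (.a (.p (nat_lit 462) (.a (.f (nat_lit 494) (nat_lit 493) (nat_lit 1485) (.f (nat_lit 466) (nat_lit 495) (nat_lit 1486) (.d (nat_lit 498) (nat_lit 497) (nat_lit 462) (nat_lit 499) (nat_lit 463)))) (.a (.f (nat_lit 493) (nat_lit 494) (nat_lit 1485) (.f (nat_lit 461) (nat_lit 492) (nat_lit 1484) (.d (nat_lit 429) (nat_lit 428) (nat_lit 3500) (nat_lit 430) (nat_lit 3501)))) (.f (nat_lit 430) (nat_lit 429) (nat_lit 3501) (.f (nat_lit 466) (nat_lit 431) (nat_lit 3502) (.d (nat_lit 498) (nat_lit 497) (nat_lit 462) (nat_lit 499) (nat_lit 463))))))) (.a s81366 (.p (nat_lit 462) (.a (.f (nat_lit 433) (nat_lit 434) (nat_lit 2478) (.f (nat_lit 461) (nat_lit 432) (nat_lit 2477) (.d (nat_lit 493) (nat_lit 492) (nat_lit 1484) (nat_lit 494) (nat_lit 1485)))) (.a (.f (nat_lit 493) (nat_lit 494) (nat_lit 1485) (.f (nat_lit 461) (nat_lit 492) (nat_lit 1484) (.d (nat_lit 429) (nat_lit 428) (nat_lit 3500) (nat_lit 430) (nat_lit 3501)))) (.a s68600 (.f (nat_lit 433) (nat_lit 434) (nat_lit 2478) (.f (nat_lit 461) (nat_lit 432) (nat_lit 2477) (.d (nat_lit 429) (nat_lit 428) (nat_lit 3500) (nat_lit 430) (nat_lit 3501))))))))))))))))))))))))))))))))))))))))))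
noncomputable def s100278 : Cert := .r (nat_lit 16209045194715341169889328670281870870648320287896358692834964590898661937229787932041754039510650896287619396121528265811588831646207381755109511917282835312024913084449269219328) (.p (nat_lit 624) (.a (.f (nat_lit 527) (nat_lit 495) (nat_lit 7663) (.f (nat_lit 656) (nat_lit 559) (nat_lit 7695) (.d (nat_lit 655) (nat_lit 623) (nat_lit 5647) (nat_lit 687) (nat_lit 5679)))) (.a (.f (nat_lit 657) (nat_lit 625) (nat_lit 4624) (.f (nat_lit 656) (nat_lit 689) (nat_lit 4656) (.d (nat_lit 655) (nat_lit 623) (nat_lit 5647) (nat_lit 687) (nat_lit 5679)))) (.a (.f (nat_lit 527) (nat_lit 495) (nat_lit 7663) (.f (nat_lit 656) (nat_lit 559) (nat_lit 7695) (.d (nat_lit 657) (nat_lit 625) (nat_lit 4624) (nat_lit 689) (nat_lit 4656)))) (.f (nat_lit 623) (nat_lit 655) (nat_lit 5647) (.f (nat_lit 496) (nat_lit 591) (nat_lit 5615) (.d (nat_lit 495) (nat_lit 463) (nat_lit 7631) (nat_lit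 527) (nat_lit 7663))))))))
noncomputable def s100417 : Cert := .r (nat_lit 3773962425700235452942859537499461060075163908278653093808089520525807034510604090067035062124638561226338938838226782579810552216648911534601243193560008730745155616768) (.p (nat_lit 464) (.a (.f (nat_lit 463) (nat_lit 431) (nat_lit 7599) (.f (nat_lit 465) (nat_lit 433) (nat_lit 6576) (.d (nat_lit 592) (nat_lit 495) (nat_lit 7631) (nat_lit 497) (nat_lit 6608)))) (.a (.f (nat_lit 431) (nat_lit 463) (nat_lit 7599) (.f (nat_lit 432) (nat_lit 399) (nat_lit 7567) (.d (nat_lit 433) (nat_lit 401) (nat_lit 6544) (nat_lit 465) (nat_lit 6576)))) (.a (.f (nat_lit 465) (nat_lit 433) (nat_lit 6576) (.f (nat_lit 592) (nat_lit 497) (nat_lit 6608) (.d (nat_lit 593) (nat_lit 561) (nat_lit 4560) (nat_lit 625) (nat_lit 4592)))) (.f (nat_lit 463) (nat_lit 431) (nat_lit 7599) (.f (nat_lit 592) (nat_lit 495) (nat_lit 7631) (.d (nat_lit 593) (nat_lit 561) (nat_lit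 4560) (nat_lit 625) (nat_lit 4592))))))))
noncomputable def s100606 : Cert := .r (nat_lit 3773962425700235453096299722244592710232032175317446804068244616434075696517633372946541333831107680986492224416003539946258365535128289863158302094148386530119930347520) (.p (nat_lit 525) (.a (.f (nat_lit 526) (nat_lit 497) (nat_lit 1517) (.d (nat_lit 524) (nat_lit 493) (nat_lit 1516) (nat_lit 523) (nat_lit 2539))) (.a (.f (nat_lit 493) (nat_lit 524) (nat_lit 1516) (.f (nat_lit 461) (nat_lit 460) (nat_lit 3532) (.f (nat_lit 462) (nat_lit 497) (nat_lit 3533) (.d (nat_lit 430) (nat_lit 398) (nat_lit 5517) (nat_lit 557) (nat_lit 6573))))) (.a (.f (nat_lit 493) (nat_lit 524) (nat_lit 1516) (.p (nat_lit 462) (.a (.f (nat_lit 461) (nat_lit 460) (nat_lit 3532) (.d (nat_lit 430) (nat_lit 398) (nat_lit 5517) (nat_lit 557) (nat_lit 6573))) (.a (.f (nat_lit 460) (nat_lit 461) (nat_lit 3532) (.f (nat_lit 492) (nat_lit 459) (nat_lit 3531)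 (.f (nat_lit 491) (nat_lit 463) (nat_lit 2507) (.f (nat_lit 490) (nat_lit 526) (nat_lit 490) (.d (nat_lit 522) (nat_lit 521) (nat_lit 1513) (nat_lit 523) (nat_lit 1514)))))) (.f (nat_lit 430) (nat_lit 398) (nat_lit 5517) (.d (nat_lit 557) (nat_lit 526) (nat_lit 5549) (nat_lit 589) (nat_lit 6605))))))) (.f (nat_lit 497) (nat_lit 526) (nat_lit 1517) (.f (nat_lit 462) (nat_lit 461) (nat_lit 3533) (.f (nat_lit 498) (nat_lit 463) (nat_lit 3534) (.d (nat_lit 466) (nat_lit 465) (nat_lit 2510) (nat_lit 467) (nat_lit 2511)))))))))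
noncomputable def s100803 : Cert := .r (nat_lit 4717453032125294316178574421874326325093954885348316367260111900657258793138255112583793827655798201532923673547783478224763190270811139418251553991950010913431444520960) (.p (nat_lit 561) (.a (.f (nat_lit 559) (nat_lit 525) (nat_lit 3597) (.d (nat_lit 593) (nat_lit 464) (nat_lit 4560) (nat_lit 594) (nat_lit 558))) (.a (.f (nat_lit 559) (nat_lit 525) (nat_lit 3597) (.f (nat_lit 589) (nat_lit 590) (nat_lit 1581) (.d (nat_lit 557) (nat_lit 462) (nat_lit 5581) (nat_lit 588) (nat_lit 1580)))) (.a (.f (nat_lit 464) (nat_lit 593) (nat_lit 4560) (.f (nat_lit 431) (nat_lit 463) (nat_lit 7599) (.f (nat_lit 432) (nat_lit 399) (nat_lit 7567) (.f (nat_lit 401) (nat_lit 433) (nat_lit 6544) (.f (nat_lit 400) (nat_lit 369) (nat_lit 6512) (.f (nat_lit 429) (nat_lit 430) (nat_lit 2445) (.f (nat_lit 461) (nat_lit 462) (nat_lit 7597) (.d (nat_lit 493) (nat_lit 397) (nat_lit 4493) (nat_lit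 525) (nat_lit 4525))))))))) (.f (nat_lit 593) (nat_lit 464) (nat_lit 4560) (.f (nat_lit 559) (nat_lit 594) (nat_lit 558) (.f (nat_lit 589) (nat_lit 590) (nat_lit 1581) (.d (nat_lit 557) (nat_lit 462) (nat_lit 5581) (nat_lit 588) (nat_lit 1580)))))))))
noncomputable def s100888 : Cert := .r (nat_lit 4717453032125294316178574421874326325093954885348316367260111900657258793138255112583793827655798201532923673547783478224763190270811139418251553991950010913431444520960) (.p (nat_lit 590) (.a (.f (nat_lit 589) (nat_lit 621) (nat_lit 5613) (.f (nat_lit 561) (nat_lit 559) (nat_lit 1581) (.f (nat_lit 593) (nat_lit 464) (nat_lit 4560) (.d (nat_lit 625) (nat_lit 592) (nat_lit 4592) (nat_lit 657) (nat_lit 7696))))) (.a (.f (nat_lit 493) (nat_lit 461) (nat_lit 7629) (.f (nat_lit 622) (nat_lit 525) (nat_lit 7661) (.d (nat_lit 621) (nat_lit 589) (nat_lit 5613) (nat_lit 653) (nat_lit 5645)))) (.a (.f (nat_lit 493) (nat_lit 461)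 (nat_lit 7629) (.f (nat_lit 622) (nat_lit 525) (nat_lit 7661) (.f (nat_lit 655) (nat_lit 623) (nat_lit 4622) (.f (nat_lit 654) (nat_lit 687) (nat_lit 4654) (.d (nat_lit 653) (nat_lit 621) (nat_lit 5645) (nat_lit 685) (nat_lit 5677)))))) (.f (nat_lit 493) (nat_lit 461) (nat_lit 7629) (.f (nat_lit 525) (nat_lit 622) (nat_lit 7661) (.f (nat_lit 561) (nat_lit 559) (nat_lit 3597) (.f (nat_lit 593) (nat_lit 464) (nat_lit 4560) (.d (nat_lit 625) (nat_lit 592) (nat_lit 4592) (nat_lit 657) (nat_lit 7696))))))))))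
noncomputable def s101160 : Cert := .r (nat_lit 12265377881658540258048447100216364842888405450518375568164813380937598085480662284143616400013521915879250657628075588373582421524237545958846729326968398390488637374464) (.p (nat_lit 493) (.a (.f (nat_lit 557) (nat_lit 590) (nat_lit 4557) (.f (nat_lit 556) (nat_lit 588) (nat_lit 5580) (.f (nat_lit 524) (nat_lit 429) (nat_lit 5548) (.f (nat_lit 460) (nat_lit 428) (nat_lit 7596) (.f (nat_lit 492) (nat_lit 589) (nat_lit 4556) (.f (nat_lit 459) (nat_lit 427) (nat_lit 7595) (.d (nat_lit 458) (nat_lit 457) (nat_lit 457) (nat_lit 494) (nat_lit 458)))))))) (.a (.f (nat_lit 429) (nat_lit 526) (nat_lit 4525) (.f (nat_lit 524) (nat_lit 556) (nat_lit 5548) (.f (nat_lit 397) (nat_lit 492) (nat_lit 5516) (.d (nat_lit 398) (nat_lit 366) (nat_lit 6509) (nat_lit 430) (nat_lit 6541))))) (.a (.f (nat_lit 557) (nat_lit 590) (nat_lit 4557) (.f (nat_lit 429) (nat_lit 526) (nat_lit 4525)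 (.d (nat_lit 430) (nat_lit 398) (nat_lit 6541) (nat_lit 462) (nat_lit 6573)))) (.f (nat_lit 557) (nat_lit 590) (nat_lit 4557) (.f (nat_lit 462) (nat_lit 430) (nat_lit 6573) (.f (nat_lit 589) (nat_lit 494) (nat_lit 6605) (.d (nat_lit 460) (nat_lit 428) (nat_lit 7596) (nat_lit 492) (nat_lit 7628)))))))))
noncomputable def s101203 : Cert := .r (nat_lit 12737123184761232927078641422833944191423590991423050561077620635322876075752930381104556272949041464773709248719032911898606593473904378460918376078765969939403200528384) (.p (nat_lit 461) (.a (.f (nat_lit 493) (nat_lit 590) (nat_lit 4557) (.f (nat_lit 462) (nat_lit 430) (nat_lit 6573) (.d (nat_lit 463) (nat_lit 431) (nat_lit 7599) (nat_lit 492) (nat_lit 1484)))) (.a (.f (nat_lit 493) (nat_lit 590) (nat_lit 4557) (.f (nat_lit 524) (nat_lit 559) (nat_lit 3596) (.d (nat_lit 556) (nat_lit 429) (nat_lit 5548) (nat_lit 588) (nat_lit 5580)))) (.f (nat_lit 463) (nat_lit 431)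 (nat_lit 7599) (.f (nat_lit 462) (nat_lit 497) (nat_lit 461) (.f (nat_lit 428) (nat_lit 429) (nat_lit 3500) (.f (nat_lit 460) (nat_lit 427) (nat_lit 3499) (.d (nat_lit 492) (nat_lit 491) (nat_lit 1483) (nat_lit 524) (nat_lit 4524)))))))))
noncomputable def s101345 : Cert := .r (nat_lit 11793632578555847589018252777586876968694360686318940453983569060261470035154893168083024591654626772888342154961341950673663947316423180302778017515907795928490851696640) (.p (nat_lit 461) (.a (.f (nat_lit 463) (nat_lit 431) (nat_lit 7599) (.f (nat_lit 462) (nat_lit 497) (nat_lit 461) (.d (nat_lit 493) (nat_lit 430) (nat_lit 6573) (nat_lit 492) (nat_lit 1484)))) (.a (.p (nat_lit 493) (.a (.f (nat_lit 428) (nat_lit 460) (nat_lit 7596) (.f (nat_lit 429) (nat_lit 396) (nat_lit 7564) (.d (nat_lit 430) (nat_lit 398) (nat_lit 6541) (nat_lit 462) (nat_lit 6573)))) (.a (.f (nat_lit 460) (nat_lit 428) (nat_lit 7596) (.f (nat_lit 589) (nat_lit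 492) (nat_lit 7628) (.d (nat_lit 588) (nat_lit 556) (nat_lit 5580) (nat_lit 620) (nat_lit 5612)))) (.f (nat_lit 556) (nat_lit 588) (nat_lit 5580) (.f (nat_lit 429) (nat_lit 524) (nat_lit 5548) (.d (nat_lit 430) (nat_lit 398) (nat_lit 6541) (nat_lit 462) (nat_lit 6573))))))) (.a (.p (nat_lit 493) (.a (.f (nat_lit 460) (nat_lit 428) (nat_lit 7596) (.f (nat_lit 589) (nat_lit 492) (nat_lit 7628) (.d (nat_lit 588) (nat_lit 556) (nat_lit 5580) (nat_lit 620) (nat_lit 5612)))) (.a (.f (nat_lit 556) (nat_lit 588) (nat_lit 5580) (.f (nat_lit 429) (nat_lit 524) (nat_lit 5548) (.d (nat_lit 428) (nat_lit 396) (nat_lit 7564) (nat_lit 460) (nat_lit 7596)))) (.a (.f (nat_lit 460) (nat_lit 428) (nat_lit 7596) (.f (nat_lit 589) (nat_lit 492) (nat_lit 7628) (.d (nat_lit 590) (nat_lit 558) (nat_lit 4557) (nat_lit 622) (nat_lit 4589)))) (.a (.f (nat_lit 556) (nat_lit 588) (nat_lit 5580) (.f (nat_lit 429) (nat_lit 524) (nat_lit 5548)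 (.f (nat_lit 431) (nat_lit 463) (nat_lit 7599) (.f (nat_lit 432) (nat_lit 399) (nat_lit 7567) (.f (nat_lit 430) (nat_lit 398) (nat_lit 6541) (.d (nat_lit 396) (nat_lit 397) (nat_lit 3468) (nat_lit 428) (nat_lit 7564))))))) (.f (nat_lit 556) (nat_lit 588) (nat_lit 5580) (.f (nat_lit 524) (nat_lit 429) (nat_lit 5548) (.f (nat_lit 590) (nat_lit 558) (nat_lit 4557) (.f (nat_lit 589) (nat_lit 622) (nat_lit 4589) (.d (nat_lit 492) (nat_lit 460) (nat_lit 4556) (nat_lit 621) (nat_lit 7660))))))))))) (.a (.f (nat_lit 463) (nat_lit 431) (nat_lit 7599) (.f (nat_lit 462) (nat_lit 497) (nat_lit 461) (.f (nat_lit 428) (nat_lit 429) (nat_lit 3500) (.f (nat_lit 460) (nat_lit 427) (nat_lit 3499) (.d (nat_lit 492) (nat_lit 491) (nat_lit 1483) (nat_lit 524) (nat_lit 4524)))))) (.f (nat_lit 463) (nat_lit 431) (nat_lit 7599) (.f (nat_lit 462) (nat_lit 497) (nat_lit 461) (.f (nat_lit 493) (nat_lit 430) (nat_lit 6573) (.d (nat_lit 428)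 (nat_lit 429) (nat_lit 3500) (nat_lit 460) (nat_lit 7596))))))))))
noncomputable def s101376 : Cert := .r (nat_lit 11793632578555847589043826141711065577053838730825406072360261576246181478822731381896275636939038292848367702557638076901405249536169743357537527332672525561719980818432) (.p (nat_lit 462) (.a (.f (nat_lit 461) (nat_lit 430) (nat_lit 6573) (.f (nat_lit 589) (nat_lit 494) (nat_lit 6605) (.d (nat_lit 588) (nat_lit 556) (nat_lit 5580) (nat_lit 620) (nat_lit 5612)))) (.a (.f (nat_lit 461) (nat_lit 430) (nat_lit 6573) (.f (nat_lit 460) (nat_lit 428) (nat_lit 7596) (.f (nat_lit 492) (nat_lit 589) (nat_lit 7628) (.f (nat_lit 556) (nat_lit 588) (nat_lit 5580) (.f (nat_lit 524) (nat_lit 429) (nat_lit 5548) (.f (nat_lit 459) (nat_lit 427) (nat_lit 7595) (.f (nat_lit 490) (nat_lit 491) (nat_lit 1482) (.d (nat_lit 458) (nat_lit 457) (nat_lit 457) (nat_lit 489) (nat_lit 1481))))))))) (.a (.f (nat_lit 589) (nat_lit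 494) (nat_lit 6605) (.f (nat_lit 620) (nat_lit 588) (nat_lit 5612) (.f (nat_lit 621) (nat_lit 652) (nat_lit 5644) (.d (nat_lit 622) (nat_lit 590) (nat_lit 4589) (nat_lit 654) (nat_lit 4621))))) (.a (.f (nat_lit 461) (nat_lit 430) (nat_lit 6573) (.f (nat_lit 428) (nat_lit 460) (nat_lit 7596) (.f (nat_lit 429) (nat_lit 396) (nat_lit 7564) (.d (nat_lit 556) (nat_lit 524) (nat_lit 5548) (nat_lit 588) (nat_lit 5580))))) (.f (nat_lit 461) (nat_lit 430) (nat_lit 6573) (.f (nat_lit 589) (nat_lit 494) (nat_lit 6605) (.d (nat_lit 590) (nat_lit 558) (nat_lit 4557) (nat_lit 622) (nat_lit 4589)))))))))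
noncomputable def s101381 : Cert := .r (nat_lit 11793632578555847589043826141711065577053838730825406072360261576246181478822731381896275636939038292848367702557638076901405249536169743357537527332672525561719980818432) (.p (nat_lit 462) (.a (.f (nat_lit 461) (nat_lit 430) (nat_lit 6573) (.f (nat_lit 589) (nat_lit 494) (nat_lit 6605) (.d (nat_lit 588) (nat_lit 556) (nat_lit 5580) (nat_lit 620) (nat_lit 5612)))) (.a (.f (nat_lit 461) (nat_lit 430) (nat_lit 6573) (.f (nat_lit 460) (nat_lit 428) (nat_lit 7596) (.f (nat_lit 492) (nat_lit 589) (nat_lit 7628) (.f (nat_lit 556) (nat_lit 588) (nat_lit 5580) (.f (nat_lit 524) (nat_lit 429) (nat_lit 5548) (.f (nat_lit 459) (nat_lit 427) (nat_lit 7595) (.f (nat_lit 490) (nat_lit 491) (nat_lit 1482) (.d (nat_lit 458) (nat_lit 457) (nat_lit 457) (nat_lit 489) (nat_lit 1481))))))))) (.a (.f (nat_lit 589) (nat_lit 494) (nat_lit 6605) (.f (nat_lit 620) (nat_lit 588) (nat_lit 5612)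 (.f (nat_lit 621) (nat_lit 652) (nat_lit 5644) (.d (nat_lit 622) (nat_lit 590) (nat_lit 4589) (nat_lit 654) (nat_lit 4621))))) (.a (.f (nat_lit 461) (nat_lit 430) (nat_lit 6573) (.f (nat_lit 428) (nat_lit 460) (nat_lit 7596) (.f (nat_lit 429) (nat_lit 396) (nat_lit 7564) (.d (nat_lit 556) (nat_lit 524) (nat_lit 5548) (nat_lit 588) (nat_lit 5580))))) (.f (nat_lit 589) (nat_lit 494) (nat_lit 6605) (.f (nat_lit 492) (nat_lit 460) (nat_lit 7628) (.f (nat_lit 621) (nat_lit 524) (nat_lit 7660) (.d (nat_lit 622) (nat_lit 590) (nat_lit 4589) (nat_lit 654) (nat_lit 4621))))))))))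
noncomputable def s101406 : Cert := .r (nat_lit 11793632578555847589043826141711065577053838730825406072360261576246181478822731381896275636939038292848367702557638076901405249536169743357537527332672525561719980818432) (.p (nat_lit 590) (.a (.f (nat_lit 461) (nat_lit 558) (nat_lit 4557) (.f (nat_lit 589) (nat_lit 622) (nat_lit 4589) (.d (nat_lit 588) (nat_lit 556) (nat_lit 5580) (nat_lit 620) (nat_lit 5612)))) (.a (.f (nat_lit 589) (nat_lit 622) (nat_lit 4589) (.f (nat_lit 588) (nat_lit 620) (nat_lit 5612) (.f (nat_lit 556) (nat_lit 461) (nat_lit 5580) (.f (nat_lit 492) (nat_lit 460) (nat_lit 7628) (.f (nat_lit 524) (nat_lit 621) (nat_lit 4588) (.f (nat_lit 555) (nat_lit 554) (nat_lit 554) (.f (nat_lit 587) (nat_lit 619) (nat_lit 5611) (.f (nat_lit 491) (nat_lit 459) (nat_lit 7627) (.f (nat_lit 490) (nat_lit 489) (nat_lit 489) (.d (nat_lit 458) (nat_lit 457) (nat_lit 3529) (nat_lit 523) (nat_lit 7626)))))))))))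 (.a (.f (nat_lit 589) (nat_lit 622) (nat_lit 4589) (.f (nat_lit 620) (nat_lit 588) (nat_lit 5612) (.f (nat_lit 621) (nat_lit 652) (nat_lit 5644) (.d (nat_lit 492) (nat_lit 460) (nat_lit 7628) (nat_lit 524) (nat_lit 7660))))) (.a (.f (nat_lit 461) (nat_lit 558) (nat_lit 4557) (.f (nat_lit 556) (nat_lit 588) (nat_lit 5580) (.f (nat_lit 429) (nat_lit 524) (nat_lit 5548) (.d (nat_lit 428) (nat_lit 396) (nat_lit 7564) (nat_lit 460) (nat_lit 7596))))) (.f (nat_lit 589) (nat_lit 622) (nat_lit 4589) (.f (nat_lit 461) (nat_lit 558) (nat_lit 4557) (.d (nat_lit 460) (nat_lit 428) (nat_lit 7596) (nat_lit 492) (nat_lit 7628)))))))))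
noncomputable def s101437 : Cert := .r (nat_lit 11793632578555847589043826141711065577053838730825406072360261576246181478822731381896275636939038292848367702557638076901405249536169743357537527332672525561719980818432) (.p (nat_lit 589) (.a (.f (nat_lit 620) (nat_lit 588) (nat_lit 5612) (.f (nat_lit 621) (nat_lit 652) (nat_lit 5644) (.d (nat_lit 622) (nat_lit 590) (nat_lit 4589) (nat_lit 654) (nat_lit 4621)))) (.a (.f (nat_lit 588) (nat_lit 620) (nat_lit 5612) (.f (nat_lit 492) (nat_lit 460) (nat_lit 7628) (.f (nat_lit 621) (nat_lit 524) (nat_lit 7660) (.f (nat_lit 654) (nat_lit 622) (nat_lit 4621) (.f (nat_lit 653) (nat_lit 686) (nat_lit 4653) (.f (nat_lit 684) (nat_lit 652) (nat_lit 5676) (.d (nat_lit 685) (nat_lit 556) (nat_lit 7724) (nat_lit 716) (nat_lit 5708)))))))) (.a (.f (nat_lit 588) (nat_lit 620) (nat_lit 5612) (.f (nat_lit 558) (nat_lit 559) (nat_lit 1580) (.f (nat_lit 492) (nat_lit 460) (nat_lit 7628)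 (.f (nat_lit 524) (nat_lit 621) (nat_lit 7660) (.f (nat_lit 522) (nat_lit 523) (nat_lit 522) (.f (nat_lit 587) (nat_lit 586) (nat_lit 2602) (.f (nat_lit 556) (nat_lit 619) (nat_lit 5611) (.f (nat_lit 491) (nat_lit 459) (nat_lit 7627) (.d (nat_lit 490) (nat_lit 489) (nat_lit 489) (nat_lit 521) (nat_lit 1513)))))))))) (.a (.f (nat_lit 588) (nat_lit 620) (nat_lit 5612) (.f (nat_lit 558) (nat_lit 559) (nat_lit 1580) (.f (nat_lit 590) (nat_lit 622) (nat_lit 4589) (.f (nat_lit 587) (nat_lit 586) (nat_lit 2602) (.f (nat_lit 555) (nat_lit 554) (nat_lit 3626) (.f (nat_lit 619) (nat_lit 618) (nat_lit 1610) (.f (nat_lit 492) (nat_lit 460) (nat_lit 7628) (.d (nat_lit 524) (nat_lit 523) (nat_lit 6635) (nat_lit 556) (nat_lit 5611))))))))) (.f (nat_lit 492) (nat_lit 460) (nat_lit 7628) (.f (nat_lit 621) (nat_lit 524) (nat_lit 7660) (.d (nat_lit 622) (nat_lit 590) (nat_lit 4589) (nat_lit 654) (nat_lit 4621)))))))))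
noncomputable def s101444 : Cert := .r (nat_lit 11793632578555847589043826141711065577053838730825406072360261576246181478822731381896275636939038292848367702557638076901405249536169743357537527332672525561719980818432) (.p (nat_lit 462) (.a (.f (nat_lit 461) (nat_lit 430) (nat_lit 6573) (.f (nat_lit 589) (nat_lit 494) (nat_lit 6605) (.d (nat_lit 588) (nat_lit 556) (nat_lit 5580) (nat_lit 620) (nat_lit 5612)))) (.a (.f (nat_lit 461) (nat_lit 430) (nat_lit 6573) (.f (nat_lit 460) (nat_lit 428) (nat_lit 7596) (.f (nat_lit 492) (nat_lit 589) (nat_lit 7628) (.f (nat_lit 556) (nat_lit 588) (nat_lit 5580) (.f (nat_lit 524) (nat_lit 429) (nat_lit 5548) (.f (nat_lit 459) (nat_lit 427) (nat_lit 7595) (.f (nat_lit 490) (nat_lit 491) (nat_lit 1482) (.d (nat_lit 458) (nat_lit 457) (nat_lit 457) (nat_lit 489) (nat_lit 1481))))))))) (.a (.f (nat_lit 589) (nat_lit 494) (nat_lit 6605) (.f (nat_lit 492) (nat_lit 460) (nat_lit 7628)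 (.f (nat_lit 621) (nat_lit 524) (nat_lit 7660) (.d (nat_lit 620) (nat_lit 588) (nat_lit 5612) (nat_lit 652) (nat_lit 5644))))) (.a (.f (nat_lit 461) (nat_lit 430) (nat_lit 6573) (.f (nat_lit 428) (nat_lit 460) (nat_lit 7596) (.f (nat_lit 429) (nat_lit 396) (nat_lit 7564) (.d (nat_lit 556) (nat_lit 524) (nat_lit 5548) (nat_lit 588) (nat_lit 5580))))) (.f (nat_lit 461) (nat_lit 430) (nat_lit 6573) (.d (nat_lit 463) (nat_lit 492) (nat_lit 1484) (nat_lit 497) (nat_lit 461))))))))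
noncomputable def s101466 : Cert := .r (nat_lit 11793632578555847589043826141711065577053838730825406072360261576246181478822731381896275636939038292848367702557638076901405249536169743357537527332672525561719980818432) (.p (nat_lit 558) (.a (.f (nat_lit 461) (nat_lit 590) (nat_lit 4557) (.f (nat_lit 460) (nat_lit 428) (nat_lit 7596) (.f (nat_lit 589) (nat_lit 492) (nat_lit 7628) (.d (nat_lit 462) (nat_lit 430) (nat_lit 6573) (nat_lit 494) (nat_lit 6605))))) (.a (.f (nat_lit 559) (nat_lit 524) (nat_lit 3596) (.d (nat_lit 589) (nat_lit 588) (nat_lit 1580) (nat_lit 590) (nat_lit 1581))) (.a (.f (nat_lit 559) (nat_lit 524) (nat_lit 3596) (.f (nat_lit 589) (nat_lit 588) (nat_lit 1580) (.f (nat_lit 462) (nat_lit 494) (nat_lit 6605) (.f (nat_lit 461) (nat_lit 430) (nat_lit 6573) (.d (nat_lit 492) (nat_lit 460) (nat_lit 7628) (nat_lit 463) (nat_lit 1484)))))) (.f (nat_lit 461) (nat_lit 590) (nat_lit 4557) (.f (nat_lit 462)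 (nat_lit 430) (nat_lit 6573) (.d (nat_lit 463) (nat_lit 492) (nat_lit 1484) (nat_lit 497) (nat_lit 461))))))))
noncomputable def s101468 : Cert := .r (nat_lit 11793632578555847589043826141711065577053838730825406072360261576246181478822731381896275636939038292848367702557638076901405249536169743357537527332672525561719980818432) (.p (nat_lit 558) (.a (.f (nat_lit 461) (nat_lit 590) (nat_lit 4557) (.f (nat_lit 524) (nat_lit 559) (nat_lit 3596) (.d (nat_lit 556) (nat_lit 429) (nat_lit 5548) (nat_lit 588) (nat_lit 5580)))) (.a (.f (nat_lit 461) (nat_lit 590) (nat_lit 4557) (.f (nat_lit 556) (nat_lit 588) (nat_lit 5580) (.f (nat_lit 429) (nat_lit 524) (nat_lit 5548) (.d (nat_lit 430) (nat_lit 398) (nat_lit 6541) (nat_lit 462) (nat_lit 6573))))) (.a (.f (nat_lit 559) (nat_lit 524) (nat_lit 3596) (.d (nat_lit 589) (nat_lit 588) (nat_lit 1580) (nat_lit 590) (nat_lit 1581))) (.a (.f (nat_lit 559) (nat_lit 524) (nat_lit 3596)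 (.d (nat_lit 527) (nat_lit 432) (nat_lit 5551) (nat_lit 556) (nat_lit 2572))) (.f (nat_lit 461) (nat_lit 590) (nat_lit 4557) (.f (nat_lit 588) (nat_lit 556) (nat_lit 5580) (.d (nat_lit 589) (nat_lit 559) (nat_lit 1580) (nat_lit 620) (nat_lit 5612)))))))))
noncomputable def s101470 : Cert := .r (nat_lit 11793632578555847589018252777586876968694360686318940453983569060261470035154893168083024591654626772888342154961341950673663947316423180302778017515907795928490851696640) (.p (nat_lit 493) (.a s101376 (.a s101381 (.a s101406 (.a s101437 (.a s101444 (.a (.p (nat_lit 558) (.a (.f (nat_lit 461) (nat_lit 590) (nat_lit 4557) (.f (nat_lit 524) (nat_lit 559) (nat_lit 3596) (.d (nat_lit 556) (nat_lit 429) (nat_lit 5548) (nat_lit 588) (nat_lit 5580)))) (.a (.f (nat_lit 461) (nat_lit 590) (nat_lit 4557) (.f (nat_lit 556) (nat_lit 588) (nat_lit 5580) (.f (nat_lit 429) (nat_lit 524) (nat_lit 5548) (.d (nat_lit 430) (nat_lit 398)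 (nat_lit 6541) (nat_lit 462) (nat_lit 6573))))) (.a (.f (nat_lit 559) (nat_lit 524) (nat_lit 3596) (.d (nat_lit 527) (nat_lit 432) (nat_lit 5551) (nat_lit 556) (nat_lit 2572))) (.f (nat_lit 461) (nat_lit 590) (nat_lit 4557) (.f (nat_lit 462) (nat_lit 430) (nat_lit 6573) (.d (nat_lit 463) (nat_lit 492) (nat_lit 1484) (nat_lit 497) (nat_lit 461)))))))) (.a (.p (nat_lit 462) (.a (.f (nat_lit 461) (nat_lit 430) (nat_lit 6573) (.f (nat_lit 589) (nat_lit 494) (nat_lit 6605) (.d (nat_lit 588) (nat_lit 556) (nat_lit 5580) (nat_lit 620) (nat_lit 5612)))) (.a (.f (nat_lit 461) (nat_lit 430) (nat_lit 6573) (.d (nat_lit 463) (nat_lit 492) (nat_lit 1484) (nat_lit 497) (nat_lit 461))) (.f (nat_lit 589) (nat_lit 494) (nat_lit 6605) (.f (nat_lit 620) (nat_lit 588) (nat_lit 5612) (.f (nat_lit 621) (nat_lit 652) (nat_lit 5644) (.d (nat_lit 622) (nat_lit 590) (nat_lit 4589) (nat_lit 654) (nat_lit 4621)))))))) (.a s101466 (.a s101468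 (.p (nat_lit 558) (.a (.f (nat_lit 461) (nat_lit 590) (nat_lit 4557) (.f (nat_lit 460) (nat_lit 428) (nat_lit 7596) (.f (nat_lit 589) (nat_lit 492) (nat_lit 7628) (.d (nat_lit 462) (nat_lit 430) (nat_lit 6573) (nat_lit 494) (nat_lit 6605))))) (.f (nat_lit 559) (nat_lit 524) (nat_lit 3596) (.d (nat_lit 527) (nat_lit 432) (nat_lit 5551) (nat_lit 556) (nat_lit 2572)))))))))))))))
noncomputable def s101488 : Cert := .r (nat_lit 11793632578555847589018252777586876968694360686318940453983569060261470035154893168083024591654626772888342154961341950673663947316423180302778017515907795928490851696640) (.p (nat_lit 461) (.a (.f (nat_lit 463) (nat_lit 431) (nat_lit 7599) (.f (nat_lit 462) (nat_lit 497) (nat_lit 461) (.d (nat_lit 493) (nat_lit 430) (nat_lit 6573) (nat_lit 492) (nat_lit 1484)))) (.a (.p (nat_lit 493) (.a (.f (nat_lit 428) (nat_lit 460) (nat_lit 7596) (.f (nat_lit 429) (nat_lit 396) (nat_lit 7564) (.d (nat_lit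 430) (nat_lit 398) (nat_lit 6541) (nat_lit 462) (nat_lit 6573)))) (.a (.f (nat_lit 460) (nat_lit 428) (nat_lit 7596) (.f (nat_lit 589) (nat_lit 492) (nat_lit 7628) (.d (nat_lit 588) (nat_lit 556) (nat_lit 5580) (nat_lit 620) (nat_lit 5612)))) (.f (nat_lit 556) (nat_lit 588) (nat_lit 5580) (.f (nat_lit 429) (nat_lit 524) (nat_lit 5548) (.d (nat_lit 430) (nat_lit 398) (nat_lit 6541) (nat_lit 462) (nat_lit 6573))))))) (.a (.p (nat_lit 493) (.a (.f (nat_lit 460) (nat_lit 428) (nat_lit 7596) (.f (nat_lit 589) (nat_lit 492) (nat_lit 7628) (.d (nat_lit 588) (nat_lit 556) (nat_lit 5580) (nat_lit 620) (nat_lit 5612)))) (.a (.f (nat_lit 556) (nat_lit 588) (nat_lit 5580) (.f (nat_lit 429) (nat_lit 524) (nat_lit 5548) (.d (nat_lit 428) (nat_lit 396) (nat_lit 7564) (nat_lit 460) (nat_lit 7596)))) (.a (.f (nat_lit 460) (nat_lit 428) (nat_lit 7596) (.f (nat_lit 589) (nat_lit 492) (nat_lit 7628) (.f (nat_lit 620) (nat_lit 588) (nat_lit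 5612) (.f (nat_lit 621) (nat_lit 652) (nat_lit 5644) (.d (nat_lit 622) (nat_lit 590) (nat_lit 4589) (nat_lit 654) (nat_lit 4621)))))) (.a (.f (nat_lit 556) (nat_lit 588) (nat_lit 5580) (.f (nat_lit 429) (nat_lit 524) (nat_lit 5548) (.f (nat_lit 431) (nat_lit 463) (nat_lit 7599) (.f (nat_lit 432) (nat_lit 399) (nat_lit 7567) (.f (nat_lit 430) (nat_lit 398) (nat_lit 6541) (.d (nat_lit 396) (nat_lit 397) (nat_lit 3468) (nat_lit 428) (nat_lit 7564))))))) (.a (.f (nat_lit 460) (nat_lit 428) (nat_lit 7596) (.f (nat_lit 492) (nat_lit 589) (nat_lit 7628) (.f (nat_lit 431) (nat_lit 463) (nat_lit 7599) (.f (nat_lit 432) (nat_lit 399) (nat_lit 7567) (.f (nat_lit 429) (nat_lit 430) (nat_lit 1452) (.d (nat_lit 397) (nat_lit 365) (nat_lit 5484) (nat_lit 524) (nat_lit 5516))))))) (.f (nat_lit 556) (nat_lit 588) (nat_lit 5580) (.f (nat_lit 429) (nat_lit 524) (nat_lit 5548) (.f (nat_lit 431) (nat_lit 463) (nat_lit 7599) (.f (nat_lit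 432) (nat_lit 399) (nat_lit 7567) (.d (nat_lit 430) (nat_lit 398) (nat_lit 6541) (nat_lit 460) (nat_lit 1452)))))))))))) (.a (.f (nat_lit 463) (nat_lit 431) (nat_lit 7599) (.f (nat_lit 462) (nat_lit 497) (nat_lit 461) (.f (nat_lit 428) (nat_lit 429) (nat_lit 3500) (.f (nat_lit 460) (nat_lit 427) (nat_lit 3499) (.d (nat_lit 492) (nat_lit 491) (nat_lit 1483) (nat_lit 524) (nat_lit 4524)))))) (.f (nat_lit 463) (nat_lit 431) (nat_lit 7599) (.f (nat_lit 462) (nat_lit 497) (nat_lit 461) (.f (nat_lit 493) (nat_lit 430) (nat_lit 6573) (.d (nat_lit 428) (nat_lit 429) (nat_lit 3500) (nat_lit 460) (nat_lit 7596))))))))))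
noncomputable def s101498 : Cert := .r (nat_lit 11793632578555847589018252777586876968694360686318940453983569060261470035154893168083024591654626772888342154961341950673663947316423180302778017515907795928490851696640) (.p (nat_lit 493) (.a s101376 (.a s101381 (.a s101406 (.a s101437 (.a s101444 (.a (.p (nat_lit 461) (.a (.f (nat_lit 428) (nat_lit 460) (nat_lit 7596) (.f (nat_lit 429) (nat_lit 396) (nat_lit 7564) (.d (nat_lit 430) (nat_lit 398) (nat_lit 6541) (nat_lit 462) (nat_lit 6573)))) (.a (.f (nat_lit 556) (nat_lit 588) (nat_lit 5580) (.f (nat_lit 429) (nat_lit 524) (nat_lit 5548) (.d (nat_lit 428) (nat_lit 396) (nat_lit 7564) (nat_lit 460) (nat_lit 7596)))) (.a (.f (nat_lit 556) (nat_lit 588) (nat_lit 5580) (.f (nat_lit 429) (nat_lit 524) (nat_lit 5548) (.d (nat_lit 430) (nat_lit 398) (nat_lit 6541) (nat_lit 462) (nat_lit 6573)))) (.f (nat_lit 462) (nat_lit 430) (nat_lit 6573) (.d (nat_lit 463) (nat_lit 431)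 (nat_lit 7599) (nat_lit 492) (nat_lit 1484))))))) (.a (.p (nat_lit 462) (.a (.f (nat_lit 461) (nat_lit 430) (nat_lit 6573) (.f (nat_lit 589) (nat_lit 494) (nat_lit 6605) (.d (nat_lit 588) (nat_lit 556) (nat_lit 5580) (nat_lit 620) (nat_lit 5612)))) (.a (.f (nat_lit 461) (nat_lit 430) (nat_lit 6573) (.d (nat_lit 463) (nat_lit 492) (nat_lit 1484) (nat_lit 497) (nat_lit 461))) (.f (nat_lit 589) (nat_lit 494) (nat_lit 6605) (.f (nat_lit 620) (nat_lit 588) (nat_lit 5612) (.f (nat_lit 621) (nat_lit 652) (nat_lit 5644) (.d (nat_lit 622) (nat_lit 590) (nat_lit 4589) (nat_lit 654) (nat_lit 4621)))))))) (.a s101466 (.a (.p (nat_lit 558) (.a (.f (nat_lit 461) (nat_lit 590) (nat_lit 4557) (.f (nat_lit 524) (nat_lit 559) (nat_lit 3596) (.d (nat_lit 556) (nat_lit 429) (nat_lit 5548) (nat_lit 588) (nat_lit 5580)))) (.a (.f (nat_lit 461) (nat_lit 590) (nat_lit 4557) (.f (nat_lit 556) (nat_lit 588) (nat_lit 5580) (.f (nat_lit 429)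 (nat_lit 524) (nat_lit 5548) (.d (nat_lit 430) (nat_lit 398) (nat_lit 6541) (nat_lit 462) (nat_lit 6573))))) (.a (.f (nat_lit 559) (nat_lit 524) (nat_lit 3596) (.d (nat_lit 589) (nat_lit 588) (nat_lit 1580) (nat_lit 590) (nat_lit 1581))) (.a (.f (nat_lit 559) (nat_lit 524) (nat_lit 3596) (.f (nat_lit 588) (nat_lit 589) (nat_lit 1580) (.d (nat_lit 556) (nat_lit 527) (nat_lit 2572) (nat_lit 587) (nat_lit 1579)))) (.a (.f (nat_lit 461) (nat_lit 590) (nat_lit 4557) (.f (nat_lit 588) (nat_lit 556) (nat_lit 5580) (.d (nat_lit 589) (nat_lit 559) (nat_lit 1580) (nat_lit 620) (nat_lit 5612)))) (.f (nat_lit 461) (nat_lit 590) (nat_lit 4557) (.f (nat_lit 462) (nat_lit 430) (nat_lit 6573) (.d (nat_lit 463) (nat_lit 431) (nat_lit 7599) (nat_lit 497) (nat_lit 461)))))))))) (.p (nat_lit 462) (.a (.f (nat_lit 461) (nat_lit 430) (nat_lit 6573) (.f (nat_lit 589) (nat_lit 494) (nat_lit 6605) (.d (nat_lit 590) (nat_lit 558) (nat_lit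 4557) (nat_lit 622) (nat_lit 4589)))) (.a (.f (nat_lit 589) (nat_lit 494) (nat_lit 6605) (.f (nat_lit 492) (nat_lit 460) (nat_lit 7628) (.f (nat_lit 621) (nat_lit 524) (nat_lit 7660) (.d (nat_lit 622) (nat_lit 590) (nat_lit 4589) (nat_lit 654) (nat_lit 4621))))) (.f (nat_lit 461) (nat_lit 430) (nat_lit 6573) (.d (nat_lit 463) (nat_lit 492) (nat_lit 1484) (nat_lit 497) (nat_lit 461))))))))))))))))
noncomputable def s101560 : Cert := .r (nat_lit 11793632578555847589043826141711065577053838730825406072360261576246181478822731381896275636939038292848367702557638076901405249536169743357537527332672525561719980818432) (.p (nat_lit 558) (.a (.f (nat_lit 461) (nat_lit 590) (nat_lit 4557) (.f (nat_lit 588) (nat_lit 556) (nat_lit 5580) (.d (nat_lit 589) (nat_lit 559) (nat_lit 1580) (nat_lit 620) (nat_lit 5612)))) (.a (.f (nat_lit 461) (nat_lit 590) (nat_lit 4557) (.f (nat_lit 428) (nat_lit 460) (nat_lit 7596) (.f (nat_lit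 429) (nat_lit 396) (nat_lit 7564) (.f (nat_lit 431) (nat_lit 463) (nat_lit 7599) (.f (nat_lit 430) (nat_lit 398) (nat_lit 6541) (.d (nat_lit 399) (nat_lit 400) (nat_lit 2444) (nat_lit 432) (nat_lit 7567))))))) (.a (.f (nat_lit 431) (nat_lit 463) (nat_lit 7599) (.f (nat_lit 432) (nat_lit 399) (nat_lit 7567) (.f (nat_lit 559) (nat_lit 527) (nat_lit 5551) (.d (nat_lit 589) (nat_lit 588) (nat_lit 1580) (nat_lit 590) (nat_lit 1581))))) (.f (nat_lit 431) (nat_lit 463) (nat_lit 7599) (.f (nat_lit 432) (nat_lit 399) (nat_lit 7567) (.f (nat_lit 559) (nat_lit 527) (nat_lit 5551) (.f (nat_lit 588) (nat_lit 589) (nat_lit 1580) (.d (nat_lit 556) (nat_lit 461) (nat_lit 5580) (nat_lit 587) (nat_lit 1579))))))))))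
noncomputable def s101569 : Cert := .r (nat_lit 11793632578555847589043826141711065577053838730825406072360261576246181478822731381896275636939038292848367702557638076901405249536169743357537527332672525561719980818432) (.p (nat_lit 589) (.a (.f (nat_lit 620) (nat_lit 588) (nat_lit 5612) (.f (nat_lit 621) (nat_lit 652) (nat_lit 5644) (.d (nat_lit 622) (nat_lit 590) (nat_lit 4589) (nat_lit 654) (nat_lit 4621)))) (.a (.f (nat_lit 588) (nat_lit 620) (nat_lit 5612) (.f (nat_lit 559) (nat_lit 558) (nat_lit 1580) (.f (nat_lit 432) (nat_lit 527) (nat_lit 5551) (.d (nat_lit 431) (nat_lit 399) (nat_lit 7567) (nat_lit 463) (nat_lit 7599))))) (.f (nat_lit 590) (nat_lit 622) (nat_lit 4589) (.f (nat_lit 559) (nat_lit 558) (nat_lit 1581) (.f (nat_lit 432) (nat_lit 527) (nat_lit 5551) (.d (nat_lit 431) (nat_lit 399) (nat_lit 7567) (nat_lit 463) (nat_lit 7599))))))))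
noncomputable def s101599 : Cert := .r (nat_lit 11793632578555847589018252777586876968694360686318940453983569060261470035154893168083024591654626772888342154961341950673663947316423180302778017515907795928490851696640) (.p (nat_lit 493) (.a s101376 (.a s101381 (.a s101406 (.a s101437 (.a s101444 (.a (.p (nat_lit 558) (.a (.f (nat_lit 461) (nat_lit 590) (nat_lit 4557) (.f (nat_lit 429) (nat_lit 526) (nat_lit 4525) (.d (nat_lit 556) (nat_lit 524) (nat_lit 5548) (nat_lit 588) (nat_lit 5580)))) (.a (.f (nat_lit 461) (nat_lit 590) (nat_lit 4557) (.f (nat_lit 524) (nat_lit 559) (nat_lit 3596) (.d (nat_lit 556) (nat_lit 429) (nat_lit 5548) (nat_lit 588) (nat_lit 5580)))) (.a (.d (nat_lit 559) (nat_lit 524) (nat_lit 3596) (nat_lit 526) (nat_lit 3597)) (.f (nat_lit 461) (nat_lit 590) (nat_lit 4557) (.f (nat_lit 429) (nat_lit 526) (nat_lit 4525) (.d (nat_lit 430) (nat_lit 398) (nat_lit 6541) (nat_lit 462) (nat_lit 6573))))))))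 (.a (.p (nat_lit 462) (.a (.f (nat_lit 461) (nat_lit 430) (nat_lit 6573) (.f (nat_lit 589) (nat_lit 494) (nat_lit 6605) (.d (nat_lit 588) (nat_lit 556) (nat_lit 5580) (nat_lit 620) (nat_lit 5612)))) (.a (.f (nat_lit 461) (nat_lit 430) (nat_lit 6573) (.d (nat_lit 463) (nat_lit 492) (nat_lit 1484) (nat_lit 497) (nat_lit 461))) (.f (nat_lit 589) (nat_lit 494) (nat_lit 6605) (.f (nat_lit 620) (nat_lit 588) (nat_lit 5612) (.f (nat_lit 621) (nat_lit 652) (nat_lit 5644) (.d (nat_lit 622) (nat_lit 590) (nat_lit 4589) (nat_lit 654) (nat_lit 4621)))))))) (.a s101466 (.p (nat_lit 462) (.a (.f (nat_lit 461) (nat_lit 430) (nat_lit 6573) (.f (nat_lit 589) (nat_lit 494) (nat_lit 6605) (.d (nat_lit 590) (nat_lit 558) (nat_lit 4557) (nat_lit 622) (nat_lit 4589)))) (.a (.f (nat_lit 589) (nat_lit 494) (nat_lit 6605) (.f (nat_lit 492) (nat_lit 460) (nat_lit 7628) (.f (nat_lit 621) (nat_lit 524) (nat_lit 7660) (.d (nat_lit 622) (nat_lit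 590) (nat_lit 4589) (nat_lit 654) (nat_lit 4621))))) (.f (nat_lit 461) (nat_lit 430) (nat_lit 6573) (.d (nat_lit 463) (nat_lit 492) (nat_lit 1484) (nat_lit 497) (nat_lit 461)))))))))))))))
noncomputable def s101602 : Cert := .r (nat_lit 11793632578555847589043826141711065577053838730825406072360261576246181478822731381896275636939038292848367702557638076901405249536169743357537527332672525561719980818432) (.p (nat_lit 462) (.a (.f (nat_lit 461) (nat_lit 430) (nat_lit 6573) (.f (nat_lit 589) (nat_lit 494) (nat_lit 6605) (.d (nat_lit 588) (nat_lit 556) (nat_lit 5580) (nat_lit 620) (nat_lit 5612)))) (.a (.f (nat_lit 461) (nat_lit 430) (nat_lit 6573) (.f (nat_lit 460) (nat_lit 428) (nat_lit 7596) (.f (nat_lit 492) (nat_lit 589) (nat_lit 7628) (.f (nat_lit 556) (nat_lit 588) (nat_lit 5580) (.f (nat_lit 524) (nat_lit 429) (nat_lit 5548) (.f (nat_lit 459) (nat_lit 427) (nat_lit 7595) (.f (nat_lit 490) (nat_lit 491) (nat_lit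 1482) (.d (nat_lit 458) (nat_lit 457) (nat_lit 457) (nat_lit 489) (nat_lit 1481))))))))) (.a (.f (nat_lit 589) (nat_lit 494) (nat_lit 6605) (.f (nat_lit 620) (nat_lit 588) (nat_lit 5612) (.f (nat_lit 621) (nat_lit 652) (nat_lit 5644) (.d (nat_lit 622) (nat_lit 590) (nat_lit 4589) (nat_lit 654) (nat_lit 4621))))) (.a (.f (nat_lit 461) (nat_lit 430) (nat_lit 6573) (.f (nat_lit 428) (nat_lit 460) (nat_lit 7596) (.f (nat_lit 429) (nat_lit 396) (nat_lit 7564) (.d (nat_lit 556) (nat_lit 524) (nat_lit 5548) (nat_lit 588) (nat_lit 5580))))) (.f (nat_lit 526) (nat_lit 527) (nat_lit 525) (.d (nat_lit 430) (nat_lit 461) (nat_lit 6573) (nat_lit 494) (nat_lit 5549))))))))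
noncomputable def s101626 : Cert := .r (nat_lit 11793632578555847589043826141711065577053838730825406072360261576246181478822731381896275636939038292848367702557638076901405249536169743357537527332672525561719980818432) (.p (nat_lit 589) (.a (.f (nat_lit 526) (nat_lit 527) (nat_lit 525) (.d (nat_lit 494) (nat_lit 462) (nat_lit 6605) (nat_lit 621) (nat_lit 6637))) (.a (.f (nat_lit 492) (nat_lit 460) (nat_lit 7628) (.f (nat_lit 621) (nat_lit 524) (nat_lit 7660) (.d (nat_lit 494) (nat_lit 462) (nat_lit 6605) (nat_lit 526) (nat_lit 6637)))) (.a (.f (nat_lit 620) (nat_lit 588) (nat_lit 5612) (.f (nat_lit 621) (nat_lit 652) (nat_lit 5644) (.d (nat_lit 622) (nat_lit 590) (nat_lit 4589) (nat_lit 654) (nat_lit 4621)))) (.f (nat_lit 526) (nat_lit 527) (nat_lit 525) (.f (nat_lit 494) (nat_lit 462) (nat_lit 6605) (.f (nat_lit 492) (nat_lit 460) (nat_lit 7628) (.f (nat_lit 491) (nat_lit 490) (nat_lit 490) (.f (nat_lit 523) (nat_lit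 522) (nat_lit 1514) (.f (nat_lit 459) (nat_lit 458) (nat_lit 3530) (.f (nat_lit 588) (nat_lit 620) (nat_lit 5612) (.d (nat_lit 556) (nat_lit 524) (nat_lit 7627) (nat_lit 555) (nat_lit 4555)))))))))))))
noncomputable def s101640 : Cert := .r (nat_lit 11793632578555847589018252777586876968694360686318940453983569060261470035154893168083024591654626772888342154961341950673663947316423180302778017515907795928490851696640) (.p (nat_lit 493) (.a s101376 (.a s101602 (.a (.p (nat_lit 590) (.a (.f (nat_lit 526) (nat_lit 527) (nat_lit 525) (.d (nat_lit 622) (nat_lit 558) (nat_lit 7661) (nat_lit 589) (nat_lit 4589))) (.a (.f (nat_lit 461) (nat_lit 558) (nat_lit 4557) (.f (nat_lit 589) (nat_lit 622) (nat_lit 4589) (.d (nat_lit 588) (nat_lit 556) (nat_lit 5580) (nat_lit 620) (nat_lit 5612)))) (.a (.f (nat_lit 589) (nat_lit 622) (nat_lit 4589) (.f (nat_lit 588) (nat_lit 620) (nat_lit 5612) (.f (nat_lit 556) (nat_lit 461) (nat_lit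 5580) (.f (nat_lit 492) (nat_lit 460) (nat_lit 7628) (.f (nat_lit 524) (nat_lit 621) (nat_lit 4588) (.f (nat_lit 555) (nat_lit 554) (nat_lit 554) (.f (nat_lit 587) (nat_lit 619) (nat_lit 5611) (.f (nat_lit 491) (nat_lit 459) (nat_lit 7627) (.f (nat_lit 490) (nat_lit 489) (nat_lit 489) (.d (nat_lit 458) (nat_lit 457) (nat_lit 3529) (nat_lit 523) (nat_lit 7626))))))))))) (.a (.f (nat_lit 526) (nat_lit 527) (nat_lit 525) (.d (nat_lit 558) (nat_lit 461) (nat_lit 4557) (nat_lit 622) (nat_lit 7661))) (.f (nat_lit 461) (nat_lit 558) (nat_lit 4557) (.f (nat_lit 556) (nat_lit 588) (nat_lit 5580) (.f (nat_lit 429) (nat_lit 524) (nat_lit 5548) (.d (nat_lit 430) (nat_lit 398) (nat_lit 6541) (nat_lit 462) (nat_lit 6573)))))))))) (.a (.p (nat_lit 590) (.a (.f (nat_lit 526) (nat_lit 527) (nat_lit 525) (.d (nat_lit 622) (nat_lit 558) (nat_lit 7661) (nat_lit 589) (nat_lit 4589))) (.a (.f (nat_lit 461) (nat_lit 558) (nat_lit 4557)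 (.f (nat_lit 589) (nat_lit 622) (nat_lit 4589) (.d (nat_lit 588) (nat_lit 556) (nat_lit 5580) (nat_lit 620) (nat_lit 5612)))) (.a (.f (nat_lit 589) (nat_lit 622) (nat_lit 4589) (.f (nat_lit 588) (nat_lit 620) (nat_lit 5612) (.f (nat_lit 556) (nat_lit 461) (nat_lit 5580) (.f (nat_lit 492) (nat_lit 460) (nat_lit 7628) (.f (nat_lit 524) (nat_lit 621) (nat_lit 4588) (.f (nat_lit 555) (nat_lit 554) (nat_lit 554) (.f (nat_lit 587) (nat_lit 619) (nat_lit 5611) (.f (nat_lit 491) (nat_lit 459) (nat_lit 7627) (.f (nat_lit 490) (nat_lit 489) (nat_lit 489) (.d (nat_lit 458) (nat_lit 457) (nat_lit 3529) (nat_lit 523) (nat_lit 7626))))))))))) (.a (.f (nat_lit 526) (nat_lit 527) (nat_lit 525) (.d (nat_lit 558) (nat_lit 461) (nat_lit 4557) (nat_lit 622) (nat_lit 7661))) (.f (nat_lit 461) (nat_lit 558) (nat_lit 4557) (.f (nat_lit 556) (nat_lit 588) (nat_lit 5580) (.f (nat_lit 429) (nat_lit 524) (nat_lit 5548) (.d (nat_lit 428) (nat_lit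 396) (nat_lit 7564) (nat_lit 460) (nat_lit 7596)))))))))) (.a s101626 (.a (.p (nat_lit 462) (.a (.f (nat_lit 461) (nat_lit 430) (nat_lit 6573) (.f (nat_lit 589) (nat_lit 494) (nat_lit 6605) (.d (nat_lit 588) (nat_lit 556) (nat_lit 5580) (nat_lit 620) (nat_lit 5612)))) (.a (.f (nat_lit 461) (nat_lit 430) (nat_lit 6573) (.f (nat_lit 460) (nat_lit 428) (nat_lit 7596) (.f (nat_lit 492) (nat_lit 589) (nat_lit 7628) (.f (nat_lit 556) (nat_lit 588) (nat_lit 5580) (.f (nat_lit 524) (nat_lit 429) (nat_lit 5548) (.f (nat_lit 459) (nat_lit 427) (nat_lit 7595) (.f (nat_lit 490) (nat_lit 491) (nat_lit 1482) (.d (nat_lit 458) (nat_lit 457) (nat_lit 457) (nat_lit 489) (nat_lit 1481))))))))) (.a (.f (nat_lit 526) (nat_lit 527) (nat_lit 525) (.d (nat_lit 494) (nat_lit 430) (nat_lit 5549) (nat_lit 589) (nat_lit 6605))) (.a (.f (nat_lit 461) (nat_lit 430) (nat_lit 6573) (.f (nat_lit 428) (nat_lit 460) (nat_lit 7596) (.f (nat_lit 429)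 (nat_lit 396) (nat_lit 7564) (.d (nat_lit 556) (nat_lit 524) (nat_lit 5548) (nat_lit 588) (nat_lit 5580))))) (.f (nat_lit 589) (nat_lit 494) (nat_lit 6605) (.f (nat_lit 492) (nat_lit 460) (nat_lit 7628) (.f (nat_lit 621) (nat_lit 524) (nat_lit 7660) (.d (nat_lit 620) (nat_lit 588) (nat_lit 5612) (nat_lit 652) (nat_lit 5644)))))))))) (.a (.p (nat_lit 461) (.a (.f (nat_lit 526) (nat_lit 527) (nat_lit 525) (.d (nat_lit 558) (nat_lit 429) (nat_lit 4525) (nat_lit 590) (nat_lit 4557))) (.a (.f (nat_lit 558) (nat_lit 590) (nat_lit 4557) (.f (nat_lit 429) (nat_lit 526) (nat_lit 4525) (.d (nat_lit 556) (nat_lit 524) (nat_lit 5548) (nat_lit 588) (nat_lit 5580)))) (.a (.f (nat_lit 428) (nat_lit 460) (nat_lit 7596) (.f (nat_lit 429) (nat_lit 396) (nat_lit 7564) (.d (nat_lit 430) (nat_lit 398) (nat_lit 6541) (nat_lit 462) (nat_lit 6573)))) (.f (nat_lit 526) (nat_lit 527) (nat_lit 525) (.f (nat_lit 558) (nat_lit 590) (nat_lit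 4557) (.f (nat_lit 556) (nat_lit 588) (nat_lit 5580) (.f (nat_lit 555) (nat_lit 554) (nat_lit 2570) (.f (nat_lit 523) (nat_lit 522) (nat_lit 3594) (.f (nat_lit 587) (nat_lit 586) (nat_lit 1578) (.f (nat_lit 460) (nat_lit 428) (nat_lit 7596) (.d (nat_lit 492) (nat_lit 491) (nat_lit 6603) (nat_lit 524) (nat_lit 5579))))))))))))) (.a (.p (nat_lit 462) (.a (.f (nat_lit 461) (nat_lit 430) (nat_lit 6573) (.f (nat_lit 589) (nat_lit 494) (nat_lit 6605) (.d (nat_lit 588) (nat_lit 556) (nat_lit 5580) (nat_lit 620) (nat_lit 5612)))) (.a (.f (nat_lit 461) (nat_lit 430) (nat_lit 6573) (.f (nat_lit 526) (nat_lit 527) (nat_lit 525) (.d (nat_lit 558) (nat_lit 429) (nat_lit 4525) (nat_lit 590) (nat_lit 4557)))) (.f (nat_lit 589) (nat_lit 494) (nat_lit 6605) (.f (nat_lit 620) (nat_lit 588) (nat_lit 5612) (.f (nat_lit 621) (nat_lit 652) (nat_lit 5644) (.d (nat_lit 622) (nat_lit 590) (nat_lit 4589) (nat_lit 654) (nat_lit 4621))))))))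 (.a (.p (nat_lit 462) (.a (.f (nat_lit 589) (nat_lit 494) (nat_lit 6605) (.f (nat_lit 620) (nat_lit 588) (nat_lit 5612) (.f (nat_lit 621) (nat_lit 652) (nat_lit 5644) (.d (nat_lit 622) (nat_lit 590) (nat_lit 4589) (nat_lit 654) (nat_lit 4621))))) (.a (.f (nat_lit 461) (nat_lit 430) (nat_lit 6573) (.f (nat_lit 526) (nat_lit 527) (nat_lit 525) (.d (nat_lit 558) (nat_lit 429) (nat_lit 4525) (nat_lit 590) (nat_lit 4557)))) (.f (nat_lit 526) (nat_lit 527) (nat_lit 525) (.d (nat_lit 430) (nat_lit 461) (nat_lit 6573) (nat_lit 494) (nat_lit 5549)))))) (.p (nat_lit 462) (.a (.f (nat_lit 461) (nat_lit 430) (nat_lit 6573) (.f (nat_lit 589) (nat_lit 494) (nat_lit 6605) (.d (nat_lit 590) (nat_lit 558) (nat_lit 4557) (nat_lit 622) (nat_lit 4589)))) (.a (.f (nat_lit 526) (nat_lit 527) (nat_lit 525) (.d (nat_lit 430) (nat_lit 461) (nat_lit 6573) (nat_lit 494) (nat_lit 5549))) (.a (.f (nat_lit 461) (nat_lit 430) (nat_lit 6573) (.f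 (nat_lit 526) (nat_lit 527) (nat_lit 525) (.d (nat_lit 558) (nat_lit 429) (nat_lit 4525) (nat_lit 590) (nat_lit 4557)))) (.a (.f (nat_lit 526) (nat_lit 527) (nat_lit 525) (.d (nat_lit 494) (nat_lit 430) (nat_lit 5549) (nat_lit 589) (nat_lit 6605))) (.f (nat_lit 589) (nat_lit 494) (nat_lit 6605) (.f (nat_lit 492) (nat_lit 460) (nat_lit 7628) (.f (nat_lit 621) (nat_lit 524) (nat_lit 7660) (.d (nat_lit 622) (nat_lit 590) (nat_lit 4589) (nat_lit 654) (nat_lit 4621))))))))))))))))))))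
noncomputable def s101664 : Cert := .r (nat_lit 11793632578555847589043826141711065577053838730825406072360261576246181478822731381896275636939038292848367702557638076901405249536169743357537527332672525561719980818432) (.p (nat_lit 461) (.a (.f (nat_lit 428) (nat_lit 460) (nat_lit 7596) (.f (nat_lit 429) (nat_lit 396) (nat_lit 7564) (.d (nat_lit 430) (nat_lit 398) (nat_lit 6541) (nat_lit 462) (nat_lit 6573)))) (.a (.f (nat_lit 556) (nat_lit 588) (nat_lit 5580) (.f (nat_lit 429) (nat_lit 524) (nat_lit 5548) (.d (nat_lit 428) (nat_lit 396) (nat_lit 7564) (nat_lit 460) (nat_lit 7596)))) (.a (.f (nat_lit 556) (nat_lit 588) (nat_lit 5580) (.f (nat_lit 429) (nat_lit 524) (nat_lit 5548) (.d (nat_lit 430) (nat_lit 398) (nat_lit 6541) (nat_lit 462) (nat_lit 6573)))) (.f (nat_lit 462) (nat_lit 430) (nat_lit 6573) (.d (nat_lit 463) (nat_lit 492) (nat_lit 1484) (nat_lit 497) (nat_lit 461)))))))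
noncomputable def s101666 : Cert := .r (nat_lit 11793632578555847589043826141711065577053838730825406072360261576246181478822731381896275636939038292848367702557638076901405249536169743357537527332672525561719980818432) (.p (nat_lit 462) (.a (.f (nat_lit 461) (nat_lit 430) (nat_lit 6573) (.f (nat_lit 589) (nat_lit 494) (nat_lit 6605) (.d (nat_lit 588) (nat_lit 556) (nat_lit 5580) (nat_lit 620) (nat_lit 5612)))) (.a (.f (nat_lit 461) (nat_lit 430) (nat_lit 6573) (.f (nat_lit 428) (nat_lit 460) (nat_lit 7596) (.f (nat_lit 429) (nat_lit 396) (nat_lit 7564) (.d (nat_lit 556) (nat_lit 524) (nat_lit 5548) (nat_lit 588) (nat_lit 5580))))) (.a (.f (nat_lit 589) (nat_lit 494) (nat_lit 6605) (.f (nat_lit 620) (nat_lit 588) (nat_lit 5612) (.f (nat_lit 621) (nat_lit 652) (nat_lit 5644) (.d (nat_lit 622) (nat_lit 590) (nat_lit 4589) (nat_lit 654) (nat_lit 4621))))) (.f (nat_lit 526) (nat_lit 527) (nat_lit 525) (.d (nat_lit 430)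 (nat_lit 461) (nat_lit 6573) (nat_lit 494) (nat_lit 5549)))))))
noncomputable def s101798 : Cert := .r (nat_lit 11793632578555847589018252777586876968694360686318940453983569060261470035154893168083024591654626772888342154961341950673663947316423180302778017515907795928490851696640) (.p (nat_lit 493) (.a s101376 (.a s101381 (.a s101406 (.a s101437 (.a (.p (nat_lit 461) (.a (.f (nat_lit 428) (nat_lit 460) (nat_lit 7596) (.f (nat_lit 429) (nat_lit 396) (nat_lit 7564) (.d (nat_lit 430) (nat_lit 398) (nat_lit 6541) (nat_lit 462) (nat_lit 6573)))) (.a (.f (nat_lit 460) (nat_lit 428) (nat_lit 7596) (.f (nat_lit 589) (nat_lit 492) (nat_lit 7628) (.d (nat_lit 588) (nat_lit 556) (nat_lit 5580) (nat_lit 620) (nat_lit 5612)))) (.f (nat_lit 556) (nat_lit 588) (nat_lit 5580) (.f (nat_lit 429) (nat_lit 524) (nat_lit 5548) (.d (nat_lit 430) (nat_lit 398) (nat_lit 6541) (nat_lit 462) (nat_lit 6573))))))) (.a (.p (nat_lit 558) (.a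 (.f (nat_lit 461) (nat_lit 590) (nat_lit 4557) (.f (nat_lit 524) (nat_lit 559) (nat_lit 3596) (.d (nat_lit 556) (nat_lit 429) (nat_lit 5548) (nat_lit 588) (nat_lit 5580)))) (.a (.f (nat_lit 461) (nat_lit 590) (nat_lit 4557) (.f (nat_lit 556) (nat_lit 588) (nat_lit 5580) (.f (nat_lit 429) (nat_lit 524) (nat_lit 5548) (.d (nat_lit 430) (nat_lit 398) (nat_lit 6541) (nat_lit 462) (nat_lit 6573))))) (.a (.f (nat_lit 559) (nat_lit 524) (nat_lit 3596) (.d (nat_lit 527) (nat_lit 432) (nat_lit 5551) (nat_lit 556) (nat_lit 2572))) (.f (nat_lit 461) (nat_lit 590) (nat_lit 4557) (.f (nat_lit 428) (nat_lit 460) (nat_lit 7596) (.f (nat_lit 429) (nat_lit 396) (nat_lit 7564) (.d (nat_lit 430) (nat_lit 398) (nat_lit 6541) (nat_lit 462) (nat_lit 6573))))))))) (.a (.p (nat_lit 461) (.a (.f (nat_lit 428) (nat_lit 460) (nat_lit 7596) (.f (nat_lit 429) (nat_lit 396) (nat_lit 7564) (.d (nat_lit 430) (nat_lit 398) (nat_lit 6541) (nat_lit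 462) (nat_lit 6573)))) (.a (.f (nat_lit 460) (nat_lit 428) (nat_lit 7596) (.f (nat_lit 589) (nat_lit 492) (nat_lit 7628) (.d (nat_lit 588) (nat_lit 556) (nat_lit 5580) (nat_lit 620) (nat_lit 5612)))) (.f (nat_lit 462) (nat_lit 430) (nat_lit 6573) (.f (nat_lit 589) (nat_lit 494) (nat_lit 6605) (.d (nat_lit 588) (nat_lit 556) (nat_lit 5580) (nat_lit 620) (nat_lit 5612))))))) (.a (.p (nat_lit 558) (.a (.f (nat_lit 461) (nat_lit 590) (nat_lit 4557) (.f (nat_lit 460) (nat_lit 428) (nat_lit 7596) (.f (nat_lit 589) (nat_lit 492) (nat_lit 7628) (.d (nat_lit 462) (nat_lit 430) (nat_lit 6573) (nat_lit 494) (nat_lit 6605))))) (.a (.f (nat_lit 559) (nat_lit 524) (nat_lit 3596) (.d (nat_lit 589) (nat_lit 588) (nat_lit 1580) (nat_lit 590) (nat_lit 1581))) (.a (.f (nat_lit 559) (nat_lit 524) (nat_lit 3596) (.f (nat_lit 589) (nat_lit 588) (nat_lit 1580) (.f (nat_lit 460) (nat_lit 492) (nat_lit 7628) (.f (nat_lit 461) (nat_lit 428)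 (nat_lit 7596) (.d (nat_lit 462) (nat_lit 430) (nat_lit 6573) (nat_lit 494) (nat_lit 6605)))))) (.f (nat_lit 461) (nat_lit 590) (nat_lit 4557) (.f (nat_lit 428) (nat_lit 460) (nat_lit 7596) (.f (nat_lit 429) (nat_lit 396) (nat_lit 7564) (.d (nat_lit 430) (nat_lit 398) (nat_lit 6541) (nat_lit 462) (nat_lit 6573))))))))) (.a s101468 (.p (nat_lit 558) (.a (.f (nat_lit 461) (nat_lit 590) (nat_lit 4557) (.f (nat_lit 460) (nat_lit 428) (nat_lit 7596) (.f (nat_lit 589) (nat_lit 492) (nat_lit 7628) (.d (nat_lit 462) (nat_lit 430) (nat_lit 6573) (nat_lit 494) (nat_lit 6605))))) (.f (nat_lit 559) (nat_lit 524) (nat_lit 3596) (.d (nat_lit 527) (nat_lit 432) (nat_lit 5551) (nat_lit 556) (nat_lit 2572)))))))))))))))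
noncomputable def s102049 : Cert := .r (nat_lit 11321887275343318157425968699475998841909006349111533950560502121017055359294901794239288512479956096309275688899754472379351721476498496799724111696425400818043946270720) (.p (nat_lit 464) (.a (.f (nat_lit 465) (nat_lit 433) (nat_lit 6576) (.f (nat_lit 463) (nat_lit 431) (nat_lit 7599) (.f (nat_lit 497) (nat_lit 592) (nat_lit 6608) (.d (nat_lit 462) (nat_lit 461) (nat_lit 461) (nat_lit 498) (nat_lit 462))))) (.a (.f (nat_lit 433) (nat_lit 465) (nat_lit 6576) (.f (nat_lit 432) (nat_lit 401) (nat_lit 6544) (.d (nat_lit 431) (nat_lit 399) (nat_lit 7567) (nat_lit 463) (nat_lit 7599)))) (.a (.p (nat_lit 562) (.a (.f (nat_lit 527) (nat_lit 563) (nat_lit 3599) (.d (nat_lit 526) (nat_lit 525) (nat_lit 525) (nat_lit 559) (nat_lit 3598))) (.a (.p (nat_lit 594) (.a (.f (nat_lit 595) (nat_lit 559) (nat_lit 559) (.d (nat_lit 596) (nat_lit 563) (nat_lit 560) (nat_lit 597) (nat_lit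 3633))) (.a (.f (nat_lit 465) (nat_lit 433) (nat_lit 6576) (.f (nat_lit 497) (nat_lit 592) (nat_lit 6608) (.f (nat_lit 498) (nat_lit 530) (nat_lit 7633) (.f (nat_lit 499) (nat_lit 500) (nat_lit 3536) (.f (nat_lit 531) (nat_lit 532) (nat_lit 496) (.d (nat_lit 467) (nat_lit 468) (nat_lit 2512) (nat_lit 563) (nat_lit 5586))))))) (.f (nat_lit 465) (nat_lit 433) (nat_lit 6576) (.f (nat_lit 497) (nat_lit 592) (nat_lit 6608) (.f (nat_lit 530) (nat_lit 498) (nat_lit 7633) (.d (nat_lit 559) (nat_lit 531) (nat_lit 2575) (nat_lit 595) (nat_lit 559)))))))) (.a (.f (nat_lit 563) (nat_lit 527) (nat_lit 3599) (.f (nat_lit 596) (nat_lit 595) (nat_lit 560) (.f (nat_lit 564) (nat_lit 597) (nat_lit 561) (.d (nat_lit 532) (nat_lit 531) (nat_lit 2576) (nat_lit 533) (nat_lit 2577))))) (.p (nat_lit 594) (.a (.f (nat_lit 559) (nat_lit 595) (nat_lit 559) (.d (nat_lit 527) (nat_lit 432) (nat_lit 5551) (nat_lit 526) (nat_lit 3598))) (.a (.f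 (nat_lit 465) (nat_lit 433) (nat_lit 6576) (.f (nat_lit 497) (nat_lit 592) (nat_lit 6608) (.f (nat_lit 530) (nat_lit 498) (nat_lit 7633) (.d (nat_lit 559) (nat_lit 531) (nat_lit 2575) (nat_lit 595) (nat_lit 559))))) (.f (nat_lit 465) (nat_lit 433) (nat_lit 6576) (.f (nat_lit 497) (nat_lit 592) (nat_lit 6608) (.f (nat_lit 498) (nat_lit 530) (nat_lit 7633) (.d (nat_lit 499) (nat_lit 500) (nat_lit 3536) (nat_lit 527) (nat_lit 1519)))))))))))) (.a (.p (nat_lit 525) (.a (.f (nat_lit 527) (nat_lit 526) (nat_lit 525) (.f (nat_lit 432) (nat_lit 559) (nat_lit 5551) (.d (nat_lit 431) (nat_lit 399) (nat_lit 7567) (nat_lit 463) (nat_lit 7599)))) (.a (.p (nat_lit 558) (.a (.f (nat_lit 559) (nat_lit 526) (nat_lit 3597) (.f (nat_lit 557) (nat_lit 524) (nat_lit 3596) (.d (nat_lit 589) (nat_lit 588) (nat_lit 1580) (nat_lit 590) (nat_lit 1581)))) (.a (.p (nat_lit 461) (.a (.f (nat_lit 463) (nat_lit 431) (nat_lit 7599) (.f (nat_lit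 462) (nat_lit 497) (nat_lit 461) (.f (nat_lit 493) (nat_lit 492) (nat_lit 1484) (.d (nat_lit 429) (nat_lit 428) (nat_lit 3500) (nat_lit 526) (nat_lit 4525))))) (.a s101160 (.a (.f (nat_lit 463) (nat_lit 431) (nat_lit 7599) (.f (nat_lit 462) (nat_lit 497) (nat_lit 461) (.f (nat_lit 493) (nat_lit 492) (nat_lit 1484) (.d (nat_lit 557) (nat_lit 430) (nat_lit 6573) (nat_lit 590) (nat_lit 4557))))) (.a (.f (nat_lit 431) (nat_lit 463) (nat_lit 7599) (.f (nat_lit 432) (nat_lit 399) (nat_lit 7567) (.f (nat_lit 401) (nat_lit 433) (nat_lit 6544) (.f (nat_lit 400) (nat_lit 369) (nat_lit 6512) (.f (nat_lit 429) (nat_lit 430) (nat_lit 2445) (.f (nat_lit 493) (nat_lit 526) (nat_lit 4525) (.f (nat_lit 557) (nat_lit 590) (nat_lit 4557) (.d (nat_lit 556) (nat_lit 524) (nat_lit 5548) (nat_lit 588) (nat_lit 5580))))))))) (.f (nat_lit 431) (nat_lit 463) (nat_lit 7599) (.f (nat_lit 432) (nat_lit 399) (nat_lit 7567) (.f (nat_lit 433) (nat_lit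 401) (nat_lit 6544) (.f (nat_lit 430) (nat_lit 462) (nat_lit 1453) (.f (nat_lit 429) (nat_lit 460) (nat_lit 1452) (.d (nat_lit 397) (nat_lit 396) (nat_lit 3468) (nat_lit 398) (nat_lit 3469)))))))))))) (.a (.p (nat_lit 557) (.a (.f (nat_lit 559) (nat_lit 524) (nat_lit 3596) (.d (nat_lit 589) (nat_lit 588) (nat_lit 1580) (nat_lit 590) (nat_lit 1581))) (.a (.p (nat_lit 461) (.a (.f (nat_lit 493) (nat_lit 590) (nat_lit 4557) (.f (nat_lit 462) (nat_lit 430) (nat_lit 6573) (.d (nat_lit 463) (nat_lit 431) (nat_lit 7599) (nat_lit 492) (nat_lit 1484)))) (.a (.f (nat_lit 493) (nat_lit 590) (nat_lit 4557) (.f (nat_lit 556) (nat_lit 588) (nat_lit 5580) (.f (nat_lit 524) (nat_lit 429) (nat_lit 5548) (.f (nat_lit 460) (nat_lit 428) (nat_lit 7596) (.f (nat_lit 492) (nat_lit 589) (nat_lit 4556) (.f (nat_lit 459) (nat_lit 427) (nat_lit 7595) (.d (nat_lit 458) (nat_lit 457) (nat_lit 457) (nat_lit 494) (nat_lit 458)))))))) (.a (.f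 (nat_lit 463) (nat_lit 431) (nat_lit 7599) (.f (nat_lit 462) (nat_lit 497) (nat_lit 461) (.f (nat_lit 428) (nat_lit 429) (nat_lit 3500) (.f (nat_lit 460) (nat_lit 427) (nat_lit 3499) (.d (nat_lit 492) (nat_lit 491) (nat_lit 1483) (nat_lit 524) (nat_lit 4524)))))) (.f (nat_lit 493) (nat_lit 590) (nat_lit 4557) (.f (nat_lit 462) (nat_lit 430) (nat_lit 6573) (.d (nat_lit 463) (nat_lit 431) (nat_lit 7599) (nat_lit 497) (nat_lit 461)))))))) (.a (.f (nat_lit 559) (nat_lit 524) (nat_lit 3596) (.f (nat_lit 588) (nat_lit 589) (nat_lit 1580) (.f (nat_lit 556) (nat_lit 587) (nat_lit 1579) (.f (nat_lit 431) (nat_lit 463) (nat_lit 7599) (.f (nat_lit 432) (nat_lit 399) (nat_lit 7567) (.f (nat_lit 433) (nat_lit 401) (nat_lit 6544) (.f (nat_lit 461) (nat_lit 493) (nat_lit 5580) (.f (nat_lit 430) (nat_lit 462) (nat_lit 1453) (.f (nat_lit 429) (nat_lit 460) (nat_lit 1452) (.d (nat_lit 397) (nat_lit 396) (nat_lit 3468) (nat_lit 398)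 (nat_lit 3469))))))))))) (.a s101203 (.a (.p (nat_lit 461) (.a (.f (nat_lit 493) (nat_lit 590) (nat_lit 4557) (.f (nat_lit 462) (nat_lit 430) (nat_lit 6573) (.d (nat_lit 463) (nat_lit 431) (nat_lit 7599) (nat_lit 492) (nat_lit 1484)))) (.a (.f (nat_lit 493) (nat_lit 590) (nat_lit 4557) (.f (nat_lit 588) (nat_lit 556) (nat_lit 5580) (.d (nat_lit 589) (nat_lit 559) (nat_lit 1580) (nat_lit 620) (nat_lit 5612)))) (.f (nat_lit 431) (nat_lit 463) (nat_lit 7599) (.f (nat_lit 432) (nat_lit 399) (nat_lit 7567) (.f (nat_lit 433) (nat_lit 401) (nat_lit 6544) (.f (nat_lit 430) (nat_lit 462) (nat_lit 1453) (.f (nat_lit 429) (nat_lit 460) (nat_lit 1452) (.d (nat_lit 397) (nat_lit 396) (nat_lit 3468) (nat_lit 398) (nat_lit 3469)))))))))) (.f (nat_lit 559) (nat_lit 524) (nat_lit 3596) (.f (nat_lit 590) (nat_lit 589) (nat_lit 1581) (.f (nat_lit 431) (nat_lit 463) (nat_lit 7599) (.f (nat_lit 432) (nat_lit 399) (nat_lit 7567) (.f (nat_lit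 433) (nat_lit 401) (nat_lit 6544) (.f (nat_lit 461) (nat_lit 493) (nat_lit 4557) (.f (nat_lit 430) (nat_lit 462) (nat_lit 1453) (.f (nat_lit 429) (nat_lit 460) (nat_lit 1452) (.d (nat_lit 397) (nat_lit 396) (nat_lit 3468) (nat_lit 398) (nat_lit 3469)))))))))))))))) (.a (.p (nat_lit 461) (.a (.f (nat_lit 463) (nat_lit 431) (nat_lit 7599) (.f (nat_lit 462) (nat_lit 497) (nat_lit 461) (.f (nat_lit 493) (nat_lit 492) (nat_lit 1484) (.d (nat_lit 429) (nat_lit 428) (nat_lit 3500) (nat_lit 526) (nat_lit 4525))))) (.a (.f (nat_lit 526) (nat_lit 559) (nat_lit 3597) (.f (nat_lit 493) (nat_lit 429) (nat_lit 4525) (.d (nat_lit 590) (nat_lit 494) (nat_lit 7629) (nat_lit 622) (nat_lit 7661)))) (.a (.f (nat_lit 431) (nat_lit 463) (nat_lit 7599) (.f (nat_lit 432) (nat_lit 399) (nat_lit 7567) (.f (nat_lit 433) (nat_lit 401) (nat_lit 6544) (.f (nat_lit 430) (nat_lit 462) (nat_lit 1453) (.f (nat_lit 429) (nat_lit 460) (nat_lit 1452)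 (.d (nat_lit 397) (nat_lit 396) (nat_lit 3468) (nat_lit 398) (nat_lit 3469))))))) (.f (nat_lit 463) (nat_lit 431) (nat_lit 7599) (.f (nat_lit 462) (nat_lit 497) (nat_lit 461) (.f (nat_lit 493) (nat_lit 492) (nat_lit 1484) (.f (nat_lit 526) (nat_lit 559) (nat_lit 3597) (.d (nat_lit 590) (nat_lit 494) (nat_lit 7629) (nat_lit 622) (nat_lit 7661)))))))))) (.f (nat_lit 559) (nat_lit 526) (nat_lit 3597) (.f (nat_lit 557) (nat_lit 524) (nat_lit 3596) (.f (nat_lit 588) (nat_lit 589) (nat_lit 1580) (.f (nat_lit 556) (nat_lit 587) (nat_lit 1579) (.f (nat_lit 431) (nat_lit 463) (nat_lit 7599) (.f (nat_lit 432) (nat_lit 399) (nat_lit 7567) (.f (nat_lit 433) (nat_lit 401) (nat_lit 6544) (.f (nat_lit 461) (nat_lit 493) (nat_lit 5580) (.f (nat_lit 430) (nat_lit 462) (nat_lit 1453) (.f (nat_lit 429) (nat_lit 460) (nat_lit 1452) (.d (nat_lit 397) (nat_lit 396) (nat_lit 3468) (nat_lit 398) (nat_lit 3469))))))))))))))))) (.a (.f (nat_lit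 527) (nat_lit 526) (nat_lit 525) (.f (nat_lit 432) (nat_lit 559) (nat_lit 5551) (.f (nat_lit 401) (nat_lit 433) (nat_lit 6544) (.f (nat_lit 400) (nat_lit 369) (nat_lit 6512) (.d (nat_lit 399) (nat_lit 367) (nat_lit 7535) (nat_lit 431) (nat_lit 7567)))))) (.a (.p (nat_lit 461) (.a (.f (nat_lit 463) (nat_lit 431) (nat_lit 7599) (.f (nat_lit 462) (nat_lit 497) (nat_lit 461) (.f (nat_lit 493) (nat_lit 492) (nat_lit 1484) (.f (nat_lit 429) (nat_lit 428) (nat_lit 3500) (.d (nat_lit 430) (nat_lit 398) (nat_lit 6541) (nat_lit 557) (nat_lit 6573)))))) (.a (.p (nat_lit 493) (.a (.p (nat_lit 557) (.a (.f (nat_lit 428) (nat_lit 460) (nat_lit 7596) (.f (nat_lit 429) (nat_lit 396) (nat_lit 7564) (.d (nat_lit 430) (nat_lit 398) (nat_lit 6541) (nat_lit 462) (nat_lit 6573)))) (.a (.f (nat_lit 460) (nat_lit 428) (nat_lit 7596) (.f (nat_lit 589) (nat_lit 492) (nat_lit 7628) (.d (nat_lit 588) (nat_lit 556) (nat_lit 5580) (nat_lit 620)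 (nat_lit 5612)))) (.f (nat_lit 556) (nat_lit 588) (nat_lit 5580) (.f (nat_lit 429) (nat_lit 524) (nat_lit 5548) (.d (nat_lit 430) (nat_lit 398) (nat_lit 6541) (nat_lit 462) (nat_lit 6573))))))) (.a (.f (nat_lit 526) (nat_lit 527) (nat_lit 525) (.f (nat_lit 429) (nat_lit 558) (nat_lit 4525) (.f (nat_lit 397) (nat_lit 494) (nat_lit 4493) (.d (nat_lit 524) (nat_lit 492) (nat_lit 5516) (nat_lit 556) (nat_lit 5548))))) (.a (.f (nat_lit 526) (nat_lit 527) (nat_lit 525) (.f (nat_lit 429) (nat_lit 558) (nat_lit 4525) (.f (nat_lit 397) (nat_lit 494) (nat_lit 4493) (.d (nat_lit 398) (nat_lit 366) (nat_lit 6509) (nat_lit 430) (nat_lit 6541))))) (.p (nat_lit 557) (.a (.f (nat_lit 526) (nat_lit 527) (nat_lit 525) (.f (nat_lit 558) (nat_lit 590) (nat_lit 4557) (.f (nat_lit 556) (nat_lit 588) (nat_lit 5580) (.f (nat_lit 555) (nat_lit 554) (nat_lit 2570) (.f (nat_lit 523) (nat_lit 522) (nat_lit 3594) (.f (nat_lit 587) (nat_lit 586)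 (nat_lit 1578) (.f (nat_lit 460) (nat_lit 428) (nat_lit 7596) (.d (nat_lit 492) (nat_lit 491) (nat_lit 6603) (nat_lit 524) (nat_lit 5579))))))))) (.a (.f (nat_lit 460) (nat_lit 428) (nat_lit 7596) (.f (nat_lit 589) (nat_lit 492) (nat_lit 7628) (.d (nat_lit 588) (nat_lit 556) (nat_lit 5580) (nat_lit 620) (nat_lit 5612)))) (.a (.f (nat_lit 460) (nat_lit 428) (nat_lit 7596) (.f (nat_lit 589) (nat_lit 492) (nat_lit 7628) (.d (nat_lit 590) (nat_lit 558) (nat_lit 4557) (nat_lit 622) (nat_lit 4589)))) (.f (nat_lit 526) (nat_lit 527) (nat_lit 525) (.f (nat_lit 558) (nat_lit 590) (nat_lit 4557) (.f (nat_lit 462) (nat_lit 430) (nat_lit 6573) (.f (nat_lit 589) (nat_lit 494) (nat_lit 5581) (.d (nat_lit 588) (nat_lit 556) (nat_lit 5580) (nat_lit 620) (nat_lit 5612)))))))))))))) (.a (.f (nat_lit 463) (nat_lit 431) (nat_lit 7599) (.f (nat_lit 462) (nat_lit 497) (nat_lit 461) (.f (nat_lit 493) (nat_lit 492) (nat_lit 1484) (.f (nat_lit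 429) (nat_lit 428) (nat_lit 3500) (.f (nat_lit 398) (nat_lit 430) (nat_lit 6541) (.f (nat_lit 397) (nat_lit 366) (nat_lit 6509) (.f (nat_lit 364) (nat_lit 396) (nat_lit 7532) (.d (nat_lit 365) (nat_lit 332) (nat_lit 7500) (nat_lit 494) (nat_lit 4461))))))))) (.a (.f (nat_lit 526) (nat_lit 527) (nat_lit 525) (.f (nat_lit 431) (nat_lit 463) (nat_lit 7599) (.f (nat_lit 432) (nat_lit 399) (nat_lit 7567) (.f (nat_lit 401) (nat_lit 433) (nat_lit 6544) (.f (nat_lit 400) (nat_lit 369) (nat_lit 6512) (.f (nat_lit 429) (nat_lit 430) (nat_lit 2445) (.f (nat_lit 493) (nat_lit 558) (nat_lit 4525) (.f (nat_lit 397) (nat_lit 494) (nat_lit 4493) (.d (nat_lit 524) (nat_lit 492) (nat_lit 5516) (nat_lit 556) (nat_lit 5548)))))))))) (.a (.f (nat_lit 431) (nat_lit 463) (nat_lit 7599) (.f (nat_lit 432) (nat_lit 399) (nat_lit 7567) (.f (nat_lit 433) (nat_lit 401) (nat_lit 6544) (.f (nat_lit 430) (nat_lit 462) (nat_lit 1453) (.f (nat_lit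 429) (nat_lit 460) (nat_lit 1452) (.d (nat_lit 397) (nat_lit 396) (nat_lit 3468) (nat_lit 398) (nat_lit 3469))))))) (.a (.f (nat_lit 463) (nat_lit 431) (nat_lit 7599) (.f (nat_lit 462) (nat_lit 497) (nat_lit 461) (.f (nat_lit 493) (nat_lit 492) (nat_lit 1484) (.f (nat_lit 428) (nat_lit 429) (nat_lit 3500) (.d (nat_lit 460) (nat_lit 427) (nat_lit 3499) (nat_lit 557) (nat_lit 7596)))))) (.f (nat_lit 463) (nat_lit 431) (nat_lit 7599) (.f (nat_lit 462) (nat_lit 497) (nat_lit 461) (.f (nat_lit 493) (nat_lit 492) (nat_lit 1484) (.f (nat_lit 557) (nat_lit 430) (nat_lit 6573) (.f (nat_lit 589) (nat_lit 494) (nat_lit 6605) (.d (nat_lit 588) (nat_lit 556) (nat_lit 5580) (nat_lit 620) (nat_lit 5612)))))))))))))) (.a (.p (nat_lit 557) (.a s101345 (.a (.p (nat_lit 559) (.a (.f (nat_lit 558) (nat_lit 524) (nat_lit 3596) (.d (nat_lit 527) (nat_lit 432) (nat_lit 5551) (nat_lit 556) (nat_lit 2572))) (.a (.f (nat_lit 558) (nat_lit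 524) (nat_lit 3596) (.d (nat_lit 589) (nat_lit 588) (nat_lit 1580) (nat_lit 590) (nat_lit 1581))) (.f (nat_lit 432) (nat_lit 527) (nat_lit 5551) (.f (nat_lit 401) (nat_lit 433) (nat_lit 6544) (.f (nat_lit 400) (nat_lit 369) (nat_lit 6512) (.d (nat_lit 399) (nat_lit 367) (nat_lit 7535) (nat_lit 431) (nat_lit 7567)))))))) (.a s101470 (.a s101488 (.a s101498 (.a (.f (nat_lit 431) (nat_lit 463) (nat_lit 7599) (.f (nat_lit 432) (nat_lit 399) (nat_lit 7567) (.f (nat_lit 559) (nat_lit 527) (nat_lit 5551) (.f (nat_lit 433) (nat_lit 401) (nat_lit 6544) (.f (nat_lit 558) (nat_lit 524) (nat_lit 3596) (.f (nat_lit 588) (nat_lit 589) (nat_lit 1580) (.f (nat_lit 556) (nat_lit 587) (nat_lit 1579) (.f (nat_lit 461) (nat_lit 493) (nat_lit 5580) (.f (nat_lit 430) (nat_lit 462) (nat_lit 1453) (.f (nat_lit 429) (nat_lit 460) (nat_lit 1452) (.d (nat_lit 397) (nat_lit 396) (nat_lit 3468) (nat_lit 398) (nat_lit 3469)))))))))))) (.a (.p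 (nat_lit 558) (.a s101203 (.a (.f (nat_lit 559) (nat_lit 524) (nat_lit 3596) (.d (nat_lit 527) (nat_lit 432) (nat_lit 5551) (nat_lit 556) (nat_lit 2572))) (.a (.p (nat_lit 461) (.a (.f (nat_lit 493) (nat_lit 590) (nat_lit 4557) (.f (nat_lit 462) (nat_lit 430) (nat_lit 6573) (.d (nat_lit 463) (nat_lit 431) (nat_lit 7599) (nat_lit 492) (nat_lit 1484)))) (.a (.f (nat_lit 493) (nat_lit 590) (nat_lit 4557) (.f (nat_lit 556) (nat_lit 588) (nat_lit 5580) (.f (nat_lit 429) (nat_lit 524) (nat_lit 5548) (.d (nat_lit 430) (nat_lit 398) (nat_lit 6541) (nat_lit 462) (nat_lit 6573))))) (.a (.f (nat_lit 493) (nat_lit 590) (nat_lit 4557) (.f (nat_lit 556) (nat_lit 588) (nat_lit 5580) (.f (nat_lit 429) (nat_lit 524) (nat_lit 5548) (.d (nat_lit 428) (nat_lit 396) (nat_lit 7564) (nat_lit 460) (nat_lit 7596))))) (.f (nat_lit 463) (nat_lit 431) (nat_lit 7599) (.f (nat_lit 462) (nat_lit 497) (nat_lit 461) (.f (nat_lit 428) (nat_lit 429)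 (nat_lit 3500) (.f (nat_lit 460) (nat_lit 427) (nat_lit 3499) (.d (nat_lit 492) (nat_lit 491) (nat_lit 1483) (nat_lit 524) (nat_lit 4524)))))))))) (.p (nat_lit 461) (.a (.f (nat_lit 493) (nat_lit 590) (nat_lit 4557) (.f (nat_lit 462) (nat_lit 430) (nat_lit 6573) (.d (nat_lit 463) (nat_lit 431) (nat_lit 7599) (nat_lit 492) (nat_lit 1484)))) (.a (.f (nat_lit 493) (nat_lit 590) (nat_lit 4557) (.f (nat_lit 428) (nat_lit 460) (nat_lit 7596) (.f (nat_lit 429) (nat_lit 396) (nat_lit 7564) (.d (nat_lit 430) (nat_lit 398) (nat_lit 6541) (nat_lit 462) (nat_lit 6573))))) (.a (.f (nat_lit 493) (nat_lit 590) (nat_lit 4557) (.f (nat_lit 428) (nat_lit 460) (nat_lit 7596) (.f (nat_lit 429) (nat_lit 396) (nat_lit 7564) (.f (nat_lit 431) (nat_lit 463) (nat_lit 7599) (.f (nat_lit 430) (nat_lit 398) (nat_lit 6541) (.d (nat_lit 399) (nat_lit 400) (nat_lit 2444) (nat_lit 432) (nat_lit 7567))))))) (.a (.f (nat_lit 431) (nat_lit 463) (nat_lit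 7599) (.f (nat_lit 432) (nat_lit 399) (nat_lit 7567) (.f (nat_lit 433) (nat_lit 401) (nat_lit 6544) (.f (nat_lit 430) (nat_lit 462) (nat_lit 1453) (.f (nat_lit 429) (nat_lit 460) (nat_lit 1452) (.d (nat_lit 397) (nat_lit 396) (nat_lit 3468) (nat_lit 398) (nat_lit 3469))))))) (.f (nat_lit 463) (nat_lit 431) (nat_lit 7599) (.f (nat_lit 462) (nat_lit 497) (nat_lit 461) (.d (nat_lit 493) (nat_lit 492) (nat_lit 1484) (nat_lit 590) (nat_lit 4557))))))))))))) (.a (.p (nat_lit 493) (.a (.f (nat_lit 431) (nat_lit 463) (nat_lit 7599) (.f (nat_lit 432) (nat_lit 399) (nat_lit 7567) (.f (nat_lit 401) (nat_lit 433) (nat_lit 6544) (.f (nat_lit 400) (nat_lit 369) (nat_lit 6512) (.f (nat_lit 430) (nat_lit 429) (nat_lit 2445) (.f (nat_lit 461) (nat_lit 462) (nat_lit 6573) (.f (nat_lit 460) (nat_lit 428) (nat_lit 7596) (.f (nat_lit 589) (nat_lit 492) (nat_lit 7628) (.d (nat_lit 588) (nat_lit 556) (nat_lit 5580) (nat_lit 620) (nat_lit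 5612)))))))))) (.a (.p (nat_lit 590) (.a (.f (nat_lit 461) (nat_lit 558) (nat_lit 4557) (.f (nat_lit 589) (nat_lit 622) (nat_lit 4589) (.d (nat_lit 588) (nat_lit 556) (nat_lit 5580) (nat_lit 620) (nat_lit 5612)))) (.a (.f (nat_lit 589) (nat_lit 622) (nat_lit 4589) (.f (nat_lit 588) (nat_lit 620) (nat_lit 5612) (.f (nat_lit 461) (nat_lit 556) (nat_lit 5580) (.d (nat_lit 462) (nat_lit 430) (nat_lit 6573) (nat_lit 494) (nat_lit 6605))))) (.a (.f (nat_lit 589) (nat_lit 622) (nat_lit 4589) (.f (nat_lit 559) (nat_lit 558) (nat_lit 1581) (.f (nat_lit 432) (nat_lit 527) (nat_lit 5551) (.f (nat_lit 399) (nat_lit 431) (nat_lit 7567) (.f (nat_lit 400) (nat_lit 367) (nat_lit 7535) (.d (nat_lit 401) (nat_lit 369) (nat_lit 6512) (nat_lit 433) (nat_lit 6544))))))) (.f (nat_lit 461) (nat_lit 558) (nat_lit 4557) (.f (nat_lit 430) (nat_lit 462) (nat_lit 6573) (.f (nat_lit 429) (nat_lit 398) (nat_lit 6541) (.d (nat_lit 428) (nat_lit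 396) (nat_lit 7564) (nat_lit 460) (nat_lit 7596))))))))) (.a (.p (nat_lit 462) (.a (.f (nat_lit 461) (nat_lit 430) (nat_lit 6573) (.f (nat_lit 589) (nat_lit 494) (nat_lit 6605) (.d (nat_lit 588) (nat_lit 556) (nat_lit 5580) (nat_lit 620) (nat_lit 5612)))) (.a (.f (nat_lit 461) (nat_lit 430) (nat_lit 6573) (.d (nat_lit 463) (nat_lit 492) (nat_lit 1484) (nat_lit 497) (nat_lit 461))) (.f (nat_lit 589) (nat_lit 494) (nat_lit 6605) (.f (nat_lit 620) (nat_lit 588) (nat_lit 5612) (.f (nat_lit 621) (nat_lit 652) (nat_lit 5644) (.d (nat_lit 622) (nat_lit 590) (nat_lit 4589) (nat_lit 654) (nat_lit 4621)))))))) (.a s101560 (.a s101569 (.p (nat_lit 461) (.a (.f (nat_lit 428) (nat_lit 460) (nat_lit 7596) (.f (nat_lit 429) (nat_lit 396) (nat_lit 7564) (.d (nat_lit 430) (nat_lit 398) (nat_lit 6541) (nat_lit 462) (nat_lit 6573)))) (.a (.f (nat_lit 428) (nat_lit 460) (nat_lit 7596) (.f (nat_lit 429) (nat_lit 396) (nat_lit 7564) (.f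 (nat_lit 431) (nat_lit 463) (nat_lit 7599) (.f (nat_lit 432) (nat_lit 399) (nat_lit 7567) (.f (nat_lit 401) (nat_lit 433) (nat_lit 6544) (.d (nat_lit 430) (nat_lit 398) (nat_lit 6541) (nat_lit 400) (nat_lit 2445))))))) (.f (nat_lit 463) (nat_lit 431) (nat_lit 7599) (.d (nat_lit 462) (nat_lit 492) (nat_lit 1484) (nat_lit 497) (nat_lit 461)))))))))))) (.a (.f (nat_lit 431) (nat_lit 463) (nat_lit 7599) (.f (nat_lit 432) (nat_lit 399) (nat_lit 7567) (.f (nat_lit 559) (nat_lit 527) (nat_lit 5551) (.f (nat_lit 558) (nat_lit 524) (nat_lit 3596) (.d (nat_lit 589) (nat_lit 588) (nat_lit 1580) (nat_lit 590) (nat_lit 1581)))))) (.f (nat_lit 431) (nat_lit 463) (nat_lit 7599) (.f (nat_lit 432) (nat_lit 399) (nat_lit 7567) (.f (nat_lit 559) (nat_lit 527) (nat_lit 5551) (.f (nat_lit 558) (nat_lit 524) (nat_lit 3596) (.f (nat_lit 590) (nat_lit 589) (nat_lit 1581) (.f (nat_lit 433) (nat_lit 401) (nat_lit 6544) (.f (nat_lit 461) (nat_lit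 493) (nat_lit 4557) (.f (nat_lit 430) (nat_lit 462) (nat_lit 1453) (.f (nat_lit 429) (nat_lit 460) (nat_lit 1452) (.d (nat_lit 397) (nat_lit 396) (nat_lit 3468) (nat_lit 398) (nat_lit 3469))))))))))))))))))))) (.a (.p (nat_lit 557) (.a (.f (nat_lit 527) (nat_lit 526) (nat_lit 525) (.f (nat_lit 559) (nat_lit 432) (nat_lit 5551) (.d (nat_lit 558) (nat_lit 524) (nat_lit 3596) (nat_lit 556) (nat_lit 2572)))) (.a s101599 (.a s101640 (.a s101470 (.a (.p (nat_lit 493) (.a s101602 (.a s101381 (.a (.p (nat_lit 461) (.a (.f (nat_lit 428) (nat_lit 460) (nat_lit 7596) (.f (nat_lit 429) (nat_lit 396) (nat_lit 7564) (.d (nat_lit 430) (nat_lit 398) (nat_lit 6541) (nat_lit 462) (nat_lit 6573)))) (.a (.f (nat_lit 460) (nat_lit 428) (nat_lit 7596) (.f (nat_lit 589) (nat_lit 492) (nat_lit 7628) (.d (nat_lit 588) (nat_lit 556) (nat_lit 5580) (nat_lit 620) (nat_lit 5612)))) (.f (nat_lit 556) (nat_lit 588) (nat_lit 5580) (.f (nat_lit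 429) (nat_lit 524) (nat_lit 5548) (.d (nat_lit 430) (nat_lit 398) (nat_lit 6541) (nat_lit 462) (nat_lit 6573))))))) (.a (.p (nat_lit 461) (.a (.f (nat_lit 460) (nat_lit 428) (nat_lit 7596) (.f (nat_lit 589) (nat_lit 492) (nat_lit 7628) (.d (nat_lit 588) (nat_lit 556) (nat_lit 5580) (nat_lit 620) (nat_lit 5612)))) (.a (.f (nat_lit 556) (nat_lit 588) (nat_lit 5580) (.f (nat_lit 429) (nat_lit 524) (nat_lit 5548) (.d (nat_lit 428) (nat_lit 396) (nat_lit 7564) (nat_lit 460) (nat_lit 7596)))) (.a (.f (nat_lit 460) (nat_lit 428) (nat_lit 7596) (.f (nat_lit 589) (nat_lit 492) (nat_lit 7628) (.f (nat_lit 620) (nat_lit 588) (nat_lit 5612) (.f (nat_lit 621) (nat_lit 652) (nat_lit 5644) (.d (nat_lit 622) (nat_lit 590) (nat_lit 4589) (nat_lit 654) (nat_lit 4621)))))) (.a (.f (nat_lit 556) (nat_lit 588) (nat_lit 5580) (.f (nat_lit 429) (nat_lit 524) (nat_lit 5548) (.f (nat_lit 396) (nat_lit 428) (nat_lit 7564) (.f (nat_lit 397)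 (nat_lit 364) (nat_lit 7532) (.d (nat_lit 398) (nat_lit 366) (nat_lit 6509) (nat_lit 430) (nat_lit 6541)))))) (.a (.f (nat_lit 428) (nat_lit 460) (nat_lit 7596) (.f (nat_lit 429) (nat_lit 396) (nat_lit 7564) (.f (nat_lit 398) (nat_lit 430) (nat_lit 6541) (.f (nat_lit 397) (nat_lit 366) (nat_lit 6509) (.d (nat_lit 524) (nat_lit 492) (nat_lit 5516) (nat_lit 556) (nat_lit 5548)))))) (.f (nat_lit 527) (nat_lit 526) (nat_lit 525) (.f (nat_lit 556) (nat_lit 588) (nat_lit 5580) (.f (nat_lit 429) (nat_lit 524) (nat_lit 5548) (.f (nat_lit 432) (nat_lit 559) (nat_lit 5551) (.f (nat_lit 398) (nat_lit 430) (nat_lit 6541) (.f (nat_lit 397) (nat_lit 366) (nat_lit 6509) (.f (nat_lit 364) (nat_lit 396) (nat_lit 7532) (.f (nat_lit 365) (nat_lit 332) (nat_lit 7500) (.f (nat_lit 400) (nat_lit 399) (nat_lit 3436) (.d (nat_lit 401) (nat_lit 369) (nat_lit 6512) (nat_lit 433) (nat_lit 6544))))))))))))))))) (.a s101626 (.a s101664 (.a (.p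 (nat_lit 462) (.a (.f (nat_lit 461) (nat_lit 430) (nat_lit 6573) (.f (nat_lit 589) (nat_lit 494) (nat_lit 6605) (.d (nat_lit 588) (nat_lit 556) (nat_lit 5580) (nat_lit 620) (nat_lit 5612)))) (.a (.f (nat_lit 461) (nat_lit 430) (nat_lit 6573) (.d (nat_lit 463) (nat_lit 492) (nat_lit 1484) (nat_lit 497) (nat_lit 461))) (.f (nat_lit 589) (nat_lit 494) (nat_lit 6605) (.f (nat_lit 620) (nat_lit 588) (nat_lit 5612) (.f (nat_lit 621) (nat_lit 652) (nat_lit 5644) (.d (nat_lit 622) (nat_lit 590) (nat_lit 4589) (nat_lit 654) (nat_lit 4621)))))))) (.a (.p (nat_lit 462) (.a (.f (nat_lit 589) (nat_lit 494) (nat_lit 6605) (.f (nat_lit 620) (nat_lit 588) (nat_lit 5612) (.f (nat_lit 621) (nat_lit 652) (nat_lit 5644) (.d (nat_lit 622) (nat_lit 590) (nat_lit 4589) (nat_lit 654) (nat_lit 4621))))) (.f (nat_lit 461) (nat_lit 430) (nat_lit 6573) (.d (nat_lit 463) (nat_lit 492) (nat_lit 1484) (nat_lit 497) (nat_lit 461))))) (.a s101666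 (.p (nat_lit 462) (.a (.f (nat_lit 526) (nat_lit 527) (nat_lit 525) (.d (nat_lit 430) (nat_lit 461) (nat_lit 6573) (nat_lit 494) (nat_lit 5549))) (.a (.f (nat_lit 589) (nat_lit 494) (nat_lit 6605) (.f (nat_lit 492) (nat_lit 460) (nat_lit 7628) (.f (nat_lit 621) (nat_lit 524) (nat_lit 7660) (.d (nat_lit 622) (nat_lit 590) (nat_lit 4589) (nat_lit 654) (nat_lit 4621))))) (.f (nat_lit 461) (nat_lit 430) (nat_lit 6573) (.d (nat_lit 463) (nat_lit 492) (nat_lit 1484) (nat_lit 497) (nat_lit 461)))))))))))))))) (.a (.f (nat_lit 527) (nat_lit 526) (nat_lit 525) (.f (nat_lit 559) (nat_lit 432) (nat_lit 5551) (.f (nat_lit 558) (nat_lit 556) (nat_lit 2572) (.d (nat_lit 589) (nat_lit 588) (nat_lit 1580) (nat_lit 590) (nat_lit 1581))))) (.f (nat_lit 527) (nat_lit 526) (nat_lit 525) (.f (nat_lit 559) (nat_lit 432) (nat_lit 5551) (.f (nat_lit 558) (nat_lit 524) (nat_lit 3596) (.d (nat_lit 589) (nat_lit 588) (nat_lit 1580) (nat_lit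 590) (nat_lit 1581)))))))))))) (.p (nat_lit 461) (.a (.f (nat_lit 463) (nat_lit 431) (nat_lit 7599) (.f (nat_lit 462) (nat_lit 497) (nat_lit 461) (.f (nat_lit 493) (nat_lit 492) (nat_lit 1484) (.f (nat_lit 429) (nat_lit 428) (nat_lit 3500) (.d (nat_lit 430) (nat_lit 398) (nat_lit 6541) (nat_lit 557) (nat_lit 6573)))))) (.a (.f (nat_lit 526) (nat_lit 527) (nat_lit 525) (.f (nat_lit 558) (nat_lit 559) (nat_lit 3597) (.f (nat_lit 493) (nat_lit 429) (nat_lit 4525) (.d (nat_lit 590) (nat_lit 494) (nat_lit 7629) (nat_lit 557) (nat_lit 4557))))) (.a (.f (nat_lit 463) (nat_lit 431) (nat_lit 7599) (.f (nat_lit 462) (nat_lit 497) (nat_lit 461) (.f (nat_lit 493) (nat_lit 492) (nat_lit 1484) (.f (nat_lit 429) (nat_lit 428) (nat_lit 3500) (.f (nat_lit 398) (nat_lit 430) (nat_lit 6541) (.f (nat_lit 397) (nat_lit 366) (nat_lit 6509) (.f (nat_lit 364) (nat_lit 396) (nat_lit 7532) (.d (nat_lit 365) (nat_lit 332) (nat_lit 7500) (nat_lit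 494) (nat_lit 4461))))))))) (.a (.f (nat_lit 526) (nat_lit 527) (nat_lit 525) (.f (nat_lit 463) (nat_lit 431) (nat_lit 7599) (.f (nat_lit 462) (nat_lit 497) (nat_lit 461) (.f (nat_lit 558) (nat_lit 559) (nat_lit 3597) (.d (nat_lit 429) (nat_lit 428) (nat_lit 3500) (nat_lit 494) (nat_lit 7597)))))) (.f (nat_lit 463) (nat_lit 431) (nat_lit 7599) (.f (nat_lit 462) (nat_lit 497) (nat_lit 461) (.f (nat_lit 493) (nat_lit 492) (nat_lit 1484) (.f (nat_lit 557) (nat_lit 430) (nat_lit 6573) (.f (nat_lit 589) (nat_lit 494) (nat_lit 6605) (.d (nat_lit 588) (nat_lit 556) (nat_lit 5580) (nat_lit 620) (nat_lit 5612))))))))))))))))))) (.p (nat_lit 525) (.a (.f (nat_lit 527) (nat_lit 526) (nat_lit 525) (.f (nat_lit 432) (nat_lit 559) (nat_lit 5551) (.d (nat_lit 431) (nat_lit 399) (nat_lit 7567) (nat_lit 463) (nat_lit 7599)))) (.a (.p (nat_lit 461) (.a (.f (nat_lit 463) (nat_lit 431) (nat_lit 7599) (.f (nat_lit 462) (nat_lit 497)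 (nat_lit 461) (.f (nat_lit 493) (nat_lit 492) (nat_lit 1484) (.f (nat_lit 429) (nat_lit 428) (nat_lit 3500) (.d (nat_lit 430) (nat_lit 398) (nat_lit 6541) (nat_lit 557) (nat_lit 6573)))))) (.a (.p (nat_lit 558) (.a s101160 (.a (.p (nat_lit 557) (.a (.f (nat_lit 493) (nat_lit 590) (nat_lit 4557) (.f (nat_lit 556) (nat_lit 588) (nat_lit 5580) (.f (nat_lit 524) (nat_lit 429) (nat_lit 5548) (.f (nat_lit 460) (nat_lit 428) (nat_lit 7596) (.f (nat_lit 492) (nat_lit 589) (nat_lit 4556) (.f (nat_lit 459) (nat_lit 427) (nat_lit 7595) (.d (nat_lit 458) (nat_lit 457) (nat_lit 457) (nat_lit 494) (nat_lit 458)))))))) (.a (.f (nat_lit 493) (nat_lit 590) (nat_lit 4557) (.f (nat_lit 524) (nat_lit 559) (nat_lit 3596) (.d (nat_lit 556) (nat_lit 429) (nat_lit 5548) (nat_lit 588) (nat_lit 5580)))) (.a (.f (nat_lit 559) (nat_lit 524) (nat_lit 3596) (.d (nat_lit 589) (nat_lit 588) (nat_lit 1580) (nat_lit 590) (nat_lit 1581))) (.a (.f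 (nat_lit 559) (nat_lit 524) (nat_lit 3596) (.f (nat_lit 588) (nat_lit 589) (nat_lit 1580) (.d (nat_lit 556) (nat_lit 493) (nat_lit 5580) (nat_lit 587) (nat_lit 1579)))) (.a (.f (nat_lit 493) (nat_lit 590) (nat_lit 4557) (.f (nat_lit 588) (nat_lit 556) (nat_lit 5580) (.d (nat_lit 589) (nat_lit 559) (nat_lit 1580) (nat_lit 620) (nat_lit 5612)))) (.f (nat_lit 493) (nat_lit 590) (nat_lit 4557) (.f (nat_lit 428) (nat_lit 460) (nat_lit 7596) (.f (nat_lit 429) (nat_lit 396) (nat_lit 7564) (.d (nat_lit 430) (nat_lit 398) (nat_lit 6541) (nat_lit 462) (nat_lit 6573))))))))))) (.a (.f (nat_lit 526) (nat_lit 559) (nat_lit 3597) (.f (nat_lit 493) (nat_lit 429) (nat_lit 4525) (.d (nat_lit 590) (nat_lit 494) (nat_lit 7629) (nat_lit 622) (nat_lit 7661)))) (.a (.f (nat_lit 559) (nat_lit 526) (nat_lit 3597) (.f (nat_lit 557) (nat_lit 524) (nat_lit 3596) (.d (nat_lit 589) (nat_lit 588) (nat_lit 1580) (nat_lit 590) (nat_lit 1581))))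 (.f (nat_lit 559) (nat_lit 526) (nat_lit 3597) (.f (nat_lit 557) (nat_lit 524) (nat_lit 3596) (.f (nat_lit 588) (nat_lit 589) (nat_lit 1580) (.d (nat_lit 556) (nat_lit 493) (nat_lit 5580) (nat_lit 587) (nat_lit 1579)))))))))) (.a (.f (nat_lit 463) (nat_lit 431) (nat_lit 7599) (.f (nat_lit 462) (nat_lit 497) (nat_lit 461) (.f (nat_lit 493) (nat_lit 492) (nat_lit 1484) (.f (nat_lit 429) (nat_lit 428) (nat_lit 3500) (.f (nat_lit 398) (nat_lit 430) (nat_lit 6541) (.f (nat_lit 397) (nat_lit 366) (nat_lit 6509) (.f (nat_lit 364) (nat_lit 396) (nat_lit 7532) (.d (nat_lit 365) (nat_lit 332) (nat_lit 7500) (nat_lit 494) (nat_lit 4461))))))))) (.a (.p (nat_lit 558) (.a (.f (nat_lit 526) (nat_lit 559) (nat_lit 3597) (.f (nat_lit 493) (nat_lit 429) (nat_lit 4525) (.d (nat_lit 590) (nat_lit 494) (nat_lit 7629) (nat_lit 622) (nat_lit 7661)))) (.a (.p (nat_lit 493) (.a (.f (nat_lit 557) (nat_lit 590) (nat_lit 4557) (.f (nat_lit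 556) (nat_lit 588) (nat_lit 5580) (.f (nat_lit 524) (nat_lit 429) (nat_lit 5548) (.f (nat_lit 460) (nat_lit 428) (nat_lit 7596) (.f (nat_lit 492) (nat_lit 589) (nat_lit 4556) (.f (nat_lit 459) (nat_lit 427) (nat_lit 7595) (.d (nat_lit 458) (nat_lit 457) (nat_lit 457) (nat_lit 494) (nat_lit 458)))))))) (.a (.f (nat_lit 429) (nat_lit 526) (nat_lit 4525) (.f (nat_lit 524) (nat_lit 556) (nat_lit 5548) (.f (nat_lit 397) (nat_lit 492) (nat_lit 5516) (.d (nat_lit 398) (nat_lit 366) (nat_lit 6509) (nat_lit 430) (nat_lit 6541))))) (.a (.f (nat_lit 557) (nat_lit 590) (nat_lit 4557) (.f (nat_lit 588) (nat_lit 556) (nat_lit 5580) (.f (nat_lit 589) (nat_lit 620) (nat_lit 5612) (.d (nat_lit 460) (nat_lit 428) (nat_lit 7596) (nat_lit 492) (nat_lit 7628))))) (.f (nat_lit 429) (nat_lit 526) (nat_lit 4525) (.f (nat_lit 557) (nat_lit 590) (nat_lit 4557) (.d (nat_lit 428) (nat_lit 396) (nat_lit 7564) (nat_lit 460) (nat_lit 7596))))))))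 (.a (.p (nat_lit 557) (.a (.f (nat_lit 493) (nat_lit 590) (nat_lit 4557) (.f (nat_lit 556) (nat_lit 588) (nat_lit 5580) (.f (nat_lit 524) (nat_lit 429) (nat_lit 5548) (.f (nat_lit 460) (nat_lit 428) (nat_lit 7596) (.f (nat_lit 492) (nat_lit 589) (nat_lit 4556) (.f (nat_lit 459) (nat_lit 427) (nat_lit 7595) (.d (nat_lit 458) (nat_lit 457) (nat_lit 457) (nat_lit 494) (nat_lit 458)))))))) (.a (.f (nat_lit 493) (nat_lit 590) (nat_lit 4557) (.f (nat_lit 524) (nat_lit 559) (nat_lit 3596) (.d (nat_lit 556) (nat_lit 429) (nat_lit 5548) (nat_lit 588) (nat_lit 5580)))) (.a (.f (nat_lit 559) (nat_lit 524) (nat_lit 3596) (.d (nat_lit 589) (nat_lit 588) (nat_lit 1580) (nat_lit 590) (nat_lit 1581))) (.a (.f (nat_lit 559) (nat_lit 524) (nat_lit 3596) (.f (nat_lit 588) (nat_lit 589) (nat_lit 1580) (.d (nat_lit 556) (nat_lit 493) (nat_lit 5580) (nat_lit 587) (nat_lit 1579)))) (.a (.f (nat_lit 493) (nat_lit 590) (nat_lit 4557) (.f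 (nat_lit 588) (nat_lit 556) (nat_lit 5580) (.d (nat_lit 589) (nat_lit 559) (nat_lit 1580) (nat_lit 620) (nat_lit 5612)))) (.f (nat_lit 493) (nat_lit 590) (nat_lit 4557) (.f (nat_lit 428) (nat_lit 460) (nat_lit 7596) (.f (nat_lit 429) (nat_lit 396) (nat_lit 7564) (.f (nat_lit 431) (nat_lit 463) (nat_lit 7599) (.f (nat_lit 430) (nat_lit 398) (nat_lit 6541) (.d (nat_lit 399) (nat_lit 400) (nat_lit 2444) (nat_lit 432) (nat_lit 7567))))))))))))) (.a (.f (nat_lit 559) (nat_lit 526) (nat_lit 3597) (.f (nat_lit 557) (nat_lit 524) (nat_lit 3596) (.d (nat_lit 589) (nat_lit 588) (nat_lit 1580) (nat_lit 590) (nat_lit 1581)))) (.f (nat_lit 559) (nat_lit 526) (nat_lit 3597) (.f (nat_lit 557) (nat_lit 524) (nat_lit 3596) (.f (nat_lit 588) (nat_lit 589) (nat_lit 1580) (.d (nat_lit 556) (nat_lit 493) (nat_lit 5580) (nat_lit 587) (nat_lit 1579)))))))))) (.p (nat_lit 562) (.a (.p (nat_lit 559) (.a (.f (nat_lit 558) (nat_lit 526) (nat_lit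 3597) (.f (nat_lit 557) (nat_lit 524) (nat_lit 3596) (.d (nat_lit 589) (nat_lit 588) (nat_lit 1580) (nat_lit 590) (nat_lit 1581)))) (.f (nat_lit 595) (nat_lit 594) (nat_lit 559) (.f (nat_lit 563) (nat_lit 596) (nat_lit 560) (.d (nat_lit 531) (nat_lit 530) (nat_lit 2575) (nat_lit 532) (nat_lit 2576)))))) (.a (.p (nat_lit 563) (.a (.f (nat_lit 532) (nat_lit 531) (nat_lit 2576) (.f (nat_lit 564) (nat_lit 533) (nat_lit 2577) (.d (nat_lit 596) (nat_lit 595) (nat_lit 560) (nat_lit 597) (nat_lit 561)))) (.a (.f (nat_lit 463) (nat_lit 431) (nat_lit 7599) (.f (nat_lit 497) (nat_lit 462) (nat_lit 461) (.f (nat_lit 532) (nat_lit 531) (nat_lit 2576) (.f (nat_lit 465) (nat_lit 592) (nat_lit 6608) (.f (nat_lit 499) (nat_lit 498) (nat_lit 3535) (.f (nat_lit 564) (nat_lit 533) (nat_lit 2577) (.f (nat_lit 596) (nat_lit 597) (nat_lit 561) (.f (nat_lit 467) (nat_lit 500) (nat_lit 7635) (.f (nat_lit 466) (nat_lit 468) (nat_lit 1488)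 (.d (nat_lit 435) (nat_lit 434) (nat_lit 2479) (nat_lit 436) (nat_lit 2480))))))))))) (.a (.f (nat_lit 463) (nat_lit 431) (nat_lit 7599) (.f (nat_lit 497) (nat_lit 462) (nat_lit 461) (.f (nat_lit 465) (nat_lit 592) (nat_lit 6608) (.f (nat_lit 498) (nat_lit 499) (nat_lit 3535) (.f (nat_lit 595) (nat_lit 596) (nat_lit 560) (.d (nat_lit 530) (nat_lit 466) (nat_lit 4562) (nat_lit 594) (nat_lit 7633))))))) (.f (nat_lit 463) (nat_lit 431) (nat_lit 7599) (.f (nat_lit 497) (nat_lit 462) (nat_lit 461) (.f (nat_lit 465) (nat_lit 592) (nat_lit 6608) (.f (nat_lit 498) (nat_lit 499) (nat_lit 3535) (.f (nat_lit 530) (nat_lit 594) (nat_lit 7633) (.f (nat_lit 466) (nat_lit 595) (nat_lit 4562) (.d (nat_lit 467) (nat_lit 435) (nat_lit 6578) (nat_lit 468) (nat_lit 1488)))))))))))) (.a (.p (nat_lit 559) (.a (.f (nat_lit 558) (nat_lit 526) (nat_lit 3597) (.f (nat_lit 557) (nat_lit 524) (nat_lit 3596) (.d (nat_lit 589) (nat_lit 588) (nat_lit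 1580) (nat_lit 590) (nat_lit 1581)))) (.f (nat_lit 463) (nat_lit 431) (nat_lit 7599) (.f (nat_lit 497) (nat_lit 462) (nat_lit 461) (.f (nat_lit 531) (nat_lit 530) (nat_lit 2575) (.f (nat_lit 563) (nat_lit 532) (nat_lit 2576) (.f (nat_lit 499) (nat_lit 498) (nat_lit 3535) (.f (nat_lit 596) (nat_lit 595) (nat_lit 560) (.d (nat_lit 564) (nat_lit 467) (nat_lit 4563) (nat_lit 597) (nat_lit 561)))))))))) (.a (.f (nat_lit 463) (nat_lit 431) (nat_lit 7599) (.f (nat_lit 497) (nat_lit 462) (nat_lit 461) (.f (nat_lit 465) (nat_lit 592) (nat_lit 6608) (.f (nat_lit 498) (nat_lit 499) (nat_lit 3535) (.f (nat_lit 530) (nat_lit 594) (nat_lit 7633) (.f (nat_lit 559) (nat_lit 531) (nat_lit 2575) (.f (nat_lit 558) (nat_lit 526) (nat_lit 3597) (.f (nat_lit 557) (nat_lit 524) (nat_lit 3596) (.d (nat_lit 589) (nat_lit 588) (nat_lit 1580) (nat_lit 590) (nat_lit 1581)))))))))) (.a (.p (nat_lit 559) (.a (.f (nat_lit 558) (nat_lit 526) (nat_lit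 3597) (.f (nat_lit 557) (nat_lit 524) (nat_lit 3596) (.d (nat_lit 589) (nat_lit 588) (nat_lit 1580) (nat_lit 590) (nat_lit 1581)))) (.f (nat_lit 463) (nat_lit 431) (nat_lit 7599) (.f (nat_lit 497) (nat_lit 462) (nat_lit 461) (.f (nat_lit 465) (nat_lit 592) (nat_lit 6608) (.f (nat_lit 499) (nat_lit 498) (nat_lit 3535) (.f (nat_lit 595) (nat_lit 594) (nat_lit 559) (.f (nat_lit 563) (nat_lit 596) (nat_lit 560) (.f (nat_lit 531) (nat_lit 532) (nat_lit 2576) (.f (nat_lit 468) (nat_lit 500) (nat_lit 6611) (.d (nat_lit 467) (nat_lit 436) (nat_lit 6579) (nat_lit 466) (nat_lit 1488)))))))))))) (.f (nat_lit 463) (nat_lit 431) (nat_lit 7599) (.f (nat_lit 497) (nat_lit 462) (nat_lit 461) (.f (nat_lit 465) (nat_lit 592) (nat_lit 6608) (.f (nat_lit 498) (nat_lit 499) (nat_lit 3535) (.f (nat_lit 594) (nat_lit 530) (nat_lit 7633) (.f (nat_lit 595) (nat_lit 559) (nat_lit 559) (.d (nat_lit 596) (nat_lit 563) (nat_lit 560) (nat_lit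 597) (nat_lit 3633))))))))))))))))))) (.a (.p (nat_lit 557) (.a (.f (nat_lit 527) (nat_lit 526) (nat_lit 525) (.f (nat_lit 559) (nat_lit 432) (nat_lit 5551) (.d (nat_lit 558) (nat_lit 524) (nat_lit 3596) (nat_lit 556) (nat_lit 2572)))) (.a (.p (nat_lit 493) (.a s101376 (.a s101381 (.a s101406 (.a s101437 (.a (.p (nat_lit 461) (.a (.f (nat_lit 428) (nat_lit 460) (nat_lit 7596) (.f (nat_lit 429) (nat_lit 396) (nat_lit 7564) (.d (nat_lit 430) (nat_lit 398) (nat_lit 6541) (nat_lit 462) (nat_lit 6573)))) (.a (.f (nat_lit 460) (nat_lit 428) (nat_lit 7596) (.f (nat_lit 589) (nat_lit 492) (nat_lit 7628) (.d (nat_lit 588) (nat_lit 556) (nat_lit 5580) (nat_lit 620) (nat_lit 5612)))) (.f (nat_lit 556) (nat_lit 588) (nat_lit 5580) (.f (nat_lit 429) (nat_lit 524) (nat_lit 5548) (.d (nat_lit 430) (nat_lit 398) (nat_lit 6541) (nat_lit 462) (nat_lit 6573))))))) (.a (.p (nat_lit 558) (.a (.f (nat_lit 461) (nat_lit 590) (nat_lit 4557)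 (.f (nat_lit 429) (nat_lit 526) (nat_lit 4525) (.d (nat_lit 556) (nat_lit 524) (nat_lit 5548) (nat_lit 588) (nat_lit 5580)))) (.a (.f (nat_lit 461) (nat_lit 590) (nat_lit 4557) (.f (nat_lit 524) (nat_lit 559) (nat_lit 3596) (.d (nat_lit 556) (nat_lit 429) (nat_lit 5548) (nat_lit 588) (nat_lit 5580)))) (.a (.d (nat_lit 559) (nat_lit 524) (nat_lit 3596) (nat_lit 526) (nat_lit 3597)) (.f (nat_lit 461) (nat_lit 590) (nat_lit 4557) (.f (nat_lit 429) (nat_lit 526) (nat_lit 4525) (.d (nat_lit 430) (nat_lit 398) (nat_lit 6541) (nat_lit 462) (nat_lit 6573)))))))) (.a (.p (nat_lit 558) (.a (.f (nat_lit 461) (nat_lit 590) (nat_lit 4557) (.f (nat_lit 588) (nat_lit 556) (nat_lit 5580) (.d (nat_lit 589) (nat_lit 559) (nat_lit 1580) (nat_lit 620) (nat_lit 5612)))) (.a (.f (nat_lit 461) (nat_lit 590) (nat_lit 4557) (.f (nat_lit 429) (nat_lit 526) (nat_lit 4525) (.d (nat_lit 430) (nat_lit 398) (nat_lit 6541) (nat_lit 462) (nat_lit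 6573)))) (.a (.f (nat_lit 559) (nat_lit 526) (nat_lit 3597) (.d (nat_lit 589) (nat_lit 588) (nat_lit 1580) (nat_lit 590) (nat_lit 1581))) (.f (nat_lit 526) (nat_lit 559) (nat_lit 3597) (.f (nat_lit 461) (nat_lit 429) (nat_lit 4525) (.f (nat_lit 462) (nat_lit 430) (nat_lit 6573) (.f (nat_lit 589) (nat_lit 494) (nat_lit 5581) (.d (nat_lit 588) (nat_lit 556) (nat_lit 5580) (nat_lit 620) (nat_lit 5612)))))))))) (.a (.p (nat_lit 558) (.a (.f (nat_lit 461) (nat_lit 590) (nat_lit 4557) (.f (nat_lit 429) (nat_lit 526) (nat_lit 4525) (.d (nat_lit 430) (nat_lit 398) (nat_lit 6541) (nat_lit 462) (nat_lit 6573)))) (.a (.f (nat_lit 461) (nat_lit 590) (nat_lit 4557) (.f (nat_lit 460) (nat_lit 428) (nat_lit 7596) (.f (nat_lit 589) (nat_lit 492) (nat_lit 7628) (.d (nat_lit 462) (nat_lit 430) (nat_lit 6573) (nat_lit 494) (nat_lit 6605))))) (.a (.f (nat_lit 559) (nat_lit 524) (nat_lit 3596) (.d (nat_lit 589) (nat_lit 588) (nat_lit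 1580) (nat_lit 590) (nat_lit 1581))) (.d (nat_lit 559) (nat_lit 524) (nat_lit 3596) (nat_lit 526) (nat_lit 3597)))))) (.p (nat_lit 558) (.a (.f (nat_lit 461) (nat_lit 590) (nat_lit 4557) (.f (nat_lit 429) (nat_lit 526) (nat_lit 4525) (.d (nat_lit 430) (nat_lit 398) (nat_lit 6541) (nat_lit 462) (nat_lit 6573)))) (.a (.f (nat_lit 461) (nat_lit 590) (nat_lit 4557) (.f (nat_lit 460) (nat_lit 428) (nat_lit 7596) (.f (nat_lit 589) (nat_lit 492) (nat_lit 7628) (.d (nat_lit 462) (nat_lit 430) (nat_lit 6573) (nat_lit 494) (nat_lit 6605))))) (.a (.f (nat_lit 590) (nat_lit 461) (nat_lit 4557) (.d (nat_lit 559) (nat_lit 524) (nat_lit 3596) (nat_lit 589) (nat_lit 1581))) (.d (nat_lit 559) (nat_lit 524) (nat_lit 3596) (nat_lit 526) (nat_lit 3597))))))))))))))) (.a s101640 (.a s101798 (.a (.p (nat_lit 493) (.a s101602 (.a s101381 (.a (.p (nat_lit 461) (.a (.f (nat_lit 428) (nat_lit 460) (nat_lit 7596) (.f (nat_lit 429) (nat_lit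 396) (nat_lit 7564) (.d (nat_lit 430) (nat_lit 398) (nat_lit 6541) (nat_lit 462) (nat_lit 6573)))) (.a (.f (nat_lit 460) (nat_lit 428) (nat_lit 7596) (.f (nat_lit 589) (nat_lit 492) (nat_lit 7628) (.d (nat_lit 588) (nat_lit 556) (nat_lit 5580) (nat_lit 620) (nat_lit 5612)))) (.f (nat_lit 556) (nat_lit 588) (nat_lit 5580) (.f (nat_lit 429) (nat_lit 524) (nat_lit 5548) (.d (nat_lit 430) (nat_lit 398) (nat_lit 6541) (nat_lit 462) (nat_lit 6573))))))) (.a (.p (nat_lit 461) (.a (.f (nat_lit 460) (nat_lit 428) (nat_lit 7596) (.f (nat_lit 589) (nat_lit 492) (nat_lit 7628) (.d (nat_lit 588) (nat_lit 556) (nat_lit 5580) (nat_lit 620) (nat_lit 5612)))) (.a (.f (nat_lit 556) (nat_lit 588) (nat_lit 5580) (.f (nat_lit 429) (nat_lit 524) (nat_lit 5548) (.d (nat_lit 428) (nat_lit 396) (nat_lit 7564) (nat_lit 460) (nat_lit 7596)))) (.a (.f (nat_lit 460) (nat_lit 428) (nat_lit 7596) (.f (nat_lit 589) (nat_lit 492) (nat_lit 7628)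 (.f (nat_lit 620) (nat_lit 588) (nat_lit 5612) (.f (nat_lit 621) (nat_lit 652) (nat_lit 5644) (.d (nat_lit 622) (nat_lit 590) (nat_lit 4589) (nat_lit 654) (nat_lit 4621)))))) (.a (.f (nat_lit 556) (nat_lit 588) (nat_lit 5580) (.f (nat_lit 429) (nat_lit 524) (nat_lit 5548) (.f (nat_lit 396) (nat_lit 428) (nat_lit 7564) (.f (nat_lit 397) (nat_lit 364) (nat_lit 7532) (.d (nat_lit 398) (nat_lit 366) (nat_lit 6509) (nat_lit 430) (nat_lit 6541)))))) (.a (.f (nat_lit 428) (nat_lit 460) (nat_lit 7596) (.f (nat_lit 429) (nat_lit 396) (nat_lit 7564) (.f (nat_lit 398) (nat_lit 430) (nat_lit 6541) (.f (nat_lit 397) (nat_lit 366) (nat_lit 6509) (.d (nat_lit 524) (nat_lit 492) (nat_lit 5516) (nat_lit 556) (nat_lit 5548)))))) (.f (nat_lit 527) (nat_lit 526) (nat_lit 525) (.f (nat_lit 556) (nat_lit 588) (nat_lit 5580) (.f (nat_lit 429) (nat_lit 524) (nat_lit 5548) (.f (nat_lit 432) (nat_lit 559) (nat_lit 5551) (.f (nat_lit 430)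 (nat_lit 398) (nat_lit 6541) (.d (nat_lit 431) (nat_lit 399) (nat_lit 7567) (nat_lit 460) (nat_lit 1452))))))))))))) (.a s101626 (.a (.p (nat_lit 430) (.a (.f (nat_lit 461) (nat_lit 462) (nat_lit 6573) (.f (nat_lit 429) (nat_lit 398) (nat_lit 6541) (.d (nat_lit 556) (nat_lit 524) (nat_lit 5548) (nat_lit 588) (nat_lit 5580)))) (.a (.f (nat_lit 527) (nat_lit 526) (nat_lit 525) (.f (nat_lit 432) (nat_lit 559) (nat_lit 5551) (.f (nat_lit 431) (nat_lit 399) (nat_lit 7567) (.f (nat_lit 429) (nat_lit 465) (nat_lit 429) (.d (nat_lit 461) (nat_lit 398) (nat_lit 6541) (nat_lit 460) (nat_lit 1452)))))) (.a (.f (nat_lit 527) (nat_lit 526) (nat_lit 525) (.f (nat_lit 432) (nat_lit 559) (nat_lit 5551) (.f (nat_lit 431) (nat_lit 399) (nat_lit 7567) (.f (nat_lit 429) (nat_lit 465) (nat_lit 429) (.f (nat_lit 396) (nat_lit 397) (nat_lit 3468) (.f (nat_lit 428) (nat_lit 395) (nat_lit 3467) (.d (nat_lit 460) (nat_lit 459) (nat_lit 1451)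 (nat_lit 492) (nat_lit 4492)))))))) (.f (nat_lit 527) (nat_lit 526) (nat_lit 525) (.f (nat_lit 432) (nat_lit 559) (nat_lit 5551) (.f (nat_lit 462) (nat_lit 461) (nat_lit 6573) (.f (nat_lit 399) (nat_lit 431) (nat_lit 7567) (.f (nat_lit 398) (nat_lit 494) (nat_lit 5517) (.f (nat_lit 400) (nat_lit 367) (nat_lit 7535) (.f (nat_lit 369) (nat_lit 401) (nat_lit 6512) (.d (nat_lit 368) (nat_lit 337) (nat_lit 6480) (nat_lit 397) (nat_lit 2413))))))))))))) (.a (.p (nat_lit 461) (.a (.f (nat_lit 428) (nat_lit 460) (nat_lit 7596) (.f (nat_lit 429) (nat_lit 396) (nat_lit 7564) (.d (nat_lit 430) (nat_lit 398) (nat_lit 6541) (nat_lit 462) (nat_lit 6573)))) (.a (.f (nat_lit 460) (nat_lit 428) (nat_lit 7596) (.f (nat_lit 589) (nat_lit 492) (nat_lit 7628) (.d (nat_lit 588) (nat_lit 556) (nat_lit 5580) (nat_lit 620) (nat_lit 5612)))) (.f (nat_lit 462) (nat_lit 430) (nat_lit 6573) (.f (nat_lit 589) (nat_lit 494) (nat_lit 6605) (.d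 (nat_lit 588) (nat_lit 556) (nat_lit 5580) (nat_lit 620) (nat_lit 5612))))))) (.a (.p (nat_lit 462) (.a (.f (nat_lit 589) (nat_lit 494) (nat_lit 6605) (.f (nat_lit 620) (nat_lit 588) (nat_lit 5612) (.f (nat_lit 621) (nat_lit 652) (nat_lit 5644) (.d (nat_lit 622) (nat_lit 590) (nat_lit 4589) (nat_lit 654) (nat_lit 4621))))) (.a (.f (nat_lit 461) (nat_lit 430) (nat_lit 6573) (.f (nat_lit 460) (nat_lit 428) (nat_lit 7596) (.f (nat_lit 589) (nat_lit 492) (nat_lit 7628) (.f (nat_lit 622) (nat_lit 590) (nat_lit 4589) (.f (nat_lit 621) (nat_lit 654) (nat_lit 4621) (.d (nat_lit 620) (nat_lit 588) (nat_lit 5612) (nat_lit 652) (nat_lit 5644))))))) (.f (nat_lit 526) (nat_lit 527) (nat_lit 525) (.d (nat_lit 430) (nat_lit 461) (nat_lit 6573) (nat_lit 494) (nat_lit 5549)))))) (.a s101666 (.a (.p (nat_lit 462) (.a (.f (nat_lit 461) (nat_lit 430) (nat_lit 6573) (.f (nat_lit 589) (nat_lit 494) (nat_lit 6605) (.d (nat_lit 588) (nat_lit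 556) (nat_lit 5580) (nat_lit 620) (nat_lit 5612)))) (.a (.f (nat_lit 527) (nat_lit 526) (nat_lit 525) (.f (nat_lit 461) (nat_lit 430) (nat_lit 6573) (.f (nat_lit 556) (nat_lit 588) (nat_lit 5580) (.f (nat_lit 429) (nat_lit 524) (nat_lit 5548) (.f (nat_lit 432) (nat_lit 559) (nat_lit 5551) (.f (nat_lit 396) (nat_lit 428) (nat_lit 7564) (.f (nat_lit 397) (nat_lit 364) (nat_lit 7532) (.f (nat_lit 398) (nat_lit 366) (nat_lit 6509) (.f (nat_lit 399) (nat_lit 431) (nat_lit 396) (.d (nat_lit 367) (nat_lit 368) (nat_lit 2412) (nat_lit 400) (nat_lit 7535))))))))))) (.a (.f (nat_lit 589) (nat_lit 494) (nat_lit 6605) (.f (nat_lit 620) (nat_lit 588) (nat_lit 5612) (.f (nat_lit 621) (nat_lit 652) (nat_lit 5644) (.d (nat_lit 622) (nat_lit 590) (nat_lit 4589) (nat_lit 654) (nat_lit 4621))))) (.f (nat_lit 526) (nat_lit 527) (nat_lit 525) (.d (nat_lit 430) (nat_lit 461) (nat_lit 6573) (nat_lit 494) (nat_lit 5549))))))) (.p (nat_lit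 462) (.a (.f (nat_lit 526) (nat_lit 527) (nat_lit 525) (.d (nat_lit 430) (nat_lit 461) (nat_lit 6573) (nat_lit 494) (nat_lit 5549))) (.a (.f (nat_lit 589) (nat_lit 494) (nat_lit 6605) (.f (nat_lit 492) (nat_lit 460) (nat_lit 7628) (.f (nat_lit 621) (nat_lit 524) (nat_lit 7660) (.d (nat_lit 622) (nat_lit 590) (nat_lit 4589) (nat_lit 654) (nat_lit 4621))))) (.f (nat_lit 527) (nat_lit 526) (nat_lit 525) (.f (nat_lit 461) (nat_lit 430) (nat_lit 6573) (.f (nat_lit 460) (nat_lit 428) (nat_lit 7596) (.f (nat_lit 492) (nat_lit 589) (nat_lit 7628) (.f (nat_lit 432) (nat_lit 559) (nat_lit 5551) (.f (nat_lit 399) (nat_lit 431) (nat_lit 7567) (.f (nat_lit 400) (nat_lit 367) (nat_lit 7535) (.f (nat_lit 369) (nat_lit 401) (nat_lit 6512) (.f (nat_lit 368) (nat_lit 337) (nat_lit 6480) (.f (nat_lit 397) (nat_lit 398) (nat_lit 2413) (.d (nat_lit 429) (nat_lit 365) (nat_lit 5484) (nat_lit 524) (nat_lit 5516))))))))))))))))))))))))))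 (.a (.f (nat_lit 527) (nat_lit 526) (nat_lit 525) (.f (nat_lit 559) (nat_lit 432) (nat_lit 5551) (.f (nat_lit 558) (nat_lit 556) (nat_lit 2572) (.d (nat_lit 589) (nat_lit 588) (nat_lit 1580) (nat_lit 590) (nat_lit 1581))))) (.f (nat_lit 527) (nat_lit 526) (nat_lit 525) (.f (nat_lit 559) (nat_lit 432) (nat_lit 5551) (.f (nat_lit 558) (nat_lit 524) (nat_lit 3596) (.d (nat_lit 589) (nat_lit 588) (nat_lit 1580) (nat_lit 590) (nat_lit 1581)))))))))))) (.a (.f (nat_lit 463) (nat_lit 431) (nat_lit 7599) (.p (nat_lit 462) (.a (.f (nat_lit 461) (nat_lit 497) (nat_lit 461) (.f (nat_lit 493) (nat_lit 492) (nat_lit 1484) (.f (nat_lit 429) (nat_lit 428) (nat_lit 3500) (.d (nat_lit 430) (nat_lit 398) (nat_lit 6541) (nat_lit 557) (nat_lit 6573))))) (.a (.p (nat_lit 494) (.a (.f (nat_lit 493) (nat_lit 465) (nat_lit 1485) (.d (nat_lit 492) (nat_lit 461) (nat_lit 1484) (nat_lit 491) (nat_lit 2507))) (.a (.f (nat_lit 526) (nat_lit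 527) (nat_lit 525) (.f (nat_lit 557) (nat_lit 430) (nat_lit 5549) (.d (nat_lit 589) (nat_lit 493) (nat_lit 6605) (nat_lit 558) (nat_lit 5581)))) (.f (nat_lit 526) (nat_lit 527) (nat_lit 525) (.f (nat_lit 430) (nat_lit 557) (nat_lit 5549) (.d (nat_lit 429) (nat_lit 397) (nat_lit 7565) (nat_lit 465) (nat_lit 3501))))))) (.a (.f (nat_lit 497) (nat_lit 461) (nat_lit 461) (.d (nat_lit 498) (nat_lit 465) (nat_lit 462) (nat_lit 499) (nat_lit 3535))) (.p (nat_lit 494) (.a (.f (nat_lit 465) (nat_lit 493) (nat_lit 1485) (.d (nat_lit 497) (nat_lit 498) (nat_lit 462) (nat_lit 592) (nat_lit 6608))) (.a (.f (nat_lit 526) (nat_lit 527) (nat_lit 525) (.f (nat_lit 493) (nat_lit 465) (nat_lit 1485) (.d (nat_lit 430) (nat_lit 398) (nat_lit 5517) (nat_lit 557) (nat_lit 5549)))) (.a (.f (nat_lit 526) (nat_lit 527) (nat_lit 525) (.f (nat_lit 557) (nat_lit 430) (nat_lit 5549) (.d (nat_lit 589) (nat_lit 493) (nat_lit 6605) (nat_lit 558)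 (nat_lit 5581)))) (.f (nat_lit 526) (nat_lit 527) (nat_lit 525) (.f (nat_lit 430) (nat_lit 557) (nat_lit 5549) (.d (nat_lit 429) (nat_lit 397) (nat_lit 7565) (nat_lit 465) (nat_lit 3501))))))))))))) (.a (.p (nat_lit 557) (.a s101345 (.a s101798 (.a s101488 (.a s101498 (.a (.f (nat_lit 431) (nat_lit 463) (nat_lit 7599) (.f (nat_lit 432) (nat_lit 399) (nat_lit 7567) (.f (nat_lit 559) (nat_lit 527) (nat_lit 5551) (.f (nat_lit 558) (nat_lit 524) (nat_lit 3596) (.d (nat_lit 589) (nat_lit 588) (nat_lit 1580) (nat_lit 590) (nat_lit 1581)))))) (.a (.p (nat_lit 562) (.a (.f (nat_lit 563) (nat_lit 527) (nat_lit 3599) (.f (nat_lit 532) (nat_lit 531) (nat_lit 2576) (.f (nat_lit 564) (nat_lit 533) (nat_lit 2577) (.d (nat_lit 596) (nat_lit 595) (nat_lit 560) (nat_lit 597) (nat_lit 561))))) (.a (.p (nat_lit 559) (.a (.f (nat_lit 595) (nat_lit 594) (nat_lit 559) (.f (nat_lit 563) (nat_lit 596) (nat_lit 560) (.d (nat_lit 531) (nat_lit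 530) (nat_lit 2575) (nat_lit 532) (nat_lit 2576)))) (.a (.f (nat_lit 558) (nat_lit 524) (nat_lit 3596) (.f (nat_lit 588) (nat_lit 589) (nat_lit 1580) (.f (nat_lit 556) (nat_lit 587) (nat_lit 1579) (.f (nat_lit 531) (nat_lit 530) (nat_lit 2575) (.f (nat_lit 563) (nat_lit 532) (nat_lit 2576) (.f (nat_lit 596) (nat_lit 595) (nat_lit 560) (.f (nat_lit 564) (nat_lit 597) (nat_lit 561) (.f (nat_lit 463) (nat_lit 431) (nat_lit 7599) (.f (nat_lit 461) (nat_lit 493) (nat_lit 5580) (.f (nat_lit 497) (nat_lit 462) (nat_lit 461) (.d (nat_lit 499) (nat_lit 467) (nat_lit 4563) (nat_lit 498) (nat_lit 3535)))))))))))) (.a (.f (nat_lit 558) (nat_lit 524) (nat_lit 3596) (.f (nat_lit 588) (nat_lit 589) (nat_lit 1580) (.f (nat_lit 556) (nat_lit 587) (nat_lit 1579) (.f (nat_lit 463) (nat_lit 431) (nat_lit 7599) (.f (nat_lit 461) (nat_lit 493) (nat_lit 5580) (.f (nat_lit 497) (nat_lit 462) (nat_lit 461) (.f (nat_lit 465) (nat_lit 592)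 (nat_lit 6608) (.f (nat_lit 498) (nat_lit 499) (nat_lit 3535) (.d (nat_lit 594) (nat_lit 530) (nat_lit 7633) (nat_lit 595) (nat_lit 559)))))))))) (.a (.f (nat_lit 558) (nat_lit 524) (nat_lit 3596) (.f (nat_lit 588) (nat_lit 589) (nat_lit 1580) (.f (nat_lit 556) (nat_lit 587) (nat_lit 1579) (.f (nat_lit 531) (nat_lit 530) (nat_lit 2575) (.f (nat_lit 563) (nat_lit 532) (nat_lit 2576) (.f (nat_lit 461) (nat_lit 493) (nat_lit 5580) (.f (nat_lit 463) (nat_lit 431) (nat_lit 7599) (.f (nat_lit 497) (nat_lit 462) (nat_lit 461) (.f (nat_lit 499) (nat_lit 498) (nat_lit 3535) (.f (nat_lit 467) (nat_lit 594) (nat_lit 5586) (.f (nat_lit 466) (nat_lit 434) (nat_lit 7602) (.d (nat_lit 468) (nat_lit 436) (nat_lit 6579) (nat_lit 465) (nat_lit 1488))))))))))))) (.f (nat_lit 558) (nat_lit 524) (nat_lit 3596) (.f (nat_lit 588) (nat_lit 589) (nat_lit 1580) (.f (nat_lit 556) (nat_lit 587) (nat_lit 1579) (.f (nat_lit 595) (nat_lit 594)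 (nat_lit 559) (.f (nat_lit 563) (nat_lit 596) (nat_lit 560) (.f (nat_lit 531) (nat_lit 532) (nat_lit 2576) (.f (nat_lit 463) (nat_lit 431) (nat_lit 7599) (.f (nat_lit 461) (nat_lit 493) (nat_lit 5580) (.f (nat_lit 497) (nat_lit 462) (nat_lit 461) (.f (nat_lit 499) (nat_lit 498) (nat_lit 3535) (.f (nat_lit 468) (nat_lit 500) (nat_lit 6611) (.f (nat_lit 467) (nat_lit 436) (nat_lit 6579) (.d (nat_lit 465) (nat_lit 466) (nat_lit 1488) (nat_lit 592) (nat_lit 6608))))))))))))))))))) (.a (.p (nat_lit 559) (.a (.f (nat_lit 558) (nat_lit 524) (nat_lit 3596) (.f (nat_lit 588) (nat_lit 589) (nat_lit 1580) (.f (nat_lit 556) (nat_lit 587) (nat_lit 1579) (.f (nat_lit 463) (nat_lit 431) (nat_lit 7599) (.f (nat_lit 461) (nat_lit 493) (nat_lit 5580) (.f (nat_lit 497) (nat_lit 462) (nat_lit 461) (.f (nat_lit 465) (nat_lit 592) (nat_lit 6608) (.f (nat_lit 498) (nat_lit 499) (nat_lit 3535) (.d (nat_lit 594) (nat_lit 530) (nat_lit 7633)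 (nat_lit 595) (nat_lit 559)))))))))) (.a (.f (nat_lit 558) (nat_lit 524) (nat_lit 3596) (.d (nat_lit 527) (nat_lit 432) (nat_lit 5551) (nat_lit 556) (nat_lit 2572))) (.f (nat_lit 432) (nat_lit 527) (nat_lit 5551) (.d (nat_lit 431) (nat_lit 399) (nat_lit 7567) (nat_lit 463) (nat_lit 7599)))))) (.f (nat_lit 563) (nat_lit 527) (nat_lit 3599) (.f (nat_lit 531) (nat_lit 532) (nat_lit 2576) (.f (nat_lit 559) (nat_lit 530) (nat_lit 2575) (.f (nat_lit 558) (nat_lit 524) (nat_lit 3596) (.f (nat_lit 588) (nat_lit 589) (nat_lit 1580) (.f (nat_lit 556) (nat_lit 587) (nat_lit 1579) (.f (nat_lit 463) (nat_lit 431) (nat_lit 7599) (.f (nat_lit 461) (nat_lit 493) (nat_lit 5580) (.f (nat_lit 497) (nat_lit 462) (nat_lit 461) (.f (nat_lit 499) (nat_lit 498) (nat_lit 3535) (.f (nat_lit 467) (nat_lit 594) (nat_lit 5586) (.f (nat_lit 466) (nat_lit 434) (nat_lit 7602) (.d (nat_lit 468) (nat_lit 436) (nat_lit 6579) (nat_lit 465) (nat_lit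 1488)))))))))))))))))) (.a (.p (nat_lit 559) (.a (.f (nat_lit 558) (nat_lit 524) (nat_lit 3596) (.d (nat_lit 527) (nat_lit 432) (nat_lit 5551) (nat_lit 556) (nat_lit 2572))) (.a (.p (nat_lit 461) (.a (.f (nat_lit 463) (nat_lit 431) (nat_lit 7599) (.f (nat_lit 462) (nat_lit 497) (nat_lit 461) (.d (nat_lit 493) (nat_lit 430) (nat_lit 6573) (nat_lit 492) (nat_lit 1484)))) (.a (.f (nat_lit 558) (nat_lit 524) (nat_lit 3596) (.f (nat_lit 493) (nat_lit 590) (nat_lit 4557) (.f (nat_lit 428) (nat_lit 460) (nat_lit 7596) (.f (nat_lit 429) (nat_lit 396) (nat_lit 7564) (.d (nat_lit 430) (nat_lit 398) (nat_lit 6541) (nat_lit 462) (nat_lit 6573)))))) (.a (.f (nat_lit 558) (nat_lit 524) (nat_lit 3596) (.f (nat_lit 493) (nat_lit 590) (nat_lit 4557) (.f (nat_lit 428) (nat_lit 460) (nat_lit 7596) (.f (nat_lit 429) (nat_lit 396) (nat_lit 7564) (.f (nat_lit 431) (nat_lit 463) (nat_lit 7599) (.f (nat_lit 430) (nat_lit 398) (nat_lit 6541)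 (.d (nat_lit 399) (nat_lit 400) (nat_lit 2444) (nat_lit 432) (nat_lit 7567)))))))) (.f (nat_lit 463) (nat_lit 431) (nat_lit 7599) (.f (nat_lit 462) (nat_lit 497) (nat_lit 461) (.f (nat_lit 428) (nat_lit 429) (nat_lit 3500) (.f (nat_lit 460) (nat_lit 427) (nat_lit 3499) (.d (nat_lit 492) (nat_lit 491) (nat_lit 1483) (nat_lit 524) (nat_lit 4524)))))))))) (.a (.f (nat_lit 432) (nat_lit 527) (nat_lit 5551) (.d (nat_lit 431) (nat_lit 399) (nat_lit 7567) (nat_lit 463) (nat_lit 7599))) (.p (nat_lit 562) (.a (.f (nat_lit 595) (nat_lit 594) (nat_lit 559) (.f (nat_lit 563) (nat_lit 596) (nat_lit 560) (.d (nat_lit 531) (nat_lit 530) (nat_lit 2575) (nat_lit 532) (nat_lit 2576)))) (.a (.f (nat_lit 558) (nat_lit 524) (nat_lit 3596) (.d (nat_lit 527) (nat_lit 556) (nat_lit 2572) (nat_lit 563) (nat_lit 3599))) (.f (nat_lit 558) (nat_lit 524) (nat_lit 3596) (.f (nat_lit 556) (nat_lit 527) (nat_lit 2572) (.f (nat_lit 588) (nat_lit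 587) (nat_lit 1579) (.f (nat_lit 461) (nat_lit 493) (nat_lit 5580) (.f (nat_lit 463) (nat_lit 431) (nat_lit 7599) (.f (nat_lit 497) (nat_lit 462) (nat_lit 461) (.f (nat_lit 498) (nat_lit 499) (nat_lit 3535) (.f (nat_lit 530) (nat_lit 531) (nat_lit 2575) (.d (nat_lit 594) (nat_lit 465) (nat_lit 7633) (nat_lit 595) (nat_lit 559))))))))))))))))) (.a (.p (nat_lit 493) (.a (.p (nat_lit 462) (.a (.f (nat_lit 461) (nat_lit 430) (nat_lit 6573) (.f (nat_lit 589) (nat_lit 494) (nat_lit 6605) (.d (nat_lit 588) (nat_lit 556) (nat_lit 5580) (nat_lit 620) (nat_lit 5612)))) (.a (.f (nat_lit 461) (nat_lit 430) (nat_lit 6573) (.d (nat_lit 463) (nat_lit 492) (nat_lit 1484) (nat_lit 497) (nat_lit 461))) (.f (nat_lit 589) (nat_lit 494) (nat_lit 6605) (.f (nat_lit 620) (nat_lit 588) (nat_lit 5612) (.f (nat_lit 621) (nat_lit 652) (nat_lit 5644) (.d (nat_lit 622) (nat_lit 590) (nat_lit 4589) (nat_lit 654) (nat_lit 4621)))))))) (.a (.p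 (nat_lit 461) (.a (.f (nat_lit 428) (nat_lit 460) (nat_lit 7596) (.f (nat_lit 429) (nat_lit 396) (nat_lit 7564) (.d (nat_lit 430) (nat_lit 398) (nat_lit 6541) (nat_lit 462) (nat_lit 6573)))) (.a (.f (nat_lit 460) (nat_lit 428) (nat_lit 7596) (.f (nat_lit 589) (nat_lit 492) (nat_lit 7628) (.d (nat_lit 588) (nat_lit 556) (nat_lit 5580) (nat_lit 620) (nat_lit 5612)))) (.f (nat_lit 462) (nat_lit 430) (nat_lit 6573) (.f (nat_lit 589) (nat_lit 494) (nat_lit 6605) (.d (nat_lit 588) (nat_lit 556) (nat_lit 5580) (nat_lit 620) (nat_lit 5612))))))) (.a s101560 (.a s101569 (.p (nat_lit 461) (.a (.f (nat_lit 428) (nat_lit 460) (nat_lit 7596) (.f (nat_lit 429) (nat_lit 396) (nat_lit 7564) (.d (nat_lit 430) (nat_lit 398) (nat_lit 6541) (nat_lit 462) (nat_lit 6573)))) (.a (.f (nat_lit 428) (nat_lit 460) (nat_lit 7596) (.f (nat_lit 429) (nat_lit 396) (nat_lit 7564) (.f (nat_lit 431) (nat_lit 463) (nat_lit 7599) (.f (nat_lit 432)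 (nat_lit 399) (nat_lit 7567) (.d (nat_lit 430) (nat_lit 398) (nat_lit 6541) (nat_lit 465) (nat_lit 429)))))) (.f (nat_lit 463) (nat_lit 431) (nat_lit 7599) (.d (nat_lit 462) (nat_lit 492) (nat_lit 1484) (nat_lit 497) (nat_lit 461))))))))))) (.p (nat_lit 562) (.a (.f (nat_lit 563) (nat_lit 527) (nat_lit 3599) (.f (nat_lit 532) (nat_lit 531) (nat_lit 2576) (.f (nat_lit 564) (nat_lit 533) (nat_lit 2577) (.d (nat_lit 596) (nat_lit 595) (nat_lit 560) (nat_lit 597) (nat_lit 561))))) (.a (.p (nat_lit 559) (.a (.f (nat_lit 595) (nat_lit 594) (nat_lit 559) (.f (nat_lit 563) (nat_lit 596) (nat_lit 560) (.d (nat_lit 531) (nat_lit 530) (nat_lit 2575) (nat_lit 532) (nat_lit 2576)))) (.a (.f (nat_lit 558) (nat_lit 524) (nat_lit 3596) (.f (nat_lit 590) (nat_lit 589) (nat_lit 1581) (.f (nat_lit 531) (nat_lit 530) (nat_lit 2575) (.f (nat_lit 563) (nat_lit 532) (nat_lit 2576) (.f (nat_lit 596) (nat_lit 595) (nat_lit 560) (.f (nat_lit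 564) (nat_lit 597) (nat_lit 561) (.f (nat_lit 463) (nat_lit 431) (nat_lit 7599) (.f (nat_lit 461) (nat_lit 493) (nat_lit 4557) (.f (nat_lit 497) (nat_lit 462) (nat_lit 461) (.d (nat_lit 499) (nat_lit 467) (nat_lit 4563) (nat_lit 498) (nat_lit 3535))))))))))) (.a (.f (nat_lit 558) (nat_lit 524) (nat_lit 3596) (.f (nat_lit 590) (nat_lit 589) (nat_lit 1581) (.f (nat_lit 463) (nat_lit 431) (nat_lit 7599) (.f (nat_lit 461) (nat_lit 493) (nat_lit 4557) (.f (nat_lit 497) (nat_lit 462) (nat_lit 461) (.f (nat_lit 465) (nat_lit 592) (nat_lit 6608) (.f (nat_lit 498) (nat_lit 499) (nat_lit 3535) (.d (nat_lit 594) (nat_lit 530) (nat_lit 7633) (nat_lit 595) (nat_lit 559))))))))) (.a (.f (nat_lit 558) (nat_lit 524) (nat_lit 3596) (.f (nat_lit 590) (nat_lit 589) (nat_lit 1581) (.f (nat_lit 531) (nat_lit 530) (nat_lit 2575) (.f (nat_lit 563) (nat_lit 532) (nat_lit 2576) (.f (nat_lit 461) (nat_lit 493) (nat_lit 4557) (.f (nat_lit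 463) (nat_lit 431) (nat_lit 7599) (.f (nat_lit 497) (nat_lit 462) (nat_lit 461) (.f (nat_lit 499) (nat_lit 498) (nat_lit 3535) (.f (nat_lit 467) (nat_lit 594) (nat_lit 5586) (.f (nat_lit 466) (nat_lit 434) (nat_lit 7602) (.d (nat_lit 468) (nat_lit 436) (nat_lit 6579) (nat_lit 465) (nat_lit 1488)))))))))))) (.f (nat_lit 558) (nat_lit 524) (nat_lit 3596) (.f (nat_lit 590) (nat_lit 589) (nat_lit 1581) (.f (nat_lit 595) (nat_lit 594) (nat_lit 559) (.f (nat_lit 563) (nat_lit 596) (nat_lit 560) (.f (nat_lit 531) (nat_lit 532) (nat_lit 2576) (.f (nat_lit 463) (nat_lit 431) (nat_lit 7599) (.f (nat_lit 461) (nat_lit 493) (nat_lit 4557) (.f (nat_lit 497) (nat_lit 462) (nat_lit 461) (.f (nat_lit 499) (nat_lit 498) (nat_lit 3535) (.f (nat_lit 468) (nat_lit 500) (nat_lit 6611) (.f (nat_lit 467) (nat_lit 436) (nat_lit 6579) (.d (nat_lit 465) (nat_lit 466) (nat_lit 1488) (nat_lit 592) (nat_lit 6608)))))))))))))))))) (.a (.p (nat_lit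 559) (.a (.f (nat_lit 558) (nat_lit 524) (nat_lit 3596) (.d (nat_lit 527) (nat_lit 432) (nat_lit 5551) (nat_lit 556) (nat_lit 2572))) (.a (.f (nat_lit 558) (nat_lit 524) (nat_lit 3596) (.f (nat_lit 590) (nat_lit 589) (nat_lit 1581) (.f (nat_lit 463) (nat_lit 431) (nat_lit 7599) (.f (nat_lit 461) (nat_lit 493) (nat_lit 4557) (.f (nat_lit 497) (nat_lit 462) (nat_lit 461) (.f (nat_lit 465) (nat_lit 592) (nat_lit 6608) (.f (nat_lit 498) (nat_lit 499) (nat_lit 3535) (.d (nat_lit 594) (nat_lit 530) (nat_lit 7633) (nat_lit 595) (nat_lit 559))))))))) (.f (nat_lit 432) (nat_lit 527) (nat_lit 5551) (.d (nat_lit 431) (nat_lit 399) (nat_lit 7567) (nat_lit 463) (nat_lit 7599)))))) (.f (nat_lit 563) (nat_lit 527) (nat_lit 3599) (.f (nat_lit 531) (nat_lit 532) (nat_lit 2576) (.f (nat_lit 559) (nat_lit 530) (nat_lit 2575) (.f (nat_lit 558) (nat_lit 524) (nat_lit 3596) (.f (nat_lit 590) (nat_lit 589) (nat_lit 1581) (.f (nat_lit 463)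 (nat_lit 431) (nat_lit 7599) (.f (nat_lit 461) (nat_lit 493) (nat_lit 4557) (.f (nat_lit 497) (nat_lit 462) (nat_lit 461) (.f (nat_lit 499) (nat_lit 498) (nat_lit 3535) (.f (nat_lit 467) (nat_lit 594) (nat_lit 5586) (.f (nat_lit 466) (nat_lit 434) (nat_lit 7602) (.d (nat_lit 468) (nat_lit 436) (nat_lit 6579) (nat_lit 465) (nat_lit 1488)))))))))))))))))))))))))) (.p (nat_lit 557) (.a (.f (nat_lit 527) (nat_lit 526) (nat_lit 525) (.f (nat_lit 559) (nat_lit 432) (nat_lit 5551) (.d (nat_lit 558) (nat_lit 524) (nat_lit 3596) (nat_lit 556) (nat_lit 2572)))) (.a s101599 (.a s101640 (.a s101470 (.a (.p (nat_lit 493) (.a s101602 (.a s101381 (.a (.p (nat_lit 461) (.a (.f (nat_lit 428) (nat_lit 460) (nat_lit 7596) (.f (nat_lit 429) (nat_lit 396) (nat_lit 7564) (.d (nat_lit 430) (nat_lit 398) (nat_lit 6541) (nat_lit 462) (nat_lit 6573)))) (.a (.f (nat_lit 460) (nat_lit 428) (nat_lit 7596) (.f (nat_lit 589) (nat_lit 492) (nat_lit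 7628) (.d (nat_lit 588) (nat_lit 556) (nat_lit 5580) (nat_lit 620) (nat_lit 5612)))) (.f (nat_lit 556) (nat_lit 588) (nat_lit 5580) (.f (nat_lit 429) (nat_lit 524) (nat_lit 5548) (.d (nat_lit 430) (nat_lit 398) (nat_lit 6541) (nat_lit 462) (nat_lit 6573))))))) (.a (.p (nat_lit 461) (.a (.f (nat_lit 460) (nat_lit 428) (nat_lit 7596) (.f (nat_lit 589) (nat_lit 492) (nat_lit 7628) (.d (nat_lit 588) (nat_lit 556) (nat_lit 5580) (nat_lit 620) (nat_lit 5612)))) (.a (.f (nat_lit 556) (nat_lit 588) (nat_lit 5580) (.f (nat_lit 429) (nat_lit 524) (nat_lit 5548) (.d (nat_lit 428) (nat_lit 396) (nat_lit 7564) (nat_lit 460) (nat_lit 7596)))) (.a (.f (nat_lit 460) (nat_lit 428) (nat_lit 7596) (.f (nat_lit 589) (nat_lit 492) (nat_lit 7628) (.f (nat_lit 620) (nat_lit 588) (nat_lit 5612) (.f (nat_lit 621) (nat_lit 652) (nat_lit 5644) (.d (nat_lit 622) (nat_lit 590) (nat_lit 4589) (nat_lit 654) (nat_lit 4621)))))) (.a (.f (nat_lit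 556) (nat_lit 588) (nat_lit 5580) (.f (nat_lit 429) (nat_lit 524) (nat_lit 5548) (.f (nat_lit 396) (nat_lit 428) (nat_lit 7564) (.f (nat_lit 397) (nat_lit 364) (nat_lit 7532) (.d (nat_lit 398) (nat_lit 366) (nat_lit 6509) (nat_lit 430) (nat_lit 6541)))))) (.a (.f (nat_lit 428) (nat_lit 460) (nat_lit 7596) (.f (nat_lit 429) (nat_lit 396) (nat_lit 7564) (.f (nat_lit 398) (nat_lit 430) (nat_lit 6541) (.f (nat_lit 397) (nat_lit 366) (nat_lit 6509) (.d (nat_lit 524) (nat_lit 492) (nat_lit 5516) (nat_lit 556) (nat_lit 5548)))))) (.f (nat_lit 588) (nat_lit 556) (nat_lit 5580) (.f (nat_lit 589) (nat_lit 620) (nat_lit 5612) (.f (nat_lit 622) (nat_lit 590) (nat_lit 4589) (.f (nat_lit 621) (nat_lit 654) (nat_lit 4621) (.d (nat_lit 492) (nat_lit 460) (nat_lit 7628) (nat_lit 524) (nat_lit 7660)))))))))))) (.a s101626 (.a s101664 (.a (.p (nat_lit 462) (.a (.f (nat_lit 461) (nat_lit 430) (nat_lit 6573) (.f (nat_lit 589) (nat_lit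 494) (nat_lit 6605) (.d (nat_lit 588) (nat_lit 556) (nat_lit 5580) (nat_lit 620) (nat_lit 5612)))) (.a (.f (nat_lit 461) (nat_lit 430) (nat_lit 6573) (.d (nat_lit 463) (nat_lit 492) (nat_lit 1484) (nat_lit 497) (nat_lit 461))) (.f (nat_lit 589) (nat_lit 494) (nat_lit 6605) (.f (nat_lit 620) (nat_lit 588) (nat_lit 5612) (.f (nat_lit 621) (nat_lit 652) (nat_lit 5644) (.d (nat_lit 622) (nat_lit 590) (nat_lit 4589) (nat_lit 654) (nat_lit 4621)))))))) (.a (.p (nat_lit 462) (.a (.f (nat_lit 589) (nat_lit 494) (nat_lit 6605) (.f (nat_lit 620) (nat_lit 588) (nat_lit 5612) (.f (nat_lit 621) (nat_lit 652) (nat_lit 5644) (.d (nat_lit 622) (nat_lit 590) (nat_lit 4589) (nat_lit 654) (nat_lit 4621))))) (.f (nat_lit 461) (nat_lit 430) (nat_lit 6573) (.d (nat_lit 463) (nat_lit 492) (nat_lit 1484) (nat_lit 497) (nat_lit 461))))) (.a s101666 (.p (nat_lit 462) (.a (.f (nat_lit 526) (nat_lit 527) (nat_lit 525) (.d (nat_lit 430) (nat_lit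 461) (nat_lit 6573) (nat_lit 494) (nat_lit 5549))) (.a (.f (nat_lit 589) (nat_lit 494) (nat_lit 6605) (.f (nat_lit 492) (nat_lit 460) (nat_lit 7628) (.f (nat_lit 621) (nat_lit 524) (nat_lit 7660) (.d (nat_lit 622) (nat_lit 590) (nat_lit 4589) (nat_lit 654) (nat_lit 4621))))) (.f (nat_lit 461) (nat_lit 430) (nat_lit 6573) (.d (nat_lit 463) (nat_lit 492) (nat_lit 1484) (nat_lit 497) (nat_lit 461)))))))))))))))) (.a (.f (nat_lit 527) (nat_lit 526) (nat_lit 525) (.f (nat_lit 559) (nat_lit 432) (nat_lit 5551) (.f (nat_lit 558) (nat_lit 556) (nat_lit 2572) (.d (nat_lit 589) (nat_lit 588) (nat_lit 1580) (nat_lit 590) (nat_lit 1581))))) (.f (nat_lit 527) (nat_lit 526) (nat_lit 525) (.f (nat_lit 559) (nat_lit 432) (nat_lit 5551) (.f (nat_lit 558) (nat_lit 524) (nat_lit 3596) (.d (nat_lit 589) (nat_lit 588) (nat_lit 1580) (nat_lit 590) (nat_lit 1581)))))))))))))))))))))))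
noncomputable def s102050 : Cert := .r (nat_lit 3773962425700235452942859537499461060075163908278653093808089520525807034510604090067035062124638561226338938838226782579810552216648911534601243193560008730745155616768) (.p (nat_lit 561) (.a (.f (nat_lit 593) (nat_lit 464) (nat_lit 4560) (.d (nat_lit 625) (nat_lit 592) (nat_lit 4592) (nat_lit 657) (nat_lit 7696))) (.a (.p (nat_lit 562) (.a (.f (nat_lit 527) (nat_lit 563) (nat_lit 3599) (.d (nat_lit 526) (nat_lit 525) (nat_lit 525) (nat_lit 559) (nat_lit 3598))) (.a (.p (nat_lit 563) (.a (.f (nat_lit 595) (nat_lit 596) (nat_lit 560) (.f (nat_lit 531) (nat_lit 532) (nat_lit 2576) (.d (nat_lit 559) (nat_lit 530) (nat_lit 2575) (nat_lit 594) (nat_lit 559)))) (.a (.f (nat_lit 596) (nat_lit 595) (nat_lit 560) (.f (nat_lit 564) (nat_lit 597) (nat_lit 561) (.d (nat_lit 532) (nat_lit 531) (nat_lit 2576) (nat_lit 533) (nat_lit 2577)))) (.a (.f (nat_lit 532) (nat_lit 531) (nat_lit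 2576) (.f (nat_lit 564) (nat_lit 533) (nat_lit 2577) (.f (nat_lit 593) (nat_lit 592) (nat_lit 1584) (.f (nat_lit 597) (nat_lit 596) (nat_lit 561) (.d (nat_lit 565) (nat_lit 594) (nat_lit 1585) (nat_lit 598) (nat_lit 562)))))) (.a (.f (nat_lit 596) (nat_lit 595) (nat_lit 560) (.f (nat_lit 564) (nat_lit 597) (nat_lit 561) (.f (nat_lit 593) (nat_lit 592) (nat_lit 1584) (.f (nat_lit 533) (nat_lit 532) (nat_lit 2577) (.d (nat_lit 565) (nat_lit 534) (nat_lit 2578) (nat_lit 594) (nat_lit 1585)))))) (.a (.f (nat_lit 531) (nat_lit 532) (nat_lit 2576) (.f (nat_lit 559) (nat_lit 530) (nat_lit 2575) (.f (nat_lit 594) (nat_lit 595) (nat_lit 559) (.f (nat_lit 593) (nat_lit 558) (nat_lit 558) (.d (nat_lit 564) (nat_lit 565) (nat_lit 1585) (nat_lit 592) (nat_lit 1584)))))) (.f (nat_lit 596) (nat_lit 595) (nat_lit 560) (.f (nat_lit 564) (nat_lit 597) (nat_lit 561) (.f (nat_lit 593) (nat_lit 592) (nat_lit 1584) (.f (nat_lit 594) (nat_lit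 565) (nat_lit 1585) (.f (nat_lit 625) (nat_lit 657) (nat_lit 7696) (.f (nat_lit 530) (nat_lit 498) (nat_lit 5617) (.d (nat_lit 559) (nat_lit 531) (nat_lit 2575) (nat_lit 558) (nat_lit 558)))))))))))))) (.a (.f (nat_lit 563) (nat_lit 527) (nat_lit 3599) (.f (nat_lit 596) (nat_lit 595) (nat_lit 560) (.f (nat_lit 564) (nat_lit 597) (nat_lit 561) (.d (nat_lit 532) (nat_lit 531) (nat_lit 2576) (nat_lit 533) (nat_lit 2577))))) (.p (nat_lit 559) (.a (.f (nat_lit 527) (nat_lit 526) (nat_lit 3598) (.f (nat_lit 594) (nat_lit 595) (nat_lit 559) (.f (nat_lit 558) (nat_lit 593) (nat_lit 558) (.f (nat_lit 557) (nat_lit 556) (nat_lit 2572) (.d (nat_lit 589) (nat_lit 588) (nat_lit 1580) (nat_lit 590) (nat_lit 1581)))))) (.a (.f (nat_lit 594) (nat_lit 595) (nat_lit 559) (.f (nat_lit 593) (nat_lit 558) (nat_lit 558) (.d (nat_lit 625) (nat_lit 592) (nat_lit 4592) (nat_lit 657) (nat_lit 7696)))) (.a (.p (nat_lit 558) (.a (.d (nat_lit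 526) (nat_lit 525) (nat_lit 3597) (nat_lit 527) (nat_lit 3598)) (.a (.f (nat_lit 589) (nat_lit 590) (nat_lit 1581) (.f (nat_lit 557) (nat_lit 588) (nat_lit 1580) (.d (nat_lit 525) (nat_lit 524) (nat_lit 3596) (nat_lit 526) (nat_lit 3597)))) (.a (.f (nat_lit 589) (nat_lit 590) (nat_lit 1581) (.f (nat_lit 557) (nat_lit 588) (nat_lit 1580) (.f (nat_lit 556) (nat_lit 527) (nat_lit 2572) (.d (nat_lit 524) (nat_lit 523) (nat_lit 3595) (nat_lit 525) (nat_lit 3596))))) (.f (nat_lit 527) (nat_lit 526) (nat_lit 3598) (.f (nat_lit 557) (nat_lit 556) (nat_lit 2572) (.d (nat_lit 589) (nat_lit 588) (nat_lit 1580) (nat_lit 590) (nat_lit 1581)))))))) (.p (nat_lit 498) (.a (.f (nat_lit 527) (nat_lit 526) (nat_lit 3598) (.f (nat_lit 497) (nat_lit 499) (nat_lit 1519) (.f (nat_lit 530) (nat_lit 531) (nat_lit 2575) (.d (nat_lit 594) (nat_lit 465) (nat_lit 7633) (nat_lit 595) (nat_lit 559))))) (.a (.f (nat_lit 530) (nat_lit 531) (nat_lit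 2575) (.f (nat_lit 594) (nat_lit 595) (nat_lit 559) (.f (nat_lit 465) (nat_lit 497) (nat_lit 7633) (.f (nat_lit 466) (nat_lit 433) (nat_lit 7601) (.d (nat_lit 467) (nat_lit 435) (nat_lit 6578) (nat_lit 499) (nat_lit 6610)))))) (.a (.f (nat_lit 527) (nat_lit 526) (nat_lit 3598) (.f (nat_lit 530) (nat_lit 531) (nat_lit 2575) (.f (nat_lit 594) (nat_lit 595) (nat_lit 559) (.d (nat_lit 499) (nat_lit 467) (nat_lit 6610) (nat_lit 497) (nat_lit 1519))))) (.a (.f (nat_lit 530) (nat_lit 531) (nat_lit 2575) (.f (nat_lit 594) (nat_lit 595) (nat_lit 559) (.d (nat_lit 593) (nat_lit 466) (nat_lit 5585) (nat_lit 625) (nat_lit 5617)))) (.a (.f (nat_lit 530) (nat_lit 531) (nat_lit 2575) (.f (nat_lit 593) (nat_lit 466) (nat_lit 5585) (.d (nat_lit 625) (nat_lit 592) (nat_lit 4592) (nat_lit 657) (nat_lit 6673)))) (.f (nat_lit 527) (nat_lit 526) (nat_lit 3598) (.f (nat_lit 497) (nat_lit 499) (nat_lit 1519) (.f (nat_lit 592) (nat_lit 465)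 (nat_lit 6608) (.f (nat_lit 624) (nat_lit 656) (nat_lit 7695) (.d (nat_lit 625) (nat_lit 593) (nat_lit 4592) (nat_lit 657) (nat_lit 4624)))))))))))))))))))) (.a (.f (nat_lit 464) (nat_lit 593) (nat_lit 4560) (.f (nat_lit 433) (nat_lit 465) (nat_lit 6576) (.f (nat_lit 432) (nat_lit 401) (nat_lit 6544) (.d (nat_lit 431) (nat_lit 399) (nat_lit 7567) (nat_lit 463) (nat_lit 7599))))) s102049))))
noncomputable def s102125 : Cert := .r (nat_lit 3773962425700235452738272624505952193199339552226928146794549392648115485167898379561026699849346401546134558067857772757880134458676407096525164659442171664912122642432) (.p (nat_lit 496) (.a s100417 (.a (.p (nat_lit 592) (.a (.f (nat_lit 593) (nat_lit 625) (nat_lit 4592) (.f (nat_lit 464) (nat_lit 561) (nat_lit 4560) (.d (nat_lit 465) (nat_lit 433) (nat_lit 6576) (nat_lit 497) (nat_lit 6608)))) (.a (.f (nat_lit 495) (nat_lit 463) (nat_lit 7631) (.f (nat_lit 497) (nat_lit 465) (nat_lit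 6608) (.f (nat_lit 527) (nat_lit 624) (nat_lit 7663) (.d (nat_lit 526) (nat_lit 498) (nat_lit 1518) (nat_lit 525) (nat_lit 2541))))) (.f (nat_lit 593) (nat_lit 625) (nat_lit 4592) (.f (nat_lit 561) (nat_lit 464) (nat_lit 4560) (.f (nat_lit 495) (nat_lit 463) (nat_lit 7631) (.f (nat_lit 527) (nat_lit 624) (nat_lit 7663) (.f (nat_lit 526) (nat_lit 525) (nat_lit 525) (.d (nat_lit 562) (nat_lit 559) (nat_lit 3598) (nat_lit 563) (nat_lit 3599)))))))))) (.a (.p (nat_lit 561) (.a (.f (nat_lit 593) (nat_lit 464) (nat_lit 4560) (.d (nat_lit 625) (nat_lit 592) (nat_lit 4592) (nat_lit 657) (nat_lit 7696))) (.a (.p (nat_lit 559) (.a (.f (nat_lit 464) (nat_lit 593) (nat_lit 4560) (.f (nat_lit 527) (nat_lit 432) (nat_lit 5551) (.d (nat_lit 562) (nat_lit 526) (nat_lit 3598) (nat_lit 563) (nat_lit 3599)))) (.a (.f (nat_lit 593) (nat_lit 464) (nat_lit 4560) (.f (nat_lit 558) (nat_lit 594) (nat_lit 558) (.f (nat_lit 589) (nat_lit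 590) (nat_lit 1581) (.f (nat_lit 557) (nat_lit 588) (nat_lit 1580) (.d (nat_lit 525) (nat_lit 524) (nat_lit 3596) (nat_lit 526) (nat_lit 3597)))))) (.a (.p (nat_lit 562) (.a (.f (nat_lit 527) (nat_lit 526) (nat_lit 3598) (.f (nat_lit 594) (nat_lit 595) (nat_lit 559) (.f (nat_lit 558) (nat_lit 593) (nat_lit 558) (.f (nat_lit 557) (nat_lit 556) (nat_lit 2572) (.d (nat_lit 589) (nat_lit 588) (nat_lit 1580) (nat_lit 590) (nat_lit 1581)))))) (.a (.f (nat_lit 594) (nat_lit 595) (nat_lit 559) (.f (nat_lit 530) (nat_lit 531) (nat_lit 2575) (.f (nat_lit 593) (nat_lit 558) (nat_lit 558) (.d (nat_lit 498) (nat_lit 466) (nat_lit 5585) (nat_lit 625) (nat_lit 5617))))) (.a (.f (nat_lit 595) (nat_lit 594) (nat_lit 559) (.f (nat_lit 563) (nat_lit 596) (nat_lit 560) (.d (nat_lit 531) (nat_lit 530) (nat_lit 2575) (nat_lit 532) (nat_lit 2576)))) (.d (nat_lit 527) (nat_lit 526) (nat_lit 3598) (nat_lit 563) (nat_lit 3599)))))) (.a (.p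 (nat_lit 558) (.a (.f (nat_lit 526) (nat_lit 525) (nat_lit 3597) (.f (nat_lit 527) (nat_lit 562) (nat_lit 3598) (.f (nat_lit 590) (nat_lit 589) (nat_lit 1581) (.d (nat_lit 495) (nat_lit 463) (nat_lit 5582) (nat_lit 622) (nat_lit 6638))))) (.a (.f (nat_lit 589) (nat_lit 590) (nat_lit 1581) (.f (nat_lit 557) (nat_lit 588) (nat_lit 1580) (.d (nat_lit 525) (nat_lit 524) (nat_lit 3596) (nat_lit 526) (nat_lit 3597)))) (.a (.f (nat_lit 589) (nat_lit 590) (nat_lit 1581) (.f (nat_lit 557) (nat_lit 588) (nat_lit 1580) (.f (nat_lit 556) (nat_lit 527) (nat_lit 2572) (.d (nat_lit 524) (nat_lit 523) (nat_lit 3595) (nat_lit 525) (nat_lit 3596))))) (.a (.f (nat_lit 589) (nat_lit 590) (nat_lit 1581) (.f (nat_lit 557) (nat_lit 588) (nat_lit 1580) (.f (nat_lit 527) (nat_lit 556) (nat_lit 2572) (.d (nat_lit 562) (nat_lit 526) (nat_lit 3598) (nat_lit 563) (nat_lit 3599))))) (.a (.f (nat_lit 526) (nat_lit 525) (nat_lit 3597) (.f (nat_lit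 527) (nat_lit 562) (nat_lit 3598) (.f (nat_lit 557) (nat_lit 556) (nat_lit 2572) (.f (nat_lit 589) (nat_lit 588) (nat_lit 1580) (.f (nat_lit 464) (nat_lit 432) (nat_lit 5551) (.f (nat_lit 463) (nat_lit 431) (nat_lit 7599) (.f (nat_lit 462) (nat_lit 494) (nat_lit 5581) (.f (nat_lit 497) (nat_lit 461) (nat_lit 461) (.d (nat_lit 498) (nat_lit 465) (nat_lit 462) (nat_lit 495) (nat_lit 1518)))))))))) (.f (nat_lit 526) (nat_lit 525) (nat_lit 3597) (.f (nat_lit 527) (nat_lit 562) (nat_lit 3598) (.f (nat_lit 464) (nat_lit 432) (nat_lit 5551) (.f (nat_lit 463) (nat_lit 431) (nat_lit 7599) (.f (nat_lit 495) (nat_lit 590) (nat_lit 5582) (.f (nat_lit 462) (nat_lit 430) (nat_lit 7598) (.d (nat_lit 461) (nat_lit 460) (nat_lit 460) (nat_lit 497) (nat_lit 461)))))))))))))) (.f (nat_lit 464) (nat_lit 593) (nat_lit 4560) (.f (nat_lit 432) (nat_lit 527) (nat_lit 5551) (.d (nat_lit 431) (nat_lit 399) (nat_lit 7567) (nat_lit 463) (nat_lit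 7599))))))))) (.a (.p (nat_lit 592) (.a (.f (nat_lit 495) (nat_lit 463) (nat_lit 7631) (.f (nat_lit 527) (nat_lit 624) (nat_lit 7663) (.f (nat_lit 526) (nat_lit 525) (nat_lit 525) (.d (nat_lit 497) (nat_lit 465) (nat_lit 6608) (nat_lit 498) (nat_lit 1518))))) (.a (.p (nat_lit 624) (.a (.d (nat_lit 625) (nat_lit 593) (nat_lit 4592) (nat_lit 657) (nat_lit 4624)) (.a (.f (nat_lit 655) (nat_lit 623) (nat_lit 5647) (.f (nat_lit 656) (nat_lit 687) (nat_lit 5679) (.d (nat_lit 657) (nat_lit 625) (nat_lit 4624) (nat_lit 689) (nat_lit 4656)))) (.a (.f (nat_lit 655) (nat_lit 623) (nat_lit 5647) (.f (nat_lit 656) (nat_lit 687) (nat_lit 5679) (.f (nat_lit 689) (nat_lit 657) (nat_lit 4656) (.d (nat_lit 688) (nat_lit 593) (nat_lit 6704) (nat_lit 721) (nat_lit 4688))))) (.f (nat_lit 593) (nat_lit 625) (nat_lit 4592) (.f (nat_lit 656) (nat_lit 688) (nat_lit 6704) (.d (nat_lit 655) (nat_lit 623) (nat_lit 5647) (nat_lit 687) (nat_lit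 5679)))))))) (.p (nat_lit 526) (.a (.f (nat_lit 593) (nat_lit 625) (nat_lit 4592) (.f (nat_lit 495) (nat_lit 463) (nat_lit 7631) (.f (nat_lit 497) (nat_lit 465) (nat_lit 6608) (.f (nat_lit 494) (nat_lit 525) (nat_lit 1517) (.f (nat_lit 461) (nat_lit 462) (nat_lit 3533) (.f (nat_lit 493) (nat_lit 460) (nat_lit 3532) (.f (nat_lit 558) (nat_lit 590) (nat_lit 7629) (.d (nat_lit 559) (nat_lit 557) (nat_lit 557) (nat_lit 594) (nat_lit 558))))))))) (.a (.f (nat_lit 527) (nat_lit 525) (nat_lit 525) (.d (nat_lit 562) (nat_lit 559) (nat_lit 3598) (nat_lit 563) (nat_lit 3599))) (.a (.f (nat_lit 527) (nat_lit 525) (nat_lit 525) (.f (nat_lit 495) (nat_lit 463) (nat_lit 7631) (.d (nat_lit 497) (nat_lit 465) (nat_lit 6608) (nat_lit 498) (nat_lit 1518)))) (.f (nat_lit 495) (nat_lit 463) (nat_lit 7631) (.f (nat_lit 497) (nat_lit 465) (nat_lit 6608) (.f (nat_lit 498) (nat_lit 527) (nat_lit 1518) (.f (nat_lit 531) (nat_lit 530) (nat_lit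 495) (.f (nat_lit 499) (nat_lit 532) (nat_lit 496) (.d (nat_lit 467) (nat_lit 466) (nat_lit 2511) (nat_lit 468) (nat_lit 2512)))))))))))))) (.p (nat_lit 527) (.a (.f (nat_lit 526) (nat_lit 525) (nat_lit 525) (.d (nat_lit 562) (nat_lit 559) (nat_lit 3598) (nat_lit 563) (nat_lit 3599))) (.a (.p (nat_lit 495) (.a (.p (nat_lit 494) (.a (.f (nat_lit 526) (nat_lit 525) (nat_lit 525) (.f (nat_lit 463) (nat_lit 431) (nat_lit 4527) (.f (nat_lit 497) (nat_lit 498) (nat_lit 1518) (.f (nat_lit 462) (nat_lit 461) (nat_lit 3533) (.f (nat_lit 430) (nat_lit 398) (nat_lit 4494) (.f (nat_lit 465) (nat_lit 466) (nat_lit 2510) (.d (nat_lit 429) (nat_lit 397) (nat_lit 7565) (nat_lit 464) (nat_lit 3501)))))))) (.a (.f (nat_lit 526) (nat_lit 525) (nat_lit 525) (.f (nat_lit 497) (nat_lit 498) (nat_lit 1518) (.f (nat_lit 493) (nat_lit 492) (nat_lit 492) (.d (nat_lit 461) (nat_lit 460) (nat_lit 3532) (nat_lit 462) (nat_lit 3533))))) (.a (.f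 (nat_lit 463) (nat_lit 431) (nat_lit 4527) (.f (nat_lit 493) (nat_lit 492) (nat_lit 492) (.f (nat_lit 464) (nat_lit 465) (nat_lit 2509) (.f (nat_lit 461) (nat_lit 460) (nat_lit 3532) (.f (nat_lit 462) (nat_lit 497) (nat_lit 461) (.f (nat_lit 430) (nat_lit 398) (nat_lit 4494) (.d (nat_lit 525) (nat_lit 524) (nat_lit 1516) (nat_lit 557) (nat_lit 6573)))))))) (.a (.f (nat_lit 463) (nat_lit 431) (nat_lit 4527) (.f (nat_lit 493) (nat_lit 492) (nat_lit 492) (.f (nat_lit 464) (nat_lit 465) (nat_lit 2509) (.f (nat_lit 461) (nat_lit 460) (nat_lit 3532) (.f (nat_lit 497) (nat_lit 462) (nat_lit 461) (.d (nat_lit 498) (nat_lit 499) (nat_lit 1519) (nat_lit 526) (nat_lit 1518))))))) (.f (nat_lit 493) (nat_lit 492) (nat_lit 492) (.d (nat_lit 525) (nat_lit 524) (nat_lit 1516) (nat_lit 526) (nat_lit 525)))))))) (.a (.d (nat_lit 463) (nat_lit 431) (nat_lit 4527) (nat_lit 592) (nat_lit 7631)) (.f (nat_lit 526) (nat_lit 525) (nat_lit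 525) (.f (nat_lit 497) (nat_lit 498) (nat_lit 1518) (.d (nat_lit 592) (nat_lit 465) (nat_lit 6608) (nat_lit 624) (nat_lit 7663))))))) (.p (nat_lit 464) (.a (.f (nat_lit 432) (nat_lit 559) (nat_lit 5551) (.d (nat_lit 431) (nat_lit 399) (nat_lit 7567) (nat_lit 463) (nat_lit 7599))) (.a (.f (nat_lit 432) (nat_lit 559) (nat_lit 5551) (.f (nat_lit 400) (nat_lit 495) (nat_lit 5519) (.d (nat_lit 399) (nat_lit 367) (nat_lit 7535) (nat_lit 431) (nat_lit 7567)))) (.a (.p (nat_lit 497) (.a (.f (nat_lit 463) (nat_lit 431) (nat_lit 7599) (.f (nat_lit 498) (nat_lit 499) (nat_lit 1519) (.d (nat_lit 462) (nat_lit 465) (nat_lit 462) (nat_lit 495) (nat_lit 3534)))) (.a (.f (nat_lit 465) (nat_lit 592) (nat_lit 6608) (.f (nat_lit 498) (nat_lit 499) (nat_lit 1519) (.f (nat_lit 562) (nat_lit 563) (nat_lit 3599) (.f (nat_lit 530) (nat_lit 594) (nat_lit 7633) (.f (nat_lit 495) (nat_lit 531) (nat_lit 495) (.d (nat_lit 494) (nat_lit 466)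 (nat_lit 2510) (nat_lit 493) (nat_lit 2509))))))) (.a (.f (nat_lit 463) (nat_lit 431) (nat_lit 7599) (.f (nat_lit 498) (nat_lit 499) (nat_lit 1519) (.d (nat_lit 495) (nat_lit 462) (nat_lit 3534) (nat_lit 592) (nat_lit 7631)))) (.a (.f (nat_lit 463) (nat_lit 431) (nat_lit 7599) (.f (nat_lit 498) (nat_lit 499) (nat_lit 1519) (.d (nat_lit 462) (nat_lit 461) (nat_lit 461) (nat_lit 465) (nat_lit 462)))) (.f (nat_lit 431) (nat_lit 463) (nat_lit 7599) (.f (nat_lit 432) (nat_lit 399) (nat_lit 7567) (.f (nat_lit 400) (nat_lit 495) (nat_lit 5519) (.f (nat_lit 368) (nat_lit 465) (nat_lit 4464) (.d (nat_lit 369) (nat_lit 337) (nat_lit 6480) (nat_lit 401) (nat_lit 6512))))))))))) (.a (.f (nat_lit 432) (nat_lit 559) (nat_lit 5551) (.f (nat_lit 400) (nat_lit 495) (nat_lit 5519) (.f (nat_lit 369) (nat_lit 401) (nat_lit 6512) (.f (nat_lit 368) (nat_lit 337) (nat_lit 6480) (.d (nat_lit 367) (nat_lit 335) (nat_lit 7503) (nat_lit 399)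 (nat_lit 7535)))))) (.p (nat_lit 497) (.a (.f (nat_lit 463) (nat_lit 431) (nat_lit 7599) (.f (nat_lit 498) (nat_lit 499) (nat_lit 1519) (.d (nat_lit 462) (nat_lit 465) (nat_lit 462) (nat_lit 495) (nat_lit 3534)))) (.a (.f (nat_lit 465) (nat_lit 592) (nat_lit 6608) (.f (nat_lit 498) (nat_lit 499) (nat_lit 1519) (.f (nat_lit 562) (nat_lit 563) (nat_lit 3599) (.f (nat_lit 530) (nat_lit 594) (nat_lit 7633) (.f (nat_lit 495) (nat_lit 531) (nat_lit 495) (.d (nat_lit 494) (nat_lit 466) (nat_lit 2510) (nat_lit 493) (nat_lit 2509))))))) (.a (.f (nat_lit 463) (nat_lit 431) (nat_lit 7599) (.f (nat_lit 498) (nat_lit 499) (nat_lit 1519) (.d (nat_lit 495) (nat_lit 462) (nat_lit 3534) (nat_lit 592) (nat_lit 7631)))) (.a (.f (nat_lit 463) (nat_lit 431) (nat_lit 7599) (.f (nat_lit 498) (nat_lit 499) (nat_lit 1519) (.d (nat_lit 462) (nat_lit 461) (nat_lit 461) (nat_lit 465) (nat_lit 462)))) (.f (nat_lit 463) (nat_lit 431) (nat_lit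 7599) (.d (nat_lit 592) (nat_lit 465) (nat_lit 6608) (nat_lit 495) (nat_lit 7631)))))))))))))))))))) (.a (.p (nat_lit 527) (.a (.p (nat_lit 464) (.a (.f (nat_lit 561) (nat_lit 593) (nat_lit 4560) (.f (nat_lit 526) (nat_lit 525) (nat_lit 525) (.d (nat_lit 562) (nat_lit 559) (nat_lit 3598) (nat_lit 563) (nat_lit 3599)))) (.a (.f (nat_lit 432) (nat_lit 559) (nat_lit 5551) (.f (nat_lit 400) (nat_lit 495) (nat_lit 5519) (.d (nat_lit 399) (nat_lit 367) (nat_lit 7535) (nat_lit 431) (nat_lit 7567)))) (.f (nat_lit 593) (nat_lit 561) (nat_lit 4560) (.f (nat_lit 592) (nat_lit 625) (nat_lit 4592) (.f (nat_lit 495) (nat_lit 624) (nat_lit 7663) (.f (nat_lit 497) (nat_lit 465) (nat_lit 6608) (.d (nat_lit 526) (nat_lit 498) (nat_lit 1518) (nat_lit 525) (nat_lit 2541))))))))) (.a (.p (nat_lit 464) (.a (.f (nat_lit 561) (nat_lit 593) (nat_lit 4560) (.f (nat_lit 526) (nat_lit 525) (nat_lit 525) (.d (nat_lit 562) (nat_lit 559) (nat_lit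 3598) (nat_lit 563) (nat_lit 3599)))) (.a (.f (nat_lit 432) (nat_lit 559) (nat_lit 5551) (.f (nat_lit 400) (nat_lit 495) (nat_lit 5519) (.d (nat_lit 399) (nat_lit 367) (nat_lit 7535) (nat_lit 431) (nat_lit 7567)))) (.f (nat_lit 433) (nat_lit 465) (nat_lit 6576) (.f (nat_lit 432) (nat_lit 401) (nat_lit 6544) (.f (nat_lit 400) (nat_lit 495) (nat_lit 5519) (.d (nat_lit 399) (nat_lit 367) (nat_lit 7535) (nat_lit 431) (nat_lit 7567)))))))) (.a (.p (nat_lit 592) (.a (.f (nat_lit 624) (nat_lit 495) (nat_lit 7663) (.d (nat_lit 625) (nat_lit 593) (nat_lit 4592) (nat_lit 657) (nat_lit 4624))) (.a (.f (nat_lit 624) (nat_lit 495) (nat_lit 7663) (.f (nat_lit 656) (nat_lit 559) (nat_lit 7695) (.d (nat_lit 655) (nat_lit 623) (nat_lit 5647) (nat_lit 687) (nat_lit 5679)))) (.a (.f (nat_lit 497) (nat_lit 465) (nat_lit 6608) (.f (nat_lit 526) (nat_lit 525) (nat_lit 2541) (.d (nat_lit 498) (nat_lit 495) (nat_lit 1518) (nat_lit 499)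 (nat_lit 1519)))) (.f (nat_lit 625) (nat_lit 593) (nat_lit 4592) (.f (nat_lit 624) (nat_lit 657) (nat_lit 4624) (.f (nat_lit 655) (nat_lit 623) (nat_lit 5647) (.d (nat_lit 656) (nat_lit 559) (nat_lit 7695) (nat_lit 687) (nat_lit 5679))))))))) (.a (.p (nat_lit 464) (.a (.f (nat_lit 432) (nat_lit 559) (nat_lit 5551) (.f (nat_lit 400) (nat_lit 495) (nat_lit 5519) (.d (nat_lit 399) (nat_lit 367) (nat_lit 7535) (nat_lit 431) (nat_lit 7567)))) (.a (.f (nat_lit 433) (nat_lit 465) (nat_lit 6576) (.f (nat_lit 432) (nat_lit 401) (nat_lit 6544) (.f (nat_lit 400) (nat_lit 495) (nat_lit 5519) (.d (nat_lit 399) (nat_lit 367) (nat_lit 7535) (nat_lit 431) (nat_lit 7567))))) (.a (.f (nat_lit 432) (nat_lit 559) (nat_lit 5551) (.d (nat_lit 433) (nat_lit 401) (nat_lit 6544) (nat_lit 465) (nat_lit 6576))) (.f (nat_lit 465) (nat_lit 433) (nat_lit 6576) (.f (nat_lit 497) (nat_lit 592) (nat_lit 6608) (.f (nat_lit 526) (nat_lit 525) (nat_lit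 2541) (.d (nat_lit 498) (nat_lit 495) (nat_lit 1518) (nat_lit 499) (nat_lit 1519))))))))) (.a (.p (nat_lit 592) (.a (.f (nat_lit 624) (nat_lit 495) (nat_lit 7663) (.d (nat_lit 625) (nat_lit 593) (nat_lit 4592) (nat_lit 657) (nat_lit 4624))) (.a (.f (nat_lit 497) (nat_lit 465) (nat_lit 6608) (.f (nat_lit 526) (nat_lit 525) (nat_lit 2541) (.d (nat_lit 498) (nat_lit 495) (nat_lit 1518) (nat_lit 499) (nat_lit 1519)))) (.f (nat_lit 593) (nat_lit 625) (nat_lit 4592) (.f (nat_lit 464) (nat_lit 561) (nat_lit 4560) (.d (nat_lit 465) (nat_lit 433) (nat_lit 6576) (nat_lit 497) (nat_lit 6608))))))) (.a (.p (nat_lit 561) (.a (.f (nat_lit 526) (nat_lit 525) (nat_lit 525) (.d (nat_lit 562) (nat_lit 559) (nat_lit 3598) (nat_lit 563) (nat_lit 3599))) (.f (nat_lit 593) (nat_lit 464) (nat_lit 4560) (.d (nat_lit 625) (nat_lit 592) (nat_lit 4592) (nat_lit 657) (nat_lit 7696))))) (.p (nat_lit 464) (.a (.f (nat_lit 432) (nat_lit 559) (nat_lit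 5551) (.f (nat_lit 400) (nat_lit 495) (nat_lit 5519) (.d (nat_lit 399) (nat_lit 367) (nat_lit 7535) (nat_lit 431) (nat_lit 7567)))) (.a (.f (nat_lit 433) (nat_lit 465) (nat_lit 6576) (.f (nat_lit 432) (nat_lit 401) (nat_lit 6544) (.f (nat_lit 400) (nat_lit 495) (nat_lit 5519) (.d (nat_lit 399) (nat_lit 367) (nat_lit 7535) (nat_lit 431) (nat_lit 7567))))) (.a (.f (nat_lit 432) (nat_lit 559) (nat_lit 5551) (.d (nat_lit 433) (nat_lit 401) (nat_lit 6544) (nat_lit 465) (nat_lit 6576))) (.f (nat_lit 465) (nat_lit 433) (nat_lit 6576) (.f (nat_lit 592) (nat_lit 497) (nat_lit 6608) (.d (nat_lit 593) (nat_lit 561) (nat_lit 4560) (nat_lit 625) (nat_lit 4592))))))))))))))) (.a (.p (nat_lit 495) (.a (.f (nat_lit 592) (nat_lit 463) (nat_lit 7631) (.f (nat_lit 497) (nat_lit 465) (nat_lit 6608) (.f (nat_lit 527) (nat_lit 624) (nat_lit 7663) (.d (nat_lit 526) (nat_lit 498) (nat_lit 1518) (nat_lit 525) (nat_lit 2541))))) (.a (.p (nat_lit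 497) (.a (.f (nat_lit 592) (nat_lit 465) (nat_lit 6608) (.f (nat_lit 527) (nat_lit 624) (nat_lit 7663) (.d (nat_lit 526) (nat_lit 498) (nat_lit 1518) (nat_lit 525) (nat_lit 2541)))) (.a s34002 (.a (.f (nat_lit 465) (nat_lit 592) (nat_lit 6608) (.f (nat_lit 494) (nat_lit 466) (nat_lit 2510) (.f (nat_lit 525) (nat_lit 526) (nat_lit 1517) (.f (nat_lit 493) (nat_lit 524) (nat_lit 1516) (.d (nat_lit 461) (nat_lit 460) (nat_lit 3532) (nat_lit 462) (nat_lit 3533)))))) (.a s34020 (.f (nat_lit 592) (nat_lit 465) (nat_lit 6608) (.f (nat_lit 624) (nat_lit 527) (nat_lit 7663) (.d (nat_lit 625) (nat_lit 593) (nat_lit 4592) (nat_lit 657) (nat_lit 4624))))))))) (.a (.f (nat_lit 592) (nat_lit 463) (nat_lit 7631) (.f (nat_lit 624) (nat_lit 527) (nat_lit 7663) (.d (nat_lit 625) (nat_lit 593) (nat_lit 4592) (nat_lit 657) (nat_lit 4624)))) (.a (.p (nat_lit 494) (.a s34040 (.a s100606 (.a (.p (nat_lit 526) (.a (.f (nat_lit 525) (nat_lit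 497) (nat_lit 1517) (.d (nat_lit 524) (nat_lit 493) (nat_lit 1516) (nat_lit 523) (nat_lit 2539))) (.f (nat_lit 463) (nat_lit 592) (nat_lit 7631) (.f (nat_lit 431) (nat_lit 399) (nat_lit 4495) (.d (nat_lit 558) (nat_lit 462) (nat_lit 6574) (nat_lit 590) (nat_lit 6606)))))) (.a (.p (nat_lit 493) (.a (.f (nat_lit 461) (nat_lit 460) (nat_lit 3532) (.f (nat_lit 525) (nat_lit 524) (nat_lit 1516) (.f (nat_lit 462) (nat_lit 497) (nat_lit 3533) (.d (nat_lit 430) (nat_lit 398) (nat_lit 5517) (nat_lit 557) (nat_lit 6573))))) (.a (.f (nat_lit 461) (nat_lit 460) (nat_lit 3532) (.f (nat_lit 497) (nat_lit 462) (nat_lit 3533) (.d (nat_lit 465) (nat_lit 466) (nat_lit 2510) (nat_lit 592) (nat_lit 6608)))) (.a (.f (nat_lit 460) (nat_lit 461) (nat_lit 3532) (.f (nat_lit 492) (nat_lit 459) (nat_lit 3531) (.d (nat_lit 524) (nat_lit 523) (nat_lit 1515) (nat_lit 525) (nat_lit 1516)))) (.a (.f (nat_lit 463) (nat_lit 592) (nat_lit 7631) (.f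 (nat_lit 524) (nat_lit 525) (nat_lit 1516) (.f (nat_lit 492) (nat_lit 523) (nat_lit 1515) (.f (nat_lit 491) (nat_lit 462) (nat_lit 2507) (.d (nat_lit 459) (nat_lit 458) (nat_lit 3530) (nat_lit 460) (nat_lit 3531)))))) (.f (nat_lit 592) (nat_lit 463) (nat_lit 7631) (.f (nat_lit 497) (nat_lit 465) (nat_lit 6608) (.f (nat_lit 625) (nat_lit 593) (nat_lit 4592) (.f (nat_lit 624) (nat_lit 657) (nat_lit 4624) (.f (nat_lit 623) (nat_lit 655) (nat_lit 5647) (.f (nat_lit 525) (nat_lit 524) (nat_lit 1516) (.f (nat_lit 462) (nat_lit 461) (nat_lit 3533) (.f (nat_lit 589) (nat_lit 557) (nat_lit 6605) (.f (nat_lit 622) (nat_lit 590) (nat_lit 3661) (.f (nat_lit 621) (nat_lit 588) (nat_lit 3660) (.d (nat_lit 653) (nat_lit 652) (nat_lit 1644) (nat_lit 654) (nat_lit 1645))))))))))))))))) (.a (.p (nat_lit 497) (.a (.d (nat_lit 592) (nat_lit 463) (nat_lit 7631) (nat_lit 465) (nat_lit 6608)) (.a (.f (nat_lit 462) (nat_lit 461) (nat_lit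 3533) (.f (nat_lit 498) (nat_lit 463) (nat_lit 3534) (.d (nat_lit 466) (nat_lit 465) (nat_lit 2510) (nat_lit 467) (nat_lit 2511)))) (.a (.d (nat_lit 465) (nat_lit 466) (nat_lit 2510) (nat_lit 592) (nat_lit 6608)) (.f (nat_lit 463) (nat_lit 592) (nat_lit 7631) (.d (nat_lit 462) (nat_lit 461) (nat_lit 3533) (nat_lit 498) (nat_lit 3534))))))) (.a (.p (nat_lit 493) (.a (.f (nat_lit 460) (nat_lit 461) (nat_lit 3532) (.f (nat_lit 492) (nat_lit 459) (nat_lit 3531) (.d (nat_lit 524) (nat_lit 523) (nat_lit 1515) (nat_lit 525) (nat_lit 1516)))) (.a (.f (nat_lit 463) (nat_lit 592) (nat_lit 7631) (.f (nat_lit 460) (nat_lit 461) (nat_lit 3532) (.f (nat_lit 492) (nat_lit 459) (nat_lit 3531) (.f (nat_lit 523) (nat_lit 524) (nat_lit 1515) (.d (nat_lit 491) (nat_lit 462) (nat_lit 2507) (nat_lit 522) (nat_lit 1514)))))) (.a (.f (nat_lit 463) (nat_lit 592) (nat_lit 7631) (.f (nat_lit 524) (nat_lit 525) (nat_lit 1516) (.f (nat_lit 492)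 (nat_lit 523) (nat_lit 1515) (.f (nat_lit 491) (nat_lit 462) (nat_lit 2507) (.d (nat_lit 459) (nat_lit 458) (nat_lit 3530) (nat_lit 460) (nat_lit 3531)))))) (.a (.p (nat_lit 558) (.a (.f (nat_lit 461) (nat_lit 460) (nat_lit 3532) (.f (nat_lit 526) (nat_lit 590) (nat_lit 7629) (.d (nat_lit 429) (nat_lit 397) (nat_lit 4493) (nat_lit 462) (nat_lit 7597)))) (.f (nat_lit 592) (nat_lit 463) (nat_lit 7631) (.f (nat_lit 593) (nat_lit 625) (nat_lit 4592) (.f (nat_lit 559) (nat_lit 557) (nat_lit 557) (.d (nat_lit 594) (nat_lit 561) (nat_lit 558) (nat_lit 595) (nat_lit 3631))))))) (.p (nat_lit 589) (.a (.f (nat_lit 525) (nat_lit 524) (nat_lit 1516) (.f (nat_lit 557) (nat_lit 462) (nat_lit 6605) (.f (nat_lit 590) (nat_lit 622) (nat_lit 4589) (.f (nat_lit 558) (nat_lit 461) (nat_lit 4557) (.d (nat_lit 559) (nat_lit 561) (nat_lit 1581) (nat_lit 588) (nat_lit 1580)))))) (.a (.f (nat_lit 525) (nat_lit 524) (nat_lit 1516) (.f (nat_lit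 557) (nat_lit 462) (nat_lit 6605) (.f (nat_lit 590) (nat_lit 622) (nat_lit 4589) (.f (nat_lit 558) (nat_lit 461) (nat_lit 4557) (.d (nat_lit 588) (nat_lit 559) (nat_lit 1580) (nat_lit 620) (nat_lit 5612)))))) (.a (.f (nat_lit 525) (nat_lit 524) (nat_lit 1516) (.f (nat_lit 557) (nat_lit 462) (nat_lit 6605) (.f (nat_lit 590) (nat_lit 622) (nat_lit 4589) (.f (nat_lit 526) (nat_lit 621) (nat_lit 6637) (.d (nat_lit 558) (nat_lit 461) (nat_lit 4557) (nat_lit 463) (nat_lit 6606)))))) (.a (.f (nat_lit 592) (nat_lit 463) (nat_lit 7631) (.f (nat_lit 625) (nat_lit 593) (nat_lit 4592) (.f (nat_lit 624) (nat_lit 657) (nat_lit 4624) (.f (nat_lit 623) (nat_lit 655) (nat_lit 5647) (.f (nat_lit 622) (nat_lit 590) (nat_lit 3661) (.f (nat_lit 621) (nat_lit 588) (nat_lit 3660) (.d (nat_lit 653) (nat_lit 652) (nat_lit 1644) (nat_lit 654) (nat_lit 1645)))))))) (.a (.f (nat_lit 525) (nat_lit 524) (nat_lit 1516) (.f (nat_lit 557) (nat_lit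 462) (nat_lit 6605) (.f (nat_lit 588) (nat_lit 620) (nat_lit 5612) (.f (nat_lit 621) (nat_lit 526) (nat_lit 6637) (.f (nat_lit 622) (nat_lit 654) (nat_lit 4621) (.f (nat_lit 592) (nat_lit 463) (nat_lit 7631) (.f (nat_lit 624) (nat_lit 623) (nat_lit 3660) (.d (nat_lit 625) (nat_lit 593) (nat_lit 4592) (nat_lit 657) (nat_lit 4624))))))))) (.f (nat_lit 525) (nat_lit 524) (nat_lit 1516) (.f (nat_lit 557) (nat_lit 462) (nat_lit 6605) (.f (nat_lit 526) (nat_lit 621) (nat_lit 6637) (.f (nat_lit 463) (nat_lit 592) (nat_lit 7631) (.f (nat_lit 558) (nat_lit 590) (nat_lit 6606) (.d (nat_lit 588) (nat_lit 559) (nat_lit 1580) (nat_lit 620) (nat_lit 5612)))))))))))))))))) (.f (nat_lit 592) (nat_lit 463) (nat_lit 7631) (.f (nat_lit 497) (nat_lit 465) (nat_lit 6608) (.f (nat_lit 625) (nat_lit 593) (nat_lit 4592) (.f (nat_lit 624) (nat_lit 657) (nat_lit 4624) (.f (nat_lit 623) (nat_lit 655) (nat_lit 5647) (.f (nat_lit 525) (nat_lit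 526) (nat_lit 1517) (.f (nat_lit 493) (nat_lit 524) (nat_lit 1516) (.f (nat_lit 460) (nat_lit 461) (nat_lit 3532) (.f (nat_lit 492) (nat_lit 459) (nat_lit 3531) (.f (nat_lit 589) (nat_lit 557) (nat_lit 7628) (.f (nat_lit 622) (nat_lit 590) (nat_lit 3661) (.f (nat_lit 621) (nat_lit 588) (nat_lit 3660) (.d (nat_lit 653) (nat_lit 652) (nat_lit 1644) (nat_lit 654) (nat_lit 1645))))))))))))))))))))) (.p (nat_lit 494) (.a (.p (nat_lit 525) (.a (.f (nat_lit 526) (nat_lit 497) (nat_lit 1517) (.d (nat_lit 524) (nat_lit 493) (nat_lit 1516) (nat_lit 523) (nat_lit 2539))) (.a (.f (nat_lit 493) (nat_lit 524) (nat_lit 1516) (.f (nat_lit 461) (nat_lit 460) (nat_lit 3532) (.f (nat_lit 462) (nat_lit 497) (nat_lit 3533) (.d (nat_lit 430) (nat_lit 398) (nat_lit 5517) (nat_lit 557) (nat_lit 6573))))) (.a (.f (nat_lit 493) (nat_lit 524) (nat_lit 1516) (.f (nat_lit 492) (nat_lit 527) (nat_lit 492) (.d (nat_lit 460) (nat_lit 459) (nat_lit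 3531) (nat_lit 461) (nat_lit 3532)))) (.a (.f (nat_lit 526) (nat_lit 497) (nat_lit 1517) (.d (nat_lit 524) (nat_lit 523) (nat_lit 2539) (nat_lit 527) (nat_lit 2540))) (.f (nat_lit 497) (nat_lit 526) (nat_lit 1517) (.f (nat_lit 466) (nat_lit 465) (nat_lit 2510) (.f (nat_lit 498) (nat_lit 467) (nat_lit 2511) (.f (nat_lit 499) (nat_lit 527) (nat_lit 1519) (.d (nat_lit 531) (nat_lit 530) (nat_lit 495) (nat_lit 532) (nat_lit 496))))))))))) (.a s100606 (.a (.p (nat_lit 525) (.a (.f (nat_lit 526) (nat_lit 497) (nat_lit 1517) (.d (nat_lit 524) (nat_lit 493) (nat_lit 1516) (nat_lit 523) (nat_lit 2539))) (.a (.f (nat_lit 493) (nat_lit 524) (nat_lit 1516) (.f (nat_lit 461) (nat_lit 460) (nat_lit 3532) (.f (nat_lit 462) (nat_lit 497) (nat_lit 3533) (.d (nat_lit 430) (nat_lit 398) (nat_lit 5517) (nat_lit 557) (nat_lit 6573))))) (.a (.f (nat_lit 493) (nat_lit 524) (nat_lit 1516) (.f (nat_lit 492) (nat_lit 527) (nat_lit 492) (.d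 (nat_lit 460) (nat_lit 459) (nat_lit 3531) (nat_lit 461) (nat_lit 3532)))) (.a (.f (nat_lit 526) (nat_lit 497) (nat_lit 1517) (.d (nat_lit 524) (nat_lit 523) (nat_lit 2539) (nat_lit 527) (nat_lit 2540))) (.f (nat_lit 526) (nat_lit 497) (nat_lit 1517) (.f (nat_lit 527) (nat_lit 561) (nat_lit 525) (.f (nat_lit 493) (nat_lit 492) (nat_lit 492) (.f (nat_lit 557) (nat_lit 556) (nat_lit 1548) (.d (nat_lit 462) (nat_lit 430) (nat_lit 5549) (nat_lit 589) (nat_lit 6605))))))))))) (.a (.p (nat_lit 493) (.a (.f (nat_lit 461) (nat_lit 460) (nat_lit 3532) (.f (nat_lit 525) (nat_lit 524) (nat_lit 1516) (.f (nat_lit 462) (nat_lit 497) (nat_lit 3533) (.d (nat_lit 430) (nat_lit 398) (nat_lit 5517) (nat_lit 557) (nat_lit 6573))))) (.a (.f (nat_lit 492) (nat_lit 527) (nat_lit 492) (.d (nat_lit 460) (nat_lit 459) (nat_lit 3531) (nat_lit 461) (nat_lit 3532))) (.f (nat_lit 492) (nat_lit 527) (nat_lit 492) (.d (nat_lit 524) (nat_lit 523)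 (nat_lit 1515) (nat_lit 525) (nat_lit 1516)))))) (.a s34221 (.a (.p (nat_lit 493) (.a (.f (nat_lit 460) (nat_lit 461) (nat_lit 3532) (.f (nat_lit 492) (nat_lit 459) (nat_lit 3531) (.d (nat_lit 524) (nat_lit 523) (nat_lit 1515) (nat_lit 525) (nat_lit 1516)))) (.a (.f (nat_lit 492) (nat_lit 527) (nat_lit 492) (.d (nat_lit 460) (nat_lit 459) (nat_lit 3531) (nat_lit 461) (nat_lit 3532))) (.a (.f (nat_lit 492) (nat_lit 527) (nat_lit 492) (.d (nat_lit 524) (nat_lit 523) (nat_lit 1515) (nat_lit 525) (nat_lit 1516))) (.p (nat_lit 526) (.a (.f (nat_lit 461) (nat_lit 460) (nat_lit 3532) (.f (nat_lit 558) (nat_lit 590) (nat_lit 7629) (.d (nat_lit 429) (nat_lit 397) (nat_lit 4493) (nat_lit 462) (nat_lit 7597)))) (.a (.f (nat_lit 525) (nat_lit 524) (nat_lit 1516) (.f (nat_lit 527) (nat_lit 561) (nat_lit 525) (.f (nat_lit 557) (nat_lit 556) (nat_lit 1548) (.d (nat_lit 589) (nat_lit 462) (nat_lit 6605) (nat_lit 621) (nat_lit 6637)))))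 (.f (nat_lit 525) (nat_lit 524) (nat_lit 1516) (.f (nat_lit 461) (nat_lit 460) (nat_lit 3532) (.d (nat_lit 429) (nat_lit 397) (nat_lit 4493) (nat_lit 558) (nat_lit 4525))))))))))) (.a (.p (nat_lit 525) (.a (.f (nat_lit 526) (nat_lit 497) (nat_lit 1517) (.d (nat_lit 524) (nat_lit 493) (nat_lit 1516) (nat_lit 523) (nat_lit 2539))) (.a (.f (nat_lit 493) (nat_lit 524) (nat_lit 1516) (.f (nat_lit 492) (nat_lit 527) (nat_lit 492) (.d (nat_lit 460) (nat_lit 459) (nat_lit 3531) (nat_lit 461) (nat_lit 3532)))) (.a (.f (nat_lit 526) (nat_lit 497) (nat_lit 1517) (.d (nat_lit 524) (nat_lit 523) (nat_lit 2539) (nat_lit 527) (nat_lit 2540))) (.f (nat_lit 497) (nat_lit 526) (nat_lit 1517) (.f (nat_lit 466) (nat_lit 465) (nat_lit 2510) (.f (nat_lit 498) (nat_lit 467) (nat_lit 2511) (.f (nat_lit 499) (nat_lit 527) (nat_lit 1519) (.d (nat_lit 531) (nat_lit 530) (nat_lit 495) (nat_lit 532) (nat_lit 496)))))))))) (.a (.p (nat_lit 497)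 (.a (.f (nat_lit 526) (nat_lit 525) (nat_lit 1517) (.f (nat_lit 527) (nat_lit 498) (nat_lit 1518) (.f (nat_lit 462) (nat_lit 461) (nat_lit 3533) (.d (nat_lit 430) (nat_lit 398) (nat_lit 4494) (nat_lit 559) (nat_lit 4526))))) (.a (.f (nat_lit 462) (nat_lit 461) (nat_lit 3533) (.f (nat_lit 498) (nat_lit 463) (nat_lit 3534) (.d (nat_lit 466) (nat_lit 465) (nat_lit 2510) (nat_lit 467) (nat_lit 2511)))) (.a (.f (nat_lit 526) (nat_lit 525) (nat_lit 1517) (.f (nat_lit 498) (nat_lit 527) (nat_lit 1518) (.d (nat_lit 466) (nat_lit 465) (nat_lit 2510) (nat_lit 467) (nat_lit 2511)))) (.p (nat_lit 431) (.a (.d (nat_lit 463) (nat_lit 399) (nat_lit 4495) (nat_lit 527) (nat_lit 4527)) (.a (.f (nat_lit 463) (nat_lit 399) (nat_lit 4495) (.f (nat_lit 462) (nat_lit 461) (nat_lit 3533) (.d (nat_lit 526) (nat_lit 525) (nat_lit 1517) (nat_lit 558) (nat_lit 6574)))) (.a (.f (nat_lit 526) (nat_lit 525) (nat_lit 1517) (.f (nat_lit 462) (nat_lit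 461) (nat_lit 3533) (.f (nat_lit 430) (nat_lit 399) (nat_lit 6542) (.d (nat_lit 527) (nat_lit 398) (nat_lit 4494) (nat_lit 559) (nat_lit 4526))))) (.f (nat_lit 527) (nat_lit 463) (nat_lit 4527) (.f (nat_lit 526) (nat_lit 525) (nat_lit 1517) (.f (nat_lit 462) (nat_lit 461) (nat_lit 3533) (.d (nat_lit 430) (nat_lit 398) (nat_lit 4494) (nat_lit 559) (nat_lit 4526))))))))))))) (.p (nat_lit 463) (.a (.d (nat_lit 431) (nat_lit 399) (nat_lit 4495) (nat_lit 527) (nat_lit 4527)) (.a (.p (nat_lit 526) (.a (.f (nat_lit 431) (nat_lit 399) (nat_lit 4495) (.d (nat_lit 558) (nat_lit 462) (nat_lit 6574) (nat_lit 590) (nat_lit 6606))) (.f (nat_lit 525) (nat_lit 497) (nat_lit 1517) (.d (nat_lit 524) (nat_lit 493) (nat_lit 1516) (nat_lit 523) (nat_lit 2539))))) (.p (nat_lit 525) (.a (.f (nat_lit 526) (nat_lit 497) (nat_lit 1517) (.d (nat_lit 524) (nat_lit 493) (nat_lit 1516) (nat_lit 523) (nat_lit 2539))) (.a (.f (nat_lit 493) (nat_lit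 524) (nat_lit 1516) (.f (nat_lit 492) (nat_lit 527) (nat_lit 492) (.f (nat_lit 491) (nat_lit 462) (nat_lit 2507) (.d (nat_lit 459) (nat_lit 458) (nat_lit 3530) (nat_lit 460) (nat_lit 3531))))) (.a (.f (nat_lit 526) (nat_lit 497) (nat_lit 1517) (.d (nat_lit 524) (nat_lit 523) (nat_lit 2539) (nat_lit 527) (nat_lit 2540))) (.f (nat_lit 526) (nat_lit 497) (nat_lit 1517) (.f (nat_lit 527) (nat_lit 561) (nat_lit 525) (.f (nat_lit 493) (nat_lit 492) (nat_lit 492) (.f (nat_lit 557) (nat_lit 556) (nat_lit 1548) (.d (nat_lit 462) (nat_lit 430) (nat_lit 5549) (nat_lit 589) (nat_lit 6605))))))))))))))))))))))))))) (.a (.p (nat_lit 526) (.a (.p (nat_lit 464) (.a (.f (nat_lit 561) (nat_lit 593) (nat_lit 4560) (.f (nat_lit 527) (nat_lit 525) (nat_lit 525) (.d (nat_lit 559) (nat_lit 432) (nat_lit 5551) (nat_lit 562) (nat_lit 3598)))) (.a (.f (nat_lit 463) (nat_lit 431) (nat_lit 7599) (.f (nat_lit 592) (nat_lit 495) (nat_lit 7631)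 (.d (nat_lit 593) (nat_lit 561) (nat_lit 4560) (nat_lit 625) (nat_lit 4592)))) (.a (.f (nat_lit 463) (nat_lit 431) (nat_lit 7599) (.f (nat_lit 592) (nat_lit 495) (nat_lit 7631) (.f (nat_lit 625) (nat_lit 593) (nat_lit 4592) (.f (nat_lit 624) (nat_lit 657) (nat_lit 4624) (.f (nat_lit 655) (nat_lit 623) (nat_lit 5647) (.f (nat_lit 656) (nat_lit 687) (nat_lit 5679) (.f (nat_lit 527) (nat_lit 559) (nat_lit 7695) (.f (nat_lit 525) (nat_lit 497) (nat_lit 2541) (.f (nat_lit 492) (nat_lit 493) (nat_lit 3564) (.f (nat_lit 524) (nat_lit 491) (nat_lit 3563) (.d (nat_lit 556) (nat_lit 555) (nat_lit 1547) (nat_lit 557) (nat_lit 1548)))))))))))) (.f (nat_lit 431) (nat_lit 463) (nat_lit 7599) (.f (nat_lit 432) (nat_lit 399) (nat_lit 7567) (.f (nat_lit 527) (nat_lit 559) (nat_lit 5551) (.d (nat_lit 525) (nat_lit 497) (nat_lit 2541) (nat_lit 561) (nat_lit 525))))))))) (.a (.p (nat_lit 527) (.a (.d (nat_lit 525) (nat_lit 497) (nat_lit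 2541) (nat_lit 561) (nat_lit 525)) (.a (.f (nat_lit 525) (nat_lit 497) (nat_lit 2541) (.d (nat_lit 524) (nat_lit 495) (nat_lit 2540) (nat_lit 559) (nat_lit 524))) (.p (nat_lit 464) (.a (.f (nat_lit 432) (nat_lit 559) (nat_lit 5551) (.d (nat_lit 431) (nat_lit 399) (nat_lit 7567) (nat_lit 463) (nat_lit 7599))) (.a (.f (nat_lit 432) (nat_lit 559) (nat_lit 5551) (.f (nat_lit 400) (nat_lit 495) (nat_lit 5519) (.d (nat_lit 401) (nat_lit 369) (nat_lit 6512) (nat_lit 433) (nat_lit 6544)))) (.a (.f (nat_lit 431) (nat_lit 463) (nat_lit 7599) (.f (nat_lit 432) (nat_lit 399) (nat_lit 7567) (.f (nat_lit 401) (nat_lit 433) (nat_lit 6544) (.d (nat_lit 400) (nat_lit 369) (nat_lit 6512) (nat_lit 495) (nat_lit 5519))))) (.f (nat_lit 561) (nat_lit 593) (nat_lit 4560) (.d (nat_lit 562) (nat_lit 559) (nat_lit 3598) (nat_lit 563) (nat_lit 3599)))))))))) (.a (.p (nat_lit 494) (.a (.p (nat_lit 558) (.a (.p (nat_lit 464) (.a (.f (nat_lit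 561) (nat_lit 593) (nat_lit 4560) (.f (nat_lit 559) (nat_lit 525) (nat_lit 3597) (.f (nat_lit 589) (nat_lit 590) (nat_lit 1581) (.d (nat_lit 557) (nat_lit 462) (nat_lit 5581) (nat_lit 588) (nat_lit 1580))))) (.a (.f (nat_lit 431) (nat_lit 463) (nat_lit 7599) (.f (nat_lit 399) (nat_lit 432) (nat_lit 7567) (.f (nat_lit 462) (nat_lit 430) (nat_lit 6542) (.f (nat_lit 589) (nat_lit 557) (nat_lit 5581) (.f (nat_lit 590) (nat_lit 621) (nat_lit 5613) (.d (nat_lit 461) (nat_lit 429) (nat_lit 7597) (nat_lit 493) (nat_lit 7629))))))) (.a (.f (nat_lit 463) (nat_lit 431) (nat_lit 7599) (.f (nat_lit 495) (nat_lit 590) (nat_lit 6606) (.f (nat_lit 497) (nat_lit 525) (nat_lit 1517) (.d (nat_lit 462) (nat_lit 461) (nat_lit 461) (nat_lit 498) (nat_lit 3534))))) (.a (.f (nat_lit 463) (nat_lit 431) (nat_lit 7599) (.f (nat_lit 590) (nat_lit 495) (nat_lit 6606) (.f (nat_lit 589) (nat_lit 621) (nat_lit 5613) (.d (nat_lit 561) (nat_lit 559)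 (nat_lit 1581) (nat_lit 593) (nat_lit 4560))))) (.f (nat_lit 431) (nat_lit 463) (nat_lit 7599) (.f (nat_lit 432) (nat_lit 399) (nat_lit 7567) (.f (nat_lit 401) (nat_lit 433) (nat_lit 6544) (.f (nat_lit 400) (nat_lit 369) (nat_lit 6512) (.f (nat_lit 429) (nat_lit 430) (nat_lit 2445) (.f (nat_lit 461) (nat_lit 462) (nat_lit 7597) (.d (nat_lit 493) (nat_lit 397) (nat_lit 4493) (nat_lit 525) (nat_lit 4525))))))))))))) (.a (.p (nat_lit 462) (.a (.f (nat_lit 461) (nat_lit 429) (nat_lit 7597) (.f (nat_lit 495) (nat_lit 497) (nat_lit 3533) (.d (nat_lit 493) (nat_lit 460) (nat_lit 3532) (nat_lit 590) (nat_lit 7629)))) (.f (nat_lit 557) (nat_lit 589) (nat_lit 5581) (.f (nat_lit 525) (nat_lit 430) (nat_lit 5549) (.d (nat_lit 559) (nat_lit 524) (nat_lit 3596) (nat_lit 561) (nat_lit 3597)))))) (.a (.p (nat_lit 462) (.a (.f (nat_lit 461) (nat_lit 429) (nat_lit 7597) (.f (nat_lit 495) (nat_lit 497) (nat_lit 3533) (.d (nat_lit 493)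 (nat_lit 460) (nat_lit 3532) (nat_lit 590) (nat_lit 7629)))) (.a (.f (nat_lit 557) (nat_lit 589) (nat_lit 5581) (.f (nat_lit 525) (nat_lit 430) (nat_lit 5549) (.f (nat_lit 461) (nat_lit 429) (nat_lit 7597) (.f (nat_lit 493) (nat_lit 590) (nat_lit 4557) (.f (nat_lit 463) (nat_lit 431) (nat_lit 6574) (.d (nat_lit 464) (nat_lit 492) (nat_lit 1484) (nat_lit 497) (nat_lit 461))))))) (.a (.f (nat_lit 463) (nat_lit 431) (nat_lit 6574) (.f (nat_lit 461) (nat_lit 429) (nat_lit 7597) (.d (nat_lit 495) (nat_lit 460) (nat_lit 460) (nat_lit 590) (nat_lit 6606)))) (.a (.f (nat_lit 463) (nat_lit 431) (nat_lit 6574) (.f (nat_lit 495) (nat_lit 590) (nat_lit 6606) (.d (nat_lit 497) (nat_lit 498) (nat_lit 3534) (nat_lit 525) (nat_lit 1517)))) (.f (nat_lit 463) (nat_lit 431) (nat_lit 6574) (.f (nat_lit 461) (nat_lit 429) (nat_lit 7597) (.d (nat_lit 495) (nat_lit 460) (nat_lit 460) (nat_lit 497) (nat_lit 3533))))))))) (.a s100803 (.a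 (.p (nat_lit 462) (.a (.f (nat_lit 461) (nat_lit 429) (nat_lit 7597) (.f (nat_lit 495) (nat_lit 497) (nat_lit 3533) (.d (nat_lit 493) (nat_lit 460) (nat_lit 3532) (nat_lit 590) (nat_lit 7629)))) (.a (.f (nat_lit 431) (nat_lit 463) (nat_lit 6574) (.f (nat_lit 430) (nat_lit 399) (nat_lit 6542) (.d (nat_lit 429) (nat_lit 397) (nat_lit 7565) (nat_lit 461) (nat_lit 7597)))) (.f (nat_lit 463) (nat_lit 431) (nat_lit 6574) (.f (nat_lit 589) (nat_lit 557) (nat_lit 5581) (.d (nat_lit 590) (nat_lit 495) (nat_lit 6606) (nat_lit 621) (nat_lit 5613))))))) (.a (.p (nat_lit 464) (.a (.f (nat_lit 463) (nat_lit 431) (nat_lit 7599) (.f (nat_lit 495) (nat_lit 590) (nat_lit 6606) (.f (nat_lit 497) (nat_lit 525) (nat_lit 1517) (.d (nat_lit 462) (nat_lit 461) (nat_lit 461) (nat_lit 498) (nat_lit 3534))))) (.a (.f (nat_lit 561) (nat_lit 593) (nat_lit 4560) (.f (nat_lit 525) (nat_lit 559) (nat_lit 3597) (.f (nat_lit 495) (nat_lit 497) (nat_lit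 1517) (.d (nat_lit 524) (nat_lit 493) (nat_lit 1516) (nat_lit 523) (nat_lit 2539))))) (.a (.f (nat_lit 431) (nat_lit 463) (nat_lit 7599) (.f (nat_lit 432) (nat_lit 399) (nat_lit 7567) (.f (nat_lit 401) (nat_lit 433) (nat_lit 6544) (.f (nat_lit 400) (nat_lit 369) (nat_lit 6512) (.f (nat_lit 429) (nat_lit 430) (nat_lit 2445) (.f (nat_lit 461) (nat_lit 462) (nat_lit 7597) (.d (nat_lit 493) (nat_lit 397) (nat_lit 4493) (nat_lit 525) (nat_lit 4525)))))))) (.f (nat_lit 463) (nat_lit 431) (nat_lit 7599) (.f (nat_lit 590) (nat_lit 495) (nat_lit 6606) (.f (nat_lit 589) (nat_lit 621) (nat_lit 5613) (.d (nat_lit 561) (nat_lit 559) (nat_lit 1581) (nat_lit 593) (nat_lit 4560))))))))) (.a (.p (nat_lit 561) (.a (.f (nat_lit 525) (nat_lit 559) (nat_lit 3597) (.f (nat_lit 495) (nat_lit 497) (nat_lit 1517) (.d (nat_lit 524) (nat_lit 493) (nat_lit 1516) (nat_lit 523) (nat_lit 2539)))) (.a (.f (nat_lit 464) (nat_lit 593) (nat_lit 4560)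 (.f (nat_lit 463) (nat_lit 431) (nat_lit 7599) (.f (nat_lit 495) (nat_lit 590) (nat_lit 6606) (.f (nat_lit 493) (nat_lit 492) (nat_lit 2508) (.d (nat_lit 525) (nat_lit 497) (nat_lit 1517) (nat_lit 524) (nat_lit 1516)))))) (.a (.f (nat_lit 559) (nat_lit 525) (nat_lit 3597) (.d (nat_lit 593) (nat_lit 464) (nat_lit 4560) (nat_lit 594) (nat_lit 558))) (.f (nat_lit 464) (nat_lit 593) (nat_lit 4560) (.f (nat_lit 463) (nat_lit 431) (nat_lit 7599) (.f (nat_lit 590) (nat_lit 495) (nat_lit 6606) (.d (nat_lit 589) (nat_lit 559) (nat_lit 1581) (nat_lit 621) (nat_lit 5613))))))))) (.a (.p (nat_lit 464) (.a (.f (nat_lit 561) (nat_lit 593) (nat_lit 4560) (.f (nat_lit 559) (nat_lit 525) (nat_lit 3597) (.f (nat_lit 589) (nat_lit 590) (nat_lit 1581) (.d (nat_lit 557) (nat_lit 462) (nat_lit 5581) (nat_lit 588) (nat_lit 1580))))) (.a (.f (nat_lit 463) (nat_lit 431) (nat_lit 7599) (.f (nat_lit 495) (nat_lit 590) (nat_lit 6606) (.f (nat_lit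 497) (nat_lit 525) (nat_lit 1517) (.d (nat_lit 462) (nat_lit 461) (nat_lit 461) (nat_lit 498) (nat_lit 3534))))) (.a (.f (nat_lit 463) (nat_lit 431) (nat_lit 7599) (.f (nat_lit 590) (nat_lit 495) (nat_lit 6606) (.f (nat_lit 589) (nat_lit 621) (nat_lit 5613) (.d (nat_lit 561) (nat_lit 559) (nat_lit 1581) (nat_lit 593) (nat_lit 4560))))) (.f (nat_lit 463) (nat_lit 431) (nat_lit 7599) (.f (nat_lit 561) (nat_lit 593) (nat_lit 4560) (.f (nat_lit 525) (nat_lit 559) (nat_lit 3597) (.f (nat_lit 497) (nat_lit 495) (nat_lit 1517) (.f (nat_lit 462) (nat_lit 461) (nat_lit 461) (.d (nat_lit 557) (nat_lit 430) (nat_lit 5549) (nat_lit 589) (nat_lit 5581))))))))))) (.a (.p (nat_lit 464) (.a (.f (nat_lit 431) (nat_lit 463) (nat_lit 7599) (.f (nat_lit 432) (nat_lit 399) (nat_lit 7567) (.f (nat_lit 401) (nat_lit 433) (nat_lit 6544) (.f (nat_lit 400) (nat_lit 369) (nat_lit 6512) (.f (nat_lit 429) (nat_lit 430) (nat_lit 2445) (.f (nat_lit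 461) (nat_lit 462) (nat_lit 7597) (.d (nat_lit 493) (nat_lit 397) (nat_lit 4493) (nat_lit 525) (nat_lit 4525)))))))) (.a (.f (nat_lit 561) (nat_lit 593) (nat_lit 4560) (.f (nat_lit 525) (nat_lit 559) (nat_lit 3597) (.f (nat_lit 495) (nat_lit 497) (nat_lit 1517) (.d (nat_lit 524) (nat_lit 493) (nat_lit 1516) (nat_lit 523) (nat_lit 2539))))) (.a (.f (nat_lit 431) (nat_lit 463) (nat_lit 7599) (.f (nat_lit 399) (nat_lit 432) (nat_lit 7567) (.f (nat_lit 462) (nat_lit 430) (nat_lit 6542) (.f (nat_lit 461) (nat_lit 429) (nat_lit 7597) (.f (nat_lit 495) (nat_lit 497) (nat_lit 3533) (.d (nat_lit 460) (nat_lit 459) (nat_lit 459) (nat_lit 493) (nat_lit 3532))))))) (.f (nat_lit 463) (nat_lit 431) (nat_lit 7599) (.f (nat_lit 561) (nat_lit 593) (nat_lit 4560) (.f (nat_lit 525) (nat_lit 559) (nat_lit 3597) (.f (nat_lit 497) (nat_lit 495) (nat_lit 1517) (.f (nat_lit 462) (nat_lit 461) (nat_lit 461) (.d (nat_lit 557) (nat_lit 430)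 (nat_lit 5549) (nat_lit 589) (nat_lit 5581))))))))))) (.p (nat_lit 464) (.a (.f (nat_lit 463) (nat_lit 431) (nat_lit 7599) (.f (nat_lit 495) (nat_lit 590) (nat_lit 6606) (.f (nat_lit 497) (nat_lit 525) (nat_lit 1517) (.d (nat_lit 462) (nat_lit 461) (nat_lit 461) (nat_lit 498) (nat_lit 3534))))) (.a (.f (nat_lit 561) (nat_lit 593) (nat_lit 4560) (.f (nat_lit 525) (nat_lit 559) (nat_lit 3597) (.f (nat_lit 495) (nat_lit 497) (nat_lit 1517) (.d (nat_lit 524) (nat_lit 493) (nat_lit 1516) (nat_lit 523) (nat_lit 2539))))) (.a (.f (nat_lit 431) (nat_lit 463) (nat_lit 7599) (.f (nat_lit 432) (nat_lit 399) (nat_lit 7567) (.f (nat_lit 401) (nat_lit 433) (nat_lit 6544) (.f (nat_lit 400) (nat_lit 369) (nat_lit 6512) (.f (nat_lit 429) (nat_lit 430) (nat_lit 2445) (.f (nat_lit 461) (nat_lit 462) (nat_lit 7597) (.d (nat_lit 493) (nat_lit 397) (nat_lit 4493) (nat_lit 525) (nat_lit 4525)))))))) (.f (nat_lit 431) (nat_lit 463) (nat_lit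 7599) (.f (nat_lit 399) (nat_lit 432) (nat_lit 7567) (.f (nat_lit 462) (nat_lit 430) (nat_lit 6542) (.f (nat_lit 461) (nat_lit 429) (nat_lit 7597) (.f (nat_lit 495) (nat_lit 497) (nat_lit 3533) (.d (nat_lit 460) (nat_lit 459) (nat_lit 459) (nat_lit 493) (nat_lit 3532))))))))))))))))))))) (.a (.p (nat_lit 495) (.a (.f (nat_lit 525) (nat_lit 497) (nat_lit 1517) (.d (nat_lit 524) (nat_lit 493) (nat_lit 1516) (nat_lit 523) (nat_lit 2539))) (.f (nat_lit 463) (nat_lit 592) (nat_lit 7631) (.f (nat_lit 431) (nat_lit 399) (nat_lit 4495) (.d (nat_lit 558) (nat_lit 462) (nat_lit 6574) (nat_lit 590) (nat_lit 6606)))))) (.a (.p (nat_lit 558) (.a (.p (nat_lit 462) (.a (.f (nat_lit 461) (nat_lit 429) (nat_lit 7597) (.f (nat_lit 495) (nat_lit 497) (nat_lit 3533) (.d (nat_lit 493) (nat_lit 460) (nat_lit 3532) (nat_lit 590) (nat_lit 7629)))) (.f (nat_lit 557) (nat_lit 589) (nat_lit 5581) (.f (nat_lit 525) (nat_lit 430) (nat_lit 5549)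 (.d (nat_lit 559) (nat_lit 524) (nat_lit 3596) (nat_lit 561) (nat_lit 3597)))))) (.a (.p (nat_lit 462) (.a (.f (nat_lit 461) (nat_lit 429) (nat_lit 7597) (.f (nat_lit 495) (nat_lit 497) (nat_lit 3533) (.d (nat_lit 493) (nat_lit 460) (nat_lit 3532) (nat_lit 590) (nat_lit 7629)))) (.a (.f (nat_lit 589) (nat_lit 557) (nat_lit 5581) (.f (nat_lit 590) (nat_lit 621) (nat_lit 5613) (.d (nat_lit 461) (nat_lit 429) (nat_lit 7597) (nat_lit 493) (nat_lit 7629)))) (.f (nat_lit 557) (nat_lit 589) (nat_lit 5581) (.f (nat_lit 525) (nat_lit 430) (nat_lit 5549) (.f (nat_lit 524) (nat_lit 559) (nat_lit 3596) (.d (nat_lit 495) (nat_lit 497) (nat_lit 1517) (nat_lit 523) (nat_lit 2539)))))))) (.a (.p (nat_lit 462) (.a (.f (nat_lit 461) (nat_lit 429) (nat_lit 7597) (.f (nat_lit 495) (nat_lit 497) (nat_lit 3533) (.d (nat_lit 493) (nat_lit 460) (nat_lit 3532) (nat_lit 590) (nat_lit 7629)))) (.a (.f (nat_lit 589) (nat_lit 557) (nat_lit 5581)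 (.f (nat_lit 590) (nat_lit 621) (nat_lit 5613) (.d (nat_lit 461) (nat_lit 429) (nat_lit 7597) (nat_lit 493) (nat_lit 7629)))) (.a (.f (nat_lit 557) (nat_lit 589) (nat_lit 5581) (.f (nat_lit 430) (nat_lit 525) (nat_lit 5549) (.d (nat_lit 429) (nat_lit 397) (nat_lit 7565) (nat_lit 461) (nat_lit 7597)))) (.f (nat_lit 557) (nat_lit 589) (nat_lit 5581) (.f (nat_lit 525) (nat_lit 430) (nat_lit 5549) (.f (nat_lit 495) (nat_lit 497) (nat_lit 1517) (.d (nat_lit 524) (nat_lit 493) (nat_lit 1516) (nat_lit 523) (nat_lit 2539))))))))) (.a (.p (nat_lit 561) (.a (.f (nat_lit 559) (nat_lit 525) (nat_lit 3597) (.d (nat_lit 593) (nat_lit 464) (nat_lit 4560) (nat_lit 594) (nat_lit 558))) (.a (.f (nat_lit 559) (nat_lit 525) (nat_lit 3597) (.f (nat_lit 589) (nat_lit 590) (nat_lit 1581) (.d (nat_lit 557) (nat_lit 462) (nat_lit 5581) (nat_lit 588) (nat_lit 1580)))) (.f (nat_lit 593) (nat_lit 464) (nat_lit 4560) (.d (nat_lit 625) (nat_lit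 592) (nat_lit 4592) (nat_lit 657) (nat_lit 7696)))))) (.a (.p (nat_lit 462) (.a (.f (nat_lit 461) (nat_lit 429) (nat_lit 7597) (.f (nat_lit 495) (nat_lit 497) (nat_lit 3533) (.d (nat_lit 493) (nat_lit 460) (nat_lit 3532) (nat_lit 590) (nat_lit 7629)))) (.a (.f (nat_lit 589) (nat_lit 557) (nat_lit 5581) (.f (nat_lit 590) (nat_lit 621) (nat_lit 5613) (.d (nat_lit 461) (nat_lit 429) (nat_lit 7597) (nat_lit 493) (nat_lit 7629)))) (.a (.f (nat_lit 589) (nat_lit 557) (nat_lit 5581) (.f (nat_lit 590) (nat_lit 621) (nat_lit 5613) (.f (nat_lit 561) (nat_lit 559) (nat_lit 1581) (.f (nat_lit 593) (nat_lit 464) (nat_lit 4560) (.d (nat_lit 625) (nat_lit 592) (nat_lit 4592) (nat_lit 657) (nat_lit 7696)))))) (.f (nat_lit 461) (nat_lit 429) (nat_lit 7597) (.f (nat_lit 495) (nat_lit 497) (nat_lit 3533) (.d (nat_lit 460) (nat_lit 459) (nat_lit 459) (nat_lit 493) (nat_lit 3532)))))))) (.p (nat_lit 561) (.a (.f (nat_lit 525) (nat_lit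 559) (nat_lit 3597) (.f (nat_lit 495) (nat_lit 497) (nat_lit 1517) (.d (nat_lit 524) (nat_lit 493) (nat_lit 1516) (nat_lit 523) (nat_lit 2539)))) (.f (nat_lit 593) (nat_lit 464) (nat_lit 4560) (.d (nat_lit 625) (nat_lit 592) (nat_lit 4592) (nat_lit 657) (nat_lit 7696))))))))))) (.a (.p (nat_lit 558) (.a s100803 (.a (.p (nat_lit 462) (.a (.f (nat_lit 557) (nat_lit 589) (nat_lit 5581) (.f (nat_lit 525) (nat_lit 430) (nat_lit 5549) (.d (nat_lit 559) (nat_lit 524) (nat_lit 3596) (nat_lit 561) (nat_lit 3597)))) (.a (.f (nat_lit 431) (nat_lit 463) (nat_lit 6574) (.f (nat_lit 430) (nat_lit 399) (nat_lit 6542) (.d (nat_lit 429) (nat_lit 397) (nat_lit 7565) (nat_lit 461) (nat_lit 7597)))) (.f (nat_lit 589) (nat_lit 557) (nat_lit 5581) (.f (nat_lit 590) (nat_lit 621) (nat_lit 5613) (.d (nat_lit 461) (nat_lit 429) (nat_lit 7597) (nat_lit 493) (nat_lit 7629))))))) (.a (.p (nat_lit 462) (.a (.f (nat_lit 557) (nat_lit 589) (nat_lit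 5581) (.f (nat_lit 525) (nat_lit 430) (nat_lit 5549) (.f (nat_lit 461) (nat_lit 429) (nat_lit 7597) (.f (nat_lit 493) (nat_lit 590) (nat_lit 4557) (.f (nat_lit 463) (nat_lit 431) (nat_lit 6574) (.d (nat_lit 464) (nat_lit 492) (nat_lit 1484) (nat_lit 497) (nat_lit 461))))))) (.a (.f (nat_lit 431) (nat_lit 463) (nat_lit 6574) (.f (nat_lit 430) (nat_lit 399) (nat_lit 6542) (.d (nat_lit 429) (nat_lit 397) (nat_lit 7565) (nat_lit 461) (nat_lit 7597)))) (.a (.f (nat_lit 589) (nat_lit 557) (nat_lit 5581) (.f (nat_lit 590) (nat_lit 621) (nat_lit 5613) (.d (nat_lit 461) (nat_lit 429) (nat_lit 7597) (nat_lit 493) (nat_lit 7629)))) (.f (nat_lit 557) (nat_lit 589) (nat_lit 5581) (.f (nat_lit 430) (nat_lit 525) (nat_lit 5549) (.d (nat_lit 431) (nat_lit 399) (nat_lit 6542) (nat_lit 463) (nat_lit 6574)))))))) (.a (.p (nat_lit 561) (.a (.f (nat_lit 559) (nat_lit 525) (nat_lit 3597) (.d (nat_lit 593) (nat_lit 464) (nat_lit 4560)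 (nat_lit 594) (nat_lit 558))) (.a (.f (nat_lit 559) (nat_lit 525) (nat_lit 3597) (.f (nat_lit 589) (nat_lit 590) (nat_lit 1581) (.d (nat_lit 557) (nat_lit 462) (nat_lit 5581) (nat_lit 588) (nat_lit 1580)))) (.f (nat_lit 593) (nat_lit 464) (nat_lit 4560) (.d (nat_lit 625) (nat_lit 592) (nat_lit 4592) (nat_lit 657) (nat_lit 7696)))))) (.a (.p (nat_lit 462) (.a (.f (nat_lit 431) (nat_lit 463) (nat_lit 6574) (.f (nat_lit 430) (nat_lit 399) (nat_lit 6542) (.d (nat_lit 429) (nat_lit 397) (nat_lit 7565) (nat_lit 461) (nat_lit 7597)))) (.a (.f (nat_lit 589) (nat_lit 557) (nat_lit 5581) (.f (nat_lit 590) (nat_lit 621) (nat_lit 5613) (.d (nat_lit 461) (nat_lit 429) (nat_lit 7597) (nat_lit 493) (nat_lit 7629)))) (.f (nat_lit 589) (nat_lit 557) (nat_lit 5581) (.f (nat_lit 590) (nat_lit 621) (nat_lit 5613) (.f (nat_lit 561) (nat_lit 559) (nat_lit 1581) (.f (nat_lit 593) (nat_lit 464) (nat_lit 4560) (.d (nat_lit 625) (nat_lit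 592) (nat_lit 4592) (nat_lit 657) (nat_lit 7696))))))))) (.a s100888 (.a (.p (nat_lit 462) (.a (.f (nat_lit 557) (nat_lit 589) (nat_lit 5581) (.f (nat_lit 525) (nat_lit 430) (nat_lit 5549) (.d (nat_lit 559) (nat_lit 524) (nat_lit 3596) (nat_lit 561) (nat_lit 3597)))) (.a (.f (nat_lit 431) (nat_lit 463) (nat_lit 6574) (.f (nat_lit 430) (nat_lit 399) (nat_lit 6542) (.d (nat_lit 429) (nat_lit 397) (nat_lit 7565) (nat_lit 461) (nat_lit 7597)))) (.f (nat_lit 557) (nat_lit 589) (nat_lit 5581) (.f (nat_lit 463) (nat_lit 431) (nat_lit 6574) (.f (nat_lit 461) (nat_lit 429) (nat_lit 7597) (.f (nat_lit 464) (nat_lit 497) (nat_lit 461) (.f (nat_lit 593) (nat_lit 561) (nat_lit 4560) (.d (nat_lit 592) (nat_lit 559) (nat_lit 557) (nat_lit 625) (nat_lit 4592)))))))))) (.p (nat_lit 462) (.a (.f (nat_lit 431) (nat_lit 463) (nat_lit 6574) (.f (nat_lit 430) (nat_lit 399) (nat_lit 6542) (.d (nat_lit 429) (nat_lit 397) (nat_lit 7565)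 (nat_lit 461) (nat_lit 7597)))) (.a (.f (nat_lit 429) (nat_lit 461) (nat_lit 7597) (.f (nat_lit 430) (nat_lit 397) (nat_lit 7565) (.f (nat_lit 525) (nat_lit 557) (nat_lit 5549) (.f (nat_lit 399) (nat_lit 431) (nat_lit 6542) (.d (nat_lit 398) (nat_lit 367) (nat_lit 6510) (nat_lit 493) (nat_lit 5517)))))) (.a (.f (nat_lit 429) (nat_lit 461) (nat_lit 7597) (.f (nat_lit 430) (nat_lit 397) (nat_lit 7565) (.f (nat_lit 525) (nat_lit 557) (nat_lit 5549) (.f (nat_lit 561) (nat_lit 559) (nat_lit 3597) (.f (nat_lit 593) (nat_lit 464) (nat_lit 4560) (.d (nat_lit 625) (nat_lit 592) (nat_lit 4592) (nat_lit 657) (nat_lit 7696))))))) (.a (.f (nat_lit 431) (nat_lit 463) (nat_lit 6574) (.f (nat_lit 430) (nat_lit 399) (nat_lit 6542) (.f (nat_lit 397) (nat_lit 429) (nat_lit 7565) (.f (nat_lit 398) (nat_lit 365) (nat_lit 7533) (.f (nat_lit 525) (nat_lit 493) (nat_lit 5517) (.f (nat_lit 561) (nat_lit 559) (nat_lit 3597) (.f (nat_lit 593)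 (nat_lit 464) (nat_lit 4560) (.d (nat_lit 625) (nat_lit 592) (nat_lit 4592) (nat_lit 657) (nat_lit 7696))))))))) (.a (.f (nat_lit 461) (nat_lit 429) (nat_lit 7597) (.f (nat_lit 463) (nat_lit 431) (nat_lit 6574) (.f (nat_lit 493) (nat_lit 590) (nat_lit 7629) (.d (nat_lit 464) (nat_lit 492) (nat_lit 1484) (nat_lit 497) (nat_lit 461))))) (.f (nat_lit 431) (nat_lit 463) (nat_lit 6574) (.f (nat_lit 430) (nat_lit 399) (nat_lit 6542) (.f (nat_lit 525) (nat_lit 557) (nat_lit 5549) (.f (nat_lit 493) (nat_lit 398) (nat_lit 5517) (.d (nat_lit 590) (nat_lit 461) (nat_lit 7629) (nat_lit 622) (nat_lit 7661)))))))))))))))))))) (.a (.p (nat_lit 462) (.a (.p (nat_lit 558) (.a (.f (nat_lit 461) (nat_lit 429) (nat_lit 7597) (.f (nat_lit 495) (nat_lit 497) (nat_lit 3533) (.d (nat_lit 493) (nat_lit 460) (nat_lit 3532) (nat_lit 590) (nat_lit 7629)))) (.a (.f (nat_lit 431) (nat_lit 463) (nat_lit 6574) (.f (nat_lit 430) (nat_lit 399) (nat_lit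 6542) (.d (nat_lit 429) (nat_lit 397) (nat_lit 7565) (nat_lit 461) (nat_lit 7597)))) (.f (nat_lit 463) (nat_lit 431) (nat_lit 6574) (.f (nat_lit 589) (nat_lit 557) (nat_lit 5581) (.d (nat_lit 590) (nat_lit 495) (nat_lit 6606) (nat_lit 621) (nat_lit 5613))))))) (.a (.p (nat_lit 558) (.a (.f (nat_lit 461) (nat_lit 429) (nat_lit 7597) (.f (nat_lit 495) (nat_lit 497) (nat_lit 3533) (.d (nat_lit 493) (nat_lit 460) (nat_lit 3532) (nat_lit 590) (nat_lit 7629)))) (.a (.f (nat_lit 589) (nat_lit 557) (nat_lit 5581) (.f (nat_lit 590) (nat_lit 621) (nat_lit 5613) (.d (nat_lit 461) (nat_lit 429) (nat_lit 7597) (nat_lit 493) (nat_lit 7629)))) (.a (.f (nat_lit 589) (nat_lit 557) (nat_lit 5581) (.f (nat_lit 590) (nat_lit 621) (nat_lit 5613) (.f (nat_lit 561) (nat_lit 559) (nat_lit 1581) (.f (nat_lit 593) (nat_lit 464) (nat_lit 4560) (.d (nat_lit 625) (nat_lit 592) (nat_lit 4592) (nat_lit 657) (nat_lit 7696)))))) (.f (nat_lit 461)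 (nat_lit 429) (nat_lit 7597) (.f (nat_lit 495) (nat_lit 497) (nat_lit 3533) (.d (nat_lit 460) (nat_lit 459) (nat_lit 459) (nat_lit 493) (nat_lit 3532)))))))) (.a (.p (nat_lit 558) (.a (.f (nat_lit 431) (nat_lit 463) (nat_lit 6574) (.f (nat_lit 430) (nat_lit 399) (nat_lit 6542) (.d (nat_lit 429) (nat_lit 397) (nat_lit 7565) (nat_lit 461) (nat_lit 7597)))) (.a (.f (nat_lit 589) (nat_lit 557) (nat_lit 5581) (.f (nat_lit 590) (nat_lit 621) (nat_lit 5613) (.d (nat_lit 461) (nat_lit 429) (nat_lit 7597) (nat_lit 493) (nat_lit 7629)))) (.f (nat_lit 589) (nat_lit 557) (nat_lit 5581) (.f (nat_lit 590) (nat_lit 621) (nat_lit 5613) (.f (nat_lit 561) (nat_lit 559) (nat_lit 1581) (.f (nat_lit 593) (nat_lit 464) (nat_lit 4560) (.d (nat_lit 625) (nat_lit 592) (nat_lit 4592) (nat_lit 657) (nat_lit 7696))))))))) (.a (.p (nat_lit 463) (.a (.f (nat_lit 495) (nat_lit 592) (nat_lit 7631) (.d (nat_lit 431) (nat_lit 399) (nat_lit 5518)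 (nat_lit 464) (nat_lit 7599))) (.a (.f (nat_lit 431) (nat_lit 464) (nat_lit 7599) (.d (nat_lit 399) (nat_lit 430) (nat_lit 6542) (nat_lit 495) (nat_lit 4495))) (.a (.f (nat_lit 495) (nat_lit 592) (nat_lit 7631) (.d (nat_lit 461) (nat_lit 460) (nat_lit 460) (nat_lit 497) (nat_lit 3533))) (.f (nat_lit 464) (nat_lit 431) (nat_lit 7599) (.f (nat_lit 461) (nat_lit 497) (nat_lit 461) (.f (nat_lit 429) (nat_lit 428) (nat_lit 3500) (.d (nat_lit 397) (nat_lit 365) (nat_lit 4461) (nat_lit 493) (nat_lit 4493))))))))) (.a (.p (nat_lit 558) (.a (.f (nat_lit 463) (nat_lit 431) (nat_lit 6574) (.f (nat_lit 461) (nat_lit 429) (nat_lit 7597) (.d (nat_lit 495) (nat_lit 460) (nat_lit 460) (nat_lit 590) (nat_lit 6606)))) (.a (.f (nat_lit 589) (nat_lit 557) (nat_lit 5581) (.f (nat_lit 590) (nat_lit 621) (nat_lit 5613) (.f (nat_lit 561) (nat_lit 559) (nat_lit 1581) (.f (nat_lit 593) (nat_lit 464) (nat_lit 4560) (.d (nat_lit 625) (nat_lit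 592) (nat_lit 4592) (nat_lit 657) (nat_lit 7696)))))) (.f (nat_lit 463) (nat_lit 431) (nat_lit 6574) (.f (nat_lit 461) (nat_lit 429) (nat_lit 7597) (.d (nat_lit 495) (nat_lit 460) (nat_lit 460) (nat_lit 497) (nat_lit 3533))))))) (.p (nat_lit 558) (.a (.f (nat_lit 463) (nat_lit 431) (nat_lit 6574) (.f (nat_lit 589) (nat_lit 557) (nat_lit 5581) (.d (nat_lit 590) (nat_lit 495) (nat_lit 6606) (nat_lit 621) (nat_lit 5613)))) (.a (.f (nat_lit 589) (nat_lit 557) (nat_lit 5581) (.f (nat_lit 590) (nat_lit 621) (nat_lit 5613) (.f (nat_lit 561) (nat_lit 559) (nat_lit 1581) (.f (nat_lit 593) (nat_lit 464) (nat_lit 4560) (.d (nat_lit 625) (nat_lit 592) (nat_lit 4592) (nat_lit 657) (nat_lit 7696)))))) (.a (.f (nat_lit 463) (nat_lit 431) (nat_lit 6574) (.d (nat_lit 495) (nat_lit 590) (nat_lit 6606) (nat_lit 592) (nat_lit 7631))) (.f (nat_lit 463) (nat_lit 431) (nat_lit 6574) (.f (nat_lit 592) (nat_lit 495) (nat_lit 7631) (.f (nat_lit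 593) (nat_lit 625) (nat_lit 4592) (.d (nat_lit 557) (nat_lit 559) (nat_lit 557) (nat_lit 589) (nat_lit 5581))))))))))))))) (.a (.p (nat_lit 558) (.a s100803 (.a (.p (nat_lit 462) (.a (.f (nat_lit 557) (nat_lit 589) (nat_lit 5581) (.f (nat_lit 525) (nat_lit 430) (nat_lit 5549) (.d (nat_lit 559) (nat_lit 524) (nat_lit 3596) (nat_lit 561) (nat_lit 3597)))) (.f (nat_lit 463) (nat_lit 431) (nat_lit 6574) (.f (nat_lit 461) (nat_lit 429) (nat_lit 7597) (.d (nat_lit 495) (nat_lit 460) (nat_lit 460) (nat_lit 590) (nat_lit 6606)))))) (.a (.p (nat_lit 462) (.a (.f (nat_lit 463) (nat_lit 431) (nat_lit 6574) (.f (nat_lit 461) (nat_lit 429) (nat_lit 7597) (.d (nat_lit 495) (nat_lit 460) (nat_lit 460) (nat_lit 590) (nat_lit 6606)))) (.a (.f (nat_lit 589) (nat_lit 557) (nat_lit 5581) (.f (nat_lit 590) (nat_lit 621) (nat_lit 5613) (.d (nat_lit 461) (nat_lit 429) (nat_lit 7597) (nat_lit 493) (nat_lit 7629)))) (.a (.f (nat_lit 463)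 (nat_lit 431) (nat_lit 6574) (.f (nat_lit 589) (nat_lit 557) (nat_lit 5581) (.d (nat_lit 590) (nat_lit 495) (nat_lit 6606) (nat_lit 621) (nat_lit 5613)))) (.f (nat_lit 431) (nat_lit 463) (nat_lit 6574) (.f (nat_lit 430) (nat_lit 399) (nat_lit 6542) (.d (nat_lit 429) (nat_lit 397) (nat_lit 7565) (nat_lit 461) (nat_lit 7597)))))))) (.a (.p (nat_lit 561) (.a (.f (nat_lit 559) (nat_lit 525) (nat_lit 3597) (.d (nat_lit 593) (nat_lit 464) (nat_lit 4560) (nat_lit 594) (nat_lit 558))) (.a (.f (nat_lit 559) (nat_lit 525) (nat_lit 3597) (.f (nat_lit 589) (nat_lit 590) (nat_lit 1581) (.d (nat_lit 557) (nat_lit 462) (nat_lit 5581) (nat_lit 588) (nat_lit 1580)))) (.f (nat_lit 593) (nat_lit 464) (nat_lit 4560) (.d (nat_lit 625) (nat_lit 592) (nat_lit 4592) (nat_lit 657) (nat_lit 7696)))))) (.a s100888 (.a (.p (nat_lit 464) (.a (.f (nat_lit 431) (nat_lit 463) (nat_lit 7599) (.f (nat_lit 432) (nat_lit 399) (nat_lit 7567) (.f (nat_lit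 401) (nat_lit 433) (nat_lit 6544) (.f (nat_lit 400) (nat_lit 369) (nat_lit 6512) (.f (nat_lit 429) (nat_lit 430) (nat_lit 2445) (.f (nat_lit 461) (nat_lit 462) (nat_lit 7597) (.d (nat_lit 493) (nat_lit 397) (nat_lit 4493) (nat_lit 525) (nat_lit 4525)))))))) (.a (.f (nat_lit 593) (nat_lit 561) (nat_lit 4560) (.f (nat_lit 592) (nat_lit 625) (nat_lit 4592) (.f (nat_lit 557) (nat_lit 559) (nat_lit 557) (.f (nat_lit 462) (nat_lit 589) (nat_lit 5581) (.f (nat_lit 430) (nat_lit 525) (nat_lit 5549) (.d (nat_lit 429) (nat_lit 397) (nat_lit 7565) (nat_lit 461) (nat_lit 7597))))))) (.a (.f (nat_lit 431) (nat_lit 463) (nat_lit 7599) (.f (nat_lit 593) (nat_lit 561) (nat_lit 4560) (.f (nat_lit 592) (nat_lit 625) (nat_lit 4592) (.f (nat_lit 432) (nat_lit 399) (nat_lit 7567) (.f (nat_lit 401) (nat_lit 433) (nat_lit 6544) (.f (nat_lit 400) (nat_lit 369) (nat_lit 6512) (.f (nat_lit 429) (nat_lit 430) (nat_lit 2445) (.f (nat_lit 557)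 (nat_lit 559) (nat_lit 557) (.d (nat_lit 462) (nat_lit 461) (nat_lit 7597) (nat_lit 589) (nat_lit 5581)))))))))) (.a (.f (nat_lit 463) (nat_lit 431) (nat_lit 7599) (.f (nat_lit 495) (nat_lit 592) (nat_lit 7631) (.f (nat_lit 493) (nat_lit 492) (nat_lit 2508) (.f (nat_lit 525) (nat_lit 524) (nat_lit 1516) (.d (nat_lit 461) (nat_lit 429) (nat_lit 4525) (nat_lit 460) (nat_lit 3532)))))) (.f (nat_lit 463) (nat_lit 431) (nat_lit 7599) (.f (nat_lit 593) (nat_lit 561) (nat_lit 4560) (.d (nat_lit 592) (nat_lit 495) (nat_lit 7631) (nat_lit 625) (nat_lit 4592))))))))) (.p (nat_lit 592) (.a (.f (nat_lit 593) (nat_lit 625) (nat_lit 4592) (.f (nat_lit 559) (nat_lit 557) (nat_lit 557) (.d (nat_lit 561) (nat_lit 525) (nat_lit 3597) (nat_lit 594) (nat_lit 558)))) (.f (nat_lit 463) (nat_lit 495) (nat_lit 7631) (.d (nat_lit 431) (nat_lit 462) (nat_lit 6574) (nat_lit 464) (nat_lit 7599)))))))))))) (.a (.p (nat_lit 495) (.a (.f (nat_lit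 525) (nat_lit 497) (nat_lit 1517) (.d (nat_lit 524) (nat_lit 493) (nat_lit 1516) (nat_lit 523) (nat_lit 2539))) (.f (nat_lit 463) (nat_lit 592) (nat_lit 7631) (.d (nat_lit 431) (nat_lit 399) (nat_lit 4495) (nat_lit 464) (nat_lit 7599))))) (.p (nat_lit 463) (.a (.f (nat_lit 431) (nat_lit 464) (nat_lit 7599) (.f (nat_lit 495) (nat_lit 399) (nat_lit 4495) (.d (nat_lit 558) (nat_lit 462) (nat_lit 6574) (nat_lit 590) (nat_lit 6606)))) (.a (.f (nat_lit 495) (nat_lit 592) (nat_lit 7631) (.f (nat_lit 431) (nat_lit 399) (nat_lit 4495) (.d (nat_lit 558) (nat_lit 462) (nat_lit 6574) (nat_lit 590) (nat_lit 6606)))) (.a (.f (nat_lit 431) (nat_lit 464) (nat_lit 7599) (.f (nat_lit 462) (nat_lit 558) (nat_lit 6574) (.d (nat_lit 399) (nat_lit 367) (nat_lit 5486) (nat_lit 430) (nat_lit 6542)))) (.a (.f (nat_lit 495) (nat_lit 592) (nat_lit 7631) (.f (nat_lit 497) (nat_lit 525) (nat_lit 1517) (.d (nat_lit 462) (nat_lit 461) (nat_lit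 3533) (nat_lit 498) (nat_lit 3534)))) (.f (nat_lit 495) (nat_lit 592) (nat_lit 7631) (.d (nat_lit 431) (nat_lit 399) (nat_lit 4495) (nat_lit 464) (nat_lit 7599)))))))))))))))) (.a (.p (nat_lit 495) (.a (.p (nat_lit 525) (.a (.d (nat_lit 527) (nat_lit 524) (nat_lit 2540) (nat_lit 561) (nat_lit 525)) (.a (.f (nat_lit 494) (nat_lit 497) (nat_lit 1517) (.d (nat_lit 524) (nat_lit 493) (nat_lit 1516) (nat_lit 523) (nat_lit 2539))) (.d (nat_lit 497) (nat_lit 494) (nat_lit 1517) (nat_lit 527) (nat_lit 2541))))) (.a (.p (nat_lit 494) (.a (.f (nat_lit 525) (nat_lit 497) (nat_lit 1517) (.d (nat_lit 524) (nat_lit 493) (nat_lit 1516) (nat_lit 523) (nat_lit 2539))) (.f (nat_lit 463) (nat_lit 592) (nat_lit 7631) (.f (nat_lit 431) (nat_lit 399) (nat_lit 4495) (.d (nat_lit 558) (nat_lit 462) (nat_lit 6574) (nat_lit 590) (nat_lit 6606)))))) (.f (nat_lit 463) (nat_lit 592) (nat_lit 7631) (.d (nat_lit 431) (nat_lit 399) (nat_lit 4495)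 (nat_lit 527) (nat_lit 4527)))))) (.a (.p (nat_lit 525) (.a (.f (nat_lit 527) (nat_lit 497) (nat_lit 2541) (.d (nat_lit 524) (nat_lit 495) (nat_lit 2540) (nat_lit 559) (nat_lit 524))) (.a (.p (nat_lit 495) (.a (.f (nat_lit 494) (nat_lit 497) (nat_lit 1517) (.d (nat_lit 524) (nat_lit 493) (nat_lit 1516) (nat_lit 523) (nat_lit 2539))) (.f (nat_lit 463) (nat_lit 592) (nat_lit 7631) (.d (nat_lit 431) (nat_lit 399) (nat_lit 4495) (nat_lit 464) (nat_lit 7599))))) (.a (.f (nat_lit 527) (nat_lit 497) (nat_lit 2541) (.f (nat_lit 524) (nat_lit 559) (nat_lit 524) (.d (nat_lit 556) (nat_lit 555) (nat_lit 1547) (nat_lit 557) (nat_lit 1548)))) (.a (.p (nat_lit 495) (.a (.f (nat_lit 463) (nat_lit 592) (nat_lit 7631) (.d (nat_lit 431) (nat_lit 399) (nat_lit 4495) (nat_lit 464) (nat_lit 7599))) (.f (nat_lit 524) (nat_lit 527) (nat_lit 2540) (.d (nat_lit 494) (nat_lit 493) (nat_lit 1516) (nat_lit 523) (nat_lit 2539))))) (.f (nat_lit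 497) (nat_lit 527) (nat_lit 2541) (.f (nat_lit 495) (nat_lit 494) (nat_lit 1517) (.f (nat_lit 463) (nat_lit 592) (nat_lit 7631) (.d (nat_lit 431) (nat_lit 399) (nat_lit 4495) (nat_lit 464) (nat_lit 7599)))))))))) (.a (.p (nat_lit 561) (.a (.f (nat_lit 527) (nat_lit 525) (nat_lit 525) (.d (nat_lit 562) (nat_lit 559) (nat_lit 3598) (nat_lit 563) (nat_lit 3599))) (.f (nat_lit 593) (nat_lit 464) (nat_lit 4560) (.d (nat_lit 625) (nat_lit 592) (nat_lit 4592) (nat_lit 657) (nat_lit 7696))))) (.p (nat_lit 592) (.a (.f (nat_lit 593) (nat_lit 625) (nat_lit 4592) (.f (nat_lit 495) (nat_lit 463) (nat_lit 7631) (.f (nat_lit 527) (nat_lit 624) (nat_lit 7663) (.f (nat_lit 561) (nat_lit 464) (nat_lit 4560) (.d (nat_lit 562) (nat_lit 559) (nat_lit 3598) (nat_lit 563) (nat_lit 3599)))))) (.a (.f (nat_lit 593) (nat_lit 625) (nat_lit 4592) (.f (nat_lit 464) (nat_lit 561) (nat_lit 4560) (.d (nat_lit 463) (nat_lit 431) (nat_lit 7599)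 (nat_lit 495) (nat_lit 7631)))) (.a (.f (nat_lit 495) (nat_lit 463) (nat_lit 7631) (.f (nat_lit 624) (nat_lit 527) (nat_lit 7663) (.d (nat_lit 625) (nat_lit 593) (nat_lit 4592) (nat_lit 657) (nat_lit 4624)))) (.a (.f (nat_lit 495) (nat_lit 463) (nat_lit 7631) (.f (nat_lit 624) (nat_lit 527) (nat_lit 7663) (.f (nat_lit 655) (nat_lit 623) (nat_lit 5647) (.f (nat_lit 656) (nat_lit 687) (nat_lit 5679) (.d (nat_lit 657) (nat_lit 625) (nat_lit 4624) (nat_lit 689) (nat_lit 4656)))))) (.a (.f (nat_lit 625) (nat_lit 593) (nat_lit 4592) (.f (nat_lit 624) (nat_lit 657) (nat_lit 4624) (.f (nat_lit 527) (nat_lit 495) (nat_lit 7663) (.f (nat_lit 655) (nat_lit 623) (nat_lit 5647) (.d (nat_lit 656) (nat_lit 559) (nat_lit 7695) (nat_lit 687) (nat_lit 5679)))))) (.a (.p (nat_lit 561) (.a (.f (nat_lit 495) (nat_lit 463) (nat_lit 7631) (.f (nat_lit 527) (nat_lit 624) (nat_lit 7663) (.d (nat_lit 562) (nat_lit 559) (nat_lit 3598) (nat_lit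 563) (nat_lit 3599)))) (.a (.f (nat_lit 464) (nat_lit 593) (nat_lit 4560) (.d (nat_lit 463) (nat_lit 431) (nat_lit 7599) (nat_lit 495) (nat_lit 7631))) (.p (nat_lit 562) (.a (.f (nat_lit 593) (nat_lit 464) (nat_lit 4560) (.f (nat_lit 563) (nat_lit 564) (nat_lit 1584) (.f (nat_lit 595) (nat_lit 596) (nat_lit 560) (.f (nat_lit 594) (nat_lit 559) (nat_lit 559) (.f (nat_lit 627) (nat_lit 628) (nat_lit 592) (.d (nat_lit 530) (nat_lit 498) (nat_lit 4594) (nat_lit 659) (nat_lit 7698))))))) (.a (.d (nat_lit 527) (nat_lit 559) (nat_lit 3598) (nat_lit 563) (nat_lit 3599)) (.a (.f (nat_lit 563) (nat_lit 527) (nat_lit 3599) (.d (nat_lit 593) (nat_lit 464) (nat_lit 4560) (nat_lit 564) (nat_lit 1584))) (.f (nat_lit 559) (nat_lit 527) (nat_lit 3598) (.f (nat_lit 593) (nat_lit 464) (nat_lit 4560) (.d (nat_lit 558) (nat_lit 557) (nat_lit 557) (nat_lit 594) (nat_lit 558))))))))))) (.f (nat_lit 593) (nat_lit 625) (nat_lit 4592) (.p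 (nat_lit 594) (.a (.f (nat_lit 595) (nat_lit 559) (nat_lit 3631) (.d (nat_lit 561) (nat_lit 464) (nat_lit 4560) (nat_lit 596) (nat_lit 3632))) (.a (.f (nat_lit 595) (nat_lit 559) (nat_lit 3631) (.f (nat_lit 596) (nat_lit 561) (nat_lit 3632) (.d (nat_lit 564) (nat_lit 563) (nat_lit 2608) (nat_lit 565) (nat_lit 2609)))) (.a (.f (nat_lit 595) (nat_lit 559) (nat_lit 3631) (.f (nat_lit 564) (nat_lit 563) (nat_lit 2608) (.f (nat_lit 596) (nat_lit 565) (nat_lit 2609) (.d (nat_lit 628) (nat_lit 627) (nat_lit 592) (nat_lit 629) (nat_lit 593))))) (.a (.f (nat_lit 561) (nat_lit 464) (nat_lit 4560) (.f (nat_lit 595) (nat_lit 596) (nat_lit 3632) (.f (nat_lit 563) (nat_lit 564) (nat_lit 2608) (.f (nat_lit 627) (nat_lit 628) (nat_lit 592) (.f (nat_lit 562) (nat_lit 527) (nat_lit 3599) (.d (nat_lit 530) (nat_lit 498) (nat_lit 4594) (nat_lit 659) (nat_lit 7698))))))) (.f (nat_lit 561) (nat_lit 464) (nat_lit 4560) (.f (nat_lit 559)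 (nat_lit 558) (nat_lit 558) (.f (nat_lit 562) (nat_lit 527) (nat_lit 3598) (.f (nat_lit 563) (nat_lit 564) (nat_lit 1584) (.d (nat_lit 531) (nat_lit 530) (nat_lit 2575) (nat_lit 532) (nat_lit 2576)))))))))))))))))))))))))) (.a s102050 (.a (.p (nat_lit 464) (.a (.f (nat_lit 431) (nat_lit 463) (nat_lit 7599) (.f (nat_lit 432) (nat_lit 399) (nat_lit 7567) (.d (nat_lit 433) (nat_lit 401) (nat_lit 6544) (nat_lit 465) (nat_lit 6576)))) (.a (.f (nat_lit 433) (nat_lit 465) (nat_lit 6576) (.f (nat_lit 432) (nat_lit 401) (nat_lit 6544) (.f (nat_lit 527) (nat_lit 559) (nat_lit 5551) (.f (nat_lit 400) (nat_lit 495) (nat_lit 5519) (.d (nat_lit 399) (nat_lit 367) (nat_lit 7535) (nat_lit 431) (nat_lit 7567)))))) (.a (.f (nat_lit 463) (nat_lit 431) (nat_lit 7599) (.f (nat_lit 592) (nat_lit 495) (nat_lit 7631) (.d (nat_lit 593) (nat_lit 561) (nat_lit 4560) (nat_lit 625) (nat_lit 4592)))) (.f (nat_lit 593) (nat_lit 561) (nat_lit 4560)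 (.f (nat_lit 592) (nat_lit 625) (nat_lit 4592) (.f (nat_lit 495) (nat_lit 463) (nat_lit 7631) (.f (nat_lit 527) (nat_lit 624) (nat_lit 7663) (.d (nat_lit 432) (nat_lit 400) (nat_lit 5519) (nat_lit 559) (nat_lit 5551)))))))))) (.a (.p (nat_lit 464) (.a (.f (nat_lit 463) (nat_lit 431) (nat_lit 7599) (.f (nat_lit 465) (nat_lit 433) (nat_lit 6576) (.d (nat_lit 592) (nat_lit 495) (nat_lit 7631) (nat_lit 497) (nat_lit 6608)))) (.a (.f (nat_lit 431) (nat_lit 463) (nat_lit 7599) (.f (nat_lit 432) (nat_lit 399) (nat_lit 7567) (.d (nat_lit 433) (nat_lit 401) (nat_lit 6544) (nat_lit 465) (nat_lit 6576)))) (.a (.f (nat_lit 433) (nat_lit 465) (nat_lit 6576) (.f (nat_lit 432) (nat_lit 401) (nat_lit 6544) (.f (nat_lit 527) (nat_lit 559) (nat_lit 5551) (.f (nat_lit 400) (nat_lit 495) (nat_lit 5519) (.d (nat_lit 399) (nat_lit 367) (nat_lit 7535) (nat_lit 431) (nat_lit 7567)))))) (.a (.f (nat_lit 431) (nat_lit 463) (nat_lit 7599)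 (.f (nat_lit 432) (nat_lit 399) (nat_lit 7567) (.f (nat_lit 401) (nat_lit 433) (nat_lit 6544) (.f (nat_lit 400) (nat_lit 369) (nat_lit 6512) (.d (nat_lit 527) (nat_lit 495) (nat_lit 5519) (nat_lit 559) (nat_lit 5551)))))) (.a (.f (nat_lit 465) (nat_lit 433) (nat_lit 6576) (.f (nat_lit 592) (nat_lit 497) (nat_lit 6608) (.f (nat_lit 495) (nat_lit 463) (nat_lit 7631) (.f (nat_lit 624) (nat_lit 527) (nat_lit 7663) (.d (nat_lit 625) (nat_lit 593) (nat_lit 4592) (nat_lit 657) (nat_lit 4624)))))) (.f (nat_lit 431) (nat_lit 463) (nat_lit 7599) (.f (nat_lit 432) (nat_lit 399) (nat_lit 7567) (.f (nat_lit 527) (nat_lit 559) (nat_lit 5551) (.f (nat_lit 495) (nat_lit 400) (nat_lit 5519) (.f (nat_lit 592) (nat_lit 624) (nat_lit 7663) (.f (nat_lit 497) (nat_lit 465) (nat_lit 6608) (.d (nat_lit 526) (nat_lit 498) (nat_lit 1518) (nat_lit 525) (nat_lit 2541)))))))))))))) (.a (.p (nat_lit 464) (.a (.f (nat_lit 431) (nat_lit 463) (nat_lit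 7599) (.f (nat_lit 432) (nat_lit 399) (nat_lit 7567) (.d (nat_lit 433) (nat_lit 401) (nat_lit 6544) (nat_lit 465) (nat_lit 6576)))) (.a (.f (nat_lit 433) (nat_lit 465) (nat_lit 6576) (.f (nat_lit 432) (nat_lit 401) (nat_lit 6544) (.f (nat_lit 527) (nat_lit 559) (nat_lit 5551) (.f (nat_lit 400) (nat_lit 495) (nat_lit 5519) (.d (nat_lit 399) (nat_lit 367) (nat_lit 7535) (nat_lit 431) (nat_lit 7567)))))) (.a (.f (nat_lit 431) (nat_lit 463) (nat_lit 7599) (.f (nat_lit 432) (nat_lit 399) (nat_lit 7567) (.f (nat_lit 401) (nat_lit 433) (nat_lit 6544) (.f (nat_lit 400) (nat_lit 369) (nat_lit 6512) (.d (nat_lit 527) (nat_lit 495) (nat_lit 5519) (nat_lit 559) (nat_lit 5551)))))) (.a (.p (nat_lit 432) (.a (.d (nat_lit 433) (nat_lit 401) (nat_lit 6544) (nat_lit 465) (nat_lit 6576)) (.a (.f (nat_lit 527) (nat_lit 559) (nat_lit 5551) (.f (nat_lit 400) (nat_lit 495) (nat_lit 5519) (.d (nat_lit 401) (nat_lit 369) (nat_lit 6512)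 (nat_lit 433) (nat_lit 6544)))) (.a (.f (nat_lit 527) (nat_lit 559) (nat_lit 5551) (.f (nat_lit 400) (nat_lit 495) (nat_lit 5519) (.f (nat_lit 369) (nat_lit 401) (nat_lit 6512) (.f (nat_lit 368) (nat_lit 337) (nat_lit 6480) (.d (nat_lit 367) (nat_lit 335) (nat_lit 7503) (nat_lit 399) (nat_lit 7535)))))) (.f (nat_lit 527) (nat_lit 559) (nat_lit 5551) (.f (nat_lit 400) (nat_lit 495) (nat_lit 5519) (.f (nat_lit 465) (nat_lit 433) (nat_lit 6576) (.f (nat_lit 368) (nat_lit 497) (nat_lit 4464) (.d (nat_lit 367) (nat_lit 335) (nat_lit 7503) (nat_lit 399) (nat_lit 7535)))))))))) (.a (.p (nat_lit 527) (.a (.f (nat_lit 432) (nat_lit 559) (nat_lit 5551) (.d (nat_lit 431) (nat_lit 399) (nat_lit 7567) (nat_lit 463) (nat_lit 7599))) (.a (.f (nat_lit 561) (nat_lit 593) (nat_lit 4560) (.f (nat_lit 526) (nat_lit 525) (nat_lit 525) (.d (nat_lit 562) (nat_lit 559) (nat_lit 3598) (nat_lit 563) (nat_lit 3599)))) (.p (nat_lit 497) (.a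 (.f (nat_lit 463) (nat_lit 431) (nat_lit 7599) (.f (nat_lit 498) (nat_lit 499) (nat_lit 3535) (.d (nat_lit 495) (nat_lit 462) (nat_lit 3534) (nat_lit 526) (nat_lit 1518)))) (.a (.f (nat_lit 526) (nat_lit 525) (nat_lit 2541) (.d (nat_lit 498) (nat_lit 495) (nat_lit 1518) (nat_lit 499) (nat_lit 1519))) (.a (.f (nat_lit 463) (nat_lit 431) (nat_lit 7599) (.f (nat_lit 498) (nat_lit 499) (nat_lit 3535) (.d (nat_lit 462) (nat_lit 465) (nat_lit 462) (nat_lit 495) (nat_lit 3534)))) (.a (.f (nat_lit 463) (nat_lit 431) (nat_lit 7599) (.f (nat_lit 498) (nat_lit 499) (nat_lit 3535) (.d (nat_lit 462) (nat_lit 461) (nat_lit 461) (nat_lit 465) (nat_lit 462)))) (.a (.f (nat_lit 463) (nat_lit 431) (nat_lit 7599) (.f (nat_lit 462) (nat_lit 461) (nat_lit 461) (.d (nat_lit 498) (nat_lit 465) (nat_lit 462) (nat_lit 495) (nat_lit 3534)))) (.f (nat_lit 431) (nat_lit 463) (nat_lit 7599) (.f (nat_lit 432) (nat_lit 399) (nat_lit 7567) (.f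 (nat_lit 400) (nat_lit 495) (nat_lit 5519) (.f (nat_lit 368) (nat_lit 465) (nat_lit 4464) (.d (nat_lit 369) (nat_lit 337) (nat_lit 6480) (nat_lit 401) (nat_lit 6512))))))))))))))) (.p (nat_lit 498) (.a (.f (nat_lit 463) (nat_lit 431) (nat_lit 7599) (.f (nat_lit 497) (nat_lit 499) (nat_lit 3535) (.d (nat_lit 462) (nat_lit 461) (nat_lit 461) (nat_lit 495) (nat_lit 3534)))) (.a (.p (nat_lit 527) (.a (.f (nat_lit 497) (nat_lit 499) (nat_lit 1519) (.d (nat_lit 526) (nat_lit 495) (nat_lit 1518) (nat_lit 525) (nat_lit 2541))) (.a (.f (nat_lit 497) (nat_lit 499) (nat_lit 1519) (.f (nat_lit 465) (nat_lit 433) (nat_lit 6576) (.f (nat_lit 561) (nat_lit 593) (nat_lit 4560) (.f (nat_lit 562) (nat_lit 563) (nat_lit 3599) (.f (nat_lit 530) (nat_lit 594) (nat_lit 7633) (.d (nat_lit 531) (nat_lit 495) (nat_lit 495) (nat_lit 559) (nat_lit 2575))))))) (.f (nat_lit 561) (nat_lit 593) (nat_lit 4560) (.f (nat_lit 526) (nat_lit 525) (nat_lit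 525) (.d (nat_lit 562) (nat_lit 559) (nat_lit 3598) (nat_lit 563) (nat_lit 3599))))))) (.a (.f (nat_lit 463) (nat_lit 431) (nat_lit 7599) (.f (nat_lit 497) (nat_lit 499) (nat_lit 3535) (.d (nat_lit 462) (nat_lit 461) (nat_lit 461) (nat_lit 465) (nat_lit 462)))) (.a (.f (nat_lit 465) (nat_lit 433) (nat_lit 6576) (.f (nat_lit 463) (nat_lit 431) (nat_lit 7599) (.f (nat_lit 466) (nat_lit 499) (nat_lit 463) (.d (nat_lit 495) (nat_lit 467) (nat_lit 1487) (nat_lit 494) (nat_lit 1486))))) (.f (nat_lit 463) (nat_lit 431) (nat_lit 7599) (.f (nat_lit 465) (nat_lit 433) (nat_lit 6576) (.f (nat_lit 462) (nat_lit 497) (nat_lit 462) (.f (nat_lit 494) (nat_lit 493) (nat_lit 1485) (.f (nat_lit 495) (nat_lit 466) (nat_lit 1486) (.f (nat_lit 430) (nat_lit 429) (nat_lit 3501) (.d (nat_lit 398) (nat_lit 366) (nat_lit 4462) (nat_lit 527) (nat_lit 4494))))))))))))))))))) (.p (nat_lit 464) (.a (.f (nat_lit 463) (nat_lit 431) (nat_lit 7599)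 (.f (nat_lit 465) (nat_lit 433) (nat_lit 6576) (.d (nat_lit 592) (nat_lit 495) (nat_lit 7631) (nat_lit 497) (nat_lit 6608)))) (.a (.f (nat_lit 431) (nat_lit 463) (nat_lit 7599) (.f (nat_lit 432) (nat_lit 399) (nat_lit 7567) (.d (nat_lit 433) (nat_lit 401) (nat_lit 6544) (nat_lit 465) (nat_lit 6576)))) (.a (.f (nat_lit 433) (nat_lit 465) (nat_lit 6576) (.f (nat_lit 432) (nat_lit 401) (nat_lit 6544) (.f (nat_lit 527) (nat_lit 559) (nat_lit 5551) (.f (nat_lit 400) (nat_lit 495) (nat_lit 5519) (.d (nat_lit 399) (nat_lit 367) (nat_lit 7535) (nat_lit 431) (nat_lit 7567)))))) (.a (.f (nat_lit 431) (nat_lit 463) (nat_lit 7599) (.f (nat_lit 432) (nat_lit 399) (nat_lit 7567) (.f (nat_lit 401) (nat_lit 433) (nat_lit 6544) (.f (nat_lit 400) (nat_lit 369) (nat_lit 6512) (.d (nat_lit 527) (nat_lit 495) (nat_lit 5519) (nat_lit 559) (nat_lit 5551)))))) (.a (.f (nat_lit 465) (nat_lit 433) (nat_lit 6576) (.f (nat_lit 592) (nat_lit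 497) (nat_lit 6608) (.f (nat_lit 495) (nat_lit 463) (nat_lit 7631) (.f (nat_lit 527) (nat_lit 624) (nat_lit 7663) (.d (nat_lit 432) (nat_lit 400) (nat_lit 5519) (nat_lit 559) (nat_lit 5551)))))) (.f (nat_lit 431) (nat_lit 463) (nat_lit 7599) (.f (nat_lit 432) (nat_lit 399) (nat_lit 7567) (.f (nat_lit 527) (nat_lit 559) (nat_lit 5551) (.f (nat_lit 495) (nat_lit 400) (nat_lit 5519) (.f (nat_lit 592) (nat_lit 624) (nat_lit 7663) (.f (nat_lit 497) (nat_lit 465) (nat_lit 6608) (.d (nat_lit 526) (nat_lit 498) (nat_lit 1518) (nat_lit 525) (nat_lit 2541)))))))))))))))))))))))))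
noncomputable def s104074 : Cert := .r (nat_lit 3773962425700235454170381015460514261330110044589002775889330287791956330566838353103085235776391519307565223460440841511393058764483938163057714398267031125743353462784) (.p (nat_lit 531) (.a (.f (nat_lit 499) (nat_lit 532) (nat_lit 496) (.f (nat_lit 467) (nat_lit 468) (nat_lit 2512) (.d (nat_lit 495) (nat_lit 466) (nat_lit 2511) (nat_lit 530) (nat_lit 495)))) (.a (.f (nat_lit 499) (nat_lit 532) (nat_lit 496) (.f (nat_lit 468) (nat_lit 467) (nat_lit 2512) (.f (nat_lit 500) (nat_lit 469) (nat_lit 2513) (.f (nat_lit 465) (nat_lit 464) (nat_lit 3536) (.f (nat_lit 501) (nat_lit 466) (nat_lit 3537) (.f (nat_lit 502) (nat_lit 530) (nat_lit 1522) (.d (nat_lit 534) (nat_lit 533) (nat_lit 498) (nat_lit 535) (nat_lit 499)))))))) (.a (.f (nat_lit 495) (nat_lit 530) (nat_lit 495) (.f (nat_lit 466) (nat_lit 467) (nat_lit 2511) (.f (nat_lit 494) (nat_lit 465) (nat_lit 2510) (.f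 (nat_lit 525) (nat_lit 526) (nat_lit 1517) (.f (nat_lit 493) (nat_lit 524) (nat_lit 1516) (.d (nat_lit 461) (nat_lit 460) (nat_lit 3532) (nat_lit 462) (nat_lit 3533))))))) (.a (.f (nat_lit 499) (nat_lit 532) (nat_lit 496) (.f (nat_lit 467) (nat_lit 468) (nat_lit 2512) (.f (nat_lit 466) (nat_lit 495) (nat_lit 2511) (.d (nat_lit 434) (nat_lit 402) (nat_lit 4498) (nat_lit 563) (nat_lit 7602))))) (.a (.f (nat_lit 499) (nat_lit 532) (nat_lit 496) (.f (nat_lit 467) (nat_lit 468) (nat_lit 2512) (.f (nat_lit 530) (nat_lit 495) (nat_lit 495) (.d (nat_lit 435) (nat_lit 403) (nat_lit 5522) (nat_lit 562) (nat_lit 5554))))) (.f (nat_lit 530) (nat_lit 495) (nat_lit 495) (.d (nat_lit 532) (nat_lit 499) (nat_lit 496) (nat_lit 533) (nat_lit 3569)))))))))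
noncomputable def s104155 : Cert := .r (nat_lit 33965661824272566272511991489353683122417128520023976096926060945512332728389440590804115761748245978999720985247289620353418571319827288099701345477964273606604582027264) (.p (nat_lit 593) (.a (.f (nat_lit 561) (nat_lit 464) (nat_lit 4560) (.d (nat_lit 625) (nat_lit 592) (nat_lit 4592) (nat_lit 657) (nat_lit 7696))) (.a (.f (nat_lit 592) (nat_lit 625) (nat_lit 4592) (.f (nat_lit 591) (nat_lit 623) (nat_lit 5615) (.d (nat_lit 562) (nat_lit 561) (nat_lit 1583) (nat_lit 594) (nat_lit 2607)))) (.a (.f (nat_lit 561) (nat_lit 464) (nat_lit 4560) (.f (nat_lit 562) (nat_lit 527) (nat_lit 3599) (.d (nat_lit 592) (nat_lit 564) (nat_lit 1584) (nat_lit 591) (nat_lit 1583)))) (.a (.f (nat_lit 592) (nat_lit 625) (nat_lit 4592) (.f (nat_lit 591) (nat_lit 623) (nat_lit 5615) (.f (nat_lit 594) (nat_lit 562) (nat_lit 2607) (.f (nat_lit 595) (nat_lit 564) (nat_lit 2608) (.d (nat_lit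 627) (nat_lit 626) (nat_lit 591) (nat_lit 628) (nat_lit 592)))))) (.f (nat_lit 561) (nat_lit 464) (nat_lit 4560) (.f (nat_lit 562) (nat_lit 527) (nat_lit 3599) (.f (nat_lit 531) (nat_lit 532) (nat_lit 2576) (.f (nat_lit 595) (nat_lit 596) (nat_lit 560) (.d (nat_lit 594) (nat_lit 467) (nat_lit 5586) (nat_lit 626) (nat_lit 5618)))))))))))
noncomputable def s104214 : Cert := .r (nat_lit 33965661831302119076485735837495149540676475174507877844272805684732263310595436810603315559121747051037050449544041043218294969949840203811411188742040078576706400550912) (.p (nat_lit 498) (.a (.f (nat_lit 595) (nat_lit 466) (nat_lit 7634) (.f (nat_lit 532) (nat_lit 497) (nat_lit 496) (.d (nat_lit 627) (nat_lit 500) (nat_lit 6643) (nat_lit 530) (nat_lit 7666)))) (.a (.f (nat_lit 595) (nat_lit 466) (nat_lit 7634) (.f (nat_lit 627) (nat_lit 530) (nat_lit 7666) (.d (nat_lit 500) (nat_lit 468) (nat_lit 6611) (nat_lit 532) (nat_lit 6643))))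 (.a (.f (nat_lit 532) (nat_lit 497) (nat_lit 496) (.f (nat_lit 562) (nat_lit 561) (nat_lit 2576) (.f (nat_lit 467) (nat_lit 594) (nat_lit 5586) (.d (nat_lit 435) (nat_lit 530) (nat_lit 5554) (nat_lit 564) (nat_lit 4531))))) (.a (.f (nat_lit 595) (nat_lit 466) (nat_lit 7634) (.f (nat_lit 532) (nat_lit 497) (nat_lit 496) (.d (nat_lit 500) (nat_lit 468) (nat_lit 6611) (nat_lit 627) (nat_lit 6643)))) (.f (nat_lit 595) (nat_lit 466) (nat_lit 7634) (.f (nat_lit 627) (nat_lit 530) (nat_lit 7666) (.d (nat_lit 626) (nat_lit 594) (nat_lit 5618) (nat_lit 658) (nat_lit 5650)))))))))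
noncomputable def s104229 : Cert := .r (nat_lit 33965661831302119076485735837495149540676475174507877844272805684732263310595436810603315559121747051037050449544041043218294969949840203811411188742040078576706400550912) (.p (nat_lit 498) (.a (.f (nat_lit 595) (nat_lit 466) (nat_lit 7634) (.f (nat_lit 532) (nat_lit 497) (nat_lit 496) (.d (nat_lit 627) (nat_lit 500) (nat_lit 6643) (nat_lit 530) (nat_lit 7666)))) (.a (.f (nat_lit 595) (nat_lit 466) (nat_lit 7634) (.f (nat_lit 627) (nat_lit 530) (nat_lit 7666) (.d (nat_lit 500) (nat_lit 468) (nat_lit 6611) (nat_lit 532) (nat_lit 6643)))) (.a (.f (nat_lit 497) (nat_lit 532) (nat_lit 496) (.f (nat_lit 467) (nat_lit 468) (nat_lit 2512) (.f (nat_lit 466) (nat_lit 434) (nat_lit 7602) (.f (nat_lit 562) (nat_lit 594) (nat_lit 5586) (.f (nat_lit 435) (nat_lit 530) (nat_lit 5554) (.f (nat_lit 403) (nat_lit 371) (nat_lit 5490) (.d (nat_lit 404) (nat_lit 372) (nat_lit 6515) (nat_lit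 436) (nat_lit 6547)))))))) (.a (.f (nat_lit 595) (nat_lit 466) (nat_lit 7634) (.f (nat_lit 532) (nat_lit 497) (nat_lit 496) (.d (nat_lit 500) (nat_lit 468) (nat_lit 6611) (nat_lit 627) (nat_lit 6643)))) (.a (.f (nat_lit 497) (nat_lit 532) (nat_lit 496) (.f (nat_lit 467) (nat_lit 468) (nat_lit 2512) (.f (nat_lit 562) (nat_lit 594) (nat_lit 5586) (.f (nat_lit 435) (nat_lit 530) (nat_lit 5554) (.f (nat_lit 404) (nat_lit 436) (nat_lit 6547) (.f (nat_lit 403) (nat_lit 372) (nat_lit 6515) (.d (nat_lit 402) (nat_lit 370) (nat_lit 7538) (nat_lit 434) (nat_lit 7570)))))))) (.f (nat_lit 595) (nat_lit 466) (nat_lit 7634) (.f (nat_lit 627) (nat_lit 530) (nat_lit 7666) (.d (nat_lit 626) (nat_lit 594) (nat_lit 5618) (nat_lit 658) (nat_lit 5650))))))))))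
noncomputable def s104239 : Cert := .r (nat_lit 33965661831302119076485735837495149540676475174507877844272805684732263310595436810603315559121747051037050449544041043218294969949840203811411188742040078576706400550912) (.p (nat_lit 498) (.a (.f (nat_lit 595) (nat_lit 466) (nat_lit 7634) (.f (nat_lit 532) (nat_lit 497) (nat_lit 496) (.d (nat_lit 627) (nat_lit 500) (nat_lit 6643) (nat_lit 530) (nat_lit 7666)))) (.a (.f (nat_lit 595) (nat_lit 466) (nat_lit 7634) (.f (nat_lit 627) (nat_lit 530) (nat_lit 7666) (.d (nat_lit 500) (nat_lit 468) (nat_lit 6611) (nat_lit 532) (nat_lit 6643)))) (.a (.f (nat_lit 497) (nat_lit 532) (nat_lit 496) (.f (nat_lit 467) (nat_lit 468) (nat_lit 2512) (.f (nat_lit 434) (nat_lit 466) (nat_lit 7602) (.f (nat_lit 435) (nat_lit 402) (nat_lit 7570) (.f (nat_lit 404) (nat_lit 436) (nat_lit 6547) (.d (nat_lit 403) (nat_lit 372) (nat_lit 6515) (nat_lit 530) (nat_lit 5522))))))) (.a (.f (nat_lit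 595) (nat_lit 466) (nat_lit 7634) (.f (nat_lit 532) (nat_lit 497) (nat_lit 496) (.d (nat_lit 500) (nat_lit 468) (nat_lit 6611) (nat_lit 627) (nat_lit 6643)))) (.a (.f (nat_lit 497) (nat_lit 532) (nat_lit 496) (.f (nat_lit 468) (nat_lit 467) (nat_lit 2512) (.d (nat_lit 500) (nat_lit 469) (nat_lit 2513) (nat_lit 595) (nat_lit 6611)))) (.f (nat_lit 595) (nat_lit 466) (nat_lit 7634) (.f (nat_lit 627) (nat_lit 530) (nat_lit 7666) (.d (nat_lit 626) (nat_lit 594) (nat_lit 5618) (nat_lit 658) (nat_lit 5650))))))))))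
noncomputable def s104313 : Cert := .r (nat_lit 33965661831302119076485735837495149540676475174507877844272805684732263310595436810603315559121747051037050449544041043218294969949840203811411188742040078576706400550912) (.p (nat_lit 498) (.a (.f (nat_lit 595) (nat_lit 466) (nat_lit 7634) (.f (nat_lit 532) (nat_lit 497) (nat_lit 496) (.d (nat_lit 627) (nat_lit 500) (nat_lit 6643) (nat_lit 530) (nat_lit 7666)))) (.a (.f (nat_lit 595) (nat_lit 466) (nat_lit 7634) (.f (nat_lit 627) (nat_lit 530) (nat_lit 7666) (.d (nat_lit 500) (nat_lit 468) (nat_lit 6611) (nat_lit 532) (nat_lit 6643)))) (.a (.f (nat_lit 497) (nat_lit 532) (nat_lit 496) (.f (nat_lit 467) (nat_lit 468) (nat_lit 2512) (.f (nat_lit 434) (nat_lit 466) (nat_lit 7602) (.f (nat_lit 435) (nat_lit 402) (nat_lit 7570) (.f (nat_lit 404) (nat_lit 436) (nat_lit 6547) (.d (nat_lit 403) (nat_lit 372) (nat_lit 6515) (nat_lit 530) (nat_lit 5522))))))) (.a (.f (nat_lit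 595) (nat_lit 466) (nat_lit 7634) (.f (nat_lit 532) (nat_lit 497) (nat_lit 496) (.d (nat_lit 500) (nat_lit 468) (nat_lit 6611) (nat_lit 627) (nat_lit 6643)))) (.a (.f (nat_lit 497) (nat_lit 532) (nat_lit 496) (.f (nat_lit 468) (nat_lit 467) (nat_lit 2512) (.d (nat_lit 500) (nat_lit 469) (nat_lit 2513) (nat_lit 595) (nat_lit 6611)))) (.f (nat_lit 595) (nat_lit 466) (nat_lit 7634) (.f (nat_lit 468) (nat_lit 500) (nat_lit 6611) (.d (nat_lit 497) (nat_lit 467) (nat_lit 2512) (nat_lit 527) (nat_lit 1519))))))))))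
noncomputable def s104331 : Cert := .r (nat_lit 33965661824272566272511991489353683122417128520023976096926060945512332728389440590804115761748245978999720985247289620353418571319827288099701345477964273606604582027264) (.p (nat_lit 531) (.a s104214 (.a s104229 (.a (.p (nat_lit 562) (.a (.f (nat_lit 467) (nat_lit 594) (nat_lit 5586) (.f (nat_lit 532) (nat_lit 561) (nat_lit 2576) (.d (nat_lit 435) (nat_lit 530) (nat_lit 5554) (nat_lit 564) (nat_lit 4531)))) (.a (.f (nat_lit 467) (nat_lit 594) (nat_lit 5586) (.f (nat_lit 435) (nat_lit 530) (nat_lit 5554) (.d (nat_lit 564) (nat_lit 532) (nat_lit 4531) (nat_lit 596) (nat_lit 4563)))) (.a (.d (nat_lit 561) (nat_lit 527) (nat_lit 3599) (nat_lit 532) (nat_lit 2576)) (.f (nat_lit 467) (nat_lit 594) (nat_lit 5586) (.f (nat_lit 435) (nat_lit 530) (nat_lit 5554) (.d (nat_lit 436) (nat_lit 404) (nat_lit 6547) (nat_lit 468) (nat_lit 6579)))))))) (.a s104239 (.a s104313 (.a (.p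 (nat_lit 498) (.a (.f (nat_lit 595) (nat_lit 466) (nat_lit 7634) (.f (nat_lit 532) (nat_lit 497) (nat_lit 496) (.d (nat_lit 500) (nat_lit 468) (nat_lit 6611) (nat_lit 627) (nat_lit 6643)))) (.a (.f (nat_lit 595) (nat_lit 466) (nat_lit 7634) (.f (nat_lit 596) (nat_lit 628) (nat_lit 4595) (.f (nat_lit 562) (nat_lit 561) (nat_lit 560) (.d (nat_lit 467) (nat_lit 564) (nat_lit 4563) (nat_lit 594) (nat_lit 5586))))) (.d (nat_lit 497) (nat_lit 527) (nat_lit 1519) (nat_lit 532) (nat_lit 496))))) (.a (.p (nat_lit 498) (.a (.f (nat_lit 595) (nat_lit 466) (nat_lit 7634) (.f (nat_lit 532) (nat_lit 497) (nat_lit 496) (.d (nat_lit 627) (nat_lit 500) (nat_lit 6643) (nat_lit 530) (nat_lit 7666)))) (.a (.f (nat_lit 595) (nat_lit 466) (nat_lit 7634) (.f (nat_lit 627) (nat_lit 530) (nat_lit 7666) (.d (nat_lit 500) (nat_lit 468) (nat_lit 6611) (nat_lit 532) (nat_lit 6643)))) (.a (.d (nat_lit 497) (nat_lit 527) (nat_lit 1519) (nat_lit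 532) (nat_lit 496)) (.f (nat_lit 595) (nat_lit 466) (nat_lit 7634) (.f (nat_lit 627) (nat_lit 530) (nat_lit 7666) (.d (nat_lit 626) (nat_lit 594) (nat_lit 5618) (nat_lit 658) (nat_lit 5650)))))))) (.a (.p (nat_lit 498) (.a (.f (nat_lit 595) (nat_lit 466) (nat_lit 7634) (.f (nat_lit 532) (nat_lit 497) (nat_lit 496) (.d (nat_lit 627) (nat_lit 500) (nat_lit 6643) (nat_lit 530) (nat_lit 7666)))) (.a (.f (nat_lit 595) (nat_lit 466) (nat_lit 7634) (.f (nat_lit 627) (nat_lit 530) (nat_lit 7666) (.d (nat_lit 626) (nat_lit 594) (nat_lit 5618) (nat_lit 658) (nat_lit 5650)))) (.a (.f (nat_lit 532) (nat_lit 497) (nat_lit 496) (.f (nat_lit 562) (nat_lit 561) (nat_lit 2576) (.f (nat_lit 467) (nat_lit 594) (nat_lit 5586) (.d (nat_lit 435) (nat_lit 530) (nat_lit 5554) (nat_lit 564) (nat_lit 4531))))) (.f (nat_lit 595) (nat_lit 466) (nat_lit 7634) (.f (nat_lit 596) (nat_lit 628) (nat_lit 4595) (.f (nat_lit 562) (nat_lit 561) (nat_lit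 560) (.d (nat_lit 467) (nat_lit 564) (nat_lit 4563) (nat_lit 594) (nat_lit 5586))))))))) (.p (nat_lit 498) (.a (.f (nat_lit 595) (nat_lit 466) (nat_lit 7634) (.f (nat_lit 627) (nat_lit 530) (nat_lit 7666) (.d (nat_lit 626) (nat_lit 594) (nat_lit 5618) (nat_lit 658) (nat_lit 5650)))) (.a (.f (nat_lit 497) (nat_lit 527) (nat_lit 1519) (.f (nat_lit 467) (nat_lit 468) (nat_lit 2512) (.f (nat_lit 562) (nat_lit 594) (nat_lit 5586) (.f (nat_lit 435) (nat_lit 530) (nat_lit 5554) (.d (nat_lit 434) (nat_lit 402) (nat_lit 7570) (nat_lit 466) (nat_lit 7602)))))) (.a (.f (nat_lit 595) (nat_lit 466) (nat_lit 7634) (.f (nat_lit 468) (nat_lit 500) (nat_lit 6611) (.d (nat_lit 497) (nat_lit 467) (nat_lit 2512) (nat_lit 527) (nat_lit 1519)))) (.f (nat_lit 497) (nat_lit 527) (nat_lit 1519) (.f (nat_lit 467) (nat_lit 468) (nat_lit 2512) (.f (nat_lit 562) (nat_lit 594) (nat_lit 5586) (.f (nat_lit 596) (nat_lit 564) (nat_lit 4563) (.d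 (nat_lit 595) (nat_lit 561) (nat_lit 560) (nat_lit 628) (nat_lit 4595)))))))))))))))))))
noncomputable def s104358 : Cert := .r (nat_lit 33965661831302119076485735837495149540676475174507877844272805684732263310595436810603315559121747051037050449544041043218294969949840203811411188742040078576706400550912) (.p (nat_lit 594) (.a (.f (nat_lit 467) (nat_lit 562) (nat_lit 5586) (.f (nat_lit 595) (nat_lit 626) (nat_lit 5618) (.d (nat_lit 596) (nat_lit 564) (nat_lit 4563) (nat_lit 628) (nat_lit 4595)))) (.a (.f (nat_lit 595) (nat_lit 626) (nat_lit 5618) (.f (nat_lit 596) (nat_lit 628) (nat_lit 4595) (.f (nat_lit 564) (nat_lit 467) (nat_lit 4563) (.f (nat_lit 500) (nat_lit 468) (nat_lit 6611) (.f (nat_lit 532) (nat_lit 627) (nat_lit 5619) (.f (nat_lit 501) (nat_lit 469) (nat_lit 6612) (.d (nat_lit 502) (nat_lit 503) (nat_lit 1523) (nat_lit 530) (nat_lit 1522)))))))) (.a (.f (nat_lit 467) (nat_lit 562) (nat_lit 5586) (.f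 (nat_lit 564) (nat_lit 596) (nat_lit 4563) (.f (nat_lit 435) (nat_lit 532) (nat_lit 4531) (.d (nat_lit 436) (nat_lit 404) (nat_lit 6547) (nat_lit 468) (nat_lit 6579))))) (.a (.f (nat_lit 595) (nat_lit 626) (nat_lit 5618) (.f (nat_lit 628) (nat_lit 596) (nat_lit 4595) (.f (nat_lit 627) (nat_lit 660) (nat_lit 4627) (.d (nat_lit 500) (nat_lit 468) (nat_lit 6611) (nat_lit 532) (nat_lit 6643))))) (.f (nat_lit 467) (nat_lit 562) (nat_lit 5586) (.f (nat_lit 595) (nat_lit 626) (nat_lit 5618) (.d (nat_lit 468) (nat_lit 436) (nat_lit 6579) (nat_lit 500) (nat_lit 6611)))))))))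
noncomputable def s104394 : Cert := .r (nat_lit 33965661824272566272511991489353683122417128520023976096926060945512332728389440590804115761748245978999720985247289620353418571319827288099701345477964273606604582027264) (.p (nat_lit 531) (.a s104229 (.a (.p (nat_lit 594) (.a (.f (nat_lit 467) (nat_lit 562) (nat_lit 5586) (.f (nat_lit 595) (nat_lit 626) (nat_lit 5618) (.d (nat_lit 596) (nat_lit 564) (nat_lit 4563) (nat_lit 628) (nat_lit 4595)))) (.a (.f (nat_lit 595) (nat_lit 626) (nat_lit 5618) (.f (nat_lit 596) (nat_lit 628) (nat_lit 4595) (.f (nat_lit 564) (nat_lit 467) (nat_lit 4563) (.f (nat_lit 500) (nat_lit 468) (nat_lit 6611) (.f (nat_lit 532) (nat_lit 627) (nat_lit 5619) (.f (nat_lit 501) (nat_lit 469) (nat_lit 6612) (.d (nat_lit 502) (nat_lit 503) (nat_lit 1523) (nat_lit 530) (nat_lit 1522)))))))) (.a (.f (nat_lit 467) (nat_lit 562) (nat_lit 5586) (.f (nat_lit 564) (nat_lit 596) (nat_lit 4563) (.f (nat_lit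 435) (nat_lit 532) (nat_lit 4531) (.d (nat_lit 436) (nat_lit 404) (nat_lit 6547) (nat_lit 468) (nat_lit 6579))))) (.f (nat_lit 595) (nat_lit 626) (nat_lit 5618) (.f (nat_lit 498) (nat_lit 466) (nat_lit 7634) (.f (nat_lit 627) (nat_lit 530) (nat_lit 7666) (.d (nat_lit 500) (nat_lit 468) (nat_lit 6611) (nat_lit 532) (nat_lit 6643))))))))) (.a s104239 (.a s104358 (.a (.p (nat_lit 467) (.a (.f (nat_lit 564) (nat_lit 596) (nat_lit 4563) (.f (nat_lit 435) (nat_lit 532) (nat_lit 4531) (.d (nat_lit 562) (nat_lit 530) (nat_lit 5554) (nat_lit 594) (nat_lit 5586)))) (.a (.f (nat_lit 564) (nat_lit 596) (nat_lit 4563) (.f (nat_lit 435) (nat_lit 532) (nat_lit 4531) (.d (nat_lit 436) (nat_lit 404) (nat_lit 6547) (nat_lit 468) (nat_lit 6579)))) (.a (.f (nat_lit 468) (nat_lit 436) (nat_lit 6579) (.f (nat_lit 498) (nat_lit 497) (nat_lit 2512) (.f (nat_lit 466) (nat_lit 434) (nat_lit 7602) (.f (nat_lit 562) (nat_lit 594) (nat_lit 5586)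 (.f (nat_lit 435) (nat_lit 530) (nat_lit 5554) (.f (nat_lit 403) (nat_lit 371) (nat_lit 5490) (.d (nat_lit 532) (nat_lit 500) (nat_lit 4499) (nat_lit 564) (nat_lit 4531)))))))) (.a (.f (nat_lit 562) (nat_lit 594) (nat_lit 5586) (.f (nat_lit 435) (nat_lit 530) (nat_lit 5554) (.d (nat_lit 436) (nat_lit 404) (nat_lit 6547) (nat_lit 468) (nat_lit 6579)))) (.f (nat_lit 468) (nat_lit 436) (nat_lit 6579) (.f (nat_lit 498) (nat_lit 497) (nat_lit 2512) (.f (nat_lit 466) (nat_lit 434) (nat_lit 7602) (.f (nat_lit 469) (nat_lit 470) (nat_lit 1490) (.f (nat_lit 501) (nat_lit 502) (nat_lit 466) (.f (nat_lit 437) (nat_lit 438) (nat_lit 2482) (.f (nat_lit 564) (nat_lit 596) (nat_lit 4563) (.d (nat_lit 532) (nat_lit 500) (nat_lit 6580) (nat_lit 533) (nat_lit 5556)))))))))))))) (.a s104313 (.a (.p (nat_lit 498) (.a (.f (nat_lit 595) (nat_lit 466) (nat_lit 7634) (.f (nat_lit 532) (nat_lit 497) (nat_lit 496) (.d (nat_lit 500) (nat_lit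 468) (nat_lit 6611) (nat_lit 627) (nat_lit 6643)))) (.a (.f (nat_lit 595) (nat_lit 466) (nat_lit 7634) (.f (nat_lit 500) (nat_lit 468) (nat_lit 6611) (.f (nat_lit 532) (nat_lit 627) (nat_lit 6643) (.f (nat_lit 596) (nat_lit 628) (nat_lit 4595) (.f (nat_lit 564) (nat_lit 467) (nat_lit 4563) (.f (nat_lit 597) (nat_lit 629) (nat_lit 4596) (.d (nat_lit 598) (nat_lit 562) (nat_lit 3634) (nat_lit 599) (nat_lit 3635)))))))) (.a (.d (nat_lit 497) (nat_lit 527) (nat_lit 1519) (nat_lit 532) (nat_lit 496)) (.f (nat_lit 595) (nat_lit 466) (nat_lit 7634) (.f (nat_lit 468) (nat_lit 500) (nat_lit 6611) (.d (nat_lit 497) (nat_lit 467) (nat_lit 2512) (nat_lit 527) (nat_lit 1519)))))))) (.a (.p (nat_lit 498) (.a (.f (nat_lit 595) (nat_lit 466) (nat_lit 7634) (.f (nat_lit 532) (nat_lit 497) (nat_lit 496) (.d (nat_lit 627) (nat_lit 500) (nat_lit 6643) (nat_lit 530) (nat_lit 7666)))) (.a (.f (nat_lit 595) (nat_lit 466) (nat_lit 7634)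 (.f (nat_lit 627) (nat_lit 530) (nat_lit 7666) (.d (nat_lit 500) (nat_lit 468) (nat_lit 6611) (nat_lit 532) (nat_lit 6643)))) (.a (.d (nat_lit 497) (nat_lit 527) (nat_lit 1519) (nat_lit 532) (nat_lit 496)) (.f (nat_lit 595) (nat_lit 466) (nat_lit 7634) (.f (nat_lit 627) (nat_lit 530) (nat_lit 7666) (.d (nat_lit 626) (nat_lit 594) (nat_lit 5618) (nat_lit 658) (nat_lit 5650)))))))) (.a (.p (nat_lit 498) (.a (.f (nat_lit 595) (nat_lit 466) (nat_lit 7634) (.f (nat_lit 532) (nat_lit 497) (nat_lit 496) (.d (nat_lit 627) (nat_lit 500) (nat_lit 6643) (nat_lit 530) (nat_lit 7666)))) (.a (.f (nat_lit 595) (nat_lit 466) (nat_lit 7634) (.f (nat_lit 627) (nat_lit 530) (nat_lit 7666) (.d (nat_lit 626) (nat_lit 594) (nat_lit 5618) (nat_lit 658) (nat_lit 5650)))) (.d (nat_lit 497) (nat_lit 527) (nat_lit 1519) (nat_lit 532) (nat_lit 496))))) (.a (.p (nat_lit 498) (.a (.f (nat_lit 595) (nat_lit 466) (nat_lit 7634) (.f (nat_lit 627)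 (nat_lit 530) (nat_lit 7666) (.d (nat_lit 626) (nat_lit 594) (nat_lit 5618) (nat_lit 658) (nat_lit 5650)))) (.a (.f (nat_lit 497) (nat_lit 527) (nat_lit 1519) (.f (nat_lit 467) (nat_lit 468) (nat_lit 2512) (.f (nat_lit 562) (nat_lit 594) (nat_lit 5586) (.f (nat_lit 435) (nat_lit 530) (nat_lit 5554) (.d (nat_lit 434) (nat_lit 402) (nat_lit 7570) (nat_lit 466) (nat_lit 7602)))))) (.a (.f (nat_lit 595) (nat_lit 466) (nat_lit 7634) (.f (nat_lit 468) (nat_lit 500) (nat_lit 6611) (.d (nat_lit 497) (nat_lit 467) (nat_lit 2512) (nat_lit 527) (nat_lit 1519)))) (.f (nat_lit 497) (nat_lit 527) (nat_lit 1519) (.f (nat_lit 467) (nat_lit 468) (nat_lit 2512) (.f (nat_lit 562) (nat_lit 594) (nat_lit 5586) (.f (nat_lit 435) (nat_lit 530) (nat_lit 5554) (.f (nat_lit 404) (nat_lit 436) (nat_lit 6547) (.f (nat_lit 403) (nat_lit 372) (nat_lit 6515) (.d (nat_lit 402) (nat_lit 370) (nat_lit 7538) (nat_lit 434) (nat_lit 7570))))))))))))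 (.p (nat_lit 498) (.a (.f (nat_lit 595) (nat_lit 466) (nat_lit 7634) (.f (nat_lit 627) (nat_lit 530) (nat_lit 7666) (.d (nat_lit 626) (nat_lit 594) (nat_lit 5618) (nat_lit 658) (nat_lit 5650)))) (.a (.f (nat_lit 497) (nat_lit 532) (nat_lit 496) (.f (nat_lit 467) (nat_lit 468) (nat_lit 2512) (.f (nat_lit 466) (nat_lit 434) (nat_lit 7602) (.f (nat_lit 562) (nat_lit 594) (nat_lit 5586) (.f (nat_lit 435) (nat_lit 530) (nat_lit 5554) (.f (nat_lit 403) (nat_lit 371) (nat_lit 5490) (.d (nat_lit 404) (nat_lit 372) (nat_lit 6515) (nat_lit 436) (nat_lit 6547)))))))) (.a (.f (nat_lit 497) (nat_lit 532) (nat_lit 496) (.f (nat_lit 467) (nat_lit 468) (nat_lit 2512) (.f (nat_lit 434) (nat_lit 466) (nat_lit 7602) (.f (nat_lit 435) (nat_lit 402) (nat_lit 7570) (.f (nat_lit 404) (nat_lit 436) (nat_lit 6547) (.d (nat_lit 403) (nat_lit 372) (nat_lit 6515) (nat_lit 530) (nat_lit 5522))))))) (.d (nat_lit 497) (nat_lit 527) (nat_lit 1519)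 (nat_lit 532) (nat_lit 496)))))))))))))))))
noncomputable def s104416 : Cert := .r (nat_lit 33965661831302119076485735837495149540676475174507877844272805684732263310595436810603315559121747051037050449544041043218294969949840203811411188742040078576706400550912) (.p (nat_lit 466) (.a (.f (nat_lit 595) (nat_lit 498) (nat_lit 7634) (.f (nat_lit 467) (nat_lit 434) (nat_lit 7602) (.d (nat_lit 468) (nat_lit 436) (nat_lit 6579) (nat_lit 500) (nat_lit 6611)))) (.a (.f (nat_lit 467) (nat_lit 434) (nat_lit 7602) (.f (nat_lit 468) (nat_lit 436) (nat_lit 6579) (.f (nat_lit 500) (nat_lit 595) (nat_lit 6611) (.f (nat_lit 564) (nat_lit 596) (nat_lit 4563) (.f (nat_lit 532) (nat_lit 435) (nat_lit 4531) (.f (nat_lit 565) (nat_lit 597) (nat_lit 4564) (.d (nat_lit 566) (nat_lit 530) (nat_lit 3602) (nat_lit 567) (nat_lit 3603)))))))) (.a (.f (nat_lit 467) (nat_lit 434) (nat_lit 7602) (.f (nat_lit 436) (nat_lit 468) (nat_lit 6579)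 (.f (nat_lit 435) (nat_lit 404) (nat_lit 6547) (.d (nat_lit 564) (nat_lit 532) (nat_lit 4531) (nat_lit 596) (nat_lit 4563))))) (.a (.f (nat_lit 595) (nat_lit 498) (nat_lit 7634) (.f (nat_lit 500) (nat_lit 468) (nat_lit 6611) (.f (nat_lit 627) (nat_lit 532) (nat_lit 6643) (.d (nat_lit 626) (nat_lit 594) (nat_lit 5618) (nat_lit 658) (nat_lit 5650))))) (.f (nat_lit 595) (nat_lit 498) (nat_lit 7634) (.f (nat_lit 467) (nat_lit 434) (nat_lit 7602) (.d (nat_lit 596) (nat_lit 564) (nat_lit 4563) (nat_lit 628) (nat_lit 4595)))))))))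
noncomputable def s104440 : Cert := .r (nat_lit 33965661831302119076485735837495149540676475174507877844272805684732263310595436810603315559121747051037050449544041043218294969949840203811411188742040078576706400550912) (.p (nat_lit 467) (.a (.f (nat_lit 564) (nat_lit 596) (nat_lit 4563) (.f (nat_lit 435) (nat_lit 532) (nat_lit 4531) (.d (nat_lit 436) (nat_lit 404) (nat_lit 6547) (nat_lit 468) (nat_lit 6579)))) (.a (.f (nat_lit 468) (nat_lit 436) (nat_lit 6579) (.f (nat_lit 498) (nat_lit 497) (nat_lit 2512) (.f (nat_lit 434) (nat_lit 466) (nat_lit 7602) (.f (nat_lit 435) (nat_lit 402) (nat_lit 7570) (.f (nat_lit 403) (nat_lit 530) (nat_lit 5522) (.d (nat_lit 532) (nat_lit 500) (nat_lit 4499) (nat_lit 564) (nat_lit 4531))))))) (.a (.f (nat_lit 564) (nat_lit 596) (nat_lit 4563) (.f (nat_lit 435) (nat_lit 532) (nat_lit 4531) (.d (nat_lit 434) (nat_lit 402) (nat_lit 7570) (nat_lit 466) (nat_lit 7602)))) (.a (.f (nat_lit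 434) (nat_lit 466) (nat_lit 7602) (.f (nat_lit 435) (nat_lit 402) (nat_lit 7570) (.d (nat_lit 436) (nat_lit 404) (nat_lit 6547) (nat_lit 468) (nat_lit 6579)))) (.f (nat_lit 468) (nat_lit 436) (nat_lit 6579) (.f (nat_lit 498) (nat_lit 497) (nat_lit 2512) (.f (nat_lit 466) (nat_lit 434) (nat_lit 7602) (.f (nat_lit 469) (nat_lit 470) (nat_lit 1490) (.f (nat_lit 501) (nat_lit 502) (nat_lit 466) (.f (nat_lit 437) (nat_lit 438) (nat_lit 2482) (.f (nat_lit 564) (nat_lit 596) (nat_lit 4563) (.d (nat_lit 532) (nat_lit 500) (nat_lit 6580) (nat_lit 533) (nat_lit 5556))))))))))))))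
noncomputable def s104443 : Cert := .r (nat_lit 33965661831302119076485735837495149540676475174507877844272805684732263310595436810603315559121747051037050449544041043218294969949840203811411188742040078576706400550912) (.p (nat_lit 498) (.a (.f (nat_lit 595) (nat_lit 466) (nat_lit 7634) (.f (nat_lit 627) (nat_lit 530) (nat_lit 7666) (.d (nat_lit 626) (nat_lit 594) (nat_lit 5618) (nat_lit 658) (nat_lit 5650)))) (.a (.f (nat_lit 497) (nat_lit 527) (nat_lit 1519) (.f (nat_lit 467) (nat_lit 468) (nat_lit 2512) (.f (nat_lit 434) (nat_lit 466) (nat_lit 7602) (.f (nat_lit 435) (nat_lit 402) (nat_lit 7570) (.f (nat_lit 404) (nat_lit 436) (nat_lit 6547) (.d (nat_lit 403) (nat_lit 372) (nat_lit 6515) (nat_lit 530) (nat_lit 5522))))))) (.a (.f (nat_lit 595) (nat_lit 466) (nat_lit 7634) (.f (nat_lit 468) (nat_lit 500) (nat_lit 6611) (.d (nat_lit 497) (nat_lit 467) (nat_lit 2512) (nat_lit 527) (nat_lit 1519)))) (.f (nat_lit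 497) (nat_lit 527) (nat_lit 1519) (.f (nat_lit 468) (nat_lit 467) (nat_lit 2512) (.d (nat_lit 500) (nat_lit 469) (nat_lit 2513) (nat_lit 595) (nat_lit 6611))))))))
noncomputable def s104564 : Cert := .r (nat_lit 49061511523558731681478209813354392788720250294868778295504634411658229618172040075547230404152383425551394131673450256652078118872116591245935342720747181433535053430784) (.p (nat_lit 531) (.a (.f (nat_lit 467) (nat_lit 594) (nat_lit 5586) (.f (nat_lit 435) (nat_lit 530) (nat_lit 5554) (.d (nat_lit 532) (nat_lit 561) (nat_lit 2576) (nat_lit 564) (nat_lit 4531)))) (.a (.f (nat_lit 467) (nat_lit 594) (nat_lit 5586) (.f (nat_lit 435) (nat_lit 530) (nat_lit 5554) (.d (nat_lit 564) (nat_lit 532) (nat_lit 4531) (nat_lit 596) (nat_lit 4563)))) (.a (.f (nat_lit 561) (nat_lit 532) (nat_lit 2576) (.f (nat_lit 595) (nat_lit 596) (nat_lit 560) (.f (nat_lit 466) (nat_lit 498) (nat_lit 7634) (.f (nat_lit 467) (nat_lit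 434) (nat_lit 7602) (.d (nat_lit 468) (nat_lit 436) (nat_lit 6579) (nat_lit 500) (nat_lit 6611)))))) (.a (.f (nat_lit 561) (nat_lit 532) (nat_lit 2576) (.f (nat_lit 595) (nat_lit 596) (nat_lit 560) (.f (nat_lit 498) (nat_lit 466) (nat_lit 7634) (.f (nat_lit 627) (nat_lit 530) (nat_lit 7666) (.d (nat_lit 626) (nat_lit 594) (nat_lit 5618) (nat_lit 658) (nat_lit 5650)))))) (.f (nat_lit 467) (nat_lit 594) (nat_lit 5586) (.f (nat_lit 466) (nat_lit 434) (nat_lit 7602) (.d (nat_lit 465) (nat_lit 433) (nat_lit 6576) (nat_lit 500) (nat_lit 464)))))))))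
noncomputable def s104939 : Cert := .r (nat_lit 81045225988672555545218032360229982720113157698537661116243198802520371933584095202972722966950844485633113328262489170269050171494632016834582944819477958977930104356623205007360) (.p (nat_lit 531) (.a (.f (nat_lit 595) (nat_lit 626) (nat_lit 5618) (.f (nat_lit 467) (nat_lit 562) (nat_lit 5586) (.d (nat_lit 596) (nat_lit 564) (nat_lit 4563) (nat_lit 628) (nat_lit 4595)))) (.a (.f (nat_lit 595) (nat_lit 626) (nat_lit 5618) (.f (nat_lit 596) (nat_lit 628) (nat_lit 4595) (.f (nat_lit 564) (nat_lit 467) (nat_lit 4563) (.f (nat_lit 500) (nat_lit 468) (nat_lit 6611) (.f (nat_lit 532) (nat_lit 627) (nat_lit 5619) (.f (nat_lit 501) (nat_lit 469) (nat_lit 6612) (.d (nat_lit 502) (nat_lit 503) (nat_lit 1523) (nat_lit 530) (nat_lit 1522)))))))) (.a (.f (nat_lit 467) (nat_lit 562) (nat_lit 5586) (.f (nat_lit 564) (nat_lit 596) (nat_lit 4563) (.f (nat_lit 435) (nat_lit 532) (nat_lit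 4531) (.d (nat_lit 436) (nat_lit 404) (nat_lit 6547) (nat_lit 468) (nat_lit 6579))))) (.f (nat_lit 595) (nat_lit 626) (nat_lit 5618) (.f (nat_lit 498) (nat_lit 466) (nat_lit 7634) (.f (nat_lit 627) (nat_lit 530) (nat_lit 7666) (.d (nat_lit 500) (nat_lit 468) (nat_lit 6611) (nat_lit 532) (nat_lit 6643)))))))))
noncomputable def s105091 : Cert := .r (nat_lit 33965661831302119076485735837495149540676475174507877844272805684732263310595436810603315559121747051037050449544041043218294969949840203811411188742040078576706400550912) (.p (nat_lit 595) (.a (.f (nat_lit 500) (nat_lit 468) (nat_lit 6611) (.f (nat_lit 627) (nat_lit 532) (nat_lit 6643) (.d (nat_lit 626) (nat_lit 594) (nat_lit 5618) (nat_lit 658) (nat_lit 5650)))) (.a (.f (nat_lit 500) (nat_lit 468) (nat_lit 6611) (.f (nat_lit 627) (nat_lit 532) (nat_lit 6643) (.d (nat_lit 628) (nat_lit 596) (nat_lit 4595) (nat_lit 660) (nat_lit 4627)))) (.a (.f (nat_lit 596) (nat_lit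 628) (nat_lit 4595) (.f (nat_lit 467) (nat_lit 564) (nat_lit 4563) (.d (nat_lit 468) (nat_lit 436) (nat_lit 6579) (nat_lit 500) (nat_lit 6611)))) (.a (.f (nat_lit 596) (nat_lit 628) (nat_lit 4595) (.f (nat_lit 564) (nat_lit 467) (nat_lit 4563) (.f (nat_lit 626) (nat_lit 594) (nat_lit 5618) (.f (nat_lit 627) (nat_lit 658) (nat_lit 5650) (.d (nat_lit 532) (nat_lit 500) (nat_lit 5619) (nat_lit 659) (nat_lit 6675)))))) (.f (nat_lit 596) (nat_lit 628) (nat_lit 4595) (.f (nat_lit 467) (nat_lit 564) (nat_lit 4563) (.f (nat_lit 434) (nat_lit 466) (nat_lit 7602) (.f (nat_lit 435) (nat_lit 402) (nat_lit 7570) (.d (nat_lit 436) (nat_lit 404) (nat_lit 6547) (nat_lit 468) (nat_lit 6579)))))))))))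
noncomputable def s105143 : Cert := .r (nat_lit 33965661824272566272511991489353683122417128520023976096926060945512332728389440590804115761748245978999720985247289620353418571319827288099701345477964273606604582027264) (.p (nat_lit 531) (.a (.p (nat_lit 562) (.a (.f (nat_lit 467) (nat_lit 594) (nat_lit 5586) (.f (nat_lit 532) (nat_lit 561) (nat_lit 2576) (.d (nat_lit 435) (nat_lit 530) (nat_lit 5554) (nat_lit 564) (nat_lit 4531)))) (.a (.f (nat_lit 467) (nat_lit 594) (nat_lit 5586) (.f (nat_lit 435) (nat_lit 530) (nat_lit 5554) (.d (nat_lit 564) (nat_lit 532) (nat_lit 4531) (nat_lit 596) (nat_lit 4563)))) (.a (.d (nat_lit 561) (nat_lit 527) (nat_lit 3599) (nat_lit 532) (nat_lit 2576)) (.f (nat_lit 467) (nat_lit 594) (nat_lit 5586) (.f (nat_lit 435) (nat_lit 530) (nat_lit 5554) (.d (nat_lit 436) (nat_lit 404) (nat_lit 6547) (nat_lit 468) (nat_lit 6579)))))))) (.a s104358 (.a s105091 (.a (.p (nat_lit 595) (.a (.f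 (nat_lit 500) (nat_lit 468) (nat_lit 6611) (.f (nat_lit 627) (nat_lit 532) (nat_lit 6643) (.d (nat_lit 628) (nat_lit 596) (nat_lit 4595) (nat_lit 660) (nat_lit 4627)))) (.a (.f (nat_lit 596) (nat_lit 628) (nat_lit 4595) (.f (nat_lit 467) (nat_lit 564) (nat_lit 4563) (.d (nat_lit 468) (nat_lit 436) (nat_lit 6579) (nat_lit 500) (nat_lit 6611)))) (.a (.f (nat_lit 500) (nat_lit 468) (nat_lit 6611) (.f (nat_lit 627) (nat_lit 532) (nat_lit 6643) (.f (nat_lit 658) (nat_lit 626) (nat_lit 5650) (.f (nat_lit 659) (nat_lit 690) (nat_lit 5682) (.d (nat_lit 660) (nat_lit 628) (nat_lit 4627) (nat_lit 692) (nat_lit 4659)))))) (.a (.f (nat_lit 596) (nat_lit 628) (nat_lit 4595) (.f (nat_lit 562) (nat_lit 561) (nat_lit 560) (.f (nat_lit 467) (nat_lit 564) (nat_lit 4563) (.f (nat_lit 435) (nat_lit 530) (nat_lit 5554) (.d (nat_lit 434) (nat_lit 402) (nat_lit 7570) (nat_lit 466) (nat_lit 7602)))))) (.f (nat_lit 500) (nat_lit 468) (nat_lit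 6611) (.f (nat_lit 627) (nat_lit 532) (nat_lit 6643) (.f (nat_lit 658) (nat_lit 626) (nat_lit 5650) (.f (nat_lit 659) (nat_lit 690) (nat_lit 5682) (.f (nat_lit 562) (nat_lit 530) (nat_lit 7698) (.d (nat_lit 561) (nat_lit 527) (nat_lit 3599) (nat_lit 596) (nat_lit 560)))))))))))) (.a (.p (nat_lit 595) (.a (.f (nat_lit 500) (nat_lit 468) (nat_lit 6611) (.f (nat_lit 627) (nat_lit 532) (nat_lit 6643) (.d (nat_lit 626) (nat_lit 594) (nat_lit 5618) (nat_lit 658) (nat_lit 5650)))) (.a (.f (nat_lit 500) (nat_lit 468) (nat_lit 6611) (.f (nat_lit 627) (nat_lit 532) (nat_lit 6643) (.d (nat_lit 628) (nat_lit 596) (nat_lit 4595) (nat_lit 660) (nat_lit 4627)))) (.a (.f (nat_lit 596) (nat_lit 628) (nat_lit 4595) (.f (nat_lit 562) (nat_lit 561) (nat_lit 560) (.f (nat_lit 594) (nat_lit 626) (nat_lit 5618) (.f (nat_lit 597) (nat_lit 598) (nat_lit 3634) (.f (nat_lit 565) (nat_lit 566) (nat_lit 2610) (.f (nat_lit 629) (nat_lit 630)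 (nat_lit 594) (.f (nat_lit 500) (nat_lit 468) (nat_lit 6611) (.d (nat_lit 532) (nat_lit 533) (nat_lit 7668) (nat_lit 564) (nat_lit 4596))))))))) (.a (.f (nat_lit 596) (nat_lit 628) (nat_lit 4595) (.f (nat_lit 562) (nat_lit 561) (nat_lit 560) (.f (nat_lit 626) (nat_lit 594) (nat_lit 5618) (.f (nat_lit 627) (nat_lit 658) (nat_lit 5650) (.f (nat_lit 659) (nat_lit 530) (nat_lit 7698) (.d (nat_lit 564) (nat_lit 532) (nat_lit 6675) (nat_lit 691) (nat_lit 6707))))))) (.f (nat_lit 626) (nat_lit 594) (nat_lit 5618) (.f (nat_lit 627) (nat_lit 658) (nat_lit 5650) (.d (nat_lit 628) (nat_lit 596) (nat_lit 4595) (nat_lit 660) (nat_lit 4627))))))))) (.a (.p (nat_lit 562) (.a (.f (nat_lit 467) (nat_lit 594) (nat_lit 5586) (.f (nat_lit 532) (nat_lit 561) (nat_lit 2576) (.d (nat_lit 435) (nat_lit 530) (nat_lit 5554) (nat_lit 564) (nat_lit 4531)))) (.a (.f (nat_lit 467) (nat_lit 594) (nat_lit 5586) (.f (nat_lit 435) (nat_lit 530) (nat_lit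 5554) (.d (nat_lit 436) (nat_lit 404) (nat_lit 6547) (nat_lit 468) (nat_lit 6579)))) (.d (nat_lit 561) (nat_lit 527) (nat_lit 3599) (nat_lit 532) (nat_lit 2576))))) (.a (.p (nat_lit 562) (.a (.f (nat_lit 467) (nat_lit 594) (nat_lit 5586) (.f (nat_lit 532) (nat_lit 561) (nat_lit 2576) (.d (nat_lit 435) (nat_lit 530) (nat_lit 5554) (nat_lit 564) (nat_lit 4531)))) (.a (.f (nat_lit 467) (nat_lit 594) (nat_lit 5586) (.f (nat_lit 435) (nat_lit 530) (nat_lit 5554) (.d (nat_lit 564) (nat_lit 532) (nat_lit 4531) (nat_lit 596) (nat_lit 4563)))) (.a (.d (nat_lit 561) (nat_lit 527) (nat_lit 3599) (nat_lit 532) (nat_lit 2576)) (.f (nat_lit 467) (nat_lit 594) (nat_lit 5586) (.f (nat_lit 596) (nat_lit 564) (nat_lit 4563) (.d (nat_lit 561) (nat_lit 527) (nat_lit 3599) (nat_lit 595) (nat_lit 560)))))))) (.a (.p (nat_lit 562) (.a (.f (nat_lit 467) (nat_lit 594) (nat_lit 5586) (.f (nat_lit 435) (nat_lit 530) (nat_lit 5554) (.d (nat_lit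 436) (nat_lit 404) (nat_lit 6547) (nat_lit 468) (nat_lit 6579)))) (.a (.f (nat_lit 561) (nat_lit 527) (nat_lit 3599) (.f (nat_lit 596) (nat_lit 595) (nat_lit 560) (.d (nat_lit 564) (nat_lit 467) (nat_lit 4563) (nat_lit 597) (nat_lit 561)))) (.f (nat_lit 561) (nat_lit 527) (nat_lit 3599) (.f (nat_lit 595) (nat_lit 596) (nat_lit 560) (.f (nat_lit 626) (nat_lit 594) (nat_lit 5618) (.f (nat_lit 627) (nat_lit 658) (nat_lit 5650) (.f (nat_lit 660) (nat_lit 628) (nat_lit 4627) (.d (nat_lit 659) (nat_lit 530) (nat_lit 7698) (nat_lit 692) (nat_lit 4659)))))))))) (.p (nat_lit 562) (.a (.f (nat_lit 467) (nat_lit 594) (nat_lit 5586) (.f (nat_lit 435) (nat_lit 530) (nat_lit 5554) (.d (nat_lit 436) (nat_lit 404) (nat_lit 6547) (nat_lit 468) (nat_lit 6579)))) (.d (nat_lit 561) (nat_lit 527) (nat_lit 3599) (nat_lit 532) (nat_lit 2576)))))))))))))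
noncomputable def s105371 : Cert := .r (nat_lit 3773962425700235453096299722244592710232032175317446804068244616434075696517633372946541333831107680986492224416003539946258365535128289863158302094148386530119930347520) (.p (nat_lit 464) (.a (.f (nat_lit 463) (nat_lit 431) (nat_lit 7599) (.d (nat_lit 493) (nat_lit 465) (nat_lit 2509) (nat_lit 492) (nat_lit 2508))) (.a (.f (nat_lit 463) (nat_lit 431) (nat_lit 7599) (.f (nat_lit 493) (nat_lit 492) (nat_lit 2508) (.f (nat_lit 461) (nat_lit 460) (nat_lit 3532) (.f (nat_lit 462) (nat_lit 497) (nat_lit 461) (.f (nat_lit 525) (nat_lit 524) (nat_lit 1516) (.d (nat_lit 430) (nat_lit 398) (nat_lit 5517) (nat_lit 557) (nat_lit 6573))))))) (.a (.f (nat_lit 493) (nat_lit 465) (nat_lit 2509) (.d (nat_lit 492) (nat_lit 463) (nat_lit 2508) (nat_lit 527) (nat_lit 492))) (.a (.f (nat_lit 493) (nat_lit 465) (nat_lit 2509) (.f (nat_lit 527) (nat_lit 492) (nat_lit 492) (.f (nat_lit 525)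 (nat_lit 524) (nat_lit 1516) (.d (nat_lit 561) (nat_lit 526) (nat_lit 525) (nat_lit 593) (nat_lit 4560))))) (.f (nat_lit 463) (nat_lit 431) (nat_lit 7599) (.d (nat_lit 465) (nat_lit 433) (nat_lit 6576) (nat_lit 466) (nat_lit 1486))))))))
noncomputable def s105373 : Cert := .r (nat_lit 3773962425700235453096299722244592710232032175317446804068244616434075696517633372946541333831107680986492224416003539946258365535128289863158302094148386530119930347520) (.p (nat_lit 464) (.a (.f (nat_lit 463) (nat_lit 431) (nat_lit 7599) (.d (nat_lit 493) (nat_lit 465) (nat_lit 2509) (nat_lit 492) (nat_lit 2508))) (.a (.f (nat_lit 463) (nat_lit 431) (nat_lit 7599) (.f (nat_lit 493) (nat_lit 492) (nat_lit 2508) (.f (nat_lit 461) (nat_lit 460) (nat_lit 3532) (.f (nat_lit 462) (nat_lit 497) (nat_lit 461) (.f (nat_lit 525) (nat_lit 524) (nat_lit 1516) (.d (nat_lit 430) (nat_lit 398) (nat_lit 5517) (nat_lit 557) (nat_lit 6573))))))) (.a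 (.d (nat_lit 465) (nat_lit 433) (nat_lit 6576) (nat_lit 493) (nat_lit 2509)) (.f (nat_lit 463) (nat_lit 431) (nat_lit 7599) (.d (nat_lit 465) (nat_lit 433) (nat_lit 6576) (nat_lit 466) (nat_lit 1486)))))))
noncomputable def s105377 : Cert := .r (nat_lit 3773962425700235453096299722244592710232032175317446804068244616434075696517633372946541333831107680986492224416003539946258365535128289863158302094148386530119930347520) (.p (nat_lit 497) (.a (.f (nat_lit 526) (nat_lit 525) (nat_lit 1517) (.f (nat_lit 498) (nat_lit 527) (nat_lit 1518) (.d (nat_lit 466) (nat_lit 465) (nat_lit 2510) (nat_lit 467) (nat_lit 2511)))) (.a (.f (nat_lit 525) (nat_lit 526) (nat_lit 1517) (.f (nat_lit 493) (nat_lit 524) (nat_lit 1516) (.d (nat_lit 461) (nat_lit 460) (nat_lit 3532) (nat_lit 462) (nat_lit 3533)))) (.a (.f (nat_lit 461) (nat_lit 462) (nat_lit 3533) (.f (nat_lit 493) (nat_lit 460) (nat_lit 3532) (.f (nat_lit 527) (nat_lit 492)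 (nat_lit 492) (.d (nat_lit 498) (nat_lit 499) (nat_lit 1519) (nat_lit 526) (nat_lit 1518))))) (.f (nat_lit 461) (nat_lit 462) (nat_lit 3533) (.f (nat_lit 493) (nat_lit 460) (nat_lit 3532) (.f (nat_lit 524) (nat_lit 525) (nat_lit 1516) (.d (nat_lit 492) (nat_lit 523) (nat_lit 1515) (nat_lit 527) (nat_lit 492)))))))))
noncomputable def s105383 : Cert := .r (nat_lit 3773962425700235453096299722244592710232032175317446804068244616434075696517633372946541333831107680986492224416003539946258365535128289863158302094148386530119930347520) (.p (nat_lit 497) (.a (.f (nat_lit 526) (nat_lit 525) (nat_lit 1517) (.f (nat_lit 498) (nat_lit 527) (nat_lit 1518) (.f (nat_lit 467) (nat_lit 466) (nat_lit 2511) (.f (nat_lit 499) (nat_lit 468) (nat_lit 2512) (.d (nat_lit 531) (nat_lit 530) (nat_lit 495) (nat_lit 532) (nat_lit 496)))))) (.a (.f (nat_lit 525) (nat_lit 526) (nat_lit 1517) (.f (nat_lit 493) (nat_lit 524) (nat_lit 1516) (.d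 (nat_lit 461) (nat_lit 460) (nat_lit 3532) (nat_lit 462) (nat_lit 3533)))) (.a (.f (nat_lit 461) (nat_lit 462) (nat_lit 3533) (.f (nat_lit 493) (nat_lit 460) (nat_lit 3532) (.f (nat_lit 527) (nat_lit 492) (nat_lit 492) (.d (nat_lit 498) (nat_lit 499) (nat_lit 1519) (nat_lit 526) (nat_lit 1518))))) (.f (nat_lit 461) (nat_lit 462) (nat_lit 3533) (.f (nat_lit 493) (nat_lit 460) (nat_lit 3532) (.f (nat_lit 524) (nat_lit 525) (nat_lit 1516) (.d (nat_lit 492) (nat_lit 523) (nat_lit 1515) (nat_lit 527) (nat_lit 492)))))))))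
noncomputable def s105385 : Cert := .r (nat_lit 3773962425700235453096299722244592710232032175317446804068244616434075696517633372946541333831107680986492224416003539946258365535128289863158302094148386530119930347520) (.p (nat_lit 464) (.a (.f (nat_lit 463) (nat_lit 431) (nat_lit 7599) (.d (nat_lit 493) (nat_lit 465) (nat_lit 2509) (nat_lit 492) (nat_lit 2508))) (.a (.f (nat_lit 463) (nat_lit 431) (nat_lit 7599) (.f (nat_lit 493) (nat_lit 492) (nat_lit 2508) (.f (nat_lit 461) (nat_lit 460) (nat_lit 3532) (.f (nat_lit 525) (nat_lit 524) (nat_lit 1516) (.f (nat_lit 561) (nat_lit 593) (nat_lit 4560) (.f (nat_lit 526) (nat_lit 527) (nat_lit 525) (.d (nat_lit 429) (nat_lit 397) (nat_lit 4493) (nat_lit 558) (nat_lit 4525)))))))) (.a (.f (nat_lit 493) (nat_lit 465) (nat_lit 2509) (.d (nat_lit 492) (nat_lit 463) (nat_lit 2508) (nat_lit 527) (nat_lit 492))) (.a (.f (nat_lit 493) (nat_lit 465) (nat_lit 2509) (.f (nat_lit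 527) (nat_lit 492) (nat_lit 492) (.f (nat_lit 525) (nat_lit 524) (nat_lit 1516) (.d (nat_lit 561) (nat_lit 526) (nat_lit 525) (nat_lit 593) (nat_lit 4560))))) (.f (nat_lit 463) (nat_lit 431) (nat_lit 7599) (.d (nat_lit 465) (nat_lit 433) (nat_lit 6576) (nat_lit 466) (nat_lit 1486))))))))
noncomputable def s105387 : Cert := .r (nat_lit 3773962425700235453096299722244592710232032175317446804068244616434075696517633372946541333831107680986492224416003539946258365535128289863158302094148386530119930347520) (.p (nat_lit 464) (.a (.f (nat_lit 463) (nat_lit 431) (nat_lit 7599) (.d (nat_lit 493) (nat_lit 465) (nat_lit 2509) (nat_lit 492) (nat_lit 2508))) (.a (.f (nat_lit 463) (nat_lit 431) (nat_lit 7599) (.f (nat_lit 493) (nat_lit 492) (nat_lit 2508) (.f (nat_lit 461) (nat_lit 460) (nat_lit 3532) (.f (nat_lit 462) (nat_lit 497) (nat_lit 461) (.f (nat_lit 429) (nat_lit 428) (nat_lit 3500) (.d (nat_lit 397) (nat_lit 365) (nat_lit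 4461) (nat_lit 526) (nat_lit 4493))))))) (.a (.f (nat_lit 493) (nat_lit 465) (nat_lit 2509) (.d (nat_lit 492) (nat_lit 463) (nat_lit 2508) (nat_lit 527) (nat_lit 492))) (.a (.d (nat_lit 465) (nat_lit 433) (nat_lit 6576) (nat_lit 493) (nat_lit 2509)) (.f (nat_lit 463) (nat_lit 431) (nat_lit 7599) (.d (nat_lit 465) (nat_lit 433) (nat_lit 6576) (nat_lit 466) (nat_lit 1486))))))))
noncomputable def s105393 : Cert := .r (nat_lit 3773962425700235453096299722244592710232032175317446804068244616434075696517633372946541333831107680986492224416003539946258365535128289863158302094148386530119930347520) (.p (nat_lit 497) (.a (.f (nat_lit 526) (nat_lit 525) (nat_lit 1517) (.f (nat_lit 498) (nat_lit 527) (nat_lit 1518) (.d (nat_lit 466) (nat_lit 465) (nat_lit 2510) (nat_lit 467) (nat_lit 2511)))) (.a (.f (nat_lit 465) (nat_lit 466) (nat_lit 2510) (.d (nat_lit 433) (nat_lit 401) (nat_lit 5520) (nat_lit 464) (nat_lit 6576))) (.a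 (.f (nat_lit 526) (nat_lit 525) (nat_lit 1517) (.f (nat_lit 498) (nat_lit 527) (nat_lit 1518) (.f (nat_lit 467) (nat_lit 466) (nat_lit 2511) (.f (nat_lit 499) (nat_lit 468) (nat_lit 2512) (.d (nat_lit 531) (nat_lit 530) (nat_lit 495) (nat_lit 532) (nat_lit 496)))))) (.f (nat_lit 526) (nat_lit 525) (nat_lit 1517) (.f (nat_lit 498) (nat_lit 527) (nat_lit 1518) (.d (nat_lit 462) (nat_lit 461) (nat_lit 3533) (nat_lit 463) (nat_lit 3534))))))))
noncomputable def s105399 : Cert := .r (nat_lit 3773962425700235453096299722244592710232032175317446804068244616434075696517633372946541333831107680986492224416003539946258365535128289863158302094148386530119930347520) (.p (nat_lit 464) (.a (.f (nat_lit 463) (nat_lit 431) (nat_lit 7599) (.d (nat_lit 493) (nat_lit 465) (nat_lit 2509) (nat_lit 492) (nat_lit 2508))) (.a (.f (nat_lit 463) (nat_lit 431) (nat_lit 7599) (.f (nat_lit 493) (nat_lit 492) (nat_lit 2508) (.f (nat_lit 525)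 (nat_lit 524) (nat_lit 1516) (.f (nat_lit 526) (nat_lit 497) (nat_lit 1517) (.d (nat_lit 561) (nat_lit 527) (nat_lit 525) (nat_lit 593) (nat_lit 4560)))))) (.a (.f (nat_lit 493) (nat_lit 465) (nat_lit 2509) (.d (nat_lit 492) (nat_lit 463) (nat_lit 2508) (nat_lit 527) (nat_lit 492))) (.a (.f (nat_lit 493) (nat_lit 465) (nat_lit 2509) (.f (nat_lit 527) (nat_lit 492) (nat_lit 492) (.f (nat_lit 525) (nat_lit 524) (nat_lit 1516) (.d (nat_lit 561) (nat_lit 526) (nat_lit 525) (nat_lit 593) (nat_lit 4560))))) (.f (nat_lit 463) (nat_lit 431) (nat_lit 7599) (.d (nat_lit 465) (nat_lit 433) (nat_lit 6576) (nat_lit 466) (nat_lit 1486))))))))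
noncomputable def s105422 : Cert := .r (nat_lit 3773962425700235453096299722244592710232032175317446804068244616434075696517633372946541333831107680986492224416003539946258365535128289863158302094148386530119930347520) (.p (nat_lit 493) (.a (.f (nat_lit 492) (nat_lit 527) (nat_lit 492) (.d (nat_lit 524) (nat_lit 523) (nat_lit 1515) (nat_lit 525) (nat_lit 1516))) (.a (.f (nat_lit 464) (nat_lit 465) (nat_lit 2509) (.f (nat_lit 492) (nat_lit 463) (nat_lit 2508) (.d (nat_lit 524) (nat_lit 523) (nat_lit 1515) (nat_lit 525) (nat_lit 1516)))) (.a (.f (nat_lit 464) (nat_lit 465) (nat_lit 2509) (.d (nat_lit 492) (nat_lit 463) (nat_lit 2508) (nat_lit 527) (nat_lit 492))) (.f (nat_lit 464) (nat_lit 465) (nat_lit 2509) (.f (nat_lit 525) (nat_lit 524) (nat_lit 1516) (.f (nat_lit 461) (nat_lit 460) (nat_lit 3532) (.f (nat_lit 561) (nat_lit 593) (nat_lit 4560) (.f (nat_lit 526) (nat_lit 527) (nat_lit 525) (.d (nat_lit 429) (nat_lit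 397) (nat_lit 4493) (nat_lit 558) (nat_lit 4525)))))))))))
noncomputable def s105675 : Cert := .r (nat_lit 3773962425700235453096299722244592710232032175317446804068244616434075696517633372946541333831107680986492224416003539946258365535128289863158302094148386530119930347520) (.p (nat_lit 461) (.a (.f (nat_lit 462) (nat_lit 497) (nat_lit 3533) (.d (nat_lit 460) (nat_lit 459) (nat_lit 459) (nat_lit 463) (nat_lit 460))) (.a (.f (nat_lit 460) (nat_lit 493) (nat_lit 3532) (.d (nat_lit 462) (nat_lit 459) (nat_lit 459) (nat_lit 463) (nat_lit 460))) (.a (.f (nat_lit 493) (nat_lit 460) (nat_lit 3532) (.f (nat_lit 525) (nat_lit 524) (nat_lit 1516) (.d (nat_lit 497) (nat_lit 462) (nat_lit 3533) (nat_lit 526) (nat_lit 1517)))) (.a (.f (nat_lit 493) (nat_lit 460) (nat_lit 3532) (.f (nat_lit 525) (nat_lit 524) (nat_lit 1516) (.f (nat_lit 526) (nat_lit 497) (nat_lit 1517) (.d (nat_lit 429) (nat_lit 397) (nat_lit 4493) (nat_lit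 558) (nat_lit 4525))))) (.p (nat_lit 526) (.a (.d (nat_lit 497) (nat_lit 462) (nat_lit 3533) (nat_lit 525) (nat_lit 1517)) (.a (.p (nat_lit 558) (.a (.d (nat_lit 590) (nat_lit 463) (nat_lit 6606) (nat_lit 493) (nat_lit 7629)) (.a (.f (nat_lit 493) (nat_lit 590) (nat_lit 7629) (.d (nat_lit 429) (nat_lit 462) (nat_lit 7597) (nat_lit 525) (nat_lit 4525))) (.a (.f (nat_lit 462) (nat_lit 429) (nat_lit 7597) (.d (nat_lit 463) (nat_lit 431) (nat_lit 6574) (nat_lit 590) (nat_lit 6606))) (.f (nat_lit 462) (nat_lit 429) (nat_lit 7597) (.f (nat_lit 431) (nat_lit 463) (nat_lit 6574) (.f (nat_lit 430) (nat_lit 399) (nat_lit 6542) (.d (nat_lit 557) (nat_lit 525) (nat_lit 5549) (nat_lit 589) (nat_lit 5581))))))))) (.a (.f (nat_lit 462) (nat_lit 497) (nat_lit 3533) (.f (nat_lit 558) (nat_lit 429) (nat_lit 7597) (.d (nat_lit 463) (nat_lit 431) (nat_lit 6574) (nat_lit 590) (nat_lit 6606)))) (.f (nat_lit 525) (nat_lit 497) (nat_lit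 1517) (.d (nat_lit 524) (nat_lit 493) (nat_lit 1516) (nat_lit 523) (nat_lit 2539))))))))))))
noncomputable def s105679 : Cert := .r (nat_lit 3773962425700235453096299722244592710232032175317446804068244616434075696517633372946541333831107680986492224416003539946258365535128289863158302094148386530119930347520) (.p (nat_lit 493) (.a (.f (nat_lit 492) (nat_lit 527) (nat_lit 492) (.d (nat_lit 524) (nat_lit 523) (nat_lit 1515) (nat_lit 525) (nat_lit 1516))) (.a (.f (nat_lit 460) (nat_lit 461) (nat_lit 3532) (.f (nat_lit 492) (nat_lit 459) (nat_lit 3531) (.d (nat_lit 524) (nat_lit 523) (nat_lit 1515) (nat_lit 525) (nat_lit 1516)))) (.a (.f (nat_lit 492) (nat_lit 527) (nat_lit 492) (.d (nat_lit 460) (nat_lit 459) (nat_lit 3531) (nat_lit 461) (nat_lit 3532))) (.p (nat_lit 526) (.a (.f (nat_lit 461) (nat_lit 460) (nat_lit 3532) (.f (nat_lit 558) (nat_lit 590) (nat_lit 7629) (.d (nat_lit 429) (nat_lit 397) (nat_lit 4493)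 (nat_lit 462) (nat_lit 7597)))) (.a (.f (nat_lit 525) (nat_lit 524) (nat_lit 1516) (.f (nat_lit 461) (nat_lit 460) (nat_lit 3532) (.d (nat_lit 429) (nat_lit 397) (nat_lit 4493) (nat_lit 558) (nat_lit 4525)))) (.f (nat_lit 525) (nat_lit 524) (nat_lit 1516) (.f (nat_lit 527) (nat_lit 561) (nat_lit 525) (.f (nat_lit 557) (nat_lit 556) (nat_lit 1548) (.d (nat_lit 462) (nat_lit 430) (nat_lit 5549) (nat_lit 589) (nat_lit 6605))))))))))))
noncomputable def s105706 : Cert := .r (nat_lit 3773962425700235453096299722244592710232032175317446804068244616434075696517633372946541333831107680986492224416003539946258365535128289863158302094148386530119930347520) (.p (nat_lit 493) (.a (.f (nat_lit 492) (nat_lit 527) (nat_lit 492) (.d (nat_lit 524) (nat_lit 523) (nat_lit 1515) (nat_lit 525) (nat_lit 1516))) (.a (.f (nat_lit 460) (nat_lit 461) (nat_lit 3532) (.f (nat_lit 492) (nat_lit 459) (nat_lit 3531) (.d (nat_lit 524) (nat_lit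 523) (nat_lit 1515) (nat_lit 525) (nat_lit 1516)))) (.a (.f (nat_lit 492) (nat_lit 527) (nat_lit 492) (.d (nat_lit 460) (nat_lit 459) (nat_lit 3531) (nat_lit 461) (nat_lit 3532))) (.f (nat_lit 525) (nat_lit 524) (nat_lit 1516) (.f (nat_lit 526) (nat_lit 497) (nat_lit 1517) (.f (nat_lit 461) (nat_lit 460) (nat_lit 3532) (.d (nat_lit 429) (nat_lit 397) (nat_lit 4493) (nat_lit 558) (nat_lit 4525)))))))))
noncomputable def s105771 : Cert := .r (nat_lit 3773962425700235453045152994043849596148512979483556052388607849628053049395961021718646984955787017452240775526516544190352970128225296369627542697671050915994562199552) (.p (nat_lit 432) (.a (.d (nat_lit 431) (nat_lit 399) (nat_lit 7567) (nat_lit 463) (nat_lit 7599)) (.a (.f (nat_lit 401) (nat_lit 433) (nat_lit 6544) (.f (nat_lit 400) (nat_lit 369) (nat_lit 6512) (.f (nat_lit 368) (nat_lit 463) (nat_lit 5487) (.d (nat_lit 367) (nat_lit 335) (nat_lit 7503) (nat_lit 399)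 (nat_lit 7535))))) (.a (.f (nat_lit 401) (nat_lit 433) (nat_lit 6544) (.f (nat_lit 400) (nat_lit 369) (nat_lit 6512) (.d (nat_lit 399) (nat_lit 367) (nat_lit 7535) (nat_lit 431) (nat_lit 7567)))) (.f (nat_lit 463) (nat_lit 431) (nat_lit 7599) (.f (nat_lit 400) (nat_lit 368) (nat_lit 5487) (.d (nat_lit 401) (nat_lit 369) (nat_lit 6512) (nat_lit 433) (nat_lit 6544))))))))
noncomputable def s105866 : Cert := .r (nat_lit 3773962425700235452738272624505952193199339552226928146794549392648115485167898379561026699849346401546134558067857772757880134458676407096525164659442171664912122642432) (.p (nat_lit 496) (.a (.p (nat_lit 592) (.a (.f (nat_lit 593) (nat_lit 625) (nat_lit 4592) (.f (nat_lit 591) (nat_lit 623) (nat_lit 5615) (.f (nat_lit 561) (nat_lit 464) (nat_lit 4560) (.d (nat_lit 562) (nat_lit 563) (nat_lit 1583) (nat_lit 590) (nat_lit 2606))))) (.a (.f (nat_lit 593) (nat_lit 625) (nat_lit 4592) (.f (nat_lit 464) (nat_lit 561) (nat_lit 4560) (.d (nat_lit 465) (nat_lit 433) (nat_lit 6576) (nat_lit 497) (nat_lit 6608)))) (.f (nat_lit 495) (nat_lit 463) (nat_lit 7631) (.f (nat_lit 497) (nat_lit 465) (nat_lit 6608) (.f (nat_lit 527) (nat_lit 624) (nat_lit 7663) (.d (nat_lit 526) (nat_lit 498) (nat_lit 1518) (nat_lit 525) (nat_lit 2541)))))))) (.a (.p (nat_lit 592) (.a (.f (nat_lit 593) (nat_lit 625) (nat_lit 4592) (.f (nat_lit 591) (nat_lit 623) (nat_lit 5615) (.f (nat_lit 561) (nat_lit 464) (nat_lit 4560) (.d (nat_lit 562) (nat_lit 563) (nat_lit 1583) (nat_lit 590) (nat_lit 2606))))) (.f (nat_lit 495) (nat_lit 463) (nat_lit 7631) (.f (nat_lit 497) (nat_lit 465) (nat_lit 6608) (.f (nat_lit 527) (nat_lit 624) (nat_lit 7663) (.d (nat_lit 526) (nat_lit 498) (nat_lit 1518) (nat_lit 525) (nat_lit 2541))))))) (.a (.p (nat_lit 497) (.a (.f (nat_lit 592) (nat_lit 465) (nat_lit 6608) (.f (nat_lit 593) (nat_lit 625) (nat_lit 4592) (.f (nat_lit 591) (nat_lit 623) (nat_lit 5615) (.f (nat_lit 561) (nat_lit 464) (nat_lit 4560) (.d (nat_lit 562) (nat_lit 563) (nat_lit 1583) (nat_lit 590) (nat_lit 2606)))))) (.a (.f (nat_lit 592) (nat_lit 465) (nat_lit 6608) (.f (nat_lit 625) (nat_lit 593) (nat_lit 4592) (.f (nat_lit 624) (nat_lit 657) (nat_lit 4624) (.d (nat_lit 623) (nat_lit 591) (nat_lit 5615) (nat_lit 655) (nat_lit 5647))))) (.a (.p (nat_lit 498) (.a (.f (nat_lit 527) (nat_lit 499) (nat_lit 1519) (.d (nat_lit 526) (nat_lit 495) (nat_lit 1518) (nat_lit 525) (nat_lit 2541))) (.a (.f (nat_lit 499) (nat_lit 527) (nat_lit 1519) (.f (nat_lit 532) (nat_lit 531) (nat_lit 496) (.f (nat_lit 500) (nat_lit 533) (nat_lit 497) (.d (nat_lit 468) (nat_lit 467) (nat_lit 2512) (nat_lit 469) (nat_lit 2513))))) (.a (.p (nat_lit 562) (.a (.p (nat_lit 592) (.a (.f (nat_lit 593) (nat_lit 625) (nat_lit 4592) (.f (nat_lit 561) (nat_lit 464) (nat_lit 4560) (.d (nat_lit 563) (nat_lit 527) (nat_lit 3599) (nat_lit 591) (nat_lit 1583)))) (.a (.f (nat_lit 593) (nat_lit 625) (nat_lit 4592) (.f (nat_lit 561) (nat_lit 464) (nat_lit 4560) (.d (nat_lit 591) (nat_lit 563) (nat_lit 1583) (nat_lit 590) (nat_lit 2606)))) (.a (.f (nat_lit 623) (nat_lit 591) (nat_lit 5615) (.f (nat_lit 624) (nat_lit 655) (nat_lit 5647) (.f (nat_lit 495) (nat_lit 527) (nat_lit 7663) (.f (nat_lit 625) (nat_lit 657) (nat_lit 4624) (.f (nat_lit 530) (nat_lit 531) (nat_lit 495) (.f (nat_lit 466) (nat_lit 467) (nat_lit 2511) (.f (nat_lit 595) (nat_lit 563) (nat_lit 4562) (.d (nat_lit 594) (nat_lit 626) (nat_lit 2639) (nat_lit 627) (nat_lit 4594))))))))) (.a (.f (nat_lit 591) (nat_lit 623) (nat_lit 5615) (.f (nat_lit 561) (nat_lit 563) (nat_lit 1583) (.d (nat_lit 590) (nat_lit 589) (nat_lit 2605) (nat_lit 593) (nat_lit 2606)))) (.a (.f (nat_lit 593) (nat_lit 625) (nat_lit 4592) (.f (nat_lit 561) (nat_lit 464) (nat_lit 4560) (.d (nat_lit 591) (nat_lit 590) (nat_lit 2606) (nat_lit 623) (nat_lit 5615)))) (.f (nat_lit 593) (nat_lit 625) (nat_lit 4592) (.f (nat_lit 561) (nat_lit 464) (nat_lit 4560) (.d (nat_lit 563) (nat_lit 527) (nat_lit 3599) (nat_lit 564) (nat_lit 1584)))))))))) (.a (.p (nat_lit 561) (.a (.f (nat_lit 593) (nat_lit 464) (nat_lit 4560) (.d (nat_lit 625) (nat_lit 592) (nat_lit 4592) (nat_lit 657) (nat_lit 7696))) (.f (nat_lit 563) (nat_lit 527) (nat_lit 3599) (.f (nat_lit 531) (nat_lit 532) (nat_lit 2576) (.f (nat_lit 530) (nat_lit 495) (nat_lit 495) (.d (nat_lit 466) (nat_lit 434) (nat_lit 4530) (nat_lit 595) (nat_lit 4562))))))) (.a (.p (nat_lit 593) (.a (.f (nat_lit 561) (nat_lit 464) (nat_lit 4560) (.d (nat_lit 625) (nat_lit 592) (nat_lit 4592) (nat_lit 657) (nat_lit 7696))) (.a (.f (nat_lit 625) (nat_lit 592) (nat_lit 4592) (.f (nat_lit 561) (nat_lit 657) (nat_lit 7696) (.d (nat_lit 530) (nat_lit 466) (nat_lit 5585) (nat_lit 594) (nat_lit 5617)))) (.a (.f (nat_lit 561) (nat_lit 464) (nat_lit 4560) (.f (nat_lit 530) (nat_lit 466) (nat_lit 5585) (.f (nat_lit 531) (nat_lit 495) (nat_lit 495) (.d (nat_lit 532) (nat_lit 533) (nat_lit 1553) (nat_lit 563) (nat_lit 2576))))) (.f (nat_lit 592) (nat_lit 625) (nat_lit 4592) (.f (nat_lit 591) (nat_lit 623) (nat_lit 5615) (.f (nat_lit 594) (nat_lit 563) (nat_lit 2607) (.f (nat_lit 627) (nat_lit 626) (nat_lit 591) (.d (nat_lit 595) (nat_lit 530) (nat_lit 4594) (nat_lit 628) (nat_lit 592)))))))))) (.a (.p (nat_lit 563) (.a (.f (nat_lit 561) (nat_lit 527) (nat_lit 3599) (.f (nat_lit 531) (nat_lit 532) (nat_lit 2576) (.f (nat_lit 530) (nat_lit 495) (nat_lit 495) (.d (nat_lit 466) (nat_lit 434) (nat_lit 4530) (nat_lit 595) (nat_lit 4562))))) (.a (.p (nat_lit 530) (.a (.f (nat_lit 531) (nat_lit 495) (nat_lit 495) (.d (nat_lit 466) (nat_lit 434) (nat_lit 4530) (nat_lit 595) (nat_lit 4562))) (.a (.f (nat_lit 595) (nat_lit 466) (nat_lit 4562) (.d (nat_lit 627) (nat_lit 531) (nat_lit 7666) (nat_lit 594) (nat_lit 4594))) (.a (.f (nat_lit 531) (nat_lit 495) (nat_lit 495) (.d (nat_lit 532) (nat_lit 533) (nat_lit 3569) (nat_lit 561) (nat_lit 2576))) (.f (nat_lit 595) (nat_lit 466) (nat_lit 4562) (.d (nat_lit 627) (nat_lit 594) (nat_lit 4594) (nat_lit 659) (nat_lit 7698))))))) (.a (.p (nat_lit 495) (.a (.f (nat_lit 530) (nat_lit 531) (nat_lit 495) (.d (nat_lit 466) (nat_lit 467) (nat_lit 2511) (nat_lit 595) (nat_lit 4562))) (.p (nat_lit 494) (.a (.d (nat_lit 526) (nat_lit 525) (nat_lit 1517) (nat_lit 527) (nat_lit 1518)) (.a (.f (nat_lit 525) (nat_lit 526) (nat_lit 1517) (.f (nat_lit 493) (nat_lit 524) (nat_lit 1516) (.d (nat_lit 461) (nat_lit 460) (nat_lit 3532) (nat_lit 462) (nat_lit 3533)))) (.a (.f (nat_lit 527) (nat_lit 526) (nat_lit 1518) (.f (nat_lit 493) (nat_lit 492) (nat_lit 492) (.d (nat_lit 461) (nat_lit 460) (nat_lit 3532) (nat_lit 462) (nat_lit 3533)))) (.f (nat_lit 461) (nat_lit 462) (nat_lit 3533) (.f (nat_lit 493) (nat_lit 460) (nat_lit 3532) (.f (nat_lit 524) (nat_lit 525) (nat_lit 1516) (.d (nat_lit 492) (nat_lit 523) (nat_lit 1515) (nat_lit 527) (nat_lit 492))))))))))) (.a (.f (nat_lit 561) (nat_lit 527) (nat_lit 3599) (.f (nat_lit 595) (nat_lit 596) (nat_lit 560) (.f (nat_lit 530) (nat_lit 466) (nat_lit 4562) (.d (nat_lit 627) (nat_lit 531) (nat_lit 7666) (nat_lit 594) (nat_lit 4594))))) (.f (nat_lit 527) (nat_lit 561) (nat_lit 3599) (.d (nat_lit 526) (nat_lit 495) (nat_lit 1518) (nat_lit 525) (nat_lit 2541)))))))) (.a (.p (nat_lit 592) (.a (.f (nat_lit 623) (nat_lit 591) (nat_lit 5615) (.f (nat_lit 624) (nat_lit 655) (nat_lit 5647) (.f (nat_lit 495) (nat_lit 527) (nat_lit 7663) (.f (nat_lit 625) (nat_lit 657) (nat_lit 4624) (.f (nat_lit 530) (nat_lit 531) (nat_lit 495) (.f (nat_lit 466) (nat_lit 467) (nat_lit 2511) (.f (nat_lit 595) (nat_lit 563) (nat_lit 4562) (.d (nat_lit 594) (nat_lit 626) (nat_lit 2639) (nat_lit 627) (nat_lit 4594))))))))) (.a (.f (nat_lit 625) (nat_lit 593) (nat_lit 4592) (.f (nat_lit 624) (nat_lit 657) (nat_lit 4624) (.f (nat_lit 495) (nat_lit 527) (nat_lit 7663) (.f (nat_lit 530) (nat_lit 531) (nat_lit 495) (.f (nat_lit 466) (nat_lit 467) (nat_lit 2511) (.f (nat_lit 595) (nat_lit 563) (nat_lit 4562) (.f (nat_lit 627) (nat_lit 594) (nat_lit 4594) (.d (nat_lit 626) (nat_lit 591) (nat_lit 3663) (nat_lit 596) (nat_lit 2640))))))))) (.a (.f (nat_lit 625) (nat_lit 593) (nat_lit 4592) (.f (nat_lit 624) (nat_lit 657) (nat_lit 4624) (.d (nat_lit 623) (nat_lit 591) (nat_lit 5615) (nat_lit 655) (nat_lit 5647)))) (.a (.f (nat_lit 623) (nat_lit 591) (nat_lit 5615) (.f (nat_lit 624) (nat_lit 655) (nat_lit 5647) (.f (nat_lit 495) (nat_lit 527) (nat_lit 7663) (.f (nat_lit 530) (nat_lit 531) (nat_lit 495) (.f (nat_lit 466) (nat_lit 467) (nat_lit 2511) (.f (nat_lit 595) (nat_lit 563) (nat_lit 4562) (.d (nat_lit 594) (nat_lit 593) (nat_lit 1615) (nat_lit 627) (nat_lit 4594)))))))) (.a (.f (nat_lit 593) (nat_lit 625) (nat_lit 4592) (.f (nat_lit 591) (nat_lit 623) (nat_lit 5615) (.f (nat_lit 594) (nat_lit 563) (nat_lit 2607) (.f (nat_lit 627) (nat_lit 626) (nat_lit 591) (.d (nat_lit 595) (nat_lit 530) (nat_lit 4594) (nat_lit 628) (nat_lit 592)))))) (.f (nat_lit 625) (nat_lit 593) (nat_lit 4592) (.f (nat_lit 624) (nat_lit 657) (nat_lit 4624) (.f (nat_lit 495) (nat_lit 527) (nat_lit 7663) (.f (nat_lit 655) (nat_lit 623) (nat_lit 5647) (.f (nat_lit 656) (nat_lit 687) (nat_lit 5679) (.f (nat_lit 530) (nat_lit 531) (nat_lit 495) (.f (nat_lit 466) (nat_lit 467) (nat_lit 2511) (.f (nat_lit 627) (nat_lit 626) (nat_lit 1647) (.d (nat_lit 595) (nat_lit 563) (nat_lit 4562) (nat_lit 594) (nat_lit 4594)))))))))))))))) (.a (.p (nat_lit 593) (.a (.f (nat_lit 561) (nat_lit 464) (nat_lit 4560) (.d (nat_lit 625) (nat_lit 592) (nat_lit 4592) (nat_lit 657) (nat_lit 7696))) (.a (.f (nat_lit 625) (nat_lit 592) (nat_lit 4592) (.f (nat_lit 561) (nat_lit 657) (nat_lit 7696) (.d (nat_lit 530) (nat_lit 466) (nat_lit 5585) (nat_lit 594) (nat_lit 5617)))) (.a (.f (nat_lit 561) (nat_lit 464) (nat_lit 4560) (.f (nat_lit 563) (nat_lit 527) (nat_lit 3599) (.d (nat_lit 592) (nat_lit 564) (nat_lit 1584) (nat_lit 591) (nat_lit 1583)))) (.a (.f (nat_lit 592) (nat_lit 625) (nat_lit 4592) (.f (nat_lit 591) (nat_lit 623) (nat_lit 5615) (.f (nat_lit 594) (nat_lit 563) (nat_lit 2607) (.f (nat_lit 627) (nat_lit 626) (nat_lit 591) (.d (nat_lit 595) (nat_lit 530) (nat_lit 4594) (nat_lit 628) (nat_lit 592)))))) (.f (nat_lit 561) (nat_lit 464) (nat_lit 4560) (.f (nat_lit 530) (nat_lit 466) (nat_lit 5585) (.d (nat_lit 625) (nat_lit 594) (nat_lit 5617) (nat_lit 657) (nat_lit 7696))))))))) (.a (.p (nat_lit 495) (.a (.f (nat_lit 530) (nat_lit 531) (nat_lit 495) (.f (nat_lit 466) (nat_lit 467) (nat_lit 2511) (.f (nat_lit 593) (nat_lit 561) (nat_lit 5585) (.d (nat_lit 625) (nat_lit 592) (nat_lit 4592) (nat_lit 594) (nat_lit 5617))))) (.p (nat_lit 494) (.a (.d (nat_lit 526) (nat_lit 525) (nat_lit 1517) (nat_lit 527) (nat_lit 1518)) (.a (.f (nat_lit 461) (nat_lit 462) (nat_lit 3533) (.f (nat_lit 493) (nat_lit 460) (nat_lit 3532) (.d (nat_lit 525) (nat_lit 524) (nat_lit 1516) (nat_lit 526) (nat_lit 1517)))) (.a (.f (nat_lit 527) (nat_lit 526) (nat_lit 1518) (.f (nat_lit 493) (nat_lit 492) (nat_lit 492) (.d (nat_lit 461) (nat_lit 460) (nat_lit 3532) (nat_lit 462) (nat_lit 3533)))) (.f (nat_lit 461) (nat_lit 462) (nat_lit 3533) (.f (nat_lit 493) (nat_lit 460) (nat_lit 3532) (.f (nat_lit 524) (nat_lit 525) (nat_lit 1516) (.d (nat_lit 492) (nat_lit 523) (nat_lit 1515) (nat_lit 527) (nat_lit 492))))))))))) (.p (nat_lit 561) (.a (.f (nat_lit 593) (nat_lit 464) (nat_lit 4560) (.d (nat_lit 625) (nat_lit 592) (nat_lit 4592) (nat_lit 657) (nat_lit 7696))) (.f (nat_lit 563) (nat_lit 527) (nat_lit 3599) (.f (nat_lit 596) (nat_lit 595) (nat_lit 560) (.f (nat_lit 564) (nat_lit 597) (nat_lit 561) (.d (nat_lit 532) (nat_lit 531) (nat_lit 2576) (nat_lit 533) (nat_lit 2577))))))))))))))) (.p (nat_lit 593) (.a (.f (nat_lit 592) (nat_lit 625) (nat_lit 4592) (.f (nat_lit 591) (nat_lit 623) (nat_lit 5615) (.f (nat_lit 561) (nat_lit 464) (nat_lit 4560) (.d (nat_lit 562) (nat_lit 563) (nat_lit 1583) (nat_lit 590) (nat_lit 2606))))) (.a (.f (nat_lit 625) (nat_lit 592) (nat_lit 4592) (.d (nat_lit 561) (nat_lit 464) (nat_lit 4560) (nat_lit 657) (nat_lit 7696))) (.a (.p (nat_lit 530) (.a (.f (nat_lit 625) (nat_lit 592) (nat_lit 4592) (.f (nat_lit 562) (nat_lit 594) (nat_lit 5617) (.d (nat_lit 561) (nat_lit 466) (nat_lit 5585) (nat_lit 657) (nat_lit 7696)))) (.f (nat_lit 531) (nat_lit 495) (nat_lit 495) (.d (nat_lit 532) (nat_lit 499) (nat_lit 496) (nat_lit 533) (nat_lit 3569))))) (.a (.p (nat_lit 531) (.a (.f (nat_lit 499) (nat_lit 532) (nat_lit 496) (.f (nat_lit 467) (nat_lit 468) (nat_lit 2512) (.d (nat_lit 495) (nat_lit 466) (nat_lit 2511) (nat_lit 530) (nat_lit 495)))) (.a (.f (nat_lit 532) (nat_lit 499) (nat_lit 496) (.f (nat_lit 561) (nat_lit 464) (nat_lit 4560) (.f (nat_lit 562) (nat_lit 563) (nat_lit 2576) (.d (nat_lit 530) (nat_lit 466) (nat_lit 5585) (nat_lit 533) (nat_lit 1553))))) (.a (.f (nat_lit 530) (nat_lit 495) (nat_lit 495) (.f (nat_lit 561) (nat_lit 464) (nat_lit 4560) (.f (nat_lit 562) (nat_lit 466) (nat_lit 5585) (.d (nat_lit 532) (nat_lit 533) (nat_lit 3569) (nat_lit 563) (nat_lit 2576))))) (.a (.f (nat_lit 499) (nat_lit 532) (nat_lit 496) (.f (nat_lit 467) (nat_lit 468) (nat_lit 2512) (.f (nat_lit 466) (nat_lit 495) (nat_lit 2511) (.d (nat_lit 434) (nat_lit 402) (nat_lit 4498) (nat_lit 563) (nat_lit 7602))))) (.a (.f (nat_lit 499) (nat_lit 532) (nat_lit 496) (.f (nat_lit 467) (nat_lit 468) (nat_lit 2512) (.f (nat_lit 530) (nat_lit 495) (nat_lit 495) (.d (nat_lit 435) (nat_lit 403) (nat_lit 5522) (nat_lit 562) (nat_lit 5554))))) (.f (nat_lit 530) (nat_lit 495) (nat_lit 495) (.f (nat_lit 561) (nat_lit 464) (nat_lit 4560) (.f (nat_lit 466) (nat_lit 562) (nat_lit 5585) (.f (nat_lit 434) (nat_lit 563) (nat_lit 4530) (.f (nat_lit 402) (nat_lit 499) (nat_lit 4498) (.d (nat_lit 403) (nat_lit 371) (nat_lit 6514) (nat_lit 435) (nat_lit 6546))))))))))))) (.p (nat_lit 531) (.a (.f (nat_lit 499) (nat_lit 532) (nat_lit 496) (.f (nat_lit 467) (nat_lit 468) (nat_lit 2512) (.d (nat_lit 495) (nat_lit 466) (nat_lit 2511) (nat_lit 530) (nat_lit 495)))) (.a (.f (nat_lit 499) (nat_lit 532) (nat_lit 496) (.f (nat_lit 467) (nat_lit 468) (nat_lit 2512) (.f (nat_lit 592) (nat_lit 625) (nat_lit 4592) (.f (nat_lit 623) (nat_lit 591) (nat_lit 5615) (.f (nat_lit 624) (nat_lit 655) (nat_lit 5647) (.f (nat_lit 594) (nat_lit 595) (nat_lit 1615) (.d (nat_lit 562) (nat_lit 530) (nat_lit 6610) (nat_lit 563) (nat_lit 5586)))))))) (.a (.f (nat_lit 592) (nat_lit 625) (nat_lit 4592) (.f (nat_lit 623) (nat_lit 591) (nat_lit 5615) (.f (nat_lit 624) (nat_lit 655) (nat_lit 5647) (.f (nat_lit 530) (nat_lit 495) (nat_lit 495) (.f (nat_lit 595) (nat_lit 594) (nat_lit 1615) (.f (nat_lit 563) (nat_lit 627) (nat_lit 7666) (.d (nat_lit 466) (nat_lit 434) (nat_lit 4530) (nat_lit 562) (nat_lit 4562)))))))) (.f (nat_lit 499) (nat_lit 532) (nat_lit 496) (.f (nat_lit 467) (nat_lit 468) (nat_lit 2512) (.f (nat_lit 466) (nat_lit 495) (nat_lit 2511) (.d (nat_lit 434) (nat_lit 402) (nat_lit 4498) (nat_lit 563) (nat_lit 7602)))))))))))))))))) (.a (.f (nat_lit 465) (nat_lit 592) (nat_lit 6608) (.d (nat_lit 433) (nat_lit 401) (nat_lit 5520) (nat_lit 464) (nat_lit 6576))) (.p (nat_lit 498) (.a (.f (nat_lit 527) (nat_lit 499) (nat_lit 1519) (.d (nat_lit 526) (nat_lit 495) (nat_lit 1518) (nat_lit 525) (nat_lit 2541))) (.a s104074 (.a (.f (nat_lit 499) (nat_lit 527) (nat_lit 1519) (.f (nat_lit 532) (nat_lit 531) (nat_lit 496) (.f (nat_lit 500) (nat_lit 533) (nat_lit 497) (.d (nat_lit 468) (nat_lit 467) (nat_lit 2512) (nat_lit 469) (nat_lit 2513))))) (.p (nat_lit 495) (.a (.f (nat_lit 466) (nat_lit 467) (nat_lit 2511) (.f (nat_lit 465) (nat_lit 494) (nat_lit 2510) (.d (nat_lit 433) (nat_lit 401) (nat_lit 5520) (nat_lit 464) (nat_lit 6576)))) (.a (.f (nat_lit 526) (nat_lit 527) (nat_lit 1518) (.f (nat_lit 494) (nat_lit 525) (nat_lit 1517) (.d (nat_lit 466) (nat_lit 465) (nat_lit 2510) (nat_lit 467) (nat_lit 2511)))) (.a (.p (nat_lit 494) (.a (.f (nat_lit 461) (nat_lit 462) (nat_lit 3533) (.f (nat_lit 493) (nat_lit 460) (nat_lit 3532) (.d (nat_lit 525) (nat_lit 524) (nat_lit 1516) (nat_lit 526) (nat_lit 1517)))) (.a (.f (nat_lit 527) (nat_lit 526) (nat_lit 1518) (.f (nat_lit 493) (nat_lit 492) (nat_lit 492) (.d (nat_lit 461) (nat_lit 460) (nat_lit 3532) (nat_lit 462) (nat_lit 3533)))) (.a (.f (nat_lit 461) (nat_lit 462) (nat_lit 3533) (.f (nat_lit 493) (nat_lit 460) (nat_lit 3532) (.f (nat_lit 524) (nat_lit 525) (nat_lit 1516) (.d (nat_lit 492) (nat_lit 523) (nat_lit 1515) (nat_lit 527) (nat_lit 492))))) (.d (nat_lit 526) (nat_lit 525) (nat_lit 1517) (nat_lit 527) (nat_lit 1518)))))) (.p (nat_lit 562) (.a (.f (nat_lit 527) (nat_lit 526) (nat_lit 1518) (.f (nat_lit 530) (nat_lit 531) (nat_lit 495) (.f (nat_lit 466) (nat_lit 467) (nat_lit 2511) (.d (nat_lit 563) (nat_lit 561) (nat_lit 3599) (nat_lit 595) (nat_lit 4562))))) (.a (.f (nat_lit 530) (nat_lit 531) (nat_lit 495) (.f (nat_lit 466) (nat_lit 467) (nat_lit 2511) (.f (nat_lit 593) (nat_lit 561) (nat_lit 5585) (.f (nat_lit 594) (nat_lit 625) (nat_lit 5617) (.d (nat_lit 595) (nat_lit 563) (nat_lit 4562) (nat_lit 627) (nat_lit 4594)))))) (.a (.f (nat_lit 530) (nat_lit 531) (nat_lit 495) (.f (nat_lit 465) (nat_lit 594) (nat_lit 7633) (.d (nat_lit 466) (nat_lit 433) (nat_lit 7601) (nat_lit 467) (nat_lit 2511)))) (.f (nat_lit 527) (nat_lit 526) (nat_lit 1518) (.f (nat_lit 561) (nat_lit 563) (nat_lit 3599) (.f (nat_lit 464) (nat_lit 593) (nat_lit 4560) (.f (nat_lit 432) (nat_lit 400) (nat_lit 5519) (.d (nat_lit 433) (nat_lit 401) (nat_lit 6544) (nat_lit 465) (nat_lit 6576))))))))))))))))))))))) (.a (.p (nat_lit 592) (.a (.f (nat_lit 495) (nat_lit 463) (nat_lit 7631) (.f (nat_lit 497) (nat_lit 465) (nat_lit 6608) (.f (nat_lit 527) (nat_lit 624) (nat_lit 7663) (.d (nat_lit 526) (nat_lit 498) (nat_lit 1518) (nat_lit 525) (nat_lit 2541))))) (.a (.f (nat_lit 625) (nat_lit 593) (nat_lit 4592) (.f (nat_lit 624) (nat_lit 657) (nat_lit 4624) (.d (nat_lit 623) (nat_lit 591) (nat_lit 5615) (nat_lit 655) (nat_lit 5647)))) (.f (nat_lit 497) (nat_lit 465) (nat_lit 6608) (.p (nat_lit 498) (.a (.f (nat_lit 495) (nat_lit 463) (nat_lit 7631) (.d (nat_lit 527) (nat_lit 499) (nat_lit 1519) (nat_lit 526) (nat_lit 1518))) (.a (.f (nat_lit 495) (nat_lit 463) (nat_lit 7631) (.f (nat_lit 467) (nat_lit 466) (nat_lit 2511) (.f (nat_lit 499) (nat_lit 468) (nat_lit 2512) (.d (nat_lit 531) (nat_lit 530) (nat_lit 495) (nat_lit 532) (nat_lit 496))))) (.a (.f (nat_lit 499) (nat_lit 527) (nat_lit 1519) (.f (nat_lit 532) (nat_lit 531) (nat_lit 496) (.f (nat_lit 500) (nat_lit 533) (nat_lit 497) (.d (nat_lit 468) (nat_lit 467) (nat_lit 2512) (nat_lit 469) (nat_lit 2513))))) (.f (nat_lit 495) (nat_lit 463) (nat_lit 7631) (.f (nat_lit 526) (nat_lit 527) (nat_lit 1518) (.f (nat_lit 494) (nat_lit 525) (nat_lit 1517) (.f (nat_lit 461) (nat_lit 462) (nat_lit 3533) (.f (nat_lit 493) (nat_lit 460) (nat_lit 3532) (.f (nat_lit 591) (nat_lit 623) (nat_lit 5615) (.f (nat_lit 590) (nat_lit 558) (nat_lit 7629) (.f (nat_lit 593) (nat_lit 625) (nat_lit 4592) (.d (nat_lit 561) (nat_lit 562) (nat_lit 2606) (nat_lit 589) (nat_lit 2605)))))))))))))))))) (.a (.p (nat_lit 592) (.a (.f (nat_lit 593) (nat_lit 625) (nat_lit 4592) (.f (nat_lit 591) (nat_lit 623) (nat_lit 5615) (.f (nat_lit 561) (nat_lit 464) (nat_lit 4560) (.d (nat_lit 562) (nat_lit 563) (nat_lit 1583) (nat_lit 590) (nat_lit 2606))))) (.a (.f (nat_lit 593) (nat_lit 625) (nat_lit 4592) (.f (nat_lit 464) (nat_lit 561) (nat_lit 4560) (.d (nat_lit 463) (nat_lit 431) (nat_lit 7599) (nat_lit 495) (nat_lit 7631)))) (.f (nat_lit 495) (nat_lit 463) (nat_lit 7631) (.f (nat_lit 624) (nat_lit 527) (nat_lit 7663) (.d (nat_lit 623) (nat_lit 591) (nat_lit 5615) (nat_lit 655) (nat_lit 5647))))))) (.a (.p (nat_lit 499) (.a (.p (nat_lit 592) (.a (.f (nat_lit 625) (nat_lit 593) (nat_lit 4592) (.f (nat_lit 624) (nat_lit 657) (nat_lit 4624) (.d (nat_lit 623) (nat_lit 591) (nat_lit 5615) (nat_lit 655) (nat_lit 5647)))) (.a (.f (nat_lit 497) (nat_lit 465) (nat_lit 6608) (.f (nat_lit 498) (nat_lit 527) (nat_lit 1519) (.f (nat_lit 464) (nat_lit 463) (nat_lit 3535) (.d (nat_lit 593) (nat_lit 561) (nat_lit 4560) (nat_lit 625) (nat_lit 4592))))) (.f (nat_lit 497) (nat_lit 465) (nat_lit 6608) (.f (nat_lit 498) (nat_lit 527) (nat_lit 1519) (.f (nat_lit 532) (nat_lit 531) (nat_lit 496) (.f (nat_lit 500) (nat_lit 533) (nat_lit 497) (.d (nat_lit 468) (nat_lit 467) (nat_lit 2512) (nat_lit 469) (nat_lit 2513))))))))) (.a (.p (nat_lit 592) (.a (.f (nat_lit 625) (nat_lit 593) (nat_lit 4592) (.f (nat_lit 624) (nat_lit 657) (nat_lit 4624) (.d (nat_lit 623) (nat_lit 591) (nat_lit 5615) (nat_lit 655) (nat_lit 5647)))) (.f (nat_lit 497) (nat_lit 465) (nat_lit 6608) (.f (nat_lit 498) (nat_lit 527) (nat_lit 1519) (.f (nat_lit 532) (nat_lit 531) (nat_lit 496) (.f (nat_lit 500) (nat_lit 533) (nat_lit 497) (.d (nat_lit 468) (nat_lit 467) (nat_lit 2512) (nat_lit 469) (nat_lit 2513)))))))) (.a (.p (nat_lit 563) (.a s104155 (.a (.p (nat_lit 561) (.a (.f (nat_lit 562) (nat_lit 527) (nat_lit 3599) (.f (nat_lit 531) (nat_lit 532) (nat_lit 2576) (.f (nat_lit 595) (nat_lit 596) (nat_lit 560) (.d (nat_lit 594) (nat_lit 467) (nat_lit 5586) (nat_lit 626) (nat_lit 5618))))) (.f (nat_lit 593) (nat_lit 464) (nat_lit 4560) (.d (nat_lit 625) (nat_lit 592) (nat_lit 4592) (nat_lit 657) (nat_lit 7696))))) (.a (.p (nat_lit 531) (.a (.p (nat_lit 592) (.a (.f (nat_lit 593) (nat_lit 625) (nat_lit 4592) (.f (nat_lit 561) (nat_lit 464) (nat_lit 4560) (.d (nat_lit 562) (nat_lit 532) (nat_lit 2576) (nat_lit 591) (nat_lit 1583)))) (.a (.f (nat_lit 591) (nat_lit 623) (nat_lit 5615) (.f (nat_lit 562) (nat_lit 561) (nat_lit 1583) (.f (nat_lit 467) (nat_lit 594) (nat_lit 5586) (.f (nat_lit 435) (nat_lit 530) (nat_lit 5554) (.d (nat_lit 564) (nat_lit 532) (nat_lit 4531) (nat_lit 596) (nat_lit 4563)))))) (.a (.f (nat_lit 623) (nat_lit 591) (nat_lit 5615) (.f (nat_lit 624) (nat_lit 655) (nat_lit 5647) (.d (nat_lit 625) (nat_lit 593) (nat_lit 4592) (nat_lit 657) (nat_lit 4624)))) (.f (nat_lit 593) (nat_lit 625) (nat_lit 4592) (.f (nat_lit 561) (nat_lit 464) (nat_lit 4560) (.d (nat_lit 562) (nat_lit 532) (nat_lit 2576) (nat_lit 564) (nat_lit 1584)))))))) (.a (.p (nat_lit 464) (.a (.f (nat_lit 561) (nat_lit 593) (nat_lit 4560) (.f (nat_lit 562) (nat_lit 532) (nat_lit 2576) (.f (nat_lit 595) (nat_lit 596) (nat_lit 560) (.d (nat_lit 594) (nat_lit 467) (nat_lit 5586) (nat_lit 626) (nat_lit 5618))))) (.a (.f (nat_lit 463) (nat_lit 431) (nat_lit 7599) (.f (nat_lit 498) (nat_lit 497) (nat_lit 3535) (.f (nat_lit 595) (nat_lit 466) (nat_lit 7634) (.f (nat_lit 627) (nat_lit 530) (nat_lit 7666) (.d (nat_lit 500) (nat_lit 468) (nat_lit 6611) (nat_lit 532) (nat_lit 6643)))))) (.a (.f (nat_lit 561) (nat_lit 593) (nat_lit 4560) (.f (nat_lit 562) (nat_lit 532) (nat_lit 2576) (.f (nat_lit 467) (nat_lit 594) (nat_lit 5586) (.f (nat_lit 435) (nat_lit 530) (nat_lit 5554) (.d (nat_lit 434) (nat_lit 402) (nat_lit 7570) (nat_lit 466) (nat_lit 7602)))))) (.f (nat_lit 463) (nat_lit 431) (nat_lit 7599) (.f (nat_lit 498) (nat_lit 497) (nat_lit 3535) (.f (nat_lit 595) (nat_lit 466) (nat_lit 7634) (.f (nat_lit 594) (nat_lit 626) (nat_lit 5618) (.f (nat_lit 596) (nat_lit 628) (nat_lit 4595) (.d (nat_lit 467) (nat_lit 562) (nat_lit 5586) (nat_lit 564) (nat_lit 4563))))))))))) (.a s104214 (.a s104229 (.a s104239 (.a (.p (nat_lit 464) (.a (.f (nat_lit 463) (nat_lit 431) (nat_lit 7599) (.f (nat_lit 498) (nat_lit 497) (nat_lit 3535) (.f (nat_lit 595) (nat_lit 466) (nat_lit 7634) (.f (nat_lit 627) (nat_lit 530) (nat_lit 7666) (.d (nat_lit 500) (nat_lit 468) (nat_lit 6611) (nat_lit 532) (nat_lit 6643)))))) (.a (.f (nat_lit 561) (nat_lit 593) (nat_lit 4560) (.f (nat_lit 562) (nat_lit 532) (nat_lit 2576) (.f (nat_lit 595) (nat_lit 596) (nat_lit 560) (.f (nat_lit 498) (nat_lit 466) (nat_lit 7634) (.f (nat_lit 468) (nat_lit 500) (nat_lit 6611) (.d (nat_lit 497) (nat_lit 463) (nat_lit 3535) (nat_lit 467) (nat_lit 2512))))))) (.a (.f (nat_lit 561) (nat_lit 593) (nat_lit 4560) (.f (nat_lit 562) (nat_lit 532) (nat_lit 2576) (.f (nat_lit 595) (nat_lit 596) (nat_lit 560) (.f (nat_lit 498) (nat_lit 466) (nat_lit 7634) (.f (nat_lit 627) (nat_lit 530) (nat_lit 7666) (.f (nat_lit 660) (nat_lit 628) (nat_lit 4627) (.f (nat_lit 659) (nat_lit 692) (nat_lit 4659) (.d (nat_lit 658) (nat_lit 626) (nat_lit 5650) (nat_lit 690) (nat_lit 5682))))))))) (.a (.f (nat_lit 561) (nat_lit 593) (nat_lit 4560) (.f (nat_lit 562) (nat_lit 532) (nat_lit 2576) (.f (nat_lit 596) (nat_lit 595) (nat_lit 560) (.d (nat_lit 564) (nat_lit 467) (nat_lit 4563) (nat_lit 597) (nat_lit 561))))) (.a (.f (nat_lit 561) (nat_lit 593) (nat_lit 4560) (.f (nat_lit 532) (nat_lit 562) (nat_lit 2576) (.f (nat_lit 498) (nat_lit 497) (nat_lit 496) (.f (nat_lit 533) (nat_lit 534) (nat_lit 3570) (.f (nat_lit 431) (nat_lit 463) (nat_lit 7599) (.f (nat_lit 432) (nat_lit 399) (nat_lit 7567) (.f (nat_lit 401) (nat_lit 433) (nat_lit 6544) (.f (nat_lit 400) (nat_lit 369) (nat_lit 6512) (.f (nat_lit 402) (nat_lit 403) (nat_lit 1423) (.f (nat_lit 434) (nat_lit 466) (nat_lit 4498) (.f (nat_lit 467) (nat_lit 435) (nat_lit 7570) (.f (nat_lit 564) (nat_lit 596) (nat_lit 4563) (.f (nat_lit 468) (nat_lit 436) (nat_lit 6579) (.f (nat_lit 469) (nat_lit 470) (nat_lit 1490) (.d (nat_lit 437) (nat_lit 500) (nat_lit 6580) (nat_lit 501) (nat_lit 5556)))))))))))))))) (.f (nat_lit 463) (nat_lit 431) (nat_lit 7599) (.f (nat_lit 498) (nat_lit 497) (nat_lit 3535) (.f (nat_lit 595) (nat_lit 466) (nat_lit 7634) (.f (nat_lit 596) (nat_lit 628) (nat_lit 4595) (.d (nat_lit 561) (nat_lit 562) (nat_lit 560) (nat_lit 593) (nat_lit 4560)))))))))))) (.a (.p (nat_lit 592) (.a (.f (nat_lit 593) (nat_lit 625) (nat_lit 4592) (.f (nat_lit 561) (nat_lit 464) (nat_lit 4560) (.d (nat_lit 562) (nat_lit 532) (nat_lit 2576) (nat_lit 591) (nat_lit 1583)))) (.a (.f (nat_lit 591) (nat_lit 623) (nat_lit 5615) (.f (nat_lit 562) (nat_lit 561) (nat_lit 1583) (.f (nat_lit 467) (nat_lit 594) (nat_lit 5586) (.f (nat_lit 468) (nat_lit 436) (nat_lit 6579) (.f (nat_lit 498) (nat_lit 497) (nat_lit 2512) (.d (nat_lit 595) (nat_lit 466) (nat_lit 7634) (nat_lit 500) (nat_lit 6611))))))) (.a (.f (nat_lit 623) (nat_lit 591) (nat_lit 5615) (.f (nat_lit 624) (nat_lit 655) (nat_lit 5647) (.d (nat_lit 625) (nat_lit 593) (nat_lit 4592) (nat_lit 657) (nat_lit 4624)))) (.f (nat_lit 593) (nat_lit 625) (nat_lit 4592) (.f (nat_lit 561) (nat_lit 464) (nat_lit 4560) (.d (nat_lit 562) (nat_lit 532) (nat_lit 2576) (nat_lit 564) (nat_lit 1584)))))))) (.a (.p (nat_lit 498) (.a (.f (nat_lit 595) (nat_lit 466) (nat_lit 7634) (.f (nat_lit 532) (nat_lit 497) (nat_lit 496) (.d (nat_lit 627) (nat_lit 500) (nat_lit 6643) (nat_lit 530) (nat_lit 7666)))) (.a (.f (nat_lit 595) (nat_lit 466) (nat_lit 7634) (.f (nat_lit 627) (nat_lit 530) (nat_lit 7666) (.d (nat_lit 500) (nat_lit 468) (nat_lit 6611) (nat_lit 532) (nat_lit 6643)))) (.a (.f (nat_lit 532) (nat_lit 497) (nat_lit 496) (.f (nat_lit 561) (nat_lit 562) (nat_lit 2576) (.f (nat_lit 593) (nat_lit 464) (nat_lit 4560) (.d (nat_lit 625) (nat_lit 592) (nat_lit 4592) (nat_lit 657) (nat_lit 7696))))) (.f (nat_lit 595) (nat_lit 466) (nat_lit 7634) (.f (nat_lit 627) (nat_lit 530) (nat_lit 7666) (.d (nat_lit 626) (nat_lit 594) (nat_lit 5618) (nat_lit 658) (nat_lit 5650)))))))) (.p (nat_lit 592) (.a (.f (nat_lit 623) (nat_lit 591) (nat_lit 5615) (.f (nat_lit 624) (nat_lit 655) (nat_lit 5647) (.d (nat_lit 625) (nat_lit 593) (nat_lit 4592) (nat_lit 657) (nat_lit 4624)))) (.a (.f (nat_lit 593) (nat_lit 625) (nat_lit 4592) (.f (nat_lit 464) (nat_lit 561) (nat_lit 4560) (.f (nat_lit 463) (nat_lit 431) (nat_lit 7599) (.f (nat_lit 498) (nat_lit 497) (nat_lit 3535) (.f (nat_lit 595) (nat_lit 466) (nat_lit 7634) (.d (nat_lit 594) (nat_lit 564) (nat_lit 2608) (nat_lit 626) (nat_lit 5618))))))) (.f (nat_lit 591) (nat_lit 623) (nat_lit 5615) (.f (nat_lit 562) (nat_lit 561) (nat_lit 1583) (.f (nat_lit 467) (nat_lit 594) (nat_lit 5586) (.f (nat_lit 468) (nat_lit 436) (nat_lit 6579) (.f (nat_lit 498) (nat_lit 497) (nat_lit 2512) (.d (nat_lit 595) (nat_lit 466) (nat_lit 7634) (nat_lit 500) (nat_lit 6611))))))))))))))))))) (.a s104331 (.a s104394 (.a (.p (nat_lit 531) (.a s104239 (.a s104416 (.a (.p (nat_lit 595) (.a (.f (nat_lit 596) (nat_lit 628) (nat_lit 4595) (.f (nat_lit 564) (nat_lit 467) (nat_lit 4563) (.f (nat_lit 594) (nat_lit 626) (nat_lit 5618) (.d (nat_lit 593) (nat_lit 561) (nat_lit 3632) (nat_lit 592) (nat_lit 2608))))) (.a (.f (nat_lit 500) (nat_lit 468) (nat_lit 6611) (.f (nat_lit 627) (nat_lit 532) (nat_lit 6643) (.d (nat_lit 626) (nat_lit 594) (nat_lit 5618) (nat_lit 658) (nat_lit 5650)))) (.f (nat_lit 500) (nat_lit 468) (nat_lit 6611) (.f (nat_lit 627) (nat_lit 532) (nat_lit 6643) (.d (nat_lit 628) (nat_lit 596) (nat_lit 4595) (nat_lit 660) (nat_lit 4627))))))) (.a s104440 (.a (.p (nat_lit 498) (.a (.f (nat_lit 595) (nat_lit 466) (nat_lit 7634) (.f (nat_lit 532) (nat_lit 497) (nat_lit 496) (.d (nat_lit 627) (nat_lit 500) (nat_lit 6643) (nat_lit 530) (nat_lit 7666)))) (.a (.f (nat_lit 595) (nat_lit 466) (nat_lit 7634) (.f (nat_lit 627) (nat_lit 530) (nat_lit 7666) (.d (nat_lit 500) (nat_lit 468) (nat_lit 6611) (nat_lit 532) (nat_lit 6643)))) (.a (.d (nat_lit 497) (nat_lit 527) (nat_lit 1519) (nat_lit 532) (nat_lit 496)) (.f (nat_lit 595) (nat_lit 466) (nat_lit 7634) (.f (nat_lit 627) (nat_lit 530) (nat_lit 7666) (.d (nat_lit 626) (nat_lit 594) (nat_lit 5618) (nat_lit 658) (nat_lit 5650)))))))) (.a (.p (nat_lit 498) (.a (.f (nat_lit 595) (nat_lit 466) (nat_lit 7634) (.f (nat_lit 532) (nat_lit 497) (nat_lit 496) (.d (nat_lit 627) (nat_lit 500) (nat_lit 6643) (nat_lit 530) (nat_lit 7666)))) (.a (.f (nat_lit 595) (nat_lit 466) (nat_lit 7634) (.f (nat_lit 627) (nat_lit 530) (nat_lit 7666) (.d (nat_lit 626) (nat_lit 594) (nat_lit 5618) (nat_lit 658) (nat_lit 5650)))) (.d (nat_lit 497) (nat_lit 527) (nat_lit 1519) (nat_lit 532) (nat_lit 496))))) (.a s104443 (.p (nat_lit 498) (.a (.f (nat_lit 595) (nat_lit 466) (nat_lit 7634) (.f (nat_lit 627) (nat_lit 530) (nat_lit 7666) (.d (nat_lit 626) (nat_lit 594) (nat_lit 5618) (nat_lit 658) (nat_lit 5650)))) (.a (.f (nat_lit 497) (nat_lit 532) (nat_lit 496) (.f (nat_lit 467) (nat_lit 468) (nat_lit 2512) (.f (nat_lit 434) (nat_lit 466) (nat_lit 7602) (.f (nat_lit 435) (nat_lit 402) (nat_lit 7570) (.f (nat_lit 404) (nat_lit 436) (nat_lit 6547) (.d (nat_lit 403) (nat_lit 372) (nat_lit 6515) (nat_lit 530) (nat_lit 5522))))))) (.d (nat_lit 497) (nat_lit 527) (nat_lit 1519) (nat_lit 532) (nat_lit 496))))))))))))) (.a (.p (nat_lit 561) (.a (.f (nat_lit 593) (nat_lit 464) (nat_lit 4560) (.d (nat_lit 625) (nat_lit 592) (nat_lit 4592) (nat_lit 657) (nat_lit 7696))) (.f (nat_lit 562) (nat_lit 527) (nat_lit 3599) (.f (nat_lit 531) (nat_lit 532) (nat_lit 2576) (.f (nat_lit 467) (nat_lit 594) (nat_lit 5586) (.f (nat_lit 435) (nat_lit 530) (nat_lit 5554) (.d (nat_lit 436) (nat_lit 404) (nat_lit 6547) (nat_lit 468) (nat_lit 6579)))))))) (.a (.p (nat_lit 561) (.a (.f (nat_lit 593) (nat_lit 464) (nat_lit 4560) (.d (nat_lit 625) (nat_lit 592) (nat_lit 4592) (nat_lit 657) (nat_lit 7696))) (.f (nat_lit 562) (nat_lit 527) (nat_lit 3599) (.f (nat_lit 531) (nat_lit 532) (nat_lit 2576) (.f (nat_lit 595) (nat_lit 596) (nat_lit 560) (.f (nat_lit 498) (nat_lit 466) (nat_lit 7634) (.f (nat_lit 468) (nat_lit 500) (nat_lit 6611) (.d (nat_lit 467) (nat_lit 436) (nat_lit 6579) (nat_lit 497) (nat_lit 2512))))))))) (.a (.p (nat_lit 593) (.a (.f (nat_lit 561) (nat_lit 464) (nat_lit 4560) (.d (nat_lit 625) (nat_lit 592) (nat_lit 4592) (nat_lit 657) (nat_lit 7696))) (.a (.f (nat_lit 592) (nat_lit 625) (nat_lit 4592) (.f (nat_lit 591) (nat_lit 623) (nat_lit 5615) (.d (nat_lit 562) (nat_lit 561) (nat_lit 1583) (nat_lit 594) (nat_lit 2607)))) (.a (.f (nat_lit 561) (nat_lit 464) (nat_lit 4560) (.f (nat_lit 562) (nat_lit 527) (nat_lit 3599) (.d (nat_lit 592) (nat_lit 564) (nat_lit 1584) (nat_lit 591) (nat_lit 1583)))) (.a (.f (nat_lit 592) (nat_lit 625) (nat_lit 4592) (.f (nat_lit 591) (nat_lit 623) (nat_lit 5615) (.f (nat_lit 594) (nat_lit 562) (nat_lit 2607) (.f (nat_lit 595) (nat_lit 564) (nat_lit 2608) (.d (nat_lit 627) (nat_lit 626) (nat_lit 591) (nat_lit 628) (nat_lit 592)))))) (.f (nat_lit 561) (nat_lit 464) (nat_lit 4560) (.f (nat_lit 562) (nat_lit 527) (nat_lit 3599) (.f (nat_lit 596) (nat_lit 595) (nat_lit 560) (.f (nat_lit 564) (nat_lit 597) (nat_lit 561) (.f (nat_lit 532) (nat_lit 533) (nat_lit 2577) (.f (nat_lit 625) (nat_lit 657) (nat_lit 7696) (.f (nat_lit 500) (nat_lit 467) (nat_lit 7635) (.f (nat_lit 469) (nat_lit 501) (nat_lit 6612) (.f (nat_lit 468) (nat_lit 437) (nat_lit 6580) (.f (nat_lit 498) (nat_lit 497) (nat_lit 2513) (.d (nat_lit 530) (nat_lit 466) (nat_lit 5585) (nat_lit 594) (nat_lit 5617))))))))))))))))) (.a (.p (nat_lit 593) (.a (.f (nat_lit 561) (nat_lit 464) (nat_lit 4560) (.d (nat_lit 625) (nat_lit 592) (nat_lit 4592) (nat_lit 657) (nat_lit 7696))) (.a (.f (nat_lit 592) (nat_lit 625) (nat_lit 4592) (.f (nat_lit 591) (nat_lit 623) (nat_lit 5615) (.d (nat_lit 562) (nat_lit 561) (nat_lit 1583) (nat_lit 594) (nat_lit 2607)))) (.a (.f (nat_lit 561) (nat_lit 464) (nat_lit 4560) (.f (nat_lit 562) (nat_lit 527) (nat_lit 3599) (.d (nat_lit 592) (nat_lit 564) (nat_lit 1584) (nat_lit 591) (nat_lit 1583)))) (.a (.f (nat_lit 592) (nat_lit 625) (nat_lit 4592) (.f (nat_lit 591) (nat_lit 623) (nat_lit 5615) (.f (nat_lit 594) (nat_lit 562) (nat_lit 2607) (.f (nat_lit 595) (nat_lit 564) (nat_lit 2608) (.d (nat_lit 627) (nat_lit 626) (nat_lit 591) (nat_lit 628) (nat_lit 592)))))) (.f (nat_lit 561) (nat_lit 464) (nat_lit 4560) (.f (nat_lit 562) (nat_lit 527) (nat_lit 3599) (.f (nat_lit 595) (nat_lit 596) (nat_lit 560) (.f (nat_lit 531) (nat_lit 532) (nat_lit 2576) (.f (nat_lit 594) (nat_lit 626) (nat_lit 5618) (.f (nat_lit 498) (nat_lit 466) (nat_lit 7634) (.d (nat_lit 625) (nat_lit 530) (nat_lit 5617) (nat_lit 657) (nat_lit 7696))))))))))))) (.p (nat_lit 593) (.a (.f (nat_lit 561) (nat_lit 464) (nat_lit 4560) (.d (nat_lit 625) (nat_lit 592) (nat_lit 4592) (nat_lit 657) (nat_lit 7696))) (.a (.f (nat_lit 592) (nat_lit 625) (nat_lit 4592) (.f (nat_lit 591) (nat_lit 623) (nat_lit 5615) (.d (nat_lit 562) (nat_lit 561) (nat_lit 1583) (nat_lit 594) (nat_lit 2607)))) (.a (.f (nat_lit 561) (nat_lit 464) (nat_lit 4560) (.f (nat_lit 562) (nat_lit 527) (nat_lit 3599) (.d (nat_lit 592) (nat_lit 564) (nat_lit 1584) (nat_lit 591) (nat_lit 1583)))) (.a (.f (nat_lit 592) (nat_lit 625) (nat_lit 4592) (.f (nat_lit 591) (nat_lit 623) (nat_lit 5615) (.f (nat_lit 594) (nat_lit 562) (nat_lit 2607) (.f (nat_lit 595) (nat_lit 564) (nat_lit 2608) (.d (nat_lit 627) (nat_lit 626) (nat_lit 591) (nat_lit 628) (nat_lit 592)))))) (.f (nat_lit 561) (nat_lit 464) (nat_lit 4560) (.f (nat_lit 562) (nat_lit 527) (nat_lit 3599) (.f (nat_lit 596) (nat_lit 595) (nat_lit 560) (.f (nat_lit 564) (nat_lit 597) (nat_lit 561) (.f (nat_lit 531) (nat_lit 467) (nat_lit 4563) (.f (nat_lit 565) (nat_lit 594) (nat_lit 1585) (.f (nat_lit 566) (nat_lit 530) (nat_lit 3602) (.d (nat_lit 534) (nat_lit 533) (nat_lit 2578) (nat_lit 535) (nat_lit 2579))))))))))))))))))))))))) (.a (.p (nat_lit 497) (.a (.f (nat_lit 498) (nat_lit 527) (nat_lit 1519) (.f (nat_lit 464) (nat_lit 463) (nat_lit 3535) (.d (nat_lit 465) (nat_lit 500) (nat_lit 3536) (nat_lit 592) (nat_lit 6608)))) (.a (.f (nat_lit 592) (nat_lit 465) (nat_lit 6608) (.f (nat_lit 593) (nat_lit 625) (nat_lit 4592) (.f (nat_lit 591) (nat_lit 623) (nat_lit 5615) (.f (nat_lit 561) (nat_lit 464) (nat_lit 4560) (.d (nat_lit 562) (nat_lit 563) (nat_lit 1583) (nat_lit 590) (nat_lit 2606)))))) (.a (.f (nat_lit 592) (nat_lit 465) (nat_lit 6608) (.f (nat_lit 625) (nat_lit 593) (nat_lit 4592) (.f (nat_lit 624) (nat_lit 657) (nat_lit 4624) (.d (nat_lit 623) (nat_lit 591) (nat_lit 5615) (nat_lit 655) (nat_lit 5647))))) (.a (.f (nat_lit 498) (nat_lit 527) (nat_lit 1519) (.f (nat_lit 464) (nat_lit 463) (nat_lit 3535) (.f (nat_lit 532) (nat_lit 531) (nat_lit 496) (.f (nat_lit 500) (nat_lit 533) (nat_lit 497) (.f (nat_lit 468) (nat_lit 469) (nat_lit 2513) (.f (nat_lit 593) (nat_lit 561) (nat_lit 4560) (.f (nat_lit 592) (nat_lit 625) (nat_lit 4592) (.f (nat_lit 623) (nat_lit 591) (nat_lit 5615) (.f (nat_lit 624) (nat_lit 655) (nat_lit 5647) (.f (nat_lit 595) (nat_lit 594) (nat_lit 1615) (.f (nat_lit 564) (nat_lit 563) (nat_lit 5587) (.f (nat_lit 596) (nat_lit 627) (nat_lit 5619) (.d (nat_lit 597) (nat_lit 565) (nat_lit 4564) (nat_lit 629) (nat_lit 4596)))))))))))))) (.f (nat_lit 498) (nat_lit 527) (nat_lit 1519) (.f (nat_lit 464) (nat_lit 463) (nat_lit 3535) (.d (nat_lit 465) (nat_lit 433) (nat_lit 6576) (nat_lit 500) (nat_lit 3536))))))))) (.a (.p (nat_lit 592) (.a (.f (nat_lit 625) (nat_lit 593) (nat_lit 4592) (.f (nat_lit 624) (nat_lit 657) (nat_lit 4624) (.d (nat_lit 623) (nat_lit 591) (nat_lit 5615) (nat_lit 655) (nat_lit 5647)))) (.a (.f (nat_lit 497) (nat_lit 465) (nat_lit 6608) (.f (nat_lit 498) (nat_lit 527) (nat_lit 1519) (.f (nat_lit 464) (nat_lit 463) (nat_lit 3535) (.d (nat_lit 593) (nat_lit 561) (nat_lit 4560) (nat_lit 625) (nat_lit 4592))))) (.f (nat_lit 465) (nat_lit 497) (nat_lit 6608) (.f (nat_lit 464) (nat_lit 433) (nat_lit 6576) (.f (nat_lit 463) (nat_lit 431) (nat_lit 7599) (.f (nat_lit 466) (nat_lit 498) (nat_lit 463) (.f (nat_lit 467) (nat_lit 500) (nat_lit 464) (.d (nat_lit 435) (nat_lit 434) (nat_lit 2479) (nat_lit 436) (nat_lit 2480)))))))))) (.a (.p (nat_lit 464) (.a (.f (nat_lit 433) (nat_lit 465) (nat_lit 6576) (.f (nat_lit 432) (nat_lit 401) (nat_lit 6544) (.d (nat_lit 431) (nat_lit 399) (nat_lit 7567) (nat_lit 463) (nat_lit 7599)))) (.a (.f (nat_lit 465) (nat_lit 433) (nat_lit 6576) (.f (nat_lit 463) (nat_lit 431) (nat_lit 7599) (.f (nat_lit 466) (nat_lit 498) (nat_lit 463) (.f (nat_lit 467) (nat_lit 500) (nat_lit 464) (.d (nat_lit 435) (nat_lit 434) (nat_lit 2479) (nat_lit 436) (nat_lit 2480)))))) (.a (.p (nat_lit 562) (.a (.f (nat_lit 561) (nat_lit 593) (nat_lit 4560) (.f (nat_lit 563) (nat_lit 527) (nat_lit 3599) (.f (nat_lit 531) (nat_lit 532) (nat_lit 2576) (.f (nat_lit 595) (nat_lit 596) (nat_lit 560) (.d (nat_lit 594) (nat_lit 467) (nat_lit 5586) (nat_lit 626) (nat_lit 5618)))))) (.a (.f (nat_lit 593) (nat_lit 561) (nat_lit 4560) (.f (nat_lit 592) (nat_lit 625) (nat_lit 4592) (.f (nat_lit 591) (nat_lit 623) (nat_lit 5615) (.f (nat_lit 594) (nat_lit 563) (nat_lit 2607) (.f (nat_lit 627) (nat_lit 626) (nat_lit 591) (.f (nat_lit 595) (nat_lit 628) (nat_lit 592) (.f (nat_lit 498) (nat_lit 530) (nat_lit 4594) (.f (nat_lit 465) (nat_lit 433) (nat_lit 6576) (.f (nat_lit 466) (nat_lit 463) (nat_lit 463) (.d (nat_lit 500) (nat_lit 467) (nat_lit 464) (nat_lit 501) (nat_lit 3537))))))))))) (.a (.p (nat_lit 563) (.a (.f (nat_lit 561) (nat_lit 527) (nat_lit 3599) (.f (nat_lit 531) (nat_lit 532) (nat_lit 2576) (.f (nat_lit 595) (nat_lit 596) (nat_lit 560) (.d (nat_lit 594) (nat_lit 467) (nat_lit 5586) (nat_lit 626) (nat_lit 5618))))) (.a s104564 (.a (.p (nat_lit 467) (.a (.f (nat_lit 531) (nat_lit 594) (nat_lit 5586) (.f (nat_lit 435) (nat_lit 530) (nat_lit 5554) (.d (nat_lit 564) (nat_lit 532) (nat_lit 4531) (nat_lit 596) (nat_lit 4563)))) (.a (.f (nat_lit 465) (nat_lit 433) (nat_lit 6576) (.f (nat_lit 466) (nat_lit 500) (nat_lit 464) (.f (nat_lit 531) (nat_lit 434) (nat_lit 7602) (.d (nat_lit 436) (nat_lit 435) (nat_lit 2480) (nat_lit 468) (nat_lit 6579))))) (.a (.f (nat_lit 465) (nat_lit 433) (nat_lit 6576) (.f (nat_lit 466) (nat_lit 500) (nat_lit 464) (.f (nat_lit 498) (nat_lit 463) (nat_lit 463) (.d (nat_lit 530) (nat_lit 435) (nat_lit 6578) (nat_lit 595) (nat_lit 4562))))) (.f (nat_lit 531) (nat_lit 594) (nat_lit 5586) (.f (nat_lit 466) (nat_lit 434) (nat_lit 7602) (.d (nat_lit 465) (nat_lit 433) (nat_lit 6576) (nat_lit 500) (nat_lit 464)))))))) (.a (.f (nat_lit 561) (nat_lit 527) (nat_lit 3599) (.f (nat_lit 531) (nat_lit 532) (nat_lit 2576) (.f (nat_lit 467) (nat_lit 594) (nat_lit 5586) (.f (nat_lit 435) (nat_lit 530) (nat_lit 5554) (.d (nat_lit 436) (nat_lit 404) (nat_lit 6547) (nat_lit 468) (nat_lit 6579)))))) (.a (.f (nat_lit 561) (nat_lit 527) (nat_lit 3599) (.f (nat_lit 531) (nat_lit 532) (nat_lit 2576) (.f (nat_lit 595) (nat_lit 596) (nat_lit 560) (.f (nat_lit 466) (nat_lit 498) (nat_lit 7634) (.f (nat_lit 467) (nat_lit 434) (nat_lit 7602) (.d (nat_lit 468) (nat_lit 436) (nat_lit 6579) (nat_lit 500) (nat_lit 6611))))))) (.a (.p (nat_lit 498) (.a (.f (nat_lit 465) (nat_lit 433) (nat_lit 6576) (.f (nat_lit 466) (nat_lit 463) (nat_lit 463) (.d (nat_lit 500) (nat_lit 467) (nat_lit 464) (nat_lit 501) (nat_lit 3537)))) (.a (.f (nat_lit 561) (nat_lit 527) (nat_lit 3599) (.f (nat_lit 595) (nat_lit 596) (nat_lit 560) (.f (nat_lit 530) (nat_lit 466) (nat_lit 4562) (.d (nat_lit 594) (nat_lit 467) (nat_lit 6610) (nat_lit 627) (nat_lit 4594))))) (.a (.f (nat_lit 561) (nat_lit 527) (nat_lit 3599) (.f (nat_lit 596) (nat_lit 595) (nat_lit 560) (.f (nat_lit 564) (nat_lit 597) (nat_lit 561) (.f (nat_lit 532) (nat_lit 533) (nat_lit 2577) (.f (nat_lit 467) (nat_lit 500) (nat_lit 7635) (.f (nat_lit 433) (nat_lit 465) (nat_lit 6576) (.f (nat_lit 432) (nat_lit 401) (nat_lit 6544) (.f (nat_lit 530) (nat_lit 594) (nat_lit 6610) (.f (nat_lit 435) (nat_lit 403) (nat_lit 5522) (.d (nat_lit 434) (nat_lit 463) (nat_lit 1455) (nat_lit 468) (nat_lit 432))))))))))) (.f (nat_lit 561) (nat_lit 527) (nat_lit 3599) (.f (nat_lit 595) (nat_lit 596) (nat_lit 560) (.f (nat_lit 530) (nat_lit 466) (nat_lit 4562) (.d (nat_lit 627) (nat_lit 594) (nat_lit 4594) (nat_lit 659) (nat_lit 7698))))))))) (.a (.f (nat_lit 561) (nat_lit 527) (nat_lit 3599) (.f (nat_lit 531) (nat_lit 532) (nat_lit 2576) (.f (nat_lit 595) (nat_lit 596) (nat_lit 560) (.f (nat_lit 498) (nat_lit 466) (nat_lit 7634) (.f (nat_lit 627) (nat_lit 530) (nat_lit 7666) (.d (nat_lit 626) (nat_lit 594) (nat_lit 5618) (nat_lit 658) (nat_lit 5650))))))) (.f (nat_lit 561) (nat_lit 527) (nat_lit 3599) (.f (nat_lit 596) (nat_lit 595) (nat_lit 560) (.f (nat_lit 564) (nat_lit 597) (nat_lit 561) (.f (nat_lit 467) (nat_lit 531) (nat_lit 4563) (.f (nat_lit 465) (nat_lit 433) (nat_lit 6576) (.f (nat_lit 466) (nat_lit 500) (nat_lit 464) (.f (nat_lit 435) (nat_lit 436) (nat_lit 2480) (.d (nat_lit 463) (nat_lit 434) (nat_lit 2479) (nat_lit 498) (nat_lit 463))))))))))))))))) (.a (.p (nat_lit 467) (.a (.f (nat_lit 465) (nat_lit 433) (nat_lit 6576) (.f (nat_lit 466) (nat_lit 500) (nat_lit 464) (.f (nat_lit 435) (nat_lit 436) (nat_lit 2480) (.d (nat_lit 463) (nat_lit 434) (nat_lit 2479) (nat_lit 498) (nat_lit 463))))) (.a (.p (nat_lit 530) (.a (.f (nat_lit 435) (nat_lit 531) (nat_lit 5554) (.d (nat_lit 498) (nat_lit 403) (nat_lit 5522) (nat_lit 594) (nat_lit 6610))) (.a (.f (nat_lit 531) (nat_lit 435) (nat_lit 5554) (.d (nat_lit 594) (nat_lit 563) (nat_lit 5586) (nat_lit 626) (nat_lit 6642))) (.a (.f (nat_lit 435) (nat_lit 531) (nat_lit 5554) (.d (nat_lit 498) (nat_lit 403) (nat_lit 5522) (nat_lit 466) (nat_lit 6578))) (.a (.f (nat_lit 498) (nat_lit 594) (nat_lit 6610) (.d (nat_lit 435) (nat_lit 403) (nat_lit 5522) (nat_lit 466) (nat_lit 6578))) (.f (nat_lit 594) (nat_lit 498) (nat_lit 6610) (.d (nat_lit 531) (nat_lit 563) (nat_lit 5586) (nat_lit 626) (nat_lit 6642)))))))) (.a (.f (nat_lit 465) (nat_lit 433) (nat_lit 6576) (.f (nat_lit 466) (nat_lit 500) (nat_lit 464) (.f (nat_lit 435) (nat_lit 436) (nat_lit 2480) (.f (nat_lit 531) (nat_lit 530) (nat_lit 5554) (.d (nat_lit 434) (nat_lit 402) (nat_lit 7570) (nat_lit 463) (nat_lit 2479)))))) (.a (.p (nat_lit 530) (.a (.f (nat_lit 435) (nat_lit 531) (nat_lit 5554) (.d (nat_lit 498) (nat_lit 403) (nat_lit 5522) (nat_lit 594) (nat_lit 6610))) (.a (.f (nat_lit 531) (nat_lit 435) (nat_lit 5554) (.d (nat_lit 594) (nat_lit 563) (nat_lit 5586) (nat_lit 626) (nat_lit 6642))) (.a (.f (nat_lit 435) (nat_lit 531) (nat_lit 5554) (.f (nat_lit 403) (nat_lit 498) (nat_lit 5522) (.f (nat_lit 433) (nat_lit 465) (nat_lit 6576) (.f (nat_lit 432) (nat_lit 401) (nat_lit 6544) (.d (nat_lit 404) (nat_lit 372) (nat_lit 6515) (nat_lit 434) (nat_lit 2448)))))) (.a (.f (nat_lit 498) (nat_lit 594) (nat_lit 6610) (.f (nat_lit 433) (nat_lit 465) (nat_lit 6576) (.f (nat_lit 432) (nat_lit 401) (nat_lit 6544) (.f (nat_lit 435) (nat_lit 403) (nat_lit 5522) (.d (nat_lit 434) (nat_lit 463) (nat_lit 1455) (nat_lit 468) (nat_lit 432)))))) (.f (nat_lit 594) (nat_lit 498) (nat_lit 6610) (.d (nat_lit 531) (nat_lit 563) (nat_lit 5586) (nat_lit 626) (nat_lit 6642)))))))) (.f (nat_lit 465) (nat_lit 433) (nat_lit 6576) (.f (nat_lit 466) (nat_lit 500) (nat_lit 464) (.f (nat_lit 498) (nat_lit 463) (nat_lit 463) (.f (nat_lit 530) (nat_lit 594) (nat_lit 6610) (.f (nat_lit 563) (nat_lit 595) (nat_lit 4562) (.f (nat_lit 531) (nat_lit 434) (nat_lit 4530) (.f (nat_lit 468) (nat_lit 436) (nat_lit 6579) (.f (nat_lit 469) (nat_lit 470) (nat_lit 1490) (.f (nat_lit 564) (nat_lit 596) (nat_lit 4563) (.f (nat_lit 565) (nat_lit 566) (nat_lit 3602) (.f (nat_lit 533) (nat_lit 534) (nat_lit 2578) (.f (nat_lit 501) (nat_lit 502) (nat_lit 466) (.d (nat_lit 437) (nat_lit 438) (nat_lit 2482) (nat_lit 532) (nat_lit 5556))))))))))))))))))) (.a (.p (nat_lit 467) (.a (.f (nat_lit 465) (nat_lit 433) (nat_lit 6576) (.f (nat_lit 466) (nat_lit 500) (nat_lit 464) (.f (nat_lit 435) (nat_lit 436) (nat_lit 2480) (.d (nat_lit 463) (nat_lit 434) (nat_lit 2479) (nat_lit 498) (nat_lit 463))))) (.a (.f (nat_lit 593) (nat_lit 561) (nat_lit 4560) (.f (nat_lit 592) (nat_lit 625) (nat_lit 4592) (.f (nat_lit 623) (nat_lit 591) (nat_lit 5615) (.f (nat_lit 624) (nat_lit 655) (nat_lit 5647) (.f (nat_lit 594) (nat_lit 595) (nat_lit 1615) (.f (nat_lit 530) (nat_lit 498) (nat_lit 6610) (.d (nat_lit 531) (nat_lit 435) (nat_lit 5554) (nat_lit 626) (nat_lit 6642)))))))) (.a (.f (nat_lit 465) (nat_lit 433) (nat_lit 6576) (.f (nat_lit 466) (nat_lit 500) (nat_lit 464) (.f (nat_lit 435) (nat_lit 436) (nat_lit 2480) (.f (nat_lit 531) (nat_lit 530) (nat_lit 5554) (.d (nat_lit 434) (nat_lit 402) (nat_lit 7570) (nat_lit 463) (nat_lit 2479)))))) (.f (nat_lit 465) (nat_lit 433) (nat_lit 6576) (.f (nat_lit 466) (nat_lit 500) (nat_lit 464) (.f (nat_lit 498) (nat_lit 463) (nat_lit 463) (.f (nat_lit 593) (nat_lit 561) (nat_lit 4560) (.f (nat_lit 594) (nat_lit 530) (nat_lit 6610) (.f (nat_lit 592) (nat_lit 625) (nat_lit 4592) (.f (nat_lit 623) (nat_lit 591) (nat_lit 5615) (.d (nat_lit 624) (nat_lit 595) (nat_lit 1615) (nat_lit 655) (nat_lit 5647))))))))))))) (.a (.f (nat_lit 561) (nat_lit 593) (nat_lit 4560) (.f (nat_lit 563) (nat_lit 527) (nat_lit 3599) (.f (nat_lit 531) (nat_lit 532) (nat_lit 2576) (.f (nat_lit 467) (nat_lit 594) (nat_lit 5586) (.f (nat_lit 435) (nat_lit 530) (nat_lit 5554) (.d (nat_lit 436) (nat_lit 404) (nat_lit 6547) (nat_lit 468) (nat_lit 6579))))))) (.a (.f (nat_lit 561) (nat_lit 593) (nat_lit 4560) (.f (nat_lit 563) (nat_lit 527) (nat_lit 3599) (.f (nat_lit 531) (nat_lit 532) (nat_lit 2576) (.f (nat_lit 595) (nat_lit 596) (nat_lit 560) (.f (nat_lit 466) (nat_lit 498) (nat_lit 7634) (.f (nat_lit 467) (nat_lit 434) (nat_lit 7602) (.d (nat_lit 468) (nat_lit 436) (nat_lit 6579) (nat_lit 500) (nat_lit 6611)))))))) (.f (nat_lit 561) (nat_lit 593) (nat_lit 4560) (.f (nat_lit 563) (nat_lit 527) (nat_lit 3599) (.f (nat_lit 531) (nat_lit 532) (nat_lit 2576) (.f (nat_lit 595) (nat_lit 596) (nat_lit 560) (.f (nat_lit 498) (nat_lit 466) (nat_lit 7634) (.f (nat_lit 627) (nat_lit 530) (nat_lit 7666) (.d (nat_lit 626) (nat_lit 594) (nat_lit 5618) (nat_lit 658) (nat_lit 5650)))))))))))))))) (.a (.p (nat_lit 563) (.a (.f (nat_lit 561) (nat_lit 593) (nat_lit 4560) (.f (nat_lit 562) (nat_lit 527) (nat_lit 3599) (.f (nat_lit 531) (nat_lit 532) (nat_lit 2576) (.f (nat_lit 595) (nat_lit 596) (nat_lit 560) (.d (nat_lit 594) (nat_lit 467) (nat_lit 5586) (nat_lit 626) (nat_lit 5618)))))) (.a (.f (nat_lit 593) (nat_lit 561) (nat_lit 4560) (.f (nat_lit 592) (nat_lit 625) (nat_lit 4592) (.f (nat_lit 591) (nat_lit 623) (nat_lit 5615) (.f (nat_lit 594) (nat_lit 562) (nat_lit 2607) (.f (nat_lit 595) (nat_lit 564) (nat_lit 2608) (.d (nat_lit 627) (nat_lit 626) (nat_lit 591) (nat_lit 628) (nat_lit 592))))))) (.a (.p (nat_lit 531) (.a (.p (nat_lit 562) (.a (.f (nat_lit 467) (nat_lit 594) (nat_lit 5586) (.f (nat_lit 435) (nat_lit 530) (nat_lit 5554) (.d (nat_lit 532) (nat_lit 561) (nat_lit 2576) (nat_lit 564) (nat_lit 4531)))) (.a (.f (nat_lit 467) (nat_lit 594) (nat_lit 5586) (.f (nat_lit 435) (nat_lit 530) (nat_lit 5554) (.d (nat_lit 564) (nat_lit 532) (nat_lit 4531) (nat_lit 596) (nat_lit 4563)))) (.a (.f (nat_lit 561) (nat_lit 532) (nat_lit 2576) (.f (nat_lit 595) (nat_lit 596) (nat_lit 560) (.f (nat_lit 466) (nat_lit 498) (nat_lit 7634) (.f (nat_lit 467) (nat_lit 434) (nat_lit 7602) (.d (nat_lit 468) (nat_lit 436) (nat_lit 6579) (nat_lit 500) (nat_lit 6611)))))) (.a (.f (nat_lit 561) (nat_lit 532) (nat_lit 2576) (.f (nat_lit 595) (nat_lit 596) (nat_lit 560) (.f (nat_lit 498) (nat_lit 466) (nat_lit 7634) (.f (nat_lit 627) (nat_lit 530) (nat_lit 7666) (.d (nat_lit 626) (nat_lit 594) (nat_lit 5618) (nat_lit 658) (nat_lit 5650)))))) (.f (nat_lit 467) (nat_lit 594) (nat_lit 5586) (.f (nat_lit 466) (nat_lit 434) (nat_lit 7602) (.f (nat_lit 595) (nat_lit 498) (nat_lit 7634) (.d (nat_lit 500) (nat_lit 465) (nat_lit 464) (nat_lit 468) (nat_lit 6611)))))))))) (.a (.p (nat_lit 562) (.a (.f (nat_lit 467) (nat_lit 594) (nat_lit 5586) (.f (nat_lit 435) (nat_lit 530) (nat_lit 5554) (.d (nat_lit 532) (nat_lit 561) (nat_lit 2576) (nat_lit 564) (nat_lit 4531)))) (.a (.f (nat_lit 467) (nat_lit 594) (nat_lit 5586) (.f (nat_lit 435) (nat_lit 530) (nat_lit 5554) (.d (nat_lit 564) (nat_lit 532) (nat_lit 4531) (nat_lit 596) (nat_lit 4563)))) (.a (.f (nat_lit 561) (nat_lit 532) (nat_lit 2576) (.f (nat_lit 595) (nat_lit 596) (nat_lit 560) (.f (nat_lit 466) (nat_lit 498) (nat_lit 7634) (.f (nat_lit 467) (nat_lit 434) (nat_lit 7602) (.d (nat_lit 468) (nat_lit 436) (nat_lit 6579) (nat_lit 500) (nat_lit 6611)))))) (.a (.f (nat_lit 561) (nat_lit 532) (nat_lit 2576) (.f (nat_lit 595) (nat_lit 596) (nat_lit 560) (.f (nat_lit 498) (nat_lit 466) (nat_lit 7634) (.f (nat_lit 627) (nat_lit 530) (nat_lit 7666) (.d (nat_lit 626) (nat_lit 594) (nat_lit 5618) (nat_lit 658) (nat_lit 5650)))))) (.f (nat_lit 467) (nat_lit 594) (nat_lit 5586) (.f (nat_lit 435) (nat_lit 530) (nat_lit 5554) (.d (nat_lit 436) (nat_lit 404) (nat_lit 6547) (nat_lit 468) (nat_lit 6579))))))))) (.a (.p (nat_lit 594) (.a (.f (nat_lit 467) (nat_lit 562) (nat_lit 5586) (.f (nat_lit 595) (nat_lit 626) (nat_lit 5618) (.d (nat_lit 596) (nat_lit 564) (nat_lit 4563) (nat_lit 628) (nat_lit 4595)))) (.a (.f (nat_lit 595) (nat_lit 626) (nat_lit 5618) (.f (nat_lit 596) (nat_lit 628) (nat_lit 4595) (.f (nat_lit 564) (nat_lit 467) (nat_lit 4563) (.f (nat_lit 500) (nat_lit 468) (nat_lit 6611) (.f (nat_lit 532) (nat_lit 627) (nat_lit 5619) (.f (nat_lit 501) (nat_lit 469) (nat_lit 6612) (.d (nat_lit 502) (nat_lit 503) (nat_lit 1523) (nat_lit 530) (nat_lit 1522)))))))) (.a (.f (nat_lit 467) (nat_lit 562) (nat_lit 5586) (.f (nat_lit 466) (nat_lit 434) (nat_lit 7602) (.f (nat_lit 465) (nat_lit 500) (nat_lit 464) (.d (nat_lit 463) (nat_lit 431) (nat_lit 7599) (nat_lit 498) (nat_lit 463))))) (.f (nat_lit 595) (nat_lit 626) (nat_lit 5618) (.f (nat_lit 498) (nat_lit 466) (nat_lit 7634) (.f (nat_lit 627) (nat_lit 530) (nat_lit 7666) (.d (nat_lit 500) (nat_lit 468) (nat_lit 6611) (nat_lit 532) (nat_lit 6643))))))))) (.a (.p (nat_lit 466) (.a (.f (nat_lit 467) (nat_lit 434) (nat_lit 7602) (.f (nat_lit 500) (nat_lit 465) (nat_lit 464) (.d (nat_lit 595) (nat_lit 468) (nat_lit 6611) (nat_lit 498) (nat_lit 7634)))) (.a (.f (nat_lit 595) (nat_lit 498) (nat_lit 7634) (.f (nat_lit 467) (nat_lit 434) (nat_lit 7602) (.d (nat_lit 468) (nat_lit 436) (nat_lit 6579) (nat_lit 500) (nat_lit 6611)))) (.a (.f (nat_lit 467) (nat_lit 434) (nat_lit 7602) (.f (nat_lit 500) (nat_lit 465) (nat_lit 464) (.d (nat_lit 468) (nat_lit 436) (nat_lit 6579) (nat_lit 595) (nat_lit 6611)))) (.a (.f (nat_lit 467) (nat_lit 434) (nat_lit 7602) (.f (nat_lit 465) (nat_lit 500) (nat_lit 464) (.d (nat_lit 463) (nat_lit 431) (nat_lit 7599) (nat_lit 498) (nat_lit 463)))) (.a (.f (nat_lit 595) (nat_lit 498) (nat_lit 7634) (.f (nat_lit 500) (nat_lit 468) (nat_lit 6611) (.f (nat_lit 627) (nat_lit 532) (nat_lit 6643) (.d (nat_lit 626) (nat_lit 594) (nat_lit 5618) (nat_lit 658) (nat_lit 5650))))) (.f (nat_lit 467) (nat_lit 434) (nat_lit 7602) (.f (nat_lit 595) (nat_lit 498) (nat_lit 7634) (.d (nat_lit 596) (nat_lit 564) (nat_lit 4563) (nat_lit 628) (nat_lit 4595)))))))))) (.a (.p (nat_lit 562) (.a (.f (nat_lit 467) (nat_lit 594) (nat_lit 5586) (.f (nat_lit 435) (nat_lit 530) (nat_lit 5554) (.d (nat_lit 532) (nat_lit 561) (nat_lit 2576) (nat_lit 564) (nat_lit 4531)))) (.a (.f (nat_lit 467) (nat_lit 594) (nat_lit 5586) (.f (nat_lit 435) (nat_lit 530) (nat_lit 5554) (.d (nat_lit 564) (nat_lit 532) (nat_lit 4531) (nat_lit 596) (nat_lit 4563)))) (.a (.d (nat_lit 561) (nat_lit 527) (nat_lit 3599) (nat_lit 532) (nat_lit 2576)) (.f (nat_lit 467) (nat_lit 594) (nat_lit 5586) (.f (nat_lit 435) (nat_lit 530) (nat_lit 5554) (.d (nat_lit 436) (nat_lit 404) (nat_lit 6547) (nat_lit 468) (nat_lit 6579)))))))) (.a (.p (nat_lit 466) (.a (.f (nat_lit 467) (nat_lit 434) (nat_lit 7602) (.f (nat_lit 500) (nat_lit 465) (nat_lit 464) (.d (nat_lit 595) (nat_lit 468) (nat_lit 6611) (nat_lit 498) (nat_lit 7634)))) (.a (.f (nat_lit 595) (nat_lit 498) (nat_lit 7634) (.f (nat_lit 467) (nat_lit 434) (nat_lit 7602) (.d (nat_lit 468) (nat_lit 436) (nat_lit 6579) (nat_lit 500) (nat_lit 6611)))) (.a (.f (nat_lit 467) (nat_lit 434) (nat_lit 7602) (.f (nat_lit 500) (nat_lit 465) (nat_lit 464) (.d (nat_lit 468) (nat_lit 436) (nat_lit 6579) (nat_lit 595) (nat_lit 6611)))) (.a (.f (nat_lit 467) (nat_lit 434) (nat_lit 7602) (.f (nat_lit 465) (nat_lit 500) (nat_lit 464) (.d (nat_lit 463) (nat_lit 431) (nat_lit 7599) (nat_lit 498) (nat_lit 463)))) (.f (nat_lit 498) (nat_lit 595) (nat_lit 7634) (.d (nat_lit 463) (nat_lit 431) (nat_lit 7599) (nat_lit 465) (nat_lit 463)))))))) (.a (.p (nat_lit 595) (.a (.f (nat_lit 498) (nat_lit 466) (nat_lit 7634) (.f (nat_lit 627) (nat_lit 530) (nat_lit 7666) (.d (nat_lit 500) (nat_lit 468) (nat_lit 6611) (nat_lit 532) (nat_lit 6643)))) (.a (.f (nat_lit 626) (nat_lit 594) (nat_lit 5618) (.f (nat_lit 627) (nat_lit 658) (nat_lit 5650) (.d (nat_lit 500) (nat_lit 468) (nat_lit 6611) (nat_lit 532) (nat_lit 6643)))) (.a (.f (nat_lit 596) (nat_lit 628) (nat_lit 4595) (.f (nat_lit 562) (nat_lit 561) (nat_lit 560) (.f (nat_lit 594) (nat_lit 626) (nat_lit 5618) (.f (nat_lit 597) (nat_lit 598) (nat_lit 3634) (.f (nat_lit 565) (nat_lit 566) (nat_lit 2610) (.f (nat_lit 629) (nat_lit 630) (nat_lit 594) (.f (nat_lit 500) (nat_lit 468) (nat_lit 6611) (.d (nat_lit 532) (nat_lit 533) (nat_lit 7668) (nat_lit 564) (nat_lit 4596))))))))) (.f (nat_lit 498) (nat_lit 466) (nat_lit 7634) (.f (nat_lit 627) (nat_lit 530) (nat_lit 7666) (.d (nat_lit 628) (nat_lit 596) (nat_lit 4595) (nat_lit 660) (nat_lit 4627)))))))) (.p (nat_lit 562) (.a (.f (nat_lit 467) (nat_lit 594) (nat_lit 5586) (.f (nat_lit 435) (nat_lit 530) (nat_lit 5554) (.d (nat_lit 532) (nat_lit 561) (nat_lit 2576) (nat_lit 564) (nat_lit 4531)))) (.a (.f (nat_lit 467) (nat_lit 594) (nat_lit 5586) (.f (nat_lit 435) (nat_lit 530) (nat_lit 5554) (.d (nat_lit 564) (nat_lit 532) (nat_lit 4531) (nat_lit 596) (nat_lit 4563)))) (.a (.d (nat_lit 561) (nat_lit 527) (nat_lit 3599) (nat_lit 532) (nat_lit 2576)) (.f (nat_lit 467) (nat_lit 594) (nat_lit 5586) (.f (nat_lit 466) (nat_lit 434) (nat_lit 7602) (.f (nat_lit 435) (nat_lit 530) (nat_lit 5554) (.d (nat_lit 465) (nat_lit 436) (nat_lit 2480) (nat_lit 500) (nat_lit 464))))))))))))))))) (.a (.p (nat_lit 466) (.a (.f (nat_lit 463) (nat_lit 431) (nat_lit 7599) (.f (nat_lit 465) (nat_lit 498) (nat_lit 463) (.f (nat_lit 467) (nat_lit 500) (nat_lit 464) (.d (nat_lit 435) (nat_lit 434) (nat_lit 2479) (nat_lit 436) (nat_lit 2480))))) (.a (.p (nat_lit 531) (.a (.f (nat_lit 595) (nat_lit 498) (nat_lit 7634) (.f (nat_lit 467) (nat_lit 434) (nat_lit 7602) (.d (nat_lit 468) (nat_lit 436) (nat_lit 6579) (nat_lit 500) (nat_lit 6611)))) (.a (.f (nat_lit 467) (nat_lit 434) (nat_lit 7602) (.f (nat_lit 562) (nat_lit 594) (nat_lit 5586) (.f (nat_lit 435) (nat_lit 530) (nat_lit 5554) (.d (nat_lit 564) (nat_lit 532) (nat_lit 4531) (nat_lit 596) (nat_lit 4563))))) (.f (nat_lit 595) (nat_lit 498) (nat_lit 7634) (.f (nat_lit 500) (nat_lit 468) (nat_lit 6611) (.f (nat_lit 627) (nat_lit 532) (nat_lit 6643) (.d (nat_lit 626) (nat_lit 594) (nat_lit 5618) (nat_lit 658) (nat_lit 5650)))))))) (.a (.f (nat_lit 431) (nat_lit 463) (nat_lit 7599) (.f (nat_lit 432) (nat_lit 399) (nat_lit 7567) (.f (nat_lit 467) (nat_lit 465) (nat_lit 3503) (.f (nat_lit 531) (nat_lit 434) (nat_lit 7602) (.f (nat_lit 468) (nat_lit 436) (nat_lit 6579) (.f (nat_lit 500) (nat_lit 595) (nat_lit 6611) (.f (nat_lit 564) (nat_lit 596) (nat_lit 4563) (.f (nat_lit 532) (nat_lit 435) (nat_lit 4531) (.f (nat_lit 565) (nat_lit 597) (nat_lit 4564) (.d (nat_lit 566) (nat_lit 530) (nat_lit 3602) (nat_lit 567) (nat_lit 3603))))))))))) (.a (.f (nat_lit 463) (nat_lit 431) (nat_lit 7599) (.f (nat_lit 498) (nat_lit 465) (nat_lit 463) (.f (nat_lit 531) (nat_lit 595) (nat_lit 7634) (.d (nat_lit 434) (nat_lit 402) (nat_lit 4498) (nat_lit 530) (nat_lit 4530))))) (.f (nat_lit 463) (nat_lit 431) (nat_lit 7599) (.f (nat_lit 465) (nat_lit 498) (nat_lit 463) (.f (nat_lit 467) (nat_lit 500) (nat_lit 464) (.f (nat_lit 436) (nat_lit 435) (nat_lit 2480) (.d (nat_lit 468) (nat_lit 437) (nat_lit 2481) (nat_lit 531) (nat_lit 6579))))))))))) (.a (.p (nat_lit 466) (.a (.f (nat_lit 463) (nat_lit 431) (nat_lit 7599) (.f (nat_lit 465) (nat_lit 498) (nat_lit 463) (.f (nat_lit 467) (nat_lit 500) (nat_lit 464) (.d (nat_lit 435) (nat_lit 434) (nat_lit 2479) (nat_lit 436) (nat_lit 2480))))) (.a (.f (nat_lit 593) (nat_lit 561) (nat_lit 4560) (.f (nat_lit 592) (nat_lit 625) (nat_lit 4592) (.f (nat_lit 623) (nat_lit 591) (nat_lit 5615) (.f (nat_lit 624) (nat_lit 655) (nat_lit 5647) (.f (nat_lit 595) (nat_lit 594) (nat_lit 1615) (.f (nat_lit 531) (nat_lit 498) (nat_lit 7634) (.f (nat_lit 467) (nat_lit 434) (nat_lit 7602) (.d (nat_lit 468) (nat_lit 436) (nat_lit 6579) (nat_lit 500) (nat_lit 6611))))))))) (.a (.f (nat_lit 431) (nat_lit 463) (nat_lit 7599) (.f (nat_lit 432) (nat_lit 399) (nat_lit 7567) (.f (nat_lit 467) (nat_lit 465) (nat_lit 3503) (.f (nat_lit 531) (nat_lit 434) (nat_lit 7602) (.f (nat_lit 468) (nat_lit 436) (nat_lit 6579) (.f (nat_lit 500) (nat_lit 595) (nat_lit 6611) (.f (nat_lit 564) (nat_lit 596) (nat_lit 4563) (.f (nat_lit 532) (nat_lit 435) (nat_lit 4531) (.f (nat_lit 565) (nat_lit 597) (nat_lit 4564) (.d (nat_lit 566) (nat_lit 530) (nat_lit 3602) (nat_lit 567) (nat_lit 3603))))))))))) (.a (.f (nat_lit 463) (nat_lit 431) (nat_lit 7599) (.f (nat_lit 498) (nat_lit 465) (nat_lit 463) (.f (nat_lit 531) (nat_lit 595) (nat_lit 7634) (.d (nat_lit 434) (nat_lit 402) (nat_lit 4498) (nat_lit 530) (nat_lit 4530))))) (.f (nat_lit 463) (nat_lit 431) (nat_lit 7599) (.f (nat_lit 465) (nat_lit 498) (nat_lit 463) (.f (nat_lit 467) (nat_lit 500) (nat_lit 464) (.f (nat_lit 436) (nat_lit 435) (nat_lit 2480) (.d (nat_lit 468) (nat_lit 437) (nat_lit 2481) (nat_lit 531) (nat_lit 6579))))))))))) (.a (.f (nat_lit 561) (nat_lit 593) (nat_lit 4560) (.f (nat_lit 562) (nat_lit 527) (nat_lit 3599) (.f (nat_lit 531) (nat_lit 532) (nat_lit 2576) (.f (nat_lit 467) (nat_lit 594) (nat_lit 5586) (.f (nat_lit 435) (nat_lit 530) (nat_lit 5554) (.d (nat_lit 436) (nat_lit 404) (nat_lit 6547) (nat_lit 468) (nat_lit 6579))))))) (.f (nat_lit 561) (nat_lit 593) (nat_lit 4560) (.f (nat_lit 562) (nat_lit 527) (nat_lit 3599) (.f (nat_lit 531) (nat_lit 532) (nat_lit 2576) (.f (nat_lit 595) (nat_lit 596) (nat_lit 560) (.f (nat_lit 466) (nat_lit 498) (nat_lit 7634) (.f (nat_lit 467) (nat_lit 434) (nat_lit 7602) (.d (nat_lit 468) (nat_lit 436) (nat_lit 6579) (nat_lit 500) (nat_lit 6611))))))))))))))) (.a (.p (nat_lit 563) (.a (.f (nat_lit 561) (nat_lit 593) (nat_lit 4560) (.f (nat_lit 562) (nat_lit 527) (nat_lit 3599) (.f (nat_lit 531) (nat_lit 532) (nat_lit 2576) (.f (nat_lit 595) (nat_lit 596) (nat_lit 560) (.d (nat_lit 594) (nat_lit 467) (nat_lit 5586) (nat_lit 626) (nat_lit 5618)))))) (.a (.f (nat_lit 593) (nat_lit 561) (nat_lit 4560) (.f (nat_lit 592) (nat_lit 625) (nat_lit 4592) (.f (nat_lit 591) (nat_lit 623) (nat_lit 5615) (.f (nat_lit 594) (nat_lit 562) (nat_lit 2607) (.f (nat_lit 595) (nat_lit 564) (nat_lit 2608) (.d (nat_lit 627) (nat_lit 626) (nat_lit 591) (nat_lit 628) (nat_lit 592))))))) (.a (.p (nat_lit 562) (.a (.f (nat_lit 561) (nat_lit 527) (nat_lit 3599) (.f (nat_lit 531) (nat_lit 532) (nat_lit 2576) (.f (nat_lit 595) (nat_lit 596) (nat_lit 560) (.d (nat_lit 594) (nat_lit 467) (nat_lit 5586) (nat_lit 626) (nat_lit 5618))))) (.a s104564 (.a (.p (nat_lit 467) (.a (.f (nat_lit 531) (nat_lit 594) (nat_lit 5586) (.f (nat_lit 435) (nat_lit 530) (nat_lit 5554) (.d (nat_lit 564) (nat_lit 532) (nat_lit 4531) (nat_lit 596) (nat_lit 4563)))) (.a (.f (nat_lit 465) (nat_lit 433) (nat_lit 6576) (.f (nat_lit 466) (nat_lit 500) (nat_lit 464) (.f (nat_lit 531) (nat_lit 434) (nat_lit 7602) (.d (nat_lit 436) (nat_lit 435) (nat_lit 2480) (nat_lit 468) (nat_lit 6579))))) (.a (.f (nat_lit 433) (nat_lit 465) (nat_lit 6576) (.f (nat_lit 432) (nat_lit 401) (nat_lit 6544) (.f (nat_lit 431) (nat_lit 399) (nat_lit 7567) (.f (nat_lit 434) (nat_lit 466) (nat_lit 431) (.f (nat_lit 435) (nat_lit 468) (nat_lit 432) (.d (nat_lit 403) (nat_lit 402) (nat_lit 2447) (nat_lit 404) (nat_lit 2448))))))) (.f (nat_lit 531) (nat_lit 594) (nat_lit 5586) (.f (nat_lit 466) (nat_lit 434) (nat_lit 7602) (.d (nat_lit 465) (nat_lit 433) (nat_lit 6576) (nat_lit 500) (nat_lit 464)))))))) (.a (.f (nat_lit 561) (nat_lit 527) (nat_lit 3599) (.f (nat_lit 531) (nat_lit 532) (nat_lit 2576) (.f (nat_lit 595) (nat_lit 596) (nat_lit 560) (.f (nat_lit 466) (nat_lit 498) (nat_lit 7634) (.f (nat_lit 467) (nat_lit 434) (nat_lit 7602) (.d (nat_lit 468) (nat_lit 436) (nat_lit 6579) (nat_lit 500) (nat_lit 6611))))))) (.a (.f (nat_lit 561) (nat_lit 527) (nat_lit 3599) (.f (nat_lit 596) (nat_lit 595) (nat_lit 560) (.f (nat_lit 564) (nat_lit 597) (nat_lit 561) (.f (nat_lit 532) (nat_lit 533) (nat_lit 2577) (.f (nat_lit 433) (nat_lit 465) (nat_lit 6576) (.f (nat_lit 432) (nat_lit 401) (nat_lit 6544) (.f (nat_lit 431) (nat_lit 399) (nat_lit 7567) (.f (nat_lit 467) (nat_lit 500) (nat_lit 7635) (.f (nat_lit 434) (nat_lit 466) (nat_lit 431) (.f (nat_lit 435) (nat_lit 468) (nat_lit 432) (.d (nat_lit 403) (nat_lit 402) (nat_lit 2447) (nat_lit 404) (nat_lit 2448)))))))))))) (.a (.f (nat_lit 561) (nat_lit 527) (nat_lit 3599) (.f (nat_lit 531) (nat_lit 532) (nat_lit 2576) (.f (nat_lit 595) (nat_lit 596) (nat_lit 560) (.f (nat_lit 498) (nat_lit 466) (nat_lit 7634) (.f (nat_lit 627) (nat_lit 530) (nat_lit 7666) (.d (nat_lit 626) (nat_lit 594) (nat_lit 5618) (nat_lit 658) (nat_lit 5650))))))) (.a (.f (nat_lit 561) (nat_lit 527) (nat_lit 3599) (.f (nat_lit 531) (nat_lit 532) (nat_lit 2576) (.f (nat_lit 467) (nat_lit 594) (nat_lit 5586) (.f (nat_lit 435) (nat_lit 530) (nat_lit 5554) (.d (nat_lit 436) (nat_lit 404) (nat_lit 6547) (nat_lit 468) (nat_lit 6579)))))) (.f (nat_lit 561) (nat_lit 527) (nat_lit 3599) (.f (nat_lit 596) (nat_lit 595) (nat_lit 560) (.f (nat_lit 564) (nat_lit 597) (nat_lit 561) (.f (nat_lit 467) (nat_lit 531) (nat_lit 4563) (.f (nat_lit 433) (nat_lit 465) (nat_lit 6576) (.f (nat_lit 432) (nat_lit 401) (nat_lit 6544) (.f (nat_lit 431) (nat_lit 399) (nat_lit 7567) (.f (nat_lit 434) (nat_lit 466) (nat_lit 431) (.f (nat_lit 435) (nat_lit 468) (nat_lit 432) (.d (nat_lit 403) (nat_lit 402) (nat_lit 2447) (nat_lit 404) (nat_lit 2448))))))))))))))))))) (.a (.p (nat_lit 467) (.a (.f (nat_lit 465) (nat_lit 433) (nat_lit 6576) (.f (nat_lit 466) (nat_lit 500) (nat_lit 464) (.f (nat_lit 531) (nat_lit 434) (nat_lit 7602) (.d (nat_lit 436) (nat_lit 435) (nat_lit 2480) (nat_lit 468) (nat_lit 6579))))) (.a (.p (nat_lit 531) (.a (.f (nat_lit 564) (nat_lit 596) (nat_lit 4563) (.f (nat_lit 435) (nat_lit 532) (nat_lit 4531) (.d (nat_lit 562) (nat_lit 530) (nat_lit 5554) (nat_lit 594) (nat_lit 5586)))) (.f (nat_lit 466) (nat_lit 434) (nat_lit 7602) (.f (nat_lit 595) (nat_lit 498) (nat_lit 7634) (.d (nat_lit 468) (nat_lit 436) (nat_lit 6579) (nat_lit 500) (nat_lit 6611)))))) (.a (.f (nat_lit 433) (nat_lit 465) (nat_lit 6576) (.f (nat_lit 432) (nat_lit 401) (nat_lit 6544) (.f (nat_lit 431) (nat_lit 399) (nat_lit 7567) (.f (nat_lit 434) (nat_lit 466) (nat_lit 431) (.f (nat_lit 435) (nat_lit 468) (nat_lit 432) (.d (nat_lit 403) (nat_lit 402) (nat_lit 2447) (nat_lit 404) (nat_lit 2448))))))) (.a (.p (nat_lit 531) (.a (.f (nat_lit 564) (nat_lit 596) (nat_lit 4563) (.f (nat_lit 435) (nat_lit 532) (nat_lit 4531) (.d (nat_lit 562) (nat_lit 530) (nat_lit 5554) (nat_lit 594) (nat_lit 5586)))) (.a (.f (nat_lit 564) (nat_lit 596) (nat_lit 4563) (.f (nat_lit 435) (nat_lit 532) (nat_lit 4531) (.d (nat_lit 436) (nat_lit 404) (nat_lit 6547) (nat_lit 468) (nat_lit 6579)))) (.f (nat_lit 468) (nat_lit 436) (nat_lit 6579) (.f (nat_lit 595) (nat_lit 500) (nat_lit 6611) (.d (nat_lit 594) (nat_lit 562) (nat_lit 5586) (nat_lit 626) (nat_lit 5618))))))) (.a (.f (nat_lit 465) (nat_lit 433) (nat_lit 6576) (.f (nat_lit 466) (nat_lit 500) (nat_lit 464) (.f (nat_lit 531) (nat_lit 434) (nat_lit 7602) (.f (nat_lit 435) (nat_lit 436) (nat_lit 2480) (.d (nat_lit 564) (nat_lit 532) (nat_lit 4531) (nat_lit 596) (nat_lit 4563)))))) (.f (nat_lit 465) (nat_lit 433) (nat_lit 6576) (.f (nat_lit 466) (nat_lit 500) (nat_lit 464) (.f (nat_lit 531) (nat_lit 434) (nat_lit 7602) (.f (nat_lit 595) (nat_lit 498) (nat_lit 7634) (.d (nat_lit 594) (nat_lit 562) (nat_lit 5586) (nat_lit 626) (nat_lit 5618)))))))))))) (.a (.p (nat_lit 531) (.a (.f (nat_lit 593) (nat_lit 561) (nat_lit 4560) (.f (nat_lit 592) (nat_lit 625) (nat_lit 4592) (.f (nat_lit 623) (nat_lit 591) (nat_lit 5615) (.f (nat_lit 624) (nat_lit 655) (nat_lit 5647) (.f (nat_lit 595) (nat_lit 594) (nat_lit 1615) (.f (nat_lit 500) (nat_lit 468) (nat_lit 6611) (.f (nat_lit 627) (nat_lit 532) (nat_lit 6643) (.d (nat_lit 628) (nat_lit 596) (nat_lit 4595) (nat_lit 660) (nat_lit 4627))))))))) (.f (nat_lit 433) (nat_lit 465) (nat_lit 6576) (.f (nat_lit 432) (nat_lit 401) (nat_lit 6544) (.f (nat_lit 399) (nat_lit 431) (nat_lit 7567) (.f (nat_lit 400) (nat_lit 367) (nat_lit 7535) (.f (nat_lit 434) (nat_lit 435) (nat_lit 3471) (.f (nat_lit 466) (nat_lit 467) (nat_lit 7602) (.d (nat_lit 498) (nat_lit 402) (nat_lit 4498) (nat_lit 530) (nat_lit 4530)))))))))) (.a (.f (nat_lit 561) (nat_lit 593) (nat_lit 4560) (.f (nat_lit 562) (nat_lit 527) (nat_lit 3599) (.f (nat_lit 531) (nat_lit 532) (nat_lit 2576) (.f (nat_lit 467) (nat_lit 594) (nat_lit 5586) (.f (nat_lit 435) (nat_lit 530) (nat_lit 5554) (.d (nat_lit 436) (nat_lit 404) (nat_lit 6547) (nat_lit 468) (nat_lit 6579))))))) (.f (nat_lit 561) (nat_lit 593) (nat_lit 4560) (.f (nat_lit 562) (nat_lit 527) (nat_lit 3599) (.f (nat_lit 531) (nat_lit 532) (nat_lit 2576) (.f (nat_lit 595) (nat_lit 596) (nat_lit 560) (.f (nat_lit 466) (nat_lit 498) (nat_lit 7634) (.f (nat_lit 467) (nat_lit 434) (nat_lit 7602) (.d (nat_lit 468) (nat_lit 436) (nat_lit 6579) (nat_lit 500) (nat_lit 6611))))))))))))))) (.p (nat_lit 563) (.a (.f (nat_lit 561) (nat_lit 593) (nat_lit 4560) (.f (nat_lit 562) (nat_lit 527) (nat_lit 3599) (.f (nat_lit 531) (nat_lit 532) (nat_lit 2576) (.f (nat_lit 595) (nat_lit 596) (nat_lit 560) (.d (nat_lit 594) (nat_lit 467) (nat_lit 5586) (nat_lit 626) (nat_lit 5618)))))) (.a (.f (nat_lit 593) (nat_lit 561) (nat_lit 4560) (.f (nat_lit 592) (nat_lit 625) (nat_lit 4592) (.f (nat_lit 591) (nat_lit 623) (nat_lit 5615) (.f (nat_lit 594) (nat_lit 562) (nat_lit 2607) (.f (nat_lit 595) (nat_lit 564) (nat_lit 2608) (.d (nat_lit 627) (nat_lit 626) (nat_lit 591) (nat_lit 628) (nat_lit 592))))))) (.a (.p (nat_lit 562) (.a (.f (nat_lit 561) (nat_lit 527) (nat_lit 3599) (.f (nat_lit 531) (nat_lit 532) (nat_lit 2576) (.f (nat_lit 595) (nat_lit 596) (nat_lit 560) (.d (nat_lit 594) (nat_lit 467) (nat_lit 5586) (nat_lit 626) (nat_lit 5618))))) (.a (.p (nat_lit 531) (.a (.f (nat_lit 467) (nat_lit 594) (nat_lit 5586) (.f (nat_lit 435) (nat_lit 530) (nat_lit 5554) (.d (nat_lit 532) (nat_lit 561) (nat_lit 2576) (nat_lit 564) (nat_lit 4531)))) (.a (.f (nat_lit 467) (nat_lit 594) (nat_lit 5586) (.f (nat_lit 435) (nat_lit 530) (nat_lit 5554) (.d (nat_lit 564) (nat_lit 532) (nat_lit 4531) (nat_lit 596) (nat_lit 4563)))) (.a (.f (nat_lit 561) (nat_lit 532) (nat_lit 2576) (.f (nat_lit 595) (nat_lit 596) (nat_lit 560) (.f (nat_lit 466) (nat_lit 498) (nat_lit 7634) (.f (nat_lit 467) (nat_lit 434) (nat_lit 7602) (.d (nat_lit 468) (nat_lit 436) (nat_lit 6579) (nat_lit 500) (nat_lit 6611)))))) (.a (.f (nat_lit 561) (nat_lit 532) (nat_lit 2576) (.f (nat_lit 595) (nat_lit 596) (nat_lit 560) (.f (nat_lit 498) (nat_lit 466) (nat_lit 7634) (.f (nat_lit 627) (nat_lit 530) (nat_lit 7666) (.d (nat_lit 626) (nat_lit 594) (nat_lit 5618) (nat_lit 658) (nat_lit 5650)))))) (.f (nat_lit 467) (nat_lit 594) (nat_lit 5586) (.f (nat_lit 435) (nat_lit 530) (nat_lit 5554) (.d (nat_lit 436) (nat_lit 404) (nat_lit 6547) (nat_lit 468) (nat_lit 6579))))))))) (.a (.p (nat_lit 467) (.a (.f (nat_lit 531) (nat_lit 594) (nat_lit 5586) (.f (nat_lit 435) (nat_lit 530) (nat_lit 5554) (.d (nat_lit 564) (nat_lit 532) (nat_lit 4531) (nat_lit 596) (nat_lit 4563)))) (.a (.f (nat_lit 431) (nat_lit 463) (nat_lit 7599) (.f (nat_lit 432) (nat_lit 399) (nat_lit 7567) (.f (nat_lit 433) (nat_lit 401) (nat_lit 6544) (.f (nat_lit 434) (nat_lit 466) (nat_lit 431) (.f (nat_lit 435) (nat_lit 468) (nat_lit 432) (.d (nat_lit 403) (nat_lit 402) (nat_lit 2447) (nat_lit 404) (nat_lit 2448))))))) (.f (nat_lit 531) (nat_lit 594) (nat_lit 5586) (.f (nat_lit 466) (nat_lit 434) (nat_lit 7602) (.f (nat_lit 595) (nat_lit 498) (nat_lit 7634) (.d (nat_lit 468) (nat_lit 436) (nat_lit 6579) (nat_lit 500) (nat_lit 6611)))))))) (.a (.f (nat_lit 561) (nat_lit 527) (nat_lit 3599) (.f (nat_lit 531) (nat_lit 532) (nat_lit 2576) (.f (nat_lit 467) (nat_lit 594) (nat_lit 5586) (.f (nat_lit 435) (nat_lit 530) (nat_lit 5554) (.d (nat_lit 436) (nat_lit 404) (nat_lit 6547) (nat_lit 468) (nat_lit 6579)))))) (.a (.f (nat_lit 561) (nat_lit 527) (nat_lit 3599) (.f (nat_lit 531) (nat_lit 532) (nat_lit 2576) (.f (nat_lit 595) (nat_lit 596) (nat_lit 560) (.f (nat_lit 466) (nat_lit 498) (nat_lit 7634) (.f (nat_lit 467) (nat_lit 434) (nat_lit 7602) (.d (nat_lit 468) (nat_lit 436) (nat_lit 6579) (nat_lit 500) (nat_lit 6611))))))) (.a (.f (nat_lit 561) (nat_lit 527) (nat_lit 3599) (.f (nat_lit 596) (nat_lit 595) (nat_lit 560) (.f (nat_lit 564) (nat_lit 597) (nat_lit 561) (.f (nat_lit 532) (nat_lit 533) (nat_lit 2577) (.f (nat_lit 431) (nat_lit 463) (nat_lit 7599) (.f (nat_lit 432) (nat_lit 399) (nat_lit 7567) (.f (nat_lit 433) (nat_lit 401) (nat_lit 6544) (.f (nat_lit 467) (nat_lit 500) (nat_lit 7635) (.f (nat_lit 434) (nat_lit 466) (nat_lit 431) (.f (nat_lit 435) (nat_lit 468) (nat_lit 432) (.d (nat_lit 403) (nat_lit 402) (nat_lit 2447) (nat_lit 404) (nat_lit 2448)))))))))))) (.a (.f (nat_lit 561) (nat_lit 527) (nat_lit 3599) (.f (nat_lit 531) (nat_lit 532) (nat_lit 2576) (.f (nat_lit 595) (nat_lit 596) (nat_lit 560) (.f (nat_lit 498) (nat_lit 466) (nat_lit 7634) (.f (nat_lit 627) (nat_lit 530) (nat_lit 7666) (.d (nat_lit 626) (nat_lit 594) (nat_lit 5618) (nat_lit 658) (nat_lit 5650))))))) (.f (nat_lit 561) (nat_lit 527) (nat_lit 3599) (.f (nat_lit 596) (nat_lit 595) (nat_lit 560) (.f (nat_lit 564) (nat_lit 597) (nat_lit 561) (.f (nat_lit 467) (nat_lit 531) (nat_lit 4563) (.f (nat_lit 431) (nat_lit 463) (nat_lit 7599) (.f (nat_lit 432) (nat_lit 399) (nat_lit 7567) (.f (nat_lit 433) (nat_lit 401) (nat_lit 6544) (.f (nat_lit 434) (nat_lit 466) (nat_lit 431) (.f (nat_lit 435) (nat_lit 468) (nat_lit 432) (.d (nat_lit 403) (nat_lit 402) (nat_lit 2447) (nat_lit 404) (nat_lit 2448))))))))))))))))))) (.a (.p (nat_lit 592) (.a (.f (nat_lit 623) (nat_lit 591) (nat_lit 5615) (.f (nat_lit 624) (nat_lit 655) (nat_lit 5647) (.d (nat_lit 625) (nat_lit 593) (nat_lit 4592) (nat_lit 657) (nat_lit 4624)))) (.a (.p (nat_lit 594) (.a (.f (nat_lit 593) (nat_lit 625) (nat_lit 4592) (.f (nat_lit 595) (nat_lit 564) (nat_lit 2608) (.f (nat_lit 531) (nat_lit 626) (nat_lit 5618) (.d (nat_lit 562) (nat_lit 467) (nat_lit 5586) (nat_lit 591) (nat_lit 2607))))) (.a s104939 (.a (.f (nat_lit 593) (nat_lit 625) (nat_lit 4592) (.f (nat_lit 595) (nat_lit 564) (nat_lit 2608) (.f (nat_lit 531) (nat_lit 626) (nat_lit 5618) (.d (nat_lit 628) (nat_lit 596) (nat_lit 4595) (nat_lit 627) (nat_lit 592))))) (.a (.f (nat_lit 593) (nat_lit 625) (nat_lit 4592) (.f (nat_lit 562) (nat_lit 591) (nat_lit 2607) (.f (nat_lit 531) (nat_lit 467) (nat_lit 5586) (.d (nat_lit 626) (nat_lit 530) (nat_lit 6642) (nat_lit 658) (nat_lit 6674))))) (.a (.f (nat_lit 593) (nat_lit 625) (nat_lit 4592) (.f (nat_lit 595) (nat_lit 564) (nat_lit 2608) (.f (nat_lit 627) (nat_lit 628) (nat_lit 592) (.d (nat_lit 591) (nat_lit 562) (nat_lit 2607) (nat_lit 626) (nat_lit 591))))) (.f (nat_lit 593) (nat_lit 625) (nat_lit 4592) (.f (nat_lit 595) (nat_lit 564) (nat_lit 2608) (.f (nat_lit 627) (nat_lit 628) (nat_lit 592) (.f (nat_lit 562) (nat_lit 591) (nat_lit 2607) (.d (nat_lit 530) (nat_lit 498) (nat_lit 4594) (nat_lit 659) (nat_lit 7698)))))))))))) (.a (.p (nat_lit 595) (.a (.f (nat_lit 623) (nat_lit 591) (nat_lit 5615) (.f (nat_lit 624) (nat_lit 655) (nat_lit 5647) (.f (nat_lit 625) (nat_lit 657) (nat_lit 4624) (.f (nat_lit 626) (nat_lit 594) (nat_lit 2639) (.f (nat_lit 627) (nat_lit 596) (nat_lit 2640) (.d (nat_lit 659) (nat_lit 658) (nat_lit 623) (nat_lit 660) (nat_lit 624))))))) (.a (.p (nat_lit 531) (.a (.f (nat_lit 596) (nat_lit 628) (nat_lit 4595) (.f (nat_lit 467) (nat_lit 564) (nat_lit 4563) (.d (nat_lit 594) (nat_lit 562) (nat_lit 5586) (nat_lit 626) (nat_lit 5618)))) (.a (.f (nat_lit 500) (nat_lit 468) (nat_lit 6611) (.f (nat_lit 627) (nat_lit 532) (nat_lit 6643) (.d (nat_lit 626) (nat_lit 594) (nat_lit 5618) (nat_lit 658) (nat_lit 5650)))) (.f (nat_lit 498) (nat_lit 466) (nat_lit 7634) (.f (nat_lit 627) (nat_lit 530) (nat_lit 7666) (.d (nat_lit 500) (nat_lit 468) (nat_lit 6611) (nat_lit 532) (nat_lit 6643))))))) (.a (.p (nat_lit 531) (.a (.f (nat_lit 498) (nat_lit 466) (nat_lit 7634) (.f (nat_lit 627) (nat_lit 530) (nat_lit 7666) (.d (nat_lit 500) (nat_lit 468) (nat_lit 6611) (nat_lit 532) (nat_lit 6643)))) (.a (.f (nat_lit 596) (nat_lit 628) (nat_lit 4595) (.f (nat_lit 467) (nat_lit 564) (nat_lit 4563) (.d (nat_lit 468) (nat_lit 436) (nat_lit 6579) (nat_lit 500) (nat_lit 6611)))) (.f (nat_lit 498) (nat_lit 466) (nat_lit 7634) (.f (nat_lit 627) (nat_lit 530) (nat_lit 7666) (.d (nat_lit 628) (nat_lit 596) (nat_lit 4595) (nat_lit 660) (nat_lit 4627))))))) (.a (.p (nat_lit 467) (.a (.f (nat_lit 431) (nat_lit 463) (nat_lit 7599) (.f (nat_lit 432) (nat_lit 399) (nat_lit 7567) (.f (nat_lit 433) (nat_lit 401) (nat_lit 6544) (.f (nat_lit 434) (nat_lit 466) (nat_lit 431) (.f (nat_lit 435) (nat_lit 468) (nat_lit 432) (.d (nat_lit 403) (nat_lit 402) (nat_lit 2447) (nat_lit 404) (nat_lit 2448))))))) (.f (nat_lit 623) (nat_lit 591) (nat_lit 5615) (.f (nat_lit 624) (nat_lit 655) (nat_lit 5647) (.f (nat_lit 625) (nat_lit 657) (nat_lit 4624) (.f (nat_lit 594) (nat_lit 626) (nat_lit 2639) (.f (nat_lit 531) (nat_lit 562) (nat_lit 5586) (.d (nat_lit 596) (nat_lit 564) (nat_lit 4563) (nat_lit 628) (nat_lit 4595))))))))) (.f (nat_lit 623) (nat_lit 591) (nat_lit 5615) (.f (nat_lit 624) (nat_lit 655) (nat_lit 5647) (.f (nat_lit 625) (nat_lit 657) (nat_lit 4624) (.f (nat_lit 626) (nat_lit 594) (nat_lit 2639) (.f (nat_lit 659) (nat_lit 658) (nat_lit 623) (.f (nat_lit 627) (nat_lit 660) (nat_lit 624) (.f (nat_lit 530) (nat_lit 562) (nat_lit 7698) (.f (nat_lit 531) (nat_lit 498) (nat_lit 7666) (.d (nat_lit 532) (nat_lit 500) (nat_lit 6643) (nat_lit 564) (nat_lit 6675))))))))))))))) (.a (.p (nat_lit 594) (.a (.f (nat_lit 591) (nat_lit 623) (nat_lit 5615) (.f (nat_lit 593) (nat_lit 562) (nat_lit 2607) (.f (nat_lit 595) (nat_lit 564) (nat_lit 2608) (.d (nat_lit 627) (nat_lit 626) (nat_lit 591) (nat_lit 628) (nat_lit 592))))) (.a s104939 (.a (.f (nat_lit 623) (nat_lit 591) (nat_lit 5615) (.f (nat_lit 624) (nat_lit 655) (nat_lit 5647) (.f (nat_lit 595) (nat_lit 593) (nat_lit 1615) (.f (nat_lit 531) (nat_lit 626) (nat_lit 5618) (.f (nat_lit 596) (nat_lit 628) (nat_lit 4595) (.f (nat_lit 564) (nat_lit 467) (nat_lit 4563) (.f (nat_lit 500) (nat_lit 468) (nat_lit 6611) (.f (nat_lit 532) (nat_lit 627) (nat_lit 5619) (.f (nat_lit 501) (nat_lit 469) (nat_lit 6612) (.d (nat_lit 502) (nat_lit 503) (nat_lit 1523) (nat_lit 530) (nat_lit 1522))))))))))) (.a (.f (nat_lit 591) (nat_lit 623) (nat_lit 5615) (.f (nat_lit 562) (nat_lit 593) (nat_lit 2607) (.f (nat_lit 531) (nat_lit 467) (nat_lit 5586) (.d (nat_lit 626) (nat_lit 530) (nat_lit 6642) (nat_lit 658) (nat_lit 6674))))) (.f (nat_lit 591) (nat_lit 623) (nat_lit 5615) (.f (nat_lit 593) (nat_lit 562) (nat_lit 2607) (.f (nat_lit 595) (nat_lit 564) (nat_lit 2608) (.f (nat_lit 628) (nat_lit 627) (nat_lit 592) (.d (nat_lit 596) (nat_lit 531) (nat_lit 4595) (nat_lit 629) (nat_lit 593))))))))))) (.p (nat_lit 595) (.a (.f (nat_lit 593) (nat_lit 625) (nat_lit 4592) (.f (nat_lit 594) (nat_lit 564) (nat_lit 2608) (.f (nat_lit 531) (nat_lit 626) (nat_lit 5618) (.d (nat_lit 628) (nat_lit 596) (nat_lit 4595) (nat_lit 627) (nat_lit 592))))) (.a (.p (nat_lit 531) (.a (.f (nat_lit 596) (nat_lit 628) (nat_lit 4595) (.f (nat_lit 467) (nat_lit 564) (nat_lit 4563) (.d (nat_lit 594) (nat_lit 562) (nat_lit 5586) (nat_lit 626) (nat_lit 5618)))) (.a (.f (nat_lit 500) (nat_lit 468) (nat_lit 6611) (.f (nat_lit 627) (nat_lit 532) (nat_lit 6643) (.d (nat_lit 626) (nat_lit 594) (nat_lit 5618) (nat_lit 658) (nat_lit 5650)))) (.f (nat_lit 498) (nat_lit 466) (nat_lit 7634) (.f (nat_lit 627) (nat_lit 530) (nat_lit 7666) (.d (nat_lit 500) (nat_lit 468) (nat_lit 6611) (nat_lit 532) (nat_lit 6643))))))) (.a (.p (nat_lit 531) (.a (.f (nat_lit 498) (nat_lit 466) (nat_lit 7634) (.f (nat_lit 627) (nat_lit 530) (nat_lit 7666) (.d (nat_lit 500) (nat_lit 468) (nat_lit 6611) (nat_lit 532) (nat_lit 6643)))) (.a (.f (nat_lit 596) (nat_lit 628) (nat_lit 4595) (.f (nat_lit 467) (nat_lit 564) (nat_lit 4563) (.d (nat_lit 468) (nat_lit 436) (nat_lit 6579) (nat_lit 500) (nat_lit 6611)))) (.f (nat_lit 498) (nat_lit 466) (nat_lit 7634) (.f (nat_lit 627) (nat_lit 530) (nat_lit 7666) (.d (nat_lit 628) (nat_lit 596) (nat_lit 4595) (nat_lit 660) (nat_lit 4627))))))) (.a (.f (nat_lit 625) (nat_lit 593) (nat_lit 4592) (.f (nat_lit 624) (nat_lit 657) (nat_lit 4624) (.f (nat_lit 623) (nat_lit 655) (nat_lit 5647) (.f (nat_lit 626) (nat_lit 594) (nat_lit 2639) (.f (nat_lit 627) (nat_lit 596) (nat_lit 2640) (.d (nat_lit 659) (nat_lit 658) (nat_lit 623) (nat_lit 660) (nat_lit 624))))))) (.f (nat_lit 593) (nat_lit 625) (nat_lit 4592) (.f (nat_lit 594) (nat_lit 564) (nat_lit 2608) (.f (nat_lit 531) (nat_lit 626) (nat_lit 5618) (.f (nat_lit 467) (nat_lit 562) (nat_lit 5586) (.d (nat_lit 468) (nat_lit 436) (nat_lit 6579) (nat_lit 500) (nat_lit 6611)))))))))))))))) (.a (.p (nat_lit 595) (.a (.f (nat_lit 593) (nat_lit 561) (nat_lit 4560) (.f (nat_lit 592) (nat_lit 625) (nat_lit 4592) (.f (nat_lit 594) (nat_lit 564) (nat_lit 2608) (.f (nat_lit 531) (nat_lit 626) (nat_lit 5618) (.d (nat_lit 628) (nat_lit 596) (nat_lit 4595) (nat_lit 627) (nat_lit 592)))))) (.a (.p (nat_lit 531) (.a (.f (nat_lit 498) (nat_lit 466) (nat_lit 7634) (.f (nat_lit 627) (nat_lit 530) (nat_lit 7666) (.d (nat_lit 500) (nat_lit 468) (nat_lit 6611) (nat_lit 532) (nat_lit 6643)))) (.a (.f (nat_lit 500) (nat_lit 468) (nat_lit 6611) (.f (nat_lit 627) (nat_lit 532) (nat_lit 6643) (.d (nat_lit 628) (nat_lit 596) (nat_lit 4595) (nat_lit 660) (nat_lit 4627)))) (.a (.f (nat_lit 596) (nat_lit 628) (nat_lit 4595) (.f (nat_lit 467) (nat_lit 564) (nat_lit 4563) (.d (nat_lit 468) (nat_lit 436) (nat_lit 6579) (nat_lit 500) (nat_lit 6611)))) (.f (nat_lit 498) (nat_lit 466) (nat_lit 7634) (.f (nat_lit 627) (nat_lit 530) (nat_lit 7666) (.d (nat_lit 628) (nat_lit 596) (nat_lit 4595) (nat_lit 660) (nat_lit 4627)))))))) (.a (.f (nat_lit 593) (nat_lit 561) (nat_lit 4560) (.f (nat_lit 592) (nat_lit 625) (nat_lit 4592) (.f (nat_lit 594) (nat_lit 564) (nat_lit 2608) (.d (nat_lit 623) (nat_lit 591) (nat_lit 5615) (nat_lit 624) (nat_lit 1615))))) (.f (nat_lit 593) (nat_lit 561) (nat_lit 4560) (.f (nat_lit 592) (nat_lit 625) (nat_lit 4592) (.f (nat_lit 623) (nat_lit 591) (nat_lit 5615) (.d (nat_lit 624) (nat_lit 594) (nat_lit 1615) (nat_lit 655) (nat_lit 5647))))))))) (.a (.f (nat_lit 561) (nat_lit 593) (nat_lit 4560) (.f (nat_lit 562) (nat_lit 527) (nat_lit 3599) (.f (nat_lit 531) (nat_lit 532) (nat_lit 2576) (.f (nat_lit 467) (nat_lit 594) (nat_lit 5586) (.f (nat_lit 435) (nat_lit 530) (nat_lit 5554) (.d (nat_lit 436) (nat_lit 404) (nat_lit 6547) (nat_lit 468) (nat_lit 6579))))))) (.f (nat_lit 561) (nat_lit 593) (nat_lit 4560) (.f (nat_lit 562) (nat_lit 527) (nat_lit 3599) (.f (nat_lit 531) (nat_lit 532) (nat_lit 2576) (.f (nat_lit 595) (nat_lit 596) (nat_lit 560) (.f (nat_lit 466) (nat_lit 498) (nat_lit 7634) (.f (nat_lit 467) (nat_lit 434) (nat_lit 7602) (.d (nat_lit 468) (nat_lit 436) (nat_lit 6579) (nat_lit 500) (nat_lit 6611))))))))))))))))))))) (.a (.p (nat_lit 563) (.a s104155 (.a (.p (nat_lit 561) (.a (.f (nat_lit 562) (nat_lit 527) (nat_lit 3599) (.f (nat_lit 531) (nat_lit 532) (nat_lit 2576) (.f (nat_lit 595) (nat_lit 596) (nat_lit 560) (.d (nat_lit 594) (nat_lit 467) (nat_lit 5586) (nat_lit 626) (nat_lit 5618))))) (.f (nat_lit 593) (nat_lit 464) (nat_lit 4560) (.d (nat_lit 625) (nat_lit 592) (nat_lit 4592) (nat_lit 657) (nat_lit 7696))))) (.a (.p (nat_lit 592) (.a (.f (nat_lit 593) (nat_lit 625) (nat_lit 4592) (.f (nat_lit 561) (nat_lit 464) (nat_lit 4560) (.d (nat_lit 562) (nat_lit 564) (nat_lit 1584) (nat_lit 591) (nat_lit 1583)))) (.a (.f (nat_lit 591) (nat_lit 623) (nat_lit 5615) (.f (nat_lit 465) (nat_lit 497) (nat_lit 6608) (.f (nat_lit 464) (nat_lit 433) (nat_lit 6576) (.f (nat_lit 431) (nat_lit 463) (nat_lit 7599) (.f (nat_lit 432) (nat_lit 399) (nat_lit 7567) (.f (nat_lit 467) (nat_lit 466) (nat_lit 3503) (.f (nat_lit 562) (nat_lit 561) (nat_lit 1583) (.f (nat_lit 531) (nat_lit 594) (nat_lit 5586) (.f (nat_lit 435) (nat_lit 530) (nat_lit 5554) (.d (nat_lit 564) (nat_lit 532) (nat_lit 4531) (nat_lit 596) (nat_lit 4563))))))))))) (.a (.f (nat_lit 625) (nat_lit 593) (nat_lit 4592) (.f (nat_lit 624) (nat_lit 657) (nat_lit 4624) (.d (nat_lit 623) (nat_lit 591) (nat_lit 5615) (nat_lit 655) (nat_lit 5647)))) (.f (nat_lit 593) (nat_lit 625) (nat_lit 4592) (.f (nat_lit 464) (nat_lit 561) (nat_lit 4560) (.d (nat_lit 465) (nat_lit 433) (nat_lit 6576) (nat_lit 497) (nat_lit 6608)))))))) (.a s105143 (.a (.p (nat_lit 467) (.a (.p (nat_lit 592) (.a (.f (nat_lit 465) (nat_lit 497) (nat_lit 6608) (.f (nat_lit 464) (nat_lit 433) (nat_lit 6576) (.f (nat_lit 466) (nat_lit 500) (nat_lit 464) (.d (nat_lit 431) (nat_lit 432) (nat_lit 3503) (nat_lit 463) (nat_lit 7599))))) (.f (nat_lit 625) (nat_lit 593) (nat_lit 4592) (.f (nat_lit 624) (nat_lit 657) (nat_lit 4624) (.d (nat_lit 623) (nat_lit 591) (nat_lit 5615) (nat_lit 655) (nat_lit 5647)))))) (.a (.p (nat_lit 464) (.a (.f (nat_lit 431) (nat_lit 463) (nat_lit 7599) (.f (nat_lit 432) (nat_lit 399) (nat_lit 7567) (.f (nat_lit 433) (nat_lit 401) (nat_lit 6544) (.f (nat_lit 434) (nat_lit 466) (nat_lit 431) (.f (nat_lit 435) (nat_lit 468) (nat_lit 432) (.d (nat_lit 403) (nat_lit 402) (nat_lit 2447) (nat_lit 404) (nat_lit 2448))))))) (.a (.f (nat_lit 465) (nat_lit 433) (nat_lit 6576) (.f (nat_lit 466) (nat_lit 500) (nat_lit 464) (.f (nat_lit 531) (nat_lit 434) (nat_lit 7602) (.d (nat_lit 436) (nat_lit 435) (nat_lit 2480) (nat_lit 468) (nat_lit 6579))))) (.a (.f (nat_lit 431) (nat_lit 463) (nat_lit 7599) (.f (nat_lit 432) (nat_lit 399) (nat_lit 7567) (.f (nat_lit 466) (nat_lit 465) (nat_lit 3503) (.f (nat_lit 531) (nat_lit 434) (nat_lit 7602) (.f (nat_lit 468) (nat_lit 436) (nat_lit 6579) (.f (nat_lit 500) (nat_lit 595) (nat_lit 6611) (.f (nat_lit 564) (nat_lit 596) (nat_lit 4563) (.f (nat_lit 532) (nat_lit 435) (nat_lit 4531) (.f (nat_lit 565) (nat_lit 597) (nat_lit 4564) (.d (nat_lit 566) (nat_lit 530) (nat_lit 3602) (nat_lit 567) (nat_lit 3603))))))))))) (.f (nat_lit 433) (nat_lit 465) (nat_lit 6576) (.f (nat_lit 432) (nat_lit 401) (nat_lit 6544) (.d (nat_lit 431) (nat_lit 399) (nat_lit 7567) (nat_lit 463) (nat_lit 7599)))))))) (.a (.p (nat_lit 531) (.a (.f (nat_lit 564) (nat_lit 596) (nat_lit 4563) (.f (nat_lit 435) (nat_lit 532) (nat_lit 4531) (.d (nat_lit 562) (nat_lit 530) (nat_lit 5554) (nat_lit 594) (nat_lit 5586)))) (.a (.f (nat_lit 564) (nat_lit 596) (nat_lit 4563) (.f (nat_lit 435) (nat_lit 532) (nat_lit 4531) (.d (nat_lit 436) (nat_lit 404) (nat_lit 6547) (nat_lit 468) (nat_lit 6579)))) (.a (.f (nat_lit 562) (nat_lit 594) (nat_lit 5586) (.f (nat_lit 435) (nat_lit 530) (nat_lit 5554) (.d (nat_lit 436) (nat_lit 404) (nat_lit 6547) (nat_lit 468) (nat_lit 6579)))) (.f (nat_lit 468) (nat_lit 436) (nat_lit 6579) (.f (nat_lit 466) (nat_lit 434) (nat_lit 7602) (.f (nat_lit 500) (nat_lit 595) (nat_lit 6611) (.d (nat_lit 465) (nat_lit 497) (nat_lit 1488) (nat_lit 501) (nat_lit 465))))))))) (.a (.p (nat_lit 531) (.a (.f (nat_lit 564) (nat_lit 596) (nat_lit 4563) (.f (nat_lit 435) (nat_lit 532) (nat_lit 4531) (.d (nat_lit 562) (nat_lit 530) (nat_lit 5554) (nat_lit 594) (nat_lit 5586)))) (.a (.f (nat_lit 564) (nat_lit 596) (nat_lit 4563) (.f (nat_lit 435) (nat_lit 532) (nat_lit 4531) (.d (nat_lit 436) (nat_lit 404) (nat_lit 6547) (nat_lit 468) (nat_lit 6579)))) (.a (.f (nat_lit 562) (nat_lit 594) (nat_lit 5586) (.f (nat_lit 435) (nat_lit 530) (nat_lit 5554) (.d (nat_lit 436) (nat_lit 404) (nat_lit 6547) (nat_lit 468) (nat_lit 6579)))) (.f (nat_lit 468) (nat_lit 436) (nat_lit 6579) (.f (nat_lit 595) (nat_lit 500) (nat_lit 6611) (.d (nat_lit 594) (nat_lit 562) (nat_lit 5586) (nat_lit 626) (nat_lit 5618)))))))) (.p (nat_lit 592) (.a (.f (nat_lit 625) (nat_lit 593) (nat_lit 4592) (.f (nat_lit 624) (nat_lit 657) (nat_lit 4624) (.d (nat_lit 623) (nat_lit 591) (nat_lit 5615) (nat_lit 655) (nat_lit 5647)))) (.f (nat_lit 465) (nat_lit 497) (nat_lit 6608) (.f (nat_lit 464) (nat_lit 433) (nat_lit 6576) (.f (nat_lit 431) (nat_lit 463) (nat_lit 7599) (.d (nat_lit 432) (nat_lit 399) (nat_lit 7567) (nat_lit 466) (nat_lit 3503)))))))))))) (.a (.p (nat_lit 531) (.a (.p (nat_lit 595) (.a (.f (nat_lit 596) (nat_lit 628) (nat_lit 4595) (.f (nat_lit 564) (nat_lit 467) (nat_lit 4563) (.f (nat_lit 594) (nat_lit 626) (nat_lit 5618) (.d (nat_lit 593) (nat_lit 561) (nat_lit 3632) (nat_lit 592) (nat_lit 2608))))) (.a (.f (nat_lit 500) (nat_lit 468) (nat_lit 6611) (.f (nat_lit 627) (nat_lit 532) (nat_lit 6643) (.d (nat_lit 626) (nat_lit 594) (nat_lit 5618) (nat_lit 658) (nat_lit 5650)))) (.f (nat_lit 500) (nat_lit 468) (nat_lit 6611) (.f (nat_lit 627) (nat_lit 532) (nat_lit 6643) (.d (nat_lit 628) (nat_lit 596) (nat_lit 4595) (nat_lit 660) (nat_lit 4627))))))) (.a s105091 (.a (.p (nat_lit 592) (.a (.f (nat_lit 623) (nat_lit 591) (nat_lit 5615) (.f (nat_lit 624) (nat_lit 655) (nat_lit 5647) (.d (nat_lit 625) (nat_lit 593) (nat_lit 4592) (nat_lit 657) (nat_lit 4624)))) (.f (nat_lit 465) (nat_lit 497) (nat_lit 6608) (.f (nat_lit 464) (nat_lit 433) (nat_lit 6576) (.f (nat_lit 431) (nat_lit 463) (nat_lit 7599) (.f (nat_lit 432) (nat_lit 399) (nat_lit 7567) (.f (nat_lit 467) (nat_lit 466) (nat_lit 3503) (.f (nat_lit 564) (nat_lit 596) (nat_lit 4563) (.f (nat_lit 435) (nat_lit 532) (nat_lit 4531) (.d (nat_lit 436) (nat_lit 404) (nat_lit 6547) (nat_lit 468) (nat_lit 6579))))))))))) (.a (.p (nat_lit 464) (.a (.f (nat_lit 593) (nat_lit 561) (nat_lit 4560) (.f (nat_lit 592) (nat_lit 625) (nat_lit 4592) (.f (nat_lit 623) (nat_lit 591) (nat_lit 5615) (.f (nat_lit 624) (nat_lit 655) (nat_lit 5647) (.f (nat_lit 595) (nat_lit 594) (nat_lit 1615) (.f (nat_lit 500) (nat_lit 468) (nat_lit 6611) (.f (nat_lit 627) (nat_lit 532) (nat_lit 6643) (.d (nat_lit 628) (nat_lit 596) (nat_lit 4595) (nat_lit 660) (nat_lit 4627))))))))) (.f (nat_lit 433) (nat_lit 465) (nat_lit 6576) (.f (nat_lit 432) (nat_lit 401) (nat_lit 6544) (.d (nat_lit 431) (nat_lit 399) (nat_lit 7567) (nat_lit 463) (nat_lit 7599)))))) (.a (.p (nat_lit 592) (.a (.f (nat_lit 623) (nat_lit 591) (nat_lit 5615) (.f (nat_lit 624) (nat_lit 655) (nat_lit 5647) (.d (nat_lit 625) (nat_lit 593) (nat_lit 4592) (nat_lit 657) (nat_lit 4624)))) (.f (nat_lit 465) (nat_lit 497) (nat_lit 6608) (.f (nat_lit 464) (nat_lit 433) (nat_lit 6576) (.f (nat_lit 431) (nat_lit 463) (nat_lit 7599) (.f (nat_lit 432) (nat_lit 399) (nat_lit 7567) (.f (nat_lit 467) (nat_lit 466) (nat_lit 3503) (.f (nat_lit 436) (nat_lit 468) (nat_lit 6579) (.f (nat_lit 435) (nat_lit 404) (nat_lit 6547) (.f (nat_lit 402) (nat_lit 434) (nat_lit 7570) (.f (nat_lit 403) (nat_lit 370) (nat_lit 7538) (.d (nat_lit 532) (nat_lit 500) (nat_lit 4499) (nat_lit 564) (nat_lit 4531))))))))))))) (.a (.p (nat_lit 592) (.a (.f (nat_lit 623) (nat_lit 591) (nat_lit 5615) (.f (nat_lit 624) (nat_lit 655) (nat_lit 5647) (.d (nat_lit 625) (nat_lit 593) (nat_lit 4592) (nat_lit 657) (nat_lit 4624)))) (.f (nat_lit 465) (nat_lit 497) (nat_lit 6608) (.f (nat_lit 464) (nat_lit 433) (nat_lit 6576) (.f (nat_lit 431) (nat_lit 463) (nat_lit 7599) (.f (nat_lit 432) (nat_lit 399) (nat_lit 7567) (.f (nat_lit 467) (nat_lit 466) (nat_lit 3503) (.f (nat_lit 564) (nat_lit 596) (nat_lit 4563) (.f (nat_lit 435) (nat_lit 532) (nat_lit 4531) (.f (nat_lit 402) (nat_lit 434) (nat_lit 7570) (.f (nat_lit 403) (nat_lit 370) (nat_lit 7538) (.d (nat_lit 404) (nat_lit 372) (nat_lit 6515) (nat_lit 436) (nat_lit 6547))))))))))))) (.p (nat_lit 592) (.a (.f (nat_lit 623) (nat_lit 591) (nat_lit 5615) (.f (nat_lit 624) (nat_lit 655) (nat_lit 5647) (.d (nat_lit 625) (nat_lit 593) (nat_lit 4592) (nat_lit 657) (nat_lit 4624)))) (.f (nat_lit 465) (nat_lit 497) (nat_lit 6608) (.f (nat_lit 464) (nat_lit 433) (nat_lit 6576) (.f (nat_lit 431) (nat_lit 463) (nat_lit 7599) (.f (nat_lit 432) (nat_lit 399) (nat_lit 7567) (.f (nat_lit 467) (nat_lit 466) (nat_lit 3503) (.f (nat_lit 468) (nat_lit 436) (nat_lit 6579) (.f (nat_lit 595) (nat_lit 500) (nat_lit 6611) (.d (nat_lit 596) (nat_lit 564) (nat_lit 4563) (nat_lit 628) (nat_lit 4595)))))))))))))))))) (.a (.p (nat_lit 464) (.a (.f (nat_lit 433) (nat_lit 465) (nat_lit 6576) (.f (nat_lit 432) (nat_lit 401) (nat_lit 6544) (.d (nat_lit 431) (nat_lit 399) (nat_lit 7567) (nat_lit 463) (nat_lit 7599)))) (.f (nat_lit 561) (nat_lit 593) (nat_lit 4560) (.f (nat_lit 562) (nat_lit 527) (nat_lit 3599) (.f (nat_lit 531) (nat_lit 532) (nat_lit 2576) (.f (nat_lit 596) (nat_lit 595) (nat_lit 560) (.d (nat_lit 564) (nat_lit 467) (nat_lit 4563) (nat_lit 597) (nat_lit 561)))))))) (.p (nat_lit 464) (.a (.f (nat_lit 593) (nat_lit 561) (nat_lit 4560) (.f (nat_lit 592) (nat_lit 625) (nat_lit 4592) (.f (nat_lit 591) (nat_lit 623) (nat_lit 5615) (.f (nat_lit 594) (nat_lit 562) (nat_lit 2607) (.f (nat_lit 595) (nat_lit 564) (nat_lit 2608) (.d (nat_lit 627) (nat_lit 626) (nat_lit 591) (nat_lit 628) (nat_lit 592))))))) (.f (nat_lit 433) (nat_lit 465) (nat_lit 6576) (.f (nat_lit 432) (nat_lit 401) (nat_lit 6544) (.d (nat_lit 431) (nat_lit 399) (nat_lit 7567) (nat_lit 463) (nat_lit 7599)))))))))))))) (.a (.p (nat_lit 497) (.a (.f (nat_lit 592) (nat_lit 465) (nat_lit 6608) (.f (nat_lit 593) (nat_lit 625) (nat_lit 4592) (.f (nat_lit 591) (nat_lit 623) (nat_lit 5615) (.f (nat_lit 561) (nat_lit 464) (nat_lit 4560) (.d (nat_lit 562) (nat_lit 563) (nat_lit 1583) (nat_lit 590) (nat_lit 2606)))))) (.a (.f (nat_lit 465) (nat_lit 592) (nat_lit 6608) (.d (nat_lit 433) (nat_lit 401) (nat_lit 5520) (nat_lit 464) (nat_lit 6576))) (.a (.f (nat_lit 592) (nat_lit 465) (nat_lit 6608) (.f (nat_lit 625) (nat_lit 593) (nat_lit 4592) (.f (nat_lit 624) (nat_lit 657) (nat_lit 4624) (.d (nat_lit 623) (nat_lit 591) (nat_lit 5615) (nat_lit 655) (nat_lit 5647))))) (.a (.f (nat_lit 498) (nat_lit 527) (nat_lit 1519) (.f (nat_lit 464) (nat_lit 463) (nat_lit 3535) (.f (nat_lit 531) (nat_lit 532) (nat_lit 496) (.f (nat_lit 467) (nat_lit 468) (nat_lit 2512) (.f (nat_lit 593) (nat_lit 561) (nat_lit 4560) (.f (nat_lit 592) (nat_lit 625) (nat_lit 4592) (.f (nat_lit 623) (nat_lit 591) (nat_lit 5615) (.f (nat_lit 624) (nat_lit 655) (nat_lit 5647) (.f (nat_lit 594) (nat_lit 595) (nat_lit 1615) (.d (nat_lit 562) (nat_lit 530) (nat_lit 6610) (nat_lit 563) (nat_lit 5586))))))))))) (.f (nat_lit 498) (nat_lit 527) (nat_lit 1519) (.f (nat_lit 464) (nat_lit 463) (nat_lit 3535) (.f (nat_lit 433) (nat_lit 465) (nat_lit 6576) (.f (nat_lit 432) (nat_lit 401) (nat_lit 6544) (.f (nat_lit 399) (nat_lit 431) (nat_lit 7567) (.f (nat_lit 400) (nat_lit 367) (nat_lit 7535) (.f (nat_lit 467) (nat_lit 468) (nat_lit 2512) (.f (nat_lit 435) (nat_lit 434) (nat_lit 3471) (.f (nat_lit 531) (nat_lit 532) (nat_lit 496) (.d (nat_lit 530) (nat_lit 403) (nat_lit 5522) (nat_lit 562) (nat_lit 5554)))))))))))))))) (.a (.p (nat_lit 592) (.a (.f (nat_lit 625) (nat_lit 593) (nat_lit 4592) (.f (nat_lit 624) (nat_lit 657) (nat_lit 4624) (.d (nat_lit 623) (nat_lit 591) (nat_lit 5615) (nat_lit 655) (nat_lit 5647)))) (.f (nat_lit 465) (nat_lit 497) (nat_lit 6608) (.f (nat_lit 464) (nat_lit 433) (nat_lit 6576) (.f (nat_lit 463) (nat_lit 431) (nat_lit 7599) (.f (nat_lit 466) (nat_lit 498) (nat_lit 463) (.f (nat_lit 467) (nat_lit 500) (nat_lit 464) (.d (nat_lit 435) (nat_lit 434) (nat_lit 2479) (nat_lit 436) (nat_lit 2480))))))))) (.a (.p (nat_lit 497) (.a (.f (nat_lit 498) (nat_lit 527) (nat_lit 1519) (.f (nat_lit 468) (nat_lit 467) (nat_lit 2512) (.f (nat_lit 500) (nat_lit 469) (nat_lit 2513) (.d (nat_lit 532) (nat_lit 531) (nat_lit 496) (nat_lit 533) (nat_lit 497))))) (.f (nat_lit 465) (nat_lit 592) (nat_lit 6608) (.d (nat_lit 433) (nat_lit 401) (nat_lit 5520) (nat_lit 464) (nat_lit 6576))))) (.p (nat_lit 563) (.a s104331 (.a (.p (nat_lit 464) (.a (.p (nat_lit 531) (.a (.f (nat_lit 561) (nat_lit 593) (nat_lit 4560) (.f (nat_lit 562) (nat_lit 532) (nat_lit 2576) (.f (nat_lit 595) (nat_lit 596) (nat_lit 560) (.d (nat_lit 594) (nat_lit 467) (nat_lit 5586) (nat_lit 626) (nat_lit 5618))))) (.a (.f (nat_lit 463) (nat_lit 431) (nat_lit 7599) (.f (nat_lit 498) (nat_lit 497) (nat_lit 3535) (.f (nat_lit 595) (nat_lit 466) (nat_lit 7634) (.f (nat_lit 627) (nat_lit 530) (nat_lit 7666) (.d (nat_lit 500) (nat_lit 468) (nat_lit 6611) (nat_lit 532) (nat_lit 6643)))))) (.a (.f (nat_lit 561) (nat_lit 593) (nat_lit 4560) (.f (nat_lit 562) (nat_lit 532) (nat_lit 2576) (.f (nat_lit 467) (nat_lit 594) (nat_lit 5586) (.f (nat_lit 435) (nat_lit 530) (nat_lit 5554) (.d (nat_lit 434) (nat_lit 402) (nat_lit 7570) (nat_lit 466) (nat_lit 7602)))))) (.f (nat_lit 463) (nat_lit 431) (nat_lit 7599) (.f (nat_lit 498) (nat_lit 497) (nat_lit 3535) (.f (nat_lit 595) (nat_lit 466) (nat_lit 7634) (.f (nat_lit 594) (nat_lit 626) (nat_lit 5618) (.f (nat_lit 596) (nat_lit 628) (nat_lit 4595) (.d (nat_lit 467) (nat_lit 562) (nat_lit 5586) (nat_lit 564) (nat_lit 4563))))))))))) (.a (.f (nat_lit 433) (nat_lit 465) (nat_lit 6576) (.f (nat_lit 432) (nat_lit 401) (nat_lit 6544) (.d (nat_lit 431) (nat_lit 399) (nat_lit 7567) (nat_lit 463) (nat_lit 7599)))) (.a (.p (nat_lit 498) (.a (.f (nat_lit 497) (nat_lit 463) (nat_lit 3535) (.f (nat_lit 531) (nat_lit 532) (nat_lit 496) (.f (nat_lit 467) (nat_lit 468) (nat_lit 2512) (.d (nat_lit 466) (nat_lit 434) (nat_lit 7602) (nat_lit 595) (nat_lit 7634))))) (.a (.f (nat_lit 465) (nat_lit 433) (nat_lit 6576) (.f (nat_lit 466) (nat_lit 463) (nat_lit 463) (.d (nat_lit 500) (nat_lit 467) (nat_lit 464) (nat_lit 501) (nat_lit 3537)))) (.a (.f (nat_lit 465) (nat_lit 433) (nat_lit 6576) (.f (nat_lit 500) (nat_lit 497) (nat_lit 3536) (.d (nat_lit 466) (nat_lit 467) (nat_lit 464) (nat_lit 501) (nat_lit 3537)))) (.f (nat_lit 497) (nat_lit 463) (nat_lit 3535) (.d (nat_lit 465) (nat_lit 433) (nat_lit 6576) (nat_lit 500) (nat_lit 3536))))))) (.p (nat_lit 531) (.a (.f (nat_lit 561) (nat_lit 593) (nat_lit 4560) (.f (nat_lit 562) (nat_lit 532) (nat_lit 2576) (.f (nat_lit 595) (nat_lit 596) (nat_lit 560) (.d (nat_lit 594) (nat_lit 467) (nat_lit 5586) (nat_lit 626) (nat_lit 5618))))) (.a (.f (nat_lit 433) (nat_lit 465) (nat_lit 6576) (.f (nat_lit 432) (nat_lit 401) (nat_lit 6544) (.f (nat_lit 399) (nat_lit 431) (nat_lit 7567) (.f (nat_lit 400) (nat_lit 367) (nat_lit 7535) (.f (nat_lit 434) (nat_lit 435) (nat_lit 3471) (.f (nat_lit 466) (nat_lit 467) (nat_lit 7602) (.d (nat_lit 498) (nat_lit 402) (nat_lit 4498) (nat_lit 530) (nat_lit 4530)))))))) (.f (nat_lit 561) (nat_lit 593) (nat_lit 4560) (.f (nat_lit 562) (nat_lit 532) (nat_lit 2576) (.f (nat_lit 595) (nat_lit 596) (nat_lit 560) (.f (nat_lit 498) (nat_lit 466) (nat_lit 7634) (.f (nat_lit 627) (nat_lit 530) (nat_lit 7666) (.f (nat_lit 660) (nat_lit 628) (nat_lit 4627) (.f (nat_lit 659) (nat_lit 692) (nat_lit 4659) (.d (nat_lit 658) (nat_lit 626) (nat_lit 5650) (nat_lit 690) (nat_lit 5682)))))))))))))))) (.a s104394 (.a s105143 (.a (.p (nat_lit 531) (.a s104239 (.a s104416 (.a s105091 (.a s104440 (.a (.p (nat_lit 595) (.a (.f (nat_lit 500) (nat_lit 468) (nat_lit 6611) (.f (nat_lit 627) (nat_lit 532) (nat_lit 6643) (.d (nat_lit 626) (nat_lit 594) (nat_lit 5618) (nat_lit 658) (nat_lit 5650)))) (.a (.f (nat_lit 500) (nat_lit 468) (nat_lit 6611) (.f (nat_lit 627) (nat_lit 532) (nat_lit 6643) (.d (nat_lit 628) (nat_lit 596) (nat_lit 4595) (nat_lit 660) (nat_lit 4627)))) (.a (.f (nat_lit 596) (nat_lit 628) (nat_lit 4595) (.f (nat_lit 467) (nat_lit 564) (nat_lit 4563) (.d (nat_lit 468) (nat_lit 436) (nat_lit 6579) (nat_lit 500) (nat_lit 6611)))) (.a (.f (nat_lit 596) (nat_lit 628) (nat_lit 4595) (.f (nat_lit 564) (nat_lit 467) (nat_lit 4563) (.f (nat_lit 626) (nat_lit 594) (nat_lit 5618) (.f (nat_lit 627) (nat_lit 658) (nat_lit 5650) (.d (nat_lit 532) (nat_lit 500) (nat_lit 5619) (nat_lit 659) (nat_lit 6675)))))) (.f (nat_lit 626) (nat_lit 594) (nat_lit 5618) (.f (nat_lit 627) (nat_lit 658) (nat_lit 5650) (.d (nat_lit 628) (nat_lit 596) (nat_lit 4595) (nat_lit 660) (nat_lit 4627))))))))) (.a (.p (nat_lit 498) (.a (.f (nat_lit 595) (nat_lit 466) (nat_lit 7634) (.f (nat_lit 532) (nat_lit 497) (nat_lit 496) (.d (nat_lit 627) (nat_lit 500) (nat_lit 6643) (nat_lit 530) (nat_lit 7666)))) (.a (.f (nat_lit 595) (nat_lit 466) (nat_lit 7634) (.f (nat_lit 627) (nat_lit 530) (nat_lit 7666) (.d (nat_lit 500) (nat_lit 468) (nat_lit 6611) (nat_lit 532) (nat_lit 6643)))) (.a (.d (nat_lit 497) (nat_lit 527) (nat_lit 1519) (nat_lit 532) (nat_lit 496)) (.f (nat_lit 595) (nat_lit 466) (nat_lit 7634) (.f (nat_lit 627) (nat_lit 530) (nat_lit 7666) (.d (nat_lit 626) (nat_lit 594) (nat_lit 5618) (nat_lit 658) (nat_lit 5650)))))))) (.a (.p (nat_lit 498) (.a (.f (nat_lit 595) (nat_lit 466) (nat_lit 7634) (.f (nat_lit 532) (nat_lit 497) (nat_lit 496) (.d (nat_lit 627) (nat_lit 500) (nat_lit 6643) (nat_lit 530) (nat_lit 7666)))) (.a (.f (nat_lit 595) (nat_lit 466) (nat_lit 7634) (.f (nat_lit 627) (nat_lit 530) (nat_lit 7666) (.d (nat_lit 626) (nat_lit 594) (nat_lit 5618) (nat_lit 658) (nat_lit 5650)))) (.d (nat_lit 497) (nat_lit 527) (nat_lit 1519) (nat_lit 532) (nat_lit 496))))) (.a s104443 (.p (nat_lit 498) (.a (.f (nat_lit 595) (nat_lit 466) (nat_lit 7634) (.f (nat_lit 627) (nat_lit 530) (nat_lit 7666) (.d (nat_lit 626) (nat_lit 594) (nat_lit 5618) (nat_lit 658) (nat_lit 5650)))) (.a (.f (nat_lit 497) (nat_lit 532) (nat_lit 496) (.f (nat_lit 467) (nat_lit 468) (nat_lit 2512) (.f (nat_lit 434) (nat_lit 466) (nat_lit 7602) (.f (nat_lit 435) (nat_lit 402) (nat_lit 7570) (.f (nat_lit 404) (nat_lit 436) (nat_lit 6547) (.d (nat_lit 403) (nat_lit 372) (nat_lit 6515) (nat_lit 530) (nat_lit 5522))))))) (.d (nat_lit 497) (nat_lit 527) (nat_lit 1519) (nat_lit 532) (nat_lit 496)))))))))))))) (.a (.p (nat_lit 464) (.a (.f (nat_lit 561) (nat_lit 593) (nat_lit 4560) (.f (nat_lit 562) (nat_lit 527) (nat_lit 3599) (.f (nat_lit 531) (nat_lit 532) (nat_lit 2576) (.f (nat_lit 467) (nat_lit 594) (nat_lit 5586) (.f (nat_lit 435) (nat_lit 530) (nat_lit 5554) (.d (nat_lit 436) (nat_lit 404) (nat_lit 6547) (nat_lit 468) (nat_lit 6579))))))) (.f (nat_lit 433) (nat_lit 465) (nat_lit 6576) (.f (nat_lit 432) (nat_lit 401) (nat_lit 6544) (.d (nat_lit 431) (nat_lit 399) (nat_lit 7567) (nat_lit 463) (nat_lit 7599)))))) (.a (.p (nat_lit 464) (.a (.f (nat_lit 433) (nat_lit 465) (nat_lit 6576) (.f (nat_lit 432) (nat_lit 401) (nat_lit 6544) (.d (nat_lit 431) (nat_lit 399) (nat_lit 7567) (nat_lit 463) (nat_lit 7599)))) (.f (nat_lit 561) (nat_lit 593) (nat_lit 4560) (.f (nat_lit 562) (nat_lit 527) (nat_lit 3599) (.f (nat_lit 531) (nat_lit 532) (nat_lit 2576) (.f (nat_lit 596) (nat_lit 595) (nat_lit 560) (.d (nat_lit 564) (nat_lit 467) (nat_lit 4563) (nat_lit 597) (nat_lit 561)))))))) (.a (.p (nat_lit 464) (.a (.f (nat_lit 561) (nat_lit 593) (nat_lit 4560) (.f (nat_lit 562) (nat_lit 527) (nat_lit 3599) (.f (nat_lit 463) (nat_lit 431) (nat_lit 7599) (.f (nat_lit 596) (nat_lit 595) (nat_lit 560) (.f (nat_lit 564) (nat_lit 597) (nat_lit 561) (.f (nat_lit 532) (nat_lit 533) (nat_lit 2577) (.f (nat_lit 467) (nat_lit 500) (nat_lit 7635) (.f (nat_lit 498) (nat_lit 497) (nat_lit 3535) (.f (nat_lit 530) (nat_lit 594) (nat_lit 6610) (.d (nat_lit 435) (nat_lit 403) (nat_lit 5522) (nat_lit 466) (nat_lit 6578))))))))))) (.a (.f (nat_lit 433) (nat_lit 465) (nat_lit 6576) (.f (nat_lit 432) (nat_lit 401) (nat_lit 6544) (.d (nat_lit 431) (nat_lit 399) (nat_lit 7567) (nat_lit 463) (nat_lit 7599)))) (.a (.f (nat_lit 561) (nat_lit 593) (nat_lit 4560) (.f (nat_lit 527) (nat_lit 562) (nat_lit 3599) (.f (nat_lit 498) (nat_lit 497) (nat_lit 1519) (.f (nat_lit 465) (nat_lit 433) (nat_lit 6576) (.f (nat_lit 466) (nat_lit 463) (nat_lit 463) (.d (nat_lit 500) (nat_lit 467) (nat_lit 464) (nat_lit 501) (nat_lit 3537))))))) (.f (nat_lit 561) (nat_lit 593) (nat_lit 4560) (.f (nat_lit 562) (nat_lit 527) (nat_lit 3599) (.f (nat_lit 433) (nat_lit 465) (nat_lit 6576) (.f (nat_lit 432) (nat_lit 401) (nat_lit 6544) (.f (nat_lit 431) (nat_lit 399) (nat_lit 7567) (.f (nat_lit 596) (nat_lit 595) (nat_lit 560) (.f (nat_lit 564) (nat_lit 597) (nat_lit 561) (.f (nat_lit 532) (nat_lit 533) (nat_lit 2577) (.f (nat_lit 467) (nat_lit 500) (nat_lit 7635) (.f (nat_lit 434) (nat_lit 466) (nat_lit 431) (.f (nat_lit 435) (nat_lit 468) (nat_lit 432) (.d (nat_lit 403) (nat_lit 402) (nat_lit 2447) (nat_lit 404) (nat_lit 2448))))))))))))))))) (.a (.p (nat_lit 464) (.a (.f (nat_lit 561) (nat_lit 593) (nat_lit 4560) (.f (nat_lit 562) (nat_lit 527) (nat_lit 3599) (.f (nat_lit 531) (nat_lit 532) (nat_lit 2576) (.f (nat_lit 595) (nat_lit 596) (nat_lit 560) (.f (nat_lit 498) (nat_lit 466) (nat_lit 7634) (.d (nat_lit 463) (nat_lit 431) (nat_lit 7599) (nat_lit 497) (nat_lit 3535))))))) (.a (.f (nat_lit 433) (nat_lit 465) (nat_lit 6576) (.f (nat_lit 432) (nat_lit 401) (nat_lit 6544) (.d (nat_lit 431) (nat_lit 399) (nat_lit 7567) (nat_lit 463) (nat_lit 7599)))) (.f (nat_lit 561) (nat_lit 593) (nat_lit 4560) (.f (nat_lit 562) (nat_lit 527) (nat_lit 3599) (.f (nat_lit 531) (nat_lit 532) (nat_lit 2576) (.f (nat_lit 595) (nat_lit 596) (nat_lit 560) (.f (nat_lit 498) (nat_lit 466) (nat_lit 7634) (.f (nat_lit 627) (nat_lit 530) (nat_lit 7666) (.d (nat_lit 626) (nat_lit 594) (nat_lit 5618) (nat_lit 658) (nat_lit 5650))))))))))) (.p (nat_lit 464) (.a (.f (nat_lit 561) (nat_lit 593) (nat_lit 4560) (.f (nat_lit 562) (nat_lit 527) (nat_lit 3599) (.f (nat_lit 595) (nat_lit 596) (nat_lit 560) (.f (nat_lit 463) (nat_lit 431) (nat_lit 7599) (.f (nat_lit 498) (nat_lit 497) (nat_lit 3535) (.d (nat_lit 466) (nat_lit 530) (nat_lit 4562) (nat_lit 531) (nat_lit 7634))))))) (.a (.f (nat_lit 433) (nat_lit 465) (nat_lit 6576) (.f (nat_lit 432) (nat_lit 401) (nat_lit 6544) (.d (nat_lit 431) (nat_lit 399) (nat_lit 7567) (nat_lit 463) (nat_lit 7599)))) (.a (.f (nat_lit 561) (nat_lit 593) (nat_lit 4560) (.f (nat_lit 527) (nat_lit 562) (nat_lit 3599) (.f (nat_lit 498) (nat_lit 497) (nat_lit 1519) (.f (nat_lit 465) (nat_lit 433) (nat_lit 6576) (.f (nat_lit 466) (nat_lit 463) (nat_lit 463) (.d (nat_lit 500) (nat_lit 467) (nat_lit 464) (nat_lit 501) (nat_lit 3537))))))) (.f (nat_lit 561) (nat_lit 593) (nat_lit 4560) (.f (nat_lit 562) (nat_lit 527) (nat_lit 3599) (.f (nat_lit 596) (nat_lit 595) (nat_lit 560) (.f (nat_lit 564) (nat_lit 597) (nat_lit 561) (.f (nat_lit 467) (nat_lit 531) (nat_lit 4563) (.f (nat_lit 465) (nat_lit 433) (nat_lit 6576) (.f (nat_lit 466) (nat_lit 500) (nat_lit 464) (.f (nat_lit 468) (nat_lit 497) (nat_lit 1488) (.d (nat_lit 436) (nat_lit 435) (nat_lit 2480) (nat_lit 437) (nat_lit 2481))))))))))))))))))))))))))))))))))) (.a (.p (nat_lit 592) (.a (.f (nat_lit 593) (nat_lit 625) (nat_lit 4592) (.f (nat_lit 591) (nat_lit 623) (nat_lit 5615) (.f (nat_lit 561) (nat_lit 464) (nat_lit 4560) (.d (nat_lit 562) (nat_lit 563) (nat_lit 1583) (nat_lit 590) (nat_lit 2606))))) (.a (.f (nat_lit 593) (nat_lit 625) (nat_lit 4592) (.f (nat_lit 464) (nat_lit 561) (nat_lit 4560) (.d (nat_lit 465) (nat_lit 433) (nat_lit 6576) (nat_lit 497) (nat_lit 6608)))) (.a (.f (nat_lit 465) (nat_lit 497) (nat_lit 6608) (.f (nat_lit 464) (nat_lit 433) (nat_lit 6576) (.d (nat_lit 463) (nat_lit 431) (nat_lit 7599) (nat_lit 495) (nat_lit 7631)))) (.f (nat_lit 625) (nat_lit 593) (nat_lit 4592) (.f (nat_lit 624) (nat_lit 657) (nat_lit 4624) (.d (nat_lit 623) (nat_lit 591) (nat_lit 5615) (nat_lit 655) (nat_lit 5647)))))))) (.a (.p (nat_lit 592) (.a (.f (nat_lit 495) (nat_lit 463) (nat_lit 7631) (.f (nat_lit 497) (nat_lit 465) (nat_lit 6608) (.f (nat_lit 527) (nat_lit 624) (nat_lit 7663) (.d (nat_lit 526) (nat_lit 498) (nat_lit 1518) (nat_lit 525) (nat_lit 2541))))) (.a (.f (nat_lit 625) (nat_lit 593) (nat_lit 4592) (.f (nat_lit 624) (nat_lit 657) (nat_lit 4624) (.d (nat_lit 623) (nat_lit 591) (nat_lit 5615) (nat_lit 655) (nat_lit 5647)))) (.f (nat_lit 465) (nat_lit 497) (nat_lit 6608) (.f (nat_lit 464) (nat_lit 433) (nat_lit 6576) (.d (nat_lit 463) (nat_lit 431) (nat_lit 7599) (nat_lit 495) (nat_lit 7631))))))) (.a (.p (nat_lit 592) (.a (.f (nat_lit 593) (nat_lit 625) (nat_lit 4592) (.f (nat_lit 464) (nat_lit 561) (nat_lit 4560) (.d (nat_lit 465) (nat_lit 433) (nat_lit 6576) (nat_lit 497) (nat_lit 6608)))) (.a (.f (nat_lit 495) (nat_lit 463) (nat_lit 7631) (.f (nat_lit 497) (nat_lit 465) (nat_lit 6608) (.f (nat_lit 527) (nat_lit 624) (nat_lit 7663) (.d (nat_lit 526) (nat_lit 498) (nat_lit 1518) (nat_lit 525) (nat_lit 2541))))) (.f (nat_lit 593) (nat_lit 625) (nat_lit 4592) (.f (nat_lit 464) (nat_lit 561) (nat_lit 4560) (.d (nat_lit 463) (nat_lit 431) (nat_lit 7599) (nat_lit 495) (nat_lit 7631))))))) (.a (.p (nat_lit 495) (.a (.p (nat_lit 464) (.a (.f (nat_lit 463) (nat_lit 431) (nat_lit 7599) (.f (nat_lit 465) (nat_lit 433) (nat_lit 6576) (.d (nat_lit 494) (nat_lit 466) (nat_lit 1486) (nat_lit 493) (nat_lit 2509)))) (.a (.f (nat_lit 431) (nat_lit 463) (nat_lit 7599) (.f (nat_lit 432) (nat_lit 399) (nat_lit 7567) (.f (nat_lit 401) (nat_lit 433) (nat_lit 6544) (.d (nat_lit 400) (nat_lit 369) (nat_lit 6512) (nat_lit 527) (nat_lit 5519))))) (.a (.f (nat_lit 465) (nat_lit 433) (nat_lit 6576) (.f (nat_lit 494) (nat_lit 493) (nat_lit 2509) (.d (nat_lit 466) (nat_lit 463) (nat_lit 1486) (nat_lit 467) (nat_lit 1487)))) (.a (.p (nat_lit 494) (.a (.f (nat_lit 463) (nat_lit 431) (nat_lit 7599) (.d (nat_lit 493) (nat_lit 465) (nat_lit 2509) (nat_lit 492) (nat_lit 2508))) (.a (.f (nat_lit 463) (nat_lit 431) (nat_lit 7599) (.f (nat_lit 493) (nat_lit 492) (nat_lit 2508) (.f (nat_lit 461) (nat_lit 460) (nat_lit 3532) (.f (nat_lit 462) (nat_lit 497) (nat_lit 461) (.f (nat_lit 525) (nat_lit 524) (nat_lit 1516) (.d (nat_lit 430) (nat_lit 398) (nat_lit 5517) (nat_lit 557) (nat_lit 6573))))))) (.a (.f (nat_lit 493) (nat_lit 465) (nat_lit 2509) (.d (nat_lit 492) (nat_lit 463) (nat_lit 2508) (nat_lit 527) (nat_lit 492))) (.a (.f (nat_lit 493) (nat_lit 465) (nat_lit 2509) (.f (nat_lit 527) (nat_lit 492) (nat_lit 492) (.f (nat_lit 525) (nat_lit 524) (nat_lit 1516) (.d (nat_lit 561) (nat_lit 526) (nat_lit 525) (nat_lit 593) (nat_lit 4560))))) (.f (nat_lit 431) (nat_lit 463) (nat_lit 7599) (.f (nat_lit 432) (nat_lit 399) (nat_lit 7567) (.f (nat_lit 527) (nat_lit 400) (nat_lit 5519) (.f (nat_lit 561) (nat_lit 593) (nat_lit 4560) (.f (nat_lit 526) (nat_lit 525) (nat_lit 525) (.f (nat_lit 497) (nat_lit 498) (nat_lit 1518) (.f (nat_lit 465) (nat_lit 466) (nat_lit 2510) (.f (nat_lit 462) (nat_lit 461) (nat_lit 3533) (.d (nat_lit 430) (nat_lit 398) (nat_lit 4494) (nat_lit 429) (nat_lit 429))))))))))))))) (.f (nat_lit 465) (nat_lit 433) (nat_lit 6576) (.f (nat_lit 494) (nat_lit 493) (nat_lit 2509) (.d (nat_lit 466) (nat_lit 467) (nat_lit 1487) (nat_lit 497) (nat_lit 2510))))))))) (.a (.p (nat_lit 464) (.a (.f (nat_lit 463) (nat_lit 431) (nat_lit 7599) (.f (nat_lit 465) (nat_lit 433) (nat_lit 6576) (.d (nat_lit 494) (nat_lit 466) (nat_lit 1486) (nat_lit 493) (nat_lit 2509)))) (.a (.p (nat_lit 432) (.a (.d (nat_lit 431) (nat_lit 399) (nat_lit 7567) (nat_lit 463) (nat_lit 7599)) (.a (.f (nat_lit 400) (nat_lit 527) (nat_lit 5519) (.f (nat_lit 368) (nat_lit 463) (nat_lit 5487) (.d (nat_lit 367) (nat_lit 335) (nat_lit 7503) (nat_lit 399) (nat_lit 7535)))) (.a (.f (nat_lit 400) (nat_lit 527) (nat_lit 5519) (.d (nat_lit 399) (nat_lit 367) (nat_lit 7535) (nat_lit 431) (nat_lit 7567))) (.f (nat_lit 463) (nat_lit 431) (nat_lit 7599) (.d (nat_lit 400) (nat_lit 368) (nat_lit 5487) (nat_lit 527) (nat_lit 5519))))))) (.a (.f (nat_lit 465) (nat_lit 433) (nat_lit 6576) (.f (nat_lit 494) (nat_lit 493) (nat_lit 2509) (.d (nat_lit 466) (nat_lit 463) (nat_lit 1486) (nat_lit 467) (nat_lit 1487)))) (.f (nat_lit 465) (nat_lit 433) (nat_lit 6576) (.f (nat_lit 494) (nat_lit 493) (nat_lit 2509) (.d (nat_lit 466) (nat_lit 467) (nat_lit 1487) (nat_lit 497) (nat_lit 2510)))))))) (.a (.p (nat_lit 494) (.a s105371 (.a s105373 (.a s105377 (.a s105383 (.a s105385 (.a s105387 (.a s105393 (.a s105399 (.p (nat_lit 464) (.a (.f (nat_lit 463) (nat_lit 431) (nat_lit 7599) (.d (nat_lit 493) (nat_lit 465) (nat_lit 2509) (nat_lit 492) (nat_lit 2508))) (.a (.f (nat_lit 463) (nat_lit 431) (nat_lit 7599) (.f (nat_lit 493) (nat_lit 492) (nat_lit 2508) (.f (nat_lit 461) (nat_lit 460) (nat_lit 3532) (.f (nat_lit 462) (nat_lit 497) (nat_lit 461) (.f (nat_lit 525) (nat_lit 524) (nat_lit 1516) (.d (nat_lit 430) (nat_lit 398) (nat_lit 5517) (nat_lit 557) (nat_lit 6573))))))) (.a (.f (nat_lit 493) (nat_lit 465) (nat_lit 2509) (.d (nat_lit 492) (nat_lit 463) (nat_lit 2508) (nat_lit 527) (nat_lit 492))) (.a (.f (nat_lit 493) (nat_lit 465) (nat_lit 2509) (.f (nat_lit 527) (nat_lit 492) (nat_lit 492) (.f (nat_lit 525) (nat_lit 524) (nat_lit 1516) (.d (nat_lit 561) (nat_lit 526) (nat_lit 525) (nat_lit 593) (nat_lit 4560))))) (.f (nat_lit 463) (nat_lit 431) (nat_lit 7599) (.f (nat_lit 433) (nat_lit 465) (nat_lit 6576) (.f (nat_lit 432) (nat_lit 401) (nat_lit 6544) (.d (nat_lit 400) (nat_lit 368) (nat_lit 5487) (nat_lit 527) (nat_lit 5519))))))))))))))))))) (.a (.p (nat_lit 494) (.a s105371 (.a s105373 (.a s105377 (.a s105383 (.a s105385 (.a s105387 (.a s105393 (.a s105399 (.p (nat_lit 464) (.a (.f (nat_lit 463) (nat_lit 431) (nat_lit 7599) (.d (nat_lit 493) (nat_lit 465) (nat_lit 2509) (nat_lit 492) (nat_lit 2508))) (.a (.f (nat_lit 463) (nat_lit 431) (nat_lit 7599) (.f (nat_lit 493) (nat_lit 492) (nat_lit 2508) (.f (nat_lit 461) (nat_lit 460) (nat_lit 3532) (.f (nat_lit 462) (nat_lit 497) (nat_lit 461) (.f (nat_lit 525) (nat_lit 524) (nat_lit 1516) (.d (nat_lit 430) (nat_lit 398) (nat_lit 5517) (nat_lit 557) (nat_lit 6573))))))) (.a (.f (nat_lit 493) (nat_lit 465) (nat_lit 2509) (.d (nat_lit 492) (nat_lit 463) (nat_lit 2508) (nat_lit 527) (nat_lit 492))) (.a (.f (nat_lit 493) (nat_lit 465) (nat_lit 2509) (.f (nat_lit 527) (nat_lit 492) (nat_lit 492) (.f (nat_lit 525) (nat_lit 524) (nat_lit 1516) (.d (nat_lit 561) (nat_lit 526) (nat_lit 525) (nat_lit 593) (nat_lit 4560))))) (.f (nat_lit 431) (nat_lit 463) (nat_lit 7599) (.f (nat_lit 433) (nat_lit 465) (nat_lit 6576) (.d (nat_lit 432) (nat_lit 399) (nat_lit 7567) (nat_lit 401) (nat_lit 6544)))))))))))))))))) (.a (.p (nat_lit 494) (.a s105377 (.a (.p (nat_lit 497) (.a (.f (nat_lit 465) (nat_lit 466) (nat_lit 2510) (.d (nat_lit 464) (nat_lit 433) (nat_lit 6576) (nat_lit 493) (nat_lit 2509))) (.a (.f (nat_lit 525) (nat_lit 526) (nat_lit 1517) (.f (nat_lit 493) (nat_lit 524) (nat_lit 1516) (.d (nat_lit 461) (nat_lit 460) (nat_lit 3532) (nat_lit 462) (nat_lit 3533)))) (.f (nat_lit 465) (nat_lit 466) (nat_lit 2510) (.d (nat_lit 433) (nat_lit 401) (nat_lit 5520) (nat_lit 464) (nat_lit 6576)))))) (.a s105383 (.a s105422 (.a (.p (nat_lit 497) (.a (.f (nat_lit 465) (nat_lit 466) (nat_lit 2510) (.d (nat_lit 464) (nat_lit 433) (nat_lit 6576) (nat_lit 493) (nat_lit 2509))) (.a (.f (nat_lit 461) (nat_lit 462) (nat_lit 3533) (.f (nat_lit 493) (nat_lit 460) (nat_lit 3532) (.f (nat_lit 527) (nat_lit 492) (nat_lit 492) (.d (nat_lit 498) (nat_lit 499) (nat_lit 1519) (nat_lit 526) (nat_lit 1518))))) (.f (nat_lit 465) (nat_lit 466) (nat_lit 2510) (.d (nat_lit 433) (nat_lit 401) (nat_lit 5520) (nat_lit 464) (nat_lit 6576)))))) (.a (.p (nat_lit 497) (.a (.f (nat_lit 465) (nat_lit 466) (nat_lit 2510) (.d (nat_lit 464) (nat_lit 433) (nat_lit 6576) (nat_lit 493) (nat_lit 2509))) (.a (.f (nat_lit 461) (nat_lit 462) (nat_lit 3533) (.f (nat_lit 493) (nat_lit 460) (nat_lit 3532) (.f (nat_lit 524) (nat_lit 525) (nat_lit 1516) (.d (nat_lit 492) (nat_lit 523) (nat_lit 1515) (nat_lit 527) (nat_lit 492))))) (.f (nat_lit 465) (nat_lit 466) (nat_lit 2510) (.d (nat_lit 433) (nat_lit 401) (nat_lit 5520) (nat_lit 464) (nat_lit 6576)))))) (.a s105393 (.p (nat_lit 497) (.a (.f (nat_lit 465) (nat_lit 466) (nat_lit 2510) (.d (nat_lit 464) (nat_lit 433) (nat_lit 6576) (nat_lit 493) (nat_lit 2509))) (.a (.f (nat_lit 526) (nat_lit 525) (nat_lit 1517) (.f (nat_lit 498) (nat_lit 527) (nat_lit 1518) (.d (nat_lit 466) (nat_lit 465) (nat_lit 2510) (nat_lit 467) (nat_lit 2511)))) (.a (.f (nat_lit 526) (nat_lit 525) (nat_lit 1517) (.f (nat_lit 498) (nat_lit 527) (nat_lit 1518) (.f (nat_lit 467) (nat_lit 466) (nat_lit 2511) (.f (nat_lit 499) (nat_lit 468) (nat_lit 2512) (.d (nat_lit 531) (nat_lit 530) (nat_lit 495) (nat_lit 532) (nat_lit 496)))))) (.f (nat_lit 526) (nat_lit 525) (nat_lit 1517) (.f (nat_lit 498) (nat_lit 527) (nat_lit 1518) (.f (nat_lit 463) (nat_lit 462) (nat_lit 3534) (.f (nat_lit 464) (nat_lit 499) (nat_lit 3535) (.d (nat_lit 493) (nat_lit 465) (nat_lit 2509) (nat_lit 492) (nat_lit 2508)))))))))))))))))) (.a (.p (nat_lit 494) (.a s105377 (.a (.p (nat_lit 497) (.a (.f (nat_lit 525) (nat_lit 526) (nat_lit 1517) (.f (nat_lit 493) (nat_lit 524) (nat_lit 1516) (.d (nat_lit 461) (nat_lit 460) (nat_lit 3532) (nat_lit 462) (nat_lit 3533)))) (.a (.f (nat_lit 462) (nat_lit 461) (nat_lit 3533) (.f (nat_lit 463) (nat_lit 498) (nat_lit 3534) (.d (nat_lit 431) (nat_lit 399) (nat_lit 4495) (nat_lit 464) (nat_lit 7599)))) (.f (nat_lit 465) (nat_lit 466) (nat_lit 2510) (.f (nat_lit 493) (nat_lit 464) (nat_lit 2509) (.d (nat_lit 525) (nat_lit 524) (nat_lit 1516) (nat_lit 526) (nat_lit 1517))))))) (.a s105383 (.a s105422 (.a (.p (nat_lit 497) (.a (.f (nat_lit 461) (nat_lit 462) (nat_lit 3533) (.f (nat_lit 493) (nat_lit 460) (nat_lit 3532) (.f (nat_lit 527) (nat_lit 492) (nat_lit 492) (.d (nat_lit 498) (nat_lit 499) (nat_lit 1519) (nat_lit 526) (nat_lit 1518))))) (.a (.f (nat_lit 462) (nat_lit 461) (nat_lit 3533) (.f (nat_lit 463) (nat_lit 498) (nat_lit 3534) (.d (nat_lit 431) (nat_lit 399) (nat_lit 4495) (nat_lit 464) (nat_lit 7599)))) (.a (.f (nat_lit 465) (nat_lit 466) (nat_lit 2510) (.f (nat_lit 464) (nat_lit 493) (nat_lit 2509) (.f (nat_lit 463) (nat_lit 431) (nat_lit 7599) (.f (nat_lit 462) (nat_lit 461) (nat_lit 3533) (.f (nat_lit 430) (nat_lit 429) (nat_lit 3501) (.d (nat_lit 398) (nat_lit 366) (nat_lit 4462) (nat_lit 527) (nat_lit 4494))))))) (.f (nat_lit 465) (nat_lit 466) (nat_lit 2510) (.f (nat_lit 464) (nat_lit 493) (nat_lit 2509) (.f (nat_lit 463) (nat_lit 431) (nat_lit 7599) (.f (nat_lit 498) (nat_lit 499) (nat_lit 3535) (.f (nat_lit 527) (nat_lit 526) (nat_lit 1518) (.f (nat_lit 561) (nat_lit 593) (nat_lit 4560) (.f (nat_lit 562) (nat_lit 563) (nat_lit 3599) (.d (nat_lit 530) (nat_lit 531) (nat_lit 495) (nat_lit 594) (nat_lit 7633))))))))))))) (.a (.p (nat_lit 497) (.a (.f (nat_lit 461) (nat_lit 462) (nat_lit 3533) (.f (nat_lit 493) (nat_lit 460) (nat_lit 3532) (.f (nat_lit 524) (nat_lit 525) (nat_lit 1516) (.d (nat_lit 492) (nat_lit 523) (nat_lit 1515) (nat_lit 527) (nat_lit 492))))) (.a (.f (nat_lit 462) (nat_lit 461) (nat_lit 3533) (.f (nat_lit 463) (nat_lit 498) (nat_lit 3534) (.d (nat_lit 431) (nat_lit 399) (nat_lit 4495) (nat_lit 464) (nat_lit 7599)))) (.f (nat_lit 465) (nat_lit 466) (nat_lit 2510) (.f (nat_lit 493) (nat_lit 464) (nat_lit 2509) (.f (nat_lit 492) (nat_lit 527) (nat_lit 492) (.d (nat_lit 524) (nat_lit 523) (nat_lit 1515) (nat_lit 525) (nat_lit 1516)))))))) (.a (.p (nat_lit 497) (.a (.f (nat_lit 526) (nat_lit 525) (nat_lit 1517) (.f (nat_lit 498) (nat_lit 527) (nat_lit 1518) (.d (nat_lit 466) (nat_lit 465) (nat_lit 2510) (nat_lit 467) (nat_lit 2511)))) (.a (.f (nat_lit 462) (nat_lit 461) (nat_lit 3533) (.f (nat_lit 463) (nat_lit 498) (nat_lit 3534) (.d (nat_lit 431) (nat_lit 399) (nat_lit 4495) (nat_lit 464) (nat_lit 7599)))) (.p (nat_lit 431) (.a (.d (nat_lit 463) (nat_lit 399) (nat_lit 4495) (nat_lit 527) (nat_lit 4527)) (.a (.d (nat_lit 463) (nat_lit 399) (nat_lit 4495) (nat_lit 464) (nat_lit 7599)) (.a (.f (nat_lit 526) (nat_lit 525) (nat_lit 1517) (.f (nat_lit 462) (nat_lit 461) (nat_lit 3533) (.f (nat_lit 430) (nat_lit 399) (nat_lit 6542) (.f (nat_lit 398) (nat_lit 527) (nat_lit 4494) (.d (nat_lit 397) (nat_lit 365) (nat_lit 7533) (nat_lit 429) (nat_lit 7565)))))) (.d (nat_lit 463) (nat_lit 464) (nat_lit 7599) (nat_lit 527) (nat_lit 4527))))))))) (.p (nat_lit 497) (.a (.f (nat_lit 526) (nat_lit 525) (nat_lit 1517) (.f (nat_lit 498) (nat_lit 527) (nat_lit 1518) (.d (nat_lit 466) (nat_lit 465) (nat_lit 2510) (nat_lit 467) (nat_lit 2511)))) (.a (.f (nat_lit 465) (nat_lit 466) (nat_lit 2510) (.f (nat_lit 493) (nat_lit 464) (nat_lit 2509) (.d (nat_lit 525) (nat_lit 524) (nat_lit 1516) (nat_lit 526) (nat_lit 1517)))) (.a (.f (nat_lit 526) (nat_lit 525) (nat_lit 1517) (.f (nat_lit 498) (nat_lit 527) (nat_lit 1518) (.f (nat_lit 467) (nat_lit 466) (nat_lit 2511) (.f (nat_lit 499) (nat_lit 468) (nat_lit 2512) (.d (nat_lit 531) (nat_lit 530) (nat_lit 495) (nat_lit 532) (nat_lit 496)))))) (.a (.f (nat_lit 465) (nat_lit 466) (nat_lit 2510) (.f (nat_lit 464) (nat_lit 493) (nat_lit 2509) (.f (nat_lit 463) (nat_lit 431) (nat_lit 7599) (.f (nat_lit 498) (nat_lit 499) (nat_lit 3535) (.f (nat_lit 527) (nat_lit 526) (nat_lit 1518) (.f (nat_lit 561) (nat_lit 593) (nat_lit 4560) (.f (nat_lit 562) (nat_lit 563) (nat_lit 3599) (.d (nat_lit 530) (nat_lit 531) (nat_lit 495) (nat_lit 594) (nat_lit 7633))))))))) (.a (.f (nat_lit 465) (nat_lit 466) (nat_lit 2510) (.f (nat_lit 493) (nat_lit 464) (nat_lit 2509) (.f (nat_lit 492) (nat_lit 527) (nat_lit 492) (.d (nat_lit 524) (nat_lit 523) (nat_lit 1515) (nat_lit 525) (nat_lit 1516))))) (.f (nat_lit 526) (nat_lit 525) (nat_lit 1517) (.f (nat_lit 498) (nat_lit 527) (nat_lit 1518) (.f (nat_lit 463) (nat_lit 462) (nat_lit 3534) (.f (nat_lit 464) (nat_lit 499) (nat_lit 3535) (.d (nat_lit 493) (nat_lit 465) (nat_lit 2509) (nat_lit 492) (nat_lit 2508)))))))))))))))))))) (.a (.p (nat_lit 494) (.a s105377 (.a (.p (nat_lit 493) (.a (.f (nat_lit 492) (nat_lit 527) (nat_lit 492) (.d (nat_lit 524) (nat_lit 523) (nat_lit 1515) (nat_lit 525) (nat_lit 1516))) (.a (.f (nat_lit 465) (nat_lit 464) (nat_lit 2509) (.f (nat_lit 497) (nat_lit 466) (nat_lit 2510) (.d (nat_lit 525) (nat_lit 524) (nat_lit 1516) (nat_lit 526) (nat_lit 1517)))) (.f (nat_lit 465) (nat_lit 464) (nat_lit 2509) (.f (nat_lit 497) (nat_lit 466) (nat_lit 2510) (.f (nat_lit 527) (nat_lit 492) (nat_lit 492) (.d (nat_lit 498) (nat_lit 499) (nat_lit 1519) (nat_lit 526) (nat_lit 1518)))))))) (.a s105383 (.a (.p (nat_lit 493) (.a (.f (nat_lit 492) (nat_lit 527) (nat_lit 492) (.d (nat_lit 524) (nat_lit 523) (nat_lit 1515) (nat_lit 525) (nat_lit 1516))) (.a (.f (nat_lit 461) (nat_lit 460) (nat_lit 3532) (.f (nat_lit 525) (nat_lit 524) (nat_lit 1516) (.d (nat_lit 497) (nat_lit 462) (nat_lit 3533) (nat_lit 526) (nat_lit 1517)))) (.f (nat_lit 492) (nat_lit 527) (nat_lit 492) (.d (nat_lit 460) (nat_lit 459) (nat_lit 3531) (nat_lit 461) (nat_lit 3532)))))) (.a (.p (nat_lit 497) (.a (.f (nat_lit 465) (nat_lit 466) (nat_lit 2510) (.d (nat_lit 464) (nat_lit 433) (nat_lit 6576) (nat_lit 493) (nat_lit 2509))) (.a (.f (nat_lit 525) (nat_lit 526) (nat_lit 1517) (.f (nat_lit 493) (nat_lit 524) (nat_lit 1516) (.d (nat_lit 461) (nat_lit 460) (nat_lit 3532) (nat_lit 462) (nat_lit 3533)))) (.f (nat_lit 465) (nat_lit 466) (nat_lit 2510) (.d (nat_lit 433) (nat_lit 401) (nat_lit 5520) (nat_lit 464) (nat_lit 6576)))))) (.a (.p (nat_lit 462) (.a (.f (nat_lit 497) (nat_lit 461) (nat_lit 3533) (.f (nat_lit 526) (nat_lit 525) (nat_lit 1517) (.f (nat_lit 498) (nat_lit 527) (nat_lit 1518) (.d (nat_lit 466) (nat_lit 465) (nat_lit 2510) (nat_lit 467) (nat_lit 2511))))) (.a (.f (nat_lit 497) (nat_lit 461) (nat_lit 3533) (.f (nat_lit 465) (nat_lit 466) (nat_lit 2510) (.d (nat_lit 433) (nat_lit 401) (nat_lit 5520) (nat_lit 464) (nat_lit 6576)))) (.a (.f (nat_lit 497) (nat_lit 461) (nat_lit 3533) (.f (nat_lit 526) (nat_lit 525) (nat_lit 1517) (.f (nat_lit 498) (nat_lit 527) (nat_lit 1518) (.f (nat_lit 531) (nat_lit 530) (nat_lit 495) (.f (nat_lit 499) (nat_lit 532) (nat_lit 496) (.d (nat_lit 467) (nat_lit 466) (nat_lit 2511) (nat_lit 468) (nat_lit 2512))))))) (.a (.p (nat_lit 430) (.a (.f (nat_lit 398) (nat_lit 527) (nat_lit 4494) (.f (nat_lit 399) (nat_lit 367) (nat_lit 6510) (.f (nat_lit 397) (nat_lit 365) (nat_lit 7533) (.d (nat_lit 526) (nat_lit 429) (nat_lit 7565) (nat_lit 431) (nat_lit 6542))))) (.a (.p (nat_lit 399) (.a (.f (nat_lit 431) (nat_lit 526) (nat_lit 6542) (.d (nat_lit 367) (nat_lit 335) (nat_lit 5454) (nat_lit 398) (nat_lit 6510))) (.a (.f (nat_lit 398) (nat_lit 367) (nat_lit 6510) (.f (nat_lit 397) (nat_lit 365) (nat_lit 7533) (.f (nat_lit 429) (nat_lit 526) (nat_lit 7565) (.d (nat_lit 428) (nat_lit 400) (nat_lit 1420) (nat_lit 427) (nat_lit 2443))))) (.a (.f (nat_lit 367) (nat_lit 398) (nat_lit 6510) (.f (nat_lit 431) (nat_lit 335) (nat_lit 5454) (.f (nat_lit 432) (nat_lit 464) (nat_lit 7567) (.f (nat_lit 461) (nat_lit 433) (nat_lit 1453) (.d (nat_lit 460) (nat_lit 429) (nat_lit 1452) (nat_lit 459) (nat_lit 459)))))) (.f (nat_lit 431) (nat_lit 526) (nat_lit 6542) (.f (nat_lit 432) (nat_lit 464) (nat_lit 7567) (.f (nat_lit 461) (nat_lit 433) (nat_lit 1453) (.d (nat_lit 460) (nat_lit 429) (nat_lit 1452) (nat_lit 459) (nat_lit 459))))))))) (.a (.f (nat_lit 398) (nat_lit 527) (nat_lit 4494) (.f (nat_lit 397) (nat_lit 365) (nat_lit 7533) (.f (nat_lit 399) (nat_lit 367) (nat_lit 6510) (.f (nat_lit 429) (nat_lit 526) (nat_lit 7565) (.d (nat_lit 428) (nat_lit 400) (nat_lit 1420) (nat_lit 427) (nat_lit 2443)))))) (.a (.f (nat_lit 398) (nat_lit 527) (nat_lit 4494) (.f (nat_lit 365) (nat_lit 397) (nat_lit 7533) (.f (nat_lit 366) (nat_lit 333) (nat_lit 7501) (.d (nat_lit 367) (nat_lit 335) (nat_lit 6478) (nat_lit 399) (nat_lit 6510))))) (.a (.p (nat_lit 464) (.a (.f (nat_lit 527) (nat_lit 398) (nat_lit 4494) (.f (nat_lit 432) (nat_lit 400) (nat_lit 5519) (.d (nat_lit 433) (nat_lit 401) (nat_lit 6544) (nat_lit 465) (nat_lit 6576)))) (.a (.f (nat_lit 433) (nat_lit 465) (nat_lit 6576) (.f (nat_lit 432) (nat_lit 401) (nat_lit 6544) (.f (nat_lit 431) (nat_lit 461) (nat_lit 1453) (.f (nat_lit 397) (nat_lit 398) (nat_lit 3469) (.d (nat_lit 429) (nat_lit 396) (nat_lit 3468) (nat_lit 526) (nat_lit 7565)))))) (.a (.f (nat_lit 527) (nat_lit 398) (nat_lit 4494) (.f (nat_lit 561) (nat_lit 593) (nat_lit 4560) (.f (nat_lit 526) (nat_lit 525) (nat_lit 525) (.f (nat_lit 432) (nat_lit 400) (nat_lit 5519) (.f (nat_lit 429) (nat_lit 397) (nat_lit 7565) (.f (nat_lit 461) (nat_lit 558) (nat_lit 7597) (.d (nat_lit 433) (nat_lit 401) (nat_lit 6544) (nat_lit 431) (nat_lit 1453)))))))) (.a (.f (nat_lit 527) (nat_lit 398) (nat_lit 4494) (.f (nat_lit 561) (nat_lit 593) (nat_lit 4560) (.f (nat_lit 526) (nat_lit 525) (nat_lit 525) (.f (nat_lit 429) (nat_lit 397) (nat_lit 7565) (.f (nat_lit 558) (nat_lit 461) (nat_lit 7597) (.f (nat_lit 590) (nat_lit 622) (nat_lit 6638) (.d (nat_lit 589) (nat_lit 557) (nat_lit 5581) (nat_lit 621) (nat_lit 5613)))))))) (.f (nat_lit 433) (nat_lit 465) (nat_lit 6576) (.f (nat_lit 432) (nat_lit 401) (nat_lit 6544) (.f (nat_lit 461) (nat_lit 431) (nat_lit 1453) (.f (nat_lit 527) (nat_lit 400) (nat_lit 5519) (.f (nat_lit 561) (nat_lit 593) (nat_lit 4560) (.f (nat_lit 526) (nat_lit 525) (nat_lit 525) (.d (nat_lit 429) (nat_lit 397) (nat_lit 7565) (nat_lit 558) (nat_lit 7597))))))))))))) (.a (.p (nat_lit 526) (.a (.f (nat_lit 429) (nat_lit 397) (nat_lit 7565) (.f (nat_lit 558) (nat_lit 461) (nat_lit 7597) (.d (nat_lit 557) (nat_lit 525) (nat_lit 5549) (nat_lit 589) (nat_lit 5581)))) (.a (.f (nat_lit 429) (nat_lit 397) (nat_lit 7565) (.f (nat_lit 431) (nat_lit 399) (nat_lit 6542) (.f (nat_lit 461) (nat_lit 558) (nat_lit 7597) (.d (nat_lit 460) (nat_lit 432) (nat_lit 1452) (nat_lit 459) (nat_lit 2475))))) (.f (nat_lit 525) (nat_lit 557) (nat_lit 5549) (.d (nat_lit 527) (nat_lit 524) (nat_lit 2540) (nat_lit 561) (nat_lit 525)))))) (.f (nat_lit 398) (nat_lit 527) (nat_lit 4494) (.f (nat_lit 399) (nat_lit 367) (nat_lit 6510) (.f (nat_lit 431) (nat_lit 526) (nat_lit 6542) (.f (nat_lit 432) (nat_lit 464) (nat_lit 7567) (.d (nat_lit 433) (nat_lit 434) (nat_lit 3470) (nat_lit 461) (nat_lit 1453))))))))))))) (.p (nat_lit 526) (.a (.f (nat_lit 525) (nat_lit 497) (nat_lit 1517) (.d (nat_lit 524) (nat_lit 523) (nat_lit 2539) (nat_lit 527) (nat_lit 2540))) (.a (.f (nat_lit 525) (nat_lit 497) (nat_lit 1517) (.f (nat_lit 430) (nat_lit 557) (nat_lit 5549) (.f (nat_lit 399) (nat_lit 431) (nat_lit 6542) (.f (nat_lit 398) (nat_lit 367) (nat_lit 6510) (.d (nat_lit 397) (nat_lit 365) (nat_lit 7533) (nat_lit 429) (nat_lit 7565)))))) (.a (.p (nat_lit 525) (.a (.d (nat_lit 524) (nat_lit 523) (nat_lit 2539) (nat_lit 527) (nat_lit 2540)) (.f (nat_lit 430) (nat_lit 557) (nat_lit 5549) (.f (nat_lit 399) (nat_lit 431) (nat_lit 6542) (.f (nat_lit 398) (nat_lit 367) (nat_lit 6510) (.d (nat_lit 397) (nat_lit 365) (nat_lit 7533) (nat_lit 429) (nat_lit 7565))))))) (.p (nat_lit 432) (.a (.p (nat_lit 464) (.a (.d (nat_lit 433) (nat_lit 401) (nat_lit 6544) (nat_lit 465) (nat_lit 6576)) (.a (.f (nat_lit 400) (nat_lit 527) (nat_lit 5519) (.d (nat_lit 401) (nat_lit 369) (nat_lit 6512) (nat_lit 433) (nat_lit 6544))) (.f (nat_lit 400) (nat_lit 527) (nat_lit 5519) (.d (nat_lit 399) (nat_lit 367) (nat_lit 7535) (nat_lit 431) (nat_lit 7567)))))) (.a (.p (nat_lit 430) (.a (.f (nat_lit 431) (nat_lit 399) (nat_lit 6542) (.f (nat_lit 429) (nat_lit 397) (nat_lit 7565) (.f (nat_lit 464) (nat_lit 465) (nat_lit 429) (.d (nat_lit 401) (nat_lit 400) (nat_lit 2445) (nat_lit 433) (nat_lit 6544))))) (.a (.f (nat_lit 397) (nat_lit 429) (nat_lit 7565) (.f (nat_lit 398) (nat_lit 365) (nat_lit 7533) (.d (nat_lit 399) (nat_lit 367) (nat_lit 6510) (nat_lit 431) (nat_lit 6542)))) (.a (.f (nat_lit 397) (nat_lit 429) (nat_lit 7565) (.f (nat_lit 398) (nat_lit 365) (nat_lit 7533) (.f (nat_lit 399) (nat_lit 367) (nat_lit 6510) (.f (nat_lit 433) (nat_lit 400) (nat_lit 397) (.d (nat_lit 464) (nat_lit 401) (nat_lit 6544) (nat_lit 465) (nat_lit 6576)))))) (.a (.f (nat_lit 397) (nat_lit 429) (nat_lit 7565) (.f (nat_lit 398) (nat_lit 365) (nat_lit 7533) (.f (nat_lit 433) (nat_lit 431) (nat_lit 3469) (.d (nat_lit 464) (nat_lit 401) (nat_lit 6544) (nat_lit 465) (nat_lit 6576))))) (.a (.f (nat_lit 399) (nat_lit 431) (nat_lit 6542) (.f (nat_lit 398) (nat_lit 367) (nat_lit 6510) (.f (nat_lit 397) (nat_lit 365) (nat_lit 7533) (.f (nat_lit 433) (nat_lit 400) (nat_lit 397) (.d (nat_lit 464) (nat_lit 401) (nat_lit 6544) (nat_lit 465) (nat_lit 6576)))))) (.f (nat_lit 399) (nat_lit 431) (nat_lit 6542) (.f (nat_lit 367) (nat_lit 398) (nat_lit 6510) (.f (nat_lit 464) (nat_lit 400) (nat_lit 7535) (.d (nat_lit 433) (nat_lit 401) (nat_lit 6544) (nat_lit 465) (nat_lit 6576))))))))))) (.a (.p (nat_lit 430) (.a (.f (nat_lit 397) (nat_lit 429) (nat_lit 7565) (.f (nat_lit 398) (nat_lit 365) (nat_lit 7533) (.d (nat_lit 399) (nat_lit 367) (nat_lit 6510) (nat_lit 431) (nat_lit 6542)))) (.a (.f (nat_lit 398) (nat_lit 527) (nat_lit 4494) (.d (nat_lit 397) (nat_lit 365) (nat_lit 7533) (nat_lit 429) (nat_lit 7565))) (.a (.f (nat_lit 398) (nat_lit 527) (nat_lit 4494) (.d (nat_lit 399) (nat_lit 367) (nat_lit 6510) (nat_lit 431) (nat_lit 6542))) (.f (nat_lit 431) (nat_lit 399) (nat_lit 6542) (.f (nat_lit 429) (nat_lit 397) (nat_lit 7565) (.f (nat_lit 401) (nat_lit 400) (nat_lit 2445) (.f (nat_lit 433) (nat_lit 402) (nat_lit 2446) (.d (nat_lit 465) (nat_lit 466) (nat_lit 430) (nat_lit 497) (nat_lit 5520)))))))))) (.a (.p (nat_lit 430) (.a (.f (nat_lit 397) (nat_lit 429) (nat_lit 7565) (.f (nat_lit 398) (nat_lit 365) (nat_lit 7533) (.d (nat_lit 399) (nat_lit 367) (nat_lit 6510) (nat_lit 431) (nat_lit 6542)))) (.a (.f (nat_lit 398) (nat_lit 527) (nat_lit 4494) (.d (nat_lit 397) (nat_lit 365) (nat_lit 7533) (nat_lit 429) (nat_lit 7565))) (.a (.f (nat_lit 398) (nat_lit 527) (nat_lit 4494) (.d (nat_lit 399) (nat_lit 367) (nat_lit 6510) (nat_lit 431) (nat_lit 6542))) (.f (nat_lit 431) (nat_lit 399) (nat_lit 6542) (.f (nat_lit 429) (nat_lit 397) (nat_lit 7565) (.f (nat_lit 401) (nat_lit 400) (nat_lit 2445) (.d (nat_lit 433) (nat_lit 402) (nat_lit 2446) (nat_lit 464) (nat_lit 6544))))))))) (.a (.p (nat_lit 464) (.a (.d (nat_lit 433) (nat_lit 401) (nat_lit 6544) (nat_lit 465) (nat_lit 6576)) (.a (.f (nat_lit 400) (nat_lit 527) (nat_lit 5519) (.d (nat_lit 401) (nat_lit 369) (nat_lit 6512) (nat_lit 433) (nat_lit 6544))) (.a (.f (nat_lit 400) (nat_lit 527) (nat_lit 5519) (.f (nat_lit 367) (nat_lit 399) (nat_lit 7535) (.f (nat_lit 368) (nat_lit 335) (nat_lit 7503) (.d (nat_lit 369) (nat_lit 337) (nat_lit 6480) (nat_lit 401) (nat_lit 6512))))) (.f (nat_lit 527) (nat_lit 400) (nat_lit 5519) (.f (nat_lit 497) (nat_lit 498) (nat_lit 1518) (.d (nat_lit 465) (nat_lit 433) (nat_lit 6576) (nat_lit 466) (nat_lit 2510)))))))) (.a (.p (nat_lit 430) (.a (.f (nat_lit 397) (nat_lit 429) (nat_lit 7565) (.f (nat_lit 398) (nat_lit 365) (nat_lit 7533) (.d (nat_lit 399) (nat_lit 367) (nat_lit 6510) (nat_lit 431) (nat_lit 6542)))) (.a (.f (nat_lit 398) (nat_lit 527) (nat_lit 4494) (.d (nat_lit 397) (nat_lit 365) (nat_lit 7533) (nat_lit 429) (nat_lit 7565))) (.a (.f (nat_lit 398) (nat_lit 527) (nat_lit 4494) (.d (nat_lit 399) (nat_lit 367) (nat_lit 6510) (nat_lit 431) (nat_lit 6542))) (.f (nat_lit 431) (nat_lit 399) (nat_lit 6542) (.f (nat_lit 429) (nat_lit 397) (nat_lit 7565) (.f (nat_lit 464) (nat_lit 465) (nat_lit 429) (.d (nat_lit 400) (nat_lit 401) (nat_lit 2445) (nat_lit 527) (nat_lit 5519))))))))) (.a (.p (nat_lit 464) (.a (.f (nat_lit 400) (nat_lit 527) (nat_lit 5519) (.d (nat_lit 399) (nat_lit 367) (nat_lit 7535) (nat_lit 431) (nat_lit 7567))) (.f (nat_lit 465) (nat_lit 433) (nat_lit 6576) (.d (nat_lit 466) (nat_lit 467) (nat_lit 1487) (nat_lit 497) (nat_lit 2510))))) (.a (.p (nat_lit 464) (.a (.d (nat_lit 433) (nat_lit 401) (nat_lit 6544) (nat_lit 465) (nat_lit 6576)) (.a (.f (nat_lit 400) (nat_lit 527) (nat_lit 5519) (.d (nat_lit 401) (nat_lit 369) (nat_lit 6512) (nat_lit 433) (nat_lit 6544))) (.f (nat_lit 527) (nat_lit 400) (nat_lit 5519) (.f (nat_lit 497) (nat_lit 498) (nat_lit 1518) (.f (nat_lit 465) (nat_lit 466) (nat_lit 2510) (.f (nat_lit 430) (nat_lit 398) (nat_lit 4494) (.d (nat_lit 429) (nat_lit 397) (nat_lit 7565) (nat_lit 431) (nat_lit 429))))))))) (.p (nat_lit 430) (.a (.f (nat_lit 397) (nat_lit 429) (nat_lit 7565) (.f (nat_lit 398) (nat_lit 365) (nat_lit 7533) (.d (nat_lit 399) (nat_lit 367) (nat_lit 6510) (nat_lit 431) (nat_lit 6542)))) (.a (.f (nat_lit 398) (nat_lit 527) (nat_lit 4494) (.d (nat_lit 397) (nat_lit 365) (nat_lit 7533) (nat_lit 429) (nat_lit 7565))) (.a (.f (nat_lit 398) (nat_lit 527) (nat_lit 4494) (.d (nat_lit 399) (nat_lit 367) (nat_lit 6510) (nat_lit 431) (nat_lit 6542))) (.f (nat_lit 431) (nat_lit 399) (nat_lit 6542) (.f (nat_lit 429) (nat_lit 397) (nat_lit 7565) (.f (nat_lit 465) (nat_lit 464) (nat_lit 429) (.d (nat_lit 466) (nat_lit 433) (nat_lit 430) (nat_lit 497) (nat_lit 2510))))))))))))))))))))))))))) (.a (.p (nat_lit 493) (.a (.f (nat_lit 492) (nat_lit 527) (nat_lit 492) (.d (nat_lit 524) (nat_lit 523) (nat_lit 1515) (nat_lit 525) (nat_lit 1516))) (.a (.f (nat_lit 460) (nat_lit 461) (nat_lit 3532) (.f (nat_lit 492) (nat_lit 459) (nat_lit 3531) (.d (nat_lit 524) (nat_lit 523) (nat_lit 1515) (nat_lit 525) (nat_lit 1516)))) (.a (.f (nat_lit 492) (nat_lit 527) (nat_lit 492) (.d (nat_lit 460) (nat_lit 459) (nat_lit 3531) (nat_lit 461) (nat_lit 3532))) (.f (nat_lit 464) (nat_lit 465) (nat_lit 2509) (.f (nat_lit 525) (nat_lit 524) (nat_lit 1516) (.f (nat_lit 461) (nat_lit 460) (nat_lit 3532) (.f (nat_lit 561) (nat_lit 593) (nat_lit 4560) (.f (nat_lit 526) (nat_lit 527) (nat_lit 525) (.d (nat_lit 429) (nat_lit 397) (nat_lit 4493) (nat_lit 558) (nat_lit 4525))))))))))) (.a (.p (nat_lit 497) (.a (.f (nat_lit 465) (nat_lit 466) (nat_lit 2510) (.d (nat_lit 464) (nat_lit 433) (nat_lit 6576) (nat_lit 493) (nat_lit 2509))) (.a (.f (nat_lit 461) (nat_lit 462) (nat_lit 3533) (.f (nat_lit 493) (nat_lit 460) (nat_lit 3532) (.f (nat_lit 527) (nat_lit 492) (nat_lit 492) (.d (nat_lit 498) (nat_lit 499) (nat_lit 1519) (nat_lit 526) (nat_lit 1518))))) (.f (nat_lit 465) (nat_lit 466) (nat_lit 2510) (.d (nat_lit 433) (nat_lit 401) (nat_lit 5520) (nat_lit 464) (nat_lit 6576)))))) (.p (nat_lit 497) (.a (.f (nat_lit 465) (nat_lit 466) (nat_lit 2510) (.d (nat_lit 464) (nat_lit 433) (nat_lit 6576) (nat_lit 493) (nat_lit 2509))) (.a (.f (nat_lit 461) (nat_lit 462) (nat_lit 3533) (.f (nat_lit 493) (nat_lit 460) (nat_lit 3532) (.f (nat_lit 524) (nat_lit 525) (nat_lit 1516) (.d (nat_lit 492) (nat_lit 523) (nat_lit 1515) (nat_lit 527) (nat_lit 492))))) (.f (nat_lit 465) (nat_lit 466) (nat_lit 2510) (.d (nat_lit 433) (nat_lit 401) (nat_lit 5520) (nat_lit 464) (nat_lit 6576))))))))))))))) (.a (.p (nat_lit 494) (.a s105377 (.a s105675 (.a s105679 (.a (.p (nat_lit 497) (.a (.f (nat_lit 461) (nat_lit 462) (nat_lit 3533) (.f (nat_lit 493) (nat_lit 460) (nat_lit 3532) (.f (nat_lit 527) (nat_lit 492) (nat_lit 492) (.d (nat_lit 498) (nat_lit 499) (nat_lit 1519) (nat_lit 526) (nat_lit 1518))))) (.a (.f (nat_lit 462) (nat_lit 461) (nat_lit 3533) (.f (nat_lit 498) (nat_lit 463) (nat_lit 3534) (.d (nat_lit 466) (nat_lit 465) (nat_lit 2510) (nat_lit 467) (nat_lit 2511)))) (.a (.p (nat_lit 493) (.a (.d (nat_lit 461) (nat_lit 460) (nat_lit 3532) (nat_lit 462) (nat_lit 3533)) (.a (.f (nat_lit 492) (nat_lit 527) (nat_lit 492) (.d (nat_lit 460) (nat_lit 459) (nat_lit 3531) (nat_lit 461) (nat_lit 3532))) (.a (.f (nat_lit 492) (nat_lit 527) (nat_lit 492) (.f (nat_lit 459) (nat_lit 460) (nat_lit 3531) (.f (nat_lit 491) (nat_lit 458) (nat_lit 3530) (.d (nat_lit 523) (nat_lit 522) (nat_lit 1514) (nat_lit 524) (nat_lit 1515))))) (.f (nat_lit 492) (nat_lit 527) (nat_lit 492) (.f (nat_lit 462) (nat_lit 461) (nat_lit 3533) (.f (nat_lit 491) (nat_lit 463) (nat_lit 2507) (.d (nat_lit 523) (nat_lit 522) (nat_lit 1514) (nat_lit 524) (nat_lit 1515))))))))) (.f (nat_lit 466) (nat_lit 465) (nat_lit 2510) (.f (nat_lit 498) (nat_lit 467) (nat_lit 2511) (.d (nat_lit 527) (nat_lit 499) (nat_lit 1519) (nat_lit 526) (nat_lit 1518)))))))) (.a (.p (nat_lit 497) (.a (.f (nat_lit 461) (nat_lit 462) (nat_lit 3533) (.f (nat_lit 493) (nat_lit 460) (nat_lit 3532) (.f (nat_lit 524) (nat_lit 525) (nat_lit 1516) (.d (nat_lit 492) (nat_lit 523) (nat_lit 1515) (nat_lit 527) (nat_lit 492))))) (.a (.f (nat_lit 462) (nat_lit 461) (nat_lit 3533) (.f (nat_lit 498) (nat_lit 463) (nat_lit 3534) (.d (nat_lit 466) (nat_lit 465) (nat_lit 2510) (nat_lit 467) (nat_lit 2511)))) (.f (nat_lit 466) (nat_lit 465) (nat_lit 2510) (.f (nat_lit 498) (nat_lit 467) (nat_lit 2511) (.f (nat_lit 499) (nat_lit 527) (nat_lit 1519) (.d (nat_lit 531) (nat_lit 530) (nat_lit 495) (nat_lit 532) (nat_lit 496)))))))) (.a (.p (nat_lit 497) (.a (.f (nat_lit 526) (nat_lit 525) (nat_lit 1517) (.f (nat_lit 498) (nat_lit 527) (nat_lit 1518) (.d (nat_lit 466) (nat_lit 465) (nat_lit 2510) (nat_lit 467) (nat_lit 2511)))) (.a (.f (nat_lit 462) (nat_lit 461) (nat_lit 3533) (.f (nat_lit 498) (nat_lit 463) (nat_lit 3534) (.d (nat_lit 466) (nat_lit 465) (nat_lit 2510) (nat_lit 467) (nat_lit 2511)))) (.a (.f (nat_lit 526) (nat_lit 525) (nat_lit 1517) (.f (nat_lit 498) (nat_lit 527) (nat_lit 1518) (.f (nat_lit 467) (nat_lit 466) (nat_lit 2511) (.f (nat_lit 499) (nat_lit 468) (nat_lit 2512) (.d (nat_lit 531) (nat_lit 530) (nat_lit 495) (nat_lit 532) (nat_lit 496)))))) (.p (nat_lit 431) (.a (.d (nat_lit 463) (nat_lit 399) (nat_lit 4495) (nat_lit 527) (nat_lit 4527)) (.a (.f (nat_lit 463) (nat_lit 399) (nat_lit 4495) (.f (nat_lit 462) (nat_lit 461) (nat_lit 3533) (.d (nat_lit 526) (nat_lit 525) (nat_lit 1517) (nat_lit 558) (nat_lit 6574)))) (.a (.f (nat_lit 526) (nat_lit 525) (nat_lit 1517) (.f (nat_lit 462) (nat_lit 461) (nat_lit 3533) (.f (nat_lit 430) (nat_lit 399) (nat_lit 6542) (.f (nat_lit 398) (nat_lit 527) (nat_lit 4494) (.d (nat_lit 397) (nat_lit 365) (nat_lit 7533) (nat_lit 429) (nat_lit 7565)))))) (.f (nat_lit 526) (nat_lit 525) (nat_lit 1517) (.f (nat_lit 463) (nat_lit 527) (nat_lit 4527) (.d (nat_lit 558) (nat_lit 462) (nat_lit 6574) (nat_lit 590) (nat_lit 6606)))))))))))) (.a s105706 (.p (nat_lit 463) (.a (.d (nat_lit 431) (nat_lit 399) (nat_lit 4495) (nat_lit 527) (nat_lit 4527)) (.a (.p (nat_lit 526) (.a (.f (nat_lit 431) (nat_lit 399) (nat_lit 4495) (.d (nat_lit 558) (nat_lit 462) (nat_lit 6574) (nat_lit 590) (nat_lit 6606))) (.f (nat_lit 525) (nat_lit 497) (nat_lit 1517) (.d (nat_lit 524) (nat_lit 493) (nat_lit 1516) (nat_lit 523) (nat_lit 2539))))) (.p (nat_lit 497) (.a (.f (nat_lit 498) (nat_lit 462) (nat_lit 3534) (.d (nat_lit 466) (nat_lit 465) (nat_lit 2510) (nat_lit 467) (nat_lit 2511))) (.a (.f (nat_lit 498) (nat_lit 462) (nat_lit 3534) (.d (nat_lit 526) (nat_lit 525) (nat_lit 1517) (nat_lit 527) (nat_lit 1518))) (.a (.f (nat_lit 525) (nat_lit 526) (nat_lit 1517) (.f (nat_lit 493) (nat_lit 524) (nat_lit 1516) (.f (nat_lit 492) (nat_lit 527) (nat_lit 492) (.f (nat_lit 491) (nat_lit 462) (nat_lit 2507) (.d (nat_lit 459) (nat_lit 458) (nat_lit 3530) (nat_lit 460) (nat_lit 3531)))))) (.f (nat_lit 526) (nat_lit 525) (nat_lit 1517) (.f (nat_lit 498) (nat_lit 527) (nat_lit 1518) (.d (nat_lit 466) (nat_lit 465) (nat_lit 2510) (nat_lit 467) (nat_lit 2511))))))))))))))))))) (.a (.p (nat_lit 494) (.a s105383 (.a s105675 (.a s105679 (.a (.p (nat_lit 493) (.a (.f (nat_lit 492) (nat_lit 527) (nat_lit 492) (.d (nat_lit 460) (nat_lit 459) (nat_lit 3531) (nat_lit 461) (nat_lit 3532))) (.a (.p (nat_lit 492) (.a (.d (nat_lit 460) (nat_lit 459) (nat_lit 3531) (nat_lit 461) (nat_lit 3532)) (.a (.f (nat_lit 459) (nat_lit 460) (nat_lit 3531) (.f (nat_lit 491) (nat_lit 458) (nat_lit 3530) (.d (nat_lit 523) (nat_lit 522) (nat_lit 1514) (nat_lit 524) (nat_lit 1515)))) (.f (nat_lit 523) (nat_lit 524) (nat_lit 1515) (.f (nat_lit 491) (nat_lit 522) (nat_lit 1514) (.f (nat_lit 462) (nat_lit 463) (nat_lit 2507) (.d (nat_lit 461) (nat_lit 490) (nat_lit 2506) (nat_lit 497) (nat_lit 3533)))))))) (.a (.f (nat_lit 492) (nat_lit 527) (nat_lit 492) (.f (nat_lit 463) (nat_lit 464) (nat_lit 2508) (.f (nat_lit 491) (nat_lit 462) (nat_lit 2507) (.d (nat_lit 523) (nat_lit 522) (nat_lit 1514) (nat_lit 524) (nat_lit 1515))))) (.p (nat_lit 464) (.a (.p (nat_lit 432) (.a (.f (nat_lit 400) (nat_lit 527) (nat_lit 5519) (.d (nat_lit 401) (nat_lit 369) (nat_lit 6512) (nat_lit 433) (nat_lit 6544))) (.a (.f (nat_lit 461) (nat_lit 460) (nat_lit 3532) (.f (nat_lit 462) (nat_lit 497) (nat_lit 3533) (.d (nat_lit 433) (nat_lit 401) (nat_lit 6544) (nat_lit 463) (nat_lit 2477)))) (.a (.f (nat_lit 400) (nat_lit 527) (nat_lit 5519) (.f (nat_lit 368) (nat_lit 463) (nat_lit 5487) (.d (nat_lit 369) (nat_lit 337) (nat_lit 6480) (nat_lit 401) (nat_lit 6512)))) (.f (nat_lit 461) (nat_lit 460) (nat_lit 3532) (.f (nat_lit 462) (nat_lit 497) (nat_lit 3533) (.f (nat_lit 463) (nat_lit 433) (nat_lit 2477) (.d (nat_lit 400) (nat_lit 368) (nat_lit 5487) (nat_lit 527) (nat_lit 5519))))))))) (.a (.f (nat_lit 463) (nat_lit 431) (nat_lit 7599) (.f (nat_lit 461) (nat_lit 460) (nat_lit 3532) (.f (nat_lit 462) (nat_lit 497) (nat_lit 461) (.f (nat_lit 429) (nat_lit 428) (nat_lit 3500) (.d (nat_lit 397) (nat_lit 365) (nat_lit 4461) (nat_lit 526) (nat_lit 4493)))))) (.a (.f (nat_lit 431) (nat_lit 463) (nat_lit 7599) (.f (nat_lit 432) (nat_lit 399) (nat_lit 7567) (.f (nat_lit 401) (nat_lit 433) (nat_lit 6544) (.d (nat_lit 400) (nat_lit 369) (nat_lit 6512) (nat_lit 527) (nat_lit 5519))))) (.p (nat_lit 432) (.a (.f (nat_lit 400) (nat_lit 527) (nat_lit 5519) (.d (nat_lit 401) (nat_lit 369) (nat_lit 6512) (nat_lit 433) (nat_lit 6544))) (.a (.f (nat_lit 461) (nat_lit 460) (nat_lit 3532) (.f (nat_lit 462) (nat_lit 497) (nat_lit 3533) (.f (nat_lit 431) (nat_lit 399) (nat_lit 7567) (.d (nat_lit 433) (nat_lit 401) (nat_lit 6544) (nat_lit 430) (nat_lit 1453))))) (.f (nat_lit 400) (nat_lit 527) (nat_lit 5519) (.d (nat_lit 399) (nat_lit 367) (nat_lit 7535) (nat_lit 431) (nat_lit 7567)))))))))))))) (.a (.p (nat_lit 493) (.a (.f (nat_lit 492) (nat_lit 527) (nat_lit 492) (.d (nat_lit 524) (nat_lit 523) (nat_lit 1515) (nat_lit 525) (nat_lit 1516))) (.a (.f (nat_lit 460) (nat_lit 461) (nat_lit 3532) (.f (nat_lit 492) (nat_lit 459) (nat_lit 3531) (.d (nat_lit 524) (nat_lit 523) (nat_lit 1515) (nat_lit 525) (nat_lit 1516)))) (.a (.f (nat_lit 492) (nat_lit 527) (nat_lit 492) (.d (nat_lit 460) (nat_lit 459) (nat_lit 3531) (nat_lit 461) (nat_lit 3532))) (.f (nat_lit 461) (nat_lit 460) (nat_lit 3532) (.f (nat_lit 525) (nat_lit 524) (nat_lit 1516) (.f (nat_lit 462) (nat_lit 497) (nat_lit 3533) (.d (nat_lit 430) (nat_lit 398) (nat_lit 5517) (nat_lit 557) (nat_lit 6573))))))))) (.a (.p (nat_lit 497) (.a (.f (nat_lit 526) (nat_lit 525) (nat_lit 1517) (.f (nat_lit 498) (nat_lit 527) (nat_lit 1518) (.f (nat_lit 467) (nat_lit 466) (nat_lit 2511) (.f (nat_lit 499) (nat_lit 468) (nat_lit 2512) (.d (nat_lit 531) (nat_lit 530) (nat_lit 495) (nat_lit 532) (nat_lit 496)))))) (.a (.f (nat_lit 462) (nat_lit 461) (nat_lit 3533) (.f (nat_lit 463) (nat_lit 498) (nat_lit 3534) (.d (nat_lit 431) (nat_lit 399) (nat_lit 4495) (nat_lit 464) (nat_lit 7599)))) (.p (nat_lit 431) (.a (.d (nat_lit 463) (nat_lit 399) (nat_lit 4495) (nat_lit 527) (nat_lit 4527)) (.a (.d (nat_lit 463) (nat_lit 399) (nat_lit 4495) (nat_lit 464) (nat_lit 7599)) (.a (.f (nat_lit 526) (nat_lit 525) (nat_lit 1517) (.f (nat_lit 462) (nat_lit 461) (nat_lit 3533) (.f (nat_lit 430) (nat_lit 399) (nat_lit 6542) (.f (nat_lit 398) (nat_lit 527) (nat_lit 4494) (.d (nat_lit 397) (nat_lit 365) (nat_lit 7533) (nat_lit 429) (nat_lit 7565)))))) (.d (nat_lit 463) (nat_lit 464) (nat_lit 7599) (nat_lit 527) (nat_lit 4527))))))))) (.a s105706 (.p (nat_lit 493) (.a (.f (nat_lit 492) (nat_lit 527) (nat_lit 492) (.d (nat_lit 524) (nat_lit 523) (nat_lit 1515) (nat_lit 525) (nat_lit 1516))) (.a (.f (nat_lit 524) (nat_lit 525) (nat_lit 1516) (.f (nat_lit 492) (nat_lit 523) (nat_lit 1515) (.f (nat_lit 463) (nat_lit 464) (nat_lit 2508) (.f (nat_lit 491) (nat_lit 462) (nat_lit 2507) (.d (nat_lit 459) (nat_lit 458) (nat_lit 3530) (nat_lit 460) (nat_lit 3531)))))) (.a (.f (nat_lit 492) (nat_lit 527) (nat_lit 492) (.f (nat_lit 463) (nat_lit 464) (nat_lit 2508) (.f (nat_lit 491) (nat_lit 462) (nat_lit 2507) (.d (nat_lit 523) (nat_lit 522) (nat_lit 1514) (nat_lit 524) (nat_lit 1515))))) (.a (.f (nat_lit 525) (nat_lit 524) (nat_lit 1516) (.f (nat_lit 526) (nat_lit 497) (nat_lit 1517) (.f (nat_lit 527) (nat_lit 561) (nat_lit 525) (.f (nat_lit 557) (nat_lit 556) (nat_lit 1548) (.d (nat_lit 462) (nat_lit 430) (nat_lit 5549) (nat_lit 589) (nat_lit 6605)))))) (.f (nat_lit 492) (nat_lit 527) (nat_lit 492) (.f (nat_lit 463) (nat_lit 464) (nat_lit 2508) (.f (nat_lit 491) (nat_lit 462) (nat_lit 2507) (.d (nat_lit 459) (nat_lit 458) (nat_lit 3530) (nat_lit 460) (nat_lit 3531)))))))))))))))))) (.a (.p (nat_lit 464) (.a (.f (nat_lit 431) (nat_lit 463) (nat_lit 7599) (.f (nat_lit 432) (nat_lit 399) (nat_lit 7567) (.f (nat_lit 401) (nat_lit 433) (nat_lit 6544) (.d (nat_lit 400) (nat_lit 369) (nat_lit 6512) (nat_lit 527) (nat_lit 5519))))) (.a s105771 (.a (.f (nat_lit 433) (nat_lit 465) (nat_lit 6576) (.f (nat_lit 432) (nat_lit 401) (nat_lit 6544) (.f (nat_lit 400) (nat_lit 527) (nat_lit 5519) (.f (nat_lit 368) (nat_lit 463) (nat_lit 5487) (.d (nat_lit 367) (nat_lit 335) (nat_lit 7503) (nat_lit 399) (nat_lit 7535)))))) (.a (.p (nat_lit 432) (.a (.d (nat_lit 431) (nat_lit 399) (nat_lit 7567) (nat_lit 463) (nat_lit 7599)) (.a (.f (nat_lit 400) (nat_lit 527) (nat_lit 5519) (.f (nat_lit 368) (nat_lit 463) (nat_lit 5487) (.d (nat_lit 367) (nat_lit 335) (nat_lit 7503) (nat_lit 399) (nat_lit 7535)))) (.a (.f (nat_lit 400) (nat_lit 527) (nat_lit 5519) (.d (nat_lit 399) (nat_lit 367) (nat_lit 7535) (nat_lit 431) (nat_lit 7567))) (.f (nat_lit 463) (nat_lit 431) (nat_lit 7599) (.d (nat_lit 400) (nat_lit 368) (nat_lit 5487) (nat_lit 527) (nat_lit 5519))))))) (.a (.f (nat_lit 433) (nat_lit 465) (nat_lit 6576) (.f (nat_lit 432) (nat_lit 401) (nat_lit 6544) (.f (nat_lit 400) (nat_lit 527) (nat_lit 5519) (.d (nat_lit 399) (nat_lit 367) (nat_lit 7535) (nat_lit 431) (nat_lit 7567))))) (.p (nat_lit 497) (.a (.f (nat_lit 463) (nat_lit 431) (nat_lit 7599) (.d (nat_lit 498) (nat_lit 462) (nat_lit 3534) (nat_lit 499) (nat_lit 3535))) (.a (.f (nat_lit 465) (nat_lit 433) (nat_lit 6576) (.f (nat_lit 494) (nat_lit 493) (nat_lit 2509) (.f (nat_lit 462) (nat_lit 461) (nat_lit 3533) (.f (nat_lit 498) (nat_lit 463) (nat_lit 462) (.d (nat_lit 527) (nat_lit 499) (nat_lit 1519) (nat_lit 526) (nat_lit 1518)))))) (.a (.f (nat_lit 465) (nat_lit 433) (nat_lit 6576) (.f (nat_lit 494) (nat_lit 493) (nat_lit 2509) (.f (nat_lit 526) (nat_lit 525) (nat_lit 1517) (.f (nat_lit 498) (nat_lit 527) (nat_lit 1518) (.f (nat_lit 499) (nat_lit 500) (nat_lit 3536) (.d (nat_lit 531) (nat_lit 530) (nat_lit 495) (nat_lit 532) (nat_lit 496))))))) (.a (.f (nat_lit 463) (nat_lit 431) (nat_lit 7599) (.d (nat_lit 462) (nat_lit 461) (nat_lit 461) (nat_lit 498) (nat_lit 3534))) (.f (nat_lit 463) (nat_lit 431) (nat_lit 7599) (.f (nat_lit 462) (nat_lit 461) (nat_lit 461) (.f (nat_lit 465) (nat_lit 433) (nat_lit 6576) (.f (nat_lit 494) (nat_lit 493) (nat_lit 1485) (.f (nat_lit 430) (nat_lit 429) (nat_lit 3501) (.d (nat_lit 398) (nat_lit 366) (nat_lit 4462) (nat_lit 527) (nat_lit 4494)))))))))))))))))) (.a (.p (nat_lit 464) (.a (.f (nat_lit 431) (nat_lit 463) (nat_lit 7599) (.f (nat_lit 432) (nat_lit 399) (nat_lit 7567) (.f (nat_lit 401) (nat_lit 433) (nat_lit 6544) (.d (nat_lit 400) (nat_lit 369) (nat_lit 6512) (nat_lit 527) (nat_lit 5519))))) (.a s105771 (.a (.f (nat_lit 433) (nat_lit 465) (nat_lit 6576) (.f (nat_lit 432) (nat_lit 401) (nat_lit 6544) (.f (nat_lit 400) (nat_lit 527) (nat_lit 5519) (.f (nat_lit 368) (nat_lit 463) (nat_lit 5487) (.d (nat_lit 367) (nat_lit 335) (nat_lit 7503) (nat_lit 399) (nat_lit 7535)))))) (.a (.p (nat_lit 432) (.a (.d (nat_lit 431) (nat_lit 399) (nat_lit 7567) (nat_lit 463) (nat_lit 7599)) (.a (.f (nat_lit 400) (nat_lit 527) (nat_lit 5519) (.f (nat_lit 368) (nat_lit 463) (nat_lit 5487) (.d (nat_lit 367) (nat_lit 335) (nat_lit 7503) (nat_lit 399) (nat_lit 7535)))) (.a (.f (nat_lit 400) (nat_lit 527) (nat_lit 5519) (.d (nat_lit 399) (nat_lit 367) (nat_lit 7535) (nat_lit 431) (nat_lit 7567))) (.f (nat_lit 463) (nat_lit 431) (nat_lit 7599) (.d (nat_lit 400) (nat_lit 368) (nat_lit 5487) (nat_lit 527) (nat_lit 5519))))))) (.a (.f (nat_lit 433) (nat_lit 465) (nat_lit 6576) (.f (nat_lit 432) (nat_lit 401) (nat_lit 6544) (.f (nat_lit 400) (nat_lit 527) (nat_lit 5519) (.d (nat_lit 399) (nat_lit 367) (nat_lit 7535) (nat_lit 431) (nat_lit 7567))))) (.f (nat_lit 463) (nat_lit 431) (nat_lit 7599) (.f (nat_lit 465) (nat_lit 433) (nat_lit 6576) (.d (nat_lit 466) (nat_lit 467) (nat_lit 1487) (nat_lit 494) (nat_lit 1486)))))))))) (.a (.p (nat_lit 464) (.a (.f (nat_lit 431) (nat_lit 463) (nat_lit 7599) (.f (nat_lit 432) (nat_lit 399) (nat_lit 7567) (.f (nat_lit 401) (nat_lit 433) (nat_lit 6544) (.d (nat_lit 400) (nat_lit 369) (nat_lit 6512) (nat_lit 527) (nat_lit 5519))))) (.a s105771 (.a (.f (nat_lit 433) (nat_lit 465) (nat_lit 6576) (.f (nat_lit 432) (nat_lit 401) (nat_lit 6544) (.f (nat_lit 400) (nat_lit 527) (nat_lit 5519) (.f (nat_lit 368) (nat_lit 463) (nat_lit 5487) (.d (nat_lit 367) (nat_lit 335) (nat_lit 7503) (nat_lit 399) (nat_lit 7535)))))) (.a (.p (nat_lit 432) (.a (.d (nat_lit 431) (nat_lit 399) (nat_lit 7567) (nat_lit 463) (nat_lit 7599)) (.a (.f (nat_lit 400) (nat_lit 527) (nat_lit 5519) (.f (nat_lit 368) (nat_lit 463) (nat_lit 5487) (.d (nat_lit 367) (nat_lit 335) (nat_lit 7503) (nat_lit 399) (nat_lit 7535)))) (.a (.f (nat_lit 400) (nat_lit 527) (nat_lit 5519) (.d (nat_lit 399) (nat_lit 367) (nat_lit 7535) (nat_lit 431) (nat_lit 7567))) (.f (nat_lit 463) (nat_lit 431) (nat_lit 7599) (.d (nat_lit 400) (nat_lit 368) (nat_lit 5487) (nat_lit 527) (nat_lit 5519))))))) (.a (.f (nat_lit 433) (nat_lit 465) (nat_lit 6576) (.f (nat_lit 432) (nat_lit 401) (nat_lit 6544) (.f (nat_lit 400) (nat_lit 527) (nat_lit 5519) (.d (nat_lit 399) (nat_lit 367) (nat_lit 7535) (nat_lit 431) (nat_lit 7567))))) (.f (nat_lit 463) (nat_lit 431) (nat_lit 7599) (.f (nat_lit 465) (nat_lit 433) (nat_lit 6576) (.f (nat_lit 466) (nat_lit 467) (nat_lit 1487) (.f (nat_lit 498) (nat_lit 499) (nat_lit 463) (.f (nat_lit 462) (nat_lit 497) (nat_lit 462) (.f (nat_lit 461) (nat_lit 460) (nat_lit 460) (.d (nat_lit 429) (nat_lit 428) (nat_lit 3500) (nat_lit 430) (nat_lit 3501)))))))))))))) (.p (nat_lit 464) (.a (.f (nat_lit 463) (nat_lit 431) (nat_lit 7599) (.f (nat_lit 465) (nat_lit 433) (nat_lit 6576) (.d (nat_lit 494) (nat_lit 466) (nat_lit 1486) (nat_lit 493) (nat_lit 2509)))) (.a s105771 (.a (.f (nat_lit 465) (nat_lit 433) (nat_lit 6576) (.f (nat_lit 494) (nat_lit 493) (nat_lit 2509) (.d (nat_lit 466) (nat_lit 463) (nat_lit 1486) (nat_lit 467) (nat_lit 1487)))) (.a (.p (nat_lit 497) (.a (.f (nat_lit 463) (nat_lit 431) (nat_lit 7599) (.d (nat_lit 498) (nat_lit 462) (nat_lit 3534) (nat_lit 499) (nat_lit 3535))) (.a (.p (nat_lit 498) (.a (.f (nat_lit 467) (nat_lit 466) (nat_lit 2511) (.f (nat_lit 499) (nat_lit 468) (nat_lit 2512) (.d (nat_lit 531) (nat_lit 530) (nat_lit 495) (nat_lit 532) (nat_lit 496)))) (.a (.f (nat_lit 463) (nat_lit 462) (nat_lit 3534) (.f (nat_lit 466) (nat_lit 467) (nat_lit 2511) (.f (nat_lit 494) (nat_lit 465) (nat_lit 2510) (.f (nat_lit 493) (nat_lit 492) (nat_lit 2508) (.d (nat_lit 525) (nat_lit 524) (nat_lit 1516) (nat_lit 526) (nat_lit 1517)))))) (.d (nat_lit 463) (nat_lit 462) (nat_lit 3534) (nat_lit 499) (nat_lit 3535))))) (.a (.p (nat_lit 498) (.a (.f (nat_lit 467) (nat_lit 466) (nat_lit 2511) (.f (nat_lit 499) (nat_lit 468) (nat_lit 2512) (.d (nat_lit 531) (nat_lit 530) (nat_lit 495) (nat_lit 532) (nat_lit 496)))) (.a (.f (nat_lit 466) (nat_lit 467) (nat_lit 2511) (.f (nat_lit 494) (nat_lit 465) (nat_lit 2510) (.f (nat_lit 461) (nat_lit 462) (nat_lit 3533) (.f (nat_lit 493) (nat_lit 460) (nat_lit 3532) (.d (nat_lit 525) (nat_lit 524) (nat_lit 1516) (nat_lit 526) (nat_lit 1517)))))) (.a (.f (nat_lit 531) (nat_lit 530) (nat_lit 495) (.f (nat_lit 499) (nat_lit 532) (nat_lit 496) (.f (nat_lit 468) (nat_lit 467) (nat_lit 2512) (.d (nat_lit 500) (nat_lit 465) (nat_lit 3536) (nat_lit 469) (nat_lit 2513))))) (.f (nat_lit 531) (nat_lit 530) (nat_lit 495) (.f (nat_lit 499) (nat_lit 532) (nat_lit 496) (.f (nat_lit 465) (nat_lit 500) (nat_lit 3536) (.d (nat_lit 494) (nat_lit 466) (nat_lit 2510) (nat_lit 493) (nat_lit 2509))))))))) (.a (.f (nat_lit 463) (nat_lit 431) (nat_lit 7599) (.d (nat_lit 462) (nat_lit 461) (nat_lit 461) (nat_lit 498) (nat_lit 3534))) (.a (.p (nat_lit 494) (.a (.f (nat_lit 461) (nat_lit 462) (nat_lit 3533) (.f (nat_lit 493) (nat_lit 460) (nat_lit 3532) (.d (nat_lit 525) (nat_lit 524) (nat_lit 1516) (nat_lit 526) (nat_lit 1517)))) (.a (.d (nat_lit 465) (nat_lit 466) (nat_lit 2510) (nat_lit 493) (nat_lit 2509)) (.f (nat_lit 431) (nat_lit 463) (nat_lit 7599) (.f (nat_lit 399) (nat_lit 432) (nat_lit 7567) (.f (nat_lit 462) (nat_lit 461) (nat_lit 3533) (.d (nat_lit 526) (nat_lit 430) (nat_lit 6542) (nat_lit 525) (nat_lit 1517)))))))) (.f (nat_lit 463) (nat_lit 431) (nat_lit 7599) (.f (nat_lit 498) (nat_lit 499) (nat_lit 3535) (.f (nat_lit 466) (nat_lit 467) (nat_lit 2511) (.f (nat_lit 494) (nat_lit 465) (nat_lit 2510) (.f (nat_lit 493) (nat_lit 492) (nat_lit 2508) (.d (nat_lit 525) (nat_lit 524) (nat_lit 1516) (nat_lit 526) (nat_lit 1517))))))))))))) (.f (nat_lit 465) (nat_lit 433) (nat_lit 6576) (.f (nat_lit 494) (nat_lit 493) (nat_lit 2509) (.d (nat_lit 466) (nat_lit 467) (nat_lit 1487) (nat_lit 497) (nat_lit 2510)))))))))))))))))))))) (.p (nat_lit 497) (.a (.f (nat_lit 465) (nat_lit 592) (nat_lit 6608) (.d (nat_lit 433) (nat_lit 401) (nat_lit 5520) (nat_lit 464) (nat_lit 6576))) (.a (.f (nat_lit 592) (nat_lit 465) (nat_lit 6608) (.f (nat_lit 495) (nat_lit 463) (nat_lit 7631) (.f (nat_lit 527) (nat_lit 624) (nat_lit 7663) (.d (nat_lit 526) (nat_lit 498) (nat_lit 1518) (nat_lit 525) (nat_lit 2541))))) (.a (.p (nat_lit 495) (.a (.p (nat_lit 494) (.a (.f (nat_lit 526) (nat_lit 525) (nat_lit 1517) (.f (nat_lit 498) (nat_lit 527) (nat_lit 1518) (.f (nat_lit 467) (nat_lit 466) (nat_lit 2511) (.f (nat_lit 499) (nat_lit 468) (nat_lit 2512) (.d (nat_lit 531) (nat_lit 530) (nat_lit 495) (nat_lit 532) (nat_lit 496)))))) (.a (.f (nat_lit 525) (nat_lit 526) (nat_lit 1517) (.f (nat_lit 493) (nat_lit 524) (nat_lit 1516) (.d (nat_lit 461) (nat_lit 460) (nat_lit 3532) (nat_lit 462) (nat_lit 3533)))) (.a (.f (nat_lit 461) (nat_lit 462) (nat_lit 3533) (.f (nat_lit 493) (nat_lit 460) (nat_lit 3532) (.f (nat_lit 527) (nat_lit 492) (nat_lit 492) (.d (nat_lit 498) (nat_lit 499) (nat_lit 1519) (nat_lit 526) (nat_lit 1518))))) (.f (nat_lit 461) (nat_lit 462) (nat_lit 3533) (.f (nat_lit 493) (nat_lit 460) (nat_lit 3532) (.f (nat_lit 524) (nat_lit 525) (nat_lit 1516) (.d (nat_lit 492) (nat_lit 523) (nat_lit 1515) (nat_lit 527) (nat_lit 492))))))))) (.a (.p (nat_lit 498) (.a (.f (nat_lit 531) (nat_lit 530) (nat_lit 495) (.f (nat_lit 499) (nat_lit 532) (nat_lit 496) (.d (nat_lit 467) (nat_lit 466) (nat_lit 2511) (nat_lit 468) (nat_lit 2512)))) (.f (nat_lit 463) (nat_lit 462) (nat_lit 3534) (.d (nat_lit 431) (nat_lit 399) (nat_lit 4495) (nat_lit 464) (nat_lit 7599))))) (.a (.p (nat_lit 494) (.a (.f (nat_lit 526) (nat_lit 525) (nat_lit 1517) (.f (nat_lit 527) (nat_lit 498) (nat_lit 1518) (.f (nat_lit 493) (nat_lit 492) (nat_lit 492) (.d (nat_lit 461) (nat_lit 460) (nat_lit 3532) (nat_lit 462) (nat_lit 3533))))) (.a (.f (nat_lit 525) (nat_lit 526) (nat_lit 1517) (.f (nat_lit 493) (nat_lit 524) (nat_lit 1516) (.d (nat_lit 461) (nat_lit 460) (nat_lit 3532) (nat_lit 462) (nat_lit 3533)))) (.a (.f (nat_lit 462) (nat_lit 461) (nat_lit 3533) (.f (nat_lit 463) (nat_lit 498) (nat_lit 3534) (.d (nat_lit 431) (nat_lit 399) (nat_lit 4495) (nat_lit 464) (nat_lit 7599)))) (.a (.f (nat_lit 525) (nat_lit 526) (nat_lit 1517) (.f (nat_lit 493) (nat_lit 524) (nat_lit 1516) (.f (nat_lit 492) (nat_lit 527) (nat_lit 492) (.d (nat_lit 460) (nat_lit 459) (nat_lit 3531) (nat_lit 461) (nat_lit 3532))))) (.f (nat_lit 526) (nat_lit 525) (nat_lit 1517) (.f (nat_lit 498) (nat_lit 527) (nat_lit 1518) (.f (nat_lit 463) (nat_lit 462) (nat_lit 3534) (.d (nat_lit 431) (nat_lit 399) (nat_lit 4495) (nat_lit 464) (nat_lit 7599)))))))))) (.f (nat_lit 463) (nat_lit 592) (nat_lit 7631) (.d (nat_lit 431) (nat_lit 399) (nat_lit 4495) (nat_lit 464) (nat_lit 7599))))))) (.p (nat_lit 498) (.a (.f (nat_lit 527) (nat_lit 499) (nat_lit 1519) (.d (nat_lit 526) (nat_lit 495) (nat_lit 1518) (nat_lit 525) (nat_lit 2541))) (.a s104074 (.a (.f (nat_lit 499) (nat_lit 527) (nat_lit 1519) (.f (nat_lit 532) (nat_lit 531) (nat_lit 496) (.f (nat_lit 500) (nat_lit 533) (nat_lit 497) (.d (nat_lit 468) (nat_lit 467) (nat_lit 2512) (nat_lit 469) (nat_lit 2513))))) (.p (nat_lit 495) (.a (.f (nat_lit 466) (nat_lit 467) (nat_lit 2511) (.f (nat_lit 465) (nat_lit 494) (nat_lit 2510) (.d (nat_lit 433) (nat_lit 401) (nat_lit 5520) (nat_lit 464) (nat_lit 6576)))) (.a (.f (nat_lit 526) (nat_lit 527) (nat_lit 1518) (.f (nat_lit 494) (nat_lit 525) (nat_lit 1517) (.d (nat_lit 466) (nat_lit 465) (nat_lit 2510) (nat_lit 467) (nat_lit 2511)))) (.f (nat_lit 527) (nat_lit 526) (nat_lit 1518) (.d (nat_lit 463) (nat_lit 431) (nat_lit 4527) (nat_lit 462) (nat_lit 3534)))))))))))))))))))))))))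
noncomputable def s107883 : Cert := .r (nat_lit 16209045194715341170109002195406050381527741113466963275787586520503247710330410762735691421379375889955541304622694811570862313610734769212297415533273767914027281989764951048192) (.p (nat_lit 496) (.a (.f (nat_lit 591) (nat_lit 623) (nat_lit 5615) (.f (nat_lit 464) (nat_lit 559) (nat_lit 5583) (.d (nat_lit 465) (nat_lit 433) (nat_lit 6576) (nat_lit 497) (nat_lit 6608)))) (.a (.f (nat_lit 463) (nat_lit 495) (nat_lit 7631) (.f (nat_lit 464) (nat_lit 431) (nat_lit 7599) (.d (nat_lit 465) (nat_lit 433) (nat_lit 6576) (nat_lit 497) (nat_lit 6608)))) (.a (.f (nat_lit 591) (nat_lit 623) (nat_lit 5615) (.f (nat_lit 495) (nat_lit 463) (nat_lit 7631) (.f (nat_lit 497) (nat_lit 465) (nat_lit 6608) (.f (nat_lit 494) (nat_lit 525) (nat_lit 1517) (.f (nat_lit 462) (nat_lit 461) (nat_lit 3533) (.f (nat_lit 558) (nat_lit 559) (nat_lit 4558) (.f (nat_lit 589) (nat_lit 557) (nat_lit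 5581) (.d (nat_lit 590) (nat_lit 561) (nat_lit 2605) (nat_lit 621) (nat_lit 5613))))))))) (.f (nat_lit 591) (nat_lit 623) (nat_lit 5615) (.f (nat_lit 464) (nat_lit 559) (nat_lit 5583) (.d (nat_lit 463) (nat_lit 431) (nat_lit 7599) (nat_lit 495) (nat_lit 7631))))))))
noncomputable def s107897 : Cert := .r (nat_lit 16209045194715341170109002195406050381527741113466963275787586520503247710330410762735691421379375889955541304622694811570862313610734769212297415533273767914027281989764951048192) (.p (nat_lit 496) (.a (.f (nat_lit 591) (nat_lit 623) (nat_lit 5615) (.f (nat_lit 464) (nat_lit 559) (nat_lit 5583) (.d (nat_lit 465) (nat_lit 433) (nat_lit 6576) (nat_lit 497) (nat_lit 6608)))) (.a (.f (nat_lit 463) (nat_lit 495) (nat_lit 7631) (.f (nat_lit 464) (nat_lit 431) (nat_lit 7599) (.d (nat_lit 465) (nat_lit 433) (nat_lit 6576) (nat_lit 497) (nat_lit 6608)))) (.a (.f (nat_lit 495) (nat_lit 463) (nat_lit 7631) (.f (nat_lit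 527) (nat_lit 624) (nat_lit 7663) (.d (nat_lit 497) (nat_lit 465) (nat_lit 6608) (nat_lit 498) (nat_lit 1518)))) (.f (nat_lit 591) (nat_lit 623) (nat_lit 5615) (.f (nat_lit 464) (nat_lit 559) (nat_lit 5583) (.d (nat_lit 463) (nat_lit 431) (nat_lit 7599) (nat_lit 495) (nat_lit 7631))))))))
noncomputable def s107967 : Cert := .r (nat_lit 4717453032125294315973987508880817458218130529296591420246571772779567243795549402077785465380506041852719292777414468402832772512838634980175475457832173847598411546624) (.p (nat_lit 590) (.a (.f (nat_lit 589) (nat_lit 621) (nat_lit 5613) (.f (nat_lit 559) (nat_lit 561) (nat_lit 1581) (.d (nat_lit 557) (nat_lit 462) (nat_lit 5581) (nat_lit 588) (nat_lit 1580)))) (.a (.f (nat_lit 589) (nat_lit 621) (nat_lit 5613) (.f (nat_lit 462) (nat_lit 557) (nat_lit 5581) (.d (nat_lit 463) (nat_lit 431) (nat_lit 6574) (nat_lit 495) (nat_lit 6606)))) (.a (.f (nat_lit 591) (nat_lit 623) (nat_lit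 4590) (.f (nat_lit 559) (nat_lit 462) (nat_lit 4558) (.d (nat_lit 561) (nat_lit 525) (nat_lit 3597) (nat_lit 589) (nat_lit 1581)))) (.a (.f (nat_lit 591) (nat_lit 623) (nat_lit 4590) (.f (nat_lit 559) (nat_lit 462) (nat_lit 4558) (.d (nat_lit 561) (nat_lit 525) (nat_lit 3597) (nat_lit 562) (nat_lit 1582)))) (.f (nat_lit 589) (nat_lit 621) (nat_lit 5613) (.f (nat_lit 559) (nat_lit 561) (nat_lit 1581) (.d (nat_lit 588) (nat_lit 557) (nat_lit 1580) (nat_lit 587) (nat_lit 2603)))))))))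
noncomputable def s107983 : Cert := .r (nat_lit 4717453032125294315973987508880817458218130529296591420246571772779567243795549402077785465380506041852719292777414468402832772512838634980175475457832173847598411546624) (.p (nat_lit 462) (.a (.f (nat_lit 559) (nat_lit 591) (nat_lit 4558) (.f (nat_lit 527) (nat_lit 430) (nat_lit 4526) (.d (nat_lit 561) (nat_lit 525) (nat_lit 3597) (nat_lit 562) (nat_lit 3598)))) (.a (.f (nat_lit 559) (nat_lit 591) (nat_lit 4558) (.f (nat_lit 525) (nat_lit 561) (nat_lit 3597) (.d (nat_lit 557) (nat_lit 524) (nat_lit 3596) (nat_lit 589) (nat_lit 5581)))) (.a (.f (nat_lit 557) (nat_lit 589) (nat_lit 5581) (.f (nat_lit 525) (nat_lit 430) (nat_lit 5549) (.d (nat_lit 561) (nat_lit 527) (nat_lit 525) (nat_lit 559) (nat_lit 3597)))) (.a (.f (nat_lit 559) (nat_lit 591) (nat_lit 4558) (.f (nat_lit 527) (nat_lit 430) (nat_lit 4526) (.d (nat_lit 557) (nat_lit 556) (nat_lit 2572) (nat_lit 589)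 (nat_lit 5581)))) (.f (nat_lit 557) (nat_lit 589) (nat_lit 5581) (.f (nat_lit 525) (nat_lit 430) (nat_lit 5549) (.d (nat_lit 527) (nat_lit 556) (nat_lit 1548) (nat_lit 561) (nat_lit 525)))))))))
noncomputable def s107995 : Cert := .r (nat_lit 4717453032125294315922840780632440241499174440283660183493186740810144356459872974451283374811683001932668197584822215947350168073345508870656455824302714581140153303040) (.p (nat_lit 494) (.a (.p (nat_lit 590) (.a (.f (nat_lit 589) (nat_lit 621) (nat_lit 5613) (.f (nat_lit 559) (nat_lit 561) (nat_lit 1581) (.d (nat_lit 557) (nat_lit 462) (nat_lit 5581) (nat_lit 588) (nat_lit 1580)))) (.f (nat_lit 495) (nat_lit 463) (nat_lit 6606) (.f (nat_lit 493) (nat_lit 461) (nat_lit 7629) (.d (nat_lit 527) (nat_lit 492) (nat_lit 492) (nat_lit 622) (nat_lit 6638)))))) (.a s107967 (.a s107983 (.a (.p (nat_lit 590) (.a (.f (nat_lit 495) (nat_lit 463) (nat_lit 6606) (.f (nat_lit 493) (nat_lit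 461) (nat_lit 7629) (.d (nat_lit 527) (nat_lit 492) (nat_lit 492) (nat_lit 622) (nat_lit 6638)))) (.a (.f (nat_lit 589) (nat_lit 621) (nat_lit 5613) (.f (nat_lit 462) (nat_lit 557) (nat_lit 5581) (.d (nat_lit 463) (nat_lit 431) (nat_lit 6574) (nat_lit 495) (nat_lit 6606)))) (.f (nat_lit 493) (nat_lit 461) (nat_lit 7629) (.f (nat_lit 525) (nat_lit 622) (nat_lit 7661) (.d (nat_lit 527) (nat_lit 492) (nat_lit 3564) (nat_lit 561) (nat_lit 525))))))) (.a (.p (nat_lit 590) (.a (.f (nat_lit 495) (nat_lit 463) (nat_lit 6606) (.f (nat_lit 493) (nat_lit 461) (nat_lit 7629) (.d (nat_lit 527) (nat_lit 492) (nat_lit 492) (nat_lit 622) (nat_lit 6638)))) (.f (nat_lit 591) (nat_lit 623) (nat_lit 4590) (.f (nat_lit 559) (nat_lit 462) (nat_lit 4558) (.d (nat_lit 561) (nat_lit 525) (nat_lit 3597) (nat_lit 589) (nat_lit 1581)))))) (.a (.p (nat_lit 590) (.a (.f (nat_lit 495) (nat_lit 463) (nat_lit 6606) (.f (nat_lit 493) (nat_lit 461)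 (nat_lit 7629) (.d (nat_lit 527) (nat_lit 492) (nat_lit 492) (nat_lit 622) (nat_lit 6638)))) (.a (.f (nat_lit 589) (nat_lit 621) (nat_lit 5613) (.f (nat_lit 462) (nat_lit 557) (nat_lit 5581) (.d (nat_lit 463) (nat_lit 431) (nat_lit 6574) (nat_lit 495) (nat_lit 6606)))) (.f (nat_lit 591) (nat_lit 623) (nat_lit 4590) (.f (nat_lit 559) (nat_lit 462) (nat_lit 4558) (.d (nat_lit 589) (nat_lit 588) (nat_lit 2604) (nat_lit 621) (nat_lit 5613))))))) (.a (.p (nat_lit 590) (.a (.f (nat_lit 495) (nat_lit 463) (nat_lit 6606) (.f (nat_lit 493) (nat_lit 461) (nat_lit 7629) (.d (nat_lit 527) (nat_lit 492) (nat_lit 492) (nat_lit 622) (nat_lit 6638)))) (.f (nat_lit 591) (nat_lit 623) (nat_lit 4590) (.f (nat_lit 559) (nat_lit 462) (nat_lit 4558) (.d (nat_lit 561) (nat_lit 525) (nat_lit 3597) (nat_lit 562) (nat_lit 1582)))))) (.p (nat_lit 590) (.a (.f (nat_lit 495) (nat_lit 463) (nat_lit 6606) (.f (nat_lit 493) (nat_lit 461) (nat_lit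 7629) (.d (nat_lit 527) (nat_lit 492) (nat_lit 492) (nat_lit 622) (nat_lit 6638)))) (.f (nat_lit 589) (nat_lit 621) (nat_lit 5613) (.f (nat_lit 559) (nat_lit 561) (nat_lit 1581) (.d (nat_lit 588) (nat_lit 557) (nat_lit 1580) (nat_lit 587) (nat_lit 2603))))))))))))))
noncomputable def s108011 : Cert := .r (nat_lit 4717453032125294315973987508880817458218130529296591420246571772779567243795549402077785465380506041852719292777414468402832772512838634980175475457832173847598411546624) (.p (nat_lit 590) (.a (.f (nat_lit 589) (nat_lit 621) (nat_lit 5613) (.f (nat_lit 559) (nat_lit 561) (nat_lit 1581) (.d (nat_lit 557) (nat_lit 462) (nat_lit 5581) (nat_lit 588) (nat_lit 1580)))) (.a (.f (nat_lit 589) (nat_lit 621) (nat_lit 5613) (.f (nat_lit 462) (nat_lit 557) (nat_lit 5581) (.d (nat_lit 463) (nat_lit 431) (nat_lit 6574) (nat_lit 495) (nat_lit 6606)))) (.a (.f (nat_lit 591) (nat_lit 623) (nat_lit 4590) (.f (nat_lit 559)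 (nat_lit 462) (nat_lit 4558) (.d (nat_lit 589) (nat_lit 588) (nat_lit 2604) (nat_lit 621) (nat_lit 5613)))) (.a (.f (nat_lit 591) (nat_lit 623) (nat_lit 4590) (.f (nat_lit 462) (nat_lit 559) (nat_lit 4558) (.d (nat_lit 463) (nat_lit 431) (nat_lit 6574) (nat_lit 495) (nat_lit 6606)))) (.f (nat_lit 589) (nat_lit 621) (nat_lit 5613) (.f (nat_lit 559) (nat_lit 561) (nat_lit 1581) (.d (nat_lit 588) (nat_lit 557) (nat_lit 1580) (nat_lit 587) (nat_lit 2603)))))))))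
noncomputable def s108020 : Cert := .r (nat_lit 4717453032125294315973987508880817458218130529296591420246571772779567243795549402077785465380506041852719292777414468402832772512838634980175475457832173847598411546624) (.p (nat_lit 590) (.a (.f (nat_lit 589) (nat_lit 621) (nat_lit 5613) (.f (nat_lit 462) (nat_lit 557) (nat_lit 5581) (.d (nat_lit 463) (nat_lit 431) (nat_lit 6574) (nat_lit 495) (nat_lit 6606)))) (.a (.f (nat_lit 589) (nat_lit 621) (nat_lit 5613) (.f (nat_lit 557) (nat_lit 462) (nat_lit 5581) (.f (nat_lit 493) (nat_lit 461) (nat_lit 7629) (.f (nat_lit 525) (nat_lit 622) (nat_lit 4589) (.f (nat_lit 588) (nat_lit 620) (nat_lit 5612) (.f (nat_lit 591) (nat_lit 623) (nat_lit 4590) (.f (nat_lit 555) (nat_lit 556) (nat_lit 3627) (.d (nat_lit 587) (nat_lit 554) (nat_lit 3626) (nat_lit 586) (nat_lit 2602))))))))) (.f (nat_lit 493) (nat_lit 461) (nat_lit 7629) (.f (nat_lit 525) (nat_lit 622) (nat_lit 7661) (.f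 (nat_lit 495) (nat_lit 463) (nat_lit 6606) (.d (nat_lit 524) (nat_lit 496) (nat_lit 1516) (nat_lit 523) (nat_lit 2539))))))))
noncomputable def s108021 : Cert := .r (nat_lit 4717453032125294315973987508880817458218130529296591420246571772779567243795549402077785465380506041852719292777414468402832772512838634980175475457832173847598411546624) (.p (nat_lit 590) (.a (.f (nat_lit 589) (nat_lit 621) (nat_lit 5613) (.f (nat_lit 559) (nat_lit 561) (nat_lit 1581) (.d (nat_lit 557) (nat_lit 462) (nat_lit 5581) (nat_lit 588) (nat_lit 1580)))) (.a (.f (nat_lit 589) (nat_lit 621) (nat_lit 5613) (.f (nat_lit 557) (nat_lit 462) (nat_lit 5581) (.f (nat_lit 493) (nat_lit 461) (nat_lit 7629) (.f (nat_lit 525) (nat_lit 622) (nat_lit 4589) (.f (nat_lit 588) (nat_lit 620) (nat_lit 5612) (.f (nat_lit 591) (nat_lit 623) (nat_lit 4590) (.f (nat_lit 555) (nat_lit 556) (nat_lit 3627) (.d (nat_lit 587) (nat_lit 554) (nat_lit 3626) (nat_lit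 586) (nat_lit 2602))))))))) (.a (.f (nat_lit 591) (nat_lit 623) (nat_lit 4590) (.f (nat_lit 559) (nat_lit 462) (nat_lit 4558) (.d (nat_lit 561) (nat_lit 525) (nat_lit 3597) (nat_lit 589) (nat_lit 1581)))) (.a (.f (nat_lit 591) (nat_lit 623) (nat_lit 4590) (.f (nat_lit 559) (nat_lit 462) (nat_lit 4558) (.d (nat_lit 561) (nat_lit 525) (nat_lit 3597) (nat_lit 562) (nat_lit 1582)))) (.f (nat_lit 589) (nat_lit 621) (nat_lit 5613) (.f (nat_lit 559) (nat_lit 561) (nat_lit 1581) (.d (nat_lit 588) (nat_lit 557) (nat_lit 1580) (nat_lit 587) (nat_lit 2603)))))))))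
noncomputable def s108034 : Cert := .r (nat_lit 4052261302452797718172567620308740342168032265173429225435669294519214876955562468178336889438689423921251250576516624520754980669431979897453785075845873487448399936024439947264) (.p (nat_lit 494) (.a (.f (nat_lit 589) (nat_lit 621) (nat_lit 5613) (.f (nat_lit 559) (nat_lit 561) (nat_lit 1581) (.d (nat_lit 557) (nat_lit 462) (nat_lit 5581) (nat_lit 588) (nat_lit 1580)))) (.a (.f (nat_lit 493) (nat_lit 461) (nat_lit 7629) (.f (nat_lit 525) (nat_lit 622) (nat_lit 7661) (.d (nat_lit 527) (nat_lit 492) (nat_lit 3564) (nat_lit 561) (nat_lit 525)))) (.f (nat_lit 493) (nat_lit 461) (nat_lit 7629) (.f (nat_lit 525) (nat_lit 622) (nat_lit 7661) (.f (nat_lit 527) (nat_lit 492) (nat_lit 3564) (.f (nat_lit 557) (nat_lit 556) (nat_lit 1548) (.d (nat_lit 589) (nat_lit 462) (nat_lit 6605) (nat_lit 621) (nat_lit 5613)))))))))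
noncomputable def s108043 : Cert := .r (nat_lit 4052261302452797718172567620308740342168032265173429225435669294519214876955562468178336889438689423921251250576516624520754980669431979897453785075845873487448399936024439947264) (.p (nat_lit 494) (.a (.f (nat_lit 495) (nat_lit 463) (nat_lit 6606) (.f (nat_lit 493) (nat_lit 461) (nat_lit 7629) (.d (nat_lit 527) (nat_lit 492) (nat_lit 492) (nat_lit 622) (nat_lit 6638)))) (.a (.f (nat_lit 589) (nat_lit 621) (nat_lit 5613) (.f (nat_lit 462) (nat_lit 557) (nat_lit 5581) (.d (nat_lit 463) (nat_lit 431) (nat_lit 6574) (nat_lit 495) (nat_lit 6606)))) (.f (nat_lit 493) (nat_lit 461) (nat_lit 7629) (.f (nat_lit 525) (nat_lit 622) (nat_lit 7661) (.f (nat_lit 527) (nat_lit 492) (nat_lit 3564) (.f (nat_lit 557) (nat_lit 556) (nat_lit 1548) (.d (nat_lit 589) (nat_lit 462) (nat_lit 6605) (nat_lit 621) (nat_lit 5613)))))))))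
noncomputable def s108055 : Cert := .r (nat_lit 4052261302452797718172567620308740342168032265173429225435669294519214876955562468178336889438689423921251250576516624520754980669431979897453785075845873487448399936024439947264) (.p (nat_lit 494) (.a (.f (nat_lit 589) (nat_lit 621) (nat_lit 5613) (.f (nat_lit 559) (nat_lit 561) (nat_lit 1581) (.d (nat_lit 557) (nat_lit 462) (nat_lit 5581) (nat_lit 588) (nat_lit 1580)))) (.a (.f (nat_lit 589) (nat_lit 621) (nat_lit 5613) (.f (nat_lit 462) (nat_lit 557) (nat_lit 5581) (.d (nat_lit 463) (nat_lit 431) (nat_lit 6574) (nat_lit 495) (nat_lit 6606)))) (.a (.f (nat_lit 463) (nat_lit 495) (nat_lit 6606) (.f (nat_lit 462) (nat_lit 431) (nat_lit 6574) (.d (nat_lit 461) (nat_lit 429) (nat_lit 7597) (nat_lit 493) (nat_lit 7629)))) (.f (nat_lit 589) (nat_lit 621) (nat_lit 5613) (.f (nat_lit 559) (nat_lit 561) (nat_lit 1581) (.d (nat_lit 588) (nat_lit 557) (nat_lit 1580) (nat_lit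 587) (nat_lit 2603))))))))
noncomputable def s108087 : Cert := .r (nat_lit 4717453032125294315973987508880817458218130529296591420246571772779567243795549402077785465380506041852719292777414468402832772512838634980175475457832173847598411546624) (.p (nat_lit 462) (.a (.f (nat_lit 559) (nat_lit 591) (nat_lit 4558) (.f (nat_lit 527) (nat_lit 430) (nat_lit 4526) (.d (nat_lit 557) (nat_lit 556) (nat_lit 2572) (nat_lit 589) (nat_lit 5581)))) (.a (.f (nat_lit 431) (nat_lit 463) (nat_lit 6574) (.f (nat_lit 430) (nat_lit 399) (nat_lit 6542) (.d (nat_lit 429) (nat_lit 397) (nat_lit 7565) (nat_lit 461) (nat_lit 7597)))) (.f (nat_lit 559) (nat_lit 591) (nat_lit 4558) (.f (nat_lit 557) (nat_lit 589) (nat_lit 5581) (.f (nat_lit 556) (nat_lit 527) (nat_lit 2572) (.f (nat_lit 587) (nat_lit 588) (nat_lit 1579) (.f (nat_lit 555) (nat_lit 586) (nat_lit 1578) (.d (nat_lit 523) (nat_lit 522) (nat_lit 3594) (nat_lit 524) (nat_lit 3595))))))))))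
noncomputable def s108095 : Cert := .r (nat_lit 4717453032125294315973987508880817458218130529296591420246571772779567243795549402077785465380506041852719292777414468402832772512838634980175475457832173847598411546624) (.p (nat_lit 590) (.a (.f (nat_lit 589) (nat_lit 621) (nat_lit 5613) (.f (nat_lit 559) (nat_lit 561) (nat_lit 1581) (.d (nat_lit 557) (nat_lit 462) (nat_lit 5581) (nat_lit 588) (nat_lit 1580)))) (.a (.f (nat_lit 589) (nat_lit 621) (nat_lit 5613) (.f (nat_lit 462) (nat_lit 557) (nat_lit 5581) (.d (nat_lit 461) (nat_lit 429) (nat_lit 7597) (nat_lit 493) (nat_lit 7629)))) (.a (.f (nat_lit 591) (nat_lit 623) (nat_lit 4590) (.f (nat_lit 559) (nat_lit 462) (nat_lit 4558) (.d (nat_lit 589) (nat_lit 588) (nat_lit 2604) (nat_lit 621) (nat_lit 5613)))) (.a (.f (nat_lit 591) (nat_lit 623) (nat_lit 4590) (.f (nat_lit 462) (nat_lit 559) (nat_lit 4558) (.d (nat_lit 461) (nat_lit 429) (nat_lit 7597) (nat_lit 493)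 (nat_lit 7629)))) (.f (nat_lit 589) (nat_lit 621) (nat_lit 5613) (.f (nat_lit 559) (nat_lit 561) (nat_lit 1581) (.d (nat_lit 588) (nat_lit 557) (nat_lit 1580) (nat_lit 587) (nat_lit 2603)))))))))
noncomputable def s108098 : Cert := .r (nat_lit 4717453032125294315922840780632440241499174440283660183493186740810144356459872974451283374811683001932668197584822215947350168073345508870656455824302714581140153303040) (.p (nat_lit 494) (.a (.p (nat_lit 590) (.a (.f (nat_lit 589) (nat_lit 621) (nat_lit 5613) (.f (nat_lit 559) (nat_lit 561) (nat_lit 1581) (.d (nat_lit 557) (nat_lit 462) (nat_lit 5581) (nat_lit 588) (nat_lit 1580)))) (.f (nat_lit 495) (nat_lit 463) (nat_lit 6606) (.f (nat_lit 493) (nat_lit 461) (nat_lit 7629) (.d (nat_lit 527) (nat_lit 492) (nat_lit 492) (nat_lit 622) (nat_lit 6638)))))) (.a s108011 (.a s108087 (.a (.p (nat_lit 590) (.a (.f (nat_lit 495) (nat_lit 463) (nat_lit 6606) (.f (nat_lit 493) (nat_lit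 461) (nat_lit 7629) (.d (nat_lit 527) (nat_lit 492) (nat_lit 492) (nat_lit 622) (nat_lit 6638)))) (.a (.f (nat_lit 589) (nat_lit 621) (nat_lit 5613) (.f (nat_lit 462) (nat_lit 557) (nat_lit 5581) (.d (nat_lit 463) (nat_lit 431) (nat_lit 6574) (nat_lit 495) (nat_lit 6606)))) (.f (nat_lit 589) (nat_lit 621) (nat_lit 5613) (.f (nat_lit 462) (nat_lit 557) (nat_lit 5581) (.d (nat_lit 461) (nat_lit 429) (nat_lit 7597) (nat_lit 493) (nat_lit 7629))))))) (.a s108095 (.a (.p (nat_lit 590) (.a (.f (nat_lit 495) (nat_lit 463) (nat_lit 6606) (.f (nat_lit 493) (nat_lit 461) (nat_lit 7629) (.d (nat_lit 527) (nat_lit 492) (nat_lit 492) (nat_lit 622) (nat_lit 6638)))) (.f (nat_lit 591) (nat_lit 623) (nat_lit 4590) (.f (nat_lit 559) (nat_lit 462) (nat_lit 4558) (.d (nat_lit 589) (nat_lit 588) (nat_lit 2604) (nat_lit 621) (nat_lit 5613)))))) (.a (.p (nat_lit 590) (.a (.f (nat_lit 495) (nat_lit 463) (nat_lit 6606) (.f (nat_lit 493)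 (nat_lit 461) (nat_lit 7629) (.d (nat_lit 527) (nat_lit 492) (nat_lit 492) (nat_lit 622) (nat_lit 6638)))) (.a (.f (nat_lit 591) (nat_lit 623) (nat_lit 4590) (.f (nat_lit 462) (nat_lit 559) (nat_lit 4558) (.d (nat_lit 463) (nat_lit 431) (nat_lit 6574) (nat_lit 495) (nat_lit 6606)))) (.f (nat_lit 591) (nat_lit 623) (nat_lit 4590) (.f (nat_lit 462) (nat_lit 559) (nat_lit 4558) (.d (nat_lit 461) (nat_lit 429) (nat_lit 7597) (nat_lit 493) (nat_lit 7629))))))) (.p (nat_lit 590) (.a (.f (nat_lit 495) (nat_lit 463) (nat_lit 6606) (.f (nat_lit 493) (nat_lit 461) (nat_lit 7629) (.d (nat_lit 527) (nat_lit 492) (nat_lit 492) (nat_lit 622) (nat_lit 6638)))) (.f (nat_lit 589) (nat_lit 621) (nat_lit 5613) (.f (nat_lit 559) (nat_lit 561) (nat_lit 1581) (.d (nat_lit 588) (nat_lit 557) (nat_lit 1580) (nat_lit 587) (nat_lit 2603))))))))))))))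
noncomputable def s108106 : Cert := .r (nat_lit 4052261302452797718172567620308740342168032265173429225435669294519214876955562468178336889438689423921251250576516624520754980669431979897453785075845873487448399936024439947264) (.p (nat_lit 494) (.a (.f (nat_lit 493) (nat_lit 461) (nat_lit 7629) (.f (nat_lit 525) (nat_lit 622) (nat_lit 7661) (.d (nat_lit 527) (nat_lit 492) (nat_lit 3564) (nat_lit 561) (nat_lit 525)))) (.a (.f (nat_lit 589) (nat_lit 621) (nat_lit 5613) (.f (nat_lit 557) (nat_lit 462) (nat_lit 5581) (.f (nat_lit 493) (nat_lit 461) (nat_lit 7629) (.f (nat_lit 525) (nat_lit 622) (nat_lit 4589) (.f (nat_lit 588) (nat_lit 620) (nat_lit 5612) (.f (nat_lit 591) (nat_lit 623) (nat_lit 4590) (.f (nat_lit 555) (nat_lit 556) (nat_lit 3627) (.d (nat_lit 587) (nat_lit 554) (nat_lit 3626) (nat_lit 586) (nat_lit 2602))))))))) (.a (.f (nat_lit 589) (nat_lit 621) (nat_lit 5613) (.f (nat_lit 462) (nat_lit 557) (nat_lit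 5581) (.d (nat_lit 461) (nat_lit 429) (nat_lit 7597) (nat_lit 493) (nat_lit 7629)))) (.f (nat_lit 589) (nat_lit 621) (nat_lit 5613) (.f (nat_lit 557) (nat_lit 462) (nat_lit 5581) (.f (nat_lit 623) (nat_lit 591) (nat_lit 4590) (.f (nat_lit 622) (nat_lit 655) (nat_lit 4622) (.d (nat_lit 654) (nat_lit 525) (nat_lit 7693) (nat_lit 686) (nat_lit 7725))))))))))
noncomputable def s108124 : Cert := .r (nat_lit 4052261302452797718172567620308740342168032265173429225435669294519214876955562468178336889438689423921251250576516624520754980669431979897453785075845873487448399936024439947264) (.p (nat_lit 525) (.a (.f (nat_lit 527) (nat_lit 561) (nat_lit 525) (.d (nat_lit 493) (nat_lit 492) (nat_lit 3564) (nat_lit 622) (nat_lit 7661))) (.a (.f (nat_lit 622) (nat_lit 493) (nat_lit 7661) (.f (nat_lit 654) (nat_lit 557) (nat_lit 7693) (.d (nat_lit 653) (nat_lit 621) (nat_lit 5645) (nat_lit 685) (nat_lit 5677)))) (.a (.f (nat_lit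 527) (nat_lit 561) (nat_lit 525) (.f (nat_lit 622) (nat_lit 495) (nat_lit 6638) (.d (nat_lit 557) (nat_lit 556) (nat_lit 1548) (nat_lit 654) (nat_lit 7693)))) (.f (nat_lit 527) (nat_lit 561) (nat_lit 525) (.f (nat_lit 557) (nat_lit 556) (nat_lit 1548) (.d (nat_lit 493) (nat_lit 461) (nat_lit 4557) (nat_lit 492) (nat_lit 3564))))))))
noncomputable def s108135 : Cert := .r (nat_lit 4717453032125294315973987508880817458218130529296591420246571772779567243795549402077785465380506041852719292777414468402832772512838634980175475457832173847598411546624) (.p (nat_lit 590) (.a (.f (nat_lit 495) (nat_lit 463) (nat_lit 6606) (.f (nat_lit 493) (nat_lit 461) (nat_lit 7629) (.d (nat_lit 527) (nat_lit 492) (nat_lit 492) (nat_lit 622) (nat_lit 6638)))) (.a (.f (nat_lit 493) (nat_lit 461) (nat_lit 7629) (.f (nat_lit 525) (nat_lit 622) (nat_lit 7661) (.f (nat_lit 495) (nat_lit 463) (nat_lit 6606) (.d (nat_lit 524) (nat_lit 496) (nat_lit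 1516) (nat_lit 523) (nat_lit 2539))))) (.a (.f (nat_lit 493) (nat_lit 461) (nat_lit 7629) (.f (nat_lit 525) (nat_lit 622) (nat_lit 7661) (.d (nat_lit 527) (nat_lit 492) (nat_lit 3564) (nat_lit 561) (nat_lit 525)))) (.a (.f (nat_lit 495) (nat_lit 463) (nat_lit 6606) (.f (nat_lit 527) (nat_lit 622) (nat_lit 6638) (.f (nat_lit 525) (nat_lit 561) (nat_lit 525) (.d (nat_lit 524) (nat_lit 523) (nat_lit 2539) (nat_lit 559) (nat_lit 524))))) (.f (nat_lit 463) (nat_lit 495) (nat_lit 6606) (.f (nat_lit 462) (nat_lit 431) (nat_lit 6574) (.d (nat_lit 461) (nat_lit 429) (nat_lit 7597) (nat_lit 493) (nat_lit 7629)))))))))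
noncomputable def s108140 : Cert := .r (nat_lit 4717453032125294315973987508880817458218130529296591420246571772779567243795549402077785465380506041852719292777414468402832772512838634980175475457832173847598411546624) (.p (nat_lit 590) (.a (.f (nat_lit 495) (nat_lit 463) (nat_lit 6606) (.f (nat_lit 493) (nat_lit 461) (nat_lit 7629) (.d (nat_lit 527) (nat_lit 492) (nat_lit 492) (nat_lit 622) (nat_lit 6638)))) (.a (.f (nat_lit 493) (nat_lit 461) (nat_lit 7629) (.f (nat_lit 525) (nat_lit 622) (nat_lit 7661) (.f (nat_lit 495) (nat_lit 463) (nat_lit 6606) (.d (nat_lit 524) (nat_lit 496) (nat_lit 1516) (nat_lit 523) (nat_lit 2539))))) (.a (.f (nat_lit 493) (nat_lit 461) (nat_lit 7629) (.f (nat_lit 525) (nat_lit 622) (nat_lit 7661) (.d (nat_lit 527) (nat_lit 492) (nat_lit 3564) (nat_lit 561) (nat_lit 525)))) (.a (.f (nat_lit 495) (nat_lit 463) (nat_lit 6606) (.f (nat_lit 622) (nat_lit 527) (nat_lit 6638) (.d (nat_lit 621)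 (nat_lit 589) (nat_lit 5613) (nat_lit 653) (nat_lit 5645)))) (.f (nat_lit 463) (nat_lit 495) (nat_lit 6606) (.f (nat_lit 462) (nat_lit 431) (nat_lit 6574) (.d (nat_lit 461) (nat_lit 429) (nat_lit 7597) (nat_lit 493) (nat_lit 7629)))))))))
noncomputable def s108146 : Cert := .r (nat_lit 4717453032125294315973987508880817458218130529296591420246571772779567243795549402077785465380506041852719292777414468402832772512838634980175475457832173847598411546624) (.p (nat_lit 590) (.a (.f (nat_lit 591) (nat_lit 623) (nat_lit 4590) (.f (nat_lit 559) (nat_lit 462) (nat_lit 4558) (.d (nat_lit 561) (nat_lit 525) (nat_lit 3597) (nat_lit 589) (nat_lit 1581)))) (.a (.f (nat_lit 495) (nat_lit 463) (nat_lit 6606) (.f (nat_lit 527) (nat_lit 622) (nat_lit 6638) (.f (nat_lit 525) (nat_lit 561) (nat_lit 525) (.d (nat_lit 524) (nat_lit 523) (nat_lit 2539) (nat_lit 559) (nat_lit 524))))) (.a (.f (nat_lit 591) (nat_lit 623) (nat_lit 4590)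 (.f (nat_lit 559) (nat_lit 462) (nat_lit 4558) (.d (nat_lit 589) (nat_lit 588) (nat_lit 2604) (nat_lit 621) (nat_lit 5613)))) (.f (nat_lit 495) (nat_lit 463) (nat_lit 6606) (.f (nat_lit 622) (nat_lit 527) (nat_lit 6638) (.d (nat_lit 621) (nat_lit 589) (nat_lit 5613) (nat_lit 653) (nat_lit 5645))))))))
noncomputable def s108161 : Cert := .r (nat_lit 4717453032125294315973987508880817458218130529296591420246571772779567243795549402077785465380506041852719292777414468402832772512838634980175475457832173847598411546624) (.p (nat_lit 590) (.a (.f (nat_lit 589) (nat_lit 621) (nat_lit 5613) (.f (nat_lit 462) (nat_lit 557) (nat_lit 5581) (.d (nat_lit 463) (nat_lit 431) (nat_lit 6574) (nat_lit 495) (nat_lit 6606)))) (.a (.f (nat_lit 591) (nat_lit 623) (nat_lit 4590) (.f (nat_lit 559) (nat_lit 462) (nat_lit 4558) (.d (nat_lit 589) (nat_lit 588) (nat_lit 2604) (nat_lit 621) (nat_lit 5613)))) (.a (.f (nat_lit 591) (nat_lit 623)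 (nat_lit 4590) (.f (nat_lit 462) (nat_lit 559) (nat_lit 4558) (.d (nat_lit 463) (nat_lit 431) (nat_lit 6574) (nat_lit 495) (nat_lit 6606)))) (.f (nat_lit 495) (nat_lit 463) (nat_lit 6606) (.f (nat_lit 622) (nat_lit 527) (nat_lit 6638) (.d (nat_lit 621) (nat_lit 589) (nat_lit 5613) (nat_lit 653) (nat_lit 5645))))))))
noncomputable def s108163 : Cert := .r (nat_lit 4717453032125294315973987508880817458218130529296591420246571772779567243795549402077785465380506041852719292777414468402832772512838634980175475457832173847598411546624) (.p (nat_lit 590) (.a (.f (nat_lit 495) (nat_lit 463) (nat_lit 6606) (.f (nat_lit 493) (nat_lit 461) (nat_lit 7629) (.d (nat_lit 527) (nat_lit 492) (nat_lit 492) (nat_lit 622) (nat_lit 6638)))) (.a (.f (nat_lit 493) (nat_lit 461) (nat_lit 7629) (.f (nat_lit 525) (nat_lit 622) (nat_lit 7661) (.f (nat_lit 495) (nat_lit 463) (nat_lit 6606) (.d (nat_lit 524) (nat_lit 496) (nat_lit 1516) (nat_lit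 523) (nat_lit 2539))))) (.a (.f (nat_lit 493) (nat_lit 461) (nat_lit 7629) (.f (nat_lit 525) (nat_lit 622) (nat_lit 7661) (.d (nat_lit 527) (nat_lit 492) (nat_lit 3564) (nat_lit 561) (nat_lit 525)))) (.a (.f (nat_lit 495) (nat_lit 463) (nat_lit 6606) (.f (nat_lit 527) (nat_lit 622) (nat_lit 6638) (.f (nat_lit 525) (nat_lit 561) (nat_lit 525) (.d (nat_lit 524) (nat_lit 496) (nat_lit 2540) (nat_lit 523) (nat_lit 2539))))) (.f (nat_lit 463) (nat_lit 495) (nat_lit 6606) (.f (nat_lit 462) (nat_lit 431) (nat_lit 6574) (.d (nat_lit 461) (nat_lit 429) (nat_lit 7597) (nat_lit 493) (nat_lit 7629)))))))))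
noncomputable def s108166 : Cert := .r (nat_lit 4717453032125294315973987508880817458218130529296591420246571772779567243795549402077785465380506041852719292777414468402832772512838634980175475457832173847598411546624) (.p (nat_lit 590) (.a (.f (nat_lit 591) (nat_lit 623) (nat_lit 4590) (.f (nat_lit 559) (nat_lit 462) (nat_lit 4558) (.d (nat_lit 561) (nat_lit 525) (nat_lit 3597) (nat_lit 562) (nat_lit 1582)))) (.a (.f (nat_lit 495) (nat_lit 463) (nat_lit 6606) (.f (nat_lit 527) (nat_lit 622) (nat_lit 6638) (.f (nat_lit 525) (nat_lit 561) (nat_lit 525) (.d (nat_lit 524) (nat_lit 523) (nat_lit 2539) (nat_lit 559) (nat_lit 524))))) (.a (.f (nat_lit 591) (nat_lit 623) (nat_lit 4590) (.f (nat_lit 462) (nat_lit 559) (nat_lit 4558) (.d (nat_lit 463) (nat_lit 431) (nat_lit 6574) (nat_lit 495) (nat_lit 6606)))) (.f (nat_lit 495) (nat_lit 463) (nat_lit 6606) (.f (nat_lit 527) (nat_lit 622) (nat_lit 6638) (.f (nat_lit 525)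 (nat_lit 561) (nat_lit 525) (.d (nat_lit 524) (nat_lit 496) (nat_lit 2540) (nat_lit 523) (nat_lit 2539)))))))))
noncomputable def s108169 : Cert := .r (nat_lit 4717453032125294315973987508880817458218130529296591420246571772779567243795549402077785465380506041852719292777414468402832772512838634980175475457832173847598411546624) (.p (nat_lit 590) (.a (.f (nat_lit 493) (nat_lit 461) (nat_lit 7629) (.f (nat_lit 525) (nat_lit 622) (nat_lit 7661) (.d (nat_lit 527) (nat_lit 492) (nat_lit 3564) (nat_lit 561) (nat_lit 525)))) (.a (.f (nat_lit 589) (nat_lit 621) (nat_lit 5613) (.f (nat_lit 557) (nat_lit 462) (nat_lit 5581) (.f (nat_lit 493) (nat_lit 461) (nat_lit 7629) (.f (nat_lit 525) (nat_lit 622) (nat_lit 4589) (.f (nat_lit 588) (nat_lit 620) (nat_lit 5612) (.f (nat_lit 591) (nat_lit 623) (nat_lit 4590) (.f (nat_lit 555) (nat_lit 556) (nat_lit 3627) (.d (nat_lit 587) (nat_lit 554) (nat_lit 3626) (nat_lit 586) (nat_lit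 2602))))))))) (.a (.f (nat_lit 589) (nat_lit 621) (nat_lit 5613) (.f (nat_lit 462) (nat_lit 557) (nat_lit 5581) (.d (nat_lit 461) (nat_lit 429) (nat_lit 7597) (nat_lit 493) (nat_lit 7629)))) (.f (nat_lit 589) (nat_lit 621) (nat_lit 5613) (.f (nat_lit 557) (nat_lit 462) (nat_lit 5581) (.f (nat_lit 623) (nat_lit 591) (nat_lit 4590) (.f (nat_lit 622) (nat_lit 655) (nat_lit 4622) (.d (nat_lit 654) (nat_lit 525) (nat_lit 7693) (nat_lit 686) (nat_lit 7725))))))))))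
noncomputable def s108171 : Cert := .r (nat_lit 4717453032125294315922840780632440241499174440283660183493186740810144356459872974451283374811683001932668197584822215947350168073345508870656455824302714581140153303040) (.p (nat_lit 494) (.a s107983 (.a (.p (nat_lit 462) (.a (.f (nat_lit 559) (nat_lit 591) (nat_lit 4558) (.f (nat_lit 525) (nat_lit 561) (nat_lit 3597) (.d (nat_lit 557) (nat_lit 524) (nat_lit 3596) (nat_lit 589) (nat_lit 5581)))) (.a (.f (nat_lit 557) (nat_lit 589) (nat_lit 5581) (.f (nat_lit 525) (nat_lit 430) (nat_lit 5549) (.d (nat_lit 559) (nat_lit 524) (nat_lit 3596) (nat_lit 561) (nat_lit 3597)))) (.f (nat_lit 431) (nat_lit 463) (nat_lit 6574) (.f (nat_lit 430) (nat_lit 399) (nat_lit 6542) (.d (nat_lit 429) (nat_lit 397) (nat_lit 7565) (nat_lit 461) (nat_lit 7597))))))) (.a (.p (nat_lit 590) (.a (.f (nat_lit 589) (nat_lit 621) (nat_lit 5613) (.f (nat_lit 559) (nat_lit 561) (nat_lit 1581) (.d (nat_lit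 557) (nat_lit 462) (nat_lit 5581) (nat_lit 588) (nat_lit 1580)))) (.a (.f (nat_lit 493) (nat_lit 461) (nat_lit 7629) (.f (nat_lit 525) (nat_lit 622) (nat_lit 7661) (.d (nat_lit 527) (nat_lit 492) (nat_lit 3564) (nat_lit 561) (nat_lit 525)))) (.f (nat_lit 493) (nat_lit 461) (nat_lit 7629) (.f (nat_lit 525) (nat_lit 622) (nat_lit 7661) (.f (nat_lit 527) (nat_lit 492) (nat_lit 3564) (.f (nat_lit 557) (nat_lit 556) (nat_lit 1548) (.d (nat_lit 589) (nat_lit 462) (nat_lit 6605) (nat_lit 621) (nat_lit 5613))))))))) (.a s108087 (.a s108169 (.a (.p (nat_lit 462) (.a (.f (nat_lit 559) (nat_lit 591) (nat_lit 4558) (.f (nat_lit 527) (nat_lit 430) (nat_lit 4526) (.d (nat_lit 561) (nat_lit 525) (nat_lit 3597) (nat_lit 562) (nat_lit 3598)))) (.a (.f (nat_lit 431) (nat_lit 463) (nat_lit 6574) (.f (nat_lit 430) (nat_lit 399) (nat_lit 6542) (.d (nat_lit 429) (nat_lit 397) (nat_lit 7565) (nat_lit 461) (nat_lit 7597)))) (.f (nat_lit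 559) (nat_lit 591) (nat_lit 4558) (.f (nat_lit 525) (nat_lit 561) (nat_lit 3597) (.d (nat_lit 524) (nat_lit 523) (nat_lit 523) (nat_lit 527) (nat_lit 524))))))) (.p (nat_lit 590) (.a (.f (nat_lit 589) (nat_lit 621) (nat_lit 5613) (.f (nat_lit 559) (nat_lit 561) (nat_lit 1581) (.d (nat_lit 588) (nat_lit 557) (nat_lit 1580) (nat_lit 587) (nat_lit 2603)))) (.a (.f (nat_lit 493) (nat_lit 461) (nat_lit 7629) (.f (nat_lit 525) (nat_lit 622) (nat_lit 7661) (.d (nat_lit 527) (nat_lit 492) (nat_lit 3564) (nat_lit 561) (nat_lit 525)))) (.f (nat_lit 493) (nat_lit 461) (nat_lit 7629) (.f (nat_lit 525) (nat_lit 622) (nat_lit 7661) (.f (nat_lit 527) (nat_lit 492) (nat_lit 3564) (.f (nat_lit 559) (nat_lit 524) (nat_lit 524) (.f (nat_lit 591) (nat_lit 623) (nat_lit 4590) (.d (nat_lit 589) (nat_lit 588) (nat_lit 2604) (nat_lit 621) (nat_lit 5613)))))))))))))))))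
noncomputable def s108188 : Cert := .r (nat_lit 4717453032125294315973987508880817458218130529296591420246571772779567243795549402077785465380506041852719292777414468402832772512838634980175475457832173847598411546624) (.p (nat_lit 590) (.a (.f (nat_lit 589) (nat_lit 621) (nat_lit 5613) (.f (nat_lit 462) (nat_lit 557) (nat_lit 5581) (.d (nat_lit 463) (nat_lit 431) (nat_lit 6574) (nat_lit 495) (nat_lit 6606)))) (.a (.f (nat_lit 589) (nat_lit 621) (nat_lit 5613) (.f (nat_lit 557) (nat_lit 462) (nat_lit 5581) (.f (nat_lit 623) (nat_lit 591) (nat_lit 4590) (.f (nat_lit 622) (nat_lit 655) (nat_lit 4622) (.d (nat_lit 654) (nat_lit 525) (nat_lit 7693) (nat_lit 686) (nat_lit 7725)))))) (.a (.f (nat_lit 495) (nat_lit 463) (nat_lit 6606) (.f (nat_lit 622) (nat_lit 527) (nat_lit 6638) (.d (nat_lit 621) (nat_lit 589) (nat_lit 5613) (nat_lit 653) (nat_lit 5645)))) (.f (nat_lit 495) (nat_lit 463) (nat_lit 6606) (.f (nat_lit 527)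 (nat_lit 622) (nat_lit 6638) (.f (nat_lit 525) (nat_lit 561) (nat_lit 525) (.d (nat_lit 524) (nat_lit 496) (nat_lit 2540) (nat_lit 523) (nat_lit 2539)))))))))
noncomputable def s108197 : Cert := .r (nat_lit 4717453032125294315922840780632440241499174440283660183493186740810144356459872974451283374811683001932668197584822215947350168073345508870656455824302714581140153303040) (.p (nat_lit 494) (.a (.p (nat_lit 590) (.a (.f (nat_lit 589) (nat_lit 621) (nat_lit 5613) (.f (nat_lit 559) (nat_lit 561) (nat_lit 1581) (.d (nat_lit 557) (nat_lit 462) (nat_lit 5581) (nat_lit 588) (nat_lit 1580)))) (.f (nat_lit 495) (nat_lit 463) (nat_lit 6606) (.f (nat_lit 493) (nat_lit 461) (nat_lit 7629) (.d (nat_lit 527) (nat_lit 492) (nat_lit 492) (nat_lit 622) (nat_lit 6638)))))) (.a s107967 (.a (.p (nat_lit 462) (.a (.f (nat_lit 559) (nat_lit 591) (nat_lit 4558) (.f (nat_lit 527) (nat_lit 430) (nat_lit 4526) (.d (nat_lit 561) (nat_lit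 525) (nat_lit 3597) (nat_lit 562) (nat_lit 3598)))) (.a (.f (nat_lit 431) (nat_lit 463) (nat_lit 6574) (.f (nat_lit 430) (nat_lit 399) (nat_lit 6542) (.d (nat_lit 429) (nat_lit 397) (nat_lit 7565) (nat_lit 461) (nat_lit 7597)))) (.f (nat_lit 559) (nat_lit 591) (nat_lit 4558) (.f (nat_lit 557) (nat_lit 589) (nat_lit 5581) (.f (nat_lit 527) (nat_lit 556) (nat_lit 2572) (.d (nat_lit 561) (nat_lit 525) (nat_lit 3597) (nat_lit 562) (nat_lit 3598)))))))) (.a (.p (nat_lit 590) (.a (.f (nat_lit 495) (nat_lit 463) (nat_lit 6606) (.f (nat_lit 493) (nat_lit 461) (nat_lit 7629) (.d (nat_lit 527) (nat_lit 492) (nat_lit 492) (nat_lit 622) (nat_lit 6638)))) (.a (.f (nat_lit 589) (nat_lit 621) (nat_lit 5613) (.f (nat_lit 462) (nat_lit 557) (nat_lit 5581) (.d (nat_lit 463) (nat_lit 431) (nat_lit 6574) (nat_lit 495) (nat_lit 6606)))) (.f (nat_lit 493) (nat_lit 461) (nat_lit 7629) (.f (nat_lit 525) (nat_lit 622) (nat_lit 7661) (.d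 (nat_lit 527) (nat_lit 492) (nat_lit 3564) (nat_lit 561) (nat_lit 525))))))) (.a s108021 (.a (.p (nat_lit 590) (.a (.f (nat_lit 495) (nat_lit 463) (nat_lit 6606) (.f (nat_lit 493) (nat_lit 461) (nat_lit 7629) (.d (nat_lit 527) (nat_lit 492) (nat_lit 492) (nat_lit 622) (nat_lit 6638)))) (.f (nat_lit 591) (nat_lit 623) (nat_lit 4590) (.f (nat_lit 559) (nat_lit 462) (nat_lit 4558) (.d (nat_lit 561) (nat_lit 525) (nat_lit 3597) (nat_lit 589) (nat_lit 1581)))))) (.a (.p (nat_lit 590) (.a (.f (nat_lit 495) (nat_lit 463) (nat_lit 6606) (.f (nat_lit 493) (nat_lit 461) (nat_lit 7629) (.d (nat_lit 527) (nat_lit 492) (nat_lit 492) (nat_lit 622) (nat_lit 6638)))) (.a (.f (nat_lit 589) (nat_lit 621) (nat_lit 5613) (.f (nat_lit 462) (nat_lit 557) (nat_lit 5581) (.d (nat_lit 463) (nat_lit 431) (nat_lit 6574) (nat_lit 495) (nat_lit 6606)))) (.f (nat_lit 591) (nat_lit 623) (nat_lit 4590) (.f (nat_lit 559) (nat_lit 462) (nat_lit 4558)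 (.d (nat_lit 589) (nat_lit 588) (nat_lit 2604) (nat_lit 621) (nat_lit 5613))))))) (.a (.p (nat_lit 590) (.a (.f (nat_lit 495) (nat_lit 463) (nat_lit 6606) (.f (nat_lit 493) (nat_lit 461) (nat_lit 7629) (.d (nat_lit 527) (nat_lit 492) (nat_lit 492) (nat_lit 622) (nat_lit 6638)))) (.f (nat_lit 591) (nat_lit 623) (nat_lit 4590) (.f (nat_lit 559) (nat_lit 462) (nat_lit 4558) (.d (nat_lit 561) (nat_lit 525) (nat_lit 3597) (nat_lit 562) (nat_lit 1582)))))) (.p (nat_lit 590) (.a (.f (nat_lit 495) (nat_lit 463) (nat_lit 6606) (.f (nat_lit 493) (nat_lit 461) (nat_lit 7629) (.d (nat_lit 527) (nat_lit 492) (nat_lit 492) (nat_lit 622) (nat_lit 6638)))) (.f (nat_lit 589) (nat_lit 621) (nat_lit 5613) (.f (nat_lit 559) (nat_lit 561) (nat_lit 1581) (.d (nat_lit 588) (nat_lit 557) (nat_lit 1580) (nat_lit 587) (nat_lit 2603)))))))))))))))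
noncomputable def s108202 : Cert := .r (nat_lit 3773962425919908978067039048378881885645768491231275023412675293626429865204541471935760055792560469727505484597500264544337939673836815150592175795562377636060837445632) (.p (nat_lit 464) (.a (.f (nat_lit 465) (nat_lit 433) (nat_lit 6576) (.f (nat_lit 463) (nat_lit 431) (nat_lit 7599) (.d (nat_lit 592) (nat_lit 495) (nat_lit 7631) (nat_lit 497) (nat_lit 6608)))) (.a (.f (nat_lit 433) (nat_lit 465) (nat_lit 6576) (.f (nat_lit 432) (nat_lit 401) (nat_lit 6544) (.d (nat_lit 431) (nat_lit 399) (nat_lit 7567) (nat_lit 463) (nat_lit 7599)))) (.a (.f (nat_lit 465) (nat_lit 433) (nat_lit 6576) (.f (nat_lit 592) (nat_lit 497) (nat_lit 6608) (.d (nat_lit 591) (nat_lit 559) (nat_lit 5583) (nat_lit 623) (nat_lit 5615)))) (.f (nat_lit 463) (nat_lit 431) (nat_lit 7599) (.f (nat_lit 592) (nat_lit 495) (nat_lit 7631) (.d (nat_lit 591) (nat_lit 559) (nat_lit 5583) (nat_lit 623) (nat_lit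 5615))))))))
noncomputable def s108213 : Cert := .r (nat_lit 4717453032125294316178574421874326325093954885348316367260111900657258793138255112583793827655798201532923673547783478224763190270811139418251553991950010913431444520960) (.p (nat_lit 464) (.a (.f (nat_lit 463) (nat_lit 431) (nat_lit 7599) (.f (nat_lit 465) (nat_lit 433) (nat_lit 6576) (.d (nat_lit 493) (nat_lit 462) (nat_lit 1485) (nat_lit 495) (nat_lit 2509)))) (.a (.f (nat_lit 465) (nat_lit 433) (nat_lit 6576) (.f (nat_lit 495) (nat_lit 493) (nat_lit 2509) (.d (nat_lit 497) (nat_lit 466) (nat_lit 2510) (nat_lit 525) (nat_lit 1517)))) (.a (.f (nat_lit 431) (nat_lit 463) (nat_lit 7599) (.f (nat_lit 432) (nat_lit 399) (nat_lit 7567) (.d (nat_lit 433) (nat_lit 401) (nat_lit 6544) (nat_lit 465) (nat_lit 6576)))) (.a (.f (nat_lit 431) (nat_lit 463) (nat_lit 7599) (.f (nat_lit 432) (nat_lit 399) (nat_lit 7567) (.f (nat_lit 401) (nat_lit 433) (nat_lit 6544)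 (.f (nat_lit 400) (nat_lit 369) (nat_lit 6512) (.f (nat_lit 429) (nat_lit 430) (nat_lit 2445) (.f (nat_lit 461) (nat_lit 462) (nat_lit 7597) (.d (nat_lit 493) (nat_lit 397) (nat_lit 4493) (nat_lit 525) (nat_lit 4525)))))))) (.f (nat_lit 431) (nat_lit 463) (nat_lit 7599) (.f (nat_lit 399) (nat_lit 432) (nat_lit 7567) (.f (nat_lit 462) (nat_lit 430) (nat_lit 6542) (.f (nat_lit 461) (nat_lit 429) (nat_lit 7597) (.f (nat_lit 495) (nat_lit 497) (nat_lit 3533) (.d (nat_lit 460) (nat_lit 459) (nat_lit 459) (nat_lit 493) (nat_lit 3532))))))))))))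
noncomputable def s108217 : Cert := .r (nat_lit 4717453032125294316178574421874326325093954885348316367260111900657258793138255112583793827655798201532923673547783478224763190270811139418251553991950010913431444520960) (.p (nat_lit 464) (.a (.f (nat_lit 463) (nat_lit 431) (nat_lit 7599) (.f (nat_lit 465) (nat_lit 433) (nat_lit 6576) (.d (nat_lit 493) (nat_lit 462) (nat_lit 1485) (nat_lit 495) (nat_lit 2509)))) (.a (.f (nat_lit 465) (nat_lit 433) (nat_lit 6576) (.f (nat_lit 495) (nat_lit 493) (nat_lit 2509) (.d (nat_lit 466) (nat_lit 467) (nat_lit 1487) (nat_lit 497) (nat_lit 2510)))) (.a (.f (nat_lit 431) (nat_lit 463) (nat_lit 7599) (.f (nat_lit 432) (nat_lit 399) (nat_lit 7567) (.d (nat_lit 433) (nat_lit 401) (nat_lit 6544) (nat_lit 465) (nat_lit 6576)))) (.f (nat_lit 431) (nat_lit 463) (nat_lit 7599) (.f (nat_lit 399) (nat_lit 432) (nat_lit 7567) (.f (nat_lit 462) (nat_lit 430) (nat_lit 6542) (.f (nat_lit 461)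 (nat_lit 429) (nat_lit 7597) (.f (nat_lit 495) (nat_lit 497) (nat_lit 3533) (.d (nat_lit 460) (nat_lit 459) (nat_lit 459) (nat_lit 493) (nat_lit 3532)))))))))))
noncomputable def s108238 : Cert := .r (nat_lit 4717453032125294316178574421874326325093954885348316367260111900657258793138255112583793827655798201532923673547783478224763190270811139418251553991950010913431444520960) (.p (nat_lit 590) (.a (.f (nat_lit 589) (nat_lit 621) (nat_lit 5613) (.f (nat_lit 559) (nat_lit 561) (nat_lit 1581) (.d (nat_lit 557) (nat_lit 462) (nat_lit 5581) (nat_lit 588) (nat_lit 1580)))) (.a (.f (nat_lit 495) (nat_lit 463) (nat_lit 6606) (.f (nat_lit 497) (nat_lit 525) (nat_lit 1517) (.f (nat_lit 462) (nat_lit 461) (nat_lit 3533) (.d (nat_lit 589) (nat_lit 557) (nat_lit 5581) (nat_lit 621) (nat_lit 5613))))) (.f (nat_lit 495) (nat_lit 463) (nat_lit 6606) (.f (nat_lit 497) (nat_lit 525) (nat_lit 1517) (.f (nat_lit 465) (nat_lit 466)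 (nat_lit 2510) (.d (nat_lit 433) (nat_lit 401) (nat_lit 5520) (nat_lit 464) (nat_lit 6576))))))))
noncomputable def s108250 : Cert := .r (nat_lit 4717453032125294316178574421874326325093954885348316367260111900657258793138255112583793827655798201532923673547783478224763190270811139418251553991950010913431444520960) (.p (nat_lit 590) (.a (.f (nat_lit 589) (nat_lit 621) (nat_lit 5613) (.f (nat_lit 559) (nat_lit 561) (nat_lit 1581) (.d (nat_lit 557) (nat_lit 462) (nat_lit 5581) (nat_lit 588) (nat_lit 1580)))) (.a (.f (nat_lit 461) (nat_lit 493) (nat_lit 7629) (.f (nat_lit 462) (nat_lit 429) (nat_lit 7597) (.d (nat_lit 589) (nat_lit 557) (nat_lit 5581) (nat_lit 621) (nat_lit 5613)))) (.a (.f (nat_lit 591) (nat_lit 623) (nat_lit 4590) (.d (nat_lit 559) (nat_lit 462) (nat_lit 4558) (nat_lit 464) (nat_lit 5583))) (.f (nat_lit 589) (nat_lit 621) (nat_lit 5613) (.f (nat_lit 559) (nat_lit 561) (nat_lit 1581) (.d (nat_lit 588)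 (nat_lit 557) (nat_lit 1580) (nat_lit 587) (nat_lit 2603))))))))
noncomputable def s108264 : Cert := .r (nat_lit 4717453032125294316178574421874326325093954885348316367260111900657258793138255112583793827655798201532923673547783478224763190270811139418251553991950010913431444520960) (.p (nat_lit 462) (.a (.f (nat_lit 461) (nat_lit 429) (nat_lit 7597) (.f (nat_lit 495) (nat_lit 497) (nat_lit 3533) (.d (nat_lit 460) (nat_lit 459) (nat_lit 459) (nat_lit 493) (nat_lit 3532)))) (.a (.f (nat_lit 557) (nat_lit 589) (nat_lit 5581) (.f (nat_lit 430) (nat_lit 525) (nat_lit 5549) (.d (nat_lit 429) (nat_lit 397) (nat_lit 7565) (nat_lit 461) (nat_lit 7597)))) (.a (.f (nat_lit 557) (nat_lit 589) (nat_lit 5581) (.f (nat_lit 430) (nat_lit 525) (nat_lit 5549) (.f (nat_lit 399) (nat_lit 431) (nat_lit 6542) (.f (nat_lit 398) (nat_lit 367) (nat_lit 6510) (.d (nat_lit 397) (nat_lit 365) (nat_lit 7533) (nat_lit 429) (nat_lit 7565))))))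 (.f (nat_lit 557) (nat_lit 589) (nat_lit 5581) (.f (nat_lit 525) (nat_lit 430) (nat_lit 5549) (.f (nat_lit 495) (nat_lit 497) (nat_lit 1517) (.d (nat_lit 524) (nat_lit 493) (nat_lit 1516) (nat_lit 523) (nat_lit 2539)))))))))
noncomputable def s108272 : Cert := .r (nat_lit 4717453032125294316178574421874326325093954885348316367260111900657258793138255112583793827655798201532923673547783478224763190270811139418251553991950010913431444520960) (.p (nat_lit 590) (.a (.f (nat_lit 461) (nat_lit 493) (nat_lit 7629) (.f (nat_lit 462) (nat_lit 429) (nat_lit 7597) (.d (nat_lit 463) (nat_lit 431) (nat_lit 6574) (nat_lit 495) (nat_lit 6606)))) (.a (.f (nat_lit 591) (nat_lit 623) (nat_lit 4590) (.f (nat_lit 462) (nat_lit 559) (nat_lit 4558) (.d (nat_lit 461) (nat_lit 429) (nat_lit 7597) (nat_lit 493) (nat_lit 7629)))) (.a (.f (nat_lit 495) (nat_lit 463) (nat_lit 6606) (.f (nat_lit 525) (nat_lit 497) (nat_lit 1517) (.d (nat_lit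 493) (nat_lit 461) (nat_lit 7629) (nat_lit 524) (nat_lit 1516)))) (.f (nat_lit 591) (nat_lit 623) (nat_lit 4590) (.f (nat_lit 462) (nat_lit 559) (nat_lit 4558) (.d (nat_lit 463) (nat_lit 431) (nat_lit 6574) (nat_lit 495) (nat_lit 6606))))))))
noncomputable def s108277 : Cert := .r (nat_lit 4717453032125294316127427693625949108374998796335385130506726868687835905802578684957291737086975161612872578355191225769280585831318013308732534358420551646973186277376) (.p (nat_lit 494) (.a (.p (nat_lit 462) (.a (.f (nat_lit 461) (nat_lit 429) (nat_lit 7597) (.f (nat_lit 495) (nat_lit 497) (nat_lit 3533) (.d (nat_lit 460) (nat_lit 459) (nat_lit 459) (nat_lit 493) (nat_lit 3532)))) (.f (nat_lit 557) (nat_lit 589) (nat_lit 5581) (.f (nat_lit 525) (nat_lit 430) (nat_lit 5549) (.d (nat_lit 559) (nat_lit 524) (nat_lit 3596) (nat_lit 561) (nat_lit 3597)))))) (.a (.p (nat_lit 590) (.a (.f (nat_lit 589) (nat_lit 621) (nat_lit 5613)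 (.f (nat_lit 559) (nat_lit 561) (nat_lit 1581) (.d (nat_lit 557) (nat_lit 462) (nat_lit 5581) (nat_lit 588) (nat_lit 1580)))) (.a (.f (nat_lit 461) (nat_lit 493) (nat_lit 7629) (.f (nat_lit 462) (nat_lit 429) (nat_lit 7597) (.d (nat_lit 463) (nat_lit 431) (nat_lit 6574) (nat_lit 495) (nat_lit 6606)))) (.f (nat_lit 589) (nat_lit 621) (nat_lit 5613) (.f (nat_lit 559) (nat_lit 561) (nat_lit 1581) (.d (nat_lit 588) (nat_lit 557) (nat_lit 1580) (nat_lit 587) (nat_lit 2603))))))) (.a s108264 (.a (.p (nat_lit 590) (.a (.f (nat_lit 461) (nat_lit 493) (nat_lit 7629) (.f (nat_lit 462) (nat_lit 429) (nat_lit 7597) (.d (nat_lit 463) (nat_lit 431) (nat_lit 6574) (nat_lit 495) (nat_lit 6606)))) (.f (nat_lit 621) (nat_lit 589) (nat_lit 5613) (.f (nat_lit 622) (nat_lit 653) (nat_lit 5645) (.d (nat_lit 623) (nat_lit 591) (nat_lit 4590) (nat_lit 655) (nat_lit 4622)))))) (.a s108272 (.a (.p (nat_lit 462) (.a (.f (nat_lit 557) (nat_lit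 589) (nat_lit 5581) (.f (nat_lit 525) (nat_lit 430) (nat_lit 5549) (.d (nat_lit 559) (nat_lit 524) (nat_lit 3596) (nat_lit 561) (nat_lit 3597)))) (.a (.f (nat_lit 431) (nat_lit 463) (nat_lit 6574) (.f (nat_lit 430) (nat_lit 399) (nat_lit 6542) (.d (nat_lit 429) (nat_lit 397) (nat_lit 7565) (nat_lit 461) (nat_lit 7597)))) (.f (nat_lit 559) (nat_lit 591) (nat_lit 4558) (.f (nat_lit 557) (nat_lit 589) (nat_lit 5581) (.d (nat_lit 525) (nat_lit 524) (nat_lit 3596) (nat_lit 561) (nat_lit 3597))))))) (.a (.p (nat_lit 590) (.a (.f (nat_lit 589) (nat_lit 621) (nat_lit 5613) (.f (nat_lit 559) (nat_lit 561) (nat_lit 1581) (.d (nat_lit 588) (nat_lit 557) (nat_lit 1580) (nat_lit 587) (nat_lit 2603)))) (.f (nat_lit 495) (nat_lit 463) (nat_lit 6606) (.f (nat_lit 525) (nat_lit 497) (nat_lit 1517) (.d (nat_lit 493) (nat_lit 461) (nat_lit 7629) (nat_lit 524) (nat_lit 1516)))))) (.p (nat_lit 590) (.a (.f (nat_lit 589) (nat_lit 621)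 (nat_lit 5613) (.f (nat_lit 559) (nat_lit 561) (nat_lit 1581) (.d (nat_lit 557) (nat_lit 462) (nat_lit 5581) (nat_lit 588) (nat_lit 1580)))) (.a (.f (nat_lit 621) (nat_lit 589) (nat_lit 5613) (.f (nat_lit 622) (nat_lit 653) (nat_lit 5645) (.d (nat_lit 623) (nat_lit 591) (nat_lit 4590) (nat_lit 655) (nat_lit 4622)))) (.f (nat_lit 591) (nat_lit 623) (nat_lit 4590) (.f (nat_lit 462) (nat_lit 559) (nat_lit 4558) (.d (nat_lit 463) (nat_lit 431) (nat_lit 6574) (nat_lit 495) (nat_lit 6606)))))))))))))))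
noncomputable def s108281 : Cert := .r (nat_lit 4717453032125294316178574421874326325093954885348316367260111900657258793138255112583793827655798201532923673547783478224763190270811139418251553991950010913431444520960) (.p (nat_lit 462) (.a (.f (nat_lit 431) (nat_lit 463) (nat_lit 6574) (.f (nat_lit 430) (nat_lit 399) (nat_lit 6542) (.d (nat_lit 429) (nat_lit 397) (nat_lit 7565) (nat_lit 461) (nat_lit 7597)))) (.a (.f (nat_lit 557) (nat_lit 589) (nat_lit 5581) (.f (nat_lit 430) (nat_lit 525) (nat_lit 5549) (.d (nat_lit 429) (nat_lit 397) (nat_lit 7565) (nat_lit 461) (nat_lit 7597)))) (.a (.f (nat_lit 557) (nat_lit 589) (nat_lit 5581) (.f (nat_lit 430) (nat_lit 525) (nat_lit 5549) (.f (nat_lit 399) (nat_lit 431) (nat_lit 6542) (.f (nat_lit 398) (nat_lit 367) (nat_lit 6510) (.d (nat_lit 397) (nat_lit 365) (nat_lit 7533) (nat_lit 429) (nat_lit 7565)))))) (.a (.f (nat_lit 431) (nat_lit 463) (nat_lit 6574) (.f (nat_lit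 430) (nat_lit 399) (nat_lit 6542) (.d (nat_lit 557) (nat_lit 525) (nat_lit 5549) (nat_lit 589) (nat_lit 5581)))) (.f (nat_lit 463) (nat_lit 431) (nat_lit 6574) (.f (nat_lit 461) (nat_lit 429) (nat_lit 7597) (.f (nat_lit 464) (nat_lit 497) (nat_lit 461) (.d (nat_lit 493) (nat_lit 465) (nat_lit 1485) (nat_lit 492) (nat_lit 1484))))))))))
noncomputable def s108284 : Cert := .r (nat_lit 4717453032125294316178574421874326325093954885348316367260111900657258793138255112583793827655798201532923673547783478224763190270811139418251553991950010913431444520960) (.p (nat_lit 590) (.a (.f (nat_lit 621) (nat_lit 589) (nat_lit 5613) (.f (nat_lit 622) (nat_lit 653) (nat_lit 5645) (.d (nat_lit 623) (nat_lit 591) (nat_lit 4590) (nat_lit 655) (nat_lit 4622)))) (.a (.f (nat_lit 495) (nat_lit 463) (nat_lit 6606) (.f (nat_lit 497) (nat_lit 525) (nat_lit 1517) (.f (nat_lit 462) (nat_lit 461) (nat_lit 3533) (.d (nat_lit 589) (nat_lit 557)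 (nat_lit 5581) (nat_lit 621) (nat_lit 5613))))) (.f (nat_lit 495) (nat_lit 463) (nat_lit 6606) (.f (nat_lit 497) (nat_lit 525) (nat_lit 1517) (.f (nat_lit 465) (nat_lit 466) (nat_lit 2510) (.d (nat_lit 433) (nat_lit 401) (nat_lit 5520) (nat_lit 464) (nat_lit 6576))))))))
noncomputable def s108367 : Cert := .r (nat_lit 3773962425919908978067039048378881885645768491231275023412675293626429865204541471935760055792560469727505484597500264544337939673836815150592175795562377636060837445632) (.p (nat_lit 463) (.a (.f (nat_lit 464) (nat_lit 431) (nat_lit 7599) (.f (nat_lit 465) (nat_lit 433) (nat_lit 6576) (.d (nat_lit 592) (nat_lit 495) (nat_lit 7631) (nat_lit 497) (nat_lit 6608)))) (.a (.f (nat_lit 464) (nat_lit 431) (nat_lit 7599) (.p (nat_lit 462) (.a (.f (nat_lit 465) (nat_lit 433) (nat_lit 6576) (.d (nat_lit 497) (nat_lit 461) (nat_lit 461) (nat_lit 498) (nat_lit 462))) (.a (.f (nat_lit 461) (nat_lit 497) (nat_lit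 461) (.f (nat_lit 460) (nat_lit 495) (nat_lit 460) (.d (nat_lit 492) (nat_lit 491) (nat_lit 1483) (nat_lit 493) (nat_lit 1484)))) (.a (.f (nat_lit 465) (nat_lit 433) (nat_lit 6576) (.f (nat_lit 494) (nat_lit 493) (nat_lit 1485) (.f (nat_lit 495) (nat_lit 466) (nat_lit 1486) (.d (nat_lit 497) (nat_lit 498) (nat_lit 462) (nat_lit 525) (nat_lit 1517))))) (.f (nat_lit 465) (nat_lit 433) (nat_lit 6576) (.f (nat_lit 494) (nat_lit 493) (nat_lit 1485) (.f (nat_lit 495) (nat_lit 466) (nat_lit 1486) (.f (nat_lit 430) (nat_lit 429) (nat_lit 3501) (.f (nat_lit 558) (nat_lit 590) (nat_lit 6606) (.d (nat_lit 557) (nat_lit 525) (nat_lit 5549) (nat_lit 589) (nat_lit 5581)))))))))))) (.a (.f (nat_lit 495) (nat_lit 592) (nat_lit 7631) (.p (nat_lit 494) (.a (.f (nat_lit 431) (nat_lit 399) (nat_lit 4495) (.d (nat_lit 558) (nat_lit 462) (nat_lit 6574) (nat_lit 590) (nat_lit 6606))) (.a (.f (nat_lit 431) (nat_lit 399) (nat_lit 4495) (.f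 (nat_lit 462) (nat_lit 558) (nat_lit 6574) (.d (nat_lit 497) (nat_lit 498) (nat_lit 3534) (nat_lit 525) (nat_lit 1517)))) (.a (.f (nat_lit 497) (nat_lit 525) (nat_lit 1517) (.d (nat_lit 462) (nat_lit 461) (nat_lit 3533) (nat_lit 498) (nat_lit 3534))) (.f (nat_lit 525) (nat_lit 497) (nat_lit 1517) (.d (nat_lit 524) (nat_lit 493) (nat_lit 1516) (nat_lit 523) (nat_lit 2539)))))))) (.a (.f (nat_lit 464) (nat_lit 431) (nat_lit 7599) (.f (nat_lit 465) (nat_lit 433) (nat_lit 6576) (.f (nat_lit 497) (nat_lit 592) (nat_lit 6608) (.d (nat_lit 462) (nat_lit 461) (nat_lit 461) (nat_lit 498) (nat_lit 462))))) (.a (.p (nat_lit 462) (.a (.f (nat_lit 495) (nat_lit 592) (nat_lit 7631) (.f (nat_lit 497) (nat_lit 498) (nat_lit 3534) (.d (nat_lit 461) (nat_lit 460) (nat_lit 460) (nat_lit 494) (nat_lit 3533)))) (.a (.p (nat_lit 464) (.a (.f (nat_lit 465) (nat_lit 433) (nat_lit 6576) (.d (nat_lit 497) (nat_lit 461) (nat_lit 461) (nat_lit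 498) (nat_lit 462))) (.a (.f (nat_lit 461) (nat_lit 497) (nat_lit 461) (.f (nat_lit 460) (nat_lit 495) (nat_lit 460) (.d (nat_lit 492) (nat_lit 491) (nat_lit 1483) (nat_lit 493) (nat_lit 1484)))) (.a (.f (nat_lit 465) (nat_lit 433) (nat_lit 6576) (.f (nat_lit 494) (nat_lit 493) (nat_lit 1485) (.f (nat_lit 495) (nat_lit 466) (nat_lit 1486) (.d (nat_lit 497) (nat_lit 498) (nat_lit 462) (nat_lit 525) (nat_lit 1517))))) (.f (nat_lit 465) (nat_lit 433) (nat_lit 6576) (.f (nat_lit 494) (nat_lit 493) (nat_lit 1485) (.f (nat_lit 495) (nat_lit 466) (nat_lit 1486) (.f (nat_lit 430) (nat_lit 429) (nat_lit 3501) (.f (nat_lit 558) (nat_lit 590) (nat_lit 6606) (.d (nat_lit 557) (nat_lit 525) (nat_lit 5549) (nat_lit 589) (nat_lit 5581))))))))))) (.a (.p (nat_lit 464) (.a (.f (nat_lit 465) (nat_lit 433) (nat_lit 6576) (.d (nat_lit 497) (nat_lit 461) (nat_lit 461) (nat_lit 498) (nat_lit 462))) (.a (.f (nat_lit 461) (nat_lit 497)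 (nat_lit 461) (.f (nat_lit 429) (nat_lit 428) (nat_lit 3500) (.f (nat_lit 493) (nat_lit 492) (nat_lit 1484) (.d (nat_lit 494) (nat_lit 397) (nat_lit 4493) (nat_lit 558) (nat_lit 7597))))) (.a (.f (nat_lit 465) (nat_lit 433) (nat_lit 6576) (.d (nat_lit 497) (nat_lit 498) (nat_lit 462) (nat_lit 592) (nat_lit 6608))) (.f (nat_lit 465) (nat_lit 433) (nat_lit 6576) (.f (nat_lit 429) (nat_lit 430) (nat_lit 3501) (.f (nat_lit 461) (nat_lit 428) (nat_lit 3500) (.d (nat_lit 493) (nat_lit 492) (nat_lit 1484) (nat_lit 494) (nat_lit 1485))))))))) (.a (.f (nat_lit 495) (nat_lit 592) (nat_lit 7631) (.f (nat_lit 497) (nat_lit 498) (nat_lit 3534) (.d (nat_lit 461) (nat_lit 460) (nat_lit 460) (nat_lit 464) (nat_lit 461)))) (.a (.f (nat_lit 495) (nat_lit 592) (nat_lit 7631) (.f (nat_lit 497) (nat_lit 498) (nat_lit 3534) (.f (nat_lit 494) (nat_lit 525) (nat_lit 1517) (.f (nat_lit 465) (nat_lit 466) (nat_lit 2510) (.d (nat_lit 464)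 (nat_lit 433) (nat_lit 6576) (nat_lit 493) (nat_lit 2509)))))) (.p (nat_lit 464) (.a (.f (nat_lit 465) (nat_lit 433) (nat_lit 6576) (.f (nat_lit 494) (nat_lit 493) (nat_lit 1485) (.f (nat_lit 495) (nat_lit 466) (nat_lit 1486) (.f (nat_lit 430) (nat_lit 429) (nat_lit 3501) (.f (nat_lit 558) (nat_lit 590) (nat_lit 6606) (.d (nat_lit 557) (nat_lit 525) (nat_lit 5549) (nat_lit 589) (nat_lit 5581))))))) (.a (.f (nat_lit 465) (nat_lit 433) (nat_lit 6576) (.f (nat_lit 429) (nat_lit 430) (nat_lit 3501) (.f (nat_lit 461) (nat_lit 428) (nat_lit 3500) (.d (nat_lit 493) (nat_lit 492) (nat_lit 1484) (nat_lit 494) (nat_lit 1485))))) (.a (.f (nat_lit 495) (nat_lit 592) (nat_lit 7631) (.f (nat_lit 461) (nat_lit 460) (nat_lit 460) (.f (nat_lit 493) (nat_lit 492) (nat_lit 1484) (.f (nat_lit 429) (nat_lit 428) (nat_lit 3500) (.d (nat_lit 558) (nat_lit 494) (nat_lit 7597) (nat_lit 525) (nat_lit 4525)))))) (.f (nat_lit 433) (nat_lit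 465) (nat_lit 6576) (.d (nat_lit 432) (nat_lit 401) (nat_lit 6544) (nat_lit 461) (nat_lit 2477))))))))))))) (.f (nat_lit 431) (nat_lit 464) (nat_lit 7599) (.d (nat_lit 495) (nat_lit 399) (nat_lit 4495) (nat_lit 592) (nat_lit 7631)))))))))
noncomputable def s108375 : Cert := .r (nat_lit 4717453032125294316178574421874326325093954885348316367260111900657258793138255112583793827655798201532923673547783478224763190270811139418251553991950010913431444520960) (.p (nat_lit 462) (.a (.f (nat_lit 463) (nat_lit 431) (nat_lit 6574) (.f (nat_lit 495) (nat_lit 592) (nat_lit 7631) (.d (nat_lit 461) (nat_lit 429) (nat_lit 7597) (nat_lit 460) (nat_lit 460)))) (.a (.f (nat_lit 461) (nat_lit 429) (nat_lit 7597) (.f (nat_lit 495) (nat_lit 497) (nat_lit 3533) (.d (nat_lit 460) (nat_lit 459) (nat_lit 459) (nat_lit 493) (nat_lit 3532)))) (.a (.f (nat_lit 431) (nat_lit 463) (nat_lit 6574) (.f (nat_lit 430) (nat_lit 399) (nat_lit 6542)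 (.d (nat_lit 429) (nat_lit 397) (nat_lit 7565) (nat_lit 461) (nat_lit 7597)))) (.f (nat_lit 463) (nat_lit 431) (nat_lit 6574) (.f (nat_lit 592) (nat_lit 495) (nat_lit 7631) (.d (nat_lit 591) (nat_lit 559) (nat_lit 4558) (nat_lit 623) (nat_lit 5615))))))))
noncomputable def s108378 : Cert := .r (nat_lit 4717453032125294316178574421874326325093954885348316367260111900657258793138255112583793827655798201532923673547783478224763190270811139418251553991950010913431444520960) (.p (nat_lit 462) (.a (.f (nat_lit 463) (nat_lit 431) (nat_lit 6574) (.f (nat_lit 495) (nat_lit 592) (nat_lit 7631) (.d (nat_lit 461) (nat_lit 429) (nat_lit 7597) (nat_lit 460) (nat_lit 460)))) (.a (.f (nat_lit 461) (nat_lit 429) (nat_lit 7597) (.f (nat_lit 495) (nat_lit 497) (nat_lit 3533) (.d (nat_lit 460) (nat_lit 459) (nat_lit 459) (nat_lit 493) (nat_lit 3532)))) (.a (.f (nat_lit 431) (nat_lit 463) (nat_lit 6574) (.f (nat_lit 430) (nat_lit 399)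 (nat_lit 6542) (.d (nat_lit 429) (nat_lit 397) (nat_lit 7565) (nat_lit 461) (nat_lit 7597)))) (.f (nat_lit 463) (nat_lit 431) (nat_lit 6574) (.f (nat_lit 495) (nat_lit 592) (nat_lit 7631) (.d (nat_lit 497) (nat_lit 498) (nat_lit 3534) (nat_lit 525) (nat_lit 1517))))))))
noncomputable def s108395 : Cert := .r (nat_lit 3773962425919908978118185776627259102364724580244206260166060325595852752540217899562262146361383509647556579790092516999820544113329941260111195429091836902519095689216) (.p (nat_lit 495) (.a (.f (nat_lit 497) (nat_lit 525) (nat_lit 1517) (.d (nat_lit 592) (nat_lit 463) (nat_lit 7631) (nat_lit 465) (nat_lit 6608))) (.a (.f (nat_lit 497) (nat_lit 525) (nat_lit 1517) (.f (nat_lit 462) (nat_lit 461) (nat_lit 3533) (.f (nat_lit 463) (nat_lit 498) (nat_lit 3534) (.d (nat_lit 431) (nat_lit 399) (nat_lit 4495) (nat_lit 558) (nat_lit 6574))))) (.a (.f (nat_lit 463) (nat_lit 592) (nat_lit 7631) (.f (nat_lit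 431) (nat_lit 399) (nat_lit 4495) (.d (nat_lit 558) (nat_lit 462) (nat_lit 6574) (nat_lit 590) (nat_lit 6606)))) (.f (nat_lit 497) (nat_lit 525) (nat_lit 1517) (.d (nat_lit 465) (nat_lit 466) (nat_lit 2510) (nat_lit 592) (nat_lit 6608)))))))
noncomputable def s108418 : Cert := .r (nat_lit 3773962425919908978220479233135922061461495981564828854941267455825548587265071773914918262922405183584108681751053336085680055250463726633146299755413786348518834700288) (.p (nat_lit 430) (.a (.f (nat_lit 463) (nat_lit 592) (nat_lit 7631) (.f (nat_lit 399) (nat_lit 431) (nat_lit 5518) (.d (nat_lit 398) (nat_lit 366) (nat_lit 4462) (nat_lit 367) (nat_lit 6510)))) (.a (.f (nat_lit 399) (nat_lit 431) (nat_lit 6542) (.f (nat_lit 398) (nat_lit 367) (nat_lit 6510) (.d (nat_lit 397) (nat_lit 365) (nat_lit 7533) (nat_lit 429) (nat_lit 7565)))) (.a (.f (nat_lit 463) (nat_lit 592) (nat_lit 7631) (.f (nat_lit 398) (nat_lit 366) (nat_lit 4462)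 (.d (nat_lit 397) (nat_lit 365) (nat_lit 7533) (nat_lit 429) (nat_lit 7565)))) (.f (nat_lit 463) (nat_lit 592) (nat_lit 7631) (.f (nat_lit 431) (nat_lit 399) (nat_lit 5518) (.f (nat_lit 460) (nat_lit 461) (nat_lit 460) (.f (nat_lit 429) (nat_lit 397) (nat_lit 7565) (.d (nat_lit 428) (nat_lit 427) (nat_lit 427) (nat_lit 459) (nat_lit 1451))))))))))
noncomputable def s108423 : Cert := .r (nat_lit 4717453032125294316178574421874326325093954885348316367260111900657258793138255112583793827655798201532923673547783478224763190270811139418251553991950010913431444520960) (.p (nat_lit 590) (.a (.f (nat_lit 589) (nat_lit 621) (nat_lit 5613) (.f (nat_lit 559) (nat_lit 561) (nat_lit 1581) (.d (nat_lit 557) (nat_lit 462) (nat_lit 5581) (nat_lit 588) (nat_lit 1580)))) (.a (.f (nat_lit 461) (nat_lit 493) (nat_lit 7629) (.f (nat_lit 462) (nat_lit 429) (nat_lit 7597) (.d (nat_lit 589) (nat_lit 557) (nat_lit 5581) (nat_lit 621) (nat_lit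 5613)))) (.a (.f (nat_lit 621) (nat_lit 589) (nat_lit 5613) (.f (nat_lit 622) (nat_lit 653) (nat_lit 5645) (.d (nat_lit 623) (nat_lit 591) (nat_lit 4590) (nat_lit 655) (nat_lit 4622)))) (.f (nat_lit 591) (nat_lit 623) (nat_lit 4590) (.f (nat_lit 462) (nat_lit 559) (nat_lit 4558) (.d (nat_lit 461) (nat_lit 429) (nat_lit 7597) (nat_lit 493) (nat_lit 7629))))))))
noncomputable def s108478 : Cert := .r (nat_lit 4717453032125294316178574421874326325093954885348316367260111900657258793138255112583793827655798201532923673547783478224763190270811139418251553991950010913431444520960) (.p (nat_lit 590) (.a (.f (nat_lit 589) (nat_lit 621) (nat_lit 5613) (.f (nat_lit 559) (nat_lit 561) (nat_lit 1581) (.d (nat_lit 557) (nat_lit 462) (nat_lit 5581) (nat_lit 588) (nat_lit 1580)))) (.a (.f (nat_lit 461) (nat_lit 493) (nat_lit 7629) (.f (nat_lit 462) (nat_lit 429) (nat_lit 7597) (.d (nat_lit 589) (nat_lit 557) (nat_lit 5581) (nat_lit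 621) (nat_lit 5613)))) (.a (.f (nat_lit 493) (nat_lit 461) (nat_lit 7629) (.f (nat_lit 622) (nat_lit 525) (nat_lit 7661) (.f (nat_lit 655) (nat_lit 623) (nat_lit 4622) (.f (nat_lit 654) (nat_lit 687) (nat_lit 4654) (.d (nat_lit 653) (nat_lit 621) (nat_lit 5645) (nat_lit 685) (nat_lit 5677)))))) (.f (nat_lit 493) (nat_lit 461) (nat_lit 7629) (.f (nat_lit 525) (nat_lit 622) (nat_lit 7661) (.f (nat_lit 559) (nat_lit 561) (nat_lit 3597) (.d (nat_lit 524) (nat_lit 523) (nat_lit 523) (nat_lit 557) (nat_lit 3596)))))))))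
noncomputable def s108482 : Cert := .r (nat_lit 4717453032125294316178574421874326325093954885348316367260111900657258793138255112583793827655798201532923673547783478224763190270811139418251553991950010913431444520960) (.p (nat_lit 590) (.a (.f (nat_lit 461) (nat_lit 493) (nat_lit 7629) (.f (nat_lit 462) (nat_lit 429) (nat_lit 7597) (.d (nat_lit 589) (nat_lit 557) (nat_lit 5581) (nat_lit 621) (nat_lit 5613)))) (.a (.f (nat_lit 621) (nat_lit 589) (nat_lit 5613) (.f (nat_lit 622) (nat_lit 653) (nat_lit 5645) (.d (nat_lit 623) (nat_lit 591) (nat_lit 4590) (nat_lit 655) (nat_lit 4622)))) (.a (.f (nat_lit 493) (nat_lit 461) (nat_lit 7629) (.f (nat_lit 622) (nat_lit 525) (nat_lit 7661) (.f (nat_lit 655) (nat_lit 623) (nat_lit 4622) (.f (nat_lit 654) (nat_lit 687) (nat_lit 4654) (.d (nat_lit 653) (nat_lit 621) (nat_lit 5645) (nat_lit 685) (nat_lit 5677)))))) (.f (nat_lit 623) (nat_lit 591) (nat_lit 4590) (.f (nat_lit 622)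 (nat_lit 655) (nat_lit 4622) (.d (nat_lit 493) (nat_lit 461) (nat_lit 7629) (nat_lit 525) (nat_lit 7661))))))))
noncomputable def s108485 : Cert := .r (nat_lit 4717453032125294316178574421874326325093954885348316367260111900657258793138255112583793827655798201532923673547783478224763190270811139418251553991950010913431444520960) (.p (nat_lit 590) (.a (.f (nat_lit 589) (nat_lit 621) (nat_lit 5613) (.f (nat_lit 559) (nat_lit 561) (nat_lit 1581) (.d (nat_lit 588) (nat_lit 557) (nat_lit 1580) (nat_lit 587) (nat_lit 2603)))) (.a (.f (nat_lit 621) (nat_lit 589) (nat_lit 5613) (.f (nat_lit 622) (nat_lit 653) (nat_lit 5645) (.d (nat_lit 623) (nat_lit 591) (nat_lit 4590) (nat_lit 655) (nat_lit 4622)))) (.a (.f (nat_lit 493) (nat_lit 461) (nat_lit 7629) (.f (nat_lit 622) (nat_lit 525) (nat_lit 7661) (.f (nat_lit 655) (nat_lit 623) (nat_lit 4622) (.f (nat_lit 654) (nat_lit 687) (nat_lit 4654) (.d (nat_lit 653) (nat_lit 621)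 (nat_lit 5645) (nat_lit 685) (nat_lit 5677)))))) (.f (nat_lit 493) (nat_lit 461) (nat_lit 7629) (.f (nat_lit 525) (nat_lit 622) (nat_lit 7661) (.f (nat_lit 559) (nat_lit 561) (nat_lit 3597) (.d (nat_lit 524) (nat_lit 523) (nat_lit 523) (nat_lit 557) (nat_lit 3596)))))))))
noncomputable def s108550 : Cert := .r (nat_lit 4717453032125294316178574421874326325093954885348316367260111900657258793138255112583793827655798201532923673547783478224763190270811139418251553991950010913431444520960) (.p (nat_lit 590) (.a (.f (nat_lit 589) (nat_lit 621) (nat_lit 5613) (.f (nat_lit 559) (nat_lit 561) (nat_lit 1581) (.d (nat_lit 557) (nat_lit 462) (nat_lit 5581) (nat_lit 588) (nat_lit 1580)))) (.a (.f (nat_lit 461) (nat_lit 493) (nat_lit 7629) (.f (nat_lit 462) (nat_lit 429) (nat_lit 7597) (.d (nat_lit 589) (nat_lit 557) (nat_lit 5581) (nat_lit 621) (nat_lit 5613)))) (.a (.f (nat_lit 461) (nat_lit 493) (nat_lit 7629) (.f (nat_lit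 462) (nat_lit 429) (nat_lit 7597) (.f (nat_lit 497) (nat_lit 495) (nat_lit 3533) (.f (nat_lit 465) (nat_lit 592) (nat_lit 6608) (.d (nat_lit 433) (nat_lit 401) (nat_lit 5520) (nat_lit 464) (nat_lit 6576)))))) (.f (nat_lit 589) (nat_lit 621) (nat_lit 5613) (.f (nat_lit 559) (nat_lit 561) (nat_lit 1581) (.d (nat_lit 588) (nat_lit 557) (nat_lit 1580) (nat_lit 587) (nat_lit 2603))))))))
noncomputable def s108566 : Cert := .r (nat_lit 4717453032125294316178574421874326325093954885348316367260111900657258793138255112583793827655798201532923673547783478224763190270811139418251553991950010913431444520960) (.p (nat_lit 461) (.a (.f (nat_lit 493) (nat_lit 590) (nat_lit 7629) (.d (nat_lit 429) (nat_lit 462) (nat_lit 7597) (nat_lit 525) (nat_lit 4525))) (.a (.f (nat_lit 429) (nat_lit 462) (nat_lit 7597) (.d (nat_lit 493) (nat_lit 397) (nat_lit 4493) (nat_lit 525) (nat_lit 4525))) (.a (.f (nat_lit 493) (nat_lit 590) (nat_lit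 7629) (.d (nat_lit 429) (nat_lit 397) (nat_lit 4493) (nat_lit 462) (nat_lit 7597))) (.a (.f (nat_lit 493) (nat_lit 590) (nat_lit 7629) (.d (nat_lit 429) (nat_lit 397) (nat_lit 4493) (nat_lit 525) (nat_lit 4525))) (.a (.f (nat_lit 462) (nat_lit 429) (nat_lit 7597) (.f (nat_lit 497) (nat_lit 495) (nat_lit 3533) (.f (nat_lit 465) (nat_lit 592) (nat_lit 6608) (.d (nat_lit 433) (nat_lit 401) (nat_lit 5520) (nat_lit 464) (nat_lit 6576))))) (.f (nat_lit 493) (nat_lit 590) (nat_lit 7629) (.f (nat_lit 495) (nat_lit 460) (nat_lit 3532) (.d (nat_lit 525) (nat_lit 497) (nat_lit 1517) (nat_lit 524) (nat_lit 1516))))))))))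
noncomputable def s108576 : Cert := .r (nat_lit 4052261302452797718172567620513327255161541132049253581487394241532755004833254017521042599944697786196543410256721005291123990491362397655426289513921952021566237001857472921600) (.p (nat_lit 494) (.a (.f (nat_lit 589) (nat_lit 621) (nat_lit 5613) (.f (nat_lit 559) (nat_lit 561) (nat_lit 1581) (.d (nat_lit 557) (nat_lit 462) (nat_lit 5581) (nat_lit 588) (nat_lit 1580)))) (.a (.f (nat_lit 461) (nat_lit 493) (nat_lit 7629) (.f (nat_lit 462) (nat_lit 429) (nat_lit 7597) (.d (nat_lit 589) (nat_lit 557) (nat_lit 5581) (nat_lit 621) (nat_lit 5613)))) (.a (.f (nat_lit 621) (nat_lit 589) (nat_lit 5613) (.f (nat_lit 622) (nat_lit 653) (nat_lit 5645) (.d (nat_lit 623) (nat_lit 591) (nat_lit 4590) (nat_lit 655) (nat_lit 4622)))) (.f (nat_lit 591) (nat_lit 623) (nat_lit 4590) (.f (nat_lit 462) (nat_lit 559) (nat_lit 4558) (.d (nat_lit 461) (nat_lit 429) (nat_lit 7597) (nat_lit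 493) (nat_lit 7629))))))))
noncomputable def s108587 : Cert := .r (nat_lit 4717453032125294316127427693625949108374998796335385130506726868687835905802578684957291737086975161612872578355191225769280585831318013308732534358420551646973186277376) (.p (nat_lit 590) (.a (.p (nat_lit 494) (.a (.f (nat_lit 589) (nat_lit 621) (nat_lit 5613) (.f (nat_lit 559) (nat_lit 561) (nat_lit 1581) (.d (nat_lit 557) (nat_lit 462) (nat_lit 5581) (nat_lit 588) (nat_lit 1580)))) (.a (.f (nat_lit 461) (nat_lit 493) (nat_lit 7629) (.f (nat_lit 462) (nat_lit 429) (nat_lit 7597) (.d (nat_lit 589) (nat_lit 557) (nat_lit 5581) (nat_lit 621) (nat_lit 5613)))) (.a (.f (nat_lit 461) (nat_lit 493) (nat_lit 7629) (.f (nat_lit 462) (nat_lit 429) (nat_lit 7597) (.f (nat_lit 497) (nat_lit 495) (nat_lit 3533) (.f (nat_lit 465) (nat_lit 592) (nat_lit 6608) (.d (nat_lit 433) (nat_lit 401) (nat_lit 5520) (nat_lit 464) (nat_lit 6576)))))) (.f (nat_lit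 589) (nat_lit 621) (nat_lit 5613) (.f (nat_lit 559) (nat_lit 561) (nat_lit 1581) (.d (nat_lit 588) (nat_lit 557) (nat_lit 1580) (nat_lit 587) (nat_lit 2603)))))))) (.a (.p (nat_lit 494) (.a (.f (nat_lit 589) (nat_lit 621) (nat_lit 5613) (.f (nat_lit 559) (nat_lit 561) (nat_lit 1581) (.d (nat_lit 557) (nat_lit 462) (nat_lit 5581) (nat_lit 588) (nat_lit 1580)))) (.a (.f (nat_lit 461) (nat_lit 493) (nat_lit 7629) (.f (nat_lit 462) (nat_lit 429) (nat_lit 7597) (.d (nat_lit 589) (nat_lit 557) (nat_lit 5581) (nat_lit 621) (nat_lit 5613)))) (.a (.f (nat_lit 591) (nat_lit 623) (nat_lit 4590) (.d (nat_lit 559) (nat_lit 462) (nat_lit 4558) (nat_lit 464) (nat_lit 5583))) (.f (nat_lit 589) (nat_lit 621) (nat_lit 5613) (.f (nat_lit 559) (nat_lit 561) (nat_lit 1581) (.d (nat_lit 588) (nat_lit 557) (nat_lit 1580) (nat_lit 587) (nat_lit 2603)))))))) (.a s108576 (.a (.p (nat_lit 494) (.a (.f (nat_lit 461) (nat_lit 493) (nat_lit 7629)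 (.f (nat_lit 462) (nat_lit 429) (nat_lit 7597) (.d (nat_lit 589) (nat_lit 557) (nat_lit 5581) (nat_lit 621) (nat_lit 5613)))) (.a (.f (nat_lit 621) (nat_lit 589) (nat_lit 5613) (.f (nat_lit 622) (nat_lit 653) (nat_lit 5645) (.d (nat_lit 623) (nat_lit 591) (nat_lit 4590) (nat_lit 655) (nat_lit 4622)))) (.f (nat_lit 461) (nat_lit 493) (nat_lit 7629) (.f (nat_lit 462) (nat_lit 429) (nat_lit 7597) (.f (nat_lit 497) (nat_lit 495) (nat_lit 3533) (.f (nat_lit 465) (nat_lit 592) (nat_lit 6608) (.d (nat_lit 433) (nat_lit 401) (nat_lit 5520) (nat_lit 464) (nat_lit 6576))))))))) (.a (.p (nat_lit 494) (.a (.f (nat_lit 591) (nat_lit 623) (nat_lit 4590) (.d (nat_lit 559) (nat_lit 462) (nat_lit 4558) (nat_lit 464) (nat_lit 5583))) (.a (.f (nat_lit 461) (nat_lit 493) (nat_lit 7629) (.f (nat_lit 462) (nat_lit 429) (nat_lit 7597) (.f (nat_lit 497) (nat_lit 495) (nat_lit 3533) (.f (nat_lit 465) (nat_lit 592) (nat_lit 6608) (.d (nat_lit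 433) (nat_lit 401) (nat_lit 5520) (nat_lit 464) (nat_lit 6576)))))) (.f (nat_lit 621) (nat_lit 589) (nat_lit 5613) (.f (nat_lit 622) (nat_lit 653) (nat_lit 5645) (.d (nat_lit 623) (nat_lit 591) (nat_lit 4590) (nat_lit 655) (nat_lit 4622))))))) (.a (.p (nat_lit 494) (.a (.f (nat_lit 591) (nat_lit 623) (nat_lit 4590) (.d (nat_lit 559) (nat_lit 462) (nat_lit 4558) (nat_lit 464) (nat_lit 5583))) (.a (.f (nat_lit 461) (nat_lit 493) (nat_lit 7629) (.f (nat_lit 462) (nat_lit 429) (nat_lit 7597) (.f (nat_lit 497) (nat_lit 495) (nat_lit 3533) (.f (nat_lit 465) (nat_lit 592) (nat_lit 6608) (.d (nat_lit 433) (nat_lit 401) (nat_lit 5520) (nat_lit 464) (nat_lit 6576)))))) (.a (.f (nat_lit 591) (nat_lit 623) (nat_lit 4590) (.f (nat_lit 462) (nat_lit 559) (nat_lit 4558) (.d (nat_lit 461) (nat_lit 429) (nat_lit 7597) (nat_lit 493) (nat_lit 7629)))) (.f (nat_lit 591) (nat_lit 623) (nat_lit 4590) (.f (nat_lit 464) (nat_lit 559) (nat_lit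 5583) (.f (nat_lit 465) (nat_lit 433) (nat_lit 6576) (.d (nat_lit 493) (nat_lit 461) (nat_lit 7629) (nat_lit 495) (nat_lit 2509))))))))) (.p (nat_lit 559) (.a (.f (nat_lit 589) (nat_lit 561) (nat_lit 1581) (.d (nat_lit 588) (nat_lit 557) (nat_lit 1580) (nat_lit 587) (nat_lit 2603))) (.a (.f (nat_lit 591) (nat_lit 464) (nat_lit 5583) (.d (nat_lit 589) (nat_lit 561) (nat_lit 1581) (nat_lit 588) (nat_lit 2604))) (.f (nat_lit 591) (nat_lit 464) (nat_lit 5583) (.d (nat_lit 623) (nat_lit 592) (nat_lit 5615) (nat_lit 655) (nat_lit 6671)))))))))))))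
noncomputable def s108589 : Cert := .r (nat_lit 4717453032125294316178574421874326325093954885348316367260111900657258793138255112583793827655798201532923673547783478224763190270811139418251553991950010913431444520960) (.p (nat_lit 590) (.a (.f (nat_lit 461) (nat_lit 493) (nat_lit 7629) (.f (nat_lit 462) (nat_lit 429) (nat_lit 7597) (.d (nat_lit 589) (nat_lit 557) (nat_lit 5581) (nat_lit 621) (nat_lit 5613)))) (.a (.f (nat_lit 621) (nat_lit 589) (nat_lit 5613) (.f (nat_lit 622) (nat_lit 653) (nat_lit 5645) (.d (nat_lit 623) (nat_lit 591) (nat_lit 4590) (nat_lit 655) (nat_lit 4622)))) (.f (nat_lit 461) (nat_lit 493) (nat_lit 7629) (.f (nat_lit 462) (nat_lit 429) (nat_lit 7597) (.f (nat_lit 497) (nat_lit 495) (nat_lit 3533) (.f (nat_lit 465) (nat_lit 592) (nat_lit 6608) (.d (nat_lit 433) (nat_lit 401) (nat_lit 5520) (nat_lit 464) (nat_lit 6576)))))))))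
noncomputable def s108602 : Cert := .r (nat_lit 4717453032125294316178574421874326325093954885348316367260111900657258793138255112583793827655798201532923673547783478224763190270811139418251553991950010913431444520960) (.p (nat_lit 462) (.a (.f (nat_lit 557) (nat_lit 589) (nat_lit 5581) (.f (nat_lit 430) (nat_lit 525) (nat_lit 5549) (.d (nat_lit 429) (nat_lit 397) (nat_lit 7565) (nat_lit 461) (nat_lit 7597)))) (.a (.f (nat_lit 461) (nat_lit 429) (nat_lit 7597) (.f (nat_lit 497) (nat_lit 495) (nat_lit 3533) (.f (nat_lit 465) (nat_lit 592) (nat_lit 6608) (.d (nat_lit 433) (nat_lit 401) (nat_lit 5520) (nat_lit 464) (nat_lit 6576))))) (.a (.f (nat_lit 557) (nat_lit 589) (nat_lit 5581) (.f (nat_lit 430) (nat_lit 525) (nat_lit 5549) (.f (nat_lit 399) (nat_lit 431) (nat_lit 6542) (.f (nat_lit 398) (nat_lit 367) (nat_lit 6510) (.d (nat_lit 397) (nat_lit 365) (nat_lit 7533) (nat_lit 429) (nat_lit 7565)))))) (.f (nat_lit 557)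 (nat_lit 589) (nat_lit 5581) (.f (nat_lit 525) (nat_lit 430) (nat_lit 5549) (.f (nat_lit 497) (nat_lit 495) (nat_lit 1517) (.f (nat_lit 465) (nat_lit 592) (nat_lit 6608) (.d (nat_lit 433) (nat_lit 401) (nat_lit 5520) (nat_lit 464) (nat_lit 6576))))))))))
noncomputable def s108641 : Cert := .r (nat_lit 4717453032125294316127427693625949108374998796335385130506726868687835905802578684957291737086975161612872578355191225769280585831318013308732534358420551646973186277376) (.p (nat_lit 591) (.a (.f (nat_lit 559) (nat_lit 464) (nat_lit 5583) (.d (nat_lit 623) (nat_lit 592) (nat_lit 5615) (nat_lit 655) (nat_lit 6671))) (.a (.f (nat_lit 559) (nat_lit 464) (nat_lit 5583) (.f (nat_lit 623) (nat_lit 655) (nat_lit 6671) (.d (nat_lit 494) (nat_lit 462) (nat_lit 4558) (nat_lit 590) (nat_lit 4590)))) (.a (.f (nat_lit 623) (nat_lit 592) (nat_lit 5615) (.f (nat_lit 559) (nat_lit 655) (nat_lit 6671) (.d (nat_lit 494) (nat_lit 462)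 (nat_lit 4558) (nat_lit 590) (nat_lit 4590)))) (.a (.f (nat_lit 623) (nat_lit 592) (nat_lit 5615) (.f (nat_lit 590) (nat_lit 494) (nat_lit 4590) (.d (nat_lit 655) (nat_lit 622) (nat_lit 4622) (nat_lit 687) (nat_lit 7726)))) (.f (nat_lit 559) (nat_lit 464) (nat_lit 5583) (.f (nat_lit 561) (nat_lit 525) (nat_lit 3597) (.d (nat_lit 590) (nat_lit 562) (nat_lit 1582) (nat_lit 589) (nat_lit 1581)))))))))
noncomputable def s108645 : Cert := .r (nat_lit 4717453032125294316178574421874326325093954885348316367260111900657258793138255112583793827655798201532923673547783478224763190270811139418251553991950010913431444520960) (.p (nat_lit 590) (.a (.f (nat_lit 589) (nat_lit 621) (nat_lit 5613) (.f (nat_lit 559) (nat_lit 561) (nat_lit 1581) (.d (nat_lit 557) (nat_lit 462) (nat_lit 5581) (nat_lit 588) (nat_lit 1580)))) (.a (.f (nat_lit 461) (nat_lit 493) (nat_lit 7629) (.f (nat_lit 462) (nat_lit 429) (nat_lit 7597) (.d (nat_lit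 589) (nat_lit 557) (nat_lit 5581) (nat_lit 621) (nat_lit 5613)))) (.a (.f (nat_lit 589) (nat_lit 621) (nat_lit 5613) (.f (nat_lit 559) (nat_lit 561) (nat_lit 1581) (.d (nat_lit 588) (nat_lit 587) (nat_lit 2603) (nat_lit 591) (nat_lit 2604)))) (.f (nat_lit 493) (nat_lit 461) (nat_lit 7629) (.f (nat_lit 525) (nat_lit 622) (nat_lit 7661) (.f (nat_lit 559) (nat_lit 561) (nat_lit 3597) (.d (nat_lit 524) (nat_lit 523) (nat_lit 523) (nat_lit 557) (nat_lit 3596)))))))))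
noncomputable def s108647 : Cert := .r (nat_lit 3773962425919908978067039048378881885645768491231275023412675293626429865204541471935760055792560469727505484597500264544337939673836815150592175795562377636060837445632) (.p (nat_lit 558) (.a (.p (nat_lit 559) (.a (.f (nat_lit 591) (nat_lit 464) (nat_lit 5583) (.d (nat_lit 623) (nat_lit 592) (nat_lit 5615) (nat_lit 655) (nat_lit 6671))) (.f (nat_lit 525) (nat_lit 561) (nat_lit 3597) (.d (nat_lit 524) (nat_lit 523) (nat_lit 523) (nat_lit 557) (nat_lit 3596))))) (.a (.p (nat_lit 559) (.a (.f (nat_lit 525) (nat_lit 561) (nat_lit 3597) (.d (nat_lit 524) (nat_lit 523) (nat_lit 523) (nat_lit 557) (nat_lit 3596))) (.f (nat_lit 591) (nat_lit 464) (nat_lit 5583) (.f (nat_lit 623) (nat_lit 655) (nat_lit 6671) (.d (nat_lit 494) (nat_lit 462) (nat_lit 4558) (nat_lit 590) (nat_lit 4590)))))) (.a (.p (nat_lit 494) (.a (.p (nat_lit 462) (.a (.f (nat_lit 461) (nat_lit 429) (nat_lit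 7597) (.f (nat_lit 495) (nat_lit 497) (nat_lit 3533) (.d (nat_lit 460) (nat_lit 459) (nat_lit 459) (nat_lit 493) (nat_lit 3532)))) (.f (nat_lit 557) (nat_lit 589) (nat_lit 5581) (.f (nat_lit 525) (nat_lit 430) (nat_lit 5549) (.d (nat_lit 559) (nat_lit 524) (nat_lit 3596) (nat_lit 561) (nat_lit 3597)))))) (.a s108550 (.a s108264 (.a s108566 (.a s108478 (.a (.p (nat_lit 590) (.a (.f (nat_lit 589) (nat_lit 621) (nat_lit 5613) (.f (nat_lit 559) (nat_lit 561) (nat_lit 1581) (.d (nat_lit 588) (nat_lit 557) (nat_lit 1580) (nat_lit 587) (nat_lit 2603)))) (.f (nat_lit 493) (nat_lit 461) (nat_lit 7629) (.f (nat_lit 525) (nat_lit 622) (nat_lit 7661) (.d (nat_lit 495) (nat_lit 497) (nat_lit 1517) (nat_lit 524) (nat_lit 1516)))))) (.a (.p (nat_lit 462) (.a (.f (nat_lit 557) (nat_lit 589) (nat_lit 5581) (.f (nat_lit 525) (nat_lit 430) (nat_lit 5549) (.d (nat_lit 559) (nat_lit 524) (nat_lit 3596) (nat_lit 561) (nat_lit 3597))))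 (.f (nat_lit 461) (nat_lit 429) (nat_lit 7597) (.f (nat_lit 497) (nat_lit 495) (nat_lit 3533) (.f (nat_lit 465) (nat_lit 592) (nat_lit 6608) (.d (nat_lit 433) (nat_lit 401) (nat_lit 5520) (nat_lit 464) (nat_lit 6576))))))) (.p (nat_lit 525) (.a (.f (nat_lit 495) (nat_lit 497) (nat_lit 1517) (.d (nat_lit 524) (nat_lit 493) (nat_lit 1516) (nat_lit 523) (nat_lit 2539))) (.a (.f (nat_lit 559) (nat_lit 561) (nat_lit 3597) (.d (nat_lit 524) (nat_lit 523) (nat_lit 523) (nat_lit 557) (nat_lit 3596))) (.f (nat_lit 497) (nat_lit 495) (nat_lit 1517) (.f (nat_lit 465) (nat_lit 592) (nat_lit 6608) (.d (nat_lit 433) (nat_lit 401) (nat_lit 5520) (nat_lit 464) (nat_lit 6576))))))))))))))) (.a s108587 (.a (.p (nat_lit 494) (.a (.p (nat_lit 462) (.a (.f (nat_lit 461) (nat_lit 429) (nat_lit 7597) (.f (nat_lit 495) (nat_lit 497) (nat_lit 3533) (.d (nat_lit 460) (nat_lit 459) (nat_lit 459) (nat_lit 493) (nat_lit 3532)))) (.f (nat_lit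 557) (nat_lit 589) (nat_lit 5581) (.f (nat_lit 525) (nat_lit 430) (nat_lit 5549) (.d (nat_lit 559) (nat_lit 524) (nat_lit 3596) (nat_lit 561) (nat_lit 3597)))))) (.a s108423 (.a s108264 (.a (.p (nat_lit 590) (.a (.f (nat_lit 621) (nat_lit 589) (nat_lit 5613) (.f (nat_lit 622) (nat_lit 653) (nat_lit 5645) (.d (nat_lit 623) (nat_lit 591) (nat_lit 4590) (nat_lit 655) (nat_lit 4622)))) (.a (.f (nat_lit 493) (nat_lit 461) (nat_lit 7629) (.f (nat_lit 525) (nat_lit 622) (nat_lit 7661) (.d (nat_lit 495) (nat_lit 497) (nat_lit 1517) (nat_lit 524) (nat_lit 1516)))) (.f (nat_lit 591) (nat_lit 623) (nat_lit 4590) (.f (nat_lit 462) (nat_lit 559) (nat_lit 4558) (.d (nat_lit 461) (nat_lit 429) (nat_lit 7597) (nat_lit 493) (nat_lit 7629))))))) (.a (.p (nat_lit 590) (.a (.f (nat_lit 591) (nat_lit 623) (nat_lit 4590) (.f (nat_lit 462) (nat_lit 559) (nat_lit 4558) (.d (nat_lit 461) (nat_lit 429) (nat_lit 7597) (nat_lit 493) (nat_lit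 7629)))) (.a (.f (nat_lit 493) (nat_lit 461) (nat_lit 7629) (.f (nat_lit 525) (nat_lit 622) (nat_lit 7661) (.d (nat_lit 495) (nat_lit 497) (nat_lit 1517) (nat_lit 524) (nat_lit 1516)))) (.f (nat_lit 591) (nat_lit 623) (nat_lit 4590) (.f (nat_lit 559) (nat_lit 462) (nat_lit 4558) (.d (nat_lit 561) (nat_lit 525) (nat_lit 3597) (nat_lit 562) (nat_lit 1582))))))) (.a (.p (nat_lit 590) (.a (.f (nat_lit 589) (nat_lit 621) (nat_lit 5613) (.f (nat_lit 559) (nat_lit 561) (nat_lit 1581) (.d (nat_lit 588) (nat_lit 557) (nat_lit 1580) (nat_lit 587) (nat_lit 2603)))) (.f (nat_lit 493) (nat_lit 461) (nat_lit 7629) (.f (nat_lit 525) (nat_lit 622) (nat_lit 7661) (.d (nat_lit 495) (nat_lit 497) (nat_lit 1517) (nat_lit 524) (nat_lit 1516)))))) (.p (nat_lit 590) (.a (.f (nat_lit 589) (nat_lit 621) (nat_lit 5613) (.f (nat_lit 559) (nat_lit 561) (nat_lit 1581) (.d (nat_lit 557) (nat_lit 462) (nat_lit 5581) (nat_lit 588) (nat_lit 1580))))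 (.a (.f (nat_lit 621) (nat_lit 589) (nat_lit 5613) (.f (nat_lit 622) (nat_lit 653) (nat_lit 5645) (.d (nat_lit 623) (nat_lit 591) (nat_lit 4590) (nat_lit 655) (nat_lit 4622)))) (.f (nat_lit 591) (nat_lit 623) (nat_lit 4590) (.f (nat_lit 559) (nat_lit 462) (nat_lit 4558) (.d (nat_lit 561) (nat_lit 525) (nat_lit 3597) (nat_lit 562) (nat_lit 1582)))))))))))))) (.a (.p (nat_lit 494) (.a s108264 (.a s108589 (.a s108566 (.a s108482 (.a (.p (nat_lit 590) (.a (.f (nat_lit 621) (nat_lit 589) (nat_lit 5613) (.f (nat_lit 622) (nat_lit 653) (nat_lit 5645) (.d (nat_lit 623) (nat_lit 591) (nat_lit 4590) (nat_lit 655) (nat_lit 4622)))) (.a (.f (nat_lit 493) (nat_lit 461) (nat_lit 7629) (.f (nat_lit 525) (nat_lit 622) (nat_lit 7661) (.d (nat_lit 495) (nat_lit 497) (nat_lit 1517) (nat_lit 524) (nat_lit 1516)))) (.f (nat_lit 493) (nat_lit 461) (nat_lit 7629) (.f (nat_lit 591) (nat_lit 623) (nat_lit 4590) (.f (nat_lit 589) (nat_lit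 621) (nat_lit 5613) (.f (nat_lit 592) (nat_lit 561) (nat_lit 2605) (.f (nat_lit 465) (nat_lit 497) (nat_lit 6608) (.d (nat_lit 464) (nat_lit 433) (nat_lit 6576) (nat_lit 495) (nat_lit 2509)))))))))) (.a s108602 (.p (nat_lit 590) (.a (.f (nat_lit 621) (nat_lit 589) (nat_lit 5613) (.f (nat_lit 622) (nat_lit 653) (nat_lit 5645) (.d (nat_lit 623) (nat_lit 591) (nat_lit 4590) (nat_lit 655) (nat_lit 4622)))) (.a (.f (nat_lit 621) (nat_lit 589) (nat_lit 5613) (.f (nat_lit 622) (nat_lit 653) (nat_lit 5645) (.f (nat_lit 525) (nat_lit 493) (nat_lit 7661) (.f (nat_lit 655) (nat_lit 623) (nat_lit 4622) (.d (nat_lit 654) (nat_lit 557) (nat_lit 7693) (nat_lit 687) (nat_lit 4654)))))) (.a (.f (nat_lit 623) (nat_lit 591) (nat_lit 4590) (.f (nat_lit 622) (nat_lit 655) (nat_lit 4622) (.f (nat_lit 653) (nat_lit 621) (nat_lit 5645) (.f (nat_lit 654) (nat_lit 685) (nat_lit 5677) (.f (nat_lit 525) (nat_lit 557) (nat_lit 7693) (.f (nat_lit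 497) (nat_lit 495) (nat_lit 1517) (.f (nat_lit 465) (nat_lit 592) (nat_lit 6608) (.d (nat_lit 433) (nat_lit 401) (nat_lit 5520) (nat_lit 464) (nat_lit 6576))))))))) (.a (.f (nat_lit 621) (nat_lit 589) (nat_lit 5613) (.f (nat_lit 622) (nat_lit 653) (nat_lit 5645) (.f (nat_lit 525) (nat_lit 493) (nat_lit 7661) (.f (nat_lit 497) (nat_lit 495) (nat_lit 1517) (.f (nat_lit 465) (nat_lit 592) (nat_lit 6608) (.d (nat_lit 433) (nat_lit 401) (nat_lit 5520) (nat_lit 464) (nat_lit 6576))))))) (.a (.f (nat_lit 589) (nat_lit 621) (nat_lit 5613) (.f (nat_lit 591) (nat_lit 623) (nat_lit 4590) (.f (nat_lit 592) (nat_lit 561) (nat_lit 2605) (.d (nat_lit 557) (nat_lit 462) (nat_lit 5581) (nat_lit 556) (nat_lit 3628))))) (.f (nat_lit 623) (nat_lit 591) (nat_lit 4590) (.f (nat_lit 622) (nat_lit 655) (nat_lit 4622) (.f (nat_lit 525) (nat_lit 493) (nat_lit 7661) (.f (nat_lit 557) (nat_lit 654) (nat_lit 7693) (.d (nat_lit 462) (nat_lit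 430) (nat_lit 5549) (nat_lit 589) (nat_lit 5581))))))))))))))))))) (.a s108641 (.a (.p (nat_lit 494) (.a s108264 (.a s108589 (.a s108566 (.a s108482 (.a (.p (nat_lit 590) (.a (.f (nat_lit 621) (nat_lit 589) (nat_lit 5613) (.f (nat_lit 622) (nat_lit 653) (nat_lit 5645) (.d (nat_lit 623) (nat_lit 591) (nat_lit 4590) (nat_lit 655) (nat_lit 4622)))) (.a (.f (nat_lit 493) (nat_lit 461) (nat_lit 7629) (.f (nat_lit 525) (nat_lit 622) (nat_lit 7661) (.d (nat_lit 495) (nat_lit 497) (nat_lit 1517) (nat_lit 524) (nat_lit 1516)))) (.f (nat_lit 591) (nat_lit 623) (nat_lit 4590) (.f (nat_lit 464) (nat_lit 559) (nat_lit 5583) (.f (nat_lit 465) (nat_lit 433) (nat_lit 6576) (.d (nat_lit 493) (nat_lit 461) (nat_lit 7629) (nat_lit 495) (nat_lit 2509)))))))) (.a s108602 (.p (nat_lit 590) (.a (.f (nat_lit 591) (nat_lit 623) (nat_lit 4590) (.d (nat_lit 559) (nat_lit 462) (nat_lit 4558) (nat_lit 464) (nat_lit 5583))) (.a (.f (nat_lit 621)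 (nat_lit 589) (nat_lit 5613) (.f (nat_lit 622) (nat_lit 653) (nat_lit 5645) (.f (nat_lit 525) (nat_lit 493) (nat_lit 7661) (.f (nat_lit 655) (nat_lit 623) (nat_lit 4622) (.d (nat_lit 654) (nat_lit 557) (nat_lit 7693) (nat_lit 687) (nat_lit 4654)))))) (.f (nat_lit 621) (nat_lit 589) (nat_lit 5613) (.f (nat_lit 622) (nat_lit 653) (nat_lit 5645) (.f (nat_lit 525) (nat_lit 493) (nat_lit 7661) (.f (nat_lit 497) (nat_lit 495) (nat_lit 1517) (.f (nat_lit 465) (nat_lit 592) (nat_lit 6608) (.d (nat_lit 433) (nat_lit 401) (nat_lit 5520) (nat_lit 464) (nat_lit 6576))))))))))))))))) (.p (nat_lit 494) (.a (.p (nat_lit 462) (.a (.f (nat_lit 461) (nat_lit 429) (nat_lit 7597) (.f (nat_lit 495) (nat_lit 497) (nat_lit 3533) (.d (nat_lit 460) (nat_lit 459) (nat_lit 459) (nat_lit 493) (nat_lit 3532)))) (.f (nat_lit 557) (nat_lit 589) (nat_lit 5581) (.f (nat_lit 525) (nat_lit 430) (nat_lit 5549) (.d (nat_lit 559) (nat_lit 524) (nat_lit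 3596) (nat_lit 561) (nat_lit 3597)))))) (.a s108550 (.a s108264 (.a s108566 (.a s108645 (.a (.p (nat_lit 590) (.a (.f (nat_lit 589) (nat_lit 621) (nat_lit 5613) (.f (nat_lit 559) (nat_lit 561) (nat_lit 1581) (.d (nat_lit 588) (nat_lit 557) (nat_lit 1580) (nat_lit 587) (nat_lit 2603)))) (.f (nat_lit 493) (nat_lit 461) (nat_lit 7629) (.f (nat_lit 525) (nat_lit 622) (nat_lit 7661) (.d (nat_lit 495) (nat_lit 497) (nat_lit 1517) (nat_lit 524) (nat_lit 1516)))))) (.a (.p (nat_lit 462) (.a (.f (nat_lit 557) (nat_lit 589) (nat_lit 5581) (.f (nat_lit 525) (nat_lit 430) (nat_lit 5549) (.d (nat_lit 559) (nat_lit 524) (nat_lit 3596) (nat_lit 561) (nat_lit 3597)))) (.f (nat_lit 461) (nat_lit 429) (nat_lit 7597) (.f (nat_lit 497) (nat_lit 495) (nat_lit 3533) (.f (nat_lit 465) (nat_lit 592) (nat_lit 6608) (.d (nat_lit 433) (nat_lit 401) (nat_lit 5520) (nat_lit 464) (nat_lit 6576))))))) (.p (nat_lit 525) (.a (.f (nat_lit 495) (nat_lit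 497) (nat_lit 1517) (.d (nat_lit 524) (nat_lit 493) (nat_lit 1516) (nat_lit 523) (nat_lit 2539))) (.a (.f (nat_lit 559) (nat_lit 561) (nat_lit 3597) (.d (nat_lit 524) (nat_lit 523) (nat_lit 523) (nat_lit 557) (nat_lit 3596))) (.f (nat_lit 497) (nat_lit 495) (nat_lit 1517) (.f (nat_lit 465) (nat_lit 592) (nat_lit 6608) (.d (nat_lit 433) (nat_lit 401) (nat_lit 5520) (nat_lit 464) (nat_lit 6576))))))))))))))))))))))))
noncomputable def s108695 : Cert := .r (nat_lit 4052261302452797718172567620513327255209175234684690474666434726606503269996654257735046676343305527890045786642520651594229247190939606688016422129910212258618360654190363017216) (.p (nat_lit 494) (.a (.f (nat_lit 589) (nat_lit 621) (nat_lit 5613) (.f (nat_lit 557) (nat_lit 462) (nat_lit 5581) (.f (nat_lit 493) (nat_lit 461) (nat_lit 7629) (.f (nat_lit 525) (nat_lit 622) (nat_lit 4589) (.f (nat_lit 492) (nat_lit 460) (nat_lit 7628) (.f (nat_lit 491) (nat_lit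 490) (nat_lit 490) (.f (nat_lit 523) (nat_lit 522) (nat_lit 1514) (.f (nat_lit 588) (nat_lit 620) (nat_lit 5612) (.f (nat_lit 587) (nat_lit 586) (nat_lit 2602) (.f (nat_lit 555) (nat_lit 554) (nat_lit 3626) (.d (nat_lit 459) (nat_lit 458) (nat_lit 3530) (nat_lit 556) (nat_lit 4555)))))))))))) (.a (.f (nat_lit 589) (nat_lit 621) (nat_lit 5613) (.f (nat_lit 462) (nat_lit 557) (nat_lit 5581) (.d (nat_lit 461) (nat_lit 429) (nat_lit 7597) (nat_lit 493) (nat_lit 7629)))) (.a (.f (nat_lit 493) (nat_lit 461) (nat_lit 7629) (.f (nat_lit 622) (nat_lit 525) (nat_lit 7661) (.d (nat_lit 621) (nat_lit 589) (nat_lit 5613) (nat_lit 653) (nat_lit 5645)))) (.a (.f (nat_lit 431) (nat_lit 463) (nat_lit 7599) (.f (nat_lit 432) (nat_lit 399) (nat_lit 7567) (.f (nat_lit 401) (nat_lit 433) (nat_lit 6544) (.f (nat_lit 400) (nat_lit 369) (nat_lit 6512) (.f (nat_lit 429) (nat_lit 430) (nat_lit 2445) (.d (nat_lit 461) (nat_lit 462) (nat_lit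 7597) (nat_lit 493) (nat_lit 7629))))))) (.a (.f (nat_lit 431) (nat_lit 463) (nat_lit 7599) (.f (nat_lit 432) (nat_lit 399) (nat_lit 7567) (.f (nat_lit 401) (nat_lit 433) (nat_lit 6544) (.f (nat_lit 400) (nat_lit 369) (nat_lit 6512) (.f (nat_lit 429) (nat_lit 430) (nat_lit 2445) (.f (nat_lit 589) (nat_lit 621) (nat_lit 5613) (.d (nat_lit 462) (nat_lit 461) (nat_lit 7597) (nat_lit 557) (nat_lit 5581)))))))) (.f (nat_lit 621) (nat_lit 589) (nat_lit 5613) (.f (nat_lit 622) (nat_lit 653) (nat_lit 5645) (.f (nat_lit 655) (nat_lit 623) (nat_lit 4622) (.f (nat_lit 654) (nat_lit 687) (nat_lit 4654) (.d (nat_lit 525) (nat_lit 493) (nat_lit 7661) (nat_lit 557) (nat_lit 7693))))))))))))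
noncomputable def s108710 : Cert := .r (nat_lit 4052261302452797718172567620513327255209175234684690474666434726606503269996654257735046676343305527890045786642520651594229247190939606688016422129910212258618360654190363017216) (.p (nat_lit 622) (.a (.f (nat_lit 655) (nat_lit 623) (nat_lit 4622) (.f (nat_lit 654) (nat_lit 687) (nat_lit 4654) (.d (nat_lit 653) (nat_lit 621) (nat_lit 5645) (nat_lit 685) (nat_lit 5677)))) (.a (.f (nat_lit 621) (nat_lit 653) (nat_lit 5645) (.f (nat_lit 493) (nat_lit 525) (nat_lit 7661) (.d (nat_lit 494) (nat_lit 461) (nat_lit 7629) (nat_lit 589) (nat_lit 5613)))) (.f (nat_lit 431) (nat_lit 463) (nat_lit 7599) (.f (nat_lit 432) (nat_lit 399) (nat_lit 7567) (.f (nat_lit 433) (nat_lit 401) (nat_lit 6544) (.f (nat_lit 493) (nat_lit 525) (nat_lit 7661) (.f (nat_lit 461) (nat_lit 494) (nat_lit 7629) (.f (nat_lit 430) (nat_lit 462) (nat_lit 1453) (.f (nat_lit 429) (nat_lit 460) (nat_lit 1452)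 (.d (nat_lit 397) (nat_lit 396) (nat_lit 3468) (nat_lit 398) (nat_lit 3469))))))))))))
noncomputable def s108739 : Cert := .r (nat_lit 4052261302452797718172567620513327255209175234684690474666434726606503269996654257735046676343305527890045786642520651594229247190939606688016422129910212258618360654190363017216) (.p (nat_lit 494) (.a (.f (nat_lit 589) (nat_lit 621) (nat_lit 5613) (.f (nat_lit 557) (nat_lit 462) (nat_lit 5581) (.f (nat_lit 493) (nat_lit 461) (nat_lit 7629) (.f (nat_lit 525) (nat_lit 622) (nat_lit 4589) (.f (nat_lit 492) (nat_lit 460) (nat_lit 7628) (.f (nat_lit 491) (nat_lit 490) (nat_lit 490) (.f (nat_lit 523) (nat_lit 522) (nat_lit 1514) (.f (nat_lit 588) (nat_lit 620) (nat_lit 5612) (.f (nat_lit 587) (nat_lit 586) (nat_lit 2602) (.f (nat_lit 555) (nat_lit 554) (nat_lit 3626) (.d (nat_lit 459) (nat_lit 458) (nat_lit 3530) (nat_lit 556) (nat_lit 4555)))))))))))) (.a (.f (nat_lit 589) (nat_lit 621)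 (nat_lit 5613) (.f (nat_lit 462) (nat_lit 557) (nat_lit 5581) (.d (nat_lit 461) (nat_lit 429) (nat_lit 7597) (nat_lit 493) (nat_lit 7629)))) (.a (.f (nat_lit 493) (nat_lit 461) (nat_lit 7629) (.f (nat_lit 622) (nat_lit 525) (nat_lit 7661) (.d (nat_lit 621) (nat_lit 589) (nat_lit 5613) (nat_lit 653) (nat_lit 5645)))) (.a (.f (nat_lit 623) (nat_lit 591) (nat_lit 4590) (.f (nat_lit 622) (nat_lit 655) (nat_lit 4622) (.d (nat_lit 493) (nat_lit 461) (nat_lit 7629) (nat_lit 525) (nat_lit 7661)))) (.f (nat_lit 623) (nat_lit 591) (nat_lit 4590) (.f (nat_lit 622) (nat_lit 655) (nat_lit 4622) (.d (nat_lit 621) (nat_lit 589) (nat_lit 5613) (nat_lit 653) (nat_lit 5645)))))))))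
noncomputable def s108766 : Cert := .r (nat_lit 4052261302452797718172567620513327255209175234684690474666434726606503269996654257735046676343305527890045786642520651594229247190939606688016422129910212258618360654190363017216) (.p (nat_lit 622) (.a (.f (nat_lit 655) (nat_lit 623) (nat_lit 4622) (.f (nat_lit 654) (nat_lit 687) (nat_lit 4654) (.d (nat_lit 653) (nat_lit 621) (nat_lit 5645) (nat_lit 685) (nat_lit 5677)))) (.a (.f (nat_lit 525) (nat_lit 493) (nat_lit 7661) (.f (nat_lit 654) (nat_lit 557) (nat_lit 7693) (.d (nat_lit 653) (nat_lit 621) (nat_lit 5645) (nat_lit 685) (nat_lit 5677)))) (.a (.f (nat_lit 623) (nat_lit 655) (nat_lit 4622) (.f (nat_lit 525) (nat_lit 493) (nat_lit 7661) (.f (nat_lit 654) (nat_lit 557) (nat_lit 7693) (.f (nat_lit 591) (nat_lit 592) (nat_lit 5615) (.f (nat_lit 686) (nat_lit 718) (nat_lit 6734) (.d (nat_lit 685) (nat_lit 653) (nat_lit 5677) (nat_lit 717) (nat_lit 5709))))))) (.a (.f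 (nat_lit 623) (nat_lit 655) (nat_lit 4622) (.f (nat_lit 621) (nat_lit 653) (nat_lit 5645) (.f (nat_lit 591) (nat_lit 592) (nat_lit 5615) (.f (nat_lit 620) (nat_lit 619) (nat_lit 2635) (.f (nat_lit 588) (nat_lit 587) (nat_lit 3659) (.f (nat_lit 589) (nat_lit 624) (nat_lit 588) (.f (nat_lit 652) (nat_lit 651) (nat_lit 1643) (.d (nat_lit 525) (nat_lit 493) (nat_lit 7661) (nat_lit 557) (nat_lit 5644))))))))) (.f (nat_lit 525) (nat_lit 493) (nat_lit 7661) (.f (nat_lit 654) (nat_lit 557) (nat_lit 7693) (.d (nat_lit 655) (nat_lit 623) (nat_lit 4622) (nat_lit 687) (nat_lit 4654)))))))))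
noncomputable def s108781 : Cert := .r (nat_lit 4052261302452797718172567620513327255209175234684690474666434726606503269996654257735046676343305527890045786642520651594229247190939606688016422129910212258618360654190363017216) (.p (nat_lit 622) (.a (.f (nat_lit 655) (nat_lit 623) (nat_lit 4622) (.f (nat_lit 654) (nat_lit 687) (nat_lit 4654) (.d (nat_lit 653) (nat_lit 621) (nat_lit 5645) (nat_lit 685) (nat_lit 5677)))) (.a (.f (nat_lit 653) (nat_lit 621) (nat_lit 5645) (.f (nat_lit 654) (nat_lit 685) (nat_lit 5677) (.f (nat_lit 687) (nat_lit 655) (nat_lit 4654) (.f (nat_lit 686) (nat_lit 719) (nat_lit 4686) (.d (nat_lit 557) (nat_lit 525) (nat_lit 7693) (nat_lit 589) (nat_lit 7725)))))) (.a (.f (nat_lit 653) (nat_lit 621) (nat_lit 5645) (.f (nat_lit 654) (nat_lit 685) (nat_lit 5677) (.f (nat_lit 557) (nat_lit 525) (nat_lit 7693) (.f (nat_lit 589) (nat_lit 686) (nat_lit 7725) (.f (nat_lit 494) (nat_lit 462) (nat_lit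 5581) (.f (nat_lit 591) (nat_lit 623) (nat_lit 4590) (.d (nat_lit 556) (nat_lit 555) (nat_lit 555) (nat_lit 592) (nat_lit 3628)))))))) (.f (nat_lit 623) (nat_lit 655) (nat_lit 4622) (.d (nat_lit 591) (nat_lit 494) (nat_lit 4590) (nat_lit 592) (nat_lit 5615)))))))
noncomputable def s108799 : Cert := .r (nat_lit 4052261302452797718172567620513327255209175234684690474666434726606503269996654257735046676343305527890045786642520651594229247190939606688016422129910212258618360654190363017216) (.p (nat_lit 461) (.a (.f (nat_lit 494) (nat_lit 493) (nat_lit 7629) (.f (nat_lit 462) (nat_lit 429) (nat_lit 7597) (.d (nat_lit 463) (nat_lit 431) (nat_lit 7599) (nat_lit 497) (nat_lit 461)))) (.a (.f (nat_lit 494) (nat_lit 493) (nat_lit 7629) (.f (nat_lit 462) (nat_lit 429) (nat_lit 7597) (.d (nat_lit 589) (nat_lit 557) (nat_lit 5581) (nat_lit 621) (nat_lit 5613)))) (.a (.f (nat_lit 463) (nat_lit 431) (nat_lit 7599) (.f (nat_lit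 462) (nat_lit 497) (nat_lit 461) (.f (nat_lit 493) (nat_lit 492) (nat_lit 1484) (.d (nat_lit 429) (nat_lit 428) (nat_lit 3500) (nat_lit 525) (nat_lit 4525))))) (.a (.f (nat_lit 493) (nat_lit 494) (nat_lit 7629) (.d (nat_lit 525) (nat_lit 429) (nat_lit 4525) (nat_lit 557) (nat_lit 4557))) (.a (.f (nat_lit 463) (nat_lit 431) (nat_lit 7599) (.f (nat_lit 462) (nat_lit 497) (nat_lit 461) (.d (nat_lit 429) (nat_lit 428) (nat_lit 3500) (nat_lit 494) (nat_lit 7597)))) (.f (nat_lit 463) (nat_lit 431) (nat_lit 7599) (.f (nat_lit 462) (nat_lit 497) (nat_lit 461) (.d (nat_lit 493) (nat_lit 492) (nat_lit 1484) (nat_lit 494) (nat_lit 7629))))))))))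
noncomputable def s108868 : Cert := .r (nat_lit 4717453032125294316127427693625949108374998796335385130506726868687835905802578684957291737086975161612872578355191225769280585831318013308732534358420551646973186277376) (.p (nat_lit 463) (.a (.f (nat_lit 431) (nat_lit 464) (nat_lit 7599) (.d (nat_lit 495) (nat_lit 399) (nat_lit 4495) (nat_lit 592) (nat_lit 7631))) (.a (.f (nat_lit 431) (nat_lit 464) (nat_lit 7599) (.f (nat_lit 494) (nat_lit 462) (nat_lit 6574) (.d (nat_lit 495) (nat_lit 399) (nat_lit 5518) (nat_lit 590) (nat_lit 6606)))) (.a (.f (nat_lit 495) (nat_lit 592) (nat_lit 7631) (.f (nat_lit 494) (nat_lit 590) (nat_lit 6606) (.d (nat_lit 431) (nat_lit 399) (nat_lit 4495) (nat_lit 462) (nat_lit 6574)))) (.a (.f (nat_lit 464) (nat_lit 431) (nat_lit 7599) (.f (nat_lit 591) (nat_lit 559) (nat_lit 5583) (.f (nat_lit 623) (nat_lit 592) (nat_lit 5615) (.f (nat_lit 590) (nat_lit 494) (nat_lit 4590) (.d (nat_lit 655)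 (nat_lit 622) (nat_lit 4622) (nat_lit 687) (nat_lit 7726)))))) (.f (nat_lit 592) (nat_lit 495) (nat_lit 7631) (.f (nat_lit 591) (nat_lit 623) (nat_lit 5615) (.f (nat_lit 559) (nat_lit 464) (nat_lit 5583) (.f (nat_lit 557) (nat_lit 556) (nat_lit 556) (.f (nat_lit 589) (nat_lit 588) (nat_lit 1580) (.f (nat_lit 590) (nat_lit 561) (nat_lit 1581) (.d (nat_lit 621) (nat_lit 620) (nat_lit 1612) (nat_lit 653) (nat_lit 6669)))))))))))))
noncomputable def s108869 : Cert := .r (nat_lit 4717453032125294316178574421874326325093954885348316367260111900657258793138255112583793827655798201532923673547783478224763190270811139418251553991950010913431444520960) (.p (nat_lit 462) (.a (.f (nat_lit 463) (nat_lit 431) (nat_lit 6574) (.f (nat_lit 495) (nat_lit 592) (nat_lit 7631) (.d (nat_lit 461) (nat_lit 429) (nat_lit 7597) (nat_lit 460) (nat_lit 460)))) (.a (.f (nat_lit 431) (nat_lit 463) (nat_lit 6574) (.f (nat_lit 430) (nat_lit 399)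 (nat_lit 6542) (.d (nat_lit 429) (nat_lit 397) (nat_lit 7565) (nat_lit 461) (nat_lit 7597)))) (.a (.f (nat_lit 557) (nat_lit 589) (nat_lit 5581) (.f (nat_lit 430) (nat_lit 525) (nat_lit 5549) (.d (nat_lit 429) (nat_lit 397) (nat_lit 7565) (nat_lit 461) (nat_lit 7597)))) (.a (.f (nat_lit 557) (nat_lit 589) (nat_lit 5581) (.f (nat_lit 430) (nat_lit 525) (nat_lit 5549) (.f (nat_lit 399) (nat_lit 431) (nat_lit 6542) (.f (nat_lit 398) (nat_lit 367) (nat_lit 6510) (.d (nat_lit 397) (nat_lit 365) (nat_lit 7533) (nat_lit 429) (nat_lit 7565)))))) (.f (nat_lit 431) (nat_lit 463) (nat_lit 6574) (.f (nat_lit 430) (nat_lit 399) (nat_lit 6542) (.d (nat_lit 557) (nat_lit 525) (nat_lit 5549) (nat_lit 589) (nat_lit 5581)))))))))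
noncomputable def s108918 : Cert := .r (nat_lit 3773962425919908977862452135385373018769944135179550076399135165748738315861835761429751693517268310047301103827131254722407521915864310712516097261444540570227804471296) (.p (nat_lit 496) (.a s108202 (.a (.p (nat_lit 558) (.a (.p (nat_lit 464) (.a (.f (nat_lit 431) (nat_lit 463) (nat_lit 7599) (.f (nat_lit 432) (nat_lit 399) (nat_lit 7567) (.d (nat_lit 433) (nat_lit 401) (nat_lit 6544) (nat_lit 465) (nat_lit 6576)))) (.f (nat_lit 559) (nat_lit 591) (nat_lit 5583) (.f (nat_lit 525) (nat_lit 561) (nat_lit 3597) (.d (nat_lit 524) (nat_lit 523) (nat_lit 523) (nat_lit 557) (nat_lit 3596)))))) (.a (.p (nat_lit 494) (.a s108213 (.a s108217 (.a (.p (nat_lit 462) (.a (.f (nat_lit 461) (nat_lit 429) (nat_lit 7597) (.f (nat_lit 495) (nat_lit 497) (nat_lit 3533) (.d (nat_lit 460) (nat_lit 459) (nat_lit 459) (nat_lit 493) (nat_lit 3532)))) (.f (nat_lit 557) (nat_lit 589) (nat_lit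 5581) (.f (nat_lit 525) (nat_lit 430) (nat_lit 5549) (.d (nat_lit 559) (nat_lit 524) (nat_lit 3596) (nat_lit 561) (nat_lit 3597)))))) (.a (.p (nat_lit 462) (.a (.f (nat_lit 557) (nat_lit 589) (nat_lit 5581) (.f (nat_lit 525) (nat_lit 430) (nat_lit 5549) (.d (nat_lit 559) (nat_lit 524) (nat_lit 3596) (nat_lit 561) (nat_lit 3597)))) (.a (.f (nat_lit 431) (nat_lit 463) (nat_lit 6574) (.f (nat_lit 430) (nat_lit 399) (nat_lit 6542) (.d (nat_lit 429) (nat_lit 397) (nat_lit 7565) (nat_lit 461) (nat_lit 7597)))) (.f (nat_lit 463) (nat_lit 431) (nat_lit 6574) (.f (nat_lit 461) (nat_lit 429) (nat_lit 7597) (.f (nat_lit 464) (nat_lit 497) (nat_lit 461) (.d (nat_lit 493) (nat_lit 465) (nat_lit 1485) (nat_lit 492) (nat_lit 1484)))))))) (.a (.p (nat_lit 590) (.a (.f (nat_lit 589) (nat_lit 621) (nat_lit 5613) (.f (nat_lit 559) (nat_lit 561) (nat_lit 1581) (.d (nat_lit 588) (nat_lit 557) (nat_lit 1580) (nat_lit 587) (nat_lit 2603))))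 (.f (nat_lit 495) (nat_lit 463) (nat_lit 6606) (.f (nat_lit 525) (nat_lit 497) (nat_lit 1517) (.d (nat_lit 493) (nat_lit 461) (nat_lit 7629) (nat_lit 524) (nat_lit 1516)))))) (.a s108238 (.a (.p (nat_lit 590) (.a (.f (nat_lit 589) (nat_lit 621) (nat_lit 5613) (.f (nat_lit 559) (nat_lit 561) (nat_lit 1581) (.d (nat_lit 557) (nat_lit 462) (nat_lit 5581) (nat_lit 588) (nat_lit 1580)))) (.f (nat_lit 495) (nat_lit 463) (nat_lit 6606) (.f (nat_lit 497) (nat_lit 525) (nat_lit 1517) (.f (nat_lit 465) (nat_lit 466) (nat_lit 2510) (.d (nat_lit 433) (nat_lit 401) (nat_lit 5520) (nat_lit 464) (nat_lit 6576))))))) (.p (nat_lit 590) (.a (.f (nat_lit 589) (nat_lit 621) (nat_lit 5613) (.f (nat_lit 559) (nat_lit 561) (nat_lit 1581) (.d (nat_lit 557) (nat_lit 462) (nat_lit 5581) (nat_lit 588) (nat_lit 1580)))) (.a (.f (nat_lit 461) (nat_lit 493) (nat_lit 7629) (.f (nat_lit 462) (nat_lit 429) (nat_lit 7597) (.d (nat_lit 463) (nat_lit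 431) (nat_lit 6574) (nat_lit 495) (nat_lit 6606)))) (.f (nat_lit 589) (nat_lit 621) (nat_lit 5613) (.f (nat_lit 559) (nat_lit 561) (nat_lit 1581) (.d (nat_lit 588) (nat_lit 557) (nat_lit 1580) (nat_lit 587) (nat_lit 2603))))))))))))))) (.a (.p (nat_lit 494) (.a s108217 (.a (.p (nat_lit 590) (.a (.f (nat_lit 589) (nat_lit 621) (nat_lit 5613) (.f (nat_lit 559) (nat_lit 561) (nat_lit 1581) (.d (nat_lit 557) (nat_lit 462) (nat_lit 5581) (nat_lit 588) (nat_lit 1580)))) (.a (.f (nat_lit 461) (nat_lit 493) (nat_lit 7629) (.f (nat_lit 462) (nat_lit 429) (nat_lit 7597) (.d (nat_lit 463) (nat_lit 431) (nat_lit 6574) (nat_lit 495) (nat_lit 6606)))) (.f (nat_lit 589) (nat_lit 621) (nat_lit 5613) (.f (nat_lit 559) (nat_lit 561) (nat_lit 1581) (.d (nat_lit 588) (nat_lit 557) (nat_lit 1580) (nat_lit 587) (nat_lit 2603))))))) (.a s108250 (.p (nat_lit 590) (.a (.f (nat_lit 589) (nat_lit 621) (nat_lit 5613) (.f (nat_lit 559) (nat_lit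 561) (nat_lit 1581) (.d (nat_lit 588) (nat_lit 557) (nat_lit 1580) (nat_lit 587) (nat_lit 2603)))) (.a (.f (nat_lit 621) (nat_lit 589) (nat_lit 5613) (.f (nat_lit 622) (nat_lit 653) (nat_lit 5645) (.d (nat_lit 623) (nat_lit 591) (nat_lit 4590) (nat_lit 655) (nat_lit 4622)))) (.f (nat_lit 591) (nat_lit 623) (nat_lit 4590) (.f (nat_lit 464) (nat_lit 559) (nat_lit 5583) (.d (nat_lit 463) (nat_lit 431) (nat_lit 7599) (nat_lit 495) (nat_lit 6606))))))))))) (.a s108277 (.a (.p (nat_lit 494) (.a s108213 (.a s108217 (.a s108264 (.a s108281 (.a (.p (nat_lit 462) (.a (.f (nat_lit 461) (nat_lit 429) (nat_lit 7597) (.f (nat_lit 495) (nat_lit 497) (nat_lit 3533) (.d (nat_lit 460) (nat_lit 459) (nat_lit 459) (nat_lit 493) (nat_lit 3532)))) (.a (.f (nat_lit 557) (nat_lit 589) (nat_lit 5581) (.f (nat_lit 430) (nat_lit 525) (nat_lit 5549) (.d (nat_lit 429) (nat_lit 397) (nat_lit 7565) (nat_lit 461) (nat_lit 7597)))) (.f (nat_lit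 557) (nat_lit 589) (nat_lit 5581) (.f (nat_lit 525) (nat_lit 430) (nat_lit 5549) (.f (nat_lit 495) (nat_lit 497) (nat_lit 1517) (.d (nat_lit 524) (nat_lit 493) (nat_lit 1516) (nat_lit 523) (nat_lit 2539)))))))) (.a (.p (nat_lit 590) (.a (.f (nat_lit 621) (nat_lit 589) (nat_lit 5613) (.f (nat_lit 622) (nat_lit 653) (nat_lit 5645) (.d (nat_lit 623) (nat_lit 591) (nat_lit 4590) (nat_lit 655) (nat_lit 4622)))) (.f (nat_lit 495) (nat_lit 463) (nat_lit 6606) (.f (nat_lit 525) (nat_lit 497) (nat_lit 1517) (.d (nat_lit 493) (nat_lit 461) (nat_lit 7629) (nat_lit 524) (nat_lit 1516)))))) (.a s108284 (.a (.p (nat_lit 590) (.a (.f (nat_lit 621) (nat_lit 589) (nat_lit 5613) (.f (nat_lit 622) (nat_lit 653) (nat_lit 5645) (.d (nat_lit 623) (nat_lit 591) (nat_lit 4590) (nat_lit 655) (nat_lit 4622)))) (.f (nat_lit 495) (nat_lit 463) (nat_lit 6606) (.f (nat_lit 497) (nat_lit 525) (nat_lit 1517) (.f (nat_lit 465) (nat_lit 466) (nat_lit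 2510) (.d (nat_lit 433) (nat_lit 401) (nat_lit 5520) (nat_lit 464) (nat_lit 6576))))))) (.p (nat_lit 590) (.a (.f (nat_lit 461) (nat_lit 493) (nat_lit 7629) (.f (nat_lit 462) (nat_lit 429) (nat_lit 7597) (.d (nat_lit 463) (nat_lit 431) (nat_lit 6574) (nat_lit 495) (nat_lit 6606)))) (.a (.f (nat_lit 461) (nat_lit 493) (nat_lit 7629) (.f (nat_lit 462) (nat_lit 429) (nat_lit 7597) (.d (nat_lit 589) (nat_lit 557) (nat_lit 5581) (nat_lit 621) (nat_lit 5613)))) (.f (nat_lit 621) (nat_lit 589) (nat_lit 5613) (.f (nat_lit 622) (nat_lit 653) (nat_lit 5645) (.d (nat_lit 623) (nat_lit 591) (nat_lit 4590) (nat_lit 655) (nat_lit 4622)))))))))))))))) (.a (.p (nat_lit 559) (.a (.f (nat_lit 525) (nat_lit 561) (nat_lit 3597) (.d (nat_lit 524) (nat_lit 523) (nat_lit 523) (nat_lit 557) (nat_lit 3596))) (.f (nat_lit 591) (nat_lit 464) (nat_lit 5583) (.f (nat_lit 623) (nat_lit 655) (nat_lit 6671) (.d (nat_lit 494) (nat_lit 462) (nat_lit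 4558) (nat_lit 590) (nat_lit 4590)))))) (.p (nat_lit 494) (.a s108213 (.a s108217 (.a (.p (nat_lit 590) (.a (.f (nat_lit 461) (nat_lit 493) (nat_lit 7629) (.f (nat_lit 462) (nat_lit 429) (nat_lit 7597) (.d (nat_lit 463) (nat_lit 431) (nat_lit 6574) (nat_lit 495) (nat_lit 6606)))) (.f (nat_lit 621) (nat_lit 589) (nat_lit 5613) (.f (nat_lit 622) (nat_lit 653) (nat_lit 5645) (.d (nat_lit 623) (nat_lit 591) (nat_lit 4590) (nat_lit 655) (nat_lit 4622)))))) (.a (.p (nat_lit 590) (.a (.f (nat_lit 591) (nat_lit 623) (nat_lit 4590) (.f (nat_lit 464) (nat_lit 559) (nat_lit 5583) (.f (nat_lit 465) (nat_lit 433) (nat_lit 6576) (.d (nat_lit 493) (nat_lit 461) (nat_lit 7629) (nat_lit 495) (nat_lit 2509))))) (.a (.f (nat_lit 493) (nat_lit 461) (nat_lit 7629) (.f (nat_lit 525) (nat_lit 622) (nat_lit 7661) (.d (nat_lit 495) (nat_lit 497) (nat_lit 1517) (nat_lit 524) (nat_lit 1516)))) (.f (nat_lit 591) (nat_lit 623) (nat_lit 4590)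 (.f (nat_lit 559) (nat_lit 464) (nat_lit 5583) (.d (nat_lit 561) (nat_lit 525) (nat_lit 3597) (nat_lit 562) (nat_lit 1582))))))) (.a (.p (nat_lit 590) (.a (.f (nat_lit 591) (nat_lit 623) (nat_lit 4590) (.d (nat_lit 559) (nat_lit 462) (nat_lit 4558) (nat_lit 464) (nat_lit 5583))) (.a (.f (nat_lit 493) (nat_lit 461) (nat_lit 7629) (.f (nat_lit 622) (nat_lit 525) (nat_lit 7661) (.f (nat_lit 655) (nat_lit 623) (nat_lit 4622) (.f (nat_lit 654) (nat_lit 687) (nat_lit 4654) (.d (nat_lit 653) (nat_lit 621) (nat_lit 5645) (nat_lit 685) (nat_lit 5677)))))) (.f (nat_lit 589) (nat_lit 621) (nat_lit 5613) (.f (nat_lit 559) (nat_lit 561) (nat_lit 1581) (.d (nat_lit 588) (nat_lit 587) (nat_lit 2603) (nat_lit 591) (nat_lit 2604))))))) (.p (nat_lit 590) (.a (.f (nat_lit 621) (nat_lit 589) (nat_lit 5613) (.f (nat_lit 622) (nat_lit 653) (nat_lit 5645) (.d (nat_lit 623) (nat_lit 591) (nat_lit 4590) (nat_lit 655) (nat_lit 4622)))) (.f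 (nat_lit 495) (nat_lit 463) (nat_lit 6606) (.f (nat_lit 497) (nat_lit 525) (nat_lit 1517) (.f (nat_lit 465) (nat_lit 466) (nat_lit 2510) (.d (nat_lit 433) (nat_lit 401) (nat_lit 5520) (nat_lit 464) (nat_lit 6576)))))))))))))))))))) (.a s108367 (.a (.p (nat_lit 494) (.a (.p (nat_lit 558) (.a (.p (nat_lit 462) (.a (.f (nat_lit 463) (nat_lit 431) (nat_lit 6574) (.f (nat_lit 495) (nat_lit 592) (nat_lit 7631) (.d (nat_lit 461) (nat_lit 429) (nat_lit 7597) (nat_lit 460) (nat_lit 460)))) (.a (.f (nat_lit 461) (nat_lit 429) (nat_lit 7597) (.f (nat_lit 495) (nat_lit 497) (nat_lit 3533) (.d (nat_lit 460) (nat_lit 459) (nat_lit 459) (nat_lit 493) (nat_lit 3532)))) (.f (nat_lit 557) (nat_lit 589) (nat_lit 5581) (.f (nat_lit 525) (nat_lit 430) (nat_lit 5549) (.d (nat_lit 559) (nat_lit 524) (nat_lit 3596) (nat_lit 561) (nat_lit 3597))))))) (.a (.p (nat_lit 462) (.a (.f (nat_lit 461) (nat_lit 429) (nat_lit 7597) (.f (nat_lit 495)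 (nat_lit 497) (nat_lit 3533) (.d (nat_lit 460) (nat_lit 459) (nat_lit 459) (nat_lit 493) (nat_lit 3532)))) (.f (nat_lit 557) (nat_lit 589) (nat_lit 5581) (.f (nat_lit 525) (nat_lit 430) (nat_lit 5549) (.d (nat_lit 559) (nat_lit 524) (nat_lit 3596) (nat_lit 561) (nat_lit 3597)))))) (.a s108375 (.a s108378 (.a (.p (nat_lit 462) (.a (.f (nat_lit 557) (nat_lit 589) (nat_lit 5581) (.f (nat_lit 525) (nat_lit 430) (nat_lit 5549) (.d (nat_lit 559) (nat_lit 524) (nat_lit 3596) (nat_lit 561) (nat_lit 3597)))) (.a (.f (nat_lit 431) (nat_lit 463) (nat_lit 6574) (.f (nat_lit 430) (nat_lit 399) (nat_lit 6542) (.d (nat_lit 429) (nat_lit 397) (nat_lit 7565) (nat_lit 461) (nat_lit 7597)))) (.f (nat_lit 559) (nat_lit 591) (nat_lit 4558) (.f (nat_lit 557) (nat_lit 589) (nat_lit 5581) (.d (nat_lit 525) (nat_lit 524) (nat_lit 3596) (nat_lit 561) (nat_lit 3597))))))) (.p (nat_lit 525) (.a (.f (nat_lit 495) (nat_lit 497) (nat_lit 1517)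 (.d (nat_lit 524) (nat_lit 493) (nat_lit 1516) (nat_lit 523) (nat_lit 2539))) (.a (.f (nat_lit 559) (nat_lit 561) (nat_lit 3597) (.d (nat_lit 524) (nat_lit 523) (nat_lit 523) (nat_lit 557) (nat_lit 3596))) (.f (nat_lit 495) (nat_lit 497) (nat_lit 1517) (.f (nat_lit 592) (nat_lit 463) (nat_lit 7631) (.f (nat_lit 591) (nat_lit 623) (nat_lit 5615) (.f (nat_lit 559) (nat_lit 561) (nat_lit 3597) (.f (nat_lit 557) (nat_lit 556) (nat_lit 556) (.d (nat_lit 589) (nat_lit 588) (nat_lit 1580) (nat_lit 621) (nat_lit 6637)))))))))))))))) (.a (.p (nat_lit 558) (.a (.p (nat_lit 462) (.a (.f (nat_lit 461) (nat_lit 429) (nat_lit 7597) (.f (nat_lit 495) (nat_lit 497) (nat_lit 3533) (.d (nat_lit 460) (nat_lit 459) (nat_lit 459) (nat_lit 493) (nat_lit 3532)))) (.f (nat_lit 557) (nat_lit 589) (nat_lit 5581) (.f (nat_lit 525) (nat_lit 430) (nat_lit 5549) (.d (nat_lit 559) (nat_lit 524) (nat_lit 3596) (nat_lit 561) (nat_lit 3597))))))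 (.a (.p (nat_lit 590) (.a (.f (nat_lit 589) (nat_lit 621) (nat_lit 5613) (.f (nat_lit 559) (nat_lit 561) (nat_lit 1581) (.d (nat_lit 557) (nat_lit 462) (nat_lit 5581) (nat_lit 588) (nat_lit 1580)))) (.a (.f (nat_lit 461) (nat_lit 493) (nat_lit 7629) (.f (nat_lit 462) (nat_lit 429) (nat_lit 7597) (.d (nat_lit 463) (nat_lit 431) (nat_lit 6574) (nat_lit 495) (nat_lit 6606)))) (.f (nat_lit 589) (nat_lit 621) (nat_lit 5613) (.f (nat_lit 559) (nat_lit 561) (nat_lit 1581) (.d (nat_lit 588) (nat_lit 557) (nat_lit 1580) (nat_lit 587) (nat_lit 2603))))))) (.a s108264 (.a (.p (nat_lit 590) (.a (.f (nat_lit 461) (nat_lit 493) (nat_lit 7629) (.f (nat_lit 462) (nat_lit 429) (nat_lit 7597) (.d (nat_lit 463) (nat_lit 431) (nat_lit 6574) (nat_lit 495) (nat_lit 6606)))) (.f (nat_lit 621) (nat_lit 589) (nat_lit 5613) (.f (nat_lit 622) (nat_lit 653) (nat_lit 5645) (.d (nat_lit 623) (nat_lit 591) (nat_lit 4590) (nat_lit 655) (nat_lit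 4622)))))) (.a s108272 (.a (.p (nat_lit 462) (.a (.f (nat_lit 557) (nat_lit 589) (nat_lit 5581) (.f (nat_lit 525) (nat_lit 430) (nat_lit 5549) (.d (nat_lit 559) (nat_lit 524) (nat_lit 3596) (nat_lit 561) (nat_lit 3597)))) (.a (.f (nat_lit 431) (nat_lit 463) (nat_lit 6574) (.f (nat_lit 430) (nat_lit 399) (nat_lit 6542) (.d (nat_lit 429) (nat_lit 397) (nat_lit 7565) (nat_lit 461) (nat_lit 7597)))) (.f (nat_lit 559) (nat_lit 591) (nat_lit 4558) (.f (nat_lit 557) (nat_lit 589) (nat_lit 5581) (.d (nat_lit 525) (nat_lit 524) (nat_lit 3596) (nat_lit 561) (nat_lit 3597))))))) (.a (.p (nat_lit 590) (.a (.f (nat_lit 589) (nat_lit 621) (nat_lit 5613) (.f (nat_lit 559) (nat_lit 561) (nat_lit 1581) (.d (nat_lit 588) (nat_lit 557) (nat_lit 1580) (nat_lit 587) (nat_lit 2603)))) (.f (nat_lit 495) (nat_lit 463) (nat_lit 6606) (.f (nat_lit 525) (nat_lit 497) (nat_lit 1517) (.d (nat_lit 493) (nat_lit 461) (nat_lit 7629) (nat_lit 524)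 (nat_lit 1516)))))) (.p (nat_lit 590) (.a (.f (nat_lit 589) (nat_lit 621) (nat_lit 5613) (.f (nat_lit 559) (nat_lit 561) (nat_lit 1581) (.d (nat_lit 557) (nat_lit 462) (nat_lit 5581) (nat_lit 588) (nat_lit 1580)))) (.a (.f (nat_lit 621) (nat_lit 589) (nat_lit 5613) (.f (nat_lit 622) (nat_lit 653) (nat_lit 5645) (.d (nat_lit 623) (nat_lit 591) (nat_lit 4590) (nat_lit 655) (nat_lit 4622)))) (.f (nat_lit 591) (nat_lit 623) (nat_lit 4590) (.f (nat_lit 462) (nat_lit 559) (nat_lit 4558) (.d (nat_lit 463) (nat_lit 431) (nat_lit 6574) (nat_lit 495) (nat_lit 6606))))))))))))))) (.a s108395 (.a (.p (nat_lit 462) (.a (.p (nat_lit 558) (.a (.f (nat_lit 463) (nat_lit 431) (nat_lit 6574) (.f (nat_lit 495) (nat_lit 592) (nat_lit 7631) (.d (nat_lit 461) (nat_lit 429) (nat_lit 7597) (nat_lit 460) (nat_lit 460)))) (.a (.f (nat_lit 461) (nat_lit 429) (nat_lit 7597) (.f (nat_lit 495) (nat_lit 497) (nat_lit 3533) (.d (nat_lit 460) (nat_lit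 459) (nat_lit 459) (nat_lit 493) (nat_lit 3532)))) (.a (.f (nat_lit 431) (nat_lit 463) (nat_lit 6574) (.f (nat_lit 430) (nat_lit 399) (nat_lit 6542) (.d (nat_lit 429) (nat_lit 397) (nat_lit 7565) (nat_lit 461) (nat_lit 7597)))) (.f (nat_lit 463) (nat_lit 431) (nat_lit 6574) (.f (nat_lit 592) (nat_lit 495) (nat_lit 7631) (.d (nat_lit 591) (nat_lit 559) (nat_lit 4558) (nat_lit 623) (nat_lit 5615)))))))) (.a (.p (nat_lit 558) (.a (.f (nat_lit 461) (nat_lit 429) (nat_lit 7597) (.f (nat_lit 495) (nat_lit 497) (nat_lit 3533) (.d (nat_lit 460) (nat_lit 459) (nat_lit 459) (nat_lit 493) (nat_lit 3532)))) (.a (.f (nat_lit 431) (nat_lit 463) (nat_lit 6574) (.f (nat_lit 430) (nat_lit 399) (nat_lit 6542) (.d (nat_lit 429) (nat_lit 397) (nat_lit 7565) (nat_lit 461) (nat_lit 7597)))) (.f (nat_lit 463) (nat_lit 431) (nat_lit 6574) (.f (nat_lit 590) (nat_lit 495) (nat_lit 6606) (.d (nat_lit 589) (nat_lit 557) (nat_lit 5581) (nat_lit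 621) (nat_lit 5613))))))) (.a (.p (nat_lit 558) (.a (.f (nat_lit 461) (nat_lit 429) (nat_lit 7597) (.f (nat_lit 495) (nat_lit 497) (nat_lit 3533) (.d (nat_lit 460) (nat_lit 459) (nat_lit 459) (nat_lit 493) (nat_lit 3532)))) (.f (nat_lit 591) (nat_lit 559) (nat_lit 4558) (.d (nat_lit 623) (nat_lit 590) (nat_lit 4590) (nat_lit 592) (nat_lit 5615))))) (.a (.p (nat_lit 495) (.a (.f (nat_lit 461) (nat_lit 497) (nat_lit 3533) (.d (nat_lit 460) (nat_lit 459) (nat_lit 459) (nat_lit 493) (nat_lit 3532))) (.a (.f (nat_lit 497) (nat_lit 461) (nat_lit 3533) (.d (nat_lit 465) (nat_lit 466) (nat_lit 2510) (nat_lit 592) (nat_lit 6608))) (.a (.p (nat_lit 497) (.a (.d (nat_lit 463) (nat_lit 498) (nat_lit 3534) (nat_lit 592) (nat_lit 7631)) (.a (.f (nat_lit 498) (nat_lit 463) (nat_lit 3534) (.d (nat_lit 466) (nat_lit 465) (nat_lit 2510) (nat_lit 467) (nat_lit 2511))) (.d (nat_lit 465) (nat_lit 466) (nat_lit 2510) (nat_lit 592) (nat_lit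 6608))))) s108418)))) (.a (.p (nat_lit 558) (.a (.f (nat_lit 431) (nat_lit 463) (nat_lit 6574) (.f (nat_lit 430) (nat_lit 399) (nat_lit 6542) (.d (nat_lit 429) (nat_lit 397) (nat_lit 7565) (nat_lit 461) (nat_lit 7597)))) (.f (nat_lit 591) (nat_lit 559) (nat_lit 4558) (.d (nat_lit 623) (nat_lit 590) (nat_lit 4590) (nat_lit 592) (nat_lit 5615))))) (.p (nat_lit 558) (.a (.f (nat_lit 463) (nat_lit 431) (nat_lit 6574) (.f (nat_lit 592) (nat_lit 495) (nat_lit 7631) (.d (nat_lit 591) (nat_lit 559) (nat_lit 4558) (nat_lit 623) (nat_lit 5615)))) (.a (.f (nat_lit 463) (nat_lit 431) (nat_lit 6574) (.f (nat_lit 590) (nat_lit 495) (nat_lit 6606) (.d (nat_lit 589) (nat_lit 557) (nat_lit 5581) (nat_lit 621) (nat_lit 5613)))) (.f (nat_lit 591) (nat_lit 559) (nat_lit 4558) (.d (nat_lit 623) (nat_lit 590) (nat_lit 4590) (nat_lit 592) (nat_lit 5615)))))))))))) (.a (.p (nat_lit 558) (.a (.p (nat_lit 462) (.a (.f (nat_lit 461) (nat_lit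 429) (nat_lit 7597) (.f (nat_lit 495) (nat_lit 497) (nat_lit 3533) (.d (nat_lit 460) (nat_lit 459) (nat_lit 459) (nat_lit 493) (nat_lit 3532)))) (.f (nat_lit 557) (nat_lit 589) (nat_lit 5581) (.f (nat_lit 525) (nat_lit 430) (nat_lit 5549) (.d (nat_lit 559) (nat_lit 524) (nat_lit 3596) (nat_lit 561) (nat_lit 3597)))))) (.a s108423 (.a s108264 (.a (.p (nat_lit 590) (.a (.f (nat_lit 621) (nat_lit 589) (nat_lit 5613) (.f (nat_lit 622) (nat_lit 653) (nat_lit 5645) (.d (nat_lit 623) (nat_lit 591) (nat_lit 4590) (nat_lit 655) (nat_lit 4622)))) (.a (.f (nat_lit 493) (nat_lit 461) (nat_lit 7629) (.f (nat_lit 525) (nat_lit 622) (nat_lit 7661) (.d (nat_lit 495) (nat_lit 497) (nat_lit 1517) (nat_lit 524) (nat_lit 1516)))) (.f (nat_lit 591) (nat_lit 623) (nat_lit 4590) (.f (nat_lit 462) (nat_lit 559) (nat_lit 4558) (.d (nat_lit 461) (nat_lit 429) (nat_lit 7597) (nat_lit 493) (nat_lit 7629))))))) (.a (.p (nat_lit 590) (.a (.f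 (nat_lit 591) (nat_lit 623) (nat_lit 4590) (.f (nat_lit 462) (nat_lit 559) (nat_lit 4558) (.d (nat_lit 461) (nat_lit 429) (nat_lit 7597) (nat_lit 493) (nat_lit 7629)))) (.a (.f (nat_lit 493) (nat_lit 461) (nat_lit 7629) (.f (nat_lit 525) (nat_lit 622) (nat_lit 7661) (.d (nat_lit 495) (nat_lit 497) (nat_lit 1517) (nat_lit 524) (nat_lit 1516)))) (.f (nat_lit 591) (nat_lit 623) (nat_lit 4590) (.f (nat_lit 559) (nat_lit 462) (nat_lit 4558) (.d (nat_lit 561) (nat_lit 525) (nat_lit 3597) (nat_lit 562) (nat_lit 1582))))))) (.a (.p (nat_lit 590) (.a (.f (nat_lit 589) (nat_lit 621) (nat_lit 5613) (.f (nat_lit 559) (nat_lit 561) (nat_lit 1581) (.d (nat_lit 588) (nat_lit 557) (nat_lit 1580) (nat_lit 587) (nat_lit 2603)))) (.f (nat_lit 493) (nat_lit 461) (nat_lit 7629) (.f (nat_lit 525) (nat_lit 622) (nat_lit 7661) (.d (nat_lit 495) (nat_lit 497) (nat_lit 1517) (nat_lit 524) (nat_lit 1516)))))) (.p (nat_lit 590) (.a (.f (nat_lit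 589) (nat_lit 621) (nat_lit 5613) (.f (nat_lit 559) (nat_lit 561) (nat_lit 1581) (.d (nat_lit 557) (nat_lit 462) (nat_lit 5581) (nat_lit 588) (nat_lit 1580)))) (.a (.f (nat_lit 621) (nat_lit 589) (nat_lit 5613) (.f (nat_lit 622) (nat_lit 653) (nat_lit 5645) (.d (nat_lit 623) (nat_lit 591) (nat_lit 4590) (nat_lit 655) (nat_lit 4622)))) (.f (nat_lit 591) (nat_lit 623) (nat_lit 4590) (.f (nat_lit 559) (nat_lit 462) (nat_lit 4558) (.d (nat_lit 561) (nat_lit 525) (nat_lit 3597) (nat_lit 562) (nat_lit 1582)))))))))))))) (.a (.p (nat_lit 495) (.a (.f (nat_lit 497) (nat_lit 525) (nat_lit 1517) (.d (nat_lit 592) (nat_lit 463) (nat_lit 7631) (nat_lit 465) (nat_lit 6608))) (.a (.f (nat_lit 525) (nat_lit 497) (nat_lit 1517) (.d (nat_lit 524) (nat_lit 493) (nat_lit 1516) (nat_lit 523) (nat_lit 2539))) (.a (.p (nat_lit 497) (.a (.d (nat_lit 592) (nat_lit 463) (nat_lit 7631) (nat_lit 465) (nat_lit 6608)) (.a (.f (nat_lit 462) (nat_lit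 461) (nat_lit 3533) (.f (nat_lit 498) (nat_lit 463) (nat_lit 3534) (.d (nat_lit 466) (nat_lit 465) (nat_lit 2510) (nat_lit 467) (nat_lit 2511)))) (.a (.d (nat_lit 465) (nat_lit 466) (nat_lit 2510) (nat_lit 592) (nat_lit 6608)) (.f (nat_lit 463) (nat_lit 592) (nat_lit 7631) (.d (nat_lit 462) (nat_lit 461) (nat_lit 3533) (nat_lit 498) (nat_lit 3534))))))) (.p (nat_lit 462) (.a s108418 (.a (.p (nat_lit 525) (.a (.d (nat_lit 524) (nat_lit 493) (nat_lit 1516) (nat_lit 523) (nat_lit 2539)) (.f (nat_lit 430) (nat_lit 557) (nat_lit 5549) (.f (nat_lit 399) (nat_lit 431) (nat_lit 6542) (.f (nat_lit 398) (nat_lit 367) (nat_lit 6510) (.d (nat_lit 397) (nat_lit 365) (nat_lit 7533) (nat_lit 429) (nat_lit 7565))))))) (.a (.p (nat_lit 525) (.a (.d (nat_lit 524) (nat_lit 493) (nat_lit 1516) (nat_lit 523) (nat_lit 2539)) (.f (nat_lit 430) (nat_lit 557) (nat_lit 5549) (.f (nat_lit 463) (nat_lit 592) (nat_lit 7631) (.f (nat_lit 398)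 (nat_lit 366) (nat_lit 4462) (.d (nat_lit 397) (nat_lit 365) (nat_lit 7533) (nat_lit 429) (nat_lit 7565))))))) (.a (.p (nat_lit 525) (.a (.d (nat_lit 524) (nat_lit 493) (nat_lit 1516) (nat_lit 523) (nat_lit 2539)) (.a (.f (nat_lit 463) (nat_lit 592) (nat_lit 7631) (.f (nat_lit 557) (nat_lit 430) (nat_lit 5549) (.f (nat_lit 460) (nat_lit 461) (nat_lit 460) (.f (nat_lit 524) (nat_lit 523) (nat_lit 2539) (.f (nat_lit 492) (nat_lit 428) (nat_lit 4524) (.d (nat_lit 589) (nat_lit 556) (nat_lit 4556) (nat_lit 621) (nat_lit 6637))))))) (.f (nat_lit 463) (nat_lit 592) (nat_lit 7631) (.f (nat_lit 430) (nat_lit 557) (nat_lit 5549) (.d (nat_lit 398) (nat_lit 366) (nat_lit 4462) (nat_lit 493) (nat_lit 5517))))))) (.p (nat_lit 493) (.a (.f (nat_lit 463) (nat_lit 592) (nat_lit 7631) (.f (nat_lit 460) (nat_lit 461) (nat_lit 3532) (.d (nat_lit 492) (nat_lit 459) (nat_lit 3531) (nat_lit 491) (nat_lit 2507)))) (.a (.f (nat_lit 460)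 (nat_lit 461) (nat_lit 3532) (.f (nat_lit 492) (nat_lit 459) (nat_lit 3531) (.f (nat_lit 491) (nat_lit 463) (nat_lit 2507) (.d (nat_lit 523) (nat_lit 522) (nat_lit 1514) (nat_lit 524) (nat_lit 1515))))) (.a (.f (nat_lit 460) (nat_lit 461) (nat_lit 3532) (.f (nat_lit 492) (nat_lit 459) (nat_lit 3531) (.d (nat_lit 524) (nat_lit 523) (nat_lit 1515) (nat_lit 525) (nat_lit 1516)))) (.a (.f (nat_lit 463) (nat_lit 592) (nat_lit 7631) (.f (nat_lit 492) (nat_lit 491) (nat_lit 2507) (.d (nat_lit 524) (nat_lit 523) (nat_lit 1515) (nat_lit 525) (nat_lit 1516)))) (.f (nat_lit 525) (nat_lit 524) (nat_lit 1516) (.f (nat_lit 592) (nat_lit 463) (nat_lit 7631) (.f (nat_lit 589) (nat_lit 557) (nat_lit 6605) (.f (nat_lit 591) (nat_lit 623) (nat_lit 5615) (.f (nat_lit 590) (nat_lit 561) (nat_lit 2605) (.f (nat_lit 588) (nat_lit 559) (nat_lit 2604) (.d (nat_lit 620) (nat_lit 619) (nat_lit 1611) (nat_lit 621) (nat_lit 1612))))))))))))))))))))))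 (.a (.p (nat_lit 558) (.a (.p (nat_lit 462) (.a (.f (nat_lit 557) (nat_lit 589) (nat_lit 5581) (.f (nat_lit 525) (nat_lit 430) (nat_lit 5549) (.d (nat_lit 559) (nat_lit 524) (nat_lit 3596) (nat_lit 561) (nat_lit 3597)))) (.a (.f (nat_lit 431) (nat_lit 463) (nat_lit 6574) (.f (nat_lit 430) (nat_lit 399) (nat_lit 6542) (.d (nat_lit 429) (nat_lit 397) (nat_lit 7565) (nat_lit 461) (nat_lit 7597)))) (.f (nat_lit 559) (nat_lit 591) (nat_lit 4558) (.f (nat_lit 557) (nat_lit 589) (nat_lit 5581) (.d (nat_lit 525) (nat_lit 524) (nat_lit 3596) (nat_lit 561) (nat_lit 3597))))))) (.a s108478 (.a s108423 (.a s108482 (.a (.p (nat_lit 590) (.a (.f (nat_lit 621) (nat_lit 589) (nat_lit 5613) (.f (nat_lit 622) (nat_lit 653) (nat_lit 5645) (.d (nat_lit 623) (nat_lit 591) (nat_lit 4590) (nat_lit 655) (nat_lit 4622)))) (.a (.f (nat_lit 493) (nat_lit 461) (nat_lit 7629) (.f (nat_lit 622) (nat_lit 525) (nat_lit 7661) (.f (nat_lit 655) (nat_lit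 623) (nat_lit 4622) (.f (nat_lit 654) (nat_lit 687) (nat_lit 4654) (.d (nat_lit 653) (nat_lit 621) (nat_lit 5645) (nat_lit 685) (nat_lit 5677)))))) (.a (.f (nat_lit 589) (nat_lit 621) (nat_lit 5613) (.f (nat_lit 559) (nat_lit 561) (nat_lit 1581) (.d (nat_lit 588) (nat_lit 587) (nat_lit 2603) (nat_lit 591) (nat_lit 2604)))) (.f (nat_lit 591) (nat_lit 623) (nat_lit 4590) (.f (nat_lit 462) (nat_lit 559) (nat_lit 4558) (.d (nat_lit 461) (nat_lit 429) (nat_lit 7597) (nat_lit 493) (nat_lit 7629)))))))) (.a (.p (nat_lit 590) (.a (.f (nat_lit 591) (nat_lit 623) (nat_lit 4590) (.f (nat_lit 462) (nat_lit 559) (nat_lit 4558) (.d (nat_lit 461) (nat_lit 429) (nat_lit 7597) (nat_lit 493) (nat_lit 7629)))) (.a (.f (nat_lit 493) (nat_lit 461) (nat_lit 7629) (.f (nat_lit 622) (nat_lit 525) (nat_lit 7661) (.f (nat_lit 655) (nat_lit 623) (nat_lit 4622) (.f (nat_lit 654) (nat_lit 687) (nat_lit 4654) (.d (nat_lit 653) (nat_lit 621) (nat_lit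 5645) (nat_lit 685) (nat_lit 5677)))))) (.a (.f (nat_lit 493) (nat_lit 461) (nat_lit 7629) (.f (nat_lit 525) (nat_lit 622) (nat_lit 7661) (.f (nat_lit 559) (nat_lit 561) (nat_lit 3597) (.d (nat_lit 524) (nat_lit 523) (nat_lit 523) (nat_lit 557) (nat_lit 3596))))) (.f (nat_lit 591) (nat_lit 623) (nat_lit 4590) (.f (nat_lit 559) (nat_lit 462) (nat_lit 4558) (.d (nat_lit 561) (nat_lit 525) (nat_lit 3597) (nat_lit 562) (nat_lit 1582)))))))) (.a s108485 (.p (nat_lit 590) (.a (.f (nat_lit 589) (nat_lit 621) (nat_lit 5613) (.f (nat_lit 559) (nat_lit 561) (nat_lit 1581) (.d (nat_lit 557) (nat_lit 462) (nat_lit 5581) (nat_lit 588) (nat_lit 1580)))) (.a (.f (nat_lit 621) (nat_lit 589) (nat_lit 5613) (.f (nat_lit 622) (nat_lit 653) (nat_lit 5645) (.d (nat_lit 623) (nat_lit 591) (nat_lit 4590) (nat_lit 655) (nat_lit 4622)))) (.f (nat_lit 591) (nat_lit 623) (nat_lit 4590) (.f (nat_lit 559) (nat_lit 462) (nat_lit 4558) (.d (nat_lit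 561) (nat_lit 525) (nat_lit 3597) (nat_lit 562) (nat_lit 1582))))))))))))))) (.a (.p (nat_lit 558) (.a (.p (nat_lit 462) (.a (.f (nat_lit 461) (nat_lit 429) (nat_lit 7597) (.f (nat_lit 495) (nat_lit 497) (nat_lit 3533) (.d (nat_lit 460) (nat_lit 459) (nat_lit 459) (nat_lit 493) (nat_lit 3532)))) (.f (nat_lit 557) (nat_lit 589) (nat_lit 5581) (.f (nat_lit 525) (nat_lit 430) (nat_lit 5549) (.d (nat_lit 559) (nat_lit 524) (nat_lit 3596) (nat_lit 561) (nat_lit 3597)))))) (.a s108423 (.a (.p (nat_lit 462) (.a (.f (nat_lit 461) (nat_lit 429) (nat_lit 7597) (.f (nat_lit 495) (nat_lit 497) (nat_lit 3533) (.d (nat_lit 460) (nat_lit 459) (nat_lit 459) (nat_lit 493) (nat_lit 3532)))) (.a (.f (nat_lit 557) (nat_lit 589) (nat_lit 5581) (.f (nat_lit 430) (nat_lit 525) (nat_lit 5549) (.d (nat_lit 429) (nat_lit 397) (nat_lit 7565) (nat_lit 461) (nat_lit 7597)))) (.f (nat_lit 557) (nat_lit 589) (nat_lit 5581) (.f (nat_lit 525) (nat_lit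 430) (nat_lit 5549) (.f (nat_lit 495) (nat_lit 497) (nat_lit 1517) (.d (nat_lit 524) (nat_lit 493) (nat_lit 1516) (nat_lit 523) (nat_lit 2539)))))))) (.a (.p (nat_lit 590) (.a (.f (nat_lit 621) (nat_lit 589) (nat_lit 5613) (.f (nat_lit 622) (nat_lit 653) (nat_lit 5645) (.d (nat_lit 623) (nat_lit 591) (nat_lit 4590) (nat_lit 655) (nat_lit 4622)))) (.f (nat_lit 495) (nat_lit 463) (nat_lit 6606) (.f (nat_lit 525) (nat_lit 497) (nat_lit 1517) (.d (nat_lit 493) (nat_lit 461) (nat_lit 7629) (nat_lit 524) (nat_lit 1516)))))) (.a (.p (nat_lit 525) (.a (.f (nat_lit 495) (nat_lit 497) (nat_lit 1517) (.d (nat_lit 524) (nat_lit 493) (nat_lit 1516) (nat_lit 523) (nat_lit 2539))) (.a (.f (nat_lit 559) (nat_lit 561) (nat_lit 3597) (.d (nat_lit 524) (nat_lit 523) (nat_lit 523) (nat_lit 557) (nat_lit 3596))) (.f (nat_lit 495) (nat_lit 497) (nat_lit 1517) (.d (nat_lit 463) (nat_lit 590) (nat_lit 6606) (nat_lit 592) (nat_lit 7631))))))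 (.p (nat_lit 590) (.a (.f (nat_lit 589) (nat_lit 621) (nat_lit 5613) (.f (nat_lit 559) (nat_lit 561) (nat_lit 1581) (.d (nat_lit 557) (nat_lit 462) (nat_lit 5581) (nat_lit 588) (nat_lit 1580)))) (.a (.f (nat_lit 621) (nat_lit 589) (nat_lit 5613) (.f (nat_lit 622) (nat_lit 653) (nat_lit 5645) (.d (nat_lit 623) (nat_lit 591) (nat_lit 4590) (nat_lit 655) (nat_lit 4622)))) (.f (nat_lit 591) (nat_lit 623) (nat_lit 4590) (.f (nat_lit 559) (nat_lit 462) (nat_lit 4558) (.d (nat_lit 561) (nat_lit 525) (nat_lit 3597) (nat_lit 562) (nat_lit 1582))))))))))))) (.a (.p (nat_lit 590) (.a (.p (nat_lit 495) (.a (.f (nat_lit 497) (nat_lit 525) (nat_lit 1517) (.d (nat_lit 465) (nat_lit 466) (nat_lit 2510) (nat_lit 592) (nat_lit 6608))) (.a (.f (nat_lit 525) (nat_lit 497) (nat_lit 1517) (.d (nat_lit 524) (nat_lit 493) (nat_lit 1516) (nat_lit 523) (nat_lit 2539))) (.f (nat_lit 592) (nat_lit 463) (nat_lit 7631) (.f (nat_lit 591) (nat_lit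 623) (nat_lit 5615) (.f (nat_lit 589) (nat_lit 561) (nat_lit 2605) (.f (nat_lit 588) (nat_lit 559) (nat_lit 2604) (.d (nat_lit 620) (nat_lit 619) (nat_lit 1611) (nat_lit 621) (nat_lit 1612))))))))) (.a (.p (nat_lit 558) (.a (.f (nat_lit 589) (nat_lit 621) (nat_lit 5613) (.f (nat_lit 559) (nat_lit 561) (nat_lit 1581) (.d (nat_lit 588) (nat_lit 557) (nat_lit 1580) (nat_lit 587) (nat_lit 2603)))) (.a (.f (nat_lit 621) (nat_lit 589) (nat_lit 5613) (.f (nat_lit 622) (nat_lit 653) (nat_lit 5645) (.d (nat_lit 623) (nat_lit 591) (nat_lit 4590) (nat_lit 655) (nat_lit 4622)))) (.f (nat_lit 495) (nat_lit 463) (nat_lit 6606) (.f (nat_lit 525) (nat_lit 497) (nat_lit 1517) (.d (nat_lit 493) (nat_lit 461) (nat_lit 7629) (nat_lit 524) (nat_lit 1516))))))) (.a (.p (nat_lit 558) (.a (.f (nat_lit 589) (nat_lit 621) (nat_lit 5613) (.f (nat_lit 559) (nat_lit 561) (nat_lit 1581) (.d (nat_lit 588) (nat_lit 557) (nat_lit 1580) (nat_lit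 587) (nat_lit 2603)))) (.f (nat_lit 495) (nat_lit 463) (nat_lit 6606) (.f (nat_lit 525) (nat_lit 497) (nat_lit 1517) (.d (nat_lit 493) (nat_lit 461) (nat_lit 7629) (nat_lit 524) (nat_lit 1516)))))) (.a (.p (nat_lit 589) (.a (.f (nat_lit 558) (nat_lit 621) (nat_lit 5613) (.f (nat_lit 559) (nat_lit 561) (nat_lit 1581) (.d (nat_lit 588) (nat_lit 557) (nat_lit 1580) (nat_lit 587) (nat_lit 2603)))) (.a (.p (nat_lit 591) (.a (.d (nat_lit 558) (nat_lit 621) (nat_lit 5613) (nat_lit 623) (nat_lit 4590)) (.a (.d (nat_lit 592) (nat_lit 561) (nat_lit 2605) (nat_lit 623) (nat_lit 5615)) (.f (nat_lit 592) (nat_lit 561) (nat_lit 2605) (.d (nat_lit 621) (nat_lit 558) (nat_lit 5613) (nat_lit 620) (nat_lit 1612)))))) (.a (.f (nat_lit 558) (nat_lit 621) (nat_lit 5613) (.f (nat_lit 591) (nat_lit 623) (nat_lit 4590) (.f (nat_lit 588) (nat_lit 559) (nat_lit 2604) (.f (nat_lit 556) (nat_lit 555) (nat_lit 3627) (.f (nat_lit 557) (nat_lit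 592) (nat_lit 3628) (.f (nat_lit 587) (nat_lit 586) (nat_lit 2602) (.d (nat_lit 619) (nat_lit 618) (nat_lit 1610) (nat_lit 620) (nat_lit 1611)))))))) (.a (.p (nat_lit 591) (.a (.d (nat_lit 592) (nat_lit 561) (nat_lit 2605) (nat_lit 623) (nat_lit 5615)) (.a (.f (nat_lit 588) (nat_lit 559) (nat_lit 2604) (.f (nat_lit 619) (nat_lit 620) (nat_lit 1611) (.f (nat_lit 587) (nat_lit 618) (nat_lit 1610) (.d (nat_lit 623) (nat_lit 622) (nat_lit 587) (nat_lit 624) (nat_lit 588))))) (.f (nat_lit 592) (nat_lit 561) (nat_lit 2605) (.f (nat_lit 588) (nat_lit 559) (nat_lit 2604) (.d (nat_lit 620) (nat_lit 619) (nat_lit 1611) (nat_lit 621) (nat_lit 1612))))))) (.p (nat_lit 559) (.a (.f (nat_lit 591) (nat_lit 588) (nat_lit 2604) (.d (nat_lit 561) (nat_lit 562) (nat_lit 1582) (nat_lit 592) (nat_lit 2605))) (.a (.f (nat_lit 558) (nat_lit 561) (nat_lit 1581) (.d (nat_lit 588) (nat_lit 557) (nat_lit 1580) (nat_lit 591) (nat_lit 2604)))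 (.a (.f (nat_lit 558) (nat_lit 561) (nat_lit 1581) (.d (nat_lit 588) (nat_lit 557) (nat_lit 1580) (nat_lit 587) (nat_lit 2603))) (.a (.f (nat_lit 591) (nat_lit 588) (nat_lit 2604) (.d (nat_lit 623) (nat_lit 558) (nat_lit 4590) (nat_lit 592) (nat_lit 5615))) (.f (nat_lit 561) (nat_lit 558) (nat_lit 1581) (.d (nat_lit 591) (nat_lit 562) (nat_lit 1582) (nat_lit 592) (nat_lit 2605))))))))))))) (.a (.p (nat_lit 558) (.a (.f (nat_lit 621) (nat_lit 589) (nat_lit 5613) (.f (nat_lit 622) (nat_lit 653) (nat_lit 5645) (.d (nat_lit 623) (nat_lit 591) (nat_lit 4590) (nat_lit 655) (nat_lit 4622)))) (.f (nat_lit 495) (nat_lit 463) (nat_lit 6606) (.f (nat_lit 525) (nat_lit 497) (nat_lit 1517) (.d (nat_lit 493) (nat_lit 461) (nat_lit 7629) (nat_lit 524) (nat_lit 1516)))))) (.p (nat_lit 495) (.a (.d (nat_lit 463) (nat_lit 558) (nat_lit 6606) (nat_lit 592) (nat_lit 7631)) (.a (.f (nat_lit 558) (nat_lit 463) (nat_lit 6606) (.f (nat_lit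 493) (nat_lit 461) (nat_lit 7629) (.d (nat_lit 525) (nat_lit 524) (nat_lit 1516) (nat_lit 622) (nat_lit 7661)))) (.f (nat_lit 497) (nat_lit 525) (nat_lit 1517) (.d (nat_lit 465) (nat_lit 466) (nat_lit 2510) (nat_lit 592) (nat_lit 6608)))))))))))) (.p (nat_lit 495) (.a (.f (nat_lit 497) (nat_lit 525) (nat_lit 1517) (.d (nat_lit 592) (nat_lit 463) (nat_lit 7631) (nat_lit 465) (nat_lit 6608))) (.a (.f (nat_lit 525) (nat_lit 497) (nat_lit 1517) (.d (nat_lit 524) (nat_lit 493) (nat_lit 1516) (nat_lit 523) (nat_lit 2539))) (.f (nat_lit 463) (nat_lit 592) (nat_lit 7631) (.f (nat_lit 431) (nat_lit 399) (nat_lit 4495) (.d (nat_lit 558) (nat_lit 462) (nat_lit 6574) (nat_lit 590) (nat_lit 6606))))))))))))))))) (.a s108647 (.a (.p (nat_lit 464) (.a (.f (nat_lit 433) (nat_lit 465) (nat_lit 6576) (.f (nat_lit 432) (nat_lit 401) (nat_lit 6544) (.d (nat_lit 431) (nat_lit 399) (nat_lit 7567) (nat_lit 463) (nat_lit 7599)))) (.a (.f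 (nat_lit 465) (nat_lit 433) (nat_lit 6576) (.f (nat_lit 592) (nat_lit 497) (nat_lit 6608) (.d (nat_lit 591) (nat_lit 559) (nat_lit 5583) (nat_lit 623) (nat_lit 5615)))) (.a (.p (nat_lit 558) (.a (.f (nat_lit 559) (nat_lit 591) (nat_lit 5583) (.f (nat_lit 525) (nat_lit 561) (nat_lit 3597) (.d (nat_lit 524) (nat_lit 523) (nat_lit 523) (nat_lit 557) (nat_lit 3596)))) (.a (.p (nat_lit 590) (.a (.p (nat_lit 494) (.a (.f (nat_lit 589) (nat_lit 621) (nat_lit 5613) (.f (nat_lit 557) (nat_lit 462) (nat_lit 5581) (.d (nat_lit 559) (nat_lit 561) (nat_lit 1581) (nat_lit 588) (nat_lit 1580)))) (.a (.f (nat_lit 589) (nat_lit 621) (nat_lit 5613) (.f (nat_lit 557) (nat_lit 462) (nat_lit 5581) (.f (nat_lit 493) (nat_lit 461) (nat_lit 7629) (.f (nat_lit 525) (nat_lit 622) (nat_lit 4589) (.f (nat_lit 492) (nat_lit 460) (nat_lit 7628) (.f (nat_lit 491) (nat_lit 490) (nat_lit 490) (.f (nat_lit 523) (nat_lit 522) (nat_lit 1514) (.f (nat_lit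 588) (nat_lit 620) (nat_lit 5612) (.f (nat_lit 587) (nat_lit 586) (nat_lit 2602) (.f (nat_lit 555) (nat_lit 554) (nat_lit 3626) (.d (nat_lit 459) (nat_lit 458) (nat_lit 3530) (nat_lit 556) (nat_lit 4555)))))))))))) (.a (.f (nat_lit 493) (nat_lit 461) (nat_lit 7629) (.f (nat_lit 622) (nat_lit 525) (nat_lit 7661) (.d (nat_lit 621) (nat_lit 589) (nat_lit 5613) (nat_lit 653) (nat_lit 5645)))) (.f (nat_lit 493) (nat_lit 461) (nat_lit 7629) (.f (nat_lit 525) (nat_lit 622) (nat_lit 7661) (.f (nat_lit 559) (nat_lit 561) (nat_lit 3597) (.d (nat_lit 524) (nat_lit 523) (nat_lit 523) (nat_lit 557) (nat_lit 3596))))))))) (.a (.p (nat_lit 494) (.a (.f (nat_lit 589) (nat_lit 621) (nat_lit 5613) (.f (nat_lit 557) (nat_lit 462) (nat_lit 5581) (.d (nat_lit 559) (nat_lit 561) (nat_lit 1581) (nat_lit 588) (nat_lit 1580)))) (.a (.f (nat_lit 589) (nat_lit 621) (nat_lit 5613) (.f (nat_lit 462) (nat_lit 557) (nat_lit 5581) (.d (nat_lit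 461) (nat_lit 429) (nat_lit 7597) (nat_lit 493) (nat_lit 7629)))) (.a (.f (nat_lit 431) (nat_lit 463) (nat_lit 7599) (.f (nat_lit 432) (nat_lit 399) (nat_lit 7567) (.f (nat_lit 401) (nat_lit 433) (nat_lit 6544) (.f (nat_lit 400) (nat_lit 369) (nat_lit 6512) (.f (nat_lit 429) (nat_lit 430) (nat_lit 2445) (.d (nat_lit 461) (nat_lit 462) (nat_lit 7597) (nat_lit 493) (nat_lit 7629))))))) (.f (nat_lit 589) (nat_lit 621) (nat_lit 5613) (.f (nat_lit 559) (nat_lit 561) (nat_lit 1581) (.d (nat_lit 588) (nat_lit 557) (nat_lit 1580) (nat_lit 587) (nat_lit 2603)))))))) (.a s108695 (.a s108710 (.a (.p (nat_lit 525) (.a (.f (nat_lit 622) (nat_lit 493) (nat_lit 7661) (.f (nat_lit 653) (nat_lit 621) (nat_lit 5645) (.f (nat_lit 654) (nat_lit 685) (nat_lit 5677) (.d (nat_lit 655) (nat_lit 623) (nat_lit 4622) (nat_lit 687) (nat_lit 4654))))) (.a (.f (nat_lit 493) (nat_lit 622) (nat_lit 7661) (.d (nat_lit 461) (nat_lit 429) (nat_lit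 4525) (nat_lit 494) (nat_lit 7629))) (.f (nat_lit 559) (nat_lit 561) (nat_lit 3597) (.d (nat_lit 524) (nat_lit 523) (nat_lit 523) (nat_lit 557) (nat_lit 3596)))))) (.a (.p (nat_lit 525) (.a (.f (nat_lit 622) (nat_lit 493) (nat_lit 7661) (.f (nat_lit 653) (nat_lit 621) (nat_lit 5645) (.f (nat_lit 654) (nat_lit 685) (nat_lit 5677) (.d (nat_lit 655) (nat_lit 623) (nat_lit 4622) (nat_lit 687) (nat_lit 4654))))) (.f (nat_lit 559) (nat_lit 561) (nat_lit 3597) (.d (nat_lit 524) (nat_lit 523) (nat_lit 523) (nat_lit 557) (nat_lit 3596))))) (.a (.p (nat_lit 589) (.a (.f (nat_lit 621) (nat_lit 494) (nat_lit 5613) (.d (nat_lit 653) (nat_lit 622) (nat_lit 5645) (nat_lit 685) (nat_lit 6701))) (.f (nat_lit 559) (nat_lit 561) (nat_lit 1581) (.d (nat_lit 588) (nat_lit 557) (nat_lit 1580) (nat_lit 587) (nat_lit 2603))))) (.p (nat_lit 525) (.a (.f (nat_lit 493) (nat_lit 622) (nat_lit 7661) (.d (nat_lit 461) (nat_lit 429) (nat_lit 4525)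 (nat_lit 494) (nat_lit 7629))) (.f (nat_lit 559) (nat_lit 561) (nat_lit 3597) (.d (nat_lit 524) (nat_lit 523) (nat_lit 523) (nat_lit 557) (nat_lit 3596))))))))))))) (.a (.f (nat_lit 591) (nat_lit 559) (nat_lit 5583) (.f (nat_lit 623) (nat_lit 592) (nat_lit 5615) (.f (nat_lit 590) (nat_lit 494) (nat_lit 4590) (.d (nat_lit 655) (nat_lit 622) (nat_lit 4622) (nat_lit 687) (nat_lit 7726))))) (.p (nat_lit 590) (.a s108695 (.a (.p (nat_lit 494) (.a (.f (nat_lit 589) (nat_lit 621) (nat_lit 5613) (.f (nat_lit 462) (nat_lit 557) (nat_lit 5581) (.d (nat_lit 461) (nat_lit 429) (nat_lit 7597) (nat_lit 493) (nat_lit 7629)))) (.a (.f (nat_lit 431) (nat_lit 463) (nat_lit 7599) (.f (nat_lit 432) (nat_lit 399) (nat_lit 7567) (.f (nat_lit 401) (nat_lit 433) (nat_lit 6544) (.f (nat_lit 400) (nat_lit 369) (nat_lit 6512) (.f (nat_lit 429) (nat_lit 430) (nat_lit 2445) (.d (nat_lit 461) (nat_lit 462) (nat_lit 7597) (nat_lit 493) (nat_lit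 7629))))))) (.f (nat_lit 623) (nat_lit 591) (nat_lit 4590) (.f (nat_lit 622) (nat_lit 655) (nat_lit 4622) (.d (nat_lit 621) (nat_lit 589) (nat_lit 5613) (nat_lit 653) (nat_lit 5645))))))) (.a s108739 (.a s108710 (.a (.p (nat_lit 622) (.a (.f (nat_lit 655) (nat_lit 623) (nat_lit 4622) (.f (nat_lit 654) (nat_lit 687) (nat_lit 4654) (.d (nat_lit 653) (nat_lit 621) (nat_lit 5645) (nat_lit 685) (nat_lit 5677)))) (.f (nat_lit 431) (nat_lit 463) (nat_lit 7599) (.f (nat_lit 432) (nat_lit 399) (nat_lit 7567) (.f (nat_lit 433) (nat_lit 401) (nat_lit 6544) (.f (nat_lit 493) (nat_lit 525) (nat_lit 7661) (.f (nat_lit 461) (nat_lit 494) (nat_lit 7629) (.f (nat_lit 430) (nat_lit 462) (nat_lit 1453) (.f (nat_lit 429) (nat_lit 460) (nat_lit 1452) (.d (nat_lit 397) (nat_lit 396) (nat_lit 3468) (nat_lit 398) (nat_lit 3469))))))))))) (.a (.p (nat_lit 494) (.a (.f (nat_lit 589) (nat_lit 621) (nat_lit 5613) (.f (nat_lit 557) (nat_lit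 462) (nat_lit 5581) (.f (nat_lit 493) (nat_lit 461) (nat_lit 7629) (.f (nat_lit 525) (nat_lit 622) (nat_lit 4589) (.f (nat_lit 492) (nat_lit 460) (nat_lit 7628) (.f (nat_lit 491) (nat_lit 490) (nat_lit 490) (.f (nat_lit 523) (nat_lit 522) (nat_lit 1514) (.f (nat_lit 588) (nat_lit 620) (nat_lit 5612) (.f (nat_lit 587) (nat_lit 586) (nat_lit 2602) (.f (nat_lit 555) (nat_lit 554) (nat_lit 3626) (.d (nat_lit 459) (nat_lit 458) (nat_lit 3530) (nat_lit 556) (nat_lit 4555)))))))))))) (.a (.f (nat_lit 589) (nat_lit 621) (nat_lit 5613) (.f (nat_lit 462) (nat_lit 557) (nat_lit 5581) (.d (nat_lit 461) (nat_lit 429) (nat_lit 7597) (nat_lit 493) (nat_lit 7629)))) (.a (.f (nat_lit 493) (nat_lit 461) (nat_lit 7629) (.f (nat_lit 622) (nat_lit 525) (nat_lit 7661) (.d (nat_lit 621) (nat_lit 589) (nat_lit 5613) (nat_lit 653) (nat_lit 5645)))) (.a (.f (nat_lit 431) (nat_lit 463) (nat_lit 7599) (.f (nat_lit 432) (nat_lit 399) (nat_lit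 7567) (.f (nat_lit 401) (nat_lit 433) (nat_lit 6544) (.f (nat_lit 400) (nat_lit 369) (nat_lit 6512) (.f (nat_lit 429) (nat_lit 430) (nat_lit 2445) (.d (nat_lit 461) (nat_lit 462) (nat_lit 7597) (nat_lit 493) (nat_lit 7629))))))) (.a (.f (nat_lit 431) (nat_lit 463) (nat_lit 7599) (.f (nat_lit 432) (nat_lit 399) (nat_lit 7567) (.f (nat_lit 401) (nat_lit 433) (nat_lit 6544) (.f (nat_lit 400) (nat_lit 369) (nat_lit 6512) (.f (nat_lit 429) (nat_lit 430) (nat_lit 2445) (.f (nat_lit 589) (nat_lit 621) (nat_lit 5613) (.d (nat_lit 462) (nat_lit 461) (nat_lit 7597) (nat_lit 557) (nat_lit 5581)))))))) (.f (nat_lit 431) (nat_lit 463) (nat_lit 7599) (.f (nat_lit 589) (nat_lit 621) (nat_lit 5613) (.f (nat_lit 462) (nat_lit 557) (nat_lit 5581) (.d (nat_lit 399) (nat_lit 430) (nat_lit 6542) (nat_lit 432) (nat_lit 7567))))))))))) (.a s108766 (.a s108781 (.a s108799 (.p (nat_lit 622) (.a (.f (nat_lit 431) (nat_lit 463) (nat_lit 7599)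 (.f (nat_lit 432) (nat_lit 399) (nat_lit 7567) (.f (nat_lit 433) (nat_lit 401) (nat_lit 6544) (.f (nat_lit 493) (nat_lit 525) (nat_lit 7661) (.f (nat_lit 461) (nat_lit 494) (nat_lit 7629) (.f (nat_lit 430) (nat_lit 462) (nat_lit 1453) (.f (nat_lit 429) (nat_lit 460) (nat_lit 1452) (.d (nat_lit 397) (nat_lit 396) (nat_lit 3468) (nat_lit 398) (nat_lit 3469))))))))) (.a (.f (nat_lit 623) (nat_lit 655) (nat_lit 4622) (.d (nat_lit 591) (nat_lit 494) (nat_lit 4590) (nat_lit 592) (nat_lit 5615))) (.f (nat_lit 623) (nat_lit 655) (nat_lit 4622) (.f (nat_lit 525) (nat_lit 493) (nat_lit 7661) (.f (nat_lit 654) (nat_lit 557) (nat_lit 7693) (.f (nat_lit 591) (nat_lit 592) (nat_lit 5615) (.f (nat_lit 686) (nat_lit 718) (nat_lit 6734) (.d (nat_lit 685) (nat_lit 653) (nat_lit 5677) (nat_lit 717) (nat_lit 5709)))))))))))))))))))))))) (.p (nat_lit 558) (.a (.f (nat_lit 559) (nat_lit 591) (nat_lit 5583) (.f (nat_lit 525) (nat_lit 561)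 (nat_lit 3597) (.d (nat_lit 524) (nat_lit 523) (nat_lit 523) (nat_lit 557) (nat_lit 3596)))) (.a (.p (nat_lit 494) (.a (.p (nat_lit 590) (.a (.f (nat_lit 589) (nat_lit 621) (nat_lit 5613) (.f (nat_lit 557) (nat_lit 462) (nat_lit 5581) (.d (nat_lit 559) (nat_lit 561) (nat_lit 1581) (nat_lit 588) (nat_lit 1580)))) (.a (.f (nat_lit 589) (nat_lit 621) (nat_lit 5613) (.f (nat_lit 557) (nat_lit 462) (nat_lit 5581) (.f (nat_lit 493) (nat_lit 461) (nat_lit 7629) (.f (nat_lit 525) (nat_lit 622) (nat_lit 4589) (.f (nat_lit 492) (nat_lit 460) (nat_lit 7628) (.f (nat_lit 491) (nat_lit 490) (nat_lit 490) (.f (nat_lit 523) (nat_lit 522) (nat_lit 1514) (.f (nat_lit 588) (nat_lit 620) (nat_lit 5612) (.f (nat_lit 587) (nat_lit 586) (nat_lit 2602) (.f (nat_lit 555) (nat_lit 554) (nat_lit 3626) (.d (nat_lit 459) (nat_lit 458) (nat_lit 3530) (nat_lit 556) (nat_lit 4555)))))))))))) (.a (.f (nat_lit 493) (nat_lit 461) (nat_lit 7629) (.f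 (nat_lit 622) (nat_lit 525) (nat_lit 7661) (.d (nat_lit 621) (nat_lit 589) (nat_lit 5613) (nat_lit 653) (nat_lit 5645)))) (.f (nat_lit 493) (nat_lit 461) (nat_lit 7629) (.f (nat_lit 525) (nat_lit 622) (nat_lit 7661) (.f (nat_lit 559) (nat_lit 561) (nat_lit 3597) (.d (nat_lit 524) (nat_lit 523) (nat_lit 523) (nat_lit 557) (nat_lit 3596))))))))) (.a (.p (nat_lit 462) (.a (.f (nat_lit 557) (nat_lit 589) (nat_lit 5581) (.f (nat_lit 525) (nat_lit 430) (nat_lit 5549) (.d (nat_lit 559) (nat_lit 524) (nat_lit 3596) (nat_lit 561) (nat_lit 3597)))) (.f (nat_lit 463) (nat_lit 431) (nat_lit 7599) (.d (nat_lit 461) (nat_lit 429) (nat_lit 7597) (nat_lit 497) (nat_lit 461))))) (.a (.f (nat_lit 431) (nat_lit 463) (nat_lit 7599) (.f (nat_lit 399) (nat_lit 432) (nat_lit 7567) (.f (nat_lit 462) (nat_lit 430) (nat_lit 6542) (.f (nat_lit 589) (nat_lit 557) (nat_lit 5581) (.f (nat_lit 590) (nat_lit 621) (nat_lit 5613) (.d (nat_lit 461)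 (nat_lit 429) (nat_lit 7597) (nat_lit 493) (nat_lit 7629))))))) (.a (.p (nat_lit 461) (.a (.f (nat_lit 493) (nat_lit 590) (nat_lit 7629) (.d (nat_lit 429) (nat_lit 462) (nat_lit 7597) (nat_lit 525) (nat_lit 4525))) (.a (.f (nat_lit 429) (nat_lit 462) (nat_lit 7597) (.d (nat_lit 493) (nat_lit 397) (nat_lit 4493) (nat_lit 525) (nat_lit 4525))) (.a (.f (nat_lit 462) (nat_lit 429) (nat_lit 7597) (.d (nat_lit 463) (nat_lit 431) (nat_lit 7599) (nat_lit 497) (nat_lit 461))) (.a (.f (nat_lit 493) (nat_lit 590) (nat_lit 7629) (.d (nat_lit 429) (nat_lit 397) (nat_lit 4493) (nat_lit 525) (nat_lit 4525))) (.f (nat_lit 463) (nat_lit 431) (nat_lit 7599) (.f (nat_lit 462) (nat_lit 497) (nat_lit 461) (.d (nat_lit 493) (nat_lit 492) (nat_lit 1484) (nat_lit 590) (nat_lit 7629))))))))) (.a (.p (nat_lit 590) (.a (.f (nat_lit 493) (nat_lit 461) (nat_lit 7629) (.f (nat_lit 622) (nat_lit 525) (nat_lit 7661) (.d (nat_lit 621) (nat_lit 589)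 (nat_lit 5613) (nat_lit 653) (nat_lit 5645)))) (.a (.f (nat_lit 589) (nat_lit 621) (nat_lit 5613) (.f (nat_lit 559) (nat_lit 561) (nat_lit 1581) (.d (nat_lit 588) (nat_lit 557) (nat_lit 1580) (nat_lit 587) (nat_lit 2603)))) (.f (nat_lit 493) (nat_lit 461) (nat_lit 7629) (.f (nat_lit 525) (nat_lit 622) (nat_lit 7661) (.f (nat_lit 559) (nat_lit 561) (nat_lit 3597) (.d (nat_lit 524) (nat_lit 523) (nat_lit 523) (nat_lit 557) (nat_lit 3596)))))))) (.p (nat_lit 462) (.a (.f (nat_lit 557) (nat_lit 589) (nat_lit 5581) (.f (nat_lit 525) (nat_lit 430) (nat_lit 5549) (.d (nat_lit 559) (nat_lit 524) (nat_lit 3596) (nat_lit 561) (nat_lit 3597)))) (.f (nat_lit 463) (nat_lit 431) (nat_lit 7599) (.f (nat_lit 465) (nat_lit 493) (nat_lit 1485) (.d (nat_lit 497) (nat_lit 498) (nat_lit 462) (nat_lit 592) (nat_lit 6608)))))))))))) (.a (.f (nat_lit 591) (nat_lit 559) (nat_lit 5583) (.f (nat_lit 623) (nat_lit 592) (nat_lit 5615) (.f (nat_lit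 590) (nat_lit 494) (nat_lit 4590) (.d (nat_lit 655) (nat_lit 622) (nat_lit 4622) (nat_lit 687) (nat_lit 7726))))) (.p (nat_lit 590) (.a s108739 (.a s108799 (.a (.p (nat_lit 494) (.a (.f (nat_lit 589) (nat_lit 621) (nat_lit 5613) (.f (nat_lit 462) (nat_lit 557) (nat_lit 5581) (.d (nat_lit 461) (nat_lit 429) (nat_lit 7597) (nat_lit 493) (nat_lit 7629)))) (.a (.f (nat_lit 623) (nat_lit 591) (nat_lit 4590) (.f (nat_lit 622) (nat_lit 655) (nat_lit 4622) (.d (nat_lit 621) (nat_lit 589) (nat_lit 5613) (nat_lit 653) (nat_lit 5645)))) (.f (nat_lit 431) (nat_lit 463) (nat_lit 7599) (.f (nat_lit 432) (nat_lit 399) (nat_lit 7567) (.f (nat_lit 461) (nat_lit 493) (nat_lit 7629) (.f (nat_lit 429) (nat_lit 462) (nat_lit 7597) (.d (nat_lit 430) (nat_lit 460) (nat_lit 1452) (nat_lit 465) (nat_lit 429))))))))) (.a (.p (nat_lit 494) (.a (.f (nat_lit 493) (nat_lit 461) (nat_lit 7629) (.f (nat_lit 622) (nat_lit 525) (nat_lit 7661) (.d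 (nat_lit 621) (nat_lit 589) (nat_lit 5613) (nat_lit 653) (nat_lit 5645)))) (.a (.f (nat_lit 623) (nat_lit 591) (nat_lit 4590) (.f (nat_lit 622) (nat_lit 655) (nat_lit 4622) (.d (nat_lit 621) (nat_lit 589) (nat_lit 5613) (nat_lit 653) (nat_lit 5645)))) (.a (.f (nat_lit 623) (nat_lit 591) (nat_lit 4590) (.f (nat_lit 622) (nat_lit 655) (nat_lit 4622) (.d (nat_lit 493) (nat_lit 461) (nat_lit 7629) (nat_lit 525) (nat_lit 7661)))) (.f (nat_lit 431) (nat_lit 463) (nat_lit 7599) (.f (nat_lit 432) (nat_lit 399) (nat_lit 7567) (.f (nat_lit 461) (nat_lit 493) (nat_lit 7629) (.f (nat_lit 429) (nat_lit 462) (nat_lit 7597) (.d (nat_lit 430) (nat_lit 460) (nat_lit 1452) (nat_lit 465) (nat_lit 429)))))))))) (.a (.p (nat_lit 622) (.a (.f (nat_lit 655) (nat_lit 623) (nat_lit 4622) (.f (nat_lit 654) (nat_lit 687) (nat_lit 4654) (.d (nat_lit 653) (nat_lit 621) (nat_lit 5645) (nat_lit 685) (nat_lit 5677)))) (.a (.f (nat_lit 525) (nat_lit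 493) (nat_lit 7661) (.f (nat_lit 654) (nat_lit 557) (nat_lit 7693) (.d (nat_lit 653) (nat_lit 621) (nat_lit 5645) (nat_lit 685) (nat_lit 5677)))) (.f (nat_lit 623) (nat_lit 655) (nat_lit 4622) (.d (nat_lit 591) (nat_lit 494) (nat_lit 4590) (nat_lit 592) (nat_lit 5615)))))) (.a s108766 (.a s108781 (.p (nat_lit 622) (.a (.f (nat_lit 623) (nat_lit 655) (nat_lit 4622) (.f (nat_lit 525) (nat_lit 493) (nat_lit 7661) (.f (nat_lit 654) (nat_lit 557) (nat_lit 7693) (.f (nat_lit 591) (nat_lit 592) (nat_lit 5615) (.f (nat_lit 686) (nat_lit 718) (nat_lit 6734) (.d (nat_lit 685) (nat_lit 653) (nat_lit 5677) (nat_lit 717) (nat_lit 5709))))))) (.a (.f (nat_lit 525) (nat_lit 493) (nat_lit 7661) (.f (nat_lit 654) (nat_lit 557) (nat_lit 7693) (.d (nat_lit 655) (nat_lit 623) (nat_lit 4622) (nat_lit 687) (nat_lit 4654)))) (.a (.f (nat_lit 623) (nat_lit 655) (nat_lit 4622) (.d (nat_lit 591) (nat_lit 494) (nat_lit 4590) (nat_lit 592)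 (nat_lit 5615))) (.a (.f (nat_lit 525) (nat_lit 493) (nat_lit 7661) (.f (nat_lit 654) (nat_lit 557) (nat_lit 7693) (.f (nat_lit 687) (nat_lit 655) (nat_lit 4654) (.f (nat_lit 686) (nat_lit 719) (nat_lit 4686) (.d (nat_lit 685) (nat_lit 653) (nat_lit 5677) (nat_lit 717) (nat_lit 5709)))))) (.f (nat_lit 493) (nat_lit 525) (nat_lit 7661) (.f (nat_lit 463) (nat_lit 431) (nat_lit 7599) (.f (nat_lit 461) (nat_lit 494) (nat_lit 7629) (.d (nat_lit 462) (nat_lit 492) (nat_lit 1484) (nat_lit 497) (nat_lit 461)))))))))))))))))))))))))) (.a (.p (nat_lit 558) (.a (.p (nat_lit 494) (.a (.p (nat_lit 462) (.a (.f (nat_lit 463) (nat_lit 431) (nat_lit 6574) (.f (nat_lit 495) (nat_lit 592) (nat_lit 7631) (.d (nat_lit 461) (nat_lit 429) (nat_lit 7597) (nat_lit 460) (nat_lit 460)))) (.a (.f (nat_lit 461) (nat_lit 429) (nat_lit 7597) (.f (nat_lit 495) (nat_lit 497) (nat_lit 3533) (.d (nat_lit 460) (nat_lit 459) (nat_lit 459) (nat_lit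 493) (nat_lit 3532)))) (.f (nat_lit 557) (nat_lit 589) (nat_lit 5581) (.f (nat_lit 525) (nat_lit 430) (nat_lit 5549) (.d (nat_lit 559) (nat_lit 524) (nat_lit 3596) (nat_lit 561) (nat_lit 3597))))))) (.a (.p (nat_lit 462) (.a (.f (nat_lit 461) (nat_lit 429) (nat_lit 7597) (.f (nat_lit 495) (nat_lit 497) (nat_lit 3533) (.d (nat_lit 460) (nat_lit 459) (nat_lit 459) (nat_lit 493) (nat_lit 3532)))) (.f (nat_lit 557) (nat_lit 589) (nat_lit 5581) (.f (nat_lit 525) (nat_lit 430) (nat_lit 5549) (.d (nat_lit 559) (nat_lit 524) (nat_lit 3596) (nat_lit 561) (nat_lit 3597)))))) (.a s108375 (.a s108378 (.a (.p (nat_lit 462) (.a (.f (nat_lit 557) (nat_lit 589) (nat_lit 5581) (.f (nat_lit 525) (nat_lit 430) (nat_lit 5549) (.d (nat_lit 559) (nat_lit 524) (nat_lit 3596) (nat_lit 561) (nat_lit 3597)))) (.a (.f (nat_lit 431) (nat_lit 463) (nat_lit 6574) (.f (nat_lit 430) (nat_lit 399) (nat_lit 6542) (.d (nat_lit 429) (nat_lit 397) (nat_lit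 7565) (nat_lit 461) (nat_lit 7597)))) (.f (nat_lit 559) (nat_lit 591) (nat_lit 4558) (.f (nat_lit 557) (nat_lit 589) (nat_lit 5581) (.d (nat_lit 525) (nat_lit 524) (nat_lit 3596) (nat_lit 561) (nat_lit 3597))))))) (.p (nat_lit 525) (.a (.f (nat_lit 495) (nat_lit 497) (nat_lit 1517) (.d (nat_lit 524) (nat_lit 493) (nat_lit 1516) (nat_lit 523) (nat_lit 2539))) (.a (.f (nat_lit 559) (nat_lit 561) (nat_lit 3597) (.d (nat_lit 524) (nat_lit 523) (nat_lit 523) (nat_lit 557) (nat_lit 3596))) (.f (nat_lit 495) (nat_lit 497) (nat_lit 1517) (.f (nat_lit 592) (nat_lit 463) (nat_lit 7631) (.f (nat_lit 591) (nat_lit 623) (nat_lit 5615) (.f (nat_lit 559) (nat_lit 561) (nat_lit 3597) (.f (nat_lit 557) (nat_lit 556) (nat_lit 556) (.d (nat_lit 589) (nat_lit 588) (nat_lit 1580) (nat_lit 621) (nat_lit 6637)))))))))))))))) (.a s108277 (.a (.p (nat_lit 494) (.a (.p (nat_lit 462) (.a (.f (nat_lit 463) (nat_lit 431) (nat_lit 6574) (.f (nat_lit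 495) (nat_lit 592) (nat_lit 7631) (.d (nat_lit 461) (nat_lit 429) (nat_lit 7597) (nat_lit 460) (nat_lit 460)))) (.a (.f (nat_lit 461) (nat_lit 429) (nat_lit 7597) (.f (nat_lit 495) (nat_lit 497) (nat_lit 3533) (.d (nat_lit 460) (nat_lit 459) (nat_lit 459) (nat_lit 493) (nat_lit 3532)))) (.f (nat_lit 557) (nat_lit 589) (nat_lit 5581) (.f (nat_lit 525) (nat_lit 430) (nat_lit 5549) (.d (nat_lit 559) (nat_lit 524) (nat_lit 3596) (nat_lit 561) (nat_lit 3597))))))) (.a (.p (nat_lit 462) (.a (.f (nat_lit 461) (nat_lit 429) (nat_lit 7597) (.f (nat_lit 495) (nat_lit 497) (nat_lit 3533) (.d (nat_lit 460) (nat_lit 459) (nat_lit 459) (nat_lit 493) (nat_lit 3532)))) (.f (nat_lit 557) (nat_lit 589) (nat_lit 5581) (.f (nat_lit 525) (nat_lit 430) (nat_lit 5549) (.d (nat_lit 559) (nat_lit 524) (nat_lit 3596) (nat_lit 561) (nat_lit 3597)))))) (.a (.p (nat_lit 590) (.a (.f (nat_lit 589) (nat_lit 621) (nat_lit 5613) (.f (nat_lit 559)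 (nat_lit 561) (nat_lit 1581) (.d (nat_lit 557) (nat_lit 462) (nat_lit 5581) (nat_lit 588) (nat_lit 1580)))) (.a (.f (nat_lit 461) (nat_lit 493) (nat_lit 7629) (.f (nat_lit 462) (nat_lit 429) (nat_lit 7597) (.d (nat_lit 463) (nat_lit 431) (nat_lit 6574) (nat_lit 495) (nat_lit 6606)))) (.f (nat_lit 589) (nat_lit 621) (nat_lit 5613) (.f (nat_lit 559) (nat_lit 561) (nat_lit 1581) (.d (nat_lit 588) (nat_lit 557) (nat_lit 1580) (nat_lit 587) (nat_lit 2603))))))) (.a s108378 (.a s108478 (.a (.p (nat_lit 525) (.a (.f (nat_lit 495) (nat_lit 497) (nat_lit 1517) (.d (nat_lit 524) (nat_lit 493) (nat_lit 1516) (nat_lit 523) (nat_lit 2539))) (.a (.f (nat_lit 559) (nat_lit 561) (nat_lit 3597) (.d (nat_lit 524) (nat_lit 523) (nat_lit 523) (nat_lit 557) (nat_lit 3596))) (.f (nat_lit 495) (nat_lit 497) (nat_lit 1517) (.d (nat_lit 463) (nat_lit 590) (nat_lit 6606) (nat_lit 592) (nat_lit 7631)))))) (.p (nat_lit 462) (.a (.f (nat_lit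 463) (nat_lit 431) (nat_lit 6574) (.f (nat_lit 495) (nat_lit 592) (nat_lit 7631) (.d (nat_lit 461) (nat_lit 429) (nat_lit 7597) (nat_lit 460) (nat_lit 460)))) (.f (nat_lit 557) (nat_lit 589) (nat_lit 5581) (.f (nat_lit 525) (nat_lit 430) (nat_lit 5549) (.d (nat_lit 559) (nat_lit 524) (nat_lit 3596) (nat_lit 561) (nat_lit 3597))))))))))))) (.a s108868 (.a (.p (nat_lit 494) (.a s108378 (.a s108264 (.a (.p (nat_lit 590) (.a (.f (nat_lit 461) (nat_lit 493) (nat_lit 7629) (.f (nat_lit 462) (nat_lit 429) (nat_lit 7597) (.d (nat_lit 463) (nat_lit 431) (nat_lit 6574) (nat_lit 495) (nat_lit 6606)))) (.a (.f (nat_lit 461) (nat_lit 493) (nat_lit 7629) (.f (nat_lit 462) (nat_lit 429) (nat_lit 7597) (.d (nat_lit 589) (nat_lit 557) (nat_lit 5581) (nat_lit 621) (nat_lit 5613)))) (.f (nat_lit 621) (nat_lit 589) (nat_lit 5613) (.f (nat_lit 622) (nat_lit 653) (nat_lit 5645) (.d (nat_lit 623) (nat_lit 591) (nat_lit 4590) (nat_lit 655)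 (nat_lit 4622))))))) (.a s108482 (.a (.p (nat_lit 590) (.a (.f (nat_lit 621) (nat_lit 589) (nat_lit 5613) (.f (nat_lit 622) (nat_lit 653) (nat_lit 5645) (.d (nat_lit 623) (nat_lit 591) (nat_lit 4590) (nat_lit 655) (nat_lit 4622)))) (.f (nat_lit 495) (nat_lit 463) (nat_lit 6606) (.f (nat_lit 525) (nat_lit 497) (nat_lit 1517) (.d (nat_lit 493) (nat_lit 461) (nat_lit 7629) (nat_lit 524) (nat_lit 1516)))))) (.a s108869 (.p (nat_lit 590) (.a (.f (nat_lit 621) (nat_lit 589) (nat_lit 5613) (.f (nat_lit 622) (nat_lit 653) (nat_lit 5645) (.d (nat_lit 623) (nat_lit 591) (nat_lit 4590) (nat_lit 655) (nat_lit 4622)))) (.f (nat_lit 463) (nat_lit 495) (nat_lit 6606) (.d (nat_lit 431) (nat_lit 462) (nat_lit 6574) (nat_lit 464) (nat_lit 7599)))))))))))) (.a (.p (nat_lit 559) (.a (.f (nat_lit 591) (nat_lit 464) (nat_lit 5583) (.d (nat_lit 623) (nat_lit 592) (nat_lit 5615) (nat_lit 655) (nat_lit 6671))) (.f (nat_lit 525) (nat_lit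 561) (nat_lit 3597) (.d (nat_lit 524) (nat_lit 523) (nat_lit 523) (nat_lit 557) (nat_lit 3596))))) (.a s108641 (.p (nat_lit 464) (.a (.f (nat_lit 559) (nat_lit 591) (nat_lit 5583) (.f (nat_lit 525) (nat_lit 561) (nat_lit 3597) (.d (nat_lit 524) (nat_lit 523) (nat_lit 523) (nat_lit 557) (nat_lit 3596)))) (.a (.f (nat_lit 463) (nat_lit 431) (nat_lit 7599) (.f (nat_lit 495) (nat_lit 592) (nat_lit 7631) (.f (nat_lit 494) (nat_lit 590) (nat_lit 6606) (.f (nat_lit 497) (nat_lit 525) (nat_lit 1517) (.d (nat_lit 462) (nat_lit 461) (nat_lit 461) (nat_lit 498) (nat_lit 3534)))))) (.f (nat_lit 463) (nat_lit 431) (nat_lit 7599) (.f (nat_lit 495) (nat_lit 592) (nat_lit 7631) (.f (nat_lit 494) (nat_lit 590) (nat_lit 6606) (.f (nat_lit 493) (nat_lit 492) (nat_lit 2508) (.f (nat_lit 461) (nat_lit 460) (nat_lit 3532) (.d (nat_lit 462) (nat_lit 429) (nat_lit 7597) (nat_lit 497) (nat_lit 461)))))))))))))))))) (.a (.p (nat_lit 558)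 (.a (.p (nat_lit 559) (.a (.f (nat_lit 591) (nat_lit 464) (nat_lit 5583) (.d (nat_lit 623) (nat_lit 592) (nat_lit 5615) (nat_lit 655) (nat_lit 6671))) (.f (nat_lit 525) (nat_lit 561) (nat_lit 3597) (.d (nat_lit 524) (nat_lit 523) (nat_lit 523) (nat_lit 557) (nat_lit 3596))))) (.a (.p (nat_lit 559) (.a (.f (nat_lit 525) (nat_lit 561) (nat_lit 3597) (.d (nat_lit 524) (nat_lit 523) (nat_lit 523) (nat_lit 557) (nat_lit 3596))) (.f (nat_lit 591) (nat_lit 464) (nat_lit 5583) (.f (nat_lit 623) (nat_lit 655) (nat_lit 6671) (.d (nat_lit 494) (nat_lit 462) (nat_lit 4558) (nat_lit 590) (nat_lit 4590)))))) (.a (.p (nat_lit 494) (.a (.p (nat_lit 462) (.a (.f (nat_lit 461) (nat_lit 429) (nat_lit 7597) (.f (nat_lit 495) (nat_lit 497) (nat_lit 3533) (.d (nat_lit 460) (nat_lit 459) (nat_lit 459) (nat_lit 493) (nat_lit 3532)))) (.f (nat_lit 557) (nat_lit 589) (nat_lit 5581) (.f (nat_lit 525) (nat_lit 430) (nat_lit 5549) (.d (nat_lit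 559) (nat_lit 524) (nat_lit 3596) (nat_lit 561) (nat_lit 3597)))))) (.a s108550 (.a (.p (nat_lit 462) (.a (.f (nat_lit 461) (nat_lit 429) (nat_lit 7597) (.f (nat_lit 495) (nat_lit 497) (nat_lit 3533) (.d (nat_lit 460) (nat_lit 459) (nat_lit 459) (nat_lit 493) (nat_lit 3532)))) (.a (.f (nat_lit 557) (nat_lit 589) (nat_lit 5581) (.f (nat_lit 430) (nat_lit 525) (nat_lit 5549) (.d (nat_lit 429) (nat_lit 397) (nat_lit 7565) (nat_lit 461) (nat_lit 7597)))) (.f (nat_lit 557) (nat_lit 589) (nat_lit 5581) (.f (nat_lit 525) (nat_lit 430) (nat_lit 5549) (.f (nat_lit 495) (nat_lit 497) (nat_lit 1517) (.d (nat_lit 524) (nat_lit 493) (nat_lit 1516) (nat_lit 523) (nat_lit 2539)))))))) (.a s108566 (.a s108478 (.a (.p (nat_lit 525) (.a (.f (nat_lit 495) (nat_lit 497) (nat_lit 1517) (.d (nat_lit 524) (nat_lit 493) (nat_lit 1516) (nat_lit 523) (nat_lit 2539))) (.a (.f (nat_lit 559) (nat_lit 561) (nat_lit 3597) (.d (nat_lit 524) (nat_lit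 523) (nat_lit 523) (nat_lit 557) (nat_lit 3596))) (.f (nat_lit 495) (nat_lit 497) (nat_lit 1517) (.d (nat_lit 463) (nat_lit 590) (nat_lit 6606) (nat_lit 592) (nat_lit 7631)))))) s108238))))))) (.a s108587 (.a (.p (nat_lit 494) (.a (.p (nat_lit 462) (.a (.f (nat_lit 461) (nat_lit 429) (nat_lit 7597) (.f (nat_lit 495) (nat_lit 497) (nat_lit 3533) (.d (nat_lit 460) (nat_lit 459) (nat_lit 459) (nat_lit 493) (nat_lit 3532)))) (.f (nat_lit 557) (nat_lit 589) (nat_lit 5581) (.f (nat_lit 525) (nat_lit 430) (nat_lit 5549) (.d (nat_lit 559) (nat_lit 524) (nat_lit 3596) (nat_lit 561) (nat_lit 3597)))))) (.a s108423 (.a (.p (nat_lit 462) (.a (.f (nat_lit 461) (nat_lit 429) (nat_lit 7597) (.f (nat_lit 495) (nat_lit 497) (nat_lit 3533) (.d (nat_lit 460) (nat_lit 459) (nat_lit 459) (nat_lit 493) (nat_lit 3532)))) (.a (.f (nat_lit 557) (nat_lit 589) (nat_lit 5581) (.f (nat_lit 430) (nat_lit 525) (nat_lit 5549) (.d (nat_lit 429)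 (nat_lit 397) (nat_lit 7565) (nat_lit 461) (nat_lit 7597)))) (.f (nat_lit 557) (nat_lit 589) (nat_lit 5581) (.f (nat_lit 525) (nat_lit 430) (nat_lit 5549) (.f (nat_lit 495) (nat_lit 497) (nat_lit 1517) (.d (nat_lit 524) (nat_lit 493) (nat_lit 1516) (nat_lit 523) (nat_lit 2539)))))))) (.a (.p (nat_lit 590) (.a (.f (nat_lit 621) (nat_lit 589) (nat_lit 5613) (.f (nat_lit 622) (nat_lit 653) (nat_lit 5645) (.d (nat_lit 623) (nat_lit 591) (nat_lit 4590) (nat_lit 655) (nat_lit 4622)))) (.f (nat_lit 495) (nat_lit 463) (nat_lit 6606) (.f (nat_lit 525) (nat_lit 497) (nat_lit 1517) (.d (nat_lit 493) (nat_lit 461) (nat_lit 7629) (nat_lit 524) (nat_lit 1516)))))) (.a (.p (nat_lit 525) (.a (.f (nat_lit 495) (nat_lit 497) (nat_lit 1517) (.d (nat_lit 524) (nat_lit 493) (nat_lit 1516) (nat_lit 523) (nat_lit 2539))) (.a (.f (nat_lit 559) (nat_lit 561) (nat_lit 3597) (.d (nat_lit 524) (nat_lit 523) (nat_lit 523) (nat_lit 557) (nat_lit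 3596))) (.f (nat_lit 495) (nat_lit 497) (nat_lit 1517) (.d (nat_lit 463) (nat_lit 590) (nat_lit 6606) (nat_lit 592) (nat_lit 7631)))))) (.p (nat_lit 590) (.a (.f (nat_lit 589) (nat_lit 621) (nat_lit 5613) (.f (nat_lit 559) (nat_lit 561) (nat_lit 1581) (.d (nat_lit 557) (nat_lit 462) (nat_lit 5581) (nat_lit 588) (nat_lit 1580)))) (.a (.f (nat_lit 621) (nat_lit 589) (nat_lit 5613) (.f (nat_lit 622) (nat_lit 653) (nat_lit 5645) (.d (nat_lit 623) (nat_lit 591) (nat_lit 4590) (nat_lit 655) (nat_lit 4622)))) (.f (nat_lit 591) (nat_lit 623) (nat_lit 4590) (.f (nat_lit 559) (nat_lit 462) (nat_lit 4558) (.d (nat_lit 561) (nat_lit 525) (nat_lit 3597) (nat_lit 562) (nat_lit 1582))))))))))))) (.a (.p (nat_lit 494) (.a (.p (nat_lit 462) (.a (.f (nat_lit 461) (nat_lit 429) (nat_lit 7597) (.f (nat_lit 495) (nat_lit 497) (nat_lit 3533) (.d (nat_lit 460) (nat_lit 459) (nat_lit 459) (nat_lit 493) (nat_lit 3532)))) (.a (.f (nat_lit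 557) (nat_lit 589) (nat_lit 5581) (.f (nat_lit 430) (nat_lit 525) (nat_lit 5549) (.d (nat_lit 429) (nat_lit 397) (nat_lit 7565) (nat_lit 461) (nat_lit 7597)))) (.f (nat_lit 557) (nat_lit 589) (nat_lit 5581) (.f (nat_lit 525) (nat_lit 430) (nat_lit 5549) (.f (nat_lit 495) (nat_lit 497) (nat_lit 1517) (.d (nat_lit 524) (nat_lit 493) (nat_lit 1516) (nat_lit 523) (nat_lit 2539)))))))) (.a s108589 (.a (.p (nat_lit 590) (.a (.f (nat_lit 621) (nat_lit 589) (nat_lit 5613) (.f (nat_lit 622) (nat_lit 653) (nat_lit 5645) (.d (nat_lit 623) (nat_lit 591) (nat_lit 4590) (nat_lit 655) (nat_lit 4622)))) (.f (nat_lit 495) (nat_lit 463) (nat_lit 6606) (.f (nat_lit 525) (nat_lit 497) (nat_lit 1517) (.d (nat_lit 493) (nat_lit 461) (nat_lit 7629) (nat_lit 524) (nat_lit 1516)))))) (.a s108566 (.a s108482 (.a s108284 (.p (nat_lit 590) (.a (.f (nat_lit 621) (nat_lit 589) (nat_lit 5613) (.f (nat_lit 622) (nat_lit 653) (nat_lit 5645) (.d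 (nat_lit 623) (nat_lit 591) (nat_lit 4590) (nat_lit 655) (nat_lit 4622)))) (.f (nat_lit 495) (nat_lit 463) (nat_lit 6606) (.f (nat_lit 497) (nat_lit 525) (nat_lit 1517) (.f (nat_lit 465) (nat_lit 466) (nat_lit 2510) (.d (nat_lit 433) (nat_lit 401) (nat_lit 5520) (nat_lit 464) (nat_lit 6576)))))))))))))) (.a s108641 (.p (nat_lit 494) (.a (.p (nat_lit 462) (.a (.f (nat_lit 461) (nat_lit 429) (nat_lit 7597) (.f (nat_lit 495) (nat_lit 497) (nat_lit 3533) (.d (nat_lit 460) (nat_lit 459) (nat_lit 459) (nat_lit 493) (nat_lit 3532)))) (.f (nat_lit 557) (nat_lit 589) (nat_lit 5581) (.f (nat_lit 525) (nat_lit 430) (nat_lit 5549) (.d (nat_lit 559) (nat_lit 524) (nat_lit 3596) (nat_lit 561) (nat_lit 3597)))))) (.a s108550 (.a (.p (nat_lit 462) (.a (.f (nat_lit 461) (nat_lit 429) (nat_lit 7597) (.f (nat_lit 495) (nat_lit 497) (nat_lit 3533) (.d (nat_lit 460) (nat_lit 459) (nat_lit 459) (nat_lit 493) (nat_lit 3532)))) (.a (.f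 (nat_lit 557) (nat_lit 589) (nat_lit 5581) (.f (nat_lit 430) (nat_lit 525) (nat_lit 5549) (.d (nat_lit 429) (nat_lit 397) (nat_lit 7565) (nat_lit 461) (nat_lit 7597)))) (.f (nat_lit 557) (nat_lit 589) (nat_lit 5581) (.f (nat_lit 525) (nat_lit 430) (nat_lit 5549) (.f (nat_lit 495) (nat_lit 497) (nat_lit 1517) (.d (nat_lit 524) (nat_lit 493) (nat_lit 1516) (nat_lit 523) (nat_lit 2539)))))))) (.a s108566 (.a s108645 (.a (.p (nat_lit 525) (.a (.f (nat_lit 495) (nat_lit 497) (nat_lit 1517) (.d (nat_lit 524) (nat_lit 493) (nat_lit 1516) (nat_lit 523) (nat_lit 2539))) (.a (.f (nat_lit 559) (nat_lit 561) (nat_lit 3597) (.d (nat_lit 524) (nat_lit 523) (nat_lit 523) (nat_lit 557) (nat_lit 3596))) (.f (nat_lit 495) (nat_lit 497) (nat_lit 1517) (.d (nat_lit 463) (nat_lit 590) (nat_lit 6606) (nat_lit 592) (nat_lit 7631)))))) s108238))))))))))))))) (.p (nat_lit 558) (.a (.p (nat_lit 464) (.a (.f (nat_lit 431) (nat_lit 463) (nat_lit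 7599) (.f (nat_lit 432) (nat_lit 399) (nat_lit 7567) (.d (nat_lit 433) (nat_lit 401) (nat_lit 6544) (nat_lit 465) (nat_lit 6576)))) (.f (nat_lit 559) (nat_lit 591) (nat_lit 5583) (.f (nat_lit 525) (nat_lit 561) (nat_lit 3597) (.d (nat_lit 524) (nat_lit 523) (nat_lit 523) (nat_lit 557) (nat_lit 3596)))))) (.a (.p (nat_lit 494) (.a (.p (nat_lit 462) (.a (.f (nat_lit 463) (nat_lit 431) (nat_lit 6574) (.f (nat_lit 495) (nat_lit 592) (nat_lit 7631) (.d (nat_lit 461) (nat_lit 429) (nat_lit 7597) (nat_lit 460) (nat_lit 460)))) (.f (nat_lit 557) (nat_lit 589) (nat_lit 5581) (.f (nat_lit 525) (nat_lit 430) (nat_lit 5549) (.d (nat_lit 559) (nat_lit 524) (nat_lit 3596) (nat_lit 561) (nat_lit 3597)))))) (.a (.p (nat_lit 590) (.a (.f (nat_lit 589) (nat_lit 621) (nat_lit 5613) (.f (nat_lit 559) (nat_lit 561) (nat_lit 1581) (.d (nat_lit 557) (nat_lit 462) (nat_lit 5581) (nat_lit 588) (nat_lit 1580)))) (.a (.f (nat_lit 461) (nat_lit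 493) (nat_lit 7629) (.f (nat_lit 462) (nat_lit 429) (nat_lit 7597) (.d (nat_lit 463) (nat_lit 431) (nat_lit 6574) (nat_lit 495) (nat_lit 6606)))) (.f (nat_lit 589) (nat_lit 621) (nat_lit 5613) (.f (nat_lit 559) (nat_lit 561) (nat_lit 1581) (.d (nat_lit 588) (nat_lit 557) (nat_lit 1580) (nat_lit 587) (nat_lit 2603))))))) (.a s108869 (.a s108478 (.a (.p (nat_lit 590) (.a (.f (nat_lit 461) (nat_lit 493) (nat_lit 7629) (.f (nat_lit 462) (nat_lit 429) (nat_lit 7597) (.d (nat_lit 463) (nat_lit 431) (nat_lit 6574) (nat_lit 495) (nat_lit 6606)))) (.a (.f (nat_lit 493) (nat_lit 461) (nat_lit 7629) (.f (nat_lit 622) (nat_lit 525) (nat_lit 7661) (.f (nat_lit 655) (nat_lit 623) (nat_lit 4622) (.f (nat_lit 654) (nat_lit 687) (nat_lit 4654) (.d (nat_lit 653) (nat_lit 621) (nat_lit 5645) (nat_lit 685) (nat_lit 5677)))))) (.f (nat_lit 463) (nat_lit 495) (nat_lit 6606) (.d (nat_lit 431) (nat_lit 462) (nat_lit 6574) (nat_lit 464)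 (nat_lit 7599)))))) (.a (.p (nat_lit 590) (.a (.f (nat_lit 589) (nat_lit 621) (nat_lit 5613) (.f (nat_lit 559) (nat_lit 561) (nat_lit 1581) (.d (nat_lit 588) (nat_lit 557) (nat_lit 1580) (nat_lit 587) (nat_lit 2603)))) (.a (.f (nat_lit 493) (nat_lit 461) (nat_lit 7629) (.f (nat_lit 622) (nat_lit 525) (nat_lit 7661) (.f (nat_lit 655) (nat_lit 623) (nat_lit 4622) (.f (nat_lit 654) (nat_lit 687) (nat_lit 4654) (.d (nat_lit 653) (nat_lit 621) (nat_lit 5645) (nat_lit 685) (nat_lit 5677)))))) (.f (nat_lit 493) (nat_lit 461) (nat_lit 7629) (.f (nat_lit 525) (nat_lit 622) (nat_lit 7661) (.f (nat_lit 559) (nat_lit 561) (nat_lit 3597) (.d (nat_lit 524) (nat_lit 523) (nat_lit 523) (nat_lit 557) (nat_lit 3596)))))))) (.p (nat_lit 590) (.a (.f (nat_lit 589) (nat_lit 621) (nat_lit 5613) (.f (nat_lit 559) (nat_lit 561) (nat_lit 1581) (.d (nat_lit 557) (nat_lit 462) (nat_lit 5581) (nat_lit 588) (nat_lit 1580)))) (.a (.f (nat_lit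 463) (nat_lit 495) (nat_lit 6606) (.d (nat_lit 431) (nat_lit 462) (nat_lit 6574) (nat_lit 464) (nat_lit 7599))) (.f (nat_lit 589) (nat_lit 621) (nat_lit 5613) (.f (nat_lit 559) (nat_lit 561) (nat_lit 1581) (.d (nat_lit 588) (nat_lit 557) (nat_lit 1580) (nat_lit 587) (nat_lit 2603)))))))))))))) (.a s108868 (.a (.p (nat_lit 494) (.a (.p (nat_lit 462) (.a (.f (nat_lit 463) (nat_lit 431) (nat_lit 6574) (.f (nat_lit 495) (nat_lit 592) (nat_lit 7631) (.d (nat_lit 461) (nat_lit 429) (nat_lit 7597) (nat_lit 460) (nat_lit 460)))) (.f (nat_lit 557) (nat_lit 589) (nat_lit 5581) (.f (nat_lit 525) (nat_lit 430) (nat_lit 5549) (.d (nat_lit 559) (nat_lit 524) (nat_lit 3596) (nat_lit 561) (nat_lit 3597)))))) (.a (.p (nat_lit 462) (.a (.f (nat_lit 557) (nat_lit 589) (nat_lit 5581) (.f (nat_lit 525) (nat_lit 430) (nat_lit 5549) (.d (nat_lit 559) (nat_lit 524) (nat_lit 3596) (nat_lit 561) (nat_lit 3597)))) (.a (.f (nat_lit 431) (nat_lit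 463) (nat_lit 6574) (.f (nat_lit 430) (nat_lit 399) (nat_lit 6542) (.d (nat_lit 429) (nat_lit 397) (nat_lit 7565) (nat_lit 461) (nat_lit 7597)))) (.f (nat_lit 559) (nat_lit 591) (nat_lit 4558) (.f (nat_lit 557) (nat_lit 589) (nat_lit 5581) (.d (nat_lit 525) (nat_lit 524) (nat_lit 3596) (nat_lit 561) (nat_lit 3597))))))) (.a (.p (nat_lit 590) (.a (.f (nat_lit 589) (nat_lit 621) (nat_lit 5613) (.f (nat_lit 559) (nat_lit 561) (nat_lit 1581) (.d (nat_lit 557) (nat_lit 462) (nat_lit 5581) (nat_lit 588) (nat_lit 1580)))) (.a (.f (nat_lit 461) (nat_lit 493) (nat_lit 7629) (.f (nat_lit 462) (nat_lit 429) (nat_lit 7597) (.d (nat_lit 463) (nat_lit 431) (nat_lit 6574) (nat_lit 495) (nat_lit 6606)))) (.f (nat_lit 589) (nat_lit 621) (nat_lit 5613) (.f (nat_lit 559) (nat_lit 561) (nat_lit 1581) (.d (nat_lit 588) (nat_lit 557) (nat_lit 1580) (nat_lit 587) (nat_lit 2603))))))) (.a s108869 (.a s108423 (.a (.p (nat_lit 462) (.a (.f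 (nat_lit 463) (nat_lit 431) (nat_lit 6574) (.f (nat_lit 495) (nat_lit 592) (nat_lit 7631) (.d (nat_lit 461) (nat_lit 429) (nat_lit 7597) (nat_lit 460) (nat_lit 460)))) (.a (.f (nat_lit 431) (nat_lit 463) (nat_lit 6574) (.f (nat_lit 430) (nat_lit 399) (nat_lit 6542) (.d (nat_lit 429) (nat_lit 397) (nat_lit 7565) (nat_lit 461) (nat_lit 7597)))) (.a (.f (nat_lit 559) (nat_lit 591) (nat_lit 4558) (.f (nat_lit 525) (nat_lit 561) (nat_lit 3597) (.f (nat_lit 524) (nat_lit 523) (nat_lit 523) (.f (nat_lit 493) (nat_lit 495) (nat_lit 1516) (.f (nat_lit 429) (nat_lit 461) (nat_lit 7597) (.d (nat_lit 430) (nat_lit 397) (nat_lit 7565) (nat_lit 398) (nat_lit 5517))))))) (.f (nat_lit 463) (nat_lit 431) (nat_lit 6574) (.f (nat_lit 592) (nat_lit 495) (nat_lit 7631) (.d (nat_lit 591) (nat_lit 559) (nat_lit 4558) (nat_lit 623) (nat_lit 5615)))))))) (.a s108485 (.p (nat_lit 590) (.a (.f (nat_lit 589) (nat_lit 621) (nat_lit 5613) (.f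 (nat_lit 559) (nat_lit 561) (nat_lit 1581) (.d (nat_lit 557) (nat_lit 462) (nat_lit 5581) (nat_lit 588) (nat_lit 1580)))) (.a (.f (nat_lit 621) (nat_lit 589) (nat_lit 5613) (.f (nat_lit 622) (nat_lit 653) (nat_lit 5645) (.d (nat_lit 623) (nat_lit 591) (nat_lit 4590) (nat_lit 655) (nat_lit 4622)))) (.f (nat_lit 591) (nat_lit 623) (nat_lit 4590) (.f (nat_lit 462) (nat_lit 559) (nat_lit 4558) (.d (nat_lit 463) (nat_lit 431) (nat_lit 6574) (nat_lit 495) (nat_lit 6606))))))))))))))) (.a (.p (nat_lit 494) (.a s108869 (.a (.p (nat_lit 590) (.a (.f (nat_lit 461) (nat_lit 493) (nat_lit 7629) (.f (nat_lit 462) (nat_lit 429) (nat_lit 7597) (.d (nat_lit 463) (nat_lit 431) (nat_lit 6574) (nat_lit 495) (nat_lit 6606)))) (.a (.f (nat_lit 461) (nat_lit 493) (nat_lit 7629) (.f (nat_lit 462) (nat_lit 429) (nat_lit 7597) (.d (nat_lit 589) (nat_lit 557) (nat_lit 5581) (nat_lit 621) (nat_lit 5613)))) (.f (nat_lit 621) (nat_lit 589) (nat_lit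 5613) (.f (nat_lit 622) (nat_lit 653) (nat_lit 5645) (.d (nat_lit 623) (nat_lit 591) (nat_lit 4590) (nat_lit 655) (nat_lit 4622))))))) (.a s108482 (.a (.p (nat_lit 590) (.a (.f (nat_lit 461) (nat_lit 493) (nat_lit 7629) (.f (nat_lit 462) (nat_lit 429) (nat_lit 7597) (.d (nat_lit 463) (nat_lit 431) (nat_lit 6574) (nat_lit 495) (nat_lit 6606)))) (.f (nat_lit 621) (nat_lit 589) (nat_lit 5613) (.f (nat_lit 622) (nat_lit 653) (nat_lit 5645) (.d (nat_lit 623) (nat_lit 591) (nat_lit 4590) (nat_lit 655) (nat_lit 4622)))))) (.a (.p (nat_lit 590) (.a (.f (nat_lit 461) (nat_lit 493) (nat_lit 7629) (.f (nat_lit 462) (nat_lit 429) (nat_lit 7597) (.d (nat_lit 463) (nat_lit 431) (nat_lit 6574) (nat_lit 495) (nat_lit 6606)))) (.a (.f (nat_lit 493) (nat_lit 461) (nat_lit 7629) (.f (nat_lit 622) (nat_lit 525) (nat_lit 7661) (.f (nat_lit 655) (nat_lit 623) (nat_lit 4622) (.f (nat_lit 654) (nat_lit 687) (nat_lit 4654) (.d (nat_lit 653)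 (nat_lit 621) (nat_lit 5645) (nat_lit 685) (nat_lit 5677)))))) (.f (nat_lit 463) (nat_lit 495) (nat_lit 6606) (.d (nat_lit 431) (nat_lit 462) (nat_lit 6574) (nat_lit 464) (nat_lit 7599)))))) (.a (.p (nat_lit 590) (.a (.f (nat_lit 621) (nat_lit 589) (nat_lit 5613) (.f (nat_lit 622) (nat_lit 653) (nat_lit 5645) (.d (nat_lit 623) (nat_lit 591) (nat_lit 4590) (nat_lit 655) (nat_lit 4622)))) (.a (.f (nat_lit 493) (nat_lit 461) (nat_lit 7629) (.f (nat_lit 622) (nat_lit 525) (nat_lit 7661) (.f (nat_lit 655) (nat_lit 623) (nat_lit 4622) (.f (nat_lit 654) (nat_lit 687) (nat_lit 4654) (.d (nat_lit 653) (nat_lit 621) (nat_lit 5645) (nat_lit 685) (nat_lit 5677)))))) (.a (.f (nat_lit 493) (nat_lit 461) (nat_lit 7629) (.f (nat_lit 495) (nat_lit 463) (nat_lit 6606) (.d (nat_lit 525) (nat_lit 524) (nat_lit 1516) (nat_lit 622) (nat_lit 7661)))) (.f (nat_lit 495) (nat_lit 463) (nat_lit 6606) (.f (nat_lit 493) (nat_lit 461) (nat_lit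 7629) (.f (nat_lit 524) (nat_lit 525) (nat_lit 1516) (.f (nat_lit 591) (nat_lit 623) (nat_lit 4590) (.f (nat_lit 589) (nat_lit 621) (nat_lit 5613) (.f (nat_lit 592) (nat_lit 561) (nat_lit 2605) (.f (nat_lit 556) (nat_lit 557) (nat_lit 3628) (.f (nat_lit 492) (nat_lit 523) (nat_lit 1515) (.f (nat_lit 588) (nat_lit 555) (nat_lit 3627) (.d (nat_lit 619) (nat_lit 587) (nat_lit 5611) (nat_lit 620) (nat_lit 1611))))))))))))))) (.p (nat_lit 590) (.a (.f (nat_lit 621) (nat_lit 589) (nat_lit 5613) (.f (nat_lit 622) (nat_lit 653) (nat_lit 5645) (.d (nat_lit 623) (nat_lit 591) (nat_lit 4590) (nat_lit 655) (nat_lit 4622)))) (.f (nat_lit 463) (nat_lit 495) (nat_lit 6606) (.d (nat_lit 431) (nat_lit 462) (nat_lit 6574) (nat_lit 464) (nat_lit 7599)))))))))))) (.a (.p (nat_lit 559) (.a (.f (nat_lit 591) (nat_lit 464) (nat_lit 5583) (.d (nat_lit 623) (nat_lit 592) (nat_lit 5615) (nat_lit 655) (nat_lit 6671))) (.f (nat_lit 525) (nat_lit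 561) (nat_lit 3597) (.d (nat_lit 524) (nat_lit 523) (nat_lit 523) (nat_lit 557) (nat_lit 3596))))) (.a s108641 (.p (nat_lit 464) (.a (.f (nat_lit 431) (nat_lit 463) (nat_lit 7599) (.f (nat_lit 432) (nat_lit 399) (nat_lit 7567) (.d (nat_lit 433) (nat_lit 401) (nat_lit 6544) (nat_lit 465) (nat_lit 6576)))) (.f (nat_lit 591) (nat_lit 559) (nat_lit 5583) (.f (nat_lit 623) (nat_lit 592) (nat_lit 5615) (.f (nat_lit 590) (nat_lit 494) (nat_lit 4590) (.d (nat_lit 655) (nat_lit 622) (nat_lit 4622) (nat_lit 687) (nat_lit 7726))))))))))))))))))))))))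
noncomputable def s108923 : Cert := .r (nat_lit 4717453032125294315973987508880817458218130529296591420246571772779567243795549402077785465380506041852719292777414468402832772512838634980175475457832173847598411546624) (.p (nat_lit 590) (.a (.f (nat_lit 589) (nat_lit 621) (nat_lit 5613) (.f (nat_lit 462) (nat_lit 557) (nat_lit 5581) (.d (nat_lit 463) (nat_lit 431) (nat_lit 6574) (nat_lit 495) (nat_lit 6606)))) (.a (.f (nat_lit 589) (nat_lit 621) (nat_lit 5613) (.f (nat_lit 557) (nat_lit 462) (nat_lit 5581) (.f (nat_lit 493) (nat_lit 461) (nat_lit 7629) (.f (nat_lit 525) (nat_lit 622) (nat_lit 4589) (.f (nat_lit 588) (nat_lit 620) (nat_lit 5612) (.f (nat_lit 591) (nat_lit 623) (nat_lit 4590) (.f (nat_lit 555) (nat_lit 556) (nat_lit 3627) (.d (nat_lit 587) (nat_lit 554) (nat_lit 3626) (nat_lit 586) (nat_lit 2602))))))))) (.a (.f (nat_lit 463) (nat_lit 495) (nat_lit 6606) (.f (nat_lit 462) (nat_lit 431) (nat_lit 6574)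 (.d (nat_lit 461) (nat_lit 429) (nat_lit 7597) (nat_lit 493) (nat_lit 7629)))) (.f (nat_lit 621) (nat_lit 589) (nat_lit 5613) (.f (nat_lit 622) (nat_lit 653) (nat_lit 5645) (.d (nat_lit 623) (nat_lit 591) (nat_lit 4590) (nat_lit 655) (nat_lit 4622))))))))
noncomputable def s108943 : Cert := .r (nat_lit 4717453032125294315922840780632440241499174440283660183493186740810144356459872974451283374811683001932668197584822215947350168073345508870656455824302714581140153303040) (.p (nat_lit 525) (.a (.f (nat_lit 559) (nat_lit 561) (nat_lit 3597) (.d (nat_lit 524) (nat_lit 523) (nat_lit 523) (nat_lit 557) (nat_lit 3596))) (.a (.f (nat_lit 527) (nat_lit 561) (nat_lit 525) (.f (nat_lit 557) (nat_lit 556) (nat_lit 1548) (.f (nat_lit 493) (nat_lit 492) (nat_lit 3564) (.f (nat_lit 461) (nat_lit 429) (nat_lit 4525) (.f (nat_lit 462) (nat_lit 430) (nat_lit 6573) (.f (nat_lit 589) (nat_lit 494) (nat_lit 5581) (.f (nat_lit 621) (nat_lit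 653) (nat_lit 6669) (.d (nat_lit 620) (nat_lit 588) (nat_lit 5612) (nat_lit 652) (nat_lit 5644))))))))) (.a (.d (nat_lit 561) (nat_lit 527) (nat_lit 525) (nat_lit 559) (nat_lit 3597)) (.p (nat_lit 557) (.a (.f (nat_lit 527) (nat_lit 556) (nat_lit 1548) (.f (nat_lit 524) (nat_lit 559) (nat_lit 524) (.d (nat_lit 492) (nat_lit 491) (nat_lit 3563) (nat_lit 493) (nat_lit 3564)))) (.a (.f (nat_lit 559) (nat_lit 524) (nat_lit 3596) (.f (nat_lit 589) (nat_lit 588) (nat_lit 1580) (.d (nat_lit 494) (nat_lit 462) (nat_lit 5581) (nat_lit 621) (nat_lit 6637)))) (.f (nat_lit 527) (nat_lit 556) (nat_lit 1548) (.f (nat_lit 493) (nat_lit 492) (nat_lit 3564) (.f (nat_lit 461) (nat_lit 429) (nat_lit 4525) (.f (nat_lit 462) (nat_lit 430) (nat_lit 6573) (.f (nat_lit 589) (nat_lit 494) (nat_lit 5581) (.f (nat_lit 621) (nat_lit 653) (nat_lit 6669) (.d (nat_lit 620) (nat_lit 588) (nat_lit 5612) (nat_lit 652) (nat_lit 5644)))))))))))))))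
noncomputable def s108976 : Cert := .r (nat_lit 4717453032125294315973987508880817458218130529296591420246571772779567243795549402077785465380506041852719292777414468402832772512838634980175475457832173847598411546624) (.p (nat_lit 590) (.a (.f (nat_lit 495) (nat_lit 463) (nat_lit 6606) (.f (nat_lit 493) (nat_lit 461) (nat_lit 7629) (.d (nat_lit 527) (nat_lit 492) (nat_lit 492) (nat_lit 622) (nat_lit 6638)))) (.a (.f (nat_lit 463) (nat_lit 495) (nat_lit 6606) (.f (nat_lit 462) (nat_lit 431) (nat_lit 6574) (.d (nat_lit 461) (nat_lit 429) (nat_lit 7597) (nat_lit 493) (nat_lit 7629)))) (.a (.f (nat_lit 493) (nat_lit 461) (nat_lit 7629) (.f (nat_lit 525) (nat_lit 622) (nat_lit 7661) (.d (nat_lit 527) (nat_lit 492) (nat_lit 3564) (nat_lit 561) (nat_lit 525)))) (.f (nat_lit 495) (nat_lit 463) (nat_lit 6606) (.f (nat_lit 527) (nat_lit 622) (nat_lit 6638) (.f (nat_lit 525) (nat_lit 561) (nat_lit 525) (.d (nat_lit 524) (nat_lit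 523) (nat_lit 2539) (nat_lit 559) (nat_lit 524)))))))))
noncomputable def s108977 : Cert := .r (nat_lit 4717453032125294315973987508880817458218130529296591420246571772779567243795549402077785465380506041852719292777414468402832772512838634980175475457832173847598411546624) (.p (nat_lit 590) (.a (.f (nat_lit 495) (nat_lit 463) (nat_lit 6606) (.f (nat_lit 493) (nat_lit 461) (nat_lit 7629) (.d (nat_lit 527) (nat_lit 492) (nat_lit 492) (nat_lit 622) (nat_lit 6638)))) (.a (.f (nat_lit 463) (nat_lit 495) (nat_lit 6606) (.f (nat_lit 462) (nat_lit 431) (nat_lit 6574) (.d (nat_lit 461) (nat_lit 429) (nat_lit 7597) (nat_lit 493) (nat_lit 7629)))) (.a (.f (nat_lit 493) (nat_lit 461) (nat_lit 7629) (.f (nat_lit 525) (nat_lit 622) (nat_lit 7661) (.d (nat_lit 527) (nat_lit 492) (nat_lit 3564) (nat_lit 561) (nat_lit 525)))) (.f (nat_lit 495) (nat_lit 463) (nat_lit 6606) (.f (nat_lit 622) (nat_lit 527) (nat_lit 6638) (.d (nat_lit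 621) (nat_lit 589) (nat_lit 5613) (nat_lit 653) (nat_lit 5645))))))))
noncomputable def s108980 : Cert := .r (nat_lit 4717453032125294315973987508880817458218130529296591420246571772779567243795549402077785465380506041852719292777414468402832772512838634980175475457832173847598411546624) (.p (nat_lit 590) (.a (.f (nat_lit 589) (nat_lit 621) (nat_lit 5613) (.f (nat_lit 557) (nat_lit 462) (nat_lit 5581) (.f (nat_lit 493) (nat_lit 461) (nat_lit 7629) (.f (nat_lit 525) (nat_lit 622) (nat_lit 4589) (.f (nat_lit 588) (nat_lit 620) (nat_lit 5612) (.f (nat_lit 591) (nat_lit 623) (nat_lit 4590) (.f (nat_lit 555) (nat_lit 556) (nat_lit 3627) (.d (nat_lit 587) (nat_lit 554) (nat_lit 3626) (nat_lit 586) (nat_lit 2602))))))))) (.a (.f (nat_lit 589) (nat_lit 621) (nat_lit 5613) (.f (nat_lit 462) (nat_lit 557) (nat_lit 5581) (.d (nat_lit 461) (nat_lit 429) (nat_lit 7597) (nat_lit 493) (nat_lit 7629)))) (.a (.f (nat_lit 621) (nat_lit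 589) (nat_lit 5613) (.f (nat_lit 622) (nat_lit 653) (nat_lit 5645) (.d (nat_lit 623) (nat_lit 591) (nat_lit 4590) (nat_lit 655) (nat_lit 4622)))) (.f (nat_lit 623) (nat_lit 591) (nat_lit 4590) (.f (nat_lit 622) (nat_lit 655) (nat_lit 4622) (.d (nat_lit 493) (nat_lit 461) (nat_lit 7629) (nat_lit 525) (nat_lit 7661))))))))
noncomputable def s108990 : Cert := .r (nat_lit 4717453032125294315973987508880817458218130529296591420246571772779567243795549402077785465380506041852719292777414468402832772512838634980175475457832173847598411546624) (.p (nat_lit 590) (.a (.f (nat_lit 495) (nat_lit 463) (nat_lit 6606) (.f (nat_lit 493) (nat_lit 461) (nat_lit 7629) (.d (nat_lit 527) (nat_lit 492) (nat_lit 492) (nat_lit 622) (nat_lit 6638)))) (.a (.f (nat_lit 463) (nat_lit 495) (nat_lit 6606) (.f (nat_lit 462) (nat_lit 431) (nat_lit 6574) (.d (nat_lit 461) (nat_lit 429) (nat_lit 7597) (nat_lit 493) (nat_lit 7629)))) (.a (.f (nat_lit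 493) (nat_lit 461) (nat_lit 7629) (.f (nat_lit 525) (nat_lit 622) (nat_lit 7661) (.d (nat_lit 527) (nat_lit 492) (nat_lit 3564) (nat_lit 561) (nat_lit 525)))) (.a (.f (nat_lit 495) (nat_lit 463) (nat_lit 6606) (.f (nat_lit 527) (nat_lit 622) (nat_lit 6638) (.f (nat_lit 525) (nat_lit 561) (nat_lit 525) (.f (nat_lit 557) (nat_lit 556) (nat_lit 1548) (.f (nat_lit 524) (nat_lit 523) (nat_lit 2539) (.f (nat_lit 462) (nat_lit 430) (nat_lit 5549) (.f (nat_lit 492) (nat_lit 491) (nat_lit 3563) (.f (nat_lit 460) (nat_lit 428) (nat_lit 4524) (.d (nat_lit 461) (nat_lit 429) (nat_lit 7597) (nat_lit 459) (nat_lit 459)))))))))) (.f (nat_lit 623) (nat_lit 591) (nat_lit 4590) (.f (nat_lit 622) (nat_lit 655) (nat_lit 4622) (.f (nat_lit 653) (nat_lit 621) (nat_lit 5645) (.f (nat_lit 654) (nat_lit 685) (nat_lit 5677) (.d (nat_lit 525) (nat_lit 493) (nat_lit 7661) (nat_lit 557) (nat_lit 7693)))))))))))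
noncomputable def s108991 : Cert := .r (nat_lit 4717453032125294315973987508880817458218130529296591420246571772779567243795549402077785465380506041852719292777414468402832772512838634980175475457832173847598411546624) (.p (nat_lit 590) (.a (.f (nat_lit 495) (nat_lit 463) (nat_lit 6606) (.f (nat_lit 493) (nat_lit 461) (nat_lit 7629) (.d (nat_lit 527) (nat_lit 492) (nat_lit 492) (nat_lit 622) (nat_lit 6638)))) (.a (.f (nat_lit 623) (nat_lit 591) (nat_lit 4590) (.f (nat_lit 622) (nat_lit 655) (nat_lit 4622) (.d (nat_lit 493) (nat_lit 461) (nat_lit 7629) (nat_lit 525) (nat_lit 7661)))) (.a (.f (nat_lit 495) (nat_lit 463) (nat_lit 6606) (.f (nat_lit 527) (nat_lit 622) (nat_lit 6638) (.f (nat_lit 525) (nat_lit 561) (nat_lit 525) (.d (nat_lit 524) (nat_lit 523) (nat_lit 2539) (nat_lit 559) (nat_lit 524))))) (.f (nat_lit 493) (nat_lit 461) (nat_lit 7629) (.f (nat_lit 495) (nat_lit 463) (nat_lit 6606) (.f (nat_lit 492) (nat_lit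 527) (nat_lit 492) (.f (nat_lit 523) (nat_lit 524) (nat_lit 1515) (.f (nat_lit 491) (nat_lit 522) (nat_lit 1514) (.d (nat_lit 459) (nat_lit 458) (nat_lit 3530) (nat_lit 460) (nat_lit 3531)))))))))))
noncomputable def s108992 : Cert := .r (nat_lit 4717453032125294315973987508880817458218130529296591420246571772779567243795549402077785465380506041852719292777414468402832772512838634980175475457832173847598411546624) (.p (nat_lit 590) (.a (.f (nat_lit 591) (nat_lit 623) (nat_lit 4590) (.f (nat_lit 559) (nat_lit 462) (nat_lit 4558) (.d (nat_lit 561) (nat_lit 525) (nat_lit 3597) (nat_lit 562) (nat_lit 1582)))) (.a (.f (nat_lit 495) (nat_lit 463) (nat_lit 6606) (.f (nat_lit 527) (nat_lit 622) (nat_lit 6638) (.f (nat_lit 525) (nat_lit 561) (nat_lit 525) (.d (nat_lit 524) (nat_lit 523) (nat_lit 2539) (nat_lit 559) (nat_lit 524))))) (.a (.f (nat_lit 591) (nat_lit 623) (nat_lit 4590) (.f (nat_lit 462) (nat_lit 559) (nat_lit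 4558) (.d (nat_lit 463) (nat_lit 431) (nat_lit 6574) (nat_lit 495) (nat_lit 6606)))) (.f (nat_lit 623) (nat_lit 591) (nat_lit 4590) (.f (nat_lit 622) (nat_lit 655) (nat_lit 4622) (.f (nat_lit 653) (nat_lit 621) (nat_lit 5645) (.f (nat_lit 654) (nat_lit 685) (nat_lit 5677) (.d (nat_lit 525) (nat_lit 493) (nat_lit 7661) (nat_lit 557) (nat_lit 7693))))))))))
noncomputable def s109000 : Cert := .r (nat_lit 4717453032125294315973987508880817458218130529296591420246571772779567243795549402077785465380506041852719292777414468402832772512838634980175475457832173847598411546624) (.p (nat_lit 590) (.a (.f (nat_lit 589) (nat_lit 621) (nat_lit 5613) (.f (nat_lit 462) (nat_lit 557) (nat_lit 5581) (.d (nat_lit 463) (nat_lit 431) (nat_lit 6574) (nat_lit 495) (nat_lit 6606)))) (.a (.f (nat_lit 589) (nat_lit 621) (nat_lit 5613) (.f (nat_lit 557) (nat_lit 462) (nat_lit 5581) (.f (nat_lit 623) (nat_lit 591) (nat_lit 4590) (.f (nat_lit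 622) (nat_lit 655) (nat_lit 4622) (.d (nat_lit 654) (nat_lit 525) (nat_lit 7693) (nat_lit 686) (nat_lit 7725)))))) (.a (.f (nat_lit 621) (nat_lit 589) (nat_lit 5613) (.f (nat_lit 622) (nat_lit 653) (nat_lit 5645) (.d (nat_lit 623) (nat_lit 591) (nat_lit 4590) (nat_lit 655) (nat_lit 4622)))) (.a (.f (nat_lit 623) (nat_lit 591) (nat_lit 4590) (.f (nat_lit 622) (nat_lit 655) (nat_lit 4622) (.f (nat_lit 653) (nat_lit 621) (nat_lit 5645) (.f (nat_lit 654) (nat_lit 685) (nat_lit 5677) (.d (nat_lit 525) (nat_lit 493) (nat_lit 7661) (nat_lit 557) (nat_lit 7693)))))) (.f (nat_lit 463) (nat_lit 495) (nat_lit 6606) (.f (nat_lit 462) (nat_lit 431) (nat_lit 6574) (.f (nat_lit 557) (nat_lit 589) (nat_lit 5581) (.f (nat_lit 525) (nat_lit 430) (nat_lit 5549) (.d (nat_lit 622) (nat_lit 493) (nat_lit 7661) (nat_lit 654) (nat_lit 7693)))))))))))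
noncomputable def s109019 : Cert := .r (nat_lit 3773962425919908978067039048378881885645768491231275023412675293626429865204541471935760055792560469727505484597500264544337939673836815150592175795562377636060837445632) (.p (nat_lit 464) (.a (.f (nat_lit 433) (nat_lit 465) (nat_lit 6576) (.f (nat_lit 432) (nat_lit 401) (nat_lit 6544) (.d (nat_lit 431) (nat_lit 399) (nat_lit 7567) (nat_lit 463) (nat_lit 7599)))) (.a (.f (nat_lit 433) (nat_lit 465) (nat_lit 6576) (.f (nat_lit 432) (nat_lit 401) (nat_lit 6544) (.f (nat_lit 527) (nat_lit 559) (nat_lit 5551) (.d (nat_lit 525) (nat_lit 497) (nat_lit 2541) (nat_lit 561) (nat_lit 525))))) (.a (.f (nat_lit 431) (nat_lit 463) (nat_lit 7599) (.f (nat_lit 432) (nat_lit 399) (nat_lit 7567) (.f (nat_lit 527) (nat_lit 559) (nat_lit 5551) (.d (nat_lit 525) (nat_lit 497) (nat_lit 2541) (nat_lit 561) (nat_lit 525))))) (.p (nat_lit 497) (.a (.f (nat_lit 527) (nat_lit 525) (nat_lit 2541)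 (.d (nat_lit 498) (nat_lit 495) (nat_lit 1518) (nat_lit 499) (nat_lit 1519))) (.a (.f (nat_lit 463) (nat_lit 431) (nat_lit 7599) (.f (nat_lit 465) (nat_lit 433) (nat_lit 6576) (.d (nat_lit 498) (nat_lit 462) (nat_lit 462) (nat_lit 499) (nat_lit 3535)))) (.f (nat_lit 525) (nat_lit 527) (nat_lit 2541) (.f (nat_lit 465) (nat_lit 433) (nat_lit 6576) (.f (nat_lit 494) (nat_lit 495) (nat_lit 1517) (.f (nat_lit 463) (nat_lit 431) (nat_lit 7599) (.d (nat_lit 462) (nat_lit 461) (nat_lit 461) (nat_lit 493) (nat_lit 1485)))))))))))))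
noncomputable def s109034 : Cert := .r (nat_lit 3773962425919908978067039048378881885645768491231275023412675293626429865204541471935760055792560469727505484597500264544337939673836815150592175795562377636060837445632) (.p (nat_lit 464) (.a (.f (nat_lit 465) (nat_lit 433) (nat_lit 6576) (.f (nat_lit 463) (nat_lit 431) (nat_lit 7599) (.d (nat_lit 592) (nat_lit 495) (nat_lit 7631) (nat_lit 497) (nat_lit 6608)))) (.a (.f (nat_lit 433) (nat_lit 465) (nat_lit 6576) (.f (nat_lit 432) (nat_lit 401) (nat_lit 6544) (.d (nat_lit 431) (nat_lit 399) (nat_lit 7567) (nat_lit 463) (nat_lit 7599)))) (.a (.f (nat_lit 433) (nat_lit 465) (nat_lit 6576) (.f (nat_lit 432) (nat_lit 401) (nat_lit 6544) (.f (nat_lit 527) (nat_lit 559) (nat_lit 5551) (.f (nat_lit 400) (nat_lit 495) (nat_lit 5519) (.d (nat_lit 399) (nat_lit 367) (nat_lit 7535) (nat_lit 431) (nat_lit 7567)))))) (.a (.f (nat_lit 431) (nat_lit 463) (nat_lit 7599) (.f (nat_lit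 432) (nat_lit 399) (nat_lit 7567) (.f (nat_lit 527) (nat_lit 559) (nat_lit 5551) (.f (nat_lit 401) (nat_lit 433) (nat_lit 6544) (.d (nat_lit 400) (nat_lit 369) (nat_lit 6512) (nat_lit 495) (nat_lit 5519)))))) (.a (.f (nat_lit 465) (nat_lit 433) (nat_lit 6576) (.f (nat_lit 592) (nat_lit 497) (nat_lit 6608) (.f (nat_lit 495) (nat_lit 463) (nat_lit 7631) (.f (nat_lit 527) (nat_lit 624) (nat_lit 7663) (.d (nat_lit 432) (nat_lit 400) (nat_lit 5519) (nat_lit 559) (nat_lit 5551)))))) (.f (nat_lit 431) (nat_lit 463) (nat_lit 7599) (.f (nat_lit 432) (nat_lit 399) (nat_lit 7567) (.f (nat_lit 527) (nat_lit 559) (nat_lit 5551) (.f (nat_lit 495) (nat_lit 400) (nat_lit 5519) (.f (nat_lit 497) (nat_lit 498) (nat_lit 1518) (.d (nat_lit 592) (nat_lit 465) (nat_lit 6608) (nat_lit 624) (nat_lit 7663)))))))))))))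
noncomputable def s109035 : Cert := .r (nat_lit 3773962425919908978169332504875636319083680669257137496919445357565275639875894327188764236930206549567607674982684769455303148552823067369630215062621296168977353932800) (.p (nat_lit 494) (.a (.f (nat_lit 497) (nat_lit 525) (nat_lit 1517) (.d (nat_lit 592) (nat_lit 463) (nat_lit 7631) (nat_lit 465) (nat_lit 6608))) (.a (.f (nat_lit 497) (nat_lit 525) (nat_lit 1517) (.f (nat_lit 462) (nat_lit 461) (nat_lit 3533) (.f (nat_lit 463) (nat_lit 498) (nat_lit 3534) (.d (nat_lit 431) (nat_lit 399) (nat_lit 4495) (nat_lit 558) (nat_lit 6574))))) (.a (.f (nat_lit 463) (nat_lit 592) (nat_lit 7631) (.f (nat_lit 431) (nat_lit 399) (nat_lit 4495) (.d (nat_lit 558) (nat_lit 462) (nat_lit 6574) (nat_lit 590) (nat_lit 6606)))) (.f (nat_lit 497) (nat_lit 525) (nat_lit 1517) (.d (nat_lit 465) (nat_lit 466) (nat_lit 2510) (nat_lit 592) (nat_lit 6608)))))))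
noncomputable def s109045 : Cert := .r (nat_lit 3773962425919908978067039048378881885645768491231275023412675293626429865204541471935760055792560469727505484597500264544337939673836815150592175795562377636060837445632) (.p (nat_lit 464) (.a (.f (nat_lit 433) (nat_lit 465) (nat_lit 6576) (.f (nat_lit 432) (nat_lit 401) (nat_lit 6544) (.d (nat_lit 431) (nat_lit 399) (nat_lit 7567) (nat_lit 463) (nat_lit 7599)))) (.a (.f (nat_lit 433) (nat_lit 465) (nat_lit 6576) (.f (nat_lit 432) (nat_lit 401) (nat_lit 6544) (.f (nat_lit 527) (nat_lit 559) (nat_lit 5551) (.d (nat_lit 525) (nat_lit 497) (nat_lit 2541) (nat_lit 561) (nat_lit 525))))) (.a (.f (nat_lit 431) (nat_lit 463) (nat_lit 7599) (.f (nat_lit 432) (nat_lit 399) (nat_lit 7567) (.f (nat_lit 527) (nat_lit 559) (nat_lit 5551) (.d (nat_lit 525) (nat_lit 497) (nat_lit 2541) (nat_lit 561) (nat_lit 525))))) (.f (nat_lit 465) (nat_lit 433) (nat_lit 6576) (.f (nat_lit 463)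 (nat_lit 431) (nat_lit 7599) (.f (nat_lit 497) (nat_lit 592) (nat_lit 6608) (.d (nat_lit 462) (nat_lit 461) (nat_lit 461) (nat_lit 498) (nat_lit 462)))))))))
noncomputable def s109063 : Cert := .r (nat_lit 3773962425919908978067039048378881885645768491231275023412675293626429865204541471935760055792560469727505484597500264544337939673836815150592175795562377636060837445632) (.p (nat_lit 464) (.a (.f (nat_lit 433) (nat_lit 465) (nat_lit 6576) (.f (nat_lit 432) (nat_lit 401) (nat_lit 6544) (.d (nat_lit 431) (nat_lit 399) (nat_lit 7567) (nat_lit 463) (nat_lit 7599)))) (.a (.f (nat_lit 433) (nat_lit 465) (nat_lit 6576) (.f (nat_lit 432) (nat_lit 401) (nat_lit 6544) (.f (nat_lit 527) (nat_lit 559) (nat_lit 5551) (.f (nat_lit 400) (nat_lit 495) (nat_lit 5519) (.d (nat_lit 399) (nat_lit 367) (nat_lit 7535) (nat_lit 431) (nat_lit 7567)))))) (.a (.f (nat_lit 431) (nat_lit 463) (nat_lit 7599) (.f (nat_lit 432) (nat_lit 399)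 (nat_lit 7567) (.f (nat_lit 527) (nat_lit 559) (nat_lit 5551) (.f (nat_lit 401) (nat_lit 433) (nat_lit 6544) (.d (nat_lit 400) (nat_lit 369) (nat_lit 6512) (nat_lit 495) (nat_lit 5519)))))) (.a (.f (nat_lit 433) (nat_lit 465) (nat_lit 6576) (.f (nat_lit 432) (nat_lit 401) (nat_lit 6544) (.f (nat_lit 527) (nat_lit 559) (nat_lit 5551) (.f (nat_lit 495) (nat_lit 400) (nat_lit 5519) (.d (nat_lit 525) (nat_lit 524) (nat_lit 2540) (nat_lit 561) (nat_lit 525)))))) (.a (.f (nat_lit 431) (nat_lit 463) (nat_lit 7599) (.f (nat_lit 432) (nat_lit 399) (nat_lit 7567) (.f (nat_lit 527) (nat_lit 559) (nat_lit 5551) (.f (nat_lit 525) (nat_lit 561) (nat_lit 525) (.d (nat_lit 495) (nat_lit 400) (nat_lit 5519) (nat_lit 524) (nat_lit 2540)))))) (.f (nat_lit 463) (nat_lit 431) (nat_lit 7599) (.f (nat_lit 465) (nat_lit 433) (nat_lit 6576) (.f (nat_lit 495) (nat_lit 592) (nat_lit 7631) (.d (nat_lit 494) (nat_lit 466) (nat_lit 1486) (nat_lit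 493) (nat_lit 2509)))))))))))
noncomputable def s109097 : Cert := .r (nat_lit 4717453032125294316178574421874326325093954885348316367260111900657258793138255112583793827655798201532923673547783478224763190270811139418251553991950010913431444520960) (.p (nat_lit 590) (.a (.f (nat_lit 461) (nat_lit 493) (nat_lit 7629) (.f (nat_lit 462) (nat_lit 429) (nat_lit 7597) (.d (nat_lit 589) (nat_lit 557) (nat_lit 5581) (nat_lit 621) (nat_lit 5613)))) (.a (.f (nat_lit 621) (nat_lit 589) (nat_lit 5613) (.f (nat_lit 622) (nat_lit 653) (nat_lit 5645) (.d (nat_lit 623) (nat_lit 591) (nat_lit 4590) (nat_lit 655) (nat_lit 4622)))) (.f (nat_lit 461) (nat_lit 493) (nat_lit 7629) (.f (nat_lit 462) (nat_lit 429) (nat_lit 7597) (.f (nat_lit 495) (nat_lit 497) (nat_lit 3533) (.f (nat_lit 622) (nat_lit 527) (nat_lit 6638) (.d (nat_lit 623) (nat_lit 591) (nat_lit 4590) (nat_lit 655) (nat_lit 4622)))))))))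
noncomputable def s109110 : Cert := .r (nat_lit 4717453032125294316178574421874326325093954885348316367260111900657258793138255112583793827655798201532923673547783478224763190270811139418251553991950010913431444520960) (.p (nat_lit 590) (.a (.f (nat_lit 621) (nat_lit 589) (nat_lit 5613) (.f (nat_lit 622) (nat_lit 653) (nat_lit 5645) (.d (nat_lit 623) (nat_lit 591) (nat_lit 4590) (nat_lit 655) (nat_lit 4622)))) (.a (.f (nat_lit 495) (nat_lit 463) (nat_lit 6606) (.f (nat_lit 493) (nat_lit 461) (nat_lit 7629) (.d (nat_lit 527) (nat_lit 492) (nat_lit 492) (nat_lit 622) (nat_lit 6638)))) (.f (nat_lit 495) (nat_lit 463) (nat_lit 6606) (.f (nat_lit 493) (nat_lit 461) (nat_lit 7629) (.f (nat_lit 492) (nat_lit 527) (nat_lit 492) (.f (nat_lit 523) (nat_lit 524) (nat_lit 1515) (.f (nat_lit 491) (nat_lit 522) (nat_lit 1514) (.d (nat_lit 459) (nat_lit 458) (nat_lit 3530) (nat_lit 460) (nat_lit 3531))))))))))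
noncomputable def s109111 : Cert := .r (nat_lit 3773962425919908978118185776627259102364724580244206260166060325595852752540217899562262146361383509647556579790092516999820544113329941260111195429091836902519095689216) (.p (nat_lit 558) (.a s108217 (.a (.p (nat_lit 590) (.a (.f (nat_lit 461) (nat_lit 493) (nat_lit 7629) (.f (nat_lit 462) (nat_lit 429) (nat_lit 7597) (.d (nat_lit 463) (nat_lit 431) (nat_lit 6574) (nat_lit 495) (nat_lit 6606)))) (.a (.f (nat_lit 461) (nat_lit 493) (nat_lit 7629) (.f (nat_lit 462) (nat_lit 429) (nat_lit 7597) (.d (nat_lit 589) (nat_lit 557) (nat_lit 5581) (nat_lit 621) (nat_lit 5613)))) (.f (nat_lit 621) (nat_lit 589) (nat_lit 5613) (.f (nat_lit 622) (nat_lit 653) (nat_lit 5645) (.d (nat_lit 623) (nat_lit 591) (nat_lit 4590) (nat_lit 655) (nat_lit 4622))))))) (.a s109097 (.a (.p (nat_lit 590) (.a (.f (nat_lit 461) (nat_lit 493) (nat_lit 7629) (.f (nat_lit 462) (nat_lit 429) (nat_lit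 7597) (.d (nat_lit 589) (nat_lit 557) (nat_lit 5581) (nat_lit 621) (nat_lit 5613)))) (.a (.f (nat_lit 621) (nat_lit 589) (nat_lit 5613) (.f (nat_lit 622) (nat_lit 653) (nat_lit 5645) (.d (nat_lit 623) (nat_lit 591) (nat_lit 4590) (nat_lit 655) (nat_lit 4622)))) (.f (nat_lit 461) (nat_lit 493) (nat_lit 7629) (.f (nat_lit 462) (nat_lit 429) (nat_lit 7597) (.f (nat_lit 463) (nat_lit 431) (nat_lit 6574) (.f (nat_lit 464) (nat_lit 497) (nat_lit 461) (.d (nat_lit 433) (nat_lit 432) (nat_lit 2477) (nat_lit 465) (nat_lit 6576))))))))) (.a s109110 (.p (nat_lit 590) (.a (.f (nat_lit 621) (nat_lit 589) (nat_lit 5613) (.f (nat_lit 622) (nat_lit 653) (nat_lit 5645) (.d (nat_lit 623) (nat_lit 591) (nat_lit 4590) (nat_lit 655) (nat_lit 4622)))) (.f (nat_lit 463) (nat_lit 495) (nat_lit 6606) (.d (nat_lit 431) (nat_lit 462) (nat_lit 6574) (nat_lit 464) (nat_lit 7599)))))))))))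
noncomputable def s109181 : Cert := .r (nat_lit 4052261302452797718172567620513327255161541132049253581487394241532755004833254017521042599944697786196543410256721005291123990491362397655426289513921952021566237001857472921600) (.p (nat_lit 622) (.a (.f (nat_lit 655) (nat_lit 623) (nat_lit 4622) (.f (nat_lit 654) (nat_lit 687) (nat_lit 4654) (.d (nat_lit 653) (nat_lit 621) (nat_lit 5645) (nat_lit 685) (nat_lit 5677)))) (.a (.f (nat_lit 653) (nat_lit 621) (nat_lit 5645) (.f (nat_lit 654) (nat_lit 685) (nat_lit 5677) (.f (nat_lit 687) (nat_lit 655) (nat_lit 4654) (.f (nat_lit 686) (nat_lit 719) (nat_lit 4686) (.f (nat_lit 559) (nat_lit 591) (nat_lit 6702) (.d (nat_lit 589) (nat_lit 557) (nat_lit 7725) (nat_lit 561) (nat_lit 1581))))))) (.a (.f (nat_lit 527) (nat_lit 495) (nat_lit 6638) (.f (nat_lit 559) (nat_lit 654) (nat_lit 6670) (.d (nat_lit 561) (nat_lit 562) (nat_lit 3598) (nat_lit 589) (nat_lit 1581)))) (.f (nat_lit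 527) (nat_lit 495) (nat_lit 6638) (.f (nat_lit 623) (nat_lit 655) (nat_lit 4622) (.f (nat_lit 559) (nat_lit 591) (nat_lit 6639) (.d (nat_lit 561) (nat_lit 562) (nat_lit 3598) (nat_lit 589) (nat_lit 1581)))))))))
noncomputable def s109232 : Cert := .r (nat_lit 12156783896979996484061728891224737732985657956668532846687302356490759702062684200359933216897978203121265215659050765405298558710583375146161643766160428784999433700713697378304) (.p (nat_lit 589) (.a (.f (nat_lit 592) (nat_lit 561) (nat_lit 2605) (.f (nat_lit 588) (nat_lit 559) (nat_lit 2604) (.d (nat_lit 620) (nat_lit 619) (nat_lit 1611) (nat_lit 621) (nat_lit 1612)))) (.a (.f (nat_lit 588) (nat_lit 559) (nat_lit 2604) (.f (nat_lit 619) (nat_lit 620) (nat_lit 1611) (.f (nat_lit 587) (nat_lit 618) (nat_lit 1610) (.d (nat_lit 555) (nat_lit 554) (nat_lit 3626) (nat_lit 556) (nat_lit 3627))))) (.a (.f (nat_lit 592) (nat_lit 561) (nat_lit 2605) (.f (nat_lit 621)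 (nat_lit 620) (nat_lit 1612) (.f (nat_lit 558) (nat_lit 494) (nat_lit 5613) (.d (nat_lit 653) (nat_lit 557) (nat_lit 6669) (nat_lit 622) (nat_lit 5645))))) (.f (nat_lit 592) (nat_lit 561) (nat_lit 2605) (.f (nat_lit 588) (nat_lit 559) (nat_lit 2604) (.d (nat_lit 556) (nat_lit 555) (nat_lit 3627) (nat_lit 557) (nat_lit 3628))))))))
noncomputable def s109243 : Cert := .r (nat_lit 4052261302452797718172567620513327255161541132049253581487394241532755004833254017521042599944697786196543410256721005291123990491362397655426289513921952021566237001857472921600) (.p (nat_lit 494) (.a (.f (nat_lit 461) (nat_lit 493) (nat_lit 7629) (.f (nat_lit 462) (nat_lit 429) (nat_lit 7597) (.d (nat_lit 463) (nat_lit 431) (nat_lit 6574) (nat_lit 495) (nat_lit 6606)))) (.a (.f (nat_lit 461) (nat_lit 493) (nat_lit 7629) (.f (nat_lit 462) (nat_lit 429) (nat_lit 7597) (.d (nat_lit 589) (nat_lit 557) (nat_lit 5581) (nat_lit 621) (nat_lit 5613))))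 (.a (.f (nat_lit 495) (nat_lit 463) (nat_lit 6606) (.f (nat_lit 493) (nat_lit 461) (nat_lit 7629) (.d (nat_lit 527) (nat_lit 492) (nat_lit 492) (nat_lit 622) (nat_lit 6638)))) (.a (.f (nat_lit 589) (nat_lit 621) (nat_lit 5613) (.f (nat_lit 462) (nat_lit 557) (nat_lit 5581) (.f (nat_lit 431) (nat_lit 463) (nat_lit 6574) (.f (nat_lit 430) (nat_lit 399) (nat_lit 6542) (.d (nat_lit 429) (nat_lit 397) (nat_lit 7565) (nat_lit 461) (nat_lit 7597)))))) (.f (nat_lit 495) (nat_lit 463) (nat_lit 6606) (.f (nat_lit 527) (nat_lit 622) (nat_lit 6638) (.f (nat_lit 497) (nat_lit 498) (nat_lit 1518) (.d (nat_lit 592) (nat_lit 465) (nat_lit 6608) (nat_lit 624) (nat_lit 7663))))))))))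
noncomputable def s109244 : Cert := .r (nat_lit 4052261302452797718172567620513327255161541132049253581487394241532755004833254017521042599944697786196543410256721005291123990491362397655426289513921952021566237001857472921600) (.p (nat_lit 494) (.a (.f (nat_lit 589) (nat_lit 621) (nat_lit 5613) (.f (nat_lit 559) (nat_lit 561) (nat_lit 1581) (.d (nat_lit 557) (nat_lit 462) (nat_lit 5581) (nat_lit 588) (nat_lit 1580)))) (.a (.f (nat_lit 461) (nat_lit 493) (nat_lit 7629) (.f (nat_lit 462) (nat_lit 429) (nat_lit 7597) (.d (nat_lit 589) (nat_lit 557) (nat_lit 5581) (nat_lit 621) (nat_lit 5613)))) (.a (.f (nat_lit 461) (nat_lit 493) (nat_lit 7629) (.f (nat_lit 462) (nat_lit 429) (nat_lit 7597) (.f (nat_lit 495) (nat_lit 497) (nat_lit 3533) (.f (nat_lit 527) (nat_lit 622) (nat_lit 6638) (.d (nat_lit 430) (nat_lit 398) (nat_lit 4494) (nat_lit 559) (nat_lit 4526)))))) (.f (nat_lit 589) (nat_lit 621) (nat_lit 5613) (.f (nat_lit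 559) (nat_lit 561) (nat_lit 1581) (.d (nat_lit 588) (nat_lit 557) (nat_lit 1580) (nat_lit 587) (nat_lit 2603))))))))
noncomputable def s109251 : Cert := .r (nat_lit 4052261302452797718172567620513327255161541132049253581487394241532755004833254017521042599944697786196543410256721005291123990491362397655426289513921952021566237001857472921600) (.p (nat_lit 494) (.a (.f (nat_lit 461) (nat_lit 493) (nat_lit 7629) (.f (nat_lit 462) (nat_lit 429) (nat_lit 7597) (.d (nat_lit 463) (nat_lit 431) (nat_lit 6574) (nat_lit 495) (nat_lit 6606)))) (.a (.f (nat_lit 461) (nat_lit 493) (nat_lit 7629) (.f (nat_lit 462) (nat_lit 429) (nat_lit 7597) (.f (nat_lit 495) (nat_lit 497) (nat_lit 3533) (.f (nat_lit 527) (nat_lit 622) (nat_lit 6638) (.d (nat_lit 430) (nat_lit 398) (nat_lit 4494) (nat_lit 559) (nat_lit 4526)))))) (.a (.f (nat_lit 589) (nat_lit 621) (nat_lit 5613) (.f (nat_lit 559) (nat_lit 561) (nat_lit 1581) (.f (nat_lit 461)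 (nat_lit 493) (nat_lit 7629) (.f (nat_lit 462) (nat_lit 429) (nat_lit 7597) (.f (nat_lit 431) (nat_lit 463) (nat_lit 6574) (.d (nat_lit 430) (nat_lit 399) (nat_lit 6542) (nat_lit 527) (nat_lit 4526))))))) (.a (.f (nat_lit 495) (nat_lit 463) (nat_lit 6606) (.f (nat_lit 493) (nat_lit 461) (nat_lit 7629) (.d (nat_lit 527) (nat_lit 492) (nat_lit 492) (nat_lit 622) (nat_lit 6638)))) (.f (nat_lit 495) (nat_lit 463) (nat_lit 6606) (.f (nat_lit 527) (nat_lit 622) (nat_lit 6638) (.f (nat_lit 497) (nat_lit 498) (nat_lit 1518) (.d (nat_lit 592) (nat_lit 465) (nat_lit 6608) (nat_lit 624) (nat_lit 7663))))))))))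
noncomputable def s109414 : Cert := .r (nat_lit 3773962425919908978067039048426515988281205384410315508486423558789830105418545548334367797486062846113305130900605521243915148706426947766580436032614501288393727541248) (.f (nat_lit 465) (nat_lit 433) (nat_lit 6576) (.p (nat_lit 466) (.a (.f (nat_lit 467) (nat_lit 495) (nat_lit 1487) (.d (nat_lit 497) (nat_lit 468) (nat_lit 1488) (nat_lit 592) (nat_lit 6608))) (.a (.f (nat_lit 467) (nat_lit 495) (nat_lit 1487) (.f (nat_lit 468) (nat_lit 497) (nat_lit 1488) (.d (nat_lit 500) (nat_lit 499) (nat_lit 464) (nat_lit 501) (nat_lit 465)))) (.a (.f (nat_lit 497) (nat_lit 592) (nat_lit 6608) (.f (nat_lit 467) (nat_lit 468) (nat_lit 1488) (.f (nat_lit 499) (nat_lit 500) (nat_lit 464) (.f (nat_lit 435) (nat_lit 436) (nat_lit 2480) (.f (nat_lit 498) (nat_lit 527) (nat_lit 1519) (.d (nat_lit 403) (nat_lit 371) (nat_lit 5490) (nat_lit 530) (nat_lit 5522))))))) (.a (.f (nat_lit 467)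 (nat_lit 495) (nat_lit 1487) (.f (nat_lit 500) (nat_lit 499) (nat_lit 464) (.f (nat_lit 468) (nat_lit 501) (nat_lit 465) (.d (nat_lit 436) (nat_lit 435) (nat_lit 2480) (nat_lit 437) (nat_lit 2481))))) (.f (nat_lit 497) (nat_lit 592) (nat_lit 6608) (.f (nat_lit 495) (nat_lit 494) (nat_lit 2510) (.f (nat_lit 498) (nat_lit 527) (nat_lit 1518) (.f (nat_lit 499) (nat_lit 500) (nat_lit 3536) (.d (nat_lit 531) (nat_lit 530) (nat_lit 495) (nat_lit 532) (nat_lit 496))))))))))))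
noncomputable def s109462 : Cert := .r (nat_lit 3773962425919908978067039048378881885645768491231275023412675293626429865204541471935760055792560469727505484597500264544337939673836815150592175795562377636060837445632) (.p (nat_lit 464) (.a (.f (nat_lit 465) (nat_lit 433) (nat_lit 6576) (.f (nat_lit 592) (nat_lit 497) (nat_lit 6608) (.d (nat_lit 591) (nat_lit 559) (nat_lit 5583) (nat_lit 623) (nat_lit 5615)))) (.a (.f (nat_lit 433) (nat_lit 465) (nat_lit 6576) (.f (nat_lit 432) (nat_lit 401) (nat_lit 6544) (.f (nat_lit 527) (nat_lit 559) (nat_lit 5551) (.f (nat_lit 400) (nat_lit 495) (nat_lit 5519) (.d (nat_lit 399) (nat_lit 367) (nat_lit 7535) (nat_lit 431) (nat_lit 7567)))))) (.a s109414 (.a (.f (nat_lit 559) (nat_lit 591) (nat_lit 5583) (.f (nat_lit 432) (nat_lit 527) (nat_lit 5551) (.f (nat_lit 401) (nat_lit 433) (nat_lit 6544) (.f (nat_lit 400) (nat_lit 369) (nat_lit 6512) (.d (nat_lit 399) (nat_lit 367) (nat_lit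 7535) (nat_lit 431) (nat_lit 7567)))))) (.p (nat_lit 497) (.a (.f (nat_lit 559) (nat_lit 591) (nat_lit 5583) (.f (nat_lit 527) (nat_lit 432) (nat_lit 5551) (.d (nat_lit 498) (nat_lit 495) (nat_lit 1518) (nat_lit 499) (nat_lit 1519)))) (.a (.f (nat_lit 592) (nat_lit 465) (nat_lit 6608) (.d (nat_lit 591) (nat_lit 559) (nat_lit 5583) (nat_lit 623) (nat_lit 5615))) (.p (nat_lit 495) (.a (.f (nat_lit 465) (nat_lit 592) (nat_lit 6608) (.d (nat_lit 494) (nat_lit 466) (nat_lit 2510) (nat_lit 493) (nat_lit 2509))) (.a (.f (nat_lit 498) (nat_lit 527) (nat_lit 1518) (.f (nat_lit 466) (nat_lit 467) (nat_lit 2511) (.f (nat_lit 465) (nat_lit 494) (nat_lit 2510) (.f (nat_lit 499) (nat_lit 500) (nat_lit 3536) (.d (nat_lit 531) (nat_lit 530) (nat_lit 495) (nat_lit 532) (nat_lit 496)))))) (.a (.f (nat_lit 498) (nat_lit 527) (nat_lit 1518) (.f (nat_lit 531) (nat_lit 530) (nat_lit 495) (.f (nat_lit 499) (nat_lit 532) (nat_lit 496) (.d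 (nat_lit 467) (nat_lit 466) (nat_lit 2511) (nat_lit 468) (nat_lit 2512))))) (.f (nat_lit 527) (nat_lit 498) (nat_lit 1518) (.d (nat_lit 592) (nat_lit 465) (nat_lit 6608) (nat_lit 624) (nat_lit 7663)))))))))))))))
noncomputable def s109463 : Cert := .r (nat_lit 3773962425919908978067039048378881885645768491231275023412675293626429865204541471935760055792560469727505484597500264544337939673836815150592175795562377636060837445632) (.p (nat_lit 464) (.a (.f (nat_lit 433) (nat_lit 465) (nat_lit 6576) (.f (nat_lit 432) (nat_lit 401) (nat_lit 6544) (.d (nat_lit 431) (nat_lit 399) (nat_lit 7567) (nat_lit 463) (nat_lit 7599)))) (.a (.f (nat_lit 465) (nat_lit 433) (nat_lit 6576) (.f (nat_lit 592) (nat_lit 497) (nat_lit 6608) (.d (nat_lit 591) (nat_lit 559) (nat_lit 5583) (nat_lit 623) (nat_lit 5615)))) (.a (.f (nat_lit 559) (nat_lit 591) (nat_lit 5583) (.f (nat_lit 432) (nat_lit 527) (nat_lit 5551) (.f (nat_lit 401) (nat_lit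 433) (nat_lit 6544) (.f (nat_lit 400) (nat_lit 369) (nat_lit 6512) (.d (nat_lit 399) (nat_lit 367) (nat_lit 7535) (nat_lit 431) (nat_lit 7567)))))) (.f (nat_lit 559) (nat_lit 591) (nat_lit 5583) (.f (nat_lit 432) (nat_lit 527) (nat_lit 5551) (.d (nat_lit 431) (nat_lit 399) (nat_lit 7567) (nat_lit 463) (nat_lit 7599))))))))
noncomputable def s109472 : Cert := .r (nat_lit 3773962425919908978067039048378881885645768491231275023412675293626429865204541471935760055792560469727505484597500264544337939673836815150592175795562377636060837445632) (.p (nat_lit 464) (.a (.f (nat_lit 463) (nat_lit 431) (nat_lit 7599) (.f (nat_lit 592) (nat_lit 495) (nat_lit 7631) (.d (nat_lit 591) (nat_lit 559) (nat_lit 5583) (nat_lit 623) (nat_lit 5615)))) (.a (.f (nat_lit 431) (nat_lit 463) (nat_lit 7599) (.f (nat_lit 432) (nat_lit 399) (nat_lit 7567) (.f (nat_lit 527) (nat_lit 559) (nat_lit 5551) (.f (nat_lit 401) (nat_lit 433) (nat_lit 6544)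 (.d (nat_lit 400) (nat_lit 369) (nat_lit 6512) (nat_lit 495) (nat_lit 5519)))))) (.a (.p (nat_lit 432) (.a (.d (nat_lit 431) (nat_lit 399) (nat_lit 7567) (nat_lit 463) (nat_lit 7599)) (.a (.f (nat_lit 399) (nat_lit 431) (nat_lit 7567) (.f (nat_lit 400) (nat_lit 367) (nat_lit 7535) (.d (nat_lit 401) (nat_lit 369) (nat_lit 6512) (nat_lit 433) (nat_lit 6544)))) (.f (nat_lit 401) (nat_lit 433) (nat_lit 6544) (.f (nat_lit 400) (nat_lit 369) (nat_lit 6512) (.f (nat_lit 495) (nat_lit 527) (nat_lit 5519) (.d (nat_lit 463) (nat_lit 368) (nat_lit 5487) (nat_lit 592) (nat_lit 7631)))))))) (.a (.f (nat_lit 559) (nat_lit 591) (nat_lit 5583) (.f (nat_lit 432) (nat_lit 527) (nat_lit 5551) (.f (nat_lit 401) (nat_lit 433) (nat_lit 6544) (.f (nat_lit 400) (nat_lit 369) (nat_lit 6512) (.d (nat_lit 399) (nat_lit 367) (nat_lit 7535) (nat_lit 431) (nat_lit 7567)))))) (.p (nat_lit 592) (.a (.d (nat_lit 591) (nat_lit 559) (nat_lit 5583)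 (nat_lit 623) (nat_lit 5615)) (.a (.f (nat_lit 495) (nat_lit 463) (nat_lit 7631) (.f (nat_lit 527) (nat_lit 624) (nat_lit 7663) (.d (nat_lit 432) (nat_lit 400) (nat_lit 5519) (nat_lit 559) (nat_lit 5551)))) (.f (nat_lit 495) (nat_lit 463) (nat_lit 7631) (.f (nat_lit 624) (nat_lit 527) (nat_lit 7663) (.d (nat_lit 623) (nat_lit 591) (nat_lit 5615) (nat_lit 655) (nat_lit 5647))))))))))))
noncomputable def s109516 : Cert := .r (nat_lit 4717453032125294315973987508880817458218130529296591420246571772779567243795549402077785465380506041852719292777414468402832772512838634980175475457832173847598411546624) (.p (nat_lit 496) (.a (.p (nat_lit 464) (.a (.f (nat_lit 463) (nat_lit 431) (nat_lit 7599) (.f (nat_lit 465) (nat_lit 433) (nat_lit 6576) (.d (nat_lit 495) (nat_lit 493) (nat_lit 2509) (nat_lit 592) (nat_lit 7631)))) (.a (.f (nat_lit 463) (nat_lit 431) (nat_lit 7599) (.f (nat_lit 465) (nat_lit 433) (nat_lit 6576) (.d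 (nat_lit 493) (nat_lit 462) (nat_lit 1485) (nat_lit 495) (nat_lit 2509)))) (.a (.f (nat_lit 465) (nat_lit 433) (nat_lit 6576) (.f (nat_lit 495) (nat_lit 493) (nat_lit 2509) (.d (nat_lit 497) (nat_lit 525) (nat_lit 1517) (nat_lit 592) (nat_lit 6608)))) (.a (.f (nat_lit 431) (nat_lit 463) (nat_lit 7599) (.f (nat_lit 432) (nat_lit 399) (nat_lit 7567) (.d (nat_lit 433) (nat_lit 401) (nat_lit 6544) (nat_lit 465) (nat_lit 6576)))) (.f (nat_lit 463) (nat_lit 431) (nat_lit 7599) (.f (nat_lit 495) (nat_lit 592) (nat_lit 7631) (.f (nat_lit 497) (nat_lit 525) (nat_lit 1517) (.d (nat_lit 462) (nat_lit 461) (nat_lit 461) (nat_lit 498) (nat_lit 3534)))))))))) (.a s108213 (.a (.p (nat_lit 464) (.a (.f (nat_lit 463) (nat_lit 431) (nat_lit 7599) (.f (nat_lit 465) (nat_lit 433) (nat_lit 6576) (.d (nat_lit 495) (nat_lit 493) (nat_lit 2509) (nat_lit 592) (nat_lit 7631)))) (.a (.f (nat_lit 463) (nat_lit 431) (nat_lit 7599) (.f (nat_lit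 465) (nat_lit 433) (nat_lit 6576) (.d (nat_lit 493) (nat_lit 462) (nat_lit 1485) (nat_lit 495) (nat_lit 2509)))) (.a (.f (nat_lit 465) (nat_lit 433) (nat_lit 6576) (.f (nat_lit 495) (nat_lit 493) (nat_lit 2509) (.d (nat_lit 497) (nat_lit 466) (nat_lit 2510) (nat_lit 592) (nat_lit 6608)))) (.a (.f (nat_lit 431) (nat_lit 463) (nat_lit 7599) (.f (nat_lit 432) (nat_lit 399) (nat_lit 7567) (.d (nat_lit 433) (nat_lit 401) (nat_lit 6544) (nat_lit 465) (nat_lit 6576)))) (.f (nat_lit 431) (nat_lit 463) (nat_lit 7599) (.f (nat_lit 399) (nat_lit 432) (nat_lit 7567) (.f (nat_lit 462) (nat_lit 430) (nat_lit 6542) (.f (nat_lit 461) (nat_lit 429) (nat_lit 7597) (.f (nat_lit 495) (nat_lit 497) (nat_lit 3533) (.d (nat_lit 460) (nat_lit 459) (nat_lit 459) (nat_lit 493) (nat_lit 3532)))))))))))) (.a s108378 (.a s108264 (.a s108281 (.a (.p (nat_lit 462) (.a (.f (nat_lit 461) (nat_lit 429) (nat_lit 7597) (.f (nat_lit 495) (nat_lit 497)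 (nat_lit 3533) (.d (nat_lit 460) (nat_lit 459) (nat_lit 459) (nat_lit 493) (nat_lit 3532)))) (.a (.f (nat_lit 557) (nat_lit 589) (nat_lit 5581) (.f (nat_lit 430) (nat_lit 525) (nat_lit 5549) (.d (nat_lit 429) (nat_lit 397) (nat_lit 7565) (nat_lit 461) (nat_lit 7597)))) (.f (nat_lit 557) (nat_lit 589) (nat_lit 5581) (.f (nat_lit 525) (nat_lit 430) (nat_lit 5549) (.f (nat_lit 495) (nat_lit 497) (nat_lit 1517) (.d (nat_lit 524) (nat_lit 493) (nat_lit 1516) (nat_lit 523) (nat_lit 2539)))))))) (.a (.p (nat_lit 464) (.a (.f (nat_lit 463) (nat_lit 431) (nat_lit 7599) (.f (nat_lit 465) (nat_lit 433) (nat_lit 6576) (.d (nat_lit 495) (nat_lit 493) (nat_lit 2509) (nat_lit 592) (nat_lit 7631)))) (.a (.f (nat_lit 431) (nat_lit 463) (nat_lit 7599) (.f (nat_lit 432) (nat_lit 399) (nat_lit 7567) (.d (nat_lit 433) (nat_lit 401) (nat_lit 6544) (nat_lit 465) (nat_lit 6576)))) (.a (.f (nat_lit 465) (nat_lit 433) (nat_lit 6576) (.f (nat_lit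 495) (nat_lit 493) (nat_lit 2509) (.d (nat_lit 497) (nat_lit 525) (nat_lit 1517) (nat_lit 592) (nat_lit 6608)))) (.f (nat_lit 463) (nat_lit 431) (nat_lit 7599) (.f (nat_lit 495) (nat_lit 592) (nat_lit 7631) (.f (nat_lit 525) (nat_lit 497) (nat_lit 1517) (.d (nat_lit 493) (nat_lit 492) (nat_lit 2508) (nat_lit 524) (nat_lit 1516))))))))) (.a (.p (nat_lit 464) (.a (.f (nat_lit 431) (nat_lit 463) (nat_lit 7599) (.f (nat_lit 432) (nat_lit 399) (nat_lit 7567) (.d (nat_lit 433) (nat_lit 401) (nat_lit 6544) (nat_lit 465) (nat_lit 6576)))) (.a (.f (nat_lit 465) (nat_lit 433) (nat_lit 6576) (.f (nat_lit 497) (nat_lit 592) (nat_lit 6608) (.d (nat_lit 495) (nat_lit 466) (nat_lit 2510) (nat_lit 525) (nat_lit 1517)))) (.f (nat_lit 463) (nat_lit 431) (nat_lit 7599) (.f (nat_lit 495) (nat_lit 592) (nat_lit 7631) (.f (nat_lit 497) (nat_lit 525) (nat_lit 1517) (.d (nat_lit 462) (nat_lit 461) (nat_lit 461) (nat_lit 498) (nat_lit 3534))))))))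 s108869))))))))))
noncomputable def s109531 : Cert := .r (nat_lit 4717453032125294315973987508880817458218130529296591420246571772779567243795549402077785465380506041852719292777414468402832772512838634980175475457832173847598411546624) (.p (nat_lit 463) (.a (.f (nat_lit 495) (nat_lit 590) (nat_lit 6606) (.d (nat_lit 431) (nat_lit 399) (nat_lit 5518) (nat_lit 462) (nat_lit 6574))) (.a (.f (nat_lit 431) (nat_lit 462) (nat_lit 6574) (.f (nat_lit 495) (nat_lit 399) (nat_lit 5518) (.d (nat_lit 496) (nat_lit 464) (nat_lit 7599) (nat_lit 592) (nat_lit 7631)))) (.a (.f (nat_lit 462) (nat_lit 431) (nat_lit 6574) (.f (nat_lit 461) (nat_lit 429) (nat_lit 7597) (.f (nat_lit 493) (nat_lit 590) (nat_lit 7629) (.d (nat_lit 492) (nat_lit 464) (nat_lit 1484) (nat_lit 491) (nat_lit 2507))))) (.f (nat_lit 590) (nat_lit 495) (nat_lit 6606) (.f (nat_lit 493) (nat_lit 461) (nat_lit 7629) (.f (nat_lit 622) (nat_lit 525) (nat_lit 7661)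 (.d (nat_lit 621) (nat_lit 589) (nat_lit 5613) (nat_lit 653) (nat_lit 5645)))))))))
noncomputable def s109547 : Cert := .r (nat_lit 4717453032125294315973987508880817458218130529296591420246571772779567243795549402077785465380506041852719292777414468402832772512838634980175475457832173847598411546624) (.p (nat_lit 462) (.a (.f (nat_lit 431) (nat_lit 463) (nat_lit 6574) (.f (nat_lit 430) (nat_lit 399) (nat_lit 6542) (.d (nat_lit 429) (nat_lit 397) (nat_lit 7565) (nat_lit 461) (nat_lit 7597)))) (.a (.f (nat_lit 429) (nat_lit 461) (nat_lit 7597) (.f (nat_lit 430) (nat_lit 397) (nat_lit 7565) (.f (nat_lit 525) (nat_lit 557) (nat_lit 5549) (.f (nat_lit 399) (nat_lit 431) (nat_lit 6542) (.d (nat_lit 398) (nat_lit 367) (nat_lit 6510) (nat_lit 493) (nat_lit 5517)))))) (.a (.f (nat_lit 429) (nat_lit 461) (nat_lit 7597) (.f (nat_lit 430) (nat_lit 397) (nat_lit 7565) (.f (nat_lit 525) (nat_lit 557) (nat_lit 5549) (.f (nat_lit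 493) (nat_lit 398) (nat_lit 5517) (.f (nat_lit 590) (nat_lit 622) (nat_lit 7661) (.f (nat_lit 495) (nat_lit 463) (nat_lit 6606) (.d (nat_lit 524) (nat_lit 496) (nat_lit 1516) (nat_lit 523) (nat_lit 2539)))))))) (.f (nat_lit 463) (nat_lit 431) (nat_lit 6574) (.f (nat_lit 495) (nat_lit 590) (nat_lit 6606) (.f (nat_lit 496) (nat_lit 592) (nat_lit 7631) (.d (nat_lit 497) (nat_lit 498) (nat_lit 3534) (nat_lit 525) (nat_lit 1517)))))))))
noncomputable def s109559 : Cert := .r (nat_lit 4717453032125294315973987508880817458218130529296591420246571772779567243795549402077785465380506041852719292777414468402832772512838634980175475457832173847598411546624) (.p (nat_lit 590) (.a (.f (nat_lit 493) (nat_lit 461) (nat_lit 7629) (.f (nat_lit 525) (nat_lit 622) (nat_lit 7661) (.f (nat_lit 495) (nat_lit 463) (nat_lit 6606) (.d (nat_lit 524) (nat_lit 496) (nat_lit 1516) (nat_lit 523) (nat_lit 2539))))) (.a (.f (nat_lit 621) (nat_lit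 589) (nat_lit 5613) (.f (nat_lit 622) (nat_lit 653) (nat_lit 5645) (.d (nat_lit 623) (nat_lit 591) (nat_lit 4590) (nat_lit 655) (nat_lit 4622)))) (.f (nat_lit 591) (nat_lit 623) (nat_lit 4590) (.f (nat_lit 589) (nat_lit 621) (nat_lit 5613) (.f (nat_lit 592) (nat_lit 561) (nat_lit 2605) (.f (nat_lit 556) (nat_lit 557) (nat_lit 3628) (.f (nat_lit 588) (nat_lit 555) (nat_lit 3627) (.f (nat_lit 619) (nat_lit 620) (nat_lit 1611) (.f (nat_lit 587) (nat_lit 618) (nat_lit 1610) (.f (nat_lit 495) (nat_lit 463) (nat_lit 6606) (.f (nat_lit 493) (nat_lit 461) (nat_lit 7629) (.f (nat_lit 524) (nat_lit 492) (nat_lit 5611) (.d (nat_lit 525) (nat_lit 496) (nat_lit 1516) (nat_lit 523) (nat_lit 2539)))))))))))))))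
noncomputable def s109600 : Cert := .r (nat_lit 3773962425919908978118185776639167628023583803538966381434497391886702812593718918661914081784759103744006491365868831174714846371477474414108260488354867815602318213120) (.p (nat_lit 464) (.a (.f (nat_lit 433) (nat_lit 465) (nat_lit 6576) (.f (nat_lit 432) (nat_lit 401) (nat_lit 6544) (.f (nat_lit 431) (nat_lit 399) (nat_lit 7567) (.f (nat_lit 430) (nat_lit 461) (nat_lit 1453) (.d (nat_lit 397) (nat_lit 398) (nat_lit 3469) (nat_lit 429) (nat_lit 7565)))))) (.a (.f (nat_lit 463) (nat_lit 431) (nat_lit 7599) (.f (nat_lit 461) (nat_lit 497) (nat_lit 461) (.f (nat_lit 493) (nat_lit 492) (nat_lit 1484) (.d (nat_lit 429) (nat_lit 397) (nat_lit 4493) (nat_lit 428) (nat_lit 3500))))) (.a (.f (nat_lit 465) (nat_lit 433) (nat_lit 6576) (.f (nat_lit 463) (nat_lit 493) (nat_lit 1485) (.d (nat_lit 497) (nat_lit 461) (nat_lit 461) (nat_lit 498) (nat_lit 462)))) (.f (nat_lit 431)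 (nat_lit 463) (nat_lit 7599) (.d (nat_lit 399) (nat_lit 430) (nat_lit 6542) (nat_lit 432) (nat_lit 7567)))))))
noncomputable def s109622 : Cert := .r (nat_lit 3773962425919908978118185776639167628023583803538966381434497391886702812593718918661914081784759103744006491365868831174714846371477474414108260488354867815602318213120) (.p (nat_lit 558) (.a (.f (nat_lit 431) (nat_lit 463) (nat_lit 6574) (.f (nat_lit 430) (nat_lit 399) (nat_lit 6542) (.d (nat_lit 429) (nat_lit 397) (nat_lit 7565) (nat_lit 461) (nat_lit 7597)))) (.a (.f (nat_lit 557) (nat_lit 589) (nat_lit 5581) (.f (nat_lit 430) (nat_lit 525) (nat_lit 5549) (.d (nat_lit 429) (nat_lit 397) (nat_lit 7565) (nat_lit 461) (nat_lit 7597)))) (.a (.f (nat_lit 557) (nat_lit 589) (nat_lit 5581) (.f (nat_lit 430) (nat_lit 525) (nat_lit 5549) (.f (nat_lit 399) (nat_lit 431) (nat_lit 6542) (.f (nat_lit 398) (nat_lit 367) (nat_lit 6510) (.d (nat_lit 397) (nat_lit 365)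 (nat_lit 7533) (nat_lit 429) (nat_lit 7565)))))) (.a (.f (nat_lit 431) (nat_lit 463) (nat_lit 6574) (.f (nat_lit 430) (nat_lit 399) (nat_lit 6542) (.d (nat_lit 557) (nat_lit 525) (nat_lit 5549) (nat_lit 589) (nat_lit 5581)))) (.f (nat_lit 463) (nat_lit 431) (nat_lit 6574) (.f (nat_lit 461) (nat_lit 429) (nat_lit 7597) (.f (nat_lit 464) (nat_lit 497) (nat_lit 461) (.d (nat_lit 433) (nat_lit 432) (nat_lit 2477) (nat_lit 465) (nat_lit 6576))))))))))
noncomputable def s109643 : Cert := .r (nat_lit 3773962425919908978118185776639167628023583803538966381434497391886702812593718918661914081784759103744006491365868831174714846371477474414108260488354867815602318213120) (.p (nat_lit 464) (.a (.f (nat_lit 465) (nat_lit 433) (nat_lit 6576) (.f (nat_lit 463) (nat_lit 493) (nat_lit 1485) (.d (nat_lit 497) (nat_lit 461) (nat_lit 461) (nat_lit 498) (nat_lit 462)))) (.a (.f (nat_lit 433) (nat_lit 465) (nat_lit 6576) (.f (nat_lit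 432) (nat_lit 401) (nat_lit 6544) (.f (nat_lit 431) (nat_lit 399) (nat_lit 7567) (.f (nat_lit 430) (nat_lit 461) (nat_lit 1453) (.f (nat_lit 398) (nat_lit 397) (nat_lit 3469) (.d (nat_lit 525) (nat_lit 493) (nat_lit 5517) (nat_lit 557) (nat_lit 5549))))))) (.f (nat_lit 431) (nat_lit 463) (nat_lit 7599) (.d (nat_lit 399) (nat_lit 430) (nat_lit 6542) (nat_lit 432) (nat_lit 7567))))))
noncomputable def s109681 : Cert := .r (nat_lit 3773962425919908978118185776627259102364724580244206260166060325595852752540217899562262146361383509647556579790092516999820544113329941260111195429091836902519095689216) (.p (nat_lit 558) (.a s108284 (.a (.p (nat_lit 590) (.a (.f (nat_lit 495) (nat_lit 463) (nat_lit 6606) (.f (nat_lit 497) (nat_lit 525) (nat_lit 1517) (.f (nat_lit 462) (nat_lit 461) (nat_lit 3533) (.d (nat_lit 589) (nat_lit 557) (nat_lit 5581) (nat_lit 621) (nat_lit 5613))))) (.a (.f (nat_lit 463) (nat_lit 495) (nat_lit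 6606) (.d (nat_lit 431) (nat_lit 462) (nat_lit 6574) (nat_lit 464) (nat_lit 7599))) (.a (.f (nat_lit 589) (nat_lit 621) (nat_lit 5613) (.f (nat_lit 462) (nat_lit 557) (nat_lit 5581) (.f (nat_lit 461) (nat_lit 429) (nat_lit 7597) (.f (nat_lit 495) (nat_lit 497) (nat_lit 3533) (.f (nat_lit 527) (nat_lit 622) (nat_lit 6638) (.d (nat_lit 525) (nat_lit 524) (nat_lit 2540) (nat_lit 561) (nat_lit 525))))))) (.a (.f (nat_lit 589) (nat_lit 621) (nat_lit 5613) (.f (nat_lit 462) (nat_lit 557) (nat_lit 5581) (.f (nat_lit 431) (nat_lit 463) (nat_lit 6574) (.f (nat_lit 430) (nat_lit 399) (nat_lit 6542) (.d (nat_lit 429) (nat_lit 397) (nat_lit 7565) (nat_lit 461) (nat_lit 7597)))))) (.f (nat_lit 495) (nat_lit 463) (nat_lit 6606) (.f (nat_lit 497) (nat_lit 525) (nat_lit 1517) (.f (nat_lit 465) (nat_lit 466) (nat_lit 2510) (.d (nat_lit 433) (nat_lit 401) (nat_lit 5520) (nat_lit 464) (nat_lit 6576)))))))))) (.a (.p (nat_lit 462) (.a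 (.f (nat_lit 431) (nat_lit 463) (nat_lit 6574) (.f (nat_lit 430) (nat_lit 399) (nat_lit 6542) (.d (nat_lit 429) (nat_lit 397) (nat_lit 7565) (nat_lit 461) (nat_lit 7597)))) (.a (.f (nat_lit 557) (nat_lit 589) (nat_lit 5581) (.f (nat_lit 430) (nat_lit 525) (nat_lit 5549) (.d (nat_lit 429) (nat_lit 397) (nat_lit 7565) (nat_lit 461) (nat_lit 7597)))) (.a (.f (nat_lit 557) (nat_lit 589) (nat_lit 5581) (.f (nat_lit 430) (nat_lit 525) (nat_lit 5549) (.f (nat_lit 399) (nat_lit 431) (nat_lit 6542) (.f (nat_lit 398) (nat_lit 367) (nat_lit 6510) (.d (nat_lit 397) (nat_lit 365) (nat_lit 7533) (nat_lit 429) (nat_lit 7565)))))) (.a (.f (nat_lit 431) (nat_lit 463) (nat_lit 6574) (.f (nat_lit 430) (nat_lit 399) (nat_lit 6542) (.d (nat_lit 557) (nat_lit 525) (nat_lit 5549) (nat_lit 589) (nat_lit 5581)))) (.f (nat_lit 463) (nat_lit 431) (nat_lit 6574) (.f (nat_lit 461) (nat_lit 429) (nat_lit 7597) (.d (nat_lit 495) (nat_lit 460)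 (nat_lit 460) (nat_lit 497) (nat_lit 3533))))))))) (.a (.p (nat_lit 590) (.a (.f (nat_lit 621) (nat_lit 589) (nat_lit 5613) (.f (nat_lit 622) (nat_lit 653) (nat_lit 5645) (.d (nat_lit 623) (nat_lit 591) (nat_lit 4590) (nat_lit 655) (nat_lit 4622)))) (.f (nat_lit 463) (nat_lit 495) (nat_lit 6606) (.d (nat_lit 431) (nat_lit 462) (nat_lit 6574) (nat_lit 464) (nat_lit 7599))))) (.a (.p (nat_lit 590) (.a (.f (nat_lit 621) (nat_lit 589) (nat_lit 5613) (.f (nat_lit 622) (nat_lit 653) (nat_lit 5645) (.d (nat_lit 623) (nat_lit 591) (nat_lit 4590) (nat_lit 655) (nat_lit 4622)))) (.a (.f (nat_lit 589) (nat_lit 621) (nat_lit 5613) (.f (nat_lit 462) (nat_lit 557) (nat_lit 5581) (.f (nat_lit 461) (nat_lit 429) (nat_lit 7597) (.f (nat_lit 495) (nat_lit 497) (nat_lit 3533) (.f (nat_lit 527) (nat_lit 622) (nat_lit 6638) (.d (nat_lit 525) (nat_lit 524) (nat_lit 2540) (nat_lit 561) (nat_lit 525))))))) (.a (.f (nat_lit 623) (nat_lit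 591) (nat_lit 4590) (.f (nat_lit 622) (nat_lit 655) (nat_lit 4622) (.f (nat_lit 527) (nat_lit 495) (nat_lit 6638) (.d (nat_lit 525) (nat_lit 497) (nat_lit 2541) (nat_lit 561) (nat_lit 525))))) (.f (nat_lit 589) (nat_lit 621) (nat_lit 5613) (.f (nat_lit 462) (nat_lit 557) (nat_lit 5581) (.f (nat_lit 429) (nat_lit 461) (nat_lit 7597) (.f (nat_lit 430) (nat_lit 397) (nat_lit 7565) (.f (nat_lit 399) (nat_lit 431) (nat_lit 6542) (.f (nat_lit 398) (nat_lit 367) (nat_lit 6510) (.f (nat_lit 527) (nat_lit 495) (nat_lit 4494) (.d (nat_lit 525) (nat_lit 497) (nat_lit 2541) (nat_lit 561) (nat_lit 525))))))))))))) (.a (.p (nat_lit 590) (.a (.f (nat_lit 495) (nat_lit 463) (nat_lit 6606) (.f (nat_lit 497) (nat_lit 525) (nat_lit 1517) (.f (nat_lit 465) (nat_lit 466) (nat_lit 2510) (.d (nat_lit 433) (nat_lit 401) (nat_lit 5520) (nat_lit 464) (nat_lit 6576))))) (.a (.f (nat_lit 463) (nat_lit 495) (nat_lit 6606) (.d (nat_lit 431) (nat_lit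 462) (nat_lit 6574) (nat_lit 464) (nat_lit 7599))) (.a (.f (nat_lit 623) (nat_lit 591) (nat_lit 4590) (.f (nat_lit 622) (nat_lit 655) (nat_lit 4622) (.f (nat_lit 527) (nat_lit 495) (nat_lit 6638) (.d (nat_lit 525) (nat_lit 497) (nat_lit 2541) (nat_lit 561) (nat_lit 525))))) (.f (nat_lit 623) (nat_lit 591) (nat_lit 4590) (.f (nat_lit 622) (nat_lit 655) (nat_lit 4622) (.f (nat_lit 653) (nat_lit 621) (nat_lit 5645) (.f (nat_lit 654) (nat_lit 685) (nat_lit 5677) (.f (nat_lit 525) (nat_lit 557) (nat_lit 7693) (.d (nat_lit 527) (nat_lit 497) (nat_lit 2541) (nat_lit 561) (nat_lit 525))))))))))) (.a (.p (nat_lit 462) (.a (.f (nat_lit 431) (nat_lit 463) (nat_lit 6574) (.f (nat_lit 430) (nat_lit 399) (nat_lit 6542) (.d (nat_lit 429) (nat_lit 397) (nat_lit 7565) (nat_lit 461) (nat_lit 7597)))) (.a (.f (nat_lit 557) (nat_lit 589) (nat_lit 5581) (.f (nat_lit 430) (nat_lit 525) (nat_lit 5549) (.d (nat_lit 429) (nat_lit 397) (nat_lit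 7565) (nat_lit 461) (nat_lit 7597)))) (.a (.f (nat_lit 557) (nat_lit 589) (nat_lit 5581) (.f (nat_lit 430) (nat_lit 525) (nat_lit 5549) (.f (nat_lit 399) (nat_lit 431) (nat_lit 6542) (.f (nat_lit 398) (nat_lit 367) (nat_lit 6510) (.d (nat_lit 397) (nat_lit 365) (nat_lit 7533) (nat_lit 429) (nat_lit 7565)))))) (.a (.f (nat_lit 431) (nat_lit 463) (nat_lit 6574) (.f (nat_lit 430) (nat_lit 399) (nat_lit 6542) (.d (nat_lit 557) (nat_lit 525) (nat_lit 5549) (nat_lit 589) (nat_lit 5581)))) (.f (nat_lit 463) (nat_lit 431) (nat_lit 6574) (.f (nat_lit 461) (nat_lit 429) (nat_lit 7597) (.f (nat_lit 464) (nat_lit 497) (nat_lit 461) (.d (nat_lit 433) (nat_lit 432) (nat_lit 2477) (nat_lit 465) (nat_lit 6576)))))))))) (.p (nat_lit 590) (.a (.f (nat_lit 621) (nat_lit 589) (nat_lit 5613) (.f (nat_lit 622) (nat_lit 653) (nat_lit 5645) (.d (nat_lit 623) (nat_lit 591) (nat_lit 4590) (nat_lit 655) (nat_lit 4622)))) (.f (nat_lit 495)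 (nat_lit 463) (nat_lit 6606) (.f (nat_lit 497) (nat_lit 525) (nat_lit 1517) (.f (nat_lit 465) (nat_lit 466) (nat_lit 2510) (.d (nat_lit 433) (nat_lit 401) (nat_lit 5520) (nat_lit 464) (nat_lit 6576)))))))))))))))
noncomputable def s109690 : Cert := .r (nat_lit 3773962425919908978118185776627259102364724580244206260166060325595852752540217899562262146361383509647556579790092516999820544113329941260111195429091836902519095689216) (.p (nat_lit 558) (.a (.p (nat_lit 590) (.a (.f (nat_lit 461) (nat_lit 493) (nat_lit 7629) (.f (nat_lit 462) (nat_lit 429) (nat_lit 7597) (.d (nat_lit 463) (nat_lit 431) (nat_lit 6574) (nat_lit 495) (nat_lit 6606)))) (.a (.f (nat_lit 461) (nat_lit 493) (nat_lit 7629) (.f (nat_lit 462) (nat_lit 429) (nat_lit 7597) (.d (nat_lit 589) (nat_lit 557) (nat_lit 5581) (nat_lit 621) (nat_lit 5613)))) (.f (nat_lit 621) (nat_lit 589) (nat_lit 5613) (.f (nat_lit 622) (nat_lit 653) (nat_lit 5645) (.d (nat_lit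 623) (nat_lit 591) (nat_lit 4590) (nat_lit 655) (nat_lit 4622))))))) (.a (.p (nat_lit 590) (.a (.f (nat_lit 461) (nat_lit 493) (nat_lit 7629) (.f (nat_lit 462) (nat_lit 429) (nat_lit 7597) (.d (nat_lit 463) (nat_lit 431) (nat_lit 6574) (nat_lit 495) (nat_lit 6606)))) (.a (.f (nat_lit 493) (nat_lit 461) (nat_lit 7629) (.f (nat_lit 622) (nat_lit 525) (nat_lit 7661) (.f (nat_lit 655) (nat_lit 623) (nat_lit 4622) (.f (nat_lit 654) (nat_lit 687) (nat_lit 4654) (.d (nat_lit 653) (nat_lit 621) (nat_lit 5645) (nat_lit 685) (nat_lit 5677)))))) (.f (nat_lit 463) (nat_lit 495) (nat_lit 6606) (.d (nat_lit 431) (nat_lit 462) (nat_lit 6574) (nat_lit 464) (nat_lit 7599)))))) (.a (.p (nat_lit 462) (.a (.f (nat_lit 431) (nat_lit 463) (nat_lit 6574) (.f (nat_lit 430) (nat_lit 399) (nat_lit 6542) (.d (nat_lit 429) (nat_lit 397) (nat_lit 7565) (nat_lit 461) (nat_lit 7597)))) (.a (.f (nat_lit 557) (nat_lit 589) (nat_lit 5581) (.f (nat_lit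 430) (nat_lit 525) (nat_lit 5549) (.d (nat_lit 429) (nat_lit 397) (nat_lit 7565) (nat_lit 461) (nat_lit 7597)))) (.a (.f (nat_lit 557) (nat_lit 589) (nat_lit 5581) (.f (nat_lit 430) (nat_lit 525) (nat_lit 5549) (.f (nat_lit 399) (nat_lit 431) (nat_lit 6542) (.f (nat_lit 398) (nat_lit 367) (nat_lit 6510) (.d (nat_lit 397) (nat_lit 365) (nat_lit 7533) (nat_lit 429) (nat_lit 7565)))))) (.a (.f (nat_lit 431) (nat_lit 463) (nat_lit 6574) (.f (nat_lit 430) (nat_lit 399) (nat_lit 6542) (.d (nat_lit 557) (nat_lit 525) (nat_lit 5549) (nat_lit 589) (nat_lit 5581)))) (.f (nat_lit 463) (nat_lit 431) (nat_lit 6574) (.f (nat_lit 461) (nat_lit 429) (nat_lit 7597) (.f (nat_lit 460) (nat_lit 495) (nat_lit 460) (.f (nat_lit 492) (nat_lit 491) (nat_lit 1483) (.f (nat_lit 493) (nat_lit 464) (nat_lit 1484) (.f (nat_lit 525) (nat_lit 527) (nat_lit 3564) (.d (nat_lit 428) (nat_lit 396) (nat_lit 4492) (nat_lit 427) (nat_lit 3499)))))))))))))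 (.a s108482 (.a s109110 (.p (nat_lit 590) (.a (.f (nat_lit 621) (nat_lit 589) (nat_lit 5613) (.f (nat_lit 622) (nat_lit 653) (nat_lit 5645) (.d (nat_lit 623) (nat_lit 591) (nat_lit 4590) (nat_lit 655) (nat_lit 4622)))) (.f (nat_lit 463) (nat_lit 495) (nat_lit 6606) (.d (nat_lit 431) (nat_lit 462) (nat_lit 6574) (nat_lit 464) (nat_lit 7599)))))))))))
noncomputable def s109708 : Cert := .r (nat_lit 3773962425919908977913598863645658761147759447487241434420957264009011263251013208155905719509466944063802110595499821352784428613504969976032181954237030749769285238784) (.p (nat_lit 557) (.a (.f (nat_lit 525) (nat_lit 430) (nat_lit 5549) (.d (nat_lit 527) (nat_lit 556) (nat_lit 1548) (nat_lit 561) (nat_lit 525))) (.a (.f (nat_lit 430) (nat_lit 525) (nat_lit 5549) (.f (nat_lit 431) (nat_lit 399) (nat_lit 6542) (.d (nat_lit 558) (nat_lit 463) (nat_lit 6574) (nat_lit 589) (nat_lit 5581)))) (.a (.f (nat_lit 558) (nat_lit 589)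 (nat_lit 5581) (.f (nat_lit 431) (nat_lit 463) (nat_lit 6574) (.f (nat_lit 430) (nat_lit 399) (nat_lit 6542) (.d (nat_lit 429) (nat_lit 397) (nat_lit 7565) (nat_lit 461) (nat_lit 7597))))) (.f (nat_lit 589) (nat_lit 558) (nat_lit 5581) (.d (nat_lit 525) (nat_lit 493) (nat_lit 6605) (nat_lit 621) (nat_lit 6637)))))))
noncomputable def s109873 : Cert := .r (nat_lit 3773962425919908978118185776627259102364724580244206260166060325595852752540217899562262146361383509647556579790092516999820544113329941260111195429091836902519095689216) (.p (nat_lit 464) (.a (.f (nat_lit 465) (nat_lit 433) (nat_lit 6576) (.f (nat_lit 495) (nat_lit 493) (nat_lit 2509) (.d (nat_lit 497) (nat_lit 525) (nat_lit 1517) (nat_lit 592) (nat_lit 6608)))) (.a (.f (nat_lit 465) (nat_lit 433) (nat_lit 6576) (.f (nat_lit 495) (nat_lit 493) (nat_lit 2509) (.d (nat_lit 466) (nat_lit 463) (nat_lit 1486) (nat_lit 467) (nat_lit 1487)))) (.a (.f (nat_lit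 465) (nat_lit 433) (nat_lit 6576) (.f (nat_lit 463) (nat_lit 431) (nat_lit 7599) (.f (nat_lit 462) (nat_lit 493) (nat_lit 1485) (.d (nat_lit 497) (nat_lit 498) (nat_lit 462) (nat_lit 592) (nat_lit 6608))))) (.f (nat_lit 463) (nat_lit 431) (nat_lit 7599) (.f (nat_lit 495) (nat_lit 592) (nat_lit 7631) (.f (nat_lit 497) (nat_lit 525) (nat_lit 1517) (.d (nat_lit 462) (nat_lit 461) (nat_lit 461) (nat_lit 498) (nat_lit 3534)))))))))
noncomputable def s109880 : Cert := .r (nat_lit 3773962425919908978118185776627259102364724580244206260166060325595852752540217899562262146361383509647556579790092516999820544113329941260111195429091836902519095689216) (.p (nat_lit 464) (.a (.f (nat_lit 465) (nat_lit 433) (nat_lit 6576) (.f (nat_lit 495) (nat_lit 493) (nat_lit 2509) (.d (nat_lit 466) (nat_lit 463) (nat_lit 1486) (nat_lit 467) (nat_lit 1487)))) (.a (.f (nat_lit 465) (nat_lit 433) (nat_lit 6576) (.f (nat_lit 495) (nat_lit 493)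 (nat_lit 2509) (.d (nat_lit 497) (nat_lit 466) (nat_lit 2510) (nat_lit 592) (nat_lit 6608)))) (.a (.f (nat_lit 465) (nat_lit 433) (nat_lit 6576) (.f (nat_lit 463) (nat_lit 431) (nat_lit 7599) (.f (nat_lit 462) (nat_lit 493) (nat_lit 1485) (.d (nat_lit 497) (nat_lit 498) (nat_lit 462) (nat_lit 592) (nat_lit 6608))))) (.a (.f (nat_lit 463) (nat_lit 431) (nat_lit 7599) (.f (nat_lit 495) (nat_lit 592) (nat_lit 7631) (.f (nat_lit 493) (nat_lit 492) (nat_lit 2508) (.f (nat_lit 461) (nat_lit 460) (nat_lit 3532) (.f (nat_lit 462) (nat_lit 497) (nat_lit 461) (.d (nat_lit 429) (nat_lit 397) (nat_lit 4493) (nat_lit 428) (nat_lit 3500))))))) (.f (nat_lit 463) (nat_lit 431) (nat_lit 7599) (.f (nat_lit 465) (nat_lit 433) (nat_lit 6576) (.d (nat_lit 495) (nat_lit 466) (nat_lit 1486) (nat_lit 592) (nat_lit 7631)))))))))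
noncomputable def s109904 : Cert := .r (nat_lit 3773962425919908978118185776674893205000161473423246745239808590759252992754221975960869888054885886033356226093197773699397753145920073876099455666143960554851985784832) (.p (nat_lit 525) (.a (.p (nat_lit 430) (.a (.f (nat_lit 462) (nat_lit 557) (nat_lit 5549) (.f (nat_lit 398) (nat_lit 493) (nat_lit 5517) (.d (nat_lit 399) (nat_lit 367) (nat_lit 6510) (nat_lit 431) (nat_lit 6542)))) (.a (.f (nat_lit 433) (nat_lit 465) (nat_lit 6576) (.f (nat_lit 432) (nat_lit 401) (nat_lit 6544) (.f (nat_lit 431) (nat_lit 399) (nat_lit 7567) (.f (nat_lit 397) (nat_lit 398) (nat_lit 3469) (.d (nat_lit 462) (nat_lit 429) (nat_lit 7565) (nat_lit 461) (nat_lit 1453)))))) (.a (.f (nat_lit 462) (nat_lit 557) (nat_lit 5549) (.f (nat_lit 398) (nat_lit 493) (nat_lit 5517) (.d (nat_lit 397) (nat_lit 365) (nat_lit 7533) (nat_lit 429) (nat_lit 7565)))) (.a (.f (nat_lit 433) (nat_lit 465) (nat_lit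 6576) (.f (nat_lit 432) (nat_lit 401) (nat_lit 6544) (.f (nat_lit 431) (nat_lit 399) (nat_lit 7567) (.f (nat_lit 397) (nat_lit 398) (nat_lit 3469) (.f (nat_lit 429) (nat_lit 396) (nat_lit 3468) (.d (nat_lit 461) (nat_lit 460) (nat_lit 1452) (nat_lit 493) (nat_lit 4493))))))) (.f (nat_lit 462) (nat_lit 557) (nat_lit 5549) (.f (nat_lit 429) (nat_lit 397) (nat_lit 7565) (.f (nat_lit 431) (nat_lit 399) (nat_lit 6542) (.d (nat_lit 465) (nat_lit 432) (nat_lit 429) (nat_lit 433) (nat_lit 6576)))))))))) (.d (nat_lit 527) (nat_lit 497) (nat_lit 2541) (nat_lit 561) (nat_lit 525))))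
noncomputable def s109915 : Cert := .r (nat_lit 3773962425919908978118185776674893205000161473423246745239808590759252992754221975960869888054885886033356226093197773699397753145920073876099455666143960554851985784832) (.p (nat_lit 525) (.a (.d (nat_lit 527) (nat_lit 497) (nat_lit 2541) (nat_lit 561) (nat_lit 525)) (.f (nat_lit 431) (nat_lit 463) (nat_lit 7599) (.f (nat_lit 432) (nat_lit 399) (nat_lit 7567) (.f (nat_lit 401) (nat_lit 433) (nat_lit 6544) (.f (nat_lit 400) (nat_lit 369) (nat_lit 6512) (.f (nat_lit 430) (nat_lit 429) (nat_lit 2445) (.f (nat_lit 462) (nat_lit 557) (nat_lit 5549) (.f (nat_lit 398) (nat_lit 493) (nat_lit 5517) (.f (nat_lit 365) (nat_lit 397) (nat_lit 7533) (.f (nat_lit 366) (nat_lit 333) (nat_lit 7501) (.d (nat_lit 367) (nat_lit 335) (nat_lit 6478) (nat_lit 368) (nat_lit 365)))))))))))))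
noncomputable def s109957 : Cert := .r (nat_lit 3773962425919908978118185776686801730659020696718006866508245657050103052807722995060521823478261480129806137668974087874292055404067607030096520725406991467935208308736) (.p (nat_lit 557) (.a (.f (nat_lit 525) (nat_lit 430) (nat_lit 5549) (.d (nat_lit 589) (nat_lit 493) (nat_lit 6605) (nat_lit 558) (nat_lit 5581))) (.a (.f (nat_lit 558) (nat_lit 589) (nat_lit 5581) (.f (nat_lit 461) (nat_lit 429) (nat_lit 7597) (.f (nat_lit 463) (nat_lit 497) (nat_lit 461) (.f (nat_lit 492) (nat_lit 493) (nat_lit 1484) (.f (nat_lit 460) (nat_lit 491) (nat_lit 1483) (.f (nat_lit 427) (nat_lit 428) (nat_lit 3499) (.f (nat_lit 459) (nat_lit 426) (nat_lit 3498) (.f (nat_lit 556) (nat_lit 524) (nat_lit 7595) (.f (nat_lit 555) (nat_lit 527) (nat_lit 2571) (.f (nat_lit 586) (nat_lit 587) (nat_lit 1578) (.f (nat_lit 554) (nat_lit 585) (nat_lit 1577) (.d (nat_lit 522) (nat_lit 521) (nat_lit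 3593) (nat_lit 523) (nat_lit 3594))))))))))))) (.a (.f (nat_lit 430) (nat_lit 525) (nat_lit 5549) (.f (nat_lit 429) (nat_lit 397) (nat_lit 7565) (.f (nat_lit 461) (nat_lit 558) (nat_lit 7597) (.d (nat_lit 463) (nat_lit 428) (nat_lit 3500) (nat_lit 497) (nat_lit 461))))) (.f (nat_lit 525) (nat_lit 430) (nat_lit 5549) (.d (nat_lit 589) (nat_lit 493) (nat_lit 6605) (nat_lit 621) (nat_lit 6637)))))))
noncomputable def s110032 : Cert := .r (nat_lit 3773962425919908978220479233124013535802636758270068733672830389534698527211570754815266327499029589487658770175277021910785752992316193479149234696150755435435612176384) (.p (nat_lit 493) (.a (.f (nat_lit 461) (nat_lit 460) (nat_lit 3532) (.f (nat_lit 465) (nat_lit 464) (nat_lit 2509) (.d (nat_lit 497) (nat_lit 462) (nat_lit 3533) (nat_lit 466) (nat_lit 2510)))) (.a (.f (nat_lit 461) (nat_lit 460) (nat_lit 3532) (.f (nat_lit 462) (nat_lit 497) (nat_lit 3533) (.d (nat_lit 558)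 (nat_lit 429) (nat_lit 7597) (nat_lit 590) (nat_lit 7629)))) (.a (.f (nat_lit 492) (nat_lit 527) (nat_lit 492) (.d (nat_lit 460) (nat_lit 459) (nat_lit 3531) (nat_lit 461) (nat_lit 3532))) (.a (.f (nat_lit 492) (nat_lit 527) (nat_lit 492) (.f (nat_lit 459) (nat_lit 460) (nat_lit 3531) (.f (nat_lit 491) (nat_lit 458) (nat_lit 3530) (.d (nat_lit 523) (nat_lit 522) (nat_lit 1514) (nat_lit 524) (nat_lit 1515))))) (.f (nat_lit 527) (nat_lit 492) (nat_lit 492) (.f (nat_lit 497) (nat_lit 498) (nat_lit 1518) (.d (nat_lit 465) (nat_lit 464) (nat_lit 2509) (nat_lit 466) (nat_lit 2510)))))))))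
noncomputable def s110049 : Cert := .r (nat_lit 3773962425919908978220479233124013535802636758270068733672830389534698527211570754815266327499029589487658770175277021910785752992316193479149234696150755435435612176384) (.p (nat_lit 493) (.a (.f (nat_lit 461) (nat_lit 460) (nat_lit 3532) (.f (nat_lit 465) (nat_lit 464) (nat_lit 2509) (.d (nat_lit 497) (nat_lit 462) (nat_lit 3533) (nat_lit 466) (nat_lit 2510)))) (.a (.f (nat_lit 461) (nat_lit 460) (nat_lit 3532) (.f (nat_lit 497) (nat_lit 462) (nat_lit 3533) (.d (nat_lit 465) (nat_lit 466) (nat_lit 2510) (nat_lit 592) (nat_lit 6608)))) (.a (.f (nat_lit 461) (nat_lit 460) (nat_lit 3532) (.f (nat_lit 462) (nat_lit 497) (nat_lit 3533) (.d (nat_lit 558) (nat_lit 429) (nat_lit 7597) (nat_lit 590) (nat_lit 7629)))) (.a (.f (nat_lit 465) (nat_lit 464) (nat_lit 2509) (.d (nat_lit 497) (nat_lit 466) (nat_lit 2510) (nat_lit 592) (nat_lit 6608))) (.f (nat_lit 461) (nat_lit 460)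 (nat_lit 3532) (.f (nat_lit 429) (nat_lit 397) (nat_lit 4493) (.d (nat_lit 558) (nat_lit 462) (nat_lit 7597) (nat_lit 590) (nat_lit 7629)))))))))
noncomputable def s110198 : Cert := .r (nat_lit 4717453032235131078561650628444716479362910865279368003425557175314590102810356306825399007498878516063328113253347335612837768461179149842930451575598087933485381582848) (.p (nat_lit 462) (.a (.d (nat_lit 430) (nat_lit 398) (nat_lit 5517) (nat_lit 557) (nat_lit 5549)) (.a (.f (nat_lit 461) (nat_lit 429) (nat_lit 4525) (.f (nat_lit 430) (nat_lit 398) (nat_lit 5517) (.f (nat_lit 431) (nat_lit 399) (nat_lit 6542) (.f (nat_lit 460) (nat_lit 459) (nat_lit 2475) (.f (nat_lit 496) (nat_lit 495) (nat_lit 3532) (.f (nat_lit 433) (nat_lit 432) (nat_lit 1453) (.f (nat_lit 465) (nat_lit 464) (nat_lit 6576) (.d (nat_lit 497) (nat_lit 401) (nat_lit 5520) (nat_lit 592) (nat_lit 6608))))))))) (.f (nat_lit 461) (nat_lit 429) (nat_lit 4525)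 (.f (nat_lit 557) (nat_lit 589) (nat_lit 5581) (.f (nat_lit 460) (nat_lit 428) (nat_lit 7596) (.d (nat_lit 459) (nat_lit 458) (nat_lit 458) (nat_lit 495) (nat_lit 459))))))))
noncomputable def s110429 : Cert := .r (nat_lit 4717453032125294315973987508880817458218130529296591420246571772779567243795549402077785465380506041852719292777414468402832772512838634980175475457832173847598411546624) (.p (nat_lit 495) (.a (.p (nat_lit 496) (.a (.f (nat_lit 497) (nat_lit 525) (nat_lit 1517) (.d (nat_lit 465) (nat_lit 466) (nat_lit 2510) (nat_lit 592) (nat_lit 6608))) (.a (.f (nat_lit 525) (nat_lit 497) (nat_lit 1517) (.d (nat_lit 524) (nat_lit 493) (nat_lit 1516) (nat_lit 523) (nat_lit 2539))) (.f (nat_lit 463) (nat_lit 592) (nat_lit 7631) (.d (nat_lit 431) (nat_lit 399) (nat_lit 4495) (nat_lit 464) (nat_lit 7599)))))) (.a (.p (nat_lit 462) (.a (.f (nat_lit 463) (nat_lit 431) (nat_lit 6574) (.f (nat_lit 461) (nat_lit 429) (nat_lit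 7597) (.f (nat_lit 460) (nat_lit 459) (nat_lit 459) (.f (nat_lit 492) (nat_lit 491) (nat_lit 1483) (.d (nat_lit 493) (nat_lit 464) (nat_lit 1484) (nat_lit 527) (nat_lit 492)))))) (.a (.f (nat_lit 463) (nat_lit 431) (nat_lit 6574) (.f (nat_lit 461) (nat_lit 429) (nat_lit 7597) (.f (nat_lit 460) (nat_lit 459) (nat_lit 459) (.f (nat_lit 492) (nat_lit 491) (nat_lit 1483) (.f (nat_lit 464) (nat_lit 493) (nat_lit 1484) (.f (nat_lit 465) (nat_lit 466) (nat_lit 1486) (.d (nat_lit 433) (nat_lit 432) (nat_lit 2477) (nat_lit 434) (nat_lit 2478)))))))) (.a (.f (nat_lit 431) (nat_lit 463) (nat_lit 6574) (.f (nat_lit 430) (nat_lit 399) (nat_lit 6542) (.d (nat_lit 429) (nat_lit 397) (nat_lit 7565) (nat_lit 461) (nat_lit 7597)))) (.a (.f (nat_lit 429) (nat_lit 461) (nat_lit 7597) (.f (nat_lit 430) (nat_lit 397) (nat_lit 7565) (.f (nat_lit 399) (nat_lit 431) (nat_lit 6542) (.d (nat_lit 398) (nat_lit 367) (nat_lit 6510) (nat_lit 527)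 (nat_lit 4494))))) (.a (.f (nat_lit 429) (nat_lit 461) (nat_lit 7597) (.f (nat_lit 430) (nat_lit 397) (nat_lit 7565) (.f (nat_lit 398) (nat_lit 527) (nat_lit 4494) (.f (nat_lit 366) (nat_lit 463) (nat_lit 4462) (.d (nat_lit 367) (nat_lit 335) (nat_lit 6478) (nat_lit 399) (nat_lit 6510)))))) (.a (.f (nat_lit 431) (nat_lit 463) (nat_lit 6574) (.f (nat_lit 430) (nat_lit 399) (nat_lit 6542) (.f (nat_lit 398) (nat_lit 527) (nat_lit 4494) (.d (nat_lit 397) (nat_lit 365) (nat_lit 7533) (nat_lit 429) (nat_lit 7565))))) (.f (nat_lit 431) (nat_lit 463) (nat_lit 6574) (.f (nat_lit 430) (nat_lit 399) (nat_lit 6542) (.f (nat_lit 527) (nat_lit 398) (nat_lit 4494) (.f (nat_lit 525) (nat_lit 561) (nat_lit 525) (.d (nat_lit 524) (nat_lit 496) (nat_lit 2540) (nat_lit 523) (nat_lit 2539))))))))))))) (.a (.p (nat_lit 462) (.a (.f (nat_lit 463) (nat_lit 431) (nat_lit 6574) (.f (nat_lit 461) (nat_lit 429) (nat_lit 7597) (.f (nat_lit 460)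 (nat_lit 459) (nat_lit 459) (.f (nat_lit 492) (nat_lit 491) (nat_lit 1483) (.d (nat_lit 493) (nat_lit 464) (nat_lit 1484) (nat_lit 527) (nat_lit 492)))))) (.a (.f (nat_lit 463) (nat_lit 431) (nat_lit 6574) (.f (nat_lit 461) (nat_lit 429) (nat_lit 7597) (.f (nat_lit 460) (nat_lit 459) (nat_lit 459) (.f (nat_lit 492) (nat_lit 491) (nat_lit 1483) (.f (nat_lit 464) (nat_lit 493) (nat_lit 1484) (.f (nat_lit 465) (nat_lit 466) (nat_lit 1486) (.d (nat_lit 433) (nat_lit 432) (nat_lit 2477) (nat_lit 434) (nat_lit 2478)))))))) (.a (.f (nat_lit 431) (nat_lit 463) (nat_lit 6574) (.f (nat_lit 430) (nat_lit 399) (nat_lit 6542) (.d (nat_lit 429) (nat_lit 397) (nat_lit 7565) (nat_lit 461) (nat_lit 7597)))) (.a (.f (nat_lit 429) (nat_lit 461) (nat_lit 7597) (.f (nat_lit 430) (nat_lit 397) (nat_lit 7565) (.f (nat_lit 399) (nat_lit 431) (nat_lit 6542) (.d (nat_lit 398) (nat_lit 367) (nat_lit 6510) (nat_lit 527) (nat_lit 4494))))) (.a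 (.f (nat_lit 429) (nat_lit 461) (nat_lit 7597) (.f (nat_lit 430) (nat_lit 397) (nat_lit 7565) (.f (nat_lit 398) (nat_lit 527) (nat_lit 4494) (.f (nat_lit 366) (nat_lit 463) (nat_lit 4462) (.d (nat_lit 367) (nat_lit 335) (nat_lit 6478) (nat_lit 399) (nat_lit 6510)))))) (.a (.f (nat_lit 431) (nat_lit 463) (nat_lit 6574) (.f (nat_lit 430) (nat_lit 399) (nat_lit 6542) (.f (nat_lit 398) (nat_lit 527) (nat_lit 4494) (.d (nat_lit 397) (nat_lit 365) (nat_lit 7533) (nat_lit 429) (nat_lit 7565))))) (.f (nat_lit 431) (nat_lit 463) (nat_lit 6574) (.f (nat_lit 430) (nat_lit 399) (nat_lit 6542) (.f (nat_lit 527) (nat_lit 398) (nat_lit 4494) (.f (nat_lit 492) (nat_lit 493) (nat_lit 492) (.f (nat_lit 525) (nat_lit 561) (nat_lit 525) (.d (nat_lit 524) (nat_lit 491) (nat_lit 3563) (nat_lit 523) (nat_lit 2539)))))))))))))) (.a (.p (nat_lit 462) (.a (.f (nat_lit 463) (nat_lit 431) (nat_lit 6574) (.f (nat_lit 461) (nat_lit 429) (nat_lit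 7597) (.f (nat_lit 460) (nat_lit 459) (nat_lit 459) (.f (nat_lit 492) (nat_lit 491) (nat_lit 1483) (.d (nat_lit 493) (nat_lit 464) (nat_lit 1484) (nat_lit 527) (nat_lit 492)))))) (.a (.f (nat_lit 463) (nat_lit 431) (nat_lit 6574) (.f (nat_lit 461) (nat_lit 429) (nat_lit 7597) (.f (nat_lit 460) (nat_lit 459) (nat_lit 459) (.f (nat_lit 492) (nat_lit 491) (nat_lit 1483) (.f (nat_lit 464) (nat_lit 493) (nat_lit 1484) (.f (nat_lit 465) (nat_lit 466) (nat_lit 1486) (.d (nat_lit 433) (nat_lit 432) (nat_lit 2477) (nat_lit 434) (nat_lit 2478)))))))) (.a (.f (nat_lit 431) (nat_lit 463) (nat_lit 6574) (.f (nat_lit 430) (nat_lit 399) (nat_lit 6542) (.d (nat_lit 429) (nat_lit 397) (nat_lit 7565) (nat_lit 461) (nat_lit 7597)))) (.a (.f (nat_lit 429) (nat_lit 461) (nat_lit 7597) (.f (nat_lit 430) (nat_lit 397) (nat_lit 7565) (.f (nat_lit 399) (nat_lit 431) (nat_lit 6542) (.d (nat_lit 398) (nat_lit 367) (nat_lit 6510) (nat_lit 527)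 (nat_lit 4494))))) (.a (.f (nat_lit 429) (nat_lit 461) (nat_lit 7597) (.f (nat_lit 430) (nat_lit 397) (nat_lit 7565) (.f (nat_lit 398) (nat_lit 527) (nat_lit 4494) (.f (nat_lit 366) (nat_lit 463) (nat_lit 4462) (.d (nat_lit 367) (nat_lit 335) (nat_lit 6478) (nat_lit 399) (nat_lit 6510)))))) (.a (.f (nat_lit 431) (nat_lit 463) (nat_lit 6574) (.f (nat_lit 430) (nat_lit 399) (nat_lit 6542) (.f (nat_lit 398) (nat_lit 527) (nat_lit 4494) (.d (nat_lit 397) (nat_lit 365) (nat_lit 7533) (nat_lit 429) (nat_lit 7565))))) (.f (nat_lit 463) (nat_lit 431) (nat_lit 6574) (.f (nat_lit 496) (nat_lit 592) (nat_lit 7631) (.d (nat_lit 497) (nat_lit 461) (nat_lit 3533) (nat_lit 498) (nat_lit 3534))))))))))) (.a (.p (nat_lit 496) (.a (.f (nat_lit 497) (nat_lit 525) (nat_lit 1517) (.d (nat_lit 465) (nat_lit 466) (nat_lit 2510) (nat_lit 592) (nat_lit 6608))) (.a (.f (nat_lit 525) (nat_lit 497) (nat_lit 1517) (.d (nat_lit 524) (nat_lit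 493) (nat_lit 1516) (nat_lit 523) (nat_lit 2539))) (.f (nat_lit 463) (nat_lit 592) (nat_lit 7631) (.d (nat_lit 431) (nat_lit 399) (nat_lit 4495) (nat_lit 462) (nat_lit 6574)))))) (.a (.p (nat_lit 525) (.a (.f (nat_lit 527) (nat_lit 561) (nat_lit 525) (.d (nat_lit 524) (nat_lit 496) (nat_lit 2540) (nat_lit 523) (nat_lit 2539))) (.a (.f (nat_lit 496) (nat_lit 497) (nat_lit 1517) (.d (nat_lit 524) (nat_lit 493) (nat_lit 1516) (nat_lit 523) (nat_lit 2539))) (.a (.f (nat_lit 527) (nat_lit 561) (nat_lit 525) (.f (nat_lit 492) (nat_lit 493) (nat_lit 492) (.d (nat_lit 524) (nat_lit 491) (nat_lit 3563) (nat_lit 523) (nat_lit 2539)))) (.f (nat_lit 527) (nat_lit 561) (nat_lit 525) (.f (nat_lit 496) (nat_lit 497) (nat_lit 1517) (.f (nat_lit 493) (nat_lit 492) (nat_lit 492) (.d (nat_lit 461) (nat_lit 429) (nat_lit 4525) (nat_lit 460) (nat_lit 3532))))))))) (.p (nat_lit 496) (.a (.f (nat_lit 497) (nat_lit 525) (nat_lit 1517) (.d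 (nat_lit 465) (nat_lit 466) (nat_lit 2510) (nat_lit 592) (nat_lit 6608))) (.a (.f (nat_lit 497) (nat_lit 525) (nat_lit 1517) (.f (nat_lit 498) (nat_lit 527) (nat_lit 1518) (.d (nat_lit 462) (nat_lit 461) (nat_lit 3533) (nat_lit 463) (nat_lit 3534)))) (.f (nat_lit 463) (nat_lit 592) (nat_lit 7631) (.d (nat_lit 431) (nat_lit 399) (nat_lit 4495) (nat_lit 464) (nat_lit 7599)))))))))))))
noncomputable def s110456 : Cert := .r (nat_lit 4052261302452797718172567620359887070416409481892385314448600531272599908924985355514013317065191514490074290496567719713347233124914584336946911185364893120977859202482698190848) (.p (nat_lit 462) (.a (.d (nat_lit 461) (nat_lit 429) (nat_lit 7597) (nat_lit 493) (nat_lit 7629)) (.a (.f (nat_lit 431) (nat_lit 463) (nat_lit 6574) (.f (nat_lit 430) (nat_lit 399) (nat_lit 6542) (.d (nat_lit 429) (nat_lit 397) (nat_lit 7565) (nat_lit 461) (nat_lit 7597)))) (.a (.f (nat_lit 431) (nat_lit 463)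 (nat_lit 6574) (.f (nat_lit 430) (nat_lit 399) (nat_lit 6542) (.f (nat_lit 397) (nat_lit 429) (nat_lit 7565) (.f (nat_lit 398) (nat_lit 365) (nat_lit 7533) (.f (nat_lit 525) (nat_lit 493) (nat_lit 5517) (.f (nat_lit 591) (nat_lit 623) (nat_lit 4590) (.f (nat_lit 589) (nat_lit 621) (nat_lit 5613) (.d (nat_lit 561) (nat_lit 527) (nat_lit 525) (nat_lit 592) (nat_lit 2605))))))))) (.f (nat_lit 431) (nat_lit 463) (nat_lit 6574) (.f (nat_lit 430) (nat_lit 399) (nat_lit 6542) (.f (nat_lit 493) (nat_lit 461) (nat_lit 7629) (.f (nat_lit 525) (nat_lit 398) (nat_lit 5517) (.d (nat_lit 527) (nat_lit 492) (nat_lit 3564) (nat_lit 561) (nat_lit 525))))))))))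
noncomputable def s110457 : Cert := .r (nat_lit 4717453032125294315973987508880817458218130529296591420246571772779567243795549402077785465380506041852719292777414468402832772512838634980175475457832173847598411546624) (.p (nat_lit 590) (.a (.f (nat_lit 493) (nat_lit 461) (nat_lit 7629) (.f (nat_lit 525) (nat_lit 622) (nat_lit 7661) (.d (nat_lit 527) (nat_lit 492) (nat_lit 3564) (nat_lit 561) (nat_lit 525)))) (.a (.f (nat_lit 621) (nat_lit 589) (nat_lit 5613) (.f (nat_lit 622) (nat_lit 653) (nat_lit 5645) (.d (nat_lit 623) (nat_lit 591) (nat_lit 4590) (nat_lit 655) (nat_lit 4622)))) s110456)))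
noncomputable def s110589 : Cert := .r (nat_lit 4052261302452797718172567620359887070416409481892385314448600531272599908924985355514013317065191514490074290496567719713347233124914584336946911185364893120977859202482698190848) (.p (nat_lit 525) (.a (.f (nat_lit 527) (nat_lit 561) (nat_lit 525) (.f (nat_lit 495) (nat_lit 463) (nat_lit 6606) (.d (nat_lit 524) (nat_lit 496) (nat_lit 2540) (nat_lit 523) (nat_lit 2539)))) (.a (.f (nat_lit 495) (nat_lit 463) (nat_lit 6606) (.f (nat_lit 524) (nat_lit 523) (nat_lit 2539) (.d (nat_lit 496) (nat_lit 493) (nat_lit 1516) (nat_lit 497) (nat_lit 1517)))) (.a (.f (nat_lit 527) (nat_lit 561) (nat_lit 525) (.f (nat_lit 495) (nat_lit 463) (nat_lit 6606) (.f (nat_lit 492) (nat_lit 493) (nat_lit 3564) (.d (nat_lit 524) (nat_lit 491) (nat_lit 3563) (nat_lit 523) (nat_lit 2539))))) (.a (.f (nat_lit 527) (nat_lit 561) (nat_lit 525) (.f (nat_lit 496) (nat_lit 497) (nat_lit 2541) (.f (nat_lit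 524) (nat_lit 495) (nat_lit 2540) (.d (nat_lit 492) (nat_lit 491) (nat_lit 3563) (nat_lit 493) (nat_lit 3564))))) (.a (.f (nat_lit 527) (nat_lit 561) (nat_lit 525) (.f (nat_lit 556) (nat_lit 557) (nat_lit 1548) (.f (nat_lit 524) (nat_lit 555) (nat_lit 1547) (.d (nat_lit 492) (nat_lit 491) (nat_lit 3563) (nat_lit 493) (nat_lit 3564))))) (.f (nat_lit 527) (nat_lit 561) (nat_lit 525) (.f (nat_lit 463) (nat_lit 495) (nat_lit 6606) (.f (nat_lit 462) (nat_lit 431) (nat_lit 6574) (.d (nat_lit 557) (nat_lit 430) (nat_lit 5549) (nat_lit 556) (nat_lit 1548)))))))))))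
noncomputable def s110755 : Cert := .r (nat_lit 4052261301509307111967182282299498425169342259163155009344490424178548333863579314915976104043659833195659598611200625955656271899971938179465713027224534558119685191570349359104) (.p (nat_lit 558) (.a (.f (nat_lit 495) (nat_lit 463) (nat_lit 6606) (.f (nat_lit 493) (nat_lit 461) (nat_lit 7629) (.d (nat_lit 527) (nat_lit 492) (nat_lit 492) (nat_lit 622) (nat_lit 6638)))) (.a (.f (nat_lit 493) (nat_lit 461) (nat_lit 7629) (.f (nat_lit 525) (nat_lit 622) (nat_lit 7661) (.f (nat_lit 495) (nat_lit 463) (nat_lit 6606) (.d (nat_lit 524) (nat_lit 496) (nat_lit 1516) (nat_lit 523) (nat_lit 2539))))) (.a (.f (nat_lit 493) (nat_lit 461) (nat_lit 7629) (.f (nat_lit 525) (nat_lit 622) (nat_lit 7661) (.d (nat_lit 527) (nat_lit 492) (nat_lit 3564) (nat_lit 561) (nat_lit 525)))) (.a (.f (nat_lit 495) (nat_lit 463) (nat_lit 6606) (.f (nat_lit 622) (nat_lit 527) (nat_lit 6638) (.d (nat_lit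 621) (nat_lit 589) (nat_lit 5613) (nat_lit 653) (nat_lit 5645)))) (.f (nat_lit 493) (nat_lit 461) (nat_lit 7629) (.f (nat_lit 495) (nat_lit 463) (nat_lit 6606) (.f (nat_lit 492) (nat_lit 527) (nat_lit 492) (.f (nat_lit 523) (nat_lit 524) (nat_lit 1515) (.f (nat_lit 491) (nat_lit 522) (nat_lit 1514) (.d (nat_lit 459) (nat_lit 458) (nat_lit 3530) (nat_lit 460) (nat_lit 3531))))))))))))
noncomputable def s110756 : Cert := .r (nat_lit 4052261301509307111967182282299498425169342259163155009344490424178548333863579314915976104043659833195659598611200625955656271899971938179465713027224534558119685191570349359104) (.p (nat_lit 558) (.a (.f (nat_lit 495) (nat_lit 463) (nat_lit 6606) (.f (nat_lit 493) (nat_lit 461) (nat_lit 7629) (.d (nat_lit 527) (nat_lit 492) (nat_lit 492) (nat_lit 622) (nat_lit 6638)))) (.a (.f (nat_lit 493) (nat_lit 461) (nat_lit 7629) (.f (nat_lit 525) (nat_lit 622) (nat_lit 7661) (.f (nat_lit 495) (nat_lit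 463) (nat_lit 6606) (.d (nat_lit 524) (nat_lit 496) (nat_lit 1516) (nat_lit 523) (nat_lit 2539))))) (.a (.f (nat_lit 493) (nat_lit 461) (nat_lit 7629) (.f (nat_lit 525) (nat_lit 622) (nat_lit 7661) (.d (nat_lit 527) (nat_lit 492) (nat_lit 3564) (nat_lit 561) (nat_lit 525)))) (.a (.f (nat_lit 495) (nat_lit 463) (nat_lit 6606) (.f (nat_lit 527) (nat_lit 622) (nat_lit 6638) (.f (nat_lit 525) (nat_lit 561) (nat_lit 525) (.d (nat_lit 524) (nat_lit 496) (nat_lit 2540) (nat_lit 523) (nat_lit 2539))))) (.f (nat_lit 493) (nat_lit 461) (nat_lit 7629) (.f (nat_lit 495) (nat_lit 463) (nat_lit 6606) (.f (nat_lit 492) (nat_lit 527) (nat_lit 492) (.f (nat_lit 524) (nat_lit 523) (nat_lit 1515) (.f (nat_lit 525) (nat_lit 496) (nat_lit 1516) (.f (nat_lit 460) (nat_lit 459) (nat_lit 3531) (.d (nat_lit 428) (nat_lit 396) (nat_lit 4492) (nat_lit 557) (nat_lit 4524)))))))))))))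
noncomputable def s110827 : Cert := .r (nat_lit 20261306492450685856156275499843096671311710353860174149952526868282660878445251761789831763993284029633932593186594333699387330788299185475898817847982205210702426611107495936000) (.p (nat_lit 591) (.a (.f (nat_lit 589) (nat_lit 561) (nat_lit 2605) (.f (nat_lit 624) (nat_lit 625) (nat_lit 589) (.d (nat_lit 623) (nat_lit 496) (nat_lit 5615) (nat_lit 588) (nat_lit 588)))) (.a (.f (nat_lit 589) (nat_lit 561) (nat_lit 2605) (.f (nat_lit 624) (nat_lit 625) (nat_lit 589) (.d (nat_lit 623) (nat_lit 588) (nat_lit 588) (nat_lit 655) (nat_lit 5647)))) (.a (.f (nat_lit 589) (nat_lit 561) (nat_lit 2605) (.f (nat_lit 557) (nat_lit 556) (nat_lit 3628) (.d (nat_lit 621) (nat_lit 525) (nat_lit 6637) (nat_lit 620) (nat_lit 1612)))) (.f (nat_lit 623) (nat_lit 496) (nat_lit 5615) (.d (nat_lit 655) (nat_lit 624) (nat_lit 5647) (nat_lit 687) (nat_lit 6703)))))))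
noncomputable def s110828 : Cert := .r (nat_lit 4052261301509307111967182282299498425169342259163155009344490424178548333863579314915976104043659833195659598611200625955656271899971938179465713027224534558119685191570349359104) (.p (nat_lit 592) (.a (.p (nat_lit 496) (.a (.f (nat_lit 495) (nat_lit 463) (nat_lit 7631) (.f (nat_lit 527) (nat_lit 624) (nat_lit 7663) (.d (nat_lit 497) (nat_lit 465) (nat_lit 6608) (nat_lit 498) (nat_lit 1518)))) (.a (.f (nat_lit 465) (nat_lit 497) (nat_lit 6608) (.f (nat_lit 464) (nat_lit 433) (nat_lit 6576) (.d (nat_lit 495) (nat_lit 463) (nat_lit 7631) (nat_lit 493) (nat_lit 2509)))) (.a (.f (nat_lit 497) (nat_lit 465) (nat_lit 6608) (.f (nat_lit 623) (nat_lit 591) (nat_lit 5615) (.f (nat_lit 624) (nat_lit 655) (nat_lit 5647) (.f (nat_lit 625) (nat_lit 657) (nat_lit 4624) (.f (nat_lit 525) (nat_lit 527) (nat_lit 2541) (.f (nat_lit 589) (nat_lit 622) (nat_lit 3661) (.f (nat_lit 557)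 (nat_lit 621) (nat_lit 6637) (.d (nat_lit 462) (nat_lit 430) (nat_lit 5549) (nat_lit 493) (nat_lit 6605))))))))) (.f (nat_lit 591) (nat_lit 623) (nat_lit 5615) (.f (nat_lit 589) (nat_lit 561) (nat_lit 2605) (.f (nat_lit 620) (nat_lit 621) (nat_lit 1612) (.f (nat_lit 588) (nat_lit 619) (nat_lit 1611) (.d (nat_lit 556) (nat_lit 555) (nat_lit 3627) (nat_lit 557) (nat_lit 3628)))))))))) (.a (.p (nat_lit 496) (.a (.f (nat_lit 465) (nat_lit 497) (nat_lit 6608) (.f (nat_lit 464) (nat_lit 433) (nat_lit 6576) (.d (nat_lit 495) (nat_lit 463) (nat_lit 7631) (nat_lit 493) (nat_lit 2509)))) (.f (nat_lit 591) (nat_lit 623) (nat_lit 5615) (.f (nat_lit 589) (nat_lit 561) (nat_lit 2605) (.f (nat_lit 620) (nat_lit 621) (nat_lit 1612) (.f (nat_lit 588) (nat_lit 619) (nat_lit 1611) (.d (nat_lit 556) (nat_lit 555) (nat_lit 3627) (nat_lit 557) (nat_lit 3628)))))))) (.a (.p (nat_lit 624) (.a (.f (nat_lit 527) (nat_lit 495) (nat_lit 7663)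 (.f (nat_lit 525) (nat_lit 561) (nat_lit 525) (.f (nat_lit 557) (nat_lit 556) (nat_lit 1548) (.f (nat_lit 589) (nat_lit 621) (nat_lit 6637) (.d (nat_lit 493) (nat_lit 462) (nat_lit 6605) (nat_lit 492) (nat_lit 3564)))))) (.a (.f (nat_lit 625) (nat_lit 657) (nat_lit 4624) (.f (nat_lit 591) (nat_lit 589) (nat_lit 589) (.d (nat_lit 626) (nat_lit 623) (nat_lit 3662) (nat_lit 627) (nat_lit 3663)))) (.f (nat_lit 655) (nat_lit 623) (nat_lit 5647) (.f (nat_lit 656) (nat_lit 687) (nat_lit 5679) (.d (nat_lit 657) (nat_lit 625) (nat_lit 4624) (nat_lit 689) (nat_lit 4656))))))) (.a (.p (nat_lit 495) (.a (.f (nat_lit 527) (nat_lit 624) (nat_lit 7663) (.f (nat_lit 525) (nat_lit 561) (nat_lit 525) (.f (nat_lit 493) (nat_lit 492) (nat_lit 492) (.f (nat_lit 557) (nat_lit 556) (nat_lit 1548) (.d (nat_lit 589) (nat_lit 462) (nat_lit 6605) (nat_lit 622) (nat_lit 4589)))))) (.a (.f (nat_lit 496) (nat_lit 463) (nat_lit 7631) (.d (nat_lit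 497) (nat_lit 465) (nat_lit 6608) (nat_lit 525) (nat_lit 1517))) (.f (nat_lit 496) (nat_lit 463) (nat_lit 7631) (.f (nat_lit 497) (nat_lit 465) (nat_lit 6608) (.d (nat_lit 527) (nat_lit 498) (nat_lit 1518) (nat_lit 624) (nat_lit 7663))))))) (.a (.p (nat_lit 495) (.a (.f (nat_lit 496) (nat_lit 463) (nat_lit 7631) (.d (nat_lit 497) (nat_lit 465) (nat_lit 6608) (nat_lit 525) (nat_lit 1517))) (.a (.f (nat_lit 527) (nat_lit 624) (nat_lit 7663) (.f (nat_lit 492) (nat_lit 493) (nat_lit 492) (.f (nat_lit 525) (nat_lit 561) (nat_lit 525) (.d (nat_lit 524) (nat_lit 491) (nat_lit 3563) (nat_lit 523) (nat_lit 2539))))) (.f (nat_lit 496) (nat_lit 463) (nat_lit 7631) (.f (nat_lit 497) (nat_lit 465) (nat_lit 6608) (.d (nat_lit 527) (nat_lit 498) (nat_lit 1518) (nat_lit 624) (nat_lit 7663))))))) (.a (.p (nat_lit 496) (.a (.f (nat_lit 495) (nat_lit 463) (nat_lit 7631) (.f (nat_lit 527) (nat_lit 624) (nat_lit 7663) (.d (nat_lit 497)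 (nat_lit 465) (nat_lit 6608) (nat_lit 498) (nat_lit 1518)))) (.a (.f (nat_lit 465) (nat_lit 497) (nat_lit 6608) (.f (nat_lit 464) (nat_lit 433) (nat_lit 6576) (.d (nat_lit 495) (nat_lit 463) (nat_lit 7631) (nat_lit 493) (nat_lit 2509)))) (.a (.f (nat_lit 497) (nat_lit 465) (nat_lit 6608) (.f (nat_lit 623) (nat_lit 591) (nat_lit 5615) (.f (nat_lit 624) (nat_lit 655) (nat_lit 5647) (.f (nat_lit 625) (nat_lit 657) (nat_lit 4624) (.f (nat_lit 525) (nat_lit 527) (nat_lit 2541) (.f (nat_lit 589) (nat_lit 622) (nat_lit 3661) (.f (nat_lit 557) (nat_lit 621) (nat_lit 6637) (.d (nat_lit 462) (nat_lit 430) (nat_lit 5549) (nat_lit 493) (nat_lit 6605))))))))) (.a (.f (nat_lit 495) (nat_lit 463) (nat_lit 7631) (.f (nat_lit 527) (nat_lit 624) (nat_lit 7663) (.d (nat_lit 497) (nat_lit 498) (nat_lit 1518) (nat_lit 525) (nat_lit 1517)))) (.f (nat_lit 495) (nat_lit 463) (nat_lit 7631) (.f (nat_lit 527) (nat_lit 624) (nat_lit 7663)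 (.f (nat_lit 493) (nat_lit 492) (nat_lit 492) (.f (nat_lit 525) (nat_lit 524) (nat_lit 2540) (.f (nat_lit 557) (nat_lit 556) (nat_lit 1548) (.d (nat_lit 589) (nat_lit 462) (nat_lit 6605) (nat_lit 622) (nat_lit 4589)))))))))))) s110827)))))))
noncomputable def s110858 : Cert := .r (nat_lit 4052261301509307111967182282299498425169342259163155009344490424178548333863579314915976104043659833195659598611200625955656271899971938179465713027224534558119685191570349359104) (.p (nat_lit 558) (.a (.f (nat_lit 495) (nat_lit 463) (nat_lit 6606) (.f (nat_lit 622) (nat_lit 527) (nat_lit 6638) (.d (nat_lit 621) (nat_lit 589) (nat_lit 5613) (nat_lit 653) (nat_lit 5645)))) (.a (.f (nat_lit 621) (nat_lit 589) (nat_lit 5613) (.f (nat_lit 622) (nat_lit 653) (nat_lit 5645) (.d (nat_lit 623) (nat_lit 591) (nat_lit 4590) (nat_lit 655) (nat_lit 4622)))) (.a (.f (nat_lit 495) (nat_lit 463) (nat_lit 6606) (.f (nat_lit 527) (nat_lit 622) (nat_lit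 6638) (.f (nat_lit 525) (nat_lit 561) (nat_lit 525) (.d (nat_lit 524) (nat_lit 496) (nat_lit 2540) (nat_lit 523) (nat_lit 2539))))) (.f (nat_lit 495) (nat_lit 463) (nat_lit 6606) (.f (nat_lit 591) (nat_lit 623) (nat_lit 4590) (.f (nat_lit 589) (nat_lit 621) (nat_lit 5613) (.f (nat_lit 592) (nat_lit 561) (nat_lit 2605) (.d (nat_lit 624) (nat_lit 527) (nat_lit 7663) (nat_lit 625) (nat_lit 589))))))))))
noncomputable def s111020 : Cert := .r (nat_lit 3773962425919908977862452135385373018769944135179550076399135165748738315861835761429751693517268310047301103827131254722407521915864310712516097261444540570227804471296) (.p (nat_lit 494) (.a (.p (nat_lit 558) (.a s108020 (.a s108923 (.a (.p (nat_lit 590) (.a (.f (nat_lit 589) (nat_lit 621) (nat_lit 5613) (.f (nat_lit 462) (nat_lit 557) (nat_lit 5581) (.d (nat_lit 463) (nat_lit 431) (nat_lit 6574) (nat_lit 495) (nat_lit 6606)))) (.a (.f (nat_lit 589) (nat_lit 621) (nat_lit 5613) (.f (nat_lit 462) (nat_lit 557) (nat_lit 5581) (.d (nat_lit 461) (nat_lit 429) (nat_lit 7597) (nat_lit 493) (nat_lit 7629)))) (.f (nat_lit 493) (nat_lit 461) (nat_lit 7629) (.f (nat_lit 525) (nat_lit 622) (nat_lit 7661) (.f (nat_lit 495) (nat_lit 463) (nat_lit 6606) (.d (nat_lit 524) (nat_lit 496) (nat_lit 1516) (nat_lit 523) (nat_lit 2539)))))))) (.a s109516 (.a (.p (nat_lit 590) (.a (.f (nat_lit 589) (nat_lit 621) (nat_lit 5613) (.f (nat_lit 462) (nat_lit 557) (nat_lit 5581) (.d (nat_lit 463) (nat_lit 431) (nat_lit 6574) (nat_lit 495) (nat_lit 6606)))) (.a (.f (nat_lit 589) (nat_lit 621) (nat_lit 5613) (.f (nat_lit 462) (nat_lit 557) (nat_lit 5581) (.d (nat_lit 461) (nat_lit 429) (nat_lit 7597) (nat_lit 493) (nat_lit 7629)))) (.a (.f (nat_lit 463) (nat_lit 495) (nat_lit 6606) (.f (nat_lit 462) (nat_lit 431) (nat_lit 6574) (.d (nat_lit 461) (nat_lit 429) (nat_lit 7597) (nat_lit 493) (nat_lit 7629)))) (.f (nat_lit 621) (nat_lit 589) (nat_lit 5613) (.f (nat_lit 622) (nat_lit 653) (nat_lit 5645) (.d (nat_lit 623) (nat_lit 591) (nat_lit 4590) (nat_lit 655) (nat_lit 4622)))))))) (.a s108980 (.a s109531 (.a s109547 (.a s109559 (.a (.p (nat_lit 462) (.a (.f (nat_lit 431) (nat_lit 463) (nat_lit 6574) (.f (nat_lit 430) (nat_lit 399) (nat_lit 6542) (.d (nat_lit 429) (nat_lit 397) (nat_lit 7565) (nat_lit 461) (nat_lit 7597)))) (.a (.f (nat_lit 557) (nat_lit 589) (nat_lit 5581) (.f (nat_lit 430) (nat_lit 525) (nat_lit 5549) (.d (nat_lit 429) (nat_lit 397) (nat_lit 7565) (nat_lit 461) (nat_lit 7597)))) (.f (nat_lit 463) (nat_lit 431) (nat_lit 6574) (.f (nat_lit 495) (nat_lit 590) (nat_lit 6606) (.f (nat_lit 496) (nat_lit 592) (nat_lit 7631) (.d (nat_lit 497) (nat_lit 498) (nat_lit 3534) (nat_lit 525) (nat_lit 1517)))))))) s109000))))))))))) (.a (.p (nat_lit 496) (.a s109111 (.a (.p (nat_lit 558) (.a s108213 (.a s108217 (.a s108264 (.a s108281 (.a (.p (nat_lit 462) (.a (.f (nat_lit 461) (nat_lit 429) (nat_lit 7597) (.f (nat_lit 495) (nat_lit 497) (nat_lit 3533) (.d (nat_lit 460) (nat_lit 459) (nat_lit 459) (nat_lit 493) (nat_lit 3532)))) (.a (.f (nat_lit 557) (nat_lit 589) (nat_lit 5581) (.f (nat_lit 430) (nat_lit 525) (nat_lit 5549) (.d (nat_lit 429) (nat_lit 397) (nat_lit 7565) (nat_lit 461) (nat_lit 7597)))) (.f (nat_lit 557) (nat_lit 589) (nat_lit 5581) (.f (nat_lit 525) (nat_lit 430) (nat_lit 5549) (.f (nat_lit 495) (nat_lit 497) (nat_lit 1517) (.d (nat_lit 524) (nat_lit 493) (nat_lit 1516) (nat_lit 523) (nat_lit 2539)))))))) (.a (.p (nat_lit 590) (.a (.f (nat_lit 621) (nat_lit 589) (nat_lit 5613) (.f (nat_lit 622) (nat_lit 653) (nat_lit 5645) (.d (nat_lit 623) (nat_lit 591) (nat_lit 4590) (nat_lit 655) (nat_lit 4622)))) (.f (nat_lit 495) (nat_lit 463) (nat_lit 6606) (.f (nat_lit 525) (nat_lit 497) (nat_lit 1517) (.d (nat_lit 493) (nat_lit 461) (nat_lit 7629) (nat_lit 524) (nat_lit 1516)))))) (.a s108284 (.a (.p (nat_lit 590) (.a (.f (nat_lit 621) (nat_lit 589) (nat_lit 5613) (.f (nat_lit 622) (nat_lit 653) (nat_lit 5645) (.d (nat_lit 623) (nat_lit 591) (nat_lit 4590) (nat_lit 655) (nat_lit 4622)))) (.f (nat_lit 495) (nat_lit 463) (nat_lit 6606) (.f (nat_lit 497) (nat_lit 525) (nat_lit 1517) (.f (nat_lit 465) (nat_lit 466) (nat_lit 2510) (.d (nat_lit 433) (nat_lit 401) (nat_lit 5520) (nat_lit 464) (nat_lit 6576))))))) (.p (nat_lit 590) (.a (.f (nat_lit 461) (nat_lit 493) (nat_lit 7629) (.f (nat_lit 462) (nat_lit 429) (nat_lit 7597) (.d (nat_lit 463) (nat_lit 431) (nat_lit 6574) (nat_lit 495) (nat_lit 6606)))) (.a (.f (nat_lit 461) (nat_lit 493) (nat_lit 7629) (.f (nat_lit 462) (nat_lit 429) (nat_lit 7597) (.d (nat_lit 589) (nat_lit 557) (nat_lit 5581) (nat_lit 621) (nat_lit 5613)))) (.f (nat_lit 621) (nat_lit 589) (nat_lit 5613) (.f (nat_lit 622) (nat_lit 653) (nat_lit 5645) (.d (nat_lit 623) (nat_lit 591) (nat_lit 4590) (nat_lit 655) (nat_lit 4622)))))))))))))))) (.a (.p (nat_lit 525) (.a (.f (nat_lit 495) (nat_lit 497) (nat_lit 1517) (.d (nat_lit 524) (nat_lit 493) (nat_lit 1516) (nat_lit 523) (nat_lit 2539))) (.a (.d (nat_lit 527) (nat_lit 497) (nat_lit 2541) (nat_lit 561) (nat_lit 525)) (.f (nat_lit 527) (nat_lit 561) (nat_lit 525) (.f (nat_lit 495) (nat_lit 524) (nat_lit 2540) (.f (nat_lit 493) (nat_lit 492) (nat_lit 3564) (.f (nat_lit 461) (nat_lit 460) (nat_lit 3532) (.d (nat_lit 429) (nat_lit 397) (nat_lit 4493) (nat_lit 558) (nat_lit 4525))))))))) (.a (.p (nat_lit 525) (.a (.f (nat_lit 495) (nat_lit 497) (nat_lit 1517) (.d (nat_lit 524) (nat_lit 493) (nat_lit 1516) (nat_lit 523) (nat_lit 2539))) (.a (.d (nat_lit 527) (nat_lit 497) (nat_lit 2541) (nat_lit 561) (nat_lit 525)) (.f (nat_lit 527) (nat_lit 561) (nat_lit 525) (.f (nat_lit 493) (nat_lit 492) (nat_lit 3564) (.f (nat_lit 557) (nat_lit 556) (nat_lit 1548) (.d (nat_lit 462) (nat_lit 430) (nat_lit 5549) (nat_lit 589) (nat_lit 6605)))))))) (.a (.p (nat_lit 462) (.a (.p (nat_lit 430) (.a (.f (nat_lit 429) (nat_lit 397) (nat_lit 7565) (.f (nat_lit 431) (nat_lit 399) (nat_lit 6542) (.f (nat_lit 461) (nat_lit 558) (nat_lit 7597) (.d (nat_lit 460) (nat_lit 432) (nat_lit 1452) (nat_lit 459) (nat_lit 2475))))) (.a (.f (nat_lit 525) (nat_lit 557) (nat_lit 5549) (.f (nat_lit 398) (nat_lit 493) (nat_lit 5517) (.d (nat_lit 399) (nat_lit 367) (nat_lit 6510) (nat_lit 431) (nat_lit 6542)))) (.f (nat_lit 525) (nat_lit 557) (nat_lit 5549) (.f (nat_lit 398) (nat_lit 493) (nat_lit 5517) (.d (nat_lit 397) (nat_lit 365) (nat_lit 7533) (nat_lit 429) (nat_lit 7565))))))) (.a s109600 (.a (.p (nat_lit 558) (.a (.f (nat_lit 557) (nat_lit 589) (nat_lit 5581) (.f (nat_lit 430) (nat_lit 525) (nat_lit 5549) (.d (nat_lit 429) (nat_lit 397) (nat_lit 7565) (nat_lit 461) (nat_lit 7597)))) (.a (.f (nat_lit 589) (nat_lit 557) (nat_lit 5581) (.f (nat_lit 590) (nat_lit 621) (nat_lit 5613) (.d (nat_lit 461) (nat_lit 429) (nat_lit 7597) (nat_lit 493) (nat_lit 7629)))) (.a (.f (nat_lit 461) (nat_lit 429) (nat_lit 7597) (.f (nat_lit 590) (nat_lit 493) (nat_lit 7629) (.f (nat_lit 621) (nat_lit 589) (nat_lit 5613) (.f (nat_lit 622) (nat_lit 653) (nat_lit 5645) (.d (nat_lit 623) (nat_lit 591) (nat_lit 4590) (nat_lit 655) (nat_lit 4622)))))) (.a (.f (nat_lit 461) (nat_lit 429) (nat_lit 7597) (.f (nat_lit 590) (nat_lit 493) (nat_lit 7629) (.f (nat_lit 623) (nat_lit 591) (nat_lit 4590) (.f (nat_lit 622) (nat_lit 655) (nat_lit 4622) (.f (nat_lit 653) (nat_lit 621) (nat_lit 5645) (.f (nat_lit 654) (nat_lit 685) (nat_lit 5677) (.f (nat_lit 525) (nat_lit 557) (nat_lit 7693) (.d (nat_lit 527) (nat_lit 497) (nat_lit 2541) (nat_lit 561) (nat_lit 525))))))))) (.f (nat_lit 557) (nat_lit 589) (nat_lit 5581) (.f (nat_lit 525) (nat_lit 430) (nat_lit 5549) (.d (nat_lit 527) (nat_lit 497) (nat_lit 2541) (nat_lit 561) (nat_lit 525))))))))) (.a s109622 (.a (.p (nat_lit 464) (.a (.f (nat_lit 431) (nat_lit 463) (nat_lit 7599) (.d (nat_lit 399) (nat_lit 430) (nat_lit 6542) (nat_lit 432) (nat_lit 7567))) (.a (.f (nat_lit 433) (nat_lit 465) (nat_lit 6576) (.f (nat_lit 432) (nat_lit 401) (nat_lit 6544) (.f (nat_lit 399) (nat_lit 431) (nat_lit 7567) (.f (nat_lit 400) (nat_lit 367) (nat_lit 7535) (.f (nat_lit 397) (nat_lit 398) (nat_lit 397) (.f (nat_lit 430) (nat_lit 429) (nat_lit 7565) (.f (nat_lit 525) (nat_lit 557) (nat_lit 5549) (.d (nat_lit 527) (nat_lit 497) (nat_lit 2541) (nat_lit 561) (nat_lit 525))))))))) (.a (.f (nat_lit 465) (nat_lit 433) (nat_lit 6576) (.f (nat_lit 463) (nat_lit 493) (nat_lit 1485) (.f (nat_lit 497) (nat_lit 498) (nat_lit 462) (.f (nat_lit 430) (nat_lit 429) (nat_lit 3501) (.d (nat_lit 525) (nat_lit 527) (nat_lit 2541) (nat_lit 557) (nat_lit 5549)))))) (.f (nat_lit 463) (nat_lit 431) (nat_lit 7599) (.d (nat_lit 465) (nat_lit 433) (nat_lit 6576) (nat_lit 493) (nat_lit 1485))))))) (.a s109643 (.p (nat_lit 558) (.a (.f (nat_lit 463) (nat_lit 431) (nat_lit 6574) (.f (nat_lit 461) (nat_lit 429) (nat_lit 7597) (.f (nat_lit 464) (nat_lit 497) (nat_lit 461) (.d (nat_lit 493) (nat_lit 465) (nat_lit 1485) (nat_lit 492) (nat_lit 1484))))) (.a (.f (nat_lit 589) (nat_lit 557) (nat_lit 5581) (.f (nat_lit 590) (nat_lit 621) (nat_lit 5613) (.d (nat_lit 461) (nat_lit 429) (nat_lit 7597) (nat_lit 493) (nat_lit 7629)))) (.a (.f (nat_lit 463) (nat_lit 431) (nat_lit 6574) (.f (nat_lit 461) (nat_lit 429) (nat_lit 7597) (.f (nat_lit 464) (nat_lit 497) (nat_lit 461) (.d (nat_lit 433) (nat_lit 432) (nat_lit 2477) (nat_lit 465) (nat_lit 6576))))) (.f (nat_lit 589) (nat_lit 557) (nat_lit 5581) (.f (nat_lit 590) (nat_lit 621) (nat_lit 5613) (.f (nat_lit 623) (nat_lit 591) (nat_lit 4590) (.f (nat_lit 622) (nat_lit 655) (nat_lit 4622) (.f (nat_lit 525) (nat_lit 493) (nat_lit 7661) (.d (nat_lit 527) (nat_lit 497) (nat_lit 2541) (nat_lit 561) (nat_lit 525)))))))))))))))))) (.a s109681 s109690))))))) (.a (.p (nat_lit 462) (.a (.p (nat_lit 558) (.a (.f (nat_lit 557) (nat_lit 589) (nat_lit 5581) (.f (nat_lit 525) (nat_lit 430) (nat_lit 5549) (.d (nat_lit 527) (nat_lit 556) (nat_lit 1548) (nat_lit 561) (nat_lit 525)))) (.a (.f (nat_lit 431) (nat_lit 463) (nat_lit 6574) (.f (nat_lit 430) (nat_lit 399) (nat_lit 6542) (.d (nat_lit 429) (nat_lit 397) (nat_lit 7565) (nat_lit 461) (nat_lit 7597)))) (.f (nat_lit 463) (nat_lit 431) (nat_lit 6574) (.f (nat_lit 590) (nat_lit 495) (nat_lit 6606) (.d (nat_lit 589) (nat_lit 557) (nat_lit 5581) (nat_lit 621) (nat_lit 5613))))))) (.a (.p (nat_lit 558) (.a (.f (nat_lit 431) (nat_lit 463) (nat_lit 6574) (.f (nat_lit 430) (nat_lit 399) (nat_lit 6542) (.d (nat_lit 429) (nat_lit 397) (nat_lit 7565) (nat_lit 461) (nat_lit 7597)))) (.a (.f (nat_lit 429) (nat_lit 461) (nat_lit 7597) (.f (nat_lit 430) (nat_lit 397) (nat_lit 7565) (.f (nat_lit 525) (nat_lit 557) (nat_lit 5549) (.f (nat_lit 399) (nat_lit 431) (nat_lit 6542) (.d (nat_lit 398) (nat_lit 367) (nat_lit 6510) (nat_lit 493) (nat_lit 5517)))))) (.a (.f (nat_lit 557) (nat_lit 589) (nat_lit 5581) (.f (nat_lit 430) (nat_lit 525) (nat_lit 5549) (.d (nat_lit 429) (nat_lit 397) (nat_lit 7565) (nat_lit 461) (nat_lit 7597)))) (.f (nat_lit 463) (nat_lit 431) (nat_lit 6574) (.f (nat_lit 590) (nat_lit 495) (nat_lit 6606) (.d (nat_lit 589) (nat_lit 557) (nat_lit 5581) (nat_lit 621) (nat_lit 5613)))))))) (.a s109708 (.a (.p (nat_lit 558) (.a (.f (nat_lit 431) (nat_lit 463) (nat_lit 6574) (.f (nat_lit 430) (nat_lit 399) (nat_lit 6542) (.d (nat_lit 429) (nat_lit 397) (nat_lit 7565) (nat_lit 461) (nat_lit 7597)))) (.a (.f (nat_lit 461) (nat_lit 429) (nat_lit 7597) (.f (nat_lit 590) (nat_lit 493) (nat_lit 7629) (.d (nat_lit 589) (nat_lit 557) (nat_lit 5581) (nat_lit 621) (nat_lit 5613)))) (.f (nat_lit 463) (nat_lit 431) (nat_lit 6574) (.f (nat_lit 590) (nat_lit 495) (nat_lit 6606) (.d (nat_lit 589) (nat_lit 557) (nat_lit 5581) (nat_lit 621) (nat_lit 5613))))))) (.a (.p (nat_lit 558) (.a (.f (nat_lit 557) (nat_lit 589) (nat_lit 5581) (.f (nat_lit 525) (nat_lit 430) (nat_lit 5549) (.d (nat_lit 527) (nat_lit 556) (nat_lit 1548) (nat_lit 561) (nat_lit 525)))) (.a (.f (nat_lit 429) (nat_lit 461) (nat_lit 7597) (.f (nat_lit 430) (nat_lit 397) (nat_lit 7565) (.f (nat_lit 525) (nat_lit 557) (nat_lit 5549) (.f (nat_lit 399) (nat_lit 431) (nat_lit 6542) (.d (nat_lit 398) (nat_lit 367) (nat_lit 6510) (nat_lit 493) (nat_lit 5517)))))) (.a (.f (nat_lit 461) (nat_lit 429) (nat_lit 7597) (.f (nat_lit 590) (nat_lit 493) (nat_lit 7629) (.d (nat_lit 589) (nat_lit 557) (nat_lit 5581) (nat_lit 621) (nat_lit 5613)))) (.f (nat_lit 461) (nat_lit 429) (nat_lit 7597) (.f (nat_lit 590) (nat_lit 493) (nat_lit 7629) (.f (nat_lit 623) (nat_lit 591) (nat_lit 4590) (.f (nat_lit 622) (nat_lit 655) (nat_lit 4622) (.d (nat_lit 621) (nat_lit 589) (nat_lit 5613) (nat_lit 653) (nat_lit 5645)))))))))) (.a (.p (nat_lit 558) (.a (.f (nat_lit 431) (nat_lit 463) (nat_lit 6574) (.f (nat_lit 430) (nat_lit 399) (nat_lit 6542) (.d (nat_lit 429) (nat_lit 397) (nat_lit 7565) (nat_lit 461) (nat_lit 7597)))) (.a (.f (nat_lit 461) (nat_lit 429) (nat_lit 7597) (.f (nat_lit 590) (nat_lit 493) (nat_lit 7629) (.f (nat_lit 623) (nat_lit 591) (nat_lit 4590) (.f (nat_lit 622) (nat_lit 655) (nat_lit 4622) (.d (nat_lit 621) (nat_lit 589) (nat_lit 5613) (nat_lit 653) (nat_lit 5645)))))) (.f (nat_lit 463) (nat_lit 431) (nat_lit 6574) (.f (nat_lit 590) (nat_lit 495) (nat_lit 6606) (.f (nat_lit 623) (nat_lit 591) (nat_lit 4590) (.f (nat_lit 622) (nat_lit 655) (nat_lit 4622) (.d (nat_lit 621) (nat_lit 589) (nat_lit 5613) (nat_lit 653) (nat_lit 5645))))))))) (.a (.p (nat_lit 558) (.a (.f (nat_lit 431) (nat_lit 463) (nat_lit 6574) (.f (nat_lit 430) (nat_lit 399) (nat_lit 6542) (.d (nat_lit 429) (nat_lit 397) (nat_lit 7565) (nat_lit 461) (nat_lit 7597)))) (.a (.f (nat_lit 429) (nat_lit 461) (nat_lit 7597) (.f (nat_lit 430) (nat_lit 397) (nat_lit 7565) (.f (nat_lit 525) (nat_lit 557) (nat_lit 5549) (.f (nat_lit 399) (nat_lit 431) (nat_lit 6542) (.d (nat_lit 398) (nat_lit 367) (nat_lit 6510) (nat_lit 493) (nat_lit 5517)))))) (.a (.f (nat_lit 461) (nat_lit 429) (nat_lit 7597) (.f (nat_lit 590) (nat_lit 493) (nat_lit 7629) (.f (nat_lit 495) (nat_lit 463) (nat_lit 6606) (.f (nat_lit 527) (nat_lit 622) (nat_lit 6638) (.f (nat_lit 525) (nat_lit 561) (nat_lit 525) (.d (nat_lit 430) (nat_lit 398) (nat_lit 4494) (nat_lit 557) (nat_lit 5549))))))) (.a (.f (nat_lit 463) (nat_lit 431) (nat_lit 6574) (.f (nat_lit 590) (nat_lit 495) (nat_lit 6606) (.f (nat_lit 623) (nat_lit 591) (nat_lit 4590) (.f (nat_lit 622) (nat_lit 655) (nat_lit 4622) (.f (nat_lit 525) (nat_lit 493) (nat_lit 7661) (.d (nat_lit 557) (nat_lit 430) (nat_lit 5549) (nat_lit 654) (nat_lit 7693))))))) (.f (nat_lit 463) (nat_lit 431) (nat_lit 6574) (.f (nat_lit 461) (nat_lit 429) (nat_lit 7597) (.d (nat_lit 590) (nat_lit 493) (nat_lit 7629) (nat_lit 495) (nat_lit 6606))))))))) (.a (.p (nat_lit 525) (.a (.f (nat_lit 527) (nat_lit 561) (nat_lit 525) (.d (nat_lit 557) (nat_lit 430) (nat_lit 5549) (nat_lit 556) (nat_lit 1548))) (.a (.f (nat_lit 430) (nat_lit 557) (nat_lit 5549) (.f (nat_lit 398) (nat_lit 493) (nat_lit 5517) (.d (nat_lit 399) (nat_lit 367) (nat_lit 6510) (nat_lit 431) (nat_lit 6542)))) (.a (.f (nat_lit 527) (nat_lit 561) (nat_lit 525) (.f (nat_lit 493) (nat_lit 492) (nat_lit 3564) (.f (nat_lit 430) (nat_lit 398) (nat_lit 5517) (.f (nat_lit 429) (nat_lit 397) (nat_lit 7565) (.f (nat_lit 431) (nat_lit 399) (nat_lit 6542) (.f (nat_lit 463) (nat_lit 495) (nat_lit 4527) (.d (nat_lit 428) (nat_lit 427) (nat_lit 427) (nat_lit 464) (nat_lit 428)))))))) (.f (nat_lit 527) (nat_lit 561) (nat_lit 525) (.f (nat_lit 493) (nat_lit 492) (nat_lit 3564) (.d (nat_lit 557) (nat_lit 556) (nat_lit 1548) (nat_lit 589) (nat_lit 6605)))))))) (.a (.p (nat_lit 558) (.a (.f (nat_lit 557) (nat_lit 589) (nat_lit 5581) (.f (nat_lit 525) (nat_lit 430) (nat_lit 5549) (.d (nat_lit 527) (nat_lit 556) (nat_lit 1548) (nat_lit 561) (nat_lit 525)))) (.a (.f (nat_lit 557) (nat_lit 589) (nat_lit 5581) (.f (nat_lit 430) (nat_lit 525) (nat_lit 5549) (.d (nat_lit 429) (nat_lit 397) (nat_lit 7565) (nat_lit 461) (nat_lit 7597)))) (.a (.f (nat_lit 461) (nat_lit 429) (nat_lit 7597) (.f (nat_lit 590) (nat_lit 493) (nat_lit 7629) (.d (nat_lit 589) (nat_lit 557) (nat_lit 5581) (nat_lit 621) (nat_lit 5613)))) (.a (.f (nat_lit 461) (nat_lit 429) (nat_lit 7597) (.f (nat_lit 590) (nat_lit 493) (nat_lit 7629) (.f (nat_lit 623) (nat_lit 591) (nat_lit 4590) (.f (nat_lit 622) (nat_lit 655) (nat_lit 4622) (.d (nat_lit 621) (nat_lit 589) (nat_lit 5613) (nat_lit 653) (nat_lit 5645)))))) (.f (nat_lit 461) (nat_lit 429) (nat_lit 7597) (.f (nat_lit 590) (nat_lit 493) (nat_lit 7629) (.f (nat_lit 495) (nat_lit 463) (nat_lit 6606) (.f (nat_lit 527) (nat_lit 622) (nat_lit 6638) (.f (nat_lit 525) (nat_lit 561) (nat_lit 525) (.d (nat_lit 430) (nat_lit 398) (nat_lit 4494) (nat_lit 557) (nat_lit 5549)))))))))))) (.a (.p (nat_lit 558) (.a (.f (nat_lit 557) (nat_lit 589) (nat_lit 5581) (.f (nat_lit 525) (nat_lit 430) (nat_lit 5549) (.d (nat_lit 527) (nat_lit 556) (nat_lit 1548) (nat_lit 561) (nat_lit 525)))) (.a (.f (nat_lit 463) (nat_lit 431) (nat_lit 6574) (.f (nat_lit 590) (nat_lit 495) (nat_lit 6606) (.d (nat_lit 589) (nat_lit 557) (nat_lit 5581) (nat_lit 621) (nat_lit 5613)))) (.a (.f (nat_lit 463) (nat_lit 431) (nat_lit 6574) (.f (nat_lit 590) (nat_lit 495) (nat_lit 6606) (.f (nat_lit 623) (nat_lit 591) (nat_lit 4590) (.f (nat_lit 622) (nat_lit 655) (nat_lit 4622) (.d (nat_lit 621) (nat_lit 589) (nat_lit 5613) (nat_lit 653) (nat_lit 5645)))))) (.f (nat_lit 463) (nat_lit 431) (nat_lit 6574) (.f (nat_lit 590) (nat_lit 495) (nat_lit 6606) (.f (nat_lit 623) (nat_lit 591) (nat_lit 4590) (.f (nat_lit 622) (nat_lit 655) (nat_lit 4622) (.f (nat_lit 525) (nat_lit 493) (nat_lit 7661) (.d (nat_lit 557) (nat_lit 430) (nat_lit 5549) (nat_lit 654) (nat_lit 7693))))))))))) (.p (nat_lit 492) (.a (.p (nat_lit 558) (.a (.f (nat_lit 463) (nat_lit 431) (nat_lit 6574) (.f (nat_lit 493) (nat_lit 491) (nat_lit 2507) (.d (nat_lit 590) (nat_lit 461) (nat_lit 7629) (nat_lit 495) (nat_lit 6606)))) (.a (.f (nat_lit 463) (nat_lit 431) (nat_lit 6574) (.f (nat_lit 493) (nat_lit 491) (nat_lit 2507) (.d (nat_lit 527) (nat_lit 495) (nat_lit 492) (nat_lit 525) (nat_lit 3564)))) (.a (.f (nat_lit 461) (nat_lit 429) (nat_lit 7597) (.f (nat_lit 493) (nat_lit 590) (nat_lit 7629) (.d (nat_lit 527) (nat_lit 491) (nat_lit 491) (nat_lit 525) (nat_lit 3564)))) (.f (nat_lit 463) (nat_lit 431) (nat_lit 6574) (.f (nat_lit 590) (nat_lit 495) (nat_lit 6606) (.d (nat_lit 589) (nat_lit 557) (nat_lit 5581) (nat_lit 621) (nat_lit 5613)))))))) (.a (.p (nat_lit 558) (.a (.f (nat_lit 463) (nat_lit 431) (nat_lit 6574) (.f (nat_lit 493) (nat_lit 491) (nat_lit 2507) (.d (nat_lit 590) (nat_lit 461) (nat_lit 7629) (nat_lit 495) (nat_lit 6606)))) (.a (.f (nat_lit 463) (nat_lit 431) (nat_lit 6574) (.f (nat_lit 493) (nat_lit 491) (nat_lit 2507) (.d (nat_lit 464) (nat_lit 461) (nat_lit 1484) (nat_lit 465) (nat_lit 1485)))) (.a (.f (nat_lit 461) (nat_lit 429) (nat_lit 7597) (.f (nat_lit 493) (nat_lit 590) (nat_lit 7629) (.f (nat_lit 491) (nat_lit 490) (nat_lit 2506) (.f (nat_lit 459) (nat_lit 458) (nat_lit 3530) (.f (nat_lit 460) (nat_lit 495) (nat_lit 459) (.f (nat_lit 523) (nat_lit 522) (nat_lit 1514) (.d (nat_lit 428) (nat_lit 396) (nat_lit 5515) (nat_lit 555) (nat_lit 6571)))))))) (.f (nat_lit 463) (nat_lit 431) (nat_lit 6574) (.f (nat_lit 590) (nat_lit 495) (nat_lit 6606) (.d (nat_lit 589) (nat_lit 557) (nat_lit 5581) (nat_lit 621) (nat_lit 5613)))))))) (.a (.p (nat_lit 493) (.a (.d (nat_lit 527) (nat_lit 491) (nat_lit 491) (nat_lit 495) (nat_lit 492)) (.a (.f (nat_lit 491) (nat_lit 463) (nat_lit 2507) (.d (nat_lit 490) (nat_lit 461) (nat_lit 2506) (nat_lit 525) (nat_lit 490))) (.d (nat_lit 527) (nat_lit 495) (nat_lit 492) (nat_lit 525) (nat_lit 3564))))) (.a (.p (nat_lit 527) (.a (.d (nat_lit 493) (nat_lit 491) (nat_lit 491) (nat_lit 495) (nat_lit 492)) (.a (.d (nat_lit 493) (nat_lit 491) (nat_lit 491) (nat_lit 525) (nat_lit 3564)) (.a (.f (nat_lit 525) (nat_lit 561) (nat_lit 525) (.f (nat_lit 524) (nat_lit 491) (nat_lit 3563) (.d (nat_lit 556) (nat_lit 555) (nat_lit 1547) (nat_lit 557) (nat_lit 1548)))) (.d (nat_lit 525) (nat_lit 493) (nat_lit 3564) (nat_lit 561) (nat_lit 525)))))) (.a (.p (nat_lit 558) (.a (.f (nat_lit 461) (nat_lit 429) (nat_lit 7597) (.f (nat_lit 493) (nat_lit 590) (nat_lit 7629) (.d (nat_lit 527) (nat_lit 491) (nat_lit 491) (nat_lit 525) (nat_lit 3564)))) (.a (.f (nat_lit 463) (nat_lit 431) (nat_lit 6574) (.f (nat_lit 493) (nat_lit 491) (nat_lit 2507) (.d (nat_lit 464) (nat_lit 461) (nat_lit 1484) (nat_lit 465) (nat_lit 1485)))) (.a (.f (nat_lit 557) (nat_lit 589) (nat_lit 5581) (.f (nat_lit 461) (nat_lit 429) (nat_lit 7597) (.f (nat_lit 463) (nat_lit 431) (nat_lit 6574) (.f (nat_lit 460) (nat_lit 491) (nat_lit 1483) (.f (nat_lit 428) (nat_lit 427) (nat_lit 3499) (.f (nat_lit 525) (nat_lit 524) (nat_lit 4524) (.d (nat_lit 527) (nat_lit 556) (nat_lit 1548) (nat_lit 561) (nat_lit 525)))))))) (.a (.f (nat_lit 589) (nat_lit 557) (nat_lit 5581) (.f (nat_lit 590) (nat_lit 621) (nat_lit 5613) (.f (nat_lit 463) (nat_lit 431) (nat_lit 6574) (.f (nat_lit 493) (nat_lit 491) (nat_lit 2507) (.d (nat_lit 525) (nat_lit 527) (nat_lit 3564) (nat_lit 622) (nat_lit 7661)))))) (.f (nat_lit 461) (nat_lit 429) (nat_lit 7597) (.f (nat_lit 493) (nat_lit 590) (nat_lit 7629) (.d (nat_lit 463) (nat_lit 431) (nat_lit 6574) (nat_lit 464) (nat_lit 1484))))))))) (.a (.p (nat_lit 558) (.a (.f (nat_lit 463) (nat_lit 431) (nat_lit 6574) (.f (nat_lit 590) (nat_lit 495) (nat_lit 6606) (.d (nat_lit 589) (nat_lit 557) (nat_lit 5581) (nat_lit 621) (nat_lit 5613)))) (.a (.f (nat_lit 557) (nat_lit 589) (nat_lit 5581) (.f (nat_lit 461) (nat_lit 429) (nat_lit 7597) (.f (nat_lit 463) (nat_lit 431) (nat_lit 6574) (.f (nat_lit 460) (nat_lit 491) (nat_lit 1483) (.f (nat_lit 428) (nat_lit 427) (nat_lit 3499) (.f (nat_lit 525) (nat_lit 524) (nat_lit 4524) (.d (nat_lit 527) (nat_lit 556) (nat_lit 1548) (nat_lit 561) (nat_lit 525)))))))) (.a (.f (nat_lit 589) (nat_lit 557) (nat_lit 5581) (.f (nat_lit 590) (nat_lit 621) (nat_lit 5613) (.f (nat_lit 623) (nat_lit 591) (nat_lit 4590) (.f (nat_lit 622) (nat_lit 655) (nat_lit 4622) (.f (nat_lit 527) (nat_lit 495) (nat_lit 6638) (.f (nat_lit 525) (nat_lit 561) (nat_lit 525) (.f (nat_lit 524) (nat_lit 491) (nat_lit 3563) (.f (nat_lit 555) (nat_lit 556) (nat_lit 1547) (.f (nat_lit 523) (nat_lit 554) (nat_lit 1546) (.d (nat_lit 587) (nat_lit 588) (nat_lit 587) (nat_lit 619) (nat_lit 6635))))))))))) (.a (.f (nat_lit 463) (nat_lit 431) (nat_lit 6574) (.f (nat_lit 590) (nat_lit 495) (nat_lit 6606) (.f (nat_lit 623) (nat_lit 591) (nat_lit 4590) (.f (nat_lit 622) (nat_lit 655) (nat_lit 4622) (.d (nat_lit 621) (nat_lit 589) (nat_lit 5613) (nat_lit 653) (nat_lit 5645)))))) (.f (nat_lit 463) (nat_lit 431) (nat_lit 6574) (.f (nat_lit 461) (nat_lit 429) (nat_lit 7597) (.f (nat_lit 460) (nat_lit 491) (nat_lit 1483) (.d (nat_lit 495) (nat_lit 459) (nat_lit 459) (nat_lit 590) (nat_lit 6606)))))))))) (.p (nat_lit 558) (.a (.f (nat_lit 463) (nat_lit 431) (nat_lit 6574) (.f (nat_lit 590) (nat_lit 495) (nat_lit 6606) (.d (nat_lit 589) (nat_lit 557) (nat_lit 5581) (nat_lit 621) (nat_lit 5613)))) (.a (.f (nat_lit 463) (nat_lit 431) (nat_lit 6574) (.f (nat_lit 461) (nat_lit 429) (nat_lit 7597) (.f (nat_lit 493) (nat_lit 464) (nat_lit 1484) (.d (nat_lit 527) (nat_lit 495) (nat_lit 492) (nat_lit 525) (nat_lit 3564))))) (.a (.f (nat_lit 461) (nat_lit 429) (nat_lit 7597) (.f (nat_lit 493) (nat_lit 590) (nat_lit 7629) (.d (nat_lit 527) (nat_lit 495) (nat_lit 492) (nat_lit 525) (nat_lit 3564)))) (.f (nat_lit 461) (nat_lit 429) (nat_lit 7597) (.f (nat_lit 493) (nat_lit 590) (nat_lit 7629) (.d (nat_lit 463) (nat_lit 431) (nat_lit 6574) (nat_lit 464) (nat_lit 1484)))))))))))))))))))))))))) (.a (.p (nat_lit 558) (.a (.p (nat_lit 590) (.a (.f (nat_lit 495) (nat_lit 463) (nat_lit 6606) (.f (nat_lit 493) (nat_lit 461) (nat_lit 7629) (.d (nat_lit 527) (nat_lit 492) (nat_lit 492) (nat_lit 622) (nat_lit 6638)))) (.a (.f (nat_lit 589) (nat_lit 621) (nat_lit 5613) (.f (nat_lit 462) (nat_lit 557) (nat_lit 5581) (.d (nat_lit 463) (nat_lit 431) (nat_lit 6574) (nat_lit 495) (nat_lit 6606)))) (.f (nat_lit 493) (nat_lit 461) (nat_lit 7629) (.f (nat_lit 525) (nat_lit 622) (nat_lit 7661) (.d (nat_lit 527) (nat_lit 492) (nat_lit 3564) (nat_lit 561) (nat_lit 525))))))) (.a (.p (nat_lit 590) (.a (.f (nat_lit 589) (nat_lit 621) (nat_lit 5613) (.f (nat_lit 462) (nat_lit 557) (nat_lit 5581) (.d (nat_lit 463) (nat_lit 431) (nat_lit 6574) (nat_lit 495) (nat_lit 6606)))) (.a (.f (nat_lit 589) (nat_lit 621) (nat_lit 5613) (.f (nat_lit 462) (nat_lit 557) (nat_lit 5581) (.d (nat_lit 461) (nat_lit 429) (nat_lit 7597) (nat_lit 493) (nat_lit 7629)))) (.f (nat_lit 493) (nat_lit 461) (nat_lit 7629) (.f (nat_lit 525) (nat_lit 622) (nat_lit 7661) (.f (nat_lit 495) (nat_lit 463) (nat_lit 6606) (.d (nat_lit 524) (nat_lit 496) (nat_lit 1516) (nat_lit 523) (nat_lit 2539)))))))) (.a s109516 (.a (.p (nat_lit 590) (.a (.f (nat_lit 495) (nat_lit 463) (nat_lit 6606) (.f (nat_lit 493) (nat_lit 461) (nat_lit 7629) (.d (nat_lit 527) (nat_lit 492) (nat_lit 492) (nat_lit 622) (nat_lit 6638)))) (.a (.f (nat_lit 589) (nat_lit 621) (nat_lit 5613) (.f (nat_lit 462) (nat_lit 557) (nat_lit 5581) (.d (nat_lit 463) (nat_lit 431) (nat_lit 6574) (nat_lit 495) (nat_lit 6606)))) (.f (nat_lit 589) (nat_lit 621) (nat_lit 5613) (.f (nat_lit 462) (nat_lit 557) (nat_lit 5581) (.d (nat_lit 461) (nat_lit 429) (nat_lit 7597) (nat_lit 493) (nat_lit 7629))))))) (.a (.p (nat_lit 590) (.a (.f (nat_lit 493) (nat_lit 461) (nat_lit 7629) (.f (nat_lit 525) (nat_lit 622) (nat_lit 7661) (.d (nat_lit 527) (nat_lit 492) (nat_lit 3564) (nat_lit 561) (nat_lit 525)))) (.a (.f (nat_lit 589) (nat_lit 621) (nat_lit 5613) (.f (nat_lit 462) (nat_lit 557) (nat_lit 5581) (.d (nat_lit 461) (nat_lit 429) (nat_lit 7597) (nat_lit 493) (nat_lit 7629)))) (.f (nat_lit 621) (nat_lit 589) (nat_lit 5613) (.f (nat_lit 622) (nat_lit 653) (nat_lit 5645) (.f (nat_lit 655) (nat_lit 623) (nat_lit 4622) (.f (nat_lit 654) (nat_lit 687) (nat_lit 4654) (.f (nat_lit 527) (nat_lit 495) (nat_lit 6638) (.d (nat_lit 525) (nat_lit 557) (nat_lit 7693) (nat_lit 561) (nat_lit 525)))))))))) (.a s108140 (.a s108163 (.a (.p (nat_lit 590) (.a (.f (nat_lit 493) (nat_lit 461) (nat_lit 7629) (.f (nat_lit 525) (nat_lit 622) (nat_lit 7661) (.d (nat_lit 527) (nat_lit 492) (nat_lit 3564) (nat_lit 561) (nat_lit 525)))) (.a (.f (nat_lit 589) (nat_lit 621) (nat_lit 5613) (.f (nat_lit 462) (nat_lit 557) (nat_lit 5581) (.d (nat_lit 461) (nat_lit 429) (nat_lit 7597) (nat_lit 493) (nat_lit 7629)))) (.a (.f (nat_lit 589) (nat_lit 621) (nat_lit 5613) (.f (nat_lit 462) (nat_lit 557) (nat_lit 5581) (.f (nat_lit 431) (nat_lit 463) (nat_lit 6574) (.f (nat_lit 430) (nat_lit 399) (nat_lit 6542) (.d (nat_lit 429) (nat_lit 397) (nat_lit 7565) (nat_lit 461) (nat_lit 7597)))))) (.f (nat_lit 621) (nat_lit 589) (nat_lit 5613) (.f (nat_lit 622) (nat_lit 653) (nat_lit 5645) (.f (nat_lit 525) (nat_lit 493) (nat_lit 7661) (.f (nat_lit 527) (nat_lit 561) (nat_lit 525) (.d (nat_lit 557) (nat_lit 556) (nat_lit 1548) (nat_lit 654) (nat_lit 7693)))))))))) (.a (.p (nat_lit 590) (.a (.f (nat_lit 495) (nat_lit 463) (nat_lit 6606) (.f (nat_lit 493) (nat_lit 461) (nat_lit 7629) (.d (nat_lit 527) (nat_lit 492) (nat_lit 492) (nat_lit 622) (nat_lit 6638)))) (.a (.f (nat_lit 493) (nat_lit 461) (nat_lit 7629) (.f (nat_lit 525) (nat_lit 622) (nat_lit 7661) (.f (nat_lit 495) (nat_lit 463) (nat_lit 6606) (.d (nat_lit 524) (nat_lit 496) (nat_lit 1516) (nat_lit 523) (nat_lit 2539))))) (.a (.f (nat_lit 493) (nat_lit 461) (nat_lit 7629) (.f (nat_lit 525) (nat_lit 622) (nat_lit 7661) (.d (nat_lit 527) (nat_lit 492) (nat_lit 3564) (nat_lit 561) (nat_lit 525)))) (.a (.f (nat_lit 495) (nat_lit 463) (nat_lit 6606) (.f (nat_lit 622) (nat_lit 527) (nat_lit 6638) (.d (nat_lit 621) (nat_lit 589) (nat_lit 5613) (nat_lit 653) (nat_lit 5645)))) (.f (nat_lit 493) (nat_lit 461) (nat_lit 7629) (.f (nat_lit 495) (nat_lit 463) (nat_lit 6606) (.f (nat_lit 492) (nat_lit 527) (nat_lit 492) (.f (nat_lit 524) (nat_lit 523) (nat_lit 1515) (.f (nat_lit 525) (nat_lit 496) (nat_lit 1516) (.f (nat_lit 460) (nat_lit 459) (nat_lit 3531) (.d (nat_lit 428) (nat_lit 396) (nat_lit 4492) (nat_lit 557) (nat_lit 4524))))))))))))) (.a (.p (nat_lit 462) (.a (.f (nat_lit 431) (nat_lit 463) (nat_lit 6574) (.f (nat_lit 430) (nat_lit 399) (nat_lit 6542) (.d (nat_lit 429) (nat_lit 397) (nat_lit 7565) (nat_lit 461) (nat_lit 7597)))) (.a (.f (nat_lit 557) (nat_lit 589) (nat_lit 5581) (.f (nat_lit 430) (nat_lit 525) (nat_lit 5549) (.d (nat_lit 429) (nat_lit 397) (nat_lit 7565) (nat_lit 461) (nat_lit 7597)))) (.f (nat_lit 463) (nat_lit 431) (nat_lit 6574) (.f (nat_lit 495) (nat_lit 590) (nat_lit 6606) (.f (nat_lit 496) (nat_lit 592) (nat_lit 7631) (.d (nat_lit 497) (nat_lit 498) (nat_lit 3534) (nat_lit 525) (nat_lit 1517)))))))) (.p (nat_lit 590) (.a (.f (nat_lit 589) (nat_lit 621) (nat_lit 5613) (.f (nat_lit 462) (nat_lit 557) (nat_lit 5581) (.d (nat_lit 463) (nat_lit 431) (nat_lit 6574) (nat_lit 495) (nat_lit 6606)))) (.a (.f (nat_lit 621) (nat_lit 589) (nat_lit 5613) (.f (nat_lit 622) (nat_lit 653) (nat_lit 5645) (.f (nat_lit 525) (nat_lit 493) (nat_lit 7661) (.f (nat_lit 527) (nat_lit 561) (nat_lit 525) (.d (nat_lit 557) (nat_lit 556) (nat_lit 1548) (nat_lit 654) (nat_lit 7693)))))) (.a (.f (nat_lit 495) (nat_lit 463) (nat_lit 6606) (.f (nat_lit 622) (nat_lit 527) (nat_lit 6638) (.d (nat_lit 621) (nat_lit 589) (nat_lit 5613) (nat_lit 653) (nat_lit 5645)))) (.f (nat_lit 495) (nat_lit 463) (nat_lit 6606) (.f (nat_lit 527) (nat_lit 622) (nat_lit 6638) (.f (nat_lit 525) (nat_lit 561) (nat_lit 525) (.d (nat_lit 524) (nat_lit 496) (nat_lit 2540) (nat_lit 523) (nat_lit 2539)))))))))))))))))))) (.a (.p (nat_lit 496) (.a s109873 (.a (.p (nat_lit 525) (.a (.f (nat_lit 495) (nat_lit 497) (nat_lit 1517) (.d (nat_lit 524) (nat_lit 493) (nat_lit 1516) (nat_lit 523) (nat_lit 2539))) (.a (.d (nat_lit 527) (nat_lit 497) (nat_lit 2541) (nat_lit 561) (nat_lit 525)) (.f (nat_lit 527) (nat_lit 561) (nat_lit 525) (.f (nat_lit 495) (nat_lit 524) (nat_lit 2540) (.f (nat_lit 493) (nat_lit 492) (nat_lit 3564) (.f (nat_lit 461) (nat_lit 460) (nat_lit 3532) (.d (nat_lit 429) (nat_lit 397) (nat_lit 4493) (nat_lit 558) (nat_lit 4525))))))))) (.a s109880 (.a (.p (nat_lit 464) (.a (.f (nat_lit 465) (nat_lit 433) (nat_lit 6576) (.f (nat_lit 463) (nat_lit 431) (nat_lit 7599) (.f (nat_lit 462) (nat_lit 493) (nat_lit 1485) (.d (nat_lit 497) (nat_lit 498) (nat_lit 462) (nat_lit 592) (nat_lit 6608))))) (.a (.f (nat_lit 431) (nat_lit 463) (nat_lit 7599) (.f (nat_lit 432) (nat_lit 399) (nat_lit 7567) (.d (nat_lit 433) (nat_lit 401) (nat_lit 6544) (nat_lit 465) (nat_lit 6576)))) (.a s109904 (.a s109915 (.a (.p (nat_lit 462) (.a (.f (nat_lit 465) (nat_lit 433) (nat_lit 6576) (.f (nat_lit 463) (nat_lit 493) (nat_lit 1485) (.d (nat_lit 497) (nat_lit 498) (nat_lit 462) (nat_lit 592) (nat_lit 6608)))) (.a (.f (nat_lit 465) (nat_lit 433) (nat_lit 6576) (.f (nat_lit 463) (nat_lit 493) (nat_lit 1485) (.d (nat_lit 497) (nat_lit 461) (nat_lit 461) (nat_lit 498) (nat_lit 462)))) (.a (.p (nat_lit 430) (.a (.f (nat_lit 525) (nat_lit 557) (nat_lit 5549) (.f (nat_lit 398) (nat_lit 493) (nat_lit 5517) (.d (nat_lit 397) (nat_lit 365) (nat_lit 7533) (nat_lit 429) (nat_lit 7565)))) (.a (.f (nat_lit 397) (nat_lit 429) (nat_lit 7565) (.f (nat_lit 398) (nat_lit 365) (nat_lit 7533) (.f (nat_lit 399) (nat_lit 367) (nat_lit 6510) (.f (nat_lit 433) (nat_lit 465) (nat_lit 6576) (.d (nat_lit 432) (nat_lit 400) (nat_lit 397) (nat_lit 401) (nat_lit 6544)))))) (.a (.f (nat_lit 525) (nat_lit 557) (nat_lit 5549) (.f (nat_lit 398) (nat_lit 493) (nat_lit 5517) (.f (nat_lit 367) (nat_lit 399) (nat_lit 6510) (.f (nat_lit 366) (nat_lit 335) (nat_lit 6478) (.d (nat_lit 365) (nat_lit 333) (nat_lit 7501) (nat_lit 397) (nat_lit 7533)))))) (.a (.f (nat_lit 557) (nat_lit 525) (nat_lit 5549) (.f (nat_lit 558) (nat_lit 589) (nat_lit 5581) (.d (nat_lit 429) (nat_lit 397) (nat_lit 7565) (nat_lit 461) (nat_lit 7597)))) (.f (nat_lit 525) (nat_lit 557) (nat_lit 5549) (.f (nat_lit 398) (nat_lit 493) (nat_lit 5517) (.f (nat_lit 433) (nat_lit 465) (nat_lit 6576) (.f (nat_lit 399) (nat_lit 367) (nat_lit 6510) (.f (nat_lit 401) (nat_lit 432) (nat_lit 6544) (.d (nat_lit 400) (nat_lit 429) (nat_lit 1421) (nat_lit 434) (nat_lit 398)))))))))))) (.a s109957 (.f (nat_lit 465) (nat_lit 433) (nat_lit 6576) (.f (nat_lit 497) (nat_lit 592) (nat_lit 6608) (.d (nat_lit 463) (nat_lit 461) (nat_lit 461) (nat_lit 498) (nat_lit 462))))))))) (.p (nat_lit 462) (.a (.f (nat_lit 463) (nat_lit 431) (nat_lit 7599) (.f (nat_lit 461) (nat_lit 497) (nat_lit 461) (.f (nat_lit 493) (nat_lit 492) (nat_lit 1484) (.d (nat_lit 429) (nat_lit 397) (nat_lit 4493) (nat_lit 428) (nat_lit 3500))))) (.a (.p (nat_lit 430) (.a (.f (nat_lit 399) (nat_lit 431) (nat_lit 6542) (.f (nat_lit 398) (nat_lit 367) (nat_lit 6510) (.d (nat_lit 525) (nat_lit 493) (nat_lit 5517) (nat_lit 557) (nat_lit 5549)))) (.a (.f (nat_lit 399) (nat_lit 431) (nat_lit 6542) (.f (nat_lit 398) (nat_lit 367) (nat_lit 6510) (.d (nat_lit 397) (nat_lit 365) (nat_lit 7533) (nat_lit 429) (nat_lit 7565)))) (.a (.f (nat_lit 525) (nat_lit 557) (nat_lit 5549) (.f (nat_lit 398) (nat_lit 493) (nat_lit 5517) (.d (nat_lit 397) (nat_lit 365) (nat_lit 7533) (nat_lit 429) (nat_lit 7565)))) (.f (nat_lit 429) (nat_lit 397) (nat_lit 7565) (.f (nat_lit 431) (nat_lit 399) (nat_lit 6542) (.f (nat_lit 461) (nat_lit 558) (nat_lit 7597) (.d (nat_lit 460) (nat_lit 432) (nat_lit 1452) (nat_lit 459) (nat_lit 2475))))))))) (.a s109957 (.a (.f (nat_lit 463) (nat_lit 431) (nat_lit 7599) (.f (nat_lit 461) (nat_lit 497) (nat_lit 461) (.d (nat_lit 429) (nat_lit 428) (nat_lit 3500) (nat_lit 558) (nat_lit 7597)))) (.f (nat_lit 431) (nat_lit 463) (nat_lit 7599) (.d (nat_lit 399) (nat_lit 430) (nat_lit 6542) (nat_lit 432) (nat_lit 7567)))))))))))))) (.a (.p (nat_lit 464) (.a (.f (nat_lit 463) (nat_lit 431) (nat_lit 7599) (.f (nat_lit 495) (nat_lit 592) (nat_lit 7631) (.f (nat_lit 497) (nat_lit 525) (nat_lit 1517) (.d (nat_lit 462) (nat_lit 461) (nat_lit 461) (nat_lit 498) (nat_lit 3534))))) (.a (.f (nat_lit 431) (nat_lit 463) (nat_lit 7599) (.f (nat_lit 432) (nat_lit 399) (nat_lit 7567) (.d (nat_lit 433) (nat_lit 401) (nat_lit 6544) (nat_lit 465) (nat_lit 6576)))) (.f (nat_lit 465) (nat_lit 433) (nat_lit 6576) (.f (nat_lit 497) (nat_lit 592) (nat_lit 6608) (.d (nat_lit 495) (nat_lit 466) (nat_lit 2510) (nat_lit 525) (nat_lit 1517))))))) (.a (.p (nat_lit 525) (.a (.f (nat_lit 495) (nat_lit 497) (nat_lit 1517) (.d (nat_lit 524) (nat_lit 493) (nat_lit 1516) (nat_lit 523) (nat_lit 2539))) (.a (.d (nat_lit 527) (nat_lit 497) (nat_lit 2541) (nat_lit 561) (nat_lit 525)) (.f (nat_lit 527) (nat_lit 561) (nat_lit 525) (.f (nat_lit 493) (nat_lit 492) (nat_lit 3564) (.f (nat_lit 557) (nat_lit 556) (nat_lit 1548) (.d (nat_lit 462) (nat_lit 430) (nat_lit 5549) (nat_lit 589) (nat_lit 6605)))))))) (.p (nat_lit 464) (.a (.f (nat_lit 465) (nat_lit 433) (nat_lit 6576) (.f (nat_lit 495) (nat_lit 493) (nat_lit 2509) (.d (nat_lit 466) (nat_lit 463) (nat_lit 1486) (nat_lit 467) (nat_lit 1487)))) (.a (.f (nat_lit 433) (nat_lit 465) (nat_lit 6576) (.f (nat_lit 432) (nat_lit 401) (nat_lit 6544) (.f (nat_lit 399) (nat_lit 431) (nat_lit 7567) (.f (nat_lit 400) (nat_lit 367) (nat_lit 7535) (.f (nat_lit 527) (nat_lit 495) (nat_lit 5519) (.f (nat_lit 525) (nat_lit 561) (nat_lit 525) (.f (nat_lit 557) (nat_lit 556) (nat_lit 1548) (.f (nat_lit 493) (nat_lit 492) (nat_lit 3564) (.d (nat_lit 462) (nat_lit 430) (nat_lit 5549) (nat_lit 589) (nat_lit 6605)))))))))) (.a (.f (nat_lit 431) (nat_lit 463) (nat_lit 7599) (.f (nat_lit 432) (nat_lit 399) (nat_lit 7567) (.d (nat_lit 433) (nat_lit 401) (nat_lit 6544) (nat_lit 465) (nat_lit 6576)))) (.f (nat_lit 463) (nat_lit 431) (nat_lit 7599) (.f (nat_lit 495) (nat_lit 592) (nat_lit 7631) (.f (nat_lit 493) (nat_lit 492) (nat_lit 2508) (.f (nat_lit 525) (nat_lit 524) (nat_lit 1516) (.f (nat_lit 461) (nat_lit 460) (nat_lit 3532) (.d (nat_lit 429) (nat_lit 397) (nat_lit 4493) (nat_lit 558) (nat_lit 4525)))))))))))))))))) (.a (.p (nat_lit 495) (.a (.p (nat_lit 592) (.a (.f (nat_lit 463) (nat_lit 496) (nat_lit 7631) (.d (nat_lit 527) (nat_lit 431) (nat_lit 4527) (nat_lit 624) (nat_lit 7663))) (.a (.f (nat_lit 496) (nat_lit 463) (nat_lit 7631) (.f (nat_lit 465) (nat_lit 497) (nat_lit 6608) (.d (nat_lit 464) (nat_lit 433) (nat_lit 6576) (nat_lit 493) (nat_lit 2509)))) (.f (nat_lit 624) (nat_lit 527) (nat_lit 7663) (.f (nat_lit 655) (nat_lit 623) (nat_lit 5647) (.f (nat_lit 656) (nat_lit 687) (nat_lit 5679) (.d (nat_lit 657) (nat_lit 625) (nat_lit 4624) (nat_lit 689) (nat_lit 4656)))))))) (.a (.p (nat_lit 496) (.a (.p (nat_lit 464) (.a (.d (nat_lit 465) (nat_lit 433) (nat_lit 6576) (nat_lit 493) (nat_lit 2509)) (.a (.f (nat_lit 463) (nat_lit 431) (nat_lit 7599) (.f (nat_lit 493) (nat_lit 492) (nat_lit 2508) (.f (nat_lit 461) (nat_lit 460) (nat_lit 3532) (.f (nat_lit 462) (nat_lit 497) (nat_lit 461) (.d (nat_lit 429) (nat_lit 397) (nat_lit 4493) (nat_lit 428) (nat_lit 3500)))))) (.f (nat_lit 463) (nat_lit 431) (nat_lit 7599) (.d (nat_lit 465) (nat_lit 433) (nat_lit 6576) (nat_lit 466) (nat_lit 1486)))))) (.a (.p (nat_lit 493) (.a (.f (nat_lit 461) (nat_lit 460) (nat_lit 3532) (.f (nat_lit 462) (nat_lit 497) (nat_lit 3533) (.d (nat_lit 558) (nat_lit 429) (nat_lit 7597) (nat_lit 590) (nat_lit 7629)))) (.a (.f (nat_lit 527) (nat_lit 492) (nat_lit 492) (.f (nat_lit 497) (nat_lit 498) (nat_lit 1518) (.d (nat_lit 461) (nat_lit 460) (nat_lit 3532) (nat_lit 462) (nat_lit 3533)))) (.a (.f (nat_lit 492) (nat_lit 527) (nat_lit 492) (.d (nat_lit 460) (nat_lit 459) (nat_lit 3531) (nat_lit 461) (nat_lit 3532))) (.a (.f (nat_lit 492) (nat_lit 527) (nat_lit 492) (.f (nat_lit 459) (nat_lit 460) (nat_lit 3531) (.f (nat_lit 491) (nat_lit 458) (nat_lit 3530) (.d (nat_lit 523) (nat_lit 522) (nat_lit 1514) (nat_lit 524) (nat_lit 1515))))) (.f (nat_lit 527) (nat_lit 492) (nat_lit 492) (.f (nat_lit 431) (nat_lit 463) (nat_lit 4527) (.f (nat_lit 497) (nat_lit 498) (nat_lit 1518) (.f (nat_lit 462) (nat_lit 461) (nat_lit 3533) (.d (nat_lit 430) (nat_lit 398) (nat_lit 4494) (nat_lit 399) (nat_lit 6542))))))))))) (.a s110032 (.a (.p (nat_lit 464) (.a (.d (nat_lit 465) (nat_lit 433) (nat_lit 6576) (nat_lit 493) (nat_lit 2509)) (.a (.f (nat_lit 431) (nat_lit 463) (nat_lit 7599) (.f (nat_lit 432) (nat_lit 399) (nat_lit 7567) (.f (nat_lit 401) (nat_lit 433) (nat_lit 6544) (.d (nat_lit 400) (nat_lit 369) (nat_lit 6512) (nat_lit 527) (nat_lit 5519))))) (.f (nat_lit 463) (nat_lit 431) (nat_lit 7599) (.d (nat_lit 465) (nat_lit 466) (nat_lit 1486) (nat_lit 493) (nat_lit 2509)))))) (.p (nat_lit 464) (.a (.f (nat_lit 463) (nat_lit 431) (nat_lit 7599) (.d (nat_lit 465) (nat_lit 433) (nat_lit 6576) (nat_lit 466) (nat_lit 1486))) (.a (.f (nat_lit 465) (nat_lit 433) (nat_lit 6576) (.d (nat_lit 466) (nat_lit 467) (nat_lit 1487) (nat_lit 497) (nat_lit 2510))) (.a (.f (nat_lit 431) (nat_lit 463) (nat_lit 7599) (.f (nat_lit 432) (nat_lit 399) (nat_lit 7567) (.f (nat_lit 401) (nat_lit 433) (nat_lit 6544) (.d (nat_lit 400) (nat_lit 369) (nat_lit 6512) (nat_lit 527) (nat_lit 5519))))) (.f (nat_lit 431) (nat_lit 463) (nat_lit 7599) (.f (nat_lit 432) (nat_lit 399) (nat_lit 7567) (.f (nat_lit 527) (nat_lit 400) (nat_lit 5519) (.f (nat_lit 497) (nat_lit 498) (nat_lit 1518) (.f (nat_lit 465) (nat_lit 466) (nat_lit 2510) (.f (nat_lit 462) (nat_lit 461) (nat_lit 3533) (.d (nat_lit 430) (nat_lit 398) (nat_lit 4494) (nat_lit 429) (nat_lit 429))))))))))))))))) (.a (.p (nat_lit 496) (.a (.f (nat_lit 463) (nat_lit 592) (nat_lit 7631) (.d (nat_lit 431) (nat_lit 399) (nat_lit 4495) (nat_lit 464) (nat_lit 7599))) (.a (.p (nat_lit 464) (.a (.d (nat_lit 465) (nat_lit 433) (nat_lit 6576) (nat_lit 493) (nat_lit 2509)) (.a (.f (nat_lit 463) (nat_lit 431) (nat_lit 7599) (.f (nat_lit 493) (nat_lit 492) (nat_lit 2508) (.f (nat_lit 461) (nat_lit 460) (nat_lit 3532) (.f (nat_lit 462) (nat_lit 497) (nat_lit 461) (.d (nat_lit 429) (nat_lit 397) (nat_lit 4493) (nat_lit 428) (nat_lit 3500)))))) (.f (nat_lit 463) (nat_lit 431) (nat_lit 7599) (.d (nat_lit 465) (nat_lit 433) (nat_lit 6576) (nat_lit 466) (nat_lit 1486)))))) (.a (.f (nat_lit 463) (nat_lit 592) (nat_lit 7631) (.f (nat_lit 431) (nat_lit 399) (nat_lit 4495) (.d (nat_lit 558) (nat_lit 462) (nat_lit 6574) (nat_lit 590) (nat_lit 6606)))) s110049)))) (.a (.p (nat_lit 462) (.a (.p (nat_lit 558) (.a (.d (nat_lit 463) (nat_lit 431) (nat_lit 6574) (nat_lit 590) (nat_lit 6606)) (.a (.f (nat_lit 463) (nat_lit 431) (nat_lit 6574) (.f (nat_lit 461) (nat_lit 429) (nat_lit 7597) (.f (nat_lit 460) (nat_lit 459) (nat_lit 459) (.f (nat_lit 492) (nat_lit 491) (nat_lit 1483) (.d (nat_lit 493) (nat_lit 464) (nat_lit 1484) (nat_lit 527) (nat_lit 492)))))) (.f (nat_lit 461) (nat_lit 429) (nat_lit 7597) (.f (nat_lit 590) (nat_lit 493) (nat_lit 7629) (.d (nat_lit 589) (nat_lit 557) (nat_lit 5581) (nat_lit 621) (nat_lit 5613))))))) (.a (.p (nat_lit 558) (.a (.d (nat_lit 463) (nat_lit 431) (nat_lit 6574) (nat_lit 590) (nat_lit 6606)) (.a (.f (nat_lit 463) (nat_lit 431) (nat_lit 6574) (.f (nat_lit 461) (nat_lit 429) (nat_lit 7597) (.f (nat_lit 460) (nat_lit 459) (nat_lit 459) (.f (nat_lit 492) (nat_lit 491) (nat_lit 1483) (.f (nat_lit 464) (nat_lit 493) (nat_lit 1484) (.f (nat_lit 465) (nat_lit 466) (nat_lit 1486) (.d (nat_lit 433) (nat_lit 432) (nat_lit 2477) (nat_lit 434) (nat_lit 2478)))))))) (.f (nat_lit 461) (nat_lit 429) (nat_lit 7597) (.f (nat_lit 590) (nat_lit 493) (nat_lit 7629) (.d (nat_lit 589) (nat_lit 557) (nat_lit 5581) (nat_lit 621) (nat_lit 5613))))))) (.a (.p (nat_lit 430) (.a (.f (nat_lit 431) (nat_lit 399) (nat_lit 6542) (.d (nat_lit 463) (nat_lit 527) (nat_lit 4527) (nat_lit 558) (nat_lit 6574))) (.a (.f (nat_lit 431) (nat_lit 399) (nat_lit 6542) (.f (nat_lit 429) (nat_lit 397) (nat_lit 7565) (.d (nat_lit 558) (nat_lit 461) (nat_lit 7597) (nat_lit 463) (nat_lit 6574)))) (.a (.f (nat_lit 398) (nat_lit 527) (nat_lit 4494) (.d (nat_lit 399) (nat_lit 367) (nat_lit 6510) (nat_lit 431) (nat_lit 6542))) (.f (nat_lit 398) (nat_lit 527) (nat_lit 4494) (.d (nat_lit 397) (nat_lit 365) (nat_lit 7533) (nat_lit 429) (nat_lit 7565))))))) (.a (.p (nat_lit 558) (.a (.f (nat_lit 461) (nat_lit 429) (nat_lit 7597) (.f (nat_lit 590) (nat_lit 493) (nat_lit 7629) (.d (nat_lit 589) (nat_lit 557) (nat_lit 5581) (nat_lit 621) (nat_lit 5613)))) (.a (.f (nat_lit 429) (nat_lit 461) (nat_lit 7597) (.f (nat_lit 430) (nat_lit 397) (nat_lit 7565) (.f (nat_lit 399) (nat_lit 431) (nat_lit 6542) (.d (nat_lit 398) (nat_lit 367) (nat_lit 6510) (nat_lit 527) (nat_lit 4494))))) (.f (nat_lit 589) (nat_lit 557) (nat_lit 5581) (.f (nat_lit 590) (nat_lit 621) (nat_lit 5613) (.f (nat_lit 527) (nat_lit 622) (nat_lit 6638) (.f (nat_lit 591) (nat_lit 623) (nat_lit 4590) (.d (nat_lit 592) (nat_lit 561) (nat_lit 2605) (nat_lit 624) (nat_lit 7663))))))))) (.a (.p (nat_lit 430) (.a (.f (nat_lit 398) (nat_lit 527) (nat_lit 4494) (.d (nat_lit 399) (nat_lit 367) (nat_lit 6510) (nat_lit 431) (nat_lit 6542))) (.a (.f (nat_lit 399) (nat_lit 431) (nat_lit 6542) (.f (nat_lit 398) (nat_lit 367) (nat_lit 6510) (.d (nat_lit 397) (nat_lit 365) (nat_lit 7533) (nat_lit 429) (nat_lit 7565)))) (.a (.f (nat_lit 398) (nat_lit 527) (nat_lit 4494) (.d (nat_lit 397) (nat_lit 365) (nat_lit 7533) (nat_lit 429) (nat_lit 7565))) (.f (nat_lit 431) (nat_lit 399) (nat_lit 6542) (.f (nat_lit 429) (nat_lit 397) (nat_lit 7565) (.f (nat_lit 463) (nat_lit 527) (nat_lit 4527) (.d (nat_lit 428) (nat_lit 427) (nat_lit 427) (nat_lit 464) (nat_lit 428))))))))) (.a (.p (nat_lit 558) (.a (.f (nat_lit 461) (nat_lit 429) (nat_lit 7597) (.f (nat_lit 590) (nat_lit 493) (nat_lit 7629) (.d (nat_lit 589) (nat_lit 557) (nat_lit 5581) (nat_lit 621) (nat_lit 5613)))) (.a (.f (nat_lit 429) (nat_lit 461) (nat_lit 7597) (.f (nat_lit 430) (nat_lit 397) (nat_lit 7565) (.f (nat_lit 398) (nat_lit 527) (nat_lit 4494) (.f (nat_lit 366) (nat_lit 463) (nat_lit 4462) (.d (nat_lit 367) (nat_lit 335) (nat_lit 6478) (nat_lit 399) (nat_lit 6510)))))) (.f (nat_lit 589) (nat_lit 557) (nat_lit 5581) (.f (nat_lit 590) (nat_lit 621) (nat_lit 5613) (.f (nat_lit 527) (nat_lit 622) (nat_lit 6638) (.f (nat_lit 591) (nat_lit 623) (nat_lit 4590) (.d (nat_lit 592) (nat_lit 561) (nat_lit 2605) (nat_lit 624) (nat_lit 7663))))))))) (.p (nat_lit 430) (.a (.f (nat_lit 431) (nat_lit 399) (nat_lit 6542) (.d (nat_lit 463) (nat_lit 527) (nat_lit 4527) (nat_lit 558) (nat_lit 6574))) (.a (.f (nat_lit 399) (nat_lit 431) (nat_lit 6542) (.f (nat_lit 398) (nat_lit 367) (nat_lit 6510) (.f (nat_lit 366) (nat_lit 463) (nat_lit 4462) (.d (nat_lit 365) (nat_lit 333) (nat_lit 7501) (nat_lit 397) (nat_lit 7533))))) (.a (.f (nat_lit 398) (nat_lit 527) (nat_lit 4494) (.d (nat_lit 399) (nat_lit 367) (nat_lit 6510) (nat_lit 431) (nat_lit 6542))) (.a (.f (nat_lit 398) (nat_lit 527) (nat_lit 4494) (.f (nat_lit 366) (nat_lit 463) (nat_lit 4462) (.d (nat_lit 367) (nat_lit 335) (nat_lit 6478) (nat_lit 399) (nat_lit 6510)))) (.f (nat_lit 398) (nat_lit 527) (nat_lit 4494) (.f (nat_lit 366) (nat_lit 463) (nat_lit 4462) (.d (nat_lit 365) (nat_lit 333) (nat_lit 7501) (nat_lit 397) (nat_lit 7533)))))))))))))))) (.a (.p (nat_lit 592) (.a (.f (nat_lit 463) (nat_lit 496) (nat_lit 7631) (.d (nat_lit 527) (nat_lit 431) (nat_lit 4527) (nat_lit 624) (nat_lit 7663))) (.a (.f (nat_lit 496) (nat_lit 463) (nat_lit 7631) (.f (nat_lit 497) (nat_lit 465) (nat_lit 6608) (.f (nat_lit 461) (nat_lit 462) (nat_lit 3533) (.f (nat_lit 493) (nat_lit 460) (nat_lit 3532) (.f (nat_lit 591) (nat_lit 623) (nat_lit 5615) (.f (nat_lit 590) (nat_lit 558) (nat_lit 7629) (.f (nat_lit 589) (nat_lit 561) (nat_lit 2605) (.f (nat_lit 620) (nat_lit 621) (nat_lit 1612) (.f (nat_lit 588) (nat_lit 619) (nat_lit 1611) (.d (nat_lit 556) (nat_lit 555) (nat_lit 3627) (nat_lit 557) (nat_lit 3628))))))))))) (.f (nat_lit 624) (nat_lit 527) (nat_lit 7663) (.f (nat_lit 655) (nat_lit 623) (nat_lit 5647) (.f (nat_lit 656) (nat_lit 687) (nat_lit 5679) (.d (nat_lit 657) (nat_lit 625) (nat_lit 4624) (nat_lit 689) (nat_lit 4656)))))))) (.a (.p (nat_lit 496) (.a s110049 (.a s110032 (.a (.p (nat_lit 493) (.a (.f (nat_lit 461) (nat_lit 460) (nat_lit 3532) (.f (nat_lit 497) (nat_lit 462) (nat_lit 3533) (.d (nat_lit 465) (nat_lit 466) (nat_lit 2510) (nat_lit 592) (nat_lit 6608)))) (.a (.f (nat_lit 527) (nat_lit 492) (nat_lit 492) (.f (nat_lit 497) (nat_lit 498) (nat_lit 1518) (.d (nat_lit 461) (nat_lit 460) (nat_lit 3532) (nat_lit 462) (nat_lit 3533)))) (.a (.f (nat_lit 492) (nat_lit 527) (nat_lit 492) (.d (nat_lit 460) (nat_lit 459) (nat_lit 3531) (nat_lit 461) (nat_lit 3532))) (.a (.f (nat_lit 492) (nat_lit 527) (nat_lit 492) (.f (nat_lit 459) (nat_lit 460) (nat_lit 3531) (.f (nat_lit 491) (nat_lit 458) (nat_lit 3530) (.d (nat_lit 523) (nat_lit 522) (nat_lit 1514) (nat_lit 524) (nat_lit 1515))))) (.f (nat_lit 527) (nat_lit 492) (nat_lit 492) (.f (nat_lit 497) (nat_lit 498) (nat_lit 1518) (.d (nat_lit 592) (nat_lit 465) (nat_lit 6608) (nat_lit 624) (nat_lit 7663))))))))) (.a (.p (nat_lit 493) (.a (.f (nat_lit 461) (nat_lit 460) (nat_lit 3532) (.f (nat_lit 462) (nat_lit 497) (nat_lit 3533) (.d (nat_lit 558) (nat_lit 429) (nat_lit 7597) (nat_lit 590) (nat_lit 7629)))) (.a (.f (nat_lit 527) (nat_lit 492) (nat_lit 492) (.f (nat_lit 497) (nat_lit 498) (nat_lit 1518) (.d (nat_lit 461) (nat_lit 460) (nat_lit 3532) (nat_lit 462) (nat_lit 3533)))) (.a (.f (nat_lit 492) (nat_lit 527) (nat_lit 492) (.d (nat_lit 460) (nat_lit 459) (nat_lit 3531) (nat_lit 461) (nat_lit 3532))) (.a (.f (nat_lit 492) (nat_lit 527) (nat_lit 492) (.f (nat_lit 459) (nat_lit 460) (nat_lit 3531) (.f (nat_lit 491) (nat_lit 458) (nat_lit 3530) (.d (nat_lit 523) (nat_lit 522) (nat_lit 1514) (nat_lit 524) (nat_lit 1515))))) (.f (nat_lit 527) (nat_lit 492) (nat_lit 492) (.f (nat_lit 497) (nat_lit 498) (nat_lit 1518) (.f (nat_lit 461) (nat_lit 462) (nat_lit 3533) (.f (nat_lit 592) (nat_lit 624) (nat_lit 7663) (.f (nat_lit 590) (nat_lit 558) (nat_lit 7629) (.f (nat_lit 591) (nat_lit 623) (nat_lit 5615) (.f (nat_lit 589) (nat_lit 561) (nat_lit 2605) (.f (nat_lit 620) (nat_lit 621) (nat_lit 1612) (.f (nat_lit 588) (nat_lit 619) (nat_lit 1611) (.d (nat_lit 556) (nat_lit 555) (nat_lit 3627) (nat_lit 557) (nat_lit 3628)))))))))))))))) (.a (.p (nat_lit 592) (.a (.f (nat_lit 465) (nat_lit 497) (nat_lit 6608) (.d (nat_lit 464) (nat_lit 433) (nat_lit 6576) (nat_lit 493) (nat_lit 2509))) (.a (.f (nat_lit 497) (nat_lit 465) (nat_lit 6608) (.d (nat_lit 527) (nat_lit 498) (nat_lit 1518) (nat_lit 624) (nat_lit 7663))) (.f (nat_lit 624) (nat_lit 527) (nat_lit 7663) (.f (nat_lit 655) (nat_lit 623) (nat_lit 5647) (.f (nat_lit 656) (nat_lit 687) (nat_lit 5679) (.d (nat_lit 657) (nat_lit 625) (nat_lit 4624) (nat_lit 689) (nat_lit 4656)))))))) (.a (.p (nat_lit 497) (.a (.d (nat_lit 465) (nat_lit 466) (nat_lit 2510) (nat_lit 592) (nat_lit 6608)) (.a (.f (nat_lit 498) (nat_lit 527) (nat_lit 1518) (.d (nat_lit 466) (nat_lit 465) (nat_lit 2510) (nat_lit 467) (nat_lit 2511))) (.a (.f (nat_lit 498) (nat_lit 527) (nat_lit 1518) (.f (nat_lit 531) (nat_lit 530) (nat_lit 495) (.f (nat_lit 499) (nat_lit 532) (nat_lit 496) (.d (nat_lit 467) (nat_lit 466) (nat_lit 2511) (nat_lit 468) (nat_lit 2512))))) (.f (nat_lit 527) (nat_lit 498) (nat_lit 1518) (.d (nat_lit 592) (nat_lit 465) (nat_lit 6608) (nat_lit 624) (nat_lit 7663))))))) (.p (nat_lit 493) (.a (.f (nat_lit 461) (nat_lit 460) (nat_lit 3532) (.f (nat_lit 429) (nat_lit 397) (nat_lit 4493) (.d (nat_lit 558) (nat_lit 462) (nat_lit 7597) (nat_lit 590) (nat_lit 7629)))) (.a (.f (nat_lit 492) (nat_lit 527) (nat_lit 492) (.d (nat_lit 460) (nat_lit 459) (nat_lit 3531) (nat_lit 461) (nat_lit 3532))) (.a (.f (nat_lit 492) (nat_lit 527) (nat_lit 492) (.f (nat_lit 459) (nat_lit 460) (nat_lit 3531) (.f (nat_lit 491) (nat_lit 458) (nat_lit 3530) (.d (nat_lit 523) (nat_lit 522) (nat_lit 1514) (nat_lit 524) (nat_lit 1515))))) (.p (nat_lit 590) (.a (.f (nat_lit 527) (nat_lit 492) (nat_lit 492) (.d (nat_lit 558) (nat_lit 461) (nat_lit 7629) (nat_lit 622) (nat_lit 6638))) (.a (.f (nat_lit 558) (nat_lit 461) (nat_lit 7629) (.f (nat_lit 623) (nat_lit 591) (nat_lit 4590) (.f (nat_lit 622) (nat_lit 655) (nat_lit 4622) (.d (nat_lit 621) (nat_lit 589) (nat_lit 5613) (nat_lit 653) (nat_lit 5645))))) (.f (nat_lit 527) (nat_lit 492) (nat_lit 492) (.f (nat_lit 592) (nat_lit 624) (nat_lit 7663) (.f (nat_lit 591) (nat_lit 623) (nat_lit 5615) (.f (nat_lit 589) (nat_lit 561) (nat_lit 2605) (.f (nat_lit 620) (nat_lit 621) (nat_lit 1612) (.f (nat_lit 588) (nat_lit 619) (nat_lit 1611) (.d (nat_lit 556) (nat_lit 555) (nat_lit 3627) (nat_lit 557) (nat_lit 3628)))))))))))))))))))))) (.p (nat_lit 592) (.a (.f (nat_lit 463) (nat_lit 496) (nat_lit 7631) (.d (nat_lit 527) (nat_lit 431) (nat_lit 4527) (nat_lit 624) (nat_lit 7663))) (.a (.f (nat_lit 463) (nat_lit 496) (nat_lit 7631) (.f (nat_lit 558) (nat_lit 590) (nat_lit 6606) (.d (nat_lit 431) (nat_lit 399) (nat_lit 5518) (nat_lit 462) (nat_lit 6574)))) (.f (nat_lit 624) (nat_lit 527) (nat_lit 7663) (.f (nat_lit 655) (nat_lit 623) (nat_lit 5647) (.f (nat_lit 656) (nat_lit 687) (nat_lit 5679) (.d (nat_lit 657) (nat_lit 625) (nat_lit 4624) (nat_lit 689) (nat_lit 4656))))))))))))))) (.a (.p (nat_lit 558) (.a (.p (nat_lit 590) (.a (.f (nat_lit 495) (nat_lit 463) (nat_lit 6606) (.f (nat_lit 493) (nat_lit 461) (nat_lit 7629) (.d (nat_lit 527) (nat_lit 492) (nat_lit 492) (nat_lit 622) (nat_lit 6638)))) (.a (.f (nat_lit 589) (nat_lit 621) (nat_lit 5613) (.f (nat_lit 462) (nat_lit 557) (nat_lit 5581) (.d (nat_lit 463) (nat_lit 431) (nat_lit 6574) (nat_lit 495) (nat_lit 6606)))) (.f (nat_lit 493) (nat_lit 461) (nat_lit 7629) (.f (nat_lit 525) (nat_lit 622) (nat_lit 7661) (.d (nat_lit 527) (nat_lit 492) (nat_lit 3564) (nat_lit 561) (nat_lit 525))))))) (.a s108020 (.a (.p (nat_lit 462) (.a (.f (nat_lit 557) (nat_lit 589) (nat_lit 5581) (.f (nat_lit 525) (nat_lit 430) (nat_lit 5549) (.d (nat_lit 527) (nat_lit 556) (nat_lit 1548) (nat_lit 561) (nat_lit 525)))) (.a (.f (nat_lit 431) (nat_lit 463) (nat_lit 6574) (.f (nat_lit 430) (nat_lit 399) (nat_lit 6542) (.d (nat_lit 429) (nat_lit 397) (nat_lit 7565) (nat_lit 461) (nat_lit 7597)))) (.p (nat_lit 495) (.a (.f (nat_lit 463) (nat_lit 431) (nat_lit 6574) (.f (nat_lit 496) (nat_lit 592) (nat_lit 7631) (.d (nat_lit 461) (nat_lit 429) (nat_lit 7597) (nat_lit 460) (nat_lit 460)))) (.a (.f (nat_lit 463) (nat_lit 431) (nat_lit 6574) (.f (nat_lit 461) (nat_lit 429) (nat_lit 7597) (.d (nat_lit 460) (nat_lit 459) (nat_lit 459) (nat_lit 496) (nat_lit 460)))) (.a (.f (nat_lit 463) (nat_lit 431) (nat_lit 6574) (.f (nat_lit 461) (nat_lit 429) (nat_lit 7597) (.f (nat_lit 460) (nat_lit 459) (nat_lit 459) (.f (nat_lit 492) (nat_lit 491) (nat_lit 1483) (.f (nat_lit 493) (nat_lit 527) (nat_lit 492) (.f (nat_lit 428) (nat_lit 427) (nat_lit 3499) (.d (nat_lit 396) (nat_lit 364) (nat_lit 4460) (nat_lit 525) (nat_lit 4492)))))))) (.a (.f (nat_lit 461) (nat_lit 429) (nat_lit 7597) (.f (nat_lit 496) (nat_lit 497) (nat_lit 3533) (.d (nat_lit 460) (nat_lit 459) (nat_lit 459) (nat_lit 493) (nat_lit 3532)))) (.f (nat_lit 463) (nat_lit 431) (nat_lit 6574) (.f (nat_lit 496) (nat_lit 592) (nat_lit 7631) (.d (nat_lit 497) (nat_lit 498) (nat_lit 3534) (nat_lit 525) (nat_lit 1517)))))))))))) (.a (.p (nat_lit 590) (.a (.f (nat_lit 495) (nat_lit 463) (nat_lit 6606) (.f (nat_lit 493) (nat_lit 461) (nat_lit 7629) (.d (nat_lit 527) (nat_lit 492) (nat_lit 492) (nat_lit 622) (nat_lit 6638)))) (.a (.f (nat_lit 589) (nat_lit 621) (nat_lit 5613) (.f (nat_lit 462) (nat_lit 557) (nat_lit 5581) (.d (nat_lit 463) (nat_lit 431) (nat_lit 6574) (nat_lit 495) (nat_lit 6606)))) (.f (nat_lit 589) (nat_lit 621) (nat_lit 5613) (.f (nat_lit 462) (nat_lit 557) (nat_lit 5581) (.d (nat_lit 461) (nat_lit 429) (nat_lit 7597) (nat_lit 493) (nat_lit 7629))))))) (.a s108169 (.a s108140 (.a s108163 (.a s109559 s108188))))))))) (.a (.p (nat_lit 525) (.a (.f (nat_lit 527) (nat_lit 561) (nat_lit 525) (.f (nat_lit 493) (nat_lit 492) (nat_lit 3564) (.f (nat_lit 557) (nat_lit 556) (nat_lit 1548) (.d (nat_lit 462) (nat_lit 430) (nat_lit 5549) (nat_lit 589) (nat_lit 6605))))) (.a (.p (nat_lit 493) (.a (.p (nat_lit 558) (.a (.d (nat_lit 461) (nat_lit 429) (nat_lit 4525) (nat_lit 590) (nat_lit 7629)) (.a s110198 (.f (nat_lit 590) (nat_lit 622) (nat_lit 7661) (.f (nat_lit 589) (nat_lit 621) (nat_lit 5613) (.f (nat_lit 557) (nat_lit 462) (nat_lit 5581) (.f (nat_lit 591) (nat_lit 623) (nat_lit 4590) (.d (nat_lit 556) (nat_lit 555) (nat_lit 555) (nat_lit 592) (nat_lit 3628))))))))) (.a (.p (nat_lit 558) (.a (.d (nat_lit 461) (nat_lit 429) (nat_lit 4525) (nat_lit 590) (nat_lit 7629)) (.a (.p (nat_lit 462) (.a (.d (nat_lit 430) (nat_lit 398) (nat_lit 5517) (nat_lit 557) (nat_lit 5549)) (.a (.f (nat_lit 429) (nat_lit 461) (nat_lit 4525) (.d (nat_lit 430) (nat_lit 397) (nat_lit 7565) (nat_lit 398) (nat_lit 5517))) (.f (nat_lit 461) (nat_lit 429) (nat_lit 4525) (.f (nat_lit 557) (nat_lit 589) (nat_lit 5581) (.f (nat_lit 460) (nat_lit 428) (nat_lit 7596) (.d (nat_lit 459) (nat_lit 458) (nat_lit 458) (nat_lit 495) (nat_lit 459)))))))) (.f (nat_lit 590) (nat_lit 622) (nat_lit 7661) (.f (nat_lit 589) (nat_lit 621) (nat_lit 5613) (.f (nat_lit 557) (nat_lit 462) (nat_lit 5581) (.f (nat_lit 588) (nat_lit 620) (nat_lit 5612) (.f (nat_lit 492) (nat_lit 460) (nat_lit 7628) (.f (nat_lit 491) (nat_lit 490) (nat_lit 490) (.f (nat_lit 523) (nat_lit 522) (nat_lit 1514) (.f (nat_lit 524) (nat_lit 495) (nat_lit 2539) (.d (nat_lit 459) (nat_lit 458) (nat_lit 3530) (nat_lit 556) (nat_lit 7627))))))))))))) (.a (.p (nat_lit 462) (.a (.f (nat_lit 430) (nat_lit 398) (nat_lit 5517) (.f (nat_lit 429) (nat_lit 397) (nat_lit 7565) (.f (nat_lit 461) (nat_lit 558) (nat_lit 4525) (.f (nat_lit 431) (nat_lit 399) (nat_lit 6542) (.d (nat_lit 460) (nat_lit 432) (nat_lit 1452) (nat_lit 459) (nat_lit 2475)))))) (.a (.d (nat_lit 430) (nat_lit 398) (nat_lit 5517) (nat_lit 557) (nat_lit 5549)) (.p (nat_lit 461) (.a (.d (nat_lit 429) (nat_lit 397) (nat_lit 4493) (nat_lit 558) (nat_lit 4525)) (.a (.f (nat_lit 429) (nat_lit 397) (nat_lit 4493) (.f (nat_lit 524) (nat_lit 556) (nat_lit 5548) (.d (nat_lit 495) (nat_lit 496) (nat_lit 1516) (nat_lit 523) (nat_lit 2539)))) (.f (nat_lit 557) (nat_lit 589) (nat_lit 6605) (.f (nat_lit 460) (nat_lit 428) (nat_lit 7596) (.d (nat_lit 459) (nat_lit 458) (nat_lit 458) (nat_lit 495) (nat_lit 459)))))))))) (.a (.p (nat_lit 495) (.a (.d (nat_lit 496) (nat_lit 497) (nat_lit 1517) (nat_lit 524) (nat_lit 1516)) (.a (.p (nat_lit 492) (.a (.f (nat_lit 524) (nat_lit 523) (nat_lit 2539) (.f (nat_lit 460) (nat_lit 459) (nat_lit 3531) (.f (nat_lit 428) (nat_lit 396) (nat_lit 4492) (.f (nat_lit 429) (nat_lit 397) (nat_lit 6540) (.d (nat_lit 461) (nat_lit 556) (nat_lit 5548) (nat_lit 558) (nat_lit 4525)))))) (.a (.f (nat_lit 491) (nat_lit 490) (nat_lit 490) (.d (nat_lit 459) (nat_lit 458) (nat_lit 3530) (nat_lit 460) (nat_lit 3531))) (.f (nat_lit 523) (nat_lit 524) (nat_lit 1515) (.d (nat_lit 491) (nat_lit 490) (nat_lit 490) (nat_lit 522) (nat_lit 1514)))))) (.f (nat_lit 496) (nat_lit 497) (nat_lit 1517) (.f (nat_lit 461) (nat_lit 460) (nat_lit 3532) (.d (nat_lit 429) (nat_lit 397) (nat_lit 4493) (nat_lit 558) (nat_lit 4525))))))) (.a (.p (nat_lit 462) (.a (.d (nat_lit 430) (nat_lit 398) (nat_lit 5517) (nat_lit 557) (nat_lit 5549)) (.a (.p (nat_lit 495) (.a (.d (nat_lit 496) (nat_lit 497) (nat_lit 1517) (nat_lit 524) (nat_lit 1516)) (.a (.f (nat_lit 430) (nat_lit 398) (nat_lit 5517) (.f (nat_lit 524) (nat_lit 523) (nat_lit 2539) (.f (nat_lit 429) (nat_lit 397) (nat_lit 7565) (.f (nat_lit 461) (nat_lit 556) (nat_lit 5548) (.f (nat_lit 460) (nat_lit 459) (nat_lit 459) (.d (nat_lit 431) (nat_lit 399) (nat_lit 6542) (nat_lit 432) (nat_lit 1452))))))) (.f (nat_lit 496) (nat_lit 497) (nat_lit 1517) (.f (nat_lit 430) (nat_lit 398) (nat_lit 5517) (.f (nat_lit 460) (nat_lit 461) (nat_lit 3532) (.f (nat_lit 431) (nat_lit 399) (nat_lit 6542) (.f (nat_lit 429) (nat_lit 397) (nat_lit 7565) (.d (nat_lit 459) (nat_lit 428) (nat_lit 1451) (nat_lit 492) (nat_lit 3531)))))))))) (.p (nat_lit 461) (.a (.f (nat_lit 429) (nat_lit 397) (nat_lit 4493) (.f (nat_lit 524) (nat_lit 556) (nat_lit 5548) (.d (nat_lit 495) (nat_lit 496) (nat_lit 1516) (nat_lit 523) (nat_lit 2539)))) (.a (.f (nat_lit 557) (nat_lit 589) (nat_lit 6605) (.f (nat_lit 460) (nat_lit 428) (nat_lit 7596) (.d (nat_lit 459) (nat_lit 458) (nat_lit 458) (nat_lit 495) (nat_lit 459)))) (.f (nat_lit 557) (nat_lit 589) (nat_lit 6605) (.f (nat_lit 429) (nat_lit 397) (nat_lit 4493) (.d (nat_lit 428) (nat_lit 396) (nat_lit 7564) (nat_lit 460) (nat_lit 7596)))))))))) (.a (.p (nat_lit 558) (.a (.d (nat_lit 461) (nat_lit 429) (nat_lit 4525) (nat_lit 590) (nat_lit 7629)) (.a (.p (nat_lit 462) (.a (.d (nat_lit 430) (nat_lit 398) (nat_lit 5517) (nat_lit 557) (nat_lit 5549)) (.a (.f (nat_lit 429) (nat_lit 461) (nat_lit 4525) (.d (nat_lit 430) (nat_lit 397) (nat_lit 7565) (nat_lit 398) (nat_lit 5517))) (.f (nat_lit 461) (nat_lit 429) (nat_lit 4525) (.f (nat_lit 557) (nat_lit 589) (nat_lit 6605) (.f (nat_lit 556) (nat_lit 588) (nat_lit 5580) (.f (nat_lit 555) (nat_lit 554) (nat_lit 2570) (.f (nat_lit 523) (nat_lit 522) (nat_lit 3594) (.f (nat_lit 460) (nat_lit 428) (nat_lit 7596) (.f (nat_lit 587) (nat_lit 586) (nat_lit 1578) (.d (nat_lit 492) (nat_lit 491) (nat_lit 6603) (nat_lit 524) (nat_lit 5579)))))))))))) (.f (nat_lit 590) (nat_lit 622) (nat_lit 7661) (.f (nat_lit 589) (nat_lit 621) (nat_lit 5613) (.f (nat_lit 557) (nat_lit 462) (nat_lit 5581) (.f (nat_lit 591) (nat_lit 623) (nat_lit 4590) (.d (nat_lit 556) (nat_lit 555) (nat_lit 555) (nat_lit 592) (nat_lit 3628))))))))) (.a (.p (nat_lit 492) (.a (.f (nat_lit 491) (nat_lit 490) (nat_lit 490) (.f (nat_lit 523) (nat_lit 522) (nat_lit 1514) (.f (nat_lit 524) (nat_lit 495) (nat_lit 1515) (.f (nat_lit 555) (nat_lit 554) (nat_lit 1546) (.d (nat_lit 460) (nat_lit 428) (nat_lit 5547) (nat_lit 587) (nat_lit 6603)))))) (.a (.p (nat_lit 460) (.a (.f (nat_lit 557) (nat_lit 589) (nat_lit 7628) (.d (nat_lit 428) (nat_lit 396) (nat_lit 4492) (nat_lit 524) (nat_lit 4524))) (.a (.f (nat_lit 491) (nat_lit 490) (nat_lit 490) (.f (nat_lit 523) (nat_lit 522) (nat_lit 1514) (.f (nat_lit 428) (nat_lit 396) (nat_lit 4492) (.d (nat_lit 555) (nat_lit 524) (nat_lit 5547) (nat_lit 587) (nat_lit 6603))))) (.a (.f (nat_lit 491) (nat_lit 490) (nat_lit 490) (.f (nat_lit 523) (nat_lit 522) (nat_lit 1514) (.f (nat_lit 428) (nat_lit 396) (nat_lit 4492) (.d (nat_lit 555) (nat_lit 459) (nat_lit 6571) (nat_lit 587) (nat_lit 6603))))) (.f (nat_lit 491) (nat_lit 490) (nat_lit 490) (.f (nat_lit 523) (nat_lit 522) (nat_lit 1514) (.f (nat_lit 459) (nat_lit 458) (nat_lit 3530) (.f (nat_lit 555) (nat_lit 587) (nat_lit 6603) (.d (nat_lit 554) (nat_lit 524) (nat_lit 1546) (nat_lit 586) (nat_lit 5578)))))))))) (.a (.f (nat_lit 491) (nat_lit 490) (nat_lit 490) (.f (nat_lit 459) (nat_lit 458) (nat_lit 3530) (.f (nat_lit 460) (nat_lit 495) (nat_lit 3531) (.f (nat_lit 523) (nat_lit 522) (nat_lit 1514) (.d (nat_lit 428) (nat_lit 396) (nat_lit 4492) (nat_lit 555) (nat_lit 6571)))))) (.a (.f (nat_lit 491) (nat_lit 490) (nat_lit 490) (.f (nat_lit 523) (nat_lit 522) (nat_lit 1514) (.f (nat_lit 495) (nat_lit 524) (nat_lit 1515) (.d (nat_lit 459) (nat_lit 458) (nat_lit 3530) (nat_lit 460) (nat_lit 3531))))) (.a (.p (nat_lit 460) (.a (.f (nat_lit 557) (nat_lit 589) (nat_lit 7628) (.d (nat_lit 428) (nat_lit 396) (nat_lit 4492) (nat_lit 524) (nat_lit 4524))) (.a (.f (nat_lit 495) (nat_lit 459) (nat_lit 3531) (.d (nat_lit 524) (nat_lit 496) (nat_lit 1516) (nat_lit 523) (nat_lit 2539))) (.f (nat_lit 557) (nat_lit 589) (nat_lit 7628) (.f (nat_lit 459) (nat_lit 495) (nat_lit 3531) (.f (nat_lit 430) (nat_lit 462) (nat_lit 5549) (.f (nat_lit 428) (nat_lit 396) (nat_lit 4492) (.f (nat_lit 429) (nat_lit 431) (nat_lit 1451) (.d (nat_lit 458) (nat_lit 427) (nat_lit 1450) (nat_lit 457) (nat_lit 457)))))))))) (.a (.f (nat_lit 491) (nat_lit 490) (nat_lit 490) (.f (nat_lit 523) (nat_lit 522) (nat_lit 1514) (.f (nat_lit 524) (nat_lit 495) (nat_lit 1515) (.f (nat_lit 459) (nat_lit 458) (nat_lit 3530) (.d (nat_lit 427) (nat_lit 395) (nat_lit 4491) (nat_lit 556) (nat_lit 4523)))))) (.f (nat_lit 491) (nat_lit 490) (nat_lit 490) (.f (nat_lit 459) (nat_lit 458) (nat_lit 3530) (.f (nat_lit 460) (nat_lit 495) (nat_lit 3531) (.f (nat_lit 557) (nat_lit 589) (nat_lit 7628) (.d (nat_lit 428) (nat_lit 396) (nat_lit 4492) (nat_lit 524) (nat_lit 4524))))))))))))) (.a (.p (nat_lit 557) (.a (.d (nat_lit 462) (nat_lit 430) (nat_lit 5549) (nat_lit 589) (nat_lit 6605)) (.a (.p (nat_lit 461) (.a (.f (nat_lit 462) (nat_lit 430) (nat_lit 5549) (.f (nat_lit 460) (nat_lit 428) (nat_lit 7596) (.d (nat_lit 459) (nat_lit 458) (nat_lit 458) (nat_lit 495) (nat_lit 459)))) (.a (.f (nat_lit 558) (nat_lit 590) (nat_lit 7629) (.f (nat_lit 462) (nat_lit 430) (nat_lit 5549) (.f (nat_lit 460) (nat_lit 428) (nat_lit 7596) (.f (nat_lit 459) (nat_lit 458) (nat_lit 458) (.f (nat_lit 491) (nat_lit 490) (nat_lit 1482) (.f (nat_lit 556) (nat_lit 588) (nat_lit 5580) (.f (nat_lit 555) (nat_lit 554) (nat_lit 2570) (.f (nat_lit 523) (nat_lit 522) (nat_lit 3594) (.d (nat_lit 427) (nat_lit 426) (nat_lit 3498) (nat_lit 524) (nat_lit 4523)))))))))) (.a (.f (nat_lit 460) (nat_lit 428) (nat_lit 7596) (.f (nat_lit 495) (nat_lit 496) (nat_lit 3532) (.d (nat_lit 459) (nat_lit 458) (nat_lit 458) (nat_lit 492) (nat_lit 3531)))) (.f (nat_lit 558) (nat_lit 590) (nat_lit 4557) (.f (nat_lit 556) (nat_lit 588) (nat_lit 5580) (.f (nat_lit 555) (nat_lit 554) (nat_lit 2570) (.f (nat_lit 523) (nat_lit 522) (nat_lit 3594) (.f (nat_lit 524) (nat_lit 495) (nat_lit 2539) (.f (nat_lit 587) (nat_lit 586) (nat_lit 1578) (.d (nat_lit 619) (nat_lit 492) (nat_lit 6635) (nat_lit 651) (nat_lit 6667)))))))))))) (.f (nat_lit 589) (nat_lit 621) (nat_lit 6637) (.f (nat_lit 590) (nat_lit 622) (nat_lit 4589) (.f (nat_lit 461) (nat_lit 558) (nat_lit 4557) (.d (nat_lit 460) (nat_lit 428) (nat_lit 7596) (nat_lit 492) (nat_lit 7628)))))))) (.a (.p (nat_lit 558) (.a (.d (nat_lit 461) (nat_lit 429) (nat_lit 4525) (nat_lit 590) (nat_lit 7629)) (.a s110198 (.f (nat_lit 590) (nat_lit 622) (nat_lit 7661) (.f (nat_lit 589) (nat_lit 621) (nat_lit 5613) (.f (nat_lit 557) (nat_lit 462) (nat_lit 5581) (.f (nat_lit 492) (nat_lit 460) (nat_lit 7628) (.f (nat_lit 491) (nat_lit 490) (nat_lit 490) (.f (nat_lit 523) (nat_lit 522) (nat_lit 1514) (.f (nat_lit 524) (nat_lit 495) (nat_lit 2539) (.f (nat_lit 588) (nat_lit 620) (nat_lit 5612) (.f (nat_lit 587) (nat_lit 586) (nat_lit 2602) (.d (nat_lit 619) (nat_lit 555) (nat_lit 6635) (nat_lit 618) (nat_lit 1610)))))))))))))) (.p (nat_lit 558) (.a (.d (nat_lit 461) (nat_lit 429) (nat_lit 4525) (nat_lit 590) (nat_lit 7629)) (.a (.p (nat_lit 462) (.a (.d (nat_lit 430) (nat_lit 398) (nat_lit 5517) (nat_lit 557) (nat_lit 5549)) (.a (.f (nat_lit 429) (nat_lit 461) (nat_lit 4525) (.d (nat_lit 430) (nat_lit 397) (nat_lit 7565) (nat_lit 398) (nat_lit 5517))) (.f (nat_lit 461) (nat_lit 429) (nat_lit 4525) (.f (nat_lit 557) (nat_lit 589) (nat_lit 6605) (.f (nat_lit 556) (nat_lit 588) (nat_lit 5580) (.f (nat_lit 555) (nat_lit 554) (nat_lit 2570) (.f (nat_lit 523) (nat_lit 522) (nat_lit 3594) (.f (nat_lit 524) (nat_lit 495) (nat_lit 2539) (.f (nat_lit 587) (nat_lit 586) (nat_lit 1578) (.d (nat_lit 619) (nat_lit 492) (nat_lit 6635) (nat_lit 651) (nat_lit 6667)))))))))))) (.f (nat_lit 590) (nat_lit 622) (nat_lit 7661) (.f (nat_lit 589) (nat_lit 621) (nat_lit 5613) (.f (nat_lit 557) (nat_lit 462) (nat_lit 5581) (.f (nat_lit 591) (nat_lit 623) (nat_lit 4590) (.d (nat_lit 556) (nat_lit 555) (nat_lit 555) (nat_lit 592) (nat_lit 3628))))))))))))))))))) (.a (.f (nat_lit 527) (nat_lit 561) (nat_lit 525) (.f (nat_lit 493) (nat_lit 492) (nat_lit 3564) (.f (nat_lit 496) (nat_lit 497) (nat_lit 2541) (.f (nat_lit 495) (nat_lit 524) (nat_lit 2540) (.f (nat_lit 461) (nat_lit 460) (nat_lit 3532) (.d (nat_lit 429) (nat_lit 397) (nat_lit 4493) (nat_lit 558) (nat_lit 4525))))))) (.f (nat_lit 527) (nat_lit 561) (nat_lit 525) (.f (nat_lit 496) (nat_lit 497) (nat_lit 2541) (.f (nat_lit 524) (nat_lit 495) (nat_lit 2540) (.d (nat_lit 556) (nat_lit 555) (nat_lit 1547) (nat_lit 557) (nat_lit 1548))))))))) (.a (.p (nat_lit 558) (.a s108140 (.a s109531 (.a s108977 (.a s110429 (.a (.p (nat_lit 590) (.a (.f (nat_lit 495) (nat_lit 463) (nat_lit 6606) (.f (nat_lit 493) (nat_lit 461) (nat_lit 7629) (.d (nat_lit 527) (nat_lit 492) (nat_lit 492) (nat_lit 622) (nat_lit 6638)))) (.a (.f (nat_lit 463) (nat_lit 495) (nat_lit 6606) (.f (nat_lit 462) (nat_lit 431) (nat_lit 6574) (.d (nat_lit 461) (nat_lit 429) (nat_lit 7597) (nat_lit 493) (nat_lit 7629)))) (.f (nat_lit 621) (nat_lit 589) (nat_lit 5613) (.f (nat_lit 622) (nat_lit 653) (nat_lit 5645) (.d (nat_lit 623) (nat_lit 591) (nat_lit 4590) (nat_lit 655) (nat_lit 4622))))))) (.a (.p (nat_lit 590) (.a (.f (nat_lit 493) (nat_lit 461) (nat_lit 7629) (.f (nat_lit 525) (nat_lit 622) (nat_lit 7661) (.d (nat_lit 527) (nat_lit 492) (nat_lit 3564) (nat_lit 561) (nat_lit 525)))) (.a (.f (nat_lit 621) (nat_lit 589) (nat_lit 5613) (.f (nat_lit 622) (nat_lit 653) (nat_lit 5645) (.d (nat_lit 623) (nat_lit 591) (nat_lit 4590) (nat_lit 655) (nat_lit 4622)))) (.f (nat_lit 493) (nat_lit 461) (nat_lit 7629) (.f (nat_lit 591) (nat_lit 623) (nat_lit 4590) (.f (nat_lit 589) (nat_lit 621) (nat_lit 5613) (.f (nat_lit 592) (nat_lit 561) (nat_lit 2605) (.f (nat_lit 624) (nat_lit 625) (nat_lit 589) (.f (nat_lit 527) (nat_lit 495) (nat_lit 7663) (.d (nat_lit 492) (nat_lit 491) (nat_lit 491) (nat_lit 525) (nat_lit 3564))))))))))) (.a s110457 (.p (nat_lit 590) (.a (.f (nat_lit 495) (nat_lit 463) (nat_lit 6606) (.f (nat_lit 622) (nat_lit 527) (nat_lit 6638) (.d (nat_lit 621) (nat_lit 589) (nat_lit 5613) (nat_lit 653) (nat_lit 5645)))) (.a (.f (nat_lit 621) (nat_lit 589) (nat_lit 5613) (.f (nat_lit 622) (nat_lit 653) (nat_lit 5645) (.d (nat_lit 623) (nat_lit 591) (nat_lit 4590) (nat_lit 655) (nat_lit 4622)))) (.a (.f (nat_lit 495) (nat_lit 463) (nat_lit 6606) (.f (nat_lit 527) (nat_lit 622) (nat_lit 6638) (.f (nat_lit 525) (nat_lit 561) (nat_lit 525) (.d (nat_lit 524) (nat_lit 496) (nat_lit 2540) (nat_lit 523) (nat_lit 2539))))) (.f (nat_lit 495) (nat_lit 463) (nat_lit 6606) (.f (nat_lit 591) (nat_lit 623) (nat_lit 4590) (.f (nat_lit 589) (nat_lit 621) (nat_lit 5613) (.f (nat_lit 592) (nat_lit 561) (nat_lit 2605) (.d (nat_lit 624) (nat_lit 527) (nat_lit 7663) (nat_lit 625) (nat_lit 589)))))))))))))))))) (.a (.p (nat_lit 496) (.a s109873 (.a s109111 (.a s108395 (.a (.p (nat_lit 497) (.a (.d (nat_lit 525) (nat_lit 495) (nat_lit 1517) (nat_lit 527) (nat_lit 2541)) (.a (.f (nat_lit 495) (nat_lit 525) (nat_lit 1517) (.d (nat_lit 465) (nat_lit 466) (nat_lit 2510) (nat_lit 592) (nat_lit 6608))) (.f (nat_lit 465) (nat_lit 592) (nat_lit 6608) (.d (nat_lit 433) (nat_lit 401) (nat_lit 5520) (nat_lit 464) (nat_lit 6576)))))) (.a (.p (nat_lit 462) (.a (.p (nat_lit 430) (.a (.f (nat_lit 429) (nat_lit 397) (nat_lit 7565) (.f (nat_lit 431) (nat_lit 399) (nat_lit 6542) (.f (nat_lit 461) (nat_lit 558) (nat_lit 7597) (.d (nat_lit 460) (nat_lit 432) (nat_lit 1452) (nat_lit 459) (nat_lit 2475))))) (.a (.f (nat_lit 525) (nat_lit 557) (nat_lit 5549) (.f (nat_lit 398) (nat_lit 493) (nat_lit 5517) (.d (nat_lit 399) (nat_lit 367) (nat_lit 6510) (nat_lit 431) (nat_lit 6542)))) (.f (nat_lit 525) (nat_lit 557) (nat_lit 5549) (.f (nat_lit 398) (nat_lit 493) (nat_lit 5517) (.d (nat_lit 397) (nat_lit 365) (nat_lit 7533) (nat_lit 429) (nat_lit 7565))))))) (.a s109600 (.a (.p (nat_lit 558) (.a (.f (nat_lit 557) (nat_lit 589) (nat_lit 5581) (.f (nat_lit 430) (nat_lit 525) (nat_lit 5549) (.d (nat_lit 429) (nat_lit 397) (nat_lit 7565) (nat_lit 461) (nat_lit 7597)))) (.a (.f (nat_lit 589) (nat_lit 557) (nat_lit 5581) (.f (nat_lit 590) (nat_lit 621) (nat_lit 5613) (.d (nat_lit 461) (nat_lit 429) (nat_lit 7597) (nat_lit 493) (nat_lit 7629)))) (.a (.f (nat_lit 461) (nat_lit 429) (nat_lit 7597) (.f (nat_lit 590) (nat_lit 493) (nat_lit 7629) (.f (nat_lit 621) (nat_lit 589) (nat_lit 5613) (.f (nat_lit 622) (nat_lit 653) (nat_lit 5645) (.d (nat_lit 623) (nat_lit 591) (nat_lit 4590) (nat_lit 655) (nat_lit 4622)))))) (.a (.f (nat_lit 461) (nat_lit 429) (nat_lit 7597) (.f (nat_lit 590) (nat_lit 493) (nat_lit 7629) (.f (nat_lit 623) (nat_lit 591) (nat_lit 4590) (.f (nat_lit 622) (nat_lit 655) (nat_lit 4622) (.f (nat_lit 653) (nat_lit 621) (nat_lit 5645) (.f (nat_lit 654) (nat_lit 685) (nat_lit 5677) (.f (nat_lit 525) (nat_lit 557) (nat_lit 7693) (.f (nat_lit 497) (nat_lit 527) (nat_lit 2541) (.f (nat_lit 465) (nat_lit 592) (nat_lit 6608) (.d (nat_lit 464) (nat_lit 433) (nat_lit 6576) (nat_lit 463) (nat_lit 461))))))))))) (.f (nat_lit 557) (nat_lit 589) (nat_lit 5581) (.f (nat_lit 525) (nat_lit 430) (nat_lit 5549) (.d (nat_lit 527) (nat_lit 497) (nat_lit 2541) (nat_lit 556) (nat_lit 1548))))))))) (.a s109622 (.a (.p (nat_lit 558) (.a (.f (nat_lit 557) (nat_lit 589) (nat_lit 5581) (.f (nat_lit 430) (nat_lit 525) (nat_lit 5549) (.f (nat_lit 399) (nat_lit 431) (nat_lit 6542) (.f (nat_lit 398) (nat_lit 367) (nat_lit 6510) (.d (nat_lit 397) (nat_lit 365) (nat_lit 7533) (nat_lit 429) (nat_lit 7565)))))) (.a (.f (nat_lit 431) (nat_lit 463) (nat_lit 6574) (.f (nat_lit 430) (nat_lit 399) (nat_lit 6542) (.f (nat_lit 397) (nat_lit 429) (nat_lit 7565) (.f (nat_lit 398) (nat_lit 365) (nat_lit 7533) (.f (nat_lit 433) (nat_lit 432) (nat_lit 3469) (.f (nat_lit 465) (nat_lit 464) (nat_lit 6576) (.d (nat_lit 497) (nat_lit 401) (nat_lit 5520) (nat_lit 592) (nat_lit 6608)))))))) (.a (.f (nat_lit 557) (nat_lit 589) (nat_lit 5581) (.f (nat_lit 525) (nat_lit 430) (nat_lit 5549) (.d (nat_lit 527) (nat_lit 497) (nat_lit 2541) (nat_lit 556) (nat_lit 1548)))) (.f (nat_lit 589) (nat_lit 557) (nat_lit 5581) (.f (nat_lit 590) (nat_lit 621) (nat_lit 5613) (.f (nat_lit 623) (nat_lit 591) (nat_lit 4590) (.f (nat_lit 622) (nat_lit 655) (nat_lit 4622) (.f (nat_lit 463) (nat_lit 431) (nat_lit 6574) (.f (nat_lit 525) (nat_lit 493) (nat_lit 7661) (.f (nat_lit 497) (nat_lit 527) (nat_lit 2541) (.f (nat_lit 465) (nat_lit 592) (nat_lit 6608) (.d (nat_lit 464) (nat_lit 433) (nat_lit 6576) (nat_lit 498) (nat_lit 462)))))))))))))) (.a s109643 (.p (nat_lit 558) (.a (.f (nat_lit 463) (nat_lit 431) (nat_lit 6574) (.f (nat_lit 461) (nat_lit 429) (nat_lit 7597) (.f (nat_lit 464) (nat_lit 497) (nat_lit 461) (.d (nat_lit 493) (nat_lit 465) (nat_lit 1485) (nat_lit 492) (nat_lit 1484))))) (.a (.f (nat_lit 589) (nat_lit 557) (nat_lit 5581) (.f (nat_lit 590) (nat_lit 621) (nat_lit 5613) (.d (nat_lit 461) (nat_lit 429) (nat_lit 7597) (nat_lit 493) (nat_lit 7629)))) (.a (.f (nat_lit 463) (nat_lit 431) (nat_lit 6574) (.f (nat_lit 461) (nat_lit 429) (nat_lit 7597) (.f (nat_lit 464) (nat_lit 497) (nat_lit 461) (.d (nat_lit 433) (nat_lit 432) (nat_lit 2477) (nat_lit 465) (nat_lit 6576))))) (.f (nat_lit 589) (nat_lit 557) (nat_lit 5581) (.f (nat_lit 590) (nat_lit 621) (nat_lit 5613) (.f (nat_lit 623) (nat_lit 591) (nat_lit 4590) (.f (nat_lit 622) (nat_lit 655) (nat_lit 4622) (.f (nat_lit 463) (nat_lit 431) (nat_lit 6574) (.f (nat_lit 525) (nat_lit 493) (nat_lit 7661) (.f (nat_lit 497) (nat_lit 527) (nat_lit 2541) (.f (nat_lit 465) (nat_lit 592) (nat_lit 6608) (.d (nat_lit 464) (nat_lit 433) (nat_lit 6576) (nat_lit 498) (nat_lit 462))))))))))))))))))))) (.a (.p (nat_lit 495) (.a (.f (nat_lit 463) (nat_lit 592) (nat_lit 7631) (.d (nat_lit 431) (nat_lit 399) (nat_lit 4495) (nat_lit 464) (nat_lit 7599))) (.a (.f (nat_lit 497) (nat_lit 525) (nat_lit 1517) (.f (nat_lit 462) (nat_lit 461) (nat_lit 3533) (.f (nat_lit 463) (nat_lit 498) (nat_lit 3534) (.d (nat_lit 431) (nat_lit 399) (nat_lit 4495) (nat_lit 558) (nat_lit 6574))))) (.f (nat_lit 525) (nat_lit 497) (nat_lit 1517) (.d (nat_lit 524) (nat_lit 493) (nat_lit 1516) (nat_lit 523) (nat_lit 2539)))))) s109690))))))) (.a (.p (nat_lit 558) (.a s108163 (.a s109547 (.a s108990 (.a s110429 (.a (.p (nat_lit 463) (.a (.f (nat_lit 495) (nat_lit 590) (nat_lit 6606) (.d (nat_lit 431) (nat_lit 399) (nat_lit 5518) (nat_lit 462) (nat_lit 6574))) (.a (.f (nat_lit 431) (nat_lit 462) (nat_lit 6574) (.f (nat_lit 495) (nat_lit 399) (nat_lit 5518) (.d (nat_lit 496) (nat_lit 464) (nat_lit 7599) (nat_lit 592) (nat_lit 7631)))) (.a (.f (nat_lit 462) (nat_lit 431) (nat_lit 6574) (.f (nat_lit 461) (nat_lit 429) (nat_lit 7597) (.f (nat_lit 493) (nat_lit 590) (nat_lit 7629) (.d (nat_lit 492) (nat_lit 464) (nat_lit 1484) (nat_lit 491) (nat_lit 2507))))) (.f (nat_lit 495) (nat_lit 590) (nat_lit 6606) (.f (nat_lit 592) (nat_lit 496) (nat_lit 7631) (.f (nat_lit 624) (nat_lit 527) (nat_lit 7663) (.f (nat_lit 655) (nat_lit 623) (nat_lit 5647) (.f (nat_lit 656) (nat_lit 687) (nat_lit 5679) (.d (nat_lit 657) (nat_lit 625) (nat_lit 4624) (nat_lit 689) (nat_lit 4656))))))))))) (.a (.p (nat_lit 525) (.a (.f (nat_lit 527) (nat_lit 561) (nat_lit 525) (.f (nat_lit 493) (nat_lit 492) (nat_lit 3564) (.f (nat_lit 496) (nat_lit 497) (nat_lit 2541) (.f (nat_lit 495) (nat_lit 524) (nat_lit 2540) (.d (nat_lit 461) (nat_lit 429) (nat_lit 4525) (nat_lit 460) (nat_lit 3532)))))) (.a (.p (nat_lit 462) (.a (.f (nat_lit 429) (nat_lit 461) (nat_lit 7597) (.f (nat_lit 430) (nat_lit 397) (nat_lit 7565) (.f (nat_lit 399) (nat_lit 431) (nat_lit 6542) (.d (nat_lit 398) (nat_lit 367) (nat_lit 6510) (nat_lit 493) (nat_lit 5517))))) (.a (.f (nat_lit 461) (nat_lit 429) (nat_lit 7597) (.f (nat_lit 493) (nat_lit 590) (nat_lit 7629) (.d (nat_lit 430) (nat_lit 398) (nat_lit 5517) (nat_lit 557) (nat_lit 5549)))) (.a (.f (nat_lit 430) (nat_lit 557) (nat_lit 5549) (.d (nat_lit 429) (nat_lit 397) (nat_lit 7565) (nat_lit 461) (nat_lit 7597))) (.a (.f (nat_lit 430) (nat_lit 557) (nat_lit 5549) (.f (nat_lit 398) (nat_lit 493) (nat_lit 5517) (.d (nat_lit 399) (nat_lit 367) (nat_lit 6510) (nat_lit 431) (nat_lit 6542)))) (.f (nat_lit 461) (nat_lit 429) (nat_lit 7597) (.f (nat_lit 590) (nat_lit 493) (nat_lit 7629) (.f (nat_lit 623) (nat_lit 591) (nat_lit 4590) (.f (nat_lit 622) (nat_lit 655) (nat_lit 4622) (.f (nat_lit 653) (nat_lit 621) (nat_lit 5645) (.d (nat_lit 654) (nat_lit 557) (nat_lit 7693) (nat_lit 685) (nat_lit 5677)))))))))))) (.f (nat_lit 527) (nat_lit 561) (nat_lit 525) (.f (nat_lit 496) (nat_lit 497) (nat_lit 2541) (.f (nat_lit 524) (nat_lit 495) (nat_lit 2540) (.d (nat_lit 556) (nat_lit 555) (nat_lit 1547) (nat_lit 557) (nat_lit 1548)))))))) (.a (.p (nat_lit 462) (.a (.f (nat_lit 431) (nat_lit 463) (nat_lit 6574) (.f (nat_lit 430) (nat_lit 399) (nat_lit 6542) (.d (nat_lit 429) (nat_lit 397) (nat_lit 7565) (nat_lit 461) (nat_lit 7597)))) (.a (.f (nat_lit 429) (nat_lit 461) (nat_lit 7597) (.f (nat_lit 430) (nat_lit 397) (nat_lit 7565) (.f (nat_lit 525) (nat_lit 557) (nat_lit 5549) (.f (nat_lit 399) (nat_lit 431) (nat_lit 6542) (.d (nat_lit 398) (nat_lit 367) (nat_lit 6510) (nat_lit 493) (nat_lit 5517)))))) (.a (.f (nat_lit 429) (nat_lit 461) (nat_lit 7597) (.f (nat_lit 430) (nat_lit 397) (nat_lit 7565) (.f (nat_lit 525) (nat_lit 557) (nat_lit 5549) (.f (nat_lit 493) (nat_lit 398) (nat_lit 5517) (.d (nat_lit 527) (nat_lit 492) (nat_lit 3564) (nat_lit 561) (nat_lit 525)))))) (.a (.f (nat_lit 431) (nat_lit 463) (nat_lit 6574) (.f (nat_lit 430) (nat_lit 399) (nat_lit 6542) (.f (nat_lit 525) (nat_lit 557) (nat_lit 5549) (.f (nat_lit 527) (nat_lit 561) (nat_lit 525) (.d (nat_lit 493) (nat_lit 398) (nat_lit 5517) (nat_lit 492) (nat_lit 3564)))))) (.f (nat_lit 461) (nat_lit 429) (nat_lit 7597) (.f (nat_lit 463) (nat_lit 431) (nat_lit 6574) (.f (nat_lit 493) (nat_lit 590) (nat_lit 7629) (.d (nat_lit 492) (nat_lit 464) (nat_lit 1484) (nat_lit 491) (nat_lit 2507)))))))))) (.a (.p (nat_lit 590) (.a (.f (nat_lit 495) (nat_lit 463) (nat_lit 6606) (.f (nat_lit 493) (nat_lit 461) (nat_lit 7629) (.d (nat_lit 527) (nat_lit 492) (nat_lit 492) (nat_lit 622) (nat_lit 6638)))) (.a (.f (nat_lit 493) (nat_lit 461) (nat_lit 7629) (.f (nat_lit 525) (nat_lit 622) (nat_lit 7661) (.f (nat_lit 495) (nat_lit 463) (nat_lit 6606) (.d (nat_lit 524) (nat_lit 496) (nat_lit 1516) (nat_lit 523) (nat_lit 2539))))) (.a (.f (nat_lit 493) (nat_lit 461) (nat_lit 7629) (.f (nat_lit 525) (nat_lit 622) (nat_lit 7661) (.d (nat_lit 527) (nat_lit 492) (nat_lit 3564) (nat_lit 561) (nat_lit 525)))) (.a (.f (nat_lit 495) (nat_lit 463) (nat_lit 6606) (.f (nat_lit 527) (nat_lit 622) (nat_lit 6638) (.f (nat_lit 525) (nat_lit 561) (nat_lit 525) (.d (nat_lit 524) (nat_lit 496) (nat_lit 2540) (nat_lit 523) (nat_lit 2539))))) (.f (nat_lit 493) (nat_lit 461) (nat_lit 7629) (.f (nat_lit 495) (nat_lit 463) (nat_lit 6606) (.f (nat_lit 492) (nat_lit 527) (nat_lit 492) (.f (nat_lit 524) (nat_lit 523) (nat_lit 1515) (.f (nat_lit 525) (nat_lit 496) (nat_lit 1516) (.f (nat_lit 460) (nat_lit 459) (nat_lit 3531) (.d (nat_lit 428) (nat_lit 396) (nat_lit 4492) (nat_lit 557) (nat_lit 4524))))))))))))) (.a (.p (nat_lit 462) (.a (.f (nat_lit 431) (nat_lit 463) (nat_lit 6574) (.f (nat_lit 430) (nat_lit 399) (nat_lit 6542) (.d (nat_lit 429) (nat_lit 397) (nat_lit 7565) (nat_lit 461) (nat_lit 7597)))) (.a (.f (nat_lit 429) (nat_lit 461) (nat_lit 7597) (.f (nat_lit 430) (nat_lit 397) (nat_lit 7565) (.f (nat_lit 399) (nat_lit 431) (nat_lit 6542) (.f (nat_lit 398) (nat_lit 367) (nat_lit 6510) (.f (nat_lit 527) (nat_lit 495) (nat_lit 4494) (.d (nat_lit 525) (nat_lit 557) (nat_lit 5549) (nat_lit 561) (nat_lit 525))))))) (.a (.f (nat_lit 429) (nat_lit 461) (nat_lit 7597) (.f (nat_lit 430) (nat_lit 397) (nat_lit 7565) (.f (nat_lit 525) (nat_lit 557) (nat_lit 5549) (.f (nat_lit 527) (nat_lit 561) (nat_lit 525) (.f (nat_lit 495) (nat_lit 398) (nat_lit 4494) (.d (nat_lit 496) (nat_lit 497) (nat_lit 2541) (nat_lit 524) (nat_lit 2540))))))) (.f (nat_lit 463) (nat_lit 431) (nat_lit 6574) (.f (nat_lit 495) (nat_lit 590) (nat_lit 6606) (.f (nat_lit 496) (nat_lit 592) (nat_lit 7631) (.d (nat_lit 497) (nat_lit 498) (nat_lit 3534) (nat_lit 525) (nat_lit 1517))))))))) (.p (nat_lit 590) (.a (.f (nat_lit 495) (nat_lit 463) (nat_lit 6606) (.f (nat_lit 527) (nat_lit 622) (nat_lit 6638) (.f (nat_lit 525) (nat_lit 561) (nat_lit 525) (.d (nat_lit 524) (nat_lit 496) (nat_lit 2540) (nat_lit 523) (nat_lit 2539))))) (.a (.f (nat_lit 623) (nat_lit 591) (nat_lit 4590) (.f (nat_lit 622) (nat_lit 655) (nat_lit 4622) (.f (nat_lit 653) (nat_lit 621) (nat_lit 5645) (.f (nat_lit 654) (nat_lit 685) (nat_lit 5677) (.d (nat_lit 525) (nat_lit 493) (nat_lit 7661) (nat_lit 557) (nat_lit 7693)))))) (.a (.f (nat_lit 495) (nat_lit 463) (nat_lit 6606) (.f (nat_lit 622) (nat_lit 527) (nat_lit 6638) (.d (nat_lit 623) (nat_lit 591) (nat_lit 4590) (nat_lit 655) (nat_lit 4622)))) s110589)))))))))))))) (.a (.p (nat_lit 496) (.a s109873 (.a (.p (nat_lit 525) (.a (.f (nat_lit 495) (nat_lit 497) (nat_lit 1517) (.d (nat_lit 524) (nat_lit 493) (nat_lit 1516) (nat_lit 523) (nat_lit 2539))) (.a (.d (nat_lit 527) (nat_lit 497) (nat_lit 2541) (nat_lit 561) (nat_lit 525)) (.f (nat_lit 527) (nat_lit 561) (nat_lit 525) (.f (nat_lit 493) (nat_lit 492) (nat_lit 3564) (.f (nat_lit 557) (nat_lit 556) (nat_lit 1548) (.d (nat_lit 462) (nat_lit 430) (nat_lit 5549) (nat_lit 589) (nat_lit 6605)))))))) (.a s109880 (.a (.p (nat_lit 464) (.a (.f (nat_lit 465) (nat_lit 433) (nat_lit 6576) (.f (nat_lit 463) (nat_lit 431) (nat_lit 7599) (.f (nat_lit 462) (nat_lit 493) (nat_lit 1485) (.d (nat_lit 497) (nat_lit 498) (nat_lit 462) (nat_lit 592) (nat_lit 6608))))) (.a (.f (nat_lit 431) (nat_lit 463) (nat_lit 7599) (.f (nat_lit 432) (nat_lit 399) (nat_lit 7567) (.d (nat_lit 433) (nat_lit 401) (nat_lit 6544) (nat_lit 465) (nat_lit 6576)))) (.a s109904 (.a s109915 (.a (.p (nat_lit 462) (.a (.f (nat_lit 465) (nat_lit 433) (nat_lit 6576) (.f (nat_lit 463) (nat_lit 493) (nat_lit 1485) (.d (nat_lit 497) (nat_lit 498) (nat_lit 462) (nat_lit 592) (nat_lit 6608)))) (.a (.f (nat_lit 465) (nat_lit 433) (nat_lit 6576) (.f (nat_lit 463) (nat_lit 493) (nat_lit 1485) (.d (nat_lit 497) (nat_lit 461) (nat_lit 461) (nat_lit 498) (nat_lit 462)))) (.a (.f (nat_lit 465) (nat_lit 433) (nat_lit 6576) (.f (nat_lit 497) (nat_lit 592) (nat_lit 6608) (.f (nat_lit 525) (nat_lit 527) (nat_lit 2541) (.f (nat_lit 430) (nat_lit 557) (nat_lit 5549) (.f (nat_lit 398) (nat_lit 493) (nat_lit 5517) (.d (nat_lit 397) (nat_lit 365) (nat_lit 7533) (nat_lit 429) (nat_lit 7565))))))) (.a (.p (nat_lit 525) (.a (.d (nat_lit 527) (nat_lit 497) (nat_lit 2541) (nat_lit 561) (nat_lit 525)) (.f (nat_lit 430) (nat_lit 557) (nat_lit 5549) (.f (nat_lit 398) (nat_lit 493) (nat_lit 5517) (.d (nat_lit 397) (nat_lit 365) (nat_lit 7533) (nat_lit 429) (nat_lit 7565)))))) (.a (.f (nat_lit 465) (nat_lit 433) (nat_lit 6576) (.f (nat_lit 497) (nat_lit 592) (nat_lit 6608) (.d (nat_lit 463) (nat_lit 461) (nat_lit 461) (nat_lit 498) (nat_lit 462)))) (.p (nat_lit 525) (.a (.f (nat_lit 430) (nat_lit 557) (nat_lit 5549) (.f (nat_lit 398) (nat_lit 493) (nat_lit 5517) (.d (nat_lit 397) (nat_lit 365) (nat_lit 7533) (nat_lit 429) (nat_lit 7565)))) (.a (.f (nat_lit 527) (nat_lit 561) (nat_lit 525) (.f (nat_lit 493) (nat_lit 492) (nat_lit 3564) (.d (nat_lit 465) (nat_lit 433) (nat_lit 6576) (nat_lit 463) (nat_lit 1485)))) (.f (nat_lit 557) (nat_lit 430) (nat_lit 5549) (.d (nat_lit 527) (nat_lit 556) (nat_lit 1548) (nat_lit 561) (nat_lit 525)))))))))))) (.p (nat_lit 462) (.a (.f (nat_lit 463) (nat_lit 431) (nat_lit 7599) (.f (nat_lit 461) (nat_lit 497) (nat_lit 461) (.f (nat_lit 493) (nat_lit 492) (nat_lit 1484) (.d (nat_lit 429) (nat_lit 397) (nat_lit 4493) (nat_lit 428) (nat_lit 3500))))) (.a (.p (nat_lit 525) (.a (.d (nat_lit 527) (nat_lit 497) (nat_lit 2541) (nat_lit 561) (nat_lit 525)) (.f (nat_lit 430) (nat_lit 557) (nat_lit 5549) (.f (nat_lit 398) (nat_lit 493) (nat_lit 5517) (.d (nat_lit 397) (nat_lit 365) (nat_lit 7533) (nat_lit 429) (nat_lit 7565)))))) (.f (nat_lit 431) (nat_lit 463) (nat_lit 7599) (.d (nat_lit 399) (nat_lit 430) (nat_lit 6542) (nat_lit 432) (nat_lit 7567)))))))))))) (.a (.p (nat_lit 497) (.a (.d (nat_lit 525) (nat_lit 495) (nat_lit 1517) (nat_lit 527) (nat_lit 2541)) (.a (.f (nat_lit 495) (nat_lit 525) (nat_lit 1517) (.d (nat_lit 465) (nat_lit 466) (nat_lit 2510) (nat_lit 592) (nat_lit 6608))) (.f (nat_lit 465) (nat_lit 592) (nat_lit 6608) (.d (nat_lit 433) (nat_lit 401) (nat_lit 5520) (nat_lit 464) (nat_lit 6576)))))) (.p (nat_lit 464) (.a (.f (nat_lit 465) (nat_lit 433) (nat_lit 6576) (.f (nat_lit 495) (nat_lit 493) (nat_lit 2509) (.d (nat_lit 466) (nat_lit 463) (nat_lit 1486) (nat_lit 467) (nat_lit 1487)))) (.a (.f (nat_lit 433) (nat_lit 465) (nat_lit 6576) (.f (nat_lit 432) (nat_lit 401) (nat_lit 6544) (.f (nat_lit 399) (nat_lit 431) (nat_lit 7567) (.f (nat_lit 400) (nat_lit 367) (nat_lit 7535) (.f (nat_lit 527) (nat_lit 495) (nat_lit 5519) (.f (nat_lit 525) (nat_lit 561) (nat_lit 525) (.f (nat_lit 557) (nat_lit 556) (nat_lit 1548) (.f (nat_lit 493) (nat_lit 492) (nat_lit 3564) (.d (nat_lit 462) (nat_lit 430) (nat_lit 5549) (nat_lit 589) (nat_lit 6605)))))))))) (.a (.f (nat_lit 431) (nat_lit 463) (nat_lit 7599) (.f (nat_lit 432) (nat_lit 399) (nat_lit 7567) (.d (nat_lit 433) (nat_lit 401) (nat_lit 6544) (nat_lit 465) (nat_lit 6576)))) (.f (nat_lit 463) (nat_lit 431) (nat_lit 7599) (.f (nat_lit 495) (nat_lit 592) (nat_lit 7631) (.f (nat_lit 493) (nat_lit 492) (nat_lit 2508) (.f (nat_lit 525) (nat_lit 524) (nat_lit 1516) (.f (nat_lit 461) (nat_lit 460) (nat_lit 3532) (.f (nat_lit 429) (nat_lit 397) (nat_lit 4493) (.d (nat_lit 428) (nat_lit 396) (nat_lit 7564) (nat_lit 462) (nat_lit 3500)))))))))))))))))) (.a (.p (nat_lit 462) (.a s109708 (.a (.p (nat_lit 558) (.a (.f (nat_lit 429) (nat_lit 461) (nat_lit 7597) (.f (nat_lit 430) (nat_lit 397) (nat_lit 7565) (.f (nat_lit 525) (nat_lit 557) (nat_lit 5549) (.f (nat_lit 399) (nat_lit 431) (nat_lit 6542) (.d (nat_lit 398) (nat_lit 367) (nat_lit 6510) (nat_lit 493) (nat_lit 5517)))))) (.a (.f (nat_lit 461) (nat_lit 429) (nat_lit 7597) (.f (nat_lit 590) (nat_lit 493) (nat_lit 7629) (.d (nat_lit 589) (nat_lit 557) (nat_lit 5581) (nat_lit 621) (nat_lit 5613)))) (.a (.f (nat_lit 461) (nat_lit 429) (nat_lit 7597) (.f (nat_lit 590) (nat_lit 493) (nat_lit 7629) (.f (nat_lit 623) (nat_lit 591) (nat_lit 4590) (.f (nat_lit 622) (nat_lit 655) (nat_lit 4622) (.d (nat_lit 621) (nat_lit 589) (nat_lit 5613) (nat_lit 653) (nat_lit 5645)))))) (.a (.f (nat_lit 557) (nat_lit 589) (nat_lit 5581) (.f (nat_lit 430) (nat_lit 525) (nat_lit 5549) (.d (nat_lit 429) (nat_lit 397) (nat_lit 7565) (nat_lit 461) (nat_lit 7597)))) (.a (.f (nat_lit 557) (nat_lit 589) (nat_lit 5581) (.f (nat_lit 430) (nat_lit 525) (nat_lit 5549) (.f (nat_lit 399) (nat_lit 431) (nat_lit 6542) (.f (nat_lit 398) (nat_lit 367) (nat_lit 6510) (.d (nat_lit 397) (nat_lit 365) (nat_lit 7533) (nat_lit 429) (nat_lit 7565)))))) (.f (nat_lit 589) (nat_lit 557) (nat_lit 5581) (.f (nat_lit 590) (nat_lit 621) (nat_lit 5613) (.f (nat_lit 623) (nat_lit 591) (nat_lit 4590) (.f (nat_lit 622) (nat_lit 655) (nat_lit 4622) (.d (nat_lit 493) (nat_lit 461) (nat_lit 7629) (nat_lit 525) (nat_lit 7661)))))))))))) (.a (.p (nat_lit 431) (.a (.f (nat_lit 463) (nat_lit 558) (nat_lit 6574) (.d (nat_lit 399) (nat_lit 367) (nat_lit 5486) (nat_lit 430) (nat_lit 6542))) (.a (.f (nat_lit 430) (nat_lit 399) (nat_lit 6542) (.f (nat_lit 429) (nat_lit 397) (nat_lit 7565) (.f (nat_lit 461) (nat_lit 558) (nat_lit 7597) (.d (nat_lit 460) (nat_lit 432) (nat_lit 1452) (nat_lit 459) (nat_lit 2475))))) (.a (.f (nat_lit 399) (nat_lit 430) (nat_lit 6542) (.f (nat_lit 463) (nat_lit 367) (nat_lit 5486) (.f (nat_lit 464) (nat_lit 496) (nat_lit 7599) (.f (nat_lit 465) (nat_lit 493) (nat_lit 1485) (.f (nat_lit 433) (nat_lit 434) (nat_lit 2478) (.f (nat_lit 432) (nat_lit 461) (nat_lit 2477) (.f (nat_lit 466) (nat_lit 467) (nat_lit 3503) (.d (nat_lit 498) (nat_lit 497) (nat_lit 462) (nat_lit 499) (nat_lit 463))))))))) (.f (nat_lit 463) (nat_lit 558) (nat_lit 6574) (.f (nat_lit 464) (nat_lit 496) (nat_lit 7599) (.f (nat_lit 465) (nat_lit 493) (nat_lit 1485) (.f (nat_lit 433) (nat_lit 434) (nat_lit 2478) (.f (nat_lit 432) (nat_lit 461) (nat_lit 2477) (.f (nat_lit 466) (nat_lit 467) (nat_lit 3503) (.d (nat_lit 498) (nat_lit 497) (nat_lit 462) (nat_lit 499) (nat_lit 463)))))))))))) (.a (.p (nat_lit 525) (.a (.f (nat_lit 527) (nat_lit 561) (nat_lit 525) (.d (nat_lit 557) (nat_lit 430) (nat_lit 5549) (nat_lit 556) (nat_lit 1548))) (.a (.f (nat_lit 430) (nat_lit 557) (nat_lit 5549) (.f (nat_lit 398) (nat_lit 493) (nat_lit 5517) (.d (nat_lit 399) (nat_lit 367) (nat_lit 6510) (nat_lit 431) (nat_lit 6542)))) (.a (.f (nat_lit 527) (nat_lit 561) (nat_lit 525) (.f (nat_lit 493) (nat_lit 492) (nat_lit 3564) (.f (nat_lit 430) (nat_lit 398) (nat_lit 5517) (.f (nat_lit 429) (nat_lit 397) (nat_lit 7565) (.f (nat_lit 431) (nat_lit 399) (nat_lit 6542) (.f (nat_lit 496) (nat_lit 497) (nat_lit 2541) (.f (nat_lit 464) (nat_lit 463) (nat_lit 7599) (.d (nat_lit 465) (nat_lit 432) (nat_lit 429) (nat_lit 433) (nat_lit 6576))))))))) (.f (nat_lit 527) (nat_lit 561) (nat_lit 525) (.f (nat_lit 493) (nat_lit 492) (nat_lit 3564) (.d (nat_lit 557) (nat_lit 556) (nat_lit 1548) (nat_lit 589) (nat_lit 6605)))))))) (.a (.p (nat_lit 558) (.a (.f (nat_lit 557) (nat_lit 589) (nat_lit 5581) (.f (nat_lit 525) (nat_lit 430) (nat_lit 5549) (.d (nat_lit 527) (nat_lit 556) (nat_lit 1548) (nat_lit 561) (nat_lit 525)))) (.a (.f (nat_lit 557) (nat_lit 589) (nat_lit 5581) (.f (nat_lit 430) (nat_lit 525) (nat_lit 5549) (.d (nat_lit 429) (nat_lit 397) (nat_lit 7565) (nat_lit 461) (nat_lit 7597)))) (.a (.f (nat_lit 461) (nat_lit 429) (nat_lit 7597) (.f (nat_lit 590) (nat_lit 493) (nat_lit 7629) (.d (nat_lit 589) (nat_lit 557) (nat_lit 5581) (nat_lit 621) (nat_lit 5613)))) (.a (.f (nat_lit 461) (nat_lit 429) (nat_lit 7597) (.f (nat_lit 590) (nat_lit 493) (nat_lit 7629) (.f (nat_lit 623) (nat_lit 591) (nat_lit 4590) (.f (nat_lit 622) (nat_lit 655) (nat_lit 4622) (.d (nat_lit 621) (nat_lit 589) (nat_lit 5613) (nat_lit 653) (nat_lit 5645)))))) (.f (nat_lit 429) (nat_lit 461) (nat_lit 7597) (.f (nat_lit 430) (nat_lit 397) (nat_lit 7565) (.f (nat_lit 525) (nat_lit 557) (nat_lit 5549) (.f (nat_lit 493) (nat_lit 398) (nat_lit 5517) (.d (nat_lit 527) (nat_lit 492) (nat_lit 3564) (nat_lit 561) (nat_lit 525))))))))))) (.a (.p (nat_lit 557) (.a (.f (nat_lit 525) (nat_lit 430) (nat_lit 5549) (.d (nat_lit 527) (nat_lit 556) (nat_lit 1548) (nat_lit 561) (nat_lit 525))) (.a (.f (nat_lit 430) (nat_lit 525) (nat_lit 5549) (.f (nat_lit 431) (nat_lit 399) (nat_lit 6542) (.d (nat_lit 558) (nat_lit 463) (nat_lit 6574) (nat_lit 589) (nat_lit 5581)))) (.a (.f (nat_lit 558) (nat_lit 589) (nat_lit 5581) (.f (nat_lit 431) (nat_lit 463) (nat_lit 6574) (.f (nat_lit 430) (nat_lit 399) (nat_lit 6542) (.d (nat_lit 429) (nat_lit 397) (nat_lit 7565) (nat_lit 461) (nat_lit 7597))))) (.f (nat_lit 589) (nat_lit 558) (nat_lit 5581) (.f (nat_lit 525) (nat_lit 621) (nat_lit 6637) (.d (nat_lit 527) (nat_lit 556) (nat_lit 1548) (nat_lit 561) (nat_lit 525)))))))) (.a (.p (nat_lit 525) (.a (.f (nat_lit 527) (nat_lit 561) (nat_lit 525) (.d (nat_lit 557) (nat_lit 430) (nat_lit 5549) (nat_lit 556) (nat_lit 1548))) (.a (.f (nat_lit 430) (nat_lit 557) (nat_lit 5549) (.f (nat_lit 398) (nat_lit 493) (nat_lit 5517) (.d (nat_lit 399) (nat_lit 367) (nat_lit 6510) (nat_lit 431) (nat_lit 6542)))) (.a (.f (nat_lit 527) (nat_lit 561) (nat_lit 525) (.f (nat_lit 493) (nat_lit 492) (nat_lit 3564) (.f (nat_lit 430) (nat_lit 398) (nat_lit 5517) (.f (nat_lit 431) (nat_lit 399) (nat_lit 6542) (.f (nat_lit 463) (nat_lit 558) (nat_lit 6574) (.d (nat_lit 496) (nat_lit 464) (nat_lit 7599) (nat_lit 497) (nat_lit 2541))))))) (.f (nat_lit 527) (nat_lit 561) (nat_lit 525) (.f (nat_lit 493) (nat_lit 492) (nat_lit 3564) (.d (nat_lit 557) (nat_lit 556) (nat_lit 1548) (nat_lit 589) (nat_lit 6605)))))))) (.p (nat_lit 463) (.a (.f (nat_lit 558) (nat_lit 431) (nat_lit 6574) (.f (nat_lit 461) (nat_lit 429) (nat_lit 7597) (.f (nat_lit 493) (nat_lit 590) (nat_lit 7629) (.d (nat_lit 492) (nat_lit 464) (nat_lit 1484) (nat_lit 491) (nat_lit 2507))))) (.a (.f (nat_lit 431) (nat_lit 558) (nat_lit 6574) (.f (nat_lit 464) (nat_lit 496) (nat_lit 7599) (.f (nat_lit 493) (nat_lit 465) (nat_lit 1485) (.d (nat_lit 492) (nat_lit 461) (nat_lit 1484) (nat_lit 491) (nat_lit 2507))))) (.a (.f (nat_lit 558) (nat_lit 431) (nat_lit 6574) (.f (nat_lit 461) (nat_lit 429) (nat_lit 7597) (.f (nat_lit 590) (nat_lit 493) (nat_lit 7629) (.d (nat_lit 589) (nat_lit 557) (nat_lit 5581) (nat_lit 621) (nat_lit 5613))))) (.a (.p (nat_lit 464) (.a (.f (nat_lit 493) (nat_lit 465) (nat_lit 1485) (.d (nat_lit 492) (nat_lit 461) (nat_lit 1484) (nat_lit 491) (nat_lit 2507))) (.a (.f (nat_lit 496) (nat_lit 431) (nat_lit 7599) (.f (nat_lit 461) (nat_lit 497) (nat_lit 461) (.f (nat_lit 493) (nat_lit 492) (nat_lit 1484) (.d (nat_lit 429) (nat_lit 397) (nat_lit 4493) (nat_lit 428) (nat_lit 3500))))) (.a (.f (nat_lit 496) (nat_lit 431) (nat_lit 7599) (.f (nat_lit 497) (nat_lit 461) (nat_lit 461) (.d (nat_lit 465) (nat_lit 433) (nat_lit 6576) (nat_lit 498) (nat_lit 462)))) (.f (nat_lit 465) (nat_lit 493) (nat_lit 1485) (.d (nat_lit 496) (nat_lit 431) (nat_lit 7599) (nat_lit 433) (nat_lit 6576))))))) (.a (.p (nat_lit 461) (.a (.f (nat_lit 429) (nat_lit 558) (nat_lit 7597) (.d (nat_lit 397) (nat_lit 365) (nat_lit 4461) (nat_lit 493) (nat_lit 4493))) (.a (.p (nat_lit 464) (.a (.d (nat_lit 493) (nat_lit 465) (nat_lit 1485) (nat_lit 492) (nat_lit 1484)) (.a (.f (nat_lit 493) (nat_lit 492) (nat_lit 1484) (.d (nat_lit 429) (nat_lit 397) (nat_lit 4493) (nat_lit 428) (nat_lit 3500))) (.f (nat_lit 496) (nat_lit 497) (nat_lit 461) (.d (nat_lit 433) (nat_lit 432) (nat_lit 2477) (nat_lit 465) (nat_lit 6576)))))) (.a (.f (nat_lit 429) (nat_lit 558) (nat_lit 7597) (.f (nat_lit 464) (nat_lit 428) (nat_lit 3500) (.f (nat_lit 433) (nat_lit 432) (nat_lit 2477) (.d (nat_lit 496) (nat_lit 465) (nat_lit 6576) (nat_lit 497) (nat_lit 461))))) (.p (nat_lit 460) (.a (.f (nat_lit 492) (nat_lit 491) (nat_lit 1483) (.f (nat_lit 493) (nat_lit 464) (nat_lit 1484) (.f (nat_lit 525) (nat_lit 527) (nat_lit 3564) (.d (nat_lit 428) (nat_lit 396) (nat_lit 4492) (nat_lit 427) (nat_lit 3499))))) (.a (.f (nat_lit 492) (nat_lit 491) (nat_lit 1483) (.f (nat_lit 493) (nat_lit 464) (nat_lit 1484) (.f (nat_lit 428) (nat_lit 427) (nat_lit 3499) (.d (nat_lit 396) (nat_lit 364) (nat_lit 4460) (nat_lit 525) (nat_lit 4492))))) (.a (.f (nat_lit 492) (nat_lit 491) (nat_lit 1483) (.f (nat_lit 464) (nat_lit 493) (nat_lit 1484) (.f (nat_lit 433) (nat_lit 432) (nat_lit 2477) (.d (nat_lit 496) (nat_lit 465) (nat_lit 6576) (nat_lit 497) (nat_lit 461))))) (.a (.f (nat_lit 491) (nat_lit 492) (nat_lit 1483) (.f (nat_lit 459) (nat_lit 490) (nat_lit 1482) (.d (nat_lit 427) (nat_lit 426) (nat_lit 3498) (nat_lit 428) (nat_lit 3499)))) (.a (.f (nat_lit 427) (nat_lit 428) (nat_lit 3499) (.f (nat_lit 459) (nat_lit 426) (nat_lit 3498) (.f (nat_lit 490) (nat_lit 491) (nat_lit 1482) (.d (nat_lit 458) (nat_lit 489) (nat_lit 1481) (nat_lit 493) (nat_lit 458))))) (.f (nat_lit 427) (nat_lit 428) (nat_lit 3499) (.f (nat_lit 459) (nat_lit 426) (nat_lit 3498) (.f (nat_lit 493) (nat_lit 458) (nat_lit 458) (.d (nat_lit 464) (nat_lit 465) (nat_lit 1485) (nat_lit 492) (nat_lit 1484))))))))))))))) (.a (.p (nat_lit 464) (.a (.d (nat_lit 431) (nat_lit 496) (nat_lit 7599) (nat_lit 558) (nat_lit 6574)) (.a (.f (nat_lit 558) (nat_lit 431) (nat_lit 6574) (.f (nat_lit 461) (nat_lit 429) (nat_lit 7597) (.f (nat_lit 589) (nat_lit 557) (nat_lit 5581) (.f (nat_lit 590) (nat_lit 621) (nat_lit 5613) (.f (nat_lit 591) (nat_lit 623) (nat_lit 4590) (.f (nat_lit 561) (nat_lit 592) (nat_lit 2605) (.f (nat_lit 433) (nat_lit 432) (nat_lit 2477) (.f (nat_lit 465) (nat_lit 434) (nat_lit 2478) (.f (nat_lit 498) (nat_lit 497) (nat_lit 462) (.f (nat_lit 466) (nat_lit 499) (nat_lit 463) (.f (nat_lit 562) (nat_lit 530) (nat_lit 7601) (.d (nat_lit 527) (nat_lit 525) (nat_lit 525) (nat_lit 563) (nat_lit 3599))))))))))))) (.a (.f (nat_lit 496) (nat_lit 431) (nat_lit 7599) (.f (nat_lit 497) (nat_lit 461) (nat_lit 461) (.d (nat_lit 465) (nat_lit 433) (nat_lit 6576) (nat_lit 498) (nat_lit 462)))) (.p (nat_lit 496) (.a (.f (nat_lit 461) (nat_lit 497) (nat_lit 461) (.d (nat_lit 429) (nat_lit 428) (nat_lit 3500) (nat_lit 558) (nat_lit 7597))) (.a (.f (nat_lit 497) (nat_lit 461) (nat_lit 461) (.d (nat_lit 465) (nat_lit 433) (nat_lit 6576) (nat_lit 498) (nat_lit 462))) (.a (.f (nat_lit 465) (nat_lit 433) (nat_lit 6576) (.d (nat_lit 497) (nat_lit 498) (nat_lit 462) (nat_lit 592) (nat_lit 6608))) (.f (nat_lit 433) (nat_lit 465) (nat_lit 6576) (.d (nat_lit 432) (nat_lit 401) (nat_lit 6544) (nat_lit 461) (nat_lit 2477))))))))))) (.f (nat_lit 431) (nat_lit 558) (nat_lit 6574) (.f (nat_lit 464) (nat_lit 496) (nat_lit 7599) (.f (nat_lit 465) (nat_lit 493) (nat_lit 1485) (.f (nat_lit 434) (nat_lit 433) (nat_lit 2478) (.f (nat_lit 466) (nat_lit 435) (nat_lit 2479) (.d (nat_lit 498) (nat_lit 497) (nat_lit 462) (nat_lit 499) (nat_lit 463)))))))))))))))))))))) (.a (.p (nat_lit 590) (.a (.p (nat_lit 558) (.a (.f (nat_lit 493) (nat_lit 461) (nat_lit 7629) (.f (nat_lit 525) (nat_lit 622) (nat_lit 7661) (.d (nat_lit 527) (nat_lit 492) (nat_lit 3564) (nat_lit 561) (nat_lit 525)))) (.a (.f (nat_lit 589) (nat_lit 621) (nat_lit 5613) (.f (nat_lit 557) (nat_lit 462) (nat_lit 5581) (.f (nat_lit 493) (nat_lit 461) (nat_lit 7629) (.f (nat_lit 525) (nat_lit 622) (nat_lit 4589) (.f (nat_lit 588) (nat_lit 620) (nat_lit 5612) (.f (nat_lit 591) (nat_lit 623) (nat_lit 4590) (.f (nat_lit 555) (nat_lit 556) (nat_lit 3627) (.d (nat_lit 587) (nat_lit 554) (nat_lit 3626) (nat_lit 586) (nat_lit 2602))))))))) (.a (.f (nat_lit 589) (nat_lit 621) (nat_lit 5613) (.f (nat_lit 462) (nat_lit 557) (nat_lit 5581) (.d (nat_lit 461) (nat_lit 429) (nat_lit 7597) (nat_lit 493) (nat_lit 7629)))) (.f (nat_lit 589) (nat_lit 621) (nat_lit 5613) (.f (nat_lit 557) (nat_lit 462) (nat_lit 5581) (.f (nat_lit 623) (nat_lit 591) (nat_lit 4590) (.f (nat_lit 622) (nat_lit 655) (nat_lit 4622) (.d (nat_lit 654) (nat_lit 525) (nat_lit 7693) (nat_lit 686) (nat_lit 7725)))))))))) (.a (.p (nat_lit 558) (.a (.f (nat_lit 589) (nat_lit 621) (nat_lit 5613) (.f (nat_lit 557) (nat_lit 462) (nat_lit 5581) (.f (nat_lit 493) (nat_lit 461) (nat_lit 7629) (.f (nat_lit 525) (nat_lit 622) (nat_lit 4589) (.f (nat_lit 588) (nat_lit 620) (nat_lit 5612) (.f (nat_lit 591) (nat_lit 623) (nat_lit 4590) (.f (nat_lit 555) (nat_lit 556) (nat_lit 3627) (.d (nat_lit 587) (nat_lit 554) (nat_lit 3626) (nat_lit 586) (nat_lit 2602))))))))) (.a (.f (nat_lit 589) (nat_lit 621) (nat_lit 5613) (.f (nat_lit 462) (nat_lit 557) (nat_lit 5581) (.d (nat_lit 461) (nat_lit 429) (nat_lit 7597) (nat_lit 493) (nat_lit 7629)))) (.a (.f (nat_lit 621) (nat_lit 589) (nat_lit 5613) (.f (nat_lit 622) (nat_lit 653) (nat_lit 5645) (.d (nat_lit 623) (nat_lit 591) (nat_lit 4590) (nat_lit 655) (nat_lit 4622)))) (.f (nat_lit 623) (nat_lit 591) (nat_lit 4590) (.f (nat_lit 622) (nat_lit 655) (nat_lit 4622) (.d (nat_lit 493) (nat_lit 461) (nat_lit 7629) (nat_lit 525) (nat_lit 7661)))))))) (.a (.p (nat_lit 558) (.a (.f (nat_lit 493) (nat_lit 461) (nat_lit 7629) (.f (nat_lit 525) (nat_lit 622) (nat_lit 7661) (.d (nat_lit 527) (nat_lit 492) (nat_lit 3564) (nat_lit 561) (nat_lit 525)))) (.a (.f (nat_lit 589) (nat_lit 621) (nat_lit 5613) (.f (nat_lit 462) (nat_lit 557) (nat_lit 5581) (.d (nat_lit 461) (nat_lit 429) (nat_lit 7597) (nat_lit 493) (nat_lit 7629)))) (.f (nat_lit 621) (nat_lit 589) (nat_lit 5613) (.f (nat_lit 622) (nat_lit 653) (nat_lit 5645) (.f (nat_lit 655) (nat_lit 623) (nat_lit 4622) (.f (nat_lit 654) (nat_lit 687) (nat_lit 4654) (.f (nat_lit 527) (nat_lit 495) (nat_lit 6638) (.d (nat_lit 525) (nat_lit 557) (nat_lit 7693) (nat_lit 561) (nat_lit 525)))))))))) (.a (.p (nat_lit 558) (.a (.f (nat_lit 495) (nat_lit 463) (nat_lit 6606) (.f (nat_lit 493) (nat_lit 461) (nat_lit 7629) (.d (nat_lit 527) (nat_lit 492) (nat_lit 492) (nat_lit 622) (nat_lit 6638)))) (.a (.f (nat_lit 589) (nat_lit 621) (nat_lit 5613) (.f (nat_lit 462) (nat_lit 557) (nat_lit 5581) (.d (nat_lit 461) (nat_lit 429) (nat_lit 7597) (nat_lit 493) (nat_lit 7629)))) (.f (nat_lit 495) (nat_lit 463) (nat_lit 6606) (.f (nat_lit 622) (nat_lit 527) (nat_lit 6638) (.d (nat_lit 621) (nat_lit 589) (nat_lit 5613) (nat_lit 653) (nat_lit 5645))))))) (.a s110755 (.a s110756 (.a s110828 (.a (.p (nat_lit 558) (.a (.f (nat_lit 589) (nat_lit 621) (nat_lit 5613) (.f (nat_lit 557) (nat_lit 462) (nat_lit 5581) (.f (nat_lit 623) (nat_lit 591) (nat_lit 4590) (.f (nat_lit 622) (nat_lit 655) (nat_lit 4622) (.d (nat_lit 654) (nat_lit 525) (nat_lit 7693) (nat_lit 686) (nat_lit 7725)))))) (.a (.f (nat_lit 495) (nat_lit 463) (nat_lit 6606) (.f (nat_lit 622) (nat_lit 527) (nat_lit 6638) (.d (nat_lit 621) (nat_lit 589) (nat_lit 5613) (nat_lit 653) (nat_lit 5645)))) (.a (.f (nat_lit 495) (nat_lit 463) (nat_lit 6606) (.f (nat_lit 527) (nat_lit 622) (nat_lit 6638) (.f (nat_lit 525) (nat_lit 561) (nat_lit 525) (.d (nat_lit 524) (nat_lit 496) (nat_lit 2540) (nat_lit 523) (nat_lit 2539))))) (.f (nat_lit 495) (nat_lit 463) (nat_lit 6606) (.f (nat_lit 591) (nat_lit 623) (nat_lit 4590) (.f (nat_lit 589) (nat_lit 621) (nat_lit 5613) (.f (nat_lit 592) (nat_lit 561) (nat_lit 2605) (.d (nat_lit 624) (nat_lit 527) (nat_lit 7663) (nat_lit 625) (nat_lit 589)))))))))) (.p (nat_lit 558) (.a (.f (nat_lit 589) (nat_lit 621) (nat_lit 5613) (.f (nat_lit 462) (nat_lit 557) (nat_lit 5581) (.d (nat_lit 461) (nat_lit 429) (nat_lit 7597) (nat_lit 493) (nat_lit 7629)))) (.a (.f (nat_lit 493) (nat_lit 461) (nat_lit 7629) (.f (nat_lit 495) (nat_lit 463) (nat_lit 6606) (.f (nat_lit 492) (nat_lit 527) (nat_lit 492) (.f (nat_lit 523) (nat_lit 524) (nat_lit 1515) (.f (nat_lit 491) (nat_lit 522) (nat_lit 1514) (.d (nat_lit 459) (nat_lit 458) (nat_lit 3530) (nat_lit 460) (nat_lit 3531))))))) (.f (nat_lit 495) (nat_lit 463) (nat_lit 6606) (.f (nat_lit 591) (nat_lit 623) (nat_lit 4590) (.f (nat_lit 589) (nat_lit 621) (nat_lit 5613) (.f (nat_lit 592) (nat_lit 561) (nat_lit 2605) (.d (nat_lit 624) (nat_lit 527) (nat_lit 7663) (nat_lit 625) (nat_lit 589)))))))))))))))))) (.a (.p (nat_lit 590) (.a s110755 (.a (.p (nat_lit 558) (.a (.f (nat_lit 493) (nat_lit 461) (nat_lit 7629) (.f (nat_lit 525) (nat_lit 622) (nat_lit 7661) (.f (nat_lit 495) (nat_lit 463) (nat_lit 6606) (.d (nat_lit 524) (nat_lit 496) (nat_lit 1516) (nat_lit 523) (nat_lit 2539))))) (.a (.f (nat_lit 621) (nat_lit 589) (nat_lit 5613) (.f (nat_lit 622) (nat_lit 653) (nat_lit 5645) (.d (nat_lit 623) (nat_lit 591) (nat_lit 4590) (nat_lit 655) (nat_lit 4622)))) (.f (nat_lit 591) (nat_lit 623) (nat_lit 4590) (.f (nat_lit 589) (nat_lit 621) (nat_lit 5613) (.f (nat_lit 592) (nat_lit 561) (nat_lit 2605) (.f (nat_lit 556) (nat_lit 557) (nat_lit 3628) (.f (nat_lit 588) (nat_lit 555) (nat_lit 3627) (.f (nat_lit 619) (nat_lit 620) (nat_lit 1611) (.f (nat_lit 587) (nat_lit 618) (nat_lit 1610) (.f (nat_lit 495) (nat_lit 463) (nat_lit 6606) (.f (nat_lit 493) (nat_lit 461) (nat_lit 7629) (.f (nat_lit 524) (nat_lit 492) (nat_lit 5611) (.d (nat_lit 525) (nat_lit 496) (nat_lit 1516) (nat_lit 523) (nat_lit 2539))))))))))))))) (.a (.p (nat_lit 558) (.a (.f (nat_lit 495) (nat_lit 463) (nat_lit 6606) (.f (nat_lit 493) (nat_lit 461) (nat_lit 7629) (.d (nat_lit 527) (nat_lit 492) (nat_lit 492) (nat_lit 622) (nat_lit 6638)))) (.a (.f (nat_lit 621) (nat_lit 589) (nat_lit 5613) (.f (nat_lit 622) (nat_lit 653) (nat_lit 5645) (.d (nat_lit 623) (nat_lit 591) (nat_lit 4590) (nat_lit 655) (nat_lit 4622)))) (.f (nat_lit 493) (nat_lit 461) (nat_lit 7629) (.f (nat_lit 495) (nat_lit 463) (nat_lit 6606) (.f (nat_lit 492) (nat_lit 527) (nat_lit 492) (.f (nat_lit 523) (nat_lit 524) (nat_lit 1515) (.f (nat_lit 491) (nat_lit 522) (nat_lit 1514) (.d (nat_lit 459) (nat_lit 458) (nat_lit 3530) (nat_lit 460) (nat_lit 3531)))))))))) (.a (.p (nat_lit 558) (.a (.f (nat_lit 493) (nat_lit 461) (nat_lit 7629) (.f (nat_lit 525) (nat_lit 622) (nat_lit 7661) (.d (nat_lit 527) (nat_lit 492) (nat_lit 3564) (nat_lit 561) (nat_lit 525)))) (.a (.f (nat_lit 621) (nat_lit 589) (nat_lit 5613) (.f (nat_lit 622) (nat_lit 653) (nat_lit 5645) (.d (nat_lit 623) (nat_lit 591) (nat_lit 4590) (nat_lit 655) (nat_lit 4622)))) (.f (nat_lit 493) (nat_lit 461) (nat_lit 7629) (.f (nat_lit 591) (nat_lit 623) (nat_lit 4590) (.f (nat_lit 589) (nat_lit 621) (nat_lit 5613) (.f (nat_lit 592) (nat_lit 561) (nat_lit 2605) (.f (nat_lit 624) (nat_lit 625) (nat_lit 589) (.f (nat_lit 527) (nat_lit 495) (nat_lit 7663) (.d (nat_lit 492) (nat_lit 491) (nat_lit 491) (nat_lit 525) (nat_lit 3564))))))))))) (.a s110756 (.a (.p (nat_lit 592) (.a (.p (nat_lit 496) (.a (.f (nat_lit 465) (nat_lit 497) (nat_lit 6608) (.f (nat_lit 464) (nat_lit 433) (nat_lit 6576) (.d (nat_lit 495) (nat_lit 463) (nat_lit 7631) (nat_lit 493) (nat_lit 2509)))) (.f (nat_lit 591) (nat_lit 623) (nat_lit 5615) (.f (nat_lit 589) (nat_lit 561) (nat_lit 2605) (.f (nat_lit 620) (nat_lit 621) (nat_lit 1612) (.f (nat_lit 588) (nat_lit 619) (nat_lit 1611) (.d (nat_lit 556) (nat_lit 555) (nat_lit 3627) (nat_lit 557) (nat_lit 3628)))))))) (.a (.p (nat_lit 624) (.a (.f (nat_lit 625) (nat_lit 657) (nat_lit 4624) (.f (nat_lit 591) (nat_lit 589) (nat_lit 589) (.d (nat_lit 626) (nat_lit 623) (nat_lit 3662) (nat_lit 627) (nat_lit 3663)))) (.a (.f (nat_lit 655) (nat_lit 623) (nat_lit 5647) (.f (nat_lit 656) (nat_lit 687) (nat_lit 5679) (.d (nat_lit 657) (nat_lit 625) (nat_lit 4624) (nat_lit 689) (nat_lit 4656)))) (.f (nat_lit 527) (nat_lit 495) (nat_lit 7663) (.f (nat_lit 525) (nat_lit 561) (nat_lit 525) (.f (nat_lit 493) (nat_lit 492) (nat_lit 3564) (.f (nat_lit 557) (nat_lit 556) (nat_lit 1548) (.d (nat_lit 589) (nat_lit 621) (nat_lit 6637) (nat_lit 622) (nat_lit 4589))))))))) (.a (.p (nat_lit 495) (.a (.f (nat_lit 496) (nat_lit 463) (nat_lit 7631) (.d (nat_lit 497) (nat_lit 465) (nat_lit 6608) (nat_lit 525) (nat_lit 1517))) (.a (.f (nat_lit 527) (nat_lit 624) (nat_lit 7663) (.f (nat_lit 492) (nat_lit 493) (nat_lit 492) (.f (nat_lit 525) (nat_lit 561) (nat_lit 525) (.d (nat_lit 524) (nat_lit 491) (nat_lit 3563) (nat_lit 523) (nat_lit 2539))))) (.f (nat_lit 496) (nat_lit 463) (nat_lit 7631) (.f (nat_lit 497) (nat_lit 465) (nat_lit 6608) (.d (nat_lit 527) (nat_lit 498) (nat_lit 1518) (nat_lit 624) (nat_lit 7663))))))) (.a (.p (nat_lit 495) (.a (.f (nat_lit 496) (nat_lit 463) (nat_lit 7631) (.d (nat_lit 497) (nat_lit 465) (nat_lit 6608) (nat_lit 525) (nat_lit 1517))) (.f (nat_lit 624) (nat_lit 527) (nat_lit 7663) (.f (nat_lit 625) (nat_lit 657) (nat_lit 4624) (.f (nat_lit 623) (nat_lit 655) (nat_lit 5647) (.d (nat_lit 591) (nat_lit 589) (nat_lit 589) (nat_lit 626) (nat_lit 3662))))))) s110827))))) (.a (.p (nat_lit 558) (.a (.f (nat_lit 493) (nat_lit 461) (nat_lit 7629) (.f (nat_lit 525) (nat_lit 622) (nat_lit 7661) (.d (nat_lit 527) (nat_lit 492) (nat_lit 3564) (nat_lit 561) (nat_lit 525)))) (.a (.f (nat_lit 621) (nat_lit 589) (nat_lit 5613) (.f (nat_lit 622) (nat_lit 653) (nat_lit 5645) (.d (nat_lit 623) (nat_lit 591) (nat_lit 4590) (nat_lit 655) (nat_lit 4622)))) (.f (nat_lit 493) (nat_lit 461) (nat_lit 7629) (.f (nat_lit 591) (nat_lit 623) (nat_lit 4590) (.f (nat_lit 589) (nat_lit 621) (nat_lit 5613) (.f (nat_lit 592) (nat_lit 561) (nat_lit 2605) (.f (nat_lit 556) (nat_lit 557) (nat_lit 3628) (.f (nat_lit 588) (nat_lit 555) (nat_lit 3627) (.f (nat_lit 620) (nat_lit 619) (nat_lit 1611) (.f (nat_lit 524) (nat_lit 525) (nat_lit 6636) (.f (nat_lit 491) (nat_lit 523) (nat_lit 7659) (.d (nat_lit 492) (nat_lit 459) (nat_lit 7627) (nat_lit 527) (nat_lit 491)))))))))))))) (.a s110858 (.p (nat_lit 558) (.a (.f (nat_lit 493) (nat_lit 461) (nat_lit 7629) (.f (nat_lit 495) (nat_lit 463) (nat_lit 6606) (.f (nat_lit 492) (nat_lit 527) (nat_lit 492) (.f (nat_lit 524) (nat_lit 523) (nat_lit 1515) (.f (nat_lit 525) (nat_lit 496) (nat_lit 1516) (.f (nat_lit 460) (nat_lit 459) (nat_lit 3531) (.d (nat_lit 428) (nat_lit 396) (nat_lit 4492) (nat_lit 557) (nat_lit 4524)))))))) (.a (.f (nat_lit 591) (nat_lit 623) (nat_lit 4590) (.f (nat_lit 589) (nat_lit 621) (nat_lit 5613) (.f (nat_lit 592) (nat_lit 561) (nat_lit 2605) (.f (nat_lit 556) (nat_lit 557) (nat_lit 3628) (.f (nat_lit 588) (nat_lit 555) (nat_lit 3627) (.f (nat_lit 619) (nat_lit 620) (nat_lit 1611) (.f (nat_lit 587) (nat_lit 618) (nat_lit 1610) (.f (nat_lit 495) (nat_lit 463) (nat_lit 6606) (.f (nat_lit 493) (nat_lit 461) (nat_lit 7629) (.f (nat_lit 524) (nat_lit 492) (nat_lit 5611) (.d (nat_lit 525) (nat_lit 496) (nat_lit 1516) (nat_lit 523) (nat_lit 2539)))))))))))) (.a (.f (nat_lit 493) (nat_lit 461) (nat_lit 7629) (.f (nat_lit 495) (nat_lit 463) (nat_lit 6606) (.f (nat_lit 492) (nat_lit 527) (nat_lit 492) (.f (nat_lit 523) (nat_lit 524) (nat_lit 1515) (.f (nat_lit 491) (nat_lit 522) (nat_lit 1514) (.d (nat_lit 459) (nat_lit 458) (nat_lit 3530) (nat_lit 460) (nat_lit 3531))))))) (.a (.f (nat_lit 493) (nat_lit 461) (nat_lit 7629) (.f (nat_lit 591) (nat_lit 623) (nat_lit 4590) (.f (nat_lit 589) (nat_lit 621) (nat_lit 5613) (.f (nat_lit 592) (nat_lit 561) (nat_lit 2605) (.f (nat_lit 624) (nat_lit 625) (nat_lit 589) (.f (nat_lit 527) (nat_lit 495) (nat_lit 7663) (.d (nat_lit 492) (nat_lit 491) (nat_lit 491) (nat_lit 525) (nat_lit 3564)))))))) (.a (.f (nat_lit 493) (nat_lit 461) (nat_lit 7629) (.f (nat_lit 591) (nat_lit 623) (nat_lit 4590) (.f (nat_lit 589) (nat_lit 621) (nat_lit 5613) (.f (nat_lit 592) (nat_lit 561) (nat_lit 2605) (.f (nat_lit 556) (nat_lit 557) (nat_lit 3628) (.f (nat_lit 588) (nat_lit 555) (nat_lit 3627) (.f (nat_lit 620) (nat_lit 619) (nat_lit 1611) (.f (nat_lit 524) (nat_lit 525) (nat_lit 6636) (.f (nat_lit 491) (nat_lit 523) (nat_lit 7659) (.d (nat_lit 492) (nat_lit 459) (nat_lit 7627) (nat_lit 527) (nat_lit 491))))))))))) (.f (nat_lit 495) (nat_lit 463) (nat_lit 6606) (.f (nat_lit 591) (nat_lit 623) (nat_lit 4590) (.f (nat_lit 589) (nat_lit 621) (nat_lit 5613) (.f (nat_lit 592) (nat_lit 561) (nat_lit 2605) (.d (nat_lit 624) (nat_lit 527) (nat_lit 7663) (nat_lit 625) (nat_lit 589))))))))))))))))))))) (.a (.p (nat_lit 496) (.a s108395 (.a s109681 (.a (.p (nat_lit 464) (.a (.f (nat_lit 463) (nat_lit 431) (nat_lit 7599) (.f (nat_lit 495) (nat_lit 592) (nat_lit 7631) (.f (nat_lit 497) (nat_lit 525) (nat_lit 1517) (.d (nat_lit 462) (nat_lit 461) (nat_lit 461) (nat_lit 498) (nat_lit 3534))))) (.a (.f (nat_lit 431) (nat_lit 463) (nat_lit 7599) (.f (nat_lit 432) (nat_lit 399) (nat_lit 7567) (.d (nat_lit 433) (nat_lit 401) (nat_lit 6544) (nat_lit 465) (nat_lit 6576)))) (.f (nat_lit 465) (nat_lit 433) (nat_lit 6576) (.f (nat_lit 497) (nat_lit 592) (nat_lit 6608) (.d (nat_lit 495) (nat_lit 466) (nat_lit 2510) (nat_lit 525) (nat_lit 1517))))))) (.a (.p (nat_lit 465) (.a (.f (nat_lit 497) (nat_lit 592) (nat_lit 6608) (.d (nat_lit 433) (nat_lit 401) (nat_lit 5520) (nat_lit 464) (nat_lit 6576))) (.a (.f (nat_lit 464) (nat_lit 433) (nat_lit 6576) (.f (nat_lit 463) (nat_lit 431) (nat_lit 7599) (.f (nat_lit 466) (nat_lit 495) (nat_lit 1486) (.f (nat_lit 498) (nat_lit 499) (nat_lit 463) (.f (nat_lit 462) (nat_lit 497) (nat_lit 462) (.f (nat_lit 429) (nat_lit 430) (nat_lit 3501) (.d (nat_lit 461) (nat_lit 428) (nat_lit 3500) (nat_lit 558) (nat_lit 7597)))))))) (.a (.f (nat_lit 497) (nat_lit 592) (nat_lit 6608) (.f (nat_lit 495) (nat_lit 466) (nat_lit 2510) (.f (nat_lit 498) (nat_lit 527) (nat_lit 1518) (.d (nat_lit 462) (nat_lit 461) (nat_lit 3533) (nat_lit 463) (nat_lit 3534))))) (.f (nat_lit 464) (nat_lit 433) (nat_lit 6576) (.f (nat_lit 463) (nat_lit 431) (nat_lit 7599) (.d (nat_lit 495) (nat_lit 466) (nat_lit 1486) (nat_lit 592) (nat_lit 7631)))))))) (.a (.p (nat_lit 497) (.a (.d (nat_lit 525) (nat_lit 495) (nat_lit 1517) (nat_lit 527) (nat_lit 2541)) (.a (.f (nat_lit 495) (nat_lit 525) (nat_lit 1517) (.d (nat_lit 465) (nat_lit 466) (nat_lit 2510) (nat_lit 592) (nat_lit 6608))) (.f (nat_lit 465) (nat_lit 592) (nat_lit 6608) (.d (nat_lit 433) (nat_lit 401) (nat_lit 5520) (nat_lit 464) (nat_lit 6576)))))) (.a (.p (nat_lit 464) (.a (.f (nat_lit 431) (nat_lit 463) (nat_lit 7599) (.f (nat_lit 432) (nat_lit 399) (nat_lit 7567) (.d (nat_lit 433) (nat_lit 401) (nat_lit 6544) (nat_lit 465) (nat_lit 6576)))) (.a (.p (nat_lit 462) (.a (.f (nat_lit 433) (nat_lit 465) (nat_lit 6576) (.f (nat_lit 432) (nat_lit 401) (nat_lit 6544) (.f (nat_lit 431) (nat_lit 399) (nat_lit 7567) (.f (nat_lit 430) (nat_lit 461) (nat_lit 1453) (.d (nat_lit 397) (nat_lit 398) (nat_lit 3469) (nat_lit 429) (nat_lit 7565)))))) (.a (.p (nat_lit 525) (.a (.f (nat_lit 430) (nat_lit 557) (nat_lit 5549) (.f (nat_lit 399) (nat_lit 431) (nat_lit 6542) (.f (nat_lit 398) (nat_lit 367) (nat_lit 6510) (.d (nat_lit 397) (nat_lit 365) (nat_lit 7533) (nat_lit 429) (nat_lit 7565))))) (.d (nat_lit 527) (nat_lit 497) (nat_lit 2541) (nat_lit 561) (nat_lit 525)))) (.a (.f (nat_lit 465) (nat_lit 433) (nat_lit 6576) (.f (nat_lit 497) (nat_lit 592) (nat_lit 6608) (.f (nat_lit 525) (nat_lit 527) (nat_lit 2541) (.f (nat_lit 557) (nat_lit 430) (nat_lit 5549) (.d (nat_lit 589) (nat_lit 558) (nat_lit 5581) (nat_lit 621) (nat_lit 6637)))))) (.p (nat_lit 589) (.a (.f (nat_lit 558) (nat_lit 557) (nat_lit 5581) (.f (nat_lit 590) (nat_lit 621) (nat_lit 5613) (.f (nat_lit 591) (nat_lit 623) (nat_lit 4590) (.f (nat_lit 592) (nat_lit 561) (nat_lit 2605) (.d (nat_lit 465) (nat_lit 433) (nat_lit 6576) (nat_lit 497) (nat_lit 6608)))))) (.a (.f (nat_lit 557) (nat_lit 558) (nat_lit 5581) (.f (nat_lit 525) (nat_lit 621) (nat_lit 6637) (.d (nat_lit 527) (nat_lit 497) (nat_lit 2541) (nat_lit 561) (nat_lit 525)))) (.a (.f (nat_lit 465) (nat_lit 433) (nat_lit 6576) (.f (nat_lit 592) (nat_lit 497) (nat_lit 6608) (.f (nat_lit 591) (nat_lit 623) (nat_lit 5615) (.f (nat_lit 590) (nat_lit 561) (nat_lit 2605) (.d (nat_lit 621) (nat_lit 558) (nat_lit 5613) (nat_lit 620) (nat_lit 1612)))))) (.a (.f (nat_lit 558) (nat_lit 557) (nat_lit 5581) (.f (nat_lit 590) (nat_lit 621) (nat_lit 5613) (.f (nat_lit 623) (nat_lit 591) (nat_lit 4590) (.f (nat_lit 465) (nat_lit 433) (nat_lit 6576) (.f (nat_lit 655) (nat_lit 622) (nat_lit 4622) (.d (nat_lit 592) (nat_lit 497) (nat_lit 6608) (nat_lit 624) (nat_lit 5647))))))) (.a (.f (nat_lit 465) (nat_lit 433) (nat_lit 6576) (.f (nat_lit 592) (nat_lit 497) (nat_lit 6608) (.f (nat_lit 591) (nat_lit 623) (nat_lit 5615) (.f (nat_lit 590) (nat_lit 561) (nat_lit 2605) (.f (nat_lit 557) (nat_lit 556) (nat_lit 3628) (.d (nat_lit 621) (nat_lit 525) (nat_lit 6637) (nat_lit 620) (nat_lit 1612))))))) (.a (.f (nat_lit 465) (nat_lit 433) (nat_lit 6576) (.f (nat_lit 592) (nat_lit 497) (nat_lit 6608) (.f (nat_lit 591) (nat_lit 623) (nat_lit 5615) (.f (nat_lit 590) (nat_lit 561) (nat_lit 2605) (.d (nat_lit 557) (nat_lit 556) (nat_lit 3628) (nat_lit 558) (nat_lit 5581)))))) (.f (nat_lit 557) (nat_lit 558) (nat_lit 5581) (.f (nat_lit 525) (nat_lit 621) (nat_lit 6637) (.d (nat_lit 527) (nat_lit 556) (nat_lit 1548) (nat_lit 561) (nat_lit 525))))))))))))))) (.a (.p (nat_lit 462) (.a (.f (nat_lit 463) (nat_lit 431) (nat_lit 7599) (.f (nat_lit 461) (nat_lit 497) (nat_lit 461) (.d (nat_lit 429) (nat_lit 428) (nat_lit 3500) (nat_lit 558) (nat_lit 7597)))) (.a (.p (nat_lit 525) (.a (.f (nat_lit 430) (nat_lit 557) (nat_lit 5549) (.f (nat_lit 399) (nat_lit 431) (nat_lit 6542) (.f (nat_lit 398) (nat_lit 367) (nat_lit 6510) (.d (nat_lit 397) (nat_lit 365) (nat_lit 7533) (nat_lit 429) (nat_lit 7565))))) (.d (nat_lit 527) (nat_lit 497) (nat_lit 2541) (nat_lit 561) (nat_lit 525)))) (.a (.p (nat_lit 525) (.a (.f (nat_lit 557) (nat_lit 430) (nat_lit 5549) (.d (nat_lit 589) (nat_lit 558) (nat_lit 5581) (nat_lit 621) (nat_lit 6637))) (.d (nat_lit 527) (nat_lit 497) (nat_lit 2541) (nat_lit 561) (nat_lit 525)))) (.f (nat_lit 431) (nat_lit 463) (nat_lit 7599) (.d (nat_lit 399) (nat_lit 430) (nat_lit 6542) (nat_lit 432) (nat_lit 7567))))))) (.a (.p (nat_lit 462) (.a (.f (nat_lit 465) (nat_lit 433) (nat_lit 6576) (.f (nat_lit 497) (nat_lit 592) (nat_lit 6608) (.d (nat_lit 463) (nat_lit 461) (nat_lit 461) (nat_lit 498) (nat_lit 462)))) (.a (.f (nat_lit 433) (nat_lit 465) (nat_lit 6576) (.f (nat_lit 432) (nat_lit 401) (nat_lit 6544) (.f (nat_lit 461) (nat_lit 463) (nat_lit 2477) (.f (nat_lit 429) (nat_lit 558) (nat_lit 7597) (.d (nat_lit 397) (nat_lit 365) (nat_lit 4461) (nat_lit 430) (nat_lit 7565)))))) (.a (.f (nat_lit 465) (nat_lit 433) (nat_lit 6576) (.f (nat_lit 497) (nat_lit 592) (nat_lit 6608) (.f (nat_lit 525) (nat_lit 527) (nat_lit 2541) (.f (nat_lit 557) (nat_lit 430) (nat_lit 5549) (.d (nat_lit 589) (nat_lit 558) (nat_lit 5581) (nat_lit 621) (nat_lit 6637)))))) (.p (nat_lit 525) (.a (.f (nat_lit 557) (nat_lit 430) (nat_lit 5549) (.d (nat_lit 589) (nat_lit 558) (nat_lit 5581) (nat_lit 621) (nat_lit 6637))) (.d (nat_lit 527) (nat_lit 497) (nat_lit 2541) (nat_lit 561) (nat_lit 525)))))))) (.f (nat_lit 465) (nat_lit 433) (nat_lit 6576) (.f (nat_lit 463) (nat_lit 431) (nat_lit 7599) (.f (nat_lit 497) (nat_lit 592) (nat_lit 6608) (.d (nat_lit 462) (nat_lit 461) (nat_lit 461) (nat_lit 498) (nat_lit 462)))))))))) (.a (.p (nat_lit 525) (.a (.d (nat_lit 527) (nat_lit 497) (nat_lit 2541) (nat_lit 561) (nat_lit 525)) (.a (.f (nat_lit 495) (nat_lit 497) (nat_lit 1517) (.f (nat_lit 463) (nat_lit 592) (nat_lit 7631) (.d (nat_lit 431) (nat_lit 399) (nat_lit 4495) (nat_lit 464) (nat_lit 7599)))) (.f (nat_lit 527) (nat_lit 561) (nat_lit 525) (.f (nat_lit 495) (nat_lit 524) (nat_lit 2540) (.d (nat_lit 592) (nat_lit 463) (nat_lit 7631) (nat_lit 624) (nat_lit 7663))))))) (.p (nat_lit 462) (.a (.p (nat_lit 558) (.a (.f (nat_lit 463) (nat_lit 431) (nat_lit 6574) (.f (nat_lit 495) (nat_lit 592) (nat_lit 7631) (.d (nat_lit 461) (nat_lit 429) (nat_lit 7597) (nat_lit 460) (nat_lit 460)))) (.a (.f (nat_lit 431) (nat_lit 463) (nat_lit 6574) (.f (nat_lit 430) (nat_lit 399) (nat_lit 6542) (.d (nat_lit 429) (nat_lit 397) (nat_lit 7565) (nat_lit 461) (nat_lit 7597)))) (.a (.f (nat_lit 557) (nat_lit 589) (nat_lit 5581) (.f (nat_lit 430) (nat_lit 525) (nat_lit 5549) (.d (nat_lit 429) (nat_lit 397) (nat_lit 7565) (nat_lit 461) (nat_lit 7597)))) (.a (.f (nat_lit 557) (nat_lit 589) (nat_lit 5581) (.f (nat_lit 430) (nat_lit 525) (nat_lit 5549) (.f (nat_lit 399) (nat_lit 431) (nat_lit 6542) (.f (nat_lit 398) (nat_lit 367) (nat_lit 6510) (.d (nat_lit 397) (nat_lit 365) (nat_lit 7533) (nat_lit 429) (nat_lit 7565)))))) (.f (nat_lit 431) (nat_lit 463) (nat_lit 6574) (.f (nat_lit 430) (nat_lit 399) (nat_lit 6542) (.d (nat_lit 557) (nat_lit 525) (nat_lit 5549) (nat_lit 589) (nat_lit 5581))))))))) (.a (.p (nat_lit 558) (.a (.f (nat_lit 431) (nat_lit 463) (nat_lit 6574) (.f (nat_lit 430) (nat_lit 399) (nat_lit 6542) (.d (nat_lit 429) (nat_lit 397) (nat_lit 7565) (nat_lit 461) (nat_lit 7597)))) (.a (.f (nat_lit 557) (nat_lit 589) (nat_lit 5581) (.f (nat_lit 430) (nat_lit 525) (nat_lit 5549) (.d (nat_lit 429) (nat_lit 397) (nat_lit 7565) (nat_lit 461) (nat_lit 7597)))) (.a (.f (nat_lit 557) (nat_lit 589) (nat_lit 5581) (.f (nat_lit 430) (nat_lit 525) (nat_lit 5549) (.f (nat_lit 399) (nat_lit 431) (nat_lit 6542) (.f (nat_lit 398) (nat_lit 367) (nat_lit 6510) (.d (nat_lit 397) (nat_lit 365) (nat_lit 7533) (nat_lit 429) (nat_lit 7565)))))) (.a (.f (nat_lit 431) (nat_lit 463) (nat_lit 6574) (.f (nat_lit 430) (nat_lit 399) (nat_lit 6542) (.d (nat_lit 557) (nat_lit 525) (nat_lit 5549) (nat_lit 589) (nat_lit 5581)))) (.f (nat_lit 463) (nat_lit 431) (nat_lit 6574) (.f (nat_lit 590) (nat_lit 495) (nat_lit 6606) (.d (nat_lit 589) (nat_lit 557) (nat_lit 5581) (nat_lit 621) (nat_lit 5613))))))))) (.a (.p (nat_lit 464) (.a (.f (nat_lit 433) (nat_lit 465) (nat_lit 6576) (.f (nat_lit 432) (nat_lit 401) (nat_lit 6544) (.f (nat_lit 431) (nat_lit 399) (nat_lit 7567) (.f (nat_lit 430) (nat_lit 461) (nat_lit 1453) (.d (nat_lit 397) (nat_lit 398) (nat_lit 3469) (nat_lit 429) (nat_lit 7565)))))) (.a (.f (nat_lit 431) (nat_lit 463) (nat_lit 7599) (.d (nat_lit 399) (nat_lit 430) (nat_lit 6542) (nat_lit 432) (nat_lit 7567))) (.a (.f (nat_lit 433) (nat_lit 465) (nat_lit 6576) (.f (nat_lit 432) (nat_lit 401) (nat_lit 6544) (.f (nat_lit 461) (nat_lit 463) (nat_lit 2477) (.f (nat_lit 429) (nat_lit 558) (nat_lit 7597) (.d (nat_lit 397) (nat_lit 365) (nat_lit 4461) (nat_lit 430) (nat_lit 7565)))))) (.f (nat_lit 463) (nat_lit 431) (nat_lit 7599) (.f (nat_lit 495) (nat_lit 592) (nat_lit 7631) (.d (nat_lit 465) (nat_lit 433) (nat_lit 6576) (nat_lit 466) (nat_lit 1486)))))))) (.a (.p (nat_lit 525) (.a (.f (nat_lit 557) (nat_lit 430) (nat_lit 5549) (.d (nat_lit 589) (nat_lit 558) (nat_lit 5581) (nat_lit 621) (nat_lit 6637))) (.a (.f (nat_lit 527) (nat_lit 561) (nat_lit 525) (.f (nat_lit 495) (nat_lit 524) (nat_lit 2540) (.f (nat_lit 430) (nat_lit 398) (nat_lit 4494) (.f (nat_lit 429) (nat_lit 397) (nat_lit 7565) (.f (nat_lit 431) (nat_lit 399) (nat_lit 6542) (.f (nat_lit 461) (nat_lit 558) (nat_lit 7597) (.d (nat_lit 460) (nat_lit 432) (nat_lit 1452) (nat_lit 459) (nat_lit 2475)))))))) (.a (.f (nat_lit 430) (nat_lit 557) (nat_lit 5549) (.f (nat_lit 399) (nat_lit 431) (nat_lit 6542) (.f (nat_lit 398) (nat_lit 367) (nat_lit 6510) (.d (nat_lit 397) (nat_lit 365) (nat_lit 7533) (nat_lit 429) (nat_lit 7565))))) (.f (nat_lit 527) (nat_lit 561) (nat_lit 525) (.f (nat_lit 524) (nat_lit 495) (nat_lit 2540) (.d (nat_lit 556) (nat_lit 555) (nat_lit 1547) (nat_lit 557) (nat_lit 1548)))))))) (.a (.p (nat_lit 464) (.a (.f (nat_lit 433) (nat_lit 465) (nat_lit 6576) (.f (nat_lit 432) (nat_lit 401) (nat_lit 6544) (.f (nat_lit 431) (nat_lit 399) (nat_lit 7567) (.f (nat_lit 430) (nat_lit 461) (nat_lit 1453) (.d (nat_lit 397) (nat_lit 398) (nat_lit 3469) (nat_lit 429) (nat_lit 7565)))))) (.a (.f (nat_lit 431) (nat_lit 463) (nat_lit 7599) (.d (nat_lit 399) (nat_lit 430) (nat_lit 6542) (nat_lit 432) (nat_lit 7567))) (.a (.f (nat_lit 433) (nat_lit 465) (nat_lit 6576) (.f (nat_lit 432) (nat_lit 401) (nat_lit 6544) (.f (nat_lit 463) (nat_lit 461) (nat_lit 2477) (.f (nat_lit 495) (nat_lit 592) (nat_lit 7631) (.d (nat_lit 400) (nat_lit 368) (nat_lit 5487) (nat_lit 527) (nat_lit 5519)))))) (.f (nat_lit 463) (nat_lit 431) (nat_lit 7599) (.f (nat_lit 495) (nat_lit 592) (nat_lit 7631) (.d (nat_lit 465) (nat_lit 433) (nat_lit 6576) (nat_lit 466) (nat_lit 1486)))))))) (.a (.p (nat_lit 464) (.a (.f (nat_lit 433) (nat_lit 465) (nat_lit 6576) (.f (nat_lit 432) (nat_lit 401) (nat_lit 6544) (.f (nat_lit 431) (nat_lit 399) (nat_lit 7567) (.f (nat_lit 430) (nat_lit 461) (nat_lit 1453) (.d (nat_lit 397) (nat_lit 398) (nat_lit 3469) (nat_lit 429) (nat_lit 7565)))))) (.a (.f (nat_lit 431) (nat_lit 463) (nat_lit 7599) (.d (nat_lit 399) (nat_lit 430) (nat_lit 6542) (nat_lit 432) (nat_lit 7567))) (.a (.f (nat_lit 433) (nat_lit 465) (nat_lit 6576) (.f (nat_lit 432) (nat_lit 401) (nat_lit 6544) (.f (nat_lit 461) (nat_lit 463) (nat_lit 2477) (.f (nat_lit 429) (nat_lit 558) (nat_lit 7597) (.d (nat_lit 397) (nat_lit 365) (nat_lit 4461) (nat_lit 430) (nat_lit 7565)))))) (.a (.f (nat_lit 463) (nat_lit 431) (nat_lit 7599) (.f (nat_lit 433) (nat_lit 465) (nat_lit 6576) (.d (nat_lit 432) (nat_lit 401) (nat_lit 6544) (nat_lit 461) (nat_lit 2477)))) (.f (nat_lit 463) (nat_lit 431) (nat_lit 7599) (.f (nat_lit 465) (nat_lit 433) (nat_lit 6576) (.f (nat_lit 429) (nat_lit 430) (nat_lit 3501) (.d (nat_lit 461) (nat_lit 428) (nat_lit 3500) (nat_lit 558) (nat_lit 7597)))))))))) (.a (.p (nat_lit 525) (.a (.f (nat_lit 557) (nat_lit 430) (nat_lit 5549) (.d (nat_lit 589) (nat_lit 558) (nat_lit 5581) (nat_lit 621) (nat_lit 6637))) (.f (nat_lit 527) (nat_lit 561) (nat_lit 525) (.f (nat_lit 495) (nat_lit 524) (nat_lit 2540) (.d (nat_lit 592) (nat_lit 463) (nat_lit 7631) (nat_lit 624) (nat_lit 7663)))))) (.p (nat_lit 464) (.a (.f (nat_lit 463) (nat_lit 431) (nat_lit 7599) (.f (nat_lit 495) (nat_lit 592) (nat_lit 7631) (.d (nat_lit 465) (nat_lit 433) (nat_lit 6576) (nat_lit 466) (nat_lit 1486)))) (.a (.f (nat_lit 463) (nat_lit 431) (nat_lit 7599) (.f (nat_lit 433) (nat_lit 465) (nat_lit 6576) (.d (nat_lit 432) (nat_lit 401) (nat_lit 6544) (nat_lit 461) (nat_lit 2477)))) (.a (.f (nat_lit 433) (nat_lit 465) (nat_lit 6576) (.f (nat_lit 432) (nat_lit 401) (nat_lit 6544) (.f (nat_lit 399) (nat_lit 431) (nat_lit 7567) (.f (nat_lit 400) (nat_lit 367) (nat_lit 7535) (.f (nat_lit 527) (nat_lit 495) (nat_lit 5519) (.f (nat_lit 525) (nat_lit 561) (nat_lit 525) (.f (nat_lit 557) (nat_lit 556) (nat_lit 1548) (.d (nat_lit 589) (nat_lit 558) (nat_lit 5581) (nat_lit 621) (nat_lit 6637))))))))) (.a (.f (nat_lit 463) (nat_lit 431) (nat_lit 7599) (.f (nat_lit 495) (nat_lit 592) (nat_lit 7631) (.f (nat_lit 461) (nat_lit 460) (nat_lit 460) (.d (nat_lit 558) (nat_lit 429) (nat_lit 7597) (nat_lit 590) (nat_lit 6606))))) (.f (nat_lit 433) (nat_lit 465) (nat_lit 6576) (.f (nat_lit 432) (nat_lit 401) (nat_lit 6544) (.f (nat_lit 463) (nat_lit 461) (nat_lit 2477) (.f (nat_lit 495) (nat_lit 592) (nat_lit 7631) (.d (nat_lit 400) (nat_lit 368) (nat_lit 5487) (nat_lit 527) (nat_lit 5519))))))))))))))))))))))))))) (.p (nat_lit 590) (.a s110828 (.a (.p (nat_lit 558) (.a (.f (nat_lit 589) (nat_lit 621) (nat_lit 5613) (.f (nat_lit 462) (nat_lit 557) (nat_lit 5581) (.d (nat_lit 463) (nat_lit 431) (nat_lit 6574) (nat_lit 495) (nat_lit 6606)))) (.a (.f (nat_lit 589) (nat_lit 621) (nat_lit 5613) (.f (nat_lit 557) (nat_lit 462) (nat_lit 5581) (.f (nat_lit 623) (nat_lit 591) (nat_lit 4590) (.f (nat_lit 622) (nat_lit 655) (nat_lit 4622) (.d (nat_lit 654) (nat_lit 525) (nat_lit 7693) (nat_lit 686) (nat_lit 7725)))))) (.a (.f (nat_lit 495) (nat_lit 463) (nat_lit 6606) (.f (nat_lit 622) (nat_lit 527) (nat_lit 6638) (.d (nat_lit 621) (nat_lit 589) (nat_lit 5613) (nat_lit 653) (nat_lit 5645)))) (.f (nat_lit 495) (nat_lit 463) (nat_lit 6606) (.f (nat_lit 527) (nat_lit 622) (nat_lit 6638) (.f (nat_lit 525) (nat_lit 561) (nat_lit 525) (.d (nat_lit 524) (nat_lit 496) (nat_lit 2540) (nat_lit 523) (nat_lit 2539))))))))) (.a (.p (nat_lit 558) (.a (.f (nat_lit 589) (nat_lit 621) (nat_lit 5613) (.f (nat_lit 462) (nat_lit 557) (nat_lit 5581) (.d (nat_lit 463) (nat_lit 431) (nat_lit 6574) (nat_lit 495) (nat_lit 6606)))) (.a (.f (nat_lit 589) (nat_lit 621) (nat_lit 5613) (.f (nat_lit 557) (nat_lit 462) (nat_lit 5581) (.f (nat_lit 623) (nat_lit 591) (nat_lit 4590) (.f (nat_lit 622) (nat_lit 655) (nat_lit 4622) (.d (nat_lit 654) (nat_lit 525) (nat_lit 7693) (nat_lit 686) (nat_lit 7725)))))) (.a (.f (nat_lit 621) (nat_lit 589) (nat_lit 5613) (.f (nat_lit 622) (nat_lit 653) (nat_lit 5645) (.d (nat_lit 623) (nat_lit 591) (nat_lit 4590) (nat_lit 655) (nat_lit 4622)))) (.a (.f (nat_lit 623) (nat_lit 591) (nat_lit 4590) (.f (nat_lit 622) (nat_lit 655) (nat_lit 4622) (.f (nat_lit 653) (nat_lit 621) (nat_lit 5645) (.f (nat_lit 654) (nat_lit 685) (nat_lit 5677) (.d (nat_lit 525) (nat_lit 493) (nat_lit 7661) (nat_lit 557) (nat_lit 7693)))))) (.f (nat_lit 463) (nat_lit 495) (nat_lit 6606) (.f (nat_lit 462) (nat_lit 431) (nat_lit 6574) (.f (nat_lit 557) (nat_lit 589) (nat_lit 5581) (.f (nat_lit 525) (nat_lit 430) (nat_lit 5549) (.d (nat_lit 622) (nat_lit 493) (nat_lit 7661) (nat_lit 654) (nat_lit 7693))))))))))) (.a (.p (nat_lit 558) (.a (.f (nat_lit 589) (nat_lit 621) (nat_lit 5613) (.f (nat_lit 462) (nat_lit 557) (nat_lit 5581) (.d (nat_lit 463) (nat_lit 431) (nat_lit 6574) (nat_lit 495) (nat_lit 6606)))) (.a (.f (nat_lit 621) (nat_lit 589) (nat_lit 5613) (.f (nat_lit 622) (nat_lit 653) (nat_lit 5645) (.f (nat_lit 525) (nat_lit 493) (nat_lit 7661) (.f (nat_lit 527) (nat_lit 561) (nat_lit 525) (.d (nat_lit 557) (nat_lit 556) (nat_lit 1548) (nat_lit 654) (nat_lit 7693)))))) (.a (.f (nat_lit 495) (nat_lit 463) (nat_lit 6606) (.f (nat_lit 622) (nat_lit 527) (nat_lit 6638) (.d (nat_lit 621) (nat_lit 589) (nat_lit 5613) (nat_lit 653) (nat_lit 5645)))) (.f (nat_lit 495) (nat_lit 463) (nat_lit 6606) (.f (nat_lit 527) (nat_lit 622) (nat_lit 6638) (.f (nat_lit 525) (nat_lit 561) (nat_lit 525) (.d (nat_lit 524) (nat_lit 496) (nat_lit 2540) (nat_lit 523) (nat_lit 2539))))))))) (.a (.p (nat_lit 558) (.a (.f (nat_lit 589) (nat_lit 621) (nat_lit 5613) (.f (nat_lit 462) (nat_lit 557) (nat_lit 5581) (.d (nat_lit 463) (nat_lit 431) (nat_lit 6574) (nat_lit 495) (nat_lit 6606)))) (.a (.f (nat_lit 621) (nat_lit 589) (nat_lit 5613) (.f (nat_lit 622) (nat_lit 653) (nat_lit 5645) (.d (nat_lit 623) (nat_lit 591) (nat_lit 4590) (nat_lit 655) (nat_lit 4622)))) (.f (nat_lit 495) (nat_lit 463) (nat_lit 6606) (.f (nat_lit 622) (nat_lit 527) (nat_lit 6638) (.d (nat_lit 623) (nat_lit 591) (nat_lit 4590) (nat_lit 655) (nat_lit 4622))))))) (.a (.p (nat_lit 558) (.a (.f (nat_lit 589) (nat_lit 621) (nat_lit 5613) (.f (nat_lit 557) (nat_lit 462) (nat_lit 5581) (.f (nat_lit 623) (nat_lit 591) (nat_lit 4590) (.f (nat_lit 622) (nat_lit 655) (nat_lit 4622) (.d (nat_lit 654) (nat_lit 525) (nat_lit 7693) (nat_lit 686) (nat_lit 7725)))))) (.a (.f (nat_lit 621) (nat_lit 589) (nat_lit 5613) (.f (nat_lit 622) (nat_lit 653) (nat_lit 5645) (.f (nat_lit 525) (nat_lit 493) (nat_lit 7661) (.f (nat_lit 527) (nat_lit 561) (nat_lit 525) (.d (nat_lit 557) (nat_lit 556) (nat_lit 1548) (nat_lit 654) (nat_lit 7693)))))) (.a (.f (nat_lit 621) (nat_lit 589) (nat_lit 5613) (.f (nat_lit 622) (nat_lit 653) (nat_lit 5645) (.d (nat_lit 623) (nat_lit 591) (nat_lit 4590) (nat_lit 655) (nat_lit 4622)))) (.a (.f (nat_lit 623) (nat_lit 591) (nat_lit 4590) (.f (nat_lit 622) (nat_lit 655) (nat_lit 4622) (.f (nat_lit 653) (nat_lit 621) (nat_lit 5645) (.f (nat_lit 654) (nat_lit 685) (nat_lit 5677) (.d (nat_lit 525) (nat_lit 493) (nat_lit 7661) (nat_lit 557) (nat_lit 7693)))))) (.a (.f (nat_lit 589) (nat_lit 621) (nat_lit 5613) (.f (nat_lit 591) (nat_lit 623) (nat_lit 4590) (.f (nat_lit 557) (nat_lit 462) (nat_lit 5581) (.d (nat_lit 592) (nat_lit 556) (nat_lit 3628) (nat_lit 561) (nat_lit 2605))))) (.f (nat_lit 623) (nat_lit 591) (nat_lit 4590) (.f (nat_lit 622) (nat_lit 655) (nat_lit 4622) (.f (nat_lit 525) (nat_lit 493) (nat_lit 7661) (.d (nat_lit 527) (nat_lit 495) (nat_lit 6638) (nat_lit 561) (nat_lit 525))))))))))) (.a s110858 (.a (.p (nat_lit 558) (.a (.f (nat_lit 495) (nat_lit 463) (nat_lit 6606) (.f (nat_lit 527) (nat_lit 622) (nat_lit 6638) (.f (nat_lit 525) (nat_lit 561) (nat_lit 525) (.d (nat_lit 524) (nat_lit 496) (nat_lit 2540) (nat_lit 523) (nat_lit 2539))))) (.a (.f (nat_lit 623) (nat_lit 591) (nat_lit 4590) (.f (nat_lit 622) (nat_lit 655) (nat_lit 4622) (.f (nat_lit 653) (nat_lit 621) (nat_lit 5645) (.f (nat_lit 654) (nat_lit 685) (nat_lit 5677) (.d (nat_lit 525) (nat_lit 493) (nat_lit 7661) (nat_lit 557) (nat_lit 7693)))))) (.a (.f (nat_lit 495) (nat_lit 463) (nat_lit 6606) (.f (nat_lit 622) (nat_lit 527) (nat_lit 6638) (.d (nat_lit 623) (nat_lit 591) (nat_lit 4590) (nat_lit 655) (nat_lit 4622)))) s110589)))) (.a (.p (nat_lit 558) (.a (.f (nat_lit 589) (nat_lit 621) (nat_lit 5613) (.f (nat_lit 557) (nat_lit 462) (nat_lit 5581) (.f (nat_lit 623) (nat_lit 591) (nat_lit 4590) (.f (nat_lit 622) (nat_lit 655) (nat_lit 4622) (.d (nat_lit 654) (nat_lit 525) (nat_lit 7693) (nat_lit 686) (nat_lit 7725)))))) (.a (.f (nat_lit 621) (nat_lit 589) (nat_lit 5613) (.f (nat_lit 622) (nat_lit 653) (nat_lit 5645) (.f (nat_lit 525) (nat_lit 493) (nat_lit 7661) (.f (nat_lit 527) (nat_lit 561) (nat_lit 525) (.d (nat_lit 557) (nat_lit 556) (nat_lit 1548) (nat_lit 654) (nat_lit 7693)))))) (.a (.f (nat_lit 621) (nat_lit 589) (nat_lit 5613) (.f (nat_lit 622) (nat_lit 653) (nat_lit 5645) (.d (nat_lit 623) (nat_lit 591) (nat_lit 4590) (nat_lit 655) (nat_lit 4622)))) (.a (.f (nat_lit 623) (nat_lit 591) (nat_lit 4590) (.f (nat_lit 622) (nat_lit 655) (nat_lit 4622) (.f (nat_lit 653) (nat_lit 621) (nat_lit 5645) (.f (nat_lit 654) (nat_lit 685) (nat_lit 5677) (.d (nat_lit 525) (nat_lit 493) (nat_lit 7661) (nat_lit 557) (nat_lit 7693)))))) (.a (.f (nat_lit 589) (nat_lit 621) (nat_lit 5613) (.f (nat_lit 591) (nat_lit 623) (nat_lit 4590) (.f (nat_lit 557) (nat_lit 462) (nat_lit 5581) (.d (nat_lit 592) (nat_lit 556) (nat_lit 3628) (nat_lit 561) (nat_lit 2605))))) (.f (nat_lit 623) (nat_lit 591) (nat_lit 4590) (.f (nat_lit 622) (nat_lit 655) (nat_lit 4622) (.f (nat_lit 525) (nat_lit 493) (nat_lit 7661) (.f (nat_lit 557) (nat_lit 654) (nat_lit 7693) (.d (nat_lit 527) (nat_lit 556) (nat_lit 1548) (nat_lit 561) (nat_lit 525)))))))))))) (.a (.p (nat_lit 558) (.a (.f (nat_lit 589) (nat_lit 621) (nat_lit 5613) (.f (nat_lit 462) (nat_lit 557) (nat_lit 5581) (.d (nat_lit 463) (nat_lit 431) (nat_lit 6574) (nat_lit 495) (nat_lit 6606)))) (.a (.f (nat_lit 589) (nat_lit 621) (nat_lit 5613) (.f (nat_lit 591) (nat_lit 623) (nat_lit 4590) (.f (nat_lit 557) (nat_lit 462) (nat_lit 5581) (.d (nat_lit 592) (nat_lit 556) (nat_lit 3628) (nat_lit 561) (nat_lit 2605))))) (.a (.f (nat_lit 495) (nat_lit 463) (nat_lit 6606) (.f (nat_lit 591) (nat_lit 623) (nat_lit 4590) (.f (nat_lit 589) (nat_lit 621) (nat_lit 5613) (.f (nat_lit 592) (nat_lit 561) (nat_lit 2605) (.d (nat_lit 624) (nat_lit 527) (nat_lit 7663) (nat_lit 625) (nat_lit 589)))))) s110589)))) (.p (nat_lit 558) (.a (.f (nat_lit 495) (nat_lit 463) (nat_lit 6606) (.f (nat_lit 527) (nat_lit 622) (nat_lit 6638) (.f (nat_lit 525) (nat_lit 561) (nat_lit 525) (.d (nat_lit 524) (nat_lit 496) (nat_lit 2540) (nat_lit 523) (nat_lit 2539))))) (.a (.f (nat_lit 463) (nat_lit 495) (nat_lit 6606) (.f (nat_lit 462) (nat_lit 431) (nat_lit 6574) (.f (nat_lit 557) (nat_lit 589) (nat_lit 5581) (.f (nat_lit 525) (nat_lit 430) (nat_lit 5549) (.d (nat_lit 622) (nat_lit 493) (nat_lit 7661) (nat_lit 654) (nat_lit 7693)))))) (.a (.f (nat_lit 495) (nat_lit 463) (nat_lit 6606) (.f (nat_lit 622) (nat_lit 527) (nat_lit 6638) (.d (nat_lit 623) (nat_lit 591) (nat_lit 4590) (nat_lit 655) (nat_lit 4622)))) (.a (.f (nat_lit 623) (nat_lit 591) (nat_lit 4590) (.f (nat_lit 622) (nat_lit 655) (nat_lit 4622) (.f (nat_lit 525) (nat_lit 493) (nat_lit 7661) (.d (nat_lit 527) (nat_lit 495) (nat_lit 6638) (nat_lit 561) (nat_lit 525))))) (.a (.f (nat_lit 623) (nat_lit 591) (nat_lit 4590) (.f (nat_lit 622) (nat_lit 655) (nat_lit 4622) (.f (nat_lit 525) (nat_lit 493) (nat_lit 7661) (.f (nat_lit 557) (nat_lit 654) (nat_lit 7693) (.d (nat_lit 527) (nat_lit 556) (nat_lit 1548) (nat_lit 561) (nat_lit 525)))))) (.f (nat_lit 463) (nat_lit 495) (nat_lit 6606) (.f (nat_lit 462) (nat_lit 431) (nat_lit 6574) (.f (nat_lit 557) (nat_lit 589) (nat_lit 5581) (.f (nat_lit 525) (nat_lit 430) (nat_lit 5549) (.d (nat_lit 527) (nat_lit 556) (nat_lit 1548) (nat_lit 561) (nat_lit 525))))))))))))))))))))))))))))))))))))))))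
noncomputable def s111037 : Cert := .r (nat_lit 3773962425919908978067039048378881885645768491231275023412675293626429865204541471935760055792560469727505484597500264544337939673836815150592175795562377636060837445632) (.p (nat_lit 527) (.a (.d (nat_lit 525) (nat_lit 497) (nat_lit 2541) (nat_lit 561) (nat_lit 525)) (.a (.p (nat_lit 592) (.a (.f (nat_lit 624) (nat_lit 495) (nat_lit 7663) (.d (nat_lit 623) (nat_lit 591) (nat_lit 5615) (nat_lit 655) (nat_lit 5647))) (.a (.f (nat_lit 624) (nat_lit 495) (nat_lit 7663) (.f (nat_lit 656) (nat_lit 559) (nat_lit 7695) (.d (nat_lit 655) (nat_lit 623) (nat_lit 5647) (nat_lit 687) (nat_lit 5679)))) (.a (.f (nat_lit 497) (nat_lit 465) (nat_lit 6608) (.d (nat_lit 498) (nat_lit 495) (nat_lit 1518) (nat_lit 499) (nat_lit 1519))) (.f (nat_lit 623) (nat_lit 591) (nat_lit 5615) (.f (nat_lit 624) (nat_lit 655) (nat_lit 5647) (.f (nat_lit 657) (nat_lit 625) (nat_lit 4624) (.d (nat_lit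 656) (nat_lit 559) (nat_lit 7695) (nat_lit 689) (nat_lit 4656))))))))) (.f (nat_lit 525) (nat_lit 561) (nat_lit 525) (.d (nat_lit 524) (nat_lit 495) (nat_lit 2540) (nat_lit 559) (nat_lit 524))))))
noncomputable def s111074 : Cert := .r (nat_lit 4717453032125294315973987508880817458218130529296591420246571772779567243795549402077785465380506041852719292777414468402832772512838634980175475457832173847598411546624) (.p (nat_lit 590) (.a (.f (nat_lit 591) (nat_lit 623) (nat_lit 4590) (.f (nat_lit 559) (nat_lit 462) (nat_lit 4558) (.d (nat_lit 561) (nat_lit 525) (nat_lit 3597) (nat_lit 589) (nat_lit 1581)))) (.a (.f (nat_lit 493) (nat_lit 461) (nat_lit 7629) (.f (nat_lit 622) (nat_lit 525) (nat_lit 7661) (.d (nat_lit 621) (nat_lit 589) (nat_lit 5613) (nat_lit 653) (nat_lit 5645)))) (.a (.f (nat_lit 591) (nat_lit 623) (nat_lit 4590) (.f (nat_lit 559) (nat_lit 462) (nat_lit 4558) (.d (nat_lit 589) (nat_lit 588) (nat_lit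 2604) (nat_lit 621) (nat_lit 5613)))) (.f (nat_lit 591) (nat_lit 623) (nat_lit 4590) (.f (nat_lit 559) (nat_lit 462) (nat_lit 4558) (.d (nat_lit 561) (nat_lit 525) (nat_lit 3597) (nat_lit 562) (nat_lit 1582))))))))
noncomputable def s111082 : Cert := .r (nat_lit 4052261302452797718172567620308740342168032265173429225435669294519214876955562468178336889438689423921251250576516624520754980669431979897453785075845873487448399936024439947264) (.p (nat_lit 494) (.a (.f (nat_lit 589) (nat_lit 621) (nat_lit 5613) (.f (nat_lit 559) (nat_lit 561) (nat_lit 1581) (.d (nat_lit 557) (nat_lit 462) (nat_lit 5581) (nat_lit 588) (nat_lit 1580)))) (.a (.f (nat_lit 589) (nat_lit 621) (nat_lit 5613) (.f (nat_lit 462) (nat_lit 557) (nat_lit 5581) (.d (nat_lit 461) (nat_lit 429) (nat_lit 7597) (nat_lit 493) (nat_lit 7629)))) (.a (.f (nat_lit 591) (nat_lit 623) (nat_lit 4590) (.f (nat_lit 559) (nat_lit 462) (nat_lit 4558) (.d (nat_lit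 589) (nat_lit 588) (nat_lit 2604) (nat_lit 621) (nat_lit 5613)))) (.a (.f (nat_lit 591) (nat_lit 623) (nat_lit 4590) (.f (nat_lit 462) (nat_lit 559) (nat_lit 4558) (.d (nat_lit 461) (nat_lit 429) (nat_lit 7597) (nat_lit 493) (nat_lit 7629)))) (.f (nat_lit 589) (nat_lit 621) (nat_lit 5613) (.f (nat_lit 559) (nat_lit 561) (nat_lit 1581) (.d (nat_lit 588) (nat_lit 557) (nat_lit 1580) (nat_lit 587) (nat_lit 2603)))))))))
noncomputable def s111103 : Cert := .r (nat_lit 4052261302452797718172567620308740342168032265173429225435669294519214876955562468178336889438689423921251250576516624520754980669431979897453785075845873487448399936024439947264) (.p (nat_lit 623) (.a (.f (nat_lit 591) (nat_lit 494) (nat_lit 4590) (.d (nat_lit 655) (nat_lit 622) (nat_lit 4622) (nat_lit 687) (nat_lit 7726))) (.a (.f (nat_lit 622) (nat_lit 655) (nat_lit 4622) (.f (nat_lit 621) (nat_lit 653) (nat_lit 5645) (.f (nat_lit 589) (nat_lit 494)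 (nat_lit 5613) (.d (nat_lit 624) (nat_lit 588) (nat_lit 3660) (nat_lit 625) (nat_lit 3661))))) (.a (.f (nat_lit 494) (nat_lit 591) (nat_lit 4590) (.f (nat_lit 589) (nat_lit 621) (nat_lit 5613) (.f (nat_lit 462) (nat_lit 557) (nat_lit 5581) (.d (nat_lit 461) (nat_lit 429) (nat_lit 7597) (nat_lit 493) (nat_lit 7629))))) (.f (nat_lit 655) (nat_lit 622) (nat_lit 4622) (.f (nat_lit 591) (nat_lit 687) (nat_lit 7726) (.d (nat_lit 592) (nat_lit 496) (nat_lit 5615) (nat_lit 624) (nat_lit 5647))))))))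
noncomputable def s111137 : Cert := .r (nat_lit 4052261302452797718172567620308740342168032265173429225435669294519214876955562468178336889438689423921251250576516624520754980669431979897453785075845873487448399936024439947264) (.p (nat_lit 622) (.a (.f (nat_lit 623) (nat_lit 655) (nat_lit 4622) (.f (nat_lit 591) (nat_lit 494) (nat_lit 4590) (.f (nat_lit 621) (nat_lit 653) (nat_lit 5645) (.d (nat_lit 592) (nat_lit 496) (nat_lit 5615) (nat_lit 620) (nat_lit 2636))))) (.a (.f (nat_lit 623) (nat_lit 655) (nat_lit 4622) (.f (nat_lit 591) (nat_lit 494) (nat_lit 4590) (.f (nat_lit 653) (nat_lit 621) (nat_lit 5645) (.f (nat_lit 654) (nat_lit 685) (nat_lit 5677) (.d (nat_lit 559) (nat_lit 527) (nat_lit 5646) (nat_lit 686) (nat_lit 6702)))))) (.a (.f (nat_lit 655) (nat_lit 623) (nat_lit 4622) (.f (nat_lit 654) (nat_lit 687) (nat_lit 4654) (.d (nat_lit 653) (nat_lit 621) (nat_lit 5645) (nat_lit 685) (nat_lit 5677)))) (.a (.f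 (nat_lit 653) (nat_lit 621) (nat_lit 5645) (.f (nat_lit 654) (nat_lit 685) (nat_lit 5677) (.f (nat_lit 559) (nat_lit 527) (nat_lit 6670) (.f (nat_lit 687) (nat_lit 655) (nat_lit 4654) (.d (nat_lit 686) (nat_lit 591) (nat_lit 6702) (nat_lit 719) (nat_lit 4686)))))) (.a (.f (nat_lit 653) (nat_lit 621) (nat_lit 5645) (.f (nat_lit 654) (nat_lit 685) (nat_lit 5677) (.f (nat_lit 559) (nat_lit 527) (nat_lit 6670) (.f (nat_lit 591) (nat_lit 686) (nat_lit 6702) (.d (nat_lit 494) (nat_lit 462) (nat_lit 4558) (nat_lit 623) (nat_lit 4590)))))) (.f (nat_lit 623) (nat_lit 655) (nat_lit 4622) (.f (nat_lit 591) (nat_lit 494) (nat_lit 4590) (.f (nat_lit 496) (nat_lit 592) (nat_lit 5615) (.d (nat_lit 559) (nat_lit 464) (nat_lit 5583) (nat_lit 527) (nat_lit 6639)))))))))))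
noncomputable def s111187 : Cert := .r (nat_lit 4052261302452797718172567620308740342168032265173429225435669294519214876955562468178336889438689423921251250576516624520754980669431979897453785075845873487448399936024439947264) (.p (nat_lit 622) (.a (.f (nat_lit 623) (nat_lit 655) (nat_lit 4622) (.f (nat_lit 621) (nat_lit 653) (nat_lit 5645) (.d (nat_lit 494) (nat_lit 589) (nat_lit 5613) (nat_lit 591) (nat_lit 4590)))) (.a (.f (nat_lit 621) (nat_lit 653) (nat_lit 5645) (.f (nat_lit 623) (nat_lit 655) (nat_lit 4622) (.f (nat_lit 589) (nat_lit 494) (nat_lit 5613) (.d (nat_lit 624) (nat_lit 588) (nat_lit 3660) (nat_lit 625) (nat_lit 3661))))) (.a (.f (nat_lit 623) (nat_lit 655) (nat_lit 4622) (.f (nat_lit 591) (nat_lit 494) (nat_lit 4590) (.f (nat_lit 621) (nat_lit 653) (nat_lit 5645) (.d (nat_lit 592) (nat_lit 496) (nat_lit 5615) (nat_lit 620) (nat_lit 2636))))) (.a (.f (nat_lit 621) (nat_lit 653) (nat_lit 5645) (.f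 (nat_lit 493) (nat_lit 525) (nat_lit 7661) (.d (nat_lit 494) (nat_lit 461) (nat_lit 7629) (nat_lit 589) (nat_lit 5613)))) (.a (.f (nat_lit 655) (nat_lit 623) (nat_lit 4622) (.f (nat_lit 654) (nat_lit 687) (nat_lit 4654) (.d (nat_lit 653) (nat_lit 621) (nat_lit 5645) (nat_lit 685) (nat_lit 5677)))) (.f (nat_lit 623) (nat_lit 655) (nat_lit 4622) (.f (nat_lit 591) (nat_lit 494) (nat_lit 4590) (.f (nat_lit 592) (nat_lit 496) (nat_lit 5615) (.f (nat_lit 589) (nat_lit 561) (nat_lit 2605) (.d (nat_lit 588) (nat_lit 587) (nat_lit 587) (nat_lit 624) (nat_lit 588))))))))))))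
noncomputable def s111217 : Cert := .r (nat_lit 4052261302452797718172567620308740342168032265173429225435669294519214876955562468178336889438689423921251250576516624520754980669431979897453785075845873487448399936024439947264) (.p (nat_lit 622) (.a (.f (nat_lit 623) (nat_lit 655) (nat_lit 4622) (.f (nat_lit 621) (nat_lit 653) (nat_lit 5645) (.d (nat_lit 494) (nat_lit 589) (nat_lit 5613) (nat_lit 591) (nat_lit 4590)))) (.a (.f (nat_lit 621) (nat_lit 653) (nat_lit 5645) (.f (nat_lit 623) (nat_lit 655) (nat_lit 4622) (.f (nat_lit 589) (nat_lit 494) (nat_lit 5613) (.d (nat_lit 624) (nat_lit 588) (nat_lit 3660) (nat_lit 625) (nat_lit 3661))))) (.a (.f (nat_lit 623) (nat_lit 655) (nat_lit 4622) (.f (nat_lit 591) (nat_lit 494) (nat_lit 4590) (.f (nat_lit 621) (nat_lit 653) (nat_lit 5645) (.d (nat_lit 592) (nat_lit 496) (nat_lit 5615) (nat_lit 620) (nat_lit 2636))))) (.a (.f (nat_lit 653) (nat_lit 621) (nat_lit 5645) (.f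 (nat_lit 654) (nat_lit 685) (nat_lit 5677) (.f (nat_lit 687) (nat_lit 655) (nat_lit 4654) (.f (nat_lit 686) (nat_lit 719) (nat_lit 4686) (.d (nat_lit 557) (nat_lit 525) (nat_lit 7693) (nat_lit 589) (nat_lit 7725)))))) (.a (.f (nat_lit 653) (nat_lit 621) (nat_lit 5645) (.f (nat_lit 654) (nat_lit 685) (nat_lit 5677) (.f (nat_lit 557) (nat_lit 525) (nat_lit 7693) (.f (nat_lit 589) (nat_lit 686) (nat_lit 7725) (.f (nat_lit 494) (nat_lit 462) (nat_lit 5581) (.f (nat_lit 591) (nat_lit 623) (nat_lit 4590) (.d (nat_lit 556) (nat_lit 555) (nat_lit 555) (nat_lit 592) (nat_lit 3628)))))))) (.f (nat_lit 623) (nat_lit 655) (nat_lit 4622) (.f (nat_lit 591) (nat_lit 494) (nat_lit 4590) (.f (nat_lit 592) (nat_lit 496) (nat_lit 5615) (.f (nat_lit 589) (nat_lit 561) (nat_lit 2605) (.d (nat_lit 588) (nat_lit 587) (nat_lit 587) (nat_lit 624) (nat_lit 588))))))))))))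
noncomputable def s111227 : Cert := .r (nat_lit 4052261302452797718172567620308740342168032265173429225435669294519214876955562468178336889438689423921251250576516624520754980669431979897453785075845873487448399936024439947264) (.p (nat_lit 525) (.a (.f (nat_lit 527) (nat_lit 561) (nat_lit 525) (.d (nat_lit 493) (nat_lit 492) (nat_lit 3564) (nat_lit 622) (nat_lit 7661))) (.a (.f (nat_lit 493) (nat_lit 622) (nat_lit 7661) (.d (nat_lit 461) (nat_lit 429) (nat_lit 4525) (nat_lit 494) (nat_lit 7629))) (.a (.f (nat_lit 527) (nat_lit 561) (nat_lit 525) (.f (nat_lit 557) (nat_lit 556) (nat_lit 1548) (.f (nat_lit 622) (nat_lit 654) (nat_lit 7693) (.f (nat_lit 623) (nat_lit 655) (nat_lit 4622) (.f (nat_lit 496) (nat_lit 497) (nat_lit 2541) (.d (nat_lit 591) (nat_lit 494) (nat_lit 4590) (nat_lit 592) (nat_lit 5615))))))) (.f (nat_lit 527) (nat_lit 561) (nat_lit 525) (.f (nat_lit 557) (nat_lit 556) (nat_lit 1548) (.d (nat_lit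 493) (nat_lit 461) (nat_lit 4557) (nat_lit 492) (nat_lit 3564))))))))
noncomputable def s111318 : Cert := .r (nat_lit 4052261302452797718172567620308740342168032265173429225435669294519214876955562468178336889438689423921251250576516624520754980669431979897453785075845873487448399936024439947264) (.p (nat_lit 525) (.a (.f (nat_lit 622) (nat_lit 493) (nat_lit 7661) (.f (nat_lit 559) (nat_lit 561) (nat_lit 3597) (.d (nat_lit 557) (nat_lit 524) (nat_lit 3596) (nat_lit 654) (nat_lit 7693)))) (.a (.f (nat_lit 622) (nat_lit 493) (nat_lit 7661) (.f (nat_lit 654) (nat_lit 557) (nat_lit 7693) (.d (nat_lit 653) (nat_lit 621) (nat_lit 5645) (nat_lit 685) (nat_lit 5677)))) (.a (.f (nat_lit 622) (nat_lit 493) (nat_lit 7661) (.f (nat_lit 655) (nat_lit 623) (nat_lit 4622) (.f (nat_lit 654) (nat_lit 687) (nat_lit 4654) (.d (nat_lit 653) (nat_lit 621) (nat_lit 5645) (nat_lit 685) (nat_lit 5677))))) (.f (nat_lit 559) (nat_lit 561)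 (nat_lit 3597) (.d (nat_lit 524) (nat_lit 523) (nat_lit 523) (nat_lit 557) (nat_lit 3596)))))))
noncomputable def s111325 : Cert := .r (nat_lit 4052261302452797718172567620308740342168032265173429225435669294519214876955562468178336889438689423921251250576516624520754980669431979897453785075845873487448399936024439947264) (.p (nat_lit 494) (.a (.f (nat_lit 495) (nat_lit 463) (nat_lit 6606) (.f (nat_lit 493) (nat_lit 461) (nat_lit 7629) (.d (nat_lit 527) (nat_lit 492) (nat_lit 492) (nat_lit 622) (nat_lit 6638)))) (.a (.f (nat_lit 493) (nat_lit 461) (nat_lit 7629) (.f (nat_lit 525) (nat_lit 622) (nat_lit 7661) (.f (nat_lit 495) (nat_lit 463) (nat_lit 6606) (.d (nat_lit 524) (nat_lit 496) (nat_lit 1516) (nat_lit 523) (nat_lit 2539))))) (.a (.f (nat_lit 493) (nat_lit 461) (nat_lit 7629) (.f (nat_lit 525) (nat_lit 622) (nat_lit 7661) (.d (nat_lit 527) (nat_lit 492) (nat_lit 3564) (nat_lit 561) (nat_lit 525)))) (.a (.f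 (nat_lit 495) (nat_lit 463) (nat_lit 6606) (.f (nat_lit 527) (nat_lit 622) (nat_lit 6638) (.f (nat_lit 525) (nat_lit 561) (nat_lit 525) (.d (nat_lit 524) (nat_lit 523) (nat_lit 2539) (nat_lit 559) (nat_lit 524))))) (.f (nat_lit 493) (nat_lit 461) (nat_lit 7629) (.f (nat_lit 495) (nat_lit 463) (nat_lit 6606) (.f (nat_lit 492) (nat_lit 527) (nat_lit 492) (.f (nat_lit 523) (nat_lit 524) (nat_lit 1515) (.f (nat_lit 491) (nat_lit 522) (nat_lit 1514) (.d (nat_lit 459) (nat_lit 458) (nat_lit 3530) (nat_lit 460) (nat_lit 3531))))))))))))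
noncomputable def s111326 : Cert := .r (nat_lit 4052261302452797718172567620308740342168032265173429225435669294519214876955562468178336889438689423921251250576516624520754980669431979897453785075845873487448399936024439947264) (.p (nat_lit 494) (.a (.f (nat_lit 495) (nat_lit 463) (nat_lit 6606) (.f (nat_lit 493) (nat_lit 461) (nat_lit 7629) (.d (nat_lit 527) (nat_lit 492) (nat_lit 492) (nat_lit 622) (nat_lit 6638)))) (.a (.f (nat_lit 493) (nat_lit 461) (nat_lit 7629) (.f (nat_lit 525) (nat_lit 622) (nat_lit 7661) (.f (nat_lit 495) (nat_lit 463) (nat_lit 6606) (.d (nat_lit 524) (nat_lit 496) (nat_lit 1516) (nat_lit 523) (nat_lit 2539))))) (.a (.f (nat_lit 493) (nat_lit 461) (nat_lit 7629) (.f (nat_lit 525) (nat_lit 622) (nat_lit 7661) (.f (nat_lit 527) (nat_lit 492) (nat_lit 3564) (.f (nat_lit 557) (nat_lit 556) (nat_lit 1548) (.d (nat_lit 589) (nat_lit 462) (nat_lit 6605) (nat_lit 621) (nat_lit 5613)))))) (.a (.f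 (nat_lit 495) (nat_lit 463) (nat_lit 6606) (.f (nat_lit 622) (nat_lit 527) (nat_lit 6638) (.d (nat_lit 621) (nat_lit 589) (nat_lit 5613) (nat_lit 653) (nat_lit 5645)))) (.f (nat_lit 589) (nat_lit 621) (nat_lit 5613) (.f (nat_lit 462) (nat_lit 557) (nat_lit 5581) (.d (nat_lit 461) (nat_lit 429) (nat_lit 7597) (nat_lit 493) (nat_lit 7629)))))))))
noncomputable def s111327 : Cert := .r (nat_lit 4052261302452797718172567620308740342168032265173429225435669294519214876955562468178336889438689423921251250576516624520754980669431979897453785075845873487448399936024439947264) (.p (nat_lit 494) (.a (.f (nat_lit 589) (nat_lit 621) (nat_lit 5613) (.f (nat_lit 559) (nat_lit 561) (nat_lit 1581) (.d (nat_lit 557) (nat_lit 462) (nat_lit 5581) (nat_lit 588) (nat_lit 1580)))) (.a (.f (nat_lit 589) (nat_lit 621) (nat_lit 5613) (.f (nat_lit 462) (nat_lit 557) (nat_lit 5581) (.d (nat_lit 461) (nat_lit 429) (nat_lit 7597) (nat_lit 493)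 (nat_lit 7629)))) (.f (nat_lit 493) (nat_lit 461) (nat_lit 7629) (.f (nat_lit 495) (nat_lit 463) (nat_lit 6606) (.f (nat_lit 492) (nat_lit 527) (nat_lit 492) (.f (nat_lit 523) (nat_lit 524) (nat_lit 1515) (.f (nat_lit 491) (nat_lit 522) (nat_lit 1514) (.d (nat_lit 459) (nat_lit 458) (nat_lit 3530) (nat_lit 460) (nat_lit 3531))))))))))
noncomputable def s111468 : Cert := .r (nat_lit 3773962425919908978067039048378881885645768491231275023412675293626429865204541471935760055792560469727505484597500264544337939673836815150592175795562377636060837445632) (.p (nat_lit 464) (.a (.f (nat_lit 559) (nat_lit 591) (nat_lit 5583) (.f (nat_lit 527) (nat_lit 432) (nat_lit 5551) (.d (nat_lit 525) (nat_lit 524) (nat_lit 524) (nat_lit 561) (nat_lit 525)))) (.a (.f (nat_lit 433) (nat_lit 465) (nat_lit 6576) (.f (nat_lit 432) (nat_lit 401) (nat_lit 6544) (.d (nat_lit 431) (nat_lit 399) (nat_lit 7567) (nat_lit 463) (nat_lit 7599))))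 (.p (nat_lit 525) (.a (.d (nat_lit 527) (nat_lit 497) (nat_lit 2541) (nat_lit 561) (nat_lit 525)) (.a (.f (nat_lit 559) (nat_lit 591) (nat_lit 5583) (.f (nat_lit 558) (nat_lit 561) (nat_lit 3597) (.d (nat_lit 524) (nat_lit 523) (nat_lit 523) (nat_lit 557) (nat_lit 3596)))) (.f (nat_lit 527) (nat_lit 497) (nat_lit 2541) (.d (nat_lit 524) (nat_lit 495) (nat_lit 2540) (nat_lit 559) (nat_lit 524)))))))))
noncomputable def s111525 : Cert := .r (nat_lit 3773962425700235452738272624505952193199339552226928146794549392648115485167898379561026699849346401546134558067857772757880134458676407096525164659442171664912122642432) (.p (nat_lit 526) (.a (.p (nat_lit 592) (.a (.p (nat_lit 496) (.a (.f (nat_lit 495) (nat_lit 463) (nat_lit 7631) (.f (nat_lit 527) (nat_lit 624) (nat_lit 7663) (.d (nat_lit 497) (nat_lit 465) (nat_lit 6608) (nat_lit 525) (nat_lit 2541)))) (.a (.f (nat_lit 591) (nat_lit 623) (nat_lit 5615) (.f (nat_lit 464) (nat_lit 559) (nat_lit 5583) (.d (nat_lit 465) (nat_lit 433) (nat_lit 6576) (nat_lit 497) (nat_lit 6608)))) (.a (.f (nat_lit 495) (nat_lit 463) (nat_lit 7631) (.f (nat_lit 527) (nat_lit 624) (nat_lit 7663) (.d (nat_lit 525) (nat_lit 497) (nat_lit 2541) (nat_lit 561) (nat_lit 525)))) (.f (nat_lit 591) (nat_lit 623) (nat_lit 5615) (.f (nat_lit 559) (nat_lit 464) (nat_lit 5583) (.f (nat_lit 495) (nat_lit 463) (nat_lit 7631) (.f (nat_lit 527) (nat_lit 624) (nat_lit 4591) (.d (nat_lit 525) (nat_lit 524) (nat_lit 524) (nat_lit 561) (nat_lit 525)))))))))) (.a s107883 (.a (.p (nat_lit 624) (.a (.f (nat_lit 527) (nat_lit 495) (nat_lit 7663) (.f (nat_lit 559) (nat_lit 656) (nat_lit 7695) (.d (nat_lit 561) (nat_lit 525) (nat_lit 525) (nat_lit 562) (nat_lit 3598)))) (.a (.f (nat_lit 655) (nat_lit 623) (nat_lit 5647) (.f (nat_lit 656) (nat_lit 687) (nat_lit 5679) (.d (nat_lit 657) (nat_lit 625) (nat_lit 4624) (nat_lit 689) (nat_lit 4656)))) (.f (nat_lit 527) (nat_lit 495) (nat_lit 7663) (.f (nat_lit 525) (nat_lit 561) (nat_lit 525) (.f (nat_lit 524) (nat_lit 559) (nat_lit 524) (.d (nat_lit 556) (nat_lit 555) (nat_lit 1547) (nat_lit 557) (nat_lit 1548)))))))) (.a s107897 (.a (.p (nat_lit 495) (.a (.f (nat_lit 527) (nat_lit 624) (nat_lit 7663) (.d (nat_lit 463) (nat_lit 431) (nat_lit 4527) (nat_lit 496) (nat_lit 7631))) (.a (.f (nat_lit 496) (nat_lit 463) (nat_lit 7631) (.f (nat_lit 497) (nat_lit 465) (nat_lit 6608) (.f (nat_lit 494) (nat_lit 525) (nat_lit 1517) (.f (nat_lit 461) (nat_lit 462) (nat_lit 3533) (.f (nat_lit 493) (nat_lit 460) (nat_lit 3532) (.f (nat_lit 591) (nat_lit 623) (nat_lit 5615) (.f (nat_lit 590) (nat_lit 558) (nat_lit 7629) (.f (nat_lit 589) (nat_lit 561) (nat_lit 2605) (.f (nat_lit 620) (nat_lit 621) (nat_lit 1612) (.f (nat_lit 588) (nat_lit 619) (nat_lit 1611) (.d (nat_lit 556) (nat_lit 555) (nat_lit 3627) (nat_lit 557) (nat_lit 3628)))))))))))) (.f (nat_lit 527) (nat_lit 624) (nat_lit 7663) (.f (nat_lit 525) (nat_lit 561) (nat_lit 525) (.f (nat_lit 492) (nat_lit 493) (nat_lit 3564) (.f (nat_lit 524) (nat_lit 491) (nat_lit 3563) (.d (nat_lit 556) (nat_lit 555) (nat_lit 1547) (nat_lit 557) (nat_lit 1548))))))))) (.a (.p (nat_lit 624) (.a (.f (nat_lit 655) (nat_lit 623) (nat_lit 5647) (.f (nat_lit 656) (nat_lit 687) (nat_lit 5679) (.d (nat_lit 657) (nat_lit 625) (nat_lit 4624) (nat_lit 689) (nat_lit 4656)))) (.a (.f (nat_lit 657) (nat_lit 625) (nat_lit 4624) (.f (nat_lit 656) (nat_lit 689) (nat_lit 4656) (.f (nat_lit 527) (nat_lit 559) (nat_lit 7695) (.f (nat_lit 525) (nat_lit 561) (nat_lit 525) (.f (nat_lit 492) (nat_lit 493) (nat_lit 3564) (.f (nat_lit 524) (nat_lit 491) (nat_lit 3563) (.d (nat_lit 556) (nat_lit 555) (nat_lit 1547) (nat_lit 557) (nat_lit 1548)))))))) (.f (nat_lit 623) (nat_lit 655) (nat_lit 5647) (.f (nat_lit 496) (nat_lit 591) (nat_lit 5615) (.f (nat_lit 465) (nat_lit 497) (nat_lit 6608) (.f (nat_lit 464) (nat_lit 433) (nat_lit 6576) (.f (nat_lit 431) (nat_lit 463) (nat_lit 7599) (.f (nat_lit 432) (nat_lit 399) (nat_lit 7567) (.f (nat_lit 527) (nat_lit 559) (nat_lit 5551) (.f (nat_lit 525) (nat_lit 561) (nat_lit 525) (.f (nat_lit 556) (nat_lit 557) (nat_lit 1548) (.f (nat_lit 524) (nat_lit 555) (nat_lit 1547) (.d (nat_lit 492) (nat_lit 491) (nat_lit 3563) (nat_lit 493) (nat_lit 3564))))))))))))))) (.p (nat_lit 496) (.a (.f (nat_lit 495) (nat_lit 463) (nat_lit 7631) (.f (nat_lit 527) (nat_lit 624) (nat_lit 7663) (.d (nat_lit 497) (nat_lit 465) (nat_lit 6608) (nat_lit 525) (nat_lit 2541)))) (.a (.f (nat_lit 463) (nat_lit 495) (nat_lit 7631) (.f (nat_lit 464) (nat_lit 431) (nat_lit 7599) (.d (nat_lit 465) (nat_lit 433) (nat_lit 6576) (nat_lit 497) (nat_lit 6608)))) (.a (.f (nat_lit 497) (nat_lit 465) (nat_lit 6608) (.f (nat_lit 527) (nat_lit 525) (nat_lit 2541) (.d (nat_lit 498) (nat_lit 495) (nat_lit 1518) (nat_lit 499) (nat_lit 1519)))) (.a (.f (nat_lit 465) (nat_lit 497) (nat_lit 6608) (.f (nat_lit 464) (nat_lit 433) (nat_lit 6576) (.f (nat_lit 431) (nat_lit 463) (nat_lit 7599) (.f (nat_lit 432) (nat_lit 399) (nat_lit 7567) (.f (nat_lit 527) (nat_lit 559) (nat_lit 5551) (.f (nat_lit 525) (nat_lit 561) (nat_lit 525) (.f (nat_lit 556) (nat_lit 557) (nat_lit 1548) (.f (nat_lit 524) (nat_lit 555) (nat_lit 1547) (.d (nat_lit 492) (nat_lit 491) (nat_lit 3563) (nat_lit 493) (nat_lit 3564)))))))))) (.a (.f (nat_lit 495) (nat_lit 463) (nat_lit 7631) (.f (nat_lit 527) (nat_lit 624) (nat_lit 7663) (.d (nat_lit 525) (nat_lit 497) (nat_lit 2541) (nat_lit 561) (nat_lit 525)))) (.f (nat_lit 495) (nat_lit 463) (nat_lit 7631) (.f (nat_lit 527) (nat_lit 624) (nat_lit 7663) (.d (nat_lit 525) (nat_lit 524) (nat_lit 2540) (nat_lit 561) (nat_lit 525))))))))))))))))) (.a (.p (nat_lit 558) (.a s107995 (.a (.p (nat_lit 494) (.a s107967 (.a (.p (nat_lit 590) (.a (.f (nat_lit 589) (nat_lit 621) (nat_lit 5613) (.f (nat_lit 559) (nat_lit 561) (nat_lit 1581) (.d (nat_lit 557) (nat_lit 462) (nat_lit 5581) (nat_lit 588) (nat_lit 1580)))) (.a (.f (nat_lit 589) (nat_lit 621) (nat_lit 5613) (.f (nat_lit 462) (nat_lit 557) (nat_lit 5581) (.d (nat_lit 463) (nat_lit 431) (nat_lit 6574) (nat_lit 495) (nat_lit 6606)))) (.f (nat_lit 493) (nat_lit 461) (nat_lit 7629) (.f (nat_lit 525) (nat_lit 622) (nat_lit 7661) (.f (nat_lit 495) (nat_lit 463) (nat_lit 6606) (.d (nat_lit 524) (nat_lit 496) (nat_lit 1516) (nat_lit 523) (nat_lit 2539)))))))) (.a (.p (nat_lit 462) (.a (.f (nat_lit 559) (nat_lit 591) (nat_lit 4558) (.f (nat_lit 525) (nat_lit 561) (nat_lit 3597) (.d (nat_lit 557) (nat_lit 524) (nat_lit 3596) (nat_lit 589) (nat_lit 5581)))) (.a (.f (nat_lit 557) (nat_lit 589) (nat_lit 5581) (.f (nat_lit 525) (nat_lit 430) (nat_lit 5549) (.d (nat_lit 559) (nat_lit 524) (nat_lit 3596) (nat_lit 561) (nat_lit 3597)))) (.f (nat_lit 431) (nat_lit 463) (nat_lit 6574) (.f (nat_lit 430) (nat_lit 399) (nat_lit 6542) (.d (nat_lit 429) (nat_lit 397) (nat_lit 7565) (nat_lit 461) (nat_lit 7597))))))) (.a s108011 (.a s108020 (.a s108021 (.a (.p (nat_lit 590) (.a (.f (nat_lit 591) (nat_lit 623) (nat_lit 4590) (.f (nat_lit 559) (nat_lit 462) (nat_lit 4558) (.d (nat_lit 561) (nat_lit 525) (nat_lit 3597) (nat_lit 589) (nat_lit 1581)))) (.a (.f (nat_lit 493) (nat_lit 461) (nat_lit 7629) (.f (nat_lit 525) (nat_lit 622) (nat_lit 7661) (.f (nat_lit 495) (nat_lit 463) (nat_lit 6606) (.d (nat_lit 524) (nat_lit 496) (nat_lit 1516) (nat_lit 523) (nat_lit 2539))))) (.f (nat_lit 591) (nat_lit 623) (nat_lit 4590) (.f (nat_lit 559) (nat_lit 462) (nat_lit 4558) (.d (nat_lit 589) (nat_lit 588) (nat_lit 2604) (nat_lit 621) (nat_lit 5613))))))) (.a (.p (nat_lit 590) (.a (.f (nat_lit 591) (nat_lit 623) (nat_lit 4590) (.f (nat_lit 559) (nat_lit 462) (nat_lit 4558) (.d (nat_lit 561) (nat_lit 525) (nat_lit 3597) (nat_lit 562) (nat_lit 1582)))) (.a (.f (nat_lit 493) (nat_lit 461) (nat_lit 7629) (.f (nat_lit 525) (nat_lit 622) (nat_lit 7661) (.f (nat_lit 495) (nat_lit 463) (nat_lit 6606) (.d (nat_lit 524) (nat_lit 496) (nat_lit 1516) (nat_lit 523) (nat_lit 2539))))) (.f (nat_lit 591) (nat_lit 623) (nat_lit 4590) (.f (nat_lit 462) (nat_lit 559) (nat_lit 4558) (.d (nat_lit 463) (nat_lit 431) (nat_lit 6574) (nat_lit 495) (nat_lit 6606))))))) (.p (nat_lit 590) (.a (.f (nat_lit 589) (nat_lit 621) (nat_lit 5613) (.f (nat_lit 559) (nat_lit 561) (nat_lit 1581) (.d (nat_lit 588) (nat_lit 557) (nat_lit 1580) (nat_lit 587) (nat_lit 2603)))) (.f (nat_lit 493) (nat_lit 461) (nat_lit 7629) (.f (nat_lit 525) (nat_lit 622) (nat_lit 7661) (.f (nat_lit 495) (nat_lit 463) (nat_lit 6606) (.d (nat_lit 524) (nat_lit 496) (nat_lit 1516) (nat_lit 523) (nat_lit 2539)))))))))))))))) (.a (.p (nat_lit 590) (.a (.p (nat_lit 494) (.a (.f (nat_lit 589) (nat_lit 621) (nat_lit 5613) (.f (nat_lit 559) (nat_lit 561) (nat_lit 1581) (.d (nat_lit 557) (nat_lit 462) (nat_lit 5581) (nat_lit 588) (nat_lit 1580)))) (.f (nat_lit 495) (nat_lit 463) (nat_lit 6606) (.f (nat_lit 493) (nat_lit 461) (nat_lit 7629) (.d (nat_lit 527) (nat_lit 492) (nat_lit 492) (nat_lit 622) (nat_lit 6638)))))) (.a (.p (nat_lit 494) (.a (.f (nat_lit 589) (nat_lit 621) (nat_lit 5613) (.f (nat_lit 559) (nat_lit 561) (nat_lit 1581) (.d (nat_lit 557) (nat_lit 462) (nat_lit 5581) (nat_lit 588) (nat_lit 1580)))) (.a (.f (nat_lit 589) (nat_lit 621) (nat_lit 5613) (.f (nat_lit 462) (nat_lit 557) (nat_lit 5581) (.d (nat_lit 463) (nat_lit 431) (nat_lit 6574) (nat_lit 495) (nat_lit 6606)))) (.f (nat_lit 493) (nat_lit 461) (nat_lit 7629) (.f (nat_lit 525) (nat_lit 622) (nat_lit 7661) (.f (nat_lit 495) (nat_lit 463) (nat_lit 6606) (.d (nat_lit 524) (nat_lit 496) (nat_lit 1516) (nat_lit 523) (nat_lit 2539)))))))) (.a (.p (nat_lit 494) (.a (.f (nat_lit 495) (nat_lit 463) (nat_lit 6606) (.f (nat_lit 493) (nat_lit 461) (nat_lit 7629) (.d (nat_lit 527) (nat_lit 492) (nat_lit 492) (nat_lit 622) (nat_lit 6638)))) (.a (.f (nat_lit 589) (nat_lit 621) (nat_lit 5613) (.f (nat_lit 462) (nat_lit 557) (nat_lit 5581) (.d (nat_lit 463) (nat_lit 431) (nat_lit 6574) (nat_lit 495) (nat_lit 6606)))) (.f (nat_lit 493) (nat_lit 461) (nat_lit 7629) (.f (nat_lit 525) (nat_lit 622) (nat_lit 7661) (.d (nat_lit 527) (nat_lit 492) (nat_lit 3564) (nat_lit 561) (nat_lit 525))))))) (.a s108034 (.a (.p (nat_lit 494) (.a (.f (nat_lit 495) (nat_lit 463) (nat_lit 6606) (.f (nat_lit 493) (nat_lit 461) (nat_lit 7629) (.d (nat_lit 527) (nat_lit 492) (nat_lit 492) (nat_lit 622) (nat_lit 6638)))) (.a (.f (nat_lit 493) (nat_lit 461) (nat_lit 7629) (.f (nat_lit 525) (nat_lit 622) (nat_lit 7661) (.f (nat_lit 495) (nat_lit 463) (nat_lit 6606) (.d (nat_lit 524) (nat_lit 496) (nat_lit 1516) (nat_lit 523) (nat_lit 2539))))) (.a (.f (nat_lit 493) (nat_lit 461) (nat_lit 7629) (.f (nat_lit 525) (nat_lit 622) (nat_lit 7661) (.d (nat_lit 527) (nat_lit 492) (nat_lit 3564) (nat_lit 561) (nat_lit 525)))) (.a (.f (nat_lit 495) (nat_lit 463) (nat_lit 6606) (.f (nat_lit 527) (nat_lit 622) (nat_lit 6638) (.f (nat_lit 525) (nat_lit 561) (nat_lit 525) (.d (nat_lit 524) (nat_lit 523) (nat_lit 2539) (nat_lit 559) (nat_lit 524))))) (.f (nat_lit 463) (nat_lit 495) (nat_lit 6606) (.f (nat_lit 462) (nat_lit 431) (nat_lit 6574) (.d (nat_lit 461) (nat_lit 429) (nat_lit 7597) (nat_lit 493) (nat_lit 7629))))))))) (.a s108043 (.a (.p (nat_lit 525) (.a (.d (nat_lit 561) (nat_lit 527) (nat_lit 525) (nat_lit 559) (nat_lit 3597)) (.a (.f (nat_lit 622) (nat_lit 493) (nat_lit 7661) (.f (nat_lit 559) (nat_lit 561) (nat_lit 3597) (.d (nat_lit 557) (nat_lit 524) (nat_lit 3596) (nat_lit 654) (nat_lit 7693)))) (.a (.f (nat_lit 527) (nat_lit 561) (nat_lit 525) (.d (nat_lit 493) (nat_lit 492) (nat_lit 3564) (nat_lit 622) (nat_lit 7661))) (.f (nat_lit 622) (nat_lit 493) (nat_lit 7661) (.f (nat_lit 527) (nat_lit 495) (nat_lit 6638) (.d (nat_lit 557) (nat_lit 556) (nat_lit 1548) (nat_lit 654) (nat_lit 7693)))))))) (.a (.p (nat_lit 494) (.a (.f (nat_lit 589) (nat_lit 621) (nat_lit 5613) (.f (nat_lit 559) (nat_lit 561) (nat_lit 1581) (.d (nat_lit 557) (nat_lit 462) (nat_lit 5581) (nat_lit 588) (nat_lit 1580)))) (.a (.f (nat_lit 589) (nat_lit 621) (nat_lit 5613) (.f (nat_lit 462) (nat_lit 557) (nat_lit 5581) (.d (nat_lit 463) (nat_lit 431) (nat_lit 6574) (nat_lit 495) (nat_lit 6606)))) (.f (nat_lit 495) (nat_lit 463) (nat_lit 6606) (.f (nat_lit 527) (nat_lit 622) (nat_lit 6638) (.f (nat_lit 525) (nat_lit 561) (nat_lit 525) (.d (nat_lit 524) (nat_lit 523) (nat_lit 2539) (nat_lit 559) (nat_lit 524)))))))) s108055))))))))) (.a (.p (nat_lit 525) (.a (.f (nat_lit 559) (nat_lit 561) (nat_lit 3597) (.d (nat_lit 524) (nat_lit 523) (nat_lit 523) (nat_lit 557) (nat_lit 3596))) (.a (.f (nat_lit 527) (nat_lit 561) (nat_lit 525) (.f (nat_lit 557) (nat_lit 556) (nat_lit 1548) (.f (nat_lit 493) (nat_lit 492) (nat_lit 3564) (.f (nat_lit 461) (nat_lit 429) (nat_lit 4525) (.f (nat_lit 462) (nat_lit 430) (nat_lit 6573) (.f (nat_lit 494) (nat_lit 589) (nat_lit 5581) (.f (nat_lit 496) (nat_lit 497) (nat_lit 2541) (.d (nat_lit 495) (nat_lit 460) (nat_lit 3532) (nat_lit 524) (nat_lit 2540))))))))) (.a (.d (nat_lit 561) (nat_lit 527) (nat_lit 525) (nat_lit 559) (nat_lit 3597)) (.p (nat_lit 557) (.a (.f (nat_lit 527) (nat_lit 556) (nat_lit 1548) (.f (nat_lit 524) (nat_lit 559) (nat_lit 524) (.d (nat_lit 492) (nat_lit 491) (nat_lit 3563) (nat_lit 493) (nat_lit 3564)))) (.a (.f (nat_lit 559) (nat_lit 524) (nat_lit 3596) (.f (nat_lit 589) (nat_lit 588) (nat_lit 1580) (.d (nat_lit 494) (nat_lit 462) (nat_lit 5581) (nat_lit 621) (nat_lit 6637)))) (.a (.f (nat_lit 527) (nat_lit 556) (nat_lit 1548) (.f (nat_lit 493) (nat_lit 492) (nat_lit 3564) (.f (nat_lit 461) (nat_lit 429) (nat_lit 4525) (.f (nat_lit 462) (nat_lit 430) (nat_lit 6573) (.f (nat_lit 494) (nat_lit 589) (nat_lit 5581) (.f (nat_lit 496) (nat_lit 497) (nat_lit 2541) (.d (nat_lit 495) (nat_lit 460) (nat_lit 3532) (nat_lit 524) (nat_lit 2540)))))))) (.f (nat_lit 527) (nat_lit 556) (nat_lit 1548) (.f (nat_lit 493) (nat_lit 492) (nat_lit 3564) (.f (nat_lit 461) (nat_lit 429) (nat_lit 4525) (.f (nat_lit 462) (nat_lit 430) (nat_lit 6573) (.f (nat_lit 494) (nat_lit 589) (nat_lit 5581) (.f (nat_lit 496) (nat_lit 497) (nat_lit 2541) (.d (nat_lit 460) (nat_lit 428) (nat_lit 7596) (nat_lit 495) (nat_lit 3532)))))))))))))))) (.a s108098 (.a (.p (nat_lit 590) (.a (.p (nat_lit 494) (.a (.f (nat_lit 495) (nat_lit 463) (nat_lit 6606) (.f (nat_lit 493) (nat_lit 461) (nat_lit 7629) (.d (nat_lit 527) (nat_lit 492) (nat_lit 492) (nat_lit 622) (nat_lit 6638)))) (.a (.f (nat_lit 589) (nat_lit 621) (nat_lit 5613) (.f (nat_lit 462) (nat_lit 557) (nat_lit 5581) (.d (nat_lit 463) (nat_lit 431) (nat_lit 6574) (nat_lit 495) (nat_lit 6606)))) (.f (nat_lit 493) (nat_lit 461) (nat_lit 7629) (.f (nat_lit 525) (nat_lit 622) (nat_lit 7661) (.d (nat_lit 527) (nat_lit 492) (nat_lit 3564) (nat_lit 561) (nat_lit 525))))))) (.a (.p (nat_lit 494) (.a (.f (nat_lit 589) (nat_lit 621) (nat_lit 5613) (.f (nat_lit 462) (nat_lit 557) (nat_lit 5581) (.d (nat_lit 463) (nat_lit 431) (nat_lit 6574) (nat_lit 495) (nat_lit 6606)))) (.a (.f (nat_lit 589) (nat_lit 621) (nat_lit 5613) (.f (nat_lit 557) (nat_lit 462) (nat_lit 5581) (.f (nat_lit 493) (nat_lit 461) (nat_lit 7629) (.f (nat_lit 525) (nat_lit 622) (nat_lit 4589) (.f (nat_lit 588) (nat_lit 620) (nat_lit 5612) (.f (nat_lit 591) (nat_lit 623) (nat_lit 4590) (.f (nat_lit 555) (nat_lit 556) (nat_lit 3627) (.d (nat_lit 587) (nat_lit 554) (nat_lit 3626) (nat_lit 586) (nat_lit 2602))))))))) (.f (nat_lit 493) (nat_lit 461) (nat_lit 7629) (.f (nat_lit 525) (nat_lit 622) (nat_lit 7661) (.f (nat_lit 495) (nat_lit 463) (nat_lit 6606) (.d (nat_lit 524) (nat_lit 496) (nat_lit 1516) (nat_lit 523) (nat_lit 2539)))))))) (.a (.p (nat_lit 494) (.a (.f (nat_lit 495) (nat_lit 463) (nat_lit 6606) (.f (nat_lit 493) (nat_lit 461) (nat_lit 7629) (.d (nat_lit 527) (nat_lit 492) (nat_lit 492) (nat_lit 622) (nat_lit 6638)))) (.a (.f (nat_lit 589) (nat_lit 621) (nat_lit 5613) (.f (nat_lit 462) (nat_lit 557) (nat_lit 5581) (.d (nat_lit 463) (nat_lit 431) (nat_lit 6574) (nat_lit 495) (nat_lit 6606)))) (.f (nat_lit 589) (nat_lit 621) (nat_lit 5613) (.f (nat_lit 462) (nat_lit 557) (nat_lit 5581) (.d (nat_lit 461) (nat_lit 429) (nat_lit 7597) (nat_lit 493) (nat_lit 7629))))))) (.a s108106 (.a (.p (nat_lit 494) (.a (.f (nat_lit 495) (nat_lit 463) (nat_lit 6606) (.f (nat_lit 493) (nat_lit 461) (nat_lit 7629) (.d (nat_lit 527) (nat_lit 492) (nat_lit 492) (nat_lit 622) (nat_lit 6638)))) (.a (.f (nat_lit 493) (nat_lit 461) (nat_lit 7629) (.f (nat_lit 525) (nat_lit 622) (nat_lit 7661) (.f (nat_lit 495) (nat_lit 463) (nat_lit 6606) (.d (nat_lit 524) (nat_lit 496) (nat_lit 1516) (nat_lit 523) (nat_lit 2539))))) (.a (.f (nat_lit 493) (nat_lit 461) (nat_lit 7629) (.f (nat_lit 525) (nat_lit 622) (nat_lit 7661) (.d (nat_lit 527) (nat_lit 492) (nat_lit 3564) (nat_lit 561) (nat_lit 525)))) (.a (.f (nat_lit 495) (nat_lit 463) (nat_lit 6606) (.f (nat_lit 622) (nat_lit 527) (nat_lit 6638) (.d (nat_lit 621) (nat_lit 589) (nat_lit 5613) (nat_lit 653) (nat_lit 5645)))) (.f (nat_lit 463) (nat_lit 495) (nat_lit 6606) (.f (nat_lit 462) (nat_lit 431) (nat_lit 6574) (.d (nat_lit 461) (nat_lit 429) (nat_lit 7597) (nat_lit 493) (nat_lit 7629))))))))) (.a (.p (nat_lit 494) (.a (.f (nat_lit 495) (nat_lit 463) (nat_lit 6606) (.f (nat_lit 493) (nat_lit 461) (nat_lit 7629) (.d (nat_lit 527) (nat_lit 492) (nat_lit 492) (nat_lit 622) (nat_lit 6638)))) (.a (.f (nat_lit 493) (nat_lit 461) (nat_lit 7629) (.f (nat_lit 525) (nat_lit 622) (nat_lit 7661) (.f (nat_lit 495) (nat_lit 463) (nat_lit 6606) (.d (nat_lit 524) (nat_lit 496) (nat_lit 1516) (nat_lit 523) (nat_lit 2539))))) (.a (.f (nat_lit 493) (nat_lit 461) (nat_lit 7629) (.f (nat_lit 525) (nat_lit 622) (nat_lit 7661) (.d (nat_lit 527) (nat_lit 492) (nat_lit 3564) (nat_lit 561) (nat_lit 525)))) (.a (.f (nat_lit 495) (nat_lit 463) (nat_lit 6606) (.f (nat_lit 527) (nat_lit 622) (nat_lit 6638) (.f (nat_lit 525) (nat_lit 561) (nat_lit 525) (.d (nat_lit 524) (nat_lit 496) (nat_lit 2540) (nat_lit 523) (nat_lit 2539))))) (.f (nat_lit 463) (nat_lit 495) (nat_lit 6606) (.f (nat_lit 462) (nat_lit 431) (nat_lit 6574) (.d (nat_lit 461) (nat_lit 429) (nat_lit 7597) (nat_lit 493) (nat_lit 7629))))))))) (.a s108124 (.a (.p (nat_lit 494) (.a (.f (nat_lit 589) (nat_lit 621) (nat_lit 5613) (.f (nat_lit 462) (nat_lit 557) (nat_lit 5581) (.d (nat_lit 463) (nat_lit 431) (nat_lit 6574) (nat_lit 495) (nat_lit 6606)))) (.a (.f (nat_lit 589) (nat_lit 621) (nat_lit 5613) (.f (nat_lit 557) (nat_lit 462) (nat_lit 5581) (.f (nat_lit 623) (nat_lit 591) (nat_lit 4590) (.f (nat_lit 622) (nat_lit 655) (nat_lit 4622) (.d (nat_lit 654) (nat_lit 525) (nat_lit 7693) (nat_lit 686) (nat_lit 7725)))))) (.a (.f (nat_lit 495) (nat_lit 463) (nat_lit 6606) (.f (nat_lit 622) (nat_lit 527) (nat_lit 6638) (.d (nat_lit 621) (nat_lit 589) (nat_lit 5613) (nat_lit 653) (nat_lit 5645)))) (.f (nat_lit 495) (nat_lit 463) (nat_lit 6606) (.f (nat_lit 527) (nat_lit 622) (nat_lit 6638) (.f (nat_lit 525) (nat_lit 561) (nat_lit 525) (.d (nat_lit 524) (nat_lit 496) (nat_lit 2540) (nat_lit 523) (nat_lit 2539))))))))) (.p (nat_lit 494) (.a (.f (nat_lit 589) (nat_lit 621) (nat_lit 5613) (.f (nat_lit 462) (nat_lit 557) (nat_lit 5581) (.d (nat_lit 463) (nat_lit 431) (nat_lit 6574) (nat_lit 495) (nat_lit 6606)))) (.a (.f (nat_lit 589) (nat_lit 621) (nat_lit 5613) (.f (nat_lit 462) (nat_lit 557) (nat_lit 5581) (.d (nat_lit 461) (nat_lit 429) (nat_lit 7597) (nat_lit 493) (nat_lit 7629)))) (.a (.f (nat_lit 463) (nat_lit 495) (nat_lit 6606) (.f (nat_lit 462) (nat_lit 431) (nat_lit 6574) (.d (nat_lit 461) (nat_lit 429) (nat_lit 7597) (nat_lit 493) (nat_lit 7629)))) (.f (nat_lit 493) (nat_lit 461) (nat_lit 7629) (.f (nat_lit 495) (nat_lit 463) (nat_lit 6606) (.f (nat_lit 492) (nat_lit 527) (nat_lit 492) (.f (nat_lit 524) (nat_lit 523) (nat_lit 1515) (.f (nat_lit 525) (nat_lit 496) (nat_lit 1516) (.f (nat_lit 460) (nat_lit 459) (nat_lit 3531) (.d (nat_lit 428) (nat_lit 396) (nat_lit 4492) (nat_lit 557) (nat_lit 4524))))))))))))))))))))) (.a (.p (nat_lit 494) (.a (.p (nat_lit 590) (.a (.f (nat_lit 495) (nat_lit 463) (nat_lit 6606) (.f (nat_lit 493) (nat_lit 461) (nat_lit 7629) (.d (nat_lit 527) (nat_lit 492) (nat_lit 492) (nat_lit 622) (nat_lit 6638)))) (.f (nat_lit 591) (nat_lit 623) (nat_lit 4590) (.f (nat_lit 559) (nat_lit 462) (nat_lit 4558) (.d (nat_lit 561) (nat_lit 525) (nat_lit 3597) (nat_lit 589) (nat_lit 1581)))))) (.a (.p (nat_lit 590) (.a (.f (nat_lit 591) (nat_lit 623) (nat_lit 4590) (.f (nat_lit 559) (nat_lit 462) (nat_lit 4558) (.d (nat_lit 561) (nat_lit 525) (nat_lit 3597) (nat_lit 589) (nat_lit 1581)))) (.a (.f (nat_lit 493) (nat_lit 461) (nat_lit 7629) (.f (nat_lit 525) (nat_lit 622) (nat_lit 7661) (.f (nat_lit 495) (nat_lit 463) (nat_lit 6606) (.d (nat_lit 524) (nat_lit 496) (nat_lit 1516) (nat_lit 523) (nat_lit 2539))))) (.f (nat_lit 591) (nat_lit 623) (nat_lit 4590) (.f (nat_lit 559) (nat_lit 462) (nat_lit 4558) (.d (nat_lit 589) (nat_lit 588) (nat_lit 2604) (nat_lit 621) (nat_lit 5613))))))) (.a s108135 (.a (.p (nat_lit 462) (.a (.f (nat_lit 559) (nat_lit 591) (nat_lit 4558) (.f (nat_lit 527) (nat_lit 430) (nat_lit 4526) (.d (nat_lit 561) (nat_lit 525) (nat_lit 3597) (nat_lit 562) (nat_lit 3598)))) (.a (.f (nat_lit 431) (nat_lit 463) (nat_lit 6574) (.f (nat_lit 430) (nat_lit 399) (nat_lit 6542) (.d (nat_lit 429) (nat_lit 397) (nat_lit 7565) (nat_lit 461) (nat_lit 7597)))) (.f (nat_lit 559) (nat_lit 591) (nat_lit 4558) (.f (nat_lit 525) (nat_lit 561) (nat_lit 3597) (.d (nat_lit 524) (nat_lit 523) (nat_lit 523) (nat_lit 527) (nat_lit 524))))))) (.a (.p (nat_lit 590) (.a (.f (nat_lit 495) (nat_lit 463) (nat_lit 6606) (.f (nat_lit 493) (nat_lit 461) (nat_lit 7629) (.d (nat_lit 527) (nat_lit 492) (nat_lit 492) (nat_lit 622) (nat_lit 6638)))) (.f (nat_lit 591) (nat_lit 623) (nat_lit 4590) (.f (nat_lit 559) (nat_lit 462) (nat_lit 4558) (.d (nat_lit 589) (nat_lit 588) (nat_lit 2604) (nat_lit 621) (nat_lit 5613)))))) (.a s108140 (.a (.p (nat_lit 590) (.a (.f (nat_lit 591) (nat_lit 623) (nat_lit 4590) (.f (nat_lit 559) (nat_lit 462) (nat_lit 4558) (.d (nat_lit 561) (nat_lit 525) (nat_lit 3597) (nat_lit 589) (nat_lit 1581)))) (.a (.f (nat_lit 493) (nat_lit 461) (nat_lit 7629) (.f (nat_lit 525) (nat_lit 622) (nat_lit 7661) (.d (nat_lit 527) (nat_lit 492) (nat_lit 3564) (nat_lit 561) (nat_lit 525)))) (.f (nat_lit 591) (nat_lit 623) (nat_lit 4590) (.f (nat_lit 559) (nat_lit 462) (nat_lit 4558) (.d (nat_lit 589) (nat_lit 588) (nat_lit 2604) (nat_lit 621) (nat_lit 5613))))))) (.a (.p (nat_lit 590) (.a (.f (nat_lit 495) (nat_lit 463) (nat_lit 6606) (.f (nat_lit 493) (nat_lit 461) (nat_lit 7629) (.d (nat_lit 527) (nat_lit 492) (nat_lit 492) (nat_lit 622) (nat_lit 6638)))) (.a (.f (nat_lit 493) (nat_lit 461) (nat_lit 7629) (.f (nat_lit 525) (nat_lit 622) (nat_lit 7661) (.f (nat_lit 495) (nat_lit 463) (nat_lit 6606) (.d (nat_lit 524) (nat_lit 496) (nat_lit 1516) (nat_lit 523) (nat_lit 2539))))) (.a (.f (nat_lit 493) (nat_lit 461) (nat_lit 7629) (.f (nat_lit 525) (nat_lit 622) (nat_lit 7661) (.d (nat_lit 527) (nat_lit 492) (nat_lit 3564) (nat_lit 561) (nat_lit 525)))) (.a (.f (nat_lit 495) (nat_lit 463) (nat_lit 6606) (.f (nat_lit 527) (nat_lit 622) (nat_lit 6638) (.f (nat_lit 525) (nat_lit 561) (nat_lit 525) (.d (nat_lit 524) (nat_lit 523) (nat_lit 2539) (nat_lit 559) (nat_lit 524))))) (.f (nat_lit 591) (nat_lit 623) (nat_lit 4590) (.f (nat_lit 589) (nat_lit 621) (nat_lit 5613) (.d (nat_lit 559) (nat_lit 561) (nat_lit 1581) (nat_lit 588) (nat_lit 2604))))))))) s108146))))))))) (.a (.p (nat_lit 494) (.a (.p (nat_lit 590) (.a (.f (nat_lit 495) (nat_lit 463) (nat_lit 6606) (.f (nat_lit 493) (nat_lit 461) (nat_lit 7629) (.d (nat_lit 527) (nat_lit 492) (nat_lit 492) (nat_lit 622) (nat_lit 6638)))) (.a (.f (nat_lit 589) (nat_lit 621) (nat_lit 5613) (.f (nat_lit 462) (nat_lit 557) (nat_lit 5581) (.d (nat_lit 463) (nat_lit 431) (nat_lit 6574) (nat_lit 495) (nat_lit 6606)))) (.f (nat_lit 591) (nat_lit 623) (nat_lit 4590) (.f (nat_lit 559) (nat_lit 462) (nat_lit 4558) (.d (nat_lit 589) (nat_lit 588) (nat_lit 2604) (nat_lit 621) (nat_lit 5613))))))) (.a s108020 (.a (.p (nat_lit 590) (.a (.f (nat_lit 495) (nat_lit 463) (nat_lit 6606) (.f (nat_lit 493) (nat_lit 461) (nat_lit 7629) (.d (nat_lit 527) (nat_lit 492) (nat_lit 492) (nat_lit 622) (nat_lit 6638)))) (.a (.f (nat_lit 589) (nat_lit 621) (nat_lit 5613) (.f (nat_lit 462) (nat_lit 557) (nat_lit 5581) (.d (nat_lit 463) (nat_lit 431) (nat_lit 6574) (nat_lit 495) (nat_lit 6606)))) (.f (nat_lit 589) (nat_lit 621) (nat_lit 5613) (.f (nat_lit 462) (nat_lit 557) (nat_lit 5581) (.d (nat_lit 461) (nat_lit 429) (nat_lit 7597) (nat_lit 493) (nat_lit 7629))))))) (.a s108087 (.a (.p (nat_lit 590) (.a (.f (nat_lit 591) (nat_lit 623) (nat_lit 4590) (.f (nat_lit 559) (nat_lit 462) (nat_lit 4558) (.d (nat_lit 589) (nat_lit 588) (nat_lit 2604) (nat_lit 621) (nat_lit 5613)))) (.a (.f (nat_lit 493) (nat_lit 461) (nat_lit 7629) (.f (nat_lit 525) (nat_lit 622) (nat_lit 7661) (.f (nat_lit 527) (nat_lit 492) (nat_lit 3564) (.f (nat_lit 557) (nat_lit 556) (nat_lit 1548) (.d (nat_lit 589) (nat_lit 462) (nat_lit 6605) (nat_lit 621) (nat_lit 5613)))))) (.a (.f (nat_lit 591) (nat_lit 623) (nat_lit 4590) (.f (nat_lit 462) (nat_lit 559) (nat_lit 4558) (.d (nat_lit 461) (nat_lit 429) (nat_lit 7597) (nat_lit 493) (nat_lit 7629)))) (.f (nat_lit 493) (nat_lit 461) (nat_lit 7629) (.f (nat_lit 525) (nat_lit 622) (nat_lit 7661) (.f (nat_lit 527) (nat_lit 492) (nat_lit 3564) (.f (nat_lit 524) (nat_lit 559) (nat_lit 524) (.d (nat_lit 496) (nat_lit 495) (nat_lit 2540) (nat_lit 497) (nat_lit 2541)))))))))) (.a (.p (nat_lit 590) (.a (.f (nat_lit 495) (nat_lit 463) (nat_lit 6606) (.f (nat_lit 493) (nat_lit 461) (nat_lit 7629) (.d (nat_lit 527) (nat_lit 492) (nat_lit 492) (nat_lit 622) (nat_lit 6638)))) (.f (nat_lit 591) (nat_lit 623) (nat_lit 4590) (.f (nat_lit 559) (nat_lit 462) (nat_lit 4558) (.d (nat_lit 589) (nat_lit 588) (nat_lit 2604) (nat_lit 621) (nat_lit 5613)))))) (.a (.p (nat_lit 590) (.a (.f (nat_lit 495) (nat_lit 463) (nat_lit 6606) (.f (nat_lit 493) (nat_lit 461) (nat_lit 7629) (.d (nat_lit 527) (nat_lit 492) (nat_lit 492) (nat_lit 622) (nat_lit 6638)))) (.a (.f (nat_lit 591) (nat_lit 623) (nat_lit 4590) (.f (nat_lit 462) (nat_lit 559) (nat_lit 4558) (.d (nat_lit 463) (nat_lit 431) (nat_lit 6574) (nat_lit 495) (nat_lit 6606)))) (.f (nat_lit 591) (nat_lit 623) (nat_lit 4590) (.f (nat_lit 462) (nat_lit 559) (nat_lit 4558) (.d (nat_lit 461) (nat_lit 429) (nat_lit 7597) (nat_lit 493) (nat_lit 7629))))))) (.a (.p (nat_lit 590) (.a (.f (nat_lit 495) (nat_lit 463) (nat_lit 6606) (.f (nat_lit 493) (nat_lit 461) (nat_lit 7629) (.d (nat_lit 527) (nat_lit 492) (nat_lit 492) (nat_lit 622) (nat_lit 6638)))) (.a (.f (nat_lit 493) (nat_lit 461) (nat_lit 7629) (.f (nat_lit 525) (nat_lit 622) (nat_lit 7661) (.f (nat_lit 495) (nat_lit 463) (nat_lit 6606) (.d (nat_lit 524) (nat_lit 496) (nat_lit 1516) (nat_lit 523) (nat_lit 2539))))) (.a (.f (nat_lit 493) (nat_lit 461) (nat_lit 7629) (.f (nat_lit 525) (nat_lit 622) (nat_lit 7661) (.f (nat_lit 527) (nat_lit 492) (nat_lit 3564) (.f (nat_lit 524) (nat_lit 559) (nat_lit 524) (.d (nat_lit 496) (nat_lit 495) (nat_lit 2540) (nat_lit 497) (nat_lit 2541)))))) (.a (.f (nat_lit 493) (nat_lit 461) (nat_lit 7629) (.f (nat_lit 525) (nat_lit 622) (nat_lit 7661) (.f (nat_lit 527) (nat_lit 492) (nat_lit 3564) (.f (nat_lit 559) (nat_lit 524) (nat_lit 524) (.f (nat_lit 591) (nat_lit 623) (nat_lit 4590) (.d (nat_lit 589) (nat_lit 588) (nat_lit 2604) (nat_lit 621) (nat_lit 5613))))))) (.a (.f (nat_lit 495) (nat_lit 463) (nat_lit 6606) (.f (nat_lit 622) (nat_lit 527) (nat_lit 6638) (.d (nat_lit 621) (nat_lit 589) (nat_lit 5613) (nat_lit 653) (nat_lit 5645)))) (.f (nat_lit 493) (nat_lit 461) (nat_lit 7629) (.f (nat_lit 495) (nat_lit 463) (nat_lit 6606) (.f (nat_lit 492) (nat_lit 527) (nat_lit 492) (.f (nat_lit 524) (nat_lit 523) (nat_lit 1515) (.f (nat_lit 525) (nat_lit 496) (nat_lit 1516) (.f (nat_lit 460) (nat_lit 459) (nat_lit 3531) (.d (nat_lit 428) (nat_lit 396) (nat_lit 4492) (nat_lit 557) (nat_lit 4524)))))))))))))) s108161))))))))) (.a (.p (nat_lit 494) (.a (.p (nat_lit 590) (.a (.f (nat_lit 495) (nat_lit 463) (nat_lit 6606) (.f (nat_lit 493) (nat_lit 461) (nat_lit 7629) (.d (nat_lit 527) (nat_lit 492) (nat_lit 492) (nat_lit 622) (nat_lit 6638)))) (.f (nat_lit 591) (nat_lit 623) (nat_lit 4590) (.f (nat_lit 559) (nat_lit 462) (nat_lit 4558) (.d (nat_lit 561) (nat_lit 525) (nat_lit 3597) (nat_lit 562) (nat_lit 1582)))))) (.a (.p (nat_lit 590) (.a (.f (nat_lit 591) (nat_lit 623) (nat_lit 4590) (.f (nat_lit 559) (nat_lit 462) (nat_lit 4558) (.d (nat_lit 561) (nat_lit 525) (nat_lit 3597) (nat_lit 562) (nat_lit 1582)))) (.a (.f (nat_lit 493) (nat_lit 461) (nat_lit 7629) (.f (nat_lit 525) (nat_lit 622) (nat_lit 7661) (.f (nat_lit 495) (nat_lit 463) (nat_lit 6606) (.d (nat_lit 524) (nat_lit 496) (nat_lit 1516) (nat_lit 523) (nat_lit 2539))))) (.f (nat_lit 591) (nat_lit 623) (nat_lit 4590) (.f (nat_lit 462) (nat_lit 559) (nat_lit 4558) (.d (nat_lit 463) (nat_lit 431) (nat_lit 6574) (nat_lit 495) (nat_lit 6606))))))) (.a s108135 (.a (.p (nat_lit 462) (.a (.f (nat_lit 559) (nat_lit 591) (nat_lit 4558) (.f (nat_lit 527) (nat_lit 430) (nat_lit 4526) (.d (nat_lit 561) (nat_lit 525) (nat_lit 3597) (nat_lit 562) (nat_lit 3598)))) (.a (.f (nat_lit 431) (nat_lit 463) (nat_lit 6574) (.f (nat_lit 430) (nat_lit 399) (nat_lit 6542) (.d (nat_lit 429) (nat_lit 397) (nat_lit 7565) (nat_lit 461) (nat_lit 7597)))) (.f (nat_lit 559) (nat_lit 591) (nat_lit 4558) (.f (nat_lit 525) (nat_lit 561) (nat_lit 3597) (.d (nat_lit 524) (nat_lit 523) (nat_lit 523) (nat_lit 527) (nat_lit 524))))))) (.a (.p (nat_lit 590) (.a (.f (nat_lit 495) (nat_lit 463) (nat_lit 6606) (.f (nat_lit 493) (nat_lit 461) (nat_lit 7629) (.d (nat_lit 527) (nat_lit 492) (nat_lit 492) (nat_lit 622) (nat_lit 6638)))) (.a (.f (nat_lit 591) (nat_lit 623) (nat_lit 4590) (.f (nat_lit 462) (nat_lit 559) (nat_lit 4558) (.d (nat_lit 463) (nat_lit 431) (nat_lit 6574) (nat_lit 495) (nat_lit 6606)))) (.f (nat_lit 591) (nat_lit 623) (nat_lit 4590) (.f (nat_lit 462) (nat_lit 559) (nat_lit 4558) (.d (nat_lit 461) (nat_lit 429) (nat_lit 7597) (nat_lit 493) (nat_lit 7629))))))) (.a s108163 (.a (.p (nat_lit 590) (.a (.f (nat_lit 591) (nat_lit 623) (nat_lit 4590) (.f (nat_lit 559) (nat_lit 462) (nat_lit 4558) (.d (nat_lit 561) (nat_lit 525) (nat_lit 3597) (nat_lit 562) (nat_lit 1582)))) (.a (.f (nat_lit 493) (nat_lit 461) (nat_lit 7629) (.f (nat_lit 525) (nat_lit 622) (nat_lit 7661) (.d (nat_lit 527) (nat_lit 492) (nat_lit 3564) (nat_lit 561) (nat_lit 525)))) (.f (nat_lit 591) (nat_lit 623) (nat_lit 4590) (.f (nat_lit 462) (nat_lit 559) (nat_lit 4558) (.d (nat_lit 461) (nat_lit 429) (nat_lit 7597) (nat_lit 493) (nat_lit 7629))))))) (.a (.p (nat_lit 590) (.a (.f (nat_lit 495) (nat_lit 463) (nat_lit 6606) (.f (nat_lit 493) (nat_lit 461) (nat_lit 7629) (.d (nat_lit 527) (nat_lit 492) (nat_lit 492) (nat_lit 622) (nat_lit 6638)))) (.a (.f (nat_lit 493) (nat_lit 461) (nat_lit 7629) (.f (nat_lit 525) (nat_lit 622) (nat_lit 7661) (.f (nat_lit 495) (nat_lit 463) (nat_lit 6606) (.d (nat_lit 524) (nat_lit 496) (nat_lit 1516) (nat_lit 523) (nat_lit 2539))))) (.a (.f (nat_lit 493) (nat_lit 461) (nat_lit 7629) (.f (nat_lit 525) (nat_lit 622) (nat_lit 7661) (.d (nat_lit 527) (nat_lit 492) (nat_lit 3564) (nat_lit 561) (nat_lit 525)))) (.a (.f (nat_lit 495) (nat_lit 463) (nat_lit 6606) (.f (nat_lit 527) (nat_lit 622) (nat_lit 6638) (.f (nat_lit 525) (nat_lit 561) (nat_lit 525) (.d (nat_lit 524) (nat_lit 523) (nat_lit 2539) (nat_lit 559) (nat_lit 524))))) (.f (nat_lit 493) (nat_lit 461) (nat_lit 7629) (.f (nat_lit 495) (nat_lit 463) (nat_lit 6606) (.f (nat_lit 492) (nat_lit 527) (nat_lit 492) (.f (nat_lit 524) (nat_lit 523) (nat_lit 1515) (.f (nat_lit 525) (nat_lit 496) (nat_lit 1516) (.f (nat_lit 460) (nat_lit 459) (nat_lit 3531) (.d (nat_lit 428) (nat_lit 396) (nat_lit 4492) (nat_lit 557) (nat_lit 4524))))))))))))) s108166))))))))) (.a s108171 (.a (.p (nat_lit 525) (.a (.f (nat_lit 559) (nat_lit 561) (nat_lit 3597) (.d (nat_lit 524) (nat_lit 523) (nat_lit 523) (nat_lit 557) (nat_lit 3596))) (.a (.f (nat_lit 527) (nat_lit 561) (nat_lit 525) (.f (nat_lit 557) (nat_lit 556) (nat_lit 1548) (.f (nat_lit 493) (nat_lit 492) (nat_lit 3564) (.d (nat_lit 461) (nat_lit 429) (nat_lit 4525) (nat_lit 590) (nat_lit 4557))))) (.a (.d (nat_lit 561) (nat_lit 527) (nat_lit 525) (nat_lit 559) (nat_lit 3597)) (.p (nat_lit 557) (.a (.f (nat_lit 527) (nat_lit 556) (nat_lit 1548) (.f (nat_lit 524) (nat_lit 559) (nat_lit 524) (.d (nat_lit 492) (nat_lit 491) (nat_lit 3563) (nat_lit 493) (nat_lit 3564)))) (.a (.f (nat_lit 559) (nat_lit 524) (nat_lit 3596) (.f (nat_lit 589) (nat_lit 588) (nat_lit 1580) (.f (nat_lit 621) (nat_lit 653) (nat_lit 6669) (.f (nat_lit 622) (nat_lit 654) (nat_lit 4621) (.f (nat_lit 493) (nat_lit 590) (nat_lit 4589) (.f (nat_lit 461) (nat_lit 429) (nat_lit 4525) (.d (nat_lit 460) (nat_lit 428) (nat_lit 7596) (nat_lit 492) (nat_lit 7628)))))))) (.a (.f (nat_lit 527) (nat_lit 556) (nat_lit 1548) (.f (nat_lit 493) (nat_lit 492) (nat_lit 3564) (.d (nat_lit 461) (nat_lit 429) (nat_lit 4525) (nat_lit 590) (nat_lit 4557)))) (.f (nat_lit 527) (nat_lit 556) (nat_lit 1548) (.f (nat_lit 524) (nat_lit 559) (nat_lit 524) (.d (nat_lit 496) (nat_lit 495) (nat_lit 2540) (nat_lit 497) (nat_lit 2541)))))))))))) (.a (.p (nat_lit 494) (.a s107967 (.a (.p (nat_lit 590) (.a (.f (nat_lit 589) (nat_lit 621) (nat_lit 5613) (.f (nat_lit 559) (nat_lit 561) (nat_lit 1581) (.d (nat_lit 557) (nat_lit 462) (nat_lit 5581) (nat_lit 588) (nat_lit 1580)))) (.a (.f (nat_lit 589) (nat_lit 621) (nat_lit 5613) (.f (nat_lit 462) (nat_lit 557) (nat_lit 5581) (.d (nat_lit 463) (nat_lit 431) (nat_lit 6574) (nat_lit 495) (nat_lit 6606)))) (.f (nat_lit 495) (nat_lit 463) (nat_lit 6606) (.f (nat_lit 527) (nat_lit 622) (nat_lit 6638) (.f (nat_lit 525) (nat_lit 561) (nat_lit 525) (.d (nat_lit 524) (nat_lit 523) (nat_lit 2539) (nat_lit 559) (nat_lit 524)))))))) (.a s107983 (.a s108011 (.a s108188 (.a (.p (nat_lit 462) (.a (.f (nat_lit 559) (nat_lit 591) (nat_lit 4558) (.f (nat_lit 527) (nat_lit 430) (nat_lit 4526) (.d (nat_lit 561) (nat_lit 525) (nat_lit 3597) (nat_lit 562) (nat_lit 3598)))) (.a (.f (nat_lit 431) (nat_lit 463) (nat_lit 6574) (.f (nat_lit 430) (nat_lit 399) (nat_lit 6542) (.d (nat_lit 429) (nat_lit 397) (nat_lit 7565) (nat_lit 461) (nat_lit 7597)))) (.f (nat_lit 559) (nat_lit 591) (nat_lit 4558) (.f (nat_lit 525) (nat_lit 561) (nat_lit 3597) (.d (nat_lit 524) (nat_lit 523) (nat_lit 523) (nat_lit 527) (nat_lit 524))))))) (.a s108087 (.p (nat_lit 590) (.a (.f (nat_lit 589) (nat_lit 621) (nat_lit 5613) (.f (nat_lit 559) (nat_lit 561) (nat_lit 1581) (.d (nat_lit 588) (nat_lit 557) (nat_lit 1580) (nat_lit 587) (nat_lit 2603)))) (.a (.f (nat_lit 495) (nat_lit 463) (nat_lit 6606) (.f (nat_lit 622) (nat_lit 527) (nat_lit 6638) (.d (nat_lit 621) (nat_lit 589) (nat_lit 5613) (nat_lit 653) (nat_lit 5645)))) (.f (nat_lit 495) (nat_lit 463) (nat_lit 6606) (.f (nat_lit 527) (nat_lit 622) (nat_lit 6638) (.f (nat_lit 525) (nat_lit 561) (nat_lit 525) (.d (nat_lit 524) (nat_lit 523) (nat_lit 2539) (nat_lit 559) (nat_lit 524)))))))))))))))) (.a (.p (nat_lit 494) (.a s107967 (.a (.p (nat_lit 590) (.a (.f (nat_lit 589) (nat_lit 621) (nat_lit 5613) (.f (nat_lit 559) (nat_lit 561) (nat_lit 1581) (.d (nat_lit 557) (nat_lit 462) (nat_lit 5581) (nat_lit 588) (nat_lit 1580)))) (.a (.f (nat_lit 589) (nat_lit 621) (nat_lit 5613) (.f (nat_lit 462) (nat_lit 557) (nat_lit 5581) (.d (nat_lit 463) (nat_lit 431) (nat_lit 6574) (nat_lit 495) (nat_lit 6606)))) (.f (nat_lit 495) (nat_lit 463) (nat_lit 6606) (.f (nat_lit 527) (nat_lit 622) (nat_lit 6638) (.f (nat_lit 525) (nat_lit 561) (nat_lit 525) (.d (nat_lit 524) (nat_lit 523) (nat_lit 2539) (nat_lit 559) (nat_lit 524)))))))) (.a s107983 (.a s108011 (.a s108188 (.a s108146 (.a s108161 (.a s108166 (.p (nat_lit 590) (.a (.f (nat_lit 589) (nat_lit 621) (nat_lit 5613) (.f (nat_lit 559) (nat_lit 561) (nat_lit 1581) (.d (nat_lit 588) (nat_lit 557) (nat_lit 1580) (nat_lit 587) (nat_lit 2603)))) (.a (.f (nat_lit 495) (nat_lit 463) (nat_lit 6606) (.f (nat_lit 622) (nat_lit 527) (nat_lit 6638) (.d (nat_lit 621) (nat_lit 589) (nat_lit 5613) (nat_lit 653) (nat_lit 5645)))) (.f (nat_lit 495) (nat_lit 463) (nat_lit 6606) (.f (nat_lit 527) (nat_lit 622) (nat_lit 6638) (.f (nat_lit 525) (nat_lit 561) (nat_lit 525) (.d (nat_lit 524) (nat_lit 523) (nat_lit 2539) (nat_lit 559) (nat_lit 524))))))))))))))))) s108197)))))))))))))) (.a s108918 (.a (.p (nat_lit 558) (.a s107995 (.a (.p (nat_lit 494) (.a s107967 (.a (.p (nat_lit 590) (.a (.f (nat_lit 589) (nat_lit 621) (nat_lit 5613) (.f (nat_lit 559) (nat_lit 561) (nat_lit 1581) (.d (nat_lit 557) (nat_lit 462) (nat_lit 5581) (nat_lit 588) (nat_lit 1580)))) (.a (.f (nat_lit 589) (nat_lit 621) (nat_lit 5613) (.f (nat_lit 462) (nat_lit 557) (nat_lit 5581) (.d (nat_lit 463) (nat_lit 431) (nat_lit 6574) (nat_lit 495) (nat_lit 6606)))) (.a (.f (nat_lit 463) (nat_lit 495) (nat_lit 6606) (.f (nat_lit 462) (nat_lit 431) (nat_lit 6574) (.d (nat_lit 461) (nat_lit 429) (nat_lit 7597) (nat_lit 493) (nat_lit 7629)))) (.f (nat_lit 589) (nat_lit 621) (nat_lit 5613) (.f (nat_lit 559) (nat_lit 561) (nat_lit 1581) (.d (nat_lit 588) (nat_lit 557) (nat_lit 1580) (nat_lit 587) (nat_lit 2603)))))))) (.a (.p (nat_lit 462) (.a (.f (nat_lit 559) (nat_lit 591) (nat_lit 4558) (.f (nat_lit 525) (nat_lit 561) (nat_lit 3597) (.d (nat_lit 557) (nat_lit 524) (nat_lit 3596) (nat_lit 589) (nat_lit 5581)))) (.a (.f (nat_lit 557) (nat_lit 589) (nat_lit 5581) (.f (nat_lit 525) (nat_lit 430) (nat_lit 5549) (.d (nat_lit 559) (nat_lit 524) (nat_lit 3596) (nat_lit 561) (nat_lit 3597)))) (.f (nat_lit 431) (nat_lit 463) (nat_lit 6574) (.f (nat_lit 430) (nat_lit 399) (nat_lit 6542) (.d (nat_lit 429) (nat_lit 397) (nat_lit 7565) (nat_lit 461) (nat_lit 7597))))))) (.a s108923 (.a s108021 (.a (.p (nat_lit 590) (.a (.f (nat_lit 591) (nat_lit 623) (nat_lit 4590) (.f (nat_lit 559) (nat_lit 462) (nat_lit 4558) (.d (nat_lit 561) (nat_lit 525) (nat_lit 3597) (nat_lit 589) (nat_lit 1581)))) (.a (.f (nat_lit 463) (nat_lit 495) (nat_lit 6606) (.f (nat_lit 462) (nat_lit 431) (nat_lit 6574) (.d (nat_lit 461) (nat_lit 429) (nat_lit 7597) (nat_lit 493) (nat_lit 7629)))) (.f (nat_lit 591) (nat_lit 623) (nat_lit 4590) (.f (nat_lit 589) (nat_lit 621) (nat_lit 5613) (.d (nat_lit 559) (nat_lit 561) (nat_lit 1581) (nat_lit 588) (nat_lit 2604))))))) (.a (.p (nat_lit 590) (.a (.f (nat_lit 591) (nat_lit 623) (nat_lit 4590) (.f (nat_lit 559) (nat_lit 462) (nat_lit 4558) (.d (nat_lit 561) (nat_lit 525) (nat_lit 3597) (nat_lit 562) (nat_lit 1582)))) (.a (.f (nat_lit 463) (nat_lit 495) (nat_lit 6606) (.f (nat_lit 462) (nat_lit 431) (nat_lit 6574) (.d (nat_lit 461) (nat_lit 429) (nat_lit 7597) (nat_lit 493) (nat_lit 7629)))) (.f (nat_lit 623) (nat_lit 591) (nat_lit 4590) (.f (nat_lit 622) (nat_lit 655) (nat_lit 4622) (.d (nat_lit 493) (nat_lit 461) (nat_lit 7629) (nat_lit 525) (nat_lit 7661))))))) (.p (nat_lit 590) (.a (.f (nat_lit 589) (nat_lit 621) (nat_lit 5613) (.f (nat_lit 559) (nat_lit 561) (nat_lit 1581) (.d (nat_lit 588) (nat_lit 557) (nat_lit 1580) (nat_lit 587) (nat_lit 2603)))) (.a (.f (nat_lit 621) (nat_lit 589) (nat_lit 5613) (.f (nat_lit 622) (nat_lit 653) (nat_lit 5645) (.d (nat_lit 623) (nat_lit 591) (nat_lit 4590) (nat_lit 655) (nat_lit 4622)))) (.f (nat_lit 623) (nat_lit 591) (nat_lit 4590) (.f (nat_lit 622) (nat_lit 655) (nat_lit 4622) (.d (nat_lit 493) (nat_lit 461) (nat_lit 7629) (nat_lit 525) (nat_lit 7661))))))))))))))) (.a (.p (nat_lit 590) (.a (.p (nat_lit 494) (.a (.f (nat_lit 589) (nat_lit 621) (nat_lit 5613) (.f (nat_lit 559) (nat_lit 561) (nat_lit 1581) (.d (nat_lit 557) (nat_lit 462) (nat_lit 5581) (nat_lit 588) (nat_lit 1580)))) (.f (nat_lit 495) (nat_lit 463) (nat_lit 6606) (.f (nat_lit 493) (nat_lit 461) (nat_lit 7629) (.d (nat_lit 527) (nat_lit 492) (nat_lit 492) (nat_lit 622) (nat_lit 6638)))))) (.a s108055 (.a (.p (nat_lit 494) (.a (.f (nat_lit 495) (nat_lit 463) (nat_lit 6606) (.f (nat_lit 493) (nat_lit 461) (nat_lit 7629) (.d (nat_lit 527) (nat_lit 492) (nat_lit 492) (nat_lit 622) (nat_lit 6638)))) (.a (.f (nat_lit 589) (nat_lit 621) (nat_lit 5613) (.f (nat_lit 462) (nat_lit 557) (nat_lit 5581) (.d (nat_lit 463) (nat_lit 431) (nat_lit 6574) (nat_lit 495) (nat_lit 6606)))) (.f (nat_lit 493) (nat_lit 461) (nat_lit 7629) (.f (nat_lit 525) (nat_lit 622) (nat_lit 7661) (.d (nat_lit 527) (nat_lit 492) (nat_lit 3564) (nat_lit 561) (nat_lit 525))))))) (.a s108034 (.a (.p (nat_lit 494) (.a (.f (nat_lit 495) (nat_lit 463) (nat_lit 6606) (.f (nat_lit 493) (nat_lit 461) (nat_lit 7629) (.d (nat_lit 527) (nat_lit 492) (nat_lit 492) (nat_lit 622) (nat_lit 6638)))) (.a (.f (nat_lit 463) (nat_lit 495) (nat_lit 6606) (.f (nat_lit 462) (nat_lit 431) (nat_lit 6574) (.d (nat_lit 461) (nat_lit 429) (nat_lit 7597) (nat_lit 493) (nat_lit 7629)))) (.a (.f (nat_lit 493) (nat_lit 461) (nat_lit 7629) (.f (nat_lit 525) (nat_lit 622) (nat_lit 7661) (.d (nat_lit 527) (nat_lit 492) (nat_lit 3564) (nat_lit 561) (nat_lit 525)))) (.f (nat_lit 495) (nat_lit 463) (nat_lit 6606) (.f (nat_lit 527) (nat_lit 622) (nat_lit 6638) (.f (nat_lit 525) (nat_lit 561) (nat_lit 525) (.d (nat_lit 524) (nat_lit 523) (nat_lit 2539) (nat_lit 559) (nat_lit 524))))))))) (.a s108043 (.a (.p (nat_lit 525) (.a (.d (nat_lit 561) (nat_lit 527) (nat_lit 525) (nat_lit 559) (nat_lit 3597)) (.a (.f (nat_lit 622) (nat_lit 493) (nat_lit 7661) (.f (nat_lit 559) (nat_lit 561) (nat_lit 3597) (.d (nat_lit 557) (nat_lit 524) (nat_lit 3596) (nat_lit 654) (nat_lit 7693)))) (.a (.f (nat_lit 527) (nat_lit 561) (nat_lit 525) (.d (nat_lit 493) (nat_lit 492) (nat_lit 3564) (nat_lit 622) (nat_lit 7661))) (.f (nat_lit 622) (nat_lit 493) (nat_lit 7661) (.f (nat_lit 527) (nat_lit 495) (nat_lit 6638) (.d (nat_lit 557) (nat_lit 556) (nat_lit 1548) (nat_lit 654) (nat_lit 7693)))))))) (.p (nat_lit 494) (.a (.f (nat_lit 589) (nat_lit 621) (nat_lit 5613) (.f (nat_lit 559) (nat_lit 561) (nat_lit 1581) (.d (nat_lit 557) (nat_lit 462) (nat_lit 5581) (nat_lit 588) (nat_lit 1580)))) (.a (.f (nat_lit 589) (nat_lit 621) (nat_lit 5613) (.f (nat_lit 462) (nat_lit 557) (nat_lit 5581) (.d (nat_lit 463) (nat_lit 431) (nat_lit 6574) (nat_lit 495) (nat_lit 6606)))) (.f (nat_lit 495) (nat_lit 463) (nat_lit 6606) (.f (nat_lit 527) (nat_lit 622) (nat_lit 6638) (.f (nat_lit 525) (nat_lit 561) (nat_lit 525) (.d (nat_lit 524) (nat_lit 523) (nat_lit 2539) (nat_lit 559) (nat_lit 524)))))))))))))))) (.a s108943 (.a s108098 (.a (.p (nat_lit 590) (.a (.p (nat_lit 494) (.a (.f (nat_lit 495) (nat_lit 463) (nat_lit 6606) (.f (nat_lit 493) (nat_lit 461) (nat_lit 7629) (.d (nat_lit 527) (nat_lit 492) (nat_lit 492) (nat_lit 622) (nat_lit 6638)))) (.a (.f (nat_lit 589) (nat_lit 621) (nat_lit 5613) (.f (nat_lit 462) (nat_lit 557) (nat_lit 5581) (.d (nat_lit 463) (nat_lit 431) (nat_lit 6574) (nat_lit 495) (nat_lit 6606)))) (.f (nat_lit 493) (nat_lit 461) (nat_lit 7629) (.f (nat_lit 525) (nat_lit 622) (nat_lit 7661) (.d (nat_lit 527) (nat_lit 492) (nat_lit 3564) (nat_lit 561) (nat_lit 525))))))) (.a (.p (nat_lit 494) (.a (.f (nat_lit 589) (nat_lit 621) (nat_lit 5613) (.f (nat_lit 462) (nat_lit 557) (nat_lit 5581) (.d (nat_lit 463) (nat_lit 431) (nat_lit 6574) (nat_lit 495) (nat_lit 6606)))) (.a (.f (nat_lit 589) (nat_lit 621) (nat_lit 5613) (.f (nat_lit 557) (nat_lit 462) (nat_lit 5581) (.f (nat_lit 493) (nat_lit 461) (nat_lit 7629) (.f (nat_lit 525) (nat_lit 622) (nat_lit 4589) (.f (nat_lit 588) (nat_lit 620) (nat_lit 5612) (.f (nat_lit 591) (nat_lit 623) (nat_lit 4590) (.f (nat_lit 555) (nat_lit 556) (nat_lit 3627) (.d (nat_lit 587) (nat_lit 554) (nat_lit 3626) (nat_lit 586) (nat_lit 2602))))))))) (.a (.f (nat_lit 463) (nat_lit 495) (nat_lit 6606) (.f (nat_lit 462) (nat_lit 431) (nat_lit 6574) (.d (nat_lit 461) (nat_lit 429) (nat_lit 7597) (nat_lit 493) (nat_lit 7629)))) (.f (nat_lit 621) (nat_lit 589) (nat_lit 5613) (.f (nat_lit 622) (nat_lit 653) (nat_lit 5645) (.d (nat_lit 623) (nat_lit 591) (nat_lit 4590) (nat_lit 655) (nat_lit 4622)))))))) (.a (.p (nat_lit 494) (.a (.f (nat_lit 495) (nat_lit 463) (nat_lit 6606) (.f (nat_lit 493) (nat_lit 461) (nat_lit 7629) (.d (nat_lit 527) (nat_lit 492) (nat_lit 492) (nat_lit 622) (nat_lit 6638)))) (.a (.f (nat_lit 589) (nat_lit 621) (nat_lit 5613) (.f (nat_lit 462) (nat_lit 557) (nat_lit 5581) (.d (nat_lit 463) (nat_lit 431) (nat_lit 6574) (nat_lit 495) (nat_lit 6606)))) (.f (nat_lit 589) (nat_lit 621) (nat_lit 5613) (.f (nat_lit 462) (nat_lit 557) (nat_lit 5581) (.d (nat_lit 461) (nat_lit 429) (nat_lit 7597) (nat_lit 493) (nat_lit 7629))))))) (.a s108106 (.a (.p (nat_lit 494) (.a (.f (nat_lit 495) (nat_lit 463) (nat_lit 6606) (.f (nat_lit 493) (nat_lit 461) (nat_lit 7629) (.d (nat_lit 527) (nat_lit 492) (nat_lit 492) (nat_lit 622) (nat_lit 6638)))) (.a (.f (nat_lit 463) (nat_lit 495) (nat_lit 6606) (.f (nat_lit 462) (nat_lit 431) (nat_lit 6574) (.d (nat_lit 461) (nat_lit 429) (nat_lit 7597) (nat_lit 493) (nat_lit 7629)))) (.a (.f (nat_lit 493) (nat_lit 461) (nat_lit 7629) (.f (nat_lit 525) (nat_lit 622) (nat_lit 7661) (.d (nat_lit 527) (nat_lit 492) (nat_lit 3564) (nat_lit 561) (nat_lit 525)))) (.f (nat_lit 495) (nat_lit 463) (nat_lit 6606) (.f (nat_lit 622) (nat_lit 527) (nat_lit 6638) (.d (nat_lit 621) (nat_lit 589) (nat_lit 5613) (nat_lit 653) (nat_lit 5645)))))))) (.a s108124 (.a (.p (nat_lit 494) (.a (.f (nat_lit 589) (nat_lit 621) (nat_lit 5613) (.f (nat_lit 462) (nat_lit 557) (nat_lit 5581) (.d (nat_lit 463) (nat_lit 431) (nat_lit 6574) (nat_lit 495) (nat_lit 6606)))) (.a (.f (nat_lit 589) (nat_lit 621) (nat_lit 5613) (.f (nat_lit 557) (nat_lit 462) (nat_lit 5581) (.f (nat_lit 623) (nat_lit 591) (nat_lit 4590) (.f (nat_lit 622) (nat_lit 655) (nat_lit 4622) (.d (nat_lit 654) (nat_lit 525) (nat_lit 7693) (nat_lit 686) (nat_lit 7725)))))) (.a (.f (nat_lit 495) (nat_lit 463) (nat_lit 6606) (.f (nat_lit 622) (nat_lit 527) (nat_lit 6638) (.d (nat_lit 621) (nat_lit 589) (nat_lit 5613) (nat_lit 653) (nat_lit 5645)))) (.f (nat_lit 495) (nat_lit 463) (nat_lit 6606) (.f (nat_lit 527) (nat_lit 622) (nat_lit 6638) (.f (nat_lit 525) (nat_lit 561) (nat_lit 525) (.f (nat_lit 557) (nat_lit 556) (nat_lit 1548) (.f (nat_lit 524) (nat_lit 523) (nat_lit 2539) (.f (nat_lit 462) (nat_lit 430) (nat_lit 5549) (.f (nat_lit 492) (nat_lit 491) (nat_lit 3563) (.f (nat_lit 460) (nat_lit 428) (nat_lit 4524) (.d (nat_lit 461) (nat_lit 429) (nat_lit 7597) (nat_lit 459) (nat_lit 459)))))))))))))) (.a (.p (nat_lit 494) (.a (.f (nat_lit 589) (nat_lit 621) (nat_lit 5613) (.f (nat_lit 462) (nat_lit 557) (nat_lit 5581) (.d (nat_lit 463) (nat_lit 431) (nat_lit 6574) (nat_lit 495) (nat_lit 6606)))) (.a (.f (nat_lit 589) (nat_lit 621) (nat_lit 5613) (.f (nat_lit 462) (nat_lit 557) (nat_lit 5581) (.d (nat_lit 461) (nat_lit 429) (nat_lit 7597) (nat_lit 493) (nat_lit 7629)))) (.a (.f (nat_lit 463) (nat_lit 495) (nat_lit 6606) (.f (nat_lit 462) (nat_lit 431) (nat_lit 6574) (.d (nat_lit 461) (nat_lit 429) (nat_lit 7597) (nat_lit 493) (nat_lit 7629)))) (.f (nat_lit 493) (nat_lit 461) (nat_lit 7629) (.f (nat_lit 495) (nat_lit 463) (nat_lit 6606) (.f (nat_lit 492) (nat_lit 527) (nat_lit 492) (.f (nat_lit 523) (nat_lit 524) (nat_lit 1515) (.f (nat_lit 491) (nat_lit 522) (nat_lit 1514) (.d (nat_lit 459) (nat_lit 458) (nat_lit 3530) (nat_lit 460) (nat_lit 3531))))))))))) (.a (.p (nat_lit 494) (.a (.f (nat_lit 589) (nat_lit 621) (nat_lit 5613) (.f (nat_lit 462) (nat_lit 557) (nat_lit 5581) (.d (nat_lit 463) (nat_lit 431) (nat_lit 6574) (nat_lit 495) (nat_lit 6606)))) (.a (.f (nat_lit 589) (nat_lit 621) (nat_lit 5613) (.f (nat_lit 557) (nat_lit 462) (nat_lit 5581) (.f (nat_lit 623) (nat_lit 591) (nat_lit 4590) (.f (nat_lit 622) (nat_lit 655) (nat_lit 4622) (.d (nat_lit 654) (nat_lit 525) (nat_lit 7693) (nat_lit 686) (nat_lit 7725)))))) (.a (.f (nat_lit 495) (nat_lit 463) (nat_lit 6606) (.f (nat_lit 622) (nat_lit 527) (nat_lit 6638) (.d (nat_lit 621) (nat_lit 589) (nat_lit 5613) (nat_lit 653) (nat_lit 5645)))) (.a (.f (nat_lit 623) (nat_lit 591) (nat_lit 4590) (.f (nat_lit 622) (nat_lit 655) (nat_lit 4622) (.f (nat_lit 653) (nat_lit 621) (nat_lit 5645) (.f (nat_lit 654) (nat_lit 685) (nat_lit 5677) (.d (nat_lit 525) (nat_lit 493) (nat_lit 7661) (nat_lit 557) (nat_lit 7693)))))) (.f (nat_lit 463) (nat_lit 495) (nat_lit 6606) (.f (nat_lit 462) (nat_lit 431) (nat_lit 6574) (.f (nat_lit 557) (nat_lit 589) (nat_lit 5581) (.f (nat_lit 525) (nat_lit 430) (nat_lit 5549) (.d (nat_lit 622) (nat_lit 493) (nat_lit 7661) (nat_lit 654) (nat_lit 7693))))))))))) (.p (nat_lit 494) (.a (.f (nat_lit 495) (nat_lit 463) (nat_lit 6606) (.f (nat_lit 493) (nat_lit 461) (nat_lit 7629) (.d (nat_lit 527) (nat_lit 492) (nat_lit 492) (nat_lit 622) (nat_lit 6638)))) (.a (.f (nat_lit 463) (nat_lit 495) (nat_lit 6606) (.f (nat_lit 462) (nat_lit 431) (nat_lit 6574) (.d (nat_lit 461) (nat_lit 429) (nat_lit 7597) (nat_lit 493) (nat_lit 7629)))) (.a (.f (nat_lit 493) (nat_lit 461) (nat_lit 7629) (.f (nat_lit 525) (nat_lit 622) (nat_lit 7661) (.d (nat_lit 527) (nat_lit 492) (nat_lit 3564) (nat_lit 561) (nat_lit 525)))) (.a (.f (nat_lit 495) (nat_lit 463) (nat_lit 6606) (.f (nat_lit 527) (nat_lit 622) (nat_lit 6638) (.f (nat_lit 525) (nat_lit 561) (nat_lit 525) (.f (nat_lit 557) (nat_lit 556) (nat_lit 1548) (.f (nat_lit 524) (nat_lit 523) (nat_lit 2539) (.f (nat_lit 462) (nat_lit 430) (nat_lit 5549) (.f (nat_lit 492) (nat_lit 491) (nat_lit 3563) (.f (nat_lit 460) (nat_lit 428) (nat_lit 4524) (.d (nat_lit 461) (nat_lit 429) (nat_lit 7597) (nat_lit 459) (nat_lit 459)))))))))) (.f (nat_lit 463) (nat_lit 495) (nat_lit 6606) (.f (nat_lit 462) (nat_lit 431) (nat_lit 6574) (.f (nat_lit 557) (nat_lit 589) (nat_lit 5581) (.f (nat_lit 525) (nat_lit 430) (nat_lit 5549) (.d (nat_lit 622) (nat_lit 493) (nat_lit 7661) (nat_lit 654) (nat_lit 7693))))))))))))))))))))) (.a (.p (nat_lit 494) (.a (.p (nat_lit 590) (.a (.f (nat_lit 495) (nat_lit 463) (nat_lit 6606) (.f (nat_lit 493) (nat_lit 461) (nat_lit 7629) (.d (nat_lit 527) (nat_lit 492) (nat_lit 492) (nat_lit 622) (nat_lit 6638)))) (.f (nat_lit 591) (nat_lit 623) (nat_lit 4590) (.f (nat_lit 559) (nat_lit 462) (nat_lit 4558) (.d (nat_lit 561) (nat_lit 525) (nat_lit 3597) (nat_lit 589) (nat_lit 1581)))))) (.a (.p (nat_lit 590) (.a (.f (nat_lit 591) (nat_lit 623) (nat_lit 4590) (.f (nat_lit 559) (nat_lit 462) (nat_lit 4558) (.d (nat_lit 561) (nat_lit 525) (nat_lit 3597) (nat_lit 589) (nat_lit 1581)))) (.a (.f (nat_lit 463) (nat_lit 495) (nat_lit 6606) (.f (nat_lit 462) (nat_lit 431) (nat_lit 6574) (.d (nat_lit 461) (nat_lit 429) (nat_lit 7597) (nat_lit 493) (nat_lit 7629)))) (.f (nat_lit 591) (nat_lit 623) (nat_lit 4590) (.f (nat_lit 589) (nat_lit 621) (nat_lit 5613) (.d (nat_lit 559) (nat_lit 561) (nat_lit 1581) (nat_lit 588) (nat_lit 2604))))))) (.a s108976 (.a (.p (nat_lit 462) (.a (.f (nat_lit 559) (nat_lit 591) (nat_lit 4558) (.f (nat_lit 527) (nat_lit 430) (nat_lit 4526) (.d (nat_lit 561) (nat_lit 525) (nat_lit 3597) (nat_lit 562) (nat_lit 3598)))) (.a (.f (nat_lit 431) (nat_lit 463) (nat_lit 6574) (.f (nat_lit 430) (nat_lit 399) (nat_lit 6542) (.d (nat_lit 429) (nat_lit 397) (nat_lit 7565) (nat_lit 461) (nat_lit 7597)))) (.f (nat_lit 559) (nat_lit 591) (nat_lit 4558) (.f (nat_lit 525) (nat_lit 561) (nat_lit 3597) (.d (nat_lit 524) (nat_lit 523) (nat_lit 523) (nat_lit 527) (nat_lit 524))))))) (.a (.p (nat_lit 590) (.a (.f (nat_lit 495) (nat_lit 463) (nat_lit 6606) (.f (nat_lit 493) (nat_lit 461) (nat_lit 7629) (.d (nat_lit 527) (nat_lit 492) (nat_lit 492) (nat_lit 622) (nat_lit 6638)))) (.f (nat_lit 591) (nat_lit 623) (nat_lit 4590) (.f (nat_lit 559) (nat_lit 462) (nat_lit 4558) (.d (nat_lit 589) (nat_lit 588) (nat_lit 2604) (nat_lit 621) (nat_lit 5613)))))) (.a s108977 (.a (.p (nat_lit 590) (.a (.f (nat_lit 591) (nat_lit 623) (nat_lit 4590) (.f (nat_lit 559) (nat_lit 462) (nat_lit 4558) (.d (nat_lit 561) (nat_lit 525) (nat_lit 3597) (nat_lit 589) (nat_lit 1581)))) (.a (.f (nat_lit 493) (nat_lit 461) (nat_lit 7629) (.f (nat_lit 525) (nat_lit 622) (nat_lit 7661) (.d (nat_lit 527) (nat_lit 492) (nat_lit 3564) (nat_lit 561) (nat_lit 525)))) (.f (nat_lit 591) (nat_lit 623) (nat_lit 4590) (.f (nat_lit 559) (nat_lit 462) (nat_lit 4558) (.d (nat_lit 589) (nat_lit 588) (nat_lit 2604) (nat_lit 621) (nat_lit 5613))))))) (.a (.p (nat_lit 590) (.a (.f (nat_lit 495) (nat_lit 463) (nat_lit 6606) (.f (nat_lit 493) (nat_lit 461) (nat_lit 7629) (.d (nat_lit 527) (nat_lit 492) (nat_lit 492) (nat_lit 622) (nat_lit 6638)))) (.f (nat_lit 591) (nat_lit 623) (nat_lit 4590) (.f (nat_lit 589) (nat_lit 621) (nat_lit 5613) (.d (nat_lit 559) (nat_lit 561) (nat_lit 1581) (nat_lit 588) (nat_lit 2604)))))) s108146))))))))) (.a (.p (nat_lit 494) (.a (.p (nat_lit 590) (.a (.f (nat_lit 495) (nat_lit 463) (nat_lit 6606) (.f (nat_lit 493) (nat_lit 461) (nat_lit 7629) (.d (nat_lit 527) (nat_lit 492) (nat_lit 492) (nat_lit 622) (nat_lit 6638)))) (.a (.f (nat_lit 589) (nat_lit 621) (nat_lit 5613) (.f (nat_lit 462) (nat_lit 557) (nat_lit 5581) (.d (nat_lit 463) (nat_lit 431) (nat_lit 6574) (nat_lit 495) (nat_lit 6606)))) (.f (nat_lit 591) (nat_lit 623) (nat_lit 4590) (.f (nat_lit 559) (nat_lit 462) (nat_lit 4558) (.d (nat_lit 589) (nat_lit 588) (nat_lit 2604) (nat_lit 621) (nat_lit 5613))))))) (.a s108923 (.a (.p (nat_lit 590) (.a (.f (nat_lit 495) (nat_lit 463) (nat_lit 6606) (.f (nat_lit 493) (nat_lit 461) (nat_lit 7629) (.d (nat_lit 527) (nat_lit 492) (nat_lit 492) (nat_lit 622) (nat_lit 6638)))) (.a (.f (nat_lit 589) (nat_lit 621) (nat_lit 5613) (.f (nat_lit 462) (nat_lit 557) (nat_lit 5581) (.d (nat_lit 463) (nat_lit 431) (nat_lit 6574) (nat_lit 495) (nat_lit 6606)))) (.f (nat_lit 589) (nat_lit 621) (nat_lit 5613) (.f (nat_lit 462) (nat_lit 557) (nat_lit 5581) (.d (nat_lit 461) (nat_lit 429) (nat_lit 7597) (nat_lit 493) (nat_lit 7629))))))) (.a s108087 (.a s108980 (.a (.p (nat_lit 590) (.a (.f (nat_lit 495) (nat_lit 463) (nat_lit 6606) (.f (nat_lit 493) (nat_lit 461) (nat_lit 7629) (.d (nat_lit 527) (nat_lit 492) (nat_lit 492) (nat_lit 622) (nat_lit 6638)))) (.f (nat_lit 591) (nat_lit 623) (nat_lit 4590) (.f (nat_lit 559) (nat_lit 462) (nat_lit 4558) (.d (nat_lit 589) (nat_lit 588) (nat_lit 2604) (nat_lit 621) (nat_lit 5613)))))) (.a (.p (nat_lit 590) (.a (.f (nat_lit 495) (nat_lit 463) (nat_lit 6606) (.f (nat_lit 493) (nat_lit 461) (nat_lit 7629) (.d (nat_lit 527) (nat_lit 492) (nat_lit 492) (nat_lit 622) (nat_lit 6638)))) (.a (.f (nat_lit 591) (nat_lit 623) (nat_lit 4590) (.f (nat_lit 462) (nat_lit 559) (nat_lit 4558) (.d (nat_lit 463) (nat_lit 431) (nat_lit 6574) (nat_lit 495) (nat_lit 6606)))) (.f (nat_lit 591) (nat_lit 623) (nat_lit 4590) (.f (nat_lit 462) (nat_lit 559) (nat_lit 4558) (.d (nat_lit 461) (nat_lit 429) (nat_lit 7597) (nat_lit 493) (nat_lit 7629))))))) (.a (.p (nat_lit 590) (.a (.f (nat_lit 495) (nat_lit 463) (nat_lit 6606) (.f (nat_lit 493) (nat_lit 461) (nat_lit 7629) (.d (nat_lit 527) (nat_lit 492) (nat_lit 492) (nat_lit 622) (nat_lit 6638)))) (.a (.f (nat_lit 621) (nat_lit 589) (nat_lit 5613) (.f (nat_lit 622) (nat_lit 653) (nat_lit 5645) (.d (nat_lit 623) (nat_lit 591) (nat_lit 4590) (nat_lit 655) (nat_lit 4622)))) (.f (nat_lit 591) (nat_lit 623) (nat_lit 4590) (.f (nat_lit 589) (nat_lit 621) (nat_lit 5613) (.f (nat_lit 588) (nat_lit 559) (nat_lit 2604) (.f (nat_lit 556) (nat_lit 555) (nat_lit 3627) (.f (nat_lit 557) (nat_lit 592) (nat_lit 3628) (.f (nat_lit 620) (nat_lit 619) (nat_lit 1611) (.d (nat_lit 493) (nat_lit 461) (nat_lit 7629) (nat_lit 525) (nat_lit 5612))))))))))) s108161))))))))) (.a (.p (nat_lit 494) (.a (.p (nat_lit 590) (.a (.f (nat_lit 495) (nat_lit 463) (nat_lit 6606) (.f (nat_lit 493) (nat_lit 461) (nat_lit 7629) (.d (nat_lit 527) (nat_lit 492) (nat_lit 492) (nat_lit 622) (nat_lit 6638)))) (.f (nat_lit 591) (nat_lit 623) (nat_lit 4590) (.f (nat_lit 559) (nat_lit 462) (nat_lit 4558) (.d (nat_lit 561) (nat_lit 525) (nat_lit 3597) (nat_lit 562) (nat_lit 1582)))))) (.a (.p (nat_lit 590) (.a (.f (nat_lit 591) (nat_lit 623) (nat_lit 4590) (.f (nat_lit 559) (nat_lit 462) (nat_lit 4558) (.d (nat_lit 561) (nat_lit 525) (nat_lit 3597) (nat_lit 562) (nat_lit 1582)))) (.a (.f (nat_lit 463) (nat_lit 495) (nat_lit 6606) (.f (nat_lit 462) (nat_lit 431) (nat_lit 6574) (.d (nat_lit 461) (nat_lit 429) (nat_lit 7597) (nat_lit 493) (nat_lit 7629)))) (.f (nat_lit 623) (nat_lit 591) (nat_lit 4590) (.f (nat_lit 622) (nat_lit 655) (nat_lit 4622) (.d (nat_lit 493) (nat_lit 461) (nat_lit 7629) (nat_lit 525) (nat_lit 7661))))))) (.a s108976 (.a (.p (nat_lit 462) (.a (.f (nat_lit 559) (nat_lit 591) (nat_lit 4558) (.f (nat_lit 527) (nat_lit 430) (nat_lit 4526) (.d (nat_lit 561) (nat_lit 525) (nat_lit 3597) (nat_lit 562) (nat_lit 3598)))) (.a (.f (nat_lit 431) (nat_lit 463) (nat_lit 6574) (.f (nat_lit 430) (nat_lit 399) (nat_lit 6542) (.d (nat_lit 429) (nat_lit 397) (nat_lit 7565) (nat_lit 461) (nat_lit 7597)))) (.f (nat_lit 559) (nat_lit 591) (nat_lit 4558) (.f (nat_lit 525) (nat_lit 561) (nat_lit 3597) (.d (nat_lit 524) (nat_lit 523) (nat_lit 523) (nat_lit 527) (nat_lit 524))))))) (.a (.p (nat_lit 590) (.a (.f (nat_lit 495) (nat_lit 463) (nat_lit 6606) (.f (nat_lit 493) (nat_lit 461) (nat_lit 7629) (.d (nat_lit 527) (nat_lit 492) (nat_lit 492) (nat_lit 622) (nat_lit 6638)))) (.a (.f (nat_lit 591) (nat_lit 623) (nat_lit 4590) (.f (nat_lit 462) (nat_lit 559) (nat_lit 4558) (.d (nat_lit 463) (nat_lit 431) (nat_lit 6574) (nat_lit 495) (nat_lit 6606)))) (.f (nat_lit 591) (nat_lit 623) (nat_lit 4590) (.f (nat_lit 462) (nat_lit 559) (nat_lit 4558) (.d (nat_lit 461) (nat_lit 429) (nat_lit 7597) (nat_lit 493) (nat_lit 7629))))))) (.a s108990 (.a (.p (nat_lit 590) (.a (.f (nat_lit 591) (nat_lit 623) (nat_lit 4590) (.f (nat_lit 559) (nat_lit 462) (nat_lit 4558) (.d (nat_lit 561) (nat_lit 525) (nat_lit 3597) (nat_lit 562) (nat_lit 1582)))) (.a (.f (nat_lit 493) (nat_lit 461) (nat_lit 7629) (.f (nat_lit 525) (nat_lit 622) (nat_lit 7661) (.d (nat_lit 527) (nat_lit 492) (nat_lit 3564) (nat_lit 561) (nat_lit 525)))) (.f (nat_lit 591) (nat_lit 623) (nat_lit 4590) (.f (nat_lit 462) (nat_lit 559) (nat_lit 4558) (.d (nat_lit 461) (nat_lit 429) (nat_lit 7597) (nat_lit 493) (nat_lit 7629))))))) (.a s108991 s108992))))))))) (.a (.p (nat_lit 525) (.a (.f (nat_lit 559) (nat_lit 561) (nat_lit 3597) (.d (nat_lit 524) (nat_lit 523) (nat_lit 523) (nat_lit 557) (nat_lit 3596))) (.a (.f (nat_lit 527) (nat_lit 561) (nat_lit 525) (.f (nat_lit 557) (nat_lit 556) (nat_lit 1548) (.f (nat_lit 493) (nat_lit 492) (nat_lit 3564) (.d (nat_lit 461) (nat_lit 429) (nat_lit 4525) (nat_lit 590) (nat_lit 4557))))) (.a (.d (nat_lit 561) (nat_lit 527) (nat_lit 525) (nat_lit 559) (nat_lit 3597)) (.p (nat_lit 557) (.a (.f (nat_lit 527) (nat_lit 556) (nat_lit 1548) (.f (nat_lit 524) (nat_lit 559) (nat_lit 524) (.d (nat_lit 492) (nat_lit 491) (nat_lit 3563) (nat_lit 493) (nat_lit 3564)))) (.a (.f (nat_lit 559) (nat_lit 524) (nat_lit 3596) (.f (nat_lit 589) (nat_lit 588) (nat_lit 1580) (.f (nat_lit 621) (nat_lit 653) (nat_lit 6669) (.f (nat_lit 622) (nat_lit 654) (nat_lit 4621) (.f (nat_lit 493) (nat_lit 590) (nat_lit 4589) (.f (nat_lit 461) (nat_lit 429) (nat_lit 4525) (.d (nat_lit 460) (nat_lit 428) (nat_lit 7596) (nat_lit 492) (nat_lit 7628)))))))) (.a (.f (nat_lit 527) (nat_lit 556) (nat_lit 1548) (.f (nat_lit 493) (nat_lit 492) (nat_lit 3564) (.d (nat_lit 461) (nat_lit 429) (nat_lit 4525) (nat_lit 590) (nat_lit 4557)))) (.f (nat_lit 556) (nat_lit 527) (nat_lit 1548) (.f (nat_lit 559) (nat_lit 524) (nat_lit 3596) (.d (nat_lit 588) (nat_lit 587) (nat_lit 1579) (nat_lit 589) (nat_lit 1580)))))))))))) (.a (.p (nat_lit 494) (.a s107967 (.a (.p (nat_lit 590) (.a (.f (nat_lit 589) (nat_lit 621) (nat_lit 5613) (.f (nat_lit 559) (nat_lit 561) (nat_lit 1581) (.d (nat_lit 557) (nat_lit 462) (nat_lit 5581) (nat_lit 588) (nat_lit 1580)))) (.a (.f (nat_lit 589) (nat_lit 621) (nat_lit 5613) (.f (nat_lit 462) (nat_lit 557) (nat_lit 5581) (.d (nat_lit 463) (nat_lit 431) (nat_lit 6574) (nat_lit 495) (nat_lit 6606)))) (.f (nat_lit 495) (nat_lit 463) (nat_lit 6606) (.f (nat_lit 527) (nat_lit 622) (nat_lit 6638) (.f (nat_lit 525) (nat_lit 561) (nat_lit 525) (.d (nat_lit 524) (nat_lit 523) (nat_lit 2539) (nat_lit 559) (nat_lit 524)))))))) (.a s107983 (.a s108011 (.a (.p (nat_lit 590) (.a (.f (nat_lit 589) (nat_lit 621) (nat_lit 5613) (.f (nat_lit 462) (nat_lit 557) (nat_lit 5581) (.d (nat_lit 463) (nat_lit 431) (nat_lit 6574) (nat_lit 495) (nat_lit 6606)))) (.a (.f (nat_lit 589) (nat_lit 621) (nat_lit 5613) (.f (nat_lit 557) (nat_lit 462) (nat_lit 5581) (.f (nat_lit 623) (nat_lit 591) (nat_lit 4590) (.f (nat_lit 622) (nat_lit 655) (nat_lit 4622) (.d (nat_lit 654) (nat_lit 525) (nat_lit 7693) (nat_lit 686) (nat_lit 7725)))))) (.a (.f (nat_lit 495) (nat_lit 463) (nat_lit 6606) (.f (nat_lit 622) (nat_lit 527) (nat_lit 6638) (.d (nat_lit 621) (nat_lit 589) (nat_lit 5613) (nat_lit 653) (nat_lit 5645)))) (.f (nat_lit 495) (nat_lit 463) (nat_lit 6606) (.f (nat_lit 527) (nat_lit 622) (nat_lit 6638) (.f (nat_lit 525) (nat_lit 561) (nat_lit 525) (.f (nat_lit 557) (nat_lit 556) (nat_lit 1548) (.f (nat_lit 524) (nat_lit 523) (nat_lit 2539) (.f (nat_lit 462) (nat_lit 430) (nat_lit 5549) (.f (nat_lit 492) (nat_lit 491) (nat_lit 3563) (.f (nat_lit 460) (nat_lit 428) (nat_lit 4524) (.d (nat_lit 461) (nat_lit 429) (nat_lit 7597) (nat_lit 459) (nat_lit 459)))))))))))))) (.a (.p (nat_lit 462) (.a (.f (nat_lit 559) (nat_lit 591) (nat_lit 4558) (.f (nat_lit 527) (nat_lit 430) (nat_lit 4526) (.d (nat_lit 561) (nat_lit 525) (nat_lit 3597) (nat_lit 562) (nat_lit 3598)))) (.a (.f (nat_lit 431) (nat_lit 463) (nat_lit 6574) (.f (nat_lit 430) (nat_lit 399) (nat_lit 6542) (.d (nat_lit 429) (nat_lit 397) (nat_lit 7565) (nat_lit 461) (nat_lit 7597)))) (.f (nat_lit 559) (nat_lit 591) (nat_lit 4558) (.f (nat_lit 525) (nat_lit 561) (nat_lit 3597) (.d (nat_lit 524) (nat_lit 523) (nat_lit 523) (nat_lit 527) (nat_lit 524))))))) (.a s108087 (.p (nat_lit 590) (.a (.f (nat_lit 589) (nat_lit 621) (nat_lit 5613) (.f (nat_lit 559) (nat_lit 561) (nat_lit 1581) (.d (nat_lit 588) (nat_lit 557) (nat_lit 1580) (nat_lit 587) (nat_lit 2603)))) (.a (.f (nat_lit 495) (nat_lit 463) (nat_lit 6606) (.f (nat_lit 622) (nat_lit 527) (nat_lit 6638) (.d (nat_lit 621) (nat_lit 589) (nat_lit 5613) (nat_lit 653) (nat_lit 5645)))) (.f (nat_lit 495) (nat_lit 463) (nat_lit 6606) (.f (nat_lit 527) (nat_lit 622) (nat_lit 6638) (.f (nat_lit 525) (nat_lit 561) (nat_lit 525) (.d (nat_lit 524) (nat_lit 523) (nat_lit 2539) (nat_lit 559) (nat_lit 524)))))))))))))))) (.a (.p (nat_lit 494) (.a s107967 (.a (.p (nat_lit 590) (.a (.f (nat_lit 589) (nat_lit 621) (nat_lit 5613) (.f (nat_lit 559) (nat_lit 561) (nat_lit 1581) (.d (nat_lit 557) (nat_lit 462) (nat_lit 5581) (nat_lit 588) (nat_lit 1580)))) (.a (.f (nat_lit 589) (nat_lit 621) (nat_lit 5613) (.f (nat_lit 462) (nat_lit 557) (nat_lit 5581) (.d (nat_lit 463) (nat_lit 431) (nat_lit 6574) (nat_lit 495) (nat_lit 6606)))) (.f (nat_lit 495) (nat_lit 463) (nat_lit 6606) (.f (nat_lit 527) (nat_lit 622) (nat_lit 6638) (.f (nat_lit 525) (nat_lit 561) (nat_lit 525) (.d (nat_lit 524) (nat_lit 523) (nat_lit 2539) (nat_lit 559) (nat_lit 524)))))))) (.a s107983 (.a s108011 (.a s109000 (.a s108146 (.a s108992 (.p (nat_lit 590) (.a (.f (nat_lit 589) (nat_lit 621) (nat_lit 5613) (.f (nat_lit 559) (nat_lit 561) (nat_lit 1581) (.d (nat_lit 588) (nat_lit 557) (nat_lit 1580) (nat_lit 587) (nat_lit 2603)))) (.a (.f (nat_lit 495) (nat_lit 463) (nat_lit 6606) (.f (nat_lit 622) (nat_lit 527) (nat_lit 6638) (.d (nat_lit 621) (nat_lit 589) (nat_lit 5613) (nat_lit 653) (nat_lit 5645)))) (.f (nat_lit 495) (nat_lit 463) (nat_lit 6606) (.f (nat_lit 527) (nat_lit 622) (nat_lit 6638) (.f (nat_lit 525) (nat_lit 561) (nat_lit 525) (.d (nat_lit 524) (nat_lit 523) (nat_lit 2539) (nat_lit 559) (nat_lit 524)))))))))))))))) (.a (.p (nat_lit 494) (.a s107983 (.a (.p (nat_lit 462) (.a (.f (nat_lit 559) (nat_lit 591) (nat_lit 4558) (.f (nat_lit 525) (nat_lit 561) (nat_lit 3597) (.d (nat_lit 557) (nat_lit 524) (nat_lit 3596) (nat_lit 589) (nat_lit 5581)))) (.a (.f (nat_lit 557) (nat_lit 589) (nat_lit 5581) (.f (nat_lit 525) (nat_lit 430) (nat_lit 5549) (.d (nat_lit 559) (nat_lit 524) (nat_lit 3596) (nat_lit 561) (nat_lit 3597)))) (.f (nat_lit 431) (nat_lit 463) (nat_lit 6574) (.f (nat_lit 430) (nat_lit 399) (nat_lit 6542) (.d (nat_lit 429) (nat_lit 397) (nat_lit 7565) (nat_lit 461) (nat_lit 7597))))))) (.a s108976 (.a s108087 (.a (.p (nat_lit 590) (.a (.f (nat_lit 495) (nat_lit 463) (nat_lit 6606) (.f (nat_lit 493) (nat_lit 461) (nat_lit 7629) (.d (nat_lit 527) (nat_lit 492) (nat_lit 492) (nat_lit 622) (nat_lit 6638)))) (.a (.f (nat_lit 463) (nat_lit 495) (nat_lit 6606) (.f (nat_lit 462) (nat_lit 431) (nat_lit 6574) (.d (nat_lit 461) (nat_lit 429) (nat_lit 7597) (nat_lit 493) (nat_lit 7629)))) (.a (.f (nat_lit 493) (nat_lit 461) (nat_lit 7629) (.f (nat_lit 525) (nat_lit 622) (nat_lit 7661) (.d (nat_lit 527) (nat_lit 492) (nat_lit 3564) (nat_lit 561) (nat_lit 525)))) (.a (.f (nat_lit 495) (nat_lit 463) (nat_lit 6606) (.f (nat_lit 527) (nat_lit 622) (nat_lit 6638) (.f (nat_lit 525) (nat_lit 561) (nat_lit 525) (.f (nat_lit 557) (nat_lit 556) (nat_lit 1548) (.f (nat_lit 524) (nat_lit 523) (nat_lit 2539) (.f (nat_lit 462) (nat_lit 430) (nat_lit 5549) (.f (nat_lit 492) (nat_lit 491) (nat_lit 3563) (.f (nat_lit 460) (nat_lit 428) (nat_lit 4524) (.d (nat_lit 461) (nat_lit 429) (nat_lit 7597) (nat_lit 459) (nat_lit 459)))))))))) (.f (nat_lit 463) (nat_lit 495) (nat_lit 6606) (.f (nat_lit 462) (nat_lit 431) (nat_lit 6574) (.f (nat_lit 557) (nat_lit 589) (nat_lit 5581) (.f (nat_lit 525) (nat_lit 430) (nat_lit 5549) (.d (nat_lit 622) (nat_lit 493) (nat_lit 7661) (nat_lit 654) (nat_lit 7693))))))))))) (.a s108991 (.p (nat_lit 590) (.a (.f (nat_lit 495) (nat_lit 463) (nat_lit 6606) (.f (nat_lit 493) (nat_lit 461) (nat_lit 7629) (.d (nat_lit 527) (nat_lit 492) (nat_lit 492) (nat_lit 622) (nat_lit 6638)))) (.f (nat_lit 591) (nat_lit 623) (nat_lit 4590) (.f (nat_lit 559) (nat_lit 462) (nat_lit 4558) (.d (nat_lit 561) (nat_lit 525) (nat_lit 3597) (nat_lit 589) (nat_lit 1581))))))))))))) s108197)))))))))))))) (.a (.p (nat_lit 496) (.a s108367 (.a s109019 (.a s109034 (.a (.p (nat_lit 495) (.a s109035 (.a (.p (nat_lit 525) (.a (.f (nat_lit 494) (nat_lit 497) (nat_lit 1517) (.d (nat_lit 524) (nat_lit 493) (nat_lit 1516) (nat_lit 523) (nat_lit 2539))) (.a (.d (nat_lit 527) (nat_lit 497) (nat_lit 2541) (nat_lit 561) (nat_lit 525)) (.d (nat_lit 527) (nat_lit 524) (nat_lit 2540) (nat_lit 561) (nat_lit 525))))) (.f (nat_lit 463) (nat_lit 592) (nat_lit 7631) (.d (nat_lit 431) (nat_lit 399) (nat_lit 4495) (nat_lit 527) (nat_lit 4527)))))) (.a (.p (nat_lit 497) (.a (.f (nat_lit 527) (nat_lit 525) (nat_lit 2541) (.d (nat_lit 498) (nat_lit 495) (nat_lit 1518) (nat_lit 499) (nat_lit 1519))) (.f (nat_lit 465) (nat_lit 592) (nat_lit 6608) (.d (nat_lit 433) (nat_lit 401) (nat_lit 5520) (nat_lit 464) (nat_lit 6576))))) (.a s109045 (.a (.p (nat_lit 525) (.a (.p (nat_lit 495) (.a (.f (nat_lit 494) (nat_lit 497) (nat_lit 1517) (.d (nat_lit 524) (nat_lit 493) (nat_lit 1516) (nat_lit 523) (nat_lit 2539))) (.f (nat_lit 463) (nat_lit 592) (nat_lit 7631) (.d (nat_lit 431) (nat_lit 399) (nat_lit 4495) (nat_lit 464) (nat_lit 7599))))) (.a (.d (nat_lit 527) (nat_lit 497) (nat_lit 2541) (nat_lit 561) (nat_lit 525)) (.f (nat_lit 527) (nat_lit 561) (nat_lit 525) (.d (nat_lit 524) (nat_lit 495) (nat_lit 2540) (nat_lit 559) (nat_lit 524)))))) s109063)))))))) (.a (.p (nat_lit 496) (.a (.p (nat_lit 464) (.a (.f (nat_lit 559) (nat_lit 591) (nat_lit 5583) (.f (nat_lit 527) (nat_lit 432) (nat_lit 5551) (.d (nat_lit 525) (nat_lit 524) (nat_lit 524) (nat_lit 561) (nat_lit 525)))) (.f (nat_lit 465) (nat_lit 433) (nat_lit 6576) (.f (nat_lit 463) (nat_lit 431) (nat_lit 7599) (.d (nat_lit 592) (nat_lit 495) (nat_lit 7631) (nat_lit 497) (nat_lit 6608)))))) (.a s109019 (.a s108202 (.a (.p (nat_lit 495) (.a (.f (nat_lit 463) (nat_lit 592) (nat_lit 7631) (.d (nat_lit 431) (nat_lit 399) (nat_lit 4495) (nat_lit 527) (nat_lit 4527))) (.a (.p (nat_lit 525) (.a (.f (nat_lit 494) (nat_lit 497) (nat_lit 1517) (.d (nat_lit 524) (nat_lit 493) (nat_lit 1516) (nat_lit 523) (nat_lit 2539))) (.a (.d (nat_lit 527) (nat_lit 497) (nat_lit 2541) (nat_lit 561) (nat_lit 525)) (.d (nat_lit 527) (nat_lit 524) (nat_lit 2540) (nat_lit 561) (nat_lit 525))))) (.p (nat_lit 497) (.a (.f (nat_lit 465) (nat_lit 592) (nat_lit 6608) (.d (nat_lit 494) (nat_lit 466) (nat_lit 2510) (nat_lit 525) (nat_lit 1517))) (.a (.f (nat_lit 494) (nat_lit 525) (nat_lit 1517) (.f (nat_lit 462) (nat_lit 461) (nat_lit 3533) (.f (nat_lit 463) (nat_lit 498) (nat_lit 3534) (.d (nat_lit 431) (nat_lit 399) (nat_lit 4495) (nat_lit 558) (nat_lit 6574))))) (.d (nat_lit 592) (nat_lit 463) (nat_lit 7631) (nat_lit 465) (nat_lit 6608)))))))) (.a (.p (nat_lit 497) (.a (.f (nat_lit 527) (nat_lit 525) (nat_lit 2541) (.d (nat_lit 498) (nat_lit 495) (nat_lit 1518) (nat_lit 499) (nat_lit 1519))) (.f (nat_lit 465) (nat_lit 592) (nat_lit 6608) (.d (nat_lit 433) (nat_lit 401) (nat_lit 5520) (nat_lit 464) (nat_lit 6576))))) (.a s109045 (.a (.p (nat_lit 525) (.a (.p (nat_lit 495) (.a (.f (nat_lit 494) (nat_lit 497) (nat_lit 1517) (.d (nat_lit 524) (nat_lit 493) (nat_lit 1516) (nat_lit 523) (nat_lit 2539))) (.f (nat_lit 463) (nat_lit 592) (nat_lit 7631) (.d (nat_lit 431) (nat_lit 399) (nat_lit 4495) (nat_lit 464) (nat_lit 7599))))) (.a (.d (nat_lit 527) (nat_lit 497) (nat_lit 2541) (nat_lit 561) (nat_lit 525)) (.f (nat_lit 527) (nat_lit 561) (nat_lit 525) (.d (nat_lit 524) (nat_lit 495) (nat_lit 2540) (nat_lit 559) (nat_lit 524)))))) s109063)))))))) (.a (.p (nat_lit 496) (.a s108202 (.a (.p (nat_lit 494) (.a (.p (nat_lit 558) (.a s108217 (.a (.p (nat_lit 590) (.a (.f (nat_lit 589) (nat_lit 621) (nat_lit 5613) (.f (nat_lit 559) (nat_lit 561) (nat_lit 1581) (.d (nat_lit 557) (nat_lit 462) (nat_lit 5581) (nat_lit 588) (nat_lit 1580)))) (.a (.f (nat_lit 461) (nat_lit 493) (nat_lit 7629) (.f (nat_lit 462) (nat_lit 429) (nat_lit 7597) (.d (nat_lit 463) (nat_lit 431) (nat_lit 6574) (nat_lit 495) (nat_lit 6606)))) (.f (nat_lit 589) (nat_lit 621) (nat_lit 5613) (.f (nat_lit 559) (nat_lit 561) (nat_lit 1581) (.d (nat_lit 588) (nat_lit 557) (nat_lit 1580) (nat_lit 587) (nat_lit 2603))))))) (.a s108250 (.p (nat_lit 590) (.a (.f (nat_lit 589) (nat_lit 621) (nat_lit 5613) (.f (nat_lit 559) (nat_lit 561) (nat_lit 1581) (.d (nat_lit 588) (nat_lit 557) (nat_lit 1580) (nat_lit 587) (nat_lit 2603)))) (.a (.f (nat_lit 621) (nat_lit 589) (nat_lit 5613) (.f (nat_lit 622) (nat_lit 653) (nat_lit 5645) (.d (nat_lit 623) (nat_lit 591) (nat_lit 4590) (nat_lit 655) (nat_lit 4622)))) (.f (nat_lit 591) (nat_lit 623) (nat_lit 4590) (.f (nat_lit 464) (nat_lit 559) (nat_lit 5583) (.d (nat_lit 463) (nat_lit 431) (nat_lit 7599) (nat_lit 495) (nat_lit 6606))))))))))) (.a (.p (nat_lit 464) (.a (.f (nat_lit 465) (nat_lit 433) (nat_lit 6576) (.f (nat_lit 495) (nat_lit 493) (nat_lit 2509) (.d (nat_lit 466) (nat_lit 463) (nat_lit 1486) (nat_lit 467) (nat_lit 1487)))) (.a (.f (nat_lit 465) (nat_lit 433) (nat_lit 6576) (.f (nat_lit 495) (nat_lit 493) (nat_lit 2509) (.d (nat_lit 466) (nat_lit 467) (nat_lit 1487) (nat_lit 497) (nat_lit 2510)))) (.a (.f (nat_lit 431) (nat_lit 463) (nat_lit 7599) (.f (nat_lit 432) (nat_lit 399) (nat_lit 7567) (.d (nat_lit 433) (nat_lit 401) (nat_lit 6544) (nat_lit 465) (nat_lit 6576)))) (.f (nat_lit 431) (nat_lit 463) (nat_lit 7599) (.f (nat_lit 432) (nat_lit 399) (nat_lit 7567) (.f (nat_lit 527) (nat_lit 559) (nat_lit 5551) (.f (nat_lit 495) (nat_lit 400) (nat_lit 5519) (.f (nat_lit 493) (nat_lit 492) (nat_lit 492) (.f (nat_lit 461) (nat_lit 460) (nat_lit 3532) (.d (nat_lit 497) (nat_lit 462) (nat_lit 3533) (nat_lit 498) (nat_lit 1518)))))))))))) (.a (.p (nat_lit 558) (.a (.p (nat_lit 590) (.a (.f (nat_lit 589) (nat_lit 621) (nat_lit 5613) (.f (nat_lit 559) (nat_lit 561) (nat_lit 1581) (.d (nat_lit 557) (nat_lit 462) (nat_lit 5581) (nat_lit 588) (nat_lit 1580)))) (.a (.f (nat_lit 461) (nat_lit 493) (nat_lit 7629) (.f (nat_lit 462) (nat_lit 429) (nat_lit 7597) (.d (nat_lit 463) (nat_lit 431) (nat_lit 6574) (nat_lit 495) (nat_lit 6606)))) (.f (nat_lit 589) (nat_lit 621) (nat_lit 5613) (.f (nat_lit 559) (nat_lit 561) (nat_lit 1581) (.d (nat_lit 588) (nat_lit 557) (nat_lit 1580) (nat_lit 587) (nat_lit 2603))))))) (.a (.p (nat_lit 462) (.a (.f (nat_lit 461) (nat_lit 429) (nat_lit 7597) (.f (nat_lit 495) (nat_lit 497) (nat_lit 3533) (.d (nat_lit 460) (nat_lit 459) (nat_lit 459) (nat_lit 493) (nat_lit 3532)))) (.a (.f (nat_lit 431) (nat_lit 463) (nat_lit 6574) (.f (nat_lit 430) (nat_lit 399) (nat_lit 6542) (.d (nat_lit 429) (nat_lit 397) (nat_lit 7565) (nat_lit 461) (nat_lit 7597)))) (.f (nat_lit 559) (nat_lit 591) (nat_lit 4558) (.f (nat_lit 527) (nat_lit 430) (nat_lit 4526) (.d (nat_lit 557) (nat_lit 556) (nat_lit 2572) (nat_lit 589) (nat_lit 5581))))))) (.a (.p (nat_lit 590) (.a (.f (nat_lit 461) (nat_lit 493) (nat_lit 7629) (.f (nat_lit 462) (nat_lit 429) (nat_lit 7597) (.d (nat_lit 463) (nat_lit 431) (nat_lit 6574) (nat_lit 495) (nat_lit 6606)))) (.a (.f (nat_lit 461) (nat_lit 493) (nat_lit 7629) (.f (nat_lit 462) (nat_lit 429) (nat_lit 7597) (.d (nat_lit 589) (nat_lit 557) (nat_lit 5581) (nat_lit 621) (nat_lit 5613)))) (.f (nat_lit 621) (nat_lit 589) (nat_lit 5613) (.f (nat_lit 622) (nat_lit 653) (nat_lit 5645) (.d (nat_lit 623) (nat_lit 591) (nat_lit 4590) (nat_lit 655) (nat_lit 4622))))))) (.a s108423 (.a (.p (nat_lit 590) (.a (.f (nat_lit 461) (nat_lit 493) (nat_lit 7629) (.f (nat_lit 462) (nat_lit 429) (nat_lit 7597) (.d (nat_lit 463) (nat_lit 431) (nat_lit 6574) (nat_lit 495) (nat_lit 6606)))) (.f (nat_lit 621) (nat_lit 589) (nat_lit 5613) (.f (nat_lit 622) (nat_lit 653) (nat_lit 5645) (.d (nat_lit 623) (nat_lit 591) (nat_lit 4590) (nat_lit 655) (nat_lit 4622)))))) (.a (.p (nat_lit 590) (.a (.f (nat_lit 461) (nat_lit 493) (nat_lit 7629) (.f (nat_lit 462) (nat_lit 429) (nat_lit 7597) (.d (nat_lit 463) (nat_lit 431) (nat_lit 6574) (nat_lit 495) (nat_lit 6606)))) (.a (.f (nat_lit 591) (nat_lit 623) (nat_lit 4590) (.f (nat_lit 462) (nat_lit 559) (nat_lit 4558) (.d (nat_lit 461) (nat_lit 429) (nat_lit 7597) (nat_lit 493) (nat_lit 7629)))) (.a (.f (nat_lit 495) (nat_lit 463) (nat_lit 6606) (.f (nat_lit 493) (nat_lit 461) (nat_lit 7629) (.d (nat_lit 527) (nat_lit 492) (nat_lit 492) (nat_lit 622) (nat_lit 6638)))) (.f (nat_lit 591) (nat_lit 623) (nat_lit 4590) (.f (nat_lit 462) (nat_lit 559) (nat_lit 4558) (.d (nat_lit 463) (nat_lit 431) (nat_lit 6574) (nat_lit 495) (nat_lit 6606)))))))) (.a (.p (nat_lit 590) (.a (.f (nat_lit 589) (nat_lit 621) (nat_lit 5613) (.f (nat_lit 559) (nat_lit 561) (nat_lit 1581) (.d (nat_lit 588) (nat_lit 557) (nat_lit 1580) (nat_lit 587) (nat_lit 2603)))) (.f (nat_lit 495) (nat_lit 463) (nat_lit 6606) (.f (nat_lit 493) (nat_lit 461) (nat_lit 7629) (.d (nat_lit 527) (nat_lit 492) (nat_lit 492) (nat_lit 622) (nat_lit 6638)))))) (.p (nat_lit 590) (.a (.f (nat_lit 589) (nat_lit 621) (nat_lit 5613) (.f (nat_lit 559) (nat_lit 561) (nat_lit 1581) (.d (nat_lit 557) (nat_lit 462) (nat_lit 5581) (nat_lit 588) (nat_lit 1580)))) (.a (.f (nat_lit 621) (nat_lit 589) (nat_lit 5613) (.f (nat_lit 622) (nat_lit 653) (nat_lit 5645) (.d (nat_lit 623) (nat_lit 591) (nat_lit 4590) (nat_lit 655) (nat_lit 4622)))) (.f (nat_lit 591) (nat_lit 623) (nat_lit 4590) (.f (nat_lit 462) (nat_lit 559) (nat_lit 4558) (.d (nat_lit 463) (nat_lit 431) (nat_lit 6574) (nat_lit 495) (nat_lit 6606))))))))))))))) (.a s109111 (.a (.p (nat_lit 558) (.a s108250 (.a (.p (nat_lit 590) (.a (.f (nat_lit 589) (nat_lit 621) (nat_lit 5613) (.f (nat_lit 559) (nat_lit 561) (nat_lit 1581) (.d (nat_lit 557) (nat_lit 462) (nat_lit 5581) (nat_lit 588) (nat_lit 1580)))) (.a (.f (nat_lit 461) (nat_lit 493) (nat_lit 7629) (.f (nat_lit 462) (nat_lit 429) (nat_lit 7597) (.d (nat_lit 589) (nat_lit 557) (nat_lit 5581) (nat_lit 621) (nat_lit 5613)))) (.a (.f (nat_lit 461) (nat_lit 493) (nat_lit 7629) (.f (nat_lit 462) (nat_lit 429) (nat_lit 7597) (.f (nat_lit 495) (nat_lit 497) (nat_lit 3533) (.f (nat_lit 527) (nat_lit 622) (nat_lit 6638) (.d (nat_lit 430) (nat_lit 398) (nat_lit 4494) (nat_lit 559) (nat_lit 4526)))))) (.f (nat_lit 589) (nat_lit 621) (nat_lit 5613) (.f (nat_lit 559) (nat_lit 561) (nat_lit 1581) (.d (nat_lit 588) (nat_lit 557) (nat_lit 1580) (nat_lit 587) (nat_lit 2603)))))))) (.a (.p (nat_lit 464) (.a (.f (nat_lit 465) (nat_lit 433) (nat_lit 6576) (.f (nat_lit 495) (nat_lit 493) (nat_lit 2509) (.d (nat_lit 466) (nat_lit 467) (nat_lit 1487) (nat_lit 497) (nat_lit 2510)))) (.f (nat_lit 559) (nat_lit 591) (nat_lit 5583) (.f (nat_lit 527) (nat_lit 432) (nat_lit 5551) (.f (nat_lit 557) (nat_lit 556) (nat_lit 2572) (.d (nat_lit 462) (nat_lit 430) (nat_lit 4526) (nat_lit 589) (nat_lit 5581))))))) (.a s109097 (.a (.p (nat_lit 590) (.a (.f (nat_lit 591) (nat_lit 623) (nat_lit 4590) (.d (nat_lit 559) (nat_lit 462) (nat_lit 4558) (nat_lit 464) (nat_lit 5583))) (.a (.f (nat_lit 461) (nat_lit 493) (nat_lit 7629) (.f (nat_lit 462) (nat_lit 429) (nat_lit 7597) (.f (nat_lit 495) (nat_lit 497) (nat_lit 3533) (.f (nat_lit 527) (nat_lit 622) (nat_lit 6638) (.d (nat_lit 430) (nat_lit 398) (nat_lit 4494) (nat_lit 559) (nat_lit 4526)))))) (.f (nat_lit 621) (nat_lit 589) (nat_lit 5613) (.f (nat_lit 622) (nat_lit 653) (nat_lit 5645) (.d (nat_lit 623) (nat_lit 591) (nat_lit 4590) (nat_lit 655) (nat_lit 4622))))))) (.a (.p (nat_lit 590) (.a (.f (nat_lit 591) (nat_lit 623) (nat_lit 4590) (.d (nat_lit 559) (nat_lit 462) (nat_lit 4558) (nat_lit 464) (nat_lit 5583))) (.a (.f (nat_lit 461) (nat_lit 493) (nat_lit 7629) (.f (nat_lit 462) (nat_lit 429) (nat_lit 7597) (.f (nat_lit 495) (nat_lit 497) (nat_lit 3533) (.f (nat_lit 527) (nat_lit 622) (nat_lit 6638) (.d (nat_lit 430) (nat_lit 398) (nat_lit 4494) (nat_lit 559) (nat_lit 4526)))))) (.a (.f (nat_lit 461) (nat_lit 493) (nat_lit 7629) (.f (nat_lit 462) (nat_lit 429) (nat_lit 7597) (.f (nat_lit 495) (nat_lit 497) (nat_lit 3533) (.f (nat_lit 622) (nat_lit 527) (nat_lit 6638) (.d (nat_lit 623) (nat_lit 591) (nat_lit 4590) (nat_lit 655) (nat_lit 4622)))))) (.f (nat_lit 591) (nat_lit 623) (nat_lit 4590) (.f (nat_lit 464) (nat_lit 559) (nat_lit 5583) (.f (nat_lit 465) (nat_lit 433) (nat_lit 6576) (.d (nat_lit 493) (nat_lit 461) (nat_lit 7629) (nat_lit 495) (nat_lit 2509))))))))) (.a (.p (nat_lit 590) (.a (.f (nat_lit 589) (nat_lit 621) (nat_lit 5613) (.f (nat_lit 559) (nat_lit 561) (nat_lit 1581) (.d (nat_lit 588) (nat_lit 557) (nat_lit 1580) (nat_lit 587) (nat_lit 2603)))) (.a (.f (nat_lit 621) (nat_lit 589) (nat_lit 5613) (.f (nat_lit 622) (nat_lit 653) (nat_lit 5645) (.d (nat_lit 623) (nat_lit 591) (nat_lit 4590) (nat_lit 655) (nat_lit 4622)))) (.f (nat_lit 591) (nat_lit 623) (nat_lit 4590) (.f (nat_lit 464) (nat_lit 559) (nat_lit 5583) (.f (nat_lit 465) (nat_lit 433) (nat_lit 6576) (.d (nat_lit 493) (nat_lit 461) (nat_lit 7629) (nat_lit 495) (nat_lit 2509)))))))) (.p (nat_lit 590) (.a (.f (nat_lit 589) (nat_lit 621) (nat_lit 5613) (.f (nat_lit 559) (nat_lit 561) (nat_lit 1581) (.d (nat_lit 557) (nat_lit 462) (nat_lit 5581) (nat_lit 588) (nat_lit 1580)))) (.a (.f (nat_lit 621) (nat_lit 589) (nat_lit 5613) (.f (nat_lit 622) (nat_lit 653) (nat_lit 5645) (.d (nat_lit 623) (nat_lit 591) (nat_lit 4590) (nat_lit 655) (nat_lit 4622)))) (.f (nat_lit 591) (nat_lit 623) (nat_lit 4590) (.d (nat_lit 559) (nat_lit 462) (nat_lit 4558) (nat_lit 464) (nat_lit 5583)))))))))))))) (.a (.p (nat_lit 464) (.a (.f (nat_lit 431) (nat_lit 463) (nat_lit 7599) (.f (nat_lit 432) (nat_lit 399) (nat_lit 7567) (.d (nat_lit 433) (nat_lit 401) (nat_lit 6544) (nat_lit 465) (nat_lit 6576)))) (.a (.f (nat_lit 559) (nat_lit 591) (nat_lit 5583) (.f (nat_lit 432) (nat_lit 527) (nat_lit 5551) (.d (nat_lit 433) (nat_lit 401) (nat_lit 6544) (nat_lit 465) (nat_lit 6576)))) (.a (.f (nat_lit 559) (nat_lit 591) (nat_lit 5583) (.f (nat_lit 527) (nat_lit 432) (nat_lit 5551) (.f (nat_lit 462) (nat_lit 430) (nat_lit 4526) (.f (nat_lit 463) (nat_lit 431) (nat_lit 7599) (.f (nat_lit 461) (nat_lit 497) (nat_lit 461) (.d (nat_lit 429) (nat_lit 428) (nat_lit 3500) (nat_lit 558) (nat_lit 7597))))))) (.f (nat_lit 463) (nat_lit 431) (nat_lit 7599) (.f (nat_lit 465) (nat_lit 433) (nat_lit 6576) (.f (nat_lit 462) (nat_lit 493) (nat_lit 1485) (.d (nat_lit 497) (nat_lit 461) (nat_lit 461) (nat_lit 498) (nat_lit 462))))))))) (.a (.p (nat_lit 464) (.a (.f (nat_lit 465) (nat_lit 433) (nat_lit 6576) (.f (nat_lit 495) (nat_lit 493) (nat_lit 2509) (.d (nat_lit 466) (nat_lit 463) (nat_lit 1486) (nat_lit 467) (nat_lit 1487)))) (.a (.f (nat_lit 465) (nat_lit 433) (nat_lit 6576) (.f (nat_lit 495) (nat_lit 493) (nat_lit 2509) (.d (nat_lit 466) (nat_lit 467) (nat_lit 1487) (nat_lit 497) (nat_lit 2510)))) (.a (.f (nat_lit 431) (nat_lit 463) (nat_lit 7599) (.f (nat_lit 432) (nat_lit 399) (nat_lit 7567) (.d (nat_lit 433) (nat_lit 401) (nat_lit 6544) (nat_lit 465) (nat_lit 6576)))) (.f (nat_lit 559) (nat_lit 591) (nat_lit 5583) (.f (nat_lit 432) (nat_lit 527) (nat_lit 5551) (.d (nat_lit 431) (nat_lit 399) (nat_lit 7567) (nat_lit 463) (nat_lit 7599)))))))) (.a (.p (nat_lit 464) (.a (.f (nat_lit 431) (nat_lit 463) (nat_lit 7599) (.f (nat_lit 432) (nat_lit 399) (nat_lit 7567) (.d (nat_lit 433) (nat_lit 401) (nat_lit 6544) (nat_lit 465) (nat_lit 6576)))) (.a (.f (nat_lit 559) (nat_lit 591) (nat_lit 5583) (.f (nat_lit 432) (nat_lit 527) (nat_lit 5551) (.d (nat_lit 433) (nat_lit 401) (nat_lit 6544) (nat_lit 465) (nat_lit 6576)))) (.a (.f (nat_lit 559) (nat_lit 591) (nat_lit 5583) (.f (nat_lit 527) (nat_lit 432) (nat_lit 5551) (.f (nat_lit 462) (nat_lit 430) (nat_lit 4526) (.f (nat_lit 463) (nat_lit 431) (nat_lit 7599) (.f (nat_lit 461) (nat_lit 497) (nat_lit 461) (.d (nat_lit 429) (nat_lit 428) (nat_lit 3500) (nat_lit 558) (nat_lit 7597))))))) (.f (nat_lit 463) (nat_lit 431) (nat_lit 7599) (.f (nat_lit 465) (nat_lit 433) (nat_lit 6576) (.f (nat_lit 466) (nat_lit 495) (nat_lit 1486) (.f (nat_lit 498) (nat_lit 499) (nat_lit 463) (.f (nat_lit 462) (nat_lit 497) (nat_lit 462) (.f (nat_lit 429) (nat_lit 430) (nat_lit 3501) (.d (nat_lit 461) (nat_lit 428) (nat_lit 3500) (nat_lit 558) (nat_lit 7597)))))))))))) (.p (nat_lit 464) (.a (.f (nat_lit 465) (nat_lit 433) (nat_lit 6576) (.f (nat_lit 495) (nat_lit 493) (nat_lit 2509) (.d (nat_lit 466) (nat_lit 463) (nat_lit 1486) (nat_lit 467) (nat_lit 1487)))) (.a (.f (nat_lit 559) (nat_lit 591) (nat_lit 5583) (.f (nat_lit 432) (nat_lit 527) (nat_lit 5551) (.d (nat_lit 433) (nat_lit 401) (nat_lit 6544) (nat_lit 465) (nat_lit 6576)))) (.f (nat_lit 559) (nat_lit 591) (nat_lit 5583) (.f (nat_lit 432) (nat_lit 527) (nat_lit 5551) (.d (nat_lit 431) (nat_lit 399) (nat_lit 7567) (nat_lit 463) (nat_lit 7599)))))))))))))))) (.a s109034 (.a (.p (nat_lit 590) (.a (.p (nat_lit 592) (.a (.f (nat_lit 495) (nat_lit 463) (nat_lit 7631) (.f (nat_lit 527) (nat_lit 624) (nat_lit 7663) (.d (nat_lit 497) (nat_lit 465) (nat_lit 6608) (nat_lit 498) (nat_lit 1518)))) (.f (nat_lit 591) (nat_lit 623) (nat_lit 5615) (.f (nat_lit 589) (nat_lit 561) (nat_lit 2605) (.f (nat_lit 588) (nat_lit 559) (nat_lit 2604) (.d (nat_lit 620) (nat_lit 619) (nat_lit 1611) (nat_lit 621) (nat_lit 1612))))))) (.a (.p (nat_lit 558) (.a (.p (nat_lit 494) (.a (.f (nat_lit 589) (nat_lit 621) (nat_lit 5613) (.f (nat_lit 559) (nat_lit 561) (nat_lit 1581) (.d (nat_lit 557) (nat_lit 462) (nat_lit 5581) (nat_lit 588) (nat_lit 1580)))) (.a (.f (nat_lit 461) (nat_lit 493) (nat_lit 7629) (.f (nat_lit 462) (nat_lit 429) (nat_lit 7597) (.d (nat_lit 463) (nat_lit 431) (nat_lit 6574) (nat_lit 495) (nat_lit 6606)))) (.f (nat_lit 589) (nat_lit 621) (nat_lit 5613) (.f (nat_lit 559) (nat_lit 561) (nat_lit 1581) (.d (nat_lit 588) (nat_lit 557) (nat_lit 1580) (nat_lit 587) (nat_lit 2603))))))) (.a (.p (nat_lit 494) (.a (.f (nat_lit 461) (nat_lit 493) (nat_lit 7629) (.f (nat_lit 462) (nat_lit 429) (nat_lit 7597) (.d (nat_lit 463) (nat_lit 431) (nat_lit 6574) (nat_lit 495) (nat_lit 6606)))) (.a (.f (nat_lit 461) (nat_lit 493) (nat_lit 7629) (.f (nat_lit 462) (nat_lit 429) (nat_lit 7597) (.d (nat_lit 589) (nat_lit 557) (nat_lit 5581) (nat_lit 621) (nat_lit 5613)))) (.f (nat_lit 621) (nat_lit 589) (nat_lit 5613) (.f (nat_lit 622) (nat_lit 653) (nat_lit 5645) (.d (nat_lit 623) (nat_lit 591) (nat_lit 4590) (nat_lit 655) (nat_lit 4622))))))) (.a s108576 (.a (.p (nat_lit 494) (.a (.f (nat_lit 461) (nat_lit 493) (nat_lit 7629) (.f (nat_lit 462) (nat_lit 429) (nat_lit 7597) (.d (nat_lit 463) (nat_lit 431) (nat_lit 6574) (nat_lit 495) (nat_lit 6606)))) (.f (nat_lit 621) (nat_lit 589) (nat_lit 5613) (.f (nat_lit 622) (nat_lit 653) (nat_lit 5645) (.d (nat_lit 623) (nat_lit 591) (nat_lit 4590) (nat_lit 655) (nat_lit 4622)))))) (.a (.p (nat_lit 494) (.a (.f (nat_lit 461) (nat_lit 493) (nat_lit 7629) (.f (nat_lit 462) (nat_lit 429) (nat_lit 7597) (.d (nat_lit 463) (nat_lit 431) (nat_lit 6574) (nat_lit 495) (nat_lit 6606)))) (.a (.f (nat_lit 591) (nat_lit 623) (nat_lit 4590) (.f (nat_lit 462) (nat_lit 559) (nat_lit 4558) (.d (nat_lit 461) (nat_lit 429) (nat_lit 7597) (nat_lit 493) (nat_lit 7629)))) (.a (.f (nat_lit 495) (nat_lit 463) (nat_lit 6606) (.f (nat_lit 493) (nat_lit 461) (nat_lit 7629) (.d (nat_lit 527) (nat_lit 492) (nat_lit 492) (nat_lit 622) (nat_lit 6638)))) (.f (nat_lit 591) (nat_lit 623) (nat_lit 4590) (.f (nat_lit 462) (nat_lit 559) (nat_lit 4558) (.d (nat_lit 463) (nat_lit 431) (nat_lit 6574) (nat_lit 495) (nat_lit 6606)))))))) s109181)))))) (.a (.p (nat_lit 591) (.a (.f (nat_lit 592) (nat_lit 623) (nat_lit 5615) (.f (nat_lit 589) (nat_lit 561) (nat_lit 2605) (.f (nat_lit 588) (nat_lit 559) (nat_lit 2604) (.d (nat_lit 620) (nat_lit 619) (nat_lit 1611) (nat_lit 621) (nat_lit 1612))))) (.a (.p (nat_lit 558) (.a (.f (nat_lit 494) (nat_lit 623) (nat_lit 4590) (.f (nat_lit 589) (nat_lit 621) (nat_lit 5613) (.d (nat_lit 462) (nat_lit 557) (nat_lit 5581) (nat_lit 559) (nat_lit 4558)))) (.a (.f (nat_lit 494) (nat_lit 623) (nat_lit 4590) (.f (nat_lit 589) (nat_lit 621) (nat_lit 5613) (.f (nat_lit 462) (nat_lit 557) (nat_lit 5581) (.d (nat_lit 463) (nat_lit 431) (nat_lit 6574) (nat_lit 495) (nat_lit 6606))))) (.a (.f (nat_lit 494) (nat_lit 623) (nat_lit 4590) (.f (nat_lit 559) (nat_lit 462) (nat_lit 4558) (.d (nat_lit 589) (nat_lit 588) (nat_lit 2604) (nat_lit 621) (nat_lit 5613)))) (.a (.f (nat_lit 623) (nat_lit 494) (nat_lit 4590) (.d (nat_lit 655) (nat_lit 559) (nat_lit 6671) (nat_lit 622) (nat_lit 4622))) (.a (.p (nat_lit 494) (.a (.f (nat_lit 589) (nat_lit 621) (nat_lit 5613) (.d (nat_lit 462) (nat_lit 557) (nat_lit 5581) (nat_lit 559) (nat_lit 4558))) (.a (.f (nat_lit 589) (nat_lit 621) (nat_lit 5613) (.f (nat_lit 462) (nat_lit 557) (nat_lit 5581) (.d (nat_lit 463) (nat_lit 431) (nat_lit 6574) (nat_lit 495) (nat_lit 6606)))) (.a (.f (nat_lit 559) (nat_lit 462) (nat_lit 4558) (.d (nat_lit 589) (nat_lit 588) (nat_lit 2604) (nat_lit 621) (nat_lit 5613))) (.a (.f (nat_lit 462) (nat_lit 559) (nat_lit 4558) (.d (nat_lit 463) (nat_lit 431) (nat_lit 6574) (nat_lit 495) (nat_lit 6606))) (.f (nat_lit 589) (nat_lit 621) (nat_lit 5613) (.d (nat_lit 559) (nat_lit 561) (nat_lit 1581) (nat_lit 588) (nat_lit 2604)))))))) (.p (nat_lit 622) (.a (.f (nat_lit 623) (nat_lit 655) (nat_lit 4622) (.f (nat_lit 621) (nat_lit 653) (nat_lit 5645) (.f (nat_lit 620) (nat_lit 619) (nat_lit 2635) (.f (nat_lit 588) (nat_lit 587) (nat_lit 3659) (.d (nat_lit 589) (nat_lit 559) (nat_lit 2604) (nat_lit 624) (nat_lit 3660)))))) (.a (.f (nat_lit 655) (nat_lit 623) (nat_lit 4622) (.f (nat_lit 654) (nat_lit 687) (nat_lit 4654) (.d (nat_lit 653) (nat_lit 621) (nat_lit 5645) (nat_lit 685) (nat_lit 5677)))) (.a (.f (nat_lit 653) (nat_lit 621) (nat_lit 5645) (.f (nat_lit 654) (nat_lit 685) (nat_lit 5677) (.f (nat_lit 559) (nat_lit 686) (nat_lit 6702) (.d (nat_lit 589) (nat_lit 561) (nat_lit 1581) (nat_lit 588) (nat_lit 2604))))) (.f (nat_lit 655) (nat_lit 623) (nat_lit 4622) (.f (nat_lit 654) (nat_lit 687) (nat_lit 4654) (.f (nat_lit 559) (nat_lit 686) (nat_lit 6702) (.d (nat_lit 589) (nat_lit 561) (nat_lit 1581) (nat_lit 588) (nat_lit 2604))))))))))))))) (.a (.f (nat_lit 592) (nat_lit 623) (nat_lit 5615) (.f (nat_lit 589) (nat_lit 561) (nat_lit 2605) (.f (nat_lit 621) (nat_lit 620) (nat_lit 1612) (.f (nat_lit 558) (nat_lit 494) (nat_lit 5613) (.d (nat_lit 653) (nat_lit 557) (nat_lit 6669) (nat_lit 622) (nat_lit 5645)))))) (.a (.f (nat_lit 623) (nat_lit 592) (nat_lit 5615) (.f (nat_lit 558) (nat_lit 494) (nat_lit 4590) (.d (nat_lit 655) (nat_lit 559) (nat_lit 6671) (nat_lit 622) (nat_lit 4622)))) s109232))))) (.a (.p (nat_lit 558) (.a (.p (nat_lit 494) (.a (.f (nat_lit 589) (nat_lit 621) (nat_lit 5613) (.f (nat_lit 559) (nat_lit 561) (nat_lit 1581) (.d (nat_lit 557) (nat_lit 462) (nat_lit 5581) (nat_lit 588) (nat_lit 1580)))) (.a (.f (nat_lit 461) (nat_lit 493) (nat_lit 7629) (.f (nat_lit 462) (nat_lit 429) (nat_lit 7597) (.d (nat_lit 463) (nat_lit 431) (nat_lit 6574) (nat_lit 495) (nat_lit 6606)))) (.f (nat_lit 589) (nat_lit 621) (nat_lit 5613) (.f (nat_lit 559) (nat_lit 561) (nat_lit 1581) (.d (nat_lit 588) (nat_lit 557) (nat_lit 1580) (nat_lit 587) (nat_lit 2603))))))) (.a s109243 (.a s109244 (.a s109251 (.a (.p (nat_lit 495) (.a (.f (nat_lit 527) (nat_lit 622) (nat_lit 6638) (.d (nat_lit 463) (nat_lit 431) (nat_lit 4527) (nat_lit 559) (nat_lit 5582))) (.a (.d (nat_lit 463) (nat_lit 494) (nat_lit 6606) (nat_lit 592) (nat_lit 7631)) (.f (nat_lit 527) (nat_lit 622) (nat_lit 6638) (.f (nat_lit 497) (nat_lit 498) (nat_lit 1518) (.d (nat_lit 592) (nat_lit 465) (nat_lit 6608) (nat_lit 624) (nat_lit 7663))))))) (.a (.p (nat_lit 589) (.a (.f (nat_lit 559) (nat_lit 561) (nat_lit 1581) (.d (nat_lit 588) (nat_lit 557) (nat_lit 1580) (nat_lit 587) (nat_lit 2603))) (.a (.f (nat_lit 621) (nat_lit 494) (nat_lit 5613) (.d (nat_lit 653) (nat_lit 557) (nat_lit 6669) (nat_lit 622) (nat_lit 5645))) (.f (nat_lit 621) (nat_lit 494) (nat_lit 5613) (.d (nat_lit 653) (nat_lit 622) (nat_lit 5645) (nat_lit 685) (nat_lit 6701)))))) (.p (nat_lit 622) (.a (.f (nat_lit 655) (nat_lit 623) (nat_lit 4622) (.f (nat_lit 654) (nat_lit 687) (nat_lit 4654) (.d (nat_lit 653) (nat_lit 621) (nat_lit 5645) (nat_lit 685) (nat_lit 5677)))) (.a (.f (nat_lit 527) (nat_lit 495) (nat_lit 6638) (.f (nat_lit 559) (nat_lit 654) (nat_lit 6670) (.d (nat_lit 561) (nat_lit 562) (nat_lit 3598) (nat_lit 589) (nat_lit 1581)))) (.p (nat_lit 589) (.a (.f (nat_lit 623) (nat_lit 655) (nat_lit 4622) (.f (nat_lit 621) (nat_lit 653) (nat_lit 5645) (.d (nat_lit 624) (nat_lit 588) (nat_lit 3660) (nat_lit 625) (nat_lit 3661)))) (.a (.f (nat_lit 559) (nat_lit 561) (nat_lit 1581) (.d (nat_lit 588) (nat_lit 557) (nat_lit 1580) (nat_lit 587) (nat_lit 2603))) (.f (nat_lit 527) (nat_lit 495) (nat_lit 6638) (.f (nat_lit 621) (nat_lit 653) (nat_lit 5645) (.f (nat_lit 623) (nat_lit 655) (nat_lit 4622) (.f (nat_lit 559) (nat_lit 561) (nat_lit 1581) (.f (nat_lit 624) (nat_lit 625) (nat_lit 3661) (.d (nat_lit 656) (nat_lit 592) (nat_lit 7695) (nat_lit 657) (nat_lit 621)))))))))))))))))))) (.a (.p (nat_lit 592) (.a (.f (nat_lit 495) (nat_lit 463) (nat_lit 7631) (.f (nat_lit 527) (nat_lit 624) (nat_lit 7663) (.d (nat_lit 497) (nat_lit 465) (nat_lit 6608) (nat_lit 498) (nat_lit 1518)))) (.f (nat_lit 591) (nat_lit 623) (nat_lit 5615) (.f (nat_lit 589) (nat_lit 561) (nat_lit 2605) (.f (nat_lit 621) (nat_lit 620) (nat_lit 1612) (.f (nat_lit 558) (nat_lit 494) (nat_lit 5613) (.d (nat_lit 653) (nat_lit 557) (nat_lit 6669) (nat_lit 622) (nat_lit 5645)))))))) (.a (.p (nat_lit 558) (.a s108576 (.a s109244 (.a (.p (nat_lit 494) (.a (.f (nat_lit 461) (nat_lit 493) (nat_lit 7629) (.f (nat_lit 462) (nat_lit 429) (nat_lit 7597) (.d (nat_lit 589) (nat_lit 557) (nat_lit 5581) (nat_lit 621) (nat_lit 5613)))) (.a (.f (nat_lit 621) (nat_lit 589) (nat_lit 5613) (.f (nat_lit 622) (nat_lit 653) (nat_lit 5645) (.d (nat_lit 623) (nat_lit 591) (nat_lit 4590) (nat_lit 655) (nat_lit 4622)))) (.f (nat_lit 461) (nat_lit 493) (nat_lit 7629) (.f (nat_lit 462) (nat_lit 429) (nat_lit 7597) (.f (nat_lit 495) (nat_lit 497) (nat_lit 3533) (.f (nat_lit 622) (nat_lit 527) (nat_lit 6638) (.d (nat_lit 623) (nat_lit 591) (nat_lit 4590) (nat_lit 655) (nat_lit 4622))))))))) (.a (.p (nat_lit 494) (.a (.f (nat_lit 621) (nat_lit 589) (nat_lit 5613) (.f (nat_lit 622) (nat_lit 653) (nat_lit 5645) (.d (nat_lit 623) (nat_lit 591) (nat_lit 4590) (nat_lit 655) (nat_lit 4622)))) (.a (.f (nat_lit 461) (nat_lit 493) (nat_lit 7629) (.f (nat_lit 462) (nat_lit 429) (nat_lit 7597) (.f (nat_lit 495) (nat_lit 497) (nat_lit 3533) (.f (nat_lit 527) (nat_lit 622) (nat_lit 6638) (.d (nat_lit 430) (nat_lit 398) (nat_lit 4494) (nat_lit 559) (nat_lit 4526)))))) (.f (nat_lit 591) (nat_lit 623) (nat_lit 4590) (.f (nat_lit 462) (nat_lit 559) (nat_lit 4558) (.d (nat_lit 461) (nat_lit 429) (nat_lit 7597) (nat_lit 493) (nat_lit 7629))))))) (.a (.p (nat_lit 494) (.a (.f (nat_lit 591) (nat_lit 623) (nat_lit 4590) (.f (nat_lit 462) (nat_lit 559) (nat_lit 4558) (.d (nat_lit 461) (nat_lit 429) (nat_lit 7597) (nat_lit 493) (nat_lit 7629)))) (.a (.f (nat_lit 461) (nat_lit 493) (nat_lit 7629) (.f (nat_lit 462) (nat_lit 429) (nat_lit 7597) (.f (nat_lit 495) (nat_lit 497) (nat_lit 3533) (.f (nat_lit 527) (nat_lit 622) (nat_lit 6638) (.d (nat_lit 430) (nat_lit 398) (nat_lit 4494) (nat_lit 559) (nat_lit 4526)))))) (.a (.f (nat_lit 461) (nat_lit 493) (nat_lit 7629) (.f (nat_lit 462) (nat_lit 429) (nat_lit 7597) (.f (nat_lit 495) (nat_lit 497) (nat_lit 3533) (.f (nat_lit 622) (nat_lit 527) (nat_lit 6638) (.d (nat_lit 623) (nat_lit 591) (nat_lit 4590) (nat_lit 655) (nat_lit 4622)))))) (.f (nat_lit 623) (nat_lit 591) (nat_lit 4590) (.f (nat_lit 622) (nat_lit 655) (nat_lit 4622) (.f (nat_lit 527) (nat_lit 495) (nat_lit 6638) (.f (nat_lit 653) (nat_lit 621) (nat_lit 5645) (.d (nat_lit 654) (nat_lit 559) (nat_lit 6670) (nat_lit 685) (nat_lit 5677)))))))))) (.a s109181 (.a (.p (nat_lit 494) (.a (.f (nat_lit 589) (nat_lit 621) (nat_lit 5613) (.f (nat_lit 559) (nat_lit 561) (nat_lit 1581) (.d (nat_lit 557) (nat_lit 462) (nat_lit 5581) (nat_lit 588) (nat_lit 1580)))) (.a (.f (nat_lit 461) (nat_lit 493) (nat_lit 7629) (.f (nat_lit 462) (nat_lit 429) (nat_lit 7597) (.d (nat_lit 589) (nat_lit 557) (nat_lit 5581) (nat_lit 621) (nat_lit 5613)))) (.a (.f (nat_lit 591) (nat_lit 623) (nat_lit 4590) (.f (nat_lit 462) (nat_lit 559) (nat_lit 4558) (.d (nat_lit 461) (nat_lit 429) (nat_lit 7597) (nat_lit 493) (nat_lit 7629)))) (.f (nat_lit 589) (nat_lit 621) (nat_lit 5613) (.f (nat_lit 559) (nat_lit 561) (nat_lit 1581) (.d (nat_lit 588) (nat_lit 557) (nat_lit 1580) (nat_lit 587) (nat_lit 2603)))))))) (.p (nat_lit 494) (.a (.f (nat_lit 591) (nat_lit 623) (nat_lit 4590) (.f (nat_lit 462) (nat_lit 559) (nat_lit 4558) (.d (nat_lit 461) (nat_lit 429) (nat_lit 7597) (nat_lit 493) (nat_lit 7629)))) (.a (.f (nat_lit 461) (nat_lit 493) (nat_lit 7629) (.f (nat_lit 462) (nat_lit 429) (nat_lit 7597) (.f (nat_lit 495) (nat_lit 497) (nat_lit 3533) (.f (nat_lit 527) (nat_lit 622) (nat_lit 6638) (.d (nat_lit 430) (nat_lit 398) (nat_lit 4494) (nat_lit 559) (nat_lit 4526)))))) (.a (.f (nat_lit 461) (nat_lit 493) (nat_lit 7629) (.f (nat_lit 462) (nat_lit 429) (nat_lit 7597) (.f (nat_lit 495) (nat_lit 497) (nat_lit 3533) (.f (nat_lit 622) (nat_lit 527) (nat_lit 6638) (.d (nat_lit 623) (nat_lit 591) (nat_lit 4590) (nat_lit 655) (nat_lit 4622)))))) (.f (nat_lit 623) (nat_lit 591) (nat_lit 4590) (.f (nat_lit 622) (nat_lit 655) (nat_lit 4622) (.f (nat_lit 527) (nat_lit 495) (nat_lit 6638) (.f (nat_lit 559) (nat_lit 654) (nat_lit 6670) (.d (nat_lit 561) (nat_lit 562) (nat_lit 3598) (nat_lit 589) (nat_lit 1581)))))))))))))))))) (.a (.p (nat_lit 592) (.a (.f (nat_lit 495) (nat_lit 463) (nat_lit 7631) (.f (nat_lit 527) (nat_lit 624) (nat_lit 7663) (.d (nat_lit 497) (nat_lit 465) (nat_lit 6608) (nat_lit 498) (nat_lit 1518)))) (.a (.f (nat_lit 623) (nat_lit 591) (nat_lit 5615) (.f (nat_lit 624) (nat_lit 655) (nat_lit 5647) (.f (nat_lit 625) (nat_lit 657) (nat_lit 4624) (.f (nat_lit 622) (nat_lit 589) (nat_lit 3661) (.f (nat_lit 653) (nat_lit 654) (nat_lit 1645) (.d (nat_lit 621) (nat_lit 558) (nat_lit 5645) (nat_lit 652) (nat_lit 1644))))))) (.f (nat_lit 495) (nat_lit 463) (nat_lit 7631) (.f (nat_lit 497) (nat_lit 465) (nat_lit 6608) (.f (nat_lit 498) (nat_lit 527) (nat_lit 1518) (.f (nat_lit 531) (nat_lit 530) (nat_lit 495) (.f (nat_lit 499) (nat_lit 532) (nat_lit 496) (.d (nat_lit 467) (nat_lit 466) (nat_lit 2511) (nat_lit 468) (nat_lit 2512)))))))))) (.a (.p (nat_lit 495) (.a (.f (nat_lit 463) (nat_lit 592) (nat_lit 7631) (.d (nat_lit 431) (nat_lit 399) (nat_lit 4495) (nat_lit 527) (nat_lit 4527))) (.a (.p (nat_lit 558) (.a (.f (nat_lit 527) (nat_lit 622) (nat_lit 6638) (.d (nat_lit 463) (nat_lit 431) (nat_lit 4527) (nat_lit 559) (nat_lit 5582))) (.a (.f (nat_lit 494) (nat_lit 463) (nat_lit 6606) (.f (nat_lit 461) (nat_lit 493) (nat_lit 7629) (.d (nat_lit 462) (nat_lit 429) (nat_lit 7597) (nat_lit 497) (nat_lit 3533)))) (.f (nat_lit 622) (nat_lit 527) (nat_lit 6638) (.f (nat_lit 623) (nat_lit 655) (nat_lit 4622) (.f (nat_lit 494) (nat_lit 591) (nat_lit 4590) (.f (nat_lit 461) (nat_lit 493) (nat_lit 7629) (.d (nat_lit 462) (nat_lit 429) (nat_lit 7597) (nat_lit 497) (nat_lit 3533))))))))) (.a (.p (nat_lit 494) (.a (.d (nat_lit 463) (nat_lit 558) (nat_lit 6606) (nat_lit 592) (nat_lit 7631)) (.a (.f (nat_lit 558) (nat_lit 463) (nat_lit 6606) (.f (nat_lit 461) (nat_lit 493) (nat_lit 7629) (.d (nat_lit 462) (nat_lit 429) (nat_lit 7597) (nat_lit 497) (nat_lit 3533)))) (.a (.p (nat_lit 461) (.a (.d (nat_lit 493) (nat_lit 460) (nat_lit 3532) (nat_lit 558) (nat_lit 7629)) (.f (nat_lit 497) (nat_lit 462) (nat_lit 3533) (.d (nat_lit 465) (nat_lit 466) (nat_lit 2510) (nat_lit 592) (nat_lit 6608))))) (.p (nat_lit 497) (.a (.d (nat_lit 592) (nat_lit 463) (nat_lit 7631) (nat_lit 465) (nat_lit 6608)) (.a (.f (nat_lit 462) (nat_lit 461) (nat_lit 3533) (.f (nat_lit 498) (nat_lit 463) (nat_lit 3534) (.d (nat_lit 466) (nat_lit 465) (nat_lit 2510) (nat_lit 467) (nat_lit 2511)))) (.a (.d (nat_lit 465) (nat_lit 466) (nat_lit 2510) (nat_lit 592) (nat_lit 6608)) (.f (nat_lit 463) (nat_lit 592) (nat_lit 7631) (.d (nat_lit 462) (nat_lit 461) (nat_lit 3533) (nat_lit 498) (nat_lit 3534))))))))))) (.p (nat_lit 497) (.a (.f (nat_lit 527) (nat_lit 498) (nat_lit 1518) (.d (nat_lit 592) (nat_lit 465) (nat_lit 6608) (nat_lit 624) (nat_lit 7663))) (.a (.f (nat_lit 498) (nat_lit 527) (nat_lit 1518) (.f (nat_lit 466) (nat_lit 467) (nat_lit 2511) (.f (nat_lit 465) (nat_lit 494) (nat_lit 2510) (.f (nat_lit 530) (nat_lit 531) (nat_lit 495) (.d (nat_lit 433) (nat_lit 401) (nat_lit 5520) (nat_lit 562) (nat_lit 7601)))))) (.a (.f (nat_lit 465) (nat_lit 592) (nat_lit 6608) (.f (nat_lit 466) (nat_lit 494) (nat_lit 2510) (.d (nat_lit 467) (nat_lit 468) (nat_lit 1488) (nat_lit 498) (nat_lit 2511)))) (.a (.f (nat_lit 527) (nat_lit 498) (nat_lit 1518) (.f (nat_lit 592) (nat_lit 624) (nat_lit 7663) (.f (nat_lit 591) (nat_lit 623) (nat_lit 5615) (.d (nat_lit 622) (nat_lit 558) (nat_lit 6638) (nat_lit 559) (nat_lit 5614))))) (.f (nat_lit 592) (nat_lit 465) (nat_lit 6608) (.f (nat_lit 624) (nat_lit 527) (nat_lit 7663) (.d (nat_lit 623) (nat_lit 591) (nat_lit 5615) (nat_lit 655) (nat_lit 5647))))))))))))) (.a (.p (nat_lit 591) (.a (.f (nat_lit 592) (nat_lit 623) (nat_lit 5615) (.f (nat_lit 589) (nat_lit 561) (nat_lit 2605) (.f (nat_lit 588) (nat_lit 559) (nat_lit 2604) (.d (nat_lit 620) (nat_lit 619) (nat_lit 1611) (nat_lit 621) (nat_lit 1612))))) (.a (.p (nat_lit 559) (.a (.d (nat_lit 623) (nat_lit 527) (nat_lit 6639) (nat_lit 655) (nat_lit 6671)) (.f (nat_lit 589) (nat_lit 588) (nat_lit 2604) (.d (nat_lit 561) (nat_lit 558) (nat_lit 1581) (nat_lit 562) (nat_lit 1582))))) (.a (.f (nat_lit 592) (nat_lit 623) (nat_lit 5615) (.f (nat_lit 589) (nat_lit 561) (nat_lit 2605) (.f (nat_lit 621) (nat_lit 620) (nat_lit 1612) (.f (nat_lit 558) (nat_lit 494) (nat_lit 5613) (.d (nat_lit 653) (nat_lit 557) (nat_lit 6669) (nat_lit 622) (nat_lit 5645)))))) (.a (.f (nat_lit 623) (nat_lit 592) (nat_lit 5615) (.f (nat_lit 558) (nat_lit 494) (nat_lit 4590) (.d (nat_lit 655) (nat_lit 559) (nat_lit 6671) (nat_lit 622) (nat_lit 4622)))) s109232))))) (.p (nat_lit 558) (.a (.p (nat_lit 494) (.a (.f (nat_lit 589) (nat_lit 621) (nat_lit 5613) (.f (nat_lit 559) (nat_lit 561) (nat_lit 1581) (.d (nat_lit 557) (nat_lit 462) (nat_lit 5581) (nat_lit 588) (nat_lit 1580)))) (.a (.f (nat_lit 461) (nat_lit 493) (nat_lit 7629) (.f (nat_lit 462) (nat_lit 429) (nat_lit 7597) (.d (nat_lit 463) (nat_lit 431) (nat_lit 6574) (nat_lit 495) (nat_lit 6606)))) (.f (nat_lit 589) (nat_lit 621) (nat_lit 5613) (.f (nat_lit 559) (nat_lit 561) (nat_lit 1581) (.d (nat_lit 588) (nat_lit 557) (nat_lit 1580) (nat_lit 587) (nat_lit 2603))))))) (.a s109243 (.a s109244 (.a s109251 (.a (.p (nat_lit 495) (.a (.f (nat_lit 527) (nat_lit 622) (nat_lit 6638) (.d (nat_lit 463) (nat_lit 431) (nat_lit 4527) (nat_lit 559) (nat_lit 5582))) (.a (.d (nat_lit 463) (nat_lit 494) (nat_lit 6606) (nat_lit 592) (nat_lit 7631)) (.f (nat_lit 527) (nat_lit 622) (nat_lit 6638) (.f (nat_lit 497) (nat_lit 498) (nat_lit 1518) (.d (nat_lit 592) (nat_lit 465) (nat_lit 6608) (nat_lit 624) (nat_lit 7663))))))) (.a (.p (nat_lit 589) (.a (.f (nat_lit 559) (nat_lit 561) (nat_lit 1581) (.d (nat_lit 588) (nat_lit 557) (nat_lit 1580) (nat_lit 587) (nat_lit 2603))) (.a (.f (nat_lit 621) (nat_lit 494) (nat_lit 5613) (.d (nat_lit 653) (nat_lit 557) (nat_lit 6669) (nat_lit 622) (nat_lit 5645))) (.f (nat_lit 621) (nat_lit 494) (nat_lit 5613) (.d (nat_lit 653) (nat_lit 622) (nat_lit 5645) (nat_lit 685) (nat_lit 6701)))))) (.p (nat_lit 589) (.a (.f (nat_lit 559) (nat_lit 561) (nat_lit 1581) (.d (nat_lit 588) (nat_lit 557) (nat_lit 1580) (nat_lit 587) (nat_lit 2603))) (.a (.p (nat_lit 495) (.a (.f (nat_lit 527) (nat_lit 622) (nat_lit 6638) (.d (nat_lit 463) (nat_lit 431) (nat_lit 5550) (nat_lit 592) (nat_lit 7631))) (.a (.f (nat_lit 622) (nat_lit 527) (nat_lit 6638) (.f (nat_lit 653) (nat_lit 621) (nat_lit 5645) (.f (nat_lit 654) (nat_lit 685) (nat_lit 5677) (.f (nat_lit 687) (nat_lit 655) (nat_lit 4654) (.d (nat_lit 686) (nat_lit 557) (nat_lit 7725) (nat_lit 719) (nat_lit 4686)))))) (.a (.f (nat_lit 592) (nat_lit 463) (nat_lit 7631) (.f (nat_lit 591) (nat_lit 561) (nat_lit 2605) (.f (nat_lit 621) (nat_lit 620) (nat_lit 1612) (.d (nat_lit 653) (nat_lit 557) (nat_lit 6669) (nat_lit 622) (nat_lit 5645))))) (.f (nat_lit 592) (nat_lit 463) (nat_lit 7631) (.f (nat_lit 591) (nat_lit 561) (nat_lit 2605) (.d (nat_lit 624) (nat_lit 527) (nat_lit 7663) (nat_lit 625) (nat_lit 589)))))))) (.a (.f (nat_lit 559) (nat_lit 561) (nat_lit 1581) (.d (nat_lit 588) (nat_lit 587) (nat_lit 2603) (nat_lit 591) (nat_lit 2604))) (.p (nat_lit 622) (.a (.f (nat_lit 653) (nat_lit 621) (nat_lit 5645) (.f (nat_lit 654) (nat_lit 685) (nat_lit 5677) (.f (nat_lit 687) (nat_lit 655) (nat_lit 4654) (.d (nat_lit 686) (nat_lit 557) (nat_lit 7725) (nat_lit 719) (nat_lit 4686))))) (.a (.f (nat_lit 527) (nat_lit 495) (nat_lit 6638) (.f (nat_lit 654) (nat_lit 559) (nat_lit 6670) (.d (nat_lit 653) (nat_lit 621) (nat_lit 5645) (nat_lit 685) (nat_lit 5677)))) (.a (.f (nat_lit 527) (nat_lit 495) (nat_lit 6638) (.f (nat_lit 559) (nat_lit 654) (nat_lit 6670) (.d (nat_lit 588) (nat_lit 557) (nat_lit 1580) (nat_lit 591) (nat_lit 2604)))) (.f (nat_lit 621) (nat_lit 653) (nat_lit 5645) (.f (nat_lit 495) (nat_lit 527) (nat_lit 6638) (.f (nat_lit 592) (nat_lit 463) (nat_lit 7631) (.f (nat_lit 591) (nat_lit 620) (nat_lit 1612) (.f (nat_lit 588) (nat_lit 559) (nat_lit 2604) (.d (nat_lit 556) (nat_lit 555) (nat_lit 3627) (nat_lit 557) (nat_lit 3628)))))))))))))))))))))))))))))))) (.a (.p (nat_lit 464) (.a (.f (nat_lit 465) (nat_lit 433) (nat_lit 6576) (.f (nat_lit 463) (nat_lit 431) (nat_lit 7599) (.d (nat_lit 592) (nat_lit 495) (nat_lit 7631) (nat_lit 497) (nat_lit 6608)))) (.a (.f (nat_lit 433) (nat_lit 465) (nat_lit 6576) (.f (nat_lit 432) (nat_lit 401) (nat_lit 6544) (.d (nat_lit 431) (nat_lit 399) (nat_lit 7567) (nat_lit 463) (nat_lit 7599)))) (.a s109414 (.a (.p (nat_lit 432) (.a (.d (nat_lit 431) (nat_lit 399) (nat_lit 7567) (nat_lit 463) (nat_lit 7599)) (.a (.f (nat_lit 399) (nat_lit 431) (nat_lit 7567) (.f (nat_lit 400) (nat_lit 367) (nat_lit 7535) (.d (nat_lit 401) (nat_lit 369) (nat_lit 6512) (nat_lit 433) (nat_lit 6544)))) (.f (nat_lit 401) (nat_lit 433) (nat_lit 6544) (.f (nat_lit 400) (nat_lit 369) (nat_lit 6512) (.f (nat_lit 495) (nat_lit 527) (nat_lit 5519) (.d (nat_lit 463) (nat_lit 368) (nat_lit 5487) (nat_lit 592) (nat_lit 7631)))))))) (.p (nat_lit 495) (.a (.d (nat_lit 463) (nat_lit 431) (nat_lit 7599) (nat_lit 592) (nat_lit 7631)) (.a (.p (nat_lit 494) (.a (.f (nat_lit 463) (nat_lit 431) (nat_lit 7599) (.f (nat_lit 493) (nat_lit 492) (nat_lit 2508) (.f (nat_lit 461) (nat_lit 460) (nat_lit 3532) (.f (nat_lit 462) (nat_lit 497) (nat_lit 461) (.d (nat_lit 429) (nat_lit 397) (nat_lit 4493) (nat_lit 428) (nat_lit 3500)))))) (.a (.f (nat_lit 493) (nat_lit 465) (nat_lit 2509) (.f (nat_lit 527) (nat_lit 492) (nat_lit 492) (.f (nat_lit 461) (nat_lit 460) (nat_lit 3532) (.d (nat_lit 497) (nat_lit 462) (nat_lit 3533) (nat_lit 498) (nat_lit 1518))))) (.a (.f (nat_lit 463) (nat_lit 431) (nat_lit 7599) (.d (nat_lit 465) (nat_lit 466) (nat_lit 1486) (nat_lit 493) (nat_lit 2509))) (.f (nat_lit 431) (nat_lit 463) (nat_lit 7599) (.f (nat_lit 432) (nat_lit 399) (nat_lit 7567) (.f (nat_lit 527) (nat_lit 400) (nat_lit 5519) (.f (nat_lit 497) (nat_lit 498) (nat_lit 1518) (.f (nat_lit 465) (nat_lit 466) (nat_lit 2510) (.f (nat_lit 462) (nat_lit 461) (nat_lit 3533) (.d (nat_lit 430) (nat_lit 398) (nat_lit 4494) (nat_lit 429) (nat_lit 429)))))))))))) (.p (nat_lit 497) (.a (.f (nat_lit 465) (nat_lit 592) (nat_lit 6608) (.d (nat_lit 494) (nat_lit 466) (nat_lit 2510) (nat_lit 493) (nat_lit 2509))) (.a (.f (nat_lit 498) (nat_lit 527) (nat_lit 1518) (.f (nat_lit 466) (nat_lit 467) (nat_lit 2511) (.f (nat_lit 465) (nat_lit 494) (nat_lit 2510) (.f (nat_lit 499) (nat_lit 500) (nat_lit 3536) (.d (nat_lit 531) (nat_lit 530) (nat_lit 495) (nat_lit 532) (nat_lit 496)))))) (.a (.f (nat_lit 498) (nat_lit 527) (nat_lit 1518) (.f (nat_lit 531) (nat_lit 530) (nat_lit 495) (.f (nat_lit 499) (nat_lit 532) (nat_lit 496) (.d (nat_lit 467) (nat_lit 466) (nat_lit 2511) (nat_lit 468) (nat_lit 2512))))) (.f (nat_lit 527) (nat_lit 498) (nat_lit 1518) (.d (nat_lit 592) (nat_lit 465) (nat_lit 6608) (nat_lit 624) (nat_lit 7663))))))))))))))) (.a s109462 (.a s109463 (.a s109472 (.a (.p (nat_lit 592) (.a (.f (nat_lit 591) (nat_lit 623) (nat_lit 5615) (.f (nat_lit 464) (nat_lit 559) (nat_lit 5583) (.d (nat_lit 465) (nat_lit 433) (nat_lit 6576) (nat_lit 497) (nat_lit 6608)))) (.a (.f (nat_lit 495) (nat_lit 463) (nat_lit 7631) (.f (nat_lit 527) (nat_lit 624) (nat_lit 7663) (.d (nat_lit 497) (nat_lit 465) (nat_lit 6608) (nat_lit 498) (nat_lit 1518)))) (.f (nat_lit 591) (nat_lit 623) (nat_lit 5615) (.f (nat_lit 559) (nat_lit 464) (nat_lit 5583) (.f (nat_lit 495) (nat_lit 463) (nat_lit 7631) (.f (nat_lit 527) (nat_lit 624) (nat_lit 4591) (.f (nat_lit 590) (nat_lit 622) (nat_lit 5614) (.d (nat_lit 561) (nat_lit 562) (nat_lit 3598) (nat_lit 589) (nat_lit 2605)))))))))) (.p (nat_lit 592) (.a (.f (nat_lit 591) (nat_lit 623) (nat_lit 5615) (.f (nat_lit 464) (nat_lit 559) (nat_lit 5583) (.d (nat_lit 463) (nat_lit 431) (nat_lit 7599) (nat_lit 495) (nat_lit 7631)))) (.a (.f (nat_lit 495) (nat_lit 463) (nat_lit 7631) (.f (nat_lit 527) (nat_lit 624) (nat_lit 7663) (.d (nat_lit 497) (nat_lit 465) (nat_lit 6608) (nat_lit 498) (nat_lit 1518)))) (.a (.f (nat_lit 623) (nat_lit 591) (nat_lit 5615) (.f (nat_lit 624) (nat_lit 655) (nat_lit 5647) (.f (nat_lit 527) (nat_lit 495) (nat_lit 7663) (.f (nat_lit 657) (nat_lit 625) (nat_lit 4624) (.d (nat_lit 656) (nat_lit 559) (nat_lit 7695) (nat_lit 689) (nat_lit 4656)))))) (.p (nat_lit 624) (.a (.d (nat_lit 623) (nat_lit 591) (nat_lit 5615) (nat_lit 655) (nat_lit 5647)) (.a (.f (nat_lit 655) (nat_lit 623) (nat_lit 5647) (.f (nat_lit 656) (nat_lit 687) (nat_lit 5679) (.d (nat_lit 657) (nat_lit 625) (nat_lit 4624) (nat_lit 689) (nat_lit 4656)))) (.f (nat_lit 657) (nat_lit 625) (nat_lit 4624) (.f (nat_lit 656) (nat_lit 689) (nat_lit 4656) (.f (nat_lit 559) (nat_lit 527) (nat_lit 7695) (.d (nat_lit 591) (nat_lit 464) (nat_lit 5583) (nat_lit 688) (nat_lit 7727)))))))))))))))))))))) (.a s111020 (.a (.p (nat_lit 496) (.a s108647 (.a (.p (nat_lit 559) (.a (.f (nat_lit 591) (nat_lit 464) (nat_lit 5583) (.d (nat_lit 623) (nat_lit 527) (nat_lit 6639) (nat_lit 655) (nat_lit 6671))) (.a (.p (nat_lit 558) (.a (.f (nat_lit 525) (nat_lit 561) (nat_lit 3597) (.d (nat_lit 524) (nat_lit 523) (nat_lit 523) (nat_lit 557) (nat_lit 3596))) (.f (nat_lit 591) (nat_lit 464) (nat_lit 5583) (.f (nat_lit 623) (nat_lit 655) (nat_lit 6671) (.d (nat_lit 494) (nat_lit 462) (nat_lit 4558) (nat_lit 590) (nat_lit 4590)))))) (.p (nat_lit 525) (.a (.f (nat_lit 558) (nat_lit 561) (nat_lit 3597) (.d (nat_lit 524) (nat_lit 523) (nat_lit 523) (nat_lit 557) (nat_lit 3596))) (.a (.d (nat_lit 527) (nat_lit 524) (nat_lit 524) (nat_lit 561) (nat_lit 525)) (.a (.d (nat_lit 527) (nat_lit 497) (nat_lit 2541) (nat_lit 524) (nat_lit 524)) (.d (nat_lit 527) (nat_lit 497) (nat_lit 2541) (nat_lit 561) (nat_lit 525))))))))) (.a (.p (nat_lit 497) (.a (.f (nat_lit 527) (nat_lit 525) (nat_lit 2541) (.d (nat_lit 498) (nat_lit 495) (nat_lit 1518) (nat_lit 499) (nat_lit 1519))) (.f (nat_lit 465) (nat_lit 592) (nat_lit 6608) (.d (nat_lit 433) (nat_lit 401) (nat_lit 5520) (nat_lit 464) (nat_lit 6576))))) (.a s109462 (.a s111037 (.p (nat_lit 525) (.a (.f (nat_lit 527) (nat_lit 561) (nat_lit 525) (.d (nat_lit 524) (nat_lit 495) (nat_lit 2540) (nat_lit 559) (nat_lit 524))) (.a (.p (nat_lit 559) (.a (.f (nat_lit 558) (nat_lit 561) (nat_lit 3597) (.d (nat_lit 524) (nat_lit 523) (nat_lit 523) (nat_lit 557) (nat_lit 3596))) (.f (nat_lit 591) (nat_lit 464) (nat_lit 5583) (.d (nat_lit 623) (nat_lit 592) (nat_lit 5615) (nat_lit 655) (nat_lit 6671))))) (.a (.f (nat_lit 527) (nat_lit 561) (nat_lit 525) (.f (nat_lit 524) (nat_lit 495) (nat_lit 2540) (.d (nat_lit 556) (nat_lit 555) (nat_lit 1547) (nat_lit 557) (nat_lit 1548)))) (.a (.p (nat_lit 559) (.a (.f (nat_lit 591) (nat_lit 464) (nat_lit 5583) (.d (nat_lit 623) (nat_lit 592) (nat_lit 5615) (nat_lit 655) (nat_lit 6671))) (.a (.f (nat_lit 527) (nat_lit 524) (nat_lit 524) (.d (nat_lit 591) (nat_lit 464) (nat_lit 5583) (nat_lit 623) (nat_lit 6639))) (.a (.f (nat_lit 527) (nat_lit 524) (nat_lit 524) (.f (nat_lit 557) (nat_lit 556) (nat_lit 1548) (.f (nat_lit 493) (nat_lit 492) (nat_lit 3564) (.f (nat_lit 464) (nat_lit 432) (nat_lit 5551) (.f (nat_lit 465) (nat_lit 433) (nat_lit 6576) (.f (nat_lit 494) (nat_lit 495) (nat_lit 2509) (.d (nat_lit 462) (nat_lit 430) (nat_lit 4526) (nat_lit 589) (nat_lit 6605)))))))) (.f (nat_lit 524) (nat_lit 527) (nat_lit 524) (.d (nat_lit 558) (nat_lit 523) (nat_lit 523) (nat_lit 557) (nat_lit 3596))))))) (.f (nat_lit 561) (nat_lit 527) (nat_lit 525) (.f (nat_lit 559) (nat_lit 558) (nat_lit 3597) (.f (nat_lit 591) (nat_lit 464) (nat_lit 5583) (.d (nat_lit 623) (nat_lit 592) (nat_lit 5615) (nat_lit 655) (nat_lit 6671)))))))))))))))) (.a (.p (nat_lit 496) (.a s108202 (.a (.p (nat_lit 464) (.a (.f (nat_lit 433) (nat_lit 465) (nat_lit 6576) (.f (nat_lit 432) (nat_lit 401) (nat_lit 6544) (.d (nat_lit 431) (nat_lit 399) (nat_lit 7567) (nat_lit 463) (nat_lit 7599)))) (.a (.f (nat_lit 433) (nat_lit 465) (nat_lit 6576) (.f (nat_lit 432) (nat_lit 401) (nat_lit 6544) (.f (nat_lit 527) (nat_lit 559) (nat_lit 5551) (.f (nat_lit 400) (nat_lit 495) (nat_lit 5519) (.d (nat_lit 399) (nat_lit 367) (nat_lit 7535) (nat_lit 431) (nat_lit 7567)))))) (.a (.f (nat_lit 431) (nat_lit 463) (nat_lit 7599) (.f (nat_lit 432) (nat_lit 399) (nat_lit 7567) (.f (nat_lit 527) (nat_lit 559) (nat_lit 5551) (.f (nat_lit 401) (nat_lit 433) (nat_lit 6544) (.d (nat_lit 400) (nat_lit 369) (nat_lit 6512) (nat_lit 495) (nat_lit 5519)))))) (.a (.f (nat_lit 559) (nat_lit 591) (nat_lit 5583) (.f (nat_lit 432) (nat_lit 527) (nat_lit 5551) (.d (nat_lit 433) (nat_lit 401) (nat_lit 6544) (nat_lit 465) (nat_lit 6576)))) (.a (.f (nat_lit 559) (nat_lit 591) (nat_lit 5583) (.f (nat_lit 432) (nat_lit 527) (nat_lit 5551) (.d (nat_lit 431) (nat_lit 399) (nat_lit 7567) (nat_lit 463) (nat_lit 7599)))) (.p (nat_lit 497) (.a (.f (nat_lit 527) (nat_lit 525) (nat_lit 2541) (.d (nat_lit 498) (nat_lit 495) (nat_lit 1518) (nat_lit 499) (nat_lit 1519))) (.a (.f (nat_lit 463) (nat_lit 431) (nat_lit 7599) (.f (nat_lit 465) (nat_lit 433) (nat_lit 6576) (.d (nat_lit 498) (nat_lit 462) (nat_lit 462) (nat_lit 499) (nat_lit 3535)))) (.f (nat_lit 525) (nat_lit 527) (nat_lit 2541) (.f (nat_lit 465) (nat_lit 433) (nat_lit 6576) (.f (nat_lit 494) (nat_lit 495) (nat_lit 1517) (.f (nat_lit 463) (nat_lit 431) (nat_lit 7599) (.d (nat_lit 462) (nat_lit 461) (nat_lit 461) (nat_lit 493) (nat_lit 1485))))))))))))))) (.a s109034 (.a (.p (nat_lit 495) (.a s109035 (.a (.p (nat_lit 525) (.a (.f (nat_lit 494) (nat_lit 497) (nat_lit 1517) (.d (nat_lit 524) (nat_lit 493) (nat_lit 1516) (nat_lit 523) (nat_lit 2539))) (.a (.d (nat_lit 527) (nat_lit 497) (nat_lit 2541) (nat_lit 524) (nat_lit 2540)) (.a (.f (nat_lit 524) (nat_lit 527) (nat_lit 2540) (.d (nat_lit 494) (nat_lit 493) (nat_lit 1516) (nat_lit 523) (nat_lit 2539))) (.d (nat_lit 497) (nat_lit 494) (nat_lit 1517) (nat_lit 527) (nat_lit 2541)))))) (.f (nat_lit 463) (nat_lit 592) (nat_lit 7631) (.d (nat_lit 431) (nat_lit 399) (nat_lit 4495) (nat_lit 527) (nat_lit 4527)))))) (.a (.p (nat_lit 497) (.a (.f (nat_lit 527) (nat_lit 525) (nat_lit 2541) (.d (nat_lit 498) (nat_lit 495) (nat_lit 1518) (nat_lit 499) (nat_lit 1519))) (.f (nat_lit 465) (nat_lit 592) (nat_lit 6608) (.d (nat_lit 433) (nat_lit 401) (nat_lit 5520) (nat_lit 464) (nat_lit 6576))))) (.a s109463 s109472))))))) (.a (.p (nat_lit 496) (.a (.p (nat_lit 464) (.a (.f (nat_lit 559) (nat_lit 591) (nat_lit 5583) (.f (nat_lit 527) (nat_lit 432) (nat_lit 5551) (.d (nat_lit 525) (nat_lit 524) (nat_lit 524) (nat_lit 561) (nat_lit 525)))) (.f (nat_lit 465) (nat_lit 433) (nat_lit 6576) (.f (nat_lit 463) (nat_lit 431) (nat_lit 7599) (.d (nat_lit 592) (nat_lit 495) (nat_lit 7631) (nat_lit 497) (nat_lit 6608)))))) (.a s109019 (.a s108202 (.a s111037 (.a (.p (nat_lit 497) (.a (.f (nat_lit 527) (nat_lit 525) (nat_lit 2541) (.d (nat_lit 498) (nat_lit 495) (nat_lit 1518) (nat_lit 499) (nat_lit 1519))) (.f (nat_lit 465) (nat_lit 592) (nat_lit 6608) (.d (nat_lit 433) (nat_lit 401) (nat_lit 5520) (nat_lit 464) (nat_lit 6576))))) (.a s109045 (.a (.p (nat_lit 525) (.a (.p (nat_lit 495) (.a (.f (nat_lit 494) (nat_lit 497) (nat_lit 1517) (.d (nat_lit 524) (nat_lit 493) (nat_lit 1516) (nat_lit 523) (nat_lit 2539))) (.f (nat_lit 463) (nat_lit 592) (nat_lit 7631) (.d (nat_lit 431) (nat_lit 399) (nat_lit 4495) (nat_lit 464) (nat_lit 7599))))) (.a (.d (nat_lit 527) (nat_lit 497) (nat_lit 2541) (nat_lit 561) (nat_lit 525)) (.f (nat_lit 527) (nat_lit 561) (nat_lit 525) (.d (nat_lit 524) (nat_lit 495) (nat_lit 2540) (nat_lit 559) (nat_lit 524)))))) s109063)))))))) (.a (.p (nat_lit 558) (.a s108171 (.a (.p (nat_lit 494) (.a (.p (nat_lit 462) (.a (.f (nat_lit 559) (nat_lit 591) (nat_lit 4558) (.f (nat_lit 525) (nat_lit 561) (nat_lit 3597) (.d (nat_lit 557) (nat_lit 524) (nat_lit 3596) (nat_lit 589) (nat_lit 5581)))) (.a (.f (nat_lit 557) (nat_lit 589) (nat_lit 5581) (.f (nat_lit 525) (nat_lit 430) (nat_lit 5549) (.d (nat_lit 559) (nat_lit 524) (nat_lit 3596) (nat_lit 561) (nat_lit 3597)))) (.f (nat_lit 431) (nat_lit 463) (nat_lit 6574) (.f (nat_lit 430) (nat_lit 399) (nat_lit 6542) (.d (nat_lit 429) (nat_lit 397) (nat_lit 7565) (nat_lit 461) (nat_lit 7597))))))) (.a (.p (nat_lit 590) (.a (.f (nat_lit 589) (nat_lit 621) (nat_lit 5613) (.f (nat_lit 559) (nat_lit 561) (nat_lit 1581) (.d (nat_lit 557) (nat_lit 462) (nat_lit 5581) (nat_lit 588) (nat_lit 1580)))) (.a (.f (nat_lit 589) (nat_lit 621) (nat_lit 5613) (.f (nat_lit 462) (nat_lit 557) (nat_lit 5581) (.d (nat_lit 461) (nat_lit 429) (nat_lit 7597) (nat_lit 493) (nat_lit 7629)))) (.a (.f (nat_lit 493) (nat_lit 461) (nat_lit 7629) (.f (nat_lit 622) (nat_lit 525) (nat_lit 7661) (.d (nat_lit 621) (nat_lit 589) (nat_lit 5613) (nat_lit 653) (nat_lit 5645)))) (.f (nat_lit 493) (nat_lit 461) (nat_lit 7629) (.f (nat_lit 525) (nat_lit 622) (nat_lit 7661) (.f (nat_lit 559) (nat_lit 561) (nat_lit 3597) (.d (nat_lit 524) (nat_lit 523) (nat_lit 523) (nat_lit 557) (nat_lit 3596))))))))) (.a s108095 (.a s108980 (.a s111074 (.a (.p (nat_lit 559) (.a (.f (nat_lit 525) (nat_lit 561) (nat_lit 3597) (.d (nat_lit 524) (nat_lit 523) (nat_lit 523) (nat_lit 557) (nat_lit 3596))) (.f (nat_lit 591) (nat_lit 462) (nat_lit 4558) (.f (nat_lit 623) (nat_lit 655) (nat_lit 6671) (.d (nat_lit 496) (nat_lit 464) (nat_lit 5583) (nat_lit 592) (nat_lit 5615)))))) (.p (nat_lit 590) (.a (.f (nat_lit 589) (nat_lit 621) (nat_lit 5613) (.f (nat_lit 559) (nat_lit 561) (nat_lit 1581) (.d (nat_lit 588) (nat_lit 557) (nat_lit 1580) (nat_lit 587) (nat_lit 2603)))) (.a (.f (nat_lit 621) (nat_lit 589) (nat_lit 5613) (.f (nat_lit 622) (nat_lit 653) (nat_lit 5645) (.d (nat_lit 623) (nat_lit 591) (nat_lit 4590) (nat_lit 655) (nat_lit 4622)))) (.f (nat_lit 623) (nat_lit 591) (nat_lit 4590) (.f (nat_lit 622) (nat_lit 655) (nat_lit 4622) (.d (nat_lit 493) (nat_lit 461) (nat_lit 7629) (nat_lit 525) (nat_lit 7661)))))))))))))) (.a s108943 (.a (.p (nat_lit 590) (.a s111082 (.a (.p (nat_lit 589) (.a (.f (nat_lit 621) (nat_lit 494) (nat_lit 5613) (.d (nat_lit 653) (nat_lit 557) (nat_lit 6669) (nat_lit 622) (nat_lit 5645))) (.a (.f (nat_lit 621) (nat_lit 494) (nat_lit 5613) (.d (nat_lit 653) (nat_lit 622) (nat_lit 5645) (nat_lit 685) (nat_lit 6701))) (.f (nat_lit 559) (nat_lit 561) (nat_lit 1581) (.d (nat_lit 588) (nat_lit 557) (nat_lit 1580) (nat_lit 587) (nat_lit 2603)))))) (.a s111103 (.a (.p (nat_lit 494) (.a (.f (nat_lit 591) (nat_lit 623) (nat_lit 4590) (.f (nat_lit 559) (nat_lit 462) (nat_lit 4558) (.d (nat_lit 589) (nat_lit 588) (nat_lit 2604) (nat_lit 621) (nat_lit 5613)))) (.a (.f (nat_lit 589) (nat_lit 621) (nat_lit 5613) (.f (nat_lit 559) (nat_lit 561) (nat_lit 1581) (.f (nat_lit 461) (nat_lit 493) (nat_lit 7629) (.f (nat_lit 462) (nat_lit 429) (nat_lit 7597) (.f (nat_lit 431) (nat_lit 463) (nat_lit 6574) (.d (nat_lit 430) (nat_lit 399) (nat_lit 6542) (nat_lit 527) (nat_lit 4526))))))) (.a (.f (nat_lit 621) (nat_lit 589) (nat_lit 5613) (.f (nat_lit 622) (nat_lit 653) (nat_lit 5645) (.d (nat_lit 623) (nat_lit 591) (nat_lit 4590) (nat_lit 655) (nat_lit 4622)))) (.f (nat_lit 591) (nat_lit 623) (nat_lit 4590) (.f (nat_lit 462) (nat_lit 559) (nat_lit 4558) (.d (nat_lit 461) (nat_lit 429) (nat_lit 7597) (nat_lit 493) (nat_lit 7629)))))))) (.a s111137 (.a (.p (nat_lit 622) (.a (.f (nat_lit 655) (nat_lit 623) (nat_lit 4622) (.f (nat_lit 654) (nat_lit 687) (nat_lit 4654) (.d (nat_lit 653) (nat_lit 621) (nat_lit 5645) (nat_lit 685) (nat_lit 5677)))) (.a (.f (nat_lit 653) (nat_lit 621) (nat_lit 5645) (.f (nat_lit 654) (nat_lit 685) (nat_lit 5677) (.f (nat_lit 559) (nat_lit 527) (nat_lit 6670) (.f (nat_lit 687) (nat_lit 655) (nat_lit 4654) (.d (nat_lit 686) (nat_lit 591) (nat_lit 6702) (nat_lit 719) (nat_lit 4686)))))) (.a (.f (nat_lit 653) (nat_lit 621) (nat_lit 5645) (.f (nat_lit 654) (nat_lit 685) (nat_lit 5677) (.f (nat_lit 559) (nat_lit 527) (nat_lit 6670) (.f (nat_lit 589) (nat_lit 561) (nat_lit 1581) (.d (nat_lit 588) (nat_lit 557) (nat_lit 1580) (nat_lit 587) (nat_lit 2603)))))) (.a (.f (nat_lit 655) (nat_lit 623) (nat_lit 4622) (.f (nat_lit 654) (nat_lit 687) (nat_lit 4654) (.f (nat_lit 559) (nat_lit 527) (nat_lit 6670) (.f (nat_lit 589) (nat_lit 561) (nat_lit 1581) (.d (nat_lit 588) (nat_lit 557) (nat_lit 1580) (nat_lit 587) (nat_lit 2603)))))) (.p (nat_lit 589) (.a (.f (nat_lit 559) (nat_lit 561) (nat_lit 1581) (.d (nat_lit 588) (nat_lit 557) (nat_lit 1580) (nat_lit 587) (nat_lit 2603))) (.a (.f (nat_lit 623) (nat_lit 655) (nat_lit 4622) (.f (nat_lit 621) (nat_lit 653) (nat_lit 5645) (.d (nat_lit 624) (nat_lit 588) (nat_lit 3660) (nat_lit 625) (nat_lit 3661)))) (.f (nat_lit 621) (nat_lit 653) (nat_lit 5645) (.f (nat_lit 623) (nat_lit 655) (nat_lit 4622) (.f (nat_lit 624) (nat_lit 625) (nat_lit 3661) (.f (nat_lit 559) (nat_lit 561) (nat_lit 1581) (.f (nat_lit 656) (nat_lit 657) (nat_lit 621) (.d (nat_lit 527) (nat_lit 591) (nat_lit 4623) (nat_lit 592) (nat_lit 7695))))))))))))))) (.p (nat_lit 622) (.a (.f (nat_lit 623) (nat_lit 655) (nat_lit 4622) (.f (nat_lit 591) (nat_lit 494) (nat_lit 4590) (.f (nat_lit 496) (nat_lit 592) (nat_lit 5615) (.d (nat_lit 559) (nat_lit 464) (nat_lit 5583) (nat_lit 527) (nat_lit 6639))))) (.a (.f (nat_lit 655) (nat_lit 623) (nat_lit 4622) (.f (nat_lit 654) (nat_lit 687) (nat_lit 4654) (.f (nat_lit 559) (nat_lit 527) (nat_lit 6670) (.f (nat_lit 589) (nat_lit 561) (nat_lit 1581) (.d (nat_lit 588) (nat_lit 557) (nat_lit 1580) (nat_lit 587) (nat_lit 2603)))))) (.a (.f (nat_lit 623) (nat_lit 655) (nat_lit 4622) (.f (nat_lit 591) (nat_lit 494) (nat_lit 4590) (.f (nat_lit 592) (nat_lit 496) (nat_lit 5615) (.f (nat_lit 589) (nat_lit 561) (nat_lit 2605) (.d (nat_lit 588) (nat_lit 559) (nat_lit 2604) (nat_lit 587) (nat_lit 587)))))) (.a (.f (nat_lit 623) (nat_lit 655) (nat_lit 4622) (.f (nat_lit 591) (nat_lit 494) (nat_lit 4590) (.f (nat_lit 592) (nat_lit 496) (nat_lit 5615) (.f (nat_lit 589) (nat_lit 561) (nat_lit 2605) (.d (nat_lit 588) (nat_lit 587) (nat_lit 587) (nat_lit 624) (nat_lit 588)))))) (.p (nat_lit 559) (.a (.f (nat_lit 589) (nat_lit 561) (nat_lit 1581) (.d (nat_lit 588) (nat_lit 557) (nat_lit 1580) (nat_lit 587) (nat_lit 2603))) (.a (.f (nat_lit 654) (nat_lit 527) (nat_lit 6670) (.f (nat_lit 591) (nat_lit 686) (nat_lit 6702) (.d (nat_lit 561) (nat_lit 562) (nat_lit 1582) (nat_lit 589) (nat_lit 1581)))) (.f (nat_lit 654) (nat_lit 527) (nat_lit 6670) (.f (nat_lit 686) (nat_lit 591) (nat_lit 6702) (.d (nat_lit 685) (nat_lit 653) (nat_lit 5677) (nat_lit 717) (nat_lit 5709))))))))))))))))))) (.a (.p (nat_lit 590) (.a s108106 (.a s111103 (.a (.p (nat_lit 494) (.a (.f (nat_lit 493) (nat_lit 461) (nat_lit 7629) (.f (nat_lit 525) (nat_lit 622) (nat_lit 7661) (.d (nat_lit 527) (nat_lit 492) (nat_lit 3564) (nat_lit 561) (nat_lit 525)))) (.a (.f (nat_lit 589) (nat_lit 621) (nat_lit 5613) (.f (nat_lit 462) (nat_lit 557) (nat_lit 5581) (.d (nat_lit 461) (nat_lit 429) (nat_lit 7597) (nat_lit 493) (nat_lit 7629)))) (.a (.f (nat_lit 589) (nat_lit 621) (nat_lit 5613) (.f (nat_lit 462) (nat_lit 557) (nat_lit 5581) (.f (nat_lit 431) (nat_lit 463) (nat_lit 6574) (.f (nat_lit 430) (nat_lit 399) (nat_lit 6542) (.d (nat_lit 429) (nat_lit 397) (nat_lit 7565) (nat_lit 461) (nat_lit 7597)))))) (.f (nat_lit 621) (nat_lit 589) (nat_lit 5613) (.f (nat_lit 622) (nat_lit 653) (nat_lit 5645) (.f (nat_lit 525) (nat_lit 493) (nat_lit 7661) (.f (nat_lit 527) (nat_lit 561) (nat_lit 525) (.d (nat_lit 557) (nat_lit 556) (nat_lit 1548) (nat_lit 654) (nat_lit 7693)))))))))) (.a s111187 (.a (.p (nat_lit 525) (.a (.f (nat_lit 527) (nat_lit 561) (nat_lit 525) (.d (nat_lit 493) (nat_lit 492) (nat_lit 3564) (nat_lit 622) (nat_lit 7661))) (.a (.f (nat_lit 622) (nat_lit 493) (nat_lit 7661) (.f (nat_lit 654) (nat_lit 557) (nat_lit 7693) (.d (nat_lit 653) (nat_lit 621) (nat_lit 5645) (nat_lit 685) (nat_lit 5677)))) (.a (.f (nat_lit 527) (nat_lit 561) (nat_lit 525) (.f (nat_lit 557) (nat_lit 556) (nat_lit 1548) (.f (nat_lit 622) (nat_lit 654) (nat_lit 7693) (.f (nat_lit 623) (nat_lit 655) (nat_lit 4622) (.f (nat_lit 496) (nat_lit 497) (nat_lit 2541) (.d (nat_lit 591) (nat_lit 494) (nat_lit 4590) (nat_lit 592) (nat_lit 5615))))))) (.f (nat_lit 527) (nat_lit 561) (nat_lit 525) (.f (nat_lit 557) (nat_lit 556) (nat_lit 1548) (.d (nat_lit 493) (nat_lit 461) (nat_lit 4557) (nat_lit 492) (nat_lit 3564)))))))) (.a (.p (nat_lit 525) (.a (.f (nat_lit 527) (nat_lit 561) (nat_lit 525) (.d (nat_lit 493) (nat_lit 492) (nat_lit 3564) (nat_lit 622) (nat_lit 7661))) (.a (.f (nat_lit 622) (nat_lit 493) (nat_lit 7661) (.f (nat_lit 654) (nat_lit 557) (nat_lit 7693) (.d (nat_lit 653) (nat_lit 621) (nat_lit 5645) (nat_lit 685) (nat_lit 5677)))) (.a (.f (nat_lit 527) (nat_lit 561) (nat_lit 525) (.f (nat_lit 557) (nat_lit 556) (nat_lit 1548) (.f (nat_lit 622) (nat_lit 654) (nat_lit 7693) (.f (nat_lit 621) (nat_lit 653) (nat_lit 5645) (.f (nat_lit 623) (nat_lit 655) (nat_lit 4622) (.f (nat_lit 496) (nat_lit 497) (nat_lit 2541) (.f (nat_lit 591) (nat_lit 592) (nat_lit 5615) (.f (nat_lit 620) (nat_lit 619) (nat_lit 2635) (.d (nat_lit 652) (nat_lit 589) (nat_lit 5644) (nat_lit 651) (nat_lit 1643)))))))))) (.f (nat_lit 527) (nat_lit 561) (nat_lit 525) (.f (nat_lit 557) (nat_lit 556) (nat_lit 1548) (.d (nat_lit 493) (nat_lit 461) (nat_lit 4557) (nat_lit 492) (nat_lit 3564)))))))) (.a s111217 (.a (.p (nat_lit 494) (.a (.f (nat_lit 589) (nat_lit 621) (nat_lit 5613) (.f (nat_lit 462) (nat_lit 557) (nat_lit 5581) (.d (nat_lit 461) (nat_lit 429) (nat_lit 7597) (nat_lit 493) (nat_lit 7629)))) (.a s110456 (.a (.p (nat_lit 462) (.a (.d (nat_lit 461) (nat_lit 429) (nat_lit 7597) (nat_lit 493) (nat_lit 7629)) (.a (.f (nat_lit 431) (nat_lit 463) (nat_lit 6574) (.f (nat_lit 430) (nat_lit 399) (nat_lit 6542) (.d (nat_lit 429) (nat_lit 397) (nat_lit 7565) (nat_lit 461) (nat_lit 7597)))) (.f (nat_lit 431) (nat_lit 463) (nat_lit 6574) (.f (nat_lit 430) (nat_lit 399) (nat_lit 6542) (.f (nat_lit 525) (nat_lit 557) (nat_lit 5549) (.f (nat_lit 527) (nat_lit 561) (nat_lit 525) (.d (nat_lit 493) (nat_lit 398) (nat_lit 5517) (nat_lit 492) (nat_lit 3564))))))))) (.a (.f (nat_lit 493) (nat_lit 461) (nat_lit 7629) (.f (nat_lit 591) (nat_lit 623) (nat_lit 4590) (.f (nat_lit 589) (nat_lit 621) (nat_lit 5613) (.f (nat_lit 592) (nat_lit 561) (nat_lit 2605) (.f (nat_lit 556) (nat_lit 557) (nat_lit 3628) (.f (nat_lit 588) (nat_lit 555) (nat_lit 3627) (.f (nat_lit 620) (nat_lit 619) (nat_lit 1611) (.f (nat_lit 524) (nat_lit 525) (nat_lit 6636) (.f (nat_lit 491) (nat_lit 523) (nat_lit 7659) (.d (nat_lit 492) (nat_lit 459) (nat_lit 7627) (nat_lit 527) (nat_lit 491))))))))))) (.a (.f (nat_lit 589) (nat_lit 621) (nat_lit 5613) (.f (nat_lit 462) (nat_lit 557) (nat_lit 5581) (.f (nat_lit 431) (nat_lit 463) (nat_lit 6574) (.f (nat_lit 430) (nat_lit 399) (nat_lit 6542) (.d (nat_lit 429) (nat_lit 397) (nat_lit 7565) (nat_lit 461) (nat_lit 7597)))))) (.f (nat_lit 589) (nat_lit 621) (nat_lit 5613) (.f (nat_lit 591) (nat_lit 623) (nat_lit 4590) (.f (nat_lit 557) (nat_lit 462) (nat_lit 5581) (.d (nat_lit 592) (nat_lit 556) (nat_lit 3628) (nat_lit 561) (nat_lit 2605))))))))))) s111227))))))))) (.a (.p (nat_lit 494) (.a (.p (nat_lit 462) (.a (.f (nat_lit 559) (nat_lit 591) (nat_lit 4558) (.f (nat_lit 527) (nat_lit 430) (nat_lit 4526) (.d (nat_lit 561) (nat_lit 525) (nat_lit 3597) (nat_lit 562) (nat_lit 3598)))) (.a (.f (nat_lit 431) (nat_lit 463) (nat_lit 6574) (.f (nat_lit 430) (nat_lit 399) (nat_lit 6542) (.d (nat_lit 429) (nat_lit 397) (nat_lit 7565) (nat_lit 461) (nat_lit 7597)))) (.f (nat_lit 559) (nat_lit 591) (nat_lit 4558) (.f (nat_lit 525) (nat_lit 561) (nat_lit 3597) (.d (nat_lit 524) (nat_lit 523) (nat_lit 523) (nat_lit 527) (nat_lit 524))))))) (.a s111074 (.a (.p (nat_lit 462) (.a (.f (nat_lit 431) (nat_lit 463) (nat_lit 6574) (.f (nat_lit 430) (nat_lit 399) (nat_lit 6542) (.d (nat_lit 429) (nat_lit 397) (nat_lit 7565) (nat_lit 461) (nat_lit 7597)))) (.a (.f (nat_lit 429) (nat_lit 461) (nat_lit 7597) (.f (nat_lit 430) (nat_lit 397) (nat_lit 7565) (.f (nat_lit 527) (nat_lit 559) (nat_lit 4526) (.f (nat_lit 525) (nat_lit 561) (nat_lit 525) (.d (nat_lit 493) (nat_lit 398) (nat_lit 5517) (nat_lit 492) (nat_lit 3564)))))) (.a (.f (nat_lit 431) (nat_lit 463) (nat_lit 6574) (.f (nat_lit 430) (nat_lit 399) (nat_lit 6542) (.f (nat_lit 527) (nat_lit 559) (nat_lit 4526) (.f (nat_lit 525) (nat_lit 561) (nat_lit 525) (.d (nat_lit 493) (nat_lit 398) (nat_lit 5517) (nat_lit 492) (nat_lit 3564)))))) (.f (nat_lit 461) (nat_lit 429) (nat_lit 7597) (.f (nat_lit 463) (nat_lit 431) (nat_lit 6574) (.f (nat_lit 493) (nat_lit 590) (nat_lit 7629) (.d (nat_lit 492) (nat_lit 464) (nat_lit 1484) (nat_lit 491) (nat_lit 2507))))))))) (.a (.p (nat_lit 462) (.a (.f (nat_lit 431) (nat_lit 463) (nat_lit 6574) (.f (nat_lit 430) (nat_lit 399) (nat_lit 6542) (.d (nat_lit 429) (nat_lit 397) (nat_lit 7565) (nat_lit 461) (nat_lit 7597)))) (.f (nat_lit 591) (nat_lit 559) (nat_lit 4558) (.f (nat_lit 623) (nat_lit 590) (nat_lit 4590) (.f (nat_lit 592) (nat_lit 496) (nat_lit 5615) (.d (nat_lit 655) (nat_lit 624) (nat_lit 5647) (nat_lit 687) (nat_lit 6703))))))) (.a s110457 (.a (.p (nat_lit 590) (.a (.f (nat_lit 493) (nat_lit 461) (nat_lit 7629) (.f (nat_lit 525) (nat_lit 622) (nat_lit 7661) (.d (nat_lit 527) (nat_lit 492) (nat_lit 3564) (nat_lit 561) (nat_lit 525)))) (.a (.f (nat_lit 591) (nat_lit 623) (nat_lit 4590) (.f (nat_lit 589) (nat_lit 621) (nat_lit 5613) (.d (nat_lit 559) (nat_lit 561) (nat_lit 1581) (nat_lit 588) (nat_lit 2604)))) (.f (nat_lit 493) (nat_lit 461) (nat_lit 7629) (.f (nat_lit 525) (nat_lit 622) (nat_lit 7661) (.f (nat_lit 527) (nat_lit 492) (nat_lit 3564) (.f (nat_lit 559) (nat_lit 524) (nat_lit 524) (.f (nat_lit 591) (nat_lit 623) (nat_lit 4590) (.d (nat_lit 589) (nat_lit 588) (nat_lit 2604) (nat_lit 621) (nat_lit 5613)))))))))) (.p (nat_lit 590) (.a (.f (nat_lit 591) (nat_lit 623) (nat_lit 4590) (.f (nat_lit 559) (nat_lit 462) (nat_lit 4558) (.d (nat_lit 561) (nat_lit 525) (nat_lit 3597) (nat_lit 589) (nat_lit 1581)))) (.a (.f (nat_lit 621) (nat_lit 589) (nat_lit 5613) (.f (nat_lit 622) (nat_lit 653) (nat_lit 5645) (.f (nat_lit 525) (nat_lit 493) (nat_lit 7661) (.d (nat_lit 561) (nat_lit 527) (nat_lit 525) (nat_lit 559) (nat_lit 3597))))) (.a (.f (nat_lit 591) (nat_lit 623) (nat_lit 4590) (.f (nat_lit 559) (nat_lit 462) (nat_lit 4558) (.d (nat_lit 589) (nat_lit 588) (nat_lit 2604) (nat_lit 621) (nat_lit 5613)))) (.a (.f (nat_lit 621) (nat_lit 589) (nat_lit 5613) (.f (nat_lit 622) (nat_lit 653) (nat_lit 5645) (.d (nat_lit 623) (nat_lit 591) (nat_lit 4590) (nat_lit 655) (nat_lit 4622)))) (.f (nat_lit 591) (nat_lit 623) (nat_lit 4590) (.f (nat_lit 559) (nat_lit 462) (nat_lit 4558) (.d (nat_lit 561) (nat_lit 525) (nat_lit 3597) (nat_lit 562) (nat_lit 1582)))))))))))))))) (.a (.p (nat_lit 494) (.a s108087 (.a s108980 (.a (.p (nat_lit 590) (.a (.f (nat_lit 493) (nat_lit 461) (nat_lit 7629) (.f (nat_lit 525) (nat_lit 622) (nat_lit 7661) (.f (nat_lit 527) (nat_lit 492) (nat_lit 3564) (.f (nat_lit 557) (nat_lit 556) (nat_lit 1548) (.d (nat_lit 589) (nat_lit 462) (nat_lit 6605) (nat_lit 621) (nat_lit 5613)))))) (.a (.f (nat_lit 589) (nat_lit 621) (nat_lit 5613) (.f (nat_lit 462) (nat_lit 557) (nat_lit 5581) (.d (nat_lit 461) (nat_lit 429) (nat_lit 7597) (nat_lit 493) (nat_lit 7629)))) (.a (.f (nat_lit 493) (nat_lit 461) (nat_lit 7629) (.f (nat_lit 622) (nat_lit 525) (nat_lit 7661) (.d (nat_lit 621) (nat_lit 589) (nat_lit 5613) (nat_lit 653) (nat_lit 5645)))) (.a (.f (nat_lit 493) (nat_lit 461) (nat_lit 7629) (.f (nat_lit 525) (nat_lit 622) (nat_lit 7661) (.f (nat_lit 527) (nat_lit 492) (nat_lit 3564) (.f (nat_lit 524) (nat_lit 559) (nat_lit 524) (.d (nat_lit 556) (nat_lit 555) (nat_lit 1547) (nat_lit 557) (nat_lit 1548)))))) (.a (.f (nat_lit 589) (nat_lit 621) (nat_lit 5613) (.f (nat_lit 462) (nat_lit 557) (nat_lit 5581) (.f (nat_lit 431) (nat_lit 463) (nat_lit 6574) (.f (nat_lit 430) (nat_lit 399) (nat_lit 6542) (.d (nat_lit 429) (nat_lit 397) (nat_lit 7565) (nat_lit 461) (nat_lit 7597)))))) (.f (nat_lit 589) (nat_lit 621) (nat_lit 5613) (.f (nat_lit 557) (nat_lit 462) (nat_lit 5581) (.f (nat_lit 559) (nat_lit 588) (nat_lit 1580) (.f (nat_lit 525) (nat_lit 524) (nat_lit 3596) (.d (nat_lit 622) (nat_lit 493) (nat_lit 7661) (nat_lit 654) (nat_lit 7693)))))))))))) (.a (.p (nat_lit 462) (.a (.f (nat_lit 431) (nat_lit 463) (nat_lit 6574) (.f (nat_lit 430) (nat_lit 399) (nat_lit 6542) (.d (nat_lit 429) (nat_lit 397) (nat_lit 7565) (nat_lit 461) (nat_lit 7597)))) (.f (nat_lit 591) (nat_lit 559) (nat_lit 4558) (.f (nat_lit 623) (nat_lit 590) (nat_lit 4590) (.f (nat_lit 592) (nat_lit 496) (nat_lit 5615) (.d (nat_lit 655) (nat_lit 624) (nat_lit 5647) (nat_lit 687) (nat_lit 6703))))))) (.a (.p (nat_lit 590) (.a (.f (nat_lit 493) (nat_lit 461) (nat_lit 7629) (.f (nat_lit 525) (nat_lit 622) (nat_lit 7661) (.f (nat_lit 527) (nat_lit 492) (nat_lit 3564) (.f (nat_lit 559) (nat_lit 524) (nat_lit 524) (.f (nat_lit 591) (nat_lit 623) (nat_lit 4590) (.d (nat_lit 589) (nat_lit 588) (nat_lit 2604) (nat_lit 621) (nat_lit 5613))))))) (.a (.f (nat_lit 621) (nat_lit 589) (nat_lit 5613) (.f (nat_lit 622) (nat_lit 653) (nat_lit 5645) (.d (nat_lit 623) (nat_lit 591) (nat_lit 4590) (nat_lit 655) (nat_lit 4622)))) (.a (.f (nat_lit 493) (nat_lit 461) (nat_lit 7629) (.f (nat_lit 622) (nat_lit 525) (nat_lit 7661) (.d (nat_lit 621) (nat_lit 589) (nat_lit 5613) (nat_lit 653) (nat_lit 5645)))) (.a (.f (nat_lit 623) (nat_lit 591) (nat_lit 4590) (.f (nat_lit 622) (nat_lit 655) (nat_lit 4622) (.d (nat_lit 493) (nat_lit 461) (nat_lit 7629) (nat_lit 525) (nat_lit 7661)))) (.f (nat_lit 591) (nat_lit 623) (nat_lit 4590) (.f (nat_lit 589) (nat_lit 621) (nat_lit 5613) (.f (nat_lit 588) (nat_lit 559) (nat_lit 2604) (.f (nat_lit 556) (nat_lit 555) (nat_lit 3627) (.f (nat_lit 557) (nat_lit 592) (nat_lit 3628) (.f (nat_lit 620) (nat_lit 619) (nat_lit 1611) (.d (nat_lit 493) (nat_lit 461) (nat_lit 7629) (nat_lit 525) (nat_lit 5612))))))))))))) (.p (nat_lit 590) (.a (.f (nat_lit 591) (nat_lit 623) (nat_lit 4590) (.f (nat_lit 559) (nat_lit 462) (nat_lit 4558) (.d (nat_lit 589) (nat_lit 588) (nat_lit 2604) (nat_lit 621) (nat_lit 5613)))) (.a (.f (nat_lit 589) (nat_lit 621) (nat_lit 5613) (.f (nat_lit 557) (nat_lit 462) (nat_lit 5581) (.f (nat_lit 559) (nat_lit 588) (nat_lit 1580) (.f (nat_lit 525) (nat_lit 524) (nat_lit 3596) (.d (nat_lit 622) (nat_lit 493) (nat_lit 7661) (nat_lit 654) (nat_lit 7693)))))) (.a (.f (nat_lit 589) (nat_lit 621) (nat_lit 5613) (.f (nat_lit 557) (nat_lit 462) (nat_lit 5581) (.f (nat_lit 623) (nat_lit 591) (nat_lit 4590) (.f (nat_lit 622) (nat_lit 655) (nat_lit 4622) (.d (nat_lit 654) (nat_lit 525) (nat_lit 7693) (nat_lit 686) (nat_lit 7725)))))) (.a (.f (nat_lit 623) (nat_lit 591) (nat_lit 4590) (.f (nat_lit 622) (nat_lit 655) (nat_lit 4622) (.f (nat_lit 653) (nat_lit 621) (nat_lit 5645) (.f (nat_lit 654) (nat_lit 685) (nat_lit 5677) (.d (nat_lit 525) (nat_lit 493) (nat_lit 7661) (nat_lit 557) (nat_lit 7693)))))) (.f (nat_lit 591) (nat_lit 623) (nat_lit 4590) (.f (nat_lit 462) (nat_lit 559) (nat_lit 4558) (.f (nat_lit 557) (nat_lit 589) (nat_lit 5581) (.f (nat_lit 525) (nat_lit 430) (nat_lit 5549) (.d (nat_lit 556) (nat_lit 527) (nat_lit 1548) (nat_lit 555) (nat_lit 555))))))))))))))))) (.a (.p (nat_lit 525) (.a (.f (nat_lit 559) (nat_lit 561) (nat_lit 3597) (.d (nat_lit 524) (nat_lit 523) (nat_lit 523) (nat_lit 557) (nat_lit 3596))) (.a (.f (nat_lit 527) (nat_lit 561) (nat_lit 525) (.f (nat_lit 557) (nat_lit 556) (nat_lit 1548) (.f (nat_lit 493) (nat_lit 492) (nat_lit 3564) (.d (nat_lit 461) (nat_lit 429) (nat_lit 4525) (nat_lit 590) (nat_lit 4557))))) (.a (.d (nat_lit 561) (nat_lit 527) (nat_lit 525) (nat_lit 559) (nat_lit 3597)) (.p (nat_lit 493) (.a (.f (nat_lit 527) (nat_lit 492) (nat_lit 3564) (.f (nat_lit 559) (nat_lit 524) (nat_lit 524) (.f (nat_lit 557) (nat_lit 556) (nat_lit 2572) (.d (nat_lit 461) (nat_lit 429) (nat_lit 4525) (nat_lit 590) (nat_lit 4557))))) (.a (.f (nat_lit 461) (nat_lit 429) (nat_lit 4525) (.d (nat_lit 590) (nat_lit 557) (nat_lit 4557) (nat_lit 622) (nat_lit 7661))) (.f (nat_lit 527) (nat_lit 492) (nat_lit 3564) (.f (nat_lit 559) (nat_lit 524) (nat_lit 524) (.f (nat_lit 496) (nat_lit 497) (nat_lit 2541) (.d (nat_lit 464) (nat_lit 432) (nat_lit 5551) (nat_lit 591) (nat_lit 5583)))))))))))) (.p (nat_lit 559) (.a (.f (nat_lit 525) (nat_lit 561) (nat_lit 3597) (.d (nat_lit 524) (nat_lit 523) (nat_lit 523) (nat_lit 557) (nat_lit 3596))) (.a (.p (nat_lit 557) (.a (.f (nat_lit 588) (nat_lit 589) (nat_lit 1580) (.f (nat_lit 556) (nat_lit 587) (nat_lit 1579) (.f (nat_lit 591) (nat_lit 592) (nat_lit 556) (.f (nat_lit 555) (nat_lit 590) (nat_lit 555) (.d (nat_lit 523) (nat_lit 522) (nat_lit 3594) (nat_lit 524) (nat_lit 3595)))))) (.a (.f (nat_lit 556) (nat_lit 527) (nat_lit 2572) (.d (nat_lit 588) (nat_lit 587) (nat_lit 1579) (nat_lit 589) (nat_lit 1580))) (.a (.f (nat_lit 556) (nat_lit 527) (nat_lit 2572) (.f (nat_lit 591) (nat_lit 592) (nat_lit 556) (.f (nat_lit 555) (nat_lit 590) (nat_lit 555) (.d (nat_lit 587) (nat_lit 586) (nat_lit 1578) (nat_lit 588) (nat_lit 1579))))) (.a (.f (nat_lit 527) (nat_lit 556) (nat_lit 2572) (.f (nat_lit 561) (nat_lit 562) (nat_lit 3598) (.f (nat_lit 590) (nat_lit 589) (nat_lit 1581) (.f (nat_lit 622) (nat_lit 654) (nat_lit 6670) (.f (nat_lit 623) (nat_lit 655) (nat_lit 4622) (.d (nat_lit 591) (nat_lit 494) (nat_lit 4590) (nat_lit 496) (nat_lit 6639))))))) (.f (nat_lit 589) (nat_lit 588) (nat_lit 1580) (.f (nat_lit 561) (nat_lit 590) (nat_lit 1581) (.f (nat_lit 562) (nat_lit 527) (nat_lit 3598) (.f (nat_lit 531) (nat_lit 530) (nat_lit 2575) (.f (nat_lit 563) (nat_lit 532) (nat_lit 2576) (.d (nat_lit 595) (nat_lit 594) (nat_lit 559) (nat_lit 596) (nat_lit 560)))))))))))) (.a (.f (nat_lit 561) (nat_lit 525) (nat_lit 3597) (.f (nat_lit 562) (nat_lit 527) (nat_lit 3598) (.d (nat_lit 590) (nat_lit 589) (nat_lit 1581) (nat_lit 591) (nat_lit 1582)))) (.p (nat_lit 557) (.a (.f (nat_lit 588) (nat_lit 589) (nat_lit 1580) (.f (nat_lit 556) (nat_lit 587) (nat_lit 1579) (.f (nat_lit 591) (nat_lit 592) (nat_lit 556) (.f (nat_lit 555) (nat_lit 590) (nat_lit 555) (.d (nat_lit 523) (nat_lit 522) (nat_lit 3594) (nat_lit 524) (nat_lit 3595)))))) (.a (.f (nat_lit 556) (nat_lit 527) (nat_lit 2572) (.d (nat_lit 588) (nat_lit 587) (nat_lit 1579) (nat_lit 589) (nat_lit 1580))) (.a (.f (nat_lit 556) (nat_lit 527) (nat_lit 2572) (.f (nat_lit 591) (nat_lit 592) (nat_lit 556) (.f (nat_lit 555) (nat_lit 590) (nat_lit 555) (.d (nat_lit 587) (nat_lit 586) (nat_lit 1578) (nat_lit 588) (nat_lit 1579))))) (.a (.f (nat_lit 556) (nat_lit 527) (nat_lit 2572) (.d (nat_lit 524) (nat_lit 523) (nat_lit 3595) (nat_lit 525) (nat_lit 3596))) (.f (nat_lit 525) (nat_lit 524) (nat_lit 3596) (.f (nat_lit 589) (nat_lit 588) (nat_lit 1580) (.d (nat_lit 494) (nat_lit 462) (nat_lit 5581) (nat_lit 621) (nat_lit 6637)))))))))))))))))))))) (.a (.p (nat_lit 590) (.a (.p (nat_lit 558) (.a (.p (nat_lit 494) (.a (.f (nat_lit 589) (nat_lit 621) (nat_lit 5613) (.f (nat_lit 559) (nat_lit 561) (nat_lit 1581) (.d (nat_lit 557) (nat_lit 462) (nat_lit 5581) (nat_lit 588) (nat_lit 1580)))) (.f (nat_lit 495) (nat_lit 463) (nat_lit 6606) (.f (nat_lit 493) (nat_lit 461) (nat_lit 7629) (.d (nat_lit 527) (nat_lit 492) (nat_lit 492) (nat_lit 622) (nat_lit 6638)))))) (.a s111318 (.a s108106 (.a s111137 (.a s111082 (.p (nat_lit 525) (.a (.d (nat_lit 561) (nat_lit 527) (nat_lit 525) (nat_lit 559) (nat_lit 3597)) (.a (.f (nat_lit 622) (nat_lit 493) (nat_lit 7661) (.f (nat_lit 559) (nat_lit 561) (nat_lit 3597) (.d (nat_lit 557) (nat_lit 524) (nat_lit 3596) (nat_lit 654) (nat_lit 7693)))) (.a (.f (nat_lit 527) (nat_lit 561) (nat_lit 525) (.d (nat_lit 493) (nat_lit 492) (nat_lit 3564) (nat_lit 622) (nat_lit 7661))) (.f (nat_lit 622) (nat_lit 493) (nat_lit 7661) (.f (nat_lit 527) (nat_lit 495) (nat_lit 6638) (.d (nat_lit 557) (nat_lit 556) (nat_lit 1548) (nat_lit 654) (nat_lit 7693)))))))))))))) (.a (.p (nat_lit 558) (.a (.p (nat_lit 494) (.a (.f (nat_lit 589) (nat_lit 621) (nat_lit 5613) (.f (nat_lit 559) (nat_lit 561) (nat_lit 1581) (.d (nat_lit 557) (nat_lit 462) (nat_lit 5581) (nat_lit 588) (nat_lit 1580)))) (.f (nat_lit 495) (nat_lit 463) (nat_lit 6606) (.f (nat_lit 493) (nat_lit 461) (nat_lit 7629) (.d (nat_lit 527) (nat_lit 492) (nat_lit 492) (nat_lit 622) (nat_lit 6638)))))) (.a s111318 (.a s108106 (.a (.p (nat_lit 494) (.a (.f (nat_lit 495) (nat_lit 463) (nat_lit 6606) (.f (nat_lit 493) (nat_lit 461) (nat_lit 7629) (.d (nat_lit 527) (nat_lit 492) (nat_lit 492) (nat_lit 622) (nat_lit 6638)))) (.f (nat_lit 591) (nat_lit 623) (nat_lit 4590) (.f (nat_lit 559) (nat_lit 462) (nat_lit 4558) (.d (nat_lit 561) (nat_lit 525) (nat_lit 3597) (nat_lit 589) (nat_lit 1581)))))) (.a (.p (nat_lit 494) (.a (.f (nat_lit 495) (nat_lit 463) (nat_lit 6606) (.f (nat_lit 493) (nat_lit 461) (nat_lit 7629) (.d (nat_lit 527) (nat_lit 492) (nat_lit 492) (nat_lit 622) (nat_lit 6638)))) (.f (nat_lit 591) (nat_lit 623) (nat_lit 4590) (.f (nat_lit 559) (nat_lit 462) (nat_lit 4558) (.d (nat_lit 589) (nat_lit 588) (nat_lit 2604) (nat_lit 621) (nat_lit 5613)))))) (.a (.p (nat_lit 589) (.a (.f (nat_lit 621) (nat_lit 494) (nat_lit 5613) (.d (nat_lit 653) (nat_lit 557) (nat_lit 6669) (nat_lit 622) (nat_lit 5645))) (.a (.f (nat_lit 621) (nat_lit 494) (nat_lit 5613) (.d (nat_lit 653) (nat_lit 622) (nat_lit 5645) (nat_lit 685) (nat_lit 6701))) (.f (nat_lit 559) (nat_lit 561) (nat_lit 1581) (.d (nat_lit 588) (nat_lit 557) (nat_lit 1580) (nat_lit 587) (nat_lit 2603)))))) s111082))))))) (.a (.p (nat_lit 558) (.a s111318 (.a s111082 (.a s111103 (.a s111187 (.a (.p (nat_lit 589) (.a (.f (nat_lit 621) (nat_lit 494) (nat_lit 5613) (.d (nat_lit 653) (nat_lit 557) (nat_lit 6669) (nat_lit 622) (nat_lit 5645))) (.a (.f (nat_lit 621) (nat_lit 494) (nat_lit 5613) (.d (nat_lit 653) (nat_lit 622) (nat_lit 5645) (nat_lit 685) (nat_lit 6701))) (.f (nat_lit 559) (nat_lit 561) (nat_lit 1581) (.d (nat_lit 588) (nat_lit 557) (nat_lit 1580) (nat_lit 587) (nat_lit 2603)))))) (.p (nat_lit 494) (.a (.f (nat_lit 591) (nat_lit 623) (nat_lit 4590) (.f (nat_lit 559) (nat_lit 462) (nat_lit 4558) (.d (nat_lit 561) (nat_lit 525) (nat_lit 3597) (nat_lit 589) (nat_lit 1581)))) (.a (.f (nat_lit 493) (nat_lit 461) (nat_lit 7629) (.f (nat_lit 525) (nat_lit 622) (nat_lit 7661) (.f (nat_lit 495) (nat_lit 463) (nat_lit 6606) (.d (nat_lit 524) (nat_lit 496) (nat_lit 1516) (nat_lit 523) (nat_lit 2539))))) (.f (nat_lit 591) (nat_lit 623) (nat_lit 4590) (.f (nat_lit 462) (nat_lit 559) (nat_lit 4558) (.d (nat_lit 461) (nat_lit 429) (nat_lit 7597) (nat_lit 493) (nat_lit 7629))))))))))))) (.a (.p (nat_lit 558) (.a (.p (nat_lit 494) (.a (.f (nat_lit 589) (nat_lit 621) (nat_lit 5613) (.f (nat_lit 559) (nat_lit 561) (nat_lit 1581) (.d (nat_lit 557) (nat_lit 462) (nat_lit 5581) (nat_lit 588) (nat_lit 1580)))) (.f (nat_lit 495) (nat_lit 463) (nat_lit 6606) (.f (nat_lit 493) (nat_lit 461) (nat_lit 7629) (.d (nat_lit 527) (nat_lit 492) (nat_lit 492) (nat_lit 622) (nat_lit 6638)))))) (.a s111318 (.a s108124 (.a s111325 (.a s111326 (.a (.p (nat_lit 589) (.a (.f (nat_lit 621) (nat_lit 494) (nat_lit 5613) (.d (nat_lit 653) (nat_lit 557) (nat_lit 6669) (nat_lit 622) (nat_lit 5645))) (.a (.f (nat_lit 621) (nat_lit 494) (nat_lit 5613) (.d (nat_lit 653) (nat_lit 622) (nat_lit 5645) (nat_lit 685) (nat_lit 6701))) (.f (nat_lit 559) (nat_lit 561) (nat_lit 1581) (.d (nat_lit 588) (nat_lit 557) (nat_lit 1580) (nat_lit 587) (nat_lit 2603)))))) s111327))))))) (.a (.p (nat_lit 592) (.a (.p (nat_lit 496) (.a (.f (nat_lit 495) (nat_lit 463) (nat_lit 7631) (.f (nat_lit 527) (nat_lit 624) (nat_lit 7663) (.d (nat_lit 497) (nat_lit 465) (nat_lit 6608) (nat_lit 498) (nat_lit 1518)))) (.f (nat_lit 591) (nat_lit 623) (nat_lit 5615) (.f (nat_lit 589) (nat_lit 561) (nat_lit 2605) (.f (nat_lit 588) (nat_lit 559) (nat_lit 2604) (.d (nat_lit 620) (nat_lit 619) (nat_lit 1611) (nat_lit 621) (nat_lit 1612))))))) (.a (.p (nat_lit 624) (.a (.f (nat_lit 623) (nat_lit 655) (nat_lit 5647) (.f (nat_lit 591) (nat_lit 496) (nat_lit 5615) (.d (nat_lit 589) (nat_lit 588) (nat_lit 588) (nat_lit 625) (nat_lit 589)))) (.a (.f (nat_lit 623) (nat_lit 655) (nat_lit 5647) (.f (nat_lit 625) (nat_lit 657) (nat_lit 4624) (.d (nat_lit 591) (nat_lit 589) (nat_lit 589) (nat_lit 626) (nat_lit 3662)))) (.a (.f (nat_lit 655) (nat_lit 623) (nat_lit 5647) (.f (nat_lit 656) (nat_lit 687) (nat_lit 5679) (.d (nat_lit 657) (nat_lit 625) (nat_lit 4624) (nat_lit 689) (nat_lit 4656)))) (.a (.f (nat_lit 657) (nat_lit 625) (nat_lit 4624) (.f (nat_lit 656) (nat_lit 689) (nat_lit 4656) (.f (nat_lit 687) (nat_lit 655) (nat_lit 5679) (.f (nat_lit 688) (nat_lit 719) (nat_lit 5711) (.f (nat_lit 591) (nat_lit 559) (nat_lit 7727) (.f (nat_lit 589) (nat_lit 561) (nat_lit 2605) (.f (nat_lit 621) (nat_lit 620) (nat_lit 1612) (.f (nat_lit 558) (nat_lit 494) (nat_lit 5613) (.d (nat_lit 653) (nat_lit 557) (nat_lit 6669) (nat_lit 622) (nat_lit 5645)))))))))) (.a (.f (nat_lit 625) (nat_lit 657) (nat_lit 4624) (.f (nat_lit 591) (nat_lit 589) (nat_lit 589) (.d (nat_lit 623) (nat_lit 496) (nat_lit 5615) (nat_lit 626) (nat_lit 3662)))) (.f (nat_lit 623) (nat_lit 655) (nat_lit 5647) (.f (nat_lit 591) (nat_lit 496) (nat_lit 5615) (.d (nat_lit 589) (nat_lit 561) (nat_lit 2605) (nat_lit 588) (nat_lit 588)))))))))) (.a (.p (nat_lit 624) (.a (.f (nat_lit 623) (nat_lit 655) (nat_lit 5647) (.f (nat_lit 625) (nat_lit 657) (nat_lit 4624) (.d (nat_lit 591) (nat_lit 589) (nat_lit 589) (nat_lit 626) (nat_lit 3662)))) (.a (.f (nat_lit 655) (nat_lit 623) (nat_lit 5647) (.f (nat_lit 656) (nat_lit 687) (nat_lit 5679) (.d (nat_lit 657) (nat_lit 625) (nat_lit 4624) (nat_lit 689) (nat_lit 4656)))) (.a (.f (nat_lit 657) (nat_lit 625) (nat_lit 4624) (.f (nat_lit 656) (nat_lit 689) (nat_lit 4656) (.f (nat_lit 687) (nat_lit 655) (nat_lit 5679) (.f (nat_lit 688) (nat_lit 719) (nat_lit 5711) (.f (nat_lit 591) (nat_lit 559) (nat_lit 7727) (.f (nat_lit 589) (nat_lit 561) (nat_lit 2605) (.f (nat_lit 621) (nat_lit 620) (nat_lit 1612) (.f (nat_lit 558) (nat_lit 494) (nat_lit 5613) (.d (nat_lit 653) (nat_lit 557) (nat_lit 6669) (nat_lit 622) (nat_lit 5645)))))))))) (.f (nat_lit 527) (nat_lit 495) (nat_lit 7663) (.f (nat_lit 559) (nat_lit 656) (nat_lit 7695) (.f (nat_lit 561) (nat_lit 562) (nat_lit 3598) (.d (nat_lit 589) (nat_lit 558) (nat_lit 1581) (nat_lit 591) (nat_lit 2605))))))))) (.a (.p (nat_lit 624) (.a (.f (nat_lit 655) (nat_lit 623) (nat_lit 5647) (.f (nat_lit 656) (nat_lit 687) (nat_lit 5679) (.d (nat_lit 657) (nat_lit 625) (nat_lit 4624) (nat_lit 689) (nat_lit 4656)))) (.a (.f (nat_lit 527) (nat_lit 495) (nat_lit 7663) (.f (nat_lit 656) (nat_lit 559) (nat_lit 7695) (.d (nat_lit 657) (nat_lit 625) (nat_lit 4624) (nat_lit 689) (nat_lit 4656)))) (.a (.f (nat_lit 527) (nat_lit 495) (nat_lit 7663) (.f (nat_lit 559) (nat_lit 656) (nat_lit 7695) (.f (nat_lit 561) (nat_lit 562) (nat_lit 3598) (.f (nat_lit 589) (nat_lit 558) (nat_lit 1581) (.f (nat_lit 623) (nat_lit 655) (nat_lit 5647) (.f (nat_lit 622) (nat_lit 625) (nat_lit 3661) (.d (nat_lit 588) (nat_lit 587) (nat_lit 587) (nat_lit 621) (nat_lit 3660)))))))) (.a (.f (nat_lit 527) (nat_lit 495) (nat_lit 7663) (.f (nat_lit 656) (nat_lit 559) (nat_lit 7695) (.d (nat_lit 655) (nat_lit 623) (nat_lit 5647) (nat_lit 687) (nat_lit 5679)))) (.f (nat_lit 623) (nat_lit 655) (nat_lit 5647) (.f (nat_lit 625) (nat_lit 657) (nat_lit 4624) (.f (nat_lit 622) (nat_lit 589) (nat_lit 3661) (.f (nat_lit 653) (nat_lit 654) (nat_lit 1645) (.d (nat_lit 621) (nat_lit 558) (nat_lit 5645) (nat_lit 652) (nat_lit 1644))))))))))) (.a (.p (nat_lit 496) (.a (.f (nat_lit 591) (nat_lit 623) (nat_lit 5615) (.f (nat_lit 589) (nat_lit 561) (nat_lit 2605) (.f (nat_lit 588) (nat_lit 559) (nat_lit 2604) (.d (nat_lit 620) (nat_lit 619) (nat_lit 1611) (nat_lit 621) (nat_lit 1612))))) (.f (nat_lit 495) (nat_lit 463) (nat_lit 7631) (.f (nat_lit 497) (nat_lit 465) (nat_lit 6608) (.f (nat_lit 498) (nat_lit 527) (nat_lit 1518) (.f (nat_lit 531) (nat_lit 530) (nat_lit 495) (.f (nat_lit 499) (nat_lit 532) (nat_lit 496) (.d (nat_lit 467) (nat_lit 466) (nat_lit 2511) (nat_lit 468) (nat_lit 2512))))))))) (.a (.p (nat_lit 496) (.a (.f (nat_lit 495) (nat_lit 463) (nat_lit 7631) (.f (nat_lit 527) (nat_lit 624) (nat_lit 7663) (.d (nat_lit 497) (nat_lit 465) (nat_lit 6608) (nat_lit 498) (nat_lit 1518)))) (.f (nat_lit 591) (nat_lit 623) (nat_lit 5615) (.f (nat_lit 589) (nat_lit 561) (nat_lit 2605) (.f (nat_lit 621) (nat_lit 620) (nat_lit 1612) (.f (nat_lit 558) (nat_lit 494) (nat_lit 5613) (.d (nat_lit 653) (nat_lit 557) (nat_lit 6669) (nat_lit 622) (nat_lit 5645)))))))) (.a (.p (nat_lit 496) (.a (.f (nat_lit 495) (nat_lit 463) (nat_lit 7631) (.f (nat_lit 527) (nat_lit 624) (nat_lit 7663) (.d (nat_lit 497) (nat_lit 465) (nat_lit 6608) (nat_lit 498) (nat_lit 1518)))) (.a (.f (nat_lit 623) (nat_lit 591) (nat_lit 5615) (.f (nat_lit 624) (nat_lit 655) (nat_lit 5647) (.f (nat_lit 625) (nat_lit 657) (nat_lit 4624) (.f (nat_lit 622) (nat_lit 589) (nat_lit 3661) (.f (nat_lit 653) (nat_lit 654) (nat_lit 1645) (.d (nat_lit 621) (nat_lit 558) (nat_lit 5645) (nat_lit 652) (nat_lit 1644))))))) (.f (nat_lit 495) (nat_lit 463) (nat_lit 7631) (.f (nat_lit 497) (nat_lit 465) (nat_lit 6608) (.f (nat_lit 498) (nat_lit 527) (nat_lit 1518) (.f (nat_lit 531) (nat_lit 530) (nat_lit 495) (.f (nat_lit 499) (nat_lit 532) (nat_lit 496) (.d (nat_lit 467) (nat_lit 466) (nat_lit 2511) (nat_lit 468) (nat_lit 2512)))))))))) (.a (.p (nat_lit 496) (.a (.f (nat_lit 495) (nat_lit 463) (nat_lit 7631) (.f (nat_lit 527) (nat_lit 624) (nat_lit 7663) (.d (nat_lit 497) (nat_lit 465) (nat_lit 6608) (nat_lit 498) (nat_lit 1518)))) (.a (.f (nat_lit 591) (nat_lit 623) (nat_lit 5615) (.f (nat_lit 464) (nat_lit 559) (nat_lit 5583) (.d (nat_lit 465) (nat_lit 433) (nat_lit 6576) (nat_lit 497) (nat_lit 6608)))) (.f (nat_lit 591) (nat_lit 623) (nat_lit 5615) (.f (nat_lit 559) (nat_lit 464) (nat_lit 5583) (.f (nat_lit 495) (nat_lit 463) (nat_lit 7631) (.d (nat_lit 527) (nat_lit 622) (nat_lit 5614) (nat_lit 624) (nat_lit 7663)))))))) (.p (nat_lit 496) (.a (.f (nat_lit 495) (nat_lit 463) (nat_lit 7631) (.f (nat_lit 527) (nat_lit 624) (nat_lit 7663) (.d (nat_lit 497) (nat_lit 465) (nat_lit 6608) (nat_lit 498) (nat_lit 1518)))) (.a (.f (nat_lit 465) (nat_lit 497) (nat_lit 6608) (.f (nat_lit 464) (nat_lit 433) (nat_lit 6576) (.f (nat_lit 591) (nat_lit 559) (nat_lit 5583) (.f (nat_lit 589) (nat_lit 561) (nat_lit 2605) (.f (nat_lit 621) (nat_lit 620) (nat_lit 1612) (.f (nat_lit 558) (nat_lit 494) (nat_lit 5613) (.d (nat_lit 653) (nat_lit 557) (nat_lit 6669) (nat_lit 622) (nat_lit 5645)))))))) (.f (nat_lit 495) (nat_lit 463) (nat_lit 7631) (.f (nat_lit 527) (nat_lit 624) (nat_lit 7663) (.f (nat_lit 622) (nat_lit 558) (nat_lit 6638) (.f (nat_lit 591) (nat_lit 559) (nat_lit 5614) (.f (nat_lit 589) (nat_lit 561) (nat_lit 2605) (.f (nat_lit 620) (nat_lit 621) (nat_lit 1612) (.f (nat_lit 588) (nat_lit 619) (nat_lit 1611) (.d (nat_lit 556) (nat_lit 555) (nat_lit 3627) (nat_lit 557) (nat_lit 3628))))))))))))))))))))) (.a (.p (nat_lit 558) (.a s108106 (.a s111103 (.a s108124 (.a s111187 (.a s111217 (.a (.p (nat_lit 494) (.a (.f (nat_lit 589) (nat_lit 621) (nat_lit 5613) (.f (nat_lit 462) (nat_lit 557) (nat_lit 5581) (.d (nat_lit 461) (nat_lit 429) (nat_lit 7597) (nat_lit 493) (nat_lit 7629)))) (.a (.f (nat_lit 493) (nat_lit 461) (nat_lit 7629) (.f (nat_lit 495) (nat_lit 463) (nat_lit 6606) (.f (nat_lit 492) (nat_lit 527) (nat_lit 492) (.f (nat_lit 523) (nat_lit 524) (nat_lit 1515) (.f (nat_lit 491) (nat_lit 522) (nat_lit 1514) (.d (nat_lit 459) (nat_lit 458) (nat_lit 3530) (nat_lit 460) (nat_lit 3531))))))) (.f (nat_lit 495) (nat_lit 463) (nat_lit 6606) (.f (nat_lit 591) (nat_lit 623) (nat_lit 4590) (.f (nat_lit 589) (nat_lit 621) (nat_lit 5613) (.f (nat_lit 592) (nat_lit 561) (nat_lit 2605) (.d (nat_lit 624) (nat_lit 527) (nat_lit 7663) (nat_lit 625) (nat_lit 589))))))))) s111227))))))) (.a (.p (nat_lit 558) (.a s108034 (.a s111318 (.a s111082 (.a s108106 (.a s111137 (.p (nat_lit 525) (.a (.d (nat_lit 561) (nat_lit 527) (nat_lit 525) (nat_lit 559) (nat_lit 3597)) (.a (.f (nat_lit 622) (nat_lit 493) (nat_lit 7661) (.f (nat_lit 559) (nat_lit 561) (nat_lit 3597) (.d (nat_lit 557) (nat_lit 524) (nat_lit 3596) (nat_lit 654) (nat_lit 7693)))) (.a (.f (nat_lit 527) (nat_lit 561) (nat_lit 525) (.d (nat_lit 493) (nat_lit 492) (nat_lit 3564) (nat_lit 622) (nat_lit 7661))) (.f (nat_lit 622) (nat_lit 493) (nat_lit 7661) (.f (nat_lit 527) (nat_lit 495) (nat_lit 6638) (.d (nat_lit 557) (nat_lit 556) (nat_lit 1548) (nat_lit 654) (nat_lit 7693)))))))))))))) (.a (.p (nat_lit 558) (.a s111137 (.a (.p (nat_lit 494) (.a (.f (nat_lit 495) (nat_lit 463) (nat_lit 6606) (.f (nat_lit 493) (nat_lit 461) (nat_lit 7629) (.d (nat_lit 527) (nat_lit 492) (nat_lit 492) (nat_lit 622) (nat_lit 6638)))) (.f (nat_lit 591) (nat_lit 623) (nat_lit 4590) (.f (nat_lit 559) (nat_lit 462) (nat_lit 4558) (.d (nat_lit 561) (nat_lit 525) (nat_lit 3597) (nat_lit 589) (nat_lit 1581)))))) (.a s111187 (.a s111325 (.a (.p (nat_lit 525) (.a (.d (nat_lit 561) (nat_lit 527) (nat_lit 525) (nat_lit 559) (nat_lit 3597)) (.f (nat_lit 622) (nat_lit 493) (nat_lit 7661) (.f (nat_lit 655) (nat_lit 623) (nat_lit 4622) (.f (nat_lit 654) (nat_lit 687) (nat_lit 4654) (.d (nat_lit 653) (nat_lit 621) (nat_lit 5645) (nat_lit 685) (nat_lit 5677))))))) (.p (nat_lit 494) (.a (.f (nat_lit 591) (nat_lit 623) (nat_lit 4590) (.f (nat_lit 559) (nat_lit 462) (nat_lit 4558) (.d (nat_lit 561) (nat_lit 525) (nat_lit 3597) (nat_lit 589) (nat_lit 1581)))) (.f (nat_lit 493) (nat_lit 461) (nat_lit 7629) (.f (nat_lit 495) (nat_lit 463) (nat_lit 6606) (.f (nat_lit 492) (nat_lit 527) (nat_lit 492) (.f (nat_lit 523) (nat_lit 524) (nat_lit 1515) (.f (nat_lit 491) (nat_lit 522) (nat_lit 1514) (.d (nat_lit 459) (nat_lit 458) (nat_lit 3530) (nat_lit 460) (nat_lit 3531))))))))))))))) (.a (.p (nat_lit 558) (.a s111103 (.a (.p (nat_lit 494) (.a (.f (nat_lit 495) (nat_lit 463) (nat_lit 6606) (.f (nat_lit 493) (nat_lit 461) (nat_lit 7629) (.d (nat_lit 527) (nat_lit 492) (nat_lit 492) (nat_lit 622) (nat_lit 6638)))) (.f (nat_lit 591) (nat_lit 623) (nat_lit 4590) (.f (nat_lit 559) (nat_lit 462) (nat_lit 4558) (.d (nat_lit 589) (nat_lit 588) (nat_lit 2604) (nat_lit 621) (nat_lit 5613)))))) (.a s111326 (.a s111137 (.a (.p (nat_lit 622) (.a (.f (nat_lit 655) (nat_lit 623) (nat_lit 4622) (.f (nat_lit 654) (nat_lit 687) (nat_lit 4654) (.d (nat_lit 653) (nat_lit 621) (nat_lit 5645) (nat_lit 685) (nat_lit 5677)))) (.a (.f (nat_lit 653) (nat_lit 621) (nat_lit 5645) (.f (nat_lit 654) (nat_lit 685) (nat_lit 5677) (.f (nat_lit 559) (nat_lit 527) (nat_lit 6670) (.f (nat_lit 687) (nat_lit 655) (nat_lit 4654) (.d (nat_lit 686) (nat_lit 591) (nat_lit 6702) (nat_lit 719) (nat_lit 4686)))))) (.a (.f (nat_lit 525) (nat_lit 493) (nat_lit 7661) (.f (nat_lit 527) (nat_lit 495) (nat_lit 6638) (.d (nat_lit 557) (nat_lit 556) (nat_lit 1548) (nat_lit 654) (nat_lit 7693)))) (.f (nat_lit 527) (nat_lit 495) (nat_lit 6638) (.f (nat_lit 525) (nat_lit 493) (nat_lit 7661) (.f (nat_lit 559) (nat_lit 524) (nat_lit 524) (.f (nat_lit 623) (nat_lit 655) (nat_lit 4622) (.d (nat_lit 496) (nat_lit 497) (nat_lit 2541) (nat_lit 591) (nat_lit 6639)))))))))) (.a (.p (nat_lit 494) (.a (.f (nat_lit 591) (nat_lit 623) (nat_lit 4590) (.f (nat_lit 559) (nat_lit 462) (nat_lit 4558) (.d (nat_lit 589) (nat_lit 588) (nat_lit 2604) (nat_lit 621) (nat_lit 5613)))) (.a (.f (nat_lit 589) (nat_lit 621) (nat_lit 5613) (.f (nat_lit 462) (nat_lit 557) (nat_lit 5581) (.d (nat_lit 461) (nat_lit 429) (nat_lit 7597) (nat_lit 493) (nat_lit 7629)))) (.a (.f (nat_lit 591) (nat_lit 623) (nat_lit 4590) (.f (nat_lit 462) (nat_lit 559) (nat_lit 4558) (.d (nat_lit 461) (nat_lit 429) (nat_lit 7597) (nat_lit 493) (nat_lit 7629)))) (.f (nat_lit 493) (nat_lit 461) (nat_lit 7629) (.f (nat_lit 495) (nat_lit 463) (nat_lit 6606) (.f (nat_lit 492) (nat_lit 527) (nat_lit 492) (.f (nat_lit 524) (nat_lit 523) (nat_lit 1515) (.f (nat_lit 525) (nat_lit 496) (nat_lit 1516) (.f (nat_lit 460) (nat_lit 459) (nat_lit 3531) (.d (nat_lit 428) (nat_lit 396) (nat_lit 4492) (nat_lit 557) (nat_lit 4524)))))))))))) (.p (nat_lit 494) (.a (.f (nat_lit 495) (nat_lit 463) (nat_lit 6606) (.f (nat_lit 493) (nat_lit 461) (nat_lit 7629) (.d (nat_lit 527) (nat_lit 492) (nat_lit 492) (nat_lit 622) (nat_lit 6638)))) (.a (.f (nat_lit 493) (nat_lit 461) (nat_lit 7629) (.f (nat_lit 525) (nat_lit 622) (nat_lit 7661) (.f (nat_lit 495) (nat_lit 463) (nat_lit 6606) (.d (nat_lit 524) (nat_lit 496) (nat_lit 1516) (nat_lit 523) (nat_lit 2539))))) (.a (.f (nat_lit 591) (nat_lit 623) (nat_lit 4590) (.f (nat_lit 462) (nat_lit 559) (nat_lit 4558) (.d (nat_lit 461) (nat_lit 429) (nat_lit 7597) (nat_lit 493) (nat_lit 7629)))) (.f (nat_lit 495) (nat_lit 463) (nat_lit 6606) (.f (nat_lit 622) (nat_lit 527) (nat_lit 6638) (.d (nat_lit 623) (nat_lit 591) (nat_lit 4590) (nat_lit 655) (nat_lit 4622))))))))))))))) (.a (.p (nat_lit 558) (.a (.p (nat_lit 525) (.a (.d (nat_lit 561) (nat_lit 527) (nat_lit 525) (nat_lit 559) (nat_lit 3597)) (.a (.f (nat_lit 622) (nat_lit 493) (nat_lit 7661) (.f (nat_lit 559) (nat_lit 561) (nat_lit 3597) (.d (nat_lit 557) (nat_lit 524) (nat_lit 3596) (nat_lit 654) (nat_lit 7693)))) (.a (.f (nat_lit 527) (nat_lit 561) (nat_lit 525) (.d (nat_lit 493) (nat_lit 492) (nat_lit 3564) (nat_lit 622) (nat_lit 7661))) (.f (nat_lit 622) (nat_lit 493) (nat_lit 7661) (.f (nat_lit 527) (nat_lit 495) (nat_lit 6638) (.d (nat_lit 557) (nat_lit 556) (nat_lit 1548) (nat_lit 654) (nat_lit 7693)))))))) (.a s111318 (.a s111137 (.a s108124 (.p (nat_lit 494) (.a (.f (nat_lit 591) (nat_lit 623) (nat_lit 4590) (.f (nat_lit 559) (nat_lit 462) (nat_lit 4558) (.d (nat_lit 561) (nat_lit 525) (nat_lit 3597) (nat_lit 562) (nat_lit 1582)))) (.a (.f (nat_lit 493) (nat_lit 461) (nat_lit 7629) (.f (nat_lit 495) (nat_lit 463) (nat_lit 6606) (.f (nat_lit 492) (nat_lit 527) (nat_lit 492) (.f (nat_lit 524) (nat_lit 523) (nat_lit 1515) (.f (nat_lit 525) (nat_lit 496) (nat_lit 1516) (.f (nat_lit 460) (nat_lit 459) (nat_lit 3531) (.d (nat_lit 428) (nat_lit 396) (nat_lit 4492) (nat_lit 557) (nat_lit 4524)))))))) (.f (nat_lit 591) (nat_lit 623) (nat_lit 4590) (.f (nat_lit 462) (nat_lit 559) (nat_lit 4558) (.d (nat_lit 461) (nat_lit 429) (nat_lit 7597) (nat_lit 493) (nat_lit 7629)))))))))))) (.a (.p (nat_lit 592) (.a (.p (nat_lit 496) (.a (.f (nat_lit 495) (nat_lit 463) (nat_lit 7631) (.f (nat_lit 527) (nat_lit 624) (nat_lit 7663) (.d (nat_lit 497) (nat_lit 465) (nat_lit 6608) (nat_lit 498) (nat_lit 1518)))) (.f (nat_lit 591) (nat_lit 623) (nat_lit 5615) (.f (nat_lit 589) (nat_lit 561) (nat_lit 2605) (.f (nat_lit 588) (nat_lit 559) (nat_lit 2604) (.d (nat_lit 620) (nat_lit 619) (nat_lit 1611) (nat_lit 621) (nat_lit 1612))))))) (.a (.p (nat_lit 624) (.a (.f (nat_lit 623) (nat_lit 655) (nat_lit 5647) (.f (nat_lit 591) (nat_lit 496) (nat_lit 5615) (.d (nat_lit 589) (nat_lit 588) (nat_lit 588) (nat_lit 625) (nat_lit 589)))) (.a (.f (nat_lit 623) (nat_lit 655) (nat_lit 5647) (.f (nat_lit 625) (nat_lit 657) (nat_lit 4624) (.d (nat_lit 591) (nat_lit 589) (nat_lit 589) (nat_lit 626) (nat_lit 3662)))) (.a (.f (nat_lit 655) (nat_lit 623) (nat_lit 5647) (.f (nat_lit 656) (nat_lit 687) (nat_lit 5679) (.d (nat_lit 657) (nat_lit 625) (nat_lit 4624) (nat_lit 689) (nat_lit 4656)))) (.a (.f (nat_lit 657) (nat_lit 625) (nat_lit 4624) (.f (nat_lit 656) (nat_lit 689) (nat_lit 4656) (.f (nat_lit 687) (nat_lit 655) (nat_lit 5679) (.f (nat_lit 688) (nat_lit 719) (nat_lit 5711) (.f (nat_lit 591) (nat_lit 559) (nat_lit 7727) (.f (nat_lit 589) (nat_lit 561) (nat_lit 2605) (.f (nat_lit 620) (nat_lit 621) (nat_lit 1612) (.f (nat_lit 588) (nat_lit 619) (nat_lit 1611) (.d (nat_lit 556) (nat_lit 555) (nat_lit 3627) (nat_lit 557) (nat_lit 3628)))))))))) (.a (.f (nat_lit 625) (nat_lit 657) (nat_lit 4624) (.f (nat_lit 591) (nat_lit 589) (nat_lit 589) (.d (nat_lit 623) (nat_lit 496) (nat_lit 5615) (nat_lit 626) (nat_lit 3662)))) (.f (nat_lit 623) (nat_lit 655) (nat_lit 5647) (.f (nat_lit 591) (nat_lit 496) (nat_lit 5615) (.d (nat_lit 589) (nat_lit 561) (nat_lit 2605) (nat_lit 588) (nat_lit 588)))))))))) (.a (.p (nat_lit 624) (.a (.f (nat_lit 623) (nat_lit 655) (nat_lit 5647) (.f (nat_lit 625) (nat_lit 657) (nat_lit 4624) (.d (nat_lit 591) (nat_lit 589) (nat_lit 589) (nat_lit 626) (nat_lit 3662)))) (.a (.f (nat_lit 655) (nat_lit 623) (nat_lit 5647) (.f (nat_lit 656) (nat_lit 687) (nat_lit 5679) (.d (nat_lit 657) (nat_lit 625) (nat_lit 4624) (nat_lit 689) (nat_lit 4656)))) (.a (.f (nat_lit 527) (nat_lit 495) (nat_lit 7663) (.f (nat_lit 656) (nat_lit 559) (nat_lit 7695) (.d (nat_lit 657) (nat_lit 625) (nat_lit 4624) (nat_lit 689) (nat_lit 4656)))) (.f (nat_lit 527) (nat_lit 495) (nat_lit 7663) (.f (nat_lit 656) (nat_lit 559) (nat_lit 7695) (.d (nat_lit 655) (nat_lit 623) (nat_lit 5647) (nat_lit 687) (nat_lit 5679)))))))) (.a (.p (nat_lit 624) (.a (.f (nat_lit 655) (nat_lit 623) (nat_lit 5647) (.f (nat_lit 656) (nat_lit 687) (nat_lit 5679) (.d (nat_lit 657) (nat_lit 625) (nat_lit 4624) (nat_lit 689) (nat_lit 4656)))) (.a (.f (nat_lit 527) (nat_lit 495) (nat_lit 7663) (.f (nat_lit 656) (nat_lit 559) (nat_lit 7695) (.d (nat_lit 657) (nat_lit 625) (nat_lit 4624) (nat_lit 689) (nat_lit 4656)))) (.a (.f (nat_lit 527) (nat_lit 495) (nat_lit 7663) (.f (nat_lit 656) (nat_lit 559) (nat_lit 7695) (.d (nat_lit 655) (nat_lit 623) (nat_lit 5647) (nat_lit 687) (nat_lit 5679)))) (.f (nat_lit 527) (nat_lit 495) (nat_lit 7663) (.f (nat_lit 525) (nat_lit 561) (nat_lit 525) (.f (nat_lit 524) (nat_lit 559) (nat_lit 524) (.d (nat_lit 556) (nat_lit 555) (nat_lit 1547) (nat_lit 557) (nat_lit 1548))))))))) (.a (.p (nat_lit 496) (.a (.f (nat_lit 591) (nat_lit 623) (nat_lit 5615) (.f (nat_lit 589) (nat_lit 561) (nat_lit 2605) (.f (nat_lit 588) (nat_lit 559) (nat_lit 2604) (.d (nat_lit 620) (nat_lit 619) (nat_lit 1611) (nat_lit 621) (nat_lit 1612))))) (.f (nat_lit 495) (nat_lit 463) (nat_lit 7631) (.f (nat_lit 497) (nat_lit 465) (nat_lit 6608) (.f (nat_lit 498) (nat_lit 527) (nat_lit 1518) (.f (nat_lit 531) (nat_lit 530) (nat_lit 495) (.f (nat_lit 499) (nat_lit 532) (nat_lit 496) (.d (nat_lit 467) (nat_lit 466) (nat_lit 2511) (nat_lit 468) (nat_lit 2512))))))))) (.a (.p (nat_lit 496) (.a (.f (nat_lit 495) (nat_lit 463) (nat_lit 7631) (.f (nat_lit 527) (nat_lit 624) (nat_lit 7663) (.d (nat_lit 497) (nat_lit 465) (nat_lit 6608) (nat_lit 498) (nat_lit 1518)))) (.f (nat_lit 591) (nat_lit 623) (nat_lit 5615) (.f (nat_lit 589) (nat_lit 561) (nat_lit 2605) (.f (nat_lit 620) (nat_lit 621) (nat_lit 1612) (.f (nat_lit 588) (nat_lit 619) (nat_lit 1611) (.d (nat_lit 556) (nat_lit 555) (nat_lit 3627) (nat_lit 557) (nat_lit 3628)))))))) (.p (nat_lit 496) (.a (.f (nat_lit 495) (nat_lit 463) (nat_lit 7631) (.f (nat_lit 527) (nat_lit 624) (nat_lit 7663) (.d (nat_lit 497) (nat_lit 465) (nat_lit 6608) (nat_lit 498) (nat_lit 1518)))) (.a (.f (nat_lit 465) (nat_lit 497) (nat_lit 6608) (.f (nat_lit 464) (nat_lit 433) (nat_lit 6576) (.f (nat_lit 591) (nat_lit 559) (nat_lit 5583) (.f (nat_lit 589) (nat_lit 561) (nat_lit 2605) (.f (nat_lit 620) (nat_lit 621) (nat_lit 1612) (.f (nat_lit 588) (nat_lit 619) (nat_lit 1611) (.d (nat_lit 556) (nat_lit 555) (nat_lit 3627) (nat_lit 557) (nat_lit 3628)))))))) (.f (nat_lit 495) (nat_lit 463) (nat_lit 7631) (.f (nat_lit 527) (nat_lit 624) (nat_lit 7663) (.d (nat_lit 525) (nat_lit 524) (nat_lit 2540) (nat_lit 561) (nat_lit 525)))))))))))))) (.a (.p (nat_lit 558) (.a s108034 (.a s111318 (.a s111082 (.a s108106 (.a s111137 s111227)))))) (.a (.p (nat_lit 558) (.a (.p (nat_lit 494) (.a (.f (nat_lit 589) (nat_lit 621) (nat_lit 5613) (.f (nat_lit 559) (nat_lit 561) (nat_lit 1581) (.d (nat_lit 557) (nat_lit 462) (nat_lit 5581) (nat_lit 588) (nat_lit 1580)))) (.f (nat_lit 495) (nat_lit 463) (nat_lit 6606) (.f (nat_lit 493) (nat_lit 461) (nat_lit 7629) (.d (nat_lit 527) (nat_lit 492) (nat_lit 492) (nat_lit 622) (nat_lit 6638)))))) (.a (.p (nat_lit 589) (.a (.f (nat_lit 621) (nat_lit 494) (nat_lit 5613) (.d (nat_lit 653) (nat_lit 557) (nat_lit 6669) (nat_lit 622) (nat_lit 5645))) (.a (.f (nat_lit 621) (nat_lit 494) (nat_lit 5613) (.d (nat_lit 653) (nat_lit 622) (nat_lit 5645) (nat_lit 685) (nat_lit 6701))) (.f (nat_lit 559) (nat_lit 561) (nat_lit 1581) (.d (nat_lit 588) (nat_lit 557) (nat_lit 1580) (nat_lit 587) (nat_lit 2603)))))) (.a s108124 (.a s111325 (.a s111326 s111327)))))) (.p (nat_lit 558) (.a (.p (nat_lit 525) (.a (.d (nat_lit 561) (nat_lit 527) (nat_lit 525) (nat_lit 559) (nat_lit 3597)) (.a (.f (nat_lit 622) (nat_lit 493) (nat_lit 7661) (.f (nat_lit 559) (nat_lit 561) (nat_lit 3597) (.d (nat_lit 557) (nat_lit 524) (nat_lit 3596) (nat_lit 654) (nat_lit 7693)))) (.a (.f (nat_lit 527) (nat_lit 561) (nat_lit 525) (.d (nat_lit 493) (nat_lit 492) (nat_lit 3564) (nat_lit 622) (nat_lit 7661))) (.f (nat_lit 622) (nat_lit 493) (nat_lit 7661) (.f (nat_lit 527) (nat_lit 495) (nat_lit 6638) (.d (nat_lit 557) (nat_lit 556) (nat_lit 1548) (nat_lit 654) (nat_lit 7693)))))))) (.a (.p (nat_lit 494) (.a (.f (nat_lit 591) (nat_lit 623) (nat_lit 4590) (.f (nat_lit 559) (nat_lit 462) (nat_lit 4558) (.d (nat_lit 561) (nat_lit 525) (nat_lit 3597) (nat_lit 589) (nat_lit 1581)))) (.a (.f (nat_lit 493) (nat_lit 461) (nat_lit 7629) (.f (nat_lit 525) (nat_lit 622) (nat_lit 7661) (.f (nat_lit 495) (nat_lit 463) (nat_lit 6606) (.d (nat_lit 524) (nat_lit 496) (nat_lit 1516) (nat_lit 523) (nat_lit 2539))))) (.f (nat_lit 591) (nat_lit 623) (nat_lit 4590) (.f (nat_lit 462) (nat_lit 559) (nat_lit 4558) (.d (nat_lit 461) (nat_lit 429) (nat_lit 7597) (nat_lit 493) (nat_lit 7629))))))) (.a (.p (nat_lit 494) (.a (.f (nat_lit 495) (nat_lit 463) (nat_lit 6606) (.f (nat_lit 493) (nat_lit 461) (nat_lit 7629) (.d (nat_lit 527) (nat_lit 492) (nat_lit 492) (nat_lit 622) (nat_lit 6638)))) (.a (.f (nat_lit 591) (nat_lit 623) (nat_lit 4590) (.f (nat_lit 462) (nat_lit 559) (nat_lit 4558) (.d (nat_lit 461) (nat_lit 429) (nat_lit 7597) (nat_lit 493) (nat_lit 7629)))) (.f (nat_lit 495) (nat_lit 463) (nat_lit 6606) (.f (nat_lit 622) (nat_lit 527) (nat_lit 6638) (.d (nat_lit 623) (nat_lit 591) (nat_lit 4590) (nat_lit 655) (nat_lit 4622))))))) (.a s111227 (.a (.p (nat_lit 494) (.a (.f (nat_lit 591) (nat_lit 623) (nat_lit 4590) (.f (nat_lit 559) (nat_lit 462) (nat_lit 4558) (.d (nat_lit 561) (nat_lit 525) (nat_lit 3597) (nat_lit 589) (nat_lit 1581)))) (.a (.f (nat_lit 495) (nat_lit 463) (nat_lit 6606) (.f (nat_lit 527) (nat_lit 622) (nat_lit 6638) (.f (nat_lit 525) (nat_lit 561) (nat_lit 525) (.d (nat_lit 524) (nat_lit 523) (nat_lit 2539) (nat_lit 559) (nat_lit 524))))) (.f (nat_lit 495) (nat_lit 463) (nat_lit 6606) (.f (nat_lit 622) (nat_lit 527) (nat_lit 6638) (.d (nat_lit 623) (nat_lit 591) (nat_lit 4590) (nat_lit 655) (nat_lit 4622))))))) (.p (nat_lit 494) (.a (.f (nat_lit 591) (nat_lit 623) (nat_lit 4590) (.f (nat_lit 559) (nat_lit 462) (nat_lit 4558) (.d (nat_lit 561) (nat_lit 525) (nat_lit 3597) (nat_lit 589) (nat_lit 1581)))) (.f (nat_lit 493) (nat_lit 461) (nat_lit 7629) (.f (nat_lit 495) (nat_lit 463) (nat_lit 6606) (.f (nat_lit 492) (nat_lit 527) (nat_lit 492) (.f (nat_lit 523) (nat_lit 524) (nat_lit 1515) (.f (nat_lit 491) (nat_lit 522) (nat_lit 1514) (.d (nat_lit 459) (nat_lit 458) (nat_lit 3530) (nat_lit 460) (nat_lit 3531))))))))))))))))))))))))))))) (.a (.p (nat_lit 496) (.a (.p (nat_lit 464) (.a (.f (nat_lit 559) (nat_lit 591) (nat_lit 5583) (.f (nat_lit 527) (nat_lit 432) (nat_lit 5551) (.d (nat_lit 525) (nat_lit 524) (nat_lit 524) (nat_lit 561) (nat_lit 525)))) (.f (nat_lit 465) (nat_lit 433) (nat_lit 6576) (.f (nat_lit 463) (nat_lit 431) (nat_lit 7599) (.d (nat_lit 592) (nat_lit 495) (nat_lit 7631) (nat_lit 497) (nat_lit 6608)))))) (.a s111468 (.a s108202 (.a s109034 (.a s111037 (.a (.p (nat_lit 497) (.a (.f (nat_lit 527) (nat_lit 525) (nat_lit 2541) (.d (nat_lit 498) (nat_lit 495) (nat_lit 1518) (nat_lit 499) (nat_lit 1519))) (.f (nat_lit 465) (nat_lit 592) (nat_lit 6608) (.d (nat_lit 433) (nat_lit 401) (nat_lit 5520) (nat_lit 464) (nat_lit 6576))))) (.a s109045 s109472)))))))) (.a (.p (nat_lit 496) (.a (.p (nat_lit 464) (.a (.f (nat_lit 559) (nat_lit 591) (nat_lit 5583) (.f (nat_lit 527) (nat_lit 432) (nat_lit 5551) (.d (nat_lit 525) (nat_lit 524) (nat_lit 524) (nat_lit 561) (nat_lit 525)))) (.f (nat_lit 465) (nat_lit 433) (nat_lit 6576) (.f (nat_lit 463) (nat_lit 431) (nat_lit 7599) (.d (nat_lit 592) (nat_lit 495) (nat_lit 7631) (nat_lit 497) (nat_lit 6608)))))) (.a s111468 (.a s108202 (.a s109034 (.a s111037 (.a (.p (nat_lit 497) (.a (.f (nat_lit 527) (nat_lit 525) (nat_lit 2541) (.d (nat_lit 498) (nat_lit 495) (nat_lit 1518) (nat_lit 499) (nat_lit 1519))) (.f (nat_lit 465) (nat_lit 592) (nat_lit 6608) (.d (nat_lit 433) (nat_lit 401) (nat_lit 5520) (nat_lit 464) (nat_lit 6576))))) (.a s109463 (.a (.p (nat_lit 525) (.a (.p (nat_lit 495) (.a (.f (nat_lit 494) (nat_lit 497) (nat_lit 1517) (.d (nat_lit 524) (nat_lit 493) (nat_lit 1516) (nat_lit 523) (nat_lit 2539))) (.f (nat_lit 463) (nat_lit 592) (nat_lit 7631) (.d (nat_lit 431) (nat_lit 399) (nat_lit 4495) (nat_lit 464) (nat_lit 7599))))) (.a (.d (nat_lit 527) (nat_lit 497) (nat_lit 2541) (nat_lit 561) (nat_lit 525)) (.f (nat_lit 527) (nat_lit 561) (nat_lit 525) (.d (nat_lit 524) (nat_lit 495) (nat_lit 2540) (nat_lit 559) (nat_lit 524)))))) s109063))))))))) (.p (nat_lit 592) (.a s107883 (.a (.p (nat_lit 624) (.a (.f (nat_lit 527) (nat_lit 495) (nat_lit 7663) (.f (nat_lit 559) (nat_lit 656) (nat_lit 7695) (.d (nat_lit 561) (nat_lit 525) (nat_lit 525) (nat_lit 562) (nat_lit 3598)))) (.a (.f (nat_lit 655) (nat_lit 623) (nat_lit 5647) (.f (nat_lit 656) (nat_lit 687) (nat_lit 5679) (.d (nat_lit 657) (nat_lit 625) (nat_lit 4624) (nat_lit 689) (nat_lit 4656)))) (.f (nat_lit 527) (nat_lit 495) (nat_lit 7663) (.f (nat_lit 561) (nat_lit 525) (nat_lit 525) (.d (nat_lit 562) (nat_lit 559) (nat_lit 3598) (nat_lit 563) (nat_lit 3599))))))) (.a s107897 (.a (.p (nat_lit 495) (.a (.f (nat_lit 527) (nat_lit 624) (nat_lit 7663) (.d (nat_lit 463) (nat_lit 431) (nat_lit 4527) (nat_lit 496) (nat_lit 7631))) (.a (.f (nat_lit 496) (nat_lit 463) (nat_lit 7631) (.f (nat_lit 497) (nat_lit 465) (nat_lit 6608) (.f (nat_lit 494) (nat_lit 525) (nat_lit 1517) (.f (nat_lit 461) (nat_lit 462) (nat_lit 3533) (.f (nat_lit 493) (nat_lit 460) (nat_lit 3532) (.f (nat_lit 591) (nat_lit 623) (nat_lit 5615) (.f (nat_lit 590) (nat_lit 558) (nat_lit 7629) (.f (nat_lit 589) (nat_lit 561) (nat_lit 2605) (.f (nat_lit 620) (nat_lit 621) (nat_lit 1612) (.f (nat_lit 588) (nat_lit 619) (nat_lit 1611) (.d (nat_lit 556) (nat_lit 555) (nat_lit 3627) (nat_lit 557) (nat_lit 3628)))))))))))) (.f (nat_lit 624) (nat_lit 527) (nat_lit 7663) (.f (nat_lit 655) (nat_lit 623) (nat_lit 5647) (.f (nat_lit 656) (nat_lit 687) (nat_lit 5679) (.d (nat_lit 657) (nat_lit 625) (nat_lit 4624) (nat_lit 689) (nat_lit 4656)))))))) (.a (.p (nat_lit 624) (.a (.f (nat_lit 655) (nat_lit 623) (nat_lit 5647) (.f (nat_lit 656) (nat_lit 687) (nat_lit 5679) (.d (nat_lit 657) (nat_lit 625) (nat_lit 4624) (nat_lit 689) (nat_lit 4656)))) (.a (.f (nat_lit 657) (nat_lit 625) (nat_lit 4624) (.f (nat_lit 656) (nat_lit 689) (nat_lit 4656) (.f (nat_lit 687) (nat_lit 655) (nat_lit 5679) (.f (nat_lit 688) (nat_lit 719) (nat_lit 5711) (.d (nat_lit 559) (nat_lit 527) (nat_lit 7695) (nat_lit 591) (nat_lit 7727)))))) (.a (.f (nat_lit 657) (nat_lit 625) (nat_lit 4624) (.f (nat_lit 656) (nat_lit 689) (nat_lit 4656) (.f (nat_lit 527) (nat_lit 559) (nat_lit 7695) (.f (nat_lit 525) (nat_lit 561) (nat_lit 525) (.f (nat_lit 496) (nat_lit 497) (nat_lit 2541) (.f (nat_lit 623) (nat_lit 591) (nat_lit 5615) (.f (nat_lit 557) (nat_lit 556) (nat_lit 1548) (.f (nat_lit 493) (nat_lit 492) (nat_lit 3564) (.f (nat_lit 622) (nat_lit 621) (nat_lit 621) (.d (nat_lit 590) (nat_lit 558) (nat_lit 7661) (nat_lit 589) (nat_lit 4589))))))))))) (.f (nat_lit 623) (nat_lit 655) (nat_lit 5647) (.f (nat_lit 496) (nat_lit 591) (nat_lit 5615) (.f (nat_lit 465) (nat_lit 497) (nat_lit 6608) (.f (nat_lit 464) (nat_lit 433) (nat_lit 6576) (.f (nat_lit 431) (nat_lit 463) (nat_lit 7599) (.f (nat_lit 432) (nat_lit 399) (nat_lit 7567) (.f (nat_lit 527) (nat_lit 559) (nat_lit 5551) (.f (nat_lit 525) (nat_lit 561) (nat_lit 525) (.f (nat_lit 429) (nat_lit 430) (nat_lit 429) (.f (nat_lit 493) (nat_lit 492) (nat_lit 3564) (.f (nat_lit 461) (nat_lit 558) (nat_lit 4525) (.f (nat_lit 557) (nat_lit 556) (nat_lit 1548) (.d (nat_lit 428) (nat_lit 396) (nat_lit 7564) (nat_lit 460) (nat_lit 7596)))))))))))))))))) (.p (nat_lit 496) (.a (.f (nat_lit 495) (nat_lit 463) (nat_lit 7631) (.f (nat_lit 527) (nat_lit 624) (nat_lit 7663) (.d (nat_lit 497) (nat_lit 465) (nat_lit 6608) (nat_lit 525) (nat_lit 2541)))) (.a (.f (nat_lit 463) (nat_lit 495) (nat_lit 7631) (.f (nat_lit 464) (nat_lit 431) (nat_lit 7599) (.d (nat_lit 465) (nat_lit 433) (nat_lit 6576) (nat_lit 497) (nat_lit 6608)))) (.a (.f (nat_lit 497) (nat_lit 465) (nat_lit 6608) (.f (nat_lit 527) (nat_lit 525) (nat_lit 2541) (.d (nat_lit 498) (nat_lit 495) (nat_lit 1518) (nat_lit 499) (nat_lit 1519)))) (.a (.f (nat_lit 465) (nat_lit 497) (nat_lit 6608) (.f (nat_lit 464) (nat_lit 433) (nat_lit 6576) (.f (nat_lit 431) (nat_lit 463) (nat_lit 7599) (.f (nat_lit 432) (nat_lit 399) (nat_lit 7567) (.f (nat_lit 527) (nat_lit 559) (nat_lit 5551) (.f (nat_lit 525) (nat_lit 561) (nat_lit 525) (.f (nat_lit 429) (nat_lit 430) (nat_lit 429) (.f (nat_lit 493) (nat_lit 492) (nat_lit 3564) (.f (nat_lit 461) (nat_lit 558) (nat_lit 4525) (.f (nat_lit 557) (nat_lit 556) (nat_lit 1548) (.d (nat_lit 428) (nat_lit 396) (nat_lit 7564) (nat_lit 460) (nat_lit 7596)))))))))))) (.a (.f (nat_lit 495) (nat_lit 463) (nat_lit 7631) (.f (nat_lit 527) (nat_lit 624) (nat_lit 7663) (.d (nat_lit 525) (nat_lit 497) (nat_lit 2541) (nat_lit 561) (nat_lit 525)))) (.f (nat_lit 495) (nat_lit 463) (nat_lit 7631) (.f (nat_lit 527) (nat_lit 624) (nat_lit 7663) (.f (nat_lit 561) (nat_lit 525) (nat_lit 525) (.d (nat_lit 562) (nat_lit 559) (nat_lit 3598) (nat_lit 563) (nat_lit 3599)))))))))))))))))))))))))))))))))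
noncomputable def s115017 : Cert := .r (nat_lit 13208868487754088833342159076976624420491642603268029217735065143262175891148270509776343512793493320399805495644767385007306596033488388677928750288023911774035610959872) (.p (nat_lit 558) (.a (.f (nat_lit 526) (nat_lit 525) (nat_lit 3597) (.f (nat_lit 562) (nat_lit 527) (nat_lit 3598) (.d (nat_lit 594) (nat_lit 593) (nat_lit 558) (nat_lit 595) (nat_lit 559)))) (.a (.f (nat_lit 526) (nat_lit 525) (nat_lit 3597) (.f (nat_lit 562) (nat_lit 527) (nat_lit 3598) (.d (nat_lit 590) (nat_lit 589) (nat_lit 1581) (nat_lit 591) (nat_lit 1582)))) (.a (.f (nat_lit 590) (nat_lit 589) (nat_lit 1581) (.f (nat_lit 591) (nat_lit 562) (nat_lit 1582) (.f (nat_lit 526) (nat_lit 525) (nat_lit 3597) (.d (nat_lit 494) (nat_lit 462) (nat_lit 4558) (nat_lit 623) (nat_lit 4590))))) (.a (.f (nat_lit 590) (nat_lit 589) (nat_lit 1581) (.f (nat_lit 562) (nat_lit 591) (nat_lit 1582) (.f (nat_lit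 563) (nat_lit 527) (nat_lit 3599) (.d (nat_lit 531) (nat_lit 530) (nat_lit 2575) (nat_lit 532) (nat_lit 2576))))) (.f (nat_lit 525) (nat_lit 526) (nat_lit 3597) (.f (nat_lit 557) (nat_lit 524) (nat_lit 3596) (.d (nat_lit 589) (nat_lit 588) (nat_lit 1580) (nat_lit 590) (nat_lit 1581)))))))))
noncomputable def s115018 : Cert := .r (nat_lit 13208868487754088833342159076976624420491642603268029217735065143262175891148270509776343512793493320399805495644767385007306596033488388677928750288023911774035610959872) (.p (nat_lit 558) (.a (.f (nat_lit 526) (nat_lit 525) (nat_lit 3597) (.f (nat_lit 562) (nat_lit 527) (nat_lit 3598) (.d (nat_lit 590) (nat_lit 589) (nat_lit 1581) (nat_lit 591) (nat_lit 1582)))) (.a (.f (nat_lit 590) (nat_lit 589) (nat_lit 1581) (.f (nat_lit 591) (nat_lit 562) (nat_lit 1582) (.f (nat_lit 526) (nat_lit 525) (nat_lit 3597) (.d (nat_lit 494) (nat_lit 462) (nat_lit 4558) (nat_lit 623) (nat_lit 4590)))))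 (.a (.f (nat_lit 590) (nat_lit 589) (nat_lit 1581) (.f (nat_lit 562) (nat_lit 591) (nat_lit 1582) (.f (nat_lit 563) (nat_lit 527) (nat_lit 3599) (.d (nat_lit 531) (nat_lit 530) (nat_lit 2575) (nat_lit 532) (nat_lit 2576))))) (.a (.f (nat_lit 525) (nat_lit 526) (nat_lit 3597) (.f (nat_lit 557) (nat_lit 524) (nat_lit 3596) (.d (nat_lit 589) (nat_lit 588) (nat_lit 1580) (nat_lit 590) (nat_lit 1581)))) (.f (nat_lit 526) (nat_lit 525) (nat_lit 3597) (.f (nat_lit 562) (nat_lit 527) (nat_lit 3598) (.f (nat_lit 531) (nat_lit 530) (nat_lit 2575) (.f (nat_lit 563) (nat_lit 532) (nat_lit 2576) (.d (nat_lit 595) (nat_lit 594) (nat_lit 559) (nat_lit 596) (nat_lit 560)))))))))))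
noncomputable def s115020 : Cert := .r (nat_lit 13208868487754088833342159076976624420491642603268029217735065143262175891148270509776343512793493320399805495644767385007306596033488388677928750288023911774035610959872) (.p (nat_lit 558) (.a (.f (nat_lit 526) (nat_lit 525) (nat_lit 3597) (.f (nat_lit 562) (nat_lit 527) (nat_lit 3598) (.d (nat_lit 594) (nat_lit 593) (nat_lit 558) (nat_lit 595) (nat_lit 559)))) (.a (.f (nat_lit 526) (nat_lit 525) (nat_lit 3597) (.f (nat_lit 562) (nat_lit 527) (nat_lit 3598) (.d (nat_lit 590) (nat_lit 589) (nat_lit 1581) (nat_lit 591) (nat_lit 1582)))) (.a (.f (nat_lit 525) (nat_lit 526) (nat_lit 3597) (.f (nat_lit 557) (nat_lit 524) (nat_lit 3596) (.d (nat_lit 589) (nat_lit 588) (nat_lit 1580) (nat_lit 590) (nat_lit 1581)))) (.f (nat_lit 590) (nat_lit 589) (nat_lit 1581) (.f (nat_lit 562) (nat_lit 591) (nat_lit 1582) (.f (nat_lit 563) (nat_lit 527) (nat_lit 3599) (.d (nat_lit 531)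 (nat_lit 530) (nat_lit 2575) (nat_lit 532) (nat_lit 2576)))))))))
noncomputable def s115025 : Cert := .r (nat_lit 13208868487754088833342159076976624420491642603268029217735065143262175891148270509776343512793493320399805495644767385007306596033488388677928750288023911774035610959872) (.p (nat_lit 558) (.a (.f (nat_lit 590) (nat_lit 589) (nat_lit 1581) (.f (nat_lit 591) (nat_lit 562) (nat_lit 1582) (.f (nat_lit 526) (nat_lit 525) (nat_lit 3597) (.d (nat_lit 494) (nat_lit 462) (nat_lit 4558) (nat_lit 623) (nat_lit 4590))))) (.a (.f (nat_lit 525) (nat_lit 526) (nat_lit 3597) (.f (nat_lit 557) (nat_lit 524) (nat_lit 3596) (.d (nat_lit 589) (nat_lit 588) (nat_lit 1580) (nat_lit 590) (nat_lit 1581)))) (.a (.f (nat_lit 593) (nat_lit 594) (nat_lit 558) (.f (nat_lit 557) (nat_lit 592) (nat_lit 557) (.d (nat_lit 589) (nat_lit 588) (nat_lit 1580) (nat_lit 590) (nat_lit 1581)))) (.f (nat_lit 593) (nat_lit 594) (nat_lit 558)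 (.f (nat_lit 557) (nat_lit 592) (nat_lit 557) (.d (nat_lit 525) (nat_lit 524) (nat_lit 3596) (nat_lit 526) (nat_lit 3597))))))))
noncomputable def s115039 : Cert := .r (nat_lit 14152359093959474171402547722223691643220872908372139324829116718323581931746307722797875194087908012285172589402458346232249242190969586836069108850882085784947959791616) (.p (nat_lit 591) (.a (.f (nat_lit 526) (nat_lit 525) (nat_lit 3597) (.f (nat_lit 623) (nat_lit 655) (nat_lit 7694) (.d (nat_lit 494) (nat_lit 527) (nat_lit 7662) (nat_lit 590) (nat_lit 4590)))) (.a (.f (nat_lit 590) (nat_lit 589) (nat_lit 1581) (.f (nat_lit 623) (nat_lit 655) (nat_lit 6671) (.d (nat_lit 526) (nat_lit 494) (nat_lit 4590) (nat_lit 525) (nat_lit 3597)))) (.a (.f (nat_lit 590) (nat_lit 589) (nat_lit 1581) (.f (nat_lit 593) (nat_lit 594) (nat_lit 558) (.f (nat_lit 625) (nat_lit 657) (nat_lit 7696) (.f (nat_lit 592) (nat_lit 626) (nat_lit 590) (.f (nat_lit 622)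 (nat_lit 621) (nat_lit 1613) (.d (nat_lit 654) (nat_lit 527) (nat_lit 6670) (nat_lit 686) (nat_lit 6702))))))) (.f (nat_lit 526) (nat_lit 525) (nat_lit 3597) (.f (nat_lit 623) (nat_lit 655) (nat_lit 7694) (.d (nat_lit 494) (nat_lit 462) (nat_lit 4558) (nat_lit 527) (nat_lit 7662))))))))
noncomputable def s115098 : Cert := .r (nat_lit 16209045196602322382300099346402648161142454733354819303043184805086765087352600013237828465553714258876448779892262453326970754096092674070071908233563552437741261106273966882816) (.p (nat_lit 624) (.a (.f (nat_lit 623) (nat_lit 655) (nat_lit 5647) (.f (nat_lit 591) (nat_lit 496) (nat_lit 5615) (.f (nat_lit 625) (nat_lit 657) (nat_lit 4624) (.d (nat_lit 626) (nat_lit 590) (nat_lit 3662) (nat_lit 627) (nat_lit 3663))))) (.a (.f (nat_lit 655) (nat_lit 623) (nat_lit 5647) (.f (nat_lit 656) (nat_lit 687) (nat_lit 5679) (.d (nat_lit 657) (nat_lit 625) (nat_lit 4624) (nat_lit 689) (nat_lit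 4656)))) (.a (.f (nat_lit 657) (nat_lit 625) (nat_lit 4624) (.f (nat_lit 656) (nat_lit 689) (nat_lit 4656) (.f (nat_lit 687) (nat_lit 655) (nat_lit 5679) (.d (nat_lit 688) (nat_lit 591) (nat_lit 7727) (nat_lit 719) (nat_lit 5711))))) (.a (.f (nat_lit 655) (nat_lit 623) (nat_lit 5647) (.f (nat_lit 656) (nat_lit 687) (nat_lit 5679) (.f (nat_lit 688) (nat_lit 591) (nat_lit 7727) (.d (nat_lit 689) (nat_lit 657) (nat_lit 4656) (nat_lit 721) (nat_lit 4688))))) (.a (.p (nat_lit 656) (.a (.d (nat_lit 655) (nat_lit 623) (nat_lit 5647) (nat_lit 687) (nat_lit 5679)) (.a (.f (nat_lit 688) (nat_lit 591) (nat_lit 7727) (.d (nat_lit 687) (nat_lit 655) (nat_lit 5679) (nat_lit 719) (nat_lit 5711))) (.f (nat_lit 591) (nat_lit 688) (nat_lit 7727) (.d (nat_lit 496) (nat_lit 464) (nat_lit 5583) (nat_lit 623) (nat_lit 5615)))))) (.f (nat_lit 657) (nat_lit 625) (nat_lit 4624) (.f (nat_lit 656) (nat_lit 689) (nat_lit 4656) (.f (nat_lit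 591) (nat_lit 688) (nat_lit 7727) (.d (nat_lit 496) (nat_lit 464) (nat_lit 5583) (nat_lit 623) (nat_lit 5615)))))))))))
noncomputable def s115111 : Cert := .r (nat_lit 16209045204150247231943182050885757323118992515188661743876065661839177687843848338022126169725967709231766314975199203388498443895633843329921493498686420940606653193572757536768) (.p (nat_lit 558) (.a (.f (nat_lit 590) (nat_lit 589) (nat_lit 1581) (.f (nat_lit 591) (nat_lit 562) (nat_lit 1582) (.f (nat_lit 623) (nat_lit 655) (nat_lit 6671) (.d (nat_lit 526) (nat_lit 494) (nat_lit 4590) (nat_lit 525) (nat_lit 3597))))) (.a (.f (nat_lit 590) (nat_lit 589) (nat_lit 1581) (.f (nat_lit 591) (nat_lit 562) (nat_lit 1582) (.f (nat_lit 557) (nat_lit 556) (nat_lit 556) (.d (nat_lit 525) (nat_lit 524) (nat_lit 3596) (nat_lit 526) (nat_lit 3597))))) (.a (.f (nat_lit 590) (nat_lit 589) (nat_lit 1581) (.f (nat_lit 562) (nat_lit 591) (nat_lit 1582) (.f (nat_lit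 595) (nat_lit 594) (nat_lit 559) (.f (nat_lit 563) (nat_lit 596) (nat_lit 560) (.d (nat_lit 531) (nat_lit 530) (nat_lit 2575) (nat_lit 532) (nat_lit 2576)))))) (.a (.f (nat_lit 525) (nat_lit 526) (nat_lit 3597) (.f (nat_lit 557) (nat_lit 524) (nat_lit 3596) (.d (nat_lit 589) (nat_lit 588) (nat_lit 1580) (nat_lit 590) (nat_lit 1581)))) (.a (.f (nat_lit 525) (nat_lit 526) (nat_lit 3597) (.f (nat_lit 557) (nat_lit 524) (nat_lit 3596) (.f (nat_lit 588) (nat_lit 589) (nat_lit 1580) (.d (nat_lit 556) (nat_lit 587) (nat_lit 1579) (nat_lit 591) (nat_lit 556))))) (.f (nat_lit 525) (nat_lit 526) (nat_lit 3597) (.f (nat_lit 557) (nat_lit 524) (nat_lit 3596) (.f (nat_lit 591) (nat_lit 556) (nat_lit 556) (.d (nat_lit 562) (nat_lit 563) (nat_lit 1583) (nat_lit 590) (nat_lit 1582)))))))))))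
noncomputable def s115112 : Cert := .r (nat_lit 16209045204150247231943182050885757323118992515188661743876065661839177687843848338022126169725967709231766314975199203388498443895633843329921493498686420940606653193572757536768) (.p (nat_lit 558) (.a (.f (nat_lit 590) (nat_lit 589) (nat_lit 1581) (.f (nat_lit 591) (nat_lit 562) (nat_lit 1582) (.f (nat_lit 557) (nat_lit 556) (nat_lit 556) (.d (nat_lit 525) (nat_lit 524) (nat_lit 3596) (nat_lit 526) (nat_lit 3597))))) (.a (.f (nat_lit 590) (nat_lit 589) (nat_lit 1581) (.f (nat_lit 562) (nat_lit 591) (nat_lit 1582) (.f (nat_lit 595) (nat_lit 594) (nat_lit 559) (.f (nat_lit 563) (nat_lit 596) (nat_lit 560) (.d (nat_lit 531) (nat_lit 530) (nat_lit 2575) (nat_lit 532) (nat_lit 2576)))))) (.a (.f (nat_lit 525) (nat_lit 526) (nat_lit 3597) (.f (nat_lit 557) (nat_lit 524) (nat_lit 3596) (.d (nat_lit 589) (nat_lit 588) (nat_lit 1580) (nat_lit 590) (nat_lit 1581)))) (.a (.f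 (nat_lit 525) (nat_lit 526) (nat_lit 3597) (.f (nat_lit 557) (nat_lit 524) (nat_lit 3596) (.f (nat_lit 588) (nat_lit 589) (nat_lit 1580) (.d (nat_lit 556) (nat_lit 587) (nat_lit 1579) (nat_lit 591) (nat_lit 556))))) (.f (nat_lit 525) (nat_lit 526) (nat_lit 3597) (.f (nat_lit 557) (nat_lit 524) (nat_lit 3596) (.f (nat_lit 591) (nat_lit 556) (nat_lit 556) (.d (nat_lit 562) (nat_lit 563) (nat_lit 1583) (nat_lit 590) (nat_lit 1582))))))))))
noncomputable def s115117 : Cert := .r (nat_lit 16209045204150247231943182050885757323118992515188661743876065661839177687843848338022126169725967709231766314975199203388498443895633843329921493498686420940606653193572757536768) (.p (nat_lit 558) (.a (.f (nat_lit 590) (nat_lit 589) (nat_lit 1581) (.f (nat_lit 591) (nat_lit 562) (nat_lit 1582) (.f (nat_lit 623) (nat_lit 655) (nat_lit 6671) (.d (nat_lit 526) (nat_lit 494) (nat_lit 4590) (nat_lit 525) (nat_lit 3597))))) (.a (.f (nat_lit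 590) (nat_lit 589) (nat_lit 1581) (.f (nat_lit 591) (nat_lit 562) (nat_lit 1582) (.f (nat_lit 557) (nat_lit 556) (nat_lit 556) (.d (nat_lit 525) (nat_lit 524) (nat_lit 3596) (nat_lit 526) (nat_lit 3597))))) (.a (.f (nat_lit 557) (nat_lit 593) (nat_lit 557) (.d (nat_lit 589) (nat_lit 588) (nat_lit 1580) (nat_lit 590) (nat_lit 1581))) (.a (.f (nat_lit 525) (nat_lit 526) (nat_lit 3597) (.f (nat_lit 557) (nat_lit 524) (nat_lit 3596) (.f (nat_lit 588) (nat_lit 589) (nat_lit 1580) (.d (nat_lit 556) (nat_lit 587) (nat_lit 1579) (nat_lit 591) (nat_lit 556))))) (.f (nat_lit 525) (nat_lit 526) (nat_lit 3597) (.f (nat_lit 557) (nat_lit 524) (nat_lit 3596) (.f (nat_lit 591) (nat_lit 556) (nat_lit 556) (.d (nat_lit 562) (nat_lit 563) (nat_lit 1583) (nat_lit 590) (nat_lit 1582))))))))))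
noncomputable def s115128 : Cert := .r (nat_lit 16209045204150247231943182050885757323118992515188661743876065661839177687843848338022126169725967709231766314975199203388498443895633843329921493498686420940606653193572757536768) (.p (nat_lit 558) (.a (.f (nat_lit 589) (nat_lit 590) (nat_lit 1581) (.f (nat_lit 557) (nat_lit 588) (nat_lit 1580) (.f (nat_lit 591) (nat_lit 556) (nat_lit 556) (.d (nat_lit 496) (nat_lit 464) (nat_lit 5583) (nat_lit 623) (nat_lit 5615))))) (.a (.f (nat_lit 590) (nat_lit 589) (nat_lit 1581) (.f (nat_lit 591) (nat_lit 562) (nat_lit 1582) (.f (nat_lit 623) (nat_lit 655) (nat_lit 6671) (.d (nat_lit 526) (nat_lit 494) (nat_lit 4590) (nat_lit 525) (nat_lit 3597))))) (.a (.f (nat_lit 590) (nat_lit 589) (nat_lit 1581) (.f (nat_lit 591) (nat_lit 562) (nat_lit 1582) (.f (nat_lit 557) (nat_lit 556) (nat_lit 556) (.d (nat_lit 525) (nat_lit 524) (nat_lit 3596) (nat_lit 526) (nat_lit 3597))))) (.a (.f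 (nat_lit 525) (nat_lit 526) (nat_lit 3597) (.f (nat_lit 557) (nat_lit 524) (nat_lit 3596) (.d (nat_lit 589) (nat_lit 588) (nat_lit 1580) (nat_lit 590) (nat_lit 1581)))) (.f (nat_lit 525) (nat_lit 526) (nat_lit 3597) (.f (nat_lit 557) (nat_lit 524) (nat_lit 3596) (.f (nat_lit 591) (nat_lit 556) (nat_lit 556) (.d (nat_lit 496) (nat_lit 464) (nat_lit 5583) (nat_lit 623) (nat_lit 5615))))))))))
noncomputable def s115152 : Cert := .r (nat_lit 14152359093959474171402547722223691643220872908372139324829116718323581931746307722797875194087908012285172589402458346232249242190969586836069108850882085784947959791616) (.p (nat_lit 623) (.a (.f (nat_lit 591) (nat_lit 655) (nat_lit 6671) (.d (nat_lit 496) (nat_lit 464) (nat_lit 5583) (nat_lit 527) (nat_lit 6639))) (.a (.f (nat_lit 591) (nat_lit 655) (nat_lit 6671) (.f (nat_lit 590) (nat_lit 589) (nat_lit 1581) (.d (nat_lit 526) (nat_lit 494) (nat_lit 4590) (nat_lit 525) (nat_lit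 3597)))) (.a (.f (nat_lit 526) (nat_lit 525) (nat_lit 3597) (.f (nat_lit 590) (nat_lit 589) (nat_lit 1581) (.f (nat_lit 622) (nat_lit 655) (nat_lit 4622) (.f (nat_lit 653) (nat_lit 621) (nat_lit 5645) (.d (nat_lit 654) (nat_lit 527) (nat_lit 6670) (nat_lit 685) (nat_lit 5677)))))) (.f (nat_lit 526) (nat_lit 525) (nat_lit 3597) (.f (nat_lit 590) (nat_lit 589) (nat_lit 1581) (.f (nat_lit 591) (nat_lit 494) (nat_lit 4590) (.d (nat_lit 496) (nat_lit 464) (nat_lit 5583) (nat_lit 527) (nat_lit 6639)))))))))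
noncomputable def s115161 : Cert := .r (nat_lit 16209045196602322382300099346402648161142454733354819303043184805086765087352600013237828465553714258876448779892262453326970754096092674070071908233563552437741261106273966882816) (.p (nat_lit 624) (.a (.f (nat_lit 656) (nat_lit 527) (nat_lit 7695) (.d (nat_lit 655) (nat_lit 623) (nat_lit 5647) (nat_lit 687) (nat_lit 5679))) (.a (.f (nat_lit 655) (nat_lit 623) (nat_lit 5647) (.f (nat_lit 656) (nat_lit 687) (nat_lit 5679) (.f (nat_lit 688) (nat_lit 591) (nat_lit 7727) (.d (nat_lit 689) (nat_lit 657) (nat_lit 4656) (nat_lit 721) (nat_lit 4688))))) (.a (.f (nat_lit 656) (nat_lit 527) (nat_lit 7695) (.f (nat_lit 688) (nat_lit 591) (nat_lit 7727) (.d (nat_lit 687) (nat_lit 655) (nat_lit 5679) (nat_lit 719) (nat_lit 5711)))) (.a (.f (nat_lit 623) (nat_lit 655) (nat_lit 5647) (.f (nat_lit 496) (nat_lit 591) (nat_lit 5615) (.f (nat_lit 465) (nat_lit 497) (nat_lit 6608) (.f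 (nat_lit 464) (nat_lit 433) (nat_lit 6576) (.f (nat_lit 432) (nat_lit 527) (nat_lit 5551) (.d (nat_lit 431) (nat_lit 399) (nat_lit 7567) (nat_lit 463) (nat_lit 7599))))))) (.f (nat_lit 656) (nat_lit 527) (nat_lit 7695) (.f (nat_lit 591) (nat_lit 688) (nat_lit 7727) (.d (nat_lit 496) (nat_lit 464) (nat_lit 5583) (nat_lit 623) (nat_lit 5615)))))))))
noncomputable def s115179 : Cert := .r (nat_lit 6604434244316391466919438560247153861387030467539258468076704117832333606962010018625621743732590477202235839340930656432708072931120001570946240348016693697649169137664) (.p (nat_lit 525) (.a (.f (nat_lit 526) (nat_lit 561) (nat_lit 3597) (.d (nat_lit 524) (nat_lit 527) (nat_lit 524) (nat_lit 557) (nat_lit 3596))) (.a (.f (nat_lit 557) (nat_lit 524) (nat_lit 3596) (.f (nat_lit 556) (nat_lit 527) (nat_lit 2572) (.d (nat_lit 588) (nat_lit 587) (nat_lit 1579) (nat_lit 589) (nat_lit 1580)))) (.a (.f (nat_lit 557) (nat_lit 524)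 (nat_lit 3596) (.f (nat_lit 589) (nat_lit 588) (nat_lit 1580) (.f (nat_lit 526) (nat_lit 561) (nat_lit 3597) (.d (nat_lit 494) (nat_lit 462) (nat_lit 5581) (nat_lit 621) (nat_lit 6637))))) (.a (.f (nat_lit 526) (nat_lit 561) (nat_lit 3597) (.d (nat_lit 524) (nat_lit 523) (nat_lit 523) (nat_lit 527) (nat_lit 524))) (.f (nat_lit 561) (nat_lit 526) (nat_lit 3597) (.f (nat_lit 594) (nat_lit 593) (nat_lit 558) (.f (nat_lit 562) (nat_lit 595) (nat_lit 559) (.f (nat_lit 531) (nat_lit 530) (nat_lit 2575) (.d (nat_lit 563) (nat_lit 527) (nat_lit 3599) (nat_lit 532) (nat_lit 2576)))))))))))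
noncomputable def s115198 : Cert := .r (nat_lit 87021648747151382753641910691920124672985874530179656182058212855445386826704763704362136089815640097603855535868785452200467824957882975259645638076345949518612973424833204058691792273408) (.p (nat_lit 623) (.a (.f (nat_lit 526) (nat_lit 655) (nat_lit 4622) (.f (nat_lit 621) (nat_lit 653) (nat_lit 5645) (.d (nat_lit 589) (nat_lit 494) (nat_lit 5613) (nat_lit 588) (nat_lit 3660)))) (.a (.f (nat_lit 625) (nat_lit 589) (nat_lit 3661) (.f (nat_lit 654) (nat_lit 653) (nat_lit 1645) (.d (nat_lit 655) (nat_lit 626) (nat_lit 1646) (nat_lit 687) (nat_lit 4654)))) (.a (.f (nat_lit 625) (nat_lit 589) (nat_lit 3661) (.f (nat_lit 653) (nat_lit 654) (nat_lit 1645) (.d (nat_lit 621) (nat_lit 526) (nat_lit 5645) (nat_lit 652) (nat_lit 1644)))) (.f (nat_lit 655) (nat_lit 526) (nat_lit 4622) (.d (nat_lit 687) (nat_lit 654) (nat_lit 4654) (nat_lit 719) (nat_lit 7758)))))))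
noncomputable def s115213 : Cert := .r (nat_lit 121830308240338770035627418710495435329272189532002828277182729111395025414719548148370471726551242648212780583969867894098372821494358032179506127580684742010414481927155848706270840225792) (.p (nat_lit 625) (.a (.f (nat_lit 590) (nat_lit 589) (nat_lit 3661) (.f (nat_lit 654) (nat_lit 653) (nat_lit 1645) (.d (nat_lit 655) (nat_lit 526) (nat_lit 4622) (nat_lit 626) (nat_lit 1646)))) (.a (.f (nat_lit 657) (nat_lit 658) (nat_lit 622) (.f (nat_lit 621) (nat_lit 656) (nat_lit 621) (.d (nat_lit 653) (nat_lit 652) (nat_lit 1644) (nat_lit 654) (nat_lit 1645)))) (.a (.f (nat_lit 590) (nat_lit 589) (nat_lit 3661) (.f (nat_lit 526) (nat_lit 655) (nat_lit 4622) (.f (nat_lit 621) (nat_lit 653) (nat_lit 5645) (.d (nat_lit 657) (nat_lit 656) (nat_lit 621) (nat_lit 658) (nat_lit 622))))) (.f (nat_lit 590) (nat_lit 589) (nat_lit 3661) (.f (nat_lit 655) (nat_lit 526) (nat_lit 4622)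 (.d (nat_lit 654) (nat_lit 626) (nat_lit 1646) (nat_lit 687) (nat_lit 4654))))))))
noncomputable def s115217 : Cert := .r (nat_lit 121830308240338770035627418710495435329272189532002828277182729111395025414719548148370471726551242648212780583969867894098372821494358032179506127580684742010414481927155848706270840225792) (.p (nat_lit 625) (.a (.f (nat_lit 657) (nat_lit 658) (nat_lit 622) (.f (nat_lit 621) (nat_lit 656) (nat_lit 621) (.d (nat_lit 653) (nat_lit 652) (nat_lit 1644) (nat_lit 654) (nat_lit 1645)))) (.a (.f (nat_lit 654) (nat_lit 653) (nat_lit 1645) (.f (nat_lit 626) (nat_lit 655) (nat_lit 1646) (.f (nat_lit 595) (nat_lit 594) (nat_lit 2639) (.f (nat_lit 627) (nat_lit 596) (nat_lit 2640) (.d (nat_lit 659) (nat_lit 658) (nat_lit 623) (nat_lit 660) (nat_lit 624)))))) (.a (.f (nat_lit 657) (nat_lit 658) (nat_lit 622) (.f (nat_lit 621) (nat_lit 656) (nat_lit 621) (.f (nat_lit 588) (nat_lit 589) (nat_lit 3660)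 (.f (nat_lit 620) (nat_lit 587) (nat_lit 3659) (.d (nat_lit 652) (nat_lit 651) (nat_lit 1643) (nat_lit 653) (nat_lit 1644)))))) (.a (.f (nat_lit 653) (nat_lit 654) (nat_lit 1645) (.f (nat_lit 621) (nat_lit 652) (nat_lit 1644) (.f (nat_lit 588) (nat_lit 589) (nat_lit 3660) (.f (nat_lit 620) (nat_lit 587) (nat_lit 3659) (.d (nat_lit 656) (nat_lit 655) (nat_lit 620) (nat_lit 657) (nat_lit 621)))))) (.f (nat_lit 658) (nat_lit 657) (nat_lit 622) (.f (nat_lit 626) (nat_lit 659) (nat_lit 623) (.f (nat_lit 595) (nat_lit 594) (nat_lit 2639) (.f (nat_lit 627) (nat_lit 596) (nat_lit 2640) (.d (nat_lit 655) (nat_lit 654) (nat_lit 1646) (nat_lit 656) (nat_lit 1647)))))))))))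
noncomputable def s115364 : Cert := .r (nat_lit 87021648747151382753641910691920124672985874530179656182058212855445386826704763704362136089815640097603855535868785452200467824957882975259645638076345949518612973424833204058691792273408) (.p (nat_lit 654) (.a (.f (nat_lit 655) (nat_lit 687) (nat_lit 4654) (.d (nat_lit 623) (nat_lit 526) (nat_lit 4622) (nat_lit 592) (nat_lit 5647))) (.a (.f (nat_lit 653) (nat_lit 685) (nat_lit 5677) (.f (nat_lit 655) (nat_lit 687) (nat_lit 4654) (.d (nat_lit 526) (nat_lit 621) (nat_lit 5645) (nat_lit 623) (nat_lit 4622)))) (.a (.f (nat_lit 653) (nat_lit 685) (nat_lit 5677) (.f (nat_lit 655) (nat_lit 687) (nat_lit 4654) (.f (nat_lit 621) (nat_lit 526) (nat_lit 5645) (.d (nat_lit 656) (nat_lit 620) (nat_lit 3692) (nat_lit 657) (nat_lit 3693))))) (.a (.f (nat_lit 655) (nat_lit 687) (nat_lit 4654) (.f (nat_lit 653) (nat_lit 685) (nat_lit 5677) (.d (nat_lit 623) (nat_lit 592) (nat_lit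 5647) (nat_lit 652) (nat_lit 2668)))) (.a (.f (nat_lit 653) (nat_lit 685) (nat_lit 5677) (.f (nat_lit 621) (nat_lit 526) (nat_lit 5645) (.f (nat_lit 652) (nat_lit 623) (nat_lit 1644) (.f (nat_lit 651) (nat_lit 650) (nat_lit 2666) (.f (nat_lit 686) (nat_lit 687) (nat_lit 651) (.d (nat_lit 718) (nat_lit 589) (nat_lit 7757) (nat_lit 750) (nat_lit 7789))))))) (.f (nat_lit 653) (nat_lit 685) (nat_lit 5677) (.f (nat_lit 621) (nat_lit 526) (nat_lit 5645) (.f (nat_lit 623) (nat_lit 652) (nat_lit 1644) (.d (nat_lit 592) (nat_lit 593) (nat_lit 2637) (nat_lit 655) (nat_lit 5647)))))))))))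
noncomputable def s115488 : Cert := .r (nat_lit 6604434244316391466919438560247153861387030467539258468076704117832333606962010018625621743732590477202235839340930656432708072931120001570946240348016693697649169137664) (.p (nat_lit 496) (.a (.f (nat_lit 464) (nat_lit 591) (nat_lit 5583) (.f (nat_lit 432) (nat_lit 527) (nat_lit 5551) (.d (nat_lit 433) (nat_lit 401) (nat_lit 6544) (nat_lit 465) (nat_lit 6576)))) (.a (.f (nat_lit 464) (nat_lit 591) (nat_lit 5583) (.f (nat_lit 433) (nat_lit 465) (nat_lit 6576) (.f (nat_lit 432) (nat_lit 401) (nat_lit 6544) (.d (nat_lit 431) (nat_lit 399) (nat_lit 7567) (nat_lit 463) (nat_lit 7599))))) (.a (.f (nat_lit 591) (nat_lit 464) (nat_lit 5583) (.d (nat_lit 623) (nat_lit 527) (nat_lit 6639) (nat_lit 655) (nat_lit 6671))) (.p (nat_lit 557) (.a (.f (nat_lit 556) (nat_lit 527) (nat_lit 2572) (.d (nat_lit 588) (nat_lit 587) (nat_lit 1579) (nat_lit 589) (nat_lit 1580))) (.a (.f (nat_lit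 588) (nat_lit 589) (nat_lit 1580) (.f (nat_lit 556) (nat_lit 587) (nat_lit 1579) (.d (nat_lit 524) (nat_lit 523) (nat_lit 3595) (nat_lit 525) (nat_lit 3596)))) (.a (.f (nat_lit 556) (nat_lit 527) (nat_lit 2572) (.d (nat_lit 524) (nat_lit 523) (nat_lit 3595) (nat_lit 525) (nat_lit 3596))) (.p (nat_lit 526) (.a (.f (nat_lit 525) (nat_lit 524) (nat_lit 3596) (.f (nat_lit 589) (nat_lit 588) (nat_lit 1580) (.d (nat_lit 494) (nat_lit 462) (nat_lit 5581) (nat_lit 621) (nat_lit 6637)))) (.a (.f (nat_lit 589) (nat_lit 588) (nat_lit 1580) (.f (nat_lit 494) (nat_lit 462) (nat_lit 5581) (.d (nat_lit 621) (nat_lit 590) (nat_lit 5613) (nat_lit 653) (nat_lit 6669)))) (.f (nat_lit 525) (nat_lit 524) (nat_lit 3596) (.f (nat_lit 527) (nat_lit 497) (nat_lit 2541) (.f (nat_lit 493) (nat_lit 492) (nat_lit 3564) (.d (nat_lit 461) (nat_lit 429) (nat_lit 4525) (nat_lit 590) (nat_lit 4557))))))))))))))))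
noncomputable def s115597 : Cert := .r (nat_lit 3773962425700235452738272624505952193199339552226928146794549392648115485167898379561026699849346401546134558067857772757880134458676407096525164659442171664912122642432) (.p (nat_lit 559) (.a (.p (nat_lit 561) (.a (.p (nat_lit 558) (.a (.f (nat_lit 593) (nat_lit 594) (nat_lit 558) (.f (nat_lit 592) (nat_lit 557) (nat_lit 557) (.d (nat_lit 496) (nat_lit 464) (nat_lit 4560) (nat_lit 625) (nat_lit 4592)))) (.a (.f (nat_lit 526) (nat_lit 525) (nat_lit 3597) (.f (nat_lit 562) (nat_lit 527) (nat_lit 3598) (.d (nat_lit 594) (nat_lit 593) (nat_lit 558) (nat_lit 595) (nat_lit 559)))) (.f (nat_lit 526) (nat_lit 525) (nat_lit 3597) (.f (nat_lit 562) (nat_lit 527) (nat_lit 3598) (.d (nat_lit 590) (nat_lit 589) (nat_lit 1581) (nat_lit 591) (nat_lit 1582))))))) (.a s115017 (.a s115018 (.a (.p (nat_lit 558) (.a (.f (nat_lit 593) (nat_lit 594) (nat_lit 558) (.f (nat_lit 592) (nat_lit 557) (nat_lit 557) (.d (nat_lit 496) (nat_lit 464) (nat_lit 4560) (nat_lit 625) (nat_lit 4592)))) (.f (nat_lit 590) (nat_lit 589) (nat_lit 1581) (.f (nat_lit 591) (nat_lit 562) (nat_lit 1582) (.f (nat_lit 526) (nat_lit 525) (nat_lit 3597) (.d (nat_lit 494) (nat_lit 462) (nat_lit 4558) (nat_lit 623) (nat_lit 4590))))))) (.a (.p (nat_lit 562) (.a (.d (nat_lit 527) (nat_lit 526) (nat_lit 3598) (nat_lit 563) (nat_lit 3599)) (.a (.f (nat_lit 591) (nat_lit 590) (nat_lit 1582) (.f (nat_lit 592) (nat_lit 563) (nat_lit 1583) (.d (nat_lit 496) (nat_lit 464) (nat_lit 5583) (nat_lit 623) (nat_lit 5615)))) (.f (nat_lit 591) (nat_lit 590) (nat_lit 1582) (.f (nat_lit 496) (nat_lit 464) (nat_lit 5583) (.d (nat_lit 527) (nat_lit 526) (nat_lit 3598) (nat_lit 623) (nat_lit 6639))))))) (.a (.p (nat_lit 558) (.a (.f (nat_lit 593) (nat_lit 594) (nat_lit 558) (.f (nat_lit 592) (nat_lit 557) (nat_lit 557) (.d (nat_lit 496) (nat_lit 464) (nat_lit 4560) (nat_lit 625) (nat_lit 4592)))) (.f (nat_lit 590) (nat_lit 589) (nat_lit 1581) (.f (nat_lit 562) (nat_lit 591) (nat_lit 1582) (.f (nat_lit 563) (nat_lit 527) (nat_lit 3599) (.d (nat_lit 531) (nat_lit 530) (nat_lit 2575) (nat_lit 532) (nat_lit 2576))))))) (.a (.p (nat_lit 558) (.a (.f (nat_lit 593) (nat_lit 594) (nat_lit 558) (.f (nat_lit 592) (nat_lit 557) (nat_lit 557) (.d (nat_lit 496) (nat_lit 464) (nat_lit 4560) (nat_lit 625) (nat_lit 4592)))) (.a (.f (nat_lit 525) (nat_lit 526) (nat_lit 3597) (.f (nat_lit 557) (nat_lit 524) (nat_lit 3596) (.d (nat_lit 589) (nat_lit 588) (nat_lit 1580) (nat_lit 590) (nat_lit 1581)))) (.f (nat_lit 593) (nat_lit 594) (nat_lit 558) (.f (nat_lit 496) (nat_lit 464) (nat_lit 4560) (.d (nat_lit 625) (nat_lit 592) (nat_lit 4592) (nat_lit 657) (nat_lit 7696))))))) s46978)))))))) (.a (.p (nat_lit 561) (.a (.p (nat_lit 558) (.a (.f (nat_lit 593) (nat_lit 594) (nat_lit 558) (.f (nat_lit 592) (nat_lit 557) (nat_lit 557) (.d (nat_lit 496) (nat_lit 464) (nat_lit 4560) (nat_lit 625) (nat_lit 4592)))) (.a (.f (nat_lit 526) (nat_lit 525) (nat_lit 3597) (.f (nat_lit 562) (nat_lit 527) (nat_lit 3598) (.d (nat_lit 594) (nat_lit 593) (nat_lit 558) (nat_lit 595) (nat_lit 559)))) (.f (nat_lit 526) (nat_lit 525) (nat_lit 3597) (.f (nat_lit 562) (nat_lit 527) (nat_lit 3598) (.d (nat_lit 590) (nat_lit 589) (nat_lit 1581) (nat_lit 591) (nat_lit 1582))))))) (.a s115020 (.a (.p (nat_lit 562) (.a (.d (nat_lit 527) (nat_lit 526) (nat_lit 3598) (nat_lit 563) (nat_lit 3599)) (.a (.f (nat_lit 591) (nat_lit 590) (nat_lit 1582) (.f (nat_lit 592) (nat_lit 563) (nat_lit 1583) (.d (nat_lit 496) (nat_lit 464) (nat_lit 5583) (nat_lit 623) (nat_lit 5615)))) (.f (nat_lit 591) (nat_lit 590) (nat_lit 1582) (.f (nat_lit 496) (nat_lit 464) (nat_lit 5583) (.d (nat_lit 527) (nat_lit 526) (nat_lit 3598) (nat_lit 623) (nat_lit 6639))))))) (.a (.p (nat_lit 558) (.a (.f (nat_lit 593) (nat_lit 594) (nat_lit 558) (.f (nat_lit 592) (nat_lit 557) (nat_lit 557) (.d (nat_lit 496) (nat_lit 464) (nat_lit 4560) (nat_lit 625) (nat_lit 4592)))) (.a (.f (nat_lit 525) (nat_lit 526) (nat_lit 3597) (.f (nat_lit 557) (nat_lit 524) (nat_lit 3596) (.d (nat_lit 589) (nat_lit 588) (nat_lit 1580) (nat_lit 590) (nat_lit 1581)))) (.f (nat_lit 593) (nat_lit 594) (nat_lit 558) (.f (nat_lit 496) (nat_lit 464) (nat_lit 4560) (.d (nat_lit 625) (nat_lit 592) (nat_lit 4592) (nat_lit 657) (nat_lit 7696))))))) (.a (.p (nat_lit 558) (.a (.f (nat_lit 593) (nat_lit 594) (nat_lit 558) (.f (nat_lit 592) (nat_lit 557) (nat_lit 557) (.d (nat_lit 496) (nat_lit 464) (nat_lit 4560) (nat_lit 625) (nat_lit 4592)))) (.f (nat_lit 590) (nat_lit 589) (nat_lit 1581) (.f (nat_lit 562) (nat_lit 591) (nat_lit 1582) (.f (nat_lit 563) (nat_lit 527) (nat_lit 3599) (.d (nat_lit 531) (nat_lit 530) (nat_lit 2575) (nat_lit 532) (nat_lit 2576))))))) s46978)))))) (.a (.p (nat_lit 561) (.a s115017 (.a s115018 (.a (.p (nat_lit 558) (.a (.f (nat_lit 590) (nat_lit 589) (nat_lit 1581) (.f (nat_lit 591) (nat_lit 562) (nat_lit 1582) (.f (nat_lit 526) (nat_lit 525) (nat_lit 3597) (.d (nat_lit 494) (nat_lit 462) (nat_lit 4558) (nat_lit 623) (nat_lit 4590))))) (.a (.f (nat_lit 525) (nat_lit 526) (nat_lit 3597) (.f (nat_lit 557) (nat_lit 524) (nat_lit 3596) (.d (nat_lit 589) (nat_lit 588) (nat_lit 1580) (nat_lit 590) (nat_lit 1581)))) (.f (nat_lit 593) (nat_lit 594) (nat_lit 558) (.f (nat_lit 592) (nat_lit 557) (nat_lit 557) (.d (nat_lit 625) (nat_lit 496) (nat_lit 4592) (nat_lit 657) (nat_lit 7696))))))) (.a s115020 (.a (.p (nat_lit 562) (.a (.d (nat_lit 527) (nat_lit 526) (nat_lit 3598) (nat_lit 563) (nat_lit 3599)) (.a (.f (nat_lit 591) (nat_lit 590) (nat_lit 1582) (.f (nat_lit 592) (nat_lit 563) (nat_lit 1583) (.d (nat_lit 623) (nat_lit 496) (nat_lit 5615) (nat_lit 655) (nat_lit 6671)))) (.f (nat_lit 591) (nat_lit 590) (nat_lit 1582) (.f (nat_lit 623) (nat_lit 655) (nat_lit 6671) (.d (nat_lit 527) (nat_lit 496) (nat_lit 6639) (nat_lit 526) (nat_lit 3598))))))) (.a (.p (nat_lit 558) (.a (.f (nat_lit 590) (nat_lit 589) (nat_lit 1581) (.f (nat_lit 562) (nat_lit 591) (nat_lit 1582) (.f (nat_lit 563) (nat_lit 527) (nat_lit 3599) (.d (nat_lit 531) (nat_lit 530) (nat_lit 2575) (nat_lit 532) (nat_lit 2576))))) (.f (nat_lit 593) (nat_lit 594) (nat_lit 558) (.f (nat_lit 592) (nat_lit 557) (nat_lit 557) (.d (nat_lit 625) (nat_lit 496) (nat_lit 4592) (nat_lit 657) (nat_lit 7696)))))) (.a (.p (nat_lit 558) (.a (.f (nat_lit 525) (nat_lit 526) (nat_lit 3597) (.f (nat_lit 557) (nat_lit 524) (nat_lit 3596) (.d (nat_lit 589) (nat_lit 588) (nat_lit 1580) (nat_lit 590) (nat_lit 1581)))) (.a (.f (nat_lit 593) (nat_lit 594) (nat_lit 558) (.f (nat_lit 592) (nat_lit 557) (nat_lit 557) (.d (nat_lit 625) (nat_lit 496) (nat_lit 4592) (nat_lit 657) (nat_lit 7696)))) (.f (nat_lit 593) (nat_lit 594) (nat_lit 558) (.f (nat_lit 526) (nat_lit 525) (nat_lit 3597) (.f (nat_lit 590) (nat_lit 589) (nat_lit 1581) (.f (nat_lit 625) (nat_lit 657) (nat_lit 7696) (.f (nat_lit 592) (nat_lit 496) (nat_lit 4592) (.f (nat_lit 591) (nat_lit 626) (nat_lit 590) (.d (nat_lit 494) (nat_lit 462) (nat_lit 4558) (nat_lit 623) (nat_lit 4590))))))))))) (.a (.p (nat_lit 558) (.a (.f (nat_lit 526) (nat_lit 525) (nat_lit 3597) (.f (nat_lit 562) (nat_lit 527) (nat_lit 3598) (.d (nat_lit 594) (nat_lit 593) (nat_lit 558) (nat_lit 595) (nat_lit 559)))) (.a (.f (nat_lit 525) (nat_lit 526) (nat_lit 3597) (.f (nat_lit 557) (nat_lit 524) (nat_lit 3596) (.d (nat_lit 589) (nat_lit 588) (nat_lit 1580) (nat_lit 590) (nat_lit 1581)))) (.f (nat_lit 593) (nat_lit 594) (nat_lit 558) (.f (nat_lit 592) (nat_lit 557) (nat_lit 557) (.d (nat_lit 625) (nat_lit 496) (nat_lit 4592) (nat_lit 657) (nat_lit 7696))))))) (.p (nat_lit 558) (.a (.f (nat_lit 526) (nat_lit 525) (nat_lit 3597) (.f (nat_lit 562) (nat_lit 527) (nat_lit 3598) (.d (nat_lit 594) (nat_lit 593) (nat_lit 558) (nat_lit 595) (nat_lit 559)))) (.a (.f (nat_lit 526) (nat_lit 525) (nat_lit 3597) (.f (nat_lit 562) (nat_lit 527) (nat_lit 3598) (.f (nat_lit 531) (nat_lit 530) (nat_lit 2575) (.f (nat_lit 563) (nat_lit 532) (nat_lit 2576) (.d (nat_lit 595) (nat_lit 594) (nat_lit 559) (nat_lit 596) (nat_lit 560)))))) (.a (.f (nat_lit 593) (nat_lit 594) (nat_lit 558) (.f (nat_lit 592) (nat_lit 557) (nat_lit 557) (.d (nat_lit 625) (nat_lit 496) (nat_lit 4592) (nat_lit 657) (nat_lit 7696)))) (.f (nat_lit 526) (nat_lit 525) (nat_lit 3597) (.f (nat_lit 527) (nat_lit 562) (nat_lit 3598) (.f (nat_lit 557) (nat_lit 556) (nat_lit 2572) (.f (nat_lit 592) (nat_lit 593) (nat_lit 557) (.f (nat_lit 624) (nat_lit 656) (nat_lit 7695) (.f (nat_lit 623) (nat_lit 655) (nat_lit 5647) (.d (nat_lit 591) (nat_lit 494) (nat_lit 7662) (nat_lit 496) (nat_lit 5615))))))))))))))))))))) (.a (.p (nat_lit 561) (.a (.p (nat_lit 558) (.a (.f (nat_lit 593) (nat_lit 594) (nat_lit 558) (.f (nat_lit 592) (nat_lit 557) (nat_lit 557) (.d (nat_lit 496) (nat_lit 464) (nat_lit 4560) (nat_lit 625) (nat_lit 4592)))) (.a (.f (nat_lit 526) (nat_lit 525) (nat_lit 3597) (.f (nat_lit 562) (nat_lit 527) (nat_lit 3598) (.d (nat_lit 594) (nat_lit 593) (nat_lit 558) (nat_lit 595) (nat_lit 559)))) (.f (nat_lit 526) (nat_lit 525) (nat_lit 3597) (.f (nat_lit 562) (nat_lit 527) (nat_lit 3598) (.d (nat_lit 590) (nat_lit 589) (nat_lit 1581) (nat_lit 591) (nat_lit 1582))))))) (.a s115020 (.a (.p (nat_lit 562) (.a (.d (nat_lit 527) (nat_lit 526) (nat_lit 3598) (nat_lit 563) (nat_lit 3599)) (.a (.f (nat_lit 591) (nat_lit 590) (nat_lit 1582) (.f (nat_lit 592) (nat_lit 563) (nat_lit 1583) (.d (nat_lit 496) (nat_lit 464) (nat_lit 5583) (nat_lit 623) (nat_lit 5615)))) (.f (nat_lit 591) (nat_lit 590) (nat_lit 1582) (.f (nat_lit 496) (nat_lit 464) (nat_lit 5583) (.d (nat_lit 527) (nat_lit 526) (nat_lit 3598) (nat_lit 623) (nat_lit 6639))))))) (.a (.p (nat_lit 558) (.a (.f (nat_lit 593) (nat_lit 594) (nat_lit 558) (.f (nat_lit 592) (nat_lit 557) (nat_lit 557) (.d (nat_lit 496) (nat_lit 464) (nat_lit 4560) (nat_lit 625) (nat_lit 4592)))) (.a (.f (nat_lit 525) (nat_lit 526) (nat_lit 3597) (.f (nat_lit 557) (nat_lit 524) (nat_lit 3596) (.d (nat_lit 589) (nat_lit 588) (nat_lit 1580) (nat_lit 590) (nat_lit 1581)))) (.f (nat_lit 593) (nat_lit 594) (nat_lit 558) (.f (nat_lit 496) (nat_lit 464) (nat_lit 4560) (.d (nat_lit 625) (nat_lit 592) (nat_lit 4592) (nat_lit 657) (nat_lit 7696))))))) (.a (.p (nat_lit 558) (.a (.f (nat_lit 593) (nat_lit 594) (nat_lit 558) (.f (nat_lit 592) (nat_lit 557) (nat_lit 557) (.d (nat_lit 496) (nat_lit 464) (nat_lit 4560) (nat_lit 625) (nat_lit 4592)))) (.f (nat_lit 590) (nat_lit 589) (nat_lit 1581) (.f (nat_lit 562) (nat_lit 591) (nat_lit 1582) (.f (nat_lit 563) (nat_lit 527) (nat_lit 3599) (.d (nat_lit 531) (nat_lit 530) (nat_lit 2575) (nat_lit 532) (nat_lit 2576))))))) (.p (nat_lit 558) (.a (.f (nat_lit 593) (nat_lit 594) (nat_lit 558) (.f (nat_lit 592) (nat_lit 557) (nat_lit 557) (.d (nat_lit 496) (nat_lit 464) (nat_lit 4560) (nat_lit 625) (nat_lit 4592)))) (.a (.f (nat_lit 526) (nat_lit 525) (nat_lit 3597) (.f (nat_lit 562) (nat_lit 527) (nat_lit 3598) (.d (nat_lit 594) (nat_lit 593) (nat_lit 558) (nat_lit 595) (nat_lit 559)))) (.a (.f (nat_lit 526) (nat_lit 525) (nat_lit 3597) (.f (nat_lit 562) (nat_lit 527) (nat_lit 3598) (.f (nat_lit 531) (nat_lit 530) (nat_lit 2575) (.f (nat_lit 563) (nat_lit 532) (nat_lit 2576) (.d (nat_lit 595) (nat_lit 594) (nat_lit 559) (nat_lit 596) (nat_lit 560)))))) (.f (nat_lit 526) (nat_lit 525) (nat_lit 3597) (.f (nat_lit 527) (nat_lit 562) (nat_lit 3598) (.f (nat_lit 557) (nat_lit 556) (nat_lit 2572) (.f (nat_lit 592) (nat_lit 593) (nat_lit 557) (.f (nat_lit 624) (nat_lit 656) (nat_lit 7695) (.f (nat_lit 623) (nat_lit 655) (nat_lit 5647) (.f (nat_lit 496) (nat_lit 591) (nat_lit 5615) (.f (nat_lit 464) (nat_lit 432) (nat_lit 5551) (.d (nat_lit 465) (nat_lit 433) (nat_lit 6576) (nat_lit 497) (nat_lit 6608)))))))))))))))))))) (.a (.p (nat_lit 561) (.a s115017 (.a s115018 (.a s115025 (.a s115020 (.a (.p (nat_lit 562) (.a (.d (nat_lit 527) (nat_lit 526) (nat_lit 3598) (nat_lit 563) (nat_lit 3599)) (.a (.f (nat_lit 591) (nat_lit 590) (nat_lit 1582) (.f (nat_lit 563) (nat_lit 592) (nat_lit 1583) (.d (nat_lit 595) (nat_lit 594) (nat_lit 559) (nat_lit 596) (nat_lit 560)))) (.f (nat_lit 591) (nat_lit 590) (nat_lit 1582) (.f (nat_lit 527) (nat_lit 526) (nat_lit 3598) (.f (nat_lit 623) (nat_lit 655) (nat_lit 6671) (.f (nat_lit 624) (nat_lit 656) (nat_lit 4623) (.f (nat_lit 622) (nat_lit 654) (nat_lit 5646) (.f (nat_lit 594) (nat_lit 595) (nat_lit 559) (.d (nat_lit 593) (nat_lit 592) (nat_lit 1614) (nat_lit 625) (nat_lit 2638))))))))))) (.a (.p (nat_lit 558) (.a (.f (nat_lit 590) (nat_lit 589) (nat_lit 1581) (.f (nat_lit 562) (nat_lit 591) (nat_lit 1582) (.f (nat_lit 563) (nat_lit 527) (nat_lit 3599) (.d (nat_lit 531) (nat_lit 530) (nat_lit 2575) (nat_lit 532) (nat_lit 2576))))) (.a (.f (nat_lit 593) (nat_lit 594) (nat_lit 558) (.f (nat_lit 557) (nat_lit 592) (nat_lit 557) (.d (nat_lit 589) (nat_lit 588) (nat_lit 1580) (nat_lit 590) (nat_lit 1581)))) (.a (.f (nat_lit 593) (nat_lit 594) (nat_lit 558) (.f (nat_lit 557) (nat_lit 592) (nat_lit 557) (.f (nat_lit 556) (nat_lit 527) (nat_lit 2572) (.d (nat_lit 588) (nat_lit 587) (nat_lit 1579) (nat_lit 589) (nat_lit 1580))))) (.f (nat_lit 593) (nat_lit 594) (nat_lit 558) (.f (nat_lit 557) (nat_lit 592) (nat_lit 557) (.f (nat_lit 556) (nat_lit 527) (nat_lit 2572) (.d (nat_lit 524) (nat_lit 523) (nat_lit 3595) (nat_lit 525) (nat_lit 3596))))))))) (.a (.p (nat_lit 558) (.a (.f (nat_lit 525) (nat_lit 526) (nat_lit 3597) (.f (nat_lit 557) (nat_lit 524) (nat_lit 3596) (.d (nat_lit 589) (nat_lit 588) (nat_lit 1580) (nat_lit 590) (nat_lit 1581)))) (.a (.f (nat_lit 593) (nat_lit 594) (nat_lit 558) (.f (nat_lit 557) (nat_lit 592) (nat_lit 557) (.d (nat_lit 589) (nat_lit 588) (nat_lit 1580) (nat_lit 590) (nat_lit 1581)))) (.a s115039 (.f (nat_lit 593) (nat_lit 594) (nat_lit 558) (.f (nat_lit 557) (nat_lit 592) (nat_lit 557) (.d (nat_lit 525) (nat_lit 524) (nat_lit 3596) (nat_lit 526) (nat_lit 3597)))))))) (.a (.p (nat_lit 558) (.a (.f (nat_lit 526) (nat_lit 525) (nat_lit 3597) (.f (nat_lit 562) (nat_lit 527) (nat_lit 3598) (.d (nat_lit 594) (nat_lit 593) (nat_lit 558) (nat_lit 595) (nat_lit 559)))) (.a (.f (nat_lit 525) (nat_lit 526) (nat_lit 3597) (.f (nat_lit 557) (nat_lit 524) (nat_lit 3596) (.d (nat_lit 589) (nat_lit 588) (nat_lit 1580) (nat_lit 590) (nat_lit 1581)))) (.f (nat_lit 593) (nat_lit 594) (nat_lit 558) (.f (nat_lit 557) (nat_lit 592) (nat_lit 557) (.d (nat_lit 589) (nat_lit 588) (nat_lit 1580) (nat_lit 590) (nat_lit 1581))))))) (.a (.p (nat_lit 558) (.a (.f (nat_lit 526) (nat_lit 525) (nat_lit 3597) (.f (nat_lit 562) (nat_lit 527) (nat_lit 3598) (.d (nat_lit 594) (nat_lit 593) (nat_lit 558) (nat_lit 595) (nat_lit 559)))) (.a (.f (nat_lit 526) (nat_lit 525) (nat_lit 3597) (.f (nat_lit 562) (nat_lit 527) (nat_lit 3598) (.f (nat_lit 531) (nat_lit 530) (nat_lit 2575) (.f (nat_lit 563) (nat_lit 532) (nat_lit 2576) (.d (nat_lit 595) (nat_lit 594) (nat_lit 559) (nat_lit 596) (nat_lit 560)))))) (.a (.f (nat_lit 593) (nat_lit 594) (nat_lit 558) (.f (nat_lit 557) (nat_lit 592) (nat_lit 557) (.d (nat_lit 525) (nat_lit 524) (nat_lit 3596) (nat_lit 526) (nat_lit 3597)))) (.a (.f (nat_lit 593) (nat_lit 594) (nat_lit 558) (.f (nat_lit 557) (nat_lit 592) (nat_lit 557) (.f (nat_lit 556) (nat_lit 527) (nat_lit 2572) (.d (nat_lit 588) (nat_lit 587) (nat_lit 1579) (nat_lit 589) (nat_lit 1580))))) (.f (nat_lit 526) (nat_lit 525) (nat_lit 3597) (.f (nat_lit 527) (nat_lit 562) (nat_lit 3598) (.f (nat_lit 557) (nat_lit 556) (nat_lit 2572) (.f (nat_lit 589) (nat_lit 588) (nat_lit 1580) (.f (nat_lit 494) (nat_lit 462) (nat_lit 5581) (.f (nat_lit 623) (nat_lit 591) (nat_lit 7662) (.f (nat_lit 592) (nat_lit 593) (nat_lit 557) (.d (nat_lit 624) (nat_lit 655) (nat_lit 5647) (nat_lit 656) (nat_lit 7695)))))))))))))) (.p (nat_lit 558) (.a (.f (nat_lit 526) (nat_lit 525) (nat_lit 3597) (.f (nat_lit 562) (nat_lit 527) (nat_lit 3598) (.d (nat_lit 590) (nat_lit 589) (nat_lit 1581) (nat_lit 591) (nat_lit 1582)))) (.a (.f (nat_lit 590) (nat_lit 589) (nat_lit 1581) (.f (nat_lit 591) (nat_lit 562) (nat_lit 1582) (.f (nat_lit 526) (nat_lit 525) (nat_lit 3597) (.d (nat_lit 494) (nat_lit 462) (nat_lit 4558) (nat_lit 623) (nat_lit 4590))))) (.a (.f (nat_lit 590) (nat_lit 589) (nat_lit 1581) (.f (nat_lit 562) (nat_lit 591) (nat_lit 1582) (.f (nat_lit 563) (nat_lit 527) (nat_lit 3599) (.d (nat_lit 531) (nat_lit 530) (nat_lit 2575) (nat_lit 532) (nat_lit 2576))))) (.a (.f (nat_lit 525) (nat_lit 526) (nat_lit 3597) (.f (nat_lit 557) (nat_lit 524) (nat_lit 3596) (.d (nat_lit 589) (nat_lit 588) (nat_lit 1580) (nat_lit 590) (nat_lit 1581)))) (.a (.f (nat_lit 526) (nat_lit 525) (nat_lit 3597) (.f (nat_lit 527) (nat_lit 562) (nat_lit 3598) (.f (nat_lit 557) (nat_lit 556) (nat_lit 2572) (.f (nat_lit 589) (nat_lit 588) (nat_lit 1580) (.f (nat_lit 494) (nat_lit 462) (nat_lit 5581) (.f (nat_lit 623) (nat_lit 591) (nat_lit 7662) (.f (nat_lit 592) (nat_lit 593) (nat_lit 557) (.d (nat_lit 624) (nat_lit 655) (nat_lit 5647) (nat_lit 656) (nat_lit 7695))))))))) (.f (nat_lit 526) (nat_lit 525) (nat_lit 3597) (.f (nat_lit 562) (nat_lit 527) (nat_lit 3598) (.f (nat_lit 591) (nat_lit 590) (nat_lit 1582) (.f (nat_lit 592) (nat_lit 563) (nat_lit 1583) (.d (nat_lit 557) (nat_lit 556) (nat_lit 556) (nat_lit 593) (nat_lit 557)))))))))))))))))))))) (.a (.p (nat_lit 561) (.a (.p (nat_lit 558) (.a (.f (nat_lit 593) (nat_lit 594) (nat_lit 558) (.f (nat_lit 592) (nat_lit 557) (nat_lit 557) (.d (nat_lit 496) (nat_lit 464) (nat_lit 4560) (nat_lit 625) (nat_lit 4592)))) (.a (.f (nat_lit 526) (nat_lit 525) (nat_lit 3597) (.f (nat_lit 562) (nat_lit 527) (nat_lit 3598) (.d (nat_lit 594) (nat_lit 593) (nat_lit 558) (nat_lit 595) (nat_lit 559)))) (.f (nat_lit 526) (nat_lit 525) (nat_lit 3597) (.f (nat_lit 562) (nat_lit 527) (nat_lit 3598) (.d (nat_lit 590) (nat_lit 589) (nat_lit 1581) (nat_lit 591) (nat_lit 1582))))))) (.a (.p (nat_lit 562) (.a (.d (nat_lit 527) (nat_lit 526) (nat_lit 3598) (nat_lit 563) (nat_lit 3599)) (.f (nat_lit 594) (nat_lit 595) (nat_lit 559) (.f (nat_lit 593) (nat_lit 558) (nat_lit 558) (.f (nat_lit 530) (nat_lit 531) (nat_lit 2575) (.d (nat_lit 498) (nat_lit 466) (nat_lit 5585) (nat_lit 625) (nat_lit 5617))))))) (.a (.p (nat_lit 562) (.a (.d (nat_lit 527) (nat_lit 526) (nat_lit 3598) (nat_lit 563) (nat_lit 3599)) (.a (.f (nat_lit 591) (nat_lit 590) (nat_lit 1582) (.f (nat_lit 592) (nat_lit 563) (nat_lit 1583) (.d (nat_lit 496) (nat_lit 464) (nat_lit 5583) (nat_lit 623) (nat_lit 5615)))) (.f (nat_lit 591) (nat_lit 590) (nat_lit 1582) (.f (nat_lit 496) (nat_lit 464) (nat_lit 5583) (.d (nat_lit 527) (nat_lit 526) (nat_lit 3598) (nat_lit 623) (nat_lit 6639))))))) (.a (.p (nat_lit 558) (.a (.f (nat_lit 593) (nat_lit 594) (nat_lit 558) (.f (nat_lit 592) (nat_lit 557) (nat_lit 557) (.d (nat_lit 496) (nat_lit 464) (nat_lit 4560) (nat_lit 625) (nat_lit 4592)))) (.f (nat_lit 590) (nat_lit 589) (nat_lit 1581) (.f (nat_lit 591) (nat_lit 562) (nat_lit 1582) (.f (nat_lit 526) (nat_lit 525) (nat_lit 3597) (.d (nat_lit 494) (nat_lit 462) (nat_lit 4558) (nat_lit 623) (nat_lit 4590))))))) (.a (.p (nat_lit 558) (.a (.f (nat_lit 593) (nat_lit 594) (nat_lit 558) (.f (nat_lit 592) (nat_lit 557) (nat_lit 557) (.d (nat_lit 496) (nat_lit 464) (nat_lit 4560) (nat_lit 625) (nat_lit 4592)))) (.f (nat_lit 590) (nat_lit 589) (nat_lit 1581) (.f (nat_lit 562) (nat_lit 591) (nat_lit 1582) (.f (nat_lit 563) (nat_lit 527) (nat_lit 3599) (.d (nat_lit 531) (nat_lit 530) (nat_lit 2575) (nat_lit 532) (nat_lit 2576))))))) (.p (nat_lit 592) (.a (.p (nat_lit 558) (.a (.d (nat_lit 593) (nat_lit 557) (nat_lit 557) (nat_lit 594) (nat_lit 558)) (.a (.f (nat_lit 589) (nat_lit 590) (nat_lit 1581) (.f (nat_lit 557) (nat_lit 588) (nat_lit 1580) (.d (nat_lit 556) (nat_lit 527) (nat_lit 2572) (nat_lit 591) (nat_lit 556)))) (.f (nat_lit 593) (nat_lit 594) (nat_lit 558) (.f (nat_lit 625) (nat_lit 657) (nat_lit 7696) (.f (nat_lit 590) (nat_lit 589) (nat_lit 1581) (.f (nat_lit 591) (nat_lit 626) (nat_lit 590) (.f (nat_lit 623) (nat_lit 655) (nat_lit 6671) (.d (nat_lit 526) (nat_lit 494) (nat_lit 4590) (nat_lit 525) (nat_lit 3597)))))))))) (.a (.p (nat_lit 624) (.a (.f (nat_lit 656) (nat_lit 527) (nat_lit 7695) (.d (nat_lit 655) (nat_lit 623) (nat_lit 5647) (nat_lit 687) (nat_lit 5679))) (.a (.f (nat_lit 623) (nat_lit 655) (nat_lit 5647) (.f (nat_lit 591) (nat_lit 496) (nat_lit 5615) (.f (nat_lit 590) (nat_lit 589) (nat_lit 2605) (.d (nat_lit 625) (nat_lit 626) (nat_lit 3662) (nat_lit 657) (nat_lit 4624))))) (.f (nat_lit 656) (nat_lit 527) (nat_lit 7695) (.d (nat_lit 657) (nat_lit 625) (nat_lit 4624) (nat_lit 689) (nat_lit 4656)))))) (.a (.p (nat_lit 558) (.a (.d (nat_lit 593) (nat_lit 557) (nat_lit 557) (nat_lit 594) (nat_lit 558)) (.a (.f (nat_lit 589) (nat_lit 590) (nat_lit 1581) (.f (nat_lit 557) (nat_lit 588) (nat_lit 1580) (.f (nat_lit 591) (nat_lit 556) (nat_lit 556) (.d (nat_lit 496) (nat_lit 464) (nat_lit 5583) (nat_lit 623) (nat_lit 5615))))) (.f (nat_lit 593) (nat_lit 594) (nat_lit 558) (.f (nat_lit 625) (nat_lit 657) (nat_lit 7696) (.f (nat_lit 590) (nat_lit 589) (nat_lit 1581) (.f (nat_lit 591) (nat_lit 626) (nat_lit 590) (.f (nat_lit 623) (nat_lit 655) (nat_lit 6671) (.d (nat_lit 526) (nat_lit 494) (nat_lit 4590) (nat_lit 525) (nat_lit 3597)))))))))) (.a (.p (nat_lit 558) (.a (.d (nat_lit 593) (nat_lit 557) (nat_lit 557) (nat_lit 594) (nat_lit 558)) (.a (.f (nat_lit 589) (nat_lit 590) (nat_lit 1581) (.f (nat_lit 557) (nat_lit 588) (nat_lit 1580) (.d (nat_lit 556) (nat_lit 527) (nat_lit 2572) (nat_lit 591) (nat_lit 556)))) (.f (nat_lit 593) (nat_lit 594) (nat_lit 558) (.d (nat_lit 625) (nat_lit 496) (nat_lit 4592) (nat_lit 657) (nat_lit 7696)))))) (.a (.p (nat_lit 558) (.a (.d (nat_lit 593) (nat_lit 557) (nat_lit 557) (nat_lit 594) (nat_lit 558)) (.a (.f (nat_lit 589) (nat_lit 590) (nat_lit 1581) (.f (nat_lit 557) (nat_lit 588) (nat_lit 1580) (.d (nat_lit 556) (nat_lit 527) (nat_lit 2572) (nat_lit 591) (nat_lit 556)))) (.f (nat_lit 593) (nat_lit 594) (nat_lit 558) (.f (nat_lit 496) (nat_lit 464) (nat_lit 4560) (.f (nat_lit 591) (nat_lit 623) (nat_lit 5615) (.f (nat_lit 590) (nat_lit 589) (nat_lit 1581) (.f (nat_lit 622) (nat_lit 621) (nat_lit 1613) (.d (nat_lit 654) (nat_lit 527) (nat_lit 6670) (nat_lit 686) (nat_lit 6702)))))))))) (.p (nat_lit 624) (.a (.f (nat_lit 656) (nat_lit 527) (nat_lit 7695) (.d (nat_lit 655) (nat_lit 623) (nat_lit 5647) (nat_lit 687) (nat_lit 5679))) (.f (nat_lit 625) (nat_lit 657) (nat_lit 4624) (.f (nat_lit 593) (nat_lit 496) (nat_lit 4592) (.d (nat_lit 558) (nat_lit 557) (nat_lit 557) (nat_lit 594) (nat_lit 558)))))))))))))))))) (.a (.p (nat_lit 561) (.a (.p (nat_lit 562) (.a (.d (nat_lit 527) (nat_lit 526) (nat_lit 3598) (nat_lit 563) (nat_lit 3599)) (.a (.f (nat_lit 591) (nat_lit 590) (nat_lit 1582) (.f (nat_lit 592) (nat_lit 563) (nat_lit 1583) (.d (nat_lit 496) (nat_lit 464) (nat_lit 5583) (nat_lit 623) (nat_lit 5615)))) (.f (nat_lit 591) (nat_lit 590) (nat_lit 1582) (.f (nat_lit 496) (nat_lit 464) (nat_lit 5583) (.d (nat_lit 527) (nat_lit 526) (nat_lit 3598) (nat_lit 623) (nat_lit 6639))))))) (.a (.p (nat_lit 562) (.a (.d (nat_lit 527) (nat_lit 526) (nat_lit 3598) (nat_lit 563) (nat_lit 3599)) (.f (nat_lit 594) (nat_lit 595) (nat_lit 559) (.f (nat_lit 593) (nat_lit 558) (nat_lit 558) (.f (nat_lit 530) (nat_lit 531) (nat_lit 2575) (.d (nat_lit 498) (nat_lit 466) (nat_lit 5585) (nat_lit 625) (nat_lit 5617))))))) (.a (.p (nat_lit 558) (.a (.f (nat_lit 593) (nat_lit 594) (nat_lit 558) (.f (nat_lit 592) (nat_lit 557) (nat_lit 557) (.d (nat_lit 496) (nat_lit 464) (nat_lit 4560) (nat_lit 625) (nat_lit 4592)))) (.a (.f (nat_lit 590) (nat_lit 589) (nat_lit 1581) (.f (nat_lit 562) (nat_lit 591) (nat_lit 1582) (.d (nat_lit 594) (nat_lit 593) (nat_lit 558) (nat_lit 595) (nat_lit 559)))) (.f (nat_lit 590) (nat_lit 589) (nat_lit 1581) (.f (nat_lit 591) (nat_lit 562) (nat_lit 1582) (.f (nat_lit 623) (nat_lit 655) (nat_lit 6671) (.d (nat_lit 496) (nat_lit 464) (nat_lit 5583) (nat_lit 592) (nat_lit 5615)))))))) (.p (nat_lit 592) (.a (.p (nat_lit 624) (.a (.f (nat_lit 656) (nat_lit 527) (nat_lit 7695) (.d (nat_lit 655) (nat_lit 623) (nat_lit 5647) (nat_lit 687) (nat_lit 5679))) (.a (.f (nat_lit 623) (nat_lit 655) (nat_lit 5647) (.f (nat_lit 591) (nat_lit 496) (nat_lit 5615) (.f (nat_lit 590) (nat_lit 589) (nat_lit 2605) (.d (nat_lit 625) (nat_lit 626) (nat_lit 3662) (nat_lit 657) (nat_lit 4624))))) (.f (nat_lit 656) (nat_lit 527) (nat_lit 7695) (.d (nat_lit 657) (nat_lit 625) (nat_lit 4624) (nat_lit 689) (nat_lit 4656)))))) (.a (.p (nat_lit 558) (.a (.d (nat_lit 593) (nat_lit 557) (nat_lit 557) (nat_lit 594) (nat_lit 558)) (.a (.f (nat_lit 589) (nat_lit 590) (nat_lit 1581) (.f (nat_lit 557) (nat_lit 588) (nat_lit 1580) (.f (nat_lit 591) (nat_lit 556) (nat_lit 556) (.d (nat_lit 496) (nat_lit 464) (nat_lit 5583) (nat_lit 623) (nat_lit 5615))))) (.f (nat_lit 593) (nat_lit 594) (nat_lit 558) (.d (nat_lit 625) (nat_lit 496) (nat_lit 4592) (nat_lit 657) (nat_lit 7696)))))) (.a (.p (nat_lit 558) (.a (.d (nat_lit 593) (nat_lit 557) (nat_lit 557) (nat_lit 594) (nat_lit 558)) (.a (.f (nat_lit 589) (nat_lit 590) (nat_lit 1581) (.f (nat_lit 557) (nat_lit 588) (nat_lit 1580) (.d (nat_lit 556) (nat_lit 527) (nat_lit 2572) (nat_lit 591) (nat_lit 556)))) (.f (nat_lit 593) (nat_lit 594) (nat_lit 558) (.f (nat_lit 625) (nat_lit 657) (nat_lit 7696) (.f (nat_lit 590) (nat_lit 589) (nat_lit 1581) (.f (nat_lit 591) (nat_lit 626) (nat_lit 590) (.f (nat_lit 622) (nat_lit 621) (nat_lit 1613) (.d (nat_lit 654) (nat_lit 527) (nat_lit 6670) (nat_lit 686) (nat_lit 6702)))))))))) (.a (.p (nat_lit 558) (.a (.d (nat_lit 593) (nat_lit 557) (nat_lit 557) (nat_lit 594) (nat_lit 558)) (.a (.f (nat_lit 589) (nat_lit 590) (nat_lit 1581) (.f (nat_lit 557) (nat_lit 588) (nat_lit 1580) (.d (nat_lit 556) (nat_lit 527) (nat_lit 2572) (nat_lit 591) (nat_lit 556)))) (.f (nat_lit 593) (nat_lit 594) (nat_lit 558) (.f (nat_lit 496) (nat_lit 464) (nat_lit 4560) (.f (nat_lit 591) (nat_lit 623) (nat_lit 5615) (.f (nat_lit 590) (nat_lit 589) (nat_lit 1581) (.f (nat_lit 622) (nat_lit 621) (nat_lit 1613) (.d (nat_lit 654) (nat_lit 527) (nat_lit 6670) (nat_lit 686) (nat_lit 6702)))))))))) (.p (nat_lit 624) (.a (.f (nat_lit 656) (nat_lit 527) (nat_lit 7695) (.d (nat_lit 655) (nat_lit 623) (nat_lit 5647) (nat_lit 687) (nat_lit 5679))) (.f (nat_lit 625) (nat_lit 657) (nat_lit 4624) (.f (nat_lit 593) (nat_lit 496) (nat_lit 4592) (.d (nat_lit 558) (nat_lit 557) (nat_lit 557) (nat_lit 594) (nat_lit 558))))))))))))))) (.a (.p (nat_lit 561) (.a (.p (nat_lit 558) (.a (.f (nat_lit 593) (nat_lit 594) (nat_lit 558) (.f (nat_lit 592) (nat_lit 557) (nat_lit 557) (.d (nat_lit 496) (nat_lit 464) (nat_lit 4560) (nat_lit 625) (nat_lit 4592)))) (.f (nat_lit 590) (nat_lit 589) (nat_lit 1581) (.f (nat_lit 562) (nat_lit 591) (nat_lit 1582) (.f (nat_lit 563) (nat_lit 527) (nat_lit 3599) (.d (nat_lit 531) (nat_lit 530) (nat_lit 2575) (nat_lit 532) (nat_lit 2576))))))) (.a (.p (nat_lit 558) (.a (.f (nat_lit 590) (nat_lit 589) (nat_lit 1581) (.f (nat_lit 562) (nat_lit 591) (nat_lit 1582) (.f (nat_lit 563) (nat_lit 527) (nat_lit 3599) (.d (nat_lit 531) (nat_lit 530) (nat_lit 2575) (nat_lit 532) (nat_lit 2576))))) (.a (.f (nat_lit 590) (nat_lit 589) (nat_lit 1581) (.f (nat_lit 562) (nat_lit 591) (nat_lit 1582) (.d (nat_lit 594) (nat_lit 593) (nat_lit 558) (nat_lit 595) (nat_lit 559)))) (.a (.f (nat_lit 589) (nat_lit 590) (nat_lit 1581) (.f (nat_lit 557) (nat_lit 588) (nat_lit 1580) (.f (nat_lit 556) (nat_lit 527) (nat_lit 2572) (.d (nat_lit 524) (nat_lit 523) (nat_lit 3595) (nat_lit 525) (nat_lit 3596))))) (.f (nat_lit 594) (nat_lit 593) (nat_lit 558) (.f (nat_lit 562) (nat_lit 595) (nat_lit 559) (.f (nat_lit 531) (nat_lit 530) (nat_lit 2575) (.d (nat_lit 563) (nat_lit 527) (nat_lit 3599) (nat_lit 532) (nat_lit 2576))))))))) (.a (.p (nat_lit 562) (.a (.f (nat_lit 591) (nat_lit 590) (nat_lit 1582) (.f (nat_lit 592) (nat_lit 563) (nat_lit 1583) (.d (nat_lit 496) (nat_lit 464) (nat_lit 5583) (nat_lit 623) (nat_lit 5615)))) (.a (.f (nat_lit 563) (nat_lit 527) (nat_lit 3599) (.d (nat_lit 531) (nat_lit 530) (nat_lit 2575) (nat_lit 532) (nat_lit 2576))) (.f (nat_lit 591) (nat_lit 590) (nat_lit 1582) (.f (nat_lit 623) (nat_lit 655) (nat_lit 6671) (.d (nat_lit 496) (nat_lit 464) (nat_lit 5583) (nat_lit 527) (nat_lit 6639))))))) (.a (.p (nat_lit 558) (.a (.f (nat_lit 593) (nat_lit 594) (nat_lit 558) (.f (nat_lit 592) (nat_lit 557) (nat_lit 557) (.d (nat_lit 496) (nat_lit 464) (nat_lit 4560) (nat_lit 625) (nat_lit 4592)))) (.a (.f (nat_lit 590) (nat_lit 589) (nat_lit 1581) (.f (nat_lit 562) (nat_lit 591) (nat_lit 1582) (.d (nat_lit 594) (nat_lit 593) (nat_lit 558) (nat_lit 595) (nat_lit 559)))) (.f (nat_lit 590) (nat_lit 589) (nat_lit 1581) (.f (nat_lit 591) (nat_lit 562) (nat_lit 1582) (.f (nat_lit 623) (nat_lit 655) (nat_lit 6671) (.d (nat_lit 496) (nat_lit 464) (nat_lit 5583) (nat_lit 592) (nat_lit 5615)))))))) (.a (.p (nat_lit 558) (.a (.f (nat_lit 593) (nat_lit 594) (nat_lit 558) (.f (nat_lit 592) (nat_lit 557) (nat_lit 557) (.d (nat_lit 496) (nat_lit 464) (nat_lit 4560) (nat_lit 625) (nat_lit 4592)))) (.a (.f (nat_lit 589) (nat_lit 590) (nat_lit 1581) (.f (nat_lit 557) (nat_lit 588) (nat_lit 1580) (.f (nat_lit 556) (nat_lit 527) (nat_lit 2572) (.d (nat_lit 524) (nat_lit 523) (nat_lit 3595) (nat_lit 525) (nat_lit 3596))))) (.f (nat_lit 593) (nat_lit 594) (nat_lit 558) (.f (nat_lit 496) (nat_lit 464) (nat_lit 4560) (.d (nat_lit 625) (nat_lit 592) (nat_lit 4592) (nat_lit 657) (nat_lit 7696))))))) (.p (nat_lit 562) (.a (.f (nat_lit 594) (nat_lit 595) (nat_lit 559) (.f (nat_lit 593) (nat_lit 558) (nat_lit 558) (.f (nat_lit 530) (nat_lit 531) (nat_lit 2575) (.d (nat_lit 498) (nat_lit 466) (nat_lit 5585) (nat_lit 625) (nat_lit 5617))))) (.a (.f (nat_lit 563) (nat_lit 527) (nat_lit 3599) (.d (nat_lit 531) (nat_lit 530) (nat_lit 2575) (nat_lit 532) (nat_lit 2576))) (.f (nat_lit 563) (nat_lit 527) (nat_lit 3599) (.d (nat_lit 595) (nat_lit 594) (nat_lit 559) (nat_lit 596) (nat_lit 560)))))))))))) (.a (.p (nat_lit 592) (.a (.p (nat_lit 624) (.a (.f (nat_lit 623) (nat_lit 655) (nat_lit 5647) (.f (nat_lit 591) (nat_lit 496) (nat_lit 5615) (.f (nat_lit 625) (nat_lit 657) (nat_lit 4624) (.d (nat_lit 626) (nat_lit 590) (nat_lit 3662) (nat_lit 627) (nat_lit 3663))))) (.a (.f (nat_lit 655) (nat_lit 623) (nat_lit 5647) (.f (nat_lit 656) (nat_lit 687) (nat_lit 5679) (.d (nat_lit 657) (nat_lit 625) (nat_lit 4624) (nat_lit 689) (nat_lit 4656)))) (.a (.f (nat_lit 625) (nat_lit 657) (nat_lit 4624) (.f (nat_lit 593) (nat_lit 496) (nat_lit 4592) (.f (nat_lit 594) (nat_lit 595) (nat_lit 3631) (.d (nat_lit 558) (nat_lit 557) (nat_lit 557) (nat_lit 591) (nat_lit 3630))))) (.a (.f (nat_lit 655) (nat_lit 623) (nat_lit 5647) (.f (nat_lit 656) (nat_lit 687) (nat_lit 5679) (.f (nat_lit 688) (nat_lit 591) (nat_lit 7727) (.d (nat_lit 689) (nat_lit 657) (nat_lit 4656) (nat_lit 721) (nat_lit 4688))))) (.f (nat_lit 623) (nat_lit 655) (nat_lit 5647) (.f (nat_lit 496) (nat_lit 591) (nat_lit 5615) (.f (nat_lit 593) (nat_lit 625) (nat_lit 4592) (.f (nat_lit 594) (nat_lit 595) (nat_lit 1615) (.d (nat_lit 558) (nat_lit 557) (nat_lit 557) (nat_lit 561) (nat_lit 558))))))))))) (.a s115098 (.a (.p (nat_lit 496) (.a (.d (nat_lit 591) (nat_lit 464) (nat_lit 5583) (nat_lit 623) (nat_lit 5615)) (.a (.f (nat_lit 464) (nat_lit 591) (nat_lit 5583) (.d (nat_lit 593) (nat_lit 561) (nat_lit 4560) (nat_lit 625) (nat_lit 4592))) (.a (.f (nat_lit 591) (nat_lit 623) (nat_lit 5615) (.f (nat_lit 593) (nat_lit 625) (nat_lit 4592) (.d (nat_lit 594) (nat_lit 558) (nat_lit 3630) (nat_lit 595) (nat_lit 3631)))) (.f (nat_lit 593) (nat_lit 625) (nat_lit 4592) (.f (nat_lit 561) (nat_lit 464) (nat_lit 4560) (.d (nat_lit 558) (nat_lit 557) (nat_lit 557) (nat_lit 594) (nat_lit 558)))))))) (.a (.p (nat_lit 561) (.a s115111 (.a s115112 (.a (.p (nat_lit 562) (.a (.d (nat_lit 591) (nat_lit 563) (nat_lit 1583) (nat_lit 590) (nat_lit 1582)) (.a (.f (nat_lit 595) (nat_lit 594) (nat_lit 559) (.f (nat_lit 563) (nat_lit 596) (nat_lit 560) (.d (nat_lit 531) (nat_lit 530) (nat_lit 2575) (nat_lit 532) (nat_lit 2576)))) (.f (nat_lit 591) (nat_lit 590) (nat_lit 1582) (.f (nat_lit 623) (nat_lit 655) (nat_lit 6671) (.f (nat_lit 594) (nat_lit 595) (nat_lit 559) (.f (nat_lit 593) (nat_lit 622) (nat_lit 1614) (.f (nat_lit 625) (nat_lit 657) (nat_lit 7696) (.d (nat_lit 530) (nat_lit 498) (nat_lit 5617) (nat_lit 531) (nat_lit 2575)))))))))) (.a (.p (nat_lit 558) (.a (.d (nat_lit 593) (nat_lit 557) (nat_lit 557) (nat_lit 594) (nat_lit 558)) (.a (.f (nat_lit 525) (nat_lit 526) (nat_lit 3597) (.f (nat_lit 557) (nat_lit 524) (nat_lit 3596) (.d (nat_lit 589) (nat_lit 588) (nat_lit 1580) (nat_lit 590) (nat_lit 1581)))) (.f (nat_lit 593) (nat_lit 594) (nat_lit 558) (.f (nat_lit 625) (nat_lit 657) (nat_lit 7696) (.f (nat_lit 590) (nat_lit 589) (nat_lit 1581) (.f (nat_lit 591) (nat_lit 626) (nat_lit 590) (.f (nat_lit 623) (nat_lit 655) (nat_lit 6671) (.d (nat_lit 526) (nat_lit 494) (nat_lit 4590) (nat_lit 525) (nat_lit 3597)))))))))) (.a (.p (nat_lit 562) (.a (.f (nat_lit 595) (nat_lit 594) (nat_lit 559) (.f (nat_lit 563) (nat_lit 596) (nat_lit 560) (.d (nat_lit 531) (nat_lit 530) (nat_lit 2575) (nat_lit 532) (nat_lit 2576)))) (.a (.f (nat_lit 594) (nat_lit 595) (nat_lit 559) (.f (nat_lit 593) (nat_lit 558) (nat_lit 558) (.f (nat_lit 625) (nat_lit 657) (nat_lit 7696) (.d (nat_lit 530) (nat_lit 498) (nat_lit 5617) (nat_lit 531) (nat_lit 2575))))) (.a (.f (nat_lit 531) (nat_lit 530) (nat_lit 2575) (.f (nat_lit 563) (nat_lit 532) (nat_lit 2576) (.f (nat_lit 564) (nat_lit 593) (nat_lit 1584) (.d (nat_lit 596) (nat_lit 595) (nat_lit 560) (nat_lit 597) (nat_lit 561))))) (.a (.f (nat_lit 531) (nat_lit 530) (nat_lit 2575) (.f (nat_lit 563) (nat_lit 532) (nat_lit 2576) (.f (nat_lit 593) (nat_lit 564) (nat_lit 1584) (.d (nat_lit 558) (nat_lit 557) (nat_lit 557) (nat_lit 594) (nat_lit 558))))) (.f (nat_lit 594) (nat_lit 595) (nat_lit 559) (.f (nat_lit 558) (nat_lit 593) (nat_lit 558) (.f (nat_lit 525) (nat_lit 526) (nat_lit 3597) (.f (nat_lit 557) (nat_lit 524) (nat_lit 3596) (.d (nat_lit 589) (nat_lit 588) (nat_lit 1580) (nat_lit 590) (nat_lit 1581))))))))))) (.a (.p (nat_lit 558) (.a (.d (nat_lit 593) (nat_lit 557) (nat_lit 557) (nat_lit 594) (nat_lit 558)) (.a (.f (nat_lit 525) (nat_lit 526) (nat_lit 3597) (.f (nat_lit 557) (nat_lit 524) (nat_lit 3596) (.f (nat_lit 588) (nat_lit 589) (nat_lit 1580) (.d (nat_lit 556) (nat_lit 587) (nat_lit 1579) (nat_lit 591) (nat_lit 556))))) (.f (nat_lit 594) (nat_lit 593) (nat_lit 558) (.f (nat_lit 562) (nat_lit 595) (nat_lit 559) (.f (nat_lit 563) (nat_lit 591) (nat_lit 1583) (.d (nat_lit 531) (nat_lit 530) (nat_lit 2575) (nat_lit 532) (nat_lit 2576)))))))) s115117))))))) (.a (.p (nat_lit 496) (.a (.f (nat_lit 464) (nat_lit 591) (nat_lit 5583) (.d (nat_lit 593) (nat_lit 561) (nat_lit 4560) (nat_lit 625) (nat_lit 4592))) (.a (.f (nat_lit 464) (nat_lit 591) (nat_lit 5583) (.d (nat_lit 465) (nat_lit 433) (nat_lit 6576) (nat_lit 497) (nat_lit 6608))) (.a (.f (nat_lit 593) (nat_lit 625) (nat_lit 4592) (.f (nat_lit 594) (nat_lit 595) (nat_lit 3631) (.d (nat_lit 558) (nat_lit 557) (nat_lit 557) (nat_lit 591) (nat_lit 3630)))) (.f (nat_lit 593) (nat_lit 625) (nat_lit 4592) (.f (nat_lit 561) (nat_lit 464) (nat_lit 4560) (.d (nat_lit 558) (nat_lit 557) (nat_lit 557) (nat_lit 594) (nat_lit 558)))))))) (.a (.p (nat_lit 561) (.a s115128 (.a s115111 (.a s115112 (.a (.p (nat_lit 496) (.a (.d (nat_lit 464) (nat_lit 591) (nat_lit 5583) (nat_lit 593) (nat_lit 4560)) (.a (.d (nat_lit 591) (nat_lit 464) (nat_lit 5583) (nat_lit 623) (nat_lit 5615)) (.a (.f (nat_lit 591) (nat_lit 623) (nat_lit 5615) (.d (nat_lit 590) (nat_lit 562) (nat_lit 1582) (nat_lit 589) (nat_lit 2605))) (.f (nat_lit 464) (nat_lit 593) (nat_lit 4560) (.d (nat_lit 465) (nat_lit 433) (nat_lit 6576) (nat_lit 497) (nat_lit 6608))))))) (.a (.p (nat_lit 558) (.a (.d (nat_lit 593) (nat_lit 557) (nat_lit 557) (nat_lit 594) (nat_lit 558)) (.a (.f (nat_lit 589) (nat_lit 590) (nat_lit 1581) (.f (nat_lit 557) (nat_lit 588) (nat_lit 1580) (.f (nat_lit 591) (nat_lit 556) (nat_lit 556) (.d (nat_lit 496) (nat_lit 464) (nat_lit 5583) (nat_lit 623) (nat_lit 5615))))) (.f (nat_lit 593) (nat_lit 594) (nat_lit 558) (.f (nat_lit 496) (nat_lit 464) (nat_lit 4560) (.f (nat_lit 623) (nat_lit 591) (nat_lit 5615) (.f (nat_lit 655) (nat_lit 624) (nat_lit 5647) (.f (nat_lit 590) (nat_lit 589) (nat_lit 1581) (.d (nat_lit 526) (nat_lit 525) (nat_lit 3597) (nat_lit 622) (nat_lit 4622)))))))))) (.a (.p (nat_lit 562) (.a (.f (nat_lit 595) (nat_lit 594) (nat_lit 559) (.f (nat_lit 563) (nat_lit 596) (nat_lit 560) (.d (nat_lit 531) (nat_lit 530) (nat_lit 2575) (nat_lit 532) (nat_lit 2576)))) (.a (.f (nat_lit 594) (nat_lit 595) (nat_lit 559) (.f (nat_lit 558) (nat_lit 593) (nat_lit 558) (.f (nat_lit 525) (nat_lit 526) (nat_lit 3597) (.f (nat_lit 557) (nat_lit 524) (nat_lit 3596) (.d (nat_lit 589) (nat_lit 588) (nat_lit 1580) (nat_lit 590) (nat_lit 1581)))))) (.a (.f (nat_lit 531) (nat_lit 530) (nat_lit 2575) (.f (nat_lit 563) (nat_lit 532) (nat_lit 2576) (.f (nat_lit 564) (nat_lit 593) (nat_lit 1584) (.d (nat_lit 596) (nat_lit 595) (nat_lit 560) (nat_lit 597) (nat_lit 561))))) (.f (nat_lit 531) (nat_lit 530) (nat_lit 2575) (.f (nat_lit 563) (nat_lit 532) (nat_lit 2576) (.f (nat_lit 593) (nat_lit 564) (nat_lit 1584) (.d (nat_lit 558) (nat_lit 557) (nat_lit 557) (nat_lit 594) (nat_lit 558))))))))) (.a (.p (nat_lit 558) (.a (.d (nat_lit 593) (nat_lit 557) (nat_lit 557) (nat_lit 594) (nat_lit 558)) (.a (.f (nat_lit 525) (nat_lit 526) (nat_lit 3597) (.f (nat_lit 557) (nat_lit 524) (nat_lit 3596) (.f (nat_lit 588) (nat_lit 589) (nat_lit 1580) (.d (nat_lit 556) (nat_lit 587) (nat_lit 1579) (nat_lit 591) (nat_lit 556))))) (.f (nat_lit 594) (nat_lit 593) (nat_lit 558) (.f (nat_lit 562) (nat_lit 595) (nat_lit 559) (.f (nat_lit 563) (nat_lit 591) (nat_lit 1583) (.d (nat_lit 531) (nat_lit 530) (nat_lit 2575) (nat_lit 532) (nat_lit 2576)))))))) (.p (nat_lit 558) (.a (.d (nat_lit 593) (nat_lit 557) (nat_lit 557) (nat_lit 594) (nat_lit 558)) (.a (.f (nat_lit 525) (nat_lit 526) (nat_lit 3597) (.f (nat_lit 557) (nat_lit 524) (nat_lit 3596) (.f (nat_lit 591) (nat_lit 556) (nat_lit 556) (.d (nat_lit 496) (nat_lit 464) (nat_lit 5583) (nat_lit 623) (nat_lit 5615))))) (.f (nat_lit 594) (nat_lit 593) (nat_lit 558) (.f (nat_lit 562) (nat_lit 595) (nat_lit 559) (.f (nat_lit 563) (nat_lit 591) (nat_lit 1583) (.d (nat_lit 531) (nat_lit 530) (nat_lit 2575) (nat_lit 532) (nat_lit 2576)))))))))))))))) (.p (nat_lit 593) (.a (.f (nat_lit 625) (nat_lit 496) (nat_lit 4592) (.d (nat_lit 657) (nat_lit 561) (nat_lit 7696) (nat_lit 624) (nat_lit 4624))) (.a (.f (nat_lit 625) (nat_lit 496) (nat_lit 4592) (.d (nat_lit 657) (nat_lit 624) (nat_lit 4624) (nat_lit 689) (nat_lit 7728))) (.a (.f (nat_lit 496) (nat_lit 625) (nat_lit 4592) (.f (nat_lit 561) (nat_lit 464) (nat_lit 4560) (.d (nat_lit 558) (nat_lit 557) (nat_lit 557) (nat_lit 594) (nat_lit 558)))) (.f (nat_lit 594) (nat_lit 595) (nat_lit 3631) (.d (nat_lit 558) (nat_lit 557) (nat_lit 557) (nat_lit 561) (nat_lit 558)))))))))))))) (.a (.p (nat_lit 561) (.a (.p (nat_lit 558) (.a (.f (nat_lit 593) (nat_lit 594) (nat_lit 558) (.f (nat_lit 592) (nat_lit 557) (nat_lit 557) (.d (nat_lit 496) (nat_lit 464) (nat_lit 4560) (nat_lit 625) (nat_lit 4592)))) (.a (.f (nat_lit 526) (nat_lit 525) (nat_lit 3597) (.f (nat_lit 562) (nat_lit 527) (nat_lit 3598) (.d (nat_lit 594) (nat_lit 593) (nat_lit 558) (nat_lit 595) (nat_lit 559)))) (.f (nat_lit 526) (nat_lit 525) (nat_lit 3597) (.f (nat_lit 562) (nat_lit 527) (nat_lit 3598) (.d (nat_lit 590) (nat_lit 589) (nat_lit 1581) (nat_lit 591) (nat_lit 1582))))))) (.a (.p (nat_lit 558) (.a (.f (nat_lit 526) (nat_lit 525) (nat_lit 3597) (.f (nat_lit 562) (nat_lit 527) (nat_lit 3598) (.d (nat_lit 594) (nat_lit 593) (nat_lit 558) (nat_lit 595) (nat_lit 559)))) (.a (.f (nat_lit 526) (nat_lit 525) (nat_lit 3597) (.f (nat_lit 562) (nat_lit 527) (nat_lit 3598) (.d (nat_lit 590) (nat_lit 589) (nat_lit 1581) (nat_lit 591) (nat_lit 1582)))) (.a (.f (nat_lit 590) (nat_lit 589) (nat_lit 1581) (.f (nat_lit 591) (nat_lit 562) (nat_lit 1582) (.f (nat_lit 526) (nat_lit 525) (nat_lit 3597) (.d (nat_lit 494) (nat_lit 462) (nat_lit 4558) (nat_lit 623) (nat_lit 4590))))) (.a (.f (nat_lit 590) (nat_lit 589) (nat_lit 1581) (.f (nat_lit 562) (nat_lit 591) (nat_lit 1582) (.d (nat_lit 594) (nat_lit 593) (nat_lit 558) (nat_lit 595) (nat_lit 559)))) (.f (nat_lit 525) (nat_lit 526) (nat_lit 3597) (.f (nat_lit 557) (nat_lit 524) (nat_lit 3596) (.d (nat_lit 589) (nat_lit 588) (nat_lit 1580) (nat_lit 590) (nat_lit 1581))))))))) (.a (.p (nat_lit 562) (.a (.d (nat_lit 527) (nat_lit 526) (nat_lit 3598) (nat_lit 563) (nat_lit 3599)) (.a (.f (nat_lit 591) (nat_lit 590) (nat_lit 1582) (.f (nat_lit 592) (nat_lit 563) (nat_lit 1583) (.d (nat_lit 496) (nat_lit 464) (nat_lit 5583) (nat_lit 623) (nat_lit 5615)))) (.f (nat_lit 591) (nat_lit 590) (nat_lit 1582) (.f (nat_lit 496) (nat_lit 464) (nat_lit 5583) (.d (nat_lit 527) (nat_lit 526) (nat_lit 3598) (nat_lit 623) (nat_lit 6639))))))) (.a (.p (nat_lit 558) (.a (.f (nat_lit 593) (nat_lit 594) (nat_lit 558) (.f (nat_lit 592) (nat_lit 557) (nat_lit 557) (.d (nat_lit 496) (nat_lit 464) (nat_lit 4560) (nat_lit 625) (nat_lit 4592)))) (.f (nat_lit 590) (nat_lit 589) (nat_lit 1581) (.f (nat_lit 591) (nat_lit 562) (nat_lit 1582) (.f (nat_lit 526) (nat_lit 525) (nat_lit 3597) (.d (nat_lit 494) (nat_lit 462) (nat_lit 4558) (nat_lit 623) (nat_lit 4590))))))) (.a (.p (nat_lit 558) (.a (.f (nat_lit 593) (nat_lit 594) (nat_lit 558) (.f (nat_lit 592) (nat_lit 557) (nat_lit 557) (.d (nat_lit 496) (nat_lit 464) (nat_lit 4560) (nat_lit 625) (nat_lit 4592)))) (.a (.f (nat_lit 590) (nat_lit 589) (nat_lit 1581) (.f (nat_lit 562) (nat_lit 591) (nat_lit 1582) (.d (nat_lit 594) (nat_lit 593) (nat_lit 558) (nat_lit 595) (nat_lit 559)))) (.f (nat_lit 590) (nat_lit 589) (nat_lit 1581) (.f (nat_lit 591) (nat_lit 562) (nat_lit 1582) (.f (nat_lit 623) (nat_lit 655) (nat_lit 6671) (.d (nat_lit 496) (nat_lit 464) (nat_lit 5583) (nat_lit 592) (nat_lit 5615)))))))) (.a (.p (nat_lit 558) (.a (.f (nat_lit 593) (nat_lit 594) (nat_lit 558) (.f (nat_lit 592) (nat_lit 557) (nat_lit 557) (.d (nat_lit 496) (nat_lit 464) (nat_lit 4560) (nat_lit 625) (nat_lit 4592)))) (.a (.f (nat_lit 525) (nat_lit 526) (nat_lit 3597) (.f (nat_lit 557) (nat_lit 524) (nat_lit 3596) (.d (nat_lit 589) (nat_lit 588) (nat_lit 1580) (nat_lit 590) (nat_lit 1581)))) (.f (nat_lit 593) (nat_lit 594) (nat_lit 558) (.f (nat_lit 496) (nat_lit 464) (nat_lit 4560) (.d (nat_lit 625) (nat_lit 592) (nat_lit 4592) (nat_lit 657) (nat_lit 7696))))))) (.p (nat_lit 558) (.a (.f (nat_lit 593) (nat_lit 594) (nat_lit 558) (.f (nat_lit 592) (nat_lit 557) (nat_lit 557) (.d (nat_lit 496) (nat_lit 464) (nat_lit 4560) (nat_lit 625) (nat_lit 4592)))) (.a (.f (nat_lit 526) (nat_lit 525) (nat_lit 3597) (.f (nat_lit 562) (nat_lit 527) (nat_lit 3598) (.d (nat_lit 594) (nat_lit 593) (nat_lit 558) (nat_lit 595) (nat_lit 559)))) (.f (nat_lit 525) (nat_lit 526) (nat_lit 3597) (.f (nat_lit 557) (nat_lit 524) (nat_lit 3596) (.f (nat_lit 556) (nat_lit 527) (nat_lit 2572) (.d (nat_lit 588) (nat_lit 587) (nat_lit 1579) (nat_lit 589) (nat_lit 1580))))))))))))))) (.a (.p (nat_lit 561) (.a (.p (nat_lit 558) (.a (.f (nat_lit 593) (nat_lit 594) (nat_lit 558) (.f (nat_lit 592) (nat_lit 557) (nat_lit 557) (.d (nat_lit 496) (nat_lit 464) (nat_lit 4560) (nat_lit 625) (nat_lit 4592)))) (.a (.f (nat_lit 526) (nat_lit 525) (nat_lit 3597) (.f (nat_lit 562) (nat_lit 527) (nat_lit 3598) (.d (nat_lit 594) (nat_lit 593) (nat_lit 558) (nat_lit 595) (nat_lit 559)))) (.f (nat_lit 526) (nat_lit 525) (nat_lit 3597) (.f (nat_lit 562) (nat_lit 527) (nat_lit 3598) (.d (nat_lit 590) (nat_lit 589) (nat_lit 1581) (nat_lit 591) (nat_lit 1582))))))) (.a s115017 (.a s115018 (.a (.p (nat_lit 558) (.a (.f (nat_lit 593) (nat_lit 594) (nat_lit 558) (.f (nat_lit 592) (nat_lit 557) (nat_lit 557) (.d (nat_lit 496) (nat_lit 464) (nat_lit 4560) (nat_lit 625) (nat_lit 4592)))) (.f (nat_lit 590) (nat_lit 589) (nat_lit 1581) (.f (nat_lit 591) (nat_lit 562) (nat_lit 1582) (.f (nat_lit 526) (nat_lit 525) (nat_lit 3597) (.d (nat_lit 494) (nat_lit 462) (nat_lit 4558) (nat_lit 623) (nat_lit 4590))))))) (.a (.p (nat_lit 562) (.a (.d (nat_lit 527) (nat_lit 526) (nat_lit 3598) (nat_lit 563) (nat_lit 3599)) (.a (.f (nat_lit 591) (nat_lit 590) (nat_lit 1582) (.f (nat_lit 592) (nat_lit 563) (nat_lit 1583) (.d (nat_lit 496) (nat_lit 464) (nat_lit 5583) (nat_lit 623) (nat_lit 5615)))) (.f (nat_lit 591) (nat_lit 590) (nat_lit 1582) (.f (nat_lit 496) (nat_lit 464) (nat_lit 5583) (.d (nat_lit 527) (nat_lit 526) (nat_lit 3598) (nat_lit 623) (nat_lit 6639))))))) (.a (.p (nat_lit 558) (.a (.f (nat_lit 593) (nat_lit 594) (nat_lit 558) (.f (nat_lit 592) (nat_lit 557) (nat_lit 557) (.d (nat_lit 496) (nat_lit 464) (nat_lit 4560) (nat_lit 625) (nat_lit 4592)))) (.f (nat_lit 590) (nat_lit 589) (nat_lit 1581) (.f (nat_lit 562) (nat_lit 591) (nat_lit 1582) (.f (nat_lit 563) (nat_lit 527) (nat_lit 3599) (.d (nat_lit 531) (nat_lit 530) (nat_lit 2575) (nat_lit 532) (nat_lit 2576))))))) (.a (.p (nat_lit 558) (.a (.f (nat_lit 593) (nat_lit 594) (nat_lit 558) (.f (nat_lit 592) (nat_lit 557) (nat_lit 557) (.d (nat_lit 496) (nat_lit 464) (nat_lit 4560) (nat_lit 625) (nat_lit 4592)))) (.a (.f (nat_lit 525) (nat_lit 526) (nat_lit 3597) (.f (nat_lit 557) (nat_lit 524) (nat_lit 3596) (.d (nat_lit 589) (nat_lit 588) (nat_lit 1580) (nat_lit 590) (nat_lit 1581)))) (.f (nat_lit 593) (nat_lit 594) (nat_lit 558) (.f (nat_lit 496) (nat_lit 464) (nat_lit 4560) (.d (nat_lit 625) (nat_lit 592) (nat_lit 4592) (nat_lit 657) (nat_lit 7696))))))) (.p (nat_lit 562) (.a (.d (nat_lit 527) (nat_lit 526) (nat_lit 3598) (nat_lit 563) (nat_lit 3599)) (.f (nat_lit 594) (nat_lit 595) (nat_lit 559) (.f (nat_lit 593) (nat_lit 558) (nat_lit 558) (.f (nat_lit 530) (nat_lit 531) (nat_lit 2575) (.d (nat_lit 498) (nat_lit 466) (nat_lit 5585) (nat_lit 625) (nat_lit 5617))))))))))))))) (.a (.p (nat_lit 561) (.a (.p (nat_lit 562) (.a (.d (nat_lit 527) (nat_lit 526) (nat_lit 3598) (nat_lit 563) (nat_lit 3599)) (.a (.f (nat_lit 591) (nat_lit 590) (nat_lit 1582) (.f (nat_lit 592) (nat_lit 563) (nat_lit 1583) (.d (nat_lit 496) (nat_lit 464) (nat_lit 5583) (nat_lit 623) (nat_lit 5615)))) (.f (nat_lit 591) (nat_lit 590) (nat_lit 1582) (.f (nat_lit 496) (nat_lit 464) (nat_lit 5583) (.d (nat_lit 527) (nat_lit 526) (nat_lit 3598) (nat_lit 623) (nat_lit 6639))))))) (.a (.p (nat_lit 562) (.a (.d (nat_lit 527) (nat_lit 526) (nat_lit 3598) (nat_lit 563) (nat_lit 3599)) (.f (nat_lit 594) (nat_lit 595) (nat_lit 559) (.f (nat_lit 593) (nat_lit 558) (nat_lit 558) (.f (nat_lit 530) (nat_lit 531) (nat_lit 2575) (.d (nat_lit 498) (nat_lit 466) (nat_lit 5585) (nat_lit 625) (nat_lit 5617))))))) (.a (.p (nat_lit 558) (.a (.f (nat_lit 590) (nat_lit 589) (nat_lit 1581) (.f (nat_lit 591) (nat_lit 562) (nat_lit 1582) (.f (nat_lit 526) (nat_lit 525) (nat_lit 3597) (.d (nat_lit 494) (nat_lit 462) (nat_lit 4558) (nat_lit 623) (nat_lit 4590))))) (.f (nat_lit 593) (nat_lit 594) (nat_lit 558) (.f (nat_lit 496) (nat_lit 464) (nat_lit 4560) (.d (nat_lit 625) (nat_lit 592) (nat_lit 4592) (nat_lit 657) (nat_lit 7696)))))) (.a (.p (nat_lit 562) (.a (.f (nat_lit 591) (nat_lit 590) (nat_lit 1582) (.f (nat_lit 592) (nat_lit 563) (nat_lit 1583) (.d (nat_lit 496) (nat_lit 464) (nat_lit 5583) (nat_lit 623) (nat_lit 5615)))) (.a (.f (nat_lit 563) (nat_lit 527) (nat_lit 3599) (.d (nat_lit 531) (nat_lit 530) (nat_lit 2575) (nat_lit 532) (nat_lit 2576))) (.f (nat_lit 591) (nat_lit 590) (nat_lit 1582) (.f (nat_lit 623) (nat_lit 655) (nat_lit 6671) (.d (nat_lit 496) (nat_lit 464) (nat_lit 5583) (nat_lit 527) (nat_lit 6639))))))) (.p (nat_lit 558) (.a (.f (nat_lit 593) (nat_lit 594) (nat_lit 558) (.f (nat_lit 496) (nat_lit 464) (nat_lit 4560) (.d (nat_lit 625) (nat_lit 592) (nat_lit 4592) (nat_lit 657) (nat_lit 7696)))) (.a s115152 s115039)))))))) (.a (.p (nat_lit 496) (.a (.f (nat_lit 464) (nat_lit 591) (nat_lit 5583) (.f (nat_lit 561) (nat_lit 593) (nat_lit 4560) (.f (nat_lit 527) (nat_lit 432) (nat_lit 5551) (.d (nat_lit 562) (nat_lit 526) (nat_lit 3598) (nat_lit 563) (nat_lit 3599))))) (.a (.f (nat_lit 464) (nat_lit 591) (nat_lit 5583) (.f (nat_lit 432) (nat_lit 527) (nat_lit 5551) (.d (nat_lit 433) (nat_lit 401) (nat_lit 6544) (nat_lit 465) (nat_lit 6576)))) (.a (.f (nat_lit 464) (nat_lit 591) (nat_lit 5583) (.f (nat_lit 593) (nat_lit 561) (nat_lit 4560) (.f (nat_lit 592) (nat_lit 625) (nat_lit 4592) (.d (nat_lit 465) (nat_lit 433) (nat_lit 6576) (nat_lit 497) (nat_lit 6608))))) (.a (.p (nat_lit 592) (.a (.f (nat_lit 623) (nat_lit 591) (nat_lit 5615) (.f (nat_lit 624) (nat_lit 655) (nat_lit 5647) (.f (nat_lit 657) (nat_lit 625) (nat_lit 4624) (.d (nat_lit 656) (nat_lit 527) (nat_lit 7695) (nat_lit 689) (nat_lit 4656))))) (.a (.f (nat_lit 591) (nat_lit 623) (nat_lit 5615) (.f (nat_lit 593) (nat_lit 625) (nat_lit 4592) (.f (nat_lit 594) (nat_lit 595) (nat_lit 3631) (.f (nat_lit 562) (nat_lit 563) (nat_lit 2607) (.f (nat_lit 590) (nat_lit 561) (nat_lit 2606) (.f (nat_lit 589) (nat_lit 588) (nat_lit 2604) (.d (nat_lit 621) (nat_lit 620) (nat_lit 1612) (nat_lit 622) (nat_lit 1613)))))))) (.a (.f (nat_lit 625) (nat_lit 593) (nat_lit 4592) (.f (nat_lit 624) (nat_lit 657) (nat_lit 4624) (.f (nat_lit 656) (nat_lit 527) (nat_lit 7695) (.f (nat_lit 688) (nat_lit 591) (nat_lit 7727) (.d (nat_lit 687) (nat_lit 655) (nat_lit 5679) (nat_lit 719) (nat_lit 5711)))))) (.a (.p (nat_lit 624) (.a (.d (nat_lit 623) (nat_lit 591) (nat_lit 5615) (nat_lit 655) (nat_lit 5647)) (.a (.f (nat_lit 656) (nat_lit 527) (nat_lit 7695) (.f (nat_lit 688) (nat_lit 591) (nat_lit 7727) (.d (nat_lit 689) (nat_lit 657) (nat_lit 4656) (nat_lit 721) (nat_lit 4688)))) (.f (nat_lit 656) (nat_lit 527) (nat_lit 7695) (.d (nat_lit 655) (nat_lit 623) (nat_lit 5647) (nat_lit 687) (nat_lit 5679)))))) (.f (nat_lit 625) (nat_lit 593) (nat_lit 4592) (.f (nat_lit 624) (nat_lit 657) (nat_lit 4624) (.f (nat_lit 655) (nat_lit 623) (nat_lit 5647) (.d (nat_lit 656) (nat_lit 527) (nat_lit 7695) (nat_lit 687) (nat_lit 5679)))))))))) (.p (nat_lit 592) (.a (.f (nat_lit 593) (nat_lit 625) (nat_lit 4592) (.f (nat_lit 464) (nat_lit 561) (nat_lit 4560) (.d (nat_lit 465) (nat_lit 433) (nat_lit 6576) (nat_lit 497) (nat_lit 6608)))) (.a (.f (nat_lit 465) (nat_lit 497) (nat_lit 6608) (.f (nat_lit 464) (nat_lit 433) (nat_lit 6576) (.f (nat_lit 432) (nat_lit 527) (nat_lit 5551) (.d (nat_lit 431) (nat_lit 399) (nat_lit 7567) (nat_lit 463) (nat_lit 7599))))) (.f (nat_lit 625) (nat_lit 593) (nat_lit 4592) (.f (nat_lit 624) (nat_lit 657) (nat_lit 4624) (.f (nat_lit 655) (nat_lit 623) (nat_lit 5647) (.d (nat_lit 656) (nat_lit 527) (nat_lit 7695) (nat_lit 687) (nat_lit 5679))))))))))))) (.a (.p (nat_lit 592) (.a (.p (nat_lit 624) (.a (.f (nat_lit 656) (nat_lit 527) (nat_lit 7695) (.d (nat_lit 655) (nat_lit 623) (nat_lit 5647) (nat_lit 687) (nat_lit 5679))) (.a (.f (nat_lit 623) (nat_lit 655) (nat_lit 5647) (.f (nat_lit 591) (nat_lit 496) (nat_lit 5615) (.f (nat_lit 625) (nat_lit 657) (nat_lit 4624) (.d (nat_lit 626) (nat_lit 590) (nat_lit 3662) (nat_lit 627) (nat_lit 3663))))) (.f (nat_lit 656) (nat_lit 527) (nat_lit 7695) (.d (nat_lit 657) (nat_lit 625) (nat_lit 4624) (nat_lit 689) (nat_lit 4656)))))) (.a s115098 (.a (.p (nat_lit 496) (.a (.d (nat_lit 591) (nat_lit 464) (nat_lit 5583) (nat_lit 623) (nat_lit 5615)) (.a (.f (nat_lit 593) (nat_lit 625) (nat_lit 4592) (.f (nat_lit 594) (nat_lit 595) (nat_lit 3631) (.d (nat_lit 558) (nat_lit 557) (nat_lit 557) (nat_lit 591) (nat_lit 3630)))) (.f (nat_lit 465) (nat_lit 497) (nat_lit 6608) (.f (nat_lit 464) (nat_lit 433) (nat_lit 6576) (.f (nat_lit 432) (nat_lit 527) (nat_lit 5551) (.d (nat_lit 431) (nat_lit 399) (nat_lit 7567) (nat_lit 463) (nat_lit 7599)))))))) (.a (.p (nat_lit 624) (.a (.f (nat_lit 656) (nat_lit 527) (nat_lit 7695) (.d (nat_lit 655) (nat_lit 623) (nat_lit 5647) (nat_lit 687) (nat_lit 5679))) (.a (.f (nat_lit 655) (nat_lit 623) (nat_lit 5647) (.f (nat_lit 656) (nat_lit 687) (nat_lit 5679) (.d (nat_lit 657) (nat_lit 625) (nat_lit 4624) (nat_lit 689) (nat_lit 4656)))) (.a (.f (nat_lit 656) (nat_lit 527) (nat_lit 7695) (.d (nat_lit 657) (nat_lit 625) (nat_lit 4624) (nat_lit 689) (nat_lit 4656))) (.p (nat_lit 594) (.a (.f (nat_lit 593) (nat_lit 595) (nat_lit 3631) (.d (nat_lit 558) (nat_lit 557) (nat_lit 557) (nat_lit 591) (nat_lit 3630))) (.a (.f (nat_lit 623) (nat_lit 655) (nat_lit 5647) (.f (nat_lit 625) (nat_lit 657) (nat_lit 4624) (.f (nat_lit 626) (nat_lit 595) (nat_lit 2639) (.d (nat_lit 591) (nat_lit 590) (nat_lit 3662) (nat_lit 627) (nat_lit 3663))))) (.a (.f (nat_lit 593) (nat_lit 595) (nat_lit 3631) (.f (nat_lit 625) (nat_lit 657) (nat_lit 4624) (.d (nat_lit 623) (nat_lit 622) (nat_lit 2638) (nat_lit 655) (nat_lit 5647)))) (.f (nat_lit 623) (nat_lit 655) (nat_lit 5647) (.f (nat_lit 625) (nat_lit 657) (nat_lit 4624) (.f (nat_lit 593) (nat_lit 622) (nat_lit 2638) (.d (nat_lit 558) (nat_lit 557) (nat_lit 557) (nat_lit 591) (nat_lit 3630))))))))))))) (.a (.p (nat_lit 624) (.a (.f (nat_lit 656) (nat_lit 527) (nat_lit 7695) (.d (nat_lit 657) (nat_lit 625) (nat_lit 4624) (nat_lit 689) (nat_lit 4656))) (.a (.f (nat_lit 625) (nat_lit 657) (nat_lit 4624) (.f (nat_lit 593) (nat_lit 496) (nat_lit 4592) (.f (nat_lit 594) (nat_lit 595) (nat_lit 3631) (.d (nat_lit 558) (nat_lit 557) (nat_lit 557) (nat_lit 591) (nat_lit 3630))))) (.f (nat_lit 656) (nat_lit 527) (nat_lit 7695) (.f (nat_lit 688) (nat_lit 591) (nat_lit 7727) (.d (nat_lit 687) (nat_lit 655) (nat_lit 5679) (nat_lit 719) (nat_lit 5711))))))) (.a s115161 (.p (nat_lit 624) (.a (.f (nat_lit 656) (nat_lit 527) (nat_lit 7695) (.d (nat_lit 655) (nat_lit 623) (nat_lit 5647) (nat_lit 687) (nat_lit 5679))) (.a (.f (nat_lit 655) (nat_lit 623) (nat_lit 5647) (.f (nat_lit 656) (nat_lit 687) (nat_lit 5679) (.d (nat_lit 657) (nat_lit 625) (nat_lit 4624) (nat_lit 689) (nat_lit 4656)))) (.a (.f (nat_lit 656) (nat_lit 527) (nat_lit 7695) (.d (nat_lit 657) (nat_lit 625) (nat_lit 4624) (nat_lit 689) (nat_lit 4656))) (.f (nat_lit 625) (nat_lit 657) (nat_lit 4624) (.f (nat_lit 593) (nat_lit 496) (nat_lit 4592) (.f (nat_lit 623) (nat_lit 655) (nat_lit 5647) (.d (nat_lit 594) (nat_lit 595) (nat_lit 3631) (nat_lit 622) (nat_lit 2638)))))))))))))))) (.a (.p (nat_lit 592) (.a (.p (nat_lit 496) (.a (.d (nat_lit 591) (nat_lit 464) (nat_lit 5583) (nat_lit 623) (nat_lit 5615)) (.a (.f (nat_lit 464) (nat_lit 591) (nat_lit 5583) (.d (nat_lit 593) (nat_lit 561) (nat_lit 4560) (nat_lit 625) (nat_lit 4592))) (.a (.f (nat_lit 591) (nat_lit 623) (nat_lit 5615) (.f (nat_lit 593) (nat_lit 625) (nat_lit 4592) (.d (nat_lit 594) (nat_lit 558) (nat_lit 3630) (nat_lit 595) (nat_lit 3631)))) (.f (nat_lit 593) (nat_lit 625) (nat_lit 4592) (.f (nat_lit 561) (nat_lit 464) (nat_lit 4560) (.d (nat_lit 558) (nat_lit 557) (nat_lit 557) (nat_lit 594) (nat_lit 558)))))))) (.a s115161 (.a (.p (nat_lit 624) (.a (.f (nat_lit 656) (nat_lit 527) (nat_lit 7695) (.d (nat_lit 655) (nat_lit 623) (nat_lit 5647) (nat_lit 687) (nat_lit 5679))) (.a (.f (nat_lit 655) (nat_lit 623) (nat_lit 5647) (.f (nat_lit 656) (nat_lit 687) (nat_lit 5679) (.d (nat_lit 657) (nat_lit 625) (nat_lit 4624) (nat_lit 689) (nat_lit 4656)))) (.a (.f (nat_lit 656) (nat_lit 527) (nat_lit 7695) (.d (nat_lit 657) (nat_lit 625) (nat_lit 4624) (nat_lit 689) (nat_lit 4656))) (.p (nat_lit 594) (.a (.f (nat_lit 593) (nat_lit 595) (nat_lit 3631) (.d (nat_lit 558) (nat_lit 557) (nat_lit 557) (nat_lit 591) (nat_lit 3630))) (.a (.f (nat_lit 623) (nat_lit 655) (nat_lit 5647) (.f (nat_lit 625) (nat_lit 657) (nat_lit 4624) (.f (nat_lit 626) (nat_lit 595) (nat_lit 2639) (.f (nat_lit 659) (nat_lit 658) (nat_lit 623) (.d (nat_lit 627) (nat_lit 591) (nat_lit 3663) (nat_lit 660) (nat_lit 624)))))) (.a (.f (nat_lit 593) (nat_lit 595) (nat_lit 3631) (.f (nat_lit 625) (nat_lit 657) (nat_lit 4624) (.d (nat_lit 623) (nat_lit 622) (nat_lit 2638) (nat_lit 655) (nat_lit 5647)))) (.f (nat_lit 623) (nat_lit 655) (nat_lit 5647) (.f (nat_lit 625) (nat_lit 657) (nat_lit 4624) (.f (nat_lit 593) (nat_lit 622) (nat_lit 2638) (.d (nat_lit 558) (nat_lit 557) (nat_lit 557) (nat_lit 591) (nat_lit 3630))))))))))))) (.a (.p (nat_lit 496) (.a (.f (nat_lit 464) (nat_lit 591) (nat_lit 5583) (.d (nat_lit 593) (nat_lit 561) (nat_lit 4560) (nat_lit 625) (nat_lit 4592))) (.a (.f (nat_lit 464) (nat_lit 591) (nat_lit 5583) (.d (nat_lit 465) (nat_lit 433) (nat_lit 6576) (nat_lit 497) (nat_lit 6608))) (.a (.f (nat_lit 593) (nat_lit 625) (nat_lit 4592) (.f (nat_lit 594) (nat_lit 595) (nat_lit 3631) (.d (nat_lit 558) (nat_lit 557) (nat_lit 557) (nat_lit 591) (nat_lit 3630)))) (.f (nat_lit 593) (nat_lit 625) (nat_lit 4592) (.f (nat_lit 561) (nat_lit 464) (nat_lit 4560) (.d (nat_lit 558) (nat_lit 557) (nat_lit 557) (nat_lit 594) (nat_lit 558)))))))) (.p (nat_lit 593) (.a (.f (nat_lit 625) (nat_lit 496) (nat_lit 4592) (.d (nat_lit 657) (nat_lit 561) (nat_lit 7696) (nat_lit 624) (nat_lit 4624))) (.a (.f (nat_lit 625) (nat_lit 496) (nat_lit 4592) (.d (nat_lit 657) (nat_lit 624) (nat_lit 4624) (nat_lit 689) (nat_lit 7728))) (.a (.f (nat_lit 496) (nat_lit 625) (nat_lit 4592) (.f (nat_lit 561) (nat_lit 464) (nat_lit 4560) (.d (nat_lit 558) (nat_lit 557) (nat_lit 557) (nat_lit 594) (nat_lit 558)))) (.f (nat_lit 594) (nat_lit 595) (nat_lit 3631) (.d (nat_lit 558) (nat_lit 557) (nat_lit 557) (nat_lit 561) (nat_lit 558)))))))))))) (.a (.p (nat_lit 558) (.a s115179 (.a (.p (nat_lit 561) (.a (.f (nat_lit 593) (nat_lit 594) (nat_lit 558) (.f (nat_lit 592) (nat_lit 557) (nat_lit 557) (.d (nat_lit 496) (nat_lit 464) (nat_lit 4560) (nat_lit 625) (nat_lit 4592)))) (.a (.f (nat_lit 526) (nat_lit 525) (nat_lit 3597) (.f (nat_lit 562) (nat_lit 527) (nat_lit 3598) (.d (nat_lit 594) (nat_lit 593) (nat_lit 558) (nat_lit 595) (nat_lit 559)))) (.f (nat_lit 525) (nat_lit 526) (nat_lit 3597) (.f (nat_lit 557) (nat_lit 524) (nat_lit 3596) (.d (nat_lit 589) (nat_lit 588) (nat_lit 1580) (nat_lit 590) (nat_lit 1581))))))) (.a (.p (nat_lit 561) (.a (.f (nat_lit 593) (nat_lit 594) (nat_lit 558) (.f (nat_lit 592) (nat_lit 557) (nat_lit 557) (.d (nat_lit 496) (nat_lit 464) (nat_lit 4560) (nat_lit 625) (nat_lit 4592)))) (.a (.f (nat_lit 526) (nat_lit 525) (nat_lit 3597) (.f (nat_lit 562) (nat_lit 527) (nat_lit 3598) (.d (nat_lit 594) (nat_lit 593) (nat_lit 558) (nat_lit 595) (nat_lit 559)))) (.a (.f (nat_lit 526) (nat_lit 525) (nat_lit 3597) (.f (nat_lit 562) (nat_lit 527) (nat_lit 3598) (.f (nat_lit 531) (nat_lit 530) (nat_lit 2575) (.f (nat_lit 563) (nat_lit 532) (nat_lit 2576) (.d (nat_lit 595) (nat_lit 594) (nat_lit 559) (nat_lit 596) (nat_lit 560)))))) (.f (nat_lit 526) (nat_lit 525) (nat_lit 3597) (.f (nat_lit 527) (nat_lit 562) (nat_lit 3598) (.f (nat_lit 557) (nat_lit 556) (nat_lit 2572) (.d (nat_lit 589) (nat_lit 588) (nat_lit 1580) (nat_lit 590) (nat_lit 1581))))))))) (.a (.p (nat_lit 561) (.a (.f (nat_lit 593) (nat_lit 594) (nat_lit 558) (.f (nat_lit 592) (nat_lit 557) (nat_lit 557) (.d (nat_lit 496) (nat_lit 464) (nat_lit 4560) (nat_lit 625) (nat_lit 4592)))) (.a (.f (nat_lit 594) (nat_lit 593) (nat_lit 558) (.f (nat_lit 562) (nat_lit 595) (nat_lit 559) (.f (nat_lit 531) (nat_lit 530) (nat_lit 2575) (.d (nat_lit 563) (nat_lit 527) (nat_lit 3599) (nat_lit 532) (nat_lit 2576))))) (.f (nat_lit 589) (nat_lit 590) (nat_lit 1581) (.f (nat_lit 557) (nat_lit 588) (nat_lit 1580) (.f (nat_lit 527) (nat_lit 556) (nat_lit 2572) (.d (nat_lit 562) (nat_lit 526) (nat_lit 3598) (nat_lit 563) (nat_lit 3599)))))))) (.a (.p (nat_lit 561) (.a (.f (nat_lit 593) (nat_lit 594) (nat_lit 558) (.f (nat_lit 592) (nat_lit 557) (nat_lit 557) (.d (nat_lit 496) (nat_lit 464) (nat_lit 4560) (nat_lit 625) (nat_lit 4592)))) (.a (.f (nat_lit 589) (nat_lit 590) (nat_lit 1581) (.f (nat_lit 557) (nat_lit 588) (nat_lit 1580) (.f (nat_lit 556) (nat_lit 527) (nat_lit 2572) (.d (nat_lit 524) (nat_lit 523) (nat_lit 3595) (nat_lit 525) (nat_lit 3596))))) (.f (nat_lit 593) (nat_lit 594) (nat_lit 558) (.f (nat_lit 496) (nat_lit 464) (nat_lit 4560) (.d (nat_lit 625) (nat_lit 592) (nat_lit 4592) (nat_lit 657) (nat_lit 7696))))))) (.a (.p (nat_lit 561) (.a (.f (nat_lit 593) (nat_lit 594) (nat_lit 558) (.f (nat_lit 592) (nat_lit 557) (nat_lit 557) (.d (nat_lit 496) (nat_lit 464) (nat_lit 4560) (nat_lit 625) (nat_lit 4592)))) (.a (.f (nat_lit 525) (nat_lit 526) (nat_lit 3597) (.f (nat_lit 557) (nat_lit 524) (nat_lit 3596) (.d (nat_lit 589) (nat_lit 588) (nat_lit 1580) (nat_lit 590) (nat_lit 1581)))) (.f (nat_lit 593) (nat_lit 594) (nat_lit 558) (.f (nat_lit 496) (nat_lit 464) (nat_lit 4560) (.d (nat_lit 625) (nat_lit 592) (nat_lit 4592) (nat_lit 657) (nat_lit 7696))))))) (.a (.p (nat_lit 624) (.a (.p (nat_lit 561) (.a (.f (nat_lit 593) (nat_lit 594) (nat_lit 558) (.f (nat_lit 625) (nat_lit 657) (nat_lit 7696) (.d (nat_lit 496) (nat_lit 464) (nat_lit 4560) (nat_lit 592) (nat_lit 4592)))) (.a (.f (nat_lit 526) (nat_lit 525) (nat_lit 3597) (.f (nat_lit 562) (nat_lit 527) (nat_lit 3598) (.d (nat_lit 594) (nat_lit 593) (nat_lit 558) (nat_lit 595) (nat_lit 559)))) (.a (.f (nat_lit 526) (nat_lit 525) (nat_lit 3597) (.f (nat_lit 562) (nat_lit 527) (nat_lit 3598) (.f (nat_lit 531) (nat_lit 530) (nat_lit 2575) (.f (nat_lit 563) (nat_lit 532) (nat_lit 2576) (.d (nat_lit 595) (nat_lit 594) (nat_lit 559) (nat_lit 596) (nat_lit 560)))))) (.f (nat_lit 526) (nat_lit 525) (nat_lit 3597) (.f (nat_lit 527) (nat_lit 562) (nat_lit 3598) (.f (nat_lit 592) (nat_lit 656) (nat_lit 7695) (.f (nat_lit 590) (nat_lit 589) (nat_lit 1581) (.f (nat_lit 622) (nat_lit 654) (nat_lit 6670) (.f (nat_lit 623) (nat_lit 655) (nat_lit 5647) (.d (nat_lit 621) (nat_lit 593) (nat_lit 2637) (nat_lit 653) (nat_lit 5645)))))))))))) (.a (.p (nat_lit 590) (.a (.f (nat_lit 561) (nat_lit 589) (nat_lit 1581) (.f (nat_lit 526) (nat_lit 525) (nat_lit 3597) (.f (nat_lit 562) (nat_lit 527) (nat_lit 3598) (.d (nat_lit 594) (nat_lit 593) (nat_lit 558) (nat_lit 595) (nat_lit 559))))) (.a (.f (nat_lit 561) (nat_lit 589) (nat_lit 1581) (.f (nat_lit 526) (nat_lit 525) (nat_lit 3597) (.f (nat_lit 562) (nat_lit 527) (nat_lit 3598) (.f (nat_lit 531) (nat_lit 530) (nat_lit 2575) (.f (nat_lit 563) (nat_lit 532) (nat_lit 2576) (.d (nat_lit 595) (nat_lit 594) (nat_lit 559) (nat_lit 596) (nat_lit 560))))))) (.a (.p (nat_lit 622) (.a (.f (nat_lit 654) (nat_lit 527) (nat_lit 6670) (.f (nat_lit 653) (nat_lit 685) (nat_lit 5677) (.f (nat_lit 623) (nat_lit 625) (nat_lit 1645) (.d (nat_lit 652) (nat_lit 621) (nat_lit 1644) (nat_lit 651) (nat_lit 2667))))) (.a s115198 (.a (.f (nat_lit 654) (nat_lit 527) (nat_lit 6670) (.f (nat_lit 685) (nat_lit 653) (nat_lit 5677) (.f (nat_lit 686) (nat_lit 717) (nat_lit 5709) (.d (nat_lit 687) (nat_lit 655) (nat_lit 4654) (nat_lit 719) (nat_lit 4686))))) (.a (.p (nat_lit 623) (.a (.f (nat_lit 526) (nat_lit 655) (nat_lit 4622) (.f (nat_lit 621) (nat_lit 653) (nat_lit 5645) (.d (nat_lit 589) (nat_lit 494) (nat_lit 5613) (nat_lit 588) (nat_lit 3660)))) (.a (.f (nat_lit 589) (nat_lit 625) (nat_lit 3661) (.d (nat_lit 588) (nat_lit 587) (nat_lit 587) (nat_lit 621) (nat_lit 3660))) (.f (nat_lit 526) (nat_lit 655) (nat_lit 4622) (.f (nat_lit 525) (nat_lit 493) (nat_lit 7661) (.d (nat_lit 524) (nat_lit 523) (nat_lit 523) (nat_lit 527) (nat_lit 524))))))) (.f (nat_lit 654) (nat_lit 527) (nat_lit 6670) (.f (nat_lit 655) (nat_lit 687) (nat_lit 4654) (.f (nat_lit 623) (nat_lit 526) (nat_lit 4622) (.d (nat_lit 625) (nat_lit 589) (nat_lit 3661) (nat_lit 626) (nat_lit 1646)))))))))) (.a (.p (nat_lit 622) (.a (.f (nat_lit 589) (nat_lit 561) (nat_lit 1581) (.f (nat_lit 623) (nat_lit 625) (nat_lit 3661) (.d (nat_lit 588) (nat_lit 587) (nat_lit 2603) (nat_lit 621) (nat_lit 3660)))) (.a s115198 (.a (.f (nat_lit 561) (nat_lit 589) (nat_lit 1581) (.f (nat_lit 526) (nat_lit 525) (nat_lit 3597) (.f (nat_lit 593) (nat_lit 594) (nat_lit 558) (.f (nat_lit 653) (nat_lit 621) (nat_lit 5645) (.f (nat_lit 654) (nat_lit 685) (nat_lit 5677) (.f (nat_lit 655) (nat_lit 687) (nat_lit 4654) (.d (nat_lit 625) (nat_lit 656) (nat_lit 2669) (nat_lit 657) (nat_lit 7696)))))))) (.a (.f (nat_lit 561) (nat_lit 589) (nat_lit 1581) (.f (nat_lit 526) (nat_lit 525) (nat_lit 3597) (.f (nat_lit 653) (nat_lit 621) (nat_lit 5645) (.f (nat_lit 654) (nat_lit 685) (nat_lit 5677) (.d (nat_lit 655) (nat_lit 623) (nat_lit 4622) (nat_lit 687) (nat_lit 4654)))))) (.a (.p (nat_lit 526) (.a (.d (nat_lit 525) (nat_lit 493) (nat_lit 7661) (nat_lit 561) (nat_lit 3597)) (.f (nat_lit 623) (nat_lit 655) (nat_lit 4622) (.f (nat_lit 653) (nat_lit 621) (nat_lit 5645) (.d (nat_lit 654) (nat_lit 625) (nat_lit 1645) (nat_lit 685) (nat_lit 5677)))))) (.f (nat_lit 561) (nat_lit 589) (nat_lit 1581) (.f (nat_lit 593) (nat_lit 594) (nat_lit 558) (.f (nat_lit 526) (nat_lit 525) (nat_lit 3597) (.f (nat_lit 625) (nat_lit 657) (nat_lit 7696) (.f (nat_lit 655) (nat_lit 623) (nat_lit 4622) (.f (nat_lit 654) (nat_lit 687) (nat_lit 4654) (.d (nat_lit 653) (nat_lit 656) (nat_lit 2669) (nat_lit 685) (nat_lit 5677)))))))))))))) (.a (.f (nat_lit 561) (nat_lit 589) (nat_lit 1581) (.f (nat_lit 594) (nat_lit 593) (nat_lit 558) (.f (nat_lit 562) (nat_lit 595) (nat_lit 559) (.f (nat_lit 531) (nat_lit 530) (nat_lit 2575) (.d (nat_lit 563) (nat_lit 527) (nat_lit 3599) (nat_lit 532) (nat_lit 2576)))))) (.p (nat_lit 622) (.a (.f (nat_lit 654) (nat_lit 527) (nat_lit 6670) (.f (nat_lit 653) (nat_lit 685) (nat_lit 5677) (.f (nat_lit 623) (nat_lit 625) (nat_lit 1645) (.d (nat_lit 652) (nat_lit 621) (nat_lit 1644) (nat_lit 651) (nat_lit 2667))))) (.a (.p (nat_lit 526) (.a (.d (nat_lit 525) (nat_lit 493) (nat_lit 7661) (nat_lit 561) (nat_lit 3597)) (.f (nat_lit 623) (nat_lit 655) (nat_lit 4622) (.f (nat_lit 653) (nat_lit 621) (nat_lit 5645) (.d (nat_lit 654) (nat_lit 625) (nat_lit 1645) (nat_lit 685) (nat_lit 5677)))))) (.a (.f (nat_lit 654) (nat_lit 527) (nat_lit 6670) (.f (nat_lit 685) (nat_lit 653) (nat_lit 5677) (.f (nat_lit 686) (nat_lit 717) (nat_lit 5709) (.d (nat_lit 687) (nat_lit 655) (nat_lit 4654) (nat_lit 719) (nat_lit 4686))))) (.a (.p (nat_lit 561) (.a (.f (nat_lit 526) (nat_lit 525) (nat_lit 3597) (.f (nat_lit 562) (nat_lit 527) (nat_lit 3598) (.d (nat_lit 594) (nat_lit 593) (nat_lit 558) (nat_lit 595) (nat_lit 559)))) (.a (.f (nat_lit 526) (nat_lit 525) (nat_lit 3597) (.f (nat_lit 562) (nat_lit 527) (nat_lit 3598) (.f (nat_lit 531) (nat_lit 530) (nat_lit 2575) (.f (nat_lit 563) (nat_lit 532) (nat_lit 2576) (.d (nat_lit 595) (nat_lit 594) (nat_lit 559) (nat_lit 596) (nat_lit 560)))))) (.a (.f (nat_lit 526) (nat_lit 525) (nat_lit 3597) (.f (nat_lit 593) (nat_lit 594) (nat_lit 558) (.f (nat_lit 657) (nat_lit 625) (nat_lit 7696) (.f (nat_lit 623) (nat_lit 655) (nat_lit 4622) (.d (nat_lit 621) (nat_lit 653) (nat_lit 5645) (nat_lit 656) (nat_lit 621)))))) (.a (.f (nat_lit 594) (nat_lit 593) (nat_lit 558) (.f (nat_lit 562) (nat_lit 595) (nat_lit 559) (.f (nat_lit 531) (nat_lit 530) (nat_lit 2575) (.d (nat_lit 563) (nat_lit 527) (nat_lit 3599) (nat_lit 532) (nat_lit 2576))))) (.f (nat_lit 526) (nat_lit 525) (nat_lit 3597) (.f (nat_lit 623) (nat_lit 655) (nat_lit 4622) (.f (nat_lit 621) (nat_lit 653) (nat_lit 5645) (.f (nat_lit 657) (nat_lit 656) (nat_lit 621) (.d (nat_lit 625) (nat_lit 593) (nat_lit 7696) (nat_lit 658) (nat_lit 622))))))))))) (.f (nat_lit 654) (nat_lit 527) (nat_lit 6670) (.f (nat_lit 655) (nat_lit 687) (nat_lit 4654) (.f (nat_lit 623) (nat_lit 526) (nat_lit 4622) (.f (nat_lit 625) (nat_lit 626) (nat_lit 1646) (.f (nat_lit 657) (nat_lit 658) (nat_lit 622) (.d (nat_lit 593) (nat_lit 561) (nat_lit 7696) (nat_lit 594) (nat_lit 2638)))))))))))))))))) (.a (.p (nat_lit 623) (.a (.p (nat_lit 622) (.a (.p (nat_lit 625) (.a (.f (nat_lit 590) (nat_lit 589) (nat_lit 3661) (.d (nat_lit 654) (nat_lit 527) (nat_lit 6670) (nat_lit 653) (nat_lit 1645))) (.a (.f (nat_lit 590) (nat_lit 589) (nat_lit 3661) (.f (nat_lit 654) (nat_lit 653) (nat_lit 1645) (.d (nat_lit 655) (nat_lit 526) (nat_lit 4622) (nat_lit 626) (nat_lit 1646)))) (.a (.f (nat_lit 657) (nat_lit 658) (nat_lit 622) (.f (nat_lit 621) (nat_lit 656) (nat_lit 621) (.d (nat_lit 653) (nat_lit 652) (nat_lit 1644) (nat_lit 654) (nat_lit 1645)))) (.a (.f (nat_lit 590) (nat_lit 589) (nat_lit 3661) (.f (nat_lit 526) (nat_lit 655) (nat_lit 4622) (.f (nat_lit 621) (nat_lit 653) (nat_lit 5645) (.d (nat_lit 657) (nat_lit 656) (nat_lit 621) (nat_lit 658) (nat_lit 622))))) (.f (nat_lit 590) (nat_lit 589) (nat_lit 3661) (.f (nat_lit 655) (nat_lit 526) (nat_lit 4622) (.d (nat_lit 654) (nat_lit 527) (nat_lit 6670) (nat_lit 626) (nat_lit 1646))))))))) (.a s115213 (.a (.p (nat_lit 625) (.a (.f (nat_lit 590) (nat_lit 589) (nat_lit 3661) (.d (nat_lit 654) (nat_lit 527) (nat_lit 6670) (nat_lit 653) (nat_lit 1645))) (.a (.f (nat_lit 657) (nat_lit 658) (nat_lit 622) (.f (nat_lit 621) (nat_lit 656) (nat_lit 621) (.d (nat_lit 653) (nat_lit 652) (nat_lit 1644) (nat_lit 654) (nat_lit 1645)))) (.f (nat_lit 657) (nat_lit 658) (nat_lit 622) (.f (nat_lit 621) (nat_lit 656) (nat_lit 621) (.d (nat_lit 589) (nat_lit 588) (nat_lit 3660) (nat_lit 590) (nat_lit 3661))))))) (.a (.p (nat_lit 590) (.a (.f (nat_lit 526) (nat_lit 655) (nat_lit 4622) (.f (nat_lit 621) (nat_lit 653) (nat_lit 5645) (.d (nat_lit 589) (nat_lit 494) (nat_lit 5613) (nat_lit 588) (nat_lit 3660)))) (.a (.f (nat_lit 654) (nat_lit 527) (nat_lit 6670) (.f (nat_lit 653) (nat_lit 685) (nat_lit 5677) (.d (nat_lit 655) (nat_lit 652) (nat_lit 2668) (nat_lit 687) (nat_lit 4654)))) (.a (.f (nat_lit 654) (nat_lit 527) (nat_lit 6670) (.f (nat_lit 653) (nat_lit 685) (nat_lit 5677) (.d (nat_lit 621) (nat_lit 526) (nat_lit 5645) (nat_lit 652) (nat_lit 1644)))) (.f (nat_lit 655) (nat_lit 526) (nat_lit 4622) (.d (nat_lit 654) (nat_lit 527) (nat_lit 6670) (nat_lit 687) (nat_lit 4654))))))) (.a s115217 (.a (.p (nat_lit 625) (.a (.f (nat_lit 657) (nat_lit 658) (nat_lit 622) (.f (nat_lit 621) (nat_lit 656) (nat_lit 621) (.d (nat_lit 653) (nat_lit 652) (nat_lit 1644) (nat_lit 654) (nat_lit 1645)))) (.a (.f (nat_lit 654) (nat_lit 653) (nat_lit 1645) (.f (nat_lit 626) (nat_lit 655) (nat_lit 1646) (.f (nat_lit 595) (nat_lit 594) (nat_lit 2639) (.f (nat_lit 627) (nat_lit 596) (nat_lit 2640) (.d (nat_lit 659) (nat_lit 658) (nat_lit 623) (nat_lit 660) (nat_lit 624)))))) (.a (.f (nat_lit 657) (nat_lit 658) (nat_lit 622) (.f (nat_lit 621) (nat_lit 656) (nat_lit 621) (.f (nat_lit 653) (nat_lit 652) (nat_lit 1644) (.f (nat_lit 526) (nat_lit 590) (nat_lit 5645) (.f (nat_lit 525) (nat_lit 561) (nat_lit 3597) (.d (nat_lit 524) (nat_lit 523) (nat_lit 523) (nat_lit 527) (nat_lit 524))))))) (.a (.f (nat_lit 654) (nat_lit 653) (nat_lit 1645) (.f (nat_lit 655) (nat_lit 626) (nat_lit 1646) (.d (nat_lit 590) (nat_lit 526) (nat_lit 4622) (nat_lit 527) (nat_lit 6670)))) (.f (nat_lit 658) (nat_lit 657) (nat_lit 622) (.f (nat_lit 626) (nat_lit 659) (nat_lit 623) (.f (nat_lit 595) (nat_lit 594) (nat_lit 2639) (.f (nat_lit 627) (nat_lit 596) (nat_lit 2640) (.d (nat_lit 655) (nat_lit 654) (nat_lit 1646) (nat_lit 656) (nat_lit 1647))))))))))) (.a (.p (nat_lit 561) (.a (.f (nat_lit 526) (nat_lit 525) (nat_lit 3597) (.f (nat_lit 562) (nat_lit 527) (nat_lit 3598) (.f (nat_lit 595) (nat_lit 594) (nat_lit 559) (.f (nat_lit 563) (nat_lit 596) (nat_lit 560) (.d (nat_lit 531) (nat_lit 530) (nat_lit 2575) (nat_lit 532) (nat_lit 2576)))))) (.a (.f (nat_lit 590) (nat_lit 589) (nat_lit 1581) (.d (nat_lit 526) (nat_lit 525) (nat_lit 3597) (nat_lit 655) (nat_lit 4622))) (.f (nat_lit 590) (nat_lit 589) (nat_lit 1581) (.f (nat_lit 654) (nat_lit 527) (nat_lit 6670) (.d (nat_lit 653) (nat_lit 625) (nat_lit 1645) (nat_lit 685) (nat_lit 5677))))))) (.a (.p (nat_lit 561) (.a (.f (nat_lit 589) (nat_lit 590) (nat_lit 1581) (.f (nat_lit 621) (nat_lit 588) (nat_lit 3660) (.f (nat_lit 652) (nat_lit 653) (nat_lit 1644) (.f (nat_lit 620) (nat_lit 651) (nat_lit 1643) (.d (nat_lit 656) (nat_lit 655) (nat_lit 620) (nat_lit 657) (nat_lit 621)))))) (.f (nat_lit 526) (nat_lit 525) (nat_lit 3597) (.f (nat_lit 562) (nat_lit 527) (nat_lit 3598) (.f (nat_lit 595) (nat_lit 594) (nat_lit 559) (.f (nat_lit 563) (nat_lit 596) (nat_lit 560) (.d (nat_lit 531) (nat_lit 530) (nat_lit 2575) (nat_lit 532) (nat_lit 2576)))))))) (.p (nat_lit 561) (.a (.f (nat_lit 526) (nat_lit 525) (nat_lit 3597) (.f (nat_lit 562) (nat_lit 527) (nat_lit 3598) (.f (nat_lit 595) (nat_lit 594) (nat_lit 559) (.f (nat_lit 563) (nat_lit 596) (nat_lit 560) (.d (nat_lit 531) (nat_lit 530) (nat_lit 2575) (nat_lit 532) (nat_lit 2576)))))) (.a (.f (nat_lit 590) (nat_lit 589) (nat_lit 1581) (.d (nat_lit 526) (nat_lit 525) (nat_lit 3597) (nat_lit 655) (nat_lit 4622))) (.f (nat_lit 590) (nat_lit 589) (nat_lit 1581) (.f (nat_lit 654) (nat_lit 527) (nat_lit 6670) (.f (nat_lit 655) (nat_lit 687) (nat_lit 4654) (.f (nat_lit 625) (nat_lit 626) (nat_lit 1646) (.f (nat_lit 657) (nat_lit 658) (nat_lit 622) (.f (nat_lit 656) (nat_lit 621) (nat_lit 621) (.f (nat_lit 686) (nat_lit 685) (nat_lit 1677) (.f (nat_lit 718) (nat_lit 750) (nat_lit 6766) (.f (nat_lit 689) (nat_lit 690) (nat_lit 654) (.f (nat_lit 721) (nat_lit 753) (nat_lit 7792) (.f (nat_lit 720) (nat_lit 752) (nat_lit 5744) (.f (nat_lit 719) (nat_lit 751) (nat_lit 4718) (.d (nat_lit 717) (nat_lit 688) (nat_lit 2733) (nat_lit 749) (nat_lit 5741)))))))))))))))))))))))))) (.a (.f (nat_lit 592) (nat_lit 655) (nat_lit 5647) (.f (nat_lit 657) (nat_lit 625) (nat_lit 4624) (.d (nat_lit 656) (nat_lit 527) (nat_lit 7695) (nat_lit 689) (nat_lit 4656)))) (.a (.p (nat_lit 622) (.a s115213 (.a s115217 (.a (.p (nat_lit 589) (.a (.f (nat_lit 621) (nat_lit 588) (nat_lit 3660) (.f (nat_lit 653) (nat_lit 652) (nat_lit 1644) (.d (nat_lit 590) (nat_lit 526) (nat_lit 5645) (nat_lit 685) (nat_lit 6701)))) (.a (.f (nat_lit 621) (nat_lit 588) (nat_lit 3660) (.f (nat_lit 653) (nat_lit 652) (nat_lit 1644) (.f (nat_lit 685) (nat_lit 590) (nat_lit 6701) (.f (nat_lit 656) (nat_lit 657) (nat_lit 621) (.f (nat_lit 655) (nat_lit 620) (nat_lit 620) (.d (nat_lit 684) (nat_lit 654) (nat_lit 1676) (nat_lit 716) (nat_lit 5708))))))) (.a (.f (nat_lit 621) (nat_lit 588) (nat_lit 3660) (.f (nat_lit 652) (nat_lit 653) (nat_lit 1644) (.f (nat_lit 620) (nat_lit 651) (nat_lit 1643) (.d (nat_lit 656) (nat_lit 655) (nat_lit 620) (nat_lit 657) (nat_lit 621))))) (.f (nat_lit 590) (nat_lit 561) (nat_lit 1581) (.f (nat_lit 655) (nat_lit 526) (nat_lit 4622) (.d (nat_lit 687) (nat_lit 654) (nat_lit 4654) (nat_lit 719) (nat_lit 7758)))))))) (.a (.f (nat_lit 655) (nat_lit 592) (nat_lit 5647) (.f (nat_lit 590) (nat_lit 526) (nat_lit 4622) (.d (nat_lit 589) (nat_lit 561) (nat_lit 1581) (nat_lit 625) (nat_lit 3661)))) (.a (.p (nat_lit 625) (.a (.f (nat_lit 657) (nat_lit 658) (nat_lit 622) (.f (nat_lit 621) (nat_lit 656) (nat_lit 621) (.d (nat_lit 653) (nat_lit 652) (nat_lit 1644) (nat_lit 654) (nat_lit 1645)))) (.a (.f (nat_lit 590) (nat_lit 589) (nat_lit 3661) (.f (nat_lit 653) (nat_lit 654) (nat_lit 1645) (.d (nat_lit 621) (nat_lit 526) (nat_lit 5645) (nat_lit 652) (nat_lit 1644)))) (.d (nat_lit 657) (nat_lit 592) (nat_lit 4624) (nat_lit 658) (nat_lit 622))))) (.f (nat_lit 655) (nat_lit 592) (nat_lit 5647) (.f (nat_lit 590) (nat_lit 526) (nat_lit 4622) (.d (nat_lit 687) (nat_lit 654) (nat_lit 4654) (nat_lit 719) (nat_lit 7758)))))))))) (.a (.p (nat_lit 590) (.a (.f (nat_lit 561) (nat_lit 589) (nat_lit 1581) (.f (nat_lit 526) (nat_lit 525) (nat_lit 3597) (.f (nat_lit 622) (nat_lit 655) (nat_lit 4622) (.d (nat_lit 527) (nat_lit 562) (nat_lit 3598) (nat_lit 654) (nat_lit 6670))))) (.a (.f (nat_lit 655) (nat_lit 592) (nat_lit 5647) (.f (nat_lit 622) (nat_lit 526) (nat_lit 4622) (.d (nat_lit 654) (nat_lit 527) (nat_lit 6670) (nat_lit 687) (nat_lit 4654)))) (.a (.f (nat_lit 589) (nat_lit 561) (nat_lit 1581) (.f (nat_lit 588) (nat_lit 587) (nat_lit 2603) (.f (nat_lit 622) (nat_lit 621) (nat_lit 3660) (.f (nat_lit 655) (nat_lit 526) (nat_lit 4622) (.d (nat_lit 687) (nat_lit 654) (nat_lit 4654) (nat_lit 719) (nat_lit 7758)))))) (.a (.f (nat_lit 592) (nat_lit 655) (nat_lit 5647) (.f (nat_lit 589) (nat_lit 561) (nat_lit 1581) (.f (nat_lit 588) (nat_lit 587) (nat_lit 2603) (.f (nat_lit 622) (nat_lit 621) (nat_lit 3660) (.d (nat_lit 527) (nat_lit 654) (nat_lit 6670) (nat_lit 656) (nat_lit 7695)))))) (.f (nat_lit 561) (nat_lit 589) (nat_lit 1581) (.f (nat_lit 526) (nat_lit 525) (nat_lit 3597) (.f (nat_lit 562) (nat_lit 527) (nat_lit 3598) (.f (nat_lit 531) (nat_lit 530) (nat_lit 2575) (.f (nat_lit 563) (nat_lit 532) (nat_lit 2576) (.d (nat_lit 595) (nat_lit 594) (nat_lit 559) (nat_lit 596) (nat_lit 560)))))))))))) (.a (.p (nat_lit 590) (.a (.f (nat_lit 561) (nat_lit 589) (nat_lit 1581) (.f (nat_lit 526) (nat_lit 525) (nat_lit 3597) (.f (nat_lit 622) (nat_lit 655) (nat_lit 4622) (.d (nat_lit 527) (nat_lit 562) (nat_lit 3598) (nat_lit 654) (nat_lit 6670))))) (.a (.f (nat_lit 655) (nat_lit 592) (nat_lit 5647) (.f (nat_lit 622) (nat_lit 526) (nat_lit 4622) (.d (nat_lit 654) (nat_lit 527) (nat_lit 6670) (nat_lit 687) (nat_lit 4654)))) (.a (.f (nat_lit 589) (nat_lit 561) (nat_lit 1581) (.f (nat_lit 588) (nat_lit 587) (nat_lit 2603) (.f (nat_lit 622) (nat_lit 621) (nat_lit 3660) (.f (nat_lit 655) (nat_lit 526) (nat_lit 4622) (.d (nat_lit 687) (nat_lit 654) (nat_lit 4654) (nat_lit 719) (nat_lit 7758)))))) (.a (.f (nat_lit 589) (nat_lit 561) (nat_lit 1581) (.f (nat_lit 622) (nat_lit 625) (nat_lit 3661) (.d (nat_lit 588) (nat_lit 587) (nat_lit 2603) (nat_lit 621) (nat_lit 3660)))) (.f (nat_lit 561) (nat_lit 589) (nat_lit 1581) (.f (nat_lit 526) (nat_lit 525) (nat_lit 3597) (.f (nat_lit 562) (nat_lit 527) (nat_lit 3598) (.f (nat_lit 531) (nat_lit 530) (nat_lit 2575) (.f (nat_lit 563) (nat_lit 532) (nat_lit 2576) (.d (nat_lit 595) (nat_lit 594) (nat_lit 559) (nat_lit 596) (nat_lit 560)))))))))))) (.p (nat_lit 622) (.a (.p (nat_lit 625) (.a (.f (nat_lit 590) (nat_lit 589) (nat_lit 3661) (.d (nat_lit 654) (nat_lit 527) (nat_lit 6670) (nat_lit 653) (nat_lit 1645))) (.a (.f (nat_lit 657) (nat_lit 658) (nat_lit 622) (.f (nat_lit 621) (nat_lit 656) (nat_lit 621) (.d (nat_lit 653) (nat_lit 652) (nat_lit 1644) (nat_lit 654) (nat_lit 1645)))) (.f (nat_lit 657) (nat_lit 658) (nat_lit 622) (.f (nat_lit 621) (nat_lit 656) (nat_lit 621) (.d (nat_lit 589) (nat_lit 588) (nat_lit 3660) (nat_lit 590) (nat_lit 3661))))))) (.a (.p (nat_lit 625) (.a (.f (nat_lit 657) (nat_lit 658) (nat_lit 622) (.f (nat_lit 621) (nat_lit 656) (nat_lit 621) (.d (nat_lit 653) (nat_lit 652) (nat_lit 1644) (nat_lit 654) (nat_lit 1645)))) (.a (.f (nat_lit 590) (nat_lit 589) (nat_lit 3661) (.f (nat_lit 653) (nat_lit 654) (nat_lit 1645) (.d (nat_lit 621) (nat_lit 526) (nat_lit 5645) (nat_lit 652) (nat_lit 1644)))) (.d (nat_lit 657) (nat_lit 592) (nat_lit 4624) (nat_lit 658) (nat_lit 622))))) (.a (.p (nat_lit 590) (.a (.f (nat_lit 654) (nat_lit 527) (nat_lit 6670) (.f (nat_lit 653) (nat_lit 685) (nat_lit 5677) (.d (nat_lit 621) (nat_lit 526) (nat_lit 5645) (nat_lit 652) (nat_lit 1644)))) (.a (.f (nat_lit 589) (nat_lit 561) (nat_lit 1581) (.d (nat_lit 588) (nat_lit 587) (nat_lit 587) (nat_lit 621) (nat_lit 3660))) (.f (nat_lit 561) (nat_lit 589) (nat_lit 1581) (.f (nat_lit 526) (nat_lit 525) (nat_lit 3597) (.d (nat_lit 527) (nat_lit 562) (nat_lit 3598) (nat_lit 654) (nat_lit 6670))))))) (.a (.p (nat_lit 621) (.a (.f (nat_lit 657) (nat_lit 656) (nat_lit 621) (.f (nat_lit 625) (nat_lit 658) (nat_lit 622) (.d (nat_lit 653) (nat_lit 652) (nat_lit 1644) (nat_lit 654) (nat_lit 1645)))) (.a (.f (nat_lit 652) (nat_lit 653) (nat_lit 1644) (.f (nat_lit 620) (nat_lit 651) (nat_lit 1643) (.d (nat_lit 588) (nat_lit 587) (nat_lit 3659) (nat_lit 589) (nat_lit 3660)))) (.f (nat_lit 657) (nat_lit 656) (nat_lit 621) (.d (nat_lit 625) (nat_lit 592) (nat_lit 4624) (nat_lit 658) (nat_lit 622)))))) (.a (.p (nat_lit 592) (.a (.f (nat_lit 657) (nat_lit 625) (nat_lit 4624) (.d (nat_lit 656) (nat_lit 527) (nat_lit 7695) (nat_lit 689) (nat_lit 4656))) (.a (.f (nat_lit 657) (nat_lit 625) (nat_lit 4624) (.d (nat_lit 656) (nat_lit 621) (nat_lit 621) (nat_lit 689) (nat_lit 4656))) (.a (.f (nat_lit 656) (nat_lit 527) (nat_lit 7695) (.d (nat_lit 657) (nat_lit 621) (nat_lit 621) (nat_lit 689) (nat_lit 4656))) (.a (.f (nat_lit 527) (nat_lit 656) (nat_lit 7695) (.f (nat_lit 654) (nat_lit 590) (nat_lit 6670) (.f (nat_lit 653) (nat_lit 625) (nat_lit 1645) (.d (nat_lit 652) (nat_lit 621) (nat_lit 1644) (nat_lit 651) (nat_lit 2667))))) (.f (nat_lit 625) (nat_lit 657) (nat_lit 4624) (.f (nat_lit 653) (nat_lit 654) (nat_lit 1645) (.f (nat_lit 621) (nat_lit 652) (nat_lit 1644) (.f (nat_lit 526) (nat_lit 590) (nat_lit 5645) (.f (nat_lit 525) (nat_lit 561) (nat_lit 3597) (.d (nat_lit 524) (nat_lit 523) (nat_lit 523) (nat_lit 527) (nat_lit 524)))))))))))) (.a (.p (nat_lit 625) (.a (.f (nat_lit 590) (nat_lit 589) (nat_lit 3661) (.d (nat_lit 654) (nat_lit 527) (nat_lit 6670) (nat_lit 653) (nat_lit 1645))) (.d (nat_lit 657) (nat_lit 592) (nat_lit 4624) (nat_lit 658) (nat_lit 622)))) (.p (nat_lit 561) (.a (.f (nat_lit 526) (nat_lit 525) (nat_lit 3597) (.f (nat_lit 562) (nat_lit 527) (nat_lit 3598) (.f (nat_lit 595) (nat_lit 594) (nat_lit 559) (.f (nat_lit 563) (nat_lit 596) (nat_lit 560) (.d (nat_lit 531) (nat_lit 530) (nat_lit 2575) (nat_lit 532) (nat_lit 2576)))))) (.f (nat_lit 589) (nat_lit 590) (nat_lit 1581) (.f (nat_lit 621) (nat_lit 588) (nat_lit 3660) (.f (nat_lit 657) (nat_lit 656) (nat_lit 621) (.d (nat_lit 625) (nat_lit 592) (nat_lit 4624) (nat_lit 658) (nat_lit 622)))))))))))))))))))) (.a (.p (nat_lit 592) (.a (.f (nat_lit 655) (nat_lit 623) (nat_lit 5647) (.f (nat_lit 656) (nat_lit 687) (nat_lit 5679) (.d (nat_lit 657) (nat_lit 625) (nat_lit 4624) (nat_lit 689) (nat_lit 4656)))) (.a (.f (nat_lit 656) (nat_lit 527) (nat_lit 7695) (.d (nat_lit 657) (nat_lit 625) (nat_lit 4624) (nat_lit 689) (nat_lit 4656))) (.a (.f (nat_lit 656) (nat_lit 527) (nat_lit 7695) (.d (nat_lit 655) (nat_lit 623) (nat_lit 5647) (nat_lit 687) (nat_lit 5679))) (.f (nat_lit 625) (nat_lit 657) (nat_lit 4624) (.f (nat_lit 623) (nat_lit 655) (nat_lit 5647) (.f (nat_lit 593) (nat_lit 496) (nat_lit 4592) (.d (nat_lit 622) (nat_lit 594) (nat_lit 2638) (nat_lit 621) (nat_lit 2637))))))))) (.a (.p (nat_lit 625) (.a (.p (nat_lit 623) (.a (.p (nat_lit 622) (.a (.f (nat_lit 657) (nat_lit 658) (nat_lit 622) (.f (nat_lit 621) (nat_lit 656) (nat_lit 621) (.d (nat_lit 653) (nat_lit 652) (nat_lit 1644) (nat_lit 654) (nat_lit 1645)))) (.a (.f (nat_lit 654) (nat_lit 653) (nat_lit 1645) (.f (nat_lit 626) (nat_lit 655) (nat_lit 1646) (.f (nat_lit 595) (nat_lit 594) (nat_lit 2639) (.f (nat_lit 627) (nat_lit 596) (nat_lit 2640) (.d (nat_lit 659) (nat_lit 658) (nat_lit 623) (nat_lit 660) (nat_lit 624)))))) (.a (.f (nat_lit 657) (nat_lit 658) (nat_lit 622) (.f (nat_lit 621) (nat_lit 656) (nat_lit 621) (.f (nat_lit 588) (nat_lit 589) (nat_lit 3660) (.f (nat_lit 620) (nat_lit 587) (nat_lit 3659) (.d (nat_lit 652) (nat_lit 651) (nat_lit 1643) (nat_lit 653) (nat_lit 1644)))))) (.a (.f (nat_lit 653) (nat_lit 654) (nat_lit 1645) (.f (nat_lit 621) (nat_lit 652) (nat_lit 1644) (.f (nat_lit 588) (nat_lit 589) (nat_lit 3660) (.f (nat_lit 620) (nat_lit 587) (nat_lit 3659) (.d (nat_lit 656) (nat_lit 655) (nat_lit 620) (nat_lit 657) (nat_lit 621)))))) (.f (nat_lit 658) (nat_lit 657) (nat_lit 622) (.f (nat_lit 626) (nat_lit 659) (nat_lit 623) (.f (nat_lit 595) (nat_lit 594) (nat_lit 2639) (.f (nat_lit 627) (nat_lit 596) (nat_lit 2640) (.d (nat_lit 655) (nat_lit 654) (nat_lit 1646) (nat_lit 656) (nat_lit 1647))))))))))) (.a (.f (nat_lit 655) (nat_lit 592) (nat_lit 5647) (.f (nat_lit 626) (nat_lit 654) (nat_lit 1646) (.f (nat_lit 627) (nat_lit 656) (nat_lit 1647) (.d (nat_lit 659) (nat_lit 658) (nat_lit 623) (nat_lit 660) (nat_lit 624))))) (.a (.d (nat_lit 592) (nat_lit 655) (nat_lit 5647) (nat_lit 657) (nat_lit 4624)) (.f (nat_lit 657) (nat_lit 592) (nat_lit 4624) (.f (nat_lit 622) (nat_lit 658) (nat_lit 622) (.f (nat_lit 621) (nat_lit 656) (nat_lit 621) (.d (nat_lit 653) (nat_lit 652) (nat_lit 1644) (nat_lit 654) (nat_lit 1645))))))))) (.a (.p (nat_lit 622) (.a (.p (nat_lit 623) (.a (.f (nat_lit 590) (nat_lit 589) (nat_lit 3661) (.f (nat_lit 654) (nat_lit 653) (nat_lit 1645) (.d (nat_lit 655) (nat_lit 526) (nat_lit 4622) (nat_lit 626) (nat_lit 1646)))) (.a (.f (nat_lit 657) (nat_lit 658) (nat_lit 622) (.f (nat_lit 621) (nat_lit 656) (nat_lit 621) (.d (nat_lit 653) (nat_lit 652) (nat_lit 1644) (nat_lit 654) (nat_lit 1645)))) (.a (.f (nat_lit 590) (nat_lit 589) (nat_lit 3661) (.f (nat_lit 526) (nat_lit 655) (nat_lit 4622) (.f (nat_lit 621) (nat_lit 653) (nat_lit 5645) (.d (nat_lit 657) (nat_lit 656) (nat_lit 621) (nat_lit 658) (nat_lit 622))))) (.f (nat_lit 590) (nat_lit 589) (nat_lit 3661) (.f (nat_lit 655) (nat_lit 526) (nat_lit 4622) (.d (nat_lit 654) (nat_lit 626) (nat_lit 1646) (nat_lit 687) (nat_lit 4654)))))))) (.a (.p (nat_lit 561) (.a (.d (nat_lit 593) (nat_lit 594) (nat_lit 558) (nat_lit 657) (nat_lit 7696)) (.f (nat_lit 590) (nat_lit 589) (nat_lit 1581) (.f (nat_lit 526) (nat_lit 525) (nat_lit 3597) (.f (nat_lit 653) (nat_lit 621) (nat_lit 5645) (.f (nat_lit 654) (nat_lit 685) (nat_lit 5677) (.d (nat_lit 655) (nat_lit 656) (nat_lit 2669) (nat_lit 687) (nat_lit 4654)))))))) (.a (.p (nat_lit 623) (.a (.f (nat_lit 657) (nat_lit 658) (nat_lit 622) (.f (nat_lit 621) (nat_lit 656) (nat_lit 621) (.d (nat_lit 653) (nat_lit 652) (nat_lit 1644) (nat_lit 654) (nat_lit 1645)))) (.a (.f (nat_lit 654) (nat_lit 653) (nat_lit 1645) (.f (nat_lit 626) (nat_lit 655) (nat_lit 1646) (.d (nat_lit 594) (nat_lit 593) (nat_lit 2638) (nat_lit 595) (nat_lit 2639)))) (.f (nat_lit 657) (nat_lit 658) (nat_lit 622) (.f (nat_lit 621) (nat_lit 656) (nat_lit 621) (.d (nat_lit 589) (nat_lit 588) (nat_lit 3660) (nat_lit 590) (nat_lit 3661))))))) (.a (.p (nat_lit 623) (.a (.f (nat_lit 657) (nat_lit 658) (nat_lit 622) (.f (nat_lit 621) (nat_lit 656) (nat_lit 621) (.d (nat_lit 653) (nat_lit 652) (nat_lit 1644) (nat_lit 654) (nat_lit 1645)))) (.a (.f (nat_lit 654) (nat_lit 653) (nat_lit 1645) (.f (nat_lit 626) (nat_lit 655) (nat_lit 1646) (.d (nat_lit 594) (nat_lit 593) (nat_lit 2638) (nat_lit 595) (nat_lit 2639)))) (.a (.f (nat_lit 657) (nat_lit 658) (nat_lit 622) (.f (nat_lit 621) (nat_lit 656) (nat_lit 621) (.f (nat_lit 588) (nat_lit 589) (nat_lit 3660) (.f (nat_lit 620) (nat_lit 587) (nat_lit 3659) (.d (nat_lit 652) (nat_lit 651) (nat_lit 1643) (nat_lit 653) (nat_lit 1644)))))) (.f (nat_lit 657) (nat_lit 658) (nat_lit 622) (.f (nat_lit 656) (nat_lit 621) (nat_lit 621) (.f (nat_lit 594) (nat_lit 593) (nat_lit 2638) (.f (nat_lit 626) (nat_lit 595) (nat_lit 2639) (.d (nat_lit 655) (nat_lit 627) (nat_lit 1647) (nat_lit 654) (nat_lit 2670)))))))))) (.a (.p (nat_lit 561) (.a (.f (nat_lit 590) (nat_lit 589) (nat_lit 1581) (.f (nat_lit 526) (nat_lit 525) (nat_lit 3597) (.f (nat_lit 653) (nat_lit 621) (nat_lit 5645) (.f (nat_lit 654) (nat_lit 685) (nat_lit 5677) (.d (nat_lit 655) (nat_lit 656) (nat_lit 2669) (nat_lit 687) (nat_lit 4654)))))) (.f (nat_lit 594) (nat_lit 593) (nat_lit 558) (.f (nat_lit 595) (nat_lit 562) (nat_lit 559) (.f (nat_lit 626) (nat_lit 623) (nat_lit 2639) (.d (nat_lit 596) (nat_lit 597) (nat_lit 1617) (nat_lit 627) (nat_lit 2640))))))) (.a (.p (nat_lit 561) (.a (.d (nat_lit 593) (nat_lit 594) (nat_lit 558) (nat_lit 657) (nat_lit 7696)) (.f (nat_lit 590) (nat_lit 589) (nat_lit 1581) (.f (nat_lit 526) (nat_lit 525) (nat_lit 3597) (.f (nat_lit 623) (nat_lit 655) (nat_lit 4622) (.d (nat_lit 653) (nat_lit 621) (nat_lit 5645) (nat_lit 654) (nat_lit 1645))))))) (.a (.p (nat_lit 561) (.a (.d (nat_lit 593) (nat_lit 594) (nat_lit 558) (nat_lit 657) (nat_lit 7696)) (.f (nat_lit 590) (nat_lit 589) (nat_lit 1581) (.f (nat_lit 526) (nat_lit 525) (nat_lit 3597) (.f (nat_lit 653) (nat_lit 621) (nat_lit 5645) (.d (nat_lit 654) (nat_lit 623) (nat_lit 1645) (nat_lit 685) (nat_lit 5677))))))) (.a (.p (nat_lit 623) (.a (.f (nat_lit 657) (nat_lit 658) (nat_lit 622) (.f (nat_lit 621) (nat_lit 656) (nat_lit 621) (.d (nat_lit 653) (nat_lit 652) (nat_lit 1644) (nat_lit 654) (nat_lit 1645)))) (.a (.f (nat_lit 654) (nat_lit 653) (nat_lit 1645) (.f (nat_lit 626) (nat_lit 655) (nat_lit 1646) (.d (nat_lit 594) (nat_lit 593) (nat_lit 2638) (nat_lit 595) (nat_lit 2639)))) (.f (nat_lit 657) (nat_lit 658) (nat_lit 622) (.f (nat_lit 594) (nat_lit 593) (nat_lit 2638) (.f (nat_lit 626) (nat_lit 595) (nat_lit 2639) (.f (nat_lit 656) (nat_lit 621) (nat_lit 621) (.d (nat_lit 627) (nat_lit 628) (nat_lit 1648) (nat_lit 655) (nat_lit 1647))))))))) (.a (.p (nat_lit 561) (.a (.d (nat_lit 593) (nat_lit 594) (nat_lit 558) (nat_lit 657) (nat_lit 7696)) (.f (nat_lit 590) (nat_lit 589) (nat_lit 1581) (.f (nat_lit 526) (nat_lit 525) (nat_lit 3597) (.f (nat_lit 655) (nat_lit 623) (nat_lit 4622) (.f (nat_lit 654) (nat_lit 687) (nat_lit 4654) (.d (nat_lit 653) (nat_lit 656) (nat_lit 2669) (nat_lit 685) (nat_lit 5677)))))))) (.a (.p (nat_lit 561) (.a (.d (nat_lit 593) (nat_lit 594) (nat_lit 558) (nat_lit 657) (nat_lit 7696)) (.a (.f (nat_lit 590) (nat_lit 589) (nat_lit 1581) (.f (nat_lit 526) (nat_lit 525) (nat_lit 3597) (.f (nat_lit 623) (nat_lit 655) (nat_lit 4622) (.f (nat_lit 621) (nat_lit 653) (nat_lit 5645) (.d (nat_lit 657) (nat_lit 656) (nat_lit 621) (nat_lit 658) (nat_lit 622)))))) (.f (nat_lit 594) (nat_lit 593) (nat_lit 558) (.f (nat_lit 595) (nat_lit 562) (nat_lit 559) (.f (nat_lit 626) (nat_lit 623) (nat_lit 2639) (.d (nat_lit 596) (nat_lit 597) (nat_lit 1617) (nat_lit 627) (nat_lit 2640)))))))) (.p (nat_lit 623) (.a (.f (nat_lit 590) (nat_lit 589) (nat_lit 3661) (.f (nat_lit 655) (nat_lit 526) (nat_lit 4622) (.d (nat_lit 654) (nat_lit 626) (nat_lit 1646) (nat_lit 687) (nat_lit 4654)))) (.a (.f (nat_lit 657) (nat_lit 658) (nat_lit 622) (.f (nat_lit 621) (nat_lit 656) (nat_lit 621) (.d (nat_lit 589) (nat_lit 588) (nat_lit 3660) (nat_lit 590) (nat_lit 3661)))) (.f (nat_lit 657) (nat_lit 658) (nat_lit 622) (.f (nat_lit 656) (nat_lit 621) (nat_lit 621) (.f (nat_lit 594) (nat_lit 593) (nat_lit 2638) (.f (nat_lit 626) (nat_lit 595) (nat_lit 2639) (.d (nat_lit 655) (nat_lit 627) (nat_lit 1647) (nat_lit 654) (nat_lit 2670)))))))))))))))))))) (.a (.f (nat_lit 592) (nat_lit 657) (nat_lit 4624) (.f (nat_lit 593) (nat_lit 496) (nat_lit 4592) (.d (nat_lit 594) (nat_lit 561) (nat_lit 558) (nat_lit 595) (nat_lit 3631)))) (.a (.p (nat_lit 593) (.a (.f (nat_lit 594) (nat_lit 561) (nat_lit 558) (.d (nat_lit 595) (nat_lit 592) (nat_lit 3631) (nat_lit 596) (nat_lit 1616))) (.a (.f (nat_lit 594) (nat_lit 561) (nat_lit 558) (.f (nat_lit 595) (nat_lit 596) (nat_lit 1616) (.d (nat_lit 623) (nat_lit 622) (nat_lit 2638) (nat_lit 626) (nat_lit 2639)))) (.a (.f (nat_lit 592) (nat_lit 496) (nat_lit 4592) (.f (nat_lit 623) (nat_lit 655) (nat_lit 5647) (.d (nat_lit 594) (nat_lit 595) (nat_lit 3631) (nat_lit 622) (nat_lit 2638)))) (.f (nat_lit 592) (nat_lit 496) (nat_lit 4592) (.f (nat_lit 655) (nat_lit 623) (nat_lit 5647) (.f (nat_lit 656) (nat_lit 687) (nat_lit 5679) (.d (nat_lit 688) (nat_lit 561) (nat_lit 6704) (nat_lit 720) (nat_lit 6736))))))))) (.f (nat_lit 592) (nat_lit 657) (nat_lit 4624) (.f (nat_lit 655) (nat_lit 623) (nat_lit 5647) (.f (nat_lit 656) (nat_lit 687) (nat_lit 5679) (.f (nat_lit 593) (nat_lit 496) (nat_lit 4592) (.d (nat_lit 688) (nat_lit 561) (nat_lit 6704) (nat_lit 720) (nat_lit 6736))))))))))) (.a (.p (nat_lit 561) (.a (.f (nat_lit 593) (nat_lit 594) (nat_lit 558) (.f (nat_lit 625) (nat_lit 657) (nat_lit 7696) (.d (nat_lit 496) (nat_lit 464) (nat_lit 4560) (nat_lit 592) (nat_lit 4592)))) (.a (.f (nat_lit 526) (nat_lit 525) (nat_lit 3597) (.f (nat_lit 562) (nat_lit 527) (nat_lit 3598) (.d (nat_lit 594) (nat_lit 593) (nat_lit 558) (nat_lit 595) (nat_lit 559)))) (.a (.f (nat_lit 526) (nat_lit 525) (nat_lit 3597) (.f (nat_lit 562) (nat_lit 527) (nat_lit 3598) (.f (nat_lit 531) (nat_lit 530) (nat_lit 2575) (.f (nat_lit 563) (nat_lit 532) (nat_lit 2576) (.d (nat_lit 595) (nat_lit 594) (nat_lit 559) (nat_lit 596) (nat_lit 560)))))) (.f (nat_lit 526) (nat_lit 525) (nat_lit 3597) (.f (nat_lit 527) (nat_lit 562) (nat_lit 3598) (.f (nat_lit 592) (nat_lit 656) (nat_lit 7695) (.f (nat_lit 625) (nat_lit 657) (nat_lit 4624) (.f (nat_lit 496) (nat_lit 593) (nat_lit 4592) (.f (nat_lit 464) (nat_lit 432) (nat_lit 5551) (.d (nat_lit 465) (nat_lit 433) (nat_lit 6576) (nat_lit 497) (nat_lit 6608)))))))))))) (.a (.p (nat_lit 590) (.a (.f (nat_lit 561) (nat_lit 589) (nat_lit 1581) (.f (nat_lit 526) (nat_lit 525) (nat_lit 3597) (.f (nat_lit 562) (nat_lit 527) (nat_lit 3598) (.d (nat_lit 594) (nat_lit 593) (nat_lit 558) (nat_lit 595) (nat_lit 559))))) (.a (.f (nat_lit 561) (nat_lit 589) (nat_lit 1581) (.f (nat_lit 526) (nat_lit 525) (nat_lit 3597) (.f (nat_lit 562) (nat_lit 527) (nat_lit 3598) (.f (nat_lit 531) (nat_lit 530) (nat_lit 2575) (.f (nat_lit 563) (nat_lit 532) (nat_lit 2576) (.d (nat_lit 595) (nat_lit 594) (nat_lit 559) (nat_lit 596) (nat_lit 560))))))) (.a (.p (nat_lit 622) (.a (.f (nat_lit 654) (nat_lit 527) (nat_lit 6670) (.f (nat_lit 685) (nat_lit 653) (nat_lit 5677) (.f (nat_lit 686) (nat_lit 717) (nat_lit 5709) (.d (nat_lit 687) (nat_lit 655) (nat_lit 4654) (nat_lit 719) (nat_lit 4686))))) (.a s115364 (.a (.f (nat_lit 654) (nat_lit 527) (nat_lit 6670) (.f (nat_lit 653) (nat_lit 685) (nat_lit 5677) (.f (nat_lit 621) (nat_lit 526) (nat_lit 5645) (.f (nat_lit 652) (nat_lit 623) (nat_lit 1644) (.f (nat_lit 651) (nat_lit 650) (nat_lit 2666) (.f (nat_lit 686) (nat_lit 687) (nat_lit 651) (.d (nat_lit 718) (nat_lit 589) (nat_lit 7757) (nat_lit 750) (nat_lit 7789)))))))) (.a (.p (nat_lit 592) (.a (.f (nat_lit 623) (nat_lit 655) (nat_lit 5647) (.f (nat_lit 621) (nat_lit 593) (nat_lit 2637) (.d (nat_lit 653) (nat_lit 526) (nat_lit 5645) (nat_lit 652) (nat_lit 1644)))) (.a (.f (nat_lit 623) (nat_lit 655) (nat_lit 5647) (.f (nat_lit 656) (nat_lit 527) (nat_lit 7695) (.d (nat_lit 657) (nat_lit 621) (nat_lit 621) (nat_lit 689) (nat_lit 4656)))) (.a (.f (nat_lit 656) (nat_lit 527) (nat_lit 7695) (.f (nat_lit 687) (nat_lit 655) (nat_lit 5679) (.f (nat_lit 688) (nat_lit 719) (nat_lit 5711) (.d (nat_lit 689) (nat_lit 657) (nat_lit 4656) (nat_lit 721) (nat_lit 4688))))) (.f (nat_lit 656) (nat_lit 527) (nat_lit 7695) (.f (nat_lit 657) (nat_lit 689) (nat_lit 4656) (.f (nat_lit 621) (nat_lit 623) (nat_lit 621) (.f (nat_lit 526) (nat_lit 653) (nat_lit 5645) (.f (nat_lit 494) (nat_lit 589) (nat_lit 5613) (.d (nat_lit 493) (nat_lit 461) (nat_lit 7629) (nat_lit 525) (nat_lit 7661))))))))))) (.a (.f (nat_lit 654) (nat_lit 527) (nat_lit 6670) (.f (nat_lit 655) (nat_lit 687) (nat_lit 4654) (.d (nat_lit 623) (nat_lit 526) (nat_lit 4622) (nat_lit 592) (nat_lit 5647)))) (.f (nat_lit 527) (nat_lit 654) (nat_lit 6670) (.f (nat_lit 592) (nat_lit 656) (nat_lit 7695) (.f (nat_lit 623) (nat_lit 655) (nat_lit 5647) (.f (nat_lit 621) (nat_lit 593) (nat_lit 2637) (.d (nat_lit 653) (nat_lit 526) (nat_lit 5645) (nat_lit 652) (nat_lit 1644)))))))))))) (.a (.p (nat_lit 622) (.a (.f (nat_lit 561) (nat_lit 589) (nat_lit 1581) (.f (nat_lit 526) (nat_lit 525) (nat_lit 3597) (.f (nat_lit 653) (nat_lit 621) (nat_lit 5645) (.f (nat_lit 654) (nat_lit 685) (nat_lit 5677) (.d (nat_lit 655) (nat_lit 623) (nat_lit 4622) (nat_lit 687) (nat_lit 4654)))))) (.a s115364 (.a (.p (nat_lit 526) (.a (.d (nat_lit 525) (nat_lit 493) (nat_lit 7661) (nat_lit 561) (nat_lit 3597)) (.a (.f (nat_lit 621) (nat_lit 653) (nat_lit 5645) (.f (nat_lit 494) (nat_lit 589) (nat_lit 5613) (.d (nat_lit 493) (nat_lit 461) (nat_lit 7629) (nat_lit 525) (nat_lit 7661)))) (.f (nat_lit 589) (nat_lit 561) (nat_lit 1581) (.d (nat_lit 621) (nat_lit 494) (nat_lit 5613) (nat_lit 653) (nat_lit 5645)))))) (.a (.f (nat_lit 589) (nat_lit 561) (nat_lit 1581) (.f (nat_lit 588) (nat_lit 587) (nat_lit 2603) (.f (nat_lit 623) (nat_lit 621) (nat_lit 3660) (.f (nat_lit 655) (nat_lit 592) (nat_lit 5647) (.d (nat_lit 687) (nat_lit 654) (nat_lit 4654) (nat_lit 719) (nat_lit 7758)))))) (.a (.p (nat_lit 526) (.a (.d (nat_lit 525) (nat_lit 493) (nat_lit 7661) (nat_lit 561) (nat_lit 3597)) (.f (nat_lit 655) (nat_lit 623) (nat_lit 4622) (.f (nat_lit 654) (nat_lit 687) (nat_lit 4654) (.d (nat_lit 653) (nat_lit 621) (nat_lit 5645) (nat_lit 685) (nat_lit 5677)))))) (.f (nat_lit 561) (nat_lit 589) (nat_lit 1581) (.f (nat_lit 526) (nat_lit 525) (nat_lit 3597) (.f (nat_lit 655) (nat_lit 623) (nat_lit 4622) (.f (nat_lit 687) (nat_lit 654) (nat_lit 4654) (.f (nat_lit 656) (nat_lit 592) (nat_lit 5679) (.f (nat_lit 594) (nat_lit 593) (nat_lit 558) (.f (nat_lit 562) (nat_lit 595) (nat_lit 559) (.f (nat_lit 531) (nat_lit 530) (nat_lit 2575) (.f (nat_lit 563) (nat_lit 532) (nat_lit 2576) (.f (nat_lit 658) (nat_lit 626) (nat_lit 6674) (.f (nat_lit 657) (nat_lit 686) (nat_lit 1678) (.f (nat_lit 659) (nat_lit 688) (nat_lit 1679) (.d (nat_lit 691) (nat_lit 690) (nat_lit 655) (nat_lit 692) (nat_lit 656)))))))))))))))))))) (.a (.f (nat_lit 561) (nat_lit 589) (nat_lit 1581) (.f (nat_lit 594) (nat_lit 593) (nat_lit 558) (.f (nat_lit 562) (nat_lit 595) (nat_lit 559) (.f (nat_lit 531) (nat_lit 530) (nat_lit 2575) (.d (nat_lit 563) (nat_lit 527) (nat_lit 3599) (nat_lit 532) (nat_lit 2576)))))) (.p (nat_lit 622) (.a (.f (nat_lit 654) (nat_lit 527) (nat_lit 6670) (.f (nat_lit 685) (nat_lit 653) (nat_lit 5677) (.f (nat_lit 686) (nat_lit 717) (nat_lit 5709) (.d (nat_lit 687) (nat_lit 655) (nat_lit 4654) (nat_lit 719) (nat_lit 4686))))) (.a (.p (nat_lit 526) (.a (.d (nat_lit 525) (nat_lit 493) (nat_lit 7661) (nat_lit 561) (nat_lit 3597)) (.f (nat_lit 655) (nat_lit 623) (nat_lit 4622) (.f (nat_lit 654) (nat_lit 687) (nat_lit 4654) (.d (nat_lit 653) (nat_lit 621) (nat_lit 5645) (nat_lit 685) (nat_lit 5677)))))) (.a (.f (nat_lit 654) (nat_lit 527) (nat_lit 6670) (.f (nat_lit 653) (nat_lit 685) (nat_lit 5677) (.f (nat_lit 526) (nat_lit 621) (nat_lit 5645) (.d (nat_lit 525) (nat_lit 493) (nat_lit 7661) (nat_lit 561) (nat_lit 3597))))) (.a (.p (nat_lit 561) (.a (.f (nat_lit 526) (nat_lit 525) (nat_lit 3597) (.f (nat_lit 562) (nat_lit 527) (nat_lit 3598) (.d (nat_lit 594) (nat_lit 593) (nat_lit 558) (nat_lit 595) (nat_lit 559)))) (.a (.f (nat_lit 526) (nat_lit 525) (nat_lit 3597) (.f (nat_lit 562) (nat_lit 527) (nat_lit 3598) (.f (nat_lit 531) (nat_lit 530) (nat_lit 2575) (.f (nat_lit 563) (nat_lit 532) (nat_lit 2576) (.d (nat_lit 595) (nat_lit 594) (nat_lit 559) (nat_lit 596) (nat_lit 560)))))) (.a (.f (nat_lit 526) (nat_lit 525) (nat_lit 3597) (.f (nat_lit 593) (nat_lit 594) (nat_lit 558) (.f (nat_lit 623) (nat_lit 655) (nat_lit 4622) (.d (nat_lit 621) (nat_lit 592) (nat_lit 2637) (nat_lit 653) (nat_lit 5645))))) (.a (.f (nat_lit 594) (nat_lit 593) (nat_lit 558) (.f (nat_lit 562) (nat_lit 595) (nat_lit 559) (.f (nat_lit 531) (nat_lit 530) (nat_lit 2575) (.d (nat_lit 563) (nat_lit 527) (nat_lit 3599) (nat_lit 532) (nat_lit 2576))))) (.f (nat_lit 526) (nat_lit 525) (nat_lit 3597) (.f (nat_lit 527) (nat_lit 562) (nat_lit 3598) (.f (nat_lit 592) (nat_lit 656) (nat_lit 7695) (.f (nat_lit 623) (nat_lit 655) (nat_lit 4622) (.d (nat_lit 621) (nat_lit 593) (nat_lit 2637) (nat_lit 653) (nat_lit 5645))))))))))) (.f (nat_lit 654) (nat_lit 527) (nat_lit 6670) (.f (nat_lit 655) (nat_lit 687) (nat_lit 4654) (.d (nat_lit 623) (nat_lit 526) (nat_lit 4622) (nat_lit 592) (nat_lit 5647))))))))))))))) (.a (.p (nat_lit 561) (.a (.f (nat_lit 526) (nat_lit 525) (nat_lit 3597) (.f (nat_lit 562) (nat_lit 527) (nat_lit 3598) (.d (nat_lit 594) (nat_lit 593) (nat_lit 558) (nat_lit 595) (nat_lit 559)))) (.a (.f (nat_lit 526) (nat_lit 525) (nat_lit 3597) (.f (nat_lit 562) (nat_lit 527) (nat_lit 3598) (.f (nat_lit 531) (nat_lit 530) (nat_lit 2575) (.f (nat_lit 563) (nat_lit 532) (nat_lit 2576) (.d (nat_lit 595) (nat_lit 594) (nat_lit 559) (nat_lit 596) (nat_lit 560)))))) (.a (.f (nat_lit 593) (nat_lit 594) (nat_lit 558) (.f (nat_lit 496) (nat_lit 464) (nat_lit 4560) (.f (nat_lit 592) (nat_lit 625) (nat_lit 4592) (.f (nat_lit 656) (nat_lit 688) (nat_lit 6704) (.d (nat_lit 655) (nat_lit 623) (nat_lit 5647) (nat_lit 687) (nat_lit 5679)))))) (.f (nat_lit 526) (nat_lit 525) (nat_lit 3597) (.f (nat_lit 527) (nat_lit 562) (nat_lit 3598) (.f (nat_lit 592) (nat_lit 656) (nat_lit 7695) (.f (nat_lit 590) (nat_lit 589) (nat_lit 1581) (.f (nat_lit 622) (nat_lit 654) (nat_lit 6670) (.f (nat_lit 623) (nat_lit 655) (nat_lit 5647) (.d (nat_lit 621) (nat_lit 593) (nat_lit 2637) (nat_lit 653) (nat_lit 5645)))))))))))) (.a (.p (nat_lit 622) (.a (.p (nat_lit 561) (.a (.f (nat_lit 526) (nat_lit 525) (nat_lit 3597) (.f (nat_lit 590) (nat_lit 589) (nat_lit 1581) (.d (nat_lit 527) (nat_lit 562) (nat_lit 3598) (nat_lit 654) (nat_lit 6670)))) (.a (.f (nat_lit 593) (nat_lit 594) (nat_lit 558) (.f (nat_lit 590) (nat_lit 589) (nat_lit 1581) (.f (nat_lit 526) (nat_lit 525) (nat_lit 3597) (.f (nat_lit 625) (nat_lit 657) (nat_lit 7696) (.f (nat_lit 653) (nat_lit 621) (nat_lit 5645) (.d (nat_lit 623) (nat_lit 654) (nat_lit 1645) (nat_lit 655) (nat_lit 4622))))))) (.a (.f (nat_lit 593) (nat_lit 594) (nat_lit 558) (.f (nat_lit 590) (nat_lit 589) (nat_lit 1581) (.f (nat_lit 654) (nat_lit 527) (nat_lit 6670) (.f (nat_lit 625) (nat_lit 657) (nat_lit 7696) (.d (nat_lit 653) (nat_lit 623) (nat_lit 1645) (nat_lit 685) (nat_lit 5677)))))) (.f (nat_lit 526) (nat_lit 525) (nat_lit 3597) (.f (nat_lit 562) (nat_lit 527) (nat_lit 3598) (.d (nat_lit 594) (nat_lit 593) (nat_lit 558) (nat_lit 595) (nat_lit 559)))))))) (.a (.p (nat_lit 590) (.a (.f (nat_lit 589) (nat_lit 561) (nat_lit 1581) (.f (nat_lit 623) (nat_lit 625) (nat_lit 3661) (.d (nat_lit 588) (nat_lit 587) (nat_lit 2603) (nat_lit 621) (nat_lit 3660)))) (.a (.f (nat_lit 654) (nat_lit 527) (nat_lit 6670) (.f (nat_lit 653) (nat_lit 685) (nat_lit 5677) (.f (nat_lit 623) (nat_lit 625) (nat_lit 1645) (.d (nat_lit 652) (nat_lit 621) (nat_lit 1644) (nat_lit 651) (nat_lit 2667))))) (.f (nat_lit 654) (nat_lit 527) (nat_lit 6670) (.f (nat_lit 685) (nat_lit 653) (nat_lit 5677) (.f (nat_lit 686) (nat_lit 717) (nat_lit 5709) (.d (nat_lit 687) (nat_lit 655) (nat_lit 4654) (nat_lit 719) (nat_lit 4686)))))))) (.a (.p (nat_lit 592) (.a (.f (nat_lit 623) (nat_lit 655) (nat_lit 5647) (.f (nat_lit 625) (nat_lit 657) (nat_lit 4624) (.f (nat_lit 653) (nat_lit 654) (nat_lit 1645) (.f (nat_lit 621) (nat_lit 652) (nat_lit 1644) (.d (nat_lit 589) (nat_lit 588) (nat_lit 3660) (nat_lit 590) (nat_lit 3661)))))) (.a (.f (nat_lit 625) (nat_lit 657) (nat_lit 4624) (.f (nat_lit 496) (nat_lit 593) (nat_lit 4592) (.f (nat_lit 465) (nat_lit 497) (nat_lit 6608) (.f (nat_lit 464) (nat_lit 433) (nat_lit 6576) (.f (nat_lit 432) (nat_lit 527) (nat_lit 5551) (.d (nat_lit 431) (nat_lit 399) (nat_lit 7567) (nat_lit 463) (nat_lit 7599))))))) (.f (nat_lit 623) (nat_lit 655) (nat_lit 5647) (.f (nat_lit 621) (nat_lit 593) (nat_lit 2637) (.f (nat_lit 653) (nat_lit 652) (nat_lit 1644) (.f (nat_lit 590) (nat_lit 526) (nat_lit 5645) (.d (nat_lit 685) (nat_lit 589) (nat_lit 6701) (nat_lit 654) (nat_lit 5677))))))))) (.a (.p (nat_lit 561) (.a (.f (nat_lit 593) (nat_lit 594) (nat_lit 558) (.f (nat_lit 590) (nat_lit 589) (nat_lit 1581) (.f (nat_lit 526) (nat_lit 525) (nat_lit 3597) (.f (nat_lit 625) (nat_lit 657) (nat_lit 7696) (.f (nat_lit 653) (nat_lit 621) (nat_lit 5645) (.d (nat_lit 623) (nat_lit 654) (nat_lit 1645) (nat_lit 655) (nat_lit 4622))))))) (.a (.f (nat_lit 590) (nat_lit 589) (nat_lit 1581) (.f (nat_lit 526) (nat_lit 525) (nat_lit 3597) (.f (nat_lit 653) (nat_lit 621) (nat_lit 5645) (.f (nat_lit 654) (nat_lit 685) (nat_lit 5677) (.d (nat_lit 655) (nat_lit 623) (nat_lit 4622) (nat_lit 687) (nat_lit 4654)))))) (.f (nat_lit 593) (nat_lit 594) (nat_lit 558) (.f (nat_lit 625) (nat_lit 657) (nat_lit 7696) (.d (nat_lit 496) (nat_lit 464) (nat_lit 4560) (nat_lit 592) (nat_lit 4592))))))) (.a (.p (nat_lit 590) (.a (.f (nat_lit 654) (nat_lit 527) (nat_lit 6670) (.f (nat_lit 685) (nat_lit 653) (nat_lit 5677) (.f (nat_lit 686) (nat_lit 717) (nat_lit 5709) (.d (nat_lit 687) (nat_lit 655) (nat_lit 4654) (nat_lit 719) (nat_lit 4686))))) (.a (.p (nat_lit 526) (.a (.d (nat_lit 525) (nat_lit 493) (nat_lit 7661) (nat_lit 561) (nat_lit 3597)) (.a (.f (nat_lit 621) (nat_lit 653) (nat_lit 5645) (.f (nat_lit 494) (nat_lit 589) (nat_lit 5613) (.d (nat_lit 493) (nat_lit 461) (nat_lit 7629) (nat_lit 525) (nat_lit 7661)))) (.f (nat_lit 589) (nat_lit 561) (nat_lit 1581) (.d (nat_lit 621) (nat_lit 494) (nat_lit 5613) (nat_lit 653) (nat_lit 5645)))))) (.f (nat_lit 561) (nat_lit 589) (nat_lit 1581) (.f (nat_lit 527) (nat_lit 654) (nat_lit 6670) (.d (nat_lit 562) (nat_lit 526) (nat_lit 3598) (nat_lit 563) (nat_lit 3599))))))) (.a (.p (nat_lit 625) (.a (.f (nat_lit 592) (nat_lit 657) (nat_lit 4624) (.f (nat_lit 593) (nat_lit 496) (nat_lit 4592) (.d (nat_lit 594) (nat_lit 561) (nat_lit 558) (nat_lit 595) (nat_lit 3631)))) (.a (.p (nat_lit 561) (.a (.d (nat_lit 593) (nat_lit 594) (nat_lit 558) (nat_lit 657) (nat_lit 7696)) (.a (.f (nat_lit 526) (nat_lit 525) (nat_lit 3597) (.f (nat_lit 562) (nat_lit 527) (nat_lit 3598) (.f (nat_lit 595) (nat_lit 594) (nat_lit 559) (.f (nat_lit 563) (nat_lit 596) (nat_lit 560) (.d (nat_lit 531) (nat_lit 530) (nat_lit 2575) (nat_lit 532) (nat_lit 2576)))))) (.f (nat_lit 526) (nat_lit 525) (nat_lit 3597) (.f (nat_lit 562) (nat_lit 527) (nat_lit 3598) (.f (nat_lit 657) (nat_lit 593) (nat_lit 7696) (.f (nat_lit 658) (nat_lit 623) (nat_lit 622) (.f (nat_lit 531) (nat_lit 530) (nat_lit 2575) (.f (nat_lit 563) (nat_lit 532) (nat_lit 2576) (.f (nat_lit 595) (nat_lit 596) (nat_lit 560) (.f (nat_lit 627) (nat_lit 626) (nat_lit 5650) (.d (nat_lit 660) (nat_lit 628) (nat_lit 4627) (nat_lit 659) (nat_lit 3696))))))))))))) (.a (.p (nat_lit 623) (.a (.f (nat_lit 654) (nat_lit 653) (nat_lit 1645) (.f (nat_lit 626) (nat_lit 655) (nat_lit 1646) (.f (nat_lit 595) (nat_lit 594) (nat_lit 2639) (.f (nat_lit 627) (nat_lit 596) (nat_lit 2640) (.d (nat_lit 659) (nat_lit 658) (nat_lit 623) (nat_lit 660) (nat_lit 624)))))) (.a (.d (nat_lit 657) (nat_lit 592) (nat_lit 4624) (nat_lit 658) (nat_lit 622)) (.d (nat_lit 592) (nat_lit 655) (nat_lit 5647) (nat_lit 657) (nat_lit 4624))))) (.a (.p (nat_lit 623) (.a (.f (nat_lit 654) (nat_lit 653) (nat_lit 1645) (.f (nat_lit 626) (nat_lit 655) (nat_lit 1646) (.d (nat_lit 594) (nat_lit 593) (nat_lit 2638) (nat_lit 595) (nat_lit 2639)))) (.a (.f (nat_lit 654) (nat_lit 653) (nat_lit 1645) (.f (nat_lit 626) (nat_lit 655) (nat_lit 1646) (.f (nat_lit 595) (nat_lit 594) (nat_lit 2639) (.f (nat_lit 627) (nat_lit 596) (nat_lit 2640) (.d (nat_lit 659) (nat_lit 658) (nat_lit 623) (nat_lit 660) (nat_lit 624)))))) (.a (.f (nat_lit 593) (nat_lit 594) (nat_lit 2638) (.d (nat_lit 592) (nat_lit 496) (nat_lit 4592) (nat_lit 621) (nat_lit 2637))) (.f (nat_lit 592) (nat_lit 655) (nat_lit 5647) (.d (nat_lit 593) (nat_lit 496) (nat_lit 4592) (nat_lit 621) (nat_lit 2637))))))) (.f (nat_lit 592) (nat_lit 657) (nat_lit 4624) (.f (nat_lit 623) (nat_lit 655) (nat_lit 5647) (.d (nat_lit 593) (nat_lit 496) (nat_lit 4592) (nat_lit 621) (nat_lit 2637))))))))) (.a (.p (nat_lit 561) (.a (.f (nat_lit 526) (nat_lit 525) (nat_lit 3597) (.f (nat_lit 590) (nat_lit 589) (nat_lit 1581) (.d (nat_lit 527) (nat_lit 562) (nat_lit 3598) (nat_lit 654) (nat_lit 6670)))) (.f (nat_lit 593) (nat_lit 594) (nat_lit 558) (.f (nat_lit 625) (nat_lit 657) (nat_lit 7696) (.d (nat_lit 496) (nat_lit 464) (nat_lit 4560) (nat_lit 592) (nat_lit 4592)))))) (.p (nat_lit 561) (.a (.f (nat_lit 526) (nat_lit 525) (nat_lit 3597) (.f (nat_lit 562) (nat_lit 527) (nat_lit 3598) (.d (nat_lit 594) (nat_lit 593) (nat_lit 558) (nat_lit 595) (nat_lit 559)))) (.a (.f (nat_lit 526) (nat_lit 525) (nat_lit 3597) (.f (nat_lit 562) (nat_lit 527) (nat_lit 3598) (.f (nat_lit 531) (nat_lit 530) (nat_lit 2575) (.f (nat_lit 563) (nat_lit 532) (nat_lit 2576) (.d (nat_lit 595) (nat_lit 594) (nat_lit 559) (nat_lit 596) (nat_lit 560)))))) (.a (.f (nat_lit 593) (nat_lit 594) (nat_lit 558) (.f (nat_lit 625) (nat_lit 657) (nat_lit 7696) (.d (nat_lit 496) (nat_lit 464) (nat_lit 4560) (nat_lit 592) (nat_lit 4592)))) (.p (nat_lit 621) (.a (.f (nat_lit 526) (nat_lit 525) (nat_lit 3597) (.d (nat_lit 590) (nat_lit 589) (nat_lit 1581) (nat_lit 653) (nat_lit 5645))) (.a (.f (nat_lit 589) (nat_lit 590) (nat_lit 1581) (.f (nat_lit 623) (nat_lit 588) (nat_lit 3660) (.d (nat_lit 592) (nat_lit 593) (nat_lit 2637) (nat_lit 655) (nat_lit 5647)))) (.a (.f (nat_lit 526) (nat_lit 525) (nat_lit 3597) (.f (nat_lit 562) (nat_lit 527) (nat_lit 3598) (.f (nat_lit 531) (nat_lit 530) (nat_lit 2575) (.f (nat_lit 563) (nat_lit 532) (nat_lit 2576) (.f (nat_lit 596) (nat_lit 595) (nat_lit 560) (.f (nat_lit 564) (nat_lit 597) (nat_lit 561) (.f (nat_lit 592) (nat_lit 593) (nat_lit 1584) (.f (nat_lit 623) (nat_lit 655) (nat_lit 5647) (.f (nat_lit 652) (nat_lit 653) (nat_lit 1644) (.f (nat_lit 620) (nat_lit 651) (nat_lit 1643) (.d (nat_lit 588) (nat_lit 587) (nat_lit 3659) (nat_lit 589) (nat_lit 3660)))))))))))) (.f (nat_lit 526) (nat_lit 525) (nat_lit 3597) (.f (nat_lit 653) (nat_lit 590) (nat_lit 5645) (.f (nat_lit 623) (nat_lit 652) (nat_lit 1644) (.d (nat_lit 592) (nat_lit 593) (nat_lit 2637) (nat_lit 655) (nat_lit 5647))))))))))))))))))))) (.p (nat_lit 592) (.a (.f (nat_lit 655) (nat_lit 623) (nat_lit 5647) (.f (nat_lit 656) (nat_lit 687) (nat_lit 5679) (.d (nat_lit 657) (nat_lit 625) (nat_lit 4624) (nat_lit 689) (nat_lit 4656)))) (.a (.f (nat_lit 656) (nat_lit 527) (nat_lit 7695) (.d (nat_lit 657) (nat_lit 625) (nat_lit 4624) (nat_lit 689) (nat_lit 4656))) (.a (.f (nat_lit 656) (nat_lit 527) (nat_lit 7695) (.d (nat_lit 655) (nat_lit 623) (nat_lit 5647) (nat_lit 687) (nat_lit 5679))) (.f (nat_lit 625) (nat_lit 657) (nat_lit 4624) (.f (nat_lit 496) (nat_lit 593) (nat_lit 4592) (.f (nat_lit 465) (nat_lit 497) (nat_lit 6608) (.f (nat_lit 464) (nat_lit 433) (nat_lit 6576) (.f (nat_lit 432) (nat_lit 527) (nat_lit 5551) (.d (nat_lit 431) (nat_lit 399) (nat_lit 7567) (nat_lit 463) (nat_lit 7599))))))))))))))))))))) (.a (.p (nat_lit 592) (.a (.f (nat_lit 557) (nat_lit 593) (nat_lit 557) (.f (nat_lit 556) (nat_lit 527) (nat_lit 2572) (.d (nat_lit 588) (nat_lit 587) (nat_lit 1579) (nat_lit 589) (nat_lit 1580)))) (.a (.p (nat_lit 624) (.a (.f (nat_lit 655) (nat_lit 623) (nat_lit 5647) (.f (nat_lit 656) (nat_lit 687) (nat_lit 5679) (.d (nat_lit 657) (nat_lit 625) (nat_lit 4624) (nat_lit 689) (nat_lit 4656)))) (.a (.f (nat_lit 656) (nat_lit 527) (nat_lit 7695) (.d (nat_lit 657) (nat_lit 625) (nat_lit 4624) (nat_lit 689) (nat_lit 4656))) (.a (.f (nat_lit 656) (nat_lit 527) (nat_lit 7695) (.d (nat_lit 655) (nat_lit 623) (nat_lit 5647) (nat_lit 687) (nat_lit 5679))) (.p (nat_lit 557) (.a (.f (nat_lit 556) (nat_lit 527) (nat_lit 2572) (.d (nat_lit 588) (nat_lit 587) (nat_lit 1579) (nat_lit 589) (nat_lit 1580))) (.a (.f (nat_lit 588) (nat_lit 589) (nat_lit 1580) (.f (nat_lit 556) (nat_lit 587) (nat_lit 1579) (.d (nat_lit 524) (nat_lit 523) (nat_lit 3595) (nat_lit 525) (nat_lit 3596)))) (.a (.f (nat_lit 556) (nat_lit 527) (nat_lit 2572) (.d (nat_lit 524) (nat_lit 523) (nat_lit 3595) (nat_lit 525) (nat_lit 3596))) (.f (nat_lit 525) (nat_lit 524) (nat_lit 3596) (.f (nat_lit 589) (nat_lit 588) (nat_lit 1580) (.f (nat_lit 625) (nat_lit 657) (nat_lit 4624) (.f (nat_lit 623) (nat_lit 655) (nat_lit 5647) (.f (nat_lit 622) (nat_lit 590) (nat_lit 3661) (.d (nat_lit 654) (nat_lit 621) (nat_lit 4621) (nat_lit 653) (nat_lit 1645))))))))))))))) (.a (.f (nat_lit 557) (nat_lit 593) (nat_lit 557) (.f (nat_lit 588) (nat_lit 589) (nat_lit 1580) (.f (nat_lit 556) (nat_lit 587) (nat_lit 1579) (.d (nat_lit 524) (nat_lit 523) (nat_lit 3595) (nat_lit 525) (nat_lit 3596))))) (.p (nat_lit 624) (.a (.f (nat_lit 655) (nat_lit 623) (nat_lit 5647) (.f (nat_lit 656) (nat_lit 687) (nat_lit 5679) (.d (nat_lit 657) (nat_lit 625) (nat_lit 4624) (nat_lit 689) (nat_lit 4656)))) (.a (.f (nat_lit 656) (nat_lit 527) (nat_lit 7695) (.d (nat_lit 657) (nat_lit 625) (nat_lit 4624) (nat_lit 689) (nat_lit 4656))) (.a (.f (nat_lit 656) (nat_lit 527) (nat_lit 7695) (.d (nat_lit 655) (nat_lit 623) (nat_lit 5647) (nat_lit 687) (nat_lit 5679))) (.f (nat_lit 625) (nat_lit 657) (nat_lit 4624) (.f (nat_lit 623) (nat_lit 655) (nat_lit 5647) (.f (nat_lit 593) (nat_lit 496) (nat_lit 4592) (.d (nat_lit 622) (nat_lit 594) (nat_lit 2638) (nat_lit 621) (nat_lit 2637))))))))))))) (.a (.p (nat_lit 557) (.a (.f (nat_lit 556) (nat_lit 527) (nat_lit 2572) (.d (nat_lit 524) (nat_lit 523) (nat_lit 3595) (nat_lit 525) (nat_lit 3596))) (.a (.f (nat_lit 593) (nat_lit 592) (nat_lit 557) (.f (nat_lit 561) (nat_lit 594) (nat_lit 558) (.d (nat_lit 525) (nat_lit 524) (nat_lit 3596) (nat_lit 526) (nat_lit 3597)))) (.f (nat_lit 593) (nat_lit 592) (nat_lit 557) (.f (nat_lit 561) (nat_lit 594) (nat_lit 558) (.f (nat_lit 527) (nat_lit 556) (nat_lit 2572) (.d (nat_lit 562) (nat_lit 526) (nat_lit 3598) (nat_lit 563) (nat_lit 3599)))))))) (.p (nat_lit 557) (.a (.f (nat_lit 556) (nat_lit 527) (nat_lit 2572) (.d (nat_lit 588) (nat_lit 587) (nat_lit 1579) (nat_lit 589) (nat_lit 1580))) (.a (.f (nat_lit 525) (nat_lit 524) (nat_lit 3596) (.f (nat_lit 589) (nat_lit 588) (nat_lit 1580) (.f (nat_lit 526) (nat_lit 561) (nat_lit 3597) (.d (nat_lit 494) (nat_lit 462) (nat_lit 5581) (nat_lit 621) (nat_lit 6637))))) (.f (nat_lit 556) (nat_lit 527) (nat_lit 2572) (.d (nat_lit 524) (nat_lit 523) (nat_lit 3595) (nat_lit 525) (nat_lit 3596)))))))))))))))) (.a (.p (nat_lit 558) (.a s115179 (.a (.p (nat_lit 557) (.a (.f (nat_lit 556) (nat_lit 527) (nat_lit 2572) (.d (nat_lit 588) (nat_lit 587) (nat_lit 1579) (nat_lit 589) (nat_lit 1580))) (.a (.f (nat_lit 525) (nat_lit 524) (nat_lit 3596) (.f (nat_lit 589) (nat_lit 588) (nat_lit 1580) (.f (nat_lit 526) (nat_lit 561) (nat_lit 3597) (.d (nat_lit 494) (nat_lit 462) (nat_lit 5581) (nat_lit 621) (nat_lit 6637))))) (.f (nat_lit 556) (nat_lit 527) (nat_lit 2572) (.d (nat_lit 524) (nat_lit 523) (nat_lit 3595) (nat_lit 525) (nat_lit 3596)))))) (.a s115488 (.a (.p (nat_lit 525) (.a (.f (nat_lit 561) (nat_lit 526) (nat_lit 3597) (.f (nat_lit 590) (nat_lit 589) (nat_lit 1581) (.f (nat_lit 562) (nat_lit 591) (nat_lit 1582) (.d (nat_lit 594) (nat_lit 593) (nat_lit 558) (nat_lit 595) (nat_lit 559))))) (.a (.f (nat_lit 557) (nat_lit 524) (nat_lit 3596) (.f (nat_lit 589) (nat_lit 588) (nat_lit 1580) (.f (nat_lit 526) (nat_lit 561) (nat_lit 3597) (.d (nat_lit 494) (nat_lit 462) (nat_lit 5581) (nat_lit 621) (nat_lit 6637))))) (.a (.f (nat_lit 557) (nat_lit 524) (nat_lit 3596) (.p (nat_lit 622) (.a (.f (nat_lit 590) (nat_lit 654) (nat_lit 7693) (.d (nat_lit 493) (nat_lit 461) (nat_lit 4557) (nat_lit 526) (nat_lit 7661))) (.a (.f (nat_lit 589) (nat_lit 588) (nat_lit 1580) (.d (nat_lit 590) (nat_lit 493) (nat_lit 4589) (nat_lit 654) (nat_lit 7693))) (.a (.f (nat_lit 589) (nat_lit 588) (nat_lit 1580) (.f (nat_lit 621) (nat_lit 654) (nat_lit 4621) (.d (nat_lit 526) (nat_lit 494) (nat_lit 6637) (nat_lit 653) (nat_lit 6669)))) (.f (nat_lit 589) (nat_lit 588) (nat_lit 1580) (.f (nat_lit 493) (nat_lit 590) (nat_lit 4589) (.f (nat_lit 494) (nat_lit 462) (nat_lit 6605) (.f (nat_lit 526) (nat_lit 621) (nat_lit 6637) (.f (nat_lit 461) (nat_lit 429) (nat_lit 4525) (.d (nat_lit 460) (nat_lit 428) (nat_lit 7596) (nat_lit 492) (nat_lit 7628)))))))))))) (.a (.f (nat_lit 557) (nat_lit 524) (nat_lit 3596) (.f (nat_lit 589) (nat_lit 588) (nat_lit 1580) (.f (nat_lit 590) (nat_lit 561) (nat_lit 1581) (.d (nat_lit 493) (nat_lit 461) (nat_lit 4557) (nat_lit 622) (nat_lit 4589))))) (.f (nat_lit 526) (nat_lit 561) (nat_lit 3597) (.d (nat_lit 524) (nat_lit 523) (nat_lit 523) (nat_lit 557) (nat_lit 3596)))))))) (.a (.p (nat_lit 561) (.a (.f (nat_lit 590) (nat_lit 589) (nat_lit 1581) (.f (nat_lit 562) (nat_lit 591) (nat_lit 1582) (.f (nat_lit 563) (nat_lit 527) (nat_lit 3599) (.d (nat_lit 531) (nat_lit 530) (nat_lit 2575) (nat_lit 532) (nat_lit 2576))))) (.a (.f (nat_lit 590) (nat_lit 589) (nat_lit 1581) (.f (nat_lit 562) (nat_lit 591) (nat_lit 1582) (.d (nat_lit 594) (nat_lit 593) (nat_lit 558) (nat_lit 595) (nat_lit 559)))) (.a (.f (nat_lit 589) (nat_lit 590) (nat_lit 1581) (.f (nat_lit 557) (nat_lit 588) (nat_lit 1580) (.f (nat_lit 556) (nat_lit 527) (nat_lit 2572) (.d (nat_lit 524) (nat_lit 523) (nat_lit 3595) (nat_lit 525) (nat_lit 3596))))) (.f (nat_lit 594) (nat_lit 593) (nat_lit 558) (.f (nat_lit 562) (nat_lit 595) (nat_lit 559) (.f (nat_lit 531) (nat_lit 530) (nat_lit 2575) (.d (nat_lit 563) (nat_lit 527) (nat_lit 3599) (nat_lit 532) (nat_lit 2576))))))))) (.a (.p (nat_lit 561) (.a (.f (nat_lit 590) (nat_lit 589) (nat_lit 1581) (.f (nat_lit 562) (nat_lit 591) (nat_lit 1582) (.f (nat_lit 563) (nat_lit 527) (nat_lit 3599) (.d (nat_lit 531) (nat_lit 530) (nat_lit 2575) (nat_lit 532) (nat_lit 2576))))) (.a (.f (nat_lit 590) (nat_lit 589) (nat_lit 1581) (.f (nat_lit 562) (nat_lit 591) (nat_lit 1582) (.d (nat_lit 594) (nat_lit 593) (nat_lit 558) (nat_lit 595) (nat_lit 559)))) (.a (.p (nat_lit 557) (.a (.d (nat_lit 589) (nat_lit 588) (nat_lit 1580) (nat_lit 590) (nat_lit 1581)) (.a (.f (nat_lit 556) (nat_lit 527) (nat_lit 2572) (.d (nat_lit 588) (nat_lit 587) (nat_lit 1579) (nat_lit 589) (nat_lit 1580))) (.a (.f (nat_lit 556) (nat_lit 527) (nat_lit 2572) (.f (nat_lit 587) (nat_lit 588) (nat_lit 1579) (.f (nat_lit 555) (nat_lit 586) (nat_lit 1578) (.d (nat_lit 523) (nat_lit 522) (nat_lit 3594) (nat_lit 524) (nat_lit 3595))))) (.f (nat_lit 556) (nat_lit 527) (nat_lit 2572) (.f (nat_lit 590) (nat_lit 589) (nat_lit 1581) (.f (nat_lit 555) (nat_lit 591) (nat_lit 555) (.d (nat_lit 523) (nat_lit 522) (nat_lit 3594) (nat_lit 524) (nat_lit 3595))))))))) (.f (nat_lit 594) (nat_lit 593) (nat_lit 558) (.f (nat_lit 562) (nat_lit 595) (nat_lit 559) (.f (nat_lit 531) (nat_lit 530) (nat_lit 2575) (.d (nat_lit 563) (nat_lit 527) (nat_lit 3599) (nat_lit 532) (nat_lit 2576))))))))) (.a (.p (nat_lit 561) (.a (.f (nat_lit 526) (nat_lit 525) (nat_lit 3597) (.f (nat_lit 562) (nat_lit 527) (nat_lit 3598) (.d (nat_lit 594) (nat_lit 593) (nat_lit 558) (nat_lit 595) (nat_lit 559)))) (.a (.f (nat_lit 526) (nat_lit 525) (nat_lit 3597) (.f (nat_lit 562) (nat_lit 527) (nat_lit 3598) (.d (nat_lit 590) (nat_lit 589) (nat_lit 1581) (nat_lit 591) (nat_lit 1582)))) (.a (.f (nat_lit 590) (nat_lit 589) (nat_lit 1581) (.f (nat_lit 591) (nat_lit 562) (nat_lit 1582) (.f (nat_lit 526) (nat_lit 525) (nat_lit 3597) (.d (nat_lit 494) (nat_lit 462) (nat_lit 4558) (nat_lit 623) (nat_lit 4590))))) (.a (.f (nat_lit 590) (nat_lit 589) (nat_lit 1581) (.f (nat_lit 562) (nat_lit 591) (nat_lit 1582) (.f (nat_lit 563) (nat_lit 527) (nat_lit 3599) (.d (nat_lit 531) (nat_lit 530) (nat_lit 2575) (nat_lit 532) (nat_lit 2576))))) s115152))))) (.p (nat_lit 591) (.a (.f (nat_lit 623) (nat_lit 655) (nat_lit 6671) (.d (nat_lit 496) (nat_lit 464) (nat_lit 5583) (nat_lit 527) (nat_lit 6639))) (.a (.p (nat_lit 526) (.a (.f (nat_lit 623) (nat_lit 655) (nat_lit 6671) (.d (nat_lit 494) (nat_lit 462) (nat_lit 4558) (nat_lit 590) (nat_lit 4590))) (.a (.f (nat_lit 561) (nat_lit 525) (nat_lit 3597) (.f (nat_lit 562) (nat_lit 590) (nat_lit 1582) (.d (nat_lit 594) (nat_lit 593) (nat_lit 558) (nat_lit 595) (nat_lit 559)))) (.f (nat_lit 525) (nat_lit 561) (nat_lit 3597) (.d (nat_lit 524) (nat_lit 523) (nat_lit 523) (nat_lit 557) (nat_lit 3596)))))) (.p (nat_lit 561) (.a (.f (nat_lit 562) (nat_lit 590) (nat_lit 1582) (.d (nat_lit 594) (nat_lit 593) (nat_lit 558) (nat_lit 595) (nat_lit 559))) (.a (.f (nat_lit 562) (nat_lit 590) (nat_lit 1582) (.d (nat_lit 526) (nat_lit 525) (nat_lit 3597) (nat_lit 527) (nat_lit 3598))) (.a (.f (nat_lit 525) (nat_lit 526) (nat_lit 3597) (.f (nat_lit 557) (nat_lit 524) (nat_lit 3596) (.f (nat_lit 556) (nat_lit 527) (nat_lit 2572) (.f (nat_lit 555) (nat_lit 590) (nat_lit 555) (.d (nat_lit 587) (nat_lit 586) (nat_lit 1578) (nat_lit 588) (nat_lit 1579)))))) (.f (nat_lit 526) (nat_lit 525) (nat_lit 3597) (.f (nat_lit 562) (nat_lit 527) (nat_lit 3598) (.d (nat_lit 594) (nat_lit 593) (nat_lit 558) (nat_lit 595) (nat_lit 559))))))))))))))))))) (.a (.p (nat_lit 558) (.a (.p (nat_lit 557) (.a (.f (nat_lit 556) (nat_lit 527) (nat_lit 2572) (.d (nat_lit 588) (nat_lit 587) (nat_lit 1579) (nat_lit 589) (nat_lit 1580))) (.a (.f (nat_lit 525) (nat_lit 524) (nat_lit 3596) (.f (nat_lit 589) (nat_lit 588) (nat_lit 1580) (.f (nat_lit 526) (nat_lit 561) (nat_lit 3597) (.d (nat_lit 494) (nat_lit 462) (nat_lit 5581) (nat_lit 621) (nat_lit 6637))))) (.f (nat_lit 556) (nat_lit 527) (nat_lit 2572) (.d (nat_lit 524) (nat_lit 523) (nat_lit 3595) (nat_lit 525) (nat_lit 3596)))))) (.a s115488 (.a (.p (nat_lit 525) (.a (.f (nat_lit 557) (nat_lit 524) (nat_lit 3596) (.f (nat_lit 589) (nat_lit 588) (nat_lit 1580) (.f (nat_lit 526) (nat_lit 561) (nat_lit 3597) (.d (nat_lit 494) (nat_lit 462) (nat_lit 5581) (nat_lit 621) (nat_lit 6637))))) (.a (.f (nat_lit 557) (nat_lit 524) (nat_lit 3596) (.f (nat_lit 588) (nat_lit 589) (nat_lit 1580) (.f (nat_lit 556) (nat_lit 587) (nat_lit 1579) (.f (nat_lit 591) (nat_lit 592) (nat_lit 556) (.f (nat_lit 555) (nat_lit 590) (nat_lit 555) (.f (nat_lit 554) (nat_lit 526) (nat_lit 2570) (.d (nat_lit 522) (nat_lit 521) (nat_lit 3593) (nat_lit 523) (nat_lit 3594)))))))) (.a (.f (nat_lit 557) (nat_lit 524) (nat_lit 3596) (.f (nat_lit 589) (nat_lit 588) (nat_lit 1580) (.f (nat_lit 590) (nat_lit 561) (nat_lit 1581) (.d (nat_lit 493) (nat_lit 461) (nat_lit 4557) (nat_lit 622) (nat_lit 4589))))) (.a (.f (nat_lit 561) (nat_lit 526) (nat_lit 3597) (.f (nat_lit 590) (nat_lit 589) (nat_lit 1581) (.f (nat_lit 591) (nat_lit 562) (nat_lit 1582) (.f (nat_lit 623) (nat_lit 655) (nat_lit 6671) (.d (nat_lit 496) (nat_lit 464) (nat_lit 5583) (nat_lit 592) (nat_lit 5615)))))) (.f (nat_lit 526) (nat_lit 561) (nat_lit 3597) (.d (nat_lit 524) (nat_lit 523) (nat_lit 523) (nat_lit 557) (nat_lit 3596)))))))) (.a (.p (nat_lit 557) (.a (.f (nat_lit 556) (nat_lit 527) (nat_lit 2572) (.d (nat_lit 588) (nat_lit 587) (nat_lit 1579) (nat_lit 589) (nat_lit 1580))) (.a (.f (nat_lit 589) (nat_lit 588) (nat_lit 1580) (.f (nat_lit 590) (nat_lit 561) (nat_lit 1581) (.f (nat_lit 525) (nat_lit 524) (nat_lit 3596) (.d (nat_lit 493) (nat_lit 461) (nat_lit 4557) (nat_lit 622) (nat_lit 4589))))) (.f (nat_lit 556) (nat_lit 527) (nat_lit 2572) (.d (nat_lit 524) (nat_lit 523) (nat_lit 3595) (nat_lit 525) (nat_lit 3596)))))) (.a (.p (nat_lit 557) (.a (.f (nat_lit 556) (nat_lit 527) (nat_lit 2572) (.d (nat_lit 588) (nat_lit 587) (nat_lit 1579) (nat_lit 589) (nat_lit 1580))) (.a (.f (nat_lit 588) (nat_lit 589) (nat_lit 1580) (.f (nat_lit 556) (nat_lit 587) (nat_lit 1579) (.f (nat_lit 591) (nat_lit 592) (nat_lit 556) (.f (nat_lit 555) (nat_lit 590) (nat_lit 555) (.d (nat_lit 523) (nat_lit 522) (nat_lit 3594) (nat_lit 524) (nat_lit 3595)))))) (.a (.f (nat_lit 556) (nat_lit 527) (nat_lit 2572) (.f (nat_lit 591) (nat_lit 592) (nat_lit 556) (.f (nat_lit 555) (nat_lit 590) (nat_lit 555) (.d (nat_lit 587) (nat_lit 586) (nat_lit 1578) (nat_lit 588) (nat_lit 1579))))) (.a (.f (nat_lit 556) (nat_lit 527) (nat_lit 2572) (.f (nat_lit 591) (nat_lit 592) (nat_lit 556) (.f (nat_lit 590) (nat_lit 555) (nat_lit 555) (.d (nat_lit 561) (nat_lit 562) (nat_lit 1582) (nat_lit 589) (nat_lit 1581))))) (.p (nat_lit 592) (.a (.p (nat_lit 624) (.a (.f (nat_lit 589) (nat_lit 588) (nat_lit 1580) (.f (nat_lit 590) (nat_lit 561) (nat_lit 1581) (.d (nat_lit 625) (nat_lit 591) (nat_lit 589) (nat_lit 657) (nat_lit 4624)))) (.f (nat_lit 656) (nat_lit 527) (nat_lit 7695) (.d (nat_lit 655) (nat_lit 623) (nat_lit 5647) (nat_lit 687) (nat_lit 5679))))) (.a (.p (nat_lit 624) (.a (.f (nat_lit 656) (nat_lit 527) (nat_lit 7695) (.d (nat_lit 655) (nat_lit 623) (nat_lit 5647) (nat_lit 687) (nat_lit 5679))) (.a (.f (nat_lit 623) (nat_lit 655) (nat_lit 5647) (.f (nat_lit 591) (nat_lit 496) (nat_lit 5615) (.f (nat_lit 589) (nat_lit 588) (nat_lit 1580) (.d (nat_lit 625) (nat_lit 590) (nat_lit 589) (nat_lit 657) (nat_lit 4624))))) (.f (nat_lit 656) (nat_lit 527) (nat_lit 7695) (.d (nat_lit 657) (nat_lit 625) (nat_lit 4624) (nat_lit 689) (nat_lit 4656)))))) (.a (.p (nat_lit 624) (.a (.f (nat_lit 589) (nat_lit 588) (nat_lit 1580) (.f (nat_lit 590) (nat_lit 561) (nat_lit 1581) (.d (nat_lit 625) (nat_lit 591) (nat_lit 589) (nat_lit 657) (nat_lit 4624)))) (.a (.f (nat_lit 623) (nat_lit 655) (nat_lit 5647) (.f (nat_lit 591) (nat_lit 496) (nat_lit 5615) (.f (nat_lit 589) (nat_lit 588) (nat_lit 1580) (.d (nat_lit 625) (nat_lit 590) (nat_lit 589) (nat_lit 657) (nat_lit 4624))))) (.a (.f (nat_lit 589) (nat_lit 588) (nat_lit 1580) (.f (nat_lit 623) (nat_lit 655) (nat_lit 5647) (.f (nat_lit 591) (nat_lit 496) (nat_lit 5615) (.f (nat_lit 590) (nat_lit 561) (nat_lit 1581) (.f (nat_lit 621) (nat_lit 620) (nat_lit 1612) (.d (nat_lit 653) (nat_lit 526) (nat_lit 6669) (nat_lit 685) (nat_lit 6701))))))) (.f (nat_lit 655) (nat_lit 623) (nat_lit 5647) (.f (nat_lit 656) (nat_lit 687) (nat_lit 5679) (.d (nat_lit 657) (nat_lit 625) (nat_lit 4624) (nat_lit 689) (nat_lit 4656)))))))) (.a (.p (nat_lit 496) (.a (.d (nat_lit 591) (nat_lit 464) (nat_lit 5583) (nat_lit 623) (nat_lit 5615)) (.a (.f (nat_lit 464) (nat_lit 591) (nat_lit 5583) (.d (nat_lit 465) (nat_lit 433) (nat_lit 6576) (nat_lit 497) (nat_lit 6608))) (.a (.f (nat_lit 591) (nat_lit 623) (nat_lit 5615) (.f (nat_lit 589) (nat_lit 588) (nat_lit 1580) (.f (nat_lit 590) (nat_lit 561) (nat_lit 1581) (.f (nat_lit 621) (nat_lit 620) (nat_lit 1612) (.d (nat_lit 526) (nat_lit 494) (nat_lit 5613) (nat_lit 653) (nat_lit 6669)))))) (.f (nat_lit 465) (nat_lit 497) (nat_lit 6608) (.f (nat_lit 464) (nat_lit 433) (nat_lit 6576) (.f (nat_lit 432) (nat_lit 527) (nat_lit 5551) (.d (nat_lit 431) (nat_lit 399) (nat_lit 7567) (nat_lit 463) (nat_lit 7599))))))))) (.a (.p (nat_lit 624) (.a (.f (nat_lit 589) (nat_lit 588) (nat_lit 1580) (.f (nat_lit 590) (nat_lit 561) (nat_lit 1581) (.d (nat_lit 625) (nat_lit 591) (nat_lit 589) (nat_lit 657) (nat_lit 4624)))) (.a (.f (nat_lit 656) (nat_lit 527) (nat_lit 7695) (.d (nat_lit 657) (nat_lit 625) (nat_lit 4624) (nat_lit 689) (nat_lit 4656))) (.f (nat_lit 656) (nat_lit 527) (nat_lit 7695) (.f (nat_lit 589) (nat_lit 588) (nat_lit 1580) (.f (nat_lit 591) (nat_lit 688) (nat_lit 7727) (.f (nat_lit 590) (nat_lit 561) (nat_lit 1581) (.f (nat_lit 621) (nat_lit 620) (nat_lit 1612) (.d (nat_lit 526) (nat_lit 494) (nat_lit 5613) (nat_lit 653) (nat_lit 6669)))))))))) (.a (.p (nat_lit 624) (.a (.f (nat_lit 656) (nat_lit 527) (nat_lit 7695) (.d (nat_lit 655) (nat_lit 623) (nat_lit 5647) (nat_lit 687) (nat_lit 5679))) (.a (.f (nat_lit 655) (nat_lit 623) (nat_lit 5647) (.f (nat_lit 656) (nat_lit 687) (nat_lit 5679) (.d (nat_lit 657) (nat_lit 625) (nat_lit 4624) (nat_lit 689) (nat_lit 4656)))) (.a (.f (nat_lit 656) (nat_lit 527) (nat_lit 7695) (.d (nat_lit 657) (nat_lit 625) (nat_lit 4624) (nat_lit 689) (nat_lit 4656))) (.f (nat_lit 589) (nat_lit 588) (nat_lit 1580) (.f (nat_lit 590) (nat_lit 561) (nat_lit 1581) (.f (nat_lit 623) (nat_lit 655) (nat_lit 5647) (.d (nat_lit 625) (nat_lit 622) (nat_lit 3661) (nat_lit 657) (nat_lit 4624))))))))) (.p (nat_lit 624) (.a (.f (nat_lit 656) (nat_lit 527) (nat_lit 7695) (.d (nat_lit 655) (nat_lit 623) (nat_lit 5647) (nat_lit 687) (nat_lit 5679))) (.a (.f (nat_lit 655) (nat_lit 623) (nat_lit 5647) (.f (nat_lit 656) (nat_lit 687) (nat_lit 5679) (.d (nat_lit 657) (nat_lit 625) (nat_lit 4624) (nat_lit 689) (nat_lit 4656)))) (.a (.f (nat_lit 656) (nat_lit 527) (nat_lit 7695) (.d (nat_lit 657) (nat_lit 625) (nat_lit 4624) (nat_lit 689) (nat_lit 4656))) (.f (nat_lit 623) (nat_lit 655) (nat_lit 5647) (.f (nat_lit 496) (nat_lit 591) (nat_lit 5615) (.f (nat_lit 465) (nat_lit 497) (nat_lit 6608) (.f (nat_lit 464) (nat_lit 433) (nat_lit 6576) (.f (nat_lit 432) (nat_lit 527) (nat_lit 5551) (.d (nat_lit 431) (nat_lit 399) (nat_lit 7567) (nat_lit 463) (nat_lit 7599))))))))))))))))))))))) (.a (.p (nat_lit 561) (.a (.f (nat_lit 526) (nat_lit 525) (nat_lit 3597) (.f (nat_lit 562) (nat_lit 527) (nat_lit 3598) (.d (nat_lit 590) (nat_lit 589) (nat_lit 1581) (nat_lit 591) (nat_lit 1582)))) (.a (.f (nat_lit 590) (nat_lit 589) (nat_lit 1581) (.f (nat_lit 591) (nat_lit 562) (nat_lit 1582) (.f (nat_lit 526) (nat_lit 525) (nat_lit 3597) (.d (nat_lit 494) (nat_lit 462) (nat_lit 4558) (nat_lit 623) (nat_lit 4590))))) (.a (.f (nat_lit 590) (nat_lit 589) (nat_lit 1581) (.f (nat_lit 562) (nat_lit 591) (nat_lit 1582) (.f (nat_lit 563) (nat_lit 527) (nat_lit 3599) (.d (nat_lit 531) (nat_lit 530) (nat_lit 2575) (nat_lit 532) (nat_lit 2576))))) (.a s115152 (.f (nat_lit 526) (nat_lit 525) (nat_lit 3597) (.f (nat_lit 562) (nat_lit 527) (nat_lit 3598) (.f (nat_lit 531) (nat_lit 530) (nat_lit 2575) (.f (nat_lit 563) (nat_lit 532) (nat_lit 2576) (.d (nat_lit 595) (nat_lit 594) (nat_lit 559) (nat_lit 596) (nat_lit 560))))))))))) (.p (nat_lit 561) (.a (.f (nat_lit 526) (nat_lit 525) (nat_lit 3597) (.f (nat_lit 562) (nat_lit 527) (nat_lit 3598) (.f (nat_lit 531) (nat_lit 530) (nat_lit 2575) (.f (nat_lit 563) (nat_lit 532) (nat_lit 2576) (.d (nat_lit 595) (nat_lit 594) (nat_lit 559) (nat_lit 596) (nat_lit 560)))))) (.a (.p (nat_lit 562) (.a (.f (nat_lit 595) (nat_lit 594) (nat_lit 559) (.f (nat_lit 563) (nat_lit 596) (nat_lit 560) (.d (nat_lit 531) (nat_lit 530) (nat_lit 2575) (nat_lit 532) (nat_lit 2576)))) (.f (nat_lit 591) (nat_lit 590) (nat_lit 1582) (.f (nat_lit 623) (nat_lit 655) (nat_lit 6671) (.d (nat_lit 496) (nat_lit 464) (nat_lit 5583) (nat_lit 592) (nat_lit 5615)))))) (.f (nat_lit 525) (nat_lit 526) (nat_lit 3597) (.f (nat_lit 557) (nat_lit 524) (nat_lit 3596) (.f (nat_lit 556) (nat_lit 527) (nat_lit 2572) (.f (nat_lit 591) (nat_lit 592) (nat_lit 556) (.f (nat_lit 555) (nat_lit 590) (nat_lit 555) (.d (nat_lit 587) (nat_lit 586) (nat_lit 1578) (nat_lit 588) (nat_lit 1579))))))))))))))))) (.a (.p (nat_lit 592) (.a (.p (nat_lit 624) (.a (.f (nat_lit 656) (nat_lit 527) (nat_lit 7695) (.d (nat_lit 655) (nat_lit 623) (nat_lit 5647) (nat_lit 687) (nat_lit 5679))) (.a (.f (nat_lit 623) (nat_lit 655) (nat_lit 5647) (.f (nat_lit 591) (nat_lit 496) (nat_lit 5615) (.f (nat_lit 625) (nat_lit 657) (nat_lit 4624) (.d (nat_lit 626) (nat_lit 590) (nat_lit 3662) (nat_lit 627) (nat_lit 3663))))) (.f (nat_lit 656) (nat_lit 527) (nat_lit 7695) (.d (nat_lit 657) (nat_lit 625) (nat_lit 4624) (nat_lit 689) (nat_lit 4656)))))) (.a s115098 (.a (.p (nat_lit 561) (.a s115128 (.a s115117 (.a (.p (nat_lit 558) (.a (.f (nat_lit 525) (nat_lit 526) (nat_lit 3597) (.f (nat_lit 557) (nat_lit 524) (nat_lit 3596) (.d (nat_lit 556) (nat_lit 527) (nat_lit 2572) (nat_lit 591) (nat_lit 556)))) (.a (.f (nat_lit 590) (nat_lit 589) (nat_lit 1581) (.f (nat_lit 591) (nat_lit 562) (nat_lit 1582) (.f (nat_lit 557) (nat_lit 556) (nat_lit 556) (.d (nat_lit 525) (nat_lit 524) (nat_lit 3596) (nat_lit 526) (nat_lit 3597))))) (.a (.f (nat_lit 589) (nat_lit 590) (nat_lit 1581) (.f (nat_lit 557) (nat_lit 588) (nat_lit 1580) (.d (nat_lit 556) (nat_lit 527) (nat_lit 2572) (nat_lit 591) (nat_lit 556)))) (.a (.f (nat_lit 525) (nat_lit 526) (nat_lit 3597) (.f (nat_lit 557) (nat_lit 524) (nat_lit 3596) (.d (nat_lit 589) (nat_lit 588) (nat_lit 1580) (nat_lit 590) (nat_lit 1581)))) (.f (nat_lit 526) (nat_lit 525) (nat_lit 3597) (.f (nat_lit 562) (nat_lit 527) (nat_lit 3598) (.f (nat_lit 531) (nat_lit 530) (nat_lit 2575) (.f (nat_lit 563) (nat_lit 532) (nat_lit 2576) (.f (nat_lit 593) (nat_lit 564) (nat_lit 1584) (.d (nat_lit 496) (nat_lit 464) (nat_lit 4560) (nat_lit 625) (nat_lit 4592)))))))))))) (.a (.p (nat_lit 496) (.a (.d (nat_lit 464) (nat_lit 591) (nat_lit 5583) (nat_lit 593) (nat_lit 4560)) (.a (.d (nat_lit 591) (nat_lit 464) (nat_lit 5583) (nat_lit 623) (nat_lit 5615)) (.a (.f (nat_lit 591) (nat_lit 623) (nat_lit 5615) (.d (nat_lit 590) (nat_lit 562) (nat_lit 1582) (nat_lit 589) (nat_lit 2605))) (.f (nat_lit 464) (nat_lit 593) (nat_lit 4560) (.d (nat_lit 465) (nat_lit 433) (nat_lit 6576) (nat_lit 497) (nat_lit 6608))))))) (.a (.p (nat_lit 496) (.a (.d (nat_lit 464) (nat_lit 591) (nat_lit 5583) (nat_lit 593) (nat_lit 4560)) (.a (.d (nat_lit 591) (nat_lit 464) (nat_lit 5583) (nat_lit 623) (nat_lit 5615)) (.a (.f (nat_lit 591) (nat_lit 623) (nat_lit 5615) (.f (nat_lit 590) (nat_lit 589) (nat_lit 2605) (.f (nat_lit 593) (nat_lit 625) (nat_lit 4592) (.f (nat_lit 558) (nat_lit 557) (nat_lit 3629) (.f (nat_lit 622) (nat_lit 621) (nat_lit 1613) (.d (nat_lit 654) (nat_lit 527) (nat_lit 6670) (nat_lit 686) (nat_lit 6702))))))) (.f (nat_lit 464) (nat_lit 593) (nat_lit 4560) (.d (nat_lit 465) (nat_lit 433) (nat_lit 6576) (nat_lit 497) (nat_lit 6608))))))) (.a (.p (nat_lit 558) (.a (.f (nat_lit 525) (nat_lit 526) (nat_lit 3597) (.f (nat_lit 557) (nat_lit 524) (nat_lit 3596) (.d (nat_lit 589) (nat_lit 588) (nat_lit 1580) (nat_lit 590) (nat_lit 1581)))) (.a (.f (nat_lit 557) (nat_lit 593) (nat_lit 557) (.d (nat_lit 589) (nat_lit 588) (nat_lit 1580) (nat_lit 590) (nat_lit 1581))) (.f (nat_lit 526) (nat_lit 525) (nat_lit 3597) (.f (nat_lit 562) (nat_lit 527) (nat_lit 3598) (.f (nat_lit 531) (nat_lit 530) (nat_lit 2575) (.f (nat_lit 563) (nat_lit 532) (nat_lit 2576) (.f (nat_lit 593) (nat_lit 564) (nat_lit 1584) (.d (nat_lit 496) (nat_lit 464) (nat_lit 4560) (nat_lit 625) (nat_lit 4592)))))))))) (.p (nat_lit 558) (.a (.f (nat_lit 525) (nat_lit 526) (nat_lit 3597) (.f (nat_lit 557) (nat_lit 524) (nat_lit 3596) (.d (nat_lit 556) (nat_lit 527) (nat_lit 2572) (nat_lit 591) (nat_lit 556)))) (.a (.f (nat_lit 525) (nat_lit 526) (nat_lit 3597) (.f (nat_lit 557) (nat_lit 524) (nat_lit 3596) (.f (nat_lit 591) (nat_lit 556) (nat_lit 556) (.d (nat_lit 496) (nat_lit 464) (nat_lit 5583) (nat_lit 623) (nat_lit 5615))))) (.a (.f (nat_lit 557) (nat_lit 593) (nat_lit 557) (.d (nat_lit 556) (nat_lit 527) (nat_lit 2572) (nat_lit 591) (nat_lit 556))) (.f (nat_lit 526) (nat_lit 525) (nat_lit 3597) (.f (nat_lit 562) (nat_lit 527) (nat_lit 3598) (.f (nat_lit 531) (nat_lit 530) (nat_lit 2575) (.f (nat_lit 563) (nat_lit 532) (nat_lit 2576) (.f (nat_lit 593) (nat_lit 564) (nat_lit 1584) (.d (nat_lit 496) (nat_lit 464) (nat_lit 4560) (nat_lit 625) (nat_lit 4592)))))))))))))))))) (.a (.p (nat_lit 590) (.a (.p (nat_lit 624) (.a (.f (nat_lit 623) (nat_lit 655) (nat_lit 5647) (.f (nat_lit 625) (nat_lit 657) (nat_lit 4624) (.d (nat_lit 591) (nat_lit 589) (nat_lit 589) (nat_lit 626) (nat_lit 3662)))) (.a (.f (nat_lit 656) (nat_lit 527) (nat_lit 7695) (.d (nat_lit 657) (nat_lit 625) (nat_lit 4624) (nat_lit 689) (nat_lit 4656))) (.f (nat_lit 656) (nat_lit 527) (nat_lit 7695) (.d (nat_lit 655) (nat_lit 623) (nat_lit 5647) (nat_lit 687) (nat_lit 5679)))))) (.a (.p (nat_lit 624) (.a (.f (nat_lit 655) (nat_lit 623) (nat_lit 5647) (.f (nat_lit 656) (nat_lit 687) (nat_lit 5679) (.f (nat_lit 591) (nat_lit 688) (nat_lit 7727) (.d (nat_lit 589) (nat_lit 561) (nat_lit 2605) (nat_lit 625) (nat_lit 589))))) (.a (.f (nat_lit 623) (nat_lit 655) (nat_lit 5647) (.f (nat_lit 625) (nat_lit 657) (nat_lit 4624) (.d (nat_lit 591) (nat_lit 589) (nat_lit 589) (nat_lit 626) (nat_lit 3662)))) (.a (.f (nat_lit 625) (nat_lit 657) (nat_lit 4624) (.f (nat_lit 589) (nat_lit 591) (nat_lit 589) (.f (nat_lit 558) (nat_lit 561) (nat_lit 1581) (.d (nat_lit 588) (nat_lit 557) (nat_lit 1580) (nat_lit 587) (nat_lit 2603))))) (.a (.f (nat_lit 655) (nat_lit 623) (nat_lit 5647) (.f (nat_lit 656) (nat_lit 687) (nat_lit 5679) (.f (nat_lit 591) (nat_lit 688) (nat_lit 7727) (.d (nat_lit 561) (nat_lit 562) (nat_lit 1582) (nat_lit 589) (nat_lit 2605))))) (.f (nat_lit 655) (nat_lit 623) (nat_lit 5647) (.f (nat_lit 656) (nat_lit 687) (nat_lit 5679) (.d (nat_lit 657) (nat_lit 625) (nat_lit 4624) (nat_lit 689) (nat_lit 4656))))))))) (.a (.p (nat_lit 561) (.a (.d (nat_lit 589) (nat_lit 558) (nat_lit 1581) (nat_lit 591) (nat_lit 2605)) (.a (.d (nat_lit 591) (nat_lit 562) (nat_lit 1582) (nat_lit 589) (nat_lit 2605)) (.a (.f (nat_lit 558) (nat_lit 589) (nat_lit 1581) (.f (nat_lit 526) (nat_lit 525) (nat_lit 3597) (.f (nat_lit 527) (nat_lit 562) (nat_lit 3598) (.d (nat_lit 557) (nat_lit 556) (nat_lit 2572) (nat_lit 593) (nat_lit 557))))) (.f (nat_lit 562) (nat_lit 591) (nat_lit 1582) (.d (nat_lit 527) (nat_lit 526) (nat_lit 3598) (nat_lit 563) (nat_lit 3599))))))) (.a (.p (nat_lit 624) (.a (.f (nat_lit 656) (nat_lit 527) (nat_lit 7695) (.d (nat_lit 657) (nat_lit 625) (nat_lit 4624) (nat_lit 689) (nat_lit 4656))) (.a (.f (nat_lit 655) (nat_lit 623) (nat_lit 5647) (.f (nat_lit 656) (nat_lit 687) (nat_lit 5679) (.d (nat_lit 657) (nat_lit 625) (nat_lit 4624) (nat_lit 689) (nat_lit 4656)))) (.a (.f (nat_lit 656) (nat_lit 527) (nat_lit 7695) (.d (nat_lit 655) (nat_lit 623) (nat_lit 5647) (nat_lit 687) (nat_lit 5679))) (.f (nat_lit 625) (nat_lit 657) (nat_lit 4624) (.f (nat_lit 623) (nat_lit 655) (nat_lit 5647) (.f (nat_lit 622) (nat_lit 589) (nat_lit 3661) (.f (nat_lit 654) (nat_lit 653) (nat_lit 1645) (.f (nat_lit 558) (nat_lit 527) (nat_lit 6670) (.f (nat_lit 525) (nat_lit 557) (nat_lit 7693) (.d (nat_lit 526) (nat_lit 493) (nat_lit 7661) (nat_lit 561) (nat_lit 3597)))))))))))) (.p (nat_lit 624) (.a (.f (nat_lit 656) (nat_lit 527) (nat_lit 7695) (.d (nat_lit 657) (nat_lit 625) (nat_lit 4624) (nat_lit 689) (nat_lit 4656))) (.a (.f (nat_lit 655) (nat_lit 623) (nat_lit 5647) (.f (nat_lit 656) (nat_lit 687) (nat_lit 5679) (.d (nat_lit 657) (nat_lit 625) (nat_lit 4624) (nat_lit 689) (nat_lit 4656)))) (.a (.f (nat_lit 656) (nat_lit 527) (nat_lit 7695) (.d (nat_lit 655) (nat_lit 623) (nat_lit 5647) (nat_lit 687) (nat_lit 5679))) (.f (nat_lit 623) (nat_lit 655) (nat_lit 5647) (.f (nat_lit 625) (nat_lit 657) (nat_lit 4624) (.f (nat_lit 626) (nat_lit 591) (nat_lit 3662) (.f (nat_lit 659) (nat_lit 658) (nat_lit 623) (.f (nat_lit 627) (nat_lit 660) (nat_lit 624) (.f (nat_lit 596) (nat_lit 595) (nat_lit 2640) (.d (nat_lit 628) (nat_lit 593) (nat_lit 3664) (nat_lit 597) (nat_lit 2641))))))))))))))))) (.a (.p (nat_lit 624) (.a (.f (nat_lit 656) (nat_lit 527) (nat_lit 7695) (.d (nat_lit 657) (nat_lit 625) (nat_lit 4624) (nat_lit 689) (nat_lit 4656))) (.a (.f (nat_lit 657) (nat_lit 625) (nat_lit 4624) (.f (nat_lit 656) (nat_lit 689) (nat_lit 4656) (.f (nat_lit 687) (nat_lit 655) (nat_lit 5679) (.d (nat_lit 688) (nat_lit 591) (nat_lit 7727) (nat_lit 719) (nat_lit 5711))))) (.a (.f (nat_lit 656) (nat_lit 527) (nat_lit 7695) (.f (nat_lit 688) (nat_lit 591) (nat_lit 7727) (.d (nat_lit 687) (nat_lit 655) (nat_lit 5679) (nat_lit 719) (nat_lit 5711)))) (.f (nat_lit 625) (nat_lit 657) (nat_lit 4624) (.f (nat_lit 496) (nat_lit 593) (nat_lit 4592) (.f (nat_lit 464) (nat_lit 591) (nat_lit 5583) (.d (nat_lit 465) (nat_lit 433) (nat_lit 6576) (nat_lit 497) (nat_lit 6608))))))))) (.a s115161 (.a (.p (nat_lit 624) (.a (.f (nat_lit 656) (nat_lit 527) (nat_lit 7695) (.d (nat_lit 655) (nat_lit 623) (nat_lit 5647) (nat_lit 687) (nat_lit 5679))) (.a (.f (nat_lit 655) (nat_lit 623) (nat_lit 5647) (.f (nat_lit 656) (nat_lit 687) (nat_lit 5679) (.d (nat_lit 657) (nat_lit 625) (nat_lit 4624) (nat_lit 689) (nat_lit 4656)))) (.a (.f (nat_lit 656) (nat_lit 527) (nat_lit 7695) (.d (nat_lit 657) (nat_lit 625) (nat_lit 4624) (nat_lit 689) (nat_lit 4656))) (.f (nat_lit 625) (nat_lit 657) (nat_lit 4624) (.f (nat_lit 496) (nat_lit 593) (nat_lit 4592) (.f (nat_lit 465) (nat_lit 497) (nat_lit 6608) (.f (nat_lit 464) (nat_lit 433) (nat_lit 6576) (.f (nat_lit 432) (nat_lit 527) (nat_lit 5551) (.d (nat_lit 431) (nat_lit 399) (nat_lit 7567) (nat_lit 463) (nat_lit 7599))))))))))) (.p (nat_lit 624) (.a (.f (nat_lit 656) (nat_lit 527) (nat_lit 7695) (.d (nat_lit 657) (nat_lit 625) (nat_lit 4624) (nat_lit 689) (nat_lit 4656))) (.a (.f (nat_lit 657) (nat_lit 625) (nat_lit 4624) (.f (nat_lit 656) (nat_lit 689) (nat_lit 4656) (.f (nat_lit 591) (nat_lit 688) (nat_lit 7727) (.d (nat_lit 496) (nat_lit 464) (nat_lit 5583) (nat_lit 623) (nat_lit 5615))))) (.a (.f (nat_lit 656) (nat_lit 527) (nat_lit 7695) (.f (nat_lit 591) (nat_lit 688) (nat_lit 7727) (.d (nat_lit 496) (nat_lit 464) (nat_lit 5583) (nat_lit 623) (nat_lit 5615)))) (.f (nat_lit 625) (nat_lit 657) (nat_lit 4624) (.f (nat_lit 496) (nat_lit 593) (nat_lit 4592) (.f (nat_lit 464) (nat_lit 591) (nat_lit 5583) (.d (nat_lit 465) (nat_lit 433) (nat_lit 6576) (nat_lit 497) (nat_lit 6608))))))))))))))))) (.a (.p (nat_lit 561) (.a (.p (nat_lit 558) (.a (.f (nat_lit 593) (nat_lit 594) (nat_lit 558) (.f (nat_lit 592) (nat_lit 557) (nat_lit 557) (.d (nat_lit 496) (nat_lit 464) (nat_lit 4560) (nat_lit 625) (nat_lit 4592)))) (.f (nat_lit 590) (nat_lit 589) (nat_lit 1581) (.f (nat_lit 591) (nat_lit 562) (nat_lit 1582) (.f (nat_lit 526) (nat_lit 525) (nat_lit 3597) (.d (nat_lit 494) (nat_lit 462) (nat_lit 4558) (nat_lit 623) (nat_lit 4590))))))) (.a (.p (nat_lit 558) (.a (.f (nat_lit 526) (nat_lit 525) (nat_lit 3597) (.f (nat_lit 562) (nat_lit 527) (nat_lit 3598) (.d (nat_lit 590) (nat_lit 589) (nat_lit 1581) (nat_lit 591) (nat_lit 1582)))) (.a (.f (nat_lit 590) (nat_lit 589) (nat_lit 1581) (.f (nat_lit 591) (nat_lit 562) (nat_lit 1582) (.f (nat_lit 526) (nat_lit 525) (nat_lit 3597) (.d (nat_lit 494) (nat_lit 462) (nat_lit 4558) (nat_lit 623) (nat_lit 4590))))) (.a (.f (nat_lit 590) (nat_lit 589) (nat_lit 1581) (.f (nat_lit 562) (nat_lit 591) (nat_lit 1582) (.f (nat_lit 563) (nat_lit 527) (nat_lit 3599) (.d (nat_lit 531) (nat_lit 530) (nat_lit 2575) (nat_lit 532) (nat_lit 2576))))) (.a (.f (nat_lit 525) (nat_lit 526) (nat_lit 3597) (.f (nat_lit 557) (nat_lit 524) (nat_lit 3596) (.d (nat_lit 589) (nat_lit 588) (nat_lit 1580) (nat_lit 590) (nat_lit 1581)))) (.a (.f (nat_lit 525) (nat_lit 526) (nat_lit 3597) (.f (nat_lit 557) (nat_lit 524) (nat_lit 3596) (.f (nat_lit 556) (nat_lit 527) (nat_lit 2572) (.d (nat_lit 588) (nat_lit 587) (nat_lit 1579) (nat_lit 589) (nat_lit 1580))))) (.f (nat_lit 525) (nat_lit 526) (nat_lit 3597) (.f (nat_lit 557) (nat_lit 524) (nat_lit 3596) (.f (nat_lit 527) (nat_lit 556) (nat_lit 2572) (.f (nat_lit 562) (nat_lit 563) (nat_lit 3599) (.f (nat_lit 591) (nat_lit 590) (nat_lit 1582) (.d (nat_lit 496) (nat_lit 464) (nat_lit 5583) (nat_lit 623) (nat_lit 6639))))))))))))) (.a s115025 (.a (.p (nat_lit 558) (.a (.f (nat_lit 593) (nat_lit 594) (nat_lit 558) (.f (nat_lit 592) (nat_lit 557) (nat_lit 557) (.d (nat_lit 496) (nat_lit 464) (nat_lit 4560) (nat_lit 625) (nat_lit 4592)))) (.f (nat_lit 590) (nat_lit 589) (nat_lit 1581) (.f (nat_lit 562) (nat_lit 591) (nat_lit 1582) (.f (nat_lit 563) (nat_lit 527) (nat_lit 3599) (.d (nat_lit 531) (nat_lit 530) (nat_lit 2575) (nat_lit 532) (nat_lit 2576))))))) (.a (.p (nat_lit 562) (.a (.d (nat_lit 527) (nat_lit 526) (nat_lit 3598) (nat_lit 563) (nat_lit 3599)) (.a (.f (nat_lit 591) (nat_lit 590) (nat_lit 1582) (.f (nat_lit 592) (nat_lit 563) (nat_lit 1583) (.d (nat_lit 496) (nat_lit 464) (nat_lit 5583) (nat_lit 623) (nat_lit 5615)))) (.f (nat_lit 591) (nat_lit 590) (nat_lit 1582) (.f (nat_lit 496) (nat_lit 464) (nat_lit 5583) (.d (nat_lit 527) (nat_lit 526) (nat_lit 3598) (nat_lit 623) (nat_lit 6639))))))) (.a (.p (nat_lit 558) (.a (.f (nat_lit 593) (nat_lit 594) (nat_lit 558) (.f (nat_lit 592) (nat_lit 557) (nat_lit 557) (.d (nat_lit 496) (nat_lit 464) (nat_lit 4560) (nat_lit 625) (nat_lit 4592)))) (.a (.f (nat_lit 525) (nat_lit 526) (nat_lit 3597) (.f (nat_lit 557) (nat_lit 524) (nat_lit 3596) (.d (nat_lit 589) (nat_lit 588) (nat_lit 1580) (nat_lit 590) (nat_lit 1581)))) (.f (nat_lit 593) (nat_lit 594) (nat_lit 558) (.f (nat_lit 496) (nat_lit 464) (nat_lit 4560) (.d (nat_lit 625) (nat_lit 592) (nat_lit 4592) (nat_lit 657) (nat_lit 7696))))))) (.p (nat_lit 558) (.a (.f (nat_lit 593) (nat_lit 594) (nat_lit 558) (.f (nat_lit 592) (nat_lit 557) (nat_lit 557) (.d (nat_lit 496) (nat_lit 464) (nat_lit 4560) (nat_lit 625) (nat_lit 4592)))) (.a (.f (nat_lit 525) (nat_lit 526) (nat_lit 3597) (.f (nat_lit 557) (nat_lit 524) (nat_lit 3596) (.f (nat_lit 556) (nat_lit 527) (nat_lit 2572) (.d (nat_lit 588) (nat_lit 587) (nat_lit 1579) (nat_lit 589) (nat_lit 1580))))) (.f (nat_lit 593) (nat_lit 594) (nat_lit 558) (.f (nat_lit 496) (nat_lit 464) (nat_lit 4560) (.d (nat_lit 625) (nat_lit 592) (nat_lit 4592) (nat_lit 657) (nat_lit 7696)))))))))))))) (.p (nat_lit 561) (.a (.p (nat_lit 558) (.a (.f (nat_lit 593) (nat_lit 594) (nat_lit 558) (.f (nat_lit 592) (nat_lit 557) (nat_lit 557) (.d (nat_lit 496) (nat_lit 464) (nat_lit 4560) (nat_lit 625) (nat_lit 4592)))) (.a (.f (nat_lit 526) (nat_lit 525) (nat_lit 3597) (.f (nat_lit 562) (nat_lit 527) (nat_lit 3598) (.d (nat_lit 594) (nat_lit 593) (nat_lit 558) (nat_lit 595) (nat_lit 559)))) (.f (nat_lit 526) (nat_lit 525) (nat_lit 3597) (.f (nat_lit 562) (nat_lit 527) (nat_lit 3598) (.d (nat_lit 590) (nat_lit 589) (nat_lit 1581) (nat_lit 591) (nat_lit 1582))))))) (.a s115020 (.a (.p (nat_lit 558) (.a (.f (nat_lit 526) (nat_lit 525) (nat_lit 3597) (.f (nat_lit 562) (nat_lit 527) (nat_lit 3598) (.d (nat_lit 590) (nat_lit 589) (nat_lit 1581) (nat_lit 591) (nat_lit 1582)))) (.a (.f (nat_lit 525) (nat_lit 526) (nat_lit 3597) (.f (nat_lit 557) (nat_lit 524) (nat_lit 3596) (.d (nat_lit 589) (nat_lit 588) (nat_lit 1580) (nat_lit 590) (nat_lit 1581)))) (.a (.f (nat_lit 590) (nat_lit 589) (nat_lit 1581) (.f (nat_lit 562) (nat_lit 591) (nat_lit 1582) (.f (nat_lit 563) (nat_lit 527) (nat_lit 3599) (.d (nat_lit 531) (nat_lit 530) (nat_lit 2575) (nat_lit 532) (nat_lit 2576))))) (.f (nat_lit 526) (nat_lit 525) (nat_lit 3597) (.f (nat_lit 562) (nat_lit 527) (nat_lit 3598) (.f (nat_lit 531) (nat_lit 530) (nat_lit 2575) (.f (nat_lit 563) (nat_lit 532) (nat_lit 2576) (.d (nat_lit 595) (nat_lit 594) (nat_lit 559) (nat_lit 596) (nat_lit 560)))))))))) (.a (.p (nat_lit 558) (.a (.f (nat_lit 593) (nat_lit 594) (nat_lit 558) (.f (nat_lit 592) (nat_lit 557) (nat_lit 557) (.d (nat_lit 496) (nat_lit 464) (nat_lit 4560) (nat_lit 625) (nat_lit 4592)))) (.a (.f (nat_lit 525) (nat_lit 526) (nat_lit 3597) (.f (nat_lit 557) (nat_lit 524) (nat_lit 3596) (.d (nat_lit 589) (nat_lit 588) (nat_lit 1580) (nat_lit 590) (nat_lit 1581)))) (.f (nat_lit 593) (nat_lit 594) (nat_lit 558) (.f (nat_lit 496) (nat_lit 464) (nat_lit 4560) (.d (nat_lit 625) (nat_lit 592) (nat_lit 4592) (nat_lit 657) (nat_lit 7696))))))) (.a (.p (nat_lit 562) (.a (.d (nat_lit 527) (nat_lit 526) (nat_lit 3598) (nat_lit 563) (nat_lit 3599)) (.a (.f (nat_lit 591) (nat_lit 590) (nat_lit 1582) (.f (nat_lit 563) (nat_lit 592) (nat_lit 1583) (.d (nat_lit 595) (nat_lit 594) (nat_lit 559) (nat_lit 596) (nat_lit 560)))) (.p (nat_lit 593) (.a (.f (nat_lit 625) (nat_lit 657) (nat_lit 7696) (.d (nat_lit 496) (nat_lit 464) (nat_lit 4560) (nat_lit 592) (nat_lit 4592))) (.a (.f (nat_lit 530) (nat_lit 531) (nat_lit 2575) (.f (nat_lit 625) (nat_lit 657) (nat_lit 7696) (.d (nat_lit 594) (nat_lit 498) (nat_lit 5617) (nat_lit 595) (nat_lit 559)))) (.f (nat_lit 594) (nat_lit 595) (nat_lit 559) (.f (nat_lit 496) (nat_lit 464) (nat_lit 4560) (.f (nat_lit 530) (nat_lit 531) (nat_lit 2575) (.f (nat_lit 498) (nat_lit 466) (nat_lit 5585) (.f (nat_lit 497) (nat_lit 465) (nat_lit 7633) (.d (nat_lit 499) (nat_lit 467) (nat_lit 6610) (nat_lit 527) (nat_lit 1519))))))))))))) (.a (.p (nat_lit 558) (.a (.f (nat_lit 593) (nat_lit 594) (nat_lit 558) (.f (nat_lit 592) (nat_lit 557) (nat_lit 557) (.d (nat_lit 496) (nat_lit 464) (nat_lit 4560) (nat_lit 625) (nat_lit 4592)))) (.f (nat_lit 590) (nat_lit 589) (nat_lit 1581) (.f (nat_lit 562) (nat_lit 591) (nat_lit 1582) (.f (nat_lit 563) (nat_lit 527) (nat_lit 3599) (.d (nat_lit 531) (nat_lit 530) (nat_lit 2575) (nat_lit 532) (nat_lit 2576))))))) (.a (.p (nat_lit 562) (.a (.d (nat_lit 527) (nat_lit 526) (nat_lit 3598) (nat_lit 563) (nat_lit 3599)) (.f (nat_lit 594) (nat_lit 595) (nat_lit 559) (.f (nat_lit 593) (nat_lit 558) (nat_lit 558) (.f (nat_lit 530) (nat_lit 531) (nat_lit 2575) (.d (nat_lit 498) (nat_lit 466) (nat_lit 5585) (nat_lit 625) (nat_lit 5617))))))) (.p (nat_lit 558) (.a (.f (nat_lit 526) (nat_lit 525) (nat_lit 3597) (.f (nat_lit 562) (nat_lit 527) (nat_lit 3598) (.d (nat_lit 590) (nat_lit 589) (nat_lit 1581) (nat_lit 591) (nat_lit 1582)))) (.a (.f (nat_lit 525) (nat_lit 526) (nat_lit 3597) (.f (nat_lit 557) (nat_lit 524) (nat_lit 3596) (.d (nat_lit 589) (nat_lit 588) (nat_lit 1580) (nat_lit 590) (nat_lit 1581)))) (.a (.f (nat_lit 590) (nat_lit 589) (nat_lit 1581) (.f (nat_lit 562) (nat_lit 591) (nat_lit 1582) (.f (nat_lit 563) (nat_lit 527) (nat_lit 3599) (.d (nat_lit 531) (nat_lit 530) (nat_lit 2575) (nat_lit 532) (nat_lit 2576))))) (.a (.f (nat_lit 525) (nat_lit 526) (nat_lit 3597) (.f (nat_lit 557) (nat_lit 524) (nat_lit 3596) (.f (nat_lit 556) (nat_lit 527) (nat_lit 2572) (.d (nat_lit 588) (nat_lit 587) (nat_lit 1579) (nat_lit 589) (nat_lit 1580))))) (.f (nat_lit 526) (nat_lit 525) (nat_lit 3597) (.f (nat_lit 562) (nat_lit 527) (nat_lit 3598) (.f (nat_lit 591) (nat_lit 590) (nat_lit 1582) (.f (nat_lit 592) (nat_lit 563) (nat_lit 1583) (.d (nat_lit 557) (nat_lit 556) (nat_lit 556) (nat_lit 593) (nat_lit 557))))))))))))))))))))))))))))))))))))))))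
noncomputable def s116635 : Cert := .r (nat_lit 4717453032125294316178574421874326325093954885348316367260111900657258793138255112583793827655798201532923673547783478224763190270811139418251553991950010913431444520960) (.p (nat_lit 590) (.a (.f (nat_lit 495) (nat_lit 463) (nat_lit 6606) (.f (nat_lit 525) (nat_lit 497) (nat_lit 1517) (.d (nat_lit 493) (nat_lit 461) (nat_lit 7629) (nat_lit 524) (nat_lit 1516)))) (.a (.f (nat_lit 589) (nat_lit 621) (nat_lit 5613) (.f (nat_lit 462) (nat_lit 557) (nat_lit 5581) (.d (nat_lit 461) (nat_lit 429) (nat_lit 7597) (nat_lit 493) (nat_lit 7629)))) (.a (.f (nat_lit 495) (nat_lit 463) (nat_lit 6606) (.f (nat_lit 497) (nat_lit 525) (nat_lit 1517) (.f (nat_lit 462) (nat_lit 461) (nat_lit 3533) (.d (nat_lit 589) (nat_lit 557) (nat_lit 5581) (nat_lit 621) (nat_lit 5613))))) (.f (nat_lit 495) (nat_lit 463) (nat_lit 6606) (.f (nat_lit 525) (nat_lit 497) (nat_lit 1517) (.d (nat_lit 524)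 (nat_lit 493) (nat_lit 1516) (nat_lit 523) (nat_lit 2539))))))))
noncomputable def s116637 : Cert := .r (nat_lit 4717453032125294316178574421874326325093954885348316367260111900657258793138255112583793827655798201532923673547783478224763190270811139418251553991950010913431444520960) (.p (nat_lit 590) (.a (.f (nat_lit 589) (nat_lit 621) (nat_lit 5613) (.f (nat_lit 462) (nat_lit 557) (nat_lit 5581) (.d (nat_lit 461) (nat_lit 429) (nat_lit 7597) (nat_lit 493) (nat_lit 7629)))) (.a (.f (nat_lit 591) (nat_lit 623) (nat_lit 4590) (.f (nat_lit 559) (nat_lit 462) (nat_lit 4558) (.d (nat_lit 589) (nat_lit 588) (nat_lit 2604) (nat_lit 621) (nat_lit 5613)))) (.a (.f (nat_lit 591) (nat_lit 623) (nat_lit 4590) (.f (nat_lit 462) (nat_lit 559) (nat_lit 4558) (.d (nat_lit 463) (nat_lit 431) (nat_lit 6574) (nat_lit 495) (nat_lit 6606)))) (.f (nat_lit 589) (nat_lit 621) (nat_lit 5613) (.f (nat_lit 559) (nat_lit 561) (nat_lit 1581)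 (.d (nat_lit 588) (nat_lit 557) (nat_lit 1580) (nat_lit 587) (nat_lit 2603))))))))
noncomputable def s116665 : Cert := .r (nat_lit 4717453032125294316178574421874326325093954885348316367260111900657258793138255112583793827655798201532923673547783478224763190270811139418251553991950010913431444520960) (.p (nat_lit 590) (.a (.f (nat_lit 589) (nat_lit 621) (nat_lit 5613) (.f (nat_lit 462) (nat_lit 557) (nat_lit 5581) (.d (nat_lit 461) (nat_lit 429) (nat_lit 7597) (nat_lit 493) (nat_lit 7629)))) (.a (.f (nat_lit 495) (nat_lit 463) (nat_lit 6606) (.f (nat_lit 461) (nat_lit 493) (nat_lit 7629) (.d (nat_lit 462) (nat_lit 429) (nat_lit 7597) (nat_lit 497) (nat_lit 3533)))) (.a (.f (nat_lit 495) (nat_lit 463) (nat_lit 6606) (.f (nat_lit 493) (nat_lit 461) (nat_lit 7629) (.d (nat_lit 527) (nat_lit 492) (nat_lit 492) (nat_lit 622) (nat_lit 6638)))) (.a (.f (nat_lit 589) (nat_lit 621) (nat_lit 5613) (.f (nat_lit 462) (nat_lit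 557) (nat_lit 5581) (.f (nat_lit 429) (nat_lit 461) (nat_lit 7597) (.f (nat_lit 430) (nat_lit 397) (nat_lit 7565) (.d (nat_lit 431) (nat_lit 399) (nat_lit 6542) (nat_lit 463) (nat_lit 6574)))))) (.f (nat_lit 495) (nat_lit 463) (nat_lit 6606) (.f (nat_lit 622) (nat_lit 527) (nat_lit 6638) (.d (nat_lit 621) (nat_lit 589) (nat_lit 5613) (nat_lit 653) (nat_lit 5645)))))))))
noncomputable def s116672 : Cert := .r (nat_lit 4717453032125294316178574421874326325093954885348316367260111900657258793138255112583793827655798201532923673547783478224763190270811139418251553991950010913431444520960) (.p (nat_lit 590) (.a (.f (nat_lit 495) (nat_lit 463) (nat_lit 6606) (.f (nat_lit 525) (nat_lit 497) (nat_lit 1517) (.d (nat_lit 493) (nat_lit 461) (nat_lit 7629) (nat_lit 524) (nat_lit 1516)))) (.a (.f (nat_lit 493) (nat_lit 461) (nat_lit 7629) (.f (nat_lit 525) (nat_lit 622) (nat_lit 7661) (.d (nat_lit 527) (nat_lit 492) (nat_lit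 3564) (nat_lit 561) (nat_lit 525)))) (.a (.f (nat_lit 495) (nat_lit 463) (nat_lit 6606) (.f (nat_lit 461) (nat_lit 493) (nat_lit 7629) (.d (nat_lit 462) (nat_lit 429) (nat_lit 7597) (nat_lit 497) (nat_lit 3533)))) (.f (nat_lit 495) (nat_lit 463) (nat_lit 6606) (.f (nat_lit 622) (nat_lit 527) (nat_lit 6638) (.d (nat_lit 621) (nat_lit 589) (nat_lit 5613) (nat_lit 653) (nat_lit 5645))))))))
noncomputable def s116682 : Cert := .r (nat_lit 4717453032125294316178574421874326325093954885348316367260111900657258793138255112583793827655798201532923673547783478224763190270811139418251553991950010913431444520960) (.p (nat_lit 590) (.a (.f (nat_lit 495) (nat_lit 463) (nat_lit 6606) (.f (nat_lit 525) (nat_lit 497) (nat_lit 1517) (.d (nat_lit 524) (nat_lit 493) (nat_lit 1516) (nat_lit 523) (nat_lit 2539)))) (.a (.f (nat_lit 589) (nat_lit 621) (nat_lit 5613) (.f (nat_lit 557) (nat_lit 462) (nat_lit 5581) (.f (nat_lit 591) (nat_lit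 623) (nat_lit 4590) (.f (nat_lit 556) (nat_lit 555) (nat_lit 555) (.f (nat_lit 525) (nat_lit 527) (nat_lit 1548) (.d (nat_lit 622) (nat_lit 493) (nat_lit 7661) (nat_lit 654) (nat_lit 7693))))))) (.f (nat_lit 495) (nat_lit 463) (nat_lit 6606) (.f (nat_lit 622) (nat_lit 527) (nat_lit 6638) (.d (nat_lit 621) (nat_lit 589) (nat_lit 5613) (nat_lit 653) (nat_lit 5645)))))))
noncomputable def s116695 : Cert := .r (nat_lit 4717453032125294316178574421874326325093954885348316367260111900657258793138255112583793827655798201532923673547783478224763190270811139418251553991950010913431444520960) (.p (nat_lit 590) (.a (.f (nat_lit 495) (nat_lit 463) (nat_lit 6606) (.f (nat_lit 525) (nat_lit 497) (nat_lit 1517) (.d (nat_lit 493) (nat_lit 461) (nat_lit 7629) (nat_lit 524) (nat_lit 1516)))) (.a (.f (nat_lit 493) (nat_lit 461) (nat_lit 7629) (.f (nat_lit 525) (nat_lit 622) (nat_lit 7661) (.d (nat_lit 527) (nat_lit 492) (nat_lit 3564)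 (nat_lit 497) (nat_lit 2541)))) (.a (.f (nat_lit 495) (nat_lit 463) (nat_lit 6606) (.f (nat_lit 493) (nat_lit 461) (nat_lit 7629) (.d (nat_lit 527) (nat_lit 492) (nat_lit 492) (nat_lit 622) (nat_lit 6638)))) (.f (nat_lit 495) (nat_lit 463) (nat_lit 6606) (.f (nat_lit 622) (nat_lit 527) (nat_lit 6638) (.d (nat_lit 621) (nat_lit 589) (nat_lit 5613) (nat_lit 653) (nat_lit 5645))))))))
noncomputable def s116730 : Cert := .r (nat_lit 6604434244316391467124025473240662728262854823590983415090244245710025156304715729131630106007882636882440220111299666254638490689092506009022318882134530763482202112000) (.p (nat_lit 561) (.a (.f (nat_lit 593) (nat_lit 594) (nat_lit 558) (.f (nat_lit 592) (nat_lit 557) (nat_lit 557) (.f (nat_lit 591) (nat_lit 623) (nat_lit 5615) (.d (nat_lit 590) (nat_lit 562) (nat_lit 2606) (nat_lit 589) (nat_lit 1581))))) (.a (.f (nat_lit 590) (nat_lit 589) (nat_lit 1581) (.f (nat_lit 526) (nat_lit 525)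 (nat_lit 3597) (.f (nat_lit 591) (nat_lit 562) (nat_lit 1582) (.d (nat_lit 494) (nat_lit 462) (nat_lit 4558) (nat_lit 623) (nat_lit 4590))))) (.f (nat_lit 525) (nat_lit 526) (nat_lit 3597) (.f (nat_lit 557) (nat_lit 524) (nat_lit 3596) (.d (nat_lit 593) (nat_lit 592) (nat_lit 557) (nat_lit 594) (nat_lit 558)))))))
noncomputable def s116750 : Cert := .r (nat_lit 4052261304339778930583338296634104545655675577507714191695614455720858154956066098717117025987761148785372794027455192806505912941247689970388685830202669147282585023682170585088) (.p (nat_lit 622) (.a (.f (nat_lit 623) (nat_lit 655) (nat_lit 4622) (.f (nat_lit 591) (nat_lit 494) (nat_lit 4590) (.f (nat_lit 654) (nat_lit 686) (nat_lit 6702) (.d (nat_lit 653) (nat_lit 621) (nat_lit 5645) (nat_lit 685) (nat_lit 5677))))) (.a (.f (nat_lit 655) (nat_lit 623) (nat_lit 4622) (.f (nat_lit 654) (nat_lit 687) (nat_lit 4654) (.d (nat_lit 653) (nat_lit 621) (nat_lit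 5645) (nat_lit 685) (nat_lit 5677)))) (.a (.f (nat_lit 653) (nat_lit 621) (nat_lit 5645) (.f (nat_lit 654) (nat_lit 685) (nat_lit 5677) (.f (nat_lit 687) (nat_lit 655) (nat_lit 4654) (.d (nat_lit 686) (nat_lit 591) (nat_lit 6702) (nat_lit 719) (nat_lit 4686))))) (.a (.f (nat_lit 653) (nat_lit 621) (nat_lit 5645) (.f (nat_lit 654) (nat_lit 685) (nat_lit 5677) (.f (nat_lit 591) (nat_lit 686) (nat_lit 6702) (.d (nat_lit 494) (nat_lit 462) (nat_lit 4558) (nat_lit 623) (nat_lit 4590))))) (.f (nat_lit 623) (nat_lit 655) (nat_lit 4622) (.f (nat_lit 494) (nat_lit 591) (nat_lit 4590) (.f (nat_lit 461) (nat_lit 493) (nat_lit 7629) (.f (nat_lit 462) (nat_lit 429) (nat_lit 7597) (.d (nat_lit 463) (nat_lit 431) (nat_lit 6574) (nat_lit 495) (nat_lit 6606)))))))))))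
noncomputable def s116758 : Cert := .r (nat_lit 6604434244316391467124025473240662728262854823590983415090244245710025156304715729131630106007882636882440220111299666254638490689092506009022318882134530763482202112000) (.p (nat_lit 557) (.a (.f (nat_lit 592) (nat_lit 593) (nat_lit 557) (.d (nat_lit 591) (nat_lit 556) (nat_lit 556) (nat_lit 623) (nat_lit 5615))) (.a (.f (nat_lit 588) (nat_lit 589) (nat_lit 1580) (.f (nat_lit 556) (nat_lit 587) (nat_lit 1579) (.d (nat_lit 524) (nat_lit 523) (nat_lit 3595) (nat_lit 525) (nat_lit 3596)))) (.f (nat_lit 592) (nat_lit 593) (nat_lit 557) (.f (nat_lit 589) (nat_lit 588) (nat_lit 1580) (.f (nat_lit 525) (nat_lit 524) (nat_lit 3596) (.f (nat_lit 495) (nat_lit 463) (nat_lit 7631) (.f (nat_lit 497) (nat_lit 465) (nat_lit 6608) (.f (nat_lit 494) (nat_lit 526) (nat_lit 1517) (.d (nat_lit 462) (nat_lit 461) (nat_lit 3533) (nat_lit 493) (nat_lit 6605)))))))))))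
noncomputable def s116759 : Cert := .r (nat_lit 6604434244316391467124025473240662728262854823590983415090244245710025156304715729131630106007882636882440220111299666254638490689092506009022318882134530763482202112000) (.p (nat_lit 557) (.a (.f (nat_lit 588) (nat_lit 589) (nat_lit 1580) (.f (nat_lit 556) (nat_lit 587) (nat_lit 1579) (.d (nat_lit 524) (nat_lit 523) (nat_lit 3595) (nat_lit 525) (nat_lit 3596)))) (.a (.f (nat_lit 589) (nat_lit 588) (nat_lit 1580) (.f (nat_lit 561) (nat_lit 590) (nat_lit 1581) (.d (nat_lit 593) (nat_lit 592) (nat_lit 557) (nat_lit 594) (nat_lit 558)))) (.f (nat_lit 592) (nat_lit 593) (nat_lit 557) (.f (nat_lit 525) (nat_lit 524) (nat_lit 3596) (.f (nat_lit 526) (nat_lit 561) (nat_lit 3597) (.f (nat_lit 495) (nat_lit 463) (nat_lit 7631) (.d (nat_lit 497) (nat_lit 465) (nat_lit 6608) (nat_lit 494) (nat_lit 1517)))))))))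
noncomputable def s116760 : Cert := .r (nat_lit 6604434244316391467124025473240662728262854823590983415090244245710025156304715729131630106007882636882440220111299666254638490689092506009022318882134530763482202112000) (.p (nat_lit 561) (.a (.f (nat_lit 593) (nat_lit 594) (nat_lit 558) (.f (nat_lit 592) (nat_lit 557) (nat_lit 557) (.f (nat_lit 591) (nat_lit 623) (nat_lit 5615) (.d (nat_lit 590) (nat_lit 562) (nat_lit 2606) (nat_lit 589) (nat_lit 1581))))) (.a (.f (nat_lit 590) (nat_lit 589) (nat_lit 1581) (.f (nat_lit 562) (nat_lit 591) (nat_lit 1582) (.d (nat_lit 594) (nat_lit 593) (nat_lit 558) (nat_lit 595) (nat_lit 559)))) (.a (.f (nat_lit 593) (nat_lit 594) (nat_lit 558) (.f (nat_lit 557) (nat_lit 592) (nat_lit 557) (.d (nat_lit 589) (nat_lit 588) (nat_lit 1580) (nat_lit 590) (nat_lit 1581)))) (.a (.f (nat_lit 593) (nat_lit 594) (nat_lit 558) (.f (nat_lit 557) (nat_lit 592) (nat_lit 557) (.f (nat_lit 588) (nat_lit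 589) (nat_lit 1580) (.f (nat_lit 556) (nat_lit 587) (nat_lit 1579) (.d (nat_lit 524) (nat_lit 523) (nat_lit 3595) (nat_lit 525) (nat_lit 3596)))))) (.a (.f (nat_lit 593) (nat_lit 594) (nat_lit 558) (.f (nat_lit 592) (nat_lit 557) (nat_lit 557) (.f (nat_lit 591) (nat_lit 623) (nat_lit 5615) (.d (nat_lit 562) (nat_lit 563) (nat_lit 1583) (nat_lit 590) (nat_lit 2606))))) (.f (nat_lit 590) (nat_lit 589) (nat_lit 1581) (.f (nat_lit 591) (nat_lit 562) (nat_lit 1582) (.d (nat_lit 623) (nat_lit 592) (nat_lit 5615) (nat_lit 655) (nat_lit 6671))))))))))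
noncomputable def s116762 : Cert := .r (nat_lit 6604434244316391467124025473240662728262854823590983415090244245710025156304715729131630106007882636882440220111299666254638490689092506009022318882134530763482202112000) (.p (nat_lit 561) (.a (.f (nat_lit 593) (nat_lit 594) (nat_lit 558) (.f (nat_lit 592) (nat_lit 557) (nat_lit 557) (.f (nat_lit 591) (nat_lit 623) (nat_lit 5615) (.d (nat_lit 590) (nat_lit 562) (nat_lit 2606) (nat_lit 589) (nat_lit 1581))))) (.a (.f (nat_lit 590) (nat_lit 589) (nat_lit 1581) (.f (nat_lit 562) (nat_lit 591) (nat_lit 1582) (.d (nat_lit 594) (nat_lit 593) (nat_lit 558) (nat_lit 595) (nat_lit 559)))) (.a (.f (nat_lit 593) (nat_lit 594) (nat_lit 558) (.f (nat_lit 557) (nat_lit 592) (nat_lit 557) (.d (nat_lit 589) (nat_lit 588) (nat_lit 1580) (nat_lit 590) (nat_lit 1581)))) (.a (.p (nat_lit 562) (.a (.d (nat_lit 594) (nat_lit 593) (nat_lit 558) (nat_lit 595) (nat_lit 559)) (.a (.f (nat_lit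 531) (nat_lit 530) (nat_lit 2575) (.f (nat_lit 563) (nat_lit 532) (nat_lit 2576) (.d (nat_lit 595) (nat_lit 594) (nat_lit 559) (nat_lit 596) (nat_lit 560)))) (.f (nat_lit 531) (nat_lit 530) (nat_lit 2575) (.f (nat_lit 563) (nat_lit 532) (nat_lit 2576) (.f (nat_lit 592) (nat_lit 591) (nat_lit 1583) (.d (nat_lit 593) (nat_lit 557) (nat_lit 557) (nat_lit 564) (nat_lit 1584)))))))) (.f (nat_lit 590) (nat_lit 589) (nat_lit 1581) (.f (nat_lit 591) (nat_lit 562) (nat_lit 1582) (.d (nat_lit 623) (nat_lit 592) (nat_lit 5615) (nat_lit 655) (nat_lit 6671)))))))))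
noncomputable def s116763 : Cert := .r (nat_lit 6604434244536064992299351712368460770552415495556536581448215050780070874334329538626857190244627585303657861063165400674648482585773535734532271117666358935256142184448) (.p (nat_lit 590) (.a (.f (nat_lit 495) (nat_lit 463) (nat_lit 6606) (.f (nat_lit 525) (nat_lit 497) (nat_lit 1517) (.d (nat_lit 493) (nat_lit 461) (nat_lit 7629) (nat_lit 524) (nat_lit 1516)))) (.a (.f (nat_lit 493) (nat_lit 461) (nat_lit 7629) (.f (nat_lit 622) (nat_lit 525) (nat_lit 7661) (.d (nat_lit 621) (nat_lit 589) (nat_lit 5613) (nat_lit 653) (nat_lit 5645)))) (.a (.f (nat_lit 461) (nat_lit 493) (nat_lit 7629) (.f (nat_lit 462) (nat_lit 429) (nat_lit 7597) (.d (nat_lit 463) (nat_lit 431) (nat_lit 6574) (nat_lit 495) (nat_lit 6606)))) (.f (nat_lit 495) (nat_lit 463) (nat_lit 6606) (.f (nat_lit 497) (nat_lit 525) (nat_lit 1517) (.d (nat_lit 465) (nat_lit 466) (nat_lit 2510) (nat_lit 592) (nat_lit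 6608))))))))
noncomputable def s116806 : Cert := .r (nat_lit 4717453031905620791156688367491659932961262480421556911162296191495481737115670585968073015125522372871859318173694501171201011692609488021298660657006560541032279179264) (.p (nat_lit 493) (.a (.f (nat_lit 492) (nat_lit 527) (nat_lit 492) (.d (nat_lit 460) (nat_lit 459) (nat_lit 3531) (nat_lit 461) (nat_lit 3532))) (.a (.f (nat_lit 461) (nat_lit 460) (nat_lit 3532) (.f (nat_lit 526) (nat_lit 590) (nat_lit 7629) (.d (nat_lit 462) (nat_lit 429) (nat_lit 7597) (nat_lit 497) (nat_lit 3533)))) (.a (.f (nat_lit 492) (nat_lit 527) (nat_lit 492) (.f (nat_lit 523) (nat_lit 524) (nat_lit 1515) (.f (nat_lit 491) (nat_lit 522) (nat_lit 1514) (.d (nat_lit 459) (nat_lit 458) (nat_lit 3530) (nat_lit 460) (nat_lit 3531))))) (.f (nat_lit 492) (nat_lit 527) (nat_lit 492) (.f (nat_lit 523) (nat_lit 524) (nat_lit 1515) (.f (nat_lit 491) (nat_lit 522) (nat_lit 1514) (.f (nat_lit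 462) (nat_lit 463) (nat_lit 2507) (.d (nat_lit 461) (nat_lit 490) (nat_lit 2506) (nat_lit 497) (nat_lit 3533))))))))))
noncomputable def s116860 : Cert := .r (nat_lit 4717453031905620791156688367491659932961262480421556911162296191495481737115670585968073015125522372871859318173694501171201011692609488021298660657006560541032279179264) (.p (nat_lit 525) (.a (.f (nat_lit 493) (nat_lit 524) (nat_lit 1516) (.f (nat_lit 461) (nat_lit 460) (nat_lit 3532) (.f (nat_lit 462) (nat_lit 497) (nat_lit 3533) (.d (nat_lit 557) (nat_lit 430) (nat_lit 6573) (nat_lit 590) (nat_lit 4557))))) (.a (.f (nat_lit 497) (nat_lit 526) (nat_lit 1517) (.f (nat_lit 493) (nat_lit 524) (nat_lit 1516) (.d (nat_lit 461) (nat_lit 460) (nat_lit 3532) (nat_lit 462) (nat_lit 3533)))) (.a (.f (nat_lit 493) (nat_lit 524) (nat_lit 1516) (.f (nat_lit 461) (nat_lit 460) (nat_lit 3532) (.f (nat_lit 557) (nat_lit 590) (nat_lit 4557) (.d (nat_lit 462) (nat_lit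 430) (nat_lit 6573) (nat_lit 589) (nat_lit 6605))))) (.a (.f (nat_lit 493) (nat_lit 524) (nat_lit 1516) (.f (nat_lit 461) (nat_lit 460) (nat_lit 3532) (.d (nat_lit 526) (nat_lit 429) (nat_lit 4525) (nat_lit 497) (nat_lit 1517)))) (.f (nat_lit 497) (nat_lit 526) (nat_lit 1517) (.d (nat_lit 465) (nat_lit 466) (nat_lit 2510) (nat_lit 592) (nat_lit 6608))))))))
noncomputable def s116928 : Cert := .r (nat_lit 4717453031905620791156688367491659932961262480421556911162296191495481737115670585968073015125522372871859318173694501171201011692609488021298660657006560541032279179264) (.p (nat_lit 493) (.a (.f (nat_lit 492) (nat_lit 527) (nat_lit 492) (.d (nat_lit 524) (nat_lit 523) (nat_lit 1515) (nat_lit 525) (nat_lit 1516))) (.a (.f (nat_lit 525) (nat_lit 524) (nat_lit 1516) (.f (nat_lit 497) (nat_lit 526) (nat_lit 1517) (.d (nat_lit 465) (nat_lit 466) (nat_lit 2510) (nat_lit 592) (nat_lit 6608)))) (.a (.f (nat_lit 492) (nat_lit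 527) (nat_lit 492) (.f (nat_lit 523) (nat_lit 524) (nat_lit 1515) (.f (nat_lit 491) (nat_lit 522) (nat_lit 1514) (.d (nat_lit 459) (nat_lit 458) (nat_lit 3530) (nat_lit 460) (nat_lit 3531))))) (.f (nat_lit 527) (nat_lit 492) (nat_lit 492) (.f (nat_lit 592) (nat_lit 624) (nat_lit 7663) (.f (nat_lit 497) (nat_lit 465) (nat_lit 6608) (.d (nat_lit 526) (nat_lit 498) (nat_lit 1518) (nat_lit 525) (nat_lit 2541)))))))))
noncomputable def s116965 : Cert := .r (nat_lit 6604434244316391467124025473240662728262854823590983415090244245710025156304715729131630106007882636882440220111299666254638490689092506009022318882134530763482202112000) (.p (nat_lit 561) (.a (.f (nat_lit 525) (nat_lit 526) (nat_lit 3597) (.f (nat_lit 557) (nat_lit 524) (nat_lit 3596) (.d (nat_lit 593) (nat_lit 592) (nat_lit 557) (nat_lit 594) (nat_lit 558)))) (.a (.f (nat_lit 525) (nat_lit 526) (nat_lit 3597) (.f (nat_lit 557) (nat_lit 524) (nat_lit 3596)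 (.d (nat_lit 589) (nat_lit 588) (nat_lit 1580) (nat_lit 590) (nat_lit 1581)))) (.a (.f (nat_lit 593) (nat_lit 594) (nat_lit 558) (.f (nat_lit 557) (nat_lit 592) (nat_lit 557) (.d (nat_lit 589) (nat_lit 588) (nat_lit 1580) (nat_lit 590) (nat_lit 1581)))) (.f (nat_lit 526) (nat_lit 525) (nat_lit 3597) (.f (nat_lit 562) (nat_lit 527) (nat_lit 3598) (.d (nat_lit 594) (nat_lit 593) (nat_lit 558) (nat_lit 595) (nat_lit 559))))))))
noncomputable def s116979 : Cert := .r (nat_lit 4717453032125294316178574421874326325093954885348316367260111900657258793138255112583793827655798201532923673547783478224763190270811139418251553991950010913431444520960) (.p (nat_lit 590) (.a (.f (nat_lit 495) (nat_lit 463) (nat_lit 6606) (.f (nat_lit 497) (nat_lit 525) (nat_lit 1517) (.f (nat_lit 462) (nat_lit 461) (nat_lit 3533) (.d (nat_lit 589) (nat_lit 557) (nat_lit 5581) (nat_lit 621) (nat_lit 5613))))) (.a (.f (nat_lit 589) (nat_lit 621)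 (nat_lit 5613) (.f (nat_lit 559) (nat_lit 561) (nat_lit 1581) (.d (nat_lit 588) (nat_lit 557) (nat_lit 1580) (nat_lit 587) (nat_lit 2603)))) (.a (.f (nat_lit 495) (nat_lit 463) (nat_lit 6606) (.f (nat_lit 622) (nat_lit 527) (nat_lit 6638) (.d (nat_lit 621) (nat_lit 589) (nat_lit 5613) (nat_lit 653) (nat_lit 5645)))) (.f (nat_lit 495) (nat_lit 463) (nat_lit 6606) (.f (nat_lit 527) (nat_lit 622) (nat_lit 6638) (.d (nat_lit 525) (nat_lit 497) (nat_lit 1517) (nat_lit 561) (nat_lit 525))))))))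
noncomputable def s116982 : Cert := .r (nat_lit 4717453032125294316178574421874326325093954885348316367260111900657258793138255112583793827655798201532923673547783478224763190270811139418251553991950010913431444520960) (.p (nat_lit 590) (.a (.f (nat_lit 589) (nat_lit 621) (nat_lit 5613) (.f (nat_lit 462) (nat_lit 557) (nat_lit 5581) (.d (nat_lit 461) (nat_lit 429) (nat_lit 7597) (nat_lit 493) (nat_lit 7629)))) (.a (.f (nat_lit 493) (nat_lit 461) (nat_lit 7629) (.f (nat_lit 622) (nat_lit 525) (nat_lit 7661) (.d (nat_lit 621) (nat_lit 589) (nat_lit 5613) (nat_lit 653) (nat_lit 5645)))) (.a (.f (nat_lit 493) (nat_lit 461) (nat_lit 7629) (.f (nat_lit 525) (nat_lit 622) (nat_lit 7661) (.f (nat_lit 559) (nat_lit 561) (nat_lit 3597) (.d (nat_lit 524) (nat_lit 523) (nat_lit 523) (nat_lit 557) (nat_lit 3596))))) (.f (nat_lit 589) (nat_lit 621) (nat_lit 5613) (.f (nat_lit 559) (nat_lit 561) (nat_lit 1581) (.d (nat_lit 588)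 (nat_lit 557) (nat_lit 1580) (nat_lit 587) (nat_lit 2603))))))))
noncomputable def s116998 : Cert := .r (nat_lit 4717453032125294316178574421874326325093954885348316367260111900657258793138255112583793827655798201532923673547783478224763190270811139418251553991950010913431444520960) (.p (nat_lit 590) (.a (.f (nat_lit 589) (nat_lit 621) (nat_lit 5613) (.f (nat_lit 462) (nat_lit 557) (nat_lit 5581) (.d (nat_lit 461) (nat_lit 429) (nat_lit 7597) (nat_lit 493) (nat_lit 7629)))) (.a (.f (nat_lit 493) (nat_lit 461) (nat_lit 7629) (.f (nat_lit 525) (nat_lit 622) (nat_lit 7661) (.d (nat_lit 527) (nat_lit 492) (nat_lit 3564) (nat_lit 561) (nat_lit 525)))) (.a (.f (nat_lit 589) (nat_lit 621) (nat_lit 5613) (.f (nat_lit 462) (nat_lit 557) (nat_lit 5581) (.f (nat_lit 429) (nat_lit 461) (nat_lit 7597) (.f (nat_lit 430) (nat_lit 397) (nat_lit 7565) (.d (nat_lit 431) (nat_lit 399) (nat_lit 6542) (nat_lit 463) (nat_lit 6574))))))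 (.f (nat_lit 589) (nat_lit 621) (nat_lit 5613) (.f (nat_lit 462) (nat_lit 557) (nat_lit 5581) (.f (nat_lit 431) (nat_lit 463) (nat_lit 6574) (.f (nat_lit 430) (nat_lit 399) (nat_lit 6542) (.f (nat_lit 397) (nat_lit 429) (nat_lit 7565) (.f (nat_lit 398) (nat_lit 365) (nat_lit 7533) (.f (nat_lit 525) (nat_lit 493) (nat_lit 5517) (.d (nat_lit 527) (nat_lit 497) (nat_lit 2541) (nat_lit 561) (nat_lit 525)))))))))))))
noncomputable def s117000 : Cert := .r (nat_lit 4717453032125294316178574421874326325093954885348316367260111900657258793138255112583793827655798201532923673547783478224763190270811139418251553991950010913431444520960) (.p (nat_lit 590) (.a (.f (nat_lit 495) (nat_lit 463) (nat_lit 6606) (.f (nat_lit 497) (nat_lit 525) (nat_lit 1517) (.f (nat_lit 462) (nat_lit 461) (nat_lit 3533) (.d (nat_lit 589) (nat_lit 557) (nat_lit 5581) (nat_lit 621) (nat_lit 5613))))) (.a (.f (nat_lit 589) (nat_lit 621) (nat_lit 5613)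 (.f (nat_lit 462) (nat_lit 557) (nat_lit 5581) (.f (nat_lit 429) (nat_lit 461) (nat_lit 7597) (.f (nat_lit 430) (nat_lit 397) (nat_lit 7565) (.d (nat_lit 431) (nat_lit 399) (nat_lit 6542) (nat_lit 463) (nat_lit 6574)))))) (.a (.f (nat_lit 589) (nat_lit 621) (nat_lit 5613) (.f (nat_lit 462) (nat_lit 557) (nat_lit 5581) (.f (nat_lit 461) (nat_lit 429) (nat_lit 7597) (.f (nat_lit 495) (nat_lit 497) (nat_lit 3533) (.f (nat_lit 527) (nat_lit 622) (nat_lit 6638) (.d (nat_lit 525) (nat_lit 524) (nat_lit 2540) (nat_lit 561) (nat_lit 525))))))) (.a (.f (nat_lit 495) (nat_lit 463) (nat_lit 6606) (.f (nat_lit 622) (nat_lit 527) (nat_lit 6638) (.d (nat_lit 621) (nat_lit 589) (nat_lit 5613) (nat_lit 653) (nat_lit 5645)))) (.f (nat_lit 495) (nat_lit 463) (nat_lit 6606) (.f (nat_lit 527) (nat_lit 622) (nat_lit 6638) (.d (nat_lit 525) (nat_lit 497) (nat_lit 1517) (nat_lit 561) (nat_lit 525)))))))))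
noncomputable def s117007 : Cert := .r (nat_lit 4717453032125294316178574421874326325093954885348316367260111900657258793138255112583793827655798201532923673547783478224763190270811139418251553991950010913431444520960) (.p (nat_lit 590) (.a (.f (nat_lit 589) (nat_lit 621) (nat_lit 5613) (.f (nat_lit 462) (nat_lit 557) (nat_lit 5581) (.d (nat_lit 461) (nat_lit 429) (nat_lit 7597) (nat_lit 493) (nat_lit 7629)))) (.a (.f (nat_lit 493) (nat_lit 461) (nat_lit 7629) (.f (nat_lit 525) (nat_lit 622) (nat_lit 7661) (.d (nat_lit 527) (nat_lit 492) (nat_lit 3564) (nat_lit 497) (nat_lit 2541)))) (.a (.f (nat_lit 589) (nat_lit 621) (nat_lit 5613) (.f (nat_lit 462) (nat_lit 557) (nat_lit 5581) (.f (nat_lit 429) (nat_lit 461) (nat_lit 7597) (.f (nat_lit 430) (nat_lit 397) (nat_lit 7565) (.d (nat_lit 431) (nat_lit 399) (nat_lit 6542) (nat_lit 463) (nat_lit 6574)))))) (.f (nat_lit 589) (nat_lit 621) (nat_lit 5613) (.f (nat_lit 557)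 (nat_lit 462) (nat_lit 5581) (.f (nat_lit 559) (nat_lit 588) (nat_lit 1580) (.f (nat_lit 525) (nat_lit 524) (nat_lit 3596) (.d (nat_lit 527) (nat_lit 497) (nat_lit 2541) (nat_lit 556) (nat_lit 2572))))))))))
noncomputable def s117010 : Cert := .r (nat_lit 4717453032125294316178574421874326325093954885348316367260111900657258793138255112583793827655798201532923673547783478224763190270811139418251553991950010913431444520960) (.p (nat_lit 590) (.a (.f (nat_lit 495) (nat_lit 463) (nat_lit 6606) (.f (nat_lit 497) (nat_lit 525) (nat_lit 1517) (.f (nat_lit 462) (nat_lit 461) (nat_lit 3533) (.d (nat_lit 589) (nat_lit 557) (nat_lit 5581) (nat_lit 621) (nat_lit 5613))))) (.a (.f (nat_lit 589) (nat_lit 621) (nat_lit 5613) (.f (nat_lit 462) (nat_lit 557) (nat_lit 5581) (.f (nat_lit 429) (nat_lit 461) (nat_lit 7597) (.f (nat_lit 430) (nat_lit 397) (nat_lit 7565) (.d (nat_lit 431) (nat_lit 399) (nat_lit 6542) (nat_lit 463) (nat_lit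 6574)))))) (.a (.f (nat_lit 589) (nat_lit 621) (nat_lit 5613) (.f (nat_lit 557) (nat_lit 462) (nat_lit 5581) (.f (nat_lit 559) (nat_lit 588) (nat_lit 1580) (.f (nat_lit 525) (nat_lit 524) (nat_lit 3596) (.d (nat_lit 527) (nat_lit 497) (nat_lit 2541) (nat_lit 556) (nat_lit 2572)))))) (.a (.f (nat_lit 495) (nat_lit 463) (nat_lit 6606) (.f (nat_lit 622) (nat_lit 527) (nat_lit 6638) (.d (nat_lit 621) (nat_lit 589) (nat_lit 5613) (nat_lit 653) (nat_lit 5645)))) (.f (nat_lit 495) (nat_lit 463) (nat_lit 6606) (.f (nat_lit 497) (nat_lit 525) (nat_lit 1517) (.d (nat_lit 465) (nat_lit 466) (nat_lit 2510) (nat_lit 592) (nat_lit 6608)))))))))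
noncomputable def s117018 : Cert := .r (nat_lit 4717453032125294316178574421874326325093954885348316367260111900657258793138255112583793827655798201532923673547783478224763190270811139418251553991950010913431444520960) (.p (nat_lit 462) (.a (.f (nat_lit 589) (nat_lit 557) (nat_lit 5581) (.f (nat_lit 590) (nat_lit 621) (nat_lit 5613) (.d (nat_lit 461) (nat_lit 429) (nat_lit 7597) (nat_lit 493) (nat_lit 7629)))) (.a (.f (nat_lit 461) (nat_lit 429) (nat_lit 7597) (.f (nat_lit 431) (nat_lit 463) (nat_lit 6574) (.f (nat_lit 430) (nat_lit 399) (nat_lit 6542) (.f (nat_lit 590) (nat_lit 493) (nat_lit 7629) (.f (nat_lit 559) (nat_lit 527) (nat_lit 4526) (.d (nat_lit 589) (nat_lit 561) (nat_lit 1581) (nat_lit 621) (nat_lit 5613))))))) (.a (.f (nat_lit 429) (nat_lit 461) (nat_lit 7597) (.f (nat_lit 430) (nat_lit 397) (nat_lit 7565) (.d (nat_lit 431) (nat_lit 399) (nat_lit 6542) (nat_lit 463) (nat_lit 6574)))) (.f (nat_lit 589)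 (nat_lit 557) (nat_lit 5581) (.f (nat_lit 590) (nat_lit 621) (nat_lit 5613) (.f (nat_lit 559) (nat_lit 561) (nat_lit 1581) (.f (nat_lit 430) (nat_lit 527) (nat_lit 4526) (.d (nat_lit 431) (nat_lit 399) (nat_lit 6542) (nat_lit 463) (nat_lit 6574))))))))))
noncomputable def s117025 : Cert := .r (nat_lit 4717453032125294316178574421874326325093954885348316367260111900657258793138255112583793827655798201532923673547783478224763190270811139418251553991950010913431444520960) (.p (nat_lit 590) (.a (.f (nat_lit 493) (nat_lit 461) (nat_lit 7629) (.f (nat_lit 525) (nat_lit 622) (nat_lit 7661) (.d (nat_lit 527) (nat_lit 492) (nat_lit 3564) (nat_lit 561) (nat_lit 525)))) (.a (.f (nat_lit 493) (nat_lit 461) (nat_lit 7629) (.f (nat_lit 622) (nat_lit 525) (nat_lit 7661) (.d (nat_lit 621) (nat_lit 589) (nat_lit 5613) (nat_lit 653) (nat_lit 5645)))) (.a (.f (nat_lit 589) (nat_lit 621) (nat_lit 5613) (.f (nat_lit 559) (nat_lit 561)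 (nat_lit 1581) (.f (nat_lit 461) (nat_lit 493) (nat_lit 7629) (.f (nat_lit 462) (nat_lit 429) (nat_lit 7597) (.f (nat_lit 431) (nat_lit 463) (nat_lit 6574) (.d (nat_lit 430) (nat_lit 399) (nat_lit 6542) (nat_lit 527) (nat_lit 4526))))))) (.f (nat_lit 621) (nat_lit 589) (nat_lit 5613) (.f (nat_lit 622) (nat_lit 653) (nat_lit 5645) (.f (nat_lit 655) (nat_lit 623) (nat_lit 4622) (.f (nat_lit 654) (nat_lit 687) (nat_lit 4654) (.f (nat_lit 527) (nat_lit 559) (nat_lit 6670) (.d (nat_lit 525) (nat_lit 497) (nat_lit 2541) (nat_lit 561) (nat_lit 525)))))))))))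
noncomputable def s117047 : Cert := .r (nat_lit 4717453032125294316178574421874326325093954885348316367260111900657258793138255112583793827655798201532923673547783478224763190270811139418251553991950010913431444520960) (.p (nat_lit 590) (.a (.f (nat_lit 495) (nat_lit 463) (nat_lit 6606) (.f (nat_lit 461) (nat_lit 493) (nat_lit 7629) (.d (nat_lit 462) (nat_lit 429) (nat_lit 7597) (nat_lit 497) (nat_lit 3533)))) (.a (.f (nat_lit 589) (nat_lit 621) (nat_lit 5613) (.f (nat_lit 559) (nat_lit 561) (nat_lit 1581) (.f (nat_lit 461) (nat_lit 493) (nat_lit 7629) (.f (nat_lit 462) (nat_lit 429) (nat_lit 7597) (.f (nat_lit 431) (nat_lit 463) (nat_lit 6574) (.d (nat_lit 430) (nat_lit 399) (nat_lit 6542) (nat_lit 527) (nat_lit 4526))))))) (.a (.f (nat_lit 461) (nat_lit 493) (nat_lit 7629) (.f (nat_lit 462) (nat_lit 429) (nat_lit 7597) (.f (nat_lit 495) (nat_lit 497) (nat_lit 3533) (.f (nat_lit 527) (nat_lit 622) (nat_lit 6638)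 (.d (nat_lit 430) (nat_lit 398) (nat_lit 4494) (nat_lit 559) (nat_lit 4526)))))) (.a (.f (nat_lit 495) (nat_lit 463) (nat_lit 6606) (.f (nat_lit 493) (nat_lit 461) (nat_lit 7629) (.d (nat_lit 527) (nat_lit 492) (nat_lit 492) (nat_lit 622) (nat_lit 6638)))) (.f (nat_lit 495) (nat_lit 463) (nat_lit 6606) (.f (nat_lit 622) (nat_lit 527) (nat_lit 6638) (.d (nat_lit 621) (nat_lit 589) (nat_lit 5613) (nat_lit 653) (nat_lit 5645)))))))))
noncomputable def s117053 : Cert := .r (nat_lit 4717453032125294316178574421874326325093954885348316367260111900657258793138255112583793827655798201532923673547783478224763190270811139418251553991950010913431444520960) (.p (nat_lit 462) (.a (.f (nat_lit 461) (nat_lit 429) (nat_lit 7597) (.f (nat_lit 495) (nat_lit 497) (nat_lit 3533) (.d (nat_lit 460) (nat_lit 459) (nat_lit 459) (nat_lit 493) (nat_lit 3532)))) (.a (.f (nat_lit 429) (nat_lit 461) (nat_lit 7597) (.f (nat_lit 430) (nat_lit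 397) (nat_lit 7565) (.d (nat_lit 431) (nat_lit 399) (nat_lit 6542) (nat_lit 463) (nat_lit 6574)))) (.f (nat_lit 463) (nat_lit 431) (nat_lit 6574) (.f (nat_lit 592) (nat_lit 495) (nat_lit 7631) (.f (nat_lit 557) (nat_lit 589) (nat_lit 5581) (.f (nat_lit 559) (nat_lit 593) (nat_lit 557) (.d (nat_lit 527) (nat_lit 430) (nat_lit 4526) (nat_lit 556) (nat_lit 2572)))))))))
noncomputable def s117055 : Cert := .r (nat_lit 4717453032125294316178574421874326325093954885348316367260111900657258793138255112583793827655798201532923673547783478224763190270811139418251553991950010913431444520960) (.p (nat_lit 590) (.a (.f (nat_lit 589) (nat_lit 621) (nat_lit 5613) (.f (nat_lit 559) (nat_lit 561) (nat_lit 1581) (.d (nat_lit 588) (nat_lit 557) (nat_lit 1580) (nat_lit 587) (nat_lit 2603)))) (.a (.f (nat_lit 589) (nat_lit 621) (nat_lit 5613) (.f (nat_lit 462) (nat_lit 557) (nat_lit 5581) (.f (nat_lit 429) (nat_lit 461) (nat_lit 7597)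 (.f (nat_lit 430) (nat_lit 397) (nat_lit 7565) (.d (nat_lit 431) (nat_lit 399) (nat_lit 6542) (nat_lit 463) (nat_lit 6574)))))) (.a (.f (nat_lit 495) (nat_lit 463) (nat_lit 6606) (.f (nat_lit 622) (nat_lit 527) (nat_lit 6638) (.d (nat_lit 621) (nat_lit 589) (nat_lit 5613) (nat_lit 653) (nat_lit 5645)))) (.f (nat_lit 495) (nat_lit 463) (nat_lit 6606) (.f (nat_lit 527) (nat_lit 622) (nat_lit 6638) (.f (nat_lit 497) (nat_lit 498) (nat_lit 1518) (.d (nat_lit 592) (nat_lit 465) (nat_lit 6608) (nat_lit 624) (nat_lit 7663)))))))))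
noncomputable def s117099 : Cert := .r (nat_lit 6604434244316391467175172201489039944981810912603914651843629277679448043640392156758132196576705676802491315303891918710121095128585632118541338515663990029940460355584) (.p (nat_lit 561) (.a (.f (nat_lit 594) (nat_lit 593) (nat_lit 558) (.f (nat_lit 562) (nat_lit 595) (nat_lit 559) (.f (nat_lit 527) (nat_lit 563) (nat_lit 3599) (.f (nat_lit 557) (nat_lit 556) (nat_lit 2572) (.d (nat_lit 589) (nat_lit 588) (nat_lit 1580) (nat_lit 590) (nat_lit 1581)))))) (.a (.f (nat_lit 589) (nat_lit 590) (nat_lit 1581) (.f (nat_lit 557) (nat_lit 588) (nat_lit 1580) (.f (nat_lit 525) (nat_lit 524) (nat_lit 3596) (.f (nat_lit 493) (nat_lit 462) (nat_lit 6605) (.f (nat_lit 460) (nat_lit 492) (nat_lit 7628) (.d (nat_lit 461) (nat_lit 428) (nat_lit 7596) (nat_lit 495) (nat_lit 3532))))))) (.f (nat_lit 594) (nat_lit 593) (nat_lit 558) (.f (nat_lit 562) (nat_lit 595) (nat_lit 559) (.f (nat_lit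 531) (nat_lit 530) (nat_lit 2575) (.d (nat_lit 563) (nat_lit 527) (nat_lit 3599) (nat_lit 532) (nat_lit 2576))))))))
noncomputable def s117104 : Cert := .r (nat_lit 6604434244316391467175172201489039944981810912603914651843629277679448043640392156758132196576705676802491315303891918710121095128585632118541338515663990029940460355584) (.p (nat_lit 561) (.a (.f (nat_lit 594) (nat_lit 593) (nat_lit 558) (.f (nat_lit 562) (nat_lit 595) (nat_lit 559) (.f (nat_lit 527) (nat_lit 563) (nat_lit 3599) (.f (nat_lit 557) (nat_lit 556) (nat_lit 2572) (.d (nat_lit 589) (nat_lit 588) (nat_lit 1580) (nat_lit 590) (nat_lit 1581)))))) (.a (.f (nat_lit 589) (nat_lit 590) (nat_lit 1581) (.f (nat_lit 557) (nat_lit 588) (nat_lit 1580) (.d (nat_lit 593) (nat_lit 592) (nat_lit 557) (nat_lit 594) (nat_lit 558)))) (.a (.f (nat_lit 594) (nat_lit 593) (nat_lit 558) (.f (nat_lit 562) (nat_lit 595) (nat_lit 559) (.f (nat_lit 531) (nat_lit 530)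 (nat_lit 2575) (.d (nat_lit 563) (nat_lit 527) (nat_lit 3599) (nat_lit 532) (nat_lit 2576))))) (.f (nat_lit 589) (nat_lit 590) (nat_lit 1581) (.f (nat_lit 557) (nat_lit 588) (nat_lit 1580) (.f (nat_lit 527) (nat_lit 556) (nat_lit 2572) (.d (nat_lit 526) (nat_lit 462) (nat_lit 5581) (nat_lit 562) (nat_lit 3598)))))))))
noncomputable def s117121 : Cert := .r (nat_lit 6604434244316391467175172201489039944981810912603914651843629277679448043640392156758132196576705676802491315303891918710121095128585632118541338515663990029940460355584) (.p (nat_lit 561) (.a (.f (nat_lit 526) (nat_lit 525) (nat_lit 3597) (.f (nat_lit 527) (nat_lit 562) (nat_lit 3598) (.f (nat_lit 462) (nat_lit 430) (nat_lit 4526) (.d (nat_lit 557) (nat_lit 556) (nat_lit 2572) (nat_lit 589) (nat_lit 5581))))) (.a (.f (nat_lit 525) (nat_lit 526) (nat_lit 3597) (.f (nat_lit 557) (nat_lit 524) (nat_lit 3596) (.d (nat_lit 593) (nat_lit 592) (nat_lit 557)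 (nat_lit 594) (nat_lit 558)))) (.f (nat_lit 594) (nat_lit 593) (nat_lit 558) (.f (nat_lit 562) (nat_lit 595) (nat_lit 559) (.f (nat_lit 531) (nat_lit 530) (nat_lit 2575) (.d (nat_lit 563) (nat_lit 527) (nat_lit 3599) (nat_lit 532) (nat_lit 2576))))))))
noncomputable def s117136 : Cert := .r (nat_lit 6604434244316391467175172201489039944981810912603914651843629277679448043640392156758132196576705676802491315303891918710121095128585632118541338515663990029940460355584) (.p (nat_lit 561) (.a (.f (nat_lit 594) (nat_lit 593) (nat_lit 558) (.f (nat_lit 562) (nat_lit 595) (nat_lit 559) (.f (nat_lit 527) (nat_lit 563) (nat_lit 3599) (.f (nat_lit 557) (nat_lit 556) (nat_lit 2572) (.d (nat_lit 589) (nat_lit 588) (nat_lit 1580) (nat_lit 590) (nat_lit 1581)))))) (.a (.f (nat_lit 589) (nat_lit 590) (nat_lit 1581) (.f (nat_lit 557) (nat_lit 588) (nat_lit 1580) (.d (nat_lit 593) (nat_lit 592) (nat_lit 557) (nat_lit 594) (nat_lit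 558)))) (.a (.f (nat_lit 594) (nat_lit 593) (nat_lit 558) (.f (nat_lit 562) (nat_lit 595) (nat_lit 559) (.f (nat_lit 531) (nat_lit 530) (nat_lit 2575) (.d (nat_lit 563) (nat_lit 527) (nat_lit 3599) (nat_lit 532) (nat_lit 2576))))) (.f (nat_lit 589) (nat_lit 590) (nat_lit 1581) (.f (nat_lit 557) (nat_lit 588) (nat_lit 1580) (.f (nat_lit 556) (nat_lit 527) (nat_lit 2572) (.d (nat_lit 524) (nat_lit 523) (nat_lit 3595) (nat_lit 525) (nat_lit 3596)))))))))
noncomputable def s117139 : Cert := .r (nat_lit 4717453032125294316178574421874326325093954885348316367260111900657258793138255112583793827655798201532923673547783478224763190270811139418251553991950010913431444520960) (.p (nat_lit 590) (.a (.f (nat_lit 495) (nat_lit 463) (nat_lit 6606) (.f (nat_lit 622) (nat_lit 527) (nat_lit 6638) (.d (nat_lit 621) (nat_lit 589) (nat_lit 5613) (nat_lit 653) (nat_lit 5645)))) (.a (.f (nat_lit 495) (nat_lit 463) (nat_lit 6606) (.f (nat_lit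 497) (nat_lit 525) (nat_lit 1517) (.d (nat_lit 465) (nat_lit 466) (nat_lit 2510) (nat_lit 592) (nat_lit 6608)))) (.f (nat_lit 621) (nat_lit 589) (nat_lit 5613) (.f (nat_lit 622) (nat_lit 653) (nat_lit 5645) (.f (nat_lit 655) (nat_lit 623) (nat_lit 4622) (.f (nat_lit 654) (nat_lit 687) (nat_lit 4654) (.f (nat_lit 527) (nat_lit 559) (nat_lit 6670) (.d (nat_lit 525) (nat_lit 497) (nat_lit 2541) (nat_lit 561) (nat_lit 525))))))))))
noncomputable def s117199 : Cert := .r (nat_lit 4717453032125294316178574421874326325093954885348316367260111900657258793138255112583793827655798201532923673547783478224763190270811139418251553991950010913431444520960) (.p (nat_lit 592) (.a (.f (nat_lit 495) (nat_lit 463) (nat_lit 7631) (.d (nat_lit 497) (nat_lit 465) (nat_lit 6608) (nat_lit 525) (nat_lit 1517))) (.a (.f (nat_lit 497) (nat_lit 465) (nat_lit 6608) (.f (nat_lit 525) (nat_lit 527) (nat_lit 2541) (.f (nat_lit 559) (nat_lit 561)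 (nat_lit 3597) (.d (nat_lit 524) (nat_lit 523) (nat_lit 523) (nat_lit 557) (nat_lit 3596))))) (.a (.f (nat_lit 495) (nat_lit 463) (nat_lit 7631) (.f (nat_lit 527) (nat_lit 624) (nat_lit 7663) (.d (nat_lit 525) (nat_lit 524) (nat_lit 2540) (nat_lit 561) (nat_lit 525)))) (.f (nat_lit 495) (nat_lit 463) (nat_lit 7631) (.f (nat_lit 527) (nat_lit 624) (nat_lit 7663) (.d (nat_lit 497) (nat_lit 465) (nat_lit 6608) (nat_lit 498) (nat_lit 1518))))))))
noncomputable def s117207 : Cert := .r (nat_lit 6604434244316391467124025473240662728262854823590983415090244245710025156304715729131630106007882636882440220111299666254638490689092506009022318882134530763482202112000) (.p (nat_lit 561) (.a (.f (nat_lit 590) (nat_lit 589) (nat_lit 1581) (.f (nat_lit 562) (nat_lit 591) (nat_lit 1582) (.d (nat_lit 594) (nat_lit 593) (nat_lit 558) (nat_lit 595) (nat_lit 559)))) (.a (.f (nat_lit 594) (nat_lit 593) (nat_lit 558) (.f (nat_lit 562)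 (nat_lit 595) (nat_lit 559) (.f (nat_lit 531) (nat_lit 530) (nat_lit 2575) (.d (nat_lit 563) (nat_lit 527) (nat_lit 3599) (nat_lit 532) (nat_lit 2576))))) (.f (nat_lit 589) (nat_lit 590) (nat_lit 1581) (.f (nat_lit 557) (nat_lit 588) (nat_lit 1580) (.f (nat_lit 556) (nat_lit 527) (nat_lit 2572) (.d (nat_lit 524) (nat_lit 523) (nat_lit 3595) (nat_lit 525) (nat_lit 3596))))))))
noncomputable def s117313 : Cert := .r (nat_lit 6604434244316391467124025473240662728262854823590983415090244245710025156304715729131630106007882636882440220111299666254638490689092506009022318882134530763482202112000) (.p (nat_lit 561) (.a (.f (nat_lit 525) (nat_lit 526) (nat_lit 3597) (.f (nat_lit 557) (nat_lit 524) (nat_lit 3596) (.d (nat_lit 593) (nat_lit 592) (nat_lit 557) (nat_lit 594) (nat_lit 558)))) (.a (.f (nat_lit 526) (nat_lit 525) (nat_lit 3597) (.f (nat_lit 562) (nat_lit 527) (nat_lit 3598) (.d (nat_lit 594) (nat_lit 593) (nat_lit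 558) (nat_lit 595) (nat_lit 559)))) (.a (.f (nat_lit 594) (nat_lit 593) (nat_lit 558) (.f (nat_lit 562) (nat_lit 595) (nat_lit 559) (.f (nat_lit 531) (nat_lit 530) (nat_lit 2575) (.d (nat_lit 563) (nat_lit 527) (nat_lit 3599) (nat_lit 532) (nat_lit 2576))))) (.a (.f (nat_lit 526) (nat_lit 525) (nat_lit 3597) (.f (nat_lit 562) (nat_lit 527) (nat_lit 3598) (.f (nat_lit 531) (nat_lit 530) (nat_lit 2575) (.f (nat_lit 563) (nat_lit 532) (nat_lit 2576) (.d (nat_lit 595) (nat_lit 594) (nat_lit 559) (nat_lit 596) (nat_lit 560)))))) (.f (nat_lit 526) (nat_lit 525) (nat_lit 3597) (.f (nat_lit 527) (nat_lit 562) (nat_lit 3598) (.f (nat_lit 557) (nat_lit 556) (nat_lit 2572) (.f (nat_lit 592) (nat_lit 593) (nat_lit 557) (.d (nat_lit 495) (nat_lit 463) (nat_lit 4559) (nat_lit 624) (nat_lit 7663)))))))))))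
noncomputable def s117361 : Cert := .r (nat_lit 4717453031905620791156688367491659932961262480421556911162296191495481737115670585968073015125522372871859318173694501171201011692609488021298660657006560541032279179264) (.p (nat_lit 525) (.a (.f (nat_lit 497) (nat_lit 526) (nat_lit 1517) (.f (nat_lit 493) (nat_lit 524) (nat_lit 1516) (.d (nat_lit 461) (nat_lit 460) (nat_lit 3532) (nat_lit 462) (nat_lit 3533)))) (.a (.f (nat_lit 493) (nat_lit 524) (nat_lit 1516) (.f (nat_lit 461) (nat_lit 460) (nat_lit 3532) (.f (nat_lit 497) (nat_lit 462) (nat_lit 3533) (.d (nat_lit 465) (nat_lit 466) (nat_lit 2510) (nat_lit 592) (nat_lit 6608))))) (.a (.f (nat_lit 493) (nat_lit 524) (nat_lit 1516) (.f (nat_lit 461) (nat_lit 460) (nat_lit 3532) (.d (nat_lit 526) (nat_lit 429) (nat_lit 4525) (nat_lit 590) (nat_lit 7629)))) (.f (nat_lit 497) (nat_lit 526) (nat_lit 1517) (.d (nat_lit 465) (nat_lit 466) (nat_lit 2510) (nat_lit 592) (nat_lit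 6608)))))))
noncomputable def s117539 : Cert := .r (nat_lit 3773962425700235452942859537499461060075163908278653093808089520525807034510604090067035062124638561226338938838226782579810552216648911534601243193560008730745155616768) (.p (nat_lit 558) (.a (.p (nat_lit 561) (.a (.p (nat_lit 559) (.a (.f (nat_lit 526) (nat_lit 525) (nat_lit 3597) (.f (nat_lit 527) (nat_lit 562) (nat_lit 3598) (.f (nat_lit 590) (nat_lit 589) (nat_lit 1581) (.d (nat_lit 622) (nat_lit 495) (nat_lit 6638) (nat_lit 654) (nat_lit 6670))))) (.a (.f (nat_lit 593) (nat_lit 594) (nat_lit 558) (.f (nat_lit 592) (nat_lit 557) (nat_lit 557) (.f (nat_lit 591) (nat_lit 623) (nat_lit 5615) (.d (nat_lit 590) (nat_lit 562) (nat_lit 2606) (nat_lit 589) (nat_lit 1581))))) (.f (nat_lit 525) (nat_lit 526) (nat_lit 3597) (.f (nat_lit 557) (nat_lit 524) (nat_lit 3596) (.d (nat_lit 593) (nat_lit 592) (nat_lit 557) (nat_lit 594) (nat_lit 558))))))) (.a (.p (nat_lit 559) (.a (.f (nat_lit 526) (nat_lit 525) (nat_lit 3597) (.f (nat_lit 527) (nat_lit 562) (nat_lit 3598) (.f (nat_lit 590) (nat_lit 589) (nat_lit 1581) (.d (nat_lit 622) (nat_lit 495) (nat_lit 6638) (nat_lit 654) (nat_lit 6670))))) (.a (.f (nat_lit 590) (nat_lit 589) (nat_lit 1581) (.f (nat_lit 526) (nat_lit 525) (nat_lit 3597) (.f (nat_lit 591) (nat_lit 562) (nat_lit 1582) (.d (nat_lit 494) (nat_lit 462) (nat_lit 4558) (nat_lit 623) (nat_lit 4590))))) (.a (.f (nat_lit 590) (nat_lit 589) (nat_lit 1581) (.f (nat_lit 562) (nat_lit 591) (nat_lit 1582) (.d (nat_lit 594) (nat_lit 593) (nat_lit 558) (nat_lit 595) (nat_lit 559)))) (.a (.f (nat_lit 525) (nat_lit 526) (nat_lit 3597) (.f (nat_lit 557) (nat_lit 524) (nat_lit 3596) (.d (nat_lit 589) (nat_lit 588) (nat_lit 1580) (nat_lit 590) (nat_lit 1581)))) (.f (nat_lit 526) (nat_lit 525) (nat_lit 3597) (.f (nat_lit 562) (nat_lit 527) (nat_lit 3598) (.d (nat_lit 594) (nat_lit 593) (nat_lit 558) (nat_lit 595) (nat_lit 559))))))))) (.a (.p (nat_lit 559) (.a (.f (nat_lit 593) (nat_lit 594) (nat_lit 558) (.f (nat_lit 592) (nat_lit 557) (nat_lit 557) (.f (nat_lit 591) (nat_lit 623) (nat_lit 5615) (.d (nat_lit 590) (nat_lit 562) (nat_lit 2606) (nat_lit 589) (nat_lit 1581))))) (.a (.f (nat_lit 590) (nat_lit 589) (nat_lit 1581) (.f (nat_lit 526) (nat_lit 525) (nat_lit 3597) (.f (nat_lit 591) (nat_lit 562) (nat_lit 1582) (.d (nat_lit 494) (nat_lit 462) (nat_lit 4558) (nat_lit 623) (nat_lit 4590))))) (.f (nat_lit 525) (nat_lit 526) (nat_lit 3597) (.f (nat_lit 557) (nat_lit 524) (nat_lit 3596) (.d (nat_lit 593) (nat_lit 592) (nat_lit 557) (nat_lit 594) (nat_lit 558))))))) (.a (.p (nat_lit 592) (.a (.f (nat_lit 591) (nat_lit 623) (nat_lit 5615) (.f (nat_lit 590) (nat_lit 589) (nat_lit 2605) (.d (nat_lit 562) (nat_lit 563) (nat_lit 1583) (nat_lit 593) (nat_lit 2606)))) (.f (nat_lit 495) (nat_lit 463) (nat_lit 7631) (.f (nat_lit 527) (nat_lit 624) (nat_lit 7663) (.f (nat_lit 526) (nat_lit 525) (nat_lit 525) (.d (nat_lit 497) (nat_lit 465) (nat_lit 6608) (nat_lit 498) (nat_lit 1518))))))) (.a (.p (nat_lit 559) (.a (.f (nat_lit 526) (nat_lit 525) (nat_lit 3597) (.f (nat_lit 527) (nat_lit 562) (nat_lit 3598) (.f (nat_lit 590) (nat_lit 589) (nat_lit 1581) (.d (nat_lit 622) (nat_lit 495) (nat_lit 6638) (nat_lit 654) (nat_lit 6670))))) (.a (.f (nat_lit 525) (nat_lit 526) (nat_lit 3597) (.f (nat_lit 557) (nat_lit 524) (nat_lit 3596) (.d (nat_lit 593) (nat_lit 592) (nat_lit 557) (nat_lit 594) (nat_lit 558)))) (.f (nat_lit 593) (nat_lit 594) (nat_lit 558) (.f (nat_lit 592) (nat_lit 557) (nat_lit 557) (.f (nat_lit 495) (nat_lit 463) (nat_lit 7631) (.f (nat_lit 624) (nat_lit 527) (nat_lit 7663) (.f (nat_lit 656) (nat_lit 688) (nat_lit 6704) (.d (nat_lit 655) (nat_lit 623) (nat_lit 5647) (nat_lit 687) (nat_lit 5679)))))))))) (.a (.p (nat_lit 559) (.a (.f (nat_lit 593) (nat_lit 594) (nat_lit 558) (.f (nat_lit 592) (nat_lit 557) (nat_lit 557) (.f (nat_lit 591) (nat_lit 623) (nat_lit 5615) (.d (nat_lit 590) (nat_lit 562) (nat_lit 2606) (nat_lit 589) (nat_lit 1581))))) (.a (.f (nat_lit 590) (nat_lit 589) (nat_lit 1581) (.f (nat_lit 562) (nat_lit 591) (nat_lit 1582) (.d (nat_lit 594) (nat_lit 593) (nat_lit 558) (nat_lit 595) (nat_lit 559)))) (.a (.f (nat_lit 593) (nat_lit 594) (nat_lit 558) (.f (nat_lit 592) (nat_lit 557) (nat_lit 557) (.f (nat_lit 495) (nat_lit 463) (nat_lit 7631) (.f (nat_lit 624) (nat_lit 527) (nat_lit 7663) (.f (nat_lit 656) (nat_lit 688) (nat_lit 6704) (.d (nat_lit 655) (nat_lit 623) (nat_lit 5647) (nat_lit 687) (nat_lit 5679))))))) (.f (nat_lit 590) (nat_lit 589) (nat_lit 1581) (.f (nat_lit 591) (nat_lit 562) (nat_lit 1582) (.d (nat_lit 623) (nat_lit 527) (nat_lit 6639) (nat_lit 592) (nat_lit 5615)))))))) (.a (.p (nat_lit 559) (.a (.f (nat_lit 526) (nat_lit 525) (nat_lit 3597) (.f (nat_lit 527) (nat_lit 562) (nat_lit 3598) (.f (nat_lit 590) (nat_lit 589) (nat_lit 1581) (.d (nat_lit 622) (nat_lit 495) (nat_lit 6638) (nat_lit 654) (nat_lit 6670))))) (.a (.f (nat_lit 525) (nat_lit 526) (nat_lit 3597) (.f (nat_lit 557) (nat_lit 524) (nat_lit 3596) (.d (nat_lit 593) (nat_lit 592) (nat_lit 557) (nat_lit 594) (nat_lit 558)))) (.f (nat_lit 590) (nat_lit 589) (nat_lit 1581) (.f (nat_lit 562) (nat_lit 591) (nat_lit 1582) (.d (nat_lit 594) (nat_lit 593) (nat_lit 558) (nat_lit 595) (nat_lit 559))))))) (.a (.p (nat_lit 592) (.a (.f (nat_lit 495) (nat_lit 463) (nat_lit 7631) (.f (nat_lit 527) (nat_lit 624) (nat_lit 7663) (.f (nat_lit 526) (nat_lit 525) (nat_lit 525) (.d (nat_lit 497) (nat_lit 465) (nat_lit 6608) (nat_lit 498) (nat_lit 1518))))) (.f (nat_lit 591) (nat_lit 623) (nat_lit 5615) (.f (nat_lit 590) (nat_lit 589) (nat_lit 2605) (.f (nat_lit 593) (nat_lit 557) (nat_lit 3629) (.f (nat_lit 594) (nat_lit 559) (nat_lit 3630) (.f (nat_lit 595) (nat_lit 596) (nat_lit 3632) (.d (nat_lit 627) (nat_lit 626) (nat_lit 591) (nat_lit 628) (nat_lit 592))))))))) (.a (.p (nat_lit 559) (.a (.f (nat_lit 525) (nat_lit 526) (nat_lit 3597) (.f (nat_lit 557) (nat_lit 524) (nat_lit 3596) (.d (nat_lit 593) (nat_lit 592) (nat_lit 557) (nat_lit 594) (nat_lit 558)))) (.a (.f (nat_lit 526) (nat_lit 525) (nat_lit 3597) (.f (nat_lit 562) (nat_lit 527) (nat_lit 3598) (.d (nat_lit 594) (nat_lit 593) (nat_lit 558) (nat_lit 595) (nat_lit 559)))) (.a (.f (nat_lit 593) (nat_lit 594) (nat_lit 558) (.f (nat_lit 592) (nat_lit 557) (nat_lit 557) (.f (nat_lit 495) (nat_lit 463) (nat_lit 7631) (.f (nat_lit 624) (nat_lit 527) (nat_lit 7663) (.f (nat_lit 656) (nat_lit 688) (nat_lit 6704) (.d (nat_lit 655) (nat_lit 623) (nat_lit 5647) (nat_lit 687) (nat_lit 5679))))))) (.a (.f (nat_lit 526) (nat_lit 525) (nat_lit 3597) (.f (nat_lit 562) (nat_lit 527) (nat_lit 3598) (.f (nat_lit 531) (nat_lit 530) (nat_lit 2575) (.f (nat_lit 563) (nat_lit 532) (nat_lit 2576) (.d (nat_lit 595) (nat_lit 594) (nat_lit 559) (nat_lit 596) (nat_lit 560)))))) (.f (nat_lit 526) (nat_lit 525) (nat_lit 3597) (.f (nat_lit 527) (nat_lit 562) (nat_lit 3598) (.f (nat_lit 591) (nat_lit 623) (nat_lit 6639) (.f (nat_lit 557) (nat_lit 556) (nat_lit 2572) (.f (nat_lit 592) (nat_lit 593) (nat_lit 557) (.d (nat_lit 495) (nat_lit 463) (nat_lit 4559) (nat_lit 624) (nat_lit 4591)))))))))))) (.p (nat_lit 559) (.a (.f (nat_lit 526) (nat_lit 525) (nat_lit 3597) (.f (nat_lit 527) (nat_lit 562) (nat_lit 3598) (.f (nat_lit 590) (nat_lit 589) (nat_lit 1581) (.d (nat_lit 622) (nat_lit 495) (nat_lit 6638) (nat_lit 654) (nat_lit 6670))))) (.a (.f (nat_lit 590) (nat_lit 589) (nat_lit 1581) (.f (nat_lit 526) (nat_lit 525) (nat_lit 3597) (.f (nat_lit 591) (nat_lit 562) (nat_lit 1582) (.d (nat_lit 494) (nat_lit 462) (nat_lit 4558) (nat_lit 623) (nat_lit 4590))))) (.a (.f (nat_lit 590) (nat_lit 589) (nat_lit 1581) (.f (nat_lit 591) (nat_lit 562) (nat_lit 1582) (.d (nat_lit 623) (nat_lit 527) (nat_lit 6639) (nat_lit 592) (nat_lit 5615)))) (.a (.f (nat_lit 525) (nat_lit 526) (nat_lit 3597) (.f (nat_lit 557) (nat_lit 524) (nat_lit 3596) (.d (nat_lit 589) (nat_lit 588) (nat_lit 1580) (nat_lit 590) (nat_lit 1581)))) (.f (nat_lit 526) (nat_lit 525) (nat_lit 3597) (.f (nat_lit 562) (nat_lit 527) (nat_lit 3598) (.f (nat_lit 531) (nat_lit 530) (nat_lit 2575) (.f (nat_lit 563) (nat_lit 532) (nat_lit 2576) (.d (nat_lit 595) (nat_lit 594) (nat_lit 559) (nat_lit 596) (nat_lit 560))))))))))))))))))))) (.a (.p (nat_lit 526) (.a (.p (nat_lit 525) (.a (.d (nat_lit 527) (nat_lit 497) (nat_lit 2541) (nat_lit 561) (nat_lit 525)) (.a (.f (nat_lit 559) (nat_lit 561) (nat_lit 3597) (.d (nat_lit 524) (nat_lit 523) (nat_lit 523) (nat_lit 557) (nat_lit 3596))) (.f (nat_lit 527) (nat_lit 497) (nat_lit 2541) (.d (nat_lit 524) (nat_lit 495) (nat_lit 2540) (nat_lit 559) (nat_lit 524)))))) (.a (.p (nat_lit 494) (.a (.p (nat_lit 559) (.a (.f (nat_lit 525) (nat_lit 561) (nat_lit 3597) (.d (nat_lit 524) (nat_lit 523) (nat_lit 523) (nat_lit 557) (nat_lit 3596))) (.a (.f (nat_lit 462) (nat_lit 591) (nat_lit 4558) (.f (nat_lit 557) (nat_lit 589) (nat_lit 5581) (.d (nat_lit 525) (nat_lit 430) (nat_lit 5549) (nat_lit 524) (nat_lit 3596)))) (.a (.f (nat_lit 462) (nat_lit 591) (nat_lit 4558) (.f (nat_lit 589) (nat_lit 557) (nat_lit 5581) (.d (nat_lit 590) (nat_lit 561) (nat_lit 1581) (nat_lit 621) (nat_lit 5613)))) (.f (nat_lit 591) (nat_lit 462) (nat_lit 4558) (.d (nat_lit 623) (nat_lit 590) (nat_lit 4590) (nat_lit 655) (nat_lit 6671))))))) (.a s116635 (.a s116637 (.a (.p (nat_lit 559) (.a (.f (nat_lit 591) (nat_lit 462) (nat_lit 4558) (.d (nat_lit 623) (nat_lit 590) (nat_lit 4590) (nat_lit 655) (nat_lit 6671))) (.f (nat_lit 525) (nat_lit 561) (nat_lit 3597) (.f (nat_lit 495) (nat_lit 497) (nat_lit 1517) (.d (nat_lit 524) (nat_lit 493) (nat_lit 1516) (nat_lit 523) (nat_lit 523)))))) (.a (.p (nat_lit 559) (.a (.f (nat_lit 525) (nat_lit 561) (nat_lit 3597) (.d (nat_lit 524) (nat_lit 523) (nat_lit 523) (nat_lit 557) (nat_lit 3596))) (.a (.f (nat_lit 462) (nat_lit 591) (nat_lit 4558) (.f (nat_lit 557) (nat_lit 589) (nat_lit 5581) (.d (nat_lit 525) (nat_lit 430) (nat_lit 5549) (nat_lit 524) (nat_lit 3596)))) (.f (nat_lit 462) (nat_lit 591) (nat_lit 4558) (.f (nat_lit 461) (nat_lit 429) (nat_lit 7597) (.f (nat_lit 495) (nat_lit 497) (nat_lit 3533) (.d (nat_lit 460) (nat_lit 459) (nat_lit 459) (nat_lit 493) (nat_lit 3532)))))))) (.p (nat_lit 590) (.a (.f (nat_lit 495) (nat_lit 463) (nat_lit 6606) (.f (nat_lit 525) (nat_lit 497) (nat_lit 1517) (.d (nat_lit 493) (nat_lit 461) (nat_lit 7629) (nat_lit 524) (nat_lit 1516)))) (.f (nat_lit 589) (nat_lit 621) (nat_lit 5613) (.f (nat_lit 559) (nat_lit 561) (nat_lit 1581) (.d (nat_lit 588) (nat_lit 557) (nat_lit 1580) (nat_lit 587) (nat_lit 2603)))))))))))) (.a (.p (nat_lit 494) (.a s116635 (.a (.p (nat_lit 590) (.a (.f (nat_lit 589) (nat_lit 621) (nat_lit 5613) (.f (nat_lit 462) (nat_lit 557) (nat_lit 5581) (.d (nat_lit 461) (nat_lit 429) (nat_lit 7597) (nat_lit 493) (nat_lit 7629)))) (.a (.f (nat_lit 493) (nat_lit 461) (nat_lit 7629) (.f (nat_lit 525) (nat_lit 622) (nat_lit 7661) (.d (nat_lit 527) (nat_lit 492) (nat_lit 3564) (nat_lit 561) (nat_lit 525)))) (.a (.f (nat_lit 589) (nat_lit 621) (nat_lit 5613) (.f (nat_lit 462) (nat_lit 557) (nat_lit 5581) (.f (nat_lit 429) (nat_lit 461) (nat_lit 7597) (.f (nat_lit 430) (nat_lit 397) (nat_lit 7565) (.d (nat_lit 431) (nat_lit 399) (nat_lit 6542) (nat_lit 463) (nat_lit 6574)))))) (.f (nat_lit 589) (nat_lit 621) (nat_lit 5613) (.f (nat_lit 557) (nat_lit 462) (nat_lit 5581) (.f (nat_lit 591) (nat_lit 623) (nat_lit 4590) (.f (nat_lit 556) (nat_lit 555) (nat_lit 555) (.f (nat_lit 525) (nat_lit 527) (nat_lit 1548) (.d (nat_lit 622) (nat_lit 493) (nat_lit 7661) (nat_lit 654) (nat_lit 7693))))))))))) (.a s116665 (.a (.p (nat_lit 590) (.a (.f (nat_lit 589) (nat_lit 621) (nat_lit 5613) (.f (nat_lit 462) (nat_lit 557) (nat_lit 5581) (.d (nat_lit 461) (nat_lit 429) (nat_lit 7597) (nat_lit 493) (nat_lit 7629)))) (.a (.f (nat_lit 493) (nat_lit 461) (nat_lit 7629) (.f (nat_lit 525) (nat_lit 622) (nat_lit 7661) (.d (nat_lit 527) (nat_lit 492) (nat_lit 3564) (nat_lit 561) (nat_lit 525)))) (.f (nat_lit 589) (nat_lit 621) (nat_lit 5613) (.f (nat_lit 557) (nat_lit 462) (nat_lit 5581) (.f (nat_lit 623) (nat_lit 591) (nat_lit 4590) (.f (nat_lit 622) (nat_lit 655) (nat_lit 4622) (.d (nat_lit 654) (nat_lit 525) (nat_lit 7693) (nat_lit 686) (nat_lit 7725))))))))) (.a s116672 (.a (.p (nat_lit 525) (.a (.d (nat_lit 527) (nat_lit 497) (nat_lit 2541) (nat_lit 561) (nat_lit 525)) (.a (.f (nat_lit 495) (nat_lit 497) (nat_lit 1517) (.d (nat_lit 524) (nat_lit 493) (nat_lit 1516) (nat_lit 523) (nat_lit 2539))) (.f (nat_lit 527) (nat_lit 561) (nat_lit 525) (.f (nat_lit 495) (nat_lit 524) (nat_lit 2540) (.f (nat_lit 493) (nat_lit 492) (nat_lit 3564) (.d (nat_lit 461) (nat_lit 429) (nat_lit 4525) (nat_lit 460) (nat_lit 3532)))))))) (.a (.p (nat_lit 590) (.a (.f (nat_lit 495) (nat_lit 463) (nat_lit 6606) (.f (nat_lit 497) (nat_lit 525) (nat_lit 1517) (.f (nat_lit 462) (nat_lit 461) (nat_lit 3533) (.d (nat_lit 589) (nat_lit 557) (nat_lit 5581) (nat_lit 621) (nat_lit 5613))))) (.a (.f (nat_lit 589) (nat_lit 621) (nat_lit 5613) (.f (nat_lit 462) (nat_lit 557) (nat_lit 5581) (.f (nat_lit 429) (nat_lit 461) (nat_lit 7597) (.f (nat_lit 430) (nat_lit 397) (nat_lit 7565) (.d (nat_lit 431) (nat_lit 399) (nat_lit 6542) (nat_lit 463) (nat_lit 6574)))))) (.a (.f (nat_lit 589) (nat_lit 621) (nat_lit 5613) (.f (nat_lit 557) (nat_lit 462) (nat_lit 5581) (.f (nat_lit 623) (nat_lit 591) (nat_lit 4590) (.f (nat_lit 622) (nat_lit 655) (nat_lit 4622) (.d (nat_lit 654) (nat_lit 525) (nat_lit 7693) (nat_lit 686) (nat_lit 7725)))))) (.a (.f (nat_lit 495) (nat_lit 463) (nat_lit 6606) (.f (nat_lit 622) (nat_lit 527) (nat_lit 6638) (.d (nat_lit 621) (nat_lit 589) (nat_lit 5613) (nat_lit 653) (nat_lit 5645)))) (.f (nat_lit 495) (nat_lit 463) (nat_lit 6606) (.f (nat_lit 527) (nat_lit 622) (nat_lit 6638) (.d (nat_lit 525) (nat_lit 497) (nat_lit 1517) (nat_lit 561) (nat_lit 525))))))))) s116682)))))))) (.a (.p (nat_lit 494) (.a s116635 (.a (.p (nat_lit 590) (.a (.f (nat_lit 589) (nat_lit 621) (nat_lit 5613) (.f (nat_lit 462) (nat_lit 557) (nat_lit 5581) (.d (nat_lit 461) (nat_lit 429) (nat_lit 7597) (nat_lit 493) (nat_lit 7629)))) (.a (.f (nat_lit 591) (nat_lit 623) (nat_lit 4590) (.f (nat_lit 559) (nat_lit 462) (nat_lit 4558) (.d (nat_lit 589) (nat_lit 588) (nat_lit 2604) (nat_lit 621) (nat_lit 5613)))) (.a (.f (nat_lit 591) (nat_lit 623) (nat_lit 4590) (.f (nat_lit 462) (nat_lit 559) (nat_lit 4558) (.d (nat_lit 461) (nat_lit 429) (nat_lit 7597) (nat_lit 493) (nat_lit 7629)))) (.f (nat_lit 493) (nat_lit 461) (nat_lit 7629) (.f (nat_lit 525) (nat_lit 622) (nat_lit 7661) (.d (nat_lit 527) (nat_lit 492) (nat_lit 3564) (nat_lit 497) (nat_lit 2541)))))))) (.a s116665 (.a (.p (nat_lit 590) (.a (.f (nat_lit 495) (nat_lit 463) (nat_lit 6606) (.f (nat_lit 525) (nat_lit 497) (nat_lit 1517) (.d (nat_lit 493) (nat_lit 461) (nat_lit 7629) (nat_lit 524) (nat_lit 1516)))) (.f (nat_lit 591) (nat_lit 623) (nat_lit 4590) (.f (nat_lit 559) (nat_lit 462) (nat_lit 4558) (.d (nat_lit 589) (nat_lit 588) (nat_lit 2604) (nat_lit 621) (nat_lit 5613)))))) (.a (.p (nat_lit 462) (.a (.f (nat_lit 559) (nat_lit 591) (nat_lit 4558) (.f (nat_lit 527) (nat_lit 430) (nat_lit 4526) (.d (nat_lit 525) (nat_lit 497) (nat_lit 2541) (nat_lit 524) (nat_lit 524)))) (.a (.f (nat_lit 461) (nat_lit 429) (nat_lit 7597) (.f (nat_lit 495) (nat_lit 497) (nat_lit 3533) (.d (nat_lit 460) (nat_lit 459) (nat_lit 459) (nat_lit 493) (nat_lit 3532)))) (.f (nat_lit 559) (nat_lit 591) (nat_lit 4558) (.f (nat_lit 557) (nat_lit 589) (nat_lit 5581) (.d (nat_lit 430) (nat_lit 525) (nat_lit 5549) (nat_lit 527) (nat_lit 4526))))))) (.a (.p (nat_lit 590) (.a (.f (nat_lit 589) (nat_lit 621) (nat_lit 5613) (.f (nat_lit 462) (nat_lit 557) (nat_lit 5581) (.d (nat_lit 461) (nat_lit 429) (nat_lit 7597) (nat_lit 493) (nat_lit 7629)))) (.a (.f (nat_lit 591) (nat_lit 623) (nat_lit 4590) (.f (nat_lit 559) (nat_lit 462) (nat_lit 4558) (.d (nat_lit 589) (nat_lit 588) (nat_lit 2604) (nat_lit 621) (nat_lit 5613)))) (.a (.f (nat_lit 591) (nat_lit 623) (nat_lit 4590) (.f (nat_lit 462) (nat_lit 559) (nat_lit 4558) (.d (nat_lit 463) (nat_lit 431) (nat_lit 6574) (nat_lit 495) (nat_lit 6606)))) (.f (nat_lit 495) (nat_lit 463) (nat_lit 6606) (.f (nat_lit 493) (nat_lit 461) (nat_lit 7629) (.d (nat_lit 527) (nat_lit 492) (nat_lit 492) (nat_lit 622) (nat_lit 6638)))))))) (.a (.p (nat_lit 590) (.a (.f (nat_lit 495) (nat_lit 463) (nat_lit 6606) (.f (nat_lit 525) (nat_lit 497) (nat_lit 1517) (.d (nat_lit 493) (nat_lit 461) (nat_lit 7629) (nat_lit 524) (nat_lit 1516)))) (.a (.f (nat_lit 591) (nat_lit 623) (nat_lit 4590) (.f (nat_lit 462) (nat_lit 559) (nat_lit 4558) (.d (nat_lit 461) (nat_lit 429) (nat_lit 7597) (nat_lit 493) (nat_lit 7629)))) (.f (nat_lit 591) (nat_lit 623) (nat_lit 4590) (.f (nat_lit 462) (nat_lit 559) (nat_lit 4558) (.d (nat_lit 463) (nat_lit 431) (nat_lit 6574) (nat_lit 495) (nat_lit 6606))))))) (.a s116695 (.a (.p (nat_lit 590) (.a (.f (nat_lit 495) (nat_lit 463) (nat_lit 6606) (.f (nat_lit 497) (nat_lit 525) (nat_lit 1517) (.f (nat_lit 462) (nat_lit 461) (nat_lit 3533) (.d (nat_lit 589) (nat_lit 557) (nat_lit 5581) (nat_lit 621) (nat_lit 5613))))) (.a (.f (nat_lit 591) (nat_lit 623) (nat_lit 4590) (.f (nat_lit 559) (nat_lit 462) (nat_lit 4558) (.d (nat_lit 589) (nat_lit 588) (nat_lit 2604) (nat_lit 621) (nat_lit 5613)))) (.a (.f (nat_lit 591) (nat_lit 623) (nat_lit 4590) (.f (nat_lit 462) (nat_lit 559) (nat_lit 4558) (.d (nat_lit 463) (nat_lit 431) (nat_lit 6574) (nat_lit 495) (nat_lit 6606)))) (.f (nat_lit 495) (nat_lit 463) (nat_lit 6606) (.f (nat_lit 622) (nat_lit 527) (nat_lit 6638) (.d (nat_lit 621) (nat_lit 589) (nat_lit 5613) (nat_lit 653) (nat_lit 5645)))))))) s116682)))))))))) (.a (.p (nat_lit 525) (.a (.d (nat_lit 527) (nat_lit 497) (nat_lit 2541) (nat_lit 561) (nat_lit 525)) (.a (.f (nat_lit 559) (nat_lit 561) (nat_lit 3597) (.d (nat_lit 524) (nat_lit 523) (nat_lit 523) (nat_lit 557) (nat_lit 3596))) (.f (nat_lit 527) (nat_lit 497) (nat_lit 2541) (.f (nat_lit 559) (nat_lit 524) (nat_lit 524) (.f (nat_lit 557) (nat_lit 556) (nat_lit 1548) (.f (nat_lit 589) (nat_lit 588) (nat_lit 1580) (.d (nat_lit 494) (nat_lit 462) (nat_lit 5581) (nat_lit 621) (nat_lit 6637))))))))) (.a (.p (nat_lit 494) (.a s116637 (.a s116665 (.a (.p (nat_lit 590) (.a (.f (nat_lit 589) (nat_lit 621) (nat_lit 5613) (.f (nat_lit 462) (nat_lit 557) (nat_lit 5581) (.d (nat_lit 461) (nat_lit 429) (nat_lit 7597) (nat_lit 493) (nat_lit 7629)))) (.a (.f (nat_lit 591) (nat_lit 623) (nat_lit 4590) (.f (nat_lit 559) (nat_lit 462) (nat_lit 4558) (.d (nat_lit 589) (nat_lit 588) (nat_lit 2604) (nat_lit 621) (nat_lit 5613)))) (.a (.f (nat_lit 591) (nat_lit 623) (nat_lit 4590) (.f (nat_lit 462) (nat_lit 559) (nat_lit 4558) (.d (nat_lit 461) (nat_lit 429) (nat_lit 7597) (nat_lit 493) (nat_lit 7629)))) (.f (nat_lit 589) (nat_lit 621) (nat_lit 5613) (.f (nat_lit 559) (nat_lit 561) (nat_lit 1581) (.d (nat_lit 588) (nat_lit 557) (nat_lit 1580) (nat_lit 587) (nat_lit 2603)))))))) (.a (.p (nat_lit 590) (.a (.f (nat_lit 591) (nat_lit 623) (nat_lit 4590) (.f (nat_lit 559) (nat_lit 462) (nat_lit 4558) (.d (nat_lit 589) (nat_lit 588) (nat_lit 2604) (nat_lit 621) (nat_lit 5613)))) (.a (.f (nat_lit 495) (nat_lit 463) (nat_lit 6606) (.f (nat_lit 461) (nat_lit 493) (nat_lit 7629) (.d (nat_lit 462) (nat_lit 429) (nat_lit 7597) (nat_lit 497) (nat_lit 3533)))) (.f (nat_lit 495) (nat_lit 463) (nat_lit 6606) (.f (nat_lit 493) (nat_lit 461) (nat_lit 7629) (.d (nat_lit 527) (nat_lit 492) (nat_lit 492) (nat_lit 622) (nat_lit 6638))))))) (.a (.p (nat_lit 462) (.a (.f (nat_lit 461) (nat_lit 429) (nat_lit 7597) (.f (nat_lit 495) (nat_lit 497) (nat_lit 3533) (.d (nat_lit 460) (nat_lit 459) (nat_lit 459) (nat_lit 493) (nat_lit 3532)))) (.f (nat_lit 559) (nat_lit 591) (nat_lit 4558) (.f (nat_lit 527) (nat_lit 430) (nat_lit 4526) (.d (nat_lit 557) (nat_lit 556) (nat_lit 2572) (nat_lit 589) (nat_lit 5581)))))) (.a (.p (nat_lit 590) (.a (.f (nat_lit 591) (nat_lit 623) (nat_lit 4590) (.f (nat_lit 462) (nat_lit 559) (nat_lit 4558) (.d (nat_lit 463) (nat_lit 431) (nat_lit 6574) (nat_lit 495) (nat_lit 6606)))) (.a (.f (nat_lit 495) (nat_lit 463) (nat_lit 6606) (.f (nat_lit 461) (nat_lit 493) (nat_lit 7629) (.d (nat_lit 462) (nat_lit 429) (nat_lit 7597) (nat_lit 497) (nat_lit 3533)))) (.a (.f (nat_lit 591) (nat_lit 623) (nat_lit 4590) (.f (nat_lit 462) (nat_lit 559) (nat_lit 4558) (.d (nat_lit 461) (nat_lit 429) (nat_lit 7597) (nat_lit 493) (nat_lit 7629)))) (.f (nat_lit 495) (nat_lit 463) (nat_lit 6606) (.f (nat_lit 493) (nat_lit 461) (nat_lit 7629) (.d (nat_lit 527) (nat_lit 492) (nat_lit 492) (nat_lit 622) (nat_lit 6638)))))))) (.a (.p (nat_lit 590) (.a (.f (nat_lit 589) (nat_lit 621) (nat_lit 5613) (.f (nat_lit 559) (nat_lit 561) (nat_lit 1581) (.d (nat_lit 588) (nat_lit 557) (nat_lit 1580) (nat_lit 587) (nat_lit 2603)))) (.f (nat_lit 495) (nat_lit 463) (nat_lit 6606) (.f (nat_lit 493) (nat_lit 461) (nat_lit 7629) (.d (nat_lit 527) (nat_lit 492) (nat_lit 492) (nat_lit 622) (nat_lit 6638)))))) (.a (.p (nat_lit 590) (.a (.f (nat_lit 591) (nat_lit 623) (nat_lit 4590) (.f (nat_lit 559) (nat_lit 462) (nat_lit 4558) (.d (nat_lit 589) (nat_lit 588) (nat_lit 2604) (nat_lit 621) (nat_lit 5613)))) (.a (.f (nat_lit 589) (nat_lit 621) (nat_lit 5613) (.f (nat_lit 462) (nat_lit 557) (nat_lit 5581) (.f (nat_lit 429) (nat_lit 461) (nat_lit 7597) (.f (nat_lit 430) (nat_lit 397) (nat_lit 7565) (.d (nat_lit 431) (nat_lit 399) (nat_lit 6542) (nat_lit 463) (nat_lit 6574)))))) (.a (.f (nat_lit 591) (nat_lit 623) (nat_lit 4590) (.f (nat_lit 462) (nat_lit 559) (nat_lit 4558) (.d (nat_lit 463) (nat_lit 431) (nat_lit 6574) (nat_lit 495) (nat_lit 6606)))) (.f (nat_lit 589) (nat_lit 621) (nat_lit 5613) (.f (nat_lit 559) (nat_lit 561) (nat_lit 1581) (.d (nat_lit 588) (nat_lit 557) (nat_lit 1580) (nat_lit 587) (nat_lit 2603)))))))) (.p (nat_lit 590) (.a (.f (nat_lit 591) (nat_lit 623) (nat_lit 4590) (.f (nat_lit 559) (nat_lit 462) (nat_lit 4558) (.d (nat_lit 589) (nat_lit 588) (nat_lit 2604) (nat_lit 621) (nat_lit 5613)))) (.a (.f (nat_lit 495) (nat_lit 463) (nat_lit 6606) (.f (nat_lit 622) (nat_lit 527) (nat_lit 6638) (.d (nat_lit 621) (nat_lit 589) (nat_lit 5613) (nat_lit 653) (nat_lit 5645)))) (.f (nat_lit 591) (nat_lit 623) (nat_lit 4590) (.f (nat_lit 462) (nat_lit 559) (nat_lit 4558) (.d (nat_lit 463) (nat_lit 431) (nat_lit 6574) (nat_lit 495) (nat_lit 6606)))))))))))))))) (.a (.p (nat_lit 494) (.a (.p (nat_lit 559) (.a (.f (nat_lit 591) (nat_lit 462) (nat_lit 4558) (.d (nat_lit 623) (nat_lit 590) (nat_lit 4590) (nat_lit 655) (nat_lit 6671))) (.f (nat_lit 525) (nat_lit 561) (nat_lit 3597) (.f (nat_lit 495) (nat_lit 497) (nat_lit 1517) (.d (nat_lit 524) (nat_lit 493) (nat_lit 1516) (nat_lit 523) (nat_lit 523)))))) (.a s116672 (.a (.p (nat_lit 590) (.a (.f (nat_lit 495) (nat_lit 463) (nat_lit 6606) (.f (nat_lit 525) (nat_lit 497) (nat_lit 1517) (.d (nat_lit 493) (nat_lit 461) (nat_lit 7629) (nat_lit 524) (nat_lit 1516)))) (.f (nat_lit 591) (nat_lit 623) (nat_lit 4590) (.f (nat_lit 559) (nat_lit 462) (nat_lit 4558) (.d (nat_lit 589) (nat_lit 588) (nat_lit 2604) (nat_lit 621) (nat_lit 5613)))))) (.a (.p (nat_lit 559) (.a (.f (nat_lit 462) (nat_lit 591) (nat_lit 4558) (.f (nat_lit 527) (nat_lit 430) (nat_lit 4526) (.d (nat_lit 525) (nat_lit 497) (nat_lit 2541) (nat_lit 524) (nat_lit 524)))) (.a (.f (nat_lit 591) (nat_lit 462) (nat_lit 4558) (.d (nat_lit 623) (nat_lit 590) (nat_lit 4590) (nat_lit 655) (nat_lit 6671))) (.f (nat_lit 525) (nat_lit 561) (nat_lit 3597) (.d (nat_lit 524) (nat_lit 523) (nat_lit 523) (nat_lit 527) (nat_lit 524)))))) (.a (.p (nat_lit 590) (.a (.f (nat_lit 591) (nat_lit 623) (nat_lit 4590) (.f (nat_lit 559) (nat_lit 462) (nat_lit 4558) (.d (nat_lit 589) (nat_lit 588) (nat_lit 2604) (nat_lit 621) (nat_lit 5613)))) (.a (.f (nat_lit 495) (nat_lit 463) (nat_lit 6606) (.f (nat_lit 461) (nat_lit 493) (nat_lit 7629) (.d (nat_lit 462) (nat_lit 429) (nat_lit 7597) (nat_lit 497) (nat_lit 3533)))) (.f (nat_lit 495) (nat_lit 463) (nat_lit 6606) (.f (nat_lit 493) (nat_lit 461) (nat_lit 7629) (.d (nat_lit 527) (nat_lit 492) (nat_lit 492) (nat_lit 622) (nat_lit 6638))))))) (.a (.p (nat_lit 525) (.a (.d (nat_lit 527) (nat_lit 497) (nat_lit 2541) (nat_lit 561) (nat_lit 525)) (.a (.f (nat_lit 495) (nat_lit 497) (nat_lit 1517) (.d (nat_lit 524) (nat_lit 493) (nat_lit 1516) (nat_lit 523) (nat_lit 2539))) (.f (nat_lit 527) (nat_lit 561) (nat_lit 525) (.f (nat_lit 495) (nat_lit 524) (nat_lit 2540) (.f (nat_lit 493) (nat_lit 492) (nat_lit 3564) (.d (nat_lit 461) (nat_lit 429) (nat_lit 4525) (nat_lit 460) (nat_lit 3532)))))))) (.p (nat_lit 590) (.a (.f (nat_lit 591) (nat_lit 623) (nat_lit 4590) (.f (nat_lit 559) (nat_lit 462) (nat_lit 4558) (.d (nat_lit 589) (nat_lit 588) (nat_lit 2604) (nat_lit 621) (nat_lit 5613)))) (.a (.f (nat_lit 495) (nat_lit 463) (nat_lit 6606) (.f (nat_lit 622) (nat_lit 527) (nat_lit 6638) (.d (nat_lit 621) (nat_lit 589) (nat_lit 5613) (nat_lit 653) (nat_lit 5645)))) (.f (nat_lit 591) (nat_lit 623) (nat_lit 4590) (.f (nat_lit 462) (nat_lit 559) (nat_lit 4558) (.d (nat_lit 463) (nat_lit 431) (nat_lit 6574) (nat_lit 495) (nat_lit 6606)))))))))))))) (.p (nat_lit 559) (.a (.f (nat_lit 525) (nat_lit 561) (nat_lit 3597) (.d (nat_lit 524) (nat_lit 523) (nat_lit 523) (nat_lit 557) (nat_lit 3596))) (.a (.p (nat_lit 557) (.a (.f (nat_lit 527) (nat_lit 556) (nat_lit 2572) (.f (nat_lit 591) (nat_lit 623) (nat_lit 6639) (.f (nat_lit 494) (nat_lit 462) (nat_lit 4558) (.f (nat_lit 589) (nat_lit 588) (nat_lit 1580) (.d (nat_lit 621) (nat_lit 590) (nat_lit 5613) (nat_lit 653) (nat_lit 6669)))))) (.a (.f (nat_lit 589) (nat_lit 588) (nat_lit 1580) (.f (nat_lit 525) (nat_lit 524) (nat_lit 3596) (.d (nat_lit 494) (nat_lit 462) (nat_lit 5581) (nat_lit 621) (nat_lit 6637)))) (.a (.f (nat_lit 556) (nat_lit 527) (nat_lit 2572) (.d (nat_lit 588) (nat_lit 587) (nat_lit 1579) (nat_lit 589) (nat_lit 1580))) (.a (.f (nat_lit 556) (nat_lit 527) (nat_lit 2572) (.f (nat_lit 523) (nat_lit 524) (nat_lit 3595) (.f (nat_lit 555) (nat_lit 522) (nat_lit 3594) (.d (nat_lit 587) (nat_lit 586) (nat_lit 1578) (nat_lit 588) (nat_lit 1579))))) (.f (nat_lit 527) (nat_lit 556) (nat_lit 2572) (.f (nat_lit 525) (nat_lit 524) (nat_lit 3596) (.f (nat_lit 493) (nat_lit 492) (nat_lit 3564) (.d (nat_lit 461) (nat_lit 429) (nat_lit 4525) (nat_lit 590) (nat_lit 4557)))))))))) (.a (.p (nat_lit 557) (.a (.f (nat_lit 527) (nat_lit 556) (nat_lit 2572) (.f (nat_lit 589) (nat_lit 588) (nat_lit 1580) (.d (nat_lit 561) (nat_lit 562) (nat_lit 3598) (nat_lit 590) (nat_lit 1581)))) (.a (.f (nat_lit 589) (nat_lit 588) (nat_lit 1580) (.f (nat_lit 590) (nat_lit 561) (nat_lit 1581) (.d (nat_lit 494) (nat_lit 462) (nat_lit 5581) (nat_lit 621) (nat_lit 5613)))) (.a (.f (nat_lit 527) (nat_lit 556) (nat_lit 2572) (.f (nat_lit 591) (nat_lit 623) (nat_lit 6639) (.f (nat_lit 494) (nat_lit 462) (nat_lit 4558) (.f (nat_lit 589) (nat_lit 588) (nat_lit 1580) (.d (nat_lit 621) (nat_lit 590) (nat_lit 5613) (nat_lit 653) (nat_lit 6669)))))) (.a (.f (nat_lit 556) (nat_lit 527) (nat_lit 2572) (.d (nat_lit 588) (nat_lit 587) (nat_lit 1579) (nat_lit 589) (nat_lit 1580))) (.a (.f (nat_lit 556) (nat_lit 527) (nat_lit 2572) (.f (nat_lit 523) (nat_lit 524) (nat_lit 3595) (.f (nat_lit 555) (nat_lit 522) (nat_lit 3594) (.d (nat_lit 587) (nat_lit 586) (nat_lit 1578) (nat_lit 588) (nat_lit 1579))))) (.f (nat_lit 527) (nat_lit 556) (nat_lit 2572) (.f (nat_lit 591) (nat_lit 623) (nat_lit 6639) (.f (nat_lit 561) (nat_lit 562) (nat_lit 3598) (.f (nat_lit 590) (nat_lit 589) (nat_lit 1581) (.d (nat_lit 495) (nat_lit 463) (nat_lit 5582) (nat_lit 622) (nat_lit 5614)))))))))))) (.a (.f (nat_lit 525) (nat_lit 561) (nat_lit 3597) (.d (nat_lit 524) (nat_lit 523) (nat_lit 523) (nat_lit 527) (nat_lit 524))) (.f (nat_lit 561) (nat_lit 525) (nat_lit 3597) (.f (nat_lit 590) (nat_lit 589) (nat_lit 1581) (.f (nat_lit 591) (nat_lit 562) (nat_lit 1582) (.d (nat_lit 494) (nat_lit 462) (nat_lit 4558) (nat_lit 623) (nat_lit 4590)))))))))))))))))) (.a (.p (nat_lit 559) (.a s116730 (.a (.p (nat_lit 526) (.a (.f (nat_lit 525) (nat_lit 561) (nat_lit 3597) (.d (nat_lit 524) (nat_lit 523) (nat_lit 523) (nat_lit 557) (nat_lit 3596))) (.a (.p (nat_lit 494) (.a (.f (nat_lit 462) (nat_lit 591) (nat_lit 4558) (.f (nat_lit 557) (nat_lit 589) (nat_lit 5581) (.d (nat_lit 525) (nat_lit 430) (nat_lit 5549) (nat_lit 524) (nat_lit 3596)))) (.a (.p (nat_lit 590) (.a (.f (nat_lit 589) (nat_lit 621) (nat_lit 5613) (.d (nat_lit 557) (nat_lit 462) (nat_lit 5581) (nat_lit 588) (nat_lit 1580))) (.f (nat_lit 495) (nat_lit 463) (nat_lit 6606) (.f (nat_lit 525) (nat_lit 497) (nat_lit 1517) (.d (nat_lit 493) (nat_lit 461) (nat_lit 7629) (nat_lit 524) (nat_lit 1516)))))) (.a (.f (nat_lit 591) (nat_lit 462) (nat_lit 4558) (.d (nat_lit 623) (nat_lit 590) (nat_lit 4590) (nat_lit 655) (nat_lit 6671))) (.p (nat_lit 590) (.a (.f (nat_lit 495) (nat_lit 463) (nat_lit 6606) (.f (nat_lit 525) (nat_lit 497) (nat_lit 1517) (.d (nat_lit 493) (nat_lit 461) (nat_lit 7629) (nat_lit 524) (nat_lit 1516)))) (.f (nat_lit 591) (nat_lit 623) (nat_lit 4590) (.d (nat_lit 589) (nat_lit 588) (nat_lit 2604) (nat_lit 621) (nat_lit 5613))))))))) (.a (.p (nat_lit 590) (.a (.f (nat_lit 589) (nat_lit 561) (nat_lit 1581) (.d (nat_lit 588) (nat_lit 557) (nat_lit 1580) (nat_lit 587) (nat_lit 2603))) (.a (.p (nat_lit 494) (.a (.f (nat_lit 589) (nat_lit 621) (nat_lit 5613) (.d (nat_lit 557) (nat_lit 462) (nat_lit 5581) (nat_lit 588) (nat_lit 1580))) (.a (.f (nat_lit 591) (nat_lit 623) (nat_lit 4590) (.d (nat_lit 589) (nat_lit 588) (nat_lit 2604) (nat_lit 621) (nat_lit 5613))) (.f (nat_lit 461) (nat_lit 493) (nat_lit 7629) (.f (nat_lit 462) (nat_lit 429) (nat_lit 7597) (.d (nat_lit 463) (nat_lit 431) (nat_lit 6574) (nat_lit 495) (nat_lit 6606))))))) (.a (.f (nat_lit 589) (nat_lit 561) (nat_lit 1581) (.d (nat_lit 588) (nat_lit 587) (nat_lit 2603) (nat_lit 591) (nat_lit 2604))) s116750)))) (.f (nat_lit 561) (nat_lit 525) (nat_lit 3597) (.f (nat_lit 590) (nat_lit 589) (nat_lit 1581) (.f (nat_lit 591) (nat_lit 562) (nat_lit 1582) (.d (nat_lit 494) (nat_lit 462) (nat_lit 4558) (nat_lit 623) (nat_lit 4590))))))))) (.a s116758 (.a s116759 (.a s116760 (.a s116762 (.a (.p (nat_lit 526) (.a (.f (nat_lit 561) (nat_lit 525) (nat_lit 3597) (.f (nat_lit 590) (nat_lit 589) (nat_lit 1581) (.f (nat_lit 591) (nat_lit 562) (nat_lit 1582) (.d (nat_lit 494) (nat_lit 462) (nat_lit 4558) (nat_lit 623) (nat_lit 4590))))) (.a (.p (nat_lit 494) (.a (.f (nat_lit 591) (nat_lit 462) (nat_lit 4558) (.d (nat_lit 623) (nat_lit 590) (nat_lit 4590) (nat_lit 655) (nat_lit 6671))) (.a s116763 (.a (.f (nat_lit 462) (nat_lit 591) (nat_lit 4558) (.f (nat_lit 461) (nat_lit 429) (nat_lit 7597) (.f (nat_lit 495) (nat_lit 497) (nat_lit 3533) (.d (nat_lit 460) (nat_lit 459) (nat_lit 459) (nat_lit 493) (nat_lit 3532))))) (.p (nat_lit 590) (.a (.f (nat_lit 495) (nat_lit 463) (nat_lit 6606) (.f (nat_lit 525) (nat_lit 497) (nat_lit 1517) (.d (nat_lit 493) (nat_lit 461) (nat_lit 7629) (nat_lit 524) (nat_lit 1516)))) (.f (nat_lit 591) (nat_lit 623) (nat_lit 4590) (.d (nat_lit 589) (nat_lit 588) (nat_lit 2604) (nat_lit 621) (nat_lit 5613))))))))) (.a (.p (nat_lit 494) (.a (.f (nat_lit 525) (nat_lit 561) (nat_lit 3597) (.f (nat_lit 495) (nat_lit 497) (nat_lit 1517) (.d (nat_lit 524) (nat_lit 493) (nat_lit 1516) (nat_lit 523) (nat_lit 523)))) (.a s116763 (.a (.p (nat_lit 590) (.a (.d (nat_lit 589) (nat_lit 561) (nat_lit 1581) (nat_lit 621) (nat_lit 5613)) (.a (.f (nat_lit 493) (nat_lit 461) (nat_lit 7629) (.f (nat_lit 622) (nat_lit 525) (nat_lit 7661) (.d (nat_lit 621) (nat_lit 589) (nat_lit 5613) (nat_lit 653) (nat_lit 5645)))) (.f (nat_lit 525) (nat_lit 561) (nat_lit 3597) (.d (nat_lit 493) (nat_lit 461) (nat_lit 7629) (nat_lit 622) (nat_lit 7661)))))) (.a (.p (nat_lit 590) (.a (.d (nat_lit 589) (nat_lit 561) (nat_lit 1581) (nat_lit 621) (nat_lit 5613)) (.f (nat_lit 461) (nat_lit 493) (nat_lit 7629) (.f (nat_lit 462) (nat_lit 429) (nat_lit 7597) (.d (nat_lit 463) (nat_lit 431) (nat_lit 6574) (nat_lit 495) (nat_lit 6606)))))) (.f (nat_lit 525) (nat_lit 561) (nat_lit 3597) (.f (nat_lit 495) (nat_lit 497) (nat_lit 1517) (.d (nat_lit 463) (nat_lit 590) (nat_lit 6606) (nat_lit 592) (nat_lit 7631))))))))) (.a (.p (nat_lit 590) (.a (.f (nat_lit 589) (nat_lit 561) (nat_lit 1581) (.d (nat_lit 588) (nat_lit 587) (nat_lit 2603) (nat_lit 591) (nat_lit 2604))) (.a s116750 (.f (nat_lit 589) (nat_lit 561) (nat_lit 1581) (.f (nat_lit 494) (nat_lit 621) (nat_lit 5613) (.f (nat_lit 495) (nat_lit 463) (nat_lit 6606) (.f (nat_lit 461) (nat_lit 493) (nat_lit 7629) (.d (nat_lit 462) (nat_lit 429) (nat_lit 7597) (nat_lit 497) (nat_lit 3533))))))))) (.a (.p (nat_lit 494) (.a (.f (nat_lit 525) (nat_lit 561) (nat_lit 3597) (.f (nat_lit 495) (nat_lit 497) (nat_lit 1517) (.d (nat_lit 524) (nat_lit 493) (nat_lit 1516) (nat_lit 523) (nat_lit 523)))) (.a (.f (nat_lit 462) (nat_lit 591) (nat_lit 4558) (.f (nat_lit 461) (nat_lit 429) (nat_lit 7597) (.f (nat_lit 495) (nat_lit 497) (nat_lit 3533) (.d (nat_lit 460) (nat_lit 459) (nat_lit 459) (nat_lit 493) (nat_lit 3532))))) (.f (nat_lit 591) (nat_lit 462) (nat_lit 4558) (.d (nat_lit 623) (nat_lit 592) (nat_lit 5615) (nat_lit 655) (nat_lit 6671)))))) (.f (nat_lit 561) (nat_lit 525) (nat_lit 3597) (.f (nat_lit 590) (nat_lit 589) (nat_lit 1581) (.f (nat_lit 591) (nat_lit 562) (nat_lit 1582) (.d (nat_lit 623) (nat_lit 592) (nat_lit 5615) (nat_lit 655) (nat_lit 6671))))))))))) (.p (nat_lit 525) (.a (.f (nat_lit 557) (nat_lit 524) (nat_lit 3596) (.f (nat_lit 592) (nat_lit 593) (nat_lit 557) (.d (nat_lit 591) (nat_lit 556) (nat_lit 556) (nat_lit 623) (nat_lit 5615)))) (.a (.f (nat_lit 526) (nat_lit 561) (nat_lit 3597) (.d (nat_lit 524) (nat_lit 523) (nat_lit 523) (nat_lit 557) (nat_lit 3596))) (.f (nat_lit 561) (nat_lit 526) (nat_lit 3597) (.f (nat_lit 594) (nat_lit 593) (nat_lit 558) (.f (nat_lit 562) (nat_lit 595) (nat_lit 559) (.f (nat_lit 591) (nat_lit 590) (nat_lit 1582) (.d (nat_lit 592) (nat_lit 563) (nat_lit 1583) (nat_lit 623) (nat_lit 5615))))))))))))))))) (.a (.p (nat_lit 495) (.a (.f (nat_lit 592) (nat_lit 463) (nat_lit 7631) (.f (nat_lit 497) (nat_lit 465) (nat_lit 6608) (.f (nat_lit 527) (nat_lit 624) (nat_lit 7663) (.d (nat_lit 526) (nat_lit 498) (nat_lit 1518) (nat_lit 525) (nat_lit 2541))))) (.a (.p (nat_lit 494) (.a (.p (nat_lit 526) (.a (.f (nat_lit 525) (nat_lit 497) (nat_lit 1517) (.d (nat_lit 524) (nat_lit 493) (nat_lit 1516) (nat_lit 523) (nat_lit 2539))) (.f (nat_lit 463) (nat_lit 590) (nat_lit 6606) (.d (nat_lit 431) (nat_lit 399) (nat_lit 4495) (nat_lit 462) (nat_lit 6574))))) (.a (.p (nat_lit 493) (.a (.f (nat_lit 492) (nat_lit 527) (nat_lit 492) (.d (nat_lit 524) (nat_lit 523) (nat_lit 1515) (nat_lit 525) (nat_lit 1516))) (.a (.f (nat_lit 461) (nat_lit 460) (nat_lit 3532) (.f (nat_lit 525) (nat_lit 524) (nat_lit 1516) (.f (nat_lit 462) (nat_lit 497) (nat_lit 3533) (.d (nat_lit 557) (nat_lit 430) (nat_lit 6573) (nat_lit 590) (nat_lit 4557))))) (.f (nat_lit 492) (nat_lit 527) (nat_lit 492) (.d (nat_lit 460) (nat_lit 459) (nat_lit 3531) (nat_lit 461) (nat_lit 3532)))))) (.a s116806 (.a (.p (nat_lit 493) (.a (.f (nat_lit 492) (nat_lit 527) (nat_lit 492) (.d (nat_lit 524) (nat_lit 523) (nat_lit 1515) (nat_lit 525) (nat_lit 1516))) (.f (nat_lit 461) (nat_lit 460) (nat_lit 3532) (.f (nat_lit 526) (nat_lit 590) (nat_lit 7629) (.d (nat_lit 429) (nat_lit 397) (nat_lit 4493) (nat_lit 462) (nat_lit 7597)))))) (.a (.p (nat_lit 525) (.a (.f (nat_lit 493) (nat_lit 524) (nat_lit 1516) (.f (nat_lit 461) (nat_lit 460) (nat_lit 3532) (.f (nat_lit 462) (nat_lit 497) (nat_lit 3533) (.f (nat_lit 492) (nat_lit 527) (nat_lit 492) (.d (nat_lit 491) (nat_lit 463) (nat_lit 2507) (nat_lit 490) (nat_lit 2506)))))) (.a (.f (nat_lit 497) (nat_lit 526) (nat_lit 1517) (.f (nat_lit 493) (nat_lit 524) (nat_lit 1516) (.d (nat_lit 461) (nat_lit 460) (nat_lit 3532) (nat_lit 462) (nat_lit 3533)))) (.a (.f (nat_lit 493) (nat_lit 524) (nat_lit 1516) (.f (nat_lit 492) (nat_lit 527) (nat_lit 492) (.d (nat_lit 460) (nat_lit 459) (nat_lit 3531) (nat_lit 461) (nat_lit 3532)))) (.a (.f (nat_lit 526) (nat_lit 497) (nat_lit 1517) (.d (nat_lit 524) (nat_lit 523) (nat_lit 2539) (nat_lit 527) (nat_lit 2540))) (.f (nat_lit 526) (nat_lit 497) (nat_lit 1517) (.f (nat_lit 527) (nat_lit 561) (nat_lit 525) (.f (nat_lit 493) (nat_lit 492) (nat_lit 492) (.d (nat_lit 461) (nat_lit 429) (nat_lit 4525) (nat_lit 460) (nat_lit 3532)))))))))) (.a (.p (nat_lit 526) (.a (.f (nat_lit 525) (nat_lit 497) (nat_lit 1517) (.d (nat_lit 524) (nat_lit 493) (nat_lit 1516) (nat_lit 523) (nat_lit 2539))) (.a (.f (nat_lit 590) (nat_lit 463) (nat_lit 6606) (.f (nat_lit 527) (nat_lit 622) (nat_lit 6638) (.d (nat_lit 493) (nat_lit 461) (nat_lit 7629) (nat_lit 492) (nat_lit 492)))) (.f (nat_lit 525) (nat_lit 497) (nat_lit 1517) (.d (nat_lit 524) (nat_lit 523) (nat_lit 2539) (nat_lit 527) (nat_lit 2540)))))) (.a (.p (nat_lit 526) (.a (.f (nat_lit 463) (nat_lit 590) (nat_lit 6606) (.d (nat_lit 431) (nat_lit 399) (nat_lit 4495) (nat_lit 462) (nat_lit 6574))) (.f (nat_lit 525) (nat_lit 497) (nat_lit 1517) (.d (nat_lit 524) (nat_lit 523) (nat_lit 2539) (nat_lit 527) (nat_lit 2540))))) (.p (nat_lit 526) (.a (.f (nat_lit 463) (nat_lit 590) (nat_lit 6606) (.d (nat_lit 431) (nat_lit 399) (nat_lit 4495) (nat_lit 462) (nat_lit 6574))) (.a (.f (nat_lit 497) (nat_lit 525) (nat_lit 1517) (.f (nat_lit 527) (nat_lit 498) (nat_lit 1518) (.f (nat_lit 462) (nat_lit 461) (nat_lit 3533) (.f (nat_lit 590) (nat_lit 622) (nat_lit 6638) (.d (nat_lit 589) (nat_lit 557) (nat_lit 5581) (nat_lit 621) (nat_lit 5613)))))) (.a (.f (nat_lit 497) (nat_lit 525) (nat_lit 1517) (.f (nat_lit 462) (nat_lit 461) (nat_lit 3533) (.d (nat_lit 498) (nat_lit 463) (nat_lit 3534) (nat_lit 527) (nat_lit 1518)))) (.f (nat_lit 590) (nat_lit 463) (nat_lit 6606) (.f (nat_lit 527) (nat_lit 622) (nat_lit 6638) (.d (nat_lit 493) (nat_lit 461) (nat_lit 7629) (nat_lit 492) (nat_lit 492)))))))))))))))) (.a (.p (nat_lit 494) (.a (.p (nat_lit 526) (.a (.f (nat_lit 525) (nat_lit 497) (nat_lit 1517) (.d (nat_lit 524) (nat_lit 493) (nat_lit 1516) (nat_lit 523) (nat_lit 2539))) (.f (nat_lit 463) (nat_lit 590) (nat_lit 6606) (.d (nat_lit 431) (nat_lit 399) (nat_lit 4495) (nat_lit 462) (nat_lit 6574))))) (.a (.f (nat_lit 592) (nat_lit 463) (nat_lit 7631) (.f (nat_lit 497) (nat_lit 465) (nat_lit 6608) (.f (nat_lit 461) (nat_lit 462) (nat_lit 3533) (.f (nat_lit 493) (nat_lit 460) (nat_lit 3532) (.f (nat_lit 525) (nat_lit 524) (nat_lit 1516) (.f (nat_lit 591) (nat_lit 623) (nat_lit 5615) (.f (nat_lit 590) (nat_lit 557) (nat_lit 4557) (.f (nat_lit 561) (nat_lit 589) (nat_lit 2605) (.d (nat_lit 562) (nat_lit 563) (nat_lit 1583) (nat_lit 593) (nat_lit 2606)))))))))) (.a (.f (nat_lit 463) (nat_lit 592) (nat_lit 7631) (.f (nat_lit 526) (nat_lit 590) (nat_lit 6606) (.d (nat_lit 431) (nat_lit 399) (nat_lit 4495) (nat_lit 462) (nat_lit 6574)))) (.a s116860 (.a (.f (nat_lit 592) (nat_lit 463) (nat_lit 7631) (.f (nat_lit 497) (nat_lit 465) (nat_lit 6608) (.f (nat_lit 461) (nat_lit 462) (nat_lit 3533) (.f (nat_lit 493) (nat_lit 460) (nat_lit 3532) (.d (nat_lit 525) (nat_lit 524) (nat_lit 1516) (nat_lit 526) (nat_lit 1517)))))) (.f (nat_lit 592) (nat_lit 463) (nat_lit 7631) (.f (nat_lit 497) (nat_lit 465) (nat_lit 6608) (.f (nat_lit 591) (nat_lit 623) (nat_lit 5615) (.f (nat_lit 525) (nat_lit 526) (nat_lit 1517) (.f (nat_lit 493) (nat_lit 524) (nat_lit 1516) (.f (nat_lit 461) (nat_lit 460) (nat_lit 3532) (.f (nat_lit 590) (nat_lit 557) (nat_lit 4557) (.f (nat_lit 561) (nat_lit 589) (nat_lit 2605) (.d (nat_lit 562) (nat_lit 563) (nat_lit 1583) (nat_lit 593) (nat_lit 2606)))))))))))))))) (.a (.f (nat_lit 592) (nat_lit 463) (nat_lit 7631) (.f (nat_lit 624) (nat_lit 527) (nat_lit 7663) (.d (nat_lit 623) (nat_lit 591) (nat_lit 5615) (nat_lit 655) (nat_lit 5647)))) (.p (nat_lit 494) (.a (.p (nat_lit 493) (.a (.f (nat_lit 492) (nat_lit 527) (nat_lit 492) (.d (nat_lit 524) (nat_lit 523) (nat_lit 1515) (nat_lit 525) (nat_lit 1516))) (.a (.f (nat_lit 461) (nat_lit 460) (nat_lit 3532) (.f (nat_lit 525) (nat_lit 524) (nat_lit 1516) (.f (nat_lit 462) (nat_lit 497) (nat_lit 3533) (.d (nat_lit 557) (nat_lit 430) (nat_lit 6573) (nat_lit 590) (nat_lit 4557))))) (.f (nat_lit 492) (nat_lit 527) (nat_lit 492) (.d (nat_lit 460) (nat_lit 459) (nat_lit 3531) (nat_lit 461) (nat_lit 3532)))))) (.a s116860 (.a (.p (nat_lit 592) (.a (.f (nat_lit 497) (nat_lit 465) (nat_lit 6608) (.f (nat_lit 527) (nat_lit 624) (nat_lit 7663) (.d (nat_lit 498) (nat_lit 499) (nat_lit 1519) (nat_lit 526) (nat_lit 1518)))) (.a (.f (nat_lit 497) (nat_lit 465) (nat_lit 6608) (.f (nat_lit 461) (nat_lit 462) (nat_lit 3533) (.f (nat_lit 493) (nat_lit 460) (nat_lit 3532) (.f (nat_lit 591) (nat_lit 623) (nat_lit 5615) (.f (nat_lit 590) (nat_lit 526) (nat_lit 7629) (.f (nat_lit 589) (nat_lit 561) (nat_lit 2605) (.d (nat_lit 557) (nat_lit 556) (nat_lit 3628) (nat_lit 593) (nat_lit 3629)))))))) (.a (.f (nat_lit 497) (nat_lit 465) (nat_lit 6608) (.f (nat_lit 527) (nat_lit 624) (nat_lit 7663) (.f (nat_lit 493) (nat_lit 492) (nat_lit 492) (.d (nat_lit 461) (nat_lit 460) (nat_lit 3532) (nat_lit 462) (nat_lit 3533))))) (.a (.f (nat_lit 527) (nat_lit 624) (nat_lit 7663) (.f (nat_lit 493) (nat_lit 492) (nat_lit 492) (.f (nat_lit 461) (nat_lit 460) (nat_lit 3532) (.f (nat_lit 526) (nat_lit 590) (nat_lit 7629) (.d (nat_lit 462) (nat_lit 429) (nat_lit 7597) (nat_lit 497) (nat_lit 3533)))))) (.f (nat_lit 527) (nat_lit 624) (nat_lit 7663) (.f (nat_lit 493) (nat_lit 492) (nat_lit 492) (.f (nat_lit 461) (nat_lit 460) (nat_lit 3532) (.f (nat_lit 526) (nat_lit 590) (nat_lit 7629) (.d (nat_lit 429) (nat_lit 397) (nat_lit 4493) (nat_lit 462) (nat_lit 7597))))))))))) (.a (.p (nat_lit 493) (.a (.f (nat_lit 492) (nat_lit 527) (nat_lit 492) (.d (nat_lit 524) (nat_lit 523) (nat_lit 1515) (nat_lit 525) (nat_lit 1516))) (.f (nat_lit 461) (nat_lit 460) (nat_lit 3532) (.f (nat_lit 526) (nat_lit 590) (nat_lit 7629) (.d (nat_lit 429) (nat_lit 397) (nat_lit 4493) (nat_lit 462) (nat_lit 7597)))))) (.a (.p (nat_lit 592) (.a (.f (nat_lit 497) (nat_lit 465) (nat_lit 6608) (.f (nat_lit 461) (nat_lit 462) (nat_lit 3533) (.f (nat_lit 493) (nat_lit 460) (nat_lit 3532) (.d (nat_lit 525) (nat_lit 524) (nat_lit 1516) (nat_lit 526) (nat_lit 1517))))) (.a (.f (nat_lit 497) (nat_lit 465) (nat_lit 6608) (.f (nat_lit 527) (nat_lit 624) (nat_lit 7663) (.f (nat_lit 493) (nat_lit 492) (nat_lit 492) (.d (nat_lit 461) (nat_lit 460) (nat_lit 3532) (nat_lit 462) (nat_lit 3533))))) (.a (.f (nat_lit 527) (nat_lit 624) (nat_lit 7663) (.f (nat_lit 493) (nat_lit 492) (nat_lit 492) (.f (nat_lit 525) (nat_lit 524) (nat_lit 1516) (.d (nat_lit 526) (nat_lit 497) (nat_lit 1517) (nat_lit 561) (nat_lit 525))))) (.a (.f (nat_lit 527) (nat_lit 624) (nat_lit 7663) (.f (nat_lit 493) (nat_lit 492) (nat_lit 492) (.f (nat_lit 525) (nat_lit 524) (nat_lit 1516) (.f (nat_lit 526) (nat_lit 561) (nat_lit 525) (.d (nat_lit 461) (nat_lit 429) (nat_lit 4525) (nat_lit 460) (nat_lit 3532)))))) (.f (nat_lit 497) (nat_lit 465) (nat_lit 6608) (.f (nat_lit 527) (nat_lit 624) (nat_lit 7663) (.d (nat_lit 498) (nat_lit 499) (nat_lit 1519) (nat_lit 526) (nat_lit 1518))))))))) (.a (.p (nat_lit 592) (.a (.f (nat_lit 497) (nat_lit 465) (nat_lit 6608) (.f (nat_lit 527) (nat_lit 624) (nat_lit 7663) (.d (nat_lit 498) (nat_lit 499) (nat_lit 1519) (nat_lit 526) (nat_lit 1518)))) (.a (.f (nat_lit 497) (nat_lit 465) (nat_lit 6608) (.f (nat_lit 591) (nat_lit 623) (nat_lit 5615) (.f (nat_lit 525) (nat_lit 526) (nat_lit 1517) (.f (nat_lit 493) (nat_lit 524) (nat_lit 1516) (.f (nat_lit 461) (nat_lit 460) (nat_lit 3532) (.f (nat_lit 590) (nat_lit 557) (nat_lit 4557) (.f (nat_lit 561) (nat_lit 589) (nat_lit 2605) (.d (nat_lit 562) (nat_lit 563) (nat_lit 1583) (nat_lit 593) (nat_lit 2606))))))))) (.f (nat_lit 527) (nat_lit 624) (nat_lit 7663) (.f (nat_lit 493) (nat_lit 492) (nat_lit 492) (.f (nat_lit 591) (nat_lit 623) (nat_lit 5615) (.f (nat_lit 461) (nat_lit 460) (nat_lit 3532) (.f (nat_lit 525) (nat_lit 524) (nat_lit 1516) (.f (nat_lit 590) (nat_lit 557) (nat_lit 4557) (.f (nat_lit 561) (nat_lit 589) (nat_lit 2605) (.d (nat_lit 562) (nat_lit 563) (nat_lit 1583) (nat_lit 593) (nat_lit 2606)))))))))))) (.a (.p (nat_lit 592) (.a (.f (nat_lit 497) (nat_lit 465) (nat_lit 6608) (.f (nat_lit 527) (nat_lit 624) (nat_lit 7663) (.d (nat_lit 498) (nat_lit 499) (nat_lit 1519) (nat_lit 526) (nat_lit 1518)))) (.a (.f (nat_lit 497) (nat_lit 465) (nat_lit 6608) (.f (nat_lit 591) (nat_lit 623) (nat_lit 5615) (.f (nat_lit 526) (nat_lit 525) (nat_lit 1517) (.f (nat_lit 462) (nat_lit 461) (nat_lit 3533) (.f (nat_lit 589) (nat_lit 557) (nat_lit 5581) (.d (nat_lit 590) (nat_lit 561) (nat_lit 2605) (nat_lit 621) (nat_lit 5613))))))) (.f (nat_lit 624) (nat_lit 527) (nat_lit 7663) (.d (nat_lit 623) (nat_lit 591) (nat_lit 5615) (nat_lit 655) (nat_lit 5647)))))) s116928))))))))))))) (.a (.p (nat_lit 592) (.a (.f (nat_lit 495) (nat_lit 463) (nat_lit 7631) (.f (nat_lit 497) (nat_lit 465) (nat_lit 6608) (.f (nat_lit 527) (nat_lit 624) (nat_lit 7663) (.d (nat_lit 526) (nat_lit 498) (nat_lit 1518) (nat_lit 525) (nat_lit 2541))))) (.a (.p (nat_lit 557) (.a (.f (nat_lit 559) (nat_lit 593) (nat_lit 557) (.d (nat_lit 591) (nat_lit 556) (nat_lit 556) (nat_lit 623) (nat_lit 5615))) (.a (.f (nat_lit 591) (nat_lit 623) (nat_lit 5615) (.f (nat_lit 590) (nat_lit 593) (nat_lit 3629) (.d (nat_lit 556) (nat_lit 555) (nat_lit 555) (nat_lit 589) (nat_lit 3628)))) (.a (.f (nat_lit 559) (nat_lit 593) (nat_lit 557) (.f (nat_lit 588) (nat_lit 589) (nat_lit 1580) (.f (nat_lit 556) (nat_lit 587) (nat_lit 1579) (.d (nat_lit 524) (nat_lit 523) (nat_lit 3595) (nat_lit 525) (nat_lit 3596))))) (.a (.f (nat_lit 591) (nat_lit 623) (nat_lit 5615) (.f (nat_lit 559) (nat_lit 556) (nat_lit 556) (.f (nat_lit 589) (nat_lit 588) (nat_lit 1580) (.f (nat_lit 525) (nat_lit 524) (nat_lit 3596) (.f (nat_lit 497) (nat_lit 465) (nat_lit 6608) (.f (nat_lit 495) (nat_lit 463) (nat_lit 7631) (.f (nat_lit 494) (nat_lit 526) (nat_lit 1517) (.d (nat_lit 462) (nat_lit 461) (nat_lit 3533) (nat_lit 493) (nat_lit 6605))))))))) (.f (nat_lit 559) (nat_lit 593) (nat_lit 557) (.f (nat_lit 589) (nat_lit 588) (nat_lit 1580) (.f (nat_lit 525) (nat_lit 524) (nat_lit 3596) (.f (nat_lit 495) (nat_lit 463) (nat_lit 7631) (.f (nat_lit 497) (nat_lit 465) (nat_lit 6608) (.f (nat_lit 494) (nat_lit 526) (nat_lit 1517) (.d (nat_lit 462) (nat_lit 461) (nat_lit 3533) (nat_lit 493) (nat_lit 6605))))))))))))) (.a (.p (nat_lit 557) (.a (.f (nat_lit 559) (nat_lit 593) (nat_lit 557) (.d (nat_lit 591) (nat_lit 556) (nat_lit 556) (nat_lit 623) (nat_lit 5615))) (.a (.f (nat_lit 591) (nat_lit 623) (nat_lit 5615) (.f (nat_lit 590) (nat_lit 593) (nat_lit 3629) (.d (nat_lit 556) (nat_lit 555) (nat_lit 555) (nat_lit 589) (nat_lit 3628)))) (.a (.f (nat_lit 559) (nat_lit 593) (nat_lit 557) (.f (nat_lit 588) (nat_lit 589) (nat_lit 1580) (.f (nat_lit 556) (nat_lit 587) (nat_lit 1579) (.d (nat_lit 524) (nat_lit 523) (nat_lit 3595) (nat_lit 525) (nat_lit 3596))))) (.a (.f (nat_lit 591) (nat_lit 623) (nat_lit 5615) (.f (nat_lit 556) (nat_lit 559) (nat_lit 556) (.d (nat_lit 590) (nat_lit 555) (nat_lit 555) (nat_lit 589) (nat_lit 3628)))) (.f (nat_lit 559) (nat_lit 593) (nat_lit 557) (.f (nat_lit 591) (nat_lit 623) (nat_lit 5615) (.f (nat_lit 589) (nat_lit 588) (nat_lit 1580) (.f (nat_lit 525) (nat_lit 524) (nat_lit 3596) (.f (nat_lit 497) (nat_lit 465) (nat_lit 6608) (.f (nat_lit 526) (nat_lit 527) (nat_lit 2541) (.d (nat_lit 494) (nat_lit 462) (nat_lit 4558) (nat_lit 621) (nat_lit 6637))))))))))))) (.f (nat_lit 623) (nat_lit 591) (nat_lit 5615) (.f (nat_lit 624) (nat_lit 655) (nat_lit 5647) (.d (nat_lit 495) (nat_lit 463) (nat_lit 7631) (nat_lit 527) (nat_lit 7663)))))))) (.a (.p (nat_lit 559) (.a s116730 (.a (.p (nat_lit 561) (.a (.f (nat_lit 590) (nat_lit 589) (nat_lit 1581) (.f (nat_lit 526) (nat_lit 525) (nat_lit 3597) (.f (nat_lit 591) (nat_lit 562) (nat_lit 1582) (.d (nat_lit 494) (nat_lit 462) (nat_lit 4558) (nat_lit 623) (nat_lit 4590))))) (.a (.f (nat_lit 525) (nat_lit 526) (nat_lit 3597) (.f (nat_lit 557) (nat_lit 524) (nat_lit 3596) (.d (nat_lit 589) (nat_lit 588) (nat_lit 1580) (nat_lit 590) (nat_lit 1581)))) (.a (.f (nat_lit 590) (nat_lit 589) (nat_lit 1581) (.f (nat_lit 562) (nat_lit 591) (nat_lit 1582) (.d (nat_lit 594) (nat_lit 593) (nat_lit 558) (nat_lit 595) (nat_lit 559)))) (.f (nat_lit 526) (nat_lit 525) (nat_lit 3597) (.f (nat_lit 562) (nat_lit 527) (nat_lit 3598) (.d (nat_lit 594) (nat_lit 593) (nat_lit 558) (nat_lit 595) (nat_lit 559)))))))) (.a (.p (nat_lit 557) (.a (.f (nat_lit 592) (nat_lit 593) (nat_lit 557) (.d (nat_lit 591) (nat_lit 556) (nat_lit 556) (nat_lit 623) (nat_lit 5615))) (.a (.f (nat_lit 588) (nat_lit 589) (nat_lit 1580) (.f (nat_lit 556) (nat_lit 587) (nat_lit 1579) (.d (nat_lit 524) (nat_lit 523) (nat_lit 3595) (nat_lit 525) (nat_lit 3596)))) (.f (nat_lit 592) (nat_lit 593) (nat_lit 557) (.f (nat_lit 591) (nat_lit 623) (nat_lit 5615) (.f (nat_lit 589) (nat_lit 588) (nat_lit 1580) (.f (nat_lit 525) (nat_lit 524) (nat_lit 3596) (.f (nat_lit 497) (nat_lit 465) (nat_lit 6608) (.f (nat_lit 526) (nat_lit 527) (nat_lit 2541) (.d (nat_lit 494) (nat_lit 462) (nat_lit 4558) (nat_lit 621) (nat_lit 6637))))))))))) (.a s116965 (.a s116760 (.a s116762 (.a (.p (nat_lit 561) (.a (.f (nat_lit 590) (nat_lit 589) (nat_lit 1581) (.f (nat_lit 526) (nat_lit 525) (nat_lit 3597) (.f (nat_lit 591) (nat_lit 562) (nat_lit 1582) (.d (nat_lit 494) (nat_lit 462) (nat_lit 4558) (nat_lit 623) (nat_lit 4590))))) (.a (.f (nat_lit 526) (nat_lit 525) (nat_lit 3597) (.f (nat_lit 562) (nat_lit 527) (nat_lit 3598) (.d (nat_lit 594) (nat_lit 593) (nat_lit 558) (nat_lit 595) (nat_lit 559)))) (.a (.f (nat_lit 590) (nat_lit 589) (nat_lit 1581) (.f (nat_lit 562) (nat_lit 591) (nat_lit 1582) (.d (nat_lit 594) (nat_lit 593) (nat_lit 558) (nat_lit 595) (nat_lit 559)))) (.p (nat_lit 623) (.a (.d (nat_lit 591) (nat_lit 527) (nat_lit 6639) (nat_lit 592) (nat_lit 5615)) (.a (.d (nat_lit 591) (nat_lit 527) (nat_lit 6639) (nat_lit 655) (nat_lit 6671)) (.a (.d (nat_lit 591) (nat_lit 592) (nat_lit 5615) (nat_lit 655) (nat_lit 6671)) (.f (nat_lit 526) (nat_lit 525) (nat_lit 3597) (.f (nat_lit 590) (nat_lit 589) (nat_lit 1581) (.f (nat_lit 622) (nat_lit 655) (nat_lit 4622) (.f (nat_lit 653) (nat_lit 621) (nat_lit 5645) (.d (nat_lit 654) (nat_lit 527) (nat_lit 6670) (nat_lit 685) (nat_lit 5677)))))))))))))) (.a (.p (nat_lit 525) (.a (.f (nat_lit 557) (nat_lit 524) (nat_lit 3596) (.f (nat_lit 592) (nat_lit 593) (nat_lit 557) (.d (nat_lit 591) (nat_lit 556) (nat_lit 556) (nat_lit 623) (nat_lit 5615)))) (.a (.f (nat_lit 526) (nat_lit 561) (nat_lit 3597) (.d (nat_lit 524) (nat_lit 523) (nat_lit 523) (nat_lit 557) (nat_lit 3596))) (.f (nat_lit 561) (nat_lit 526) (nat_lit 3597) (.f (nat_lit 594) (nat_lit 593) (nat_lit 558) (.f (nat_lit 562) (nat_lit 595) (nat_lit 559) (.f (nat_lit 591) (nat_lit 590) (nat_lit 1582) (.d (nat_lit 592) (nat_lit 563) (nat_lit 1583) (nat_lit 623) (nat_lit 5615))))))))) (.p (nat_lit 561) (.a (.f (nat_lit 590) (nat_lit 589) (nat_lit 1581) (.f (nat_lit 526) (nat_lit 525) (nat_lit 3597) (.f (nat_lit 591) (nat_lit 562) (nat_lit 1582) (.d (nat_lit 494) (nat_lit 462) (nat_lit 4558) (nat_lit 623) (nat_lit 4590))))) (.a (.f (nat_lit 525) (nat_lit 526) (nat_lit 3597) (.f (nat_lit 557) (nat_lit 524) (nat_lit 3596) (.d (nat_lit 589) (nat_lit 588) (nat_lit 1580) (nat_lit 590) (nat_lit 1581)))) (.a (.f (nat_lit 590) (nat_lit 589) (nat_lit 1581) (.f (nat_lit 591) (nat_lit 562) (nat_lit 1582) (.d (nat_lit 623) (nat_lit 527) (nat_lit 6639) (nat_lit 592) (nat_lit 5615)))) (.f (nat_lit 526) (nat_lit 525) (nat_lit 3597) (.f (nat_lit 562) (nat_lit 527) (nat_lit 3598) (.f (nat_lit 531) (nat_lit 530) (nat_lit 2575) (.f (nat_lit 563) (nat_lit 532) (nat_lit 2576) (.d (nat_lit 595) (nat_lit 594) (nat_lit 559) (nat_lit 596) (nat_lit 560))))))))))))))))))) (.a (.p (nat_lit 494) (.a (.p (nat_lit 526) (.a s116635 (.a (.p (nat_lit 590) (.a (.f (nat_lit 589) (nat_lit 621) (nat_lit 5613) (.f (nat_lit 462) (nat_lit 557) (nat_lit 5581) (.d (nat_lit 461) (nat_lit 429) (nat_lit 7597) (nat_lit 493) (nat_lit 7629)))) (.a (.f (nat_lit 493) (nat_lit 461) (nat_lit 7629) (.f (nat_lit 525) (nat_lit 622) (nat_lit 7661) (.d (nat_lit 527) (nat_lit 492) (nat_lit 3564) (nat_lit 561) (nat_lit 525)))) (.f (nat_lit 589) (nat_lit 621) (nat_lit 5613) (.f (nat_lit 559) (nat_lit 561) (nat_lit 1581) (.d (nat_lit 588) (nat_lit 557) (nat_lit 1580) (nat_lit 587) (nat_lit 2603))))))) (.a s116665 (.a s116672 (.a (.p (nat_lit 525) (.a (.d (nat_lit 527) (nat_lit 497) (nat_lit 2541) (nat_lit 561) (nat_lit 525)) (.a (.f (nat_lit 495) (nat_lit 497) (nat_lit 1517) (.d (nat_lit 524) (nat_lit 493) (nat_lit 1516) (nat_lit 523) (nat_lit 2539))) (.f (nat_lit 527) (nat_lit 561) (nat_lit 525) (.f (nat_lit 495) (nat_lit 524) (nat_lit 2540) (.f (nat_lit 493) (nat_lit 492) (nat_lit 3564) (.d (nat_lit 461) (nat_lit 429) (nat_lit 4525) (nat_lit 460) (nat_lit 3532)))))))) (.a s116979 (.p (nat_lit 590) (.a (.f (nat_lit 495) (nat_lit 463) (nat_lit 6606) (.f (nat_lit 525) (nat_lit 497) (nat_lit 1517) (.d (nat_lit 524) (nat_lit 493) (nat_lit 1516) (nat_lit 523) (nat_lit 2539)))) (.f (nat_lit 589) (nat_lit 621) (nat_lit 5613) (.f (nat_lit 559) (nat_lit 561) (nat_lit 1581) (.d (nat_lit 588) (nat_lit 557) (nat_lit 1580) (nat_lit 587) (nat_lit 2603))))))))))))) (.a (.p (nat_lit 526) (.a s116635 (.a s116982 (.a (.p (nat_lit 590) (.a (.f (nat_lit 589) (nat_lit 621) (nat_lit 5613) (.f (nat_lit 462) (nat_lit 557) (nat_lit 5581) (.d (nat_lit 461) (nat_lit 429) (nat_lit 7597) (nat_lit 493) (nat_lit 7629)))) (.a (.f (nat_lit 495) (nat_lit 463) (nat_lit 6606) (.f (nat_lit 461) (nat_lit 493) (nat_lit 7629) (.d (nat_lit 462) (nat_lit 429) (nat_lit 7597) (nat_lit 497) (nat_lit 3533)))) (.f (nat_lit 589) (nat_lit 621) (nat_lit 5613) (.f (nat_lit 559) (nat_lit 561) (nat_lit 1581) (.d (nat_lit 588) (nat_lit 557) (nat_lit 1580) (nat_lit 587) (nat_lit 2603))))))) (.a (.p (nat_lit 495) (.a (.f (nat_lit 525) (nat_lit 497) (nat_lit 1517) (.d (nat_lit 524) (nat_lit 493) (nat_lit 1516) (nat_lit 523) (nat_lit 2539))) (.f (nat_lit 463) (nat_lit 592) (nat_lit 7631) (.d (nat_lit 431) (nat_lit 399) (nat_lit 4495) (nat_lit 462) (nat_lit 6574))))) (.a (.p (nat_lit 590) (.a (.f (nat_lit 495) (nat_lit 463) (nat_lit 6606) (.f (nat_lit 525) (nat_lit 497) (nat_lit 1517) (.d (nat_lit 493) (nat_lit 461) (nat_lit 7629) (nat_lit 524) (nat_lit 1516)))) (.f (nat_lit 589) (nat_lit 621) (nat_lit 5613) (.f (nat_lit 559) (nat_lit 561) (nat_lit 1581) (.d (nat_lit 588) (nat_lit 557) (nat_lit 1580) (nat_lit 587) (nat_lit 2603)))))) (.p (nat_lit 590) (.a (.f (nat_lit 495) (nat_lit 463) (nat_lit 6606) (.f (nat_lit 497) (nat_lit 525) (nat_lit 1517) (.f (nat_lit 462) (nat_lit 461) (nat_lit 3533) (.d (nat_lit 589) (nat_lit 557) (nat_lit 5581) (nat_lit 621) (nat_lit 5613))))) (.a (.f (nat_lit 589) (nat_lit 621) (nat_lit 5613) (.f (nat_lit 559) (nat_lit 561) (nat_lit 1581) (.d (nat_lit 588) (nat_lit 557) (nat_lit 1580) (nat_lit 587) (nat_lit 2603)))) (.f (nat_lit 495) (nat_lit 463) (nat_lit 6606) (.f (nat_lit 497) (nat_lit 525) (nat_lit 1517) (.d (nat_lit 465) (nat_lit 466) (nat_lit 2510) (nat_lit 592) (nat_lit 6608))))))))))))) (.a (.p (nat_lit 526) (.a s116635 (.a s116998 (.a s116665 (.a (.p (nat_lit 525) (.a (.d (nat_lit 527) (nat_lit 497) (nat_lit 2541) (nat_lit 561) (nat_lit 525)) (.a (.f (nat_lit 495) (nat_lit 497) (nat_lit 1517) (.d (nat_lit 524) (nat_lit 493) (nat_lit 1516) (nat_lit 523) (nat_lit 2539))) (.f (nat_lit 527) (nat_lit 561) (nat_lit 525) (.f (nat_lit 495) (nat_lit 524) (nat_lit 2540) (.f (nat_lit 493) (nat_lit 492) (nat_lit 3564) (.d (nat_lit 461) (nat_lit 429) (nat_lit 4525) (nat_lit 460) (nat_lit 3532)))))))) (.a (.p (nat_lit 590) (.a (.f (nat_lit 589) (nat_lit 621) (nat_lit 5613) (.f (nat_lit 462) (nat_lit 557) (nat_lit 5581) (.d (nat_lit 461) (nat_lit 429) (nat_lit 7597) (nat_lit 493) (nat_lit 7629)))) (.a (.f (nat_lit 493) (nat_lit 461) (nat_lit 7629) (.f (nat_lit 525) (nat_lit 622) (nat_lit 7661) (.d (nat_lit 527) (nat_lit 492) (nat_lit 3564) (nat_lit 561) (nat_lit 525)))) (.a (.f (nat_lit 589) (nat_lit 621) (nat_lit 5613) (.f (nat_lit 462) (nat_lit 557) (nat_lit 5581) (.f (nat_lit 429) (nat_lit 461) (nat_lit 7597) (.f (nat_lit 430) (nat_lit 397) (nat_lit 7565) (.d (nat_lit 431) (nat_lit 399) (nat_lit 6542) (nat_lit 463) (nat_lit 6574)))))) (.f (nat_lit 495) (nat_lit 463) (nat_lit 6606) (.f (nat_lit 622) (nat_lit 527) (nat_lit 6638) (.d (nat_lit 621) (nat_lit 589) (nat_lit 5613) (nat_lit 653) (nat_lit 5645)))))))) (.a s117000 (.p (nat_lit 495) (.a (.f (nat_lit 525) (nat_lit 497) (nat_lit 1517) (.d (nat_lit 524) (nat_lit 493) (nat_lit 1516) (nat_lit 523) (nat_lit 2539))) (.f (nat_lit 463) (nat_lit 592) (nat_lit 7631) (.d (nat_lit 431) (nat_lit 399) (nat_lit 4495) (nat_lit 462) (nat_lit 6574)))))))))))) (.a (.p (nat_lit 526) (.a s116635 (.a s117007 (.a s116665 (.a (.p (nat_lit 590) (.a (.f (nat_lit 589) (nat_lit 621) (nat_lit 5613) (.f (nat_lit 462) (nat_lit 557) (nat_lit 5581) (.d (nat_lit 461) (nat_lit 429) (nat_lit 7597) (nat_lit 493) (nat_lit 7629)))) (.a (.f (nat_lit 493) (nat_lit 461) (nat_lit 7629) (.f (nat_lit 525) (nat_lit 622) (nat_lit 7661) (.d (nat_lit 527) (nat_lit 492) (nat_lit 3564) (nat_lit 497) (nat_lit 2541)))) (.f (nat_lit 589) (nat_lit 621) (nat_lit 5613) (.f (nat_lit 557) (nat_lit 462) (nat_lit 5581) (.f (nat_lit 559) (nat_lit 588) (nat_lit 1580) (.f (nat_lit 525) (nat_lit 524) (nat_lit 3596) (.d (nat_lit 527) (nat_lit 497) (nat_lit 2541) (nat_lit 556) (nat_lit 2572))))))))) (.a s116695 (.a (.p (nat_lit 590) (.a (.f (nat_lit 589) (nat_lit 621) (nat_lit 5613) (.f (nat_lit 462) (nat_lit 557) (nat_lit 5581) (.d (nat_lit 461) (nat_lit 429) (nat_lit 7597) (nat_lit 493) (nat_lit 7629)))) (.a (.f (nat_lit 495) (nat_lit 463) (nat_lit 6606) (.f (nat_lit 493) (nat_lit 461) (nat_lit 7629) (.d (nat_lit 527) (nat_lit 492) (nat_lit 492) (nat_lit 622) (nat_lit 6638)))) (.a (.f (nat_lit 589) (nat_lit 621) (nat_lit 5613) (.f (nat_lit 462) (nat_lit 557) (nat_lit 5581) (.f (nat_lit 429) (nat_lit 461) (nat_lit 7597) (.f (nat_lit 430) (nat_lit 397) (nat_lit 7565) (.d (nat_lit 431) (nat_lit 399) (nat_lit 6542) (nat_lit 463) (nat_lit 6574)))))) (.f (nat_lit 495) (nat_lit 463) (nat_lit 6606) (.f (nat_lit 622) (nat_lit 527) (nat_lit 6638) (.d (nat_lit 621) (nat_lit 589) (nat_lit 5613) (nat_lit 653) (nat_lit 5645)))))))) (.a (.p (nat_lit 495) (.a (.f (nat_lit 525) (nat_lit 497) (nat_lit 1517) (.d (nat_lit 524) (nat_lit 493) (nat_lit 1516) (nat_lit 523) (nat_lit 2539))) (.f (nat_lit 463) (nat_lit 592) (nat_lit 7631) (.d (nat_lit 431) (nat_lit 399) (nat_lit 4495) (nat_lit 462) (nat_lit 6574))))) s117010)))))))) (.a (.p (nat_lit 526) (.a (.p (nat_lit 590) (.a (.f (nat_lit 589) (nat_lit 621) (nat_lit 5613) (.f (nat_lit 462) (nat_lit 557) (nat_lit 5581) (.d (nat_lit 461) (nat_lit 429) (nat_lit 7597) (nat_lit 493) (nat_lit 7629)))) (.a (.f (nat_lit 493) (nat_lit 461) (nat_lit 7629) (.f (nat_lit 525) (nat_lit 622) (nat_lit 7661) (.d (nat_lit 527) (nat_lit 492) (nat_lit 3564) (nat_lit 561) (nat_lit 525)))) (.f (nat_lit 589) (nat_lit 621) (nat_lit 5613) (.f (nat_lit 559) (nat_lit 561) (nat_lit 1581) (.d (nat_lit 588) (nat_lit 557) (nat_lit 1580) (nat_lit 587) (nat_lit 2603))))))) (.a s116982 (.a s116998 (.a s117007 (.a s117018 (.a s117025 (.a (.p (nat_lit 525) (.a (.d (nat_lit 527) (nat_lit 497) (nat_lit 2541) (nat_lit 561) (nat_lit 525)) (.a (.f (nat_lit 559) (nat_lit 561) (nat_lit 3597) (.d (nat_lit 524) (nat_lit 523) (nat_lit 523) (nat_lit 557) (nat_lit 3596))) (.f (nat_lit 527) (nat_lit 497) (nat_lit 2541) (.f (nat_lit 557) (nat_lit 556) (nat_lit 1548) (.d (nat_lit 589) (nat_lit 462) (nat_lit 5581) (nat_lit 621) (nat_lit 6637))))))) (.p (nat_lit 525) (.a (.d (nat_lit 527) (nat_lit 497) (nat_lit 2541) (nat_lit 561) (nat_lit 525)) (.a (.f (nat_lit 559) (nat_lit 561) (nat_lit 3597) (.d (nat_lit 524) (nat_lit 523) (nat_lit 523) (nat_lit 557) (nat_lit 3596))) (.f (nat_lit 527) (nat_lit 497) (nat_lit 2541) (.f (nat_lit 524) (nat_lit 559) (nat_lit 524) (.d (nat_lit 492) (nat_lit 491) (nat_lit 3563) (nat_lit 493) (nat_lit 3564))))))))))))))) (.a (.p (nat_lit 495) (.a (.p (nat_lit 493) (.a (.f (nat_lit 492) (nat_lit 527) (nat_lit 492) (.d (nat_lit 524) (nat_lit 523) (nat_lit 1515) (nat_lit 525) (nat_lit 1516))) (.a (.f (nat_lit 461) (nat_lit 460) (nat_lit 3532) (.f (nat_lit 525) (nat_lit 524) (nat_lit 1516) (.f (nat_lit 462) (nat_lit 497) (nat_lit 3533) (.d (nat_lit 557) (nat_lit 430) (nat_lit 6573) (nat_lit 590) (nat_lit 4557))))) (.f (nat_lit 492) (nat_lit 527) (nat_lit 492) (.d (nat_lit 460) (nat_lit 459) (nat_lit 3531) (nat_lit 461) (nat_lit 3532)))))) (.a (.f (nat_lit 592) (nat_lit 463) (nat_lit 7631) (.f (nat_lit 497) (nat_lit 465) (nat_lit 6608) (.f (nat_lit 461) (nat_lit 462) (nat_lit 3533) (.f (nat_lit 493) (nat_lit 460) (nat_lit 3532) (.f (nat_lit 525) (nat_lit 524) (nat_lit 1516) (.f (nat_lit 557) (nat_lit 590) (nat_lit 4557) (.f (nat_lit 588) (nat_lit 556) (nat_lit 5580) (.d (nat_lit 559) (nat_lit 589) (nat_lit 1580) (nat_lit 593) (nat_lit 557))))))))) (.f (nat_lit 463) (nat_lit 592) (nat_lit 7631) (.d (nat_lit 431) (nat_lit 399) (nat_lit 4495) (nat_lit 527) (nat_lit 4527)))))) (.a (.p (nat_lit 526) (.a s116665 (.a (.p (nat_lit 590) (.a (.f (nat_lit 589) (nat_lit 621) (nat_lit 5613) (.f (nat_lit 462) (nat_lit 557) (nat_lit 5581) (.d (nat_lit 461) (nat_lit 429) (nat_lit 7597) (nat_lit 493) (nat_lit 7629)))) (.a (.f (nat_lit 495) (nat_lit 463) (nat_lit 6606) (.f (nat_lit 461) (nat_lit 493) (nat_lit 7629) (.d (nat_lit 462) (nat_lit 429) (nat_lit 7597) (nat_lit 497) (nat_lit 3533)))) (.f (nat_lit 589) (nat_lit 621) (nat_lit 5613) (.f (nat_lit 559) (nat_lit 561) (nat_lit 1581) (.d (nat_lit 588) (nat_lit 557) (nat_lit 1580) (nat_lit 587) (nat_lit 2603))))))) (.a s117018 (.a (.p (nat_lit 590) (.a (.f (nat_lit 589) (nat_lit 621) (nat_lit 5613) (.f (nat_lit 462) (nat_lit 557) (nat_lit 5581) (.d (nat_lit 461) (nat_lit 429) (nat_lit 7597) (nat_lit 493) (nat_lit 7629)))) (.a (.f (nat_lit 461) (nat_lit 493) (nat_lit 7629) (.f (nat_lit 462) (nat_lit 429) (nat_lit 7597) (.f (nat_lit 495) (nat_lit 497) (nat_lit 3533) (.f (nat_lit 527) (nat_lit 622) (nat_lit 6638) (.d (nat_lit 430) (nat_lit 398) (nat_lit 4494) (nat_lit 559) (nat_lit 4526)))))) (.f (nat_lit 589) (nat_lit 621) (nat_lit 5613) (.f (nat_lit 559) (nat_lit 561) (nat_lit 1581) (.d (nat_lit 588) (nat_lit 557) (nat_lit 1580) (nat_lit 587) (nat_lit 2603))))))) (.a s117047 (.a s117053 (.a (.p (nat_lit 462) (.a (.f (nat_lit 461) (nat_lit 429) (nat_lit 7597) (.f (nat_lit 495) (nat_lit 497) (nat_lit 3533) (.d (nat_lit 460) (nat_lit 459) (nat_lit 459) (nat_lit 493) (nat_lit 3532)))) (.a (.f (nat_lit 429) (nat_lit 461) (nat_lit 7597) (.f (nat_lit 430) (nat_lit 397) (nat_lit 7565) (.d (nat_lit 431) (nat_lit 399) (nat_lit 6542) (nat_lit 463) (nat_lit 6574)))) (.f (nat_lit 463) (nat_lit 431) (nat_lit 6574) (.d (nat_lit 495) (nat_lit 590) (nat_lit 6606) (nat_lit 592) (nat_lit 7631)))))) (.a (.p (nat_lit 590) (.a (.f (nat_lit 589) (nat_lit 621) (nat_lit 5613) (.f (nat_lit 559) (nat_lit 561) (nat_lit 1581) (.d (nat_lit 588) (nat_lit 557) (nat_lit 1580) (nat_lit 587) (nat_lit 2603)))) (.f (nat_lit 495) (nat_lit 463) (nat_lit 6606) (.f (nat_lit 493) (nat_lit 461) (nat_lit 7629) (.d (nat_lit 527) (nat_lit 492) (nat_lit 492) (nat_lit 622) (nat_lit 6638)))))) (.a s117055 (.p (nat_lit 590) (.a (.f (nat_lit 589) (nat_lit 621) (nat_lit 5613) (.f (nat_lit 559) (nat_lit 561) (nat_lit 1581) (.d (nat_lit 588) (nat_lit 557) (nat_lit 1580) (nat_lit 587) (nat_lit 2603)))) (.a (.f (nat_lit 495) (nat_lit 463) (nat_lit 6606) (.f (nat_lit 622) (nat_lit 527) (nat_lit 6638) (.d (nat_lit 621) (nat_lit 589) (nat_lit 5613) (nat_lit 653) (nat_lit 5645)))) (.f (nat_lit 495) (nat_lit 463) (nat_lit 6606) (.f (nat_lit 527) (nat_lit 622) (nat_lit 6638) (.f (nat_lit 497) (nat_lit 498) (nat_lit 1518) (.d (nat_lit 592) (nat_lit 465) (nat_lit 6608) (nat_lit 624) (nat_lit 7663)))))))))))))))))) (.a (.p (nat_lit 559) (.a (.p (nat_lit 557) (.a (.f (nat_lit 589) (nat_lit 588) (nat_lit 1580) (.f (nat_lit 526) (nat_lit 462) (nat_lit 5581) (.d (nat_lit 621) (nat_lit 590) (nat_lit 5613) (nat_lit 653) (nat_lit 6669)))) (.a (.f (nat_lit 556) (nat_lit 527) (nat_lit 2572) (.d (nat_lit 588) (nat_lit 587) (nat_lit 1579) (nat_lit 589) (nat_lit 1580))) (.f (nat_lit 556) (nat_lit 527) (nat_lit 2572) (.d (nat_lit 524) (nat_lit 523) (nat_lit 3595) (nat_lit 525) (nat_lit 3596)))))) (.a (.p (nat_lit 561) (.a (.f (nat_lit 589) (nat_lit 590) (nat_lit 1581) (.f (nat_lit 557) (nat_lit 588) (nat_lit 1580) (.f (nat_lit 525) (nat_lit 524) (nat_lit 3596) (.f (nat_lit 493) (nat_lit 462) (nat_lit 6605) (.f (nat_lit 460) (nat_lit 492) (nat_lit 7628) (.d (nat_lit 461) (nat_lit 428) (nat_lit 7596) (nat_lit 495) (nat_lit 3532))))))) (.a (.f (nat_lit 589) (nat_lit 590) (nat_lit 1581) (.f (nat_lit 557) (nat_lit 588) (nat_lit 1580) (.d (nat_lit 525) (nat_lit 524) (nat_lit 3596) (nat_lit 526) (nat_lit 3597)))) (.a (.f (nat_lit 589) (nat_lit 590) (nat_lit 1581) (.f (nat_lit 557) (nat_lit 588) (nat_lit 1580) (.d (nat_lit 593) (nat_lit 592) (nat_lit 557) (nat_lit 594) (nat_lit 558)))) (.a (.f (nat_lit 594) (nat_lit 593) (nat_lit 558) (.f (nat_lit 562) (nat_lit 595) (nat_lit 559) (.f (nat_lit 526) (nat_lit 525) (nat_lit 3597) (.f (nat_lit 590) (nat_lit 589) (nat_lit 1581) (.f (nat_lit 461) (nat_lit 493) (nat_lit 7629) (.f (nat_lit 462) (nat_lit 429) (nat_lit 7597) (.f (nat_lit 497) (nat_lit 495) (nat_lit 3533) (.f (nat_lit 530) (nat_lit 531) (nat_lit 2575) (.d (nat_lit 465) (nat_lit 498) (nat_lit 7633) (nat_lit 592) (nat_lit 6608)))))))))) (.f (nat_lit 525) (nat_lit 526) (nat_lit 3597) (.f (nat_lit 557) (nat_lit 524) (nat_lit 3596) (.d (nat_lit 593) (nat_lit 592) (nat_lit 557) (nat_lit 594) (nat_lit 558))))))))) (.a s117099 (.a s117104 (.a (.p (nat_lit 561) (.a (.f (nat_lit 526) (nat_lit 525) (nat_lit 3597) (.f (nat_lit 527) (nat_lit 562) (nat_lit 3598) (.f (nat_lit 590) (nat_lit 589) (nat_lit 1581) (.f (nat_lit 462) (nat_lit 430) (nat_lit 4526) (.d (nat_lit 461) (nat_lit 429) (nat_lit 7597) (nat_lit 493) (nat_lit 7629)))))) (.a (.f (nat_lit 594) (nat_lit 593) (nat_lit 558) (.f (nat_lit 562) (nat_lit 595) (nat_lit 559) (.f (nat_lit 526) (nat_lit 525) (nat_lit 3597) (.f (nat_lit 590) (nat_lit 589) (nat_lit 1581) (.f (nat_lit 461) (nat_lit 493) (nat_lit 7629) (.f (nat_lit 462) (nat_lit 429) (nat_lit 7597) (.f (nat_lit 497) (nat_lit 495) (nat_lit 3533) (.f (nat_lit 530) (nat_lit 531) (nat_lit 2575) (.d (nat_lit 465) (nat_lit 498) (nat_lit 7633) (nat_lit 592) (nat_lit 6608)))))))))) (.a (.f (nat_lit 594) (nat_lit 593) (nat_lit 558) (.f (nat_lit 562) (nat_lit 595) (nat_lit 559) (.f (nat_lit 531) (nat_lit 530) (nat_lit 2575) (.d (nat_lit 563) (nat_lit 527) (nat_lit 3599) (nat_lit 532) (nat_lit 2576))))) (.f (nat_lit 526) (nat_lit 525) (nat_lit 3597) (.f (nat_lit 590) (nat_lit 589) (nat_lit 1581) (.f (nat_lit 461) (nat_lit 493) (nat_lit 7629) (.f (nat_lit 462) (nat_lit 429) (nat_lit 7597) (.f (nat_lit 527) (nat_lit 430) (nat_lit 4526) (.d (nat_lit 495) (nat_lit 497) (nat_lit 3533) (nat_lit 622) (nat_lit 6638))))))))))) (.a s117121 (.a (.p (nat_lit 561) (.a (.f (nat_lit 526) (nat_lit 525) (nat_lit 3597) (.f (nat_lit 562) (nat_lit 527) (nat_lit 3598) (.d (nat_lit 594) (nat_lit 593) (nat_lit 558) (nat_lit 595) (nat_lit 559)))) (.a (.f (nat_lit 525) (nat_lit 526) (nat_lit 3597) (.f (nat_lit 557) (nat_lit 524) (nat_lit 3596) (.d (nat_lit 593) (nat_lit 592) (nat_lit 557) (nat_lit 594) (nat_lit 558)))) (.a (.f (nat_lit 594) (nat_lit 593) (nat_lit 558) (.f (nat_lit 562) (nat_lit 595) (nat_lit 559) (.f (nat_lit 531) (nat_lit 530) (nat_lit 2575) (.d (nat_lit 563) (nat_lit 527) (nat_lit 3599) (nat_lit 532) (nat_lit 2576))))) (.f (nat_lit 526) (nat_lit 525) (nat_lit 3597) (.f (nat_lit 527) (nat_lit 562) (nat_lit 3598) (.f (nat_lit 462) (nat_lit 430) (nat_lit 4526) (.f (nat_lit 461) (nat_lit 429) (nat_lit 7597) (.f (nat_lit 495) (nat_lit 497) (nat_lit 3533) (.d (nat_lit 493) (nat_lit 460) (nat_lit 3532) (nat_lit 590) (nat_lit 7629))))))))))) s117136)))))))) (.a (.p (nat_lit 526) (.a s116672 (.a (.p (nat_lit 495) (.a (.f (nat_lit 525) (nat_lit 497) (nat_lit 1517) (.d (nat_lit 524) (nat_lit 493) (nat_lit 1516) (nat_lit 523) (nat_lit 2539))) (.f (nat_lit 463) (nat_lit 592) (nat_lit 7631) (.d (nat_lit 431) (nat_lit 399) (nat_lit 4495) (nat_lit 462) (nat_lit 6574))))) (.a s117025 (.a s117047 (.a (.p (nat_lit 525) (.a (.d (nat_lit 527) (nat_lit 497) (nat_lit 2541) (nat_lit 561) (nat_lit 525)) (.a (.f (nat_lit 495) (nat_lit 497) (nat_lit 1517) (.d (nat_lit 524) (nat_lit 493) (nat_lit 1516) (nat_lit 523) (nat_lit 2539))) (.f (nat_lit 527) (nat_lit 561) (nat_lit 525) (.f (nat_lit 495) (nat_lit 524) (nat_lit 2540) (.f (nat_lit 493) (nat_lit 492) (nat_lit 3564) (.d (nat_lit 461) (nat_lit 429) (nat_lit 4525) (nat_lit 460) (nat_lit 3532)))))))) (.a (.p (nat_lit 590) (.a (.f (nat_lit 493) (nat_lit 461) (nat_lit 7629) (.f (nat_lit 525) (nat_lit 622) (nat_lit 7661) (.d (nat_lit 527) (nat_lit 492) (nat_lit 3564) (nat_lit 561) (nat_lit 525)))) (.a (.f (nat_lit 493) (nat_lit 461) (nat_lit 7629) (.f (nat_lit 622) (nat_lit 525) (nat_lit 7661) (.d (nat_lit 621) (nat_lit 589) (nat_lit 5613) (nat_lit 653) (nat_lit 5645)))) (.a (.f (nat_lit 495) (nat_lit 463) (nat_lit 6606) (.f (nat_lit 493) (nat_lit 461) (nat_lit 7629) (.d (nat_lit 527) (nat_lit 492) (nat_lit 492) (nat_lit 622) (nat_lit 6638)))) (.a (.f (nat_lit 495) (nat_lit 463) (nat_lit 6606) (.f (nat_lit 622) (nat_lit 527) (nat_lit 6638) (.d (nat_lit 621) (nat_lit 589) (nat_lit 5613) (nat_lit 653) (nat_lit 5645)))) (.f (nat_lit 589) (nat_lit 621) (nat_lit 5613) (.f (nat_lit 559) (nat_lit 561) (nat_lit 1581) (.f (nat_lit 461) (nat_lit 493) (nat_lit 7629) (.f (nat_lit 462) (nat_lit 429) (nat_lit 7597) (.f (nat_lit 431) (nat_lit 463) (nat_lit 6574) (.d (nat_lit 430) (nat_lit 399) (nat_lit 6542) (nat_lit 527) (nat_lit 4526)))))))))))) s117139))))))) (.a (.p (nat_lit 559) (.a (.p (nat_lit 557) (.a (.f (nat_lit 589) (nat_lit 588) (nat_lit 1580) (.f (nat_lit 526) (nat_lit 462) (nat_lit 5581) (.d (nat_lit 621) (nat_lit 590) (nat_lit 5613) (nat_lit 653) (nat_lit 6669)))) (.a (.f (nat_lit 556) (nat_lit 527) (nat_lit 2572) (.d (nat_lit 588) (nat_lit 587) (nat_lit 1579) (nat_lit 589) (nat_lit 1580))) (.f (nat_lit 556) (nat_lit 527) (nat_lit 2572) (.d (nat_lit 524) (nat_lit 523) (nat_lit 3595) (nat_lit 525) (nat_lit 3596)))))) (.a (.p (nat_lit 557) (.a (.f (nat_lit 589) (nat_lit 588) (nat_lit 1580) (.f (nat_lit 526) (nat_lit 462) (nat_lit 5581) (.d (nat_lit 621) (nat_lit 590) (nat_lit 5613) (nat_lit 653) (nat_lit 6669)))) (.a (.f (nat_lit 589) (nat_lit 588) (nat_lit 1580) (.f (nat_lit 525) (nat_lit 524) (nat_lit 3596) (.f (nat_lit 590) (nat_lit 561) (nat_lit 1581) (.d (nat_lit 493) (nat_lit 461) (nat_lit 4557) (nat_lit 462) (nat_lit 6605))))) (.a (.f (nat_lit 525) (nat_lit 524) (nat_lit 3596) (.f (nat_lit 589) (nat_lit 588) (nat_lit 1580) (.d (nat_lit 526) (nat_lit 462) (nat_lit 5581) (nat_lit 561) (nat_lit 3597)))) (.a (.f (nat_lit 525) (nat_lit 524) (nat_lit 3596) (.f (nat_lit 526) (nat_lit 561) (nat_lit 3597) (.f (nat_lit 462) (nat_lit 430) (nat_lit 5549) (.f (nat_lit 461) (nat_lit 429) (nat_lit 7597) (.f (nat_lit 493) (nat_lit 590) (nat_lit 4557) (.f (nat_lit 460) (nat_lit 428) (nat_lit 7596) (.f (nat_lit 463) (nat_lit 431) (nat_lit 6574) (.f (nat_lit 491) (nat_lit 492) (nat_lit 2507) (.d (nat_lit 459) (nat_lit 458) (nat_lit 458) (nat_lit 490) (nat_lit 1482)))))))))) (.f (nat_lit 525) (nat_lit 524) (nat_lit 3596) (.f (nat_lit 589) (nat_lit 588) (nat_lit 1580) (.d (nat_lit 561) (nat_lit 526) (nat_lit 3597) (nat_lit 590) (nat_lit 1581))))))))) (.a s117099 (.a s117104 (.a (.p (nat_lit 561) (.a (.f (nat_lit 526) (nat_lit 525) (nat_lit 3597) (.f (nat_lit 527) (nat_lit 562) (nat_lit 3598) (.f (nat_lit 590) (nat_lit 589) (nat_lit 1581) (.d (nat_lit 495) (nat_lit 463) (nat_lit 5582) (nat_lit 622) (nat_lit 6638))))) (.a (.f (nat_lit 526) (nat_lit 525) (nat_lit 3597) (.f (nat_lit 590) (nat_lit 589) (nat_lit 1581) (.f (nat_lit 461) (nat_lit 493) (nat_lit 7629) (.f (nat_lit 462) (nat_lit 429) (nat_lit 7597) (.d (nat_lit 463) (nat_lit 431) (nat_lit 6574) (nat_lit 495) (nat_lit 6606)))))) (.a (.f (nat_lit 526) (nat_lit 525) (nat_lit 3597) (.f (nat_lit 527) (nat_lit 562) (nat_lit 3598) (.f (nat_lit 590) (nat_lit 589) (nat_lit 1581) (.f (nat_lit 462) (nat_lit 430) (nat_lit 4526) (.d (nat_lit 461) (nat_lit 429) (nat_lit 7597) (nat_lit 493) (nat_lit 7629)))))) (.f (nat_lit 594) (nat_lit 593) (nat_lit 558) (.f (nat_lit 562) (nat_lit 595) (nat_lit 559) (.f (nat_lit 531) (nat_lit 530) (nat_lit 2575) (.d (nat_lit 563) (nat_lit 527) (nat_lit 3599) (nat_lit 532) (nat_lit 2576))))))))) (.a s117121 (.a (.p (nat_lit 561) (.a (.f (nat_lit 526) (nat_lit 525) (nat_lit 3597) (.f (nat_lit 562) (nat_lit 527) (nat_lit 3598) (.d (nat_lit 594) (nat_lit 593) (nat_lit 558) (nat_lit 595) (nat_lit 559)))) (.a (.f (nat_lit 525) (nat_lit 526) (nat_lit 3597) (.f (nat_lit 557) (nat_lit 524) (nat_lit 3596) (.d (nat_lit 593) (nat_lit 592) (nat_lit 557) (nat_lit 594) (nat_lit 558)))) (.a (.f (nat_lit 594) (nat_lit 593) (nat_lit 558) (.f (nat_lit 562) (nat_lit 595) (nat_lit 559) (.f (nat_lit 531) (nat_lit 530) (nat_lit 2575) (.d (nat_lit 563) (nat_lit 527) (nat_lit 3599) (nat_lit 532) (nat_lit 2576))))) (.f (nat_lit 526) (nat_lit 525) (nat_lit 3597) (.f (nat_lit 527) (nat_lit 562) (nat_lit 3598) (.f (nat_lit 462) (nat_lit 430) (nat_lit 4526) (.f (nat_lit 463) (nat_lit 431) (nat_lit 6574) (.d (nat_lit 495) (nat_lit 590) (nat_lit 5582) (nat_lit 592) (nat_lit 7631)))))))))) s117136)))))))) (.a (.p (nat_lit 526) (.a (.p (nat_lit 525) (.a (.d (nat_lit 527) (nat_lit 497) (nat_lit 2541) (nat_lit 561) (nat_lit 525)) (.a (.f (nat_lit 495) (nat_lit 497) (nat_lit 1517) (.d (nat_lit 524) (nat_lit 493) (nat_lit 1516) (nat_lit 523) (nat_lit 2539))) (.f (nat_lit 527) (nat_lit 561) (nat_lit 525) (.f (nat_lit 495) (nat_lit 524) (nat_lit 2540) (.f (nat_lit 493) (nat_lit 492) (nat_lit 3564) (.d (nat_lit 461) (nat_lit 429) (nat_lit 4525) (nat_lit 460) (nat_lit 3532)))))))) (.a (.p (nat_lit 495) (.a (.f (nat_lit 525) (nat_lit 497) (nat_lit 1517) (.d (nat_lit 524) (nat_lit 493) (nat_lit 1516) (nat_lit 523) (nat_lit 2539))) (.f (nat_lit 463) (nat_lit 592) (nat_lit 7631) (.d (nat_lit 431) (nat_lit 399) (nat_lit 4495) (nat_lit 462) (nat_lit 6574))))) (.a (.p (nat_lit 525) (.a (.d (nat_lit 527) (nat_lit 497) (nat_lit 2541) (nat_lit 561) (nat_lit 525)) (.a (.f (nat_lit 559) (nat_lit 561) (nat_lit 3597) (.d (nat_lit 524) (nat_lit 523) (nat_lit 523) (nat_lit 557) (nat_lit 3596))) (.f (nat_lit 527) (nat_lit 497) (nat_lit 2541) (.f (nat_lit 557) (nat_lit 556) (nat_lit 1548) (.d (nat_lit 589) (nat_lit 462) (nat_lit 5581) (nat_lit 621) (nat_lit 6637))))))) (.a s117053 (.p (nat_lit 462) (.a (.f (nat_lit 429) (nat_lit 461) (nat_lit 7597) (.f (nat_lit 430) (nat_lit 397) (nat_lit 7565) (.d (nat_lit 431) (nat_lit 399) (nat_lit 6542) (nat_lit 463) (nat_lit 6574)))) (.a (.f (nat_lit 557) (nat_lit 589) (nat_lit 5581) (.f (nat_lit 525) (nat_lit 430) (nat_lit 5549) (.d (nat_lit 561) (nat_lit 527) (nat_lit 525) (nat_lit 559) (nat_lit 3597)))) (.f (nat_lit 463) (nat_lit 431) (nat_lit 6574) (.f (nat_lit 495) (nat_lit 592) (nat_lit 7631) (.d (nat_lit 461) (nat_lit 429) (nat_lit 7597) (nat_lit 460) (nat_lit 460)))))))))))) (.a (.p (nat_lit 526) (.a (.p (nat_lit 525) (.a (.d (nat_lit 527) (nat_lit 497) (nat_lit 2541) (nat_lit 561) (nat_lit 525)) (.a (.f (nat_lit 495) (nat_lit 497) (nat_lit 1517) (.d (nat_lit 524) (nat_lit 493) (nat_lit 1516) (nat_lit 523) (nat_lit 2539))) (.f (nat_lit 527) (nat_lit 561) (nat_lit 525) (.f (nat_lit 495) (nat_lit 524) (nat_lit 2540) (.f (nat_lit 493) (nat_lit 492) (nat_lit 3564) (.d (nat_lit 461) (nat_lit 429) (nat_lit 4525) (nat_lit 460) (nat_lit 3532)))))))) (.a (.p (nat_lit 495) (.a (.f (nat_lit 525) (nat_lit 497) (nat_lit 1517) (.d (nat_lit 524) (nat_lit 493) (nat_lit 1516) (nat_lit 523) (nat_lit 2539))) (.f (nat_lit 463) (nat_lit 592) (nat_lit 7631) (.d (nat_lit 431) (nat_lit 399) (nat_lit 4495) (nat_lit 462) (nat_lit 6574))))) (.a (.p (nat_lit 525) (.a (.d (nat_lit 527) (nat_lit 497) (nat_lit 2541) (nat_lit 561) (nat_lit 525)) (.a (.f (nat_lit 559) (nat_lit 561) (nat_lit 3597) (.d (nat_lit 524) (nat_lit 523) (nat_lit 523) (nat_lit 557) (nat_lit 3596))) (.f (nat_lit 527) (nat_lit 497) (nat_lit 2541) (.f (nat_lit 524) (nat_lit 559) (nat_lit 524) (.d (nat_lit 492) (nat_lit 491) (nat_lit 3563) (nat_lit 493) (nat_lit 3564))))))) (.a (.p (nat_lit 462) (.a (.f (nat_lit 461) (nat_lit 429) (nat_lit 7597) (.f (nat_lit 495) (nat_lit 497) (nat_lit 3533) (.d (nat_lit 460) (nat_lit 459) (nat_lit 459) (nat_lit 493) (nat_lit 3532)))) (.a (.f (nat_lit 429) (nat_lit 461) (nat_lit 7597) (.f (nat_lit 430) (nat_lit 397) (nat_lit 7565) (.d (nat_lit 431) (nat_lit 399) (nat_lit 6542) (nat_lit 463) (nat_lit 6574)))) (.f (nat_lit 463) (nat_lit 431) (nat_lit 6574) (.d (nat_lit 495) (nat_lit 590) (nat_lit 6606) (nat_lit 592) (nat_lit 7631)))))) (.a (.p (nat_lit 590) (.a (.f (nat_lit 493) (nat_lit 461) (nat_lit 7629) (.f (nat_lit 525) (nat_lit 622) (nat_lit 7661) (.d (nat_lit 527) (nat_lit 492) (nat_lit 3564) (nat_lit 561) (nat_lit 525)))) (.a (.f (nat_lit 493) (nat_lit 461) (nat_lit 7629) (.f (nat_lit 525) (nat_lit 622) (nat_lit 7661) (.f (nat_lit 559) (nat_lit 561) (nat_lit 3597) (.d (nat_lit 524) (nat_lit 523) (nat_lit 523) (nat_lit 557) (nat_lit 3596))))) (.a (.f (nat_lit 495) (nat_lit 463) (nat_lit 6606) (.f (nat_lit 493) (nat_lit 461) (nat_lit 7629) (.d (nat_lit 527) (nat_lit 492) (nat_lit 492) (nat_lit 622) (nat_lit 6638)))) (.a (.f (nat_lit 495) (nat_lit 463) (nat_lit 6606) (.f (nat_lit 527) (nat_lit 622) (nat_lit 6638) (.d (nat_lit 525) (nat_lit 524) (nat_lit 2540) (nat_lit 561) (nat_lit 525)))) (.f (nat_lit 495) (nat_lit 463) (nat_lit 6606) (.f (nat_lit 493) (nat_lit 461) (nat_lit 7629) (.f (nat_lit 525) (nat_lit 524) (nat_lit 1516) (.d (nat_lit 527) (nat_lit 492) (nat_lit 492) (nat_lit 561) (nat_lit 525)))))))))) s117199)))))) (.a (.p (nat_lit 526) (.a (.p (nat_lit 590) (.a (.f (nat_lit 495) (nat_lit 463) (nat_lit 6606) (.f (nat_lit 525) (nat_lit 497) (nat_lit 1517) (.d (nat_lit 493) (nat_lit 461) (nat_lit 7629) (nat_lit 524) (nat_lit 1516)))) (.f (nat_lit 589) (nat_lit 621) (nat_lit 5613) (.f (nat_lit 559) (nat_lit 561) (nat_lit 1581) (.d (nat_lit 588) (nat_lit 557) (nat_lit 1580) (nat_lit 587) (nat_lit 2603)))))) (.a (.p (nat_lit 525) (.a (.d (nat_lit 527) (nat_lit 497) (nat_lit 2541) (nat_lit 561) (nat_lit 525)) (.a (.f (nat_lit 495) (nat_lit 497) (nat_lit 1517) (.d (nat_lit 524) (nat_lit 493) (nat_lit 1516) (nat_lit 523) (nat_lit 2539))) (.f (nat_lit 527) (nat_lit 561) (nat_lit 525) (.f (nat_lit 495) (nat_lit 524) (nat_lit 2540) (.f (nat_lit 493) (nat_lit 492) (nat_lit 3564) (.d (nat_lit 461) (nat_lit 429) (nat_lit 4525) (nat_lit 460) (nat_lit 3532)))))))) (.a s116695 (.a (.p (nat_lit 525) (.a (.d (nat_lit 527) (nat_lit 497) (nat_lit 2541) (nat_lit 561) (nat_lit 525)) (.a (.f (nat_lit 559) (nat_lit 561) (nat_lit 3597) (.d (nat_lit 524) (nat_lit 523) (nat_lit 523) (nat_lit 557) (nat_lit 3596))) (.f (nat_lit 527) (nat_lit 497) (nat_lit 2541) (.f (nat_lit 524) (nat_lit 559) (nat_lit 524) (.d (nat_lit 492) (nat_lit 491) (nat_lit 3563) (nat_lit 493) (nat_lit 3564))))))) (.a (.p (nat_lit 590) (.a (.f (nat_lit 589) (nat_lit 621) (nat_lit 5613) (.f (nat_lit 559) (nat_lit 561) (nat_lit 1581) (.d (nat_lit 588) (nat_lit 557) (nat_lit 1580) (nat_lit 587) (nat_lit 2603)))) (.f (nat_lit 495) (nat_lit 463) (nat_lit 6606) (.f (nat_lit 493) (nat_lit 461) (nat_lit 7629) (.d (nat_lit 527) (nat_lit 492) (nat_lit 492) (nat_lit 622) (nat_lit 6638)))))) (.p (nat_lit 590) (.a (.f (nat_lit 589) (nat_lit 621) (nat_lit 5613) (.f (nat_lit 559) (nat_lit 561) (nat_lit 1581) (.d (nat_lit 588) (nat_lit 557) (nat_lit 1580) (nat_lit 587) (nat_lit 2603)))) (.a (.f (nat_lit 495) (nat_lit 463) (nat_lit 6606) (.f (nat_lit 622) (nat_lit 527) (nat_lit 6638) (.d (nat_lit 621) (nat_lit 589) (nat_lit 5613) (nat_lit 653) (nat_lit 5645)))) (.f (nat_lit 495) (nat_lit 463) (nat_lit 6606) (.f (nat_lit 527) (nat_lit 622) (nat_lit 6638) (.f (nat_lit 497) (nat_lit 498) (nat_lit 1518) (.d (nat_lit 592) (nat_lit 465) (nat_lit 6608) (nat_lit 624) (nat_lit 7663)))))))))))))) (.a (.p (nat_lit 526) (.a s116979 (.a (.p (nat_lit 590) (.a (.f (nat_lit 495) (nat_lit 463) (nat_lit 6606) (.f (nat_lit 497) (nat_lit 525) (nat_lit 1517) (.f (nat_lit 462) (nat_lit 461) (nat_lit 3533) (.d (nat_lit 589) (nat_lit 557) (nat_lit 5581) (nat_lit 621) (nat_lit 5613))))) (.a (.f (nat_lit 589) (nat_lit 621) (nat_lit 5613) (.f (nat_lit 559) (nat_lit 561) (nat_lit 1581) (.d (nat_lit 588) (nat_lit 557) (nat_lit 1580) (nat_lit 587) (nat_lit 2603)))) (.f (nat_lit 495) (nat_lit 463) (nat_lit 6606) (.f (nat_lit 497) (nat_lit 525) (nat_lit 1517) (.d (nat_lit 465) (nat_lit 466) (nat_lit 2510) (nat_lit 592) (nat_lit 6608))))))) (.a s117000 (.a s117010 (.a (.p (nat_lit 525) (.a (.d (nat_lit 527) (nat_lit 497) (nat_lit 2541) (nat_lit 561) (nat_lit 525)) (.a (.f (nat_lit 559) (nat_lit 561) (nat_lit 3597) (.d (nat_lit 524) (nat_lit 523) (nat_lit 523) (nat_lit 557) (nat_lit 3596))) (.f (nat_lit 527) (nat_lit 497) (nat_lit 2541) (.f (nat_lit 557) (nat_lit 556) (nat_lit 1548) (.d (nat_lit 589) (nat_lit 462) (nat_lit 5581) (nat_lit 621) (nat_lit 6637))))))) (.a s117055 (.a s117139 (.a (.p (nat_lit 462) (.a (.f (nat_lit 429) (nat_lit 461) (nat_lit 7597) (.f (nat_lit 430) (nat_lit 397) (nat_lit 7565) (.d (nat_lit 431) (nat_lit 399) (nat_lit 6542) (nat_lit 463) (nat_lit 6574)))) (.a (.f (nat_lit 557) (nat_lit 589) (nat_lit 5581) (.f (nat_lit 525) (nat_lit 430) (nat_lit 5549) (.d (nat_lit 561) (nat_lit 527) (nat_lit 525) (nat_lit 559) (nat_lit 3597)))) (.f (nat_lit 463) (nat_lit 431) (nat_lit 6574) (.f (nat_lit 495) (nat_lit 592) (nat_lit 7631) (.d (nat_lit 461) (nat_lit 429) (nat_lit 7597) (nat_lit 460) (nat_lit 460))))))) s117199))))))))) (.p (nat_lit 526) (.a (.p (nat_lit 590) (.a (.f (nat_lit 495) (nat_lit 463) (nat_lit 6606) (.f (nat_lit 525) (nat_lit 497) (nat_lit 1517) (.d (nat_lit 524) (nat_lit 493) (nat_lit 1516) (nat_lit 523) (nat_lit 2539)))) (.f (nat_lit 589) (nat_lit 621) (nat_lit 5613) (.f (nat_lit 559) (nat_lit 561) (nat_lit 1581) (.d (nat_lit 588) (nat_lit 557) (nat_lit 1580) (nat_lit 587) (nat_lit 2603)))))) (.a (.p (nat_lit 495) (.a (.f (nat_lit 525) (nat_lit 497) (nat_lit 1517) (.d (nat_lit 524) (nat_lit 493) (nat_lit 1516) (nat_lit 523) (nat_lit 2539))) (.f (nat_lit 463) (nat_lit 592) (nat_lit 7631) (.d (nat_lit 431) (nat_lit 399) (nat_lit 4495) (nat_lit 462) (nat_lit 6574))))) (.a (.p (nat_lit 525) (.a (.d (nat_lit 527) (nat_lit 497) (nat_lit 2541) (nat_lit 561) (nat_lit 525)) (.a (.f (nat_lit 559) (nat_lit 561) (nat_lit 3597) (.d (nat_lit 524) (nat_lit 523) (nat_lit 523) (nat_lit 557) (nat_lit 3596))) (.f (nat_lit 527) (nat_lit 497) (nat_lit 2541) (.f (nat_lit 557) (nat_lit 556) (nat_lit 1548) (.d (nat_lit 589) (nat_lit 462) (nat_lit 5581) (nat_lit 621) (nat_lit 6637))))))) (.a (.p (nat_lit 590) (.a (.f (nat_lit 589) (nat_lit 621) (nat_lit 5613) (.f (nat_lit 559) (nat_lit 561) (nat_lit 1581) (.d (nat_lit 588) (nat_lit 557) (nat_lit 1580) (nat_lit 587) (nat_lit 2603)))) (.a (.f (nat_lit 495) (nat_lit 463) (nat_lit 6606) (.f (nat_lit 622) (nat_lit 527) (nat_lit 6638) (.d (nat_lit 621) (nat_lit 589) (nat_lit 5613) (nat_lit 653) (nat_lit 5645)))) (.f (nat_lit 495) (nat_lit 463) (nat_lit 6606) (.f (nat_lit 527) (nat_lit 622) (nat_lit 6638) (.f (nat_lit 497) (nat_lit 498) (nat_lit 1518) (.d (nat_lit 592) (nat_lit 465) (nat_lit 6608) (nat_lit 624) (nat_lit 7663)))))))) (.p (nat_lit 590) (.a (.f (nat_lit 589) (nat_lit 621) (nat_lit 5613) (.f (nat_lit 559) (nat_lit 561) (nat_lit 1581) (.d (nat_lit 588) (nat_lit 557) (nat_lit 1580) (nat_lit 587) (nat_lit 2603)))) (.a (.f (nat_lit 495) (nat_lit 463) (nat_lit 6606) (.f (nat_lit 622) (nat_lit 527) (nat_lit 6638) (.d (nat_lit 621) (nat_lit 589) (nat_lit 5613) (nat_lit 653) (nat_lit 5645)))) (.f (nat_lit 495) (nat_lit 463) (nat_lit 6606) (.f (nat_lit 527) (nat_lit 622) (nat_lit 6638) (.d (nat_lit 525) (nat_lit 524) (nat_lit 2540) (nat_lit 561) (nat_lit 525))))))))))))))))))))))))))) (.a (.p (nat_lit 559) (.a (.p (nat_lit 561) (.a (.f (nat_lit 593) (nat_lit 594) (nat_lit 558) (.f (nat_lit 592) (nat_lit 557) (nat_lit 557) (.f (nat_lit 591) (nat_lit 623) (nat_lit 5615) (.d (nat_lit 590) (nat_lit 562) (nat_lit 2606) (nat_lit 589) (nat_lit 1581))))) (.a (.f (nat_lit 590) (nat_lit 589) (nat_lit 1581) (.f (nat_lit 562) (nat_lit 591) (nat_lit 1582) (.d (nat_lit 594) (nat_lit 593) (nat_lit 558) (nat_lit 595) (nat_lit 559)))) (.a (.f (nat_lit 593) (nat_lit 594) (nat_lit 558) (.f (nat_lit 592) (nat_lit 557) (nat_lit 557) (.f (nat_lit 495) (nat_lit 463) (nat_lit 7631) (.f (nat_lit 624) (nat_lit 527) (nat_lit 7663) (.f (nat_lit 656) (nat_lit 688) (nat_lit 6704) (.d (nat_lit 655) (nat_lit 623) (nat_lit 5647) (nat_lit 687) (nat_lit 5679))))))) (.f (nat_lit 590) (nat_lit 589) (nat_lit 1581) (.f (nat_lit 591) (nat_lit 562) (nat_lit 1582) (.d (nat_lit 623) (nat_lit 527) (nat_lit 6639) (nat_lit 592) (nat_lit 5615)))))))) (.a s117207 (.a s116760 (.a (.p (nat_lit 592) (.a (.f (nat_lit 591) (nat_lit 623) (nat_lit 5615) (.d (nat_lit 593) (nat_lit 557) (nat_lit 557) (nat_lit 594) (nat_lit 3630))) (.a (.f (nat_lit 557) (nat_lit 593) (nat_lit 557) (.f (nat_lit 527) (nat_lit 556) (nat_lit 2572) (.d (nat_lit 495) (nat_lit 463) (nat_lit 7631) (nat_lit 624) (nat_lit 7663)))) (.f (nat_lit 623) (nat_lit 591) (nat_lit 5615) (.f (nat_lit 624) (nat_lit 655) (nat_lit 5647) (.d (nat_lit 495) (nat_lit 463) (nat_lit 7631) (nat_lit 527) (nat_lit 7663))))))) (.a (.p (nat_lit 561) (.a (.f (nat_lit 593) (nat_lit 594) (nat_lit 558) (.f (nat_lit 592) (nat_lit 557) (nat_lit 557) (.f (nat_lit 495) (nat_lit 463) (nat_lit 7631) (.f (nat_lit 624) (nat_lit 527) (nat_lit 7663) (.f (nat_lit 656) (nat_lit 688) (nat_lit 6704) (.d (nat_lit 655) (nat_lit 623) (nat_lit 5647) (nat_lit 687) (nat_lit 5679))))))) (.a (.f (nat_lit 594) (nat_lit 593) (nat_lit 558) (.f (nat_lit 562) (nat_lit 595) (nat_lit 559) (.f (nat_lit 531) (nat_lit 530) (nat_lit 2575) (.d (nat_lit 563) (nat_lit 527) (nat_lit 3599) (nat_lit 532) (nat_lit 2576))))) (.a (.f (nat_lit 593) (nat_lit 594) (nat_lit 558) (.f (nat_lit 557) (nat_lit 592) (nat_lit 557) (.d (nat_lit 589) (nat_lit 588) (nat_lit 1580) (nat_lit 590) (nat_lit 1581)))) (.f (nat_lit 589) (nat_lit 590) (nat_lit 1581) (.f (nat_lit 557) (nat_lit 588) (nat_lit 1580) (.f (nat_lit 556) (nat_lit 527) (nat_lit 2572) (.d (nat_lit 524) (nat_lit 523) (nat_lit 3595) (nat_lit 525) (nat_lit 3596))))))))) (.a (.p (nat_lit 590) (.a (.f (nat_lit 561) (nat_lit 589) (nat_lit 1581) (.f (nat_lit 591) (nat_lit 562) (nat_lit 1582) (.d (nat_lit 623) (nat_lit 527) (nat_lit 6639) (nat_lit 592) (nat_lit 5615)))) (.a (.f (nat_lit 561) (nat_lit 589) (nat_lit 1581) (.f (nat_lit 562) (nat_lit 591) (nat_lit 1582) (.d (nat_lit 594) (nat_lit 593) (nat_lit 558) (nat_lit 595) (nat_lit 559)))) (.a (.p (nat_lit 622) (.a (.f (nat_lit 527) (nat_lit 654) (nat_lit 6670) (.d (nat_lit 495) (nat_lit 463) (nat_lit 5582) (nat_lit 591) (nat_lit 5614))) (.a (.p (nat_lit 654) (.a (.f (nat_lit 591) (nat_lit 686) (nat_lit 6702) (.d (nat_lit 655) (nat_lit 623) (nat_lit 6671) (nat_lit 687) (nat_lit 4654))) (.a (.f (nat_lit 685) (nat_lit 653) (nat_lit 5677) (.f (nat_lit 686) (nat_lit 717) (nat_lit 5709) (.d (nat_lit 687) (nat_lit 655) (nat_lit 4654) (nat_lit 719) (nat_lit 4686)))) (.a (.f (nat_lit 686) (nat_lit 591) (nat_lit 6702) (.d (nat_lit 685) (nat_lit 653) (nat_lit 5677) (nat_lit 717) (nat_lit 5709))) (.f (nat_lit 655) (nat_lit 687) (nat_lit 4654) (.f (nat_lit 623) (nat_lit 591) (nat_lit 6671) (.f (nat_lit 653) (nat_lit 685) (nat_lit 5677) (.d (nat_lit 624) (nat_lit 592) (nat_lit 5647) (nat_lit 652) (nat_lit 2668))))))))) (.a (.f (nat_lit 654) (nat_lit 527) (nat_lit 6670) (.f (nat_lit 685) (nat_lit 653) (nat_lit 5677) (.f (nat_lit 686) (nat_lit 717) (nat_lit 5709) (.d (nat_lit 687) (nat_lit 655) (nat_lit 4654) (nat_lit 719) (nat_lit 4686))))) (.p (nat_lit 592) (.a (.f (nat_lit 591) (nat_lit 623) (nat_lit 5615) (.d (nat_lit 593) (nat_lit 594) (nat_lit 3630) (nat_lit 621) (nat_lit 1613))) (.a (.f (nat_lit 495) (nat_lit 463) (nat_lit 7631) (.f (nat_lit 624) (nat_lit 527) (nat_lit 7663) (.f (nat_lit 623) (nat_lit 655) (nat_lit 5647) (.f (nat_lit 621) (nat_lit 593) (nat_lit 2637) (.f (nat_lit 589) (nat_lit 588) (nat_lit 3660) (.d (nat_lit 653) (nat_lit 652) (nat_lit 1644) (nat_lit 685) (nat_lit 6701))))))) (.f (nat_lit 495) (nat_lit 463) (nat_lit 7631) (.d (nat_lit 527) (nat_lit 591) (nat_lit 5614) (nat_lit 624) (nat_lit 7663)))))))))) (.a (.f (nat_lit 561) (nat_lit 589) (nat_lit 1581) (.f (nat_lit 594) (nat_lit 593) (nat_lit 558) (.f (nat_lit 562) (nat_lit 595) (nat_lit 559) (.f (nat_lit 531) (nat_lit 530) (nat_lit 2575) (.d (nat_lit 563) (nat_lit 527) (nat_lit 3599) (nat_lit 532) (nat_lit 2576)))))) (.p (nat_lit 591) (.a (.d (nat_lit 623) (nat_lit 527) (nat_lit 6639) (nat_lit 592) (nat_lit 5615)) (.a (.d (nat_lit 623) (nat_lit 527) (nat_lit 6639) (nat_lit 655) (nat_lit 6671)) (.a (.d (nat_lit 623) (nat_lit 592) (nat_lit 5615) (nat_lit 655) (nat_lit 6671)) (.p (nat_lit 622) (.a (.d (nat_lit 527) (nat_lit 495) (nat_lit 5614) (nat_lit 654) (nat_lit 6670)) (.a (.f (nat_lit 654) (nat_lit 686) (nat_lit 6702) (.f (nat_lit 561) (nat_lit 562) (nat_lit 1582) (.f (nat_lit 593) (nat_lit 594) (nat_lit 558) (.f (nat_lit 621) (nat_lit 592) (nat_lit 1613) (.f (nat_lit 655) (nat_lit 687) (nat_lit 4654) (.f (nat_lit 620) (nat_lit 619) (nat_lit 2635) (.d (nat_lit 656) (nat_lit 653) (nat_lit 3692) (nat_lit 657) (nat_lit 3693)))))))) (.f (nat_lit 495) (nat_lit 527) (nat_lit 5614) (.f (nat_lit 592) (nat_lit 463) (nat_lit 7631) (.d (nat_lit 593) (nat_lit 594) (nat_lit 3630) (nat_lit 621) (nat_lit 1613)))))))))))))))) (.p (nat_lit 592) (.a (.f (nat_lit 623) (nat_lit 591) (nat_lit 5615) (.f (nat_lit 624) (nat_lit 655) (nat_lit 5647) (.d (nat_lit 495) (nat_lit 463) (nat_lit 7631) (nat_lit 527) (nat_lit 7663)))) (.a (.f (nat_lit 591) (nat_lit 623) (nat_lit 5615) (.f (nat_lit 557) (nat_lit 556) (nat_lit 556) (.f (nat_lit 589) (nat_lit 588) (nat_lit 1580) (.f (nat_lit 590) (nat_lit 561) (nat_lit 1581) (.f (nat_lit 525) (nat_lit 524) (nat_lit 3596) (.d (nat_lit 493) (nat_lit 461) (nat_lit 4557) (nat_lit 622) (nat_lit 4589))))))) (.f (nat_lit 495) (nat_lit 463) (nat_lit 7631) (.f (nat_lit 527) (nat_lit 624) (nat_lit 7663) (.f (nat_lit 557) (nat_lit 556) (nat_lit 2572) (.f (nat_lit 589) (nat_lit 588) (nat_lit 1580) (.f (nat_lit 525) (nat_lit 524) (nat_lit 3596) (.f (nat_lit 590) (nat_lit 561) (nat_lit 1581) (.d (nat_lit 493) (nat_lit 461) (nat_lit 4557) (nat_lit 622) (nat_lit 4589)))))))))))))))))) (.a (.p (nat_lit 592) (.a (.f (nat_lit 623) (nat_lit 591) (nat_lit 5615) (.f (nat_lit 624) (nat_lit 655) (nat_lit 5647) (.d (nat_lit 495) (nat_lit 463) (nat_lit 7631) (nat_lit 527) (nat_lit 7663)))) (.a (.p (nat_lit 593) (.a (.f (nat_lit 591) (nat_lit 623) (nat_lit 5615) (.d (nat_lit 559) (nat_lit 557) (nat_lit 557) (nat_lit 594) (nat_lit 3630))) (.a (.f (nat_lit 591) (nat_lit 623) (nat_lit 5615) (.f (nat_lit 590) (nat_lit 557) (nat_lit 3629) (.d (nat_lit 561) (nat_lit 562) (nat_lit 2606) (nat_lit 589) (nat_lit 2605)))) (.a (.f (nat_lit 559) (nat_lit 557) (nat_lit 557) (.d (nat_lit 594) (nat_lit 561) (nat_lit 558) (nat_lit 595) (nat_lit 3631))) (.f (nat_lit 591) (nat_lit 623) (nat_lit 5615) (.f (nat_lit 594) (nat_lit 559) (nat_lit 3630) (.f (nat_lit 562) (nat_lit 563) (nat_lit 2607) (.f (nat_lit 561) (nat_lit 590) (nat_lit 2606) (.f (nat_lit 595) (nat_lit 596) (nat_lit 3632) (.d (nat_lit 627) (nat_lit 626) (nat_lit 591) (nat_lit 628) (nat_lit 592))))))))))) (.f (nat_lit 495) (nat_lit 463) (nat_lit 7631) (.f (nat_lit 497) (nat_lit 465) (nat_lit 6608) (.f (nat_lit 527) (nat_lit 624) (nat_lit 7663) (.d (nat_lit 498) (nat_lit 499) (nat_lit 1519) (nat_lit 526) (nat_lit 1518)))))))) (.a (.p (nat_lit 559) (.a (.p (nat_lit 561) (.a (.f (nat_lit 526) (nat_lit 525) (nat_lit 3597) (.f (nat_lit 527) (nat_lit 562) (nat_lit 3598) (.f (nat_lit 590) (nat_lit 589) (nat_lit 1581) (.d (nat_lit 622) (nat_lit 495) (nat_lit 6638) (nat_lit 654) (nat_lit 6670))))) (.a (.f (nat_lit 525) (nat_lit 526) (nat_lit 3597) (.f (nat_lit 557) (nat_lit 524) (nat_lit 3596) (.d (nat_lit 593) (nat_lit 592) (nat_lit 557) (nat_lit 594) (nat_lit 558)))) (.f (nat_lit 590) (nat_lit 589) (nat_lit 1581) (.f (nat_lit 562) (nat_lit 591) (nat_lit 1582) (.d (nat_lit 594) (nat_lit 593) (nat_lit 558) (nat_lit 595) (nat_lit 559))))))) (.a (.p (nat_lit 561) (.a (.f (nat_lit 526) (nat_lit 525) (nat_lit 3597) (.f (nat_lit 527) (nat_lit 562) (nat_lit 3598) (.f (nat_lit 590) (nat_lit 589) (nat_lit 1581) (.d (nat_lit 622) (nat_lit 495) (nat_lit 6638) (nat_lit 654) (nat_lit 6670))))) (.a (.f (nat_lit 525) (nat_lit 526) (nat_lit 3597) (.f (nat_lit 557) (nat_lit 524) (nat_lit 3596) (.d (nat_lit 589) (nat_lit 588) (nat_lit 1580) (nat_lit 590) (nat_lit 1581)))) (.f (nat_lit 594) (nat_lit 593) (nat_lit 558) (.f (nat_lit 562) (nat_lit 595) (nat_lit 559) (.f (nat_lit 531) (nat_lit 530) (nat_lit 2575) (.d (nat_lit 563) (nat_lit 527) (nat_lit 3599) (nat_lit 532) (nat_lit 2576)))))))) (.a s116759 (.a (.p (nat_lit 592) (.a (.f (nat_lit 557) (nat_lit 593) (nat_lit 557) (.f (nat_lit 527) (nat_lit 556) (nat_lit 2572) (.d (nat_lit 495) (nat_lit 463) (nat_lit 7631) (nat_lit 624) (nat_lit 7663)))) (.a (.f (nat_lit 557) (nat_lit 593) (nat_lit 557) (.f (nat_lit 588) (nat_lit 589) (nat_lit 1580) (.f (nat_lit 556) (nat_lit 587) (nat_lit 1579) (.d (nat_lit 524) (nat_lit 523) (nat_lit 3595) (nat_lit 525) (nat_lit 3596))))) (.f (nat_lit 495) (nat_lit 463) (nat_lit 7631) (.f (nat_lit 527) (nat_lit 624) (nat_lit 7663) (.f (nat_lit 497) (nat_lit 465) (nat_lit 6608) (.d (nat_lit 526) (nat_lit 498) (nat_lit 1518) (nat_lit 525) (nat_lit 2541)))))))) (.a s116965 (.a s117207 (.a (.p (nat_lit 561) (.a (.f (nat_lit 590) (nat_lit 589) (nat_lit 1581) (.f (nat_lit 562) (nat_lit 591) (nat_lit 1582) (.d (nat_lit 594) (nat_lit 593) (nat_lit 558) (nat_lit 595) (nat_lit 559)))) (.a (.f (nat_lit 593) (nat_lit 594) (nat_lit 558) (.f (nat_lit 557) (nat_lit 592) (nat_lit 557) (.d (nat_lit 589) (nat_lit 588) (nat_lit 1580) (nat_lit 590) (nat_lit 1581)))) (.a (.f (nat_lit 594) (nat_lit 593) (nat_lit 558) (.f (nat_lit 562) (nat_lit 595) (nat_lit 559) (.f (nat_lit 531) (nat_lit 530) (nat_lit 2575) (.d (nat_lit 563) (nat_lit 527) (nat_lit 3599) (nat_lit 532) (nat_lit 2576))))) (.f (nat_lit 589) (nat_lit 590) (nat_lit 1581) (.f (nat_lit 557) (nat_lit 588) (nat_lit 1580) (.f (nat_lit 527) (nat_lit 556) (nat_lit 2572) (.d (nat_lit 562) (nat_lit 526) (nat_lit 3598) (nat_lit 563) (nat_lit 3599))))))))) (.a (.p (nat_lit 561) (.a (.f (nat_lit 526) (nat_lit 525) (nat_lit 3597) (.f (nat_lit 527) (nat_lit 562) (nat_lit 3598) (.f (nat_lit 590) (nat_lit 589) (nat_lit 1581) (.d (nat_lit 622) (nat_lit 495) (nat_lit 6638) (nat_lit 654) (nat_lit 6670))))) (.a (.f (nat_lit 590) (nat_lit 589) (nat_lit 1581) (.f (nat_lit 562) (nat_lit 591) (nat_lit 1582) (.d (nat_lit 594) (nat_lit 593) (nat_lit 558) (nat_lit 595) (nat_lit 559)))) (.a (.p (nat_lit 495) (.a (.f (nat_lit 526) (nat_lit 525) (nat_lit 3597) (.f (nat_lit 590) (nat_lit 589) (nat_lit 1581) (.f (nat_lit 494) (nat_lit 463) (nat_lit 6606) (.f (nat_lit 461) (nat_lit 493) (nat_lit 7629) (.d (nat_lit 462) (nat_lit 429) (nat_lit 7597) (nat_lit 497) (nat_lit 3533)))))) (.a (.f (nat_lit 463) (nat_lit 592) (nat_lit 7631) (.d (nat_lit 590) (nat_lit 527) (nat_lit 5582) (nat_lit 589) (nat_lit 1581))) (.a (.f (nat_lit 526) (nat_lit 525) (nat_lit 3597) (.f (nat_lit 590) (nat_lit 589) (nat_lit 1581) (.f (nat_lit 527) (nat_lit 622) (nat_lit 6638) (.f (nat_lit 592) (nat_lit 624) (nat_lit 7663) (.d (nat_lit 497) (nat_lit 465) (nat_lit 6608) (nat_lit 498) (nat_lit 1518)))))) (.f (nat_lit 592) (nat_lit 463) (nat_lit 7631) (.f (nat_lit 527) (nat_lit 624) (nat_lit 7663) (.f (nat_lit 526) (nat_lit 525) (nat_lit 3597) (.d (nat_lit 497) (nat_lit 465) (nat_lit 6608) (nat_lit 498) (nat_lit 1518))))))))) (.f (nat_lit 526) (nat_lit 525) (nat_lit 3597) (.f (nat_lit 562) (nat_lit 527) (nat_lit 3598) (.d (nat_lit 594) (nat_lit 593) (nat_lit 558) (nat_lit 595) (nat_lit 559)))))))) (.a s117313 (.p (nat_lit 561) (.a (.f (nat_lit 526) (nat_lit 525) (nat_lit 3597) (.f (nat_lit 527) (nat_lit 562) (nat_lit 3598) (.f (nat_lit 590) (nat_lit 589) (nat_lit 1581) (.d (nat_lit 622) (nat_lit 495) (nat_lit 6638) (nat_lit 654) (nat_lit 6670))))) (.a (.f (nat_lit 525) (nat_lit 526) (nat_lit 3597) (.f (nat_lit 557) (nat_lit 524) (nat_lit 3596) (.d (nat_lit 589) (nat_lit 588) (nat_lit 1580) (nat_lit 590) (nat_lit 1581)))) (.a (.f (nat_lit 589) (nat_lit 590) (nat_lit 1581) (.f (nat_lit 557) (nat_lit 588) (nat_lit 1580) (.f (nat_lit 556) (nat_lit 527) (nat_lit 2572) (.d (nat_lit 524) (nat_lit 523) (nat_lit 3595) (nat_lit 525) (nat_lit 3596))))) (.a (.f (nat_lit 589) (nat_lit 590) (nat_lit 1581) (.f (nat_lit 557) (nat_lit 588) (nat_lit 1580) (.f (nat_lit 527) (nat_lit 556) (nat_lit 2572) (.d (nat_lit 562) (nat_lit 526) (nat_lit 3598) (nat_lit 563) (nat_lit 3599))))) (.f (nat_lit 526) (nat_lit 525) (nat_lit 3597) (.f (nat_lit 562) (nat_lit 527) (nat_lit 3598) (.f (nat_lit 531) (nat_lit 530) (nat_lit 2575) (.f (nat_lit 563) (nat_lit 532) (nat_lit 2576) (.d (nat_lit 595) (nat_lit 594) (nat_lit 559) (nat_lit 596) (nat_lit 560))))))))))))))))))))) (.a (.p (nat_lit 495) (.a (.f (nat_lit 592) (nat_lit 463) (nat_lit 7631) (.f (nat_lit 497) (nat_lit 465) (nat_lit 6608) (.f (nat_lit 527) (nat_lit 624) (nat_lit 7663) (.d (nat_lit 526) (nat_lit 498) (nat_lit 1518) (nat_lit 525) (nat_lit 2541))))) (.a (.p (nat_lit 494) (.a (.p (nat_lit 526) (.a (.f (nat_lit 525) (nat_lit 497) (nat_lit 1517) (.d (nat_lit 524) (nat_lit 493) (nat_lit 1516) (nat_lit 523) (nat_lit 2539))) (.f (nat_lit 463) (nat_lit 590) (nat_lit 6606) (.d (nat_lit 431) (nat_lit 399) (nat_lit 4495) (nat_lit 462) (nat_lit 6574))))) (.a (.p (nat_lit 493) (.a (.f (nat_lit 492) (nat_lit 527) (nat_lit 492) (.d (nat_lit 524) (nat_lit 523) (nat_lit 1515) (nat_lit 525) (nat_lit 1516))) (.a (.f (nat_lit 461) (nat_lit 460) (nat_lit 3532) (.f (nat_lit 524) (nat_lit 525) (nat_lit 1516) (.f (nat_lit 492) (nat_lit 523) (nat_lit 1515) (.f (nat_lit 462) (nat_lit 497) (nat_lit 3533) (.d (nat_lit 491) (nat_lit 463) (nat_lit 2507) (nat_lit 490) (nat_lit 2506)))))) (.a (.f (nat_lit 492) (nat_lit 527) (nat_lit 492) (.d (nat_lit 460) (nat_lit 459) (nat_lit 3531) (nat_lit 461) (nat_lit 3532))) (.f (nat_lit 461) (nat_lit 460) (nat_lit 3532) (.f (nat_lit 497) (nat_lit 462) (nat_lit 3533) (.f (nat_lit 466) (nat_lit 465) (nat_lit 2510) (.f (nat_lit 498) (nat_lit 467) (nat_lit 2511) (.f (nat_lit 499) (nat_lit 527) (nat_lit 1519) (.d (nat_lit 531) (nat_lit 530) (nat_lit 495) (nat_lit 532) (nat_lit 496))))))))))) (.a s116806 (.a (.p (nat_lit 493) (.a (.f (nat_lit 492) (nat_lit 527) (nat_lit 492) (.d (nat_lit 524) (nat_lit 523) (nat_lit 1515) (nat_lit 525) (nat_lit 1516))) (.f (nat_lit 461) (nat_lit 460) (nat_lit 3532) (.f (nat_lit 526) (nat_lit 590) (nat_lit 7629) (.d (nat_lit 429) (nat_lit 397) (nat_lit 4493) (nat_lit 462) (nat_lit 7597)))))) (.a (.p (nat_lit 526) (.a (.f (nat_lit 525) (nat_lit 497) (nat_lit 1517) (.d (nat_lit 524) (nat_lit 493) (nat_lit 1516) (nat_lit 523) (nat_lit 2539))) (.a (.f (nat_lit 590) (nat_lit 463) (nat_lit 6606) (.f (nat_lit 527) (nat_lit 622) (nat_lit 6638) (.d (nat_lit 493) (nat_lit 461) (nat_lit 7629) (nat_lit 492) (nat_lit 492)))) (.f (nat_lit 525) (nat_lit 497) (nat_lit 1517) (.d (nat_lit 524) (nat_lit 523) (nat_lit 2539) (nat_lit 527) (nat_lit 2540)))))) (.a (.p (nat_lit 526) (.a (.f (nat_lit 463) (nat_lit 590) (nat_lit 6606) (.d (nat_lit 431) (nat_lit 399) (nat_lit 4495) (nat_lit 462) (nat_lit 6574))) (.f (nat_lit 525) (nat_lit 497) (nat_lit 1517) (.d (nat_lit 524) (nat_lit 523) (nat_lit 2539) (nat_lit 527) (nat_lit 2540))))) (.p (nat_lit 526) (.a (.f (nat_lit 463) (nat_lit 590) (nat_lit 6606) (.d (nat_lit 431) (nat_lit 399) (nat_lit 4495) (nat_lit 462) (nat_lit 6574))) (.a (.f (nat_lit 497) (nat_lit 525) (nat_lit 1517) (.f (nat_lit 527) (nat_lit 498) (nat_lit 1518) (.f (nat_lit 462) (nat_lit 461) (nat_lit 3533) (.d (nat_lit 430) (nat_lit 398) (nat_lit 4494) (nat_lit 559) (nat_lit 4526))))) (.f (nat_lit 590) (nat_lit 463) (nat_lit 6606) (.f (nat_lit 527) (nat_lit 622) (nat_lit 6638) (.d (nat_lit 493) (nat_lit 461) (nat_lit 7629) (nat_lit 492) (nat_lit 492)))))))))))))) (.a (.p (nat_lit 494) (.a (.p (nat_lit 526) (.a (.f (nat_lit 525) (nat_lit 497) (nat_lit 1517) (.d (nat_lit 524) (nat_lit 493) (nat_lit 1516) (nat_lit 523) (nat_lit 2539))) (.f (nat_lit 463) (nat_lit 590) (nat_lit 6606) (.d (nat_lit 431) (nat_lit 399) (nat_lit 4495) (nat_lit 462) (nat_lit 6574))))) (.a (.p (nat_lit 493) (.a (.f (nat_lit 461) (nat_lit 460) (nat_lit 3532) (.f (nat_lit 524) (nat_lit 525) (nat_lit 1516) (.f (nat_lit 492) (nat_lit 523) (nat_lit 1515) (.f (nat_lit 462) (nat_lit 497) (nat_lit 3533) (.d (nat_lit 491) (nat_lit 463) (nat_lit 2507) (nat_lit 490) (nat_lit 2506)))))) (.a (.f (nat_lit 592) (nat_lit 463) (nat_lit 7631) (.f (nat_lit 497) (nat_lit 465) (nat_lit 6608) (.d (nat_lit 461) (nat_lit 460) (nat_lit 3532) (nat_lit 462) (nat_lit 3533)))) (.a (.f (nat_lit 461) (nat_lit 460) (nat_lit 3532) (.f (nat_lit 497) (nat_lit 462) (nat_lit 3533) (.d (nat_lit 465) (nat_lit 466) (nat_lit 2510) (nat_lit 592) (nat_lit 6608)))) (.a (.f (nat_lit 460) (nat_lit 461) (nat_lit 3532) (.f (nat_lit 492) (nat_lit 459) (nat_lit 3531) (.d (nat_lit 524) (nat_lit 523) (nat_lit 1515) (nat_lit 525) (nat_lit 1516)))) (.a (.f (nat_lit 463) (nat_lit 592) (nat_lit 7631) (.f (nat_lit 524) (nat_lit 525) (nat_lit 1516) (.f (nat_lit 492) (nat_lit 523) (nat_lit 1515) (.f (nat_lit 491) (nat_lit 462) (nat_lit 2507) (.d (nat_lit 459) (nat_lit 458) (nat_lit 3530) (nat_lit 460) (nat_lit 3531)))))) (.f (nat_lit 463) (nat_lit 592) (nat_lit 7631) (.f (nat_lit 524) (nat_lit 525) (nat_lit 1516) (.f (nat_lit 492) (nat_lit 523) (nat_lit 1515) (.f (nat_lit 462) (nat_lit 491) (nat_lit 2507) (.d (nat_lit 497) (nat_lit 461) (nat_lit 3533) (nat_lit 498) (nat_lit 3534)))))))))))) (.a (.f (nat_lit 463) (nat_lit 592) (nat_lit 7631) (.f (nat_lit 526) (nat_lit 590) (nat_lit 6606) (.d (nat_lit 431) (nat_lit 399) (nat_lit 4495) (nat_lit 462) (nat_lit 6574)))) (.a s117361 (.f (nat_lit 463) (nat_lit 592) (nat_lit 7631) (.f (nat_lit 526) (nat_lit 590) (nat_lit 6606) (.f (nat_lit 525) (nat_lit 497) (nat_lit 1517) (.d (nat_lit 524) (nat_lit 493) (nat_lit 1516) (nat_lit 523) (nat_lit 2539)))))))))) (.a (.f (nat_lit 592) (nat_lit 463) (nat_lit 7631) (.f (nat_lit 624) (nat_lit 527) (nat_lit 7663) (.d (nat_lit 623) (nat_lit 591) (nat_lit 5615) (nat_lit 655) (nat_lit 5647)))) (.p (nat_lit 494) (.a (.p (nat_lit 493) (.a (.f (nat_lit 492) (nat_lit 527) (nat_lit 492) (.d (nat_lit 524) (nat_lit 523) (nat_lit 1515) (nat_lit 525) (nat_lit 1516))) (.f (nat_lit 461) (nat_lit 460) (nat_lit 3532) (.f (nat_lit 526) (nat_lit 590) (nat_lit 7629) (.d (nat_lit 429) (nat_lit 397) (nat_lit 4493) (nat_lit 462) (nat_lit 7597)))))) (.a s117361 (.a (.p (nat_lit 493) (.a (.f (nat_lit 492) (nat_lit 527) (nat_lit 492) (.d (nat_lit 524) (nat_lit 523) (nat_lit 1515) (nat_lit 525) (nat_lit 1516))) (.f (nat_lit 461) (nat_lit 460) (nat_lit 3532) (.f (nat_lit 497) (nat_lit 462) (nat_lit 3533) (.d (nat_lit 465) (nat_lit 466) (nat_lit 2510) (nat_lit 592) (nat_lit 6608)))))) (.a (.p (nat_lit 592) (.a (.f (nat_lit 497) (nat_lit 465) (nat_lit 6608) (.f (nat_lit 527) (nat_lit 624) (nat_lit 7663) (.d (nat_lit 498) (nat_lit 499) (nat_lit 1519) (nat_lit 526) (nat_lit 1518)))) (.a (.f (nat_lit 497) (nat_lit 465) (nat_lit 6608) (.f (nat_lit 591) (nat_lit 623) (nat_lit 5615) (.f (nat_lit 461) (nat_lit 462) (nat_lit 3533) (.f (nat_lit 493) (nat_lit 460) (nat_lit 3532) (.f (nat_lit 590) (nat_lit 526) (nat_lit 7629) (.f (nat_lit 589) (nat_lit 561) (nat_lit 2605) (.f (nat_lit 588) (nat_lit 559) (nat_lit 2604) (.d (nat_lit 620) (nat_lit 619) (nat_lit 1611) (nat_lit 621) (nat_lit 1612))))))))) (.a (.f (nat_lit 497) (nat_lit 465) (nat_lit 6608) (.f (nat_lit 527) (nat_lit 624) (nat_lit 7663) (.f (nat_lit 493) (nat_lit 492) (nat_lit 492) (.d (nat_lit 461) (nat_lit 460) (nat_lit 3532) (nat_lit 462) (nat_lit 3533))))) (.a (.f (nat_lit 527) (nat_lit 624) (nat_lit 7663) (.f (nat_lit 493) (nat_lit 492) (nat_lit 492) (.f (nat_lit 461) (nat_lit 460) (nat_lit 3532) (.f (nat_lit 526) (nat_lit 590) (nat_lit 7629) (.d (nat_lit 462) (nat_lit 429) (nat_lit 7597) (nat_lit 497) (nat_lit 3533)))))) (.f (nat_lit 527) (nat_lit 624) (nat_lit 7663) (.f (nat_lit 493) (nat_lit 492) (nat_lit 492) (.f (nat_lit 461) (nat_lit 460) (nat_lit 3532) (.f (nat_lit 526) (nat_lit 590) (nat_lit 7629) (.d (nat_lit 429) (nat_lit 397) (nat_lit 4493) (nat_lit 462) (nat_lit 7597))))))))))) (.a s116928 (.p (nat_lit 592) (.a (.f (nat_lit 497) (nat_lit 465) (nat_lit 6608) (.f (nat_lit 527) (nat_lit 624) (nat_lit 7663) (.d (nat_lit 498) (nat_lit 499) (nat_lit 1519) (nat_lit 526) (nat_lit 1518)))) (.a (.f (nat_lit 497) (nat_lit 465) (nat_lit 6608) (.f (nat_lit 591) (nat_lit 623) (nat_lit 5615) (.f (nat_lit 526) (nat_lit 525) (nat_lit 1517) (.d (nat_lit 462) (nat_lit 461) (nat_lit 3533) (nat_lit 559) (nat_lit 4558))))) (.f (nat_lit 624) (nat_lit 527) (nat_lit 7663) (.d (nat_lit 623) (nat_lit 591) (nat_lit 5615) (nat_lit 655) (nat_lit 5647))))))))))))))))) (.a (.p (nat_lit 559) (.a (.p (nat_lit 592) (.a (.f (nat_lit 591) (nat_lit 623) (nat_lit 5615) (.d (nat_lit 593) (nat_lit 557) (nat_lit 557) (nat_lit 594) (nat_lit 3630))) (.a (.f (nat_lit 557) (nat_lit 593) (nat_lit 557) (.f (nat_lit 527) (nat_lit 556) (nat_lit 2572) (.d (nat_lit 495) (nat_lit 463) (nat_lit 7631) (nat_lit 624) (nat_lit 7663)))) (.f (nat_lit 591) (nat_lit 623) (nat_lit 5615) (.f (nat_lit 495) (nat_lit 463) (nat_lit 7631) (.f (nat_lit 527) (nat_lit 624) (nat_lit 4591) (.f (nat_lit 497) (nat_lit 465) (nat_lit 6608) (.d (nat_lit 526) (nat_lit 498) (nat_lit 1518) (nat_lit 525) (nat_lit 2541))))))))) (.a (.p (nat_lit 525) (.a (.f (nat_lit 526) (nat_lit 561) (nat_lit 3597) (.d (nat_lit 524) (nat_lit 523) (nat_lit 523) (nat_lit 557) (nat_lit 3596))) (.a (.f (nat_lit 557) (nat_lit 524) (nat_lit 3596) (.f (nat_lit 556) (nat_lit 527) (nat_lit 2572) (.d (nat_lit 588) (nat_lit 587) (nat_lit 1579) (nat_lit 589) (nat_lit 1580)))) (.a (.f (nat_lit 526) (nat_lit 561) (nat_lit 3597) (.d (nat_lit 524) (nat_lit 523) (nat_lit 523) (nat_lit 527) (nat_lit 524))) (.f (nat_lit 526) (nat_lit 561) (nat_lit 3597) (.f (nat_lit 527) (nat_lit 497) (nat_lit 2541) (.f (nat_lit 557) (nat_lit 556) (nat_lit 2572) (.f (nat_lit 589) (nat_lit 588) (nat_lit 1580) (.d (nat_lit 494) (nat_lit 462) (nat_lit 5581) (nat_lit 621) (nat_lit 6637)))))))))) (.a s116758 (.a (.p (nat_lit 592) (.a (.f (nat_lit 591) (nat_lit 623) (nat_lit 5615) (.d (nat_lit 593) (nat_lit 557) (nat_lit 557) (nat_lit 594) (nat_lit 3630))) (.a (.f (nat_lit 557) (nat_lit 593) (nat_lit 557) (.f (nat_lit 527) (nat_lit 556) (nat_lit 2572) (.d (nat_lit 495) (nat_lit 463) (nat_lit 7631) (nat_lit 624) (nat_lit 7663)))) (.f (nat_lit 623) (nat_lit 591) (nat_lit 5615) (.f (nat_lit 624) (nat_lit 655) (nat_lit 5647) (.d (nat_lit 495) (nat_lit 463) (nat_lit 7631) (nat_lit 527) (nat_lit 7663))))))) (.p (nat_lit 495) (.a (.f (nat_lit 463) (nat_lit 592) (nat_lit 7631) (.d (nat_lit 431) (nat_lit 399) (nat_lit 4495) (nat_lit 527) (nat_lit 4527))) (.a (.p (nat_lit 494) (.a (.p (nat_lit 493) (.a (.f (nat_lit 461) (nat_lit 460) (nat_lit 3532) (.f (nat_lit 524) (nat_lit 525) (nat_lit 1516) (.f (nat_lit 492) (nat_lit 523) (nat_lit 1515) (.f (nat_lit 462) (nat_lit 497) (nat_lit 3533) (.d (nat_lit 491) (nat_lit 463) (nat_lit 2507) (nat_lit 490) (nat_lit 2506)))))) (.a (.f (nat_lit 527) (nat_lit 492) (nat_lit 492) (.d (nat_lit 591) (nat_lit 462) (nat_lit 7630) (nat_lit 623) (nat_lit 6639))) (.a (.f (nat_lit 460) (nat_lit 461) (nat_lit 3532) (.f (nat_lit 492) (nat_lit 459) (nat_lit 3531) (.d (nat_lit 524) (nat_lit 523) (nat_lit 1515) (nat_lit 525) (nat_lit 1516)))) (.f (nat_lit 461) (nat_lit 460) (nat_lit 3532) (.f (nat_lit 462) (nat_lit 497) (nat_lit 3533) (.f (nat_lit 527) (nat_lit 591) (nat_lit 7630) (.d (nat_lit 430) (nat_lit 398) (nat_lit 4494) (nat_lit 463) (nat_lit 7598))))))))) (.a (.p (nat_lit 526) (.a (.f (nat_lit 525) (nat_lit 497) (nat_lit 1517) (.d (nat_lit 524) (nat_lit 493) (nat_lit 1516) (nat_lit 523) (nat_lit 523))) (.a (.f (nat_lit 462) (nat_lit 591) (nat_lit 4558) (.d (nat_lit 461) (nat_lit 429) (nat_lit 7597) (nat_lit 497) (nat_lit 3533))) (.f (nat_lit 462) (nat_lit 591) (nat_lit 4558) (.f (nat_lit 463) (nat_lit 431) (nat_lit 6574) (.d (nat_lit 461) (nat_lit 429) (nat_lit 7597) (nat_lit 460) (nat_lit 460))))))) (.a (.p (nat_lit 561) (.a (.f (nat_lit 526) (nat_lit 525) (nat_lit 3597) (.f (nat_lit 527) (nat_lit 562) (nat_lit 3598) (.f (nat_lit 463) (nat_lit 431) (nat_lit 5550) (.f (nat_lit 462) (nat_lit 430) (nat_lit 7598) (.d (nat_lit 461) (nat_lit 429) (nat_lit 7597) (nat_lit 460) (nat_lit 460)))))) (.a (.f (nat_lit 525) (nat_lit 526) (nat_lit 3597) (.f (nat_lit 493) (nat_lit 524) (nat_lit 1516) (.f (nat_lit 461) (nat_lit 460) (nat_lit 3532) (.f (nat_lit 497) (nat_lit 462) (nat_lit 3533) (.f (nat_lit 594) (nat_lit 593) (nat_lit 558) (.f (nat_lit 562) (nat_lit 595) (nat_lit 559) (.f (nat_lit 531) (nat_lit 530) (nat_lit 2575) (.f (nat_lit 563) (nat_lit 532) (nat_lit 2576) (.f (nat_lit 467) (nat_lit 499) (nat_lit 5586) (.d (nat_lit 466) (nat_lit 465) (nat_lit 2510) (nat_lit 498) (nat_lit 2511))))))))))) (.a (.f (nat_lit 594) (nat_lit 593) (nat_lit 558) (.f (nat_lit 562) (nat_lit 595) (nat_lit 559) (.f (nat_lit 527) (nat_lit 563) (nat_lit 3599) (.f (nat_lit 463) (nat_lit 431) (nat_lit 4527) (.f (nat_lit 462) (nat_lit 430) (nat_lit 7598) (.d (nat_lit 497) (nat_lit 461) (nat_lit 3533) (nat_lit 498) (nat_lit 3534))))))) (.a (.f (nat_lit 525) (nat_lit 526) (nat_lit 3597) (.f (nat_lit 493) (nat_lit 524) (nat_lit 1516) (.f (nat_lit 461) (nat_lit 460) (nat_lit 3532) (.f (nat_lit 462) (nat_lit 497) (nat_lit 3533) (.f (nat_lit 430) (nat_lit 398) (nat_lit 5517) (.d (nat_lit 527) (nat_lit 463) (nat_lit 7598) (nat_lit 492) (nat_lit 492))))))) (.f (nat_lit 526) (nat_lit 525) (nat_lit 3597) (.f (nat_lit 562) (nat_lit 527) (nat_lit 3598) (.d (nat_lit 594) (nat_lit 593) (nat_lit 558) (nat_lit 595) (nat_lit 559))))))))) (.a (.p (nat_lit 493) (.a (.f (nat_lit 527) (nat_lit 492) (nat_lit 492) (.d (nat_lit 591) (nat_lit 462) (nat_lit 7630) (nat_lit 623) (nat_lit 6639))) (.a (.f (nat_lit 461) (nat_lit 460) (nat_lit 3532) (.f (nat_lit 462) (nat_lit 497) (nat_lit 3533) (.d (nat_lit 526) (nat_lit 429) (nat_lit 7597) (nat_lit 591) (nat_lit 4558)))) (.a (.f (nat_lit 527) (nat_lit 492) (nat_lit 492) (.f (nat_lit 463) (nat_lit 431) (nat_lit 4527) (.f (nat_lit 462) (nat_lit 430) (nat_lit 7598) (.d (nat_lit 497) (nat_lit 461) (nat_lit 3533) (nat_lit 498) (nat_lit 3534))))) (.f (nat_lit 492) (nat_lit 527) (nat_lit 492) (.d (nat_lit 460) (nat_lit 459) (nat_lit 3531) (nat_lit 461) (nat_lit 3532))))))) (.a (.p (nat_lit 526) (.a (.f (nat_lit 525) (nat_lit 497) (nat_lit 1517) (.d (nat_lit 524) (nat_lit 493) (nat_lit 1516) (nat_lit 523) (nat_lit 523))) (.a (.f (nat_lit 462) (nat_lit 591) (nat_lit 4558) (.d (nat_lit 461) (nat_lit 429) (nat_lit 7597) (nat_lit 497) (nat_lit 3533))) (.f (nat_lit 525) (nat_lit 561) (nat_lit 3597) (.d (nat_lit 524) (nat_lit 523) (nat_lit 523) (nat_lit 527) (nat_lit 2540)))))) (.a (.p (nat_lit 526) (.a (.f (nat_lit 462) (nat_lit 591) (nat_lit 4558) (.f (nat_lit 463) (nat_lit 431) (nat_lit 6574) (.d (nat_lit 461) (nat_lit 429) (nat_lit 7597) (nat_lit 460) (nat_lit 460)))) (.f (nat_lit 525) (nat_lit 561) (nat_lit 3597) (.d (nat_lit 524) (nat_lit 523) (nat_lit 523) (nat_lit 527) (nat_lit 2540))))) (.a (.p (nat_lit 525) (.a (.d (nat_lit 526) (nat_lit 497) (nat_lit 1517) (nat_lit 561) (nat_lit 3597)) (.a (.f (nat_lit 526) (nat_lit 497) (nat_lit 1517) (.d (nat_lit 524) (nat_lit 493) (nat_lit 1516) (nat_lit 527) (nat_lit 524))) (.f (nat_lit 493) (nat_lit 524) (nat_lit 1516) (.f (nat_lit 492) (nat_lit 527) (nat_lit 492) (.d (nat_lit 460) (nat_lit 459) (nat_lit 3531) (nat_lit 461) (nat_lit 3532))))))) (.p (nat_lit 526) (.a (.f (nat_lit 525) (nat_lit 497) (nat_lit 1517) (.d (nat_lit 524) (nat_lit 493) (nat_lit 1516) (nat_lit 523) (nat_lit 523))) (.f (nat_lit 591) (nat_lit 462) (nat_lit 4558) (.d (nat_lit 623) (nat_lit 527) (nat_lit 6639) (nat_lit 655) (nat_lit 6671))))))))))))) (.a (.p (nat_lit 497) (.a (.d (nat_lit 592) (nat_lit 463) (nat_lit 7631) (nat_lit 465) (nat_lit 6608)) (.a (.p (nat_lit 498) (.a (.f (nat_lit 531) (nat_lit 530) (nat_lit 495) (.f (nat_lit 499) (nat_lit 532) (nat_lit 496) (.d (nat_lit 467) (nat_lit 466) (nat_lit 2511) (nat_lit 468) (nat_lit 2512)))) (.f (nat_lit 462) (nat_lit 463) (nat_lit 3534) (.f (nat_lit 494) (nat_lit 461) (nat_lit 3533) (.d (nat_lit 526) (nat_lit 525) (nat_lit 1517) (nat_lit 591) (nat_lit 4558)))))) (.f (nat_lit 465) (nat_lit 592) (nat_lit 6608) (.f (nat_lit 494) (nat_lit 466) (nat_lit 2510) (.f (nat_lit 526) (nat_lit 525) (nat_lit 1517) (.d (nat_lit 462) (nat_lit 461) (nat_lit 3533) (nat_lit 591) (nat_lit 4558)))))))) (.p (nat_lit 494) (.a (.p (nat_lit 493) (.a (.f (nat_lit 461) (nat_lit 460) (nat_lit 3532) (.f (nat_lit 497) (nat_lit 462) (nat_lit 3533) (.d (nat_lit 465) (nat_lit 466) (nat_lit 2510) (nat_lit 592) (nat_lit 6608)))) (.a (.f (nat_lit 460) (nat_lit 461) (nat_lit 3532) (.f (nat_lit 492) (nat_lit 459) (nat_lit 3531) (.d (nat_lit 524) (nat_lit 523) (nat_lit 1515) (nat_lit 525) (nat_lit 1516)))) (.f (nat_lit 527) (nat_lit 492) (nat_lit 492) (.d (nat_lit 591) (nat_lit 462) (nat_lit 7630) (nat_lit 623) (nat_lit 6639)))))) (.a (.p (nat_lit 526) (.a (.f (nat_lit 525) (nat_lit 497) (nat_lit 1517) (.d (nat_lit 524) (nat_lit 493) (nat_lit 1516) (nat_lit 523) (nat_lit 523))) (.a (.f (nat_lit 462) (nat_lit 591) (nat_lit 4558) (.d (nat_lit 461) (nat_lit 429) (nat_lit 7597) (nat_lit 497) (nat_lit 3533))) (.f (nat_lit 525) (nat_lit 561) (nat_lit 3597) (.d (nat_lit 524) (nat_lit 523) (nat_lit 523) (nat_lit 527) (nat_lit 2540)))))) (.a (.p (nat_lit 526) (.a (.f (nat_lit 525) (nat_lit 497) (nat_lit 1517) (.d (nat_lit 524) (nat_lit 493) (nat_lit 1516) (nat_lit 523) (nat_lit 523))) (.a (.f (nat_lit 462) (nat_lit 591) (nat_lit 4558) (.d (nat_lit 461) (nat_lit 429) (nat_lit 7597) (nat_lit 497) (nat_lit 3533))) (.f (nat_lit 591) (nat_lit 462) (nat_lit 4558) (.d (nat_lit 623) (nat_lit 592) (nat_lit 5615) (nat_lit 655) (nat_lit 6671)))))) (.a (.p (nat_lit 525) (.a (.d (nat_lit 526) (nat_lit 497) (nat_lit 1517) (nat_lit 561) (nat_lit 3597)) (.a (.f (nat_lit 526) (nat_lit 497) (nat_lit 1517) (.d (nat_lit 524) (nat_lit 493) (nat_lit 1516) (nat_lit 527) (nat_lit 524))) (.f (nat_lit 493) (nat_lit 524) (nat_lit 1516) (.f (nat_lit 492) (nat_lit 527) (nat_lit 492) (.d (nat_lit 460) (nat_lit 459) (nat_lit 3531) (nat_lit 461) (nat_lit 3532))))))) (.a (.p (nat_lit 592) (.a (.f (nat_lit 591) (nat_lit 623) (nat_lit 5615) (.d (nat_lit 527) (nat_lit 462) (nat_lit 7630) (nat_lit 624) (nat_lit 4591))) (.a (.f (nat_lit 591) (nat_lit 623) (nat_lit 5615) (.f (nat_lit 497) (nat_lit 465) (nat_lit 6608) (.d (nat_lit 462) (nat_lit 461) (nat_lit 3533) (nat_lit 526) (nat_lit 4558)))) (.f (nat_lit 527) (nat_lit 624) (nat_lit 7663) (.f (nat_lit 497) (nat_lit 465) (nat_lit 6608) (.d (nat_lit 498) (nat_lit 499) (nat_lit 1519) (nat_lit 526) (nat_lit 1518))))))) (.p (nat_lit 526) (.a (.f (nat_lit 525) (nat_lit 561) (nat_lit 3597) (.d (nat_lit 524) (nat_lit 523) (nat_lit 523) (nat_lit 527) (nat_lit 2540))) (.f (nat_lit 591) (nat_lit 462) (nat_lit 4558) (.d (nat_lit 623) (nat_lit 592) (nat_lit 5615) (nat_lit 655) (nat_lit 6671)))))))))))))))))))) (.p (nat_lit 559) (.a (.p (nat_lit 592) (.a (.f (nat_lit 591) (nat_lit 623) (nat_lit 5615) (.d (nat_lit 593) (nat_lit 557) (nat_lit 557) (nat_lit 594) (nat_lit 3630))) (.a (.f (nat_lit 557) (nat_lit 593) (nat_lit 557) (.f (nat_lit 527) (nat_lit 556) (nat_lit 2572) (.d (nat_lit 495) (nat_lit 463) (nat_lit 7631) (nat_lit 624) (nat_lit 7663)))) (.f (nat_lit 591) (nat_lit 623) (nat_lit 5615) (.f (nat_lit 495) (nat_lit 463) (nat_lit 7631) (.f (nat_lit 527) (nat_lit 624) (nat_lit 4591) (.f (nat_lit 497) (nat_lit 465) (nat_lit 6608) (.d (nat_lit 526) (nat_lit 498) (nat_lit 1518) (nat_lit 525) (nat_lit 2541))))))))) (.a (.p (nat_lit 591) (.a (.d (nat_lit 623) (nat_lit 527) (nat_lit 6639) (nat_lit 655) (nat_lit 6671)) (.a (.p (nat_lit 526) (.a (.f (nat_lit 623) (nat_lit 655) (nat_lit 6671) (.d (nat_lit 494) (nat_lit 462) (nat_lit 4558) (nat_lit 590) (nat_lit 4590))) (.f (nat_lit 525) (nat_lit 561) (nat_lit 3597) (.d (nat_lit 524) (nat_lit 523) (nat_lit 523) (nat_lit 557) (nat_lit 3596))))) (.p (nat_lit 561) (.a (.f (nat_lit 562) (nat_lit 590) (nat_lit 1582) (.d (nat_lit 594) (nat_lit 593) (nat_lit 558) (nat_lit 595) (nat_lit 559))) (.a (.f (nat_lit 525) (nat_lit 526) (nat_lit 3597) (.f (nat_lit 557) (nat_lit 524) (nat_lit 3596) (.f (nat_lit 556) (nat_lit 527) (nat_lit 2572) (.f (nat_lit 555) (nat_lit 590) (nat_lit 555) (.d (nat_lit 587) (nat_lit 586) (nat_lit 1578) (nat_lit 588) (nat_lit 1579)))))) (.f (nat_lit 526) (nat_lit 525) (nat_lit 3597) (.f (nat_lit 562) (nat_lit 527) (nat_lit 3598) (.d (nat_lit 594) (nat_lit 593) (nat_lit 558) (nat_lit 595) (nat_lit 559)))))))))) (.a (.p (nat_lit 525) (.a (.f (nat_lit 557) (nat_lit 524) (nat_lit 3596) (.f (nat_lit 592) (nat_lit 593) (nat_lit 557) (.d (nat_lit 591) (nat_lit 556) (nat_lit 556) (nat_lit 623) (nat_lit 5615)))) (.a (.f (nat_lit 526) (nat_lit 561) (nat_lit 3597) (.d (nat_lit 524) (nat_lit 523) (nat_lit 523) (nat_lit 557) (nat_lit 3596))) (.f (nat_lit 561) (nat_lit 526) (nat_lit 3597) (.f (nat_lit 594) (nat_lit 593) (nat_lit 558) (.f (nat_lit 562) (nat_lit 595) (nat_lit 559) (.f (nat_lit 591) (nat_lit 590) (nat_lit 1582) (.d (nat_lit 592) (nat_lit 563) (nat_lit 1583) (nat_lit 623) (nat_lit 5615))))))))) (.a s117313 (.a (.p (nat_lit 592) (.a (.f (nat_lit 591) (nat_lit 623) (nat_lit 5615) (.d (nat_lit 593) (nat_lit 557) (nat_lit 557) (nat_lit 594) (nat_lit 3630))) (.a (.f (nat_lit 557) (nat_lit 593) (nat_lit 557) (.f (nat_lit 527) (nat_lit 556) (nat_lit 2572) (.d (nat_lit 495) (nat_lit 463) (nat_lit 7631) (nat_lit 624) (nat_lit 7663)))) (.f (nat_lit 623) (nat_lit 591) (nat_lit 5615) (.f (nat_lit 624) (nat_lit 655) (nat_lit 5647) (.d (nat_lit 495) (nat_lit 463) (nat_lit 7631) (nat_lit 527) (nat_lit 7663))))))) (.a (.p (nat_lit 495) (.a (.f (nat_lit 463) (nat_lit 592) (nat_lit 7631) (.d (nat_lit 431) (nat_lit 399) (nat_lit 4495) (nat_lit 527) (nat_lit 4527))) (.a (.p (nat_lit 527) (.a (.d (nat_lit 463) (nat_lit 431) (nat_lit 4527) (nat_lit 590) (nat_lit 5582)) (.a (.f (nat_lit 591) (nat_lit 623) (nat_lit 6639) (.f (nat_lit 494) (nat_lit 462) (nat_lit 7630) (.f (nat_lit 590) (nat_lit 622) (nat_lit 5614) (.f (nat_lit 561) (nat_lit 562) (nat_lit 1582) (.f (nat_lit 526) (nat_lit 525) (nat_lit 525) (.d (nat_lit 493) (nat_lit 461) (nat_lit 7629) (nat_lit 492) (nat_lit 492))))))) (.f (nat_lit 463) (nat_lit 431) (nat_lit 4527) (.f (nat_lit 462) (nat_lit 430) (nat_lit 7598) (.d (nat_lit 591) (nat_lit 494) (nat_lit 7630) (nat_lit 623) (nat_lit 6639))))))) (.a (.p (nat_lit 526) (.a (.f (nat_lit 525) (nat_lit 561) (nat_lit 3597) (.f (nat_lit 494) (nat_lit 497) (nat_lit 1517) (.d (nat_lit 524) (nat_lit 493) (nat_lit 1516) (nat_lit 523) (nat_lit 523)))) (.a (.f (nat_lit 463) (nat_lit 592) (nat_lit 7631) (.f (nat_lit 494) (nat_lit 590) (nat_lit 6606) (.d (nat_lit 431) (nat_lit 399) (nat_lit 4495) (nat_lit 462) (nat_lit 6574)))) (.f (nat_lit 592) (nat_lit 463) (nat_lit 7631) (.f (nat_lit 591) (nat_lit 623) (nat_lit 5615) (.f (nat_lit 561) (nat_lit 525) (nat_lit 3597) (.d (nat_lit 562) (nat_lit 563) (nat_lit 1583) (nat_lit 590) (nat_lit 1582)))))))) (.p (nat_lit 527) (.a (.f (nat_lit 592) (nat_lit 624) (nat_lit 7663) (.f (nat_lit 497) (nat_lit 465) (nat_lit 6608) (.d (nat_lit 526) (nat_lit 498) (nat_lit 1518) (nat_lit 525) (nat_lit 2541)))) (.a (.f (nat_lit 591) (nat_lit 623) (nat_lit 6639) (.f (nat_lit 494) (nat_lit 462) (nat_lit 7630) (.f (nat_lit 590) (nat_lit 622) (nat_lit 5614) (.f (nat_lit 561) (nat_lit 562) (nat_lit 1582) (.f (nat_lit 526) (nat_lit 525) (nat_lit 525) (.d (nat_lit 493) (nat_lit 461) (nat_lit 7629) (nat_lit 492) (nat_lit 492))))))) (.f (nat_lit 591) (nat_lit 623) (nat_lit 6639) (.f (nat_lit 592) (nat_lit 624) (nat_lit 7663) (.f (nat_lit 594) (nat_lit 593) (nat_lit 3630) (.f (nat_lit 497) (nat_lit 465) (nat_lit 6608) (.f (nat_lit 498) (nat_lit 499) (nat_lit 1519) (.f (nat_lit 590) (nat_lit 622) (nat_lit 5614) (.f (nat_lit 562) (nat_lit 561) (nat_lit 1582) (.f (nat_lit 530) (nat_lit 531) (nat_lit 495) (.f (nat_lit 466) (nat_lit 467) (nat_lit 2511) (.d (nat_lit 595) (nat_lit 563) (nat_lit 4562) (nat_lit 627) (nat_lit 4594)))))))))))))))))) (.p (nat_lit 592) (.a (.f (nat_lit 591) (nat_lit 623) (nat_lit 5615) (.f (nat_lit 495) (nat_lit 463) (nat_lit 7631) (.f (nat_lit 527) (nat_lit 624) (nat_lit 4591) (.f (nat_lit 497) (nat_lit 465) (nat_lit 6608) (.d (nat_lit 526) (nat_lit 498) (nat_lit 1518) (nat_lit 525) (nat_lit 2541)))))) (.a (.f (nat_lit 591) (nat_lit 623) (nat_lit 5615) (.f (nat_lit 557) (nat_lit 556) (nat_lit 556) (.f (nat_lit 525) (nat_lit 524) (nat_lit 3596) (.f (nat_lit 561) (nat_lit 526) (nat_lit 3597) (.d (nat_lit 562) (nat_lit 563) (nat_lit 1583) (nat_lit 590) (nat_lit 1582)))))) (.a (.f (nat_lit 495) (nat_lit 463) (nat_lit 7631) (.f (nat_lit 527) (nat_lit 624) (nat_lit 7663) (.f (nat_lit 497) (nat_lit 465) (nat_lit 6608) (.d (nat_lit 526) (nat_lit 498) (nat_lit 1518) (nat_lit 525) (nat_lit 2541))))) (.f (nat_lit 623) (nat_lit 591) (nat_lit 5615) (.f (nat_lit 624) (nat_lit 655) (nat_lit 5647) (.d (nat_lit 495) (nat_lit 463) (nat_lit 7631) (nat_lit 527) (nat_lit 7663))))))))))))))))))))))))))))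
noncomputable def s117622 : Cert := .r (nat_lit 3773962425700235452738272624505952193199339552226928146794549392648115485167898379561026699849346401546134558067857772757880134458676407096525164659442171664912122642432) (.p (nat_lit 496) (.a (.p (nat_lit 464) (.a (.f (nat_lit 463) (nat_lit 431) (nat_lit 7599) (.f (nat_lit 465) (nat_lit 433) (nat_lit 6576) (.d (nat_lit 592) (nat_lit 495) (nat_lit 7631) (nat_lit 497) (nat_lit 6608)))) (.a (.f (nat_lit 559) (nat_lit 591) (nat_lit 5583) (.f (nat_lit 432) (nat_lit 527) (nat_lit 5551) (.d (nat_lit 433) (nat_lit 401) (nat_lit 6544) (nat_lit 465) (nat_lit 6576)))) (.f (nat_lit 463) (nat_lit 431) (nat_lit 7599) (.f (nat_lit 495) (nat_lit 592) (nat_lit 7631) (.f (nat_lit 559) (nat_lit 591) (nat_lit 5583) (.f (nat_lit 527) (nat_lit 432) (nat_lit 5551) (.f (nat_lit 462) (nat_lit 430) (nat_lit 7598) (.d (nat_lit 461) (nat_lit 460) (nat_lit 460) (nat_lit 497) (nat_lit 461))))))))))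 (.a (.p (nat_lit 464) (.a (.f (nat_lit 559) (nat_lit 591) (nat_lit 5583) (.f (nat_lit 432) (nat_lit 527) (nat_lit 5551) (.d (nat_lit 433) (nat_lit 401) (nat_lit 6544) (nat_lit 465) (nat_lit 6576)))) (.a (.f (nat_lit 433) (nat_lit 465) (nat_lit 6576) (.f (nat_lit 432) (nat_lit 401) (nat_lit 6544) (.d (nat_lit 431) (nat_lit 399) (nat_lit 7567) (nat_lit 463) (nat_lit 7599)))) (.a (.f (nat_lit 559) (nat_lit 591) (nat_lit 5583) (.f (nat_lit 432) (nat_lit 527) (nat_lit 5551) (.d (nat_lit 431) (nat_lit 399) (nat_lit 7567) (nat_lit 463) (nat_lit 7599)))) (.p (nat_lit 526) (.a (.f (nat_lit 463) (nat_lit 431) (nat_lit 7599) (.f (nat_lit 559) (nat_lit 591) (nat_lit 5583) (.f (nat_lit 561) (nat_lit 593) (nat_lit 4560) (.f (nat_lit 558) (nat_lit 525) (nat_lit 3597) (.f (nat_lit 590) (nat_lit 589) (nat_lit 1581) (.f (nat_lit 494) (nat_lit 495) (nat_lit 6606) (.f (nat_lit 461) (nat_lit 493) (nat_lit 7629) (.d (nat_lit 462) (nat_lit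 429) (nat_lit 7597) (nat_lit 497) (nat_lit 461))))))))) (.a (.p (nat_lit 495) (.a (.f (nat_lit 465) (nat_lit 433) (nat_lit 6576) (.f (nat_lit 494) (nat_lit 493) (nat_lit 2509) (.d (nat_lit 466) (nat_lit 463) (nat_lit 1486) (nat_lit 467) (nat_lit 1487)))) (.a (.f (nat_lit 561) (nat_lit 593) (nat_lit 4560) (.f (nat_lit 525) (nat_lit 527) (nat_lit 525) (.f (nat_lit 494) (nat_lit 497) (nat_lit 1517) (.d (nat_lit 524) (nat_lit 493) (nat_lit 1516) (nat_lit 523) (nat_lit 2539))))) (.f (nat_lit 465) (nat_lit 433) (nat_lit 6576) (.f (nat_lit 466) (nat_lit 467) (nat_lit 1487) (.f (nat_lit 561) (nat_lit 593) (nat_lit 4560) (.f (nat_lit 527) (nat_lit 525) (nat_lit 525) (.f (nat_lit 498) (nat_lit 497) (nat_lit 1518) (.f (nat_lit 499) (nat_lit 463) (nat_lit 463) (.f (nat_lit 563) (nat_lit 562) (nat_lit 3599) (.f (nat_lit 531) (nat_lit 595) (nat_lit 7634) (.d (nat_lit 434) (nat_lit 402) (nat_lit 4498) (nat_lit 530) (nat_lit 4530)))))))))))))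 (.a (.p (nat_lit 497) (.a (.f (nat_lit 527) (nat_lit 525) (nat_lit 2541) (.d (nat_lit 498) (nat_lit 495) (nat_lit 1518) (nat_lit 499) (nat_lit 1519))) (.a (.f (nat_lit 463) (nat_lit 431) (nat_lit 7599) (.f (nat_lit 498) (nat_lit 499) (nat_lit 3535) (.d (nat_lit 462) (nat_lit 461) (nat_lit 461) (nat_lit 495) (nat_lit 3534)))) (.a (.f (nat_lit 463) (nat_lit 431) (nat_lit 7599) (.f (nat_lit 498) (nat_lit 499) (nat_lit 3535) (.d (nat_lit 462) (nat_lit 461) (nat_lit 461) (nat_lit 465) (nat_lit 462)))) (.f (nat_lit 525) (nat_lit 527) (nat_lit 2541) (.f (nat_lit 494) (nat_lit 495) (nat_lit 1517) (.f (nat_lit 463) (nat_lit 431) (nat_lit 7599) (.f (nat_lit 462) (nat_lit 461) (nat_lit 461) (.f (nat_lit 493) (nat_lit 465) (nat_lit 1485) (.d (nat_lit 430) (nat_lit 398) (nat_lit 5517) (nat_lit 557) (nat_lit 5549))))))))))) (.a (.f (nat_lit 561) (nat_lit 593) (nat_lit 4560) (.f (nat_lit 527) (nat_lit 525) (nat_lit 525) (.d (nat_lit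 562) (nat_lit 559) (nat_lit 3598) (nat_lit 563) (nat_lit 3599)))) (.f (nat_lit 559) (nat_lit 591) (nat_lit 5583) (.f (nat_lit 561) (nat_lit 593) (nat_lit 4560) (.f (nat_lit 562) (nat_lit 527) (nat_lit 3598) (.f (nat_lit 531) (nat_lit 530) (nat_lit 2575) (.f (nat_lit 563) (nat_lit 532) (nat_lit 2576) (.d (nat_lit 595) (nat_lit 594) (nat_lit 559) (nat_lit 596) (nat_lit 560)))))))))))))))) (.a (.p (nat_lit 464) (.a (.f (nat_lit 463) (nat_lit 431) (nat_lit 7599) (.f (nat_lit 465) (nat_lit 433) (nat_lit 6576) (.d (nat_lit 592) (nat_lit 495) (nat_lit 7631) (nat_lit 497) (nat_lit 6608)))) (.a (.f (nat_lit 433) (nat_lit 465) (nat_lit 6576) (.f (nat_lit 432) (nat_lit 401) (nat_lit 6544) (.d (nat_lit 431) (nat_lit 399) (nat_lit 7567) (nat_lit 463) (nat_lit 7599)))) (.a (.f (nat_lit 463) (nat_lit 431) (nat_lit 7599) (.f (nat_lit 591) (nat_lit 559) (nat_lit 5583) (.d (nat_lit 592) (nat_lit 495) (nat_lit 7631) (nat_lit 623) (nat_lit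 5615)))) (.f (nat_lit 465) (nat_lit 433) (nat_lit 6576) (.f (nat_lit 591) (nat_lit 559) (nat_lit 5583) (.d (nat_lit 592) (nat_lit 497) (nat_lit 6608) (nat_lit 623) (nat_lit 5615)))))))) (.a (.p (nat_lit 465) (.a (.f (nat_lit 464) (nat_lit 433) (nat_lit 6576) (.f (nat_lit 463) (nat_lit 431) (nat_lit 7599) (.d (nat_lit 592) (nat_lit 495) (nat_lit 7631) (nat_lit 497) (nat_lit 6608)))) (.a (.f (nat_lit 464) (nat_lit 433) (nat_lit 6576) (.p (nat_lit 494) (.a (.f (nat_lit 495) (nat_lit 493) (nat_lit 2509) (.d (nat_lit 466) (nat_lit 463) (nat_lit 1486) (nat_lit 467) (nat_lit 1487))) (.a (.f (nat_lit 463) (nat_lit 431) (nat_lit 7599) (.f (nat_lit 462) (nat_lit 493) (nat_lit 1485) (.d (nat_lit 497) (nat_lit 461) (nat_lit 461) (nat_lit 498) (nat_lit 462)))) (.a (.f (nat_lit 495) (nat_lit 493) (nat_lit 2509) (.d (nat_lit 466) (nat_lit 467) (nat_lit 1487) (nat_lit 497) (nat_lit 2510))) (.f (nat_lit 463) (nat_lit 431) (nat_lit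 7599) (.f (nat_lit 466) (nat_lit 495) (nat_lit 1486) (.f (nat_lit 498) (nat_lit 499) (nat_lit 463) (.f (nat_lit 497) (nat_lit 462) (nat_lit 462) (.f (nat_lit 467) (nat_lit 468) (nat_lit 1488) (.d (nat_lit 435) (nat_lit 434) (nat_lit 2479) (nat_lit 436) (nat_lit 2480)))))))))))) (.a (.f (nat_lit 592) (nat_lit 497) (nat_lit 6608) (.f (nat_lit 495) (nat_lit 463) (nat_lit 7631) (.f (nat_lit 624) (nat_lit 527) (nat_lit 7663) (.d (nat_lit 623) (nat_lit 591) (nat_lit 5615) (nat_lit 655) (nat_lit 5647))))) (.a (.f (nat_lit 464) (nat_lit 433) (nat_lit 6576) (.f (nat_lit 463) (nat_lit 431) (nat_lit 7599) (.f (nat_lit 497) (nat_lit 592) (nat_lit 6608) (.d (nat_lit 462) (nat_lit 461) (nat_lit 461) (nat_lit 498) (nat_lit 462))))) (.a (.f (nat_lit 497) (nat_lit 592) (nat_lit 6608) (.d (nat_lit 433) (nat_lit 401) (nat_lit 5520) (nat_lit 464) (nat_lit 6576))) (.f (nat_lit 464) (nat_lit 433) (nat_lit 6576) (.f (nat_lit 463) (nat_lit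 431) (nat_lit 7599) (.f (nat_lit 495) (nat_lit 592) (nat_lit 7631) (.d (nat_lit 494) (nat_lit 466) (nat_lit 1486) (nat_lit 493) (nat_lit 2509))))))))))) (.a s117539 (.a (.p (nat_lit 464) (.a (.f (nat_lit 559) (nat_lit 591) (nat_lit 5583) (.f (nat_lit 432) (nat_lit 527) (nat_lit 5551) (.d (nat_lit 433) (nat_lit 401) (nat_lit 6544) (nat_lit 465) (nat_lit 6576)))) (.a (.f (nat_lit 433) (nat_lit 465) (nat_lit 6576) (.f (nat_lit 432) (nat_lit 401) (nat_lit 6544) (.d (nat_lit 431) (nat_lit 399) (nat_lit 7567) (nat_lit 463) (nat_lit 7599)))) (.a (.f (nat_lit 559) (nat_lit 591) (nat_lit 5583) (.f (nat_lit 432) (nat_lit 527) (nat_lit 5551) (.d (nat_lit 431) (nat_lit 399) (nat_lit 7567) (nat_lit 463) (nat_lit 7599)))) (.f (nat_lit 465) (nat_lit 433) (nat_lit 6576) (.f (nat_lit 591) (nat_lit 559) (nat_lit 5583) (.d (nat_lit 592) (nat_lit 497) (nat_lit 6608) (nat_lit 623) (nat_lit 5615)))))))) (.a (.p (nat_lit 464) (.a (.f (nat_lit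 463) (nat_lit 431) (nat_lit 7599) (.f (nat_lit 465) (nat_lit 433) (nat_lit 6576) (.d (nat_lit 592) (nat_lit 495) (nat_lit 7631) (nat_lit 497) (nat_lit 6608)))) (.a (.f (nat_lit 433) (nat_lit 465) (nat_lit 6576) (.f (nat_lit 432) (nat_lit 401) (nat_lit 6544) (.d (nat_lit 431) (nat_lit 399) (nat_lit 7567) (nat_lit 463) (nat_lit 7599)))) (.a (.f (nat_lit 431) (nat_lit 463) (nat_lit 7599) (.f (nat_lit 432) (nat_lit 399) (nat_lit 7567) (.f (nat_lit 527) (nat_lit 559) (nat_lit 5551) (.f (nat_lit 401) (nat_lit 433) (nat_lit 6544) (.d (nat_lit 400) (nat_lit 369) (nat_lit 6512) (nat_lit 495) (nat_lit 5519)))))) (.a (.f (nat_lit 433) (nat_lit 465) (nat_lit 6576) (.f (nat_lit 432) (nat_lit 401) (nat_lit 6544) (.f (nat_lit 527) (nat_lit 559) (nat_lit 5551) (.f (nat_lit 400) (nat_lit 495) (nat_lit 5519) (.d (nat_lit 399) (nat_lit 367) (nat_lit 7535) (nat_lit 431) (nat_lit 7567)))))) (.a (.f (nat_lit 465) (nat_lit 433) (nat_lit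 6576) (.f (nat_lit 592) (nat_lit 497) (nat_lit 6608) (.f (nat_lit 495) (nat_lit 463) (nat_lit 7631) (.f (nat_lit 527) (nat_lit 624) (nat_lit 7663) (.d (nat_lit 432) (nat_lit 400) (nat_lit 5519) (nat_lit 559) (nat_lit 5551)))))) (.f (nat_lit 431) (nat_lit 463) (nat_lit 7599) (.f (nat_lit 432) (nat_lit 399) (nat_lit 7567) (.f (nat_lit 527) (nat_lit 559) (nat_lit 5551) (.f (nat_lit 495) (nat_lit 400) (nat_lit 5519) (.f (nat_lit 561) (nat_lit 593) (nat_lit 4560) (.f (nat_lit 526) (nat_lit 525) (nat_lit 525) (.f (nat_lit 497) (nat_lit 498) (nat_lit 1518) (.d (nat_lit 592) (nat_lit 465) (nat_lit 6608) (nat_lit 624) (nat_lit 7663))))))))))))))) (.a (.p (nat_lit 561) (.a (.f (nat_lit 464) (nat_lit 593) (nat_lit 4560) (.f (nat_lit 559) (nat_lit 591) (nat_lit 5583) (.f (nat_lit 527) (nat_lit 432) (nat_lit 5551) (.d (nat_lit 562) (nat_lit 526) (nat_lit 3598) (nat_lit 563) (nat_lit 3599))))) (.a (.f (nat_lit 464) (nat_lit 593)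 (nat_lit 4560) (.f (nat_lit 591) (nat_lit 559) (nat_lit 5583) (.f (nat_lit 592) (nat_lit 623) (nat_lit 5615) (.d (nat_lit 463) (nat_lit 431) (nat_lit 7599) (nat_lit 495) (nat_lit 7631))))) (.a (.p (nat_lit 592) (.a (.f (nat_lit 591) (nat_lit 623) (nat_lit 5615) (.f (nat_lit 562) (nat_lit 563) (nat_lit 1583) (.d (nat_lit 590) (nat_lit 589) (nat_lit 2605) (nat_lit 593) (nat_lit 2606)))) (.a (.f (nat_lit 464) (nat_lit 593) (nat_lit 4560) (.d (nat_lit 463) (nat_lit 431) (nat_lit 7599) (nat_lit 495) (nat_lit 7631))) (.f (nat_lit 495) (nat_lit 463) (nat_lit 7631) (.f (nat_lit 624) (nat_lit 527) (nat_lit 7663) (.d (nat_lit 623) (nat_lit 591) (nat_lit 5615) (nat_lit 655) (nat_lit 5647))))))) (.a (.p (nat_lit 592) (.a (.f (nat_lit 591) (nat_lit 623) (nat_lit 5615) (.f (nat_lit 562) (nat_lit 563) (nat_lit 1583) (.d (nat_lit 590) (nat_lit 589) (nat_lit 2605) (nat_lit 593) (nat_lit 2606)))) (.a (.f (nat_lit 495) (nat_lit 463)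 (nat_lit 7631) (.f (nat_lit 527) (nat_lit 624) (nat_lit 7663) (.f (nat_lit 526) (nat_lit 525) (nat_lit 525) (.d (nat_lit 562) (nat_lit 559) (nat_lit 3598) (nat_lit 563) (nat_lit 3599))))) (.f (nat_lit 495) (nat_lit 463) (nat_lit 7631) (.f (nat_lit 624) (nat_lit 527) (nat_lit 7663) (.d (nat_lit 623) (nat_lit 591) (nat_lit 5615) (nat_lit 655) (nat_lit 5647))))))) (.a (.f (nat_lit 464) (nat_lit 593) (nat_lit 4560) (.f (nat_lit 431) (nat_lit 463) (nat_lit 7599) (.f (nat_lit 432) (nat_lit 399) (nat_lit 7567) (.f (nat_lit 527) (nat_lit 559) (nat_lit 5551) (.f (nat_lit 401) (nat_lit 433) (nat_lit 6544) (.d (nat_lit 400) (nat_lit 369) (nat_lit 6512) (nat_lit 495) (nat_lit 5519))))))) (.p (nat_lit 592) (.a (.f (nat_lit 495) (nat_lit 463) (nat_lit 7631) (.f (nat_lit 624) (nat_lit 527) (nat_lit 7663) (.d (nat_lit 623) (nat_lit 591) (nat_lit 5615) (nat_lit 655) (nat_lit 5647)))) (.a (.f (nat_lit 591) (nat_lit 623) (nat_lit 5615)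 (.f (nat_lit 559) (nat_lit 464) (nat_lit 5583) (.d (nat_lit 562) (nat_lit 563) (nat_lit 1583) (nat_lit 590) (nat_lit 1582)))) (.f (nat_lit 495) (nat_lit 463) (nat_lit 7631) (.f (nat_lit 527) (nat_lit 624) (nat_lit 7663) (.f (nat_lit 526) (nat_lit 525) (nat_lit 525) (.d (nat_lit 562) (nat_lit 559) (nat_lit 3598) (nat_lit 563) (nat_lit 3599)))))))))))))) (.a (.p (nat_lit 561) (.a (.f (nat_lit 464) (nat_lit 593) (nat_lit 4560) (.f (nat_lit 559) (nat_lit 591) (nat_lit 5583) (.f (nat_lit 527) (nat_lit 432) (nat_lit 5551) (.d (nat_lit 562) (nat_lit 526) (nat_lit 3598) (nat_lit 563) (nat_lit 3599))))) (.a (.f (nat_lit 464) (nat_lit 593) (nat_lit 4560) (.f (nat_lit 591) (nat_lit 559) (nat_lit 5583) (.f (nat_lit 592) (nat_lit 623) (nat_lit 5615) (.d (nat_lit 465) (nat_lit 433) (nat_lit 6576) (nat_lit 497) (nat_lit 6608))))) (.a (.p (nat_lit 465) (.a (.d (nat_lit 464) (nat_lit 433) (nat_lit 6576) (nat_lit 593) (nat_lit 4560))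 (.a (.f (nat_lit 592) (nat_lit 497) (nat_lit 6608) (.f (nat_lit 591) (nat_lit 623) (nat_lit 5615) (.f (nat_lit 562) (nat_lit 563) (nat_lit 1583) (.d (nat_lit 590) (nat_lit 589) (nat_lit 2605) (nat_lit 593) (nat_lit 2606))))) (.f (nat_lit 497) (nat_lit 592) (nat_lit 6608) (.d (nat_lit 433) (nat_lit 401) (nat_lit 5520) (nat_lit 464) (nat_lit 6576)))))) (.a (.p (nat_lit 592) (.a (.f (nat_lit 591) (nat_lit 623) (nat_lit 5615) (.f (nat_lit 562) (nat_lit 563) (nat_lit 1583) (.d (nat_lit 590) (nat_lit 589) (nat_lit 2605) (nat_lit 593) (nat_lit 2606)))) (.a (.p (nat_lit 527) (.a (.f (nat_lit 526) (nat_lit 525) (nat_lit 525) (.d (nat_lit 562) (nat_lit 559) (nat_lit 3598) (nat_lit 563) (nat_lit 3599))) (.a (.f (nat_lit 497) (nat_lit 465) (nat_lit 6608) (.f (nat_lit 526) (nat_lit 525) (nat_lit 2541) (.d (nat_lit 495) (nat_lit 498) (nat_lit 1518) (nat_lit 624) (nat_lit 7663)))) (.f (nat_lit 624) (nat_lit 495) (nat_lit 7663)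 (.f (nat_lit 656) (nat_lit 559) (nat_lit 7695) (.d (nat_lit 655) (nat_lit 623) (nat_lit 5647) (nat_lit 687) (nat_lit 5679))))))) (.a (.p (nat_lit 527) (.a (.f (nat_lit 526) (nat_lit 525) (nat_lit 525) (.d (nat_lit 562) (nat_lit 559) (nat_lit 3598) (nat_lit 563) (nat_lit 3599))) (.a (.f (nat_lit 497) (nat_lit 465) (nat_lit 6608) (.f (nat_lit 526) (nat_lit 525) (nat_lit 2541) (.d (nat_lit 495) (nat_lit 498) (nat_lit 1518) (nat_lit 624) (nat_lit 7663)))) (.f (nat_lit 562) (nat_lit 563) (nat_lit 3599) (.f (nat_lit 624) (nat_lit 495) (nat_lit 7663) (.f (nat_lit 559) (nat_lit 656) (nat_lit 7695) (.f (nat_lit 590) (nat_lit 591) (nat_lit 1582) (.f (nat_lit 558) (nat_lit 589) (nat_lit 1581) (.d (nat_lit 594) (nat_lit 593) (nat_lit 558) (nat_lit 595) (nat_lit 559)))))))))) (.f (nat_lit 623) (nat_lit 591) (nat_lit 5615) (.f (nat_lit 624) (nat_lit 655) (nat_lit 5647) (.f (nat_lit 527) (nat_lit 495) (nat_lit 7663) (.f (nat_lit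 656) (nat_lit 559) (nat_lit 7695) (.f (nat_lit 688) (nat_lit 593) (nat_lit 6704) (.d (nat_lit 689) (nat_lit 657) (nat_lit 4656) (nat_lit 721) (nat_lit 4688))))))))))) (.a (.f (nat_lit 464) (nat_lit 593) (nat_lit 4560) (.f (nat_lit 433) (nat_lit 465) (nat_lit 6576) (.f (nat_lit 432) (nat_lit 401) (nat_lit 6544) (.f (nat_lit 527) (nat_lit 559) (nat_lit 5551) (.f (nat_lit 400) (nat_lit 495) (nat_lit 5519) (.d (nat_lit 399) (nat_lit 367) (nat_lit 7535) (nat_lit 431) (nat_lit 7567))))))) (.p (nat_lit 465) (.a (.f (nat_lit 497) (nat_lit 592) (nat_lit 6608) (.d (nat_lit 433) (nat_lit 401) (nat_lit 5520) (nat_lit 464) (nat_lit 6576))) (.a (.f (nat_lit 464) (nat_lit 433) (nat_lit 6576) (.f (nat_lit 559) (nat_lit 591) (nat_lit 5583) (.f (nat_lit 527) (nat_lit 432) (nat_lit 5551) (.d (nat_lit 562) (nat_lit 526) (nat_lit 3598) (nat_lit 563) (nat_lit 3599))))) (.f (nat_lit 592) (nat_lit 497) (nat_lit 6608) (.f (nat_lit 591) (nat_lit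 623) (nat_lit 5615) (.f (nat_lit 562) (nat_lit 563) (nat_lit 1583) (.d (nat_lit 590) (nat_lit 559) (nat_lit 1582) (nat_lit 589) (nat_lit 2605)))))))))))))) (.p (nat_lit 464) (.a (.f (nat_lit 559) (nat_lit 591) (nat_lit 5583) (.f (nat_lit 432) (nat_lit 527) (nat_lit 5551) (.d (nat_lit 433) (nat_lit 401) (nat_lit 6544) (nat_lit 465) (nat_lit 6576)))) (.a (.f (nat_lit 465) (nat_lit 433) (nat_lit 6576) (.f (nat_lit 591) (nat_lit 559) (nat_lit 5583) (.d (nat_lit 592) (nat_lit 497) (nat_lit 6608) (nat_lit 623) (nat_lit 5615)))) (.a (.f (nat_lit 465) (nat_lit 433) (nat_lit 6576) (.f (nat_lit 592) (nat_lit 497) (nat_lit 6608) (.f (nat_lit 495) (nat_lit 463) (nat_lit 7631) (.f (nat_lit 624) (nat_lit 527) (nat_lit 7663) (.d (nat_lit 623) (nat_lit 591) (nat_lit 5615) (nat_lit 655) (nat_lit 5647)))))) (.a (.f (nat_lit 465) (nat_lit 433) (nat_lit 6576) (.f (nat_lit 592) (nat_lit 497) (nat_lit 6608) (.f (nat_lit 495) (nat_lit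 463) (nat_lit 7631) (.f (nat_lit 527) (nat_lit 624) (nat_lit 7663) (.d (nat_lit 432) (nat_lit 400) (nat_lit 5519) (nat_lit 559) (nat_lit 5551)))))) (.f (nat_lit 559) (nat_lit 591) (nat_lit 5583) (.f (nat_lit 527) (nat_lit 432) (nat_lit 5551) (.f (nat_lit 561) (nat_lit 593) (nat_lit 4560) (.d (nat_lit 562) (nat_lit 526) (nat_lit 3598) (nat_lit 563) (nat_lit 3599))))))))))))))))))))
noncomputable def s119177 : Cert := .r (nat_lit 878694100496718043517683302282418331810487718418343092402491322775749527474899974671687634004666183037093927858109549828751614463963730408009475621262727315456) (.p (nat_lit 560) (.a (.p (nat_lit 496) (.a (.p (nat_lit 592) (.a (.f (nat_lit 591) (nat_lit 623) (nat_lit 5615) (.f (nat_lit 593) (nat_lit 625) (nat_lit 4592) (.d (nat_lit 464) (nat_lit 559) (nat_lit 5583) (nat_lit 561) (nat_lit 4560)))) (.a (.f (nat_lit 623) (nat_lit 591) (nat_lit 5615) (.f (nat_lit 624) (nat_lit 655) (nat_lit 5647) (.d (nat_lit 625) (nat_lit 593) (nat_lit 4592) (nat_lit 657) (nat_lit 4624)))) (.a (.f (nat_lit 593) (nat_lit 625) (nat_lit 4592) (.f (nat_lit 464) (nat_lit 561) (nat_lit 4560) (.d (nat_lit 465) (nat_lit 433) (nat_lit 6576) (nat_lit 497) (nat_lit 6608)))) (.f (nat_lit 591) (nat_lit 623) (nat_lit 5615) (.f (nat_lit 464) (nat_lit 559) (nat_lit 5583) (.d (nat_lit 465) (nat_lit 433) (nat_lit 6576) (nat_lit 497) (nat_lit 6608)))))))) (.a (.p (nat_lit 464) (.a (.f (nat_lit 559) (nat_lit 591) (nat_lit 5583) (.f (nat_lit 432) (nat_lit 527) (nat_lit 5551) (.d (nat_lit 433) (nat_lit 401) (nat_lit 6544) (nat_lit 465) (nat_lit 6576)))) (.a (.f (nat_lit 431) (nat_lit 463) (nat_lit 7599) (.f (nat_lit 432) (nat_lit 399) (nat_lit 7567) (.d (nat_lit 433) (nat_lit 401) (nat_lit 6544) (nat_lit 465) (nat_lit 6576)))) (.a (.f (nat_lit 431) (nat_lit 463) (nat_lit 7599) (.f (nat_lit 432) (nat_lit 399) (nat_lit 7567) (.d (nat_lit 559) (nat_lit 527) (nat_lit 5551) (nat_lit 591) (nat_lit 5583)))) s49829)))) (.a (.p (nat_lit 592) (.a (.f (nat_lit 623) (nat_lit 591) (nat_lit 5615) (.f (nat_lit 624) (nat_lit 655) (nat_lit 5647) (.d (nat_lit 625) (nat_lit 593) (nat_lit 4592) (nat_lit 657) (nat_lit 4624)))) (.a (.f (nat_lit 591) (nat_lit 623) (nat_lit 5615) (.p (nat_lit 590) (.a (.f (nat_lit 593) (nat_lit 625) (nat_lit 4592) (.d (nat_lit 561) (nat_lit 562) (nat_lit 2606) (nat_lit 589) (nat_lit 2605))) (.a (.f (nat_lit 593) (nat_lit 625) (nat_lit 4592) (.f (nat_lit 558) (nat_lit 557) (nat_lit 3629) (.f (nat_lit 559) (nat_lit 594) (nat_lit 3630) (.f (nat_lit 622) (nat_lit 621) (nat_lit 1613) (.d (nat_lit 495) (nat_lit 463) (nat_lit 7631) (nat_lit 527) (nat_lit 5614)))))) (.f (nat_lit 589) (nat_lit 561) (nat_lit 2605) (.f (nat_lit 588) (nat_lit 559) (nat_lit 2604) (.d (nat_lit 620) (nat_lit 619) (nat_lit 1611) (nat_lit 621) (nat_lit 1612)))))))) (.a (.f (nat_lit 495) (nat_lit 463) (nat_lit 7631) (.f (nat_lit 624) (nat_lit 527) (nat_lit 7663) (.d (nat_lit 625) (nat_lit 593) (nat_lit 4592) (nat_lit 657) (nat_lit 4624)))) (.f (nat_lit 623) (nat_lit 591) (nat_lit 5615) (.f (nat_lit 624) (nat_lit 655) (nat_lit 5647) (.d (nat_lit 495) (nat_lit 463) (nat_lit 7631) (nat_lit 527) (nat_lit 7663)))))))) (.a (.p (nat_lit 592) (.a (.f (nat_lit 623) (nat_lit 591) (nat_lit 5615) (.f (nat_lit 624) (nat_lit 655) (nat_lit 5647) (.d (nat_lit 625) (nat_lit 593) (nat_lit 4592) (nat_lit 657) (nat_lit 4624)))) (.a (.f (nat_lit 593) (nat_lit 625) (nat_lit 4592) (.f (nat_lit 464) (nat_lit 561) (nat_lit 4560) (.d (nat_lit 465) (nat_lit 433) (nat_lit 6576) (nat_lit 497) (nat_lit 6608)))) (.f (nat_lit 623) (nat_lit 591) (nat_lit 5615) (.f (nat_lit 624) (nat_lit 655) (nat_lit 5647) (.d (nat_lit 495) (nat_lit 463) (nat_lit 7631) (nat_lit 527) (nat_lit 7663))))))) (.p (nat_lit 592) (.a (.f (nat_lit 593) (nat_lit 625) (nat_lit 4592) (.f (nat_lit 464) (nat_lit 561) (nat_lit 4560) (.d (nat_lit 465) (nat_lit 433) (nat_lit 6576) (nat_lit 497) (nat_lit 6608)))) (.a (.f (nat_lit 495) (nat_lit 463) (nat_lit 7631) (.f (nat_lit 624) (nat_lit 527) (nat_lit 7663) (.d (nat_lit 625) (nat_lit 593) (nat_lit 4592) (nat_lit 657) (nat_lit 4624)))) (.f (nat_lit 495) (nat_lit 463) (nat_lit 7631) (.f (nat_lit 527) (nat_lit 624) (nat_lit 7663) (.f (nat_lit 497) (nat_lit 465) (nat_lit 6608) (.d (nat_lit 526) (nat_lit 498) (nat_lit 1518) (nat_lit 525) (nat_lit 2541))))))))))))) (.a s105866 (.a (.p (nat_lit 496) (.a (.p (nat_lit 592) (.a (.f (nat_lit 591) (nat_lit 623) (nat_lit 5615) (.f (nat_lit 559) (nat_lit 464) (nat_lit 5583) (.f (nat_lit 593) (nat_lit 625) (nat_lit 4592) (.d (nat_lit 594) (nat_lit 558) (nat_lit 3630) (nat_lit 595) (nat_lit 3631))))) (.a (.f (nat_lit 495) (nat_lit 463) (nat_lit 7631) (.f (nat_lit 624) (nat_lit 527) (nat_lit 7663) (.d (nat_lit 623) (nat_lit 591) (nat_lit 5615) (nat_lit 655) (nat_lit 5647)))) (.f (nat_lit 495) (nat_lit 463) (nat_lit 7631) (.f (nat_lit 497) (nat_lit 465) (nat_lit 6608) (.f (nat_lit 527) (nat_lit 624) (nat_lit 7663) (.d (nat_lit 526) (nat_lit 498) (nat_lit 1518) (nat_lit 525) (nat_lit 2541)))))))) (.a s33906 (.a (.p (nat_lit 592) (.a (.f (nat_lit 495) (nat_lit 463) (nat_lit 7631) (.f (nat_lit 624) (nat_lit 527) (nat_lit 7663) (.d (nat_lit 623) (nat_lit 591) (nat_lit 5615) (nat_lit 655) (nat_lit 5647)))) (.a (.f (nat_lit 497) (nat_lit 465) (nat_lit 6608) (.p (nat_lit 498) (.a (.f (nat_lit 495) (nat_lit 463) (nat_lit 7631) (.d (nat_lit 527) (nat_lit 499) (nat_lit 1519) (nat_lit 526) (nat_lit 1518))) (.a (.f (nat_lit 499) (nat_lit 527) (nat_lit 1519) (.f (nat_lit 532) (nat_lit 531) (nat_lit 496) (.f (nat_lit 500) (nat_lit 533) (nat_lit 497) (.d (nat_lit 468) (nat_lit 467) (nat_lit 2512) (nat_lit 469) (nat_lit 2513))))) (.a (.f (nat_lit 495) (nat_lit 463) (nat_lit 7631) (.f (nat_lit 467) (nat_lit 466) (nat_lit 2511) (.f (nat_lit 499) (nat_lit 468) (nat_lit 2512) (.d (nat_lit 531) (nat_lit 530) (nat_lit 495) (nat_lit 532) (nat_lit 496))))) (.f (nat_lit 495) (nat_lit 463) (nat_lit 7631) (.f (nat_lit 526) (nat_lit 527) (nat_lit 1518) (.f (nat_lit 494) (nat_lit 525) (nat_lit 1517) (.f (nat_lit 461) (nat_lit 462) (nat_lit 3533) (.f (nat_lit 493) (nat_lit 460) (nat_lit 3532) (.f (nat_lit 593) (nat_lit 625) (nat_lit 4592) (.f (nat_lit 591) (nat_lit 623) (nat_lit 5615) (.f (nat_lit 558) (nat_lit 590) (nat_lit 7629) (.d (nat_lit 559) (nat_lit 557) (nat_lit 557) (nat_lit 594) (nat_lit 3630))))))))))))))) (.a (.f (nat_lit 623) (nat_lit 591) (nat_lit 5615) (.f (nat_lit 624) (nat_lit 655) (nat_lit 5647) (.d (nat_lit 625) (nat_lit 593) (nat_lit 4592) (nat_lit 657) (nat_lit 4624)))) (.f (nat_lit 495) (nat_lit 463) (nat_lit 7631) (.f (nat_lit 497) (nat_lit 465) (nat_lit 6608) (.f (nat_lit 527) (nat_lit 624) (nat_lit 7663) (.d (nat_lit 526) (nat_lit 498) (nat_lit 1518) (nat_lit 525) (nat_lit 2541))))))))) (.a (.p (nat_lit 592) (.a (.f (nat_lit 591) (nat_lit 623) (nat_lit 5615) (.f (nat_lit 559) (nat_lit 464) (nat_lit 5583) (.f (nat_lit 593) (nat_lit 625) (nat_lit 4592) (.d (nat_lit 594) (nat_lit 558) (nat_lit 3630) (nat_lit 595) (nat_lit 3631))))) (.a (.f (nat_lit 623) (nat_lit 591) (nat_lit 5615) (.f (nat_lit 624) (nat_lit 655) (nat_lit 5647) (.d (nat_lit 625) (nat_lit 593) (nat_lit 4592) (nat_lit 657) (nat_lit 4624)))) (.a (.f (nat_lit 625) (nat_lit 593) (nat_lit 4592) (.f (nat_lit 624) (nat_lit 657) (nat_lit 4624) (.f (nat_lit 655) (nat_lit 623) (nat_lit 5647) (.f (nat_lit 656) (nat_lit 687) (nat_lit 5679) (.d (nat_lit 527) (nat_lit 495) (nat_lit 7663) (nat_lit 559) (nat_lit 7695)))))) (.f (nat_lit 465) (nat_lit 497) (nat_lit 6608) (.f (nat_lit 464) (nat_lit 433) (nat_lit 6576) (.f (nat_lit 559) (nat_lit 591) (nat_lit 5583) (.f (nat_lit 527) (nat_lit 432) (nat_lit 5551) (.d (nat_lit 624) (nat_lit 495) (nat_lit 7663) (nat_lit 656) (nat_lit 7695)))))))))) (.a (.p (nat_lit 464) (.a (.f (nat_lit 559) (nat_lit 591) (nat_lit 5583) (.f (nat_lit 432) (nat_lit 527) (nat_lit 5551) (.d (nat_lit 433) (nat_lit 401) (nat_lit 6544) (nat_lit 465) (nat_lit 6576)))) (.a (.f (nat_lit 431) (nat_lit 463) (nat_lit 7599) (.f (nat_lit 432) (nat_lit 399) (nat_lit 7567) (.d (nat_lit 433) (nat_lit 401) (nat_lit 6544) (nat_lit 465) (nat_lit 6576)))) (.a (.f (nat_lit 431) (nat_lit 463) (nat_lit 7599) (.f (nat_lit 432) (nat_lit 399) (nat_lit 7567) (.d (nat_lit 559) (nat_lit 527) (nat_lit 5551) (nat_lit 591) (nat_lit 5583)))) (.f (nat_lit 591) (nat_lit 559) (nat_lit 5583) (.f (nat_lit 592) (nat_lit 623) (nat_lit 5615) (.d (nat_lit 465) (nat_lit 433) (nat_lit 6576) (nat_lit 497) (nat_lit 6608)))))))) (.a (.p (nat_lit 464) (.a (.f (nat_lit 431) (nat_lit 463) (nat_lit 7599) (.f (nat_lit 432) (nat_lit 399) (nat_lit 7567) (.d (nat_lit 433) (nat_lit 401) (nat_lit 6544) (nat_lit 465) (nat_lit 6576)))) (.a (.f (nat_lit 465) (nat_lit 433) (nat_lit 6576) (.f (nat_lit 592) (nat_lit 497) (nat_lit 6608) (.f (nat_lit 625) (nat_lit 593) (nat_lit 4592) (.f (nat_lit 624) (nat_lit 657) (nat_lit 4624) (.f (nat_lit 655) (nat_lit 623) (nat_lit 5647) (.f (nat_lit 656) (nat_lit 687) (nat_lit 5679) (.d (nat_lit 527) (nat_lit 495) (nat_lit 7663) (nat_lit 559) (nat_lit 7695)))))))) (.a (.f (nat_lit 431) (nat_lit 463) (nat_lit 7599) (.f (nat_lit 432) (nat_lit 399) (nat_lit 7567) (.f (nat_lit 401) (nat_lit 433) (nat_lit 6544) (.f (nat_lit 400) (nat_lit 369) (nat_lit 6512) (.d (nat_lit 527) (nat_lit 495) (nat_lit 5519) (nat_lit 559) (nat_lit 5551)))))) (.f (nat_lit 431) (nat_lit 463) (nat_lit 7599) (.f (nat_lit 432) (nat_lit 399) (nat_lit 7567) (.f (nat_lit 527) (nat_lit 559) (nat_lit 5551) (.f (nat_lit 495) (nat_lit 400) (nat_lit 5519) (.f (nat_lit 592) (nat_lit 624) (nat_lit 7663) (.f (nat_lit 497) (nat_lit 465) (nat_lit 6608) (.d (nat_lit 526) (nat_lit 498) (nat_lit 1518) (nat_lit 525) (nat_lit 2541)))))))))))) (.a (.p (nat_lit 592) (.a (.f (nat_lit 495) (nat_lit 463) (nat_lit 7631) (.f (nat_lit 624) (nat_lit 527) (nat_lit 7663) (.d (nat_lit 623) (nat_lit 591) (nat_lit 5615) (nat_lit 655) (nat_lit 5647)))) (.a (.f (nat_lit 463) (nat_lit 495) (nat_lit 7631) (.f (nat_lit 464) (nat_lit 431) (nat_lit 7599) (.d (nat_lit 465) (nat_lit 433) (nat_lit 6576) (nat_lit 497) (nat_lit 6608)))) (.f (nat_lit 623) (nat_lit 591) (nat_lit 5615) (.f (nat_lit 624) (nat_lit 655) (nat_lit 5647) (.d (nat_lit 625) (nat_lit 593) (nat_lit 4592) (nat_lit 657) (nat_lit 4624))))))) (.a (.p (nat_lit 592) (.a (.f (nat_lit 591) (nat_lit 623) (nat_lit 5615) (.f (nat_lit 559) (nat_lit 464) (nat_lit 5583) (.f (nat_lit 593) (nat_lit 625) (nat_lit 4592) (.d (nat_lit 594) (nat_lit 558) (nat_lit 3630) (nat_lit 595) (nat_lit 3631))))) (.a (.f (nat_lit 623) (nat_lit 591) (nat_lit 5615) (.f (nat_lit 624) (nat_lit 655) (nat_lit 5647) (.d (nat_lit 625) (nat_lit 593) (nat_lit 4592) (nat_lit 657) (nat_lit 4624)))) (.f (nat_lit 463) (nat_lit 495) (nat_lit 7631) (.f (nat_lit 464) (nat_lit 431) (nat_lit 7599) (.d (nat_lit 465) (nat_lit 433) (nat_lit 6576) (nat_lit 497) (nat_lit 6608))))))) (.p (nat_lit 592) (.a (.f (nat_lit 591) (nat_lit 623) (nat_lit 5615) (.f (nat_lit 559) (nat_lit 464) (nat_lit 5583) (.f (nat_lit 593) (nat_lit 625) (nat_lit 4592) (.d (nat_lit 594) (nat_lit 558) (nat_lit 3630) (nat_lit 595) (nat_lit 3631))))) (.a (.f (nat_lit 495) (nat_lit 463) (nat_lit 7631) (.f (nat_lit 624) (nat_lit 527) (nat_lit 7663) (.d (nat_lit 623) (nat_lit 591) (nat_lit 5615) (nat_lit 655) (nat_lit 5647)))) (.a (.f (nat_lit 625) (nat_lit 593) (nat_lit 4592) (.f (nat_lit 624) (nat_lit 657) (nat_lit 4624) (.f (nat_lit 655) (nat_lit 623) (nat_lit 5647) (.f (nat_lit 656) (nat_lit 687) (nat_lit 5679) (.d (nat_lit 527) (nat_lit 495) (nat_lit 7663) (nat_lit 559) (nat_lit 7695)))))) (.f (nat_lit 495) (nat_lit 463) (nat_lit 7631) (.f (nat_lit 624) (nat_lit 527) (nat_lit 7663) (.d (nat_lit 625) (nat_lit 593) (nat_lit 4592) (nat_lit 657) (nat_lit 4624))))))))))))))))) (.a s81551 (.a s56319 (.a s39642 (.a (.p (nat_lit 496) (.a (.p (nat_lit 592) (.a (.f (nat_lit 593) (nat_lit 625) (nat_lit 4592) (.f (nat_lit 464) (nat_lit 561) (nat_lit 4560) (.d (nat_lit 591) (nat_lit 559) (nat_lit 5583) (nat_lit 623) (nat_lit 5615)))) (.a (.f (nat_lit 495) (nat_lit 463) (nat_lit 7631) (.f (nat_lit 624) (nat_lit 527) (nat_lit 7663) (.d (nat_lit 623) (nat_lit 591) (nat_lit 5615) (nat_lit 655) (nat_lit 5647)))) (.f (nat_lit 593) (nat_lit 625) (nat_lit 4592) (.f (nat_lit 464) (nat_lit 561) (nat_lit 4560) (.d (nat_lit 465) (nat_lit 433) (nat_lit 6576) (nat_lit 497) (nat_lit 6608))))))) (.a s33906 (.a (.p (nat_lit 592) (.a (.f (nat_lit 495) (nat_lit 463) (nat_lit 7631) (.f (nat_lit 624) (nat_lit 527) (nat_lit 7663) (.d (nat_lit 623) (nat_lit 591) (nat_lit 5615) (nat_lit 655) (nat_lit 5647)))) (.a (.f (nat_lit 497) (nat_lit 465) (nat_lit 6608) (.p (nat_lit 498) (.a (.f (nat_lit 495) (nat_lit 463) (nat_lit 7631) (.d (nat_lit 527) (nat_lit 499) (nat_lit 1519) (nat_lit 526) (nat_lit 1518))) (.a (.f (nat_lit 495) (nat_lit 463) (nat_lit 7631) (.f (nat_lit 467) (nat_lit 466) (nat_lit 2511) (.f (nat_lit 499) (nat_lit 468) (nat_lit 2512) (.d (nat_lit 531) (nat_lit 530) (nat_lit 495) (nat_lit 532) (nat_lit 496))))) (.a (.f (nat_lit 499) (nat_lit 527) (nat_lit 1519) (.f (nat_lit 532) (nat_lit 531) (nat_lit 496) (.f (nat_lit 500) (nat_lit 533) (nat_lit 497) (.d (nat_lit 468) (nat_lit 467) (nat_lit 2512) (nat_lit 469) (nat_lit 2513))))) (.f (nat_lit 495) (nat_lit 463) (nat_lit 7631) (.f (nat_lit 591) (nat_lit 623) (nat_lit 5615) (.f (nat_lit 593) (nat_lit 625) (nat_lit 4592) (.f (nat_lit 466) (nat_lit 467) (nat_lit 2511) (.f (nat_lit 530) (nat_lit 531) (nat_lit 495) (.f (nat_lit 562) (nat_lit 561) (nat_lit 5585) (.d (nat_lit 563) (nat_lit 594) (nat_lit 2607) (nat_lit 595) (nat_lit 4562))))))))))))) (.a (.f (nat_lit 623) (nat_lit 591) (nat_lit 5615) (.f (nat_lit 624) (nat_lit 655) (nat_lit 5647) (.d (nat_lit 625) (nat_lit 593) (nat_lit 4592) (nat_lit 657) (nat_lit 4624)))) (.f (nat_lit 495) (nat_lit 463) (nat_lit 7631) (.f (nat_lit 497) (nat_lit 465) (nat_lit 6608) (.f (nat_lit 527) (nat_lit 624) (nat_lit 7663) (.d (nat_lit 526) (nat_lit 498) (nat_lit 1518) (nat_lit 525) (nat_lit 2541))))))))) (.a (.p (nat_lit 592) (.a (.f (nat_lit 593) (nat_lit 625) (nat_lit 4592) (.f (nat_lit 464) (nat_lit 561) (nat_lit 4560) (.d (nat_lit 591) (nat_lit 559) (nat_lit 5583) (nat_lit 623) (nat_lit 5615)))) (.a (.f (nat_lit 623) (nat_lit 591) (nat_lit 5615) (.f (nat_lit 624) (nat_lit 655) (nat_lit 5647) (.d (nat_lit 625) (nat_lit 593) (nat_lit 4592) (nat_lit 657) (nat_lit 4624)))) (.a (.f (nat_lit 591) (nat_lit 623) (nat_lit 5615) (.f (nat_lit 464) (nat_lit 559) (nat_lit 5583) (.d (nat_lit 465) (nat_lit 433) (nat_lit 6576) (nat_lit 497) (nat_lit 6608)))) (.f (nat_lit 593) (nat_lit 625) (nat_lit 4592) (.f (nat_lit 464) (nat_lit 561) (nat_lit 4560) (.d (nat_lit 465) (nat_lit 433) (nat_lit 6576) (nat_lit 497) (nat_lit 6608)))))))) (.a (.p (nat_lit 592) (.a (.f (nat_lit 593) (nat_lit 625) (nat_lit 4592) (.f (nat_lit 464) (nat_lit 561) (nat_lit 4560) (.d (nat_lit 465) (nat_lit 433) (nat_lit 6576) (nat_lit 497) (nat_lit 6608)))) (.a (.f (nat_lit 495) (nat_lit 463) (nat_lit 7631) (.f (nat_lit 497) (nat_lit 465) (nat_lit 6608) (.f (nat_lit 527) (nat_lit 624) (nat_lit 7663) (.d (nat_lit 526) (nat_lit 498) (nat_lit 1518) (nat_lit 525) (nat_lit 2541))))) (.f (nat_lit 593) (nat_lit 625) (nat_lit 4592) (.f (nat_lit 464) (nat_lit 561) (nat_lit 4560) (.d (nat_lit 463) (nat_lit 431) (nat_lit 7599) (nat_lit 495) (nat_lit 7631))))))) (.p (nat_lit 592) (.a (.f (nat_lit 593) (nat_lit 625) (nat_lit 4592) (.f (nat_lit 464) (nat_lit 561) (nat_lit 4560) (.d (nat_lit 591) (nat_lit 559) (nat_lit 5583) (nat_lit 623) (nat_lit 5615)))) (.a (.f (nat_lit 495) (nat_lit 463) (nat_lit 7631) (.f (nat_lit 624) (nat_lit 527) (nat_lit 7663) (.d (nat_lit 623) (nat_lit 591) (nat_lit 5615) (nat_lit 655) (nat_lit 5647)))) (.f (nat_lit 593) (nat_lit 625) (nat_lit 4592) (.f (nat_lit 464) (nat_lit 561) (nat_lit 4560) (.d (nat_lit 463) (nat_lit 431) (nat_lit 7599) (nat_lit 495) (nat_lit 7631))))))))))))) (.a s102125 (.a s111525 (.a (.p (nat_lit 496) (.a (.p (nat_lit 464) (.a (.f (nat_lit 463) (nat_lit 431) (nat_lit 7599) (.f (nat_lit 465) (nat_lit 433) (nat_lit 6576) (.d (nat_lit 592) (nat_lit 495) (nat_lit 7631) (nat_lit 497) (nat_lit 6608)))) (.a (.f (nat_lit 559) (nat_lit 591) (nat_lit 5583) (.f (nat_lit 432) (nat_lit 527) (nat_lit 5551) (.d (nat_lit 433) (nat_lit 401) (nat_lit 6544) (nat_lit 465) (nat_lit 6576)))) (.f (nat_lit 559) (nat_lit 591) (nat_lit 5583) (.f (nat_lit 527) (nat_lit 432) (nat_lit 5551) (.f (nat_lit 561) (nat_lit 593) (nat_lit 4560) (.d (nat_lit 562) (nat_lit 526) (nat_lit 3598) (nat_lit 563) (nat_lit 3599)))))))) (.a (.p (nat_lit 464) (.a (.f (nat_lit 559) (nat_lit 591) (nat_lit 5583) (.f (nat_lit 432) (nat_lit 527) (nat_lit 5551) (.d (nat_lit 433) (nat_lit 401) (nat_lit 6544) (nat_lit 465) (nat_lit 6576)))) (.a (.f (nat_lit 433) (nat_lit 465) (nat_lit 6576) (.f (nat_lit 432) (nat_lit 401) (nat_lit 6544) (.d (nat_lit 431) (nat_lit 399) (nat_lit 7567) (nat_lit 463) (nat_lit 7599)))) (.a (.f (nat_lit 559) (nat_lit 591) (nat_lit 5583) (.f (nat_lit 527) (nat_lit 432) (nat_lit 5551) (.f (nat_lit 561) (nat_lit 593) (nat_lit 4560) (.d (nat_lit 562) (nat_lit 526) (nat_lit 3598) (nat_lit 563) (nat_lit 3599))))) s33836)))) (.a (.p (nat_lit 592) (.a (.p (nat_lit 561) (.a (.f (nat_lit 591) (nat_lit 623) (nat_lit 5615) (.f (nat_lit 593) (nat_lit 625) (nat_lit 4592) (.d (nat_lit 590) (nat_lit 562) (nat_lit 2606) (nat_lit 589) (nat_lit 2605)))) (.a (.p (nat_lit 527) (.a (.f (nat_lit 526) (nat_lit 525) (nat_lit 525) (.d (nat_lit 562) (nat_lit 559) (nat_lit 3598) (nat_lit 563) (nat_lit 3599))) (.a (.f (nat_lit 495) (nat_lit 463) (nat_lit 7631) (.f (nat_lit 526) (nat_lit 525) (nat_lit 525) (.d (nat_lit 497) (nat_lit 465) (nat_lit 6608) (nat_lit 498) (nat_lit 1518)))) (.f (nat_lit 593) (nat_lit 625) (nat_lit 4592) (.f (nat_lit 495) (nat_lit 463) (nat_lit 7631) (.f (nat_lit 497) (nat_lit 465) (nat_lit 6608) (.f (nat_lit 498) (nat_lit 499) (nat_lit 1519) (.f (nat_lit 562) (nat_lit 563) (nat_lit 3599) (.d (nat_lit 530) (nat_lit 466) (nat_lit 5585) (nat_lit 531) (nat_lit 495)))))))))) (.a (.f (nat_lit 591) (nat_lit 623) (nat_lit 5615) (.f (nat_lit 562) (nat_lit 563) (nat_lit 1583) (.d (nat_lit 590) (nat_lit 559) (nat_lit 1582) (nat_lit 589) (nat_lit 2605)))) (.f (nat_lit 593) (nat_lit 625) (nat_lit 4592) (.f (nat_lit 591) (nat_lit 623) (nat_lit 5615) (.f (nat_lit 590) (nat_lit 589) (nat_lit 2605) (.f (nat_lit 558) (nat_lit 557) (nat_lit 3629) (.f (nat_lit 559) (nat_lit 594) (nat_lit 558) (.f (nat_lit 622) (nat_lit 621) (nat_lit 1613) (.d (nat_lit 495) (nat_lit 463) (nat_lit 7631) (nat_lit 527) (nat_lit 5614)))))))))))) (.a (.f (nat_lit 591) (nat_lit 623) (nat_lit 5615) (.p (nat_lit 562) (.a (.f (nat_lit 593) (nat_lit 625) (nat_lit 4592) (.d (nat_lit 563) (nat_lit 561) (nat_lit 1583) (nat_lit 594) (nat_lit 2607))) (.a (.f (nat_lit 593) (nat_lit 625) (nat_lit 4592) (.f (nat_lit 594) (nat_lit 563) (nat_lit 2607) (.d (nat_lit 559) (nat_lit 558) (nat_lit 3630) (nat_lit 595) (nat_lit 3631)))) (.a (.f (nat_lit 561) (nat_lit 563) (nat_lit 1583) (.d (nat_lit 590) (nat_lit 559) (nat_lit 1582) (nat_lit 589) (nat_lit 2605))) (.f (nat_lit 593) (nat_lit 625) (nat_lit 4592) (.f (nat_lit 590) (nat_lit 561) (nat_lit 2606) (.f (nat_lit 558) (nat_lit 557) (nat_lit 3629) (.f (nat_lit 559) (nat_lit 594) (nat_lit 3630) (.f (nat_lit 589) (nat_lit 588) (nat_lit 2604) (.d (nat_lit 621) (nat_lit 620) (nat_lit 1612) (nat_lit 622) (nat_lit 1613)))))))))))) (.a (.f (nat_lit 497) (nat_lit 465) (nat_lit 6608) (.p (nat_lit 498) (.a (.f (nat_lit 495) (nat_lit 463) (nat_lit 7631) (.f (nat_lit 531) (nat_lit 530) (nat_lit 495) (.f (nat_lit 499) (nat_lit 532) (nat_lit 496) (.d (nat_lit 467) (nat_lit 466) (nat_lit 2511) (nat_lit 468) (nat_lit 2512))))) (.a (.f (nat_lit 499) (nat_lit 527) (nat_lit 1519) (.f (nat_lit 532) (nat_lit 531) (nat_lit 496) (.f (nat_lit 500) (nat_lit 533) (nat_lit 497) (.d (nat_lit 468) (nat_lit 467) (nat_lit 2512) (nat_lit 469) (nat_lit 2513))))) (.f (nat_lit 495) (nat_lit 463) (nat_lit 7631) (.f (nat_lit 526) (nat_lit 527) (nat_lit 1518) (.f (nat_lit 494) (nat_lit 525) (nat_lit 1517) (.f (nat_lit 461) (nat_lit 462) (nat_lit 3533) (.f (nat_lit 493) (nat_lit 460) (nat_lit 3532) (.f (nat_lit 593) (nat_lit 625) (nat_lit 4592) (.f (nat_lit 558) (nat_lit 590) (nat_lit 7629) (.f (nat_lit 559) (nat_lit 557) (nat_lit 557) (.d (nat_lit 594) (nat_lit 561) (nat_lit 558) (nat_lit 595) (nat_lit 3631)))))))))))))) (.a (.f (nat_lit 497) (nat_lit 465) (nat_lit 6608) (.p (nat_lit 498) (.a (.f (nat_lit 495) (nat_lit 463) (nat_lit 7631) (.f (nat_lit 531) (nat_lit 530) (nat_lit 495) (.f (nat_lit 499) (nat_lit 532) (nat_lit 496) (.d (nat_lit 467) (nat_lit 466) (nat_lit 2511) (nat_lit 468) (nat_lit 2512))))) (.a (.f (nat_lit 499) (nat_lit 527) (nat_lit 1519) (.f (nat_lit 532) (nat_lit 531) (nat_lit 496) (.f (nat_lit 500) (nat_lit 533) (nat_lit 497) (.d (nat_lit 468) (nat_lit 467) (nat_lit 2512) (nat_lit 469) (nat_lit 2513))))) (.f (nat_lit 495) (nat_lit 463) (nat_lit 7631) (.f (nat_lit 526) (nat_lit 527) (nat_lit 1518) (.f (nat_lit 494) (nat_lit 525) (nat_lit 1517) (.f (nat_lit 461) (nat_lit 462) (nat_lit 3533) (.f (nat_lit 493) (nat_lit 460) (nat_lit 3532) (.f (nat_lit 593) (nat_lit 625) (nat_lit 4592) (.f (nat_lit 591) (nat_lit 623) (nat_lit 5615) (.f (nat_lit 558) (nat_lit 590) (nat_lit 7629) (.d (nat_lit 559) (nat_lit 557) (nat_lit 557) (nat_lit 594) (nat_lit 3630)))))))))))))) (.a (.f (nat_lit 497) (nat_lit 465) (nat_lit 6608) (.p (nat_lit 498) (.a (.f (nat_lit 495) (nat_lit 463) (nat_lit 7631) (.f (nat_lit 531) (nat_lit 530) (nat_lit 495) (.f (nat_lit 499) (nat_lit 532) (nat_lit 496) (.d (nat_lit 467) (nat_lit 466) (nat_lit 2511) (nat_lit 468) (nat_lit 2512))))) (.a (.f (nat_lit 499) (nat_lit 527) (nat_lit 1519) (.f (nat_lit 532) (nat_lit 531) (nat_lit 496) (.f (nat_lit 500) (nat_lit 533) (nat_lit 497) (.d (nat_lit 468) (nat_lit 467) (nat_lit 2512) (nat_lit 469) (nat_lit 2513))))) (.f (nat_lit 495) (nat_lit 463) (nat_lit 7631) (.f (nat_lit 526) (nat_lit 527) (nat_lit 1518) (.f (nat_lit 494) (nat_lit 525) (nat_lit 1517) (.f (nat_lit 461) (nat_lit 462) (nat_lit 3533) (.f (nat_lit 493) (nat_lit 460) (nat_lit 3532) (.f (nat_lit 591) (nat_lit 623) (nat_lit 5615) (.f (nat_lit 590) (nat_lit 558) (nat_lit 7629) (.f (nat_lit 589) (nat_lit 561) (nat_lit 2605) (.f (nat_lit 588) (nat_lit 559) (nat_lit 2604) (.d (nat_lit 620) (nat_lit 619) (nat_lit 1611) (nat_lit 621) (nat_lit 1612))))))))))))))) (.a (.f (nat_lit 497) (nat_lit 465) (nat_lit 6608) (.p (nat_lit 498) (.a (.f (nat_lit 495) (nat_lit 463) (nat_lit 7631) (.f (nat_lit 531) (nat_lit 530) (nat_lit 495) (.f (nat_lit 499) (nat_lit 532) (nat_lit 496) (.d (nat_lit 467) (nat_lit 466) (nat_lit 2511) (nat_lit 468) (nat_lit 2512))))) (.a (.f (nat_lit 499) (nat_lit 527) (nat_lit 1519) (.f (nat_lit 532) (nat_lit 531) (nat_lit 496) (.f (nat_lit 500) (nat_lit 533) (nat_lit 497) (.d (nat_lit 468) (nat_lit 467) (nat_lit 2512) (nat_lit 469) (nat_lit 2513))))) (.f (nat_lit 495) (nat_lit 463) (nat_lit 7631) (.f (nat_lit 526) (nat_lit 527) (nat_lit 1518) (.f (nat_lit 494) (nat_lit 525) (nat_lit 1517) (.f (nat_lit 461) (nat_lit 462) (nat_lit 3533) (.f (nat_lit 493) (nat_lit 460) (nat_lit 3532) (.f (nat_lit 591) (nat_lit 623) (nat_lit 5615) (.f (nat_lit 590) (nat_lit 558) (nat_lit 7629) (.f (nat_lit 593) (nat_lit 625) (nat_lit 4592) (.d (nat_lit 561) (nat_lit 562) (nat_lit 2606) (nat_lit 589) (nat_lit 2605)))))))))))))) (.f (nat_lit 497) (nat_lit 465) (nat_lit 6608) (.p (nat_lit 498) (.a (.f (nat_lit 495) (nat_lit 463) (nat_lit 7631) (.f (nat_lit 531) (nat_lit 530) (nat_lit 495) (.f (nat_lit 499) (nat_lit 532) (nat_lit 496) (.d (nat_lit 467) (nat_lit 466) (nat_lit 2511) (nat_lit 468) (nat_lit 2512))))) (.a (.f (nat_lit 499) (nat_lit 527) (nat_lit 1519) (.f (nat_lit 532) (nat_lit 531) (nat_lit 496) (.f (nat_lit 500) (nat_lit 533) (nat_lit 497) (.d (nat_lit 468) (nat_lit 467) (nat_lit 2512) (nat_lit 469) (nat_lit 2513))))) (.a (.f (nat_lit 495) (nat_lit 463) (nat_lit 7631) (.f (nat_lit 591) (nat_lit 623) (nat_lit 5615) (.f (nat_lit 593) (nat_lit 625) (nat_lit 4592) (.f (nat_lit 530) (nat_lit 531) (nat_lit 495) (.f (nat_lit 466) (nat_lit 467) (nat_lit 2511) (.f (nat_lit 562) (nat_lit 561) (nat_lit 5585) (.d (nat_lit 563) (nat_lit 594) (nat_lit 2607) (nat_lit 595) (nat_lit 4562)))))))) (.f (nat_lit 495) (nat_lit 463) (nat_lit 7631) (.d (nat_lit 527) (nat_lit 499) (nat_lit 1519) (nat_lit 526) (nat_lit 1518))))))))))))))) (.a (.p (nat_lit 464) (.a (.f (nat_lit 463) (nat_lit 431) (nat_lit 7599) (.f (nat_lit 465) (nat_lit 433) (nat_lit 6576) (.d (nat_lit 592) (nat_lit 495) (nat_lit 7631) (nat_lit 497) (nat_lit 6608)))) (.a (.f (nat_lit 433) (nat_lit 465) (nat_lit 6576) (.f (nat_lit 432) (nat_lit 401) (nat_lit 6544) (.d (nat_lit 431) (nat_lit 399) (nat_lit 7567) (nat_lit 463) (nat_lit 7599)))) (.a (.f (nat_lit 465) (nat_lit 433) (nat_lit 6576) (.f (nat_lit 592) (nat_lit 497) (nat_lit 6608) (.d (nat_lit 591) (nat_lit 559) (nat_lit 5583) (nat_lit 623) (nat_lit 5615)))) (.f (nat_lit 463) (nat_lit 431) (nat_lit 7599) (.f (nat_lit 592) (nat_lit 495) (nat_lit 7631) (.d (nat_lit 591) (nat_lit 559) (nat_lit 5583) (nat_lit 623) (nat_lit 5615)))))))) (.a (.p (nat_lit 464) (.a (.f (nat_lit 463) (nat_lit 431) (nat_lit 7599) (.f (nat_lit 465) (nat_lit 433) (nat_lit 6576) (.d (nat_lit 592) (nat_lit 495) (nat_lit 7631) (nat_lit 497) (nat_lit 6608)))) (.a (.f (nat_lit 433) (nat_lit 465) (nat_lit 6576) (.f (nat_lit 432) (nat_lit 401) (nat_lit 6544) (.d (nat_lit 431) (nat_lit 399) (nat_lit 7567) (nat_lit 463) (nat_lit 7599)))) (.a (.f (nat_lit 465) (nat_lit 433) (nat_lit 6576) (.f (nat_lit 592) (nat_lit 497) (nat_lit 6608) (.d (nat_lit 593) (nat_lit 561) (nat_lit 4560) (nat_lit 625) (nat_lit 4592)))) (.f (nat_lit 463) (nat_lit 431) (nat_lit 7599) (.f (nat_lit 592) (nat_lit 495) (nat_lit 7631) (.d (nat_lit 593) (nat_lit 561) (nat_lit 4560) (nat_lit 625) (nat_lit 4592)))))))) (.a (.p (nat_lit 464) (.a (.f (nat_lit 559) (nat_lit 591) (nat_lit 5583) (.f (nat_lit 432) (nat_lit 527) (nat_lit 5551) (.d (nat_lit 433) (nat_lit 401) (nat_lit 6544) (nat_lit 465) (nat_lit 6576)))) (.a (.f (nat_lit 465) (nat_lit 433) (nat_lit 6576) (.f (nat_lit 592) (nat_lit 497) (nat_lit 6608) (.d (nat_lit 591) (nat_lit 559) (nat_lit 5583) (nat_lit 623) (nat_lit 5615)))) (.a (.f (nat_lit 465) (nat_lit 433) (nat_lit 6576) (.f (nat_lit 592) (nat_lit 497) (nat_lit 6608) (.d (nat_lit 593) (nat_lit 561) (nat_lit 4560) (nat_lit 625) (nat_lit 4592)))) (.f (nat_lit 559) (nat_lit 591) (nat_lit 5583) (.f (nat_lit 527) (nat_lit 432) (nat_lit 5551) (.f (nat_lit 561) (nat_lit 593) (nat_lit 4560) (.d (nat_lit 562) (nat_lit 526) (nat_lit 3598) (nat_lit 563) (nat_lit 3599))))))))) (.a (.p (nat_lit 464) (.a (.f (nat_lit 559) (nat_lit 591) (nat_lit 5583) (.f (nat_lit 432) (nat_lit 527) (nat_lit 5551) (.d (nat_lit 433) (nat_lit 401) (nat_lit 6544) (nat_lit 465) (nat_lit 6576)))) (.a (.f (nat_lit 433) (nat_lit 465) (nat_lit 6576) (.f (nat_lit 432) (nat_lit 401) (nat_lit 6544) (.d (nat_lit 431) (nat_lit 399) (nat_lit 7567) (nat_lit 463) (nat_lit 7599)))) (.a (.f (nat_lit 559) (nat_lit 591) (nat_lit 5583) (.f (nat_lit 527) (nat_lit 432) (nat_lit 5551) (.f (nat_lit 561) (nat_lit 593) (nat_lit 4560) (.d (nat_lit 562) (nat_lit 526) (nat_lit 3598) (nat_lit 563) (nat_lit 3599))))) (.f (nat_lit 463) (nat_lit 431) (nat_lit 7599) (.f (nat_lit 592) (nat_lit 495) (nat_lit 7631) (.d (nat_lit 591) (nat_lit 559) (nat_lit 5583) (nat_lit 623) (nat_lit 5615)))))))) (.p (nat_lit 464) (.a (.f (nat_lit 559) (nat_lit 591) (nat_lit 5583) (.f (nat_lit 527) (nat_lit 432) (nat_lit 5551) (.f (nat_lit 561) (nat_lit 593) (nat_lit 4560) (.d (nat_lit 562) (nat_lit 526) (nat_lit 3598) (nat_lit 563) (nat_lit 3599))))) (.a (.f (nat_lit 463) (nat_lit 431) (nat_lit 7599) (.f (nat_lit 592) (nat_lit 495) (nat_lit 7631) (.d (nat_lit 591) (nat_lit 559) (nat_lit 5583) (nat_lit 623) (nat_lit 5615)))) (.f (nat_lit 463) (nat_lit 431) (nat_lit 7599) (.f (nat_lit 592) (nat_lit 495) (nat_lit 7631) (.d (nat_lit 593) (nat_lit 561) (nat_lit 4560) (nat_lit 625) (nat_lit 4592))))))))))))))) (.a (.p (nat_lit 592) (.a (.p (nat_lit 624) (.a (.f (nat_lit 625) (nat_lit 657) (nat_lit 4624) (.f (nat_lit 623) (nat_lit 655) (nat_lit 5647) (.d (nat_lit 496) (nat_lit 591) (nat_lit 5615) (nat_lit 593) (nat_lit 4592)))) (.a (.f (nat_lit 625) (nat_lit 657) (nat_lit 4624) (.f (nat_lit 527) (nat_lit 495) (nat_lit 7663) (.f (nat_lit 656) (nat_lit 559) (nat_lit 7695) (.f (nat_lit 593) (nat_lit 496) (nat_lit 4592) (.d (nat_lit 688) (nat_lit 561) (nat_lit 6704) (nat_lit 720) (nat_lit 6736)))))) (.f (nat_lit 527) (nat_lit 495) (nat_lit 7663) (.f (nat_lit 656) (nat_lit 559) (nat_lit 7695) (.d (nat_lit 655) (nat_lit 623) (nat_lit 5647) (nat_lit 687) (nat_lit 5679))))))) (.a (.p (nat_lit 623) (.a (.f (nat_lit 591) (nat_lit 496) (nat_lit 5615) (.d (nat_lit 655) (nat_lit 559) (nat_lit 6671) (nat_lit 624) (nat_lit 5647))) (.a (.f (nat_lit 591) (nat_lit 496) (nat_lit 5615) (.d (nat_lit 655) (nat_lit 559) (nat_lit 6671) (nat_lit 687) (nat_lit 6703))) (.a (.f (nat_lit 655) (nat_lit 624) (nat_lit 5647) (.d (nat_lit 591) (nat_lit 559) (nat_lit 6671) (nat_lit 687) (nat_lit 6703))) (.a (.f (nat_lit 624) (nat_lit 655) (nat_lit 5647) (.f (nat_lit 625) (nat_lit 657) (nat_lit 4624) (.f (nat_lit 593) (nat_lit 496) (nat_lit 4592) (.d (nat_lit 594) (nat_lit 595) (nat_lit 1615) (nat_lit 622) (nat_lit 2638))))) (.p (nat_lit 625) (.a (.d (nat_lit 496) (nat_lit 591) (nat_lit 5615) (nat_lit 593) (nat_lit 4592)) (.a (.f (nat_lit 657) (nat_lit 624) (nat_lit 4624) (.d (nat_lit 593) (nat_lit 561) (nat_lit 7696) (nat_lit 689) (nat_lit 7728))) (.f (nat_lit 624) (nat_lit 657) (nat_lit 4624) (.f (nat_lit 591) (nat_lit 496) (nat_lit 5615) (.d (nat_lit 626) (nat_lit 590) (nat_lit 3662) (nat_lit 627) (nat_lit 3663)))))))))))) (.a (.p (nat_lit 496) (.a s33845 (.a (.f (nat_lit 591) (nat_lit 623) (nat_lit 5615) (.p (nat_lit 562) (.a (.f (nat_lit 561) (nat_lit 563) (nat_lit 1583) (.d (nat_lit 590) (nat_lit 559) (nat_lit 1582) (nat_lit 589) (nat_lit 2605))) (.a (.f (nat_lit 593) (nat_lit 625) (nat_lit 4592) (.f (nat_lit 594) (nat_lit 563) (nat_lit 2607) (.d (nat_lit 559) (nat_lit 558) (nat_lit 3630) (nat_lit 595) (nat_lit 3631)))) (.a (.f (nat_lit 593) (nat_lit 625) (nat_lit 4592) (.f (nat_lit 590) (nat_lit 561) (nat_lit 2606) (.f (nat_lit 558) (nat_lit 557) (nat_lit 3629) (.f (nat_lit 559) (nat_lit 594) (nat_lit 3630) (.f (nat_lit 589) (nat_lit 588) (nat_lit 2604) (.d (nat_lit 621) (nat_lit 620) (nat_lit 1612) (nat_lit 622) (nat_lit 1613))))))) (.f (nat_lit 561) (nat_lit 563) (nat_lit 1583) (.d (nat_lit 590) (nat_lit 589) (nat_lit 2605) (nat_lit 593) (nat_lit 2606)))))))) (.a (.f (nat_lit 497) (nat_lit 465) (nat_lit 6608) (.p (nat_lit 498) (.a (.f (nat_lit 495) (nat_lit 463) (nat_lit 7631) (.d (nat_lit 527) (nat_lit 499) (nat_lit 1519) (nat_lit 526) (nat_lit 1518))) (.a (.f (nat_lit 495) (nat_lit 463) (nat_lit 7631) (.f (nat_lit 467) (nat_lit 466) (nat_lit 2511) (.f (nat_lit 499) (nat_lit 468) (nat_lit 2512) (.d (nat_lit 531) (nat_lit 530) (nat_lit 495) (nat_lit 532) (nat_lit 496))))) (.a (.f (nat_lit 499) (nat_lit 527) (nat_lit 1519) (.f (nat_lit 532) (nat_lit 531) (nat_lit 496) (.f (nat_lit 500) (nat_lit 533) (nat_lit 497) (.d (nat_lit 468) (nat_lit 467) (nat_lit 2512) (nat_lit 469) (nat_lit 2513))))) (.f (nat_lit 495) (nat_lit 463) (nat_lit 7631) (.f (nat_lit 526) (nat_lit 527) (nat_lit 1518) (.f (nat_lit 494) (nat_lit 525) (nat_lit 1517) (.f (nat_lit 461) (nat_lit 462) (nat_lit 3533) (.f (nat_lit 493) (nat_lit 460) (nat_lit 3532) (.f (nat_lit 593) (nat_lit 625) (nat_lit 4592) (.f (nat_lit 591) (nat_lit 623) (nat_lit 5615) (.f (nat_lit 558) (nat_lit 590) (nat_lit 7629) (.d (nat_lit 559) (nat_lit 557) (nat_lit 557) (nat_lit 594) (nat_lit 3630))))))))))))))) (.a (.f (nat_lit 497) (nat_lit 465) (nat_lit 6608) (.p (nat_lit 498) (.a (.f (nat_lit 495) (nat_lit 463) (nat_lit 7631) (.d (nat_lit 527) (nat_lit 499) (nat_lit 1519) (nat_lit 526) (nat_lit 1518))) (.a (.f (nat_lit 495) (nat_lit 463) (nat_lit 7631) (.f (nat_lit 467) (nat_lit 466) (nat_lit 2511) (.f (nat_lit 499) (nat_lit 468) (nat_lit 2512) (.d (nat_lit 531) (nat_lit 530) (nat_lit 495) (nat_lit 532) (nat_lit 496))))) (.a (.f (nat_lit 499) (nat_lit 527) (nat_lit 1519) (.f (nat_lit 532) (nat_lit 531) (nat_lit 496) (.f (nat_lit 500) (nat_lit 533) (nat_lit 497) (.d (nat_lit 468) (nat_lit 467) (nat_lit 2512) (nat_lit 469) (nat_lit 2513))))) (.f (nat_lit 495) (nat_lit 463) (nat_lit 7631) (.f (nat_lit 526) (nat_lit 527) (nat_lit 1518) (.f (nat_lit 494) (nat_lit 525) (nat_lit 1517) (.f (nat_lit 461) (nat_lit 462) (nat_lit 3533) (.f (nat_lit 493) (nat_lit 460) (nat_lit 3532) (.f (nat_lit 593) (nat_lit 625) (nat_lit 4592) (.f (nat_lit 558) (nat_lit 590) (nat_lit 7629) (.f (nat_lit 559) (nat_lit 557) (nat_lit 557) (.d (nat_lit 594) (nat_lit 561) (nat_lit 558) (nat_lit 595) (nat_lit 3631))))))))))))))) (.a (.f (nat_lit 497) (nat_lit 465) (nat_lit 6608) (.p (nat_lit 498) (.a (.f (nat_lit 495) (nat_lit 463) (nat_lit 7631) (.d (nat_lit 527) (nat_lit 499) (nat_lit 1519) (nat_lit 526) (nat_lit 1518))) (.a (.f (nat_lit 495) (nat_lit 463) (nat_lit 7631) (.f (nat_lit 467) (nat_lit 466) (nat_lit 2511) (.f (nat_lit 499) (nat_lit 468) (nat_lit 2512) (.d (nat_lit 531) (nat_lit 530) (nat_lit 495) (nat_lit 532) (nat_lit 496))))) (.a (.f (nat_lit 499) (nat_lit 527) (nat_lit 1519) (.f (nat_lit 532) (nat_lit 531) (nat_lit 496) (.f (nat_lit 500) (nat_lit 533) (nat_lit 497) (.d (nat_lit 468) (nat_lit 467) (nat_lit 2512) (nat_lit 469) (nat_lit 2513))))) (.f (nat_lit 495) (nat_lit 463) (nat_lit 7631) (.f (nat_lit 526) (nat_lit 527) (nat_lit 1518) (.f (nat_lit 494) (nat_lit 525) (nat_lit 1517) (.f (nat_lit 461) (nat_lit 462) (nat_lit 3533) (.f (nat_lit 493) (nat_lit 460) (nat_lit 3532) (.f (nat_lit 591) (nat_lit 623) (nat_lit 5615) (.f (nat_lit 590) (nat_lit 558) (nat_lit 7629) (.f (nat_lit 589) (nat_lit 561) (nat_lit 2605) (.f (nat_lit 588) (nat_lit 559) (nat_lit 2604) (.d (nat_lit 620) (nat_lit 619) (nat_lit 1611) (nat_lit 621) (nat_lit 1612)))))))))))))))) (.a (.f (nat_lit 591) (nat_lit 623) (nat_lit 5615) (.p (nat_lit 590) (.a (.f (nat_lit 593) (nat_lit 625) (nat_lit 4592) (.d (nat_lit 561) (nat_lit 562) (nat_lit 2606) (nat_lit 589) (nat_lit 2605))) (.a (.f (nat_lit 593) (nat_lit 625) (nat_lit 4592) (.f (nat_lit 557) (nat_lit 558) (nat_lit 3629) (.f (nat_lit 589) (nat_lit 556) (nat_lit 3628) (.d (nat_lit 621) (nat_lit 620) (nat_lit 1612) (nat_lit 622) (nat_lit 1613))))) (.a (.f (nat_lit 589) (nat_lit 561) (nat_lit 2605) (.f (nat_lit 620) (nat_lit 621) (nat_lit 1612) (.f (nat_lit 588) (nat_lit 619) (nat_lit 1611) (.d (nat_lit 556) (nat_lit 555) (nat_lit 3627) (nat_lit 557) (nat_lit 3628))))) (.f (nat_lit 593) (nat_lit 625) (nat_lit 4592) (.f (nat_lit 562) (nat_lit 561) (nat_lit 2606) (.f (nat_lit 594) (nat_lit 563) (nat_lit 2607) (.f (nat_lit 627) (nat_lit 626) (nat_lit 591) (.f (nat_lit 595) (nat_lit 628) (nat_lit 592) (.f (nat_lit 497) (nat_lit 465) (nat_lit 6608) (.f (nat_lit 498) (nat_lit 530) (nat_lit 4594) (.f (nat_lit 495) (nat_lit 463) (nat_lit 7631) (.d (nat_lit 527) (nat_lit 499) (nat_lit 1519) (nat_lit 526) (nat_lit 1518))))))))))))))) (.a (.f (nat_lit 591) (nat_lit 623) (nat_lit 5615) (.p (nat_lit 562) (.a (.f (nat_lit 561) (nat_lit 563) (nat_lit 1583) (.d (nat_lit 590) (nat_lit 559) (nat_lit 1582) (nat_lit 589) (nat_lit 2605))) (.a (.f (nat_lit 593) (nat_lit 625) (nat_lit 4592) (.f (nat_lit 594) (nat_lit 563) (nat_lit 2607) (.f (nat_lit 627) (nat_lit 626) (nat_lit 591) (.f (nat_lit 595) (nat_lit 628) (nat_lit 592) (.f (nat_lit 497) (nat_lit 465) (nat_lit 6608) (.f (nat_lit 498) (nat_lit 530) (nat_lit 4594) (.f (nat_lit 495) (nat_lit 463) (nat_lit 7631) (.d (nat_lit 527) (nat_lit 499) (nat_lit 1519) (nat_lit 526) (nat_lit 1518))))))))) (.f (nat_lit 593) (nat_lit 625) (nat_lit 4592) (.f (nat_lit 590) (nat_lit 561) (nat_lit 2606) (.f (nat_lit 621) (nat_lit 622) (nat_lit 1613) (.f (nat_lit 589) (nat_lit 620) (nat_lit 1612) (.f (nat_lit 588) (nat_lit 559) (nat_lit 2604) (.d (nat_lit 556) (nat_lit 555) (nat_lit 3627) (nat_lit 557) (nat_lit 3628))))))))))) (.f (nat_lit 497) (nat_lit 465) (nat_lit 6608) (.p (nat_lit 498) (.a (.f (nat_lit 495) (nat_lit 463) (nat_lit 7631) (.d (nat_lit 527) (nat_lit 499) (nat_lit 1519) (nat_lit 526) (nat_lit 1518))) (.a (.f (nat_lit 495) (nat_lit 463) (nat_lit 7631) (.f (nat_lit 467) (nat_lit 466) (nat_lit 2511) (.f (nat_lit 499) (nat_lit 468) (nat_lit 2512) (.d (nat_lit 531) (nat_lit 530) (nat_lit 495) (nat_lit 532) (nat_lit 496))))) (.a (.f (nat_lit 499) (nat_lit 527) (nat_lit 1519) (.f (nat_lit 532) (nat_lit 531) (nat_lit 496) (.f (nat_lit 500) (nat_lit 533) (nat_lit 497) (.d (nat_lit 468) (nat_lit 467) (nat_lit 2512) (nat_lit 469) (nat_lit 2513))))) (.f (nat_lit 495) (nat_lit 463) (nat_lit 7631) (.f (nat_lit 591) (nat_lit 623) (nat_lit 5615) (.f (nat_lit 593) (nat_lit 625) (nat_lit 4592) (.f (nat_lit 530) (nat_lit 531) (nat_lit 495) (.f (nat_lit 466) (nat_lit 467) (nat_lit 2511) (.f (nat_lit 562) (nat_lit 561) (nat_lit 5585) (.d (nat_lit 563) (nat_lit 594) (nat_lit 2607) (nat_lit 595) (nat_lit 4562))))))))))))))))))))) (.a (.p (nat_lit 624) (.a (.f (nat_lit 625) (nat_lit 657) (nat_lit 4624) (.f (nat_lit 623) (nat_lit 655) (nat_lit 5647) (.d (nat_lit 496) (nat_lit 591) (nat_lit 5615) (nat_lit 593) (nat_lit 4592)))) (.a (.f (nat_lit 625) (nat_lit 657) (nat_lit 4624) (.f (nat_lit 496) (nat_lit 593) (nat_lit 4592) (.d (nat_lit 495) (nat_lit 463) (nat_lit 7631) (nat_lit 527) (nat_lit 7663)))) (.f (nat_lit 527) (nat_lit 495) (nat_lit 7663) (.f (nat_lit 656) (nat_lit 559) (nat_lit 7695) (.d (nat_lit 655) (nat_lit 623) (nat_lit 5647) (nat_lit 687) (nat_lit 5679))))))) (.a (.p (nat_lit 624) (.a (.f (nat_lit 527) (nat_lit 495) (nat_lit 7663) (.f (nat_lit 656) (nat_lit 559) (nat_lit 7695) (.d (nat_lit 655) (nat_lit 623) (nat_lit 5647) (nat_lit 687) (nat_lit 5679)))) (.a (.f (nat_lit 657) (nat_lit 625) (nat_lit 4624) (.f (nat_lit 656) (nat_lit 689) (nat_lit 4656) (.d (nat_lit 655) (nat_lit 623) (nat_lit 5647) (nat_lit 687) (nat_lit 5679)))) (.a (.f (nat_lit 527) (nat_lit 495) (nat_lit 7663) (.f (nat_lit 656) (nat_lit 559) (nat_lit 7695) (.d (nat_lit 657) (nat_lit 625) (nat_lit 4624) (nat_lit 689) (nat_lit 4656)))) (.p (nat_lit 591) (.a (.f (nat_lit 623) (nat_lit 655) (nat_lit 5647) (.f (nat_lit 625) (nat_lit 657) (nat_lit 4624) (.d (nat_lit 626) (nat_lit 590) (nat_lit 3662) (nat_lit 627) (nat_lit 3663)))) (.a (.f (nat_lit 625) (nat_lit 657) (nat_lit 4624) (.f (nat_lit 590) (nat_lit 589) (nat_lit 589) (.d (nat_lit 626) (nat_lit 593) (nat_lit 590) (nat_lit 627) (nat_lit 3663)))) (.a (.p (nat_lit 561) (.a (.f (nat_lit 562) (nat_lit 563) (nat_lit 1583) (.d (nat_lit 590) (nat_lit 559) (nat_lit 1582) (nat_lit 589) (nat_lit 2605))) (.a (.f (nat_lit 623) (nat_lit 655) (nat_lit 5647) (.f (nat_lit 590) (nat_lit 589) (nat_lit 2605) (.f (nat_lit 527) (nat_lit 495) (nat_lit 7663) (.f (nat_lit 526) (nat_lit 525) (nat_lit 525) (.d (nat_lit 494) (nat_lit 558) (nat_lit 4590) (nat_lit 559) (nat_lit 7662)))))) (.a (.f (nat_lit 562) (nat_lit 563) (nat_lit 1583) (.d (nat_lit 590) (nat_lit 589) (nat_lit 2605) (nat_lit 593) (nat_lit 2606))) (.f (nat_lit 527) (nat_lit 495) (nat_lit 7663) (.f (nat_lit 562) (nat_lit 563) (nat_lit 3599) (.d (nat_lit 526) (nat_lit 525) (nat_lit 525) (nat_lit 559) (nat_lit 3598)))))))) (.f (nat_lit 623) (nat_lit 655) (nat_lit 5647) (.f (nat_lit 625) (nat_lit 657) (nat_lit 4624) (.f (nat_lit 626) (nat_lit 627) (nat_lit 3663) (.f (nat_lit 594) (nat_lit 595) (nat_lit 2639) (.f (nat_lit 593) (nat_lit 622) (nat_lit 2638) (.f (nat_lit 559) (nat_lit 558) (nat_lit 3630) (.f (nat_lit 527) (nat_lit 495) (nat_lit 7663) (.f (nat_lit 562) (nat_lit 563) (nat_lit 2607) (.d (nat_lit 526) (nat_lit 494) (nat_lit 7662) (nat_lit 561) (nat_lit 3598)))))))))))))))))) (.a (.p (nat_lit 624) (.a (.f (nat_lit 625) (nat_lit 657) (nat_lit 4624) (.f (nat_lit 527) (nat_lit 495) (nat_lit 7663) (.f (nat_lit 656) (nat_lit 559) (nat_lit 7695) (.f (nat_lit 593) (nat_lit 496) (nat_lit 4592) (.d (nat_lit 688) (nat_lit 561) (nat_lit 6704) (nat_lit 720) (nat_lit 6736)))))) (.a (.f (nat_lit 657) (nat_lit 625) (nat_lit 4624) (.f (nat_lit 656) (nat_lit 689) (nat_lit 4656) (.d (nat_lit 655) (nat_lit 623) (nat_lit 5647) (nat_lit 687) (nat_lit 5679)))) (.a (.f (nat_lit 527) (nat_lit 495) (nat_lit 7663) (.f (nat_lit 656) (nat_lit 559) (nat_lit 7695) (.d (nat_lit 655) (nat_lit 623) (nat_lit 5647) (nat_lit 687) (nat_lit 5679)))) (.f (nat_lit 625) (nat_lit 657) (nat_lit 4624) (.f (nat_lit 496) (nat_lit 593) (nat_lit 4592) (.d (nat_lit 495) (nat_lit 463) (nat_lit 7631) (nat_lit 527) (nat_lit 7663)))))))) (.a (.p (nat_lit 624) (.a (.f (nat_lit 625) (nat_lit 657) (nat_lit 4624) (.f (nat_lit 527) (nat_lit 495) (nat_lit 7663) (.f (nat_lit 656) (nat_lit 559) (nat_lit 7695) (.f (nat_lit 593) (nat_lit 496) (nat_lit 4592) (.d (nat_lit 688) (nat_lit 561) (nat_lit 6704) (nat_lit 720) (nat_lit 6736)))))) (.a (.p (nat_lit 656) (.a (.d (nat_lit 657) (nat_lit 625) (nat_lit 4624) (nat_lit 689) (nat_lit 4656)) (.a (.f (nat_lit 687) (nat_lit 655) (nat_lit 5679) (.f (nat_lit 688) (nat_lit 719) (nat_lit 5711) (.f (nat_lit 593) (nat_lit 561) (nat_lit 6704) (.d (nat_lit 625) (nat_lit 496) (nat_lit 4592) (nat_lit 720) (nat_lit 6736))))) (.f (nat_lit 687) (nat_lit 655) (nat_lit 5679) (.f (nat_lit 688) (nat_lit 719) (nat_lit 5711) (.d (nat_lit 689) (nat_lit 657) (nat_lit 4656) (nat_lit 721) (nat_lit 4688))))))) (.a (.f (nat_lit 625) (nat_lit 657) (nat_lit 4624) (.f (nat_lit 496) (nat_lit 593) (nat_lit 4592) (.d (nat_lit 495) (nat_lit 463) (nat_lit 7631) (nat_lit 527) (nat_lit 7663)))) (.a (.f (nat_lit 527) (nat_lit 495) (nat_lit 7663) (.f (nat_lit 656) (nat_lit 559) (nat_lit 7695) (.d (nat_lit 657) (nat_lit 625) (nat_lit 4624) (nat_lit 689) (nat_lit 4656)))) (.a (.f (nat_lit 527) (nat_lit 495) (nat_lit 7663) (.f (nat_lit 656) (nat_lit 559) (nat_lit 7695) (.f (nat_lit 687) (nat_lit 655) (nat_lit 5679) (.f (nat_lit 688) (nat_lit 719) (nat_lit 5711) (.d (nat_lit 689) (nat_lit 657) (nat_lit 4656) (nat_lit 721) (nat_lit 4688)))))) (.f (nat_lit 527) (nat_lit 495) (nat_lit 7663) (.f (nat_lit 656) (nat_lit 559) (nat_lit 7695) (.f (nat_lit 687) (nat_lit 655) (nat_lit 5679) (.f (nat_lit 688) (nat_lit 719) (nat_lit 5711) (.f (nat_lit 721) (nat_lit 689) (nat_lit 4688) (.f (nat_lit 720) (nat_lit 753) (nat_lit 4720) (.d (nat_lit 593) (nat_lit 561) (nat_lit 6704) (nat_lit 625) (nat_lit 6736)))))))))))))) (.a (.p (nat_lit 624) (.a (.f (nat_lit 625) (nat_lit 657) (nat_lit 4624) (.f (nat_lit 623) (nat_lit 655) (nat_lit 5647) (.d (nat_lit 496) (nat_lit 591) (nat_lit 5615) (nat_lit 593) (nat_lit 4592)))) (.a (.f (nat_lit 625) (nat_lit 657) (nat_lit 4624) (.f (nat_lit 496) (nat_lit 593) (nat_lit 4592) (.d (nat_lit 495) (nat_lit 463) (nat_lit 7631) (nat_lit 527) (nat_lit 7663)))) (.a (.f (nat_lit 657) (nat_lit 625) (nat_lit 4624) (.f (nat_lit 656) (nat_lit 689) (nat_lit 4656) (.d (nat_lit 655) (nat_lit 623) (nat_lit 5647) (nat_lit 687) (nat_lit 5679)))) (.f (nat_lit 623) (nat_lit 655) (nat_lit 5647) (.f (nat_lit 496) (nat_lit 591) (nat_lit 5615) (.d (nat_lit 495) (nat_lit 463) (nat_lit 7631) (nat_lit 527) (nat_lit 7663)))))))) (.a s100278 (.p (nat_lit 561) (.a (.p (nat_lit 624) (.a (.f (nat_lit 623) (nat_lit 655) (nat_lit 5647) (.f (nat_lit 591) (nat_lit 496) (nat_lit 5615) (.f (nat_lit 590) (nat_lit 589) (nat_lit 2605) (.d (nat_lit 562) (nat_lit 559) (nat_lit 1582) (nat_lit 563) (nat_lit 1583))))) (.a (.f (nat_lit 527) (nat_lit 495) (nat_lit 7663) (.f (nat_lit 559) (nat_lit 656) (nat_lit 7695) (.d (nat_lit 562) (nat_lit 526) (nat_lit 3598) (nat_lit 563) (nat_lit 3599)))) (.a (.f (nat_lit 527) (nat_lit 495) (nat_lit 7663) (.f (nat_lit 562) (nat_lit 563) (nat_lit 3599) (.f (nat_lit 623) (nat_lit 655) (nat_lit 5647) (.f (nat_lit 591) (nat_lit 496) (nat_lit 5615) (.d (nat_lit 590) (nat_lit 589) (nat_lit 2605) (nat_lit 593) (nat_lit 2606)))))) (.f (nat_lit 527) (nat_lit 495) (nat_lit 7663) (.f (nat_lit 656) (nat_lit 559) (nat_lit 7695) (.d (nat_lit 655) (nat_lit 623) (nat_lit 5647) (nat_lit 687) (nat_lit 5679)))))))) (.a (.p (nat_lit 591) (.a (.f (nat_lit 562) (nat_lit 563) (nat_lit 1583) (.d (nat_lit 590) (nat_lit 559) (nat_lit 1582) (nat_lit 589) (nat_lit 2605))) (.a (.f (nat_lit 623) (nat_lit 496) (nat_lit 5615) (.d (nat_lit 655) (nat_lit 559) (nat_lit 6671) (nat_lit 624) (nat_lit 5647))) (.f (nat_lit 623) (nat_lit 496) (nat_lit 5615) (.d (nat_lit 655) (nat_lit 624) (nat_lit 5647) (nat_lit 687) (nat_lit 6703)))))) (.a (.p (nat_lit 591) (.a (.f (nat_lit 562) (nat_lit 563) (nat_lit 1583) (.d (nat_lit 590) (nat_lit 559) (nat_lit 1582) (nat_lit 589) (nat_lit 2605))) (.a (.f (nat_lit 623) (nat_lit 496) (nat_lit 5615) (.d (nat_lit 655) (nat_lit 559) (nat_lit 6671) (nat_lit 687) (nat_lit 6703))) (.f (nat_lit 562) (nat_lit 563) (nat_lit 1583) (.d (nat_lit 590) (nat_lit 589) (nat_lit 2605) (nat_lit 593) (nat_lit 2606)))))) (.a (.p (nat_lit 624) (.a (.f (nat_lit 527) (nat_lit 495) (nat_lit 7663) (.f (nat_lit 559) (nat_lit 656) (nat_lit 7695) (.d (nat_lit 562) (nat_lit 526) (nat_lit 3598) (nat_lit 563) (nat_lit 3599)))) (.a (.f (nat_lit 655) (nat_lit 623) (nat_lit 5647) (.f (nat_lit 656) (nat_lit 687) (nat_lit 5679) (.f (nat_lit 688) (nat_lit 593) (nat_lit 6704) (.d (nat_lit 689) (nat_lit 657) (nat_lit 4656) (nat_lit 721) (nat_lit 4688))))) (.f (nat_lit 527) (nat_lit 495) (nat_lit 7663) (.f (nat_lit 562) (nat_lit 563) (nat_lit 3599) (.d (nat_lit 526) (nat_lit 525) (nat_lit 525) (nat_lit 559) (nat_lit 3598))))))) (.a (.p (nat_lit 624) (.a (.f (nat_lit 527) (nat_lit 495) (nat_lit 7663) (.f (nat_lit 656) (nat_lit 559) (nat_lit 7695) (.d (nat_lit 655) (nat_lit 623) (nat_lit 5647) (nat_lit 687) (nat_lit 5679)))) (.a (.f (nat_lit 655) (nat_lit 623) (nat_lit 5647) (.f (nat_lit 656) (nat_lit 687) (nat_lit 5679) (.f (nat_lit 688) (nat_lit 593) (nat_lit 6704) (.d (nat_lit 689) (nat_lit 657) (nat_lit 4656) (nat_lit 721) (nat_lit 4688))))) (.a (.f (nat_lit 527) (nat_lit 495) (nat_lit 7663) (.f (nat_lit 656) (nat_lit 559) (nat_lit 7695) (.f (nat_lit 688) (nat_lit 593) (nat_lit 6704) (.d (nat_lit 687) (nat_lit 655) (nat_lit 5679) (nat_lit 719) (nat_lit 5711))))) (.a (.f (nat_lit 527) (nat_lit 495) (nat_lit 7663) (.f (nat_lit 656) (nat_lit 559) (nat_lit 7695) (.f (nat_lit 688) (nat_lit 593) (nat_lit 6704) (.d (nat_lit 689) (nat_lit 657) (nat_lit 4656) (nat_lit 721) (nat_lit 4688))))) (.f (nat_lit 623) (nat_lit 655) (nat_lit 5647) (.f (nat_lit 591) (nat_lit 496) (nat_lit 5615) (.f (nat_lit 527) (nat_lit 495) (nat_lit 7663) (.f (nat_lit 590) (nat_lit 589) (nat_lit 2605) (.f (nat_lit 526) (nat_lit 525) (nat_lit 525) (.d (nat_lit 494) (nat_lit 558) (nat_lit 4590) (nat_lit 559) (nat_lit 7662)))))))))))) (.a (.p (nat_lit 527) (.a (.f (nat_lit 562) (nat_lit 563) (nat_lit 3599) (.d (nat_lit 526) (nat_lit 525) (nat_lit 525) (nat_lit 559) (nat_lit 3598))) (.f (nat_lit 495) (nat_lit 624) (nat_lit 7663) (.d (nat_lit 463) (nat_lit 431) (nat_lit 4527) (nat_lit 496) (nat_lit 7631))))) (.p (nat_lit 496) (.a (.f (nat_lit 495) (nat_lit 463) (nat_lit 7631) (.f (nat_lit 527) (nat_lit 624) (nat_lit 7663) (.f (nat_lit 526) (nat_lit 525) (nat_lit 525) (.d (nat_lit 497) (nat_lit 465) (nat_lit 6608) (nat_lit 498) (nat_lit 1518))))) (.f (nat_lit 591) (nat_lit 623) (nat_lit 5615) (.f (nat_lit 590) (nat_lit 589) (nat_lit 2605) (.d (nat_lit 562) (nat_lit 563) (nat_lit 1583) (nat_lit 593) (nat_lit 2606))))))))))))))))))))))) (.a s115597 (.a (.p (nat_lit 496) (.a (.p (nat_lit 592) (.a (.f (nat_lit 591) (nat_lit 623) (nat_lit 5615) (.f (nat_lit 593) (nat_lit 625) (nat_lit 4592) (.d (nat_lit 464) (nat_lit 559) (nat_lit 5583) (nat_lit 561) (nat_lit 4560)))) (.a (.f (nat_lit 623) (nat_lit 591) (nat_lit 5615) (.f (nat_lit 624) (nat_lit 655) (nat_lit 5647) (.d (nat_lit 625) (nat_lit 593) (nat_lit 4592) (nat_lit 657) (nat_lit 4624)))) (.a (.f (nat_lit 593) (nat_lit 625) (nat_lit 4592) (.f (nat_lit 464) (nat_lit 561) (nat_lit 4560) (.d (nat_lit 463) (nat_lit 431) (nat_lit 7599) (nat_lit 495) (nat_lit 7631)))) (.f (nat_lit 591) (nat_lit 623) (nat_lit 5615) (.f (nat_lit 464) (nat_lit 559) (nat_lit 5583) (.d (nat_lit 463) (nat_lit 431) (nat_lit 7599) (nat_lit 495) (nat_lit 7631)))))))) (.a (.p (nat_lit 464) (.a (.f (nat_lit 559) (nat_lit 591) (nat_lit 5583) (.f (nat_lit 432) (nat_lit 527) (nat_lit 5551) (.d (nat_lit 433) (nat_lit 401) (nat_lit 6544) (nat_lit 465) (nat_lit 6576)))) (.a (.f (nat_lit 431) (nat_lit 463) (nat_lit 7599) (.f (nat_lit 432) (nat_lit 399) (nat_lit 7567) (.d (nat_lit 433) (nat_lit 401) (nat_lit 6544) (nat_lit 465) (nat_lit 6576)))) (.a (.f (nat_lit 431) (nat_lit 463) (nat_lit 7599) (.f (nat_lit 432) (nat_lit 399) (nat_lit 7567) (.d (nat_lit 559) (nat_lit 527) (nat_lit 5551) (nat_lit 591) (nat_lit 5583)))) (.f (nat_lit 561) (nat_lit 593) (nat_lit 4560) (.p (nat_lit 562) (.a (.f (nat_lit 559) (nat_lit 591) (nat_lit 5583) (.d (nat_lit 527) (nat_lit 526) (nat_lit 3598) (nat_lit 563) (nat_lit 3599))) (.a (.f (nat_lit 559) (nat_lit 591) (nat_lit 5583) (.f (nat_lit 531) (nat_lit 530) (nat_lit 2575) (.f (nat_lit 563) (nat_lit 532) (nat_lit 2576) (.d (nat_lit 595) (nat_lit 594) (nat_lit 559) (nat_lit 596) (nat_lit 560))))) (.a (.f (nat_lit 563) (nat_lit 527) (nat_lit 3599) (.f (nat_lit 532) (nat_lit 531) (nat_lit 2576) (.f (nat_lit 564) (nat_lit 533) (nat_lit 2577) (.d (nat_lit 596) (nat_lit 595) (nat_lit 560) (nat_lit 597) (nat_lit 561))))) (.f (nat_lit 559) (nat_lit 591) (nat_lit 5583) (.f (nat_lit 526) (nat_lit 527) (nat_lit 3598) (.f (nat_lit 558) (nat_lit 525) (nat_lit 3597) (.f (nat_lit 589) (nat_lit 590) (nat_lit 1581) (.f (nat_lit 557) (nat_lit 588) (nat_lit 1580) (.f (nat_lit 465) (nat_lit 433) (nat_lit 6576) (.f (nat_lit 463) (nat_lit 431) (nat_lit 7599) (.f (nat_lit 494) (nat_lit 462) (nat_lit 5581) (.d (nat_lit 495) (nat_lit 466) (nat_lit 1486) (nat_lit 493) (nat_lit 2509))))))))))))))))))) (.a (.p (nat_lit 592) (.a (.f (nat_lit 623) (nat_lit 591) (nat_lit 5615) (.f (nat_lit 624) (nat_lit 655) (nat_lit 5647) (.d (nat_lit 625) (nat_lit 593) (nat_lit 4592) (nat_lit 657) (nat_lit 4624)))) (.a (.f (nat_lit 495) (nat_lit 463) (nat_lit 7631) (.f (nat_lit 624) (nat_lit 527) (nat_lit 7663) (.d (nat_lit 625) (nat_lit 593) (nat_lit 4592) (nat_lit 657) (nat_lit 4624)))) (.a s33845 (.f (nat_lit 495) (nat_lit 463) (nat_lit 7631) (.f (nat_lit 624) (nat_lit 527) (nat_lit 7663) (.d (nat_lit 623) (nat_lit 591) (nat_lit 5615) (nat_lit 655) (nat_lit 5647)))))))) (.a (.p (nat_lit 592) (.a (.f (nat_lit 623) (nat_lit 591) (nat_lit 5615) (.f (nat_lit 624) (nat_lit 655) (nat_lit 5647) (.d (nat_lit 625) (nat_lit 593) (nat_lit 4592) (nat_lit 657) (nat_lit 4624)))) (.a (.f (nat_lit 495) (nat_lit 463) (nat_lit 7631) (.f (nat_lit 624) (nat_lit 527) (nat_lit 7663) (.d (nat_lit 625) (nat_lit 593) (nat_lit 4592) (nat_lit 657) (nat_lit 4624)))) (.f (nat_lit 591) (nat_lit 623) (nat_lit 5615) (.f (nat_lit 464) (nat_lit 559) (nat_lit 5583) (.d (nat_lit 463) (nat_lit 431) (nat_lit 7599) (nat_lit 495) (nat_lit 7631))))))) (.a (.p (nat_lit 592) (.a (.f (nat_lit 623) (nat_lit 591) (nat_lit 5615) (.f (nat_lit 624) (nat_lit 655) (nat_lit 5647) (.d (nat_lit 625) (nat_lit 593) (nat_lit 4592) (nat_lit 657) (nat_lit 4624)))) (.a (.f (nat_lit 593) (nat_lit 625) (nat_lit 4592) (.f (nat_lit 464) (nat_lit 561) (nat_lit 4560) (.d (nat_lit 463) (nat_lit 431) (nat_lit 7599) (nat_lit 495) (nat_lit 7631)))) (.f (nat_lit 495) (nat_lit 463) (nat_lit 7631) (.f (nat_lit 624) (nat_lit 527) (nat_lit 7663) (.d (nat_lit 623) (nat_lit 591) (nat_lit 5615) (nat_lit 655) (nat_lit 5647))))))) (.a (.p (nat_lit 464) (.a (.f (nat_lit 431) (nat_lit 463) (nat_lit 7599) (.f (nat_lit 432) (nat_lit 399) (nat_lit 7567) (.d (nat_lit 433) (nat_lit 401) (nat_lit 6544) (nat_lit 465) (nat_lit 6576)))) (.a (.f (nat_lit 593) (nat_lit 561) (nat_lit 4560) (.f (nat_lit 592) (nat_lit 625) (nat_lit 4592) (.f (nat_lit 433) (nat_lit 465) (nat_lit 6576) (.f (nat_lit 432) (nat_lit 401) (nat_lit 6544) (.f (nat_lit 527) (nat_lit 559) (nat_lit 5551) (.d (nat_lit 495) (nat_lit 400) (nat_lit 5519) (nat_lit 624) (nat_lit 7663))))))) (.f (nat_lit 463) (nat_lit 431) (nat_lit 7599) (.f (nat_lit 592) (nat_lit 495) (nat_lit 7631) (.d (nat_lit 593) (nat_lit 561) (nat_lit 4560) (nat_lit 625) (nat_lit 4592))))))) (.a (.p (nat_lit 592) (.a (.f (nat_lit 591) (nat_lit 623) (nat_lit 5615) (.f (nat_lit 464) (nat_lit 559) (nat_lit 5583) (.d (nat_lit 463) (nat_lit 431) (nat_lit 7599) (nat_lit 495) (nat_lit 7631)))) (.a (.f (nat_lit 495) (nat_lit 463) (nat_lit 7631) (.f (nat_lit 624) (nat_lit 527) (nat_lit 7663) (.d (nat_lit 623) (nat_lit 591) (nat_lit 5615) (nat_lit 655) (nat_lit 5647)))) (.a (.f (nat_lit 495) (nat_lit 463) (nat_lit 7631) (.f (nat_lit 624) (nat_lit 527) (nat_lit 7663) (.f (nat_lit 655) (nat_lit 623) (nat_lit 5647) (.f (nat_lit 656) (nat_lit 687) (nat_lit 5679) (.d (nat_lit 657) (nat_lit 625) (nat_lit 4624) (nat_lit 689) (nat_lit 4656)))))) (.a (.f (nat_lit 591) (nat_lit 623) (nat_lit 5615) (.f (nat_lit 464) (nat_lit 559) (nat_lit 5583) (.f (nat_lit 433) (nat_lit 465) (nat_lit 6576) (.f (nat_lit 432) (nat_lit 401) (nat_lit 6544) (.d (nat_lit 431) (nat_lit 399) (nat_lit 7567) (nat_lit 463) (nat_lit 7599)))))) (.a (.f (nat_lit 623) (nat_lit 591) (nat_lit 5615) (.f (nat_lit 624) (nat_lit 655) (nat_lit 5647) (.f (nat_lit 657) (nat_lit 625) (nat_lit 4624) (.f (nat_lit 656) (nat_lit 689) (nat_lit 4656) (.d (nat_lit 527) (nat_lit 495) (nat_lit 7663) (nat_lit 559) (nat_lit 7695)))))) (.f (nat_lit 463) (nat_lit 495) (nat_lit 7631) (.f (nat_lit 464) (nat_lit 431) (nat_lit 7599) (.f (nat_lit 433) (nat_lit 465) (nat_lit 6576) (.f (nat_lit 432) (nat_lit 401) (nat_lit 6544) (.d (nat_lit 559) (nat_lit 527) (nat_lit 5551) (nat_lit 591) (nat_lit 5583)))))))))))) (.a (.p (nat_lit 592) (.a (.f (nat_lit 591) (nat_lit 623) (nat_lit 5615) (.f (nat_lit 593) (nat_lit 625) (nat_lit 4592) (.d (nat_lit 464) (nat_lit 559) (nat_lit 5583) (nat_lit 561) (nat_lit 4560)))) (.a (.f (nat_lit 623) (nat_lit 591) (nat_lit 5615) (.f (nat_lit 624) (nat_lit 655) (nat_lit 5647) (.d (nat_lit 625) (nat_lit 593) (nat_lit 4592) (nat_lit 657) (nat_lit 4624)))) (.a (.f (nat_lit 593) (nat_lit 625) (nat_lit 4592) (.f (nat_lit 464) (nat_lit 561) (nat_lit 4560) (.f (nat_lit 433) (nat_lit 465) (nat_lit 6576) (.f (nat_lit 432) (nat_lit 401) (nat_lit 6544) (.f (nat_lit 527) (nat_lit 559) (nat_lit 5551) (.d (nat_lit 495) (nat_lit 400) (nat_lit 5519) (nat_lit 624) (nat_lit 7663))))))) (.a (.f (nat_lit 623) (nat_lit 591) (nat_lit 5615) (.f (nat_lit 624) (nat_lit 655) (nat_lit 5647) (.f (nat_lit 657) (nat_lit 625) (nat_lit 4624) (.f (nat_lit 656) (nat_lit 689) (nat_lit 4656) (.d (nat_lit 527) (nat_lit 495) (nat_lit 7663) (nat_lit 559) (nat_lit 7695)))))) (.f (nat_lit 623) (nat_lit 591) (nat_lit 5615) (.f (nat_lit 624) (nat_lit 655) (nat_lit 5647) (.f (nat_lit 527) (nat_lit 495) (nat_lit 7663) (.f (nat_lit 559) (nat_lit 656) (nat_lit 7695) (.f (nat_lit 464) (nat_lit 432) (nat_lit 5551) (.f (nat_lit 561) (nat_lit 593) (nat_lit 4560) (.d (nat_lit 562) (nat_lit 526) (nat_lit 3598) (nat_lit 563) (nat_lit 3599))))))))))))) (.p (nat_lit 592) (.a (.f (nat_lit 591) (nat_lit 623) (nat_lit 5615) (.f (nat_lit 593) (nat_lit 625) (nat_lit 4592) (.d (nat_lit 464) (nat_lit 559) (nat_lit 5583) (nat_lit 561) (nat_lit 4560)))) (.a (.f (nat_lit 623) (nat_lit 591) (nat_lit 5615) (.f (nat_lit 624) (nat_lit 655) (nat_lit 5647) (.d (nat_lit 625) (nat_lit 593) (nat_lit 4592) (nat_lit 657) (nat_lit 4624)))) (.a (.f (nat_lit 593) (nat_lit 625) (nat_lit 4592) (.f (nat_lit 464) (nat_lit 561) (nat_lit 4560) (.f (nat_lit 433) (nat_lit 465) (nat_lit 6576) (.f (nat_lit 432) (nat_lit 401) (nat_lit 6544) (.d (nat_lit 431) (nat_lit 399) (nat_lit 7567) (nat_lit 463) (nat_lit 7599)))))) (.f (nat_lit 591) (nat_lit 623) (nat_lit 5615) (.f (nat_lit 464) (nat_lit 559) (nat_lit 5583) (.f (nat_lit 433) (nat_lit 465) (nat_lit 6576) (.f (nat_lit 432) (nat_lit 401) (nat_lit 6544) (.d (nat_lit 431) (nat_lit 399) (nat_lit 7567) (nat_lit 463) (nat_lit 7599))))))))))))))))))) (.a (.p (nat_lit 496) (.a (.p (nat_lit 464) (.a (.f (nat_lit 463) (nat_lit 431) (nat_lit 7599) (.f (nat_lit 465) (nat_lit 433) (nat_lit 6576) (.d (nat_lit 592) (nat_lit 495) (nat_lit 7631) (nat_lit 497) (nat_lit 6608)))) (.a (.f (nat_lit 559) (nat_lit 591) (nat_lit 5583) (.f (nat_lit 432) (nat_lit 527) (nat_lit 5551) (.d (nat_lit 433) (nat_lit 401) (nat_lit 6544) (nat_lit 465) (nat_lit 6576)))) (.f (nat_lit 463) (nat_lit 431) (nat_lit 7599) (.f (nat_lit 592) (nat_lit 495) (nat_lit 7631) (.d (nat_lit 591) (nat_lit 559) (nat_lit 5583) (nat_lit 623) (nat_lit 5615))))))) (.a (.p (nat_lit 464) (.a (.f (nat_lit 559) (nat_lit 591) (nat_lit 5583) (.f (nat_lit 432) (nat_lit 527) (nat_lit 5551) (.d (nat_lit 433) (nat_lit 401) (nat_lit 6544) (nat_lit 465) (nat_lit 6576)))) (.a (.f (nat_lit 431) (nat_lit 463) (nat_lit 7599) (.f (nat_lit 432) (nat_lit 399) (nat_lit 7567) (.d (nat_lit 433) (nat_lit 401) (nat_lit 6544) (nat_lit 465) (nat_lit 6576)))) (.a (.f (nat_lit 431) (nat_lit 463) (nat_lit 7599) (.f (nat_lit 432) (nat_lit 399) (nat_lit 7567) (.d (nat_lit 559) (nat_lit 527) (nat_lit 5551) (nat_lit 591) (nat_lit 5583)))) (.f (nat_lit 561) (nat_lit 593) (nat_lit 4560) (.p (nat_lit 562) (.a (.f (nat_lit 559) (nat_lit 591) (nat_lit 5583) (.f (nat_lit 563) (nat_lit 527) (nat_lit 3599) (.d (nat_lit 531) (nat_lit 530) (nat_lit 2575) (nat_lit 532) (nat_lit 2576)))) (.a (.f (nat_lit 563) (nat_lit 527) (nat_lit 3599) (.f (nat_lit 532) (nat_lit 531) (nat_lit 2576) (.f (nat_lit 564) (nat_lit 533) (nat_lit 2577) (.d (nat_lit 596) (nat_lit 595) (nat_lit 560) (nat_lit 597) (nat_lit 561))))) (.a (.f (nat_lit 559) (nat_lit 591) (nat_lit 5583) (.f (nat_lit 463) (nat_lit 431) (nat_lit 7599) (.f (nat_lit 465) (nat_lit 433) (nat_lit 6576) (.f (nat_lit 530) (nat_lit 531) (nat_lit 2575) (.f (nat_lit 594) (nat_lit 595) (nat_lit 559) (.f (nat_lit 498) (nat_lit 497) (nat_lit 7633) (.d (nat_lit 499) (nat_lit 466) (nat_lit 463) (nat_lit 467) (nat_lit 6610)))))))) (.f (nat_lit 559) (nat_lit 591) (nat_lit 5583) (.f (nat_lit 563) (nat_lit 527) (nat_lit 3599) (.d (nat_lit 595) (nat_lit 594) (nat_lit 559) (nat_lit 596) (nat_lit 560))))))))))))) (.a (.p (nat_lit 592) (.a (.f (nat_lit 623) (nat_lit 591) (nat_lit 5615) (.f (nat_lit 624) (nat_lit 655) (nat_lit 5647) (.d (nat_lit 625) (nat_lit 593) (nat_lit 4592) (nat_lit 657) (nat_lit 4624)))) (.a (.f (nat_lit 591) (nat_lit 623) (nat_lit 5615) (.p (nat_lit 562) (.a (.f (nat_lit 561) (nat_lit 563) (nat_lit 1583) (.d (nat_lit 590) (nat_lit 559) (nat_lit 1582) (nat_lit 589) (nat_lit 2605))) (.a (.f (nat_lit 593) (nat_lit 625) (nat_lit 4592) (.f (nat_lit 594) (nat_lit 563) (nat_lit 2607) (.d (nat_lit 559) (nat_lit 558) (nat_lit 3630) (nat_lit 595) (nat_lit 3631)))) (.a (.f (nat_lit 593) (nat_lit 625) (nat_lit 4592) (.f (nat_lit 590) (nat_lit 561) (nat_lit 2606) (.f (nat_lit 558) (nat_lit 557) (nat_lit 3629) (.f (nat_lit 559) (nat_lit 594) (nat_lit 3630) (.f (nat_lit 495) (nat_lit 463) (nat_lit 7631) (.d (nat_lit 622) (nat_lit 527) (nat_lit 5614) (nat_lit 621) (nat_lit 1613))))))) (.f (nat_lit 593) (nat_lit 625) (nat_lit 4592) (.d (nat_lit 563) (nat_lit 561) (nat_lit 1583) (nat_lit 594) (nat_lit 2607)))))))) (.a (.f (nat_lit 495) (nat_lit 463) (nat_lit 7631) (.f (nat_lit 624) (nat_lit 527) (nat_lit 7663) (.d (nat_lit 625) (nat_lit 593) (nat_lit 4592) (nat_lit 657) (nat_lit 4624)))) (.f (nat_lit 623) (nat_lit 591) (nat_lit 5615) (.f (nat_lit 624) (nat_lit 655) (nat_lit 5647) (.d (nat_lit 495) (nat_lit 463) (nat_lit 7631) (nat_lit 527) (nat_lit 7663)))))))) (.a s100417 (.p (nat_lit 464) (.a (.f (nat_lit 559) (nat_lit 591) (nat_lit 5583) (.f (nat_lit 432) (nat_lit 527) (nat_lit 5551) (.d (nat_lit 433) (nat_lit 401) (nat_lit 6544) (nat_lit 465) (nat_lit 6576)))) (.a (.f (nat_lit 465) (nat_lit 433) (nat_lit 6576) (.f (nat_lit 592) (nat_lit 497) (nat_lit 6608) (.d (nat_lit 593) (nat_lit 561) (nat_lit 4560) (nat_lit 625) (nat_lit 4592)))) (.a (.f (nat_lit 559) (nat_lit 591) (nat_lit 5583) (.f (nat_lit 432) (nat_lit 527) (nat_lit 5551) (.f (nat_lit 399) (nat_lit 431) (nat_lit 7567) (.f (nat_lit 400) (nat_lit 367) (nat_lit 7535) (.d (nat_lit 401) (nat_lit 369) (nat_lit 6512) (nat_lit 433) (nat_lit 6544)))))) (.f (nat_lit 559) (nat_lit 591) (nat_lit 5583) (.f (nat_lit 593) (nat_lit 561) (nat_lit 4560) (.f (nat_lit 592) (nat_lit 625) (nat_lit 4592) (.f (nat_lit 527) (nat_lit 432) (nat_lit 5551) (.d (nat_lit 624) (nat_lit 495) (nat_lit 7663) (nat_lit 656) (nat_lit 7695))))))))))))))) (.a (.p (nat_lit 496) (.a (.p (nat_lit 592) (.a (.f (nat_lit 591) (nat_lit 623) (nat_lit 5615) (.f (nat_lit 464) (nat_lit 559) (nat_lit 5583) (.d (nat_lit 593) (nat_lit 561) (nat_lit 4560) (nat_lit 625) (nat_lit 4592)))) (.a (.f (nat_lit 623) (nat_lit 591) (nat_lit 5615) (.f (nat_lit 624) (nat_lit 655) (nat_lit 5647) (.d (nat_lit 625) (nat_lit 593) (nat_lit 4592) (nat_lit 657) (nat_lit 4624)))) (.a (.f (nat_lit 593) (nat_lit 625) (nat_lit 4592) (.f (nat_lit 464) (nat_lit 561) (nat_lit 4560) (.d (nat_lit 465) (nat_lit 433) (nat_lit 6576) (nat_lit 497) (nat_lit 6608)))) (.f (nat_lit 591) (nat_lit 623) (nat_lit 5615) (.f (nat_lit 464) (nat_lit 559) (nat_lit 5583) (.d (nat_lit 465) (nat_lit 433) (nat_lit 6576) (nat_lit 497) (nat_lit 6608)))))))) (.a s33906 (.a (.p (nat_lit 592) (.a (.f (nat_lit 623) (nat_lit 591) (nat_lit 5615) (.f (nat_lit 624) (nat_lit 655) (nat_lit 5647) (.d (nat_lit 625) (nat_lit 593) (nat_lit 4592) (nat_lit 657) (nat_lit 4624)))) (.a (.f (nat_lit 591) (nat_lit 623) (nat_lit 5615) (.p (nat_lit 590) (.a (.f (nat_lit 593) (nat_lit 625) (nat_lit 4592) (.d (nat_lit 561) (nat_lit 562) (nat_lit 2606) (nat_lit 589) (nat_lit 2605))) (.a (.f (nat_lit 593) (nat_lit 625) (nat_lit 4592) (.f (nat_lit 557) (nat_lit 558) (nat_lit 3629) (.f (nat_lit 589) (nat_lit 556) (nat_lit 3628) (.d (nat_lit 621) (nat_lit 620) (nat_lit 1612) (nat_lit 622) (nat_lit 1613))))) (.a (.f (nat_lit 589) (nat_lit 561) (nat_lit 2605) (.f (nat_lit 588) (nat_lit 559) (nat_lit 2604) (.d (nat_lit 620) (nat_lit 619) (nat_lit 1611) (nat_lit 621) (nat_lit 1612)))) (.f (nat_lit 593) (nat_lit 625) (nat_lit 4592) (.f (nat_lit 558) (nat_lit 557) (nat_lit 3629) (.f (nat_lit 622) (nat_lit 621) (nat_lit 1613) (.f (nat_lit 495) (nat_lit 463) (nat_lit 7631) (.d (nat_lit 527) (nat_lit 526) (nat_lit 6638) (nat_lit 559) (nat_lit 5614))))))))))) (.f (nat_lit 495) (nat_lit 463) (nat_lit 7631) (.f (nat_lit 497) (nat_lit 465) (nat_lit 6608) (.f (nat_lit 527) (nat_lit 624) (nat_lit 7663) (.d (nat_lit 526) (nat_lit 498) (nat_lit 1518) (nat_lit 525) (nat_lit 2541)))))))) (.a (.p (nat_lit 592) (.a (.f (nat_lit 593) (nat_lit 625) (nat_lit 4592) (.f (nat_lit 464) (nat_lit 561) (nat_lit 4560) (.d (nat_lit 465) (nat_lit 433) (nat_lit 6576) (nat_lit 497) (nat_lit 6608)))) (.a (.f (nat_lit 495) (nat_lit 463) (nat_lit 7631) (.f (nat_lit 497) (nat_lit 465) (nat_lit 6608) (.f (nat_lit 527) (nat_lit 624) (nat_lit 7663) (.d (nat_lit 526) (nat_lit 498) (nat_lit 1518) (nat_lit 525) (nat_lit 2541))))) (.f (nat_lit 593) (nat_lit 625) (nat_lit 4592) (.f (nat_lit 464) (nat_lit 561) (nat_lit 4560) (.d (nat_lit 463) (nat_lit 431) (nat_lit 7599) (nat_lit 495) (nat_lit 7631))))))) (.p (nat_lit 592) (.a (.f (nat_lit 591) (nat_lit 623) (nat_lit 5615) (.f (nat_lit 464) (nat_lit 559) (nat_lit 5583) (.d (nat_lit 593) (nat_lit 561) (nat_lit 4560) (nat_lit 625) (nat_lit 4592)))) (.a (.f (nat_lit 623) (nat_lit 591) (nat_lit 5615) (.f (nat_lit 624) (nat_lit 655) (nat_lit 5647) (.d (nat_lit 625) (nat_lit 593) (nat_lit 4592) (nat_lit 657) (nat_lit 4624)))) (.a (.f (nat_lit 593) (nat_lit 625) (nat_lit 4592) (.f (nat_lit 464) (nat_lit 561) (nat_lit 4560) (.d (nat_lit 463) (nat_lit 431) (nat_lit 7599) (nat_lit 495) (nat_lit 7631)))) (.f (nat_lit 591) (nat_lit 623) (nat_lit 5615) (.f (nat_lit 559) (nat_lit 464) (nat_lit 5583) (.f (nat_lit 495) (nat_lit 463) (nat_lit 7631) (.f (nat_lit 527) (nat_lit 624) (nat_lit 4591) (.f (nat_lit 590) (nat_lit 622) (nat_lit 5614) (.d (nat_lit 561) (nat_lit 562) (nat_lit 1582) (nat_lit 589) (nat_lit 2605)))))))))))))))) (.a (.p (nat_lit 496) (.a (.p (nat_lit 592) (.a (.f (nat_lit 593) (nat_lit 625) (nat_lit 4592) (.f (nat_lit 464) (nat_lit 561) (nat_lit 4560) (.d (nat_lit 465) (nat_lit 433) (nat_lit 6576) (nat_lit 497) (nat_lit 6608)))) (.a (.f (nat_lit 495) (nat_lit 463) (nat_lit 7631) (.f (nat_lit 527) (nat_lit 624) (nat_lit 7663) (.f (nat_lit 497) (nat_lit 465) (nat_lit 6608) (.d (nat_lit 526) (nat_lit 498) (nat_lit 1518) (nat_lit 525) (nat_lit 2541))))) (.f (nat_lit 593) (nat_lit 625) (nat_lit 4592) (.f (nat_lit 464) (nat_lit 561) (nat_lit 4560) (.d (nat_lit 463) (nat_lit 431) (nat_lit 7599) (nat_lit 495) (nat_lit 7631))))))) (.a (.p (nat_lit 592) (.a (.f (nat_lit 593) (nat_lit 625) (nat_lit 4592) (.f (nat_lit 464) (nat_lit 561) (nat_lit 4560) (.d (nat_lit 465) (nat_lit 433) (nat_lit 6576) (nat_lit 497) (nat_lit 6608)))) (.a (.f (nat_lit 495) (nat_lit 463) (nat_lit 7631) (.f (nat_lit 527) (nat_lit 624) (nat_lit 7663) (.f (nat_lit 497) (nat_lit 465) (nat_lit 6608) (.d (nat_lit 526) (nat_lit 498) (nat_lit 1518) (nat_lit 525) (nat_lit 2541))))) (.f (nat_lit 593) (nat_lit 625) (nat_lit 4592) (.f (nat_lit 561) (nat_lit 464) (nat_lit 4560) (.f (nat_lit 495) (nat_lit 463) (nat_lit 7631) (.f (nat_lit 527) (nat_lit 624) (nat_lit 7663) (.f (nat_lit 562) (nat_lit 563) (nat_lit 3599) (.d (nat_lit 526) (nat_lit 525) (nat_lit 525) (nat_lit 559) (nat_lit 3598)))))))))) (.a (.p (nat_lit 592) (.a (.f (nat_lit 495) (nat_lit 463) (nat_lit 7631) (.f (nat_lit 527) (nat_lit 624) (nat_lit 7663) (.f (nat_lit 497) (nat_lit 465) (nat_lit 6608) (.d (nat_lit 526) (nat_lit 498) (nat_lit 1518) (nat_lit 525) (nat_lit 2541))))) (.a (.f (nat_lit 593) (nat_lit 625) (nat_lit 4592) (.f (nat_lit 464) (nat_lit 561) (nat_lit 4560) (.d (nat_lit 463) (nat_lit 431) (nat_lit 7599) (nat_lit 495) (nat_lit 7631)))) (.a (.f (nat_lit 593) (nat_lit 625) (nat_lit 4592) (.f (nat_lit 464) (nat_lit 561) (nat_lit 4560) (.f (nat_lit 559) (nat_lit 591) (nat_lit 5583) (.f (nat_lit 432) (nat_lit 527) (nat_lit 5551) (.d (nat_lit 431) (nat_lit 399) (nat_lit 7567) (nat_lit 463) (nat_lit 7599)))))) (.f (nat_lit 593) (nat_lit 625) (nat_lit 4592) (.f (nat_lit 464) (nat_lit 561) (nat_lit 4560) (.f (nat_lit 559) (nat_lit 591) (nat_lit 5583) (.f (nat_lit 527) (nat_lit 432) (nat_lit 5551) (.d (nat_lit 624) (nat_lit 495) (nat_lit 7663) (nat_lit 656) (nat_lit 7695)))))))))) (.a (.p (nat_lit 464) (.a (.f (nat_lit 465) (nat_lit 433) (nat_lit 6576) (.f (nat_lit 497) (nat_lit 592) (nat_lit 6608) (.f (nat_lit 559) (nat_lit 591) (nat_lit 5583) (.f (nat_lit 527) (nat_lit 432) (nat_lit 5551) (.f (nat_lit 526) (nat_lit 525) (nat_lit 2541) (.d (nat_lit 498) (nat_lit 495) (nat_lit 1518) (nat_lit 499) (nat_lit 1519))))))) (.a (.f (nat_lit 465) (nat_lit 433) (nat_lit 6576) (.f (nat_lit 593) (nat_lit 561) (nat_lit 4560) (.d (nat_lit 592) (nat_lit 497) (nat_lit 6608) (nat_lit 625) (nat_lit 4592)))) (.a (.f (nat_lit 433) (nat_lit 465) (nat_lit 6576) (.f (nat_lit 432) (nat_lit 401) (nat_lit 6544) (.d (nat_lit 559) (nat_lit 527) (nat_lit 5551) (nat_lit 591) (nat_lit 5583)))) (.f (nat_lit 593) (nat_lit 561) (nat_lit 4560) (.f (nat_lit 559) (nat_lit 591) (nat_lit 5583) (.f (nat_lit 592) (nat_lit 625) (nat_lit 4592) (.f (nat_lit 527) (nat_lit 432) (nat_lit 5551) (.d (nat_lit 624) (nat_lit 495) (nat_lit 7663) (nat_lit 656) (nat_lit 7695)))))))))) (.a (.p (nat_lit 495) (.a (.f (nat_lit 592) (nat_lit 463) (nat_lit 7631) (.f (nat_lit 497) (nat_lit 465) (nat_lit 6608) (.f (nat_lit 527) (nat_lit 624) (nat_lit 7663) (.d (nat_lit 526) (nat_lit 498) (nat_lit 1518) (nat_lit 525) (nat_lit 2541))))) (.a (.p (nat_lit 497) (.a (.f (nat_lit 592) (nat_lit 465) (nat_lit 6608) (.f (nat_lit 527) (nat_lit 624) (nat_lit 7663) (.d (nat_lit 526) (nat_lit 498) (nat_lit 1518) (nat_lit 525) (nat_lit 2541)))) (.a (.f (nat_lit 465) (nat_lit 592) (nat_lit 6608) (.f (nat_lit 494) (nat_lit 466) (nat_lit 2510) (.f (nat_lit 525) (nat_lit 526) (nat_lit 1517) (.f (nat_lit 493) (nat_lit 524) (nat_lit 1516) (.d (nat_lit 461) (nat_lit 460) (nat_lit 3532) (nat_lit 462) (nat_lit 3533)))))) (.a s34002 (.a (.f (nat_lit 592) (nat_lit 465) (nat_lit 6608) (.f (nat_lit 624) (nat_lit 527) (nat_lit 7663) (.d (nat_lit 625) (nat_lit 593) (nat_lit 4592) (nat_lit 657) (nat_lit 4624)))) s34020))))) (.a (.f (nat_lit 463) (nat_lit 592) (nat_lit 7631) (.d (nat_lit 431) (nat_lit 399) (nat_lit 4495) (nat_lit 527) (nat_lit 4527))) (.a (.p (nat_lit 494) (.a s34040 (.a s34103 (.a (.p (nat_lit 493) (.a (.f (nat_lit 461) (nat_lit 460) (nat_lit 3532) (.f (nat_lit 525) (nat_lit 524) (nat_lit 1516) (.f (nat_lit 462) (nat_lit 497) (nat_lit 3533) (.d (nat_lit 430) (nat_lit 398) (nat_lit 5517) (nat_lit 557) (nat_lit 6573))))) (.a (.f (nat_lit 461) (nat_lit 460) (nat_lit 3532) (.f (nat_lit 497) (nat_lit 462) (nat_lit 3533) (.d (nat_lit 465) (nat_lit 466) (nat_lit 2510) (nat_lit 592) (nat_lit 6608)))) (.a (.f (nat_lit 460) (nat_lit 461) (nat_lit 3532) (.f (nat_lit 492) (nat_lit 459) (nat_lit 3531) (.d (nat_lit 524) (nat_lit 523) (nat_lit 1515) (nat_lit 525) (nat_lit 1516)))) (.a (.f (nat_lit 463) (nat_lit 592) (nat_lit 7631) (.f (nat_lit 524) (nat_lit 525) (nat_lit 1516) (.f (nat_lit 492) (nat_lit 523) (nat_lit 1515) (.f (nat_lit 491) (nat_lit 462) (nat_lit 2507) (.d (nat_lit 459) (nat_lit 458) (nat_lit 3530) (nat_lit 460) (nat_lit 3531)))))) (.f (nat_lit 463) (nat_lit 592) (nat_lit 7631) (.f (nat_lit 524) (nat_lit 525) (nat_lit 1516) (.f (nat_lit 492) (nat_lit 523) (nat_lit 1515) (.f (nat_lit 462) (nat_lit 491) (nat_lit 2507) (.d (nat_lit 497) (nat_lit 461) (nat_lit 3533) (nat_lit 498) (nat_lit 3534))))))))))) (.a (.p (nat_lit 497) (.a (.d (nat_lit 592) (nat_lit 463) (nat_lit 7631) (nat_lit 465) (nat_lit 6608)) (.a (.f (nat_lit 462) (nat_lit 461) (nat_lit 3533) (.f (nat_lit 498) (nat_lit 463) (nat_lit 3534) (.d (nat_lit 466) (nat_lit 465) (nat_lit 2510) (nat_lit 467) (nat_lit 2511)))) (.a (.d (nat_lit 465) (nat_lit 466) (nat_lit 2510) (nat_lit 592) (nat_lit 6608)) (.f (nat_lit 463) (nat_lit 592) (nat_lit 7631) (.d (nat_lit 462) (nat_lit 461) (nat_lit 3533) (nat_lit 498) (nat_lit 3534))))))) (.a (.p (nat_lit 526) (.a (.f (nat_lit 525) (nat_lit 497) (nat_lit 1517) (.d (nat_lit 524) (nat_lit 493) (nat_lit 1516) (nat_lit 523) (nat_lit 2539))) (.f (nat_lit 463) (nat_lit 592) (nat_lit 7631) (.f (nat_lit 431) (nat_lit 399) (nat_lit 4495) (.d (nat_lit 558) (nat_lit 462) (nat_lit 6574) (nat_lit 590) (nat_lit 6606)))))) (.a (.p (nat_lit 493) (.a (.f (nat_lit 460) (nat_lit 461) (nat_lit 3532) (.f (nat_lit 492) (nat_lit 459) (nat_lit 3531) (.d (nat_lit 524) (nat_lit 523) (nat_lit 1515) (nat_lit 525) (nat_lit 1516)))) (.a (.f (nat_lit 463) (nat_lit 592) (nat_lit 7631) (.f (nat_lit 460) (nat_lit 461) (nat_lit 3532) (.f (nat_lit 492) (nat_lit 459) (nat_lit 3531) (.f (nat_lit 523) (nat_lit 524) (nat_lit 1515) (.d (nat_lit 491) (nat_lit 462) (nat_lit 2507) (nat_lit 522) (nat_lit 1514)))))) (.a (.f (nat_lit 463) (nat_lit 592) (nat_lit 7631) (.f (nat_lit 524) (nat_lit 525) (nat_lit 1516) (.f (nat_lit 492) (nat_lit 523) (nat_lit 1515) (.f (nat_lit 491) (nat_lit 462) (nat_lit 2507) (.d (nat_lit 459) (nat_lit 458) (nat_lit 3530) (nat_lit 460) (nat_lit 3531)))))) (.a (.p (nat_lit 558) (.a (.f (nat_lit 463) (nat_lit 592) (nat_lit 7631) (.f (nat_lit 526) (nat_lit 590) (nat_lit 6606) (.d (nat_lit 431) (nat_lit 399) (nat_lit 4495) (nat_lit 462) (nat_lit 6574)))) (.a (.f (nat_lit 461) (nat_lit 460) (nat_lit 3532) (.f (nat_lit 526) (nat_lit 590) (nat_lit 7629) (.d (nat_lit 429) (nat_lit 397) (nat_lit 4493) (nat_lit 462) (nat_lit 7597)))) (.f (nat_lit 592) (nat_lit 463) (nat_lit 7631) (.f (nat_lit 593) (nat_lit 625) (nat_lit 4592) (.f (nat_lit 559) (nat_lit 557) (nat_lit 557) (.d (nat_lit 594) (nat_lit 561) (nat_lit 558) (nat_lit 591) (nat_lit 3630)))))))) (.p (nat_lit 557) (.a (.f (nat_lit 525) (nat_lit 524) (nat_lit 1516) (.f (nat_lit 589) (nat_lit 462) (nat_lit 6605) (.f (nat_lit 590) (nat_lit 622) (nat_lit 4589) (.f (nat_lit 558) (nat_lit 461) (nat_lit 4557) (.d (nat_lit 559) (nat_lit 561) (nat_lit 1581) (nat_lit 588) (nat_lit 1580)))))) (.a (.f (nat_lit 525) (nat_lit 524) (nat_lit 1516) (.f (nat_lit 589) (nat_lit 462) (nat_lit 6605) (.f (nat_lit 590) (nat_lit 622) (nat_lit 4589) (.f (nat_lit 558) (nat_lit 461) (nat_lit 4557) (.d (nat_lit 526) (nat_lit 463) (nat_lit 6606) (nat_lit 621) (nat_lit 6637)))))) (.a (.f (nat_lit 525) (nat_lit 524) (nat_lit 1516) (.f (nat_lit 589) (nat_lit 462) (nat_lit 6605) (.f (nat_lit 621) (nat_lit 526) (nat_lit 6637) (.d (nat_lit 620) (nat_lit 588) (nat_lit 5612) (nat_lit 652) (nat_lit 5644))))) (.a (.f (nat_lit 592) (nat_lit 463) (nat_lit 7631) (.f (nat_lit 593) (nat_lit 625) (nat_lit 4592) (.f (nat_lit 558) (nat_lit 559) (nat_lit 557) (.f (nat_lit 590) (nat_lit 591) (nat_lit 3629) (.f (nat_lit 526) (nat_lit 461) (nat_lit 7629) (.d (nat_lit 589) (nat_lit 462) (nat_lit 5581) (nat_lit 621) (nat_lit 5613))))))) (.f (nat_lit 525) (nat_lit 524) (nat_lit 1516) (.f (nat_lit 592) (nat_lit 463) (nat_lit 7631) (.f (nat_lit 593) (nat_lit 625) (nat_lit 4592) (.f (nat_lit 558) (nat_lit 559) (nat_lit 557) (.d (nat_lit 590) (nat_lit 461) (nat_lit 4557) (nat_lit 591) (nat_lit 3629)))))))))))))))) (.p (nat_lit 558) (.a (.f (nat_lit 592) (nat_lit 463) (nat_lit 7631) (.f (nat_lit 593) (nat_lit 625) (nat_lit 4592) (.f (nat_lit 559) (nat_lit 557) (nat_lit 557) (.d (nat_lit 594) (nat_lit 561) (nat_lit 558) (nat_lit 591) (nat_lit 3630))))) (.a (.p (nat_lit 526) (.a (.f (nat_lit 525) (nat_lit 497) (nat_lit 1517) (.d (nat_lit 524) (nat_lit 493) (nat_lit 1516) (nat_lit 523) (nat_lit 2539))) (.f (nat_lit 590) (nat_lit 463) (nat_lit 6606) (.f (nat_lit 589) (nat_lit 621) (nat_lit 5613) (.f (nat_lit 559) (nat_lit 561) (nat_lit 1581) (.d (nat_lit 588) (nat_lit 557) (nat_lit 1580) (nat_lit 587) (nat_lit 2603))))))) (.a (.f (nat_lit 463) (nat_lit 592) (nat_lit 7631) (.f (nat_lit 526) (nat_lit 590) (nat_lit 6606) (.f (nat_lit 525) (nat_lit 497) (nat_lit 1517) (.d (nat_lit 524) (nat_lit 493) (nat_lit 1516) (nat_lit 523) (nat_lit 2539))))) (.p (nat_lit 525) (.a (.f (nat_lit 526) (nat_lit 497) (nat_lit 1517) (.d (nat_lit 524) (nat_lit 493) (nat_lit 1516) (nat_lit 523) (nat_lit 2539))) (.a (.f (nat_lit 493) (nat_lit 524) (nat_lit 1516) (.f (nat_lit 461) (nat_lit 460) (nat_lit 3532) (.f (nat_lit 557) (nat_lit 590) (nat_lit 4557) (.f (nat_lit 588) (nat_lit 556) (nat_lit 5580) (.d (nat_lit 589) (nat_lit 559) (nat_lit 1580) (nat_lit 620) (nat_lit 5612)))))) (.f (nat_lit 497) (nat_lit 526) (nat_lit 1517) (.d (nat_lit 465) (nat_lit 466) (nat_lit 2510) (nat_lit 592) (nat_lit 6608))))))))))))))))) (.p (nat_lit 494) (.a (.p (nat_lit 493) (.a (.f (nat_lit 525) (nat_lit 524) (nat_lit 1516) (.f (nat_lit 461) (nat_lit 460) (nat_lit 3532) (.d (nat_lit 497) (nat_lit 462) (nat_lit 3533) (nat_lit 526) (nat_lit 1517)))) (.a (.f (nat_lit 461) (nat_lit 460) (nat_lit 3532) (.f (nat_lit 525) (nat_lit 524) (nat_lit 1516) (.f (nat_lit 462) (nat_lit 497) (nat_lit 3533) (.d (nat_lit 430) (nat_lit 398) (nat_lit 5517) (nat_lit 557) (nat_lit 6573))))) (.a (.f (nat_lit 492) (nat_lit 527) (nat_lit 492) (.d (nat_lit 460) (nat_lit 459) (nat_lit 3531) (nat_lit 461) (nat_lit 3532))) (.f (nat_lit 525) (nat_lit 524) (nat_lit 1516) (.f (nat_lit 526) (nat_lit 497) (nat_lit 1517) (.d (nat_lit 527) (nat_lit 492) (nat_lit 492) (nat_lit 561) (nat_lit 525)))))))) (.a s34103 (.a (.p (nat_lit 493) (.a (.f (nat_lit 525) (nat_lit 524) (nat_lit 1516) (.f (nat_lit 461) (nat_lit 460) (nat_lit 3532) (.d (nat_lit 497) (nat_lit 462) (nat_lit 3533) (nat_lit 526) (nat_lit 1517)))) (.a (.f (nat_lit 461) (nat_lit 460) (nat_lit 3532) (.f (nat_lit 525) (nat_lit 524) (nat_lit 1516) (.f (nat_lit 462) (nat_lit 497) (nat_lit 3533) (.d (nat_lit 430) (nat_lit 398) (nat_lit 5517) (nat_lit 557) (nat_lit 6573))))) (.a (.f (nat_lit 492) (nat_lit 527) (nat_lit 492) (.d (nat_lit 460) (nat_lit 459) (nat_lit 3531) (nat_lit 461) (nat_lit 3532))) (.f (nat_lit 492) (nat_lit 527) (nat_lit 492) (.d (nat_lit 524) (nat_lit 523) (nat_lit 1515) (nat_lit 525) (nat_lit 1516))))))) (.a (.p (nat_lit 493) (.a (.f (nat_lit 461) (nat_lit 460) (nat_lit 3532) (.f (nat_lit 525) (nat_lit 524) (nat_lit 1516) (.f (nat_lit 462) (nat_lit 497) (nat_lit 3533) (.d (nat_lit 430) (nat_lit 398) (nat_lit 5517) (nat_lit 557) (nat_lit 6573))))) (.a (.f (nat_lit 492) (nat_lit 527) (nat_lit 492) (.d (nat_lit 460) (nat_lit 459) (nat_lit 3531) (nat_lit 461) (nat_lit 3532))) (.f (nat_lit 492) (nat_lit 527) (nat_lit 492) (.d (nat_lit 524) (nat_lit 523) (nat_lit 1515) (nat_lit 525) (nat_lit 1516)))))) (.a s34221 (.a (.p (nat_lit 527) (.a (.f (nat_lit 493) (nat_lit 492) (nat_lit 492) (.f (nat_lit 525) (nat_lit 524) (nat_lit 1516) (.f (nat_lit 526) (nat_lit 561) (nat_lit 525) (.f (nat_lit 557) (nat_lit 556) (nat_lit 1548) (.d (nat_lit 462) (nat_lit 430) (nat_lit 5549) (nat_lit 589) (nat_lit 6605)))))) (.a (.p (nat_lit 462) (.a (.f (nat_lit 463) (nat_lit 431) (nat_lit 4527) (.d (nat_lit 430) (nat_lit 398) (nat_lit 4494) (nat_lit 559) (nat_lit 7598))) (.a (.f (nat_lit 431) (nat_lit 463) (nat_lit 4527) (.f (nat_lit 430) (nat_lit 398) (nat_lit 4494) (.f (nat_lit 526) (nat_lit 399) (nat_lit 6542) (.f (nat_lit 429) (nat_lit 397) (nat_lit 7565) (.f (nat_lit 461) (nat_lit 558) (nat_lit 7597) (.d (nat_lit 493) (nat_lit 460) (nat_lit 3532) (nat_lit 492) (nat_lit 492))))))) (.a (.f (nat_lit 430) (nat_lit 398) (nat_lit 4494) (.d (nat_lit 559) (nat_lit 526) (nat_lit 4526) (nat_lit 591) (nat_lit 7630))) (.f (nat_lit 463) (nat_lit 431) (nat_lit 4527) (.f (nat_lit 461) (nat_lit 460) (nat_lit 460) (.f (nat_lit 559) (nat_lit 591) (nat_lit 7630) (.f (nat_lit 558) (nat_lit 590) (nat_lit 5582) (.f (nat_lit 526) (nat_lit 429) (nat_lit 7597) (.d (nat_lit 557) (nat_lit 556) (nat_lit 2572) (nat_lit 589) (nat_lit 5581))))))))))) (.a (.p (nat_lit 462) (.a (.f (nat_lit 463) (nat_lit 431) (nat_lit 4527) (.d (nat_lit 430) (nat_lit 398) (nat_lit 4494) (nat_lit 559) (nat_lit 7598))) (.a (.f (nat_lit 463) (nat_lit 431) (nat_lit 4527) (.f (nat_lit 493) (nat_lit 492) (nat_lit 492) (.f (nat_lit 461) (nat_lit 460) (nat_lit 460) (.f (nat_lit 430) (nat_lit 398) (nat_lit 4494) (.d (nat_lit 525) (nat_lit 524) (nat_lit 1516) (nat_lit 557) (nat_lit 6573)))))) (.a (.f (nat_lit 493) (nat_lit 492) (nat_lit 492) (.f (nat_lit 525) (nat_lit 524) (nat_lit 1516) (.f (nat_lit 430) (nat_lit 398) (nat_lit 4494) (.d (nat_lit 557) (nat_lit 461) (nat_lit 6573) (nat_lit 589) (nat_lit 6605))))) (.f (nat_lit 463) (nat_lit 431) (nat_lit 4527) (.f (nat_lit 493) (nat_lit 492) (nat_lit 492) (.f (nat_lit 461) (nat_lit 460) (nat_lit 460) (.f (nat_lit 525) (nat_lit 524) (nat_lit 1516) (.f (nat_lit 557) (nat_lit 589) (nat_lit 6605) (.f (nat_lit 559) (nat_lit 591) (nat_lit 7630) (.d (nat_lit 556) (nat_lit 558) (nat_lit 2572) (nat_lit 588) (nat_lit 5580)))))))))))) (.a (.f (nat_lit 463) (nat_lit 431) (nat_lit 4527) (.f (nat_lit 493) (nat_lit 492) (nat_lit 492) (.f (nat_lit 525) (nat_lit 524) (nat_lit 1516) (.f (nat_lit 526) (nat_lit 561) (nat_lit 525) (.f (nat_lit 558) (nat_lit 590) (nat_lit 6606) (.d (nat_lit 461) (nat_lit 429) (nat_lit 4525) (nat_lit 460) (nat_lit 3532))))))) (.p (nat_lit 559) (.a (.f (nat_lit 463) (nat_lit 431) (nat_lit 4527) (.d (nat_lit 462) (nat_lit 430) (nat_lit 7598) (nat_lit 591) (nat_lit 7630))) (.a (.f (nat_lit 462) (nat_lit 591) (nat_lit 7630) (.d (nat_lit 430) (nat_lit 398) (nat_lit 4494) (nat_lit 526) (nat_lit 4526))) (.a (.f (nat_lit 463) (nat_lit 431) (nat_lit 4527) (.f (nat_lit 462) (nat_lit 430) (nat_lit 7598) (.f (nat_lit 558) (nat_lit 590) (nat_lit 5582) (.f (nat_lit 461) (nat_lit 460) (nat_lit 460) (.f (nat_lit 526) (nat_lit 429) (nat_lit 7597) (.d (nat_lit 557) (nat_lit 556) (nat_lit 2572) (nat_lit 589) (nat_lit 5581))))))) (.f (nat_lit 463) (nat_lit 431) (nat_lit 4527) (.f (nat_lit 558) (nat_lit 590) (nat_lit 5582) (.f (nat_lit 557) (nat_lit 556) (nat_lit 2572) (.f (nat_lit 525) (nat_lit 524) (nat_lit 3596) (.f (nat_lit 561) (nat_lit 526) (nat_lit 525) (.f (nat_lit 562) (nat_lit 563) (nat_lit 3599) (.d (nat_lit 594) (nat_lit 593) (nat_lit 558) (nat_lit 595) (nat_lit 559))))))))))))))))) (.a (.p (nat_lit 493) (.a (.f (nat_lit 460) (nat_lit 461) (nat_lit 3532) (.f (nat_lit 492) (nat_lit 459) (nat_lit 3531) (.d (nat_lit 524) (nat_lit 523) (nat_lit 1515) (nat_lit 525) (nat_lit 1516)))) (.a (.f (nat_lit 492) (nat_lit 527) (nat_lit 492) (.d (nat_lit 460) (nat_lit 459) (nat_lit 3531) (nat_lit 461) (nat_lit 3532))) (.a (.f (nat_lit 525) (nat_lit 524) (nat_lit 1516) (.f (nat_lit 526) (nat_lit 497) (nat_lit 1517) (.d (nat_lit 527) (nat_lit 492) (nat_lit 492) (nat_lit 561) (nat_lit 525)))) (.f (nat_lit 525) (nat_lit 524) (nat_lit 1516) (.f (nat_lit 526) (nat_lit 497) (nat_lit 1517) (.f (nat_lit 461) (nat_lit 460) (nat_lit 3532) (.d (nat_lit 429) (nat_lit 397) (nat_lit 4493) (nat_lit 558) (nat_lit 4525))))))))) (.a (.p (nat_lit 463) (.a (.d (nat_lit 431) (nat_lit 399) (nat_lit 4495) (nat_lit 527) (nat_lit 4527)) (.a (.p (nat_lit 526) (.a (.f (nat_lit 431) (nat_lit 399) (nat_lit 4495) (.d (nat_lit 558) (nat_lit 462) (nat_lit 6574) (nat_lit 590) (nat_lit 6606))) (.a (.f (nat_lit 497) (nat_lit 525) (nat_lit 1517) (.f (nat_lit 498) (nat_lit 462) (nat_lit 3534) (.d (nat_lit 466) (nat_lit 465) (nat_lit 2510) (nat_lit 467) (nat_lit 2511)))) (.f (nat_lit 525) (nat_lit 497) (nat_lit 1517) (.d (nat_lit 524) (nat_lit 493) (nat_lit 1516) (nat_lit 523) (nat_lit 2539)))))) (.p (nat_lit 493) (.a (.f (nat_lit 492) (nat_lit 527) (nat_lit 492) (.d (nat_lit 524) (nat_lit 523) (nat_lit 1515) (nat_lit 525) (nat_lit 1516))) (.a (.f (nat_lit 525) (nat_lit 524) (nat_lit 1516) (.f (nat_lit 497) (nat_lit 526) (nat_lit 1517) (.f (nat_lit 498) (nat_lit 462) (nat_lit 3534) (.d (nat_lit 466) (nat_lit 465) (nat_lit 2510) (nat_lit 467) (nat_lit 2511))))) (.a (.f (nat_lit 492) (nat_lit 527) (nat_lit 492) (.f (nat_lit 491) (nat_lit 462) (nat_lit 2507) (.d (nat_lit 523) (nat_lit 522) (nat_lit 1514) (nat_lit 524) (nat_lit 1515)))) (.f (nat_lit 492) (nat_lit 527) (nat_lit 492) (.f (nat_lit 491) (nat_lit 462) (nat_lit 2507) (.d (nat_lit 459) (nat_lit 458) (nat_lit 3530) (nat_lit 460) (nat_lit 3531))))))))))) (.a (.p (nat_lit 462) (.a (.f (nat_lit 497) (nat_lit 461) (nat_lit 3533) (.f (nat_lit 526) (nat_lit 525) (nat_lit 1517) (.d (nat_lit 498) (nat_lit 463) (nat_lit 3534) (nat_lit 527) (nat_lit 1518)))) (.a (.f (nat_lit 497) (nat_lit 461) (nat_lit 3533) (.f (nat_lit 526) (nat_lit 525) (nat_lit 1517) (.f (nat_lit 463) (nat_lit 498) (nat_lit 3534) (.d (nat_lit 431) (nat_lit 399) (nat_lit 4495) (nat_lit 558) (nat_lit 6574))))) (.a (.f (nat_lit 497) (nat_lit 461) (nat_lit 3533) (.f (nat_lit 498) (nat_lit 463) (nat_lit 3534) (.d (nat_lit 466) (nat_lit 465) (nat_lit 2510) (nat_lit 467) (nat_lit 2511)))) (.a (.f (nat_lit 497) (nat_lit 461) (nat_lit 3533) (.f (nat_lit 526) (nat_lit 525) (nat_lit 1517) (.f (nat_lit 527) (nat_lit 498) (nat_lit 1518) (.d (nat_lit 430) (nat_lit 398) (nat_lit 4494) (nat_lit 559) (nat_lit 4526))))) (.a (.p (nat_lit 527) (.a (.f (nat_lit 463) (nat_lit 431) (nat_lit 4527) (.d (nat_lit 430) (nat_lit 398) (nat_lit 4494) (nat_lit 559) (nat_lit 7598))) (.a (.f (nat_lit 431) (nat_lit 463) (nat_lit 4527) (.f (nat_lit 430) (nat_lit 398) (nat_lit 4494) (.f (nat_lit 526) (nat_lit 399) (nat_lit 6542) (.d (nat_lit 525) (nat_lit 557) (nat_lit 5549) (nat_lit 561) (nat_lit 525))))) (.a (.f (nat_lit 430) (nat_lit 398) (nat_lit 4494) (.d (nat_lit 559) (nat_lit 526) (nat_lit 4526) (nat_lit 591) (nat_lit 7630))) (.f (nat_lit 463) (nat_lit 431) (nat_lit 4527) (.f (nat_lit 461) (nat_lit 460) (nat_lit 460) (.f (nat_lit 559) (nat_lit 591) (nat_lit 7630) (.f (nat_lit 558) (nat_lit 590) (nat_lit 5582) (.f (nat_lit 526) (nat_lit 429) (nat_lit 7597) (.d (nat_lit 557) (nat_lit 556) (nat_lit 2572) (nat_lit 589) (nat_lit 5581))))))))))) (.p (nat_lit 527) (.a (.f (nat_lit 463) (nat_lit 431) (nat_lit 4527) (.d (nat_lit 430) (nat_lit 398) (nat_lit 4494) (nat_lit 559) (nat_lit 7598))) (.a (.f (nat_lit 431) (nat_lit 463) (nat_lit 4527) (.f (nat_lit 430) (nat_lit 398) (nat_lit 4494) (.f (nat_lit 526) (nat_lit 399) (nat_lit 6542) (.d (nat_lit 525) (nat_lit 557) (nat_lit 5549) (nat_lit 561) (nat_lit 525))))) (.a (.f (nat_lit 430) (nat_lit 398) (nat_lit 4494) (.d (nat_lit 559) (nat_lit 526) (nat_lit 4526) (nat_lit 591) (nat_lit 7630))) (.f (nat_lit 463) (nat_lit 431) (nat_lit 4527) (.f (nat_lit 497) (nat_lit 498) (nat_lit 3534) (.f (nat_lit 526) (nat_lit 525) (nat_lit 1517) (.f (nat_lit 558) (nat_lit 590) (nat_lit 6606) (.f (nat_lit 559) (nat_lit 591) (nat_lit 7630) (.d (nat_lit 557) (nat_lit 556) (nat_lit 2572) (nat_lit 589) (nat_lit 5581))))))))))))))))) (.p (nat_lit 497) (.a (.f (nat_lit 526) (nat_lit 525) (nat_lit 1517) (.f (nat_lit 527) (nat_lit 498) (nat_lit 1518) (.f (nat_lit 462) (nat_lit 461) (nat_lit 3533) (.d (nat_lit 430) (nat_lit 398) (nat_lit 4494) (nat_lit 559) (nat_lit 4526))))) (.a (.f (nat_lit 462) (nat_lit 461) (nat_lit 3533) (.f (nat_lit 498) (nat_lit 463) (nat_lit 3534) (.d (nat_lit 466) (nat_lit 465) (nat_lit 2510) (nat_lit 467) (nat_lit 2511)))) (.a (.f (nat_lit 526) (nat_lit 525) (nat_lit 1517) (.f (nat_lit 498) (nat_lit 527) (nat_lit 1518) (.d (nat_lit 466) (nat_lit 465) (nat_lit 2510) (nat_lit 467) (nat_lit 2511)))) (.f (nat_lit 525) (nat_lit 526) (nat_lit 1517) (.f (nat_lit 493) (nat_lit 524) (nat_lit 1516) (.f (nat_lit 462) (nat_lit 461) (nat_lit 3533) (.f (nat_lit 527) (nat_lit 492) (nat_lit 492) (.f (nat_lit 430) (nat_lit 398) (nat_lit 5517) (.d (nat_lit 559) (nat_lit 463) (nat_lit 7598) (nat_lit 591) (nat_lit 7630)))))))))))))))))))))))))) (.a (.p (nat_lit 464) (.a (.f (nat_lit 593) (nat_lit 561) (nat_lit 4560) (.f (nat_lit 559) (nat_lit 591) (nat_lit 5583) (.f (nat_lit 592) (nat_lit 625) (nat_lit 4592) (.f (nat_lit 527) (nat_lit 432) (nat_lit 5551) (.d (nat_lit 624) (nat_lit 495) (nat_lit 7663) (nat_lit 656) (nat_lit 7695)))))) (.a (.f (nat_lit 463) (nat_lit 431) (nat_lit 7599) (.f (nat_lit 593) (nat_lit 561) (nat_lit 4560) (.d (nat_lit 592) (nat_lit 495) (nat_lit 7631) (nat_lit 625) (nat_lit 4592)))) (.f (nat_lit 431) (nat_lit 463) (nat_lit 7599) (.f (nat_lit 432) (nat_lit 399) (nat_lit 7567) (.d (nat_lit 559) (nat_lit 527) (nat_lit 5551) (nat_lit 591) (nat_lit 5583))))))) (.a (.p (nat_lit 464) (.a (.f (nat_lit 465) (nat_lit 433) (nat_lit 6576) (.f (nat_lit 593) (nat_lit 561) (nat_lit 4560) (.d (nat_lit 592) (nat_lit 497) (nat_lit 6608) (nat_lit 625) (nat_lit 4592)))) (.a (.f (nat_lit 433) (nat_lit 465) (nat_lit 6576) (.f (nat_lit 432) (nat_lit 401) (nat_lit 6544) (.d (nat_lit 559) (nat_lit 527) (nat_lit 5551) (nat_lit 591) (nat_lit 5583)))) (.f (nat_lit 431) (nat_lit 463) (nat_lit 7599) (.f (nat_lit 432) (nat_lit 399) (nat_lit 7567) (.d (nat_lit 559) (nat_lit 527) (nat_lit 5551) (nat_lit 591) (nat_lit 5583))))))) (.a (.p (nat_lit 464) (.a (.f (nat_lit 465) (nat_lit 433) (nat_lit 6576) (.f (nat_lit 593) (nat_lit 561) (nat_lit 4560) (.d (nat_lit 592) (nat_lit 497) (nat_lit 6608) (nat_lit 625) (nat_lit 4592)))) (.a (.f (nat_lit 433) (nat_lit 465) (nat_lit 6576) (.f (nat_lit 432) (nat_lit 401) (nat_lit 6544) (.d (nat_lit 431) (nat_lit 399) (nat_lit 7567) (nat_lit 463) (nat_lit 7599)))) (.f (nat_lit 463) (nat_lit 431) (nat_lit 7599) (.f (nat_lit 593) (nat_lit 561) (nat_lit 4560) (.d (nat_lit 592) (nat_lit 495) (nat_lit 7631) (nat_lit 625) (nat_lit 4592))))))) (.a (.p (nat_lit 592) (.a (.f (nat_lit 495) (nat_lit 463) (nat_lit 7631) (.f (nat_lit 527) (nat_lit 624) (nat_lit 7663) (.f (nat_lit 497) (nat_lit 465) (nat_lit 6608) (.d (nat_lit 526) (nat_lit 498) (nat_lit 1518) (nat_lit 525) (nat_lit 2541))))) (.a (.f (nat_lit 463) (nat_lit 495) (nat_lit 7631) (.f (nat_lit 464) (nat_lit 431) (nat_lit 7599) (.d (nat_lit 465) (nat_lit 433) (nat_lit 6576) (nat_lit 497) (nat_lit 6608)))) (.a (.f (nat_lit 625) (nat_lit 593) (nat_lit 4592) (.f (nat_lit 624) (nat_lit 657) (nat_lit 4624) (.f (nat_lit 465) (nat_lit 497) (nat_lit 6608) (.f (nat_lit 464) (nat_lit 433) (nat_lit 6576) (.f (nat_lit 559) (nat_lit 591) (nat_lit 5583) (.d (nat_lit 527) (nat_lit 432) (nat_lit 5551) (nat_lit 656) (nat_lit 7695))))))) (.f (nat_lit 625) (nat_lit 593) (nat_lit 4592) (.f (nat_lit 624) (nat_lit 657) (nat_lit 4624) (.f (nat_lit 527) (nat_lit 495) (nat_lit 7663) (.f (nat_lit 559) (nat_lit 656) (nat_lit 7695) (.d (nat_lit 464) (nat_lit 432) (nat_lit 5551) (nat_lit 591) (nat_lit 5583)))))))))) (.a (.p (nat_lit 464) (.a (.f (nat_lit 433) (nat_lit 465) (nat_lit 6576) (.f (nat_lit 432) (nat_lit 401) (nat_lit 6544) (.d (nat_lit 559) (nat_lit 527) (nat_lit 5551) (nat_lit 591) (nat_lit 5583)))) (.a (.f (nat_lit 433) (nat_lit 465) (nat_lit 6576) (.f (nat_lit 432) (nat_lit 401) (nat_lit 6544) (.d (nat_lit 431) (nat_lit 399) (nat_lit 7567) (nat_lit 463) (nat_lit 7599)))) (.a (.f (nat_lit 431) (nat_lit 463) (nat_lit 7599) (.f (nat_lit 432) (nat_lit 399) (nat_lit 7567) (.d (nat_lit 559) (nat_lit 527) (nat_lit 5551) (nat_lit 591) (nat_lit 5583)))) s33836)))) (.p (nat_lit 464) (.a (.f (nat_lit 465) (nat_lit 433) (nat_lit 6576) (.f (nat_lit 497) (nat_lit 592) (nat_lit 6608) (.f (nat_lit 559) (nat_lit 591) (nat_lit 5583) (.f (nat_lit 527) (nat_lit 432) (nat_lit 5551) (.f (nat_lit 526) (nat_lit 525) (nat_lit 2541) (.d (nat_lit 498) (nat_lit 495) (nat_lit 1518) (nat_lit 499) (nat_lit 1519))))))) (.a (.f (nat_lit 433) (nat_lit 465) (nat_lit 6576) (.f (nat_lit 432) (nat_lit 401) (nat_lit 6544) (.d (nat_lit 431) (nat_lit 399) (nat_lit 7567) (nat_lit 463) (nat_lit 7599)))) (.a (.f (nat_lit 431) (nat_lit 463) (nat_lit 7599) (.f (nat_lit 432) (nat_lit 399) (nat_lit 7567) (.d (nat_lit 559) (nat_lit 527) (nat_lit 5551) (nat_lit 591) (nat_lit 5583)))) (.f (nat_lit 463) (nat_lit 431) (nat_lit 7599) (.f (nat_lit 465) (nat_lit 433) (nat_lit 6576) (.d (nat_lit 592) (nat_lit 495) (nat_lit 7631) (nat_lit 497) (nat_lit 6608))))))))))))))))))) (.a s117622 (.a (.p (nat_lit 592) (.a (.p (nat_lit 496) (.a (.f (nat_lit 591) (nat_lit 623) (nat_lit 5615) (.f (nat_lit 593) (nat_lit 625) (nat_lit 4592) (.d (nat_lit 464) (nat_lit 559) (nat_lit 5583) (nat_lit 561) (nat_lit 4560)))) (.a (.f (nat_lit 623) (nat_lit 591) (nat_lit 5615) (.f (nat_lit 624) (nat_lit 655) (nat_lit 5647) (.d (nat_lit 625) (nat_lit 593) (nat_lit 4592) (nat_lit 657) (nat_lit 4624)))) (.a (.f (nat_lit 593) (nat_lit 625) (nat_lit 4592) (.f (nat_lit 464) (nat_lit 561) (nat_lit 4560) (.d (nat_lit 465) (nat_lit 433) (nat_lit 6576) (nat_lit 497) (nat_lit 6608)))) (.f (nat_lit 591) (nat_lit 623) (nat_lit 5615) (.f (nat_lit 464) (nat_lit 559) (nat_lit 5583) (.d (nat_lit 465) (nat_lit 433) (nat_lit 6576) (nat_lit 497) (nat_lit 6608)))))))) (.a (.p (nat_lit 624) (.a (.f (nat_lit 625) (nat_lit 657) (nat_lit 4624) (.f (nat_lit 623) (nat_lit 655) (nat_lit 5647) (.d (nat_lit 496) (nat_lit 591) (nat_lit 5615) (nat_lit 593) (nat_lit 4592)))) (.a (.f (nat_lit 657) (nat_lit 625) (nat_lit 4624) (.f (nat_lit 656) (nat_lit 689) (nat_lit 4656) (.d (nat_lit 655) (nat_lit 623) (nat_lit 5647) (nat_lit 687) (nat_lit 5679)))) (.a (.f (nat_lit 625) (nat_lit 657) (nat_lit 4624) (.f (nat_lit 593) (nat_lit 496) (nat_lit 4592) (.f (nat_lit 527) (nat_lit 495) (nat_lit 7663) (.f (nat_lit 656) (nat_lit 559) (nat_lit 7695) (.d (nat_lit 688) (nat_lit 561) (nat_lit 6704) (nat_lit 720) (nat_lit 6736)))))) (.f (nat_lit 623) (nat_lit 655) (nat_lit 5647) (.f (nat_lit 591) (nat_lit 496) (nat_lit 5615) (.f (nat_lit 527) (nat_lit 495) (nat_lit 7663) (.f (nat_lit 559) (nat_lit 656) (nat_lit 4623) (.f (nat_lit 526) (nat_lit 494) (nat_lit 7662) (.d (nat_lit 525) (nat_lit 524) (nat_lit 524) (nat_lit 561) (nat_lit 525))))))))))) (.a (.p (nat_lit 624) (.a (.f (nat_lit 657) (nat_lit 625) (nat_lit 4624) (.f (nat_lit 656) (nat_lit 689) (nat_lit 4656) (.d (nat_lit 655) (nat_lit 623) (nat_lit 5647) (nat_lit 687) (nat_lit 5679)))) (.a (.f (nat_lit 657) (nat_lit 625) (nat_lit 4624) (.f (nat_lit 656) (nat_lit 689) (nat_lit 4656) (.d (nat_lit 527) (nat_lit 495) (nat_lit 7663) (nat_lit 559) (nat_lit 7695)))) (.a (.f (nat_lit 527) (nat_lit 495) (nat_lit 7663) (.f (nat_lit 656) (nat_lit 559) (nat_lit 7695) (.d (nat_lit 655) (nat_lit 623) (nat_lit 5647) (nat_lit 687) (nat_lit 5679)))) (.f (nat_lit 623) (nat_lit 655) (nat_lit 5647) (.p (nat_lit 622) (.a (.f (nat_lit 625) (nat_lit 657) (nat_lit 4624) (.d (nat_lit 593) (nat_lit 594) (nat_lit 2638) (nat_lit 621) (nat_lit 2637))) (.a (.f (nat_lit 625) (nat_lit 657) (nat_lit 4624) (.f (nat_lit 590) (nat_lit 589) (nat_lit 3661) (.f (nat_lit 591) (nat_lit 626) (nat_lit 3662) (.f (nat_lit 654) (nat_lit 653) (nat_lit 1645) (.d (nat_lit 527) (nat_lit 495) (nat_lit 7663) (nat_lit 559) (nat_lit 5646)))))) (.f (nat_lit 621) (nat_lit 593) (nat_lit 2637) (.f (nat_lit 620) (nat_lit 591) (nat_lit 2636) (.d (nat_lit 652) (nat_lit 651) (nat_lit 1643) (nat_lit 653) (nat_lit 1644)))))))))))) (.a (.p (nat_lit 496) (.a (.f (nat_lit 591) (nat_lit 623) (nat_lit 5615) (.f (nat_lit 593) (nat_lit 625) (nat_lit 4592) (.d (nat_lit 464) (nat_lit 559) (nat_lit 5583) (nat_lit 561) (nat_lit 4560)))) (.a (.p (nat_lit 561) (.a (.f (nat_lit 591) (nat_lit 623) (nat_lit 5615) (.f (nat_lit 593) (nat_lit 625) (nat_lit 4592) (.d (nat_lit 590) (nat_lit 562) (nat_lit 2606) (nat_lit 589) (nat_lit 2605)))) (.a (.p (nat_lit 527) (.a (.f (nat_lit 562) (nat_lit 563) (nat_lit 3599) (.d (nat_lit 526) (nat_lit 525) (nat_lit 525) (nat_lit 559) (nat_lit 3598))) (.a (.f (nat_lit 497) (nat_lit 465) (nat_lit 6608) (.f (nat_lit 526) (nat_lit 525) (nat_lit 2541) (.d (nat_lit 498) (nat_lit 495) (nat_lit 1518) (nat_lit 499) (nat_lit 1519)))) (.f (nat_lit 593) (nat_lit 625) (nat_lit 4592) (.f (nat_lit 562) (nat_lit 563) (nat_lit 3599) (.f (nat_lit 497) (nat_lit 465) (nat_lit 6608) (.f (nat_lit 498) (nat_lit 499) (nat_lit 1519) (.f (nat_lit 530) (nat_lit 466) (nat_lit 5585) (.d (nat_lit 531) (nat_lit 495) (nat_lit 495) (nat_lit 559) (nat_lit 2575)))))))))) (.a (.f (nat_lit 591) (nat_lit 623) (nat_lit 5615) (.f (nat_lit 562) (nat_lit 563) (nat_lit 1583) (.d (nat_lit 590) (nat_lit 559) (nat_lit 1582) (nat_lit 589) (nat_lit 2605)))) (.f (nat_lit 593) (nat_lit 625) (nat_lit 4592) (.f (nat_lit 591) (nat_lit 623) (nat_lit 5615) (.f (nat_lit 590) (nat_lit 589) (nat_lit 2605) (.f (nat_lit 558) (nat_lit 557) (nat_lit 3629) (.f (nat_lit 594) (nat_lit 559) (nat_lit 558) (.f (nat_lit 595) (nat_lit 596) (nat_lit 3632) (.d (nat_lit 627) (nat_lit 626) (nat_lit 591) (nat_lit 628) (nat_lit 592)))))))))))) (.a (.f (nat_lit 591) (nat_lit 623) (nat_lit 5615) (.f (nat_lit 464) (nat_lit 559) (nat_lit 5583) (.d (nat_lit 465) (nat_lit 433) (nat_lit 6576) (nat_lit 497) (nat_lit 6608)))) (.f (nat_lit 593) (nat_lit 625) (nat_lit 4592) (.f (nat_lit 464) (nat_lit 561) (nat_lit 4560) (.d (nat_lit 465) (nat_lit 433) (nat_lit 6576) (nat_lit 497) (nat_lit 6608)))))))) (.a (.p (nat_lit 623) (.a (.f (nat_lit 624) (nat_lit 655) (nat_lit 5647) (.f (nat_lit 625) (nat_lit 657) (nat_lit 4624) (.d (nat_lit 496) (nat_lit 591) (nat_lit 5615) (nat_lit 593) (nat_lit 4592)))) (.a (.f (nat_lit 624) (nat_lit 655) (nat_lit 5647) (.p (nat_lit 593) (.a (.f (nat_lit 625) (nat_lit 657) (nat_lit 4624) (.d (nat_lit 594) (nat_lit 595) (nat_lit 1615) (nat_lit 622) (nat_lit 2638))) (.a (.f (nat_lit 594) (nat_lit 595) (nat_lit 1615) (.d (nat_lit 622) (nat_lit 591) (nat_lit 1614) (nat_lit 621) (nat_lit 2637))) (.a (.f (nat_lit 625) (nat_lit 657) (nat_lit 4624) (.f (nat_lit 622) (nat_lit 621) (nat_lit 2637) (.f (nat_lit 590) (nat_lit 589) (nat_lit 3661) (.f (nat_lit 591) (nat_lit 626) (nat_lit 590) (.f (nat_lit 561) (nat_lit 562) (nat_lit 2606) (.f (nat_lit 558) (nat_lit 557) (nat_lit 3629) (.f (nat_lit 526) (nat_lit 494) (nat_lit 4590) (.d (nat_lit 527) (nat_lit 495) (nat_lit 7663) (nat_lit 525) (nat_lit 525))))))))) (.f (nat_lit 657) (nat_lit 625) (nat_lit 4624) (.f (nat_lit 656) (nat_lit 689) (nat_lit 4656) (.f (nat_lit 688) (nat_lit 561) (nat_lit 6704) (.f (nat_lit 720) (nat_lit 591) (nat_lit 7759) (.d (nat_lit 719) (nat_lit 687) (nat_lit 5711) (nat_lit 751) (nat_lit 5743))))))))))) (.a (.f (nat_lit 496) (nat_lit 591) (nat_lit 5615) (.f (nat_lit 593) (nat_lit 625) (nat_lit 4592) (.f (nat_lit 464) (nat_lit 561) (nat_lit 4560) (.d (nat_lit 465) (nat_lit 433) (nat_lit 6576) (nat_lit 497) (nat_lit 6608))))) (.a (.f (nat_lit 624) (nat_lit 655) (nat_lit 5647) (.f (nat_lit 625) (nat_lit 657) (nat_lit 4624) (.f (nat_lit 593) (nat_lit 496) (nat_lit 4592) (.d (nat_lit 594) (nat_lit 595) (nat_lit 1615) (nat_lit 622) (nat_lit 2638))))) (.a (.f (nat_lit 624) (nat_lit 655) (nat_lit 5647) (.f (nat_lit 625) (nat_lit 657) (nat_lit 4624) (.f (nat_lit 591) (nat_lit 496) (nat_lit 5615) (.d (nat_lit 626) (nat_lit 590) (nat_lit 3662) (nat_lit 627) (nat_lit 3663))))) (.f (nat_lit 591) (nat_lit 496) (nat_lit 5615) (.d (nat_lit 655) (nat_lit 624) (nat_lit 5647) (nat_lit 687) (nat_lit 6703))))))))) (.a (.p (nat_lit 496) (.a (.f (nat_lit 593) (nat_lit 625) (nat_lit 4592) (.f (nat_lit 464) (nat_lit 561) (nat_lit 4560) (.d (nat_lit 465) (nat_lit 433) (nat_lit 6576) (nat_lit 497) (nat_lit 6608)))) (.a (.p (nat_lit 624) (.a (.d (nat_lit 625) (nat_lit 593) (nat_lit 4592) (nat_lit 657) (nat_lit 4624)) (.a (.f (nat_lit 527) (nat_lit 495) (nat_lit 7663) (.f (nat_lit 656) (nat_lit 559) (nat_lit 7695) (.d (nat_lit 657) (nat_lit 625) (nat_lit 4624) (nat_lit 689) (nat_lit 4656)))) (.a (.f (nat_lit 527) (nat_lit 495) (nat_lit 7663) (.f (nat_lit 656) (nat_lit 559) (nat_lit 7695) (.f (nat_lit 687) (nat_lit 655) (nat_lit 5679) (.f (nat_lit 688) (nat_lit 719) (nat_lit 5711) (.d (nat_lit 689) (nat_lit 657) (nat_lit 4656) (nat_lit 721) (nat_lit 4688)))))) (.f (nat_lit 527) (nat_lit 495) (nat_lit 7663) (.f (nat_lit 497) (nat_lit 465) (nat_lit 6608) (.f (nat_lit 526) (nat_lit 525) (nat_lit 2541) (.f (nat_lit 559) (nat_lit 656) (nat_lit 7695) (.f (nat_lit 561) (nat_lit 562) (nat_lit 3598) (.f (nat_lit 593) (nat_lit 625) (nat_lit 4592) (.d (nat_lit 558) (nat_lit 557) (nat_lit 557) (nat_lit 594) (nat_lit 558)))))))))))) (.a (.f (nat_lit 465) (nat_lit 497) (nat_lit 6608) (.f (nat_lit 464) (nat_lit 433) (nat_lit 6576) (.f (nat_lit 559) (nat_lit 591) (nat_lit 5583) (.f (nat_lit 527) (nat_lit 432) (nat_lit 5551) (.d (nat_lit 624) (nat_lit 495) (nat_lit 7663) (nat_lit 656) (nat_lit 7695)))))) (.f (nat_lit 593) (nat_lit 625) (nat_lit 4592) (.f (nat_lit 464) (nat_lit 561) (nat_lit 4560) (.f (nat_lit 559) (nat_lit 591) (nat_lit 5583) (.f (nat_lit 527) (nat_lit 432) (nat_lit 5551) (.d (nat_lit 624) (nat_lit 495) (nat_lit 7663) (nat_lit 656) (nat_lit 7695)))))))))) (.a (.p (nat_lit 624) (.a (.f (nat_lit 657) (nat_lit 625) (nat_lit 4624) (.f (nat_lit 656) (nat_lit 689) (nat_lit 4656) (.d (nat_lit 655) (nat_lit 623) (nat_lit 5647) (nat_lit 687) (nat_lit 5679)))) (.a (.f (nat_lit 625) (nat_lit 657) (nat_lit 4624) (.f (nat_lit 593) (nat_lit 496) (nat_lit 4592) (.f (nat_lit 527) (nat_lit 495) (nat_lit 7663) (.f (nat_lit 656) (nat_lit 559) (nat_lit 7695) (.d (nat_lit 688) (nat_lit 561) (nat_lit 6704) (nat_lit 720) (nat_lit 6736)))))) (.a (.f (nat_lit 527) (nat_lit 495) (nat_lit 7663) (.f (nat_lit 656) (nat_lit 559) (nat_lit 7695) (.d (nat_lit 655) (nat_lit 623) (nat_lit 5647) (nat_lit 687) (nat_lit 5679)))) (.f (nat_lit 625) (nat_lit 657) (nat_lit 4624) (.f (nat_lit 623) (nat_lit 655) (nat_lit 5647) (.f (nat_lit 593) (nat_lit 496) (nat_lit 4592) (.d (nat_lit 594) (nat_lit 595) (nat_lit 1615) (nat_lit 622) (nat_lit 2638))))))))) (.a (.p (nat_lit 624) (.a (.f (nat_lit 657) (nat_lit 625) (nat_lit 4624) (.f (nat_lit 656) (nat_lit 689) (nat_lit 4656) (.d (nat_lit 655) (nat_lit 623) (nat_lit 5647) (nat_lit 687) (nat_lit 5679)))) (.a (.f (nat_lit 657) (nat_lit 625) (nat_lit 4624) (.f (nat_lit 656) (nat_lit 689) (nat_lit 4656) (.d (nat_lit 527) (nat_lit 495) (nat_lit 7663) (nat_lit 559) (nat_lit 7695)))) (.a (.f (nat_lit 623) (nat_lit 655) (nat_lit 5647) (.f (nat_lit 591) (nat_lit 496) (nat_lit 5615) (.f (nat_lit 527) (nat_lit 495) (nat_lit 7663) (.f (nat_lit 559) (nat_lit 656) (nat_lit 4623) (.f (nat_lit 526) (nat_lit 494) (nat_lit 7662) (.d (nat_lit 525) (nat_lit 524) (nat_lit 524) (nat_lit 561) (nat_lit 525))))))) (.f (nat_lit 623) (nat_lit 655) (nat_lit 5647) (.f (nat_lit 591) (nat_lit 496) (nat_lit 5615) (.f (nat_lit 625) (nat_lit 657) (nat_lit 4624) (.d (nat_lit 626) (nat_lit 590) (nat_lit 3662) (nat_lit 627) (nat_lit 3663))))))))) (.p (nat_lit 561) (.a (.p (nat_lit 496) (.a (.f (nat_lit 591) (nat_lit 623) (nat_lit 5615) (.f (nat_lit 562) (nat_lit 563) (nat_lit 1583) (.d (nat_lit 590) (nat_lit 559) (nat_lit 1582) (nat_lit 589) (nat_lit 2605)))) (.a (.f (nat_lit 591) (nat_lit 623) (nat_lit 5615) (.f (nat_lit 593) (nat_lit 464) (nat_lit 4560) (.d (nat_lit 590) (nat_lit 562) (nat_lit 2606) (nat_lit 589) (nat_lit 2605)))) (.f (nat_lit 464) (nat_lit 593) (nat_lit 4560) (.d (nat_lit 465) (nat_lit 433) (nat_lit 6576) (nat_lit 497) (nat_lit 6608)))))) (.a (.p (nat_lit 624) (.a (.f (nat_lit 623) (nat_lit 655) (nat_lit 5647) (.f (nat_lit 591) (nat_lit 496) (nat_lit 5615) (.f (nat_lit 590) (nat_lit 589) (nat_lit 2605) (.d (nat_lit 562) (nat_lit 563) (nat_lit 1583) (nat_lit 593) (nat_lit 2606))))) (.a (.f (nat_lit 655) (nat_lit 623) (nat_lit 5647) (.f (nat_lit 656) (nat_lit 687) (nat_lit 5679) (.f (nat_lit 689) (nat_lit 657) (nat_lit 4656) (.d (nat_lit 688) (nat_lit 593) (nat_lit 6704) (nat_lit 721) (nat_lit 4688))))) (.f (nat_lit 527) (nat_lit 495) (nat_lit 7663) (.f (nat_lit 559) (nat_lit 656) (nat_lit 7695) (.d (nat_lit 562) (nat_lit 526) (nat_lit 3598) (nat_lit 563) (nat_lit 3599))))))) (.a (.p (nat_lit 624) (.a (.f (nat_lit 655) (nat_lit 623) (nat_lit 5647) (.f (nat_lit 656) (nat_lit 687) (nat_lit 5679) (.f (nat_lit 689) (nat_lit 657) (nat_lit 4656) (.d (nat_lit 688) (nat_lit 593) (nat_lit 6704) (nat_lit 721) (nat_lit 4688))))) (.a (.f (nat_lit 527) (nat_lit 495) (nat_lit 7663) (.f (nat_lit 559) (nat_lit 656) (nat_lit 7695) (.d (nat_lit 562) (nat_lit 526) (nat_lit 3598) (nat_lit 563) (nat_lit 3599)))) (.f (nat_lit 527) (nat_lit 495) (nat_lit 7663) (.f (nat_lit 562) (nat_lit 563) (nat_lit 3599) (.d (nat_lit 526) (nat_lit 525) (nat_lit 525) (nat_lit 559) (nat_lit 3598))))))) (.a (.p (nat_lit 591) (.a (.f (nat_lit 562) (nat_lit 563) (nat_lit 1583) (.d (nat_lit 590) (nat_lit 589) (nat_lit 2605) (nat_lit 593) (nat_lit 2606))) (.f (nat_lit 623) (nat_lit 496) (nat_lit 5615) (.d (nat_lit 655) (nat_lit 624) (nat_lit 5647) (nat_lit 687) (nat_lit 6703))))) (.a (.p (nat_lit 496) (.a (.f (nat_lit 464) (nat_lit 593) (nat_lit 4560) (.d (nat_lit 465) (nat_lit 433) (nat_lit 6576) (nat_lit 497) (nat_lit 6608))) (.a (.p (nat_lit 527) (.a (.f (nat_lit 562) (nat_lit 563) (nat_lit 3599) (.d (nat_lit 526) (nat_lit 525) (nat_lit 525) (nat_lit 559) (nat_lit 3598))) (.a (.f (nat_lit 497) (nat_lit 465) (nat_lit 6608) (.f (nat_lit 526) (nat_lit 525) (nat_lit 2541) (.d (nat_lit 498) (nat_lit 495) (nat_lit 1518) (nat_lit 499) (nat_lit 1519)))) (.f (nat_lit 562) (nat_lit 563) (nat_lit 3599) (.f (nat_lit 624) (nat_lit 495) (nat_lit 7663) (.f (nat_lit 559) (nat_lit 656) (nat_lit 7695) (.f (nat_lit 590) (nat_lit 591) (nat_lit 1582) (.f (nat_lit 558) (nat_lit 589) (nat_lit 1581) (.d (nat_lit 594) (nat_lit 593) (nat_lit 558) (nat_lit 595) (nat_lit 559)))))))))) (.a (.f (nat_lit 464) (nat_lit 593) (nat_lit 4560) (.f (nat_lit 559) (nat_lit 591) (nat_lit 5583) (.f (nat_lit 527) (nat_lit 432) (nat_lit 5551) (.d (nat_lit 562) (nat_lit 526) (nat_lit 3598) (nat_lit 563) (nat_lit 3599))))) (.f (nat_lit 465) (nat_lit 497) (nat_lit 6608) (.f (nat_lit 464) (nat_lit 433) (nat_lit 6576) (.f (nat_lit 559) (nat_lit 591) (nat_lit 5583) (.f (nat_lit 527) (nat_lit 432) (nat_lit 5551) (.d (nat_lit 562) (nat_lit 526) (nat_lit 3598) (nat_lit 563) (nat_lit 3599)))))))))) (.a (.p (nat_lit 623) (.a (.f (nat_lit 591) (nat_lit 496) (nat_lit 5615) (.d (nat_lit 655) (nat_lit 624) (nat_lit 5647) (nat_lit 687) (nat_lit 6703))) (.a (.f (nat_lit 655) (nat_lit 624) (nat_lit 5647) (.d (nat_lit 591) (nat_lit 559) (nat_lit 6671) (nat_lit 687) (nat_lit 6703))) (.a (.f (nat_lit 591) (nat_lit 496) (nat_lit 5615) (.d (nat_lit 655) (nat_lit 559) (nat_lit 6671) (nat_lit 687) (nat_lit 6703))) (.a (.f (nat_lit 624) (nat_lit 655) (nat_lit 5647) (.f (nat_lit 527) (nat_lit 495) (nat_lit 7663) (.f (nat_lit 559) (nat_lit 656) (nat_lit 7695) (.d (nat_lit 562) (nat_lit 526) (nat_lit 3598) (nat_lit 563) (nat_lit 3599))))) (.f (nat_lit 591) (nat_lit 496) (nat_lit 5615) (.f (nat_lit 562) (nat_lit 563) (nat_lit 1583) (.d (nat_lit 590) (nat_lit 559) (nat_lit 1582) (nat_lit 589) (nat_lit 2605))))))))) (.p (nat_lit 496) (.a (.f (nat_lit 464) (nat_lit 593) (nat_lit 4560) (.d (nat_lit 465) (nat_lit 433) (nat_lit 6576) (nat_lit 497) (nat_lit 6608))) (.a (.f (nat_lit 623) (nat_lit 591) (nat_lit 5615) (.f (nat_lit 624) (nat_lit 655) (nat_lit 5647) (.f (nat_lit 527) (nat_lit 495) (nat_lit 7663) (.f (nat_lit 656) (nat_lit 559) (nat_lit 7695) (.f (nat_lit 688) (nat_lit 593) (nat_lit 6704) (.d (nat_lit 689) (nat_lit 657) (nat_lit 4656) (nat_lit 721) (nat_lit 4688))))))) (.f (nat_lit 591) (nat_lit 623) (nat_lit 5615) (.f (nat_lit 464) (nat_lit 559) (nat_lit 5583) (.d (nat_lit 465) (nat_lit 433) (nat_lit 6576) (nat_lit 497) (nat_lit 6608))))))))))))))))))))))) (.p (nat_lit 592) (.a (.p (nat_lit 496) (.a (.f (nat_lit 591) (nat_lit 623) (nat_lit 5615) (.f (nat_lit 593) (nat_lit 625) (nat_lit 4592) (.d (nat_lit 464) (nat_lit 559) (nat_lit 5583) (nat_lit 561) (nat_lit 4560)))) (.a (.f (nat_lit 623) (nat_lit 591) (nat_lit 5615) (.f (nat_lit 624) (nat_lit 655) (nat_lit 5647) (.d (nat_lit 625) (nat_lit 593) (nat_lit 4592) (nat_lit 657) (nat_lit 4624)))) (.a (.f (nat_lit 593) (nat_lit 625) (nat_lit 4592) (.f (nat_lit 464) (nat_lit 561) (nat_lit 4560) (.d (nat_lit 463) (nat_lit 431) (nat_lit 7599) (nat_lit 495) (nat_lit 7631)))) (.f (nat_lit 591) (nat_lit 623) (nat_lit 5615) (.f (nat_lit 559) (nat_lit 464) (nat_lit 5583) (.f (nat_lit 495) (nat_lit 463) (nat_lit 7631) (.f (nat_lit 527) (nat_lit 624) (nat_lit 4591) (.f (nat_lit 590) (nat_lit 622) (nat_lit 5614) (.d (nat_lit 561) (nat_lit 562) (nat_lit 1582) (nat_lit 589) (nat_lit 2605))))))))))) (.a (.p (nat_lit 624) (.a (.f (nat_lit 625) (nat_lit 657) (nat_lit 4624) (.f (nat_lit 623) (nat_lit 655) (nat_lit 5647) (.d (nat_lit 496) (nat_lit 591) (nat_lit 5615) (nat_lit 593) (nat_lit 4592)))) (.a (.f (nat_lit 527) (nat_lit 495) (nat_lit 7663) (.f (nat_lit 656) (nat_lit 559) (nat_lit 7695) (.d (nat_lit 655) (nat_lit 623) (nat_lit 5647) (nat_lit 687) (nat_lit 5679)))) (.f (nat_lit 625) (nat_lit 657) (nat_lit 4624) (.f (nat_lit 527) (nat_lit 495) (nat_lit 7663) (.f (nat_lit 656) (nat_lit 559) (nat_lit 7695) (.f (nat_lit 593) (nat_lit 496) (nat_lit 4592) (.d (nat_lit 688) (nat_lit 561) (nat_lit 6704) (nat_lit 720) (nat_lit 6736))))))))) (.a (.p (nat_lit 496) (.a (.f (nat_lit 591) (nat_lit 623) (nat_lit 5615) (.f (nat_lit 593) (nat_lit 625) (nat_lit 4592) (.d (nat_lit 464) (nat_lit 559) (nat_lit 5583) (nat_lit 561) (nat_lit 4560)))) (.a (.f (nat_lit 623) (nat_lit 591) (nat_lit 5615) (.f (nat_lit 624) (nat_lit 655) (nat_lit 5647) (.d (nat_lit 625) (nat_lit 593) (nat_lit 4592) (nat_lit 657) (nat_lit 4624)))) (.a (.f (nat_lit 593) (nat_lit 625) (nat_lit 4592) (.f (nat_lit 464) (nat_lit 561) (nat_lit 4560) (.d (nat_lit 463) (nat_lit 431) (nat_lit 7599) (nat_lit 495) (nat_lit 7631)))) (.f (nat_lit 591) (nat_lit 623) (nat_lit 5615) (.f (nat_lit 464) (nat_lit 559) (nat_lit 5583) (.d (nat_lit 463) (nat_lit 431) (nat_lit 7599) (nat_lit 495) (nat_lit 7631)))))))) (.a (.p (nat_lit 624) (.a (.f (nat_lit 527) (nat_lit 495) (nat_lit 7663) (.f (nat_lit 656) (nat_lit 559) (nat_lit 7695) (.d (nat_lit 655) (nat_lit 623) (nat_lit 5647) (nat_lit 687) (nat_lit 5679)))) (.a (.f (nat_lit 657) (nat_lit 625) (nat_lit 4624) (.f (nat_lit 656) (nat_lit 689) (nat_lit 4656) (.d (nat_lit 655) (nat_lit 623) (nat_lit 5647) (nat_lit 687) (nat_lit 5679)))) (.a (.f (nat_lit 527) (nat_lit 495) (nat_lit 7663) (.f (nat_lit 656) (nat_lit 559) (nat_lit 7695) (.d (nat_lit 657) (nat_lit 625) (nat_lit 4624) (nat_lit 689) (nat_lit 4656)))) (.p (nat_lit 561) (.a (.f (nat_lit 527) (nat_lit 495) (nat_lit 7663) (.f (nat_lit 562) (nat_lit 563) (nat_lit 3599) (.d (nat_lit 526) (nat_lit 525) (nat_lit 525) (nat_lit 559) (nat_lit 3598)))) (.a (.p (nat_lit 591) (.a (.f (nat_lit 590) (nat_lit 589) (nat_lit 2605) (.d (nat_lit 562) (nat_lit 559) (nat_lit 1582) (nat_lit 563) (nat_lit 1583))) (.a (.f (nat_lit 625) (nat_lit 657) (nat_lit 4624) (.f (nat_lit 590) (nat_lit 589) (nat_lit 2605) (.d (nat_lit 626) (nat_lit 593) (nat_lit 590) (nat_lit 627) (nat_lit 3663)))) (.f (nat_lit 623) (nat_lit 655) (nat_lit 5647) (.f (nat_lit 625) (nat_lit 657) (nat_lit 4624) (.f (nat_lit 626) (nat_lit 627) (nat_lit 3663) (.f (nat_lit 594) (nat_lit 595) (nat_lit 2639) (.f (nat_lit 593) (nat_lit 622) (nat_lit 2638) (.d (nat_lit 658) (nat_lit 659) (nat_lit 623) (nat_lit 690) (nat_lit 7729)))))))))) (.a (.p (nat_lit 591) (.a (.f (nat_lit 625) (nat_lit 657) (nat_lit 4624) (.f (nat_lit 590) (nat_lit 589) (nat_lit 2605) (.d (nat_lit 626) (nat_lit 593) (nat_lit 590) (nat_lit 627) (nat_lit 3663)))) (.a (.f (nat_lit 562) (nat_lit 563) (nat_lit 1583) (.d (nat_lit 590) (nat_lit 589) (nat_lit 2605) (nat_lit 593) (nat_lit 2606))) (.a (.f (nat_lit 623) (nat_lit 655) (nat_lit 5647) (.f (nat_lit 625) (nat_lit 657) (nat_lit 4624) (.f (nat_lit 626) (nat_lit 627) (nat_lit 3663) (.f (nat_lit 594) (nat_lit 595) (nat_lit 2639) (.f (nat_lit 593) (nat_lit 622) (nat_lit 2638) (.d (nat_lit 658) (nat_lit 659) (nat_lit 623) (nat_lit 690) (nat_lit 7729))))))) (.f (nat_lit 625) (nat_lit 657) (nat_lit 4624) (.f (nat_lit 590) (nat_lit 589) (nat_lit 2605) (.d (nat_lit 626) (nat_lit 623) (nat_lit 3662) (nat_lit 627) (nat_lit 3663)))))))) (.p (nat_lit 591) (.a (.f (nat_lit 625) (nat_lit 657) (nat_lit 4624) (.f (nat_lit 590) (nat_lit 589) (nat_lit 2605) (.d (nat_lit 626) (nat_lit 593) (nat_lit 590) (nat_lit 627) (nat_lit 3663)))) (.a (.f (nat_lit 623) (nat_lit 655) (nat_lit 5647) (.f (nat_lit 590) (nat_lit 589) (nat_lit 2605) (.f (nat_lit 527) (nat_lit 495) (nat_lit 7663) (.f (nat_lit 526) (nat_lit 525) (nat_lit 525) (.d (nat_lit 494) (nat_lit 558) (nat_lit 4590) (nat_lit 559) (nat_lit 7662)))))) (.f (nat_lit 623) (nat_lit 655) (nat_lit 5647) (.f (nat_lit 625) (nat_lit 657) (nat_lit 4624) (.f (nat_lit 626) (nat_lit 627) (nat_lit 3663) (.f (nat_lit 594) (nat_lit 595) (nat_lit 2639) (.f (nat_lit 593) (nat_lit 622) (nat_lit 2638) (.d (nat_lit 658) (nat_lit 659) (nat_lit 623) (nat_lit 690) (nat_lit 7729)))))))))))))))))) (.a (.p (nat_lit 624) (.a (.f (nat_lit 625) (nat_lit 657) (nat_lit 4624) (.f (nat_lit 623) (nat_lit 655) (nat_lit 5647) (.d (nat_lit 496) (nat_lit 591) (nat_lit 5615) (nat_lit 593) (nat_lit 4592)))) (.a (.f (nat_lit 527) (nat_lit 495) (nat_lit 7663) (.f (nat_lit 656) (nat_lit 559) (nat_lit 7695) (.d (nat_lit 655) (nat_lit 623) (nat_lit 5647) (nat_lit 687) (nat_lit 5679)))) (.f (nat_lit 527) (nat_lit 495) (nat_lit 7663) (.f (nat_lit 656) (nat_lit 559) (nat_lit 7695) (.d (nat_lit 657) (nat_lit 625) (nat_lit 4624) (nat_lit 689) (nat_lit 4656))))))) (.a (.p (nat_lit 624) (.a (.f (nat_lit 625) (nat_lit 657) (nat_lit 4624) (.f (nat_lit 623) (nat_lit 655) (nat_lit 5647) (.d (nat_lit 496) (nat_lit 591) (nat_lit 5615) (nat_lit 593) (nat_lit 4592)))) (.a (.f (nat_lit 657) (nat_lit 625) (nat_lit 4624) (.f (nat_lit 656) (nat_lit 689) (nat_lit 4656) (.d (nat_lit 655) (nat_lit 623) (nat_lit 5647) (nat_lit 687) (nat_lit 5679)))) (.a (.f (nat_lit 625) (nat_lit 657) (nat_lit 4624) (.f (nat_lit 496) (nat_lit 593) (nat_lit 4592) (.d (nat_lit 495) (nat_lit 463) (nat_lit 7631) (nat_lit 527) (nat_lit 7663)))) (.f (nat_lit 623) (nat_lit 655) (nat_lit 5647) (.f (nat_lit 496) (nat_lit 591) (nat_lit 5615) (.d (nat_lit 495) (nat_lit 463) (nat_lit 7631) (nat_lit 527) (nat_lit 7663)))))))) (.a (.p (nat_lit 496) (.a (.f (nat_lit 591) (nat_lit 623) (nat_lit 5615) (.f (nat_lit 593) (nat_lit 625) (nat_lit 4592) (.d (nat_lit 464) (nat_lit 559) (nat_lit 5583) (nat_lit 561) (nat_lit 4560)))) (.a (.f (nat_lit 591) (nat_lit 623) (nat_lit 5615) (.p (nat_lit 562) (.a (.f (nat_lit 561) (nat_lit 563) (nat_lit 1583) (.d (nat_lit 590) (nat_lit 559) (nat_lit 1582) (nat_lit 589) (nat_lit 2605))) (.a (.f (nat_lit 593) (nat_lit 625) (nat_lit 4592) (.f (nat_lit 594) (nat_lit 563) (nat_lit 2607) (.d (nat_lit 559) (nat_lit 558) (nat_lit 3630) (nat_lit 595) (nat_lit 3631)))) (.a (.f (nat_lit 561) (nat_lit 563) (nat_lit 1583) (.d (nat_lit 590) (nat_lit 589) (nat_lit 2605) (nat_lit 593) (nat_lit 2606))) (.f (nat_lit 593) (nat_lit 625) (nat_lit 4592) (.f (nat_lit 590) (nat_lit 561) (nat_lit 2606) (.f (nat_lit 558) (nat_lit 557) (nat_lit 3629) (.f (nat_lit 559) (nat_lit 594) (nat_lit 3630) (.f (nat_lit 622) (nat_lit 621) (nat_lit 1613) (.d (nat_lit 495) (nat_lit 463) (nat_lit 7631) (nat_lit 527) (nat_lit 5614)))))))))))) (.a (.f (nat_lit 591) (nat_lit 623) (nat_lit 5615) (.f (nat_lit 464) (nat_lit 559) (nat_lit 5583) (.d (nat_lit 463) (nat_lit 431) (nat_lit 7599) (nat_lit 495) (nat_lit 7631)))) (.f (nat_lit 593) (nat_lit 625) (nat_lit 4592) (.f (nat_lit 464) (nat_lit 561) (nat_lit 4560) (.d (nat_lit 463) (nat_lit 431) (nat_lit 7599) (nat_lit 495) (nat_lit 7631)))))))) (.a (.p (nat_lit 624) (.a (.f (nat_lit 527) (nat_lit 495) (nat_lit 7663) (.f (nat_lit 656) (nat_lit 559) (nat_lit 7695) (.d (nat_lit 655) (nat_lit 623) (nat_lit 5647) (nat_lit 687) (nat_lit 5679)))) (.a (.f (nat_lit 657) (nat_lit 625) (nat_lit 4624) (.f (nat_lit 656) (nat_lit 689) (nat_lit 4656) (.d (nat_lit 655) (nat_lit 623) (nat_lit 5647) (nat_lit 687) (nat_lit 5679)))) (.a (.f (nat_lit 625) (nat_lit 657) (nat_lit 4624) (.f (nat_lit 527) (nat_lit 495) (nat_lit 7663) (.f (nat_lit 656) (nat_lit 559) (nat_lit 7695) (.f (nat_lit 593) (nat_lit 496) (nat_lit 4592) (.d (nat_lit 688) (nat_lit 561) (nat_lit 6704) (nat_lit 720) (nat_lit 6736)))))) (.f (nat_lit 625) (nat_lit 657) (nat_lit 4624) (.f (nat_lit 496) (nat_lit 593) (nat_lit 4592) (.d (nat_lit 495) (nat_lit 463) (nat_lit 7631) (nat_lit 527) (nat_lit 7663)))))))) (.a (.p (nat_lit 624) (.a (.f (nat_lit 625) (nat_lit 657) (nat_lit 4624) (.f (nat_lit 623) (nat_lit 655) (nat_lit 5647) (.d (nat_lit 496) (nat_lit 591) (nat_lit 5615) (nat_lit 593) (nat_lit 4592)))) (.a (.f (nat_lit 657) (nat_lit 625) (nat_lit 4624) (.f (nat_lit 656) (nat_lit 689) (nat_lit 4656) (.d (nat_lit 655) (nat_lit 623) (nat_lit 5647) (nat_lit 687) (nat_lit 5679)))) (.a (.f (nat_lit 657) (nat_lit 625) (nat_lit 4624) (.f (nat_lit 656) (nat_lit 689) (nat_lit 4656) (.f (nat_lit 687) (nat_lit 655) (nat_lit 5679) (.f (nat_lit 688) (nat_lit 719) (nat_lit 5711) (.d (nat_lit 559) (nat_lit 527) (nat_lit 7695) (nat_lit 591) (nat_lit 7727)))))) (.a (.f (nat_lit 655) (nat_lit 623) (nat_lit 5647) (.f (nat_lit 656) (nat_lit 687) (nat_lit 5679) (.f (nat_lit 689) (nat_lit 657) (nat_lit 4656) (.f (nat_lit 688) (nat_lit 721) (nat_lit 4688) (.d (nat_lit 559) (nat_lit 527) (nat_lit 7695) (nat_lit 591) (nat_lit 7727)))))) (.a (.f (nat_lit 625) (nat_lit 657) (nat_lit 4624) (.f (nat_lit 496) (nat_lit 593) (nat_lit 4592) (.f (nat_lit 591) (nat_lit 623) (nat_lit 5615) (.f (nat_lit 559) (nat_lit 464) (nat_lit 5583) (.d (nat_lit 656) (nat_lit 527) (nat_lit 7695) (nat_lit 688) (nat_lit 7727)))))) (.f (nat_lit 623) (nat_lit 655) (nat_lit 5647) (.f (nat_lit 496) (nat_lit 591) (nat_lit 5615) (.f (nat_lit 593) (nat_lit 625) (nat_lit 4592) (.f (nat_lit 561) (nat_lit 464) (nat_lit 4560) (.f (nat_lit 594) (nat_lit 595) (nat_lit 1615) (.f (nat_lit 559) (nat_lit 558) (nat_lit 558) (.d (nat_lit 656) (nat_lit 527) (nat_lit 7695) (nat_lit 688) (nat_lit 6704)))))))))))))) (.a s100278 (.a (.p (nat_lit 496) (.a (.f (nat_lit 593) (nat_lit 625) (nat_lit 4592) (.f (nat_lit 464) (nat_lit 561) (nat_lit 4560) (.d (nat_lit 463) (nat_lit 431) (nat_lit 7599) (nat_lit 495) (nat_lit 7631)))) (.a (.f (nat_lit 495) (nat_lit 463) (nat_lit 7631) (.f (nat_lit 624) (nat_lit 527) (nat_lit 7663) (.d (nat_lit 625) (nat_lit 593) (nat_lit 4592) (nat_lit 657) (nat_lit 4624)))) (.a (.f (nat_lit 593) (nat_lit 625) (nat_lit 4592) (.f (nat_lit 464) (nat_lit 561) (nat_lit 4560) (.f (nat_lit 559) (nat_lit 591) (nat_lit 5583) (.f (nat_lit 527) (nat_lit 432) (nat_lit 5551) (.d (nat_lit 624) (nat_lit 495) (nat_lit 7663) (nat_lit 656) (nat_lit 7695)))))) (.a (.f (nat_lit 593) (nat_lit 625) (nat_lit 4592) (.f (nat_lit 464) (nat_lit 561) (nat_lit 4560) (.f (nat_lit 559) (nat_lit 591) (nat_lit 5583) (.f (nat_lit 432) (nat_lit 527) (nat_lit 5551) (.d (nat_lit 431) (nat_lit 399) (nat_lit 7567) (nat_lit 463) (nat_lit 7599)))))) (.p (nat_lit 464) (.a (.d (nat_lit 463) (nat_lit 431) (nat_lit 7599) (nat_lit 495) (nat_lit 7631)) (.a (.f (nat_lit 559) (nat_lit 591) (nat_lit 5583) (.f (nat_lit 527) (nat_lit 432) (nat_lit 5551) (.d (nat_lit 624) (nat_lit 495) (nat_lit 7663) (nat_lit 656) (nat_lit 7695)))) (.f (nat_lit 559) (nat_lit 591) (nat_lit 5583) (.f (nat_lit 432) (nat_lit 527) (nat_lit 5551) (.d (nat_lit 431) (nat_lit 399) (nat_lit 7567) (nat_lit 463) (nat_lit 7599)))))))))))) (.p (nat_lit 624) (.a (.f (nat_lit 527) (nat_lit 495) (nat_lit 7663) (.f (nat_lit 656) (nat_lit 559) (nat_lit 7695) (.d (nat_lit 655) (nat_lit 623) (nat_lit 5647) (nat_lit 687) (nat_lit 5679)))) (.a (.p (nat_lit 656) (.a (.d (nat_lit 655) (nat_lit 623) (nat_lit 5647) (nat_lit 687) (nat_lit 5679)) (.a (.f (nat_lit 689) (nat_lit 657) (nat_lit 4656) (.f (nat_lit 688) (nat_lit 721) (nat_lit 4688) (.f (nat_lit 591) (nat_lit 559) (nat_lit 7727) (.d (nat_lit 623) (nat_lit 496) (nat_lit 5615) (nat_lit 720) (nat_lit 7759))))) (.f (nat_lit 689) (nat_lit 657) (nat_lit 4656) (.f (nat_lit 688) (nat_lit 721) (nat_lit 4688) (.d (nat_lit 687) (nat_lit 655) (nat_lit 5679) (nat_lit 719) (nat_lit 5711))))))) (.a (.f (nat_lit 623) (nat_lit 655) (nat_lit 5647) (.f (nat_lit 496) (nat_lit 591) (nat_lit 5615) (.d (nat_lit 495) (nat_lit 463) (nat_lit 7631) (nat_lit 527) (nat_lit 7663)))) (.a (.f (nat_lit 527) (nat_lit 495) (nat_lit 7663) (.f (nat_lit 656) (nat_lit 559) (nat_lit 7695) (.f (nat_lit 687) (nat_lit 655) (nat_lit 5679) (.f (nat_lit 688) (nat_lit 719) (nat_lit 5711) (.d (nat_lit 689) (nat_lit 657) (nat_lit 4656) (nat_lit 721) (nat_lit 4688)))))) (.p (nat_lit 496) (.a (.d (nat_lit 495) (nat_lit 463) (nat_lit 7631) (nat_lit 527) (nat_lit 7663)) (.a (.f (nat_lit 591) (nat_lit 623) (nat_lit 5615) (.f (nat_lit 464) (nat_lit 559) (nat_lit 5583) (.d (nat_lit 463) (nat_lit 431) (nat_lit 7599) (nat_lit 495) (nat_lit 7631)))) (.a (.f (nat_lit 527) (nat_lit 495) (nat_lit 7663) (.f (nat_lit 559) (nat_lit 656) (nat_lit 7695) (.d (nat_lit 464) (nat_lit 432) (nat_lit 5551) (nat_lit 591) (nat_lit 5583)))) (.f (nat_lit 591) (nat_lit 623) (nat_lit 5615) (.f (nat_lit 559) (nat_lit 464) (nat_lit 5583) (.d (nat_lit 656) (nat_lit 527) (nat_lit 7695) (nat_lit 688) (nat_lit 7727))))))))))))))))))))))))))))))))))))))))))))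
end Vale.Agent.Lib.P062.Full
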