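import Vale.Agent.Lib.P062.Full.K_0

set_option maxRecDepth 100000
set_option linter.all false

namespace Vale.Agent.Lib.P062.Full
open Vale.Agent.Lib.P062 Vale.Agent.Lib.P062.V2

noncomputable def s119200 : Cert := .r (nat_lit 878694101212772238994964336347803577991525032965733539974411745475219514245929242635210192885381515733385462234866011981655379997230005277421905351678342725632) (.p (nat_lit 494) (.a (.f (nat_lit 465) (nat_lit 466) (nat_lit 2510) (.f (nat_lit 464) (nat_lit 493) (nat_lit 2509) (.d (nat_lit 560) (nat_lit 433) (nat_lit 6576) (nat_lit 592) (nat_lit 6608)))) (.a (.f (nat_lit 465) (nat_lit 466) (nat_lit 2510) (.f (nat_lit 493) (nat_lit 464) (nat_lit 2509) (.d (nat_lit 525) (nat_lit 524) (nat_lit 1516) (nat_lit 526) (nat_lit 1517)))) (.a (.f (nat_lit 525) (nat_lit 526) (nat_lit 1517) (.f (nat_lit 493) (nat_lit 524) (nat_lit 1516) (.d (nat_lit 461) (nat_lit 460) (nat_lit 3532) (nat_lit 462) (nat_lit 3533))))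 (.f (nat_lit 465) (nat_lit 466) (nat_lit 2510) (.f (nat_lit 560) (nat_lit 592) (nat_lit 6608) (.d (nat_lit 433) (nat_lit 401) (nat_lit 5520) (nat_lit 464) (nat_lit 6576))))))))
noncomputable def s119206 : Cert := .r (nat_lit 878694101212772238994964336347803577991525032965733539974411745475219514245929242635210192885381515733385462234866011981655379997230005277421905351678342725632) (.p (nat_lit 494) (.a (.f (nat_lit 526) (nat_lit 525) (nat_lit 1517) (.f (nat_lit 527) (nat_lit 498) (nat_lit 1518) (.f (nat_lit 462) (nat_lit 461) (nat_lit 3533) (.d (nat_lit 430) (nat_lit 398) (nat_lit 4494) (nat_lit 559) (nat_lit 4526))))) (.a (.f (nat_lit 462) (nat_lit 461) (nat_lit 3533) (.f (nat_lit 463) (nat_lit 498) (nat_lit 3534) (.f (nat_lit 526) (nat_lit 525) (nat_lit 1517) (.d (nat_lit 431) (nat_lit 399) (nat_lit 4495) (nat_lit 558) (nat_lit 6574))))) (.a (.f (nat_lit 525) (nat_lit 526) (nat_lit 1517) (.f (nat_lit 493) (nat_lit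 524) (nat_lit 1516) (.d (nat_lit 461) (nat_lit 460) (nat_lit 3532) (nat_lit 462) (nat_lit 3533)))) (.a (.f (nat_lit 526) (nat_lit 525) (nat_lit 1517) (.f (nat_lit 498) (nat_lit 527) (nat_lit 1518) (.d (nat_lit 466) (nat_lit 465) (nat_lit 2510) (nat_lit 467) (nat_lit 2511)))) (.f (nat_lit 465) (nat_lit 466) (nat_lit 2510) (.f (nat_lit 462) (nat_lit 461) (nat_lit 3533) (.f (nat_lit 463) (nat_lit 498) (nat_lit 3534) (.f (nat_lit 560) (nat_lit 592) (nat_lit 6608) (.d (nat_lit 431) (nat_lit 399) (nat_lit 4495) (nat_lit 527) (nat_lit 4527)))))))))))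
noncomputable def s119217 : Cert := .r (nat_lit 878694101212772238994964336347803577991525032965733539974411745475219514245929242635210192885381515733385462234866011981655379997230005277421905351678342725632) (.p (nat_lit 494) (.a (.f (nat_lit 465) (nat_lit 466) (nat_lit 2510) (.f (nat_lit 464) (nat_lit 493) (nat_lit 2509) (.d (nat_lit 560) (nat_lit 433) (nat_lit 6576) (nat_lit 592) (nat_lit 6608)))) (.a (.f (nat_lit 465) (nat_lit 466) (nat_lit 2510) (.f (nat_lit 493) (nat_lit 464) (nat_lit 2509) (.d (nat_lit 461) (nat_lit 460) (nat_lit 3532) (nat_lit 462) (nat_lit 3533)))) (.a (.f (nat_lit 465) (nat_lit 466) (nat_lit 2510) (.f (nat_lit 462) (nat_lit 461) (nat_lit 3533) (.f (nat_lit 463) (nat_lit 498) (nat_lit 3534) (.f (nat_lit 560) (nat_lit 592) (nat_lit 6608) (.d (nat_lit 431) (nat_lit 399) (nat_lit 4495) (nat_lit 527) (nat_lit 4527)))))) (.f (nat_lit 462) (nat_lit 461) (nat_lit 3533) (.f (nat_lit 463) (nat_lit 498)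 (nat_lit 3534) (.f (nat_lit 431) (nat_lit 399) (nat_lit 4495) (.d (nat_lit 560) (nat_lit 527) (nat_lit 4527) (nat_lit 592) (nat_lit 7631)))))))))
noncomputable def s119244 : Cert := .r (nat_lit 3773962425700235453045152993996215493513076086304515567314859584464652809181956945320039243262284641066441129223411287490775761095635163753639282460618927263661672103936) (.p (nat_lit 464) (.a (.f (nat_lit 559) (nat_lit 591) (nat_lit 5583) (.f (nat_lit 527) (nat_lit 432) (nat_lit 5551) (.f (nat_lit 592) (nat_lit 624) (nat_lit 7663) (.d (nat_lit 465) (nat_lit 433) (nat_lit 6576) (nat_lit 497) (nat_lit 6608))))) (.a (.f (nat_lit 465) (nat_lit 433) (nat_lit 6576) (.f (nat_lit 592) (nat_lit 497) (nat_lit 6608) (.d (nat_lit 591) (nat_lit 559) (nat_lit 5583) (nat_lit 623) (nat_lit 5615)))) (.a (.f (nat_lit 559) (nat_lit 591) (nat_lit 5583) (.f (nat_lit 432) (nat_lit 527) (nat_lit 5551) (.d (nat_lit 433) (nat_lit 401) (nat_lit 6544)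 (nat_lit 465) (nat_lit 6576)))) (.a (.f (nat_lit 465) (nat_lit 433) (nat_lit 6576) (.f (nat_lit 592) (nat_lit 497) (nat_lit 6608) (.f (nat_lit 624) (nat_lit 527) (nat_lit 7663) (.d (nat_lit 623) (nat_lit 591) (nat_lit 5615) (nat_lit 655) (nat_lit 5647))))) (.a (.f (nat_lit 465) (nat_lit 433) (nat_lit 6576) (.f (nat_lit 592) (nat_lit 497) (nat_lit 6608) (.f (nat_lit 624) (nat_lit 527) (nat_lit 7663) (.d (nat_lit 625) (nat_lit 593) (nat_lit 4592) (nat_lit 657) (nat_lit 4624))))) (.a (.f (nat_lit 559) (nat_lit 591) (nat_lit 5583) (.f (nat_lit 432) (nat_lit 527) (nat_lit 5551) (.f (nat_lit 399) (nat_lit 431) (nat_lit 7567) (.f (nat_lit 400) (nat_lit 367) (nat_lit 7535) (.d (nat_lit 401) (nat_lit 369) (nat_lit 6512) (nat_lit 433) (nat_lit 6544)))))) (.f (nat_lit 559) (nat_lit 591) (nat_lit 5583) (.f (nat_lit 527) (nat_lit 432) (nat_lit 5551) (.f (nat_lit 592) (nat_lit 624) (nat_lit 7663) (.f (nat_lit 497) (nat_lit 465) (nat_lit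 6608) (.d (nat_lit 526) (nat_lit 498) (nat_lit 1518) (nat_lit 525) (nat_lit 2541)))))))))))))
noncomputable def s119277 : Cert := .r (nat_lit 878694101212772238994964336347803577991525032965733539974411745475219514245929242635210192885381515733385462234866011981655379997230005277421905351678342725632) (.p (nat_lit 494) (.a (.f (nat_lit 526) (nat_lit 525) (nat_lit 1517) (.f (nat_lit 527) (nat_lit 498) (nat_lit 1518) (.f (nat_lit 462) (nat_lit 461) (nat_lit 3533) (.d (nat_lit 430) (nat_lit 398) (nat_lit 4494) (nat_lit 559) (nat_lit 4526))))) (.a (.f (nat_lit 525) (nat_lit 526) (nat_lit 1517) (.f (nat_lit 493) (nat_lit 524) (nat_lit 1516) (.d (nat_lit 461) (nat_lit 460) (nat_lit 3532) (nat_lit 462) (nat_lit 3533)))) (.a (.f (nat_lit 526) (nat_lit 525) (nat_lit 1517) (.f (nat_lit 498) (nat_lit 527) (nat_lit 1518) (.d (nat_lit 466) (nat_lit 465) (nat_lit 2510) (nat_lit 467) (nat_lit 2511)))) (.a (.f (nat_lit 461) (nat_lit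 462) (nat_lit 3533) (.f (nat_lit 493) (nat_lit 460) (nat_lit 3532) (.f (nat_lit 524) (nat_lit 525) (nat_lit 1516) (.d (nat_lit 492) (nat_lit 523) (nat_lit 1515) (nat_lit 527) (nat_lit 492))))) (.f (nat_lit 461) (nat_lit 462) (nat_lit 3533) (.f (nat_lit 493) (nat_lit 460) (nat_lit 3532) (.f (nat_lit 527) (nat_lit 492) (nat_lit 492) (.d (nat_lit 498) (nat_lit 499) (nat_lit 1519) (nat_lit 526) (nat_lit 1518))))))))))
noncomputable def s119278 : Cert := .r (nat_lit 878694101212772238994964336347803577991525032965733539974411745475219514245929242635210192885381515733385462234866011981655379997230005277421905351678342725632) (.p (nat_lit 494) (.a (.f (nat_lit 526) (nat_lit 525) (nat_lit 1517) (.f (nat_lit 527) (nat_lit 498) (nat_lit 1518) (.f (nat_lit 462) (nat_lit 461) (nat_lit 3533) (.d (nat_lit 430) (nat_lit 398) (nat_lit 4494) (nat_lit 559) (nat_lit 4526))))) (.a (.f (nat_lit 525) (nat_lit 526) (nat_lit 1517) (.f (nat_lit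 493) (nat_lit 524) (nat_lit 1516) (.d (nat_lit 461) (nat_lit 460) (nat_lit 3532) (nat_lit 462) (nat_lit 3533)))) (.a (.f (nat_lit 526) (nat_lit 525) (nat_lit 1517) (.f (nat_lit 498) (nat_lit 527) (nat_lit 1518) (.f (nat_lit 531) (nat_lit 530) (nat_lit 495) (.f (nat_lit 499) (nat_lit 532) (nat_lit 496) (.d (nat_lit 467) (nat_lit 466) (nat_lit 2511) (nat_lit 468) (nat_lit 2512)))))) (.a (.f (nat_lit 461) (nat_lit 462) (nat_lit 3533) (.f (nat_lit 493) (nat_lit 460) (nat_lit 3532) (.f (nat_lit 524) (nat_lit 525) (nat_lit 1516) (.d (nat_lit 492) (nat_lit 523) (nat_lit 1515) (nat_lit 527) (nat_lit 492))))) (.f (nat_lit 461) (nat_lit 462) (nat_lit 3533) (.f (nat_lit 493) (nat_lit 460) (nat_lit 3532) (.f (nat_lit 527) (nat_lit 492) (nat_lit 492) (.d (nat_lit 498) (nat_lit 499) (nat_lit 1519) (nat_lit 526) (nat_lit 1518))))))))))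
noncomputable def s119279 : Cert := .r (nat_lit 878694101212772238994964336347803577991525032965733539974411745475219514245929242635210192885381515733385462234866011981655379997230005277421905351678342725632) (.p (nat_lit 494) (.a (.f (nat_lit 465) (nat_lit 466) (nat_lit 2510) (.f (nat_lit 464) (nat_lit 493) (nat_lit 2509) (.d (nat_lit 560) (nat_lit 433) (nat_lit 6576) (nat_lit 592) (nat_lit 6608)))) (.a (.f (nat_lit 465) (nat_lit 466) (nat_lit 2510) (.f (nat_lit 493) (nat_lit 464) (nat_lit 2509) (.d (nat_lit 461) (nat_lit 460) (nat_lit 3532) (nat_lit 462) (nat_lit 3533)))) (.a (.f (nat_lit 461) (nat_lit 462) (nat_lit 3533) (.f (nat_lit 493) (nat_lit 460) (nat_lit 3532) (.f (nat_lit 524) (nat_lit 525) (nat_lit 1516) (.d (nat_lit 492) (nat_lit 523) (nat_lit 1515) (nat_lit 527) (nat_lit 492))))) (.f (nat_lit 465) (nat_lit 466) (nat_lit 2510) (.f (nat_lit 560) (nat_lit 592) (nat_lit 6608) (.d (nat_lit 433) (nat_lit 401)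 (nat_lit 5520) (nat_lit 464) (nat_lit 6576))))))))
noncomputable def s119280 : Cert := .r (nat_lit 878694101212772238994964336347803577991525032965733539974411745475219514245929242635210192885381515733385462234866011981655379997230005277421905351678342725632) (.p (nat_lit 494) (.a (.f (nat_lit 526) (nat_lit 525) (nat_lit 1517) (.f (nat_lit 527) (nat_lit 498) (nat_lit 1518) (.f (nat_lit 462) (nat_lit 461) (nat_lit 3533) (.d (nat_lit 430) (nat_lit 398) (nat_lit 4494) (nat_lit 559) (nat_lit 4526))))) (.a (.f (nat_lit 525) (nat_lit 526) (nat_lit 1517) (.f (nat_lit 493) (nat_lit 524) (nat_lit 1516) (.d (nat_lit 461) (nat_lit 460) (nat_lit 3532) (nat_lit 462) (nat_lit 3533)))) (.a (.f (nat_lit 526) (nat_lit 525) (nat_lit 1517) (.f (nat_lit 527) (nat_lit 498) (nat_lit 1518) (.f (nat_lit 493) (nat_lit 492) (nat_lit 492) (.f (nat_lit 464) (nat_lit 465) (nat_lit 2509) (.d (nat_lit 432) (nat_lit 400) (nat_lit 5519) (nat_lit 559)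 (nat_lit 5551)))))) (.a (.f (nat_lit 461) (nat_lit 462) (nat_lit 3533) (.f (nat_lit 493) (nat_lit 460) (nat_lit 3532) (.f (nat_lit 524) (nat_lit 525) (nat_lit 1516) (.d (nat_lit 492) (nat_lit 523) (nat_lit 1515) (nat_lit 527) (nat_lit 492))))) (.f (nat_lit 461) (nat_lit 462) (nat_lit 3533) (.f (nat_lit 493) (nat_lit 460) (nat_lit 3532) (.f (nat_lit 527) (nat_lit 492) (nat_lit 492) (.d (nat_lit 498) (nat_lit 499) (nat_lit 1519) (nat_lit 526) (nat_lit 1518))))))))))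
noncomputable def s119318 : Cert := .r (nat_lit 878694101212772239042598438983240471170565518039481805137811985689223590644536984328712569271181162036490718934443221014245512613218265514474029004011232821248) (.p (nat_lit 498) (.a (.f (nat_lit 467) (nat_lit 466) (nat_lit 2511) (.f (nat_lit 499) (nat_lit 468) (nat_lit 2512) (.d (nat_lit 531) (nat_lit 530) (nat_lit 495) (nat_lit 532) (nat_lit 496)))) (.a (.f (nat_lit 531) (nat_lit 530) (nat_lit 495) (.f (nat_lit 499) (nat_lit 532) (nat_lit 496) (.f (nat_lit 468) (nat_lit 467) (nat_lit 2512) (.d (nat_lit 500) (nat_lit 465) (nat_lit 3536) (nat_lit 469) (nat_lit 2513))))) (.a (.f (nat_lit 531) (nat_lit 530) (nat_lit 495) (.f (nat_lit 499) (nat_lit 532) (nat_lit 496) (.f (nat_lit 465) (nat_lit 500) (nat_lit 3536) (.d (nat_lit 494) (nat_lit 466) (nat_lit 2510) (nat_lit 493) (nat_lit 2509))))) (.f (nat_lit 466) (nat_lit 467) (nat_lit 2511) (.f (nat_lit 494) (nat_lit 465) (nat_lit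 2510) (.f (nat_lit 461) (nat_lit 462) (nat_lit 3533) (.f (nat_lit 493) (nat_lit 460) (nat_lit 3532) (.d (nat_lit 525) (nat_lit 524) (nat_lit 1516) (nat_lit 526) (nat_lit 1517))))))))))
noncomputable def s119408 : Cert := .r (nat_lit 878694101212772238994964336347803577991525032965733539974411745475219514245929242635210192885381515733385462234866011981655379997230005277421905351678342725632) (.p (nat_lit 494) (.a (.f (nat_lit 465) (nat_lit 466) (nat_lit 2510) (.f (nat_lit 493) (nat_lit 464) (nat_lit 2509) (.d (nat_lit 525) (nat_lit 524) (nat_lit 1516) (nat_lit 526) (nat_lit 1517)))) (.a (.f (nat_lit 526) (nat_lit 525) (nat_lit 1517) (.f (nat_lit 498) (nat_lit 527) (nat_lit 1518) (.d (nat_lit 466) (nat_lit 465) (nat_lit 2510) (nat_lit 467) (nat_lit 2511)))) (.a (.f (nat_lit 465) (nat_lit 466) (nat_lit 2510) (.f (nat_lit 493) (nat_lit 464) (nat_lit 2509) (.f (nat_lit 492) (nat_lit 527) (nat_lit 492) (.d (nat_lit 524) (nat_lit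 523) (nat_lit 1515) (nat_lit 525) (nat_lit 1516))))) (.a (.f (nat_lit 526) (nat_lit 525) (nat_lit 1517) (.f (nat_lit 498) (nat_lit 527) (nat_lit 1518) (.f (nat_lit 531) (nat_lit 530) (nat_lit 495) (.f (nat_lit 499) (nat_lit 532) (nat_lit 496) (.d (nat_lit 467) (nat_lit 466) (nat_lit 2511) (nat_lit 468) (nat_lit 2512)))))) (.a (.f (nat_lit 465) (nat_lit 466) (nat_lit 2510) (.f (nat_lit 493) (nat_lit 464) (nat_lit 2509) (.f (nat_lit 492) (nat_lit 527) (nat_lit 492) (.d (nat_lit 460) (nat_lit 459) (nat_lit 3531) (nat_lit 461) (nat_lit 3532))))) (.f (nat_lit 526) (nat_lit 525) (nat_lit 1517) (.f (nat_lit 527) (nat_lit 498) (nat_lit 1518) (.f (nat_lit 493) (nat_lit 492) (nat_lit 492) (.f (nat_lit 464) (nat_lit 465) (nat_lit 2509) (.d (nat_lit 432) (nat_lit 400) (nat_lit 5519) (nat_lit 559) (nat_lit 5551))))))))))))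
noncomputable def s119409 : Cert := .r (nat_lit 878694101212772238994964336347803577991525032965733539974411745475219514245929242635210192885381515733385462234866011981655379997230005277421905351678342725632) (.p (nat_lit 494) (.a (.f (nat_lit 465) (nat_lit 466) (nat_lit 2510) (.f (nat_lit 493) (nat_lit 464) (nat_lit 2509) (.d (nat_lit 461) (nat_lit 460) (nat_lit 3532) (nat_lit 462) (nat_lit 3533)))) (.a (.f (nat_lit 461) (nat_lit 462) (nat_lit 3533) (.f (nat_lit 493) (nat_lit 460) (nat_lit 3532) (.f (nat_lit 524) (nat_lit 525) (nat_lit 1516) (.d (nat_lit 492) (nat_lit 523) (nat_lit 1515) (nat_lit 527) (nat_lit 492))))) (.a (.f (nat_lit 462) (nat_lit 461) (nat_lit 3533) (.f (nat_lit 498) (nat_lit 463) (nat_lit 3534) (.d (nat_lit 466) (nat_lit 465) (nat_lit 2510) (nat_lit 467) (nat_lit 2511)))) (.f (nat_lit 465) (nat_lit 466) (nat_lit 2510) (.f (nat_lit 493) (nat_lit 464) (nat_lit 2509) (.f (nat_lit 492) (nat_lit 527)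 (nat_lit 492) (.d (nat_lit 524) (nat_lit 523) (nat_lit 1515) (nat_lit 525) (nat_lit 1516)))))))))
noncomputable def s119412 : Cert := .r (nat_lit 1318041151051957434766788253737364031793318998147824830420274308177682856971362505420469690527305845711194406520059951380086178353059713413190969030643640434688) (.p (nat_lit 497) (.a (.d (nat_lit 498) (nat_lit 499) (nat_lit 1519) (nat_lit 526) (nat_lit 1518)) (.a (.p (nat_lit 494) (.a (.f (nat_lit 526) (nat_lit 525) (nat_lit 2541) (.f (nat_lit 462) (nat_lit 461) (nat_lit 3533) (.d (nat_lit 430) (nat_lit 398) (nat_lit 4494) (nat_lit 559) (nat_lit 4526)))) (.a (.f (nat_lit 493) (nat_lit 492) (nat_lit 492) (.d (nat_lit 461) (nat_lit 460) (nat_lit 3532) (nat_lit 462) (nat_lit 3533))) (.f (nat_lit 525) (nat_lit 526) (nat_lit 2541) (.d (nat_lit 493) (nat_lit 492) (nat_lit 492) (nat_lit 524) (nat_lit 1516)))))) (.f (nat_lit 498) (nat_lit 499) (nat_lit 1519) (.f (nat_lit 463) (nat_lit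 462) (nat_lit 3534) (.d (nat_lit 431) (nat_lit 399) (nat_lit 4495) (nat_lit 560) (nat_lit 4527)))))))
noncomputable def s119428 : Cert := .r (nat_lit 1318041151051957434766788253737364031793318998147824830420274308177682856971362505420469690527305845711194406520059951380086178353059713413190969030643640434688) (.p (nat_lit 463) (.a (.d (nat_lit 431) (nat_lit 399) (nat_lit 4495) (nat_lit 560) (nat_lit 4527)) (.a (.f (nat_lit 431) (nat_lit 399) (nat_lit 4495) (.f (nat_lit 526) (nat_lit 558) (nat_lit 5550) (.d (nat_lit 497) (nat_lit 498) (nat_lit 1518) (nat_lit 525) (nat_lit 2541)))) (.p (nat_lit 559) (.a (.f (nat_lit 592) (nat_lit 560) (nat_lit 7631) (.d (nat_lit 591) (nat_lit 623) (nat_lit 6639) (nat_lit 624) (nat_lit 4591))) (.a (.f (nat_lit 591) (nat_lit 623) (nat_lit 6639) (.d (nat_lit 590) (nat_lit 558) (nat_lit 5582) (nat_lit 622) (nat_lit 5614))) (.f (nat_lit 560) (nat_lit 592) (nat_lit 4559) (.f (nat_lit 558)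 (nat_lit 590) (nat_lit 5582) (.f (nat_lit 557) (nat_lit 556) (nat_lit 2572) (.f (nat_lit 525) (nat_lit 524) (nat_lit 3596) (.f (nat_lit 497) (nat_lit 526) (nat_lit 2541) (.d (nat_lit 498) (nat_lit 462) (nat_lit 3534) (nat_lit 499) (nat_lit 1519)))))))))))))
noncomputable def s119444 : Cert := .r (nat_lit 1318041151051957434766788253737364031793318998147824830420274308177682856971362505420469690527305845711194406520059951380086178353059713413190969030643640434688) (.p (nat_lit 463) (.a (.d (nat_lit 431) (nat_lit 399) (nat_lit 4495) (nat_lit 560) (nat_lit 4527)) (.a (.f (nat_lit 431) (nat_lit 399) (nat_lit 4495) (.f (nat_lit 526) (nat_lit 558) (nat_lit 5550) (.f (nat_lit 525) (nat_lit 524) (nat_lit 2540) (.f (nat_lit 430) (nat_lit 398) (nat_lit 7566) (.f (nat_lit 462) (nat_lit 559) (nat_lit 7598) (.d (nat_lit 557) (nat_lit 494) (nat_lit 5549) (nat_lit 556) (nat_lit 1548))))))) (.p (nat_lit 559) (.a (.f (nat_lit 592) (nat_lit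 560) (nat_lit 7631) (.d (nat_lit 591) (nat_lit 623) (nat_lit 6639) (nat_lit 624) (nat_lit 4591))) (.a (.f (nat_lit 591) (nat_lit 623) (nat_lit 6639) (.d (nat_lit 590) (nat_lit 558) (nat_lit 5582) (nat_lit 622) (nat_lit 5614))) (.f (nat_lit 560) (nat_lit 592) (nat_lit 4559) (.f (nat_lit 558) (nat_lit 590) (nat_lit 5582) (.f (nat_lit 557) (nat_lit 556) (nat_lit 2572) (.f (nat_lit 525) (nat_lit 524) (nat_lit 3596) (.f (nat_lit 462) (nat_lit 430) (nat_lit 7598) (.f (nat_lit 589) (nat_lit 588) (nat_lit 1580) (.d (nat_lit 494) (nat_lit 493) (nat_lit 6605) (nat_lit 526) (nat_lit 5581))))))))))))))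
noncomputable def s119451 : Cert := .r (nat_lit 1318041151051957434766788253737364031793318998147824830420274308177682856971362505420469690527305845711194406520059951380086178353059713413190969030643640434688) (.p (nat_lit 497) (.a (.d (nat_lit 498) (nat_lit 499) (nat_lit 1519) (nat_lit 526) (nat_lit 1518)) (.a (.p (nat_lit 494) (.a (.f (nat_lit 493) (nat_lit 492) (nat_lit 492) (.d (nat_lit 461) (nat_lit 460) (nat_lit 3532) (nat_lit 462) (nat_lit 3533))) (.a (.f (nat_lit 526) (nat_lit 525) (nat_lit 2541) (.f (nat_lit 462) (nat_lit 461) (nat_lit 3533) (.f (nat_lit 430) (nat_lit 398) (nat_lit 4494) (.f (nat_lit 431) (nat_lit 399) (nat_lit 6542) (.d (nat_lit 463) (nat_lit 558) (nat_lit 5550) (nat_lit 560) (nat_lit 4527)))))) (.f (nat_lit 525) (nat_lit 526) (nat_lit 2541) (.d (nat_lit 493) (nat_lit 492) (nat_lit 492) (nat_lit 524) (nat_lit 1516)))))) (.f (nat_lit 498) (nat_lit 499) (nat_lit 1519) (.f (nat_lit 463) (nat_lit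 462) (nat_lit 3534) (.d (nat_lit 431) (nat_lit 399) (nat_lit 4495) (nat_lit 560) (nat_lit 4527)))))))
noncomputable def s119470 : Cert := .r (nat_lit 1318041151051957434766788253737364031793318998147824830420274308177682856971362505420469690527305845711194406520059951380086178353059713413190969030643640434688) (.p (nat_lit 463) (.a (.d (nat_lit 431) (nat_lit 399) (nat_lit 4495) (nat_lit 560) (nat_lit 4527)) (.a (.f (nat_lit 431) (nat_lit 399) (nat_lit 4495) (.f (nat_lit 430) (nat_lit 398) (nat_lit 7566) (.f (nat_lit 462) (nat_lit 559) (nat_lit 7598) (.f (nat_lit 461) (nat_lit 460) (nat_lit 460) (.d (nat_lit 432) (nat_lit 400) (nat_lit 6543) (nat_lit 433) (nat_lit 1453)))))) (.p (nat_lit 559) (.a (.f (nat_lit 592) (nat_lit 560) (nat_lit 7631) (.d (nat_lit 591) (nat_lit 623) (nat_lit 6639) (nat_lit 624) (nat_lit 4591))) (.a (.f (nat_lit 591) (nat_lit 623) (nat_lit 6639) (.d (nat_lit 590) (nat_lit 558) (nat_lit 5582) (nat_lit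 622) (nat_lit 5614))) (.f (nat_lit 462) (nat_lit 430) (nat_lit 7598) (.f (nat_lit 497) (nat_lit 498) (nat_lit 3534) (.d (nat_lit 461) (nat_lit 460) (nat_lit 460) (nat_lit 494) (nat_lit 3533))))))))))
noncomputable def s119571 : Cert := .r (nat_lit 878694101212772238994964336347803577991525032965733539974411745475219514245929242635210192885381515733385462234866011981655379997230005277421905351678342725632) (.p (nat_lit 463) (.a (.f (nat_lit 498) (nat_lit 462) (nat_lit 3534) (.f (nat_lit 464) (nat_lit 499) (nat_lit 3535) (.d (nat_lit 560) (nat_lit 431) (nat_lit 7599) (nat_lit 592) (nat_lit 7631)))) (.a (.f (nat_lit 498) (nat_lit 462) (nat_lit 3534) (.f (nat_lit 499) (nat_lit 464) (nat_lit 3535) (.d (nat_lit 467) (nat_lit 466) (nat_lit 2511) (nat_lit 468) (nat_lit 2512)))) (.a (.f (nat_lit 560) (nat_lit 592) (nat_lit 7631) (.d (nat_lit 431) (nat_lit 399) (nat_lit 4495) (nat_lit 464) (nat_lit 7599))) (.f (nat_lit 498) (nat_lit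 462) (nat_lit 3534) (.f (nat_lit 467) (nat_lit 466) (nat_lit 2511) (.f (nat_lit 499) (nat_lit 468) (nat_lit 2512) (.d (nat_lit 531) (nat_lit 530) (nat_lit 495) (nat_lit 532) (nat_lit 496)))))))))
noncomputable def s119703 : Cert := .r (nat_lit 1886981213728811826968147812267413832320000285949814265322387852665394840031051572508417505734006914617835652456207319148014825937076070231264352004789479986635305123840) (.p (nat_lit 463) (.a (.f (nat_lit 558) (nat_lit 590) (nat_lit 5582) (.f (nat_lit 526) (nat_lit 431) (nat_lit 5550) (.d (nat_lit 529) (nat_lit 530) (nat_lit 1550) (nat_lit 557) (nat_lit 1549)))) (.a (.f (nat_lit 558) (nat_lit 590) (nat_lit 5582) (.f (nat_lit 431) (nat_lit 526) (nat_lit 5550) (.d (nat_lit 432) (nat_lit 400) (nat_lit 6543) (nat_lit 464) (nat_lit 6575)))) (.a (.f (nat_lit 432) (nat_lit 464) (nat_lit 6575) (.f (nat_lit 431) (nat_lit 400) (nat_lit 6543) (.d (nat_lit 430) (nat_lit 398) (nat_lit 7566)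 (nat_lit 462) (nat_lit 7598)))) (.f (nat_lit 558) (nat_lit 590) (nat_lit 5582) (.f (nat_lit 529) (nat_lit 530) (nat_lit 1550) (.d (nat_lit 557) (nat_lit 526) (nat_lit 1549) (nat_lit 556) (nat_lit 2572))))))))
noncomputable def s119709 : Cert := .r (nat_lit 1886981213728811826968147812267413832320000285949814265322387852665394840031051572508417505734006914617835652456207319148014825937076070231264352004789479986635305123840) (.p (nat_lit 463) (.a (.f (nat_lit 464) (nat_lit 432) (nat_lit 6575) (.f (nat_lit 496) (nat_lit 591) (nat_lit 6607) (.f (nat_lit 462) (nat_lit 430) (nat_lit 7598) (.d (nat_lit 461) (nat_lit 460) (nat_lit 460) (nat_lit 497) (nat_lit 461))))) (.a (.f (nat_lit 462) (nat_lit 430) (nat_lit 7598) (.f (nat_lit 494) (nat_lit 591) (nat_lit 7630) (.f (nat_lit 464) (nat_lit 432) (nat_lit 6575) (.d (nat_lit 493) (nat_lit 465) (nat_lit 1485) (nat_lit 492) (nat_lit 492))))) (.a (.f (nat_lit 432) (nat_lit 464)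 (nat_lit 6575) (.f (nat_lit 431) (nat_lit 400) (nat_lit 6543) (.d (nat_lit 430) (nat_lit 398) (nat_lit 7566) (nat_lit 462) (nat_lit 7598)))) (.a (.f (nat_lit 464) (nat_lit 432) (nat_lit 6575) (.f (nat_lit 591) (nat_lit 496) (nat_lit 6607) (.d (nat_lit 590) (nat_lit 558) (nat_lit 5582) (nat_lit 622) (nat_lit 5614)))) (.f (nat_lit 558) (nat_lit 590) (nat_lit 5582) (.f (nat_lit 462) (nat_lit 430) (nat_lit 7598) (.f (nat_lit 494) (nat_lit 591) (nat_lit 7630) (.f (nat_lit 529) (nat_lit 530) (nat_lit 1550) (.d (nat_lit 493) (nat_lit 492) (nat_lit 492) (nat_lit 496) (nat_lit 493)))))))))))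
noncomputable def s119725 : Cert := .r (nat_lit 1886981213728811826968147812267413832320000285949814265322387852665394840031051572508417505734006914617835652456207319148014825937076070231264352004789479986635305123840) (.p (nat_lit 463) (.a (.f (nat_lit 558) (nat_lit 590) (nat_lit 5582) (.f (nat_lit 526) (nat_lit 431) (nat_lit 5550) (.d (nat_lit 529) (nat_lit 530) (nat_lit 1550) (nat_lit 557) (nat_lit 1549)))) (.a (.f (nat_lit 558) (nat_lit 590) (nat_lit 5582) (.f (nat_lit 431) (nat_lit 526) (nat_lit 5550) (.d (nat_lit 430) (nat_lit 398) (nat_lit 7566) (nat_lit 462) (nat_lit 7598)))) (.a (.f (nat_lit 558) (nat_lit 590) (nat_lit 5582) (.f (nat_lit 462) (nat_lit 430) (nat_lit 7598) (.f (nat_lit 494) (nat_lit 591) (nat_lit 7630) (.f (nat_lit 529) (nat_lit 530) (nat_lit 1550) (.d (nat_lit 493) (nat_lit 492) (nat_lit 492) (nat_lit 496) (nat_lit 493)))))) (.f (nat_lit 462) (nat_lit 430) (nat_lit 7598) (.f (nat_lit 494) (nat_lit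 591) (nat_lit 7630) (.f (nat_lit 493) (nat_lit 492) (nat_lit 492) (.d (nat_lit 529) (nat_lit 496) (nat_lit 493) (nat_lit 530) (nat_lit 3566)))))))))
noncomputable def s119752 : Cert := .r (nat_lit 3075429351840806608808645991426376339362569487970970887347565404386476201415154092488552798856433831015013252414348633279616902842911095695092083207336062091264) (.p (nat_lit 526) (.a (.f (nat_lit 497) (nat_lit 498) (nat_lit 2542) (.f (nat_lit 496) (nat_lit 525) (nat_lit 2541) (.f (nat_lit 530) (nat_lit 531) (nat_lit 3567) (.d (nat_lit 558) (nat_lit 557) (nat_lit 1549) (nat_lit 559) (nat_lit 1550))))) (.a (.f (nat_lit 558) (nat_lit 557) (nat_lit 1549) (.f (nat_lit 530) (nat_lit 559) (nat_lit 1550) (.d (nat_lit 498) (nat_lit 497) (nat_lit 2542) (nat_lit 499) (nat_lit 2543)))) (.a (.f (nat_lit 497) (nat_lit 498) (nat_lit 2542) (.f (nat_lit 525) (nat_lit 496) (nat_lit 2541) (.d (nat_lit 557) (nat_lit 556) (nat_lit 1548) (nat_lit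 558) (nat_lit 1549)))) (.a (.f (nat_lit 558) (nat_lit 557) (nat_lit 1549) (.f (nat_lit 530) (nat_lit 559) (nat_lit 1550) (.f (nat_lit 531) (nat_lit 496) (nat_lit 3567) (.d (nat_lit 499) (nat_lit 498) (nat_lit 2543) (nat_lit 500) (nat_lit 2544))))) (.a (.f (nat_lit 558) (nat_lit 557) (nat_lit 1549) (.f (nat_lit 530) (nat_lit 559) (nat_lit 1550) (.f (nat_lit 531) (nat_lit 496) (nat_lit 3567) (.d (nat_lit 563) (nat_lit 562) (nat_lit 527) (nat_lit 564) (nat_lit 528))))) (.a (.f (nat_lit 497) (nat_lit 498) (nat_lit 2542) (.f (nat_lit 525) (nat_lit 496) (nat_lit 2541) (.f (nat_lit 492) (nat_lit 493) (nat_lit 3564) (.f (nat_lit 524) (nat_lit 491) (nat_lit 3563) (.d (nat_lit 556) (nat_lit 555) (nat_lit 1547) (nat_lit 557) (nat_lit 1548)))))) (.f (nat_lit 497) (nat_lit 498) (nat_lit 2542) (.f (nat_lit 496) (nat_lit 525) (nat_lit 2541) (.f (nat_lit 530) (nat_lit 531) (nat_lit 3567) (.f (nat_lit 559) (nat_lit 558) (nat_lit 1550)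 (.d (nat_lit 464) (nat_lit 432) (nat_lit 5551) (nat_lit 591) (nat_lit 6607)))))))))))))
noncomputable def s119794 : Cert := .r (nat_lit 1886981213728811826968147812267413832320000285949814265322387852665394840031051572508417505734006914617835652456207319148014825937076070231264352004789479986635305123840) (.p (nat_lit 463) (.a (.f (nat_lit 464) (nat_lit 432) (nat_lit 6575) (.f (nat_lit 496) (nat_lit 591) (nat_lit 6607) (.f (nat_lit 462) (nat_lit 430) (nat_lit 7598) (.d (nat_lit 461) (nat_lit 460) (nat_lit 460) (nat_lit 497) (nat_lit 461))))) (.a (.f (nat_lit 432) (nat_lit 464) (nat_lit 6575) (.f (nat_lit 431) (nat_lit 400) (nat_lit 6543) (.d (nat_lit 430) (nat_lit 398) (nat_lit 7566) (nat_lit 462) (nat_lit 7598)))) (.a (.f (nat_lit 464) (nat_lit 432) (nat_lit 6575) (.f (nat_lit 591) (nat_lit 496) (nat_lit 6607) (.d (nat_lit 590) (nat_lit 558) (nat_lit 5582) (nat_lit 622) (nat_lit 5614)))) (.a (.f (nat_lit 430) (nat_lit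 462) (nat_lit 7598) (.f (nat_lit 431) (nat_lit 398) (nat_lit 7566) (.f (nat_lit 400) (nat_lit 432) (nat_lit 6543) (.d (nat_lit 399) (nat_lit 368) (nat_lit 6511) (nat_lit 496) (nat_lit 4495))))) (.f (nat_lit 430) (nat_lit 462) (nat_lit 7598) (.f (nat_lit 431) (nat_lit 398) (nat_lit 7566) (.f (nat_lit 496) (nat_lit 399) (nat_lit 4495) (.d (nat_lit 591) (nat_lit 464) (nat_lit 6607) (nat_lit 623) (nat_lit 6639))))))))))
noncomputable def s119795 : Cert := .r (nat_lit 1886981213728811826968147812267413832320000285949814265322387852665394840031051572508417505734006914617835652456207319148014825937076070231264352004789479986635305123840) (.p (nat_lit 463) (.a (.f (nat_lit 464) (nat_lit 432) (nat_lit 6575) (.f (nat_lit 496) (nat_lit 591) (nat_lit 6607) (.f (nat_lit 462) (nat_lit 430) (nat_lit 7598) (.d (nat_lit 461) (nat_lit 460) (nat_lit 460) (nat_lit 497) (nat_lit 461))))) (.a (.f (nat_lit 432) (nat_lit 464) (nat_lit 6575)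 (.f (nat_lit 431) (nat_lit 400) (nat_lit 6543) (.d (nat_lit 430) (nat_lit 398) (nat_lit 7566) (nat_lit 462) (nat_lit 7598)))) (.a (.f (nat_lit 464) (nat_lit 432) (nat_lit 6575) (.f (nat_lit 591) (nat_lit 496) (nat_lit 6607) (.f (nat_lit 624) (nat_lit 592) (nat_lit 4591) (.f (nat_lit 623) (nat_lit 656) (nat_lit 4623) (.d (nat_lit 622) (nat_lit 590) (nat_lit 5614) (nat_lit 654) (nat_lit 5646)))))) (.a (.f (nat_lit 430) (nat_lit 462) (nat_lit 7598) (.f (nat_lit 431) (nat_lit 398) (nat_lit 7566) (.f (nat_lit 400) (nat_lit 432) (nat_lit 6543) (.d (nat_lit 399) (nat_lit 368) (nat_lit 6511) (nat_lit 496) (nat_lit 4495))))) (.f (nat_lit 430) (nat_lit 462) (nat_lit 7598) (.f (nat_lit 431) (nat_lit 398) (nat_lit 7566) (.f (nat_lit 496) (nat_lit 399) (nat_lit 4495) (.d (nat_lit 591) (nat_lit 464) (nat_lit 6607) (nat_lit 623) (nat_lit 6639))))))))))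
noncomputable def s119796 : Cert := .r (nat_lit 1886981213728811826968147812267413832320000285949814265322387852665394840031051572508417505734006914617835652456207319148014825937076070231264352004789479986635305123840) (.p (nat_lit 463) (.a (.f (nat_lit 558) (nat_lit 590) (nat_lit 5582) (.f (nat_lit 526) (nat_lit 431) (nat_lit 5550) (.d (nat_lit 529) (nat_lit 530) (nat_lit 1550) (nat_lit 557) (nat_lit 1549)))) (.a (.f (nat_lit 558) (nat_lit 590) (nat_lit 5582) (.f (nat_lit 431) (nat_lit 526) (nat_lit 5550) (.d (nat_lit 430) (nat_lit 398) (nat_lit 7566) (nat_lit 462) (nat_lit 7598)))) (.a (.f (nat_lit 430) (nat_lit 462) (nat_lit 7598) (.f (nat_lit 431) (nat_lit 398) (nat_lit 7566) (.f (nat_lit 400) (nat_lit 432) (nat_lit 6543) (.d (nat_lit 399) (nat_lit 368) (nat_lit 6511) (nat_lit 496) (nat_lit 4495))))) (.f (nat_lit 558) (nat_lit 590) (nat_lit 5582) (.f (nat_lit 529) (nat_lit 530) (nat_lit 1550) (.d (nat_lit 557) (nat_lit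 526) (nat_lit 1549) (nat_lit 556) (nat_lit 2572))))))))
noncomputable def s119797 : Cert := .r (nat_lit 1886981213728811826968147812267413832320000285949814265322387852665394840031051572508417505734006914617835652456207319148014825937076070231264352004789479986635305123840) (.p (nat_lit 463) (.a (.f (nat_lit 464) (nat_lit 432) (nat_lit 6575) (.f (nat_lit 496) (nat_lit 591) (nat_lit 6607) (.f (nat_lit 462) (nat_lit 430) (nat_lit 7598) (.d (nat_lit 461) (nat_lit 460) (nat_lit 460) (nat_lit 497) (nat_lit 461))))) (.a (.f (nat_lit 432) (nat_lit 464) (nat_lit 6575) (.f (nat_lit 431) (nat_lit 400) (nat_lit 6543) (.d (nat_lit 430) (nat_lit 398) (nat_lit 7566) (nat_lit 462) (nat_lit 7598)))) (.a (.f (nat_lit 464) (nat_lit 432) (nat_lit 6575) (.f (nat_lit 496) (nat_lit 591) (nat_lit 6607) (.f (nat_lit 431) (nat_lit 399) (nat_lit 4495) (.f (nat_lit 526) (nat_lit 558) (nat_lit 5550) (.d (nat_lit 525) (nat_lit 497) (nat_lit 2541)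 (nat_lit 524) (nat_lit 2540)))))) (.a (.f (nat_lit 430) (nat_lit 462) (nat_lit 7598) (.f (nat_lit 431) (nat_lit 398) (nat_lit 7566) (.f (nat_lit 400) (nat_lit 432) (nat_lit 6543) (.d (nat_lit 399) (nat_lit 368) (nat_lit 6511) (nat_lit 496) (nat_lit 4495))))) (.f (nat_lit 430) (nat_lit 462) (nat_lit 7598) (.f (nat_lit 431) (nat_lit 398) (nat_lit 7566) (.f (nat_lit 496) (nat_lit 399) (nat_lit 4495) (.d (nat_lit 591) (nat_lit 464) (nat_lit 6607) (nat_lit 623) (nat_lit 6639))))))))))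
noncomputable def s119805 : Cert := .r (nat_lit 1886981213948485352092327323146834657890604868902436194926973625766017670724988954377142499401928823119002198215480801112542213394263973847255284606791848891950986952704) (.p (nat_lit 591) (.a (.f (nat_lit 622) (nat_lit 590) (nat_lit 5614) (.f (nat_lit 623) (nat_lit 654) (nat_lit 5646) (.d (nat_lit 624) (nat_lit 592) (nat_lit 4591) (nat_lit 656) (nat_lit 4623)))) (.a (.f (nat_lit 624) (nat_lit 592) (nat_lit 4591) (.f (nat_lit 623) (nat_lit 656) (nat_lit 4623) (.f (nat_lit 654) (nat_lit 622) (nat_lit 5646) (.d (nat_lit 655) (nat_lit 558) (nat_lit 7694) (nat_lit 686) (nat_lit 5678))))) (.a (.f (nat_lit 624) (nat_lit 592) (nat_lit 4591) (.f (nat_lit 623) (nat_lit 656) (nat_lit 4623) (.f (nat_lit 558) (nat_lit 655) (nat_lit 7694) (.d (nat_lit 463) (nat_lit 431) (nat_lit 5550) (nat_lit 590) (nat_lit 5582))))) (.f (nat_lit 590) (nat_lit 622) (nat_lit 5614) (.f (nat_lit 463)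 (nat_lit 558) (nat_lit 5582) (.f (nat_lit 430) (nat_lit 462) (nat_lit 7598) (.f (nat_lit 431) (nat_lit 398) (nat_lit 7566) (.d (nat_lit 432) (nat_lit 400) (nat_lit 6543) (nat_lit 464) (nat_lit 6575))))))))))
noncomputable def s119887 : Cert := .r (nat_lit 1886981213728811826968147812267413832320000285949814265322387852665394840031051572508417505734006914617835652456207319148014825937076070231264352004789479986635305123840) (.p (nat_lit 463) (.a (.f (nat_lit 558) (nat_lit 590) (nat_lit 5582) (.f (nat_lit 431) (nat_lit 526) (nat_lit 5550) (.d (nat_lit 432) (nat_lit 400) (nat_lit 6543) (nat_lit 464) (nat_lit 6575)))) (.a (.f (nat_lit 464) (nat_lit 432) (nat_lit 6575) (.f (nat_lit 591) (nat_lit 496) (nat_lit 6607) (.d (nat_lit 590) (nat_lit 558) (nat_lit 5582) (nat_lit 622) (nat_lit 5614)))) (.a (.f (nat_lit 558) (nat_lit 590) (nat_lit 5582) (.f (nat_lit 431) (nat_lit 526) (nat_lit 5550) (.f (nat_lit 399) (nat_lit 496)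 (nat_lit 4495) (.d (nat_lit 400) (nat_lit 368) (nat_lit 6511) (nat_lit 432) (nat_lit 6543))))) (.a (.f (nat_lit 464) (nat_lit 432) (nat_lit 6575) (.f (nat_lit 591) (nat_lit 496) (nat_lit 6607) (.f (nat_lit 624) (nat_lit 592) (nat_lit 4591) (.f (nat_lit 623) (nat_lit 656) (nat_lit 4623) (.d (nat_lit 622) (nat_lit 590) (nat_lit 5614) (nat_lit 654) (nat_lit 5646)))))) (.a (.f (nat_lit 558) (nat_lit 590) (nat_lit 5582) (.f (nat_lit 431) (nat_lit 526) (nat_lit 5550) (.f (nat_lit 399) (nat_lit 496) (nat_lit 4495) (.d (nat_lit 398) (nat_lit 366) (nat_lit 7534) (nat_lit 430) (nat_lit 7566))))) (.f (nat_lit 464) (nat_lit 432) (nat_lit 6575) (.f (nat_lit 496) (nat_lit 591) (nat_lit 6607) (.f (nat_lit 431) (nat_lit 399) (nat_lit 4495) (.f (nat_lit 526) (nat_lit 558) (nat_lit 5550) (.d (nat_lit 525) (nat_lit 497) (nat_lit 2541) (nat_lit 524) (nat_lit 2540))))))))))))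
noncomputable def s119888 : Cert := .r (nat_lit 1886981213728811826968147812267413832320000285949814265322387852665394840031051572508417505734006914617835652456207319148014825937076070231264352004789479986635305123840) (.p (nat_lit 463) (.a (.f (nat_lit 558) (nat_lit 590) (nat_lit 5582) (.f (nat_lit 431) (nat_lit 526) (nat_lit 5550) (.d (nat_lit 430) (nat_lit 398) (nat_lit 7566) (nat_lit 462) (nat_lit 7598)))) (.a (.f (nat_lit 430) (nat_lit 462) (nat_lit 7598) (.f (nat_lit 431) (nat_lit 398) (nat_lit 7566) (.f (nat_lit 400) (nat_lit 432) (nat_lit 6543) (.d (nat_lit 399) (nat_lit 368) (nat_lit 6511) (nat_lit 496) (nat_lit 4495))))) (.a (.f (nat_lit 462) (nat_lit 430) (nat_lit 7598) (.f (nat_lit 591) (nat_lit 494) (nat_lit 7630) (.d (nat_lit 590) (nat_lit 558) (nat_lit 5582) (nat_lit 622) (nat_lit 5614)))) (.f (nat_lit 558) (nat_lit 590) (nat_lit 5582) (.f (nat_lit 431) (nat_lit 526) (nat_lit 5550) (.f (nat_lit 399) (nat_lit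 496) (nat_lit 4495) (.d (nat_lit 400) (nat_lit 368) (nat_lit 6511) (nat_lit 432) (nat_lit 6543)))))))))
noncomputable def s119891 : Cert := .r (nat_lit 1318041151051957434766788253737364031793318998147824830420274308177682856971362505420469690527305845711194406520059951380086178353059713413190969030643640434688) (.p (nat_lit 559) (.a (.d (nat_lit 591) (nat_lit 464) (nat_lit 6607) (nat_lit 623) (nat_lit 6639)) (.a (.p (nat_lit 463) (.a (.f (nat_lit 464) (nat_lit 432) (nat_lit 5551) (.f (nat_lit 462) (nat_lit 430) (nat_lit 7598) (.d (nat_lit 461) (nat_lit 460) (nat_lit 460) (nat_lit 497) (nat_lit 461)))) (.a (.f (nat_lit 431) (nat_lit 399) (nat_lit 4495) (.d (nat_lit 430) (nat_lit 398) (nat_lit 7566) (nat_lit 462) (nat_lit 7598))) (.f (nat_lit 432) (nat_lit 464) (nat_lit 5551) (.d (nat_lit 431) (nat_lit 399) (nat_lit 4495) (nat_lit 400) (nat_lit 6543)))))) (.f (nat_lit 591) (nat_lit 623) (nat_lit 6639) (.f (nat_lit 494)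 (nat_lit 462) (nat_lit 7630) (.d (nat_lit 493) (nat_lit 492) (nat_lit 492) (nat_lit 529) (nat_lit 493)))))))
noncomputable def s119902 : Cert := .r (nat_lit 1318041151051957434766788253737364031793318998147824830420274308177682856971362505420469690527305845711194406520059951380086178353059713413190969030643640434688) (.p (nat_lit 494) (.a (.d (nat_lit 493) (nat_lit 492) (nat_lit 492) (nat_lit 529) (nat_lit 493)) (.a (.f (nat_lit 493) (nat_lit 492) (nat_lit 492) (.f (nat_lit 464) (nat_lit 465) (nat_lit 2509) (.d (nat_lit 559) (nat_lit 432) (nat_lit 5551) (nat_lit 591) (nat_lit 6607)))) (.p (nat_lit 497) (.a (.f (nat_lit 530) (nat_lit 529) (nat_lit 3566) (.d (nat_lit 498) (nat_lit 499) (nat_lit 1519) (nat_lit 531) (nat_lit 495))) (.a (.f (nat_lit 498) (nat_lit 499) (nat_lit 1519) (.d (nat_lit 466) (nat_lit 465) (nat_lit 2510) (nat_lit 467) (nat_lit 2511))) (.f (nat_lit 529) (nat_lit 530) (nat_lit 494) (.f (nat_lit 465)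 (nat_lit 466) (nat_lit 2510) (.f (nat_lit 433) (nat_lit 401) (nat_lit 5520) (.f (nat_lit 432) (nat_lit 400) (nat_lit 7568) (.f (nat_lit 559) (nat_lit 464) (nat_lit 5551) (.d (nat_lit 591) (nat_lit 462) (nat_lit 7630) (nat_lit 623) (nat_lit 6639)))))))))))))
noncomputable def s119914 : Cert := .r (nat_lit 1318041151051957434766788253737364031793318998147824830420274308177682856971362505420469690527305845711194406520059951380086178353059713413190969030643640434688) (.p (nat_lit 494) (.a (.d (nat_lit 493) (nat_lit 492) (nat_lit 492) (nat_lit 529) (nat_lit 493)) (.a (.f (nat_lit 493) (nat_lit 492) (nat_lit 492) (.f (nat_lit 464) (nat_lit 465) (nat_lit 2509) (.f (nat_lit 432) (nat_lit 400) (nat_lit 5519) (.f (nat_lit 461) (nat_lit 460) (nat_lit 3532) (.f (nat_lit 462) (nat_lit 497) (nat_lit 3533) (.d (nat_lit 433) (nat_lit 401) (nat_lit 6544) (nat_lit 463) (nat_lit 2477))))))) (.p (nat_lit 497) (.a (.f (nat_lit 530) (nat_lit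 529) (nat_lit 3566) (.d (nat_lit 498) (nat_lit 499) (nat_lit 1519) (nat_lit 531) (nat_lit 495))) (.a (.f (nat_lit 498) (nat_lit 499) (nat_lit 1519) (.d (nat_lit 466) (nat_lit 465) (nat_lit 2510) (nat_lit 467) (nat_lit 2511))) (.f (nat_lit 529) (nat_lit 530) (nat_lit 494) (.f (nat_lit 465) (nat_lit 466) (nat_lit 2510) (.f (nat_lit 433) (nat_lit 401) (nat_lit 5520) (.f (nat_lit 432) (nat_lit 400) (nat_lit 7568) (.f (nat_lit 462) (nat_lit 461) (nat_lit 3533) (.f (nat_lit 434) (nat_lit 402) (nat_lit 6545) (.d (nat_lit 463) (nat_lit 431) (nat_lit 1454) (nat_lit 464) (nat_lit 2478))))))))))))))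
noncomputable def s119921 : Cert := .r (nat_lit 1318041151051957434766788253737364031793318998147824830420274308177682856971362505420469690527305845711194406520059951380086178353059713413190969030643640434688) (.p (nat_lit 559) (.a (.d (nat_lit 591) (nat_lit 464) (nat_lit 6607) (nat_lit 623) (nat_lit 6639)) (.a (.p (nat_lit 463) (.a (.f (nat_lit 431) (nat_lit 399) (nat_lit 4495) (.d (nat_lit 430) (nat_lit 398) (nat_lit 7566) (nat_lit 462) (nat_lit 7598))) (.a (.f (nat_lit 464) (nat_lit 432) (nat_lit 5551) (.f (nat_lit 462) (nat_lit 430) (nat_lit 7598) (.f (nat_lit 461) (nat_lit 460) (nat_lit 460) (.f (nat_lit 493) (nat_lit 492) (nat_lit 1484) (.d (nat_lit 494) (nat_lit 465) (nat_lit 2509) (nat_lit 529) (nat_lit 493)))))) (.f (nat_lit 432) (nat_lit 464) (nat_lit 5551) (.d (nat_lit 431) (nat_lit 399) (nat_lit 4495) (nat_lit 400) (nat_lit 6543)))))) (.f (nat_lit 591) (nat_lit 623) (nat_lit 6639) (.f (nat_lit 494) (nat_lit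 462) (nat_lit 7630) (.d (nat_lit 493) (nat_lit 492) (nat_lit 492) (nat_lit 529) (nat_lit 493)))))))
noncomputable def s119935 : Cert := .r (nat_lit 1318041151051957434766788253737364031793318998147824830420274308177682856971362505420469690527305845711194406520059951380086178353059713413190969030643640434688) (.p (nat_lit 494) (.a (.d (nat_lit 493) (nat_lit 492) (nat_lit 492) (nat_lit 529) (nat_lit 493)) (.a (.f (nat_lit 493) (nat_lit 492) (nat_lit 492) (.f (nat_lit 461) (nat_lit 460) (nat_lit 3532) (.f (nat_lit 462) (nat_lit 497) (nat_lit 3533) (.f (nat_lit 430) (nat_lit 398) (nat_lit 4494) (.d (nat_lit 525) (nat_lit 524) (nat_lit 1516) (nat_lit 557) (nat_lit 6573)))))) (.p (nat_lit 497) (.a (.f (nat_lit 530) (nat_lit 529) (nat_lit 3566) (.d (nat_lit 498) (nat_lit 499) (nat_lit 1519) (nat_lit 531) (nat_lit 495))) (.a (.f (nat_lit 498) (nat_lit 499) (nat_lit 1519) (.d (nat_lit 466) (nat_lit 465) (nat_lit 2510) (nat_lit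 467) (nat_lit 2511))) (.f (nat_lit 462) (nat_lit 461) (nat_lit 3533) (.f (nat_lit 559) (nat_lit 591) (nat_lit 7630) (.d (nat_lit 430) (nat_lit 398) (nat_lit 4494) (nat_lit 463) (nat_lit 7598))))))))))
noncomputable def s120033 : Cert := .r (nat_lit 1886981213728811826968147812267413832320000285949814265322387852665394840031051572508417505734006914617835652456207319148014825937076070231264352004789479986635305123840) (.p (nat_lit 494) (.a (.f (nat_lit 591) (nat_lit 462) (nat_lit 7630) (.f (nat_lit 526) (nat_lit 623) (nat_lit 7662) (.d (nat_lit 529) (nat_lit 493) (nat_lit 3565) (nat_lit 530) (nat_lit 3566)))) (.a (.f (nat_lit 591) (nat_lit 462) (nat_lit 7630) (.f (nat_lit 623) (nat_lit 526) (nat_lit 7662) (.d (nat_lit 622) (nat_lit 590) (nat_lit 5614) (nat_lit 654) (nat_lit 5646)))) (.a (.f (nat_lit 529) (nat_lit 530) (nat_lit 3566) (.d (nat_lit 493) (nat_lit 492) (nat_lit 492) (nat_lit 526) (nat_lit 3565))) (.f (nat_lit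 591) (nat_lit 462) (nat_lit 7630) (.f (nat_lit 622) (nat_lit 590) (nat_lit 5614) (.f (nat_lit 623) (nat_lit 654) (nat_lit 5646) (.d (nat_lit 624) (nat_lit 592) (nat_lit 4591) (nat_lit 656) (nat_lit 4623)))))))))
noncomputable def s120214 : Cert := .r (nat_lit 1318041150847370521797096438179258122331114293671158835124282878941979184664658013991928719040001288092378025047918138138408740222977764997599193790977052508160) (.p (nat_lit 432) (.a (.f (nat_lit 431) (nat_lit 400) (nat_lit 6543) (.f (nat_lit 430) (nat_lit 398) (nat_lit 7566) (.d (nat_lit 559) (nat_lit 462) (nat_lit 7598) (nat_lit 464) (nat_lit 6575)))) (.a (.f (nat_lit 431) (nat_lit 400) (nat_lit 6543) (.f (nat_lit 399) (nat_lit 496) (nat_lit 4495) (.d (nat_lit 398) (nat_lit 366) (nat_lit 7534) (nat_lit 430) (nat_lit 7566)))) (.f (nat_lit 559) (nat_lit 464) (nat_lit 6575) (.f (nat_lit 590) (nat_lit 558) (nat_lit 5582) (.f (nat_lit 591) (nat_lit 622) (nat_lit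 5614) (.f (nat_lit 623) (nat_lit 496) (nat_lit 6639) (.d (nat_lit 624) (nat_lit 592) (nat_lit 4591) (nat_lit 656) (nat_lit 4623)))))))))
noncomputable def s120250 : Cert := .r (nat_lit 1318041150847370521797096438179258122331114293671158835124282878941979184664658013991928719040001288092378025047918138138408740222977764997599193790977052508160) (.p (nat_lit 432) (.a (.f (nat_lit 559) (nat_lit 464) (nat_lit 6575) (.f (nat_lit 558) (nat_lit 590) (nat_lit 5582) (.f (nat_lit 557) (nat_lit 556) (nat_lit 2572) (.d (nat_lit 529) (nat_lit 526) (nat_lit 1549) (nat_lit 530) (nat_lit 1550))))) (.a (.f (nat_lit 559) (nat_lit 464) (nat_lit 6575) (.f (nat_lit 590) (nat_lit 558) (nat_lit 5582) (.f (nat_lit 591) (nat_lit 622) (nat_lit 5614) (.f (nat_lit 623) (nat_lit 496) (nat_lit 6639) (.d (nat_lit 624) (nat_lit 592) (nat_lit 4591) (nat_lit 656) (nat_lit 4623)))))) (.a (.f (nat_lit 431) (nat_lit 400) (nat_lit 6543) (.f (nat_lit 496)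 (nat_lit 399) (nat_lit 4495) (.f (nat_lit 526) (nat_lit 558) (nat_lit 5550) (.d (nat_lit 525) (nat_lit 497) (nat_lit 2541) (nat_lit 524) (nat_lit 2540))))) (.f (nat_lit 464) (nat_lit 559) (nat_lit 6575) (.d (nat_lit 400) (nat_lit 368) (nat_lit 5487) (nat_lit 431) (nat_lit 6543)))))))
noncomputable def s120277 : Cert := .r (nat_lit 1318041150847370521797096438179258122331114293671158835124282878941979184664658013991928719040001288092378025047918138138408740222977764997599193790977052508160) (.p (nat_lit 559) (.a (.f (nat_lit 464) (nat_lit 432) (nat_lit 6575) (.f (nat_lit 496) (nat_lit 591) (nat_lit 6607) (.f (nat_lit 462) (nat_lit 430) (nat_lit 7598) (.d (nat_lit 461) (nat_lit 460) (nat_lit 460) (nat_lit 497) (nat_lit 461))))) (.a (.f (nat_lit 432) (nat_lit 464) (nat_lit 6575) (.f (nat_lit 431) (nat_lit 400) (nat_lit 6543) (.d (nat_lit 430) (nat_lit 398) (nat_lit 7566) (nat_lit 462) (nat_lit 7598)))) (.a (.f (nat_lit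 430) (nat_lit 462) (nat_lit 7598) (.f (nat_lit 431) (nat_lit 398) (nat_lit 7566) (.f (nat_lit 400) (nat_lit 432) (nat_lit 6543) (.d (nat_lit 399) (nat_lit 368) (nat_lit 6511) (nat_lit 496) (nat_lit 4495))))) (.a (.f (nat_lit 430) (nat_lit 462) (nat_lit 7598) (.f (nat_lit 431) (nat_lit 398) (nat_lit 7566) (.f (nat_lit 496) (nat_lit 399) (nat_lit 4495) (.d (nat_lit 591) (nat_lit 464) (nat_lit 6607) (nat_lit 623) (nat_lit 6639))))) (.f (nat_lit 464) (nat_lit 432) (nat_lit 6575) (.f (nat_lit 591) (nat_lit 496) (nat_lit 6607) (.f (nat_lit 624) (nat_lit 592) (nat_lit 4591) (.f (nat_lit 623) (nat_lit 656) (nat_lit 4623) (.d (nat_lit 622) (nat_lit 590) (nat_lit 5614) (nat_lit 654) (nat_lit 5646)))))))))))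
noncomputable def s120287 : Cert := .r (nat_lit 1886981213728811826968147812338864986273155625718374992933010250410495200352057687106329118274260479196535121910865204197380639485961269155246742360367665465134640267264) (.p (nat_lit 591) (.a (.d (nat_lit 592) (nat_lit 560) (nat_lit 4559) (nat_lit 624) (nat_lit 4591)) (.a (.f (nat_lit 622) (nat_lit 590) (nat_lit 5614) (.f (nat_lit 623) (nat_lit 654) (nat_lit 5646) (.d (nat_lit 624) (nat_lit 592) (nat_lit 4591) (nat_lit 656) (nat_lit 4623)))) (.a (.f (nat_lit 622) (nat_lit 590) (nat_lit 5614) (.f (nat_lit 623) (nat_lit 654) (nat_lit 5646) (.f (nat_lit 655) (nat_lit 560) (nat_lit 6671) (.d (nat_lit 656) (nat_lit 624) (nat_lit 4623) (nat_lit 688) (nat_lit 4655))))) (.f (nat_lit 560) (nat_lit 592) (nat_lit 4559) (.f (nat_lit 623) (nat_lit 655) (nat_lit 6671) (.d (nat_lit 622) (nat_lit 590) (nat_lit 5614) (nat_lit 654) (nat_lit 5646))))))))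
noncomputable def s120331 : Cert := .r (nat_lit 1318041150847370521939998746085568801868235748892403630614483599583991413860481239072435848197400227001693795146649765236179138070942545708755564747975722795008) (.p (nat_lit 498) (.a (.f (nat_lit 499) (nat_lit 466) (nat_lit 463) (.f (nat_lit 497) (nat_lit 500) (nat_lit 3536) (.d (nat_lit 529) (nat_lit 526) (nat_lit 2542) (nat_lit 530) (nat_lit 2543)))) (.a (.f (nat_lit 466) (nat_lit 499) (nat_lit 463) (.f (nat_lit 435) (nat_lit 434) (nat_lit 2479) (.d (nat_lit 467) (nat_lit 436) (nat_lit 2480) (nat_lit 496) (nat_lit 1487)))) (.a (.f (nat_lit 497) (nat_lit 462) (nat_lit 462) (.f (nat_lit 529) (nat_lit 526) (nat_lit 2542) (.d (nat_lit 499) (nat_lit 500) (nat_lit 3536) (nat_lit 530) (nat_lit 2543)))) (.f (nat_lit 497) (nat_lit 462) (nat_lit 462) (.d (nat_lit 526) (nat_lit 496) (nat_lit 1518) (nat_lit 529) (nat_lit 2542)))))))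
noncomputable def s120332 : Cert := .r (nat_lit 1318041150847370521939998746085568801868235748892403630614483599583991413860481239072435848197400227001693795146649765236179138070942545708755564747975722795008) (.p (nat_lit 498) (.a (.f (nat_lit 499) (nat_lit 466) (nat_lit 463) (.f (nat_lit 497) (nat_lit 500) (nat_lit 3536) (.d (nat_lit 529) (nat_lit 526) (nat_lit 2542) (nat_lit 530) (nat_lit 2543)))) (.a (.f (nat_lit 466) (nat_lit 499) (nat_lit 463) (.f (nat_lit 496) (nat_lit 467) (nat_lit 1487) (.d (nat_lit 560) (nat_lit 433) (nat_lit 6576) (nat_lit 592) (nat_lit 7631)))) (.a (.f (nat_lit 497) (nat_lit 462) (nat_lit 462) (.f (nat_lit 529) (nat_lit 526) (nat_lit 2542) (.d (nat_lit 499) (nat_lit 500) (nat_lit 3536) (nat_lit 530) (nat_lit 2543)))) (.f (nat_lit 497) (nat_lit 462) (nat_lit 462) (.d (nat_lit 526) (nat_lit 496) (nat_lit 1518) (nat_lit 529) (nat_lit 2542)))))))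
noncomputable def s120346 : Cert := .r (nat_lit 1318041150847370521844730540814695015510154778744907100287683119155983261063265755685431095425800934395483281747495347170998872838966025234651317443309942603776) (.p (nat_lit 465) (.a (.p (nat_lit 498) (.a (.f (nat_lit 466) (nat_lit 499) (nat_lit 463) (.f (nat_lit 434) (nat_lit 435) (nat_lit 2479) (.d (nat_lit 462) (nat_lit 433) (nat_lit 2478) (nat_lit 497) (nat_lit 462)))) (.a (.f (nat_lit 466) (nat_lit 499) (nat_lit 463) (.f (nat_lit 434) (nat_lit 435) (nat_lit 2479) (.f (nat_lit 433) (nat_lit 462) (nat_lit 2478) (.d (nat_lit 530) (nat_lit 401) (nat_lit 7569) (nat_lit 562) (nat_lit 7601))))) (.a (.f (nat_lit 499) (nat_lit 466) (nat_lit 463) (.f (nat_lit 497) (nat_lit 500) (nat_lit 3536) (.d (nat_lit 529) (nat_lit 526) (nat_lit 2542) (nat_lit 530) (nat_lit 2543)))) (.a (.f (nat_lit 497) (nat_lit 462) (nat_lit 462) (.f (nat_lit 529) (nat_lit 526) (nat_lit 2542) (.d (nat_lit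 499) (nat_lit 500) (nat_lit 3536) (nat_lit 530) (nat_lit 2543)))) (.f (nat_lit 462) (nat_lit 497) (nat_lit 462) (.f (nat_lit 433) (nat_lit 434) (nat_lit 2478) (.f (nat_lit 461) (nat_lit 432) (nat_lit 2477) (.d (nat_lit 429) (nat_lit 428) (nat_lit 3500) (nat_lit 430) (nat_lit 3501)))))))))) (.a (.p (nat_lit 498) (.a (.f (nat_lit 466) (nat_lit 499) (nat_lit 463) (.f (nat_lit 434) (nat_lit 435) (nat_lit 2479) (.d (nat_lit 462) (nat_lit 433) (nat_lit 2478) (nat_lit 497) (nat_lit 462)))) (.a (.f (nat_lit 466) (nat_lit 499) (nat_lit 463) (.f (nat_lit 434) (nat_lit 435) (nat_lit 2479) (.f (nat_lit 433) (nat_lit 462) (nat_lit 2478) (.d (nat_lit 530) (nat_lit 401) (nat_lit 7569) (nat_lit 562) (nat_lit 7601))))) (.a (.f (nat_lit 466) (nat_lit 499) (nat_lit 463) (.f (nat_lit 435) (nat_lit 434) (nat_lit 2479) (.d (nat_lit 467) (nat_lit 436) (nat_lit 2480) (nat_lit 496) (nat_lit 1487)))) (.a (.f (nat_lit 462) (nat_lit 497) (nat_lit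 462) (.f (nat_lit 433) (nat_lit 434) (nat_lit 2478) (.f (nat_lit 461) (nat_lit 432) (nat_lit 2477) (.d (nat_lit 429) (nat_lit 428) (nat_lit 3500) (nat_lit 430) (nat_lit 3501))))) (.f (nat_lit 466) (nat_lit 499) (nat_lit 463) (.f (nat_lit 496) (nat_lit 467) (nat_lit 1487) (.d (nat_lit 560) (nat_lit 433) (nat_lit 6576) (nat_lit 592) (nat_lit 7631))))))))) (.a (.p (nat_lit 466) (.a (.f (nat_lit 435) (nat_lit 434) (nat_lit 2479) (.f (nat_lit 467) (nat_lit 436) (nat_lit 2480) (.d (nat_lit 499) (nat_lit 498) (nat_lit 463) (nat_lit 500) (nat_lit 464)))) (.a (.f (nat_lit 496) (nat_lit 467) (nat_lit 1487) (.d (nat_lit 560) (nat_lit 433) (nat_lit 6576) (nat_lit 592) (nat_lit 7631))) (.f (nat_lit 434) (nat_lit 435) (nat_lit 2479) (.f (nat_lit 433) (nat_lit 462) (nat_lit 2478) (.f (nat_lit 498) (nat_lit 499) (nat_lit 463) (.d (nat_lit 530) (nat_lit 401) (nat_lit 7569) (nat_lit 562) (nat_lit 7601)))))))) (.a (.p (nat_lit 433) (.a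 (.f (nat_lit 462) (nat_lit 434) (nat_lit 2478) (.f (nat_lit 461) (nat_lit 432) (nat_lit 2477) (.d (nat_lit 429) (nat_lit 428) (nat_lit 3500) (nat_lit 430) (nat_lit 3501)))) (.f (nat_lit 496) (nat_lit 560) (nat_lit 6576) (.d (nat_lit 401) (nat_lit 369) (nat_lit 5488) (nat_lit 497) (nat_lit 5520))))) (.a s120331 (.a s120332 (.p (nat_lit 496) (.a (.d (nat_lit 560) (nat_lit 433) (nat_lit 6576) (nat_lit 592) (nat_lit 7631)) (.a (.f (nat_lit 432) (nat_lit 400) (nat_lit 5519) (.f (nat_lit 433) (nat_lit 401) (nat_lit 6544) (.f (nat_lit 466) (nat_lit 467) (nat_lit 1487) (.f (nat_lit 498) (nat_lit 499) (nat_lit 463) (.f (nat_lit 497) (nat_lit 526) (nat_lit 1518) (.d (nat_lit 530) (nat_lit 531) (nat_lit 495) (nat_lit 562) (nat_lit 7601))))))) (.f (nat_lit 466) (nat_lit 467) (nat_lit 1487) (.f (nat_lit 498) (nat_lit 499) (nat_lit 463) (.f (nat_lit 497) (nat_lit 526) (nat_lit 1518) (.f (nat_lit 434) (nat_lit 435) (nat_lit 2479)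 (.d (nat_lit 402) (nat_lit 370) (nat_lit 5489) (nat_lit 529) (nat_lit 5521))))))))))))))))
noncomputable def s120455 : Cert := .r (nat_lit 4832817552834242696010731955215242129110186622565776000224448890686989523760081137759186384216064959150069506579087964551185595926797467340793467233026632056832) (.p (nat_lit 498) (.a (.f (nat_lit 466) (nat_lit 499) (nat_lit 463) (.f (nat_lit 434) (nat_lit 435) (nat_lit 2479) (.d (nat_lit 462) (nat_lit 433) (nat_lit 2478) (nat_lit 497) (nat_lit 462)))) (.a (.f (nat_lit 466) (nat_lit 499) (nat_lit 463) (.f (nat_lit 434) (nat_lit 435) (nat_lit 2479) (.d (nat_lit 433) (nat_lit 462) (nat_lit 2478) (nat_lit 562) (nat_lit 7601)))) (.a (.f (nat_lit 466) (nat_lit 499) (nat_lit 463) (.f (nat_lit 435) (nat_lit 434) (nat_lit 2479) (.d (nat_lit 467) (nat_lit 436) (nat_lit 2480) (nat_lit 562) (nat_lit 6578)))) (.f (nat_lit 462) (nat_lit 497) (nat_lit 462) (.d (nat_lit 430) (nat_lit 429) (nat_lit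 3501) (nat_lit 559) (nat_lit 7598)))))))
noncomputable def s120611 : Cert := .r (nat_lit 4832817553652590348056218576671694893085647138230558909480315448378818480382026199400608587515581951686203430916175449131960812603084171832843000974858099097600) (.p (nat_lit 562) (.a (.f (nat_lit 467) (nat_lit 435) (nat_lit 6578) (.f (nat_lit 563) (nat_lit 595) (nat_lit 4562) (.f (nat_lit 434) (nat_lit 531) (nat_lit 4530) (.f (nat_lit 401) (nat_lit 433) (nat_lit 7569) (.f (nat_lit 402) (nat_lit 369) (nat_lit 7537) (.f (nat_lit 371) (nat_lit 403) (nat_lit 6514) (.d (nat_lit 370) (nat_lit 339) (nat_lit 6482) (nat_lit 499) (nat_lit 4466)))))))) (.a (.f (nat_lit 467) (nat_lit 435) (nat_lit 6578) (.f (nat_lit 594) (nat_lit 499) (nat_lit 6610) (.d (nat_lit 595) (nat_lit 563) (nat_lit 4562) (nat_lit 627) (nat_lit 4594)))) (.a (.f (nat_lit 563) (nat_lit 595) (nat_lit 4562) (.f (nat_lit 434) (nat_lit 531) (nat_lit 4530) (.f (nat_lit 401)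 (nat_lit 433) (nat_lit 7569) (.f (nat_lit 402) (nat_lit 369) (nat_lit 7537) (.d (nat_lit 403) (nat_lit 371) (nat_lit 6514) (nat_lit 435) (nat_lit 6546)))))) (.a (.f (nat_lit 435) (nat_lit 467) (nat_lit 6578) (.f (nat_lit 434) (nat_lit 403) (nat_lit 6546) (.f (nat_lit 401) (nat_lit 433) (nat_lit 7569) (.f (nat_lit 402) (nat_lit 369) (nat_lit 7537) (.d (nat_lit 531) (nat_lit 499) (nat_lit 4498) (nat_lit 563) (nat_lit 4530)))))) (.a (.f (nat_lit 467) (nat_lit 435) (nat_lit 6578) (.f (nat_lit 594) (nat_lit 499) (nat_lit 6610) (.f (nat_lit 627) (nat_lit 595) (nat_lit 4594) (.f (nat_lit 626) (nat_lit 659) (nat_lit 4626) (.d (nat_lit 625) (nat_lit 593) (nat_lit 5617) (nat_lit 657) (nat_lit 5649)))))) (.f (nat_lit 595) (nat_lit 563) (nat_lit 4562) (.f (nat_lit 594) (nat_lit 627) (nat_lit 4594) (.f (nat_lit 625) (nat_lit 593) (nat_lit 5617) (.f (nat_lit 626) (nat_lit 657) (nat_lit 5649) (.d (nat_lit 499) (nat_lit 467) (nat_lit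 6610) (nat_lit 531) (nat_lit 6642))))))))))))
noncomputable def s120626 : Cert := .r (nat_lit 4832817553652590348056218576671694893085647138230558909480315448378818480382026199400608587515581951686203430916175449131960812603084171832843000974858099097600) (.p (nat_lit 434) (.a (.f (nat_lit 531) (nat_lit 563) (nat_lit 4530) (.f (nat_lit 402) (nat_lit 499) (nat_lit 4498) (.d (nat_lit 403) (nat_lit 371) (nat_lit 6514) (nat_lit 435) (nat_lit 6546)))) (.a (.f (nat_lit 435) (nat_lit 403) (nat_lit 6546) (.f (nat_lit 401) (nat_lit 433) (nat_lit 7569) (.f (nat_lit 402) (nat_lit 369) (nat_lit 7537) (.f (nat_lit 467) (nat_lit 562) (nat_lit 6578) (.d (nat_lit 370) (nat_lit 338) (nat_lit 4434) (nat_lit 499) (nat_lit 4466)))))) (.a (.f (nat_lit 435) (nat_lit 403) (nat_lit 6546) (.f (nat_lit 562) (nat_lit 467) (nat_lit 6578) (.d (nat_lit 563) (nat_lit 531) (nat_lit 4530) (nat_lit 595) (nat_lit 4562)))) (.f (nat_lit 531) (nat_lit 563)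 (nat_lit 4530) (.f (nat_lit 402) (nat_lit 499) (nat_lit 4498) (.d (nat_lit 401) (nat_lit 369) (nat_lit 7537) (nat_lit 433) (nat_lit 7569))))))))
noncomputable def s120673 : Cert := .r (nat_lit 4832817553652590348056218576671694893085647138230558909480315448378818480382026199400608587515581951686203430916175449131960812603084171832843000974858099097600) (.p (nat_lit 434) (.a (.f (nat_lit 531) (nat_lit 563) (nat_lit 4530) (.f (nat_lit 402) (nat_lit 499) (nat_lit 4498) (.d (nat_lit 403) (nat_lit 371) (nat_lit 6514) (nat_lit 435) (nat_lit 6546)))) (.a (.f (nat_lit 433) (nat_lit 401) (nat_lit 7569) (.f (nat_lit 435) (nat_lit 403) (nat_lit 6546) (.f (nat_lit 436) (nat_lit 465) (nat_lit 1456) (.f (nat_lit 468) (nat_lit 469) (nat_lit 433) (.f (nat_lit 467) (nat_lit 432) (nat_lit 432) (.f (nat_lit 404) (nat_lit 405) (nat_lit 2449) (.d (nat_lit 372) (nat_lit 340) (nat_lit 5459) (nat_lit 499) (nat_lit 5491)))))))) (.a (.f (nat_lit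 433) (nat_lit 401) (nat_lit 7569) (.f (nat_lit 435) (nat_lit 403) (nat_lit 6546) (.f (nat_lit 436) (nat_lit 465) (nat_lit 1456) (.f (nat_lit 468) (nat_lit 469) (nat_lit 433) (.f (nat_lit 467) (nat_lit 432) (nat_lit 432) (.f (nat_lit 437) (nat_lit 438) (nat_lit 1458) (.d (nat_lit 405) (nat_lit 404) (nat_lit 2449) (nat_lit 406) (nat_lit 2450)))))))) (.f (nat_lit 531) (nat_lit 563) (nat_lit 4530) (.f (nat_lit 402) (nat_lit 499) (nat_lit 4498) (.d (nat_lit 401) (nat_lit 369) (nat_lit 7537) (nat_lit 433) (nat_lit 7569))))))))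
noncomputable def s120700 : Cert := .r (nat_lit 4832817553652590347865682166129947320369485197935565848826714487522802174787595232626599081972383366473782404117866613001600282139131130884634506365526538715136) (.p (nat_lit 466) (.a s120611 (.a s120626 (.a (.p (nat_lit 562) (.a (.f (nat_lit 467) (nat_lit 435) (nat_lit 6578) (.f (nat_lit 594) (nat_lit 499) (nat_lit 6610) (.d (nat_lit 595) (nat_lit 563) (nat_lit 4562) (nat_lit 627) (nat_lit 4594)))) (.a (.f (nat_lit 465) (nat_lit 433) (nat_lit 7601) (.f (nat_lit 467) (nat_lit 435) (nat_lit 6578) (.f (nat_lit 500) (nat_lit 499) (nat_lit 464) (.f (nat_lit 468) (nat_lit 501) (nat_lit 465) (.f (nat_lit 437) (nat_lit 436) (nat_lit 2481) (.d (nat_lit 469) (nat_lit 438) (nat_lit 2482) (nat_lit 497) (nat_lit 1489))))))) (.f (nat_lit 465) (nat_lit 433) (nat_lit 7601) (.f (nat_lit 594) (nat_lit 497) (nat_lit 7633) (.d (nat_lit 595) (nat_lit 563) (nat_lit 4562) (nat_lit 627) (nat_lit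 4594))))))) (.a (.p (nat_lit 434) (.a (.f (nat_lit 531) (nat_lit 563) (nat_lit 4530) (.f (nat_lit 402) (nat_lit 499) (nat_lit 4498) (.d (nat_lit 403) (nat_lit 371) (nat_lit 6514) (nat_lit 435) (nat_lit 6546)))) (.a (.f (nat_lit 435) (nat_lit 403) (nat_lit 6546) (.f (nat_lit 467) (nat_lit 562) (nat_lit 6578) (.f (nat_lit 465) (nat_lit 436) (nat_lit 2480) (.f (nat_lit 500) (nat_lit 499) (nat_lit 464) (.f (nat_lit 468) (nat_lit 501) (nat_lit 465) (.d (nat_lit 469) (nat_lit 470) (nat_lit 3506) (nat_lit 497) (nat_lit 1489))))))) (.a (.f (nat_lit 435) (nat_lit 403) (nat_lit 6546) (.f (nat_lit 562) (nat_lit 467) (nat_lit 6578) (.d (nat_lit 563) (nat_lit 531) (nat_lit 4530) (nat_lit 595) (nat_lit 4562)))) (.a (.f (nat_lit 531) (nat_lit 563) (nat_lit 4530) (.f (nat_lit 402) (nat_lit 499) (nat_lit 4498) (.f (nat_lit 371) (nat_lit 403) (nat_lit 6514) (.f (nat_lit 370) (nat_lit 339) (nat_lit 6482) (.d (nat_lit 369) (nat_lit 337)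 (nat_lit 7505) (nat_lit 401) (nat_lit 7537)))))) (.f (nat_lit 563) (nat_lit 531) (nat_lit 4530) (.f (nat_lit 562) (nat_lit 595) (nat_lit 4562) (.f (nat_lit 467) (nat_lit 435) (nat_lit 6578) (.f (nat_lit 499) (nat_lit 594) (nat_lit 6610) (.f (nat_lit 500) (nat_lit 465) (nat_lit 464) (.f (nat_lit 501) (nat_lit 502) (nat_lit 3538) (.f (nat_lit 469) (nat_lit 470) (nat_lit 2514) (.f (nat_lit 468) (nat_lit 497) (nat_lit 2513) (.f (nat_lit 533) (nat_lit 534) (nat_lit 498) (.d (nat_lit 565) (nat_lit 436) (nat_lit 7604) (nat_lit 597) (nat_lit 7636)))))))))))))))) (.a s120673 (.a (.p (nat_lit 562) (.a (.f (nat_lit 563) (nat_lit 595) (nat_lit 4562) (.f (nat_lit 434) (nat_lit 531) (nat_lit 4530) (.f (nat_lit 401) (nat_lit 433) (nat_lit 7569) (.f (nat_lit 402) (nat_lit 369) (nat_lit 7537) (.d (nat_lit 403) (nat_lit 371) (nat_lit 6514) (nat_lit 435) (nat_lit 6546)))))) (.a (.f (nat_lit 465) (nat_lit 433) (nat_lit 7601) (.f (nat_lit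 594) (nat_lit 497) (nat_lit 7633) (.d (nat_lit 595) (nat_lit 563) (nat_lit 4562) (nat_lit 627) (nat_lit 4594)))) (.a (.f (nat_lit 563) (nat_lit 595) (nat_lit 4562) (.f (nat_lit 434) (nat_lit 531) (nat_lit 4530) (.d (nat_lit 435) (nat_lit 403) (nat_lit 6546) (nat_lit 467) (nat_lit 6578)))) (.f (nat_lit 433) (nat_lit 465) (nat_lit 7601) (.f (nat_lit 434) (nat_lit 401) (nat_lit 7569) (.d (nat_lit 435) (nat_lit 403) (nat_lit 6546) (nat_lit 467) (nat_lit 6578)))))))) (.a (.p (nat_lit 562) (.a (.f (nat_lit 467) (nat_lit 435) (nat_lit 6578) (.f (nat_lit 594) (nat_lit 499) (nat_lit 6610) (.f (nat_lit 627) (nat_lit 595) (nat_lit 4594) (.f (nat_lit 626) (nat_lit 659) (nat_lit 4626) (.d (nat_lit 625) (nat_lit 593) (nat_lit 5617) (nat_lit 657) (nat_lit 5649)))))) (.a (.f (nat_lit 465) (nat_lit 433) (nat_lit 7601) (.f (nat_lit 467) (nat_lit 435) (nat_lit 6578) (.f (nat_lit 500) (nat_lit 499) (nat_lit 464) (.f (nat_lit 468) (nat_lit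 501) (nat_lit 465) (.f (nat_lit 437) (nat_lit 436) (nat_lit 2481) (.d (nat_lit 469) (nat_lit 438) (nat_lit 2482) (nat_lit 497) (nat_lit 1489))))))) (.a (.f (nat_lit 433) (nat_lit 465) (nat_lit 7601) (.f (nat_lit 434) (nat_lit 401) (nat_lit 7569) (.d (nat_lit 435) (nat_lit 403) (nat_lit 6546) (nat_lit 467) (nat_lit 6578)))) (.f (nat_lit 465) (nat_lit 433) (nat_lit 7601) (.f (nat_lit 594) (nat_lit 497) (nat_lit 7633) (.f (nat_lit 625) (nat_lit 593) (nat_lit 5617) (.f (nat_lit 626) (nat_lit 657) (nat_lit 5649) (.d (nat_lit 627) (nat_lit 595) (nat_lit 4594) (nat_lit 659) (nat_lit 4626)))))))))) (.a (.p (nat_lit 434) (.a (.f (nat_lit 531) (nat_lit 563) (nat_lit 4530) (.f (nat_lit 402) (nat_lit 499) (nat_lit 4498) (.d (nat_lit 403) (nat_lit 371) (nat_lit 6514) (nat_lit 435) (nat_lit 6546)))) (.a (.f (nat_lit 433) (nat_lit 401) (nat_lit 7569) (.f (nat_lit 465) (nat_lit 562) (nat_lit 7601) (.d (nat_lit 435) (nat_lit 403) (nat_lit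 6546) (nat_lit 436) (nat_lit 1456)))) (.f (nat_lit 531) (nat_lit 563) (nat_lit 4530) (.f (nat_lit 402) (nat_lit 499) (nat_lit 4498) (.d (nat_lit 401) (nat_lit 369) (nat_lit 7537) (nat_lit 433) (nat_lit 7569))))))) (.p (nat_lit 562) (.a (.f (nat_lit 595) (nat_lit 563) (nat_lit 4562) (.f (nat_lit 594) (nat_lit 627) (nat_lit 4594) (.f (nat_lit 625) (nat_lit 593) (nat_lit 5617) (.f (nat_lit 626) (nat_lit 657) (nat_lit 5649) (.d (nat_lit 499) (nat_lit 467) (nat_lit 6610) (nat_lit 531) (nat_lit 6642)))))) (.a (.f (nat_lit 465) (nat_lit 433) (nat_lit 7601) (.f (nat_lit 594) (nat_lit 497) (nat_lit 7633) (.d (nat_lit 595) (nat_lit 563) (nat_lit 4562) (nat_lit 627) (nat_lit 4594)))) (.a (.f (nat_lit 563) (nat_lit 595) (nat_lit 4562) (.f (nat_lit 434) (nat_lit 531) (nat_lit 4530) (.d (nat_lit 433) (nat_lit 401) (nat_lit 7569) (nat_lit 465) (nat_lit 7601)))) (.f (nat_lit 465) (nat_lit 433) (nat_lit 7601) (.f (nat_lit 594) (nat_lit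 497) (nat_lit 7633) (.f (nat_lit 499) (nat_lit 467) (nat_lit 6610) (.f (nat_lit 626) (nat_lit 531) (nat_lit 6642) (.d (nat_lit 625) (nat_lit 593) (nat_lit 5617) (nat_lit 657) (nat_lit 5649)))))))))))))))))))
noncomputable def s120742 : Cert := .r (nat_lit 15095849704118982962618808671818757729797632202035246911440391049809211137091397583132102133337234152138256866596837783716948951521299452669376867890365290540124120023040) (.p (nat_lit 594) (.a (.f (nat_lit 499) (nat_lit 467) (nat_lit 6610) (.f (nat_lit 626) (nat_lit 531) (nat_lit 6642) (.d (nat_lit 627) (nat_lit 595) (nat_lit 4594) (nat_lit 659) (nat_lit 4626)))) (.a (.f (nat_lit 595) (nat_lit 627) (nat_lit 4594) (.f (nat_lit 466) (nat_lit 563) (nat_lit 4562) (.d (nat_lit 467) (nat_lit 435) (nat_lit 6578) (nat_lit 499) (nat_lit 6610)))) (.a (.f (nat_lit 595) (nat_lit 627) (nat_lit 4594) (.f (nat_lit 625) (nat_lit 593) (nat_lit 5617) (.f (nat_lit 626) (nat_lit 657)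 (nat_lit 5649) (.f (nat_lit 563) (nat_lit 466) (nat_lit 4562) (.d (nat_lit 658) (nat_lit 531) (nat_lit 6674) (nat_lit 690) (nat_lit 6706)))))) (.f (nat_lit 499) (nat_lit 467) (nat_lit 6610) (.f (nat_lit 626) (nat_lit 531) (nat_lit 6642) (.d (nat_lit 625) (nat_lit 593) (nat_lit 5617) (nat_lit 657) (nat_lit 5649))))))))
noncomputable def s120764 : Cert := .r (nat_lit 15095849704118982962618808671818757729797632202035246911440391049809211137091397583132102133337234152138256866596837783716948951521299452669376867890365290540124120023040) (.p (nat_lit 594) (.a (.f (nat_lit 595) (nat_lit 627) (nat_lit 4594) (.f (nat_lit 563) (nat_lit 466) (nat_lit 4562) (.f (nat_lit 593) (nat_lit 625) (nat_lit 5617) (.d (nat_lit 592) (nat_lit 564) (nat_lit 2608) (nat_lit 591) (nat_lit 2607))))) (.a (.f (nat_lit 595) (nat_lit 627) (nat_lit 4594) (.f (nat_lit 625) (nat_lit 593) (nat_lit 5617) (.f (nat_lit 626) (nat_lit 657) (nat_lit 5649) (.f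 (nat_lit 563) (nat_lit 466) (nat_lit 4562) (.d (nat_lit 658) (nat_lit 531) (nat_lit 6674) (nat_lit 690) (nat_lit 6706)))))) (.a (.f (nat_lit 595) (nat_lit 627) (nat_lit 4594) (.f (nat_lit 466) (nat_lit 563) (nat_lit 4562) (.d (nat_lit 465) (nat_lit 433) (nat_lit 7601) (nat_lit 497) (nat_lit 7633)))) (.a (.f (nat_lit 627) (nat_lit 595) (nat_lit 4594) (.f (nat_lit 626) (nat_lit 659) (nat_lit 4626) (.d (nat_lit 625) (nat_lit 593) (nat_lit 5617) (nat_lit 657) (nat_lit 5649)))) (.f (nat_lit 497) (nat_lit 465) (nat_lit 7633) (.d (nat_lit 496) (nat_lit 526) (nat_lit 1518) (nat_lit 531) (nat_lit 495))))))))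
noncomputable def s120900 : Cert := .r (nat_lit 1886981213728811826968147812267413832320000285949814265322387852665394840031051572508417505734006914617835652456207319148014825937076070231264352004789479986635305123840) (.p (nat_lit 591) (.a (.f (nat_lit 592) (nat_lit 624) (nat_lit 4591) (.f (nat_lit 463) (nat_lit 560) (nat_lit 4559) (.d (nat_lit 590) (nat_lit 558) (nat_lit 5582) (nat_lit 622) (nat_lit 5614)))) (.a (.f (nat_lit 590) (nat_lit 622) (nat_lit 5614) (.f (nat_lit 558) (nat_lit 463) (nat_lit 5582) (.f (nat_lit 557) (nat_lit 556) (nat_lit 2572) (.d (nat_lit 529) (nat_lit 526) (nat_lit 1549) (nat_lit 530) (nat_lit 1550))))) (.a (.f (nat_lit 624) (nat_lit 592) (nat_lit 4591) (.f (nat_lit 623) (nat_lit 656) (nat_lit 4623) (.d (nat_lit 622) (nat_lit 590) (nat_lit 5614) (nat_lit 654) (nat_lit 5646)))) (.a (.f (nat_lit 592) (nat_lit 624) (nat_lit 4591) (.f (nat_lit 463) (nat_lit 560) (nat_lit 4559) (.f (nat_lit 558)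 (nat_lit 590) (nat_lit 5582) (.f (nat_lit 557) (nat_lit 556) (nat_lit 556) (.d (nat_lit 529) (nat_lit 526) (nat_lit 1549) (nat_lit 530) (nat_lit 1550)))))) (.f (nat_lit 624) (nat_lit 592) (nat_lit 4591) (.f (nat_lit 623) (nat_lit 656) (nat_lit 4623) (.f (nat_lit 655) (nat_lit 560) (nat_lit 6671) (.d (nat_lit 654) (nat_lit 622) (nat_lit 5646) (nat_lit 686) (nat_lit 5678))))))))))
noncomputable def s120965 : Cert := .r (nat_lit 4832817553652590347818048063494510427190444712861817583663314247308798098388987490933096705586583720170677147418289403969010149523142870647582382713193648619520) (.p (nat_lit 562) (.a (.d (nat_lit 529) (nat_lit 499) (nat_lit 2543) (nat_lit 563) (nat_lit 527)) (.a (.p (nat_lit 594) (.a (.f (nat_lit 595) (nat_lit 627) (nat_lit 4594) (.f (nat_lit 563) (nat_lit 466) (nat_lit 4562) (.f (nat_lit 593) (nat_lit 625) (nat_lit 5617) (.d (nat_lit 592) (nat_lit 564) (nat_lit 2608) (nat_lit 591) (nat_lit 2607)))))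 (.a (.f (nat_lit 499) (nat_lit 467) (nat_lit 6610) (.f (nat_lit 626) (nat_lit 531) (nat_lit 6642) (.d (nat_lit 627) (nat_lit 595) (nat_lit 4594) (nat_lit 659) (nat_lit 4626)))) (.f (nat_lit 499) (nat_lit 467) (nat_lit 6610) (.f (nat_lit 626) (nat_lit 531) (nat_lit 6642) (.d (nat_lit 625) (nat_lit 593) (nat_lit 5617) (nat_lit 657) (nat_lit 5649))))))) (.a (.f (nat_lit 563) (nat_lit 529) (nat_lit 527) (.f (nat_lit 466) (nat_lit 595) (nat_lit 4562) (.f (nat_lit 434) (nat_lit 531) (nat_lit 4530) (.d (nat_lit 435) (nat_lit 403) (nat_lit 6546) (nat_lit 467) (nat_lit 6578))))) (.f (nat_lit 499) (nat_lit 529) (nat_lit 2543) (.f (nat_lit 594) (nat_lit 467) (nat_lit 6610) (.f (nat_lit 626) (nat_lit 531) (nat_lit 6642) (.d (nat_lit 627) (nat_lit 595) (nat_lit 4594) (nat_lit 659) (nat_lit 4626)))))))))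
noncomputable def s120985 : Cert := .r (nat_lit 15095849704118982962618808671771123627162195308856206426366642784645810896877393506733494391643731775752457220293732527017371742488709320053388607653313166887791229927424) (.p (nat_lit 594) (.a (.f (nat_lit 595) (nat_lit 627) (nat_lit 4594) (.f (nat_lit 563) (nat_lit 466) (nat_lit 4562) (.f (nat_lit 593) (nat_lit 625) (nat_lit 5617) (.d (nat_lit 592) (nat_lit 564) (nat_lit 2608) (nat_lit 591) (nat_lit 2607))))) (.a (.f (nat_lit 595) (nat_lit 627) (nat_lit 4594) (.f (nat_lit 466) (nat_lit 563) (nat_lit 4562) (.d (nat_lit 467) (nat_lit 435) (nat_lit 6578) (nat_lit 499) (nat_lit 6610)))) (.a (.f (nat_lit 627) (nat_lit 595) (nat_lit 4594) (.f (nat_lit 626) (nat_lit 659) (nat_lit 4626) (.d (nat_lit 625) (nat_lit 593) (nat_lit 5617) (nat_lit 657) (nat_lit 5649)))) (.f (nat_lit 465) (nat_lit 497) (nat_lit 7633) (.f (nat_lit 466) (nat_lit 433) (nat_lit 7601) (.d (nat_lit 467)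 (nat_lit 435) (nat_lit 6578) (nat_lit 499) (nat_lit 6610))))))))
noncomputable def s121028 : Cert := .r (nat_lit 15095849704118982962618808671771123627162195308856206426366642784645810896877393506733494391643731775752457220293732527017371742488709320053388607653313166887791229927424) (.p (nat_lit 594) (.a (.f (nat_lit 595) (nat_lit 627) (nat_lit 4594) (.f (nat_lit 563) (nat_lit 466) (nat_lit 4562) (.f (nat_lit 593) (nat_lit 625) (nat_lit 5617) (.d (nat_lit 592) (nat_lit 564) (nat_lit 2608) (nat_lit 591) (nat_lit 2607))))) (.a (.f (nat_lit 595) (nat_lit 627) (nat_lit 4594) (.f (nat_lit 466) (nat_lit 563) (nat_lit 4562) (.d (nat_lit 465) (nat_lit 433) (nat_lit 7601) (nat_lit 497) (nat_lit 7633)))) (.a (.f (nat_lit 627) (nat_lit 595) (nat_lit 4594) (.f (nat_lit 626) (nat_lit 659) (nat_lit 4626) (.d (nat_lit 625) (nat_lit 593) (nat_lit 5617) (nat_lit 657) (nat_lit 5649)))) (.a (.f (nat_lit 497) (nat_lit 465) (nat_lit 7633)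 (.f (nat_lit 531) (nat_lit 496) (nat_lit 495) (.f (nat_lit 625) (nat_lit 593) (nat_lit 5617) (.f (nat_lit 626) (nat_lit 657) (nat_lit 5649) (.f (nat_lit 658) (nat_lit 563) (nat_lit 6674) (.d (nat_lit 659) (nat_lit 627) (nat_lit 4626) (nat_lit 691) (nat_lit 4658))))))) (.f (nat_lit 497) (nat_lit 465) (nat_lit 7633) (.f (nat_lit 496) (nat_lit 531) (nat_lit 495) (.f (nat_lit 466) (nat_lit 467) (nat_lit 2511) (.f (nat_lit 593) (nat_lit 625) (nat_lit 5617) (.f (nat_lit 563) (nat_lit 595) (nat_lit 4562) (.f (nat_lit 591) (nat_lit 592) (nat_lit 2607) (.d (nat_lit 559) (nat_lit 464) (nat_lit 6607) (nat_lit 623) (nat_lit 6639)))))))))))))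
noncomputable def s121145 : Cert := .r (nat_lit 72940703374332054052969902441565000779411780053298781441592370424835149235263336907809743976506803275615960251341728905140522292014844355322658291746798125589935503275708389523456) (.p (nat_lit 592) (.a (.d (nat_lit 624) (nat_lit 559) (nat_lit 4591) (nat_lit 560) (nat_lit 7663)) (.a (.f (nat_lit 559) (nat_lit 624) (nat_lit 4591) (.d (nat_lit 496) (nat_lit 464) (nat_lit 6607) (nat_lit 623) (nat_lit 6639))) (.a (.f (nat_lit 560) (nat_lit 624) (nat_lit 7663) (.f (nat_lit 467) (nat_lit 499) (nat_lit 6610) (.f (nat_lit 466) (nat_lit 435) (nat_lit 6578) (.f (nat_lit 465) (nat_lit 433) (nat_lit 7601) (.d (nat_lit 496) (nat_lit 464) (nat_lit 1487) (nat_lit 623) (nat_lit 5615)))))) (.f (nat_lit 467) (nat_lit 499) (nat_lit 6610) (.f (nat_lit 466) (nat_lit 435) (nat_lit 6578) (.f (nat_lit 465) (nat_lit 433) (nat_lit 7601) (.f (nat_lit 496) (nat_lit 464) (nat_lit 1487) (.d (nat_lit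 623) (nat_lit 559) (nat_lit 6639) (nat_lit 560) (nat_lit 5615))))))))))
noncomputable def s121161 : Cert := .r (nat_lit 15095849704118982962618808671771123627162195308856206426366642784645810896877393506733494391643731775752457220293732527017371742488709320053388607653313166887791229927424) (.p (nat_lit 594) (.a (.f (nat_lit 595) (nat_lit 627) (nat_lit 4594) (.f (nat_lit 563) (nat_lit 466) (nat_lit 4562) (.f (nat_lit 593) (nat_lit 625) (nat_lit 5617) (.d (nat_lit 592) (nat_lit 564) (nat_lit 2608) (nat_lit 591) (nat_lit 2607))))) (.a (.f (nat_lit 595) (nat_lit 627) (nat_lit 4594) (.f (nat_lit 466) (nat_lit 563) (nat_lit 4562) (.d (nat_lit 467) (nat_lit 435) (nat_lit 6578) (nat_lit 499) (nat_lit 6610)))) (.a (.f (nat_lit 627) (nat_lit 595) (nat_lit 4594) (.f (nat_lit 626) (nat_lit 659) (nat_lit 4626) (.d (nat_lit 625) (nat_lit 593) (nat_lit 5617) (nat_lit 657) (nat_lit 5649)))) (.a (.p (nat_lit 591) (.a (.f (nat_lit 593)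 (nat_lit 625) (nat_lit 5617) (.f (nat_lit 592) (nat_lit 563) (nat_lit 2607) (.d (nat_lit 624) (nat_lit 559) (nat_lit 4591) (nat_lit 560) (nat_lit 7663)))) (.a (.f (nat_lit 593) (nat_lit 625) (nat_lit 5617) (.f (nat_lit 592) (nat_lit 563) (nat_lit 2607) (.d (nat_lit 559) (nat_lit 558) (nat_lit 3630) (nat_lit 624) (nat_lit 4591)))) (.a (.f (nat_lit 593) (nat_lit 625) (nat_lit 5617) (.f (nat_lit 592) (nat_lit 563) (nat_lit 2607) (.f (nat_lit 623) (nat_lit 622) (nat_lit 1614) (.d (nat_lit 560) (nat_lit 496) (nat_lit 5615) (nat_lit 624) (nat_lit 7663))))) (.a (.f (nat_lit 467) (nat_lit 499) (nat_lit 6610) (.f (nat_lit 466) (nat_lit 435) (nat_lit 6578) (.f (nat_lit 465) (nat_lit 433) (nat_lit 7601) (.f (nat_lit 496) (nat_lit 464) (nat_lit 1487) (.f (nat_lit 625) (nat_lit 593) (nat_lit 5617) (.f (nat_lit 626) (nat_lit 657) (nat_lit 5649) (.f (nat_lit 623) (nat_lit 559) (nat_lit 6639) (.f (nat_lit 624) (nat_lit 590) (nat_lit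 3662) (.d (nat_lit 659) (nat_lit 627) (nat_lit 4626) (nat_lit 658) (nat_lit 623)))))))))) (.a (.f (nat_lit 593) (nat_lit 625) (nat_lit 5617) (.f (nat_lit 592) (nat_lit 563) (nat_lit 2607) (.f (nat_lit 559) (nat_lit 558) (nat_lit 3630) (.d (nat_lit 622) (nat_lit 590) (nat_lit 5614) (nat_lit 623) (nat_lit 1614))))) (.a (.f (nat_lit 467) (nat_lit 499) (nat_lit 6610) (.f (nat_lit 466) (nat_lit 435) (nat_lit 6578) (.f (nat_lit 465) (nat_lit 433) (nat_lit 7601) (.f (nat_lit 496) (nat_lit 464) (nat_lit 1487) (.f (nat_lit 559) (nat_lit 623) (nat_lit 6639) (.f (nat_lit 592) (nat_lit 624) (nat_lit 4591) (.d (nat_lit 593) (nat_lit 558) (nat_lit 3630) (nat_lit 563) (nat_lit 2607)))))))) s121145))))))) (.p (nat_lit 591) (.a (.f (nat_lit 593) (nat_lit 625) (nat_lit 5617) (.f (nat_lit 592) (nat_lit 563) (nat_lit 2607) (.d (nat_lit 624) (nat_lit 559) (nat_lit 4591) (nat_lit 560) (nat_lit 7663)))) (.a (.f (nat_lit 593) (nat_lit 625)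 (nat_lit 5617) (.f (nat_lit 592) (nat_lit 563) (nat_lit 2607) (.d (nat_lit 559) (nat_lit 558) (nat_lit 3630) (nat_lit 624) (nat_lit 4591)))) (.a (.f (nat_lit 593) (nat_lit 625) (nat_lit 5617) (.f (nat_lit 592) (nat_lit 563) (nat_lit 2607) (.f (nat_lit 623) (nat_lit 622) (nat_lit 1614) (.d (nat_lit 560) (nat_lit 496) (nat_lit 5615) (nat_lit 624) (nat_lit 7663))))) (.a (.f (nat_lit 467) (nat_lit 499) (nat_lit 6610) (.f (nat_lit 466) (nat_lit 435) (nat_lit 6578) (.f (nat_lit 465) (nat_lit 433) (nat_lit 7601) (.f (nat_lit 496) (nat_lit 464) (nat_lit 1487) (.f (nat_lit 625) (nat_lit 593) (nat_lit 5617) (.f (nat_lit 626) (nat_lit 657) (nat_lit 5649) (.f (nat_lit 623) (nat_lit 559) (nat_lit 6639) (.d (nat_lit 595) (nat_lit 563) (nat_lit 4562) (nat_lit 624) (nat_lit 2639))))))))) (.a (.f (nat_lit 593) (nat_lit 625) (nat_lit 5617) (.f (nat_lit 592) (nat_lit 563) (nat_lit 2607) (.f (nat_lit 559) (nat_lit 558) (nat_lit 3630) (.d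 (nat_lit 622) (nat_lit 590) (nat_lit 5614) (nat_lit 623) (nat_lit 1614))))) (.a (.f (nat_lit 467) (nat_lit 499) (nat_lit 6610) (.f (nat_lit 466) (nat_lit 435) (nat_lit 6578) (.f (nat_lit 563) (nat_lit 595) (nat_lit 4562) (.f (nat_lit 592) (nat_lit 593) (nat_lit 2607) (.d (nat_lit 624) (nat_lit 559) (nat_lit 4591) (nat_lit 560) (nat_lit 7663)))))) s121145))))))))))))
noncomputable def s121251 : Cert := .r (nat_lit 15095849704118982962618808671771123627162195308856206426366642784645810896877393506733494391643731775752457220293732527017371742488709320053388607653313166887791229927424) (.p (nat_lit 466) (.a (.f (nat_lit 563) (nat_lit 595) (nat_lit 4562) (.f (nat_lit 434) (nat_lit 531) (nat_lit 4530) (.d (nat_lit 435) (nat_lit 403) (nat_lit 6546) (nat_lit 467) (nat_lit 6578)))) (.a (.f (nat_lit 435) (nat_lit 467) (nat_lit 6578) (.f (nat_lit 434) (nat_lit 403) (nat_lit 6546) (.d (nat_lit 433) (nat_lit 401) (nat_lit 7569)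 (nat_lit 465) (nat_lit 7601)))) (.a (.p (nat_lit 591) (.a (.f (nat_lit 595) (nat_lit 563) (nat_lit 4562) (.f (nat_lit 594) (nat_lit 627) (nat_lit 4594) (.f (nat_lit 625) (nat_lit 593) (nat_lit 5617) (.f (nat_lit 626) (nat_lit 657) (nat_lit 5649) (.f (nat_lit 624) (nat_lit 623) (nat_lit 2639) (.d (nat_lit 592) (nat_lit 559) (nat_lit 4591) (nat_lit 560) (nat_lit 7663))))))) (.a (.f (nat_lit 595) (nat_lit 563) (nat_lit 4562) (.f (nat_lit 594) (nat_lit 627) (nat_lit 4594) (.f (nat_lit 593) (nat_lit 625) (nat_lit 5617) (.f (nat_lit 465) (nat_lit 433) (nat_lit 7601) (.f (nat_lit 467) (nat_lit 435) (nat_lit 6578) (.f (nat_lit 496) (nat_lit 464) (nat_lit 1487) (.f (nat_lit 559) (nat_lit 623) (nat_lit 6639) (.d (nat_lit 592) (nat_lit 558) (nat_lit 3630) (nat_lit 624) (nat_lit 4591))))))))) (.a (.p (nat_lit 594) (.a (.f (nat_lit 593) (nat_lit 625) (nat_lit 5617) (.f (nat_lit 592) (nat_lit 563) (nat_lit 2607) (.f (nat_lit 623)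 (nat_lit 622) (nat_lit 1614) (.d (nat_lit 560) (nat_lit 496) (nat_lit 5615) (nat_lit 624) (nat_lit 7663))))) (.a (.d (nat_lit 595) (nat_lit 563) (nat_lit 4562) (nat_lit 627) (nat_lit 4594)) (.f (nat_lit 627) (nat_lit 595) (nat_lit 4594) (.f (nat_lit 626) (nat_lit 659) (nat_lit 4626) (.d (nat_lit 625) (nat_lit 593) (nat_lit 5617) (nat_lit 657) (nat_lit 5649))))))) (.a (.f (nat_lit 595) (nat_lit 563) (nat_lit 4562) (.f (nat_lit 594) (nat_lit 627) (nat_lit 4594) (.f (nat_lit 625) (nat_lit 593) (nat_lit 5617) (.f (nat_lit 626) (nat_lit 657) (nat_lit 5649) (.f (nat_lit 623) (nat_lit 624) (nat_lit 2639) (.f (nat_lit 559) (nat_lit 496) (nat_lit 6639) (.d (nat_lit 622) (nat_lit 590) (nat_lit 5614) (nat_lit 654) (nat_lit 5646)))))))) (.a (.p (nat_lit 594) (.a (.f (nat_lit 593) (nat_lit 625) (nat_lit 5617) (.f (nat_lit 592) (nat_lit 563) (nat_lit 2607) (.d (nat_lit 624) (nat_lit 559) (nat_lit 4591) (nat_lit 560) (nat_lit 7663))))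 (.a (.f (nat_lit 593) (nat_lit 625) (nat_lit 5617) (.f (nat_lit 592) (nat_lit 563) (nat_lit 2607) (.d (nat_lit 559) (nat_lit 558) (nat_lit 3630) (nat_lit 624) (nat_lit 4591)))) (.a (.d (nat_lit 595) (nat_lit 563) (nat_lit 4562) (nat_lit 627) (nat_lit 4594)) (.f (nat_lit 627) (nat_lit 595) (nat_lit 4594) (.f (nat_lit 626) (nat_lit 659) (nat_lit 4626) (.d (nat_lit 625) (nat_lit 593) (nat_lit 5617) (nat_lit 657) (nat_lit 5649)))))))) (.a (.f (nat_lit 595) (nat_lit 563) (nat_lit 4562) (.f (nat_lit 594) (nat_lit 627) (nat_lit 4594) (.f (nat_lit 593) (nat_lit 625) (nat_lit 5617) (.f (nat_lit 467) (nat_lit 435) (nat_lit 6578) (.f (nat_lit 465) (nat_lit 433) (nat_lit 7601) (.f (nat_lit 496) (nat_lit 464) (nat_lit 1487) (.f (nat_lit 559) (nat_lit 623) (nat_lit 6639) (.d (nat_lit 592) (nat_lit 558) (nat_lit 3630) (nat_lit 560) (nat_lit 3631))))))))) (.p (nat_lit 592) (.a (.d (nat_lit 624) (nat_lit 559) (nat_lit 4591) (nat_lit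 560) (nat_lit 7663)) (.a (.f (nat_lit 559) (nat_lit 624) (nat_lit 4591) (.d (nat_lit 496) (nat_lit 464) (nat_lit 6607) (nat_lit 623) (nat_lit 6639))) (.a (.f (nat_lit 560) (nat_lit 624) (nat_lit 7663) (.f (nat_lit 496) (nat_lit 623) (nat_lit 5615) (.f (nat_lit 465) (nat_lit 433) (nat_lit 7601) (.d (nat_lit 467) (nat_lit 435) (nat_lit 6578) (nat_lit 464) (nat_lit 1487))))) (.f (nat_lit 467) (nat_lit 435) (nat_lit 6578) (.f (nat_lit 465) (nat_lit 433) (nat_lit 7601) (.f (nat_lit 496) (nat_lit 464) (nat_lit 1487) (.d (nat_lit 623) (nat_lit 559) (nat_lit 6639) (nat_lit 560) (nat_lit 5615)))))))))))))))) (.f (nat_lit 563) (nat_lit 595) (nat_lit 4562) (.f (nat_lit 434) (nat_lit 531) (nat_lit 4530) (.d (nat_lit 433) (nat_lit 401) (nat_lit 7569) (nat_lit 465) (nat_lit 7601))))))))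
noncomputable def s121419 : Cert := .r (nat_lit 34808659562075829358582217385497939793465416219699360124749042912389999901823905543126254432826882612128322274607474444595785474741064584212623033002888808033410216429112462568403150831616) (.p (nat_lit 559) (.a (.f (nat_lit 529) (nat_lit 558) (nat_lit 1550) (.f (nat_lit 560) (nat_lit 531) (nat_lit 1551) (.f (nat_lit 591) (nat_lit 655) (nat_lit 6671) (.d (nat_lit 624) (nat_lit 592) (nat_lit 7663) (nat_lit 656) (nat_lit 4623))))) (.a (.f (nat_lit 591) (nat_lit 496) (nat_lit 6639) (.d (nat_lit 624) (nat_lit 592) (nat_lit 4591) (nat_lit 656) (nat_lit 4623))) (.a (.f (nat_lit 529) (nat_lit 558) (nat_lit 1550) (.f (nat_lit 560) (nat_lit 531) (nat_lit 1551) (.f (nat_lit 591) (nat_lit 655) (nat_lit 6671) (.d (nat_lit 622) (nat_lit 590) (nat_lit 5614) (nat_lit 654) (nat_lit 5646))))) (.f (nat_lit 529) (nat_lit 558) (nat_lit 1550) (.d (nat_lit 531) (nat_lit 496) (nat_lit 3567)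 (nat_lit 560) (nat_lit 1551)))))))
noncomputable def s121528 : Cert := .r (nat_lit 8104522595470689373412587760437517296818498901713346670252512061240501486344185179642727818464199690465482666855615841894166965430014828302220244077666784341835850937911312646144) (.p (nat_lit 559) (.a (.f (nat_lit 624) (nat_lit 592) (nat_lit 4591) (.f (nat_lit 623) (nat_lit 656) (nat_lit 4623) (.d (nat_lit 622) (nat_lit 590) (nat_lit 5614) (nat_lit 654) (nat_lit 5646)))) (.a (.f (nat_lit 622) (nat_lit 590) (nat_lit 5614) (.f (nat_lit 623) (nat_lit 654) (nat_lit 5646) (.f (nat_lit 655) (nat_lit 560) (nat_lit 6671) (.d (nat_lit 656) (nat_lit 624) (nat_lit 4623) (nat_lit 688) (nat_lit 4655))))) (.a (.f (nat_lit 592) (nat_lit 624) (nat_lit 4591) (.p (nat_lit 593) (.a (.f (nat_lit 590) (nat_lit 622) (nat_lit 5614) (.d (nat_lit 558) (nat_lit 557) (nat_lit 3629) (nat_lit 594) (nat_lit 3630))) (.a (.f (nat_lit 594) (nat_lit 558) (nat_lit 3630)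 (.f (nat_lit 590) (nat_lit 622) (nat_lit 5614) (.d (nat_lit 626) (nat_lit 625) (nat_lit 590) (nat_lit 627) (nat_lit 591)))) (.a (.f (nat_lit 590) (nat_lit 622) (nat_lit 5614) (.f (nat_lit 626) (nat_lit 625) (nat_lit 590) (.f (nat_lit 594) (nat_lit 627) (nat_lit 591) (.f (nat_lit 563) (nat_lit 562) (nat_lit 2607) (.d (nat_lit 595) (nat_lit 560) (nat_lit 3631) (nat_lit 564) (nat_lit 2608)))))) (.a (.f (nat_lit 594) (nat_lit 558) (nat_lit 3630) (.f (nat_lit 595) (nat_lit 560) (nat_lit 3631) (.d (nat_lit 563) (nat_lit 562) (nat_lit 2607) (nat_lit 564) (nat_lit 2608)))) (.f (nat_lit 590) (nat_lit 622) (nat_lit 5614) (.f (nat_lit 557) (nat_lit 558) (nat_lit 3629) (.f (nat_lit 589) (nat_lit 556) (nat_lit 3628) (.f (nat_lit 620) (nat_lit 621) (nat_lit 1612) (.d (nat_lit 588) (nat_lit 560) (nat_lit 2604) (nat_lit 619) (nat_lit 1611)))))))))))) (.a (.p (nat_lit 623) (.a (.d (nat_lit 622) (nat_lit 590) (nat_lit 5614) (nat_lit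 654) (nat_lit 5646)) (.a (.f (nat_lit 655) (nat_lit 560) (nat_lit 6671) (.f (nat_lit 558) (nat_lit 526) (nat_lit 7694) (.f (nat_lit 687) (nat_lit 590) (nat_lit 7726) (.d (nat_lit 686) (nat_lit 654) (nat_lit 5678) (nat_lit 718) (nat_lit 5710))))) (.a (.f (nat_lit 655) (nat_lit 560) (nat_lit 6671) (.d (nat_lit 654) (nat_lit 622) (nat_lit 5646) (nat_lit 686) (nat_lit 5678))) (.f (nat_lit 655) (nat_lit 560) (nat_lit 6671) (.f (nat_lit 558) (nat_lit 526) (nat_lit 7694) (.d (nat_lit 590) (nat_lit 622) (nat_lit 5614) (nat_lit 687) (nat_lit 7726)))))))) (.a (.f (nat_lit 624) (nat_lit 592) (nat_lit 4591) (.f (nat_lit 623) (nat_lit 656) (nat_lit 4623) (.f (nat_lit 655) (nat_lit 560) (nat_lit 6671) (.f (nat_lit 558) (nat_lit 526) (nat_lit 7694) (.f (nat_lit 687) (nat_lit 590) (nat_lit 7726) (.d (nat_lit 686) (nat_lit 654) (nat_lit 5678) (nat_lit 718) (nat_lit 5710))))))) (.f (nat_lit 624) (nat_lit 592) (nat_lit 4591) (.f (nat_lit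 623) (nat_lit 656) (nat_lit 4623) (.f (nat_lit 655) (nat_lit 560) (nat_lit 6671) (.d (nat_lit 654) (nat_lit 622) (nat_lit 5646) (nat_lit 686) (nat_lit 5678)))))))))))
noncomputable def s121550 : Cert := .r (nat_lit 56731658168294825605979867413068312035245603185804404092076621393552839120089202520264294798313072279780301650581796965125360142094996570191519558539939796299584075196522752376832) (.p (nat_lit 594) (.a (.f (nat_lit 622) (nat_lit 623) (nat_lit 1614) (.f (nat_lit 590) (nat_lit 621) (nat_lit 1613) (.d (nat_lit 626) (nat_lit 625) (nat_lit 590) (nat_lit 627) (nat_lit 591)))) (.a (.f (nat_lit 626) (nat_lit 627) (nat_lit 591) (.f (nat_lit 590) (nat_lit 625) (nat_lit 590) (.f (nat_lit 557) (nat_lit 558) (nat_lit 3629) (.f (nat_lit 589) (nat_lit 556) (nat_lit 3628) (.d (nat_lit 621) (nat_lit 620) (nat_lit 1612) (nat_lit 622) (nat_lit 1613)))))) (.a (.f (nat_lit 622) (nat_lit 623) (nat_lit 1614) (.f (nat_lit 590)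 (nat_lit 621) (nat_lit 1613) (.d (nat_lit 558) (nat_lit 526) (nat_lit 6638) (nat_lit 557) (nat_lit 3629)))) (.f (nat_lit 624) (nat_lit 560) (nat_lit 7663) (.f (nat_lit 595) (nat_lit 623) (nat_lit 1615) (.d (nat_lit 563) (nat_lit 562) (nat_lit 2607) (nat_lit 564) (nat_lit 2608))))))))
noncomputable def s121559 : Cert := .r (nat_lit 56731658168294825605979867413068312035245603185804404092076621393552839120089202520264294798313072279780301650581796965125360142094996570191519558539939796299584075196522752376832) (.p (nat_lit 594) (.a (.f (nat_lit 562) (nat_lit 563) (nat_lit 2607) (.f (nat_lit 530) (nat_lit 625) (nat_lit 5617) (.d (nat_lit 627) (nat_lit 595) (nat_lit 4594) (nat_lit 626) (nat_lit 591)))) (.a (.f (nat_lit 626) (nat_lit 627) (nat_lit 591) (.f (nat_lit 590) (nat_lit 625) (nat_lit 590) (.f (nat_lit 557) (nat_lit 558) (nat_lit 3629) (.f (nat_lit 589) (nat_lit 556) (nat_lit 3628) (.d (nat_lit 621) (nat_lit 620)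 (nat_lit 1612) (nat_lit 622) (nat_lit 1613)))))) (.a (.f (nat_lit 627) (nat_lit 626) (nat_lit 591) (.f (nat_lit 595) (nat_lit 628) (nat_lit 592) (.d (nat_lit 562) (nat_lit 530) (nat_lit 4594) (nat_lit 563) (nat_lit 2607)))) (.f (nat_lit 562) (nat_lit 563) (nat_lit 2607) (.f (nat_lit 530) (nat_lit 625) (nat_lit 5617) (.f (nat_lit 467) (nat_lit 499) (nat_lit 6610) (.f (nat_lit 466) (nat_lit 435) (nat_lit 6578) (.d (nat_lit 465) (nat_lit 433) (nat_lit 7601) (nat_lit 497) (nat_lit 7633))))))))))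
noncomputable def s121581 : Cert := .r (nat_lit 56731658168294825605979867413068312035245603185804404092076621393552839120089202520264294798313072279780301650581796965125360142094996570191519558539939796299584075196522752376832) (.p (nat_lit 594) (.a (.f (nat_lit 622) (nat_lit 623) (nat_lit 1614) (.f (nat_lit 590) (nat_lit 621) (nat_lit 1613) (.d (nat_lit 626) (nat_lit 625) (nat_lit 590) (nat_lit 627) (nat_lit 591)))) (.a (.f (nat_lit 626) (nat_lit 627) (nat_lit 591) (.f (nat_lit 590) (nat_lit 625) (nat_lit 590) (.f (nat_lit 557) (nat_lit 558) (nat_lit 3629) (.f (nat_lit 589) (nat_lit 556) (nat_lit 3628) (.d (nat_lit 621) (nat_lit 620) (nat_lit 1612) (nat_lit 622) (nat_lit 1613)))))) (.a (.f (nat_lit 622) (nat_lit 623) (nat_lit 1614) (.f (nat_lit 590) (nat_lit 621) (nat_lit 1613) (.d (nat_lit 558) (nat_lit 526) (nat_lit 6638) (nat_lit 557) (nat_lit 3629)))) (.a (.f (nat_lit 626) (nat_lit 627) (nat_lit 591) (.f (nat_lit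 625) (nat_lit 590) (nat_lit 590) (.f (nat_lit 563) (nat_lit 562) (nat_lit 2607) (.f (nat_lit 595) (nat_lit 564) (nat_lit 2608) (.d (nat_lit 624) (nat_lit 596) (nat_lit 1616) (nat_lit 623) (nat_lit 2639)))))) (.f (nat_lit 627) (nat_lit 626) (nat_lit 591) (.f (nat_lit 595) (nat_lit 628) (nat_lit 592) (.d (nat_lit 563) (nat_lit 562) (nat_lit 2607) (nat_lit 564) (nat_lit 2608)))))))))
noncomputable def s121582 : Cert := .r (nat_lit 56731658168294825605979867413068312035245603185804404092076621393552839120089202520264294798313072279780301650581796965125360142094996570191519558539939796299584075196522752376832) (.p (nat_lit 594) (.a (.f (nat_lit 562) (nat_lit 563) (nat_lit 2607) (.f (nat_lit 530) (nat_lit 625) (nat_lit 5617) (.d (nat_lit 627) (nat_lit 595) (nat_lit 4594) (nat_lit 626) (nat_lit 591)))) (.a (.f (nat_lit 622) (nat_lit 623) (nat_lit 1614) (.f (nat_lit 590) (nat_lit 621) (nat_lit 1613) (.d (nat_lit 626) (nat_lit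 625) (nat_lit 590) (nat_lit 627) (nat_lit 591)))) (.a (.f (nat_lit 627) (nat_lit 626) (nat_lit 591) (.f (nat_lit 595) (nat_lit 628) (nat_lit 592) (.d (nat_lit 562) (nat_lit 530) (nat_lit 4594) (nat_lit 563) (nat_lit 2607)))) (.f (nat_lit 562) (nat_lit 563) (nat_lit 2607) (.f (nat_lit 530) (nat_lit 625) (nat_lit 5617) (.f (nat_lit 467) (nat_lit 499) (nat_lit 6610) (.f (nat_lit 466) (nat_lit 435) (nat_lit 6578) (.d (nat_lit 465) (nat_lit 433) (nat_lit 7601) (nat_lit 497) (nat_lit 7633))))))))))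
noncomputable def s121590 : Cert := .r (nat_lit 56731658168294825605979867413068312035245603185804404092076621393552839120089202520264294798313072279780301650581796965125360142094996570191519558539939796299584075196522752376832) (.p (nat_lit 594) (.a (.f (nat_lit 622) (nat_lit 623) (nat_lit 1614) (.f (nat_lit 590) (nat_lit 621) (nat_lit 1613) (.d (nat_lit 626) (nat_lit 625) (nat_lit 590) (nat_lit 627) (nat_lit 591)))) (.a (.f (nat_lit 626) (nat_lit 627) (nat_lit 591) (.f (nat_lit 590) (nat_lit 625) (nat_lit 590) (.f (nat_lit 557) (nat_lit 558) (nat_lit 3629) (.f (nat_lit 589) (nat_lit 556) (nat_lit 3628) (.d (nat_lit 621) (nat_lit 620) (nat_lit 1612) (nat_lit 622) (nat_lit 1613)))))) (.a (.f (nat_lit 622) (nat_lit 623) (nat_lit 1614) (.f (nat_lit 590) (nat_lit 621) (nat_lit 1613) (.d (nat_lit 558) (nat_lit 526) (nat_lit 6638) (nat_lit 557) (nat_lit 3629)))) (.f (nat_lit 627) (nat_lit 626) (nat_lit 591) (.f (nat_lit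 595) (nat_lit 628) (nat_lit 592) (.f (nat_lit 563) (nat_lit 564) (nat_lit 2608) (.f (nat_lit 531) (nat_lit 530) (nat_lit 7666) (.f (nat_lit 499) (nat_lit 466) (nat_lit 7634) (.d (nat_lit 500) (nat_lit 468) (nat_lit 6611) (nat_lit 532) (nat_lit 6643)))))))))))
noncomputable def s121656 : Cert := .r (nat_lit 28365829084147412803648954282367015104496459020084620596012557616370642167071275738235047393401229936013323910074857976573830789040423887422761625103613872657564277712332745867264) (.p (nat_lit 526) (.a (.f (nat_lit 496) (nat_lit 497) (nat_lit 1518) (.f (nat_lit 525) (nat_lit 524) (nat_lit 2540) (.f (nat_lit 558) (nat_lit 622) (nat_lit 6638) (.d (nat_lit 557) (nat_lit 556) (nat_lit 1548) (nat_lit 593) (nat_lit 3629))))) (.a (.f (nat_lit 558) (nat_lit 622) (nat_lit 6638) (.f (nat_lit 557) (nat_lit 593) (nat_lit 3629) (.d (nat_lit 556) (nat_lit 555) (nat_lit 555) (nat_lit 589) (nat_lit 3628)))) (.a (.f (nat_lit 622)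 (nat_lit 558) (nat_lit 6638) (.f (nat_lit 621) (nat_lit 593) (nat_lit 1613) (.d (nat_lit 620) (nat_lit 589) (nat_lit 1612) (nat_lit 619) (nat_lit 2635)))) (.a (.f (nat_lit 496) (nat_lit 497) (nat_lit 1518) (.f (nat_lit 525) (nat_lit 524) (nat_lit 2540) (.f (nat_lit 557) (nat_lit 556) (nat_lit 1548) (.f (nat_lit 493) (nat_lit 492) (nat_lit 3564) (.f (nat_lit 589) (nat_lit 622) (nat_lit 4589) (.d (nat_lit 620) (nat_lit 588) (nat_lit 5612) (nat_lit 621) (nat_lit 1612))))))) (.f (nat_lit 496) (nat_lit 497) (nat_lit 1518) (.f (nat_lit 525) (nat_lit 524) (nat_lit 2540) (.f (nat_lit 557) (nat_lit 556) (nat_lit 1548) (.f (nat_lit 493) (nat_lit 492) (nat_lit 3564) (.d (nat_lit 558) (nat_lit 461) (nat_lit 4557) (nat_lit 593) (nat_lit 3629)))))))))))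
noncomputable def s121665 : Cert := .r (nat_lit 24313567786412068117601680977981115542960866996410365810860548505344614030925857626516583478413823886903755661431009549637898024318342075598653348898424454994418592357448459223040) (.p (nat_lit 590) (.a (.f (nat_lit 624) (nat_lit 560) (nat_lit 7663) (.f (nat_lit 589) (nat_lit 625) (nat_lit 589) (.f (nat_lit 557) (nat_lit 556) (nat_lit 3628) (.f (nat_lit 621) (nat_lit 620) (nat_lit 1612) (.d (nat_lit 593) (nat_lit 558) (nat_lit 3629) (nat_lit 622) (nat_lit 1613)))))) (.a (.p (nat_lit 593) (.a (.f (nat_lit 622) (nat_lit 621) (nat_lit 1613) (.d (nat_lit 558) (nat_lit 526) (nat_lit 6638) (nat_lit 557) (nat_lit 3629))) (.a (.f (nat_lit 625) (nat_lit 626) (nat_lit 590) (.f (nat_lit 589) (nat_lit 624) (nat_lit 589) (.d (nat_lit 621) (nat_lit 620) (nat_lit 1612) (nat_lit 622) (nat_lit 1613)))) (.f (nat_lit 625) (nat_lit 626) (nat_lit 590) (.f (nat_lit 589) (nat_lit 624) (nat_lit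 589) (.d (nat_lit 557) (nat_lit 556) (nat_lit 3628) (nat_lit 558) (nat_lit 3629))))))) (.a (.f (nat_lit 624) (nat_lit 560) (nat_lit 7663) (.f (nat_lit 625) (nat_lit 589) (nat_lit 589) (.d (nat_lit 626) (nat_lit 593) (nat_lit 590) (nat_lit 627) (nat_lit 3663)))) (.a (.p (nat_lit 593) (.a (.f (nat_lit 622) (nat_lit 621) (nat_lit 1613) (.d (nat_lit 558) (nat_lit 526) (nat_lit 6638) (nat_lit 557) (nat_lit 3629))) (.a (.f (nat_lit 621) (nat_lit 622) (nat_lit 1613) (.f (nat_lit 589) (nat_lit 620) (nat_lit 1612) (.d (nat_lit 557) (nat_lit 556) (nat_lit 3628) (nat_lit 558) (nat_lit 3629)))) (.f (nat_lit 625) (nat_lit 626) (nat_lit 590) (.f (nat_lit 496) (nat_lit 560) (nat_lit 4592) (.d (nat_lit 497) (nat_lit 499) (nat_lit 1519) (nat_lit 526) (nat_lit 1518))))))) (.a s121656 (.a (.f (nat_lit 624) (nat_lit 560) (nat_lit 7663) (.f (nat_lit 589) (nat_lit 625) (nat_lit 589) (.f (nat_lit 556) (nat_lit 557) (nat_lit 3628) (.f (nat_lit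 588) (nat_lit 555) (nat_lit 3627) (.d (nat_lit 620) (nat_lit 619) (nat_lit 1611) (nat_lit 621) (nat_lit 1612)))))) (.p (nat_lit 593) (.a (.f (nat_lit 622) (nat_lit 621) (nat_lit 1613) (.d (nat_lit 558) (nat_lit 526) (nat_lit 6638) (nat_lit 557) (nat_lit 3629))) (.f (nat_lit 625) (nat_lit 626) (nat_lit 590) (.d (nat_lit 560) (nat_lit 496) (nat_lit 4592) (nat_lit 624) (nat_lit 7663))))))))))))
noncomputable def s121666 : Cert := .r (nat_lit 56731658168294825605979867413068312035245603185804404092076621393552839120089202520264294798313072279780301650581796965125360142094996570191519558539939796299584075196522752376832) (.p (nat_lit 594) (.a (.f (nat_lit 622) (nat_lit 623) (nat_lit 1614) (.f (nat_lit 590) (nat_lit 621) (nat_lit 1613) (.d (nat_lit 626) (nat_lit 625) (nat_lit 590) (nat_lit 627) (nat_lit 591)))) (.a (.f (nat_lit 626) (nat_lit 627) (nat_lit 591) (.f (nat_lit 590) (nat_lit 625) (nat_lit 590) (.f (nat_lit 557)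 (nat_lit 558) (nat_lit 3629) (.f (nat_lit 589) (nat_lit 556) (nat_lit 3628) (.d (nat_lit 621) (nat_lit 620) (nat_lit 1612) (nat_lit 622) (nat_lit 1613)))))) (.a (.f (nat_lit 622) (nat_lit 623) (nat_lit 1614) (.f (nat_lit 590) (nat_lit 621) (nat_lit 1613) (.d (nat_lit 558) (nat_lit 526) (nat_lit 6638) (nat_lit 557) (nat_lit 3629)))) (.f (nat_lit 627) (nat_lit 626) (nat_lit 591) (.f (nat_lit 595) (nat_lit 628) (nat_lit 592) (.d (nat_lit 563) (nat_lit 562) (nat_lit 2607) (nat_lit 564) (nat_lit 2608))))))))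
noncomputable def s121940 : Cert := .r (nat_lit 4832817553652590348008584474041803339294848282875967472685201375571687278134170090857447170291011547998709425462678188911578959143290694017713684466183157317632) (.p (nat_lit 562) (.a (.f (nat_lit 563) (nat_lit 595) (nat_lit 4562) (.f (nat_lit 434) (nat_lit 531) (nat_lit 4530) (.d (nat_lit 435) (nat_lit 403) (nat_lit 6546) (nat_lit 467) (nat_lit 6578)))) (.a (.f (nat_lit 467) (nat_lit 435) (nat_lit 6578) (.f (nat_lit 594) (nat_lit 499) (nat_lit 6610) (.d (nat_lit 595) (nat_lit 563) (nat_lit 4562) (nat_lit 627) (nat_lit 4594)))) (.a (.f (nat_lit 435) (nat_lit 467) (nat_lit 6578) (.f (nat_lit 434) (nat_lit 403) (nat_lit 6546) (.f (nat_lit 531) (nat_lit 563) (nat_lit 4530) (.f (nat_lit 401) (nat_lit 433) (nat_lit 7569) (.d (nat_lit 402) (nat_lit 369) (nat_lit 7537) (nat_lit 499) (nat_lit 4498)))))) (.a (.f (nat_lit 467) (nat_lit 435) (nat_lit 6578) (.f (nat_lit 594) (nat_lit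 499) (nat_lit 6610) (.f (nat_lit 625) (nat_lit 593) (nat_lit 5617) (.f (nat_lit 626) (nat_lit 657) (nat_lit 5649) (.d (nat_lit 627) (nat_lit 595) (nat_lit 4594) (nat_lit 659) (nat_lit 4626)))))) (.a (.f (nat_lit 563) (nat_lit 595) (nat_lit 4562) (.f (nat_lit 434) (nat_lit 531) (nat_lit 4530) (.f (nat_lit 403) (nat_lit 435) (nat_lit 6546) (.f (nat_lit 402) (nat_lit 371) (nat_lit 6514) (.d (nat_lit 401) (nat_lit 369) (nat_lit 7537) (nat_lit 433) (nat_lit 7569)))))) (.f (nat_lit 563) (nat_lit 595) (nat_lit 4562) (.f (nat_lit 434) (nat_lit 531) (nat_lit 4530) (.f (nat_lit 401) (nat_lit 433) (nat_lit 7569) (.f (nat_lit 402) (nat_lit 369) (nat_lit 7537) (.f (nat_lit 403) (nat_lit 371) (nat_lit 6514) (.f (nat_lit 400) (nat_lit 432) (nat_lit 1423) (.f (nat_lit 399) (nat_lit 430) (nat_lit 1422) (.d (nat_lit 367) (nat_lit 366) (nat_lit 3438) (nat_lit 368) (nat_lit 3439)))))))))))))))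
noncomputable def s121946 : Cert := .r (nat_lit 4832817553652590348008584474041803339294848282875967472685201375571687278134170090857447170291011547998709425462678188911578959143290694017713684466183157317632) (.p (nat_lit 562) (.a (.f (nat_lit 563) (nat_lit 595) (nat_lit 4562) (.f (nat_lit 434) (nat_lit 531) (nat_lit 4530) (.d (nat_lit 435) (nat_lit 403) (nat_lit 6546) (nat_lit 467) (nat_lit 6578)))) (.a (.f (nat_lit 467) (nat_lit 435) (nat_lit 6578) (.f (nat_lit 594) (nat_lit 499) (nat_lit 6610) (.d (nat_lit 595) (nat_lit 563) (nat_lit 4562) (nat_lit 627) (nat_lit 4594)))) (.a (.f (nat_lit 435) (nat_lit 467) (nat_lit 6578) (.f (nat_lit 434) (nat_lit 403) (nat_lit 6546) (.f (nat_lit 531) (nat_lit 563) (nat_lit 4530) (.f (nat_lit 401) (nat_lit 433) (nat_lit 7569) (.d (nat_lit 402) (nat_lit 369) (nat_lit 7537) (nat_lit 499) (nat_lit 4498)))))) (.a (.f (nat_lit 467) (nat_lit 435) (nat_lit 6578) (.f (nat_lit 594) (nat_lit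 499) (nat_lit 6610) (.f (nat_lit 625) (nat_lit 593) (nat_lit 5617) (.f (nat_lit 626) (nat_lit 657) (nat_lit 5649) (.d (nat_lit 627) (nat_lit 595) (nat_lit 4594) (nat_lit 659) (nat_lit 4626)))))) (.a (.f (nat_lit 563) (nat_lit 595) (nat_lit 4562) (.f (nat_lit 434) (nat_lit 531) (nat_lit 4530) (.f (nat_lit 403) (nat_lit 435) (nat_lit 6546) (.f (nat_lit 402) (nat_lit 371) (nat_lit 6514) (.d (nat_lit 401) (nat_lit 369) (nat_lit 7537) (nat_lit 433) (nat_lit 7569)))))) (.f (nat_lit 595) (nat_lit 563) (nat_lit 4562) (.f (nat_lit 594) (nat_lit 627) (nat_lit 4594) (.f (nat_lit 499) (nat_lit 467) (nat_lit 6610) (.f (nat_lit 625) (nat_lit 593) (nat_lit 5617) (.d (nat_lit 626) (nat_lit 531) (nat_lit 6642) (nat_lit 657) (nat_lit 5649))))))))))))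
noncomputable def s121977 : Cert := .r (nat_lit 4832817553652590348008584474041803339294848282875967472685201375571687278134170090857447170291011547998709425462678188911578959143290694017713684466183157317632) (.p (nat_lit 562) (.a (.f (nat_lit 563) (nat_lit 595) (nat_lit 4562) (.f (nat_lit 434) (nat_lit 531) (nat_lit 4530) (.d (nat_lit 435) (nat_lit 403) (nat_lit 6546) (nat_lit 467) (nat_lit 6578)))) (.a (.f (nat_lit 467) (nat_lit 435) (nat_lit 6578) (.f (nat_lit 594) (nat_lit 499) (nat_lit 6610) (.d (nat_lit 595) (nat_lit 563) (nat_lit 4562) (nat_lit 627) (nat_lit 4594)))) (.a (.p (nat_lit 434) (.a (.d (nat_lit 435) (nat_lit 403) (nat_lit 6546) (nat_lit 467) (nat_lit 6578)) (.a (.f (nat_lit 531) (nat_lit 563) (nat_lit 4530) (.f (nat_lit 402) (nat_lit 499) (nat_lit 4498) (.d (nat_lit 403) (nat_lit 371) (nat_lit 6514) (nat_lit 435) (nat_lit 6546)))) (.a (.f (nat_lit 531) (nat_lit 563) (nat_lit 4530) (.f (nat_lit 402)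 (nat_lit 499) (nat_lit 4498) (.f (nat_lit 371) (nat_lit 403) (nat_lit 6514) (.f (nat_lit 370) (nat_lit 339) (nat_lit 6482) (.d (nat_lit 369) (nat_lit 337) (nat_lit 7505) (nat_lit 401) (nat_lit 7537)))))) (.f (nat_lit 467) (nat_lit 435) (nat_lit 6578) (.f (nat_lit 499) (nat_lit 594) (nat_lit 6610) (.d (nat_lit 531) (nat_lit 402) (nat_lit 4498) (nat_lit 563) (nat_lit 4530)))))))) (.a (.f (nat_lit 467) (nat_lit 435) (nat_lit 6578) (.f (nat_lit 594) (nat_lit 499) (nat_lit 6610) (.f (nat_lit 625) (nat_lit 593) (nat_lit 5617) (.f (nat_lit 626) (nat_lit 657) (nat_lit 5649) (.d (nat_lit 627) (nat_lit 595) (nat_lit 4594) (nat_lit 659) (nat_lit 4626)))))) (.a (.f (nat_lit 563) (nat_lit 595) (nat_lit 4562) (.f (nat_lit 434) (nat_lit 531) (nat_lit 4530) (.f (nat_lit 403) (nat_lit 435) (nat_lit 6546) (.f (nat_lit 402) (nat_lit 371) (nat_lit 6514) (.f (nat_lit 401) (nat_lit 369) (nat_lit 7537) (.f (nat_lit 400) (nat_lit 432) (nat_lit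 1423) (.f (nat_lit 399) (nat_lit 430) (nat_lit 1422) (.d (nat_lit 367) (nat_lit 366) (nat_lit 3438) (nat_lit 368) (nat_lit 3439))))))))) (.f (nat_lit 595) (nat_lit 563) (nat_lit 4562) (.f (nat_lit 594) (nat_lit 627) (nat_lit 4594) (.f (nat_lit 499) (nat_lit 467) (nat_lit 6610) (.f (nat_lit 625) (nat_lit 593) (nat_lit 5617) (.d (nat_lit 626) (nat_lit 531) (nat_lit 6642) (nat_lit 657) (nat_lit 5649))))))))))))
noncomputable def s121996 : Cert := .r (nat_lit 4832817553652590348008584474041803339294848282875967472685201375571687278134170090857447170291011547998709425462678188911578959143290694017713684466183157317632) (.p (nat_lit 434) (.a (.f (nat_lit 531) (nat_lit 563) (nat_lit 4530) (.f (nat_lit 402) (nat_lit 499) (nat_lit 4498) (.d (nat_lit 403) (nat_lit 371) (nat_lit 6514) (nat_lit 435) (nat_lit 6546)))) (.a (.f (nat_lit 433) (nat_lit 401) (nat_lit 7569) (.f (nat_lit 432) (nat_lit 467) (nat_lit 431) (.d (nat_lit 403)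 (nat_lit 402) (nat_lit 2447) (nat_lit 435) (nat_lit 6546)))) (.a (.f (nat_lit 433) (nat_lit 401) (nat_lit 7569) (.f (nat_lit 432) (nat_lit 467) (nat_lit 431) (.f (nat_lit 435) (nat_lit 403) (nat_lit 6546) (.d (nat_lit 399) (nat_lit 398) (nat_lit 3470) (nat_lit 400) (nat_lit 3471))))) (.a (.f (nat_lit 531) (nat_lit 563) (nat_lit 4530) (.f (nat_lit 402) (nat_lit 499) (nat_lit 4498) (.f (nat_lit 371) (nat_lit 403) (nat_lit 6514) (.f (nat_lit 370) (nat_lit 339) (nat_lit 6482) (.d (nat_lit 369) (nat_lit 337) (nat_lit 7505) (nat_lit 401) (nat_lit 7537)))))) (.f (nat_lit 531) (nat_lit 563) (nat_lit 4530) (.f (nat_lit 402) (nat_lit 499) (nat_lit 4498) (.d (nat_lit 401) (nat_lit 369) (nat_lit 7537) (nat_lit 433) (nat_lit 7569)))))))))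
noncomputable def s122006 : Cert := .r (nat_lit 4832817553652590348008584474041803339294848282875967472685201375571687278134170090857447170291011547998709425462678188911578959143290694017713684466183157317632) (.p (nat_lit 562) (.a (.f (nat_lit 467) (nat_lit 435) (nat_lit 6578) (.f (nat_lit 594) (nat_lit 499) (nat_lit 6610) (.f (nat_lit 625) (nat_lit 593) (nat_lit 5617) (.f (nat_lit 626) (nat_lit 657) (nat_lit 5649) (.d (nat_lit 627) (nat_lit 595) (nat_lit 4594) (nat_lit 659) (nat_lit 4626)))))) (.a (.f (nat_lit 467) (nat_lit 435) (nat_lit 6578) (.f (nat_lit 465) (nat_lit 433) (nat_lit 7601) (.f (nat_lit 464) (nat_lit 432) (nat_lit 3503) (.f (nat_lit 500) (nat_lit 499) (nat_lit 464) (.f (nat_lit 468) (nat_lit 501) (nat_lit 465) (.f (nat_lit 437) (nat_lit 436) (nat_lit 2481) (.d (nat_lit 469) (nat_lit 438) (nat_lit 2482) (nat_lit 497) (nat_lit 1489)))))))) (.a (.f (nat_lit 433) (nat_lit 465) (nat_lit 7601) (.f (nat_lit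 434) (nat_lit 401) (nat_lit 7569) (.d (nat_lit 435) (nat_lit 403) (nat_lit 6546) (nat_lit 467) (nat_lit 6578)))) (.f (nat_lit 465) (nat_lit 433) (nat_lit 7601) (.f (nat_lit 594) (nat_lit 497) (nat_lit 7633) (.f (nat_lit 625) (nat_lit 593) (nat_lit 5617) (.f (nat_lit 626) (nat_lit 657) (nat_lit 5649) (.d (nat_lit 627) (nat_lit 595) (nat_lit 4594) (nat_lit 659) (nat_lit 4626))))))))))
noncomputable def s122032 : Cert := .r (nat_lit 4832817553652590347818048063500055766578686342580974412031600414715670972539739124083437664747812962786288398664369352781218428679337653069505189856851596935168) (.p (nat_lit 562) (.a (.d (nat_lit 529) (nat_lit 499) (nat_lit 2543) (nat_lit 563) (nat_lit 527)) (.a (.p (nat_lit 594) (.a (.f (nat_lit 499) (nat_lit 467) (nat_lit 6610) (.f (nat_lit 626) (nat_lit 531) (nat_lit 6642) (.d (nat_lit 627) (nat_lit 595) (nat_lit 4594) (nat_lit 659) (nat_lit 4626)))) (.a (.f (nat_lit 595) (nat_lit 627)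 (nat_lit 4594) (.f (nat_lit 593) (nat_lit 625) (nat_lit 5617) (.f (nat_lit 563) (nat_lit 466) (nat_lit 4562) (.d (nat_lit 592) (nat_lit 564) (nat_lit 2608) (nat_lit 591) (nat_lit 2607))))) (.f (nat_lit 499) (nat_lit 467) (nat_lit 6610) (.f (nat_lit 626) (nat_lit 531) (nat_lit 6642) (.d (nat_lit 625) (nat_lit 593) (nat_lit 5617) (nat_lit 657) (nat_lit 5649))))))) (.a (.f (nat_lit 563) (nat_lit 529) (nat_lit 527) (.f (nat_lit 466) (nat_lit 595) (nat_lit 4562) (.f (nat_lit 434) (nat_lit 531) (nat_lit 4530) (.d (nat_lit 435) (nat_lit 403) (nat_lit 6546) (nat_lit 467) (nat_lit 6578))))) (.f (nat_lit 499) (nat_lit 529) (nat_lit 2543) (.f (nat_lit 594) (nat_lit 467) (nat_lit 6610) (.f (nat_lit 626) (nat_lit 531) (nat_lit 6642) (.d (nat_lit 627) (nat_lit 595) (nat_lit 4594) (nat_lit 659) (nat_lit 4626)))))))))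
noncomputable def s122080 : Cert := .r (nat_lit 4832817553652590347818048063566599839237585899210856352451034423598145462348758721887529174682563874173623413617328738527717778553675042132578875580746976722944) (.p (nat_lit 432) (.a (.f (nat_lit 399) (nat_lit 398) (nat_lit 3470) (.f (nat_lit 435) (nat_lit 400) (nat_lit 3471) (.d (nat_lit 403) (nat_lit 402) (nat_lit 2447) (nat_lit 404) (nat_lit 2448)))) (.a (.f (nat_lit 402) (nat_lit 403) (nat_lit 2447) (.f (nat_lit 430) (nat_lit 401) (nat_lit 2446) (.f (nat_lit 397) (nat_lit 398) (nat_lit 3469) (.f (nat_lit 429) (nat_lit 396) (nat_lit 3468) (.d (nat_lit 461) (nat_lit 460) (nat_lit 1452) (nat_lit 462) (nat_lit 1453)))))) (.a (.f (nat_lit 399) (nat_lit 398) (nat_lit 3470) (.f (nat_lit 435) (nat_lit 400) (nat_lit 3471) (.f (nat_lit 499) (nat_lit 529) (nat_lit 2543) (.d (nat_lit 403) (nat_lit 404) (nat_lit 2448) (nat_lit 467) (nat_lit 5522))))) (.a (.f (nat_lit 403) (nat_lit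 402) (nat_lit 2447) (.f (nat_lit 435) (nat_lit 404) (nat_lit 2448) (.d (nat_lit 467) (nat_lit 468) (nat_lit 432) (nat_lit 499) (nat_lit 5522)))) (.f (nat_lit 398) (nat_lit 399) (nat_lit 3470) (.f (nat_lit 430) (nat_lit 397) (nat_lit 3469) (.f (nat_lit 461) (nat_lit 462) (nat_lit 1453) (.f (nat_lit 429) (nat_lit 460) (nat_lit 1452) (.d (nat_lit 401) (nat_lit 400) (nat_lit 2445) (nat_lit 402) (nat_lit 2446)))))))))))
noncomputable def s122140 : Cert := .r (nat_lit 4832817553652590348008584474041803339294848282875967472685201375571687278134170090857447170291011547998709425462678188911578959143290694017713684466183157317632) (.p (nat_lit 562) (.a (.f (nat_lit 467) (nat_lit 435) (nat_lit 6578) (.f (nat_lit 594) (nat_lit 499) (nat_lit 6610) (.f (nat_lit 625) (nat_lit 593) (nat_lit 5617) (.f (nat_lit 626) (nat_lit 657) (nat_lit 5649) (.d (nat_lit 627) (nat_lit 595) (nat_lit 4594) (nat_lit 659) (nat_lit 4626)))))) (.a (.f (nat_lit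 433) (nat_lit 465) (nat_lit 7601) (.f (nat_lit 434) (nat_lit 401) (nat_lit 7569) (.d (nat_lit 435) (nat_lit 403) (nat_lit 6546) (nat_lit 467) (nat_lit 6578)))) (.a (.f (nat_lit 499) (nat_lit 529) (nat_lit 2543) (.f (nat_lit 433) (nat_lit 465) (nat_lit 7601) (.f (nat_lit 434) (nat_lit 401) (nat_lit 7569) (.f (nat_lit 403) (nat_lit 435) (nat_lit 6546) (.d (nat_lit 402) (nat_lit 371) (nat_lit 6514) (nat_lit 531) (nat_lit 4498)))))) (.f (nat_lit 499) (nat_lit 529) (nat_lit 2543) (.f (nat_lit 594) (nat_lit 467) (nat_lit 6610) (.f (nat_lit 626) (nat_lit 531) (nat_lit 6642) (.d (nat_lit 627) (nat_lit 595) (nat_lit 4594) (nat_lit 659) (nat_lit 4626)))))))))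
noncomputable def s122195 : Cert := .r (nat_lit 1318041151665718173747314854403654475666185247222543012631352128053910107544649024298732883696523686331580194708410846339461645760651425969004130233748377567232) (.p (nat_lit 466) (.a (.f (nat_lit 465) (nat_lit 430) (nat_lit 430) (.d (nat_lit 467) (nat_lit 434) (nat_lit 431) (nat_lit 464) (nat_lit 3503))) (.a (.f (nat_lit 434) (nat_lit 467) (nat_lit 431) (.f (nat_lit 402) (nat_lit 403) (nat_lit 2447) (.d (nat_lit 430) (nat_lit 401) (nat_lit 2446) (nat_lit 465) (nat_lit 430)))) (.a (.f (nat_lit 434) (nat_lit 467) (nat_lit 431) (.f (nat_lit 402) (nat_lit 403) (nat_lit 2447) (.d (nat_lit 401) (nat_lit 369) (nat_lit 7537) (nat_lit 430) (nat_lit 2446)))) (.a (.f (nat_lit 465) (nat_lit 430) (nat_lit 430) (.d (nat_lit 467) (nat_lit 464) (nat_lit 3503) (nat_lit 468) (nat_lit 3504))) (.a (.f (nat_lit 430) (nat_lit 465) (nat_lit 430) (.f (nat_lit 401) (nat_lit 402) (nat_lit 2446)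 (.f (nat_lit 429) (nat_lit 400) (nat_lit 2445) (.d (nat_lit 461) (nat_lit 460) (nat_lit 1452) (nat_lit 462) (nat_lit 1453))))) (.f (nat_lit 434) (nat_lit 467) (nat_lit 431) (.f (nat_lit 402) (nat_lit 403) (nat_lit 2447) (.f (nat_lit 401) (nat_lit 369) (nat_lit 7537) (.f (nat_lit 399) (nat_lit 398) (nat_lit 3470) (.f (nat_lit 400) (nat_lit 435) (nat_lit 399) (.f (nat_lit 370) (nat_lit 371) (nat_lit 2415) (.d (nat_lit 338) (nat_lit 306) (nat_lit 5425) (nat_lit 465) (nat_lit 5457))))))))))))))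
noncomputable def s122199 : Cert := .r (nat_lit 1318041151665718173747314854403654475666185247222543012631352128053910107544649024298732883696523686331580194708410846339461645760651425969004130233748377567232) (.p (nat_lit 466) (.a (.f (nat_lit 434) (nat_lit 467) (nat_lit 431) (.f (nat_lit 402) (nat_lit 403) (nat_lit 2447) (.d (nat_lit 430) (nat_lit 401) (nat_lit 2446) (nat_lit 465) (nat_lit 430)))) (.a (.f (nat_lit 434) (nat_lit 467) (nat_lit 431) (.f (nat_lit 402) (nat_lit 403) (nat_lit 2447) (.d (nat_lit 401) (nat_lit 369) (nat_lit 7537) (nat_lit 430) (nat_lit 2446)))) (.a (.f (nat_lit 430) (nat_lit 465) (nat_lit 430) (.f (nat_lit 401) (nat_lit 402) (nat_lit 2446) (.f (nat_lit 429) (nat_lit 400) (nat_lit 2445) (.d (nat_lit 461) (nat_lit 460) (nat_lit 1452) (nat_lit 462) (nat_lit 1453))))) (.a (.f (nat_lit 434) (nat_lit 467) (nat_lit 431) (.f (nat_lit 430) (nat_lit 465) (nat_lit 430) (.d (nat_lit 398) (nat_lit 397)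 (nat_lit 3469) (nat_lit 399) (nat_lit 3470)))) (.f (nat_lit 434) (nat_lit 467) (nat_lit 431) (.f (nat_lit 402) (nat_lit 403) (nat_lit 2447) (.f (nat_lit 401) (nat_lit 369) (nat_lit 7537) (.f (nat_lit 399) (nat_lit 398) (nat_lit 3470) (.f (nat_lit 400) (nat_lit 435) (nat_lit 399) (.f (nat_lit 370) (nat_lit 371) (nat_lit 2415) (.d (nat_lit 338) (nat_lit 306) (nat_lit 5425) (nat_lit 465) (nat_lit 5457)))))))))))))
noncomputable def s122230 : Cert := .r (nat_lit 1318041151665718173747314854403654475666185247222543012631352128053910107544649024298732883696523686331580194708410846339461645760651425969004130233748377567232) (.p (nat_lit 434) (.a (.f (nat_lit 399) (nat_lit 398) (nat_lit 3470) (.f (nat_lit 435) (nat_lit 400) (nat_lit 3471) (.d (nat_lit 403) (nat_lit 402) (nat_lit 2447) (nat_lit 404) (nat_lit 2448)))) (.a (.f (nat_lit 402) (nat_lit 403) (nat_lit 2447) (.f (nat_lit 430) (nat_lit 401) (nat_lit 2446) (.f (nat_lit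 461) (nat_lit 462) (nat_lit 1453) (.f (nat_lit 429) (nat_lit 460) (nat_lit 1452) (.d (nat_lit 397) (nat_lit 396) (nat_lit 3468) (nat_lit 398) (nat_lit 3469)))))) (.a (.f (nat_lit 399) (nat_lit 398) (nat_lit 3470) (.f (nat_lit 435) (nat_lit 400) (nat_lit 3471) (.f (nat_lit 404) (nat_lit 403) (nat_lit 2448) (.f (nat_lit 436) (nat_lit 405) (nat_lit 2449) (.d (nat_lit 468) (nat_lit 467) (nat_lit 432) (nat_lit 469) (nat_lit 433)))))) (.a (.f (nat_lit 403) (nat_lit 402) (nat_lit 2447) (.f (nat_lit 435) (nat_lit 404) (nat_lit 2448) (.f (nat_lit 468) (nat_lit 467) (nat_lit 432) (.f (nat_lit 436) (nat_lit 469) (nat_lit 433) (.d (nat_lit 400) (nat_lit 399) (nat_lit 3471) (nat_lit 401) (nat_lit 3472)))))) (.f (nat_lit 398) (nat_lit 399) (nat_lit 3470) (.f (nat_lit 430) (nat_lit 397) (nat_lit 3469) (.f (nat_lit 461) (nat_lit 462) (nat_lit 1453) (.f (nat_lit 429) (nat_lit 460) (nat_lit 1452) (.d (nat_lit 401) (nat_lit 400) (nat_lit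 2445) (nat_lit 402) (nat_lit 2446)))))))))))
noncomputable def s122247 : Cert := .r (nat_lit 1318041151665718173747314854403654475666185247222543012631352128053910107544649024298732883696523686331580194708410846339461645760651425969004130233748377567232) (.p (nat_lit 430) (.a (.f (nat_lit 465) (nat_lit 466) (nat_lit 430) (.f (nat_lit 429) (nat_lit 464) (nat_lit 429) (.d (nat_lit 401) (nat_lit 400) (nat_lit 2445) (nat_lit 402) (nat_lit 2446)))) (.a (.f (nat_lit 401) (nat_lit 402) (nat_lit 2446) (.f (nat_lit 429) (nat_lit 400) (nat_lit 2445) (.d (nat_lit 461) (nat_lit 460) (nat_lit 1452) (nat_lit 462) (nat_lit 1453)))) (.a (.f (nat_lit 397) (nat_lit 398) (nat_lit 3469) (.f (nat_lit 429) (nat_lit 396) (nat_lit 3468) (.d (nat_lit 461) (nat_lit 460) (nat_lit 1452) (nat_lit 462) (nat_lit 1453)))) (.f (nat_lit 465) (nat_lit 466) (nat_lit 430) (.f (nat_lit 401) (nat_lit 402) (nat_lit 2446) (.f (nat_lit 497) (nat_lit 530) (nat_lit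 4497) (.f (nat_lit 368) (nat_lit 400) (nat_lit 7536) (.f (nat_lit 369) (nat_lit 336) (nat_lit 7504) (.f (nat_lit 337) (nat_lit 464) (nat_lit 5456) (.d (nat_lit 338) (nat_lit 306) (nat_lit 6449) (nat_lit 370) (nat_lit 6481))))))))))))
noncomputable def s122254 : Cert := .r (nat_lit 1318041151665718173747314854403654475666185247222543012631352128053910107544649024298732883696523686331580194708410846339461645760651425969004130233748377567232) (.p (nat_lit 466) (.a (.f (nat_lit 465) (nat_lit 430) (nat_lit 430) (.d (nat_lit 467) (nat_lit 434) (nat_lit 431) (nat_lit 464) (nat_lit 3503))) (.a (.f (nat_lit 434) (nat_lit 467) (nat_lit 431) (.f (nat_lit 402) (nat_lit 403) (nat_lit 2447) (.d (nat_lit 430) (nat_lit 401) (nat_lit 2446) (nat_lit 465) (nat_lit 430)))) (.a (.f (nat_lit 434) (nat_lit 467) (nat_lit 431) (.f (nat_lit 402) (nat_lit 403) (nat_lit 2447) (.d (nat_lit 401) (nat_lit 369) (nat_lit 7537) (nat_lit 430) (nat_lit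 2446)))) (.a (.f (nat_lit 465) (nat_lit 430) (nat_lit 430) (.d (nat_lit 467) (nat_lit 464) (nat_lit 3503) (nat_lit 468) (nat_lit 3504))) (.a (.f (nat_lit 430) (nat_lit 465) (nat_lit 430) (.f (nat_lit 402) (nat_lit 401) (nat_lit 2446) (.f (nat_lit 434) (nat_lit 403) (nat_lit 2447) (.d (nat_lit 398) (nat_lit 397) (nat_lit 3469) (nat_lit 399) (nat_lit 3470))))) (.f (nat_lit 467) (nat_lit 434) (nat_lit 431) (.d (nat_lit 465) (nat_lit 464) (nat_lit 3503) (nat_lit 468) (nat_lit 3504)))))))))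
noncomputable def s122263 : Cert := .r (nat_lit 1318041151665718173747314854403654475666185247222543012631352128053910107544649024298732883696523686331580194708410846339461645760651425969004130233748377567232) (.p (nat_lit 466) (.a (.f (nat_lit 465) (nat_lit 430) (nat_lit 430) (.d (nat_lit 467) (nat_lit 434) (nat_lit 431) (nat_lit 464) (nat_lit 3503))) (.a (.f (nat_lit 434) (nat_lit 467) (nat_lit 431) (.f (nat_lit 430) (nat_lit 465) (nat_lit 430) (.d (nat_lit 398) (nat_lit 397) (nat_lit 3469) (nat_lit 399) (nat_lit 3470)))) (.a (.f (nat_lit 434) (nat_lit 467) (nat_lit 431) (.f (nat_lit 403) (nat_lit 402) (nat_lit 2447) (.d (nat_lit 435) (nat_lit 404) (nat_lit 2448) (nat_lit 530) (nat_lit 6546)))) (.a (.f (nat_lit 465) (nat_lit 430) (nat_lit 430) (.d (nat_lit 467) (nat_lit 464) (nat_lit 3503) (nat_lit 468) (nat_lit 3504))) (.f (nat_lit 430) (nat_lit 465) (nat_lit 430) (.f (nat_lit 398) (nat_lit 397) (nat_lit 3469) (.f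 (nat_lit 434) (nat_lit 399) (nat_lit 3470) (.f (nat_lit 403) (nat_lit 402) (nat_lit 2447) (.d (nat_lit 435) (nat_lit 404) (nat_lit 2448) (nat_lit 530) (nat_lit 6546)))))))))))
noncomputable def s122276 : Cert := .r (nat_lit 1318041151665718173747314854403654475666185247222543012631352128053910107544649024298732883696523686331580194708410846339461645760651425969004130233748377567232) (.p (nat_lit 466) (.a (.f (nat_lit 465) (nat_lit 430) (nat_lit 430) (.d (nat_lit 467) (nat_lit 434) (nat_lit 431) (nat_lit 464) (nat_lit 3503))) (.a (.f (nat_lit 434) (nat_lit 467) (nat_lit 431) (.f (nat_lit 430) (nat_lit 465) (nat_lit 430) (.d (nat_lit 398) (nat_lit 397) (nat_lit 3469) (nat_lit 399) (nat_lit 3470)))) (.a (.f (nat_lit 434) (nat_lit 467) (nat_lit 431) (.f (nat_lit 401) (nat_lit 530) (nat_lit 7569) (.f (nat_lit 398) (nat_lit 399) (nat_lit 3470) (.f (nat_lit 430) (nat_lit 397) (nat_lit 3469) (.f (nat_lit 461) (nat_lit 462)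 (nat_lit 1453) (.d (nat_lit 429) (nat_lit 400) (nat_lit 2445) (nat_lit 460) (nat_lit 1452))))))) (.a (.f (nat_lit 465) (nat_lit 430) (nat_lit 430) (.d (nat_lit 467) (nat_lit 464) (nat_lit 3503) (nat_lit 468) (nat_lit 3504))) (.a (.f (nat_lit 430) (nat_lit 465) (nat_lit 430) (.f (nat_lit 398) (nat_lit 397) (nat_lit 3469) (.f (nat_lit 399) (nat_lit 434) (nat_lit 3470) (.f (nat_lit 461) (nat_lit 462) (nat_lit 1453) (.f (nat_lit 429) (nat_lit 460) (nat_lit 1452) (.d (nat_lit 428) (nat_lit 400) (nat_lit 2444) (nat_lit 427) (nat_lit 2443))))))) (.f (nat_lit 467) (nat_lit 434) (nat_lit 431) (.d (nat_lit 465) (nat_lit 464) (nat_lit 3503) (nat_lit 468) (nat_lit 3504)))))))))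
noncomputable def s122277 : Cert := .r (nat_lit 1318041151665718173747314854403654475666185247222543012631352128053910107544649024298732883696523686331580194708410846339461645760651425969004130233748377567232) (.p (nat_lit 466) (.a (.f (nat_lit 465) (nat_lit 430) (nat_lit 430) (.d (nat_lit 467) (nat_lit 434) (nat_lit 431) (nat_lit 464) (nat_lit 3503))) (.a (.f (nat_lit 434) (nat_lit 467) (nat_lit 431) (.f (nat_lit 402) (nat_lit 403) (nat_lit 2447) (.d (nat_lit 430) (nat_lit 401) (nat_lit 2446) (nat_lit 465) (nat_lit 430)))) (.a (.f (nat_lit 434) (nat_lit 467) (nat_lit 431) (.f (nat_lit 402) (nat_lit 403) (nat_lit 2447) (.d (nat_lit 401) (nat_lit 369) (nat_lit 7537) (nat_lit 430) (nat_lit 2446)))) (.a (.f (nat_lit 465) (nat_lit 430) (nat_lit 430) (.d (nat_lit 467) (nat_lit 464) (nat_lit 3503) (nat_lit 468) (nat_lit 3504))) (.a (.f (nat_lit 430) (nat_lit 465) (nat_lit 430) (.f (nat_lit 401) (nat_lit 402) (nat_lit 2446)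 (.f (nat_lit 429) (nat_lit 400) (nat_lit 2445) (.d (nat_lit 461) (nat_lit 460) (nat_lit 1452) (nat_lit 462) (nat_lit 1453))))) (.f (nat_lit 467) (nat_lit 434) (nat_lit 431) (.d (nat_lit 465) (nat_lit 464) (nat_lit 3503) (nat_lit 468) (nat_lit 3504)))))))))
noncomputable def s122286 : Cert := .r (nat_lit 1318041151665718173747314854403654475666185247222543012631352128053910107544649024298732883696523686331580194708410846339461645760651425969004130233748377567232) (.p (nat_lit 466) (.a (.f (nat_lit 465) (nat_lit 430) (nat_lit 430) (.d (nat_lit 467) (nat_lit 434) (nat_lit 431) (nat_lit 464) (nat_lit 3503))) (.a (.f (nat_lit 434) (nat_lit 467) (nat_lit 431) (.f (nat_lit 402) (nat_lit 403) (nat_lit 2447) (.d (nat_lit 430) (nat_lit 401) (nat_lit 2446) (nat_lit 465) (nat_lit 430)))) (.a (.f (nat_lit 434) (nat_lit 467) (nat_lit 431) (.f (nat_lit 402) (nat_lit 403) (nat_lit 2447) (.d (nat_lit 401) (nat_lit 369) (nat_lit 7537)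 (nat_lit 430) (nat_lit 2446)))) (.a (.f (nat_lit 465) (nat_lit 430) (nat_lit 430) (.d (nat_lit 467) (nat_lit 464) (nat_lit 3503) (nat_lit 468) (nat_lit 3504))) (.a (.f (nat_lit 430) (nat_lit 465) (nat_lit 430) (.f (nat_lit 401) (nat_lit 402) (nat_lit 2446) (.f (nat_lit 429) (nat_lit 400) (nat_lit 2445) (.d (nat_lit 461) (nat_lit 460) (nat_lit 1452) (nat_lit 462) (nat_lit 1453))))) (.f (nat_lit 434) (nat_lit 467) (nat_lit 431) (.f (nat_lit 402) (nat_lit 403) (nat_lit 2447) (.f (nat_lit 401) (nat_lit 369) (nat_lit 7537) (.f (nat_lit 399) (nat_lit 398) (nat_lit 3470) (.f (nat_lit 400) (nat_lit 435) (nat_lit 399) (.f (nat_lit 464) (nat_lit 496) (nat_lit 6544) (.d (nat_lit 367) (nat_lit 335) (nat_lit 4431) (nat_lit 366) (nat_lit 3438))))))))))))))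
noncomputable def s122293 : Cert := .r (nat_lit 1318041151665718173747314854403654475666185247222543012631352128053910107544649024298732883696523686331580194708410846339461645760651425969004130233748377567232) (.p (nat_lit 434) (.a (.f (nat_lit 466) (nat_lit 467) (nat_lit 431) (.f (nat_lit 401) (nat_lit 530) (nat_lit 7569) (.d (nat_lit 402) (nat_lit 369) (nat_lit 7537) (nat_lit 403) (nat_lit 2447)))) (.a (.f (nat_lit 399) (nat_lit 398) (nat_lit 3470) (.f (nat_lit 400) (nat_lit 435) (nat_lit 3471) (.f (nat_lit 464) (nat_lit 496) (nat_lit 7567) (.f (nat_lit 402) (nat_lit 403) (nat_lit 2447) (.f (nat_lit 401) (nat_lit 430) (nat_lit 2446) (.d (nat_lit 367) (nat_lit 335) (nat_lit 4431) (nat_lit 366) (nat_lit 3438))))))) (.a (.f (nat_lit 399) (nat_lit 398) (nat_lit 3470) (.f (nat_lit 435) (nat_lit 400) (nat_lit 3471) (.d (nat_lit 403) (nat_lit 402) (nat_lit 2447) (nat_lit 404) (nat_lit 2448)))) (.f (nat_lit 399) (nat_lit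 398) (nat_lit 3470) (.f (nat_lit 435) (nat_lit 400) (nat_lit 3471) (.d (nat_lit 467) (nat_lit 466) (nat_lit 431) (nat_lit 468) (nat_lit 432))))))))
noncomputable def s122310 : Cert := .r (nat_lit 1318041151665718173747314854403654475666185247222543012631352128053910107544649024298732883696523686331580194708410846339461645760651425969004130233748377567232) (.p (nat_lit 434) (.a (.f (nat_lit 399) (nat_lit 398) (nat_lit 3470) (.f (nat_lit 400) (nat_lit 435) (nat_lit 3471) (.f (nat_lit 464) (nat_lit 496) (nat_lit 7567) (.f (nat_lit 402) (nat_lit 403) (nat_lit 2447) (.f (nat_lit 401) (nat_lit 430) (nat_lit 2446) (.d (nat_lit 367) (nat_lit 335) (nat_lit 4431) (nat_lit 366) (nat_lit 3438))))))) (.a (.f (nat_lit 399) (nat_lit 398) (nat_lit 3470) (.f (nat_lit 435) (nat_lit 400) (nat_lit 3471) (.d (nat_lit 403) (nat_lit 402) (nat_lit 2447) (nat_lit 404) (nat_lit 2448)))) (.a (.f (nat_lit 402) (nat_lit 403) (nat_lit 2447) (.f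 (nat_lit 430) (nat_lit 401) (nat_lit 2446) (.f (nat_lit 461) (nat_lit 462) (nat_lit 1453) (.f (nat_lit 429) (nat_lit 460) (nat_lit 1452) (.d (nat_lit 397) (nat_lit 396) (nat_lit 3468) (nat_lit 398) (nat_lit 3469)))))) (.a (.f (nat_lit 399) (nat_lit 398) (nat_lit 3470) (.f (nat_lit 464) (nat_lit 496) (nat_lit 7567) (.f (nat_lit 435) (nat_lit 400) (nat_lit 3471) (.f (nat_lit 436) (nat_lit 465) (nat_lit 1456) (.d (nat_lit 404) (nat_lit 403) (nat_lit 2448) (nat_lit 405) (nat_lit 2449)))))) (.a (.f (nat_lit 402) (nat_lit 403) (nat_lit 2447) (.f (nat_lit 430) (nat_lit 401) (nat_lit 2446) (.f (nat_lit 461) (nat_lit 462) (nat_lit 1453) (.f (nat_lit 429) (nat_lit 460) (nat_lit 1452) (.f (nat_lit 464) (nat_lit 465) (nat_lit 429) (.d (nat_lit 496) (nat_lit 399) (nat_lit 7567) (nat_lit 400) (nat_lit 5519))))))) (.f (nat_lit 399) (nat_lit 398) (nat_lit 3470) (.f (nat_lit 464) (nat_lit 496) (nat_lit 7567) (.f (nat_lit 435) (nat_lit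 400) (nat_lit 3471) (.f (nat_lit 436) (nat_lit 465) (nat_lit 1456) (.d (nat_lit 468) (nat_lit 467) (nat_lit 432) (nat_lit 469) (nat_lit 433))))))))))))
noncomputable def s122328 : Cert := .r (nat_lit 1318041151665718173747314854403654475666185247222543012631352128053910107544649024298732883696523686331580194708410846339461645760651425969004130233748377567232) (.p (nat_lit 430) (.a (.f (nat_lit 401) (nat_lit 402) (nat_lit 2446) (.f (nat_lit 464) (nat_lit 496) (nat_lit 6544) (.d (nat_lit 429) (nat_lit 400) (nat_lit 2445) (nat_lit 465) (nat_lit 429)))) (.a (.f (nat_lit 465) (nat_lit 466) (nat_lit 430) (.f (nat_lit 429) (nat_lit 464) (nat_lit 429) (.d (nat_lit 401) (nat_lit 400) (nat_lit 2445) (nat_lit 402) (nat_lit 2446)))) (.a (.f (nat_lit 401) (nat_lit 402) (nat_lit 2446) (.f (nat_lit 429) (nat_lit 400) (nat_lit 2445) (.d (nat_lit 461) (nat_lit 460) (nat_lit 1452) (nat_lit 462) (nat_lit 1453)))) (.a (.f (nat_lit 465)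 (nat_lit 466) (nat_lit 430) (.f (nat_lit 464) (nat_lit 429) (nat_lit 429) (.d (nat_lit 496) (nat_lit 399) (nat_lit 7567) (nat_lit 401) (nat_lit 6544)))) (.a (.f (nat_lit 465) (nat_lit 466) (nat_lit 430) (.f (nat_lit 464) (nat_lit 429) (nat_lit 429) (.d (nat_lit 496) (nat_lit 399) (nat_lit 7567) (nat_lit 560) (nat_lit 6576)))) (.f (nat_lit 401) (nat_lit 402) (nat_lit 2446) (.f (nat_lit 464) (nat_lit 496) (nat_lit 6544) (.f (nat_lit 465) (nat_lit 466) (nat_lit 430) (.f (nat_lit 369) (nat_lit 337) (nat_lit 5456) (.f (nat_lit 368) (nat_lit 336) (nat_lit 7504) (.f (nat_lit 370) (nat_lit 338) (nat_lit 6481) (.f (nat_lit 398) (nat_lit 397) (nat_lit 3469) (.d (nat_lit 399) (nat_lit 367) (nat_lit 1390) (nat_lit 400) (nat_lit 2414)))))))))))))))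
noncomputable def s122391 : Cert := .r (nat_lit 4832817553652590348008584474041803339294848282875967472685201375571687278134170090857447170291011547998709425462678188911578959143290694017713684466183157317632) (.p (nat_lit 562) (.a (.f (nat_lit 563) (nat_lit 595) (nat_lit 4562) (.f (nat_lit 434) (nat_lit 531) (nat_lit 4530) (.d (nat_lit 435) (nat_lit 403) (nat_lit 6546) (nat_lit 467) (nat_lit 6578)))) (.a (.f (nat_lit 433) (nat_lit 465) (nat_lit 7601) (.f (nat_lit 434) (nat_lit 401) (nat_lit 7569) (.d (nat_lit 435) (nat_lit 403) (nat_lit 6546) (nat_lit 467) (nat_lit 6578)))) (.a (.f (nat_lit 467) (nat_lit 435) (nat_lit 6578) (.f (nat_lit 465) (nat_lit 433) (nat_lit 7601) (.d (nat_lit 464) (nat_lit 432) (nat_lit 3503) (nat_lit 496) (nat_lit 1487)))) (.a (.f (nat_lit 563) (nat_lit 595) (nat_lit 4562) (.f (nat_lit 434) (nat_lit 531) (nat_lit 4530) (.f (nat_lit 403) (nat_lit 435) (nat_lit 6546) (.f (nat_lit 402) (nat_lit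 371) (nat_lit 6514) (.d (nat_lit 401) (nat_lit 369) (nat_lit 7537) (nat_lit 433) (nat_lit 7569)))))) (.f (nat_lit 563) (nat_lit 595) (nat_lit 4562) (.f (nat_lit 434) (nat_lit 531) (nat_lit 4530) (.f (nat_lit 401) (nat_lit 433) (nat_lit 7569) (.f (nat_lit 402) (nat_lit 369) (nat_lit 7537) (.f (nat_lit 403) (nat_lit 371) (nat_lit 6514) (.f (nat_lit 400) (nat_lit 432) (nat_lit 1423) (.f (nat_lit 399) (nat_lit 430) (nat_lit 1422) (.d (nat_lit 367) (nat_lit 366) (nat_lit 3438) (nat_lit 368) (nat_lit 3439))))))))))))))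
noncomputable def s122399 : Cert := .r (nat_lit 4832817553652590348008584474041803339294848282875967472685201375571687278134170090857447170291011547998709425462678188911578959143290694017713684466183157317632) (.p (nat_lit 562) (.a (.f (nat_lit 467) (nat_lit 435) (nat_lit 6578) (.f (nat_lit 594) (nat_lit 499) (nat_lit 6610) (.f (nat_lit 625) (nat_lit 593) (nat_lit 5617) (.f (nat_lit 626) (nat_lit 657) (nat_lit 5649) (.d (nat_lit 627) (nat_lit 595) (nat_lit 4594) (nat_lit 659) (nat_lit 4626)))))) (.a (.f (nat_lit 433) (nat_lit 465) (nat_lit 7601) (.f (nat_lit 434) (nat_lit 401) (nat_lit 7569) (.d (nat_lit 435) (nat_lit 403) (nat_lit 6546) (nat_lit 467) (nat_lit 6578)))) (.a (.f (nat_lit 433) (nat_lit 465) (nat_lit 7601) (.f (nat_lit 434) (nat_lit 401) (nat_lit 7569) (.f (nat_lit 403) (nat_lit 435) (nat_lit 6546) (.d (nat_lit 402) (nat_lit 371) (nat_lit 6514) (nat_lit 432) (nat_lit 2447))))) (.f (nat_lit 433) (nat_lit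 465) (nat_lit 7601) (.f (nat_lit 434) (nat_lit 401) (nat_lit 7569) (.f (nat_lit 467) (nat_lit 432) (nat_lit 431) (.f (nat_lit 594) (nat_lit 499) (nat_lit 6610) (.f (nat_lit 627) (nat_lit 595) (nat_lit 4594) (.f (nat_lit 626) (nat_lit 659) (nat_lit 4626) (.d (nat_lit 625) (nat_lit 593) (nat_lit 5617) (nat_lit 657) (nat_lit 5649))))))))))))
noncomputable def s122637 : Cert := .r (nat_lit 1318041151665718173747314854403654475666185247222543012631352128053910107544649024298732883696523686331580194708410846339461645760651425969004130233748377567232) (.p (nat_lit 466) (.a (.f (nat_lit 465) (nat_lit 430) (nat_lit 430) (.d (nat_lit 467) (nat_lit 434) (nat_lit 431) (nat_lit 464) (nat_lit 3503))) (.a (.f (nat_lit 434) (nat_lit 467) (nat_lit 431) (.f (nat_lit 430) (nat_lit 465) (nat_lit 430) (.d (nat_lit 398) (nat_lit 397) (nat_lit 3469) (nat_lit 399) (nat_lit 3470)))) (.a (.f (nat_lit 434) (nat_lit 467) (nat_lit 431) (.f (nat_lit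 403) (nat_lit 402) (nat_lit 2447) (.f (nat_lit 435) (nat_lit 404) (nat_lit 2448) (.d (nat_lit 399) (nat_lit 398) (nat_lit 3470) (nat_lit 400) (nat_lit 3471))))) (.a (.f (nat_lit 465) (nat_lit 430) (nat_lit 430) (.d (nat_lit 467) (nat_lit 464) (nat_lit 3503) (nat_lit 468) (nat_lit 3504))) (.f (nat_lit 430) (nat_lit 465) (nat_lit 430) (.f (nat_lit 398) (nat_lit 397) (nat_lit 3469) (.f (nat_lit 399) (nat_lit 434) (nat_lit 3470) (.f (nat_lit 461) (nat_lit 462) (nat_lit 1453) (.f (nat_lit 429) (nat_lit 460) (nat_lit 1452) (.d (nat_lit 428) (nat_lit 400) (nat_lit 2444) (nat_lit 427) (nat_lit 2443))))))))))))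
noncomputable def s122662 : Cert := .r (nat_lit 1318041151665718173747314854403654475666185247222543012631352128053910107544649024298732883696523686331580194708410846339461645760651425969004130233748377567232) (.p (nat_lit 434) (.a (.f (nat_lit 399) (nat_lit 398) (nat_lit 3470) (.f (nat_lit 435) (nat_lit 400) (nat_lit 3471) (.d (nat_lit 467) (nat_lit 466) (nat_lit 431) (nat_lit 468) (nat_lit 432)))) (.a (.f (nat_lit 399) (nat_lit 398) (nat_lit 3470) (.f (nat_lit 435) (nat_lit 400) (nat_lit 3471) (.f (nat_lit 404) (nat_lit 403) (nat_lit 2448) (.f (nat_lit 436) (nat_lit 405) (nat_lit 2449) (.d (nat_lit 468) (nat_lit 467) (nat_lit 432) (nat_lit 469) (nat_lit 433)))))) (.a (.f (nat_lit 466) (nat_lit 467) (nat_lit 431) (.f (nat_lit 430) (nat_lit 465) (nat_lit 430) (.f (nat_lit 461) (nat_lit 462) (nat_lit 1453) (.f (nat_lit 429) (nat_lit 460) (nat_lit 1452) (.d (nat_lit 397) (nat_lit 396) (nat_lit 3468) (nat_lit 398) (nat_lit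 3469)))))) (.a (.f (nat_lit 399) (nat_lit 398) (nat_lit 3470) (.f (nat_lit 435) (nat_lit 400) (nat_lit 3471) (.f (nat_lit 404) (nat_lit 403) (nat_lit 2448) (.f (nat_lit 436) (nat_lit 405) (nat_lit 2449) (.f (nat_lit 465) (nat_lit 464) (nat_lit 1456) (.d (nat_lit 466) (nat_lit 430) (nat_lit 430) (nat_lit 437) (nat_lit 1457))))))) (.f (nat_lit 466) (nat_lit 467) (nat_lit 431) (.f (nat_lit 430) (nat_lit 465) (nat_lit 430) (.f (nat_lit 461) (nat_lit 462) (nat_lit 1453) (.f (nat_lit 429) (nat_lit 460) (nat_lit 1452) (.f (nat_lit 400) (nat_lit 401) (nat_lit 2445) (.d (nat_lit 399) (nat_lit 428) (nat_lit 2444) (nat_lit 435) (nat_lit 3471))))))))))))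
noncomputable def s122671 : Cert := .r (nat_lit 1318041151665718173747314854392563796889701987784229355894779793240164359243145757998050965374065201100357692216250948715045087448261861125158515946432480935936) (.p (nat_lit 432) (.a s122286 (.a s122195 (.a s122199 (.a s122230 (.a s122328 (.a s122254 (.a s122277 (.a s122637 (.a (.p (nat_lit 434) (.a (.f (nat_lit 399) (nat_lit 398) (nat_lit 3470) (.f (nat_lit 435) (nat_lit 400) (nat_lit 3471) (.d (nat_lit 403) (nat_lit 402) (nat_lit 2447) (nat_lit 404) (nat_lit 2448)))) (.a (.f (nat_lit 466) (nat_lit 467) (nat_lit 431) (.f (nat_lit 402) (nat_lit 403) (nat_lit 2447) (.f (nat_lit 369) (nat_lit 401) (nat_lit 7537) (.f (nat_lit 370) (nat_lit 337) (nat_lit 7505) (.f (nat_lit 338) (nat_lit 465) (nat_lit 5457) (.d (nat_lit 339) (nat_lit 307) (nat_lit 6450) (nat_lit 371) (nat_lit 6482))))))) (.f (nat_lit 399) (nat_lit 398) (nat_lit 3470) (.f (nat_lit 435) (nat_lit 400) (nat_lit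 3471) (.d (nat_lit 467) (nat_lit 466) (nat_lit 431) (nat_lit 468) (nat_lit 432))))))) s122662))))))))))
noncomputable def s122726 : Cert := .r (nat_lit 1318041151665718173937851264934311369605863928079222416548380754096180664837576724772060470917263786312778719014559784845405617912214902073367010555764041318400) (.p (nat_lit 432) (.a (.f (nat_lit 434) (nat_lit 467) (nat_lit 431) (.f (nat_lit 402) (nat_lit 403) (nat_lit 2447) (.d (nat_lit 430) (nat_lit 401) (nat_lit 2446) (nat_lit 465) (nat_lit 430)))) (.a (.f (nat_lit 434) (nat_lit 467) (nat_lit 431) (.f (nat_lit 402) (nat_lit 403) (nat_lit 2447) (.d (nat_lit 401) (nat_lit 369) (nat_lit 7537) (nat_lit 430) (nat_lit 2446)))) (.a (.f (nat_lit 430) (nat_lit 465) (nat_lit 430) (.f (nat_lit 401) (nat_lit 402) (nat_lit 2446) (.f (nat_lit 429) (nat_lit 400) (nat_lit 2445) (.d (nat_lit 461) (nat_lit 460) (nat_lit 1452) (nat_lit 462) (nat_lit 1453))))) (.a (.f (nat_lit 434)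 (nat_lit 467) (nat_lit 431) (.f (nat_lit 430) (nat_lit 465) (nat_lit 430) (.d (nat_lit 398) (nat_lit 397) (nat_lit 3469) (nat_lit 399) (nat_lit 3470)))) (.f (nat_lit 434) (nat_lit 467) (nat_lit 431) (.f (nat_lit 402) (nat_lit 403) (nat_lit 2447) (.f (nat_lit 401) (nat_lit 369) (nat_lit 7537) (.f (nat_lit 399) (nat_lit 398) (nat_lit 3470) (.f (nat_lit 400) (nat_lit 435) (nat_lit 399) (.f (nat_lit 370) (nat_lit 371) (nat_lit 2415) (.d (nat_lit 338) (nat_lit 306) (nat_lit 5425) (nat_lit 465) (nat_lit 5457)))))))))))))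
noncomputable def s122735 : Cert := .r (nat_lit 1318041151665718173937851264934311369605863928079222416548380754096180664837576724772060470917263786312778719014559784845405617912214902073367010555764041318400) (.p (nat_lit 434) (.a (.f (nat_lit 432) (nat_lit 467) (nat_lit 431) (.f (nat_lit 402) (nat_lit 403) (nat_lit 2447) (.d (nat_lit 401) (nat_lit 369) (nat_lit 7537) (nat_lit 430) (nat_lit 2446)))) (.a (.f (nat_lit 401) (nat_lit 530) (nat_lit 7569) (.d (nat_lit 369) (nat_lit 337) (nat_lit 4433) (nat_lit 402) (nat_lit 7537))) (.a (.f (nat_lit 432) (nat_lit 467) (nat_lit 431) (.f (nat_lit 399) (nat_lit 398) (nat_lit 3470) (.f (nat_lit 403) (nat_lit 402) (nat_lit 2447) (.d (nat_lit 435) (nat_lit 400) (nat_lit 3471) (nat_lit 404) (nat_lit 2448))))) (.f (nat_lit 530) (nat_lit 401) (nat_lit 7569) (.f (nat_lit 467) (nat_lit 432) (nat_lit 431) (.d (nat_lit 435) (nat_lit 403) (nat_lit 6546) (nat_lit 562) (nat_lit 6578))))))))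
noncomputable def s122738 : Cert := .r (nat_lit 1318041151665718173937851264934311369605863928079222416548380754096180664837576724772060470917263786312778719014559784845405617912214902073367010555764041318400) (.p (nat_lit 530) (.a (.f (nat_lit 465) (nat_lit 562) (nat_lit 7601) (.d (nat_lit 401) (nat_lit 369) (nat_lit 4465) (nat_lit 497) (nat_lit 4497))) (.a (.f (nat_lit 465) (nat_lit 562) (nat_lit 7601) (.d (nat_lit 401) (nat_lit 369) (nat_lit 4465) (nat_lit 434) (nat_lit 7569))) (.a (.f (nat_lit 434) (nat_lit 401) (nat_lit 7569) (.f (nat_lit 563) (nat_lit 531) (nat_lit 4530) (.d (nat_lit 562) (nat_lit 529) (nat_lit 527) (nat_lit 595) (nat_lit 4562)))) (.a (.f (nat_lit 401) (nat_lit 434) (nat_lit 7569) (.d (nat_lit 465) (nat_lit 369) (nat_lit 4465) (nat_lit 497) (nat_lit 4497))) (.f (nat_lit 562) (nat_lit 465) (nat_lit 7601) (.d (nat_lit 563) (nat_lit 529) (nat_lit 527) (nat_lit 595) (nat_lit 4562))))))))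
noncomputable def s122743 : Cert := .r (nat_lit 1318041151665718173937851264934311369605863928079222416548380754096180664837576724772060470917263786312778719014559784845405617912214902073367010555764041318400) (.p (nat_lit 432) (.a (.f (nat_lit 465) (nat_lit 430) (nat_lit 430) (.d (nat_lit 467) (nat_lit 434) (nat_lit 431) (nat_lit 464) (nat_lit 3503))) (.a (.f (nat_lit 434) (nat_lit 467) (nat_lit 431) (.f (nat_lit 430) (nat_lit 465) (nat_lit 430) (.d (nat_lit 398) (nat_lit 397) (nat_lit 3469) (nat_lit 399) (nat_lit 3470)))) (.a (.f (nat_lit 434) (nat_lit 467) (nat_lit 431) (.f (nat_lit 403) (nat_lit 402) (nat_lit 2447) (.d (nat_lit 435) (nat_lit 404) (nat_lit 2448) (nat_lit 530) (nat_lit 6546)))) (.a (.f (nat_lit 465) (nat_lit 430) (nat_lit 430) (.d (nat_lit 467) (nat_lit 464) (nat_lit 3503) (nat_lit 468) (nat_lit 3504))) (.f (nat_lit 430) (nat_lit 465) (nat_lit 430) (.f (nat_lit 398) (nat_lit 397) (nat_lit 3469) (.f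 (nat_lit 434) (nat_lit 399) (nat_lit 3470) (.f (nat_lit 403) (nat_lit 402) (nat_lit 2447) (.d (nat_lit 435) (nat_lit 404) (nat_lit 2448) (nat_lit 530) (nat_lit 6546)))))))))))
noncomputable def s122813 : Cert := .r (nat_lit 1318041150847370521773279386867085015129835680853441530910868926241850020616105776295518490008330707556436647944209482434321953071178417300995939108468555776000) (.p (nat_lit 498) (.a (.p (nat_lit 529) (.a (.f (nat_lit 530) (nat_lit 499) (nat_lit 2543) (.f (nat_lit 563) (nat_lit 562) (nat_lit 527) (.d (nat_lit 531) (nat_lit 496) (nat_lit 3567) (nat_lit 564) (nat_lit 528)))) (.a (.f (nat_lit 497) (nat_lit 526) (nat_lit 2542) (.d (nat_lit 499) (nat_lit 500) (nat_lit 1520) (nat_lit 530) (nat_lit 2543))) (.a (.f (nat_lit 497) (nat_lit 526) (nat_lit 2542) (.d (nat_lit 499) (nat_lit 496) (nat_lit 1519) (nat_lit 500) (nat_lit 1520))) (.f (nat_lit 526) (nat_lit 497) (nat_lit 2542) (.f (nat_lit 557) (nat_lit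 558) (nat_lit 1549) (.f (nat_lit 525) (nat_lit 556) (nat_lit 1548) (.f (nat_lit 524) (nat_lit 496) (nat_lit 2540) (.d (nat_lit 492) (nat_lit 491) (nat_lit 3563) (nat_lit 493) (nat_lit 3564)))))))))) (.a (.p (nat_lit 530) (.a (.f (nat_lit 529) (nat_lit 499) (nat_lit 2543) (.f (nat_lit 562) (nat_lit 563) (nat_lit 527) (.f (nat_lit 497) (nat_lit 526) (nat_lit 2542) (.d (nat_lit 594) (nat_lit 465) (nat_lit 7633) (nat_lit 626) (nat_lit 7665))))) (.a (.p (nat_lit 466) (.a s121940 (.a s121946 (.a (.p (nat_lit 562) (.a (.f (nat_lit 563) (nat_lit 595) (nat_lit 4562) (.f (nat_lit 434) (nat_lit 531) (nat_lit 4530) (.d (nat_lit 435) (nat_lit 403) (nat_lit 6546) (nat_lit 467) (nat_lit 6578)))) (.a (.f (nat_lit 467) (nat_lit 435) (nat_lit 6578) (.f (nat_lit 594) (nat_lit 499) (nat_lit 6610) (.d (nat_lit 595) (nat_lit 563) (nat_lit 4562) (nat_lit 627) (nat_lit 4594)))) (.a (.f (nat_lit 435) (nat_lit 467) (nat_lit 6578) (.f (nat_lit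 434) (nat_lit 403) (nat_lit 6546) (.f (nat_lit 531) (nat_lit 563) (nat_lit 4530) (.f (nat_lit 401) (nat_lit 433) (nat_lit 7569) (.d (nat_lit 402) (nat_lit 369) (nat_lit 7537) (nat_lit 499) (nat_lit 4498)))))) (.a (.f (nat_lit 467) (nat_lit 435) (nat_lit 6578) (.f (nat_lit 465) (nat_lit 433) (nat_lit 7601) (.f (nat_lit 464) (nat_lit 432) (nat_lit 3503) (.f (nat_lit 500) (nat_lit 499) (nat_lit 464) (.f (nat_lit 468) (nat_lit 501) (nat_lit 465) (.f (nat_lit 437) (nat_lit 436) (nat_lit 2481) (.d (nat_lit 469) (nat_lit 438) (nat_lit 2482) (nat_lit 497) (nat_lit 1489)))))))) (.a (.f (nat_lit 563) (nat_lit 595) (nat_lit 4562) (.f (nat_lit 434) (nat_lit 531) (nat_lit 4530) (.f (nat_lit 403) (nat_lit 435) (nat_lit 6546) (.f (nat_lit 402) (nat_lit 371) (nat_lit 6514) (.d (nat_lit 401) (nat_lit 369) (nat_lit 7537) (nat_lit 433) (nat_lit 7569)))))) (.f (nat_lit 563) (nat_lit 595) (nat_lit 4562) (.f (nat_lit 434) (nat_lit 531) (nat_lit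 4530) (.f (nat_lit 401) (nat_lit 433) (nat_lit 7569) (.f (nat_lit 402) (nat_lit 369) (nat_lit 7537) (.f (nat_lit 403) (nat_lit 371) (nat_lit 6514) (.f (nat_lit 400) (nat_lit 432) (nat_lit 1423) (.f (nat_lit 399) (nat_lit 430) (nat_lit 1422) (.d (nat_lit 367) (nat_lit 366) (nat_lit 3438) (nat_lit 368) (nat_lit 3439))))))))))))))) (.a (.p (nat_lit 562) (.a (.f (nat_lit 467) (nat_lit 435) (nat_lit 6578) (.f (nat_lit 594) (nat_lit 499) (nat_lit 6610) (.d (nat_lit 595) (nat_lit 563) (nat_lit 4562) (nat_lit 627) (nat_lit 4594)))) (.a (.f (nat_lit 467) (nat_lit 435) (nat_lit 6578) (.f (nat_lit 465) (nat_lit 433) (nat_lit 7601) (.f (nat_lit 464) (nat_lit 432) (nat_lit 3503) (.f (nat_lit 500) (nat_lit 499) (nat_lit 464) (.f (nat_lit 468) (nat_lit 501) (nat_lit 465) (.f (nat_lit 437) (nat_lit 436) (nat_lit 2481) (.d (nat_lit 469) (nat_lit 438) (nat_lit 2482) (nat_lit 497) (nat_lit 1489)))))))) (.f (nat_lit 465) (nat_lit 433)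 (nat_lit 7601) (.f (nat_lit 594) (nat_lit 497) (nat_lit 7633) (.d (nat_lit 595) (nat_lit 563) (nat_lit 4562) (nat_lit 627) (nat_lit 4594))))))) (.a s121977 (.a s121996 (.a (.p (nat_lit 562) (.a (.f (nat_lit 563) (nat_lit 595) (nat_lit 4562) (.f (nat_lit 434) (nat_lit 531) (nat_lit 4530) (.d (nat_lit 435) (nat_lit 403) (nat_lit 6546) (nat_lit 467) (nat_lit 6578)))) (.a (.f (nat_lit 465) (nat_lit 433) (nat_lit 7601) (.f (nat_lit 594) (nat_lit 497) (nat_lit 7633) (.d (nat_lit 595) (nat_lit 563) (nat_lit 4562) (nat_lit 627) (nat_lit 4594)))) (.f (nat_lit 433) (nat_lit 465) (nat_lit 7601) (.f (nat_lit 434) (nat_lit 401) (nat_lit 7569) (.d (nat_lit 435) (nat_lit 403) (nat_lit 6546) (nat_lit 467) (nat_lit 6578))))))) (.a s122006 (.a (.p (nat_lit 562) (.a (.f (nat_lit 563) (nat_lit 595) (nat_lit 4562) (.f (nat_lit 434) (nat_lit 531) (nat_lit 4530) (.f (nat_lit 403) (nat_lit 435) (nat_lit 6546) (.f (nat_lit 402) (nat_lit 371)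 (nat_lit 6514) (.d (nat_lit 401) (nat_lit 369) (nat_lit 7537) (nat_lit 433) (nat_lit 7569)))))) (.a (.f (nat_lit 465) (nat_lit 433) (nat_lit 7601) (.f (nat_lit 594) (nat_lit 497) (nat_lit 7633) (.d (nat_lit 595) (nat_lit 563) (nat_lit 4562) (nat_lit 627) (nat_lit 4594)))) (.a (.f (nat_lit 563) (nat_lit 595) (nat_lit 4562) (.f (nat_lit 434) (nat_lit 531) (nat_lit 4530) (.f (nat_lit 403) (nat_lit 435) (nat_lit 6546) (.f (nat_lit 402) (nat_lit 371) (nat_lit 6514) (.f (nat_lit 401) (nat_lit 369) (nat_lit 7537) (.f (nat_lit 400) (nat_lit 432) (nat_lit 1423) (.f (nat_lit 399) (nat_lit 430) (nat_lit 1422) (.d (nat_lit 367) (nat_lit 366) (nat_lit 3438) (nat_lit 368) (nat_lit 3439))))))))) (.a (.f (nat_lit 465) (nat_lit 433) (nat_lit 7601) (.f (nat_lit 594) (nat_lit 497) (nat_lit 7633) (.f (nat_lit 625) (nat_lit 593) (nat_lit 5617) (.f (nat_lit 626) (nat_lit 657) (nat_lit 5649) (.f (nat_lit 531) (nat_lit 499) (nat_lit 6642)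 (.d (nat_lit 563) (nat_lit 434) (nat_lit 4530) (nat_lit 658) (nat_lit 6674))))))) (.f (nat_lit 465) (nat_lit 433) (nat_lit 7601) (.f (nat_lit 594) (nat_lit 497) (nat_lit 7633) (.f (nat_lit 625) (nat_lit 593) (nat_lit 5617) (.f (nat_lit 626) (nat_lit 657) (nat_lit 5649) (.d (nat_lit 627) (nat_lit 595) (nat_lit 4594) (nat_lit 659) (nat_lit 4626))))))))))) (.p (nat_lit 562) (.a (.f (nat_lit 563) (nat_lit 595) (nat_lit 4562) (.f (nat_lit 434) (nat_lit 531) (nat_lit 4530) (.f (nat_lit 401) (nat_lit 433) (nat_lit 7569) (.f (nat_lit 402) (nat_lit 369) (nat_lit 7537) (.f (nat_lit 403) (nat_lit 371) (nat_lit 6514) (.f (nat_lit 400) (nat_lit 432) (nat_lit 1423) (.f (nat_lit 399) (nat_lit 430) (nat_lit 1422) (.d (nat_lit 367) (nat_lit 366) (nat_lit 3438) (nat_lit 368) (nat_lit 3439))))))))) (.a (.f (nat_lit 595) (nat_lit 563) (nat_lit 4562) (.f (nat_lit 594) (nat_lit 627) (nat_lit 4594) (.f (nat_lit 499) (nat_lit 467) (nat_lit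 6610) (.f (nat_lit 625) (nat_lit 593) (nat_lit 5617) (.d (nat_lit 626) (nat_lit 531) (nat_lit 6642) (nat_lit 657) (nat_lit 5649)))))) (.a (.f (nat_lit 465) (nat_lit 433) (nat_lit 7601) (.f (nat_lit 594) (nat_lit 497) (nat_lit 7633) (.d (nat_lit 595) (nat_lit 563) (nat_lit 4562) (nat_lit 627) (nat_lit 4594)))) (.a (.f (nat_lit 465) (nat_lit 433) (nat_lit 7601) (.f (nat_lit 594) (nat_lit 497) (nat_lit 7633) (.f (nat_lit 625) (nat_lit 593) (nat_lit 5617) (.f (nat_lit 626) (nat_lit 657) (nat_lit 5649) (.f (nat_lit 531) (nat_lit 499) (nat_lit 6642) (.d (nat_lit 563) (nat_lit 434) (nat_lit 4530) (nat_lit 658) (nat_lit 6674))))))) (.f (nat_lit 465) (nat_lit 433) (nat_lit 7601) (.f (nat_lit 594) (nat_lit 497) (nat_lit 7633) (.f (nat_lit 625) (nat_lit 593) (nat_lit 5617) (.f (nat_lit 626) (nat_lit 657) (nat_lit 5649) (.d (nat_lit 627) (nat_lit 595) (nat_lit 4594) (nat_lit 659) (nat_lit 4626))))))))))))))))))))) (.a s122032 (.a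 (.p (nat_lit 433) (.a (.f (nat_lit 529) (nat_lit 499) (nat_lit 2543) (.f (nat_lit 497) (nat_lit 526) (nat_lit 2542) (.d (nat_lit 465) (nat_lit 401) (nat_lit 4497) (nat_lit 560) (nat_lit 5552)))) (.a (.f (nat_lit 529) (nat_lit 499) (nat_lit 2543) (.f (nat_lit 497) (nat_lit 526) (nat_lit 2542) (.f (nat_lit 465) (nat_lit 401) (nat_lit 4497) (.f (nat_lit 432) (nat_lit 400) (nat_lit 7568) (.f (nat_lit 434) (nat_lit 402) (nat_lit 6545) (.d (nat_lit 466) (nat_lit 430) (nat_lit 430) (nat_lit 467) (nat_lit 431))))))) (.a (.p (nat_lit 466) (.a (.f (nat_lit 434) (nat_lit 401) (nat_lit 7569) (.f (nat_lit 432) (nat_lit 467) (nat_lit 431) (.d (nat_lit 403) (nat_lit 402) (nat_lit 2447) (nat_lit 435) (nat_lit 6546)))) (.a (.f (nat_lit 434) (nat_lit 401) (nat_lit 7569) (.f (nat_lit 403) (nat_lit 435) (nat_lit 6546) (.f (nat_lit 402) (nat_lit 371) (nat_lit 6514) (.d (nat_lit 531) (nat_lit 499) (nat_lit 4498) (nat_lit 563) (nat_lit 4530)))))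 (.a (.p (nat_lit 465) (.a (.f (nat_lit 432) (nat_lit 430) (nat_lit 430) (.d (nat_lit 467) (nat_lit 464) (nat_lit 3503) (nat_lit 468) (nat_lit 3504))) (.d (nat_lit 401) (nat_lit 369) (nat_lit 4465) (nat_lit 497) (nat_lit 4497)))) (.p (nat_lit 432) (.a (.f (nat_lit 434) (nat_lit 467) (nat_lit 431) (.d (nat_lit 403) (nat_lit 402) (nat_lit 2447) (nat_lit 435) (nat_lit 6546))) (.f (nat_lit 430) (nat_lit 465) (nat_lit 430) (.f (nat_lit 397) (nat_lit 398) (nat_lit 3469) (.f (nat_lit 429) (nat_lit 396) (nat_lit 3468) (.d (nat_lit 461) (nat_lit 460) (nat_lit 1452) (nat_lit 462) (nat_lit 1453))))))))))) (.a (.p (nat_lit 434) (.a (.f (nat_lit 466) (nat_lit 401) (nat_lit 7569) (.f (nat_lit 432) (nat_lit 467) (nat_lit 431) (.d (nat_lit 403) (nat_lit 402) (nat_lit 2447) (nat_lit 435) (nat_lit 6546)))) (.a (.f (nat_lit 466) (nat_lit 401) (nat_lit 7569) (.f (nat_lit 403) (nat_lit 435) (nat_lit 6546) (.f (nat_lit 402) (nat_lit 371)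 (nat_lit 6514) (.d (nat_lit 531) (nat_lit 499) (nat_lit 4498) (nat_lit 563) (nat_lit 4530))))) (.a s122080 (.a (.p (nat_lit 466) (.a (.f (nat_lit 432) (nat_lit 467) (nat_lit 431) (.d (nat_lit 403) (nat_lit 402) (nat_lit 2447) (nat_lit 435) (nat_lit 6546))) (.a (.f (nat_lit 499) (nat_lit 529) (nat_lit 2543) (.d (nat_lit 531) (nat_lit 402) (nat_lit 4498) (nat_lit 563) (nat_lit 4530))) (.f (nat_lit 432) (nat_lit 467) (nat_lit 431) (.f (nat_lit 435) (nat_lit 403) (nat_lit 6546) (.d (nat_lit 399) (nat_lit 398) (nat_lit 3470) (nat_lit 400) (nat_lit 3471))))))) (.a (.f (nat_lit 466) (nat_lit 401) (nat_lit 7569) (.f (nat_lit 432) (nat_lit 467) (nat_lit 431) (.f (nat_lit 435) (nat_lit 403) (nat_lit 6546) (.d (nat_lit 399) (nat_lit 398) (nat_lit 3470) (nat_lit 400) (nat_lit 3471))))) (.a (.f (nat_lit 466) (nat_lit 401) (nat_lit 7569) (.f (nat_lit 432) (nat_lit 467) (nat_lit 431) (.f (nat_lit 402) (nat_lit 403) (nat_lit 2447)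 (.d (nat_lit 499) (nat_lit 529) (nat_lit 2543) (nat_lit 531) (nat_lit 4498))))) (.f (nat_lit 466) (nat_lit 401) (nat_lit 7569) (.f (nat_lit 432) (nat_lit 467) (nat_lit 431) (.f (nat_lit 430) (nat_lit 465) (nat_lit 430) (.d (nat_lit 398) (nat_lit 397) (nat_lit 3469) (nat_lit 399) (nat_lit 3470)))))))))))) (.a (.p (nat_lit 434) (.a (.f (nat_lit 466) (nat_lit 401) (nat_lit 7569) (.f (nat_lit 432) (nat_lit 467) (nat_lit 431) (.d (nat_lit 403) (nat_lit 402) (nat_lit 2447) (nat_lit 435) (nat_lit 6546)))) (.a (.f (nat_lit 466) (nat_lit 401) (nat_lit 7569) (.f (nat_lit 403) (nat_lit 435) (nat_lit 6546) (.f (nat_lit 402) (nat_lit 371) (nat_lit 6514) (.d (nat_lit 531) (nat_lit 499) (nat_lit 4498) (nat_lit 563) (nat_lit 4530))))) (.a s122080 (.a (.p (nat_lit 466) (.a (.f (nat_lit 432) (nat_lit 467) (nat_lit 431) (.d (nat_lit 403) (nat_lit 402) (nat_lit 2447) (nat_lit 435) (nat_lit 6546))) (.a (.f (nat_lit 499) (nat_lit 529) (nat_lit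 2543) (.d (nat_lit 531) (nat_lit 402) (nat_lit 4498) (nat_lit 563) (nat_lit 4530))) (.f (nat_lit 432) (nat_lit 467) (nat_lit 431) (.f (nat_lit 435) (nat_lit 403) (nat_lit 6546) (.d (nat_lit 399) (nat_lit 398) (nat_lit 3470) (nat_lit 400) (nat_lit 3471))))))) (.a (.f (nat_lit 466) (nat_lit 401) (nat_lit 7569) (.f (nat_lit 432) (nat_lit 467) (nat_lit 431) (.f (nat_lit 435) (nat_lit 403) (nat_lit 6546) (.d (nat_lit 399) (nat_lit 398) (nat_lit 3470) (nat_lit 400) (nat_lit 3471))))) (.a (.f (nat_lit 466) (nat_lit 401) (nat_lit 7569) (.f (nat_lit 432) (nat_lit 467) (nat_lit 431) (.f (nat_lit 402) (nat_lit 403) (nat_lit 2447) (.d (nat_lit 499) (nat_lit 529) (nat_lit 2543) (nat_lit 531) (nat_lit 4498))))) (.f (nat_lit 466) (nat_lit 401) (nat_lit 7569) (.f (nat_lit 529) (nat_lit 499) (nat_lit 2543) (.d (nat_lit 497) (nat_lit 402) (nat_lit 5521) (nat_lit 526) (nat_lit 2542))))))))))) (.a (.p (nat_lit 466) (.a (.f (nat_lit 434)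 (nat_lit 401) (nat_lit 7569) (.f (nat_lit 432) (nat_lit 467) (nat_lit 431) (.d (nat_lit 403) (nat_lit 402) (nat_lit 2447) (nat_lit 435) (nat_lit 6546)))) (.a (.f (nat_lit 401) (nat_lit 434) (nat_lit 7569) (.d (nat_lit 465) (nat_lit 369) (nat_lit 4465) (nat_lit 497) (nat_lit 4497))) (.a (.p (nat_lit 465) (.a (.f (nat_lit 432) (nat_lit 430) (nat_lit 430) (.d (nat_lit 467) (nat_lit 464) (nat_lit 3503) (nat_lit 468) (nat_lit 3504))) (.d (nat_lit 401) (nat_lit 369) (nat_lit 4465) (nat_lit 497) (nat_lit 4497)))) (.p (nat_lit 432) (.a (.f (nat_lit 434) (nat_lit 467) (nat_lit 431) (.d (nat_lit 403) (nat_lit 402) (nat_lit 2447) (nat_lit 435) (nat_lit 6546))) (.f (nat_lit 430) (nat_lit 465) (nat_lit 430) (.f (nat_lit 397) (nat_lit 398) (nat_lit 3469) (.f (nat_lit 429) (nat_lit 396) (nat_lit 3468) (.d (nat_lit 461) (nat_lit 460) (nat_lit 1452) (nat_lit 462) (nat_lit 1453))))))))))) (.f (nat_lit 529) (nat_lit 499) (nat_lit 2543)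 (.f (nat_lit 497) (nat_lit 526) (nat_lit 2542) (.f (nat_lit 465) (nat_lit 560) (nat_lit 5552) (.f (nat_lit 432) (nat_lit 400) (nat_lit 7568) (.f (nat_lit 434) (nat_lit 402) (nat_lit 6545) (.d (nat_lit 466) (nat_lit 430) (nat_lit 430) (nat_lit 467) (nat_lit 431)))))))))))))) (.a (.p (nat_lit 562) (.a (.f (nat_lit 563) (nat_lit 529) (nat_lit 527) (.f (nat_lit 466) (nat_lit 595) (nat_lit 4562) (.f (nat_lit 434) (nat_lit 531) (nat_lit 4530) (.d (nat_lit 435) (nat_lit 403) (nat_lit 6546) (nat_lit 467) (nat_lit 6578))))) (.a (.p (nat_lit 466) (.a (.f (nat_lit 563) (nat_lit 595) (nat_lit 4562) (.f (nat_lit 434) (nat_lit 531) (nat_lit 4530) (.d (nat_lit 435) (nat_lit 403) (nat_lit 6546) (nat_lit 467) (nat_lit 6578)))) (.a (.f (nat_lit 465) (nat_lit 433) (nat_lit 7601) (.f (nat_lit 594) (nat_lit 497) (nat_lit 7633) (.d (nat_lit 595) (nat_lit 563) (nat_lit 4562) (nat_lit 627) (nat_lit 4594)))) (.f (nat_lit 433) (nat_lit 465)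 (nat_lit 7601) (.f (nat_lit 434) (nat_lit 401) (nat_lit 7569) (.d (nat_lit 435) (nat_lit 403) (nat_lit 6546) (nat_lit 467) (nat_lit 6578))))))) (.a (.f (nat_lit 529) (nat_lit 563) (nat_lit 527) (.f (nat_lit 497) (nat_lit 526) (nat_lit 2542) (.d (nat_lit 594) (nat_lit 465) (nat_lit 7633) (nat_lit 626) (nat_lit 7665)))) (.p (nat_lit 466) (.a (.f (nat_lit 433) (nat_lit 465) (nat_lit 7601) (.f (nat_lit 434) (nat_lit 401) (nat_lit 7569) (.d (nat_lit 435) (nat_lit 403) (nat_lit 6546) (nat_lit 467) (nat_lit 6578)))) (.a (.p (nat_lit 434) (.a (.d (nat_lit 435) (nat_lit 403) (nat_lit 6546) (nat_lit 467) (nat_lit 6578)) (.a (.f (nat_lit 403) (nat_lit 435) (nat_lit 6546) (.f (nat_lit 402) (nat_lit 371) (nat_lit 6514) (.d (nat_lit 401) (nat_lit 369) (nat_lit 7537) (nat_lit 433) (nat_lit 7569)))) (.a (.f (nat_lit 401) (nat_lit 433) (nat_lit 7569) (.f (nat_lit 402) (nat_lit 369) (nat_lit 7537) (.f (nat_lit 403) (nat_lit 371) (nat_lit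 6514) (.f (nat_lit 400) (nat_lit 432) (nat_lit 1423) (.f (nat_lit 399) (nat_lit 430) (nat_lit 1422) (.d (nat_lit 367) (nat_lit 366) (nat_lit 3438) (nat_lit 368) (nat_lit 3439))))))) (.f (nat_lit 433) (nat_lit 401) (nat_lit 7569) (.d (nat_lit 467) (nat_lit 432) (nat_lit 431) (nat_lit 435) (nat_lit 6578))))))) (.a (.p (nat_lit 594) (.a (.f (nat_lit 625) (nat_lit 593) (nat_lit 5617) (.f (nat_lit 626) (nat_lit 657) (nat_lit 5649) (.d (nat_lit 627) (nat_lit 595) (nat_lit 4594) (nat_lit 659) (nat_lit 4626)))) (.a (.f (nat_lit 497) (nat_lit 465) (nat_lit 7633) (.d (nat_lit 529) (nat_lit 526) (nat_lit 2542) (nat_lit 626) (nat_lit 7665))) (.f (nat_lit 497) (nat_lit 465) (nat_lit 7633) (.f (nat_lit 529) (nat_lit 526) (nat_lit 2542) (.f (nat_lit 434) (nat_lit 402) (nat_lit 5521) (.d (nat_lit 435) (nat_lit 403) (nat_lit 6546) (nat_lit 467) (nat_lit 6578)))))))) (.f (nat_lit 465) (nat_lit 433) (nat_lit 7601) (.f (nat_lit 594) (nat_lit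 497) (nat_lit 7633) (.f (nat_lit 625) (nat_lit 593) (nat_lit 5617) (.f (nat_lit 626) (nat_lit 657) (nat_lit 5649) (.d (nat_lit 627) (nat_lit 595) (nat_lit 4594) (nat_lit 659) (nat_lit 4626)))))))))))))) (.p (nat_lit 466) (.a s122006 (.a s122140 (.a (.f (nat_lit 529) (nat_lit 499) (nat_lit 2543) (.f (nat_lit 497) (nat_lit 526) (nat_lit 2542) (.f (nat_lit 434) (nat_lit 402) (nat_lit 5521) (.f (nat_lit 433) (nat_lit 401) (nat_lit 7569) (.f (nat_lit 467) (nat_lit 432) (nat_lit 431) (.d (nat_lit 435) (nat_lit 403) (nat_lit 6546) (nat_lit 562) (nat_lit 6578))))))) (.a (.f (nat_lit 529) (nat_lit 499) (nat_lit 2543) (.f (nat_lit 497) (nat_lit 526) (nat_lit 2542) (.f (nat_lit 434) (nat_lit 402) (nat_lit 5521) (.f (nat_lit 435) (nat_lit 403) (nat_lit 6546) (.f (nat_lit 562) (nat_lit 467) (nat_lit 6578) (.d (nat_lit 594) (nat_lit 465) (nat_lit 7633) (nat_lit 626) (nat_lit 7665))))))) (.a (.f (nat_lit 529) (nat_lit 499) (nat_lit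 2543) (.f (nat_lit 497) (nat_lit 526) (nat_lit 2542) (.f (nat_lit 434) (nat_lit 402) (nat_lit 5521) (.f (nat_lit 433) (nat_lit 401) (nat_lit 7569) (.f (nat_lit 435) (nat_lit 403) (nat_lit 6546) (.f (nat_lit 465) (nat_lit 560) (nat_lit 5552) (.d (nat_lit 436) (nat_lit 437) (nat_lit 1457) (nat_lit 464) (nat_lit 1456)))))))) (.a (.p (nat_lit 562) (.a (.f (nat_lit 467) (nat_lit 435) (nat_lit 6578) (.f (nat_lit 594) (nat_lit 499) (nat_lit 6610) (.f (nat_lit 625) (nat_lit 593) (nat_lit 5617) (.f (nat_lit 626) (nat_lit 657) (nat_lit 5649) (.d (nat_lit 627) (nat_lit 595) (nat_lit 4594) (nat_lit 659) (nat_lit 4626)))))) (.a (.f (nat_lit 467) (nat_lit 435) (nat_lit 6578) (.f (nat_lit 465) (nat_lit 433) (nat_lit 7601) (.f (nat_lit 464) (nat_lit 432) (nat_lit 3503) (.f (nat_lit 500) (nat_lit 499) (nat_lit 464) (.f (nat_lit 468) (nat_lit 501) (nat_lit 465) (.f (nat_lit 437) (nat_lit 436) (nat_lit 2481) (.d (nat_lit 469) (nat_lit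 438) (nat_lit 2482) (nat_lit 497) (nat_lit 1489)))))))) (.f (nat_lit 465) (nat_lit 433) (nat_lit 7601) (.f (nat_lit 594) (nat_lit 497) (nat_lit 7633) (.f (nat_lit 625) (nat_lit 593) (nat_lit 5617) (.f (nat_lit 626) (nat_lit 657) (nat_lit 5649) (.d (nat_lit 627) (nat_lit 595) (nat_lit 4594) (nat_lit 659) (nat_lit 4626))))))))) (.a (.p (nat_lit 433) (.a (.f (nat_lit 434) (nat_lit 401) (nat_lit 7569) (.f (nat_lit 432) (nat_lit 467) (nat_lit 431) (.d (nat_lit 403) (nat_lit 402) (nat_lit 2447) (nat_lit 435) (nat_lit 6546)))) (.a (.f (nat_lit 465) (nat_lit 562) (nat_lit 7601) (.d (nat_lit 401) (nat_lit 369) (nat_lit 4465) (nat_lit 497) (nat_lit 4497))) (.f (nat_lit 465) (nat_lit 562) (nat_lit 7601) (.f (nat_lit 432) (nat_lit 430) (nat_lit 430) (.d (nat_lit 467) (nat_lit 464) (nat_lit 3503) (nat_lit 468) (nat_lit 3504))))))) (.f (nat_lit 529) (nat_lit 499) (nat_lit 2543) (.f (nat_lit 497) (nat_lit 526) (nat_lit 2542) (.f (nat_lit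 434) (nat_lit 402) (nat_lit 5521) (.f (nat_lit 433) (nat_lit 401) (nat_lit 7569) (.d (nat_lit 465) (nat_lit 560) (nat_lit 5552) (nat_lit 562) (nat_lit 4529)))))))))))))))))))) (.a (.p (nat_lit 432) (.a (.p (nat_lit 496) (.a (.d (nat_lit 464) (nat_lit 399) (nat_lit 7567) (nat_lit 400) (nat_lit 5519)) (.d (nat_lit 497) (nat_lit 499) (nat_lit 1519) (nat_lit 526) (nat_lit 1518)))) (.a (.p (nat_lit 433) (.a s122195 (.a s122199 (.a (.p (nat_lit 434) (.a (.f (nat_lit 466) (nat_lit 467) (nat_lit 431) (.f (nat_lit 401) (nat_lit 530) (nat_lit 7569) (.d (nat_lit 402) (nat_lit 369) (nat_lit 7537) (nat_lit 403) (nat_lit 2447)))) (.a (.f (nat_lit 399) (nat_lit 398) (nat_lit 3470) (.f (nat_lit 435) (nat_lit 400) (nat_lit 3471) (.d (nat_lit 403) (nat_lit 402) (nat_lit 2447) (nat_lit 404) (nat_lit 2448)))) (.f (nat_lit 399) (nat_lit 398) (nat_lit 3470) (.f (nat_lit 435) (nat_lit 400) (nat_lit 3471) (.d (nat_lit 467) (nat_lit 466) (nat_lit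 431) (nat_lit 468) (nat_lit 432))))))) (.a s122230 (.a s122247 (.a s122254 (.a s122263 (.a s122276 s122277))))))))) (.a (.p (nat_lit 433) (.a s122286 (.a s122195 (.a s122199 (.a s122293 (.a s122310 (.a s122328 (.a s122277 (.a s122254 (.a s122263 (.a (.p (nat_lit 434) (.a (.f (nat_lit 466) (nat_lit 467) (nat_lit 431) (.f (nat_lit 401) (nat_lit 530) (nat_lit 7569) (.d (nat_lit 402) (nat_lit 369) (nat_lit 7537) (nat_lit 403) (nat_lit 2447)))) (.a (.f (nat_lit 399) (nat_lit 398) (nat_lit 3470) (.f (nat_lit 435) (nat_lit 400) (nat_lit 3471) (.d (nat_lit 403) (nat_lit 402) (nat_lit 2447) (nat_lit 404) (nat_lit 2448)))) (.f (nat_lit 399) (nat_lit 398) (nat_lit 3470) (.f (nat_lit 435) (nat_lit 400) (nat_lit 3471) (.d (nat_lit 467) (nat_lit 466) (nat_lit 431) (nat_lit 468) (nat_lit 432))))))) s122276))))))))))) (.a (.p (nat_lit 433) (.a s122199 (.a (.p (nat_lit 434) (.a (.f (nat_lit 466) (nat_lit 467) (nat_lit 431) (.f (nat_lit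 401) (nat_lit 530) (nat_lit 7569) (.d (nat_lit 402) (nat_lit 369) (nat_lit 7537) (nat_lit 403) (nat_lit 2447)))) (.a (.f (nat_lit 399) (nat_lit 398) (nat_lit 3470) (.f (nat_lit 435) (nat_lit 400) (nat_lit 3471) (.d (nat_lit 403) (nat_lit 402) (nat_lit 2447) (nat_lit 404) (nat_lit 2448)))) (.f (nat_lit 399) (nat_lit 398) (nat_lit 3470) (.f (nat_lit 435) (nat_lit 400) (nat_lit 3471) (.d (nat_lit 467) (nat_lit 466) (nat_lit 431) (nat_lit 468) (nat_lit 432))))))) (.a (.p (nat_lit 434) (.a (.f (nat_lit 399) (nat_lit 398) (nat_lit 3470) (.f (nat_lit 435) (nat_lit 400) (nat_lit 3471) (.d (nat_lit 403) (nat_lit 402) (nat_lit 2447) (nat_lit 404) (nat_lit 2448)))) (.a (.f (nat_lit 402) (nat_lit 403) (nat_lit 2447) (.f (nat_lit 430) (nat_lit 401) (nat_lit 2446) (.f (nat_lit 461) (nat_lit 462) (nat_lit 1453) (.f (nat_lit 429) (nat_lit 460) (nat_lit 1452) (.d (nat_lit 397) (nat_lit 396) (nat_lit 3468) (nat_lit 398) (nat_lit 3469))))))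 (.a (.f (nat_lit 399) (nat_lit 398) (nat_lit 3470) (.f (nat_lit 435) (nat_lit 400) (nat_lit 3471) (.f (nat_lit 404) (nat_lit 403) (nat_lit 2448) (.f (nat_lit 436) (nat_lit 405) (nat_lit 2449) (.d (nat_lit 468) (nat_lit 467) (nat_lit 432) (nat_lit 469) (nat_lit 433)))))) (.a (.f (nat_lit 403) (nat_lit 402) (nat_lit 2447) (.f (nat_lit 435) (nat_lit 404) (nat_lit 2448) (.f (nat_lit 467) (nat_lit 468) (nat_lit 432) (.f (nat_lit 400) (nat_lit 399) (nat_lit 3471) (.f (nat_lit 401) (nat_lit 436) (nat_lit 3472) (.f (nat_lit 530) (nat_lit 499) (nat_lit 5522) (.f (nat_lit 497) (nat_lit 465) (nat_lit 4497) (.d (nat_lit 496) (nat_lit 526) (nat_lit 1518) (nat_lit 531) (nat_lit 495))))))))) (.f (nat_lit 398) (nat_lit 399) (nat_lit 3470) (.f (nat_lit 430) (nat_lit 397) (nat_lit 3469) (.f (nat_lit 461) (nat_lit 462) (nat_lit 1453) (.f (nat_lit 429) (nat_lit 460) (nat_lit 1452) (.d (nat_lit 401) (nat_lit 400) (nat_lit 2445) (nat_lit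 402) (nat_lit 2446))))))))))) (.a (.p (nat_lit 430) (.a (.f (nat_lit 401) (nat_lit 402) (nat_lit 2446) (.f (nat_lit 429) (nat_lit 400) (nat_lit 2445) (.d (nat_lit 461) (nat_lit 460) (nat_lit 1452) (nat_lit 462) (nat_lit 1453)))) (.a (.f (nat_lit 401) (nat_lit 402) (nat_lit 2446) (.f (nat_lit 465) (nat_lit 466) (nat_lit 430) (.d (nat_lit 497) (nat_lit 496) (nat_lit 5520) (nat_lit 530) (nat_lit 4497)))) (.f (nat_lit 397) (nat_lit 398) (nat_lit 3469) (.f (nat_lit 429) (nat_lit 396) (nat_lit 3468) (.d (nat_lit 461) (nat_lit 460) (nat_lit 1452) (nat_lit 462) (nat_lit 1453))))))) (.a (.p (nat_lit 466) (.a (.f (nat_lit 434) (nat_lit 467) (nat_lit 431) (.f (nat_lit 402) (nat_lit 403) (nat_lit 2447) (.d (nat_lit 430) (nat_lit 401) (nat_lit 2446) (nat_lit 465) (nat_lit 430)))) (.a (.f (nat_lit 434) (nat_lit 467) (nat_lit 431) (.f (nat_lit 402) (nat_lit 403) (nat_lit 2447) (.d (nat_lit 401) (nat_lit 369) (nat_lit 7537) (nat_lit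 430) (nat_lit 2446)))) (.a (.f (nat_lit 465) (nat_lit 430) (nat_lit 430) (.f (nat_lit 401) (nat_lit 369) (nat_lit 4465) (.d (nat_lit 530) (nat_lit 497) (nat_lit 4497) (nat_lit 562) (nat_lit 7601)))) (.a (.f (nat_lit 434) (nat_lit 467) (nat_lit 431) (.f (nat_lit 430) (nat_lit 465) (nat_lit 430) (.d (nat_lit 398) (nat_lit 397) (nat_lit 3469) (nat_lit 399) (nat_lit 3470)))) (.f (nat_lit 434) (nat_lit 467) (nat_lit 431) (.f (nat_lit 403) (nat_lit 402) (nat_lit 2447) (.d (nat_lit 435) (nat_lit 404) (nat_lit 2448) (nat_lit 530) (nat_lit 6546))))))))) (.a (.p (nat_lit 466) (.a (.f (nat_lit 434) (nat_lit 467) (nat_lit 431) (.f (nat_lit 430) (nat_lit 465) (nat_lit 430) (.d (nat_lit 398) (nat_lit 397) (nat_lit 3469) (nat_lit 399) (nat_lit 3470)))) (.a (.f (nat_lit 434) (nat_lit 467) (nat_lit 431) (.f (nat_lit 403) (nat_lit 402) (nat_lit 2447) (.d (nat_lit 435) (nat_lit 404) (nat_lit 2448) (nat_lit 530) (nat_lit 6546)))) (.f (nat_lit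 430) (nat_lit 465) (nat_lit 430) (.f (nat_lit 397) (nat_lit 398) (nat_lit 3469) (.f (nat_lit 429) (nat_lit 396) (nat_lit 3468) (.d (nat_lit 461) (nat_lit 460) (nat_lit 1452) (nat_lit 462) (nat_lit 1453)))))))) (.a (.p (nat_lit 466) (.a (.f (nat_lit 434) (nat_lit 467) (nat_lit 431) (.f (nat_lit 430) (nat_lit 465) (nat_lit 430) (.d (nat_lit 398) (nat_lit 397) (nat_lit 3469) (nat_lit 399) (nat_lit 3470)))) (.a (.f (nat_lit 434) (nat_lit 467) (nat_lit 431) (.f (nat_lit 401) (nat_lit 530) (nat_lit 7569) (.f (nat_lit 398) (nat_lit 399) (nat_lit 3470) (.f (nat_lit 430) (nat_lit 397) (nat_lit 3469) (.f (nat_lit 461) (nat_lit 462) (nat_lit 1453) (.d (nat_lit 429) (nat_lit 400) (nat_lit 2445) (nat_lit 460) (nat_lit 1452))))))) (.a (.f (nat_lit 465) (nat_lit 430) (nat_lit 430) (.f (nat_lit 401) (nat_lit 369) (nat_lit 4465) (.d (nat_lit 530) (nat_lit 497) (nat_lit 4497) (nat_lit 562) (nat_lit 7601)))) (.f (nat_lit 434) (nat_lit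 467) (nat_lit 431) (.f (nat_lit 530) (nat_lit 401) (nat_lit 7569) (.f (nat_lit 435) (nat_lit 403) (nat_lit 6546) (.d (nat_lit 399) (nat_lit 398) (nat_lit 3470) (nat_lit 400) (nat_lit 3471))))))))) (.p (nat_lit 466) (.a (.f (nat_lit 434) (nat_lit 467) (nat_lit 431) (.f (nat_lit 402) (nat_lit 403) (nat_lit 2447) (.d (nat_lit 430) (nat_lit 401) (nat_lit 2446) (nat_lit 465) (nat_lit 430)))) (.a (.f (nat_lit 434) (nat_lit 467) (nat_lit 431) (.f (nat_lit 402) (nat_lit 403) (nat_lit 2447) (.d (nat_lit 401) (nat_lit 369) (nat_lit 7537) (nat_lit 430) (nat_lit 2446)))) (.a (.f (nat_lit 430) (nat_lit 465) (nat_lit 430) (.f (nat_lit 401) (nat_lit 402) (nat_lit 2446) (.f (nat_lit 429) (nat_lit 400) (nat_lit 2445) (.d (nat_lit 461) (nat_lit 460) (nat_lit 1452) (nat_lit 462) (nat_lit 1453))))) (.a (.f (nat_lit 434) (nat_lit 467) (nat_lit 431) (.f (nat_lit 403) (nat_lit 402) (nat_lit 2447) (.d (nat_lit 435) (nat_lit 404) (nat_lit 2448)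 (nat_lit 530) (nat_lit 6546)))) (.f (nat_lit 465) (nat_lit 430) (nat_lit 430) (.f (nat_lit 401) (nat_lit 369) (nat_lit 4465) (.d (nat_lit 530) (nat_lit 497) (nat_lit 4497) (nat_lit 562) (nat_lit 7601))))))))))))))))) (.a (.p (nat_lit 496) (.a (.d (nat_lit 497) (nat_lit 499) (nat_lit 1519) (nat_lit 526) (nat_lit 1518)) (.f (nat_lit 464) (nat_lit 400) (nat_lit 5519) (.f (nat_lit 433) (nat_lit 401) (nat_lit 6544) (.f (nat_lit 465) (nat_lit 560) (nat_lit 6576) (.d (nat_lit 430) (nat_lit 429) (nat_lit 429) (nat_lit 466) (nat_lit 430))))))) (.p (nat_lit 496) (.a (.d (nat_lit 497) (nat_lit 499) (nat_lit 1519) (nat_lit 526) (nat_lit 1518)) (.f (nat_lit 464) (nat_lit 399) (nat_lit 7567) (.f (nat_lit 433) (nat_lit 401) (nat_lit 6544) (.f (nat_lit 465) (nat_lit 560) (nat_lit 6576) (.d (nat_lit 430) (nat_lit 429) (nat_lit 429) (nat_lit 466) (nat_lit 430))))))))))))) (.a (.p (nat_lit 530) (.a (.f (nat_lit 529) (nat_lit 499) (nat_lit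 2543) (.f (nat_lit 563) (nat_lit 562) (nat_lit 527) (.d (nat_lit 531) (nat_lit 496) (nat_lit 3567) (nat_lit 564) (nat_lit 528)))) (.a s122032 (.a (.p (nat_lit 466) (.a s121940 (.a s121946 (.a s121996 (.a (.p (nat_lit 562) (.a (.f (nat_lit 467) (nat_lit 435) (nat_lit 6578) (.f (nat_lit 594) (nat_lit 499) (nat_lit 6610) (.d (nat_lit 595) (nat_lit 563) (nat_lit 4562) (nat_lit 627) (nat_lit 4594)))) (.a (.f (nat_lit 433) (nat_lit 465) (nat_lit 7601) (.f (nat_lit 434) (nat_lit 401) (nat_lit 7569) (.d (nat_lit 435) (nat_lit 403) (nat_lit 6546) (nat_lit 467) (nat_lit 6578)))) (.a (.f (nat_lit 433) (nat_lit 465) (nat_lit 7601) (.f (nat_lit 434) (nat_lit 401) (nat_lit 7569) (.f (nat_lit 403) (nat_lit 435) (nat_lit 6546) (.d (nat_lit 402) (nat_lit 371) (nat_lit 6514) (nat_lit 432) (nat_lit 2447))))) (.f (nat_lit 433) (nat_lit 465) (nat_lit 7601) (.f (nat_lit 434) (nat_lit 401) (nat_lit 7569) (.f (nat_lit 467) (nat_lit 432) (nat_lit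 431) (.f (nat_lit 594) (nat_lit 499) (nat_lit 6610) (.d (nat_lit 595) (nat_lit 563) (nat_lit 4562) (nat_lit 627) (nat_lit 4594)))))))))) (.a s121977 (.a (.p (nat_lit 562) (.a (.f (nat_lit 467) (nat_lit 435) (nat_lit 6578) (.f (nat_lit 594) (nat_lit 499) (nat_lit 6610) (.d (nat_lit 595) (nat_lit 563) (nat_lit 4562) (nat_lit 627) (nat_lit 4594)))) (.a (.f (nat_lit 467) (nat_lit 435) (nat_lit 6578) (.f (nat_lit 465) (nat_lit 433) (nat_lit 7601) (.d (nat_lit 464) (nat_lit 432) (nat_lit 3503) (nat_lit 496) (nat_lit 1487)))) (.p (nat_lit 594) (.a (.f (nat_lit 625) (nat_lit 593) (nat_lit 5617) (.f (nat_lit 626) (nat_lit 657) (nat_lit 5649) (.d (nat_lit 627) (nat_lit 595) (nat_lit 4594) (nat_lit 659) (nat_lit 4626)))) (.a (.d (nat_lit 595) (nat_lit 563) (nat_lit 4562) (nat_lit 627) (nat_lit 4594)) (.a (.f (nat_lit 625) (nat_lit 593) (nat_lit 5617) (.f (nat_lit 626) (nat_lit 657) (nat_lit 5649) (.f (nat_lit 659) (nat_lit 627)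 (nat_lit 4626) (.f (nat_lit 658) (nat_lit 691) (nat_lit 4658) (.d (nat_lit 531) (nat_lit 499) (nat_lit 6642) (nat_lit 563) (nat_lit 6674)))))) (.f (nat_lit 625) (nat_lit 593) (nat_lit 5617) (.f (nat_lit 626) (nat_lit 657) (nat_lit 5649) (.f (nat_lit 563) (nat_lit 595) (nat_lit 4562) (.d (nat_lit 531) (nat_lit 499) (nat_lit 6642) (nat_lit 658) (nat_lit 6674)))))))))))) (.a s122391 (.a s122399 (.a (.p (nat_lit 434) (.a (.f (nat_lit 531) (nat_lit 563) (nat_lit 4530) (.f (nat_lit 402) (nat_lit 499) (nat_lit 4498) (.d (nat_lit 403) (nat_lit 371) (nat_lit 6514) (nat_lit 435) (nat_lit 6546)))) (.a (.f (nat_lit 403) (nat_lit 435) (nat_lit 6546) (.f (nat_lit 402) (nat_lit 371) (nat_lit 6514) (.f (nat_lit 401) (nat_lit 369) (nat_lit 7537) (.f (nat_lit 400) (nat_lit 432) (nat_lit 1423) (.f (nat_lit 399) (nat_lit 430) (nat_lit 1422) (.d (nat_lit 367) (nat_lit 366) (nat_lit 3438) (nat_lit 368) (nat_lit 3439))))))) (.a (.f (nat_lit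 433) (nat_lit 401) (nat_lit 7569) (.f (nat_lit 435) (nat_lit 403) (nat_lit 6546) (.f (nat_lit 465) (nat_lit 562) (nat_lit 7601) (.d (nat_lit 436) (nat_lit 437) (nat_lit 1457) (nat_lit 464) (nat_lit 1456))))) (.a (.f (nat_lit 531) (nat_lit 563) (nat_lit 4530) (.f (nat_lit 402) (nat_lit 499) (nat_lit 4498) (.f (nat_lit 371) (nat_lit 403) (nat_lit 6514) (.f (nat_lit 370) (nat_lit 339) (nat_lit 6482) (.d (nat_lit 369) (nat_lit 337) (nat_lit 7505) (nat_lit 401) (nat_lit 7537)))))) (.f (nat_lit 531) (nat_lit 563) (nat_lit 4530) (.f (nat_lit 402) (nat_lit 499) (nat_lit 4498) (.d (nat_lit 401) (nat_lit 369) (nat_lit 7537) (nat_lit 433) (nat_lit 7569))))))))) (.p (nat_lit 562) (.a (.f (nat_lit 563) (nat_lit 595) (nat_lit 4562) (.f (nat_lit 434) (nat_lit 531) (nat_lit 4530) (.f (nat_lit 401) (nat_lit 433) (nat_lit 7569) (.f (nat_lit 402) (nat_lit 369) (nat_lit 7537) (.f (nat_lit 403) (nat_lit 371) (nat_lit 6514) (.f (nat_lit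 400) (nat_lit 432) (nat_lit 1423) (.f (nat_lit 399) (nat_lit 430) (nat_lit 1422) (.d (nat_lit 367) (nat_lit 366) (nat_lit 3438) (nat_lit 368) (nat_lit 3439))))))))) (.a (.f (nat_lit 595) (nat_lit 563) (nat_lit 4562) (.f (nat_lit 594) (nat_lit 627) (nat_lit 4594) (.f (nat_lit 499) (nat_lit 467) (nat_lit 6610) (.f (nat_lit 625) (nat_lit 593) (nat_lit 5617) (.d (nat_lit 626) (nat_lit 531) (nat_lit 6642) (nat_lit 657) (nat_lit 5649)))))) (.a (.f (nat_lit 433) (nat_lit 465) (nat_lit 7601) (.f (nat_lit 434) (nat_lit 401) (nat_lit 7569) (.f (nat_lit 467) (nat_lit 432) (nat_lit 431) (.f (nat_lit 594) (nat_lit 499) (nat_lit 6610) (.d (nat_lit 595) (nat_lit 563) (nat_lit 4562) (nat_lit 627) (nat_lit 4594)))))) (.a (.f (nat_lit 433) (nat_lit 465) (nat_lit 7601) (.f (nat_lit 434) (nat_lit 401) (nat_lit 7569) (.f (nat_lit 432) (nat_lit 467) (nat_lit 431) (.f (nat_lit 402) (nat_lit 403) (nat_lit 2447) (.d (nat_lit 531) (nat_lit 499)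 (nat_lit 4498) (nat_lit 563) (nat_lit 4530)))))) (.f (nat_lit 433) (nat_lit 465) (nat_lit 7601) (.f (nat_lit 434) (nat_lit 401) (nat_lit 7569) (.f (nat_lit 467) (nat_lit 432) (nat_lit 431) (.f (nat_lit 594) (nat_lit 499) (nat_lit 6610) (.f (nat_lit 627) (nat_lit 595) (nat_lit 4594) (.f (nat_lit 626) (nat_lit 659) (nat_lit 4626) (.d (nat_lit 625) (nat_lit 593) (nat_lit 5617) (nat_lit 657) (nat_lit 5649))))))))))))))))))))))) (.a (.p (nat_lit 562) (.a (.d (nat_lit 529) (nat_lit 499) (nat_lit 2543) (nat_lit 563) (nat_lit 527)) (.a (.p (nat_lit 594) (.a (.f (nat_lit 595) (nat_lit 627) (nat_lit 4594) (.f (nat_lit 593) (nat_lit 625) (nat_lit 5617) (.f (nat_lit 563) (nat_lit 466) (nat_lit 4562) (.d (nat_lit 592) (nat_lit 564) (nat_lit 2608) (nat_lit 591) (nat_lit 2607))))) (.a (.f (nat_lit 595) (nat_lit 627) (nat_lit 4594) (.f (nat_lit 466) (nat_lit 563) (nat_lit 4562) (.d (nat_lit 467) (nat_lit 435) (nat_lit 6578) (nat_lit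 499) (nat_lit 6610)))) (.a (.f (nat_lit 627) (nat_lit 595) (nat_lit 4594) (.f (nat_lit 626) (nat_lit 659) (nat_lit 4626) (.d (nat_lit 625) (nat_lit 593) (nat_lit 5617) (nat_lit 657) (nat_lit 5649)))) (.f (nat_lit 467) (nat_lit 499) (nat_lit 6610) (.f (nat_lit 466) (nat_lit 435) (nat_lit 6578) (.f (nat_lit 465) (nat_lit 433) (nat_lit 7601) (.d (nat_lit 464) (nat_lit 432) (nat_lit 3503) (nat_lit 496) (nat_lit 1487))))))))) (.a (.f (nat_lit 563) (nat_lit 529) (nat_lit 527) (.f (nat_lit 466) (nat_lit 595) (nat_lit 4562) (.f (nat_lit 433) (nat_lit 465) (nat_lit 7601) (.f (nat_lit 434) (nat_lit 401) (nat_lit 7569) (.d (nat_lit 435) (nat_lit 403) (nat_lit 6546) (nat_lit 467) (nat_lit 6578)))))) (.f (nat_lit 499) (nat_lit 529) (nat_lit 2543) (.f (nat_lit 594) (nat_lit 467) (nat_lit 6610) (.f (nat_lit 627) (nat_lit 595) (nat_lit 4594) (.f (nat_lit 626) (nat_lit 659) (nat_lit 4626) (.d (nat_lit 625) (nat_lit 593) (nat_lit 5617)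 (nat_lit 657) (nat_lit 5649)))))))))) (.a (.p (nat_lit 434) (.a (.f (nat_lit 529) (nat_lit 499) (nat_lit 2543) (.f (nat_lit 531) (nat_lit 496) (nat_lit 3567) (.d (nat_lit 563) (nat_lit 466) (nat_lit 4530) (nat_lit 564) (nat_lit 528)))) (.a (.p (nat_lit 466) (.a (.f (nat_lit 531) (nat_lit 563) (nat_lit 4530) (.f (nat_lit 402) (nat_lit 499) (nat_lit 4498) (.d (nat_lit 403) (nat_lit 371) (nat_lit 6514) (nat_lit 435) (nat_lit 6546)))) (.a (.f (nat_lit 433) (nat_lit 401) (nat_lit 7569) (.f (nat_lit 432) (nat_lit 467) (nat_lit 431) (.d (nat_lit 403) (nat_lit 402) (nat_lit 2447) (nat_lit 435) (nat_lit 6546)))) (.a (.f (nat_lit 433) (nat_lit 401) (nat_lit 7569) (.f (nat_lit 432) (nat_lit 467) (nat_lit 431) (.f (nat_lit 435) (nat_lit 403) (nat_lit 6546) (.d (nat_lit 399) (nat_lit 398) (nat_lit 3470) (nat_lit 400) (nat_lit 3471))))) (.a (.f (nat_lit 531) (nat_lit 563) (nat_lit 4530) (.f (nat_lit 402) (nat_lit 499) (nat_lit 4498)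 (.f (nat_lit 371) (nat_lit 403) (nat_lit 6514) (.f (nat_lit 370) (nat_lit 339) (nat_lit 6482) (.d (nat_lit 369) (nat_lit 337) (nat_lit 7505) (nat_lit 401) (nat_lit 7537)))))) (.f (nat_lit 531) (nat_lit 563) (nat_lit 4530) (.f (nat_lit 402) (nat_lit 499) (nat_lit 4498) (.d (nat_lit 401) (nat_lit 369) (nat_lit 7537) (nat_lit 433) (nat_lit 7569))))))))) (.a (.p (nat_lit 466) (.a (.f (nat_lit 433) (nat_lit 401) (nat_lit 7569) (.f (nat_lit 432) (nat_lit 467) (nat_lit 431) (.d (nat_lit 403) (nat_lit 402) (nat_lit 2447) (nat_lit 435) (nat_lit 6546)))) (.a (.f (nat_lit 403) (nat_lit 435) (nat_lit 6546) (.f (nat_lit 402) (nat_lit 371) (nat_lit 6514) (.d (nat_lit 401) (nat_lit 369) (nat_lit 7537) (nat_lit 433) (nat_lit 7569)))) (.a (.f (nat_lit 403) (nat_lit 435) (nat_lit 6546) (.f (nat_lit 402) (nat_lit 371) (nat_lit 6514) (.f (nat_lit 401) (nat_lit 369) (nat_lit 7537) (.f (nat_lit 400) (nat_lit 432) (nat_lit 1423) (.f (nat_lit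 399) (nat_lit 430) (nat_lit 1422) (.d (nat_lit 367) (nat_lit 366) (nat_lit 3438) (nat_lit 368) (nat_lit 3439))))))) (.a (.f (nat_lit 403) (nat_lit 435) (nat_lit 6546) (.f (nat_lit 402) (nat_lit 371) (nat_lit 6514) (.f (nat_lit 433) (nat_lit 432) (nat_lit 2447) (.f (nat_lit 499) (nat_lit 529) (nat_lit 2543) (.f (nat_lit 370) (nat_lit 467) (nat_lit 4466) (.f (nat_lit 338) (nat_lit 465) (nat_lit 5457) (.d (nat_lit 337) (nat_lit 305) (nat_lit 7473) (nat_lit 369) (nat_lit 7505)))))))) (.a (.f (nat_lit 433) (nat_lit 401) (nat_lit 7569) (.f (nat_lit 432) (nat_lit 467) (nat_lit 431) (.f (nat_lit 435) (nat_lit 403) (nat_lit 6546) (.d (nat_lit 399) (nat_lit 398) (nat_lit 3470) (nat_lit 400) (nat_lit 3471))))) (.f (nat_lit 433) (nat_lit 401) (nat_lit 7569) (.f (nat_lit 432) (nat_lit 467) (nat_lit 431) (.f (nat_lit 430) (nat_lit 465) (nat_lit 430) (.d (nat_lit 398) (nat_lit 397) (nat_lit 3469) (nat_lit 399) (nat_lit 3470)))))))))))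 (.a (.p (nat_lit 432) (.a (.f (nat_lit 529) (nat_lit 499) (nat_lit 2543) (.f (nat_lit 496) (nat_lit 531) (nat_lit 3567) (.d (nat_lit 464) (nat_lit 399) (nat_lit 7567) (nat_lit 400) (nat_lit 5519)))) (.a (.p (nat_lit 433) (.a (.f (nat_lit 399) (nat_lit 398) (nat_lit 3470) (.f (nat_lit 435) (nat_lit 400) (nat_lit 3471) (.d (nat_lit 403) (nat_lit 402) (nat_lit 2447) (nat_lit 404) (nat_lit 2448)))) (.a (.f (nat_lit 402) (nat_lit 403) (nat_lit 2447) (.f (nat_lit 430) (nat_lit 401) (nat_lit 2446) (.f (nat_lit 397) (nat_lit 398) (nat_lit 3469) (.f (nat_lit 429) (nat_lit 396) (nat_lit 3468) (.d (nat_lit 461) (nat_lit 460) (nat_lit 1452) (nat_lit 462) (nat_lit 1453)))))) (.a (.f (nat_lit 399) (nat_lit 398) (nat_lit 3470) (.f (nat_lit 435) (nat_lit 400) (nat_lit 3471) (.f (nat_lit 499) (nat_lit 529) (nat_lit 2543) (.d (nat_lit 403) (nat_lit 404) (nat_lit 2448) (nat_lit 467) (nat_lit 5522))))) (.a (.f (nat_lit 403) (nat_lit 402)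 (nat_lit 2447) (.f (nat_lit 435) (nat_lit 404) (nat_lit 2448) (.d (nat_lit 467) (nat_lit 468) (nat_lit 432) (nat_lit 499) (nat_lit 5522)))) (.f (nat_lit 398) (nat_lit 399) (nat_lit 3470) (.f (nat_lit 430) (nat_lit 397) (nat_lit 3469) (.f (nat_lit 461) (nat_lit 462) (nat_lit 1453) (.f (nat_lit 429) (nat_lit 460) (nat_lit 1452) (.d (nat_lit 401) (nat_lit 400) (nat_lit 2445) (nat_lit 402) (nat_lit 2446))))))))))) (.a (.p (nat_lit 433) (.a (.f (nat_lit 399) (nat_lit 398) (nat_lit 3470) (.f (nat_lit 435) (nat_lit 400) (nat_lit 3471) (.d (nat_lit 403) (nat_lit 402) (nat_lit 2447) (nat_lit 404) (nat_lit 2448)))) (.a (.f (nat_lit 402) (nat_lit 403) (nat_lit 2447) (.f (nat_lit 430) (nat_lit 401) (nat_lit 2446) (.f (nat_lit 397) (nat_lit 398) (nat_lit 3469) (.f (nat_lit 429) (nat_lit 396) (nat_lit 3468) (.d (nat_lit 461) (nat_lit 460) (nat_lit 1452) (nat_lit 462) (nat_lit 1453)))))) (.a (.f (nat_lit 399) (nat_lit 398) (nat_lit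 3470) (.f (nat_lit 464) (nat_lit 496) (nat_lit 7567) (.f (nat_lit 435) (nat_lit 400) (nat_lit 3471) (.f (nat_lit 436) (nat_lit 465) (nat_lit 1456) (.d (nat_lit 404) (nat_lit 403) (nat_lit 2448) (nat_lit 405) (nat_lit 2449)))))) (.a (.f (nat_lit 403) (nat_lit 402) (nat_lit 2447) (.f (nat_lit 435) (nat_lit 404) (nat_lit 2448) (.d (nat_lit 467) (nat_lit 468) (nat_lit 432) (nat_lit 499) (nat_lit 5522)))) (.f (nat_lit 398) (nat_lit 399) (nat_lit 3470) (.f (nat_lit 430) (nat_lit 397) (nat_lit 3469) (.f (nat_lit 461) (nat_lit 462) (nat_lit 1453) (.f (nat_lit 429) (nat_lit 460) (nat_lit 1452) (.d (nat_lit 401) (nat_lit 400) (nat_lit 2445) (nat_lit 402) (nat_lit 2446))))))))))) (.a (.p (nat_lit 433) (.a (.f (nat_lit 399) (nat_lit 398) (nat_lit 3470) (.f (nat_lit 435) (nat_lit 400) (nat_lit 3471) (.d (nat_lit 403) (nat_lit 402) (nat_lit 2447) (nat_lit 404) (nat_lit 2448)))) (.a (.f (nat_lit 402) (nat_lit 403) (nat_lit 2447) (.f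 (nat_lit 430) (nat_lit 401) (nat_lit 2446) (.f (nat_lit 397) (nat_lit 398) (nat_lit 3469) (.f (nat_lit 429) (nat_lit 396) (nat_lit 3468) (.d (nat_lit 461) (nat_lit 460) (nat_lit 1452) (nat_lit 462) (nat_lit 1453)))))) (.a (.f (nat_lit 399) (nat_lit 398) (nat_lit 3470) (.f (nat_lit 464) (nat_lit 496) (nat_lit 7567) (.f (nat_lit 435) (nat_lit 400) (nat_lit 3471) (.f (nat_lit 436) (nat_lit 465) (nat_lit 1456) (.d (nat_lit 404) (nat_lit 403) (nat_lit 2448) (nat_lit 405) (nat_lit 2449)))))) (.a (.f (nat_lit 402) (nat_lit 403) (nat_lit 2447) (.f (nat_lit 430) (nat_lit 401) (nat_lit 2446) (.f (nat_lit 461) (nat_lit 462) (nat_lit 1453) (.f (nat_lit 429) (nat_lit 460) (nat_lit 1452) (.f (nat_lit 464) (nat_lit 465) (nat_lit 429) (.d (nat_lit 496) (nat_lit 399) (nat_lit 7567) (nat_lit 400) (nat_lit 5519))))))) (.f (nat_lit 398) (nat_lit 399) (nat_lit 3470) (.f (nat_lit 430) (nat_lit 397) (nat_lit 3469) (.f (nat_lit 461) (nat_lit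 462) (nat_lit 1453) (.f (nat_lit 429) (nat_lit 460) (nat_lit 1452) (.d (nat_lit 401) (nat_lit 400) (nat_lit 2445) (nat_lit 402) (nat_lit 2446))))))))))) (.a (.f (nat_lit 529) (nat_lit 499) (nat_lit 2543) (.f (nat_lit 496) (nat_lit 531) (nat_lit 3567) (.f (nat_lit 464) (nat_lit 400) (nat_lit 5519) (.f (nat_lit 433) (nat_lit 401) (nat_lit 6544) (.f (nat_lit 465) (nat_lit 560) (nat_lit 6576) (.f (nat_lit 435) (nat_lit 436) (nat_lit 1456) (.d (nat_lit 403) (nat_lit 402) (nat_lit 2447) (nat_lit 404) (nat_lit 2448)))))))) (.f (nat_lit 529) (nat_lit 499) (nat_lit 2543) (.f (nat_lit 496) (nat_lit 531) (nat_lit 3567) (.f (nat_lit 464) (nat_lit 399) (nat_lit 7567) (.f (nat_lit 433) (nat_lit 401) (nat_lit 6544) (.f (nat_lit 465) (nat_lit 560) (nat_lit 6576) (.f (nat_lit 435) (nat_lit 436) (nat_lit 1456) (.d (nat_lit 403) (nat_lit 402) (nat_lit 2447) (nat_lit 404) (nat_lit 2448)))))))))))))) (.p (nat_lit 466) (.a (.f (nat_lit 433)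 (nat_lit 401) (nat_lit 7569) (.f (nat_lit 432) (nat_lit 467) (nat_lit 431) (.d (nat_lit 403) (nat_lit 402) (nat_lit 2447) (nat_lit 435) (nat_lit 6546)))) (.a (.f (nat_lit 403) (nat_lit 435) (nat_lit 6546) (.f (nat_lit 402) (nat_lit 371) (nat_lit 6514) (.d (nat_lit 401) (nat_lit 369) (nat_lit 7537) (nat_lit 433) (nat_lit 7569)))) (.a (.f (nat_lit 403) (nat_lit 435) (nat_lit 6546) (.f (nat_lit 402) (nat_lit 371) (nat_lit 6514) (.f (nat_lit 401) (nat_lit 369) (nat_lit 7537) (.f (nat_lit 400) (nat_lit 432) (nat_lit 1423) (.f (nat_lit 399) (nat_lit 430) (nat_lit 1422) (.d (nat_lit 367) (nat_lit 366) (nat_lit 3438) (nat_lit 368) (nat_lit 3439))))))) (.a (.f (nat_lit 403) (nat_lit 435) (nat_lit 6546) (.f (nat_lit 402) (nat_lit 371) (nat_lit 6514) (.f (nat_lit 432) (nat_lit 433) (nat_lit 2447) (.f (nat_lit 531) (nat_lit 563) (nat_lit 4530) (.f (nat_lit 496) (nat_lit 529) (nat_lit 3567) (.d (nat_lit 464) (nat_lit 399) (nat_lit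 7567) (nat_lit 400) (nat_lit 5519))))))) (.a (.f (nat_lit 433) (nat_lit 401) (nat_lit 7569) (.f (nat_lit 432) (nat_lit 467) (nat_lit 431) (.f (nat_lit 435) (nat_lit 403) (nat_lit 6546) (.d (nat_lit 399) (nat_lit 398) (nat_lit 3470) (nat_lit 400) (nat_lit 3471))))) (.f (nat_lit 433) (nat_lit 401) (nat_lit 7569) (.f (nat_lit 432) (nat_lit 467) (nat_lit 431) (.f (nat_lit 430) (nat_lit 465) (nat_lit 430) (.d (nat_lit 398) (nat_lit 397) (nat_lit 3469) (nat_lit 399) (nat_lit 3470)))))))))))))))) (.a (.p (nat_lit 466) (.a s122391 (.a (.p (nat_lit 562) (.a (.f (nat_lit 563) (nat_lit 595) (nat_lit 4562) (.f (nat_lit 434) (nat_lit 531) (nat_lit 4530) (.d (nat_lit 435) (nat_lit 403) (nat_lit 6546) (nat_lit 467) (nat_lit 6578)))) (.a (.f (nat_lit 433) (nat_lit 465) (nat_lit 7601) (.f (nat_lit 434) (nat_lit 401) (nat_lit 7569) (.d (nat_lit 435) (nat_lit 403) (nat_lit 6546) (nat_lit 467) (nat_lit 6578)))) (.d (nat_lit 563) (nat_lit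 529) (nat_lit 527) (nat_lit 595) (nat_lit 4562))))) (.a (.p (nat_lit 434) (.a (.f (nat_lit 433) (nat_lit 401) (nat_lit 7569) (.f (nat_lit 432) (nat_lit 467) (nat_lit 431) (.d (nat_lit 403) (nat_lit 402) (nat_lit 2447) (nat_lit 435) (nat_lit 6546)))) (.a (.f (nat_lit 435) (nat_lit 403) (nat_lit 6546) (.f (nat_lit 562) (nat_lit 467) (nat_lit 6578) (.d (nat_lit 563) (nat_lit 531) (nat_lit 4530) (nat_lit 595) (nat_lit 4562)))) (.a (.f (nat_lit 403) (nat_lit 435) (nat_lit 6546) (.f (nat_lit 402) (nat_lit 371) (nat_lit 6514) (.f (nat_lit 401) (nat_lit 369) (nat_lit 7537) (.f (nat_lit 400) (nat_lit 432) (nat_lit 1423) (.f (nat_lit 399) (nat_lit 430) (nat_lit 1422) (.d (nat_lit 367) (nat_lit 366) (nat_lit 3438) (nat_lit 368) (nat_lit 3439))))))) (.f (nat_lit 563) (nat_lit 531) (nat_lit 4530) (.d (nat_lit 562) (nat_lit 529) (nat_lit 527) (nat_lit 595) (nat_lit 4562))))))) (.a (.p (nat_lit 562) (.a (.f (nat_lit 433) (nat_lit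 465) (nat_lit 7601) (.f (nat_lit 434) (nat_lit 401) (nat_lit 7569) (.d (nat_lit 435) (nat_lit 403) (nat_lit 6546) (nat_lit 467) (nat_lit 6578)))) (.d (nat_lit 563) (nat_lit 529) (nat_lit 527) (nat_lit 595) (nat_lit 4562)))) (.a (.p (nat_lit 434) (.a (.f (nat_lit 403) (nat_lit 435) (nat_lit 6546) (.f (nat_lit 402) (nat_lit 371) (nat_lit 6514) (.f (nat_lit 401) (nat_lit 369) (nat_lit 7537) (.f (nat_lit 400) (nat_lit 432) (nat_lit 1423) (.f (nat_lit 399) (nat_lit 430) (nat_lit 1422) (.d (nat_lit 367) (nat_lit 366) (nat_lit 3438) (nat_lit 368) (nat_lit 3439))))))) (.a (.f (nat_lit 435) (nat_lit 403) (nat_lit 6546) (.f (nat_lit 562) (nat_lit 467) (nat_lit 6578) (.d (nat_lit 563) (nat_lit 531) (nat_lit 4530) (nat_lit 595) (nat_lit 4562)))) (.f (nat_lit 563) (nat_lit 531) (nat_lit 4530) (.d (nat_lit 562) (nat_lit 529) (nat_lit 527) (nat_lit 595) (nat_lit 4562)))))) (.a (.p (nat_lit 434) (.a (.f (nat_lit 433) (nat_lit 401)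 (nat_lit 7569) (.f (nat_lit 432) (nat_lit 467) (nat_lit 431) (.d (nat_lit 403) (nat_lit 402) (nat_lit 2447) (nat_lit 435) (nat_lit 6546)))) (.a (.f (nat_lit 403) (nat_lit 435) (nat_lit 6546) (.f (nat_lit 402) (nat_lit 371) (nat_lit 6514) (.d (nat_lit 401) (nat_lit 369) (nat_lit 7537) (nat_lit 433) (nat_lit 7569)))) (.a (.f (nat_lit 403) (nat_lit 435) (nat_lit 6546) (.f (nat_lit 402) (nat_lit 371) (nat_lit 6514) (.f (nat_lit 401) (nat_lit 369) (nat_lit 7537) (.f (nat_lit 400) (nat_lit 432) (nat_lit 1423) (.f (nat_lit 399) (nat_lit 430) (nat_lit 1422) (.d (nat_lit 367) (nat_lit 366) (nat_lit 3438) (nat_lit 368) (nat_lit 3439))))))) (.a (.f (nat_lit 403) (nat_lit 435) (nat_lit 6546) (.f (nat_lit 402) (nat_lit 371) (nat_lit 6514) (.f (nat_lit 432) (nat_lit 433) (nat_lit 2447) (.f (nat_lit 531) (nat_lit 563) (nat_lit 4530) (.f (nat_lit 496) (nat_lit 529) (nat_lit 3567) (.d (nat_lit 464) (nat_lit 399) (nat_lit 7567) (nat_lit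 400) (nat_lit 5519))))))) (.a (.f (nat_lit 433) (nat_lit 401) (nat_lit 7569) (.f (nat_lit 432) (nat_lit 467) (nat_lit 431) (.f (nat_lit 435) (nat_lit 403) (nat_lit 6546) (.d (nat_lit 399) (nat_lit 398) (nat_lit 3470) (nat_lit 400) (nat_lit 3471))))) (.f (nat_lit 433) (nat_lit 401) (nat_lit 7569) (.f (nat_lit 432) (nat_lit 467) (nat_lit 431) (.f (nat_lit 430) (nat_lit 465) (nat_lit 430) (.d (nat_lit 398) (nat_lit 397) (nat_lit 3469) (nat_lit 399) (nat_lit 3470))))))))))) (.a (.p (nat_lit 562) (.a (.f (nat_lit 467) (nat_lit 435) (nat_lit 6578) (.f (nat_lit 465) (nat_lit 433) (nat_lit 7601) (.d (nat_lit 464) (nat_lit 432) (nat_lit 3503) (nat_lit 496) (nat_lit 1487)))) (.d (nat_lit 563) (nat_lit 529) (nat_lit 527) (nat_lit 595) (nat_lit 4562)))) (.a (.p (nat_lit 433) (.a (.f (nat_lit 434) (nat_lit 401) (nat_lit 7569) (.f (nat_lit 432) (nat_lit 467) (nat_lit 431) (.d (nat_lit 403) (nat_lit 402) (nat_lit 2447) (nat_lit 435)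 (nat_lit 6546)))) (.a (.f (nat_lit 465) (nat_lit 562) (nat_lit 7601) (.d (nat_lit 401) (nat_lit 369) (nat_lit 4465) (nat_lit 434) (nat_lit 7569))) (.f (nat_lit 465) (nat_lit 562) (nat_lit 7601) (.f (nat_lit 432) (nat_lit 430) (nat_lit 430) (.d (nat_lit 467) (nat_lit 464) (nat_lit 3503) (nat_lit 468) (nat_lit 3504))))))) (.a (.p (nat_lit 562) (.a (.f (nat_lit 563) (nat_lit 595) (nat_lit 4562) (.f (nat_lit 434) (nat_lit 531) (nat_lit 4530) (.f (nat_lit 403) (nat_lit 435) (nat_lit 6546) (.f (nat_lit 402) (nat_lit 371) (nat_lit 6514) (.d (nat_lit 401) (nat_lit 369) (nat_lit 7537) (nat_lit 433) (nat_lit 7569)))))) (.a (.f (nat_lit 433) (nat_lit 465) (nat_lit 7601) (.f (nat_lit 434) (nat_lit 401) (nat_lit 7569) (.f (nat_lit 403) (nat_lit 435) (nat_lit 6546) (.d (nat_lit 402) (nat_lit 371) (nat_lit 6514) (nat_lit 432) (nat_lit 2447))))) (.a (.f (nat_lit 563) (nat_lit 595) (nat_lit 4562) (.f (nat_lit 434) (nat_lit 531) (nat_lit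 4530) (.f (nat_lit 403) (nat_lit 435) (nat_lit 6546) (.f (nat_lit 402) (nat_lit 371) (nat_lit 6514) (.f (nat_lit 401) (nat_lit 369) (nat_lit 7537) (.f (nat_lit 400) (nat_lit 432) (nat_lit 1423) (.f (nat_lit 399) (nat_lit 430) (nat_lit 1422) (.d (nat_lit 367) (nat_lit 366) (nat_lit 3438) (nat_lit 368) (nat_lit 3439))))))))) (.d (nat_lit 563) (nat_lit 529) (nat_lit 527) (nat_lit 595) (nat_lit 4562)))))) (.p (nat_lit 433) (.a (.f (nat_lit 465) (nat_lit 562) (nat_lit 7601) (.f (nat_lit 432) (nat_lit 430) (nat_lit 430) (.d (nat_lit 467) (nat_lit 464) (nat_lit 3503) (nat_lit 468) (nat_lit 3504)))) (.a (.f (nat_lit 465) (nat_lit 562) (nat_lit 7601) (.d (nat_lit 401) (nat_lit 369) (nat_lit 4465) (nat_lit 434) (nat_lit 7569))) (.a (.f (nat_lit 434) (nat_lit 401) (nat_lit 7569) (.f (nat_lit 563) (nat_lit 531) (nat_lit 4530) (.d (nat_lit 562) (nat_lit 529) (nat_lit 527) (nat_lit 595) (nat_lit 4562)))) (.f (nat_lit 434) (nat_lit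 401) (nat_lit 7569) (.f (nat_lit 432) (nat_lit 467) (nat_lit 431) (.f (nat_lit 430) (nat_lit 465) (nat_lit 430) (.d (nat_lit 398) (nat_lit 397) (nat_lit 3469) (nat_lit 399) (nat_lit 3470))))))))))))))))))) (.p (nat_lit 466) (.a s122140 (.a s122399 (.a (.p (nat_lit 434) (.a (.f (nat_lit 433) (nat_lit 401) (nat_lit 7569) (.f (nat_lit 432) (nat_lit 467) (nat_lit 431) (.d (nat_lit 403) (nat_lit 402) (nat_lit 2447) (nat_lit 435) (nat_lit 6546)))) (.a (.f (nat_lit 435) (nat_lit 403) (nat_lit 6546) (.f (nat_lit 467) (nat_lit 562) (nat_lit 6578) (.f (nat_lit 401) (nat_lit 433) (nat_lit 7569) (.f (nat_lit 402) (nat_lit 369) (nat_lit 7537) (.d (nat_lit 370) (nat_lit 338) (nat_lit 4434) (nat_lit 499) (nat_lit 4466)))))) (.a (.f (nat_lit 403) (nat_lit 435) (nat_lit 6546) (.f (nat_lit 402) (nat_lit 371) (nat_lit 6514) (.f (nat_lit 401) (nat_lit 369) (nat_lit 7537) (.f (nat_lit 400) (nat_lit 432) (nat_lit 1423) (.f (nat_lit 399)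 (nat_lit 430) (nat_lit 1422) (.d (nat_lit 367) (nat_lit 366) (nat_lit 3438) (nat_lit 368) (nat_lit 3439))))))) (.a (.f (nat_lit 499) (nat_lit 529) (nat_lit 2543) (.f (nat_lit 402) (nat_lit 531) (nat_lit 4498) (.d (nat_lit 403) (nat_lit 371) (nat_lit 6514) (nat_lit 435) (nat_lit 6546)))) (.a (.f (nat_lit 433) (nat_lit 401) (nat_lit 7569) (.f (nat_lit 467) (nat_lit 432) (nat_lit 431) (.d (nat_lit 435) (nat_lit 403) (nat_lit 6546) (nat_lit 562) (nat_lit 6578)))) (.f (nat_lit 499) (nat_lit 529) (nat_lit 2543) (.f (nat_lit 402) (nat_lit 531) (nat_lit 4498) (.d (nat_lit 401) (nat_lit 369) (nat_lit 7537) (nat_lit 433) (nat_lit 7569)))))))))) (.a (.p (nat_lit 434) (.a (.f (nat_lit 403) (nat_lit 435) (nat_lit 6546) (.f (nat_lit 402) (nat_lit 371) (nat_lit 6514) (.f (nat_lit 401) (nat_lit 369) (nat_lit 7537) (.f (nat_lit 400) (nat_lit 432) (nat_lit 1423) (.f (nat_lit 399) (nat_lit 430) (nat_lit 1422) (.d (nat_lit 367) (nat_lit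 366) (nat_lit 3438) (nat_lit 368) (nat_lit 3439))))))) (.a (.f (nat_lit 499) (nat_lit 529) (nat_lit 2543) (.f (nat_lit 402) (nat_lit 531) (nat_lit 4498) (.d (nat_lit 403) (nat_lit 371) (nat_lit 6514) (nat_lit 435) (nat_lit 6546)))) (.a (.f (nat_lit 435) (nat_lit 403) (nat_lit 6546) (.f (nat_lit 467) (nat_lit 562) (nat_lit 6578) (.f (nat_lit 529) (nat_lit 499) (nat_lit 2543) (.f (nat_lit 496) (nat_lit 531) (nat_lit 3567) (.f (nat_lit 464) (nat_lit 465) (nat_lit 1487) (.d (nat_lit 432) (nat_lit 399) (nat_lit 7567) (nat_lit 400) (nat_lit 5519))))))) (.a (.f (nat_lit 499) (nat_lit 529) (nat_lit 2543) (.f (nat_lit 402) (nat_lit 531) (nat_lit 4498) (.f (nat_lit 370) (nat_lit 467) (nat_lit 4466) (.d (nat_lit 371) (nat_lit 339) (nat_lit 6482) (nat_lit 403) (nat_lit 6514))))) (.f (nat_lit 499) (nat_lit 529) (nat_lit 2543) (.f (nat_lit 402) (nat_lit 531) (nat_lit 4498) (.f (nat_lit 467) (nat_lit 370) (nat_lit 4466) (.d (nat_lit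 562) (nat_lit 435) (nat_lit 6578) (nat_lit 594) (nat_lit 6610)))))))))) (.a (.p (nat_lit 434) (.a (.f (nat_lit 433) (nat_lit 401) (nat_lit 7569) (.f (nat_lit 432) (nat_lit 467) (nat_lit 431) (.d (nat_lit 403) (nat_lit 402) (nat_lit 2447) (nat_lit 435) (nat_lit 6546)))) (.a (.f (nat_lit 403) (nat_lit 435) (nat_lit 6546) (.f (nat_lit 402) (nat_lit 371) (nat_lit 6514) (.d (nat_lit 401) (nat_lit 369) (nat_lit 7537) (nat_lit 433) (nat_lit 7569)))) (.a (.f (nat_lit 403) (nat_lit 435) (nat_lit 6546) (.f (nat_lit 402) (nat_lit 371) (nat_lit 6514) (.f (nat_lit 401) (nat_lit 369) (nat_lit 7537) (.f (nat_lit 400) (nat_lit 432) (nat_lit 1423) (.f (nat_lit 399) (nat_lit 430) (nat_lit 1422) (.d (nat_lit 367) (nat_lit 366) (nat_lit 3438) (nat_lit 368) (nat_lit 3439))))))) (.a (.f (nat_lit 403) (nat_lit 435) (nat_lit 6546) (.f (nat_lit 402) (nat_lit 371) (nat_lit 6514) (.f (nat_lit 433) (nat_lit 432) (nat_lit 2447) (.f (nat_lit 499)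 (nat_lit 529) (nat_lit 2543) (.f (nat_lit 370) (nat_lit 467) (nat_lit 4466) (.f (nat_lit 338) (nat_lit 465) (nat_lit 5457) (.d (nat_lit 337) (nat_lit 305) (nat_lit 7473) (nat_lit 369) (nat_lit 7505)))))))) (.a (.f (nat_lit 433) (nat_lit 401) (nat_lit 7569) (.f (nat_lit 432) (nat_lit 467) (nat_lit 431) (.f (nat_lit 435) (nat_lit 403) (nat_lit 6546) (.d (nat_lit 399) (nat_lit 398) (nat_lit 3470) (nat_lit 400) (nat_lit 3471))))) (.f (nat_lit 433) (nat_lit 401) (nat_lit 7569) (.f (nat_lit 432) (nat_lit 467) (nat_lit 431) (.f (nat_lit 430) (nat_lit 465) (nat_lit 430) (.d (nat_lit 398) (nat_lit 397) (nat_lit 3469) (nat_lit 399) (nat_lit 3470))))))))))) (.a (.p (nat_lit 465) (.a (.f (nat_lit 562) (nat_lit 433) (nat_lit 7601) (.f (nat_lit 467) (nat_lit 435) (nat_lit 6578) (.d (nat_lit 464) (nat_lit 432) (nat_lit 3503) (nat_lit 496) (nat_lit 1487)))) (.a (.f (nat_lit 433) (nat_lit 562) (nat_lit 7601) (.f (nat_lit 432) (nat_lit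 430) (nat_lit 430) (.d (nat_lit 467) (nat_lit 464) (nat_lit 3503) (nat_lit 468) (nat_lit 3504)))) (.a (.f (nat_lit 499) (nat_lit 529) (nat_lit 2543) (.f (nat_lit 562) (nat_lit 433) (nat_lit 7601) (.d (nat_lit 467) (nat_lit 435) (nat_lit 6578) (nat_lit 594) (nat_lit 6610)))) (.a (.f (nat_lit 499) (nat_lit 529) (nat_lit 2543) (.f (nat_lit 500) (nat_lit 501) (nat_lit 3537) (.f (nat_lit 467) (nat_lit 464) (nat_lit 464) (.d (nat_lit 435) (nat_lit 403) (nat_lit 5522) (nat_lit 562) (nat_lit 6578))))) (.a (.f (nat_lit 529) (nat_lit 499) (nat_lit 2543) (.f (nat_lit 496) (nat_lit 531) (nat_lit 3567) (.f (nat_lit 464) (nat_lit 467) (nat_lit 1487) (.d (nat_lit 432) (nat_lit 399) (nat_lit 7567) (nat_lit 400) (nat_lit 5519))))) (.f (nat_lit 433) (nat_lit 562) (nat_lit 7601) (.f (nat_lit 432) (nat_lit 430) (nat_lit 430) (.f (nat_lit 401) (nat_lit 369) (nat_lit 4465) (.f (nat_lit 496) (nat_lit 464) (nat_lit 6544) (.d (nat_lit 529)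 (nat_lit 499) (nat_lit 2543) (nat_lit 531) (nat_lit 3567)))))))))))) (.a (.p (nat_lit 433) (.a (.f (nat_lit 434) (nat_lit 401) (nat_lit 7569) (.f (nat_lit 432) (nat_lit 467) (nat_lit 431) (.d (nat_lit 403) (nat_lit 402) (nat_lit 2447) (nat_lit 435) (nat_lit 6546)))) (.a (.f (nat_lit 465) (nat_lit 562) (nat_lit 7601) (.d (nat_lit 401) (nat_lit 369) (nat_lit 4465) (nat_lit 434) (nat_lit 7569))) (.f (nat_lit 465) (nat_lit 562) (nat_lit 7601) (.f (nat_lit 432) (nat_lit 430) (nat_lit 430) (.d (nat_lit 467) (nat_lit 464) (nat_lit 3503) (nat_lit 468) (nat_lit 3504))))))) (.a (.p (nat_lit 434) (.a (.f (nat_lit 435) (nat_lit 403) (nat_lit 6546) (.f (nat_lit 467) (nat_lit 562) (nat_lit 6578) (.f (nat_lit 432) (nat_lit 433) (nat_lit 431) (.f (nat_lit 464) (nat_lit 465) (nat_lit 3503) (.d (nat_lit 496) (nat_lit 399) (nat_lit 7567) (nat_lit 400) (nat_lit 5519)))))) (.a (.f (nat_lit 403) (nat_lit 435) (nat_lit 6546) (.f (nat_lit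 402) (nat_lit 371) (nat_lit 6514) (.f (nat_lit 433) (nat_lit 432) (nat_lit 2447) (.f (nat_lit 499) (nat_lit 529) (nat_lit 2543) (.f (nat_lit 370) (nat_lit 467) (nat_lit 4466) (.f (nat_lit 338) (nat_lit 465) (nat_lit 5457) (.d (nat_lit 337) (nat_lit 305) (nat_lit 7473) (nat_lit 369) (nat_lit 7505)))))))) (.a (.f (nat_lit 499) (nat_lit 529) (nat_lit 2543) (.f (nat_lit 402) (nat_lit 531) (nat_lit 4498) (.d (nat_lit 403) (nat_lit 371) (nat_lit 6514) (nat_lit 435) (nat_lit 6546)))) (.a (.f (nat_lit 499) (nat_lit 529) (nat_lit 2543) (.f (nat_lit 402) (nat_lit 531) (nat_lit 4498) (.f (nat_lit 370) (nat_lit 467) (nat_lit 4466) (.d (nat_lit 371) (nat_lit 339) (nat_lit 6482) (nat_lit 403) (nat_lit 6514))))) (.f (nat_lit 499) (nat_lit 529) (nat_lit 2543) (.f (nat_lit 402) (nat_lit 531) (nat_lit 4498) (.f (nat_lit 467) (nat_lit 370) (nat_lit 4466) (.d (nat_lit 562) (nat_lit 435) (nat_lit 6578) (nat_lit 594) (nat_lit 6610))))))))))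 (.a (.p (nat_lit 433) (.a (.f (nat_lit 434) (nat_lit 401) (nat_lit 7569) (.f (nat_lit 465) (nat_lit 562) (nat_lit 7601) (.f (nat_lit 432) (nat_lit 430) (nat_lit 430) (.d (nat_lit 403) (nat_lit 402) (nat_lit 2447) (nat_lit 435) (nat_lit 6546))))) (.a (.f (nat_lit 434) (nat_lit 401) (nat_lit 7569) (.f (nat_lit 403) (nat_lit 435) (nat_lit 6546) (.d (nat_lit 402) (nat_lit 371) (nat_lit 6514) (nat_lit 432) (nat_lit 2447)))) (.a (.f (nat_lit 465) (nat_lit 562) (nat_lit 7601) (.d (nat_lit 401) (nat_lit 369) (nat_lit 4465) (nat_lit 434) (nat_lit 7569))) (.a (.f (nat_lit 465) (nat_lit 562) (nat_lit 7601) (.f (nat_lit 432) (nat_lit 430) (nat_lit 430) (.f (nat_lit 401) (nat_lit 369) (nat_lit 4465) (.f (nat_lit 496) (nat_lit 464) (nat_lit 6544) (.d (nat_lit 529) (nat_lit 499) (nat_lit 2543) (nat_lit 531) (nat_lit 3567)))))) (.f (nat_lit 529) (nat_lit 499) (nat_lit 2543) (.f (nat_lit 465) (nat_lit 562) (nat_lit 7601) (.f (nat_lit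 432) (nat_lit 430) (nat_lit 430) (.f (nat_lit 496) (nat_lit 531) (nat_lit 3567) (.d (nat_lit 464) (nat_lit 399) (nat_lit 7567) (nat_lit 560) (nat_lit 6576))))))))))) (.a (.p (nat_lit 433) (.a (.f (nat_lit 465) (nat_lit 562) (nat_lit 7601) (.f (nat_lit 432) (nat_lit 430) (nat_lit 430) (.d (nat_lit 467) (nat_lit 464) (nat_lit 3503) (nat_lit 468) (nat_lit 3504)))) (.a (.f (nat_lit 465) (nat_lit 562) (nat_lit 7601) (.d (nat_lit 401) (nat_lit 369) (nat_lit 4465) (nat_lit 434) (nat_lit 7569))) (.f (nat_lit 434) (nat_lit 401) (nat_lit 7569) (.f (nat_lit 432) (nat_lit 467) (nat_lit 431) (.f (nat_lit 402) (nat_lit 403) (nat_lit 2447) (.d (nat_lit 499) (nat_lit 529) (nat_lit 2543) (nat_lit 531) (nat_lit 4498)))))))) (.p (nat_lit 562) (.a (.f (nat_lit 467) (nat_lit 435) (nat_lit 6578) (.f (nat_lit 594) (nat_lit 499) (nat_lit 6610) (.f (nat_lit 625) (nat_lit 593) (nat_lit 5617) (.f (nat_lit 626) (nat_lit 657) (nat_lit 5649) (.d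 (nat_lit 627) (nat_lit 595) (nat_lit 4594) (nat_lit 659) (nat_lit 4626)))))) (.a (.f (nat_lit 499) (nat_lit 529) (nat_lit 2543) (.f (nat_lit 594) (nat_lit 467) (nat_lit 6610) (.f (nat_lit 626) (nat_lit 531) (nat_lit 6642) (.d (nat_lit 627) (nat_lit 595) (nat_lit 4594) (nat_lit 659) (nat_lit 4626))))) (.a (.f (nat_lit 467) (nat_lit 435) (nat_lit 6578) (.f (nat_lit 465) (nat_lit 433) (nat_lit 7601) (.d (nat_lit 464) (nat_lit 432) (nat_lit 3503) (nat_lit 496) (nat_lit 1487)))) (.f (nat_lit 529) (nat_lit 499) (nat_lit 2543) (.f (nat_lit 433) (nat_lit 465) (nat_lit 7601) (.f (nat_lit 401) (nat_lit 434) (nat_lit 7569) (.f (nat_lit 496) (nat_lit 531) (nat_lit 3567) (.f (nat_lit 432) (nat_lit 464) (nat_lit 6544) (.f (nat_lit 430) (nat_lit 402) (nat_lit 2446) (.f (nat_lit 429) (nat_lit 400) (nat_lit 2445) (.d (nat_lit 461) (nat_lit 460) (nat_lit 1452) (nat_lit 462) (nat_lit 1453))))))))))))))))))))))))))))))) (.a (.p (nat_lit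 433) (.a (.p (nat_lit 432) (.a s122286 (.a s122195 (.a s122199 (.a (.p (nat_lit 496) (.a (.d (nat_lit 464) (nat_lit 400) (nat_lit 5519) (nat_lit 401) (nat_lit 6544)) (.d (nat_lit 497) (nat_lit 499) (nat_lit 1519) (nat_lit 526) (nat_lit 1518)))) (.a s122254 (.p (nat_lit 466) (.a (.f (nat_lit 465) (nat_lit 430) (nat_lit 430) (.d (nat_lit 467) (nat_lit 434) (nat_lit 431) (nat_lit 464) (nat_lit 3503))) (.a (.f (nat_lit 434) (nat_lit 467) (nat_lit 431) (.f (nat_lit 430) (nat_lit 465) (nat_lit 430) (.d (nat_lit 398) (nat_lit 397) (nat_lit 3469) (nat_lit 399) (nat_lit 3470)))) (.a (.f (nat_lit 434) (nat_lit 467) (nat_lit 431) (.f (nat_lit 402) (nat_lit 403) (nat_lit 2447) (.f (nat_lit 399) (nat_lit 398) (nat_lit 3470) (.f (nat_lit 496) (nat_lit 464) (nat_lit 7567) (.d (nat_lit 499) (nat_lit 497) (nat_lit 1519) (nat_lit 531) (nat_lit 4498)))))) (.a (.f (nat_lit 465) (nat_lit 430) (nat_lit 430) (.d (nat_lit 467) (nat_lit 464)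 (nat_lit 3503) (nat_lit 468) (nat_lit 3504))) (.f (nat_lit 430) (nat_lit 465) (nat_lit 430) (.f (nat_lit 398) (nat_lit 397) (nat_lit 3469) (.f (nat_lit 399) (nat_lit 434) (nat_lit 3470) (.f (nat_lit 461) (nat_lit 462) (nat_lit 1453) (.f (nat_lit 429) (nat_lit 460) (nat_lit 1452) (.d (nat_lit 428) (nat_lit 400) (nat_lit 2444) (nat_lit 427) (nat_lit 2443)))))))))))))))))) (.a (.p (nat_lit 432) (.a s122195 (.a s122199 (.a s122230 (.a (.p (nat_lit 401) (.a (.f (nat_lit 430) (nat_lit 402) (nat_lit 2446) (.f (nat_lit 465) (nat_lit 466) (nat_lit 430) (.d (nat_lit 429) (nat_lit 400) (nat_lit 2445) (nat_lit 464) (nat_lit 429)))) (.a (.f (nat_lit 430) (nat_lit 402) (nat_lit 2446) (.f (nat_lit 429) (nat_lit 400) (nat_lit 2445) (.d (nat_lit 461) (nat_lit 460) (nat_lit 1452) (nat_lit 462) (nat_lit 1453)))) (.a (.f (nat_lit 430) (nat_lit 402) (nat_lit 2446) (.f (nat_lit 465) (nat_lit 466) (nat_lit 430) (.f (nat_lit 429) (nat_lit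 464) (nat_lit 429) (.d (nat_lit 461) (nat_lit 460) (nat_lit 1452) (nat_lit 462) (nat_lit 1453))))) (.p (nat_lit 369) (.a (.f (nat_lit 465) (nat_lit 466) (nat_lit 4465) (.f (nat_lit 337) (nat_lit 464) (nat_lit 5456) (.d (nat_lit 338) (nat_lit 306) (nat_lit 6449) (nat_lit 370) (nat_lit 6481)))) (.a (.f (nat_lit 465) (nat_lit 466) (nat_lit 4465) (.f (nat_lit 368) (nat_lit 336) (nat_lit 7504) (.f (nat_lit 400) (nat_lit 497) (nat_lit 7536) (.f (nat_lit 370) (nat_lit 338) (nat_lit 6481) (.d (nat_lit 399) (nat_lit 371) (nat_lit 1391) (nat_lit 398) (nat_lit 2414)))))) (.a (.f (nat_lit 337) (nat_lit 464) (nat_lit 5456) (.f (nat_lit 305) (nat_lit 400) (nat_lit 5424) (.d (nat_lit 306) (nat_lit 274) (nat_lit 6417) (nat_lit 338) (nat_lit 6449)))) (.f (nat_lit 465) (nat_lit 466) (nat_lit 4465) (.f (nat_lit 368) (nat_lit 336) (nat_lit 7504) (.f (nat_lit 400) (nat_lit 497) (nat_lit 7536) (.d (nat_lit 337) (nat_lit 305) (nat_lit 5424)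 (nat_lit 464) (nat_lit 5456))))))))))))) (.a s122254 (.a s122277 (.a s122637 (.a (.p (nat_lit 434) (.a (.f (nat_lit 399) (nat_lit 398) (nat_lit 3470) (.f (nat_lit 435) (nat_lit 400) (nat_lit 3471) (.d (nat_lit 403) (nat_lit 402) (nat_lit 2447) (nat_lit 404) (nat_lit 2448)))) (.a (.f (nat_lit 466) (nat_lit 467) (nat_lit 431) (.f (nat_lit 402) (nat_lit 403) (nat_lit 2447) (.f (nat_lit 497) (nat_lit 529) (nat_lit 5521) (.f (nat_lit 465) (nat_lit 370) (nat_lit 5489) (.f (nat_lit 499) (nat_lit 531) (nat_lit 4498) (.d (nat_lit 500) (nat_lit 464) (nat_lit 3536) (nat_lit 501) (nat_lit 3537))))))) (.f (nat_lit 399) (nat_lit 398) (nat_lit 3470) (.f (nat_lit 435) (nat_lit 400) (nat_lit 3471) (.d (nat_lit 467) (nat_lit 466) (nat_lit 431) (nat_lit 468) (nat_lit 432))))))) s122662))))))))) (.a s122671 (.a (.p (nat_lit 497) (.a (.d (nat_lit 526) (nat_lit 496) (nat_lit 1518) (nat_lit 529) (nat_lit 2542)) (.a (.f (nat_lit 529) (nat_lit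 526) (nat_lit 2542) (.f (nat_lit 465) (nat_lit 560) (nat_lit 5552) (.f (nat_lit 432) (nat_lit 400) (nat_lit 7568) (.f (nat_lit 434) (nat_lit 402) (nat_lit 6545) (.d (nat_lit 466) (nat_lit 430) (nat_lit 430) (nat_lit 467) (nat_lit 431)))))) (.a (.d (nat_lit 496) (nat_lit 499) (nat_lit 1519) (nat_lit 526) (nat_lit 1518)) (.f (nat_lit 496) (nat_lit 499) (nat_lit 1519) (.f (nat_lit 465) (nat_lit 401) (nat_lit 5520) (.d (nat_lit 560) (nat_lit 529) (nat_lit 5552) (nat_lit 592) (nat_lit 6608)))))))) (.a (.p (nat_lit 432) (.a (.p (nat_lit 496) (.a (.d (nat_lit 464) (nat_lit 400) (nat_lit 5519) (nat_lit 401) (nat_lit 6544)) (.d (nat_lit 497) (nat_lit 499) (nat_lit 1519) (nat_lit 526) (nat_lit 1518)))) (.a s122230 (.a (.p (nat_lit 496) (.a (.d (nat_lit 497) (nat_lit 499) (nat_lit 1519) (nat_lit 526) (nat_lit 1518)) (.d (nat_lit 464) (nat_lit 399) (nat_lit 7567) (nat_lit 401) (nat_lit 6544)))) (.p (nat_lit 496) (.a (.d (nat_lit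 497) (nat_lit 499) (nat_lit 1519) (nat_lit 526) (nat_lit 1518)) (.d (nat_lit 464) (nat_lit 399) (nat_lit 7567) (nat_lit 400) (nat_lit 5519)))))))) (.a (.p (nat_lit 497) (.a (.d (nat_lit 526) (nat_lit 496) (nat_lit 1518) (nat_lit 529) (nat_lit 2542)) (.a (.f (nat_lit 529) (nat_lit 526) (nat_lit 2542) (.f (nat_lit 465) (nat_lit 560) (nat_lit 5552) (.f (nat_lit 402) (nat_lit 434) (nat_lit 6545) (.f (nat_lit 401) (nat_lit 370) (nat_lit 6513) (.f (nat_lit 369) (nat_lit 466) (nat_lit 4465) (.d (nat_lit 368) (nat_lit 336) (nat_lit 7504) (nat_lit 400) (nat_lit 7536))))))) (.a (.d (nat_lit 496) (nat_lit 499) (nat_lit 1519) (nat_lit 526) (nat_lit 1518)) (.f (nat_lit 496) (nat_lit 499) (nat_lit 1519) (.f (nat_lit 465) (nat_lit 401) (nat_lit 5520) (.d (nat_lit 560) (nat_lit 529) (nat_lit 5552) (nat_lit 592) (nat_lit 6608)))))))) (.a (.p (nat_lit 497) (.a (.d (nat_lit 526) (nat_lit 496) (nat_lit 1518) (nat_lit 529) (nat_lit 2542))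 (.a (.f (nat_lit 529) (nat_lit 526) (nat_lit 2542) (.f (nat_lit 465) (nat_lit 560) (nat_lit 5552) (.f (nat_lit 432) (nat_lit 400) (nat_lit 7568) (.f (nat_lit 430) (nat_lit 466) (nat_lit 430) (.f (nat_lit 429) (nat_lit 464) (nat_lit 429) (.d (nat_lit 461) (nat_lit 460) (nat_lit 1452) (nat_lit 462) (nat_lit 1453))))))) (.a (.d (nat_lit 496) (nat_lit 499) (nat_lit 1519) (nat_lit 526) (nat_lit 1518)) (.f (nat_lit 496) (nat_lit 499) (nat_lit 1519) (.f (nat_lit 465) (nat_lit 401) (nat_lit 5520) (.d (nat_lit 560) (nat_lit 529) (nat_lit 5552) (nat_lit 592) (nat_lit 6608)))))))) (.a (.p (nat_lit 497) (.a (.d (nat_lit 526) (nat_lit 496) (nat_lit 1518) (nat_lit 529) (nat_lit 2542)) (.a (.f (nat_lit 529) (nat_lit 526) (nat_lit 2542) (.f (nat_lit 465) (nat_lit 560) (nat_lit 5552) (.f (nat_lit 402) (nat_lit 434) (nat_lit 6545) (.f (nat_lit 401) (nat_lit 370) (nat_lit 6513) (.f (nat_lit 432) (nat_lit 430) (nat_lit 2446) (.f (nat_lit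 369) (nat_lit 466) (nat_lit 4465) (.f (nat_lit 337) (nat_lit 464) (nat_lit 5456) (.d (nat_lit 336) (nat_lit 304) (nat_lit 7472) (nat_lit 368) (nat_lit 7504))))))))) (.a (.d (nat_lit 496) (nat_lit 499) (nat_lit 1519) (nat_lit 526) (nat_lit 1518)) (.f (nat_lit 496) (nat_lit 499) (nat_lit 1519) (.f (nat_lit 465) (nat_lit 401) (nat_lit 5520) (.d (nat_lit 560) (nat_lit 529) (nat_lit 5552) (nat_lit 592) (nat_lit 6608)))))))) (.p (nat_lit 497) (.a (.d (nat_lit 526) (nat_lit 496) (nat_lit 1518) (nat_lit 529) (nat_lit 2542)) (.a (.f (nat_lit 529) (nat_lit 526) (nat_lit 2542) (.f (nat_lit 465) (nat_lit 560) (nat_lit 5552) (.f (nat_lit 432) (nat_lit 400) (nat_lit 7568) (.f (nat_lit 434) (nat_lit 402) (nat_lit 6545) (.d (nat_lit 466) (nat_lit 430) (nat_lit 430) (nat_lit 467) (nat_lit 431)))))) (.a (.d (nat_lit 496) (nat_lit 499) (nat_lit 1519) (nat_lit 526) (nat_lit 1518)) (.f (nat_lit 499) (nat_lit 496) (nat_lit 1519) (.f (nat_lit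 500) (nat_lit 529) (nat_lit 1520) (.f (nat_lit 469) (nat_lit 468) (nat_lit 2513) (.f (nat_lit 501) (nat_lit 470) (nat_lit 2514) (.d (nat_lit 533) (nat_lit 532) (nat_lit 497) (nat_lit 534) (nat_lit 498))))))))))))))))))) (.a (.p (nat_lit 497) (.a (.d (nat_lit 526) (nat_lit 496) (nat_lit 1518) (nat_lit 529) (nat_lit 2542)) (.a (.f (nat_lit 529) (nat_lit 526) (nat_lit 2542) (.d (nat_lit 499) (nat_lit 500) (nat_lit 1520) (nat_lit 530) (nat_lit 2543))) (.a (.d (nat_lit 496) (nat_lit 499) (nat_lit 1519) (nat_lit 526) (nat_lit 1518)) (.f (nat_lit 499) (nat_lit 496) (nat_lit 1519) (.d (nat_lit 529) (nat_lit 500) (nat_lit 1520) (nat_lit 530) (nat_lit 2543))))))) (.p (nat_lit 433) (.a (.p (nat_lit 432) (.a s122286 (.a s122195 (.a s122199 (.a s122293 (.a s122310 (.a s122328 (.a s122277 (.a s122254 (.a s122263 (.a (.p (nat_lit 434) (.a (.f (nat_lit 466) (nat_lit 467) (nat_lit 431) (.f (nat_lit 401) (nat_lit 530) (nat_lit 7569)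 (.d (nat_lit 402) (nat_lit 369) (nat_lit 7537) (nat_lit 403) (nat_lit 2447)))) (.a (.f (nat_lit 399) (nat_lit 398) (nat_lit 3470) (.f (nat_lit 435) (nat_lit 400) (nat_lit 3471) (.d (nat_lit 403) (nat_lit 402) (nat_lit 2447) (nat_lit 404) (nat_lit 2448)))) (.f (nat_lit 399) (nat_lit 398) (nat_lit 3470) (.f (nat_lit 435) (nat_lit 400) (nat_lit 3471) (.d (nat_lit 467) (nat_lit 466) (nat_lit 431) (nat_lit 468) (nat_lit 432))))))) s122276))))))))))) (.a (.p (nat_lit 466) (.a (.p (nat_lit 432) (.a (.f (nat_lit 465) (nat_lit 430) (nat_lit 430) (.d (nat_lit 467) (nat_lit 434) (nat_lit 431) (nat_lit 464) (nat_lit 3503))) (.a (.f (nat_lit 434) (nat_lit 467) (nat_lit 431) (.f (nat_lit 402) (nat_lit 403) (nat_lit 2447) (.d (nat_lit 430) (nat_lit 401) (nat_lit 2446) (nat_lit 465) (nat_lit 430)))) (.a (.f (nat_lit 434) (nat_lit 467) (nat_lit 431) (.f (nat_lit 402) (nat_lit 403) (nat_lit 2447) (.d (nat_lit 401) (nat_lit 369) (nat_lit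 7537) (nat_lit 430) (nat_lit 2446)))) (.a (.f (nat_lit 465) (nat_lit 430) (nat_lit 430) (.d (nat_lit 467) (nat_lit 464) (nat_lit 3503) (nat_lit 468) (nat_lit 3504))) (.a (.f (nat_lit 434) (nat_lit 467) (nat_lit 431) (.f (nat_lit 402) (nat_lit 403) (nat_lit 2447) (.f (nat_lit 401) (nat_lit 369) (nat_lit 7537) (.f (nat_lit 399) (nat_lit 398) (nat_lit 3470) (.f (nat_lit 400) (nat_lit 435) (nat_lit 399) (.f (nat_lit 370) (nat_lit 371) (nat_lit 2415) (.d (nat_lit 338) (nat_lit 306) (nat_lit 5425) (nat_lit 465) (nat_lit 5457)))))))) (.f (nat_lit 430) (nat_lit 465) (nat_lit 430) (.f (nat_lit 401) (nat_lit 402) (nat_lit 2446) (.f (nat_lit 429) (nat_lit 400) (nat_lit 2445) (.d (nat_lit 461) (nat_lit 460) (nat_lit 1452) (nat_lit 462) (nat_lit 1453))))))))))) (.a s122726 (.a s122735 (.a s122738 (.a (.p (nat_lit 465) (.a (.f (nat_lit 432) (nat_lit 430) (nat_lit 430) (.d (nat_lit 467) (nat_lit 464) (nat_lit 3503) (nat_lit 468) (nat_lit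 3504))) (.f (nat_lit 401) (nat_lit 369) (nat_lit 4465) (.d (nat_lit 530) (nat_lit 497) (nat_lit 4497) (nat_lit 562) (nat_lit 7601))))) s122743)))))) (.a (.p (nat_lit 466) (.a s122726 (.a s122735 (.a s122738 (.a (.p (nat_lit 497) (.a (.d (nat_lit 496) (nat_lit 467) (nat_lit 2511) (nat_lit 526) (nat_lit 1518)) (.a (.f (nat_lit 529) (nat_lit 526) (nat_lit 2542) (.f (nat_lit 465) (nat_lit 560) (nat_lit 5552) (.d (nat_lit 401) (nat_lit 369) (nat_lit 4465) (nat_lit 530) (nat_lit 4497)))) (.f (nat_lit 496) (nat_lit 467) (nat_lit 2511) (.f (nat_lit 465) (nat_lit 401) (nat_lit 5520) (.d (nat_lit 530) (nat_lit 531) (nat_lit 495) (nat_lit 562) (nat_lit 7601))))))) (.p (nat_lit 432) (.a (.f (nat_lit 434) (nat_lit 467) (nat_lit 431) (.f (nat_lit 430) (nat_lit 465) (nat_lit 430) (.d (nat_lit 398) (nat_lit 397) (nat_lit 3469) (nat_lit 399) (nat_lit 3470)))) (.a (.f (nat_lit 434) (nat_lit 467) (nat_lit 431) (.f (nat_lit 403) (nat_lit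 402) (nat_lit 2447) (.d (nat_lit 435) (nat_lit 404) (nat_lit 2448) (nat_lit 530) (nat_lit 6546)))) (.f (nat_lit 430) (nat_lit 465) (nat_lit 430) (.f (nat_lit 397) (nat_lit 398) (nat_lit 3469) (.f (nat_lit 429) (nat_lit 396) (nat_lit 3468) (.d (nat_lit 461) (nat_lit 460) (nat_lit 1452) (nat_lit 462) (nat_lit 1453))))))))))))) (.a s122671 (.a (.p (nat_lit 432) (.a s122293 (.a (.p (nat_lit 434) (.a (.f (nat_lit 466) (nat_lit 467) (nat_lit 431) (.f (nat_lit 401) (nat_lit 530) (nat_lit 7569) (.d (nat_lit 402) (nat_lit 369) (nat_lit 7537) (nat_lit 403) (nat_lit 2447)))) (.a (.f (nat_lit 399) (nat_lit 398) (nat_lit 3470) (.f (nat_lit 435) (nat_lit 400) (nat_lit 3471) (.d (nat_lit 403) (nat_lit 402) (nat_lit 2447) (nat_lit 404) (nat_lit 2448)))) (.f (nat_lit 399) (nat_lit 398) (nat_lit 3470) (.f (nat_lit 435) (nat_lit 400) (nat_lit 3471) (.d (nat_lit 467) (nat_lit 466) (nat_lit 431) (nat_lit 468) (nat_lit 432))))))) (.a s122230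 (.a (.p (nat_lit 496) (.a (.d (nat_lit 464) (nat_lit 400) (nat_lit 5519) (nat_lit 401) (nat_lit 6544)) (.f (nat_lit 526) (nat_lit 497) (nat_lit 1518) (.f (nat_lit 525) (nat_lit 524) (nat_lit 2540) (.f (nat_lit 557) (nat_lit 556) (nat_lit 1548) (.f (nat_lit 493) (nat_lit 492) (nat_lit 3564) (.f (nat_lit 558) (nat_lit 529) (nat_lit 1549) (.d (nat_lit 461) (nat_lit 429) (nat_lit 4525) (nat_lit 590) (nat_lit 4557))))))))) (.a (.p (nat_lit 496) (.a (.d (nat_lit 464) (nat_lit 399) (nat_lit 7567) (nat_lit 401) (nat_lit 6544)) (.f (nat_lit 526) (nat_lit 497) (nat_lit 1518) (.f (nat_lit 525) (nat_lit 524) (nat_lit 2540) (.f (nat_lit 557) (nat_lit 556) (nat_lit 1548) (.f (nat_lit 493) (nat_lit 492) (nat_lit 3564) (.f (nat_lit 558) (nat_lit 529) (nat_lit 1549) (.d (nat_lit 461) (nat_lit 429) (nat_lit 4525) (nat_lit 590) (nat_lit 4557))))))))) (.p (nat_lit 496) (.a (.d (nat_lit 464) (nat_lit 399) (nat_lit 7567) (nat_lit 400) (nat_lit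 5519)) (.f (nat_lit 526) (nat_lit 497) (nat_lit 1518) (.f (nat_lit 525) (nat_lit 524) (nat_lit 2540) (.f (nat_lit 557) (nat_lit 556) (nat_lit 1548) (.f (nat_lit 493) (nat_lit 492) (nat_lit 3564) (.f (nat_lit 558) (nat_lit 529) (nat_lit 1549) (.d (nat_lit 461) (nat_lit 429) (nat_lit 4525) (nat_lit 590) (nat_lit 4557))))))))))))))) (.a (.p (nat_lit 497) (.a (.d (nat_lit 526) (nat_lit 496) (nat_lit 1518) (nat_lit 529) (nat_lit 2542)) (.a (.f (nat_lit 529) (nat_lit 526) (nat_lit 2542) (.f (nat_lit 465) (nat_lit 560) (nat_lit 5552) (.f (nat_lit 402) (nat_lit 434) (nat_lit 6545) (.f (nat_lit 401) (nat_lit 370) (nat_lit 6513) (.f (nat_lit 369) (nat_lit 466) (nat_lit 4465) (.d (nat_lit 368) (nat_lit 336) (nat_lit 7504) (nat_lit 400) (nat_lit 7536))))))) (.a (.f (nat_lit 496) (nat_lit 526) (nat_lit 1518) (.f (nat_lit 465) (nat_lit 401) (nat_lit 5520) (.d (nat_lit 560) (nat_lit 464) (nat_lit 6576) (nat_lit 592) (nat_lit 6608))))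 (.p (nat_lit 530) (.a (.f (nat_lit 465) (nat_lit 401) (nat_lit 4497) (.d (nat_lit 562) (nat_lit 466) (nat_lit 7601) (nat_lit 594) (nat_lit 7633))) (.a (.f (nat_lit 496) (nat_lit 531) (nat_lit 495) (.f (nat_lit 466) (nat_lit 467) (nat_lit 2511) (.f (nat_lit 434) (nat_lit 401) (nat_lit 7569) (.f (nat_lit 402) (nat_lit 529) (nat_lit 5521) (.d (nat_lit 403) (nat_lit 371) (nat_lit 6514) (nat_lit 435) (nat_lit 6546)))))) (.a (.f (nat_lit 465) (nat_lit 401) (nat_lit 4497) (.d (nat_lit 562) (nat_lit 529) (nat_lit 4529) (nat_lit 594) (nat_lit 7633))) (.f (nat_lit 496) (nat_lit 531) (nat_lit 495) (.f (nat_lit 466) (nat_lit 467) (nat_lit 2511) (.f (nat_lit 465) (nat_lit 562) (nat_lit 7601) (.d (nat_lit 560) (nat_lit 529) (nat_lit 5552) (nat_lit 592) (nat_lit 6608))))))))))))) (.a (.p (nat_lit 432) (.a s122310 (.a s122230 (.a (.p (nat_lit 496) (.a (.d (nat_lit 464) (nat_lit 400) (nat_lit 5519) (nat_lit 401) (nat_lit 6544)) (.f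 (nat_lit 526) (nat_lit 497) (nat_lit 1518) (.f (nat_lit 525) (nat_lit 524) (nat_lit 2540) (.f (nat_lit 557) (nat_lit 556) (nat_lit 1548) (.f (nat_lit 493) (nat_lit 492) (nat_lit 3564) (.f (nat_lit 558) (nat_lit 529) (nat_lit 1549) (.d (nat_lit 461) (nat_lit 429) (nat_lit 4525) (nat_lit 590) (nat_lit 4557))))))))) (.a (.p (nat_lit 496) (.a (.d (nat_lit 464) (nat_lit 400) (nat_lit 5519) (nat_lit 401) (nat_lit 6544)) (.a (.f (nat_lit 497) (nat_lit 526) (nat_lit 1518) (.f (nat_lit 465) (nat_lit 401) (nat_lit 5520) (.d (nat_lit 529) (nat_lit 400) (nat_lit 7568) (nat_lit 560) (nat_lit 5552)))) (.a (.d (nat_lit 464) (nat_lit 399) (nat_lit 7567) (nat_lit 401) (nat_lit 6544)) (.d (nat_lit 464) (nat_lit 399) (nat_lit 7567) (nat_lit 400) (nat_lit 5519)))))) (.a (.p (nat_lit 496) (.a (.d (nat_lit 464) (nat_lit 399) (nat_lit 7567) (nat_lit 401) (nat_lit 6544)) (.f (nat_lit 526) (nat_lit 497) (nat_lit 1518) (.f (nat_lit 525) (nat_lit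 524) (nat_lit 2540) (.f (nat_lit 557) (nat_lit 556) (nat_lit 1548) (.f (nat_lit 493) (nat_lit 492) (nat_lit 3564) (.f (nat_lit 558) (nat_lit 529) (nat_lit 1549) (.d (nat_lit 461) (nat_lit 429) (nat_lit 4525) (nat_lit 590) (nat_lit 4557))))))))) (.p (nat_lit 496) (.a (.d (nat_lit 464) (nat_lit 399) (nat_lit 7567) (nat_lit 400) (nat_lit 5519)) (.f (nat_lit 526) (nat_lit 497) (nat_lit 1518) (.f (nat_lit 525) (nat_lit 524) (nat_lit 2540) (.f (nat_lit 557) (nat_lit 556) (nat_lit 1548) (.f (nat_lit 493) (nat_lit 492) (nat_lit 3564) (.f (nat_lit 558) (nat_lit 529) (nat_lit 1549) (.d (nat_lit 461) (nat_lit 429) (nat_lit 4525) (nat_lit 590) (nat_lit 4557))))))))))))))) (.a (.p (nat_lit 432) (.a s122328 (.a (.p (nat_lit 430) (.a (.f (nat_lit 401) (nat_lit 402) (nat_lit 2446) (.f (nat_lit 429) (nat_lit 400) (nat_lit 2445) (.d (nat_lit 461) (nat_lit 460) (nat_lit 1452) (nat_lit 462) (nat_lit 1453)))) (.a (.f (nat_lit 401) (nat_lit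 402) (nat_lit 2446) (.f (nat_lit 465) (nat_lit 466) (nat_lit 430) (.d (nat_lit 497) (nat_lit 496) (nat_lit 5520) (nat_lit 530) (nat_lit 4497)))) (.f (nat_lit 397) (nat_lit 398) (nat_lit 3469) (.f (nat_lit 429) (nat_lit 396) (nat_lit 3468) (.d (nat_lit 461) (nat_lit 460) (nat_lit 1452) (nat_lit 462) (nat_lit 1453))))))) (.a s122247 (.a (.p (nat_lit 496) (.a (.d (nat_lit 464) (nat_lit 400) (nat_lit 5519) (nat_lit 401) (nat_lit 6544)) (.f (nat_lit 526) (nat_lit 497) (nat_lit 1518) (.f (nat_lit 525) (nat_lit 524) (nat_lit 2540) (.f (nat_lit 557) (nat_lit 556) (nat_lit 1548) (.f (nat_lit 493) (nat_lit 492) (nat_lit 3564) (.f (nat_lit 558) (nat_lit 529) (nat_lit 1549) (.d (nat_lit 461) (nat_lit 429) (nat_lit 4525) (nat_lit 590) (nat_lit 4557))))))))) (.a (.p (nat_lit 496) (.a (.d (nat_lit 464) (nat_lit 400) (nat_lit 5519) (nat_lit 401) (nat_lit 6544)) (.a (.f (nat_lit 497) (nat_lit 526) (nat_lit 1518) (.f (nat_lit 465) (nat_lit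 401) (nat_lit 5520) (.d (nat_lit 529) (nat_lit 400) (nat_lit 7568) (nat_lit 560) (nat_lit 5552)))) (.a (.d (nat_lit 464) (nat_lit 399) (nat_lit 7567) (nat_lit 401) (nat_lit 6544)) (.d (nat_lit 464) (nat_lit 399) (nat_lit 7567) (nat_lit 400) (nat_lit 5519)))))) (.a (.p (nat_lit 496) (.a (.d (nat_lit 464) (nat_lit 399) (nat_lit 7567) (nat_lit 401) (nat_lit 6544)) (.f (nat_lit 526) (nat_lit 497) (nat_lit 1518) (.f (nat_lit 525) (nat_lit 524) (nat_lit 2540) (.f (nat_lit 557) (nat_lit 556) (nat_lit 1548) (.f (nat_lit 493) (nat_lit 492) (nat_lit 3564) (.f (nat_lit 558) (nat_lit 529) (nat_lit 1549) (.d (nat_lit 461) (nat_lit 429) (nat_lit 4525) (nat_lit 590) (nat_lit 4557))))))))) (.p (nat_lit 496) (.a (.d (nat_lit 464) (nat_lit 399) (nat_lit 7567) (nat_lit 400) (nat_lit 5519)) (.f (nat_lit 526) (nat_lit 497) (nat_lit 1518) (.f (nat_lit 525) (nat_lit 524) (nat_lit 2540) (.f (nat_lit 557) (nat_lit 556) (nat_lit 1548) (.f (nat_lit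 493) (nat_lit 492) (nat_lit 3564) (.f (nat_lit 558) (nat_lit 529) (nat_lit 1549) (.d (nat_lit 461) (nat_lit 429) (nat_lit 4525) (nat_lit 590) (nat_lit 4557)))))))))))))))) (.a (.p (nat_lit 466) (.a (.p (nat_lit 465) (.a (.f (nat_lit 432) (nat_lit 430) (nat_lit 430) (.d (nat_lit 467) (nat_lit 464) (nat_lit 3503) (nat_lit 468) (nat_lit 3504))) (.f (nat_lit 401) (nat_lit 369) (nat_lit 4465) (.d (nat_lit 530) (nat_lit 497) (nat_lit 4497) (nat_lit 562) (nat_lit 7601))))) (.a s122743 (.a s122738 (.a (.p (nat_lit 432) (.a (.f (nat_lit 465) (nat_lit 430) (nat_lit 430) (.d (nat_lit 467) (nat_lit 434) (nat_lit 431) (nat_lit 464) (nat_lit 3503))) (.a (.f (nat_lit 434) (nat_lit 467) (nat_lit 431) (.f (nat_lit 402) (nat_lit 403) (nat_lit 2447) (.d (nat_lit 430) (nat_lit 401) (nat_lit 2446) (nat_lit 465) (nat_lit 430)))) (.a (.f (nat_lit 434) (nat_lit 467) (nat_lit 431) (.f (nat_lit 402) (nat_lit 403) (nat_lit 2447) (.d (nat_lit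 401) (nat_lit 369) (nat_lit 7537) (nat_lit 430) (nat_lit 2446)))) (.a (.f (nat_lit 465) (nat_lit 430) (nat_lit 430) (.d (nat_lit 467) (nat_lit 464) (nat_lit 3503) (nat_lit 468) (nat_lit 3504))) (.a (.f (nat_lit 430) (nat_lit 465) (nat_lit 430) (.f (nat_lit 402) (nat_lit 401) (nat_lit 2446) (.f (nat_lit 434) (nat_lit 403) (nat_lit 2447) (.d (nat_lit 398) (nat_lit 397) (nat_lit 3469) (nat_lit 399) (nat_lit 3470))))) (.f (nat_lit 467) (nat_lit 434) (nat_lit 431) (.d (nat_lit 465) (nat_lit 464) (nat_lit 3503) (nat_lit 468) (nat_lit 3504))))))))) (.p (nat_lit 434) (.a (.f (nat_lit 432) (nat_lit 467) (nat_lit 431) (.f (nat_lit 402) (nat_lit 403) (nat_lit 2447) (.d (nat_lit 401) (nat_lit 369) (nat_lit 7537) (nat_lit 430) (nat_lit 2446)))) (.a (.f (nat_lit 401) (nat_lit 530) (nat_lit 7569) (.d (nat_lit 369) (nat_lit 337) (nat_lit 4433) (nat_lit 402) (nat_lit 7537))) (.a (.f (nat_lit 432) (nat_lit 467) (nat_lit 431) (.f (nat_lit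 403) (nat_lit 402) (nat_lit 2447) (.d (nat_lit 435) (nat_lit 404) (nat_lit 2448) (nat_lit 530) (nat_lit 6546)))) (.f (nat_lit 530) (nat_lit 401) (nat_lit 7569) (.f (nat_lit 467) (nat_lit 432) (nat_lit 431) (.d (nat_lit 435) (nat_lit 403) (nat_lit 6546) (nat_lit 562) (nat_lit 6578))))))))))))) (.a (.p (nat_lit 432) (.a s122263 (.a (.p (nat_lit 466) (.a (.f (nat_lit 434) (nat_lit 467) (nat_lit 431) (.f (nat_lit 430) (nat_lit 465) (nat_lit 430) (.d (nat_lit 398) (nat_lit 397) (nat_lit 3469) (nat_lit 399) (nat_lit 3470)))) (.a (.f (nat_lit 434) (nat_lit 467) (nat_lit 431) (.f (nat_lit 403) (nat_lit 402) (nat_lit 2447) (.d (nat_lit 435) (nat_lit 404) (nat_lit 2448) (nat_lit 530) (nat_lit 6546)))) (.f (nat_lit 430) (nat_lit 465) (nat_lit 430) (.f (nat_lit 397) (nat_lit 398) (nat_lit 3469) (.f (nat_lit 429) (nat_lit 396) (nat_lit 3468) (.d (nat_lit 461) (nat_lit 460) (nat_lit 1452) (nat_lit 462) (nat_lit 1453)))))))) (.a s122637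 (.a (.p (nat_lit 496) (.a (.d (nat_lit 464) (nat_lit 399) (nat_lit 7567) (nat_lit 400) (nat_lit 5519)) (.f (nat_lit 526) (nat_lit 497) (nat_lit 1518) (.f (nat_lit 525) (nat_lit 524) (nat_lit 2540) (.f (nat_lit 557) (nat_lit 556) (nat_lit 1548) (.f (nat_lit 493) (nat_lit 492) (nat_lit 3564) (.f (nat_lit 558) (nat_lit 529) (nat_lit 1549) (.d (nat_lit 461) (nat_lit 429) (nat_lit 4525) (nat_lit 590) (nat_lit 4557))))))))) (.p (nat_lit 466) (.a (.f (nat_lit 465) (nat_lit 430) (nat_lit 430) (.d (nat_lit 467) (nat_lit 434) (nat_lit 431) (nat_lit 464) (nat_lit 3503))) (.a (.f (nat_lit 434) (nat_lit 467) (nat_lit 431) (.f (nat_lit 403) (nat_lit 402) (nat_lit 2447) (.d (nat_lit 435) (nat_lit 404) (nat_lit 2448) (nat_lit 530) (nat_lit 6546)))) (.a (.f (nat_lit 465) (nat_lit 430) (nat_lit 430) (.d (nat_lit 467) (nat_lit 464) (nat_lit 3503) (nat_lit 468) (nat_lit 3504))) (.f (nat_lit 430) (nat_lit 465) (nat_lit 430) (.f (nat_lit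 397) (nat_lit 398) (nat_lit 3469) (.f (nat_lit 429) (nat_lit 396) (nat_lit 3468) (.d (nat_lit 461) (nat_lit 460) (nat_lit 1452) (nat_lit 462) (nat_lit 1453)))))))))))))) (.p (nat_lit 466) (.a (.p (nat_lit 465) (.a (.f (nat_lit 432) (nat_lit 430) (nat_lit 430) (.d (nat_lit 467) (nat_lit 464) (nat_lit 3503) (nat_lit 468) (nat_lit 3504))) (.f (nat_lit 401) (nat_lit 369) (nat_lit 4465) (.d (nat_lit 530) (nat_lit 497) (nat_lit 4497) (nat_lit 562) (nat_lit 7601))))) (.a (.p (nat_lit 530) (.a (.f (nat_lit 465) (nat_lit 562) (nat_lit 7601) (.f (nat_lit 432) (nat_lit 430) (nat_lit 430) (.d (nat_lit 467) (nat_lit 464) (nat_lit 3503) (nat_lit 468) (nat_lit 3504)))) (.a (.f (nat_lit 465) (nat_lit 562) (nat_lit 7601) (.d (nat_lit 401) (nat_lit 369) (nat_lit 4465) (nat_lit 434) (nat_lit 7569))) (.a (.f (nat_lit 434) (nat_lit 401) (nat_lit 7569) (.f (nat_lit 563) (nat_lit 531) (nat_lit 4530) (.d (nat_lit 562) (nat_lit 529) (nat_lit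 527) (nat_lit 595) (nat_lit 4562)))) (.f (nat_lit 434) (nat_lit 401) (nat_lit 7569) (.f (nat_lit 432) (nat_lit 467) (nat_lit 431) (.f (nat_lit 430) (nat_lit 465) (nat_lit 430) (.d (nat_lit 398) (nat_lit 397) (nat_lit 3469) (nat_lit 399) (nat_lit 3470))))))))) (.a s122738 (.a (.p (nat_lit 432) (.a (.f (nat_lit 465) (nat_lit 430) (nat_lit 430) (.d (nat_lit 467) (nat_lit 434) (nat_lit 431) (nat_lit 464) (nat_lit 3503))) (.a (.f (nat_lit 434) (nat_lit 467) (nat_lit 431) (.f (nat_lit 430) (nat_lit 465) (nat_lit 430) (.d (nat_lit 398) (nat_lit 397) (nat_lit 3469) (nat_lit 399) (nat_lit 3470)))) (.a (.f (nat_lit 434) (nat_lit 467) (nat_lit 431) (.f (nat_lit 399) (nat_lit 398) (nat_lit 3470) (.f (nat_lit 496) (nat_lit 464) (nat_lit 7567) (.f (nat_lit 526) (nat_lit 497) (nat_lit 1518) (.f (nat_lit 525) (nat_lit 524) (nat_lit 2540) (.f (nat_lit 557) (nat_lit 556) (nat_lit 1548) (.f (nat_lit 493) (nat_lit 492) (nat_lit 3564) (.f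 (nat_lit 558) (nat_lit 529) (nat_lit 1549) (.d (nat_lit 461) (nat_lit 429) (nat_lit 4525) (nat_lit 590) (nat_lit 4557)))))))))) (.a (.f (nat_lit 465) (nat_lit 430) (nat_lit 430) (.d (nat_lit 467) (nat_lit 464) (nat_lit 3503) (nat_lit 468) (nat_lit 3504))) (.f (nat_lit 430) (nat_lit 465) (nat_lit 430) (.f (nat_lit 398) (nat_lit 397) (nat_lit 3469) (.f (nat_lit 399) (nat_lit 434) (nat_lit 3470) (.f (nat_lit 461) (nat_lit 462) (nat_lit 1453) (.f (nat_lit 429) (nat_lit 460) (nat_lit 1452) (.d (nat_lit 428) (nat_lit 400) (nat_lit 2444) (nat_lit 427) (nat_lit 2443)))))))))))) (.p (nat_lit 434) (.a (.f (nat_lit 530) (nat_lit 401) (nat_lit 7569) (.f (nat_lit 467) (nat_lit 432) (nat_lit 431) (.d (nat_lit 435) (nat_lit 403) (nat_lit 6546) (nat_lit 562) (nat_lit 6578)))) (.a (.f (nat_lit 432) (nat_lit 467) (nat_lit 431) (.f (nat_lit 399) (nat_lit 398) (nat_lit 3470) (.f (nat_lit 496) (nat_lit 464) (nat_lit 7567) (.f (nat_lit 526)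 (nat_lit 497) (nat_lit 1518) (.f (nat_lit 525) (nat_lit 524) (nat_lit 2540) (.f (nat_lit 557) (nat_lit 556) (nat_lit 1548) (.f (nat_lit 493) (nat_lit 492) (nat_lit 3564) (.f (nat_lit 558) (nat_lit 529) (nat_lit 1549) (.d (nat_lit 461) (nat_lit 429) (nat_lit 4525) (nat_lit 590) (nat_lit 4557)))))))))) (.f (nat_lit 530) (nat_lit 401) (nat_lit 7569) (.f (nat_lit 531) (nat_lit 563) (nat_lit 4530) (.d (nat_lit 496) (nat_lit 497) (nat_lit 495) (nat_lit 529) (nat_lit 3567))))))))))))))))))))))))))))))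
noncomputable def s122835 : Cert := .r (nat_lit 1318041150847370521773279386861539675741594051134284702542582758834977146465354143145177530847101464940825396698129533622113673914983634879073131964810607460352) (.p (nat_lit 431) (.a (.f (nat_lit 463) (nat_lit 560) (nat_lit 4527) (.f (nat_lit 399) (nat_lit 496) (nat_lit 4495) (.d (nat_lit 400) (nat_lit 368) (nat_lit 6511) (nat_lit 432) (nat_lit 6543)))) (.a (.p (nat_lit 526) (.a (.d (nat_lit 463) (nat_lit 558) (nat_lit 5550) (nat_lit 560) (nat_lit 4527)) (.a (.f (nat_lit 558) (nat_lit 463) (nat_lit 5550) (.f (nat_lit 557) (nat_lit 529) (nat_lit 1549) (.d (nat_lit 556) (nat_lit 525) (nat_lit 1548) (nat_lit 555) (nat_lit 2571)))) (.a (.p (nat_lit 496) (.a (.d (nat_lit 525) (nat_lit 497) (nat_lit 2541) (nat_lit 524) (nat_lit 2540)) (.a (.f (nat_lit 463) (nat_lit 560) (nat_lit 4527) (.f (nat_lit 525) (nat_lit 524) (nat_lit 2540) (.f (nat_lit 432) (nat_lit 400) (nat_lit 6543)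 (.f (nat_lit 430) (nat_lit 398) (nat_lit 7566) (.f (nat_lit 557) (nat_lit 556) (nat_lit 1548) (.f (nat_lit 493) (nat_lit 492) (nat_lit 3564) (.f (nat_lit 461) (nat_lit 462) (nat_lit 6573) (.d (nat_lit 460) (nat_lit 428) (nat_lit 7596) (nat_lit 429) (nat_lit 1452))))))))) (.f (nat_lit 560) (nat_lit 463) (nat_lit 4527) (.f (nat_lit 497) (nat_lit 498) (nat_lit 1518) (.d (nat_lit 592) (nat_lit 465) (nat_lit 6608) (nat_lit 624) (nat_lit 7663))))))) (.p (nat_lit 525) (.a (.d (nat_lit 496) (nat_lit 497) (nat_lit 2541) (nat_lit 524) (nat_lit 2540)) (.f (nat_lit 557) (nat_lit 556) (nat_lit 1548) (.f (nat_lit 493) (nat_lit 492) (nat_lit 3564) (.f (nat_lit 558) (nat_lit 529) (nat_lit 1549) (.d (nat_lit 461) (nat_lit 429) (nat_lit 4525) (nat_lit 590) (nat_lit 4557))))))))))) (.a s122813 (.a (.f (nat_lit 463) (nat_lit 560) (nat_lit 4527) (.f (nat_lit 496) (nat_lit 399) (nat_lit 4495) (.f (nat_lit 526) (nat_lit 558) (nat_lit 5550)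 (.d (nat_lit 525) (nat_lit 497) (nat_lit 2541) (nat_lit 524) (nat_lit 2540))))) (.a (.f (nat_lit 463) (nat_lit 560) (nat_lit 4527) (.f (nat_lit 400) (nat_lit 432) (nat_lit 6543) (.f (nat_lit 399) (nat_lit 368) (nat_lit 6511) (.d (nat_lit 398) (nat_lit 366) (nat_lit 7534) (nat_lit 430) (nat_lit 7566))))) (.p (nat_lit 526) (.a (.f (nat_lit 463) (nat_lit 558) (nat_lit 5550) (.f (nat_lit 496) (nat_lit 399) (nat_lit 4495) (.d (nat_lit 525) (nat_lit 497) (nat_lit 2541) (nat_lit 524) (nat_lit 2540)))) (.a (.f (nat_lit 558) (nat_lit 463) (nat_lit 5550) (.f (nat_lit 557) (nat_lit 529) (nat_lit 1549) (.d (nat_lit 556) (nat_lit 525) (nat_lit 1548) (nat_lit 555) (nat_lit 2571)))) (.a (.f (nat_lit 463) (nat_lit 558) (nat_lit 5550) (.f (nat_lit 399) (nat_lit 496) (nat_lit 4495) (.d (nat_lit 400) (nat_lit 368) (nat_lit 6511) (nat_lit 432) (nat_lit 6543)))) (.a (.p (nat_lit 525) (.a (.d (nat_lit 496) (nat_lit 497) (nat_lit 2541) (nat_lit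 524) (nat_lit 2540)) (.a (.f (nat_lit 492) (nat_lit 493) (nat_lit 3564) (.f (nat_lit 524) (nat_lit 491) (nat_lit 3563) (.d (nat_lit 556) (nat_lit 555) (nat_lit 1547) (nat_lit 557) (nat_lit 1548)))) (.f (nat_lit 496) (nat_lit 497) (nat_lit 2541) (.f (nat_lit 463) (nat_lit 399) (nat_lit 4495) (.f (nat_lit 432) (nat_lit 400) (nat_lit 6543) (.f (nat_lit 430) (nat_lit 398) (nat_lit 7566) (.f (nat_lit 493) (nat_lit 492) (nat_lit 3564) (.f (nat_lit 557) (nat_lit 556) (nat_lit 1548) (.f (nat_lit 461) (nat_lit 462) (nat_lit 6573) (.d (nat_lit 460) (nat_lit 428) (nat_lit 7596) (nat_lit 429) (nat_lit 1452)))))))))))) (.p (nat_lit 525) (.a (.d (nat_lit 496) (nat_lit 497) (nat_lit 2541) (nat_lit 524) (nat_lit 2540)) (.f (nat_lit 557) (nat_lit 556) (nat_lit 1548) (.f (nat_lit 493) (nat_lit 492) (nat_lit 3564) (.f (nat_lit 558) (nat_lit 529) (nat_lit 1549) (.d (nat_lit 461) (nat_lit 429) (nat_lit 4525) (nat_lit 590) (nat_lit 4557))))))))))))))))))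
noncomputable def s122877 : Cert := .r (nat_lit 6590205753827678782879379200556049666604520361644343256957530695489474311314753991175303334875098563163388963846786832594623360698766017327129985692386971353088) (.p (nat_lit 592) (.a (.f (nat_lit 559) (nat_lit 558) (nat_lit 1550) (.d (nat_lit 624) (nat_lit 560) (nat_lit 7663) (nat_lit 591) (nat_lit 4591))) (.a (.f (nat_lit 559) (nat_lit 558) (nat_lit 1550) (.f (nat_lit 591) (nat_lit 624) (nat_lit 4591) (.f (nat_lit 623) (nat_lit 496) (nat_lit 6639) (.d (nat_lit 622) (nat_lit 590) (nat_lit 5614) (nat_lit 654) (nat_lit 5646))))) (.a (.f (nat_lit 560) (nat_lit 624) (nat_lit 7663) (.d (nat_lit 463) (nat_lit 431) (nat_lit 4527) (nat_lit 496) (nat_lit 7631))) (.f (nat_lit 559) (nat_lit 558) (nat_lit 1550) (.f (nat_lit 463) (nat_lit 560) (nat_lit 4559) (.f (nat_lit 430) (nat_lit 462) (nat_lit 7598) (.f (nat_lit 431) (nat_lit 398) (nat_lit 7566) (.f (nat_lit 400) (nat_lit 432)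 (nat_lit 6543) (.d (nat_lit 399) (nat_lit 368) (nat_lit 6511) (nat_lit 496) (nat_lit 4495)))))))))))
noncomputable def s123088 : Cert := .r (nat_lit 878694100599011500014437735720330509836350191925113156341337097447102382727904155809333713844768373422278432769074758707737866683001769675068394154179243802624) (.p (nat_lit 527) (.a (.p (nat_lit 463) (.a (.f (nat_lit 431) (nat_lit 560) (nat_lit 4527) (.f (nat_lit 432) (nat_lit 400) (nat_lit 6543) (.f (nat_lit 559) (nat_lit 464) (nat_lit 6575) (.d (nat_lit 430) (nat_lit 398) (nat_lit 7566) (nat_lit 462) (nat_lit 7598))))) (.a (.p (nat_lit 432) (.a (.f (nat_lit 431) (nat_lit 400) (nat_lit 6543) (.f (nat_lit 430) (nat_lit 398) (nat_lit 7566) (.d (nat_lit 559) (nat_lit 462) (nat_lit 7598) (nat_lit 464) (nat_lit 6575)))) (.a (.f (nat_lit 431) (nat_lit 400) (nat_lit 6543) (.f (nat_lit 399) (nat_lit 496) (nat_lit 4495) (.d (nat_lit 398) (nat_lit 366) (nat_lit 7534) (nat_lit 430) (nat_lit 7566)))) (.f (nat_lit 559) (nat_lit 464) (nat_lit 6575) (.f (nat_lit 558) (nat_lit 590) (nat_lit 5582) (.f (nat_lit 557) (nat_lit 556) (nat_lit 2572) (.d (nat_lit 529) (nat_lit 526) (nat_lit 1549) (nat_lit 530) (nat_lit 1550)))))))) (.a (.f (nat_lit 431) (nat_lit 560) (nat_lit 4527) (.f (nat_lit 399) (nat_lit 496) (nat_lit 4495) (.d (nat_lit 400) (nat_lit 368) (nat_lit 6511) (nat_lit 432) (nat_lit 6543)))) (.a (.f (nat_lit 431) (nat_lit 560) (nat_lit 4527) (.f (nat_lit 496) (nat_lit 399) (nat_lit 4495) (.f (nat_lit 526) (nat_lit 558) (nat_lit 5550) (.d (nat_lit 525) (nat_lit 497) (nat_lit 2541) (nat_lit 524) (nat_lit 2540))))) (.p (nat_lit 559) (.a (.f (nat_lit 560) (nat_lit 592) (nat_lit 4559) (.f (nat_lit 558) (nat_lit 590) (nat_lit 5582) (.d (nat_lit 557) (nat_lit 529) (nat_lit 2573) (nat_lit 556) (nat_lit 2572)))) (.f (nat_lit 464) (nat_lit 432) (nat_lit 6575) (.f (nat_lit 496) (nat_lit 591) (nat_lit 6607) (.f (nat_lit 462) (nat_lit 430) (nat_lit 7598) (.d (nat_lit 461) (nat_lit 460) (nat_lit 460) (nat_lit 497) (nat_lit 461)))))))))))) (.a (.p (nat_lit 463) (.a (.f (nat_lit 431) (nat_lit 560) (nat_lit 4527) (.f (nat_lit 432) (nat_lit 400) (nat_lit 6543) (.f (nat_lit 559) (nat_lit 464) (nat_lit 6575) (.d (nat_lit 430) (nat_lit 398) (nat_lit 7566) (nat_lit 462) (nat_lit 7598))))) (.a (.p (nat_lit 432) (.a (.f (nat_lit 431) (nat_lit 400) (nat_lit 6543) (.f (nat_lit 430) (nat_lit 398) (nat_lit 7566) (.d (nat_lit 559) (nat_lit 462) (nat_lit 7598) (nat_lit 464) (nat_lit 6575)))) (.a (.f (nat_lit 431) (nat_lit 400) (nat_lit 6543) (.f (nat_lit 399) (nat_lit 496) (nat_lit 4495) (.d (nat_lit 398) (nat_lit 366) (nat_lit 7534) (nat_lit 430) (nat_lit 7566)))) (.f (nat_lit 559) (nat_lit 464) (nat_lit 6575) (.f (nat_lit 558) (nat_lit 590) (nat_lit 5582) (.f (nat_lit 557) (nat_lit 556) (nat_lit 2572) (.d (nat_lit 529) (nat_lit 526) (nat_lit 1549) (nat_lit 530) (nat_lit 1550)))))))) (.a (.f (nat_lit 431) (nat_lit 560) (nat_lit 4527) (.f (nat_lit 399) (nat_lit 496) (nat_lit 4495) (.d (nat_lit 400) (nat_lit 368) (nat_lit 6511) (nat_lit 432) (nat_lit 6543)))) (.a (.f (nat_lit 431) (nat_lit 560) (nat_lit 4527) (.f (nat_lit 496) (nat_lit 399) (nat_lit 4495) (.f (nat_lit 526) (nat_lit 558) (nat_lit 5550) (.d (nat_lit 525) (nat_lit 497) (nat_lit 2541) (nat_lit 524) (nat_lit 2540))))) (.p (nat_lit 559) (.a (.f (nat_lit 560) (nat_lit 592) (nat_lit 4559) (.f (nat_lit 558) (nat_lit 590) (nat_lit 5582) (.d (nat_lit 557) (nat_lit 529) (nat_lit 2573) (nat_lit 556) (nat_lit 2572)))) (.f (nat_lit 464) (nat_lit 432) (nat_lit 6575) (.f (nat_lit 496) (nat_lit 591) (nat_lit 6607) (.f (nat_lit 462) (nat_lit 430) (nat_lit 7598) (.d (nat_lit 497) (nat_lit 461) (nat_lit 461) (nat_lit 498) (nat_lit 3534)))))))))))) (.a (.p (nat_lit 463) (.a (.f (nat_lit 431) (nat_lit 560) (nat_lit 4527) (.f (nat_lit 432) (nat_lit 400) (nat_lit 6543) (.f (nat_lit 559) (nat_lit 464) (nat_lit 6575) (.d (nat_lit 430) (nat_lit 398) (nat_lit 7566) (nat_lit 462) (nat_lit 7598))))) (.a (.p (nat_lit 432) (.a (.f (nat_lit 431) (nat_lit 400) (nat_lit 6543) (.f (nat_lit 430) (nat_lit 398) (nat_lit 7566) (.d (nat_lit 559) (nat_lit 462) (nat_lit 7598) (nat_lit 464) (nat_lit 6575)))) (.a (.f (nat_lit 431) (nat_lit 400) (nat_lit 6543) (.f (nat_lit 399) (nat_lit 496) (nat_lit 4495) (.d (nat_lit 398) (nat_lit 366) (nat_lit 7534) (nat_lit 430) (nat_lit 7566)))) (.f (nat_lit 559) (nat_lit 464) (nat_lit 6575) (.f (nat_lit 558) (nat_lit 590) (nat_lit 5582) (.f (nat_lit 557) (nat_lit 556) (nat_lit 2572) (.d (nat_lit 529) (nat_lit 526) (nat_lit 1549) (nat_lit 530) (nat_lit 1550)))))))) (.a (.f (nat_lit 431) (nat_lit 560) (nat_lit 4527) (.f (nat_lit 399) (nat_lit 496) (nat_lit 4495) (.d (nat_lit 400) (nat_lit 368) (nat_lit 6511) (nat_lit 432) (nat_lit 6543)))) (.a (.f (nat_lit 431) (nat_lit 560) (nat_lit 4527) (.f (nat_lit 399) (nat_lit 496) (nat_lit 4495) (.d (nat_lit 398) (nat_lit 366) (nat_lit 7534) (nat_lit 430) (nat_lit 7566)))) (.p (nat_lit 559) (.a (.f (nat_lit 560) (nat_lit 592) (nat_lit 4559) (.f (nat_lit 558) (nat_lit 590) (nat_lit 5582) (.d (nat_lit 557) (nat_lit 529) (nat_lit 2573) (nat_lit 556) (nat_lit 2572)))) (.f (nat_lit 464) (nat_lit 432) (nat_lit 6575) (.f (nat_lit 496) (nat_lit 591) (nat_lit 6607) (.f (nat_lit 462) (nat_lit 430) (nat_lit 7598) (.d (nat_lit 461) (nat_lit 460) (nat_lit 460) (nat_lit 497) (nat_lit 461)))))))))))) (.a (.p (nat_lit 463) (.a (.f (nat_lit 431) (nat_lit 560) (nat_lit 4527) (.f (nat_lit 432) (nat_lit 400) (nat_lit 6543) (.f (nat_lit 559) (nat_lit 464) (nat_lit 6575) (.d (nat_lit 430) (nat_lit 398) (nat_lit 7566) (nat_lit 462) (nat_lit 7598))))) (.a (.p (nat_lit 432) (.a (.f (nat_lit 431) (nat_lit 400) (nat_lit 6543) (.f (nat_lit 430) (nat_lit 398) (nat_lit 7566) (.d (nat_lit 559) (nat_lit 462) (nat_lit 7598) (nat_lit 464) (nat_lit 6575)))) (.a (.f (nat_lit 431) (nat_lit 400) (nat_lit 6543) (.f (nat_lit 399) (nat_lit 496) (nat_lit 4495) (.d (nat_lit 398) (nat_lit 366) (nat_lit 7534) (nat_lit 430) (nat_lit 7566)))) (.f (nat_lit 559) (nat_lit 464) (nat_lit 6575) (.f (nat_lit 558) (nat_lit 590) (nat_lit 5582) (.f (nat_lit 529) (nat_lit 530) (nat_lit 1550) (.f (nat_lit 526) (nat_lit 557) (nat_lit 1549) (.f (nat_lit 497) (nat_lit 498) (nat_lit 2542) (.f (nat_lit 525) (nat_lit 496) (nat_lit 2541) (.f (nat_lit 524) (nat_lit 523) (nat_lit 523) (.d (nat_lit 492) (nat_lit 491) (nat_lit 3563) (nat_lit 493) (nat_lit 3564)))))))))))) (.a (.f (nat_lit 431) (nat_lit 560) (nat_lit 4527) (.f (nat_lit 399) (nat_lit 496) (nat_lit 4495) (.d (nat_lit 400) (nat_lit 368) (nat_lit 6511) (nat_lit 432) (nat_lit 6543)))) (.a (.f (nat_lit 431) (nat_lit 560) (nat_lit 4527) (.f (nat_lit 496) (nat_lit 399) (nat_lit 4495) (.f (nat_lit 526) (nat_lit 558) (nat_lit 5550) (.d (nat_lit 525) (nat_lit 497) (nat_lit 2541) (nat_lit 524) (nat_lit 2540))))) (.p (nat_lit 559) (.a (.f (nat_lit 464) (nat_lit 432) (nat_lit 6575) (.f (nat_lit 496) (nat_lit 591) (nat_lit 6607) (.f (nat_lit 462) (nat_lit 430) (nat_lit 7598) (.d (nat_lit 461) (nat_lit 460) (nat_lit 460) (nat_lit 497) (nat_lit 461))))) (.f (nat_lit 560) (nat_lit 592) (nat_lit 4559) (.f (nat_lit 558) (nat_lit 590) (nat_lit 5582) (.d (nat_lit 529) (nat_lit 530) (nat_lit 1550) (nat_lit 557) (nat_lit 2573))))))))))) (.a (.p (nat_lit 463) (.a (.f (nat_lit 431) (nat_lit 560) (nat_lit 4527) (.f (nat_lit 432) (nat_lit 400) (nat_lit 6543) (.f (nat_lit 559) (nat_lit 464) (nat_lit 6575) (.d (nat_lit 430) (nat_lit 398) (nat_lit 7566) (nat_lit 462) (nat_lit 7598))))) (.a (.p (nat_lit 432) (.a (.f (nat_lit 431) (nat_lit 400) (nat_lit 6543) (.f (nat_lit 430) (nat_lit 398) (nat_lit 7566) (.d (nat_lit 559) (nat_lit 462) (nat_lit 7598) (nat_lit 464) (nat_lit 6575)))) (.a (.f (nat_lit 431) (nat_lit 400) (nat_lit 6543) (.f (nat_lit 399) (nat_lit 496) (nat_lit 4495) (.d (nat_lit 398) (nat_lit 366) (nat_lit 7534) (nat_lit 430) (nat_lit 7566)))) (.f (nat_lit 559) (nat_lit 464) (nat_lit 6575) (.f (nat_lit 558) (nat_lit 590) (nat_lit 5582) (.f (nat_lit 557) (nat_lit 556) (nat_lit 2572) (.d (nat_lit 529) (nat_lit 526) (nat_lit 1549) (nat_lit 530) (nat_lit 1550)))))))) (.a (.f (nat_lit 431) (nat_lit 560) (nat_lit 4527) (.f (nat_lit 399) (nat_lit 496) (nat_lit 4495) (.d (nat_lit 400) (nat_lit 368) (nat_lit 6511) (nat_lit 432) (nat_lit 6543)))) (.a (.f (nat_lit 431) (nat_lit 560) (nat_lit 4527) (.f (nat_lit 496) (nat_lit 399) (nat_lit 4495) (.f (nat_lit 526) (nat_lit 558) (nat_lit 5550) (.d (nat_lit 525) (nat_lit 497) (nat_lit 2541) (nat_lit 524) (nat_lit 2540))))) (.p (nat_lit 559) (.a (.f (nat_lit 560) (nat_lit 592) (nat_lit 4559) (.f (nat_lit 558) (nat_lit 590) (nat_lit 5582) (.d (nat_lit 557) (nat_lit 529) (nat_lit 2573) (nat_lit 556) (nat_lit 2572)))) (.a (.f (nat_lit 558) (nat_lit 590) (nat_lit 5582) (.f (nat_lit 557) (nat_lit 556) (nat_lit 2572) (.d (nat_lit 529) (nat_lit 526) (nat_lit 1549) (nat_lit 530) (nat_lit 1550)))) (.a (.f (nat_lit 560) (nat_lit 592) (nat_lit 4559) (.f (nat_lit 464) (nat_lit 432) (nat_lit 6575) (.f (nat_lit 496) (nat_lit 591) (nat_lit 6607) (.f (nat_lit 465) (nat_lit 433) (nat_lit 6576) (.f (nat_lit 462) (nat_lit 430) (nat_lit 7598) (.f (nat_lit 497) (nat_lit 498) (nat_lit 462) (.f (nat_lit 525) (nat_lit 526) (nat_lit 2541) (.f (nat_lit 558) (nat_lit 590) (nat_lit 5582) (.d (nat_lit 557) (nat_lit 524) (nat_lit 3596) (nat_lit 556) (nat_lit 2572)))))))))) (.f (nat_lit 560) (nat_lit 592) (nat_lit 4559) (.f (nat_lit 464) (nat_lit 432) (nat_lit 6575) (.f (nat_lit 496) (nat_lit 591) (nat_lit 6607) (.f (nat_lit 465) (nat_lit 433) (nat_lit 6576) (.f (nat_lit 462) (nat_lit 430) (nat_lit 7598) (.f (nat_lit 498) (nat_lit 497) (nat_lit 462) (.d (nat_lit 466) (nat_lit 467) (nat_lit 1487) (nat_lit 499) (nat_lit 463))))))))))))))))) (.a (.p (nat_lit 463) (.a (.f (nat_lit 431) (nat_lit 560) (nat_lit 4527) (.f (nat_lit 432) (nat_lit 400) (nat_lit 6543) (.f (nat_lit 559) (nat_lit 464) (nat_lit 6575) (.d (nat_lit 430) (nat_lit 398) (nat_lit 7566) (nat_lit 462) (nat_lit 7598))))) (.a s120214 (.a (.f (nat_lit 431) (nat_lit 560) (nat_lit 4527) (.f (nat_lit 399) (nat_lit 496) (nat_lit 4495) (.d (nat_lit 400) (nat_lit 368) (nat_lit 6511) (nat_lit 432) (nat_lit 6543)))) (.a (.f (nat_lit 431) (nat_lit 560) (nat_lit 4527) (.f (nat_lit 496) (nat_lit 399) (nat_lit 4495) (.f (nat_lit 526) (nat_lit 558) (nat_lit 5550) (.d (nat_lit 525) (nat_lit 497) (nat_lit 2541) (nat_lit 524) (nat_lit 2540))))) (.p (nat_lit 559) (.a (.f (nat_lit 464) (nat_lit 432) (nat_lit 6575) (.f (nat_lit 496) (nat_lit 591) (nat_lit 6607) (.f (nat_lit 462) (nat_lit 430) (nat_lit 7598) (.d (nat_lit 461) (nat_lit 460) (nat_lit 460) (nat_lit 497) (nat_lit 461))))) (.a (.f (nat_lit 592) (nat_lit 560) (nat_lit 4559) (.f (nat_lit 591) (nat_lit 624) (nat_lit 4591) (.d (nat_lit 590) (nat_lit 558) (nat_lit 5582) (nat_lit 622) (nat_lit 5614)))) (.p (nat_lit 497) (.a (.f (nat_lit 464) (nat_lit 432) (nat_lit 6575) (.f (nat_lit 462) (nat_lit 430) (nat_lit 7598) (.d (nat_lit 498) (nat_lit 465) (nat_lit 462) (nat_lit 496) (nat_lit 3534)))) (.a (.f (nat_lit 560) (nat_lit 592) (nat_lit 4559) (.f (nat_lit 558) (nat_lit 590) (nat_lit 5582) (.f (nat_lit 529) (nat_lit 530) (nat_lit 1550) (.f (nat_lit 498) (nat_lit 526) (nat_lit 2542) (.f (nat_lit 465) (nat_lit 433) (nat_lit 5552) (.d (nat_lit 462) (nat_lit 430) (nat_lit 7598) (nat_lit 464) (nat_lit 462))))))) (.a (.f (nat_lit 558) (nat_lit 590) (nat_lit 5582) (.f (nat_lit 529) (nat_lit 530) (nat_lit 1550) (.f (nat_lit 498) (nat_lit 526) (nat_lit 2542) (.d (nat_lit 462) (nat_lit 430) (nat_lit 7598) (nat_lit 496) (nat_lit 3534))))) (.a (.f (nat_lit 464) (nat_lit 432) (nat_lit 6575) (.f (nat_lit 462) (nat_lit 430) (nat_lit 7598) (.f (nat_lit 461) (nat_lit 496) (nat_lit 461) (.f (nat_lit 492) (nat_lit 493) (nat_lit 1484) (.f (nat_lit 460) (nat_lit 491) (nat_lit 1483) (.d (nat_lit 428) (nat_lit 427) (nat_lit 3499) (nat_lit 429) (nat_lit 3500))))))) (.f (nat_lit 464) (nat_lit 432) (nat_lit 6575) (.f (nat_lit 558) (nat_lit 590) (nat_lit 5582) (.f (nat_lit 529) (nat_lit 530) (nat_lit 1550) (.f (nat_lit 498) (nat_lit 526) (nat_lit 2542) (.d (nat_lit 499) (nat_lit 496) (nat_lit 3535) (nat_lit 500) (nat_lit 1520))))))))))))))))))) (.a (.p (nat_lit 463) (.a (.f (nat_lit 431) (nat_lit 560) (nat_lit 4527) (.f (nat_lit 432) (nat_lit 400) (nat_lit 6543) (.f (nat_lit 559) (nat_lit 464) (nat_lit 6575) (.d (nat_lit 430) (nat_lit 398) (nat_lit 7566) (nat_lit 462) (nat_lit 7598))))) (.a (.p (nat_lit 432) (.a (.f (nat_lit 431) (nat_lit 400) (nat_lit 6543) (.f (nat_lit 430) (nat_lit 398) (nat_lit 7566) (.d (nat_lit 559) (nat_lit 462) (nat_lit 7598) (nat_lit 464) (nat_lit 6575)))) (.a (.f (nat_lit 431) (nat_lit 400) (nat_lit 6543) (.f (nat_lit 496) (nat_lit 399) (nat_lit 4495) (.f (nat_lit 526) (nat_lit 558) (nat_lit 5550) (.d (nat_lit 525) (nat_lit 497) (nat_lit 2541) (nat_lit 524) (nat_lit 2540))))) (.f (nat_lit 559) (nat_lit 464) (nat_lit 6575) (.f (nat_lit 558) (nat_lit 590) (nat_lit 5582) (.f (nat_lit 557) (nat_lit 556) (nat_lit 2572) (.d (nat_lit 529) (nat_lit 526) (nat_lit 1549) (nat_lit 530) (nat_lit 1550)))))))) (.a (.f (nat_lit 431) (nat_lit 560) (nat_lit 4527) (.f (nat_lit 399) (nat_lit 496) (nat_lit 4495) (.d (nat_lit 400) (nat_lit 368) (nat_lit 6511) (nat_lit 432) (nat_lit 6543)))) (.a (.f (nat_lit 431) (nat_lit 560) (nat_lit 4527) (.f (nat_lit 496) (nat_lit 399) (nat_lit 4495) (.f (nat_lit 526) (nat_lit 558) (nat_lit 5550) (.d (nat_lit 525) (nat_lit 497) (nat_lit 2541) (nat_lit 524) (nat_lit 2540))))) (.p (nat_lit 559) (.a (.f (nat_lit 560) (nat_lit 592) (nat_lit 4559) (.f (nat_lit 558) (nat_lit 590) (nat_lit 5582) (.d (nat_lit 557) (nat_lit 529) (nat_lit 2573) (nat_lit 556) (nat_lit 2572)))) (.f (nat_lit 464) (nat_lit 432) (nat_lit 6575) (.f (nat_lit 496) (nat_lit 591) (nat_lit 6607) (.f (nat_lit 462) (nat_lit 430) (nat_lit 7598) (.d (nat_lit 461) (nat_lit 460) (nat_lit 460) (nat_lit 497) (nat_lit 461)))))))))))) (.a (.p (nat_lit 463) (.a (.f (nat_lit 431) (nat_lit 560) (nat_lit 4527) (.f (nat_lit 399) (nat_lit 496) (nat_lit 4495) (.d (nat_lit 400) (nat_lit 368) (nat_lit 6511) (nat_lit 432) (nat_lit 6543)))) (.a s120250 (.a (.f (nat_lit 431) (nat_lit 560) (nat_lit 4527) (.f (nat_lit 432) (nat_lit 400) (nat_lit 6543) (.f (nat_lit 559) (nat_lit 464) (nat_lit 6575) (.d (nat_lit 558) (nat_lit 526) (nat_lit 5550) (nat_lit 590) (nat_lit 5582))))) (.a (.f (nat_lit 431) (nat_lit 560) (nat_lit 4527) (.f (nat_lit 496) (nat_lit 399) (nat_lit 4495) (.f (nat_lit 526) (nat_lit 558) (nat_lit 5550) (.d (nat_lit 525) (nat_lit 497) (nat_lit 2541) (nat_lit 524) (nat_lit 2540))))) (.p (nat_lit 559) (.a (.f (nat_lit 560) (nat_lit 592) (nat_lit 4559) (.f (nat_lit 558) (nat_lit 590) (nat_lit 5582) (.d (nat_lit 557) (nat_lit 529) (nat_lit 2573) (nat_lit 556) (nat_lit 2572)))) (.f (nat_lit 464) (nat_lit 432) (nat_lit 6575) (.f (nat_lit 496) (nat_lit 591) (nat_lit 6607) (.f (nat_lit 462) (nat_lit 430) (nat_lit 7598) (.d (nat_lit 461) (nat_lit 460) (nat_lit 460) (nat_lit 497) (nat_lit 461)))))))))))) (.a (.p (nat_lit 463) (.a (.f (nat_lit 431) (nat_lit 560) (nat_lit 4527) (.f (nat_lit 399) (nat_lit 496) (nat_lit 4495) (.d (nat_lit 400) (nat_lit 368) (nat_lit 6511) (nat_lit 432) (nat_lit 6543)))) (.a s120250 (.a (.f (nat_lit 431) (nat_lit 560) (nat_lit 4527) (.f (nat_lit 432) (nat_lit 400) (nat_lit 6543) (.f (nat_lit 559) (nat_lit 464) (nat_lit 6575) (.d (nat_lit 558) (nat_lit 526) (nat_lit 5550) (nat_lit 590) (nat_lit 5582))))) (.a (.f (nat_lit 431) (nat_lit 560) (nat_lit 4527) (.f (nat_lit 496) (nat_lit 399) (nat_lit 4495) (.f (nat_lit 526) (nat_lit 558) (nat_lit 5550) (.d (nat_lit 525) (nat_lit 497) (nat_lit 2541) (nat_lit 524) (nat_lit 2540))))) (.p (nat_lit 559) (.a (.f (nat_lit 560) (nat_lit 592) (nat_lit 4559) (.f (nat_lit 558) (nat_lit 590) (nat_lit 5582) (.d (nat_lit 557) (nat_lit 529) (nat_lit 2573) (nat_lit 556) (nat_lit 2572)))) (.a (.f (nat_lit 558) (nat_lit 590) (nat_lit 5582) (.f (nat_lit 557) (nat_lit 556) (nat_lit 2572) (.d (nat_lit 529) (nat_lit 526) (nat_lit 1549) (nat_lit 530) (nat_lit 1550)))) (.a (.f (nat_lit 592) (nat_lit 560) (nat_lit 4559) (.f (nat_lit 591) (nat_lit 624) (nat_lit 4591) (.d (nat_lit 590) (nat_lit 558) (nat_lit 5582) (nat_lit 622) (nat_lit 5614)))) (.f (nat_lit 560) (nat_lit 592) (nat_lit 4559) (.f (nat_lit 464) (nat_lit 432) (nat_lit 6575) (.f (nat_lit 496) (nat_lit 591) (nat_lit 6607) (.f (nat_lit 465) (nat_lit 433) (nat_lit 6576) (.f (nat_lit 466) (nat_lit 467) (nat_lit 1487) (.f (nat_lit 498) (nat_lit 499) (nat_lit 463) (.d (nat_lit 497) (nat_lit 462) (nat_lit 462) (nat_lit 526) (nat_lit 1518))))))))))))))))) (.a (.p (nat_lit 463) (.a (.f (nat_lit 431) (nat_lit 560) (nat_lit 4527) (.f (nat_lit 399) (nat_lit 496) (nat_lit 4495) (.d (nat_lit 400) (nat_lit 368) (nat_lit 6511) (nat_lit 432) (nat_lit 6543)))) (.a s120250 (.a (.f (nat_lit 431) (nat_lit 560) (nat_lit 4527) (.f (nat_lit 432) (nat_lit 400) (nat_lit 6543) (.f (nat_lit 559) (nat_lit 464) (nat_lit 6575) (.d (nat_lit 558) (nat_lit 526) (nat_lit 5550) (nat_lit 590) (nat_lit 5582))))) (.a (.f (nat_lit 431) (nat_lit 560) (nat_lit 4527) (.f (nat_lit 496) (nat_lit 399) (nat_lit 4495) (.f (nat_lit 526) (nat_lit 558) (nat_lit 5550) (.d (nat_lit 525) (nat_lit 497) (nat_lit 2541) (nat_lit 524) (nat_lit 2540))))) (.p (nat_lit 559) (.a (.f (nat_lit 560) (nat_lit 592) (nat_lit 4559) (.f (nat_lit 558) (nat_lit 590) (nat_lit 5582) (.d (nat_lit 557) (nat_lit 529) (nat_lit 2573) (nat_lit 556) (nat_lit 2572)))) (.a (.f (nat_lit 558) (nat_lit 590) (nat_lit 5582) (.f (nat_lit 557) (nat_lit 556) (nat_lit 2572) (.d (nat_lit 529) (nat_lit 526) (nat_lit 1549) (nat_lit 530) (nat_lit 1550)))) (.a (.f (nat_lit 592) (nat_lit 560) (nat_lit 4559) (.f (nat_lit 591) (nat_lit 624) (nat_lit 4591) (.d (nat_lit 590) (nat_lit 558) (nat_lit 5582) (nat_lit 622) (nat_lit 5614)))) (.f (nat_lit 560) (nat_lit 592) (nat_lit 4559) (.f (nat_lit 464) (nat_lit 432) (nat_lit 6575) (.f (nat_lit 496) (nat_lit 591) (nat_lit 6607) (.f (nat_lit 465) (nat_lit 433) (nat_lit 6576) (.f (nat_lit 466) (nat_lit 467) (nat_lit 1487) (.f (nat_lit 498) (nat_lit 499) (nat_lit 463) (.f (nat_lit 497) (nat_lit 526) (nat_lit 1518) (.f (nat_lit 434) (nat_lit 435) (nat_lit 2479) (.d (nat_lit 402) (nat_lit 370) (nat_lit 5489) (nat_lit 529) (nat_lit 5521))))))))))))))))))) (.a (.p (nat_lit 463) (.a (.f (nat_lit 431) (nat_lit 560) (nat_lit 4527) (.f (nat_lit 432) (nat_lit 400) (nat_lit 6543) (.f (nat_lit 559) (nat_lit 464) (nat_lit 6575) (.d (nat_lit 430) (nat_lit 398) (nat_lit 7566) (nat_lit 462) (nat_lit 7598))))) (.a s120214 (.a (.f (nat_lit 431) (nat_lit 560) (nat_lit 4527) (.f (nat_lit 399) (nat_lit 496) (nat_lit 4495) (.d (nat_lit 400) (nat_lit 368) (nat_lit 6511) (nat_lit 432) (nat_lit 6543)))) (.a (.f (nat_lit 431) (nat_lit 560) (nat_lit 4527) (.f (nat_lit 399) (nat_lit 496) (nat_lit 4495) (.d (nat_lit 398) (nat_lit 366) (nat_lit 7534) (nat_lit 430) (nat_lit 7566)))) (.p (nat_lit 559) (.a (.f (nat_lit 560) (nat_lit 592) (nat_lit 4559) (.f (nat_lit 558) (nat_lit 590) (nat_lit 5582) (.d (nat_lit 557) (nat_lit 529) (nat_lit 2573) (nat_lit 556) (nat_lit 2572)))) (.f (nat_lit 464) (nat_lit 432) (nat_lit 6575) (.f (nat_lit 496) (nat_lit 591) (nat_lit 6607) (.f (nat_lit 462) (nat_lit 430) (nat_lit 7598) (.d (nat_lit 461) (nat_lit 460) (nat_lit 460) (nat_lit 497) (nat_lit 461)))))))))))) (.a (.p (nat_lit 463) (.a (.f (nat_lit 431) (nat_lit 560) (nat_lit 4527) (.f (nat_lit 432) (nat_lit 400) (nat_lit 6543) (.f (nat_lit 559) (nat_lit 464) (nat_lit 6575) (.d (nat_lit 430) (nat_lit 398) (nat_lit 7566) (nat_lit 462) (nat_lit 7598))))) (.a s120277 (.a (.f (nat_lit 431) (nat_lit 560) (nat_lit 4527) (.f (nat_lit 399) (nat_lit 496) (nat_lit 4495) (.d (nat_lit 400) (nat_lit 368) (nat_lit 6511) (nat_lit 432) (nat_lit 6543)))) (.a (.f (nat_lit 431) (nat_lit 560) (nat_lit 4527) (.f (nat_lit 399) (nat_lit 496) (nat_lit 4495) (.d (nat_lit 398) (nat_lit 366) (nat_lit 7534) (nat_lit 430) (nat_lit 7566)))) (.p (nat_lit 464) (.a (.f (nat_lit 559) (nat_lit 432) (nat_lit 6575) (.f (nat_lit 496) (nat_lit 591) (nat_lit 6607) (.f (nat_lit 462) (nat_lit 430) (nat_lit 7598) (.d (nat_lit 461) (nat_lit 460) (nat_lit 460) (nat_lit 497) (nat_lit 461))))) (.a (.f (nat_lit 559) (nat_lit 432) (nat_lit 6575) s120287) (.a s120346 (.p (nat_lit 559) (.a (.f (nat_lit 496) (nat_lit 591) (nat_lit 6607) (.f (nat_lit 462) (nat_lit 430) (nat_lit 7598) (.d (nat_lit 461) (nat_lit 460) (nat_lit 460) (nat_lit 497) (nat_lit 461)))) (.a s120287 (.p (nat_lit 465) (.a (.f (nat_lit 462) (nat_lit 430) (nat_lit 7598) (.f (nat_lit 497) (nat_lit 498) (nat_lit 462) (.f (nat_lit 496) (nat_lit 461) (nat_lit 461) (.d (nat_lit 560) (nat_lit 433) (nat_lit 6576) (nat_lit 592) (nat_lit 4559))))) (.a (.f (nat_lit 462) (nat_lit 430) (nat_lit 7598) (.f (nat_lit 497) (nat_lit 498) (nat_lit 462) (.f (nat_lit 496) (nat_lit 461) (nat_lit 461) (.d (nat_lit 433) (nat_lit 401) (nat_lit 5520) (nat_lit 434) (nat_lit 2478))))) (.a (.f (nat_lit 462) (nat_lit 430) (nat_lit 7598) (.f (nat_lit 498) (nat_lit 497) (nat_lit 462) (.f (nat_lit 466) (nat_lit 499) (nat_lit 463) (.d (nat_lit 434) (nat_lit 433) (nat_lit 2478) (nat_lit 435) (nat_lit 2479))))) (.a (.f (nat_lit 560) (nat_lit 592) (nat_lit 4559) (.f (nat_lit 462) (nat_lit 430) (nat_lit 7598) (.d (nat_lit 433) (nat_lit 434) (nat_lit 2478) (nat_lit 496) (nat_lit 6576)))) (.a (.f (nat_lit 462) (nat_lit 430) (nat_lit 7598) (.f (nat_lit 497) (nat_lit 498) (nat_lit 462) (.f (nat_lit 461) (nat_lit 496) (nat_lit 461) (.f (nat_lit 492) (nat_lit 493) (nat_lit 1484) (.f (nat_lit 460) (nat_lit 491) (nat_lit 1483) (.d (nat_lit 428) (nat_lit 427) (nat_lit 3499) (nat_lit 429) (nat_lit 3500))))))) (.f (nat_lit 560) (nat_lit 592) (nat_lit 4559) (.f (nat_lit 496) (nat_lit 433) (nat_lit 6576) (.f (nat_lit 466) (nat_lit 467) (nat_lit 1487) (.f (nat_lit 498) (nat_lit 499) (nat_lit 463) (.f (nat_lit 497) (nat_lit 526) (nat_lit 1518) (.f (nat_lit 434) (nat_lit 435) (nat_lit 2479) (.d (nat_lit 402) (nat_lit 370) (nat_lit 5489) (nat_lit 529) (nat_lit 5521)))))))))))))))))))))))))) (.a (.p (nat_lit 530) (.a (.p (nat_lit 529) (.a (.f (nat_lit 559) (nat_lit 558) (nat_lit 1550) (.d (nat_lit 531) (nat_lit 496) (nat_lit 3567) (nat_lit 560) (nat_lit 1551))) (.a (.f (nat_lit 496) (nat_lit 531) (nat_lit 3567) (.f (nat_lit 559) (nat_lit 558) (nat_lit 1550) (.d (nat_lit 464) (nat_lit 432) (nat_lit 5551) (nat_lit 591) (nat_lit 6607)))) (.a (.f (nat_lit 559) (nat_lit 558) (nat_lit 1550) (.f (nat_lit 560) (nat_lit 531) (nat_lit 1551) (.d (nat_lit 463) (nat_lit 431) (nat_lit 4527) (nat_lit 592) (nat_lit 4559)))) (.a (.f (nat_lit 531) (nat_lit 496) (nat_lit 3567) (.d (nat_lit 499) (nat_lit 498) (nat_lit 2543) (nat_lit 500) (nat_lit 2544))) (.f (nat_lit 498) (nat_lit 499) (nat_lit 2543) (.f (nat_lit 497) (nat_lit 526) (nat_lit 2542) (.f (nat_lit 562) (nat_lit 563) (nat_lit 527) (.d (nat_lit 594) (nat_lit 465) (nat_lit 7633) (nat_lit 626) (nat_lit 7665)))))))))) (.a (.p (nat_lit 529) (.a (.f (nat_lit 496) (nat_lit 531) (nat_lit 3567) (.f (nat_lit 559) (nat_lit 558) (nat_lit 1550) (.d (nat_lit 464) (nat_lit 432) (nat_lit 5551) (nat_lit 591) (nat_lit 6607)))) (.f (nat_lit 498) (nat_lit 499) (nat_lit 2543) (.f (nat_lit 497) (nat_lit 526) (nat_lit 2542) (.f (nat_lit 562) (nat_lit 563) (nat_lit 527) (.d (nat_lit 594) (nat_lit 465) (nat_lit 7633) (nat_lit 626) (nat_lit 7665))))))) (.a (.p (nat_lit 529) (.a (.f (nat_lit 559) (nat_lit 558) (nat_lit 1550) (.f (nat_lit 560) (nat_lit 531) (nat_lit 1551) (.d (nat_lit 463) (nat_lit 431) (nat_lit 4527) (nat_lit 592) (nat_lit 4559)))) (.f (nat_lit 498) (nat_lit 499) (nat_lit 2543) (.f (nat_lit 497) (nat_lit 526) (nat_lit 2542) (.f (nat_lit 562) (nat_lit 563) (nat_lit 527) (.d (nat_lit 594) (nat_lit 465) (nat_lit 7633) (nat_lit 626) (nat_lit 7665))))))) (.a (.p (nat_lit 464) (.a (.p (nat_lit 432) (.a (.d (nat_lit 496) (nat_lit 400) (nat_lit 5519) (nat_lit 559) (nat_lit 5551)) (.a (.f (nat_lit 463) (nat_lit 559) (nat_lit 6575) (.d (nat_lit 431) (nat_lit 400) (nat_lit 6543) (nat_lit 560) (nat_lit 4527))) (.a (.f (nat_lit 496) (nat_lit 400) (nat_lit 5519) (.f (nat_lit 431) (nat_lit 399) (nat_lit 7567) (.f (nat_lit 463) (nat_lit 560) (nat_lit 4527) (.f (nat_lit 433) (nat_lit 401) (nat_lit 6544) (.d (nat_lit 462) (nat_lit 434) (nat_lit 1454) (nat_lit 461) (nat_lit 2477)))))) (.d (nat_lit 559) (nat_lit 463) (nat_lit 6575) (nat_lit 496) (nat_lit 5551)))))) (.a (.p (nat_lit 432) (.a (.d (nat_lit 496) (nat_lit 400) (nat_lit 5519) (nat_lit 559) (nat_lit 5551)) (.a (.f (nat_lit 463) (nat_lit 559) (nat_lit 6575) (.d (nat_lit 400) (nat_lit 368) (nat_lit 5487) (nat_lit 431) (nat_lit 6543))) (.a (.f (nat_lit 400) (nat_lit 496) (nat_lit 5519) (.d (nat_lit 463) (nat_lit 368) (nat_lit 5487) (nat_lit 431) (nat_lit 6543))) (.d (nat_lit 559) (nat_lit 463) (nat_lit 6575) (nat_lit 496) (nat_lit 5551)))))) (.a (.p (nat_lit 463) (.a (.f (nat_lit 431) (nat_lit 560) (nat_lit 4527) (.d (nat_lit 432) (nat_lit 400) (nat_lit 6543) (nat_lit 559) (nat_lit 6575))) (.a (.f (nat_lit 432) (nat_lit 559) (nat_lit 6575) (.d (nat_lit 400) (nat_lit 368) (nat_lit 5487) (nat_lit 431) (nat_lit 6543))) (.a (.f (nat_lit 431) (nat_lit 560) (nat_lit 4527) (.f (nat_lit 432) (nat_lit 400) (nat_lit 6543) (.f (nat_lit 430) (nat_lit 398) (nat_lit 7566) (.d (nat_lit 429) (nat_lit 428) (nat_lit 428) (nat_lit 465) (nat_lit 429))))) (.a (.f (nat_lit 431) (nat_lit 560) (nat_lit 4527) (.f (nat_lit 430) (nat_lit 398) (nat_lit 7566) (.f (nat_lit 462) (nat_lit 559) (nat_lit 7598) (.d (nat_lit 465) (nat_lit 429) (nat_lit 3501) (nat_lit 466) (nat_lit 3502))))) (.p (nat_lit 465) (.a (.f (nat_lit 559) (nat_lit 432) (nat_lit 6575) (.f (nat_lit 462) (nat_lit 430) (nat_lit 7598) (.f (nat_lit 498) (nat_lit 497) (nat_lit 462) (.f (nat_lit 466) (nat_lit 499) (nat_lit 463) (.d (nat_lit 433) (nat_lit 434) (nat_lit 2478) (nat_lit 562) (nat_lit 7601)))))) (.a (.p (nat_lit 498) (.a (.f (nat_lit 466) (nat_lit 499) (nat_lit 463) (.f (nat_lit 434) (nat_lit 435) (nat_lit 2479) (.d (nat_lit 462) (nat_lit 433) (nat_lit 2478) (nat_lit 497) (nat_lit 462)))) (.a (.f (nat_lit 466) (nat_lit 499) (nat_lit 463) (.f (nat_lit 434) (nat_lit 435) (nat_lit 2479) (.d (nat_lit 433) (nat_lit 462) (nat_lit 2478) (nat_lit 562) (nat_lit 7601)))) (.a (.f (nat_lit 466) (nat_lit 499) (nat_lit 463) (.f (nat_lit 435) (nat_lit 434) (nat_lit 2479) (.d (nat_lit 467) (nat_lit 436) (nat_lit 2480) (nat_lit 562) (nat_lit 6578)))) (.a (.f (nat_lit 462) (nat_lit 497) (nat_lit 462) (.f (nat_lit 433) (nat_lit 434) (nat_lit 2478) (.f (nat_lit 461) (nat_lit 432) (nat_lit 2477) (.d (nat_lit 429) (nat_lit 428) (nat_lit 3500) (nat_lit 430) (nat_lit 3501))))) (.f (nat_lit 497) (nat_lit 462) (nat_lit 462) (.d (nat_lit 499) (nat_lit 466) (nat_lit 463) (nat_lit 500) (nat_lit 3536)))))))) (.a (.p (nat_lit 466) (.a (.f (nat_lit 559) (nat_lit 432) (nat_lit 6575) (.f (nat_lit 462) (nat_lit 430) (nat_lit 7598) (.d (nat_lit 434) (nat_lit 433) (nat_lit 2478) (nat_lit 435) (nat_lit 2479)))) (.a (.f (nat_lit 498) (nat_lit 499) (nat_lit 463) (.f (nat_lit 434) (nat_lit 435) (nat_lit 2479) (.d (nat_lit 433) (nat_lit 462) (nat_lit 2478) (nat_lit 562) (nat_lit 7601)))) (.a (.f (nat_lit 435) (nat_lit 434) (nat_lit 2479) (.f (nat_lit 467) (nat_lit 436) (nat_lit 2480) (.d (nat_lit 499) (nat_lit 498) (nat_lit 463) (nat_lit 500) (nat_lit 464)))) (.f (nat_lit 559) (nat_lit 432) (nat_lit 6575) (.f (nat_lit 592) (nat_lit 560) (nat_lit 4559) (.f (nat_lit 498) (nat_lit 499) (nat_lit 463) (.f (nat_lit 562) (nat_lit 433) (nat_lit 7601) (.f (nat_lit 591) (nat_lit 624) (nat_lit 4591) (.f (nat_lit 595) (nat_lit 563) (nat_lit 4562) (.f (nat_lit 594) (nat_lit 627) (nat_lit 4594) (.d (nat_lit 593) (nat_lit 558) (nat_lit 3630) (nat_lit 625) (nat_lit 5617))))))))))))) (.a (.p (nat_lit 462) (.a (.d (nat_lit 559) (nat_lit 430) (nat_lit 7598) (nat_lit 432) (nat_lit 6575)) (.a (.f (nat_lit 433) (nat_lit 434) (nat_lit 2478) (.f (nat_lit 461) (nat_lit 432) (nat_lit 2477) (.d (nat_lit 429) (nat_lit 428) (nat_lit 3500) (nat_lit 430) (nat_lit 3501)))) (.a (.d (nat_lit 430) (nat_lit 429) (nat_lit 3501) (nat_lit 559) (nat_lit 7598)) (.f (nat_lit 432) (nat_lit 559) (nat_lit 6575) (.d (nat_lit 433) (nat_lit 434) (nat_lit 2478) (nat_lit 461) (nat_lit 2477))))))) (.a s120455 (.a (.f (nat_lit 559) (nat_lit 432) (nat_lit 6575) (.f (nat_lit 462) (nat_lit 430) (nat_lit 7598) (.f (nat_lit 498) (nat_lit 497) (nat_lit 462) (.f (nat_lit 466) (nat_lit 499) (nat_lit 463) (.f (nat_lit 435) (nat_lit 434) (nat_lit 2479) (.d (nat_lit 467) (nat_lit 436) (nat_lit 2480) (nat_lit 562) (nat_lit 6578))))))) (.a (.f (nat_lit 559) (nat_lit 432) (nat_lit 6575) (.f (nat_lit 462) (nat_lit 430) (nat_lit 7598) (.f (nat_lit 592) (nat_lit 560) (nat_lit 4559) (.f (nat_lit 498) (nat_lit 497) (nat_lit 462) (.f (nat_lit 466) (nat_lit 499) (nat_lit 463) (.f (nat_lit 562) (nat_lit 433) (nat_lit 7601) (.f (nat_lit 591) (nat_lit 624) (nat_lit 4591) (.f (nat_lit 595) (nat_lit 563) (nat_lit 4562) (.f (nat_lit 594) (nat_lit 627) (nat_lit 4594) (.d (nat_lit 593) (nat_lit 558) (nat_lit 3630) (nat_lit 625) (nat_lit 5617))))))))))) (.p (nat_lit 466) (.a (.f (nat_lit 435) (nat_lit 434) (nat_lit 2479) (.f (nat_lit 467) (nat_lit 436) (nat_lit 2480) (.d (nat_lit 499) (nat_lit 498) (nat_lit 463) (nat_lit 500) (nat_lit 464)))) (.a (.f (nat_lit 432) (nat_lit 559) (nat_lit 6575) (.f (nat_lit 435) (nat_lit 434) (nat_lit 2479) (.f (nat_lit 467) (nat_lit 436) (nat_lit 2480) (.f (nat_lit 500) (nat_lit 499) (nat_lit 464) (.d (nat_lit 468) (nat_lit 433) (nat_lit 3504) (nat_lit 501) (nat_lit 465)))))) (.a (.f (nat_lit 559) (nat_lit 432) (nat_lit 6575) (.f (nat_lit 592) (nat_lit 560) (nat_lit 4559) (.f (nat_lit 498) (nat_lit 499) (nat_lit 463) (.f (nat_lit 562) (nat_lit 433) (nat_lit 7601) (.f (nat_lit 591) (nat_lit 624) (nat_lit 4591) (.f (nat_lit 595) (nat_lit 563) (nat_lit 4562) (.f (nat_lit 594) (nat_lit 627) (nat_lit 4594) (.d (nat_lit 593) (nat_lit 558) (nat_lit 3630) (nat_lit 625) (nat_lit 5617))))))))) (.f (nat_lit 435) (nat_lit 434) (nat_lit 2479) (.f (nat_lit 467) (nat_lit 436) (nat_lit 2480) (.f (nat_lit 498) (nat_lit 562) (nat_lit 6578) (.f (nat_lit 432) (nat_lit 559) (nat_lit 6575) (.f (nat_lit 468) (nat_lit 433) (nat_lit 3504) (.f (nat_lit 469) (nat_lit 497) (nat_lit 1489) (.d (nat_lit 501) (nat_lit 500) (nat_lit 465) (nat_lit 502) (nat_lit 466))))))))))))))))))))))))) (.a (.p (nat_lit 496) (.a (.f (nat_lit 432) (nat_lit 400) (nat_lit 5519) (.f (nat_lit 431) (nat_lit 399) (nat_lit 7567) (.f (nat_lit 463) (nat_lit 560) (nat_lit 4527) (.f (nat_lit 433) (nat_lit 401) (nat_lit 6544) (.d (nat_lit 462) (nat_lit 434) (nat_lit 1454) (nat_lit 461) (nat_lit 2477)))))) (.a (.p (nat_lit 466) (.a (.f (nat_lit 432) (nat_lit 400) (nat_lit 5519) (.f (nat_lit 465) (nat_lit 467) (nat_lit 1487) (.f (nat_lit 433) (nat_lit 401) (nat_lit 6544) (.d (nat_lit 431) (nat_lit 399) (nat_lit 7567) (nat_lit 430) (nat_lit 430))))) (.a (.f (nat_lit 432) (nat_lit 400) (nat_lit 5519) (.f (nat_lit 431) (nat_lit 399) (nat_lit 7567) (.f (nat_lit 433) (nat_lit 401) (nat_lit 6544) (.f (nat_lit 434) (nat_lit 467) (nat_lit 431) (.d (nat_lit 463) (nat_lit 435) (nat_lit 1455) (nat_lit 462) (nat_lit 1454)))))) (.a (.f (nat_lit 467) (nat_lit 465) (nat_lit 1487) (.f (nat_lit 498) (nat_lit 497) (nat_lit 2511) (.f (nat_lit 435) (nat_lit 562) (nat_lit 6578) (.d (nat_lit 403) (nat_lit 371) (nat_lit 5490) (nat_lit 434) (nat_lit 6546))))) (.f (nat_lit 432) (nat_lit 400) (nat_lit 5519) (.f (nat_lit 431) (nat_lit 399) (nat_lit 7567) (.f (nat_lit 433) (nat_lit 401) (nat_lit 6544) (.f (nat_lit 430) (nat_lit 465) (nat_lit 430) (.d (nat_lit 398) (nat_lit 397) (nat_lit 3469) (nat_lit 463) (nat_lit 7566)))))))))) (.a (.p (nat_lit 463) (.a (.f (nat_lit 431) (nat_lit 399) (nat_lit 4495) (.f (nat_lit 430) (nat_lit 398) (nat_lit 7566) (.f (nat_lit 465) (nat_lit 466) (nat_lit 3502) (.d (nat_lit 429) (nat_lit 428) (nat_lit 428) (nat_lit 462) (nat_lit 3501))))) (.a (.d (nat_lit 560) (nat_lit 431) (nat_lit 7599) (nat_lit 592) (nat_lit 7631)) (.f (nat_lit 560) (nat_lit 592) (nat_lit 7631) (.f (nat_lit 465) (nat_lit 433) (nat_lit 6576) (.f (nat_lit 466) (nat_lit 467) (nat_lit 1487) (.f (nat_lit 498) (nat_lit 499) (nat_lit 463) (.d (nat_lit 497) (nat_lit 462) (nat_lit 462) (nat_lit 531) (nat_lit 495))))))))) (.a (.f (nat_lit 432) (nat_lit 400) (nat_lit 5519) (.f (nat_lit 431) (nat_lit 399) (nat_lit 7567) (.f (nat_lit 463) (nat_lit 560) (nat_lit 4527) (.f (nat_lit 430) (nat_lit 398) (nat_lit 7566) (.d (nat_lit 429) (nat_lit 428) (nat_lit 428) (nat_lit 465) (nat_lit 429)))))) (.a (.f (nat_lit 432) (nat_lit 400) (nat_lit 5519) (.f (nat_lit 433) (nat_lit 401) (nat_lit 6544) (.f (nat_lit 465) (nat_lit 560) (nat_lit 6576) (.f (nat_lit 466) (nat_lit 467) (nat_lit 1487) (.d (nat_lit 431) (nat_lit 399) (nat_lit 7567) (nat_lit 430) (nat_lit 430)))))) (.f (nat_lit 432) (nat_lit 400) (nat_lit 5519) (.f (nat_lit 433) (nat_lit 401) (nat_lit 6544) (.f (nat_lit 560) (nat_lit 465) (nat_lit 6576) (.d (nat_lit 592) (nat_lit 463) (nat_lit 7631) (nat_lit 624) (nat_lit 7663))))))))))) (.a (.p (nat_lit 463) (.a (.f (nat_lit 431) (nat_lit 560) (nat_lit 4527) (.f (nat_lit 430) (nat_lit 398) (nat_lit 7566) (.f (nat_lit 462) (nat_lit 559) (nat_lit 7598) (.d (nat_lit 465) (nat_lit 429) (nat_lit 3501) (nat_lit 466) (nat_lit 3502))))) (.a (.p (nat_lit 496) (.a (.f (nat_lit 431) (nat_lit 399) (nat_lit 4495) (.f (nat_lit 430) (nat_lit 398) (nat_lit 7566) (.d (nat_lit 559) (nat_lit 462) (nat_lit 7598) (nat_lit 591) (nat_lit 6607)))) (.a (.f (nat_lit 431) (nat_lit 399) (nat_lit 4495) (.f (nat_lit 430) (nat_lit 398) (nat_lit 7566) (.f (nat_lit 465) (nat_lit 466) (nat_lit 3502) (.d (nat_lit 429) (nat_lit 428) (nat_lit 428) (nat_lit 462) (nat_lit 3501))))) (.a (.f (nat_lit 559) (nat_lit 591) (nat_lit 6607) (.f (nat_lit 462) (nat_lit 430) (nat_lit 7598) (.d (nat_lit 461) (nat_lit 460) (nat_lit 460) (nat_lit 497) (nat_lit 461)))) (.f (nat_lit 431) (nat_lit 399) (nat_lit 4495) (.f (nat_lit 526) (nat_lit 558) (nat_lit 5550) (.d (nat_lit 525) (nat_lit 497) (nat_lit 2541) (nat_lit 524) (nat_lit 2540)))))))) (.a (.f (nat_lit 431) (nat_lit 560) (nat_lit 4527) (.f (nat_lit 496) (nat_lit 399) (nat_lit 4495) (.f (nat_lit 526) (nat_lit 558) (nat_lit 5550) (.d (nat_lit 525) (nat_lit 497) (nat_lit 2541) (nat_lit 524) (nat_lit 2540))))) (.p (nat_lit 465) (.a s120455 (.a (.p (nat_lit 498) (.a (.f (nat_lit 466) (nat_lit 499) (nat_lit 463) (.f (nat_lit 434) (nat_lit 435) (nat_lit 2479) (.d (nat_lit 462) (nat_lit 433) (nat_lit 2478) (nat_lit 497) (nat_lit 462)))) (.a (.f (nat_lit 466) (nat_lit 499) (nat_lit 463) (.f (nat_lit 434) (nat_lit 435) (nat_lit 2479) (.d (nat_lit 433) (nat_lit 462) (nat_lit 2478) (nat_lit 562) (nat_lit 7601)))) (.a (.f (nat_lit 466) (nat_lit 499) (nat_lit 463) (.f (nat_lit 435) (nat_lit 434) (nat_lit 2479) (.d (nat_lit 467) (nat_lit 436) (nat_lit 2480) (nat_lit 562) (nat_lit 6578)))) (.f (nat_lit 497) (nat_lit 462) (nat_lit 462) (.d (nat_lit 496) (nat_lit 526) (nat_lit 1518) (nat_lit 531) (nat_lit 495))))))) (.a (.p (nat_lit 466) (.a (.f (nat_lit 434) (nat_lit 435) (nat_lit 2479) (.f (nat_lit 462) (nat_lit 433) (nat_lit 2478) (.d (nat_lit 430) (nat_lit 429) (nat_lit 3501) (nat_lit 559) (nat_lit 7598)))) (.a (.f (nat_lit 496) (nat_lit 467) (nat_lit 1487) (.d (nat_lit 560) (nat_lit 433) (nat_lit 6576) (nat_lit 592) (nat_lit 7631))) (.f (nat_lit 435) (nat_lit 434) (nat_lit 2479) (.f (nat_lit 467) (nat_lit 436) (nat_lit 2480) (.d (nat_lit 499) (nat_lit 498) (nat_lit 463) (nat_lit 500) (nat_lit 464))))))) (.a (.p (nat_lit 466) (.a (.f (nat_lit 434) (nat_lit 435) (nat_lit 2479) (.f (nat_lit 462) (nat_lit 433) (nat_lit 2478) (.d (nat_lit 430) (nat_lit 429) (nat_lit 3501) (nat_lit 559) (nat_lit 7598)))) (.a (.f (nat_lit 496) (nat_lit 467) (nat_lit 1487) (.d (nat_lit 560) (nat_lit 433) (nat_lit 6576) (nat_lit 592) (nat_lit 7631))) (.f (nat_lit 496) (nat_lit 467) (nat_lit 1487) (.f (nat_lit 560) (nat_lit 592) (nat_lit 7631) (.f (nat_lit 559) (nat_lit 591) (nat_lit 5583) (.f (nat_lit 462) (nat_lit 430) (nat_lit 7598) (.d (nat_lit 461) (nat_lit 460) (nat_lit 460) (nat_lit 497) (nat_lit 461))))))))) (.a (.p (nat_lit 498) (.a (.f (nat_lit 466) (nat_lit 499) (nat_lit 463) (.f (nat_lit 435) (nat_lit 434) (nat_lit 2479) (.d (nat_lit 467) (nat_lit 436) (nat_lit 2480) (nat_lit 562) (nat_lit 6578)))) (.a (.f (nat_lit 497) (nat_lit 462) (nat_lit 462) (.d (nat_lit 499) (nat_lit 466) (nat_lit 463) (nat_lit 500) (nat_lit 3536))) (.f (nat_lit 462) (nat_lit 497) (nat_lit 462) (.d (nat_lit 430) (nat_lit 429) (nat_lit 3501) (nat_lit 559) (nat_lit 7598)))))) (.a (.p (nat_lit 433) (.a (.f (nat_lit 462) (nat_lit 434) (nat_lit 2478) (.d (nat_lit 430) (nat_lit 429) (nat_lit 3501) (nat_lit 559) (nat_lit 7598))) (.a (.f (nat_lit 462) (nat_lit 434) (nat_lit 2478) (.f (nat_lit 497) (nat_lit 498) (nat_lit 462) (.d (nat_lit 496) (nat_lit 401) (nat_lit 5520) (nat_lit 461) (nat_lit 461)))) (.f (nat_lit 496) (nat_lit 560) (nat_lit 6576) (.d (nat_lit 401) (nat_lit 369) (nat_lit 5488) (nat_lit 497) (nat_lit 5520)))))) (.a (.p (nat_lit 498) (.a (.f (nat_lit 497) (nat_lit 462) (nat_lit 462) (.d (nat_lit 499) (nat_lit 466) (nat_lit 463) (nat_lit 500) (nat_lit 3536))) (.a (.f (nat_lit 466) (nat_lit 499) (nat_lit 463) (.f (nat_lit 496) (nat_lit 467) (nat_lit 1487) (.d (nat_lit 560) (nat_lit 433) (nat_lit 6576) (nat_lit 592) (nat_lit 7631)))) (.f (nat_lit 462) (nat_lit 497) (nat_lit 462) (.d (nat_lit 430) (nat_lit 429) (nat_lit 3501) (nat_lit 559) (nat_lit 7598)))))) (.p (nat_lit 466) (.a (.f (nat_lit 496) (nat_lit 467) (nat_lit 1487) (.d (nat_lit 560) (nat_lit 433) (nat_lit 6576) (nat_lit 592) (nat_lit 7631))) (.a (.f (nat_lit 435) (nat_lit 434) (nat_lit 2479) (.f (nat_lit 467) (nat_lit 436) (nat_lit 2480) (.d (nat_lit 499) (nat_lit 498) (nat_lit 463) (nat_lit 500) (nat_lit 464)))) (.f (nat_lit 498) (nat_lit 499) (nat_lit 463) (.f (nat_lit 433) (nat_lit 562) (nat_lit 7601) (.d (nat_lit 434) (nat_lit 401) (nat_lit 7569) (nat_lit 435) (nat_lit 2479))))))))))))))))))) (.a (.p (nat_lit 498) (.a (.p (nat_lit 496) (.a (.d (nat_lit 432) (nat_lit 400) (nat_lit 5519) (nat_lit 559) (nat_lit 5551)) (.d (nat_lit 497) (nat_lit 526) (nat_lit 1518) (nat_lit 531) (nat_lit 495)))) (.a s120700 (.a (.p (nat_lit 466) (.a s120611 (.a s120626 (.a (.p (nat_lit 562) (.a (.f (nat_lit 467) (nat_lit 435) (nat_lit 6578) (.f (nat_lit 594) (nat_lit 499) (nat_lit 6610) (.d (nat_lit 595) (nat_lit 563) (nat_lit 4562) (nat_lit 627) (nat_lit 4594)))) (.a (.f (nat_lit 465) (nat_lit 433) (nat_lit 7601) (.d (nat_lit 467) (nat_lit 435) (nat_lit 6578) (nat_lit 496) (nat_lit 1487))) (.a (.f (nat_lit 433) (nat_lit 465) (nat_lit 7601) (.f (nat_lit 434) (nat_lit 401) (nat_lit 7569) (.f (nat_lit 403) (nat_lit 435) (nat_lit 6546) (.f (nat_lit 402) (nat_lit 371) (nat_lit 6514) (.f (nat_lit 432) (nat_lit 431) (nat_lit 2447) (.d (nat_lit 496) (nat_lit 400) (nat_lit 5519) (nat_lit 559) (nat_lit 5551))))))) (.f (nat_lit 465) (nat_lit 433) (nat_lit 7601) (.f (nat_lit 496) (nat_lit 467) (nat_lit 1487) (.d (nat_lit 559) (nat_lit 432) (nat_lit 5551) (nat_lit 591) (nat_lit 6607)))))))) (.a (.p (nat_lit 496) (.a (.d (nat_lit 432) (nat_lit 400) (nat_lit 5519) (nat_lit 559) (nat_lit 5551)) (.f (nat_lit 467) (nat_lit 465) (nat_lit 1487) (.f (nat_lit 435) (nat_lit 562) (nat_lit 6578) (.d (nat_lit 403) (nat_lit 371) (nat_lit 5490) (nat_lit 434) (nat_lit 6546)))))) (.a s120673 (.a (.p (nat_lit 496) (.a (.d (nat_lit 432) (nat_lit 400) (nat_lit 5519) (nat_lit 559) (nat_lit 5551)) (.a (.f (nat_lit 432) (nat_lit 400) (nat_lit 5519) (.f (nat_lit 465) (nat_lit 467) (nat_lit 1487) (.d (nat_lit 433) (nat_lit 401) (nat_lit 6544) (nat_lit 560) (nat_lit 6576)))) (.f (nat_lit 465) (nat_lit 467) (nat_lit 1487) (.d (nat_lit 433) (nat_lit 560) (nat_lit 6576) (nat_lit 562) (nat_lit 7601)))))) (.p (nat_lit 434) (.a (.f (nat_lit 531) (nat_lit 563) (nat_lit 4530) (.f (nat_lit 402) (nat_lit 499) (nat_lit 4498) (.d (nat_lit 403) (nat_lit 371) (nat_lit 6514) (nat_lit 435) (nat_lit 6546)))) (.a (.f (nat_lit 433) (nat_lit 401) (nat_lit 7569) (.f (nat_lit 465) (nat_lit 562) (nat_lit 7601) (.d (nat_lit 435) (nat_lit 403) (nat_lit 6546) (nat_lit 436) (nat_lit 1456)))) (.f (nat_lit 531) (nat_lit 563) (nat_lit 4530) (.f (nat_lit 402) (nat_lit 499) (nat_lit 4498) (.d (nat_lit 401) (nat_lit 369) (nat_lit 7537) (nat_lit 433) (nat_lit 7569)))))))))))))) (.a (.p (nat_lit 562) (.a (.p (nat_lit 594) (.a (.f (nat_lit 595) (nat_lit 627) (nat_lit 4594) (.f (nat_lit 563) (nat_lit 466) (nat_lit 4562) (.f (nat_lit 593) (nat_lit 625) (nat_lit 5617) (.d (nat_lit 592) (nat_lit 564) (nat_lit 2608) (nat_lit 591) (nat_lit 2607))))) (.a (.f (nat_lit 499) (nat_lit 467) (nat_lit 6610) (.f (nat_lit 626) (nat_lit 531) (nat_lit 6642) (.d (nat_lit 627) (nat_lit 595) (nat_lit 4594) (nat_lit 659) (nat_lit 4626)))) (.f (nat_lit 499) (nat_lit 467) (nat_lit 6610) (.f (nat_lit 626) (nat_lit 531) (nat_lit 6642) (.d (nat_lit 625) (nat_lit 593) (nat_lit 5617) (nat_lit 657) (nat_lit 5649))))))) (.a s120742 (.a (.p (nat_lit 594) (.a (.f (nat_lit 499) (nat_lit 467) (nat_lit 6610) (.f (nat_lit 626) (nat_lit 531) (nat_lit 6642) (.d (nat_lit 627) (nat_lit 595) (nat_lit 4594) (nat_lit 659) (nat_lit 4626)))) (.a (.f (nat_lit 595) (nat_lit 627) (nat_lit 4594) (.f (nat_lit 466) (nat_lit 563) (nat_lit 4562) (.d (nat_lit 467) (nat_lit 435) (nat_lit 6578) (nat_lit 499) (nat_lit 6610)))) (.a (.f (nat_lit 595) (nat_lit 627) (nat_lit 4594) (.f (nat_lit 466) (nat_lit 563) (nat_lit 4562) (.d (nat_lit 465) (nat_lit 433) (nat_lit 7601) (nat_lit 497) (nat_lit 7633)))) (.f (nat_lit 499) (nat_lit 467) (nat_lit 6610) (.f (nat_lit 465) (nat_lit 497) (nat_lit 7633) (.f (nat_lit 466) (nat_lit 433) (nat_lit 7601) (.f (nat_lit 531) (nat_lit 626) (nat_lit 6642) (.d (nat_lit 434) (nat_lit 402) (nat_lit 4498) (nat_lit 563) (nat_lit 4530)))))))))) (.a (.p (nat_lit 594) (.a (.f (nat_lit 595) (nat_lit 627) (nat_lit 4594) (.f (nat_lit 563) (nat_lit 466) (nat_lit 4562) (.f (nat_lit 593) (nat_lit 625) (nat_lit 5617) (.d (nat_lit 592) (nat_lit 564) (nat_lit 2608) (nat_lit 591) (nat_lit 2607))))) (.a (.f (nat_lit 595) (nat_lit 627) (nat_lit 4594) (.f (nat_lit 466) (nat_lit 563) (nat_lit 4562) (.d (nat_lit 467) (nat_lit 435) (nat_lit 6578) (nat_lit 499) (nat_lit 6610)))) (.a (.f (nat_lit 627) (nat_lit 595) (nat_lit 4594) (.f (nat_lit 626) (nat_lit 659) (nat_lit 4626) (.d (nat_lit 625) (nat_lit 593) (nat_lit 5617) (nat_lit 657) (nat_lit 5649)))) (.f (nat_lit 467) (nat_lit 499) (nat_lit 6610) (.f (nat_lit 466) (nat_lit 435) (nat_lit 6578) (.d (nat_lit 465) (nat_lit 433) (nat_lit 7601) (nat_lit 496) (nat_lit 1487)))))))) (.a (.p (nat_lit 594) (.a (.f (nat_lit 499) (nat_lit 467) (nat_lit 6610) (.f (nat_lit 626) (nat_lit 531) (nat_lit 6642) (.d (nat_lit 627) (nat_lit 595) (nat_lit 4594) (nat_lit 659) (nat_lit 4626)))) (.a (.f (nat_lit 627) (nat_lit 595) (nat_lit 4594) (.f (nat_lit 626) (nat_lit 659) (nat_lit 4626) (.d (nat_lit 625) (nat_lit 593) (nat_lit 5617) (nat_lit 657) (nat_lit 5649)))) (.f (nat_lit 497) (nat_lit 465) (nat_lit 7633) (.d (nat_lit 496) (nat_lit 526) (nat_lit 1518) (nat_lit 531) (nat_lit 495)))))) (.a (.p (nat_lit 594) (.a (.f (nat_lit 595) (nat_lit 627) (nat_lit 4594) (.f (nat_lit 563) (nat_lit 466) (nat_lit 4562) (.f (nat_lit 593) (nat_lit 625) (nat_lit 5617) (.d (nat_lit 592) (nat_lit 564) (nat_lit 2608) (nat_lit 591) (nat_lit 2607))))) (.a (.f (nat_lit 595) (nat_lit 627) (nat_lit 4594) (.f (nat_lit 466) (nat_lit 563) (nat_lit 4562) (.d (nat_lit 467) (nat_lit 435) (nat_lit 6578) (nat_lit 499) (nat_lit 6610)))) (.f (nat_lit 497) (nat_lit 465) (nat_lit 7633) (.d (nat_lit 496) (nat_lit 526) (nat_lit 1518) (nat_lit 531) (nat_lit 495)))))) (.a (.p (nat_lit 466) (.a (.f (nat_lit 467) (nat_lit 435) (nat_lit 6578) (.f (nat_lit 563) (nat_lit 595) (nat_lit 4562) (.f (nat_lit 434) (nat_lit 531) (nat_lit 4530) (.f (nat_lit 401) (nat_lit 433) (nat_lit 7569) (.f (nat_lit 402) (nat_lit 369) (nat_lit 7537) (.f (nat_lit 371) (nat_lit 403) (nat_lit 6514) (.d (nat_lit 370) (nat_lit 339) (nat_lit 6482) (nat_lit 499) (nat_lit 4466)))))))) (.a (.f (nat_lit 465) (nat_lit 433) (nat_lit 7601) (.d (nat_lit 467) (nat_lit 435) (nat_lit 6578) (nat_lit 496) (nat_lit 1487))) (.a (.f (nat_lit 563) (nat_lit 595) (nat_lit 4562) (.f (nat_lit 434) (nat_lit 531) (nat_lit 4530) (.d (nat_lit 435) (nat_lit 403) (nat_lit 6546) (nat_lit 467) (nat_lit 6578)))) (.a (.f (nat_lit 563) (nat_lit 595) (nat_lit 4562) (.f (nat_lit 434) (nat_lit 531) (nat_lit 4530) (.f (nat_lit 401) (nat_lit 433) (nat_lit 7569) (.f (nat_lit 402) (nat_lit 369) (nat_lit 7537) (.d (nat_lit 403) (nat_lit 371) (nat_lit 6514) (nat_lit 435) (nat_lit 6546)))))) (.f (nat_lit 563) (nat_lit 595) (nat_lit 4562) (.f (nat_lit 434) (nat_lit 531) (nat_lit 4530) (.d (nat_lit 433) (nat_lit 401) (nat_lit 7569) (nat_lit 465) (nat_lit 7601))))))))) (.a s120764 (.p (nat_lit 594) (.a (.f (nat_lit 499) (nat_lit 467) (nat_lit 6610) (.f (nat_lit 626) (nat_lit 531) (nat_lit 6642) (.d (nat_lit 625) (nat_lit 593) (nat_lit 5617) (nat_lit 657) (nat_lit 5649)))) (.a (.f (nat_lit 497) (nat_lit 465) (nat_lit 7633) (.d (nat_lit 496) (nat_lit 526) (nat_lit 1518) (nat_lit 531) (nat_lit 495))) (.f (nat_lit 467) (nat_lit 499) (nat_lit 6610) (.f (nat_lit 466) (nat_lit 435) (nat_lit 6578) (.d (nat_lit 465) (nat_lit 433) (nat_lit 7601) (nat_lit 496) (nat_lit 1487)))))))))))))))) (.p (nat_lit 496) (.a (.d (nat_lit 432) (nat_lit 400) (nat_lit 5519) (nat_lit 559) (nat_lit 5551)) (.a (.f (nat_lit 432) (nat_lit 400) (nat_lit 5519) (.f (nat_lit 433) (nat_lit 401) (nat_lit 6544) (.f (nat_lit 465) (nat_lit 560) (nat_lit 6576) (.d (nat_lit 466) (nat_lit 467) (nat_lit 1487) (nat_lit 562) (nat_lit 7601))))) (.d (nat_lit 497) (nat_lit 499) (nat_lit 1519) (nat_lit 526) (nat_lit 1518)))))))))) (.p (nat_lit 498) (.a (.p (nat_lit 562) (.a (.p (nat_lit 594) (.a (.f (nat_lit 595) (nat_lit 627) (nat_lit 4594) (.f (nat_lit 563) (nat_lit 466) (nat_lit 4562) (.f (nat_lit 593) (nat_lit 625) (nat_lit 5617) (.d (nat_lit 592) (nat_lit 564) (nat_lit 2608) (nat_lit 591) (nat_lit 2607))))) (.a (.f (nat_lit 499) (nat_lit 467) (nat_lit 6610) (.f (nat_lit 626) (nat_lit 531) (nat_lit 6642) (.d (nat_lit 627) (nat_lit 595) (nat_lit 4594) (nat_lit 659) (nat_lit 4626)))) (.f (nat_lit 499) (nat_lit 467) (nat_lit 6610) (.f (nat_lit 626) (nat_lit 531) (nat_lit 6642) (.d (nat_lit 625) (nat_lit 593) (nat_lit 5617) (nat_lit 657) (nat_lit 5649))))))) (.a s120742 (.a (.p (nat_lit 594) (.a (.f (nat_lit 499) (nat_lit 467) (nat_lit 6610) (.f (nat_lit 626) (nat_lit 531) (nat_lit 6642) (.d (nat_lit 627) (nat_lit 595) (nat_lit 4594) (nat_lit 659) (nat_lit 4626)))) (.a (.f (nat_lit 595) (nat_lit 627) (nat_lit 4594) (.f (nat_lit 466) (nat_lit 563) (nat_lit 4562) (.d (nat_lit 467) (nat_lit 435) (nat_lit 6578) (nat_lit 499) (nat_lit 6610)))) (.a (.f (nat_lit 595) (nat_lit 627) (nat_lit 4594) (.f (nat_lit 466) (nat_lit 563) (nat_lit 4562) (.d (nat_lit 465) (nat_lit 433) (nat_lit 7601) (nat_lit 497) (nat_lit 7633)))) (.f (nat_lit 499) (nat_lit 467) (nat_lit 6610) (.f (nat_lit 465) (nat_lit 497) (nat_lit 7633) (.d (nat_lit 466) (nat_lit 433) (nat_lit 7601) (nat_lit 463) (nat_lit 463)))))))) (.a (.p (nat_lit 594) (.a (.f (nat_lit 595) (nat_lit 627) (nat_lit 4594) (.f (nat_lit 563) (nat_lit 466) (nat_lit 4562) (.f (nat_lit 593) (nat_lit 625) (nat_lit 5617) (.d (nat_lit 592) (nat_lit 564) (nat_lit 2608) (nat_lit 591) (nat_lit 2607))))) (.a (.f (nat_lit 595) (nat_lit 627) (nat_lit 4594) (.f (nat_lit 466) (nat_lit 563) (nat_lit 4562) (.d (nat_lit 467) (nat_lit 435) (nat_lit 6578) (nat_lit 499) (nat_lit 6610)))) (.a (.f (nat_lit 627) (nat_lit 595) (nat_lit 4594) (.f (nat_lit 626) (nat_lit 659) (nat_lit 4626) (.d (nat_lit 625) (nat_lit 593) (nat_lit 5617) (nat_lit 657) (nat_lit 5649)))) (.f (nat_lit 499) (nat_lit 467) (nat_lit 6610) (.f (nat_lit 465) (nat_lit 497) (nat_lit 7633) (.d (nat_lit 466) (nat_lit 433) (nat_lit 7601) (nat_lit 463) (nat_lit 463)))))))) (.a (.p (nat_lit 594) (.a (.f (nat_lit 499) (nat_lit 467) (nat_lit 6610) (.f (nat_lit 626) (nat_lit 531) (nat_lit 6642) (.d (nat_lit 627) (nat_lit 595) (nat_lit 4594) (nat_lit 659) (nat_lit 4626)))) (.a (.f (nat_lit 627) (nat_lit 595) (nat_lit 4594) (.f (nat_lit 626) (nat_lit 659) (nat_lit 4626) (.d (nat_lit 625) (nat_lit 593) (nat_lit 5617) (nat_lit 657) (nat_lit 5649)))) (.f (nat_lit 497) (nat_lit 465) (nat_lit 7633) (.d (nat_lit 496) (nat_lit 526) (nat_lit 1518) (nat_lit 531) (nat_lit 495)))))) (.a (.p (nat_lit 594) (.a (.f (nat_lit 595) (nat_lit 627) (nat_lit 4594) (.f (nat_lit 563) (nat_lit 466) (nat_lit 4562) (.f (nat_lit 593) (nat_lit 625) (nat_lit 5617) (.d (nat_lit 592) (nat_lit 564) (nat_lit 2608) (nat_lit 591) (nat_lit 2607))))) (.a (.f (nat_lit 595) (nat_lit 627) (nat_lit 4594) (.f (nat_lit 466) (nat_lit 563) (nat_lit 4562) (.d (nat_lit 467) (nat_lit 435) (nat_lit 6578) (nat_lit 499) (nat_lit 6610)))) (.f (nat_lit 497) (nat_lit 465) (nat_lit 7633) (.d (nat_lit 496) (nat_lit 526) (nat_lit 1518) (nat_lit 531) (nat_lit 495)))))) (.a (.p (nat_lit 466) (.a (.f (nat_lit 465) (nat_lit 433) (nat_lit 7601) (.f (nat_lit 467) (nat_lit 435) (nat_lit 6578) (.d (nat_lit 499) (nat_lit 463) (nat_lit 463) (nat_lit 500) (nat_lit 464)))) (.a (.f (nat_lit 467) (nat_lit 435) (nat_lit 6578) (.f (nat_lit 563) (nat_lit 595) (nat_lit 4562) (.f (nat_lit 434) (nat_lit 531) (nat_lit 4530) (.f (nat_lit 401) (nat_lit 433) (nat_lit 7569) (.f (nat_lit 402) (nat_lit 369) (nat_lit 7537) (.f (nat_lit 371) (nat_lit 403) (nat_lit 6514) (.d (nat_lit 370) (nat_lit 339) (nat_lit 6482) (nat_lit 499) (nat_lit 4466)))))))) (.a (.f (nat_lit 563) (nat_lit 595) (nat_lit 4562) (.f (nat_lit 434) (nat_lit 531) (nat_lit 4530) (.d (nat_lit 435) (nat_lit 403) (nat_lit 6546) (nat_lit 467) (nat_lit 6578)))) (.a (.f (nat_lit 563) (nat_lit 595) (nat_lit 4562) (.f (nat_lit 434) (nat_lit 531) (nat_lit 4530) (.f (nat_lit 401) (nat_lit 433) (nat_lit 7569) (.f (nat_lit 402) (nat_lit 369) (nat_lit 7537) (.d (nat_lit 403) (nat_lit 371) (nat_lit 6514) (nat_lit 435) (nat_lit 6546)))))) (.f (nat_lit 465) (nat_lit 433) (nat_lit 7601) (.f (nat_lit 496) (nat_lit 467) (nat_lit 1487) (.d (nat_lit 499) (nat_lit 463) (nat_lit 463) (nat_lit 497) (nat_lit 1519))))))))) (.a s120764 (.p (nat_lit 594) (.a (.f (nat_lit 499) (nat_lit 467) (nat_lit 6610) (.f (nat_lit 626) (nat_lit 531) (nat_lit 6642) (.d (nat_lit 625) (nat_lit 593) (nat_lit 5617) (nat_lit 657) (nat_lit 5649)))) (.a (.f (nat_lit 499) (nat_lit 467) (nat_lit 6610) (.f (nat_lit 465) (nat_lit 497) (nat_lit 7633) (.d (nat_lit 466) (nat_lit 433) (nat_lit 7601) (nat_lit 463) (nat_lit 463)))) (.f (nat_lit 497) (nat_lit 465) (nat_lit 7633) (.d (nat_lit 496) (nat_lit 526) (nat_lit 1518) (nat_lit 531) (nat_lit 495))))))))))))))) (.a s120700 (.a (.p (nat_lit 594) (.a (.p (nat_lit 562) (.a (.f (nat_lit 595) (nat_lit 627) (nat_lit 4594) (.f (nat_lit 563) (nat_lit 466) (nat_lit 4562) (.f (nat_lit 593) (nat_lit 625) (nat_lit 5617) (.d (nat_lit 592) (nat_lit 564) (nat_lit 2608) (nat_lit 591) (nat_lit 2607))))) (.a (.f (nat_lit 499) (nat_lit 467) (nat_lit 6610) (.f (nat_lit 626) (nat_lit 531) (nat_lit 6642) (.d (nat_lit 627) (nat_lit 595) (nat_lit 4594) (nat_lit 659) (nat_lit 4626)))) (.f (nat_lit 499) (nat_lit 467) (nat_lit 6610) (.f (nat_lit 626) (nat_lit 531) (nat_lit 6642) (.d (nat_lit 625) (nat_lit 593) (nat_lit 5617) (nat_lit 657) (nat_lit 5649))))))) (.a (.p (nat_lit 562) (.a (.f (nat_lit 499) (nat_lit 467) (nat_lit 6610) (.f (nat_lit 626) (nat_lit 531) (nat_lit 6642) (.d (nat_lit 627) (nat_lit 595) (nat_lit 4594) (nat_lit 659) (nat_lit 4626)))) (.a (.f (nat_lit 595) (nat_lit 627) (nat_lit 4594) (.f (nat_lit 466) (nat_lit 563) (nat_lit 4562) (.d (nat_lit 467) (nat_lit 435) (nat_lit 6578) (nat_lit 499) (nat_lit 6610)))) (.a (.f (nat_lit 595) (nat_lit 627) (nat_lit 4594) (.f (nat_lit 625) (nat_lit 593) (nat_lit 5617) (.f (nat_lit 626) (nat_lit 657) (nat_lit 5649) (.f (nat_lit 563) (nat_lit 466) (nat_lit 4562) (.d (nat_lit 658) (nat_lit 531) (nat_lit 6674) (nat_lit 690) (nat_lit 6706)))))) (.f (nat_lit 499) (nat_lit 467) (nat_lit 6610) (.f (nat_lit 626) (nat_lit 531) (nat_lit 6642) (.d (nat_lit 625) (nat_lit 593) (nat_lit 5617) (nat_lit 657) (nat_lit 5649)))))))) (.a (.p (nat_lit 562) (.a (.f (nat_lit 499) (nat_lit 467) (nat_lit 6610) (.f (nat_lit 626) (nat_lit 531) (nat_lit 6642) (.d (nat_lit 627) (nat_lit 595) (nat_lit 4594) (nat_lit 659) (nat_lit 4626)))) (.a (.f (nat_lit 595) (nat_lit 627) (nat_lit 4594) (.f (nat_lit 466) (nat_lit 563) (nat_lit 4562) (.d (nat_lit 467) (nat_lit 435) (nat_lit 6578) (nat_lit 499) (nat_lit 6610)))) (.a (.f (nat_lit 595) (nat_lit 627) (nat_lit 4594) (.f (nat_lit 466) (nat_lit 563) (nat_lit 4562) (.f (nat_lit 465) (nat_lit 433) (nat_lit 7601) (.d (nat_lit 467) (nat_lit 435) (nat_lit 6578) (nat_lit 496) (nat_lit 1487))))) (.a (.f (nat_lit 467) (nat_lit 499) (nat_lit 6610) (.f (nat_lit 466) (nat_lit 435) (nat_lit 6578) (.d (nat_lit 465) (nat_lit 433) (nat_lit 7601) (nat_lit 496) (nat_lit 1487)))) (.f (nat_lit 595) (nat_lit 627) (nat_lit 4594) (.f (nat_lit 466) (nat_lit 563) (nat_lit 4562) (.f (nat_lit 465) (nat_lit 433) (nat_lit 7601) (.f (nat_lit 463) (nat_lit 499) (nat_lit 463) (.f (nat_lit 559) (nat_lit 432) (nat_lit 6575) (.f (nat_lit 592) (nat_lit 560) (nat_lit 4559) (.d (nat_lit 591) (nat_lit 496) (nat_lit 6607) (nat_lit 624) (nat_lit 4591))))))))))))) (.a (.p (nat_lit 562) (.a (.f (nat_lit 595) (nat_lit 627) (nat_lit 4594) (.f (nat_lit 563) (nat_lit 466) (nat_lit 4562) (.f (nat_lit 593) (nat_lit 625) (nat_lit 5617) (.d (nat_lit 592) (nat_lit 564) (nat_lit 2608) (nat_lit 591) (nat_lit 2607))))) (.a (.f (nat_lit 595) (nat_lit 627) (nat_lit 4594) (.f (nat_lit 466) (nat_lit 563) (nat_lit 4562) (.d (nat_lit 467) (nat_lit 435) (nat_lit 6578) (nat_lit 499) (nat_lit 6610)))) (.a (.f (nat_lit 627) (nat_lit 595) (nat_lit 4594) (.f (nat_lit 626) (nat_lit 659) (nat_lit 4626) (.d (nat_lit 625) (nat_lit 593) (nat_lit 5617) (nat_lit 657) (nat_lit 5649)))) (.f (nat_lit 467) (nat_lit 499) (nat_lit 6610) (.f (nat_lit 466) (nat_lit 435) (nat_lit 6578) (.d (nat_lit 465) (nat_lit 433) (nat_lit 7601) (nat_lit 496) (nat_lit 1487)))))))) (.a (.p (nat_lit 559) (.a (.d (nat_lit 432) (nat_lit 463) (nat_lit 6575) (nat_lit 496) (nat_lit 5551)) (.a (.f (nat_lit 463) (nat_lit 432) (nat_lit 6575) (.f (nat_lit 592) (nat_lit 560) (nat_lit 4559) (.f (nat_lit 591) (nat_lit 624) (nat_lit 4591) (.f (nat_lit 593) (nat_lit 558) (nat_lit 3630) (.f (nat_lit 627) (nat_lit 626) (nat_lit 591) (.f (nat_lit 595) (nat_lit 628) (nat_lit 592) (.d (nat_lit 563) (nat_lit 531) (nat_lit 7666) (nat_lit 564) (nat_lit 2608)))))))) (.a (.f (nat_lit 591) (nat_lit 496) (nat_lit 6607) (.f (nat_lit 592) (nat_lit 624) (nat_lit 4591) (.f (nat_lit 560) (nat_lit 463) (nat_lit 4559) (.d (nat_lit 593) (nat_lit 558) (nat_lit 3630) (nat_lit 595) (nat_lit 3631))))) (.f (nat_lit 591) (nat_lit 496) (nat_lit 6607) (.f (nat_lit 592) (nat_lit 624) (nat_lit 4591) (.f (nat_lit 593) (nat_lit 558) (nat_lit 3630) (.f (nat_lit 627) (nat_lit 626) (nat_lit 591) (.f (nat_lit 595) (nat_lit 628) (nat_lit 592) (.d (nat_lit 563) (nat_lit 531) (nat_lit 7666) (nat_lit 564) (nat_lit 2608))))))))))) (.a (.p (nat_lit 559) (.a (.d (nat_lit 432) (nat_lit 463) (nat_lit 6575) (nat_lit 496) (nat_lit 5551)) (.a (.f (nat_lit 463) (nat_lit 432) (nat_lit 6575) (.f (nat_lit 592) (nat_lit 560) (nat_lit 4559) (.f (nat_lit 591) (nat_lit 624) (nat_lit 4591) (.f (nat_lit 593) (nat_lit 558) (nat_lit 3630) (.d (nat_lit 562) (nat_lit 563) (nat_lit 2607) (nat_lit 625) (nat_lit 5617)))))) (.a (.f (nat_lit 591) (nat_lit 496) (nat_lit 6607) (.f (nat_lit 592) (nat_lit 624) (nat_lit 4591) (.f (nat_lit 560) (nat_lit 463) (nat_lit 4559) (.d (nat_lit 593) (nat_lit 558) (nat_lit 3630) (nat_lit 595) (nat_lit 3631))))) (.d (nat_lit 496) (nat_lit 432) (nat_lit 5551) (nat_lit 591) (nat_lit 6607)))))) (.p (nat_lit 562) (.a (.f (nat_lit 499) (nat_lit 467) (nat_lit 6610) (.f (nat_lit 626) (nat_lit 531) (nat_lit 6642) (.d (nat_lit 625) (nat_lit 593) (nat_lit 5617) (nat_lit 657) (nat_lit 5649)))) (.a (.f (nat_lit 467) (nat_lit 499) (nat_lit 6610) (.f (nat_lit 466) (nat_lit 435) (nat_lit 6578) (.d (nat_lit 465) (nat_lit 433) (nat_lit 7601) (nat_lit 496) (nat_lit 1487)))) (.f (nat_lit 625) (nat_lit 593) (nat_lit 5617) (.f (nat_lit 626) (nat_lit 657) (nat_lit 5649) (.f (nat_lit 659) (nat_lit 627) (nat_lit 4626) (.f (nat_lit 658) (nat_lit 691) (nat_lit 4658) (.f (nat_lit 624) (nat_lit 623) (nat_lit 623) (.f (nat_lit 592) (nat_lit 560) (nat_lit 7663) (.f (nat_lit 559) (nat_lit 591) (nat_lit 4591) (.d (nat_lit 432) (nat_lit 463) (nat_lit 6575) (nat_lit 496) (nat_lit 5551))))))))))))))))))) (.a (.p (nat_lit 496) (.a (.d (nat_lit 432) (nat_lit 400) (nat_lit 5519) (nat_lit 559) (nat_lit 5551)) (.d (nat_lit 497) (nat_lit 526) (nat_lit 1518) (nat_lit 531) (nat_lit 495)))) (.p (nat_lit 496) (.a (.d (nat_lit 432) (nat_lit 400) (nat_lit 5519) (nat_lit 559) (nat_lit 5551)) (.a (.f (nat_lit 432) (nat_lit 400) (nat_lit 5519) (.f (nat_lit 433) (nat_lit 401) (nat_lit 6544) (.f (nat_lit 465) (nat_lit 560) (nat_lit 6576) (.d (nat_lit 466) (nat_lit 467) (nat_lit 1487) (nat_lit 562) (nat_lit 7601))))) (.d (nat_lit 497) (nat_lit 499) (nat_lit 1519) (nat_lit 526) (nat_lit 1518))))))))))))))))) (.a (.p (nat_lit 529) (.a (.f (nat_lit 531) (nat_lit 496) (nat_lit 3567) (.d (nat_lit 499) (nat_lit 498) (nat_lit 2543) (nat_lit 500) (nat_lit 2544))) (.a (.f (nat_lit 498) (nat_lit 499) (nat_lit 2543) (.f (nat_lit 497) (nat_lit 526) (nat_lit 2542) (.f (nat_lit 562) (nat_lit 563) (nat_lit 527) (.d (nat_lit 594) (nat_lit 465) (nat_lit 7633) (nat_lit 626) (nat_lit 7665))))) (.f (nat_lit 531) (nat_lit 496) (nat_lit 3567) (.d (nat_lit 563) (nat_lit 562) (nat_lit 527) (nat_lit 564) (nat_lit 528)))))) (.a (.p (nat_lit 592) (.a (.f (nat_lit 560) (nat_lit 624) (nat_lit 7663) (.d (nat_lit 463) (nat_lit 431) (nat_lit 4527) (nat_lit 496) (nat_lit 7631))) (.a (.p (nat_lit 529) (.a (.f (nat_lit 496) (nat_lit 531) (nat_lit 3567) (.f (nat_lit 559) (nat_lit 558) (nat_lit 1550) (.d (nat_lit 591) (nat_lit 464) (nat_lit 6607) (nat_lit 624) (nat_lit 4591)))) (.a (.f (nat_lit 563) (nat_lit 562) (nat_lit 527) (.f (nat_lit 531) (nat_lit 564) (nat_lit 528) (.d (nat_lit 499) (nat_lit 498) (nat_lit 2543) (nat_lit 500) (nat_lit 2544)))) (.f (nat_lit 559) (nat_lit 558) (nat_lit 1550) (.f (nat_lit 591) (nat_lit 624) (nat_lit 4591) (.d (nat_lit 496) (nat_lit 464) (nat_lit 6607) (nat_lit 623) (nat_lit 6639))))))) (.a (.f (nat_lit 560) (nat_lit 624) (nat_lit 7663) (.d (nat_lit 463) (nat_lit 431) (nat_lit 4527) (nat_lit 559) (nat_lit 4559))) (.p (nat_lit 529) (.a (.f (nat_lit 563) (nat_lit 562) (nat_lit 527) (.f (nat_lit 531) (nat_lit 564) (nat_lit 528) (.d (nat_lit 499) (nat_lit 498) (nat_lit 2543) (nat_lit 500) (nat_lit 2544)))) (.f (nat_lit 559) (nat_lit 558) (nat_lit 1550) (.f (nat_lit 463) (nat_lit 560) (nat_lit 4559) (.f (nat_lit 464) (nat_lit 432) (nat_lit 6575) (.f (nat_lit 496) (nat_lit 591) (nat_lit 6607) (.f (nat_lit 431) (nat_lit 399) (nat_lit 4495) (.d (nat_lit 430) (nat_lit 398) (nat_lit 7566) (nat_lit 462) (nat_lit 7598))))))))))))) (.a (.p (nat_lit 529) (.a (.f (nat_lit 559) (nat_lit 558) (nat_lit 1550) (.d (nat_lit 531) (nat_lit 496) (nat_lit 3567) (nat_lit 560) (nat_lit 1551))) (.a (.f (nat_lit 496) (nat_lit 531) (nat_lit 3567) (.f (nat_lit 559) (nat_lit 558) (nat_lit 1550) (.d (nat_lit 464) (nat_lit 432) (nat_lit 5551) (nat_lit 591) (nat_lit 6607)))) (.a (.f (nat_lit 559) (nat_lit 558) (nat_lit 1550) (.f (nat_lit 560) (nat_lit 531) (nat_lit 1551) (.d (nat_lit 463) (nat_lit 431) (nat_lit 4527) (nat_lit 592) (nat_lit 4559)))) (.a (.f (nat_lit 531) (nat_lit 496) (nat_lit 3567) (.d (nat_lit 563) (nat_lit 562) (nat_lit 527) (nat_lit 564) (nat_lit 528))) (.p (nat_lit 592) (.a (.f (nat_lit 559) (nat_lit 558) (nat_lit 1550) (.f (nat_lit 591) (nat_lit 624) (nat_lit 4591) (.d (nat_lit 496) (nat_lit 464) (nat_lit 6607) (nat_lit 623) (nat_lit 6639)))) (.a (.f (nat_lit 559) (nat_lit 558) (nat_lit 1550) (.d (nat_lit 624) (nat_lit 560) (nat_lit 7663) (nat_lit 591) (nat_lit 4591))) (.a (.f (nat_lit 560) (nat_lit 624) (nat_lit 7663) (.d (nat_lit 463) (nat_lit 431) (nat_lit 4527) (nat_lit 496) (nat_lit 7631))) (.f (nat_lit 559) (nat_lit 558) (nat_lit 1550) (.f (nat_lit 463) (nat_lit 560) (nat_lit 4559) (.f (nat_lit 464) (nat_lit 432) (nat_lit 6575) (.f (nat_lit 496) (nat_lit 591) (nat_lit 6607) (.f (nat_lit 431) (nat_lit 399) (nat_lit 4495) (.d (nat_lit 430) (nat_lit 398) (nat_lit 7566) (nat_lit 462) (nat_lit 7598)))))))))))))))) (.a (.p (nat_lit 592) (.a (.f (nat_lit 560) (nat_lit 624) (nat_lit 7663) (.d (nat_lit 463) (nat_lit 431) (nat_lit 4527) (nat_lit 496) (nat_lit 7631))) (.a (.p (nat_lit 529) (.a (.f (nat_lit 559) (nat_lit 558) (nat_lit 1550) (.f (nat_lit 591) (nat_lit 624) (nat_lit 4591) (.d (nat_lit 496) (nat_lit 464) (nat_lit 6607) (nat_lit 623) (nat_lit 6639)))) (.f (nat_lit 498) (nat_lit 499) (nat_lit 2543) (.f (nat_lit 497) (nat_lit 526) (nat_lit 2542) (.f (nat_lit 562) (nat_lit 563) (nat_lit 527) (.d (nat_lit 594) (nat_lit 465) (nat_lit 7633) (nat_lit 626) (nat_lit 7665))))))) (.a (.f (nat_lit 560) (nat_lit 624) (nat_lit 7663) (.d (nat_lit 463) (nat_lit 431) (nat_lit 4527) (nat_lit 559) (nat_lit 4559))) (.p (nat_lit 529) (.a (.f (nat_lit 559) (nat_lit 558) (nat_lit 1550) (.f (nat_lit 463) (nat_lit 560) (nat_lit 4559) (.f (nat_lit 464) (nat_lit 432) (nat_lit 6575) (.f (nat_lit 496) (nat_lit 591) (nat_lit 6607) (.f (nat_lit 431) (nat_lit 399) (nat_lit 4495) (.d (nat_lit 430) (nat_lit 398) (nat_lit 7566) (nat_lit 462) (nat_lit 7598))))))) (.f (nat_lit 498) (nat_lit 499) (nat_lit 2543) (.f (nat_lit 497) (nat_lit 526) (nat_lit 2542) (.f (nat_lit 562) (nat_lit 563) (nat_lit 527) (.d (nat_lit 594) (nat_lit 465) (nat_lit 7633) (nat_lit 626) (nat_lit 7665))))))))))) (.p (nat_lit 529) (.a (.f (nat_lit 559) (nat_lit 558) (nat_lit 1550) (.d (nat_lit 531) (nat_lit 496) (nat_lit 3567) (nat_lit 560) (nat_lit 1551))) (.a (.f (nat_lit 496) (nat_lit 531) (nat_lit 3567) (.f (nat_lit 559) (nat_lit 558) (nat_lit 1550) (.d (nat_lit 464) (nat_lit 432) (nat_lit 5551) (nat_lit 591) (nat_lit 6607)))) (.a (.f (nat_lit 559) (nat_lit 558) (nat_lit 1550) (.f (nat_lit 560) (nat_lit 531) (nat_lit 1551) (.d (nat_lit 463) (nat_lit 431) (nat_lit 4527) (nat_lit 592) (nat_lit 4559)))) (.a (.f (nat_lit 531) (nat_lit 496) (nat_lit 3567) (.d (nat_lit 499) (nat_lit 498) (nat_lit 2543) (nat_lit 500) (nat_lit 2544))) (.f (nat_lit 498) (nat_lit 499) (nat_lit 2543) (.f (nat_lit 526) (nat_lit 497) (nat_lit 2542) (.d (nat_lit 558) (nat_lit 557) (nat_lit 1549) (nat_lit 559) (nat_lit 1550)))))))))))))))))) (.a (.p (nat_lit 463) (.a (.f (nat_lit 431) (nat_lit 560) (nat_lit 4527) (.f (nat_lit 432) (nat_lit 400) (nat_lit 6543) (.f (nat_lit 559) (nat_lit 464) (nat_lit 6575) (.d (nat_lit 430) (nat_lit 398) (nat_lit 7566) (nat_lit 462) (nat_lit 7598))))) (.a (.p (nat_lit 432) (.a (.f (nat_lit 431) (nat_lit 400) (nat_lit 6543) (.f (nat_lit 430) (nat_lit 398) (nat_lit 7566) (.d (nat_lit 559) (nat_lit 462) (nat_lit 7598) (nat_lit 464) (nat_lit 6575)))) (.a (.f (nat_lit 400) (nat_lit 431) (nat_lit 6543) (.d (nat_lit 464) (nat_lit 368) (nat_lit 5487) (nat_lit 496) (nat_lit 5519))) (.a (.f (nat_lit 431) (nat_lit 400) (nat_lit 6543) (.f (nat_lit 430) (nat_lit 398) (nat_lit 7566) (.f (nat_lit 462) (nat_lit 559) (nat_lit 7598) (.d (nat_lit 461) (nat_lit 433) (nat_lit 1453) (nat_lit 460) (nat_lit 2476))))) (.f (nat_lit 559) (nat_lit 464) (nat_lit 6575) (.f (nat_lit 558) (nat_lit 590) (nat_lit 5582) (.f (nat_lit 557) (nat_lit 556) (nat_lit 2572) (.d (nat_lit 529) (nat_lit 526) (nat_lit 1549) (nat_lit 530) (nat_lit 1550))))))))) (.a (.f (nat_lit 560) (nat_lit 431) (nat_lit 4527) (.d (nat_lit 592) (nat_lit 496) (nat_lit 7631) (nat_lit 624) (nat_lit 7663))) (.p (nat_lit 559) (.a (.f (nat_lit 560) (nat_lit 592) (nat_lit 4559) (.f (nat_lit 558) (nat_lit 590) (nat_lit 5582) (.d (nat_lit 557) (nat_lit 529) (nat_lit 2573) (nat_lit 556) (nat_lit 2572)))) (.f (nat_lit 464) (nat_lit 432) (nat_lit 6575) (.f (nat_lit 496) (nat_lit 591) (nat_lit 6607) (.f (nat_lit 462) (nat_lit 430) (nat_lit 7598) (.d (nat_lit 461) (nat_lit 460) (nat_lit 460) (nat_lit 497) (nat_lit 461))))))))))) (.a (.p (nat_lit 559) (.a (.p (nat_lit 591) (.a (.d (nat_lit 496) (nat_lit 464) (nat_lit 6607) (nat_lit 623) (nat_lit 6639)) (.f (nat_lit 592) (nat_lit 624) (nat_lit 4591) (.f (nat_lit 463) (nat_lit 560) (nat_lit 4559) (.d (nat_lit 590) (nat_lit 558) (nat_lit 5582) (nat_lit 622) (nat_lit 5614)))))) (.a (.p (nat_lit 591) (.a (.d (nat_lit 496) (nat_lit 464) (nat_lit 6607) (nat_lit 623) (nat_lit 6639)) (.f (nat_lit 590) (nat_lit 622) (nat_lit 5614) (.f (nat_lit 558) (nat_lit 463) (nat_lit 5582) (.f (nat_lit 557) (nat_lit 556) (nat_lit 2572) (.d (nat_lit 529) (nat_lit 526) (nat_lit 1549) (nat_lit 530) (nat_lit 1550))))))) (.a s120900 (.a (.p (nat_lit 558) (.a (.f (nat_lit 557) (nat_lit 556) (nat_lit 2572) (.d (nat_lit 529) (nat_lit 530) (nat_lit 1550) (nat_lit 560) (nat_lit 2573))) (.f (nat_lit 590) (nat_lit 463) (nat_lit 5582) (.d (nat_lit 622) (nat_lit 526) (nat_lit 6638) (nat_lit 654) (nat_lit 6670))))) (.a (.p (nat_lit 591) (.a (.d (nat_lit 496) (nat_lit 464) (nat_lit 6607) (nat_lit 623) (nat_lit 6639)) (.a (.f (nat_lit 624) (nat_lit 592) (nat_lit 4591) (.f (nat_lit 623) (nat_lit 656) (nat_lit 4623) (.d (nat_lit 622) (nat_lit 590) (nat_lit 5614) (nat_lit 654) (nat_lit 5646)))) (.f (nat_lit 496) (nat_lit 464) (nat_lit 6607) (.f (nat_lit 592) (nat_lit 624) (nat_lit 4591) (.f (nat_lit 560) (nat_lit 463) (nat_lit 4559) (.f (nat_lit 497) (nat_lit 465) (nat_lit 6608) (.d (nat_lit 526) (nat_lit 498) (nat_lit 1518) (nat_lit 525) (nat_lit 2541))))))))) (.a (.p (nat_lit 591) (.a (.d (nat_lit 496) (nat_lit 464) (nat_lit 6607) (nat_lit 623) (nat_lit 6639)) (.a (.f (nat_lit 624) (nat_lit 592) (nat_lit 4591) (.f (nat_lit 623) (nat_lit 656) (nat_lit 4623) (.d (nat_lit 622) (nat_lit 590) (nat_lit 5614) (nat_lit 654) (nat_lit 5646)))) (.p (nat_lit 558) (.a (.f (nat_lit 557) (nat_lit 556) (nat_lit 2572) (.d (nat_lit 529) (nat_lit 526) (nat_lit 1549) (nat_lit 530) (nat_lit 1550))) (.a (.f (nat_lit 592) (nat_lit 624) (nat_lit 4591) (.f (nat_lit 557) (nat_lit 556) (nat_lit 2572) (.d (nat_lit 593) (nat_lit 560) (nat_lit 557) (nat_lit 594) (nat_lit 3630)))) (.f (nat_lit 496) (nat_lit 464) (nat_lit 6607) (.f (nat_lit 592) (nat_lit 624) (nat_lit 4591) (.f (nat_lit 590) (nat_lit 622) (nat_lit 5614) (.f (nat_lit 593) (nat_lit 594) (nat_lit 3630) (.d (nat_lit 625) (nat_lit 560) (nat_lit 4592) (nat_lit 626) (nat_lit 590)))))))))))) (.a (.p (nat_lit 591) (.a (.d (nat_lit 496) (nat_lit 464) (nat_lit 6607) (nat_lit 623) (nat_lit 6639)) (.f (nat_lit 592) (nat_lit 624) (nat_lit 4591) (.f (nat_lit 463) (nat_lit 560) (nat_lit 4559) (.f (nat_lit 558) (nat_lit 590) (nat_lit 5582) (.f (nat_lit 557) (nat_lit 556) (nat_lit 556) (.d (nat_lit 529) (nat_lit 526) (nat_lit 1549) (nat_lit 530) (nat_lit 1550)))))))) (.p (nat_lit 591) (.a (.d (nat_lit 496) (nat_lit 464) (nat_lit 6607) (nat_lit 623) (nat_lit 6639)) (.a (.f (nat_lit 624) (nat_lit 592) (nat_lit 4591) (.f (nat_lit 623) (nat_lit 656) (nat_lit 4623) (.f (nat_lit 655) (nat_lit 560) (nat_lit 6671) (.d (nat_lit 654) (nat_lit 622) (nat_lit 5646) (nat_lit 686) (nat_lit 5678))))) (.f (nat_lit 496) (nat_lit 464) (nat_lit 6607) (.f (nat_lit 592) (nat_lit 624) (nat_lit 4591) (.f (nat_lit 560) (nat_lit 463) (nat_lit 4559) (.f (nat_lit 497) (nat_lit 465) (nat_lit 6608) (.d (nat_lit 526) (nat_lit 498) (nat_lit 1518) (nat_lit 525) (nat_lit 2541))))))))))))))))) (.a (.p (nat_lit 498) (.a (.p (nat_lit 529) (.a (.f (nat_lit 497) (nat_lit 526) (nat_lit 2542) (.d (nat_lit 499) (nat_lit 500) (nat_lit 1520) (nat_lit 530) (nat_lit 2543))) (.a (.f (nat_lit 530) (nat_lit 499) (nat_lit 2543) (.f (nat_lit 559) (nat_lit 558) (nat_lit 1550) (.d (nat_lit 531) (nat_lit 496) (nat_lit 3567) (nat_lit 560) (nat_lit 1551)))) (.a (.f (nat_lit 497) (nat_lit 526) (nat_lit 2542) (.d (nat_lit 499) (nat_lit 496) (nat_lit 1519) (nat_lit 500) (nat_lit 1520))) (.f (nat_lit 526) (nat_lit 497) (nat_lit 2542) (.f (nat_lit 558) (nat_lit 557) (nat_lit 1549) (.f (nat_lit 530) (nat_lit 559) (nat_lit 1550) (.f (nat_lit 563) (nat_lit 562) (nat_lit 527) (.d (nat_lit 531) (nat_lit 496) (nat_lit 3567) (nat_lit 564) (nat_lit 528)))))))))) (.a (.p (nat_lit 497) (.a (.d (nat_lit 496) (nat_lit 499) (nat_lit 1519) (nat_lit 526) (nat_lit 1518)) (.a (.f (nat_lit 529) (nat_lit 526) (nat_lit 2542) (.d (nat_lit 499) (nat_lit 500) (nat_lit 1520) (nat_lit 530) (nat_lit 2543))) (.a (.f (nat_lit 499) (nat_lit 496) (nat_lit 1519) (.d (nat_lit 529) (nat_lit 500) (nat_lit 1520) (nat_lit 530) (nat_lit 2543))) (.d (nat_lit 526) (nat_lit 496) (nat_lit 1518) (nat_lit 529) (nat_lit 2542)))))) (.a (.p (nat_lit 530) (.a (.f (nat_lit 529) (nat_lit 499) (nat_lit 2543) (.f (nat_lit 559) (nat_lit 558) (nat_lit 1550) (.d (nat_lit 531) (nat_lit 496) (nat_lit 3567) (nat_lit 560) (nat_lit 1551)))) (.a (.f (nat_lit 529) (nat_lit 499) (nat_lit 2543) (.f (nat_lit 559) (nat_lit 558) (nat_lit 1550) (.f (nat_lit 496) (nat_lit 531) (nat_lit 3567) (.d (nat_lit 464) (nat_lit 432) (nat_lit 5551) (nat_lit 591) (nat_lit 6607))))) (.a s120965 (.a (.p (nat_lit 562) (.a (.p (nat_lit 594) (.a (.f (nat_lit 595) (nat_lit 627) (nat_lit 4594) (.f (nat_lit 563) (nat_lit 466) (nat_lit 4562) (.f (nat_lit 593) (nat_lit 625) (nat_lit 5617) (.d (nat_lit 592) (nat_lit 564) (nat_lit 2608) (nat_lit 591) (nat_lit 2607))))) (.a (.f (nat_lit 499) (nat_lit 467) (nat_lit 6610) (.f (nat_lit 626) (nat_lit 531) (nat_lit 6642) (.d (nat_lit 627) (nat_lit 595) (nat_lit 4594) (nat_lit 659) (nat_lit 4626)))) (.f (nat_lit 499) (nat_lit 467) (nat_lit 6610) (.f (nat_lit 626) (nat_lit 531) (nat_lit 6642) (.d (nat_lit 625) (nat_lit 593) (nat_lit 5617) (nat_lit 657) (nat_lit 5649))))))) (.a (.p (nat_lit 594) (.a (.f (nat_lit 499) (nat_lit 467) (nat_lit 6610) (.f (nat_lit 626) (nat_lit 531) (nat_lit 6642) (.d (nat_lit 627) (nat_lit 595) (nat_lit 4594) (nat_lit 659) (nat_lit 4626)))) (.a (.f (nat_lit 595) (nat_lit 627) (nat_lit 4594) (.f (nat_lit 466) (nat_lit 563) (nat_lit 4562) (.d (nat_lit 467) (nat_lit 435) (nat_lit 6578) (nat_lit 499) (nat_lit 6610)))) (.a (.f (nat_lit 595) (nat_lit 627) (nat_lit 4594) (.f (nat_lit 466) (nat_lit 563) (nat_lit 4562) (.d (nat_lit 465) (nat_lit 433) (nat_lit 7601) (nat_lit 497) (nat_lit 7633)))) (.f (nat_lit 499) (nat_lit 467) (nat_lit 6610) (.f (nat_lit 626) (nat_lit 531) (nat_lit 6642) (.d (nat_lit 625) (nat_lit 593) (nat_lit 5617) (nat_lit 657) (nat_lit 5649)))))))) (.a (.p (nat_lit 594) (.a (.f (nat_lit 499) (nat_lit 467) (nat_lit 6610) (.f (nat_lit 626) (nat_lit 531) (nat_lit 6642) (.d (nat_lit 627) (nat_lit 595) (nat_lit 4594) (nat_lit 659) (nat_lit 4626)))) (.a (.f (nat_lit 595) (nat_lit 627) (nat_lit 4594) (.f (nat_lit 466) (nat_lit 563) (nat_lit 4562) (.d (nat_lit 467) (nat_lit 435) (nat_lit 6578) (nat_lit 499) (nat_lit 6610)))) (.a (.f (nat_lit 595) (nat_lit 627) (nat_lit 4594) (.f (nat_lit 466) (nat_lit 563) (nat_lit 4562) (.d (nat_lit 465) (nat_lit 433) (nat_lit 7601) (nat_lit 497) (nat_lit 7633)))) (.f (nat_lit 499) (nat_lit 467) (nat_lit 6610) (.f (nat_lit 465) (nat_lit 497) (nat_lit 7633) (.f (nat_lit 466) (nat_lit 433) (nat_lit 7601) (.f (nat_lit 531) (nat_lit 626) (nat_lit 6642) (.d (nat_lit 434) (nat_lit 402) (nat_lit 4498) (nat_lit 563) (nat_lit 4530)))))))))) (.a s120985 (.a (.p (nat_lit 594) (.a (.f (nat_lit 499) (nat_lit 467) (nat_lit 6610) (.f (nat_lit 626) (nat_lit 531) (nat_lit 6642) (.d (nat_lit 627) (nat_lit 595) (nat_lit 4594) (nat_lit 659) (nat_lit 4626)))) (.a (.f (nat_lit 627) (nat_lit 595) (nat_lit 4594) (.f (nat_lit 626) (nat_lit 659) (nat_lit 4626) (.d (nat_lit 625) (nat_lit 593) (nat_lit 5617) (nat_lit 657) (nat_lit 5649)))) (.f (nat_lit 497) (nat_lit 465) (nat_lit 7633) (.d (nat_lit 499) (nat_lit 467) (nat_lit 6610) (nat_lit 496) (nat_lit 1519)))))) (.a (.p (nat_lit 466) (.a (.f (nat_lit 467) (nat_lit 435) (nat_lit 6578) (.f (nat_lit 594) (nat_lit 499) (nat_lit 6610) (.d (nat_lit 595) (nat_lit 563) (nat_lit 4562) (nat_lit 627) (nat_lit 4594)))) (.a (.f (nat_lit 563) (nat_lit 595) (nat_lit 4562) (.f (nat_lit 434) (nat_lit 531) (nat_lit 4530) (.d (nat_lit 435) (nat_lit 403) (nat_lit 6546) (nat_lit 467) (nat_lit 6578)))) (.a (.f (nat_lit 467) (nat_lit 435) (nat_lit 6578) (.f (nat_lit 465) (nat_lit 433) (nat_lit 7601) (.d (nat_lit 594) (nat_lit 497) (nat_lit 7633) (nat_lit 499) (nat_lit 6610)))) (.f (nat_lit 465) (nat_lit 433) (nat_lit 7601) (.f (nat_lit 594) (nat_lit 497) (nat_lit 7633) (.d (nat_lit 595) (nat_lit 563) (nat_lit 4562) (nat_lit 627) (nat_lit 4594)))))))) (.a (.p (nat_lit 466) (.a (.f (nat_lit 563) (nat_lit 595) (nat_lit 4562) (.f (nat_lit 434) (nat_lit 531) (nat_lit 4530) (.d (nat_lit 435) (nat_lit 403) (nat_lit 6546) (nat_lit 467) (nat_lit 6578)))) (.a (.f (nat_lit 435) (nat_lit 467) (nat_lit 6578) (.f (nat_lit 434) (nat_lit 403) (nat_lit 6546) (.d (nat_lit 433) (nat_lit 401) (nat_lit 7569) (nat_lit 465) (nat_lit 7601)))) (.a (.f (nat_lit 467) (nat_lit 435) (nat_lit 6578) (.f (nat_lit 497) (nat_lit 496) (nat_lit 2511) (.f (nat_lit 465) (nat_lit 433) (nat_lit 7601) (.f (nat_lit 468) (nat_lit 469) (nat_lit 1489) (.f (nat_lit 500) (nat_lit 501) (nat_lit 465) (.f (nat_lit 436) (nat_lit 437) (nat_lit 2481) (.f (nat_lit 563) (nat_lit 595) (nat_lit 4562) (.d (nat_lit 531) (nat_lit 499) (nat_lit 6579) (nat_lit 532) (nat_lit 5555))))))))) (.f (nat_lit 563) (nat_lit 595) (nat_lit 4562) (.f (nat_lit 434) (nat_lit 531) (nat_lit 4530) (.d (nat_lit 433) (nat_lit 401) (nat_lit 7569) (nat_lit 465) (nat_lit 7601)))))))) (.a s121028 (.a (.p (nat_lit 594) (.a (.f (nat_lit 499) (nat_lit 467) (nat_lit 6610) (.f (nat_lit 626) (nat_lit 531) (nat_lit 6642) (.d (nat_lit 625) (nat_lit 593) (nat_lit 5617) (nat_lit 657) (nat_lit 5649)))) (.a (.f (nat_lit 499) (nat_lit 467) (nat_lit 6610) (.f (nat_lit 465) (nat_lit 497) (nat_lit 7633) (.f (nat_lit 466) (nat_lit 433) (nat_lit 7601) (.f (nat_lit 531) (nat_lit 626) (nat_lit 6642) (.d (nat_lit 434) (nat_lit 402) (nat_lit 4498) (nat_lit 563) (nat_lit 4530)))))) (.a (.f (nat_lit 465) (nat_lit 497) (nat_lit 7633) (.f (nat_lit 466) (nat_lit 433) (nat_lit 7601) (.d (nat_lit 467) (nat_lit 435) (nat_lit 6578) (nat_lit 499) (nat_lit 6610)))) (.f (nat_lit 497) (nat_lit 465) (nat_lit 7633) (.f (nat_lit 531) (nat_lit 496) (nat_lit 495) (.f (nat_lit 625) (nat_lit 593) (nat_lit 5617) (.f (nat_lit 626) (nat_lit 657) (nat_lit 5649) (.f (nat_lit 658) (nat_lit 563) (nat_lit 6674) (.d (nat_lit 659) (nat_lit 627) (nat_lit 4626) (nat_lit 691) (nat_lit 4658))))))))))) (.p (nat_lit 594) (.a (.f (nat_lit 595) (nat_lit 627) (nat_lit 4594) (.f (nat_lit 563) (nat_lit 466) (nat_lit 4562) (.f (nat_lit 593) (nat_lit 625) (nat_lit 5617) (.d (nat_lit 592) (nat_lit 564) (nat_lit 2608) (nat_lit 591) (nat_lit 2607))))) (.a (.f (nat_lit 595) (nat_lit 627) (nat_lit 4594) (.f (nat_lit 466) (nat_lit 563) (nat_lit 4562) (.d (nat_lit 465) (nat_lit 433) (nat_lit 7601) (nat_lit 497) (nat_lit 7633)))) (.a (.f (nat_lit 627) (nat_lit 595) (nat_lit 4594) (.f (nat_lit 626) (nat_lit 659) (nat_lit 4626) (.d (nat_lit 625) (nat_lit 593) (nat_lit 5617) (nat_lit 657) (nat_lit 5649)))) (.a (.f (nat_lit 625) (nat_lit 593) (nat_lit 5617) (.f (nat_lit 626) (nat_lit 657) (nat_lit 5649) (.f (nat_lit 659) (nat_lit 627) (nat_lit 4626) (.f (nat_lit 658) (nat_lit 691) (nat_lit 4658) (.d (nat_lit 531) (nat_lit 499) (nat_lit 6642) (nat_lit 563) (nat_lit 6674)))))) (.f (nat_lit 465) (nat_lit 497) (nat_lit 7633) (.f (nat_lit 466) (nat_lit 433) (nat_lit 7601) (.f (nat_lit 563) (nat_lit 595) (nat_lit 4562) (.f (nat_lit 531) (nat_lit 434) (nat_lit 4530) (.d (nat_lit 626) (nat_lit 499) (nat_lit 6642) (nat_lit 658) (nat_lit 6674))))))))))))))))))))) (.a (.p (nat_lit 562) (.a (.d (nat_lit 529) (nat_lit 499) (nat_lit 2543) (nat_lit 563) (nat_lit 527)) (.a s120985 (.a (.f (nat_lit 563) (nat_lit 529) (nat_lit 527) (.f (nat_lit 466) (nat_lit 595) (nat_lit 4562) (.f (nat_lit 467) (nat_lit 435) (nat_lit 6578) (.f (nat_lit 465) (nat_lit 433) (nat_lit 7601) (.d (nat_lit 497) (nat_lit 496) (nat_lit 2511) (nat_lit 594) (nat_lit 7633)))))) (.f (nat_lit 499) (nat_lit 529) (nat_lit 2543) (.f (nat_lit 594) (nat_lit 467) (nat_lit 6610) (.d (nat_lit 497) (nat_lit 465) (nat_lit 7633) (nat_lit 496) (nat_lit 1519)))))))) (.p (nat_lit 562) (.a (.f (nat_lit 563) (nat_lit 529) (nat_lit 527) (.f (nat_lit 466) (nat_lit 595) (nat_lit 4562) (.f (nat_lit 434) (nat_lit 531) (nat_lit 4530) (.d (nat_lit 435) (nat_lit 403) (nat_lit 6546) (nat_lit 467) (nat_lit 6578))))) (.a s121028 (.a (.f (nat_lit 563) (nat_lit 529) (nat_lit 527) (.f (nat_lit 466) (nat_lit 595) (nat_lit 4562) (.f (nat_lit 467) (nat_lit 435) (nat_lit 6578) (.f (nat_lit 465) (nat_lit 433) (nat_lit 7601) (.d (nat_lit 497) (nat_lit 496) (nat_lit 2511) (nat_lit 594) (nat_lit 7633)))))) (.a (.f (nat_lit 529) (nat_lit 563) (nat_lit 527) (.f (nat_lit 559) (nat_lit 558) (nat_lit 1550) (.d (nat_lit 531) (nat_lit 496) (nat_lit 3567) (nat_lit 560) (nat_lit 1551)))) (.p (nat_lit 594) (.a (.f (nat_lit 627) (nat_lit 595) (nat_lit 4594) (.f (nat_lit 626) (nat_lit 659) (nat_lit 4626) (.d (nat_lit 625) (nat_lit 593) (nat_lit 5617) (nat_lit 657) (nat_lit 5649)))) (.a (.f (nat_lit 497) (nat_lit 465) (nat_lit 7633) (.f (nat_lit 496) (nat_lit 531) (nat_lit 495) (.f (nat_lit 529) (nat_lit 626) (nat_lit 7665) (.f (nat_lit 559) (nat_lit 558) (nat_lit 1550) (.d (nat_lit 464) (nat_lit 432) (nat_lit 5551) (nat_lit 591) (nat_lit 6607)))))) (.f (nat_lit 465) (nat_lit 497) (nat_lit 7633) (.f (nat_lit 466) (nat_lit 433) (nat_lit 7601) (.f (nat_lit 467) (nat_lit 435) (nat_lit 6578) (.f (nat_lit 496) (nat_lit 464) (nat_lit 1487) (.f (nat_lit 529) (nat_lit 531) (nat_lit 3567) (.f (nat_lit 559) (nat_lit 558) (nat_lit 1550) (.f (nat_lit 591) (nat_lit 623) (nat_lit 6639) (.f (nat_lit 592) (nat_lit 624) (nat_lit 4591) (.f (nat_lit 593) (nat_lit 625) (nat_lit 5617) (.d (nat_lit 595) (nat_lit 560) (nat_lit 3631) (nat_lit 627) (nat_lit 4594))))))))))))))))))))))))) (.a (.p (nat_lit 529) (.a (.f (nat_lit 497) (nat_lit 526) (nat_lit 2542) (.d (nat_lit 499) (nat_lit 500) (nat_lit 1520) (nat_lit 530) (nat_lit 2543))) (.a (.f (nat_lit 530) (nat_lit 499) (nat_lit 2543) (.f (nat_lit 563) (nat_lit 562) (nat_lit 527) (.f (nat_lit 531) (nat_lit 564) (nat_lit 528) (.d (nat_lit 559) (nat_lit 558) (nat_lit 1550) (nat_lit 560) (nat_lit 1551))))) (.f (nat_lit 526) (nat_lit 497) (nat_lit 2542) (.p (nat_lit 525) (.a (.d (nat_lit 557) (nat_lit 556) (nat_lit 1548) (nat_lit 558) (nat_lit 1549)) (.a (.f (nat_lit 492) (nat_lit 493) (nat_lit 3564) (.f (nat_lit 524) (nat_lit 491) (nat_lit 3563) (.f (nat_lit 555) (nat_lit 556) (nat_lit 1547) (.f (nat_lit 523) (nat_lit 554) (nat_lit 1546) (.d (nat_lit 559) (nat_lit 558) (nat_lit 523) (nat_lit 560) (nat_lit 524)))))) (.a (.f (nat_lit 492) (nat_lit 493) (nat_lit 3564) (.f (nat_lit 524) (nat_lit 491) (nat_lit 3563) (.d (nat_lit 556) (nat_lit 555) (nat_lit 1547) (nat_lit 557) (nat_lit 1548)))) (.f (nat_lit 558) (nat_lit 557) (nat_lit 1549) (.f (nat_lit 492) (nat_lit 493) (nat_lit 3564) (.f (nat_lit 524) (nat_lit 491) (nat_lit 3563) (.d (nat_lit 559) (nat_lit 523) (nat_lit 523) (nat_lit 560) (nat_lit 524))))))))))))) (.a (.p (nat_lit 530) (.a (.f (nat_lit 529) (nat_lit 499) (nat_lit 2543) (.f (nat_lit 559) (nat_lit 558) (nat_lit 1550) (.d (nat_lit 531) (nat_lit 496) (nat_lit 3567) (nat_lit 560) (nat_lit 1551)))) (.a (.f (nat_lit 529) (nat_lit 499) (nat_lit 2543) (.f (nat_lit 531) (nat_lit 496) (nat_lit 3567) (.d (nat_lit 563) (nat_lit 562) (nat_lit 527) (nat_lit 564) (nat_lit 528)))) (.a s120965 (.a (.p (nat_lit 562) (.a (.p (nat_lit 594) (.a (.f (nat_lit 595) (nat_lit 627) (nat_lit 4594) (.f (nat_lit 563) (nat_lit 466) (nat_lit 4562) (.f (nat_lit 593) (nat_lit 625) (nat_lit 5617) (.d (nat_lit 592) (nat_lit 564) (nat_lit 2608) (nat_lit 591) (nat_lit 2607))))) (.a (.f (nat_lit 499) (nat_lit 467) (nat_lit 6610) (.f (nat_lit 626) (nat_lit 531) (nat_lit 6642) (.d (nat_lit 627) (nat_lit 595) (nat_lit 4594) (nat_lit 659) (nat_lit 4626)))) (.f (nat_lit 499) (nat_lit 467) (nat_lit 6610) (.f (nat_lit 626) (nat_lit 531) (nat_lit 6642) (.d (nat_lit 625) (nat_lit 593) (nat_lit 5617) (nat_lit 657) (nat_lit 5649))))))) (.a (.p (nat_lit 594) (.a (.f (nat_lit 499) (nat_lit 467) (nat_lit 6610) (.f (nat_lit 626) (nat_lit 531) (nat_lit 6642) (.d (nat_lit 627) (nat_lit 595) (nat_lit 4594) (nat_lit 659) (nat_lit 4626)))) (.a (.f (nat_lit 595) (nat_lit 627) (nat_lit 4594) (.f (nat_lit 466) (nat_lit 563) (nat_lit 4562) (.d (nat_lit 467) (nat_lit 435) (nat_lit 6578) (nat_lit 499) (nat_lit 6610)))) (.a (.f (nat_lit 627) (nat_lit 595) (nat_lit 4594) (.f (nat_lit 626) (nat_lit 659) (nat_lit 4626) (.d (nat_lit 625) (nat_lit 593) (nat_lit 5617) (nat_lit 657) (nat_lit 5649)))) (.f (nat_lit 499) (nat_lit 467) (nat_lit 6610) (.f (nat_lit 626) (nat_lit 531) (nat_lit 6642) (.d (nat_lit 625) (nat_lit 593) (nat_lit 5617) (nat_lit 657) (nat_lit 5649)))))))) (.a (.p (nat_lit 466) (.a (.f (nat_lit 467) (nat_lit 435) (nat_lit 6578) (.f (nat_lit 594) (nat_lit 499) (nat_lit 6610) (.d (nat_lit 595) (nat_lit 563) (nat_lit 4562) (nat_lit 627) (nat_lit 4594)))) (.a (.f (nat_lit 563) (nat_lit 595) (nat_lit 4562) (.f (nat_lit 434) (nat_lit 531) (nat_lit 4530) (.d (nat_lit 435) (nat_lit 403) (nat_lit 6546) (nat_lit 467) (nat_lit 6578)))) (.a (.f (nat_lit 435) (nat_lit 467) (nat_lit 6578) (.f (nat_lit 434) (nat_lit 403) (nat_lit 6546) (.f (nat_lit 401) (nat_lit 433) (nat_lit 7569) (.f (nat_lit 402) (nat_lit 369) (nat_lit 7537) (.d (nat_lit 531) (nat_lit 499) (nat_lit 4498) (nat_lit 563) (nat_lit 4530)))))) (.a (.f (nat_lit 435) (nat_lit 467) (nat_lit 6578) (.f (nat_lit 434) (nat_lit 403) (nat_lit 6546) (.d (nat_lit 433) (nat_lit 401) (nat_lit 7569) (nat_lit 465) (nat_lit 7601)))) (.f (nat_lit 563) (nat_lit 595) (nat_lit 4562) (.f (nat_lit 434) (nat_lit 531) (nat_lit 4530) (.d (nat_lit 433) (nat_lit 401) (nat_lit 7569) (nat_lit 465) (nat_lit 7601))))))))) (.a s121161 (.a (.p (nat_lit 594) (.a (.f (nat_lit 499) (nat_lit 467) (nat_lit 6610) (.f (nat_lit 626) (nat_lit 531) (nat_lit 6642) (.d (nat_lit 627) (nat_lit 595) (nat_lit 4594) (nat_lit 659) (nat_lit 4626)))) (.a (.f (nat_lit 627) (nat_lit 595) (nat_lit 4594) (.f (nat_lit 626) (nat_lit 659) (nat_lit 4626) (.d (nat_lit 625) (nat_lit 593) (nat_lit 5617) (nat_lit 657) (nat_lit 5649)))) (.a (.f (nat_lit 593) (nat_lit 625) (nat_lit 5617) (.p (nat_lit 592) (.a (.f (nat_lit 595) (nat_lit 627) (nat_lit 4594) (.d (nat_lit 560) (nat_lit 559) (nat_lit 3631) (nat_lit 624) (nat_lit 7663))) (.a (.f (nat_lit 591) (nat_lit 563) (nat_lit 2607) (.d (nat_lit 559) (nat_lit 558) (nat_lit 3630) (nat_lit 624) (nat_lit 4591))) (.a (.f (nat_lit 595) (nat_lit 627) (nat_lit 4594) (.d (nat_lit 624) (nat_lit 560) (nat_lit 7663) (nat_lit 623) (nat_lit 1615))) (.f (nat_lit 595) (nat_lit 627) (nat_lit 4594) (.d (nat_lit 563) (nat_lit 564) (nat_lit 2608) (nat_lit 591) (nat_lit 2607)))))))) (.f (nat_lit 499) (nat_lit 467) (nat_lit 6610) (.f (nat_lit 626) (nat_lit 531) (nat_lit 6642) (.d (nat_lit 625) (nat_lit 593) (nat_lit 5617) (nat_lit 657) (nat_lit 5649)))))))) (.a (.p (nat_lit 466) (.a (.f (nat_lit 563) (nat_lit 595) (nat_lit 4562) (.f (nat_lit 434) (nat_lit 531) (nat_lit 4530) (.d (nat_lit 435) (nat_lit 403) (nat_lit 6546) (nat_lit 467) (nat_lit 6578)))) (.a (.f (nat_lit 435) (nat_lit 467) (nat_lit 6578) (.f (nat_lit 434) (nat_lit 403) (nat_lit 6546) (.d (nat_lit 433) (nat_lit 401) (nat_lit 7569) (nat_lit 465) (nat_lit 7601)))) (.a (.f (nat_lit 465) (nat_lit 433) (nat_lit 7601) (.f (nat_lit 467) (nat_lit 435) (nat_lit 6578) (.p (nat_lit 468) (.a (.f (nat_lit 464) (nat_lit 496) (nat_lit 1487) (.d (nat_lit 500) (nat_lit 499) (nat_lit 464) (nat_lit 501) (nat_lit 465))) (.a (.f (nat_lit 500) (nat_lit 501) (nat_lit 465) (.f (nat_lit 499) (nat_lit 464) (nat_lit 464) (.f (nat_lit 436) (nat_lit 437) (nat_lit 2481) (.d (nat_lit 563) (nat_lit 531) (nat_lit 6579) (nat_lit 595) (nat_lit 4562))))) (.a (.f (nat_lit 501) (nat_lit 500) (nat_lit 465) (.f (nat_lit 469) (nat_lit 502) (nat_lit 466) (.d (nat_lit 437) (nat_lit 436) (nat_lit 2481) (nat_lit 438) (nat_lit 2482)))) (.a (.f (nat_lit 437) (nat_lit 436) (nat_lit 2481) (.f (nat_lit 469) (nat_lit 438) (nat_lit 2482) (.f (nat_lit 502) (nat_lit 501) (nat_lit 466) (.d (nat_lit 470) (nat_lit 499) (nat_lit 1490) (nat_lit 503) (nat_lit 467))))) (.f (nat_lit 464) (nat_lit 496) (nat_lit 1487) (.f (nat_lit 499) (nat_lit 500) (nat_lit 464) (.f (nat_lit 563) (nat_lit 595) (nat_lit 4562) (.d (nat_lit 436) (nat_lit 437) (nat_lit 2481) (nat_lit 531) (nat_lit 6579)))))))))))) (.f (nat_lit 563) (nat_lit 595) (nat_lit 4562) (.f (nat_lit 434) (nat_lit 531) (nat_lit 4530) (.d (nat_lit 433) (nat_lit 401) (nat_lit 7569) (nat_lit 465) (nat_lit 7601)))))))) (.a s121251 (.a (.p (nat_lit 466) (.a (.f (nat_lit 435) (nat_lit 467) (nat_lit 6578) (.f (nat_lit 434) (nat_lit 403) (nat_lit 6546) (.f (nat_lit 401) (nat_lit 433) (nat_lit 7569) (.f (nat_lit 402) (nat_lit 369) (nat_lit 7537) (.d (nat_lit 531) (nat_lit 499) (nat_lit 4498) (nat_lit 563) (nat_lit 4530)))))) (.a (.f (nat_lit 435) (nat_lit 467) (nat_lit 6578) (.f (nat_lit 434) (nat_lit 403) (nat_lit 6546) (.d (nat_lit 433) (nat_lit 401) (nat_lit 7569) (nat_lit 465) (nat_lit 7601)))) (.a (.p (nat_lit 434) (.a (.d (nat_lit 435) (nat_lit 403) (nat_lit 6546) (nat_lit 467) (nat_lit 6578)) (.a (.f (nat_lit 403) (nat_lit 435) (nat_lit 6546) (.f (nat_lit 402) (nat_lit 371) (nat_lit 6514) (.d (nat_lit 531) (nat_lit 499) (nat_lit 4498) (nat_lit 563) (nat_lit 4530)))) (.f (nat_lit 531) (nat_lit 563) (nat_lit 4530) (.f (nat_lit 499) (nat_lit 402) (nat_lit 4498) (.d (nat_lit 594) (nat_lit 467) (nat_lit 6610) (nat_lit 626) (nat_lit 6642))))))) (.a (.f (nat_lit 467) (nat_lit 435) (nat_lit 6578) (.f (nat_lit 465) (nat_lit 433) (nat_lit 7601) (.f (nat_lit 499) (nat_lit 594) (nat_lit 6610) (.d (nat_lit 464) (nat_lit 496) (nat_lit 1487) (nat_lit 500) (nat_lit 464))))) (.a (.f (nat_lit 433) (nat_lit 465) (nat_lit 7601) (.f (nat_lit 434) (nat_lit 401) (nat_lit 7569) (.f (nat_lit 403) (nat_lit 435) (nat_lit 6546) (.f (nat_lit 402) (nat_lit 371) (nat_lit 6514) (.d (nat_lit 531) (nat_lit 499) (nat_lit 4498) (nat_lit 563) (nat_lit 4530)))))) (.f (nat_lit 433) (nat_lit 465) (nat_lit 7601) (.f (nat_lit 434) (nat_lit 401) (nat_lit 7569) (.f (nat_lit 531) (nat_lit 563) (nat_lit 4530) (.f (nat_lit 499) (nat_lit 402) (nat_lit 4498) (.d (nat_lit 594) (nat_lit 467) (nat_lit 6610) (nat_lit 626) (nat_lit 6642)))))))))))) (.a (.p (nat_lit 594) (.a (.f (nat_lit 499) (nat_lit 467) (nat_lit 6610) (.f (nat_lit 626) (nat_lit 531) (nat_lit 6642) (.d (nat_lit 627) (nat_lit 595) (nat_lit 4594) (nat_lit 659) (nat_lit 4626)))) (.a (.f (nat_lit 627) (nat_lit 595) (nat_lit 4594) (.f (nat_lit 626) (nat_lit 659) (nat_lit 4626) (.d (nat_lit 625) (nat_lit 593) (nat_lit 5617) (nat_lit 657) (nat_lit 5649)))) (.a (.p (nat_lit 592) (.a (.f (nat_lit 593) (nat_lit 625) (nat_lit 5617) (.f (nat_lit 595) (nat_lit 627) (nat_lit 4594) (.d (nat_lit 560) (nat_lit 559) (nat_lit 3631) (nat_lit 624) (nat_lit 7663)))) (.a (.f (nat_lit 467) (nat_lit 499) (nat_lit 6610) (.f (nat_lit 466) (nat_lit 435) (nat_lit 6578) (.f (nat_lit 465) (nat_lit 433) (nat_lit 7601) (.f (nat_lit 593) (nat_lit 625) (nat_lit 5617) (.f (nat_lit 595) (nat_lit 627) (nat_lit 4594) (.f (nat_lit 496) (nat_lit 464) (nat_lit 1487) (.f (nat_lit 623) (nat_lit 624) (nat_lit 1615) (.d (nat_lit 591) (nat_lit 559) (nat_lit 6639) (nat_lit 622) (nat_lit 1614))))))))) (.a (.f (nat_lit 593) (nat_lit 625) (nat_lit 5617) (.f (nat_lit 595) (nat_lit 627) (nat_lit 4594) (.d (nat_lit 624) (nat_lit 560) (nat_lit 7663) (nat_lit 623) (nat_lit 1615)))) (.a (.f (nat_lit 593) (nat_lit 625) (nat_lit 5617) (.f (nat_lit 595) (nat_lit 627) (nat_lit 4594) (.f (nat_lit 559) (nat_lit 560) (nat_lit 3631) (.f (nat_lit 591) (nat_lit 558) (nat_lit 3630) (.d (nat_lit 623) (nat_lit 496) (nat_lit 6639) (nat_lit 622) (nat_lit 1614)))))) (.p (nat_lit 591) (.a (.d (nat_lit 624) (nat_lit 559) (nat_lit 4591) (nat_lit 560) (nat_lit 7663)) (.a (.f (nat_lit 559) (nat_lit 624) (nat_lit 4591) (.d (nat_lit 496) (nat_lit 464) (nat_lit 6607) (nat_lit 623) (nat_lit 6639))) (.a (.f (nat_lit 560) (nat_lit 624) (nat_lit 7663) (.f (nat_lit 467) (nat_lit 499) (nat_lit 6610) (.f (nat_lit 466) (nat_lit 435) (nat_lit 6578) (.f (nat_lit 465) (nat_lit 433) (nat_lit 7601) (.d (nat_lit 496) (nat_lit 464) (nat_lit 1487) (nat_lit 623) (nat_lit 5615)))))) (.f (nat_lit 467) (nat_lit 499) (nat_lit 6610) (.f (nat_lit 466) (nat_lit 435) (nat_lit 6578) (.f (nat_lit 465) (nat_lit 433) (nat_lit 7601) (.f (nat_lit 496) (nat_lit 464) (nat_lit 1487) (.d (nat_lit 623) (nat_lit 559) (nat_lit 6639) (nat_lit 560) (nat_lit 5615))))))))))))))) (.f (nat_lit 499) (nat_lit 467) (nat_lit 6610) (.f (nat_lit 626) (nat_lit 531) (nat_lit 6642) (.d (nat_lit 625) (nat_lit 593) (nat_lit 5617) (nat_lit 657) (nat_lit 5649)))))))) (.p (nat_lit 594) (.a (.f (nat_lit 595) (nat_lit 627) (nat_lit 4594) (.f (nat_lit 563) (nat_lit 466) (nat_lit 4562) (.f (nat_lit 593) (nat_lit 625) (nat_lit 5617) (.d (nat_lit 592) (nat_lit 564) (nat_lit 2608) (nat_lit 591) (nat_lit 2607))))) (.a (.f (nat_lit 627) (nat_lit 595) (nat_lit 4594) (.f (nat_lit 626) (nat_lit 659) (nat_lit 4626) (.d (nat_lit 625) (nat_lit 593) (nat_lit 5617) (nat_lit 657) (nat_lit 5649)))) (.a (.p (nat_lit 626) (.a (.d (nat_lit 627) (nat_lit 595) (nat_lit 4594) (nat_lit 659) (nat_lit 4626)) (.a (.f (nat_lit 531) (nat_lit 499) (nat_lit 6642) (.f (nat_lit 658) (nat_lit 563) (nat_lit 6674) (.d (nat_lit 659) (nat_lit 627) (nat_lit 4626) (nat_lit 691) (nat_lit 4658)))) (.f (nat_lit 531) (nat_lit 499) (nat_lit 6642) (.f (nat_lit 563) (nat_lit 658) (nat_lit 6674) (.d (nat_lit 466) (nat_lit 434) (nat_lit 4530) (nat_lit 595) (nat_lit 4562))))))) (.a (.f (nat_lit 625) (nat_lit 593) (nat_lit 5617) (.f (nat_lit 626) (nat_lit 657) (nat_lit 5649) (.f (nat_lit 659) (nat_lit 627) (nat_lit 4626) (.f (nat_lit 658) (nat_lit 691) (nat_lit 4658) (.d (nat_lit 531) (nat_lit 499) (nat_lit 6642) (nat_lit 563) (nat_lit 6674)))))) (.f (nat_lit 625) (nat_lit 593) (nat_lit 5617) (.f (nat_lit 626) (nat_lit 657) (nat_lit 5649) (.f (nat_lit 531) (nat_lit 499) (nat_lit 6642) (.f (nat_lit 563) (nat_lit 658) (nat_lit 6674) (.d (nat_lit 466) (nat_lit 434) (nat_lit 4530) (nat_lit 595) (nat_lit 4562))))))))))))))))))))) (.a (.p (nat_lit 562) (.a (.f (nat_lit 563) (nat_lit 529) (nat_lit 527) (.f (nat_lit 466) (nat_lit 595) (nat_lit 4562) (.f (nat_lit 434) (nat_lit 531) (nat_lit 4530) (.d (nat_lit 435) (nat_lit 403) (nat_lit 6546) (nat_lit 467) (nat_lit 6578))))) (.a s121251 (.a (.f (nat_lit 563) (nat_lit 529) (nat_lit 527) (.f (nat_lit 466) (nat_lit 595) (nat_lit 4562) (.f (nat_lit 435) (nat_lit 467) (nat_lit 6578) (.f (nat_lit 434) (nat_lit 403) (nat_lit 6546) (.d (nat_lit 433) (nat_lit 401) (nat_lit 7569) (nat_lit 465) (nat_lit 7601)))))) (.a (.f (nat_lit 529) (nat_lit 563) (nat_lit 527) (.f (nat_lit 559) (nat_lit 558) (nat_lit 1550) (.d (nat_lit 531) (nat_lit 496) (nat_lit 3567) (nat_lit 560) (nat_lit 1551)))) (.p (nat_lit 594) (.a (.f (nat_lit 627) (nat_lit 595) (nat_lit 4594) (.f (nat_lit 626) (nat_lit 659) (nat_lit 4626) (.d (nat_lit 625) (nat_lit 593) (nat_lit 5617) (nat_lit 657) (nat_lit 5649)))) (.a (.p (nat_lit 559) (.a (.f (nat_lit 529) (nat_lit 558) (nat_lit 1550) (.d (nat_lit 531) (nat_lit 496) (nat_lit 3567) (nat_lit 560) (nat_lit 1551))) (.a (.f (nat_lit 529) (nat_lit 558) (nat_lit 1550) (.f (nat_lit 496) (nat_lit 531) (nat_lit 3567) (.d (nat_lit 464) (nat_lit 432) (nat_lit 5551) (nat_lit 591) (nat_lit 6607)))) (.a (.f (nat_lit 529) (nat_lit 558) (nat_lit 1550) (.f (nat_lit 560) (nat_lit 531) (nat_lit 1551) (.f (nat_lit 592) (nat_lit 624) (nat_lit 7663) (.d (nat_lit 595) (nat_lit 593) (nat_lit 3631) (nat_lit 627) (nat_lit 4594))))) (.a (.p (nat_lit 591) (.a (.d (nat_lit 496) (nat_lit 464) (nat_lit 6607) (nat_lit 623) (nat_lit 6639)) (.a (.f (nat_lit 592) (nat_lit 624) (nat_lit 4591) (.f (nat_lit 593) (nat_lit 558) (nat_lit 3630) (.d (nat_lit 622) (nat_lit 590) (nat_lit 5614) (nat_lit 623) (nat_lit 1614)))) (.f (nat_lit 592) (nat_lit 624) (nat_lit 4591) (.f (nat_lit 593) (nat_lit 558) (nat_lit 3630) (.d (nat_lit 627) (nat_lit 595) (nat_lit 4594) (nat_lit 626) (nat_lit 591))))))) (.p (nat_lit 591) (.a (.d (nat_lit 496) (nat_lit 464) (nat_lit 6607) (nat_lit 623) (nat_lit 6639)) (.a (.f (nat_lit 592) (nat_lit 624) (nat_lit 4591) (.f (nat_lit 622) (nat_lit 590) (nat_lit 5614) (.d (nat_lit 623) (nat_lit 593) (nat_lit 1614) (nat_lit 654) (nat_lit 5646)))) (.f (nat_lit 592) (nat_lit 624) (nat_lit 4591) (.f (nat_lit 627) (nat_lit 595) (nat_lit 4594) (.d (nat_lit 626) (nat_lit 593) (nat_lit 591) (nat_lit 659) (nat_lit 4626)))))))))))) (.a (.p (nat_lit 559) (.a (.f (nat_lit 595) (nat_lit 627) (nat_lit 4594) (.f (nat_lit 593) (nat_lit 625) (nat_lit 5617) (.f (nat_lit 592) (nat_lit 560) (nat_lit 3631) (.d (nat_lit 591) (nat_lit 558) (nat_lit 3630) (nat_lit 624) (nat_lit 4591))))) (.a (.f (nat_lit 529) (nat_lit 558) (nat_lit 1550) (.f (nat_lit 496) (nat_lit 531) (nat_lit 3567) (.d (nat_lit 464) (nat_lit 432) (nat_lit 5551) (nat_lit 591) (nat_lit 6607)))) (.a (.f (nat_lit 529) (nat_lit 558) (nat_lit 1550) (.d (nat_lit 531) (nat_lit 496) (nat_lit 3567) (nat_lit 560) (nat_lit 1551))) (.f (nat_lit 595) (nat_lit 627) (nat_lit 4594) (.f (nat_lit 593) (nat_lit 625) (nat_lit 5617) (.f (nat_lit 592) (nat_lit 560) (nat_lit 3631) (.d (nat_lit 624) (nat_lit 591) (nat_lit 4591) (nat_lit 623) (nat_lit 1615))))))))) (.a (.p (nat_lit 623) (.a (.p (nat_lit 591) (.a (.f (nat_lit 559) (nat_lit 496) (nat_lit 6639) (.d (nat_lit 624) (nat_lit 592) (nat_lit 4591) (nat_lit 656) (nat_lit 4623))) (.a (.f (nat_lit 627) (nat_lit 595) (nat_lit 4594) (.f (nat_lit 626) (nat_lit 659) (nat_lit 4626) (.f (nat_lit 625) (nat_lit 657) (nat_lit 5649) (.d (nat_lit 624) (nat_lit 590) (nat_lit 3662) (nat_lit 592) (nat_lit 3663))))) (.f (nat_lit 559) (nat_lit 496) (nat_lit 6639) (.d (nat_lit 622) (nat_lit 590) (nat_lit 5614) (nat_lit 654) (nat_lit 5646)))))) (.a (.p (nat_lit 559) (.a (.f (nat_lit 558) (nat_lit 529) (nat_lit 1550) (.f (nat_lit 627) (nat_lit 595) (nat_lit 4594) (.f (nat_lit 626) (nat_lit 659) (nat_lit 4626) (.f (nat_lit 657) (nat_lit 625) (nat_lit 5649) (.f (nat_lit 658) (nat_lit 689) (nat_lit 5681) (.f (nat_lit 655) (nat_lit 656) (nat_lit 2671) (.d (nat_lit 591) (nat_lit 526) (nat_lit 7694) (nat_lit 560) (nat_lit 6671)))))))) (.a (.f (nat_lit 558) (nat_lit 529) (nat_lit 1550) (.f (nat_lit 627) (nat_lit 595) (nat_lit 4594) (.f (nat_lit 626) (nat_lit 659) (nat_lit 4626) (.f (nat_lit 657) (nat_lit 625) (nat_lit 5649) (.f (nat_lit 658) (nat_lit 689) (nat_lit 5681) (.f (nat_lit 655) (nat_lit 656) (nat_lit 2671) (.f (nat_lit 591) (nat_lit 526) (nat_lit 7694) (.d (nat_lit 622) (nat_lit 590) (nat_lit 5614) (nat_lit 654) (nat_lit 5646))))))))) (.a (.f (nat_lit 627) (nat_lit 595) (nat_lit 4594) (.f (nat_lit 626) (nat_lit 659) (nat_lit 4626) (.f (nat_lit 657) (nat_lit 625) (nat_lit 5649) (.f (nat_lit 658) (nat_lit 689) (nat_lit 5681) (.f (nat_lit 655) (nat_lit 656) (nat_lit 2671) (.f (nat_lit 591) (nat_lit 560) (nat_lit 6671) (.d (nat_lit 622) (nat_lit 590) (nat_lit 5614) (nat_lit 654) (nat_lit 5646)))))))) (.a (.f (nat_lit 529) (nat_lit 558) (nat_lit 1550) (.f (nat_lit 560) (nat_lit 531) (nat_lit 1551) (.f (nat_lit 624) (nat_lit 592) (nat_lit 7663) (.f (nat_lit 627) (nat_lit 595) (nat_lit 4594) (.f (nat_lit 626) (nat_lit 659) (nat_lit 4626) (.f (nat_lit 625) (nat_lit 657) (nat_lit 5649) (.d (nat_lit 655) (nat_lit 654) (nat_lit 1646) (nat_lit 656) (nat_lit 1647)))))))) (.a (.f (nat_lit 529) (nat_lit 558) (nat_lit 1550) (.f (nat_lit 560) (nat_lit 531) (nat_lit 1551) (.f (nat_lit 591) (nat_lit 655) (nat_lit 6671) (.d (nat_lit 624) (nat_lit 592) (nat_lit 7663) (nat_lit 656) (nat_lit 4623))))) (.a (.f (nat_lit 529) (nat_lit 558) (nat_lit 1550) (.f (nat_lit 560) (nat_lit 531) (nat_lit 1551) (.f (nat_lit 624) (nat_lit 592) (nat_lit 7663) (.f (nat_lit 591) (nat_lit 656) (nat_lit 4623) (.d (nat_lit 622) (nat_lit 590) (nat_lit 5614) (nat_lit 654) (nat_lit 5646)))))) (.f (nat_lit 529) (nat_lit 558) (nat_lit 1550) (.f (nat_lit 560) (nat_lit 531) (nat_lit 1551) (.f (nat_lit 591) (nat_lit 655) (nat_lit 6671) (.d (nat_lit 622) (nat_lit 590) (nat_lit 5614) (nat_lit 654) (nat_lit 5646)))))))))))) (.a (.p (nat_lit 626) (.a (.f (nat_lit 625) (nat_lit 657) (nat_lit 5649) (.f (nat_lit 624) (nat_lit 595) (nat_lit 2639) (.f (nat_lit 590) (nat_lit 591) (nat_lit 3662) (.f (nat_lit 622) (nat_lit 589) (nat_lit 3661) (.d (nat_lit 654) (nat_lit 653) (nat_lit 1645) (nat_lit 655) (nat_lit 1646)))))) (.a (.d (nat_lit 627) (nat_lit 595) (nat_lit 4594) (nat_lit 659) (nat_lit 4626)) (.f (nat_lit 659) (nat_lit 627) (nat_lit 4626) (.f (nat_lit 658) (nat_lit 691) (nat_lit 4658) (.d (nat_lit 657) (nat_lit 625) (nat_lit 5649) (nat_lit 689) (nat_lit 5681))))))) (.a (.p (nat_lit 626) (.a (.f (nat_lit 625) (nat_lit 657) (nat_lit 5649) (.f (nat_lit 624) (nat_lit 595) (nat_lit 2639) (.f (nat_lit 654) (nat_lit 655) (nat_lit 1646) (.f (nat_lit 622) (nat_lit 653) (nat_lit 1645) (.f (nat_lit 590) (nat_lit 589) (nat_lit 3661) (.d (nat_lit 558) (nat_lit 526) (nat_lit 6638) (nat_lit 559) (nat_lit 6670))))))) (.a (.d (nat_lit 627) (nat_lit 595) (nat_lit 4594) (nat_lit 659) (nat_lit 4626)) (.f (nat_lit 659) (nat_lit 627) (nat_lit 4626) (.f (nat_lit 658) (nat_lit 691) (nat_lit 4658) (.d (nat_lit 657) (nat_lit 625) (nat_lit 5649) (nat_lit 689) (nat_lit 5681))))))) (.a (.p (nat_lit 559) (.a (.f (nat_lit 558) (nat_lit 529) (nat_lit 1550) (.f (nat_lit 627) (nat_lit 595) (nat_lit 4594) (.f (nat_lit 626) (nat_lit 659) (nat_lit 4626) (.f (nat_lit 657) (nat_lit 625) (nat_lit 5649) (.f (nat_lit 658) (nat_lit 689) (nat_lit 5681) (.f (nat_lit 655) (nat_lit 656) (nat_lit 2671) (.d (nat_lit 591) (nat_lit 526) (nat_lit 7694) (nat_lit 560) (nat_lit 6671)))))))) (.a (.f (nat_lit 558) (nat_lit 529) (nat_lit 1550) (.f (nat_lit 627) (nat_lit 595) (nat_lit 4594) (.f (nat_lit 626) (nat_lit 659) (nat_lit 4626) (.f (nat_lit 657) (nat_lit 625) (nat_lit 5649) (.f (nat_lit 658) (nat_lit 689) (nat_lit 5681) (.f (nat_lit 655) (nat_lit 656) (nat_lit 2671) (.f (nat_lit 591) (nat_lit 526) (nat_lit 7694) (.d (nat_lit 622) (nat_lit 590) (nat_lit 5614) (nat_lit 654) (nat_lit 5646))))))))) (.a (.f (nat_lit 627) (nat_lit 595) (nat_lit 4594) (.f (nat_lit 626) (nat_lit 659) (nat_lit 4626) (.f (nat_lit 657) (nat_lit 625) (nat_lit 5649) (.f (nat_lit 658) (nat_lit 689) (nat_lit 5681) (.f (nat_lit 655) (nat_lit 656) (nat_lit 2671) (.f (nat_lit 591) (nat_lit 560) (nat_lit 6671) (.d (nat_lit 622) (nat_lit 590) (nat_lit 5614) (nat_lit 654) (nat_lit 5646)))))))) (.f (nat_lit 529) (nat_lit 558) (nat_lit 1550) (.d (nat_lit 531) (nat_lit 496) (nat_lit 3567) (nat_lit 560) (nat_lit 1551))))))) (.a s121419 (.a (.p (nat_lit 591) (.a (.f (nat_lit 559) (nat_lit 496) (nat_lit 6639) (.d (nat_lit 624) (nat_lit 592) (nat_lit 4591) (nat_lit 656) (nat_lit 4623))) (.a (.f (nat_lit 627) (nat_lit 595) (nat_lit 4594) (.f (nat_lit 626) (nat_lit 659) (nat_lit 4626) (.f (nat_lit 625) (nat_lit 657) (nat_lit 5649) (.d (nat_lit 624) (nat_lit 590) (nat_lit 3662) (nat_lit 592) (nat_lit 3663))))) (.a (.f (nat_lit 627) (nat_lit 595) (nat_lit 4594) (.f (nat_lit 626) (nat_lit 659) (nat_lit 4626) (.f (nat_lit 625) (nat_lit 657) (nat_lit 5649) (.f (nat_lit 624) (nat_lit 590) (nat_lit 3662) (.d (nat_lit 656) (nat_lit 559) (nat_lit 4623) (nat_lit 655) (nat_lit 1647)))))) (.f (nat_lit 559) (nat_lit 496) (nat_lit 6639) (.f (nat_lit 655) (nat_lit 560) (nat_lit 6671) (.d (nat_lit 558) (nat_lit 526) (nat_lit 7694) (nat_lit 529) (nat_lit 1550)))))))) (.p (nat_lit 591) (.a (.f (nat_lit 559) (nat_lit 496) (nat_lit 6639) (.d (nat_lit 624) (nat_lit 592) (nat_lit 4591) (nat_lit 656) (nat_lit 4623))) (.a (.f (nat_lit 627) (nat_lit 595) (nat_lit 4594) (.f (nat_lit 626) (nat_lit 659) (nat_lit 4626) (.f (nat_lit 625) (nat_lit 657) (nat_lit 5649) (.f (nat_lit 624) (nat_lit 592) (nat_lit 3663) (.d (nat_lit 655) (nat_lit 654) (nat_lit 1646) (nat_lit 656) (nat_lit 1647)))))) (.f (nat_lit 559) (nat_lit 496) (nat_lit 6639) (.f (nat_lit 655) (nat_lit 560) (nat_lit 6671) (.d (nat_lit 558) (nat_lit 526) (nat_lit 7694) (nat_lit 529) (nat_lit 1550))))))))))))))) (.a (.p (nat_lit 559) (.a (.f (nat_lit 625) (nat_lit 593) (nat_lit 5617) (.f (nat_lit 626) (nat_lit 657) (nat_lit 5649) (.f (nat_lit 659) (nat_lit 627) (nat_lit 4626) (.f (nat_lit 658) (nat_lit 691) (nat_lit 4658) (.f (nat_lit 624) (nat_lit 623) (nat_lit 623) (.d (nat_lit 592) (nat_lit 560) (nat_lit 7663) (nat_lit 591) (nat_lit 4591))))))) (.a (.f (nat_lit 529) (nat_lit 558) (nat_lit 1550) (.f (nat_lit 496) (nat_lit 531) (nat_lit 3567) (.d (nat_lit 464) (nat_lit 432) (nat_lit 5551) (nat_lit 591) (nat_lit 6607)))) (.f (nat_lit 529) (nat_lit 558) (nat_lit 1550) (.d (nat_lit 531) (nat_lit 496) (nat_lit 3567) (nat_lit 560) (nat_lit 1551)))))) (.p (nat_lit 623) (.a s121419 (.a (.f (nat_lit 625) (nat_lit 593) (nat_lit 5617) (.f (nat_lit 626) (nat_lit 657) (nat_lit 5649) (.f (nat_lit 624) (nat_lit 595) (nat_lit 2639) (.f (nat_lit 591) (nat_lit 590) (nat_lit 3662) (.d (nat_lit 559) (nat_lit 496) (nat_lit 6639) (nat_lit 592) (nat_lit 4591)))))) (.a (.f (nat_lit 625) (nat_lit 593) (nat_lit 5617) (.f (nat_lit 626) (nat_lit 657) (nat_lit 5649) (.f (nat_lit 624) (nat_lit 595) (nat_lit 2639) (.f (nat_lit 591) (nat_lit 590) (nat_lit 3662) (.d (nat_lit 559) (nat_lit 592) (nat_lit 4591) (nat_lit 656) (nat_lit 4623)))))) (.a (.f (nat_lit 625) (nat_lit 593) (nat_lit 5617) (.f (nat_lit 626) (nat_lit 657) (nat_lit 5649) (.f (nat_lit 624) (nat_lit 595) (nat_lit 2639) (.f (nat_lit 590) (nat_lit 591) (nat_lit 3662) (.f (nat_lit 622) (nat_lit 589) (nat_lit 3661) (.d (nat_lit 654) (nat_lit 653) (nat_lit 1645) (nat_lit 655) (nat_lit 1646))))))) (.a (.f (nat_lit 625) (nat_lit 593) (nat_lit 5617) (.f (nat_lit 626) (nat_lit 657) (nat_lit 5649) (.f (nat_lit 624) (nat_lit 595) (nat_lit 2639) (.f (nat_lit 654) (nat_lit 655) (nat_lit 1646) (.f (nat_lit 622) (nat_lit 653) (nat_lit 1645) (.f (nat_lit 590) (nat_lit 589) (nat_lit 3661) (.d (nat_lit 558) (nat_lit 526) (nat_lit 6638) (nat_lit 559) (nat_lit 6670)))))))) (.a (.p (nat_lit 559) (.a (.f (nat_lit 529) (nat_lit 558) (nat_lit 1550) (.f (nat_lit 560) (nat_lit 531) (nat_lit 1551) (.f (nat_lit 591) (nat_lit 655) (nat_lit 6671) (.d (nat_lit 622) (nat_lit 590) (nat_lit 5614) (nat_lit 654) (nat_lit 5646))))) (.a (.f (nat_lit 591) (nat_lit 496) (nat_lit 6639) (.d (nat_lit 622) (nat_lit 590) (nat_lit 5614) (nat_lit 654) (nat_lit 5646))) (.f (nat_lit 529) (nat_lit 558) (nat_lit 1550) (.d (nat_lit 531) (nat_lit 496) (nat_lit 3567) (nat_lit 560) (nat_lit 1551)))))) (.f (nat_lit 625) (nat_lit 593) (nat_lit 5617) (.f (nat_lit 626) (nat_lit 657) (nat_lit 5649) (.f (nat_lit 624) (nat_lit 595) (nat_lit 2639) (.f (nat_lit 560) (nat_lit 592) (nat_lit 7663) (.f (nat_lit 654) (nat_lit 655) (nat_lit 1646) (.f (nat_lit 622) (nat_lit 653) (nat_lit 1645) (.f (nat_lit 559) (nat_lit 591) (nat_lit 5646) (.d (nat_lit 529) (nat_lit 531) (nat_lit 1551) (nat_lit 558) (nat_lit 1550))))))))))))))))))))))))))) (.p (nat_lit 562) (.a (.d (nat_lit 529) (nat_lit 499) (nat_lit 2543) (nat_lit 563) (nat_lit 527)) (.a s121161 (.a (.f (nat_lit 563) (nat_lit 529) (nat_lit 527) (.f (nat_lit 466) (nat_lit 595) (nat_lit 4562) (.f (nat_lit 435) (nat_lit 467) (nat_lit 6578) (.f (nat_lit 434) (nat_lit 403) (nat_lit 6546) (.d (nat_lit 433) (nat_lit 401) (nat_lit 7569) (nat_lit 465) (nat_lit 7601)))))) (.f (nat_lit 499) (nat_lit 529) (nat_lit 2543) (.f (nat_lit 594) (nat_lit 467) (nat_lit 6610) (.f (nat_lit 627) (nat_lit 595) (nat_lit 4594) (.f (nat_lit 626) (nat_lit 659) (nat_lit 4626) (.d (nat_lit 625) (nat_lit 593) (nat_lit 5617) (nat_lit 657) (nat_lit 5649)))))))))))))))) (.a (.p (nat_lit 591) (.a (.p (nat_lit 496) (.a (.d (nat_lit 559) (nat_lit 464) (nat_lit 6607) (nat_lit 623) (nat_lit 6639)) (.d (nat_lit 497) (nat_lit 499) (nat_lit 1519) (nat_lit 526) (nat_lit 1518)))) (.a s121528 (.a (.p (nat_lit 592) (.a (.p (nat_lit 593) (.a (.p (nat_lit 594) (.a (.f (nat_lit 562) (nat_lit 563) (nat_lit 2607) (.f (nat_lit 530) (nat_lit 625) (nat_lit 5617) (.d (nat_lit 627) (nat_lit 595) (nat_lit 4594) (nat_lit 626) (nat_lit 591)))) (.a (.f (nat_lit 622) (nat_lit 623) (nat_lit 1614) (.f (nat_lit 590) (nat_lit 621) (nat_lit 1613) (.d (nat_lit 626) (nat_lit 625) (nat_lit 590) (nat_lit 627) (nat_lit 591)))) (.f (nat_lit 622) (nat_lit 623) (nat_lit 1614) (.f (nat_lit 590) (nat_lit 621) (nat_lit 1613) (.d (nat_lit 558) (nat_lit 526) (nat_lit 6638) (nat_lit 557) (nat_lit 3629))))))) (.a (.p (nat_lit 594) (.a (.f (nat_lit 562) (nat_lit 563) (nat_lit 2607) (.f (nat_lit 530) (nat_lit 625) (nat_lit 5617) (.d (nat_lit 627) (nat_lit 595) (nat_lit 4594) (nat_lit 626) (nat_lit 591)))) (.a (.f (nat_lit 622) (nat_lit 623) (nat_lit 1614) (.f (nat_lit 590) (nat_lit 621) (nat_lit 1613) (.d (nat_lit 626) (nat_lit 625) (nat_lit 590) (nat_lit 627) (nat_lit 591)))) (.f (nat_lit 623) (nat_lit 622) (nat_lit 1614) (.d (nat_lit 624) (nat_lit 560) (nat_lit 7663) (nat_lit 595) (nat_lit 1615)))))) (.a s121550 (.a s121559 (.a (.p (nat_lit 594) (.a (.f (nat_lit 622) (nat_lit 623) (nat_lit 1614) (.f (nat_lit 590) (nat_lit 621) (nat_lit 1613) (.d (nat_lit 558) (nat_lit 526) (nat_lit 6638) (nat_lit 557) (nat_lit 3629)))) (.a (.f (nat_lit 623) (nat_lit 622) (nat_lit 1614) (.d (nat_lit 624) (nat_lit 560) (nat_lit 7663) (nat_lit 595) (nat_lit 1615))) (.f (nat_lit 627) (nat_lit 626) (nat_lit 591) (.f (nat_lit 595) (nat_lit 628) (nat_lit 592) (.d (nat_lit 562) (nat_lit 530) (nat_lit 4594) (nat_lit 563) (nat_lit 2607))))))) (.a (.p (nat_lit 594) (.a (.f (nat_lit 622) (nat_lit 623) (nat_lit 1614) (.f (nat_lit 590) (nat_lit 621) (nat_lit 1613) (.d (nat_lit 626) (nat_lit 625) (nat_lit 590) (nat_lit 627) (nat_lit 591)))) (.a (.f (nat_lit 626) (nat_lit 627) (nat_lit 591) (.f (nat_lit 590) (nat_lit 625) (nat_lit 590) (.f (nat_lit 557) (nat_lit 558) (nat_lit 3629) (.f (nat_lit 589) (nat_lit 556) (nat_lit 3628) (.d (nat_lit 621) (nat_lit 620) (nat_lit 1612) (nat_lit 622) (nat_lit 1613)))))) (.a (.f (nat_lit 622) (nat_lit 623) (nat_lit 1614) (.f (nat_lit 590) (nat_lit 621) (nat_lit 1613) (.d (nat_lit 558) (nat_lit 526) (nat_lit 6638) (nat_lit 557) (nat_lit 3629)))) (.f (nat_lit 624) (nat_lit 560) (nat_lit 7663) (.f (nat_lit 595) (nat_lit 623) (nat_lit 1615) (.d (nat_lit 627) (nat_lit 626) (nat_lit 591) (nat_lit 628) (nat_lit 592)))))))) (.a (.p (nat_lit 594) (.a (.f (nat_lit 562) (nat_lit 563) (nat_lit 2607) (.f (nat_lit 530) (nat_lit 625) (nat_lit 5617) (.d (nat_lit 627) (nat_lit 595) (nat_lit 4594) (nat_lit 626) (nat_lit 591)))) (.a (.f (nat_lit 624) (nat_lit 560) (nat_lit 7663) (.f (nat_lit 595) (nat_lit 623) (nat_lit 1615) (.d (nat_lit 563) (nat_lit 562) (nat_lit 2607) (nat_lit 564) (nat_lit 2608)))) (.a (.f (nat_lit 624) (nat_lit 560) (nat_lit 7663) (.f (nat_lit 595) (nat_lit 623) (nat_lit 1615) (.d (nat_lit 627) (nat_lit 626) (nat_lit 591) (nat_lit 628) (nat_lit 592)))) (.f (nat_lit 562) (nat_lit 563) (nat_lit 2607) (.f (nat_lit 530) (nat_lit 625) (nat_lit 5617) (.f (nat_lit 467) (nat_lit 499) (nat_lit 6610) (.f (nat_lit 466) (nat_lit 435) (nat_lit 6578) (.d (nat_lit 465) (nat_lit 433) (nat_lit 7601) (nat_lit 497) (nat_lit 7633)))))))))) (.a (.p (nat_lit 594) (.a (.f (nat_lit 622) (nat_lit 623) (nat_lit 1614) (.f (nat_lit 590) (nat_lit 621) (nat_lit 1613) (.d (nat_lit 558) (nat_lit 526) (nat_lit 6638) (nat_lit 557) (nat_lit 3629)))) (.a (.f (nat_lit 623) (nat_lit 622) (nat_lit 1614) (.d (nat_lit 624) (nat_lit 560) (nat_lit 7663) (nat_lit 595) (nat_lit 1615))) (.f (nat_lit 562) (nat_lit 563) (nat_lit 2607) (.f (nat_lit 530) (nat_lit 625) (nat_lit 5617) (.f (nat_lit 467) (nat_lit 499) (nat_lit 6610) (.f (nat_lit 466) (nat_lit 435) (nat_lit 6578) (.d (nat_lit 465) (nat_lit 433) (nat_lit 7601) (nat_lit 497) (nat_lit 7633))))))))) (.p (nat_lit 590) (.a (.f (nat_lit 622) (nat_lit 621) (nat_lit 1613) (.d (nat_lit 558) (nat_lit 526) (nat_lit 6638) (nat_lit 557) (nat_lit 3629))) (.f (nat_lit 624) (nat_lit 560) (nat_lit 7663) (.d (nat_lit 625) (nat_lit 589) (nat_lit 589) (nat_lit 626) (nat_lit 590)))))))))))))) (.a (.p (nat_lit 593) (.a (.p (nat_lit 594) (.a (.f (nat_lit 562) (nat_lit 563) (nat_lit 2607) (.f (nat_lit 530) (nat_lit 625) (nat_lit 5617) (.d (nat_lit 627) (nat_lit 595) (nat_lit 4594) (nat_lit 626) (nat_lit 591)))) (.a (.f (nat_lit 622) (nat_lit 623) (nat_lit 1614) (.f (nat_lit 590) (nat_lit 621) (nat_lit 1613) (.d (nat_lit 626) (nat_lit 625) (nat_lit 590) (nat_lit 627) (nat_lit 591)))) (.f (nat_lit 622) (nat_lit 623) (nat_lit 1614) (.f (nat_lit 590) (nat_lit 621) (nat_lit 1613) (.d (nat_lit 558) (nat_lit 526) (nat_lit 6638) (nat_lit 557) (nat_lit 3629))))))) (.a s121559 (.a s121581 (.a s121582 (.a (.p (nat_lit 594) (.a (.f (nat_lit 622) (nat_lit 623) (nat_lit 1614) (.f (nat_lit 590) (nat_lit 621) (nat_lit 1613) (.d (nat_lit 558) (nat_lit 526) (nat_lit 6638) (nat_lit 557) (nat_lit 3629)))) (.f (nat_lit 627) (nat_lit 626) (nat_lit 591) (.f (nat_lit 595) (nat_lit 628) (nat_lit 592) (.d (nat_lit 562) (nat_lit 530) (nat_lit 4594) (nat_lit 563) (nat_lit 2607)))))) (.a s121590 (.a (.p (nat_lit 594) (.a (.f (nat_lit 562) (nat_lit 563) (nat_lit 2607) (.f (nat_lit 530) (nat_lit 625) (nat_lit 5617) (.d (nat_lit 627) (nat_lit 595) (nat_lit 4594) (nat_lit 626) (nat_lit 591)))) (.a (.f (nat_lit 626) (nat_lit 627) (nat_lit 591) (.f (nat_lit 625) (nat_lit 590) (nat_lit 590) (.f (nat_lit 563) (nat_lit 562) (nat_lit 2607) (.f (nat_lit 595) (nat_lit 564) (nat_lit 2608) (.d (nat_lit 624) (nat_lit 596) (nat_lit 1616) (nat_lit 623) (nat_lit 2639)))))) (.a (.f (nat_lit 627) (nat_lit 626) (nat_lit 591) (.f (nat_lit 595) (nat_lit 628) (nat_lit 592) (.d (nat_lit 562) (nat_lit 530) (nat_lit 4594) (nat_lit 563) (nat_lit 2607)))) (.a (.f (nat_lit 627) (nat_lit 626) (nat_lit 591) (.f (nat_lit 595) (nat_lit 628) (nat_lit 592) (.f (nat_lit 563) (nat_lit 564) (nat_lit 2608) (.f (nat_lit 531) (nat_lit 530) (nat_lit 7666) (.f (nat_lit 499) (nat_lit 466) (nat_lit 7634) (.d (nat_lit 500) (nat_lit 468) (nat_lit 6611) (nat_lit 532) (nat_lit 6643))))))) (.a (.f (nat_lit 562) (nat_lit 563) (nat_lit 2607) (.f (nat_lit 530) (nat_lit 625) (nat_lit 5617) (.f (nat_lit 467) (nat_lit 499) (nat_lit 6610) (.f (nat_lit 466) (nat_lit 435) (nat_lit 6578) (.d (nat_lit 465) (nat_lit 433) (nat_lit 7601) (nat_lit 497) (nat_lit 7633)))))) (.p (nat_lit 595) (.a (.d (nat_lit 627) (nat_lit 626) (nat_lit 591) (nat_lit 628) (nat_lit 592)) (.a (.f (nat_lit 624) (nat_lit 623) (nat_lit 1615) (.f (nat_lit 596) (nat_lit 625) (nat_lit 1616) (.d (nat_lit 628) (nat_lit 627) (nat_lit 592) (nat_lit 629) (nat_lit 593)))) (.f (nat_lit 624) (nat_lit 623) (nat_lit 1615) (.f (nat_lit 625) (nat_lit 596) (nat_lit 1616) (.d (nat_lit 590) (nat_lit 589) (nat_lit 589) (nat_lit 626) (nat_lit 590))))))))))))) (.a (.p (nat_lit 594) (.a (.f (nat_lit 622) (nat_lit 623) (nat_lit 1614) (.f (nat_lit 590) (nat_lit 621) (nat_lit 1613) (.d (nat_lit 558) (nat_lit 526) (nat_lit 6638) (nat_lit 557) (nat_lit 3629)))) (.f (nat_lit 562) (nat_lit 563) (nat_lit 2607) (.f (nat_lit 530) (nat_lit 625) (nat_lit 5617) (.f (nat_lit 467) (nat_lit 499) (nat_lit 6610) (.f (nat_lit 466) (nat_lit 435) (nat_lit 6578) (.d (nat_lit 465) (nat_lit 433) (nat_lit 7601) (nat_lit 497) (nat_lit 7633)))))))) (.a (.p (nat_lit 590) (.a (.f (nat_lit 622) (nat_lit 621) (nat_lit 1613) (.d (nat_lit 558) (nat_lit 526) (nat_lit 6638) (nat_lit 557) (nat_lit 3629))) (.a (.f (nat_lit 625) (nat_lit 626) (nat_lit 590) (.f (nat_lit 589) (nat_lit 624) (nat_lit 589) (.d (nat_lit 621) (nat_lit 620) (nat_lit 1612) (nat_lit 622) (nat_lit 1613)))) (.f (nat_lit 625) (nat_lit 626) (nat_lit 590) (.f (nat_lit 589) (nat_lit 624) (nat_lit 589) (.d (nat_lit 557) (nat_lit 556) (nat_lit 3628) (nat_lit 558) (nat_lit 3629))))))) (.p (nat_lit 594) (.a (.f (nat_lit 562) (nat_lit 563) (nat_lit 2607) (.f (nat_lit 530) (nat_lit 625) (nat_lit 5617) (.d (nat_lit 627) (nat_lit 595) (nat_lit 4594) (nat_lit 626) (nat_lit 591)))) (.a (.f (nat_lit 627) (nat_lit 626) (nat_lit 591) (.f (nat_lit 595) (nat_lit 628) (nat_lit 592) (.d (nat_lit 563) (nat_lit 562) (nat_lit 2607) (nat_lit 564) (nat_lit 2608)))) (.a (.f (nat_lit 627) (nat_lit 626) (nat_lit 591) (.f (nat_lit 595) (nat_lit 628) (nat_lit 592) (.f (nat_lit 563) (nat_lit 564) (nat_lit 2608) (.f (nat_lit 531) (nat_lit 530) (nat_lit 7666) (.f (nat_lit 499) (nat_lit 466) (nat_lit 7634) (.d (nat_lit 500) (nat_lit 468) (nat_lit 6611) (nat_lit 532) (nat_lit 6643))))))) (.a (.f (nat_lit 562) (nat_lit 563) (nat_lit 2607) (.f (nat_lit 530) (nat_lit 625) (nat_lit 5617) (.f (nat_lit 467) (nat_lit 499) (nat_lit 6610) (.f (nat_lit 466) (nat_lit 435) (nat_lit 6578) (.d (nat_lit 465) (nat_lit 433) (nat_lit 7601) (nat_lit 497) (nat_lit 7633)))))) (.f (nat_lit 627) (nat_lit 626) (nat_lit 591) (.f (nat_lit 595) (nat_lit 628) (nat_lit 592) (.d (nat_lit 623) (nat_lit 622) (nat_lit 1614) (nat_lit 624) (nat_lit 1615))))))))))))))))))) (.a (.p (nat_lit 593) (.a (.p (nat_lit 594) (.a (.f (nat_lit 562) (nat_lit 563) (nat_lit 2607) (.f (nat_lit 530) (nat_lit 625) (nat_lit 5617) (.d (nat_lit 627) (nat_lit 595) (nat_lit 4594) (nat_lit 626) (nat_lit 591)))) (.a (.f (nat_lit 622) (nat_lit 623) (nat_lit 1614) (.f (nat_lit 590) (nat_lit 621) (nat_lit 1613) (.d (nat_lit 626) (nat_lit 625) (nat_lit 590) (nat_lit 627) (nat_lit 591)))) (.f (nat_lit 622) (nat_lit 623) (nat_lit 1614) (.f (nat_lit 590) (nat_lit 621) (nat_lit 1613) (.d (nat_lit 558) (nat_lit 526) (nat_lit 6638) (nat_lit 557) (nat_lit 3629))))))) (.a (.p (nat_lit 594) (.a (.f (nat_lit 562) (nat_lit 563) (nat_lit 2607) (.f (nat_lit 530) (nat_lit 625) (nat_lit 5617) (.d (nat_lit 627) (nat_lit 595) (nat_lit 4594) (nat_lit 626) (nat_lit 591)))) (.a (.f (nat_lit 622) (nat_lit 623) (nat_lit 1614) (.f (nat_lit 590) (nat_lit 621) (nat_lit 1613) (.d (nat_lit 626) (nat_lit 625) (nat_lit 590) (nat_lit 627) (nat_lit 591)))) (.f (nat_lit 623) (nat_lit 622) (nat_lit 1614) (.d (nat_lit 624) (nat_lit 560) (nat_lit 7663) (nat_lit 595) (nat_lit 1615)))))) (.a s121550 (.a (.p (nat_lit 590) (.a (.f (nat_lit 622) (nat_lit 621) (nat_lit 1613) (.d (nat_lit 558) (nat_lit 526) (nat_lit 6638) (nat_lit 557) (nat_lit 3629))) (.f (nat_lit 624) (nat_lit 560) (nat_lit 7663) (.d (nat_lit 625) (nat_lit 589) (nat_lit 589) (nat_lit 626) (nat_lit 590))))) (.a (.p (nat_lit 594) (.a (.f (nat_lit 622) (nat_lit 623) (nat_lit 1614) (.f (nat_lit 590) (nat_lit 621) (nat_lit 1613) (.d (nat_lit 558) (nat_lit 526) (nat_lit 6638) (nat_lit 557) (nat_lit 3629)))) (.a (.f (nat_lit 623) (nat_lit 622) (nat_lit 1614) (.d (nat_lit 624) (nat_lit 560) (nat_lit 7663) (nat_lit 595) (nat_lit 1615))) (.f (nat_lit 627) (nat_lit 626) (nat_lit 591) (.f (nat_lit 595) (nat_lit 628) (nat_lit 592) (.d (nat_lit 562) (nat_lit 530) (nat_lit 4594) (nat_lit 563) (nat_lit 2607))))))) (.f (nat_lit 560) (nat_lit 624) (nat_lit 7663) (.d (nat_lit 496) (nat_lit 623) (nat_lit 5615) (nat_lit 625) (nat_lit 4592))))))))) (.a (.f (nat_lit 560) (nat_lit 624) (nat_lit 7663) (.f (nat_lit 496) (nat_lit 623) (nat_lit 5615) (.d (nat_lit 497) (nat_lit 465) (nat_lit 6608) (nat_lit 499) (nat_lit 1519)))) (.a s121665 (.p (nat_lit 593) (.a (.p (nat_lit 594) (.a (.f (nat_lit 562) (nat_lit 563) (nat_lit 2607) (.f (nat_lit 530) (nat_lit 625) (nat_lit 5617) (.d (nat_lit 627) (nat_lit 595) (nat_lit 4594) (nat_lit 626) (nat_lit 591)))) (.a (.f (nat_lit 622) (nat_lit 623) (nat_lit 1614) (.f (nat_lit 590) (nat_lit 621) (nat_lit 1613) (.d (nat_lit 626) (nat_lit 625) (nat_lit 590) (nat_lit 627) (nat_lit 591)))) (.f (nat_lit 622) (nat_lit 623) (nat_lit 1614) (.f (nat_lit 590) (nat_lit 621) (nat_lit 1613) (.d (nat_lit 558) (nat_lit 526) (nat_lit 6638) (nat_lit 557) (nat_lit 3629))))))) (.a s121559 (.a s121666 (.a s121582 (.a (.p (nat_lit 594) (.a (.f (nat_lit 622) (nat_lit 623) (nat_lit 1614) (.f (nat_lit 590) (nat_lit 621) (nat_lit 1613) (.d (nat_lit 558) (nat_lit 526) (nat_lit 6638) (nat_lit 557) (nat_lit 3629)))) (.f (nat_lit 627) (nat_lit 626) (nat_lit 591) (.f (nat_lit 595) (nat_lit 628) (nat_lit 592) (.d (nat_lit 562) (nat_lit 530) (nat_lit 4594) (nat_lit 563) (nat_lit 2607)))))) (.a s121590 (.a (.p (nat_lit 594) (.a (.f (nat_lit 562) (nat_lit 563) (nat_lit 2607) (.f (nat_lit 530) (nat_lit 625) (nat_lit 5617) (.d (nat_lit 627) (nat_lit 595) (nat_lit 4594) (nat_lit 626) (nat_lit 591)))) (.a (.f (nat_lit 627) (nat_lit 626) (nat_lit 591) (.f (nat_lit 595) (nat_lit 628) (nat_lit 592) (.d (nat_lit 563) (nat_lit 562) (nat_lit 2607) (nat_lit 564) (nat_lit 2608)))) (.a (.f (nat_lit 627) (nat_lit 626) (nat_lit 591) (.f (nat_lit 595) (nat_lit 628) (nat_lit 592) (.f (nat_lit 563) (nat_lit 564) (nat_lit 2608) (.f (nat_lit 531) (nat_lit 530) (nat_lit 7666) (.f (nat_lit 499) (nat_lit 466) (nat_lit 7634) (.d (nat_lit 500) (nat_lit 468) (nat_lit 6611) (nat_lit 532) (nat_lit 6643))))))) (.a (.f (nat_lit 562) (nat_lit 563) (nat_lit 2607) (.f (nat_lit 530) (nat_lit 625) (nat_lit 5617) (.f (nat_lit 467) (nat_lit 499) (nat_lit 6610) (.f (nat_lit 466) (nat_lit 435) (nat_lit 6578) (.d (nat_lit 465) (nat_lit 433) (nat_lit 7601) (nat_lit 497) (nat_lit 7633)))))) (.f (nat_lit 626) (nat_lit 627) (nat_lit 591) (.f (nat_lit 625) (nat_lit 590) (nat_lit 590) (.f (nat_lit 496) (nat_lit 560) (nat_lit 4592) (.d (nat_lit 497) (nat_lit 499) (nat_lit 1519) (nat_lit 526) (nat_lit 1518)))))))))) (.a (.p (nat_lit 594) (.a (.f (nat_lit 622) (nat_lit 623) (nat_lit 1614) (.f (nat_lit 590) (nat_lit 621) (nat_lit 1613) (.d (nat_lit 558) (nat_lit 526) (nat_lit 6638) (nat_lit 557) (nat_lit 3629)))) (.f (nat_lit 562) (nat_lit 563) (nat_lit 2607) (.f (nat_lit 530) (nat_lit 625) (nat_lit 5617) (.f (nat_lit 467) (nat_lit 499) (nat_lit 6610) (.f (nat_lit 466) (nat_lit 435) (nat_lit 6578) (.d (nat_lit 465) (nat_lit 433) (nat_lit 7601) (nat_lit 497) (nat_lit 7633)))))))) (.p (nat_lit 496) (.a (.d (nat_lit 497) (nat_lit 499) (nat_lit 1519) (nat_lit 526) (nat_lit 1518)) (.d (nat_lit 560) (nat_lit 623) (nat_lit 5615) (nat_lit 625) (nat_lit 4592))))))))))))))))))) (.a (.p (nat_lit 559) (.a (.f (nat_lit 624) (nat_lit 592) (nat_lit 4591) (.f (nat_lit 623) (nat_lit 656) (nat_lit 4623) (.d (nat_lit 622) (nat_lit 590) (nat_lit 5614) (nat_lit 654) (nat_lit 5646)))) (.a (.d (nat_lit 496) (nat_lit 464) (nat_lit 6607) (nat_lit 623) (nat_lit 6639)) (.f (nat_lit 496) (nat_lit 464) (nat_lit 6607) (.f (nat_lit 497) (nat_lit 499) (nat_lit 1519) (.f (nat_lit 592) (nat_lit 624) (nat_lit 4591) (.f (nat_lit 560) (nat_lit 465) (nat_lit 6608) (.f (nat_lit 593) (nat_lit 625) (nat_lit 4592) (.d (nat_lit 594) (nat_lit 558) (nat_lit 3630) (nat_lit 595) (nat_lit 3631)))))))))) (.p (nat_lit 496) (.a (.d (nat_lit 497) (nat_lit 499) (nat_lit 1519) (nat_lit 526) (nat_lit 1518)) (.f (nat_lit 464) (nat_lit 559) (nat_lit 6607) (.f (nat_lit 432) (nat_lit 400) (nat_lit 5519) (.f (nat_lit 433) (nat_lit 401) (nat_lit 6544) (.f (nat_lit 431) (nat_lit 399) (nat_lit 7567) (.f (nat_lit 465) (nat_lit 560) (nat_lit 6576) (.d (nat_lit 430) (nat_lit 429) (nat_lit 429) (nat_lit 466) (nat_lit 430)))))))))))))) (.a (.p (nat_lit 591) (.a (.p (nat_lit 496) (.a (.d (nat_lit 559) (nat_lit 464) (nat_lit 6607) (nat_lit 623) (nat_lit 6639)) (.d (nat_lit 497) (nat_lit 499) (nat_lit 1519) (nat_lit 526) (nat_lit 1518)))) (.a s121528 (.a (.p (nat_lit 592) (.a (.f (nat_lit 560) (nat_lit 624) (nat_lit 7663) (.f (nat_lit 496) (nat_lit 623) (nat_lit 5615) (.d (nat_lit 497) (nat_lit 465) (nat_lit 6608) (nat_lit 499) (nat_lit 1519)))) (.a (.p (nat_lit 590) (.a (.p (nat_lit 593) (.a (.f (nat_lit 622) (nat_lit 621) (nat_lit 1613) (.d (nat_lit 558) (nat_lit 526) (nat_lit 6638) (nat_lit 557) (nat_lit 3629))) (.a (.f (nat_lit 625) (nat_lit 626) (nat_lit 590) (.f (nat_lit 589) (nat_lit 624) (nat_lit 589) (.d (nat_lit 621) (nat_lit 620) (nat_lit 1612) (nat_lit 622) (nat_lit 1613)))) (.f (nat_lit 625) (nat_lit 626) (nat_lit 590) (.f (nat_lit 589) (nat_lit 624) (nat_lit 589) (.d (nat_lit 557) (nat_lit 556) (nat_lit 3628) (nat_lit 558) (nat_lit 3629))))))) (.a (.p (nat_lit 593) (.a (.f (nat_lit 625) (nat_lit 626) (nat_lit 590) (.f (nat_lit 589) (nat_lit 624) (nat_lit 589) (.d (nat_lit 621) (nat_lit 620) (nat_lit 1612) (nat_lit 622) (nat_lit 1613)))) (.a (.f (nat_lit 621) (nat_lit 622) (nat_lit 1613) (.f (nat_lit 589) (nat_lit 620) (nat_lit 1612) (.d (nat_lit 557) (nat_lit 556) (nat_lit 3628) (nat_lit 558) (nat_lit 3629)))) (.a (.f (nat_lit 625) (nat_lit 626) (nat_lit 590) (.f (nat_lit 589) (nat_lit 624) (nat_lit 589) (.d (nat_lit 557) (nat_lit 556) (nat_lit 3628) (nat_lit 558) (nat_lit 3629)))) (.f (nat_lit 626) (nat_lit 625) (nat_lit 590) (.f (nat_lit 594) (nat_lit 627) (nat_lit 591) (.d (nat_lit 622) (nat_lit 621) (nat_lit 1613) (nat_lit 623) (nat_lit 1614)))))))) (.a (.p (nat_lit 593) (.a (.f (nat_lit 625) (nat_lit 626) (nat_lit 590) (.f (nat_lit 589) (nat_lit 624) (nat_lit 589) (.d (nat_lit 621) (nat_lit 620) (nat_lit 1612) (nat_lit 622) (nat_lit 1613)))) (.a (.f (nat_lit 626) (nat_lit 625) (nat_lit 590) (.f (nat_lit 594) (nat_lit 627) (nat_lit 591) (.d (nat_lit 622) (nat_lit 621) (nat_lit 1613) (nat_lit 623) (nat_lit 1614)))) (.a (.f (nat_lit 622) (nat_lit 621) (nat_lit 1613) (.f (nat_lit 526) (nat_lit 558) (nat_lit 6638) (.d (nat_lit 497) (nat_lit 496) (nat_lit 1518) (nat_lit 529) (nat_lit 2542)))) (.f (nat_lit 626) (nat_lit 625) (nat_lit 590) (.f (nat_lit 594) (nat_lit 627) (nat_lit 591) (.f (nat_lit 563) (nat_lit 562) (nat_lit 2607) (.f (nat_lit 595) (nat_lit 564) (nat_lit 2608) (.f (nat_lit 499) (nat_lit 531) (nat_lit 5618) (.f (nat_lit 497) (nat_lit 496) (nat_lit 1519) (.d (nat_lit 529) (nat_lit 500) (nat_lit 1520) (nat_lit 526) (nat_lit 2542)))))))))))) (.a s121656 (.a (.p (nat_lit 593) (.a (.f (nat_lit 625) (nat_lit 626) (nat_lit 590) (.f (nat_lit 589) (nat_lit 624) (nat_lit 589) (.d (nat_lit 621) (nat_lit 620) (nat_lit 1612) (nat_lit 622) (nat_lit 1613)))) (.a (.f (nat_lit 626) (nat_lit 625) (nat_lit 590) (.f (nat_lit 594) (nat_lit 627) (nat_lit 591) (.d (nat_lit 622) (nat_lit 621) (nat_lit 1613) (nat_lit 623) (nat_lit 1614)))) (.a (.f (nat_lit 622) (nat_lit 621) (nat_lit 1613) (.f (nat_lit 594) (nat_lit 623) (nat_lit 1614) (.f (nat_lit 563) (nat_lit 562) (nat_lit 2607) (.f (nat_lit 595) (nat_lit 564) (nat_lit 2608) (.d (nat_lit 627) (nat_lit 626) (nat_lit 591) (nat_lit 628) (nat_lit 592)))))) (.a (.f (nat_lit 626) (nat_lit 625) (nat_lit 590) (.f (nat_lit 594) (nat_lit 627) (nat_lit 591) (.f (nat_lit 563) (nat_lit 562) (nat_lit 2607) (.f (nat_lit 595) (nat_lit 564) (nat_lit 2608) (.f (nat_lit 499) (nat_lit 531) (nat_lit 5618) (.f (nat_lit 497) (nat_lit 496) (nat_lit 1519) (.d (nat_lit 529) (nat_lit 500) (nat_lit 1520) (nat_lit 526) (nat_lit 2542)))))))) (.f (nat_lit 622) (nat_lit 621) (nat_lit 1613) (.f (nat_lit 594) (nat_lit 623) (nat_lit 1614) (.f (nat_lit 563) (nat_lit 562) (nat_lit 2607) (.f (nat_lit 595) (nat_lit 564) (nat_lit 2608) (.f (nat_lit 628) (nat_lit 627) (nat_lit 592) (.f (nat_lit 596) (nat_lit 629) (nat_lit 593) (.f (nat_lit 499) (nat_lit 531) (nat_lit 4595) (.f (nat_lit 497) (nat_lit 496) (nat_lit 1519) (.d (nat_lit 529) (nat_lit 500) (nat_lit 1520) (nat_lit 526) (nat_lit 2542))))))))))))))) (.a (.p (nat_lit 593) (.a (.f (nat_lit 625) (nat_lit 626) (nat_lit 590) (.f (nat_lit 589) (nat_lit 624) (nat_lit 589) (.d (nat_lit 557) (nat_lit 556) (nat_lit 3628) (nat_lit 558) (nat_lit 3629)))) (.a (.f (nat_lit 626) (nat_lit 625) (nat_lit 590) (.f (nat_lit 594) (nat_lit 627) (nat_lit 591) (.f (nat_lit 563) (nat_lit 562) (nat_lit 2607) (.f (nat_lit 595) (nat_lit 564) (nat_lit 2608) (.f (nat_lit 499) (nat_lit 531) (nat_lit 5618) (.f (nat_lit 497) (nat_lit 496) (nat_lit 1519) (.d (nat_lit 529) (nat_lit 500) (nat_lit 1520) (nat_lit 526) (nat_lit 2542)))))))) (.f (nat_lit 557) (nat_lit 558) (nat_lit 3629) (.f (nat_lit 556) (nat_lit 589) (nat_lit 3628) (.f (nat_lit 526) (nat_lit 525) (nat_lit 1548) (.d (nat_lit 497) (nat_lit 496) (nat_lit 1518) (nat_lit 529) (nat_lit 2542)))))))) (.a (.p (nat_lit 526) (.a (.f (nat_lit 496) (nat_lit 497) (nat_lit 1518) (.f (nat_lit 525) (nat_lit 524) (nat_lit 2540) (.f (nat_lit 557) (nat_lit 556) (nat_lit 1548) (.f (nat_lit 493) (nat_lit 492) (nat_lit 3564) (.f (nat_lit 589) (nat_lit 622) (nat_lit 4589) (.d (nat_lit 620) (nat_lit 588) (nat_lit 5612) (nat_lit 621) (nat_lit 1612))))))) (.a (.f (nat_lit 558) (nat_lit 622) (nat_lit 6638) (.d (nat_lit 529) (nat_lit 497) (nat_lit 2542) (nat_lit 557) (nat_lit 1549))) (.a (.f (nat_lit 558) (nat_lit 622) (nat_lit 6638) (.f (nat_lit 557) (nat_lit 529) (nat_lit 1549) (.d (nat_lit 556) (nat_lit 525) (nat_lit 1548) (nat_lit 555) (nat_lit 555)))) (.d (nat_lit 497) (nat_lit 496) (nat_lit 1518) (nat_lit 529) (nat_lit 2542)))))) (.p (nat_lit 593) (.a (.f (nat_lit 622) (nat_lit 621) (nat_lit 1613) (.d (nat_lit 558) (nat_lit 526) (nat_lit 6638) (nat_lit 557) (nat_lit 3629))) (.a (.f (nat_lit 626) (nat_lit 625) (nat_lit 590) (.f (nat_lit 594) (nat_lit 627) (nat_lit 591) (.d (nat_lit 622) (nat_lit 621) (nat_lit 1613) (nat_lit 623) (nat_lit 1614)))) (.f (nat_lit 626) (nat_lit 625) (nat_lit 590) (.f (nat_lit 594) (nat_lit 627) (nat_lit 591) (.f (nat_lit 563) (nat_lit 562) (nat_lit 2607) (.f (nat_lit 595) (nat_lit 564) (nat_lit 2608) (.f (nat_lit 499) (nat_lit 531) (nat_lit 5618) (.f (nat_lit 497) (nat_lit 496) (nat_lit 1519) (.d (nat_lit 529) (nat_lit 500) (nat_lit 1520) (nat_lit 526) (nat_lit 2542))))))))))))))))))) (.a (.p (nat_lit 590) (.a (.f (nat_lit 624) (nat_lit 560) (nat_lit 7663) (.f (nat_lit 589) (nat_lit 625) (nat_lit 589) (.f (nat_lit 588) (nat_lit 623) (nat_lit 588) (.d (nat_lit 620) (nat_lit 619) (nat_lit 1611) (nat_lit 621) (nat_lit 1612))))) (.a (.p (nat_lit 593) (.a (.f (nat_lit 622) (nat_lit 621) (nat_lit 1613) (.d (nat_lit 558) (nat_lit 526) (nat_lit 6638) (nat_lit 557) (nat_lit 3629))) (.a (.f (nat_lit 625) (nat_lit 626) (nat_lit 590) (.f (nat_lit 589) (nat_lit 624) (nat_lit 589) (.d (nat_lit 621) (nat_lit 620) (nat_lit 1612) (nat_lit 622) (nat_lit 1613)))) (.f (nat_lit 625) (nat_lit 626) (nat_lit 590) (.f (nat_lit 589) (nat_lit 624) (nat_lit 589) (.d (nat_lit 557) (nat_lit 556) (nat_lit 3628) (nat_lit 558) (nat_lit 3629))))))) (.a (.p (nat_lit 558) (.a (.f (nat_lit 557) (nat_lit 593) (nat_lit 3629) (.d (nat_lit 556) (nat_lit 555) (nat_lit 555) (nat_lit 589) (nat_lit 3628))) (.a (.f (nat_lit 622) (nat_lit 526) (nat_lit 6638) (.f (nat_lit 621) (nat_lit 593) (nat_lit 1613) (.d (nat_lit 620) (nat_lit 589) (nat_lit 1612) (nat_lit 619) (nat_lit 2635)))) (.f (nat_lit 526) (nat_lit 622) (nat_lit 6638) (.d (nat_lit 529) (nat_lit 497) (nat_lit 2542) (nat_lit 557) (nat_lit 1549)))))) (.a (.f (nat_lit 624) (nat_lit 560) (nat_lit 7663) (.f (nat_lit 625) (nat_lit 589) (nat_lit 589) (.d (nat_lit 626) (nat_lit 593) (nat_lit 590) (nat_lit 627) (nat_lit 3663)))) (.p (nat_lit 593) (.a (.f (nat_lit 622) (nat_lit 621) (nat_lit 1613) (.d (nat_lit 558) (nat_lit 526) (nat_lit 6638) (nat_lit 557) (nat_lit 3629))) (.a (.f (nat_lit 626) (nat_lit 625) (nat_lit 590) (.f (nat_lit 594) (nat_lit 627) (nat_lit 591) (.d (nat_lit 622) (nat_lit 621) (nat_lit 1613) (nat_lit 623) (nat_lit 1614)))) (.f (nat_lit 624) (nat_lit 560) (nat_lit 7663) (.f (nat_lit 626) (nat_lit 625) (nat_lit 590) (.f (nat_lit 594) (nat_lit 627) (nat_lit 591) (.f (nat_lit 563) (nat_lit 562) (nat_lit 2607) (.d (nat_lit 595) (nat_lit 564) (nat_lit 2608) (nat_lit 623) (nat_lit 1615)))))))))))))) (.a (.p (nat_lit 593) (.a s121550 (.a s121581 (.a (.f (nat_lit 560) (nat_lit 624) (nat_lit 7663) (.d (nat_lit 496) (nat_lit 623) (nat_lit 5615) (nat_lit 625) (nat_lit 4592))) (.a (.p (nat_lit 590) (.a (.f (nat_lit 622) (nat_lit 621) (nat_lit 1613) (.d (nat_lit 558) (nat_lit 526) (nat_lit 6638) (nat_lit 557) (nat_lit 3629))) (.f (nat_lit 624) (nat_lit 560) (nat_lit 7663) (.d (nat_lit 625) (nat_lit 589) (nat_lit 589) (nat_lit 626) (nat_lit 590))))) (.a s121666 (.p (nat_lit 594) (.a (.f (nat_lit 622) (nat_lit 623) (nat_lit 1614) (.f (nat_lit 590) (nat_lit 621) (nat_lit 1613) (.d (nat_lit 558) (nat_lit 526) (nat_lit 6638) (nat_lit 557) (nat_lit 3629)))) (.f (nat_lit 627) (nat_lit 626) (nat_lit 591) (.f (nat_lit 595) (nat_lit 628) (nat_lit 592) (.d (nat_lit 563) (nat_lit 562) (nat_lit 2607) (nat_lit 564) (nat_lit 2608)))))))))))) (.a s121665 (.p (nat_lit 593) (.a s121666 (.a (.p (nat_lit 594) (.a (.f (nat_lit 622) (nat_lit 623) (nat_lit 1614) (.f (nat_lit 590) (nat_lit 621) (nat_lit 1613) (.d (nat_lit 626) (nat_lit 625) (nat_lit 590) (nat_lit 627) (nat_lit 591)))) (.a (.f (nat_lit 626) (nat_lit 627) (nat_lit 591) (.f (nat_lit 590) (nat_lit 625) (nat_lit 590) (.f (nat_lit 557) (nat_lit 558) (nat_lit 3629) (.f (nat_lit 589) (nat_lit 556) (nat_lit 3628) (.d (nat_lit 621) (nat_lit 620) (nat_lit 1612) (nat_lit 622) (nat_lit 1613)))))) (.a (.f (nat_lit 627) (nat_lit 626) (nat_lit 591) (.f (nat_lit 595) (nat_lit 628) (nat_lit 592) (.d (nat_lit 563) (nat_lit 562) (nat_lit 2607) (nat_lit 564) (nat_lit 2608)))) (.a (.f (nat_lit 623) (nat_lit 622) (nat_lit 1614) (.f (nat_lit 496) (nat_lit 560) (nat_lit 5615) (.f (nat_lit 563) (nat_lit 562) (nat_lit 2607) (.f (nat_lit 595) (nat_lit 564) (nat_lit 2608) (.f (nat_lit 499) (nat_lit 497) (nat_lit 1519) (.f (nat_lit 531) (nat_lit 466) (nat_lit 7634) (.d (nat_lit 628) (nat_lit 596) (nat_lit 4595) (nat_lit 627) (nat_lit 592)))))))) (.f (nat_lit 623) (nat_lit 622) (nat_lit 1614) (.f (nat_lit 496) (nat_lit 560) (nat_lit 5615) (.f (nat_lit 563) (nat_lit 562) (nat_lit 2607) (.f (nat_lit 595) (nat_lit 564) (nat_lit 2608) (.f (nat_lit 499) (nat_lit 497) (nat_lit 1519) (.d (nat_lit 531) (nat_lit 466) (nat_lit 7634) (nat_lit 626) (nat_lit 5618)))))))))))) (.a (.p (nat_lit 496) (.a (.d (nat_lit 497) (nat_lit 499) (nat_lit 1519) (nat_lit 526) (nat_lit 1518)) (.d (nat_lit 560) (nat_lit 623) (nat_lit 5615) (nat_lit 625) (nat_lit 4592)))) (.a (.p (nat_lit 496) (.a (.d (nat_lit 497) (nat_lit 499) (nat_lit 1519) (nat_lit 526) (nat_lit 1518)) (.f (nat_lit 625) (nat_lit 560) (nat_lit 4592) (.f (nat_lit 590) (nat_lit 626) (nat_lit 590) (.f (nat_lit 557) (nat_lit 558) (nat_lit 3629) (.f (nat_lit 589) (nat_lit 556) (nat_lit 3628) (.d (nat_lit 621) (nat_lit 620) (nat_lit 1612) (nat_lit 622) (nat_lit 1613)))))))) (.p (nat_lit 594) (.a (.f (nat_lit 622) (nat_lit 623) (nat_lit 1614) (.f (nat_lit 590) (nat_lit 621) (nat_lit 1613) (.d (nat_lit 558) (nat_lit 526) (nat_lit 6638) (nat_lit 557) (nat_lit 3629)))) (.f (nat_lit 627) (nat_lit 626) (nat_lit 591) (.f (nat_lit 595) (nat_lit 628) (nat_lit 592) (.d (nat_lit 563) (nat_lit 562) (nat_lit 2607) (nat_lit 564) (nat_lit 2608))))))))))))))))) (.a (.p (nat_lit 559) (.a (.f (nat_lit 624) (nat_lit 592) (nat_lit 4591) (.f (nat_lit 623) (nat_lit 656) (nat_lit 4623) (.d (nat_lit 622) (nat_lit 590) (nat_lit 5614) (nat_lit 654) (nat_lit 5646)))) (.a (.d (nat_lit 496) (nat_lit 464) (nat_lit 6607) (nat_lit 623) (nat_lit 6639)) (.f (nat_lit 496) (nat_lit 464) (nat_lit 6607) (.f (nat_lit 497) (nat_lit 499) (nat_lit 1519) (.f (nat_lit 592) (nat_lit 624) (nat_lit 4591) (.f (nat_lit 560) (nat_lit 465) (nat_lit 6608) (.f (nat_lit 593) (nat_lit 625) (nat_lit 4592) (.d (nat_lit 594) (nat_lit 558) (nat_lit 3630) (nat_lit 595) (nat_lit 3631)))))))))) (.p (nat_lit 496) (.a (.d (nat_lit 497) (nat_lit 499) (nat_lit 1519) (nat_lit 526) (nat_lit 1518)) (.f (nat_lit 464) (nat_lit 559) (nat_lit 6607) (.f (nat_lit 432) (nat_lit 400) (nat_lit 5519) (.f (nat_lit 433) (nat_lit 401) (nat_lit 6544) (.f (nat_lit 431) (nat_lit 399) (nat_lit 7567) (.f (nat_lit 465) (nat_lit 560) (nat_lit 6576) (.d (nat_lit 430) (nat_lit 429) (nat_lit 429) (nat_lit 466) (nat_lit 430)))))))))))))) (.p (nat_lit 559) (.a (.p (nat_lit 591) (.a (.f (nat_lit 624) (nat_lit 592) (nat_lit 4591) (.f (nat_lit 623) (nat_lit 656) (nat_lit 4623) (.d (nat_lit 622) (nat_lit 590) (nat_lit 5614) (nat_lit 654) (nat_lit 5646)))) (.a (.d (nat_lit 496) (nat_lit 464) (nat_lit 6607) (nat_lit 623) (nat_lit 6639)) (.f (nat_lit 496) (nat_lit 464) (nat_lit 6607) (.f (nat_lit 497) (nat_lit 526) (nat_lit 1518) (.f (nat_lit 592) (nat_lit 624) (nat_lit 4591) (.f (nat_lit 530) (nat_lit 531) (nat_lit 495) (.f (nat_lit 465) (nat_lit 560) (nat_lit 6608) (.f (nat_lit 433) (nat_lit 401) (nat_lit 4497) (.d (nat_lit 529) (nat_lit 558) (nat_lit 1550) (nat_lit 562) (nat_lit 4529))))))))))) (.a (.p (nat_lit 591) (.a (.f (nat_lit 624) (nat_lit 592) (nat_lit 4591) (.f (nat_lit 623) (nat_lit 656) (nat_lit 4623) (.d (nat_lit 622) (nat_lit 590) (nat_lit 5614) (nat_lit 654) (nat_lit 5646)))) (.a (.d (nat_lit 496) (nat_lit 464) (nat_lit 6607) (nat_lit 623) (nat_lit 6639)) (.f (nat_lit 496) (nat_lit 464) (nat_lit 6607) (.f (nat_lit 497) (nat_lit 526) (nat_lit 1518) (.f (nat_lit 530) (nat_lit 531) (nat_lit 495) (.f (nat_lit 529) (nat_lit 558) (nat_lit 1550) (.f (nat_lit 562) (nat_lit 563) (nat_lit 527) (.d (nat_lit 594) (nat_lit 465) (nat_lit 7633) (nat_lit 626) (nat_lit 7665)))))))))) (.a (.p (nat_lit 591) (.a (.f (nat_lit 624) (nat_lit 592) (nat_lit 4591) (.f (nat_lit 623) (nat_lit 656) (nat_lit 4623) (.d (nat_lit 622) (nat_lit 590) (nat_lit 5614) (nat_lit 654) (nat_lit 5646)))) (.a (.f (nat_lit 622) (nat_lit 590) (nat_lit 5614) (.f (nat_lit 623) (nat_lit 654) (nat_lit 5646) (.f (nat_lit 655) (nat_lit 560) (nat_lit 6671) (.d (nat_lit 656) (nat_lit 624) (nat_lit 4623) (nat_lit 688) (nat_lit 4655))))) (.a (.p (nat_lit 557) (.a (.f (nat_lit 558) (nat_lit 556) (nat_lit 2572) (.d (nat_lit 529) (nat_lit 526) (nat_lit 1549) (nat_lit 530) (nat_lit 1550))) (.a (.f (nat_lit 558) (nat_lit 556) (nat_lit 2572) (.f (nat_lit 592) (nat_lit 624) (nat_lit 4591) (.d (nat_lit 593) (nat_lit 560) (nat_lit 557) (nat_lit 594) (nat_lit 3630)))) (.a (.f (nat_lit 592) (nat_lit 624) (nat_lit 4591) (.f (nat_lit 590) (nat_lit 622) (nat_lit 5614) (.f (nat_lit 589) (nat_lit 556) (nat_lit 3628) (.f (nat_lit 620) (nat_lit 621) (nat_lit 1612) (.d (nat_lit 588) (nat_lit 560) (nat_lit 2604) (nat_lit 619) (nat_lit 1611)))))) (.f (nat_lit 592) (nat_lit 624) (nat_lit 4591) (.f (nat_lit 590) (nat_lit 622) (nat_lit 5614) (.f (nat_lit 558) (nat_lit 593) (nat_lit 3629) (.d (nat_lit 529) (nat_lit 526) (nat_lit 1549) (nat_lit 530) (nat_lit 1550))))))))) (.a (.p (nat_lit 623) (.a (.d (nat_lit 622) (nat_lit 590) (nat_lit 5614) (nat_lit 654) (nat_lit 5646)) (.a (.f (nat_lit 655) (nat_lit 560) (nat_lit 6671) (.f (nat_lit 558) (nat_lit 526) (nat_lit 7694) (.f (nat_lit 687) (nat_lit 590) (nat_lit 7726) (.d (nat_lit 686) (nat_lit 654) (nat_lit 5678) (nat_lit 718) (nat_lit 5710))))) (.a (.f (nat_lit 655) (nat_lit 560) (nat_lit 6671) (.d (nat_lit 654) (nat_lit 622) (nat_lit 5646) (nat_lit 686) (nat_lit 5678))) (.f (nat_lit 655) (nat_lit 560) (nat_lit 6671) (.f (nat_lit 558) (nat_lit 526) (nat_lit 7694) (.d (nat_lit 590) (nat_lit 622) (nat_lit 5614) (nat_lit 687) (nat_lit 7726)))))))) (.a (.f (nat_lit 624) (nat_lit 592) (nat_lit 4591) (.f (nat_lit 623) (nat_lit 656) (nat_lit 4623) (.f (nat_lit 655) (nat_lit 560) (nat_lit 6671) (.f (nat_lit 558) (nat_lit 526) (nat_lit 7694) (.f (nat_lit 687) (nat_lit 590) (nat_lit 7726) (.d (nat_lit 686) (nat_lit 654) (nat_lit 5678) (nat_lit 718) (nat_lit 5710))))))) (.f (nat_lit 624) (nat_lit 592) (nat_lit 4591) (.f (nat_lit 623) (nat_lit 656) (nat_lit 4623) (.f (nat_lit 655) (nat_lit 560) (nat_lit 6671) (.d (nat_lit 654) (nat_lit 622) (nat_lit 5646) (nat_lit 686) (nat_lit 5678))))))))))) (.a (.p (nat_lit 591) (.a (.f (nat_lit 624) (nat_lit 592) (nat_lit 4591) (.f (nat_lit 623) (nat_lit 656) (nat_lit 4623) (.d (nat_lit 622) (nat_lit 590) (nat_lit 5614) (nat_lit 654) (nat_lit 5646)))) (.a (.d (nat_lit 496) (nat_lit 464) (nat_lit 6607) (nat_lit 623) (nat_lit 6639)) (.f (nat_lit 496) (nat_lit 464) (nat_lit 6607) (.f (nat_lit 497) (nat_lit 526) (nat_lit 1518) (.f (nat_lit 592) (nat_lit 624) (nat_lit 4591) (.f (nat_lit 560) (nat_lit 465) (nat_lit 6608) (.f (nat_lit 593) (nat_lit 625) (nat_lit 4592) (.d (nat_lit 594) (nat_lit 558) (nat_lit 3630) (nat_lit 595) (nat_lit 3631)))))))))) (.a (.p (nat_lit 530) (.a (.f (nat_lit 529) (nat_lit 558) (nat_lit 1550) (.d (nat_lit 531) (nat_lit 496) (nat_lit 3567) (nat_lit 560) (nat_lit 1551))) (.a (.f (nat_lit 529) (nat_lit 558) (nat_lit 1550) (.f (nat_lit 496) (nat_lit 531) (nat_lit 3567) (.d (nat_lit 464) (nat_lit 432) (nat_lit 5551) (nat_lit 591) (nat_lit 6607)))) (.a (.f (nat_lit 529) (nat_lit 558) (nat_lit 1550) (.f (nat_lit 531) (nat_lit 560) (nat_lit 1551) (.d (nat_lit 563) (nat_lit 562) (nat_lit 527) (nat_lit 564) (nat_lit 528)))) (.a (.p (nat_lit 591) (.a (.f (nat_lit 624) (nat_lit 592) (nat_lit 4591) (.f (nat_lit 623) (nat_lit 656) (nat_lit 4623) (.d (nat_lit 622) (nat_lit 590) (nat_lit 5614) (nat_lit 654) (nat_lit 5646)))) (.a (.f (nat_lit 622) (nat_lit 590) (nat_lit 5614) (.f (nat_lit 623) (nat_lit 654) (nat_lit 5646) (.f (nat_lit 655) (nat_lit 560) (nat_lit 6671) (.d (nat_lit 656) (nat_lit 624) (nat_lit 4623) (nat_lit 688) (nat_lit 4655))))) (.a (.f (nat_lit 496) (nat_lit 464) (nat_lit 6607) (.f (nat_lit 592) (nat_lit 624) (nat_lit 4591) (.f (nat_lit 497) (nat_lit 531) (nat_lit 495) (.f (nat_lit 465) (nat_lit 560) (nat_lit 6608) (.f (nat_lit 433) (nat_lit 401) (nat_lit 4497) (.d (nat_lit 562) (nat_lit 466) (nat_lit 7601) (nat_lit 594) (nat_lit 7633))))))) (.d (nat_lit 496) (nat_lit 464) (nat_lit 6607) (nat_lit 623) (nat_lit 6639)))))) (.p (nat_lit 591) (.a (.f (nat_lit 624) (nat_lit 592) (nat_lit 4591) (.f (nat_lit 623) (nat_lit 656) (nat_lit 4623) (.d (nat_lit 622) (nat_lit 590) (nat_lit 5614) (nat_lit 654) (nat_lit 5646)))) (.a (.f (nat_lit 622) (nat_lit 590) (nat_lit 5614) (.f (nat_lit 623) (nat_lit 654) (nat_lit 5646) (.f (nat_lit 655) (nat_lit 560) (nat_lit 6671) (.d (nat_lit 656) (nat_lit 624) (nat_lit 4623) (nat_lit 688) (nat_lit 4655))))) (.a (.f (nat_lit 592) (nat_lit 624) (nat_lit 4591) (.f (nat_lit 558) (nat_lit 529) (nat_lit 1550) (.f (nat_lit 557) (nat_lit 556) (nat_lit 2572) (.d (nat_lit 593) (nat_lit 560) (nat_lit 557) (nat_lit 594) (nat_lit 3630))))) (.d (nat_lit 496) (nat_lit 464) (nat_lit 6607) (nat_lit 623) (nat_lit 6639))))))))))) (.a (.p (nat_lit 591) (.a (.d (nat_lit 496) (nat_lit 464) (nat_lit 6607) (nat_lit 623) (nat_lit 6639)) (.a (.f (nat_lit 622) (nat_lit 590) (nat_lit 5614) (.f (nat_lit 623) (nat_lit 654) (nat_lit 5646) (.f (nat_lit 655) (nat_lit 560) (nat_lit 6671) (.d (nat_lit 656) (nat_lit 624) (nat_lit 4623) (nat_lit 688) (nat_lit 4655))))) (.f (nat_lit 496) (nat_lit 464) (nat_lit 6607) (.f (nat_lit 497) (nat_lit 526) (nat_lit 1518) (.f (nat_lit 530) (nat_lit 531) (nat_lit 495) (.f (nat_lit 529) (nat_lit 558) (nat_lit 1550) (.f (nat_lit 562) (nat_lit 563) (nat_lit 527) (.d (nat_lit 594) (nat_lit 465) (nat_lit 7633) (nat_lit 626) (nat_lit 7665)))))))))) (.a (.p (nat_lit 529) (.a (.f (nat_lit 526) (nat_lit 497) (nat_lit 2542) (.f (nat_lit 557) (nat_lit 558) (nat_lit 1549) (.f (nat_lit 525) (nat_lit 556) (nat_lit 1548) (.f (nat_lit 524) (nat_lit 560) (nat_lit 524) (.d (nat_lit 492) (nat_lit 491) (nat_lit 3563) (nat_lit 493) (nat_lit 3564)))))) (.a (.f (nat_lit 526) (nat_lit 497) (nat_lit 2542) (.d (nat_lit 558) (nat_lit 530) (nat_lit 1550) (nat_lit 557) (nat_lit 1549))) (.a (.f (nat_lit 558) (nat_lit 530) (nat_lit 1550) (.d (nat_lit 557) (nat_lit 526) (nat_lit 1549) (nat_lit 556) (nat_lit 2572))) (.a (.f (nat_lit 530) (nat_lit 558) (nat_lit 1550) (.d (nat_lit 531) (nat_lit 496) (nat_lit 3567) (nat_lit 560) (nat_lit 1551))) (.p (nat_lit 530) (.a (.d (nat_lit 531) (nat_lit 496) (nat_lit 3567) (nat_lit 560) (nat_lit 1551)) (.a (.f (nat_lit 497) (nat_lit 526) (nat_lit 2542) (.f (nat_lit 531) (nat_lit 496) (nat_lit 495) (.d (nat_lit 563) (nat_lit 562) (nat_lit 527) (nat_lit 564) (nat_lit 528)))) (.f (nat_lit 562) (nat_lit 563) (nat_lit 527) (.f (nat_lit 497) (nat_lit 526) (nat_lit 2542) (.d (nat_lit 594) (nat_lit 465) (nat_lit 7633) (nat_lit 626) (nat_lit 7665)))))))))))) (.p (nat_lit 591) (.a (.f (nat_lit 624) (nat_lit 592) (nat_lit 4591) (.f (nat_lit 623) (nat_lit 656) (nat_lit 4623) (.d (nat_lit 622) (nat_lit 590) (nat_lit 5614) (nat_lit 654) (nat_lit 5646)))) (.a (.d (nat_lit 496) (nat_lit 464) (nat_lit 6607) (nat_lit 623) (nat_lit 6639)) (.f (nat_lit 496) (nat_lit 464) (nat_lit 6607) (.f (nat_lit 497) (nat_lit 526) (nat_lit 1518) (.f (nat_lit 592) (nat_lit 624) (nat_lit 4591) (.f (nat_lit 530) (nat_lit 531) (nat_lit 495) (.f (nat_lit 465) (nat_lit 560) (nat_lit 6608) (.f (nat_lit 433) (nat_lit 401) (nat_lit 4497) (.d (nat_lit 562) (nat_lit 529) (nat_lit 4529) (nat_lit 594) (nat_lit 7633))))))))))))))))))))))))))) (.a s122835 (.a (.p (nat_lit 463) (.a (.f (nat_lit 431) (nat_lit 560) (nat_lit 4527) (.f (nat_lit 432) (nat_lit 400) (nat_lit 6543) (.f (nat_lit 559) (nat_lit 464) (nat_lit 6575) (.d (nat_lit 430) (nat_lit 398) (nat_lit 7566) (nat_lit 462) (nat_lit 7598))))) (.a (.p (nat_lit 432) (.a (.f (nat_lit 431) (nat_lit 400) (nat_lit 6543) (.f (nat_lit 430) (nat_lit 398) (nat_lit 7566) (.d (nat_lit 559) (nat_lit 462) (nat_lit 7598) (nat_lit 464) (nat_lit 6575)))) (.a (.f (nat_lit 431) (nat_lit 400) (nat_lit 6543) (.f (nat_lit 399) (nat_lit 496) (nat_lit 4495) (.d (nat_lit 398) (nat_lit 366) (nat_lit 7534) (nat_lit 430) (nat_lit 7566)))) (.f (nat_lit 559) (nat_lit 464) (nat_lit 6575) (.f (nat_lit 558) (nat_lit 590) (nat_lit 5582) (.f (nat_lit 557) (nat_lit 556) (nat_lit 2572) (.d (nat_lit 529) (nat_lit 526) (nat_lit 1549) (nat_lit 530) (nat_lit 1550)))))))) (.a (.f (nat_lit 431) (nat_lit 560) (nat_lit 4527) (.f (nat_lit 399) (nat_lit 496) (nat_lit 4495) (.d (nat_lit 400) (nat_lit 368) (nat_lit 6511) (nat_lit 432) (nat_lit 6543)))) (.a (.f (nat_lit 431) (nat_lit 560) (nat_lit 4527) (.f (nat_lit 496) (nat_lit 399) (nat_lit 4495) (.f (nat_lit 526) (nat_lit 558) (nat_lit 5550) (.d (nat_lit 525) (nat_lit 497) (nat_lit 2541) (nat_lit 524) (nat_lit 2540))))) (.p (nat_lit 464) (.a (.f (nat_lit 559) (nat_lit 432) (nat_lit 6575) (.f (nat_lit 558) (nat_lit 590) (nat_lit 5582) (.f (nat_lit 557) (nat_lit 556) (nat_lit 2572) (.d (nat_lit 560) (nat_lit 529) (nat_lit 2573) (nat_lit 592) (nat_lit 4559))))) (.a (.f (nat_lit 559) (nat_lit 432) (nat_lit 6575) (.f (nat_lit 558) (nat_lit 590) (nat_lit 5582) (.f (nat_lit 557) (nat_lit 556) (nat_lit 2572) (.d (nat_lit 529) (nat_lit 526) (nat_lit 1549) (nat_lit 530) (nat_lit 1550))))) (.a (.f (nat_lit 432) (nat_lit 559) (nat_lit 6575) (.d (nat_lit 400) (nat_lit 368) (nat_lit 5487) (nat_lit 496) (nat_lit 5519))) (.a s120346 (.p (nat_lit 465) (.a (.p (nat_lit 466) (.a (.f (nat_lit 435) (nat_lit 434) (nat_lit 2479) (.f (nat_lit 467) (nat_lit 436) (nat_lit 2480) (.d (nat_lit 499) (nat_lit 498) (nat_lit 463) (nat_lit 500) (nat_lit 464)))) (.a (.f (nat_lit 496) (nat_lit 467) (nat_lit 1487) (.d (nat_lit 560) (nat_lit 433) (nat_lit 6576) (nat_lit 592) (nat_lit 7631))) (.f (nat_lit 434) (nat_lit 435) (nat_lit 2479) (.f (nat_lit 433) (nat_lit 462) (nat_lit 2478) (.f (nat_lit 498) (nat_lit 499) (nat_lit 463) (.d (nat_lit 530) (nat_lit 401) (nat_lit 7569) (nat_lit 562) (nat_lit 7601)))))))) (.a s120331 (.a (.p (nat_lit 498) (.a (.f (nat_lit 466) (nat_lit 499) (nat_lit 463) (.f (nat_lit 434) (nat_lit 435) (nat_lit 2479) (.d (nat_lit 462) (nat_lit 433) (nat_lit 2478) (nat_lit 497) (nat_lit 462)))) (.a (.f (nat_lit 466) (nat_lit 499) (nat_lit 463) (.f (nat_lit 434) (nat_lit 435) (nat_lit 2479) (.f (nat_lit 433) (nat_lit 462) (nat_lit 2478) (.d (nat_lit 530) (nat_lit 401) (nat_lit 7569) (nat_lit 562) (nat_lit 7601))))) (.a (.f (nat_lit 499) (nat_lit 466) (nat_lit 463) (.f (nat_lit 497) (nat_lit 500) (nat_lit 3536) (.d (nat_lit 529) (nat_lit 526) (nat_lit 2542) (nat_lit 530) (nat_lit 2543)))) (.a (.f (nat_lit 497) (nat_lit 462) (nat_lit 462) (.f (nat_lit 529) (nat_lit 526) (nat_lit 2542) (.d (nat_lit 499) (nat_lit 500) (nat_lit 3536) (nat_lit 530) (nat_lit 2543)))) (.f (nat_lit 462) (nat_lit 497) (nat_lit 462) (.d (nat_lit 430) (nat_lit 429) (nat_lit 3501) (nat_lit 559) (nat_lit 7598)))))))) (.a (.p (nat_lit 466) (.a (.f (nat_lit 434) (nat_lit 435) (nat_lit 2479) (.f (nat_lit 462) (nat_lit 433) (nat_lit 2478) (.d (nat_lit 430) (nat_lit 429) (nat_lit 3501) (nat_lit 559) (nat_lit 7598)))) (.a (.f (nat_lit 496) (nat_lit 467) (nat_lit 1487) (.d (nat_lit 560) (nat_lit 433) (nat_lit 6576) (nat_lit 592) (nat_lit 7631))) (.f (nat_lit 467) (nat_lit 496) (nat_lit 1487) (.d (nat_lit 435) (nat_lit 434) (nat_lit 2479) (nat_lit 436) (nat_lit 2480)))))) (.a (.p (nat_lit 433) (.a (.f (nat_lit 462) (nat_lit 434) (nat_lit 2478) (.d (nat_lit 430) (nat_lit 429) (nat_lit 3501) (nat_lit 559) (nat_lit 7598))) (.a (.f (nat_lit 462) (nat_lit 434) (nat_lit 2478) (.f (nat_lit 497) (nat_lit 498) (nat_lit 462) (.d (nat_lit 496) (nat_lit 401) (nat_lit 5520) (nat_lit 461) (nat_lit 461)))) (.f (nat_lit 496) (nat_lit 560) (nat_lit 6576) (.d (nat_lit 401) (nat_lit 369) (nat_lit 5488) (nat_lit 497) (nat_lit 5520)))))) (.a s120332 (.p (nat_lit 496) (.a (.d (nat_lit 560) (nat_lit 433) (nat_lit 6576) (nat_lit 592) (nat_lit 7631)) (.f (nat_lit 466) (nat_lit 467) (nat_lit 1487) (.f (nat_lit 498) (nat_lit 499) (nat_lit 463) (.f (nat_lit 497) (nat_lit 526) (nat_lit 1518) (.f (nat_lit 434) (nat_lit 435) (nat_lit 2479) (.d (nat_lit 402) (nat_lit 370) (nat_lit 5489) (nat_lit 529) (nat_lit 5521))))))))))))))))))))))))) (.a (.p (nat_lit 529) (.a (.p (nat_lit 530) (.a (.f (nat_lit 559) (nat_lit 558) (nat_lit 1550) (.f (nat_lit 560) (nat_lit 531) (nat_lit 1551) (.d (nat_lit 463) (nat_lit 431) (nat_lit 4527) (nat_lit 592) (nat_lit 4559)))) (.f (nat_lit 498) (nat_lit 499) (nat_lit 2543) (.f (nat_lit 497) (nat_lit 526) (nat_lit 2542) (.f (nat_lit 562) (nat_lit 563) (nat_lit 527) (.d (nat_lit 594) (nat_lit 465) (nat_lit 7633) (nat_lit 626) (nat_lit 7665))))))) (.a (.p (nat_lit 530) (.a (.f (nat_lit 531) (nat_lit 496) (nat_lit 3567) (.d (nat_lit 499) (nat_lit 498) (nat_lit 2543) (nat_lit 500) (nat_lit 2544))) (.a (.f (nat_lit 498) (nat_lit 499) (nat_lit 2543) (.f (nat_lit 497) (nat_lit 526) (nat_lit 2542) (.f (nat_lit 562) (nat_lit 563) (nat_lit 527) (.d (nat_lit 594) (nat_lit 465) (nat_lit 7633) (nat_lit 626) (nat_lit 7665))))) (.f (nat_lit 531) (nat_lit 496) (nat_lit 3567) (.d (nat_lit 563) (nat_lit 562) (nat_lit 527) (nat_lit 564) (nat_lit 528)))))) (.a (.p (nat_lit 530) (.a (.f (nat_lit 559) (nat_lit 558) (nat_lit 1550) (.d (nat_lit 531) (nat_lit 496) (nat_lit 3567) (nat_lit 560) (nat_lit 1551))) (.a (.f (nat_lit 531) (nat_lit 496) (nat_lit 3567) (.d (nat_lit 499) (nat_lit 498) (nat_lit 2543) (nat_lit 500) (nat_lit 2544))) (.a (.f (nat_lit 559) (nat_lit 558) (nat_lit 1550) (.f (nat_lit 560) (nat_lit 531) (nat_lit 1551) (.d (nat_lit 463) (nat_lit 431) (nat_lit 4527) (nat_lit 592) (nat_lit 4559)))) s122877)))) (.a (.p (nat_lit 530) (.a (.f (nat_lit 559) (nat_lit 558) (nat_lit 1550) (.d (nat_lit 531) (nat_lit 496) (nat_lit 3567) (nat_lit 560) (nat_lit 1551))) (.a (.f (nat_lit 531) (nat_lit 496) (nat_lit 3567) (.d (nat_lit 563) (nat_lit 562) (nat_lit 527) (nat_lit 564) (nat_lit 528))) (.a (.f (nat_lit 559) (nat_lit 558) (nat_lit 1550) (.f (nat_lit 560) (nat_lit 531) (nat_lit 1551) (.d (nat_lit 463) (nat_lit 431) (nat_lit 4527) (nat_lit 592) (nat_lit 4559)))) s122877)))) (.p (nat_lit 526) (.a (.f (nat_lit 557) (nat_lit 558) (nat_lit 1549) (.f (nat_lit 525) (nat_lit 556) (nat_lit 1548) (.f (nat_lit 524) (nat_lit 496) (nat_lit 2540) (.d (nat_lit 492) (nat_lit 491) (nat_lit 3563) (nat_lit 493) (nat_lit 3564))))) (.a (.f (nat_lit 558) (nat_lit 557) (nat_lit 1549) (.f (nat_lit 463) (nat_lit 431) (nat_lit 5550) (.d (nat_lit 590) (nat_lit 559) (nat_lit 5582) (nat_lit 622) (nat_lit 6638)))) (.a (.f (nat_lit 497) (nat_lit 498) (nat_lit 2542) (.f (nat_lit 525) (nat_lit 496) (nat_lit 2541) (.f (nat_lit 492) (nat_lit 493) (nat_lit 3564) (.f (nat_lit 524) (nat_lit 491) (nat_lit 3563) (.f (nat_lit 555) (nat_lit 556) (nat_lit 1547) (.f (nat_lit 523) (nat_lit 554) (nat_lit 1546) (.d (nat_lit 559) (nat_lit 558) (nat_lit 523) (nat_lit 560) (nat_lit 524)))))))) (.f (nat_lit 497) (nat_lit 498) (nat_lit 2542) (.f (nat_lit 525) (nat_lit 496) (nat_lit 2541) (.f (nat_lit 492) (nat_lit 493) (nat_lit 3564) (.f (nat_lit 524) (nat_lit 491) (nat_lit 3563) (.d (nat_lit 556) (nat_lit 555) (nat_lit 1547) (nat_lit 557) (nat_lit 1548))))))))))))))) (.a (.p (nat_lit 559) (.a (.p (nat_lit 591) (.a (.f (nat_lit 592) (nat_lit 624) (nat_lit 4591) (.f (nat_lit 463) (nat_lit 560) (nat_lit 4559) (.d (nat_lit 590) (nat_lit 558) (nat_lit 5582) (nat_lit 622) (nat_lit 5614)))) (.a (.f (nat_lit 624) (nat_lit 592) (nat_lit 4591) (.f (nat_lit 623) (nat_lit 656) (nat_lit 4623) (.d (nat_lit 622) (nat_lit 590) (nat_lit 5614) (nat_lit 654) (nat_lit 5646)))) (.a (.f (nat_lit 590) (nat_lit 622) (nat_lit 5614) (.f (nat_lit 463) (nat_lit 558) (nat_lit 5582) (.f (nat_lit 431) (nat_lit 560) (nat_lit 4527) (.d (nat_lit 432) (nat_lit 400) (nat_lit 6543) (nat_lit 464) (nat_lit 6575))))) (.f (nat_lit 592) (nat_lit 624) (nat_lit 4591) (.f (nat_lit 463) (nat_lit 560) (nat_lit 4559) (.f (nat_lit 430) (nat_lit 462) (nat_lit 7598) (.f (nat_lit 431) (nat_lit 398) (nat_lit 7566) (.d (nat_lit 432) (nat_lit 400) (nat_lit 6543) (nat_lit 464) (nat_lit 6575)))))))))) (.a (.p (nat_lit 463) (.a (.f (nat_lit 558) (nat_lit 590) (nat_lit 5582) (.f (nat_lit 557) (nat_lit 556) (nat_lit 2572) (.d (nat_lit 529) (nat_lit 526) (nat_lit 1549) (nat_lit 530) (nat_lit 1550)))) (.f (nat_lit 432) (nat_lit 464) (nat_lit 6575) (.f (nat_lit 431) (nat_lit 400) (nat_lit 6543) (.d (nat_lit 430) (nat_lit 398) (nat_lit 7566) (nat_lit 462) (nat_lit 7598)))))) (.a s120900 (.a (.p (nat_lit 591) (.a (.f (nat_lit 592) (nat_lit 624) (nat_lit 4591) (.f (nat_lit 463) (nat_lit 560) (nat_lit 4559) (.f (nat_lit 430) (nat_lit 462) (nat_lit 7598) (.f (nat_lit 431) (nat_lit 398) (nat_lit 7566) (.d (nat_lit 432) (nat_lit 400) (nat_lit 6543) (nat_lit 464) (nat_lit 6575)))))) (.a (.f (nat_lit 624) (nat_lit 592) (nat_lit 4591) (.f (nat_lit 623) (nat_lit 656) (nat_lit 4623) (.d (nat_lit 622) (nat_lit 590) (nat_lit 5614) (nat_lit 654) (nat_lit 5646)))) (.a (.f (nat_lit 622) (nat_lit 590) (nat_lit 5614) (.f (nat_lit 623) (nat_lit 654) (nat_lit 5646) (.f (nat_lit 655) (nat_lit 560) (nat_lit 6671) (.d (nat_lit 656) (nat_lit 624) (nat_lit 4623) (nat_lit 688) (nat_lit 4655))))) (.f (nat_lit 622) (nat_lit 590) (nat_lit 5614) (.f (nat_lit 623) (nat_lit 654) (nat_lit 5646) (.f (nat_lit 560) (nat_lit 655) (nat_lit 6671) (.d (nat_lit 463) (nat_lit 431) (nat_lit 4527) (nat_lit 592) (nat_lit 4559))))))))) (.a (.p (nat_lit 591) (.a (.f (nat_lit 624) (nat_lit 592) (nat_lit 4591) (.f (nat_lit 623) (nat_lit 656) (nat_lit 4623) (.d (nat_lit 622) (nat_lit 590) (nat_lit 5614) (nat_lit 654) (nat_lit 5646)))) (.a (.f (nat_lit 622) (nat_lit 590) (nat_lit 5614) (.f (nat_lit 623) (nat_lit 654) (nat_lit 5646) (.f (nat_lit 655) (nat_lit 560) (nat_lit 6671) (.d (nat_lit 656) (nat_lit 624) (nat_lit 4623) (nat_lit 688) (nat_lit 4655))))) (.a (.p (nat_lit 557) (.a (.f (nat_lit 592) (nat_lit 624) (nat_lit 4591) (.f (nat_lit 590) (nat_lit 622) (nat_lit 5614) (.f (nat_lit 589) (nat_lit 556) (nat_lit 3628) (.f (nat_lit 620) (nat_lit 621) (nat_lit 1612) (.d (nat_lit 588) (nat_lit 560) (nat_lit 2604) (nat_lit 619) (nat_lit 1611)))))) (.a (.f (nat_lit 558) (nat_lit 556) (nat_lit 2572) (.d (nat_lit 529) (nat_lit 526) (nat_lit 1549) (nat_lit 530) (nat_lit 1550))) (.f (nat_lit 592) (nat_lit 624) (nat_lit 4591) (.f (nat_lit 590) (nat_lit 622) (nat_lit 5614) (.f (nat_lit 558) (nat_lit 593) (nat_lit 3629) (.d (nat_lit 529) (nat_lit 526) (nat_lit 1549) (nat_lit 530) (nat_lit 1550)))))))) (.a (.p (nat_lit 623) (.a (.d (nat_lit 622) (nat_lit 590) (nat_lit 5614) (nat_lit 654) (nat_lit 5646)) (.a (.f (nat_lit 655) (nat_lit 560) (nat_lit 6671) (.f (nat_lit 558) (nat_lit 526) (nat_lit 7694) (.f (nat_lit 687) (nat_lit 590) (nat_lit 7726) (.d (nat_lit 686) (nat_lit 654) (nat_lit 5678) (nat_lit 718) (nat_lit 5710))))) (.a (.f (nat_lit 655) (nat_lit 560) (nat_lit 6671) (.d (nat_lit 654) (nat_lit 622) (nat_lit 5646) (nat_lit 686) (nat_lit 5678))) (.f (nat_lit 655) (nat_lit 560) (nat_lit 6671) (.f (nat_lit 558) (nat_lit 526) (nat_lit 7694) (.d (nat_lit 590) (nat_lit 622) (nat_lit 5614) (nat_lit 687) (nat_lit 7726)))))))) (.a (.f (nat_lit 624) (nat_lit 592) (nat_lit 4591) (.f (nat_lit 623) (nat_lit 656) (nat_lit 4623) (.f (nat_lit 655) (nat_lit 560) (nat_lit 6671) (.f (nat_lit 558) (nat_lit 526) (nat_lit 7694) (.f (nat_lit 687) (nat_lit 590) (nat_lit 7726) (.d (nat_lit 686) (nat_lit 654) (nat_lit 5678) (nat_lit 718) (nat_lit 5710))))))) (.f (nat_lit 624) (nat_lit 592) (nat_lit 4591) (.f (nat_lit 623) (nat_lit 656) (nat_lit 4623) (.f (nat_lit 655) (nat_lit 560) (nat_lit 6671) (.d (nat_lit 654) (nat_lit 622) (nat_lit 5646) (nat_lit 686) (nat_lit 5678))))))))))) (.p (nat_lit 498) (.a (.p (nat_lit 463) (.a (.f (nat_lit 464) (nat_lit 432) (nat_lit 6575) (.f (nat_lit 462) (nat_lit 430) (nat_lit 7598) (.f (nat_lit 465) (nat_lit 497) (nat_lit 462) (.f (nat_lit 466) (nat_lit 499) (nat_lit 463) (.d (nat_lit 434) (nat_lit 433) (nat_lit 2478) (nat_lit 435) (nat_lit 2479)))))) (.d (nat_lit 560) (nat_lit 431) (nat_lit 4527) (nat_lit 592) (nat_lit 4559)))) (.a (.p (nat_lit 529) (.a (.d (nat_lit 530) (nat_lit 499) (nat_lit 2543) (nat_lit 558) (nat_lit 1550)) (.a (.p (nat_lit 463) (.a (.f (nat_lit 430) (nat_lit 462) (nat_lit 7598) (.f (nat_lit 431) (nat_lit 398) (nat_lit 7566) (.d (nat_lit 432) (nat_lit 400) (nat_lit 6543) (nat_lit 464) (nat_lit 6575)))) (.a (.f (nat_lit 526) (nat_lit 497) (nat_lit 2542) (.d (nat_lit 558) (nat_lit 431) (nat_lit 5550) (nat_lit 557) (nat_lit 1549))) (.f (nat_lit 497) (nat_lit 526) (nat_lit 2542) (.f (nat_lit 464) (nat_lit 432) (nat_lit 6575) (.d (nat_lit 462) (nat_lit 430) (nat_lit 7598) (nat_lit 465) (nat_lit 462))))))) (.f (nat_lit 497) (nat_lit 526) (nat_lit 2542) (.d (nat_lit 499) (nat_lit 500) (nat_lit 1520) (nat_lit 530) (nat_lit 2543)))))) (.a (.p (nat_lit 530) (.a (.d (nat_lit 529) (nat_lit 499) (nat_lit 2543) (nat_lit 558) (nat_lit 1550)) (.a (.p (nat_lit 594) (.a (.p (nat_lit 592) (.a (.f (nat_lit 591) (nat_lit 624) (nat_lit 4591) (.f (nat_lit 593) (nat_lit 558) (nat_lit 3630) (.f (nat_lit 627) (nat_lit 626) (nat_lit 591) (.f (nat_lit 595) (nat_lit 628) (nat_lit 592) (.d (nat_lit 563) (nat_lit 531) (nat_lit 7666) (nat_lit 564) (nat_lit 2608)))))) (.a (.d (nat_lit 560) (nat_lit 463) (nat_lit 4559) (nat_lit 624) (nat_lit 7663)) (.f (nat_lit 463) (nat_lit 560) (nat_lit 4559) (.f (nat_lit 430) (nat_lit 462) (nat_lit 7598) (.f (nat_lit 431) (nat_lit 398) (nat_lit 7566) (.d (nat_lit 432) (nat_lit 400) (nat_lit 6543) (nat_lit 464) (nat_lit 6575)))))))) (.a (.p (nat_lit 562) (.a (.f (nat_lit 595) (nat_lit 627) (nat_lit 4594) (.f (nat_lit 563) (nat_lit 466) (nat_lit 4562) (.f (nat_lit 593) (nat_lit 625) (nat_lit 5617) (.d (nat_lit 592) (nat_lit 564) (nat_lit 2608) (nat_lit 591) (nat_lit 2607))))) (.a (.f (nat_lit 499) (nat_lit 467) (nat_lit 6610) (.f (nat_lit 626) (nat_lit 531) (nat_lit 6642) (.d (nat_lit 627) (nat_lit 595) (nat_lit 4594) (nat_lit 659) (nat_lit 4626)))) (.f (nat_lit 499) (nat_lit 467) (nat_lit 6610) (.f (nat_lit 626) (nat_lit 531) (nat_lit 6642) (.d (nat_lit 625) (nat_lit 593) (nat_lit 5617) (nat_lit 657) (nat_lit 5649))))))) (.a (.p (nat_lit 562) (.a (.f (nat_lit 499) (nat_lit 467) (nat_lit 6610) (.f (nat_lit 626) (nat_lit 531) (nat_lit 6642) (.d (nat_lit 627) (nat_lit 595) (nat_lit 4594) (nat_lit 659) (nat_lit 4626)))) (.a (.f (nat_lit 595) (nat_lit 627) (nat_lit 4594) (.f (nat_lit 466) (nat_lit 563) (nat_lit 4562) (.d (nat_lit 467) (nat_lit 435) (nat_lit 6578) (nat_lit 499) (nat_lit 6610)))) (.a (.f (nat_lit 595) (nat_lit 627) (nat_lit 4594) (.f (nat_lit 625) (nat_lit 593) (nat_lit 5617) (.f (nat_lit 626) (nat_lit 657) (nat_lit 5649) (.f (nat_lit 563) (nat_lit 466) (nat_lit 4562) (.d (nat_lit 658) (nat_lit 531) (nat_lit 6674) (nat_lit 690) (nat_lit 6706)))))) (.f (nat_lit 499) (nat_lit 467) (nat_lit 6610) (.f (nat_lit 626) (nat_lit 531) (nat_lit 6642) (.d (nat_lit 625) (nat_lit 593) (nat_lit 5617) (nat_lit 657) (nat_lit 5649)))))))) (.a (.p (nat_lit 562) (.a (.f (nat_lit 595) (nat_lit 627) (nat_lit 4594) (.f (nat_lit 593) (nat_lit 625) (nat_lit 5617) (.f (nat_lit 592) (nat_lit 560) (nat_lit 3631) (.d (nat_lit 591) (nat_lit 558) (nat_lit 3630) (nat_lit 624) (nat_lit 4591))))) (.a (.f (nat_lit 595) (nat_lit 627) (nat_lit 4594) (.f (nat_lit 563) (nat_lit 466) (nat_lit 4562) (.f (nat_lit 593) (nat_lit 625) (nat_lit 5617) (.d (nat_lit 592) (nat_lit 564) (nat_lit 2608) (nat_lit 591) (nat_lit 2607))))) (.a (.f (nat_lit 595) (nat_lit 627) (nat_lit 4594) (.f (nat_lit 466) (nat_lit 563) (nat_lit 4562) (.d (nat_lit 467) (nat_lit 435) (nat_lit 6578) (nat_lit 499) (nat_lit 6610)))) (.a (.f (nat_lit 625) (nat_lit 593) (nat_lit 5617) (.f (nat_lit 626) (nat_lit 657) (nat_lit 5649) (.f (nat_lit 659) (nat_lit 627) (nat_lit 4626) (.f (nat_lit 658) (nat_lit 691) (nat_lit 4658) (.f (nat_lit 624) (nat_lit 623) (nat_lit 623) (.d (nat_lit 592) (nat_lit 560) (nat_lit 7663) (nat_lit 591) (nat_lit 4591))))))) (.f (nat_lit 593) (nat_lit 625) (nat_lit 5617) (.f (nat_lit 467) (nat_lit 499) (nat_lit 6610) (.f (nat_lit 466) (nat_lit 435) (nat_lit 6578) (.f (nat_lit 563) (nat_lit 595) (nat_lit 4562) (.f (nat_lit 592) (nat_lit 591) (nat_lit 2607) (.d (nat_lit 560) (nat_lit 463) (nat_lit 4559) (nat_lit 624) (nat_lit 7663)))))))))))) (.a (.p (nat_lit 592) (.a (.d (nat_lit 560) (nat_lit 463) (nat_lit 4559) (nat_lit 624) (nat_lit 7663)) (.a (.f (nat_lit 591) (nat_lit 624) (nat_lit 4591) (.f (nat_lit 593) (nat_lit 558) (nat_lit 3630) (.d (nat_lit 562) (nat_lit 563) (nat_lit 2607) (nat_lit 625) (nat_lit 5617)))) (.f (nat_lit 463) (nat_lit 560) (nat_lit 4559) (.f (nat_lit 430) (nat_lit 462) (nat_lit 7598) (.f (nat_lit 431) (nat_lit 398) (nat_lit 7566) (.d (nat_lit 432) (nat_lit 400) (nat_lit 6543) (nat_lit 464) (nat_lit 6575)))))))) (.a (.p (nat_lit 562) (.a (.f (nat_lit 499) (nat_lit 467) (nat_lit 6610) (.f (nat_lit 626) (nat_lit 531) (nat_lit 6642) (.d (nat_lit 627) (nat_lit 595) (nat_lit 4594) (nat_lit 659) (nat_lit 4626)))) (.a (.f (nat_lit 595) (nat_lit 627) (nat_lit 4594) (.f (nat_lit 466) (nat_lit 563) (nat_lit 4562) (.d (nat_lit 467) (nat_lit 435) (nat_lit 6578) (nat_lit 499) (nat_lit 6610)))) (.a (.f (nat_lit 595) (nat_lit 627) (nat_lit 4594) (.f (nat_lit 466) (nat_lit 563) (nat_lit 4562) (.f (nat_lit 435) (nat_lit 467) (nat_lit 6578) (.f (nat_lit 434) (nat_lit 403) (nat_lit 6546) (.d (nat_lit 433) (nat_lit 401) (nat_lit 7569) (nat_lit 465) (nat_lit 7601)))))) (.a (.f (nat_lit 467) (nat_lit 499) (nat_lit 6610) (.f (nat_lit 466) (nat_lit 435) (nat_lit 6578) (.f (nat_lit 433) (nat_lit 465) (nat_lit 7601) (.f (nat_lit 434) (nat_lit 401) (nat_lit 7569) (.f (nat_lit 431) (nat_lit 432) (nat_lit 431) (.f (nat_lit 463) (nat_lit 560) (nat_lit 4527) (.d (nat_lit 430) (nat_lit 398) (nat_lit 7566) (nat_lit 462) (nat_lit 7598)))))))) (.f (nat_lit 595) (nat_lit 627) (nat_lit 4594) (.f (nat_lit 466) (nat_lit 563) (nat_lit 4562) (.f (nat_lit 433) (nat_lit 465) (nat_lit 7601) (.f (nat_lit 434) (nat_lit 401) (nat_lit 7569) (.f (nat_lit 403) (nat_lit 435) (nat_lit 6546) (.f (nat_lit 402) (nat_lit 371) (nat_lit 6514) (.f (nat_lit 431) (nat_lit 432) (nat_lit 2447) (.f (nat_lit 463) (nat_lit 560) (nat_lit 4527) (.d (nat_lit 430) (nat_lit 398) (nat_lit 7566) (nat_lit 462) (nat_lit 7598))))))))))))))) (.p (nat_lit 562) (.a (.f (nat_lit 595) (nat_lit 627) (nat_lit 4594) (.f (nat_lit 593) (nat_lit 625) (nat_lit 5617) (.f (nat_lit 592) (nat_lit 560) (nat_lit 3631) (.d (nat_lit 591) (nat_lit 558) (nat_lit 3630) (nat_lit 624) (nat_lit 4591))))) (.a (.f (nat_lit 499) (nat_lit 467) (nat_lit 6610) (.f (nat_lit 626) (nat_lit 531) (nat_lit 6642) (.d (nat_lit 627) (nat_lit 595) (nat_lit 4594) (nat_lit 659) (nat_lit 4626)))) (.f (nat_lit 499) (nat_lit 467) (nat_lit 6610) (.f (nat_lit 626) (nat_lit 531) (nat_lit 6642) (.d (nat_lit 625) (nat_lit 593) (nat_lit 5617) (nat_lit 657) (nat_lit 5649)))))))))))))) (.a (.f (nat_lit 529) (nat_lit 499) (nat_lit 2543) (.f (nat_lit 560) (nat_lit 531) (nat_lit 1551) (.d (nat_lit 463) (nat_lit 431) (nat_lit 4527) (nat_lit 592) (nat_lit 4559)))) (.f (nat_lit 529) (nat_lit 558) (nat_lit 1550) (.f (nat_lit 531) (nat_lit 560) (nat_lit 1551) (.d (nat_lit 563) (nat_lit 562) (nat_lit 527) (nat_lit 564) (nat_lit 528)))))))) (.a (.p (nat_lit 529) (.a (.d (nat_lit 530) (nat_lit 499) (nat_lit 2543) (nat_lit 558) (nat_lit 1550)) (.a (.f (nat_lit 526) (nat_lit 497) (nat_lit 2542) (.f (nat_lit 557) (nat_lit 558) (nat_lit 1549) (.f (nat_lit 525) (nat_lit 556) (nat_lit 1548) (.f (nat_lit 524) (nat_lit 560) (nat_lit 524) (.d (nat_lit 492) (nat_lit 491) (nat_lit 3563) (nat_lit 493) (nat_lit 3564)))))) (.f (nat_lit 497) (nat_lit 526) (nat_lit 2542) (.d (nat_lit 499) (nat_lit 500) (nat_lit 1520) (nat_lit 530) (nat_lit 2543)))))) (.p (nat_lit 463) (.a (.d (nat_lit 560) (nat_lit 431) (nat_lit 4527) (nat_lit 592) (nat_lit 4559)) (.a (.f (nat_lit 432) (nat_lit 464) (nat_lit 6575) (.f (nat_lit 431) (nat_lit 400) (nat_lit 6543) (.d (nat_lit 430) (nat_lit 398) (nat_lit 7566) (nat_lit 462) (nat_lit 7598)))) (.f (nat_lit 560) (nat_lit 592) (nat_lit 4559) (.f (nat_lit 462) (nat_lit 430) (nat_lit 7598) (.f (nat_lit 464) (nat_lit 432) (nat_lit 6575) (.f (nat_lit 497) (nat_lit 465) (nat_lit 462) (.f (nat_lit 529) (nat_lit 526) (nat_lit 2542) (.d (nat_lit 558) (nat_lit 530) (nat_lit 1550) (nat_lit 557) (nat_lit 2573))))))))))))))))))))) (.a (.p (nat_lit 463) (.a (.p (nat_lit 432) (.a (.f (nat_lit 431) (nat_lit 400) (nat_lit 6543) (.f (nat_lit 430) (nat_lit 398) (nat_lit 7566) (.d (nat_lit 559) (nat_lit 462) (nat_lit 7598) (nat_lit 464) (nat_lit 6575)))) (.a (.f (nat_lit 431) (nat_lit 400) (nat_lit 6543) (.f (nat_lit 399) (nat_lit 496) (nat_lit 4495) (.d (nat_lit 398) (nat_lit 366) (nat_lit 7534) (nat_lit 430) (nat_lit 7566)))) (.f (nat_lit 559) (nat_lit 464) (nat_lit 6575) (.f (nat_lit 558) (nat_lit 590) (nat_lit 5582) (.f (nat_lit 557) (nat_lit 556) (nat_lit 2572) (.d (nat_lit 529) (nat_lit 526) (nat_lit 1549) (nat_lit 530) (nat_lit 1550)))))))) (.a (.p (nat_lit 559) (.a (.f (nat_lit 558) (nat_lit 590) (nat_lit 5582) (.f (nat_lit 557) (nat_lit 556) (nat_lit 2572) (.d (nat_lit 529) (nat_lit 526) (nat_lit 1549) (nat_lit 530) (nat_lit 1550)))) (.f (nat_lit 432) (nat_lit 464) (nat_lit 6575) (.f (nat_lit 431) (nat_lit 400) (nat_lit 6543) (.d (nat_lit 430) (nat_lit 398) (nat_lit 7566) (nat_lit 462) (nat_lit 7598)))))) (.a s120214 (.a (.p (nat_lit 526) (.a (.f (nat_lit 431) (nat_lit 558) (nat_lit 5550) (.f (nat_lit 496) (nat_lit 399) (nat_lit 4495) (.d (nat_lit 525) (nat_lit 497) (nat_lit 2541) (nat_lit 524) (nat_lit 2540)))) (.a (.f (nat_lit 431) (nat_lit 558) (nat_lit 5550) (.f (nat_lit 400) (nat_lit 432) (nat_lit 6543) (.f (nat_lit 399) (nat_lit 368) (nat_lit 6511) (.d (nat_lit 398) (nat_lit 366) (nat_lit 7534) (nat_lit 430) (nat_lit 7566))))) (.a (.p (nat_lit 525) (.a (.d (nat_lit 496) (nat_lit 497) (nat_lit 2541) (nat_lit 524) (nat_lit 2540)) (.a (.f (nat_lit 492) (nat_lit 493) (nat_lit 3564) (.f (nat_lit 524) (nat_lit 491) (nat_lit 3563) (.d (nat_lit 556) (nat_lit 555) (nat_lit 1547) (nat_lit 557) (nat_lit 1548)))) (.f (nat_lit 496) (nat_lit 497) (nat_lit 2541) (.f (nat_lit 431) (nat_lit 399) (nat_lit 4495) (.f (nat_lit 432) (nat_lit 400) (nat_lit 6543) (.f (nat_lit 430) (nat_lit 398) (nat_lit 7566) (.f (nat_lit 493) (nat_lit 492) (nat_lit 3564) (.f (nat_lit 557) (nat_lit 556) (nat_lit 1548) (.f (nat_lit 461) (nat_lit 462) (nat_lit 6573) (.d (nat_lit 460) (nat_lit 428) (nat_lit 7596) (nat_lit 429) (nat_lit 1452)))))))))))) (.p (nat_lit 525) (.a (.d (nat_lit 496) (nat_lit 497) (nat_lit 2541) (nat_lit 524) (nat_lit 2540)) (.a (.f (nat_lit 492) (nat_lit 493) (nat_lit 3564) (.f (nat_lit 524) (nat_lit 491) (nat_lit 3563) (.d (nat_lit 556) (nat_lit 555) (nat_lit 1547) (nat_lit 557) (nat_lit 1548)))) (.f (nat_lit 557) (nat_lit 556) (nat_lit 1548) (.f (nat_lit 493) (nat_lit 492) (nat_lit 3564) (.f (nat_lit 558) (nat_lit 529) (nat_lit 1549) (.d (nat_lit 461) (nat_lit 429) (nat_lit 4525) (nat_lit 590) (nat_lit 4557)))))))))))) (.a (.p (nat_lit 559) (.a (.f (nat_lit 558) (nat_lit 590) (nat_lit 5582) (.f (nat_lit 557) (nat_lit 556) (nat_lit 2572) (.d (nat_lit 529) (nat_lit 526) (nat_lit 1549) (nat_lit 530) (nat_lit 1550)))) (.f (nat_lit 430) (nat_lit 462) (nat_lit 7598) (.f (nat_lit 431) (nat_lit 398) (nat_lit 7566) (.f (nat_lit 496) (nat_lit 399) (nat_lit 4495) (.d (nat_lit 591) (nat_lit 464) (nat_lit 6607) (nat_lit 623) (nat_lit 6639))))))) (.a s120277 (.a (.p (nat_lit 559) (.a (.f (nat_lit 464) (nat_lit 432) (nat_lit 6575) (.f (nat_lit 496) (nat_lit 591) (nat_lit 6607) (.f (nat_lit 462) (nat_lit 430) (nat_lit 7598) (.d (nat_lit 461) (nat_lit 460) (nat_lit 460) (nat_lit 497) (nat_lit 461))))) (.f (nat_lit 558) (nat_lit 590) (nat_lit 5582) (.f (nat_lit 557) (nat_lit 556) (nat_lit 2572) (.d (nat_lit 529) (nat_lit 526) (nat_lit 1549) (nat_lit 530) (nat_lit 1550)))))) (.a (.p (nat_lit 432) (.a (.f (nat_lit 431) (nat_lit 400) (nat_lit 6543) (.f (nat_lit 430) (nat_lit 398) (nat_lit 7566) (.d (nat_lit 559) (nat_lit 462) (nat_lit 7598) (nat_lit 464) (nat_lit 6575)))) (.a (.f (nat_lit 431) (nat_lit 400) (nat_lit 6543) (.f (nat_lit 399) (nat_lit 496) (nat_lit 4495) (.d (nat_lit 398) (nat_lit 366) (nat_lit 7534) (nat_lit 430) (nat_lit 7566)))) (.a (.f (nat_lit 464) (nat_lit 559) (nat_lit 6575) (.d (nat_lit 400) (nat_lit 368) (nat_lit 5487) (nat_lit 496) (nat_lit 5519))) (.f (nat_lit 559) (nat_lit 464) (nat_lit 6575) (.f (nat_lit 430) (nat_lit 462) (nat_lit 7598) (.f (nat_lit 431) (nat_lit 398) (nat_lit 7566) (.f (nat_lit 496) (nat_lit 399) (nat_lit 4495) (.f (nat_lit 526) (nat_lit 558) (nat_lit 5550) (.d (nat_lit 525) (nat_lit 497) (nat_lit 2541) (nat_lit 524) (nat_lit 2540))))))))))) s120250))))))))) (.a (.p (nat_lit 463) (.a (.f (nat_lit 431) (nat_lit 560) (nat_lit 4527) (.f (nat_lit 432) (nat_lit 400) (nat_lit 6543) (.f (nat_lit 559) (nat_lit 464) (nat_lit 6575) (.d (nat_lit 430) (nat_lit 398) (nat_lit 7566) (nat_lit 462) (nat_lit 7598))))) (.a (.p (nat_lit 432) (.a (.f (nat_lit 431) (nat_lit 400) (nat_lit 6543) (.f (nat_lit 430) (nat_lit 398) (nat_lit 7566) (.d (nat_lit 559) (nat_lit 462) (nat_lit 7598) (nat_lit 464) (nat_lit 6575)))) (.a (.f (nat_lit 431) (nat_lit 400) (nat_lit 6543) (.f (nat_lit 399) (nat_lit 496) (nat_lit 4495) (.d (nat_lit 398) (nat_lit 366) (nat_lit 7534) (nat_lit 430) (nat_lit 7566)))) (.f (nat_lit 559) (nat_lit 464) (nat_lit 6575) (.f (nat_lit 558) (nat_lit 590) (nat_lit 5582) (.f (nat_lit 557) (nat_lit 556) (nat_lit 2572) (.d (nat_lit 529) (nat_lit 526) (nat_lit 1549) (nat_lit 530) (nat_lit 1550)))))))) (.a (.f (nat_lit 431) (nat_lit 560) (nat_lit 4527) (.f (nat_lit 399) (nat_lit 496) (nat_lit 4495) (.d (nat_lit 400) (nat_lit 368) (nat_lit 6511) (nat_lit 432) (nat_lit 6543)))) (.a (.f (nat_lit 431) (nat_lit 560) (nat_lit 4527) (.f (nat_lit 496) (nat_lit 399) (nat_lit 4495) (.f (nat_lit 526) (nat_lit 558) (nat_lit 5550) (.d (nat_lit 525) (nat_lit 497) (nat_lit 2541) (nat_lit 524) (nat_lit 2540))))) (.p (nat_lit 559) (.a (.f (nat_lit 464) (nat_lit 432) (nat_lit 6575) (.f (nat_lit 496) (nat_lit 591) (nat_lit 6607) (.f (nat_lit 462) (nat_lit 430) (nat_lit 7598) (.d (nat_lit 461) (nat_lit 460) (nat_lit 460) (nat_lit 497) (nat_lit 461))))) (.f (nat_lit 558) (nat_lit 590) (nat_lit 5582) (.f (nat_lit 557) (nat_lit 556) (nat_lit 2572) (.d (nat_lit 529) (nat_lit 526) (nat_lit 1549) (nat_lit 530) (nat_lit 1550))))))))))) (.a (.p (nat_lit 463) (.a (.f (nat_lit 431) (nat_lit 560) (nat_lit 4527) (.f (nat_lit 432) (nat_lit 400) (nat_lit 6543) (.f (nat_lit 559) (nat_lit 464) (nat_lit 6575) (.d (nat_lit 430) (nat_lit 398) (nat_lit 7566) (nat_lit 462) (nat_lit 7598))))) (.a (.p (nat_lit 432) (.a (.f (nat_lit 431) (nat_lit 400) (nat_lit 6543) (.f (nat_lit 430) (nat_lit 398) (nat_lit 7566) (.d (nat_lit 559) (nat_lit 462) (nat_lit 7598) (nat_lit 464) (nat_lit 6575)))) (.a (.f (nat_lit 431) (nat_lit 400) (nat_lit 6543) (.f (nat_lit 399) (nat_lit 496) (nat_lit 4495) (.d (nat_lit 398) (nat_lit 366) (nat_lit 7534) (nat_lit 430) (nat_lit 7566)))) (.f (nat_lit 559) (nat_lit 464) (nat_lit 6575) (.f (nat_lit 558) (nat_lit 590) (nat_lit 5582) (.f (nat_lit 557) (nat_lit 556) (nat_lit 2572) (.d (nat_lit 529) (nat_lit 526) (nat_lit 1549) (nat_lit 530) (nat_lit 1550)))))))) (.a (.f (nat_lit 431) (nat_lit 560) (nat_lit 4527) (.f (nat_lit 399) (nat_lit 496) (nat_lit 4495) (.d (nat_lit 400) (nat_lit 368) (nat_lit 6511) (nat_lit 432) (nat_lit 6543)))) (.a (.f (nat_lit 431) (nat_lit 560) (nat_lit 4527) (.f (nat_lit 399) (nat_lit 496) (nat_lit 4495) (.d (nat_lit 398) (nat_lit 366) (nat_lit 7534) (nat_lit 430) (nat_lit 7566)))) (.p (nat_lit 559) (.a (.f (nat_lit 560) (nat_lit 592) (nat_lit 4559) (.f (nat_lit 558) (nat_lit 590) (nat_lit 5582) (.d (nat_lit 557) (nat_lit 529) (nat_lit 2573) (nat_lit 556) (nat_lit 2572)))) (.a (.f (nat_lit 558) (nat_lit 590) (nat_lit 5582) (.f (nat_lit 557) (nat_lit 556) (nat_lit 2572) (.d (nat_lit 529) (nat_lit 526) (nat_lit 1549) (nat_lit 530) (nat_lit 1550)))) (.a (.f (nat_lit 592) (nat_lit 560) (nat_lit 4559) (.f (nat_lit 591) (nat_lit 624) (nat_lit 4591) (.d (nat_lit 590) (nat_lit 558) (nat_lit 5582) (nat_lit 622) (nat_lit 5614)))) (.a (.f (nat_lit 464) (nat_lit 432) (nat_lit 6575) (.f (nat_lit 591) (nat_lit 496) (nat_lit 6607) (.f (nat_lit 624) (nat_lit 592) (nat_lit 4591) (.f (nat_lit 623) (nat_lit 656) (nat_lit 4623) (.d (nat_lit 622) (nat_lit 590) (nat_lit 5614) (nat_lit 654) (nat_lit 5646)))))) (.f (nat_lit 592) (nat_lit 560) (nat_lit 4559) (.f (nat_lit 591) (nat_lit 624) (nat_lit 4591) (.d (nat_lit 464) (nat_lit 432) (nat_lit 6575) (nat_lit 496) (nat_lit 6607)))))))))))))) (.p (nat_lit 463) (.a (.f (nat_lit 431) (nat_lit 560) (nat_lit 4527) (.f (nat_lit 432) (nat_lit 400) (nat_lit 6543) (.f (nat_lit 559) (nat_lit 464) (nat_lit 6575) (.d (nat_lit 430) (nat_lit 398) (nat_lit 7566) (nat_lit 462) (nat_lit 7598))))) (.a s120214 (.a (.f (nat_lit 431) (nat_lit 560) (nat_lit 4527) (.f (nat_lit 399) (nat_lit 496) (nat_lit 4495) (.d (nat_lit 400) (nat_lit 368) (nat_lit 6511) (nat_lit 432) (nat_lit 6543)))) (.a (.f (nat_lit 431) (nat_lit 560) (nat_lit 4527) (.f (nat_lit 496) (nat_lit 399) (nat_lit 4495) (.f (nat_lit 526) (nat_lit 558) (nat_lit 5550) (.d (nat_lit 525) (nat_lit 497) (nat_lit 2541) (nat_lit 524) (nat_lit 2540))))) (.p (nat_lit 559) (.a (.f (nat_lit 464) (nat_lit 432) (nat_lit 6575) (.f (nat_lit 496) (nat_lit 591) (nat_lit 6607) (.f (nat_lit 462) (nat_lit 430) (nat_lit 7598) (.d (nat_lit 461) (nat_lit 460) (nat_lit 460) (nat_lit 497) (nat_lit 461))))) (.a (.f (nat_lit 592) (nat_lit 560) (nat_lit 4559) (.f (nat_lit 591) (nat_lit 624) (nat_lit 4591) (.d (nat_lit 590) (nat_lit 558) (nat_lit 5582) (nat_lit 622) (nat_lit 5614)))) (.f (nat_lit 462) (nat_lit 430) (nat_lit 7598) (.p (nat_lit 496) (.a (.f (nat_lit 464) (nat_lit 432) (nat_lit 6575) (.d (nat_lit 497) (nat_lit 461) (nat_lit 461) (nat_lit 498) (nat_lit 3534))) (.a (.f (nat_lit 464) (nat_lit 432) (nat_lit 6575) (.f (nat_lit 560) (nat_lit 592) (nat_lit 4559) (.f (nat_lit 461) (nat_lit 460) (nat_lit 460) (.f (nat_lit 558) (nat_lit 590) (nat_lit 5582) (.f (nat_lit 557) (nat_lit 556) (nat_lit 2572) (.f (nat_lit 525) (nat_lit 524) (nat_lit 3596) (.f (nat_lit 493) (nat_lit 492) (nat_lit 1484) (.d (nat_lit 429) (nat_lit 428) (nat_lit 3500) (nat_lit 526) (nat_lit 4525))))))))) (.f (nat_lit 560) (nat_lit 592) (nat_lit 7631) (.f (nat_lit 497) (nat_lit 498) (nat_lit 3534) (.f (nat_lit 525) (nat_lit 526) (nat_lit 2541) (.f (nat_lit 558) (nat_lit 590) (nat_lit 5582) (.d (nat_lit 557) (nat_lit 524) (nat_lit 3596) (nat_lit 556) (nat_lit 2572))))))))))))))))))))))))))))))))))))))))))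
noncomputable def s123153 : Cert := .r (nat_lit 878694100854745141256323819315110954901006375692038316188451534125484520860414608653448913445023849385239695046487780905203497230596867842715690486470535020544) (.p (nat_lit 525) (.a (.f (nat_lit 493) (nat_lit 524) (nat_lit 1516) (.f (nat_lit 461) (nat_lit 460) (nat_lit 3532) (.d (nat_lit 497) (nat_lit 462) (nat_lit 3533) (nat_lit 526) (nat_lit 1517)))) (.a (.f (nat_lit 493) (nat_lit 524) (nat_lit 1516) (.f (nat_lit 492) (nat_lit 527) (nat_lit 492) (.d (nat_lit 460) (nat_lit 459) (nat_lit 3531) (nat_lit 461) (nat_lit 3532)))) (.f (nat_lit 497) (nat_lit 526) (nat_lit 1517) (.f (nat_lit 466) (nat_lit 465) (nat_lit 2510) (.f (nat_lit 498) (nat_lit 467) (nat_lit 2511) (.f (nat_lit 499) (nat_lit 527) (nat_lit 1519) (.d (nat_lit 531) (nat_lit 530) (nat_lit 495) (nat_lit 532) (nat_lit 496)))))))))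
noncomputable def s123191 : Cert := .r (nat_lit 878694100854745141256323819315110954901006375692038316188451534125484520860414608653448913445023849385239695046487780905203497230596867842715690486470535020544) (.p (nat_lit 525) (.a (.f (nat_lit 497) (nat_lit 526) (nat_lit 1517) (.f (nat_lit 465) (nat_lit 466) (nat_lit 2510) (.f (nat_lit 433) (nat_lit 401) (nat_lit 5520) (.d (nat_lit 560) (nat_lit 464) (nat_lit 6576) (nat_lit 592) (nat_lit 6608))))) (.a (.f (nat_lit 497) (nat_lit 526) (nat_lit 1517) (.f (nat_lit 466) (nat_lit 465) (nat_lit 2510) (.f (nat_lit 498) (nat_lit 467) (nat_lit 2511) (.f (nat_lit 499) (nat_lit 527) (nat_lit 1519) (.d (nat_lit 531) (nat_lit 530) (nat_lit 495) (nat_lit 532) (nat_lit 496)))))) (.a (.f (nat_lit 493) (nat_lit 524) (nat_lit 1516) (.f (nat_lit 527) (nat_lit 492) (nat_lit 492) (.f (nat_lit 464) (nat_lit 465) (nat_lit 2509) (.d (nat_lit 432) (nat_lit 400) (nat_lit 5519) (nat_lit 559) (nat_lit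 5551))))) (.f (nat_lit 526) (nat_lit 497) (nat_lit 1517) (.d (nat_lit 524) (nat_lit 493) (nat_lit 1516) (nat_lit 523) (nat_lit 2539)))))))
noncomputable def s123218 : Cert := .r (nat_lit 878694100854745141256323819315110954901006375692038316188451534125484520860414608653448913445023849385239695046487780905203497230596867842715690486470535020544) (.p (nat_lit 497) (.a (.f (nat_lit 526) (nat_lit 525) (nat_lit 1517) (.f (nat_lit 527) (nat_lit 498) (nat_lit 1518) (.f (nat_lit 462) (nat_lit 461) (nat_lit 3533) (.d (nat_lit 430) (nat_lit 398) (nat_lit 4494) (nat_lit 559) (nat_lit 4526))))) (.a (.f (nat_lit 525) (nat_lit 526) (nat_lit 1517) (.f (nat_lit 493) (nat_lit 524) (nat_lit 1516) (.d (nat_lit 461) (nat_lit 460) (nat_lit 3532) (nat_lit 462) (nat_lit 3533)))) (.a (.f (nat_lit 461) (nat_lit 462) (nat_lit 3533) (.f (nat_lit 493) (nat_lit 460) (nat_lit 3532) (.f (nat_lit 524) (nat_lit 525) (nat_lit 1516) (.d (nat_lit 492)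 (nat_lit 523) (nat_lit 1515) (nat_lit 527) (nat_lit 492))))) (.a (.f (nat_lit 461) (nat_lit 462) (nat_lit 3533) (.f (nat_lit 493) (nat_lit 460) (nat_lit 3532) (.f (nat_lit 527) (nat_lit 492) (nat_lit 492) (.d (nat_lit 498) (nat_lit 499) (nat_lit 1519) (nat_lit 526) (nat_lit 1518))))) (.f (nat_lit 526) (nat_lit 525) (nat_lit 1517) (.f (nat_lit 498) (nat_lit 527) (nat_lit 1518) (.f (nat_lit 531) (nat_lit 530) (nat_lit 495) (.f (nat_lit 499) (nat_lit 532) (nat_lit 496) (.d (nat_lit 467) (nat_lit 466) (nat_lit 2511) (nat_lit 468) (nat_lit 2512)))))))))))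
noncomputable def s123228 : Cert := .r (nat_lit 1098367626388098478122762378637364249957078199323704345044457463504833323741156326871955141306599156685251196654876003878336409722739957512953733523452282798080) (.p (nat_lit 498) (.a (.d (nat_lit 530) (nat_lit 529) (nat_lit 494) (nat_lit 531) (nat_lit 495)) (.a (.f (nat_lit 467) (nat_lit 466) (nat_lit 2511) (.f (nat_lit 499) (nat_lit 468) (nat_lit 2512) (.d (nat_lit 531) (nat_lit 530) (nat_lit 495) (nat_lit 532) (nat_lit 496)))) (.a (.f (nat_lit 467) (nat_lit 466) (nat_lit 2511) (.f (nat_lit 499) (nat_lit 468) (nat_lit 2512) (.f (nat_lit 500) (nat_lit 529) (nat_lit 1520) (.d (nat_lit 532) (nat_lit 531) (nat_lit 496) (nat_lit 533) (nat_lit 497))))) (.f (nat_lit 529) (nat_lit 530) (nat_lit 494) (.f (nat_lit 499) (nat_lit 500) (nat_lit 1520) (.d (nat_lit 467) (nat_lit 466) (nat_lit 2511) (nat_lit 468) (nat_lit 2512))))))))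
noncomputable def s123270 : Cert := .r (nat_lit 943490607303752964039313297382811867614945842957738412390675664350480405417459115750671283615785513831557488902204138235957814519872599004728159007576233402698565681152) (.p (nat_lit 591) (.a (.f (nat_lit 623) (nat_lit 590) (nat_lit 4590) (.f (nat_lit 559) (nat_lit 655) (nat_lit 7694) (.d (nat_lit 560) (nat_lit 464) (nat_lit 5583) (nat_lit 592) (nat_lit 5615)))) (.a (.f (nat_lit 590) (nat_lit 623) (nat_lit 4590) (.f (nat_lit 621) (nat_lit 589) (nat_lit 5613) (.d (nat_lit 622) (nat_lit 527) (nat_lit 6638) (nat_lit 653) (nat_lit 5645)))) (.a (.f (nat_lit 559) (nat_lit 462) (nat_lit 4558) (.f (nat_lit 560) (nat_lit 464) (nat_lit 5583) (.d (nat_lit 623) (nat_lit 592) (nat_lit 5615) (nat_lit 655) (nat_lit 7694)))) (.f (nat_lit 559) (nat_lit 462) (nat_lit 4558) (.d (nat_lit 464) (nat_lit 527) (nat_lit 6607) (nat_lit 560) (nat_lit 5583)))))))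
noncomputable def s123271 : Cert := .r (nat_lit 943490607303752964039313297382811867614945842957738412390675664350480405417459115750671283615785513831557488902204138235957814519872599004728159007576233402698565681152) (.p (nat_lit 591) (.a (.f (nat_lit 623) (nat_lit 590) (nat_lit 4590) (.f (nat_lit 559) (nat_lit 655) (nat_lit 7694) (.d (nat_lit 560) (nat_lit 464) (nat_lit 5583) (nat_lit 592) (nat_lit 5615)))) (.a (.f (nat_lit 590) (nat_lit 623) (nat_lit 4590) (.f (nat_lit 527) (nat_lit 622) (nat_lit 6638) (.d (nat_lit 529) (nat_lit 530) (nat_lit 3566) (nat_lit 557) (nat_lit 1549)))) (.a (.f (nat_lit 559) (nat_lit 462) (nat_lit 4558) (.f (nat_lit 560) (nat_lit 464) (nat_lit 5583) (.d (nat_lit 623) (nat_lit 592) (nat_lit 5615) (nat_lit 655) (nat_lit 7694)))) (.f (nat_lit 559) (nat_lit 462) (nat_lit 4558) (.d (nat_lit 464) (nat_lit 527) (nat_lit 6607) (nat_lit 560) (nat_lit 5583)))))))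
noncomputable def s123285 : Cert := .r (nat_lit 1098367625978924652135744644885715537853628305296624089289074364819421902729139602321370821946190395144513177011015168362391400846587800444718059391786216849408) (.p (nat_lit 558) (.a (.p (nat_lit 591) (.a (.f (nat_lit 590) (nat_lit 623) (nat_lit 4590) (.f (nat_lit 589) (nat_lit 621) (nat_lit 5613) (.d (nat_lit 462) (nat_lit 557) (nat_lit 5581) (nat_lit 559) (nat_lit 4558)))) (.a (.f (nat_lit 590) (nat_lit 623) (nat_lit 4590) (.f (nat_lit 589) (nat_lit 621) (nat_lit 5613) (.f (nat_lit 557) (nat_lit 462) (nat_lit 5581) (.d (nat_lit 592) (nat_lit 556) (nat_lit 3628) (nat_lit 593) (nat_lit 3629))))) (.a (.f (nat_lit 623) (nat_lit 590) (nat_lit 4590) (.f (nat_lit 559) (nat_lit 655) (nat_lit 7694) (.d (nat_lit 560) (nat_lit 464) (nat_lit 5583) (nat_lit 592) (nat_lit 5615)))) (.a (.f (nat_lit 559) (nat_lit 462) (nat_lit 4558) (.f (nat_lit 560) (nat_lit 464) (nat_lit 5583) (.d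 (nat_lit 623) (nat_lit 592) (nat_lit 5615) (nat_lit 655) (nat_lit 7694)))) (.f (nat_lit 462) (nat_lit 559) (nat_lit 4558) (.f (nat_lit 557) (nat_lit 589) (nat_lit 5581) (.f (nat_lit 430) (nat_lit 525) (nat_lit 5549) (.d (nat_lit 429) (nat_lit 397) (nat_lit 7565) (nat_lit 461) (nat_lit 7597)))))))))) (.a (.p (nat_lit 591) (.a (.f (nat_lit 590) (nat_lit 623) (nat_lit 4590) (.f (nat_lit 589) (nat_lit 621) (nat_lit 5613) (.d (nat_lit 462) (nat_lit 557) (nat_lit 5581) (nat_lit 559) (nat_lit 4558)))) (.a (.f (nat_lit 590) (nat_lit 623) (nat_lit 4590) (.f (nat_lit 589) (nat_lit 621) (nat_lit 5613) (.f (nat_lit 557) (nat_lit 462) (nat_lit 5581) (.d (nat_lit 592) (nat_lit 556) (nat_lit 3628) (nat_lit 593) (nat_lit 3629))))) (.a (.f (nat_lit 590) (nat_lit 623) (nat_lit 4590) (.f (nat_lit 621) (nat_lit 589) (nat_lit 5613) (.d (nat_lit 622) (nat_lit 527) (nat_lit 6638) (nat_lit 653) (nat_lit 5645)))) (.a (.f (nat_lit 462) (nat_lit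 559) (nat_lit 4558) (.f (nat_lit 557) (nat_lit 589) (nat_lit 5581) (.f (nat_lit 430) (nat_lit 525) (nat_lit 5549) (.d (nat_lit 429) (nat_lit 397) (nat_lit 7565) (nat_lit 461) (nat_lit 7597))))) (.f (nat_lit 590) (nat_lit 623) (nat_lit 4590) (.f (nat_lit 527) (nat_lit 622) (nat_lit 6638) (.d (nat_lit 529) (nat_lit 530) (nat_lit 3566) (nat_lit 557) (nat_lit 1549))))))))) (.a (.p (nat_lit 590) (.a (.f (nat_lit 621) (nat_lit 589) (nat_lit 5613) (.f (nat_lit 622) (nat_lit 653) (nat_lit 5645) (.d (nat_lit 623) (nat_lit 591) (nat_lit 4590) (nat_lit 655) (nat_lit 4622)))) (.a (.f (nat_lit 527) (nat_lit 622) (nat_lit 6638) (.d (nat_lit 529) (nat_lit 530) (nat_lit 3566) (nat_lit 557) (nat_lit 1549))) (.f (nat_lit 589) (nat_lit 621) (nat_lit 5613) (.f (nat_lit 557) (nat_lit 462) (nat_lit 5581) (.f (nat_lit 591) (nat_lit 623) (nat_lit 4590) (.d (nat_lit 592) (nat_lit 556) (nat_lit 3628) (nat_lit 593) (nat_lit 3629)))))))) (.a (.p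 (nat_lit 557) (.a (.f (nat_lit 462) (nat_lit 589) (nat_lit 5581) (.f (nat_lit 430) (nat_lit 525) (nat_lit 5549) (.d (nat_lit 429) (nat_lit 397) (nat_lit 7565) (nat_lit 461) (nat_lit 7597)))) (.f (nat_lit 527) (nat_lit 529) (nat_lit 1549) (.d (nat_lit 556) (nat_lit 555) (nat_lit 2571) (nat_lit 559) (nat_lit 2572))))) (.a s123270 (.a s123271 (.p (nat_lit 527) (.a (.d (nat_lit 529) (nat_lit 530) (nat_lit 3566) (nat_lit 557) (nat_lit 1549)) (.a (.f (nat_lit 525) (nat_lit 524) (nat_lit 2540) (.f (nat_lit 557) (nat_lit 556) (nat_lit 1548) (.f (nat_lit 590) (nat_lit 622) (nat_lit 6638) (.f (nat_lit 591) (nat_lit 623) (nat_lit 4590) (.f (nat_lit 559) (nat_lit 464) (nat_lit 6607) (.d (nat_lit 592) (nat_lit 593) (nat_lit 3629) (nat_lit 624) (nat_lit 4591))))))) (.f (nat_lit 590) (nat_lit 622) (nat_lit 6638) (.f (nat_lit 591) (nat_lit 623) (nat_lit 4590) (.f (nat_lit 559) (nat_lit 464) (nat_lit 6607) (.f (nat_lit 589) (nat_lit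 621) (nat_lit 5613) (.d (nat_lit 588) (nat_lit 560) (nat_lit 2604) (nat_lit 587) (nat_lit 2603))))))))))))))))
noncomputable def s123395 : Cert := .r (nat_lit 16209045191884869351492846181582911543525179962311964983565774856494788208932152852291314775700295480054058508406951196645935197124285061816305703825485829660158974822235712258048) (.p (nat_lit 591) (.a (.f (nat_lit 590) (nat_lit 623) (nat_lit 4590) (.f (nat_lit 589) (nat_lit 621) (nat_lit 5613) (.d (nat_lit 462) (nat_lit 557) (nat_lit 5581) (nat_lit 559) (nat_lit 4558)))) (.a (.f (nat_lit 590) (nat_lit 623) (nat_lit 4590) (.f (nat_lit 589) (nat_lit 621) (nat_lit 5613) (.d (nat_lit 557) (nat_lit 462) (nat_lit 5581) (nat_lit 593) (nat_lit 3629)))) (.a (.f (nat_lit 590) (nat_lit 623) (nat_lit 4590) (.f (nat_lit 621) (nat_lit 589) (nat_lit 5613) (.d (nat_lit 622) (nat_lit 593) (nat_lit 1613) (nat_lit 653) (nat_lit 5645)))) (.f (nat_lit 462) (nat_lit 559) (nat_lit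 4558) (.d (nat_lit 461) (nat_lit 429) (nat_lit 7597) (nat_lit 497) (nat_lit 3533)))))))
noncomputable def s123550 : Cert := .r (nat_lit 28365829084147412803429280756629074854636511593886542944904760845725436010337578259512992880014479855519525522533078288503450277610105246691656208173394704453208397609517965115392) (.p (nat_lit 593) (.a (.f (nat_lit 622) (nat_lit 621) (nat_lit 1613) (.f (nat_lit 625) (nat_lit 626) (nat_lit 590) (.f (nat_lit 589) (nat_lit 624) (nat_lit 589) (.f (nat_lit 556) (nat_lit 557) (nat_lit 3628) (.f (nat_lit 588) (nat_lit 555) (nat_lit 3627) (.f (nat_lit 619) (nat_lit 620) (nat_lit 1611) (.d (nat_lit 587) (nat_lit 618) (nat_lit 1610) (nat_lit 623) (nat_lit 587)))))))) (.a (.f (nat_lit 622) (nat_lit 621) (nat_lit 1613) (.f (nat_lit 594) (nat_lit 623) (nat_lit 1614) (.d (nat_lit 626) (nat_lit 625) (nat_lit 590) (nat_lit 627) (nat_lit 591)))) (.a (.f (nat_lit 625) (nat_lit 626) (nat_lit 590) (.f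 (nat_lit 589) (nat_lit 624) (nat_lit 589) (.f (nat_lit 556) (nat_lit 557) (nat_lit 3628) (.f (nat_lit 588) (nat_lit 555) (nat_lit 3627) (.d (nat_lit 620) (nat_lit 619) (nat_lit 1611) (nat_lit 621) (nat_lit 1612)))))) (.a (.f (nat_lit 621) (nat_lit 622) (nat_lit 1613) (.f (nat_lit 589) (nat_lit 620) (nat_lit 1612) (.f (nat_lit 556) (nat_lit 557) (nat_lit 3628) (.f (nat_lit 588) (nat_lit 555) (nat_lit 3627) (.d (nat_lit 624) (nat_lit 623) (nat_lit 588) (nat_lit 625) (nat_lit 589)))))) (.a (.f (nat_lit 622) (nat_lit 621) (nat_lit 1613) (.f (nat_lit 594) (nat_lit 623) (nat_lit 1614) (.f (nat_lit 627) (nat_lit 626) (nat_lit 591) (.f (nat_lit 595) (nat_lit 628) (nat_lit 592) (.d (nat_lit 563) (nat_lit 562) (nat_lit 2607) (nat_lit 564) (nat_lit 2608)))))) (.f (nat_lit 626) (nat_lit 625) (nat_lit 590) (.f (nat_lit 594) (nat_lit 627) (nat_lit 591) (.f (nat_lit 563) (nat_lit 562) (nat_lit 2607) (.f (nat_lit 595) (nat_lit 564)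 (nat_lit 2608) (.d (nat_lit 623) (nat_lit 622) (nat_lit 1614) (nat_lit 624) (nat_lit 1615))))))))))))
noncomputable def s123565 : Cert := .r (nat_lit 28365829084147412803429280756629074854636511593886542944904760845725436010337578259512992880014479855519525522533078288503450277610105246691656208173394704453208397609517965115392) (.p (nat_lit 589) (.a (.f (nat_lit 624) (nat_lit 625) (nat_lit 589) (.f (nat_lit 588) (nat_lit 623) (nat_lit 588) (.d (nat_lit 620) (nat_lit 619) (nat_lit 1611) (nat_lit 621) (nat_lit 1612)))) (.a (.f (nat_lit 621) (nat_lit 620) (nat_lit 1612) (.f (nat_lit 556) (nat_lit 557) (nat_lit 3628) (.f (nat_lit 588) (nat_lit 555) (nat_lit 3627) (.f (nat_lit 622) (nat_lit 593) (nat_lit 1613) (.d (nat_lit 587) (nat_lit 586) (nat_lit 586) (nat_lit 623) (nat_lit 587)))))) (.a (.f (nat_lit 621) (nat_lit 620) (nat_lit 1612) (.f (nat_lit 593) (nat_lit 622) (nat_lit 1613) (.d (nat_lit 625) (nat_lit 624) (nat_lit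 589) (nat_lit 626) (nat_lit 590)))) (.f (nat_lit 624) (nat_lit 625) (nat_lit 589) (.f (nat_lit 588) (nat_lit 623) (nat_lit 588) (.d (nat_lit 556) (nat_lit 555) (nat_lit 3627) (nat_lit 557) (nat_lit 3628))))))))
noncomputable def s123612 : Cert := .r (nat_lit 28365829084147412803429280756629074854636511593886542944904760845725436010337578259512992880014479855519525522533078288503450277610105246691656208173394704453208397609517965115392) (.p (nat_lit 589) (.a (.f (nat_lit 624) (nat_lit 625) (nat_lit 589) (.f (nat_lit 588) (nat_lit 623) (nat_lit 588) (.d (nat_lit 620) (nat_lit 619) (nat_lit 1611) (nat_lit 621) (nat_lit 1612)))) (.a (.f (nat_lit 557) (nat_lit 556) (nat_lit 3628) (.f (nat_lit 621) (nat_lit 620) (nat_lit 1612) (.f (nat_lit 653) (nat_lit 558) (nat_lit 6669) (.f (nat_lit 654) (nat_lit 686) (nat_lit 4653) (.f (nat_lit 622) (nat_lit 525) (nat_lit 4621) (.f (nat_lit 652) (nat_lit 684) (nat_lit 5676) (.d (nat_lit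 651) (nat_lit 623) (nat_lit 2667) (nat_lit 650) (nat_lit 2666)))))))) (.a (.f (nat_lit 557) (nat_lit 556) (nat_lit 3628) (.f (nat_lit 621) (nat_lit 620) (nat_lit 1612) (.f (nat_lit 653) (nat_lit 558) (nat_lit 6669) (.f (nat_lit 654) (nat_lit 686) (nat_lit 4653) (.f (nat_lit 622) (nat_lit 525) (nat_lit 4621) (.f (nat_lit 685) (nat_lit 717) (nat_lit 6733) (.d (nat_lit 684) (nat_lit 652) (nat_lit 5676) (nat_lit 716) (nat_lit 5708)))))))) (.f (nat_lit 624) (nat_lit 625) (nat_lit 589) (.f (nat_lit 588) (nat_lit 623) (nat_lit 588) (.d (nat_lit 556) (nat_lit 555) (nat_lit 3627) (nat_lit 557) (nat_lit 3628))))))))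
noncomputable def s123639 : Cert := .r (nat_lit 24313567786412068117382007452243175293100919570212288159752751734699407874192160147794528965027073806409957273889229861567517512888023434867547931968205286790062712254633678471168) (.p (nat_lit 590) (.a s123550 (.a s123565 (.a (.p (nat_lit 593) (.a (.f (nat_lit 622) (nat_lit 621) (nat_lit 1613) (.f (nat_lit 594) (nat_lit 623) (nat_lit 1614) (.d (nat_lit 626) (nat_lit 625) (nat_lit 590) (nat_lit 627) (nat_lit 591)))) (.a (.f (nat_lit 558) (nat_lit 557) (nat_lit 3629) (.f (nat_lit 622) (nat_lit 621) (nat_lit 1613) (.f (nat_lit 655) (nat_lit 623) (nat_lit 4622) (.f (nat_lit 654) (nat_lit 687) (nat_lit 4654) (.f (nat_lit 685) (nat_lit 653) (nat_lit 5677) (.d (nat_lit 686) (nat_lit 559) (nat_lit 6702) (nat_lit 717) (nat_lit 5709))))))) (.f (nat_lit 558) (nat_lit 557) (nat_lit 3629) (.f (nat_lit 594) (nat_lit 559) (nat_lit 3630) (.d (nat_lit 626) (nat_lit 625) (nat_lit 590)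 (nat_lit 627) (nat_lit 591))))))) (.a (.p (nat_lit 589) (.a (.f (nat_lit 624) (nat_lit 625) (nat_lit 589) (.f (nat_lit 588) (nat_lit 623) (nat_lit 588) (.d (nat_lit 620) (nat_lit 619) (nat_lit 1611) (nat_lit 621) (nat_lit 1612)))) (.a (.f (nat_lit 621) (nat_lit 620) (nat_lit 1612) (.f (nat_lit 622) (nat_lit 593) (nat_lit 1613) (.f (nat_lit 558) (nat_lit 653) (nat_lit 5645) (.f (nat_lit 655) (nat_lit 623) (nat_lit 4622) (.f (nat_lit 654) (nat_lit 687) (nat_lit 4654) (.d (nat_lit 686) (nat_lit 559) (nat_lit 6702) (nat_lit 718) (nat_lit 7757))))))) (.a (.f (nat_lit 621) (nat_lit 620) (nat_lit 1612) (.f (nat_lit 593) (nat_lit 622) (nat_lit 1613) (.d (nat_lit 625) (nat_lit 624) (nat_lit 589) (nat_lit 626) (nat_lit 590)))) (.a (.f (nat_lit 624) (nat_lit 625) (nat_lit 589) (.f (nat_lit 588) (nat_lit 623) (nat_lit 588) (.f (nat_lit 619) (nat_lit 620) (nat_lit 1611) (.f (nat_lit 587) (nat_lit 618) (nat_lit 1610) (.d (nat_lit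 555) (nat_lit 554) (nat_lit 3626) (nat_lit 556) (nat_lit 3627)))))) (.f (nat_lit 625) (nat_lit 624) (nat_lit 589) (.f (nat_lit 593) (nat_lit 626) (nat_lit 590) (.f (nat_lit 622) (nat_lit 621) (nat_lit 1613) (.f (nat_lit 623) (nat_lit 594) (nat_lit 1614) (.f (nat_lit 655) (nat_lit 558) (nat_lit 4622) (.f (nat_lit 687) (nat_lit 719) (nat_lit 7758) (.f (nat_lit 686) (nat_lit 718) (nat_lit 5710) (.f (nat_lit 654) (nat_lit 559) (nat_lit 5678) (.f (nat_lit 688) (nat_lit 720) (nat_lit 4687) (.d (nat_lit 689) (nat_lit 653) (nat_lit 3725) (nat_lit 690) (nat_lit 3726)))))))))))))))) (.a s123612 (.a (.p (nat_lit 593) (.a (.f (nat_lit 625) (nat_lit 626) (nat_lit 590) (.f (nat_lit 589) (nat_lit 624) (nat_lit 589) (.f (nat_lit 556) (nat_lit 557) (nat_lit 3628) (.f (nat_lit 588) (nat_lit 555) (nat_lit 3627) (.d (nat_lit 620) (nat_lit 619) (nat_lit 1611) (nat_lit 621) (nat_lit 1612)))))) (.a (.f (nat_lit 558) (nat_lit 557) (nat_lit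 3629) (.f (nat_lit 594) (nat_lit 559) (nat_lit 3630) (.d (nat_lit 626) (nat_lit 625) (nat_lit 590) (nat_lit 627) (nat_lit 591)))) (.a (.f (nat_lit 625) (nat_lit 626) (nat_lit 590) (.f (nat_lit 589) (nat_lit 624) (nat_lit 589) (.d (nat_lit 621) (nat_lit 620) (nat_lit 1612) (nat_lit 622) (nat_lit 1613)))) (.f (nat_lit 557) (nat_lit 558) (nat_lit 3629) (.f (nat_lit 589) (nat_lit 556) (nat_lit 3628) (.d (nat_lit 621) (nat_lit 620) (nat_lit 1612) (nat_lit 622) (nat_lit 1613)))))))) (.a (.p (nat_lit 593) (.a (.f (nat_lit 622) (nat_lit 621) (nat_lit 1613) (.f (nat_lit 594) (nat_lit 623) (nat_lit 1614) (.f (nat_lit 627) (nat_lit 626) (nat_lit 591) (.f (nat_lit 595) (nat_lit 628) (nat_lit 592) (.d (nat_lit 563) (nat_lit 562) (nat_lit 2607) (nat_lit 564) (nat_lit 2608)))))) (.a (.f (nat_lit 558) (nat_lit 557) (nat_lit 3629) (.f (nat_lit 622) (nat_lit 621) (nat_lit 1613) (.f (nat_lit 655) (nat_lit 623) (nat_lit 4622) (.f (nat_lit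 654) (nat_lit 687) (nat_lit 4654) (.f (nat_lit 685) (nat_lit 653) (nat_lit 5677) (.d (nat_lit 686) (nat_lit 559) (nat_lit 6702) (nat_lit 717) (nat_lit 5709))))))) (.a (.f (nat_lit 557) (nat_lit 558) (nat_lit 3629) (.f (nat_lit 589) (nat_lit 556) (nat_lit 3628) (.d (nat_lit 621) (nat_lit 620) (nat_lit 1612) (nat_lit 622) (nat_lit 1613)))) (.f (nat_lit 558) (nat_lit 557) (nat_lit 3629) (.f (nat_lit 594) (nat_lit 559) (nat_lit 3630) (.f (nat_lit 563) (nat_lit 562) (nat_lit 2607) (.f (nat_lit 595) (nat_lit 564) (nat_lit 2608) (.d (nat_lit 627) (nat_lit 626) (nat_lit 591) (nat_lit 628) (nat_lit 592)))))))))) (.a (.p (nat_lit 589) (.a (.f (nat_lit 624) (nat_lit 625) (nat_lit 589) (.f (nat_lit 588) (nat_lit 623) (nat_lit 588) (.d (nat_lit 620) (nat_lit 619) (nat_lit 1611) (nat_lit 621) (nat_lit 1612)))) (.a (.f (nat_lit 557) (nat_lit 556) (nat_lit 3628) (.f (nat_lit 558) (nat_lit 593) (nat_lit 3629) (.d (nat_lit 621) (nat_lit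 620) (nat_lit 1612) (nat_lit 653) (nat_lit 6669)))) (.f (nat_lit 624) (nat_lit 625) (nat_lit 589) (.f (nat_lit 588) (nat_lit 623) (nat_lit 588) (.d (nat_lit 556) (nat_lit 555) (nat_lit 3627) (nat_lit 557) (nat_lit 3628))))))) (.p (nat_lit 593) (.a (.f (nat_lit 626) (nat_lit 625) (nat_lit 590) (.f (nat_lit 594) (nat_lit 627) (nat_lit 591) (.f (nat_lit 563) (nat_lit 562) (nat_lit 2607) (.f (nat_lit 595) (nat_lit 564) (nat_lit 2608) (.d (nat_lit 623) (nat_lit 622) (nat_lit 1614) (nat_lit 624) (nat_lit 1615)))))) (.a (.f (nat_lit 558) (nat_lit 557) (nat_lit 3629) (.f (nat_lit 594) (nat_lit 559) (nat_lit 3630) (.d (nat_lit 626) (nat_lit 625) (nat_lit 590) (nat_lit 627) (nat_lit 591)))) (.a (.f (nat_lit 625) (nat_lit 626) (nat_lit 590) (.f (nat_lit 589) (nat_lit 624) (nat_lit 589) (.d (nat_lit 557) (nat_lit 556) (nat_lit 3628) (nat_lit 558) (nat_lit 3629)))) (.f (nat_lit 558) (nat_lit 557) (nat_lit 3629) (.f (nat_lit 594)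 (nat_lit 559) (nat_lit 3630) (.f (nat_lit 623) (nat_lit 622) (nat_lit 1614) (.f (nat_lit 595) (nat_lit 624) (nat_lit 1615) (.d (nat_lit 563) (nat_lit 562) (nat_lit 2607) (nat_lit 564) (nat_lit 2608)))))))))))))))))))
noncomputable def s123681 : Cert := .r (nat_lit 56731658168294825605760193887330371785385655759606326440968824622907632963355505041542240284926322199286503263040017277054979630664677929460414141609720628095228195093707971624960) (.p (nat_lit 594) (.a (.f (nat_lit 623) (nat_lit 622) (nat_lit 1614) (.f (nat_lit 595) (nat_lit 624) (nat_lit 1615) (.d (nat_lit 627) (nat_lit 626) (nat_lit 591) (nat_lit 628) (nat_lit 592)))) (.a (.f (nat_lit 626) (nat_lit 627) (nat_lit 591) (.f (nat_lit 590) (nat_lit 625) (nat_lit 590) (.d (nat_lit 622) (nat_lit 621) (nat_lit 1613) (nat_lit 623) (nat_lit 1614)))) (.a (.f (nat_lit 626) (nat_lit 627) (nat_lit 591) (.f (nat_lit 563) (nat_lit 562) (nat_lit 2607) (.f (nat_lit 595)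 (nat_lit 564) (nat_lit 2608) (.f (nat_lit 625) (nat_lit 590) (nat_lit 590) (.d (nat_lit 596) (nat_lit 597) (nat_lit 1617) (nat_lit 624) (nat_lit 1616)))))) (.f (nat_lit 623) (nat_lit 622) (nat_lit 1614) (.f (nat_lit 595) (nat_lit 624) (nat_lit 1615) (.d (nat_lit 563) (nat_lit 562) (nat_lit 2607) (nat_lit 564) (nat_lit 2608))))))))
noncomputable def s123703 : Cert := .r (nat_lit 56731658168294825605760193887330371785385655759606326440968824622907632963355505041542240284926322199286503263040017277054979630664677929460414141609720628095228195093707971624960) (.p (nat_lit 594) (.a (.f (nat_lit 626) (nat_lit 627) (nat_lit 591) (.f (nat_lit 625) (nat_lit 590) (nat_lit 590) (.f (nat_lit 562) (nat_lit 563) (nat_lit 2607) (.d (nat_lit 530) (nat_lit 498) (nat_lit 5617) (nat_lit 657) (nat_lit 5649))))) (.a (.f (nat_lit 626) (nat_lit 627) (nat_lit 591) (.f (nat_lit 563) (nat_lit 562) (nat_lit 2607) (.f (nat_lit 595) (nat_lit 564)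 (nat_lit 2608) (.f (nat_lit 625) (nat_lit 590) (nat_lit 590) (.d (nat_lit 596) (nat_lit 597) (nat_lit 1617) (nat_lit 624) (nat_lit 1616)))))) (.a (.f (nat_lit 626) (nat_lit 627) (nat_lit 591) (.f (nat_lit 590) (nat_lit 625) (nat_lit 590) (.d (nat_lit 558) (nat_lit 557) (nat_lit 3629) (nat_lit 559) (nat_lit 3630)))) (.a (.f (nat_lit 627) (nat_lit 626) (nat_lit 591) (.f (nat_lit 595) (nat_lit 628) (nat_lit 592) (.d (nat_lit 563) (nat_lit 562) (nat_lit 2607) (nat_lit 564) (nat_lit 2608)))) (.f (nat_lit 559) (nat_lit 558) (nat_lit 3630) (.d (nat_lit 527) (nat_lit 464) (nat_lit 6607) (nat_lit 624) (nat_lit 4591))))))))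
noncomputable def s123841 : Cert := .r (nat_lit 878694101212772238994964336347803577991525032965733539974411745475219514245929242635210192885381515733385462234866011981655379997230005277421905351678342725632) (.p (nat_lit 498) (.a (.f (nat_lit 530) (nat_lit 531) (nat_lit 495) (.f (nat_lit 494) (nat_lit 529) (nat_lit 494) (.d (nat_lit 466) (nat_lit 465) (nat_lit 2510) (nat_lit 467) (nat_lit 2511)))) (.a (.f (nat_lit 466) (nat_lit 467) (nat_lit 2511) (.f (nat_lit 465) (nat_lit 494) (nat_lit 2510) (.f (nat_lit 433) (nat_lit 401) (nat_lit 5520) (.d (nat_lit 560) (nat_lit 464) (nat_lit 6576) (nat_lit 592) (nat_lit 6608))))) (.a (.f (nat_lit 531) (nat_lit 530) (nat_lit 495) (.f (nat_lit 499) (nat_lit 532) (nat_lit 496) (.d (nat_lit 467) (nat_lit 466) (nat_lit 2511) (nat_lit 468) (nat_lit 2512)))) (.a (.f (nat_lit 530) (nat_lit 531) (nat_lit 495) (.f (nat_lit 494) (nat_lit 529) (nat_lit 494) (.f (nat_lit 465) (nat_lit 466)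 (nat_lit 2510) (.f (nat_lit 433) (nat_lit 401) (nat_lit 4497) (.d (nat_lit 560) (nat_lit 464) (nat_lit 6576) (nat_lit 592) (nat_lit 6608)))))) (.f (nat_lit 531) (nat_lit 530) (nat_lit 495) (.f (nat_lit 499) (nat_lit 532) (nat_lit 496) (.f (nat_lit 500) (nat_lit 529) (nat_lit 1520) (.d (nat_lit 468) (nat_lit 467) (nat_lit 2512) (nat_lit 469) (nat_lit 2513))))))))))
noncomputable def s123909 : Cert := .r (nat_lit 24313567786412068117162333927118995782221498744641683576800129805094822101091537317100591583158348812742035365388063315808244030923496047410360028352214354188060343349317996642304) (.p (nat_lit 593) (.a (.d (nat_lit 560) (nat_lit 623) (nat_lit 5615) (nat_lit 625) (nat_lit 4592)) (.a (.p (nat_lit 594) (.a (.f (nat_lit 626) (nat_lit 627) (nat_lit 591) (.f (nat_lit 625) (nat_lit 590) (nat_lit 590) (.f (nat_lit 562) (nat_lit 563) (nat_lit 2607) (.d (nat_lit 530) (nat_lit 498) (nat_lit 5617) (nat_lit 657) (nat_lit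 5649))))) (.a (.f (nat_lit 623) (nat_lit 622) (nat_lit 1614) (.f (nat_lit 595) (nat_lit 624) (nat_lit 1615) (.d (nat_lit 627) (nat_lit 626) (nat_lit 591) (nat_lit 628) (nat_lit 592)))) (.f (nat_lit 623) (nat_lit 622) (nat_lit 1614) (.f (nat_lit 595) (nat_lit 624) (nat_lit 1615) (.d (nat_lit 563) (nat_lit 562) (nat_lit 2607) (nat_lit 564) (nat_lit 2608))))))) (.a (.f (nat_lit 625) (nat_lit 560) (nat_lit 4592) (.f (nat_lit 590) (nat_lit 626) (nat_lit 590) (.f (nat_lit 589) (nat_lit 624) (nat_lit 589) (.d (nat_lit 621) (nat_lit 620) (nat_lit 1612) (nat_lit 622) (nat_lit 1613))))) (.f (nat_lit 623) (nat_lit 560) (nat_lit 5615) (.f (nat_lit 594) (nat_lit 622) (nat_lit 1614) (.f (nat_lit 595) (nat_lit 624) (nat_lit 1615) (.d (nat_lit 627) (nat_lit 626) (nat_lit 591) (nat_lit 628) (nat_lit 592)))))))))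
noncomputable def s123929 : Cert := .r (nat_lit 56731658168294825605540520362206192274506234934035721858016202693303047190254882210848302903057597205618581354538850731295706148700150542003226237993729695493225826188392289796096) (.p (nat_lit 594) (.a (.f (nat_lit 626) (nat_lit 627) (nat_lit 591) (.f (nat_lit 625) (nat_lit 590) (nat_lit 590) (.f (nat_lit 562) (nat_lit 563) (nat_lit 2607) (.d (nat_lit 530) (nat_lit 498) (nat_lit 5617) (nat_lit 657) (nat_lit 5649))))) (.a (.f (nat_lit 626) (nat_lit 627) (nat_lit 591) (.f (nat_lit 590) (nat_lit 625) (nat_lit 590) (.d (nat_lit 622) (nat_lit 621) (nat_lit 1613) (nat_lit 623) (nat_lit 1614)))) (.a (.f (nat_lit 627) (nat_lit 626) (nat_lit 591) (.f (nat_lit 595) (nat_lit 628) (nat_lit 592) (.d (nat_lit 563) (nat_lit 562) (nat_lit 2607) (nat_lit 564) (nat_lit 2608)))) (.f (nat_lit 558) (nat_lit 559) (nat_lit 3630) (.f (nat_lit 590) (nat_lit 557) (nat_lit 3629) (.d (nat_lit 622)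 (nat_lit 621) (nat_lit 1613) (nat_lit 623) (nat_lit 1614))))))))
noncomputable def s123972 : Cert := .r (nat_lit 56731658168294825605540520362206192274506234934035721858016202693303047190254882210848302903057597205618581354538850731295706148700150542003226237993729695493225826188392289796096) (.p (nat_lit 594) (.a (.f (nat_lit 626) (nat_lit 627) (nat_lit 591) (.f (nat_lit 625) (nat_lit 590) (nat_lit 590) (.f (nat_lit 562) (nat_lit 563) (nat_lit 2607) (.d (nat_lit 530) (nat_lit 498) (nat_lit 5617) (nat_lit 657) (nat_lit 5649))))) (.a (.f (nat_lit 626) (nat_lit 627) (nat_lit 591) (.f (nat_lit 590) (nat_lit 625) (nat_lit 590) (.d (nat_lit 558) (nat_lit 557) (nat_lit 3629) (nat_lit 559) (nat_lit 3630)))) (.a (.f (nat_lit 627) (nat_lit 626) (nat_lit 591) (.f (nat_lit 595) (nat_lit 628) (nat_lit 592) (.d (nat_lit 563) (nat_lit 562) (nat_lit 2607) (nat_lit 564) (nat_lit 2608)))) (.a (.f (nat_lit 559) (nat_lit 558) (nat_lit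 3630) (.f (nat_lit 624) (nat_lit 527) (nat_lit 4591) (.f (nat_lit 563) (nat_lit 562) (nat_lit 2607) (.f (nat_lit 595) (nat_lit 564) (nat_lit 2608) (.f (nat_lit 596) (nat_lit 625) (nat_lit 1616) (.d (nat_lit 628) (nat_lit 627) (nat_lit 592) (nat_lit 629) (nat_lit 593))))))) (.f (nat_lit 559) (nat_lit 558) (nat_lit 3630) (.f (nat_lit 527) (nat_lit 624) (nat_lit 4591) (.f (nat_lit 590) (nat_lit 622) (nat_lit 5614) (.f (nat_lit 562) (nat_lit 563) (nat_lit 2607) (.f (nat_lit 625) (nat_lit 626) (nat_lit 590) (.f (nat_lit 498) (nat_lit 530) (nat_lit 5617) (.d (nat_lit 497) (nat_lit 499) (nat_lit 1519) (nat_lit 526) (nat_lit 1518)))))))))))))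
noncomputable def s124089 : Cert := .r (nat_lit 121567838932060340582296893233198932911049742780327095844655248257773657880092338195714548384880127440472841971561243085352106423541181202220848675029064692240028140129873008001024) (.p (nat_lit 530) (.a (.d (nat_lit 531) (nat_lit 497) (nat_lit 495) (nat_lit 529) (nat_lit 3567)) (.a (.f (nat_lit 497) (nat_lit 531) (nat_lit 495) (.d (nat_lit 527) (nat_lit 499) (nat_lit 1519) (nat_lit 526) (nat_lit 1518))) (.a (.f (nat_lit 529) (nat_lit 531) (nat_lit 3567) (.f (nat_lit 622) (nat_lit 623) (nat_lit 1614) (.f (nat_lit 590) (nat_lit 621) (nat_lit 1613) (.f (nat_lit 558) (nat_lit 557) (nat_lit 3629) (.d (nat_lit 527) (nat_lit 499) (nat_lit 2543) (nat_lit 526) (nat_lit 6638)))))) (.f (nat_lit 622) (nat_lit 623) (nat_lit 1614) (.f (nat_lit 590) (nat_lit 621) (nat_lit 1613) (.f (nat_lit 558) (nat_lit 557) (nat_lit 3629) (.f (nat_lit 527) (nat_lit 526) (nat_lit 6638) (.d (nat_lit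 499) (nat_lit 497) (nat_lit 1519) (nat_lit 529) (nat_lit 2543))))))))))
noncomputable def s124105 : Cert := .r (nat_lit 56731658168294825605540520362206192274506234934035721858016202693303047190254882210848302903057597205618581354538850731295706148700150542003226237993729695493225826188392289796096) (.p (nat_lit 594) (.a (.f (nat_lit 626) (nat_lit 627) (nat_lit 591) (.f (nat_lit 625) (nat_lit 590) (nat_lit 590) (.f (nat_lit 562) (nat_lit 563) (nat_lit 2607) (.d (nat_lit 530) (nat_lit 498) (nat_lit 5617) (nat_lit 657) (nat_lit 5649))))) (.a (.f (nat_lit 626) (nat_lit 627) (nat_lit 591) (.f (nat_lit 590) (nat_lit 625) (nat_lit 590) (.d (nat_lit 622) (nat_lit 621) (nat_lit 1613) (nat_lit 623) (nat_lit 1614)))) (.a (.f (nat_lit 627) (nat_lit 626) (nat_lit 591) (.f (nat_lit 595) (nat_lit 628) (nat_lit 592) (.d (nat_lit 563) (nat_lit 562) (nat_lit 2607) (nat_lit 564) (nat_lit 2608)))) (.a (.p (nat_lit 498) (.a (.f (nat_lit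 562) (nat_lit 563) (nat_lit 2607) (.f (nat_lit 530) (nat_lit 625) (nat_lit 5617) (.d (nat_lit 531) (nat_lit 497) (nat_lit 495) (nat_lit 529) (nat_lit 3567)))) (.a (.f (nat_lit 562) (nat_lit 563) (nat_lit 2607) (.f (nat_lit 530) (nat_lit 625) (nat_lit 5617) (.d (nat_lit 497) (nat_lit 465) (nat_lit 7633) (nat_lit 531) (nat_lit 495)))) (.a (.f (nat_lit 562) (nat_lit 563) (nat_lit 2607) (.f (nat_lit 530) (nat_lit 625) (nat_lit 5617) (.f (nat_lit 499) (nat_lit 467) (nat_lit 6610) (.d (nat_lit 529) (nat_lit 527) (nat_lit 2543) (nat_lit 531) (nat_lit 3567))))) (.a (.f (nat_lit 622) (nat_lit 623) (nat_lit 1614) (.f (nat_lit 590) (nat_lit 621) (nat_lit 1613) (.f (nat_lit 558) (nat_lit 557) (nat_lit 3629) (.f (nat_lit 527) (nat_lit 526) (nat_lit 6638) (.f (nat_lit 563) (nat_lit 562) (nat_lit 2607) (.f (nat_lit 595) (nat_lit 564) (nat_lit 2608) (.f (nat_lit 499) (nat_lit 497) (nat_lit 1519) (.f (nat_lit 531) (nat_lit 466) (nat_lit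 7634) (.d (nat_lit 628) (nat_lit 596) (nat_lit 4595) (nat_lit 627) (nat_lit 592)))))))))) (.a (.f (nat_lit 562) (nat_lit 563) (nat_lit 2607) (.f (nat_lit 530) (nat_lit 625) (nat_lit 5617) (.f (nat_lit 497) (nat_lit 465) (nat_lit 7633) (.d (nat_lit 467) (nat_lit 466) (nat_lit 2511) (nat_lit 499) (nat_lit 6610))))) (.a (.f (nat_lit 622) (nat_lit 623) (nat_lit 1614) (.f (nat_lit 590) (nat_lit 621) (nat_lit 1613) (.f (nat_lit 558) (nat_lit 557) (nat_lit 3629) (.f (nat_lit 527) (nat_lit 526) (nat_lit 6638) (.f (nat_lit 497) (nat_lit 499) (nat_lit 1519) (.f (nat_lit 530) (nat_lit 531) (nat_lit 495) (.d (nat_lit 562) (nat_lit 465) (nat_lit 7633) (nat_lit 625) (nat_lit 5617)))))))) s124089))))))) (.p (nat_lit 498) (.a (.f (nat_lit 562) (nat_lit 563) (nat_lit 2607) (.f (nat_lit 530) (nat_lit 625) (nat_lit 5617) (.d (nat_lit 531) (nat_lit 497) (nat_lit 495) (nat_lit 529) (nat_lit 3567)))) (.a (.f (nat_lit 562) (nat_lit 563) (nat_lit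 2607) (.f (nat_lit 530) (nat_lit 625) (nat_lit 5617) (.d (nat_lit 497) (nat_lit 465) (nat_lit 7633) (nat_lit 531) (nat_lit 495)))) (.a (.f (nat_lit 562) (nat_lit 563) (nat_lit 2607) (.f (nat_lit 530) (nat_lit 625) (nat_lit 5617) (.f (nat_lit 499) (nat_lit 467) (nat_lit 6610) (.d (nat_lit 529) (nat_lit 527) (nat_lit 2543) (nat_lit 531) (nat_lit 3567))))) (.a (.f (nat_lit 622) (nat_lit 623) (nat_lit 1614) (.f (nat_lit 590) (nat_lit 621) (nat_lit 1613) (.f (nat_lit 558) (nat_lit 557) (nat_lit 3629) (.f (nat_lit 527) (nat_lit 526) (nat_lit 6638) (.f (nat_lit 563) (nat_lit 562) (nat_lit 2607) (.f (nat_lit 595) (nat_lit 564) (nat_lit 2608) (.f (nat_lit 499) (nat_lit 497) (nat_lit 1519) (.d (nat_lit 626) (nat_lit 531) (nat_lit 5618) (nat_lit 625) (nat_lit 590))))))))) (.a (.f (nat_lit 562) (nat_lit 563) (nat_lit 2607) (.f (nat_lit 530) (nat_lit 625) (nat_lit 5617) (.f (nat_lit 497) (nat_lit 465) (nat_lit 7633) (.d (nat_lit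 467) (nat_lit 466) (nat_lit 2511) (nat_lit 499) (nat_lit 6610))))) (.a (.f (nat_lit 622) (nat_lit 623) (nat_lit 1614) (.f (nat_lit 590) (nat_lit 621) (nat_lit 1613) (.f (nat_lit 625) (nat_lit 626) (nat_lit 590) (.f (nat_lit 530) (nat_lit 562) (nat_lit 5617) (.d (nat_lit 531) (nat_lit 497) (nat_lit 495) (nat_lit 529) (nat_lit 3567)))))) s124089))))))))))))
noncomputable def s124195 : Cert := .r (nat_lit 56731658168294825605540520362206192274506234934035721858016202693303047190254882210848302903057597205618581354538850731295706148700150542003226237993729695493225826188392289796096) (.p (nat_lit 590) (.a (.f (nat_lit 625) (nat_lit 626) (nat_lit 590) (.f (nat_lit 589) (nat_lit 624) (nat_lit 589) (.d (nat_lit 621) (nat_lit 620) (nat_lit 1612) (nat_lit 622) (nat_lit 1613)))) (.a (.f (nat_lit 621) (nat_lit 622) (nat_lit 1613) (.f (nat_lit 589) (nat_lit 620) (nat_lit 1612) (.d (nat_lit 557) (nat_lit 556) (nat_lit 3628) (nat_lit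 558) (nat_lit 3629)))) (.a (.p (nat_lit 498) (.a (.f (nat_lit 626) (nat_lit 625) (nat_lit 590) (.f (nat_lit 594) (nat_lit 627) (nat_lit 591) (.f (nat_lit 563) (nat_lit 562) (nat_lit 2607) (.f (nat_lit 595) (nat_lit 564) (nat_lit 2608) (.f (nat_lit 531) (nat_lit 499) (nat_lit 5618) (.d (nat_lit 530) (nat_lit 497) (nat_lit 495) (nat_lit 529) (nat_lit 3567))))))) (.a (.f (nat_lit 626) (nat_lit 625) (nat_lit 590) (.f (nat_lit 594) (nat_lit 627) (nat_lit 591) (.f (nat_lit 562) (nat_lit 563) (nat_lit 2607) (.f (nat_lit 558) (nat_lit 557) (nat_lit 3629) (.f (nat_lit 622) (nat_lit 621) (nat_lit 1613) (.f (nat_lit 527) (nat_lit 526) (nat_lit 6638) (.f (nat_lit 497) (nat_lit 499) (nat_lit 1519) (.d (nat_lit 530) (nat_lit 465) (nat_lit 7633) (nat_lit 531) (nat_lit 495))))))))) (.a (.p (nat_lit 594) (.a (.f (nat_lit 562) (nat_lit 563) (nat_lit 2607) (.f (nat_lit 530) (nat_lit 625) (nat_lit 5617) (.f (nat_lit 499) (nat_lit 467)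 (nat_lit 6610) (.d (nat_lit 529) (nat_lit 527) (nat_lit 2543) (nat_lit 531) (nat_lit 3567))))) (.a (.d (nat_lit 626) (nat_lit 625) (nat_lit 590) (nat_lit 627) (nat_lit 591)) (.f (nat_lit 627) (nat_lit 626) (nat_lit 591) (.f (nat_lit 595) (nat_lit 628) (nat_lit 592) (.d (nat_lit 563) (nat_lit 562) (nat_lit 2607) (nat_lit 564) (nat_lit 2608))))))) (.a (.f (nat_lit 626) (nat_lit 625) (nat_lit 590) (.f (nat_lit 594) (nat_lit 627) (nat_lit 591) (.f (nat_lit 563) (nat_lit 562) (nat_lit 2607) (.f (nat_lit 595) (nat_lit 564) (nat_lit 2608) (.f (nat_lit 499) (nat_lit 531) (nat_lit 5618) (.f (nat_lit 497) (nat_lit 527) (nat_lit 1519) (.d (nat_lit 467) (nat_lit 466) (nat_lit 2511) (nat_lit 468) (nat_lit 2512)))))))) (.a (.p (nat_lit 594) (.a (.f (nat_lit 562) (nat_lit 563) (nat_lit 2607) (.f (nat_lit 530) (nat_lit 625) (nat_lit 5617) (.d (nat_lit 531) (nat_lit 497) (nat_lit 495) (nat_lit 529) (nat_lit 3567)))) (.a (.f (nat_lit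 562) (nat_lit 563) (nat_lit 2607) (.f (nat_lit 530) (nat_lit 625) (nat_lit 5617) (.d (nat_lit 497) (nat_lit 465) (nat_lit 7633) (nat_lit 531) (nat_lit 495)))) (.a (.d (nat_lit 626) (nat_lit 625) (nat_lit 590) (nat_lit 627) (nat_lit 591)) (.f (nat_lit 627) (nat_lit 626) (nat_lit 591) (.f (nat_lit 595) (nat_lit 628) (nat_lit 592) (.d (nat_lit 563) (nat_lit 562) (nat_lit 2607) (nat_lit 564) (nat_lit 2608)))))))) (.a (.f (nat_lit 626) (nat_lit 625) (nat_lit 590) (.f (nat_lit 594) (nat_lit 627) (nat_lit 591) (.f (nat_lit 562) (nat_lit 563) (nat_lit 2607) (.f (nat_lit 622) (nat_lit 621) (nat_lit 1613) (.f (nat_lit 558) (nat_lit 557) (nat_lit 3629) (.f (nat_lit 527) (nat_lit 526) (nat_lit 6638) (.f (nat_lit 497) (nat_lit 499) (nat_lit 1519) (.d (nat_lit 530) (nat_lit 465) (nat_lit 7633) (nat_lit 529) (nat_lit 7665))))))))) (.p (nat_lit 530) (.a (.d (nat_lit 531) (nat_lit 497) (nat_lit 495) (nat_lit 529) (nat_lit 3567)) (.a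 (.f (nat_lit 497) (nat_lit 531) (nat_lit 495) (.d (nat_lit 527) (nat_lit 499) (nat_lit 1519) (nat_lit 526) (nat_lit 1518))) (.a (.f (nat_lit 529) (nat_lit 531) (nat_lit 3567) (.f (nat_lit 527) (nat_lit 499) (nat_lit 2543) (.f (nat_lit 558) (nat_lit 557) (nat_lit 3629) (.d (nat_lit 622) (nat_lit 526) (nat_lit 6638) (nat_lit 621) (nat_lit 1613))))) (.f (nat_lit 622) (nat_lit 621) (nat_lit 1613) (.f (nat_lit 558) (nat_lit 557) (nat_lit 3629) (.f (nat_lit 527) (nat_lit 526) (nat_lit 6638) (.d (nat_lit 499) (nat_lit 497) (nat_lit 1519) (nat_lit 529) (nat_lit 2543)))))))))))))))) (.f (nat_lit 625) (nat_lit 626) (nat_lit 590) (.f (nat_lit 589) (nat_lit 624) (nat_lit 589) (.d (nat_lit 557) (nat_lit 556) (nat_lit 3628) (nat_lit 558) (nat_lit 3629))))))))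
noncomputable def s124363 : Cert := .r (nat_lit 121567838932060340582296893234017280563023778247830393268862148045827818391603104393085371226904160889574010610282060608433582462828902873252738692781369006376499488393205139898368) (.p (nat_lit 497) (.a (.f (nat_lit 560) (nat_lit 465) (nat_lit 6608) (.f (nat_lit 529) (nat_lit 624) (nat_lit 6640) (.f (nat_lit 498) (nat_lit 500) (nat_lit 1520) (.d (nat_lit 531) (nat_lit 530) (nat_lit 3567) (nat_lit 532) (nat_lit 496))))) (.a (.f (nat_lit 498) (nat_lit 527) (nat_lit 1519) (.d (nat_lit 531) (nat_lit 530) (nat_lit 495) (nat_lit 532) (nat_lit 496))) (.a (.f (nat_lit 560) (nat_lit 465) (nat_lit 6608) (.f (nat_lit 529) (nat_lit 624) (nat_lit 6640) (.f (nat_lit 498) (nat_lit 500) (nat_lit 1520) (.d (nat_lit 467) (nat_lit 466) (nat_lit 2511) (nat_lit 468) (nat_lit 2512))))) (.f (nat_lit 560) (nat_lit 465) (nat_lit 6608) (.d (nat_lit 624) (nat_lit 527) (nat_lit 7663) (nat_lit 529)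 (nat_lit 6640)))))))
noncomputable def s124470 : Cert := .r (nat_lit 8104522595470689372973240710393745188053166117447961860398993149044870068020631067597558765232758065404931009533487131145989011322890471145816941283760997671948950193112981962752) (.p (nat_lit 497) (.a (.f (nat_lit 531) (nat_lit 530) (nat_lit 495) (.f (nat_lit 499) (nat_lit 532) (nat_lit 496) (.d (nat_lit 467) (nat_lit 466) (nat_lit 2511) (nat_lit 468) (nat_lit 2512)))) (.a (.f (nat_lit 467) (nat_lit 466) (nat_lit 2511) (.f (nat_lit 499) (nat_lit 468) (nat_lit 2512) (.f (nat_lit 500) (nat_lit 529) (nat_lit 1520) (.d (nat_lit 532) (nat_lit 531) (nat_lit 496) (nat_lit 533) (nat_lit 497))))) (.a (.f (nat_lit 530) (nat_lit 531) (nat_lit 495) (.p (nat_lit 562) (.a (.f (nat_lit 466) (nat_lit 467) (nat_lit 2511) (.d (nat_lit 465) (nat_lit 433) (nat_lit 7601) (nat_lit 594) (nat_lit 7633))) (.a (.f (nat_lit 594) (nat_lit 465) (nat_lit 7633) (.f (nat_lit 466)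 (nat_lit 467) (nat_lit 2511) (.d (nat_lit 595) (nat_lit 563) (nat_lit 4562) (nat_lit 627) (nat_lit 4594)))) (.a (.f (nat_lit 466) (nat_lit 467) (nat_lit 2511) (.f (nat_lit 595) (nat_lit 563) (nat_lit 4562) (.f (nat_lit 594) (nat_lit 627) (nat_lit 4594) (.f (nat_lit 625) (nat_lit 593) (nat_lit 5617) (.d (nat_lit 626) (nat_lit 529) (nat_lit 7665) (nat_lit 657) (nat_lit 5649)))))) (.a (.f (nat_lit 594) (nat_lit 465) (nat_lit 7633) (.f (nat_lit 626) (nat_lit 529) (nat_lit 7665) (.d (nat_lit 625) (nat_lit 593) (nat_lit 5617) (nat_lit 657) (nat_lit 5649)))) (.f (nat_lit 466) (nat_lit 467) (nat_lit 2511) (.f (nat_lit 433) (nat_lit 465) (nat_lit 7601) (.f (nat_lit 434) (nat_lit 401) (nat_lit 7569) (.f (nat_lit 403) (nat_lit 435) (nat_lit 6546) (.d (nat_lit 402) (nat_lit 371) (nat_lit 6514) (nat_lit 529) (nat_lit 5521)))))))))))) (.a (.p (nat_lit 499) (.a (.d (nat_lit 467) (nat_lit 466) (nat_lit 2511) (nat_lit 468) (nat_lit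 2512)) (.a (.f (nat_lit 500) (nat_lit 529) (nat_lit 1520) (.f (nat_lit 465) (nat_lit 464) (nat_lit 3536) (.f (nat_lit 501) (nat_lit 466) (nat_lit 3537) (.d (nat_lit 469) (nat_lit 468) (nat_lit 2513) (nat_lit 470) (nat_lit 2514))))) (.a (.f (nat_lit 500) (nat_lit 529) (nat_lit 1520) (.d (nat_lit 468) (nat_lit 467) (nat_lit 2512) (nat_lit 469) (nat_lit 2513))) (.f (nat_lit 500) (nat_lit 529) (nat_lit 1520) (.f (nat_lit 465) (nat_lit 464) (nat_lit 3536) (.d (nat_lit 466) (nat_lit 467) (nat_lit 2511) (nat_lit 501) (nat_lit 3537)))))))) (.a (.f (nat_lit 531) (nat_lit 530) (nat_lit 495) (.f (nat_lit 499) (nat_lit 532) (nat_lit 496) (.f (nat_lit 500) (nat_lit 529) (nat_lit 1520) (.f (nat_lit 465) (nat_lit 464) (nat_lit 3536) (.f (nat_lit 501) (nat_lit 466) (nat_lit 3537) (.d (nat_lit 469) (nat_lit 468) (nat_lit 2513) (nat_lit 470) (nat_lit 2514))))))) (.f (nat_lit 531) (nat_lit 530) (nat_lit 495) (.f (nat_lit 499) (nat_lit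 532) (nat_lit 496) (.f (nat_lit 500) (nat_lit 529) (nat_lit 1520) (.d (nat_lit 468) (nat_lit 467) (nat_lit 2512) (nat_lit 469) (nat_lit 2513)))))))))))
noncomputable def s124492 : Cert := .r (nat_lit 8104522610566539075774182521346835686076974890245320069306705736223067638613093008269152283476864864802316615718025363417420102354411008980522569669861656309717636852761472532480) (.p (nat_lit 594) (.a (.f (nat_lit 467) (nat_lit 499) (nat_lit 6610) (.f (nat_lit 466) (nat_lit 435) (nat_lit 6578) (.d (nat_lit 595) (nat_lit 563) (nat_lit 4562) (nat_lit 627) (nat_lit 4594)))) (.a (.f (nat_lit 595) (nat_lit 627) (nat_lit 4594) (.f (nat_lit 466) (nat_lit 563) (nat_lit 4562) (.f (nat_lit 433) (nat_lit 465) (nat_lit 7601) (.f (nat_lit 434) (nat_lit 401) (nat_lit 7569) (.d (nat_lit 435) (nat_lit 403) (nat_lit 6546) (nat_lit 467) (nat_lit 6578)))))) (.a (.f (nat_lit 467) (nat_lit 499) (nat_lit 6610) (.f (nat_lit 466) (nat_lit 435)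 (nat_lit 6578) (.d (nat_lit 465) (nat_lit 433) (nat_lit 7601) (nat_lit 464) (nat_lit 1487)))) (.f (nat_lit 531) (nat_lit 529) (nat_lit 3567) (.f (nat_lit 626) (nat_lit 499) (nat_lit 6642) (.d (nat_lit 625) (nat_lit 593) (nat_lit 5617) (nat_lit 657) (nat_lit 5649))))))))
noncomputable def s124501 : Cert := .r (nat_lit 8104522610566539075774182521346835686076974890245320069306705736223067638613093008269152283476864864802316615718025363417420102354411008980522569669861656309717636852761472532480) (.p (nat_lit 594) (.a (.f (nat_lit 593) (nat_lit 625) (nat_lit 5617) (.f (nat_lit 592) (nat_lit 563) (nat_lit 2607) (.d (nat_lit 627) (nat_lit 595) (nat_lit 4594) (nat_lit 626) (nat_lit 591)))) (.a (.f (nat_lit 595) (nat_lit 627) (nat_lit 4594) (.f (nat_lit 466) (nat_lit 563) (nat_lit 4562) (.f (nat_lit 433) (nat_lit 465) (nat_lit 7601) (.f (nat_lit 434) (nat_lit 401) (nat_lit 7569) (.d (nat_lit 435) (nat_lit 403) (nat_lit 6546)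 (nat_lit 467) (nat_lit 6578)))))) (.a (.f (nat_lit 627) (nat_lit 595) (nat_lit 4594) (.f (nat_lit 626) (nat_lit 659) (nat_lit 4626) (.d (nat_lit 593) (nat_lit 592) (nat_lit 591) (nat_lit 625) (nat_lit 5617)))) (.f (nat_lit 593) (nat_lit 625) (nat_lit 5617) (.f (nat_lit 592) (nat_lit 563) (nat_lit 2607) (.f (nat_lit 622) (nat_lit 623) (nat_lit 1614) (.f (nat_lit 590) (nat_lit 621) (nat_lit 1613) (.d (nat_lit 558) (nat_lit 557) (nat_lit 3629) (nat_lit 559) (nat_lit 3630))))))))))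
noncomputable def s124523 : Cert := .r (nat_lit 8104522610566539075774182521346835686076974890245320069306705736223067638613093008269152283476864864802316615718025363417420102354411008980522569669861656309717636852761472532480) (.p (nat_lit 594) (.a (.f (nat_lit 467) (nat_lit 499) (nat_lit 6610) (.f (nat_lit 466) (nat_lit 435) (nat_lit 6578) (.d (nat_lit 595) (nat_lit 563) (nat_lit 4562) (nat_lit 627) (nat_lit 4594)))) (.a (.f (nat_lit 595) (nat_lit 627) (nat_lit 4594) (.f (nat_lit 466) (nat_lit 563) (nat_lit 4562) (.f (nat_lit 433) (nat_lit 465) (nat_lit 7601) (.f (nat_lit 434) (nat_lit 401) (nat_lit 7569) (.d (nat_lit 435) (nat_lit 403) (nat_lit 6546) (nat_lit 467) (nat_lit 6578)))))) (.a (.f (nat_lit 467) (nat_lit 499) (nat_lit 6610) (.f (nat_lit 466) (nat_lit 435) (nat_lit 6578) (.d (nat_lit 465) (nat_lit 433) (nat_lit 7601) (nat_lit 464) (nat_lit 1487)))) (.a (.f (nat_lit 595) (nat_lit 627) (nat_lit 4594) (.f (nat_lit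 563) (nat_lit 466) (nat_lit 4562) (.f (nat_lit 625) (nat_lit 593) (nat_lit 5617) (.f (nat_lit 626) (nat_lit 657) (nat_lit 5649) (.d (nat_lit 531) (nat_lit 499) (nat_lit 5618) (nat_lit 658) (nat_lit 6674)))))) (.f (nat_lit 627) (nat_lit 595) (nat_lit 4594) (.f (nat_lit 626) (nat_lit 659) (nat_lit 4626) (.d (nat_lit 625) (nat_lit 593) (nat_lit 5617) (nat_lit 657) (nat_lit 5649)))))))))
noncomputable def s124524 : Cert := .r (nat_lit 8104522610566539075774182521346835686076974890245320069306705736223067638613093008269152283476864864802316615718025363417420102354411008980522569669861656309717636852761472532480) (.p (nat_lit 594) (.a (.f (nat_lit 593) (nat_lit 625) (nat_lit 5617) (.f (nat_lit 592) (nat_lit 563) (nat_lit 2607) (.d (nat_lit 627) (nat_lit 595) (nat_lit 4594) (nat_lit 626) (nat_lit 591)))) (.a (.f (nat_lit 467) (nat_lit 499) (nat_lit 6610) (.f (nat_lit 466) (nat_lit 435) (nat_lit 6578) (.d (nat_lit 595) (nat_lit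 563) (nat_lit 4562) (nat_lit 627) (nat_lit 4594)))) (.a (.f (nat_lit 627) (nat_lit 595) (nat_lit 4594) (.f (nat_lit 626) (nat_lit 659) (nat_lit 4626) (.d (nat_lit 593) (nat_lit 592) (nat_lit 591) (nat_lit 625) (nat_lit 5617)))) (.f (nat_lit 593) (nat_lit 625) (nat_lit 5617) (.f (nat_lit 592) (nat_lit 563) (nat_lit 2607) (.f (nat_lit 622) (nat_lit 623) (nat_lit 1614) (.f (nat_lit 590) (nat_lit 621) (nat_lit 1613) (.d (nat_lit 558) (nat_lit 557) (nat_lit 3629) (nat_lit 559) (nat_lit 3630))))))))))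
noncomputable def s124532 : Cert := .r (nat_lit 8104522610566539075774182521346835686076974890245320069306705736223067638613093008269152283476864864802316615718025363417420102354411008980522569669861656309717636852761472532480) (.p (nat_lit 594) (.a (.f (nat_lit 467) (nat_lit 499) (nat_lit 6610) (.f (nat_lit 466) (nat_lit 435) (nat_lit 6578) (.d (nat_lit 595) (nat_lit 563) (nat_lit 4562) (nat_lit 627) (nat_lit 4594)))) (.a (.f (nat_lit 595) (nat_lit 627) (nat_lit 4594) (.f (nat_lit 466) (nat_lit 563) (nat_lit 4562) (.f (nat_lit 433) (nat_lit 465) (nat_lit 7601) (.f (nat_lit 434) (nat_lit 401) (nat_lit 7569) (.d (nat_lit 435) (nat_lit 403) (nat_lit 6546) (nat_lit 467) (nat_lit 6578)))))) (.a (.f (nat_lit 467) (nat_lit 499) (nat_lit 6610) (.f (nat_lit 466) (nat_lit 435) (nat_lit 6578) (.d (nat_lit 465) (nat_lit 433) (nat_lit 7601) (nat_lit 464) (nat_lit 1487)))) (.f (nat_lit 627) (nat_lit 595) (nat_lit 4594) (.f (nat_lit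 626) (nat_lit 659) (nat_lit 4626) (.f (nat_lit 625) (nat_lit 657) (nat_lit 5649) (.f (nat_lit 624) (nat_lit 592) (nat_lit 3663) (.f (nat_lit 623) (nat_lit 590) (nat_lit 3662) (.d (nat_lit 655) (nat_lit 654) (nat_lit 1646) (nat_lit 656) (nat_lit 1647)))))))))))
noncomputable def s124598 : Cert := .r (nat_lit 8104522595470689376488017112380617362314435737119382760357105963013235498284197319556573180726788930865691051095350448506785749553637506591183929603568960252195347287495451607040) (.p (nat_lit 464) (.a (.f (nat_lit 527) (nat_lit 559) (nat_lit 6607) (.f (nat_lit 432) (nat_lit 400) (nat_lit 5519) (.f (nat_lit 465) (nat_lit 467) (nat_lit 1487) (.d (nat_lit 433) (nat_lit 401) (nat_lit 6544) (nat_lit 562) (nat_lit 7601))))) (.a (.f (nat_lit 465) (nat_lit 467) (nat_lit 1487) (.f (nat_lit 433) (nat_lit 562) (nat_lit 7601) (.d (nat_lit 401) (nat_lit 369) (nat_lit 4465) (nat_lit 434) (nat_lit 7569)))) (.a (.f (nat_lit 467)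 (nat_lit 465) (nat_lit 1487) (.f (nat_lit 435) (nat_lit 562) (nat_lit 6578) (.d (nat_lit 403) (nat_lit 371) (nat_lit 5490) (nat_lit 434) (nat_lit 6546)))) (.a (.f (nat_lit 527) (nat_lit 559) (nat_lit 6607) (.f (nat_lit 432) (nat_lit 400) (nat_lit 5519) (.f (nat_lit 433) (nat_lit 401) (nat_lit 6544) (.f (nat_lit 431) (nat_lit 399) (nat_lit 7567) (.f (nat_lit 434) (nat_lit 467) (nat_lit 431) (.d (nat_lit 403) (nat_lit 402) (nat_lit 2447) (nat_lit 435) (nat_lit 6546))))))) (.f (nat_lit 527) (nat_lit 559) (nat_lit 6607) (.f (nat_lit 432) (nat_lit 400) (nat_lit 5519) (.f (nat_lit 433) (nat_lit 401) (nat_lit 6544) (.f (nat_lit 431) (nat_lit 399) (nat_lit 7567) (.d (nat_lit 465) (nat_lit 430) (nat_lit 430) (nat_lit 562) (nat_lit 7601)))))))))))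
noncomputable def s124607 : Cert := .r (nat_lit 8104522595470689376488017112380617362123899326577635187640944022718242437630596358700556875132357964091681545552151863294364722755328670460823399139615919303986852678163891224576) (.p (nat_lit 466) (.a (.f (nat_lit 531) (nat_lit 529) (nat_lit 3567) (.f (nat_lit 434) (nat_lit 563) (nat_lit 4530) (.f (nat_lit 433) (nat_lit 401) (nat_lit 7569) (.f (nat_lit 435) (nat_lit 403) (nat_lit 6546) (.d (nat_lit 562) (nat_lit 465) (nat_lit 7601) (nat_lit 467) (nat_lit 6578)))))) (.a (.p (nat_lit 562) (.a (.f (nat_lit 467) (nat_lit 435) (nat_lit 6578) (.d (nat_lit 465) (nat_lit 433) (nat_lit 7601) (nat_lit 464) (nat_lit 1487))) (.a (.f (nat_lit 563) (nat_lit 595) (nat_lit 4562) (.f (nat_lit 434) (nat_lit 531) (nat_lit 4530) (.d (nat_lit 435) (nat_lit 403) (nat_lit 6546) (nat_lit 467) (nat_lit 6578)))) (.f (nat_lit 563) (nat_lit 595) (nat_lit 4562) (.f (nat_lit 434) (nat_lit 531) (nat_lit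 4530) (.d (nat_lit 433) (nat_lit 401) (nat_lit 7569) (nat_lit 465) (nat_lit 7601))))))) (.a (.f (nat_lit 531) (nat_lit 529) (nat_lit 3567) (.f (nat_lit 563) (nat_lit 434) (nat_lit 4530) (.d (nat_lit 595) (nat_lit 562) (nat_lit 4562) (nat_lit 627) (nat_lit 7666)))) (.a (.p (nat_lit 562) (.a (.f (nat_lit 467) (nat_lit 435) (nat_lit 6578) (.d (nat_lit 465) (nat_lit 433) (nat_lit 7601) (nat_lit 464) (nat_lit 1487))) (.a (.f (nat_lit 435) (nat_lit 467) (nat_lit 6578) (.f (nat_lit 434) (nat_lit 403) (nat_lit 6546) (.d (nat_lit 433) (nat_lit 401) (nat_lit 7569) (nat_lit 465) (nat_lit 7601)))) (.f (nat_lit 563) (nat_lit 595) (nat_lit 4562) (.f (nat_lit 527) (nat_lit 529) (nat_lit 527) (.d (nat_lit 559) (nat_lit 464) (nat_lit 6607) (nat_lit 623) (nat_lit 6639))))))) (.a s124598 (.a (.f (nat_lit 531) (nat_lit 529) (nat_lit 3567) (.f (nat_lit 434) (nat_lit 563) (nat_lit 4530) (.f (nat_lit 401) (nat_lit 433) (nat_lit 7569) (.f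 (nat_lit 402) (nat_lit 369) (nat_lit 7537) (.d (nat_lit 403) (nat_lit 371) (nat_lit 6514) (nat_lit 435) (nat_lit 6546)))))) (.p (nat_lit 562) (.a (.f (nat_lit 467) (nat_lit 435) (nat_lit 6578) (.d (nat_lit 465) (nat_lit 433) (nat_lit 7601) (nat_lit 464) (nat_lit 1487))) (.f (nat_lit 563) (nat_lit 595) (nat_lit 4562) (.d (nat_lit 529) (nat_lit 527) (nat_lit 527) (nat_lit 531) (nat_lit 3567))))))))))))
noncomputable def s124608 : Cert := .r (nat_lit 8104522610566539075774182521346835686076974890245320069306705736223067638613093008269152283476864864802316615718025363417420102354411008980522569669861656309717636852761472532480) (.p (nat_lit 594) (.a (.f (nat_lit 467) (nat_lit 499) (nat_lit 6610) (.f (nat_lit 466) (nat_lit 435) (nat_lit 6578) (.d (nat_lit 595) (nat_lit 563) (nat_lit 4562) (nat_lit 627) (nat_lit 4594)))) (.a (.f (nat_lit 595) (nat_lit 627) (nat_lit 4594) (.f (nat_lit 466) (nat_lit 563) (nat_lit 4562) (.f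 (nat_lit 433) (nat_lit 465) (nat_lit 7601) (.f (nat_lit 434) (nat_lit 401) (nat_lit 7569) (.d (nat_lit 435) (nat_lit 403) (nat_lit 6546) (nat_lit 467) (nat_lit 6578)))))) (.a (.f (nat_lit 467) (nat_lit 499) (nat_lit 6610) (.f (nat_lit 466) (nat_lit 435) (nat_lit 6578) (.d (nat_lit 465) (nat_lit 433) (nat_lit 7601) (nat_lit 464) (nat_lit 1487)))) (.f (nat_lit 627) (nat_lit 595) (nat_lit 4594) (.f (nat_lit 626) (nat_lit 659) (nat_lit 4626) (.d (nat_lit 625) (nat_lit 593) (nat_lit 5617) (nat_lit 657) (nat_lit 5649))))))))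
noncomputable def s124874 : Cert := .r (nat_lit 28365829084147412803209607231530468707881279376675416406458604534497542753221666872486893711959005907136015133991937290340472921873319161454214867612163281667970758337431412408320) (.p (nat_lit 593) (.a (.f (nat_lit 625) (nat_lit 626) (nat_lit 590) (.f (nat_lit 589) (nat_lit 624) (nat_lit 589) (.d (nat_lit 621) (nat_lit 620) (nat_lit 1612) (nat_lit 622) (nat_lit 1613)))) (.a (.f (nat_lit 622) (nat_lit 621) (nat_lit 1613) (.f (nat_lit 594) (nat_lit 623) (nat_lit 1614) (.d (nat_lit 626) (nat_lit 625) (nat_lit 590) (nat_lit 627) (nat_lit 591)))) (.a (.f (nat_lit 621) (nat_lit 622) (nat_lit 1613) (.f (nat_lit 589) (nat_lit 620) (nat_lit 1612) (.f (nat_lit 624) (nat_lit 625) (nat_lit 589) (.f (nat_lit 556) (nat_lit 557) (nat_lit 3628) (.d (nat_lit 588) (nat_lit 555) (nat_lit 3627) (nat_lit 623) (nat_lit 588)))))) (.a (.f (nat_lit 622) (nat_lit 621) (nat_lit 1613) (.f (nat_lit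 594) (nat_lit 623) (nat_lit 1614) (.f (nat_lit 563) (nat_lit 562) (nat_lit 2607) (.f (nat_lit 595) (nat_lit 564) (nat_lit 2608) (.d (nat_lit 627) (nat_lit 626) (nat_lit 591) (nat_lit 628) (nat_lit 592)))))) (.a (.f (nat_lit 625) (nat_lit 626) (nat_lit 590) (.f (nat_lit 589) (nat_lit 624) (nat_lit 589) (.f (nat_lit 620) (nat_lit 621) (nat_lit 1612) (.f (nat_lit 588) (nat_lit 619) (nat_lit 1611) (.d (nat_lit 556) (nat_lit 555) (nat_lit 3627) (nat_lit 557) (nat_lit 3628)))))) (.f (nat_lit 625) (nat_lit 626) (nat_lit 590) (.f (nat_lit 589) (nat_lit 624) (nat_lit 589) (.f (nat_lit 556) (nat_lit 557) (nat_lit 3628) (.f (nat_lit 588) (nat_lit 555) (nat_lit 3627) (.f (nat_lit 620) (nat_lit 619) (nat_lit 1611) (.f (nat_lit 524) (nat_lit 525) (nat_lit 6636) (.f (nat_lit 492) (nat_lit 461) (nat_lit 6604) (.d (nat_lit 491) (nat_lit 459) (nat_lit 7627) (nat_lit 523) (nat_lit 7659)))))))))))))))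
noncomputable def s124880 : Cert := .r (nat_lit 28365829084147412803209607231530468707881279376675416406458604534497542753221666872486893711959005907136015133991937290340472921873319161454214867612163281667970758337431412408320) (.p (nat_lit 593) (.a (.f (nat_lit 625) (nat_lit 626) (nat_lit 590) (.f (nat_lit 589) (nat_lit 624) (nat_lit 589) (.d (nat_lit 621) (nat_lit 620) (nat_lit 1612) (nat_lit 622) (nat_lit 1613)))) (.a (.f (nat_lit 622) (nat_lit 621) (nat_lit 1613) (.f (nat_lit 594) (nat_lit 623) (nat_lit 1614) (.d (nat_lit 626) (nat_lit 625) (nat_lit 590) (nat_lit 627) (nat_lit 591)))) (.a (.f (nat_lit 621) (nat_lit 622) (nat_lit 1613) (.f (nat_lit 589) (nat_lit 620) (nat_lit 1612) (.f (nat_lit 624) (nat_lit 625) (nat_lit 589) (.f (nat_lit 556) (nat_lit 557) (nat_lit 3628) (.d (nat_lit 588) (nat_lit 555) (nat_lit 3627) (nat_lit 623) (nat_lit 588)))))) (.a (.f (nat_lit 622) (nat_lit 621) (nat_lit 1613) (.f (nat_lit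 594) (nat_lit 623) (nat_lit 1614) (.f (nat_lit 563) (nat_lit 562) (nat_lit 2607) (.f (nat_lit 595) (nat_lit 564) (nat_lit 2608) (.d (nat_lit 627) (nat_lit 626) (nat_lit 591) (nat_lit 628) (nat_lit 592)))))) (.a (.f (nat_lit 625) (nat_lit 626) (nat_lit 590) (.f (nat_lit 589) (nat_lit 624) (nat_lit 589) (.f (nat_lit 620) (nat_lit 621) (nat_lit 1612) (.f (nat_lit 588) (nat_lit 619) (nat_lit 1611) (.d (nat_lit 556) (nat_lit 555) (nat_lit 3627) (nat_lit 557) (nat_lit 3628)))))) (.f (nat_lit 626) (nat_lit 625) (nat_lit 590) (.f (nat_lit 594) (nat_lit 627) (nat_lit 591) (.f (nat_lit 623) (nat_lit 622) (nat_lit 1614) (.f (nat_lit 563) (nat_lit 562) (nat_lit 2607) (.d (nat_lit 595) (nat_lit 564) (nat_lit 2608) (nat_lit 624) (nat_lit 1615))))))))))))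
noncomputable def s124911 : Cert := .r (nat_lit 28365829084147412803209607231530468707881279376675416406458604534497542753221666872486893711959005907136015133991937290340472921873319161454214867612163281667970758337431412408320) (.p (nat_lit 593) (.a (.f (nat_lit 625) (nat_lit 626) (nat_lit 590) (.f (nat_lit 589) (nat_lit 624) (nat_lit 589) (.d (nat_lit 621) (nat_lit 620) (nat_lit 1612) (nat_lit 622) (nat_lit 1613)))) (.a (.f (nat_lit 622) (nat_lit 621) (nat_lit 1613) (.f (nat_lit 594) (nat_lit 623) (nat_lit 1614) (.d (nat_lit 626) (nat_lit 625) (nat_lit 590) (nat_lit 627) (nat_lit 591)))) (.a (.p (nat_lit 589) (.a (.d (nat_lit 621) (nat_lit 620) (nat_lit 1612) (nat_lit 622) (nat_lit 1613)) (.a (.f (nat_lit 624) (nat_lit 625) (nat_lit 589) (.f (nat_lit 588) (nat_lit 623) (nat_lit 588) (.d (nat_lit 620) (nat_lit 619) (nat_lit 1611) (nat_lit 621) (nat_lit 1612)))) (.a (.f (nat_lit 624) (nat_lit 625) (nat_lit 589) (.f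 (nat_lit 588) (nat_lit 623) (nat_lit 588) (.f (nat_lit 619) (nat_lit 620) (nat_lit 1611) (.f (nat_lit 587) (nat_lit 618) (nat_lit 1610) (.d (nat_lit 555) (nat_lit 554) (nat_lit 3626) (nat_lit 556) (nat_lit 3627)))))) (.f (nat_lit 622) (nat_lit 621) (nat_lit 1613) (.f (nat_lit 623) (nat_lit 594) (nat_lit 1614) (.d (nat_lit 624) (nat_lit 588) (nat_lit 588) (nat_lit 625) (nat_lit 589)))))))) (.a (.f (nat_lit 622) (nat_lit 621) (nat_lit 1613) (.f (nat_lit 594) (nat_lit 623) (nat_lit 1614) (.f (nat_lit 563) (nat_lit 562) (nat_lit 2607) (.f (nat_lit 595) (nat_lit 564) (nat_lit 2608) (.d (nat_lit 627) (nat_lit 626) (nat_lit 591) (nat_lit 628) (nat_lit 592)))))) (.a (.f (nat_lit 625) (nat_lit 626) (nat_lit 590) (.f (nat_lit 589) (nat_lit 624) (nat_lit 589) (.f (nat_lit 620) (nat_lit 621) (nat_lit 1612) (.f (nat_lit 588) (nat_lit 619) (nat_lit 1611) (.f (nat_lit 556) (nat_lit 555) (nat_lit 3627) (.f (nat_lit 524) (nat_lit 525)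 (nat_lit 6636) (.f (nat_lit 492) (nat_lit 461) (nat_lit 6604) (.d (nat_lit 491) (nat_lit 459) (nat_lit 7627) (nat_lit 523) (nat_lit 7659))))))))) (.f (nat_lit 626) (nat_lit 625) (nat_lit 590) (.f (nat_lit 594) (nat_lit 627) (nat_lit 591) (.f (nat_lit 623) (nat_lit 622) (nat_lit 1614) (.f (nat_lit 563) (nat_lit 562) (nat_lit 2607) (.d (nat_lit 595) (nat_lit 564) (nat_lit 2608) (nat_lit 624) (nat_lit 1615))))))))))))
noncomputable def s124930 : Cert := .r (nat_lit 28365829084147412803209607231530468707881279376675416406458604534497542753221666872486893711959005907136015133991937290340472921873319161454214867612163281667970758337431412408320) (.p (nat_lit 589) (.a (.f (nat_lit 624) (nat_lit 625) (nat_lit 589) (.f (nat_lit 588) (nat_lit 623) (nat_lit 588) (.d (nat_lit 620) (nat_lit 619) (nat_lit 1611) (nat_lit 621) (nat_lit 1612)))) (.a (.f (nat_lit 557) (nat_lit 556) (nat_lit 3628) (.f (nat_lit 525) (nat_lit 622) (nat_lit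 4589) (.d (nat_lit 620) (nat_lit 588) (nat_lit 5612) (nat_lit 621) (nat_lit 1612)))) (.a (.f (nat_lit 557) (nat_lit 556) (nat_lit 3628) (.f (nat_lit 525) (nat_lit 622) (nat_lit 4589) (.f (nat_lit 621) (nat_lit 620) (nat_lit 1612) (.d (nat_lit 492) (nat_lit 460) (nat_lit 7628) (nat_lit 524) (nat_lit 7660))))) (.a (.f (nat_lit 624) (nat_lit 625) (nat_lit 589) (.f (nat_lit 588) (nat_lit 623) (nat_lit 588) (.f (nat_lit 619) (nat_lit 620) (nat_lit 1611) (.f (nat_lit 587) (nat_lit 618) (nat_lit 1610) (.d (nat_lit 555) (nat_lit 554) (nat_lit 3626) (nat_lit 556) (nat_lit 3627)))))) (.f (nat_lit 624) (nat_lit 625) (nat_lit 589) (.f (nat_lit 588) (nat_lit 623) (nat_lit 588) (.d (nat_lit 556) (nat_lit 555) (nat_lit 3627) (nat_lit 557) (nat_lit 3628)))))))))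
noncomputable def s124940 : Cert := .r (nat_lit 28365829084147412803209607231530468707881279376675416406458604534497542753221666872486893711959005907136015133991937290340472921873319161454214867612163281667970758337431412408320) (.p (nat_lit 593) (.a (.f (nat_lit 622) (nat_lit 621) (nat_lit 1613) (.f (nat_lit 594) (nat_lit 623) (nat_lit 1614) (.f (nat_lit 563) (nat_lit 562) (nat_lit 2607) (.f (nat_lit 595) (nat_lit 564) (nat_lit 2608) (.d (nat_lit 627) (nat_lit 626) (nat_lit 591) (nat_lit 628) (nat_lit 592)))))) (.a (.f (nat_lit 622) (nat_lit 621) (nat_lit 1613) (.f (nat_lit 558) (nat_lit 557) (nat_lit 3629) (.f (nat_lit 526) (nat_lit 525) (nat_lit 7661) (.f (nat_lit 655) (nat_lit 623) (nat_lit 4622) (.f (nat_lit 654) (nat_lit 687) (nat_lit 4654) (.f (nat_lit 685) (nat_lit 653) (nat_lit 5677) (.d (nat_lit 686) (nat_lit 559) (nat_lit 6702) (nat_lit 717) (nat_lit 5709)))))))) (.a (.f (nat_lit 557) (nat_lit 558) (nat_lit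 3629) (.f (nat_lit 589) (nat_lit 556) (nat_lit 3628) (.d (nat_lit 621) (nat_lit 620) (nat_lit 1612) (nat_lit 622) (nat_lit 1613)))) (.f (nat_lit 558) (nat_lit 557) (nat_lit 3629) (.f (nat_lit 594) (nat_lit 559) (nat_lit 3630) (.f (nat_lit 563) (nat_lit 562) (nat_lit 2607) (.f (nat_lit 595) (nat_lit 564) (nat_lit 2608) (.d (nat_lit 627) (nat_lit 626) (nat_lit 591) (nat_lit 628) (nat_lit 592))))))))))
noncomputable def s124966 : Cert := .r (nat_lit 24313567786412068117162333927144569146345687353001161621306595423471514617076248760768429796971599858026446885348088863404540157151237349630106591406973864004825072982547125764096) (.p (nat_lit 593) (.a (.d (nat_lit 560) (nat_lit 623) (nat_lit 5615) (nat_lit 625) (nat_lit 4592)) (.a (.p (nat_lit 594) (.a (.f (nat_lit 623) (nat_lit 622) (nat_lit 1614) (.f (nat_lit 595) (nat_lit 624) (nat_lit 1615) (.d (nat_lit 627) (nat_lit 626) (nat_lit 591) (nat_lit 628) (nat_lit 592)))) (.a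 (.f (nat_lit 626) (nat_lit 627) (nat_lit 591) (.f (nat_lit 562) (nat_lit 563) (nat_lit 2607) (.f (nat_lit 625) (nat_lit 590) (nat_lit 590) (.d (nat_lit 530) (nat_lit 498) (nat_lit 5617) (nat_lit 657) (nat_lit 5649))))) (.f (nat_lit 623) (nat_lit 622) (nat_lit 1614) (.f (nat_lit 595) (nat_lit 624) (nat_lit 1615) (.d (nat_lit 563) (nat_lit 562) (nat_lit 2607) (nat_lit 564) (nat_lit 2608))))))) (.a (.f (nat_lit 625) (nat_lit 560) (nat_lit 4592) (.f (nat_lit 590) (nat_lit 626) (nat_lit 590) (.f (nat_lit 589) (nat_lit 624) (nat_lit 589) (.d (nat_lit 621) (nat_lit 620) (nat_lit 1612) (nat_lit 622) (nat_lit 1613))))) (.f (nat_lit 623) (nat_lit 560) (nat_lit 5615) (.f (nat_lit 594) (nat_lit 622) (nat_lit 1614) (.f (nat_lit 595) (nat_lit 624) (nat_lit 1615) (.d (nat_lit 627) (nat_lit 626) (nat_lit 591) (nat_lit 628) (nat_lit 592)))))))))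
noncomputable def s125014 : Cert := .r (nat_lit 26339698435751485763288663248367713249737016976202904166434655032531554472679660836926680360976068723228438355612696623751352020124749578620901328588638752117827002665445443502080) (.p (nat_lit 525) (.a (.f (nat_lit 492) (nat_lit 460) (nat_lit 7628) (.f (nat_lit 621) (nat_lit 524) (nat_lit 7660) (.d (nat_lit 620) (nat_lit 588) (nat_lit 5612) (nat_lit 652) (nat_lit 5644)))) (.a (.f (nat_lit 588) (nat_lit 620) (nat_lit 5612) (.f (nat_lit 461) (nat_lit 556) (nat_lit 5580) (.f (nat_lit 428) (nat_lit 460) (nat_lit 7596) (.f (nat_lit 429) (nat_lit 396) (nat_lit 7564) (.d (nat_lit 430) (nat_lit 398) (nat_lit 6541) (nat_lit 462) (nat_lit 6573)))))) (.a (.f (nat_lit 492) (nat_lit 460) (nat_lit 7628) (.f (nat_lit 621) (nat_lit 524) (nat_lit 7660) (.f (nat_lit 623) (nat_lit 560) (nat_lit 5615) (.d (nat_lit 620) (nat_lit 622) (nat_lit 2636) (nat_lit 652) (nat_lit 5644))))) (.a (.f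 (nat_lit 620) (nat_lit 588) (nat_lit 5612) (.f (nat_lit 621) (nat_lit 652) (nat_lit 5644) (.d (nat_lit 622) (nat_lit 623) (nat_lit 2636) (nat_lit 654) (nat_lit 4621)))) (.f (nat_lit 460) (nat_lit 492) (nat_lit 7628) (.f (nat_lit 461) (nat_lit 428) (nat_lit 7596) (.f (nat_lit 430) (nat_lit 462) (nat_lit 6573) (.f (nat_lit 429) (nat_lit 398) (nat_lit 6541) (.d (nat_lit 556) (nat_lit 524) (nat_lit 5548) (nat_lit 588) (nat_lit 5580)))))))))))
noncomputable def s125074 : Cert := .r (nat_lit 28365829084147412803209607231530468707881279376675416406458604534497542753221666872486893711959005907136015133991937290340472921873319161454214867612163281667970758337431412408320) (.p (nat_lit 593) (.a (.f (nat_lit 622) (nat_lit 621) (nat_lit 1613) (.f (nat_lit 594) (nat_lit 623) (nat_lit 1614) (.f (nat_lit 563) (nat_lit 562) (nat_lit 2607) (.f (nat_lit 595) (nat_lit 564) (nat_lit 2608) (.d (nat_lit 627) (nat_lit 626) (nat_lit 591) (nat_lit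 628) (nat_lit 592)))))) (.a (.f (nat_lit 557) (nat_lit 558) (nat_lit 3629) (.f (nat_lit 589) (nat_lit 556) (nat_lit 3628) (.d (nat_lit 621) (nat_lit 620) (nat_lit 1612) (nat_lit 622) (nat_lit 1613)))) (.a (.f (nat_lit 623) (nat_lit 560) (nat_lit 5615) (.f (nat_lit 557) (nat_lit 558) (nat_lit 3629) (.f (nat_lit 589) (nat_lit 556) (nat_lit 3628) (.f (nat_lit 620) (nat_lit 621) (nat_lit 1612) (.d (nat_lit 588) (nat_lit 619) (nat_lit 1611) (nat_lit 624) (nat_lit 588)))))) (.f (nat_lit 623) (nat_lit 560) (nat_lit 5615) (.f (nat_lit 594) (nat_lit 622) (nat_lit 1614) (.f (nat_lit 595) (nat_lit 624) (nat_lit 1615) (.d (nat_lit 627) (nat_lit 626) (nat_lit 591) (nat_lit 628) (nat_lit 592)))))))))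
noncomputable def s125129 : Cert := .r (nat_lit 8104522595942434676185770141193254978266563282454059924726924997716720746575590749540561434467103999069342190965961975419291319857645119141008037473281838934672603021123994517504) (.p (nat_lit 590) (.a (.f (nat_lit 558) (nat_lit 461) (nat_lit 4557) (.d (nat_lit 622) (nat_lit 526) (nat_lit 7661) (nat_lit 589) (nat_lit 4589))) (.a (.f (nat_lit 589) (nat_lit 622) (nat_lit 4589) (.f (nat_lit 588) (nat_lit 620) (nat_lit 5612) (.d (nat_lit 461) (nat_lit 556) (nat_lit 5580) (nat_lit 558) (nat_lit 4557)))) (.a (.f (nat_lit 589) (nat_lit 622) (nat_lit 4589) (.f (nat_lit 588) (nat_lit 620) (nat_lit 5612) (.d (nat_lit 556) (nat_lit 461) (nat_lit 5580) (nat_lit 555) (nat_lit 3627)))) (.a (.f (nat_lit 558) (nat_lit 461) (nat_lit 4557) (.d (nat_lit 622) (nat_lit 526) (nat_lit 7661) (nat_lit 654) (nat_lit 7693))) (.a (.f (nat_lit 461) (nat_lit 558) (nat_lit 4557) (.f (nat_lit 556) (nat_lit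 588) (nat_lit 5580) (.f (nat_lit 429) (nat_lit 524) (nat_lit 5548) (.d (nat_lit 430) (nat_lit 398) (nat_lit 6541) (nat_lit 462) (nat_lit 6573))))) (.f (nat_lit 589) (nat_lit 622) (nat_lit 4589) (.f (nat_lit 588) (nat_lit 620) (nat_lit 5612) (.f (nat_lit 556) (nat_lit 555) (nat_lit 3627) (.f (nat_lit 492) (nat_lit 460) (nat_lit 7628) (.f (nat_lit 524) (nat_lit 621) (nat_lit 4588) (.f (nat_lit 587) (nat_lit 619) (nat_lit 5611) (.d (nat_lit 586) (nat_lit 558) (nat_lit 2602) (nat_lit 585) (nat_lit 2601))))))))))))))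
noncomputable def s125133 : Cert := .r (nat_lit 8104522595942434676185770141193254978266563282454059924726924997716720746575590749540561434467103999069342190965961975419291319857645119141008037473281838934672603021123994517504) (.p (nat_lit 590) (.a (.f (nat_lit 589) (nat_lit 622) (nat_lit 4589) (.f (nat_lit 588) (nat_lit 620) (nat_lit 5612) (.d (nat_lit 461) (nat_lit 556) (nat_lit 5580) (nat_lit 558) (nat_lit 4557)))) (.a (.f (nat_lit 589) (nat_lit 622) (nat_lit 4589) (.f (nat_lit 588) (nat_lit 620) (nat_lit 5612) (.d (nat_lit 556) (nat_lit 461) (nat_lit 5580) (nat_lit 555) (nat_lit 3627)))) (.a (.f (nat_lit 461) (nat_lit 558) (nat_lit 4557) (.f (nat_lit 556) (nat_lit 588) (nat_lit 5580) (.f (nat_lit 429) (nat_lit 524) (nat_lit 5548) (.d (nat_lit 430) (nat_lit 398) (nat_lit 6541) (nat_lit 462) (nat_lit 6573))))) (.a (.f (nat_lit 589) (nat_lit 622) (nat_lit 4589) (.f (nat_lit 461) (nat_lit 558) (nat_lit 4557) (.d (nat_lit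 460) (nat_lit 428) (nat_lit 7596) (nat_lit 492) (nat_lit 7628)))) (.f (nat_lit 589) (nat_lit 622) (nat_lit 4589) (.f (nat_lit 588) (nat_lit 620) (nat_lit 5612) (.f (nat_lit 556) (nat_lit 555) (nat_lit 3627) (.f (nat_lit 492) (nat_lit 460) (nat_lit 7628) (.f (nat_lit 524) (nat_lit 621) (nat_lit 4588) (.f (nat_lit 587) (nat_lit 619) (nat_lit 5611) (.d (nat_lit 586) (nat_lit 558) (nat_lit 2602) (nat_lit 585) (nat_lit 2601)))))))))))))
noncomputable def s125164 : Cert := .r (nat_lit 8104522595942434676185770141193254978266563282454059924726924997716720746575590749540561434467103999069342190965961975419291319857645119141008037473281838934672603021123994517504) (.p (nat_lit 589) (.a (.f (nat_lit 492) (nat_lit 460) (nat_lit 7628) (.f (nat_lit 621) (nat_lit 524) (nat_lit 7660) (.d (nat_lit 620) (nat_lit 588) (nat_lit 5612) (nat_lit 652) (nat_lit 5644)))) (.a (.f (nat_lit 588) (nat_lit 620) (nat_lit 5612) (.f (nat_lit 461) (nat_lit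 556) (nat_lit 5580) (.f (nat_lit 430) (nat_lit 462) (nat_lit 6573) (.f (nat_lit 429) (nat_lit 398) (nat_lit 6541) (.d (nat_lit 428) (nat_lit 396) (nat_lit 7564) (nat_lit 460) (nat_lit 7596)))))) (.a (.f (nat_lit 492) (nat_lit 460) (nat_lit 7628) (.f (nat_lit 621) (nat_lit 524) (nat_lit 7660) (.f (nat_lit 652) (nat_lit 620) (nat_lit 5644) (.f (nat_lit 653) (nat_lit 684) (nat_lit 5676) (.d (nat_lit 654) (nat_lit 622) (nat_lit 4621) (nat_lit 686) (nat_lit 4653)))))) (.a (.f (nat_lit 620) (nat_lit 588) (nat_lit 5612) (.f (nat_lit 621) (nat_lit 652) (nat_lit 5644) (.f (nat_lit 654) (nat_lit 622) (nat_lit 4621) (.f (nat_lit 653) (nat_lit 686) (nat_lit 4653) (.d (nat_lit 524) (nat_lit 492) (nat_lit 7660) (nat_lit 556) (nat_lit 7692)))))) (.f (nat_lit 460) (nat_lit 492) (nat_lit 7628) (.f (nat_lit 461) (nat_lit 428) (nat_lit 7596) (.f (nat_lit 430) (nat_lit 462) (nat_lit 6573) (.f (nat_lit 429) (nat_lit 398) (nat_lit 6541)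 (.d (nat_lit 556) (nat_lit 524) (nat_lit 5548) (nat_lit 588) (nat_lit 5580)))))))))))
noncomputable def s125181 : Cert := .r (nat_lit 8104522595942434676185770141193254978266563282454059924726924997716720746575590749540561434467103999069342190965961975419291319857645119141008037473281838934672603021123994517504) (.p (nat_lit 461) (.a (.f (nat_lit 558) (nat_lit 590) (nat_lit 4557) (.f (nat_lit 429) (nat_lit 526) (nat_lit 4525) (.d (nat_lit 556) (nat_lit 524) (nat_lit 5548) (nat_lit 588) (nat_lit 5580)))) (.a (.f (nat_lit 556) (nat_lit 588) (nat_lit 5580) (.f (nat_lit 429) (nat_lit 524) (nat_lit 5548) (.d (nat_lit 430) (nat_lit 398) (nat_lit 6541) (nat_lit 462) (nat_lit 6573)))) (.a (.f (nat_lit 428) (nat_lit 460) (nat_lit 7596) (.f (nat_lit 429) (nat_lit 396) (nat_lit 7564) (.d (nat_lit 430) (nat_lit 398) (nat_lit 6541) (nat_lit 462) (nat_lit 6573)))) (.f (nat_lit 558) (nat_lit 590) (nat_lit 4557) (.f (nat_lit 556) (nat_lit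 588) (nat_lit 5580) (.f (nat_lit 559) (nat_lit 592) (nat_lit 556) (.f (nat_lit 523) (nat_lit 524) (nat_lit 3595) (.f (nat_lit 555) (nat_lit 522) (nat_lit 3594) (.f (nat_lit 554) (nat_lit 526) (nat_lit 2570) (.d (nat_lit 586) (nat_lit 585) (nat_lit 1577) (nat_lit 587) (nat_lit 1578))))))))))))
noncomputable def s125188 : Cert := .r (nat_lit 8104522595942434676185770141193254978266563282454059924726924997716720746575590749540561434467103999069342190965961975419291319857645119141008037473281838934672603021123994517504) (.p (nat_lit 590) (.a (.f (nat_lit 558) (nat_lit 461) (nat_lit 4557) (.d (nat_lit 622) (nat_lit 526) (nat_lit 7661) (nat_lit 589) (nat_lit 4589))) (.a (.f (nat_lit 589) (nat_lit 622) (nat_lit 4589) (.f (nat_lit 588) (nat_lit 620) (nat_lit 5612) (.d (nat_lit 461) (nat_lit 556) (nat_lit 5580) (nat_lit 558) (nat_lit 4557)))) (.a (.f (nat_lit 589) (nat_lit 622) (nat_lit 4589) (.f (nat_lit 588) (nat_lit 620)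 (nat_lit 5612) (.d (nat_lit 556) (nat_lit 461) (nat_lit 5580) (nat_lit 555) (nat_lit 3627)))) (.a (.f (nat_lit 558) (nat_lit 461) (nat_lit 4557) (.d (nat_lit 622) (nat_lit 526) (nat_lit 7661) (nat_lit 654) (nat_lit 7693))) (.a (.f (nat_lit 461) (nat_lit 558) (nat_lit 4557) (.f (nat_lit 588) (nat_lit 556) (nat_lit 5580) (.f (nat_lit 589) (nat_lit 620) (nat_lit 5612) (.d (nat_lit 460) (nat_lit 428) (nat_lit 7596) (nat_lit 492) (nat_lit 7628))))) (.f (nat_lit 622) (nat_lit 589) (nat_lit 4589) (.d (nat_lit 558) (nat_lit 526) (nat_lit 7661) (nat_lit 654) (nat_lit 7693)))))))))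
noncomputable def s125197 : Cert := .r (nat_lit 8104522595942434676185770141193254978266563282454059924726924997716720746575590749540561434467103999069342190965961975419291319857645119141008037473281838934672603021123994517504) (.p (nat_lit 590) (.a (.f (nat_lit 558) (nat_lit 461) (nat_lit 4557) (.d (nat_lit 622) (nat_lit 526) (nat_lit 7661) (nat_lit 589) (nat_lit 4589))) (.a (.f (nat_lit 589) (nat_lit 622) (nat_lit 4589) (.f (nat_lit 461) (nat_lit 558) (nat_lit 4557) (.d (nat_lit 460) (nat_lit 428) (nat_lit 7596) (nat_lit 492) (nat_lit 7628)))) (.a (.f (nat_lit 589) (nat_lit 622) (nat_lit 4589) (.f (nat_lit 620) (nat_lit 588) (nat_lit 5612) (.d (nat_lit 621) (nat_lit 592) (nat_lit 1612) (nat_lit 652) (nat_lit 5644)))) (.a (.f (nat_lit 558) (nat_lit 461) (nat_lit 4557) (.d (nat_lit 622) (nat_lit 526) (nat_lit 7661) (nat_lit 654) (nat_lit 7693))) (.f (nat_lit 461) (nat_lit 558) (nat_lit 4557) (.f (nat_lit 460) (nat_lit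 428) (nat_lit 7596) (.f (nat_lit 589) (nat_lit 492) (nat_lit 7628) (.f (nat_lit 620) (nat_lit 588) (nat_lit 5612) (.d (nat_lit 621) (nat_lit 592) (nat_lit 1612) (nat_lit 652) (nat_lit 5644)))))))))))
noncomputable def s125210 : Cert := .r (nat_lit 8104522595942434676185770141193254978266563282454059924726924997716720746575590749540561434467103999069342190965961975419291319857645119141008037473281838934672603021123994517504) (.p (nat_lit 590) (.a (.f (nat_lit 558) (nat_lit 461) (nat_lit 4557) (.d (nat_lit 622) (nat_lit 526) (nat_lit 7661) (nat_lit 589) (nat_lit 4589))) (.a (.f (nat_lit 589) (nat_lit 622) (nat_lit 4589) (.f (nat_lit 461) (nat_lit 558) (nat_lit 4557) (.d (nat_lit 460) (nat_lit 428) (nat_lit 7596) (nat_lit 492) (nat_lit 7628)))) (.a (.f (nat_lit 589) (nat_lit 622) (nat_lit 4589) (.f (nat_lit 556) (nat_lit 592) (nat_lit 3628) (.f (nat_lit 460) (nat_lit 492) (nat_lit 7628) (.f (nat_lit 461) (nat_lit 428)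 (nat_lit 7596) (.f (nat_lit 430) (nat_lit 462) (nat_lit 6573) (.d (nat_lit 429) (nat_lit 398) (nat_lit 6541) (nat_lit 524) (nat_lit 5548))))))) (.a (.f (nat_lit 558) (nat_lit 461) (nat_lit 4557) (.d (nat_lit 622) (nat_lit 526) (nat_lit 7661) (nat_lit 654) (nat_lit 7693))) (.a (.f (nat_lit 461) (nat_lit 558) (nat_lit 4557) (.f (nat_lit 460) (nat_lit 428) (nat_lit 7596) (.f (nat_lit 492) (nat_lit 589) (nat_lit 7628) (.f (nat_lit 430) (nat_lit 462) (nat_lit 6573) (.f (nat_lit 429) (nat_lit 398) (nat_lit 6541) (.d (nat_lit 397) (nat_lit 365) (nat_lit 5484) (nat_lit 524) (nat_lit 5516))))))) (.f (nat_lit 622) (nat_lit 589) (nat_lit 4589) (.d (nat_lit 558) (nat_lit 526) (nat_lit 7661) (nat_lit 654) (nat_lit 7693)))))))))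
noncomputable def s125211 : Cert := .r (nat_lit 8104522595942434676185770141193254978266563282454059924726924997716720746575590749540561434467103999069342190965961975419291319857645119141008037473281838934672603021123994517504) (.p (nat_lit 590) (.a (.f (nat_lit 558) (nat_lit 461) (nat_lit 4557) (.d (nat_lit 622) (nat_lit 526) (nat_lit 7661) (nat_lit 589) (nat_lit 4589))) (.a (.f (nat_lit 589) (nat_lit 622) (nat_lit 4589) (.f (nat_lit 588) (nat_lit 620) (nat_lit 5612) (.d (nat_lit 461) (nat_lit 556) (nat_lit 5580) (nat_lit 558) (nat_lit 4557)))) (.a (.f (nat_lit 589) (nat_lit 622) (nat_lit 4589) (.f (nat_lit 588) (nat_lit 620) (nat_lit 5612) (.d (nat_lit 556) (nat_lit 461) (nat_lit 5580) (nat_lit 555) (nat_lit 3627)))) (.a (.f (nat_lit 558) (nat_lit 461) (nat_lit 4557) (.d (nat_lit 622) (nat_lit 526) (nat_lit 7661) (nat_lit 654) (nat_lit 7693))) (.a (.f (nat_lit 461) (nat_lit 558) (nat_lit 4557) (.f (nat_lit 556) (nat_lit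 588) (nat_lit 5580) (.f (nat_lit 429) (nat_lit 524) (nat_lit 5548) (.d (nat_lit 430) (nat_lit 398) (nat_lit 6541) (nat_lit 462) (nat_lit 6573))))) (.f (nat_lit 622) (nat_lit 589) (nat_lit 4589) (.d (nat_lit 558) (nat_lit 526) (nat_lit 7661) (nat_lit 654) (nat_lit 7693)))))))))
noncomputable def s125220 : Cert := .r (nat_lit 8104522595942434676185770141193254978266563282454059924726924997716720746575590749540561434467103999069342190965961975419291319857645119141008037473281838934672603021123994517504) (.p (nat_lit 590) (.a (.f (nat_lit 558) (nat_lit 461) (nat_lit 4557) (.d (nat_lit 622) (nat_lit 526) (nat_lit 7661) (nat_lit 589) (nat_lit 4589))) (.a (.f (nat_lit 589) (nat_lit 622) (nat_lit 4589) (.f (nat_lit 588) (nat_lit 620) (nat_lit 5612) (.d (nat_lit 461) (nat_lit 556) (nat_lit 5580) (nat_lit 558) (nat_lit 4557)))) (.a (.f (nat_lit 589) (nat_lit 622) (nat_lit 4589) (.f (nat_lit 588) (nat_lit 620) (nat_lit 5612) (.d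 (nat_lit 556) (nat_lit 461) (nat_lit 5580) (nat_lit 555) (nat_lit 3627)))) (.a (.f (nat_lit 558) (nat_lit 461) (nat_lit 4557) (.d (nat_lit 622) (nat_lit 526) (nat_lit 7661) (nat_lit 654) (nat_lit 7693))) (.a (.f (nat_lit 461) (nat_lit 558) (nat_lit 4557) (.f (nat_lit 556) (nat_lit 588) (nat_lit 5580) (.f (nat_lit 429) (nat_lit 524) (nat_lit 5548) (.d (nat_lit 430) (nat_lit 398) (nat_lit 6541) (nat_lit 462) (nat_lit 6573))))) (.f (nat_lit 589) (nat_lit 622) (nat_lit 4589) (.f (nat_lit 588) (nat_lit 620) (nat_lit 5612) (.f (nat_lit 556) (nat_lit 555) (nat_lit 3627) (.f (nat_lit 492) (nat_lit 460) (nat_lit 7628) (.f (nat_lit 524) (nat_lit 621) (nat_lit 4588) (.f (nat_lit 526) (nat_lit 527) (nat_lit 1548) (.d (nat_lit 491) (nat_lit 459) (nat_lit 7627) (nat_lit 490) (nat_lit 490))))))))))))))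
noncomputable def s125227 : Cert := .r (nat_lit 8104522595942434676185770141193254978266563282454059924726924997716720746575590749540561434467103999069342190965961975419291319857645119141008037473281838934672603021123994517504) (.p (nat_lit 589) (.a (.f (nat_lit 590) (nat_lit 622) (nat_lit 4589) (.f (nat_lit 556) (nat_lit 592) (nat_lit 3628) (.d (nat_lit 588) (nat_lit 555) (nat_lit 3627) (nat_lit 620) (nat_lit 5612)))) (.a (.f (nat_lit 492) (nat_lit 460) (nat_lit 7628) (.f (nat_lit 524) (nat_lit 621) (nat_lit 7660) (.f (nat_lit 526) (nat_lit 527) (nat_lit 3564) (.f (nat_lit 588) (nat_lit 620) (nat_lit 5612) (.f (nat_lit 556) (nat_lit 461) (nat_lit 5580) (.d (nat_lit 491) (nat_lit 459) (nat_lit 7627) (nat_lit 490) (nat_lit 490))))))) (.a (.f (nat_lit 492) (nat_lit 460) (nat_lit 7628) (.f (nat_lit 621) (nat_lit 524) (nat_lit 7660) (.d (nat_lit 620) (nat_lit 588) (nat_lit 5612) (nat_lit 652) (nat_lit 5644)))) (.f (nat_lit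 492) (nat_lit 460) (nat_lit 7628) (.f (nat_lit 621) (nat_lit 524) (nat_lit 7660) (.d (nat_lit 622) (nat_lit 590) (nat_lit 4589) (nat_lit 654) (nat_lit 4621))))))))
noncomputable def s125244 : Cert := .r (nat_lit 8104522595942434676185770141193254978266563282454059924726924997716720746575590749540561434467103999069342190965961975419291319857645119141008037473281838934672603021123994517504) (.p (nat_lit 589) (.a (.f (nat_lit 492) (nat_lit 460) (nat_lit 7628) (.f (nat_lit 524) (nat_lit 621) (nat_lit 7660) (.f (nat_lit 526) (nat_lit 527) (nat_lit 3564) (.f (nat_lit 588) (nat_lit 620) (nat_lit 5612) (.f (nat_lit 556) (nat_lit 461) (nat_lit 5580) (.d (nat_lit 491) (nat_lit 459) (nat_lit 7627) (nat_lit 490) (nat_lit 490))))))) (.a (.f (nat_lit 492) (nat_lit 460) (nat_lit 7628) (.f (nat_lit 621) (nat_lit 524) (nat_lit 7660) (.d (nat_lit 620) (nat_lit 588) (nat_lit 5612) (nat_lit 652) (nat_lit 5644)))) (.a (.f (nat_lit 588)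 (nat_lit 620) (nat_lit 5612) (.f (nat_lit 461) (nat_lit 556) (nat_lit 5580) (.f (nat_lit 430) (nat_lit 462) (nat_lit 6573) (.f (nat_lit 429) (nat_lit 398) (nat_lit 6541) (.d (nat_lit 428) (nat_lit 396) (nat_lit 7564) (nat_lit 460) (nat_lit 7596)))))) (.a (.f (nat_lit 492) (nat_lit 460) (nat_lit 7628) (.f (nat_lit 526) (nat_lit 527) (nat_lit 3564) (.f (nat_lit 621) (nat_lit 524) (nat_lit 7660) (.f (nat_lit 653) (nat_lit 558) (nat_lit 6669) (.d (nat_lit 652) (nat_lit 620) (nat_lit 5644) (nat_lit 684) (nat_lit 5676)))))) (.a (.f (nat_lit 588) (nat_lit 620) (nat_lit 5612) (.f (nat_lit 461) (nat_lit 556) (nat_lit 5580) (.f (nat_lit 430) (nat_lit 462) (nat_lit 6573) (.f (nat_lit 429) (nat_lit 398) (nat_lit 6541) (.f (nat_lit 526) (nat_lit 558) (nat_lit 4525) (.d (nat_lit 527) (nat_lit 492) (nat_lit 3564) (nat_lit 524) (nat_lit 2540))))))) (.f (nat_lit 492) (nat_lit 460) (nat_lit 7628) (.f (nat_lit 526) (nat_lit 527) (nat_lit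 3564) (.f (nat_lit 621) (nat_lit 524) (nat_lit 7660) (.f (nat_lit 653) (nat_lit 558) (nat_lit 6669) (.d (nat_lit 654) (nat_lit 622) (nat_lit 4621) (nat_lit 686) (nat_lit 4653))))))))))))
noncomputable def s125262 : Cert := .r (nat_lit 8104522595942434676185770141193254978266563282454059924726924997716720746575590749540561434467103999069342190965961975419291319857645119141008037473281838934672603021123994517504) (.p (nat_lit 461) (.a (.f (nat_lit 556) (nat_lit 588) (nat_lit 5580) (.f (nat_lit 526) (nat_lit 527) (nat_lit 1548) (.d (nat_lit 429) (nat_lit 524) (nat_lit 5548) (nat_lit 558) (nat_lit 4525)))) (.a (.f (nat_lit 558) (nat_lit 590) (nat_lit 4557) (.f (nat_lit 429) (nat_lit 526) (nat_lit 4525) (.d (nat_lit 556) (nat_lit 524) (nat_lit 5548) (nat_lit 588) (nat_lit 5580)))) (.a (.f (nat_lit 556) (nat_lit 588) (nat_lit 5580) (.f (nat_lit 429) (nat_lit 524) (nat_lit 5548) (.d (nat_lit 430) (nat_lit 398) (nat_lit 6541)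 (nat_lit 462) (nat_lit 6573)))) (.a (.f (nat_lit 558) (nat_lit 590) (nat_lit 4557) (.f (nat_lit 526) (nat_lit 429) (nat_lit 4525) (.d (nat_lit 527) (nat_lit 492) (nat_lit 3564) (nat_lit 556) (nat_lit 1548)))) (.a (.f (nat_lit 558) (nat_lit 590) (nat_lit 4557) (.f (nat_lit 526) (nat_lit 429) (nat_lit 4525) (.d (nat_lit 527) (nat_lit 492) (nat_lit 3564) (nat_lit 529) (nat_lit 1549)))) (.f (nat_lit 556) (nat_lit 588) (nat_lit 5580) (.f (nat_lit 526) (nat_lit 527) (nat_lit 1548) (.f (nat_lit 558) (nat_lit 590) (nat_lit 4557) (.f (nat_lit 555) (nat_lit 554) (nat_lit 2570) (.f (nat_lit 523) (nat_lit 522) (nat_lit 3594) (.f (nat_lit 587) (nat_lit 586) (nat_lit 1578) (.f (nat_lit 460) (nat_lit 428) (nat_lit 7596) (.d (nat_lit 492) (nat_lit 491) (nat_lit 6603) (nat_lit 524) (nat_lit 5579)))))))))))))))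
noncomputable def s125325 : Cert := .r (nat_lit 28365829084147412803209607231530468707881279376675416406458604534497542753221666872486893711959005907136015133991937290340472921873319161454214867612163281667970758337431412408320) (.p (nat_lit 593) (.a (.f (nat_lit 625) (nat_lit 626) (nat_lit 590) (.f (nat_lit 589) (nat_lit 624) (nat_lit 589) (.d (nat_lit 621) (nat_lit 620) (nat_lit 1612) (nat_lit 622) (nat_lit 1613)))) (.a (.f (nat_lit 557) (nat_lit 558) (nat_lit 3629) (.f (nat_lit 589) (nat_lit 556) (nat_lit 3628) (.d (nat_lit 621) (nat_lit 620) (nat_lit 1612) (nat_lit 622) (nat_lit 1613)))) (.a (.f (nat_lit 622) (nat_lit 621) (nat_lit 1613) (.f (nat_lit 558) (nat_lit 557) (nat_lit 3629) (.d (nat_lit 526) (nat_lit 525) (nat_lit 7661) (nat_lit 527) (nat_lit 6638)))) (.a (.f (nat_lit 625) (nat_lit 626) (nat_lit 590) (.f (nat_lit 589) (nat_lit 624) (nat_lit 589) (.f (nat_lit 620) (nat_lit 621) (nat_lit 1612) (.f (nat_lit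 588) (nat_lit 619) (nat_lit 1611) (.d (nat_lit 556) (nat_lit 555) (nat_lit 3627) (nat_lit 557) (nat_lit 3628)))))) (.f (nat_lit 625) (nat_lit 626) (nat_lit 590) (.f (nat_lit 589) (nat_lit 624) (nat_lit 589) (.f (nat_lit 556) (nat_lit 557) (nat_lit 3628) (.f (nat_lit 588) (nat_lit 555) (nat_lit 3627) (.f (nat_lit 620) (nat_lit 619) (nat_lit 1611) (.f (nat_lit 524) (nat_lit 525) (nat_lit 6636) (.f (nat_lit 492) (nat_lit 461) (nat_lit 6604) (.d (nat_lit 491) (nat_lit 459) (nat_lit 7627) (nat_lit 523) (nat_lit 7659))))))))))))))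
noncomputable def s125333 : Cert := .r (nat_lit 28365829084147412803209607231530468707881279376675416406458604534497542753221666872486893711959005907136015133991937290340472921873319161454214867612163281667970758337431412408320) (.p (nat_lit 593) (.a (.f (nat_lit 622) (nat_lit 621) (nat_lit 1613) (.f (nat_lit 594) (nat_lit 623) (nat_lit 1614) (.f (nat_lit 563) (nat_lit 562) (nat_lit 2607) (.f (nat_lit 595) (nat_lit 564) (nat_lit 2608) (.d (nat_lit 627) (nat_lit 626) (nat_lit 591) (nat_lit 628) (nat_lit 592)))))) (.a (.f (nat_lit 557) (nat_lit 558) (nat_lit 3629) (.f (nat_lit 589) (nat_lit 556) (nat_lit 3628) (.d (nat_lit 621) (nat_lit 620) (nat_lit 1612) (nat_lit 622) (nat_lit 1613)))) (.a (.f (nat_lit 557) (nat_lit 558) (nat_lit 3629) (.f (nat_lit 589) (nat_lit 556) (nat_lit 3628) (.f (nat_lit 620) (nat_lit 621) (nat_lit 1612) (.d (nat_lit 588) (nat_lit 525) (nat_lit 5612) (nat_lit 619) (nat_lit 1611))))) (.f (nat_lit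 557) (nat_lit 558) (nat_lit 3629) (.f (nat_lit 589) (nat_lit 556) (nat_lit 3628) (.f (nat_lit 622) (nat_lit 525) (nat_lit 4589) (.f (nat_lit 594) (nat_lit 623) (nat_lit 1614) (.f (nat_lit 627) (nat_lit 626) (nat_lit 591) (.f (nat_lit 595) (nat_lit 628) (nat_lit 592) (.d (nat_lit 563) (nat_lit 562) (nat_lit 2607) (nat_lit 564) (nat_lit 2608))))))))))))
noncomputable def s125571 : Cert := .r (nat_lit 8104522595942434676185770141193254978266563282454059924726924997716720746575590749540561434467103999069342190965961975419291319857645119141008037473281838934672603021123994517504) (.p (nat_lit 590) (.a (.f (nat_lit 558) (nat_lit 461) (nat_lit 4557) (.d (nat_lit 622) (nat_lit 526) (nat_lit 7661) (nat_lit 589) (nat_lit 4589))) (.a (.f (nat_lit 589) (nat_lit 622) (nat_lit 4589) (.f (nat_lit 461) (nat_lit 558) (nat_lit 4557) (.d (nat_lit 460) (nat_lit 428) (nat_lit 7596) (nat_lit 492) (nat_lit 7628)))) (.a (.f (nat_lit 589) (nat_lit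 622) (nat_lit 4589) (.f (nat_lit 620) (nat_lit 588) (nat_lit 5612) (.f (nat_lit 621) (nat_lit 652) (nat_lit 5644) (.d (nat_lit 492) (nat_lit 460) (nat_lit 7628) (nat_lit 524) (nat_lit 7660))))) (.a (.f (nat_lit 558) (nat_lit 461) (nat_lit 4557) (.d (nat_lit 622) (nat_lit 526) (nat_lit 7661) (nat_lit 654) (nat_lit 7693))) (.f (nat_lit 461) (nat_lit 558) (nat_lit 4557) (.f (nat_lit 460) (nat_lit 428) (nat_lit 7596) (.f (nat_lit 492) (nat_lit 589) (nat_lit 7628) (.f (nat_lit 430) (nat_lit 462) (nat_lit 6573) (.f (nat_lit 429) (nat_lit 398) (nat_lit 6541) (.d (nat_lit 397) (nat_lit 365) (nat_lit 5484) (nat_lit 524) (nat_lit 5516))))))))))))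
noncomputable def s125596 : Cert := .r (nat_lit 8104522595942434676185770141193254978266563282454059924726924997716720746575590749540561434467103999069342190965961975419291319857645119141008037473281838934672603021123994517504) (.p (nat_lit 589) (.a (.f (nat_lit 492) (nat_lit 460) (nat_lit 7628) (.f (nat_lit 621) (nat_lit 524) (nat_lit 7660) (.d (nat_lit 622) (nat_lit 590) (nat_lit 4589) (nat_lit 654) (nat_lit 4621)))) (.a (.f (nat_lit 492) (nat_lit 460) (nat_lit 7628) (.f (nat_lit 621) (nat_lit 524) (nat_lit 7660) (.f (nat_lit 652) (nat_lit 620) (nat_lit 5644) (.f (nat_lit 653) (nat_lit 684) (nat_lit 5676) (.d (nat_lit 654) (nat_lit 622) (nat_lit 4621) (nat_lit 686) (nat_lit 4653)))))) (.a (.f (nat_lit 590) (nat_lit 622) (nat_lit 4589) (.f (nat_lit 461) (nat_lit 558) (nat_lit 4557) (.f (nat_lit 430) (nat_lit 462) (nat_lit 6573) (.f (nat_lit 429) (nat_lit 398) (nat_lit 6541) (.d (nat_lit 428) (nat_lit 396) (nat_lit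 7564) (nat_lit 460) (nat_lit 7596)))))) (.a (.f (nat_lit 492) (nat_lit 460) (nat_lit 7628) (.f (nat_lit 621) (nat_lit 524) (nat_lit 7660) (.f (nat_lit 652) (nat_lit 620) (nat_lit 5644) (.f (nat_lit 653) (nat_lit 684) (nat_lit 5676) (.f (nat_lit 558) (nat_lit 526) (nat_lit 6669) (.d (nat_lit 590) (nat_lit 461) (nat_lit 4557) (nat_lit 685) (nat_lit 6701))))))) (.f (nat_lit 590) (nat_lit 622) (nat_lit 4589) (.f (nat_lit 461) (nat_lit 558) (nat_lit 4557) (.f (nat_lit 430) (nat_lit 462) (nat_lit 6573) (.f (nat_lit 429) (nat_lit 398) (nat_lit 6541) (.f (nat_lit 524) (nat_lit 556) (nat_lit 5548) (.d (nat_lit 492) (nat_lit 397) (nat_lit 5516) (nat_lit 621) (nat_lit 7660))))))))))))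
noncomputable def s125605 : Cert := .r (nat_lit 8104522595942434676075933378631165222826852869668757633250614032914427860025279334193592743532741502235381236715378702539654578875381425412414085665286372633671418568466153603072) (.p (nat_lit 525) (.a s125220 (.a s125129 (.a s125133 (.a s125164 (.a s125262 (.a s125188 (.a s125211 (.a s125571 (.a (.p (nat_lit 589) (.a (.f (nat_lit 492) (nat_lit 460) (nat_lit 7628) (.f (nat_lit 621) (nat_lit 524) (nat_lit 7660) (.d (nat_lit 620) (nat_lit 588) (nat_lit 5612) (nat_lit 652) (nat_lit 5644)))) (.a (.f (nat_lit 590) (nat_lit 622) (nat_lit 4589) (.f (nat_lit 588) (nat_lit 620) (nat_lit 5612) (.f (nat_lit 555) (nat_lit 556) (nat_lit 3627) (.f (nat_lit 587) (nat_lit 554) (nat_lit 3626) (.f (nat_lit 586) (nat_lit 558) (nat_lit 2602) (.d (nat_lit 618) (nat_lit 617) (nat_lit 1609) (nat_lit 619) (nat_lit 1610))))))) (.f (nat_lit 492) (nat_lit 460) (nat_lit 7628) (.f (nat_lit 621) (nat_lit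 524) (nat_lit 7660) (.d (nat_lit 622) (nat_lit 590) (nat_lit 4589) (nat_lit 654) (nat_lit 4621))))))) s125596))))))))))
noncomputable def s125660 : Cert := .r (nat_lit 12156783893677779362123206683017064784362444893343012418402623143940455996170697445912056658520147551344949485359227129475587343597463237236522361870475790296817103923350440247296) (.p (nat_lit 525) (.a (.f (nat_lit 589) (nat_lit 622) (nat_lit 4589) (.f (nat_lit 588) (nat_lit 620) (nat_lit 5612) (.d (nat_lit 461) (nat_lit 556) (nat_lit 5580) (nat_lit 558) (nat_lit 4557)))) (.a (.f (nat_lit 589) (nat_lit 622) (nat_lit 4589) (.f (nat_lit 588) (nat_lit 620) (nat_lit 5612) (.d (nat_lit 556) (nat_lit 461) (nat_lit 5580) (nat_lit 555) (nat_lit 3627)))) (.a (.f (nat_lit 461) (nat_lit 558) (nat_lit 4557) (.f (nat_lit 556) (nat_lit 588) (nat_lit 5580) (.f (nat_lit 429) (nat_lit 524) (nat_lit 5548) (.d (nat_lit 430) (nat_lit 398) (nat_lit 6541) (nat_lit 462) (nat_lit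 6573))))) (.a (.f (nat_lit 589) (nat_lit 622) (nat_lit 4589) (.f (nat_lit 461) (nat_lit 558) (nat_lit 4557) (.d (nat_lit 460) (nat_lit 428) (nat_lit 7596) (nat_lit 492) (nat_lit 7628)))) (.f (nat_lit 589) (nat_lit 622) (nat_lit 4589) (.f (nat_lit 588) (nat_lit 620) (nat_lit 5612) (.f (nat_lit 556) (nat_lit 555) (nat_lit 3627) (.f (nat_lit 492) (nat_lit 460) (nat_lit 7628) (.f (nat_lit 524) (nat_lit 621) (nat_lit 4588) (.f (nat_lit 587) (nat_lit 619) (nat_lit 5611) (.d (nat_lit 586) (nat_lit 558) (nat_lit 2602) (nat_lit 585) (nat_lit 2601)))))))))))))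
noncomputable def s125669 : Cert := .r (nat_lit 12156783893677779362123206683017064784362444893343012418402623143940455996170697445912056658520147551344949485359227129475587343597463237236522361870475790296817103923350440247296) (.p (nat_lit 589) (.a (.f (nat_lit 525) (nat_lit 622) (nat_lit 4589) (.f (nat_lit 588) (nat_lit 620) (nat_lit 5612) (.d (nat_lit 556) (nat_lit 461) (nat_lit 5580) (nat_lit 555) (nat_lit 3627)))) (.a (.f (nat_lit 556) (nat_lit 592) (nat_lit 3628) (.d (nat_lit 555) (nat_lit 554) (nat_lit 554) (nat_lit 588) (nat_lit 3627))) (.a (.f (nat_lit 525) (nat_lit 622) (nat_lit 4589) (.f (nat_lit 492) (nat_lit 460) (nat_lit 7628) (.f (nat_lit 620) (nat_lit 588) (nat_lit 5612) (.d (nat_lit 621) (nat_lit 524) (nat_lit 7660) (nat_lit 652) (nat_lit 5644))))) (.f (nat_lit 592) (nat_lit 556) (nat_lit 3628) (.f (nat_lit 622) (nat_lit 525) (nat_lit 4589) (.d (nat_lit 621) (nat_lit 593) (nat_lit 1613) (nat_lit 620)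 (nat_lit 1612))))))))
noncomputable def s125672 : Cert := .r (nat_lit 12156783893677779362123206683017064784362444893343012418402623143940455996170697445912056658520147551344949485359227129475587343597463237236522361870475790296817103923350440247296) (.p (nat_lit 592) (.a (.f (nat_lit 558) (nat_lit 593) (nat_lit 3629) (.d (nat_lit 556) (nat_lit 555) (nat_lit 555) (nat_lit 559) (nat_lit 556))) (.a (.f (nat_lit 558) (nat_lit 593) (nat_lit 3629) (.d (nat_lit 556) (nat_lit 555) (nat_lit 555) (nat_lit 589) (nat_lit 3628))) (.a (.f (nat_lit 589) (nat_lit 556) (nat_lit 3628) (.f (nat_lit 625) (nat_lit 624) (nat_lit 589) (.d (nat_lit 593) (nat_lit 560) (nat_lit 4592) (nat_lit 626) (nat_lit 590)))) (.a (.f (nat_lit 556) (nat_lit 589) (nat_lit 3628) (.d (nat_lit 558) (nat_lit 555) (nat_lit 555) (nat_lit 559) (nat_lit 556))) (.f (nat_lit 593) (nat_lit 558) (nat_lit 3629) (.d (nat_lit 625) (nat_lit 560) (nat_lit 4592) (nat_lit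 626) (nat_lit 590))))))))
noncomputable def s125677 : Cert := .r (nat_lit 12156783893677779362123206683017064784362444893343012418402623143940455996170697445912056658520147551344949485359227129475587343597463237236522361870475790296817103923350440247296) (.p (nat_lit 525) (.a (.f (nat_lit 558) (nat_lit 461) (nat_lit 4557) (.d (nat_lit 622) (nat_lit 526) (nat_lit 7661) (nat_lit 589) (nat_lit 4589))) (.a (.f (nat_lit 589) (nat_lit 622) (nat_lit 4589) (.f (nat_lit 461) (nat_lit 558) (nat_lit 4557) (.d (nat_lit 460) (nat_lit 428) (nat_lit 7596) (nat_lit 492) (nat_lit 7628)))) (.a (.f (nat_lit 589) (nat_lit 622) (nat_lit 4589) (.f (nat_lit 620) (nat_lit 588) (nat_lit 5612) (.d (nat_lit 621) (nat_lit 592) (nat_lit 1612) (nat_lit 652) (nat_lit 5644)))) (.a (.f (nat_lit 558) (nat_lit 461) (nat_lit 4557) (.d (nat_lit 622) (nat_lit 526) (nat_lit 7661) (nat_lit 654) (nat_lit 7693))) (.f (nat_lit 461) (nat_lit 558) (nat_lit 4557)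 (.f (nat_lit 460) (nat_lit 428) (nat_lit 7596) (.f (nat_lit 589) (nat_lit 492) (nat_lit 7628) (.f (nat_lit 620) (nat_lit 588) (nat_lit 5612) (.d (nat_lit 621) (nat_lit 592) (nat_lit 1612) (nat_lit 652) (nat_lit 5644)))))))))))
noncomputable def s125747 : Cert := .r (nat_lit 878694100829171777132135210955632910394540757315345800203740090457646307047163563369037393484998301788943568818746478685456934175837358025950960853241405898752) (.p (nat_lit 591) (.a (.p (nat_lit 560) (.a (.f (nat_lit 592) (nat_lit 623) (nat_lit 5615) (.f (nat_lit 625) (nat_lit 593) (nat_lit 4592) (.d (nat_lit 624) (nat_lit 527) (nat_lit 7663) (nat_lit 657) (nat_lit 4624)))) (.a (.f (nat_lit 559) (nat_lit 464) (nat_lit 5583) (.d (nat_lit 623) (nat_lit 592) (nat_lit 5615) (nat_lit 655) (nat_lit 6671))) (.a (.f (nat_lit 559) (nat_lit 464) (nat_lit 5583) (.d (nat_lit 623) (nat_lit 527) (nat_lit 6639) (nat_lit 655) (nat_lit 6671))) (.f (nat_lit 464)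 (nat_lit 559) (nat_lit 5583) (.f (nat_lit 433) (nat_lit 465) (nat_lit 6576) (.f (nat_lit 432) (nat_lit 401) (nat_lit 6544) (.f (nat_lit 400) (nat_lit 527) (nat_lit 5519) (.d (nat_lit 399) (nat_lit 367) (nat_lit 7535) (nat_lit 431) (nat_lit 7567)))))))))) (.a (.p (nat_lit 592) (.a (.f (nat_lit 560) (nat_lit 623) (nat_lit 5615) (.f (nat_lit 593) (nat_lit 625) (nat_lit 4592) (.f (nat_lit 559) (nat_lit 464) (nat_lit 5583) (.d (nat_lit 594) (nat_lit 558) (nat_lit 3630) (nat_lit 595) (nat_lit 3631))))) (.a (.p (nat_lit 590) (.a s124874 (.a s124880 (.a (.p (nat_lit 593) (.a (.f (nat_lit 625) (nat_lit 626) (nat_lit 590) (.f (nat_lit 589) (nat_lit 624) (nat_lit 589) (.d (nat_lit 621) (nat_lit 620) (nat_lit 1612) (nat_lit 622) (nat_lit 1613)))) (.a (.f (nat_lit 622) (nat_lit 621) (nat_lit 1613) (.f (nat_lit 594) (nat_lit 623) (nat_lit 1614) (.d (nat_lit 626) (nat_lit 625) (nat_lit 590) (nat_lit 627) (nat_lit 591)))) (.a (.f (nat_lit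 621) (nat_lit 622) (nat_lit 1613) (.f (nat_lit 589) (nat_lit 620) (nat_lit 1612) (.f (nat_lit 624) (nat_lit 625) (nat_lit 589) (.f (nat_lit 556) (nat_lit 557) (nat_lit 3628) (.d (nat_lit 588) (nat_lit 555) (nat_lit 3627) (nat_lit 623) (nat_lit 588)))))) (.a (.f (nat_lit 622) (nat_lit 621) (nat_lit 1613) (.f (nat_lit 558) (nat_lit 557) (nat_lit 3629) (.f (nat_lit 526) (nat_lit 525) (nat_lit 7661) (.f (nat_lit 655) (nat_lit 623) (nat_lit 4622) (.f (nat_lit 654) (nat_lit 687) (nat_lit 4654) (.f (nat_lit 685) (nat_lit 653) (nat_lit 5677) (.d (nat_lit 686) (nat_lit 559) (nat_lit 6702) (nat_lit 717) (nat_lit 5709)))))))) (.a (.f (nat_lit 625) (nat_lit 626) (nat_lit 590) (.f (nat_lit 589) (nat_lit 624) (nat_lit 589) (.f (nat_lit 620) (nat_lit 621) (nat_lit 1612) (.f (nat_lit 588) (nat_lit 619) (nat_lit 1611) (.d (nat_lit 556) (nat_lit 555) (nat_lit 3627) (nat_lit 557) (nat_lit 3628)))))) (.f (nat_lit 625) (nat_lit 626) (nat_lit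 590) (.f (nat_lit 589) (nat_lit 624) (nat_lit 589) (.f (nat_lit 556) (nat_lit 557) (nat_lit 3628) (.f (nat_lit 588) (nat_lit 555) (nat_lit 3627) (.f (nat_lit 620) (nat_lit 619) (nat_lit 1611) (.f (nat_lit 524) (nat_lit 525) (nat_lit 6636) (.f (nat_lit 492) (nat_lit 461) (nat_lit 6604) (.d (nat_lit 491) (nat_lit 459) (nat_lit 7627) (nat_lit 523) (nat_lit 7659))))))))))))))) (.a (.p (nat_lit 593) (.a (.f (nat_lit 622) (nat_lit 621) (nat_lit 1613) (.f (nat_lit 594) (nat_lit 623) (nat_lit 1614) (.d (nat_lit 626) (nat_lit 625) (nat_lit 590) (nat_lit 627) (nat_lit 591)))) (.a (.f (nat_lit 622) (nat_lit 621) (nat_lit 1613) (.f (nat_lit 558) (nat_lit 557) (nat_lit 3629) (.f (nat_lit 526) (nat_lit 525) (nat_lit 7661) (.f (nat_lit 655) (nat_lit 623) (nat_lit 4622) (.f (nat_lit 654) (nat_lit 687) (nat_lit 4654) (.f (nat_lit 685) (nat_lit 653) (nat_lit 5677) (.d (nat_lit 686) (nat_lit 559) (nat_lit 6702) (nat_lit 717) (nat_lit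 5709)))))))) (.f (nat_lit 558) (nat_lit 557) (nat_lit 3629) (.f (nat_lit 594) (nat_lit 559) (nat_lit 3630) (.d (nat_lit 626) (nat_lit 625) (nat_lit 590) (nat_lit 627) (nat_lit 591))))))) (.a s124911 (.a s124930 (.a (.p (nat_lit 593) (.a (.f (nat_lit 625) (nat_lit 626) (nat_lit 590) (.f (nat_lit 589) (nat_lit 624) (nat_lit 589) (.d (nat_lit 621) (nat_lit 620) (nat_lit 1612) (nat_lit 622) (nat_lit 1613)))) (.a (.f (nat_lit 558) (nat_lit 557) (nat_lit 3629) (.f (nat_lit 594) (nat_lit 559) (nat_lit 3630) (.d (nat_lit 626) (nat_lit 625) (nat_lit 590) (nat_lit 627) (nat_lit 591)))) (.f (nat_lit 557) (nat_lit 558) (nat_lit 3629) (.f (nat_lit 589) (nat_lit 556) (nat_lit 3628) (.d (nat_lit 621) (nat_lit 620) (nat_lit 1612) (nat_lit 622) (nat_lit 1613))))))) (.a s124940 (.a (.p (nat_lit 593) (.a (.f (nat_lit 625) (nat_lit 626) (nat_lit 590) (.f (nat_lit 589) (nat_lit 624) (nat_lit 589) (.f (nat_lit 620) (nat_lit 621) (nat_lit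 1612) (.f (nat_lit 588) (nat_lit 619) (nat_lit 1611) (.d (nat_lit 556) (nat_lit 555) (nat_lit 3627) (nat_lit 557) (nat_lit 3628)))))) (.a (.f (nat_lit 558) (nat_lit 557) (nat_lit 3629) (.f (nat_lit 594) (nat_lit 559) (nat_lit 3630) (.d (nat_lit 626) (nat_lit 625) (nat_lit 590) (nat_lit 627) (nat_lit 591)))) (.a (.f (nat_lit 625) (nat_lit 626) (nat_lit 590) (.f (nat_lit 589) (nat_lit 624) (nat_lit 589) (.f (nat_lit 620) (nat_lit 621) (nat_lit 1612) (.f (nat_lit 588) (nat_lit 619) (nat_lit 1611) (.f (nat_lit 556) (nat_lit 555) (nat_lit 3627) (.f (nat_lit 524) (nat_lit 525) (nat_lit 6636) (.f (nat_lit 492) (nat_lit 461) (nat_lit 6604) (.d (nat_lit 491) (nat_lit 459) (nat_lit 7627) (nat_lit 523) (nat_lit 7659))))))))) (.a (.f (nat_lit 558) (nat_lit 557) (nat_lit 3629) (.f (nat_lit 594) (nat_lit 559) (nat_lit 3630) (.f (nat_lit 563) (nat_lit 562) (nat_lit 2607) (.f (nat_lit 595) (nat_lit 564) (nat_lit 2608) (.f (nat_lit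 624) (nat_lit 623) (nat_lit 1615) (.d (nat_lit 625) (nat_lit 589) (nat_lit 589) (nat_lit 596) (nat_lit 1616))))))) (.f (nat_lit 558) (nat_lit 557) (nat_lit 3629) (.f (nat_lit 594) (nat_lit 559) (nat_lit 3630) (.f (nat_lit 563) (nat_lit 562) (nat_lit 2607) (.f (nat_lit 595) (nat_lit 564) (nat_lit 2608) (.d (nat_lit 627) (nat_lit 626) (nat_lit 591) (nat_lit 628) (nat_lit 592))))))))))) (.p (nat_lit 593) (.a (.f (nat_lit 625) (nat_lit 626) (nat_lit 590) (.f (nat_lit 589) (nat_lit 624) (nat_lit 589) (.f (nat_lit 556) (nat_lit 557) (nat_lit 3628) (.f (nat_lit 588) (nat_lit 555) (nat_lit 3627) (.f (nat_lit 620) (nat_lit 619) (nat_lit 1611) (.f (nat_lit 524) (nat_lit 525) (nat_lit 6636) (.f (nat_lit 492) (nat_lit 461) (nat_lit 6604) (.d (nat_lit 491) (nat_lit 459) (nat_lit 7627) (nat_lit 523) (nat_lit 7659))))))))) (.a (.f (nat_lit 626) (nat_lit 625) (nat_lit 590) (.f (nat_lit 594) (nat_lit 627) (nat_lit 591) (.f (nat_lit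 623) (nat_lit 622) (nat_lit 1614) (.f (nat_lit 563) (nat_lit 562) (nat_lit 2607) (.d (nat_lit 595) (nat_lit 564) (nat_lit 2608) (nat_lit 624) (nat_lit 1615)))))) (.a (.f (nat_lit 558) (nat_lit 557) (nat_lit 3629) (.f (nat_lit 594) (nat_lit 559) (nat_lit 3630) (.d (nat_lit 626) (nat_lit 625) (nat_lit 590) (nat_lit 627) (nat_lit 591)))) (.a (.f (nat_lit 558) (nat_lit 557) (nat_lit 3629) (.f (nat_lit 594) (nat_lit 559) (nat_lit 3630) (.f (nat_lit 563) (nat_lit 562) (nat_lit 2607) (.f (nat_lit 595) (nat_lit 564) (nat_lit 2608) (.f (nat_lit 624) (nat_lit 623) (nat_lit 1615) (.d (nat_lit 625) (nat_lit 589) (nat_lit 589) (nat_lit 596) (nat_lit 1616))))))) (.f (nat_lit 558) (nat_lit 557) (nat_lit 3629) (.f (nat_lit 594) (nat_lit 559) (nat_lit 3630) (.f (nat_lit 563) (nat_lit 562) (nat_lit 2607) (.f (nat_lit 595) (nat_lit 564) (nat_lit 2608) (.d (nat_lit 627) (nat_lit 626) (nat_lit 591) (nat_lit 628) (nat_lit 592)))))))))))))))))))))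 (.a s124966 (.a (.p (nat_lit 557) (.a (.f (nat_lit 560) (nat_lit 623) (nat_lit 5615) (.f (nat_lit 559) (nat_lit 464) (nat_lit 5583) (.d (nat_lit 558) (nat_lit 529) (nat_lit 2573) (nat_lit 556) (nat_lit 556)))) (.a (.f (nat_lit 560) (nat_lit 623) (nat_lit 5615) (.f (nat_lit 559) (nat_lit 464) (nat_lit 5583) (.f (nat_lit 558) (nat_lit 556) (nat_lit 556) (.f (nat_lit 525) (nat_lit 524) (nat_lit 3596) (.f (nat_lit 589) (nat_lit 588) (nat_lit 1580) (.d (nat_lit 590) (nat_lit 461) (nat_lit 4557) (nat_lit 622) (nat_lit 4589))))))) (.a (.p (nat_lit 590) (.a (.f (nat_lit 589) (nat_lit 556) (nat_lit 3628) (.f (nat_lit 525) (nat_lit 622) (nat_lit 4589) (.d (nat_lit 620) (nat_lit 588) (nat_lit 5612) (nat_lit 621) (nat_lit 1612)))) (.a (.f (nat_lit 589) (nat_lit 556) (nat_lit 3628) (.f (nat_lit 620) (nat_lit 621) (nat_lit 1612) (.f (nat_lit 588) (nat_lit 619) (nat_lit 1611) (.d (nat_lit 624) (nat_lit 623) (nat_lit 588) (nat_lit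 625) (nat_lit 589))))) (.a (.p (nat_lit 558) (.a (.f (nat_lit 525) (nat_lit 461) (nat_lit 4557) (.d (nat_lit 622) (nat_lit 526) (nat_lit 7661) (nat_lit 654) (nat_lit 7693))) (.d (nat_lit 556) (nat_lit 555) (nat_lit 555) (nat_lit 559) (nat_lit 556)))) (.p (nat_lit 525) (.a (.f (nat_lit 589) (nat_lit 622) (nat_lit 4589) (.d (nat_lit 620) (nat_lit 588) (nat_lit 5612) (nat_lit 621) (nat_lit 1612))) (.f (nat_lit 461) (nat_lit 558) (nat_lit 4557) (.f (nat_lit 428) (nat_lit 460) (nat_lit 7596) (.f (nat_lit 429) (nat_lit 396) (nat_lit 7564) (.d (nat_lit 430) (nat_lit 398) (nat_lit 6541) (nat_lit 462) (nat_lit 6573))))))))))) (.a (.p (nat_lit 589) (.a (.f (nat_lit 590) (nat_lit 556) (nat_lit 3628) (.f (nat_lit 525) (nat_lit 622) (nat_lit 4589) (.d (nat_lit 620) (nat_lit 588) (nat_lit 5612) (nat_lit 621) (nat_lit 1612)))) (.a (.f (nat_lit 590) (nat_lit 556) (nat_lit 3628) (.f (nat_lit 620) (nat_lit 621) (nat_lit 1612) (.f (nat_lit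 588) (nat_lit 619) (nat_lit 1611) (.d (nat_lit 624) (nat_lit 623) (nat_lit 588) (nat_lit 625) (nat_lit 589))))) (.a s125014 (.a (.p (nat_lit 590) (.a (.f (nat_lit 525) (nat_lit 622) (nat_lit 4589) (.d (nat_lit 620) (nat_lit 588) (nat_lit 5612) (nat_lit 621) (nat_lit 1612))) (.a (.f (nat_lit 623) (nat_lit 560) (nat_lit 5615) (.d (nat_lit 624) (nat_lit 588) (nat_lit 588) (nat_lit 625) (nat_lit 589))) (.f (nat_lit 525) (nat_lit 622) (nat_lit 4589) (.f (nat_lit 621) (nat_lit 620) (nat_lit 1612) (.d (nat_lit 492) (nat_lit 460) (nat_lit 7628) (nat_lit 524) (nat_lit 7660))))))) (.a (.f (nat_lit 590) (nat_lit 556) (nat_lit 3628) (.f (nat_lit 525) (nat_lit 622) (nat_lit 4589) (.f (nat_lit 621) (nat_lit 620) (nat_lit 1612) (.d (nat_lit 492) (nat_lit 460) (nat_lit 7628) (nat_lit 524) (nat_lit 7660))))) (.a (.f (nat_lit 590) (nat_lit 556) (nat_lit 3628) (.f (nat_lit 525) (nat_lit 622) (nat_lit 4589) (.f (nat_lit 588) (nat_lit 620)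 (nat_lit 5612) (.d (nat_lit 623) (nat_lit 560) (nat_lit 5615) (nat_lit 624) (nat_lit 588))))) (.f (nat_lit 590) (nat_lit 556) (nat_lit 3628) (.f (nat_lit 525) (nat_lit 622) (nat_lit 4589) (.f (nat_lit 461) (nat_lit 558) (nat_lit 4557) (.d (nat_lit 460) (nat_lit 428) (nat_lit 7596) (nat_lit 492) (nat_lit 7628)))))))))))) (.a (.p (nat_lit 589) (.a (.f (nat_lit 590) (nat_lit 556) (nat_lit 3628) (.f (nat_lit 525) (nat_lit 622) (nat_lit 4589) (.d (nat_lit 620) (nat_lit 588) (nat_lit 5612) (nat_lit 621) (nat_lit 1612)))) (.a (.f (nat_lit 590) (nat_lit 556) (nat_lit 3628) (.f (nat_lit 620) (nat_lit 621) (nat_lit 1612) (.f (nat_lit 588) (nat_lit 619) (nat_lit 1611) (.d (nat_lit 624) (nat_lit 623) (nat_lit 588) (nat_lit 625) (nat_lit 589))))) (.a s125014 (.a (.p (nat_lit 590) (.a (.f (nat_lit 525) (nat_lit 622) (nat_lit 4589) (.d (nat_lit 620) (nat_lit 588) (nat_lit 5612) (nat_lit 621) (nat_lit 1612))) (.a (.f (nat_lit 623)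 (nat_lit 560) (nat_lit 5615) (.d (nat_lit 624) (nat_lit 588) (nat_lit 588) (nat_lit 625) (nat_lit 589))) (.f (nat_lit 525) (nat_lit 622) (nat_lit 4589) (.f (nat_lit 621) (nat_lit 620) (nat_lit 1612) (.d (nat_lit 492) (nat_lit 460) (nat_lit 7628) (nat_lit 524) (nat_lit 7660))))))) (.a (.f (nat_lit 590) (nat_lit 556) (nat_lit 3628) (.f (nat_lit 525) (nat_lit 622) (nat_lit 4589) (.f (nat_lit 621) (nat_lit 620) (nat_lit 1612) (.d (nat_lit 492) (nat_lit 460) (nat_lit 7628) (nat_lit 524) (nat_lit 7660))))) (.a (.f (nat_lit 590) (nat_lit 556) (nat_lit 3628) (.f (nat_lit 525) (nat_lit 622) (nat_lit 4589) (.f (nat_lit 588) (nat_lit 620) (nat_lit 5612) (.d (nat_lit 623) (nat_lit 560) (nat_lit 5615) (nat_lit 624) (nat_lit 588))))) (.f (nat_lit 590) (nat_lit 556) (nat_lit 3628) (.f (nat_lit 560) (nat_lit 623) (nat_lit 5615) (.d (nat_lit 559) (nat_lit 464) (nat_lit 5583) (nat_lit 588) (nat_lit 2604))))))))))) (.a (.p (nat_lit 590)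 (.a (.f (nat_lit 589) (nat_lit 556) (nat_lit 3628) (.f (nat_lit 525) (nat_lit 622) (nat_lit 4589) (.d (nat_lit 620) (nat_lit 588) (nat_lit 5612) (nat_lit 621) (nat_lit 1612)))) (.a (.f (nat_lit 556) (nat_lit 589) (nat_lit 3628) (.d (nat_lit 558) (nat_lit 555) (nat_lit 555) (nat_lit 559) (nat_lit 556))) (.a (.p (nat_lit 558) (.a (.f (nat_lit 525) (nat_lit 461) (nat_lit 4557) (.d (nat_lit 622) (nat_lit 526) (nat_lit 7661) (nat_lit 654) (nat_lit 7693))) (.d (nat_lit 556) (nat_lit 555) (nat_lit 555) (nat_lit 559) (nat_lit 556)))) (.p (nat_lit 525) (.a (.f (nat_lit 589) (nat_lit 622) (nat_lit 4589) (.d (nat_lit 620) (nat_lit 588) (nat_lit 5612) (nat_lit 621) (nat_lit 1612))) (.f (nat_lit 461) (nat_lit 558) (nat_lit 4557) (.f (nat_lit 428) (nat_lit 460) (nat_lit 7596) (.f (nat_lit 429) (nat_lit 396) (nat_lit 7564) (.d (nat_lit 430) (nat_lit 398) (nat_lit 6541) (nat_lit 462) (nat_lit 6573))))))))))) (.f (nat_lit 560) (nat_lit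 623) (nat_lit 5615) (.f (nat_lit 559) (nat_lit 464) (nat_lit 5583) (.f (nat_lit 558) (nat_lit 529) (nat_lit 2573) (.f (nat_lit 525) (nat_lit 524) (nat_lit 3596) (.f (nat_lit 589) (nat_lit 588) (nat_lit 1580) (.d (nat_lit 590) (nat_lit 461) (nat_lit 4557) (nat_lit 622) (nat_lit 4589)))))))))))))) (.a (.p (nat_lit 593) (.a (.f (nat_lit 625) (nat_lit 560) (nat_lit 4592) (.f (nat_lit 590) (nat_lit 626) (nat_lit 590) (.f (nat_lit 589) (nat_lit 624) (nat_lit 589) (.d (nat_lit 621) (nat_lit 620) (nat_lit 1612) (nat_lit 622) (nat_lit 1613))))) (.a (.p (nat_lit 590) (.a (.f (nat_lit 625) (nat_lit 626) (nat_lit 590) (.f (nat_lit 589) (nat_lit 624) (nat_lit 589) (.d (nat_lit 621) (nat_lit 620) (nat_lit 1612) (nat_lit 622) (nat_lit 1613)))) (.a (.f (nat_lit 558) (nat_lit 557) (nat_lit 3629) (.f (nat_lit 594) (nat_lit 559) (nat_lit 3630) (.d (nat_lit 626) (nat_lit 625) (nat_lit 590) (nat_lit 627) (nat_lit 591)))) (.f (nat_lit 557)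 (nat_lit 558) (nat_lit 3629) (.f (nat_lit 589) (nat_lit 556) (nat_lit 3628) (.d (nat_lit 621) (nat_lit 620) (nat_lit 1612) (nat_lit 622) (nat_lit 1613))))))) (.a (.f (nat_lit 560) (nat_lit 625) (nat_lit 4592) (.f (nat_lit 559) (nat_lit 464) (nat_lit 5583) (.d (nat_lit 594) (nat_lit 558) (nat_lit 3630) (nat_lit 595) (nat_lit 3631)))) (.p (nat_lit 590) (.a (.f (nat_lit 557) (nat_lit 558) (nat_lit 3629) (.f (nat_lit 589) (nat_lit 556) (nat_lit 3628) (.d (nat_lit 621) (nat_lit 620) (nat_lit 1612) (nat_lit 622) (nat_lit 1613)))) (.a (.p (nat_lit 589) (.a (.d (nat_lit 621) (nat_lit 620) (nat_lit 1612) (nat_lit 622) (nat_lit 1613)) (.a (.f (nat_lit 620) (nat_lit 621) (nat_lit 1612) (.f (nat_lit 588) (nat_lit 619) (nat_lit 1611) (.d (nat_lit 556) (nat_lit 555) (nat_lit 3627) (nat_lit 557) (nat_lit 3628)))) (.a (.f (nat_lit 556) (nat_lit 557) (nat_lit 3628) (.f (nat_lit 588) (nat_lit 555) (nat_lit 3627) (.f (nat_lit 620) (nat_lit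 619) (nat_lit 1611) (.f (nat_lit 524) (nat_lit 525) (nat_lit 6636) (.f (nat_lit 492) (nat_lit 461) (nat_lit 6604) (.d (nat_lit 491) (nat_lit 459) (nat_lit 7627) (nat_lit 523) (nat_lit 7659))))))) (.f (nat_lit 557) (nat_lit 556) (nat_lit 3628) (.d (nat_lit 622) (nat_lit 525) (nat_lit 4589) (nat_lit 621) (nat_lit 1613))))))) (.a (.p (nat_lit 594) (.a (.f (nat_lit 563) (nat_lit 562) (nat_lit 2607) (.f (nat_lit 595) (nat_lit 564) (nat_lit 2608) (.d (nat_lit 627) (nat_lit 626) (nat_lit 591) (nat_lit 628) (nat_lit 592)))) (.a (.f (nat_lit 559) (nat_lit 558) (nat_lit 3630) (.d (nat_lit 560) (nat_lit 464) (nat_lit 5583) (nat_lit 595) (nat_lit 3631))) (.f (nat_lit 559) (nat_lit 558) (nat_lit 3630) (.f (nat_lit 560) (nat_lit 464) (nat_lit 5583) (.f (nat_lit 589) (nat_lit 588) (nat_lit 2604) (.d (nat_lit 621) (nat_lit 620) (nat_lit 1612) (nat_lit 622) (nat_lit 1613)))))))) (.f (nat_lit 558) (nat_lit 557) (nat_lit 3629) (.f (nat_lit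 594) (nat_lit 559) (nat_lit 3630) (.f (nat_lit 563) (nat_lit 562) (nat_lit 2607) (.f (nat_lit 595) (nat_lit 564) (nat_lit 2608) (.d (nat_lit 627) (nat_lit 626) (nat_lit 591) (nat_lit 628) (nat_lit 592)))))))))))))) (.p (nat_lit 590) (.a s124940 (.a s125074 (.a (.f (nat_lit 560) (nat_lit 623) (nat_lit 5615) (.f (nat_lit 559) (nat_lit 464) (nat_lit 5583) (.f (nat_lit 589) (nat_lit 588) (nat_lit 2604) (.f (nat_lit 557) (nat_lit 556) (nat_lit 3628) (.f (nat_lit 622) (nat_lit 525) (nat_lit 4589) (.d (nat_lit 621) (nat_lit 593) (nat_lit 1613) (nat_lit 620) (nat_lit 1612))))))) (.a (.f (nat_lit 560) (nat_lit 623) (nat_lit 5615) (.f (nat_lit 559) (nat_lit 464) (nat_lit 5583) (.f (nat_lit 589) (nat_lit 588) (nat_lit 2604) (.f (nat_lit 621) (nat_lit 620) (nat_lit 1612) (.f (nat_lit 593) (nat_lit 622) (nat_lit 1613) (.d (nat_lit 594) (nat_lit 558) (nat_lit 3630) (nat_lit 595) (nat_lit 3631))))))) (.a (.f (nat_lit 560) (nat_lit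 623) (nat_lit 5615) (.f (nat_lit 559) (nat_lit 464) (nat_lit 5583) (.f (nat_lit 589) (nat_lit 588) (nat_lit 2604) (.f (nat_lit 557) (nat_lit 556) (nat_lit 3628) (.f (nat_lit 621) (nat_lit 620) (nat_lit 1612) (.f (nat_lit 558) (nat_lit 529) (nat_lit 2573) (.d (nat_lit 653) (nat_lit 526) (nat_lit 6669) (nat_lit 685) (nat_lit 6701)))))))) (.a (.p (nat_lit 593) (.a (.f (nat_lit 622) (nat_lit 621) (nat_lit 1613) (.f (nat_lit 594) (nat_lit 623) (nat_lit 1614) (.f (nat_lit 563) (nat_lit 562) (nat_lit 2607) (.f (nat_lit 595) (nat_lit 564) (nat_lit 2608) (.d (nat_lit 627) (nat_lit 626) (nat_lit 591) (nat_lit 628) (nat_lit 592)))))) (.a (.f (nat_lit 622) (nat_lit 621) (nat_lit 1613) (.f (nat_lit 558) (nat_lit 557) (nat_lit 3629) (.f (nat_lit 526) (nat_lit 525) (nat_lit 7661) (.f (nat_lit 655) (nat_lit 623) (nat_lit 4622) (.f (nat_lit 654) (nat_lit 687) (nat_lit 4654) (.f (nat_lit 685) (nat_lit 653) (nat_lit 5677) (.d (nat_lit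 686) (nat_lit 559) (nat_lit 6702) (nat_lit 717) (nat_lit 5709)))))))) (.f (nat_lit 558) (nat_lit 557) (nat_lit 3629) (.f (nat_lit 594) (nat_lit 559) (nat_lit 3630) (.f (nat_lit 563) (nat_lit 562) (nat_lit 2607) (.f (nat_lit 595) (nat_lit 564) (nat_lit 2608) (.d (nat_lit 627) (nat_lit 626) (nat_lit 591) (nat_lit 628) (nat_lit 592))))))))) (.a (.p (nat_lit 557) (.a (.f (nat_lit 589) (nat_lit 556) (nat_lit 3628) (.f (nat_lit 525) (nat_lit 622) (nat_lit 4589) (.d (nat_lit 620) (nat_lit 588) (nat_lit 5612) (nat_lit 621) (nat_lit 1612)))) (.a (.f (nat_lit 558) (nat_lit 593) (nat_lit 3629) (.d (nat_lit 556) (nat_lit 555) (nat_lit 555) (nat_lit 559) (nat_lit 556))) (.f (nat_lit 558) (nat_lit 593) (nat_lit 3629) (.f (nat_lit 525) (nat_lit 461) (nat_lit 4557) (.d (nat_lit 622) (nat_lit 526) (nat_lit 7661) (nat_lit 654) (nat_lit 7693))))))) (.f (nat_lit 560) (nat_lit 623) (nat_lit 5615) (.f (nat_lit 559) (nat_lit 464) (nat_lit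 5583) (.f (nat_lit 589) (nat_lit 588) (nat_lit 2604) (.f (nat_lit 557) (nat_lit 556) (nat_lit 3628) (.d (nat_lit 558) (nat_lit 529) (nat_lit 2573) (nat_lit 593) (nat_lit 557)))))))))))))))))))) (.a (.p (nat_lit 525) (.a (.p (nat_lit 527) (.a (.d (nat_lit 526) (nat_lit 492) (nat_lit 3564) (nat_lit 524) (nat_lit 2540)) (.d (nat_lit 559) (nat_lit 464) (nat_lit 6607) (nat_lit 623) (nat_lit 6639)))) (.a (.p (nat_lit 557) (.a s125129 (.a s125133 (.a (.p (nat_lit 589) (.a (.f (nat_lit 590) (nat_lit 622) (nat_lit 4589) (.f (nat_lit 556) (nat_lit 592) (nat_lit 3628) (.d (nat_lit 588) (nat_lit 555) (nat_lit 3627) (nat_lit 620) (nat_lit 5612)))) (.a (.f (nat_lit 492) (nat_lit 460) (nat_lit 7628) (.f (nat_lit 621) (nat_lit 524) (nat_lit 7660) (.d (nat_lit 620) (nat_lit 588) (nat_lit 5612) (nat_lit 652) (nat_lit 5644)))) (.f (nat_lit 492) (nat_lit 460) (nat_lit 7628) (.f (nat_lit 621) (nat_lit 524) (nat_lit 7660) (.d (nat_lit 622)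 (nat_lit 590) (nat_lit 4589) (nat_lit 654) (nat_lit 4621))))))) (.a s125164 (.a s125181 (.a s125188 (.a s125197 (.a s125210 s125211))))))))) (.a (.p (nat_lit 557) (.a s125220 (.a s125129 (.a s125133 (.a s125227 (.a s125244 (.a s125262 (.a s125211 (.a s125188 (.a s125197 (.a (.p (nat_lit 589) (.a (.f (nat_lit 590) (nat_lit 622) (nat_lit 4589) (.f (nat_lit 556) (nat_lit 592) (nat_lit 3628) (.d (nat_lit 588) (nat_lit 555) (nat_lit 3627) (nat_lit 620) (nat_lit 5612)))) (.a (.f (nat_lit 492) (nat_lit 460) (nat_lit 7628) (.f (nat_lit 621) (nat_lit 524) (nat_lit 7660) (.d (nat_lit 620) (nat_lit 588) (nat_lit 5612) (nat_lit 652) (nat_lit 5644)))) (.f (nat_lit 492) (nat_lit 460) (nat_lit 7628) (.f (nat_lit 621) (nat_lit 524) (nat_lit 7660) (.d (nat_lit 622) (nat_lit 590) (nat_lit 4589) (nat_lit 654) (nat_lit 4621))))))) s125210))))))))))) (.a (.p (nat_lit 557) (.a s125133 (.a (.p (nat_lit 589) (.a (.f (nat_lit 590) (nat_lit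 622) (nat_lit 4589) (.f (nat_lit 556) (nat_lit 592) (nat_lit 3628) (.d (nat_lit 588) (nat_lit 555) (nat_lit 3627) (nat_lit 620) (nat_lit 5612)))) (.a (.f (nat_lit 492) (nat_lit 460) (nat_lit 7628) (.f (nat_lit 621) (nat_lit 524) (nat_lit 7660) (.d (nat_lit 620) (nat_lit 588) (nat_lit 5612) (nat_lit 652) (nat_lit 5644)))) (.f (nat_lit 492) (nat_lit 460) (nat_lit 7628) (.f (nat_lit 621) (nat_lit 524) (nat_lit 7660) (.d (nat_lit 622) (nat_lit 590) (nat_lit 4589) (nat_lit 654) (nat_lit 4621))))))) (.a (.p (nat_lit 589) (.a (.f (nat_lit 492) (nat_lit 460) (nat_lit 7628) (.f (nat_lit 621) (nat_lit 524) (nat_lit 7660) (.d (nat_lit 620) (nat_lit 588) (nat_lit 5612) (nat_lit 652) (nat_lit 5644)))) (.a (.f (nat_lit 588) (nat_lit 620) (nat_lit 5612) (.f (nat_lit 461) (nat_lit 556) (nat_lit 5580) (.f (nat_lit 430) (nat_lit 462) (nat_lit 6573) (.f (nat_lit 429) (nat_lit 398) (nat_lit 6541) (.d (nat_lit 428) (nat_lit 396) (nat_lit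 7564) (nat_lit 460) (nat_lit 7596)))))) (.a (.f (nat_lit 492) (nat_lit 460) (nat_lit 7628) (.f (nat_lit 621) (nat_lit 524) (nat_lit 7660) (.f (nat_lit 652) (nat_lit 620) (nat_lit 5644) (.f (nat_lit 653) (nat_lit 684) (nat_lit 5676) (.d (nat_lit 654) (nat_lit 622) (nat_lit 4621) (nat_lit 686) (nat_lit 4653)))))) (.a (.f (nat_lit 620) (nat_lit 588) (nat_lit 5612) (.f (nat_lit 621) (nat_lit 652) (nat_lit 5644) (.f (nat_lit 622) (nat_lit 654) (nat_lit 4621) (.f (nat_lit 524) (nat_lit 492) (nat_lit 7660) (.f (nat_lit 556) (nat_lit 653) (nat_lit 7692) (.f (nat_lit 592) (nat_lit 623) (nat_lit 2636) (.f (nat_lit 559) (nat_lit 558) (nat_lit 556) (.d (nat_lit 527) (nat_lit 464) (nat_lit 6607) (nat_lit 624) (nat_lit 4591))))))))) (.f (nat_lit 460) (nat_lit 492) (nat_lit 7628) (.f (nat_lit 461) (nat_lit 428) (nat_lit 7596) (.f (nat_lit 430) (nat_lit 462) (nat_lit 6573) (.f (nat_lit 429) (nat_lit 398) (nat_lit 6541) (.d (nat_lit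 556) (nat_lit 524) (nat_lit 5548) (nat_lit 588) (nat_lit 5580))))))))))) (.a (.p (nat_lit 461) (.a (.f (nat_lit 556) (nat_lit 588) (nat_lit 5580) (.f (nat_lit 429) (nat_lit 524) (nat_lit 5548) (.d (nat_lit 430) (nat_lit 398) (nat_lit 6541) (nat_lit 462) (nat_lit 6573)))) (.a (.f (nat_lit 556) (nat_lit 588) (nat_lit 5580) (.f (nat_lit 558) (nat_lit 590) (nat_lit 4557) (.d (nat_lit 559) (nat_lit 527) (nat_lit 2572) (nat_lit 592) (nat_lit 556)))) (.f (nat_lit 428) (nat_lit 460) (nat_lit 7596) (.f (nat_lit 429) (nat_lit 396) (nat_lit 7564) (.d (nat_lit 430) (nat_lit 398) (nat_lit 6541) (nat_lit 462) (nat_lit 6573))))))) (.a (.p (nat_lit 590) (.a (.f (nat_lit 589) (nat_lit 622) (nat_lit 4589) (.f (nat_lit 588) (nat_lit 620) (nat_lit 5612) (.d (nat_lit 461) (nat_lit 556) (nat_lit 5580) (nat_lit 558) (nat_lit 4557)))) (.a (.f (nat_lit 589) (nat_lit 622) (nat_lit 4589) (.f (nat_lit 588) (nat_lit 620) (nat_lit 5612) (.d (nat_lit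 556) (nat_lit 461) (nat_lit 5580) (nat_lit 555) (nat_lit 3627)))) (.a (.f (nat_lit 558) (nat_lit 461) (nat_lit 4557) (.f (nat_lit 556) (nat_lit 555) (nat_lit 555) (.d (nat_lit 592) (nat_lit 559) (nat_lit 556) (nat_lit 593) (nat_lit 3629)))) (.a (.f (nat_lit 589) (nat_lit 622) (nat_lit 4589) (.f (nat_lit 461) (nat_lit 558) (nat_lit 4557) (.d (nat_lit 460) (nat_lit 428) (nat_lit 7596) (nat_lit 492) (nat_lit 7628)))) (.f (nat_lit 589) (nat_lit 622) (nat_lit 4589) (.f (nat_lit 620) (nat_lit 588) (nat_lit 5612) (.d (nat_lit 621) (nat_lit 592) (nat_lit 1612) (nat_lit 652) (nat_lit 5644))))))))) (.a (.p (nat_lit 590) (.a (.f (nat_lit 589) (nat_lit 622) (nat_lit 4589) (.f (nat_lit 461) (nat_lit 558) (nat_lit 4557) (.d (nat_lit 460) (nat_lit 428) (nat_lit 7596) (nat_lit 492) (nat_lit 7628)))) (.a (.f (nat_lit 589) (nat_lit 622) (nat_lit 4589) (.f (nat_lit 620) (nat_lit 588) (nat_lit 5612) (.d (nat_lit 621) (nat_lit 592) (nat_lit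 1612) (nat_lit 652) (nat_lit 5644)))) (.f (nat_lit 461) (nat_lit 558) (nat_lit 4557) (.f (nat_lit 428) (nat_lit 460) (nat_lit 7596) (.f (nat_lit 429) (nat_lit 396) (nat_lit 7564) (.d (nat_lit 430) (nat_lit 398) (nat_lit 6541) (nat_lit 462) (nat_lit 6573)))))))) (.a (.p (nat_lit 590) (.a (.f (nat_lit 589) (nat_lit 622) (nat_lit 4589) (.f (nat_lit 461) (nat_lit 558) (nat_lit 4557) (.d (nat_lit 460) (nat_lit 428) (nat_lit 7596) (nat_lit 492) (nat_lit 7628)))) (.a (.f (nat_lit 589) (nat_lit 622) (nat_lit 4589) (.f (nat_lit 556) (nat_lit 592) (nat_lit 3628) (.f (nat_lit 460) (nat_lit 492) (nat_lit 7628) (.f (nat_lit 461) (nat_lit 428) (nat_lit 7596) (.f (nat_lit 430) (nat_lit 462) (nat_lit 6573) (.d (nat_lit 429) (nat_lit 398) (nat_lit 6541) (nat_lit 524) (nat_lit 5548))))))) (.a (.f (nat_lit 558) (nat_lit 461) (nat_lit 4557) (.f (nat_lit 556) (nat_lit 555) (nat_lit 555) (.d (nat_lit 592) (nat_lit 559) (nat_lit 556) (nat_lit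 593) (nat_lit 3629)))) (.f (nat_lit 589) (nat_lit 622) (nat_lit 4589) (.f (nat_lit 592) (nat_lit 556) (nat_lit 3628) (.f (nat_lit 621) (nat_lit 620) (nat_lit 1612) (.d (nat_lit 492) (nat_lit 460) (nat_lit 7628) (nat_lit 524) (nat_lit 7660))))))))) (.p (nat_lit 590) (.a (.f (nat_lit 589) (nat_lit 622) (nat_lit 4589) (.f (nat_lit 588) (nat_lit 620) (nat_lit 5612) (.d (nat_lit 461) (nat_lit 556) (nat_lit 5580) (nat_lit 558) (nat_lit 4557)))) (.a (.f (nat_lit 589) (nat_lit 622) (nat_lit 4589) (.f (nat_lit 588) (nat_lit 620) (nat_lit 5612) (.d (nat_lit 556) (nat_lit 461) (nat_lit 5580) (nat_lit 555) (nat_lit 3627)))) (.a (.f (nat_lit 461) (nat_lit 558) (nat_lit 4557) (.f (nat_lit 556) (nat_lit 588) (nat_lit 5580) (.f (nat_lit 429) (nat_lit 524) (nat_lit 5548) (.d (nat_lit 430) (nat_lit 398) (nat_lit 6541) (nat_lit 462) (nat_lit 6573))))) (.a (.f (nat_lit 589) (nat_lit 622) (nat_lit 4589) (.f (nat_lit 620) (nat_lit 588) (nat_lit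 5612) (.d (nat_lit 621) (nat_lit 592) (nat_lit 1612) (nat_lit 652) (nat_lit 5644)))) (.f (nat_lit 558) (nat_lit 461) (nat_lit 4557) (.f (nat_lit 556) (nat_lit 555) (nat_lit 555) (.d (nat_lit 592) (nat_lit 559) (nat_lit 556) (nat_lit 593) (nat_lit 3629))))))))))))))))) (.a (.p (nat_lit 527) (.a (.d (nat_lit 559) (nat_lit 464) (nat_lit 6607) (nat_lit 623) (nat_lit 6639)) (.f (nat_lit 526) (nat_lit 524) (nat_lit 2540) (.f (nat_lit 557) (nat_lit 556) (nat_lit 1548) (.f (nat_lit 558) (nat_lit 529) (nat_lit 1549) (.d (nat_lit 461) (nat_lit 429) (nat_lit 4525) (nat_lit 590) (nat_lit 4557))))))) (.p (nat_lit 527) (.a (.d (nat_lit 559) (nat_lit 464) (nat_lit 6607) (nat_lit 623) (nat_lit 6639)) (.f (nat_lit 526) (nat_lit 492) (nat_lit 3564) (.f (nat_lit 557) (nat_lit 556) (nat_lit 1548) (.f (nat_lit 558) (nat_lit 529) (nat_lit 1549) (.d (nat_lit 461) (nat_lit 429) (nat_lit 4525) (nat_lit 590) (nat_lit 4557))))))))))))) (.a (.p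 (nat_lit 592) (.a (.f (nat_lit 560) (nat_lit 623) (nat_lit 5615) (.f (nat_lit 625) (nat_lit 593) (nat_lit 4592) (.d (nat_lit 624) (nat_lit 527) (nat_lit 7663) (nat_lit 657) (nat_lit 4624)))) (.a s124966 (.a (.p (nat_lit 590) (.a s124874 (.a s124880 (.a s124930 (.a (.p (nat_lit 593) (.a (.f (nat_lit 622) (nat_lit 621) (nat_lit 1613) (.f (nat_lit 594) (nat_lit 623) (nat_lit 1614) (.d (nat_lit 626) (nat_lit 625) (nat_lit 590) (nat_lit 627) (nat_lit 591)))) (.a (.f (nat_lit 557) (nat_lit 558) (nat_lit 3629) (.f (nat_lit 589) (nat_lit 556) (nat_lit 3628) (.d (nat_lit 621) (nat_lit 620) (nat_lit 1612) (nat_lit 622) (nat_lit 1613)))) (.a (.f (nat_lit 557) (nat_lit 558) (nat_lit 3629) (.f (nat_lit 589) (nat_lit 556) (nat_lit 3628) (.f (nat_lit 620) (nat_lit 621) (nat_lit 1612) (.d (nat_lit 588) (nat_lit 525) (nat_lit 5612) (nat_lit 619) (nat_lit 1611))))) (.f (nat_lit 557) (nat_lit 558) (nat_lit 3629) (.f (nat_lit 589) (nat_lit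 556) (nat_lit 3628) (.f (nat_lit 622) (nat_lit 525) (nat_lit 4589) (.f (nat_lit 594) (nat_lit 623) (nat_lit 1614) (.d (nat_lit 626) (nat_lit 625) (nat_lit 590) (nat_lit 627) (nat_lit 591)))))))))) (.a s124911 (.a (.p (nat_lit 593) (.a (.f (nat_lit 622) (nat_lit 621) (nat_lit 1613) (.f (nat_lit 594) (nat_lit 623) (nat_lit 1614) (.d (nat_lit 626) (nat_lit 625) (nat_lit 590) (nat_lit 627) (nat_lit 591)))) (.a (.f (nat_lit 622) (nat_lit 621) (nat_lit 1613) (.f (nat_lit 558) (nat_lit 557) (nat_lit 3629) (.d (nat_lit 526) (nat_lit 525) (nat_lit 7661) (nat_lit 527) (nat_lit 6638)))) (.p (nat_lit 594) (.a (.f (nat_lit 563) (nat_lit 562) (nat_lit 2607) (.f (nat_lit 595) (nat_lit 564) (nat_lit 2608) (.d (nat_lit 627) (nat_lit 626) (nat_lit 591) (nat_lit 628) (nat_lit 592)))) (.a (.d (nat_lit 626) (nat_lit 625) (nat_lit 590) (nat_lit 627) (nat_lit 591)) (.a (.f (nat_lit 563) (nat_lit 562) (nat_lit 2607) (.f (nat_lit 595) (nat_lit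 564) (nat_lit 2608) (.f (nat_lit 628) (nat_lit 627) (nat_lit 592) (.f (nat_lit 596) (nat_lit 629) (nat_lit 593) (.d (nat_lit 624) (nat_lit 623) (nat_lit 1615) (nat_lit 625) (nat_lit 1616)))))) (.f (nat_lit 563) (nat_lit 562) (nat_lit 2607) (.f (nat_lit 595) (nat_lit 564) (nat_lit 2608) (.f (nat_lit 625) (nat_lit 626) (nat_lit 590) (.d (nat_lit 624) (nat_lit 596) (nat_lit 1616) (nat_lit 623) (nat_lit 1615)))))))))))) (.a s125325 (.a s125333 (.a (.p (nat_lit 589) (.a (.f (nat_lit 624) (nat_lit 625) (nat_lit 589) (.f (nat_lit 588) (nat_lit 623) (nat_lit 588) (.d (nat_lit 620) (nat_lit 619) (nat_lit 1611) (nat_lit 621) (nat_lit 1612)))) (.a (.f (nat_lit 620) (nat_lit 621) (nat_lit 1612) (.f (nat_lit 588) (nat_lit 619) (nat_lit 1611) (.f (nat_lit 556) (nat_lit 555) (nat_lit 3627) (.f (nat_lit 524) (nat_lit 525) (nat_lit 6636) (.f (nat_lit 492) (nat_lit 461) (nat_lit 6604) (.d (nat_lit 491) (nat_lit 459) (nat_lit 7627) (nat_lit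 523) (nat_lit 7659))))))) (.a (.f (nat_lit 557) (nat_lit 556) (nat_lit 3628) (.f (nat_lit 621) (nat_lit 620) (nat_lit 1612) (.f (nat_lit 558) (nat_lit 593) (nat_lit 3629) (.d (nat_lit 653) (nat_lit 526) (nat_lit 6669) (nat_lit 685) (nat_lit 6701))))) (.a (.f (nat_lit 624) (nat_lit 625) (nat_lit 589) (.f (nat_lit 588) (nat_lit 623) (nat_lit 588) (.f (nat_lit 619) (nat_lit 620) (nat_lit 1611) (.f (nat_lit 587) (nat_lit 618) (nat_lit 1610) (.d (nat_lit 555) (nat_lit 554) (nat_lit 3626) (nat_lit 556) (nat_lit 3627)))))) (.f (nat_lit 624) (nat_lit 625) (nat_lit 589) (.f (nat_lit 588) (nat_lit 623) (nat_lit 588) (.d (nat_lit 556) (nat_lit 555) (nat_lit 3627) (nat_lit 557) (nat_lit 3628))))))))) (.p (nat_lit 593) (.a (.f (nat_lit 625) (nat_lit 626) (nat_lit 590) (.f (nat_lit 589) (nat_lit 624) (nat_lit 589) (.f (nat_lit 556) (nat_lit 557) (nat_lit 3628) (.f (nat_lit 588) (nat_lit 555) (nat_lit 3627) (.f (nat_lit 620) (nat_lit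 619) (nat_lit 1611) (.f (nat_lit 524) (nat_lit 525) (nat_lit 6636) (.f (nat_lit 492) (nat_lit 461) (nat_lit 6604) (.d (nat_lit 491) (nat_lit 459) (nat_lit 7627) (nat_lit 523) (nat_lit 7659))))))))) (.a (.f (nat_lit 626) (nat_lit 625) (nat_lit 590) (.f (nat_lit 594) (nat_lit 627) (nat_lit 591) (.f (nat_lit 623) (nat_lit 622) (nat_lit 1614) (.f (nat_lit 563) (nat_lit 562) (nat_lit 2607) (.d (nat_lit 595) (nat_lit 564) (nat_lit 2608) (nat_lit 624) (nat_lit 1615)))))) (.a (.f (nat_lit 557) (nat_lit 558) (nat_lit 3629) (.f (nat_lit 589) (nat_lit 556) (nat_lit 3628) (.f (nat_lit 622) (nat_lit 525) (nat_lit 4589) (.f (nat_lit 594) (nat_lit 623) (nat_lit 1614) (.d (nat_lit 626) (nat_lit 625) (nat_lit 590) (nat_lit 627) (nat_lit 591)))))) (.a (.f (nat_lit 557) (nat_lit 558) (nat_lit 3629) (.f (nat_lit 589) (nat_lit 556) (nat_lit 3628) (.f (nat_lit 525) (nat_lit 622) (nat_lit 4589) (.f (nat_lit 588) (nat_lit 620) (nat_lit 5612)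 (.d (nat_lit 624) (nat_lit 623) (nat_lit 588) (nat_lit 625) (nat_lit 589)))))) (.f (nat_lit 557) (nat_lit 558) (nat_lit 3629) (.f (nat_lit 589) (nat_lit 556) (nat_lit 3628) (.f (nat_lit 622) (nat_lit 525) (nat_lit 4589) (.f (nat_lit 594) (nat_lit 623) (nat_lit 1614) (.f (nat_lit 627) (nat_lit 626) (nat_lit 591) (.f (nat_lit 595) (nat_lit 628) (nat_lit 592) (.d (nat_lit 563) (nat_lit 562) (nat_lit 2607) (nat_lit 564) (nat_lit 2608))))))))))))))))))))))) (.a (.p (nat_lit 593) (.a (.d (nat_lit 560) (nat_lit 623) (nat_lit 5615) (nat_lit 625) (nat_lit 4592)) (.a (.p (nat_lit 594) (.a (.f (nat_lit 626) (nat_lit 627) (nat_lit 591) (.f (nat_lit 562) (nat_lit 563) (nat_lit 2607) (.f (nat_lit 625) (nat_lit 590) (nat_lit 590) (.d (nat_lit 530) (nat_lit 498) (nat_lit 5617) (nat_lit 657) (nat_lit 5649))))) (.a (.f (nat_lit 626) (nat_lit 627) (nat_lit 591) (.f (nat_lit 590) (nat_lit 625) (nat_lit 590) (.d (nat_lit 622) (nat_lit 621)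 (nat_lit 1613) (nat_lit 623) (nat_lit 1614)))) (.a (.f (nat_lit 627) (nat_lit 626) (nat_lit 591) (.f (nat_lit 595) (nat_lit 628) (nat_lit 592) (.d (nat_lit 563) (nat_lit 562) (nat_lit 2607) (nat_lit 564) (nat_lit 2608)))) (.f (nat_lit 622) (nat_lit 623) (nat_lit 1614) (.f (nat_lit 590) (nat_lit 621) (nat_lit 1613) (.f (nat_lit 558) (nat_lit 557) (nat_lit 3629) (.d (nat_lit 526) (nat_lit 525) (nat_lit 7661) (nat_lit 527) (nat_lit 6638))))))))) (.a (.f (nat_lit 625) (nat_lit 560) (nat_lit 4592) (.f (nat_lit 590) (nat_lit 626) (nat_lit 590) (.f (nat_lit 557) (nat_lit 558) (nat_lit 3629) (.f (nat_lit 589) (nat_lit 556) (nat_lit 3628) (.d (nat_lit 621) (nat_lit 620) (nat_lit 1612) (nat_lit 622) (nat_lit 1613)))))) (.f (nat_lit 623) (nat_lit 560) (nat_lit 5615) (.f (nat_lit 594) (nat_lit 622) (nat_lit 1614) (.f (nat_lit 627) (nat_lit 626) (nat_lit 591) (.f (nat_lit 595) (nat_lit 628) (nat_lit 592) (.d (nat_lit 563) (nat_lit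 562) (nat_lit 2607) (nat_lit 564) (nat_lit 2608)))))))))) (.a (.p (nat_lit 589) (.a (.f (nat_lit 560) (nat_lit 623) (nat_lit 5615) (.f (nat_lit 624) (nat_lit 527) (nat_lit 7663) (.d (nat_lit 625) (nat_lit 590) (nat_lit 589) (nat_lit 657) (nat_lit 4624)))) (.a (.p (nat_lit 590) (.a (.f (nat_lit 624) (nat_lit 625) (nat_lit 589) (.f (nat_lit 588) (nat_lit 623) (nat_lit 588) (.d (nat_lit 620) (nat_lit 619) (nat_lit 1611) (nat_lit 621) (nat_lit 1612)))) (.a (.f (nat_lit 557) (nat_lit 556) (nat_lit 3628) (.f (nat_lit 525) (nat_lit 622) (nat_lit 4589) (.d (nat_lit 620) (nat_lit 588) (nat_lit 5612) (nat_lit 621) (nat_lit 1612)))) (.a (.f (nat_lit 557) (nat_lit 556) (nat_lit 3628) (.f (nat_lit 525) (nat_lit 622) (nat_lit 4589) (.f (nat_lit 621) (nat_lit 620) (nat_lit 1612) (.d (nat_lit 492) (nat_lit 460) (nat_lit 7628) (nat_lit 524) (nat_lit 7660))))) (.a (.f (nat_lit 624) (nat_lit 625) (nat_lit 589) (.f (nat_lit 588) (nat_lit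 623) (nat_lit 588) (.f (nat_lit 619) (nat_lit 620) (nat_lit 1611) (.f (nat_lit 587) (nat_lit 618) (nat_lit 1610) (.d (nat_lit 555) (nat_lit 554) (nat_lit 3626) (nat_lit 556) (nat_lit 3627)))))) (.f (nat_lit 624) (nat_lit 625) (nat_lit 589) (.f (nat_lit 588) (nat_lit 623) (nat_lit 588) (.d (nat_lit 556) (nat_lit 555) (nat_lit 3627) (nat_lit 557) (nat_lit 3628))))))))) (.a (.p (nat_lit 590) (.a (.f (nat_lit 557) (nat_lit 556) (nat_lit 3628) (.f (nat_lit 525) (nat_lit 622) (nat_lit 4589) (.d (nat_lit 620) (nat_lit 588) (nat_lit 5612) (nat_lit 621) (nat_lit 1612)))) (.a (.f (nat_lit 620) (nat_lit 621) (nat_lit 1612) (.f (nat_lit 588) (nat_lit 619) (nat_lit 1611) (.d (nat_lit 556) (nat_lit 555) (nat_lit 3627) (nat_lit 557) (nat_lit 3628)))) (.a (.f (nat_lit 620) (nat_lit 621) (nat_lit 1612) (.f (nat_lit 588) (nat_lit 619) (nat_lit 1611) (.f (nat_lit 556) (nat_lit 555) (nat_lit 3627) (.f (nat_lit 524) (nat_lit 525) (nat_lit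 6636) (.f (nat_lit 492) (nat_lit 461) (nat_lit 6604) (.d (nat_lit 491) (nat_lit 459) (nat_lit 7627) (nat_lit 523) (nat_lit 7659))))))) (.a (.f (nat_lit 620) (nat_lit 621) (nat_lit 1612) (.f (nat_lit 588) (nat_lit 619) (nat_lit 1611) (.f (nat_lit 557) (nat_lit 525) (nat_lit 5612) (.f (nat_lit 623) (nat_lit 560) (nat_lit 5615) (.f (nat_lit 587) (nat_lit 622) (nat_lit 587) (.f (nat_lit 586) (nat_lit 558) (nat_lit 2602) (.d (nat_lit 554) (nat_lit 553) (nat_lit 3625) (nat_lit 555) (nat_lit 3626)))))))) (.a (.f (nat_lit 557) (nat_lit 556) (nat_lit 3628) (.f (nat_lit 525) (nat_lit 622) (nat_lit 4589) (.f (nat_lit 621) (nat_lit 620) (nat_lit 1612) (.d (nat_lit 492) (nat_lit 460) (nat_lit 7628) (nat_lit 524) (nat_lit 7660))))) (.f (nat_lit 557) (nat_lit 556) (nat_lit 3628) (.f (nat_lit 525) (nat_lit 622) (nat_lit 4589) (.f (nat_lit 461) (nat_lit 558) (nat_lit 4557) (.d (nat_lit 460) (nat_lit 428) (nat_lit 7596) (nat_lit 492)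 (nat_lit 7628))))))))))) (.a (.p (nat_lit 525) (.a (.f (nat_lit 560) (nat_lit 623) (nat_lit 5615) (.f (nat_lit 527) (nat_lit 624) (nat_lit 7663) (.d (nat_lit 526) (nat_lit 492) (nat_lit 3564) (nat_lit 524) (nat_lit 2540)))) (.a (.p (nat_lit 557) (.a (.f (nat_lit 492) (nat_lit 460) (nat_lit 7628) (.f (nat_lit 621) (nat_lit 524) (nat_lit 7660) (.d (nat_lit 620) (nat_lit 588) (nat_lit 5612) (nat_lit 652) (nat_lit 5644)))) (.a (.f (nat_lit 588) (nat_lit 620) (nat_lit 5612) (.f (nat_lit 461) (nat_lit 556) (nat_lit 5580) (.f (nat_lit 428) (nat_lit 460) (nat_lit 7596) (.f (nat_lit 429) (nat_lit 396) (nat_lit 7564) (.d (nat_lit 430) (nat_lit 398) (nat_lit 6541) (nat_lit 462) (nat_lit 6573)))))) (.a (.f (nat_lit 492) (nat_lit 460) (nat_lit 7628) (.f (nat_lit 621) (nat_lit 524) (nat_lit 7660) (.f (nat_lit 623) (nat_lit 560) (nat_lit 5615) (.d (nat_lit 620) (nat_lit 622) (nat_lit 2636) (nat_lit 652) (nat_lit 5644))))) (.a (.f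 (nat_lit 620) (nat_lit 588) (nat_lit 5612) (.f (nat_lit 621) (nat_lit 652) (nat_lit 5644) (.d (nat_lit 622) (nat_lit 623) (nat_lit 2636) (nat_lit 654) (nat_lit 4621)))) (.f (nat_lit 460) (nat_lit 492) (nat_lit 7628) (.f (nat_lit 461) (nat_lit 428) (nat_lit 7596) (.f (nat_lit 430) (nat_lit 462) (nat_lit 6573) (.f (nat_lit 429) (nat_lit 398) (nat_lit 6541) (.d (nat_lit 556) (nat_lit 524) (nat_lit 5548) (nat_lit 588) (nat_lit 5580))))))))))) (.a (.p (nat_lit 557) (.a (.f (nat_lit 492) (nat_lit 460) (nat_lit 7628) (.f (nat_lit 621) (nat_lit 524) (nat_lit 7660) (.d (nat_lit 620) (nat_lit 588) (nat_lit 5612) (nat_lit 652) (nat_lit 5644)))) (.a (.f (nat_lit 588) (nat_lit 620) (nat_lit 5612) (.f (nat_lit 461) (nat_lit 556) (nat_lit 5580) (.f (nat_lit 428) (nat_lit 460) (nat_lit 7596) (.f (nat_lit 429) (nat_lit 396) (nat_lit 7564) (.d (nat_lit 430) (nat_lit 398) (nat_lit 6541) (nat_lit 462) (nat_lit 6573)))))) (.a (.f (nat_lit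 492) (nat_lit 460) (nat_lit 7628) (.f (nat_lit 526) (nat_lit 527) (nat_lit 3564) (.f (nat_lit 621) (nat_lit 524) (nat_lit 7660) (.f (nat_lit 653) (nat_lit 558) (nat_lit 6669) (.d (nat_lit 652) (nat_lit 620) (nat_lit 5644) (nat_lit 684) (nat_lit 5676)))))) (.a (.f (nat_lit 620) (nat_lit 588) (nat_lit 5612) (.f (nat_lit 621) (nat_lit 652) (nat_lit 5644) (.d (nat_lit 622) (nat_lit 623) (nat_lit 2636) (nat_lit 654) (nat_lit 4621)))) (.f (nat_lit 460) (nat_lit 492) (nat_lit 7628) (.f (nat_lit 461) (nat_lit 428) (nat_lit 7596) (.f (nat_lit 430) (nat_lit 462) (nat_lit 6573) (.f (nat_lit 429) (nat_lit 398) (nat_lit 6541) (.d (nat_lit 556) (nat_lit 524) (nat_lit 5548) (nat_lit 588) (nat_lit 5580))))))))))) (.a (.p (nat_lit 557) (.a (.f (nat_lit 492) (nat_lit 460) (nat_lit 7628) (.f (nat_lit 621) (nat_lit 524) (nat_lit 7660) (.d (nat_lit 620) (nat_lit 588) (nat_lit 5612) (nat_lit 652) (nat_lit 5644)))) (.a (.f (nat_lit 588) (nat_lit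 620) (nat_lit 5612) (.f (nat_lit 461) (nat_lit 556) (nat_lit 5580) (.f (nat_lit 428) (nat_lit 460) (nat_lit 7596) (.f (nat_lit 429) (nat_lit 396) (nat_lit 7564) (.d (nat_lit 430) (nat_lit 398) (nat_lit 6541) (nat_lit 462) (nat_lit 6573)))))) (.a (.f (nat_lit 492) (nat_lit 460) (nat_lit 7628) (.f (nat_lit 526) (nat_lit 527) (nat_lit 3564) (.f (nat_lit 621) (nat_lit 524) (nat_lit 7660) (.f (nat_lit 653) (nat_lit 558) (nat_lit 6669) (.d (nat_lit 652) (nat_lit 620) (nat_lit 5644) (nat_lit 684) (nat_lit 5676)))))) (.a (.f (nat_lit 588) (nat_lit 620) (nat_lit 5612) (.f (nat_lit 461) (nat_lit 556) (nat_lit 5580) (.f (nat_lit 430) (nat_lit 462) (nat_lit 6573) (.f (nat_lit 429) (nat_lit 398) (nat_lit 6541) (.f (nat_lit 526) (nat_lit 558) (nat_lit 4525) (.d (nat_lit 527) (nat_lit 492) (nat_lit 3564) (nat_lit 524) (nat_lit 2540))))))) (.f (nat_lit 460) (nat_lit 492) (nat_lit 7628) (.f (nat_lit 461) (nat_lit 428) (nat_lit 7596)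 (.f (nat_lit 430) (nat_lit 462) (nat_lit 6573) (.f (nat_lit 429) (nat_lit 398) (nat_lit 6541) (.d (nat_lit 556) (nat_lit 524) (nat_lit 5548) (nat_lit 588) (nat_lit 5580))))))))))) (.a (.f (nat_lit 560) (nat_lit 623) (nat_lit 5615) (.f (nat_lit 527) (nat_lit 624) (nat_lit 7663) (.f (nat_lit 526) (nat_lit 524) (nat_lit 2540) (.f (nat_lit 557) (nat_lit 556) (nat_lit 1548) (.f (nat_lit 558) (nat_lit 529) (nat_lit 1549) (.f (nat_lit 621) (nat_lit 653) (nat_lit 6669) (.d (nat_lit 620) (nat_lit 588) (nat_lit 5612) (nat_lit 652) (nat_lit 5644)))))))) (.f (nat_lit 560) (nat_lit 623) (nat_lit 5615) (.f (nat_lit 527) (nat_lit 624) (nat_lit 7663) (.f (nat_lit 526) (nat_lit 492) (nat_lit 3564) (.f (nat_lit 557) (nat_lit 556) (nat_lit 1548) (.f (nat_lit 558) (nat_lit 529) (nat_lit 1549) (.f (nat_lit 621) (nat_lit 653) (nat_lit 6669) (.d (nat_lit 620) (nat_lit 588) (nat_lit 5612) (nat_lit 652) (nat_lit 5644)))))))))))))) (.p (nat_lit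 590) (.a (.f (nat_lit 557) (nat_lit 556) (nat_lit 3628) (.f (nat_lit 525) (nat_lit 622) (nat_lit 4589) (.d (nat_lit 620) (nat_lit 588) (nat_lit 5612) (nat_lit 621) (nat_lit 1612)))) (.a (.f (nat_lit 620) (nat_lit 621) (nat_lit 1612) (.f (nat_lit 588) (nat_lit 619) (nat_lit 1611) (.d (nat_lit 556) (nat_lit 555) (nat_lit 3627) (nat_lit 557) (nat_lit 3628)))) (.a (.f (nat_lit 620) (nat_lit 621) (nat_lit 1612) (.f (nat_lit 588) (nat_lit 619) (nat_lit 1611) (.f (nat_lit 556) (nat_lit 555) (nat_lit 3627) (.f (nat_lit 524) (nat_lit 525) (nat_lit 6636) (.f (nat_lit 492) (nat_lit 461) (nat_lit 6604) (.d (nat_lit 491) (nat_lit 459) (nat_lit 7627) (nat_lit 523) (nat_lit 7659))))))) (.a (.f (nat_lit 620) (nat_lit 621) (nat_lit 1612) (.f (nat_lit 588) (nat_lit 619) (nat_lit 1611) (.f (nat_lit 525) (nat_lit 557) (nat_lit 5612) (.f (nat_lit 624) (nat_lit 625) (nat_lit 589) (.f (nat_lit 527) (nat_lit 560) (nat_lit 7663) (.d (nat_lit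 526) (nat_lit 492) (nat_lit 3564) (nat_lit 524) (nat_lit 2540))))))) (.a (.f (nat_lit 557) (nat_lit 556) (nat_lit 3628) (.f (nat_lit 525) (nat_lit 622) (nat_lit 4589) (.f (nat_lit 621) (nat_lit 620) (nat_lit 1612) (.d (nat_lit 492) (nat_lit 460) (nat_lit 7628) (nat_lit 524) (nat_lit 7660))))) (.f (nat_lit 557) (nat_lit 556) (nat_lit 3628) (.f (nat_lit 525) (nat_lit 622) (nat_lit 4589) (.f (nat_lit 461) (nat_lit 558) (nat_lit 4557) (.d (nat_lit 460) (nat_lit 428) (nat_lit 7596) (nat_lit 492) (nat_lit 7628)))))))))))))))) (.a (.p (nat_lit 590) (.a s125325 (.a (.p (nat_lit 593) (.a (.f (nat_lit 625) (nat_lit 626) (nat_lit 590) (.f (nat_lit 589) (nat_lit 624) (nat_lit 589) (.d (nat_lit 621) (nat_lit 620) (nat_lit 1612) (nat_lit 622) (nat_lit 1613)))) (.a (.f (nat_lit 557) (nat_lit 558) (nat_lit 3629) (.f (nat_lit 589) (nat_lit 556) (nat_lit 3628) (.d (nat_lit 621) (nat_lit 620) (nat_lit 1612) (nat_lit 622) (nat_lit 1613))))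 (.d (nat_lit 625) (nat_lit 560) (nat_lit 4592) (nat_lit 626) (nat_lit 590))))) (.a (.p (nat_lit 589) (.a (.f (nat_lit 557) (nat_lit 556) (nat_lit 3628) (.f (nat_lit 525) (nat_lit 622) (nat_lit 4589) (.d (nat_lit 620) (nat_lit 588) (nat_lit 5612) (nat_lit 621) (nat_lit 1612)))) (.a (.f (nat_lit 621) (nat_lit 620) (nat_lit 1612) (.f (nat_lit 593) (nat_lit 622) (nat_lit 1613) (.d (nat_lit 625) (nat_lit 624) (nat_lit 589) (nat_lit 626) (nat_lit 590)))) (.a (.f (nat_lit 620) (nat_lit 621) (nat_lit 1612) (.f (nat_lit 588) (nat_lit 619) (nat_lit 1611) (.f (nat_lit 556) (nat_lit 555) (nat_lit 3627) (.f (nat_lit 524) (nat_lit 525) (nat_lit 6636) (.f (nat_lit 492) (nat_lit 461) (nat_lit 6604) (.d (nat_lit 491) (nat_lit 459) (nat_lit 7627) (nat_lit 523) (nat_lit 7659))))))) (.f (nat_lit 625) (nat_lit 624) (nat_lit 589) (.d (nat_lit 593) (nat_lit 560) (nat_lit 4592) (nat_lit 626) (nat_lit 590))))))) (.a (.p (nat_lit 593) (.a (.f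 (nat_lit 557) (nat_lit 558) (nat_lit 3629) (.f (nat_lit 589) (nat_lit 556) (nat_lit 3628) (.d (nat_lit 621) (nat_lit 620) (nat_lit 1612) (nat_lit 622) (nat_lit 1613)))) (.d (nat_lit 625) (nat_lit 560) (nat_lit 4592) (nat_lit 626) (nat_lit 590)))) (.a (.p (nat_lit 589) (.a (.f (nat_lit 620) (nat_lit 621) (nat_lit 1612) (.f (nat_lit 588) (nat_lit 619) (nat_lit 1611) (.f (nat_lit 556) (nat_lit 555) (nat_lit 3627) (.f (nat_lit 524) (nat_lit 525) (nat_lit 6636) (.f (nat_lit 492) (nat_lit 461) (nat_lit 6604) (.d (nat_lit 491) (nat_lit 459) (nat_lit 7627) (nat_lit 523) (nat_lit 7659))))))) (.a (.f (nat_lit 621) (nat_lit 620) (nat_lit 1612) (.f (nat_lit 593) (nat_lit 622) (nat_lit 1613) (.d (nat_lit 625) (nat_lit 624) (nat_lit 589) (nat_lit 626) (nat_lit 590)))) (.f (nat_lit 625) (nat_lit 624) (nat_lit 589) (.d (nat_lit 593) (nat_lit 560) (nat_lit 4592) (nat_lit 626) (nat_lit 590)))))) (.a (.p (nat_lit 589) (.a (.f (nat_lit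 557) (nat_lit 556) (nat_lit 3628) (.f (nat_lit 525) (nat_lit 622) (nat_lit 4589) (.d (nat_lit 620) (nat_lit 588) (nat_lit 5612) (nat_lit 621) (nat_lit 1612)))) (.a (.f (nat_lit 620) (nat_lit 621) (nat_lit 1612) (.f (nat_lit 588) (nat_lit 619) (nat_lit 1611) (.d (nat_lit 556) (nat_lit 555) (nat_lit 3627) (nat_lit 557) (nat_lit 3628)))) (.a (.f (nat_lit 620) (nat_lit 621) (nat_lit 1612) (.f (nat_lit 588) (nat_lit 619) (nat_lit 1611) (.f (nat_lit 556) (nat_lit 555) (nat_lit 3627) (.f (nat_lit 524) (nat_lit 525) (nat_lit 6636) (.f (nat_lit 492) (nat_lit 461) (nat_lit 6604) (.d (nat_lit 491) (nat_lit 459) (nat_lit 7627) (nat_lit 523) (nat_lit 7659))))))) (.a (.f (nat_lit 620) (nat_lit 621) (nat_lit 1612) (.f (nat_lit 588) (nat_lit 619) (nat_lit 1611) (.f (nat_lit 525) (nat_lit 557) (nat_lit 5612) (.f (nat_lit 624) (nat_lit 625) (nat_lit 589) (.f (nat_lit 527) (nat_lit 560) (nat_lit 7663) (.d (nat_lit 526) (nat_lit 492) (nat_lit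 3564) (nat_lit 524) (nat_lit 2540))))))) (.a (.f (nat_lit 557) (nat_lit 556) (nat_lit 3628) (.f (nat_lit 525) (nat_lit 622) (nat_lit 4589) (.f (nat_lit 621) (nat_lit 620) (nat_lit 1612) (.d (nat_lit 492) (nat_lit 460) (nat_lit 7628) (nat_lit 524) (nat_lit 7660))))) (.f (nat_lit 557) (nat_lit 556) (nat_lit 3628) (.f (nat_lit 525) (nat_lit 622) (nat_lit 4589) (.f (nat_lit 461) (nat_lit 558) (nat_lit 4557) (.d (nat_lit 460) (nat_lit 428) (nat_lit 7596) (nat_lit 492) (nat_lit 7628))))))))))) (.a (.p (nat_lit 593) (.a (.f (nat_lit 622) (nat_lit 621) (nat_lit 1613) (.f (nat_lit 558) (nat_lit 557) (nat_lit 3629) (.d (nat_lit 526) (nat_lit 525) (nat_lit 7661) (nat_lit 527) (nat_lit 6638)))) (.d (nat_lit 625) (nat_lit 560) (nat_lit 4592) (nat_lit 626) (nat_lit 590)))) (.a (.p (nat_lit 557) (.a (.f (nat_lit 589) (nat_lit 556) (nat_lit 3628) (.f (nat_lit 525) (nat_lit 622) (nat_lit 4589) (.d (nat_lit 620) (nat_lit 588) (nat_lit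 5612) (nat_lit 621) (nat_lit 1612)))) (.a (.f (nat_lit 558) (nat_lit 593) (nat_lit 3629) (.d (nat_lit 556) (nat_lit 555) (nat_lit 555) (nat_lit 589) (nat_lit 3628))) (.f (nat_lit 558) (nat_lit 593) (nat_lit 3629) (.f (nat_lit 525) (nat_lit 461) (nat_lit 4557) (.d (nat_lit 622) (nat_lit 526) (nat_lit 7661) (nat_lit 654) (nat_lit 7693))))))) (.a (.p (nat_lit 593) (.a (.f (nat_lit 625) (nat_lit 626) (nat_lit 590) (.f (nat_lit 589) (nat_lit 624) (nat_lit 589) (.f (nat_lit 620) (nat_lit 621) (nat_lit 1612) (.f (nat_lit 588) (nat_lit 619) (nat_lit 1611) (.d (nat_lit 556) (nat_lit 555) (nat_lit 3627) (nat_lit 557) (nat_lit 3628)))))) (.a (.f (nat_lit 557) (nat_lit 558) (nat_lit 3629) (.f (nat_lit 589) (nat_lit 556) (nat_lit 3628) (.f (nat_lit 620) (nat_lit 621) (nat_lit 1612) (.d (nat_lit 588) (nat_lit 525) (nat_lit 5612) (nat_lit 619) (nat_lit 1611))))) (.a (.f (nat_lit 625) (nat_lit 626) (nat_lit 590) (.f (nat_lit 589) (nat_lit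 624) (nat_lit 589) (.f (nat_lit 620) (nat_lit 621) (nat_lit 1612) (.f (nat_lit 588) (nat_lit 619) (nat_lit 1611) (.f (nat_lit 556) (nat_lit 555) (nat_lit 3627) (.f (nat_lit 524) (nat_lit 525) (nat_lit 6636) (.f (nat_lit 492) (nat_lit 461) (nat_lit 6604) (.d (nat_lit 491) (nat_lit 459) (nat_lit 7627) (nat_lit 523) (nat_lit 7659))))))))) (.d (nat_lit 625) (nat_lit 560) (nat_lit 4592) (nat_lit 626) (nat_lit 590)))))) (.p (nat_lit 557) (.a (.f (nat_lit 558) (nat_lit 593) (nat_lit 3629) (.f (nat_lit 525) (nat_lit 461) (nat_lit 4557) (.d (nat_lit 622) (nat_lit 526) (nat_lit 7661) (nat_lit 654) (nat_lit 7693)))) (.a (.f (nat_lit 558) (nat_lit 593) (nat_lit 3629) (.d (nat_lit 556) (nat_lit 555) (nat_lit 555) (nat_lit 589) (nat_lit 3628))) (.a (.f (nat_lit 589) (nat_lit 556) (nat_lit 3628) (.f (nat_lit 625) (nat_lit 624) (nat_lit 589) (.d (nat_lit 593) (nat_lit 560) (nat_lit 4592) (nat_lit 626) (nat_lit 590)))) (.f (nat_lit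 589) (nat_lit 556) (nat_lit 3628) (.f (nat_lit 525) (nat_lit 622) (nat_lit 4589) (.f (nat_lit 461) (nat_lit 558) (nat_lit 4557) (.d (nat_lit 460) (nat_lit 428) (nat_lit 7596) (nat_lit 492) (nat_lit 7628))))))))))))))))))) (.p (nat_lit 590) (.a s125074 (.a s125333 (.a (.p (nat_lit 589) (.a (.f (nat_lit 557) (nat_lit 556) (nat_lit 3628) (.f (nat_lit 525) (nat_lit 622) (nat_lit 4589) (.d (nat_lit 620) (nat_lit 588) (nat_lit 5612) (nat_lit 621) (nat_lit 1612)))) (.a (.f (nat_lit 621) (nat_lit 620) (nat_lit 1612) (.f (nat_lit 622) (nat_lit 593) (nat_lit 1613) (.f (nat_lit 556) (nat_lit 557) (nat_lit 3628) (.f (nat_lit 588) (nat_lit 555) (nat_lit 3627) (.d (nat_lit 587) (nat_lit 586) (nat_lit 586) (nat_lit 623) (nat_lit 587)))))) (.a (.f (nat_lit 620) (nat_lit 621) (nat_lit 1612) (.f (nat_lit 588) (nat_lit 619) (nat_lit 1611) (.f (nat_lit 556) (nat_lit 555) (nat_lit 3627) (.f (nat_lit 524) (nat_lit 525) (nat_lit 6636) (.f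 (nat_lit 492) (nat_lit 461) (nat_lit 6604) (.d (nat_lit 491) (nat_lit 459) (nat_lit 7627) (nat_lit 523) (nat_lit 7659))))))) (.a (.f (nat_lit 623) (nat_lit 560) (nat_lit 5615) (.f (nat_lit 588) (nat_lit 624) (nat_lit 588) (.d (nat_lit 620) (nat_lit 619) (nat_lit 1611) (nat_lit 621) (nat_lit 1612)))) (.a (.f (nat_lit 557) (nat_lit 556) (nat_lit 3628) (.f (nat_lit 622) (nat_lit 525) (nat_lit 4589) (.d (nat_lit 621) (nat_lit 593) (nat_lit 1613) (nat_lit 620) (nat_lit 1612)))) (.f (nat_lit 623) (nat_lit 560) (nat_lit 5615) (.f (nat_lit 588) (nat_lit 624) (nat_lit 588) (.d (nat_lit 556) (nat_lit 555) (nat_lit 3627) (nat_lit 557) (nat_lit 3628)))))))))) (.a (.p (nat_lit 589) (.a (.f (nat_lit 620) (nat_lit 621) (nat_lit 1612) (.f (nat_lit 588) (nat_lit 619) (nat_lit 1611) (.f (nat_lit 556) (nat_lit 555) (nat_lit 3627) (.f (nat_lit 524) (nat_lit 525) (nat_lit 6636) (.f (nat_lit 492) (nat_lit 461) (nat_lit 6604) (.d (nat_lit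 491) (nat_lit 459) (nat_lit 7627) (nat_lit 523) (nat_lit 7659))))))) (.a (.f (nat_lit 623) (nat_lit 560) (nat_lit 5615) (.f (nat_lit 588) (nat_lit 624) (nat_lit 588) (.d (nat_lit 620) (nat_lit 619) (nat_lit 1611) (nat_lit 621) (nat_lit 1612)))) (.a (.f (nat_lit 621) (nat_lit 620) (nat_lit 1612) (.f (nat_lit 622) (nat_lit 593) (nat_lit 1613) (.f (nat_lit 560) (nat_lit 623) (nat_lit 5615) (.f (nat_lit 527) (nat_lit 624) (nat_lit 7663) (.f (nat_lit 526) (nat_lit 558) (nat_lit 6638) (.d (nat_lit 525) (nat_lit 492) (nat_lit 3564) (nat_lit 524) (nat_lit 2540))))))) (.a (.f (nat_lit 623) (nat_lit 560) (nat_lit 5615) (.f (nat_lit 588) (nat_lit 624) (nat_lit 588) (.f (nat_lit 587) (nat_lit 622) (nat_lit 587) (.d (nat_lit 619) (nat_lit 618) (nat_lit 1610) (nat_lit 620) (nat_lit 1611))))) (.f (nat_lit 623) (nat_lit 560) (nat_lit 5615) (.f (nat_lit 588) (nat_lit 624) (nat_lit 588) (.f (nat_lit 622) (nat_lit 587) (nat_lit 587) (.d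 (nat_lit 593) (nat_lit 594) (nat_lit 1614) (nat_lit 621) (nat_lit 1613)))))))))) (.a (.p (nat_lit 589) (.a (.f (nat_lit 557) (nat_lit 556) (nat_lit 3628) (.f (nat_lit 525) (nat_lit 622) (nat_lit 4589) (.d (nat_lit 620) (nat_lit 588) (nat_lit 5612) (nat_lit 621) (nat_lit 1612)))) (.a (.f (nat_lit 620) (nat_lit 621) (nat_lit 1612) (.f (nat_lit 588) (nat_lit 619) (nat_lit 1611) (.d (nat_lit 556) (nat_lit 555) (nat_lit 3627) (nat_lit 557) (nat_lit 3628)))) (.a (.f (nat_lit 620) (nat_lit 621) (nat_lit 1612) (.f (nat_lit 588) (nat_lit 619) (nat_lit 1611) (.f (nat_lit 556) (nat_lit 555) (nat_lit 3627) (.f (nat_lit 524) (nat_lit 525) (nat_lit 6636) (.f (nat_lit 492) (nat_lit 461) (nat_lit 6604) (.d (nat_lit 491) (nat_lit 459) (nat_lit 7627) (nat_lit 523) (nat_lit 7659))))))) (.a (.f (nat_lit 620) (nat_lit 621) (nat_lit 1612) (.f (nat_lit 588) (nat_lit 619) (nat_lit 1611) (.f (nat_lit 557) (nat_lit 525) (nat_lit 5612) (.f (nat_lit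 623) (nat_lit 560) (nat_lit 5615) (.f (nat_lit 587) (nat_lit 622) (nat_lit 587) (.f (nat_lit 586) (nat_lit 558) (nat_lit 2602) (.d (nat_lit 554) (nat_lit 553) (nat_lit 3625) (nat_lit 555) (nat_lit 3626)))))))) (.a (.f (nat_lit 557) (nat_lit 556) (nat_lit 3628) (.f (nat_lit 525) (nat_lit 622) (nat_lit 4589) (.f (nat_lit 621) (nat_lit 620) (nat_lit 1612) (.d (nat_lit 492) (nat_lit 460) (nat_lit 7628) (nat_lit 524) (nat_lit 7660))))) (.f (nat_lit 557) (nat_lit 556) (nat_lit 3628) (.f (nat_lit 525) (nat_lit 622) (nat_lit 4589) (.f (nat_lit 461) (nat_lit 558) (nat_lit 4557) (.d (nat_lit 460) (nat_lit 428) (nat_lit 7596) (nat_lit 492) (nat_lit 7628))))))))))) (.a (.p (nat_lit 558) (.a (.f (nat_lit 593) (nat_lit 557) (nat_lit 3629) (.f (nat_lit 622) (nat_lit 621) (nat_lit 1613) (.d (nat_lit 526) (nat_lit 525) (nat_lit 7661) (nat_lit 527) (nat_lit 6638)))) (.a (.f (nat_lit 557) (nat_lit 593) (nat_lit 3629) (.f (nat_lit 525)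 (nat_lit 461) (nat_lit 4557) (.d (nat_lit 622) (nat_lit 526) (nat_lit 7661) (nat_lit 654) (nat_lit 7693)))) (.a (.f (nat_lit 623) (nat_lit 560) (nat_lit 5615) (.f (nat_lit 593) (nat_lit 557) (nat_lit 3629) (.d (nat_lit 622) (nat_lit 594) (nat_lit 1614) (nat_lit 621) (nat_lit 1613)))) (.a (.f (nat_lit 623) (nat_lit 560) (nat_lit 5615) (.f (nat_lit 655) (nat_lit 687) (nat_lit 7726) (.f (nat_lit 622) (nat_lit 526) (nat_lit 4622) (.d (nat_lit 621) (nat_lit 593) (nat_lit 1613) (nat_lit 620) (nat_lit 2636))))) (.a (.f (nat_lit 560) (nat_lit 623) (nat_lit 5615) (.f (nat_lit 527) (nat_lit 624) (nat_lit 7663) (.f (nat_lit 526) (nat_lit 622) (nat_lit 6638) (.d (nat_lit 525) (nat_lit 492) (nat_lit 3564) (nat_lit 524) (nat_lit 2540))))) (.f (nat_lit 557) (nat_lit 593) (nat_lit 3629) (.f (nat_lit 525) (nat_lit 461) (nat_lit 4557) (.f (nat_lit 556) (nat_lit 555) (nat_lit 555) (.f (nat_lit 527) (nat_lit 526) (nat_lit 1548) (.d (nat_lit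 560) (nat_lit 623) (nat_lit 5615) (nat_lit 624) (nat_lit 7663)))))))))))) (.a (.p (nat_lit 557) (.a (.f (nat_lit 589) (nat_lit 556) (nat_lit 3628) (.f (nat_lit 525) (nat_lit 622) (nat_lit 4589) (.d (nat_lit 620) (nat_lit 588) (nat_lit 5612) (nat_lit 621) (nat_lit 1612)))) (.a (.f (nat_lit 558) (nat_lit 593) (nat_lit 3629) (.d (nat_lit 556) (nat_lit 555) (nat_lit 555) (nat_lit 589) (nat_lit 3628))) (.f (nat_lit 558) (nat_lit 593) (nat_lit 3629) (.f (nat_lit 525) (nat_lit 461) (nat_lit 4557) (.d (nat_lit 622) (nat_lit 526) (nat_lit 7661) (nat_lit 654) (nat_lit 7693))))))) (.a (.p (nat_lit 589) (.a (.f (nat_lit 621) (nat_lit 620) (nat_lit 1612) (.f (nat_lit 622) (nat_lit 593) (nat_lit 1613) (.f (nat_lit 525) (nat_lit 557) (nat_lit 4589) (.f (nat_lit 526) (nat_lit 558) (nat_lit 7661) (.d (nat_lit 527) (nat_lit 492) (nat_lit 3564) (nat_lit 524) (nat_lit 2540)))))) (.a (.f (nat_lit 620) (nat_lit 621) (nat_lit 1612) (.f (nat_lit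 588) (nat_lit 619) (nat_lit 1611) (.f (nat_lit 557) (nat_lit 525) (nat_lit 5612) (.f (nat_lit 623) (nat_lit 560) (nat_lit 5615) (.f (nat_lit 587) (nat_lit 622) (nat_lit 587) (.f (nat_lit 586) (nat_lit 558) (nat_lit 2602) (.d (nat_lit 554) (nat_lit 553) (nat_lit 3625) (nat_lit 555) (nat_lit 3626)))))))) (.a (.f (nat_lit 623) (nat_lit 560) (nat_lit 5615) (.f (nat_lit 588) (nat_lit 624) (nat_lit 588) (.d (nat_lit 620) (nat_lit 619) (nat_lit 1611) (nat_lit 621) (nat_lit 1612)))) (.a (.f (nat_lit 623) (nat_lit 560) (nat_lit 5615) (.f (nat_lit 588) (nat_lit 624) (nat_lit 588) (.f (nat_lit 587) (nat_lit 622) (nat_lit 587) (.d (nat_lit 619) (nat_lit 618) (nat_lit 1610) (nat_lit 620) (nat_lit 1611))))) (.f (nat_lit 623) (nat_lit 560) (nat_lit 5615) (.f (nat_lit 588) (nat_lit 624) (nat_lit 588) (.f (nat_lit 622) (nat_lit 587) (nat_lit 587) (.d (nat_lit 593) (nat_lit 594) (nat_lit 1614) (nat_lit 621) (nat_lit 1613)))))))))) (.a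 (.p (nat_lit 557) (.a (.f (nat_lit 589) (nat_lit 556) (nat_lit 3628) (.f (nat_lit 558) (nat_lit 593) (nat_lit 3629) (.f (nat_lit 525) (nat_lit 461) (nat_lit 4557) (.d (nat_lit 620) (nat_lit 588) (nat_lit 5612) (nat_lit 621) (nat_lit 1612))))) (.a (.f (nat_lit 589) (nat_lit 556) (nat_lit 3628) (.f (nat_lit 620) (nat_lit 621) (nat_lit 1612) (.d (nat_lit 588) (nat_lit 525) (nat_lit 5612) (nat_lit 619) (nat_lit 1611)))) (.a (.f (nat_lit 558) (nat_lit 593) (nat_lit 3629) (.d (nat_lit 556) (nat_lit 555) (nat_lit 555) (nat_lit 589) (nat_lit 3628))) (.a (.f (nat_lit 558) (nat_lit 593) (nat_lit 3629) (.f (nat_lit 525) (nat_lit 461) (nat_lit 4557) (.f (nat_lit 556) (nat_lit 555) (nat_lit 555) (.f (nat_lit 527) (nat_lit 526) (nat_lit 1548) (.d (nat_lit 560) (nat_lit 623) (nat_lit 5615) (nat_lit 624) (nat_lit 7663)))))) (.f (nat_lit 560) (nat_lit 623) (nat_lit 5615) (.f (nat_lit 558) (nat_lit 593) (nat_lit 3629) (.f (nat_lit 525)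 (nat_lit 461) (nat_lit 4557) (.f (nat_lit 527) (nat_lit 624) (nat_lit 7663) (.d (nat_lit 526) (nat_lit 492) (nat_lit 3564) (nat_lit 529) (nat_lit 1549))))))))))) (.a (.p (nat_lit 557) (.a (.f (nat_lit 558) (nat_lit 593) (nat_lit 3629) (.f (nat_lit 525) (nat_lit 461) (nat_lit 4557) (.d (nat_lit 622) (nat_lit 526) (nat_lit 7661) (nat_lit 654) (nat_lit 7693)))) (.a (.f (nat_lit 558) (nat_lit 593) (nat_lit 3629) (.d (nat_lit 556) (nat_lit 555) (nat_lit 555) (nat_lit 589) (nat_lit 3628))) (.f (nat_lit 589) (nat_lit 556) (nat_lit 3628) (.f (nat_lit 525) (nat_lit 622) (nat_lit 4589) (.f (nat_lit 588) (nat_lit 620) (nat_lit 5612) (.d (nat_lit 623) (nat_lit 560) (nat_lit 5615) (nat_lit 624) (nat_lit 588)))))))) (.p (nat_lit 593) (.a (.f (nat_lit 622) (nat_lit 621) (nat_lit 1613) (.f (nat_lit 594) (nat_lit 623) (nat_lit 1614) (.f (nat_lit 563) (nat_lit 562) (nat_lit 2607) (.f (nat_lit 595) (nat_lit 564) (nat_lit 2608) (.d (nat_lit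 627) (nat_lit 626) (nat_lit 591) (nat_lit 628) (nat_lit 592)))))) (.a (.f (nat_lit 623) (nat_lit 560) (nat_lit 5615) (.f (nat_lit 594) (nat_lit 622) (nat_lit 1614) (.f (nat_lit 595) (nat_lit 624) (nat_lit 1615) (.d (nat_lit 627) (nat_lit 626) (nat_lit 591) (nat_lit 628) (nat_lit 592))))) (.a (.f (nat_lit 622) (nat_lit 621) (nat_lit 1613) (.f (nat_lit 558) (nat_lit 557) (nat_lit 3629) (.d (nat_lit 526) (nat_lit 525) (nat_lit 7661) (nat_lit 527) (nat_lit 6638)))) (.f (nat_lit 560) (nat_lit 623) (nat_lit 5615) (.f (nat_lit 557) (nat_lit 558) (nat_lit 3629) (.f (nat_lit 556) (nat_lit 589) (nat_lit 3628) (.f (nat_lit 527) (nat_lit 624) (nat_lit 7663) (.f (nat_lit 525) (nat_lit 526) (nat_lit 1548) (.f (nat_lit 461) (nat_lit 588) (nat_lit 5580) (.f (nat_lit 429) (nat_lit 524) (nat_lit 5548) (.d (nat_lit 430) (nat_lit 398) (nat_lit 6541) (nat_lit 462) (nat_lit 6573))))))))))))))))))))))))))))))) (.a (.p (nat_lit 557) (.a (.p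 (nat_lit 525) (.a s125220 (.a s125129 (.a s125133 (.a (.p (nat_lit 527) (.a (.d (nat_lit 526) (nat_lit 524) (nat_lit 2540) (nat_lit 556) (nat_lit 1548)) (.d (nat_lit 559) (nat_lit 464) (nat_lit 6607) (nat_lit 623) (nat_lit 6639)))) (.a s125188 (.p (nat_lit 590) (.a (.f (nat_lit 558) (nat_lit 461) (nat_lit 4557) (.d (nat_lit 622) (nat_lit 526) (nat_lit 7661) (nat_lit 589) (nat_lit 4589))) (.a (.f (nat_lit 589) (nat_lit 622) (nat_lit 4589) (.f (nat_lit 461) (nat_lit 558) (nat_lit 4557) (.d (nat_lit 460) (nat_lit 428) (nat_lit 7596) (nat_lit 492) (nat_lit 7628)))) (.a (.f (nat_lit 589) (nat_lit 622) (nat_lit 4589) (.f (nat_lit 588) (nat_lit 620) (nat_lit 5612) (.f (nat_lit 492) (nat_lit 460) (nat_lit 7628) (.f (nat_lit 527) (nat_lit 526) (nat_lit 3564) (.d (nat_lit 623) (nat_lit 559) (nat_lit 6639) (nat_lit 624) (nat_lit 588)))))) (.a (.f (nat_lit 558) (nat_lit 461) (nat_lit 4557) (.d (nat_lit 622) (nat_lit 526) (nat_lit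 7661) (nat_lit 654) (nat_lit 7693))) (.f (nat_lit 461) (nat_lit 558) (nat_lit 4557) (.f (nat_lit 460) (nat_lit 428) (nat_lit 7596) (.f (nat_lit 492) (nat_lit 589) (nat_lit 7628) (.f (nat_lit 430) (nat_lit 462) (nat_lit 6573) (.f (nat_lit 429) (nat_lit 398) (nat_lit 6541) (.d (nat_lit 397) (nat_lit 365) (nat_lit 5484) (nat_lit 524) (nat_lit 5516)))))))))))))))))) (.a (.p (nat_lit 525) (.a s125129 (.a s125133 (.a s125164 (.a (.p (nat_lit 556) (.a (.f (nat_lit 461) (nat_lit 588) (nat_lit 5580) (.f (nat_lit 558) (nat_lit 590) (nat_lit 4557) (.d (nat_lit 429) (nat_lit 524) (nat_lit 5548) (nat_lit 526) (nat_lit 4525)))) (.a (.f (nat_lit 461) (nat_lit 588) (nat_lit 5580) (.f (nat_lit 429) (nat_lit 524) (nat_lit 5548) (.d (nat_lit 430) (nat_lit 398) (nat_lit 6541) (nat_lit 462) (nat_lit 6573)))) (.a (.f (nat_lit 461) (nat_lit 588) (nat_lit 5580) (.f (nat_lit 558) (nat_lit 590) (nat_lit 4557) (.f (nat_lit 429) (nat_lit 526)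 (nat_lit 4525) (.d (nat_lit 430) (nat_lit 398) (nat_lit 6541) (nat_lit 462) (nat_lit 6573))))) (.p (nat_lit 555) (.a (.f (nat_lit 558) (nat_lit 590) (nat_lit 555) (.f (nat_lit 554) (nat_lit 526) (nat_lit 2570) (.d (nat_lit 586) (nat_lit 585) (nat_lit 1577) (nat_lit 587) (nat_lit 1578)))) (.a (.f (nat_lit 558) (nat_lit 590) (nat_lit 555) (.f (nat_lit 523) (nat_lit 522) (nat_lit 3594) (.f (nat_lit 524) (nat_lit 559) (nat_lit 3595) (.f (nat_lit 587) (nat_lit 586) (nat_lit 1578) (.d (nat_lit 492) (nat_lit 460) (nat_lit 5579) (nat_lit 619) (nat_lit 6635)))))) (.a (.f (nat_lit 554) (nat_lit 526) (nat_lit 2570) (.f (nat_lit 553) (nat_lit 524) (nat_lit 2569) (.d (nat_lit 585) (nat_lit 584) (nat_lit 1576) (nat_lit 586) (nat_lit 1577)))) (.f (nat_lit 558) (nat_lit 590) (nat_lit 555) (.f (nat_lit 523) (nat_lit 522) (nat_lit 3594) (.f (nat_lit 524) (nat_lit 559) (nat_lit 3595) (.d (nat_lit 554) (nat_lit 526) (nat_lit 2570) (nat_lit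 553) (nat_lit 2569))))))))))))) (.a s125188 (.a s125211 (.a s125571 (.a (.p (nat_lit 589) (.a (.f (nat_lit 492) (nat_lit 460) (nat_lit 7628) (.f (nat_lit 621) (nat_lit 524) (nat_lit 7660) (.d (nat_lit 620) (nat_lit 588) (nat_lit 5612) (nat_lit 652) (nat_lit 5644)))) (.a (.f (nat_lit 590) (nat_lit 622) (nat_lit 4589) (.f (nat_lit 588) (nat_lit 620) (nat_lit 5612) (.f (nat_lit 559) (nat_lit 560) (nat_lit 2604) (.f (nat_lit 558) (nat_lit 587) (nat_lit 2603) (.f (nat_lit 623) (nat_lit 624) (nat_lit 588) (.d (nat_lit 655) (nat_lit 526) (nat_lit 7694) (nat_lit 687) (nat_lit 7726))))))) (.f (nat_lit 492) (nat_lit 460) (nat_lit 7628) (.f (nat_lit 621) (nat_lit 524) (nat_lit 7660) (.d (nat_lit 622) (nat_lit 590) (nat_lit 4589) (nat_lit 654) (nat_lit 4621))))))) s125596))))))))) (.a s125605 (.a (.p (nat_lit 559) (.a (.d (nat_lit 464) (nat_lit 527) (nat_lit 6607) (nat_lit 560) (nat_lit 5583)) (.a (.f (nat_lit 560) (nat_lit 464)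 (nat_lit 5583) (.f (nat_lit 558) (nat_lit 529) (nat_lit 2573) (.f (nat_lit 525) (nat_lit 524) (nat_lit 3596) (.f (nat_lit 589) (nat_lit 588) (nat_lit 1580) (.d (nat_lit 590) (nat_lit 461) (nat_lit 4557) (nat_lit 622) (nat_lit 4589)))))) (.a (.d (nat_lit 527) (nat_lit 464) (nat_lit 6607) (nat_lit 623) (nat_lit 6639)) (.f (nat_lit 527) (nat_lit 623) (nat_lit 6639) (.f (nat_lit 558) (nat_lit 556) (nat_lit 2572) (.d (nat_lit 529) (nat_lit 530) (nat_lit 1550) (nat_lit 560) (nat_lit 2573)))))))) (.a (.p (nat_lit 525) (.a (.p (nat_lit 527) (.a (.d (nat_lit 526) (nat_lit 524) (nat_lit 2540) (nat_lit 556) (nat_lit 1548)) (.d (nat_lit 559) (nat_lit 464) (nat_lit 6607) (nat_lit 623) (nat_lit 6639)))) (.a s125164 (.a (.p (nat_lit 527) (.a (.d (nat_lit 559) (nat_lit 464) (nat_lit 6607) (nat_lit 623) (nat_lit 6639)) (.d (nat_lit 526) (nat_lit 492) (nat_lit 3564) (nat_lit 556) (nat_lit 1548)))) (.p (nat_lit 527) (.a (.d (nat_lit 559)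 (nat_lit 464) (nat_lit 6607) (nat_lit 623) (nat_lit 6639)) (.d (nat_lit 526) (nat_lit 492) (nat_lit 3564) (nat_lit 524) (nat_lit 2540)))))))) (.a (.p (nat_lit 559) (.a (.d (nat_lit 464) (nat_lit 527) (nat_lit 6607) (nat_lit 560) (nat_lit 5583)) (.a (.f (nat_lit 560) (nat_lit 464) (nat_lit 5583) (.f (nat_lit 558) (nat_lit 529) (nat_lit 2573) (.f (nat_lit 588) (nat_lit 589) (nat_lit 1580) (.f (nat_lit 556) (nat_lit 587) (nat_lit 1579) (.f (nat_lit 555) (nat_lit 590) (nat_lit 555) (.d (nat_lit 523) (nat_lit 522) (nat_lit 3594) (nat_lit 524) (nat_lit 3595))))))) (.a (.d (nat_lit 527) (nat_lit 464) (nat_lit 6607) (nat_lit 623) (nat_lit 6639)) (.f (nat_lit 527) (nat_lit 623) (nat_lit 6639) (.f (nat_lit 558) (nat_lit 556) (nat_lit 2572) (.d (nat_lit 529) (nat_lit 530) (nat_lit 1550) (nat_lit 560) (nat_lit 2573)))))))) (.a (.p (nat_lit 559) (.a (.d (nat_lit 464) (nat_lit 527) (nat_lit 6607) (nat_lit 560) (nat_lit 5583)) (.a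 (.f (nat_lit 560) (nat_lit 464) (nat_lit 5583) (.f (nat_lit 558) (nat_lit 529) (nat_lit 2573) (.f (nat_lit 525) (nat_lit 524) (nat_lit 3596) (.f (nat_lit 461) (nat_lit 590) (nat_lit 4557) (.f (nat_lit 429) (nat_lit 526) (nat_lit 4525) (.d (nat_lit 430) (nat_lit 398) (nat_lit 6541) (nat_lit 462) (nat_lit 6573))))))) (.a (.d (nat_lit 527) (nat_lit 464) (nat_lit 6607) (nat_lit 623) (nat_lit 6639)) (.f (nat_lit 527) (nat_lit 623) (nat_lit 6639) (.f (nat_lit 558) (nat_lit 556) (nat_lit 2572) (.d (nat_lit 529) (nat_lit 530) (nat_lit 1550) (nat_lit 560) (nat_lit 2573)))))))) (.a (.p (nat_lit 559) (.a (.d (nat_lit 464) (nat_lit 527) (nat_lit 6607) (nat_lit 560) (nat_lit 5583)) (.a (.f (nat_lit 560) (nat_lit 464) (nat_lit 5583) (.f (nat_lit 558) (nat_lit 529) (nat_lit 2573) (.f (nat_lit 588) (nat_lit 589) (nat_lit 1580) (.f (nat_lit 556) (nat_lit 587) (nat_lit 1579) (.f (nat_lit 525) (nat_lit 461) (nat_lit 5580) (.f (nat_lit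 555) (nat_lit 590) (nat_lit 555) (.f (nat_lit 554) (nat_lit 526) (nat_lit 2570) (.d (nat_lit 522) (nat_lit 521) (nat_lit 3593) (nat_lit 523) (nat_lit 3594))))))))) (.a (.d (nat_lit 527) (nat_lit 464) (nat_lit 6607) (nat_lit 623) (nat_lit 6639)) (.f (nat_lit 527) (nat_lit 623) (nat_lit 6639) (.f (nat_lit 558) (nat_lit 556) (nat_lit 2572) (.d (nat_lit 529) (nat_lit 530) (nat_lit 1550) (nat_lit 560) (nat_lit 2573)))))))) (.p (nat_lit 559) (.a (.d (nat_lit 464) (nat_lit 527) (nat_lit 6607) (nat_lit 560) (nat_lit 5583)) (.a (.f (nat_lit 560) (nat_lit 464) (nat_lit 5583) (.f (nat_lit 558) (nat_lit 529) (nat_lit 2573) (.f (nat_lit 525) (nat_lit 524) (nat_lit 3596) (.f (nat_lit 589) (nat_lit 588) (nat_lit 1580) (.d (nat_lit 590) (nat_lit 461) (nat_lit 4557) (nat_lit 622) (nat_lit 4589)))))) (.a (.d (nat_lit 527) (nat_lit 464) (nat_lit 6607) (nat_lit 623) (nat_lit 6639)) (.f (nat_lit 623) (nat_lit 527) (nat_lit 6639) (.f (nat_lit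 655) (nat_lit 560) (nat_lit 6671) (.f (nat_lit 686) (nat_lit 654) (nat_lit 5678) (.f (nat_lit 687) (nat_lit 718) (nat_lit 5710) (.d (nat_lit 688) (nat_lit 656) (nat_lit 4655) (nat_lit 720) (nat_lit 4687))))))))))))))))))) (.a (.p (nat_lit 559) (.a (.d (nat_lit 464) (nat_lit 527) (nat_lit 6607) (nat_lit 560) (nat_lit 5583)) (.a (.f (nat_lit 560) (nat_lit 464) (nat_lit 5583) (.d (nat_lit 623) (nat_lit 592) (nat_lit 5615) (nat_lit 655) (nat_lit 6671))) (.a (.d (nat_lit 527) (nat_lit 464) (nat_lit 6607) (nat_lit 623) (nat_lit 6639)) (.f (nat_lit 623) (nat_lit 527) (nat_lit 6639) (.d (nat_lit 560) (nat_lit 592) (nat_lit 5615) (nat_lit 655) (nat_lit 6671))))))) (.p (nat_lit 557) (.a (.p (nat_lit 525) (.a s125220 (.a s125129 (.a s125133 (.a s125227 (.a s125244 (.a s125262 (.a s125211 (.a s125188 (.a s125197 (.a (.p (nat_lit 589) (.a (.f (nat_lit 590) (nat_lit 622) (nat_lit 4589) (.f (nat_lit 556) (nat_lit 592) (nat_lit 3628)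 (.d (nat_lit 588) (nat_lit 555) (nat_lit 3627) (nat_lit 620) (nat_lit 5612)))) (.a (.f (nat_lit 492) (nat_lit 460) (nat_lit 7628) (.f (nat_lit 621) (nat_lit 524) (nat_lit 7660) (.d (nat_lit 620) (nat_lit 588) (nat_lit 5612) (nat_lit 652) (nat_lit 5644)))) (.f (nat_lit 492) (nat_lit 460) (nat_lit 7628) (.f (nat_lit 621) (nat_lit 524) (nat_lit 7660) (.d (nat_lit 622) (nat_lit 590) (nat_lit 4589) (nat_lit 654) (nat_lit 4621))))))) s125210))))))))))) (.a (.p (nat_lit 590) (.a (.p (nat_lit 525) (.a (.f (nat_lit 558) (nat_lit 461) (nat_lit 4557) (.d (nat_lit 622) (nat_lit 526) (nat_lit 7661) (nat_lit 589) (nat_lit 4589))) (.a (.f (nat_lit 589) (nat_lit 622) (nat_lit 4589) (.f (nat_lit 588) (nat_lit 620) (nat_lit 5612) (.d (nat_lit 461) (nat_lit 556) (nat_lit 5580) (nat_lit 558) (nat_lit 4557)))) (.a (.f (nat_lit 589) (nat_lit 622) (nat_lit 4589) (.f (nat_lit 588) (nat_lit 620) (nat_lit 5612) (.d (nat_lit 556) (nat_lit 461)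 (nat_lit 5580) (nat_lit 555) (nat_lit 3627)))) (.a (.f (nat_lit 558) (nat_lit 461) (nat_lit 4557) (.d (nat_lit 622) (nat_lit 526) (nat_lit 7661) (nat_lit 654) (nat_lit 7693))) (.a (.f (nat_lit 589) (nat_lit 622) (nat_lit 4589) (.f (nat_lit 588) (nat_lit 620) (nat_lit 5612) (.f (nat_lit 556) (nat_lit 555) (nat_lit 3627) (.f (nat_lit 492) (nat_lit 460) (nat_lit 7628) (.f (nat_lit 524) (nat_lit 621) (nat_lit 4588) (.f (nat_lit 587) (nat_lit 619) (nat_lit 5611) (.d (nat_lit 586) (nat_lit 558) (nat_lit 2602) (nat_lit 585) (nat_lit 2601)))))))) (.f (nat_lit 461) (nat_lit 558) (nat_lit 4557) (.f (nat_lit 556) (nat_lit 588) (nat_lit 5580) (.f (nat_lit 429) (nat_lit 524) (nat_lit 5548) (.d (nat_lit 430) (nat_lit 398) (nat_lit 6541) (nat_lit 462) (nat_lit 6573))))))))))) (.a s125660 (.a s125669 (.a s125672 (.a (.p (nat_lit 558) (.a (.f (nat_lit 525) (nat_lit 461) (nat_lit 4557) (.d (nat_lit 622) (nat_lit 526) (nat_lit 7661) (nat_lit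 654) (nat_lit 7693))) (.f (nat_lit 556) (nat_lit 555) (nat_lit 555) (.d (nat_lit 592) (nat_lit 559) (nat_lit 556) (nat_lit 593) (nat_lit 3629))))) s125677)))))) (.a (.p (nat_lit 590) (.a s125660 (.a s125669 (.a s125672 (.a (.p (nat_lit 559) (.a (.d (nat_lit 527) (nat_lit 464) (nat_lit 6607) (nat_lit 622) (nat_lit 5614)) (.a (.f (nat_lit 560) (nat_lit 464) (nat_lit 5583) (.f (nat_lit 558) (nat_lit 529) (nat_lit 2573) (.d (nat_lit 556) (nat_lit 555) (nat_lit 555) (nat_lit 592) (nat_lit 556)))) (.f (nat_lit 527) (nat_lit 622) (nat_lit 5614) (.f (nat_lit 558) (nat_lit 556) (nat_lit 2572) (.d (nat_lit 592) (nat_lit 593) (nat_lit 3629) (nat_lit 624) (nat_lit 4591))))))) (.p (nat_lit 525) (.a (.f (nat_lit 589) (nat_lit 622) (nat_lit 4589) (.f (nat_lit 461) (nat_lit 558) (nat_lit 4557) (.d (nat_lit 460) (nat_lit 428) (nat_lit 7596) (nat_lit 492) (nat_lit 7628)))) (.a (.f (nat_lit 589) (nat_lit 622) (nat_lit 4589) (.f (nat_lit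 620) (nat_lit 588) (nat_lit 5612) (.d (nat_lit 621) (nat_lit 592) (nat_lit 1612) (nat_lit 652) (nat_lit 5644)))) (.f (nat_lit 461) (nat_lit 558) (nat_lit 4557) (.f (nat_lit 428) (nat_lit 460) (nat_lit 7596) (.f (nat_lit 429) (nat_lit 396) (nat_lit 7564) (.d (nat_lit 430) (nat_lit 398) (nat_lit 6541) (nat_lit 462) (nat_lit 6573))))))))))))) (.a s125605 (.a (.p (nat_lit 525) (.a s125227 (.a (.p (nat_lit 589) (.a (.f (nat_lit 590) (nat_lit 622) (nat_lit 4589) (.f (nat_lit 556) (nat_lit 592) (nat_lit 3628) (.d (nat_lit 588) (nat_lit 555) (nat_lit 3627) (nat_lit 620) (nat_lit 5612)))) (.a (.f (nat_lit 492) (nat_lit 460) (nat_lit 7628) (.f (nat_lit 621) (nat_lit 524) (nat_lit 7660) (.d (nat_lit 620) (nat_lit 588) (nat_lit 5612) (nat_lit 652) (nat_lit 5644)))) (.f (nat_lit 492) (nat_lit 460) (nat_lit 7628) (.f (nat_lit 621) (nat_lit 524) (nat_lit 7660) (.d (nat_lit 622) (nat_lit 590) (nat_lit 4589) (nat_lit 654) (nat_lit 4621)))))))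 (.a s125164 (.a (.p (nat_lit 527) (.a (.d (nat_lit 526) (nat_lit 524) (nat_lit 2540) (nat_lit 556) (nat_lit 1548)) (.f (nat_lit 464) (nat_lit 559) (nat_lit 6607) (.f (nat_lit 432) (nat_lit 400) (nat_lit 5519) (.f (nat_lit 433) (nat_lit 401) (nat_lit 6544) (.f (nat_lit 431) (nat_lit 399) (nat_lit 7567) (.f (nat_lit 465) (nat_lit 560) (nat_lit 6576) (.d (nat_lit 430) (nat_lit 429) (nat_lit 429) (nat_lit 466) (nat_lit 430))))))))) (.a (.p (nat_lit 527) (.a (.d (nat_lit 526) (nat_lit 492) (nat_lit 3564) (nat_lit 556) (nat_lit 1548)) (.f (nat_lit 464) (nat_lit 559) (nat_lit 6607) (.f (nat_lit 432) (nat_lit 400) (nat_lit 5519) (.f (nat_lit 433) (nat_lit 401) (nat_lit 6544) (.f (nat_lit 431) (nat_lit 399) (nat_lit 7567) (.f (nat_lit 465) (nat_lit 560) (nat_lit 6576) (.d (nat_lit 430) (nat_lit 429) (nat_lit 429) (nat_lit 466) (nat_lit 430))))))))) (.p (nat_lit 527) (.a (.d (nat_lit 526) (nat_lit 492) (nat_lit 3564) (nat_lit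 524) (nat_lit 2540)) (.f (nat_lit 464) (nat_lit 559) (nat_lit 6607) (.f (nat_lit 432) (nat_lit 400) (nat_lit 5519) (.f (nat_lit 433) (nat_lit 401) (nat_lit 6544) (.f (nat_lit 431) (nat_lit 399) (nat_lit 7567) (.f (nat_lit 465) (nat_lit 560) (nat_lit 6576) (.d (nat_lit 430) (nat_lit 429) (nat_lit 429) (nat_lit 466) (nat_lit 430))))))))))))))) (.a (.p (nat_lit 559) (.a (.d (nat_lit 464) (nat_lit 527) (nat_lit 6607) (nat_lit 560) (nat_lit 5583)) (.a (.f (nat_lit 560) (nat_lit 464) (nat_lit 5583) (.f (nat_lit 558) (nat_lit 529) (nat_lit 2573) (.f (nat_lit 588) (nat_lit 589) (nat_lit 1580) (.f (nat_lit 556) (nat_lit 587) (nat_lit 1579) (.f (nat_lit 555) (nat_lit 590) (nat_lit 555) (.d (nat_lit 523) (nat_lit 522) (nat_lit 3594) (nat_lit 524) (nat_lit 3595))))))) (.a (.f (nat_lit 527) (nat_lit 464) (nat_lit 6607) (.f (nat_lit 558) (nat_lit 556) (nat_lit 2572) (.d (nat_lit 529) (nat_lit 526) (nat_lit 1549) (nat_lit 530) (nat_lit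 1550)))) (.p (nat_lit 592) (.a (.f (nat_lit 558) (nat_lit 556) (nat_lit 556) (.d (nat_lit 593) (nat_lit 590) (nat_lit 3629) (nat_lit 594) (nat_lit 3630))) (.a (.f (nat_lit 527) (nat_lit 624) (nat_lit 4591) (.f (nat_lit 590) (nat_lit 622) (nat_lit 5614) (.f (nat_lit 589) (nat_lit 556) (nat_lit 3628) (.f (nat_lit 588) (nat_lit 560) (nat_lit 2604) (.d (nat_lit 620) (nat_lit 619) (nat_lit 1611) (nat_lit 621) (nat_lit 1612)))))) (.a (.f (nat_lit 558) (nat_lit 556) (nat_lit 556) (.d (nat_lit 593) (nat_lit 560) (nat_lit 557) (nat_lit 594) (nat_lit 3630))) (.f (nat_lit 527) (nat_lit 624) (nat_lit 4591) (.f (nat_lit 590) (nat_lit 622) (nat_lit 5614) (.f (nat_lit 558) (nat_lit 593) (nat_lit 3629) (.d (nat_lit 529) (nat_lit 530) (nat_lit 1550) (nat_lit 560) (nat_lit 2573))))))))))))) (.a (.p (nat_lit 525) (.a s125244 (.a s125164 (.a (.p (nat_lit 527) (.a (.d (nat_lit 526) (nat_lit 524) (nat_lit 2540) (nat_lit 556) (nat_lit 1548))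 (.f (nat_lit 464) (nat_lit 559) (nat_lit 6607) (.f (nat_lit 432) (nat_lit 400) (nat_lit 5519) (.f (nat_lit 433) (nat_lit 401) (nat_lit 6544) (.f (nat_lit 431) (nat_lit 399) (nat_lit 7567) (.f (nat_lit 465) (nat_lit 560) (nat_lit 6576) (.d (nat_lit 430) (nat_lit 429) (nat_lit 429) (nat_lit 466) (nat_lit 430))))))))) (.a (.p (nat_lit 527) (.a (.d (nat_lit 526) (nat_lit 524) (nat_lit 2540) (nat_lit 556) (nat_lit 1548)) (.a (.f (nat_lit 559) (nat_lit 464) (nat_lit 6607) (.f (nat_lit 558) (nat_lit 556) (nat_lit 2572) (.d (nat_lit 560) (nat_lit 524) (nat_lit 3596) (nat_lit 529) (nat_lit 2573)))) (.a (.d (nat_lit 526) (nat_lit 492) (nat_lit 3564) (nat_lit 556) (nat_lit 1548)) (.d (nat_lit 526) (nat_lit 492) (nat_lit 3564) (nat_lit 524) (nat_lit 2540)))))) (.a (.p (nat_lit 527) (.a (.d (nat_lit 526) (nat_lit 492) (nat_lit 3564) (nat_lit 556) (nat_lit 1548)) (.f (nat_lit 464) (nat_lit 559) (nat_lit 6607) (.f (nat_lit 432) (nat_lit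 400) (nat_lit 5519) (.f (nat_lit 433) (nat_lit 401) (nat_lit 6544) (.f (nat_lit 431) (nat_lit 399) (nat_lit 7567) (.f (nat_lit 465) (nat_lit 560) (nat_lit 6576) (.d (nat_lit 430) (nat_lit 429) (nat_lit 429) (nat_lit 466) (nat_lit 430))))))))) (.p (nat_lit 527) (.a (.d (nat_lit 526) (nat_lit 492) (nat_lit 3564) (nat_lit 524) (nat_lit 2540)) (.f (nat_lit 464) (nat_lit 559) (nat_lit 6607) (.f (nat_lit 432) (nat_lit 400) (nat_lit 5519) (.f (nat_lit 433) (nat_lit 401) (nat_lit 6544) (.f (nat_lit 431) (nat_lit 399) (nat_lit 7567) (.f (nat_lit 465) (nat_lit 560) (nat_lit 6576) (.d (nat_lit 430) (nat_lit 429) (nat_lit 429) (nat_lit 466) (nat_lit 430))))))))))))))) (.a (.p (nat_lit 525) (.a s125262 (.a (.p (nat_lit 461) (.a (.f (nat_lit 556) (nat_lit 588) (nat_lit 5580) (.f (nat_lit 429) (nat_lit 524) (nat_lit 5548) (.d (nat_lit 430) (nat_lit 398) (nat_lit 6541) (nat_lit 462) (nat_lit 6573)))) (.a (.f (nat_lit 556) (nat_lit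 588) (nat_lit 5580) (.f (nat_lit 558) (nat_lit 590) (nat_lit 4557) (.d (nat_lit 559) (nat_lit 527) (nat_lit 2572) (nat_lit 592) (nat_lit 556)))) (.f (nat_lit 428) (nat_lit 460) (nat_lit 7596) (.f (nat_lit 429) (nat_lit 396) (nat_lit 7564) (.d (nat_lit 430) (nat_lit 398) (nat_lit 6541) (nat_lit 462) (nat_lit 6573))))))) (.a s125181 (.a (.p (nat_lit 527) (.a (.d (nat_lit 526) (nat_lit 524) (nat_lit 2540) (nat_lit 556) (nat_lit 1548)) (.f (nat_lit 464) (nat_lit 559) (nat_lit 6607) (.f (nat_lit 432) (nat_lit 400) (nat_lit 5519) (.f (nat_lit 433) (nat_lit 401) (nat_lit 6544) (.f (nat_lit 431) (nat_lit 399) (nat_lit 7567) (.f (nat_lit 465) (nat_lit 560) (nat_lit 6576) (.d (nat_lit 430) (nat_lit 429) (nat_lit 429) (nat_lit 466) (nat_lit 430))))))))) (.a (.p (nat_lit 527) (.a (.d (nat_lit 526) (nat_lit 524) (nat_lit 2540) (nat_lit 556) (nat_lit 1548)) (.a (.f (nat_lit 559) (nat_lit 464) (nat_lit 6607) (.f (nat_lit 558) (nat_lit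 556) (nat_lit 2572) (.d (nat_lit 560) (nat_lit 524) (nat_lit 3596) (nat_lit 529) (nat_lit 2573)))) (.a (.d (nat_lit 526) (nat_lit 492) (nat_lit 3564) (nat_lit 556) (nat_lit 1548)) (.d (nat_lit 526) (nat_lit 492) (nat_lit 3564) (nat_lit 524) (nat_lit 2540)))))) (.a (.p (nat_lit 527) (.a (.d (nat_lit 526) (nat_lit 492) (nat_lit 3564) (nat_lit 556) (nat_lit 1548)) (.f (nat_lit 464) (nat_lit 559) (nat_lit 6607) (.f (nat_lit 432) (nat_lit 400) (nat_lit 5519) (.f (nat_lit 433) (nat_lit 401) (nat_lit 6544) (.f (nat_lit 431) (nat_lit 399) (nat_lit 7567) (.f (nat_lit 465) (nat_lit 560) (nat_lit 6576) (.d (nat_lit 430) (nat_lit 429) (nat_lit 429) (nat_lit 466) (nat_lit 430))))))))) (.p (nat_lit 527) (.a (.d (nat_lit 526) (nat_lit 492) (nat_lit 3564) (nat_lit 524) (nat_lit 2540)) (.f (nat_lit 464) (nat_lit 559) (nat_lit 6607) (.f (nat_lit 432) (nat_lit 400) (nat_lit 5519) (.f (nat_lit 433) (nat_lit 401) (nat_lit 6544) (.f (nat_lit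 431) (nat_lit 399) (nat_lit 7567) (.f (nat_lit 465) (nat_lit 560) (nat_lit 6576) (.d (nat_lit 430) (nat_lit 429) (nat_lit 429) (nat_lit 466) (nat_lit 430)))))))))))))))) (.a (.p (nat_lit 590) (.a (.p (nat_lit 558) (.a (.f (nat_lit 525) (nat_lit 461) (nat_lit 4557) (.d (nat_lit 622) (nat_lit 526) (nat_lit 7661) (nat_lit 654) (nat_lit 7693))) (.f (nat_lit 556) (nat_lit 555) (nat_lit 555) (.d (nat_lit 592) (nat_lit 559) (nat_lit 556) (nat_lit 593) (nat_lit 3629))))) (.a s125677 (.a s125672 (.a (.p (nat_lit 525) (.a (.f (nat_lit 558) (nat_lit 461) (nat_lit 4557) (.d (nat_lit 622) (nat_lit 526) (nat_lit 7661) (nat_lit 589) (nat_lit 4589))) (.a (.f (nat_lit 589) (nat_lit 622) (nat_lit 4589) (.f (nat_lit 588) (nat_lit 620) (nat_lit 5612) (.d (nat_lit 461) (nat_lit 556) (nat_lit 5580) (nat_lit 558) (nat_lit 4557)))) (.a (.f (nat_lit 589) (nat_lit 622) (nat_lit 4589) (.f (nat_lit 588) (nat_lit 620) (nat_lit 5612) (.d (nat_lit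 556) (nat_lit 461) (nat_lit 5580) (nat_lit 555) (nat_lit 3627)))) (.a (.f (nat_lit 558) (nat_lit 461) (nat_lit 4557) (.d (nat_lit 622) (nat_lit 526) (nat_lit 7661) (nat_lit 654) (nat_lit 7693))) (.a (.f (nat_lit 461) (nat_lit 558) (nat_lit 4557) (.f (nat_lit 588) (nat_lit 556) (nat_lit 5580) (.f (nat_lit 589) (nat_lit 620) (nat_lit 5612) (.d (nat_lit 460) (nat_lit 428) (nat_lit 7596) (nat_lit 492) (nat_lit 7628))))) (.f (nat_lit 622) (nat_lit 589) (nat_lit 4589) (.d (nat_lit 558) (nat_lit 526) (nat_lit 7661) (nat_lit 654) (nat_lit 7693))))))))) (.p (nat_lit 589) (.a (.f (nat_lit 525) (nat_lit 622) (nat_lit 4589) (.f (nat_lit 588) (nat_lit 620) (nat_lit 5612) (.d (nat_lit 556) (nat_lit 461) (nat_lit 5580) (nat_lit 555) (nat_lit 3627)))) (.a (.f (nat_lit 556) (nat_lit 592) (nat_lit 3628) (.d (nat_lit 555) (nat_lit 554) (nat_lit 554) (nat_lit 588) (nat_lit 3627))) (.a (.f (nat_lit 525) (nat_lit 622) (nat_lit 4589) (.f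 (nat_lit 620) (nat_lit 588) (nat_lit 5612) (.d (nat_lit 621) (nat_lit 592) (nat_lit 1612) (nat_lit 652) (nat_lit 5644)))) (.f (nat_lit 592) (nat_lit 556) (nat_lit 3628) (.f (nat_lit 622) (nat_lit 525) (nat_lit 4589) (.d (nat_lit 621) (nat_lit 593) (nat_lit 1613) (nat_lit 620) (nat_lit 1612))))))))))))) (.a (.p (nat_lit 525) (.a s125197 (.a (.p (nat_lit 590) (.a (.f (nat_lit 589) (nat_lit 622) (nat_lit 4589) (.f (nat_lit 461) (nat_lit 558) (nat_lit 4557) (.d (nat_lit 460) (nat_lit 428) (nat_lit 7596) (nat_lit 492) (nat_lit 7628)))) (.a (.f (nat_lit 589) (nat_lit 622) (nat_lit 4589) (.f (nat_lit 620) (nat_lit 588) (nat_lit 5612) (.d (nat_lit 621) (nat_lit 592) (nat_lit 1612) (nat_lit 652) (nat_lit 5644)))) (.f (nat_lit 461) (nat_lit 558) (nat_lit 4557) (.f (nat_lit 428) (nat_lit 460) (nat_lit 7596) (.f (nat_lit 429) (nat_lit 396) (nat_lit 7564) (.d (nat_lit 430) (nat_lit 398) (nat_lit 6541) (nat_lit 462) (nat_lit 6573))))))))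 (.a s125571 (.a (.p (nat_lit 527) (.a (.d (nat_lit 526) (nat_lit 492) (nat_lit 3564) (nat_lit 524) (nat_lit 2540)) (.f (nat_lit 464) (nat_lit 559) (nat_lit 6607) (.f (nat_lit 432) (nat_lit 400) (nat_lit 5519) (.f (nat_lit 433) (nat_lit 401) (nat_lit 6544) (.f (nat_lit 431) (nat_lit 399) (nat_lit 7567) (.f (nat_lit 465) (nat_lit 560) (nat_lit 6576) (.d (nat_lit 430) (nat_lit 429) (nat_lit 429) (nat_lit 466) (nat_lit 430))))))))) (.p (nat_lit 590) (.a (.f (nat_lit 558) (nat_lit 461) (nat_lit 4557) (.d (nat_lit 622) (nat_lit 526) (nat_lit 7661) (nat_lit 589) (nat_lit 4589))) (.a (.f (nat_lit 589) (nat_lit 622) (nat_lit 4589) (.f (nat_lit 620) (nat_lit 588) (nat_lit 5612) (.d (nat_lit 621) (nat_lit 592) (nat_lit 1612) (nat_lit 652) (nat_lit 5644)))) (.a (.f (nat_lit 558) (nat_lit 461) (nat_lit 4557) (.d (nat_lit 622) (nat_lit 526) (nat_lit 7661) (nat_lit 654) (nat_lit 7693))) (.f (nat_lit 461) (nat_lit 558) (nat_lit 4557)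 (.f (nat_lit 428) (nat_lit 460) (nat_lit 7596) (.f (nat_lit 429) (nat_lit 396) (nat_lit 7564) (.d (nat_lit 430) (nat_lit 398) (nat_lit 6541) (nat_lit 462) (nat_lit 6573)))))))))))))) (.p (nat_lit 590) (.a (.p (nat_lit 558) (.a (.f (nat_lit 525) (nat_lit 461) (nat_lit 4557) (.d (nat_lit 622) (nat_lit 526) (nat_lit 7661) (nat_lit 654) (nat_lit 7693))) (.f (nat_lit 556) (nat_lit 555) (nat_lit 555) (.d (nat_lit 592) (nat_lit 559) (nat_lit 556) (nat_lit 593) (nat_lit 3629))))) (.a (.p (nat_lit 592) (.a (.f (nat_lit 558) (nat_lit 593) (nat_lit 3629) (.f (nat_lit 525) (nat_lit 461) (nat_lit 4557) (.d (nat_lit 622) (nat_lit 526) (nat_lit 7661) (nat_lit 654) (nat_lit 7693)))) (.a (.f (nat_lit 558) (nat_lit 593) (nat_lit 3629) (.d (nat_lit 556) (nat_lit 555) (nat_lit 555) (nat_lit 589) (nat_lit 3628))) (.a (.f (nat_lit 589) (nat_lit 556) (nat_lit 3628) (.f (nat_lit 625) (nat_lit 624) (nat_lit 589) (.d (nat_lit 593) (nat_lit 560)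 (nat_lit 4592) (nat_lit 626) (nat_lit 590)))) (.f (nat_lit 589) (nat_lit 556) (nat_lit 3628) (.f (nat_lit 525) (nat_lit 622) (nat_lit 4589) (.f (nat_lit 461) (nat_lit 558) (nat_lit 4557) (.d (nat_lit 460) (nat_lit 428) (nat_lit 7596) (nat_lit 492) (nat_lit 7628))))))))) (.a s125672 (.a (.p (nat_lit 525) (.a (.f (nat_lit 558) (nat_lit 461) (nat_lit 4557) (.d (nat_lit 622) (nat_lit 526) (nat_lit 7661) (nat_lit 589) (nat_lit 4589))) (.a (.f (nat_lit 589) (nat_lit 622) (nat_lit 4589) (.f (nat_lit 461) (nat_lit 558) (nat_lit 4557) (.d (nat_lit 460) (nat_lit 428) (nat_lit 7596) (nat_lit 492) (nat_lit 7628)))) (.a (.f (nat_lit 589) (nat_lit 622) (nat_lit 4589) (.f (nat_lit 492) (nat_lit 460) (nat_lit 7628) (.f (nat_lit 527) (nat_lit 526) (nat_lit 3564) (.f (nat_lit 464) (nat_lit 559) (nat_lit 6607) (.f (nat_lit 432) (nat_lit 400) (nat_lit 5519) (.f (nat_lit 433) (nat_lit 401) (nat_lit 6544) (.f (nat_lit 431) (nat_lit 399)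 (nat_lit 7567) (.f (nat_lit 465) (nat_lit 560) (nat_lit 6576) (.d (nat_lit 430) (nat_lit 429) (nat_lit 429) (nat_lit 466) (nat_lit 430)))))))))) (.a (.f (nat_lit 558) (nat_lit 461) (nat_lit 4557) (.d (nat_lit 622) (nat_lit 526) (nat_lit 7661) (nat_lit 654) (nat_lit 7693))) (.f (nat_lit 461) (nat_lit 558) (nat_lit 4557) (.f (nat_lit 460) (nat_lit 428) (nat_lit 7596) (.f (nat_lit 492) (nat_lit 589) (nat_lit 7628) (.f (nat_lit 430) (nat_lit 462) (nat_lit 6573) (.f (nat_lit 429) (nat_lit 398) (nat_lit 6541) (.d (nat_lit 397) (nat_lit 365) (nat_lit 5484) (nat_lit 524) (nat_lit 5516)))))))))))) (.p (nat_lit 589) (.a (.f (nat_lit 592) (nat_lit 556) (nat_lit 3628) (.f (nat_lit 622) (nat_lit 525) (nat_lit 4589) (.d (nat_lit 621) (nat_lit 593) (nat_lit 1613) (nat_lit 620) (nat_lit 1612)))) (.a (.f (nat_lit 525) (nat_lit 622) (nat_lit 4589) (.f (nat_lit 492) (nat_lit 460) (nat_lit 7628) (.f (nat_lit 527) (nat_lit 526) (nat_lit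 3564) (.f (nat_lit 464) (nat_lit 559) (nat_lit 6607) (.f (nat_lit 432) (nat_lit 400) (nat_lit 5519) (.f (nat_lit 433) (nat_lit 401) (nat_lit 6544) (.f (nat_lit 431) (nat_lit 399) (nat_lit 7567) (.f (nat_lit 465) (nat_lit 560) (nat_lit 6576) (.d (nat_lit 430) (nat_lit 429) (nat_lit 429) (nat_lit 466) (nat_lit 430)))))))))) (.f (nat_lit 592) (nat_lit 556) (nat_lit 3628) (.f (nat_lit 624) (nat_lit 625) (nat_lit 589) (.d (nat_lit 527) (nat_lit 559) (nat_lit 4591) (nat_lit 560) (nat_lit 7663))))))))))))))))))))))))))))))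
noncomputable def s125769 : Cert := .r (nat_lit 878694100803598413007946602596154865888075138938653284219028646789808093233912518084625873524972754192647442591005176465710371121077848209186231220012276776960) (.p (nat_lit 493) (.a (.f (nat_lit 494) (nat_lit 529) (nat_lit 493) (.f (nat_lit 492) (nat_lit 527) (nat_lit 492) (.d (nat_lit 524) (nat_lit 523) (nat_lit 1515) (nat_lit 525) (nat_lit 1516)))) (.a (.p (nat_lit 464) (.a (.d (nat_lit 494) (nat_lit 465) (nat_lit 2509) (nat_lit 529) (nat_lit 493)) (.a (.f (nat_lit 465) (nat_lit 494) (nat_lit 2509) (.f (nat_lit 433) (nat_lit 560) (nat_lit 6576) (.d (nat_lit 401) (nat_lit 369) (nat_lit 5488) (nat_lit 432) (nat_lit 6544)))) (.a (.p (nat_lit 527) (.a (.d (nat_lit 432) (nat_lit 400) (nat_lit 5519) (nat_lit 559) (nat_lit 5551)) (.a (.f (nat_lit 494) (nat_lit 529) (nat_lit 493) (.f (nat_lit 432) (nat_lit 400) (nat_lit 5519) (.f (nat_lit 525) (nat_lit 524) (nat_lit 1516) (.f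 (nat_lit 461) (nat_lit 460) (nat_lit 3532) (.f (nat_lit 433) (nat_lit 401) (nat_lit 6544) (.f (nat_lit 431) (nat_lit 399) (nat_lit 7567) (.f (nat_lit 430) (nat_lit 462) (nat_lit 1453) (.d (nat_lit 398) (nat_lit 397) (nat_lit 3469) (nat_lit 429) (nat_lit 6541))))))))) (.f (nat_lit 529) (nat_lit 494) (nat_lit 493) (.f (nat_lit 559) (nat_lit 591) (nat_lit 6607) (.d (nat_lit 530) (nat_lit 531) (nat_lit 3567) (nat_lit 558) (nat_lit 1550))))))) (.p (nat_lit 432) (.a (.d (nat_lit 527) (nat_lit 400) (nat_lit 5519) (nat_lit 559) (nat_lit 5551)) (.f (nat_lit 433) (nat_lit 401) (nat_lit 6544) (.f (nat_lit 431) (nat_lit 399) (nat_lit 7567) (.f (nat_lit 465) (nat_lit 560) (nat_lit 6576) (.d (nat_lit 430) (nat_lit 429) (nat_lit 429) (nat_lit 466) (nat_lit 430))))))))))) (.a s125747 (.a (.f (nat_lit 494) (nat_lit 529) (nat_lit 493) (.f (nat_lit 527) (nat_lit 492) (nat_lit 492) (.f (nat_lit 464) (nat_lit 465) (nat_lit 2509) (.d (nat_lit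 432) (nat_lit 400) (nat_lit 5519) (nat_lit 559) (nat_lit 5551))))) (.a (.f (nat_lit 494) (nat_lit 529) (nat_lit 493) (.f (nat_lit 524) (nat_lit 525) (nat_lit 1516) (.f (nat_lit 492) (nat_lit 523) (nat_lit 1515) (.d (nat_lit 460) (nat_lit 459) (nat_lit 3531) (nat_lit 461) (nat_lit 3532))))) (.p (nat_lit 464) (.a (.f (nat_lit 494) (nat_lit 465) (nat_lit 2509) (.f (nat_lit 527) (nat_lit 492) (nat_lit 492) (.d (nat_lit 432) (nat_lit 400) (nat_lit 5519) (nat_lit 559) (nat_lit 5551)))) (.a (.f (nat_lit 465) (nat_lit 494) (nat_lit 2509) (.f (nat_lit 433) (nat_lit 560) (nat_lit 6576) (.d (nat_lit 401) (nat_lit 369) (nat_lit 5488) (nat_lit 432) (nat_lit 6544)))) (.a (.f (nat_lit 494) (nat_lit 465) (nat_lit 2509) (.f (nat_lit 492) (nat_lit 527) (nat_lit 492) (.d (nat_lit 524) (nat_lit 523) (nat_lit 1515) (nat_lit 525) (nat_lit 1516)))) (.a (.p (nat_lit 432) (.a (.d (nat_lit 527) (nat_lit 400) (nat_lit 5519) (nat_lit 559) (nat_lit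 5551)) (.a (.f (nat_lit 399) (nat_lit 431) (nat_lit 7567) (.f (nat_lit 400) (nat_lit 367) (nat_lit 7535) (.d (nat_lit 401) (nat_lit 369) (nat_lit 6512) (nat_lit 433) (nat_lit 6544)))) (.f (nat_lit 527) (nat_lit 559) (nat_lit 5551) (.f (nat_lit 494) (nat_lit 492) (nat_lit 492) (.f (nat_lit 525) (nat_lit 524) (nat_lit 1516) (.f (nat_lit 461) (nat_lit 460) (nat_lit 3532) (.f (nat_lit 431) (nat_lit 399) (nat_lit 7567) (.f (nat_lit 433) (nat_lit 401) (nat_lit 6544) (.f (nat_lit 430) (nat_lit 462) (nat_lit 1453) (.d (nat_lit 398) (nat_lit 397) (nat_lit 3469) (nat_lit 429) (nat_lit 6541)))))))))))) (.p (nat_lit 432) (.a (.d (nat_lit 527) (nat_lit 400) (nat_lit 5519) (nat_lit 559) (nat_lit 5551)) (.f (nat_lit 433) (nat_lit 401) (nat_lit 6544) (.f (nat_lit 431) (nat_lit 399) (nat_lit 7567) (.f (nat_lit 465) (nat_lit 560) (nat_lit 6576) (.d (nat_lit 430) (nat_lit 429) (nat_lit 429) (nat_lit 466) (nat_lit 430))))))))))))))))))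
noncomputable def s125806 : Cert := .r (nat_lit 16209045194715341169889328670588751240138583588210095226912552011418972129046325256055812605269663439700557635641834836967142346379103008392068268574396953113201668683198818680832) (.p (nat_lit 530) (.a (.f (nat_lit 497) (nat_lit 465) (nat_lit 6608) (.d (nat_lit 531) (nat_lit 498) (nat_lit 495) (nat_lit 529) (nat_lit 3567))) (.a (.f (nat_lit 497) (nat_lit 465) (nat_lit 6608) (.f (nat_lit 498) (nat_lit 531) (nat_lit 495) (.f (nat_lit 499) (nat_lit 527) (nat_lit 1519) (.d (nat_lit 467) (nat_lit 466) (nat_lit 2511) (nat_lit 468) (nat_lit 2512))))) (.a (.f (nat_lit 529) (nat_lit 531) (nat_lit 3567) (.d (nat_lit 494) (nat_lit 493) (nat_lit 493) (nat_lit 527) (nat_lit 3566))) (.f (nat_lit 497) (nat_lit 465) (nat_lit 6608) (.f (nat_lit 494) (nat_lit 529) (nat_lit 494) (.f (nat_lit 461) (nat_lit 462) (nat_lit 3533) (.f (nat_lit 493) (nat_lit 460) (nat_lit 3532) (.f (nat_lit 524)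 (nat_lit 525) (nat_lit 1516) (.d (nat_lit 492) (nat_lit 523) (nat_lit 1515) (nat_lit 527) (nat_lit 492)))))))))))
noncomputable def s126019 : Cert := .r (nat_lit 878694100599011500014437735720330509836350191925113156341337097447102382727904155809333713844768373422278432769074758707737866683001769675068394154179243802624) (.p (nat_lit 496) (.a (.p (nat_lit 494) (.a (.f (nat_lit 493) (nat_lit 529) (nat_lit 493) (.f (nat_lit 525) (nat_lit 524) (nat_lit 1516) (.f (nat_lit 497) (nat_lit 526) (nat_lit 1517) (.d (nat_lit 461) (nat_lit 460) (nat_lit 3532) (nat_lit 462) (nat_lit 3533))))) (.a (.p (nat_lit 525) (.a (.f (nat_lit 493) (nat_lit 524) (nat_lit 1516) (.f (nat_lit 461) (nat_lit 460) (nat_lit 3532) (.d (nat_lit 497) (nat_lit 462) (nat_lit 3533) (nat_lit 526) (nat_lit 1517)))) (.a (.f (nat_lit 493) (nat_lit 524) (nat_lit 1516) (.f (nat_lit 492) (nat_lit 527) (nat_lit 492) (.d (nat_lit 460) (nat_lit 459) (nat_lit 3531) (nat_lit 461) (nat_lit 3532)))) (.f (nat_lit 497) (nat_lit 526) (nat_lit 1517) (.f (nat_lit 465) (nat_lit 466) (nat_lit 2510) (.f (nat_lit 433) (nat_lit 401) (nat_lit 5520) (.d (nat_lit 560) (nat_lit 464) (nat_lit 6576) (nat_lit 592) (nat_lit 6608)))))))) (.a (.f (nat_lit 493) (nat_lit 529) (nat_lit 493) (.f (nat_lit 492) (nat_lit 527) (nat_lit 492) (.d (nat_lit 524) (nat_lit 523) (nat_lit 1515) (nat_lit 525) (nat_lit 1516)))) (.a (.f (nat_lit 493) (nat_lit 529) (nat_lit 493) (.f (nat_lit 527) (nat_lit 492) (nat_lit 492) (.f (nat_lit 464) (nat_lit 465) (nat_lit 2509) (.d (nat_lit 432) (nat_lit 400) (nat_lit 5519) (nat_lit 559) (nat_lit 5551))))) (.p (nat_lit 497) (.a (.f (nat_lit 529) (nat_lit 530) (nat_lit 494) (.f (nat_lit 465) (nat_lit 466) (nat_lit 2510) (.d (nat_lit 433) (nat_lit 401) (nat_lit 5520) (nat_lit 560) (nat_lit 5552)))) (.f (nat_lit 526) (nat_lit 525) (nat_lit 1517) (.f (nat_lit 527) (nat_lit 498) (nat_lit 1518) (.f (nat_lit 462) (nat_lit 461) (nat_lit 3533) (.d (nat_lit 430) (nat_lit 398) (nat_lit 4494) (nat_lit 559) (nat_lit 4526)))))))))))) (.a (.p (nat_lit 494) (.a (.f (nat_lit 493) (nat_lit 529) (nat_lit 493) (.f (nat_lit 525) (nat_lit 524) (nat_lit 1516) (.f (nat_lit 497) (nat_lit 526) (nat_lit 1517) (.d (nat_lit 461) (nat_lit 460) (nat_lit 3532) (nat_lit 462) (nat_lit 3533))))) (.a (.p (nat_lit 525) (.a (.f (nat_lit 493) (nat_lit 524) (nat_lit 1516) (.f (nat_lit 461) (nat_lit 460) (nat_lit 3532) (.d (nat_lit 497) (nat_lit 462) (nat_lit 3533) (nat_lit 526) (nat_lit 1517)))) (.a (.f (nat_lit 493) (nat_lit 524) (nat_lit 1516) (.f (nat_lit 492) (nat_lit 527) (nat_lit 492) (.d (nat_lit 460) (nat_lit 459) (nat_lit 3531) (nat_lit 461) (nat_lit 3532)))) (.f (nat_lit 497) (nat_lit 526) (nat_lit 1517) (.f (nat_lit 465) (nat_lit 466) (nat_lit 2510) (.f (nat_lit 433) (nat_lit 401) (nat_lit 5520) (.d (nat_lit 560) (nat_lit 464) (nat_lit 6576) (nat_lit 592) (nat_lit 6608)))))))) (.a (.f (nat_lit 493) (nat_lit 529) (nat_lit 493) (.f (nat_lit 492) (nat_lit 527) (nat_lit 492) (.d (nat_lit 524) (nat_lit 523) (nat_lit 1515) (nat_lit 525) (nat_lit 1516)))) (.a (.f (nat_lit 493) (nat_lit 529) (nat_lit 493) (.f (nat_lit 527) (nat_lit 492) (nat_lit 492) (.f (nat_lit 464) (nat_lit 465) (nat_lit 2509) (.d (nat_lit 432) (nat_lit 400) (nat_lit 5519) (nat_lit 559) (nat_lit 5551))))) (.p (nat_lit 497) (.a (.f (nat_lit 529) (nat_lit 530) (nat_lit 494) (.f (nat_lit 465) (nat_lit 466) (nat_lit 2510) (.d (nat_lit 433) (nat_lit 401) (nat_lit 5520) (nat_lit 560) (nat_lit 5552)))) (.f (nat_lit 526) (nat_lit 525) (nat_lit 1517) (.f (nat_lit 527) (nat_lit 498) (nat_lit 1518) (.f (nat_lit 462) (nat_lit 461) (nat_lit 3533) (.d (nat_lit 559) (nat_lit 430) (nat_lit 4526) (nat_lit 591) (nat_lit 7630)))))))))))) (.a (.p (nat_lit 494) (.a (.f (nat_lit 493) (nat_lit 529) (nat_lit 493) (.f (nat_lit 525) (nat_lit 524) (nat_lit 1516) (.f (nat_lit 497) (nat_lit 526) (nat_lit 1517) (.d (nat_lit 461) (nat_lit 460) (nat_lit 3532) (nat_lit 462) (nat_lit 3533))))) (.a (.p (nat_lit 525) (.a (.f (nat_lit 493) (nat_lit 524) (nat_lit 1516) (.f (nat_lit 461) (nat_lit 460) (nat_lit 3532) (.d (nat_lit 497) (nat_lit 462) (nat_lit 3533) (nat_lit 526) (nat_lit 1517)))) (.a (.f (nat_lit 493) (nat_lit 524) (nat_lit 1516) (.f (nat_lit 492) (nat_lit 527) (nat_lit 492) (.d (nat_lit 460) (nat_lit 459) (nat_lit 3531) (nat_lit 461) (nat_lit 3532)))) (.f (nat_lit 497) (nat_lit 526) (nat_lit 1517) (.f (nat_lit 465) (nat_lit 466) (nat_lit 2510) (.f (nat_lit 433) (nat_lit 401) (nat_lit 5520) (.d (nat_lit 560) (nat_lit 464) (nat_lit 6576) (nat_lit 592) (nat_lit 6608)))))))) (.a (.f (nat_lit 493) (nat_lit 529) (nat_lit 493) (.f (nat_lit 492) (nat_lit 527) (nat_lit 492) (.d (nat_lit 524) (nat_lit 523) (nat_lit 1515) (nat_lit 525) (nat_lit 1516)))) (.a (.f (nat_lit 493) (nat_lit 529) (nat_lit 493) (.f (nat_lit 492) (nat_lit 527) (nat_lit 492) (.d (nat_lit 460) (nat_lit 459) (nat_lit 3531) (nat_lit 461) (nat_lit 3532)))) (.p (nat_lit 497) (.a (.f (nat_lit 529) (nat_lit 530) (nat_lit 494) (.f (nat_lit 465) (nat_lit 466) (nat_lit 2510) (.d (nat_lit 433) (nat_lit 401) (nat_lit 5520) (nat_lit 560) (nat_lit 5552)))) (.f (nat_lit 526) (nat_lit 525) (nat_lit 1517) (.f (nat_lit 527) (nat_lit 498) (nat_lit 1518) (.f (nat_lit 462) (nat_lit 461) (nat_lit 3533) (.d (nat_lit 430) (nat_lit 398) (nat_lit 4494) (nat_lit 559) (nat_lit 4526)))))))))))) (.a (.p (nat_lit 494) (.a (.f (nat_lit 493) (nat_lit 529) (nat_lit 493) (.f (nat_lit 525) (nat_lit 524) (nat_lit 1516) (.f (nat_lit 497) (nat_lit 526) (nat_lit 1517) (.d (nat_lit 461) (nat_lit 460) (nat_lit 3532) (nat_lit 462) (nat_lit 3533))))) (.a (.p (nat_lit 525) (.a (.f (nat_lit 493) (nat_lit 524) (nat_lit 1516) (.f (nat_lit 461) (nat_lit 460) (nat_lit 3532) (.d (nat_lit 497) (nat_lit 462) (nat_lit 3533) (nat_lit 526) (nat_lit 1517)))) (.a (.f (nat_lit 493) (nat_lit 524) (nat_lit 1516) (.f (nat_lit 492) (nat_lit 527) (nat_lit 492) (.d (nat_lit 460) (nat_lit 459) (nat_lit 3531) (nat_lit 461) (nat_lit 3532)))) (.f (nat_lit 497) (nat_lit 526) (nat_lit 1517) (.f (nat_lit 465) (nat_lit 466) (nat_lit 2510) (.f (nat_lit 560) (nat_lit 592) (nat_lit 6608) (.f (nat_lit 464) (nat_lit 433) (nat_lit 6576) (.f (nat_lit 559) (nat_lit 591) (nat_lit 5583) (.f (nat_lit 432) (nat_lit 527) (nat_lit 5551) (.f (nat_lit 400) (nat_lit 368) (nat_lit 4464) (.d (nat_lit 399) (nat_lit 367) (nat_lit 7535) (nat_lit 431) (nat_lit 7567)))))))))))) (.a (.f (nat_lit 493) (nat_lit 529) (nat_lit 493) (.f (nat_lit 492) (nat_lit 527) (nat_lit 492) (.d (nat_lit 524) (nat_lit 523) (nat_lit 1515) (nat_lit 525) (nat_lit 1516)))) (.a (.f (nat_lit 493) (nat_lit 529) (nat_lit 493) (.f (nat_lit 527) (nat_lit 492) (nat_lit 492) (.f (nat_lit 464) (nat_lit 465) (nat_lit 2509) (.d (nat_lit 432) (nat_lit 400) (nat_lit 5519) (nat_lit 559) (nat_lit 5551))))) (.p (nat_lit 497) (.a (.f (nat_lit 526) (nat_lit 525) (nat_lit 1517) (.f (nat_lit 527) (nat_lit 498) (nat_lit 1518) (.f (nat_lit 462) (nat_lit 461) (nat_lit 3533) (.d (nat_lit 430) (nat_lit 398) (nat_lit 4494) (nat_lit 559) (nat_lit 4526))))) (.f (nat_lit 529) (nat_lit 530) (nat_lit 494) (.f (nat_lit 465) (nat_lit 466) (nat_lit 2510) (.d (nat_lit 560) (nat_lit 433) (nat_lit 5552) (nat_lit 592) (nat_lit 6608))))))))))) (.a (.p (nat_lit 494) (.a (.f (nat_lit 493) (nat_lit 529) (nat_lit 493) (.f (nat_lit 525) (nat_lit 524) (nat_lit 1516) (.f (nat_lit 497) (nat_lit 526) (nat_lit 1517) (.d (nat_lit 461) (nat_lit 460) (nat_lit 3532) (nat_lit 462) (nat_lit 3533))))) (.a (.p (nat_lit 525) (.a (.f (nat_lit 493) (nat_lit 524) (nat_lit 1516) (.f (nat_lit 461) (nat_lit 460) (nat_lit 3532) (.d (nat_lit 497) (nat_lit 462) (nat_lit 3533) (nat_lit 526) (nat_lit 1517)))) (.a (.f (nat_lit 493) (nat_lit 524) (nat_lit 1516) (.f (nat_lit 492) (nat_lit 527) (nat_lit 492) (.d (nat_lit 460) (nat_lit 459) (nat_lit 3531) (nat_lit 461) (nat_lit 3532)))) (.f (nat_lit 497) (nat_lit 526) (nat_lit 1517) (.f (nat_lit 465) (nat_lit 466) (nat_lit 2510) (.f (nat_lit 433) (nat_lit 401) (nat_lit 5520) (.d (nat_lit 560) (nat_lit 464) (nat_lit 6576) (nat_lit 592) (nat_lit 6608)))))))) (.a (.f (nat_lit 493) (nat_lit 529) (nat_lit 493) (.f (nat_lit 492) (nat_lit 527) (nat_lit 492) (.d (nat_lit 524) (nat_lit 523) (nat_lit 1515) (nat_lit 525) (nat_lit 1516)))) (.a (.f (nat_lit 493) (nat_lit 529) (nat_lit 493) (.f (nat_lit 527) (nat_lit 492) (nat_lit 492) (.f (nat_lit 464) (nat_lit 465) (nat_lit 2509) (.d (nat_lit 432) (nat_lit 400) (nat_lit 5519) (nat_lit 559) (nat_lit 5551))))) (.p (nat_lit 497) (.a (.f (nat_lit 529) (nat_lit 530) (nat_lit 494) (.f (nat_lit 465) (nat_lit 466) (nat_lit 2510) (.d (nat_lit 433) (nat_lit 401) (nat_lit 5520) (nat_lit 560) (nat_lit 5552)))) (.a (.f (nat_lit 465) (nat_lit 466) (nat_lit 2510) (.f (nat_lit 433) (nat_lit 401) (nat_lit 5520) (.d (nat_lit 560) (nat_lit 464) (nat_lit 6576) (nat_lit 592) (nat_lit 6608)))) (.a (.f (nat_lit 529) (nat_lit 530) (nat_lit 494) (.f (nat_lit 526) (nat_lit 525) (nat_lit 1517) (.f (nat_lit 527) (nat_lit 498) (nat_lit 1518) (.f (nat_lit 558) (nat_lit 557) (nat_lit 1549) (.f (nat_lit 462) (nat_lit 461) (nat_lit 3533) (.f (nat_lit 559) (nat_lit 591) (nat_lit 4558) (.f (nat_lit 432) (nat_lit 464) (nat_lit 5551) (.f (nat_lit 465) (nat_lit 466) (nat_lit 2510) (.d (nat_lit 433) (nat_lit 400) (nat_lit 7568) (nat_lit 401) (nat_lit 5520)))))))))) (.f (nat_lit 529) (nat_lit 530) (nat_lit 494) (.f (nat_lit 526) (nat_lit 525) (nat_lit 1517) (.f (nat_lit 527) (nat_lit 498) (nat_lit 1518) (.f (nat_lit 558) (nat_lit 557) (nat_lit 1549) (.f (nat_lit 462) (nat_lit 461) (nat_lit 3533) (.f (nat_lit 591) (nat_lit 559) (nat_lit 4558) (.d (nat_lit 590) (nat_lit 622) (nat_lit 6638) (nat_lit 623) (nat_lit 4590))))))))))))))))) (.a (.p (nat_lit 494) (.a (.f (nat_lit 493) (nat_lit 529) (nat_lit 493) (.f (nat_lit 525) (nat_lit 524) (nat_lit 1516) (.f (nat_lit 497) (nat_lit 526) (nat_lit 1517) (.d (nat_lit 461) (nat_lit 460) (nat_lit 3532) (nat_lit 462) (nat_lit 3533))))) (.a s123153 (.a (.f (nat_lit 493) (nat_lit 529) (nat_lit 493) (.f (nat_lit 492) (nat_lit 527) (nat_lit 492) (.d (nat_lit 524) (nat_lit 523) (nat_lit 1515) (nat_lit 525) (nat_lit 1516)))) (.a (.f (nat_lit 493) (nat_lit 529) (nat_lit 493) (.f (nat_lit 527) (nat_lit 492) (nat_lit 492) (.f (nat_lit 464) (nat_lit 465) (nat_lit 2509) (.d (nat_lit 432) (nat_lit 400) (nat_lit 5519) (nat_lit 559) (nat_lit 5551))))) (.p (nat_lit 497) (.a (.f (nat_lit 526) (nat_lit 525) (nat_lit 1517) (.f (nat_lit 527) (nat_lit 498) (nat_lit 1518) (.f (nat_lit 462) (nat_lit 461) (nat_lit 3533) (.d (nat_lit 430) (nat_lit 398) (nat_lit 4494) (nat_lit 559) (nat_lit 4526))))) (.a (.f (nat_lit 530) (nat_lit 529) (nat_lit 494) (.f (nat_lit 498) (nat_lit 531) (nat_lit 495) (.d (nat_lit 466) (nat_lit 465) (nat_lit 2510) (nat_lit 467) (nat_lit 2511)))) (.p (nat_lit 559) (.a (.f (nat_lit 526) (nat_lit 525) (nat_lit 1517) (.f (nat_lit 462) (nat_lit 461) (nat_lit 3533) (.d (nat_lit 591) (nat_lit 527) (nat_lit 7630) (nat_lit 558) (nat_lit 4558)))) (.a (.f (nat_lit 529) (nat_lit 530) (nat_lit 494) (.f (nat_lit 465) (nat_lit 466) (nat_lit 2510) (.f (nat_lit 560) (nat_lit 592) (nat_lit 6608) (.f (nat_lit 591) (nat_lit 464) (nat_lit 5583) (.f (nat_lit 558) (nat_lit 557) (nat_lit 2573) (.d (nat_lit 462) (nat_lit 461) (nat_lit 3533) (nat_lit 526) (nat_lit 4558))))))) (.a (.f (nat_lit 465) (nat_lit 466) (nat_lit 2510) (.f (nat_lit 560) (nat_lit 592) (nat_lit 6608) (.f (nat_lit 591) (nat_lit 464) (nat_lit 5583) (.d (nat_lit 462) (nat_lit 461) (nat_lit 3533) (nat_lit 527) (nat_lit 7630))))) (.a (.f (nat_lit 526) (nat_lit 525) (nat_lit 1517) (.f (nat_lit 462) (nat_lit 461) (nat_lit 3533) (.f (nat_lit 430) (nat_lit 527) (nat_lit 4526) (.f (nat_lit 399) (nat_lit 431) (nat_lit 6542) (.f (nat_lit 398) (nat_lit 367) (nat_lit 6510) (.d (nat_lit 397) (nat_lit 365) (nat_lit 7533) (nat_lit 429) (nat_lit 7565))))))) (.f (nat_lit 526) (nat_lit 525) (nat_lit 1517) (.f (nat_lit 465) (nat_lit 466) (nat_lit 2510) (.f (nat_lit 560) (nat_lit 592) (nat_lit 6608) (.f (nat_lit 591) (nat_lit 464) (nat_lit 5583) (.d (nat_lit 623) (nat_lit 527) (nat_lit 7662) (nat_lit 655) (nat_lit 6671))))))))))))))))))) (.a (.p (nat_lit 494) (.a (.f (nat_lit 493) (nat_lit 529) (nat_lit 493) (.f (nat_lit 525) (nat_lit 524) (nat_lit 1516) (.f (nat_lit 497) (nat_lit 526) (nat_lit 1517) (.d (nat_lit 461) (nat_lit 460) (nat_lit 3532) (nat_lit 462) (nat_lit 3533))))) (.a (.p (nat_lit 525) (.a (.f (nat_lit 493) (nat_lit 524) (nat_lit 1516) (.f (nat_lit 461) (nat_lit 460) (nat_lit 3532) (.d (nat_lit 497) (nat_lit 462) (nat_lit 3533) (nat_lit 526) (nat_lit 1517)))) (.a (.f (nat_lit 493) (nat_lit 524) (nat_lit 1516) (.f (nat_lit 527) (nat_lit 492) (nat_lit 492) (.f (nat_lit 464) (nat_lit 465) (nat_lit 2509) (.d (nat_lit 432) (nat_lit 400) (nat_lit 5519) (nat_lit 559) (nat_lit 5551))))) (.f (nat_lit 497) (nat_lit 526) (nat_lit 1517) (.f (nat_lit 465) (nat_lit 466) (nat_lit 2510) (.f (nat_lit 433) (nat_lit 401) (nat_lit 5520) (.d (nat_lit 560) (nat_lit 464) (nat_lit 6576) (nat_lit 592) (nat_lit 6608)))))))) (.a (.f (nat_lit 493) (nat_lit 529) (nat_lit 493) (.f (nat_lit 492) (nat_lit 527) (nat_lit 492) (.d (nat_lit 524) (nat_lit 523) (nat_lit 1515) (nat_lit 525) (nat_lit 1516)))) (.a (.f (nat_lit 493) (nat_lit 529) (nat_lit 493) (.f (nat_lit 527) (nat_lit 492) (nat_lit 492) (.f (nat_lit 464) (nat_lit 465) (nat_lit 2509) (.d (nat_lit 432) (nat_lit 400) (nat_lit 5519) (nat_lit 559) (nat_lit 5551))))) (.p (nat_lit 497) (.a (.f (nat_lit 529) (nat_lit 530) (nat_lit 494) (.f (nat_lit 465) (nat_lit 466) (nat_lit 2510) (.d (nat_lit 433) (nat_lit 401) (nat_lit 5520) (nat_lit 560) (nat_lit 5552)))) (.f (nat_lit 526) (nat_lit 525) (nat_lit 1517) (.f (nat_lit 527) (nat_lit 498) (nat_lit 1518) (.f (nat_lit 462) (nat_lit 461) (nat_lit 3533) (.d (nat_lit 430) (nat_lit 398) (nat_lit 4494) (nat_lit 559) (nat_lit 4526)))))))))))) (.a (.p (nat_lit 494) (.a (.f (nat_lit 493) (nat_lit 529) (nat_lit 493) (.f (nat_lit 492) (nat_lit 527) (nat_lit 492) (.d (nat_lit 524) (nat_lit 523) (nat_lit 1515) (nat_lit 525) (nat_lit 1516)))) (.a s123191 (.a (.f (nat_lit 493) (nat_lit 529) (nat_lit 493) (.f (nat_lit 525) (nat_lit 524) (nat_lit 1516) (.f (nat_lit 497) (nat_lit 526) (nat_lit 1517) (.d (nat_lit 465) (nat_lit 464) (nat_lit 2509) (nat_lit 466) (nat_lit 2510))))) (.a (.f (nat_lit 493) (nat_lit 529) (nat_lit 493) (.f (nat_lit 527) (nat_lit 492) (nat_lit 492) (.f (nat_lit 464) (nat_lit 465) (nat_lit 2509) (.d (nat_lit 432) (nat_lit 400) (nat_lit 5519) (nat_lit 559) (nat_lit 5551))))) (.p (nat_lit 497) (.a (.f (nat_lit 529) (nat_lit 530) (nat_lit 494) (.f (nat_lit 465) (nat_lit 466) (nat_lit 2510) (.d (nat_lit 433) (nat_lit 401) (nat_lit 5520) (nat_lit 560) (nat_lit 5552)))) (.f (nat_lit 526) (nat_lit 525) (nat_lit 1517) (.f (nat_lit 527) (nat_lit 498) (nat_lit 1518) (.f (nat_lit 462) (nat_lit 461) (nat_lit 3533) (.d (nat_lit 430) (nat_lit 398) (nat_lit 4494) (nat_lit 559) (nat_lit 4526)))))))))))) (.a (.p (nat_lit 494) (.a (.f (nat_lit 493) (nat_lit 529) (nat_lit 493) (.f (nat_lit 492) (nat_lit 527) (nat_lit 492) (.d (nat_lit 524) (nat_lit 523) (nat_lit 1515) (nat_lit 525) (nat_lit 1516)))) (.a s123191 (.a (.f (nat_lit 493) (nat_lit 529) (nat_lit 493) (.f (nat_lit 525) (nat_lit 524) (nat_lit 1516) (.f (nat_lit 497) (nat_lit 526) (nat_lit 1517) (.d (nat_lit 465) (nat_lit 464) (nat_lit 2509) (nat_lit 466) (nat_lit 2510))))) (.a (.f (nat_lit 493) (nat_lit 529) (nat_lit 493) (.f (nat_lit 527) (nat_lit 492) (nat_lit 492) (.f (nat_lit 464) (nat_lit 465) (nat_lit 2509) (.d (nat_lit 432) (nat_lit 400) (nat_lit 5519) (nat_lit 559) (nat_lit 5551))))) (.p (nat_lit 497) (.a (.f (nat_lit 529) (nat_lit 530) (nat_lit 494) (.f (nat_lit 465) (nat_lit 466) (nat_lit 2510) (.d (nat_lit 433) (nat_lit 401) (nat_lit 5520) (nat_lit 560) (nat_lit 5552)))) (.a (.f (nat_lit 465) (nat_lit 466) (nat_lit 2510) (.f (nat_lit 433) (nat_lit 401) (nat_lit 5520) (.d (nat_lit 560) (nat_lit 464) (nat_lit 6576) (nat_lit 592) (nat_lit 6608)))) (.a (.f (nat_lit 530) (nat_lit 529) (nat_lit 494) (.f (nat_lit 498) (nat_lit 531) (nat_lit 495) (.d (nat_lit 466) (nat_lit 465) (nat_lit 2510) (nat_lit 467) (nat_lit 2511)))) (.f (nat_lit 529) (nat_lit 530) (nat_lit 494) (.f (nat_lit 526) (nat_lit 525) (nat_lit 1517) (.f (nat_lit 527) (nat_lit 498) (nat_lit 1518) (.f (nat_lit 558) (nat_lit 557) (nat_lit 1549) (.f (nat_lit 590) (nat_lit 622) (nat_lit 6638) (.f (nat_lit 591) (nat_lit 623) (nat_lit 4590) (.d (nat_lit 559) (nat_lit 462) (nat_lit 4558) (nat_lit 464) (nat_lit 6607))))))))))))))))) (.a (.p (nat_lit 494) (.a (.f (nat_lit 493) (nat_lit 529) (nat_lit 493) (.f (nat_lit 492) (nat_lit 527) (nat_lit 492) (.d (nat_lit 524) (nat_lit 523) (nat_lit 1515) (nat_lit 525) (nat_lit 1516)))) (.a s123191 (.a (.f (nat_lit 493) (nat_lit 529) (nat_lit 493) (.f (nat_lit 525) (nat_lit 524) (nat_lit 1516) (.f (nat_lit 497) (nat_lit 526) (nat_lit 1517) (.d (nat_lit 465) (nat_lit 464) (nat_lit 2509) (nat_lit 466) (nat_lit 2510))))) (.a (.f (nat_lit 493) (nat_lit 529) (nat_lit 493) (.f (nat_lit 527) (nat_lit 492) (nat_lit 492) (.f (nat_lit 464) (nat_lit 465) (nat_lit 2509) (.d (nat_lit 432) (nat_lit 400) (nat_lit 5519) (nat_lit 559) (nat_lit 5551))))) (.p (nat_lit 497) (.a (.f (nat_lit 529) (nat_lit 530) (nat_lit 494) (.f (nat_lit 465) (nat_lit 466) (nat_lit 2510) (.d (nat_lit 433) (nat_lit 401) (nat_lit 5520) (nat_lit 560) (nat_lit 5552)))) (.a (.f (nat_lit 465) (nat_lit 466) (nat_lit 2510) (.f (nat_lit 433) (nat_lit 401) (nat_lit 5520) (.d (nat_lit 560) (nat_lit 464) (nat_lit 6576) (nat_lit 592) (nat_lit 6608)))) (.a (.f (nat_lit 530) (nat_lit 529) (nat_lit 494) (.f (nat_lit 498) (nat_lit 531) (nat_lit 495) (.d (nat_lit 466) (nat_lit 465) (nat_lit 2510) (nat_lit 467) (nat_lit 2511)))) (.f (nat_lit 529) (nat_lit 530) (nat_lit 494) (.f (nat_lit 526) (nat_lit 525) (nat_lit 1517) (.f (nat_lit 527) (nat_lit 498) (nat_lit 1518) (.f (nat_lit 558) (nat_lit 557) (nat_lit 1549) (.f (nat_lit 590) (nat_lit 622) (nat_lit 6638) (.f (nat_lit 591) (nat_lit 623) (nat_lit 4590) (.f (nat_lit 559) (nat_lit 464) (nat_lit 6607) (.f (nat_lit 589) (nat_lit 621) (nat_lit 5613) (.d (nat_lit 588) (nat_lit 560) (nat_lit 2604) (nat_lit 587) (nat_lit 2603))))))))))))))))))) (.a (.p (nat_lit 494) (.a (.f (nat_lit 493) (nat_lit 529) (nat_lit 493) (.f (nat_lit 525) (nat_lit 524) (nat_lit 1516) (.f (nat_lit 497) (nat_lit 526) (nat_lit 1517) (.d (nat_lit 461) (nat_lit 460) (nat_lit 3532) (nat_lit 462) (nat_lit 3533))))) (.a s123153 (.a (.f (nat_lit 493) (nat_lit 529) (nat_lit 493) (.f (nat_lit 492) (nat_lit 527) (nat_lit 492) (.d (nat_lit 524) (nat_lit 523) (nat_lit 1515) (nat_lit 525) (nat_lit 1516)))) (.a (.f (nat_lit 493) (nat_lit 529) (nat_lit 493) (.f (nat_lit 492) (nat_lit 527) (nat_lit 492) (.d (nat_lit 460) (nat_lit 459) (nat_lit 3531) (nat_lit 461) (nat_lit 3532)))) (.p (nat_lit 497) (.a (.f (nat_lit 529) (nat_lit 530) (nat_lit 494) (.f (nat_lit 465) (nat_lit 466) (nat_lit 2510) (.d (nat_lit 433) (nat_lit 401) (nat_lit 5520) (nat_lit 560) (nat_lit 5552)))) (.f (nat_lit 526) (nat_lit 525) (nat_lit 1517) (.f (nat_lit 527) (nat_lit 498) (nat_lit 1518) (.f (nat_lit 462) (nat_lit 461) (nat_lit 3533) (.d (nat_lit 430) (nat_lit 398) (nat_lit 4494) (nat_lit 559) (nat_lit 4526)))))))))))) (.a (.p (nat_lit 494) (.a (.f (nat_lit 493) (nat_lit 529) (nat_lit 493) (.f (nat_lit 525) (nat_lit 524) (nat_lit 1516) (.f (nat_lit 497) (nat_lit 526) (nat_lit 1517) (.d (nat_lit 461) (nat_lit 460) (nat_lit 3532) (nat_lit 462) (nat_lit 3533))))) (.a s123218 (.a (.f (nat_lit 493) (nat_lit 529) (nat_lit 493) (.f (nat_lit 492) (nat_lit 527) (nat_lit 492) (.d (nat_lit 524) (nat_lit 523) (nat_lit 1515) (nat_lit 525) (nat_lit 1516)))) (.a (.f (nat_lit 493) (nat_lit 529) (nat_lit 493) (.f (nat_lit 492) (nat_lit 527) (nat_lit 492) (.d (nat_lit 460) (nat_lit 459) (nat_lit 3531) (nat_lit 461) (nat_lit 3532)))) (.p (nat_lit 526) (.a (.f (nat_lit 497) (nat_lit 525) (nat_lit 1517) (.f (nat_lit 527) (nat_lit 498) (nat_lit 1518) (.f (nat_lit 462) (nat_lit 461) (nat_lit 3533) (.d (nat_lit 430) (nat_lit 398) (nat_lit 4494) (nat_lit 559) (nat_lit 4526))))) (.a (.f (nat_lit 497) (nat_lit 525) (nat_lit 1517) s123228) (.a s123285 (.p (nat_lit 497) (.a (.f (nat_lit 527) (nat_lit 498) (nat_lit 1518) (.f (nat_lit 462) (nat_lit 461) (nat_lit 3533) (.d (nat_lit 430) (nat_lit 398) (nat_lit 4494) (nat_lit 559) (nat_lit 4526)))) (.a s123228 (.p (nat_lit 558) (.a (.f (nat_lit 462) (nat_lit 461) (nat_lit 3533) (.f (nat_lit 559) (nat_lit 591) (nat_lit 4558) (.f (nat_lit 527) (nat_lit 430) (nat_lit 4526) (.d (nat_lit 529) (nat_lit 530) (nat_lit 494) (nat_lit 557) (nat_lit 1549))))) (.a (.f (nat_lit 462) (nat_lit 461) (nat_lit 3533) (.f (nat_lit 559) (nat_lit 591) (nat_lit 4558) (.f (nat_lit 527) (nat_lit 430) (nat_lit 4526) (.d (nat_lit 557) (nat_lit 556) (nat_lit 2572) (nat_lit 589) (nat_lit 5581))))) (.a (.f (nat_lit 462) (nat_lit 461) (nat_lit 3533) (.f (nat_lit 591) (nat_lit 559) (nat_lit 4558) (.f (nat_lit 590) (nat_lit 623) (nat_lit 4590) (.d (nat_lit 589) (nat_lit 557) (nat_lit 5581) (nat_lit 621) (nat_lit 5613))))) (.a (.f (nat_lit 529) (nat_lit 530) (nat_lit 494) (.f (nat_lit 462) (nat_lit 461) (nat_lit 3533) (.d (nat_lit 557) (nat_lit 527) (nat_lit 1549) (nat_lit 589) (nat_lit 5581)))) (.a (.f (nat_lit 462) (nat_lit 461) (nat_lit 3533) (.f (nat_lit 559) (nat_lit 591) (nat_lit 4558) (.f (nat_lit 430) (nat_lit 527) (nat_lit 4526) (.f (nat_lit 399) (nat_lit 431) (nat_lit 6542) (.f (nat_lit 398) (nat_lit 367) (nat_lit 6510) (.d (nat_lit 397) (nat_lit 365) (nat_lit 7533) (nat_lit 429) (nat_lit 7565))))))) (.f (nat_lit 529) (nat_lit 530) (nat_lit 494) (.f (nat_lit 527) (nat_lit 557) (nat_lit 1549) (.f (nat_lit 590) (nat_lit 622) (nat_lit 6638) (.f (nat_lit 591) (nat_lit 623) (nat_lit 4590) (.f (nat_lit 559) (nat_lit 464) (nat_lit 6607) (.f (nat_lit 589) (nat_lit 621) (nat_lit 5613) (.d (nat_lit 588) (nat_lit 560) (nat_lit 2604) (nat_lit 587) (nat_lit 2603)))))))))))))))))))))))))) (.a (.p (nat_lit 592) (.a (.p (nat_lit 560) (.a (.f (nat_lit 497) (nat_lit 465) (nat_lit 6608) (.d (nat_lit 624) (nat_lit 527) (nat_lit 7663) (nat_lit 529) (nat_lit 6640))) (.a (.f (nat_lit 527) (nat_lit 624) (nat_lit 7663) (.f (nat_lit 497) (nat_lit 465) (nat_lit 6608) (.d (nat_lit 526) (nat_lit 498) (nat_lit 1518) (nat_lit 525) (nat_lit 2541)))) (.a (.f (nat_lit 497) (nat_lit 465) (nat_lit 6608) (.f (nat_lit 529) (nat_lit 624) (nat_lit 6640) (.d (nat_lit 494) (nat_lit 493) (nat_lit 493) (nat_lit 530) (nat_lit 494)))) (.a (.f (nat_lit 624) (nat_lit 527) (nat_lit 7663) (.d (nat_lit 623) (nat_lit 591) (nat_lit 5615) (nat_lit 655) (nat_lit 5647))) (.f (nat_lit 591) (nat_lit 623) (nat_lit 5615) (.f (nat_lit 559) (nat_lit 464) (nat_lit 5583) (.f (nat_lit 593) (nat_lit 625) (nat_lit 4592) (.d (nat_lit 594) (nat_lit 558) (nat_lit 3630) (nat_lit 595) (nat_lit 3631)))))))))) (.a (.p (nat_lit 560) (.a (.f (nat_lit 527) (nat_lit 624) (nat_lit 7663) (.f (nat_lit 497) (nat_lit 465) (nat_lit 6608) (.d (nat_lit 526) (nat_lit 498) (nat_lit 1518) (nat_lit 525) (nat_lit 2541)))) (.f (nat_lit 591) (nat_lit 623) (nat_lit 5615) (.f (nat_lit 559) (nat_lit 464) (nat_lit 5583) (.f (nat_lit 593) (nat_lit 625) (nat_lit 4592) (.d (nat_lit 594) (nat_lit 558) (nat_lit 3630) (nat_lit 595) (nat_lit 3631))))))) (.a (.p (nat_lit 560) (.a (.f (nat_lit 497) (nat_lit 465) (nat_lit 6608) (.f (nat_lit 529) (nat_lit 624) (nat_lit 6640) (.d (nat_lit 494) (nat_lit 493) (nat_lit 493) (nat_lit 530) (nat_lit 494)))) (.f (nat_lit 591) (nat_lit 623) (nat_lit 5615) (.f (nat_lit 559) (nat_lit 464) (nat_lit 5583) (.f (nat_lit 593) (nat_lit 625) (nat_lit 4592) (.d (nat_lit 594) (nat_lit 558) (nat_lit 3630) (nat_lit 595) (nat_lit 3631))))))) (.a (.p (nat_lit 526) (.a (.p (nat_lit 525) (.a (.d (nat_lit 527) (nat_lit 497) (nat_lit 2541) (nat_lit 524) (nat_lit 2540)) (.a (.f (nat_lit 494) (nat_lit 497) (nat_lit 1517) (.d (nat_lit 493) (nat_lit 524) (nat_lit 1516) (nat_lit 529) (nat_lit 493))) (.a (.f (nat_lit 527) (nat_lit 524) (nat_lit 2540) (.f (nat_lit 493) (nat_lit 492) (nat_lit 3564) (.f (nat_lit 494) (nat_lit 529) (nat_lit 493) (.f (nat_lit 557) (nat_lit 556) (nat_lit 1548) (.d (nat_lit 462) (nat_lit 430) (nat_lit 5549) (nat_lit 589) (nat_lit 6605)))))) (.d (nat_lit 497) (nat_lit 494) (nat_lit 1517) (nat_lit 527) (nat_lit 2541)))))) (.a (.p (nat_lit 525) (.a (.d (nat_lit 527) (nat_lit 497) (nat_lit 2541) (nat_lit 524) (nat_lit 2540)) (.a (.f (nat_lit 494) (nat_lit 497) (nat_lit 1517) (.d (nat_lit 524) (nat_lit 493) (nat_lit 1516) (nat_lit 523) (nat_lit 2539))) (.a (.f (nat_lit 524) (nat_lit 527) (nat_lit 2540) (.d (nat_lit 494) (nat_lit 493) (nat_lit 1516) (nat_lit 523) (nat_lit 2539))) (.d (nat_lit 497) (nat_lit 494) (nat_lit 1517) (nat_lit 527) (nat_lit 2541)))))) (.a (.p (nat_lit 494) (.a (.f (nat_lit 493) (nat_lit 529) (nat_lit 493) (.d (nat_lit 525) (nat_lit 497) (nat_lit 1517) (nat_lit 524) (nat_lit 1516))) (.a (.f (nat_lit 525) (nat_lit 497) (nat_lit 1517) (.d (nat_lit 524) (nat_lit 493) (nat_lit 1516) (nat_lit 523) (nat_lit 2539))) (.a (.f (nat_lit 493) (nat_lit 529) (nat_lit 493) (.f (nat_lit 525) (nat_lit 524) (nat_lit 1516) (.f (nat_lit 461) (nat_lit 460) (nat_lit 3532) (.d (nat_lit 429) (nat_lit 397) (nat_lit 4493) (nat_lit 558) (nat_lit 4525))))) (.a (.f (nat_lit 493) (nat_lit 529) (nat_lit 493) (.f (nat_lit 461) (nat_lit 460) (nat_lit 3532) (.f (nat_lit 462) (nat_lit 497) (nat_lit 3533) (.d (nat_lit 558) (nat_lit 429) (nat_lit 7597) (nat_lit 590) (nat_lit 7629))))) (.p (nat_lit 558) (.a (.f (nat_lit 497) (nat_lit 525) (nat_lit 1517) (.f (nat_lit 462) (nat_lit 461) (nat_lit 3533) (.f (nat_lit 591) (nat_lit 559) (nat_lit 4558) (.f (nat_lit 590) (nat_lit 623) (nat_lit 4590) (.d (nat_lit 557) (nat_lit 589) (nat_lit 5581) (nat_lit 593) (nat_lit 3629)))))) (.a (.p (nat_lit 591) (.a (.f (nat_lit 590) (nat_lit 623) (nat_lit 4590) (.f (nat_lit 589) (nat_lit 621) (nat_lit 5613) (.d (nat_lit 462) (nat_lit 557) (nat_lit 5581) (nat_lit 559) (nat_lit 4558)))) (.a (.f (nat_lit 590) (nat_lit 623) (nat_lit 4590) (.f (nat_lit 589) (nat_lit 621) (nat_lit 5613) (.d (nat_lit 557) (nat_lit 462) (nat_lit 5581) (nat_lit 593) (nat_lit 3629)))) (.a (.f (nat_lit 590) (nat_lit 623) (nat_lit 4590) (.f (nat_lit 621) (nat_lit 589) (nat_lit 5613) (.d (nat_lit 622) (nat_lit 593) (nat_lit 1613) (nat_lit 653) (nat_lit 5645)))) (.a (.f (nat_lit 462) (nat_lit 559) (nat_lit 4558) (.f (nat_lit 557) (nat_lit 589) (nat_lit 5581) (.f (nat_lit 430) (nat_lit 525) (nat_lit 5549) (.d (nat_lit 429) (nat_lit 397) (nat_lit 7565) (nat_lit 461) (nat_lit 7597))))) (.f (nat_lit 559) (nat_lit 462) (nat_lit 4558) (.d (nat_lit 623) (nat_lit 590) (nat_lit 4590) (nat_lit 655) (nat_lit 7694)))))))) (.a (.p (nat_lit 590) (.a (.f (nat_lit 497) (nat_lit 525) (nat_lit 1517) (.f (nat_lit 462) (nat_lit 461) (nat_lit 3533) (.d (nat_lit 589) (nat_lit 557) (nat_lit 5581) (nat_lit 621) (nat_lit 5613)))) (.a (.f (nat_lit 591) (nat_lit 623) (nat_lit 4590) (.f (nat_lit 589) (nat_lit 621) (nat_lit 5613) (.d (nat_lit 557) (nat_lit 462) (nat_lit 5581) (nat_lit 593) (nat_lit 3629)))) (.a (.f (nat_lit 621) (nat_lit 589) (nat_lit 5613) (.f (nat_lit 622) (nat_lit 653) (nat_lit 5645) (.d (nat_lit 623) (nat_lit 591) (nat_lit 4590) (nat_lit 655) (nat_lit 4622)))) (.f (nat_lit 497) (nat_lit 525) (nat_lit 1517) (.f (nat_lit 530) (nat_lit 529) (nat_lit 494) (.f (nat_lit 591) (nat_lit 623) (nat_lit 4590) (.f (nat_lit 593) (nat_lit 557) (nat_lit 3629) (.f (nat_lit 498) (nat_lit 531) (nat_lit 495) (.f (nat_lit 626) (nat_lit 625) (nat_lit 590) (.f (nat_lit 594) (nat_lit 627) (nat_lit 591) (.d (nat_lit 562) (nat_lit 465) (nat_lit 7633) (nat_lit 563) (nat_lit 2607))))))))))))) (.a (.p (nat_lit 462) (.a (.d (nat_lit 497) (nat_lit 461) (nat_lit 3533) (nat_lit 525) (nat_lit 1517)) (.a (.f (nat_lit 557) (nat_lit 589) (nat_lit 5581) (.f (nat_lit 430) (nat_lit 525) (nat_lit 5549) (.d (nat_lit 429) (nat_lit 397) (nat_lit 7565) (nat_lit 461) (nat_lit 7597)))) (.a (.d (nat_lit 461) (nat_lit 429) (nat_lit 7597) (nat_lit 497) (nat_lit 3533)) (.f (nat_lit 525) (nat_lit 497) (nat_lit 1517) (.d (nat_lit 557) (nat_lit 430) (nat_lit 5549) (nat_lit 589) (nat_lit 5581))))))) (.a s123395 (.a (.f (nat_lit 497) (nat_lit 525) (nat_lit 1517) (.f (nat_lit 462) (nat_lit 461) (nat_lit 3533) (.f (nat_lit 591) (nat_lit 559) (nat_lit 4558) (.f (nat_lit 590) (nat_lit 623) (nat_lit 4590) (.f (nat_lit 621) (nat_lit 589) (nat_lit 5613) (.d (nat_lit 622) (nat_lit 593) (nat_lit 1613) (nat_lit 653) (nat_lit 5645))))))) (.a (.f (nat_lit 497) (nat_lit 525) (nat_lit 1517) (.f (nat_lit 462) (nat_lit 461) (nat_lit 3533) (.f (nat_lit 530) (nat_lit 529) (nat_lit 494) (.f (nat_lit 591) (nat_lit 559) (nat_lit 4558) (.f (nat_lit 590) (nat_lit 623) (nat_lit 4590) (.f (nat_lit 593) (nat_lit 557) (nat_lit 3629) (.f (nat_lit 498) (nat_lit 531) (nat_lit 495) (.f (nat_lit 626) (nat_lit 625) (nat_lit 590) (.f (nat_lit 594) (nat_lit 627) (nat_lit 591) (.d (nat_lit 562) (nat_lit 465) (nat_lit 7633) (nat_lit 563) (nat_lit 2607))))))))))) (.p (nat_lit 590) (.a (.f (nat_lit 621) (nat_lit 589) (nat_lit 5613) (.f (nat_lit 622) (nat_lit 653) (nat_lit 5645) (.d (nat_lit 623) (nat_lit 591) (nat_lit 4590) (nat_lit 655) (nat_lit 4622)))) (.a (.f (nat_lit 525) (nat_lit 497) (nat_lit 1517) (.f (nat_lit 621) (nat_lit 589) (nat_lit 5613) (.f (nat_lit 622) (nat_lit 653) (nat_lit 5645) (.f (nat_lit 655) (nat_lit 623) (nat_lit 4622) (.d (nat_lit 654) (nat_lit 557) (nat_lit 7693) (nat_lit 687) (nat_lit 4654)))))) (.a (.f (nat_lit 497) (nat_lit 525) (nat_lit 1517) (.f (nat_lit 530) (nat_lit 529) (nat_lit 494) (.f (nat_lit 591) (nat_lit 623) (nat_lit 4590) (.f (nat_lit 593) (nat_lit 557) (nat_lit 3629) (.f (nat_lit 498) (nat_lit 531) (nat_lit 495) (.f (nat_lit 626) (nat_lit 625) (nat_lit 590) (.f (nat_lit 594) (nat_lit 627) (nat_lit 591) (.d (nat_lit 562) (nat_lit 465) (nat_lit 7633) (nat_lit 563) (nat_lit 2607))))))))) (.f (nat_lit 621) (nat_lit 589) (nat_lit 5613) (.f (nat_lit 622) (nat_lit 653) (nat_lit 5645) (.f (nat_lit 591) (nat_lit 593) (nat_lit 1613) (.f (nat_lit 525) (nat_lit 497) (nat_lit 1517) (.f (nat_lit 654) (nat_lit 557) (nat_lit 7693) (.f (nat_lit 686) (nat_lit 559) (nat_lit 6702) (.d (nat_lit 687) (nat_lit 655) (nat_lit 4654) (nat_lit 719) (nat_lit 4686))))))))))))))))))))))))) (.a (.p (nat_lit 527) (.a (.f (nat_lit 525) (nat_lit 524) (nat_lit 2540) (.f (nat_lit 493) (nat_lit 492) (nat_lit 3564) (.f (nat_lit 494) (nat_lit 529) (nat_lit 493) (.f (nat_lit 557) (nat_lit 556) (nat_lit 1548) (.d (nat_lit 462) (nat_lit 430) (nat_lit 5549) (nat_lit 589) (nat_lit 6605)))))) (.a (.p (nat_lit 590) (.a (.f (nat_lit 525) (nat_lit 524) (nat_lit 2540) (.f (nat_lit 558) (nat_lit 622) (nat_lit 6638) (.f (nat_lit 557) (nat_lit 556) (nat_lit 1548) (.d (nat_lit 493) (nat_lit 461) (nat_lit 4557) (nat_lit 492) (nat_lit 3564))))) (.a (.f (nat_lit 525) (nat_lit 524) (nat_lit 2540) (.f (nat_lit 493) (nat_lit 492) (nat_lit 3564) (.f (nat_lit 557) (nat_lit 556) (nat_lit 1548) (.f (nat_lit 589) (nat_lit 622) (nat_lit 4589) (.d (nat_lit 494) (nat_lit 462) (nat_lit 6605) (nat_lit 621) (nat_lit 6637)))))) (.a (.f (nat_lit 622) (nat_lit 558) (nat_lit 6638) (.f (nat_lit 591) (nat_lit 559) (nat_lit 5614) (.f (nat_lit 621) (nat_lit 593) (nat_lit 1613) (.d (nat_lit 620) (nat_lit 589) (nat_lit 1612) (nat_lit 619) (nat_lit 2635))))) (.f (nat_lit 525) (nat_lit 524) (nat_lit 2540) (.f (nat_lit 493) (nat_lit 492) (nat_lit 3564) (.f (nat_lit 557) (nat_lit 556) (nat_lit 1548) (.f (nat_lit 461) (nat_lit 558) (nat_lit 4557) (.d (nat_lit 460) (nat_lit 428) (nat_lit 7596) (nat_lit 494) (nat_lit 3532)))))))))) (.a (.p (nat_lit 494) (.a (.f (nat_lit 493) (nat_lit 492) (nat_lit 492) (.f (nat_lit 461) (nat_lit 460) (nat_lit 3532) (.f (nat_lit 558) (nat_lit 590) (nat_lit 7629) (.d (nat_lit 429) (nat_lit 397) (nat_lit 4493) (nat_lit 462) (nat_lit 7597))))) (.a (.d (nat_lit 529) (nat_lit 493) (nat_lit 3565) (nat_lit 530) (nat_lit 3566)) (.f (nat_lit 529) (nat_lit 530) (nat_lit 3566) (.f (nat_lit 558) (nat_lit 557) (nat_lit 1549) (.f (nat_lit 590) (nat_lit 622) (nat_lit 6638) (.f (nat_lit 591) (nat_lit 623) (nat_lit 4590) (.d (nat_lit 559) (nat_lit 462) (nat_lit 4558) (nat_lit 624) (nat_lit 4591))))))))) (.a (.f (nat_lit 525) (nat_lit 524) (nat_lit 2540) (.f (nat_lit 493) (nat_lit 492) (nat_lit 3564) (.f (nat_lit 494) (nat_lit 529) (nat_lit 493) (.f (nat_lit 461) (nat_lit 460) (nat_lit 3532) (.d (nat_lit 429) (nat_lit 397) (nat_lit 4493) (nat_lit 558) (nat_lit 4525)))))) (.a (.f (nat_lit 525) (nat_lit 524) (nat_lit 2540) (.f (nat_lit 557) (nat_lit 556) (nat_lit 1548) (.f (nat_lit 558) (nat_lit 529) (nat_lit 1549) (.f (nat_lit 590) (nat_lit 622) (nat_lit 6638) (.d (nat_lit 493) (nat_lit 461) (nat_lit 4557) (nat_lit 492) (nat_lit 3564)))))) (.f (nat_lit 525) (nat_lit 524) (nat_lit 2540) (.f (nat_lit 557) (nat_lit 556) (nat_lit 1548) (.f (nat_lit 529) (nat_lit 558) (nat_lit 1549) (.d (nat_lit 530) (nat_lit 494) (nat_lit 3566) (nat_lit 531) (nat_lit 3567))))))))))) (.a (.p (nat_lit 494) (.a (.f (nat_lit 493) (nat_lit 529) (nat_lit 493) (.f (nat_lit 461) (nat_lit 460) (nat_lit 3532) (.f (nat_lit 462) (nat_lit 497) (nat_lit 3533) (.d (nat_lit 558) (nat_lit 429) (nat_lit 7597) (nat_lit 590) (nat_lit 7629))))) (.a (.p (nat_lit 527) (.a (.f (nat_lit 493) (nat_lit 492) (nat_lit 492) (.f (nat_lit 461) (nat_lit 460) (nat_lit 3532) (.d (nat_lit 497) (nat_lit 462) (nat_lit 3533) (nat_lit 498) (nat_lit 1518)))) (.a (.f (nat_lit 493) (nat_lit 492) (nat_lit 492) (.f (nat_lit 461) (nat_lit 460) (nat_lit 3532) (.f (nat_lit 558) (nat_lit 590) (nat_lit 7629) (.d (nat_lit 429) (nat_lit 397) (nat_lit 4493) (nat_lit 462) (nat_lit 7597))))) (.a (.f (nat_lit 497) (nat_lit 498) (nat_lit 1518) (.f (nat_lit 462) (nat_lit 461) (nat_lit 3533) (.d (nat_lit 430) (nat_lit 398) (nat_lit 4494) (nat_lit 559) (nat_lit 4526)))) (.f (nat_lit 493) (nat_lit 492) (nat_lit 492) (.f (nat_lit 464) (nat_lit 465) (nat_lit 2509) (.d (nat_lit 432) (nat_lit 400) (nat_lit 5519) (nat_lit 559) (nat_lit 5551)))))))) (.a (.f (nat_lit 493) (nat_lit 529) (nat_lit 493) (.f (nat_lit 527) (nat_lit 492) (nat_lit 492) (.f (nat_lit 464) (nat_lit 465) (nat_lit 2509) (.d (nat_lit 432) (nat_lit 400) (nat_lit 5519) (nat_lit 559) (nat_lit 5551))))) (.p (nat_lit 558) (.a s123395 (.a (.p (nat_lit 591) (.a (.f (nat_lit 590) (nat_lit 623) (nat_lit 4590) (.f (nat_lit 589) (nat_lit 621) (nat_lit 5613) (.d (nat_lit 462) (nat_lit 557) (nat_lit 5581) (nat_lit 559) (nat_lit 4558)))) (.a (.f (nat_lit 590) (nat_lit 623) (nat_lit 4590) (.f (nat_lit 589) (nat_lit 621) (nat_lit 5613) (.d (nat_lit 557) (nat_lit 462) (nat_lit 5581) (nat_lit 593) (nat_lit 3629)))) (.a (.f (nat_lit 590) (nat_lit 623) (nat_lit 4590) (.f (nat_lit 621) (nat_lit 589) (nat_lit 5613) (.d (nat_lit 622) (nat_lit 593) (nat_lit 1613) (nat_lit 653) (nat_lit 5645)))) (.f (nat_lit 559) (nat_lit 462) (nat_lit 4558) (.d (nat_lit 527) (nat_lit 464) (nat_lit 6607) (nat_lit 624) (nat_lit 4591))))))) (.a (.p (nat_lit 590) (.a (.f (nat_lit 589) (nat_lit 621) (nat_lit 5613) (.f (nat_lit 462) (nat_lit 557) (nat_lit 5581) (.d (nat_lit 461) (nat_lit 429) (nat_lit 7597) (nat_lit 497) (nat_lit 3533)))) (.a (.f (nat_lit 527) (nat_lit 622) (nat_lit 6638) (.d (nat_lit 529) (nat_lit 530) (nat_lit 3566) (nat_lit 557) (nat_lit 1549))) (.f (nat_lit 621) (nat_lit 589) (nat_lit 5613) (.f (nat_lit 622) (nat_lit 653) (nat_lit 5645) (.d (nat_lit 623) (nat_lit 591) (nat_lit 4590) (nat_lit 655) (nat_lit 4622))))))) (.a (.p (nat_lit 590) (.a (.f (nat_lit 589) (nat_lit 621) (nat_lit 5613) (.f (nat_lit 462) (nat_lit 557) (nat_lit 5581) (.d (nat_lit 461) (nat_lit 429) (nat_lit 7597) (nat_lit 497) (nat_lit 3533)))) (.a (.f (nat_lit 527) (nat_lit 622) (nat_lit 6638) (.d (nat_lit 529) (nat_lit 530) (nat_lit 3566) (nat_lit 557) (nat_lit 1549))) (.f (nat_lit 527) (nat_lit 622) (nat_lit 6638) (.f (nat_lit 529) (nat_lit 530) (nat_lit 3566) (.f (nat_lit 497) (nat_lit 498) (nat_lit 2542) (.f (nat_lit 462) (nat_lit 461) (nat_lit 3533) (.d (nat_lit 430) (nat_lit 398) (nat_lit 4494) (nat_lit 559) (nat_lit 4526))))))))) (.a (.p (nat_lit 591) (.a (.f (nat_lit 590) (nat_lit 623) (nat_lit 4590) (.f (nat_lit 621) (nat_lit 589) (nat_lit 5613) (.d (nat_lit 622) (nat_lit 593) (nat_lit 1613) (nat_lit 653) (nat_lit 5645)))) (.a (.f (nat_lit 559) (nat_lit 462) (nat_lit 4558) (.d (nat_lit 623) (nat_lit 590) (nat_lit 4590) (nat_lit 655) (nat_lit 7694))) (.f (nat_lit 462) (nat_lit 559) (nat_lit 4558) (.d (nat_lit 461) (nat_lit 429) (nat_lit 7597) (nat_lit 497) (nat_lit 3533)))))) (.a (.p (nat_lit 557) (.a (.f (nat_lit 462) (nat_lit 589) (nat_lit 5581) (.d (nat_lit 461) (nat_lit 429) (nat_lit 7597) (nat_lit 497) (nat_lit 3533))) (.a (.f (nat_lit 462) (nat_lit 589) (nat_lit 5581) (.f (nat_lit 559) (nat_lit 591) (nat_lit 4558) (.d (nat_lit 527) (nat_lit 430) (nat_lit 4526) (nat_lit 556) (nat_lit 2572)))) (.f (nat_lit 527) (nat_lit 529) (nat_lit 1549) (.d (nat_lit 556) (nat_lit 555) (nat_lit 2571) (nat_lit 559) (nat_lit 2572)))))) (.a (.p (nat_lit 591) (.a (.f (nat_lit 559) (nat_lit 462) (nat_lit 4558) (.d (nat_lit 623) (nat_lit 590) (nat_lit 4590) (nat_lit 655) (nat_lit 7694))) (.a (.f (nat_lit 590) (nat_lit 623) (nat_lit 4590) (.f (nat_lit 527) (nat_lit 622) (nat_lit 6638) (.d (nat_lit 529) (nat_lit 530) (nat_lit 3566) (nat_lit 557) (nat_lit 1549)))) (.f (nat_lit 462) (nat_lit 559) (nat_lit 4558) (.d (nat_lit 461) (nat_lit 429) (nat_lit 7597) (nat_lit 497) (nat_lit 3533)))))) (.p (nat_lit 590) (.a (.f (nat_lit 527) (nat_lit 622) (nat_lit 6638) (.d (nat_lit 529) (nat_lit 530) (nat_lit 3566) (nat_lit 557) (nat_lit 1549))) (.a (.f (nat_lit 621) (nat_lit 589) (nat_lit 5613) (.f (nat_lit 622) (nat_lit 653) (nat_lit 5645) (.d (nat_lit 623) (nat_lit 591) (nat_lit 4590) (nat_lit 655) (nat_lit 4622)))) (.f (nat_lit 591) (nat_lit 623) (nat_lit 4590) (.f (nat_lit 557) (nat_lit 593) (nat_lit 3629) (.d (nat_lit 589) (nat_lit 556) (nat_lit 3628) (nat_lit 621) (nat_lit 5613))))))))))))))))))) (.a (.p (nat_lit 591) (.a (.p (nat_lit 527) (.a (.d (nat_lit 525) (nat_lit 497) (nat_lit 2541) (nat_lit 524) (nat_lit 2540)) (.d (nat_lit 559) (nat_lit 464) (nat_lit 6607) (nat_lit 624) (nat_lit 4591)))) (.a s123639 (.a (.p (nat_lit 590) (.a s123550 (.a s123565 (.a (.p (nat_lit 593) (.a (.f (nat_lit 622) (nat_lit 621) (nat_lit 1613) (.f (nat_lit 594) (nat_lit 623) (nat_lit 1614) (.d (nat_lit 626) (nat_lit 625) (nat_lit 590) (nat_lit 627) (nat_lit 591)))) (.a (.f (nat_lit 558) (nat_lit 557) (nat_lit 3629) (.d (nat_lit 622) (nat_lit 527) (nat_lit 6638) (nat_lit 621) (nat_lit 1613))) (.a (.f (nat_lit 557) (nat_lit 558) (nat_lit 3629) (.f (nat_lit 589) (nat_lit 556) (nat_lit 3628) (.f (nat_lit 620) (nat_lit 621) (nat_lit 1612) (.f (nat_lit 588) (nat_lit 619) (nat_lit 1611) (.f (nat_lit 525) (nat_lit 493) (nat_lit 5612) (.d (nat_lit 527) (nat_lit 497) (nat_lit 2541) (nat_lit 524) (nat_lit 2540))))))) (.f (nat_lit 558) (nat_lit 557) (nat_lit 3629) (.f (nat_lit 527) (nat_lit 622) (nat_lit 6638) (.d (nat_lit 497) (nat_lit 498) (nat_lit 1518) (nat_lit 525) (nat_lit 2541)))))))) (.a (.p (nat_lit 527) (.a (.d (nat_lit 525) (nat_lit 497) (nat_lit 2541) (nat_lit 524) (nat_lit 2540)) (.f (nat_lit 622) (nat_lit 558) (nat_lit 6638) (.f (nat_lit 621) (nat_lit 593) (nat_lit 1613) (.d (nat_lit 620) (nat_lit 589) (nat_lit 1612) (nat_lit 619) (nat_lit 2635)))))) (.a s123612 (.a (.p (nat_lit 527) (.a (.d (nat_lit 525) (nat_lit 497) (nat_lit 2541) (nat_lit 524) (nat_lit 2540)) (.a (.f (nat_lit 525) (nat_lit 524) (nat_lit 2540) (.f (nat_lit 558) (nat_lit 622) (nat_lit 6638) (.d (nat_lit 557) (nat_lit 529) (nat_lit 1549) (nat_lit 556) (nat_lit 1548)))) (.f (nat_lit 558) (nat_lit 622) (nat_lit 6638) (.d (nat_lit 557) (nat_lit 529) (nat_lit 1549) (nat_lit 593) (nat_lit 3629)))))) (.p (nat_lit 589) (.a (.f (nat_lit 624) (nat_lit 625) (nat_lit 589) (.f (nat_lit 588) (nat_lit 623) (nat_lit 588) (.d (nat_lit 620) (nat_lit 619) (nat_lit 1611) (nat_lit 621) (nat_lit 1612)))) (.a (.f (nat_lit 557) (nat_lit 556) (nat_lit 3628) (.f (nat_lit 558) (nat_lit 593) (nat_lit 3629) (.d (nat_lit 621) (nat_lit 620) (nat_lit 1612) (nat_lit 653) (nat_lit 6669)))) (.f (nat_lit 624) (nat_lit 625) (nat_lit 589) (.f (nat_lit 588) (nat_lit 623) (nat_lit 588) (.d (nat_lit 556) (nat_lit 555) (nat_lit 3627) (nat_lit 557) (nat_lit 3628)))))))))))))) (.a (.p (nat_lit 593) (.a (.p (nat_lit 594) (.a (.f (nat_lit 626) (nat_lit 627) (nat_lit 591) (.f (nat_lit 625) (nat_lit 590) (nat_lit 590) (.f (nat_lit 562) (nat_lit 563) (nat_lit 2607) (.d (nat_lit 530) (nat_lit 498) (nat_lit 5617) (nat_lit 657) (nat_lit 5649))))) (.a (.f (nat_lit 623) (nat_lit 622) (nat_lit 1614) (.f (nat_lit 595) (nat_lit 624) (nat_lit 1615) (.d (nat_lit 627) (nat_lit 626) (nat_lit 591) (nat_lit 628) (nat_lit 592)))) (.f (nat_lit 623) (nat_lit 622) (nat_lit 1614) (.f (nat_lit 595) (nat_lit 624) (nat_lit 1615) (.d (nat_lit 563) (nat_lit 562) (nat_lit 2607) (nat_lit 564) (nat_lit 2608))))))) (.a s123681 (.a (.p (nat_lit 594) (.a (.f (nat_lit 623) (nat_lit 622) (nat_lit 1614) (.f (nat_lit 595) (nat_lit 624) (nat_lit 1615) (.d (nat_lit 627) (nat_lit 626) (nat_lit 591) (nat_lit 628) (nat_lit 592)))) (.a (.f (nat_lit 626) (nat_lit 627) (nat_lit 591) (.f (nat_lit 590) (nat_lit 625) (nat_lit 590) (.d (nat_lit 622) (nat_lit 621) (nat_lit 1613) (nat_lit 623) (nat_lit 1614)))) (.a (.f (nat_lit 626) (nat_lit 627) (nat_lit 591) (.f (nat_lit 590) (nat_lit 625) (nat_lit 590) (.d (nat_lit 558) (nat_lit 557) (nat_lit 3629) (nat_lit 559) (nat_lit 3630)))) (.f (nat_lit 623) (nat_lit 622) (nat_lit 1614) (.f (nat_lit 558) (nat_lit 559) (nat_lit 3630) (.f (nat_lit 590) (nat_lit 557) (nat_lit 3629) (.f (nat_lit 624) (nat_lit 595) (nat_lit 1615) (.d (nat_lit 589) (nat_lit 588) (nat_lit 588) (nat_lit 625) (nat_lit 589)))))))))) (.a (.p (nat_lit 594) (.a (.f (nat_lit 626) (nat_lit 627) (nat_lit 591) (.f (nat_lit 625) (nat_lit 590) (nat_lit 590) (.f (nat_lit 562) (nat_lit 563) (nat_lit 2607) (.d (nat_lit 530) (nat_lit 498) (nat_lit 5617) (nat_lit 657) (nat_lit 5649))))) (.a (.f (nat_lit 626) (nat_lit 627) (nat_lit 591) (.f (nat_lit 590) (nat_lit 625) (nat_lit 590) (.d (nat_lit 622) (nat_lit 621) (nat_lit 1613) (nat_lit 623) (nat_lit 1614)))) (.a (.f (nat_lit 627) (nat_lit 626) (nat_lit 591) (.f (nat_lit 595) (nat_lit 628) (nat_lit 592) (.d (nat_lit 563) (nat_lit 562) (nat_lit 2607) (nat_lit 564) (nat_lit 2608)))) (.f (nat_lit 622) (nat_lit 623) (nat_lit 1614) (.f (nat_lit 590) (nat_lit 621) (nat_lit 1613) (.d (nat_lit 558) (nat_lit 527) (nat_lit 6638) (nat_lit 557) (nat_lit 3629)))))))) (.a (.p (nat_lit 594) (.a (.f (nat_lit 623) (nat_lit 622) (nat_lit 1614) (.f (nat_lit 595) (nat_lit 624) (nat_lit 1615) (.d (nat_lit 627) (nat_lit 626) (nat_lit 591) (nat_lit 628) (nat_lit 592)))) (.a (.f (nat_lit 627) (nat_lit 626) (nat_lit 591) (.f (nat_lit 595) (nat_lit 628) (nat_lit 592) (.d (nat_lit 563) (nat_lit 562) (nat_lit 2607) (nat_lit 564) (nat_lit 2608)))) (.f (nat_lit 559) (nat_lit 558) (nat_lit 3630) (.d (nat_lit 527) (nat_lit 464) (nat_lit 6607) (nat_lit 624) (nat_lit 4591)))))) (.a (.p (nat_lit 594) (.a (.f (nat_lit 626) (nat_lit 627) (nat_lit 591) (.f (nat_lit 625) (nat_lit 590) (nat_lit 590) (.f (nat_lit 562) (nat_lit 563) (nat_lit 2607) (.d (nat_lit 530) (nat_lit 498) (nat_lit 5617) (nat_lit 657) (nat_lit 5649))))) (.a (.f (nat_lit 626) (nat_lit 627) (nat_lit 591) (.f (nat_lit 590) (nat_lit 625) (nat_lit 590) (.d (nat_lit 622) (nat_lit 621) (nat_lit 1613) (nat_lit 623) (nat_lit 1614)))) (.f (nat_lit 559) (nat_lit 558) (nat_lit 3630) (.d (nat_lit 527) (nat_lit 464) (nat_lit 6607) (nat_lit 624) (nat_lit 4591)))))) (.a (.p (nat_lit 590) (.a (.f (nat_lit 622) (nat_lit 621) (nat_lit 1613) (.f (nat_lit 625) (nat_lit 626) (nat_lit 590) (.f (nat_lit 589) (nat_lit 624) (nat_lit 589) (.f (nat_lit 556) (nat_lit 557) (nat_lit 3628) (.f (nat_lit 588) (nat_lit 555) (nat_lit 3627) (.f (nat_lit 619) (nat_lit 620) (nat_lit 1611) (.d (nat_lit 587) (nat_lit 618) (nat_lit 1610) (nat_lit 623) (nat_lit 587)))))))) (.a (.f (nat_lit 558) (nat_lit 557) (nat_lit 3629) (.d (nat_lit 622) (nat_lit 527) (nat_lit 6638) (nat_lit 621) (nat_lit 1613))) (.a (.f (nat_lit 625) (nat_lit 626) (nat_lit 590) (.f (nat_lit 589) (nat_lit 624) (nat_lit 589) (.d (nat_lit 621) (nat_lit 620) (nat_lit 1612) (nat_lit 622) (nat_lit 1613)))) (.a (.f (nat_lit 625) (nat_lit 626) (nat_lit 590) (.f (nat_lit 589) (nat_lit 624) (nat_lit 589) (.f (nat_lit 556) (nat_lit 557) (nat_lit 3628) (.f (nat_lit 588) (nat_lit 555) (nat_lit 3627) (.d (nat_lit 620) (nat_lit 619) (nat_lit 1611) (nat_lit 621) (nat_lit 1612)))))) (.f (nat_lit 625) (nat_lit 626) (nat_lit 590) (.f (nat_lit 589) (nat_lit 624) (nat_lit 589) (.d (nat_lit 557) (nat_lit 556) (nat_lit 3628) (nat_lit 558) (nat_lit 3629))))))))) (.a s123703 (.p (nat_lit 594) (.a (.f (nat_lit 623) (nat_lit 622) (nat_lit 1614) (.f (nat_lit 595) (nat_lit 624) (nat_lit 1615) (.d (nat_lit 563) (nat_lit 562) (nat_lit 2607) (nat_lit 564) (nat_lit 2608)))) (.a (.f (nat_lit 559) (nat_lit 558) (nat_lit 3630) (.d (nat_lit 527) (nat_lit 464) (nat_lit 6607) (nat_lit 624) (nat_lit 4591))) (.f (nat_lit 622) (nat_lit 623) (nat_lit 1614) (.f (nat_lit 590) (nat_lit 621) (nat_lit 1613) (.d (nat_lit 558) (nat_lit 527) (nat_lit 6638) (nat_lit 557) (nat_lit 3629)))))))))))))))) (.p (nat_lit 527) (.a (.d (nat_lit 525) (nat_lit 497) (nat_lit 2541) (nat_lit 524) (nat_lit 2540)) (.a (.f (nat_lit 525) (nat_lit 524) (nat_lit 2540) (.f (nat_lit 557) (nat_lit 556) (nat_lit 1548) (.f (nat_lit 558) (nat_lit 529) (nat_lit 1549) (.d (nat_lit 590) (nat_lit 593) (nat_lit 3629) (nat_lit 622) (nat_lit 6638))))) (.d (nat_lit 559) (nat_lit 464) (nat_lit 6607) (nat_lit 623) (nat_lit 6639)))))))))) (.p (nat_lit 591) (.a (.p (nat_lit 593) (.a (.p (nat_lit 594) (.a (.f (nat_lit 626) (nat_lit 627) (nat_lit 591) (.f (nat_lit 625) (nat_lit 590) (nat_lit 590) (.f (nat_lit 562) (nat_lit 563) (nat_lit 2607) (.d (nat_lit 530) (nat_lit 498) (nat_lit 5617) (nat_lit 657) (nat_lit 5649))))) (.a (.f (nat_lit 623) (nat_lit 622) (nat_lit 1614) (.f (nat_lit 595) (nat_lit 624) (nat_lit 1615) (.d (nat_lit 627) (nat_lit 626) (nat_lit 591) (nat_lit 628) (nat_lit 592)))) (.f (nat_lit 623) (nat_lit 622) (nat_lit 1614) (.f (nat_lit 595) (nat_lit 624) (nat_lit 1615) (.d (nat_lit 563) (nat_lit 562) (nat_lit 2607) (nat_lit 564) (nat_lit 2608))))))) (.a s123681 (.a (.p (nat_lit 594) (.a (.f (nat_lit 623) (nat_lit 622) (nat_lit 1614) (.f (nat_lit 595) (nat_lit 624) (nat_lit 1615) (.d (nat_lit 627) (nat_lit 626) (nat_lit 591) (nat_lit 628) (nat_lit 592)))) (.a (.f (nat_lit 626) (nat_lit 627) (nat_lit 591) (.f (nat_lit 590) (nat_lit 625) (nat_lit 590) (.d (nat_lit 622) (nat_lit 621) (nat_lit 1613) (nat_lit 623) (nat_lit 1614)))) (.a (.f (nat_lit 626) (nat_lit 627) (nat_lit 591) (.f (nat_lit 590) (nat_lit 625) (nat_lit 590) (.d (nat_lit 558) (nat_lit 557) (nat_lit 3629) (nat_lit 559) (nat_lit 3630)))) (.f (nat_lit 623) (nat_lit 622) (nat_lit 1614) (.f (nat_lit 558) (nat_lit 559) (nat_lit 3630) (.d (nat_lit 590) (nat_lit 494) (nat_lit 4590) (nat_lit 557) (nat_lit 3629)))))))) (.a (.p (nat_lit 594) (.a (.f (nat_lit 626) (nat_lit 627) (nat_lit 591) (.f (nat_lit 625) (nat_lit 590) (nat_lit 590) (.f (nat_lit 562) (nat_lit 563) (nat_lit 2607) (.d (nat_lit 530) (nat_lit 498) (nat_lit 5617) (nat_lit 657) (nat_lit 5649))))) (.a (.f (nat_lit 626) (nat_lit 627) (nat_lit 591) (.f (nat_lit 590) (nat_lit 625) (nat_lit 590) (.d (nat_lit 622) (nat_lit 621) (nat_lit 1613) (nat_lit 623) (nat_lit 1614)))) (.a (.f (nat_lit 627) (nat_lit 626) (nat_lit 591) (.f (nat_lit 595) (nat_lit 628) (nat_lit 592) (.d (nat_lit 563) (nat_lit 562) (nat_lit 2607) (nat_lit 564) (nat_lit 2608)))) (.f (nat_lit 623) (nat_lit 622) (nat_lit 1614) (.f (nat_lit 558) (nat_lit 559) (nat_lit 3630) (.d (nat_lit 590) (nat_lit 494) (nat_lit 4590) (nat_lit 557) (nat_lit 3629)))))))) (.a (.p (nat_lit 594) (.a (.f (nat_lit 623) (nat_lit 622) (nat_lit 1614) (.f (nat_lit 595) (nat_lit 624) (nat_lit 1615) (.d (nat_lit 627) (nat_lit 626) (nat_lit 591) (nat_lit 628) (nat_lit 592)))) (.a (.f (nat_lit 627) (nat_lit 626) (nat_lit 591) (.f (nat_lit 595) (nat_lit 628) (nat_lit 592) (.d (nat_lit 563) (nat_lit 562) (nat_lit 2607) (nat_lit 564) (nat_lit 2608)))) (.f (nat_lit 559) (nat_lit 558) (nat_lit 3630) (.d (nat_lit 527) (nat_lit 464) (nat_lit 6607) (nat_lit 624) (nat_lit 4591)))))) (.a (.p (nat_lit 594) (.a (.f (nat_lit 626) (nat_lit 627) (nat_lit 591) (.f (nat_lit 625) (nat_lit 590) (nat_lit 590) (.f (nat_lit 562) (nat_lit 563) (nat_lit 2607) (.d (nat_lit 530) (nat_lit 498) (nat_lit 5617) (nat_lit 657) (nat_lit 5649))))) (.a (.f (nat_lit 626) (nat_lit 627) (nat_lit 591) (.f (nat_lit 590) (nat_lit 625) (nat_lit 590) (.d (nat_lit 622) (nat_lit 621) (nat_lit 1613) (nat_lit 623) (nat_lit 1614)))) (.f (nat_lit 559) (nat_lit 558) (nat_lit 3630) (.d (nat_lit 527) (nat_lit 464) (nat_lit 6607) (nat_lit 624) (nat_lit 4591)))))) (.a (.p (nat_lit 590) (.a (.f (nat_lit 558) (nat_lit 557) (nat_lit 3629) (.f (nat_lit 622) (nat_lit 621) (nat_lit 1613) (.d (nat_lit 623) (nat_lit 494) (nat_lit 4590) (nat_lit 655) (nat_lit 4622)))) (.a (.f (nat_lit 622) (nat_lit 621) (nat_lit 1613) (.f (nat_lit 625) (nat_lit 626) (nat_lit 590) (.f (nat_lit 589) (nat_lit 624) (nat_lit 589) (.f (nat_lit 556) (nat_lit 557) (nat_lit 3628) (.f (nat_lit 588) (nat_lit 555) (nat_lit 3627) (.f (nat_lit 619) (nat_lit 620) (nat_lit 1611) (.d (nat_lit 587) (nat_lit 618) (nat_lit 1610) (nat_lit 623) (nat_lit 587)))))))) (.a (.f (nat_lit 625) (nat_lit 626) (nat_lit 590) (.f (nat_lit 589) (nat_lit 624) (nat_lit 589) (.d (nat_lit 621) (nat_lit 620) (nat_lit 1612) (nat_lit 622) (nat_lit 1613)))) (.a (.f (nat_lit 625) (nat_lit 626) (nat_lit 590) (.f (nat_lit 589) (nat_lit 624) (nat_lit 589) (.f (nat_lit 556) (nat_lit 557) (nat_lit 3628) (.f (nat_lit 588) (nat_lit 555) (nat_lit 3627) (.d (nat_lit 620) (nat_lit 619) (nat_lit 1611) (nat_lit 621) (nat_lit 1612)))))) (.f (nat_lit 558) (nat_lit 557) (nat_lit 3629) (.f (nat_lit 527) (nat_lit 622) (nat_lit 6638) (.d (nat_lit 623) (nat_lit 494) (nat_lit 4590) (nat_lit 559) (nat_lit 6639))))))))) (.a s123703 (.p (nat_lit 594) (.a (.f (nat_lit 623) (nat_lit 622) (nat_lit 1614) (.f (nat_lit 595) (nat_lit 624) (nat_lit 1615) (.d (nat_lit 563) (nat_lit 562) (nat_lit 2607) (nat_lit 564) (nat_lit 2608)))) (.a (.f (nat_lit 623) (nat_lit 622) (nat_lit 1614) (.f (nat_lit 558) (nat_lit 559) (nat_lit 3630) (.d (nat_lit 590) (nat_lit 494) (nat_lit 4590) (nat_lit 557) (nat_lit 3629)))) (.f (nat_lit 559) (nat_lit 558) (nat_lit 3630) (.d (nat_lit 527) (nat_lit 464) (nat_lit 6607) (nat_lit 624) (nat_lit 4591))))))))))))))) (.a s123639 (.a (.p (nat_lit 594) (.a (.p (nat_lit 593) (.a (.f (nat_lit 626) (nat_lit 627) (nat_lit 591) (.f (nat_lit 625) (nat_lit 590) (nat_lit 590) (.f (nat_lit 562) (nat_lit 563) (nat_lit 2607) (.d (nat_lit 530) (nat_lit 498) (nat_lit 5617) (nat_lit 657) (nat_lit 5649))))) (.a (.f (nat_lit 623) (nat_lit 622) (nat_lit 1614) (.f (nat_lit 595) (nat_lit 624) (nat_lit 1615) (.d (nat_lit 627) (nat_lit 626) (nat_lit 591) (nat_lit 628) (nat_lit 592)))) (.f (nat_lit 623) (nat_lit 622) (nat_lit 1614) (.f (nat_lit 595) (nat_lit 624) (nat_lit 1615) (.d (nat_lit 563) (nat_lit 562) (nat_lit 2607) (nat_lit 564) (nat_lit 2608))))))) (.a (.p (nat_lit 593) (.a (.f (nat_lit 623) (nat_lit 622) (nat_lit 1614) (.f (nat_lit 595) (nat_lit 624) (nat_lit 1615) (.d (nat_lit 627) (nat_lit 626) (nat_lit 591) (nat_lit 628) (nat_lit 592)))) (.a (.f (nat_lit 626) (nat_lit 627) (nat_lit 591) (.f (nat_lit 590) (nat_lit 625) (nat_lit 590) (.d (nat_lit 622) (nat_lit 621) (nat_lit 1613) (nat_lit 623) (nat_lit 1614)))) (.a (.f (nat_lit 626) (nat_lit 627) (nat_lit 591) (.f (nat_lit 563) (nat_lit 562) (nat_lit 2607) (.f (nat_lit 595) (nat_lit 564) (nat_lit 2608) (.f (nat_lit 625) (nat_lit 590) (nat_lit 590) (.d (nat_lit 596) (nat_lit 597) (nat_lit 1617) (nat_lit 624) (nat_lit 1616)))))) (.f (nat_lit 623) (nat_lit 622) (nat_lit 1614) (.f (nat_lit 595) (nat_lit 624) (nat_lit 1615) (.d (nat_lit 563) (nat_lit 562) (nat_lit 2607) (nat_lit 564) (nat_lit 2608)))))))) (.a (.p (nat_lit 593) (.a (.f (nat_lit 623) (nat_lit 622) (nat_lit 1614) (.f (nat_lit 595) (nat_lit 624) (nat_lit 1615) (.d (nat_lit 627) (nat_lit 626) (nat_lit 591) (nat_lit 628) (nat_lit 592)))) (.a (.f (nat_lit 626) (nat_lit 627) (nat_lit 591) (.f (nat_lit 590) (nat_lit 625) (nat_lit 590) (.d (nat_lit 622) (nat_lit 621) (nat_lit 1613) (nat_lit 623) (nat_lit 1614)))) (.a (.f (nat_lit 626) (nat_lit 627) (nat_lit 591) (.f (nat_lit 590) (nat_lit 625) (nat_lit 590) (.f (nat_lit 558) (nat_lit 557) (nat_lit 3629) (.d (nat_lit 622) (nat_lit 527) (nat_lit 6638) (nat_lit 621) (nat_lit 1613))))) (.a (.f (nat_lit 622) (nat_lit 623) (nat_lit 1614) (.f (nat_lit 590) (nat_lit 621) (nat_lit 1613) (.d (nat_lit 558) (nat_lit 527) (nat_lit 6638) (nat_lit 557) (nat_lit 3629)))) (.f (nat_lit 626) (nat_lit 627) (nat_lit 591) (.f (nat_lit 590) (nat_lit 625) (nat_lit 590) (.f (nat_lit 558) (nat_lit 557) (nat_lit 3629) (.f (nat_lit 494) (nat_lit 623) (nat_lit 4590) (.f (nat_lit 497) (nat_lit 525) (nat_lit 1517) (.f (nat_lit 530) (nat_lit 529) (nat_lit 494) (.d (nat_lit 498) (nat_lit 527) (nat_lit 1518) (nat_lit 531) (nat_lit 495))))))))))))) (.a (.p (nat_lit 593) (.a (.f (nat_lit 626) (nat_lit 627) (nat_lit 591) (.f (nat_lit 625) (nat_lit 590) (nat_lit 590) (.f (nat_lit 562) (nat_lit 563) (nat_lit 2607) (.d (nat_lit 530) (nat_lit 498) (nat_lit 5617) (nat_lit 657) (nat_lit 5649))))) (.a (.f (nat_lit 626) (nat_lit 627) (nat_lit 591) (.f (nat_lit 590) (nat_lit 625) (nat_lit 590) (.d (nat_lit 622) (nat_lit 621) (nat_lit 1613) (nat_lit 623) (nat_lit 1614)))) (.a (.f (nat_lit 627) (nat_lit 626) (nat_lit 591) (.f (nat_lit 595) (nat_lit 628) (nat_lit 592) (.d (nat_lit 563) (nat_lit 562) (nat_lit 2607) (nat_lit 564) (nat_lit 2608)))) (.f (nat_lit 622) (nat_lit 623) (nat_lit 1614) (.f (nat_lit 590) (nat_lit 621) (nat_lit 1613) (.d (nat_lit 558) (nat_lit 527) (nat_lit 6638) (nat_lit 557) (nat_lit 3629)))))))) (.a (.p (nat_lit 497) (.a (.d (nat_lit 525) (nat_lit 494) (nat_lit 1517) (nat_lit 527) (nat_lit 2541)) (.a (.f (nat_lit 494) (nat_lit 525) (nat_lit 1517) (.f (nat_lit 530) (nat_lit 529) (nat_lit 494) (.f (nat_lit 498) (nat_lit 531) (nat_lit 495) (.f (nat_lit 562) (nat_lit 465) (nat_lit 7633) (.f (nat_lit 627) (nat_lit 595) (nat_lit 4594) (.f (nat_lit 626) (nat_lit 659) (nat_lit 4626) (.d (nat_lit 625) (nat_lit 624) (nat_lit 3663) (nat_lit 657) (nat_lit 5649)))))))) (.a (.f (nat_lit 498) (nat_lit 527) (nat_lit 1518) (.f (nat_lit 530) (nat_lit 531) (nat_lit 495) (.f (nat_lit 529) (nat_lit 494) (nat_lit 494) (.d (nat_lit 562) (nat_lit 465) (nat_lit 7633) (nat_lit 626) (nat_lit 7665))))) (.f (nat_lit 498) (nat_lit 527) (nat_lit 1518) (.f (nat_lit 530) (nat_lit 531) (nat_lit 495) (.f (nat_lit 562) (nat_lit 465) (nat_lit 7633) (.f (nat_lit 627) (nat_lit 595) (nat_lit 4594) (.f (nat_lit 626) (nat_lit 659) (nat_lit 4626) (.d (nat_lit 625) (nat_lit 624) (nat_lit 3663) (nat_lit 657) (nat_lit 5649))))))))))) (.a (.p (nat_lit 497) (.a (.d (nat_lit 525) (nat_lit 494) (nat_lit 1517) (nat_lit 527) (nat_lit 2541)) (.a (.f (nat_lit 494) (nat_lit 525) (nat_lit 1517) (.f (nat_lit 530) (nat_lit 529) (nat_lit 494) (.f (nat_lit 498) (nat_lit 531) (nat_lit 495) (.f (nat_lit 562) (nat_lit 465) (nat_lit 7633) (.d (nat_lit 593) (nat_lit 563) (nat_lit 2607) (nat_lit 625) (nat_lit 5617)))))) (.a (.f (nat_lit 498) (nat_lit 527) (nat_lit 1518) (.f (nat_lit 530) (nat_lit 531) (nat_lit 495) (.f (nat_lit 529) (nat_lit 494) (nat_lit 494) (.d (nat_lit 562) (nat_lit 465) (nat_lit 7633) (nat_lit 626) (nat_lit 7665))))) (.d (nat_lit 527) (nat_lit 498) (nat_lit 1518) (nat_lit 525) (nat_lit 2541)))))) (.p (nat_lit 593) (.a (.f (nat_lit 623) (nat_lit 622) (nat_lit 1614) (.f (nat_lit 595) (nat_lit 624) (nat_lit 1615) (.d (nat_lit 563) (nat_lit 562) (nat_lit 2607) (nat_lit 564) (nat_lit 2608)))) (.a (.f (nat_lit 622) (nat_lit 623) (nat_lit 1614) (.f (nat_lit 590) (nat_lit 621) (nat_lit 1613) (.d (nat_lit 558) (nat_lit 527) (nat_lit 6638) (nat_lit 557) (nat_lit 3629)))) (.f (nat_lit 563) (nat_lit 562) (nat_lit 2607) (.f (nat_lit 595) (nat_lit 564) (nat_lit 2608) (.f (nat_lit 628) (nat_lit 627) (nat_lit 592) (.f (nat_lit 596) (nat_lit 629) (nat_lit 593) (.f (nat_lit 531) (nat_lit 499) (nat_lit 4595) (.f (nat_lit 530) (nat_lit 529) (nat_lit 3567) (.f (nat_lit 497) (nat_lit 498) (nat_lit 495) (.d (nat_lit 525) (nat_lit 494) (nat_lit 1517) (nat_lit 527) (nat_lit 2541))))))))))))))))))) (.a (.p (nat_lit 527) (.a (.d (nat_lit 525) (nat_lit 497) (nat_lit 2541) (nat_lit 524) (nat_lit 2540)) (.d (nat_lit 559) (nat_lit 464) (nat_lit 6607) (nat_lit 624) (nat_lit 4591)))) (.p (nat_lit 527) (.a (.d (nat_lit 525) (nat_lit 497) (nat_lit 2541) (nat_lit 524) (nat_lit 2540)) (.a (.f (nat_lit 525) (nat_lit 524) (nat_lit 2540) (.f (nat_lit 557) (nat_lit 556) (nat_lit 1548) (.f (nat_lit 558) (nat_lit 529) (nat_lit 1549) (.d (nat_lit 590) (nat_lit 593) (nat_lit 3629) (nat_lit 622) (nat_lit 6638))))) (.d (nat_lit 559) (nat_lit 464) (nat_lit 6607) (nat_lit 623) (nat_lit 6639))))))))))))))))) (.a (.p (nat_lit 560) (.a (.f (nat_lit 624) (nat_lit 527) (nat_lit 7663) (.d (nat_lit 623) (nat_lit 591) (nat_lit 5615) (nat_lit 655) (nat_lit 5647))) (.a (.f (nat_lit 591) (nat_lit 623) (nat_lit 5615) (.f (nat_lit 559) (nat_lit 464) (nat_lit 5583) (.f (nat_lit 593) (nat_lit 625) (nat_lit 4592) (.d (nat_lit 594) (nat_lit 558) (nat_lit 3630) (nat_lit 595) (nat_lit 3631))))) (.f (nat_lit 624) (nat_lit 527) (nat_lit 7663) (.d (nat_lit 625) (nat_lit 593) (nat_lit 4592) (nat_lit 657) (nat_lit 4624)))))) (.a (.p (nat_lit 530) (.a (.f (nat_lit 529) (nat_lit 531) (nat_lit 3567) (.d (nat_lit 494) (nat_lit 493) (nat_lit 493) (nat_lit 527) (nat_lit 3566))) (.a (.p (nat_lit 560) (.a (.f (nat_lit 527) (nat_lit 624) (nat_lit 7663) (.f (nat_lit 497) (nat_lit 465) (nat_lit 6608) (.d (nat_lit 498) (nat_lit 526) (nat_lit 1518) (nat_lit 531) (nat_lit 495)))) (.a (.f (nat_lit 625) (nat_lit 593) (nat_lit 4592) (.f (nat_lit 624) (nat_lit 657) (nat_lit 4624) (.d (nat_lit 623) (nat_lit 591) (nat_lit 5615) (nat_lit 655) (nat_lit 5647)))) (.f (nat_lit 497) (nat_lit 465) (nat_lit 6608) (.f (nat_lit 498) (nat_lit 531) (nat_lit 495) (.d (nat_lit 527) (nat_lit 499) (nat_lit 1519) (nat_lit 526) (nat_lit 1518))))))) (.a (.f (nat_lit 529) (nat_lit 531) (nat_lit 3567) (.d (nat_lit 494) (nat_lit 493) (nat_lit 493) (nat_lit 497) (nat_lit 494))) (.p (nat_lit 560) (.a (.f (nat_lit 625) (nat_lit 593) (nat_lit 4592) (.f (nat_lit 624) (nat_lit 657) (nat_lit 4624) (.d (nat_lit 623) (nat_lit 591) (nat_lit 5615) (nat_lit 655) (nat_lit 5647)))) (.f (nat_lit 497) (nat_lit 465) (nat_lit 6608) (.f (nat_lit 494) (nat_lit 529) (nat_lit 494) (.f (nat_lit 526) (nat_lit 525) (nat_lit 1517) (.f (nat_lit 527) (nat_lit 498) (nat_lit 1518) (.f (nat_lit 493) (nat_lit 492) (nat_lit 492) (.d (nat_lit 461) (nat_lit 460) (nat_lit 3532) (nat_lit 462) (nat_lit 3533))))))))))))) (.a (.p (nat_lit 560) (.a (.f (nat_lit 497) (nat_lit 465) (nat_lit 6608) (.d (nat_lit 624) (nat_lit 527) (nat_lit 7663) (nat_lit 529) (nat_lit 6640))) (.a (.f (nat_lit 527) (nat_lit 624) (nat_lit 7663) (.f (nat_lit 497) (nat_lit 465) (nat_lit 6608) (.d (nat_lit 526) (nat_lit 498) (nat_lit 1518) (nat_lit 525) (nat_lit 2541)))) (.a (.f (nat_lit 497) (nat_lit 465) (nat_lit 6608) (.f (nat_lit 529) (nat_lit 624) (nat_lit 6640) (.d (nat_lit 494) (nat_lit 493) (nat_lit 493) (nat_lit 530) (nat_lit 494)))) (.a (.f (nat_lit 624) (nat_lit 527) (nat_lit 7663) (.d (nat_lit 625) (nat_lit 593) (nat_lit 4592) (nat_lit 657) (nat_lit 4624))) (.p (nat_lit 530) (.a (.f (nat_lit 497) (nat_lit 465) (nat_lit 6608) (.f (nat_lit 498) (nat_lit 531) (nat_lit 495) (.d (nat_lit 527) (nat_lit 499) (nat_lit 1519) (nat_lit 526) (nat_lit 1518)))) (.a (.f (nat_lit 497) (nat_lit 465) (nat_lit 6608) (.d (nat_lit 531) (nat_lit 498) (nat_lit 495) (nat_lit 529) (nat_lit 3567))) (.a (.f (nat_lit 529) (nat_lit 531) (nat_lit 3567) (.d (nat_lit 494) (nat_lit 493) (nat_lit 493) (nat_lit 527) (nat_lit 3566))) (.f (nat_lit 497) (nat_lit 465) (nat_lit 6608) (.f (nat_lit 494) (nat_lit 529) (nat_lit 494) (.f (nat_lit 526) (nat_lit 525) (nat_lit 1517) (.f (nat_lit 527) (nat_lit 498) (nat_lit 1518) (.f (nat_lit 493) (nat_lit 492) (nat_lit 492) (.d (nat_lit 461) (nat_lit 460) (nat_lit 3532) (nat_lit 462) (nat_lit 3533)))))))))))))))) (.a (.p (nat_lit 530) (.a (.f (nat_lit 529) (nat_lit 531) (nat_lit 3567) (.d (nat_lit 494) (nat_lit 493) (nat_lit 493) (nat_lit 527) (nat_lit 3566))) (.a (.p (nat_lit 560) (.a (.f (nat_lit 497) (nat_lit 465) (nat_lit 6608) (.f (nat_lit 498) (nat_lit 531) (nat_lit 495) (.d (nat_lit 527) (nat_lit 499) (nat_lit 1519) (nat_lit 526) (nat_lit 1518)))) (.f (nat_lit 591) (nat_lit 623) (nat_lit 5615) (.f (nat_lit 559) (nat_lit 464) (nat_lit 5583) (.f (nat_lit 593) (nat_lit 625) (nat_lit 4592) (.d (nat_lit 594) (nat_lit 558) (nat_lit 3630) (nat_lit 595) (nat_lit 3631))))))) (.a (.f (nat_lit 529) (nat_lit 531) (nat_lit 3567) (.d (nat_lit 494) (nat_lit 493) (nat_lit 493) (nat_lit 497) (nat_lit 494))) (.p (nat_lit 560) (.a (.f (nat_lit 497) (nat_lit 465) (nat_lit 6608) (.f (nat_lit 494) (nat_lit 529) (nat_lit 494) (.f (nat_lit 526) (nat_lit 525) (nat_lit 1517) (.f (nat_lit 527) (nat_lit 498) (nat_lit 1518) (.f (nat_lit 493) (nat_lit 492) (nat_lit 492) (.d (nat_lit 461) (nat_lit 460) (nat_lit 3532) (nat_lit 462) (nat_lit 3533))))))) (.f (nat_lit 591) (nat_lit 623) (nat_lit 5615) (.f (nat_lit 559) (nat_lit 464) (nat_lit 5583) (.f (nat_lit 593) (nat_lit 625) (nat_lit 4592) (.d (nat_lit 594) (nat_lit 558) (nat_lit 3630) (nat_lit 595) (nat_lit 3631))))))))))) (.p (nat_lit 560) (.a (.f (nat_lit 497) (nat_lit 465) (nat_lit 6608) (.d (nat_lit 624) (nat_lit 527) (nat_lit 7663) (nat_lit 529) (nat_lit 6640))) (.a (.f (nat_lit 527) (nat_lit 624) (nat_lit 7663) (.f (nat_lit 497) (nat_lit 465) (nat_lit 6608) (.d (nat_lit 526) (nat_lit 498) (nat_lit 1518) (nat_lit 525) (nat_lit 2541)))) (.a (.f (nat_lit 497) (nat_lit 465) (nat_lit 6608) (.f (nat_lit 529) (nat_lit 624) (nat_lit 6640) (.d (nat_lit 494) (nat_lit 493) (nat_lit 493) (nat_lit 530) (nat_lit 494)))) (.a (.f (nat_lit 624) (nat_lit 527) (nat_lit 7663) (.d (nat_lit 623) (nat_lit 591) (nat_lit 5615) (nat_lit 655) (nat_lit 5647))) (.f (nat_lit 591) (nat_lit 623) (nat_lit 5615) (.f (nat_lit 464) (nat_lit 559) (nat_lit 5583) (.d (nat_lit 465) (nat_lit 433) (nat_lit 6576) (nat_lit 497) (nat_lit 6608)))))))))))))))))) (.a (.p (nat_lit 494) (.a (.f (nat_lit 493) (nat_lit 529) (nat_lit 493) (.f (nat_lit 525) (nat_lit 524) (nat_lit 1516) (.f (nat_lit 497) (nat_lit 526) (nat_lit 1517) (.d (nat_lit 461) (nat_lit 460) (nat_lit 3532) (nat_lit 462) (nat_lit 3533))))) (.a (.p (nat_lit 525) (.a (.f (nat_lit 493) (nat_lit 524) (nat_lit 1516) (.f (nat_lit 461) (nat_lit 460) (nat_lit 3532) (.d (nat_lit 497) (nat_lit 462) (nat_lit 3533) (nat_lit 526) (nat_lit 1517)))) (.a (.f (nat_lit 524) (nat_lit 493) (nat_lit 1516) (.d (nat_lit 526) (nat_lit 523) (nat_lit 2539) (nat_lit 527) (nat_lit 2540))) (.a (.f (nat_lit 493) (nat_lit 524) (nat_lit 1516) (.f (nat_lit 461) (nat_lit 460) (nat_lit 3532) (.f (nat_lit 462) (nat_lit 497) (nat_lit 3533) (.d (nat_lit 430) (nat_lit 398) (nat_lit 5517) (nat_lit 557) (nat_lit 6573))))) (.f (nat_lit 497) (nat_lit 526) (nat_lit 1517) (.f (nat_lit 465) (nat_lit 466) (nat_lit 2510) (.f (nat_lit 433) (nat_lit 401) (nat_lit 5520) (.d (nat_lit 560) (nat_lit 464) (nat_lit 6576) (nat_lit 592) (nat_lit 6608))))))))) (.a (.f (nat_lit 529) (nat_lit 493) (nat_lit 493) (.d (nat_lit 530) (nat_lit 527) (nat_lit 3566) (nat_lit 531) (nat_lit 3567))) (.p (nat_lit 497) (.a (.f (nat_lit 529) (nat_lit 530) (nat_lit 494) (.f (nat_lit 465) (nat_lit 466) (nat_lit 2510) (.d (nat_lit 433) (nat_lit 401) (nat_lit 5520) (nat_lit 560) (nat_lit 5552)))) (.f (nat_lit 526) (nat_lit 525) (nat_lit 1517) (.f (nat_lit 527) (nat_lit 498) (nat_lit 1518) (.f (nat_lit 462) (nat_lit 461) (nat_lit 3533) (.d (nat_lit 430) (nat_lit 398) (nat_lit 4494) (nat_lit 559) (nat_lit 4526))))))))))) (.a (.p (nat_lit 497) (.a (.p (nat_lit 498) (.a (.d (nat_lit 527) (nat_lit 499) (nat_lit 1519) (nat_lit 526) (nat_lit 1518)) (.f (nat_lit 530) (nat_lit 531) (nat_lit 495) (.f (nat_lit 494) (nat_lit 529) (nat_lit 494) (.d (nat_lit 466) (nat_lit 465) (nat_lit 2510) (nat_lit 467) (nat_lit 2511)))))) (.a (.p (nat_lit 498) (.a (.d (nat_lit 527) (nat_lit 499) (nat_lit 1519) (nat_lit 526) (nat_lit 1518)) (.f (nat_lit 466) (nat_lit 467) (nat_lit 2511) (.f (nat_lit 465) (nat_lit 494) (nat_lit 2510) (.f (nat_lit 433) (nat_lit 401) (nat_lit 5520) (.d (nat_lit 560) (nat_lit 464) (nat_lit 6576) (nat_lit 592) (nat_lit 6608))))))) (.a s123841 (.a (.p (nat_lit 465) (.a (.f (nat_lit 433) (nat_lit 401) (nat_lit 5520) (.d (nat_lit 560) (nat_lit 529) (nat_lit 5552) (nat_lit 592) (nat_lit 6608))) (.f (nat_lit 466) (nat_lit 494) (nat_lit 2510) (.d (nat_lit 467) (nat_lit 464) (nat_lit 1487) (nat_lit 468) (nat_lit 1488))))) (.a (.p (nat_lit 498) (.a (.d (nat_lit 527) (nat_lit 499) (nat_lit 1519) (nat_lit 526) (nat_lit 1518)) (.a (.f (nat_lit 531) (nat_lit 530) (nat_lit 495) (.f (nat_lit 499) (nat_lit 532) (nat_lit 496) (.d (nat_lit 467) (nat_lit 466) (nat_lit 2511) (nat_lit 468) (nat_lit 2512)))) (.f (nat_lit 527) (nat_lit 526) (nat_lit 1518) (.f (nat_lit 530) (nat_lit 531) (nat_lit 495) (.f (nat_lit 529) (nat_lit 494) (nat_lit 494) (.f (nat_lit 559) (nat_lit 558) (nat_lit 1550) (.d (nat_lit 464) (nat_lit 432) (nat_lit 5551) (nat_lit 591) (nat_lit 6607))))))))) (.a (.p (nat_lit 498) (.a (.d (nat_lit 527) (nat_lit 499) (nat_lit 1519) (nat_lit 526) (nat_lit 1518)) (.a (.f (nat_lit 531) (nat_lit 530) (nat_lit 495) (.f (nat_lit 499) (nat_lit 532) (nat_lit 496) (.d (nat_lit 467) (nat_lit 466) (nat_lit 2511) (nat_lit 468) (nat_lit 2512)))) (.p (nat_lit 465) (.a (.f (nat_lit 433) (nat_lit 401) (nat_lit 5520) (.d (nat_lit 560) (nat_lit 464) (nat_lit 6576) (nat_lit 592) (nat_lit 6608))) (.a (.f (nat_lit 530) (nat_lit 531) (nat_lit 495) (.f (nat_lit 433) (nat_lit 401) (nat_lit 5520) (.d (nat_lit 562) (nat_lit 529) (nat_lit 4529) (nat_lit 594) (nat_lit 7633)))) (.f (nat_lit 527) (nat_lit 526) (nat_lit 1518) (.f (nat_lit 530) (nat_lit 531) (nat_lit 495) (.f (nat_lit 466) (nat_lit 467) (nat_lit 2511) (.f (nat_lit 562) (nat_lit 594) (nat_lit 7633) (.d (nat_lit 563) (nat_lit 529) (nat_lit 527) (nat_lit 595) (nat_lit 4562)))))))))))) (.a (.p (nat_lit 498) (.a (.d (nat_lit 527) (nat_lit 499) (nat_lit 1519) (nat_lit 526) (nat_lit 1518)) (.f (nat_lit 530) (nat_lit 531) (nat_lit 495) (.f (nat_lit 494) (nat_lit 529) (nat_lit 494) (.f (nat_lit 465) (nat_lit 466) (nat_lit 2510) (.f (nat_lit 433) (nat_lit 401) (nat_lit 4497) (.d (nat_lit 560) (nat_lit 464) (nat_lit 6576) (nat_lit 592) (nat_lit 6608)))))))) (.p (nat_lit 498) (.a (.d (nat_lit 527) (nat_lit 499) (nat_lit 1519) (nat_lit 526) (nat_lit 1518)) (.a (.f (nat_lit 531) (nat_lit 530) (nat_lit 495) (.f (nat_lit 499) (nat_lit 532) (nat_lit 496) (.f (nat_lit 500) (nat_lit 529) (nat_lit 1520) (.d (nat_lit 468) (nat_lit 467) (nat_lit 2512) (nat_lit 469) (nat_lit 2513))))) (.f (nat_lit 527) (nat_lit 526) (nat_lit 1518) (.f (nat_lit 530) (nat_lit 531) (nat_lit 495) (.f (nat_lit 529) (nat_lit 494) (nat_lit 494) (.f (nat_lit 559) (nat_lit 558) (nat_lit 1550) (.d (nat_lit 464) (nat_lit 432) (nat_lit 5551) (nat_lit 591) (nat_lit 6607))))))))))))))))) (.a (.p (nat_lit 591) (.a (.p (nat_lit 560) (.a (.f (nat_lit 559) (nat_lit 464) (nat_lit 5583) (.d (nat_lit 623) (nat_lit 592) (nat_lit 5615) (nat_lit 655) (nat_lit 6671))) (.a (.f (nat_lit 592) (nat_lit 623) (nat_lit 5615) (.f (nat_lit 497) (nat_lit 465) (nat_lit 6608) (.d (nat_lit 624) (nat_lit 527) (nat_lit 7663) (nat_lit 529) (nat_lit 6640)))) (.a (.f (nat_lit 559) (nat_lit 464) (nat_lit 5583) (.d (nat_lit 623) (nat_lit 527) (nat_lit 6639) (nat_lit 655) (nat_lit 6671))) (.f (nat_lit 464) (nat_lit 559) (nat_lit 5583) (.f (nat_lit 465) (nat_lit 433) (nat_lit 6576) (.f (nat_lit 592) (nat_lit 497) (nat_lit 6608) (.f (nat_lit 625) (nat_lit 593) (nat_lit 4592) (.d (nat_lit 624) (nat_lit 527) (nat_lit 7663) (nat_lit 657) (nat_lit 4624)))))))))) (.a (.p (nat_lit 559) (.a (.d (nat_lit 527) (nat_lit 464) (nat_lit 6607) (nat_lit 623) (nat_lit 6639)) (.a (.f (nat_lit 560) (nat_lit 464) (nat_lit 5583) (.d (nat_lit 623) (nat_lit 592) (nat_lit 5615) (nat_lit 655) (nat_lit 6671))) (.a (.f (nat_lit 623) (nat_lit 527) (nat_lit 6639) (.d (nat_lit 560) (nat_lit 592) (nat_lit 5615) (nat_lit 655) (nat_lit 6671))) (.d (nat_lit 464) (nat_lit 527) (nat_lit 6607) (nat_lit 560) (nat_lit 5583)))))) (.a (.p (nat_lit 592) (.a (.f (nat_lit 560) (nat_lit 623) (nat_lit 5615) (.f (nat_lit 497) (nat_lit 465) (nat_lit 6608) (.d (nat_lit 624) (nat_lit 527) (nat_lit 7663) (nat_lit 529) (nat_lit 6640)))) (.a (.f (nat_lit 560) (nat_lit 623) (nat_lit 5615) (.f (nat_lit 497) (nat_lit 465) (nat_lit 6608) (.f (nat_lit 527) (nat_lit 624) (nat_lit 7663) (.d (nat_lit 526) (nat_lit 498) (nat_lit 1518) (nat_lit 525) (nat_lit 2541))))) (.a s123909 (.a (.p (nat_lit 593) (.a (.p (nat_lit 594) (.a (.f (nat_lit 626) (nat_lit 627) (nat_lit 591) (.f (nat_lit 625) (nat_lit 590) (nat_lit 590) (.f (nat_lit 562) (nat_lit 563) (nat_lit 2607) (.d (nat_lit 530) (nat_lit 498) (nat_lit 5617) (nat_lit 657) (nat_lit 5649))))) (.a (.f (nat_lit 623) (nat_lit 622) (nat_lit 1614) (.f (nat_lit 595) (nat_lit 624) (nat_lit 1615) (.d (nat_lit 627) (nat_lit 626) (nat_lit 591) (nat_lit 628) (nat_lit 592)))) (.f (nat_lit 623) (nat_lit 622) (nat_lit 1614) (.f (nat_lit 595) (nat_lit 624) (nat_lit 1615) (.d (nat_lit 563) (nat_lit 562) (nat_lit 2607) (nat_lit 564) (nat_lit 2608))))))) (.a (.p (nat_lit 594) (.a (.f (nat_lit 623) (nat_lit 622) (nat_lit 1614) (.f (nat_lit 595) (nat_lit 624) (nat_lit 1615) (.d (nat_lit 627) (nat_lit 626) (nat_lit 591) (nat_lit 628) (nat_lit 592)))) (.a (.f (nat_lit 626) (nat_lit 627) (nat_lit 591) (.f (nat_lit 590) (nat_lit 625) (nat_lit 590) (.d (nat_lit 622) (nat_lit 621) (nat_lit 1613) (nat_lit 623) (nat_lit 1614)))) (.a (.f (nat_lit 626) (nat_lit 627) (nat_lit 591) (.f (nat_lit 590) (nat_lit 625) (nat_lit 590) (.d (nat_lit 558) (nat_lit 557) (nat_lit 3629) (nat_lit 559) (nat_lit 3630)))) (.f (nat_lit 623) (nat_lit 622) (nat_lit 1614) (.f (nat_lit 595) (nat_lit 624) (nat_lit 1615) (.d (nat_lit 563) (nat_lit 562) (nat_lit 2607) (nat_lit 564) (nat_lit 2608)))))))) (.a (.p (nat_lit 594) (.a (.f (nat_lit 623) (nat_lit 622) (nat_lit 1614) (.f (nat_lit 595) (nat_lit 624) (nat_lit 1615) (.d (nat_lit 627) (nat_lit 626) (nat_lit 591) (nat_lit 628) (nat_lit 592)))) (.a (.f (nat_lit 626) (nat_lit 627) (nat_lit 591) (.f (nat_lit 590) (nat_lit 625) (nat_lit 590) (.d (nat_lit 622) (nat_lit 621) (nat_lit 1613) (nat_lit 623) (nat_lit 1614)))) (.a (.f (nat_lit 626) (nat_lit 627) (nat_lit 591) (.f (nat_lit 590) (nat_lit 625) (nat_lit 590) (.d (nat_lit 558) (nat_lit 557) (nat_lit 3629) (nat_lit 559) (nat_lit 3630)))) (.f (nat_lit 623) (nat_lit 622) (nat_lit 1614) (.f (nat_lit 558) (nat_lit 559) (nat_lit 3630) (.f (nat_lit 590) (nat_lit 557) (nat_lit 3629) (.f (nat_lit 624) (nat_lit 595) (nat_lit 1615) (.d (nat_lit 589) (nat_lit 588) (nat_lit 588) (nat_lit 625) (nat_lit 589)))))))))) (.a s123929 (.a (.p (nat_lit 594) (.a (.f (nat_lit 623) (nat_lit 622) (nat_lit 1614) (.f (nat_lit 595) (nat_lit 624) (nat_lit 1615) (.d (nat_lit 627) (nat_lit 626) (nat_lit 591) (nat_lit 628) (nat_lit 592)))) (.a (.f (nat_lit 627) (nat_lit 626) (nat_lit 591) (.f (nat_lit 595) (nat_lit 628) (nat_lit 592) (.d (nat_lit 563) (nat_lit 562) (nat_lit 2607) (nat_lit 564) (nat_lit 2608)))) (.f (nat_lit 559) (nat_lit 558) (nat_lit 3630) (.d (nat_lit 623) (nat_lit 527) (nat_lit 6639) (nat_lit 622) (nat_lit 1614)))))) (.a (.p (nat_lit 590) (.a (.f (nat_lit 622) (nat_lit 621) (nat_lit 1613) (.f (nat_lit 594) (nat_lit 623) (nat_lit 1614) (.d (nat_lit 626) (nat_lit 625) (nat_lit 590) (nat_lit 627) (nat_lit 591)))) (.a (.f (nat_lit 625) (nat_lit 626) (nat_lit 590) (.f (nat_lit 589) (nat_lit 624) (nat_lit 589) (.d (nat_lit 621) (nat_lit 620) (nat_lit 1612) (nat_lit 622) (nat_lit 1613)))) (.a (.f (nat_lit 622) (nat_lit 621) (nat_lit 1613) (.f (nat_lit 558) (nat_lit 557) (nat_lit 3629) (.d (nat_lit 594) (nat_lit 559) (nat_lit 3630) (nat_lit 623) (nat_lit 1614)))) (.f (nat_lit 558) (nat_lit 557) (nat_lit 3629) (.f (nat_lit 594) (nat_lit 559) (nat_lit 3630) (.d (nat_lit 626) (nat_lit 625) (nat_lit 590) (nat_lit 627) (nat_lit 591)))))))) (.a (.p (nat_lit 590) (.a (.f (nat_lit 625) (nat_lit 626) (nat_lit 590) (.f (nat_lit 589) (nat_lit 624) (nat_lit 589) (.d (nat_lit 621) (nat_lit 620) (nat_lit 1612) (nat_lit 622) (nat_lit 1613)))) (.a (.f (nat_lit 621) (nat_lit 622) (nat_lit 1613) (.f (nat_lit 589) (nat_lit 620) (nat_lit 1612) (.d (nat_lit 557) (nat_lit 556) (nat_lit 3628) (nat_lit 558) (nat_lit 3629)))) (.a (.f (nat_lit 622) (nat_lit 621) (nat_lit 1613) (.f (nat_lit 559) (nat_lit 527) (nat_lit 5614) (.f (nat_lit 558) (nat_lit 557) (nat_lit 3629) (.f (nat_lit 654) (nat_lit 686) (nat_lit 6702) (.f (nat_lit 655) (nat_lit 687) (nat_lit 4654) (.f (nat_lit 653) (nat_lit 685) (nat_lit 5677) (.f (nat_lit 625) (nat_lit 626) (nat_lit 590) (.d (nat_lit 624) (nat_lit 623) (nat_lit 1645) (nat_lit 656) (nat_lit 2669))))))))) (.f (nat_lit 625) (nat_lit 626) (nat_lit 590) (.f (nat_lit 589) (nat_lit 624) (nat_lit 589) (.d (nat_lit 557) (nat_lit 556) (nat_lit 3628) (nat_lit 558) (nat_lit 3629)))))))) (.a s123972 (.a (.p (nat_lit 594) (.a (.f (nat_lit 623) (nat_lit 622) (nat_lit 1614) (.f (nat_lit 595) (nat_lit 624) (nat_lit 1615) (.d (nat_lit 563) (nat_lit 562) (nat_lit 2607) (nat_lit 564) (nat_lit 2608)))) (.a (.f (nat_lit 623) (nat_lit 622) (nat_lit 1614) (.f (nat_lit 558) (nat_lit 559) (nat_lit 3630) (.f (nat_lit 590) (nat_lit 557) (nat_lit 3629) (.f (nat_lit 624) (nat_lit 595) (nat_lit 1615) (.d (nat_lit 589) (nat_lit 588) (nat_lit 588) (nat_lit 625) (nat_lit 589)))))) (.a (.f (nat_lit 558) (nat_lit 559) (nat_lit 3630) (.f (nat_lit 590) (nat_lit 557) (nat_lit 3629) (.d (nat_lit 622) (nat_lit 621) (nat_lit 1613) (nat_lit 623) (nat_lit 1614)))) (.f (nat_lit 559) (nat_lit 558) (nat_lit 3630) (.f (nat_lit 624) (nat_lit 527) (nat_lit 4591) (.f (nat_lit 563) (nat_lit 562) (nat_lit 2607) (.f (nat_lit 595) (nat_lit 564) (nat_lit 2608) (.f (nat_lit 596) (nat_lit 625) (nat_lit 1616) (.d (nat_lit 628) (nat_lit 627) (nat_lit 592) (nat_lit 629) (nat_lit 593))))))))))) (.p (nat_lit 594) (.a (.f (nat_lit 626) (nat_lit 627) (nat_lit 591) (.f (nat_lit 625) (nat_lit 590) (nat_lit 590) (.f (nat_lit 562) (nat_lit 563) (nat_lit 2607) (.d (nat_lit 530) (nat_lit 498) (nat_lit 5617) (nat_lit 657) (nat_lit 5649))))) (.a (.f (nat_lit 626) (nat_lit 627) (nat_lit 591) (.f (nat_lit 590) (nat_lit 625) (nat_lit 590) (.d (nat_lit 558) (nat_lit 557) (nat_lit 3629) (nat_lit 559) (nat_lit 3630)))) (.a (.f (nat_lit 627) (nat_lit 626) (nat_lit 591) (.f (nat_lit 595) (nat_lit 628) (nat_lit 592) (.d (nat_lit 563) (nat_lit 562) (nat_lit 2607) (nat_lit 564) (nat_lit 2608)))) (.a (.f (nat_lit 563) (nat_lit 562) (nat_lit 2607) (.f (nat_lit 595) (nat_lit 564) (nat_lit 2608) (.f (nat_lit 628) (nat_lit 627) (nat_lit 592) (.f (nat_lit 596) (nat_lit 629) (nat_lit 593) (.d (nat_lit 624) (nat_lit 623) (nat_lit 1615) (nat_lit 625) (nat_lit 1616)))))) (.f (nat_lit 558) (nat_lit 559) (nat_lit 3630) (.f (nat_lit 590) (nat_lit 557) (nat_lit 3629) (.f (nat_lit 625) (nat_lit 626) (nat_lit 590) (.f (nat_lit 624) (nat_lit 589) (nat_lit 589) (.d (nat_lit 595) (nat_lit 596) (nat_lit 1616) (nat_lit 623) (nat_lit 1615))))))))))))))))))))) (.a (.p (nat_lit 593) (.a (.d (nat_lit 560) (nat_lit 623) (nat_lit 5615) (nat_lit 625) (nat_lit 4592)) (.a s123929 (.a (.f (nat_lit 625) (nat_lit 560) (nat_lit 4592) (.f (nat_lit 590) (nat_lit 626) (nat_lit 590) (.f (nat_lit 622) (nat_lit 621) (nat_lit 1613) (.f (nat_lit 558) (nat_lit 557) (nat_lit 3629) (.d (nat_lit 559) (nat_lit 527) (nat_lit 5614) (nat_lit 594) (nat_lit 3630)))))) (.f (nat_lit 623) (nat_lit 560) (nat_lit 5615) (.f (nat_lit 594) (nat_lit 622) (nat_lit 1614) (.d (nat_lit 559) (nat_lit 527) (nat_lit 6639) (nat_lit 558) (nat_lit 3630)))))))) (.p (nat_lit 593) (.a (.f (nat_lit 625) (nat_lit 560) (nat_lit 4592) (.f (nat_lit 590) (nat_lit 626) (nat_lit 590) (.f (nat_lit 589) (nat_lit 624) (nat_lit 589) (.d (nat_lit 621) (nat_lit 620) (nat_lit 1612) (nat_lit 622) (nat_lit 1613))))) (.a s123972 (.a (.f (nat_lit 625) (nat_lit 560) (nat_lit 4592) (.f (nat_lit 590) (nat_lit 626) (nat_lit 590) (.f (nat_lit 622) (nat_lit 621) (nat_lit 1613) (.f (nat_lit 558) (nat_lit 557) (nat_lit 3629) (.d (nat_lit 559) (nat_lit 527) (nat_lit 5614) (nat_lit 594) (nat_lit 3630)))))) (.a (.f (nat_lit 560) (nat_lit 625) (nat_lit 4592) (.f (nat_lit 497) (nat_lit 465) (nat_lit 6608) (.d (nat_lit 624) (nat_lit 527) (nat_lit 7663) (nat_lit 529) (nat_lit 6640)))) (.p (nat_lit 594) (.a (.f (nat_lit 627) (nat_lit 626) (nat_lit 591) (.f (nat_lit 595) (nat_lit 628) (nat_lit 592) (.d (nat_lit 563) (nat_lit 562) (nat_lit 2607) (nat_lit 564) (nat_lit 2608)))) (.a (.f (nat_lit 559) (nat_lit 558) (nat_lit 3630) (.f (nat_lit 527) (nat_lit 624) (nat_lit 4591) (.f (nat_lit 560) (nat_lit 595) (nat_lit 3631) (.f (nat_lit 497) (nat_lit 465) (nat_lit 6608) (.d (nat_lit 526) (nat_lit 498) (nat_lit 1518) (nat_lit 525) (nat_lit 2541)))))) (.f (nat_lit 558) (nat_lit 559) (nat_lit 3630) (.f (nat_lit 590) (nat_lit 557) (nat_lit 3629) (.f (nat_lit 622) (nat_lit 621) (nat_lit 1613) (.f (nat_lit 527) (nat_lit 526) (nat_lit 6638) (.f (nat_lit 560) (nat_lit 624) (nat_lit 7663) (.f (nat_lit 497) (nat_lit 465) (nat_lit 6608) (.f (nat_lit 498) (nat_lit 499) (nat_lit 1519) (.f (nat_lit 530) (nat_lit 531) (nat_lit 495) (.f (nat_lit 562) (nat_lit 563) (nat_lit 2607) (.d (nat_lit 626) (nat_lit 529) (nat_lit 7665) (nat_lit 627) (nat_lit 591))))))))))))))))))))))))) (.a (.p (nat_lit 560) (.a (.f (nat_lit 559) (nat_lit 464) (nat_lit 5583) (.d (nat_lit 623) (nat_lit 592) (nat_lit 5615) (nat_lit 655) (nat_lit 6671))) (.a (.f (nat_lit 592) (nat_lit 623) (nat_lit 5615) (.f (nat_lit 625) (nat_lit 593) (nat_lit 4592) (.f (nat_lit 624) (nat_lit 657) (nat_lit 4624) (.d (nat_lit 497) (nat_lit 465) (nat_lit 6608) (nat_lit 529) (nat_lit 6640))))) (.f (nat_lit 464) (nat_lit 559) (nat_lit 5583) (.p (nat_lit 432) (.a (.d (nat_lit 433) (nat_lit 401) (nat_lit 6544) (nat_lit 465) (nat_lit 6576)) (.a (.f (nat_lit 399) (nat_lit 431) (nat_lit 7567) (.f (nat_lit 400) (nat_lit 367) (nat_lit 7535) (.f (nat_lit 369) (nat_lit 401) (nat_lit 6512) (.f (nat_lit 368) (nat_lit 337) (nat_lit 6480) (.d (nat_lit 497) (nat_lit 465) (nat_lit 4464) (nat_lit 529) (nat_lit 4496)))))) (.a (.f (nat_lit 399) (nat_lit 431) (nat_lit 7567) (.f (nat_lit 400) (nat_lit 367) (nat_lit 7535) (.d (nat_lit 401) (nat_lit 369) (nat_lit 6512) (nat_lit 433) (nat_lit 6544)))) (.f (nat_lit 465) (nat_lit 433) (nat_lit 6576) (.f (nat_lit 399) (nat_lit 431) (nat_lit 7567) (.f (nat_lit 400) (nat_lit 367) (nat_lit 7535) (.d (nat_lit 497) (nat_lit 368) (nat_lit 4464) (nat_lit 529) (nat_lit 4496))))))))))))) (.a (.p (nat_lit 592) (.a (.f (nat_lit 560) (nat_lit 623) (nat_lit 5615) (.f (nat_lit 497) (nat_lit 465) (nat_lit 6608) (.d (nat_lit 624) (nat_lit 527) (nat_lit 7663) (nat_lit 529) (nat_lit 6640)))) (.a (.f (nat_lit 560) (nat_lit 623) (nat_lit 5615) (.f (nat_lit 624) (nat_lit 527) (nat_lit 7663) (.d (nat_lit 625) (nat_lit 593) (nat_lit 4592) (nat_lit 657) (nat_lit 4624)))) (.a s123909 (.a (.p (nat_lit 593) (.a (.p (nat_lit 594) (.a (.f (nat_lit 626) (nat_lit 627) (nat_lit 591) (.f (nat_lit 625) (nat_lit 590) (nat_lit 590) (.f (nat_lit 562) (nat_lit 563) (nat_lit 2607) (.d (nat_lit 530) (nat_lit 498) (nat_lit 5617) (nat_lit 657) (nat_lit 5649))))) (.a (.f (nat_lit 623) (nat_lit 622) (nat_lit 1614) (.f (nat_lit 595) (nat_lit 624) (nat_lit 1615) (.d (nat_lit 627) (nat_lit 626) (nat_lit 591) (nat_lit 628) (nat_lit 592)))) (.f (nat_lit 623) (nat_lit 622) (nat_lit 1614) (.f (nat_lit 595) (nat_lit 624) (nat_lit 1615) (.d (nat_lit 563) (nat_lit 562) (nat_lit 2607) (nat_lit 564) (nat_lit 2608))))))) (.a (.p (nat_lit 594) (.a (.f (nat_lit 623) (nat_lit 622) (nat_lit 1614) (.f (nat_lit 595) (nat_lit 624) (nat_lit 1615) (.d (nat_lit 627) (nat_lit 626) (nat_lit 591) (nat_lit 628) (nat_lit 592)))) (.a (.f (nat_lit 626) (nat_lit 627) (nat_lit 591) (.f (nat_lit 590) (nat_lit 625) (nat_lit 590) (.d (nat_lit 622) (nat_lit 621) (nat_lit 1613) (nat_lit 623) (nat_lit 1614)))) (.a (.f (nat_lit 627) (nat_lit 626) (nat_lit 591) (.f (nat_lit 595) (nat_lit 628) (nat_lit 592) (.d (nat_lit 563) (nat_lit 562) (nat_lit 2607) (nat_lit 564) (nat_lit 2608)))) (.f (nat_lit 623) (nat_lit 622) (nat_lit 1614) (.f (nat_lit 595) (nat_lit 624) (nat_lit 1615) (.d (nat_lit 563) (nat_lit 562) (nat_lit 2607) (nat_lit 564) (nat_lit 2608)))))))) (.a (.p (nat_lit 590) (.a (.f (nat_lit 622) (nat_lit 621) (nat_lit 1613) (.f (nat_lit 594) (nat_lit 623) (nat_lit 1614) (.d (nat_lit 626) (nat_lit 625) (nat_lit 590) (nat_lit 627) (nat_lit 591)))) (.a (.f (nat_lit 625) (nat_lit 626) (nat_lit 590) (.f (nat_lit 589) (nat_lit 624) (nat_lit 589) (.d (nat_lit 621) (nat_lit 620) (nat_lit 1612) (nat_lit 622) (nat_lit 1613)))) (.a (.f (nat_lit 621) (nat_lit 622) (nat_lit 1613) (.f (nat_lit 589) (nat_lit 620) (nat_lit 1612) (.f (nat_lit 556) (nat_lit 557) (nat_lit 3628) (.f (nat_lit 588) (nat_lit 555) (nat_lit 3627) (.d (nat_lit 624) (nat_lit 623) (nat_lit 588) (nat_lit 625) (nat_lit 589)))))) (.a (.f (nat_lit 621) (nat_lit 622) (nat_lit 1613) (.f (nat_lit 589) (nat_lit 620) (nat_lit 1612) (.d (nat_lit 557) (nat_lit 556) (nat_lit 3628) (nat_lit 558) (nat_lit 3629)))) (.f (nat_lit 625) (nat_lit 626) (nat_lit 590) (.f (nat_lit 589) (nat_lit 624) (nat_lit 589) (.d (nat_lit 557) (nat_lit 556) (nat_lit 3628) (nat_lit 558) (nat_lit 3629))))))))) (.a s124105 (.a (.p (nat_lit 594) (.a (.f (nat_lit 623) (nat_lit 622) (nat_lit 1614) (.f (nat_lit 595) (nat_lit 624) (nat_lit 1615) (.d (nat_lit 627) (nat_lit 626) (nat_lit 591) (nat_lit 628) (nat_lit 592)))) (.a (.f (nat_lit 627) (nat_lit 626) (nat_lit 591) (.f (nat_lit 595) (nat_lit 628) (nat_lit 592) (.d (nat_lit 563) (nat_lit 562) (nat_lit 2607) (nat_lit 564) (nat_lit 2608)))) (.a (.f (nat_lit 562) (nat_lit 563) (nat_lit 2607) (.p (nat_lit 530) (.a (.f (nat_lit 626) (nat_lit 627) (nat_lit 591) (.d (nat_lit 529) (nat_lit 497) (nat_lit 7665) (nat_lit 531) (nat_lit 3567))) (.a (.f (nat_lit 498) (nat_lit 625) (nat_lit 5617) (.d (nat_lit 497) (nat_lit 465) (nat_lit 7633) (nat_lit 531) (nat_lit 495))) (.a (.f (nat_lit 626) (nat_lit 627) (nat_lit 591) (.d (nat_lit 531) (nat_lit 499) (nat_lit 6642) (nat_lit 529) (nat_lit 3567))) (.f (nat_lit 626) (nat_lit 627) (nat_lit 591) (.d (nat_lit 625) (nat_lit 498) (nat_lit 5617) (nat_lit 657) (nat_lit 5649)))))))) (.f (nat_lit 623) (nat_lit 622) (nat_lit 1614) (.f (nat_lit 595) (nat_lit 624) (nat_lit 1615) (.d (nat_lit 563) (nat_lit 562) (nat_lit 2607) (nat_lit 564) (nat_lit 2608)))))))) (.a (.p (nat_lit 590) (.a (.f (nat_lit 625) (nat_lit 626) (nat_lit 590) (.f (nat_lit 589) (nat_lit 624) (nat_lit 589) (.d (nat_lit 621) (nat_lit 620) (nat_lit 1612) (nat_lit 622) (nat_lit 1613)))) (.a (.f (nat_lit 621) (nat_lit 622) (nat_lit 1613) (.f (nat_lit 589) (nat_lit 620) (nat_lit 1612) (.d (nat_lit 557) (nat_lit 556) (nat_lit 3628) (nat_lit 558) (nat_lit 3629)))) (.a (.f (nat_lit 558) (nat_lit 557) (nat_lit 3629) (.f (nat_lit 622) (nat_lit 621) (nat_lit 1613) (.p (nat_lit 654) (.a (.f (nat_lit 526) (nat_lit 527) (nat_lit 6638) (.d (nat_lit 655) (nat_lit 623) (nat_lit 4622) (nat_lit 687) (nat_lit 4654))) (.a (.f (nat_lit 655) (nat_lit 687) (nat_lit 4654) (.f (nat_lit 623) (nat_lit 526) (nat_lit 4622) (.f (nat_lit 653) (nat_lit 685) (nat_lit 5677) (.d (nat_lit 625) (nat_lit 624) (nat_lit 1645) (nat_lit 626) (nat_lit 590))))) (.a (.f (nat_lit 687) (nat_lit 655) (nat_lit 4654) (.f (nat_lit 686) (nat_lit 719) (nat_lit 4686) (.d (nat_lit 685) (nat_lit 653) (nat_lit 5677) (nat_lit 717) (nat_lit 5709)))) (.a (.f (nat_lit 685) (nat_lit 653) (nat_lit 5677) (.f (nat_lit 686) (nat_lit 717) (nat_lit 5709) (.f (nat_lit 719) (nat_lit 687) (nat_lit 4686) (.d (nat_lit 718) (nat_lit 623) (nat_lit 6734) (nat_lit 751) (nat_lit 4718))))) (.f (nat_lit 526) (nat_lit 527) (nat_lit 6638) (.f (nat_lit 623) (nat_lit 655) (nat_lit 4622) (.f (nat_lit 625) (nat_lit 626) (nat_lit 590) (.d (nat_lit 653) (nat_lit 624) (nat_lit 1645) (nat_lit 685) (nat_lit 5677)))))))))))) (.f (nat_lit 625) (nat_lit 626) (nat_lit 590) (.f (nat_lit 589) (nat_lit 624) (nat_lit 589) (.d (nat_lit 557) (nat_lit 556) (nat_lit 3628) (nat_lit 558) (nat_lit 3629)))))))) (.a s124195 (.a (.p (nat_lit 590) (.a (.f (nat_lit 621) (nat_lit 622) (nat_lit 1613) (.f (nat_lit 589) (nat_lit 620) (nat_lit 1612) (.f (nat_lit 556) (nat_lit 557) (nat_lit 3628) (.f (nat_lit 588) (nat_lit 555) (nat_lit 3627) (.d (nat_lit 624) (nat_lit 623) (nat_lit 588) (nat_lit 625) (nat_lit 589)))))) (.a (.f (nat_lit 621) (nat_lit 622) (nat_lit 1613) (.f (nat_lit 589) (nat_lit 620) (nat_lit 1612) (.d (nat_lit 557) (nat_lit 556) (nat_lit 3628) (nat_lit 558) (nat_lit 3629)))) (.a (.p (nat_lit 589) (.a (.d (nat_lit 621) (nat_lit 620) (nat_lit 1612) (nat_lit 622) (nat_lit 1613)) (.a (.f (nat_lit 620) (nat_lit 621) (nat_lit 1612) (.f (nat_lit 588) (nat_lit 619) (nat_lit 1611) (.d (nat_lit 624) (nat_lit 623) (nat_lit 588) (nat_lit 625) (nat_lit 589)))) (.f (nat_lit 624) (nat_lit 625) (nat_lit 589) (.f (nat_lit 623) (nat_lit 588) (nat_lit 588) (.d (nat_lit 594) (nat_lit 595) (nat_lit 1615) (nat_lit 622) (nat_lit 1614))))))) (.a (.f (nat_lit 622) (nat_lit 621) (nat_lit 1613) (.f (nat_lit 558) (nat_lit 557) (nat_lit 3629) (.f (nat_lit 623) (nat_lit 594) (nat_lit 1614) (.d (nat_lit 526) (nat_lit 527) (nat_lit 6638) (nat_lit 655) (nat_lit 4622))))) (.a (.f (nat_lit 557) (nat_lit 558) (nat_lit 3629) (.f (nat_lit 589) (nat_lit 556) (nat_lit 3628) (.f (nat_lit 620) (nat_lit 621) (nat_lit 1612) (.f (nat_lit 588) (nat_lit 619) (nat_lit 1611) (.d (nat_lit 624) (nat_lit 623) (nat_lit 588) (nat_lit 625) (nat_lit 589)))))) (.f (nat_lit 557) (nat_lit 558) (nat_lit 3629) (.f (nat_lit 589) (nat_lit 556) (nat_lit 3628) (.f (nat_lit 624) (nat_lit 625) (nat_lit 589) (.f (nat_lit 623) (nat_lit 588) (nat_lit 588) (.d (nat_lit 594) (nat_lit 595) (nat_lit 1615) (nat_lit 622) (nat_lit 1614)))))))))))) (.a (.p (nat_lit 594) (.a (.f (nat_lit 623) (nat_lit 622) (nat_lit 1614) (.f (nat_lit 595) (nat_lit 624) (nat_lit 1615) (.d (nat_lit 627) (nat_lit 626) (nat_lit 591) (nat_lit 628) (nat_lit 592)))) (.a (.f (nat_lit 627) (nat_lit 626) (nat_lit 591) (.f (nat_lit 595) (nat_lit 628) (nat_lit 592) (.d (nat_lit 563) (nat_lit 562) (nat_lit 2607) (nat_lit 564) (nat_lit 2608)))) (.a (.p (nat_lit 530) (.a (.f (nat_lit 562) (nat_lit 563) (nat_lit 2607) (.f (nat_lit 626) (nat_lit 627) (nat_lit 591) (.d (nat_lit 529) (nat_lit 497) (nat_lit 7665) (nat_lit 531) (nat_lit 3567)))) (.a (.f (nat_lit 622) (nat_lit 623) (nat_lit 1614) (.f (nat_lit 590) (nat_lit 621) (nat_lit 1613) (.f (nat_lit 558) (nat_lit 557) (nat_lit 3629) (.f (nat_lit 562) (nat_lit 563) (nat_lit 2607) (.f (nat_lit 626) (nat_lit 627) (nat_lit 591) (.f (nat_lit 527) (nat_lit 526) (nat_lit 6638) (.f (nat_lit 499) (nat_lit 531) (nat_lit 6642) (.d (nat_lit 498) (nat_lit 467) (nat_lit 6610) (nat_lit 497) (nat_lit 1519))))))))) (.a (.f (nat_lit 562) (nat_lit 563) (nat_lit 2607) (.f (nat_lit 626) (nat_lit 627) (nat_lit 591) (.d (nat_lit 531) (nat_lit 499) (nat_lit 6642) (nat_lit 529) (nat_lit 3567)))) (.a (.f (nat_lit 562) (nat_lit 563) (nat_lit 2607) (.f (nat_lit 626) (nat_lit 627) (nat_lit 591) (.f (nat_lit 497) (nat_lit 529) (nat_lit 7665) (.f (nat_lit 498) (nat_lit 465) (nat_lit 7633) (.d (nat_lit 499) (nat_lit 467) (nat_lit 6610) (nat_lit 527) (nat_lit 1519)))))) (.p (nat_lit 498) (.a (.d (nat_lit 531) (nat_lit 497) (nat_lit 495) (nat_lit 529) (nat_lit 3567)) (.a (.f (nat_lit 497) (nat_lit 531) (nat_lit 495) (.d (nat_lit 527) (nat_lit 499) (nat_lit 1519) (nat_lit 526) (nat_lit 1518))) (.a (.f (nat_lit 529) (nat_lit 531) (nat_lit 3567) (.f (nat_lit 622) (nat_lit 623) (nat_lit 1614) (.f (nat_lit 590) (nat_lit 621) (nat_lit 1613) (.f (nat_lit 558) (nat_lit 557) (nat_lit 3629) (.d (nat_lit 527) (nat_lit 499) (nat_lit 2543) (nat_lit 526) (nat_lit 6638)))))) (.f (nat_lit 622) (nat_lit 623) (nat_lit 1614) (.f (nat_lit 590) (nat_lit 621) (nat_lit 1613) (.f (nat_lit 558) (nat_lit 557) (nat_lit 3629) (.f (nat_lit 527) (nat_lit 526) (nat_lit 6638) (.d (nat_lit 499) (nat_lit 497) (nat_lit 1519) (nat_lit 529) (nat_lit 2543))))))))))))))) (.f (nat_lit 623) (nat_lit 622) (nat_lit 1614) (.f (nat_lit 595) (nat_lit 624) (nat_lit 1615) (.d (nat_lit 563) (nat_lit 562) (nat_lit 2607) (nat_lit 564) (nat_lit 2608)))))))) (.p (nat_lit 594) (.a (.f (nat_lit 626) (nat_lit 627) (nat_lit 591) (.f (nat_lit 625) (nat_lit 590) (nat_lit 590) (.f (nat_lit 562) (nat_lit 563) (nat_lit 2607) (.d (nat_lit 530) (nat_lit 498) (nat_lit 5617) (nat_lit 657) (nat_lit 5649))))) (.a (.f (nat_lit 627) (nat_lit 626) (nat_lit 591) (.f (nat_lit 595) (nat_lit 628) (nat_lit 592) (.d (nat_lit 563) (nat_lit 562) (nat_lit 2607) (nat_lit 564) (nat_lit 2608)))) (.a (.p (nat_lit 595) (.a (.d (nat_lit 627) (nat_lit 626) (nat_lit 591) (nat_lit 628) (nat_lit 592)) (.a (.f (nat_lit 624) (nat_lit 623) (nat_lit 1615) (.f (nat_lit 596) (nat_lit 625) (nat_lit 1616) (.d (nat_lit 628) (nat_lit 627) (nat_lit 592) (nat_lit 629) (nat_lit 593)))) (.f (nat_lit 624) (nat_lit 623) (nat_lit 1615) (.f (nat_lit 625) (nat_lit 596) (nat_lit 1616) (.d (nat_lit 590) (nat_lit 589) (nat_lit 589) (nat_lit 626) (nat_lit 590))))))) (.a (.f (nat_lit 563) (nat_lit 562) (nat_lit 2607) (.f (nat_lit 595) (nat_lit 564) (nat_lit 2608) (.f (nat_lit 628) (nat_lit 627) (nat_lit 592) (.f (nat_lit 596) (nat_lit 629) (nat_lit 593) (.d (nat_lit 624) (nat_lit 623) (nat_lit 1615) (nat_lit 625) (nat_lit 1616)))))) (.f (nat_lit 563) (nat_lit 562) (nat_lit 2607) (.f (nat_lit 595) (nat_lit 564) (nat_lit 2608) (.f (nat_lit 624) (nat_lit 623) (nat_lit 1615) (.f (nat_lit 625) (nat_lit 596) (nat_lit 1616) (.d (nat_lit 590) (nat_lit 589) (nat_lit 589) (nat_lit 626) (nat_lit 590))))))))))))))))))))) (.a (.p (nat_lit 593) (.a (.f (nat_lit 625) (nat_lit 560) (nat_lit 4592) (.f (nat_lit 590) (nat_lit 626) (nat_lit 590) (.f (nat_lit 589) (nat_lit 624) (nat_lit 589) (.d (nat_lit 621) (nat_lit 620) (nat_lit 1612) (nat_lit 622) (nat_lit 1613))))) (.a s124195 (.a (.f (nat_lit 625) (nat_lit 560) (nat_lit 4592) (.f (nat_lit 590) (nat_lit 626) (nat_lit 590) (.f (nat_lit 621) (nat_lit 622) (nat_lit 1613) (.f (nat_lit 589) (nat_lit 620) (nat_lit 1612) (.d (nat_lit 557) (nat_lit 556) (nat_lit 3628) (nat_lit 558) (nat_lit 3629)))))) (.a (.f (nat_lit 560) (nat_lit 625) (nat_lit 4592) (.f (nat_lit 497) (nat_lit 465) (nat_lit 6608) (.d (nat_lit 624) (nat_lit 527) (nat_lit 7663) (nat_lit 529) (nat_lit 6640)))) (.p (nat_lit 594) (.a (.f (nat_lit 627) (nat_lit 626) (nat_lit 591) (.f (nat_lit 595) (nat_lit 628) (nat_lit 592) (.d (nat_lit 563) (nat_lit 562) (nat_lit 2607) (nat_lit 564) (nat_lit 2608)))) (.a (.p (nat_lit 497) (.a (.f (nat_lit 560) (nat_lit 465) (nat_lit 6608) (.d (nat_lit 624) (nat_lit 527) (nat_lit 7663) (nat_lit 529) (nat_lit 6640))) (.a (.f (nat_lit 560) (nat_lit 465) (nat_lit 6608) (.f (nat_lit 527) (nat_lit 624) (nat_lit 7663) (.d (nat_lit 526) (nat_lit 498) (nat_lit 1518) (nat_lit 525) (nat_lit 2541)))) (.a (.f (nat_lit 560) (nat_lit 465) (nat_lit 6608) (.f (nat_lit 529) (nat_lit 624) (nat_lit 6640) (.f (nat_lit 530) (nat_lit 531) (nat_lit 3567) (.d (nat_lit 626) (nat_lit 562) (nat_lit 7665) (nat_lit 627) (nat_lit 591))))) (.a (.p (nat_lit 498) (.a (.d (nat_lit 527) (nat_lit 499) (nat_lit 1519) (nat_lit 526) (nat_lit 1518)) (.a (.f (nat_lit 530) (nat_lit 531) (nat_lit 495) (.f (nat_lit 562) (nat_lit 465) (nat_lit 7633) (.d (nat_lit 467) (nat_lit 466) (nat_lit 2511) (nat_lit 499) (nat_lit 6610)))) (.f (nat_lit 530) (nat_lit 531) (nat_lit 495) (.f (nat_lit 562) (nat_lit 465) (nat_lit 7633) (.d (nat_lit 627) (nat_lit 595) (nat_lit 4594) (nat_lit 626) (nat_lit 591))))))) (.p (nat_lit 498) (.a (.d (nat_lit 527) (nat_lit 499) (nat_lit 1519) (nat_lit 526) (nat_lit 1518)) (.a (.f (nat_lit 530) (nat_lit 531) (nat_lit 495) (.f (nat_lit 467) (nat_lit 466) (nat_lit 2511) (.d (nat_lit 499) (nat_lit 468) (nat_lit 2512) (nat_lit 562) (nat_lit 6610)))) (.f (nat_lit 530) (nat_lit 531) (nat_lit 495) (.f (nat_lit 627) (nat_lit 626) (nat_lit 591) (.d (nat_lit 595) (nat_lit 562) (nat_lit 4594) (nat_lit 628) (nat_lit 592)))))))))))) (.a (.p (nat_lit 497) (.a (.f (nat_lit 626) (nat_lit 627) (nat_lit 591) (.f (nat_lit 562) (nat_lit 563) (nat_lit 2607) (.f (nat_lit 530) (nat_lit 529) (nat_lit 7665) (.d (nat_lit 498) (nat_lit 465) (nat_lit 7633) (nat_lit 531) (nat_lit 495))))) (.a (.f (nat_lit 560) (nat_lit 465) (nat_lit 6608) (.f (nat_lit 527) (nat_lit 624) (nat_lit 7663) (.d (nat_lit 526) (nat_lit 498) (nat_lit 1518) (nat_lit 525) (nat_lit 2541)))) (.a (.f (nat_lit 560) (nat_lit 465) (nat_lit 6608) (.d (nat_lit 624) (nat_lit 527) (nat_lit 7663) (nat_lit 529) (nat_lit 6640))) (.f (nat_lit 626) (nat_lit 627) (nat_lit 591) (.f (nat_lit 562) (nat_lit 563) (nat_lit 2607) (.f (nat_lit 530) (nat_lit 529) (nat_lit 7665) (.d (nat_lit 531) (nat_lit 498) (nat_lit 495) (nat_lit 499) (nat_lit 6642))))))))) (.a (.p (nat_lit 499) (.a (.p (nat_lit 498) (.a (.f (nat_lit 497) (nat_lit 527) (nat_lit 1519) (.d (nat_lit 531) (nat_lit 530) (nat_lit 495) (nat_lit 532) (nat_lit 496))) (.a (.f (nat_lit 627) (nat_lit 626) (nat_lit 591) (.f (nat_lit 595) (nat_lit 628) (nat_lit 592) (.f (nat_lit 563) (nat_lit 564) (nat_lit 2608) (.d (nat_lit 531) (nat_lit 466) (nat_lit 7634) (nat_lit 530) (nat_lit 7666))))) (.f (nat_lit 497) (nat_lit 527) (nat_lit 1519) (.d (nat_lit 467) (nat_lit 466) (nat_lit 2511) (nat_lit 468) (nat_lit 2512)))))) (.a (.p (nat_lit 497) (.a (.f (nat_lit 465) (nat_lit 560) (nat_lit 6608) (.f (nat_lit 627) (nat_lit 626) (nat_lit 591) (.f (nat_lit 595) (nat_lit 628) (nat_lit 592) (.f (nat_lit 564) (nat_lit 563) (nat_lit 2608) (.f (nat_lit 596) (nat_lit 565) (nat_lit 2609) (.f (nat_lit 500) (nat_lit 532) (nat_lit 5619) (.d (nat_lit 498) (nat_lit 464) (nat_lit 3536) (nat_lit 529) (nat_lit 1520)))))))) (.a (.f (nat_lit 465) (nat_lit 560) (nat_lit 6608) (.f (nat_lit 627) (nat_lit 626) (nat_lit 591) (.f (nat_lit 595) (nat_lit 628) (nat_lit 592) (.f (nat_lit 564) (nat_lit 563) (nat_lit 2608) (.f (nat_lit 596) (nat_lit 565) (nat_lit 2609) (.f (nat_lit 500) (nat_lit 532) (nat_lit 5619) (.f (nat_lit 498) (nat_lit 464) (nat_lit 3536) (.d (nat_lit 467) (nat_lit 466) (nat_lit 2511) (nat_lit 468) (nat_lit 2512))))))))) (.a (.f (nat_lit 627) (nat_lit 626) (nat_lit 591) (.f (nat_lit 595) (nat_lit 628) (nat_lit 592) (.f (nat_lit 564) (nat_lit 563) (nat_lit 2608) (.f (nat_lit 596) (nat_lit 565) (nat_lit 2609) (.f (nat_lit 500) (nat_lit 532) (nat_lit 5619) (.f (nat_lit 498) (nat_lit 529) (nat_lit 1520) (.d (nat_lit 467) (nat_lit 466) (nat_lit 2511) (nat_lit 468) (nat_lit 2512)))))))) (.a (.f (nat_lit 560) (nat_lit 465) (nat_lit 6608) (.f (nat_lit 529) (nat_lit 624) (nat_lit 6640) (.f (nat_lit 531) (nat_lit 530) (nat_lit 3567) (.f (nat_lit 627) (nat_lit 626) (nat_lit 591) (.f (nat_lit 595) (nat_lit 628) (nat_lit 592) (.f (nat_lit 563) (nat_lit 564) (nat_lit 2608) (.d (nat_lit 500) (nat_lit 468) (nat_lit 6611) (nat_lit 532) (nat_lit 6643)))))))) (.a (.f (nat_lit 560) (nat_lit 465) (nat_lit 6608) (.f (nat_lit 529) (nat_lit 624) (nat_lit 6640) (.f (nat_lit 498) (nat_lit 500) (nat_lit 1520) (.d (nat_lit 531) (nat_lit 530) (nat_lit 3567) (nat_lit 532) (nat_lit 496))))) (.a (.f (nat_lit 560) (nat_lit 465) (nat_lit 6608) (.f (nat_lit 529) (nat_lit 624) (nat_lit 6640) (.f (nat_lit 531) (nat_lit 530) (nat_lit 3567) (.f (nat_lit 498) (nat_lit 532) (nat_lit 496) (.d (nat_lit 467) (nat_lit 466) (nat_lit 2511) (nat_lit 468) (nat_lit 2512)))))) (.f (nat_lit 560) (nat_lit 465) (nat_lit 6608) (.f (nat_lit 529) (nat_lit 624) (nat_lit 6640) (.f (nat_lit 498) (nat_lit 500) (nat_lit 1520) (.d (nat_lit 467) (nat_lit 466) (nat_lit 2511) (nat_lit 468) (nat_lit 2512)))))))))))) (.a (.p (nat_lit 595) (.a (.f (nat_lit 563) (nat_lit 564) (nat_lit 2608) (.f (nat_lit 531) (nat_lit 626) (nat_lit 5618) (.f (nat_lit 466) (nat_lit 498) (nat_lit 7634) (.f (nat_lit 467) (nat_lit 434) (nat_lit 7602) (.d (nat_lit 468) (nat_lit 436) (nat_lit 6579) (nat_lit 500) (nat_lit 6611)))))) (.a (.d (nat_lit 627) (nat_lit 626) (nat_lit 591) (nat_lit 628) (nat_lit 592)) (.f (nat_lit 628) (nat_lit 627) (nat_lit 592) (.f (nat_lit 596) (nat_lit 629) (nat_lit 593) (.d (nat_lit 564) (nat_lit 563) (nat_lit 2608) (nat_lit 565) (nat_lit 2609))))))) (.a (.p (nat_lit 595) (.a (.f (nat_lit 563) (nat_lit 564) (nat_lit 2608) (.f (nat_lit 531) (nat_lit 626) (nat_lit 5618) (.f (nat_lit 468) (nat_lit 500) (nat_lit 6611) (.f (nat_lit 467) (nat_lit 436) (nat_lit 6579) (.f (nat_lit 466) (nat_lit 434) (nat_lit 7602) (.d (nat_lit 465) (nat_lit 464) (nat_lit 1487) (nat_lit 497) (nat_lit 1488))))))) (.a (.d (nat_lit 627) (nat_lit 626) (nat_lit 591) (nat_lit 628) (nat_lit 592)) (.f (nat_lit 628) (nat_lit 627) (nat_lit 592) (.f (nat_lit 596) (nat_lit 629) (nat_lit 593) (.d (nat_lit 564) (nat_lit 563) (nat_lit 2608) (nat_lit 565) (nat_lit 2609))))))) (.a (.p (nat_lit 497) (.a (.f (nat_lit 465) (nat_lit 560) (nat_lit 6608) (.f (nat_lit 627) (nat_lit 626) (nat_lit 591) (.f (nat_lit 595) (nat_lit 628) (nat_lit 592) (.f (nat_lit 564) (nat_lit 563) (nat_lit 2608) (.f (nat_lit 596) (nat_lit 565) (nat_lit 2609) (.f (nat_lit 500) (nat_lit 532) (nat_lit 5619) (.d (nat_lit 498) (nat_lit 464) (nat_lit 3536) (nat_lit 529) (nat_lit 1520)))))))) (.a (.f (nat_lit 465) (nat_lit 560) (nat_lit 6608) (.f (nat_lit 627) (nat_lit 626) (nat_lit 591) (.f (nat_lit 595) (nat_lit 628) (nat_lit 592) (.f (nat_lit 564) (nat_lit 563) (nat_lit 2608) (.f (nat_lit 596) (nat_lit 565) (nat_lit 2609) (.f (nat_lit 500) (nat_lit 532) (nat_lit 5619) (.f (nat_lit 498) (nat_lit 464) (nat_lit 3536) (.d (nat_lit 467) (nat_lit 466) (nat_lit 2511) (nat_lit 468) (nat_lit 2512))))))))) (.a (.f (nat_lit 627) (nat_lit 626) (nat_lit 591) (.f (nat_lit 595) (nat_lit 628) (nat_lit 592) (.f (nat_lit 564) (nat_lit 563) (nat_lit 2608) (.f (nat_lit 596) (nat_lit 565) (nat_lit 2609) (.f (nat_lit 500) (nat_lit 532) (nat_lit 5619) (.f (nat_lit 498) (nat_lit 529) (nat_lit 1520) (.d (nat_lit 467) (nat_lit 466) (nat_lit 2511) (nat_lit 468) (nat_lit 2512)))))))) (.f (nat_lit 560) (nat_lit 465) (nat_lit 6608) (.d (nat_lit 624) (nat_lit 527) (nat_lit 7663) (nat_lit 529) (nat_lit 6640))))))) (.a s124363 (.a (.p (nat_lit 498) (.a (.f (nat_lit 497) (nat_lit 527) (nat_lit 1519) (.d (nat_lit 531) (nat_lit 530) (nat_lit 495) (nat_lit 532) (nat_lit 496))) (.a (.f (nat_lit 627) (nat_lit 626) (nat_lit 591) (.f (nat_lit 595) (nat_lit 628) (nat_lit 592) (.f (nat_lit 563) (nat_lit 564) (nat_lit 2608) (.d (nat_lit 531) (nat_lit 466) (nat_lit 7634) (nat_lit 530) (nat_lit 7666))))) (.a (.f (nat_lit 627) (nat_lit 626) (nat_lit 591) (.f (nat_lit 595) (nat_lit 628) (nat_lit 592) (.f (nat_lit 563) (nat_lit 564) (nat_lit 2608) (.f (nat_lit 531) (nat_lit 466) (nat_lit 7634) (.d (nat_lit 532) (nat_lit 497) (nat_lit 496) (nat_lit 500) (nat_lit 6643)))))) (.f (nat_lit 497) (nat_lit 527) (nat_lit 1519) (.f (nat_lit 500) (nat_lit 529) (nat_lit 1520) (.d (nat_lit 465) (nat_lit 464) (nat_lit 3536) (nat_lit 560) (nat_lit 6608)))))))) (.p (nat_lit 498) (.a (.f (nat_lit 497) (nat_lit 527) (nat_lit 1519) (.d (nat_lit 531) (nat_lit 530) (nat_lit 495) (nat_lit 532) (nat_lit 496))) (.a (.f (nat_lit 627) (nat_lit 626) (nat_lit 591) (.f (nat_lit 595) (nat_lit 628) (nat_lit 592) (.f (nat_lit 563) (nat_lit 564) (nat_lit 2608) (.f (nat_lit 531) (nat_lit 530) (nat_lit 7666) (.d (nat_lit 500) (nat_lit 468) (nat_lit 6611) (nat_lit 532) (nat_lit 6643)))))) (.f (nat_lit 497) (nat_lit 527) (nat_lit 1519) (.f (nat_lit 500) (nat_lit 529) (nat_lit 1520) (.d (nat_lit 465) (nat_lit 464) (nat_lit 3536) (nat_lit 560) (nat_lit 6608))))))))))))))) (.a (.p (nat_lit 497) (.a (.f (nat_lit 563) (nat_lit 562) (nat_lit 2607) (.f (nat_lit 595) (nat_lit 564) (nat_lit 2608) (.f (nat_lit 628) (nat_lit 627) (nat_lit 592) (.f (nat_lit 596) (nat_lit 629) (nat_lit 593) (.f (nat_lit 531) (nat_lit 499) (nat_lit 4595) (.d (nat_lit 530) (nat_lit 498) (nat_lit 495) (nat_lit 529) (nat_lit 3567))))))) (.a (.f (nat_lit 560) (nat_lit 465) (nat_lit 6608) (.f (nat_lit 527) (nat_lit 624) (nat_lit 7663) (.d (nat_lit 526) (nat_lit 498) (nat_lit 1518) (nat_lit 525) (nat_lit 2541)))) (.f (nat_lit 560) (nat_lit 465) (nat_lit 6608) (.d (nat_lit 624) (nat_lit 527) (nat_lit 7663) (nat_lit 529) (nat_lit 6640)))))) (.p (nat_lit 499) (.a s124363 (.a (.f (nat_lit 563) (nat_lit 562) (nat_lit 2607) (.f (nat_lit 595) (nat_lit 564) (nat_lit 2608) (.f (nat_lit 531) (nat_lit 626) (nat_lit 5618) (.f (nat_lit 498) (nat_lit 466) (nat_lit 7634) (.d (nat_lit 497) (nat_lit 527) (nat_lit 1519) (nat_lit 530) (nat_lit 495)))))) (.a (.f (nat_lit 563) (nat_lit 562) (nat_lit 2607) (.f (nat_lit 595) (nat_lit 564) (nat_lit 2608) (.f (nat_lit 531) (nat_lit 626) (nat_lit 5618) (.f (nat_lit 498) (nat_lit 466) (nat_lit 7634) (.d (nat_lit 497) (nat_lit 530) (nat_lit 495) (nat_lit 532) (nat_lit 496)))))) (.a (.f (nat_lit 563) (nat_lit 562) (nat_lit 2607) (.f (nat_lit 595) (nat_lit 564) (nat_lit 2608) (.f (nat_lit 531) (nat_lit 626) (nat_lit 5618) (.f (nat_lit 466) (nat_lit 498) (nat_lit 7634) (.f (nat_lit 467) (nat_lit 434) (nat_lit 7602) (.d (nat_lit 468) (nat_lit 436) (nat_lit 6579) (nat_lit 500) (nat_lit 6611))))))) (.a (.f (nat_lit 563) (nat_lit 562) (nat_lit 2607) (.f (nat_lit 595) (nat_lit 564) (nat_lit 2608) (.f (nat_lit 531) (nat_lit 626) (nat_lit 5618) (.f (nat_lit 468) (nat_lit 500) (nat_lit 6611) (.f (nat_lit 467) (nat_lit 436) (nat_lit 6579) (.f (nat_lit 466) (nat_lit 434) (nat_lit 7602) (.d (nat_lit 465) (nat_lit 464) (nat_lit 1487) (nat_lit 497) (nat_lit 1488)))))))) (.a (.p (nat_lit 497) (.a (.f (nat_lit 560) (nat_lit 465) (nat_lit 6608) (.f (nat_lit 529) (nat_lit 624) (nat_lit 6640) (.f (nat_lit 498) (nat_lit 500) (nat_lit 1520) (.d (nat_lit 467) (nat_lit 466) (nat_lit 2511) (nat_lit 468) (nat_lit 2512))))) (.a (.f (nat_lit 498) (nat_lit 527) (nat_lit 1519) (.d (nat_lit 467) (nat_lit 466) (nat_lit 2511) (nat_lit 468) (nat_lit 2512))) (.f (nat_lit 560) (nat_lit 465) (nat_lit 6608) (.d (nat_lit 624) (nat_lit 527) (nat_lit 7663) (nat_lit 529) (nat_lit 6640)))))) (.f (nat_lit 563) (nat_lit 562) (nat_lit 2607) (.f (nat_lit 595) (nat_lit 564) (nat_lit 2608) (.f (nat_lit 531) (nat_lit 626) (nat_lit 5618) (.f (nat_lit 529) (nat_lit 530) (nat_lit 3567) (.f (nat_lit 468) (nat_lit 500) (nat_lit 6611) (.f (nat_lit 467) (nat_lit 436) (nat_lit 6579) (.f (nat_lit 497) (nat_lit 498) (nat_lit 2512) (.d (nat_lit 560) (nat_lit 465) (nat_lit 6608) (nat_lit 624) (nat_lit 6640))))))))))))))))))))))))))) (.p (nat_lit 593) (.a (.d (nat_lit 560) (nat_lit 623) (nat_lit 5615) (nat_lit 625) (nat_lit 4592)) (.a s124105 (.a (.f (nat_lit 625) (nat_lit 560) (nat_lit 4592) (.f (nat_lit 590) (nat_lit 626) (nat_lit 590) (.f (nat_lit 621) (nat_lit 622) (nat_lit 1613) (.f (nat_lit 589) (nat_lit 620) (nat_lit 1612) (.d (nat_lit 557) (nat_lit 556) (nat_lit 3628) (nat_lit 558) (nat_lit 3629)))))) (.f (nat_lit 623) (nat_lit 560) (nat_lit 5615) (.f (nat_lit 594) (nat_lit 622) (nat_lit 1614) (.f (nat_lit 627) (nat_lit 626) (nat_lit 591) (.f (nat_lit 595) (nat_lit 628) (nat_lit 592) (.d (nat_lit 563) (nat_lit 562) (nat_lit 2607) (nat_lit 564) (nat_lit 2608)))))))))))))))) (.a (.p (nat_lit 498) (.a (.p (nat_lit 527) (.a (.d (nat_lit 497) (nat_lit 499) (nat_lit 1519) (nat_lit 526) (nat_lit 1518)) (.d (nat_lit 559) (nat_lit 464) (nat_lit 6607) (nat_lit 623) (nat_lit 6639)))) (.a s124470 (.a (.p (nat_lit 530) (.a (.p (nat_lit 562) (.a (.p (nat_lit 594) (.a (.f (nat_lit 593) (nat_lit 625) (nat_lit 5617) (.f (nat_lit 592) (nat_lit 563) (nat_lit 2607) (.d (nat_lit 627) (nat_lit 595) (nat_lit 4594) (nat_lit 626) (nat_lit 591)))) (.a (.f (nat_lit 467) (nat_lit 499) (nat_lit 6610) (.f (nat_lit 466) (nat_lit 435) (nat_lit 6578) (.d (nat_lit 595) (nat_lit 563) (nat_lit 4562) (nat_lit 627) (nat_lit 4594)))) (.f (nat_lit 467) (nat_lit 499) (nat_lit 6610) (.f (nat_lit 466) (nat_lit 435) (nat_lit 6578) (.d (nat_lit 465) (nat_lit 433) (nat_lit 7601) (nat_lit 464) (nat_lit 1487))))))) (.a (.p (nat_lit 594) (.a (.f (nat_lit 593) (nat_lit 625) (nat_lit 5617) (.f (nat_lit 592) (nat_lit 563) (nat_lit 2607) (.d (nat_lit 627) (nat_lit 595) (nat_lit 4594) (nat_lit 626) (nat_lit 591)))) (.a (.f (nat_lit 467) (nat_lit 499) (nat_lit 6610) (.f (nat_lit 466) (nat_lit 435) (nat_lit 6578) (.d (nat_lit 595) (nat_lit 563) (nat_lit 4562) (nat_lit 627) (nat_lit 4594)))) (.f (nat_lit 499) (nat_lit 467) (nat_lit 6610) (.d (nat_lit 531) (nat_lit 529) (nat_lit 3567) (nat_lit 626) (nat_lit 6642)))))) (.a s124492 (.a s124501 (.a (.p (nat_lit 594) (.a (.f (nat_lit 467) (nat_lit 499) (nat_lit 6610) (.f (nat_lit 466) (nat_lit 435) (nat_lit 6578) (.d (nat_lit 465) (nat_lit 433) (nat_lit 7601) (nat_lit 464) (nat_lit 1487)))) (.a (.f (nat_lit 499) (nat_lit 467) (nat_lit 6610) (.d (nat_lit 531) (nat_lit 529) (nat_lit 3567) (nat_lit 626) (nat_lit 6642))) (.f (nat_lit 627) (nat_lit 595) (nat_lit 4594) (.f (nat_lit 626) (nat_lit 659) (nat_lit 4626) (.d (nat_lit 593) (nat_lit 592) (nat_lit 591) (nat_lit 625) (nat_lit 5617))))))) (.a (.p (nat_lit 594) (.a (.f (nat_lit 467) (nat_lit 499) (nat_lit 6610) (.f (nat_lit 466) (nat_lit 435) (nat_lit 6578) (.d (nat_lit 595) (nat_lit 563) (nat_lit 4562) (nat_lit 627) (nat_lit 4594)))) (.a (.f (nat_lit 595) (nat_lit 627) (nat_lit 4594) (.f (nat_lit 466) (nat_lit 563) (nat_lit 4562) (.f (nat_lit 433) (nat_lit 465) (nat_lit 7601) (.f (nat_lit 434) (nat_lit 401) (nat_lit 7569) (.d (nat_lit 435) (nat_lit 403) (nat_lit 6546) (nat_lit 467) (nat_lit 6578)))))) (.a (.f (nat_lit 467) (nat_lit 499) (nat_lit 6610) (.f (nat_lit 466) (nat_lit 435) (nat_lit 6578) (.d (nat_lit 465) (nat_lit 433) (nat_lit 7601) (nat_lit 464) (nat_lit 1487)))) (.f (nat_lit 531) (nat_lit 529) (nat_lit 3567) (.f (nat_lit 626) (nat_lit 499) (nat_lit 6642) (.d (nat_lit 627) (nat_lit 595) (nat_lit 4594) (nat_lit 659) (nat_lit 4626)))))))) (.a (.p (nat_lit 594) (.a (.f (nat_lit 593) (nat_lit 625) (nat_lit 5617) (.f (nat_lit 592) (nat_lit 563) (nat_lit 2607) (.d (nat_lit 627) (nat_lit 595) (nat_lit 4594) (nat_lit 626) (nat_lit 591)))) (.a (.f (nat_lit 531) (nat_lit 529) (nat_lit 3567) (.f (nat_lit 626) (nat_lit 499) (nat_lit 6642) (.d (nat_lit 625) (nat_lit 593) (nat_lit 5617) (nat_lit 657) (nat_lit 5649)))) (.a (.f (nat_lit 531) (nat_lit 529) (nat_lit 3567) (.f (nat_lit 626) (nat_lit 499) (nat_lit 6642) (.d (nat_lit 627) (nat_lit 595) (nat_lit 4594) (nat_lit 659) (nat_lit 4626)))) (.f (nat_lit 593) (nat_lit 625) (nat_lit 5617) (.f (nat_lit 592) (nat_lit 563) (nat_lit 2607) (.f (nat_lit 622) (nat_lit 623) (nat_lit 1614) (.f (nat_lit 590) (nat_lit 621) (nat_lit 1613) (.d (nat_lit 558) (nat_lit 557) (nat_lit 3629) (nat_lit 559) (nat_lit 3630)))))))))) (.a (.p (nat_lit 594) (.a (.f (nat_lit 467) (nat_lit 499) (nat_lit 6610) (.f (nat_lit 466) (nat_lit 435) (nat_lit 6578) (.d (nat_lit 465) (nat_lit 433) (nat_lit 7601) (nat_lit 464) (nat_lit 1487)))) (.a (.f (nat_lit 499) (nat_lit 467) (nat_lit 6610) (.d (nat_lit 531) (nat_lit 529) (nat_lit 3567) (nat_lit 626) (nat_lit 6642))) (.f (nat_lit 593) (nat_lit 625) (nat_lit 5617) (.f (nat_lit 592) (nat_lit 563) (nat_lit 2607) (.f (nat_lit 622) (nat_lit 623) (nat_lit 1614) (.f (nat_lit 590) (nat_lit 621) (nat_lit 1613) (.d (nat_lit 558) (nat_lit 557) (nat_lit 3629) (nat_lit 559) (nat_lit 3630))))))))) (.p (nat_lit 466) (.a (.f (nat_lit 467) (nat_lit 435) (nat_lit 6578) (.d (nat_lit 465) (nat_lit 433) (nat_lit 7601) (nat_lit 464) (nat_lit 1487))) (.f (nat_lit 531) (nat_lit 529) (nat_lit 3567) (.d (nat_lit 563) (nat_lit 434) (nat_lit 4530) (nat_lit 595) (nat_lit 4562)))))))))))))) (.a (.p (nat_lit 562) (.a (.p (nat_lit 594) (.a (.f (nat_lit 593) (nat_lit 625) (nat_lit 5617) (.f (nat_lit 592) (nat_lit 563) (nat_lit 2607) (.d (nat_lit 627) (nat_lit 595) (nat_lit 4594) (nat_lit 626) (nat_lit 591)))) (.a (.f (nat_lit 467) (nat_lit 499) (nat_lit 6610) (.f (nat_lit 466) (nat_lit 435) (nat_lit 6578) (.d (nat_lit 595) (nat_lit 563) (nat_lit 4562) (nat_lit 627) (nat_lit 4594)))) (.f (nat_lit 467) (nat_lit 499) (nat_lit 6610) (.f (nat_lit 466) (nat_lit 435) (nat_lit 6578) (.d (nat_lit 465) (nat_lit 433) (nat_lit 7601) (nat_lit 464) (nat_lit 1487))))))) (.a s124501 (.a s124523 (.a s124524 (.a (.p (nat_lit 594) (.a (.f (nat_lit 467) (nat_lit 499) (nat_lit 6610) (.f (nat_lit 466) (nat_lit 435) (nat_lit 6578) (.d (nat_lit 465) (nat_lit 433) (nat_lit 7601) (nat_lit 464) (nat_lit 1487)))) (.f (nat_lit 627) (nat_lit 595) (nat_lit 4594) (.f (nat_lit 626) (nat_lit 659) (nat_lit 4626) (.d (nat_lit 593) (nat_lit 592) (nat_lit 591) (nat_lit 625) (nat_lit 5617)))))) (.a s124532 (.a (.p (nat_lit 594) (.a (.f (nat_lit 593) (nat_lit 625) (nat_lit 5617) (.f (nat_lit 592) (nat_lit 563) (nat_lit 2607) (.d (nat_lit 627) (nat_lit 595) (nat_lit 4594) (nat_lit 626) (nat_lit 591)))) (.a (.f (nat_lit 595) (nat_lit 627) (nat_lit 4594) (.f (nat_lit 563) (nat_lit 466) (nat_lit 4562) (.f (nat_lit 625) (nat_lit 593) (nat_lit 5617) (.f (nat_lit 626) (nat_lit 657) (nat_lit 5649) (.d (nat_lit 531) (nat_lit 499) (nat_lit 5618) (nat_lit 658) (nat_lit 6674)))))) (.a (.f (nat_lit 627) (nat_lit 595) (nat_lit 4594) (.f (nat_lit 626) (nat_lit 659) (nat_lit 4626) (.d (nat_lit 593) (nat_lit 592) (nat_lit 591) (nat_lit 625) (nat_lit 5617)))) (.a (.f (nat_lit 627) (nat_lit 595) (nat_lit 4594) (.f (nat_lit 626) (nat_lit 659) (nat_lit 4626) (.f (nat_lit 625) (nat_lit 657) (nat_lit 5649) (.f (nat_lit 624) (nat_lit 592) (nat_lit 3663) (.f (nat_lit 623) (nat_lit 590) (nat_lit 3662) (.d (nat_lit 655) (nat_lit 654) (nat_lit 1646) (nat_lit 656) (nat_lit 1647))))))) (.a (.f (nat_lit 593) (nat_lit 625) (nat_lit 5617) (.f (nat_lit 592) (nat_lit 563) (nat_lit 2607) (.f (nat_lit 622) (nat_lit 623) (nat_lit 1614) (.f (nat_lit 590) (nat_lit 621) (nat_lit 1613) (.d (nat_lit 558) (nat_lit 557) (nat_lit 3629) (nat_lit 559) (nat_lit 3630)))))) (.p (nat_lit 626) (.a (.d (nat_lit 627) (nat_lit 595) (nat_lit 4594) (nat_lit 659) (nat_lit 4626)) (.a (.f (nat_lit 531) (nat_lit 499) (nat_lit 6642) (.f (nat_lit 658) (nat_lit 563) (nat_lit 6674) (.d (nat_lit 659) (nat_lit 627) (nat_lit 4626) (nat_lit 691) (nat_lit 4658)))) (.f (nat_lit 531) (nat_lit 499) (nat_lit 6642) (.f (nat_lit 563) (nat_lit 658) (nat_lit 6674) (.d (nat_lit 466) (nat_lit 434) (nat_lit 4530) (nat_lit 595) (nat_lit 4562))))))))))))) (.a (.p (nat_lit 594) (.a (.f (nat_lit 467) (nat_lit 499) (nat_lit 6610) (.f (nat_lit 466) (nat_lit 435) (nat_lit 6578) (.d (nat_lit 465) (nat_lit 433) (nat_lit 7601) (nat_lit 464) (nat_lit 1487)))) (.f (nat_lit 593) (nat_lit 625) (nat_lit 5617) (.f (nat_lit 592) (nat_lit 563) (nat_lit 2607) (.f (nat_lit 622) (nat_lit 623) (nat_lit 1614) (.f (nat_lit 590) (nat_lit 621) (nat_lit 1613) (.d (nat_lit 558) (nat_lit 557) (nat_lit 3629) (nat_lit 559) (nat_lit 3630)))))))) (.a (.p (nat_lit 466) (.a (.f (nat_lit 467) (nat_lit 435) (nat_lit 6578) (.d (nat_lit 465) (nat_lit 433) (nat_lit 7601) (nat_lit 464) (nat_lit 1487))) (.a (.f (nat_lit 563) (nat_lit 595) (nat_lit 4562) (.f (nat_lit 434) (nat_lit 531) (nat_lit 4530) (.d (nat_lit 435) (nat_lit 403) (nat_lit 6546) (nat_lit 467) (nat_lit 6578)))) (.f (nat_lit 563) (nat_lit 595) (nat_lit 4562) (.f (nat_lit 434) (nat_lit 531) (nat_lit 4530) (.d (nat_lit 433) (nat_lit 401) (nat_lit 7569) (nat_lit 465) (nat_lit 7601))))))) (.p (nat_lit 594) (.a (.f (nat_lit 593) (nat_lit 625) (nat_lit 5617) (.f (nat_lit 592) (nat_lit 563) (nat_lit 2607) (.d (nat_lit 627) (nat_lit 595) (nat_lit 4594) (nat_lit 626) (nat_lit 591)))) (.a (.f (nat_lit 627) (nat_lit 595) (nat_lit 4594) (.f (nat_lit 626) (nat_lit 659) (nat_lit 4626) (.d (nat_lit 625) (nat_lit 593) (nat_lit 5617) (nat_lit 657) (nat_lit 5649)))) (.a (.f (nat_lit 627) (nat_lit 595) (nat_lit 4594) (.f (nat_lit 626) (nat_lit 659) (nat_lit 4626) (.f (nat_lit 625) (nat_lit 657) (nat_lit 5649) (.f (nat_lit 624) (nat_lit 592) (nat_lit 3663) (.f (nat_lit 623) (nat_lit 590) (nat_lit 3662) (.d (nat_lit 655) (nat_lit 654) (nat_lit 1646) (nat_lit 656) (nat_lit 1647))))))) (.a (.f (nat_lit 593) (nat_lit 625) (nat_lit 5617) (.f (nat_lit 592) (nat_lit 563) (nat_lit 2607) (.f (nat_lit 622) (nat_lit 623) (nat_lit 1614) (.f (nat_lit 590) (nat_lit 621) (nat_lit 1613) (.d (nat_lit 558) (nat_lit 557) (nat_lit 3629) (nat_lit 559) (nat_lit 3630)))))) (.f (nat_lit 627) (nat_lit 595) (nat_lit 4594) (.f (nat_lit 626) (nat_lit 659) (nat_lit 4626) (.d (nat_lit 499) (nat_lit 467) (nat_lit 6610) (nat_lit 531) (nat_lit 6642))))))))))))))))))) (.a (.p (nat_lit 562) (.a (.p (nat_lit 594) (.a (.f (nat_lit 593) (nat_lit 625) (nat_lit 5617) (.f (nat_lit 592) (nat_lit 563) (nat_lit 2607) (.d (nat_lit 627) (nat_lit 595) (nat_lit 4594) (nat_lit 626) (nat_lit 591)))) (.a (.f (nat_lit 467) (nat_lit 499) (nat_lit 6610) (.f (nat_lit 466) (nat_lit 435) (nat_lit 6578) (.d (nat_lit 595) (nat_lit 563) (nat_lit 4562) (nat_lit 627) (nat_lit 4594)))) (.f (nat_lit 467) (nat_lit 499) (nat_lit 6610) (.f (nat_lit 466) (nat_lit 435) (nat_lit 6578) (.d (nat_lit 465) (nat_lit 433) (nat_lit 7601) (nat_lit 464) (nat_lit 1487))))))) (.a (.p (nat_lit 594) (.a (.f (nat_lit 593) (nat_lit 625) (nat_lit 5617) (.f (nat_lit 592) (nat_lit 563) (nat_lit 2607) (.d (nat_lit 627) (nat_lit 595) (nat_lit 4594) (nat_lit 626) (nat_lit 591)))) (.a (.f (nat_lit 467) (nat_lit 499) (nat_lit 6610) (.f (nat_lit 466) (nat_lit 435) (nat_lit 6578) (.d (nat_lit 595) (nat_lit 563) (nat_lit 4562) (nat_lit 627) (nat_lit 4594)))) (.f (nat_lit 499) (nat_lit 467) (nat_lit 6610) (.d (nat_lit 531) (nat_lit 529) (nat_lit 3567) (nat_lit 626) (nat_lit 6642)))))) (.a s124492 (.a (.p (nat_lit 466) (.a (.f (nat_lit 467) (nat_lit 435) (nat_lit 6578) (.d (nat_lit 465) (nat_lit 433) (nat_lit 7601) (nat_lit 464) (nat_lit 1487))) (.f (nat_lit 531) (nat_lit 529) (nat_lit 3567) (.d (nat_lit 563) (nat_lit 434) (nat_lit 4530) (nat_lit 595) (nat_lit 4562))))) (.a (.p (nat_lit 594) (.a (.f (nat_lit 467) (nat_lit 499) (nat_lit 6610) (.f (nat_lit 466) (nat_lit 435) (nat_lit 6578) (.d (nat_lit 465) (nat_lit 433) (nat_lit 7601) (nat_lit 464) (nat_lit 1487)))) (.a (.f (nat_lit 499) (nat_lit 467) (nat_lit 6610) (.d (nat_lit 531) (nat_lit 529) (nat_lit 3567) (nat_lit 626) (nat_lit 6642))) (.f (nat_lit 627) (nat_lit 595) (nat_lit 4594) (.f (nat_lit 626) (nat_lit 659) (nat_lit 4626) (.d (nat_lit 593) (nat_lit 592) (nat_lit 591) (nat_lit 625) (nat_lit 5617))))))) (.f (nat_lit 529) (nat_lit 531) (nat_lit 3567) (.d (nat_lit 527) (nat_lit 499) (nat_lit 2543) (nat_lit 563) (nat_lit 527))))))))) (.a (.f (nat_lit 529) (nat_lit 531) (nat_lit 3567) (.f (nat_lit 527) (nat_lit 499) (nat_lit 2543) (.d (nat_lit 559) (nat_lit 558) (nat_lit 1550) (nat_lit 623) (nat_lit 6639)))) (.a s124607 (.p (nat_lit 562) (.a (.p (nat_lit 594) (.a (.f (nat_lit 593) (nat_lit 625) (nat_lit 5617) (.f (nat_lit 592) (nat_lit 563) (nat_lit 2607) (.d (nat_lit 627) (nat_lit 595) (nat_lit 4594) (nat_lit 626) (nat_lit 591)))) (.a (.f (nat_lit 467) (nat_lit 499) (nat_lit 6610) (.f (nat_lit 466) (nat_lit 435) (nat_lit 6578) (.d (nat_lit 595) (nat_lit 563) (nat_lit 4562) (nat_lit 627) (nat_lit 4594)))) (.f (nat_lit 467) (nat_lit 499) (nat_lit 6610) (.f (nat_lit 466) (nat_lit 435) (nat_lit 6578) (.d (nat_lit 465) (nat_lit 433) (nat_lit 7601) (nat_lit 464) (nat_lit 1487))))))) (.a s124501 (.a s124608 (.a s124524 (.a (.p (nat_lit 594) (.a (.f (nat_lit 467) (nat_lit 499) (nat_lit 6610) (.f (nat_lit 466) (nat_lit 435) (nat_lit 6578) (.d (nat_lit 465) (nat_lit 433) (nat_lit 7601) (nat_lit 464) (nat_lit 1487)))) (.f (nat_lit 627) (nat_lit 595) (nat_lit 4594) (.f (nat_lit 626) (nat_lit 659) (nat_lit 4626) (.d (nat_lit 593) (nat_lit 592) (nat_lit 591) (nat_lit 625) (nat_lit 5617)))))) (.a s124532 (.a (.p (nat_lit 594) (.a (.f (nat_lit 593) (nat_lit 625) (nat_lit 5617) (.f (nat_lit 592) (nat_lit 563) (nat_lit 2607) (.d (nat_lit 627) (nat_lit 595) (nat_lit 4594) (nat_lit 626) (nat_lit 591)))) (.a (.f (nat_lit 627) (nat_lit 595) (nat_lit 4594) (.f (nat_lit 626) (nat_lit 659) (nat_lit 4626) (.d (nat_lit 625) (nat_lit 593) (nat_lit 5617) (nat_lit 657) (nat_lit 5649)))) (.a (.f (nat_lit 627) (nat_lit 595) (nat_lit 4594) (.f (nat_lit 626) (nat_lit 659) (nat_lit 4626) (.f (nat_lit 625) (nat_lit 657) (nat_lit 5649) (.f (nat_lit 624) (nat_lit 592) (nat_lit 3663) (.f (nat_lit 623) (nat_lit 590) (nat_lit 3662) (.d (nat_lit 655) (nat_lit 654) (nat_lit 1646) (nat_lit 656) (nat_lit 1647))))))) (.a (.f (nat_lit 593) (nat_lit 625) (nat_lit 5617) (.f (nat_lit 592) (nat_lit 563) (nat_lit 2607) (.f (nat_lit 622) (nat_lit 623) (nat_lit 1614) (.f (nat_lit 590) (nat_lit 621) (nat_lit 1613) (.d (nat_lit 558) (nat_lit 557) (nat_lit 3629) (nat_lit 559) (nat_lit 3630)))))) (.f (nat_lit 595) (nat_lit 627) (nat_lit 4594) (.f (nat_lit 563) (nat_lit 466) (nat_lit 4562) (.f (nat_lit 527) (nat_lit 529) (nat_lit 527) (.d (nat_lit 559) (nat_lit 464) (nat_lit 6607) (nat_lit 623) (nat_lit 6639)))))))))) (.a (.p (nat_lit 594) (.a (.f (nat_lit 467) (nat_lit 499) (nat_lit 6610) (.f (nat_lit 466) (nat_lit 435) (nat_lit 6578) (.d (nat_lit 465) (nat_lit 433) (nat_lit 7601) (nat_lit 464) (nat_lit 1487)))) (.f (nat_lit 593) (nat_lit 625) (nat_lit 5617) (.f (nat_lit 592) (nat_lit 563) (nat_lit 2607) (.f (nat_lit 622) (nat_lit 623) (nat_lit 1614) (.f (nat_lit 590) (nat_lit 621) (nat_lit 1613) (.d (nat_lit 558) (nat_lit 557) (nat_lit 3629) (nat_lit 559) (nat_lit 3630)))))))) (.p (nat_lit 527) (.a (.d (nat_lit 559) (nat_lit 464) (nat_lit 6607) (nat_lit 623) (nat_lit 6639)) (.d (nat_lit 529) (nat_lit 499) (nat_lit 2543) (nat_lit 563) (nat_lit 527))))))))))))))))))) (.a (.p (nat_lit 497) (.a (.f (nat_lit 531) (nat_lit 530) (nat_lit 495) (.f (nat_lit 499) (nat_lit 532) (nat_lit 496) (.d (nat_lit 467) (nat_lit 466) (nat_lit 2511) (nat_lit 468) (nat_lit 2512)))) (.a (.d (nat_lit 527) (nat_lit 499) (nat_lit 1519) (nat_lit 526) (nat_lit 1518)) (.f (nat_lit 527) (nat_lit 526) (nat_lit 1518) (.f (nat_lit 559) (nat_lit 623) (nat_lit 6639) (.f (nat_lit 530) (nat_lit 531) (nat_lit 495) (.f (nat_lit 529) (nat_lit 558) (nat_lit 1550) (.f (nat_lit 562) (nat_lit 563) (nat_lit 527) (.d (nat_lit 594) (nat_lit 465) (nat_lit 7633) (nat_lit 626) (nat_lit 7665)))))))))) (.p (nat_lit 527) (.a (.d (nat_lit 559) (nat_lit 464) (nat_lit 6607) (nat_lit 623) (nat_lit 6639)) (.f (nat_lit 526) (nat_lit 497) (nat_lit 1518) (.f (nat_lit 525) (nat_lit 524) (nat_lit 2540) (.f (nat_lit 557) (nat_lit 556) (nat_lit 1548) (.f (nat_lit 493) (nat_lit 492) (nat_lit 3564) (.f (nat_lit 558) (nat_lit 529) (nat_lit 1549) (.d (nat_lit 461) (nat_lit 429) (nat_lit 4525) (nat_lit 590) (nat_lit 4557)))))))))))))) (.a (.p (nat_lit 498) (.a (.p (nat_lit 527) (.a (.d (nat_lit 497) (nat_lit 499) (nat_lit 1519) (nat_lit 526) (nat_lit 1518)) (.d (nat_lit 559) (nat_lit 464) (nat_lit 6607) (nat_lit 623) (nat_lit 6639)))) (.a s124470 (.a (.p (nat_lit 530) (.a (.f (nat_lit 529) (nat_lit 531) (nat_lit 3567) (.f (nat_lit 527) (nat_lit 499) (nat_lit 2543) (.d (nat_lit 559) (nat_lit 558) (nat_lit 1550) (nat_lit 623) (nat_lit 6639)))) (.a (.p (nat_lit 466) (.a (.p (nat_lit 562) (.a (.f (nat_lit 467) (nat_lit 435) (nat_lit 6578) (.d (nat_lit 465) (nat_lit 433) (nat_lit 7601) (nat_lit 464) (nat_lit 1487))) (.a (.f (nat_lit 563) (nat_lit 595) (nat_lit 4562) (.f (nat_lit 434) (nat_lit 531) (nat_lit 4530) (.d (nat_lit 435) (nat_lit 403) (nat_lit 6546) (nat_lit 467) (nat_lit 6578)))) (.f (nat_lit 563) (nat_lit 595) (nat_lit 4562) (.f (nat_lit 434) (nat_lit 531) (nat_lit 4530) (.d (nat_lit 433) (nat_lit 401) (nat_lit 7569) (nat_lit 465) (nat_lit 7601))))))) (.a (.p (nat_lit 562) (.a (.f (nat_lit 563) (nat_lit 595) (nat_lit 4562) (.f (nat_lit 434) (nat_lit 531) (nat_lit 4530) (.d (nat_lit 435) (nat_lit 403) (nat_lit 6546) (nat_lit 467) (nat_lit 6578)))) (.a (.f (nat_lit 435) (nat_lit 467) (nat_lit 6578) (.f (nat_lit 434) (nat_lit 403) (nat_lit 6546) (.d (nat_lit 433) (nat_lit 401) (nat_lit 7569) (nat_lit 465) (nat_lit 7601)))) (.a (.f (nat_lit 563) (nat_lit 595) (nat_lit 4562) (.f (nat_lit 434) (nat_lit 531) (nat_lit 4530) (.d (nat_lit 433) (nat_lit 401) (nat_lit 7569) (nat_lit 465) (nat_lit 7601)))) (.f (nat_lit 595) (nat_lit 563) (nat_lit 4562) (.f (nat_lit 594) (nat_lit 627) (nat_lit 4594) (.d (nat_lit 467) (nat_lit 435) (nat_lit 6578) (nat_lit 499) (nat_lit 6610)))))))) (.a (.p (nat_lit 562) (.a (.f (nat_lit 563) (nat_lit 595) (nat_lit 4562) (.f (nat_lit 434) (nat_lit 531) (nat_lit 4530) (.d (nat_lit 435) (nat_lit 403) (nat_lit 6546) (nat_lit 467) (nat_lit 6578)))) (.a (.f (nat_lit 595) (nat_lit 563) (nat_lit 4562) (.f (nat_lit 594) (nat_lit 627) (nat_lit 4594) (.d (nat_lit 467) (nat_lit 435) (nat_lit 6578) (nat_lit 499) (nat_lit 6610)))) (.a (.f (nat_lit 467) (nat_lit 435) (nat_lit 6578) (.f (nat_lit 464) (nat_lit 465) (nat_lit 1487) (.d (nat_lit 559) (nat_lit 527) (nat_lit 6607) (nat_lit 560) (nat_lit 5583)))) (.f (nat_lit 595) (nat_lit 563) (nat_lit 4562) (.f (nat_lit 594) (nat_lit 627) (nat_lit 4594) (.f (nat_lit 625) (nat_lit 593) (nat_lit 5617) (.f (nat_lit 626) (nat_lit 657) (nat_lit 5649) (.f (nat_lit 623) (nat_lit 624) (nat_lit 2639) (.f (nat_lit 559) (nat_lit 527) (nat_lit 6639) (.d (nat_lit 560) (nat_lit 464) (nat_lit 5583) (nat_lit 655) (nat_lit 6671)))))))))))) (.a s124598 (.a (.p (nat_lit 562) (.a (.f (nat_lit 563) (nat_lit 595) (nat_lit 4562) (.f (nat_lit 434) (nat_lit 531) (nat_lit 4530) (.d (nat_lit 435) (nat_lit 403) (nat_lit 6546) (nat_lit 467) (nat_lit 6578)))) (.a (.f (nat_lit 595) (nat_lit 563) (nat_lit 4562) (.f (nat_lit 594) (nat_lit 627) (nat_lit 4594) (.d (nat_lit 467) (nat_lit 435) (nat_lit 6578) (nat_lit 499) (nat_lit 6610)))) (.a (.f (nat_lit 467) (nat_lit 435) (nat_lit 6578) (.f (nat_lit 594) (nat_lit 499) (nat_lit 6610) (.f (nat_lit 625) (nat_lit 593) (nat_lit 5617) (.f (nat_lit 626) (nat_lit 657) (nat_lit 5649) (.d (nat_lit 627) (nat_lit 595) (nat_lit 4594) (nat_lit 659) (nat_lit 4626)))))) (.a (.f (nat_lit 595) (nat_lit 563) (nat_lit 4562) (.f (nat_lit 594) (nat_lit 627) (nat_lit 4594) (.f (nat_lit 625) (nat_lit 593) (nat_lit 5617) (.f (nat_lit 626) (nat_lit 657) (nat_lit 5649) (.f (nat_lit 623) (nat_lit 624) (nat_lit 2639) (.f (nat_lit 559) (nat_lit 527) (nat_lit 6639) (.d (nat_lit 560) (nat_lit 464) (nat_lit 5583) (nat_lit 655) (nat_lit 6671)))))))) (.f (nat_lit 467) (nat_lit 435) (nat_lit 6578) (.f (nat_lit 594) (nat_lit 499) (nat_lit 6610) (.f (nat_lit 625) (nat_lit 593) (nat_lit 5617) (.f (nat_lit 626) (nat_lit 657) (nat_lit 5649) (.f (nat_lit 659) (nat_lit 627) (nat_lit 4626) (.f (nat_lit 658) (nat_lit 691) (nat_lit 4658) (.f (nat_lit 623) (nat_lit 624) (nat_lit 623) (.f (nat_lit 559) (nat_lit 527) (nat_lit 6639) (.d (nat_lit 560) (nat_lit 464) (nat_lit 5583) (nat_lit 655) (nat_lit 6671))))))))))))))) (.a (.p (nat_lit 562) (.a (.f (nat_lit 563) (nat_lit 595) (nat_lit 4562) (.f (nat_lit 434) (nat_lit 531) (nat_lit 4530) (.d (nat_lit 433) (nat_lit 401) (nat_lit 7569) (nat_lit 465) (nat_lit 7601)))) (.a (.f (nat_lit 595) (nat_lit 563) (nat_lit 4562) (.f (nat_lit 594) (nat_lit 627) (nat_lit 4594) (.f (nat_lit 625) (nat_lit 593) (nat_lit 5617) (.f (nat_lit 626) (nat_lit 657) (nat_lit 5649) (.f (nat_lit 623) (nat_lit 624) (nat_lit 2639) (.f (nat_lit 559) (nat_lit 527) (nat_lit 6639) (.d (nat_lit 560) (nat_lit 464) (nat_lit 5583) (nat_lit 655) (nat_lit 6671)))))))) (.f (nat_lit 433) (nat_lit 465) (nat_lit 7601) (.f (nat_lit 401) (nat_lit 434) (nat_lit 7569) (.f (nat_lit 464) (nat_lit 432) (nat_lit 6544) (.d (nat_lit 559) (nat_lit 527) (nat_lit 6607) (nat_lit 560) (nat_lit 5583)))))))) (.a (.p (nat_lit 464) (.a (.f (nat_lit 527) (nat_lit 559) (nat_lit 6607) (.f (nat_lit 432) (nat_lit 400) (nat_lit 5519) (.f (nat_lit 433) (nat_lit 401) (nat_lit 6544) (.f (nat_lit 431) (nat_lit 399) (nat_lit 7567) (.f (nat_lit 434) (nat_lit 467) (nat_lit 431) (.d (nat_lit 403) (nat_lit 402) (nat_lit 2447) (nat_lit 435) (nat_lit 6546))))))) (.a (.f (nat_lit 465) (nat_lit 467) (nat_lit 1487) (.d (nat_lit 560) (nat_lit 433) (nat_lit 6576) (nat_lit 559) (nat_lit 5583))) (.a (.f (nat_lit 465) (nat_lit 467) (nat_lit 1487) (.f (nat_lit 433) (nat_lit 560) (nat_lit 6576) (.d (nat_lit 401) (nat_lit 369) (nat_lit 4465) (nat_lit 432) (nat_lit 6544)))) (.d (nat_lit 559) (nat_lit 527) (nat_lit 6607) (nat_lit 560) (nat_lit 5583)))))) (.p (nat_lit 562) (.a (.f (nat_lit 467) (nat_lit 435) (nat_lit 6578) (.d (nat_lit 465) (nat_lit 433) (nat_lit 7601) (nat_lit 464) (nat_lit 1487))) (.a (.f (nat_lit 595) (nat_lit 563) (nat_lit 4562) (.f (nat_lit 594) (nat_lit 627) (nat_lit 4594) (.d (nat_lit 467) (nat_lit 435) (nat_lit 6578) (nat_lit 499) (nat_lit 6610)))) (.f (nat_lit 595) (nat_lit 563) (nat_lit 4562) (.f (nat_lit 594) (nat_lit 627) (nat_lit 4594) (.f (nat_lit 625) (nat_lit 593) (nat_lit 5617) (.f (nat_lit 626) (nat_lit 657) (nat_lit 5649) (.f (nat_lit 623) (nat_lit 624) (nat_lit 2639) (.f (nat_lit 559) (nat_lit 527) (nat_lit 6639) (.d (nat_lit 560) (nat_lit 464) (nat_lit 5583) (nat_lit 655) (nat_lit 6671))))))))))))))))))) (.a (.p (nat_lit 466) (.a (.f (nat_lit 531) (nat_lit 529) (nat_lit 3567) (.f (nat_lit 434) (nat_lit 563) (nat_lit 4530) (.f (nat_lit 402) (nat_lit 499) (nat_lit 4498) (.d (nat_lit 403) (nat_lit 371) (nat_lit 6514) (nat_lit 435) (nat_lit 6546))))) (.a (.p (nat_lit 562) (.a (.f (nat_lit 467) (nat_lit 435) (nat_lit 6578) (.d (nat_lit 465) (nat_lit 433) (nat_lit 7601) (nat_lit 464) (nat_lit 1487))) (.a (.f (nat_lit 563) (nat_lit 595) (nat_lit 4562) (.f (nat_lit 434) (nat_lit 531) (nat_lit 4530) (.d (nat_lit 435) (nat_lit 403) (nat_lit 6546) (nat_lit 467) (nat_lit 6578)))) (.f (nat_lit 563) (nat_lit 595) (nat_lit 4562) (.f (nat_lit 434) (nat_lit 531) (nat_lit 4530) (.d (nat_lit 433) (nat_lit 401) (nat_lit 7569) (nat_lit 465) (nat_lit 7601))))))) (.a (.p (nat_lit 465) (.a (.f (nat_lit 433) (nat_lit 562) (nat_lit 7601) (.d (nat_lit 401) (nat_lit 369) (nat_lit 4465) (nat_lit 434) (nat_lit 7569))) (.a (.f (nat_lit 467) (nat_lit 464) (nat_lit 1487) (.f (nat_lit 435) (nat_lit 562) (nat_lit 6578) (.d (nat_lit 403) (nat_lit 371) (nat_lit 5490) (nat_lit 434) (nat_lit 6546)))) (.f (nat_lit 464) (nat_lit 467) (nat_lit 1487) (.d (nat_lit 560) (nat_lit 433) (nat_lit 6576) (nat_lit 559) (nat_lit 5583)))))) (.a (.f (nat_lit 531) (nat_lit 529) (nat_lit 3567) (.f (nat_lit 563) (nat_lit 434) (nat_lit 4530) (.d (nat_lit 595) (nat_lit 562) (nat_lit 4562) (nat_lit 627) (nat_lit 7666)))) (.p (nat_lit 562) (.a (.f (nat_lit 467) (nat_lit 435) (nat_lit 6578) (.d (nat_lit 465) (nat_lit 433) (nat_lit 7601) (nat_lit 464) (nat_lit 1487))) (.a (.f (nat_lit 595) (nat_lit 563) (nat_lit 4562) (.f (nat_lit 594) (nat_lit 627) (nat_lit 4594) (.d (nat_lit 467) (nat_lit 435) (nat_lit 6578) (nat_lit 499) (nat_lit 6610)))) (.f (nat_lit 531) (nat_lit 529) (nat_lit 3567) (.f (nat_lit 595) (nat_lit 563) (nat_lit 4562) (.f (nat_lit 594) (nat_lit 627) (nat_lit 4594) (.f (nat_lit 625) (nat_lit 593) (nat_lit 5617) (.d (nat_lit 626) (nat_lit 499) (nat_lit 6642) (nat_lit 657) (nat_lit 5649)))))))))))))) (.a (.p (nat_lit 562) (.a s124492 (.a s124523 (.a (.f (nat_lit 529) (nat_lit 531) (nat_lit 3567) (.d (nat_lit 527) (nat_lit 499) (nat_lit 2543) (nat_lit 563) (nat_lit 527))) (.a (.p (nat_lit 466) (.a (.f (nat_lit 467) (nat_lit 435) (nat_lit 6578) (.d (nat_lit 465) (nat_lit 433) (nat_lit 7601) (nat_lit 464) (nat_lit 1487))) (.f (nat_lit 531) (nat_lit 529) (nat_lit 3567) (.d (nat_lit 563) (nat_lit 434) (nat_lit 4530) (nat_lit 595) (nat_lit 4562))))) (.a s124608 (.p (nat_lit 594) (.a (.f (nat_lit 467) (nat_lit 499) (nat_lit 6610) (.f (nat_lit 466) (nat_lit 435) (nat_lit 6578) (.d (nat_lit 465) (nat_lit 433) (nat_lit 7601) (nat_lit 464) (nat_lit 1487)))) (.f (nat_lit 627) (nat_lit 595) (nat_lit 4594) (.f (nat_lit 626) (nat_lit 659) (nat_lit 4626) (.d (nat_lit 625) (nat_lit 593) (nat_lit 5617) (nat_lit 657) (nat_lit 5649)))))))))))) (.a s124607 (.p (nat_lit 562) (.a s124608 (.a (.p (nat_lit 594) (.a (.f (nat_lit 467) (nat_lit 499) (nat_lit 6610) (.f (nat_lit 466) (nat_lit 435) (nat_lit 6578) (.d (nat_lit 595) (nat_lit 563) (nat_lit 4562) (nat_lit 627) (nat_lit 4594)))) (.a (.f (nat_lit 595) (nat_lit 627) (nat_lit 4594) (.f (nat_lit 466) (nat_lit 563) (nat_lit 4562) (.f (nat_lit 433) (nat_lit 465) (nat_lit 7601) (.f (nat_lit 434) (nat_lit 401) (nat_lit 7569) (.d (nat_lit 435) (nat_lit 403) (nat_lit 6546) (nat_lit 467) (nat_lit 6578)))))) (.a (.f (nat_lit 627) (nat_lit 595) (nat_lit 4594) (.f (nat_lit 626) (nat_lit 659) (nat_lit 4626) (.d (nat_lit 625) (nat_lit 593) (nat_lit 5617) (nat_lit 657) (nat_lit 5649)))) (.a (.f (nat_lit 499) (nat_lit 467) (nat_lit 6610) (.f (nat_lit 527) (nat_lit 529) (nat_lit 2543) (.f (nat_lit 625) (nat_lit 593) (nat_lit 5617) (.f (nat_lit 626) (nat_lit 657) (nat_lit 5649) (.f (nat_lit 623) (nat_lit 559) (nat_lit 6639) (.f (nat_lit 624) (nat_lit 590) (nat_lit 3662) (.d (nat_lit 659) (nat_lit 627) (nat_lit 4626) (nat_lit 658) (nat_lit 623)))))))) (.f (nat_lit 499) (nat_lit 467) (nat_lit 6610) (.f (nat_lit 527) (nat_lit 529) (nat_lit 2543) (.f (nat_lit 625) (nat_lit 593) (nat_lit 5617) (.f (nat_lit 626) (nat_lit 657) (nat_lit 5649) (.f (nat_lit 623) (nat_lit 559) (nat_lit 6639) (.d (nat_lit 624) (nat_lit 590) (nat_lit 3662) (nat_lit 595) (nat_lit 2639)))))))))))) (.a (.p (nat_lit 527) (.a (.d (nat_lit 559) (nat_lit 464) (nat_lit 6607) (nat_lit 623) (nat_lit 6639)) (.d (nat_lit 529) (nat_lit 499) (nat_lit 2543) (nat_lit 563) (nat_lit 527)))) (.a (.p (nat_lit 527) (.a (.d (nat_lit 559) (nat_lit 464) (nat_lit 6607) (nat_lit 623) (nat_lit 6639)) (.f (nat_lit 563) (nat_lit 529) (nat_lit 527) (.f (nat_lit 466) (nat_lit 595) (nat_lit 4562) (.f (nat_lit 433) (nat_lit 465) (nat_lit 7601) (.f (nat_lit 434) (nat_lit 401) (nat_lit 7569) (.d (nat_lit 435) (nat_lit 403) (nat_lit 6546) (nat_lit 467) (nat_lit 6578)))))))) (.p (nat_lit 594) (.a (.f (nat_lit 467) (nat_lit 499) (nat_lit 6610) (.f (nat_lit 466) (nat_lit 435) (nat_lit 6578) (.d (nat_lit 465) (nat_lit 433) (nat_lit 7601) (nat_lit 464) (nat_lit 1487)))) (.f (nat_lit 627) (nat_lit 595) (nat_lit 4594) (.f (nat_lit 626) (nat_lit 659) (nat_lit 4626) (.d (nat_lit 625) (nat_lit 593) (nat_lit 5617) (nat_lit 657) (nat_lit 5649))))))))))))))))) (.a (.p (nat_lit 497) (.a (.f (nat_lit 531) (nat_lit 530) (nat_lit 495) (.f (nat_lit 499) (nat_lit 532) (nat_lit 496) (.d (nat_lit 467) (nat_lit 466) (nat_lit 2511) (nat_lit 468) (nat_lit 2512)))) (.a (.d (nat_lit 527) (nat_lit 499) (nat_lit 1519) (nat_lit 526) (nat_lit 1518)) (.f (nat_lit 527) (nat_lit 526) (nat_lit 1518) (.f (nat_lit 559) (nat_lit 623) (nat_lit 6639) (.f (nat_lit 530) (nat_lit 531) (nat_lit 495) (.f (nat_lit 529) (nat_lit 558) (nat_lit 1550) (.f (nat_lit 562) (nat_lit 563) (nat_lit 527) (.d (nat_lit 594) (nat_lit 465) (nat_lit 7633) (nat_lit 626) (nat_lit 7665)))))))))) (.p (nat_lit 527) (.a (.d (nat_lit 559) (nat_lit 464) (nat_lit 6607) (nat_lit 623) (nat_lit 6639)) (.f (nat_lit 526) (nat_lit 497) (nat_lit 1518) (.f (nat_lit 525) (nat_lit 524) (nat_lit 2540) (.f (nat_lit 557) (nat_lit 556) (nat_lit 1548) (.f (nat_lit 493) (nat_lit 492) (nat_lit 3564) (.f (nat_lit 558) (nat_lit 529) (nat_lit 1549) (.d (nat_lit 461) (nat_lit 429) (nat_lit 4525) (nat_lit 590) (nat_lit 4557)))))))))))))) (.p (nat_lit 497) (.a (.p (nat_lit 498) (.a (.f (nat_lit 531) (nat_lit 530) (nat_lit 495) (.f (nat_lit 499) (nat_lit 532) (nat_lit 496) (.d (nat_lit 467) (nat_lit 466) (nat_lit 2511) (nat_lit 468) (nat_lit 2512)))) (.a (.d (nat_lit 527) (nat_lit 499) (nat_lit 1519) (nat_lit 526) (nat_lit 1518)) (.f (nat_lit 527) (nat_lit 526) (nat_lit 1518) (.f (nat_lit 559) (nat_lit 464) (nat_lit 6607) (.f (nat_lit 530) (nat_lit 531) (nat_lit 495) (.f (nat_lit 592) (nat_lit 624) (nat_lit 4591) (.f (nat_lit 558) (nat_lit 529) (nat_lit 1550) (.f (nat_lit 557) (nat_lit 556) (nat_lit 556) (.d (nat_lit 560) (nat_lit 465) (nat_lit 6608) (nat_lit 593) (nat_lit 557))))))))))) (.a (.p (nat_lit 498) (.a (.f (nat_lit 531) (nat_lit 530) (nat_lit 495) (.f (nat_lit 499) (nat_lit 532) (nat_lit 496) (.d (nat_lit 467) (nat_lit 466) (nat_lit 2511) (nat_lit 468) (nat_lit 2512)))) (.a (.d (nat_lit 527) (nat_lit 499) (nat_lit 1519) (nat_lit 526) (nat_lit 1518)) (.f (nat_lit 527) (nat_lit 526) (nat_lit 1518) (.f (nat_lit 559) (nat_lit 464) (nat_lit 6607) (.f (nat_lit 592) (nat_lit 624) (nat_lit 4591) (.f (nat_lit 560) (nat_lit 465) (nat_lit 6608) (.f (nat_lit 593) (nat_lit 625) (nat_lit 4592) (.d (nat_lit 594) (nat_lit 558) (nat_lit 3630) (nat_lit 595) (nat_lit 3631)))))))))) (.a (.p (nat_lit 498) (.a (.f (nat_lit 531) (nat_lit 530) (nat_lit 495) (.f (nat_lit 499) (nat_lit 532) (nat_lit 496) (.d (nat_lit 467) (nat_lit 466) (nat_lit 2511) (nat_lit 468) (nat_lit 2512)))) (.a (.f (nat_lit 467) (nat_lit 466) (nat_lit 2511) (.f (nat_lit 499) (nat_lit 468) (nat_lit 2512) (.f (nat_lit 500) (nat_lit 529) (nat_lit 1520) (.d (nat_lit 532) (nat_lit 531) (nat_lit 496) (nat_lit 533) (nat_lit 497))))) (.a (.p (nat_lit 433) (.a (.f (nat_lit 465) (nat_lit 401) (nat_lit 5520) (.d (nat_lit 560) (nat_lit 464) (nat_lit 6576) (nat_lit 592) (nat_lit 6608))) (.a (.f (nat_lit 465) (nat_lit 401) (nat_lit 5520) (.f (nat_lit 530) (nat_lit 531) (nat_lit 495) (.d (nat_lit 562) (nat_lit 529) (nat_lit 4529) (nat_lit 594) (nat_lit 7633)))) (.a (.f (nat_lit 530) (nat_lit 531) (nat_lit 495) (.f (nat_lit 466) (nat_lit 467) (nat_lit 2511) (.f (nat_lit 434) (nat_lit 401) (nat_lit 7569) (.f (nat_lit 403) (nat_lit 435) (nat_lit 6546) (.d (nat_lit 402) (nat_lit 371) (nat_lit 6514) (nat_lit 529) (nat_lit 5521)))))) (.f (nat_lit 530) (nat_lit 531) (nat_lit 495) (.f (nat_lit 466) (nat_lit 467) (nat_lit 2511) (.f (nat_lit 465) (nat_lit 562) (nat_lit 7601) (.d (nat_lit 560) (nat_lit 464) (nat_lit 6576) (nat_lit 592) (nat_lit 6608))))))))) (.a (.p (nat_lit 499) (.a (.d (nat_lit 467) (nat_lit 466) (nat_lit 2511) (nat_lit 468) (nat_lit 2512)) (.a (.f (nat_lit 500) (nat_lit 529) (nat_lit 1520) (.f (nat_lit 465) (nat_lit 464) (nat_lit 3536) (.f (nat_lit 501) (nat_lit 466) (nat_lit 3537) (.d (nat_lit 469) (nat_lit 468) (nat_lit 2513) (nat_lit 470) (nat_lit 2514))))) (.a (.f (nat_lit 500) (nat_lit 529) (nat_lit 1520) (.d (nat_lit 468) (nat_lit 467) (nat_lit 2512) (nat_lit 469) (nat_lit 2513))) (.f (nat_lit 500) (nat_lit 529) (nat_lit 1520) (.f (nat_lit 465) (nat_lit 464) (nat_lit 3536) (.d (nat_lit 466) (nat_lit 467) (nat_lit 2511) (nat_lit 501) (nat_lit 3537)))))))) (.a (.f (nat_lit 531) (nat_lit 530) (nat_lit 495) (.f (nat_lit 499) (nat_lit 532) (nat_lit 496) (.f (nat_lit 500) (nat_lit 529) (nat_lit 1520) (.f (nat_lit 465) (nat_lit 464) (nat_lit 3536) (.f (nat_lit 501) (nat_lit 466) (nat_lit 3537) (.d (nat_lit 469) (nat_lit 468) (nat_lit 2513) (nat_lit 470) (nat_lit 2514))))))) (.f (nat_lit 531) (nat_lit 530) (nat_lit 495) (.f (nat_lit 499) (nat_lit 532) (nat_lit 496) (.f (nat_lit 500) (nat_lit 529) (nat_lit 1520) (.d (nat_lit 468) (nat_lit 467) (nat_lit 2512) (nat_lit 469) (nat_lit 2513))))))))))) (.a (.p (nat_lit 498) (.a (.f (nat_lit 531) (nat_lit 530) (nat_lit 495) (.f (nat_lit 499) (nat_lit 532) (nat_lit 496) (.d (nat_lit 467) (nat_lit 466) (nat_lit 2511) (nat_lit 468) (nat_lit 2512)))) (.a (.d (nat_lit 527) (nat_lit 499) (nat_lit 1519) (nat_lit 526) (nat_lit 1518)) (.f (nat_lit 527) (nat_lit 526) (nat_lit 1518) (.f (nat_lit 559) (nat_lit 464) (nat_lit 6607) (.f (nat_lit 530) (nat_lit 531) (nat_lit 495) (.f (nat_lit 529) (nat_lit 558) (nat_lit 1550) (.f (nat_lit 562) (nat_lit 563) (nat_lit 527) (.d (nat_lit 594) (nat_lit 465) (nat_lit 7633) (nat_lit 626) (nat_lit 7665)))))))))) (.a (.p (nat_lit 592) (.a (.f (nat_lit 560) (nat_lit 465) (nat_lit 6608) (.d (nat_lit 624) (nat_lit 527) (nat_lit 7663) (nat_lit 529) (nat_lit 6640))) (.a (.f (nat_lit 560) (nat_lit 465) (nat_lit 6608) (.f (nat_lit 527) (nat_lit 624) (nat_lit 7663) (.d (nat_lit 526) (nat_lit 498) (nat_lit 1518) (nat_lit 525) (nat_lit 2541)))) (.a (.f (nat_lit 560) (nat_lit 465) (nat_lit 6608) (.f (nat_lit 624) (nat_lit 529) (nat_lit 6640) (.d (nat_lit 625) (nat_lit 593) (nat_lit 4592) (nat_lit 657) (nat_lit 4624)))) (.a (.p (nat_lit 498) (.a (.f (nat_lit 531) (nat_lit 530) (nat_lit 495) (.f (nat_lit 499) (nat_lit 532) (nat_lit 496) (.d (nat_lit 467) (nat_lit 466) (nat_lit 2511) (nat_lit 468) (nat_lit 2512)))) (.a (.f (nat_lit 467) (nat_lit 466) (nat_lit 2511) (.f (nat_lit 499) (nat_lit 468) (nat_lit 2512) (.f (nat_lit 500) (nat_lit 529) (nat_lit 1520) (.d (nat_lit 532) (nat_lit 531) (nat_lit 496) (nat_lit 533) (nat_lit 497))))) (.a (.f (nat_lit 527) (nat_lit 526) (nat_lit 1518) (.f (nat_lit 530) (nat_lit 531) (nat_lit 495) (.f (nat_lit 559) (nat_lit 624) (nat_lit 4591) (.f (nat_lit 558) (nat_lit 529) (nat_lit 1550) (.f (nat_lit 557) (nat_lit 556) (nat_lit 556) (.d (nat_lit 593) (nat_lit 590) (nat_lit 3629) (nat_lit 594) (nat_lit 3630))))))) (.d (nat_lit 527) (nat_lit 499) (nat_lit 1519) (nat_lit 526) (nat_lit 1518)))))) (.p (nat_lit 498) (.a (.f (nat_lit 531) (nat_lit 530) (nat_lit 495) (.f (nat_lit 499) (nat_lit 532) (nat_lit 496) (.d (nat_lit 467) (nat_lit 466) (nat_lit 2511) (nat_lit 468) (nat_lit 2512)))) (.a (.f (nat_lit 467) (nat_lit 466) (nat_lit 2511) (.f (nat_lit 499) (nat_lit 468) (nat_lit 2512) (.f (nat_lit 500) (nat_lit 529) (nat_lit 1520) (.d (nat_lit 532) (nat_lit 531) (nat_lit 496) (nat_lit 533) (nat_lit 497))))) (.a (.f (nat_lit 530) (nat_lit 531) (nat_lit 495) (.f (nat_lit 465) (nat_lit 560) (nat_lit 6608) (.f (nat_lit 433) (nat_lit 401) (nat_lit 5520) (.d (nat_lit 562) (nat_lit 529) (nat_lit 4529) (nat_lit 594) (nat_lit 7633))))) (.d (nat_lit 527) (nat_lit 499) (nat_lit 1519) (nat_lit 526) (nat_lit 1518))))))))))) (.a (.p (nat_lit 498) (.a (.d (nat_lit 527) (nat_lit 499) (nat_lit 1519) (nat_lit 526) (nat_lit 1518)) (.a (.f (nat_lit 467) (nat_lit 466) (nat_lit 2511) (.f (nat_lit 499) (nat_lit 468) (nat_lit 2512) (.f (nat_lit 500) (nat_lit 529) (nat_lit 1520) (.d (nat_lit 532) (nat_lit 531) (nat_lit 496) (nat_lit 533) (nat_lit 497))))) (.f (nat_lit 527) (nat_lit 526) (nat_lit 1518) (.f (nat_lit 559) (nat_lit 464) (nat_lit 6607) (.f (nat_lit 592) (nat_lit 624) (nat_lit 4591) (.f (nat_lit 560) (nat_lit 465) (nat_lit 6608) (.f (nat_lit 593) (nat_lit 625) (nat_lit 4592) (.d (nat_lit 594) (nat_lit 558) (nat_lit 3630) (nat_lit 595) (nat_lit 3631)))))))))) (.a (.p (nat_lit 560) (.a (.f (nat_lit 464) (nat_lit 559) (nat_lit 5583) (.f (nat_lit 433) (nat_lit 465) (nat_lit 6576) (.f (nat_lit 432) (nat_lit 401) (nat_lit 6544) (.f (nat_lit 400) (nat_lit 529) (nat_lit 4496) (.d (nat_lit 399) (nat_lit 367) (nat_lit 7535) (nat_lit 431) (nat_lit 7567)))))) (.a (.f (nat_lit 464) (nat_lit 559) (nat_lit 5583) (.d (nat_lit 465) (nat_lit 433) (nat_lit 6576) (nat_lit 592) (nat_lit 6608))) (.a (.f (nat_lit 465) (nat_lit 592) (nat_lit 6608) (.d (nat_lit 433) (nat_lit 401) (nat_lit 5520) (nat_lit 464) (nat_lit 6576))) (.a (.f (nat_lit 592) (nat_lit 465) (nat_lit 6608) (.d (nat_lit 624) (nat_lit 527) (nat_lit 7663) (nat_lit 529) (nat_lit 6640))) (.p (nat_lit 592) (.a (.d (nat_lit 624) (nat_lit 527) (nat_lit 7663) (nat_lit 529) (nat_lit 6640)) (.a (.f (nat_lit 559) (nat_lit 464) (nat_lit 5583) (.f (nat_lit 624) (nat_lit 527) (nat_lit 4591) (.d (nat_lit 625) (nat_lit 593) (nat_lit 4592) (nat_lit 657) (nat_lit 4624)))) (.f (nat_lit 593) (nat_lit 625) (nat_lit 4592) (.f (nat_lit 559) (nat_lit 464) (nat_lit 5583) (.d (nat_lit 594) (nat_lit 558) (nat_lit 3630) (nat_lit 595) (nat_lit 3631)))))))))))) (.p (nat_lit 498) (.a (.f (nat_lit 531) (nat_lit 530) (nat_lit 495) (.f (nat_lit 499) (nat_lit 532) (nat_lit 496) (.d (nat_lit 467) (nat_lit 466) (nat_lit 2511) (nat_lit 468) (nat_lit 2512)))) (.a (.d (nat_lit 527) (nat_lit 499) (nat_lit 1519) (nat_lit 526) (nat_lit 1518)) (.f (nat_lit 527) (nat_lit 526) (nat_lit 1518) (.f (nat_lit 559) (nat_lit 464) (nat_lit 6607) (.f (nat_lit 530) (nat_lit 531) (nat_lit 495) (.f (nat_lit 592) (nat_lit 624) (nat_lit 4591) (.f (nat_lit 558) (nat_lit 529) (nat_lit 1550) (.f (nat_lit 557) (nat_lit 556) (nat_lit 556) (.d (nat_lit 593) (nat_lit 560) (nat_lit 557) (nat_lit 594) (nat_lit 3630))))))))))))))))))))))))))) (.a s125769 (.a (.p (nat_lit 494) (.a (.f (nat_lit 493) (nat_lit 529) (nat_lit 493) (.f (nat_lit 525) (nat_lit 524) (nat_lit 1516) (.f (nat_lit 497) (nat_lit 526) (nat_lit 1517) (.d (nat_lit 461) (nat_lit 460) (nat_lit 3532) (nat_lit 462) (nat_lit 3533))))) (.a (.p (nat_lit 525) (.a (.f (nat_lit 493) (nat_lit 524) (nat_lit 1516) (.f (nat_lit 461) (nat_lit 460) (nat_lit 3532) (.d (nat_lit 497) (nat_lit 462) (nat_lit 3533) (nat_lit 526) (nat_lit 1517)))) (.a (.f (nat_lit 493) (nat_lit 524) (nat_lit 1516) (.f (nat_lit 492) (nat_lit 527) (nat_lit 492) (.d (nat_lit 460) (nat_lit 459) (nat_lit 3531) (nat_lit 461) (nat_lit 3532)))) (.f (nat_lit 497) (nat_lit 526) (nat_lit 1517) (.f (nat_lit 465) (nat_lit 466) (nat_lit 2510) (.f (nat_lit 433) (nat_lit 401) (nat_lit 5520) (.d (nat_lit 560) (nat_lit 464) (nat_lit 6576) (nat_lit 592) (nat_lit 6608)))))))) (.a (.f (nat_lit 493) (nat_lit 529) (nat_lit 493) (.f (nat_lit 492) (nat_lit 527) (nat_lit 492) (.d (nat_lit 524) (nat_lit 523) (nat_lit 1515) (nat_lit 525) (nat_lit 1516)))) (.a (.f (nat_lit 493) (nat_lit 529) (nat_lit 493) (.f (nat_lit 527) (nat_lit 492) (nat_lit 492) (.f (nat_lit 464) (nat_lit 465) (nat_lit 2509) (.d (nat_lit 432) (nat_lit 400) (nat_lit 5519) (nat_lit 559) (nat_lit 5551))))) (.p (nat_lit 526) (.a (.f (nat_lit 497) (nat_lit 525) (nat_lit 1517) (.f (nat_lit 465) (nat_lit 466) (nat_lit 2510) (.f (nat_lit 433) (nat_lit 401) (nat_lit 5520) (.d (nat_lit 529) (nat_lit 530) (nat_lit 494) (nat_lit 560) (nat_lit 5552))))) (.a (.f (nat_lit 497) (nat_lit 525) (nat_lit 1517) (.f (nat_lit 465) (nat_lit 466) (nat_lit 2510) (.f (nat_lit 433) (nat_lit 401) (nat_lit 5520) (.d (nat_lit 560) (nat_lit 464) (nat_lit 6576) (nat_lit 592) (nat_lit 6608))))) (.a (.f (nat_lit 525) (nat_lit 497) (nat_lit 1517) (.d (nat_lit 524) (nat_lit 523) (nat_lit 2539) (nat_lit 527) (nat_lit 2540))) (.a s123285 (.p (nat_lit 558) (.a (.p (nat_lit 590) (.a (.f (nat_lit 621) (nat_lit 589) (nat_lit 5613) (.f (nat_lit 622) (nat_lit 653) (nat_lit 5645) (.d (nat_lit 623) (nat_lit 591) (nat_lit 4590) (nat_lit 655) (nat_lit 4622)))) (.a (.f (nat_lit 527) (nat_lit 622) (nat_lit 6638) (.d (nat_lit 529) (nat_lit 530) (nat_lit 3566) (nat_lit 557) (nat_lit 1549))) (.f (nat_lit 589) (nat_lit 621) (nat_lit 5613) (.f (nat_lit 557) (nat_lit 462) (nat_lit 5581) (.f (nat_lit 591) (nat_lit 623) (nat_lit 4590) (.d (nat_lit 592) (nat_lit 556) (nat_lit 3628) (nat_lit 593) (nat_lit 3629)))))))) (.a s123270 (.a (.p (nat_lit 591) (.a (.f (nat_lit 590) (nat_lit 623) (nat_lit 4590) (.f (nat_lit 589) (nat_lit 621) (nat_lit 5613) (.d (nat_lit 462) (nat_lit 557) (nat_lit 5581) (nat_lit 559) (nat_lit 4558)))) (.a (.f (nat_lit 590) (nat_lit 623) (nat_lit 4590) (.f (nat_lit 589) (nat_lit 621) (nat_lit 5613) (.f (nat_lit 557) (nat_lit 462) (nat_lit 5581) (.d (nat_lit 592) (nat_lit 556) (nat_lit 3628) (nat_lit 593) (nat_lit 3629))))) (.a (.f (nat_lit 623) (nat_lit 590) (nat_lit 4590) (.f (nat_lit 559) (nat_lit 655) (nat_lit 7694) (.d (nat_lit 560) (nat_lit 464) (nat_lit 5583) (nat_lit 592) (nat_lit 5615)))) (.a (.f (nat_lit 559) (nat_lit 462) (nat_lit 4558) (.f (nat_lit 560) (nat_lit 464) (nat_lit 5583) (.d (nat_lit 623) (nat_lit 592) (nat_lit 5615) (nat_lit 655) (nat_lit 7694)))) (.f (nat_lit 462) (nat_lit 559) (nat_lit 4558) (.d (nat_lit 461) (nat_lit 429) (nat_lit 7597) (nat_lit 497) (nat_lit 3533)))))))) (.a (.p (nat_lit 590) (.a (.f (nat_lit 589) (nat_lit 621) (nat_lit 5613) (.f (nat_lit 462) (nat_lit 557) (nat_lit 5581) (.d (nat_lit 461) (nat_lit 429) (nat_lit 7597) (nat_lit 497) (nat_lit 3533)))) (.a (.f (nat_lit 527) (nat_lit 622) (nat_lit 6638) (.d (nat_lit 529) (nat_lit 530) (nat_lit 3566) (nat_lit 557) (nat_lit 1549))) (.f (nat_lit 622) (nat_lit 527) (nat_lit 6638) (.d (nat_lit 621) (nat_lit 589) (nat_lit 5613) (nat_lit 653) (nat_lit 5645)))))) (.a (.p (nat_lit 557) (.a (.f (nat_lit 462) (nat_lit 589) (nat_lit 5581) (.d (nat_lit 461) (nat_lit 429) (nat_lit 7597) (nat_lit 497) (nat_lit 3533))) (.a (.f (nat_lit 462) (nat_lit 589) (nat_lit 5581) (.f (nat_lit 559) (nat_lit 591) (nat_lit 4558) (.d (nat_lit 527) (nat_lit 430) (nat_lit 4526) (nat_lit 556) (nat_lit 2572)))) (.f (nat_lit 527) (nat_lit 529) (nat_lit 1549) (.d (nat_lit 556) (nat_lit 555) (nat_lit 2571) (nat_lit 559) (nat_lit 2572)))))) (.a s123271 (.p (nat_lit 527) (.a (.d (nat_lit 529) (nat_lit 530) (nat_lit 3566) (nat_lit 557) (nat_lit 1549)) (.f (nat_lit 590) (nat_lit 622) (nat_lit 6638) (.f (nat_lit 591) (nat_lit 623) (nat_lit 4590) (.f (nat_lit 559) (nat_lit 464) (nat_lit 6607) (.f (nat_lit 589) (nat_lit 621) (nat_lit 5613) (.d (nat_lit 588) (nat_lit 560) (nat_lit 2604) (nat_lit 587) (nat_lit 2603))))))))))))))))))))))))) (.a (.p (nat_lit 560) (.a (.p (nat_lit 592) (.a (.f (nat_lit 497) (nat_lit 465) (nat_lit 6608) (.f (nat_lit 529) (nat_lit 624) (nat_lit 6640) (.d (nat_lit 494) (nat_lit 493) (nat_lit 493) (nat_lit 530) (nat_lit 494)))) (.f (nat_lit 591) (nat_lit 623) (nat_lit 5615) (.f (nat_lit 559) (nat_lit 464) (nat_lit 5583) (.f (nat_lit 593) (nat_lit 625) (nat_lit 4592) (.d (nat_lit 594) (nat_lit 558) (nat_lit 3630) (nat_lit 595) (nat_lit 3631))))))) (.a (.p (nat_lit 592) (.a (.f (nat_lit 624) (nat_lit 527) (nat_lit 7663) (.d (nat_lit 623) (nat_lit 591) (nat_lit 5615) (nat_lit 655) (nat_lit 5647))) (.a (.f (nat_lit 591) (nat_lit 623) (nat_lit 5615) (.f (nat_lit 559) (nat_lit 464) (nat_lit 5583) (.f (nat_lit 593) (nat_lit 625) (nat_lit 4592) (.d (nat_lit 594) (nat_lit 558) (nat_lit 3630) (nat_lit 595) (nat_lit 3631))))) (.f (nat_lit 624) (nat_lit 527) (nat_lit 7663) (.d (nat_lit 625) (nat_lit 593) (nat_lit 4592) (nat_lit 657) (nat_lit 4624)))))) (.a (.p (nat_lit 592) (.a (.f (nat_lit 497) (nat_lit 465) (nat_lit 6608) (.d (nat_lit 624) (nat_lit 527) (nat_lit 7663) (nat_lit 529) (nat_lit 6640))) (.a (.f (nat_lit 624) (nat_lit 527) (nat_lit 7663) (.d (nat_lit 623) (nat_lit 591) (nat_lit 5615) (nat_lit 655) (nat_lit 5647))) (.a (.f (nat_lit 497) (nat_lit 465) (nat_lit 6608) (.f (nat_lit 529) (nat_lit 624) (nat_lit 6640) (.d (nat_lit 494) (nat_lit 493) (nat_lit 493) (nat_lit 530) (nat_lit 494)))) s125806)))) (.a (.p (nat_lit 592) (.a (.f (nat_lit 497) (nat_lit 465) (nat_lit 6608) (.d (nat_lit 624) (nat_lit 527) (nat_lit 7663) (nat_lit 529) (nat_lit 6640))) (.a (.f (nat_lit 624) (nat_lit 527) (nat_lit 7663) (.d (nat_lit 625) (nat_lit 593) (nat_lit 4592) (nat_lit 657) (nat_lit 4624))) (.a (.f (nat_lit 497) (nat_lit 465) (nat_lit 6608) (.f (nat_lit 529) (nat_lit 624) (nat_lit 6640) (.d (nat_lit 494) (nat_lit 493) (nat_lit 493) (nat_lit 530) (nat_lit 494)))) s125806)))) (.p (nat_lit 464) (.a (.f (nat_lit 433) (nat_lit 465) (nat_lit 6576) (.f (nat_lit 432) (nat_lit 401) (nat_lit 6544) (.f (nat_lit 400) (nat_lit 527) (nat_lit 5519) (.d (nat_lit 399) (nat_lit 367) (nat_lit 7535) (nat_lit 431) (nat_lit 7567))))) (.a (.f (nat_lit 465) (nat_lit 433) (nat_lit 6576) (.f (nat_lit 494) (nat_lit 493) (nat_lit 2509) (.d (nat_lit 466) (nat_lit 467) (nat_lit 1487) (nat_lit 497) (nat_lit 2510)))) (.a (.f (nat_lit 559) (nat_lit 591) (nat_lit 5583) (.f (nat_lit 432) (nat_lit 527) (nat_lit 5551) (.f (nat_lit 399) (nat_lit 431) (nat_lit 7567) (.f (nat_lit 400) (nat_lit 367) (nat_lit 7535) (.f (nat_lit 369) (nat_lit 401) (nat_lit 6512) (.f (nat_lit 368) (nat_lit 337) (nat_lit 6480) (.d (nat_lit 497) (nat_lit 465) (nat_lit 4464) (nat_lit 529) (nat_lit 4496)))))))) (.f (nat_lit 559) (nat_lit 591) (nat_lit 5583) (.f (nat_lit 432) (nat_lit 527) (nat_lit 5551) (.f (nat_lit 399) (nat_lit 431) (nat_lit 7567) (.f (nat_lit 400) (nat_lit 367) (nat_lit 7535) (.d (nat_lit 401) (nat_lit 369) (nat_lit 6512) (nat_lit 433) (nat_lit 6544))))))))))))))) (.a (.p (nat_lit 497) (.a (.p (nat_lit 498) (.a (.f (nat_lit 530) (nat_lit 531) (nat_lit 495) (.f (nat_lit 494) (nat_lit 529) (nat_lit 494) (.d (nat_lit 466) (nat_lit 465) (nat_lit 2510) (nat_lit 467) (nat_lit 2511)))) (.a (.f (nat_lit 531) (nat_lit 530) (nat_lit 495) (.f (nat_lit 499) (nat_lit 532) (nat_lit 496) (.d (nat_lit 467) (nat_lit 466) (nat_lit 2511) (nat_lit 468) (nat_lit 2512)))) (.a (.f (nat_lit 466) (nat_lit 467) (nat_lit 2511) (.f (nat_lit 494) (nat_lit 465) (nat_lit 2510) (.f (nat_lit 493) (nat_lit 529) (nat_lit 493) (.d (nat_lit 525) (nat_lit 524) (nat_lit 1516) (nat_lit 526) (nat_lit 1517))))) (.f (nat_lit 530) (nat_lit 531) (nat_lit 495) (.f (nat_lit 494) (nat_lit 529) (nat_lit 494) (.f (nat_lit 461) (nat_lit 462) (nat_lit 3533) (.f (nat_lit 493) (nat_lit 460) (nat_lit 3532) (.d (nat_lit 525) (nat_lit 524) (nat_lit 1516) (nat_lit 526) (nat_lit 1517)))))))))) (.a (.p (nat_lit 494) (.a (.f (nat_lit 465) (nat_lit 466) (nat_lit 2510) (.f (nat_lit 433) (nat_lit 401) (nat_lit 5520) (.d (nat_lit 560) (nat_lit 464) (nat_lit 6576) (nat_lit 592) (nat_lit 6608)))) (.f (nat_lit 525) (nat_lit 526) (nat_lit 1517) (.f (nat_lit 493) (nat_lit 524) (nat_lit 1516) (.d (nat_lit 461) (nat_lit 460) (nat_lit 3532) (nat_lit 462) (nat_lit 3533)))))) (.a s123841 (.a (.p (nat_lit 498) (.a (.f (nat_lit 530) (nat_lit 531) (nat_lit 495) (.f (nat_lit 494) (nat_lit 529) (nat_lit 494) (.f (nat_lit 461) (nat_lit 462) (nat_lit 3533) (.f (nat_lit 493) (nat_lit 460) (nat_lit 3532) (.d (nat_lit 525) (nat_lit 524) (nat_lit 1516) (nat_lit 526) (nat_lit 1517)))))) (.a (.f (nat_lit 531) (nat_lit 530) (nat_lit 495) (.f (nat_lit 499) (nat_lit 532) (nat_lit 496) (.d (nat_lit 467) (nat_lit 466) (nat_lit 2511) (nat_lit 468) (nat_lit 2512)))) (.a (.f (nat_lit 467) (nat_lit 466) (nat_lit 2511) (.f (nat_lit 499) (nat_lit 468) (nat_lit 2512) (.f (nat_lit 500) (nat_lit 529) (nat_lit 1520) (.d (nat_lit 532) (nat_lit 531) (nat_lit 496) (nat_lit 533) (nat_lit 497))))) (.f (nat_lit 467) (nat_lit 466) (nat_lit 2511) (.f (nat_lit 499) (nat_lit 468) (nat_lit 2512) (.f (nat_lit 529) (nat_lit 500) (nat_lit 1520) (.d (nat_lit 494) (nat_lit 493) (nat_lit 493) (nat_lit 530) (nat_lit 494))))))))) (.a (.p (nat_lit 498) (.a (.f (nat_lit 531) (nat_lit 530) (nat_lit 495) (.f (nat_lit 499) (nat_lit 532) (nat_lit 496) (.d (nat_lit 467) (nat_lit 466) (nat_lit 2511) (nat_lit 468) (nat_lit 2512)))) (.a (.f (nat_lit 467) (nat_lit 466) (nat_lit 2511) (.f (nat_lit 499) (nat_lit 468) (nat_lit 2512) (.f (nat_lit 500) (nat_lit 529) (nat_lit 1520) (.d (nat_lit 532) (nat_lit 531) (nat_lit 496) (nat_lit 533) (nat_lit 497))))) (.a (.p (nat_lit 433) (.a (.f (nat_lit 530) (nat_lit 531) (nat_lit 495) (.f (nat_lit 466) (nat_lit 467) (nat_lit 2511) (.f (nat_lit 434) (nat_lit 401) (nat_lit 7569) (.f (nat_lit 403) (nat_lit 435) (nat_lit 6546) (.d (nat_lit 402) (nat_lit 371) (nat_lit 6514) (nat_lit 529) (nat_lit 5521)))))) (.a (.f (nat_lit 465) (nat_lit 401) (nat_lit 5520) (.d (nat_lit 560) (nat_lit 464) (nat_lit 6576) (nat_lit 592) (nat_lit 6608))) (.f (nat_lit 530) (nat_lit 531) (nat_lit 495) (.f (nat_lit 466) (nat_lit 467) (nat_lit 2511) (.f (nat_lit 465) (nat_lit 562) (nat_lit 7601) (.d (nat_lit 560) (nat_lit 464) (nat_lit 6576) (nat_lit 592) (nat_lit 6608)))))))) (.a (.p (nat_lit 499) (.a (.d (nat_lit 467) (nat_lit 466) (nat_lit 2511) (nat_lit 468) (nat_lit 2512)) (.a (.f (nat_lit 500) (nat_lit 529) (nat_lit 1520) (.f (nat_lit 465) (nat_lit 464) (nat_lit 3536) (.f (nat_lit 501) (nat_lit 466) (nat_lit 3537) (.d (nat_lit 469) (nat_lit 468) (nat_lit 2513) (nat_lit 470) (nat_lit 2514))))) (.a (.f (nat_lit 500) (nat_lit 529) (nat_lit 1520) (.d (nat_lit 468) (nat_lit 467) (nat_lit 2512) (nat_lit 469) (nat_lit 2513))) (.f (nat_lit 500) (nat_lit 529) (nat_lit 1520) (.f (nat_lit 465) (nat_lit 464) (nat_lit 3536) (.d (nat_lit 466) (nat_lit 467) (nat_lit 2511) (nat_lit 501) (nat_lit 3537)))))))) (.a (.f (nat_lit 531) (nat_lit 530) (nat_lit 495) (.f (nat_lit 499) (nat_lit 532) (nat_lit 496) (.f (nat_lit 500) (nat_lit 529) (nat_lit 1520) (.f (nat_lit 465) (nat_lit 464) (nat_lit 3536) (.f (nat_lit 501) (nat_lit 466) (nat_lit 3537) (.d (nat_lit 469) (nat_lit 468) (nat_lit 2513) (nat_lit 470) (nat_lit 2514))))))) (.f (nat_lit 531) (nat_lit 530) (nat_lit 495) (.f (nat_lit 499) (nat_lit 532) (nat_lit 496) (.f (nat_lit 500) (nat_lit 529) (nat_lit 1520) (.d (nat_lit 468) (nat_lit 467) (nat_lit 2512) (nat_lit 469) (nat_lit 2513))))))))))) (.p (nat_lit 591) (.a (.p (nat_lit 494) (.a (.f (nat_lit 526) (nat_lit 525) (nat_lit 1517) (.f (nat_lit 462) (nat_lit 461) (nat_lit 3533) (.f (nat_lit 558) (nat_lit 559) (nat_lit 4558) (.f (nat_lit 590) (nat_lit 623) (nat_lit 4590) (.d (nat_lit 589) (nat_lit 557) (nat_lit 5581) (nat_lit 621) (nat_lit 5613)))))) (.d (nat_lit 529) (nat_lit 493) (nat_lit 493) (nat_lit 530) (nat_lit 494)))) (.a (.p (nat_lit 560) (.a (.d (nat_lit 592) (nat_lit 465) (nat_lit 6608) (nat_lit 623) (nat_lit 5615)) (.a (.p (nat_lit 494) (.a (.f (nat_lit 461) (nat_lit 462) (nat_lit 3533) (.f (nat_lit 493) (nat_lit 460) (nat_lit 3532) (.d (nat_lit 525) (nat_lit 524) (nat_lit 1516) (nat_lit 526) (nat_lit 1517)))) (.a (.f (nat_lit 464) (nat_lit 559) (nat_lit 5583) (.d (nat_lit 465) (nat_lit 433) (nat_lit 6576) (nat_lit 493) (nat_lit 2509))) (.f (nat_lit 559) (nat_lit 464) (nat_lit 5583) (.f (nat_lit 526) (nat_lit 525) (nat_lit 1517) (.d (nat_lit 462) (nat_lit 461) (nat_lit 3533) (nat_lit 558) (nat_lit 4558))))))) (.f (nat_lit 559) (nat_lit 464) (nat_lit 5583) (.d (nat_lit 623) (nat_lit 592) (nat_lit 5615) (nat_lit 655) (nat_lit 6671)))))) (.a (.p (nat_lit 592) (.a (.d (nat_lit 560) (nat_lit 465) (nat_lit 6608) (nat_lit 623) (nat_lit 5615)) (.a (.p (nat_lit 594) (.a (.p (nat_lit 530) (.a (.f (nat_lit 498) (nat_lit 531) (nat_lit 495) (.f (nat_lit 562) (nat_lit 465) (nat_lit 7633) (.f (nat_lit 627) (nat_lit 595) (nat_lit 4594) (.f (nat_lit 626) (nat_lit 659) (nat_lit 4626) (.d (nat_lit 625) (nat_lit 624) (nat_lit 3663) (nat_lit 657) (nat_lit 5649)))))) (.a (.d (nat_lit 529) (nat_lit 494) (nat_lit 494) (nat_lit 531) (nat_lit 3567)) (.f (nat_lit 494) (nat_lit 529) (nat_lit 494) (.f (nat_lit 461) (nat_lit 462) (nat_lit 3533) (.f (nat_lit 493) (nat_lit 460) (nat_lit 3532) (.d (nat_lit 525) (nat_lit 524) (nat_lit 1516) (nat_lit 526) (nat_lit 1517)))))))) (.a (.p (nat_lit 593) (.a (.f (nat_lit 626) (nat_lit 627) (nat_lit 591) (.f (nat_lit 625) (nat_lit 590) (nat_lit 590) (.f (nat_lit 562) (nat_lit 563) (nat_lit 2607) (.d (nat_lit 530) (nat_lit 498) (nat_lit 5617) (nat_lit 657) (nat_lit 5649))))) (.a (.f (nat_lit 623) (nat_lit 622) (nat_lit 1614) (.f (nat_lit 595) (nat_lit 624) (nat_lit 1615) (.d (nat_lit 627) (nat_lit 626) (nat_lit 591) (nat_lit 628) (nat_lit 592)))) (.f (nat_lit 623) (nat_lit 622) (nat_lit 1614) (.f (nat_lit 595) (nat_lit 624) (nat_lit 1615) (.d (nat_lit 563) (nat_lit 562) (nat_lit 2607) (nat_lit 564) (nat_lit 2608))))))) (.a (.p (nat_lit 593) (.a (.f (nat_lit 623) (nat_lit 622) (nat_lit 1614) (.f (nat_lit 595) (nat_lit 624) (nat_lit 1615) (.d (nat_lit 627) (nat_lit 626) (nat_lit 591) (nat_lit 628) (nat_lit 592)))) (.a (.f (nat_lit 626) (nat_lit 627) (nat_lit 591) (.f (nat_lit 590) (nat_lit 625) (nat_lit 590) (.d (nat_lit 622) (nat_lit 621) (nat_lit 1613) (nat_lit 623) (nat_lit 1614)))) (.a (.f (nat_lit 626) (nat_lit 627) (nat_lit 591) (.f (nat_lit 563) (nat_lit 562) (nat_lit 2607) (.f (nat_lit 595) (nat_lit 564) (nat_lit 2608) (.f (nat_lit 625) (nat_lit 590) (nat_lit 590) (.d (nat_lit 596) (nat_lit 597) (nat_lit 1617) (nat_lit 624) (nat_lit 1616)))))) (.f (nat_lit 623) (nat_lit 622) (nat_lit 1614) (.f (nat_lit 595) (nat_lit 624) (nat_lit 1615) (.d (nat_lit 563) (nat_lit 562) (nat_lit 2607) (nat_lit 564) (nat_lit 2608)))))))) (.a (.p (nat_lit 593) (.a (.f (nat_lit 626) (nat_lit 627) (nat_lit 591) (.f (nat_lit 562) (nat_lit 563) (nat_lit 2607) (.f (nat_lit 530) (nat_lit 529) (nat_lit 7665) (.d (nat_lit 498) (nat_lit 465) (nat_lit 7633) (nat_lit 531) (nat_lit 495))))) (.a (.f (nat_lit 626) (nat_lit 627) (nat_lit 591) (.f (nat_lit 625) (nat_lit 590) (nat_lit 590) (.f (nat_lit 562) (nat_lit 563) (nat_lit 2607) (.d (nat_lit 530) (nat_lit 498) (nat_lit 5617) (nat_lit 657) (nat_lit 5649))))) (.a (.f (nat_lit 626) (nat_lit 627) (nat_lit 591) (.f (nat_lit 590) (nat_lit 625) (nat_lit 590) (.d (nat_lit 622) (nat_lit 621) (nat_lit 1613) (nat_lit 623) (nat_lit 1614)))) (.a (.f (nat_lit 563) (nat_lit 562) (nat_lit 2607) (.f (nat_lit 595) (nat_lit 564) (nat_lit 2608) (.f (nat_lit 628) (nat_lit 627) (nat_lit 592) (.f (nat_lit 596) (nat_lit 629) (nat_lit 593) (.f (nat_lit 531) (nat_lit 499) (nat_lit 4595) (.d (nat_lit 530) (nat_lit 498) (nat_lit 495) (nat_lit 529) (nat_lit 3567))))))) (.f (nat_lit 562) (nat_lit 563) (nat_lit 2607) (.f (nat_lit 622) (nat_lit 623) (nat_lit 1614) (.f (nat_lit 590) (nat_lit 621) (nat_lit 1613) (.f (nat_lit 625) (nat_lit 626) (nat_lit 590) (.f (nat_lit 530) (nat_lit 498) (nat_lit 5617) (.d (nat_lit 529) (nat_lit 494) (nat_lit 494) (nat_lit 531) (nat_lit 3567)))))))))))) (.a (.p (nat_lit 530) (.a (.d (nat_lit 529) (nat_lit 494) (nat_lit 494) (nat_lit 531) (nat_lit 3567)) (.a (.f (nat_lit 498) (nat_lit 531) (nat_lit 495) (.f (nat_lit 562) (nat_lit 465) (nat_lit 7633) (.d (nat_lit 593) (nat_lit 563) (nat_lit 2607) (nat_lit 625) (nat_lit 5617)))) (.f (nat_lit 494) (nat_lit 529) (nat_lit 494) (.f (nat_lit 461) (nat_lit 462) (nat_lit 3533) (.f (nat_lit 493) (nat_lit 460) (nat_lit 3532) (.d (nat_lit 525) (nat_lit 524) (nat_lit 1516) (nat_lit 526) (nat_lit 1517)))))))) (.a (.p (nat_lit 593) (.a (.f (nat_lit 623) (nat_lit 622) (nat_lit 1614) (.f (nat_lit 595) (nat_lit 624) (nat_lit 1615) (.d (nat_lit 627) (nat_lit 626) (nat_lit 591) (nat_lit 628) (nat_lit 592)))) (.a (.f (nat_lit 626) (nat_lit 627) (nat_lit 591) (.f (nat_lit 590) (nat_lit 625) (nat_lit 590) (.d (nat_lit 622) (nat_lit 621) (nat_lit 1613) (nat_lit 623) (nat_lit 1614)))) (.a (.f (nat_lit 626) (nat_lit 627) (nat_lit 591) (.f (nat_lit 590) (nat_lit 625) (nat_lit 590) (.f (nat_lit 621) (nat_lit 622) (nat_lit 1613) (.f (nat_lit 589) (nat_lit 620) (nat_lit 1612) (.d (nat_lit 557) (nat_lit 556) (nat_lit 3628) (nat_lit 558) (nat_lit 3629)))))) (.a (.f (nat_lit 622) (nat_lit 623) (nat_lit 1614) (.f (nat_lit 590) (nat_lit 621) (nat_lit 1613) (.f (nat_lit 557) (nat_lit 558) (nat_lit 3629) (.f (nat_lit 589) (nat_lit 556) (nat_lit 3628) (.f (nat_lit 493) (nat_lit 525) (nat_lit 4589) (.f (nat_lit 494) (nat_lit 529) (nat_lit 493) (.d (nat_lit 461) (nat_lit 460) (nat_lit 3532) (nat_lit 462) (nat_lit 3533)))))))) (.f (nat_lit 626) (nat_lit 627) (nat_lit 591) (.f (nat_lit 590) (nat_lit 625) (nat_lit 590) (.f (nat_lit 557) (nat_lit 558) (nat_lit 3629) (.f (nat_lit 589) (nat_lit 556) (nat_lit 3628) (.f (nat_lit 620) (nat_lit 621) (nat_lit 1612) (.f (nat_lit 588) (nat_lit 619) (nat_lit 1611) (.f (nat_lit 493) (nat_lit 525) (nat_lit 5612) (.f (nat_lit 494) (nat_lit 529) (nat_lit 493) (.d (nat_lit 461) (nat_lit 460) (nat_lit 3532) (nat_lit 462) (nat_lit 3533))))))))))))))) (.p (nat_lit 593) (.a (.f (nat_lit 626) (nat_lit 627) (nat_lit 591) (.f (nat_lit 562) (nat_lit 563) (nat_lit 2607) (.f (nat_lit 530) (nat_lit 529) (nat_lit 7665) (.d (nat_lit 498) (nat_lit 465) (nat_lit 7633) (nat_lit 531) (nat_lit 495))))) (.a (.f (nat_lit 623) (nat_lit 622) (nat_lit 1614) (.f (nat_lit 595) (nat_lit 624) (nat_lit 1615) (.d (nat_lit 627) (nat_lit 626) (nat_lit 591) (nat_lit 628) (nat_lit 592)))) (.f (nat_lit 623) (nat_lit 622) (nat_lit 1614) (.f (nat_lit 595) (nat_lit 624) (nat_lit 1615) (.d (nat_lit 563) (nat_lit 562) (nat_lit 2607) (nat_lit 564) (nat_lit 2608)))))))))))))) (.a (.f (nat_lit 560) (nat_lit 623) (nat_lit 5615) (.f (nat_lit 529) (nat_lit 624) (nat_lit 6640) (.d (nat_lit 494) (nat_lit 493) (nat_lit 493) (nat_lit 530) (nat_lit 494)))) (.f (nat_lit 560) (nat_lit 465) (nat_lit 6608) (.f (nat_lit 624) (nat_lit 529) (nat_lit 6640) (.d (nat_lit 625) (nat_lit 593) (nat_lit 4592) (nat_lit 657) (nat_lit 4624)))))))) (.a (.p (nat_lit 560) (.a (.d (nat_lit 592) (nat_lit 465) (nat_lit 6608) (nat_lit 623) (nat_lit 5615)) (.a (.f (nat_lit 464) (nat_lit 559) (nat_lit 5583) (.f (nat_lit 433) (nat_lit 465) (nat_lit 6576) (.f (nat_lit 432) (nat_lit 401) (nat_lit 6544) (.f (nat_lit 400) (nat_lit 529) (nat_lit 4496) (.d (nat_lit 399) (nat_lit 367) (nat_lit 7535) (nat_lit 431) (nat_lit 7567)))))) (.f (nat_lit 559) (nat_lit 464) (nat_lit 5583) (.d (nat_lit 623) (nat_lit 592) (nat_lit 5615) (nat_lit 655) (nat_lit 6671)))))) (.p (nat_lit 494) (.a (.d (nat_lit 529) (nat_lit 493) (nat_lit 493) (nat_lit 530) (nat_lit 494)) (.a (.f (nat_lit 525) (nat_lit 526) (nat_lit 1517) (.f (nat_lit 493) (nat_lit 524) (nat_lit 1516) (.d (nat_lit 461) (nat_lit 460) (nat_lit 3532) (nat_lit 462) (nat_lit 3533)))) (.f (nat_lit 529) (nat_lit 530) (nat_lit 494) (.f (nat_lit 462) (nat_lit 461) (nat_lit 3533) (.f (nat_lit 526) (nat_lit 525) (nat_lit 1517) (.f (nat_lit 559) (nat_lit 558) (nat_lit 4558) (.f (nat_lit 560) (nat_lit 464) (nat_lit 5583) (.d (nat_lit 465) (nat_lit 433) (nat_lit 5552) (nat_lit 592) (nat_lit 6608))))))))))))))))))))) (.a (.p (nat_lit 494) (.a (.p (nat_lit 525) (.a (.f (nat_lit 493) (nat_lit 524) (nat_lit 1516) (.f (nat_lit 461) (nat_lit 460) (nat_lit 3532) (.d (nat_lit 497) (nat_lit 462) (nat_lit 3533) (nat_lit 526) (nat_lit 1517)))) (.a (.f (nat_lit 493) (nat_lit 524) (nat_lit 1516) (.f (nat_lit 492) (nat_lit 527) (nat_lit 492) (.d (nat_lit 460) (nat_lit 459) (nat_lit 3531) (nat_lit 461) (nat_lit 3532)))) (.f (nat_lit 497) (nat_lit 526) (nat_lit 1517) (.f (nat_lit 465) (nat_lit 466) (nat_lit 2510) (.f (nat_lit 433) (nat_lit 401) (nat_lit 5520) (.d (nat_lit 560) (nat_lit 464) (nat_lit 6576) (nat_lit 592) (nat_lit 6608)))))))) (.a (.p (nat_lit 497) (.a (.f (nat_lit 465) (nat_lit 466) (nat_lit 2510) (.f (nat_lit 433) (nat_lit 401) (nat_lit 5520) (.d (nat_lit 560) (nat_lit 464) (nat_lit 6576) (nat_lit 592) (nat_lit 6608)))) (.f (nat_lit 525) (nat_lit 526) (nat_lit 1517) (.f (nat_lit 493) (nat_lit 524) (nat_lit 1516) (.d (nat_lit 461) (nat_lit 460) (nat_lit 3532) (nat_lit 462) (nat_lit 3533)))))) (.a s123153 (.a (.p (nat_lit 464) (.a (.f (nat_lit 493) (nat_lit 465) (nat_lit 2509) (.f (nat_lit 527) (nat_lit 492) (nat_lit 492) (.d (nat_lit 432) (nat_lit 400) (nat_lit 5519) (nat_lit 559) (nat_lit 5551)))) (.a (.f (nat_lit 493) (nat_lit 465) (nat_lit 2509) (.f (nat_lit 524) (nat_lit 525) (nat_lit 1516) (.f (nat_lit 492) (nat_lit 523) (nat_lit 1515) (.d (nat_lit 460) (nat_lit 459) (nat_lit 3531) (nat_lit 461) (nat_lit 3532))))) (.a (.p (nat_lit 432) (.a (.d (nat_lit 527) (nat_lit 400) (nat_lit 5519) (nat_lit 559) (nat_lit 5551)) (.a (.f (nat_lit 399) (nat_lit 431) (nat_lit 7567) (.f (nat_lit 400) (nat_lit 367) (nat_lit 7535) (.d (nat_lit 401) (nat_lit 369) (nat_lit 6512) (nat_lit 433) (nat_lit 6544)))) (.f (nat_lit 527) (nat_lit 559) (nat_lit 5551) (.f (nat_lit 493) (nat_lit 492) (nat_lit 492) (.f (nat_lit 525) (nat_lit 524) (nat_lit 1516) (.f (nat_lit 461) (nat_lit 460) (nat_lit 3532) (.f (nat_lit 431) (nat_lit 399) (nat_lit 7567) (.f (nat_lit 433) (nat_lit 401) (nat_lit 6544) (.f (nat_lit 430) (nat_lit 462) (nat_lit 1453) (.d (nat_lit 398) (nat_lit 397) (nat_lit 3469) (nat_lit 429) (nat_lit 6541)))))))))))) (.p (nat_lit 432) (.a (.d (nat_lit 527) (nat_lit 400) (nat_lit 5519) (nat_lit 559) (nat_lit 5551)) (.a (.f (nat_lit 399) (nat_lit 431) (nat_lit 7567) (.f (nat_lit 400) (nat_lit 367) (nat_lit 7535) (.d (nat_lit 401) (nat_lit 369) (nat_lit 6512) (nat_lit 433) (nat_lit 6544)))) (.f (nat_lit 433) (nat_lit 401) (nat_lit 6544) (.f (nat_lit 431) (nat_lit 399) (nat_lit 7567) (.f (nat_lit 465) (nat_lit 560) (nat_lit 6576) (.d (nat_lit 430) (nat_lit 429) (nat_lit 429) (nat_lit 466) (nat_lit 430)))))))))))) (.a (.p (nat_lit 497) (.a (.f (nat_lit 465) (nat_lit 466) (nat_lit 2510) (.f (nat_lit 433) (nat_lit 401) (nat_lit 5520) (.d (nat_lit 560) (nat_lit 464) (nat_lit 6576) (nat_lit 592) (nat_lit 6608)))) (.f (nat_lit 461) (nat_lit 462) (nat_lit 3533) (.f (nat_lit 493) (nat_lit 460) (nat_lit 3532) (.f (nat_lit 527) (nat_lit 492) (nat_lit 492) (.d (nat_lit 498) (nat_lit 499) (nat_lit 1519) (nat_lit 526) (nat_lit 1518))))))) (.a s123218 (.a (.p (nat_lit 497) (.a (.f (nat_lit 526) (nat_lit 525) (nat_lit 1517) (.f (nat_lit 527) (nat_lit 498) (nat_lit 1518) (.f (nat_lit 462) (nat_lit 461) (nat_lit 3533) (.d (nat_lit 430) (nat_lit 398) (nat_lit 4494) (nat_lit 559) (nat_lit 4526))))) (.f (nat_lit 465) (nat_lit 466) (nat_lit 2510) (.f (nat_lit 433) (nat_lit 401) (nat_lit 5520) (.d (nat_lit 560) (nat_lit 464) (nat_lit 6576) (nat_lit 592) (nat_lit 6608)))))) (.a (.p (nat_lit 525) (.a (.f (nat_lit 493) (nat_lit 524) (nat_lit 1516) (.f (nat_lit 461) (nat_lit 460) (nat_lit 3532) (.d (nat_lit 497) (nat_lit 462) (nat_lit 3533) (nat_lit 526) (nat_lit 1517)))) (.a (.f (nat_lit 493) (nat_lit 524) (nat_lit 1516) (.f (nat_lit 492) (nat_lit 527) (nat_lit 492) (.d (nat_lit 460) (nat_lit 459) (nat_lit 3531) (nat_lit 461) (nat_lit 3532)))) (.a (.f (nat_lit 526) (nat_lit 497) (nat_lit 1517) (.d (nat_lit 524) (nat_lit 523) (nat_lit 2539) (nat_lit 527) (nat_lit 2540))) (.f (nat_lit 497) (nat_lit 526) (nat_lit 1517) (.f (nat_lit 461) (nat_lit 462) (nat_lit 3533) (.f (nat_lit 493) (nat_lit 460) (nat_lit 3532) (.f (nat_lit 527) (nat_lit 492) (nat_lit 492) (.f (nat_lit 464) (nat_lit 465) (nat_lit 2509) (.d (nat_lit 432) (nat_lit 400) (nat_lit 5519) (nat_lit 559) (nat_lit 5551))))))))))) s123191))))))))) (.a (.p (nat_lit 494) (.a (.f (nat_lit 493) (nat_lit 529) (nat_lit 493) (.f (nat_lit 525) (nat_lit 524) (nat_lit 1516) (.f (nat_lit 497) (nat_lit 526) (nat_lit 1517) (.d (nat_lit 461) (nat_lit 460) (nat_lit 3532) (nat_lit 462) (nat_lit 3533))))) (.a (.p (nat_lit 525) (.a (.f (nat_lit 493) (nat_lit 524) (nat_lit 1516) (.f (nat_lit 461) (nat_lit 460) (nat_lit 3532) (.d (nat_lit 497) (nat_lit 462) (nat_lit 3533) (nat_lit 526) (nat_lit 1517)))) (.a (.f (nat_lit 493) (nat_lit 524) (nat_lit 1516) (.f (nat_lit 492) (nat_lit 527) (nat_lit 492) (.d (nat_lit 460) (nat_lit 459) (nat_lit 3531) (nat_lit 461) (nat_lit 3532)))) (.f (nat_lit 497) (nat_lit 526) (nat_lit 1517) (.f (nat_lit 465) (nat_lit 466) (nat_lit 2510) (.f (nat_lit 433) (nat_lit 401) (nat_lit 5520) (.d (nat_lit 560) (nat_lit 464) (nat_lit 6576) (nat_lit 592) (nat_lit 6608)))))))) (.a (.f (nat_lit 493) (nat_lit 529) (nat_lit 493) (.f (nat_lit 492) (nat_lit 527) (nat_lit 492) (.d (nat_lit 524) (nat_lit 523) (nat_lit 1515) (nat_lit 525) (nat_lit 1516)))) (.a (.f (nat_lit 493) (nat_lit 529) (nat_lit 493) (.f (nat_lit 527) (nat_lit 492) (nat_lit 492) (.f (nat_lit 464) (nat_lit 465) (nat_lit 2509) (.d (nat_lit 432) (nat_lit 400) (nat_lit 5519) (nat_lit 559) (nat_lit 5551))))) (.p (nat_lit 497) (.a (.f (nat_lit 526) (nat_lit 525) (nat_lit 1517) (.f (nat_lit 527) (nat_lit 498) (nat_lit 1518) (.f (nat_lit 462) (nat_lit 461) (nat_lit 3533) (.d (nat_lit 430) (nat_lit 398) (nat_lit 4494) (nat_lit 559) (nat_lit 4526))))) (.f (nat_lit 465) (nat_lit 466) (nat_lit 2510) (.f (nat_lit 433) (nat_lit 401) (nat_lit 5520) (.d (nat_lit 560) (nat_lit 464) (nat_lit 6576) (nat_lit 592) (nat_lit 6608))))))))))) (.a (.p (nat_lit 494) (.a (.f (nat_lit 493) (nat_lit 529) (nat_lit 493) (.f (nat_lit 525) (nat_lit 524) (nat_lit 1516) (.f (nat_lit 497) (nat_lit 526) (nat_lit 1517) (.d (nat_lit 461) (nat_lit 460) (nat_lit 3532) (nat_lit 462) (nat_lit 3533))))) (.a (.p (nat_lit 525) (.a (.f (nat_lit 493) (nat_lit 524) (nat_lit 1516) (.f (nat_lit 461) (nat_lit 460) (nat_lit 3532) (.d (nat_lit 497) (nat_lit 462) (nat_lit 3533) (nat_lit 526) (nat_lit 1517)))) (.a (.f (nat_lit 493) (nat_lit 524) (nat_lit 1516) (.f (nat_lit 492) (nat_lit 527) (nat_lit 492) (.d (nat_lit 460) (nat_lit 459) (nat_lit 3531) (nat_lit 461) (nat_lit 3532)))) (.f (nat_lit 497) (nat_lit 526) (nat_lit 1517) (.f (nat_lit 465) (nat_lit 466) (nat_lit 2510) (.f (nat_lit 433) (nat_lit 401) (nat_lit 5520) (.d (nat_lit 560) (nat_lit 464) (nat_lit 6576) (nat_lit 592) (nat_lit 6608)))))))) (.a (.f (nat_lit 493) (nat_lit 529) (nat_lit 493) (.f (nat_lit 492) (nat_lit 527) (nat_lit 492) (.d (nat_lit 524) (nat_lit 523) (nat_lit 1515) (nat_lit 525) (nat_lit 1516)))) (.a (.f (nat_lit 493) (nat_lit 529) (nat_lit 493) (.f (nat_lit 492) (nat_lit 527) (nat_lit 492) (.d (nat_lit 460) (nat_lit 459) (nat_lit 3531) (nat_lit 461) (nat_lit 3532)))) (.p (nat_lit 497) (.a (.f (nat_lit 529) (nat_lit 530) (nat_lit 494) (.f (nat_lit 465) (nat_lit 466) (nat_lit 2510) (.d (nat_lit 433) (nat_lit 401) (nat_lit 5520) (nat_lit 560) (nat_lit 5552)))) (.a (.f (nat_lit 465) (nat_lit 466) (nat_lit 2510) (.f (nat_lit 433) (nat_lit 401) (nat_lit 5520) (.d (nat_lit 560) (nat_lit 464) (nat_lit 6576) (nat_lit 592) (nat_lit 6608)))) (.a (.f (nat_lit 530) (nat_lit 529) (nat_lit 494) (.f (nat_lit 498) (nat_lit 531) (nat_lit 495) (.d (nat_lit 466) (nat_lit 465) (nat_lit 2510) (nat_lit 467) (nat_lit 2511)))) (.a (.f (nat_lit 526) (nat_lit 525) (nat_lit 1517) (.f (nat_lit 498) (nat_lit 527) (nat_lit 1518) (.f (nat_lit 531) (nat_lit 530) (nat_lit 495) (.f (nat_lit 499) (nat_lit 532) (nat_lit 496) (.d (nat_lit 467) (nat_lit 466) (nat_lit 2511) (nat_lit 468) (nat_lit 2512)))))) (.f (nat_lit 530) (nat_lit 529) (nat_lit 494) (.f (nat_lit 498) (nat_lit 531) (nat_lit 495) (.d (nat_lit 526) (nat_lit 525) (nat_lit 1517) (nat_lit 527) (nat_lit 1518)))))))))))))) (.p (nat_lit 494) (.a (.f (nat_lit 493) (nat_lit 529) (nat_lit 493) (.f (nat_lit 525) (nat_lit 524) (nat_lit 1516) (.f (nat_lit 497) (nat_lit 526) (nat_lit 1517) (.d (nat_lit 461) (nat_lit 460) (nat_lit 3532) (nat_lit 462) (nat_lit 3533))))) (.a s123153 (.a (.f (nat_lit 493) (nat_lit 529) (nat_lit 493) (.f (nat_lit 492) (nat_lit 527) (nat_lit 492) (.d (nat_lit 524) (nat_lit 523) (nat_lit 1515) (nat_lit 525) (nat_lit 1516)))) (.a (.f (nat_lit 493) (nat_lit 529) (nat_lit 493) (.f (nat_lit 527) (nat_lit 492) (nat_lit 492) (.f (nat_lit 464) (nat_lit 465) (nat_lit 2509) (.d (nat_lit 432) (nat_lit 400) (nat_lit 5519) (nat_lit 559) (nat_lit 5551))))) (.p (nat_lit 497) (.a (.f (nat_lit 526) (nat_lit 525) (nat_lit 1517) (.f (nat_lit 527) (nat_lit 498) (nat_lit 1518) (.f (nat_lit 462) (nat_lit 461) (nat_lit 3533) (.d (nat_lit 430) (nat_lit 398) (nat_lit 4494) (nat_lit 559) (nat_lit 4526))))) (.a (.f (nat_lit 530) (nat_lit 529) (nat_lit 494) (.f (nat_lit 498) (nat_lit 531) (nat_lit 495) (.d (nat_lit 466) (nat_lit 465) (nat_lit 2510) (nat_lit 467) (nat_lit 2511)))) (.f (nat_lit 462) (nat_lit 461) (nat_lit 3533) (.p (nat_lit 527) (.a (.f (nat_lit 526) (nat_lit 525) (nat_lit 1517) (.d (nat_lit 559) (nat_lit 430) (nat_lit 4526) (nat_lit 591) (nat_lit 7630))) (.a (.f (nat_lit 526) (nat_lit 525) (nat_lit 1517) (.f (nat_lit 529) (nat_lit 530) (nat_lit 494) (.f (nat_lit 430) (nat_lit 398) (nat_lit 4494) (.f (nat_lit 465) (nat_lit 466) (nat_lit 2510) (.f (nat_lit 433) (nat_lit 401) (nat_lit 5520) (.f (nat_lit 432) (nat_lit 400) (nat_lit 7568) (.f (nat_lit 431) (nat_lit 399) (nat_lit 6542) (.d (nat_lit 429) (nat_lit 397) (nat_lit 7565) (nat_lit 464) (nat_lit 429))))))))) (.f (nat_lit 529) (nat_lit 530) (nat_lit 3566) (.f (nat_lit 559) (nat_lit 591) (nat_lit 7630) (.f (nat_lit 432) (nat_lit 464) (nat_lit 5551) (.f (nat_lit 465) (nat_lit 466) (nat_lit 2510) (.d (nat_lit 433) (nat_lit 400) (nat_lit 7568) (nat_lit 401) (nat_lit 5520))))))))))))))))))))))))))))))))))))))))))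
noncomputable def s126066 : Cert := .r (nat_lit 878694100803598413031763653913873312477595381475527416800728766896810131433216388931377061717872577344200070940793780982005437429071978327712293046178721824768) (.p (nat_lit 494) (.a (.f (nat_lit 493) (nat_lit 529) (nat_lit 493) (.d (nat_lit 492) (nat_lit 464) (nat_lit 2508) (nat_lit 527) (nat_lit 492))) (.a (.p (nat_lit 497) (.a (.d (nat_lit 462) (nat_lit 461) (nat_lit 3533) (nat_lit 498) (nat_lit 3534)) (.a (.f (nat_lit 526) (nat_lit 525) (nat_lit 1517) (.f (nat_lit 498) (nat_lit 527) (nat_lit 1518) (.d (nat_lit 530) (nat_lit 529) (nat_lit 494) (nat_lit 531) (nat_lit 495)))) (.f (nat_lit 462) (nat_lit 461) (nat_lit 3533) (.f (nat_lit 526) (nat_lit 525) (nat_lit 1517) (.f (nat_lit 558) (nat_lit 590) (nat_lit 6606) (.f (nat_lit 559) (nat_lit 591) (nat_lit 4558) (.f (nat_lit 527) (nat_lit 430) (nat_lit 4526) (.d (nat_lit 557) (nat_lit 556) (nat_lit 2572) (nat_lit 589) (nat_lit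 5581)))))))))) (.a (.p (nat_lit 497) (.a (.d (nat_lit 462) (nat_lit 461) (nat_lit 3533) (nat_lit 498) (nat_lit 3534)) (.a (.f (nat_lit 526) (nat_lit 525) (nat_lit 1517) (.f (nat_lit 498) (nat_lit 527) (nat_lit 1518) (.d (nat_lit 466) (nat_lit 465) (nat_lit 2510) (nat_lit 467) (nat_lit 2511)))) (.f (nat_lit 462) (nat_lit 461) (nat_lit 3533) (.f (nat_lit 526) (nat_lit 525) (nat_lit 1517) (.f (nat_lit 558) (nat_lit 590) (nat_lit 6606) (.f (nat_lit 559) (nat_lit 591) (nat_lit 4558) (.f (nat_lit 527) (nat_lit 430) (nat_lit 4526) (.d (nat_lit 557) (nat_lit 556) (nat_lit 2572) (nat_lit 589) (nat_lit 5581)))))))))) (.f (nat_lit 493) (nat_lit 529) (nat_lit 493) (.d (nat_lit 464) (nat_lit 465) (nat_lit 2509) (nat_lit 492) (nat_lit 2508)))))))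
noncomputable def s126079 : Cert := .r (nat_lit 878694100803598413031763653913873312477595381475527416800728766896810131433216388931377061717872577344200070940793780982005437429071978327712293046178721824768) (.p (nat_lit 494) (.a (.f (nat_lit 493) (nat_lit 529) (nat_lit 493) (.d (nat_lit 464) (nat_lit 465) (nat_lit 2509) (nat_lit 492) (nat_lit 2508))) (.a (.p (nat_lit 497) (.a (.d (nat_lit 462) (nat_lit 461) (nat_lit 3533) (nat_lit 498) (nat_lit 3534)) (.a (.f (nat_lit 466) (nat_lit 465) (nat_lit 2510) (.f (nat_lit 498) (nat_lit 467) (nat_lit 2511) (.d (nat_lit 530) (nat_lit 529) (nat_lit 494) (nat_lit 531) (nat_lit 495)))) (.f (nat_lit 462) (nat_lit 461) (nat_lit 3533) (.f (nat_lit 526) (nat_lit 525) (nat_lit 1517) (.d (nat_lit 431) (nat_lit 399) (nat_lit 4495) (nat_lit 558) (nat_lit 6574))))))) (.a (.p (nat_lit 497) (.a (.d (nat_lit 462) (nat_lit 461) (nat_lit 3533) (nat_lit 498) (nat_lit 3534)) (.f (nat_lit 465)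 (nat_lit 466) (nat_lit 2510) (.f (nat_lit 493) (nat_lit 464) (nat_lit 2509) (.d (nat_lit 525) (nat_lit 524) (nat_lit 1516) (nat_lit 526) (nat_lit 1517)))))) (.f (nat_lit 493) (nat_lit 529) (nat_lit 493) (.f (nat_lit 492) (nat_lit 464) (nat_lit 2508) (.d (nat_lit 524) (nat_lit 523) (nat_lit 1515) (nat_lit 525) (nat_lit 1516))))))))
noncomputable def s126093 : Cert := .r (nat_lit 878694100803598413031763653913873312477595381475527416800728766896810131433216388931377061717872577344200070940793780982005437429071978327712293046178721824768) (.p (nat_lit 494) (.a (.f (nat_lit 493) (nat_lit 529) (nat_lit 493) (.d (nat_lit 492) (nat_lit 464) (nat_lit 2508) (nat_lit 527) (nat_lit 492))) (.a (.p (nat_lit 497) (.a (.d (nat_lit 462) (nat_lit 461) (nat_lit 3533) (nat_lit 498) (nat_lit 3534)) (.a (.f (nat_lit 466) (nat_lit 465) (nat_lit 2510) (.f (nat_lit 498) (nat_lit 467) (nat_lit 2511) (.d (nat_lit 530) (nat_lit 529) (nat_lit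 494) (nat_lit 531) (nat_lit 495)))) (.f (nat_lit 462) (nat_lit 461) (nat_lit 3533) (.f (nat_lit 465) (nat_lit 466) (nat_lit 2510) (.f (nat_lit 529) (nat_lit 530) (nat_lit 494) (.f (nat_lit 433) (nat_lit 401) (nat_lit 5520) (.d (nat_lit 434) (nat_lit 402) (nat_lit 6545) (nat_lit 464) (nat_lit 2478))))))))) (.a (.p (nat_lit 497) (.a (.d (nat_lit 462) (nat_lit 461) (nat_lit 3533) (nat_lit 498) (nat_lit 3534)) (.f (nat_lit 465) (nat_lit 466) (nat_lit 2510) (.f (nat_lit 493) (nat_lit 464) (nat_lit 2509) (.f (nat_lit 492) (nat_lit 527) (nat_lit 492) (.d (nat_lit 524) (nat_lit 523) (nat_lit 1515) (nat_lit 525) (nat_lit 1516))))))) (.f (nat_lit 493) (nat_lit 529) (nat_lit 493) (.f (nat_lit 492) (nat_lit 527) (nat_lit 492) (.d (nat_lit 524) (nat_lit 523) (nat_lit 1515) (nat_lit 525) (nat_lit 1516))))))))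
noncomputable def s126191 : Cert := .r (nat_lit 878694100803598413031763653913873312477595381475527416800728766896810131433216388931377061717872577344200070940793780982005437429071978327712293046178721824768) (.p (nat_lit 494) (.a (.f (nat_lit 493) (nat_lit 529) (nat_lit 493) (.d (nat_lit 464) (nat_lit 465) (nat_lit 2509) (nat_lit 492) (nat_lit 2508))) (.a (.p (nat_lit 497) (.a (.d (nat_lit 462) (nat_lit 461) (nat_lit 3533) (nat_lit 498) (nat_lit 3534)) (.a (.f (nat_lit 466) (nat_lit 465) (nat_lit 2510) (.f (nat_lit 498) (nat_lit 467) (nat_lit 2511) (.d (nat_lit 530) (nat_lit 529) (nat_lit 494) (nat_lit 531) (nat_lit 495)))) (.f (nat_lit 462) (nat_lit 461) (nat_lit 3533) (.f (nat_lit 465) (nat_lit 466) (nat_lit 2510) (.f (nat_lit 529) (nat_lit 530) (nat_lit 494) (.f (nat_lit 433) (nat_lit 401) (nat_lit 5520) (.d (nat_lit 434) (nat_lit 402) (nat_lit 6545) (nat_lit 464) (nat_lit 2478))))))))) (.a (.p (nat_lit 497) (.a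 (.d (nat_lit 462) (nat_lit 461) (nat_lit 3533) (nat_lit 498) (nat_lit 3534)) (.f (nat_lit 465) (nat_lit 466) (nat_lit 2510) (.f (nat_lit 493) (nat_lit 464) (nat_lit 2509) (.d (nat_lit 525) (nat_lit 524) (nat_lit 1516) (nat_lit 526) (nat_lit 1517)))))) (.a (.f (nat_lit 493) (nat_lit 529) (nat_lit 493) (.f (nat_lit 492) (nat_lit 464) (nat_lit 2508) (.d (nat_lit 524) (nat_lit 523) (nat_lit 1515) (nat_lit 525) (nat_lit 1516)))) (.f (nat_lit 493) (nat_lit 529) (nat_lit 493) (.f (nat_lit 461) (nat_lit 460) (nat_lit 3532) (.f (nat_lit 525) (nat_lit 524) (nat_lit 1516) (.d (nat_lit 497) (nat_lit 462) (nat_lit 3533) (nat_lit 526) (nat_lit 1517))))))))))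
noncomputable def s126232 : Cert := .r (nat_lit 878694100854745141280140870632829401490526618228912448770151654232486559059718479500200101637923672536792323396276385421498563538590997961241752312636980068352) (.p (nat_lit 497) (.a (.d (nat_lit 462) (nat_lit 461) (nat_lit 3533) (nat_lit 498) (nat_lit 3534)) (.a (.f (nat_lit 526) (nat_lit 525) (nat_lit 1517) (.f (nat_lit 498) (nat_lit 527) (nat_lit 1518) (.f (nat_lit 499) (nat_lit 464) (nat_lit 3535) (.d (nat_lit 467) (nat_lit 466) (nat_lit 2511) (nat_lit 468) (nat_lit 2512))))) (.f (nat_lit 462) (nat_lit 461) (nat_lit 3533) (.f (nat_lit 526) (nat_lit 525) (nat_lit 1517) (.f (nat_lit 558) (nat_lit 590) (nat_lit 6606) (.f (nat_lit 559) (nat_lit 591) (nat_lit 4558) (.f (nat_lit 527) (nat_lit 430) (nat_lit 4526) (.d (nat_lit 557) (nat_lit 556) (nat_lit 2572) (nat_lit 589) (nat_lit 5581))))))))))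
noncomputable def s126316 : Cert := .r (nat_lit 1318041150898517250021656603580495764754525287887669734512005646170653574091856233714000570767152560133417649153612138061606800024502654512602591231268865703936) (.p (nat_lit 463) (.a (.f (nat_lit 431) (nat_lit 560) (nat_lit 4527) (.d (nat_lit 399) (nat_lit 496) (nat_lit 4495) (nat_lit 526) (nat_lit 5518))) (.a (.p (nat_lit 559) (.a (.d (nat_lit 462) (nat_lit 430) (nat_lit 7598) (nat_lit 591) (nat_lit 7630)) (.a (.f (nat_lit 464) (nat_lit 432) (nat_lit 6575) (.f (nat_lit 591) (nat_lit 496) (nat_lit 6607) (.d (nat_lit 592) (nat_lit 560) (nat_lit 4559) (nat_lit 624) (nat_lit 4591)))) (.f (nat_lit 462) (nat_lit 430) (nat_lit 7598) (.f (nat_lit 464) (nat_lit 432) (nat_lit 6575) (.f (nat_lit 465) (nat_lit 466) (nat_lit 1486) (.f (nat_lit 497) (nat_lit 498) (nat_lit 462) (.f (nat_lit 496) (nat_lit 461) (nat_lit 461) (.d (nat_lit 433) (nat_lit 401) (nat_lit 5520) (nat_lit 434)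 (nat_lit 2478)))))))))) (.a (.p (nat_lit 559) (.a (.d (nat_lit 462) (nat_lit 430) (nat_lit 7598) (nat_lit 591) (nat_lit 7630)) (.a (.f (nat_lit 464) (nat_lit 432) (nat_lit 6575) (.f (nat_lit 591) (nat_lit 496) (nat_lit 6607) (.d (nat_lit 590) (nat_lit 558) (nat_lit 5582) (nat_lit 622) (nat_lit 5614)))) (.f (nat_lit 462) (nat_lit 430) (nat_lit 7598) (.f (nat_lit 464) (nat_lit 432) (nat_lit 6575) (.f (nat_lit 465) (nat_lit 466) (nat_lit 1486) (.f (nat_lit 497) (nat_lit 498) (nat_lit 462) (.f (nat_lit 496) (nat_lit 461) (nat_lit 461) (.d (nat_lit 433) (nat_lit 401) (nat_lit 5520) (nat_lit 434) (nat_lit 2478)))))))))) (.f (nat_lit 431) (nat_lit 560) (nat_lit 4527) (.d (nat_lit 526) (nat_lit 399) (nat_lit 5518) (nat_lit 558) (nat_lit 5550)))))))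
noncomputable def s126329 : Cert := .r (nat_lit 1318041150898517250021656603580495764754525287887669734512005646170653574091856233714000570767152560133417649153612138061606800024502654512602591231268865703936) (.p (nat_lit 463) (.a (.f (nat_lit 431) (nat_lit 560) (nat_lit 4527) (.d (nat_lit 526) (nat_lit 399) (nat_lit 5518) (nat_lit 558) (nat_lit 5550))) (.a (.p (nat_lit 559) (.a (.d (nat_lit 462) (nat_lit 430) (nat_lit 7598) (nat_lit 591) (nat_lit 7630)) (.a (.f (nat_lit 590) (nat_lit 558) (nat_lit 5582) (.f (nat_lit 591) (nat_lit 622) (nat_lit 5614) (.d (nat_lit 592) (nat_lit 560) (nat_lit 4559) (nat_lit 624) (nat_lit 4591)))) (.f (nat_lit 462) (nat_lit 430) (nat_lit 7598) (.f (nat_lit 464) (nat_lit 432) (nat_lit 6575) (.d (nat_lit 493) (nat_lit 465) (nat_lit 1485) (nat_lit 492) (nat_lit 492))))))) (.a (.p (nat_lit 559) (.a (.d (nat_lit 462) (nat_lit 430) (nat_lit 7598) (nat_lit 591) (nat_lit 7630)) (.f (nat_lit 558)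 (nat_lit 590) (nat_lit 5582) (.f (nat_lit 431) (nat_lit 526) (nat_lit 5550) (.d (nat_lit 432) (nat_lit 400) (nat_lit 6543) (nat_lit 464) (nat_lit 6575)))))) (.f (nat_lit 431) (nat_lit 560) (nat_lit 4527) (.f (nat_lit 399) (nat_lit 526) (nat_lit 5518) (.d (nat_lit 400) (nat_lit 368) (nat_lit 6511) (nat_lit 432) (nat_lit 6543))))))))
noncomputable def s126342 : Cert := .r (nat_lit 1318041150898517250021656603580495764754525287887669734512005646170653574091856233714000570767152560133417649153612138061606800024502654512602591231268865703936) (.p (nat_lit 463) (.a (.f (nat_lit 431) (nat_lit 560) (nat_lit 4527) (.d (nat_lit 399) (nat_lit 496) (nat_lit 4495) (nat_lit 526) (nat_lit 5518))) (.a (.p (nat_lit 559) (.a (.d (nat_lit 462) (nat_lit 430) (nat_lit 7598) (nat_lit 591) (nat_lit 7630)) (.a (.f (nat_lit 590) (nat_lit 558) (nat_lit 5582) (.f (nat_lit 591) (nat_lit 622) (nat_lit 5614) (.d (nat_lit 592) (nat_lit 560) (nat_lit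 4559) (nat_lit 624) (nat_lit 4591)))) (.f (nat_lit 462) (nat_lit 430) (nat_lit 7598) (.f (nat_lit 558) (nat_lit 590) (nat_lit 5582) (.f (nat_lit 560) (nat_lit 592) (nat_lit 4559) (.f (nat_lit 557) (nat_lit 556) (nat_lit 2572) (.d (nat_lit 589) (nat_lit 526) (nat_lit 5581) (nat_lit 588) (nat_lit 1580))))))))) (.a (.p (nat_lit 559) (.a (.d (nat_lit 462) (nat_lit 430) (nat_lit 7598) (nat_lit 591) (nat_lit 7630)) (.f (nat_lit 558) (nat_lit 590) (nat_lit 5582) (.f (nat_lit 431) (nat_lit 526) (nat_lit 5550) (.f (nat_lit 399) (nat_lit 496) (nat_lit 4495) (.d (nat_lit 400) (nat_lit 368) (nat_lit 6511) (nat_lit 432) (nat_lit 6543))))))) (.f (nat_lit 431) (nat_lit 560) (nat_lit 4527) (.f (nat_lit 399) (nat_lit 496) (nat_lit 4495) (.d (nat_lit 400) (nat_lit 368) (nat_lit 6511) (nat_lit 432) (nat_lit 6543))))))))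
noncomputable def s126441 : Cert := .r (nat_lit 1318041150898517250021656603580495764754525287887669734512005646170653574091856233714000570767152560133417649153612138061606800024502654512602591231268865703936) (.p (nat_lit 463) (.a (.f (nat_lit 431) (nat_lit 560) (nat_lit 4527) (.d (nat_lit 526) (nat_lit 399) (nat_lit 5518) (nat_lit 558) (nat_lit 5550))) (.a (.p (nat_lit 559) (.a (.d (nat_lit 462) (nat_lit 430) (nat_lit 7598) (nat_lit 591) (nat_lit 7630)) (.a (.f (nat_lit 590) (nat_lit 558) (nat_lit 5582) (.f (nat_lit 591) (nat_lit 622) (nat_lit 5614) (.d (nat_lit 592) (nat_lit 560) (nat_lit 4559) (nat_lit 624) (nat_lit 4591)))) (.f (nat_lit 462) (nat_lit 430) (nat_lit 7598) (.f (nat_lit 558) (nat_lit 590) (nat_lit 5582) (.f (nat_lit 560) (nat_lit 592) (nat_lit 4559) (.f (nat_lit 557) (nat_lit 556) (nat_lit 2572) (.d (nat_lit 589) (nat_lit 526) (nat_lit 5581) (nat_lit 588) (nat_lit 1580))))))))) (.a (.p (nat_lit 559)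 (.a (.d (nat_lit 462) (nat_lit 430) (nat_lit 7598) (nat_lit 591) (nat_lit 7630)) (.f (nat_lit 558) (nat_lit 590) (nat_lit 5582) (.f (nat_lit 431) (nat_lit 526) (nat_lit 5550) (.d (nat_lit 432) (nat_lit 400) (nat_lit 6543) (nat_lit 464) (nat_lit 6575)))))) (.a (.f (nat_lit 431) (nat_lit 560) (nat_lit 4527) (.f (nat_lit 399) (nat_lit 526) (nat_lit 5518) (.d (nat_lit 400) (nat_lit 368) (nat_lit 6511) (nat_lit 432) (nat_lit 6543)))) (.f (nat_lit 431) (nat_lit 560) (nat_lit 4527) (.f (nat_lit 430) (nat_lit 398) (nat_lit 7566) (.f (nat_lit 432) (nat_lit 400) (nat_lit 6543) (.d (nat_lit 559) (nat_lit 462) (nat_lit 7598) (nat_lit 464) (nat_lit 6575))))))))))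
noncomputable def s126483 : Cert := .r (nat_lit 1318041150898517250045473654898214211344045530424543867093705766277655612291160104560751758960052383284970277503400742577901866332496784631128653057435310751744) (.p (nat_lit 559) (.a (.d (nat_lit 462) (nat_lit 430) (nat_lit 7598) (nat_lit 591) (nat_lit 7630)) (.a (.f (nat_lit 464) (nat_lit 432) (nat_lit 6575) (.f (nat_lit 591) (nat_lit 496) (nat_lit 6607) (.f (nat_lit 623) (nat_lit 526) (nat_lit 7662) (.d (nat_lit 622) (nat_lit 590) (nat_lit 5614) (nat_lit 654) (nat_lit 5646))))) (.f (nat_lit 462) (nat_lit 430) (nat_lit 7598) (.f (nat_lit 464) (nat_lit 432) (nat_lit 6575) (.f (nat_lit 465) (nat_lit 466) (nat_lit 1486) (.f (nat_lit 497) (nat_lit 498) (nat_lit 462) (.f (nat_lit 496) (nat_lit 461) (nat_lit 461) (.d (nat_lit 433) (nat_lit 401) (nat_lit 5520) (nat_lit 434) (nat_lit 2478))))))))))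
noncomputable def s126563 : Cert := .r (nat_lit 878694100803598413055580705231591759067115624012401549382428887003812169632520259778128249910772400495752699290582385498300503737066108446238354872345166872576) (.p (nat_lit 432) (.a (.f (nat_lit 400) (nat_lit 527) (nat_lit 5519) (.d (nat_lit 401) (nat_lit 369) (nat_lit 6512) (nat_lit 433) (nat_lit 6544))) (.a (.f (nat_lit 399) (nat_lit 431) (nat_lit 7567) (.f (nat_lit 400) (nat_lit 367) (nat_lit 7535) (.d (nat_lit 401) (nat_lit 369) (nat_lit 6512) (nat_lit 433) (nat_lit 6544)))) (.a (.f (nat_lit 433) (nat_lit 401) (nat_lit 6544) (.f (nat_lit 465) (nat_lit 560) (nat_lit 6576) (.f (nat_lit 431) (nat_lit 399) (nat_lit 7567) (.d (nat_lit 430) (nat_lit 429) (nat_lit 429) (nat_lit 466) (nat_lit 430))))) (.f (nat_lit 400) (nat_lit 527) (nat_lit 5519) (.d (nat_lit 399) (nat_lit 367) (nat_lit 7535) (nat_lit 431) (nat_lit 7567)))))))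
noncomputable def s126654 : Cert := .r (nat_lit 878694100854745141256323819315110954901006375692038316188451534125484520860414608653448913445023849385239695046487780905203497230596867842715690486470535020544) (.p (nat_lit 497) (.a (.f (nat_lit 526) (nat_lit 525) (nat_lit 1517) (.f (nat_lit 498) (nat_lit 527) (nat_lit 1518) (.d (nat_lit 466) (nat_lit 465) (nat_lit 2510) (nat_lit 467) (nat_lit 2511)))) (.a (.f (nat_lit 465) (nat_lit 466) (nat_lit 2510) (.f (nat_lit 433) (nat_lit 401) (nat_lit 5520) (.d (nat_lit 560) (nat_lit 464) (nat_lit 6576) (nat_lit 592) (nat_lit 6608)))) (.a (.f (nat_lit 526) (nat_lit 525) (nat_lit 1517) (.f (nat_lit 498) (nat_lit 527) (nat_lit 1518) (.f (nat_lit 467) (nat_lit 466) (nat_lit 2511) (.f (nat_lit 499) (nat_lit 468) (nat_lit 2512) (.d (nat_lit 531) (nat_lit 530) (nat_lit 495) (nat_lit 532) (nat_lit 496)))))) (.f (nat_lit 530) (nat_lit 529) (nat_lit 494) (.f (nat_lit 498) (nat_lit 531)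 (nat_lit 495) (.d (nat_lit 526) (nat_lit 525) (nat_lit 1517) (nat_lit 527) (nat_lit 1518))))))))
noncomputable def s126763 : Cert := .r (nat_lit 878694100803598413103214807867028652246156109086149814545829127217816246031128001471630626296572046798857955990159594530890636353054368683290478524678056968192) (.p (nat_lit 494) (.a (.d (nat_lit 493) (nat_lit 464) (nat_lit 2509) (nat_lit 529) (nat_lit 493)) (.a (.f (nat_lit 493) (nat_lit 464) (nat_lit 2509) (.f (nat_lit 497) (nat_lit 466) (nat_lit 2510) (.d (nat_lit 525) (nat_lit 524) (nat_lit 1516) (nat_lit 526) (nat_lit 1517)))) (.a (.f (nat_lit 497) (nat_lit 466) (nat_lit 2510) (.f (nat_lit 529) (nat_lit 530) (nat_lit 494) (.f (nat_lit 433) (nat_lit 401) (nat_lit 5520) (.f (nat_lit 462) (nat_lit 461) (nat_lit 3533) (.f (nat_lit 432) (nat_lit 400) (nat_lit 7568) (.f (nat_lit 434) (nat_lit 402) (nat_lit 6545) (.d (nat_lit 463) (nat_lit 431) (nat_lit 1454) (nat_lit 464) (nat_lit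 2478)))))))) (.f (nat_lit 497) (nat_lit 466) (nat_lit 2510) (.d (nat_lit 529) (nat_lit 493) (nat_lit 493) (nat_lit 530) (nat_lit 494)))))))
noncomputable def s126895 : Cert := .r (nat_lit 1537714675971550032652700212432144258694215980738870475643205589528914528334079136813099439348268010700098878662656921079301577530974567481075500870126289289216) (.p (nat_lit 525) (.a (.f (nat_lit 524) (nat_lit 496) (nat_lit 2540) (.d (nat_lit 556) (nat_lit 555) (nat_lit 1547) (nat_lit 557) (nat_lit 1548))) (.a (.f (nat_lit 492) (nat_lit 493) (nat_lit 3564) (.f (nat_lit 524) (nat_lit 491) (nat_lit 3563) (.d (nat_lit 556) (nat_lit 555) (nat_lit 1547) (nat_lit 557) (nat_lit 1548)))) (.a (.f (nat_lit 557) (nat_lit 556) (nat_lit 1548) (.f (nat_lit 558) (nat_lit 529) (nat_lit 1549) (.f (nat_lit 493) (nat_lit 492) (nat_lit 3564) (.d (nat_lit 461) (nat_lit 429) (nat_lit 4525) (nat_lit 590) (nat_lit 4557))))) (.f (nat_lit 524) (nat_lit 496)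 (nat_lit 2540) (.d (nat_lit 492) (nat_lit 491) (nat_lit 3563) (nat_lit 493) (nat_lit 3564)))))))
noncomputable def s126985 : Cert := .r (nat_lit 1318041150847370521797096438179258122331114293671158835124282878941979184664658013991928719040001288092378025047918138138408740222977764997599193790977052508160) (.p (nat_lit 559) (.a (.f (nat_lit 464) (nat_lit 432) (nat_lit 6575) (.f (nat_lit 591) (nat_lit 496) (nat_lit 6607) (.d (nat_lit 590) (nat_lit 558) (nat_lit 5582) (nat_lit 622) (nat_lit 5614)))) (.a (.f (nat_lit 558) (nat_lit 590) (nat_lit 5582) (.f (nat_lit 557) (nat_lit 556) (nat_lit 2572) (.d (nat_lit 529) (nat_lit 526) (nat_lit 1549) (nat_lit 530) (nat_lit 1550)))) (.a (.f (nat_lit 464) (nat_lit 432) (nat_lit 6575) (.f (nat_lit 591) (nat_lit 496) (nat_lit 6607) (.f (nat_lit 622) (nat_lit 590) (nat_lit 5614) (.f (nat_lit 623) (nat_lit 654) (nat_lit 5646) (.d (nat_lit 624) (nat_lit 592) (nat_lit 4591) (nat_lit 656)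 (nat_lit 4623)))))) (.f (nat_lit 592) (nat_lit 560) (nat_lit 4559) (.f (nat_lit 591) (nat_lit 624) (nat_lit 4591) (.d (nat_lit 464) (nat_lit 432) (nat_lit 6575) (nat_lit 496) (nat_lit 6607))))))))
noncomputable def s127110 : Cert := .r (nat_lit 943490607523426488907759167020346609590769980845704158228336277603988799433014359486885824439592222732468558698516357923072179779594872073123993441931305975722956292096) (.p (nat_lit 463) (.a (.d (nat_lit 431) (nat_lit 526) (nat_lit 5550) (nat_lit 560) (nat_lit 4527)) (.a (.f (nat_lit 431) (nat_lit 526) (nat_lit 5550) (.f (nat_lit 559) (nat_lit 590) (nat_lit 5582) (.d (nat_lit 432) (nat_lit 400) (nat_lit 6543) (nat_lit 464) (nat_lit 6575)))) (.a (.f (nat_lit 559) (nat_lit 590) (nat_lit 5582) (.f (nat_lit 560) (nat_lit 592) (nat_lit 4559) (.f (nat_lit 557) (nat_lit 556) (nat_lit 2572) (.f (nat_lit 462) (nat_lit 430) (nat_lit 7598) (.f (nat_lit 525) (nat_lit 524) (nat_lit 3596)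 (.f (nat_lit 589) (nat_lit 588) (nat_lit 1580) (.d (nat_lit 494) (nat_lit 493) (nat_lit 6605) (nat_lit 526) (nat_lit 5581)))))))) (.f (nat_lit 559) (nat_lit 590) (nat_lit 5582) (.d (nat_lit 560) (nat_lit 431) (nat_lit 4527) (nat_lit 592) (nat_lit 4559)))))))
noncomputable def s127219 : Cert := .r (nat_lit 1886981213728811826968147812267413832320000285949814265322387852665394840031051572508417505734006914617835652456207319148014825937076070231264352004789479986635305123840) (.p (nat_lit 463) (.a (.f (nat_lit 558) (nat_lit 590) (nat_lit 5582) (.f (nat_lit 526) (nat_lit 431) (nat_lit 5550) (.d (nat_lit 529) (nat_lit 530) (nat_lit 1550) (nat_lit 557) (nat_lit 1549)))) (.a (.f (nat_lit 558) (nat_lit 590) (nat_lit 5582) (.f (nat_lit 557) (nat_lit 556) (nat_lit 2572) (.d (nat_lit 529) (nat_lit 526) (nat_lit 1549) (nat_lit 530) (nat_lit 1550)))) (.a (.f (nat_lit 558) (nat_lit 590) (nat_lit 5582) (.f (nat_lit 431) (nat_lit 526)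 (nat_lit 5550) (.d (nat_lit 432) (nat_lit 400) (nat_lit 6543) (nat_lit 464) (nat_lit 6575)))) (.f (nat_lit 464) (nat_lit 432) (nat_lit 6575) (.f (nat_lit 496) (nat_lit 591) (nat_lit 6607) (.f (nat_lit 462) (nat_lit 430) (nat_lit 7598) (.d (nat_lit 461) (nat_lit 460) (nat_lit 460) (nat_lit 497) (nat_lit 461)))))))))
noncomputable def s127222 : Cert := .r (nat_lit 1886981213728811826968147812267413832320000285949814265322387852665394840031051572508417505734006914617835652456207319148014825937076070231264352004789479986635305123840) (.p (nat_lit 463) (.a (.f (nat_lit 558) (nat_lit 590) (nat_lit 5582) (.f (nat_lit 526) (nat_lit 431) (nat_lit 5550) (.d (nat_lit 529) (nat_lit 530) (nat_lit 1550) (nat_lit 557) (nat_lit 1549)))) (.a (.f (nat_lit 558) (nat_lit 590) (nat_lit 5582) (.f (nat_lit 557) (nat_lit 556) (nat_lit 2572) (.d (nat_lit 529) (nat_lit 526) (nat_lit 1549) (nat_lit 530) (nat_lit 1550)))) (.a (.f (nat_lit 558)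 (nat_lit 590) (nat_lit 5582) (.f (nat_lit 431) (nat_lit 526) (nat_lit 5550) (.d (nat_lit 432) (nat_lit 400) (nat_lit 6543) (nat_lit 464) (nat_lit 6575)))) (.f (nat_lit 462) (nat_lit 430) (nat_lit 7598) (.f (nat_lit 494) (nat_lit 591) (nat_lit 7630) (.f (nat_lit 493) (nat_lit 492) (nat_lit 492) (.d (nat_lit 464) (nat_lit 432) (nat_lit 6575) (nat_lit 465) (nat_lit 1485)))))))))
noncomputable def s127224 : Cert := .r (nat_lit 1886981213728811826968147812267413832320000285949814265322387852665394840031051572508417505734006914617835652456207319148014825937076070231264352004789479986635305123840) (.p (nat_lit 463) (.a (.f (nat_lit 558) (nat_lit 590) (nat_lit 5582) (.f (nat_lit 526) (nat_lit 431) (nat_lit 5550) (.d (nat_lit 529) (nat_lit 530) (nat_lit 1550) (nat_lit 557) (nat_lit 1549)))) (.a (.f (nat_lit 558) (nat_lit 590) (nat_lit 5582) (.f (nat_lit 557) (nat_lit 556) (nat_lit 2572) (.d (nat_lit 529) (nat_lit 526) (nat_lit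 1549) (nat_lit 530) (nat_lit 1550)))) (.a (.f (nat_lit 558) (nat_lit 590) (nat_lit 5582) (.f (nat_lit 431) (nat_lit 526) (nat_lit 5550) (.d (nat_lit 432) (nat_lit 400) (nat_lit 6543) (nat_lit 464) (nat_lit 6575)))) (.f (nat_lit 432) (nat_lit 464) (nat_lit 6575) (.f (nat_lit 431) (nat_lit 400) (nat_lit 6543) (.d (nat_lit 430) (nat_lit 398) (nat_lit 7566) (nat_lit 462) (nat_lit 7598))))))))
noncomputable def s127225 : Cert := .r (nat_lit 1886981213728811826968147812267413832320000285949814265322387852665394840031051572508417505734006914617835652456207319148014825937076070231264352004789479986635305123840) (.p (nat_lit 463) (.a (.f (nat_lit 558) (nat_lit 590) (nat_lit 5582) (.f (nat_lit 526) (nat_lit 431) (nat_lit 5550) (.d (nat_lit 529) (nat_lit 530) (nat_lit 1550) (nat_lit 557) (nat_lit 1549)))) (.a (.f (nat_lit 558) (nat_lit 590) (nat_lit 5582) (.f (nat_lit 557) (nat_lit 556) (nat_lit 2572) (.d (nat_lit 529) (nat_lit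 526) (nat_lit 1549) (nat_lit 530) (nat_lit 1550)))) (.a (.f (nat_lit 558) (nat_lit 590) (nat_lit 5582) (.f (nat_lit 431) (nat_lit 526) (nat_lit 5550) (.d (nat_lit 430) (nat_lit 398) (nat_lit 7566) (nat_lit 462) (nat_lit 7598)))) (.f (nat_lit 462) (nat_lit 430) (nat_lit 7598) (.f (nat_lit 494) (nat_lit 591) (nat_lit 7630) (.f (nat_lit 493) (nat_lit 492) (nat_lit 492) (.d (nat_lit 529) (nat_lit 496) (nat_lit 493) (nat_lit 530) (nat_lit 3566)))))))))
noncomputable def s127226 : Cert := .r (nat_lit 1886981213728811826968147812267413832320000285949814265322387852665394840031051572508417505734006914617835652456207319148014825937076070231264352004789479986635305123840) (.p (nat_lit 463) (.a (.f (nat_lit 464) (nat_lit 432) (nat_lit 6575) (.f (nat_lit 591) (nat_lit 496) (nat_lit 6607) (.d (nat_lit 462) (nat_lit 430) (nat_lit 7598) (nat_lit 494) (nat_lit 7630)))) (.a (.f (nat_lit 464) (nat_lit 432) (nat_lit 6575) (.f (nat_lit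 496) (nat_lit 591) (nat_lit 6607) (.f (nat_lit 462) (nat_lit 430) (nat_lit 7598) (.d (nat_lit 461) (nat_lit 460) (nat_lit 460) (nat_lit 497) (nat_lit 461))))) (.a (.f (nat_lit 462) (nat_lit 430) (nat_lit 7598) (.f (nat_lit 494) (nat_lit 591) (nat_lit 7630) (.f (nat_lit 493) (nat_lit 492) (nat_lit 492) (.d (nat_lit 464) (nat_lit 432) (nat_lit 6575) (nat_lit 465) (nat_lit 1485))))) (.a (.f (nat_lit 462) (nat_lit 430) (nat_lit 7598) (.f (nat_lit 494) (nat_lit 591) (nat_lit 7630) (.f (nat_lit 493) (nat_lit 492) (nat_lit 492) (.d (nat_lit 529) (nat_lit 496) (nat_lit 493) (nat_lit 530) (nat_lit 3566))))) (.a (.f (nat_lit 464) (nat_lit 432) (nat_lit 6575) (.f (nat_lit 591) (nat_lit 496) (nat_lit 6607) (.d (nat_lit 590) (nat_lit 558) (nat_lit 5582) (nat_lit 622) (nat_lit 5614)))) (.f (nat_lit 432) (nat_lit 464) (nat_lit 6575) (.f (nat_lit 431) (nat_lit 400) (nat_lit 6543) (.d (nat_lit 430) (nat_lit 398) (nat_lit 7566) (nat_lit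 462) (nat_lit 7598))))))))))
noncomputable def s127244 : Cert := .r (nat_lit 1537714675971550032652700212432144258694215980738870475643205589528914528334079136813099439348268010700098878662656921079301577530974567481075500870126289289216) (.p (nat_lit 525) (.a (.d (nat_lit 496) (nat_lit 497) (nat_lit 2541) (nat_lit 524) (nat_lit 2540)) (.a (.f (nat_lit 556) (nat_lit 557) (nat_lit 1548) (.f (nat_lit 524) (nat_lit 555) (nat_lit 1547) (.d (nat_lit 492) (nat_lit 491) (nat_lit 3563) (nat_lit 493) (nat_lit 3564)))) (.p (nat_lit 494) (.a (.f (nat_lit 493) (nat_lit 492) (nat_lit 3564) (.f (nat_lit 496) (nat_lit 497) (nat_lit 1517) (.f (nat_lit 461) (nat_lit 460) (nat_lit 3532) (.d (nat_lit 429) (nat_lit 397) (nat_lit 4493) (nat_lit 558) (nat_lit 4525))))) (.a (.f (nat_lit 557) (nat_lit 556) (nat_lit 1548) (.f (nat_lit 462) (nat_lit 430) (nat_lit 5549) (.d (nat_lit 589) (nat_lit 558) (nat_lit 5581) (nat_lit 621) (nat_lit 6637))))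 (.f (nat_lit 493) (nat_lit 492) (nat_lit 3564) (.f (nat_lit 557) (nat_lit 556) (nat_lit 1548) (.d (nat_lit 462) (nat_lit 430) (nat_lit 5549) (nat_lit 589) (nat_lit 6605))))))))))
noncomputable def s127273 : Cert := .r (nat_lit 1886981213728811826968147812267413832320000285949814265322387852665394840031051572508417505734006914617835652456207319148014825937076070231264352004789479986635305123840) (.p (nat_lit 591) (.a (.d (nat_lit 496) (nat_lit 464) (nat_lit 6607) (nat_lit 623) (nat_lit 6639)) (.a (.f (nat_lit 494) (nat_lit 462) (nat_lit 7630) (.f (nat_lit 623) (nat_lit 526) (nat_lit 7662) (.d (nat_lit 624) (nat_lit 592) (nat_lit 4591) (nat_lit 656) (nat_lit 4623)))) (.f (nat_lit 496) (nat_lit 464) (nat_lit 6607) (.f (nat_lit 494) (nat_lit 462) (nat_lit 7630) (.f (nat_lit 493) (nat_lit 492) (nat_lit 492) (.f (nat_lit 525) (nat_lit 524) (nat_lit 1516) (.f (nat_lit 526) (nat_lit 497) (nat_lit 1517) (.f (nat_lit 590) (nat_lit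 622) (nat_lit 5614) (.d (nat_lit 461) (nat_lit 460) (nat_lit 3532) (nat_lit 558) (nat_lit 7629)))))))))))
noncomputable def s127322 : Cert := .r (nat_lit 1886981213728811826968147812267413832320000285949814265322387852665394840031051572508417505734006914617835652456207319148014825937076070231264352004789479986635305123840) (.p (nat_lit 463) (.a (.d (nat_lit 560) (nat_lit 431) (nat_lit 4527) (nat_lit 592) (nat_lit 4559)) (.a (.f (nat_lit 432) (nat_lit 464) (nat_lit 6575) (.f (nat_lit 431) (nat_lit 400) (nat_lit 6543) (.d (nat_lit 430) (nat_lit 398) (nat_lit 7566) (nat_lit 462) (nat_lit 7598)))) (.p (nat_lit 496) (.a (.f (nat_lit 464) (nat_lit 432) (nat_lit 6575) (.f (nat_lit 560) (nat_lit 592) (nat_lit 7631) (.f (nat_lit 465) (nat_lit 433) (nat_lit 6576) (.d (nat_lit 494) (nat_lit 466) (nat_lit 1486) (nat_lit 493) (nat_lit 2509))))) (.a (.f (nat_lit 464) (nat_lit 432) (nat_lit 5551) (.f (nat_lit 462) (nat_lit 430) (nat_lit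 7598) (.d (nat_lit 461) (nat_lit 460) (nat_lit 460) (nat_lit 497) (nat_lit 461)))) (.f (nat_lit 462) (nat_lit 430) (nat_lit 7598) (.f (nat_lit 461) (nat_lit 460) (nat_lit 460) (.f (nat_lit 494) (nat_lit 497) (nat_lit 3533) (.d (nat_lit 493) (nat_lit 492) (nat_lit 492) (nat_lit 529) (nat_lit 493)))))))))))
noncomputable def s127338 : Cert := .r (nat_lit 878694101212772238994964336347803577991525032965733539974411745475219514245929242635210192885381515733385462234866011981655379997230005277421905351678342725632) (.p (nat_lit 494) (.a (.f (nat_lit 465) (nat_lit 466) (nat_lit 2510) (.f (nat_lit 464) (nat_lit 493) (nat_lit 2509) (.d (nat_lit 560) (nat_lit 433) (nat_lit 6576) (nat_lit 592) (nat_lit 6608)))) (.a (.f (nat_lit 465) (nat_lit 466) (nat_lit 2510) (.f (nat_lit 433) (nat_lit 401) (nat_lit 5520) (.d (nat_lit 560) (nat_lit 464) (nat_lit 6576) (nat_lit 592) (nat_lit 6608)))) (.a (.f (nat_lit 465) (nat_lit 466) (nat_lit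 2510) (.f (nat_lit 493) (nat_lit 464) (nat_lit 2509) (.d (nat_lit 525) (nat_lit 524) (nat_lit 1516) (nat_lit 526) (nat_lit 1517)))) (.f (nat_lit 526) (nat_lit 525) (nat_lit 1517) (.f (nat_lit 527) (nat_lit 498) (nat_lit 1518) (.f (nat_lit 462) (nat_lit 461) (nat_lit 3533) (.d (nat_lit 430) (nat_lit 398) (nat_lit 4494) (nat_lit 559) (nat_lit 4526)))))))))
noncomputable def s127339 : Cert := .r (nat_lit 878694101212772238994964336347803577991525032965733539974411745475219514245929242635210192885381515733385462234866011981655379997230005277421905351678342725632) (.p (nat_lit 494) (.a (.f (nat_lit 465) (nat_lit 466) (nat_lit 2510) (.f (nat_lit 464) (nat_lit 493) (nat_lit 2509) (.d (nat_lit 560) (nat_lit 433) (nat_lit 6576) (nat_lit 592) (nat_lit 6608)))) (.a (.f (nat_lit 465) (nat_lit 466) (nat_lit 2510) (.f (nat_lit 433) (nat_lit 401) (nat_lit 5520) (.d (nat_lit 560) (nat_lit 464) (nat_lit 6576) (nat_lit 592) (nat_lit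 6608)))) (.a (.f (nat_lit 465) (nat_lit 466) (nat_lit 2510) (.f (nat_lit 493) (nat_lit 464) (nat_lit 2509) (.d (nat_lit 525) (nat_lit 524) (nat_lit 1516) (nat_lit 526) (nat_lit 1517)))) (.f (nat_lit 462) (nat_lit 461) (nat_lit 3533) (.f (nat_lit 463) (nat_lit 498) (nat_lit 3534) (.f (nat_lit 431) (nat_lit 399) (nat_lit 4495) (.d (nat_lit 526) (nat_lit 525) (nat_lit 1517) (nat_lit 558) (nat_lit 6574)))))))))
noncomputable def s127341 : Cert := .r (nat_lit 878694101212772238994964336347803577991525032965733539974411745475219514245929242635210192885381515733385462234866011981655379997230005277421905351678342725632) (.p (nat_lit 494) (.a (.f (nat_lit 465) (nat_lit 466) (nat_lit 2510) (.f (nat_lit 464) (nat_lit 493) (nat_lit 2509) (.d (nat_lit 560) (nat_lit 433) (nat_lit 6576) (nat_lit 592) (nat_lit 6608)))) (.a (.f (nat_lit 465) (nat_lit 466) (nat_lit 2510) (.f (nat_lit 433) (nat_lit 401) (nat_lit 5520) (.d (nat_lit 560)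 (nat_lit 464) (nat_lit 6576) (nat_lit 592) (nat_lit 6608)))) (.a (.f (nat_lit 465) (nat_lit 466) (nat_lit 2510) (.f (nat_lit 493) (nat_lit 464) (nat_lit 2509) (.d (nat_lit 525) (nat_lit 524) (nat_lit 1516) (nat_lit 526) (nat_lit 1517)))) (.f (nat_lit 525) (nat_lit 526) (nat_lit 1517) (.f (nat_lit 493) (nat_lit 524) (nat_lit 1516) (.d (nat_lit 461) (nat_lit 460) (nat_lit 3532) (nat_lit 462) (nat_lit 3533))))))))
noncomputable def s127342 : Cert := .r (nat_lit 878694101212772238994964336347803577991525032965733539974411745475219514245929242635210192885381515733385462234866011981655379997230005277421905351678342725632) (.p (nat_lit 494) (.a (.f (nat_lit 465) (nat_lit 466) (nat_lit 2510) (.f (nat_lit 464) (nat_lit 493) (nat_lit 2509) (.d (nat_lit 560) (nat_lit 433) (nat_lit 6576) (nat_lit 592) (nat_lit 6608)))) (.a (.f (nat_lit 465) (nat_lit 466) (nat_lit 2510) (.f (nat_lit 433) (nat_lit 401) (nat_lit 5520) (.d (nat_lit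 560) (nat_lit 464) (nat_lit 6576) (nat_lit 592) (nat_lit 6608)))) (.a (.f (nat_lit 465) (nat_lit 466) (nat_lit 2510) (.f (nat_lit 493) (nat_lit 464) (nat_lit 2509) (.d (nat_lit 461) (nat_lit 460) (nat_lit 3532) (nat_lit 462) (nat_lit 3533)))) (.f (nat_lit 462) (nat_lit 461) (nat_lit 3533) (.f (nat_lit 463) (nat_lit 498) (nat_lit 3534) (.f (nat_lit 431) (nat_lit 399) (nat_lit 4495) (.d (nat_lit 560) (nat_lit 527) (nat_lit 4527) (nat_lit 592) (nat_lit 7631)))))))))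
noncomputable def s127343 : Cert := .r (nat_lit 878694101212772238994964336347803577991525032965733539974411745475219514245929242635210192885381515733385462234866011981655379997230005277421905351678342725632) (.p (nat_lit 494) (.a (.f (nat_lit 526) (nat_lit 525) (nat_lit 1517) (.f (nat_lit 498) (nat_lit 527) (nat_lit 1518) (.d (nat_lit 462) (nat_lit 461) (nat_lit 3533) (nat_lit 463) (nat_lit 3534)))) (.a (.f (nat_lit 526) (nat_lit 525) (nat_lit 1517) (.f (nat_lit 527) (nat_lit 498) (nat_lit 1518) (.f (nat_lit 462) (nat_lit 461) (nat_lit 3533) (.d (nat_lit 430) (nat_lit 398) (nat_lit 4494) (nat_lit 559) (nat_lit 4526))))) (.a (.f (nat_lit 462) (nat_lit 461) (nat_lit 3533) (.f (nat_lit 463) (nat_lit 498) (nat_lit 3534) (.f (nat_lit 431) (nat_lit 399) (nat_lit 4495) (.d (nat_lit 526) (nat_lit 525) (nat_lit 1517) (nat_lit 558) (nat_lit 6574))))) (.a (.f (nat_lit 462) (nat_lit 461) (nat_lit 3533) (.f (nat_lit 463) (nat_lit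 498) (nat_lit 3534) (.f (nat_lit 431) (nat_lit 399) (nat_lit 4495) (.d (nat_lit 560) (nat_lit 527) (nat_lit 4527) (nat_lit 592) (nat_lit 7631))))) (.a (.f (nat_lit 526) (nat_lit 525) (nat_lit 1517) (.f (nat_lit 498) (nat_lit 527) (nat_lit 1518) (.d (nat_lit 466) (nat_lit 465) (nat_lit 2510) (nat_lit 467) (nat_lit 2511)))) (.f (nat_lit 525) (nat_lit 526) (nat_lit 1517) (.f (nat_lit 493) (nat_lit 524) (nat_lit 1516) (.d (nat_lit 461) (nat_lit 460) (nat_lit 3532) (nat_lit 462) (nat_lit 3533))))))))))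
noncomputable def s127361 : Cert := .r (nat_lit 878694100803598413055580705231591759067115624012401549382428887003812169632520259778128249910772400495752699290582385498300503737066108446238354872345166872576) (.p (nat_lit 432) (.a (.d (nat_lit 527) (nat_lit 400) (nat_lit 5519) (nat_lit 559) (nat_lit 5551)) (.a (.f (nat_lit 401) (nat_lit 433) (nat_lit 6544) (.f (nat_lit 400) (nat_lit 369) (nat_lit 6512) (.d (nat_lit 399) (nat_lit 367) (nat_lit 7535) (nat_lit 431) (nat_lit 7567)))) (.p (nat_lit 463) (.a (.f (nat_lit 431) (nat_lit 399) (nat_lit 7567) (.f (nat_lit 527) (nat_lit 559) (nat_lit 6575) (.f (nat_lit 430) (nat_lit 398) (nat_lit 7566) (.d (nat_lit 429) (nat_lit 428) (nat_lit 428) (nat_lit 465) (nat_lit 429))))) (.a (.f (nat_lit 433) (nat_lit 401) (nat_lit 6544) (.f (nat_lit 462) (nat_lit 461) (nat_lit 2477) (.d (nat_lit 434) (nat_lit 435) (nat_lit 1455) (nat_lit 465) (nat_lit 2478)))) (.f (nat_lit 431) (nat_lit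 399) (nat_lit 7567) (.f (nat_lit 433) (nat_lit 401) (nat_lit 6544) (.d (nat_lit 462) (nat_lit 434) (nat_lit 1454) (nat_lit 461) (nat_lit 2477))))))))))
noncomputable def s127390 : Cert := .r (nat_lit 878694101212772238994964336347803577991525032965733539974411745475219514245929242635210192885381515733385462234866011981655379997230005277421905351678342725632) (.p (nat_lit 498) (.a (.d (nat_lit 527) (nat_lit 499) (nat_lit 1519) (nat_lit 526) (nat_lit 1518)) (.a (.f (nat_lit 463) (nat_lit 462) (nat_lit 3534) (.f (nat_lit 499) (nat_lit 464) (nat_lit 3535) (.d (nat_lit 531) (nat_lit 530) (nat_lit 495) (nat_lit 532) (nat_lit 496)))) (.f (nat_lit 527) (nat_lit 526) (nat_lit 1518) (.f (nat_lit 463) (nat_lit 462) (nat_lit 3534) (.f (nat_lit 431) (nat_lit 399) (nat_lit 4495) (.f (nat_lit 432) (nat_lit 400) (nat_lit 6543) (.f (nat_lit 464) (nat_lit 559) (nat_lit 6575) (.f (nat_lit 466) (nat_lit 467) (nat_lit 2511) (.d (nat_lit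 430) (nat_lit 398) (nat_lit 7566) (nat_lit 465) (nat_lit 3502)))))))))))
noncomputable def s127437 : Cert := .r (nat_lit 878694101212772238994964336347803577991525032965733539974411745475219514245929242635210192885381515733385462234866011981655379997230005277421905351678342725632) (.p (nat_lit 494) (.a (.d (nat_lit 529) (nat_lit 493) (nat_lit 493) (nat_lit 530) (nat_lit 494)) (.a (.f (nat_lit 525) (nat_lit 526) (nat_lit 1517) (.f (nat_lit 493) (nat_lit 524) (nat_lit 1516) (.d (nat_lit 461) (nat_lit 460) (nat_lit 3532) (nat_lit 462) (nat_lit 3533)))) (.p (nat_lit 527) (.a (.f (nat_lit 526) (nat_lit 525) (nat_lit 1517) (.f (nat_lit 529) (nat_lit 530) (nat_lit 3566) (.f (nat_lit 558) (nat_lit 557) (nat_lit 1549) (.d (nat_lit 463) (nat_lit 431) (nat_lit 5550) (nat_lit 590) (nat_lit 6606))))) (.a (.f (nat_lit 526) (nat_lit 525) (nat_lit 2541) (.f (nat_lit 462) (nat_lit 461) (nat_lit 3533) (.d (nat_lit 430) (nat_lit 398)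 (nat_lit 4494) (nat_lit 559) (nat_lit 4526)))) (.f (nat_lit 462) (nat_lit 461) (nat_lit 3533) (.f (nat_lit 430) (nat_lit 398) (nat_lit 4494) (.f (nat_lit 463) (nat_lit 559) (nat_lit 7598) (.d (nat_lit 431) (nat_lit 399) (nat_lit 4495) (nat_lit 560) (nat_lit 4527)))))))))))
noncomputable def s127848 : Cert := .r (nat_lit 3075429351840806608808645991426376339362569487970970887347565404386476201415154092488552798856433831015013252414348633279616902842911095695092083207336062091264) (.p (nat_lit 526) (.a (.f (nat_lit 558) (nat_lit 557) (nat_lit 1549) (.f (nat_lit 559) (nat_lit 530) (nat_lit 1550) (.d (nat_lit 463) (nat_lit 431) (nat_lit 5550) (nat_lit 590) (nat_lit 5582)))) (.a (.f (nat_lit 497) (nat_lit 498) (nat_lit 2542) (.f (nat_lit 525) (nat_lit 496) (nat_lit 2541) (.d (nat_lit 557) (nat_lit 556) (nat_lit 1548) (nat_lit 558) (nat_lit 1549)))) (.a (.f (nat_lit 497) (nat_lit 498) (nat_lit 2542) (.f (nat_lit 525) (nat_lit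 496) (nat_lit 2541) (.f (nat_lit 492) (nat_lit 493) (nat_lit 3564) (.f (nat_lit 524) (nat_lit 491) (nat_lit 3563) (.d (nat_lit 556) (nat_lit 555) (nat_lit 1547) (nat_lit 557) (nat_lit 1548)))))) (.f (nat_lit 497) (nat_lit 498) (nat_lit 2542) (.f (nat_lit 496) (nat_lit 525) (nat_lit 2541) (.f (nat_lit 530) (nat_lit 531) (nat_lit 3567) (.f (nat_lit 559) (nat_lit 558) (nat_lit 1550) (.f (nat_lit 591) (nat_lit 623) (nat_lit 6639) (.f (nat_lit 592) (nat_lit 624) (nat_lit 4591) (.d (nat_lit 560) (nat_lit 463) (nat_lit 4559) (nat_lit 465) (nat_lit 6608))))))))))))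
noncomputable def s127849 : Cert := .r (nat_lit 3075429351840806608808645991426376339362569487970970887347565404386476201415154092488552798856433831015013252414348633279616902842911095695092083207336062091264) (.p (nat_lit 526) (.a (.f (nat_lit 497) (nat_lit 498) (nat_lit 2542) (.f (nat_lit 525) (nat_lit 496) (nat_lit 2541) (.d (nat_lit 557) (nat_lit 556) (nat_lit 1548) (nat_lit 558) (nat_lit 1549)))) (.a (.f (nat_lit 558) (nat_lit 557) (nat_lit 1549) (.f (nat_lit 494) (nat_lit 493) (nat_lit 3565) (.d (nat_lit 463) (nat_lit 431) (nat_lit 5550) (nat_lit 590) (nat_lit 6606)))) (.a (.f (nat_lit 497) (nat_lit 498) (nat_lit 2542) (.f (nat_lit 525) (nat_lit 496) (nat_lit 2541) (.f (nat_lit 492) (nat_lit 493) (nat_lit 3564) (.f (nat_lit 524) (nat_lit 491) (nat_lit 3563) (.d (nat_lit 556) (nat_lit 555) (nat_lit 1547) (nat_lit 557) (nat_lit 1548)))))) (.f (nat_lit 494) (nat_lit 493) (nat_lit 3565) (.f (nat_lit 497) (nat_lit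 498) (nat_lit 2542) (.f (nat_lit 496) (nat_lit 525) (nat_lit 2541) (.f (nat_lit 462) (nat_lit 461) (nat_lit 3533) (.d (nat_lit 430) (nat_lit 398) (nat_lit 4494) (nat_lit 559) (nat_lit 4526))))))))))
noncomputable def s127865 : Cert := .r (nat_lit 3075429351840806608808645991426376339362569487970970887347565404386476201415154092488552798856433831015013252414348633279616902842911095695092083207336062091264) (.p (nat_lit 526) (.a (.f (nat_lit 558) (nat_lit 557) (nat_lit 1549) (.f (nat_lit 559) (nat_lit 530) (nat_lit 1550) (.d (nat_lit 463) (nat_lit 431) (nat_lit 5550) (nat_lit 590) (nat_lit 5582)))) (.a (.f (nat_lit 497) (nat_lit 498) (nat_lit 2542) (.f (nat_lit 525) (nat_lit 496) (nat_lit 2541) (.f (nat_lit 492) (nat_lit 493) (nat_lit 3564) (.f (nat_lit 524) (nat_lit 491) (nat_lit 3563) (.d (nat_lit 556) (nat_lit 555) (nat_lit 1547) (nat_lit 557) (nat_lit 1548)))))) (.f (nat_lit 498) (nat_lit 497) (nat_lit 2542) (.f (nat_lit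 530) (nat_lit 499) (nat_lit 2543) (.f (nat_lit 531) (nat_lit 496) (nat_lit 3567) (.d (nat_lit 563) (nat_lit 562) (nat_lit 527) (nat_lit 564) (nat_lit 528))))))))
noncomputable def s127866 : Cert := .r (nat_lit 3075429351840806608808645991426376339362569487970970887347565404386476201415154092488552798856433831015013252414348633279616902842911095695092083207336062091264) (.p (nat_lit 526) (.a (.f (nat_lit 497) (nat_lit 498) (nat_lit 2542) (.f (nat_lit 525) (nat_lit 496) (nat_lit 2541) (.d (nat_lit 557) (nat_lit 556) (nat_lit 1548) (nat_lit 558) (nat_lit 1549)))) (.a (.f (nat_lit 558) (nat_lit 557) (nat_lit 1549) (.f (nat_lit 530) (nat_lit 559) (nat_lit 1550) (.d (nat_lit 498) (nat_lit 497) (nat_lit 2542) (nat_lit 499) (nat_lit 2543)))) (.a (.f (nat_lit 558) (nat_lit 557) (nat_lit 1549) (.f (nat_lit 530) (nat_lit 559) (nat_lit 1550) (.f (nat_lit 531) (nat_lit 496) (nat_lit 3567) (.d (nat_lit 499) (nat_lit 498) (nat_lit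 2543) (nat_lit 500) (nat_lit 2544))))) (.a (.f (nat_lit 497) (nat_lit 498) (nat_lit 2542) (.f (nat_lit 525) (nat_lit 496) (nat_lit 2541) (.f (nat_lit 492) (nat_lit 493) (nat_lit 3564) (.f (nat_lit 524) (nat_lit 491) (nat_lit 3563) (.d (nat_lit 556) (nat_lit 555) (nat_lit 1547) (nat_lit 557) (nat_lit 1548)))))) (.a (.f (nat_lit 558) (nat_lit 557) (nat_lit 1549) (.f (nat_lit 530) (nat_lit 559) (nat_lit 1550) (.f (nat_lit 531) (nat_lit 496) (nat_lit 3567) (.d (nat_lit 563) (nat_lit 562) (nat_lit 527) (nat_lit 564) (nat_lit 528))))) (.f (nat_lit 498) (nat_lit 497) (nat_lit 2542) (.f (nat_lit 530) (nat_lit 499) (nat_lit 2543) (.f (nat_lit 531) (nat_lit 496) (nat_lit 3567) (.d (nat_lit 563) (nat_lit 562) (nat_lit 527) (nat_lit 564) (nat_lit 528)))))))))))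
noncomputable def s127874 : Cert := .r (nat_lit 3075429351840806608808645991426376339362569487970970887347565404386476201415154092488552798856433831015013252414348633279616902842911095695092083207336062091264) (.p (nat_lit 526) (.a (.f (nat_lit 497) (nat_lit 498) (nat_lit 2542) (.f (nat_lit 525) (nat_lit 496) (nat_lit 2541) (.d (nat_lit 557) (nat_lit 556) (nat_lit 1548) (nat_lit 558) (nat_lit 1549)))) (.a (.f (nat_lit 558) (nat_lit 557) (nat_lit 1549) (.f (nat_lit 463) (nat_lit 431) (nat_lit 5550) (.d (nat_lit 590) (nat_lit 559) (nat_lit 5582) (nat_lit 622) (nat_lit 6638)))) (.a (.f (nat_lit 497) (nat_lit 498) (nat_lit 2542) (.f (nat_lit 525) (nat_lit 496) (nat_lit 2541) (.f (nat_lit 492) (nat_lit 493) (nat_lit 3564) (.f (nat_lit 524) (nat_lit 491) (nat_lit 3563) (.d (nat_lit 556) (nat_lit 555) (nat_lit 1547) (nat_lit 557) (nat_lit 1548)))))) (.f (nat_lit 497) (nat_lit 498) (nat_lit 2542) (.f (nat_lit 525) (nat_lit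 496) (nat_lit 2541) (.f (nat_lit 492) (nat_lit 493) (nat_lit 3564) (.f (nat_lit 524) (nat_lit 491) (nat_lit 3563) (.f (nat_lit 559) (nat_lit 560) (nat_lit 524) (.f (nat_lit 558) (nat_lit 523) (nat_lit 523) (.d (nat_lit 463) (nat_lit 431) (nat_lit 5550) (nat_lit 590) (nat_lit 5582))))))))))))
noncomputable def s127878 : Cert := .r (nat_lit 3075429351840806608808645991426376339362569487970970887347565404386476201415154092488552798856433831015013252414348633279616902842911095695092083207336062091264) (.p (nat_lit 530) (.a (.f (nat_lit 498) (nat_lit 499) (nat_lit 2543) (.f (nat_lit 562) (nat_lit 563) (nat_lit 527) (.f (nat_lit 497) (nat_lit 526) (nat_lit 2542) (.d (nat_lit 465) (nat_lit 433) (nat_lit 4529) (nat_lit 594) (nat_lit 7633))))) (.a (.f (nat_lit 531) (nat_lit 496) (nat_lit 3567) (.d (nat_lit 563) (nat_lit 562) (nat_lit 527) (nat_lit 564) (nat_lit 528))) (.f (nat_lit 498) (nat_lit 499) (nat_lit 2543) (.f (nat_lit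 497) (nat_lit 526) (nat_lit 2542) (.f (nat_lit 496) (nat_lit 531) (nat_lit 495) (.f (nat_lit 463) (nat_lit 462) (nat_lit 3534) (.d (nat_lit 431) (nat_lit 399) (nat_lit 4495) (nat_lit 560) (nat_lit 4527)))))))))
noncomputable def s127919 : Cert := .r (nat_lit 1318041150847370521797096438179258122331114293671158835124282878941979184664658013991928719040001288092378025047918138138408740222977764997599193790977052508160) (.p (nat_lit 559) (.a (.f (nat_lit 558) (nat_lit 590) (nat_lit 5582) (.f (nat_lit 431) (nat_lit 526) (nat_lit 5550) (.d (nat_lit 430) (nat_lit 398) (nat_lit 7566) (nat_lit 462) (nat_lit 7598)))) (.a (.f (nat_lit 462) (nat_lit 430) (nat_lit 7598) (.f (nat_lit 591) (nat_lit 494) (nat_lit 7630) (.d (nat_lit 590) (nat_lit 558) (nat_lit 5582) (nat_lit 622) (nat_lit 5614)))) (.a (.f (nat_lit 462) (nat_lit 430) (nat_lit 7598) (.f (nat_lit 591) (nat_lit 494) (nat_lit 7630) (.f (nat_lit 623) (nat_lit 496) (nat_lit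 6639) (.d (nat_lit 622) (nat_lit 590) (nat_lit 5614) (nat_lit 654) (nat_lit 5646))))) (.a (.f (nat_lit 558) (nat_lit 590) (nat_lit 5582) (.f (nat_lit 431) (nat_lit 526) (nat_lit 5550) (.f (nat_lit 399) (nat_lit 496) (nat_lit 4495) (.d (nat_lit 400) (nat_lit 368) (nat_lit 6511) (nat_lit 432) (nat_lit 6543))))) (.f (nat_lit 462) (nat_lit 430) (nat_lit 7598) (.f (nat_lit 591) (nat_lit 494) (nat_lit 7630) (.f (nat_lit 496) (nat_lit 623) (nat_lit 6639) (.f (nat_lit 497) (nat_lit 498) (nat_lit 3534) (.f (nat_lit 431) (nat_lit 399) (nat_lit 4495) (.d (nat_lit 526) (nat_lit 525) (nat_lit 2541) (nat_lit 558) (nat_lit 5550))))))))))))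
noncomputable def s127950 : Cert := .r (nat_lit 3295102876964986119688066816996980922315191417575556660448188235080413583283879086156474707357600376774286734378876020736804806458902028297094452112651743920128) (.p (nat_lit 525) (.a (.d (nat_lit 493) (nat_lit 492) (nat_lit 3564) (nat_lit 494) (nat_lit 3565)) (.a (.f (nat_lit 492) (nat_lit 493) (nat_lit 3564) (.f (nat_lit 524) (nat_lit 491) (nat_lit 3563) (.d (nat_lit 556) (nat_lit 555) (nat_lit 1547) (nat_lit 557) (nat_lit 1548)))) (.a (.f (nat_lit 556) (nat_lit 557) (nat_lit 1548) (.f (nat_lit 524) (nat_lit 555) (nat_lit 1547) (.f (nat_lit 491) (nat_lit 492) (nat_lit 3563) (.d (nat_lit 523) (nat_lit 490) (nat_lit 3562) (nat_lit 494) (nat_lit 2539))))) (.f (nat_lit 494) (nat_lit 493) (nat_lit 3565) (.f (nat_lit 524) (nat_lit 523) (nat_lit 2539) (.d (nat_lit 556) (nat_lit 555) (nat_lit 1547) (nat_lit 557) (nat_lit 1548))))))))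
noncomputable def s128016 : Cert := .r (nat_lit 3773962425700235453045152993996215493513076086304515567314859584464652809181956945320039243262284641066441129223411287490775761095635163753639282460618927263661672103936) (.p (nat_lit 464) (.a (.f (nat_lit 465) (nat_lit 433) (nat_lit 6576) (.f (nat_lit 497) (nat_lit 592) (nat_lit 6608) (.d (nat_lit 494) (nat_lit 466) (nat_lit 2510) (nat_lit 493) (nat_lit 2509)))) (.a (.f (nat_lit 559) (nat_lit 591) (nat_lit 5583) (.f (nat_lit 432) (nat_lit 527) (nat_lit 5551) (.d (nat_lit 433) (nat_lit 401) (nat_lit 6544) (nat_lit 465) (nat_lit 6576)))) (.a (.f (nat_lit 559) (nat_lit 591) (nat_lit 5583) (.f (nat_lit 432) (nat_lit 527) (nat_lit 5551) (.f (nat_lit 399) (nat_lit 431) (nat_lit 7567) (.f (nat_lit 400) (nat_lit 367) (nat_lit 7535) (.d (nat_lit 401) (nat_lit 369) (nat_lit 6512) (nat_lit 433) (nat_lit 6544)))))) (.f (nat_lit 559) (nat_lit 591) (nat_lit 5583) (.f (nat_lit 527)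 (nat_lit 432) (nat_lit 5551) (.f (nat_lit 592) (nat_lit 624) (nat_lit 7663) (.f (nat_lit 497) (nat_lit 465) (nat_lit 6608) (.f (nat_lit 498) (nat_lit 499) (nat_lit 1519) (.f (nat_lit 530) (nat_lit 531) (nat_lit 495) (.d (nat_lit 529) (nat_lit 494) (nat_lit 494) (nat_lit 558) (nat_lit 1550))))))))))))
noncomputable def s128017 : Cert := .r (nat_lit 3773962425700235453045152993996215493513076086304515567314859584464652809181956945320039243262284641066441129223411287490775761095635163753639282460618927263661672103936) (.p (nat_lit 464) (.a (.f (nat_lit 559) (nat_lit 591) (nat_lit 5583) (.f (nat_lit 432) (nat_lit 527) (nat_lit 5551) (.d (nat_lit 433) (nat_lit 401) (nat_lit 6544) (nat_lit 465) (nat_lit 6576)))) (.a (.f (nat_lit 465) (nat_lit 433) (nat_lit 6576) (.f (nat_lit 463) (nat_lit 431) (nat_lit 7599) (.d (nat_lit 494) (nat_lit 466) (nat_lit 1486) (nat_lit 493) (nat_lit 2509)))) (.a (.f (nat_lit 559) (nat_lit 591)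 (nat_lit 5583) (.f (nat_lit 432) (nat_lit 527) (nat_lit 5551) (.f (nat_lit 399) (nat_lit 431) (nat_lit 7567) (.f (nat_lit 400) (nat_lit 367) (nat_lit 7535) (.d (nat_lit 401) (nat_lit 369) (nat_lit 6512) (nat_lit 433) (nat_lit 6544)))))) (.f (nat_lit 463) (nat_lit 431) (nat_lit 7599) (.f (nat_lit 559) (nat_lit 591) (nat_lit 5583) (.f (nat_lit 527) (nat_lit 432) (nat_lit 5551) (.f (nat_lit 462) (nat_lit 430) (nat_lit 7598) (.d (nat_lit 461) (nat_lit 460) (nat_lit 460) (nat_lit 497) (nat_lit 461))))))))))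
noncomputable def s128027 : Cert := .r (nat_lit 3773962425700235453045152993996215493513076086304515567314859584464652809181956945320039243262284641066441129223411287490775761095635163753639282460618927263661672103936) (.p (nat_lit 464) (.a (.f (nat_lit 465) (nat_lit 433) (nat_lit 6576) (.f (nat_lit 497) (nat_lit 592) (nat_lit 6608) (.d (nat_lit 494) (nat_lit 466) (nat_lit 2510) (nat_lit 493) (nat_lit 2509)))) (.a (.f (nat_lit 559) (nat_lit 591) (nat_lit 5583) (.f (nat_lit 432) (nat_lit 527) (nat_lit 5551) (.f (nat_lit 399) (nat_lit 431) (nat_lit 7567) (.f (nat_lit 400) (nat_lit 367) (nat_lit 7535) (.d (nat_lit 401) (nat_lit 369) (nat_lit 6512) (nat_lit 433) (nat_lit 6544)))))) (.f (nat_lit 591) (nat_lit 559) (nat_lit 5583) (.f (nat_lit 592) (nat_lit 623) (nat_lit 5615) (.f (nat_lit 624) (nat_lit 527) (nat_lit 7663) (.d (nat_lit 625) (nat_lit 593) (nat_lit 4592) (nat_lit 657) (nat_lit 4624))))))))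
noncomputable def s128028 : Cert := .r (nat_lit 3773962425700235453045152993996215493513076086304515567314859584464652809181956945320039243262284641066441129223411287490775761095635163753639282460618927263661672103936) (.p (nat_lit 464) (.a (.f (nat_lit 559) (nat_lit 591) (nat_lit 5583) (.f (nat_lit 432) (nat_lit 527) (nat_lit 5551) (.d (nat_lit 433) (nat_lit 401) (nat_lit 6544) (nat_lit 465) (nat_lit 6576)))) (.a (.f (nat_lit 465) (nat_lit 433) (nat_lit 6576) (.f (nat_lit 592) (nat_lit 497) (nat_lit 6608) (.d (nat_lit 591) (nat_lit 559) (nat_lit 5583) (nat_lit 623) (nat_lit 5615)))) (.a (.f (nat_lit 465) (nat_lit 433) (nat_lit 6576) (.f (nat_lit 592) (nat_lit 497) (nat_lit 6608) (.f (nat_lit 624) (nat_lit 527) (nat_lit 7663) (.d (nat_lit 623) (nat_lit 591) (nat_lit 5615) (nat_lit 655) (nat_lit 5647))))) (.a (.f (nat_lit 559) (nat_lit 591) (nat_lit 5583) (.f (nat_lit 432) (nat_lit 527) (nat_lit 5551) (.f (nat_lit 399)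 (nat_lit 431) (nat_lit 7567) (.f (nat_lit 400) (nat_lit 367) (nat_lit 7535) (.d (nat_lit 401) (nat_lit 369) (nat_lit 6512) (nat_lit 433) (nat_lit 6544)))))) (.a (.f (nat_lit 465) (nat_lit 433) (nat_lit 6576) (.f (nat_lit 592) (nat_lit 497) (nat_lit 6608) (.f (nat_lit 624) (nat_lit 527) (nat_lit 7663) (.d (nat_lit 625) (nat_lit 593) (nat_lit 4592) (nat_lit 657) (nat_lit 4624))))) (.f (nat_lit 591) (nat_lit 559) (nat_lit 5583) (.f (nat_lit 592) (nat_lit 623) (nat_lit 5615) (.f (nat_lit 624) (nat_lit 527) (nat_lit 7663) (.d (nat_lit 625) (nat_lit 593) (nat_lit 4592) (nat_lit 657) (nat_lit 4624)))))))))))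
noncomputable def s128036 : Cert := .r (nat_lit 3773962425700235453045152993996215493513076086304515567314859584464652809181956945320039243262284641066441129223411287490775761095635163753639282460618927263661672103936) (.p (nat_lit 464) (.a (.f (nat_lit 559) (nat_lit 591) (nat_lit 5583) (.f (nat_lit 432) (nat_lit 527) (nat_lit 5551) (.d (nat_lit 433) (nat_lit 401) (nat_lit 6544) (nat_lit 465) (nat_lit 6576)))) (.a (.f (nat_lit 465) (nat_lit 433) (nat_lit 6576) (.f (nat_lit 494) (nat_lit 493) (nat_lit 2509) (.d (nat_lit 466) (nat_lit 467) (nat_lit 1487) (nat_lit 497) (nat_lit 2510)))) (.a (.f (nat_lit 559) (nat_lit 591) (nat_lit 5583) (.f (nat_lit 432) (nat_lit 527) (nat_lit 5551) (.f (nat_lit 399) (nat_lit 431) (nat_lit 7567) (.f (nat_lit 400) (nat_lit 367) (nat_lit 7535) (.d (nat_lit 401) (nat_lit 369) (nat_lit 6512) (nat_lit 433) (nat_lit 6544)))))) (.f (nat_lit 559) (nat_lit 591) (nat_lit 5583) (.f (nat_lit 432)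 (nat_lit 527) (nat_lit 5551) (.f (nat_lit 399) (nat_lit 431) (nat_lit 7567) (.f (nat_lit 400) (nat_lit 367) (nat_lit 7535) (.f (nat_lit 497) (nat_lit 529) (nat_lit 4496) (.f (nat_lit 465) (nat_lit 368) (nat_lit 4464) (.d (nat_lit 494) (nat_lit 466) (nat_lit 2510) (nat_lit 493) (nat_lit 2509))))))))))))
noncomputable def s128040 : Cert := .r (nat_lit 3773962425700235453045152993996215493513076086304515567314859584464652809181956945320039243262284641066441129223411287490775761095635163753639282460618927263661672103936) (.p (nat_lit 592) (.a (.f (nat_lit 591) (nat_lit 623) (nat_lit 5615) (.f (nat_lit 593) (nat_lit 625) (nat_lit 4592) (.f (nat_lit 559) (nat_lit 464) (nat_lit 5583) (.d (nat_lit 558) (nat_lit 557) (nat_lit 557) (nat_lit 594) (nat_lit 3630))))) (.a (.f (nat_lit 624) (nat_lit 527) (nat_lit 7663) (.d (nat_lit 625) (nat_lit 593) (nat_lit 4592) (nat_lit 657) (nat_lit 4624))) (.f (nat_lit 591) (nat_lit 623) (nat_lit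 5615) (.f (nat_lit 559) (nat_lit 464) (nat_lit 5583) (.f (nat_lit 527) (nat_lit 624) (nat_lit 4591) (.f (nat_lit 494) (nat_lit 462) (nat_lit 7630) (.d (nat_lit 493) (nat_lit 492) (nat_lit 492) (nat_lit 529) (nat_lit 493)))))))))
noncomputable def s128067 : Cert := .r (nat_lit 878694100854745141256323819315110954901006375692038316188451534125484520860414608653448913445023849385239695046487780905203497230596867842715690486470535020544) (.p (nat_lit 497) (.a (.f (nat_lit 465) (nat_lit 466) (nat_lit 2510) (.f (nat_lit 493) (nat_lit 464) (nat_lit 2509) (.d (nat_lit 461) (nat_lit 460) (nat_lit 3532) (nat_lit 462) (nat_lit 3533)))) (.a (.f (nat_lit 462) (nat_lit 461) (nat_lit 3533) (.f (nat_lit 498) (nat_lit 463) (nat_lit 3534) (.d (nat_lit 466) (nat_lit 465) (nat_lit 2510) (nat_lit 467) (nat_lit 2511)))) (.a (.f (nat_lit 462) (nat_lit 461) (nat_lit 3533) (.f (nat_lit 498) (nat_lit 463) (nat_lit 3534) (.f (nat_lit 499) (nat_lit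 527) (nat_lit 1519) (.d (nat_lit 467) (nat_lit 466) (nat_lit 2511) (nat_lit 468) (nat_lit 2512))))) (.a (.f (nat_lit 465) (nat_lit 466) (nat_lit 2510) (.f (nat_lit 493) (nat_lit 464) (nat_lit 2509) (.f (nat_lit 492) (nat_lit 527) (nat_lit 492) (.d (nat_lit 524) (nat_lit 523) (nat_lit 1515) (nat_lit 525) (nat_lit 1516))))) (.f (nat_lit 462) (nat_lit 461) (nat_lit 3533) (.f (nat_lit 498) (nat_lit 463) (nat_lit 3534) (.f (nat_lit 527) (nat_lit 499) (nat_lit 1519) (.f (nat_lit 559) (nat_lit 591) (nat_lit 7630) (.f (nat_lit 493) (nat_lit 492) (nat_lit 492) (.d (nat_lit 464) (nat_lit 432) (nat_lit 5551) (nat_lit 465) (nat_lit 2509))))))))))))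
noncomputable def s128096 : Cert := .r (nat_lit 3773962425700235453045152994043849596148512979483556052388607849628053049395961021718646984955787017452240775526516544190352970128225296369627542697671050915994562199552) (.p (nat_lit 432) (.a (.d (nat_lit 431) (nat_lit 399) (nat_lit 7567) (nat_lit 463) (nat_lit 7599)) (.a (.f (nat_lit 399) (nat_lit 431) (nat_lit 7567) (.f (nat_lit 400) (nat_lit 367) (nat_lit 7535) (.d (nat_lit 401) (nat_lit 369) (nat_lit 6512) (nat_lit 433) (nat_lit 6544)))) (.a (.f (nat_lit 401) (nat_lit 433) (nat_lit 6544) (.f (nat_lit 400) (nat_lit 369) (nat_lit 6512) (.f (nat_lit 367) (nat_lit 399) (nat_lit 7535) (.d (nat_lit 368) (nat_lit 335) (nat_lit 7503) (nat_lit 463) (nat_lit 5487))))) (.f (nat_lit 463) (nat_lit 431) (nat_lit 7599) (.f (nat_lit 400) (nat_lit 368) (nat_lit 5487) (.d (nat_lit 401) (nat_lit 369) (nat_lit 6512) (nat_lit 433) (nat_lit 6544))))))))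
noncomputable def s128151 : Cert := .r (nat_lit 1318041150847370521797096438179258122331114293671158835124282878941979184664658013991928719040001288092378025047918138138408740222977764997599193790977052508160) (.p (nat_lit 559) (.a (.f (nat_lit 558) (nat_lit 590) (nat_lit 5582) (.f (nat_lit 557) (nat_lit 556) (nat_lit 2572) (.d (nat_lit 529) (nat_lit 526) (nat_lit 1549) (nat_lit 530) (nat_lit 1550)))) (.a (.f (nat_lit 558) (nat_lit 590) (nat_lit 5582) (.f (nat_lit 560) (nat_lit 592) (nat_lit 4559) (.d (nat_lit 557) (nat_lit 529) (nat_lit 2573) (nat_lit 556) (nat_lit 2572)))) (.a (.f (nat_lit 592) (nat_lit 560) (nat_lit 4559) (.f (nat_lit 591) (nat_lit 624) (nat_lit 4591) (.d (nat_lit 590) (nat_lit 558) (nat_lit 5582) (nat_lit 622) (nat_lit 5614)))) (.f (nat_lit 462) (nat_lit 430) (nat_lit 7598) (.f (nat_lit 494) (nat_lit 591) (nat_lit 7630) (.f (nat_lit 493) (nat_lit 492) (nat_lit 492) (.d (nat_lit 464) (nat_lit 432)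 (nat_lit 6575) (nat_lit 465) (nat_lit 1485)))))))))
noncomputable def s128177 : Cert := .r (nat_lit 1318041150847370521797096438179258122331114293671158835124282878941979184664658013991928719040001288092378025047918138138408740222977764997599193790977052508160) (.p (nat_lit 431) (.a (.f (nat_lit 526) (nat_lit 558) (nat_lit 5550) (.f (nat_lit 494) (nat_lit 399) (nat_lit 5518) (.d (nat_lit 529) (nat_lit 493) (nat_lit 3565) (nat_lit 530) (nat_lit 3566)))) (.a (.f (nat_lit 558) (nat_lit 526) (nat_lit 5550) (.f (nat_lit 559) (nat_lit 590) (nat_lit 5582) (.d (nat_lit 432) (nat_lit 400) (nat_lit 6543) (nat_lit 464) (nat_lit 6575)))) (.a (.f (nat_lit 432) (nat_lit 400) (nat_lit 6543) (.f (nat_lit 559) (nat_lit 464) (nat_lit 6575) (.f (nat_lit 462) (nat_lit 430) (nat_lit 7598) (.f (nat_lit 591) (nat_lit 494) (nat_lit 7630) (.d (nat_lit 590) (nat_lit 558) (nat_lit 5582) (nat_lit 622) (nat_lit 5614)))))) (.f (nat_lit 432) (nat_lit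 400) (nat_lit 6543) (.f (nat_lit 559) (nat_lit 464) (nat_lit 6575) (.f (nat_lit 462) (nat_lit 430) (nat_lit 7598) (.f (nat_lit 494) (nat_lit 591) (nat_lit 7630) (.d (nat_lit 399) (nat_lit 367) (nat_lit 5486) (nat_lit 526) (nat_lit 5518))))))))))
noncomputable def s128208 : Cert := .r (nat_lit 1318041150847370521797096438179258122331114293671158835124282878941979184664658013991928719040001288092378025047918138138408740222977764997599193790977052508160) (.p (nat_lit 430) (.a (.f (nat_lit 559) (nat_lit 462) (nat_lit 7598) (.f (nat_lit 558) (nat_lit 590) (nat_lit 5582) (.f (nat_lit 557) (nat_lit 556) (nat_lit 2572) (.d (nat_lit 529) (nat_lit 526) (nat_lit 1549) (nat_lit 530) (nat_lit 1550))))) (.a (.f (nat_lit 559) (nat_lit 462) (nat_lit 7598) (.f (nat_lit 431) (nat_lit 398) (nat_lit 7566) (.d (nat_lit 432) (nat_lit 400) (nat_lit 6543) (nat_lit 464) (nat_lit 6575)))) (.a (.f (nat_lit 431) (nat_lit 398) (nat_lit 7566) (.f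 (nat_lit 432) (nat_lit 400) (nat_lit 6543) (.f (nat_lit 464) (nat_lit 559) (nat_lit 6575) (.d (nat_lit 429) (nat_lit 428) (nat_lit 428) (nat_lit 465) (nat_lit 429))))) (.f (nat_lit 398) (nat_lit 431) (nat_lit 7566) (.d (nat_lit 462) (nat_lit 366) (nat_lit 4462) (nat_lit 494) (nat_lit 4494)))))))
noncomputable def s128217 : Cert := .r (nat_lit 1318041150847370521797096438179258122331114293671158835124282878941979184664658013991928719040001288092378025047918138138408740222977764997599193790977052508160) (.p (nat_lit 559) (.a (.f (nat_lit 558) (nat_lit 590) (nat_lit 5582) (.f (nat_lit 557) (nat_lit 556) (nat_lit 2572) (.d (nat_lit 529) (nat_lit 526) (nat_lit 1549) (nat_lit 530) (nat_lit 1550)))) (.a (.f (nat_lit 558) (nat_lit 590) (nat_lit 5582) (.f (nat_lit 560) (nat_lit 592) (nat_lit 4559) (.d (nat_lit 557) (nat_lit 529) (nat_lit 2573) (nat_lit 556) (nat_lit 2572)))) (.a (.f (nat_lit 592) (nat_lit 560) (nat_lit 4559)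 (.f (nat_lit 591) (nat_lit 624) (nat_lit 4591) (.d (nat_lit 590) (nat_lit 558) (nat_lit 5582) (nat_lit 622) (nat_lit 5614)))) (.f (nat_lit 592) (nat_lit 560) (nat_lit 4559) (.f (nat_lit 591) (nat_lit 624) (nat_lit 4591) (.f (nat_lit 494) (nat_lit 462) (nat_lit 7630) (.f (nat_lit 493) (nat_lit 492) (nat_lit 492) (.d (nat_lit 529) (nat_lit 526) (nat_lit 3565) (nat_lit 530) (nat_lit 3566))))))))))
noncomputable def s128312 : Cert := .r (nat_lit 8104522597357670585823358435739946935338597879668509856253832487374444124956231063467979402483229603953143411905532506328072848592178449585292622641643187331080850696403878412288) (.p (nat_lit 557) (.a (.f (nat_lit 558) (nat_lit 556) (nat_lit 2572) (.f (nat_lit 590) (nat_lit 622) (nat_lit 5614) (.d (nat_lit 592) (nat_lit 593) (nat_lit 3629) (nat_lit 624) (nat_lit 4591)))) (.a (.f (nat_lit 558) (nat_lit 556) (nat_lit 2572) (.d (nat_lit 529) (nat_lit 530) (nat_lit 1550) (nat_lit 560)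 (nat_lit 2573))) (.a (.f (nat_lit 592) (nat_lit 624) (nat_lit 4591) (.f (nat_lit 590) (nat_lit 622) (nat_lit 5614) (.f (nat_lit 589) (nat_lit 556) (nat_lit 3628) (.f (nat_lit 588) (nat_lit 560) (nat_lit 2604) (.d (nat_lit 620) (nat_lit 619) (nat_lit 1611) (nat_lit 621) (nat_lit 1612)))))) (.f (nat_lit 592) (nat_lit 624) (nat_lit 4591) (.f (nat_lit 590) (nat_lit 622) (nat_lit 5614) (.f (nat_lit 558) (nat_lit 593) (nat_lit 3629) (.d (nat_lit 529) (nat_lit 530) (nat_lit 1550) (nat_lit 560) (nat_lit 2573)))))))))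
noncomputable def s128322 : Cert := .r (nat_lit 8104522597357670585823358435739946935338597879668509856253832487374444124956231063467979402483229603953143411905532506328072848592178449585292622641643187331080850696403878412288) (.p (nat_lit 623) (.a (.d (nat_lit 622) (nat_lit 590) (nat_lit 5614) (nat_lit 654) (nat_lit 5646)) (.a (.f (nat_lit 655) (nat_lit 560) (nat_lit 6671) (.d (nat_lit 654) (nat_lit 622) (nat_lit 5646) (nat_lit 686) (nat_lit 5678))) (.a (.f (nat_lit 655) (nat_lit 560) (nat_lit 6671) (.f (nat_lit 686) (nat_lit 654) (nat_lit 5678) (.f (nat_lit 687) (nat_lit 718) (nat_lit 5710) (.d (nat_lit 688) (nat_lit 656) (nat_lit 4655) (nat_lit 720) (nat_lit 4687))))) (.f (nat_lit 655) (nat_lit 560) (nat_lit 6671) (.f (nat_lit 688) (nat_lit 656) (nat_lit 4655) (.f (nat_lit 687) (nat_lit 720) (nat_lit 4687) (.d (nat_lit 590) (nat_lit 558) (nat_lit 7726) (nat_lit 622) (nat_lit 5614)))))))))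
noncomputable def s128408 : Cert := .r (nat_lit 2358726516941341258586005254454846464829395774484645902048399042731120719344877083766796888499586734771128019810985666970491144964157184173089507403984481077978449575936) (.p (nat_lit 461) (.a (.f (nat_lit 460) (nat_lit 428) (nat_lit 7596) (.f (nat_lit 589) (nat_lit 492) (nat_lit 7628) (.d (nat_lit 588) (nat_lit 556) (nat_lit 5580) (nat_lit 620) (nat_lit 5612)))) (.a (.f (nat_lit 556) (nat_lit 588) (nat_lit 5580) (.f (nat_lit 429) (nat_lit 524) (nat_lit 5548) (.d (nat_lit 430) (nat_lit 398) (nat_lit 6541) (nat_lit 462) (nat_lit 6573)))) (.a (.f (nat_lit 460) (nat_lit 428) (nat_lit 7596) (.f (nat_lit 589) (nat_lit 492) (nat_lit 7628) (.f (nat_lit 620) (nat_lit 588) (nat_lit 5612) (.f (nat_lit 621) (nat_lit 652) (nat_lit 5644) (.d (nat_lit 622) (nat_lit 590) (nat_lit 4589) (nat_lit 654) (nat_lit 4621)))))) (.f (nat_lit 460) (nat_lit 428) (nat_lit 7596) (.f (nat_lit 492)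 (nat_lit 589) (nat_lit 7628) (.f (nat_lit 430) (nat_lit 462) (nat_lit 6573) (.f (nat_lit 429) (nat_lit 398) (nat_lit 6541) (.d (nat_lit 397) (nat_lit 365) (nat_lit 5484) (nat_lit 524) (nat_lit 5516))))))))))
noncomputable def s128411 : Cert := .r (nat_lit 2358726516941341258586005254454846464829395774484645902048399042731120719344877083766796888499586734771128019810985666970491144964157184173089507403984481077978449575936) (.p (nat_lit 461) (.a (.f (nat_lit 558) (nat_lit 590) (nat_lit 4557) (.d (nat_lit 560) (nat_lit 524) (nat_lit 3596) (nat_lit 529) (nat_lit 2573))) (.a (.f (nat_lit 460) (nat_lit 428) (nat_lit 7596) (.f (nat_lit 589) (nat_lit 492) (nat_lit 7628) (.f (nat_lit 620) (nat_lit 588) (nat_lit 5612) (.f (nat_lit 621) (nat_lit 652) (nat_lit 5644) (.d (nat_lit 622) (nat_lit 590) (nat_lit 4589) (nat_lit 654) (nat_lit 4621)))))) (.f (nat_lit 460) (nat_lit 428) (nat_lit 7596) (.f (nat_lit 492) (nat_lit 589) (nat_lit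 7628) (.f (nat_lit 430) (nat_lit 462) (nat_lit 6573) (.f (nat_lit 429) (nat_lit 398) (nat_lit 6541) (.d (nat_lit 397) (nat_lit 365) (nat_lit 5484) (nat_lit 524) (nat_lit 5516)))))))))
noncomputable def s128430 : Cert := .r (nat_lit 1886981213838648589555810931831312853464780621932590848501373255200417699045858477256031047852379388828444472932140186358019821885416585094019328122555394072522275160064) (.p (nat_lit 526) (.a (.f (nat_lit 557) (nat_lit 556) (nat_lit 1548) (.f (nat_lit 558) (nat_lit 529) (nat_lit 1549) (.d (nat_lit 524) (nat_lit 523) (nat_lit 523) (nat_lit 560) (nat_lit 524)))) (.a (.f (nat_lit 557) (nat_lit 556) (nat_lit 1548) (.f (nat_lit 524) (nat_lit 560) (nat_lit 524) (.f (nat_lit 558) (nat_lit 523) (nat_lit 523) (.d (nat_lit 461) (nat_lit 429) (nat_lit 4525) (nat_lit 590) (nat_lit 4557))))) (.a (.f (nat_lit 557) (nat_lit 556) (nat_lit 1548) (.f (nat_lit 558) (nat_lit 529) (nat_lit 1549) (.d (nat_lit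 461) (nat_lit 429) (nat_lit 4525) (nat_lit 590) (nat_lit 4557)))) (.a (.f (nat_lit 556) (nat_lit 557) (nat_lit 1548) (.d (nat_lit 524) (nat_lit 555) (nat_lit 1547) (nat_lit 560) (nat_lit 524))) (.a (.f (nat_lit 524) (nat_lit 560) (nat_lit 524) (.f (nat_lit 523) (nat_lit 558) (nat_lit 523) (.d (nat_lit 555) (nat_lit 554) (nat_lit 1546) (nat_lit 556) (nat_lit 1547)))) (.f (nat_lit 524) (nat_lit 560) (nat_lit 524) (.f (nat_lit 558) (nat_lit 523) (nat_lit 523) (.d (nat_lit 529) (nat_lit 530) (nat_lit 1550) (nat_lit 557) (nat_lit 1549))))))))))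
noncomputable def s128457 : Cert := .r (nat_lit 2358726516941341258586005254454846464829395774484645902048399042731120719344877083766796888499586734771128019810985666970491144964157184173089507403984481077978449575936) (.p (nat_lit 461) (.a (.f (nat_lit 556) (nat_lit 588) (nat_lit 5580) (.f (nat_lit 429) (nat_lit 524) (nat_lit 5548) (.d (nat_lit 430) (nat_lit 398) (nat_lit 6541) (nat_lit 462) (nat_lit 6573)))) (.a (.f (nat_lit 556) (nat_lit 588) (nat_lit 5580) (.f (nat_lit 429) (nat_lit 524) (nat_lit 5548) (.d (nat_lit 428) (nat_lit 396) (nat_lit 7564) (nat_lit 460) (nat_lit 7596)))) (.a (.f (nat_lit 462) (nat_lit 430) (nat_lit 6573) (.f (nat_lit 589) (nat_lit 494) (nat_lit 6605) (.d (nat_lit 588) (nat_lit 556) (nat_lit 5580) (nat_lit 620) (nat_lit 5612)))) (.f (nat_lit 462) (nat_lit 430) (nat_lit 6573) (.f (nat_lit 494) (nat_lit 589) (nat_lit 6605) (.d (nat_lit 460) (nat_lit 428) (nat_lit 7596) (nat_lit 459) (nat_lit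 459))))))))
noncomputable def s128518 : Cert := .r (nat_lit 1886981213838648589555810931831312853464780621932590848501373255200417699045858477256031047852379388828444472932140186358019821885416585094019328122555394072522275160064) (.p (nat_lit 461) (.a (.p (nat_lit 429) (.a (.f (nat_lit 556) (nat_lit 524) (nat_lit 5548) (.d (nat_lit 557) (nat_lit 558) (nat_lit 2572) (nat_lit 588) (nat_lit 5580))) (.a (.f (nat_lit 430) (nat_lit 398) (nat_lit 6541) (.f (nat_lit 428) (nat_lit 396) (nat_lit 7564) (.d (nat_lit 557) (nat_lit 460) (nat_lit 7596) (nat_lit 462) (nat_lit 6573)))) (.f (nat_lit 526) (nat_lit 558) (nat_lit 4525) (.d (nat_lit 524) (nat_lit 556) (nat_lit 5548) (nat_lit 560) (nat_lit 524)))))) (.a (.p (nat_lit 429) (.a (.f (nat_lit 556) (nat_lit 524) (nat_lit 5548) (.d (nat_lit 557) (nat_lit 558) (nat_lit 2572) (nat_lit 588) (nat_lit 5580))) (.a (.f (nat_lit 430) (nat_lit 398) (nat_lit 6541) (.f (nat_lit 428) (nat_lit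 396) (nat_lit 7564) (.d (nat_lit 557) (nat_lit 460) (nat_lit 7596) (nat_lit 462) (nat_lit 6573)))) (.f (nat_lit 398) (nat_lit 430) (nat_lit 6541) (.f (nat_lit 397) (nat_lit 366) (nat_lit 6509) (.d (nat_lit 396) (nat_lit 364) (nat_lit 7532) (nat_lit 428) (nat_lit 7564))))))) (.a (.p (nat_lit 429) (.a (.f (nat_lit 556) (nat_lit 524) (nat_lit 5548) (.d (nat_lit 557) (nat_lit 558) (nat_lit 2572) (nat_lit 588) (nat_lit 5580))) (.a (.f (nat_lit 428) (nat_lit 396) (nat_lit 7564) (.f (nat_lit 460) (nat_lit 557) (nat_lit 7596) (.f (nat_lit 430) (nat_lit 398) (nat_lit 6541) (.d (nat_lit 459) (nat_lit 431) (nat_lit 1451) (nat_lit 458) (nat_lit 2474))))) (.f (nat_lit 526) (nat_lit 558) (nat_lit 4525) (.d (nat_lit 524) (nat_lit 556) (nat_lit 5548) (nat_lit 560) (nat_lit 524)))))) (.a (.p (nat_lit 557) (.a (.d (nat_lit 558) (nat_lit 556) (nat_lit 2572) (nat_lit 590) (nat_lit 4557)) (.a (.f (nat_lit 462) (nat_lit 430) (nat_lit 6573)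 (.f (nat_lit 589) (nat_lit 494) (nat_lit 6605) (.d (nat_lit 588) (nat_lit 556) (nat_lit 5580) (nat_lit 620) (nat_lit 5612)))) (.f (nat_lit 462) (nat_lit 430) (nat_lit 6573) (.f (nat_lit 494) (nat_lit 589) (nat_lit 6605) (.d (nat_lit 460) (nat_lit 428) (nat_lit 7596) (nat_lit 459) (nat_lit 459))))))) (.a (.p (nat_lit 429) (.a (.f (nat_lit 556) (nat_lit 524) (nat_lit 5548) (.d (nat_lit 557) (nat_lit 558) (nat_lit 2572) (nat_lit 588) (nat_lit 5580))) (.a (.f (nat_lit 428) (nat_lit 396) (nat_lit 7564) (.f (nat_lit 557) (nat_lit 460) (nat_lit 7596) (.d (nat_lit 556) (nat_lit 524) (nat_lit 5548) (nat_lit 588) (nat_lit 5580)))) (.a (.f (nat_lit 526) (nat_lit 558) (nat_lit 4525) (.d (nat_lit 524) (nat_lit 556) (nat_lit 5548) (nat_lit 560) (nat_lit 524))) (.a (.f (nat_lit 428) (nat_lit 396) (nat_lit 7564) (.f (nat_lit 557) (nat_lit 460) (nat_lit 7596) (.d (nat_lit 556) (nat_lit 558) (nat_lit 2572) (nat_lit 588) (nat_lit 5580))))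 (.f (nat_lit 526) (nat_lit 558) (nat_lit 4525) (.f (nat_lit 397) (nat_lit 494) (nat_lit 4493) (.d (nat_lit 396) (nat_lit 364) (nat_lit 7532) (nat_lit 428) (nat_lit 7564))))))))) (.a (.p (nat_lit 429) (.a (.f (nat_lit 556) (nat_lit 524) (nat_lit 5548) (.d (nat_lit 557) (nat_lit 558) (nat_lit 2572) (nat_lit 588) (nat_lit 5580))) (.f (nat_lit 398) (nat_lit 430) (nat_lit 6541) (.f (nat_lit 397) (nat_lit 366) (nat_lit 6509) (.d (nat_lit 396) (nat_lit 364) (nat_lit 7532) (nat_lit 428) (nat_lit 7564)))))) (.a (.p (nat_lit 429) (.a (.f (nat_lit 430) (nat_lit 398) (nat_lit 6541) (.f (nat_lit 428) (nat_lit 396) (nat_lit 7564) (.d (nat_lit 557) (nat_lit 460) (nat_lit 7596) (nat_lit 462) (nat_lit 6573)))) (.a (.f (nat_lit 428) (nat_lit 396) (nat_lit 7564) (.f (nat_lit 460) (nat_lit 557) (nat_lit 7596) (.f (nat_lit 430) (nat_lit 398) (nat_lit 6541) (.d (nat_lit 459) (nat_lit 431) (nat_lit 1451) (nat_lit 458) (nat_lit 2474))))) (.a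 (.f (nat_lit 428) (nat_lit 396) (nat_lit 7564) (.f (nat_lit 557) (nat_lit 460) (nat_lit 7596) (.d (nat_lit 556) (nat_lit 524) (nat_lit 5548) (nat_lit 588) (nat_lit 5580)))) (.a (.f (nat_lit 398) (nat_lit 430) (nat_lit 6541) (.f (nat_lit 397) (nat_lit 366) (nat_lit 6509) (.d (nat_lit 396) (nat_lit 364) (nat_lit 7532) (nat_lit 428) (nat_lit 7564)))) (.f (nat_lit 430) (nat_lit 398) (nat_lit 6541) (.f (nat_lit 557) (nat_lit 462) (nat_lit 6573) (.d (nat_lit 556) (nat_lit 524) (nat_lit 5548) (nat_lit 588) (nat_lit 5580))))))))) (.a (.p (nat_lit 429) (.a (.f (nat_lit 526) (nat_lit 558) (nat_lit 4525) (.d (nat_lit 524) (nat_lit 556) (nat_lit 5548) (nat_lit 560) (nat_lit 524))) (.f (nat_lit 398) (nat_lit 430) (nat_lit 6541) (.f (nat_lit 397) (nat_lit 366) (nat_lit 6509) (.d (nat_lit 396) (nat_lit 364) (nat_lit 7532) (nat_lit 428) (nat_lit 7564)))))) (.a (.p (nat_lit 429) (.a (.f (nat_lit 556) (nat_lit 524) (nat_lit 5548) (.d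 (nat_lit 557) (nat_lit 558) (nat_lit 2572) (nat_lit 588) (nat_lit 5580))) (.a (.f (nat_lit 430) (nat_lit 398) (nat_lit 6541) (.f (nat_lit 557) (nat_lit 462) (nat_lit 6573) (.d (nat_lit 556) (nat_lit 524) (nat_lit 5548) (nat_lit 588) (nat_lit 5580)))) (.a (.f (nat_lit 526) (nat_lit 558) (nat_lit 4525) (.d (nat_lit 524) (nat_lit 556) (nat_lit 5548) (nat_lit 560) (nat_lit 524))) (.a (.f (nat_lit 430) (nat_lit 398) (nat_lit 6541) (.f (nat_lit 557) (nat_lit 462) (nat_lit 6573) (.d (nat_lit 556) (nat_lit 558) (nat_lit 2572) (nat_lit 588) (nat_lit 5580)))) (.f (nat_lit 526) (nat_lit 558) (nat_lit 4525) (.f (nat_lit 494) (nat_lit 397) (nat_lit 4493) (.d (nat_lit 524) (nat_lit 523) (nat_lit 2539) (nat_lit 560) (nat_lit 524))))))))) (.p (nat_lit 429) (.a (.f (nat_lit 430) (nat_lit 398) (nat_lit 6541) (.f (nat_lit 428) (nat_lit 396) (nat_lit 7564) (.d (nat_lit 557) (nat_lit 460) (nat_lit 7596) (nat_lit 462) (nat_lit 6573)))) (.a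 (.f (nat_lit 428) (nat_lit 396) (nat_lit 7564) (.f (nat_lit 460) (nat_lit 557) (nat_lit 7596) (.f (nat_lit 430) (nat_lit 398) (nat_lit 6541) (.d (nat_lit 459) (nat_lit 431) (nat_lit 1451) (nat_lit 458) (nat_lit 2474))))) (.a (.f (nat_lit 526) (nat_lit 558) (nat_lit 4525) (.f (nat_lit 397) (nat_lit 494) (nat_lit 4493) (.d (nat_lit 396) (nat_lit 364) (nat_lit 7532) (nat_lit 428) (nat_lit 7564)))) (.f (nat_lit 526) (nat_lit 558) (nat_lit 4525) (.f (nat_lit 494) (nat_lit 397) (nat_lit 4493) (.d (nat_lit 524) (nat_lit 523) (nat_lit 2539) (nat_lit 560) (nat_lit 524))))))))))))))))))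
noncomputable def s128574 : Cert := .r (nat_lit 1886981213728811826968147812291230883637718732539334507859261985247094960138053610707721376580758102810735475607759947497803430453371136539258482123315541812801750171648) (.p (nat_lit 591) (.a (.d (nat_lit 592) (nat_lit 560) (nat_lit 4559) (nat_lit 624) (nat_lit 4591)) (.a (.f (nat_lit 622) (nat_lit 590) (nat_lit 5614) (.f (nat_lit 623) (nat_lit 654) (nat_lit 5646) (.d (nat_lit 624) (nat_lit 592) (nat_lit 4591) (nat_lit 656) (nat_lit 4623)))) (.a (.f (nat_lit 622) (nat_lit 590) (nat_lit 5614) (.f (nat_lit 623) (nat_lit 654) (nat_lit 5646) (.f (nat_lit 656) (nat_lit 624) (nat_lit 4623) (.d (nat_lit 655) (nat_lit 560) (nat_lit 6671) (nat_lit 688) (nat_lit 4655))))) (.f (nat_lit 560) (nat_lit 592) (nat_lit 4559) (.f (nat_lit 623) (nat_lit 655) (nat_lit 6671) (.d (nat_lit 622) (nat_lit 590) (nat_lit 5614) (nat_lit 654) (nat_lit 5646))))))))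
noncomputable def s128671 : Cert := .r (nat_lit 1886981213838648589555810931861084167611928680169491151672465920927542849179611025005160886410818374069569251871580971795255577530785417979011990770712971355230331469824) (.p (nat_lit 429) (.a (.f (nat_lit 524) (nat_lit 556) (nat_lit 5548) (.f (nat_lit 397) (nat_lit 492) (nat_lit 5516) (.d (nat_lit 398) (nat_lit 366) (nat_lit 6509) (nat_lit 430) (nat_lit 6541)))) (.a (.f (nat_lit 428) (nat_lit 396) (nat_lit 7564) (.f (nat_lit 556) (nat_lit 524) (nat_lit 5548) (.d (nat_lit 557) (nat_lit 460) (nat_lit 7596) (nat_lit 588) (nat_lit 5580)))) (.f (nat_lit 428) (nat_lit 396) (nat_lit 7564) (.f (nat_lit 460) (nat_lit 557) (nat_lit 7596) (.f (nat_lit 398) (nat_lit 430) (nat_lit 6541) (.f (nat_lit 397) (nat_lit 366) (nat_lit 6509) (.d (nat_lit 365) (nat_lit 333) (nat_lit 5452) (nat_lit 492) (nat_lit 5484)))))))))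
noncomputable def s128699 : Cert := .r (nat_lit 1886981213838648589555810931861084167611928680169491151672465920927542849179611025005160886410818374069569251871580971795255577530785417979011990770712971355230331469824) (.p (nat_lit 429) (.a (.f (nat_lit 428) (nat_lit 396) (nat_lit 7564) (.f (nat_lit 557) (nat_lit 460) (nat_lit 7596) (.d (nat_lit 526) (nat_lit 492) (nat_lit 3564) (nat_lit 556) (nat_lit 1548)))) (.a (.f (nat_lit 428) (nat_lit 396) (nat_lit 7564) (.f (nat_lit 460) (nat_lit 557) (nat_lit 7596) (.f (nat_lit 398) (nat_lit 430) (nat_lit 6541) (.f (nat_lit 397) (nat_lit 366) (nat_lit 6509) (.d (nat_lit 365) (nat_lit 333) (nat_lit 5452) (nat_lit 492) (nat_lit 5484)))))) (.a (.f (nat_lit 396) (nat_lit 428) (nat_lit 7564) (.f (nat_lit 397) (nat_lit 364) (nat_lit 7532) (.d (nat_lit 398) (nat_lit 366) (nat_lit 6509) (nat_lit 430) (nat_lit 6541)))) (.a (.f (nat_lit 398) (nat_lit 430) (nat_lit 6541) (.f (nat_lit 397)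 (nat_lit 366) (nat_lit 6509) (.f (nat_lit 364) (nat_lit 396) (nat_lit 7532) (.f (nat_lit 365) (nat_lit 332) (nat_lit 7500) (.d (nat_lit 492) (nat_lit 460) (nat_lit 5484) (nat_lit 526) (nat_lit 3564)))))) (.f (nat_lit 398) (nat_lit 430) (nat_lit 6541) (.f (nat_lit 397) (nat_lit 366) (nat_lit 6509) (.f (nat_lit 492) (nat_lit 526) (nat_lit 3564) (.f (nat_lit 460) (nat_lit 365) (nat_lit 5484) (.d (nat_lit 557) (nat_lit 428) (nat_lit 7596) (nat_lit 589) (nat_lit 7628)))))))))))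
noncomputable def s128773 : Cert := .r (nat_lit 1886981213838648589555810931861084167611928680169491151672465920927542849179611025005160886410818374069569251871580971795255577530785417979011990770712971355230331469824) (.p (nat_lit 429) (.a (.f (nat_lit 396) (nat_lit 428) (nat_lit 7564) (.f (nat_lit 397) (nat_lit 364) (nat_lit 7532) (.d (nat_lit 524) (nat_lit 492) (nat_lit 5516) (nat_lit 556) (nat_lit 5548)))) (.a (.f (nat_lit 428) (nat_lit 396) (nat_lit 7564) (.d (nat_lit 464) (nat_lit 432) (nat_lit 6575) (nat_lit 462) (nat_lit 3500))) (.a (.f (nat_lit 524) (nat_lit 556) (nat_lit 5548) (.f (nat_lit 397) (nat_lit 492) (nat_lit 5516) (.f (nat_lit 364) (nat_lit 396) (nat_lit 7532) (.f (nat_lit 365) (nat_lit 332) (nat_lit 7500) (.d (nat_lit 366) (nat_lit 334) (nat_lit 6477) (nat_lit 398) (nat_lit 6509)))))) (.f (nat_lit 464) (nat_lit 432) (nat_lit 6575) (.d (nat_lit 462) (nat_lit 428) (nat_lit 3500) (nat_lit 492) (nat_lit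 1484)))))))
noncomputable def s128874 : Cert := .r (nat_lit 1318041150847370521797096438179258122331114293671158835124282878941979184664658013991928719040001288092378025047918138138408740222977764997599193790977052508160) (.p (nat_lit 431) (.a (.f (nat_lit 558) (nat_lit 526) (nat_lit 5550) (.f (nat_lit 559) (nat_lit 590) (nat_lit 5582) (.d (nat_lit 432) (nat_lit 400) (nat_lit 6543) (nat_lit 464) (nat_lit 6575)))) (.a (.f (nat_lit 430) (nat_lit 398) (nat_lit 7566) (.f (nat_lit 432) (nat_lit 400) (nat_lit 6543) (.d (nat_lit 559) (nat_lit 462) (nat_lit 7598) (nat_lit 464) (nat_lit 6575)))) (.a (.f (nat_lit 400) (nat_lit 432) (nat_lit 6543) (.f (nat_lit 399) (nat_lit 368) (nat_lit 6511) (.d (nat_lit 398) (nat_lit 366) (nat_lit 7534) (nat_lit 430) (nat_lit 7566)))) (.f (nat_lit 558) (nat_lit 526) (nat_lit 5550) (.f (nat_lit 559) (nat_lit 590) (nat_lit 5582) (.d (nat_lit 430) (nat_lit 398) (nat_lit 7566) (nat_lit 462) (nat_lit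 7598))))))))
noncomputable def s128894 : Cert := .r (nat_lit 1318041150847370521814959226667546957273254475573814434560557969022230713314135917126992110184676155456042496310259591525630039953973362586493740160601886294016) (.p (nat_lit 460) (.a (.f (nat_lit 428) (nat_lit 427) (nat_lit 3499) (.f (nat_lit 492) (nat_lit 491) (nat_lit 1483) (.f (nat_lit 429) (nat_lit 464) (nat_lit 3500) (.d (nat_lit 397) (nat_lit 365) (nat_lit 5484) (nat_lit 524) (nat_lit 6540))))) (.a (.f (nat_lit 427) (nat_lit 428) (nat_lit 3499) (.f (nat_lit 459) (nat_lit 426) (nat_lit 3498) (.d (nat_lit 491) (nat_lit 490) (nat_lit 1482) (nat_lit 492) (nat_lit 1483)))) (.a (.f (nat_lit 459) (nat_lit 494) (nat_lit 459) (.d (nat_lit 427) (nat_lit 426) (nat_lit 3498) (nat_lit 428) (nat_lit 3499))) (.f (nat_lit 494) (nat_lit 459) (nat_lit 459) (.d (nat_lit 492) (nat_lit 491) (nat_lit 1483) (nat_lit 493) (nat_lit 492)))))))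
noncomputable def s128949 : Cert := .r (nat_lit 1318041150847370521797096438179258122331114293671158835124282878941979184664658013991928719040001288092378025047918138138408740222977764997599193790977052508160) (.p (nat_lit 462) (.a (.f (nat_lit 559) (nat_lit 430) (nat_lit 7598) (.f (nat_lit 494) (nat_lit 591) (nat_lit 7630) (.f (nat_lit 464) (nat_lit 432) (nat_lit 6575) (.d (nat_lit 493) (nat_lit 465) (nat_lit 1485) (nat_lit 492) (nat_lit 2508))))) (.a (.f (nat_lit 430) (nat_lit 559) (nat_lit 7598) (.d (nat_lit 398) (nat_lit 366) (nat_lit 4462) (nat_lit 431) (nat_lit 7566))) (.a (.p (nat_lit 461) (.a (.p (nat_lit 460) (.a (.f (nat_lit 428) (nat_lit 427) (nat_lit 3499) (.f (nat_lit 492) (nat_lit 491) (nat_lit 1483) (.f (nat_lit 429) (nat_lit 464) (nat_lit 3500) (.d (nat_lit 397) (nat_lit 365) (nat_lit 5484) (nat_lit 524) (nat_lit 6540))))) (.a (.f (nat_lit 427) (nat_lit 428) (nat_lit 3499) (.f (nat_lit 459) (nat_lit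 426) (nat_lit 3498) (.d (nat_lit 491) (nat_lit 490) (nat_lit 1482) (nat_lit 492) (nat_lit 1483)))) (.f (nat_lit 431) (nat_lit 432) (nat_lit 2476) (.d (nat_lit 430) (nat_lit 398) (nat_lit 7566) (nat_lit 459) (nat_lit 2475)))))) (.a s128894 (.a (.p (nat_lit 460) (.a (.f (nat_lit 427) (nat_lit 428) (nat_lit 3499) (.f (nat_lit 459) (nat_lit 426) (nat_lit 3498) (.d (nat_lit 491) (nat_lit 490) (nat_lit 1482) (nat_lit 492) (nat_lit 1483)))) (.a (.f (nat_lit 431) (nat_lit 432) (nat_lit 2476) (.d (nat_lit 430) (nat_lit 398) (nat_lit 7566) (nat_lit 459) (nat_lit 2475))) (.f (nat_lit 492) (nat_lit 491) (nat_lit 1483) (.d (nat_lit 493) (nat_lit 464) (nat_lit 1484) (nat_lit 494) (nat_lit 492)))))) (.a (.p (nat_lit 460) (.a (.f (nat_lit 431) (nat_lit 432) (nat_lit 2476) (.d (nat_lit 430) (nat_lit 398) (nat_lit 7566) (nat_lit 459) (nat_lit 2475))) (.a (.f (nat_lit 459) (nat_lit 494) (nat_lit 459) (.d (nat_lit 427) (nat_lit 426) (nat_lit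 3498) (nat_lit 428) (nat_lit 3499))) (.f (nat_lit 431) (nat_lit 432) (nat_lit 2476) (.f (nat_lit 430) (nat_lit 398) (nat_lit 7566) (.f (nat_lit 428) (nat_lit 427) (nat_lit 3499) (.f (nat_lit 429) (nat_lit 464) (nat_lit 428) (.f (nat_lit 396) (nat_lit 395) (nat_lit 3467) (.d (nat_lit 364) (nat_lit 332) (nat_lit 4428) (nat_lit 493) (nat_lit 4460)))))))))) (.a (.p (nat_lit 431) (.a (.f (nat_lit 430) (nat_lit 398) (nat_lit 7566) (.d (nat_lit 432) (nat_lit 400) (nat_lit 6543) (nat_lit 433) (nat_lit 1453))) (.a (.f (nat_lit 432) (nat_lit 400) (nat_lit 6543) (.d (nat_lit 433) (nat_lit 434) (nat_lit 1454) (nat_lit 464) (nat_lit 2477))) (.a (.f (nat_lit 398) (nat_lit 430) (nat_lit 7566) (.f (nat_lit 399) (nat_lit 366) (nat_lit 7534) (.f (nat_lit 368) (nat_lit 400) (nat_lit 6511) (.d (nat_lit 367) (nat_lit 336) (nat_lit 6479) (nat_lit 494) (nat_lit 5486))))) (.f (nat_lit 398) (nat_lit 430) (nat_lit 7566) (.f (nat_lit 399) (nat_lit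 366) (nat_lit 7534) (.f (nat_lit 494) (nat_lit 367) (nat_lit 5486) (.f (nat_lit 493) (nat_lit 492) (nat_lit 492) (.f (nat_lit 464) (nat_lit 465) (nat_lit 1485) (.f (nat_lit 432) (nat_lit 433) (nat_lit 2477) (.f (nat_lit 429) (nat_lit 428) (nat_lit 3500) (.d (nat_lit 397) (nat_lit 365) (nat_lit 4461) (nat_lit 396) (nat_lit 396))))))))))))) (.a (.p (nat_lit 460) (.a (.f (nat_lit 427) (nat_lit 428) (nat_lit 3499) (.f (nat_lit 459) (nat_lit 426) (nat_lit 3498) (.d (nat_lit 491) (nat_lit 490) (nat_lit 1482) (nat_lit 492) (nat_lit 1483)))) (.a (.f (nat_lit 431) (nat_lit 432) (nat_lit 2476) (.d (nat_lit 430) (nat_lit 398) (nat_lit 7566) (nat_lit 459) (nat_lit 2475))) (.f (nat_lit 428) (nat_lit 427) (nat_lit 3499) (.f (nat_lit 492) (nat_lit 491) (nat_lit 1483) (.f (nat_lit 493) (nat_lit 494) (nat_lit 492) (.d (nat_lit 396) (nat_lit 364) (nat_lit 4460) (nat_lit 525) (nat_lit 4492)))))))) (.p (nat_lit 460) (.a (.f (nat_lit 431)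 (nat_lit 432) (nat_lit 2476) (.d (nat_lit 430) (nat_lit 398) (nat_lit 7566) (nat_lit 459) (nat_lit 2475))) (.a (.f (nat_lit 494) (nat_lit 459) (nat_lit 459) (.d (nat_lit 492) (nat_lit 491) (nat_lit 1483) (nat_lit 493) (nat_lit 492))) (.f (nat_lit 492) (nat_lit 491) (nat_lit 1483) (.d (nat_lit 493) (nat_lit 464) (nat_lit 1484) (nat_lit 494) (nat_lit 492))))))))))))) (.p (nat_lit 461) (.a s128894 (.a (.p (nat_lit 460) (.a (.f (nat_lit 428) (nat_lit 427) (nat_lit 3499) (.f (nat_lit 492) (nat_lit 491) (nat_lit 1483) (.f (nat_lit 429) (nat_lit 464) (nat_lit 3500) (.d (nat_lit 397) (nat_lit 365) (nat_lit 5484) (nat_lit 524) (nat_lit 6540))))) (.a (.f (nat_lit 427) (nat_lit 428) (nat_lit 3499) (.f (nat_lit 459) (nat_lit 426) (nat_lit 3498) (.d (nat_lit 491) (nat_lit 490) (nat_lit 1482) (nat_lit 492) (nat_lit 1483)))) (.f (nat_lit 432) (nat_lit 431) (nat_lit 2476) (.d (nat_lit 464) (nat_lit 433) (nat_lit 2477) (nat_lit 559)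 (nat_lit 6575)))))) (.a (.p (nat_lit 460) (.a (.f (nat_lit 427) (nat_lit 428) (nat_lit 3499) (.f (nat_lit 459) (nat_lit 426) (nat_lit 3498) (.d (nat_lit 491) (nat_lit 490) (nat_lit 1482) (nat_lit 492) (nat_lit 1483)))) (.f (nat_lit 432) (nat_lit 431) (nat_lit 2476) (.d (nat_lit 464) (nat_lit 433) (nat_lit 2477) (nat_lit 559) (nat_lit 6575))))) (.a (.p (nat_lit 460) (.a (.f (nat_lit 432) (nat_lit 431) (nat_lit 2476) (.d (nat_lit 464) (nat_lit 433) (nat_lit 2477) (nat_lit 559) (nat_lit 6575))) (.f (nat_lit 459) (nat_lit 494) (nat_lit 459) (.d (nat_lit 427) (nat_lit 426) (nat_lit 3498) (nat_lit 428) (nat_lit 3499))))) (.a (.p (nat_lit 464) (.a (.d (nat_lit 432) (nat_lit 433) (nat_lit 2477) (nat_lit 559) (nat_lit 6575)) (.a (.f (nat_lit 493) (nat_lit 492) (nat_lit 1484) (.f (nat_lit 465) (nat_lit 494) (nat_lit 1485) (.d (nat_lit 433) (nat_lit 432) (nat_lit 2477) (nat_lit 434) (nat_lit 2478)))) (.a (.f (nat_lit 493) (nat_lit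 492) (nat_lit 1484) (.f (nat_lit 465) (nat_lit 494) (nat_lit 1485) (.f (nat_lit 498) (nat_lit 497) (nat_lit 462) (.f (nat_lit 466) (nat_lit 499) (nat_lit 463) (.d (nat_lit 434) (nat_lit 433) (nat_lit 2478) (nat_lit 435) (nat_lit 2479)))))) (.f (nat_lit 493) (nat_lit 492) (nat_lit 1484) (.f (nat_lit 494) (nat_lit 465) (nat_lit 1485) (.d (nat_lit 559) (nat_lit 432) (nat_lit 6575) (nat_lit 591) (nat_lit 7630)))))))) (.p (nat_lit 460) (.a (.f (nat_lit 427) (nat_lit 428) (nat_lit 3499) (.f (nat_lit 459) (nat_lit 426) (nat_lit 3498) (.d (nat_lit 491) (nat_lit 490) (nat_lit 1482) (nat_lit 492) (nat_lit 1483)))) (.a (.f (nat_lit 459) (nat_lit 494) (nat_lit 459) (.d (nat_lit 427) (nat_lit 426) (nat_lit 3498) (nat_lit 428) (nat_lit 3499))) (.a (.f (nat_lit 494) (nat_lit 459) (nat_lit 459) (.d (nat_lit 492) (nat_lit 491) (nat_lit 1483) (nat_lit 493) (nat_lit 492))) (.f (nat_lit 428) (nat_lit 427) (nat_lit 3499) (.f (nat_lit 492)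 (nat_lit 491) (nat_lit 1483) (.f (nat_lit 493) (nat_lit 494) (nat_lit 492) (.d (nat_lit 396) (nat_lit 364) (nat_lit 4460) (nat_lit 525) (nat_lit 4492)))))))))))))))))))
noncomputable def s128968 : Cert := .r (nat_lit 1886981213728811826968147812291230883637718732539334507859261985247094960138053610707721376580758102810735475607759947497803430453371136539258482123315541812801750171648) (.p (nat_lit 494) (.a (.f (nat_lit 493) (nat_lit 492) (nat_lit 492) (.d (nat_lit 529) (nat_lit 526) (nat_lit 3565) (nat_lit 530) (nat_lit 3566))) (.a (.f (nat_lit 464) (nat_lit 432) (nat_lit 6575) (.f (nat_lit 493) (nat_lit 492) (nat_lit 2508) (.d (nat_lit 462) (nat_lit 430) (nat_lit 7598) (nat_lit 465) (nat_lit 1485)))) (.f (nat_lit 462) (nat_lit 430) (nat_lit 7598) (.f (nat_lit 529) (nat_lit 530) (nat_lit 3566) (.f (nat_lit 464) (nat_lit 432) (nat_lit 6575) (.f (nat_lit 465) (nat_lit 466) (nat_lit 1486) (.f (nat_lit 497) (nat_lit 498)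 (nat_lit 462) (.d (nat_lit 433) (nat_lit 434) (nat_lit 2478) (nat_lit 560) (nat_lit 5552))))))))))
noncomputable def s129023 : Cert := .r (nat_lit 1318041150847370521773279386871244019671016903142809152187083551797004676229169501158274209379252639518145086378769444043478162438324504117438044466212017012736) (.p (nat_lit 460) (.a (.f (nat_lit 432) (nat_lit 461) (nat_lit 1452) (.f (nat_lit 428) (nat_lit 459) (nat_lit 1451) (.d (nat_lit 400) (nat_lit 399) (nat_lit 2444) (nat_lit 401) (nat_lit 2445)))) (.a (.f (nat_lit 428) (nat_lit 459) (nat_lit 1451) (.f (nat_lit 396) (nat_lit 395) (nat_lit 3467) (.f (nat_lit 397) (nat_lit 432) (nat_lit 3468) (.d (nat_lit 365) (nat_lit 333) (nat_lit 5452) (nat_lit 492) (nat_lit 6508))))) (.a (.f (nat_lit 428) (nat_lit 459) (nat_lit 1451) (.f (nat_lit 396) (nat_lit 395) (nat_lit 3467) (.f (nat_lit 399) (nat_lit 400) (nat_lit 2444) (.f (nat_lit 398) (nat_lit 427) (nat_lit 2443) (.f (nat_lit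 462) (nat_lit 494) (nat_lit 4494) (.f (nat_lit 367) (nat_lit 335) (nat_lit 5454) (.f (nat_lit 397) (nat_lit 368) (nat_lit 2412) (.d (nat_lit 365) (nat_lit 333) (nat_lit 4429) (nat_lit 492) (nat_lit 6508))))))))) (.f (nat_lit 432) (nat_lit 461) (nat_lit 1452) (.f (nat_lit 397) (nat_lit 396) (nat_lit 3468) (.f (nat_lit 433) (nat_lit 398) (nat_lit 3469) (.d (nat_lit 401) (nat_lit 400) (nat_lit 2445) (nat_lit 402) (nat_lit 2446)))))))))
noncomputable def s129028 : Cert := .r (nat_lit 1318041150847370521773279386871244019671016903142809152187083551797004676229169501158274209379252639518145086378769444043478162438324504117438044466212017012736) (.p (nat_lit 460) (.a (.f (nat_lit 432) (nat_lit 461) (nat_lit 1452) (.f (nat_lit 428) (nat_lit 459) (nat_lit 1451) (.d (nat_lit 400) (nat_lit 399) (nat_lit 2444) (nat_lit 401) (nat_lit 2445)))) (.a (.f (nat_lit 428) (nat_lit 459) (nat_lit 1451) (.f (nat_lit 396) (nat_lit 395) (nat_lit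 3467) (.f (nat_lit 397) (nat_lit 432) (nat_lit 3468) (.d (nat_lit 365) (nat_lit 333) (nat_lit 5452) (nat_lit 492) (nat_lit 6508))))) (.a (.f (nat_lit 428) (nat_lit 459) (nat_lit 1451) (.f (nat_lit 395) (nat_lit 396) (nat_lit 3467) (.f (nat_lit 427) (nat_lit 394) (nat_lit 3466) (.d (nat_lit 399) (nat_lit 398) (nat_lit 2443) (nat_lit 400) (nat_lit 2444))))) (.f (nat_lit 432) (nat_lit 461) (nat_lit 1452) (.f (nat_lit 397) (nat_lit 396) (nat_lit 3468) (.f (nat_lit 433) (nat_lit 398) (nat_lit 3469) (.d (nat_lit 401) (nat_lit 400) (nat_lit 2445) (nat_lit 402) (nat_lit 2446)))))))))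
noncomputable def s129052 : Cert := .r (nat_lit 1318041150847370521773279386871244019671016903142809152187083551797004676229169501158274209379252639518145086378769444043478162438324504117438044466212017012736) (.p (nat_lit 428) (.a (.f (nat_lit 399) (nat_lit 400) (nat_lit 2444) (.f (nat_lit 398) (nat_lit 427) (nat_lit 2443) (.f (nat_lit 494) (nat_lit 462) (nat_lit 4494) (.f (nat_lit 396) (nat_lit 395) (nat_lit 3467) (.f (nat_lit 397) (nat_lit 432) (nat_lit 396) (.f (nat_lit 460) (nat_lit 459) (nat_lit 1451) (.d (nat_lit 492) (nat_lit 365) (nat_lit 6508) (nat_lit 493) (nat_lit 492)))))))) (.a (.f (nat_lit 399) (nat_lit 400) (nat_lit 2444) (.f (nat_lit 427) (nat_lit 398) (nat_lit 2443) (.d (nat_lit 459) (nat_lit 458) (nat_lit 1450) (nat_lit 460) (nat_lit 1451)))) (.a (.f (nat_lit 396) (nat_lit 395) (nat_lit 3467) (.f (nat_lit 397) (nat_lit 432) (nat_lit 3468) (.f (nat_lit 460) (nat_lit 459) (nat_lit 1451) (.d (nat_lit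 365) (nat_lit 333) (nat_lit 5452) (nat_lit 492) (nat_lit 6508))))) (.f (nat_lit 399) (nat_lit 400) (nat_lit 2444) (.f (nat_lit 398) (nat_lit 427) (nat_lit 2443) (.f (nat_lit 396) (nat_lit 395) (nat_lit 3467) (.f (nat_lit 397) (nat_lit 432) (nat_lit 396) (.f (nat_lit 364) (nat_lit 363) (nat_lit 3435) (.f (nat_lit 332) (nat_lit 300) (nat_lit 4396) (.f (nat_lit 333) (nat_lit 301) (nat_lit 6444) (.f (nat_lit 367) (nat_lit 368) (nat_lit 2412) (.f (nat_lit 331) (nat_lit 299) (nat_lit 7467) (.d (nat_lit 366) (nat_lit 334) (nat_lit 331) (nat_lit 365) (nat_lit 3403)))))))))))))))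
noncomputable def s129056 : Cert := .r (nat_lit 1318041150847370521773279386871244019671016903142809152187083551797004676229169501158274209379252639518145086378769444043478162438324504117438044466212017012736) (.p (nat_lit 460) (.a (.f (nat_lit 432) (nat_lit 461) (nat_lit 1452) (.f (nat_lit 428) (nat_lit 459) (nat_lit 1451) (.d (nat_lit 400) (nat_lit 399) (nat_lit 2444) (nat_lit 401) (nat_lit 2445)))) (.a (.f (nat_lit 428) (nat_lit 459) (nat_lit 1451) (.f (nat_lit 395) (nat_lit 396) (nat_lit 3467) (.f (nat_lit 427) (nat_lit 394) (nat_lit 3466) (.d (nat_lit 399) (nat_lit 398) (nat_lit 2443) (nat_lit 400) (nat_lit 2444))))) (.a (.f (nat_lit 432) (nat_lit 461) (nat_lit 1452) (.f (nat_lit 397) (nat_lit 396) (nat_lit 3468) (.f (nat_lit 433) (nat_lit 398) (nat_lit 3469) (.d (nat_lit 401) (nat_lit 400) (nat_lit 2445) (nat_lit 402) (nat_lit 2446))))) (.f (nat_lit 459) (nat_lit 428) (nat_lit 1451) (.d (nat_lit 461) (nat_lit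 458) (nat_lit 2474) (nat_lit 462) (nat_lit 2475)))))))
noncomputable def s129092 : Cert := .r (nat_lit 1318041150847370521773279386871244019671016903142809152187083551797004676229169501158274209379252639518145086378769444043478162438324504117438044466212017012736) (.p (nat_lit 460) (.a (.f (nat_lit 432) (nat_lit 461) (nat_lit 1452) (.f (nat_lit 428) (nat_lit 459) (nat_lit 1451) (.d (nat_lit 400) (nat_lit 399) (nat_lit 2444) (nat_lit 401) (nat_lit 2445)))) (.a (.f (nat_lit 428) (nat_lit 459) (nat_lit 1451) (.f (nat_lit 396) (nat_lit 395) (nat_lit 3467) (.f (nat_lit 397) (nat_lit 432) (nat_lit 3468) (.d (nat_lit 365) (nat_lit 333) (nat_lit 5452) (nat_lit 492) (nat_lit 6508))))) (.a (.f (nat_lit 459) (nat_lit 428) (nat_lit 1451) (.d (nat_lit 461) (nat_lit 458) (nat_lit 2474) (nat_lit 462) (nat_lit 2475))) (.f (nat_lit 432) (nat_lit 461) (nat_lit 1452) (.f (nat_lit 401) (nat_lit 400) (nat_lit 2445) (.f (nat_lit 433) (nat_lit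 402) (nat_lit 2446) (.d (nat_lit 465) (nat_lit 464) (nat_lit 429) (nat_lit 466) (nat_lit 430)))))))))
noncomputable def s129093 : Cert := .r (nat_lit 1318041150847370521773279386871244019671016903142809152187083551797004676229169501158274209379252639518145086378769444043478162438324504117438044466212017012736) (.p (nat_lit 460) (.a (.f (nat_lit 432) (nat_lit 461) (nat_lit 1452) (.f (nat_lit 428) (nat_lit 459) (nat_lit 1451) (.d (nat_lit 400) (nat_lit 399) (nat_lit 2444) (nat_lit 401) (nat_lit 2445)))) (.a (.f (nat_lit 428) (nat_lit 459) (nat_lit 1451) (.f (nat_lit 395) (nat_lit 396) (nat_lit 3467) (.f (nat_lit 427) (nat_lit 394) (nat_lit 3466) (.d (nat_lit 399) (nat_lit 398) (nat_lit 2443) (nat_lit 400) (nat_lit 2444))))) (.a (.f (nat_lit 459) (nat_lit 428) (nat_lit 1451) (.d (nat_lit 461) (nat_lit 458) (nat_lit 2474) (nat_lit 462) (nat_lit 2475))) (.f (nat_lit 432) (nat_lit 461) (nat_lit 1452) (.f (nat_lit 401) (nat_lit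 400) (nat_lit 2445) (.f (nat_lit 433) (nat_lit 402) (nat_lit 2446) (.d (nat_lit 465) (nat_lit 464) (nat_lit 429) (nat_lit 466) (nat_lit 430)))))))))
noncomputable def s129095 : Cert := .r (nat_lit 1318041150847370521773279386871244019671016903142809152187083551797004676229169501158274209379252639518145086378769444043478162438324504117438044466212017012736) (.p (nat_lit 428) (.a (.f (nat_lit 399) (nat_lit 400) (nat_lit 2444) (.f (nat_lit 398) (nat_lit 427) (nat_lit 2443) (.f (nat_lit 494) (nat_lit 462) (nat_lit 4494) (.f (nat_lit 396) (nat_lit 395) (nat_lit 3467) (.f (nat_lit 397) (nat_lit 432) (nat_lit 396) (.f (nat_lit 460) (nat_lit 459) (nat_lit 1451) (.d (nat_lit 492) (nat_lit 365) (nat_lit 6508) (nat_lit 493) (nat_lit 492)))))))) (.a (.f (nat_lit 399) (nat_lit 400) (nat_lit 2444) (.f (nat_lit 427) (nat_lit 398) (nat_lit 2443) (.d (nat_lit 459) (nat_lit 458) (nat_lit 1450) (nat_lit 460) (nat_lit 1451)))) (.a (.f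 (nat_lit 396) (nat_lit 395) (nat_lit 3467) (.f (nat_lit 397) (nat_lit 432) (nat_lit 3468) (.f (nat_lit 460) (nat_lit 459) (nat_lit 1451) (.d (nat_lit 365) (nat_lit 333) (nat_lit 5452) (nat_lit 492) (nat_lit 6508))))) (.f (nat_lit 396) (nat_lit 395) (nat_lit 3467) (.f (nat_lit 432) (nat_lit 397) (nat_lit 3468) (.f (nat_lit 401) (nat_lit 400) (nat_lit 2445) (.f (nat_lit 433) (nat_lit 402) (nat_lit 2446) (.d (nat_lit 465) (nat_lit 464) (nat_lit 429) (nat_lit 466) (nat_lit 430))))))))))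
noncomputable def s129100 : Cert := .r (nat_lit 1318041150847370521773279386871244019671016903142809152187083551797004676229169501158274209379252639518145086378769444043478162438324504117438044466212017012736) (.p (nat_lit 460) (.a (.f (nat_lit 432) (nat_lit 461) (nat_lit 1452) (.f (nat_lit 428) (nat_lit 459) (nat_lit 1451) (.d (nat_lit 400) (nat_lit 399) (nat_lit 2444) (nat_lit 401) (nat_lit 2445)))) (.a (.f (nat_lit 428) (nat_lit 459) (nat_lit 1451) (.f (nat_lit 395) (nat_lit 396) (nat_lit 3467) (.f (nat_lit 427) (nat_lit 394) (nat_lit 3466) (.d (nat_lit 399) (nat_lit 398) (nat_lit 2443) (nat_lit 400) (nat_lit 2444))))) (.a (.f (nat_lit 432) (nat_lit 461) (nat_lit 1452) (.f (nat_lit 397) (nat_lit 396) (nat_lit 3468) (.f (nat_lit 433) (nat_lit 398) (nat_lit 3469) (.d (nat_lit 401) (nat_lit 400) (nat_lit 2445) (nat_lit 402) (nat_lit 2446))))) (.f (nat_lit 432) (nat_lit 461) (nat_lit 1452) (.f (nat_lit 428) (nat_lit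 459) (nat_lit 1451) (.d (nat_lit 396) (nat_lit 395) (nat_lit 3467) (nat_lit 397) (nat_lit 3468))))))))
noncomputable def s129112 : Cert := .r (nat_lit 1318041150847370521773279386871244019671016903142809152187083551797004676229169501158274209379252639518145086378769444043478162438324504117438044466212017012736) (.p (nat_lit 428) (.a (.f (nat_lit 396) (nat_lit 395) (nat_lit 3467) (.f (nat_lit 432) (nat_lit 397) (nat_lit 3468) (.f (nat_lit 401) (nat_lit 400) (nat_lit 2445) (.f (nat_lit 433) (nat_lit 402) (nat_lit 2446) (.d (nat_lit 465) (nat_lit 464) (nat_lit 429) (nat_lit 466) (nat_lit 430)))))) (.a (.f (nat_lit 399) (nat_lit 400) (nat_lit 2444) (.f (nat_lit 427) (nat_lit 398) (nat_lit 2443) (.d (nat_lit 395) (nat_lit 394) (nat_lit 3466) (nat_lit 396) (nat_lit 3467)))) (.a (.f (nat_lit 396) (nat_lit 395) (nat_lit 3467) (.f (nat_lit 432) (nat_lit 397) (nat_lit 3468) (.f (nat_lit 465) (nat_lit 464) (nat_lit 429) (.f (nat_lit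 433) (nat_lit 466) (nat_lit 430) (.f (nat_lit 461) (nat_lit 462) (nat_lit 1453) (.f (nat_lit 493) (nat_lit 525) (nat_lit 7564) (.f (nat_lit 494) (nat_lit 492) (nat_lit 492) (.d (nat_lit 529) (nat_lit 526) (nat_lit 3565) (nat_lit 530) (nat_lit 3566))))))))) (.f (nat_lit 399) (nat_lit 400) (nat_lit 2444) (.f (nat_lit 398) (nat_lit 427) (nat_lit 2443) (.f (nat_lit 494) (nat_lit 462) (nat_lit 4494) (.f (nat_lit 493) (nat_lit 492) (nat_lit 492) (.d (nat_lit 529) (nat_lit 526) (nat_lit 3565) (nat_lit 530) (nat_lit 3566))))))))))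
noncomputable def s129127 : Cert := .r (nat_lit 1318041150847370521773279386871244019671016903142809152187083551797004676229169501158274209379252639518145086378769444043478162438324504117438044466212017012736) (.p (nat_lit 460) (.a (.f (nat_lit 432) (nat_lit 461) (nat_lit 1452) (.f (nat_lit 428) (nat_lit 459) (nat_lit 1451) (.d (nat_lit 400) (nat_lit 399) (nat_lit 2444) (nat_lit 401) (nat_lit 2445)))) (.a (.f (nat_lit 428) (nat_lit 459) (nat_lit 1451) (.f (nat_lit 399) (nat_lit 400) (nat_lit 2444) (.f (nat_lit 398) (nat_lit 427) (nat_lit 2443) (.f (nat_lit 494) (nat_lit 462) (nat_lit 4494) (.f (nat_lit 492) (nat_lit 493) (nat_lit 492) (.f (nat_lit 524) (nat_lit 397) (nat_lit 6540) (.f (nat_lit 525) (nat_lit 557) (nat_lit 4524) (.d (nat_lit 523) (nat_lit 526) (nat_lit 2539) (nat_lit 555) (nat_lit 5547))))))))) (.a (.f (nat_lit 459) (nat_lit 428) (nat_lit 1451) (.d (nat_lit 461) (nat_lit 458) (nat_lit 2474) (nat_lit 462)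 (nat_lit 2475))) (.f (nat_lit 432) (nat_lit 461) (nat_lit 1452) (.f (nat_lit 401) (nat_lit 400) (nat_lit 2445) (.f (nat_lit 433) (nat_lit 402) (nat_lit 2446) (.d (nat_lit 465) (nat_lit 464) (nat_lit 429) (nat_lit 466) (nat_lit 430)))))))))
noncomputable def s129129 : Cert := .r (nat_lit 1318041150847370521773279386871244019671016903142809152187083551797004676229169501158274209379252639518145086378769444043478162438324504117438044466212017012736) (.p (nat_lit 428) (.a (.f (nat_lit 399) (nat_lit 400) (nat_lit 2444) (.f (nat_lit 427) (nat_lit 398) (nat_lit 2443) (.d (nat_lit 459) (nat_lit 458) (nat_lit 1450) (nat_lit 460) (nat_lit 1451)))) (.a (.f (nat_lit 396) (nat_lit 395) (nat_lit 3467) (.f (nat_lit 432) (nat_lit 397) (nat_lit 3468) (.f (nat_lit 401) (nat_lit 400) (nat_lit 2445) (.f (nat_lit 433) (nat_lit 402) (nat_lit 2446) (.d (nat_lit 465) (nat_lit 464) (nat_lit 429) (nat_lit 466) (nat_lit 430)))))) (.f (nat_lit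 459) (nat_lit 460) (nat_lit 1451) (.f (nat_lit 427) (nat_lit 458) (nat_lit 1450) (.d (nat_lit 395) (nat_lit 394) (nat_lit 3466) (nat_lit 396) (nat_lit 3467)))))))
noncomputable def s129136 : Cert := .r (nat_lit 1318041150847370521773279386871244019671016903142809152187083551797004676229169501158274209379252639518145086378769444043478162438324504117438044466212017012736) (.p (nat_lit 460) (.a (.f (nat_lit 432) (nat_lit 461) (nat_lit 1452) (.f (nat_lit 397) (nat_lit 396) (nat_lit 3468) (.f (nat_lit 433) (nat_lit 398) (nat_lit 3469) (.d (nat_lit 401) (nat_lit 400) (nat_lit 2445) (nat_lit 402) (nat_lit 2446))))) (.a (.f (nat_lit 428) (nat_lit 459) (nat_lit 1451) (.f (nat_lit 396) (nat_lit 395) (nat_lit 3467) (.f (nat_lit 432) (nat_lit 397) (nat_lit 3468) (.f (nat_lit 401) (nat_lit 400) (nat_lit 2445) (.f (nat_lit 433) (nat_lit 402) (nat_lit 2446) (.d (nat_lit 465) (nat_lit 464) (nat_lit 429) (nat_lit 466) (nat_lit 430)))))))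 (.f (nat_lit 459) (nat_lit 428) (nat_lit 1451) (.d (nat_lit 461) (nat_lit 458) (nat_lit 2474) (nat_lit 462) (nat_lit 2475))))))
noncomputable def s129137 : Cert := .r (nat_lit 1318041150847370521773279386871244019671016903142809152187083551797004676229169501158274209379252639518145086378769444043478162438324504117438044466212017012736) (.p (nat_lit 460) (.a (.f (nat_lit 432) (nat_lit 461) (nat_lit 1452) (.f (nat_lit 428) (nat_lit 459) (nat_lit 1451) (.d (nat_lit 400) (nat_lit 399) (nat_lit 2444) (nat_lit 401) (nat_lit 2445)))) (.a (.f (nat_lit 428) (nat_lit 459) (nat_lit 1451) (.f (nat_lit 396) (nat_lit 395) (nat_lit 3467) (.f (nat_lit 432) (nat_lit 397) (nat_lit 3468) (.f (nat_lit 401) (nat_lit 400) (nat_lit 2445) (.f (nat_lit 433) (nat_lit 402) (nat_lit 2446) (.d (nat_lit 465) (nat_lit 464) (nat_lit 429) (nat_lit 466) (nat_lit 430))))))) (.a (.f (nat_lit 459) (nat_lit 428) (nat_lit 1451) (.d (nat_lit 461) (nat_lit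 458) (nat_lit 2474) (nat_lit 462) (nat_lit 2475))) (.f (nat_lit 432) (nat_lit 461) (nat_lit 1452) (.f (nat_lit 401) (nat_lit 400) (nat_lit 2445) (.f (nat_lit 433) (nat_lit 402) (nat_lit 2446) (.d (nat_lit 465) (nat_lit 464) (nat_lit 429) (nat_lit 466) (nat_lit 430)))))))))
noncomputable def s129198 : Cert := .r (nat_lit 1318041150847370521773279386871244019671016903142809152187083551797004676229169501158274209379252639518145086378769444043478162438324504117438044466212017012736) (.p (nat_lit 428) (.a (.f (nat_lit 399) (nat_lit 400) (nat_lit 2444) (.f (nat_lit 427) (nat_lit 398) (nat_lit 2443) (.d (nat_lit 459) (nat_lit 458) (nat_lit 1450) (nat_lit 460) (nat_lit 1451)))) (.a (.f (nat_lit 396) (nat_lit 395) (nat_lit 3467) (.f (nat_lit 397) (nat_lit 432) (nat_lit 3468) (.f (nat_lit 460) (nat_lit 459) (nat_lit 1451) (.d (nat_lit 365) (nat_lit 333) (nat_lit 5452) (nat_lit 492) (nat_lit 6508))))) (.f (nat_lit 399) (nat_lit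 400) (nat_lit 2444) (.f (nat_lit 398) (nat_lit 427) (nat_lit 2443) (.f (nat_lit 396) (nat_lit 395) (nat_lit 3467) (.f (nat_lit 397) (nat_lit 432) (nat_lit 396) (.f (nat_lit 364) (nat_lit 363) (nat_lit 3435) (.f (nat_lit 332) (nat_lit 300) (nat_lit 4396) (.f (nat_lit 333) (nat_lit 301) (nat_lit 6444) (.f (nat_lit 367) (nat_lit 368) (nat_lit 2412) (.f (nat_lit 331) (nat_lit 299) (nat_lit 7467) (.d (nat_lit 366) (nat_lit 334) (nat_lit 331) (nat_lit 365) (nat_lit 3403))))))))))))))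
noncomputable def s129216 : Cert := .r (nat_lit 1318041150847370521773279386871244019671016903142809152187083551797004676229169501158274209379252639518145086378769444043478162438324504117438044466212017012736) (.p (nat_lit 460) (.a (.f (nat_lit 432) (nat_lit 461) (nat_lit 1452) (.f (nat_lit 428) (nat_lit 459) (nat_lit 1451) (.d (nat_lit 400) (nat_lit 399) (nat_lit 2444) (nat_lit 401) (nat_lit 2445)))) (.a (.f (nat_lit 428) (nat_lit 459) (nat_lit 1451) (.f (nat_lit 400) (nat_lit 399) (nat_lit 2444) (.f (nat_lit 432) (nat_lit 401) (nat_lit 2445) (.f (nat_lit 397) (nat_lit 396) (nat_lit 3468) (.f (nat_lit 465) (nat_lit 464) (nat_lit 429) (.d (nat_lit 433) (nat_lit 398) (nat_lit 3469) (nat_lit 466) (nat_lit 430))))))) (.a (.f (nat_lit 432) (nat_lit 461) (nat_lit 1452) (.f (nat_lit 397) (nat_lit 396) (nat_lit 3468) (.f (nat_lit 433) (nat_lit 398) (nat_lit 3469) (.d (nat_lit 401) (nat_lit 400) (nat_lit 2445) (nat_lit 402)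 (nat_lit 2446))))) (.f (nat_lit 459) (nat_lit 428) (nat_lit 1451) (.d (nat_lit 461) (nat_lit 458) (nat_lit 2474) (nat_lit 462) (nat_lit 2475)))))))
noncomputable def s129274 : Cert := .r (nat_lit 1318041150847370521773279386871244019671016903142809152187083551797004676229169501158274209379252639518145086378769444043478162438324504117438044466212017012736) (.p (nat_lit 460) (.a (.f (nat_lit 432) (nat_lit 461) (nat_lit 1452) (.f (nat_lit 428) (nat_lit 459) (nat_lit 1451) (.d (nat_lit 400) (nat_lit 399) (nat_lit 2444) (nat_lit 401) (nat_lit 2445)))) (.a (.f (nat_lit 428) (nat_lit 459) (nat_lit 1451) (.f (nat_lit 399) (nat_lit 400) (nat_lit 2444) (.f (nat_lit 398) (nat_lit 427) (nat_lit 2443) (.f (nat_lit 494) (nat_lit 462) (nat_lit 4494) (.f (nat_lit 529) (nat_lit 530) (nat_lit 3566) (.d (nat_lit 493) (nat_lit 492) (nat_lit 492) (nat_lit 526) (nat_lit 3565))))))) (.a (.f (nat_lit 459) (nat_lit 428) (nat_lit 1451) (.d (nat_lit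 461) (nat_lit 458) (nat_lit 2474) (nat_lit 462) (nat_lit 2475))) (.f (nat_lit 432) (nat_lit 461) (nat_lit 1452) (.f (nat_lit 401) (nat_lit 400) (nat_lit 2445) (.f (nat_lit 433) (nat_lit 402) (nat_lit 2446) (.d (nat_lit 465) (nat_lit 464) (nat_lit 429) (nat_lit 466) (nat_lit 430)))))))))
noncomputable def s129295 : Cert := .r (nat_lit 1318041150847370521773279386871244019671016903142809152187083551797004676229169501158274209379252639518145086378769444043478162438324504117438044466212017012736) (.p (nat_lit 428) (.a (.f (nat_lit 399) (nat_lit 400) (nat_lit 2444) (.f (nat_lit 427) (nat_lit 398) (nat_lit 2443) (.d (nat_lit 459) (nat_lit 458) (nat_lit 1450) (nat_lit 460) (nat_lit 1451)))) (.a (.f (nat_lit 460) (nat_lit 459) (nat_lit 1451) (.f (nat_lit 432) (nat_lit 461) (nat_lit 1452) (.f (nat_lit 465) (nat_lit 464) (nat_lit 429) (.f (nat_lit 433) (nat_lit 466) (nat_lit 430) (.d (nat_lit 401) (nat_lit 400) (nat_lit 2445)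 (nat_lit 402) (nat_lit 2446)))))) (.a (.f (nat_lit 399) (nat_lit 400) (nat_lit 2444) (.f (nat_lit 427) (nat_lit 398) (nat_lit 2443) (.f (nat_lit 458) (nat_lit 459) (nat_lit 1450) (.f (nat_lit 426) (nat_lit 457) (nat_lit 1449) (.d (nat_lit 394) (nat_lit 393) (nat_lit 3465) (nat_lit 395) (nat_lit 3466)))))) (.a (.f (nat_lit 460) (nat_lit 459) (nat_lit 1451) (.f (nat_lit 432) (nat_lit 461) (nat_lit 1452) (.f (nat_lit 465) (nat_lit 464) (nat_lit 429) (.f (nat_lit 433) (nat_lit 466) (nat_lit 430) (.f (nat_lit 402) (nat_lit 401) (nat_lit 2446) (.f (nat_lit 434) (nat_lit 403) (nat_lit 2447) (.d (nat_lit 398) (nat_lit 397) (nat_lit 3469) (nat_lit 399) (nat_lit 3470)))))))) (.f (nat_lit 399) (nat_lit 400) (nat_lit 2444) (.f (nat_lit 427) (nat_lit 398) (nat_lit 2443) (.f (nat_lit 394) (nat_lit 395) (nat_lit 3466) (.f (nat_lit 426) (nat_lit 393) (nat_lit 3465) (.f (nat_lit 457) (nat_lit 458) (nat_lit 1449) (.f (nat_lit 425) (nat_lit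 456) (nat_lit 1448) (.d (nat_lit 461) (nat_lit 460) (nat_lit 425) (nat_lit 462) (nat_lit 426)))))))))))))
noncomputable def s129316 : Cert := .r (nat_lit 1318041150847370521773279386871244019671016903142809152187083551797004676229169501158274209379252639518145086378769444043478162438324504117438044466212017012736) (.p (nat_lit 460) (.a (.f (nat_lit 432) (nat_lit 461) (nat_lit 1452) (.f (nat_lit 428) (nat_lit 459) (nat_lit 1451) (.d (nat_lit 400) (nat_lit 399) (nat_lit 2444) (nat_lit 401) (nat_lit 2445)))) (.a (.f (nat_lit 428) (nat_lit 459) (nat_lit 1451) (.f (nat_lit 400) (nat_lit 399) (nat_lit 2444) (.f (nat_lit 432) (nat_lit 401) (nat_lit 2445) (.f (nat_lit 465) (nat_lit 464) (nat_lit 429) (.f (nat_lit 433) (nat_lit 466) (nat_lit 430) (.f (nat_lit 529) (nat_lit 497) (nat_lit 7568) (.f (nat_lit 530) (nat_lit 494) (nat_lit 3566) (.f (nat_lit 563) (nat_lit 562) (nat_lit 527) (.f (nat_lit 531) (nat_lit 564) (nat_lit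 528) (.d (nat_lit 499) (nat_lit 498) (nat_lit 2543) (nat_lit 500) (nat_lit 2544))))))))))) (.a (.f (nat_lit 432) (nat_lit 461) (nat_lit 1452) (.f (nat_lit 401) (nat_lit 400) (nat_lit 2445) (.f (nat_lit 433) (nat_lit 402) (nat_lit 2446) (.d (nat_lit 465) (nat_lit 464) (nat_lit 429) (nat_lit 466) (nat_lit 430))))) (.a (.f (nat_lit 428) (nat_lit 459) (nat_lit 1451) (.f (nat_lit 399) (nat_lit 400) (nat_lit 2444) (.f (nat_lit 427) (nat_lit 398) (nat_lit 2443) (.f (nat_lit 395) (nat_lit 394) (nat_lit 3466) (.f (nat_lit 492) (nat_lit 524) (nat_lit 7563) (.f (nat_lit 493) (nat_lit 494) (nat_lit 492) (.f (nat_lit 525) (nat_lit 526) (nat_lit 3564) (.d (nat_lit 557) (nat_lit 461) (nat_lit 7596) (nat_lit 589) (nat_lit 7628))))))))) (.f (nat_lit 461) (nat_lit 432) (nat_lit 1452) (.d (nat_lit 459) (nat_lit 428) (nat_lit 1451) (nat_lit 458) (nat_lit 2474))))))))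
noncomputable def s129335 : Cert := .r (nat_lit 1318041150847370521773279386871244019671016903142809152187083551797004676229169501158274209379252639518145086378769444043478162438324504117438044466212017012736) (.p (nat_lit 460) (.a (.f (nat_lit 432) (nat_lit 461) (nat_lit 1452) (.f (nat_lit 428) (nat_lit 459) (nat_lit 1451) (.d (nat_lit 400) (nat_lit 399) (nat_lit 2444) (nat_lit 401) (nat_lit 2445)))) (.a (.f (nat_lit 428) (nat_lit 459) (nat_lit 1451) (.f (nat_lit 400) (nat_lit 399) (nat_lit 2444) (.f (nat_lit 432) (nat_lit 401) (nat_lit 2445) (.f (nat_lit 465) (nat_lit 464) (nat_lit 429) (.f (nat_lit 433) (nat_lit 466) (nat_lit 430) (.f (nat_lit 529) (nat_lit 497) (nat_lit 7568) (.f (nat_lit 530) (nat_lit 494) (nat_lit 3566) (.f (nat_lit 563) (nat_lit 562) (nat_lit 527) (.f (nat_lit 531) (nat_lit 564) (nat_lit 528) (.d (nat_lit 499) (nat_lit 498) (nat_lit 2543) (nat_lit 500) (nat_lit 2544))))))))))) (.a (.f (nat_lit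 459) (nat_lit 428) (nat_lit 1451) (.d (nat_lit 461) (nat_lit 458) (nat_lit 2474) (nat_lit 462) (nat_lit 2475))) (.f (nat_lit 432) (nat_lit 461) (nat_lit 1452) (.f (nat_lit 401) (nat_lit 400) (nat_lit 2445) (.f (nat_lit 433) (nat_lit 402) (nat_lit 2446) (.d (nat_lit 465) (nat_lit 464) (nat_lit 429) (nat_lit 466) (nat_lit 430)))))))))
noncomputable def s129337 : Cert := .r (nat_lit 1318041150847370521773279386871244019671016903142809152187083551797004676229169501158274209379252639518145086378769444043478162438324504117438044466212017012736) (.p (nat_lit 428) (.a (.f (nat_lit 399) (nat_lit 400) (nat_lit 2444) (.f (nat_lit 427) (nat_lit 398) (nat_lit 2443) (.d (nat_lit 459) (nat_lit 458) (nat_lit 1450) (nat_lit 460) (nat_lit 1451)))) (.a (.f (nat_lit 459) (nat_lit 460) (nat_lit 1451) (.f (nat_lit 427) (nat_lit 458) (nat_lit 1450) (.d (nat_lit 395) (nat_lit 394) (nat_lit 3466) (nat_lit 396) (nat_lit 3467)))) (.a (.f (nat_lit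 399) (nat_lit 400) (nat_lit 2444) (.f (nat_lit 427) (nat_lit 398) (nat_lit 2443) (.d (nat_lit 395) (nat_lit 394) (nat_lit 3466) (nat_lit 396) (nat_lit 3467)))) (.f (nat_lit 400) (nat_lit 399) (nat_lit 2444) (.f (nat_lit 432) (nat_lit 401) (nat_lit 2445) (.f (nat_lit 465) (nat_lit 464) (nat_lit 429) (.f (nat_lit 433) (nat_lit 466) (nat_lit 430) (.f (nat_lit 529) (nat_lit 497) (nat_lit 7568) (.f (nat_lit 530) (nat_lit 494) (nat_lit 3566) (.f (nat_lit 563) (nat_lit 562) (nat_lit 527) (.f (nat_lit 531) (nat_lit 564) (nat_lit 528) (.d (nat_lit 499) (nat_lit 498) (nat_lit 2543) (nat_lit 500) (nat_lit 2544))))))))))))))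
noncomputable def s129341 : Cert := .r (nat_lit 1318041150847370521773279386871244019671016903142809152187083551797004676229169501158274209379252639518145086378769444043478162438324504117438044466212017012736) (.p (nat_lit 461) (.a (.f (nat_lit 432) (nat_lit 460) (nat_lit 1452) (.f (nat_lit 433) (nat_lit 462) (nat_lit 1453) (.d (nat_lit 465) (nat_lit 464) (nat_lit 429) (nat_lit 466) (nat_lit 430)))) (.a (.p (nat_lit 493) (.a (.f (nat_lit 525) (nat_lit 398) (nat_lit 6541) (.d (nat_lit 492) (nat_lit 494) (nat_lit 492) (nat_lit 526) (nat_lit 3564))) (.a (.f (nat_lit 525) (nat_lit 398) (nat_lit 6541) (.d (nat_lit 526) (nat_lit 492) (nat_lit 3564) (nat_lit 558) (nat_lit 4525))) (.a (.f (nat_lit 525) (nat_lit 398) (nat_lit 6541) (.f (nat_lit 428) (nat_lit 396) (nat_lit 7564) (.d (nat_lit 460) (nat_lit 459) (nat_lit 1451) (nat_lit 557) (nat_lit 7596)))) (.f (nat_lit 494) (nat_lit 492) (nat_lit 492) (.d (nat_lit 529) (nat_lit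 526) (nat_lit 3565) (nat_lit 530) (nat_lit 3566))))))) (.p (nat_lit 493) (.a (.f (nat_lit 525) (nat_lit 398) (nat_lit 6541) (.d (nat_lit 492) (nat_lit 494) (nat_lit 492) (nat_lit 526) (nat_lit 3564))) (.a (.f (nat_lit 525) (nat_lit 398) (nat_lit 6541) (.d (nat_lit 526) (nat_lit 492) (nat_lit 3564) (nat_lit 558) (nat_lit 4525))) (.a (.f (nat_lit 525) (nat_lit 398) (nat_lit 6541) (.f (nat_lit 557) (nat_lit 462) (nat_lit 6573) (.d (nat_lit 556) (nat_lit 524) (nat_lit 5548) (nat_lit 588) (nat_lit 5580)))) (.f (nat_lit 494) (nat_lit 492) (nat_lit 492) (.d (nat_lit 529) (nat_lit 526) (nat_lit 3565) (nat_lit 530) (nat_lit 3566))))))))))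
noncomputable def s129350 : Cert := .r (nat_lit 1318041150847370521773279386871244019671016903142809152187083551797004676229169501158274209379252639518145086378769444043478162438324504117438044466212017012736) (.p (nat_lit 428) (.a (.f (nat_lit 399) (nat_lit 400) (nat_lit 2444) (.f (nat_lit 427) (nat_lit 398) (nat_lit 2443) (.d (nat_lit 395) (nat_lit 394) (nat_lit 3466) (nat_lit 396) (nat_lit 3467)))) (.a (.f (nat_lit 395) (nat_lit 396) (nat_lit 3467) (.f (nat_lit 427) (nat_lit 394) (nat_lit 3466) (.f (nat_lit 458) (nat_lit 459) (nat_lit 1450) (.f (nat_lit 426) (nat_lit 457) (nat_lit 1449) (.f (nat_lit 462) (nat_lit 461) (nat_lit 426) (.f (nat_lit 494) (nat_lit 398) (nat_lit 4494) (.f (nat_lit 529) (nat_lit 530) (nat_lit 3566) (.d (nat_lit 493) (nat_lit 492) (nat_lit 492) (nat_lit 526) (nat_lit 3565))))))))) (.f (nat_lit 400) (nat_lit 399) (nat_lit 2444) (.f (nat_lit 432) (nat_lit 401) (nat_lit 2445) (.f (nat_lit 465)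 (nat_lit 464) (nat_lit 429) (.f (nat_lit 433) (nat_lit 466) (nat_lit 430) (.f (nat_lit 529) (nat_lit 497) (nat_lit 7568) (.f (nat_lit 530) (nat_lit 494) (nat_lit 3566) (.f (nat_lit 563) (nat_lit 562) (nat_lit 527) (.f (nat_lit 531) (nat_lit 564) (nat_lit 528) (.d (nat_lit 499) (nat_lit 498) (nat_lit 2543) (nat_lit 500) (nat_lit 2544)))))))))))))
noncomputable def s129372 : Cert := .r (nat_lit 1318041150847370521779233649700673631318396963777027685332508581823755185778995468869962006427477595306033243466216595172551929015323036647069559922753628274688) (.p (nat_lit 428) (.a (.f (nat_lit 460) (nat_lit 459) (nat_lit 1451) (.f (nat_lit 399) (nat_lit 400) (nat_lit 2444) (.f (nat_lit 427) (nat_lit 398) (nat_lit 2443) (.d (nat_lit 426) (nat_lit 425) (nat_lit 425) (nat_lit 462) (nat_lit 426))))) (.a (.f (nat_lit 399) (nat_lit 400) (nat_lit 2444) (.f (nat_lit 427) (nat_lit 398) (nat_lit 2443) (.d (nat_lit 395) (nat_lit 394)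 (nat_lit 3466) (nat_lit 396) (nat_lit 3467)))) (.a (.f (nat_lit 459) (nat_lit 460) (nat_lit 1451) (.f (nat_lit 427) (nat_lit 458) (nat_lit 1450) (.f (nat_lit 426) (nat_lit 462) (nat_lit 426) (.d (nat_lit 394) (nat_lit 393) (nat_lit 3465) (nat_lit 395) (nat_lit 3466))))) (.f (nat_lit 460) (nat_lit 459) (nat_lit 1451) (.f (nat_lit 396) (nat_lit 395) (nat_lit 3467) (.f (nat_lit 364) (nat_lit 332) (nat_lit 4428) (.f (nat_lit 399) (nat_lit 400) (nat_lit 2444) (.f (nat_lit 363) (nat_lit 331) (nat_lit 7499) (.f (nat_lit 365) (nat_lit 333) (nat_lit 6476) (.f (nat_lit 366) (nat_lit 398) (nat_lit 363) (.f (nat_lit 335) (nat_lit 334) (nat_lit 2379) (.d (nat_lit 367) (nat_lit 336) (nat_lit 2380) (nat_lit 462) (nat_lit 5454))))))))))))))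
noncomputable def s129385 : Cert := .r (nat_lit 1318041150847370521773279386871244019671016903142809152187083551797004676229169501158274209379252639518145086378769444043478162438324504117438044466212017012736) (.p (nat_lit 461) (.a (.p (nat_lit 493) (.a (.f (nat_lit 525) (nat_lit 398) (nat_lit 6541) (.d (nat_lit 492) (nat_lit 494) (nat_lit 492) (nat_lit 526) (nat_lit 3564))) (.a (.f (nat_lit 525) (nat_lit 398) (nat_lit 6541) (.d (nat_lit 526) (nat_lit 492) (nat_lit 3564) (nat_lit 558) (nat_lit 4525))) (.a (.f (nat_lit 525) (nat_lit 398) (nat_lit 6541) (.f (nat_lit 428) (nat_lit 396) (nat_lit 7564) (.d (nat_lit 460) (nat_lit 459) (nat_lit 1451) (nat_lit 557) (nat_lit 7596)))) (.f (nat_lit 494) (nat_lit 492) (nat_lit 492) (.d (nat_lit 529) (nat_lit 526) (nat_lit 3565) (nat_lit 530) (nat_lit 3566))))))) (.a (.p (nat_lit 428) (.a (.f (nat_lit 460) (nat_lit 459) (nat_lit 1451) (.f (nat_lit 396) (nat_lit 395) (nat_lit 3467)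 (.d (nat_lit 364) (nat_lit 332) (nat_lit 4428) (nat_lit 493) (nat_lit 4460)))) (.a (.f (nat_lit 460) (nat_lit 459) (nat_lit 1451) (.f (nat_lit 399) (nat_lit 400) (nat_lit 2444) (.f (nat_lit 427) (nat_lit 398) (nat_lit 2443) (.d (nat_lit 426) (nat_lit 425) (nat_lit 425) (nat_lit 462) (nat_lit 426))))) (.f (nat_lit 399) (nat_lit 400) (nat_lit 2444) (.f (nat_lit 427) (nat_lit 398) (nat_lit 2443) (.d (nat_lit 395) (nat_lit 394) (nat_lit 3466) (nat_lit 396) (nat_lit 3467))))))) (.a s129372 (.a (.p (nat_lit 493) (.a (.f (nat_lit 525) (nat_lit 398) (nat_lit 6541) (.d (nat_lit 492) (nat_lit 494) (nat_lit 492) (nat_lit 526) (nat_lit 3564))) (.a (.f (nat_lit 525) (nat_lit 398) (nat_lit 6541) (.d (nat_lit 526) (nat_lit 492) (nat_lit 3564) (nat_lit 558) (nat_lit 4525))) (.a (.f (nat_lit 525) (nat_lit 398) (nat_lit 6541) (.f (nat_lit 557) (nat_lit 462) (nat_lit 6573) (.d (nat_lit 556) (nat_lit 524) (nat_lit 5548) (nat_lit 588) (nat_lit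 5580)))) (.f (nat_lit 494) (nat_lit 492) (nat_lit 492) (.d (nat_lit 529) (nat_lit 526) (nat_lit 3565) (nat_lit 530) (nat_lit 3566))))))) (.p (nat_lit 428) (.a (.f (nat_lit 460) (nat_lit 459) (nat_lit 1451) (.f (nat_lit 396) (nat_lit 395) (nat_lit 3467) (.d (nat_lit 364) (nat_lit 332) (nat_lit 4428) (nat_lit 493) (nat_lit 4460)))) (.a (.f (nat_lit 459) (nat_lit 460) (nat_lit 1451) (.f (nat_lit 427) (nat_lit 458) (nat_lit 1450) (.f (nat_lit 426) (nat_lit 462) (nat_lit 426) (.d (nat_lit 394) (nat_lit 393) (nat_lit 3465) (nat_lit 395) (nat_lit 3466))))) (.a (.f (nat_lit 396) (nat_lit 395) (nat_lit 3467) (.f (nat_lit 493) (nat_lit 525) (nat_lit 7564) (.f (nat_lit 494) (nat_lit 492) (nat_lit 492) (.d (nat_lit 529) (nat_lit 526) (nat_lit 3565) (nat_lit 530) (nat_lit 3566))))) (.f (nat_lit 459) (nat_lit 460) (nat_lit 1451) (.f (nat_lit 427) (nat_lit 458) (nat_lit 1450) (.f (nat_lit 462) (nat_lit 426) (nat_lit 426) (.f (nat_lit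 399) (nat_lit 400) (nat_lit 2444) (.f (nat_lit 494) (nat_lit 526) (nat_lit 6542) (.f (nat_lit 493) (nat_lit 492) (nat_lit 492) (.d (nat_lit 525) (nat_lit 396) (nat_lit 7564) (nat_lit 557) (nat_lit 6573)))))))))))))))))
noncomputable def s129402 : Cert := .r (nat_lit 1318041150847370521773279386871244019671016903142809152187083551797004676229169501158274209379252639518145086378769444043478162438324504117438044466212017012736) (.p (nat_lit 428) (.a (.f (nat_lit 396) (nat_lit 395) (nat_lit 3467) (.f (nat_lit 397) (nat_lit 432) (nat_lit 3468) (.f (nat_lit 460) (nat_lit 459) (nat_lit 1451) (.d (nat_lit 365) (nat_lit 333) (nat_lit 5452) (nat_lit 492) (nat_lit 6508))))) (.a (.f (nat_lit 396) (nat_lit 395) (nat_lit 3467) (.f (nat_lit 432) (nat_lit 397) (nat_lit 3468) (.f (nat_lit 401) (nat_lit 400) (nat_lit 2445) (.f (nat_lit 433) (nat_lit 402) (nat_lit 2446) (.d (nat_lit 465) (nat_lit 464) (nat_lit 429) (nat_lit 466) (nat_lit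 430)))))) (.a (.f (nat_lit 459) (nat_lit 460) (nat_lit 1451) (.f (nat_lit 427) (nat_lit 458) (nat_lit 1450) (.d (nat_lit 395) (nat_lit 394) (nat_lit 3466) (nat_lit 396) (nat_lit 3467)))) (.f (nat_lit 460) (nat_lit 459) (nat_lit 1451) (.f (nat_lit 432) (nat_lit 461) (nat_lit 1452) (.f (nat_lit 465) (nat_lit 464) (nat_lit 429) (.f (nat_lit 433) (nat_lit 466) (nat_lit 430) (.d (nat_lit 401) (nat_lit 400) (nat_lit 2445) (nat_lit 402) (nat_lit 2446))))))))))
noncomputable def s129426 : Cert := .r (nat_lit 1318041150847370521773279386871244019671016903142809152187083551797004676229169501158274209379252639518145086378769444043478162438324504117438044466212017012736) (.p (nat_lit 432) (.a (.f (nat_lit 400) (nat_lit 401) (nat_lit 2445) (.f (nat_lit 428) (nat_lit 399) (nat_lit 2444) (.d (nat_lit 396) (nat_lit 395) (nat_lit 3467) (nat_lit 397) (nat_lit 3468)))) (.a (.f (nat_lit 400) (nat_lit 401) (nat_lit 2445) (.f (nat_lit 465)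 (nat_lit 464) (nat_lit 429) (.f (nat_lit 433) (nat_lit 466) (nat_lit 430) (.f (nat_lit 529) (nat_lit 497) (nat_lit 7568) (.f (nat_lit 494) (nat_lit 530) (nat_lit 3566) (.d (nat_lit 493) (nat_lit 492) (nat_lit 492) (nat_lit 526) (nat_lit 3565))))))) (.a (.f (nat_lit 465) (nat_lit 464) (nat_lit 429) (.f (nat_lit 433) (nat_lit 466) (nat_lit 430) (.f (nat_lit 402) (nat_lit 401) (nat_lit 2446) (.f (nat_lit 434) (nat_lit 403) (nat_lit 2447) (.f (nat_lit 529) (nat_lit 497) (nat_lit 6545) (.f (nat_lit 530) (nat_lit 494) (nat_lit 3566) (.f (nat_lit 499) (nat_lit 498) (nat_lit 2543) (.f (nat_lit 531) (nat_lit 500) (nat_lit 2544) (.d (nat_lit 563) (nat_lit 562) (nat_lit 527) (nat_lit 564) (nat_lit 528)))))))))) (.f (nat_lit 396) (nat_lit 397) (nat_lit 3468) (.f (nat_lit 428) (nat_lit 395) (nat_lit 3467) (.f (nat_lit 465) (nat_lit 464) (nat_lit 429) (.f (nat_lit 433) (nat_lit 466) (nat_lit 430) (.f (nat_lit 400) (nat_lit 399) (nat_lit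 2444) (.f (nat_lit 529) (nat_lit 497) (nat_lit 7568) (.f (nat_lit 530) (nat_lit 494) (nat_lit 3566) (.f (nat_lit 563) (nat_lit 562) (nat_lit 527) (.f (nat_lit 531) (nat_lit 564) (nat_lit 528) (.d (nat_lit 499) (nat_lit 498) (nat_lit 2543) (nat_lit 500) (nat_lit 2544)))))))))))))))
noncomputable def s129468 : Cert := .r (nat_lit 1318041150847370521773279386871244019671016903142809152187083551797004676229169501158274209379252639518145086378769444043478162438324504117438044466212017012736) (.p (nat_lit 428) (.a (.f (nat_lit 459) (nat_lit 460) (nat_lit 1451) (.f (nat_lit 427) (nat_lit 458) (nat_lit 1450) (.d (nat_lit 395) (nat_lit 394) (nat_lit 3466) (nat_lit 396) (nat_lit 3467)))) (.a (.p (nat_lit 493) (.a (.f (nat_lit 494) (nat_lit 492) (nat_lit 492) (.d (nat_lit 529) (nat_lit 526) (nat_lit 3565) (nat_lit 530) (nat_lit 3566))) (.f (nat_lit 396) (nat_lit 395) (nat_lit 3467) (.f (nat_lit 461) (nat_lit 525) (nat_lit 7564)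 (.d (nat_lit 364) (nat_lit 332) (nat_lit 4428) (nat_lit 397) (nat_lit 7532)))))) (.a (.p (nat_lit 492) (.a (.f (nat_lit 460) (nat_lit 459) (nat_lit 1451) (.f (nat_lit 524) (nat_lit 397) (nat_lit 6540) (.f (nat_lit 555) (nat_lit 523) (nat_lit 5547) (.f (nat_lit 556) (nat_lit 587) (nat_lit 5579) (.d (nat_lit 557) (nat_lit 525) (nat_lit 4524) (nat_lit 589) (nat_lit 4556)))))) (.a (.f (nat_lit 460) (nat_lit 459) (nat_lit 1451) (.f (nat_lit 524) (nat_lit 397) (nat_lit 6540) (.f (nat_lit 556) (nat_lit 461) (nat_lit 6572) (.d (nat_lit 555) (nat_lit 523) (nat_lit 5547) (nat_lit 587) (nat_lit 5579))))) (.a (.f (nat_lit 494) (nat_lit 493) (nat_lit 492) (.f (nat_lit 399) (nat_lit 400) (nat_lit 2444) (.f (nat_lit 526) (nat_lit 462) (nat_lit 6542) (.f (nat_lit 529) (nat_lit 530) (nat_lit 3566) (.f (nat_lit 557) (nat_lit 558) (nat_lit 1549) (.f (nat_lit 525) (nat_lit 556) (nat_lit 1548) (.d (nat_lit 524) (nat_lit 491) (nat_lit 3563)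 (nat_lit 523) (nat_lit 2539)))))))) (.f (nat_lit 494) (nat_lit 493) (nat_lit 492) (.f (nat_lit 459) (nat_lit 460) (nat_lit 1451) (.f (nat_lit 427) (nat_lit 458) (nat_lit 1450) (.f (nat_lit 394) (nat_lit 395) (nat_lit 3466) (.f (nat_lit 426) (nat_lit 393) (nat_lit 3465) (.f (nat_lit 462) (nat_lit 461) (nat_lit 426) (.d (nat_lit 399) (nat_lit 400) (nat_lit 2444) (nat_lit 526) (nat_lit 6542)))))))))))) (.p (nat_lit 492) (.a (.f (nat_lit 460) (nat_lit 459) (nat_lit 1451) (.f (nat_lit 397) (nat_lit 524) (nat_lit 6540) (.d (nat_lit 365) (nat_lit 333) (nat_lit 5452) (nat_lit 396) (nat_lit 6508)))) (.a (.f (nat_lit 494) (nat_lit 493) (nat_lit 492) (.f (nat_lit 399) (nat_lit 400) (nat_lit 2444) (.f (nat_lit 526) (nat_lit 462) (nat_lit 6542) (.f (nat_lit 529) (nat_lit 530) (nat_lit 3566) (.f (nat_lit 557) (nat_lit 558) (nat_lit 1549) (.f (nat_lit 525) (nat_lit 556) (nat_lit 1548) (.d (nat_lit 524) (nat_lit 491) (nat_lit 3563)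 (nat_lit 523) (nat_lit 2539)))))))) (.f (nat_lit 460) (nat_lit 459) (nat_lit 1451) (.f (nat_lit 493) (nat_lit 494) (nat_lit 492) (.d (nat_lit 525) (nat_lit 396) (nat_lit 4492) (nat_lit 526) (nat_lit 3564)))))))))))
noncomputable def s129516 : Cert := .r (nat_lit 1318041150847370521773279386871244019671016903142809152187083551797004676229169501158274209379252639518145086378769444043478162438324504117438044466212017012736) (.p (nat_lit 460) (.a (.f (nat_lit 428) (nat_lit 459) (nat_lit 1451) (.f (nat_lit 396) (nat_lit 395) (nat_lit 3467) (.f (nat_lit 397) (nat_lit 432) (nat_lit 3468) (.d (nat_lit 365) (nat_lit 333) (nat_lit 5452) (nat_lit 492) (nat_lit 6508))))) (.a (.f (nat_lit 459) (nat_lit 428) (nat_lit 1451) (.d (nat_lit 461) (nat_lit 458) (nat_lit 2474) (nat_lit 462) (nat_lit 2475))) (.a (.f (nat_lit 461) (nat_lit 432) (nat_lit 1452) (.d (nat_lit 459) (nat_lit 458) (nat_lit 2474) (nat_lit 462) (nat_lit 2475))) (.f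 (nat_lit 432) (nat_lit 461) (nat_lit 1452) (.f (nat_lit 465) (nat_lit 464) (nat_lit 429) (.f (nat_lit 433) (nat_lit 466) (nat_lit 430) (.f (nat_lit 402) (nat_lit 401) (nat_lit 2446) (.f (nat_lit 434) (nat_lit 403) (nat_lit 2447) (.f (nat_lit 529) (nat_lit 497) (nat_lit 6545) (.f (nat_lit 494) (nat_lit 530) (nat_lit 3566) (.d (nat_lit 493) (nat_lit 492) (nat_lit 492) (nat_lit 526) (nat_lit 3565)))))))))))))
noncomputable def s129527 : Cert := .r (nat_lit 1318041150847370521773279386871244019671016903142809152187083551797004676229169501158274209379252639518145086378769444043478162438324504117438044466212017012736) (.p (nat_lit 428) (.a (.f (nat_lit 396) (nat_lit 395) (nat_lit 3467) (.f (nat_lit 397) (nat_lit 432) (nat_lit 3468) (.f (nat_lit 460) (nat_lit 459) (nat_lit 1451) (.d (nat_lit 365) (nat_lit 333) (nat_lit 5452) (nat_lit 492) (nat_lit 6508))))) (.a (.f (nat_lit 396) (nat_lit 395) (nat_lit 3467) (.f (nat_lit 432)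 (nat_lit 397) (nat_lit 3468) (.f (nat_lit 401) (nat_lit 400) (nat_lit 2445) (.f (nat_lit 433) (nat_lit 402) (nat_lit 2446) (.d (nat_lit 465) (nat_lit 464) (nat_lit 429) (nat_lit 466) (nat_lit 430)))))) (.a (.f (nat_lit 459) (nat_lit 460) (nat_lit 1451) (.f (nat_lit 427) (nat_lit 458) (nat_lit 1450) (.d (nat_lit 395) (nat_lit 394) (nat_lit 3466) (nat_lit 396) (nat_lit 3467)))) (.a (.f (nat_lit 459) (nat_lit 460) (nat_lit 1451) (.f (nat_lit 427) (nat_lit 458) (nat_lit 1450) (.f (nat_lit 394) (nat_lit 395) (nat_lit 3466) (.f (nat_lit 426) (nat_lit 393) (nat_lit 3465) (.f (nat_lit 398) (nat_lit 397) (nat_lit 2442) (.f (nat_lit 494) (nat_lit 462) (nat_lit 4494) (.f (nat_lit 529) (nat_lit 530) (nat_lit 3566) (.d (nat_lit 493) (nat_lit 492) (nat_lit 492) (nat_lit 526) (nat_lit 3565))))))))) (.p (nat_lit 492) (.a (.f (nat_lit 460) (nat_lit 459) (nat_lit 1451) (.f (nat_lit 397) (nat_lit 524) (nat_lit 6540) (.d (nat_lit 396)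 (nat_lit 365) (nat_lit 6508) (nat_lit 432) (nat_lit 3468)))) (.a (.f (nat_lit 494) (nat_lit 493) (nat_lit 492) (.f (nat_lit 462) (nat_lit 398) (nat_lit 4494) (.f (nat_lit 526) (nat_lit 397) (nat_lit 7565) (.f (nat_lit 525) (nat_lit 557) (nat_lit 5549) (.d (nat_lit 524) (nat_lit 491) (nat_lit 3563) (nat_lit 523) (nat_lit 2539)))))) (.f (nat_lit 460) (nat_lit 459) (nat_lit 1451) (.f (nat_lit 493) (nat_lit 494) (nat_lit 492) (.d (nat_lit 525) (nat_lit 396) (nat_lit 4492) (nat_lit 526) (nat_lit 3564))))))))))))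
noncomputable def s129544 : Cert := .r (nat_lit 1318041150847370521773279386871244019671016903142809152187083551797004676229169501158274209379252639518145086378769444043478162438324504117438044466212017012736) (.p (nat_lit 460) (.a (.f (nat_lit 428) (nat_lit 459) (nat_lit 1451) (.f (nat_lit 396) (nat_lit 395) (nat_lit 3467) (.f (nat_lit 397) (nat_lit 432) (nat_lit 3468) (.d (nat_lit 365) (nat_lit 333) (nat_lit 5452) (nat_lit 492) (nat_lit 6508))))) (.a (.f (nat_lit 432) (nat_lit 461) (nat_lit 1452) (.f (nat_lit 428) (nat_lit 459) (nat_lit 1451) (.d (nat_lit 396) (nat_lit 395) (nat_lit 3467) (nat_lit 397) (nat_lit 3468)))) (.a (.f (nat_lit 428) (nat_lit 459) (nat_lit 1451) (.f (nat_lit 395) (nat_lit 396) (nat_lit 3467) (.f (nat_lit 427) (nat_lit 394) (nat_lit 3466) (.f (nat_lit 492) (nat_lit 524) (nat_lit 7563) (.f (nat_lit 493) (nat_lit 494) (nat_lit 492) (.f (nat_lit 525) (nat_lit 526) (nat_lit 3564) (.d (nat_lit 557)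 (nat_lit 461) (nat_lit 7596) (nat_lit 589) (nat_lit 7628)))))))) (.f (nat_lit 432) (nat_lit 461) (nat_lit 1452) (.f (nat_lit 465) (nat_lit 464) (nat_lit 429) (.f (nat_lit 433) (nat_lit 466) (nat_lit 430) (.f (nat_lit 402) (nat_lit 401) (nat_lit 2446) (.f (nat_lit 434) (nat_lit 403) (nat_lit 2447) (.f (nat_lit 529) (nat_lit 497) (nat_lit 6545) (.f (nat_lit 494) (nat_lit 530) (nat_lit 3566) (.d (nat_lit 493) (nat_lit 492) (nat_lit 492) (nat_lit 526) (nat_lit 3565)))))))))))))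
noncomputable def s129559 : Cert := .r (nat_lit 1318041150847370521773279386871244019671016903142809152187083551797004676229169501158274209379252639518145086378769444043478162438324504117438044466212017012736) (.p (nat_lit 428) (.a (.f (nat_lit 396) (nat_lit 395) (nat_lit 3467) (.f (nat_lit 397) (nat_lit 432) (nat_lit 3468) (.f (nat_lit 460) (nat_lit 459) (nat_lit 1451) (.d (nat_lit 365) (nat_lit 333) (nat_lit 5452) (nat_lit 492) (nat_lit 6508))))) (.a (.f (nat_lit 459) (nat_lit 460) (nat_lit 1451) (.f (nat_lit 427) (nat_lit 458) (nat_lit 1450) (.d (nat_lit 395) (nat_lit 394) (nat_lit 3466) (nat_lit 396) (nat_lit 3467)))) (.a (.f (nat_lit 396) (nat_lit 395) (nat_lit 3467) (.f (nat_lit 432) (nat_lit 397) (nat_lit 3468) (.f (nat_lit 465) (nat_lit 464) (nat_lit 429) (.f (nat_lit 433) (nat_lit 466) (nat_lit 430) (.f (nat_lit 402) (nat_lit 401) (nat_lit 2446) (.f (nat_lit 434) (nat_lit 403) (nat_lit 2447) (.f (nat_lit 529)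 (nat_lit 497) (nat_lit 6545) (.f (nat_lit 494) (nat_lit 530) (nat_lit 3566) (.d (nat_lit 493) (nat_lit 492) (nat_lit 492) (nat_lit 526) (nat_lit 3565)))))))))) (.a (.f (nat_lit 459) (nat_lit 460) (nat_lit 1451) (.f (nat_lit 427) (nat_lit 458) (nat_lit 1450) (.f (nat_lit 394) (nat_lit 395) (nat_lit 3466) (.f (nat_lit 426) (nat_lit 393) (nat_lit 3465) (.f (nat_lit 398) (nat_lit 397) (nat_lit 2442) (.f (nat_lit 494) (nat_lit 462) (nat_lit 4494) (.f (nat_lit 529) (nat_lit 530) (nat_lit 3566) (.d (nat_lit 493) (nat_lit 492) (nat_lit 492) (nat_lit 526) (nat_lit 3565))))))))) (.f (nat_lit 459) (nat_lit 460) (nat_lit 1451) (.f (nat_lit 427) (nat_lit 458) (nat_lit 1450) (.f (nat_lit 398) (nat_lit 399) (nat_lit 2443) (.f (nat_lit 397) (nat_lit 426) (nat_lit 2442) (.d (nat_lit 432) (nat_lit 396) (nat_lit 3468) (nat_lit 433) (nat_lit 3469)))))))))))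
noncomputable def s129624 : Cert := .r (nat_lit 1318041150847370521779233649700673631318396963777027685332508581823755185778995468869962006427477595306033243466216595172551929015323036647069559922753628274688) (.p (nat_lit 493) (.a (.f (nat_lit 525) (nat_lit 398) (nat_lit 6541) (.d (nat_lit 526) (nat_lit 492) (nat_lit 3564) (nat_lit 558) (nat_lit 4525))) (.a (.f (nat_lit 525) (nat_lit 398) (nat_lit 6541) (.f (nat_lit 557) (nat_lit 462) (nat_lit 6573) (.d (nat_lit 556) (nat_lit 524) (nat_lit 5548) (nat_lit 588) (nat_lit 5580)))) (.a (.p (nat_lit 397) (.a (.d (nat_lit 396) (nat_lit 364) (nat_lit 7532) (nat_lit 432) (nat_lit 3468)) (.a (.f (nat_lit 398) (nat_lit 366) (nat_lit 6509) (.d (nat_lit 396) (nat_lit 364) (nat_lit 7532) (nat_lit 395) (nat_lit 395))) (.a (.f (nat_lit 366) (nat_lit 398) (nat_lit 6509) (.f (nat_lit 365) (nat_lit 334) (nat_lit 6477) (.f (nat_lit 333) (nat_lit 462) (nat_lit 4429) (.d (nat_lit 332) (nat_lit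 300) (nat_lit 7468) (nat_lit 364) (nat_lit 7500))))) (.f (nat_lit 398) (nat_lit 366) (nat_lit 6509) (.d (nat_lit 432) (nat_lit 396) (nat_lit 3468) (nat_lit 433) (nat_lit 3469))))))) (.p (nat_lit 525) (.a (.d (nat_lit 526) (nat_lit 492) (nat_lit 3564) (nat_lit 558) (nat_lit 4525)) (.f (nat_lit 557) (nat_lit 462) (nat_lit 6573) (.d (nat_lit 556) (nat_lit 524) (nat_lit 5548) (nat_lit 588) (nat_lit 5580)))))))))
noncomputable def s129630 : Cert := .r (nat_lit 1318041150872943885903422258060151675824862582153720201317220025491593399592246514154373526387503142902329369693957897392298492070082546463834289555982757396480) (.p (nat_lit 397) (.a (.f (nat_lit 398) (nat_lit 366) (nat_lit 6509) (.d (nat_lit 396) (nat_lit 364) (nat_lit 7532) (nat_lit 395) (nat_lit 395))) (.a (.f (nat_lit 492) (nat_lit 524) (nat_lit 5516) (.f (nat_lit 365) (nat_lit 460) (nat_lit 5484) (.d (nat_lit 364) (nat_lit 332) (nat_lit 7500) (nat_lit 396) (nat_lit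 7532)))) (.a (.f (nat_lit 366) (nat_lit 398) (nat_lit 6509) (.f (nat_lit 365) (nat_lit 334) (nat_lit 6477) (.f (nat_lit 333) (nat_lit 462) (nat_lit 4429) (.d (nat_lit 332) (nat_lit 300) (nat_lit 7468) (nat_lit 364) (nat_lit 7500))))) (.f (nat_lit 398) (nat_lit 366) (nat_lit 6509) (.f (nat_lit 492) (nat_lit 524) (nat_lit 5516) (.f (nat_lit 365) (nat_lit 460) (nat_lit 5484) (.d (nat_lit 333) (nat_lit 301) (nat_lit 4397) (nat_lit 462) (nat_lit 4429)))))))))
noncomputable def s129631 : Cert := .r (nat_lit 1318041150847370521779233649700673631318396963777027685332508581823755185778995468869962006427477595306033243466216595172551929015323036647069559922753628274688) (.p (nat_lit 493) (.a (.f (nat_lit 525) (nat_lit 398) (nat_lit 6541) (.d (nat_lit 526) (nat_lit 492) (nat_lit 3564) (nat_lit 558) (nat_lit 4525))) (.a (.f (nat_lit 525) (nat_lit 398) (nat_lit 6541) (.f (nat_lit 557) (nat_lit 462) (nat_lit 6573) (.d (nat_lit 556)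 (nat_lit 524) (nat_lit 5548) (nat_lit 588) (nat_lit 5580)))) (.a s129630 (.p (nat_lit 525) (.a (.d (nat_lit 526) (nat_lit 492) (nat_lit 3564) (nat_lit 558) (nat_lit 4525)) (.f (nat_lit 557) (nat_lit 462) (nat_lit 6573) (.d (nat_lit 556) (nat_lit 524) (nat_lit 5548) (nat_lit 588) (nat_lit 5580)))))))))
noncomputable def s129647 : Cert := .r (nat_lit 1318041150847370521779233649700673631318396963777027685332508581823755185778995468869962006427477595306033243466216595172551929015323036647069559922753628274688) (.p (nat_lit 493) (.a (.f (nat_lit 525) (nat_lit 398) (nat_lit 6541) (.d (nat_lit 492) (nat_lit 494) (nat_lit 492) (nat_lit 526) (nat_lit 3564))) (.a (.f (nat_lit 525) (nat_lit 398) (nat_lit 6541) (.d (nat_lit 526) (nat_lit 492) (nat_lit 3564) (nat_lit 558) (nat_lit 4525))) (.a (.f (nat_lit 492) (nat_lit 494) (nat_lit 492) (.f (nat_lit 397) (nat_lit 524) (nat_lit 5516) (.f (nat_lit 365) (nat_lit 460) (nat_lit 5484)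 (.d (nat_lit 364) (nat_lit 332) (nat_lit 7500) (nat_lit 396) (nat_lit 7532))))) (.f (nat_lit 525) (nat_lit 398) (nat_lit 6541) (.f (nat_lit 526) (nat_lit 558) (nat_lit 4525) (.d (nat_lit 556) (nat_lit 524) (nat_lit 5548) (nat_lit 557) (nat_lit 1548))))))))
noncomputable def s129965 : Cert := .r (nat_lit 1318041150872943885897467995230722064177482521519501668171794995464842890042420546442685729339278187114441212606510746263224725493084013934202774099441146134528) (.p (nat_lit 428) (.a (.f (nat_lit 399) (nat_lit 400) (nat_lit 2444) (.f (nat_lit 427) (nat_lit 398) (nat_lit 2443) (.d (nat_lit 459) (nat_lit 458) (nat_lit 1450) (nat_lit 460) (nat_lit 1451)))) (.a (.f (nat_lit 395) (nat_lit 396) (nat_lit 3467) (.f (nat_lit 427) (nat_lit 394) (nat_lit 3466) (.d (nat_lit 459) (nat_lit 458) (nat_lit 1450) (nat_lit 460) (nat_lit 1451)))) (.a (.f (nat_lit 399) (nat_lit 400) (nat_lit 2444) (.f (nat_lit 427) (nat_lit 398) (nat_lit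 2443) (.d (nat_lit 395) (nat_lit 394) (nat_lit 3466) (nat_lit 396) (nat_lit 3467)))) (.f (nat_lit 460) (nat_lit 459) (nat_lit 1451) (.f (nat_lit 396) (nat_lit 395) (nat_lit 3467) (.f (nat_lit 492) (nat_lit 525) (nat_lit 4492) (.d (nat_lit 397) (nat_lit 365) (nat_lit 6508) (nat_lit 524) (nat_lit 6540)))))))))
noncomputable def s129973 : Cert := .r (nat_lit 1318041150872943885897467995230722064177482521519501668171794995464842890042420546442685729339278187114441212606510746263224725493084013934202774099441146134528) (.p (nat_lit 428) (.a (.f (nat_lit 399) (nat_lit 400) (nat_lit 2444) (.f (nat_lit 427) (nat_lit 398) (nat_lit 2443) (.d (nat_lit 459) (nat_lit 458) (nat_lit 1450) (nat_lit 460) (nat_lit 1451)))) (.a (.f (nat_lit 395) (nat_lit 396) (nat_lit 3467) (.f (nat_lit 427) (nat_lit 394) (nat_lit 3466) (.d (nat_lit 459) (nat_lit 458) (nat_lit 1450) (nat_lit 460) (nat_lit 1451)))) (.a (.f (nat_lit 399) (nat_lit 400) (nat_lit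 2444) (.f (nat_lit 427) (nat_lit 398) (nat_lit 2443) (.d (nat_lit 395) (nat_lit 394) (nat_lit 3466) (nat_lit 396) (nat_lit 3467)))) (.f (nat_lit 396) (nat_lit 395) (nat_lit 3467) (.f (nat_lit 460) (nat_lit 459) (nat_lit 1451) (.f (nat_lit 364) (nat_lit 461) (nat_lit 4460) (.f (nat_lit 365) (nat_lit 333) (nat_lit 6476) (.f (nat_lit 397) (nat_lit 492) (nat_lit 6508) (.f (nat_lit 399) (nat_lit 400) (nat_lit 2444) (.d (nat_lit 363) (nat_lit 331) (nat_lit 7499) (nat_lit 398) (nat_lit 3435))))))))))))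
noncomputable def s130011 : Cert := .r (nat_lit 1318041150872943885897467995230722064177482521519501668171794995464842890042420546442685729339278187114441212606510746263224725493084013934202774099441146134528) (.p (nat_lit 428) (.a (.f (nat_lit 399) (nat_lit 400) (nat_lit 2444) (.f (nat_lit 427) (nat_lit 398) (nat_lit 2443) (.d (nat_lit 459) (nat_lit 458) (nat_lit 1450) (nat_lit 460) (nat_lit 1451)))) (.a (.f (nat_lit 395) (nat_lit 396) (nat_lit 3467) (.f (nat_lit 427) (nat_lit 394) (nat_lit 3466) (.d (nat_lit 459) (nat_lit 458) (nat_lit 1450) (nat_lit 460) (nat_lit 1451)))) (.a (.f (nat_lit 399) (nat_lit 400) (nat_lit 2444) (.f (nat_lit 427) (nat_lit 398) (nat_lit 2443) (.d (nat_lit 395) (nat_lit 394) (nat_lit 3466) (nat_lit 396) (nat_lit 3467)))) (.f (nat_lit 396) (nat_lit 395) (nat_lit 3467) (.f (nat_lit 461) (nat_lit 525) (nat_lit 7564) (.d (nat_lit 460) (nat_lit 364) (nat_lit 4460) (nat_lit 459) (nat_lit 1451))))))))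
noncomputable def s130045 : Cert := .r (nat_lit 1318041150872943885897467995231415231601012725234396271717830766390701999311264500586478349234431842441392619012270739864750760387608361736943124992398389673984) (.p (nat_lit 525) (.a (.f (nat_lit 526) (nat_lit 492) (nat_lit 3564) (.f (nat_lit 557) (nat_lit 556) (nat_lit 1548) (.d (nat_lit 558) (nat_lit 461) (nat_lit 4525) (nat_lit 529) (nat_lit 1549)))) (.a (.f (nat_lit 460) (nat_lit 459) (nat_lit 1451) (.f (nat_lit 557) (nat_lit 461) (nat_lit 7596) (.d (nat_lit 492) (nat_lit 524) (nat_lit 4524) (nat_lit 589) (nat_lit 7628)))) (.a (.f (nat_lit 460) (nat_lit 459) (nat_lit 1451) (.f (nat_lit 492) (nat_lit 526) (nat_lit 3564) (.d (nat_lit 524) (nat_lit 397) (nat_lit 6540) (nat_lit 557) (nat_lit 4524)))) (.a (.f (nat_lit 461) (nat_lit 398) (nat_lit 6541) (.d (nat_lit 557) (nat_lit 460) (nat_lit 7596) (nat_lit 462) (nat_lit 6573))) (.f (nat_lit 461) (nat_lit 398) (nat_lit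 6541) (.d (nat_lit 526) (nat_lit 492) (nat_lit 3564) (nat_lit 558) (nat_lit 4525))))))))
noncomputable def s130051 : Cert := .r (nat_lit 1318041150847370521773279386871244019671016903142809152187083551797004676229169501158274209379252639518145086378769444043478162438324504117438044466212017012736) (.p (nat_lit 493) (.a (.p (nat_lit 428) (.a (.f (nat_lit 396) (nat_lit 395) (nat_lit 3467) (.f (nat_lit 461) (nat_lit 525) (nat_lit 7564) (.d (nat_lit 364) (nat_lit 332) (nat_lit 4428) (nat_lit 397) (nat_lit 7532)))) (.f (nat_lit 399) (nat_lit 400) (nat_lit 2444) (.f (nat_lit 427) (nat_lit 398) (nat_lit 2443) (.d (nat_lit 459) (nat_lit 458) (nat_lit 1450) (nat_lit 460) (nat_lit 1451)))))) (.a s129965 (.a s129973 (.a (.p (nat_lit 461) (.a (.f (nat_lit 525) (nat_lit 398) (nat_lit 6541) (.d (nat_lit 526) (nat_lit 492) (nat_lit 3564) (nat_lit 558) (nat_lit 4525))) (.a (.f (nat_lit 525) (nat_lit 398) (nat_lit 6541) (.f (nat_lit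 428) (nat_lit 396) (nat_lit 7564) (.d (nat_lit 460) (nat_lit 459) (nat_lit 1451) (nat_lit 557) (nat_lit 7596)))) (.a s129630 (.p (nat_lit 525) (.a (.d (nat_lit 526) (nat_lit 492) (nat_lit 3564) (nat_lit 558) (nat_lit 4525)) (.f (nat_lit 557) (nat_lit 462) (nat_lit 6573) (.d (nat_lit 556) (nat_lit 524) (nat_lit 5548) (nat_lit 588) (nat_lit 5580))))))))) (.a (.p (nat_lit 428) (.a (.f (nat_lit 396) (nat_lit 395) (nat_lit 3467) (.f (nat_lit 461) (nat_lit 525) (nat_lit 7564) (.d (nat_lit 364) (nat_lit 332) (nat_lit 4428) (nat_lit 397) (nat_lit 7532)))) (.a (.f (nat_lit 399) (nat_lit 400) (nat_lit 2444) (.f (nat_lit 427) (nat_lit 398) (nat_lit 2443) (.d (nat_lit 395) (nat_lit 394) (nat_lit 3466) (nat_lit 396) (nat_lit 3467)))) (.a (.f (nat_lit 399) (nat_lit 400) (nat_lit 2444) (.f (nat_lit 427) (nat_lit 398) (nat_lit 2443) (.f (nat_lit 458) (nat_lit 459) (nat_lit 1450) (.f (nat_lit 426) (nat_lit 457) (nat_lit 1449) (.d (nat_lit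 394) (nat_lit 393) (nat_lit 3465) (nat_lit 395) (nat_lit 3466)))))) (.f (nat_lit 399) (nat_lit 400) (nat_lit 2444) (.f (nat_lit 398) (nat_lit 427) (nat_lit 2443) (.f (nat_lit 461) (nat_lit 525) (nat_lit 6541) (.d (nat_lit 366) (nat_lit 334) (nat_lit 5453) (nat_lit 397) (nat_lit 6509))))))))) (.a (.p (nat_lit 461) (.a (.p (nat_lit 525) (.a (.d (nat_lit 526) (nat_lit 492) (nat_lit 3564) (nat_lit 558) (nat_lit 4525)) (.f (nat_lit 557) (nat_lit 462) (nat_lit 6573) (.d (nat_lit 556) (nat_lit 524) (nat_lit 5548) (nat_lit 588) (nat_lit 5580))))) (.a (.p (nat_lit 525) (.a (.f (nat_lit 557) (nat_lit 462) (nat_lit 6573) (.d (nat_lit 556) (nat_lit 524) (nat_lit 5548) (nat_lit 588) (nat_lit 5580))) (.a (.f (nat_lit 428) (nat_lit 396) (nat_lit 7564) (.d (nat_lit 460) (nat_lit 459) (nat_lit 1451) (nat_lit 557) (nat_lit 7596))) (.f (nat_lit 428) (nat_lit 396) (nat_lit 7564) (.f (nat_lit 460) (nat_lit 459) (nat_lit 1451) (.f (nat_lit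 524) (nat_lit 556) (nat_lit 5548) (.f (nat_lit 492) (nat_lit 397) (nat_lit 5516) (.f (nat_lit 427) (nat_lit 395) (nat_lit 7563) (.d (nat_lit 426) (nat_lit 425) (nat_lit 425) (nat_lit 462) (nat_lit 426)))))))))) (.a (.p (nat_lit 525) (.a (.d (nat_lit 526) (nat_lit 492) (nat_lit 3564) (nat_lit 558) (nat_lit 4525)) (.f (nat_lit 428) (nat_lit 396) (nat_lit 7564) (.d (nat_lit 460) (nat_lit 459) (nat_lit 1451) (nat_lit 557) (nat_lit 7596))))) (.a (.p (nat_lit 397) (.a (.f (nat_lit 492) (nat_lit 524) (nat_lit 5516) (.f (nat_lit 365) (nat_lit 460) (nat_lit 5484) (.d (nat_lit 364) (nat_lit 332) (nat_lit 7500) (nat_lit 396) (nat_lit 7532)))) (.a (.f (nat_lit 396) (nat_lit 364) (nat_lit 7532) (.d (nat_lit 395) (nat_lit 394) (nat_lit 394) (nat_lit 428) (nat_lit 3467))) (.f (nat_lit 492) (nat_lit 524) (nat_lit 5516) (.f (nat_lit 365) (nat_lit 460) (nat_lit 5484) (.f (nat_lit 333) (nat_lit 462) (nat_lit 4429) (.d (nat_lit 334) (nat_lit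 302) (nat_lit 6445) (nat_lit 366) (nat_lit 6477)))))))) (.p (nat_lit 525) (.a (.f (nat_lit 557) (nat_lit 462) (nat_lit 6573) (.d (nat_lit 556) (nat_lit 524) (nat_lit 5548) (nat_lit 588) (nat_lit 5580))) (.a (.f (nat_lit 428) (nat_lit 396) (nat_lit 7564) (.d (nat_lit 460) (nat_lit 459) (nat_lit 1451) (nat_lit 557) (nat_lit 7596))) (.f (nat_lit 428) (nat_lit 396) (nat_lit 7564) (.f (nat_lit 459) (nat_lit 460) (nat_lit 1451) (.f (nat_lit 427) (nat_lit 458) (nat_lit 1450) (.f (nat_lit 426) (nat_lit 462) (nat_lit 426) (.d (nat_lit 394) (nat_lit 393) (nat_lit 3465) (nat_lit 395) (nat_lit 3466)))))))))))))) (.a (.p (nat_lit 461) (.a (.f (nat_lit 525) (nat_lit 398) (nat_lit 6541) (.d (nat_lit 526) (nat_lit 492) (nat_lit 3564) (nat_lit 558) (nat_lit 4525))) (.a (.f (nat_lit 525) (nat_lit 398) (nat_lit 6541) (.f (nat_lit 557) (nat_lit 462) (nat_lit 6573) (.d (nat_lit 556) (nat_lit 524) (nat_lit 5548) (nat_lit 588) (nat_lit 5580))))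 (.a s129630 (.p (nat_lit 525) (.a (.d (nat_lit 526) (nat_lit 492) (nat_lit 3564) (nat_lit 558) (nat_lit 4525)) (.f (nat_lit 557) (nat_lit 462) (nat_lit 6573) (.d (nat_lit 556) (nat_lit 524) (nat_lit 5548) (nat_lit 588) (nat_lit 5580))))))))) (.a s130011 (.a (.p (nat_lit 428) (.a (.f (nat_lit 399) (nat_lit 400) (nat_lit 2444) (.f (nat_lit 427) (nat_lit 398) (nat_lit 2443) (.d (nat_lit 459) (nat_lit 458) (nat_lit 1450) (nat_lit 460) (nat_lit 1451)))) (.a (.f (nat_lit 459) (nat_lit 460) (nat_lit 1451) (.f (nat_lit 427) (nat_lit 458) (nat_lit 1450) (.f (nat_lit 394) (nat_lit 395) (nat_lit 3466) (.f (nat_lit 426) (nat_lit 393) (nat_lit 3465) (.f (nat_lit 461) (nat_lit 462) (nat_lit 426) (.d (nat_lit 398) (nat_lit 397) (nat_lit 2442) (nat_lit 525) (nat_lit 6541))))))) (.a (.f (nat_lit 399) (nat_lit 400) (nat_lit 2444) (.f (nat_lit 427) (nat_lit 398) (nat_lit 2443) (.f (nat_lit 458) (nat_lit 459) (nat_lit 1450) (.f (nat_lit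 426) (nat_lit 457) (nat_lit 1449) (.d (nat_lit 394) (nat_lit 393) (nat_lit 3465) (nat_lit 395) (nat_lit 3466)))))) (.a (.p (nat_lit 525) (.a (.f (nat_lit 526) (nat_lit 492) (nat_lit 3564) (.f (nat_lit 557) (nat_lit 556) (nat_lit 1548) (.d (nat_lit 558) (nat_lit 461) (nat_lit 4525) (nat_lit 529) (nat_lit 1549)))) (.a (.f (nat_lit 460) (nat_lit 459) (nat_lit 1451) (.f (nat_lit 557) (nat_lit 461) (nat_lit 7596) (.d (nat_lit 492) (nat_lit 524) (nat_lit 4524) (nat_lit 589) (nat_lit 7628)))) (.a (.f (nat_lit 460) (nat_lit 459) (nat_lit 1451) (.f (nat_lit 492) (nat_lit 526) (nat_lit 3564) (.d (nat_lit 524) (nat_lit 397) (nat_lit 6540) (nat_lit 557) (nat_lit 4524)))) (.a (.f (nat_lit 459) (nat_lit 460) (nat_lit 1451) (.f (nat_lit 427) (nat_lit 458) (nat_lit 1450) (.f (nat_lit 394) (nat_lit 395) (nat_lit 3466) (.f (nat_lit 426) (nat_lit 393) (nat_lit 3465) (.f (nat_lit 461) (nat_lit 462) (nat_lit 426) (.f (nat_lit 556) (nat_lit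 524) (nat_lit 5548) (.d (nat_lit 526) (nat_lit 557) (nat_lit 1548) (nat_lit 558) (nat_lit 4525)))))))) (.f (nat_lit 526) (nat_lit 492) (nat_lit 3564) (.f (nat_lit 459) (nat_lit 460) (nat_lit 1451) (.f (nat_lit 427) (nat_lit 458) (nat_lit 1450) (.f (nat_lit 394) (nat_lit 395) (nat_lit 3466) (.f (nat_lit 426) (nat_lit 393) (nat_lit 3465) (.d (nat_lit 461) (nat_lit 462) (nat_lit 426) (nat_lit 558) (nat_lit 4525)))))))))))) (.a (.f (nat_lit 399) (nat_lit 400) (nat_lit 2444) (.f (nat_lit 398) (nat_lit 427) (nat_lit 2443) (.f (nat_lit 461) (nat_lit 525) (nat_lit 6541) (.d (nat_lit 366) (nat_lit 334) (nat_lit 5453) (nat_lit 397) (nat_lit 6509))))) s130045)))))) (.p (nat_lit 428) (.a (.f (nat_lit 399) (nat_lit 400) (nat_lit 2444) (.f (nat_lit 427) (nat_lit 398) (nat_lit 2443) (.d (nat_lit 459) (nat_lit 458) (nat_lit 1450) (nat_lit 460) (nat_lit 1451)))) (.a s130045 (.a (.f (nat_lit 399) (nat_lit 400) (nat_lit 2444) (.f (nat_lit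 398) (nat_lit 427) (nat_lit 2443) (.f (nat_lit 461) (nat_lit 525) (nat_lit 6541) (.d (nat_lit 366) (nat_lit 334) (nat_lit 5453) (nat_lit 397) (nat_lit 6509))))) (.p (nat_lit 525) (.a (.f (nat_lit 526) (nat_lit 492) (nat_lit 3564) (.f (nat_lit 557) (nat_lit 556) (nat_lit 1548) (.d (nat_lit 558) (nat_lit 461) (nat_lit 4525) (nat_lit 529) (nat_lit 1549)))) (.a (.f (nat_lit 460) (nat_lit 459) (nat_lit 1451) (.f (nat_lit 557) (nat_lit 461) (nat_lit 7596) (.d (nat_lit 492) (nat_lit 524) (nat_lit 4524) (nat_lit 589) (nat_lit 7628)))) (.a (.f (nat_lit 460) (nat_lit 459) (nat_lit 1451) (.f (nat_lit 492) (nat_lit 526) (nat_lit 3564) (.d (nat_lit 524) (nat_lit 397) (nat_lit 6540) (nat_lit 557) (nat_lit 4524)))) (.a (.f (nat_lit 461) (nat_lit 396) (nat_lit 7564) (.d (nat_lit 557) (nat_lit 460) (nat_lit 7596) (nat_lit 462) (nat_lit 6573))) (.f (nat_lit 461) (nat_lit 396) (nat_lit 7564) (.d (nat_lit 526) (nat_lit 492) (nat_lit 3564)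 (nat_lit 558) (nat_lit 4525))))))))))))))))))))))
noncomputable def s130060 : Cert := .r (nat_lit 1318041150847370521773279386871244019671016903142809152187083551797004676229169501158274209379252639518145086378769444043478162438324504117438044466212017012736) (.p (nat_lit 493) (.a (.p (nat_lit 428) (.a (.f (nat_lit 396) (nat_lit 395) (nat_lit 3467) (.f (nat_lit 461) (nat_lit 525) (nat_lit 7564) (.d (nat_lit 364) (nat_lit 332) (nat_lit 4428) (nat_lit 397) (nat_lit 7532)))) (.f (nat_lit 399) (nat_lit 400) (nat_lit 2444) (.f (nat_lit 427) (nat_lit 398) (nat_lit 2443) (.d (nat_lit 459) (nat_lit 458) (nat_lit 1450) (nat_lit 460) (nat_lit 1451)))))) (.a s129965 (.a s129973 (.a (.f (nat_lit 494) (nat_lit 492) (nat_lit 492) (.f (nat_lit 398) (nat_lit 462) (nat_lit 4494) (.f (nat_lit 461) (nat_lit 525) (nat_lit 6541) (.d (nat_lit 366) (nat_lit 334) (nat_lit 5453) (nat_lit 397) (nat_lit 6509))))) (.a (.p (nat_lit 428) (.a (.f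 (nat_lit 396) (nat_lit 395) (nat_lit 3467) (.f (nat_lit 461) (nat_lit 525) (nat_lit 7564) (.d (nat_lit 364) (nat_lit 332) (nat_lit 4428) (nat_lit 397) (nat_lit 7532)))) (.a (.f (nat_lit 395) (nat_lit 396) (nat_lit 3467) (.f (nat_lit 427) (nat_lit 394) (nat_lit 3466) (.d (nat_lit 459) (nat_lit 458) (nat_lit 1450) (nat_lit 460) (nat_lit 1451)))) (.f (nat_lit 460) (nat_lit 459) (nat_lit 1451) (.f (nat_lit 492) (nat_lit 494) (nat_lit 492) (.f (nat_lit 524) (nat_lit 397) (nat_lit 6540) (.f (nat_lit 556) (nat_lit 461) (nat_lit 6572) (.d (nat_lit 555) (nat_lit 523) (nat_lit 5547) (nat_lit 587) (nat_lit 5579))))))))) s130011))))))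
noncomputable def s130177 : Cert := .r (nat_lit 1318041150847370521773279386871244019671016903142809152187083551797004676229169501158274209379252639518145086378769444043478162438324504117438044466212017012736) (.p (nat_lit 492) (.a (.p (nat_lit 428) (.a (.f (nat_lit 460) (nat_lit 459) (nat_lit 1451) (.f (nat_lit 396) (nat_lit 395) (nat_lit 3467) (.d (nat_lit 397) (nat_lit 365) (nat_lit 6508) (nat_lit 524) (nat_lit 6540)))) (.a (.f (nat_lit 395) (nat_lit 396) (nat_lit 3467) (.f (nat_lit 427) (nat_lit 394) (nat_lit 3466) (.d (nat_lit 399) (nat_lit 398) (nat_lit 2443) (nat_lit 400) (nat_lit 2444)))) (.a (.f (nat_lit 460) (nat_lit 459) (nat_lit 1451) (.f (nat_lit 524) (nat_lit 397) (nat_lit 6540) (.f (nat_lit 427) (nat_lit 395) (nat_lit 7563) (.d (nat_lit 399) (nat_lit 398) (nat_lit 2443) (nat_lit 400) (nat_lit 2444))))) (.f (nat_lit 460) (nat_lit 459) (nat_lit 1451) (.f (nat_lit 397) (nat_lit 524) (nat_lit 6540) (.d (nat_lit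 365) (nat_lit 333) (nat_lit 5452) (nat_lit 396) (nat_lit 6508)))))))) (.a (.f (nat_lit 494) (nat_lit 493) (nat_lit 492) (.f (nat_lit 462) (nat_lit 398) (nat_lit 4494) (.f (nat_lit 526) (nat_lit 397) (nat_lit 7565) (.f (nat_lit 525) (nat_lit 557) (nat_lit 5549) (.d (nat_lit 524) (nat_lit 491) (nat_lit 3563) (nat_lit 523) (nat_lit 2539)))))) (.a (.p (nat_lit 428) (.a (.f (nat_lit 460) (nat_lit 459) (nat_lit 1451) (.f (nat_lit 396) (nat_lit 395) (nat_lit 3467) (.d (nat_lit 397) (nat_lit 365) (nat_lit 6508) (nat_lit 524) (nat_lit 6540)))) (.a (.f (nat_lit 494) (nat_lit 493) (nat_lit 492) (.f (nat_lit 399) (nat_lit 400) (nat_lit 2444) (.f (nat_lit 526) (nat_lit 462) (nat_lit 6542) (.f (nat_lit 529) (nat_lit 530) (nat_lit 3566) (.f (nat_lit 557) (nat_lit 558) (nat_lit 1549) (.f (nat_lit 525) (nat_lit 556) (nat_lit 1548) (.d (nat_lit 524) (nat_lit 491) (nat_lit 3563) (nat_lit 523) (nat_lit 2539)))))))) (.f (nat_lit 460) (nat_lit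 459) (nat_lit 1451) (.f (nat_lit 396) (nat_lit 395) (nat_lit 3467) (.d (nat_lit 493) (nat_lit 494) (nat_lit 492) (nat_lit 525) (nat_lit 4492))))))) (.a (.f (nat_lit 494) (nat_lit 493) (nat_lit 492) (.f (nat_lit 462) (nat_lit 398) (nat_lit 4494) (.d (nat_lit 526) (nat_lit 397) (nat_lit 7565) (nat_lit 399) (nat_lit 6542)))) (.p (nat_lit 428) (.a (.f (nat_lit 395) (nat_lit 396) (nat_lit 3467) (.f (nat_lit 427) (nat_lit 394) (nat_lit 3466) (.d (nat_lit 399) (nat_lit 398) (nat_lit 2443) (nat_lit 400) (nat_lit 2444)))) (.a (.f (nat_lit 460) (nat_lit 459) (nat_lit 1451) (.f (nat_lit 395) (nat_lit 396) (nat_lit 3467) (.d (nat_lit 427) (nat_lit 394) (nat_lit 3466) (nat_lit 524) (nat_lit 7563)))) (.a (.f (nat_lit 399) (nat_lit 400) (nat_lit 2444) (.f (nat_lit 427) (nat_lit 398) (nat_lit 2443) (.f (nat_lit 458) (nat_lit 459) (nat_lit 1450) (.f (nat_lit 426) (nat_lit 457) (nat_lit 1449) (.d (nat_lit 394) (nat_lit 393) (nat_lit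 3465) (nat_lit 395) (nat_lit 3466)))))) (.a (.f (nat_lit 460) (nat_lit 459) (nat_lit 1451) (.f (nat_lit 396) (nat_lit 395) (nat_lit 3467) (.d (nat_lit 493) (nat_lit 494) (nat_lit 492) (nat_lit 525) (nat_lit 4492)))) (.f (nat_lit 494) (nat_lit 493) (nat_lit 492) (.f (nat_lit 399) (nat_lit 400) (nat_lit 2444) (.d (nat_lit 398) (nat_lit 427) (nat_lit 2443) (nat_lit 462) (nat_lit 4494))))))))))))))
noncomputable def s130298 : Cert := .r (nat_lit 1318041150847370521785187912539807586895199876419770668122434404812533225092636794594746482007853725671241090234303656722990184115662438415065987880696649089024) (.p (nat_lit 429) (.a (.f (nat_lit 397) (nat_lit 396) (nat_lit 3468) (.f (nat_lit 433) (nat_lit 398) (nat_lit 3469) (.d (nat_lit 401) (nat_lit 400) (nat_lit 2445) (nat_lit 402) (nat_lit 2446)))) (.a (.f (nat_lit 400) (nat_lit 401) (nat_lit 2445) (.f (nat_lit 428) (nat_lit 399) (nat_lit 2444) (.d (nat_lit 396) (nat_lit 395)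 (nat_lit 3467) (nat_lit 397) (nat_lit 3468)))) (.a (.f (nat_lit 397) (nat_lit 396) (nat_lit 3468) (.f (nat_lit 433) (nat_lit 398) (nat_lit 3469) (.d (nat_lit 465) (nat_lit 464) (nat_lit 429) (nat_lit 466) (nat_lit 430)))) (.a (.f (nat_lit 400) (nat_lit 401) (nat_lit 2445) (.f (nat_lit 428) (nat_lit 399) (nat_lit 2444) (.f (nat_lit 395) (nat_lit 396) (nat_lit 3467) (.f (nat_lit 427) (nat_lit 394) (nat_lit 3466) (.d (nat_lit 459) (nat_lit 458) (nat_lit 1450) (nat_lit 460) (nat_lit 1451)))))) (.f (nat_lit 400) (nat_lit 401) (nat_lit 2445) (.f (nat_lit 399) (nat_lit 428) (nat_lit 2444) (.f (nat_lit 465) (nat_lit 464) (nat_lit 429) (.f (nat_lit 433) (nat_lit 466) (nat_lit 430) (.d (nat_lit 398) (nat_lit 397) (nat_lit 397) (nat_lit 434) (nat_lit 3470)))))))))))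
noncomputable def s130360 : Cert := .r (nat_lit 1318041150847370521785187912528716908118716616981457011385862069998787476791133528294064563685395240440018587742143759098573625803272873571220373593380752457728) (.p (nat_lit 432) (.a (.f (nat_lit 433) (nat_lit 461) (nat_lit 1453) (.f (nat_lit 465) (nat_lit 466) (nat_lit 430) (.f (nat_lit 401) (nat_lit 402) (nat_lit 2446) (.d (nat_lit 429) (nat_lit 400) (nat_lit 2445) (nat_lit 464) (nat_lit 429))))) (.a (.p (nat_lit 429) (.a (.f (nat_lit 400) (nat_lit 401) (nat_lit 2445) (.f (nat_lit 428) (nat_lit 399) (nat_lit 2444) (.d (nat_lit 396) (nat_lit 395) (nat_lit 3467) (nat_lit 397) (nat_lit 3468)))) (.a (.f (nat_lit 465) (nat_lit 464) (nat_lit 429) (.f (nat_lit 433) (nat_lit 466) (nat_lit 430) (.d (nat_lit 401) (nat_lit 400) (nat_lit 2445) (nat_lit 402) (nat_lit 2446)))) (.a (.f (nat_lit 397) (nat_lit 396) (nat_lit 3468) (.f (nat_lit 494) (nat_lit 526) (nat_lit 7565) (.f (nat_lit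 465) (nat_lit 464) (nat_lit 429) (.f (nat_lit 433) (nat_lit 466) (nat_lit 430) (.f (nat_lit 529) (nat_lit 530) (nat_lit 3566) (.f (nat_lit 402) (nat_lit 401) (nat_lit 2446) (.d (nat_lit 497) (nat_lit 434) (nat_lit 6545) (nat_lit 560) (nat_lit 5552)))))))) (.f (nat_lit 397) (nat_lit 396) (nat_lit 3468) (.f (nat_lit 494) (nat_lit 526) (nat_lit 7565) (.f (nat_lit 465) (nat_lit 464) (nat_lit 429) (.f (nat_lit 433) (nat_lit 466) (nat_lit 430) (.f (nat_lit 529) (nat_lit 530) (nat_lit 3566) (.d (nat_lit 497) (nat_lit 400) (nat_lit 7568) (nat_lit 560) (nat_lit 5552))))))))))) (.a (.f (nat_lit 433) (nat_lit 461) (nat_lit 1453) (.f (nat_lit 402) (nat_lit 401) (nat_lit 2446) (.f (nat_lit 434) (nat_lit 403) (nat_lit 2447) (.d (nat_lit 466) (nat_lit 465) (nat_lit 430) (nat_lit 467) (nat_lit 431))))) (.a (.f (nat_lit 461) (nat_lit 433) (nat_lit 1453) (.d (nat_lit 460) (nat_lit 429) (nat_lit 1452) (nat_lit 459) (nat_lit 2475))) (.p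 (nat_lit 429) (.a (.f (nat_lit 400) (nat_lit 401) (nat_lit 2445) (.f (nat_lit 428) (nat_lit 399) (nat_lit 2444) (.d (nat_lit 396) (nat_lit 395) (nat_lit 3467) (nat_lit 397) (nat_lit 3468)))) (.a (.f (nat_lit 460) (nat_lit 461) (nat_lit 1452) (.f (nat_lit 428) (nat_lit 459) (nat_lit 1451) (.d (nat_lit 396) (nat_lit 395) (nat_lit 3467) (nat_lit 397) (nat_lit 3468)))) (.a (.f (nat_lit 461) (nat_lit 460) (nat_lit 1452) (.f (nat_lit 397) (nat_lit 396) (nat_lit 3468) (.d (nat_lit 365) (nat_lit 333) (nat_lit 4429) (nat_lit 494) (nat_lit 4461)))) (.a (.f (nat_lit 400) (nat_lit 401) (nat_lit 2445) (.f (nat_lit 428) (nat_lit 399) (nat_lit 2444) (.f (nat_lit 395) (nat_lit 396) (nat_lit 3467) (.f (nat_lit 427) (nat_lit 394) (nat_lit 3466) (.d (nat_lit 459) (nat_lit 458) (nat_lit 1450) (nat_lit 460) (nat_lit 1451)))))) (.f (nat_lit 460) (nat_lit 461) (nat_lit 1452) (.f (nat_lit 428) (nat_lit 459) (nat_lit 1451) (.d (nat_lit 400)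 (nat_lit 399) (nat_lit 2444) (nat_lit 401) (nat_lit 2445))))))))))))))
noncomputable def s130410 : Cert := .r (nat_lit 1318041150847370521773279386871244019671016903142809152187083551797004676229169501158274209379252639518145086378769444043478162438324504117438044466212017012736) (.p (nat_lit 428) (.a (.f (nat_lit 399) (nat_lit 400) (nat_lit 2444) (.f (nat_lit 398) (nat_lit 427) (nat_lit 2443) (.f (nat_lit 396) (nat_lit 395) (nat_lit 3467) (.f (nat_lit 397) (nat_lit 432) (nat_lit 396) (.f (nat_lit 364) (nat_lit 363) (nat_lit 3435) (.f (nat_lit 332) (nat_lit 300) (nat_lit 4396) (.f (nat_lit 333) (nat_lit 301) (nat_lit 6444) (.f (nat_lit 367) (nat_lit 368) (nat_lit 2412) (.f (nat_lit 331) (nat_lit 299) (nat_lit 7467) (.d (nat_lit 366) (nat_lit 334) (nat_lit 331) (nat_lit 365) (nat_lit 3403))))))))))) (.a (.f (nat_lit 396) (nat_lit 395) (nat_lit 3467) (.f (nat_lit 432) (nat_lit 397) (nat_lit 3468) (.f (nat_lit 401) (nat_lit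 400) (nat_lit 2445) (.f (nat_lit 433) (nat_lit 402) (nat_lit 2446) (.d (nat_lit 465) (nat_lit 464) (nat_lit 429) (nat_lit 466) (nat_lit 430)))))) (.a (.f (nat_lit 399) (nat_lit 400) (nat_lit 2444) (.f (nat_lit 427) (nat_lit 398) (nat_lit 2443) (.d (nat_lit 395) (nat_lit 394) (nat_lit 3466) (nat_lit 396) (nat_lit 3467)))) (.a (.f (nat_lit 395) (nat_lit 396) (nat_lit 3467) (.f (nat_lit 427) (nat_lit 394) (nat_lit 3466) (.f (nat_lit 458) (nat_lit 459) (nat_lit 1450) (.f (nat_lit 426) (nat_lit 457) (nat_lit 1449) (.d (nat_lit 398) (nat_lit 397) (nat_lit 2442) (nat_lit 399) (nat_lit 2443)))))) (.a (.f (nat_lit 399) (nat_lit 400) (nat_lit 2444) (.f (nat_lit 427) (nat_lit 398) (nat_lit 2443) (.f (nat_lit 458) (nat_lit 459) (nat_lit 1450) (.f (nat_lit 426) (nat_lit 457) (nat_lit 1449) (.d (nat_lit 394) (nat_lit 393) (nat_lit 3465) (nat_lit 395) (nat_lit 3466)))))) (.f (nat_lit 400) (nat_lit 399) (nat_lit 2444) (.f (nat_lit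 432) (nat_lit 401) (nat_lit 2445) (.f (nat_lit 465) (nat_lit 464) (nat_lit 429) (.f (nat_lit 433) (nat_lit 466) (nat_lit 430) (.d (nat_lit 397) (nat_lit 396) (nat_lit 3468) (nat_lit 398) (nat_lit 3469))))))))))))
noncomputable def s130453 : Cert := .r (nat_lit 1318041150847370521773279386871244019671016903142809152187083551797004676229169501158274209379252639518145086378769444043478162438324504117438044466212017012736) (.p (nat_lit 461) (.a (.f (nat_lit 432) (nat_lit 460) (nat_lit 1452) (.f (nat_lit 397) (nat_lit 396) (nat_lit 3468) (.d (nat_lit 433) (nat_lit 398) (nat_lit 3469) (nat_lit 462) (nat_lit 1453)))) (.a (.f (nat_lit 432) (nat_lit 460) (nat_lit 1452) (.f (nat_lit 397) (nat_lit 396) (nat_lit 3468) (.f (nat_lit 398) (nat_lit 433) (nat_lit 3469) (.d (nat_lit 366) (nat_lit 334) (nat_lit 5453) (nat_lit 493) (nat_lit 6509))))) (.a (.p (nat_lit 493) (.a (.f (nat_lit 525) (nat_lit 398) (nat_lit 6541) (.f (nat_lit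 557) (nat_lit 462) (nat_lit 6573) (.d (nat_lit 556) (nat_lit 524) (nat_lit 5548) (nat_lit 588) (nat_lit 5580)))) (.a (.f (nat_lit 492) (nat_lit 494) (nat_lit 492) (.f (nat_lit 397) (nat_lit 524) (nat_lit 5516) (.d (nat_lit 396) (nat_lit 364) (nat_lit 7532) (nat_lit 432) (nat_lit 3468)))) (.f (nat_lit 398) (nat_lit 525) (nat_lit 6541) (.d (nat_lit 494) (nat_lit 462) (nat_lit 4494) (nat_lit 492) (nat_lit 492)))))) (.a (.p (nat_lit 493) (.a (.f (nat_lit 525) (nat_lit 398) (nat_lit 6541) (.f (nat_lit 557) (nat_lit 462) (nat_lit 6573) (.d (nat_lit 556) (nat_lit 524) (nat_lit 5548) (nat_lit 588) (nat_lit 5580)))) (.a (.f (nat_lit 492) (nat_lit 494) (nat_lit 492) (.f (nat_lit 397) (nat_lit 524) (nat_lit 5516) (.f (nat_lit 365) (nat_lit 460) (nat_lit 5484) (.d (nat_lit 364) (nat_lit 332) (nat_lit 7500) (nat_lit 396) (nat_lit 7532))))) (.f (nat_lit 398) (nat_lit 525) (nat_lit 6541) (.d (nat_lit 494) (nat_lit 462) (nat_lit 4494)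 (nat_lit 492) (nat_lit 492)))))) (.a (.f (nat_lit 432) (nat_lit 460) (nat_lit 1452) (.f (nat_lit 462) (nat_lit 433) (nat_lit 1453) (.f (nat_lit 397) (nat_lit 396) (nat_lit 3468) (.d (nat_lit 365) (nat_lit 333) (nat_lit 4429) (nat_lit 494) (nat_lit 4461))))) (.f (nat_lit 432) (nat_lit 460) (nat_lit 1452) (.f (nat_lit 433) (nat_lit 462) (nat_lit 1453) (.d (nat_lit 465) (nat_lit 464) (nat_lit 429) (nat_lit 466) (nat_lit 430))))))))))
noncomputable def s130456 : Cert := .r (nat_lit 1318041150847370521773279386867085015129835680853441530910868926241850020616105776295518490008330707556436647944209482434321953071178417300995939108468555776000) (.p (nat_lit 430) (.a (.p (nat_lit 429) (.a s129023 (.a s129028 (.a s129052 (.a (.p (nat_lit 460) (.a (.f (nat_lit 428) (nat_lit 459) (nat_lit 1451) (.f (nat_lit 396) (nat_lit 395) (nat_lit 3467) (.f (nat_lit 397) (nat_lit 432) (nat_lit 3468) (.d (nat_lit 365) (nat_lit 333) (nat_lit 5452) (nat_lit 492) (nat_lit 6508))))) (.a (.f (nat_lit 432) (nat_lit 461) (nat_lit 1452) (.f (nat_lit 397) (nat_lit 396) (nat_lit 3468) (.f (nat_lit 433) (nat_lit 398) (nat_lit 3469) (.d (nat_lit 401) (nat_lit 400) (nat_lit 2445) (nat_lit 402) (nat_lit 2446))))) (.f (nat_lit 459) (nat_lit 428) (nat_lit 1451) (.d (nat_lit 461) (nat_lit 458) (nat_lit 2474) (nat_lit 462) (nat_lit 2475)))))) (.a s129056 (.a (.p (nat_lit 428) (.a (.f (nat_lit 399) (nat_lit 400) (nat_lit 2444) (.f (nat_lit 398) (nat_lit 427) (nat_lit 2443) (.f (nat_lit 396) (nat_lit 395) (nat_lit 3467) (.f (nat_lit 397) (nat_lit 432) (nat_lit 396) (.f (nat_lit 364) (nat_lit 363) (nat_lit 3435) (.f (nat_lit 332) (nat_lit 300) (nat_lit 4396) (.f (nat_lit 333) (nat_lit 301) (nat_lit 6444) (.f (nat_lit 367) (nat_lit 368) (nat_lit 2412) (.f (nat_lit 331) (nat_lit 299) (nat_lit 7467) (.d (nat_lit 366) (nat_lit 334) (nat_lit 331) (nat_lit 365) (nat_lit 3403))))))))))) (.a (.f (nat_lit 396) (nat_lit 395) (nat_lit 3467) (.f (nat_lit 432) (nat_lit 397) (nat_lit 3468) (.f (nat_lit 401) (nat_lit 400) (nat_lit 2445) (.f (nat_lit 433) (nat_lit 402) (nat_lit 2446) (.d (nat_lit 465) (nat_lit 464) (nat_lit 429) (nat_lit 466) (nat_lit 430)))))) (.a (.f (nat_lit 399) (nat_lit 400) (nat_lit 2444) (.f (nat_lit 427) (nat_lit 398) (nat_lit 2443) (.d (nat_lit 395) (nat_lit 394) (nat_lit 3466) (nat_lit 396) (nat_lit 3467)))) (.a (.f (nat_lit 396) (nat_lit 395) (nat_lit 3467) (.f (nat_lit 432) (nat_lit 397) (nat_lit 3468) (.f (nat_lit 465) (nat_lit 464) (nat_lit 429) (.f (nat_lit 433) (nat_lit 466) (nat_lit 430) (.f (nat_lit 461) (nat_lit 462) (nat_lit 1453) (.f (nat_lit 493) (nat_lit 525) (nat_lit 7564) (.f (nat_lit 494) (nat_lit 492) (nat_lit 492) (.d (nat_lit 529) (nat_lit 526) (nat_lit 3565) (nat_lit 530) (nat_lit 3566))))))))) (.f (nat_lit 399) (nat_lit 400) (nat_lit 2444) (.f (nat_lit 398) (nat_lit 427) (nat_lit 2443) (.f (nat_lit 494) (nat_lit 462) (nat_lit 4494) (.f (nat_lit 493) (nat_lit 492) (nat_lit 492) (.d (nat_lit 529) (nat_lit 526) (nat_lit 3565) (nat_lit 530) (nat_lit 3566))))))))))) (.a (.p (nat_lit 494) (.a (.f (nat_lit 398) (nat_lit 462) (nat_lit 4494) (.f (nat_lit 493) (nat_lit 492) (nat_lit 492) (.f (nat_lit 461) (nat_lit 525) (nat_lit 6541) (.d (nat_lit 366) (nat_lit 334) (nat_lit 5453) (nat_lit 397) (nat_lit 6509))))) (.a (.f (nat_lit 493) (nat_lit 492) (nat_lit 492) (.d (nat_lit 529) (nat_lit 526) (nat_lit 3565) (nat_lit 530) (nat_lit 3566))) (.f (nat_lit 462) (nat_lit 398) (nat_lit 4494) (.d (nat_lit 526) (nat_lit 397) (nat_lit 7565) (nat_lit 399) (nat_lit 6542)))))) (.a s129092 s129093))))))))) (.a (.p (nat_lit 429) (.a s129023 (.a s129028 (.a s129095 (.a (.p (nat_lit 460) (.a (.f (nat_lit 428) (nat_lit 459) (nat_lit 1451) (.f (nat_lit 396) (nat_lit 395) (nat_lit 3467) (.f (nat_lit 397) (nat_lit 432) (nat_lit 3468) (.d (nat_lit 365) (nat_lit 333) (nat_lit 5452) (nat_lit 492) (nat_lit 6508))))) (.a (.f (nat_lit 432) (nat_lit 461) (nat_lit 1452) (.f (nat_lit 397) (nat_lit 396) (nat_lit 3468) (.f (nat_lit 433) (nat_lit 398) (nat_lit 3469) (.d (nat_lit 401) (nat_lit 400) (nat_lit 2445) (nat_lit 402) (nat_lit 2446))))) (.f (nat_lit 459) (nat_lit 428) (nat_lit 1451) (.d (nat_lit 461) (nat_lit 458) (nat_lit 2474) (nat_lit 462) (nat_lit 2475)))))) (.a s129056 (.a (.p (nat_lit 494) (.a (.f (nat_lit 398) (nat_lit 462) (nat_lit 4494) (.f (nat_lit 493) (nat_lit 492) (nat_lit 492) (.f (nat_lit 461) (nat_lit 525) (nat_lit 6541) (.d (nat_lit 366) (nat_lit 334) (nat_lit 5453) (nat_lit 397) (nat_lit 6509))))) (.a (.f (nat_lit 493) (nat_lit 492) (nat_lit 492) (.d (nat_lit 529) (nat_lit 526) (nat_lit 3565) (nat_lit 530) (nat_lit 3566))) (.f (nat_lit 462) (nat_lit 398) (nat_lit 4494) (.d (nat_lit 526) (nat_lit 397) (nat_lit 7565) (nat_lit 399) (nat_lit 6542)))))) (.a s129092 s129093)))))))) (.a (.p (nat_lit 429) (.a s129056 (.a s129100 (.a (.p (nat_lit 428) (.a (.f (nat_lit 399) (nat_lit 400) (nat_lit 2444) (.f (nat_lit 398) (nat_lit 427) (nat_lit 2443) (.f (nat_lit 494) (nat_lit 462) (nat_lit 4494) (.f (nat_lit 396) (nat_lit 395) (nat_lit 3467) (.f (nat_lit 397) (nat_lit 432) (nat_lit 396) (.f (nat_lit 460) (nat_lit 459) (nat_lit 1451) (.d (nat_lit 492) (nat_lit 365) (nat_lit 6508) (nat_lit 493) (nat_lit 492)))))))) (.a (.f (nat_lit 399) (nat_lit 400) (nat_lit 2444) (.f (nat_lit 427) (nat_lit 398) (nat_lit 2443) (.d (nat_lit 459) (nat_lit 458) (nat_lit 1450) (nat_lit 460) (nat_lit 1451)))) (.a (.f (nat_lit 396) (nat_lit 395) (nat_lit 3467) (.f (nat_lit 432) (nat_lit 397) (nat_lit 3468) (.f (nat_lit 401) (nat_lit 400) (nat_lit 2445) (.f (nat_lit 433) (nat_lit 402) (nat_lit 2446) (.d (nat_lit 465) (nat_lit 464) (nat_lit 429) (nat_lit 466) (nat_lit 430)))))) (.f (nat_lit 459) (nat_lit 460) (nat_lit 1451) (.f (nat_lit 427) (nat_lit 458) (nat_lit 1450) (.d (nat_lit 395) (nat_lit 394) (nat_lit 3466) (nat_lit 396) (nat_lit 3467)))))))) (.a (.p (nat_lit 460) (.a (.f (nat_lit 432) (nat_lit 461) (nat_lit 1452) (.f (nat_lit 397) (nat_lit 396) (nat_lit 3468) (.f (nat_lit 433) (nat_lit 398) (nat_lit 3469) (.d (nat_lit 401) (nat_lit 400) (nat_lit 2445) (nat_lit 402) (nat_lit 2446))))) (.a (.f (nat_lit 428) (nat_lit 459) (nat_lit 1451) (.f (nat_lit 396) (nat_lit 395) (nat_lit 3467) (.f (nat_lit 397) (nat_lit 432) (nat_lit 3468) (.d (nat_lit 492) (nat_lit 365) (nat_lit 6508) (nat_lit 524) (nat_lit 6540))))) (.f (nat_lit 459) (nat_lit 428) (nat_lit 1451) (.d (nat_lit 461) (nat_lit 458) (nat_lit 2474) (nat_lit 462) (nat_lit 2475)))))) (.a (.p (nat_lit 494) (.a (.f (nat_lit 398) (nat_lit 462) (nat_lit 4494) (.f (nat_lit 493) (nat_lit 492) (nat_lit 492) (.f (nat_lit 461) (nat_lit 525) (nat_lit 6541) (.d (nat_lit 366) (nat_lit 334) (nat_lit 5453) (nat_lit 397) (nat_lit 6509))))) (.a (.f (nat_lit 493) (nat_lit 492) (nat_lit 492) (.d (nat_lit 529) (nat_lit 526) (nat_lit 3565) (nat_lit 530) (nat_lit 3566))) (.f (nat_lit 462) (nat_lit 398) (nat_lit 4494) (.d (nat_lit 526) (nat_lit 397) (nat_lit 7565) (nat_lit 399) (nat_lit 6542)))))) (.a (.p (nat_lit 460) (.a (.f (nat_lit 432) (nat_lit 461) (nat_lit 1452) (.f (nat_lit 428) (nat_lit 459) (nat_lit 1451) (.d (nat_lit 400) (nat_lit 399) (nat_lit 2444) (nat_lit 401) (nat_lit 2445)))) (.a (.f (nat_lit 428) (nat_lit 459) (nat_lit 1451) (.f (nat_lit 396) (nat_lit 395) (nat_lit 3467) (.f (nat_lit 397) (nat_lit 432) (nat_lit 3468) (.d (nat_lit 492) (nat_lit 365) (nat_lit 6508) (nat_lit 524) (nat_lit 6540))))) (.a (.f (nat_lit 459) (nat_lit 428) (nat_lit 1451) (.d (nat_lit 461) (nat_lit 458) (nat_lit 2474) (nat_lit 462) (nat_lit 2475))) (.f (nat_lit 432) (nat_lit 461) (nat_lit 1452) (.f (nat_lit 401) (nat_lit 400) (nat_lit 2445) (.f (nat_lit 433) (nat_lit 402) (nat_lit 2446) (.d (nat_lit 465) (nat_lit 464) (nat_lit 429) (nat_lit 466) (nat_lit 430))))))))) s129093))))))) (.a (.p (nat_lit 429) (.a s129023 (.a s129028 (.a s129095 (.a (.p (nat_lit 460) (.a (.f (nat_lit 428) (nat_lit 459) (nat_lit 1451) (.f (nat_lit 396) (nat_lit 395) (nat_lit 3467) (.f (nat_lit 397) (nat_lit 432) (nat_lit 3468) (.d (nat_lit 365) (nat_lit 333) (nat_lit 5452) (nat_lit 492) (nat_lit 6508))))) (.a (.f (nat_lit 432) (nat_lit 461) (nat_lit 1452) (.f (nat_lit 397) (nat_lit 396) (nat_lit 3468) (.f (nat_lit 433) (nat_lit 398) (nat_lit 3469) (.d (nat_lit 401) (nat_lit 400) (nat_lit 2445) (nat_lit 402) (nat_lit 2446))))) (.f (nat_lit 459) (nat_lit 428) (nat_lit 1451) (.d (nat_lit 461) (nat_lit 458) (nat_lit 2474) (nat_lit 462) (nat_lit 2475)))))) (.a s129056 (.a s129112 (.a (.p (nat_lit 494) (.a (.f (nat_lit 493) (nat_lit 492) (nat_lit 492) (.d (nat_lit 529) (nat_lit 526) (nat_lit 3565) (nat_lit 530) (nat_lit 3566))) (.a (.f (nat_lit 398) (nat_lit 462) (nat_lit 4494) (.f (nat_lit 493) (nat_lit 492) (nat_lit 492) (.f (nat_lit 461) (nat_lit 525) (nat_lit 6541) (.f (nat_lit 397) (nat_lit 366) (nat_lit 6509) (.d (nat_lit 396) (nat_lit 364) (nat_lit 7532) (nat_lit 395) (nat_lit 395)))))) (.f (nat_lit 462) (nat_lit 398) (nat_lit 4494) (.d (nat_lit 526) (nat_lit 397) (nat_lit 7565) (nat_lit 399) (nat_lit 6542)))))) (.a s129092 (.a s129093 s129127)))))))))) (.a (.p (nat_lit 429) (.a s129056 (.a s129100 (.a s129129 (.a s129136 (.a (.p (nat_lit 494) (.a (.f (nat_lit 398) (nat_lit 462) (nat_lit 4494) (.f (nat_lit 493) (nat_lit 492) (nat_lit 492) (.f (nat_lit 461) (nat_lit 525) (nat_lit 6541) (.d (nat_lit 366) (nat_lit 334) (nat_lit 5453) (nat_lit 397) (nat_lit 6509))))) (.a (.f (nat_lit 493) (nat_lit 492) (nat_lit 492) (.d (nat_lit 529) (nat_lit 526) (nat_lit 3565) (nat_lit 530) (nat_lit 3566))) (.f (nat_lit 462) (nat_lit 398) (nat_lit 4494) (.d (nat_lit 526) (nat_lit 397) (nat_lit 7565) (nat_lit 399) (nat_lit 6542)))))) (.a s129137 s129093))))))) (.a (.p (nat_lit 429) (.a s129023 (.a s129028 (.a s129095 (.a (.p (nat_lit 460) (.a (.f (nat_lit 428) (nat_lit 459) (nat_lit 1451) (.f (nat_lit 396) (nat_lit 395) (nat_lit 3467) (.f (nat_lit 397) (nat_lit 432) (nat_lit 3468) (.d (nat_lit 365) (nat_lit 333) (nat_lit 5452) (nat_lit 492) (nat_lit 6508))))) (.a (.f (nat_lit 432) (nat_lit 461) (nat_lit 1452) (.f (nat_lit 397) (nat_lit 396) (nat_lit 3468) (.f (nat_lit 433) (nat_lit 398) (nat_lit 3469) (.d (nat_lit 401) (nat_lit 400) (nat_lit 2445) (nat_lit 402) (nat_lit 2446))))) (.f (nat_lit 459) (nat_lit 428) (nat_lit 1451) (.d (nat_lit 461) (nat_lit 458) (nat_lit 2474) (nat_lit 462) (nat_lit 2475)))))) (.a s129056 (.a s129112 (.a (.p (nat_lit 461) (.a (.p (nat_lit 493) (.a (.f (nat_lit 525) (nat_lit 398) (nat_lit 6541) (.d (nat_lit 492) (nat_lit 494) (nat_lit 492) (nat_lit 526) (nat_lit 3564))) (.a (.f (nat_lit 525) (nat_lit 398) (nat_lit 6541) (.d (nat_lit 526) (nat_lit 492) (nat_lit 3564) (nat_lit 558) (nat_lit 4525))) (.a (.f (nat_lit 525) (nat_lit 398) (nat_lit 6541) (.f (nat_lit 428) (nat_lit 396) (nat_lit 7564) (.d (nat_lit 460) (nat_lit 459) (nat_lit 1451) (nat_lit 557) (nat_lit 7596)))) (.f (nat_lit 494) (nat_lit 492) (nat_lit 492) (.d (nat_lit 529) (nat_lit 526) (nat_lit 3565) (nat_lit 530) (nat_lit 3566))))))) (.a (.p (nat_lit 428) (.a (.f (nat_lit 460) (nat_lit 459) (nat_lit 1451) (.f (nat_lit 396) (nat_lit 395) (nat_lit 3467) (.d (nat_lit 364) (nat_lit 332) (nat_lit 4428) (nat_lit 493) (nat_lit 4460)))) (.a (.f (nat_lit 460) (nat_lit 459) (nat_lit 1451) (.f (nat_lit 396) (nat_lit 395) (nat_lit 3467) (.f (nat_lit 364) (nat_lit 332) (nat_lit 4428) (.f (nat_lit 365) (nat_lit 333) (nat_lit 6476) (.f (nat_lit 492) (nat_lit 397) (nat_lit 5484) (.f (nat_lit 524) (nat_lit 556) (nat_lit 6572) (.d (nat_lit 523) (nat_lit 491) (nat_lit 5515) (nat_lit 555) (nat_lit 5547)))))))) (.a (.f (nat_lit 396) (nat_lit 395) (nat_lit 3467) (.f (nat_lit 493) (nat_lit 525) (nat_lit 7564) (.d (nat_lit 364) (nat_lit 332) (nat_lit 4428) (nat_lit 397) (nat_lit 7532)))) (.f (nat_lit 460) (nat_lit 459) (nat_lit 1451) (.f (nat_lit 399) (nat_lit 400) (nat_lit 2444) (.f (nat_lit 427) (nat_lit 398) (nat_lit 2443) (.d (nat_lit 426) (nat_lit 425) (nat_lit 425) (nat_lit 462) (nat_lit 426))))))))) (.a (.p (nat_lit 428) (.a (.f (nat_lit 460) (nat_lit 459) (nat_lit 1451) (.f (nat_lit 396) (nat_lit 395) (nat_lit 3467) (.f (nat_lit 364) (nat_lit 332) (nat_lit 4428) (.f (nat_lit 365) (nat_lit 333) (nat_lit 6476) (.f (nat_lit 492) (nat_lit 397) (nat_lit 5484) (.f (nat_lit 524) (nat_lit 556) (nat_lit 6572) (.d (nat_lit 523) (nat_lit 491) (nat_lit 5515) (nat_lit 555) (nat_lit 5547)))))))) (.a (.f (nat_lit 460) (nat_lit 459) (nat_lit 1451) (.f (nat_lit 399) (nat_lit 400) (nat_lit 2444) (.f (nat_lit 427) (nat_lit 398) (nat_lit 2443) (.d (nat_lit 426) (nat_lit 425) (nat_lit 425) (nat_lit 462) (nat_lit 426))))) (.f (nat_lit 399) (nat_lit 400) (nat_lit 2444) (.f (nat_lit 427) (nat_lit 398) (nat_lit 2443) (.d (nat_lit 395) (nat_lit 394) (nat_lit 3466) (nat_lit 396) (nat_lit 3467))))))) (.a (.p (nat_lit 428) (.a (.f (nat_lit 460) (nat_lit 459) (nat_lit 1451) (.f (nat_lit 396) (nat_lit 395) (nat_lit 3467) (.d (nat_lit 364) (nat_lit 332) (nat_lit 4428) (nat_lit 493) (nat_lit 4460)))) (.a (.f (nat_lit 460) (nat_lit 459) (nat_lit 1451) (.f (nat_lit 399) (nat_lit 400) (nat_lit 2444) (.f (nat_lit 427) (nat_lit 398) (nat_lit 2443) (.d (nat_lit 426) (nat_lit 425) (nat_lit 425) (nat_lit 462) (nat_lit 426))))) (.f (nat_lit 396) (nat_lit 395) (nat_lit 3467) (.f (nat_lit 493) (nat_lit 525) (nat_lit 7564) (.d (nat_lit 364) (nat_lit 332) (nat_lit 4428) (nat_lit 397) (nat_lit 7532))))))) (.a (.p (nat_lit 493) (.a (.f (nat_lit 525) (nat_lit 398) (nat_lit 6541) (.d (nat_lit 492) (nat_lit 494) (nat_lit 492) (nat_lit 526) (nat_lit 3564))) (.a (.f (nat_lit 525) (nat_lit 398) (nat_lit 6541) (.d (nat_lit 526) (nat_lit 492) (nat_lit 3564) (nat_lit 558) (nat_lit 4525))) (.a (.f (nat_lit 525) (nat_lit 398) (nat_lit 6541) (.f (nat_lit 557) (nat_lit 462) (nat_lit 6573) (.d (nat_lit 556) (nat_lit 524) (nat_lit 5548) (nat_lit 588) (nat_lit 5580)))) (.f (nat_lit 494) (nat_lit 492) (nat_lit 492) (.d (nat_lit 529) (nat_lit 526) (nat_lit 3565) (nat_lit 530) (nat_lit 3566))))))) (.p (nat_lit 428) (.a (.f (nat_lit 460) (nat_lit 459) (nat_lit 1451) (.f (nat_lit 396) (nat_lit 395) (nat_lit 3467) (.d (nat_lit 364) (nat_lit 332) (nat_lit 4428) (nat_lit 493) (nat_lit 4460)))) (.a (.f (nat_lit 460) (nat_lit 459) (nat_lit 1451) (.f (nat_lit 396) (nat_lit 395) (nat_lit 3467) (.f (nat_lit 364) (nat_lit 332) (nat_lit 4428) (.f (nat_lit 365) (nat_lit 333) (nat_lit 6476) (.f (nat_lit 492) (nat_lit 397) (nat_lit 5484) (.f (nat_lit 524) (nat_lit 556) (nat_lit 6572) (.d (nat_lit 523) (nat_lit 491) (nat_lit 5515) (nat_lit 555) (nat_lit 5547)))))))) (.a (.f (nat_lit 396) (nat_lit 395) (nat_lit 3467) (.f (nat_lit 493) (nat_lit 525) (nat_lit 7564) (.d (nat_lit 364) (nat_lit 332) (nat_lit 4428) (nat_lit 397) (nat_lit 7532)))) (.a (.f (nat_lit 459) (nat_lit 460) (nat_lit 1451) (.f (nat_lit 427) (nat_lit 458) (nat_lit 1450) (.f (nat_lit 426) (nat_lit 462) (nat_lit 426) (.d (nat_lit 394) (nat_lit 393) (nat_lit 3465) (nat_lit 395) (nat_lit 3466))))) (.f (nat_lit 459) (nat_lit 460) (nat_lit 1451) (.f (nat_lit 427) (nat_lit 458) (nat_lit 1450) (.f (nat_lit 426) (nat_lit 462) (nat_lit 426) (.f (nat_lit 393) (nat_lit 394) (nat_lit 3465) (.f (nat_lit 425) (nat_lit 392) (nat_lit 3464) (.f (nat_lit 396) (nat_lit 397) (nat_lit 2441) (.f (nat_lit 493) (nat_lit 525) (nat_lit 7564) (.f (nat_lit 494) (nat_lit 492) (nat_lit 492) (.d (nat_lit 529) (nat_lit 526) (nat_lit 3565) (nat_lit 530) (nat_lit 3566))))))))))))))))))))) (.a s129092 (.a (.p (nat_lit 494) (.a (.f (nat_lit 493) (nat_lit 492) (nat_lit 492) (.d (nat_lit 529) (nat_lit 526) (nat_lit 3565) (nat_lit 530) (nat_lit 3566))) (.a (.f (nat_lit 398) (nat_lit 462) (nat_lit 4494) (.f (nat_lit 493) (nat_lit 492) (nat_lit 492) (.f (nat_lit 461) (nat_lit 525) (nat_lit 6541) (.f (nat_lit 432) (nat_lit 460) (nat_lit 1452) (.d (nat_lit 397) (nat_lit 396) (nat_lit 3468) (nat_lit 433) (nat_lit 3469)))))) (.f (nat_lit 462) (nat_lit 398) (nat_lit 4494) (.d (nat_lit 526) (nat_lit 397) (nat_lit 7565) (nat_lit 399) (nat_lit 6542)))))) (.a s129093 s129127))))))))))) (.a (.p (nat_lit 429) (.a s129023 (.a (.p (nat_lit 460) (.a (.f (nat_lit 428) (nat_lit 459) (nat_lit 1451) (.f (nat_lit 396) (nat_lit 395) (nat_lit 3467) (.f (nat_lit 397) (nat_lit 432) (nat_lit 3468) (.d (nat_lit 365) (nat_lit 333) (nat_lit 5452) (nat_lit 492) (nat_lit 6508))))) (.a (.f (nat_lit 432) (nat_lit 461) (nat_lit 1452) (.f (nat_lit 397) (nat_lit 396) (nat_lit 3468) (.f (nat_lit 433) (nat_lit 398) (nat_lit 3469) (.d (nat_lit 401) (nat_lit 400) (nat_lit 2445) (nat_lit 402) (nat_lit 2446))))) (.f (nat_lit 459) (nat_lit 428) (nat_lit 1451) (.d (nat_lit 461) (nat_lit 458) (nat_lit 2474) (nat_lit 462) (nat_lit 2475)))))) (.a s129198 (.a s129136 (.a (.p (nat_lit 494) (.a (.f (nat_lit 398) (nat_lit 462) (nat_lit 4494) (.f (nat_lit 493) (nat_lit 492) (nat_lit 492) (.f (nat_lit 461) (nat_lit 525) (nat_lit 6541) (.d (nat_lit 366) (nat_lit 334) (nat_lit 5453) (nat_lit 397) (nat_lit 6509))))) (.a (.f (nat_lit 493) (nat_lit 492) (nat_lit 492) (.d (nat_lit 529) (nat_lit 526) (nat_lit 3565) (nat_lit 530) (nat_lit 3566))) (.f (nat_lit 462) (nat_lit 398) (nat_lit 4494) (.d (nat_lit 526) (nat_lit 397) (nat_lit 7565) (nat_lit 399) (nat_lit 6542)))))) (.a s129092 (.p (nat_lit 460) (.a (.f (nat_lit 432) (nat_lit 461) (nat_lit 1452) (.f (nat_lit 428) (nat_lit 459) (nat_lit 1451) (.d (nat_lit 400) (nat_lit 399) (nat_lit 2444) (nat_lit 401) (nat_lit 2445)))) (.a (.f (nat_lit 428) (nat_lit 459) (nat_lit 1451) (.f (nat_lit 399) (nat_lit 400) (nat_lit 2444) (.f (nat_lit 398) (nat_lit 427) (nat_lit 2443) (.f (nat_lit 494) (nat_lit 462) (nat_lit 4494) (.f (nat_lit 492) (nat_lit 493) (nat_lit 492) (.f (nat_lit 396) (nat_lit 395) (nat_lit 3467) (.f (nat_lit 523) (nat_lit 491) (nat_lit 5515) (.f (nat_lit 524) (nat_lit 555) (nat_lit 5547) (.d (nat_lit 525) (nat_lit 526) (nat_lit 2539) (nat_lit 557) (nat_lit 4524)))))))))) (.a (.f (nat_lit 459) (nat_lit 428) (nat_lit 1451) (.d (nat_lit 461) (nat_lit 458) (nat_lit 2474) (nat_lit 462) (nat_lit 2475))) (.f (nat_lit 432) (nat_lit 461) (nat_lit 1452) (.f (nat_lit 401) (nat_lit 400) (nat_lit 2445) (.f (nat_lit 433) (nat_lit 402) (nat_lit 2446) (.d (nat_lit 465) (nat_lit 464) (nat_lit 429) (nat_lit 466) (nat_lit 430)))))))))))))))) (.a (.p (nat_lit 429) (.a (.p (nat_lit 494) (.a (.f (nat_lit 398) (nat_lit 462) (nat_lit 4494) (.f (nat_lit 493) (nat_lit 492) (nat_lit 492) (.f (nat_lit 461) (nat_lit 525) (nat_lit 6541) (.d (nat_lit 366) (nat_lit 334) (nat_lit 5453) (nat_lit 397) (nat_lit 6509))))) (.a (.f (nat_lit 493) (nat_lit 492) (nat_lit 492) (.d (nat_lit 529) (nat_lit 526) (nat_lit 3565) (nat_lit 530) (nat_lit 3566))) (.f (nat_lit 462) (nat_lit 398) (nat_lit 4494) (.d (nat_lit 526) (nat_lit 397) (nat_lit 7565) (nat_lit 399) (nat_lit 6542)))))) (.a s129216 (.a (.p (nat_lit 428) (.a (.f (nat_lit 399) (nat_lit 400) (nat_lit 2444) (.f (nat_lit 427) (nat_lit 398) (nat_lit 2443) (.d (nat_lit 459) (nat_lit 458) (nat_lit 1450) (nat_lit 460) (nat_lit 1451)))) (.a (.f (nat_lit 460) (nat_lit 459) (nat_lit 1451) (.f (nat_lit 432) (nat_lit 461) (nat_lit 1452) (.f (nat_lit 465) (nat_lit 464) (nat_lit 429) (.f (nat_lit 433) (nat_lit 466) (nat_lit 430) (.d (nat_lit 401) (nat_lit 400) (nat_lit 2445) (nat_lit 402) (nat_lit 2446)))))) (.a (.f (nat_lit 400) (nat_lit 399) (nat_lit 2444) (.f (nat_lit 432) (nat_lit 401) (nat_lit 2445) (.f (nat_lit 465) (nat_lit 464) (nat_lit 429) (.f (nat_lit 433) (nat_lit 466) (nat_lit 430) (.d (nat_lit 397) (nat_lit 396) (nat_lit 3468) (nat_lit 398) (nat_lit 3469)))))) (.f (nat_lit 460) (nat_lit 459) (nat_lit 1451) (.f (nat_lit 432) (nat_lit 461) (nat_lit 1452) (.f (nat_lit 397) (nat_lit 396) (nat_lit 3468) (.f (nat_lit 433) (nat_lit 398) (nat_lit 3469) (.d (nat_lit 465) (nat_lit 464) (nat_lit 429) (nat_lit 466) (nat_lit 430)))))))))) (.a (.p (nat_lit 432) (.a (.f (nat_lit 397) (nat_lit 396) (nat_lit 3468) (.f (nat_lit 433) (nat_lit 398) (nat_lit 3469) (.d (nat_lit 401) (nat_lit 400) (nat_lit 2445) (nat_lit 402) (nat_lit 2446)))) (.a (.f (nat_lit 400) (nat_lit 401) (nat_lit 2445) (.f (nat_lit 465) (nat_lit 464) (nat_lit 429) (.f (nat_lit 433) (nat_lit 466) (nat_lit 430) (.f (nat_lit 529) (nat_lit 497) (nat_lit 7568) (.f (nat_lit 494) (nat_lit 530) (nat_lit 3566) (.d (nat_lit 493) (nat_lit 492) (nat_lit 492) (nat_lit 526) (nat_lit 3565))))))) (.a (.f (nat_lit 397) (nat_lit 396) (nat_lit 3468) (.f (nat_lit 433) (nat_lit 398) (nat_lit 3469) (.d (nat_lit 465) (nat_lit 464) (nat_lit 429) (nat_lit 466) (nat_lit 430)))) (.f (nat_lit 400) (nat_lit 401) (nat_lit 2445) (.f (nat_lit 428) (nat_lit 399) (nat_lit 2444) (.f (nat_lit 397) (nat_lit 396) (nat_lit 3468) (.f (nat_lit 460) (nat_lit 459) (nat_lit 1451) (.f (nat_lit 492) (nat_lit 524) (nat_lit 6540) (.f (nat_lit 494) (nat_lit 493) (nat_lit 492) (.d (nat_lit 462) (nat_lit 398) (nat_lit 4494) (nat_lit 526) (nat_lit 7565)))))))))))) (.a (.p (nat_lit 494) (.a (.f (nat_lit 398) (nat_lit 462) (nat_lit 4494) (.f (nat_lit 493) (nat_lit 492) (nat_lit 492) (.f (nat_lit 461) (nat_lit 525) (nat_lit 6541) (.d (nat_lit 366) (nat_lit 334) (nat_lit 5453) (nat_lit 397) (nat_lit 6509))))) (.a (.f (nat_lit 493) (nat_lit 492) (nat_lit 492) (.d (nat_lit 529) (nat_lit 526) (nat_lit 3565) (nat_lit 530) (nat_lit 3566))) (.f (nat_lit 462) (nat_lit 398) (nat_lit 4494) (.f (nat_lit 526) (nat_lit 397) (nat_lit 7565) (.f (nat_lit 461) (nat_lit 558) (nat_lit 7597) (.d (nat_lit 460) (nat_lit 432) (nat_lit 1452) (nat_lit 459) (nat_lit 2475)))))))) (.a (.p (nat_lit 460) (.a (.f (nat_lit 432) (nat_lit 461) (nat_lit 1452) (.f (nat_lit 428) (nat_lit 459) (nat_lit 1451) (.d (nat_lit 400) (nat_lit 399) (nat_lit 2444) (nat_lit 401) (nat_lit 2445)))) (.a (.f (nat_lit 428) (nat_lit 459) (nat_lit 1451) (.f (nat_lit 400) (nat_lit 399) (nat_lit 2444) (.f (nat_lit 432) (nat_lit 401) (nat_lit 2445) (.f (nat_lit 397) (nat_lit 396) (nat_lit 3468) (.f (nat_lit 465) (nat_lit 464) (nat_lit 429) (.f (nat_lit 433) (nat_lit 466) (nat_lit 430) (.f (nat_lit 529) (nat_lit 497) (nat_lit 7568) (.f (nat_lit 494) (nat_lit 530) (nat_lit 3566) (.d (nat_lit 492) (nat_lit 493) (nat_lit 492) (nat_lit 524) (nat_lit 6540)))))))))) (.a (.f (nat_lit 459) (nat_lit 428) (nat_lit 1451) (.d (nat_lit 461) (nat_lit 458) (nat_lit 2474) (nat_lit 462) (nat_lit 2475))) (.f (nat_lit 432) (nat_lit 461) (nat_lit 1452) (.f (nat_lit 401) (nat_lit 400) (nat_lit 2445) (.f (nat_lit 433) (nat_lit 402) (nat_lit 2446) (.d (nat_lit 465) (nat_lit 464) (nat_lit 429) (nat_lit 466) (nat_lit 430))))))))) s129274))))))) (.a (.p (nat_lit 429) (.a (.p (nat_lit 494) (.a (.f (nat_lit 398) (nat_lit 462) (nat_lit 4494) (.f (nat_lit 493) (nat_lit 492) (nat_lit 492) (.f (nat_lit 461) (nat_lit 525) (nat_lit 6541) (.d (nat_lit 366) (nat_lit 334) (nat_lit 5453) (nat_lit 397) (nat_lit 6509))))) (.a (.f (nat_lit 493) (nat_lit 492) (nat_lit 492) (.d (nat_lit 529) (nat_lit 526) (nat_lit 3565) (nat_lit 530) (nat_lit 3566))) (.f (nat_lit 462) (nat_lit 398) (nat_lit 4494) (.d (nat_lit 526) (nat_lit 397) (nat_lit 7565) (nat_lit 399) (nat_lit 6542)))))) (.a s129295 (.a s129316 (.a (.p (nat_lit 428) (.a (.f (nat_lit 399) (nat_lit 400) (nat_lit 2444) (.f (nat_lit 427) (nat_lit 398) (nat_lit 2443) (.d (nat_lit 459) (nat_lit 458) (nat_lit 1450) (nat_lit 460) (nat_lit 1451)))) (.a (.f (nat_lit 459) (nat_lit 460) (nat_lit 1451) (.f (nat_lit 427) (nat_lit 458) (nat_lit 1450) (.f (nat_lit 394) (nat_lit 395) (nat_lit 3466) (.f (nat_lit 426) (nat_lit 393) (nat_lit 3465) (.f (nat_lit 398) (nat_lit 397) (nat_lit 2442) (.f (nat_lit 494) (nat_lit 462) (nat_lit 4494) (.f (nat_lit 529) (nat_lit 530) (nat_lit 3566) (.d (nat_lit 493) (nat_lit 492) (nat_lit 492) (nat_lit 526) (nat_lit 3565))))))))) (.a (.f (nat_lit 399) (nat_lit 400) (nat_lit 2444) (.f (nat_lit 398) (nat_lit 427) (nat_lit 2443) (.f (nat_lit 494) (nat_lit 462) (nat_lit 4494) (.f (nat_lit 493) (nat_lit 492) (nat_lit 492) (.d (nat_lit 529) (nat_lit 526) (nat_lit 3565) (nat_lit 530) (nat_lit 3566)))))) (.f (nat_lit 400) (nat_lit 399) (nat_lit 2444) (.f (nat_lit 432) (nat_lit 401) (nat_lit 2445) (.f (nat_lit 465) (nat_lit 464) (nat_lit 429) (.f (nat_lit 433) (nat_lit 466) (nat_lit 430) (.f (nat_lit 529) (nat_lit 497) (nat_lit 7568) (.f (nat_lit 530) (nat_lit 494) (nat_lit 3566) (.f (nat_lit 563) (nat_lit 562) (nat_lit 527) (.f (nat_lit 531) (nat_lit 564) (nat_lit 528) (.d (nat_lit 499) (nat_lit 498) (nat_lit 2543) (nat_lit 500) (nat_lit 2544)))))))))))))) (.a (.p (nat_lit 494) (.a (.f (nat_lit 398) (nat_lit 462) (nat_lit 4494) (.f (nat_lit 493) (nat_lit 492) (nat_lit 492) (.f (nat_lit 461) (nat_lit 525) (nat_lit 6541) (.d (nat_lit 366) (nat_lit 334) (nat_lit 5453) (nat_lit 397) (nat_lit 6509))))) (.a (.f (nat_lit 493) (nat_lit 492) (nat_lit 492) (.d (nat_lit 529) (nat_lit 526) (nat_lit 3565) (nat_lit 530) (nat_lit 3566))) (.f (nat_lit 462) (nat_lit 398) (nat_lit 4494) (.f (nat_lit 526) (nat_lit 397) (nat_lit 7565) (.f (nat_lit 461) (nat_lit 558) (nat_lit 7597) (.d (nat_lit 460) (nat_lit 432) (nat_lit 1452) (nat_lit 459) (nat_lit 2475)))))))) s129335)))))) (.a (.p (nat_lit 429) (.a s129093 (.a s129316 (.a s129337 (.a s129341 (.a s129350 (.a (.p (nat_lit 460) (.a (.f (nat_lit 432) (nat_lit 461) (nat_lit 1452) (.f (nat_lit 428) (nat_lit 459) (nat_lit 1451) (.d (nat_lit 400) (nat_lit 399) (nat_lit 2444) (nat_lit 401) (nat_lit 2445)))) (.a (.f (nat_lit 428) (nat_lit 459) (nat_lit 1451) (.f (nat_lit 395) (nat_lit 396) (nat_lit 3467) (.f (nat_lit 427) (nat_lit 394) (nat_lit 3466) (.d (nat_lit 399) (nat_lit 398) (nat_lit 2443) (nat_lit 400) (nat_lit 2444))))) (.a (.f (nat_lit 459) (nat_lit 428) (nat_lit 1451) (.d (nat_lit 461) (nat_lit 458) (nat_lit 2474) (nat_lit 462) (nat_lit 2475))) (.a (.f (nat_lit 461) (nat_lit 432) (nat_lit 1452) (.d (nat_lit 459) (nat_lit 458) (nat_lit 2474) (nat_lit 462) (nat_lit 2475))) (.f (nat_lit 432) (nat_lit 461) (nat_lit 1452) (.f (nat_lit 401) (nat_lit 400) (nat_lit 2445) (.f (nat_lit 433) (nat_lit 402) (nat_lit 2446) (.f (nat_lit 466) (nat_lit 465) (nat_lit 430) (.f (nat_lit 434) (nat_lit 467) (nat_lit 431) (.f (nat_lit 530) (nat_lit 498) (nat_lit 7569) (.f (nat_lit 494) (nat_lit 529) (nat_lit 3566) (.d (nat_lit 398) (nat_lit 399) (nat_lit 3470) (nat_lit 462) (nat_lit 4494)))))))))))))) (.a s129385 (.a s129335 (.a (.p (nat_lit 494) (.a (.f (nat_lit 493) (nat_lit 492) (nat_lit 492) (.d (nat_lit 529) (nat_lit 526) (nat_lit 3565) (nat_lit 530) (nat_lit 3566))) (.a (.f (nat_lit 398) (nat_lit 462) (nat_lit 4494) (.f (nat_lit 493) (nat_lit 492) (nat_lit 492) (.f (nat_lit 461) (nat_lit 525) (nat_lit 6541) (.f (nat_lit 432) (nat_lit 460) (nat_lit 1452) (.f (nat_lit 401) (nat_lit 400) (nat_lit 2445) (.f (nat_lit 433) (nat_lit 402) (nat_lit 2446) (.d (nat_lit 465) (nat_lit 464) (nat_lit 429) (nat_lit 466) (nat_lit 430)))))))) (.f (nat_lit 462) (nat_lit 398) (nat_lit 4494) (.f (nat_lit 526) (nat_lit 399) (nat_lit 6542) (.f (nat_lit 461) (nat_lit 558) (nat_lit 7597) (.d (nat_lit 460) (nat_lit 432) (nat_lit 1452) (nat_lit 459) (nat_lit 2475)))))))) (.p (nat_lit 494) (.a (.f (nat_lit 493) (nat_lit 492) (nat_lit 492) (.d (nat_lit 529) (nat_lit 526) (nat_lit 3565) (nat_lit 530) (nat_lit 3566))) (.a (.f (nat_lit 398) (nat_lit 462) (nat_lit 4494) (.f (nat_lit 493) (nat_lit 492) (nat_lit 492) (.f (nat_lit 461) (nat_lit 525) (nat_lit 6541) (.f (nat_lit 432) (nat_lit 460) (nat_lit 1452) (.f (nat_lit 401) (nat_lit 400) (nat_lit 2445) (.f (nat_lit 433) (nat_lit 402) (nat_lit 2446) (.d (nat_lit 465) (nat_lit 464) (nat_lit 429) (nat_lit 466) (nat_lit 430)))))))) (.f (nat_lit 462) (nat_lit 398) (nat_lit 4494) (.f (nat_lit 526) (nat_lit 399) (nat_lit 6542) (.f (nat_lit 558) (nat_lit 461) (nat_lit 7597) (.d (nat_lit 529) (nat_lit 530) (nat_lit 3566) (nat_lit 557) (nat_lit 1549)))))))))))))))))) (.a (.p (nat_lit 429) (.a s129092 (.a s129402 (.a (.p (nat_lit 428) (.a (.f (nat_lit 396) (nat_lit 395) (nat_lit 3467) (.f (nat_lit 397) (nat_lit 432) (nat_lit 3468) (.f (nat_lit 460) (nat_lit 459) (nat_lit 1451) (.d (nat_lit 365) (nat_lit 333) (nat_lit 5452) (nat_lit 492) (nat_lit 6508))))) (.a (.f (nat_lit 396) (nat_lit 395) (nat_lit 3467) (.f (nat_lit 432) (nat_lit 397) (nat_lit 3468) (.f (nat_lit 401) (nat_lit 400) (nat_lit 2445) (.f (nat_lit 433) (nat_lit 402) (nat_lit 2446) (.d (nat_lit 465) (nat_lit 464) (nat_lit 429) (nat_lit 466) (nat_lit 430)))))) (.a (.f (nat_lit 459) (nat_lit 460) (nat_lit 1451) (.f (nat_lit 427) (nat_lit 458) (nat_lit 1450) (.d (nat_lit 395) (nat_lit 394) (nat_lit 3466) (nat_lit 396) (nat_lit 3467)))) (.f (nat_lit 400) (nat_lit 399) (nat_lit 2444) (.f (nat_lit 432) (nat_lit 401) (nat_lit 2445) (.f (nat_lit 465) (nat_lit 464) (nat_lit 429) (.f (nat_lit 433) (nat_lit 466) (nat_lit 430) (.f (nat_lit 529) (nat_lit 497) (nat_lit 7568) (.f (nat_lit 530) (nat_lit 494) (nat_lit 3566) (.f (nat_lit 563) (nat_lit 562) (nat_lit 527) (.f (nat_lit 531) (nat_lit 564) (nat_lit 528) (.d (nat_lit 499) (nat_lit 498) (nat_lit 2543) (nat_lit 500) (nat_lit 2544)))))))))))))) (.a s129137 (.a s129426 (.a (.p (nat_lit 460) (.a (.f (nat_lit 432) (nat_lit 461) (nat_lit 1452) (.f (nat_lit 428) (nat_lit 459) (nat_lit 1451) (.d (nat_lit 400) (nat_lit 399) (nat_lit 2444) (nat_lit 401) (nat_lit 2445)))) (.a (.f (nat_lit 428) (nat_lit 459) (nat_lit 1451) (.f (nat_lit 396) (nat_lit 395) (nat_lit 3467) (.f (nat_lit 397) (nat_lit 432) (nat_lit 3468) (.d (nat_lit 365) (nat_lit 333) (nat_lit 5452) (nat_lit 492) (nat_lit 6508))))) (.a (.f (nat_lit 459) (nat_lit 428) (nat_lit 1451) (.d (nat_lit 461) (nat_lit 458) (nat_lit 2474) (nat_lit 462) (nat_lit 2475))) (.a (.f (nat_lit 461) (nat_lit 432) (nat_lit 1452) (.d (nat_lit 459) (nat_lit 458) (nat_lit 2474) (nat_lit 462) (nat_lit 2475))) (.f (nat_lit 432) (nat_lit 461) (nat_lit 1452) (.f (nat_lit 400) (nat_lit 401) (nat_lit 2445) (.f (nat_lit 428) (nat_lit 399) (nat_lit 2444) (.d (nat_lit 396) (nat_lit 395) (nat_lit 3467) (nat_lit 397) (nat_lit 3468)))))))))) (.a s129468 (.a (.p (nat_lit 493) (.a (.f (nat_lit 494) (nat_lit 492) (nat_lit 492) (.d (nat_lit 529) (nat_lit 526) (nat_lit 3565) (nat_lit 530) (nat_lit 3566))) (.a (.p (nat_lit 432) (.a (.f (nat_lit 461) (nat_lit 460) (nat_lit 1452) (.f (nat_lit 433) (nat_lit 462) (nat_lit 1453) (.d (nat_lit 465) (nat_lit 464) (nat_lit 429) (nat_lit 466) (nat_lit 430)))) (.a (.f (nat_lit 401) (nat_lit 400) (nat_lit 2445) (.f (nat_lit 433) (nat_lit 402) (nat_lit 2446) (.d (nat_lit 465) (nat_lit 464) (nat_lit 429) (nat_lit 466) (nat_lit 430)))) (.a (.f (nat_lit 461) (nat_lit 460) (nat_lit 1452) (.f (nat_lit 433) (nat_lit 462) (nat_lit 1453) (.d (nat_lit 401) (nat_lit 400) (nat_lit 2445) (nat_lit 402) (nat_lit 2446)))) (.f (nat_lit 461) (nat_lit 460) (nat_lit 1452) (.f (nat_lit 397) (nat_lit 396) (nat_lit 3468) (.f (nat_lit 492) (nat_lit 524) (nat_lit 5516) (.f (nat_lit 525) (nat_lit 526) (nat_lit 3564) (.f (nat_lit 557) (nat_lit 462) (nat_lit 6573) (.f (nat_lit 588) (nat_lit 556) (nat_lit 5580) (.f (nat_lit 589) (nat_lit 620) (nat_lit 5612) (.d (nat_lit 590) (nat_lit 558) (nat_lit 4557) (nat_lit 622) (nat_lit 4589))))))))))))) (.a (.p (nat_lit 461) (.a (.f (nat_lit 432) (nat_lit 460) (nat_lit 1452) (.f (nat_lit 433) (nat_lit 462) (nat_lit 1453) (.d (nat_lit 465) (nat_lit 464) (nat_lit 429) (nat_lit 466) (nat_lit 430)))) (.a (.f (nat_lit 432) (nat_lit 460) (nat_lit 1452) (.f (nat_lit 401) (nat_lit 400) (nat_lit 2445) (.f (nat_lit 433) (nat_lit 402) (nat_lit 2446) (.d (nat_lit 465) (nat_lit 464) (nat_lit 429) (nat_lit 466) (nat_lit 430))))) (.a (.f (nat_lit 492) (nat_lit 494) (nat_lit 492) (.f (nat_lit 397) (nat_lit 524) (nat_lit 5516) (.d (nat_lit 396) (nat_lit 364) (nat_lit 7532) (nat_lit 432) (nat_lit 3468)))) (.f (nat_lit 492) (nat_lit 494) (nat_lit 492) (.f (nat_lit 397) (nat_lit 524) (nat_lit 5516) (.f (nat_lit 365) (nat_lit 460) (nat_lit 5484) (.d (nat_lit 364) (nat_lit 332) (nat_lit 7500) (nat_lit 396) (nat_lit 7532))))))))) (.p (nat_lit 432) (.a (.f (nat_lit 461) (nat_lit 460) (nat_lit 1452) (.f (nat_lit 433) (nat_lit 462) (nat_lit 1453) (.d (nat_lit 465) (nat_lit 464) (nat_lit 429) (nat_lit 466) (nat_lit 430)))) (.a (.f (nat_lit 401) (nat_lit 400) (nat_lit 2445) (.f (nat_lit 433) (nat_lit 402) (nat_lit 2446) (.d (nat_lit 465) (nat_lit 464) (nat_lit 429) (nat_lit 466) (nat_lit 430)))) (.a (.f (nat_lit 461) (nat_lit 460) (nat_lit 1452) (.f (nat_lit 433) (nat_lit 462) (nat_lit 1453) (.d (nat_lit 401) (nat_lit 400) (nat_lit 2445) (nat_lit 402) (nat_lit 2446)))) (.f (nat_lit 461) (nat_lit 460) (nat_lit 1452) (.f (nat_lit 397) (nat_lit 396) (nat_lit 3468) (.f (nat_lit 526) (nat_lit 494) (nat_lit 4493) (.f (nat_lit 525) (nat_lit 558) (nat_lit 4525) (.d (nat_lit 556) (nat_lit 524) (nat_lit 5548) (nat_lit 557) (nat_lit 1548)))))))))))))) (.a s129516 s129335)))))))))) (.a (.p (nat_lit 429) (.a (.p (nat_lit 460) (.a (.f (nat_lit 428) (nat_lit 459) (nat_lit 1451) (.f (nat_lit 396) (nat_lit 395) (nat_lit 3467) (.f (nat_lit 397) (nat_lit 432) (nat_lit 3468) (.d (nat_lit 365) (nat_lit 333) (nat_lit 5452) (nat_lit 492) (nat_lit 6508))))) (.a (.f (nat_lit 432) (nat_lit 461) (nat_lit 1452) (.f (nat_lit 397) (nat_lit 396) (nat_lit 3468) (.f (nat_lit 433) (nat_lit 398) (nat_lit 3469) (.d (nat_lit 401) (nat_lit 400) (nat_lit 2445) (nat_lit 402) (nat_lit 2446))))) (.f (nat_lit 459) (nat_lit 428) (nat_lit 1451) (.d (nat_lit 461) (nat_lit 458) (nat_lit 2474) (nat_lit 462) (nat_lit 2475)))))) (.a s129402 (.a s129527 (.a s129136 (.a (.p (nat_lit 494) (.a (.f (nat_lit 398) (nat_lit 462) (nat_lit 4494) (.f (nat_lit 493) (nat_lit 492) (nat_lit 492) (.f (nat_lit 461) (nat_lit 525) (nat_lit 6541) (.d (nat_lit 366) (nat_lit 334) (nat_lit 5453) (nat_lit 397) (nat_lit 6509))))) (.a (.f (nat_lit 493) (nat_lit 492) (nat_lit 492) (.d (nat_lit 529) (nat_lit 526) (nat_lit 3565) (nat_lit 530) (nat_lit 3566))) (.f (nat_lit 462) (nat_lit 398) (nat_lit 4494) (.f (nat_lit 526) (nat_lit 397) (nat_lit 7565) (.f (nat_lit 558) (nat_lit 461) (nat_lit 7597) (.d (nat_lit 529) (nat_lit 530) (nat_lit 3566) (nat_lit 557) (nat_lit 1549)))))))) s129341)))))) (.a (.p (nat_lit 429) (.a (.p (nat_lit 494) (.a (.f (nat_lit 398) (nat_lit 462) (nat_lit 4494) (.f (nat_lit 493) (nat_lit 492) (nat_lit 492) (.f (nat_lit 461) (nat_lit 525) (nat_lit 6541) (.d (nat_lit 366) (nat_lit 334) (nat_lit 5453) (nat_lit 397) (nat_lit 6509))))) (.a (.f (nat_lit 493) (nat_lit 492) (nat_lit 492) (.d (nat_lit 529) (nat_lit 526) (nat_lit 3565) (nat_lit 530) (nat_lit 3566))) (.f (nat_lit 462) (nat_lit 398) (nat_lit 4494) (.d (nat_lit 526) (nat_lit 397) (nat_lit 7565) (nat_lit 399) (nat_lit 6542)))))) (.a (.p (nat_lit 460) (.a (.f (nat_lit 428) (nat_lit 459) (nat_lit 1451) (.f (nat_lit 396) (nat_lit 395) (nat_lit 3467) (.f (nat_lit 397) (nat_lit 432) (nat_lit 3468) (.d (nat_lit 365) (nat_lit 333) (nat_lit 5452) (nat_lit 492) (nat_lit 6508))))) (.a (.f (nat_lit 459) (nat_lit 428) (nat_lit 1451) (.d (nat_lit 461) (nat_lit 458) (nat_lit 2474) (nat_lit 462) (nat_lit 2475))) (.a (.f (nat_lit 461) (nat_lit 432) (nat_lit 1452) (.d (nat_lit 459) (nat_lit 458) (nat_lit 2474) (nat_lit 462) (nat_lit 2475))) (.f (nat_lit 432) (nat_lit 461) (nat_lit 1452) (.f (nat_lit 397) (nat_lit 396) (nat_lit 3468) (.f (nat_lit 433) (nat_lit 398) (nat_lit 3469) (.d (nat_lit 465) (nat_lit 464) (nat_lit 429) (nat_lit 466) (nat_lit 430))))))))) (.a s129544 (.a s129559 (.a (.p (nat_lit 460) (.a (.f (nat_lit 459) (nat_lit 428) (nat_lit 1451) (.d (nat_lit 461) (nat_lit 458) (nat_lit 2474) (nat_lit 462) (nat_lit 2475))) (.a (.f (nat_lit 432) (nat_lit 461) (nat_lit 1452) (.f (nat_lit 428) (nat_lit 459) (nat_lit 1451) (.d (nat_lit 396) (nat_lit 395) (nat_lit 3467) (nat_lit 397) (nat_lit 3468)))) (.a (.f (nat_lit 428) (nat_lit 459) (nat_lit 1451) (.f (nat_lit 396) (nat_lit 395) (nat_lit 3467) (.f (nat_lit 432) (nat_lit 397) (nat_lit 3468) (.f (nat_lit 465) (nat_lit 464) (nat_lit 429) (.f (nat_lit 433) (nat_lit 466) (nat_lit 430) (.f (nat_lit 402) (nat_lit 401) (nat_lit 2446) (.f (nat_lit 434) (nat_lit 403) (nat_lit 2447) (.f (nat_lit 529) (nat_lit 497) (nat_lit 6545) (.f (nat_lit 530) (nat_lit 494) (nat_lit 3566) (.f (nat_lit 499) (nat_lit 498) (nat_lit 2543) (.f (nat_lit 531) (nat_lit 500) (nat_lit 2544) (.d (nat_lit 563) (nat_lit 562) (nat_lit 527) (nat_lit 564) (nat_lit 528))))))))))))) (.a (.f (nat_lit 461) (nat_lit 432) (nat_lit 1452) (.d (nat_lit 459) (nat_lit 458) (nat_lit 2474) (nat_lit 462) (nat_lit 2475))) (.f (nat_lit 432) (nat_lit 461) (nat_lit 1452) (.f (nat_lit 397) (nat_lit 396) (nat_lit 3468) (.f (nat_lit 433) (nat_lit 398) (nat_lit 3469) (.d (nat_lit 465) (nat_lit 464) (nat_lit 429) (nat_lit 466) (nat_lit 430)))))))))) (.p (nat_lit 460) (.a (.f (nat_lit 459) (nat_lit 428) (nat_lit 1451) (.d (nat_lit 461) (nat_lit 458) (nat_lit 2474) (nat_lit 462) (nat_lit 2475))) (.a (.f (nat_lit 461) (nat_lit 432) (nat_lit 1452) (.d (nat_lit 459) (nat_lit 428) (nat_lit 1451) (nat_lit 458) (nat_lit 2474))) (.a (.f (nat_lit 428) (nat_lit 459) (nat_lit 1451) (.f (nat_lit 395) (nat_lit 396) (nat_lit 3467) (.f (nat_lit 427) (nat_lit 394) (nat_lit 3466) (.f (nat_lit 492) (nat_lit 524) (nat_lit 7563) (.f (nat_lit 494) (nat_lit 493) (nat_lit 492) (.d (nat_lit 398) (nat_lit 399) (nat_lit 2443) (nat_lit 462) (nat_lit 4494))))))) (.a (.f (nat_lit 461) (nat_lit 432) (nat_lit 1452) (.d (nat_lit 459) (nat_lit 458) (nat_lit 2474) (nat_lit 462) (nat_lit 2475))) (.f (nat_lit 432) (nat_lit 461) (nat_lit 1452) (.f (nat_lit 465) (nat_lit 464) (nat_lit 429) (.f (nat_lit 433) (nat_lit 466) (nat_lit 430) (.f (nat_lit 402) (nat_lit 401) (nat_lit 2446) (.f (nat_lit 434) (nat_lit 403) (nat_lit 2447) (.f (nat_lit 529) (nat_lit 497) (nat_lit 6545) (.f (nat_lit 494) (nat_lit 530) (nat_lit 3566) (.d (nat_lit 493) (nat_lit 492) (nat_lit 492) (nat_lit 526) (nat_lit 3565)))))))))))))))))))) (.a (.p (nat_lit 429) (.a s129052 (.a s129198 (.a (.p (nat_lit 494) (.a (.f (nat_lit 398) (nat_lit 462) (nat_lit 4494) (.f (nat_lit 493) (nat_lit 492) (nat_lit 492) (.f (nat_lit 461) (nat_lit 525) (nat_lit 6541) (.d (nat_lit 366) (nat_lit 334) (nat_lit 5453) (nat_lit 397) (nat_lit 6509))))) (.a (.f (nat_lit 493) (nat_lit 492) (nat_lit 492) (.d (nat_lit 529) (nat_lit 526) (nat_lit 3565) (nat_lit 530) (nat_lit 3566))) (.f (nat_lit 462) (nat_lit 398) (nat_lit 4494) (.f (nat_lit 526) (nat_lit 397) (nat_lit 7565) (.f (nat_lit 461) (nat_lit 558) (nat_lit 7597) (.d (nat_lit 460) (nat_lit 432) (nat_lit 1452) (nat_lit 459) (nat_lit 2475)))))))) (.a (.p (nat_lit 460) (.a (.f (nat_lit 428) (nat_lit 459) (nat_lit 1451) (.f (nat_lit 395) (nat_lit 396) (nat_lit 3467) (.f (nat_lit 427) (nat_lit 394) (nat_lit 3466) (.d (nat_lit 399) (nat_lit 398) (nat_lit 2443) (nat_lit 400) (nat_lit 2444))))) (.a (.f (nat_lit 459) (nat_lit 428) (nat_lit 1451) (.d (nat_lit 461) (nat_lit 458) (nat_lit 2474) (nat_lit 462) (nat_lit 2475))) (.a (.f (nat_lit 461) (nat_lit 432) (nat_lit 1452) (.d (nat_lit 459) (nat_lit 458) (nat_lit 2474) (nat_lit 462) (nat_lit 2475))) (.f (nat_lit 432) (nat_lit 461) (nat_lit 1452) (.f (nat_lit 397) (nat_lit 396) (nat_lit 3468) (.f (nat_lit 433) (nat_lit 398) (nat_lit 3469) (.d (nat_lit 465) (nat_lit 464) (nat_lit 429) (nat_lit 466) (nat_lit 430))))))))) (.a (.p (nat_lit 494) (.a (.f (nat_lit 398) (nat_lit 462) (nat_lit 4494) (.f (nat_lit 493) (nat_lit 492) (nat_lit 492) (.f (nat_lit 461) (nat_lit 525) (nat_lit 6541) (.d (nat_lit 366) (nat_lit 334) (nat_lit 5453) (nat_lit 397) (nat_lit 6509))))) (.a (.f (nat_lit 493) (nat_lit 492) (nat_lit 492) (.d (nat_lit 529) (nat_lit 526) (nat_lit 3565) (nat_lit 530) (nat_lit 3566))) (.f (nat_lit 462) (nat_lit 398) (nat_lit 4494) (.d (nat_lit 526) (nat_lit 397) (nat_lit 7565) (nat_lit 399) (nat_lit 6542)))))) (.a (.p (nat_lit 460) (.a (.f (nat_lit 428) (nat_lit 459) (nat_lit 1451) (.f (nat_lit 396) (nat_lit 395) (nat_lit 3467) (.f (nat_lit 397) (nat_lit 432) (nat_lit 3468) (.d (nat_lit 365) (nat_lit 333) (nat_lit 5452) (nat_lit 492) (nat_lit 6508))))) (.a (.f (nat_lit 459) (nat_lit 428) (nat_lit 1451) (.d (nat_lit 461) (nat_lit 458) (nat_lit 2474) (nat_lit 462) (nat_lit 2475))) (.a (.f (nat_lit 461) (nat_lit 432) (nat_lit 1452) (.d (nat_lit 459) (nat_lit 458) (nat_lit 2474) (nat_lit 462) (nat_lit 2475))) (.f (nat_lit 432) (nat_lit 461) (nat_lit 1452) (.f (nat_lit 465) (nat_lit 464) (nat_lit 429) (.f (nat_lit 433) (nat_lit 466) (nat_lit 430) (.f (nat_lit 396) (nat_lit 397) (nat_lit 3468) (.f (nat_lit 428) (nat_lit 395) (nat_lit 3467) (.f (nat_lit 400) (nat_lit 399) (nat_lit 2444) (.f (nat_lit 529) (nat_lit 497) (nat_lit 7568) (.f (nat_lit 530) (nat_lit 494) (nat_lit 3566) (.f (nat_lit 499) (nat_lit 498) (nat_lit 2543) (.f (nat_lit 531) (nat_lit 500) (nat_lit 2544) (.d (nat_lit 563) (nat_lit 562) (nat_lit 527) (nat_lit 564) (nat_lit 528)))))))))))))))) (.p (nat_lit 428) (.a (.f (nat_lit 399) (nat_lit 400) (nat_lit 2444) (.f (nat_lit 427) (nat_lit 398) (nat_lit 2443) (.d (nat_lit 459) (nat_lit 458) (nat_lit 1450) (nat_lit 460) (nat_lit 1451)))) (.a (.f (nat_lit 459) (nat_lit 460) (nat_lit 1451) (.f (nat_lit 427) (nat_lit 458) (nat_lit 1450) (.d (nat_lit 395) (nat_lit 394) (nat_lit 3466) (nat_lit 396) (nat_lit 3467)))) (.a (.f (nat_lit 399) (nat_lit 400) (nat_lit 2444) (.f (nat_lit 427) (nat_lit 398) (nat_lit 2443) (.d (nat_lit 395) (nat_lit 394) (nat_lit 3466) (nat_lit 396) (nat_lit 3467)))) (.f (nat_lit 460) (nat_lit 459) (nat_lit 1451) (.f (nat_lit 396) (nat_lit 395) (nat_lit 3467) (.f (nat_lit 461) (nat_lit 432) (nat_lit 1452) (.d (nat_lit 364) (nat_lit 332) (nat_lit 4428) (nat_lit 493) (nat_lit 4460)))))))))))))))) (.a (.p (nat_lit 429) (.a (.p (nat_lit 460) (.a (.f (nat_lit 428) (nat_lit 459) (nat_lit 1451) (.f (nat_lit 396) (nat_lit 395) (nat_lit 3467) (.f (nat_lit 397) (nat_lit 432) (nat_lit 3468) (.d (nat_lit 365) (nat_lit 333) (nat_lit 5452) (nat_lit 492) (nat_lit 6508))))) (.a (.f (nat_lit 432) (nat_lit 461) (nat_lit 1452) (.f (nat_lit 397) (nat_lit 396) (nat_lit 3468) (.f (nat_lit 433) (nat_lit 398) (nat_lit 3469) (.d (nat_lit 401) (nat_lit 400) (nat_lit 2445) (nat_lit 402) (nat_lit 2446))))) (.f (nat_lit 459) (nat_lit 428) (nat_lit 1451) (.d (nat_lit 461) (nat_lit 458) (nat_lit 2474) (nat_lit 462) (nat_lit 2475)))))) (.a s129426 (.a s129136 (.a (.p (nat_lit 494) (.a (.f (nat_lit 398) (nat_lit 462) (nat_lit 4494) (.f (nat_lit 493) (nat_lit 492) (nat_lit 492) (.f (nat_lit 461) (nat_lit 525) (nat_lit 6541) (.d (nat_lit 366) (nat_lit 334) (nat_lit 5453) (nat_lit 397) (nat_lit 6509))))) (.a (.f (nat_lit 493) (nat_lit 492) (nat_lit 492) (.d (nat_lit 529) (nat_lit 526) (nat_lit 3565) (nat_lit 530) (nat_lit 3566))) (.f (nat_lit 462) (nat_lit 398) (nat_lit 4494) (.d (nat_lit 526) (nat_lit 397) (nat_lit 7565) (nat_lit 399) (nat_lit 6542)))))) s129335))))) (.a (.p (nat_lit 461) (.a (.p (nat_lit 462) (.a (.f (nat_lit 460) (nat_lit 459) (nat_lit 2475) (.d (nat_lit 432) (nat_lit 429) (nat_lit 1452) (nat_lit 433) (nat_lit 1453))) (.f (nat_lit 494) (nat_lit 398) (nat_lit 4494) (.f (nat_lit 526) (nat_lit 399) (nat_lit 6542) (.d (nat_lit 529) (nat_lit 493) (nat_lit 3565) (nat_lit 530) (nat_lit 3566)))))) (.a (.p (nat_lit 429) (.a (.f (nat_lit 432) (nat_lit 460) (nat_lit 1452) (.f (nat_lit 397) (nat_lit 396) (nat_lit 3468) (.d (nat_lit 433) (nat_lit 398) (nat_lit 3469) (nat_lit 462) (nat_lit 1453)))) (.a (.f (nat_lit 432) (nat_lit 460) (nat_lit 1452) (.f (nat_lit 397) (nat_lit 396) (nat_lit 3468) (.f (nat_lit 398) (nat_lit 433) (nat_lit 3469) (.d (nat_lit 366) (nat_lit 334) (nat_lit 5453) (nat_lit 493) (nat_lit 6509))))) (.a s129624 (.a s129631 (.f (nat_lit 432) (nat_lit 460) (nat_lit 1452) (.f (nat_lit 433) (nat_lit 462) (nat_lit 1453) (.d (nat_lit 465) (nat_lit 464) (nat_lit 429) (nat_lit 466) (nat_lit 430))))))))) (.a (.p (nat_lit 462) (.a (.f (nat_lit 460) (nat_lit 459) (nat_lit 2475) (.d (nat_lit 432) (nat_lit 429) (nat_lit 1452) (nat_lit 433) (nat_lit 1453))) (.f (nat_lit 398) (nat_lit 494) (nat_lit 4494) (.f (nat_lit 366) (nat_lit 493) (nat_lit 5485) (.f (nat_lit 335) (nat_lit 367) (nat_lit 6478) (.f (nat_lit 334) (nat_lit 303) (nat_lit 6446) (.d (nat_lit 333) (nat_lit 301) (nat_lit 7469) (nat_lit 365) (nat_lit 7501)))))))) (.a (.p (nat_lit 429) (.a (.f (nat_lit 432) (nat_lit 460) (nat_lit 1452) (.f (nat_lit 397) (nat_lit 396) (nat_lit 3468) (.f (nat_lit 398) (nat_lit 433) (nat_lit 3469) (.d (nat_lit 366) (nat_lit 334) (nat_lit 5453) (nat_lit 493) (nat_lit 6509))))) (.a (.f (nat_lit 432) (nat_lit 460) (nat_lit 1452) (.f (nat_lit 397) (nat_lit 396) (nat_lit 3468) (.f (nat_lit 433) (nat_lit 398) (nat_lit 3469) (.d (nat_lit 401) (nat_lit 400) (nat_lit 2445) (nat_lit 402) (nat_lit 2446))))) (.a (.p (nat_lit 493) (.a (.f (nat_lit 525) (nat_lit 398) (nat_lit 6541) (.d (nat_lit 492) (nat_lit 494) (nat_lit 492) (nat_lit 526) (nat_lit 3564))) (.a (.f (nat_lit 525) (nat_lit 398) (nat_lit 6541) (.d (nat_lit 526) (nat_lit 492) (nat_lit 3564) (nat_lit 558) (nat_lit 4525))) (.a (.f (nat_lit 492) (nat_lit 494) (nat_lit 492) (.f (nat_lit 397) (nat_lit 524) (nat_lit 5516) (.d (nat_lit 396) (nat_lit 364) (nat_lit 7532) (nat_lit 432) (nat_lit 3468)))) (.f (nat_lit 525) (nat_lit 398) (nat_lit 6541) (.f (nat_lit 526) (nat_lit 558) (nat_lit 4525) (.d (nat_lit 556) (nat_lit 524) (nat_lit 5548) (nat_lit 557) (nat_lit 1548)))))))) (.a s129647 (.f (nat_lit 432) (nat_lit 460) (nat_lit 1452) (.f (nat_lit 400) (nat_lit 401) (nat_lit 2445) (.f (nat_lit 465) (nat_lit 464) (nat_lit 429) (.f (nat_lit 433) (nat_lit 466) (nat_lit 430) (.f (nat_lit 529) (nat_lit 497) (nat_lit 7568) (.f (nat_lit 530) (nat_lit 494) (nat_lit 3566) (.f (nat_lit 499) (nat_lit 498) (nat_lit 2543) (.f (nat_lit 531) (nat_lit 500) (nat_lit 2544) (.d (nat_lit 563) (nat_lit 562) (nat_lit 527) (nat_lit 564) (nat_lit 528))))))))))))))) (.a (.p (nat_lit 462) (.a (.f (nat_lit 460) (nat_lit 459) (nat_lit 2475) (.d (nat_lit 432) (nat_lit 429) (nat_lit 1452) (nat_lit 433) (nat_lit 1453))) (.f (nat_lit 494) (nat_lit 398) (nat_lit 4494) (.f (nat_lit 526) (nat_lit 399) (nat_lit 6542) (.f (nat_lit 557) (nat_lit 525) (nat_lit 5549) (.d (nat_lit 529) (nat_lit 530) (nat_lit 3566) (nat_lit 558) (nat_lit 1549))))))) (.a (.p (nat_lit 526) (.a (.p (nat_lit 493) (.a (.f (nat_lit 525) (nat_lit 492) (nat_lit 3564) (.d (nat_lit 557) (nat_lit 462) (nat_lit 6573) (nat_lit 556) (nat_lit 1548))) (.a (.f (nat_lit 525) (nat_lit 492) (nat_lit 3564) (.f (nat_lit 557) (nat_lit 556) (nat_lit 1548) (.d (nat_lit 558) (nat_lit 529) (nat_lit 1549) (nat_lit 590) (nat_lit 4557)))) (.a (.d (nat_lit 494) (nat_lit 492) (nat_lit 492) (nat_lit 529) (nat_lit 3565)) (.f (nat_lit 494) (nat_lit 529) (nat_lit 3565) (.d (nat_lit 462) (nat_lit 398) (nat_lit 4494) (nat_lit 399) (nat_lit 6542))))))) (.a (.p (nat_lit 557) (.a (.f (nat_lit 558) (nat_lit 529) (nat_lit 1549) (.d (nat_lit 556) (nat_lit 525) (nat_lit 1548) (nat_lit 555) (nat_lit 2571))) (.a (.p (nat_lit 433) (.a (.f (nat_lit 432) (nat_lit 462) (nat_lit 1453) (.f (nat_lit 529) (nat_lit 558) (nat_lit 1549) (.f (nat_lit 465) (nat_lit 466) (nat_lit 430) (.d (nat_lit 497) (nat_lit 498) (nat_lit 2542) (nat_lit 560) (nat_lit 5552))))) (.a (.f (nat_lit 529) (nat_lit 558) (nat_lit 1549) (.f (nat_lit 497) (nat_lit 498) (nat_lit 2542) (.f (nat_lit 465) (nat_lit 560) (nat_lit 5552) (.d (nat_lit 432) (nat_lit 400) (nat_lit 7568) (nat_lit 466) (nat_lit 430))))) (.a (.f (nat_lit 432) (nat_lit 462) (nat_lit 1453) (.f (nat_lit 402) (nat_lit 401) (nat_lit 2446) (.f (nat_lit 434) (nat_lit 403) (nat_lit 2447) (.d (nat_lit 466) (nat_lit 465) (nat_lit 430) (nat_lit 467) (nat_lit 431))))) (.a (.f (nat_lit 529) (nat_lit 558) (nat_lit 1549) (.f (nat_lit 497) (nat_lit 498) (nat_lit 2542) (.f (nat_lit 465) (nat_lit 560) (nat_lit 5552) (.f (nat_lit 402) (nat_lit 434) (nat_lit 6545) (.f (nat_lit 401) (nat_lit 370) (nat_lit 6513) (.d (nat_lit 400) (nat_lit 368) (nat_lit 7536) (nat_lit 399) (nat_lit 1422))))))) (.f (nat_lit 432) (nat_lit 462) (nat_lit 1453) (.f (nat_lit 398) (nat_lit 397) (nat_lit 3469) (.f (nat_lit 434) (nat_lit 399) (nat_lit 3470) (.d (nat_lit 402) (nat_lit 401) (nat_lit 2446) (nat_lit 403) (nat_lit 2447)))))))))) (.f (nat_lit 525) (nat_lit 556) (nat_lit 1548) (.d (nat_lit 493) (nat_lit 462) (nat_lit 6573) (nat_lit 492) (nat_lit 3564)))))) (.a (.p (nat_lit 493) (.a (.f (nat_lit 525) (nat_lit 492) (nat_lit 3564) (.f (nat_lit 557) (nat_lit 556) (nat_lit 1548) (.d (nat_lit 558) (nat_lit 529) (nat_lit 1549) (nat_lit 590) (nat_lit 4557)))) (.a (.d (nat_lit 494) (nat_lit 492) (nat_lit 492) (nat_lit 529) (nat_lit 3565)) (.a (.d (nat_lit 492) (nat_lit 494) (nat_lit 492) (nat_lit 525) (nat_lit 3564)) (.p (nat_lit 558) (.a (.d (nat_lit 529) (nat_lit 494) (nat_lit 3565) (nat_lit 557) (nat_lit 1549)) (.a (.f (nat_lit 557) (nat_lit 529) (nat_lit 1549) (.d (nat_lit 556) (nat_lit 525) (nat_lit 1548) (nat_lit 555) (nat_lit 2571))) (.d (nat_lit 590) (nat_lit 494) (nat_lit 7629) (nat_lit 622) (nat_lit 6638))))))))) (.a (.p (nat_lit 433) (.a (.f (nat_lit 432) (nat_lit 462) (nat_lit 1453) (.f (nat_lit 402) (nat_lit 401) (nat_lit 2446) (.f (nat_lit 434) (nat_lit 403) (nat_lit 2447) (.d (nat_lit 466) (nat_lit 465) (nat_lit 430) (nat_lit 467) (nat_lit 431))))) (.a (.p (nat_lit 529) (.a (.f (nat_lit 530) (nat_lit 494) (nat_lit 3566) (.d (nat_lit 498) (nat_lit 497) (nat_lit 2542) (nat_lit 499) (nat_lit 2543))) (.a (.f (nat_lit 497) (nat_lit 498) (nat_lit 2542) (.f (nat_lit 465) (nat_lit 560) (nat_lit 5552) (.d (nat_lit 432) (nat_lit 400) (nat_lit 7568) (nat_lit 466) (nat_lit 430)))) (.a (.f (nat_lit 530) (nat_lit 494) (nat_lit 3566) (.f (nat_lit 562) (nat_lit 563) (nat_lit 527) (.f (nat_lit 465) (nat_lit 497) (nat_lit 4529) (.f (nat_lit 432) (nat_lit 466) (nat_lit 430) (.f (nat_lit 402) (nat_lit 401) (nat_lit 2446) (.f (nat_lit 434) (nat_lit 403) (nat_lit 2447) (.d (nat_lit 398) (nat_lit 397) (nat_lit 3469) (nat_lit 399) (nat_lit 3470)))))))) (.f (nat_lit 530) (nat_lit 494) (nat_lit 3566) (.f (nat_lit 563) (nat_lit 562) (nat_lit 527) (.f (nat_lit 531) (nat_lit 564) (nat_lit 528) (.d (nat_lit 499) (nat_lit 498) (nat_lit 2543) (nat_lit 500) (nat_lit 2544))))))))) (.a (.p (nat_lit 494) (.a (.d (nat_lit 462) (nat_lit 398) (nat_lit 4494) (nat_lit 399) (nat_lit 6542)) (.a (.f (nat_lit 529) (nat_lit 530) (nat_lit 3566) (.f (nat_lit 497) (nat_lit 498) (nat_lit 2542) (.f (nat_lit 465) (nat_lit 560) (nat_lit 5552) (.f (nat_lit 402) (nat_lit 434) (nat_lit 6545) (.f (nat_lit 401) (nat_lit 370) (nat_lit 6513) (.d (nat_lit 400) (nat_lit 368) (nat_lit 7536) (nat_lit 399) (nat_lit 1422))))))) (.f (nat_lit 462) (nat_lit 398) (nat_lit 4494) (.f (nat_lit 557) (nat_lit 525) (nat_lit 5549) (.d (nat_lit 529) (nat_lit 530) (nat_lit 3566) (nat_lit 558) (nat_lit 1549))))))) (.f (nat_lit 462) (nat_lit 432) (nat_lit 1453) (.d (nat_lit 494) (nat_lit 398) (nat_lit 4494) (nat_lit 399) (nat_lit 6542))))))) (.a (.p (nat_lit 494) (.a (.d (nat_lit 462) (nat_lit 398) (nat_lit 4494) (nat_lit 399) (nat_lit 6542)) (.d (nat_lit 493) (nat_lit 492) (nat_lit 492) (nat_lit 529) (nat_lit 3565)))) (.p (nat_lit 525) (.a (.f (nat_lit 557) (nat_lit 556) (nat_lit 1548) (.d (nat_lit 493) (nat_lit 462) (nat_lit 6573) (nat_lit 492) (nat_lit 3564))) (.a (.f (nat_lit 556) (nat_lit 557) (nat_lit 1548) (.f (nat_lit 524) (nat_lit 555) (nat_lit 1547) (.f (nat_lit 523) (nat_lit 494) (nat_lit 2539) (.d (nat_lit 491) (nat_lit 490) (nat_lit 3562) (nat_lit 492) (nat_lit 3563))))) (.a (.f (nat_lit 557) (nat_lit 556) (nat_lit 1548) (.d (nat_lit 462) (nat_lit 493) (nat_lit 6573) (nat_lit 494) (nat_lit 5549))) (.f (nat_lit 492) (nat_lit 493) (nat_lit 3564) (.f (nat_lit 524) (nat_lit 491) (nat_lit 3563) (.f (nat_lit 494) (nat_lit 523) (nat_lit 2539) (.d (nat_lit 462) (nat_lit 398) (nat_lit 4494) (nat_lit 399) (nat_lit 6542))))))))))))))) (.a (.p (nat_lit 494) (.a (.f (nat_lit 493) (nat_lit 492) (nat_lit 492) (.d (nat_lit 529) (nat_lit 526) (nat_lit 3565) (nat_lit 530) (nat_lit 3566))) (.a (.f (nat_lit 493) (nat_lit 492) (nat_lit 492) (.f (nat_lit 398) (nat_lit 462) (nat_lit 4494) (.f (nat_lit 429) (nat_lit 525) (nat_lit 6541) (.d (nat_lit 366) (nat_lit 334) (nat_lit 5453) (nat_lit 397) (nat_lit 6509))))) (.f (nat_lit 462) (nat_lit 398) (nat_lit 4494) (.f (nat_lit 526) (nat_lit 399) (nat_lit 6542) (.d (nat_lit 429) (nat_lit 397) (nat_lit 7565) (nat_lit 558) (nat_lit 7597))))))) (.p (nat_lit 493) (.a (.f (nat_lit 494) (nat_lit 492) (nat_lit 492) (.d (nat_lit 529) (nat_lit 526) (nat_lit 3565) (nat_lit 530) (nat_lit 3566))) (.a (.p (nat_lit 525) (.a (.f (nat_lit 557) (nat_lit 462) (nat_lit 6573) (.d (nat_lit 526) (nat_lit 492) (nat_lit 3564) (nat_lit 556) (nat_lit 1548))) (.a (.f (nat_lit 557) (nat_lit 462) (nat_lit 6573) (.f (nat_lit 588) (nat_lit 556) (nat_lit 5580) (.f (nat_lit 589) (nat_lit 620) (nat_lit 5612) (.d (nat_lit 590) (nat_lit 558) (nat_lit 4557) (nat_lit 622) (nat_lit 4589))))) (.a (.f (nat_lit 526) (nat_lit 492) (nat_lit 3564) (.f (nat_lit 557) (nat_lit 556) (nat_lit 1548) (.d (nat_lit 558) (nat_lit 529) (nat_lit 1549) (nat_lit 590) (nat_lit 4557)))) (.f (nat_lit 526) (nat_lit 492) (nat_lit 3564) (.f (nat_lit 429) (nat_lit 558) (nat_lit 4525) (.f (nat_lit 432) (nat_lit 460) (nat_lit 1452) (.f (nat_lit 433) (nat_lit 462) (nat_lit 1453) (.d (nat_lit 465) (nat_lit 464) (nat_lit 429) (nat_lit 466) (nat_lit 430)))))))))) (.a (.p (nat_lit 429) (.a (.f (nat_lit 432) (nat_lit 460) (nat_lit 1452) (.f (nat_lit 433) (nat_lit 462) (nat_lit 1453) (.d (nat_lit 465) (nat_lit 464) (nat_lit 429) (nat_lit 466) (nat_lit 430)))) (.a (.f (nat_lit 432) (nat_lit 460) (nat_lit 1452) (.f (nat_lit 401) (nat_lit 400) (nat_lit 2445) (.f (nat_lit 433) (nat_lit 402) (nat_lit 2446) (.d (nat_lit 465) (nat_lit 464) (nat_lit 429) (nat_lit 466) (nat_lit 430))))) (.a (.f (nat_lit 492) (nat_lit 494) (nat_lit 492) (.f (nat_lit 397) (nat_lit 524) (nat_lit 5516) (.d (nat_lit 396) (nat_lit 364) (nat_lit 7532) (nat_lit 432) (nat_lit 3468)))) (.f (nat_lit 492) (nat_lit 494) (nat_lit 492) (.f (nat_lit 397) (nat_lit 524) (nat_lit 5516) (.f (nat_lit 365) (nat_lit 460) (nat_lit 5484) (.d (nat_lit 364) (nat_lit 332) (nat_lit 7500) (nat_lit 396) (nat_lit 7532))))))))) (.p (nat_lit 432) (.a (.f (nat_lit 433) (nat_lit 462) (nat_lit 1453) (.f (nat_lit 402) (nat_lit 401) (nat_lit 2446) (.f (nat_lit 434) (nat_lit 403) (nat_lit 2447) (.d (nat_lit 466) (nat_lit 465) (nat_lit 430) (nat_lit 467) (nat_lit 431))))) (.f (nat_lit 429) (nat_lit 460) (nat_lit 1452) (.f (nat_lit 397) (nat_lit 396) (nat_lit 3468) (.f (nat_lit 526) (nat_lit 494) (nat_lit 4493) (.f (nat_lit 525) (nat_lit 558) (nat_lit 4525) (.d (nat_lit 556) (nat_lit 524) (nat_lit 5548) (nat_lit 557) (nat_lit 1548)))))))))))))))))))) (.a (.p (nat_lit 433) (.a (.p (nat_lit 462) (.a (.f (nat_lit 432) (nat_lit 461) (nat_lit 1453) (.f (nat_lit 402) (nat_lit 401) (nat_lit 2446) (.f (nat_lit 434) (nat_lit 403) (nat_lit 2447) (.d (nat_lit 466) (nat_lit 465) (nat_lit 430) (nat_lit 467) (nat_lit 431))))) (.f (nat_lit 494) (nat_lit 398) (nat_lit 4494) (.f (nat_lit 526) (nat_lit 399) (nat_lit 6542) (.d (nat_lit 529) (nat_lit 493) (nat_lit 3565) (nat_lit 530) (nat_lit 3566)))))) (.a (.p (nat_lit 432) (.a (.f (nat_lit 402) (nat_lit 401) (nat_lit 2446) (.f (nat_lit 434) (nat_lit 403) (nat_lit 2447) (.d (nat_lit 466) (nat_lit 465) (nat_lit 430) (nat_lit 467) (nat_lit 431)))) (.a (.p (nat_lit 434) (.a (.d (nat_lit 402) (nat_lit 401) (nat_lit 2446) (nat_lit 403) (nat_lit 2447)) (.a (.f (nat_lit 403) (nat_lit 402) (nat_lit 2447) (.f (nat_lit 435) (nat_lit 404) (nat_lit 2448) (.d (nat_lit 467) (nat_lit 466) (nat_lit 431) (nat_lit 468) (nat_lit 432)))) (.a (.f (nat_lit 467) (nat_lit 466) (nat_lit 431) (.f (nat_lit 435) (nat_lit 468) (nat_lit 432) (.f (nat_lit 404) (nat_lit 403) (nat_lit 2448) (.f (nat_lit 436) (nat_lit 405) (nat_lit 2449) (.d (nat_lit 400) (nat_lit 399) (nat_lit 3471) (nat_lit 401) (nat_lit 3472)))))) (.f (nat_lit 401) (nat_lit 402) (nat_lit 2446) (.f (nat_lit 466) (nat_lit 467) (nat_lit 431) (.f (nat_lit 530) (nat_lit 498) (nat_lit 7569) (.f (nat_lit 494) (nat_lit 529) (nat_lit 3566) (.f (nat_lit 462) (nat_lit 461) (nat_lit 1453) (.f (nat_lit 526) (nat_lit 399) (nat_lit 6542) (.f (nat_lit 525) (nat_lit 557) (nat_lit 5549) (.f (nat_lit 492) (nat_lit 493) (nat_lit 492) (.d (nat_lit 524) (nat_lit 491) (nat_lit 3563) (nat_lit 523) (nat_lit 2539)))))))))))))) (.a (.p (nat_lit 529) (.a (.f (nat_lit 530) (nat_lit 494) (nat_lit 3566) (.f (nat_lit 402) (nat_lit 401) (nat_lit 2446) (.f (nat_lit 434) (nat_lit 403) (nat_lit 2447) (.f (nat_lit 497) (nat_lit 465) (nat_lit 6545) (.d (nat_lit 498) (nat_lit 499) (nat_lit 2543) (nat_lit 526) (nat_lit 2542)))))) (.a (.f (nat_lit 402) (nat_lit 401) (nat_lit 2446) (.f (nat_lit 434) (nat_lit 403) (nat_lit 2447) (.f (nat_lit 497) (nat_lit 465) (nat_lit 6545) (.f (nat_lit 498) (nat_lit 526) (nat_lit 2542) (.d (nat_lit 499) (nat_lit 500) (nat_lit 1520) (nat_lit 530) (nat_lit 2543)))))) (.a (.f (nat_lit 530) (nat_lit 494) (nat_lit 3566) (.f (nat_lit 499) (nat_lit 498) (nat_lit 2543) (.f (nat_lit 531) (nat_lit 500) (nat_lit 2544) (.d (nat_lit 563) (nat_lit 562) (nat_lit 527) (nat_lit 564) (nat_lit 528))))) (.a (.f (nat_lit 402) (nat_lit 401) (nat_lit 2446) (.f (nat_lit 434) (nat_lit 403) (nat_lit 2447) (.f (nat_lit 497) (nat_lit 465) (nat_lit 6545) (.f (nat_lit 526) (nat_lit 498) (nat_lit 2542) (.f (nat_lit 494) (nat_lit 493) (nat_lit 3565) (.d (nat_lit 462) (nat_lit 399) (nat_lit 6542) (nat_lit 461) (nat_lit 1453))))))) (.f (nat_lit 494) (nat_lit 530) (nat_lit 3566) (.d (nat_lit 493) (nat_lit 492) (nat_lit 492) (nat_lit 526) (nat_lit 3565)))))))) (.p (nat_lit 494) (.a (.f (nat_lit 462) (nat_lit 461) (nat_lit 1453) (.f (nat_lit 526) (nat_lit 399) (nat_lit 6542) (.d (nat_lit 529) (nat_lit 493) (nat_lit 3565) (nat_lit 530) (nat_lit 3566)))) (.a (.f (nat_lit 465) (nat_lit 466) (nat_lit 430) (.f (nat_lit 529) (nat_lit 530) (nat_lit 3566) (.d (nat_lit 497) (nat_lit 400) (nat_lit 7568) (nat_lit 560) (nat_lit 5552)))) (.f (nat_lit 462) (nat_lit 461) (nat_lit 1453) (.f (nat_lit 526) (nat_lit 399) (nat_lit 6542) (.f (nat_lit 525) (nat_lit 557) (nat_lit 5549) (.f (nat_lit 492) (nat_lit 493) (nat_lit 492) (.d (nat_lit 524) (nat_lit 491) (nat_lit 3563) (nat_lit 523) (nat_lit 2539))))))))))))) (.a (.p (nat_lit 462) (.a (.f (nat_lit 432) (nat_lit 461) (nat_lit 1453) (.f (nat_lit 402) (nat_lit 401) (nat_lit 2446) (.f (nat_lit 434) (nat_lit 403) (nat_lit 2447) (.d (nat_lit 466) (nat_lit 465) (nat_lit 430) (nat_lit 467) (nat_lit 431))))) (.f (nat_lit 494) (nat_lit 398) (nat_lit 4494) (.f (nat_lit 529) (nat_lit 530) (nat_lit 3566) (.d (nat_lit 493) (nat_lit 492) (nat_lit 492) (nat_lit 526) (nat_lit 3565)))))) (.a (.p (nat_lit 462) (.a (.f (nat_lit 494) (nat_lit 398) (nat_lit 4494) (.f (nat_lit 526) (nat_lit 399) (nat_lit 6542) (.d (nat_lit 529) (nat_lit 493) (nat_lit 3565) (nat_lit 530) (nat_lit 3566)))) (.a (.f (nat_lit 432) (nat_lit 461) (nat_lit 1453) (.f (nat_lit 398) (nat_lit 397) (nat_lit 3469) (.f (nat_lit 434) (nat_lit 399) (nat_lit 3470) (.d (nat_lit 466) (nat_lit 465) (nat_lit 430) (nat_lit 467) (nat_lit 431))))) (.a (.f (nat_lit 494) (nat_lit 398) (nat_lit 4494) (.f (nat_lit 529) (nat_lit 530) (nat_lit 3566) (.d (nat_lit 493) (nat_lit 492) (nat_lit 492) (nat_lit 526) (nat_lit 3565)))) (.f (nat_lit 432) (nat_lit 461) (nat_lit 1453) (.f (nat_lit 466) (nat_lit 465) (nat_lit 430) (.f (nat_lit 434) (nat_lit 467) (nat_lit 431) (.f (nat_lit 403) (nat_lit 402) (nat_lit 2447) (.f (nat_lit 435) (nat_lit 404) (nat_lit 2448) (.f (nat_lit 399) (nat_lit 400) (nat_lit 3471) (.f (nat_lit 494) (nat_lit 526) (nat_lit 6542) (.d (nat_lit 530) (nat_lit 498) (nat_lit 6546) (nat_lit 529) (nat_lit 3566))))))))))))) (.a (.p (nat_lit 494) (.a (.f (nat_lit 462) (nat_lit 398) (nat_lit 4494) (.f (nat_lit 526) (nat_lit 399) (nat_lit 6542) (.d (nat_lit 529) (nat_lit 493) (nat_lit 3565) (nat_lit 530) (nat_lit 3566)))) (.a (.f (nat_lit 462) (nat_lit 398) (nat_lit 4494) (.f (nat_lit 432) (nat_lit 461) (nat_lit 1453) (.f (nat_lit 465) (nat_lit 466) (nat_lit 430) (.f (nat_lit 529) (nat_lit 530) (nat_lit 3566) (.d (nat_lit 497) (nat_lit 400) (nat_lit 7568) (nat_lit 560) (nat_lit 5552)))))) (.a (.f (nat_lit 529) (nat_lit 530) (nat_lit 3566) (.d (nat_lit 493) (nat_lit 492) (nat_lit 492) (nat_lit 526) (nat_lit 3565))) (.f (nat_lit 462) (nat_lit 398) (nat_lit 4494) (.f (nat_lit 526) (nat_lit 399) (nat_lit 6542) (.f (nat_lit 525) (nat_lit 557) (nat_lit 5549) (.f (nat_lit 492) (nat_lit 493) (nat_lit 492) (.d (nat_lit 524) (nat_lit 491) (nat_lit 3563) (nat_lit 523) (nat_lit 2539)))))))))) (.a (.p (nat_lit 529) (.a (.f (nat_lit 494) (nat_lit 530) (nat_lit 3566) (.d (nat_lit 493) (nat_lit 492) (nat_lit 492) (nat_lit 526) (nat_lit 3565))) (.a (.p (nat_lit 498) (.a (.f (nat_lit 497) (nat_lit 526) (nat_lit 2542) (.d (nat_lit 499) (nat_lit 500) (nat_lit 1520) (nat_lit 530) (nat_lit 2543))) (.a (.f (nat_lit 530) (nat_lit 499) (nat_lit 2543) (.f (nat_lit 562) (nat_lit 563) (nat_lit 527) (.d (nat_lit 465) (nat_lit 466) (nat_lit 7601) (nat_lit 497) (nat_lit 4529)))) (.a (.f (nat_lit 497) (nat_lit 526) (nat_lit 2542) (.f (nat_lit 465) (nat_lit 560) (nat_lit 5552) (.f (nat_lit 402) (nat_lit 434) (nat_lit 6545) (.f (nat_lit 401) (nat_lit 370) (nat_lit 6513) (.d (nat_lit 400) (nat_lit 368) (nat_lit 7536) (nat_lit 399) (nat_lit 1422)))))) (.f (nat_lit 530) (nat_lit 499) (nat_lit 2543) (.f (nat_lit 562) (nat_lit 563) (nat_lit 527) (.f (nat_lit 466) (nat_lit 465) (nat_lit 7601) (.f (nat_lit 434) (nat_lit 401) (nat_lit 7569) (.d (nat_lit 435) (nat_lit 403) (nat_lit 6546) (nat_lit 467) (nat_lit 6578)))))))))) (.a (.f (nat_lit 530) (nat_lit 494) (nat_lit 3566) (.f (nat_lit 562) (nat_lit 563) (nat_lit 527) (.f (nat_lit 498) (nat_lit 499) (nat_lit 2543) (.d (nat_lit 465) (nat_lit 466) (nat_lit 7601) (nat_lit 497) (nat_lit 4529))))) (.p (nat_lit 526) (.a (.f (nat_lit 497) (nat_lit 498) (nat_lit 2542) (.f (nat_lit 465) (nat_lit 560) (nat_lit 5552) (.f (nat_lit 402) (nat_lit 434) (nat_lit 6545) (.f (nat_lit 401) (nat_lit 370) (nat_lit 6513) (.d (nat_lit 400) (nat_lit 368) (nat_lit 7536) (nat_lit 399) (nat_lit 1422)))))) (.f (nat_lit 494) (nat_lit 493) (nat_lit 3565) (.f (nat_lit 557) (nat_lit 558) (nat_lit 1549) (.d (nat_lit 462) (nat_lit 398) (nat_lit 4494) (nat_lit 525) (nat_lit 5549)))))))))) (.a (.p (nat_lit 432) (.a (.f (nat_lit 402) (nat_lit 401) (nat_lit 2446) (.f (nat_lit 434) (nat_lit 403) (nat_lit 2447) (.d (nat_lit 466) (nat_lit 465) (nat_lit 430) (nat_lit 467) (nat_lit 431)))) (.a (.f (nat_lit 402) (nat_lit 401) (nat_lit 2446) (.f (nat_lit 434) (nat_lit 403) (nat_lit 2447) (.d (nat_lit 398) (nat_lit 397) (nat_lit 3469) (nat_lit 399) (nat_lit 3470)))) (.p (nat_lit 529) (.a (.f (nat_lit 530) (nat_lit 494) (nat_lit 3566) (.f (nat_lit 499) (nat_lit 498) (nat_lit 2543) (.f (nat_lit 531) (nat_lit 500) (nat_lit 2544) (.d (nat_lit 563) (nat_lit 562) (nat_lit 527) (nat_lit 564) (nat_lit 528))))) (.f (nat_lit 465) (nat_lit 466) (nat_lit 430) (.d (nat_lit 497) (nat_lit 400) (nat_lit 7568) (nat_lit 560) (nat_lit 5552)))))))) (.a (.p (nat_lit 494) (.a (.f (nat_lit 462) (nat_lit 398) (nat_lit 4494) (.f (nat_lit 526) (nat_lit 399) (nat_lit 6542) (.d (nat_lit 529) (nat_lit 493) (nat_lit 3565) (nat_lit 530) (nat_lit 3566)))) (.a (.f (nat_lit 398) (nat_lit 462) (nat_lit 4494) (.f (nat_lit 432) (nat_lit 397) (nat_lit 3469) (.f (nat_lit 434) (nat_lit 399) (nat_lit 3470) (.d (nat_lit 402) (nat_lit 401) (nat_lit 2446) (nat_lit 403) (nat_lit 2447))))) (.f (nat_lit 529) (nat_lit 530) (nat_lit 3566) (.d (nat_lit 493) (nat_lit 492) (nat_lit 492) (nat_lit 526) (nat_lit 3565)))))) (.a (.p (nat_lit 432) (.a (.f (nat_lit 402) (nat_lit 401) (nat_lit 2446) (.f (nat_lit 434) (nat_lit 403) (nat_lit 2447) (.d (nat_lit 466) (nat_lit 465) (nat_lit 430) (nat_lit 467) (nat_lit 431)))) (.a (.f (nat_lit 402) (nat_lit 401) (nat_lit 2446) (.f (nat_lit 434) (nat_lit 403) (nat_lit 2447) (.d (nat_lit 398) (nat_lit 397) (nat_lit 3469) (nat_lit 399) (nat_lit 3470)))) (.a (.f (nat_lit 465) (nat_lit 466) (nat_lit 430) (.p (nat_lit 497) (.a (.d (nat_lit 529) (nat_lit 400) (nat_lit 7568) (nat_lit 560) (nat_lit 5552)) (.a (.f (nat_lit 401) (nat_lit 402) (nat_lit 2446) (.f (nat_lit 368) (nat_lit 400) (nat_lit 7536) (.f (nat_lit 369) (nat_lit 336) (nat_lit 7504) (.f (nat_lit 338) (nat_lit 370) (nat_lit 6481) (.d (nat_lit 337) (nat_lit 306) (nat_lit 6449) (nat_lit 464) (nat_lit 5456)))))) (.f (nat_lit 529) (nat_lit 560) (nat_lit 5552) (.f (nat_lit 530) (nat_lit 562) (nat_lit 4529) (.d (nat_lit 401) (nat_lit 402) (nat_lit 2446) (nat_lit 498) (nat_lit 4497)))))))) (.f (nat_lit 398) (nat_lit 397) (nat_lit 3469) (.f (nat_lit 434) (nat_lit 399) (nat_lit 3470) (.d (nat_lit 466) (nat_lit 465) (nat_lit 430) (nat_lit 467) (nat_lit 431)))))))) (.p (nat_lit 462) (.a (.f (nat_lit 432) (nat_lit 461) (nat_lit 1453) (.f (nat_lit 402) (nat_lit 401) (nat_lit 2446) (.f (nat_lit 434) (nat_lit 403) (nat_lit 2447) (.d (nat_lit 466) (nat_lit 465) (nat_lit 430) (nat_lit 467) (nat_lit 431))))) (.a (.f (nat_lit 398) (nat_lit 494) (nat_lit 4494) (.f (nat_lit 432) (nat_lit 397) (nat_lit 3469) (.f (nat_lit 434) (nat_lit 399) (nat_lit 3470) (.d (nat_lit 402) (nat_lit 401) (nat_lit 2446) (nat_lit 403) (nat_lit 2447))))) (.f (nat_lit 494) (nat_lit 398) (nat_lit 4494) (.f (nat_lit 526) (nat_lit 399) (nat_lit 6542) (.f (nat_lit 525) (nat_lit 557) (nat_lit 5549) (.f (nat_lit 492) (nat_lit 493) (nat_lit 492) (.d (nat_lit 524) (nat_lit 491) (nat_lit 3563) (nat_lit 523) (nat_lit 2539))))))))))))))))))) (.a (.p (nat_lit 429) (.a (.p (nat_lit 494) (.a (.f (nat_lit 398) (nat_lit 462) (nat_lit 4494) (.f (nat_lit 493) (nat_lit 492) (nat_lit 492) (.f (nat_lit 461) (nat_lit 525) (nat_lit 6541) (.d (nat_lit 366) (nat_lit 334) (nat_lit 5453) (nat_lit 397) (nat_lit 6509))))) (.a (.f (nat_lit 493) (nat_lit 492) (nat_lit 492) (.d (nat_lit 529) (nat_lit 526) (nat_lit 3565) (nat_lit 530) (nat_lit 3566))) (.f (nat_lit 462) (nat_lit 398) (nat_lit 4494) (.d (nat_lit 526) (nat_lit 397) (nat_lit 7565) (nat_lit 399) (nat_lit 6542)))))) (.a s130051 (.a s130060 (.a (.p (nat_lit 493) (.a (.f (nat_lit 494) (nat_lit 492) (nat_lit 492) (.d (nat_lit 529) (nat_lit 526) (nat_lit 3565) (nat_lit 530) (nat_lit 3566))) (.p (nat_lit 428) (.a (.f (nat_lit 396) (nat_lit 395) (nat_lit 3467) (.f (nat_lit 461) (nat_lit 525) (nat_lit 7564) (.d (nat_lit 364) (nat_lit 332) (nat_lit 4428) (nat_lit 397) (nat_lit 7532)))) (.f (nat_lit 399) (nat_lit 400) (nat_lit 2444) (.f (nat_lit 427) (nat_lit 398) (nat_lit 2443) (.d (nat_lit 459) (nat_lit 458) (nat_lit 1450) (nat_lit 460) (nat_lit 1451)))))))) (.a (.p (nat_lit 462) (.a (.f (nat_lit 494) (nat_lit 398) (nat_lit 4494) (.d (nat_lit 526) (nat_lit 397) (nat_lit 7565) (nat_lit 399) (nat_lit 6542))) (.a (.p (nat_lit 428) (.a (.f (nat_lit 459) (nat_lit 460) (nat_lit 1451) (.f (nat_lit 427) (nat_lit 458) (nat_lit 1450) (.d (nat_lit 395) (nat_lit 394) (nat_lit 3466) (nat_lit 396) (nat_lit 3467)))) (.a (.f (nat_lit 395) (nat_lit 396) (nat_lit 3467) (.f (nat_lit 427) (nat_lit 394) (nat_lit 3466) (.f (nat_lit 458) (nat_lit 459) (nat_lit 1450) (.d (nat_lit 426) (nat_lit 457) (nat_lit 1449) (nat_lit 461) (nat_lit 426))))) (.a (.f (nat_lit 459) (nat_lit 460) (nat_lit 1451) (.f (nat_lit 427) (nat_lit 458) (nat_lit 1450) (.f (nat_lit 426) (nat_lit 461) (nat_lit 426) (.d (nat_lit 394) (nat_lit 393) (nat_lit 3465) (nat_lit 395) (nat_lit 3466))))) (.a (.f (nat_lit 399) (nat_lit 400) (nat_lit 2444) (.f (nat_lit 427) (nat_lit 398) (nat_lit 2443) (.d (nat_lit 395) (nat_lit 394) (nat_lit 3466) (nat_lit 396) (nat_lit 3467)))) (.a (.p (nat_lit 397) (.a (.f (nat_lit 460) (nat_lit 459) (nat_lit 1451) (.f (nat_lit 365) (nat_lit 333) (nat_lit 4429) (.d (nat_lit 492) (nat_lit 461) (nat_lit 5484) (nat_lit 524) (nat_lit 6540)))) (.a (.f (nat_lit 396) (nat_lit 395) (nat_lit 3467) (.f (nat_lit 365) (nat_lit 333) (nat_lit 4429) (.d (nat_lit 460) (nat_lit 459) (nat_lit 1451) (nat_lit 492) (nat_lit 6508)))) (.a (.f (nat_lit 365) (nat_lit 333) (nat_lit 4429) (.f (nat_lit 396) (nat_lit 395) (nat_lit 3467) (.f (nat_lit 399) (nat_lit 400) (nat_lit 2444) (.f (nat_lit 367) (nat_lit 335) (nat_lit 5454) (.d (nat_lit 368) (nat_lit 366) (nat_lit 1388) (nat_lit 398) (nat_lit 2412)))))) (.f (nat_lit 396) (nat_lit 395) (nat_lit 3467) (.f (nat_lit 399) (nat_lit 400) (nat_lit 2444) (.f (nat_lit 367) (nat_lit 335) (nat_lit 5454) (.f (nat_lit 398) (nat_lit 368) (nat_lit 2412) (.f (nat_lit 364) (nat_lit 363) (nat_lit 3435) (.d (nat_lit 332) (nat_lit 300) (nat_lit 4396) (nat_lit 461) (nat_lit 4428))))))))))) (.f (nat_lit 399) (nat_lit 400) (nat_lit 2444) (.f (nat_lit 427) (nat_lit 398) (nat_lit 2443) (.d (nat_lit 459) (nat_lit 458) (nat_lit 1450) (nat_lit 460) (nat_lit 1451)))))))))) (.a (.f (nat_lit 494) (nat_lit 398) (nat_lit 4494) (.f (nat_lit 526) (nat_lit 397) (nat_lit 7565) (.f (nat_lit 558) (nat_lit 461) (nat_lit 7597) (.d (nat_lit 529) (nat_lit 530) (nat_lit 3566) (nat_lit 557) (nat_lit 1549))))) (.a (.p (nat_lit 428) (.a (.f (nat_lit 459) (nat_lit 460) (nat_lit 1451) (.f (nat_lit 427) (nat_lit 458) (nat_lit 1450) (.d (nat_lit 395) (nat_lit 394) (nat_lit 3466) (nat_lit 396) (nat_lit 3467)))) (.a (.f (nat_lit 395) (nat_lit 396) (nat_lit 3467) (.f (nat_lit 427) (nat_lit 394) (nat_lit 3466) (.f (nat_lit 458) (nat_lit 459) (nat_lit 1450) (.d (nat_lit 426) (nat_lit 457) (nat_lit 1449) (nat_lit 461) (nat_lit 426))))) (.a (.f (nat_lit 459) (nat_lit 460) (nat_lit 1451) (.f (nat_lit 427) (nat_lit 458) (nat_lit 1450) (.f (nat_lit 426) (nat_lit 461) (nat_lit 426) (.d (nat_lit 394) (nat_lit 393) (nat_lit 3465) (nat_lit 395) (nat_lit 3466))))) (.a (.p (nat_lit 427) (.a (.d (nat_lit 395) (nat_lit 394) (nat_lit 3466) (nat_lit 396) (nat_lit 3467)) (.a (.f (nat_lit 426) (nat_lit 461) (nat_lit 426) (.d (nat_lit 394) (nat_lit 393) (nat_lit 3465) (nat_lit 395) (nat_lit 3466))) (.a (.f (nat_lit 426) (nat_lit 461) (nat_lit 426) (.f (nat_lit 393) (nat_lit 394) (nat_lit 3465) (.f (nat_lit 425) (nat_lit 392) (nat_lit 3464) (.d (nat_lit 457) (nat_lit 456) (nat_lit 1448) (nat_lit 458) (nat_lit 1449))))) (.f (nat_lit 426) (nat_lit 461) (nat_lit 426) (.f (nat_lit 396) (nat_lit 395) (nat_lit 3467) (.f (nat_lit 425) (nat_lit 397) (nat_lit 2441) (.d (nat_lit 457) (nat_lit 456) (nat_lit 1448) (nat_lit 458) (nat_lit 1449))))))))) (.a (.p (nat_lit 365) (.a (.f (nat_lit 397) (nat_lit 333) (nat_lit 4429) (.d (nat_lit 494) (nat_lit 461) (nat_lit 4461) (nat_lit 526) (nat_lit 7565))) (.a (.f (nat_lit 460) (nat_lit 459) (nat_lit 1451) (.f (nat_lit 397) (nat_lit 333) (nat_lit 4429) (.d (nat_lit 492) (nat_lit 396) (nat_lit 6508) (nat_lit 461) (nat_lit 5484)))) (.a (.f (nat_lit 397) (nat_lit 333) (nat_lit 4429) (.f (nat_lit 396) (nat_lit 395) (nat_lit 3467) (.d (nat_lit 460) (nat_lit 459) (nat_lit 1451) (nat_lit 492) (nat_lit 6508)))) (.a (.f (nat_lit 460) (nat_lit 459) (nat_lit 1451) (.f (nat_lit 396) (nat_lit 395) (nat_lit 3467) (.f (nat_lit 364) (nat_lit 333) (nat_lit 6476) (.f (nat_lit 332) (nat_lit 461) (nat_lit 4428) (.d (nat_lit 331) (nat_lit 299) (nat_lit 7467) (nat_lit 363) (nat_lit 7499)))))) (.f (nat_lit 460) (nat_lit 459) (nat_lit 1451) (.f (nat_lit 396) (nat_lit 395) (nat_lit 3467) (.f (nat_lit 397) (nat_lit 492) (nat_lit 6508) (.d (nat_lit 494) (nat_lit 461) (nat_lit 4461) (nat_lit 526) (nat_lit 7565)))))))))) (.p (nat_lit 397) (.a (.f (nat_lit 460) (nat_lit 459) (nat_lit 1451) (.f (nat_lit 365) (nat_lit 333) (nat_lit 4429) (.d (nat_lit 492) (nat_lit 461) (nat_lit 5484) (nat_lit 524) (nat_lit 6540)))) (.a (.f (nat_lit 460) (nat_lit 459) (nat_lit 1451) (.f (nat_lit 365) (nat_lit 333) (nat_lit 4429) (.d (nat_lit 492) (nat_lit 396) (nat_lit 6508) (nat_lit 524) (nat_lit 6540)))) (.a (.f (nat_lit 365) (nat_lit 333) (nat_lit 4429) (.d (nat_lit 494) (nat_lit 461) (nat_lit 4461) (nat_lit 526) (nat_lit 7565))) (.f (nat_lit 459) (nat_lit 460) (nat_lit 1451) (.f (nat_lit 427) (nat_lit 458) (nat_lit 1450) (.f (nat_lit 426) (nat_lit 461) (nat_lit 426) (.f (nat_lit 425) (nat_lit 396) (nat_lit 2441) (.d (nat_lit 393) (nat_lit 392) (nat_lit 3464) (nat_lit 394) (nat_lit 3465)))))))))))))))) (.f (nat_lit 494) (nat_lit 398) (nat_lit 4494) (.f (nat_lit 526) (nat_lit 399) (nat_lit 6542) (.f (nat_lit 558) (nat_lit 461) (nat_lit 7597) (.d (nat_lit 529) (nat_lit 530) (nat_lit 3566) (nat_lit 557) (nat_lit 1549)))))))))) (.a s130177 (.a (.p (nat_lit 494) (.a (.f (nat_lit 398) (nat_lit 462) (nat_lit 4494) (.f (nat_lit 493) (nat_lit 492) (nat_lit 492) (.f (nat_lit 461) (nat_lit 525) (nat_lit 6541) (.d (nat_lit 366) (nat_lit 334) (nat_lit 5453) (nat_lit 397) (nat_lit 6509))))) (.a (.f (nat_lit 493) (nat_lit 492) (nat_lit 492) (.d (nat_lit 529) (nat_lit 526) (nat_lit 3565) (nat_lit 530) (nat_lit 3566))) (.f (nat_lit 462) (nat_lit 398) (nat_lit 4494) (.f (nat_lit 526) (nat_lit 397) (nat_lit 7565) (.f (nat_lit 558) (nat_lit 461) (nat_lit 7597) (.d (nat_lit 529) (nat_lit 530) (nat_lit 3566) (nat_lit 557) (nat_lit 1549)))))))) (.a (.p (nat_lit 461) (.a (.p (nat_lit 428) (.a (.f (nat_lit 460) (nat_lit 459) (nat_lit 1451) (.f (nat_lit 396) (nat_lit 395) (nat_lit 3467) (.d (nat_lit 364) (nat_lit 332) (nat_lit 4428) (nat_lit 493) (nat_lit 4460)))) (.a (.f (nat_lit 460) (nat_lit 459) (nat_lit 1451) (.f (nat_lit 399) (nat_lit 400) (nat_lit 2444) (.f (nat_lit 427) (nat_lit 398) (nat_lit 2443) (.d (nat_lit 426) (nat_lit 425) (nat_lit 425) (nat_lit 462) (nat_lit 426))))) (.f (nat_lit 396) (nat_lit 395) (nat_lit 3467) (.f (nat_lit 493) (nat_lit 525) (nat_lit 7564) (.d (nat_lit 364) (nat_lit 332) (nat_lit 4428) (nat_lit 397) (nat_lit 7532))))))) (.a (.p (nat_lit 428) (.a (.f (nat_lit 396) (nat_lit 395) (nat_lit 3467) (.f (nat_lit 493) (nat_lit 525) (nat_lit 7564) (.d (nat_lit 364) (nat_lit 332) (nat_lit 4428) (nat_lit 397) (nat_lit 7532)))) (.a (.f (nat_lit 399) (nat_lit 400) (nat_lit 2444) (.f (nat_lit 427) (nat_lit 398) (nat_lit 2443) (.d (nat_lit 395) (nat_lit 394) (nat_lit 3466) (nat_lit 396) (nat_lit 3467)))) (.f (nat_lit 399) (nat_lit 400) (nat_lit 2444) (.f (nat_lit 398) (nat_lit 427) (nat_lit 2443) (.f (nat_lit 493) (nat_lit 525) (nat_lit 6541) (.d (nat_lit 366) (nat_lit 334) (nat_lit 5453) (nat_lit 397) (nat_lit 6509)))))))) (.a s129372 (.a (.p (nat_lit 428) (.a (.f (nat_lit 460) (nat_lit 459) (nat_lit 1451) (.f (nat_lit 396) (nat_lit 395) (nat_lit 3467) (.d (nat_lit 364) (nat_lit 332) (nat_lit 4428) (nat_lit 493) (nat_lit 4460)))) (.a (.f (nat_lit 459) (nat_lit 460) (nat_lit 1451) (.f (nat_lit 427) (nat_lit 458) (nat_lit 1450) (.f (nat_lit 426) (nat_lit 462) (nat_lit 426) (.d (nat_lit 394) (nat_lit 393) (nat_lit 3465) (nat_lit 395) (nat_lit 3466))))) (.a (.f (nat_lit 396) (nat_lit 395) (nat_lit 3467) (.f (nat_lit 493) (nat_lit 525) (nat_lit 7564) (.d (nat_lit 364) (nat_lit 332) (nat_lit 4428) (nat_lit 397) (nat_lit 7532)))) (.f (nat_lit 459) (nat_lit 460) (nat_lit 1451) (.f (nat_lit 427) (nat_lit 458) (nat_lit 1450) (.f (nat_lit 426) (nat_lit 462) (nat_lit 426) (.f (nat_lit 397) (nat_lit 398) (nat_lit 2442) (.f (nat_lit 425) (nat_lit 396) (nat_lit 2441) (.d (nat_lit 393) (nat_lit 392) (nat_lit 3464) (nat_lit 394) (nat_lit 3465))))))))))) (.a (.p (nat_lit 493) (.a (.p (nat_lit 525) (.a (.f (nat_lit 557) (nat_lit 462) (nat_lit 6573) (.d (nat_lit 556) (nat_lit 524) (nat_lit 5548) (nat_lit 588) (nat_lit 5580))) (.a (.f (nat_lit 428) (nat_lit 396) (nat_lit 7564) (.d (nat_lit 460) (nat_lit 459) (nat_lit 1451) (nat_lit 557) (nat_lit 7596))) (.f (nat_lit 428) (nat_lit 396) (nat_lit 7564) (.f (nat_lit 459) (nat_lit 460) (nat_lit 1451) (.f (nat_lit 427) (nat_lit 458) (nat_lit 1450) (.f (nat_lit 426) (nat_lit 462) (nat_lit 426) (.d (nat_lit 394) (nat_lit 393) (nat_lit 3465) (nat_lit 395) (nat_lit 3466))))))))) (.a (.p (nat_lit 525) (.a (.f (nat_lit 428) (nat_lit 396) (nat_lit 7564) (.d (nat_lit 460) (nat_lit 459) (nat_lit 1451) (nat_lit 557) (nat_lit 7596))) (.a (.f (nat_lit 526) (nat_lit 558) (nat_lit 4525) (.d (nat_lit 556) (nat_lit 524) (nat_lit 5548) (nat_lit 557) (nat_lit 1548))) (.f (nat_lit 526) (nat_lit 558) (nat_lit 4525) (.d (nat_lit 494) (nat_lit 397) (nat_lit 4493) (nat_lit 529) (nat_lit 3565)))))) (.a (.p (nat_lit 397) (.a (.f (nat_lit 396) (nat_lit 364) (nat_lit 7532) (.d (nat_lit 395) (nat_lit 394) (nat_lit 394) (nat_lit 428) (nat_lit 3467))) (.a (.f (nat_lit 494) (nat_lit 526) (nat_lit 4493) (.f (nat_lit 365) (nat_lit 462) (nat_lit 4461) (.d (nat_lit 364) (nat_lit 332) (nat_lit 7500) (nat_lit 396) (nat_lit 7532)))) (.a (.f (nat_lit 494) (nat_lit 526) (nat_lit 4493) (.f (nat_lit 365) (nat_lit 462) (nat_lit 4461) (.f (nat_lit 332) (nat_lit 364) (nat_lit 7500) (.f (nat_lit 333) (nat_lit 300) (nat_lit 7468) (.d (nat_lit 334) (nat_lit 302) (nat_lit 6445) (nat_lit 366) (nat_lit 6477)))))) (.f (nat_lit 494) (nat_lit 526) (nat_lit 4493) (.f (nat_lit 365) (nat_lit 462) (nat_lit 4461) (.f (nat_lit 334) (nat_lit 366) (nat_lit 6477) (.f (nat_lit 333) (nat_lit 302) (nat_lit 6445) (.f (nat_lit 428) (nat_lit 460) (nat_lit 5452) (.d (nat_lit 396) (nat_lit 301) (nat_lit 5420) (nat_lit 395) (nat_lit 3467))))))))))) (.p (nat_lit 525) (.a (.f (nat_lit 557) (nat_lit 462) (nat_lit 6573) (.d (nat_lit 556) (nat_lit 524) (nat_lit 5548) (nat_lit 588) (nat_lit 5580))) (.a (.f (nat_lit 526) (nat_lit 558) (nat_lit 4525) (.d (nat_lit 556) (nat_lit 524) (nat_lit 5548) (nat_lit 557) (nat_lit 1548))) (.f (nat_lit 526) (nat_lit 558) (nat_lit 4525) (.d (nat_lit 494) (nat_lit 397) (nat_lit 4493) (nat_lit 529) (nat_lit 3565)))))))))) (.p (nat_lit 494) (.a (.f (nat_lit 462) (nat_lit 398) (nat_lit 4494) (.d (nat_lit 526) (nat_lit 397) (nat_lit 7565) (nat_lit 399) (nat_lit 6542))) (.a (.f (nat_lit 398) (nat_lit 462) (nat_lit 4494) (.f (nat_lit 366) (nat_lit 334) (nat_lit 5453) (.d (nat_lit 493) (nat_lit 397) (nat_lit 6509) (nat_lit 525) (nat_lit 6541)))) (.a (.f (nat_lit 529) (nat_lit 530) (nat_lit 3566) (.f (nat_lit 493) (nat_lit 526) (nat_lit 3565) (.f (nat_lit 398) (nat_lit 525) (nat_lit 6541) (.d (nat_lit 366) (nat_lit 334) (nat_lit 5453) (nat_lit 397) (nat_lit 6509))))) (.f (nat_lit 529) (nat_lit 530) (nat_lit 3566) (.f (nat_lit 526) (nat_lit 493) (nat_lit 3565) (.d (nat_lit 558) (nat_lit 462) (nat_lit 7597) (nat_lit 557) (nat_lit 1549)))))))))))))) (.a s129468 s129385)))))))))) (.a (.p (nat_lit 429) (.a s129052 (.a s129198 (.a s129527 (.a s129129 (.a s129426 (.a s130177 (.a (.p (nat_lit 433) (.a (.p (nat_lit 494) (.a (.f (nat_lit 462) (nat_lit 398) (nat_lit 4494) (.d (nat_lit 526) (nat_lit 397) (nat_lit 7565) (nat_lit 399) (nat_lit 6542))) (.a (.f (nat_lit 398) (nat_lit 462) (nat_lit 4494) (.f (nat_lit 432) (nat_lit 397) (nat_lit 3469) (.d (nat_lit 465) (nat_lit 464) (nat_lit 429) (nat_lit 466) (nat_lit 430)))) (.f (nat_lit 529) (nat_lit 530) (nat_lit 3566) (.d (nat_lit 493) (nat_lit 492) (nat_lit 492) (nat_lit 526) (nat_lit 3565)))))) (.a (.p (nat_lit 432) (.a (.d (nat_lit 465) (nat_lit 464) (nat_lit 429) (nat_lit 466) (nat_lit 430)) (.d (nat_lit 401) (nat_lit 400) (nat_lit 2445) (nat_lit 402) (nat_lit 2446)))) (.a (.p (nat_lit 494) (.a (.f (nat_lit 462) (nat_lit 398) (nat_lit 4494) (.d (nat_lit 526) (nat_lit 397) (nat_lit 7565) (nat_lit 399) (nat_lit 6542))) (.a (.f (nat_lit 398) (nat_lit 462) (nat_lit 4494) (.f (nat_lit 432) (nat_lit 397) (nat_lit 3469) (.d (nat_lit 401) (nat_lit 400) (nat_lit 2445) (nat_lit 402) (nat_lit 2446)))) (.f (nat_lit 529) (nat_lit 530) (nat_lit 3566) (.d (nat_lit 493) (nat_lit 492) (nat_lit 492) (nat_lit 526) (nat_lit 3565)))))) (.p (nat_lit 529) (.a (.f (nat_lit 494) (nat_lit 530) (nat_lit 3566) (.d (nat_lit 493) (nat_lit 492) (nat_lit 492) (nat_lit 526) (nat_lit 3565))) (.a (.p (nat_lit 498) (.a (.f (nat_lit 497) (nat_lit 526) (nat_lit 2542) (.d (nat_lit 499) (nat_lit 500) (nat_lit 1520) (nat_lit 530) (nat_lit 2543))) (.a (.f (nat_lit 530) (nat_lit 499) (nat_lit 2543) (.f (nat_lit 562) (nat_lit 563) (nat_lit 527) (.d (nat_lit 465) (nat_lit 466) (nat_lit 7601) (nat_lit 497) (nat_lit 4529)))) (.a (.f (nat_lit 497) (nat_lit 526) (nat_lit 2542) (.f (nat_lit 465) (nat_lit 560) (nat_lit 5552) (.f (nat_lit 402) (nat_lit 434) (nat_lit 6545) (.f (nat_lit 401) (nat_lit 370) (nat_lit 6513) (.d (nat_lit 400) (nat_lit 368) (nat_lit 7536) (nat_lit 399) (nat_lit 1422)))))) (.f (nat_lit 530) (nat_lit 499) (nat_lit 2543) (.f (nat_lit 562) (nat_lit 563) (nat_lit 527) (.f (nat_lit 466) (nat_lit 465) (nat_lit 7601) (.f (nat_lit 434) (nat_lit 401) (nat_lit 7569) (.d (nat_lit 435) (nat_lit 403) (nat_lit 6546) (nat_lit 467) (nat_lit 6578)))))))))) (.a (.f (nat_lit 530) (nat_lit 494) (nat_lit 3566) (.f (nat_lit 562) (nat_lit 563) (nat_lit 527) (.f (nat_lit 498) (nat_lit 499) (nat_lit 2543) (.d (nat_lit 465) (nat_lit 466) (nat_lit 7601) (nat_lit 497) (nat_lit 4529))))) (.p (nat_lit 526) (.a (.f (nat_lit 497) (nat_lit 498) (nat_lit 2542) (.f (nat_lit 465) (nat_lit 560) (nat_lit 5552) (.f (nat_lit 402) (nat_lit 434) (nat_lit 6545) (.f (nat_lit 401) (nat_lit 370) (nat_lit 6513) (.d (nat_lit 400) (nat_lit 368) (nat_lit 7536) (nat_lit 399) (nat_lit 1422)))))) (.f (nat_lit 494) (nat_lit 493) (nat_lit 3565) (.d (nat_lit 462) (nat_lit 397) (nat_lit 7565) (nat_lit 398) (nat_lit 4494))))))))))))) (.a s129559 s129337))))))))) (.a (.p (nat_lit 429) (.a s129028 (.a s129198 (.a s129402 (.a s129100 (.a s129426 (.a (.p (nat_lit 493) (.a (.f (nat_lit 494) (nat_lit 492) (nat_lit 492) (.d (nat_lit 529) (nat_lit 526) (nat_lit 3565) (nat_lit 530) (nat_lit 3566))) (.p (nat_lit 428) (.a (.f (nat_lit 396) (nat_lit 395) (nat_lit 3467) (.f (nat_lit 461) (nat_lit 525) (nat_lit 7564) (.d (nat_lit 364) (nat_lit 332) (nat_lit 4428) (nat_lit 397) (nat_lit 7532)))) (.f (nat_lit 399) (nat_lit 400) (nat_lit 2444) (.f (nat_lit 427) (nat_lit 398) (nat_lit 2443) (.d (nat_lit 459) (nat_lit 458) (nat_lit 1450) (nat_lit 460) (nat_lit 1451)))))))) (.a (.p (nat_lit 461) (.a (.f (nat_lit 432) (nat_lit 460) (nat_lit 1452) (.f (nat_lit 397) (nat_lit 396) (nat_lit 3468) (.f (nat_lit 398) (nat_lit 433) (nat_lit 3469) (.d (nat_lit 366) (nat_lit 334) (nat_lit 5453) (nat_lit 493) (nat_lit 6509))))) (.a (.f (nat_lit 432) (nat_lit 460) (nat_lit 1452) (.f (nat_lit 397) (nat_lit 396) (nat_lit 3468) (.f (nat_lit 433) (nat_lit 398) (nat_lit 3469) (.d (nat_lit 401) (nat_lit 400) (nat_lit 2445) (nat_lit 402) (nat_lit 2446))))) (.a (.p (nat_lit 493) (.a (.f (nat_lit 525) (nat_lit 398) (nat_lit 6541) (.d (nat_lit 492) (nat_lit 494) (nat_lit 492) (nat_lit 526) (nat_lit 3564))) (.a (.f (nat_lit 525) (nat_lit 398) (nat_lit 6541) (.d (nat_lit 526) (nat_lit 492) (nat_lit 3564) (nat_lit 558) (nat_lit 4525))) (.a (.f (nat_lit 492) (nat_lit 494) (nat_lit 492) (.f (nat_lit 397) (nat_lit 524) (nat_lit 5516) (.d (nat_lit 396) (nat_lit 364) (nat_lit 7532) (nat_lit 432) (nat_lit 3468)))) (.f (nat_lit 525) (nat_lit 398) (nat_lit 6541) (.f (nat_lit 526) (nat_lit 558) (nat_lit 4525) (.d (nat_lit 556) (nat_lit 524) (nat_lit 5548) (nat_lit 557) (nat_lit 1548)))))))) (.a s129647 (.f (nat_lit 432) (nat_lit 460) (nat_lit 1452) (.f (nat_lit 400) (nat_lit 401) (nat_lit 2445) (.f (nat_lit 465) (nat_lit 464) (nat_lit 429) (.f (nat_lit 433) (nat_lit 466) (nat_lit 430) (.f (nat_lit 529) (nat_lit 497) (nat_lit 7568) (.f (nat_lit 530) (nat_lit 494) (nat_lit 3566) (.f (nat_lit 499) (nat_lit 498) (nat_lit 2543) (.f (nat_lit 531) (nat_lit 500) (nat_lit 2544) (.d (nat_lit 563) (nat_lit 562) (nat_lit 527) (nat_lit 564) (nat_lit 528))))))))))))))) (.a s129544 s129316))))))))) (.a (.p (nat_lit 462) (.a (.f (nat_lit 494) (nat_lit 398) (nat_lit 4494) (.f (nat_lit 526) (nat_lit 399) (nat_lit 6542) (.d (nat_lit 529) (nat_lit 493) (nat_lit 3565) (nat_lit 530) (nat_lit 3566)))) (.a (.p (nat_lit 432) (.a (.f (nat_lit 433) (nat_lit 461) (nat_lit 1453) (.f (nat_lit 465) (nat_lit 466) (nat_lit 430) (.f (nat_lit 401) (nat_lit 402) (nat_lit 2446) (.d (nat_lit 429) (nat_lit 400) (nat_lit 2445) (nat_lit 464) (nat_lit 429))))) (.a s130298 (.a (.f (nat_lit 433) (nat_lit 461) (nat_lit 1453) (.f (nat_lit 402) (nat_lit 401) (nat_lit 2446) (.f (nat_lit 434) (nat_lit 403) (nat_lit 2447) (.d (nat_lit 466) (nat_lit 465) (nat_lit 430) (nat_lit 467) (nat_lit 431))))) (.a (.f (nat_lit 433) (nat_lit 461) (nat_lit 1453) (.f (nat_lit 398) (nat_lit 397) (nat_lit 3469) (.f (nat_lit 399) (nat_lit 434) (nat_lit 3470) (.f (nat_lit 401) (nat_lit 402) (nat_lit 2446) (.f (nat_lit 400) (nat_lit 429) (nat_lit 2445) (.f (nat_lit 369) (nat_lit 370) (nat_lit 2414) (.d (nat_lit 337) (nat_lit 305) (nat_lit 5424) (nat_lit 464) (nat_lit 5456)))))))) (.a (.p (nat_lit 429) (.a (.f (nat_lit 400) (nat_lit 401) (nat_lit 2445) (.f (nat_lit 428) (nat_lit 399) (nat_lit 2444) (.d (nat_lit 396) (nat_lit 395) (nat_lit 3467) (nat_lit 397) (nat_lit 3468)))) (.a (.f (nat_lit 460) (nat_lit 461) (nat_lit 1452) (.f (nat_lit 428) (nat_lit 459) (nat_lit 1451) (.d (nat_lit 396) (nat_lit 395) (nat_lit 3467) (nat_lit 397) (nat_lit 3468)))) (.a (.f (nat_lit 461) (nat_lit 460) (nat_lit 1452) (.f (nat_lit 397) (nat_lit 396) (nat_lit 3468) (.f (nat_lit 365) (nat_lit 333) (nat_lit 4429) (.f (nat_lit 366) (nat_lit 334) (nat_lit 6477) (.f (nat_lit 398) (nat_lit 493) (nat_lit 5485) (.f (nat_lit 364) (nat_lit 332) (nat_lit 7500) (.d (nat_lit 400) (nat_lit 399) (nat_lit 3436) (nat_lit 401) (nat_lit 2445)))))))) (.a (.f (nat_lit 400) (nat_lit 401) (nat_lit 2445) (.f (nat_lit 428) (nat_lit 399) (nat_lit 2444) (.f (nat_lit 395) (nat_lit 396) (nat_lit 3467) (.f (nat_lit 427) (nat_lit 394) (nat_lit 3466) (.d (nat_lit 459) (nat_lit 458) (nat_lit 1450) (nat_lit 460) (nat_lit 1451)))))) (.f (nat_lit 460) (nat_lit 461) (nat_lit 1452) (.f (nat_lit 428) (nat_lit 459) (nat_lit 1451) (.d (nat_lit 400) (nat_lit 399) (nat_lit 2444) (nat_lit 401) (nat_lit 2445))))))))) (.f (nat_lit 433) (nat_lit 461) (nat_lit 1453) (.f (nat_lit 465) (nat_lit 466) (nat_lit 430) (.f (nat_lit 398) (nat_lit 397) (nat_lit 3469) (.f (nat_lit 434) (nat_lit 399) (nat_lit 3470) (.f (nat_lit 464) (nat_lit 429) (nat_lit 429) (.f (nat_lit 435) (nat_lit 436) (nat_lit 1456) (.d (nat_lit 403) (nat_lit 402) (nat_lit 2447) (nat_lit 404) (nat_lit 2448)))))))))))))) (.a (.f (nat_lit 494) (nat_lit 398) (nat_lit 4494) (.f (nat_lit 526) (nat_lit 399) (nat_lit 6542) (.f (nat_lit 557) (nat_lit 525) (nat_lit 5549) (.d (nat_lit 529) (nat_lit 530) (nat_lit 3566) (nat_lit 558) (nat_lit 1549))))) (.a (.f (nat_lit 494) (nat_lit 398) (nat_lit 4494) (.f (nat_lit 529) (nat_lit 530) (nat_lit 3566) (.f (nat_lit 526) (nat_lit 493) (nat_lit 3565) (.d (nat_lit 557) (nat_lit 525) (nat_lit 5549) (nat_lit 558) (nat_lit 1549))))) s130360))))) (.a (.p (nat_lit 462) (.a (.f (nat_lit 494) (nat_lit 398) (nat_lit 4494) (.f (nat_lit 526) (nat_lit 399) (nat_lit 6542) (.f (nat_lit 557) (nat_lit 525) (nat_lit 5549) (.d (nat_lit 529) (nat_lit 530) (nat_lit 3566) (nat_lit 558) (nat_lit 1549))))) (.a (.p (nat_lit 432) (.a (.f (nat_lit 433) (nat_lit 461) (nat_lit 1453) (.f (nat_lit 465) (nat_lit 466) (nat_lit 430) (.f (nat_lit 401) (nat_lit 402) (nat_lit 2446) (.d (nat_lit 429) (nat_lit 400) (nat_lit 2445) (nat_lit 464) (nat_lit 429))))) (.a s130298 (.a (.f (nat_lit 433) (nat_lit 461) (nat_lit 1453) (.f (nat_lit 402) (nat_lit 401) (nat_lit 2446) (.f (nat_lit 434) (nat_lit 403) (nat_lit 2447) (.d (nat_lit 466) (nat_lit 465) (nat_lit 430) (nat_lit 467) (nat_lit 431))))) (.a (.f (nat_lit 433) (nat_lit 461) (nat_lit 1453) (.f (nat_lit 398) (nat_lit 397) (nat_lit 3469) (.f (nat_lit 399) (nat_lit 434) (nat_lit 3470) (.f (nat_lit 401) (nat_lit 402) (nat_lit 2446) (.f (nat_lit 400) (nat_lit 429) (nat_lit 2445) (.f (nat_lit 369) (nat_lit 370) (nat_lit 2414) (.d (nat_lit 337) (nat_lit 305) (nat_lit 5424) (nat_lit 464) (nat_lit 5456)))))))) (.a (.p (nat_lit 429) (.a (.f (nat_lit 400) (nat_lit 401) (nat_lit 2445) (.f (nat_lit 428) (nat_lit 399) (nat_lit 2444) (.d (nat_lit 396) (nat_lit 395) (nat_lit 3467) (nat_lit 397) (nat_lit 3468)))) (.a (.f (nat_lit 460) (nat_lit 461) (nat_lit 1452) (.f (nat_lit 428) (nat_lit 459) (nat_lit 1451) (.d (nat_lit 396) (nat_lit 395) (nat_lit 3467) (nat_lit 397) (nat_lit 3468)))) (.a (.f (nat_lit 397) (nat_lit 396) (nat_lit 3468) (.f (nat_lit 461) (nat_lit 460) (nat_lit 1452) (.f (nat_lit 365) (nat_lit 333) (nat_lit 4429) (.f (nat_lit 366) (nat_lit 334) (nat_lit 6477) (.f (nat_lit 364) (nat_lit 332) (nat_lit 7500) (.f (nat_lit 400) (nat_lit 401) (nat_lit 2445) (.d (nat_lit 399) (nat_lit 367) (nat_lit 364) (nat_lit 398) (nat_lit 3436)))))))) (.a (.f (nat_lit 400) (nat_lit 401) (nat_lit 2445) (.f (nat_lit 428) (nat_lit 399) (nat_lit 2444) (.f (nat_lit 395) (nat_lit 396) (nat_lit 3467) (.f (nat_lit 427) (nat_lit 394) (nat_lit 3466) (.d (nat_lit 459) (nat_lit 458) (nat_lit 1450) (nat_lit 460) (nat_lit 1451)))))) (.f (nat_lit 460) (nat_lit 461) (nat_lit 1452) (.f (nat_lit 428) (nat_lit 459) (nat_lit 1451) (.d (nat_lit 400) (nat_lit 399) (nat_lit 2444) (nat_lit 401) (nat_lit 2445))))))))) (.f (nat_lit 433) (nat_lit 461) (nat_lit 1453) (.f (nat_lit 465) (nat_lit 466) (nat_lit 430) (.f (nat_lit 398) (nat_lit 397) (nat_lit 3469) (.f (nat_lit 434) (nat_lit 399) (nat_lit 3470) (.f (nat_lit 464) (nat_lit 429) (nat_lit 429) (.f (nat_lit 435) (nat_lit 436) (nat_lit 1456) (.d (nat_lit 403) (nat_lit 402) (nat_lit 2447) (nat_lit 404) (nat_lit 2448)))))))))))))) (.a (.p (nat_lit 429) (.a (.f (nat_lit 494) (nat_lit 398) (nat_lit 4494) (.f (nat_lit 526) (nat_lit 397) (nat_lit 7565) (.f (nat_lit 558) (nat_lit 461) (nat_lit 7597) (.d (nat_lit 529) (nat_lit 530) (nat_lit 3566) (nat_lit 557) (nat_lit 1549))))) (.a (.p (nat_lit 460) (.a (.d (nat_lit 459) (nat_lit 428) (nat_lit 1451) (nat_lit 461) (nat_lit 2475)) (.a (.f (nat_lit 428) (nat_lit 459) (nat_lit 1451) (.f (nat_lit 396) (nat_lit 395) (nat_lit 3467) (.f (nat_lit 432) (nat_lit 397) (nat_lit 3468) (.f (nat_lit 401) (nat_lit 400) (nat_lit 2445) (.f (nat_lit 433) (nat_lit 402) (nat_lit 2446) (.d (nat_lit 465) (nat_lit 464) (nat_lit 429) (nat_lit 466) (nat_lit 430))))))) (.a (.d (nat_lit 461) (nat_lit 432) (nat_lit 1452) (nat_lit 459) (nat_lit 2475)) (.f (nat_lit 432) (nat_lit 461) (nat_lit 1452) (.f (nat_lit 397) (nat_lit 396) (nat_lit 3468) (.f (nat_lit 433) (nat_lit 398) (nat_lit 3469) (.d (nat_lit 401) (nat_lit 400) (nat_lit 2445) (nat_lit 402) (nat_lit 2446))))))))) (.a (.f (nat_lit 494) (nat_lit 398) (nat_lit 4494) (.f (nat_lit 526) (nat_lit 397) (nat_lit 7565) (.f (nat_lit 557) (nat_lit 525) (nat_lit 5549) (.d (nat_lit 529) (nat_lit 530) (nat_lit 3566) (nat_lit 558) (nat_lit 1549))))) (.a (.p (nat_lit 460) (.a (.d (nat_lit 459) (nat_lit 428) (nat_lit 1451) (nat_lit 461) (nat_lit 2475)) (.a (.f (nat_lit 428) (nat_lit 459) (nat_lit 1451) (.f (nat_lit 396) (nat_lit 395) (nat_lit 3467) (.f (nat_lit 432) (nat_lit 397) (nat_lit 3468) (.f (nat_lit 401) (nat_lit 400) (nat_lit 2445) (.f (nat_lit 433) (nat_lit 402) (nat_lit 2446) (.d (nat_lit 465) (nat_lit 464) (nat_lit 429) (nat_lit 466) (nat_lit 430))))))) (.a (.d (nat_lit 461) (nat_lit 432) (nat_lit 1452) (nat_lit 459) (nat_lit 2475)) (.f (nat_lit 432) (nat_lit 461) (nat_lit 1452) (.f (nat_lit 401) (nat_lit 400) (nat_lit 2445) (.f (nat_lit 433) (nat_lit 402) (nat_lit 2446) (.d (nat_lit 465) (nat_lit 464) (nat_lit 429) (nat_lit 466) (nat_lit 430))))))))) (.p (nat_lit 428) (.a (.f (nat_lit 459) (nat_lit 460) (nat_lit 1451) (.f (nat_lit 427) (nat_lit 458) (nat_lit 1450) (.d (nat_lit 395) (nat_lit 394) (nat_lit 3466) (nat_lit 396) (nat_lit 3467)))) (.a (.f (nat_lit 395) (nat_lit 396) (nat_lit 3467) (.f (nat_lit 427) (nat_lit 394) (nat_lit 3466) (.f (nat_lit 458) (nat_lit 459) (nat_lit 1450) (.d (nat_lit 426) (nat_lit 457) (nat_lit 1449) (nat_lit 461) (nat_lit 426))))) (.a (.f (nat_lit 459) (nat_lit 460) (nat_lit 1451) (.f (nat_lit 427) (nat_lit 458) (nat_lit 1450) (.f (nat_lit 426) (nat_lit 461) (nat_lit 426) (.d (nat_lit 394) (nat_lit 393) (nat_lit 3465) (nat_lit 395) (nat_lit 3466))))) (.a (.f (nat_lit 395) (nat_lit 396) (nat_lit 3467) (.f (nat_lit 427) (nat_lit 394) (nat_lit 3466) (.f (nat_lit 461) (nat_lit 426) (nat_lit 426) (.d (nat_lit 432) (nat_lit 433) (nat_lit 1453) (nat_lit 460) (nat_lit 1452))))) (.f (nat_lit 460) (nat_lit 459) (nat_lit 1451) (.f (nat_lit 432) (nat_lit 461) (nat_lit 1452) (.f (nat_lit 465) (nat_lit 464) (nat_lit 429) (.f (nat_lit 433) (nat_lit 466) (nat_lit 430) (.d (nat_lit 401) (nat_lit 400) (nat_lit 2445) (nat_lit 402) (nat_lit 2446)))))))))))))))) s130360)))) (.a (.p (nat_lit 429) (.a s129028 (.a s129198 (.a (.p (nat_lit 460) (.a (.f (nat_lit 428) (nat_lit 459) (nat_lit 1451) (.f (nat_lit 396) (nat_lit 395) (nat_lit 3467) (.f (nat_lit 397) (nat_lit 432) (nat_lit 3468) (.d (nat_lit 365) (nat_lit 333) (nat_lit 5452) (nat_lit 492) (nat_lit 6508))))) (.a (.f (nat_lit 432) (nat_lit 461) (nat_lit 1452) (.f (nat_lit 397) (nat_lit 396) (nat_lit 3468) (.f (nat_lit 433) (nat_lit 398) (nat_lit 3469) (.d (nat_lit 401) (nat_lit 400) (nat_lit 2445) (nat_lit 402) (nat_lit 2446))))) (.f (nat_lit 459) (nat_lit 428) (nat_lit 1451) (.d (nat_lit 461) (nat_lit 458) (nat_lit 2474) (nat_lit 462) (nat_lit 2475)))))) (.a s129056 (.a s130410 (.a s130051 (.a s129092 (.a (.p (nat_lit 461) (.a (.f (nat_lit 432) (nat_lit 460) (nat_lit 1452) (.f (nat_lit 397) (nat_lit 396) (nat_lit 3468) (.d (nat_lit 433) (nat_lit 398) (nat_lit 3469) (nat_lit 462) (nat_lit 1453)))) (.a (.f (nat_lit 432) (nat_lit 460) (nat_lit 1452) (.f (nat_lit 397) (nat_lit 396) (nat_lit 3468) (.f (nat_lit 398) (nat_lit 433) (nat_lit 3469) (.d (nat_lit 366) (nat_lit 334) (nat_lit 5453) (nat_lit 493) (nat_lit 6509))))) (.a s129624 (.a s129631 (.f (nat_lit 432) (nat_lit 460) (nat_lit 1452) (.f (nat_lit 433) (nat_lit 462) (nat_lit 1453) (.d (nat_lit 465) (nat_lit 464) (nat_lit 429) (nat_lit 466) (nat_lit 430))))))))) (.a s129093 (.a s129295 s129216))))))))))) (.a (.p (nat_lit 429) (.a s129023 (.a s129028 (.a s129052 (.a (.p (nat_lit 460) (.a (.f (nat_lit 428) (nat_lit 459) (nat_lit 1451) (.f (nat_lit 396) (nat_lit 395) (nat_lit 3467) (.f (nat_lit 397) (nat_lit 432) (nat_lit 3468) (.d (nat_lit 365) (nat_lit 333) (nat_lit 5452) (nat_lit 492) (nat_lit 6508))))) (.a (.f (nat_lit 432) (nat_lit 461) (nat_lit 1452) (.f (nat_lit 397) (nat_lit 396) (nat_lit 3468) (.f (nat_lit 433) (nat_lit 398) (nat_lit 3469) (.d (nat_lit 401) (nat_lit 400) (nat_lit 2445) (nat_lit 402) (nat_lit 2446))))) (.f (nat_lit 459) (nat_lit 428) (nat_lit 1451) (.d (nat_lit 461) (nat_lit 458) (nat_lit 2474) (nat_lit 462) (nat_lit 2475)))))) (.a s129056 (.a s129350 (.a (.p (nat_lit 493) (.a (.f (nat_lit 494) (nat_lit 492) (nat_lit 492) (.d (nat_lit 529) (nat_lit 526) (nat_lit 3565) (nat_lit 530) (nat_lit 3566))) (.a s129973 (.p (nat_lit 428) (.a (.f (nat_lit 399) (nat_lit 400) (nat_lit 2444) (.f (nat_lit 427) (nat_lit 398) (nat_lit 2443) (.d (nat_lit 459) (nat_lit 458) (nat_lit 1450) (nat_lit 460) (nat_lit 1451)))) (.a (.f (nat_lit 395) (nat_lit 396) (nat_lit 3467) (.f (nat_lit 427) (nat_lit 394) (nat_lit 3466) (.d (nat_lit 459) (nat_lit 458) (nat_lit 1450) (nat_lit 460) (nat_lit 1451)))) (.a (.f (nat_lit 399) (nat_lit 400) (nat_lit 2444) (.f (nat_lit 427) (nat_lit 398) (nat_lit 2443) (.d (nat_lit 395) (nat_lit 394) (nat_lit 3466) (nat_lit 396) (nat_lit 3467)))) (.f (nat_lit 396) (nat_lit 395) (nat_lit 3467) (.f (nat_lit 460) (nat_lit 459) (nat_lit 1451) (.f (nat_lit 364) (nat_lit 461) (nat_lit 4460) (.f (nat_lit 333) (nat_lit 365) (nat_lit 6476) (.f (nat_lit 332) (nat_lit 301) (nat_lit 6444) (.d (nat_lit 331) (nat_lit 299) (nat_lit 7467) (nat_lit 363) (nat_lit 7499)))))))))))))) (.a s129092 (.a (.p (nat_lit 461) (.a (.f (nat_lit 432) (nat_lit 460) (nat_lit 1452) (.f (nat_lit 397) (nat_lit 396) (nat_lit 3468) (.d (nat_lit 433) (nat_lit 398) (nat_lit 3469) (nat_lit 462) (nat_lit 1453)))) (.a (.f (nat_lit 432) (nat_lit 460) (nat_lit 1452) (.f (nat_lit 397) (nat_lit 396) (nat_lit 3468) (.f (nat_lit 398) (nat_lit 433) (nat_lit 3469) (.d (nat_lit 366) (nat_lit 334) (nat_lit 5453) (nat_lit 493) (nat_lit 6509))))) (.a (.p (nat_lit 462) (.a (.f (nat_lit 494) (nat_lit 398) (nat_lit 4494) (.d (nat_lit 526) (nat_lit 397) (nat_lit 7565) (nat_lit 399) (nat_lit 6542))) (.a (.f (nat_lit 432) (nat_lit 433) (nat_lit 1453) (.f (nat_lit 397) (nat_lit 396) (nat_lit 3468) (.f (nat_lit 365) (nat_lit 333) (nat_lit 4429) (.f (nat_lit 366) (nat_lit 334) (nat_lit 6477) (.f (nat_lit 398) (nat_lit 493) (nat_lit 5485) (.f (nat_lit 364) (nat_lit 332) (nat_lit 7500) (.d (nat_lit 400) (nat_lit 399) (nat_lit 3436) (nat_lit 401) (nat_lit 2445)))))))) (.a (.f (nat_lit 494) (nat_lit 398) (nat_lit 4494) (.d (nat_lit 397) (nat_lit 365) (nat_lit 4461) (nat_lit 526) (nat_lit 7565))) (.a (.f (nat_lit 432) (nat_lit 433) (nat_lit 1453) (.f (nat_lit 397) (nat_lit 396) (nat_lit 3468) (.d (nat_lit 365) (nat_lit 333) (nat_lit 4429) (nat_lit 494) (nat_lit 4461)))) (.f (nat_lit 494) (nat_lit 398) (nat_lit 4494) (.d (nat_lit 526) (nat_lit 399) (nat_lit 6542) (nat_lit 558) (nat_lit 7597)))))))) (.a (.p (nat_lit 494) (.a (.f (nat_lit 462) (nat_lit 398) (nat_lit 4494) (.d (nat_lit 526) (nat_lit 397) (nat_lit 7565) (nat_lit 399) (nat_lit 6542))) (.a (.f (nat_lit 398) (nat_lit 462) (nat_lit 4494) (.f (nat_lit 493) (nat_lit 492) (nat_lit 492) (.d (nat_lit 366) (nat_lit 334) (nat_lit 5453) (nat_lit 397) (nat_lit 6509)))) (.f (nat_lit 493) (nat_lit 492) (nat_lit 492) (.d (nat_lit 529) (nat_lit 526) (nat_lit 3565) (nat_lit 530) (nat_lit 3566)))))) (.a (.f (nat_lit 432) (nat_lit 460) (nat_lit 1452) (.f (nat_lit 462) (nat_lit 433) (nat_lit 1453) (.f (nat_lit 397) (nat_lit 396) (nat_lit 3468) (.d (nat_lit 365) (nat_lit 333) (nat_lit 4429) (nat_lit 494) (nat_lit 4461))))) (.f (nat_lit 432) (nat_lit 460) (nat_lit 1452) (.f (nat_lit 433) (nat_lit 462) (nat_lit 1453) (.d (nat_lit 465) (nat_lit 464) (nat_lit 429) (nat_lit 466) (nat_lit 430)))))))))) (.a s129516 s129274))))))))))) (.a (.p (nat_lit 429) (.a s129023 (.a s129028 (.a s129052 (.a (.p (nat_lit 460) (.a (.f (nat_lit 428) (nat_lit 459) (nat_lit 1451) (.f (nat_lit 396) (nat_lit 395) (nat_lit 3467) (.f (nat_lit 397) (nat_lit 432) (nat_lit 3468) (.d (nat_lit 365) (nat_lit 333) (nat_lit 5452) (nat_lit 492) (nat_lit 6508))))) (.a (.f (nat_lit 432) (nat_lit 461) (nat_lit 1452) (.f (nat_lit 397) (nat_lit 396) (nat_lit 3468) (.f (nat_lit 433) (nat_lit 398) (nat_lit 3469) (.d (nat_lit 401) (nat_lit 400) (nat_lit 2445) (nat_lit 402) (nat_lit 2446))))) (.f (nat_lit 459) (nat_lit 428) (nat_lit 1451) (.d (nat_lit 461) (nat_lit 458) (nat_lit 2474) (nat_lit 462) (nat_lit 2475)))))) (.a s129056 (.a (.p (nat_lit 428) (.a (.f (nat_lit 399) (nat_lit 400) (nat_lit 2444) (.f (nat_lit 398) (nat_lit 427) (nat_lit 2443) (.f (nat_lit 396) (nat_lit 395) (nat_lit 3467) (.f (nat_lit 397) (nat_lit 432) (nat_lit 396) (.f (nat_lit 364) (nat_lit 363) (nat_lit 3435) (.f (nat_lit 332) (nat_lit 300) (nat_lit 4396) (.f (nat_lit 333) (nat_lit 301) (nat_lit 6444) (.f (nat_lit 367) (nat_lit 368) (nat_lit 2412) (.f (nat_lit 331) (nat_lit 299) (nat_lit 7467) (.d (nat_lit 366) (nat_lit 334) (nat_lit 331) (nat_lit 365) (nat_lit 3403))))))))))) (.a (.f (nat_lit 396) (nat_lit 395) (nat_lit 3467) (.f (nat_lit 432) (nat_lit 397) (nat_lit 3468) (.f (nat_lit 401) (nat_lit 400) (nat_lit 2445) (.f (nat_lit 433) (nat_lit 402) (nat_lit 2446) (.d (nat_lit 465) (nat_lit 464) (nat_lit 429) (nat_lit 466) (nat_lit 430)))))) (.a (.f (nat_lit 399) (nat_lit 400) (nat_lit 2444) (.f (nat_lit 427) (nat_lit 398) (nat_lit 2443) (.d (nat_lit 395) (nat_lit 394) (nat_lit 3466) (nat_lit 396) (nat_lit 3467)))) (.a (.f (nat_lit 396) (nat_lit 395) (nat_lit 3467) (.f (nat_lit 432) (nat_lit 397) (nat_lit 3468) (.f (nat_lit 465) (nat_lit 464) (nat_lit 429) (.f (nat_lit 433) (nat_lit 466) (nat_lit 430) (.f (nat_lit 402) (nat_lit 401) (nat_lit 2446) (.f (nat_lit 434) (nat_lit 403) (nat_lit 2447) (.f (nat_lit 529) (nat_lit 497) (nat_lit 6545) (.f (nat_lit 530) (nat_lit 494) (nat_lit 3566) (.f (nat_lit 499) (nat_lit 498) (nat_lit 2543) (.f (nat_lit 531) (nat_lit 500) (nat_lit 2544) (.d (nat_lit 563) (nat_lit 562) (nat_lit 527) (nat_lit 564) (nat_lit 528)))))))))))) (.a (.f (nat_lit 399) (nat_lit 400) (nat_lit 2444) (.f (nat_lit 427) (nat_lit 398) (nat_lit 2443) (.f (nat_lit 458) (nat_lit 459) (nat_lit 1450) (.f (nat_lit 426) (nat_lit 457) (nat_lit 1449) (.d (nat_lit 394) (nat_lit 393) (nat_lit 3465) (nat_lit 395) (nat_lit 3466)))))) (.f (nat_lit 400) (nat_lit 399) (nat_lit 2444) (.f (nat_lit 432) (nat_lit 401) (nat_lit 2445) (.f (nat_lit 465) (nat_lit 464) (nat_lit 429) (.f (nat_lit 433) (nat_lit 466) (nat_lit 430) (.d (nat_lit 397) (nat_lit 396) (nat_lit 3468) (nat_lit 398) (nat_lit 3469)))))))))))) (.a s130060 (.a s129092 (.a s130453 (.a s129093 s129295))))))))))) (.p (nat_lit 429) (.a s129023 (.a s129028 (.a s129052 (.a (.p (nat_lit 460) (.a (.f (nat_lit 428) (nat_lit 459) (nat_lit 1451) (.f (nat_lit 396) (nat_lit 395) (nat_lit 3467) (.f (nat_lit 397) (nat_lit 432) (nat_lit 3468) (.d (nat_lit 365) (nat_lit 333) (nat_lit 5452) (nat_lit 492) (nat_lit 6508))))) (.a (.f (nat_lit 432) (nat_lit 461) (nat_lit 1452) (.f (nat_lit 397) (nat_lit 396) (nat_lit 3468) (.f (nat_lit 433) (nat_lit 398) (nat_lit 3469) (.d (nat_lit 401) (nat_lit 400) (nat_lit 2445) (nat_lit 402) (nat_lit 2446))))) (.f (nat_lit 459) (nat_lit 428) (nat_lit 1451) (.d (nat_lit 461) (nat_lit 458) (nat_lit 2474) (nat_lit 462) (nat_lit 2475)))))) (.a s129056 (.a s130410 (.a s130060 (.a s129092 (.a s130453 (.a s129093 s129127)))))))))))))))))))))))))))))))))))))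
noncomputable def s130474 : Cert := .r (nat_lit 1318041150847370521773279386861539675741594051134284702542582758834977146465354143145177530847101464940825396698129533622113673914983634879073131964810607460352) (.p (nat_lit 431) (.a (.f (nat_lit 463) (nat_lit 560) (nat_lit 4527) (.f (nat_lit 526) (nat_lit 558) (nat_lit 5550) (.f (nat_lit 494) (nat_lit 399) (nat_lit 5518) (.d (nat_lit 529) (nat_lit 493) (nat_lit 3565) (nat_lit 530) (nat_lit 3566))))) (.a (.p (nat_lit 529) (.a (.f (nat_lit 530) (nat_lit 494) (nat_lit 3566) (.f (nat_lit 498) (nat_lit 499) (nat_lit 2543) (.f (nat_lit 562) (nat_lit 563) (nat_lit 527) (.f (nat_lit 497) (nat_lit 526) (nat_lit 2542) (.d (nat_lit 465) (nat_lit 433) (nat_lit 4529) (nat_lit 594) (nat_lit 7633)))))) (.a (.f (nat_lit 463) (nat_lit 560) (nat_lit 4527) (.f (nat_lit 526) (nat_lit 558) (nat_lit 5550) (.f (nat_lit 498) (nat_lit 497) (nat_lit 2542) (.f (nat_lit 530) (nat_lit 499) (nat_lit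 2543) (.f (nat_lit 563) (nat_lit 562) (nat_lit 527) (.f (nat_lit 531) (nat_lit 564) (nat_lit 528) (.f (nat_lit 430) (nat_lit 398) (nat_lit 7566) (.f (nat_lit 432) (nat_lit 400) (nat_lit 6543) (.f (nat_lit 466) (nat_lit 434) (nat_lit 4530) (.d (nat_lit 465) (nat_lit 433) (nat_lit 430) (nat_lit 464) (nat_lit 3502))))))))))) (.a (.f (nat_lit 530) (nat_lit 494) (nat_lit 3566) (.f (nat_lit 499) (nat_lit 498) (nat_lit 2543) (.f (nat_lit 531) (nat_lit 500) (nat_lit 2544) (.d (nat_lit 563) (nat_lit 562) (nat_lit 527) (nat_lit 564) (nat_lit 528))))) (.f (nat_lit 463) (nat_lit 560) (nat_lit 4527) (.f (nat_lit 526) (nat_lit 558) (nat_lit 5550) (.f (nat_lit 493) (nat_lit 494) (nat_lit 3565) (.f (nat_lit 525) (nat_lit 492) (nat_lit 3564) (.f (nat_lit 556) (nat_lit 557) (nat_lit 1548) (.f (nat_lit 524) (nat_lit 555) (nat_lit 1547) (.f (nat_lit 430) (nat_lit 398) (nat_lit 7566) (.f (nat_lit 429) (nat_lit 461) (nat_lit 5548) (.f (nat_lit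 432) (nat_lit 400) (nat_lit 6543) (.d (nat_lit 464) (nat_lit 428) (nat_lit 428) (nat_lit 465) (nat_lit 429))))))))))))))) (.a s130456 (.a (.f (nat_lit 463) (nat_lit 560) (nat_lit 4527) (.f (nat_lit 526) (nat_lit 558) (nat_lit 5550) (.f (nat_lit 399) (nat_lit 494) (nat_lit 5518) (.d (nat_lit 400) (nat_lit 368) (nat_lit 6511) (nat_lit 432) (nat_lit 6543))))) (.a (.f (nat_lit 463) (nat_lit 560) (nat_lit 4527) (.f (nat_lit 398) (nat_lit 430) (nat_lit 7566) (.f (nat_lit 399) (nat_lit 366) (nat_lit 7534) (.d (nat_lit 400) (nat_lit 368) (nat_lit 6511) (nat_lit 432) (nat_lit 6543))))) (.p (nat_lit 463) (.a (.f (nat_lit 526) (nat_lit 558) (nat_lit 5550) (.f (nat_lit 494) (nat_lit 399) (nat_lit 5518) (.d (nat_lit 529) (nat_lit 493) (nat_lit 3565) (nat_lit 530) (nat_lit 3566)))) (.a (.f (nat_lit 400) (nat_lit 432) (nat_lit 6543) (.f (nat_lit 399) (nat_lit 368) (nat_lit 6511) (.d (nat_lit 398) (nat_lit 366) (nat_lit 7534) (nat_lit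 430) (nat_lit 7566)))) (.p (nat_lit 529) (.a (.f (nat_lit 526) (nat_lit 558) (nat_lit 5550) (.d (nat_lit 494) (nat_lit 493) (nat_lit 3565) (nat_lit 530) (nat_lit 3566))) (.a (.f (nat_lit 526) (nat_lit 558) (nat_lit 5550) (.f (nat_lit 498) (nat_lit 497) (nat_lit 2542) (.f (nat_lit 530) (nat_lit 499) (nat_lit 2543) (.f (nat_lit 563) (nat_lit 562) (nat_lit 527) (.f (nat_lit 531) (nat_lit 564) (nat_lit 528) (.f (nat_lit 432) (nat_lit 400) (nat_lit 6543) (.f (nat_lit 430) (nat_lit 398) (nat_lit 7566) (.f (nat_lit 466) (nat_lit 434) (nat_lit 4530) (.d (nat_lit 465) (nat_lit 433) (nat_lit 430) (nat_lit 464) (nat_lit 3502)))))))))) (.a (.f (nat_lit 530) (nat_lit 494) (nat_lit 3566) (.f (nat_lit 499) (nat_lit 498) (nat_lit 2543) (.f (nat_lit 531) (nat_lit 500) (nat_lit 2544) (.d (nat_lit 563) (nat_lit 562) (nat_lit 527) (nat_lit 564) (nat_lit 528))))) (.f (nat_lit 526) (nat_lit 558) (nat_lit 5550) (.f (nat_lit 493) (nat_lit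 494) (nat_lit 3565) (.f (nat_lit 525) (nat_lit 492) (nat_lit 3564) (.f (nat_lit 556) (nat_lit 557) (nat_lit 1548) (.f (nat_lit 524) (nat_lit 555) (nat_lit 1547) (.f (nat_lit 430) (nat_lit 398) (nat_lit 7566) (.f (nat_lit 429) (nat_lit 461) (nat_lit 5548) (.f (nat_lit 432) (nat_lit 400) (nat_lit 6543) (.d (nat_lit 464) (nat_lit 428) (nat_lit 428) (nat_lit 465) (nat_lit 429)))))))))))))))))))))))
noncomputable def s130644 : Cert := .r (nat_lit 878694100599011500014437735720330509836350191925113156341337097447102382727904155809333713844768373422278432769074758707737866683001769675068394154179243802624) (.p (nat_lit 527) (.a (.p (nat_lit 463) (.a (.f (nat_lit 431) (nat_lit 560) (nat_lit 4527) (.f (nat_lit 526) (nat_lit 558) (nat_lit 5550) (.f (nat_lit 494) (nat_lit 399) (nat_lit 5518) (.d (nat_lit 529) (nat_lit 493) (nat_lit 3565) (nat_lit 530) (nat_lit 3566))))) (.a (.f (nat_lit 431) (nat_lit 560) (nat_lit 4527) (.f (nat_lit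 558) (nat_lit 526) (nat_lit 5550) (.f (nat_lit 559) (nat_lit 590) (nat_lit 5582) (.d (nat_lit 432) (nat_lit 400) (nat_lit 6543) (nat_lit 464) (nat_lit 6575))))) (.a (.f (nat_lit 431) (nat_lit 560) (nat_lit 4527) (.f (nat_lit 430) (nat_lit 398) (nat_lit 7566) (.f (nat_lit 432) (nat_lit 400) (nat_lit 6543) (.d (nat_lit 559) (nat_lit 462) (nat_lit 7598) (nat_lit 464) (nat_lit 6575))))) (.a s128151 (.p (nat_lit 430) (.a (.f (nat_lit 559) (nat_lit 462) (nat_lit 7598) (.f (nat_lit 558) (nat_lit 590) (nat_lit 5582) (.f (nat_lit 557) (nat_lit 556) (nat_lit 2572) (.d (nat_lit 529) (nat_lit 526) (nat_lit 1549) (nat_lit 530) (nat_lit 1550))))) (.a (.f (nat_lit 559) (nat_lit 462) (nat_lit 7598) (.f (nat_lit 431) (nat_lit 398) (nat_lit 7566) (.d (nat_lit 432) (nat_lit 400) (nat_lit 6543) (nat_lit 464) (nat_lit 6575)))) (.a (.f (nat_lit 431) (nat_lit 398) (nat_lit 7566) (.f (nat_lit 432) (nat_lit 400) (nat_lit 6543) (.f (nat_lit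 464) (nat_lit 559) (nat_lit 6575) (.d (nat_lit 429) (nat_lit 428) (nat_lit 428) (nat_lit 465) (nat_lit 429))))) (.f (nat_lit 431) (nat_lit 398) (nat_lit 7566) (.f (nat_lit 526) (nat_lit 558) (nat_lit 5550) (.f (nat_lit 494) (nat_lit 399) (nat_lit 5518) (.d (nat_lit 529) (nat_lit 493) (nat_lit 3565) (nat_lit 530) (nat_lit 3566)))))))))))))) (.a (.p (nat_lit 463) (.a (.f (nat_lit 431) (nat_lit 560) (nat_lit 4527) (.f (nat_lit 526) (nat_lit 558) (nat_lit 5550) (.f (nat_lit 494) (nat_lit 399) (nat_lit 5518) (.d (nat_lit 529) (nat_lit 493) (nat_lit 3565) (nat_lit 530) (nat_lit 3566))))) (.a (.f (nat_lit 431) (nat_lit 560) (nat_lit 4527) (.f (nat_lit 558) (nat_lit 526) (nat_lit 5550) (.f (nat_lit 559) (nat_lit 590) (nat_lit 5582) (.d (nat_lit 432) (nat_lit 400) (nat_lit 6543) (nat_lit 464) (nat_lit 6575))))) (.a (.f (nat_lit 560) (nat_lit 431) (nat_lit 4527) (.d (nat_lit 592) (nat_lit 559) (nat_lit 4559) (nat_lit 624) (nat_lit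 7663))) (.a s128151 s128177))))) (.a (.p (nat_lit 463) (.a (.f (nat_lit 431) (nat_lit 560) (nat_lit 4527) (.f (nat_lit 558) (nat_lit 526) (nat_lit 5550) (.f (nat_lit 559) (nat_lit 590) (nat_lit 5582) (.d (nat_lit 432) (nat_lit 400) (nat_lit 6543) (nat_lit 464) (nat_lit 6575))))) (.a (.f (nat_lit 431) (nat_lit 560) (nat_lit 4527) (.f (nat_lit 430) (nat_lit 398) (nat_lit 7566) (.f (nat_lit 432) (nat_lit 400) (nat_lit 6543) (.d (nat_lit 559) (nat_lit 462) (nat_lit 7598) (nat_lit 464) (nat_lit 6575))))) (.a s128151 (.a (.p (nat_lit 529) (.a (.f (nat_lit 494) (nat_lit 530) (nat_lit 3566) (.d (nat_lit 493) (nat_lit 492) (nat_lit 492) (nat_lit 526) (nat_lit 3565))) (.a (.f (nat_lit 431) (nat_lit 560) (nat_lit 4527) (.f (nat_lit 526) (nat_lit 558) (nat_lit 5550) (.f (nat_lit 498) (nat_lit 497) (nat_lit 2542) (.f (nat_lit 530) (nat_lit 499) (nat_lit 2543) (.f (nat_lit 563) (nat_lit 562) (nat_lit 527) (.f (nat_lit 531) (nat_lit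 564) (nat_lit 528) (.f (nat_lit 430) (nat_lit 398) (nat_lit 7566) (.f (nat_lit 432) (nat_lit 400) (nat_lit 6543) (.f (nat_lit 466) (nat_lit 434) (nat_lit 4530) (.d (nat_lit 465) (nat_lit 433) (nat_lit 430) (nat_lit 464) (nat_lit 3502))))))))))) (.a (.f (nat_lit 530) (nat_lit 494) (nat_lit 3566) (.f (nat_lit 499) (nat_lit 498) (nat_lit 2543) (.f (nat_lit 531) (nat_lit 500) (nat_lit 2544) (.d (nat_lit 563) (nat_lit 562) (nat_lit 527) (nat_lit 564) (nat_lit 528))))) (.f (nat_lit 431) (nat_lit 560) (nat_lit 4527) (.f (nat_lit 526) (nat_lit 558) (nat_lit 5550) (.f (nat_lit 493) (nat_lit 494) (nat_lit 3565) (.f (nat_lit 525) (nat_lit 492) (nat_lit 3564) (.f (nat_lit 556) (nat_lit 557) (nat_lit 1548) (.f (nat_lit 524) (nat_lit 555) (nat_lit 1547) (.f (nat_lit 430) (nat_lit 398) (nat_lit 7566) (.f (nat_lit 429) (nat_lit 461) (nat_lit 5548) (.f (nat_lit 432) (nat_lit 400) (nat_lit 6543) (.d (nat_lit 464) (nat_lit 428) (nat_lit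 428) (nat_lit 465) (nat_lit 429))))))))))))))) (.a s128208 (.f (nat_lit 560) (nat_lit 431) (nat_lit 4527) (.d (nat_lit 592) (nat_lit 559) (nat_lit 4559) (nat_lit 624) (nat_lit 7663))))))))) (.a (.p (nat_lit 463) (.a (.f (nat_lit 431) (nat_lit 560) (nat_lit 4527) (.f (nat_lit 526) (nat_lit 558) (nat_lit 5550) (.f (nat_lit 494) (nat_lit 399) (nat_lit 5518) (.d (nat_lit 529) (nat_lit 493) (nat_lit 3565) (nat_lit 530) (nat_lit 3566))))) (.a (.f (nat_lit 560) (nat_lit 431) (nat_lit 4527) (.d (nat_lit 592) (nat_lit 559) (nat_lit 4559) (nat_lit 624) (nat_lit 7663))) (.a s128151 (.p (nat_lit 430) (.a (.f (nat_lit 559) (nat_lit 462) (nat_lit 7598) (.f (nat_lit 558) (nat_lit 590) (nat_lit 5582) (.f (nat_lit 557) (nat_lit 556) (nat_lit 2572) (.d (nat_lit 529) (nat_lit 526) (nat_lit 1549) (nat_lit 530) (nat_lit 1550))))) (.a (.f (nat_lit 398) (nat_lit 431) (nat_lit 7566) (.d (nat_lit 462) (nat_lit 366) (nat_lit 4462) (nat_lit 494)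 (nat_lit 4494))) (.f (nat_lit 431) (nat_lit 398) (nat_lit 7566) (.f (nat_lit 526) (nat_lit 558) (nat_lit 5550) (.f (nat_lit 494) (nat_lit 399) (nat_lit 5518) (.d (nat_lit 529) (nat_lit 493) (nat_lit 3565) (nat_lit 530) (nat_lit 3566)))))))))))) (.a (.p (nat_lit 463) (.a (.f (nat_lit 431) (nat_lit 560) (nat_lit 4527) (.f (nat_lit 526) (nat_lit 558) (nat_lit 5550) (.f (nat_lit 494) (nat_lit 399) (nat_lit 5518) (.d (nat_lit 529) (nat_lit 493) (nat_lit 3565) (nat_lit 530) (nat_lit 3566))))) (.a (.f (nat_lit 431) (nat_lit 560) (nat_lit 4527) (.f (nat_lit 558) (nat_lit 526) (nat_lit 5550) (.f (nat_lit 559) (nat_lit 590) (nat_lit 5582) (.d (nat_lit 432) (nat_lit 400) (nat_lit 6543) (nat_lit 464) (nat_lit 6575))))) (.a (.f (nat_lit 560) (nat_lit 431) (nat_lit 4527) (.d (nat_lit 592) (nat_lit 559) (nat_lit 4559) (nat_lit 624) (nat_lit 7663))) (.a s128217 (.p (nat_lit 432) (.a (.f (nat_lit 431) (nat_lit 400) (nat_lit 6543) (.f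 (nat_lit 526) (nat_lit 558) (nat_lit 5550) (.f (nat_lit 494) (nat_lit 399) (nat_lit 5518) (.d (nat_lit 529) (nat_lit 493) (nat_lit 3565) (nat_lit 530) (nat_lit 3566))))) (.a (.f (nat_lit 431) (nat_lit 400) (nat_lit 6543) (.f (nat_lit 558) (nat_lit 526) (nat_lit 5550) (.d (nat_lit 559) (nat_lit 464) (nat_lit 6575) (nat_lit 590) (nat_lit 5582)))) (.a (.f (nat_lit 464) (nat_lit 559) (nat_lit 6575) (.d (nat_lit 400) (nat_lit 368) (nat_lit 5487) (nat_lit 431) (nat_lit 6543))) (.f (nat_lit 559) (nat_lit 464) (nat_lit 6575) (.f (nat_lit 558) (nat_lit 590) (nat_lit 5582) (.f (nat_lit 529) (nat_lit 530) (nat_lit 1550) (.d (nat_lit 557) (nat_lit 526) (nat_lit 1549) (nat_lit 556) (nat_lit 2572)))))))))))))) (.a (.p (nat_lit 559) (.a (.p (nat_lit 462) (.a (.f (nat_lit 494) (nat_lit 591) (nat_lit 7630) (.d (nat_lit 430) (nat_lit 463) (nat_lit 7598) (nat_lit 526) (nat_lit 4526))) (.a (.f (nat_lit 463) (nat_lit 430) (nat_lit 7598)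 (.f (nat_lit 558) (nat_lit 590) (nat_lit 5582) (.f (nat_lit 557) (nat_lit 556) (nat_lit 2572) (.d (nat_lit 529) (nat_lit 526) (nat_lit 1549) (nat_lit 530) (nat_lit 1550))))) (.a (.f (nat_lit 463) (nat_lit 430) (nat_lit 7598) (.f (nat_lit 494) (nat_lit 591) (nat_lit 7630) (.f (nat_lit 464) (nat_lit 432) (nat_lit 6575) (.d (nat_lit 493) (nat_lit 465) (nat_lit 1485) (nat_lit 492) (nat_lit 2508))))) (.a (.f (nat_lit 494) (nat_lit 591) (nat_lit 7630) (.d (nat_lit 430) (nat_lit 398) (nat_lit 4494) (nat_lit 526) (nat_lit 4526))) (.f (nat_lit 591) (nat_lit 494) (nat_lit 7630) (.f (nat_lit 592) (nat_lit 624) (nat_lit 4591) (.f (nat_lit 590) (nat_lit 622) (nat_lit 5614) (.d (nat_lit 463) (nat_lit 558) (nat_lit 5582) (nat_lit 560) (nat_lit 4559)))))))))) (.a (.p (nat_lit 558) (.a (.f (nat_lit 557) (nat_lit 556) (nat_lit 2572) (.d (nat_lit 529) (nat_lit 526) (nat_lit 1549) (nat_lit 530) (nat_lit 1550))) (.a (.f (nat_lit 557) (nat_lit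 556) (nat_lit 2572) (.d (nat_lit 529) (nat_lit 530) (nat_lit 1550) (nat_lit 560) (nat_lit 2573))) (.f (nat_lit 590) (nat_lit 463) (nat_lit 5582) (.d (nat_lit 622) (nat_lit 526) (nat_lit 6638) (nat_lit 591) (nat_lit 5614)))))) (.a (.p (nat_lit 462) (.a (.f (nat_lit 463) (nat_lit 430) (nat_lit 7598) (.f (nat_lit 494) (nat_lit 591) (nat_lit 7630) (.f (nat_lit 464) (nat_lit 432) (nat_lit 6575) (.d (nat_lit 493) (nat_lit 465) (nat_lit 1485) (nat_lit 492) (nat_lit 2508))))) (.a (.f (nat_lit 463) (nat_lit 430) (nat_lit 7598) (.f (nat_lit 558) (nat_lit 590) (nat_lit 5582) (.f (nat_lit 560) (nat_lit 592) (nat_lit 4559) (.d (nat_lit 557) (nat_lit 529) (nat_lit 2573) (nat_lit 556) (nat_lit 2572))))) (.f (nat_lit 591) (nat_lit 494) (nat_lit 7630) (.f (nat_lit 624) (nat_lit 592) (nat_lit 4591) (.f (nat_lit 623) (nat_lit 656) (nat_lit 4623) (.d (nat_lit 622) (nat_lit 590) (nat_lit 5614) (nat_lit 654) (nat_lit 5646)))))))) (.a (.p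 (nat_lit 494) (.a (.f (nat_lit 591) (nat_lit 462) (nat_lit 7630) (.f (nat_lit 623) (nat_lit 526) (nat_lit 7662) (.d (nat_lit 624) (nat_lit 592) (nat_lit 4591) (nat_lit 656) (nat_lit 4623)))) (.a (.f (nat_lit 591) (nat_lit 462) (nat_lit 7630) (.f (nat_lit 624) (nat_lit 592) (nat_lit 4591) (.f (nat_lit 623) (nat_lit 656) (nat_lit 4623) (.d (nat_lit 622) (nat_lit 590) (nat_lit 5614) (nat_lit 654) (nat_lit 5646))))) (.f (nat_lit 529) (nat_lit 530) (nat_lit 3566) (.d (nat_lit 493) (nat_lit 492) (nat_lit 492) (nat_lit 526) (nat_lit 3565)))))) (.a (.p (nat_lit 462) (.a (.f (nat_lit 494) (nat_lit 591) (nat_lit 7630) (.d (nat_lit 430) (nat_lit 463) (nat_lit 7598) (nat_lit 526) (nat_lit 4526))) (.a (.f (nat_lit 463) (nat_lit 430) (nat_lit 7598) (.f (nat_lit 592) (nat_lit 560) (nat_lit 4559) (.f (nat_lit 591) (nat_lit 624) (nat_lit 4591) (.d (nat_lit 590) (nat_lit 558) (nat_lit 5582) (nat_lit 622) (nat_lit 5614))))) (.a (.f (nat_lit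 494) (nat_lit 591) (nat_lit 7630) (.d (nat_lit 430) (nat_lit 398) (nat_lit 4494) (nat_lit 526) (nat_lit 4526))) (.a (.f (nat_lit 591) (nat_lit 494) (nat_lit 7630) (.f (nat_lit 592) (nat_lit 624) (nat_lit 4591) (.f (nat_lit 590) (nat_lit 622) (nat_lit 5614) (.d (nat_lit 463) (nat_lit 558) (nat_lit 5582) (nat_lit 560) (nat_lit 4559))))) (.f (nat_lit 463) (nat_lit 430) (nat_lit 7598) (.f (nat_lit 558) (nat_lit 590) (nat_lit 5582) (.f (nat_lit 557) (nat_lit 556) (nat_lit 2572) (.f (nat_lit 560) (nat_lit 592) (nat_lit 4559) (.f (nat_lit 525) (nat_lit 524) (nat_lit 3596) (.f (nat_lit 589) (nat_lit 588) (nat_lit 1580) (.d (nat_lit 494) (nat_lit 493) (nat_lit 6605) (nat_lit 526) (nat_lit 5581))))))))))))) (.a (.p (nat_lit 494) (.a (.f (nat_lit 591) (nat_lit 462) (nat_lit 7630) (.f (nat_lit 623) (nat_lit 526) (nat_lit 7662) (.d (nat_lit 624) (nat_lit 592) (nat_lit 4591) (nat_lit 656) (nat_lit 4623)))) (.a (.f (nat_lit 462) (nat_lit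 591) (nat_lit 7630) (.d (nat_lit 430) (nat_lit 398) (nat_lit 4494) (nat_lit 463) (nat_lit 7598))) (.f (nat_lit 529) (nat_lit 530) (nat_lit 3566) (.d (nat_lit 493) (nat_lit 492) (nat_lit 492) (nat_lit 526) (nat_lit 3565)))))) (.p (nat_lit 558) (.a (.f (nat_lit 557) (nat_lit 556) (nat_lit 2572) (.d (nat_lit 529) (nat_lit 526) (nat_lit 1549) (nat_lit 530) (nat_lit 1550))) (.a (.f (nat_lit 557) (nat_lit 556) (nat_lit 2572) (.d (nat_lit 529) (nat_lit 530) (nat_lit 1550) (nat_lit 560) (nat_lit 2573))) (.a (.f (nat_lit 463) (nat_lit 590) (nat_lit 5582) (.f (nat_lit 560) (nat_lit 592) (nat_lit 4559) (.f (nat_lit 557) (nat_lit 556) (nat_lit 2572) (.f (nat_lit 525) (nat_lit 524) (nat_lit 3596) (.f (nat_lit 589) (nat_lit 588) (nat_lit 1580) (.f (nat_lit 462) (nat_lit 430) (nat_lit 7598) (.d (nat_lit 494) (nat_lit 493) (nat_lit 6605) (nat_lit 526) (nat_lit 5581)))))))) (.f (nat_lit 590) (nat_lit 463) (nat_lit 5582) (.d (nat_lit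 622) (nat_lit 526) (nat_lit 6638) (nat_lit 654) (nat_lit 6670)))))))))))))) (.a (.p (nat_lit 463) (.a (.f (nat_lit 431) (nat_lit 560) (nat_lit 4527) (.f (nat_lit 526) (nat_lit 558) (nat_lit 5550) (.f (nat_lit 494) (nat_lit 399) (nat_lit 5518) (.d (nat_lit 529) (nat_lit 493) (nat_lit 3565) (nat_lit 530) (nat_lit 3566))))) (.a (.f (nat_lit 560) (nat_lit 431) (nat_lit 4527) (.d (nat_lit 592) (nat_lit 559) (nat_lit 4559) (nat_lit 624) (nat_lit 7663))) (.a s128217 (.p (nat_lit 430) (.a (.f (nat_lit 559) (nat_lit 462) (nat_lit 7598) (.f (nat_lit 558) (nat_lit 590) (nat_lit 5582) (.f (nat_lit 557) (nat_lit 556) (nat_lit 2572) (.d (nat_lit 529) (nat_lit 526) (nat_lit 1549) (nat_lit 530) (nat_lit 1550))))) (.a (.f (nat_lit 398) (nat_lit 431) (nat_lit 7566) (.d (nat_lit 462) (nat_lit 366) (nat_lit 4462) (nat_lit 494) (nat_lit 4494))) (.f (nat_lit 431) (nat_lit 398) (nat_lit 7566) (.f (nat_lit 526) (nat_lit 558) (nat_lit 5550)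 (.f (nat_lit 494) (nat_lit 399) (nat_lit 5518) (.d (nat_lit 529) (nat_lit 493) (nat_lit 3565) (nat_lit 530) (nat_lit 3566)))))))))))) (.a (.p (nat_lit 558) (.a (.p (nat_lit 463) (.a (.d (nat_lit 431) (nat_lit 526) (nat_lit 5550) (nat_lit 560) (nat_lit 4527)) (.a (.f (nat_lit 559) (nat_lit 590) (nat_lit 5582) (.d (nat_lit 560) (nat_lit 431) (nat_lit 4527) (nat_lit 592) (nat_lit 4559))) (.f (nat_lit 559) (nat_lit 590) (nat_lit 5582) (.f (nat_lit 529) (nat_lit 530) (nat_lit 1550) (.d (nat_lit 557) (nat_lit 526) (nat_lit 1549) (nat_lit 556) (nat_lit 2572))))))) (.a (.p (nat_lit 559) (.a (.f (nat_lit 557) (nat_lit 556) (nat_lit 2572) (.d (nat_lit 529) (nat_lit 530) (nat_lit 1550) (nat_lit 560) (nat_lit 2573))) (.a (.f (nat_lit 463) (nat_lit 590) (nat_lit 5582) (.d (nat_lit 560) (nat_lit 431) (nat_lit 4527) (nat_lit 592) (nat_lit 4559))) (.f (nat_lit 590) (nat_lit 463) (nat_lit 5582) (.d (nat_lit 622) (nat_lit 591) (nat_lit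 5614) (nat_lit 654) (nat_lit 6670)))))) (.a (.p (nat_lit 557) (.a (.f (nat_lit 559) (nat_lit 556) (nat_lit 2572) (.d (nat_lit 529) (nat_lit 526) (nat_lit 1549) (nat_lit 530) (nat_lit 1550))) (.a (.f (nat_lit 559) (nat_lit 556) (nat_lit 2572) (.d (nat_lit 529) (nat_lit 530) (nat_lit 1550) (nat_lit 560) (nat_lit 2573))) (.a (.f (nat_lit 526) (nat_lit 529) (nat_lit 1549) (.d (nat_lit 556) (nat_lit 525) (nat_lit 1548) (nat_lit 555) (nat_lit 2571))) (.a (.f (nat_lit 559) (nat_lit 556) (nat_lit 2572) (.f (nat_lit 590) (nat_lit 463) (nat_lit 5582) (.d (nat_lit 622) (nat_lit 526) (nat_lit 6638) (nat_lit 591) (nat_lit 5614)))) (.f (nat_lit 529) (nat_lit 526) (nat_lit 1549) (.d (nat_lit 559) (nat_lit 530) (nat_lit 1550) (nat_lit 560) (nat_lit 2573)))))))) (.a (.p (nat_lit 557) (.a (.f (nat_lit 559) (nat_lit 556) (nat_lit 2572) (.d (nat_lit 529) (nat_lit 526) (nat_lit 1549) (nat_lit 530) (nat_lit 1550))) (.a (.f (nat_lit 559)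 (nat_lit 556) (nat_lit 2572) (.d (nat_lit 529) (nat_lit 530) (nat_lit 1550) (nat_lit 560) (nat_lit 2573))) (.a (.f (nat_lit 526) (nat_lit 529) (nat_lit 1549) (.d (nat_lit 556) (nat_lit 525) (nat_lit 1548) (nat_lit 555) (nat_lit 2571))) (.a (.f (nat_lit 556) (nat_lit 559) (nat_lit 2572) (.d (nat_lit 526) (nat_lit 525) (nat_lit 1548) (nat_lit 555) (nat_lit 2571))) (.f (nat_lit 529) (nat_lit 526) (nat_lit 1549) (.d (nat_lit 559) (nat_lit 530) (nat_lit 1550) (nat_lit 560) (nat_lit 2573)))))))) (.a (.p (nat_lit 526) (.a (.f (nat_lit 557) (nat_lit 529) (nat_lit 1549) (.d (nat_lit 556) (nat_lit 525) (nat_lit 1548) (nat_lit 555) (nat_lit 2571))) (.a (.f (nat_lit 529) (nat_lit 557) (nat_lit 1549) (.d (nat_lit 494) (nat_lit 493) (nat_lit 3565) (nat_lit 530) (nat_lit 3566))) (.f (nat_lit 590) (nat_lit 622) (nat_lit 6638) (.d (nat_lit 463) (nat_lit 431) (nat_lit 5550) (nat_lit 494) (nat_lit 6606)))))) (.p (nat_lit 463) (.a (.d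 (nat_lit 431) (nat_lit 526) (nat_lit 5550) (nat_lit 560) (nat_lit 4527)) (.a (.f (nat_lit 559) (nat_lit 590) (nat_lit 5582) (.d (nat_lit 560) (nat_lit 431) (nat_lit 4527) (nat_lit 592) (nat_lit 4559))) (.f (nat_lit 590) (nat_lit 559) (nat_lit 5582) (.d (nat_lit 526) (nat_lit 494) (nat_lit 6606) (nat_lit 622) (nat_lit 6638)))))))))))) (.a (.p (nat_lit 559) (.a (.p (nat_lit 494) (.a (.f (nat_lit 591) (nat_lit 462) (nat_lit 7630) (.f (nat_lit 623) (nat_lit 526) (nat_lit 7662) (.d (nat_lit 624) (nat_lit 592) (nat_lit 4591) (nat_lit 656) (nat_lit 4623)))) (.a (.f (nat_lit 591) (nat_lit 462) (nat_lit 7630) (.f (nat_lit 624) (nat_lit 592) (nat_lit 4591) (.f (nat_lit 623) (nat_lit 656) (nat_lit 4623) (.d (nat_lit 622) (nat_lit 590) (nat_lit 5614) (nat_lit 654) (nat_lit 5646))))) (.f (nat_lit 529) (nat_lit 530) (nat_lit 3566) (.d (nat_lit 493) (nat_lit 492) (nat_lit 492) (nat_lit 526) (nat_lit 3565)))))) (.a (.p (nat_lit 591)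 (.a (.f (nat_lit 624) (nat_lit 592) (nat_lit 4591) (.f (nat_lit 623) (nat_lit 656) (nat_lit 4623) (.d (nat_lit 622) (nat_lit 590) (nat_lit 5614) (nat_lit 654) (nat_lit 5646)))) (.a (.f (nat_lit 622) (nat_lit 590) (nat_lit 5614) (.f (nat_lit 623) (nat_lit 654) (nat_lit 5646) (.f (nat_lit 655) (nat_lit 560) (nat_lit 6671) (.d (nat_lit 656) (nat_lit 624) (nat_lit 4623) (nat_lit 688) (nat_lit 4655))))) (.a (.p (nat_lit 558) (.a (.f (nat_lit 622) (nat_lit 590) (nat_lit 5614) (.f (nat_lit 623) (nat_lit 654) (nat_lit 5646) (.d (nat_lit 655) (nat_lit 526) (nat_lit 7694) (nat_lit 560) (nat_lit 6671)))) (.a (.f (nat_lit 557) (nat_lit 556) (nat_lit 2572) (.d (nat_lit 529) (nat_lit 530) (nat_lit 1550) (nat_lit 560) (nat_lit 2573))) (.f (nat_lit 557) (nat_lit 556) (nat_lit 2572) (.d (nat_lit 529) (nat_lit 526) (nat_lit 1549) (nat_lit 530) (nat_lit 1550)))))) (.a (.f (nat_lit 624) (nat_lit 592) (nat_lit 4591) (.f (nat_lit 623) (nat_lit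 656) (nat_lit 4623) (.f (nat_lit 655) (nat_lit 560) (nat_lit 6671) (.d (nat_lit 654) (nat_lit 622) (nat_lit 5646) (nat_lit 686) (nat_lit 5678))))) (.a s128312 (.f (nat_lit 624) (nat_lit 592) (nat_lit 4591) (.f (nat_lit 623) (nat_lit 656) (nat_lit 4623) (.f (nat_lit 655) (nat_lit 560) (nat_lit 6671) (.f (nat_lit 558) (nat_lit 526) (nat_lit 7694) (.f (nat_lit 687) (nat_lit 590) (nat_lit 7726) (.d (nat_lit 686) (nat_lit 654) (nat_lit 5678) (nat_lit 718) (nat_lit 5710))))))))))))) (.a (.p (nat_lit 591) (.a (.f (nat_lit 624) (nat_lit 592) (nat_lit 4591) (.f (nat_lit 623) (nat_lit 656) (nat_lit 4623) (.d (nat_lit 622) (nat_lit 590) (nat_lit 5614) (nat_lit 654) (nat_lit 5646)))) (.a (.f (nat_lit 622) (nat_lit 590) (nat_lit 5614) (.f (nat_lit 623) (nat_lit 654) (nat_lit 5646) (.f (nat_lit 655) (nat_lit 560) (nat_lit 6671) (.d (nat_lit 656) (nat_lit 624) (nat_lit 4623) (nat_lit 688) (nat_lit 4655))))) (.a s128322 (.a (.f (nat_lit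 624) (nat_lit 592) (nat_lit 4591) (.f (nat_lit 623) (nat_lit 656) (nat_lit 4623) (.f (nat_lit 655) (nat_lit 560) (nat_lit 6671) (.d (nat_lit 654) (nat_lit 622) (nat_lit 5646) (nat_lit 686) (nat_lit 5678))))) (.a s128312 (.p (nat_lit 558) (.a (.f (nat_lit 592) (nat_lit 624) (nat_lit 4591) (.f (nat_lit 557) (nat_lit 556) (nat_lit 2572) (.d (nat_lit 593) (nat_lit 560) (nat_lit 557) (nat_lit 594) (nat_lit 3630)))) (.a (.f (nat_lit 592) (nat_lit 624) (nat_lit 4591) (.f (nat_lit 557) (nat_lit 556) (nat_lit 2572) (.d (nat_lit 593) (nat_lit 590) (nat_lit 3629) (nat_lit 594) (nat_lit 3630)))) (.a (.f (nat_lit 557) (nat_lit 556) (nat_lit 2572) (.d (nat_lit 529) (nat_lit 530) (nat_lit 1550) (nat_lit 560) (nat_lit 2573))) (.f (nat_lit 624) (nat_lit 592) (nat_lit 4591) (.f (nat_lit 623) (nat_lit 656) (nat_lit 4623) (.f (nat_lit 655) (nat_lit 560) (nat_lit 6671) (.f (nat_lit 687) (nat_lit 590) (nat_lit 7726) (.d (nat_lit 686) (nat_lit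 654) (nat_lit 5678) (nat_lit 718) (nat_lit 5710)))))))))))))))) (.a (.p (nat_lit 591) (.a (.f (nat_lit 624) (nat_lit 592) (nat_lit 4591) (.f (nat_lit 623) (nat_lit 656) (nat_lit 4623) (.d (nat_lit 622) (nat_lit 590) (nat_lit 5614) (nat_lit 654) (nat_lit 5646)))) (.a (.f (nat_lit 622) (nat_lit 590) (nat_lit 5614) (.f (nat_lit 623) (nat_lit 654) (nat_lit 5646) (.f (nat_lit 655) (nat_lit 560) (nat_lit 6671) (.d (nat_lit 656) (nat_lit 624) (nat_lit 4623) (nat_lit 688) (nat_lit 4655))))) (.a s128322 (.a (.f (nat_lit 624) (nat_lit 592) (nat_lit 4591) (.f (nat_lit 623) (nat_lit 656) (nat_lit 4623) (.f (nat_lit 655) (nat_lit 560) (nat_lit 6671) (.d (nat_lit 654) (nat_lit 622) (nat_lit 5646) (nat_lit 686) (nat_lit 5678))))) (.a (.p (nat_lit 557) (.a (.f (nat_lit 558) (nat_lit 556) (nat_lit 2572) (.f (nat_lit 590) (nat_lit 622) (nat_lit 5614) (.d (nat_lit 592) (nat_lit 593) (nat_lit 3629) (nat_lit 624) (nat_lit 4591)))) (.a (.f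 (nat_lit 558) (nat_lit 556) (nat_lit 2572) (.f (nat_lit 590) (nat_lit 622) (nat_lit 5614) (.f (nat_lit 494) (nat_lit 462) (nat_lit 7630) (.f (nat_lit 493) (nat_lit 492) (nat_lit 492) (.d (nat_lit 461) (nat_lit 525) (nat_lit 4557) (nat_lit 526) (nat_lit 7629)))))) (.a (.f (nat_lit 592) (nat_lit 624) (nat_lit 4591) (.f (nat_lit 590) (nat_lit 622) (nat_lit 5614) (.f (nat_lit 589) (nat_lit 556) (nat_lit 3628) (.f (nat_lit 588) (nat_lit 560) (nat_lit 2604) (.d (nat_lit 620) (nat_lit 619) (nat_lit 1611) (nat_lit 621) (nat_lit 1612)))))) (.a (.f (nat_lit 558) (nat_lit 556) (nat_lit 2572) (.f (nat_lit 592) (nat_lit 624) (nat_lit 4591) (.d (nat_lit 593) (nat_lit 560) (nat_lit 557) (nat_lit 594) (nat_lit 3630)))) (.f (nat_lit 592) (nat_lit 624) (nat_lit 4591) (.f (nat_lit 590) (nat_lit 622) (nat_lit 5614) (.f (nat_lit 593) (nat_lit 558) (nat_lit 3629) (.f (nat_lit 626) (nat_lit 625) (nat_lit 590) (.f (nat_lit 594) (nat_lit 627)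 (nat_lit 591) (.f (nat_lit 563) (nat_lit 562) (nat_lit 2607) (.d (nat_lit 595) (nat_lit 560) (nat_lit 3631) (nat_lit 564) (nat_lit 2608))))))))))))) (.f (nat_lit 624) (nat_lit 592) (nat_lit 4591) (.f (nat_lit 623) (nat_lit 656) (nat_lit 4623) (.f (nat_lit 655) (nat_lit 560) (nat_lit 6671) (.f (nat_lit 558) (nat_lit 526) (nat_lit 7694) (.f (nat_lit 687) (nat_lit 590) (nat_lit 7726) (.d (nat_lit 686) (nat_lit 654) (nat_lit 5678) (nat_lit 718) (nat_lit 5710))))))))))))) (.a (.p (nat_lit 494) (.a (.f (nat_lit 529) (nat_lit 530) (nat_lit 3566) (.d (nat_lit 493) (nat_lit 492) (nat_lit 492) (nat_lit 526) (nat_lit 3565))) (.f (nat_lit 591) (nat_lit 462) (nat_lit 7630) (.f (nat_lit 622) (nat_lit 590) (nat_lit 5614) (.f (nat_lit 623) (nat_lit 654) (nat_lit 5646) (.f (nat_lit 656) (nat_lit 624) (nat_lit 4623) (.d (nat_lit 655) (nat_lit 560) (nat_lit 6671) (nat_lit 688) (nat_lit 4655)))))))) (.a (.p (nat_lit 557) (.a (.f (nat_lit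 558) (nat_lit 556) (nat_lit 2572) (.d (nat_lit 529) (nat_lit 526) (nat_lit 1549) (nat_lit 530) (nat_lit 1550))) (.a (.f (nat_lit 558) (nat_lit 556) (nat_lit 2572) (.d (nat_lit 529) (nat_lit 530) (nat_lit 1550) (nat_lit 560) (nat_lit 2573))) (.a (.p (nat_lit 493) (.a (.f (nat_lit 556) (nat_lit 558) (nat_lit 2572) (.f (nat_lit 525) (nat_lit 526) (nat_lit 1548) (.f (nat_lit 461) (nat_lit 588) (nat_lit 5580) (.f (nat_lit 429) (nat_lit 524) (nat_lit 5548) (.d (nat_lit 430) (nat_lit 398) (nat_lit 6541) (nat_lit 462) (nat_lit 6573)))))) (.a (.f (nat_lit 494) (nat_lit 492) (nat_lit 492) (.f (nat_lit 462) (nat_lit 591) (nat_lit 7630) (.f (nat_lit 525) (nat_lit 589) (nat_lit 6605) (.d (nat_lit 430) (nat_lit 398) (nat_lit 4494) (nat_lit 461) (nat_lit 6573))))) (.a (.f (nat_lit 556) (nat_lit 558) (nat_lit 2572) (.f (nat_lit 525) (nat_lit 526) (nat_lit 1548) (.f (nat_lit 588) (nat_lit 461) (nat_lit 5580) (.d (nat_lit 620) (nat_lit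 524) (nat_lit 6636) (nat_lit 589) (nat_lit 5612))))) (.f (nat_lit 494) (nat_lit 492) (nat_lit 492) (.f (nat_lit 462) (nat_lit 591) (nat_lit 7630) (.d (nat_lit 430) (nat_lit 398) (nat_lit 4494) (nat_lit 526) (nat_lit 4526)))))))) (.p (nat_lit 494) (.a (.f (nat_lit 462) (nat_lit 591) (nat_lit 7630) (.d (nat_lit 430) (nat_lit 398) (nat_lit 4494) (nat_lit 526) (nat_lit 4526))) (.a (.f (nat_lit 462) (nat_lit 591) (nat_lit 7630) (.f (nat_lit 493) (nat_lit 492) (nat_lit 492) (.f (nat_lit 525) (nat_lit 589) (nat_lit 6605) (.d (nat_lit 430) (nat_lit 398) (nat_lit 4494) (nat_lit 461) (nat_lit 6573))))) (.f (nat_lit 493) (nat_lit 492) (nat_lit 492) (.d (nat_lit 529) (nat_lit 526) (nat_lit 3565) (nat_lit 530) (nat_lit 3566)))))))))) (.p (nat_lit 493) (.a (.f (nat_lit 494) (nat_lit 492) (nat_lit 492) (.d (nat_lit 529) (nat_lit 526) (nat_lit 3565) (nat_lit 530) (nat_lit 3566))) (.a (.p (nat_lit 525) (.a (.f (nat_lit 526) (nat_lit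 492) (nat_lit 3564) (.f (nat_lit 557) (nat_lit 556) (nat_lit 1548) (.f (nat_lit 558) (nat_lit 529) (nat_lit 1549) (.d (nat_lit 524) (nat_lit 523) (nat_lit 523) (nat_lit 560) (nat_lit 524))))) (.a (.p (nat_lit 557) (.a (.f (nat_lit 558) (nat_lit 556) (nat_lit 2572) (.d (nat_lit 529) (nat_lit 530) (nat_lit 1550) (nat_lit 560) (nat_lit 2573))) (.a (.f (nat_lit 558) (nat_lit 556) (nat_lit 2572) (.f (nat_lit 560) (nat_lit 524) (nat_lit 3596) (.d (nat_lit 592) (nat_lit 593) (nat_lit 557) (nat_lit 624) (nat_lit 7663)))) (.a (.f (nat_lit 558) (nat_lit 556) (nat_lit 2572) (.f (nat_lit 590) (nat_lit 461) (nat_lit 4557) (.d (nat_lit 622) (nat_lit 589) (nat_lit 4589) (nat_lit 654) (nat_lit 6670)))) (.a s128408 s128411))))) (.a (.f (nat_lit 526) (nat_lit 492) (nat_lit 3564) (.f (nat_lit 557) (nat_lit 556) (nat_lit 1548) (.f (nat_lit 524) (nat_lit 560) (nat_lit 524) (.f (nat_lit 558) (nat_lit 523) (nat_lit 523) (.d (nat_lit 461)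 (nat_lit 429) (nat_lit 4525) (nat_lit 590) (nat_lit 4557)))))) (.a (.f (nat_lit 526) (nat_lit 492) (nat_lit 3564) (.f (nat_lit 557) (nat_lit 556) (nat_lit 1548) (.f (nat_lit 558) (nat_lit 529) (nat_lit 1549) (.d (nat_lit 461) (nat_lit 429) (nat_lit 4525) (nat_lit 590) (nat_lit 4557))))) (.a s128430 (.a (.f (nat_lit 526) (nat_lit 492) (nat_lit 3564) (.f (nat_lit 556) (nat_lit 557) (nat_lit 1548) (.d (nat_lit 524) (nat_lit 555) (nat_lit 1547) (nat_lit 560) (nat_lit 524)))) (.a (.f (nat_lit 526) (nat_lit 492) (nat_lit 3564) (.f (nat_lit 524) (nat_lit 560) (nat_lit 524) (.f (nat_lit 523) (nat_lit 558) (nat_lit 523) (.d (nat_lit 555) (nat_lit 554) (nat_lit 1546) (nat_lit 556) (nat_lit 1547))))) (.f (nat_lit 526) (nat_lit 492) (nat_lit 3564) (.f (nat_lit 524) (nat_lit 560) (nat_lit 524) (.f (nat_lit 558) (nat_lit 523) (nat_lit 523) (.d (nat_lit 529) (nat_lit 530) (nat_lit 1550) (nat_lit 557) (nat_lit 1549))))))))))))) (.a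 (.p (nat_lit 557) (.a (.f (nat_lit 558) (nat_lit 556) (nat_lit 2572) (.d (nat_lit 529) (nat_lit 530) (nat_lit 1550) (nat_lit 560) (nat_lit 2573))) (.a (.p (nat_lit 525) (.a (.f (nat_lit 558) (nat_lit 556) (nat_lit 2572) (.f (nat_lit 560) (nat_lit 524) (nat_lit 3596) (.d (nat_lit 592) (nat_lit 593) (nat_lit 557) (nat_lit 624) (nat_lit 7663)))) (.a (.f (nat_lit 558) (nat_lit 556) (nat_lit 2572) (.f (nat_lit 590) (nat_lit 461) (nat_lit 4557) (.d (nat_lit 622) (nat_lit 589) (nat_lit 4589) (nat_lit 654) (nat_lit 6670)))) (.f (nat_lit 492) (nat_lit 494) (nat_lit 492) (.f (nat_lit 589) (nat_lit 460) (nat_lit 7628) (.f (nat_lit 621) (nat_lit 524) (nat_lit 7660) (.d (nat_lit 620) (nat_lit 588) (nat_lit 5612) (nat_lit 652) (nat_lit 5644)))))))) (.a (.p (nat_lit 525) (.a (.f (nat_lit 558) (nat_lit 556) (nat_lit 2572) (.f (nat_lit 590) (nat_lit 461) (nat_lit 4557) (.d (nat_lit 622) (nat_lit 589) (nat_lit 4589) (nat_lit 654) (nat_lit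 6670)))) (.a (.f (nat_lit 492) (nat_lit 494) (nat_lit 492) (.f (nat_lit 589) (nat_lit 460) (nat_lit 7628) (.f (nat_lit 621) (nat_lit 524) (nat_lit 7660) (.d (nat_lit 620) (nat_lit 588) (nat_lit 5612) (nat_lit 652) (nat_lit 5644))))) (.f (nat_lit 558) (nat_lit 556) (nat_lit 2572) (.f (nat_lit 494) (nat_lit 492) (nat_lit 492) (.f (nat_lit 461) (nat_lit 590) (nat_lit 4557) (.f (nat_lit 462) (nat_lit 430) (nat_lit 6573) (.d (nat_lit 460) (nat_lit 428) (nat_lit 7596) (nat_lit 459) (nat_lit 459))))))))) (.a (.p (nat_lit 525) (.a s128408 (.a (.f (nat_lit 492) (nat_lit 494) (nat_lit 492) (.f (nat_lit 589) (nat_lit 460) (nat_lit 7628) (.f (nat_lit 621) (nat_lit 524) (nat_lit 7660) (.d (nat_lit 620) (nat_lit 588) (nat_lit 5612) (nat_lit 652) (nat_lit 5644))))) (.a s128457 (.a (.f (nat_lit 494) (nat_lit 492) (nat_lit 492) (.f (nat_lit 462) (nat_lit 589) (nat_lit 6605) (.d (nat_lit 430) (nat_lit 398) (nat_lit 4494) (nat_lit 461)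 (nat_lit 6573)))) (.p (nat_lit 461) (.a (.f (nat_lit 556) (nat_lit 588) (nat_lit 5580) (.f (nat_lit 429) (nat_lit 524) (nat_lit 5548) (.d (nat_lit 430) (nat_lit 398) (nat_lit 6541) (nat_lit 462) (nat_lit 6573)))) (.a (.f (nat_lit 556) (nat_lit 588) (nat_lit 5580) (.f (nat_lit 429) (nat_lit 524) (nat_lit 5548) (.d (nat_lit 428) (nat_lit 396) (nat_lit 7564) (nat_lit 460) (nat_lit 7596)))) (.f (nat_lit 494) (nat_lit 492) (nat_lit 492) (.f (nat_lit 462) (nat_lit 430) (nat_lit 6573) (.d (nat_lit 460) (nat_lit 428) (nat_lit 7596) (nat_lit 459) (nat_lit 459)))))))))))) (.p (nat_lit 525) (.a s128411 (.a (.f (nat_lit 492) (nat_lit 494) (nat_lit 492) (.f (nat_lit 589) (nat_lit 460) (nat_lit 7628) (.f (nat_lit 621) (nat_lit 524) (nat_lit 7660) (.d (nat_lit 620) (nat_lit 588) (nat_lit 5612) (nat_lit 652) (nat_lit 5644))))) (.a (.p (nat_lit 461) (.a (.f (nat_lit 558) (nat_lit 590) (nat_lit 4557) (.d (nat_lit 560) (nat_lit 524) (nat_lit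 3596) (nat_lit 529) (nat_lit 2573))) (.f (nat_lit 462) (nat_lit 430) (nat_lit 6573) (.f (nat_lit 494) (nat_lit 589) (nat_lit 6605) (.d (nat_lit 460) (nat_lit 428) (nat_lit 7596) (nat_lit 459) (nat_lit 459)))))) (.a (.f (nat_lit 494) (nat_lit 492) (nat_lit 492) (.f (nat_lit 462) (nat_lit 589) (nat_lit 6605) (.d (nat_lit 430) (nat_lit 398) (nat_lit 4494) (nat_lit 461) (nat_lit 6573)))) (.f (nat_lit 494) (nat_lit 492) (nat_lit 492) (.f (nat_lit 529) (nat_lit 530) (nat_lit 3566) (.f (nat_lit 558) (nat_lit 560) (nat_lit 2573) (.f (nat_lit 461) (nat_lit 590) (nat_lit 4557) (.f (nat_lit 462) (nat_lit 430) (nat_lit 6573) (.d (nat_lit 460) (nat_lit 428) (nat_lit 7596) (nat_lit 459) (nat_lit 459))))))))))))))))) (.a (.p (nat_lit 525) (.a (.f (nat_lit 526) (nat_lit 492) (nat_lit 3564) (.f (nat_lit 557) (nat_lit 556) (nat_lit 1548) (.f (nat_lit 524) (nat_lit 560) (nat_lit 524) (.f (nat_lit 558) (nat_lit 523) (nat_lit 523) (.d (nat_lit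 461) (nat_lit 429) (nat_lit 4525) (nat_lit 590) (nat_lit 4557)))))) (.a (.p (nat_lit 557) (.a (.f (nat_lit 558) (nat_lit 556) (nat_lit 2572) (.f (nat_lit 560) (nat_lit 524) (nat_lit 3596) (.d (nat_lit 592) (nat_lit 593) (nat_lit 557) (nat_lit 624) (nat_lit 7663)))) (.a (.f (nat_lit 558) (nat_lit 556) (nat_lit 2572) (.f (nat_lit 590) (nat_lit 461) (nat_lit 4557) (.d (nat_lit 622) (nat_lit 589) (nat_lit 4589) (nat_lit 654) (nat_lit 6670)))) (.f (nat_lit 492) (nat_lit 494) (nat_lit 492) (.f (nat_lit 589) (nat_lit 460) (nat_lit 7628) (.f (nat_lit 621) (nat_lit 524) (nat_lit 7660) (.d (nat_lit 620) (nat_lit 588) (nat_lit 5612) (nat_lit 652) (nat_lit 5644)))))))) (.a (.f (nat_lit 526) (nat_lit 492) (nat_lit 3564) (.f (nat_lit 556) (nat_lit 557) (nat_lit 1548) (.d (nat_lit 524) (nat_lit 555) (nat_lit 1547) (nat_lit 560) (nat_lit 524)))) (.a (.p (nat_lit 557) (.a (.f (nat_lit 558) (nat_lit 556) (nat_lit 2572) (.f (nat_lit 590)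 (nat_lit 461) (nat_lit 4557) (.d (nat_lit 622) (nat_lit 589) (nat_lit 4589) (nat_lit 654) (nat_lit 6670)))) (.a (.f (nat_lit 492) (nat_lit 494) (nat_lit 492) (.f (nat_lit 589) (nat_lit 460) (nat_lit 7628) (.f (nat_lit 621) (nat_lit 524) (nat_lit 7660) (.d (nat_lit 620) (nat_lit 588) (nat_lit 5612) (nat_lit 652) (nat_lit 5644))))) (.f (nat_lit 558) (nat_lit 556) (nat_lit 2572) (.f (nat_lit 494) (nat_lit 492) (nat_lit 492) (.f (nat_lit 461) (nat_lit 590) (nat_lit 4557) (.f (nat_lit 462) (nat_lit 430) (nat_lit 6573) (.d (nat_lit 460) (nat_lit 428) (nat_lit 7596) (nat_lit 459) (nat_lit 459))))))))) (.a s128518 (.a (.f (nat_lit 526) (nat_lit 492) (nat_lit 3564) (.f (nat_lit 524) (nat_lit 560) (nat_lit 524) (.f (nat_lit 523) (nat_lit 558) (nat_lit 523) (.d (nat_lit 555) (nat_lit 554) (nat_lit 1546) (nat_lit 556) (nat_lit 1547))))) (.d (nat_lit 492) (nat_lit 494) (nat_lit 492) (nat_lit 526) (nat_lit 3564))))))))) (.p (nat_lit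 525) (.a s128430 (.a (.p (nat_lit 557) (.a (.f (nat_lit 558) (nat_lit 556) (nat_lit 2572) (.d (nat_lit 529) (nat_lit 530) (nat_lit 1550) (nat_lit 560) (nat_lit 2573))) (.a (.f (nat_lit 558) (nat_lit 556) (nat_lit 2572) (.f (nat_lit 560) (nat_lit 524) (nat_lit 3596) (.d (nat_lit 592) (nat_lit 593) (nat_lit 557) (nat_lit 624) (nat_lit 7663)))) (.a (.f (nat_lit 558) (nat_lit 556) (nat_lit 2572) (.f (nat_lit 590) (nat_lit 461) (nat_lit 4557) (.d (nat_lit 622) (nat_lit 589) (nat_lit 4589) (nat_lit 654) (nat_lit 6670)))) (.a s128457 (.p (nat_lit 461) (.a (.f (nat_lit 558) (nat_lit 590) (nat_lit 4557) (.d (nat_lit 560) (nat_lit 524) (nat_lit 3596) (nat_lit 529) (nat_lit 2573))) (.f (nat_lit 462) (nat_lit 430) (nat_lit 6573) (.f (nat_lit 494) (nat_lit 589) (nat_lit 6605) (.d (nat_lit 460) (nat_lit 428) (nat_lit 7596) (nat_lit 459) (nat_lit 459))))))))))) (.a (.p (nat_lit 526) (.a (.f (nat_lit 557) (nat_lit 556) (nat_lit 1548)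 (.f (nat_lit 558) (nat_lit 529) (nat_lit 1549) (.d (nat_lit 524) (nat_lit 523) (nat_lit 523) (nat_lit 560) (nat_lit 524)))) (.a (.f (nat_lit 556) (nat_lit 557) (nat_lit 1548) (.d (nat_lit 524) (nat_lit 555) (nat_lit 1547) (nat_lit 560) (nat_lit 524))) (.a (.f (nat_lit 494) (nat_lit 529) (nat_lit 3565) (.f (nat_lit 557) (nat_lit 556) (nat_lit 1548) (.d (nat_lit 589) (nat_lit 462) (nat_lit 6605) (nat_lit 621) (nat_lit 6637)))) (.a (.f (nat_lit 524) (nat_lit 560) (nat_lit 524) (.f (nat_lit 523) (nat_lit 558) (nat_lit 523) (.d (nat_lit 555) (nat_lit 554) (nat_lit 1546) (nat_lit 556) (nat_lit 1547)))) (.f (nat_lit 524) (nat_lit 560) (nat_lit 524) (.f (nat_lit 558) (nat_lit 523) (nat_lit 523) (.d (nat_lit 529) (nat_lit 530) (nat_lit 1550) (nat_lit 557) (nat_lit 1549))))))))) (.a s128518 (.a (.p (nat_lit 526) (.a (.f (nat_lit 557) (nat_lit 556) (nat_lit 1548) (.f (nat_lit 558) (nat_lit 529) (nat_lit 1549) (.d (nat_lit 461)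 (nat_lit 429) (nat_lit 4525) (nat_lit 590) (nat_lit 4557)))) (.a (.f (nat_lit 494) (nat_lit 529) (nat_lit 3565) (.f (nat_lit 557) (nat_lit 556) (nat_lit 1548) (.d (nat_lit 589) (nat_lit 462) (nat_lit 6605) (nat_lit 621) (nat_lit 6637)))) (.a (.f (nat_lit 556) (nat_lit 557) (nat_lit 1548) (.f (nat_lit 524) (nat_lit 555) (nat_lit 1547) (.d (nat_lit 523) (nat_lit 494) (nat_lit 2539) (nat_lit 558) (nat_lit 523)))) (.f (nat_lit 529) (nat_lit 494) (nat_lit 3565) (.f (nat_lit 530) (nat_lit 558) (nat_lit 1550) (.d (nat_lit 498) (nat_lit 497) (nat_lit 2542) (nat_lit 499) (nat_lit 2543)))))))) (.a (.p (nat_lit 526) (.a (.f (nat_lit 556) (nat_lit 557) (nat_lit 1548) (.d (nat_lit 524) (nat_lit 555) (nat_lit 1547) (nat_lit 560) (nat_lit 524))) (.a (.f (nat_lit 494) (nat_lit 529) (nat_lit 3565) (.f (nat_lit 557) (nat_lit 556) (nat_lit 1548) (.d (nat_lit 589) (nat_lit 462) (nat_lit 6605) (nat_lit 621) (nat_lit 6637)))) (.f (nat_lit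 494) (nat_lit 529) (nat_lit 3565) (.d (nat_lit 524) (nat_lit 523) (nat_lit 2539) (nat_lit 560) (nat_lit 524)))))) (.a (.p (nat_lit 526) (.a (.f (nat_lit 524) (nat_lit 560) (nat_lit 524) (.f (nat_lit 523) (nat_lit 558) (nat_lit 523) (.d (nat_lit 555) (nat_lit 554) (nat_lit 1546) (nat_lit 556) (nat_lit 1547)))) (.a (.f (nat_lit 529) (nat_lit 494) (nat_lit 3565) (.f (nat_lit 530) (nat_lit 558) (nat_lit 1550) (.d (nat_lit 498) (nat_lit 497) (nat_lit 2542) (nat_lit 499) (nat_lit 2543)))) (.f (nat_lit 494) (nat_lit 529) (nat_lit 3565) (.d (nat_lit 524) (nat_lit 523) (nat_lit 2539) (nat_lit 560) (nat_lit 524)))))) (.a (.p (nat_lit 529) (.a (.d (nat_lit 530) (nat_lit 494) (nat_lit 3566) (nat_lit 558) (nat_lit 1550)) (.a (.f (nat_lit 558) (nat_lit 530) (nat_lit 1550) (.d (nat_lit 557) (nat_lit 526) (nat_lit 1549) (nat_lit 556) (nat_lit 2572))) (.a (.d (nat_lit 494) (nat_lit 526) (nat_lit 3565) (nat_lit 530) (nat_lit 3566)) (.f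 (nat_lit 526) (nat_lit 494) (nat_lit 3565) (.d (nat_lit 557) (nat_lit 556) (nat_lit 1548) (nat_lit 558) (nat_lit 1549))))))) (.p (nat_lit 526) (.a (.f (nat_lit 524) (nat_lit 560) (nat_lit 524) (.f (nat_lit 558) (nat_lit 523) (nat_lit 523) (.d (nat_lit 529) (nat_lit 530) (nat_lit 1550) (nat_lit 557) (nat_lit 1549)))) (.a (.f (nat_lit 524) (nat_lit 560) (nat_lit 524) (.d (nat_lit 523) (nat_lit 494) (nat_lit 2539) (nat_lit 558) (nat_lit 523))) (.a (.f (nat_lit 529) (nat_lit 494) (nat_lit 3565) (.f (nat_lit 530) (nat_lit 558) (nat_lit 1550) (.d (nat_lit 498) (nat_lit 497) (nat_lit 2542) (nat_lit 499) (nat_lit 2543)))) (.f (nat_lit 494) (nat_lit 529) (nat_lit 3565) (.d (nat_lit 524) (nat_lit 523) (nat_lit 2539) (nat_lit 560) (nat_lit 524)))))))))))))))))))))))))))) (.a (.p (nat_lit 463) (.a (.f (nat_lit 431) (nat_lit 560) (nat_lit 4527) (.f (nat_lit 558) (nat_lit 526) (nat_lit 5550) (.f (nat_lit 559) (nat_lit 590) (nat_lit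 5582) (.d (nat_lit 432) (nat_lit 400) (nat_lit 6543) (nat_lit 464) (nat_lit 6575))))) (.a (.f (nat_lit 431) (nat_lit 560) (nat_lit 4527) (.f (nat_lit 430) (nat_lit 398) (nat_lit 7566) (.f (nat_lit 432) (nat_lit 400) (nat_lit 6543) (.d (nat_lit 559) (nat_lit 462) (nat_lit 7598) (nat_lit 464) (nat_lit 6575))))) (.a (.p (nat_lit 559) (.a (.f (nat_lit 558) (nat_lit 590) (nat_lit 5582) (.f (nat_lit 557) (nat_lit 556) (nat_lit 2572) (.d (nat_lit 529) (nat_lit 526) (nat_lit 1549) (nat_lit 530) (nat_lit 1550)))) (.a (.f (nat_lit 558) (nat_lit 590) (nat_lit 5582) (.f (nat_lit 560) (nat_lit 592) (nat_lit 4559) (.d (nat_lit 557) (nat_lit 529) (nat_lit 2573) (nat_lit 556) (nat_lit 2572)))) (.a (.f (nat_lit 592) (nat_lit 560) (nat_lit 4559) (.f (nat_lit 591) (nat_lit 624) (nat_lit 4591) (.d (nat_lit 590) (nat_lit 558) (nat_lit 5582) (nat_lit 622) (nat_lit 5614)))) (.a (.f (nat_lit 560) (nat_lit 592) (nat_lit 4559) (.f (nat_lit 462)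 (nat_lit 430) (nat_lit 7598) (.f (nat_lit 591) (nat_lit 494) (nat_lit 7630) (.f (nat_lit 623) (nat_lit 655) (nat_lit 6671) (.d (nat_lit 622) (nat_lit 590) (nat_lit 5614) (nat_lit 654) (nat_lit 5646)))))) (.f (nat_lit 560) (nat_lit 592) (nat_lit 4559) (.f (nat_lit 462) (nat_lit 430) (nat_lit 7598) (.f (nat_lit 494) (nat_lit 591) (nat_lit 7630) (.f (nat_lit 529) (nat_lit 530) (nat_lit 3566) (.f (nat_lit 464) (nat_lit 432) (nat_lit 6575) (.f (nat_lit 465) (nat_lit 466) (nat_lit 1486) (.d (nat_lit 433) (nat_lit 434) (nat_lit 2478) (nat_lit 497) (nat_lit 5552))))))))))))) (.a (.f (nat_lit 431) (nat_lit 560) (nat_lit 4527) (.f (nat_lit 526) (nat_lit 558) (nat_lit 5550) (.f (nat_lit 399) (nat_lit 494) (nat_lit 5518) (.d (nat_lit 400) (nat_lit 368) (nat_lit 6511) (nat_lit 432) (nat_lit 6543))))) (.a s128208 (.f (nat_lit 560) (nat_lit 431) (nat_lit 4527) (.d (nat_lit 592) (nat_lit 559) (nat_lit 4559) (nat_lit 624) (nat_lit 7663)))))))))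 (.a (.p (nat_lit 463) (.a (.f (nat_lit 431) (nat_lit 560) (nat_lit 4527) (.f (nat_lit 558) (nat_lit 526) (nat_lit 5550) (.f (nat_lit 559) (nat_lit 590) (nat_lit 5582) (.d (nat_lit 432) (nat_lit 400) (nat_lit 6543) (nat_lit 464) (nat_lit 6575))))) (.a (.f (nat_lit 560) (nat_lit 431) (nat_lit 4527) (.d (nat_lit 592) (nat_lit 559) (nat_lit 4559) (nat_lit 624) (nat_lit 7663))) (.a (.p (nat_lit 559) (.a (.f (nat_lit 558) (nat_lit 590) (nat_lit 5582) (.f (nat_lit 557) (nat_lit 556) (nat_lit 2572) (.d (nat_lit 529) (nat_lit 526) (nat_lit 1549) (nat_lit 530) (nat_lit 1550)))) (.a (.f (nat_lit 558) (nat_lit 590) (nat_lit 5582) (.f (nat_lit 560) (nat_lit 592) (nat_lit 4559) (.d (nat_lit 557) (nat_lit 529) (nat_lit 2573) (nat_lit 556) (nat_lit 2572)))) (.a (.f (nat_lit 592) (nat_lit 560) (nat_lit 4559) (.f (nat_lit 591) (nat_lit 624) (nat_lit 4591) (.d (nat_lit 590) (nat_lit 558) (nat_lit 5582) (nat_lit 622) (nat_lit 5614))))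 (.a s128574 (.p (nat_lit 461) (.a (.f (nat_lit 462) (nat_lit 430) (nat_lit 7598) (.f (nat_lit 464) (nat_lit 432) (nat_lit 6575) (.f (nat_lit 492) (nat_lit 493) (nat_lit 1484) (.f (nat_lit 460) (nat_lit 491) (nat_lit 1483) (.d (nat_lit 428) (nat_lit 427) (nat_lit 3499) (nat_lit 429) (nat_lit 3500)))))) (.a (.p (nat_lit 525) (.a (.f (nat_lit 560) (nat_lit 592) (nat_lit 4559) (.f (nat_lit 526) (nat_lit 524) (nat_lit 524) (.f (nat_lit 557) (nat_lit 556) (nat_lit 1548) (.f (nat_lit 529) (nat_lit 558) (nat_lit 1549) (.f (nat_lit 530) (nat_lit 531) (nat_lit 1551) (.d (nat_lit 498) (nat_lit 497) (nat_lit 2542) (nat_lit 499) (nat_lit 2543))))))) (.a (.p (nat_lit 557) (.a (.f (nat_lit 558) (nat_lit 556) (nat_lit 2572) (.d (nat_lit 560) (nat_lit 529) (nat_lit 2573) (nat_lit 592) (nat_lit 4559))) (.a (.f (nat_lit 560) (nat_lit 592) (nat_lit 4559) (.d (nat_lit 558) (nat_lit 524) (nat_lit 3596) (nat_lit 556) (nat_lit 2572))) (.a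 (.f (nat_lit 556) (nat_lit 558) (nat_lit 2572) (.f (nat_lit 493) (nat_lit 588) (nat_lit 5580) (.f (nat_lit 429) (nat_lit 524) (nat_lit 5548) (.d (nat_lit 428) (nat_lit 396) (nat_lit 7564) (nat_lit 460) (nat_lit 7596))))) (.a (.p (nat_lit 493) (.a (.f (nat_lit 592) (nat_lit 560) (nat_lit 4559) (.f (nat_lit 588) (nat_lit 556) (nat_lit 5580) (.f (nat_lit 589) (nat_lit 620) (nat_lit 5612) (.f (nat_lit 492) (nat_lit 460) (nat_lit 7628) (.f (nat_lit 621) (nat_lit 524) (nat_lit 7660) (.f (nat_lit 622) (nat_lit 654) (nat_lit 4621) (.d (nat_lit 624) (nat_lit 591) (nat_lit 4591) (nat_lit 623) (nat_lit 3660)))))))) (.a (.f (nat_lit 460) (nat_lit 428) (nat_lit 7596) (.f (nat_lit 556) (nat_lit 588) (nat_lit 5580) (.f (nat_lit 524) (nat_lit 429) (nat_lit 5548) (.f (nat_lit 492) (nat_lit 589) (nat_lit 4556) (.f (nat_lit 459) (nat_lit 427) (nat_lit 7595) (.f (nat_lit 458) (nat_lit 457) (nat_lit 457) (.f (nat_lit 490) (nat_lit 489)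 (nat_lit 1481) (.f (nat_lit 555) (nat_lit 587) (nat_lit 5579) (.f (nat_lit 554) (nat_lit 553) (nat_lit 2569) (.f (nat_lit 522) (nat_lit 521) (nat_lit 3593) (.d (nat_lit 426) (nat_lit 425) (nat_lit 3497) (nat_lit 523) (nat_lit 4522)))))))))))) (.a (.f (nat_lit 556) (nat_lit 588) (nat_lit 5580) (.f (nat_lit 429) (nat_lit 524) (nat_lit 5548) (.d (nat_lit 428) (nat_lit 396) (nat_lit 7564) (nat_lit 460) (nat_lit 7596)))) (.a (.f (nat_lit 556) (nat_lit 588) (nat_lit 5580) (.f (nat_lit 429) (nat_lit 524) (nat_lit 5548) (.f (nat_lit 398) (nat_lit 430) (nat_lit 6541) (.f (nat_lit 397) (nat_lit 366) (nat_lit 6509) (.d (nat_lit 396) (nat_lit 364) (nat_lit 7532) (nat_lit 428) (nat_lit 7564)))))) (.a (.f (nat_lit 460) (nat_lit 428) (nat_lit 7596) (.f (nat_lit 589) (nat_lit 492) (nat_lit 7628) (.d (nat_lit 588) (nat_lit 556) (nat_lit 5580) (nat_lit 620) (nat_lit 5612)))) (.a (.f (nat_lit 592) (nat_lit 560) (nat_lit 4559) (.f (nat_lit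 460) (nat_lit 428) (nat_lit 7596) (.f (nat_lit 589) (nat_lit 492) (nat_lit 7628) (.f (nat_lit 620) (nat_lit 588) (nat_lit 5612) (.f (nat_lit 621) (nat_lit 652) (nat_lit 5644) (.f (nat_lit 622) (nat_lit 654) (nat_lit 4621) (.d (nat_lit 591) (nat_lit 623) (nat_lit 2636) (nat_lit 624) (nat_lit 4591)))))))) (.f (nat_lit 428) (nat_lit 460) (nat_lit 7596) (.f (nat_lit 429) (nat_lit 396) (nat_lit 7564) (.f (nat_lit 398) (nat_lit 430) (nat_lit 6541) (.f (nat_lit 397) (nat_lit 366) (nat_lit 6509) (.d (nat_lit 524) (nat_lit 492) (nat_lit 5516) (nat_lit 556) (nat_lit 5548))))))))))))) (.f (nat_lit 560) (nat_lit 592) (nat_lit 4559) (.d (nat_lit 558) (nat_lit 524) (nat_lit 3596) (nat_lit 529) (nat_lit 2573)))))))) (.a (.f (nat_lit 560) (nat_lit 592) (nat_lit 4559) (.f (nat_lit 526) (nat_lit 524) (nat_lit 524) (.f (nat_lit 557) (nat_lit 556) (nat_lit 1548) (.f (nat_lit 493) (nat_lit 492) (nat_lit 3564) (.f (nat_lit 429) (nat_lit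 558) (nat_lit 4525) (.d (nat_lit 428) (nat_lit 396) (nat_lit 7564) (nat_lit 460) (nat_lit 7596))))))) (.a (.p (nat_lit 493) (.a (.f (nat_lit 526) (nat_lit 492) (nat_lit 3564) (.f (nat_lit 557) (nat_lit 556) (nat_lit 1548) (.d (nat_lit 558) (nat_lit 429) (nat_lit 4525) (nat_lit 529) (nat_lit 1549)))) (.a (.p (nat_lit 429) (.a (.f (nat_lit 556) (nat_lit 524) (nat_lit 5548) (.d (nat_lit 557) (nat_lit 558) (nat_lit 2572) (nat_lit 588) (nat_lit 5580))) (.a (.f (nat_lit 524) (nat_lit 556) (nat_lit 5548) (.f (nat_lit 397) (nat_lit 492) (nat_lit 5516) (.d (nat_lit 398) (nat_lit 366) (nat_lit 6509) (nat_lit 430) (nat_lit 6541)))) (.a (.f (nat_lit 428) (nat_lit 396) (nat_lit 7564) (.f (nat_lit 557) (nat_lit 460) (nat_lit 7596) (.d (nat_lit 556) (nat_lit 558) (nat_lit 2572) (nat_lit 588) (nat_lit 5580)))) (.f (nat_lit 428) (nat_lit 396) (nat_lit 7564) (.f (nat_lit 460) (nat_lit 557) (nat_lit 7596) (.f (nat_lit 398) (nat_lit 430)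 (nat_lit 6541) (.f (nat_lit 397) (nat_lit 366) (nat_lit 6509) (.d (nat_lit 365) (nat_lit 333) (nat_lit 5452) (nat_lit 492) (nat_lit 5484)))))))))) (.a (.p (nat_lit 557) (.a (.d (nat_lit 556) (nat_lit 558) (nat_lit 2572) (nat_lit 588) (nat_lit 5580)) (.a (.f (nat_lit 460) (nat_lit 428) (nat_lit 7596) (.f (nat_lit 589) (nat_lit 492) (nat_lit 7628) (.d (nat_lit 588) (nat_lit 556) (nat_lit 5580) (nat_lit 620) (nat_lit 5612)))) (.f (nat_lit 492) (nat_lit 526) (nat_lit 3564) (.d (nat_lit 460) (nat_lit 428) (nat_lit 7596) (nat_lit 589) (nat_lit 7628)))))) (.a (.p (nat_lit 429) (.a (.f (nat_lit 556) (nat_lit 524) (nat_lit 5548) (.d (nat_lit 557) (nat_lit 558) (nat_lit 2572) (nat_lit 588) (nat_lit 5580))) (.a (.f (nat_lit 428) (nat_lit 396) (nat_lit 7564) (.f (nat_lit 556) (nat_lit 524) (nat_lit 5548) (.d (nat_lit 557) (nat_lit 460) (nat_lit 7596) (nat_lit 588) (nat_lit 5580)))) (.f (nat_lit 396) (nat_lit 428) (nat_lit 7564)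 (.f (nat_lit 397) (nat_lit 364) (nat_lit 7532) (.d (nat_lit 398) (nat_lit 366) (nat_lit 6509) (nat_lit 430) (nat_lit 6541))))))) (.a s128671 (.f (nat_lit 526) (nat_lit 492) (nat_lit 3564) (.f (nat_lit 429) (nat_lit 558) (nat_lit 4525) (.f (nat_lit 396) (nat_lit 428) (nat_lit 7564) (.f (nat_lit 397) (nat_lit 364) (nat_lit 7532) (.d (nat_lit 398) (nat_lit 366) (nat_lit 6509) (nat_lit 430) (nat_lit 6541)))))))))))) (.a (.p (nat_lit 493) (.a (.f (nat_lit 526) (nat_lit 492) (nat_lit 3564) (.d (nat_lit 560) (nat_lit 524) (nat_lit 524) (nat_lit 592) (nat_lit 4559))) (.a s128671 (.a (.f (nat_lit 560) (nat_lit 592) (nat_lit 4559) (.f (nat_lit 524) (nat_lit 526) (nat_lit 524) (.f (nat_lit 429) (nat_lit 556) (nat_lit 5548) (.f (nat_lit 396) (nat_lit 428) (nat_lit 7564) (.f (nat_lit 397) (nat_lit 364) (nat_lit 7532) (.d (nat_lit 398) (nat_lit 366) (nat_lit 6509) (nat_lit 430) (nat_lit 6541))))))) s128699)))) (.a (.f (nat_lit 560)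 (nat_lit 592) (nat_lit 4559) (.f (nat_lit 526) (nat_lit 524) (nat_lit 524) (.f (nat_lit 493) (nat_lit 492) (nat_lit 3564) (.f (nat_lit 429) (nat_lit 558) (nat_lit 4525) (.f (nat_lit 396) (nat_lit 428) (nat_lit 7564) (.f (nat_lit 397) (nat_lit 364) (nat_lit 7532) (.d (nat_lit 398) (nat_lit 366) (nat_lit 6509) (nat_lit 430) (nat_lit 6541)))))))) (.p (nat_lit 493) (.a (.f (nat_lit 526) (nat_lit 492) (nat_lit 3564) (.f (nat_lit 557) (nat_lit 556) (nat_lit 1548) (.d (nat_lit 558) (nat_lit 429) (nat_lit 4525) (nat_lit 529) (nat_lit 1549)))) (.a (.p (nat_lit 557) (.a (.d (nat_lit 556) (nat_lit 558) (nat_lit 2572) (nat_lit 588) (nat_lit 5580)) (.a (.f (nat_lit 460) (nat_lit 428) (nat_lit 7596) (.f (nat_lit 589) (nat_lit 492) (nat_lit 7628) (.d (nat_lit 588) (nat_lit 556) (nat_lit 5580) (nat_lit 620) (nat_lit 5612)))) (.a (.f (nat_lit 592) (nat_lit 560) (nat_lit 4559) (.f (nat_lit 460) (nat_lit 428) (nat_lit 7596) (.f (nat_lit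 589) (nat_lit 492) (nat_lit 7628) (.f (nat_lit 620) (nat_lit 588) (nat_lit 5612) (.f (nat_lit 621) (nat_lit 652) (nat_lit 5644) (.f (nat_lit 622) (nat_lit 654) (nat_lit 4621) (.d (nat_lit 591) (nat_lit 623) (nat_lit 2636) (nat_lit 624) (nat_lit 4591)))))))) (.f (nat_lit 560) (nat_lit 592) (nat_lit 4559) (.d (nat_lit 558) (nat_lit 529) (nat_lit 2573) (nat_lit 556) (nat_lit 2572))))))) (.a (.p (nat_lit 557) (.a (.d (nat_lit 556) (nat_lit 558) (nat_lit 2572) (nat_lit 588) (nat_lit 5580)) (.a (.f (nat_lit 460) (nat_lit 428) (nat_lit 7596) (.f (nat_lit 589) (nat_lit 492) (nat_lit 7628) (.d (nat_lit 588) (nat_lit 556) (nat_lit 5580) (nat_lit 620) (nat_lit 5612)))) (.f (nat_lit 492) (nat_lit 526) (nat_lit 3564) (.d (nat_lit 460) (nat_lit 428) (nat_lit 7596) (nat_lit 589) (nat_lit 7628)))))) (.a (.p (nat_lit 429) (.a (.f (nat_lit 428) (nat_lit 396) (nat_lit 7564) (.f (nat_lit 557) (nat_lit 460) (nat_lit 7596) (.d (nat_lit 556)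 (nat_lit 558) (nat_lit 2572) (nat_lit 588) (nat_lit 5580)))) (.a (.f (nat_lit 396) (nat_lit 428) (nat_lit 7564) (.f (nat_lit 397) (nat_lit 364) (nat_lit 7532) (.d (nat_lit 398) (nat_lit 366) (nat_lit 6509) (nat_lit 430) (nat_lit 6541)))) (.f (nat_lit 558) (nat_lit 526) (nat_lit 4525) (.f (nat_lit 560) (nat_lit 592) (nat_lit 4559) (.d (nat_lit 557) (nat_lit 529) (nat_lit 2573) (nat_lit 556) (nat_lit 2572))))))) (.a s128699 (.f (nat_lit 526) (nat_lit 492) (nat_lit 3564) (.f (nat_lit 429) (nat_lit 558) (nat_lit 4525) (.f (nat_lit 396) (nat_lit 428) (nat_lit 7564) (.f (nat_lit 397) (nat_lit 364) (nat_lit 7532) (.d (nat_lit 398) (nat_lit 366) (nat_lit 6509) (nat_lit 430) (nat_lit 6541))))))))))))))))))) (.a (.p (nat_lit 557) (.a (.f (nat_lit 558) (nat_lit 556) (nat_lit 2572) (.d (nat_lit 529) (nat_lit 526) (nat_lit 1549) (nat_lit 530) (nat_lit 1550))) (.a (.f (nat_lit 560) (nat_lit 592) (nat_lit 4559) (.d (nat_lit 558) (nat_lit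 529) (nat_lit 2573) (nat_lit 556) (nat_lit 2572))) (.a (.f (nat_lit 462) (nat_lit 430) (nat_lit 7598) (.f (nat_lit 464) (nat_lit 432) (nat_lit 6575) (.f (nat_lit 428) (nat_lit 429) (nat_lit 3500) (.f (nat_lit 460) (nat_lit 427) (nat_lit 3499) (.f (nat_lit 492) (nat_lit 491) (nat_lit 1483) (.f (nat_lit 524) (nat_lit 525) (nat_lit 4524) (.f (nat_lit 556) (nat_lit 589) (nat_lit 4556) (.d (nat_lit 555) (nat_lit 523) (nat_lit 5547) (nat_lit 587) (nat_lit 5579))))))))) (.f (nat_lit 560) (nat_lit 592) (nat_lit 4559) (.f (nat_lit 529) (nat_lit 558) (nat_lit 2573) (.f (nat_lit 530) (nat_lit 531) (nat_lit 1551) (.f (nat_lit 462) (nat_lit 430) (nat_lit 7598) (.f (nat_lit 464) (nat_lit 432) (nat_lit 6575) (.f (nat_lit 498) (nat_lit 499) (nat_lit 2543) (.d (nat_lit 497) (nat_lit 465) (nat_lit 462) (nat_lit 526) (nat_lit 2542)))))))))))) (.a (.p (nat_lit 557) (.a (.f (nat_lit 558) (nat_lit 556) (nat_lit 2572) (.d (nat_lit 529) (nat_lit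 526) (nat_lit 1549) (nat_lit 530) (nat_lit 1550))) (.a (.f (nat_lit 560) (nat_lit 592) (nat_lit 4559) (.d (nat_lit 558) (nat_lit 529) (nat_lit 2573) (nat_lit 556) (nat_lit 2572))) (.a (.f (nat_lit 556) (nat_lit 558) (nat_lit 2572) (.f (nat_lit 525) (nat_lit 526) (nat_lit 1548) (.f (nat_lit 493) (nat_lit 588) (nat_lit 5580) (.f (nat_lit 462) (nat_lit 430) (nat_lit 7598) (.d (nat_lit 464) (nat_lit 432) (nat_lit 6575) (nat_lit 492) (nat_lit 1484)))))) (.a (.f (nat_lit 462) (nat_lit 430) (nat_lit 7598) (.f (nat_lit 464) (nat_lit 432) (nat_lit 6575) (.f (nat_lit 492) (nat_lit 493) (nat_lit 1484) (.f (nat_lit 460) (nat_lit 491) (nat_lit 1483) (.f (nat_lit 428) (nat_lit 427) (nat_lit 3499) (.f (nat_lit 524) (nat_lit 525) (nat_lit 4524) (.f (nat_lit 556) (nat_lit 589) (nat_lit 4556) (.d (nat_lit 555) (nat_lit 523) (nat_lit 5547) (nat_lit 587) (nat_lit 5579))))))))) (.f (nat_lit 560) (nat_lit 592) (nat_lit 4559) (.f (nat_lit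 529) (nat_lit 558) (nat_lit 2573) (.f (nat_lit 530) (nat_lit 531) (nat_lit 1551) (.f (nat_lit 462) (nat_lit 430) (nat_lit 7598) (.f (nat_lit 464) (nat_lit 432) (nat_lit 6575) (.f (nat_lit 498) (nat_lit 499) (nat_lit 2543) (.d (nat_lit 497) (nat_lit 465) (nat_lit 462) (nat_lit 526) (nat_lit 2542))))))))))))) (.a (.p (nat_lit 525) (.a (.f (nat_lit 560) (nat_lit 592) (nat_lit 4559) (.f (nat_lit 526) (nat_lit 524) (nat_lit 524) (.f (nat_lit 557) (nat_lit 556) (nat_lit 1548) (.f (nat_lit 529) (nat_lit 558) (nat_lit 1549) (.f (nat_lit 530) (nat_lit 531) (nat_lit 1551) (.d (nat_lit 498) (nat_lit 497) (nat_lit 2542) (nat_lit 499) (nat_lit 2543))))))) (.a (.p (nat_lit 493) (.a (.p (nat_lit 557) (.a (.d (nat_lit 556) (nat_lit 558) (nat_lit 2572) (nat_lit 588) (nat_lit 5580)) (.a (.f (nat_lit 592) (nat_lit 560) (nat_lit 4559) (.f (nat_lit 588) (nat_lit 556) (nat_lit 5580) (.f (nat_lit 589) (nat_lit 620) (nat_lit 5612) (.f (nat_lit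 492) (nat_lit 460) (nat_lit 7628) (.f (nat_lit 621) (nat_lit 524) (nat_lit 7660) (.f (nat_lit 622) (nat_lit 654) (nat_lit 4621) (.d (nat_lit 624) (nat_lit 591) (nat_lit 4591) (nat_lit 623) (nat_lit 3660)))))))) (.f (nat_lit 560) (nat_lit 592) (nat_lit 4559) (.d (nat_lit 558) (nat_lit 524) (nat_lit 3596) (nat_lit 529) (nat_lit 2573)))))) (.a (.f (nat_lit 464) (nat_lit 432) (nat_lit 6575) (.f (nat_lit 462) (nat_lit 492) (nat_lit 1484) (.f (nat_lit 428) (nat_lit 429) (nat_lit 3500) (.d (nat_lit 460) (nat_lit 427) (nat_lit 3499) (nat_lit 557) (nat_lit 7596))))) (.a (.p (nat_lit 429) (.a (.f (nat_lit 556) (nat_lit 524) (nat_lit 5548) (.d (nat_lit 557) (nat_lit 558) (nat_lit 2572) (nat_lit 588) (nat_lit 5580))) (.a (.f (nat_lit 428) (nat_lit 396) (nat_lit 7564) (.f (nat_lit 556) (nat_lit 524) (nat_lit 5548) (.d (nat_lit 557) (nat_lit 460) (nat_lit 7596) (nat_lit 588) (nat_lit 5580)))) (.f (nat_lit 428) (nat_lit 396) (nat_lit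 7564) (.d (nat_lit 464) (nat_lit 432) (nat_lit 6575) (nat_lit 462) (nat_lit 3500)))))) (.a (.f (nat_lit 464) (nat_lit 432) (nat_lit 6575) (.f (nat_lit 462) (nat_lit 492) (nat_lit 1484) (.f (nat_lit 429) (nat_lit 428) (nat_lit 3500) (.f (nat_lit 556) (nat_lit 524) (nat_lit 5548) (.d (nat_lit 557) (nat_lit 558) (nat_lit 2572) (nat_lit 588) (nat_lit 5580)))))) s128773))))) (.a (.f (nat_lit 560) (nat_lit 592) (nat_lit 4559) (.f (nat_lit 526) (nat_lit 524) (nat_lit 524) (.f (nat_lit 557) (nat_lit 556) (nat_lit 1548) (.f (nat_lit 493) (nat_lit 492) (nat_lit 3564) (.f (nat_lit 429) (nat_lit 558) (nat_lit 4525) (.d (nat_lit 428) (nat_lit 396) (nat_lit 7564) (nat_lit 460) (nat_lit 7596))))))) (.a (.p (nat_lit 493) (.a (.f (nat_lit 526) (nat_lit 492) (nat_lit 3564) (.f (nat_lit 557) (nat_lit 556) (nat_lit 1548) (.d (nat_lit 558) (nat_lit 429) (nat_lit 4525) (nat_lit 529) (nat_lit 1549)))) (.a (.f (nat_lit 464) (nat_lit 432) (nat_lit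 6575) (.f (nat_lit 462) (nat_lit 492) (nat_lit 1484) (.f (nat_lit 428) (nat_lit 429) (nat_lit 3500) (.d (nat_lit 460) (nat_lit 427) (nat_lit 3499) (nat_lit 557) (nat_lit 7596))))) (.a (.p (nat_lit 557) (.a (.d (nat_lit 556) (nat_lit 558) (nat_lit 2572) (nat_lit 588) (nat_lit 5580)) (.a (.f (nat_lit 460) (nat_lit 428) (nat_lit 7596) (.f (nat_lit 589) (nat_lit 492) (nat_lit 7628) (.d (nat_lit 588) (nat_lit 556) (nat_lit 5580) (nat_lit 620) (nat_lit 5612)))) (.f (nat_lit 492) (nat_lit 526) (nat_lit 3564) (.d (nat_lit 460) (nat_lit 428) (nat_lit 7596) (nat_lit 589) (nat_lit 7628)))))) (.a (.p (nat_lit 429) (.a (.f (nat_lit 556) (nat_lit 524) (nat_lit 5548) (.d (nat_lit 557) (nat_lit 558) (nat_lit 2572) (nat_lit 588) (nat_lit 5580))) (.a (.f (nat_lit 428) (nat_lit 396) (nat_lit 7564) (.f (nat_lit 556) (nat_lit 524) (nat_lit 5548) (.d (nat_lit 557) (nat_lit 460) (nat_lit 7596) (nat_lit 588) (nat_lit 5580)))) (.f (nat_lit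 428) (nat_lit 396) (nat_lit 7564) (.d (nat_lit 464) (nat_lit 432) (nat_lit 6575) (nat_lit 462) (nat_lit 3500)))))) s128773))))) (.a (.f (nat_lit 560) (nat_lit 592) (nat_lit 4559) (.f (nat_lit 526) (nat_lit 524) (nat_lit 524) (.f (nat_lit 493) (nat_lit 492) (nat_lit 3564) (.f (nat_lit 557) (nat_lit 556) (nat_lit 1548) (.f (nat_lit 428) (nat_lit 460) (nat_lit 7596) (.f (nat_lit 429) (nat_lit 396) (nat_lit 7564) (.d (nat_lit 464) (nat_lit 432) (nat_lit 6575) (nat_lit 462) (nat_lit 3500)))))))) (.a (.f (nat_lit 560) (nat_lit 592) (nat_lit 4559) (.f (nat_lit 526) (nat_lit 524) (nat_lit 524) (.f (nat_lit 493) (nat_lit 492) (nat_lit 3564) (.f (nat_lit 429) (nat_lit 558) (nat_lit 4525) (.f (nat_lit 428) (nat_lit 396) (nat_lit 7564) (.d (nat_lit 464) (nat_lit 432) (nat_lit 6575) (nat_lit 462) (nat_lit 3500))))))) (.p (nat_lit 557) (.a (.f (nat_lit 558) (nat_lit 556) (nat_lit 2572) (.d (nat_lit 560) (nat_lit 529) (nat_lit 2573)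 (nat_lit 592) (nat_lit 4559))) (.a (.d (nat_lit 556) (nat_lit 526) (nat_lit 1548) (nat_lit 558) (nat_lit 2572)) (.a (.f (nat_lit 526) (nat_lit 556) (nat_lit 1548) (.f (nat_lit 493) (nat_lit 492) (nat_lit 3564) (.f (nat_lit 428) (nat_lit 460) (nat_lit 7596) (.f (nat_lit 429) (nat_lit 396) (nat_lit 7564) (.d (nat_lit 464) (nat_lit 432) (nat_lit 6575) (nat_lit 462) (nat_lit 3500)))))) (.f (nat_lit 560) (nat_lit 592) (nat_lit 4559) (.f (nat_lit 529) (nat_lit 558) (nat_lit 2573) (.f (nat_lit 530) (nat_lit 531) (nat_lit 1551) (.f (nat_lit 498) (nat_lit 499) (nat_lit 2543) (.f (nat_lit 562) (nat_lit 563) (nat_lit 527) (.f (nat_lit 497) (nat_lit 526) (nat_lit 2542) (.d (nat_lit 465) (nat_lit 433) (nat_lit 4529) (nat_lit 594) (nat_lit 7633))))))))))))))))))) (.a (.p (nat_lit 557) (.a (.f (nat_lit 558) (nat_lit 556) (nat_lit 2572) (.d (nat_lit 529) (nat_lit 526) (nat_lit 1549) (nat_lit 530) (nat_lit 1550))) (.a (.f (nat_lit 560)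 (nat_lit 592) (nat_lit 4559) (.d (nat_lit 558) (nat_lit 529) (nat_lit 2573) (nat_lit 556) (nat_lit 2572))) (.a (.f (nat_lit 560) (nat_lit 592) (nat_lit 4559) (.f (nat_lit 558) (nat_lit 556) (nat_lit 2572) (.f (nat_lit 525) (nat_lit 524) (nat_lit 3596) (.f (nat_lit 462) (nat_lit 430) (nat_lit 7598) (.f (nat_lit 464) (nat_lit 432) (nat_lit 6575) (.f (nat_lit 428) (nat_lit 429) (nat_lit 3500) (.d (nat_lit 460) (nat_lit 427) (nat_lit 3499) (nat_lit 493) (nat_lit 7596)))))))) (.a (.f (nat_lit 560) (nat_lit 592) (nat_lit 4559) (.f (nat_lit 462) (nat_lit 430) (nat_lit 7598) (.f (nat_lit 464) (nat_lit 432) (nat_lit 6575) (.f (nat_lit 428) (nat_lit 429) (nat_lit 3500) (.f (nat_lit 460) (nat_lit 427) (nat_lit 3499) (.f (nat_lit 525) (nat_lit 493) (nat_lit 7596) (.d (nat_lit 526) (nat_lit 524) (nat_lit 524) (nat_lit 556) (nat_lit 1548)))))))) (.f (nat_lit 560) (nat_lit 592) (nat_lit 4559) (.f (nat_lit 529) (nat_lit 558) (nat_lit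 2573) (.f (nat_lit 530) (nat_lit 531) (nat_lit 1551) (.f (nat_lit 462) (nat_lit 430) (nat_lit 7598) (.f (nat_lit 464) (nat_lit 432) (nat_lit 6575) (.f (nat_lit 498) (nat_lit 499) (nat_lit 2543) (.d (nat_lit 497) (nat_lit 465) (nat_lit 462) (nat_lit 526) (nat_lit 2542))))))))))))) (.a (.p (nat_lit 525) (.a (.f (nat_lit 560) (nat_lit 592) (nat_lit 4559) (.f (nat_lit 526) (nat_lit 524) (nat_lit 524) (.f (nat_lit 557) (nat_lit 556) (nat_lit 1548) (.f (nat_lit 529) (nat_lit 558) (nat_lit 1549) (.f (nat_lit 530) (nat_lit 531) (nat_lit 1551) (.d (nat_lit 498) (nat_lit 497) (nat_lit 2542) (nat_lit 499) (nat_lit 2543))))))) (.a (.f (nat_lit 462) (nat_lit 430) (nat_lit 7598) (.f (nat_lit 464) (nat_lit 432) (nat_lit 6575) (.f (nat_lit 493) (nat_lit 492) (nat_lit 1484) (.f (nat_lit 429) (nat_lit 428) (nat_lit 3500) (.f (nat_lit 556) (nat_lit 524) (nat_lit 5548) (.d (nat_lit 557) (nat_lit 558) (nat_lit 2572) (nat_lit 588) (nat_lit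 5580))))))) (.a (.f (nat_lit 560) (nat_lit 592) (nat_lit 4559) (.f (nat_lit 462) (nat_lit 430) (nat_lit 7598) (.f (nat_lit 464) (nat_lit 432) (nat_lit 6575) (.f (nat_lit 493) (nat_lit 492) (nat_lit 1484) (.f (nat_lit 429) (nat_lit 428) (nat_lit 3500) (.d (nat_lit 524) (nat_lit 526) (nat_lit 524) (nat_lit 556) (nat_lit 5548))))))) (.f (nat_lit 560) (nat_lit 592) (nat_lit 4559) (.f (nat_lit 462) (nat_lit 430) (nat_lit 7598) (.f (nat_lit 464) (nat_lit 432) (nat_lit 6575) (.f (nat_lit 493) (nat_lit 492) (nat_lit 1484) (.f (nat_lit 429) (nat_lit 428) (nat_lit 3500) (.f (nat_lit 558) (nat_lit 526) (nat_lit 4525) (.d (nat_lit 529) (nat_lit 530) (nat_lit 1550) (nat_lit 557) (nat_lit 2573)))))))))))) (.p (nat_lit 493) (.a (.f (nat_lit 462) (nat_lit 430) (nat_lit 7598) (.d (nat_lit 464) (nat_lit 432) (nat_lit 6575) (nat_lit 492) (nat_lit 1484))) (.a (.p (nat_lit 525) (.a (.f (nat_lit 526) (nat_lit 492) (nat_lit 3564) (.d (nat_lit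 560) (nat_lit 524) (nat_lit 524) (nat_lit 592) (nat_lit 4559))) (.a (.p (nat_lit 557) (.a (.d (nat_lit 556) (nat_lit 558) (nat_lit 2572) (nat_lit 588) (nat_lit 5580)) (.a (.f (nat_lit 592) (nat_lit 560) (nat_lit 4559) (.f (nat_lit 588) (nat_lit 556) (nat_lit 5580) (.f (nat_lit 589) (nat_lit 620) (nat_lit 5612) (.f (nat_lit 492) (nat_lit 460) (nat_lit 7628) (.f (nat_lit 621) (nat_lit 524) (nat_lit 7660) (.f (nat_lit 622) (nat_lit 654) (nat_lit 4621) (.d (nat_lit 624) (nat_lit 591) (nat_lit 4591) (nat_lit 623) (nat_lit 3660)))))))) (.f (nat_lit 560) (nat_lit 592) (nat_lit 4559) (.d (nat_lit 558) (nat_lit 524) (nat_lit 3596) (nat_lit 529) (nat_lit 2573)))))) (.a (.f (nat_lit 526) (nat_lit 492) (nat_lit 3564) (.f (nat_lit 557) (nat_lit 556) (nat_lit 1548) (.d (nat_lit 558) (nat_lit 429) (nat_lit 4525) (nat_lit 529) (nat_lit 1549)))) (.f (nat_lit 560) (nat_lit 592) (nat_lit 4559) (.f (nat_lit 526) (nat_lit 524) (nat_lit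 524) (.f (nat_lit 557) (nat_lit 556) (nat_lit 1548) (.d (nat_lit 558) (nat_lit 429) (nat_lit 4525) (nat_lit 529) (nat_lit 1549))))))))) (.p (nat_lit 525) (.a (.f (nat_lit 560) (nat_lit 592) (nat_lit 4559) (.f (nat_lit 526) (nat_lit 524) (nat_lit 524) (.f (nat_lit 557) (nat_lit 556) (nat_lit 1548) (.d (nat_lit 558) (nat_lit 429) (nat_lit 4525) (nat_lit 529) (nat_lit 1549))))) (.a (.f (nat_lit 430) (nat_lit 462) (nat_lit 7598) (.f (nat_lit 429) (nat_lit 398) (nat_lit 6541) (.f (nat_lit 556) (nat_lit 524) (nat_lit 5548) (.d (nat_lit 557) (nat_lit 558) (nat_lit 2572) (nat_lit 588) (nat_lit 5580))))) (.a (.f (nat_lit 560) (nat_lit 592) (nat_lit 4559) (.f (nat_lit 526) (nat_lit 524) (nat_lit 524) (.f (nat_lit 557) (nat_lit 556) (nat_lit 1548) (.f (nat_lit 529) (nat_lit 558) (nat_lit 1549) (.f (nat_lit 530) (nat_lit 531) (nat_lit 1551) (.d (nat_lit 498) (nat_lit 497) (nat_lit 2542) (nat_lit 499) (nat_lit 2543))))))) (.a (.f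 (nat_lit 560) (nat_lit 592) (nat_lit 4559) (.f (nat_lit 430) (nat_lit 462) (nat_lit 7598) (.f (nat_lit 429) (nat_lit 398) (nat_lit 6541) (.d (nat_lit 524) (nat_lit 526) (nat_lit 524) (nat_lit 556) (nat_lit 5548))))) (.a (.f (nat_lit 430) (nat_lit 462) (nat_lit 7598) (.f (nat_lit 429) (nat_lit 398) (nat_lit 6541) (.f (nat_lit 558) (nat_lit 526) (nat_lit 4525) (.f (nat_lit 557) (nat_lit 556) (nat_lit 2572) (.d (nat_lit 560) (nat_lit 529) (nat_lit 2573) (nat_lit 592) (nat_lit 4559)))))) (.f (nat_lit 560) (nat_lit 592) (nat_lit 4559) (.f (nat_lit 430) (nat_lit 462) (nat_lit 7598) (.f (nat_lit 429) (nat_lit 398) (nat_lit 6541) (.d (nat_lit 526) (nat_lit 524) (nat_lit 524) (nat_lit 558) (nat_lit 4525))))))))))))))))))))))))))) (.a (.f (nat_lit 431) (nat_lit 560) (nat_lit 4527) (.f (nat_lit 398) (nat_lit 430) (nat_lit 7566) (.f (nat_lit 399) (nat_lit 366) (nat_lit 7534) (.d (nat_lit 400) (nat_lit 368) (nat_lit 6511) (nat_lit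 432) (nat_lit 6543))))) s128874))))) (.a (.p (nat_lit 463) (.a (.f (nat_lit 431) (nat_lit 560) (nat_lit 4527) (.f (nat_lit 430) (nat_lit 398) (nat_lit 7566) (.f (nat_lit 432) (nat_lit 400) (nat_lit 6543) (.d (nat_lit 559) (nat_lit 462) (nat_lit 7598) (nat_lit 464) (nat_lit 6575))))) (.a (.f (nat_lit 560) (nat_lit 431) (nat_lit 4527) (.d (nat_lit 592) (nat_lit 559) (nat_lit 4559) (nat_lit 624) (nat_lit 7663))) (.a (.p (nat_lit 559) (.a (.f (nat_lit 558) (nat_lit 590) (nat_lit 5582) (.f (nat_lit 560) (nat_lit 592) (nat_lit 4559) (.d (nat_lit 557) (nat_lit 529) (nat_lit 2573) (nat_lit 556) (nat_lit 2572)))) (.a (.f (nat_lit 592) (nat_lit 560) (nat_lit 4559) (.f (nat_lit 591) (nat_lit 624) (nat_lit 4591) (.d (nat_lit 590) (nat_lit 558) (nat_lit 5582) (nat_lit 622) (nat_lit 5614)))) (.f (nat_lit 462) (nat_lit 430) (nat_lit 7598) (.f (nat_lit 494) (nat_lit 591) (nat_lit 7630) (.f (nat_lit 493) (nat_lit 492) (nat_lit 492)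 (.d (nat_lit 464) (nat_lit 432) (nat_lit 6575) (nat_lit 465) (nat_lit 1485)))))))) (.a (.f (nat_lit 431) (nat_lit 560) (nat_lit 4527) (.f (nat_lit 398) (nat_lit 430) (nat_lit 7566) (.f (nat_lit 399) (nat_lit 366) (nat_lit 7534) (.d (nat_lit 400) (nat_lit 368) (nat_lit 6511) (nat_lit 432) (nat_lit 6543))))) s128949))))) (.a (.p (nat_lit 463) (.a (.f (nat_lit 431) (nat_lit 560) (nat_lit 4527) (.f (nat_lit 558) (nat_lit 526) (nat_lit 5550) (.f (nat_lit 559) (nat_lit 590) (nat_lit 5582) (.d (nat_lit 432) (nat_lit 400) (nat_lit 6543) (nat_lit 464) (nat_lit 6575))))) (.a (.f (nat_lit 431) (nat_lit 560) (nat_lit 4527) (.f (nat_lit 430) (nat_lit 398) (nat_lit 7566) (.f (nat_lit 432) (nat_lit 400) (nat_lit 6543) (.d (nat_lit 559) (nat_lit 462) (nat_lit 7598) (nat_lit 464) (nat_lit 6575))))) (.a (.p (nat_lit 559) (.a (.f (nat_lit 592) (nat_lit 560) (nat_lit 4559) (.f (nat_lit 591) (nat_lit 624) (nat_lit 4591) (.d (nat_lit 590)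 (nat_lit 558) (nat_lit 5582) (nat_lit 622) (nat_lit 5614)))) (.a (.f (nat_lit 462) (nat_lit 430) (nat_lit 7598) (.f (nat_lit 494) (nat_lit 591) (nat_lit 7630) (.f (nat_lit 493) (nat_lit 492) (nat_lit 492) (.d (nat_lit 464) (nat_lit 432) (nat_lit 6575) (nat_lit 465) (nat_lit 1485))))) (.f (nat_lit 558) (nat_lit 590) (nat_lit 5582) (.f (nat_lit 560) (nat_lit 592) (nat_lit 4559) (.f (nat_lit 557) (nat_lit 556) (nat_lit 2572) (.f (nat_lit 525) (nat_lit 524) (nat_lit 3596) (.f (nat_lit 589) (nat_lit 588) (nat_lit 1580) (.f (nat_lit 462) (nat_lit 430) (nat_lit 7598) (.d (nat_lit 494) (nat_lit 493) (nat_lit 6605) (nat_lit 526) (nat_lit 5581))))))))))) (.a (.f (nat_lit 431) (nat_lit 560) (nat_lit 4527) (.f (nat_lit 526) (nat_lit 558) (nat_lit 5550) (.f (nat_lit 399) (nat_lit 494) (nat_lit 5518) (.d (nat_lit 400) (nat_lit 368) (nat_lit 6511) (nat_lit 432) (nat_lit 6543))))) (.a s128874 (.f (nat_lit 560) (nat_lit 431) (nat_lit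 4527) (.d (nat_lit 592) (nat_lit 559) (nat_lit 4559) (nat_lit 624) (nat_lit 7663))))))))) (.a (.p (nat_lit 463) (.a (.f (nat_lit 431) (nat_lit 560) (nat_lit 4527) (.f (nat_lit 526) (nat_lit 558) (nat_lit 5550) (.f (nat_lit 494) (nat_lit 399) (nat_lit 5518) (.d (nat_lit 529) (nat_lit 493) (nat_lit 3565) (nat_lit 530) (nat_lit 3566))))) (.a (.f (nat_lit 431) (nat_lit 560) (nat_lit 4527) (.f (nat_lit 558) (nat_lit 526) (nat_lit 5550) (.f (nat_lit 559) (nat_lit 590) (nat_lit 5582) (.d (nat_lit 432) (nat_lit 400) (nat_lit 6543) (nat_lit 464) (nat_lit 6575))))) (.a (.f (nat_lit 431) (nat_lit 560) (nat_lit 4527) (.f (nat_lit 430) (nat_lit 398) (nat_lit 7566) (.f (nat_lit 432) (nat_lit 400) (nat_lit 6543) (.d (nat_lit 559) (nat_lit 462) (nat_lit 7598) (nat_lit 464) (nat_lit 6575))))) (.a (.p (nat_lit 559) (.a (.f (nat_lit 592) (nat_lit 560) (nat_lit 4559) (.f (nat_lit 591) (nat_lit 624) (nat_lit 4591) (.d (nat_lit 590) (nat_lit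 558) (nat_lit 5582) (nat_lit 622) (nat_lit 5614)))) (.a (.f (nat_lit 462) (nat_lit 430) (nat_lit 7598) (.f (nat_lit 494) (nat_lit 591) (nat_lit 7630) (.f (nat_lit 493) (nat_lit 492) (nat_lit 492) (.d (nat_lit 464) (nat_lit 432) (nat_lit 6575) (nat_lit 465) (nat_lit 1485))))) (.f (nat_lit 558) (nat_lit 590) (nat_lit 5582) (.f (nat_lit 529) (nat_lit 530) (nat_lit 1550) (.d (nat_lit 557) (nat_lit 526) (nat_lit 1549) (nat_lit 560) (nat_lit 2573))))))) s128177))))) (.a (.p (nat_lit 463) (.a (.f (nat_lit 431) (nat_lit 560) (nat_lit 4527) (.f (nat_lit 526) (nat_lit 558) (nat_lit 5550) (.f (nat_lit 494) (nat_lit 399) (nat_lit 5518) (.d (nat_lit 529) (nat_lit 493) (nat_lit 3565) (nat_lit 530) (nat_lit 3566))))) (.a (.f (nat_lit 431) (nat_lit 560) (nat_lit 4527) (.f (nat_lit 558) (nat_lit 526) (nat_lit 5550) (.f (nat_lit 559) (nat_lit 590) (nat_lit 5582) (.d (nat_lit 432) (nat_lit 400) (nat_lit 6543) (nat_lit 464) (nat_lit 6575)))))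 (.a (.f (nat_lit 431) (nat_lit 560) (nat_lit 4527) (.f (nat_lit 430) (nat_lit 398) (nat_lit 7566) (.f (nat_lit 432) (nat_lit 400) (nat_lit 6543) (.d (nat_lit 559) (nat_lit 462) (nat_lit 7598) (nat_lit 464) (nat_lit 6575))))) (.a (.p (nat_lit 559) (.a (.f (nat_lit 592) (nat_lit 560) (nat_lit 4559) (.f (nat_lit 591) (nat_lit 624) (nat_lit 4591) (.d (nat_lit 590) (nat_lit 558) (nat_lit 5582) (nat_lit 622) (nat_lit 5614)))) (.a (.f (nat_lit 462) (nat_lit 430) (nat_lit 7598) (.f (nat_lit 494) (nat_lit 591) (nat_lit 7630) (.f (nat_lit 493) (nat_lit 492) (nat_lit 492) (.d (nat_lit 464) (nat_lit 432) (nat_lit 6575) (nat_lit 465) (nat_lit 1485))))) s128968))) s128177))))) (.a (.p (nat_lit 463) (.a (.f (nat_lit 431) (nat_lit 560) (nat_lit 4527) (.f (nat_lit 430) (nat_lit 398) (nat_lit 7566) (.f (nat_lit 432) (nat_lit 400) (nat_lit 6543) (.d (nat_lit 559) (nat_lit 462) (nat_lit 7598) (nat_lit 464) (nat_lit 6575))))) (.a (.f (nat_lit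 560) (nat_lit 431) (nat_lit 4527) (.d (nat_lit 592) (nat_lit 559) (nat_lit 4559) (nat_lit 624) (nat_lit 7663))) (.a (.p (nat_lit 559) (.a (.f (nat_lit 462) (nat_lit 430) (nat_lit 7598) (.f (nat_lit 494) (nat_lit 591) (nat_lit 7630) (.f (nat_lit 493) (nat_lit 492) (nat_lit 492) (.d (nat_lit 464) (nat_lit 432) (nat_lit 6575) (nat_lit 465) (nat_lit 1485))))) (.a s128574 s128968))) (.a (.f (nat_lit 431) (nat_lit 560) (nat_lit 4527) (.f (nat_lit 398) (nat_lit 430) (nat_lit 7566) (.f (nat_lit 399) (nat_lit 366) (nat_lit 7534) (.d (nat_lit 400) (nat_lit 368) (nat_lit 6511) (nat_lit 432) (nat_lit 6543))))) (.p (nat_lit 431) (.a (.f (nat_lit 432) (nat_lit 400) (nat_lit 6543) (.f (nat_lit 559) (nat_lit 464) (nat_lit 6575) (.f (nat_lit 462) (nat_lit 430) (nat_lit 7598) (.f (nat_lit 494) (nat_lit 591) (nat_lit 7630) (.d (nat_lit 399) (nat_lit 367) (nat_lit 5486) (nat_lit 526) (nat_lit 5518)))))) (.a (.f (nat_lit 430) (nat_lit 398)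 (nat_lit 7566) (.f (nat_lit 432) (nat_lit 400) (nat_lit 6543) (.d (nat_lit 559) (nat_lit 462) (nat_lit 7598) (nat_lit 464) (nat_lit 6575)))) (.a (.f (nat_lit 400) (nat_lit 432) (nat_lit 6543) (.f (nat_lit 399) (nat_lit 368) (nat_lit 6511) (.d (nat_lit 398) (nat_lit 366) (nat_lit 7534) (nat_lit 430) (nat_lit 7566)))) (.a (.f (nat_lit 400) (nat_lit 432) (nat_lit 6543) (.f (nat_lit 399) (nat_lit 368) (nat_lit 6511) (.f (nat_lit 494) (nat_lit 526) (nat_lit 5518) (.f (nat_lit 367) (nat_lit 462) (nat_lit 5486) (.d (nat_lit 366) (nat_lit 334) (nat_lit 7502) (nat_lit 398) (nat_lit 7534)))))) (.a (.f (nat_lit 398) (nat_lit 430) (nat_lit 7566) (.f (nat_lit 399) (nat_lit 366) (nat_lit 7534) (.f (nat_lit 494) (nat_lit 526) (nat_lit 5518) (.f (nat_lit 368) (nat_lit 400) (nat_lit 6511) (.d (nat_lit 367) (nat_lit 336) (nat_lit 6479) (nat_lit 462) (nat_lit 5486)))))) (.f (nat_lit 398) (nat_lit 430) (nat_lit 7566) (.f (nat_lit 399)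 (nat_lit 366) (nat_lit 7534) (.f (nat_lit 494) (nat_lit 526) (nat_lit 5518) (.f (nat_lit 462) (nat_lit 367) (nat_lit 5486) (.f (nat_lit 493) (nat_lit 492) (nat_lit 492) (.f (nat_lit 464) (nat_lit 465) (nat_lit 1485) (.d (nat_lit 559) (nat_lit 432) (nat_lit 6575) (nat_lit 591) (nat_lit 7630))))))))))))))))))) (.a s130474 (.a (.p (nat_lit 526) (.a (.p (nat_lit 493) (.a (.f (nat_lit 525) (nat_lit 492) (nat_lit 3564) (.f (nat_lit 557) (nat_lit 556) (nat_lit 1548) (.f (nat_lit 558) (nat_lit 529) (nat_lit 1549) (.d (nat_lit 461) (nat_lit 429) (nat_lit 4525) (nat_lit 590) (nat_lit 4557))))) (.a (.d (nat_lit 492) (nat_lit 494) (nat_lit 492) (nat_lit 525) (nat_lit 3564)) (.a (.d (nat_lit 494) (nat_lit 492) (nat_lit 492) (nat_lit 529) (nat_lit 3565)) (.f (nat_lit 529) (nat_lit 494) (nat_lit 3565) (.f (nat_lit 558) (nat_lit 557) (nat_lit 1549) (.f (nat_lit 559) (nat_lit 530) (nat_lit 1550) (.d (nat_lit 590) (nat_lit 463) (nat_lit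 5582) (nat_lit 622) (nat_lit 6638))))))))) (.a (.p (nat_lit 558) (.a (.f (nat_lit 557) (nat_lit 529) (nat_lit 1549) (.d (nat_lit 556) (nat_lit 525) (nat_lit 1548) (nat_lit 555) (nat_lit 2571))) (.a (.f (nat_lit 529) (nat_lit 557) (nat_lit 1549) (.f (nat_lit 559) (nat_lit 530) (nat_lit 1550) (.d (nat_lit 590) (nat_lit 463) (nat_lit 5582) (nat_lit 622) (nat_lit 6638)))) (.f (nat_lit 590) (nat_lit 622) (nat_lit 6638) (.d (nat_lit 463) (nat_lit 431) (nat_lit 5550) (nat_lit 559) (nat_lit 5582)))))) (.a (.p (nat_lit 493) (.a (.f (nat_lit 525) (nat_lit 492) (nat_lit 3564) (.f (nat_lit 557) (nat_lit 556) (nat_lit 1548) (.f (nat_lit 558) (nat_lit 529) (nat_lit 1549) (.d (nat_lit 461) (nat_lit 429) (nat_lit 4525) (nat_lit 590) (nat_lit 4557))))) (.a (.d (nat_lit 492) (nat_lit 494) (nat_lit 492) (nat_lit 525) (nat_lit 3564)) (.a (.d (nat_lit 494) (nat_lit 492) (nat_lit 492) (nat_lit 529) (nat_lit 3565)) (.f (nat_lit 529) (nat_lit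 494) (nat_lit 3565) (.f (nat_lit 558) (nat_lit 557) (nat_lit 1549) (.f (nat_lit 530) (nat_lit 559) (nat_lit 1550) (.d (nat_lit 498) (nat_lit 497) (nat_lit 2542) (nat_lit 499) (nat_lit 2543))))))))) (.a (.p (nat_lit 525) (.a (.f (nat_lit 493) (nat_lit 492) (nat_lit 3564) (.f (nat_lit 494) (nat_lit 529) (nat_lit 3565) (.f (nat_lit 557) (nat_lit 556) (nat_lit 1548) (.d (nat_lit 462) (nat_lit 430) (nat_lit 5549) (nat_lit 589) (nat_lit 6605))))) (.a (.f (nat_lit 492) (nat_lit 493) (nat_lit 3564) (.f (nat_lit 524) (nat_lit 491) (nat_lit 3563) (.d (nat_lit 556) (nat_lit 555) (nat_lit 1547) (nat_lit 557) (nat_lit 1548)))) (.a (.f (nat_lit 557) (nat_lit 556) (nat_lit 1548) (.f (nat_lit 529) (nat_lit 558) (nat_lit 1549) (.f (nat_lit 530) (nat_lit 494) (nat_lit 3566) (.d (nat_lit 498) (nat_lit 497) (nat_lit 2542) (nat_lit 499) (nat_lit 2543))))) (.a (.f (nat_lit 492) (nat_lit 493) (nat_lit 3564) (.f (nat_lit 524) (nat_lit 491)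 (nat_lit 3563) (.f (nat_lit 523) (nat_lit 494) (nat_lit 2539) (.d (nat_lit 555) (nat_lit 554) (nat_lit 1546) (nat_lit 556) (nat_lit 1547))))) (.f (nat_lit 492) (nat_lit 493) (nat_lit 3564) (.f (nat_lit 524) (nat_lit 491) (nat_lit 3563) (.f (nat_lit 494) (nat_lit 523) (nat_lit 2539) (.f (nat_lit 529) (nat_lit 530) (nat_lit 3566) (.f (nat_lit 558) (nat_lit 557) (nat_lit 1549) (.d (nat_lit 590) (nat_lit 463) (nat_lit 6606) (nat_lit 622) (nat_lit 6638)))))))))))) (.a (.p (nat_lit 558) (.a (.f (nat_lit 529) (nat_lit 557) (nat_lit 1549) (.d (nat_lit 530) (nat_lit 494) (nat_lit 3566) (nat_lit 559) (nat_lit 1550))) (.a (.f (nat_lit 529) (nat_lit 557) (nat_lit 1549) (.f (nat_lit 559) (nat_lit 530) (nat_lit 1550) (.d (nat_lit 590) (nat_lit 463) (nat_lit 5582) (nat_lit 622) (nat_lit 6638)))) (.a (.f (nat_lit 529) (nat_lit 557) (nat_lit 1549) (.d (nat_lit 494) (nat_lit 493) (nat_lit 3565) (nat_lit 530) (nat_lit 3566))) (.f (nat_lit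 590) (nat_lit 622) (nat_lit 6638) (.d (nat_lit 463) (nat_lit 494) (nat_lit 6606) (nat_lit 559) (nat_lit 5582))))))) (.a (.p (nat_lit 525) (.a (.f (nat_lit 492) (nat_lit 493) (nat_lit 3564) (.f (nat_lit 524) (nat_lit 491) (nat_lit 3563) (.d (nat_lit 556) (nat_lit 555) (nat_lit 1547) (nat_lit 557) (nat_lit 1548)))) (.a (.f (nat_lit 556) (nat_lit 557) (nat_lit 1548) (.f (nat_lit 524) (nat_lit 555) (nat_lit 1547) (.f (nat_lit 523) (nat_lit 494) (nat_lit 2539) (.d (nat_lit 491) (nat_lit 490) (nat_lit 3562) (nat_lit 492) (nat_lit 3563))))) (.a (.p (nat_lit 524) (.a (.d (nat_lit 556) (nat_lit 555) (nat_lit 1547) (nat_lit 557) (nat_lit 1548)) (.a (.f (nat_lit 523) (nat_lit 494) (nat_lit 2539) (.d (nat_lit 555) (nat_lit 554) (nat_lit 1546) (nat_lit 556) (nat_lit 1547))) (.a (.f (nat_lit 523) (nat_lit 494) (nat_lit 2539) (.f (nat_lit 558) (nat_lit 559) (nat_lit 523) (.f (nat_lit 522) (nat_lit 557) (nat_lit 522) (.d (nat_lit 554)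 (nat_lit 553) (nat_lit 1545) (nat_lit 555) (nat_lit 1546))))) (.f (nat_lit 523) (nat_lit 494) (nat_lit 2539) (.f (nat_lit 558) (nat_lit 559) (nat_lit 523) (.d (nat_lit 557) (nat_lit 522) (nat_lit 522) (nat_lit 556) (nat_lit 1548)))))))) (.a (.f (nat_lit 492) (nat_lit 493) (nat_lit 3564) (.f (nat_lit 524) (nat_lit 491) (nat_lit 3563) (.f (nat_lit 523) (nat_lit 494) (nat_lit 2539) (.d (nat_lit 555) (nat_lit 554) (nat_lit 1546) (nat_lit 556) (nat_lit 1547))))) (.a (.p (nat_lit 558) (.a (.f (nat_lit 590) (nat_lit 622) (nat_lit 6638) (.d (nat_lit 463) (nat_lit 431) (nat_lit 5550) (nat_lit 494) (nat_lit 6606))) (.a (.f (nat_lit 590) (nat_lit 622) (nat_lit 6638) (.d (nat_lit 463) (nat_lit 431) (nat_lit 5550) (nat_lit 559) (nat_lit 5582))) (.a (.f (nat_lit 590) (nat_lit 622) (nat_lit 6638) (.d (nat_lit 463) (nat_lit 494) (nat_lit 6606) (nat_lit 559) (nat_lit 5582))) (.a (.f (nat_lit 493) (nat_lit 492) (nat_lit 3564) (.f (nat_lit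 590) (nat_lit 622) (nat_lit 7661) (.d (nat_lit 461) (nat_lit 494) (nat_lit 7629) (nat_lit 557) (nat_lit 4557)))) (.f (nat_lit 557) (nat_lit 556) (nat_lit 1548) (.f (nat_lit 493) (nat_lit 492) (nat_lit 3564) (.f (nat_lit 461) (nat_lit 429) (nat_lit 4525) (.f (nat_lit 462) (nat_lit 430) (nat_lit 6573) (.f (nat_lit 494) (nat_lit 589) (nat_lit 5581) (.d (nat_lit 460) (nat_lit 428) (nat_lit 7596) (nat_lit 459) (nat_lit 459)))))))))))) (.f (nat_lit 492) (nat_lit 493) (nat_lit 3564) (.f (nat_lit 524) (nat_lit 491) (nat_lit 3563) (.f (nat_lit 523) (nat_lit 494) (nat_lit 2539) (.f (nat_lit 558) (nat_lit 559) (nat_lit 523) (.f (nat_lit 522) (nat_lit 557) (nat_lit 522) (.d (nat_lit 554) (nat_lit 553) (nat_lit 1545) (nat_lit 555) (nat_lit 1546))))))))))))) (.a (.p (nat_lit 525) (.a (.f (nat_lit 493) (nat_lit 492) (nat_lit 3564) (.f (nat_lit 494) (nat_lit 529) (nat_lit 3565) (.f (nat_lit 557) (nat_lit 556) (nat_lit 1548) (.d (nat_lit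 462) (nat_lit 430) (nat_lit 5549) (nat_lit 589) (nat_lit 6605))))) (.a (.f (nat_lit 492) (nat_lit 493) (nat_lit 3564) (.f (nat_lit 524) (nat_lit 491) (nat_lit 3563) (.d (nat_lit 556) (nat_lit 555) (nat_lit 1547) (nat_lit 557) (nat_lit 1548)))) (.a (.f (nat_lit 556) (nat_lit 557) (nat_lit 1548) (.f (nat_lit 524) (nat_lit 555) (nat_lit 1547) (.f (nat_lit 523) (nat_lit 494) (nat_lit 2539) (.d (nat_lit 491) (nat_lit 490) (nat_lit 3562) (nat_lit 492) (nat_lit 3563))))) (.a (.f (nat_lit 556) (nat_lit 557) (nat_lit 1548) (.f (nat_lit 524) (nat_lit 555) (nat_lit 1547) (.f (nat_lit 494) (nat_lit 523) (nat_lit 2539) (.d (nat_lit 529) (nat_lit 493) (nat_lit 3565) (nat_lit 530) (nat_lit 3566))))) (.a (.f (nat_lit 492) (nat_lit 493) (nat_lit 3564) (.f (nat_lit 524) (nat_lit 491) (nat_lit 3563) (.f (nat_lit 523) (nat_lit 494) (nat_lit 2539) (.d (nat_lit 555) (nat_lit 554) (nat_lit 1546) (nat_lit 556) (nat_lit 1547))))) (.p (nat_lit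 524) (.a (.d (nat_lit 492) (nat_lit 491) (nat_lit 3563) (nat_lit 493) (nat_lit 3564)) (.a (.f (nat_lit 523) (nat_lit 494) (nat_lit 2539) (.d (nat_lit 491) (nat_lit 490) (nat_lit 3562) (nat_lit 492) (nat_lit 3563))) (.f (nat_lit 494) (nat_lit 523) (nat_lit 2539) (.d (nat_lit 529) (nat_lit 493) (nat_lit 3565) (nat_lit 530) (nat_lit 3566)))))))))))) (.p (nat_lit 559) (.a (.p (nat_lit 462) (.a (.d (nat_lit 494) (nat_lit 430) (nat_lit 4526) (nat_lit 591) (nat_lit 7630)) (.a (.f (nat_lit 463) (nat_lit 430) (nat_lit 7598) (.d (nat_lit 558) (nat_lit 431) (nat_lit 5550) (nat_lit 590) (nat_lit 5582))) (.f (nat_lit 494) (nat_lit 591) (nat_lit 7630) (.d (nat_lit 529) (nat_lit 493) (nat_lit 3565) (nat_lit 530) (nat_lit 3566)))))) (.a (.p (nat_lit 591) (.a (.f (nat_lit 624) (nat_lit 592) (nat_lit 4591) (.f (nat_lit 623) (nat_lit 656) (nat_lit 4623) (.d (nat_lit 622) (nat_lit 590) (nat_lit 5614) (nat_lit 654) (nat_lit 5646)))) (.a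 (.f (nat_lit 590) (nat_lit 622) (nat_lit 5614) (.f (nat_lit 463) (nat_lit 558) (nat_lit 5582) (.f (nat_lit 430) (nat_lit 462) (nat_lit 7598) (.f (nat_lit 431) (nat_lit 398) (nat_lit 7566) (.d (nat_lit 432) (nat_lit 400) (nat_lit 6543) (nat_lit 464) (nat_lit 6575)))))) (.a (.f (nat_lit 624) (nat_lit 592) (nat_lit 4591) (.f (nat_lit 623) (nat_lit 656) (nat_lit 4623) (.f (nat_lit 654) (nat_lit 622) (nat_lit 5646) (.d (nat_lit 655) (nat_lit 558) (nat_lit 7694) (nat_lit 686) (nat_lit 5678))))) (.f (nat_lit 624) (nat_lit 592) (nat_lit 4591) (.f (nat_lit 623) (nat_lit 656) (nat_lit 4623) (.f (nat_lit 558) (nat_lit 655) (nat_lit 7694) (.d (nat_lit 463) (nat_lit 431) (nat_lit 5550) (nat_lit 590) (nat_lit 5582))))))))) (.a (.p (nat_lit 463) (.a (.d (nat_lit 558) (nat_lit 431) (nat_lit 5550) (nat_lit 590) (nat_lit 5582)) (.a (.f (nat_lit 590) (nat_lit 558) (nat_lit 5582) (.f (nat_lit 591) (nat_lit 622) (nat_lit 5614) (.f (nat_lit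 494) (nat_lit 623) (nat_lit 7662) (.d (nat_lit 529) (nat_lit 493) (nat_lit 3565) (nat_lit 530) (nat_lit 3566))))) (.f (nat_lit 432) (nat_lit 464) (nat_lit 6575) (.f (nat_lit 431) (nat_lit 400) (nat_lit 6543) (.f (nat_lit 494) (nat_lit 399) (nat_lit 5518) (.d (nat_lit 529) (nat_lit 493) (nat_lit 3565) (nat_lit 530) (nat_lit 3566)))))))) (.a (.p (nat_lit 494) (.a (.d (nat_lit 462) (nat_lit 430) (nat_lit 4526) (nat_lit 591) (nat_lit 7630)) (.d (nat_lit 493) (nat_lit 492) (nat_lit 492) (nat_lit 529) (nat_lit 3565)))) (.p (nat_lit 463) (.a (.d (nat_lit 558) (nat_lit 431) (nat_lit 5550) (nat_lit 590) (nat_lit 5582)) (.a (.f (nat_lit 558) (nat_lit 590) (nat_lit 5582) (.f (nat_lit 529) (nat_lit 530) (nat_lit 1550) (.f (nat_lit 493) (nat_lit 494) (nat_lit 3565) (.f (nat_lit 492) (nat_lit 525) (nat_lit 3564) (.f (nat_lit 462) (nat_lit 430) (nat_lit 7598) (.d (nat_lit 464) (nat_lit 432) (nat_lit 6575) (nat_lit 461) (nat_lit 1484)))))))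 (.f (nat_lit 432) (nat_lit 464) (nat_lit 6575) (.f (nat_lit 431) (nat_lit 400) (nat_lit 6543) (.f (nat_lit 494) (nat_lit 399) (nat_lit 5518) (.d (nat_lit 529) (nat_lit 493) (nat_lit 3565) (nat_lit 530) (nat_lit 3566))))))))))))))))))))) (.p (nat_lit 463) (.a (.f (nat_lit 431) (nat_lit 560) (nat_lit 4527) (.f (nat_lit 526) (nat_lit 558) (nat_lit 5550) (.f (nat_lit 494) (nat_lit 399) (nat_lit 5518) (.d (nat_lit 529) (nat_lit 493) (nat_lit 3565) (nat_lit 530) (nat_lit 3566))))) (.a (.f (nat_lit 431) (nat_lit 560) (nat_lit 4527) (.f (nat_lit 430) (nat_lit 398) (nat_lit 7566) (.f (nat_lit 432) (nat_lit 400) (nat_lit 6543) (.d (nat_lit 559) (nat_lit 462) (nat_lit 7598) (nat_lit 464) (nat_lit 6575))))) (.a (.p (nat_lit 557) (.a (.p (nat_lit 559) (.a (.f (nat_lit 560) (nat_lit 592) (nat_lit 4559) (.d (nat_lit 558) (nat_lit 529) (nat_lit 2573) (nat_lit 556) (nat_lit 2572))) (.a (.f (nat_lit 560) (nat_lit 592) (nat_lit 4559)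 (.f (nat_lit 558) (nat_lit 556) (nat_lit 2572) (.f (nat_lit 462) (nat_lit 430) (nat_lit 7598) (.f (nat_lit 494) (nat_lit 591) (nat_lit 7630) (.d (nat_lit 589) (nat_lit 526) (nat_lit 5581) (nat_lit 588) (nat_lit 1580)))))) (.a (.f (nat_lit 558) (nat_lit 556) (nat_lit 2572) (.d (nat_lit 529) (nat_lit 526) (nat_lit 1549) (nat_lit 530) (nat_lit 1550))) (.f (nat_lit 462) (nat_lit 430) (nat_lit 7598) (.f (nat_lit 494) (nat_lit 591) (nat_lit 7630) (.f (nat_lit 493) (nat_lit 492) (nat_lit 492) (.d (nat_lit 464) (nat_lit 432) (nat_lit 6575) (nat_lit 465) (nat_lit 1485))))))))) (.a (.p (nat_lit 558) (.a (.f (nat_lit 526) (nat_lit 529) (nat_lit 1549) (.d (nat_lit 556) (nat_lit 525) (nat_lit 1548) (nat_lit 555) (nat_lit 2571))) (.a (.f (nat_lit 559) (nat_lit 556) (nat_lit 2572) (.d (nat_lit 529) (nat_lit 530) (nat_lit 1550) (nat_lit 560) (nat_lit 2573))) (.a (.f (nat_lit 556) (nat_lit 559) (nat_lit 2572) (.d (nat_lit 526) (nat_lit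 525) (nat_lit 1548) (nat_lit 555) (nat_lit 2571))) (.f (nat_lit 529) (nat_lit 526) (nat_lit 1549) (.d (nat_lit 559) (nat_lit 530) (nat_lit 1550) (nat_lit 560) (nat_lit 2573))))))) (.a (.p (nat_lit 559) (.a (.f (nat_lit 560) (nat_lit 592) (nat_lit 4559) (.d (nat_lit 558) (nat_lit 529) (nat_lit 2573) (nat_lit 556) (nat_lit 2572))) (.f (nat_lit 462) (nat_lit 430) (nat_lit 7598) (.f (nat_lit 494) (nat_lit 591) (nat_lit 7630) (.f (nat_lit 493) (nat_lit 492) (nat_lit 492) (.d (nat_lit 464) (nat_lit 432) (nat_lit 6575) (nat_lit 465) (nat_lit 1485))))))) (.a (.p (nat_lit 526) (.a (.f (nat_lit 558) (nat_lit 529) (nat_lit 1549) (.d (nat_lit 556) (nat_lit 525) (nat_lit 1548) (nat_lit 555) (nat_lit 2571))) (.a (.f (nat_lit 529) (nat_lit 558) (nat_lit 1549) (.d (nat_lit 494) (nat_lit 493) (nat_lit 3565) (nat_lit 530) (nat_lit 3566))) (.a (.f (nat_lit 525) (nat_lit 556) (nat_lit 1548) (.f (nat_lit 492) (nat_lit 493) (nat_lit 3564)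 (.f (nat_lit 524) (nat_lit 491) (nat_lit 3563) (.f (nat_lit 523) (nat_lit 494) (nat_lit 2539) (.f (nat_lit 522) (nat_lit 558) (nat_lit 522) (.d (nat_lit 554) (nat_lit 553) (nat_lit 1545) (nat_lit 555) (nat_lit 1546))))))) (.f (nat_lit 525) (nat_lit 556) (nat_lit 1548) (.f (nat_lit 493) (nat_lit 492) (nat_lit 3564) (.f (nat_lit 494) (nat_lit 529) (nat_lit 3565) (.d (nat_lit 589) (nat_lit 462) (nat_lit 6605) (nat_lit 621) (nat_lit 6637))))))))) (.a (.p (nat_lit 525) (.a (.f (nat_lit 526) (nat_lit 556) (nat_lit 1548) (.f (nat_lit 492) (nat_lit 493) (nat_lit 3564) (.f (nat_lit 524) (nat_lit 491) (nat_lit 3563) (.f (nat_lit 559) (nat_lit 560) (nat_lit 524) (.d (nat_lit 523) (nat_lit 494) (nat_lit 2539) (nat_lit 558) (nat_lit 523)))))) (.a (.p (nat_lit 559) (.a (.f (nat_lit 560) (nat_lit 592) (nat_lit 4559) (.d (nat_lit 526) (nat_lit 524) (nat_lit 524) (nat_lit 556) (nat_lit 1548))) (.a (.f (nat_lit 560) (nat_lit 592) (nat_lit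 4559) (.d (nat_lit 558) (nat_lit 524) (nat_lit 3596) (nat_lit 556) (nat_lit 2572))) (.a (.d (nat_lit 556) (nat_lit 526) (nat_lit 1548) (nat_lit 558) (nat_lit 2572)) (.f (nat_lit 560) (nat_lit 592) (nat_lit 4559) (.d (nat_lit 524) (nat_lit 526) (nat_lit 524) (nat_lit 558) (nat_lit 3596))))))) (.a (.p (nat_lit 559) (.a (.f (nat_lit 560) (nat_lit 592) (nat_lit 4559) (.d (nat_lit 558) (nat_lit 524) (nat_lit 3596) (nat_lit 556) (nat_lit 2572))) (.f (nat_lit 462) (nat_lit 430) (nat_lit 7598) (.f (nat_lit 494) (nat_lit 591) (nat_lit 7630) (.d (nat_lit 493) (nat_lit 492) (nat_lit 492) (nat_lit 589) (nat_lit 6605)))))) (.a (.f (nat_lit 526) (nat_lit 556) (nat_lit 1548) (.f (nat_lit 492) (nat_lit 493) (nat_lit 3564) (.f (nat_lit 524) (nat_lit 491) (nat_lit 3563) (.f (nat_lit 523) (nat_lit 494) (nat_lit 2539) (.f (nat_lit 522) (nat_lit 558) (nat_lit 522) (.d (nat_lit 554) (nat_lit 553) (nat_lit 1545) (nat_lit 555) (nat_lit 1546)))))))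 (.a (.f (nat_lit 526) (nat_lit 556) (nat_lit 1548) (.f (nat_lit 492) (nat_lit 493) (nat_lit 3564) (.f (nat_lit 524) (nat_lit 491) (nat_lit 3563) (.f (nat_lit 559) (nat_lit 560) (nat_lit 524) (.f (nat_lit 494) (nat_lit 523) (nat_lit 2539) (.d (nat_lit 462) (nat_lit 430) (nat_lit 7598) (nat_lit 591) (nat_lit 7630))))))) (.a (.f (nat_lit 556) (nat_lit 526) (nat_lit 1548) (.f (nat_lit 559) (nat_lit 558) (nat_lit 2572) (.f (nat_lit 592) (nat_lit 560) (nat_lit 4559) (.f (nat_lit 462) (nat_lit 430) (nat_lit 7598) (.d (nat_lit 591) (nat_lit 494) (nat_lit 7630) (nat_lit 624) (nat_lit 4591)))))) (.p (nat_lit 559) (.a (.f (nat_lit 560) (nat_lit 592) (nat_lit 4559) (.d (nat_lit 524) (nat_lit 526) (nat_lit 524) (nat_lit 558) (nat_lit 3596))) (.f (nat_lit 462) (nat_lit 430) (nat_lit 7598) (.f (nat_lit 494) (nat_lit 591) (nat_lit 7630) (.d (nat_lit 493) (nat_lit 492) (nat_lit 492) (nat_lit 589) (nat_lit 6605))))))))))))) (.p (nat_lit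 494) (.a (.f (nat_lit 493) (nat_lit 492) (nat_lit 492) (.d (nat_lit 529) (nat_lit 526) (nat_lit 3565) (nat_lit 530) (nat_lit 3566))) (.a (.p (nat_lit 462) (.a (.d (nat_lit 430) (nat_lit 398) (nat_lit 4494) (nat_lit 559) (nat_lit 7598)) (.a (.f (nat_lit 493) (nat_lit 492) (nat_lit 492) (.f (nat_lit 430) (nat_lit 398) (nat_lit 4494) (.d (nat_lit 525) (nat_lit 461) (nat_lit 6573) (nat_lit 589) (nat_lit 6605)))) (.f (nat_lit 493) (nat_lit 492) (nat_lit 492) (.f (nat_lit 464) (nat_lit 465) (nat_lit 1485) (.d (nat_lit 559) (nat_lit 432) (nat_lit 6575) (nat_lit 591) (nat_lit 7630))))))) (.p (nat_lit 462) (.a (.d (nat_lit 430) (nat_lit 398) (nat_lit 4494) (nat_lit 559) (nat_lit 7598)) (.a (.f (nat_lit 430) (nat_lit 398) (nat_lit 4494) (.f (nat_lit 526) (nat_lit 525) (nat_lit 5549) (.f (nat_lit 429) (nat_lit 397) (nat_lit 7565) (.f (nat_lit 464) (nat_lit 465) (nat_lit 3501) (.d (nat_lit 428) (nat_lit 427) (nat_lit 427) (nat_lit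 461) (nat_lit 3500)))))) (.f (nat_lit 559) (nat_lit 591) (nat_lit 7630) (.f (nat_lit 464) (nat_lit 432) (nat_lit 6575) (.f (nat_lit 465) (nat_lit 466) (nat_lit 1486) (.f (nat_lit 560) (nat_lit 592) (nat_lit 4559) (.f (nat_lit 529) (nat_lit 530) (nat_lit 3566) (.d (nat_lit 497) (nat_lit 433) (nat_lit 5552) (nat_lit 498) (nat_lit 462))))))))))))))))))) s128949)))))))))))))))))))))))
noncomputable def s130646 : Cert := .r (nat_lit 878694100854745141256323819315110954901006375692038316188451534125484520860414608653448913445023849385239695046487780905203497230596867842715690486470535020544) (.p (nat_lit 497) (.a (.f (nat_lit 465) (nat_lit 466) (nat_lit 2510) (.f (nat_lit 433) (nat_lit 401) (nat_lit 5520) (.d (nat_lit 560) (nat_lit 464) (nat_lit 6576) (nat_lit 592) (nat_lit 6608)))) (.a (.f (nat_lit 465) (nat_lit 466) (nat_lit 2510) (.f (nat_lit 529) (nat_lit 530) (nat_lit 494) (.d (nat_lit 433) (nat_lit 401) (nat_lit 5520)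 (nat_lit 560) (nat_lit 5552)))) (.a (.f (nat_lit 530) (nat_lit 529) (nat_lit 494) (.f (nat_lit 498) (nat_lit 531) (nat_lit 495) (.d (nat_lit 466) (nat_lit 465) (nat_lit 2510) (nat_lit 467) (nat_lit 2511)))) (.f (nat_lit 462) (nat_lit 461) (nat_lit 3533) (.f (nat_lit 463) (nat_lit 498) (nat_lit 3534) (.f (nat_lit 431) (nat_lit 399) (nat_lit 4495) (.d (nat_lit 526) (nat_lit 525) (nat_lit 1517) (nat_lit 558) (nat_lit 6574)))))))))
noncomputable def s130671 : Cert := .r (nat_lit 878694100854745141256323819315110954901006375692038316188451534125484520860414608653448913445023849385239695046487780905203497230596867842715690486470535020544) (.p (nat_lit 493) (.a (.f (nat_lit 464) (nat_lit 465) (nat_lit 2509) (.f (nat_lit 463) (nat_lit 492) (nat_lit 2508) (.d (nat_lit 560) (nat_lit 431) (nat_lit 7599) (nat_lit 592) (nat_lit 7631)))) (.a (.f (nat_lit 465) (nat_lit 464) (nat_lit 2509) (.f (nat_lit 497) (nat_lit 466) (nat_lit 2510)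 (.d (nat_lit 525) (nat_lit 524) (nat_lit 1516) (nat_lit 526) (nat_lit 1517)))) (.a (.f (nat_lit 525) (nat_lit 524) (nat_lit 1516) (.f (nat_lit 497) (nat_lit 526) (nat_lit 1517) (.f (nat_lit 462) (nat_lit 461) (nat_lit 3533) (.f (nat_lit 498) (nat_lit 463) (nat_lit 3534) (.d (nat_lit 466) (nat_lit 465) (nat_lit 2510) (nat_lit 467) (nat_lit 2511)))))) (.f (nat_lit 525) (nat_lit 524) (nat_lit 1516) (.f (nat_lit 497) (nat_lit 526) (nat_lit 1517) (.f (nat_lit 462) (nat_lit 461) (nat_lit 3533) (.f (nat_lit 463) (nat_lit 498) (nat_lit 3534) (.d (nat_lit 492) (nat_lit 464) (nat_lit 2508) (nat_lit 491) (nat_lit 2507))))))))))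
noncomputable def s130691 : Cert := .r (nat_lit 878694100854745141256323819315110954901006375692038316188451534125484520860414608653448913445023849385239695046487780905203497230596867842715690486470535020544) (.p (nat_lit 461) (.a (.f (nat_lit 497) (nat_lit 462) (nat_lit 3533) (.f (nat_lit 465) (nat_lit 466) (nat_lit 2510) (.f (nat_lit 433) (nat_lit 401) (nat_lit 5520) (.d (nat_lit 560) (nat_lit 464) (nat_lit 6576) (nat_lit 592) (nat_lit 6608))))) (.a (.f (nat_lit 497) (nat_lit 462) (nat_lit 3533) (.f (nat_lit 493) (nat_lit 460) (nat_lit 3532) (.d (nat_lit 525) (nat_lit 524) (nat_lit 1516) (nat_lit 526) (nat_lit 1517)))) (.a (.f (nat_lit 493) (nat_lit 460) (nat_lit 3532) (.f (nat_lit 525) (nat_lit 524) (nat_lit 1516) (.f (nat_lit 526) (nat_lit 497) (nat_lit 1517) (.d (nat_lit 429) (nat_lit 397) (nat_lit 4493) (nat_lit 558) (nat_lit 4525))))) (.f (nat_lit 460) (nat_lit 493) (nat_lit 3532) (.d (nat_lit 462) (nat_lit 459)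 (nat_lit 459) (nat_lit 463) (nat_lit 460)))))))
noncomputable def s130700 : Cert := .r (nat_lit 878694100854745141256323819315110954901006375692038316188451534125484520860414608653448913445023849385239695046487780905203497230596867842715690486470535020544) (.p (nat_lit 497) (.a (.f (nat_lit 465) (nat_lit 466) (nat_lit 2510) (.f (nat_lit 433) (nat_lit 401) (nat_lit 5520) (.d (nat_lit 560) (nat_lit 464) (nat_lit 6576) (nat_lit 592) (nat_lit 6608)))) (.a (.f (nat_lit 465) (nat_lit 466) (nat_lit 2510) (.f (nat_lit 529) (nat_lit 530) (nat_lit 494) (.d (nat_lit 433) (nat_lit 401) (nat_lit 5520) (nat_lit 560) (nat_lit 5552)))) (.a (.f (nat_lit 530) (nat_lit 529) (nat_lit 494) (.f (nat_lit 498) (nat_lit 531) (nat_lit 495) (.d (nat_lit 466) (nat_lit 465) (nat_lit 2510) (nat_lit 467) (nat_lit 2511)))) (.f (nat_lit 530) (nat_lit 529) (nat_lit 494) (.f (nat_lit 498) (nat_lit 531) (nat_lit 495) (.f (nat_lit 463) (nat_lit 462) (nat_lit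 3534) (.f (nat_lit 431) (nat_lit 399) (nat_lit 4495) (.d (nat_lit 560) (nat_lit 464) (nat_lit 7599) (nat_lit 592) (nat_lit 7631))))))))))
noncomputable def s130800 : Cert := .r (nat_lit 878694102031119890968999803851101002198424821019894051485177942846042356269962691736378831606199038814861501522587683013545397749534319413893253615010474622976) (.p (nat_lit 433) (.a (.f (nat_lit 465) (nat_lit 401) (nat_lit 5520) (.f (nat_lit 466) (nat_lit 467) (nat_lit 2511) (.d (nat_lit 530) (nat_lit 531) (nat_lit 495) (nat_lit 562) (nat_lit 7601)))) (.a (.f (nat_lit 465) (nat_lit 401) (nat_lit 5520) (.d (nat_lit 560) (nat_lit 529) (nat_lit 5552) (nat_lit 592) (nat_lit 6608))) (.a (.f (nat_lit 530) (nat_lit 531) (nat_lit 495) (.f (nat_lit 466) (nat_lit 467) (nat_lit 2511) (.f (nat_lit 434) (nat_lit 401) (nat_lit 7569) (.f (nat_lit 402) (nat_lit 529) (nat_lit 5521) (.d (nat_lit 403) (nat_lit 371) (nat_lit 6514) (nat_lit 435) (nat_lit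 6546)))))) (.f (nat_lit 530) (nat_lit 531) (nat_lit 495) (.f (nat_lit 466) (nat_lit 467) (nat_lit 2511) (.f (nat_lit 465) (nat_lit 562) (nat_lit 7601) (.d (nat_lit 560) (nat_lit 529) (nat_lit 5552) (nat_lit 592) (nat_lit 6608)))))))))
noncomputable def s130810 : Cert := .r (nat_lit 878694102031119890968999803851101002198424821019894051485177942846042356269962691736378831606199038814861501522587683013545397749534319413893253615010474622976) (.p (nat_lit 499) (.a (.d (nat_lit 467) (nat_lit 466) (nat_lit 2511) (nat_lit 468) (nat_lit 2512)) (.a (.f (nat_lit 500) (nat_lit 529) (nat_lit 1520) (.d (nat_lit 468) (nat_lit 467) (nat_lit 2512) (nat_lit 469) (nat_lit 2513))) (.a (.f (nat_lit 500) (nat_lit 529) (nat_lit 1520) (.f (nat_lit 469) (nat_lit 468) (nat_lit 2513) (.f (nat_lit 501) (nat_lit 470) (nat_lit 2514) (.d (nat_lit 533) (nat_lit 532) (nat_lit 497) (nat_lit 534) (nat_lit 498))))) (.f (nat_lit 500) (nat_lit 529) (nat_lit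 1520) (.f (nat_lit 533) (nat_lit 532) (nat_lit 497) (.f (nat_lit 501) (nat_lit 534) (nat_lit 498) (.d (nat_lit 466) (nat_lit 465) (nat_lit 3537) (nat_lit 467) (nat_lit 2511)))))))))
noncomputable def s130896 : Cert := .r (nat_lit 878694101212772238994964336386620953709216440999831338552414917323329633301190674687596907013986214042664220957425653667113334090593482230881555357283980935168) (.p (nat_lit 430) (.a (.f (nat_lit 398) (nat_lit 397) (nat_lit 3469) (.f (nat_lit 434) (nat_lit 399) (nat_lit 3470) (.d (nat_lit 402) (nat_lit 401) (nat_lit 2446) (nat_lit 403) (nat_lit 2447)))) (.a (.f (nat_lit 401) (nat_lit 402) (nat_lit 2446) (.f (nat_lit 429) (nat_lit 400) (nat_lit 2445) (.d (nat_lit 461) (nat_lit 460) (nat_lit 1452) (nat_lit 462) (nat_lit 1453)))) (.a (.f (nat_lit 398) (nat_lit 397) (nat_lit 3469) (.f (nat_lit 434) (nat_lit 399) (nat_lit 3470) (.f (nat_lit 403) (nat_lit 402) (nat_lit 2447) (.f (nat_lit 435) (nat_lit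 404) (nat_lit 2448) (.d (nat_lit 467) (nat_lit 466) (nat_lit 431) (nat_lit 468) (nat_lit 432)))))) (.f (nat_lit 398) (nat_lit 397) (nat_lit 3469) (.f (nat_lit 399) (nat_lit 434) (nat_lit 3470) (.f (nat_lit 461) (nat_lit 462) (nat_lit 1453) (.f (nat_lit 429) (nat_lit 460) (nat_lit 1452) (.d (nat_lit 428) (nat_lit 400) (nat_lit 2444) (nat_lit 427) (nat_lit 2443))))))))))
noncomputable def s130899 : Cert := .r (nat_lit 878694101212772238994964336386620953709216440999831338552414917323329633301190674687596907013986214042664220957425653667113334090593482230881555357283980935168) (.p (nat_lit 430) (.a (.f (nat_lit 465) (nat_lit 466) (nat_lit 430) (.d (nat_lit 529) (nat_lit 400) (nat_lit 7568) (nat_lit 560) (nat_lit 5552))) (.a (.f (nat_lit 398) (nat_lit 397) (nat_lit 3469) (.f (nat_lit 434) (nat_lit 399) (nat_lit 3470) (.f (nat_lit 403) (nat_lit 402) (nat_lit 2447) (.f (nat_lit 435) (nat_lit 404) (nat_lit 2448) (.d (nat_lit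 467) (nat_lit 466) (nat_lit 431) (nat_lit 468) (nat_lit 432)))))) (.f (nat_lit 398) (nat_lit 397) (nat_lit 3469) (.f (nat_lit 399) (nat_lit 434) (nat_lit 3470) (.f (nat_lit 461) (nat_lit 462) (nat_lit 1453) (.f (nat_lit 429) (nat_lit 460) (nat_lit 1452) (.d (nat_lit 428) (nat_lit 400) (nat_lit 2444) (nat_lit 427) (nat_lit 2443)))))))))
noncomputable def s130918 : Cert := .r (nat_lit 878694101212772238994964336364439596156249922123204025079270247695838136698184142086233070369069243580219215973105858418280217465814352543190326782652187672576) (.p (nat_lit 464) (.a (.f (nat_lit 433) (nat_lit 401) (nat_lit 6544) (.f (nat_lit 465) (nat_lit 560) (nat_lit 6576) (.d (nat_lit 400) (nat_lit 368) (nat_lit 4464) (nat_lit 529) (nat_lit 4496)))) (.a (.f (nat_lit 433) (nat_lit 401) (nat_lit 6544) (.f (nat_lit 400) (nat_lit 529) (nat_lit 4496) (.f (nat_lit 465) (nat_lit 368) (nat_lit 4464) (.d (nat_lit 430) (nat_lit 429) (nat_lit 429)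 (nat_lit 466) (nat_lit 430))))) (.a (.f (nat_lit 433) (nat_lit 401) (nat_lit 6544) (.f (nat_lit 465) (nat_lit 560) (nat_lit 6576) (.d (nat_lit 430) (nat_lit 429) (nat_lit 429) (nat_lit 466) (nat_lit 430)))) (.a (.f (nat_lit 401) (nat_lit 433) (nat_lit 6544) (.d (nat_lit 400) (nat_lit 369) (nat_lit 6512) (nat_lit 529) (nat_lit 4496))) (.a (.f (nat_lit 400) (nat_lit 529) (nat_lit 4496) (.f (nat_lit 368) (nat_lit 465) (nat_lit 4464) (.d (nat_lit 369) (nat_lit 337) (nat_lit 6480) (nat_lit 401) (nat_lit 6512)))) (.f (nat_lit 400) (nat_lit 529) (nat_lit 4496) (.f (nat_lit 465) (nat_lit 368) (nat_lit 4464) (.d (nat_lit 560) (nat_lit 433) (nat_lit 6576) (nat_lit 592) (nat_lit 6608))))))))))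
noncomputable def s130945 : Cert := .r (nat_lit 878694101212772238994964336386620953709216440999831338552414917323329633301190674687596907013986214042664220957425653667113334090593482230881555357283980935168) (.p (nat_lit 430) (.a (.f (nat_lit 401) (nat_lit 402) (nat_lit 2446) (.f (nat_lit 429) (nat_lit 400) (nat_lit 2445) (.d (nat_lit 461) (nat_lit 460) (nat_lit 1452) (nat_lit 462) (nat_lit 1453)))) (.a (.f (nat_lit 401) (nat_lit 402) (nat_lit 2446) (.f (nat_lit 429) (nat_lit 400) (nat_lit 2445) (.d (nat_lit 397) (nat_lit 396) (nat_lit 3468) (nat_lit 398) (nat_lit 3469)))) (.a (.f (nat_lit 462) (nat_lit 461) (nat_lit 1453) (.f (nat_lit 434) (nat_lit 463) (nat_lit 1454) (.d (nat_lit 402) (nat_lit 401) (nat_lit 2446) (nat_lit 403) (nat_lit 2447)))) (.f (nat_lit 462) (nat_lit 461) (nat_lit 1453) (.f (nat_lit 463) (nat_lit 434) (nat_lit 1454) (.d (nat_lit 398) (nat_lit 366) (nat_lit 4462) (nat_lit 397) (nat_lit 3469))))))))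
noncomputable def s131006 : Cert := .r (nat_lit 878694101212772238994964336364439596156249922123204025079270247695838136698184142086233070369069243580219215973105858418280217465814352543190326782652187672576) (.p (nat_lit 430) (.a (.p (nat_lit 429) (.a (.f (nat_lit 401) (nat_lit 400) (nat_lit 2445) (.d (nat_lit 433) (nat_lit 402) (nat_lit 2446) (nat_lit 465) (nat_lit 5520))) (.a (.f (nat_lit 461) (nat_lit 460) (nat_lit 1452) (.f (nat_lit 397) (nat_lit 396) (nat_lit 3468) (.d (nat_lit 433) (nat_lit 398) (nat_lit 3469) (nat_lit 462) (nat_lit 1453)))) (.f (nat_lit 464) (nat_lit 465) (nat_lit 429) (.d (nat_lit 400) (nat_lit 401) (nat_lit 2445) (nat_lit 529) (nat_lit 4496)))))) (.a (.p (nat_lit 429) (.a (.f (nat_lit 401) (nat_lit 400) (nat_lit 2445) (.d (nat_lit 433) (nat_lit 402) (nat_lit 2446) (nat_lit 465) (nat_lit 5520))) (.a (.f (nat_lit 461) (nat_lit 460) (nat_lit 1452) (.f (nat_lit 397) (nat_lit 396) (nat_lit 3468)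 (.d (nat_lit 433) (nat_lit 398) (nat_lit 3469) (nat_lit 462) (nat_lit 1453)))) (.f (nat_lit 460) (nat_lit 461) (nat_lit 1452) (.f (nat_lit 428) (nat_lit 459) (nat_lit 1451) (.d (nat_lit 396) (nat_lit 395) (nat_lit 3467) (nat_lit 397) (nat_lit 3468))))))) (.a (.p (nat_lit 429) (.a (.f (nat_lit 401) (nat_lit 400) (nat_lit 2445) (.d (nat_lit 433) (nat_lit 402) (nat_lit 2446) (nat_lit 465) (nat_lit 5520))) (.a (.f (nat_lit 397) (nat_lit 396) (nat_lit 3468) (.f (nat_lit 398) (nat_lit 433) (nat_lit 3469) (.f (nat_lit 461) (nat_lit 460) (nat_lit 1452) (.d (nat_lit 366) (nat_lit 334) (nat_lit 5453) (nat_lit 493) (nat_lit 6509))))) (.f (nat_lit 464) (nat_lit 465) (nat_lit 429) (.d (nat_lit 400) (nat_lit 401) (nat_lit 2445) (nat_lit 529) (nat_lit 4496)))))) (.a (.p (nat_lit 433) (.a (.d (nat_lit 465) (nat_lit 401) (nat_lit 5520) (nat_lit 466) (nat_lit 430)) (.a (.f (nat_lit 462) (nat_lit 461) (nat_lit 1453) (.f (nat_lit 434)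 (nat_lit 463) (nat_lit 1454) (.d (nat_lit 402) (nat_lit 401) (nat_lit 2446) (nat_lit 403) (nat_lit 2447)))) (.f (nat_lit 462) (nat_lit 461) (nat_lit 1453) (.f (nat_lit 463) (nat_lit 434) (nat_lit 1454) (.d (nat_lit 398) (nat_lit 366) (nat_lit 4462) (nat_lit 397) (nat_lit 3469))))))) (.a (.p (nat_lit 429) (.a (.f (nat_lit 401) (nat_lit 400) (nat_lit 2445) (.d (nat_lit 433) (nat_lit 402) (nat_lit 2446) (nat_lit 465) (nat_lit 5520))) (.a (.f (nat_lit 397) (nat_lit 396) (nat_lit 3468) (.f (nat_lit 433) (nat_lit 398) (nat_lit 3469) (.d (nat_lit 401) (nat_lit 400) (nat_lit 2445) (nat_lit 402) (nat_lit 2446)))) (.a (.f (nat_lit 464) (nat_lit 465) (nat_lit 429) (.d (nat_lit 400) (nat_lit 401) (nat_lit 2445) (nat_lit 529) (nat_lit 4496))) (.a (.f (nat_lit 397) (nat_lit 396) (nat_lit 3468) (.f (nat_lit 433) (nat_lit 398) (nat_lit 3469) (.d (nat_lit 401) (nat_lit 402) (nat_lit 2446) (nat_lit 465) (nat_lit 5520)))) (.f (nat_lit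 464) (nat_lit 465) (nat_lit 429) (.f (nat_lit 428) (nat_lit 463) (nat_lit 428) (.d (nat_lit 396) (nat_lit 395) (nat_lit 3467) (nat_lit 397) (nat_lit 3468))))))))) (.a (.p (nat_lit 429) (.a (.f (nat_lit 401) (nat_lit 400) (nat_lit 2445) (.d (nat_lit 433) (nat_lit 402) (nat_lit 2446) (nat_lit 465) (nat_lit 5520))) (.f (nat_lit 460) (nat_lit 461) (nat_lit 1452) (.f (nat_lit 428) (nat_lit 459) (nat_lit 1451) (.d (nat_lit 396) (nat_lit 395) (nat_lit 3467) (nat_lit 397) (nat_lit 3468)))))) (.a (.p (nat_lit 429) (.a (.f (nat_lit 461) (nat_lit 460) (nat_lit 1452) (.f (nat_lit 397) (nat_lit 396) (nat_lit 3468) (.d (nat_lit 433) (nat_lit 398) (nat_lit 3469) (nat_lit 462) (nat_lit 1453)))) (.a (.f (nat_lit 397) (nat_lit 396) (nat_lit 3468) (.f (nat_lit 398) (nat_lit 433) (nat_lit 3469) (.f (nat_lit 461) (nat_lit 460) (nat_lit 1452) (.d (nat_lit 366) (nat_lit 334) (nat_lit 5453) (nat_lit 493) (nat_lit 6509))))) (.a (.f (nat_lit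 397) (nat_lit 396) (nat_lit 3468) (.f (nat_lit 433) (nat_lit 398) (nat_lit 3469) (.d (nat_lit 401) (nat_lit 400) (nat_lit 2445) (nat_lit 402) (nat_lit 2446)))) (.a (.f (nat_lit 460) (nat_lit 461) (nat_lit 1452) (.f (nat_lit 428) (nat_lit 459) (nat_lit 1451) (.d (nat_lit 396) (nat_lit 395) (nat_lit 3467) (nat_lit 397) (nat_lit 3468)))) (.f (nat_lit 461) (nat_lit 460) (nat_lit 1452) (.f (nat_lit 433) (nat_lit 462) (nat_lit 1453) (.d (nat_lit 401) (nat_lit 400) (nat_lit 2445) (nat_lit 402) (nat_lit 2446))))))))) (.a (.p (nat_lit 429) (.a (.f (nat_lit 464) (nat_lit 465) (nat_lit 429) (.d (nat_lit 400) (nat_lit 401) (nat_lit 2445) (nat_lit 529) (nat_lit 4496))) (.f (nat_lit 460) (nat_lit 461) (nat_lit 1452) (.f (nat_lit 428) (nat_lit 459) (nat_lit 1451) (.d (nat_lit 396) (nat_lit 395) (nat_lit 3467) (nat_lit 397) (nat_lit 3468)))))) (.a (.p (nat_lit 429) (.a (.f (nat_lit 401) (nat_lit 400) (nat_lit 2445) (.d (nat_lit 433)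 (nat_lit 402) (nat_lit 2446) (nat_lit 465) (nat_lit 5520))) (.a (.f (nat_lit 461) (nat_lit 460) (nat_lit 1452) (.f (nat_lit 433) (nat_lit 462) (nat_lit 1453) (.d (nat_lit 401) (nat_lit 400) (nat_lit 2445) (nat_lit 402) (nat_lit 2446)))) (.a (.f (nat_lit 464) (nat_lit 465) (nat_lit 429) (.d (nat_lit 400) (nat_lit 401) (nat_lit 2445) (nat_lit 529) (nat_lit 4496))) (.a (.f (nat_lit 461) (nat_lit 460) (nat_lit 1452) (.f (nat_lit 433) (nat_lit 462) (nat_lit 1453) (.d (nat_lit 401) (nat_lit 402) (nat_lit 2446) (nat_lit 465) (nat_lit 5520)))) (.f (nat_lit 464) (nat_lit 465) (nat_lit 429) (.f (nat_lit 463) (nat_lit 428) (nat_lit 428) (.d (nat_lit 400) (nat_lit 368) (nat_lit 5487) (nat_lit 529) (nat_lit 4496))))))))) (.p (nat_lit 429) (.a (.f (nat_lit 461) (nat_lit 460) (nat_lit 1452) (.f (nat_lit 397) (nat_lit 396) (nat_lit 3468) (.d (nat_lit 433) (nat_lit 398) (nat_lit 3469) (nat_lit 462) (nat_lit 1453)))) (.a (.f (nat_lit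 397) (nat_lit 396) (nat_lit 3468) (.f (nat_lit 398) (nat_lit 433) (nat_lit 3469) (.f (nat_lit 461) (nat_lit 460) (nat_lit 1452) (.d (nat_lit 366) (nat_lit 334) (nat_lit 5453) (nat_lit 493) (nat_lit 6509))))) (.a (.f (nat_lit 464) (nat_lit 465) (nat_lit 429) (.f (nat_lit 428) (nat_lit 463) (nat_lit 428) (.d (nat_lit 396) (nat_lit 395) (nat_lit 3467) (nat_lit 397) (nat_lit 3468)))) (.f (nat_lit 464) (nat_lit 465) (nat_lit 429) (.f (nat_lit 463) (nat_lit 428) (nat_lit 428) (.d (nat_lit 400) (nat_lit 368) (nat_lit 5487) (nat_lit 529) (nat_lit 4496))))))))))))))))))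
noncomputable def s131066 : Cert := .r (nat_lit 878694101263918967243341553066759667004456269719118571943834632810895941872431333204033232805432610925977714690348616421148506106749024910951364618136600969216) (.p (nat_lit 498) (.a (.d (nat_lit 530) (nat_lit 529) (nat_lit 494) (nat_lit 531) (nat_lit 495)) (.a (.f (nat_lit 467) (nat_lit 466) (nat_lit 2511) (.f (nat_lit 499) (nat_lit 468) (nat_lit 2512) (.d (nat_lit 531) (nat_lit 530) (nat_lit 495) (nat_lit 532) (nat_lit 496)))) (.a (.f (nat_lit 467) (nat_lit 466) (nat_lit 2511) (.f (nat_lit 499) (nat_lit 468) (nat_lit 2512) (.f (nat_lit 532) (nat_lit 531) (nat_lit 496) (.d (nat_lit 500) (nat_lit 529) (nat_lit 1520) (nat_lit 533) (nat_lit 497))))) (.f (nat_lit 529) (nat_lit 530) (nat_lit 494) (.f (nat_lit 499) (nat_lit 500) (nat_lit 1520) (.d (nat_lit 467) (nat_lit 466) (nat_lit 2511) (nat_lit 468) (nat_lit 2512))))))))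
noncomputable def s131163 : Cert := .r (nat_lit 878694101263918967243341553086168354863301973736167471232836218734951001400062049230226589869734960080617094051628437263877483153430763387681189620939420073984) (.p (nat_lit 429) (.a (.f (nat_lit 400) (nat_lit 401) (nat_lit 2445) (.f (nat_lit 428) (nat_lit 399) (nat_lit 2444) (.d (nat_lit 460) (nat_lit 459) (nat_lit 1451) (nat_lit 461) (nat_lit 1452)))) (.a (.f (nat_lit 397) (nat_lit 396) (nat_lit 3468) (.f (nat_lit 401) (nat_lit 400) (nat_lit 2445) (.d (nat_lit 433) (nat_lit 398) (nat_lit 3469) (nat_lit 402) (nat_lit 2446)))) (.f (nat_lit 397) (nat_lit 396) (nat_lit 3468) (.f (nat_lit 398) (nat_lit 433) (nat_lit 3469) (.f (nat_lit 460) (nat_lit 461) (nat_lit 1452) (.f (nat_lit 428) (nat_lit 459) (nat_lit 1451) (.d (nat_lit 427) (nat_lit 399) (nat_lit 2443) (nat_lit 426) (nat_lit 2442)))))))))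
noncomputable def s131191 : Cert := .r (nat_lit 878694101263918967243341553086168354863301973736167471232836218734951001400062049230226589869734960080617094051628437263877483153430763387681189620939420073984) (.p (nat_lit 429) (.a (.f (nat_lit 397) (nat_lit 396) (nat_lit 3468) (.f (nat_lit 433) (nat_lit 398) (nat_lit 3469) (.d (nat_lit 464) (nat_lit 399) (nat_lit 7567) (nat_lit 401) (nat_lit 6544)))) (.a (.f (nat_lit 397) (nat_lit 396) (nat_lit 3468) (.f (nat_lit 398) (nat_lit 433) (nat_lit 3469) (.f (nat_lit 460) (nat_lit 461) (nat_lit 1452) (.f (nat_lit 428) (nat_lit 459) (nat_lit 1451) (.d (nat_lit 427) (nat_lit 399) (nat_lit 2443) (nat_lit 426) (nat_lit 2442)))))) (.a (.f (nat_lit 396) (nat_lit 397) (nat_lit 3468) (.f (nat_lit 428) (nat_lit 395) (nat_lit 3467) (.d (nat_lit 460) (nat_lit 459) (nat_lit 1451) (nat_lit 461) (nat_lit 1452)))) (.a (.f (nat_lit 460) (nat_lit 461) (nat_lit 1452) (.f (nat_lit 428) (nat_lit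 459) (nat_lit 1451) (.f (nat_lit 395) (nat_lit 396) (nat_lit 3467) (.f (nat_lit 427) (nat_lit 394) (nat_lit 3466) (.d (nat_lit 399) (nat_lit 398) (nat_lit 2443) (nat_lit 464) (nat_lit 7567)))))) (.f (nat_lit 460) (nat_lit 461) (nat_lit 1452) (.f (nat_lit 428) (nat_lit 459) (nat_lit 1451) (.f (nat_lit 399) (nat_lit 464) (nat_lit 7567) (.f (nat_lit 398) (nat_lit 427) (nat_lit 2443) (.d (nat_lit 433) (nat_lit 397) (nat_lit 3469) (nat_lit 434) (nat_lit 3470)))))))))))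
noncomputable def s131265 : Cert := .r (nat_lit 878694101263918967243341553086168354863301973736167471232836218734951001400062049230226589869734960080617094051628437263877483153430763387681189620939420073984) (.p (nat_lit 429) (.a (.f (nat_lit 396) (nat_lit 397) (nat_lit 3468) (.f (nat_lit 428) (nat_lit 395) (nat_lit 3467) (.d (nat_lit 400) (nat_lit 399) (nat_lit 2444) (nat_lit 401) (nat_lit 2445)))) (.a (.f (nat_lit 397) (nat_lit 396) (nat_lit 3468) (.d (nat_lit 526) (nat_lit 462) (nat_lit 7565) (nat_lit 525) (nat_lit 1517))) (.a (.f (nat_lit 400) (nat_lit 401) (nat_lit 2445) (.f (nat_lit 428) (nat_lit 399) (nat_lit 2444) (.f (nat_lit 395) (nat_lit 396) (nat_lit 3467) (.f (nat_lit 427) (nat_lit 394) (nat_lit 3466) (.d (nat_lit 459) (nat_lit 458) (nat_lit 1450) (nat_lit 460) (nat_lit 1451)))))) (.f (nat_lit 526) (nat_lit 525) (nat_lit 1517) (.d (nat_lit 462) (nat_lit 397) (nat_lit 7565) (nat_lit 399) (nat_lit 6542)))))))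
noncomputable def s131362 : Cert := .r (nat_lit 878694100854745141256323819315110954901006375692038316188451534125484520860414608653448913445023849385239695046487780905203497230596867842715690486470535020544) (.p (nat_lit 493) (.a (.f (nat_lit 465) (nat_lit 464) (nat_lit 2509) (.f (nat_lit 497) (nat_lit 466) (nat_lit 2510) (.d (nat_lit 525) (nat_lit 524) (nat_lit 1516) (nat_lit 526) (nat_lit 1517)))) (.a (.f (nat_lit 461) (nat_lit 460) (nat_lit 3532) (.f (nat_lit 525) (nat_lit 524) (nat_lit 1516) (.d (nat_lit 497) (nat_lit 462) (nat_lit 3533) (nat_lit 526) (nat_lit 1517)))) (.a (.f (nat_lit 524) (nat_lit 525) (nat_lit 1516) (.f (nat_lit 492) (nat_lit 523) (nat_lit 1515) (.d (nat_lit 460) (nat_lit 459) (nat_lit 3531) (nat_lit 461) (nat_lit 3532)))) (.f (nat_lit 465) (nat_lit 464) (nat_lit 2509) (.f (nat_lit 497) (nat_lit 466) (nat_lit 2510) (.d (nat_lit 461) (nat_lit 460) (nat_lit 3532) (nat_lit 462) (nat_lit 3533))))))))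
noncomputable def s131377 : Cert := .r (nat_lit 878694100854745141268232344976742847889887311820053796663444677882421977035442360651994987122088382268821634844422057569455169962691324112940124971382731702272) (.p (nat_lit 398) (.a (.f (nat_lit 397) (nat_lit 365) (nat_lit 7533) (.f (nat_lit 399) (nat_lit 367) (nat_lit 6510) (.f (nat_lit 429) (nat_lit 526) (nat_lit 7565) (.d (nat_lit 428) (nat_lit 400) (nat_lit 1420) (nat_lit 427) (nat_lit 2443))))) (.a (.f (nat_lit 365) (nat_lit 397) (nat_lit 7533) (.f (nat_lit 366) (nat_lit 333) (nat_lit 7501) (.d (nat_lit 367) (nat_lit 335) (nat_lit 6478) (nat_lit 399) (nat_lit 6510)))) (.a (.f (nat_lit 366) (nat_lit 463) (nat_lit 4462) (.d (nat_lit 365) (nat_lit 333) (nat_lit 7501) (nat_lit 397) (nat_lit 7533))) (.f (nat_lit 463) (nat_lit 366) (nat_lit 4462) (.d (nat_lit 399) (nat_lit 367) (nat_lit 6510) (nat_lit 431) (nat_lit 4495)))))))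
noncomputable def s131432 : Cert := .r (nat_lit 878694100854745141256323819315110954901006375692038316188451534125484520860414608653448913445023849385239695046487780905203497230596867842715690486470535020544) (.p (nat_lit 462) (.a (.f (nat_lit 497) (nat_lit 461) (nat_lit 3533) (.f (nat_lit 463) (nat_lit 498) (nat_lit 3534) (.f (nat_lit 526) (nat_lit 525) (nat_lit 1517) (.d (nat_lit 431) (nat_lit 399) (nat_lit 5518) (nat_lit 558) (nat_lit 6574))))) (.a (.f (nat_lit 461) (nat_lit 497) (nat_lit 3533) (.d (nat_lit 460) (nat_lit 459) (nat_lit 459) (nat_lit 493) (nat_lit 3532))) (.a (.p (nat_lit 430) (.a (.p (nat_lit 398) (.a (.f (nat_lit 397) (nat_lit 365) (nat_lit 7533) (.f (nat_lit 399) (nat_lit 367) (nat_lit 6510) (.f (nat_lit 429) (nat_lit 526) (nat_lit 7565) (.d (nat_lit 428) (nat_lit 400) (nat_lit 1420) (nat_lit 427) (nat_lit 2443))))) (.a (.f (nat_lit 365) (nat_lit 397) (nat_lit 7533) (.f (nat_lit 366) (nat_lit 333)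 (nat_lit 7501) (.d (nat_lit 367) (nat_lit 335) (nat_lit 6478) (nat_lit 399) (nat_lit 6510)))) (.f (nat_lit 493) (nat_lit 525) (nat_lit 5517) (.d (nat_lit 461) (nat_lit 366) (nat_lit 5485) (nat_lit 460) (nat_lit 3532)))))) (.a s131377 (.a (.p (nat_lit 398) (.a (.f (nat_lit 365) (nat_lit 397) (nat_lit 7533) (.f (nat_lit 366) (nat_lit 333) (nat_lit 7501) (.d (nat_lit 367) (nat_lit 335) (nat_lit 6478) (nat_lit 399) (nat_lit 6510)))) (.a (.f (nat_lit 493) (nat_lit 525) (nat_lit 5517) (.d (nat_lit 461) (nat_lit 366) (nat_lit 5485) (nat_lit 460) (nat_lit 3532))) (.f (nat_lit 399) (nat_lit 367) (nat_lit 6510) (.d (nat_lit 431) (nat_lit 463) (nat_lit 4495) (nat_lit 526) (nat_lit 6542)))))) (.a (.p (nat_lit 398) (.a (.f (nat_lit 493) (nat_lit 525) (nat_lit 5517) (.d (nat_lit 461) (nat_lit 366) (nat_lit 5485) (nat_lit 460) (nat_lit 3532))) (.a (.f (nat_lit 366) (nat_lit 463) (nat_lit 4462) (.d (nat_lit 365) (nat_lit 333) (nat_lit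 7501) (nat_lit 397) (nat_lit 7533))) (.f (nat_lit 493) (nat_lit 525) (nat_lit 5517) (.f (nat_lit 461) (nat_lit 460) (nat_lit 3532) (.f (nat_lit 397) (nat_lit 365) (nat_lit 7533) (.f (nat_lit 429) (nat_lit 526) (nat_lit 4493) (.f (nat_lit 396) (nat_lit 364) (nat_lit 7532) (.d (nat_lit 395) (nat_lit 394) (nat_lit 394) (nat_lit 431) (nat_lit 395)))))))))) (.a (.p (nat_lit 493) (.a (.f (nat_lit 461) (nat_lit 460) (nat_lit 3532) (.d (nat_lit 525) (nat_lit 524) (nat_lit 1516) (nat_lit 557) (nat_lit 6573))) (.a (.f (nat_lit 525) (nat_lit 524) (nat_lit 1516) (.d (nat_lit 557) (nat_lit 526) (nat_lit 5549) (nat_lit 589) (nat_lit 6605))) (.a (.f (nat_lit 460) (nat_lit 461) (nat_lit 3532) (.f (nat_lit 492) (nat_lit 459) (nat_lit 3531) (.f (nat_lit 523) (nat_lit 524) (nat_lit 1515) (.d (nat_lit 491) (nat_lit 463) (nat_lit 2507) (nat_lit 522) (nat_lit 1514))))) (.f (nat_lit 460) (nat_lit 461) (nat_lit 3532) (.f (nat_lit 492) (nat_lit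 459) (nat_lit 3531) (.f (nat_lit 463) (nat_lit 491) (nat_lit 2507) (.f (nat_lit 431) (nat_lit 399) (nat_lit 4495) (.f (nat_lit 526) (nat_lit 558) (nat_lit 6574) (.f (nat_lit 525) (nat_lit 557) (nat_lit 5549) (.f (nat_lit 429) (nat_lit 397) (nat_lit 7565) (.d (nat_lit 428) (nat_lit 396) (nat_lit 4492) (nat_lit 427) (nat_lit 427))))))))))))) (.a (.p (nat_lit 398) (.a (.f (nat_lit 365) (nat_lit 397) (nat_lit 7533) (.f (nat_lit 366) (nat_lit 333) (nat_lit 7501) (.d (nat_lit 367) (nat_lit 335) (nat_lit 6478) (nat_lit 399) (nat_lit 6510)))) (.a (.f (nat_lit 493) (nat_lit 525) (nat_lit 5517) (.d (nat_lit 461) (nat_lit 366) (nat_lit 5485) (nat_lit 460) (nat_lit 3532))) (.f (nat_lit 397) (nat_lit 365) (nat_lit 7533) (.f (nat_lit 399) (nat_lit 367) (nat_lit 6510) (.f (nat_lit 431) (nat_lit 463) (nat_lit 4495) (.d (nat_lit 396) (nat_lit 395) (nat_lit 395) (nat_lit 432) (nat_lit 396)))))))) (.p (nat_lit 398) (.a (.f (nat_lit 493)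 (nat_lit 525) (nat_lit 5517) (.d (nat_lit 461) (nat_lit 366) (nat_lit 5485) (nat_lit 460) (nat_lit 3532))) (.a (.f (nat_lit 463) (nat_lit 366) (nat_lit 4462) (.d (nat_lit 399) (nat_lit 367) (nat_lit 6510) (nat_lit 431) (nat_lit 4495))) (.f (nat_lit 399) (nat_lit 367) (nat_lit 6510) (.d (nat_lit 431) (nat_lit 463) (nat_lit 4495) (nat_lit 526) (nat_lit 6542))))))))))))) (.p (nat_lit 430) (.a s131377 (.a (.p (nat_lit 398) (.a (.f (nat_lit 397) (nat_lit 365) (nat_lit 7533) (.f (nat_lit 399) (nat_lit 367) (nat_lit 6510) (.f (nat_lit 429) (nat_lit 526) (nat_lit 7565) (.d (nat_lit 428) (nat_lit 400) (nat_lit 1420) (nat_lit 427) (nat_lit 2443))))) (.a (.f (nat_lit 365) (nat_lit 397) (nat_lit 7533) (.f (nat_lit 366) (nat_lit 333) (nat_lit 7501) (.d (nat_lit 367) (nat_lit 335) (nat_lit 6478) (nat_lit 399) (nat_lit 6510)))) (.f (nat_lit 525) (nat_lit 493) (nat_lit 5517) (.d (nat_lit 526) (nat_lit 497) (nat_lit 1517) (nat_lit 557)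 (nat_lit 5549)))))) (.a (.p (nat_lit 398) (.a (.f (nat_lit 365) (nat_lit 397) (nat_lit 7533) (.f (nat_lit 366) (nat_lit 333) (nat_lit 7501) (.d (nat_lit 367) (nat_lit 335) (nat_lit 6478) (nat_lit 399) (nat_lit 6510)))) (.f (nat_lit 525) (nat_lit 493) (nat_lit 5517) (.d (nat_lit 526) (nat_lit 497) (nat_lit 1517) (nat_lit 557) (nat_lit 5549))))) (.a (.p (nat_lit 398) (.a (.f (nat_lit 525) (nat_lit 493) (nat_lit 5517) (.d (nat_lit 526) (nat_lit 497) (nat_lit 1517) (nat_lit 557) (nat_lit 5549))) (.f (nat_lit 366) (nat_lit 463) (nat_lit 4462) (.d (nat_lit 365) (nat_lit 333) (nat_lit 7501) (nat_lit 397) (nat_lit 7533))))) (.a (.p (nat_lit 526) (.a (.d (nat_lit 525) (nat_lit 497) (nat_lit 1517) (nat_lit 557) (nat_lit 5549)) (.a (.f (nat_lit 431) (nat_lit 399) (nat_lit 6542) (.f (nat_lit 558) (nat_lit 463) (nat_lit 6574) (.d (nat_lit 557) (nat_lit 525) (nat_lit 5549) (nat_lit 589) (nat_lit 5581)))) (.a (.f (nat_lit 431) (nat_lit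 399) (nat_lit 6542) (.f (nat_lit 558) (nat_lit 463) (nat_lit 6574) (.f (nat_lit 591) (nat_lit 559) (nat_lit 4558) (.f (nat_lit 590) (nat_lit 623) (nat_lit 4590) (.d (nat_lit 589) (nat_lit 557) (nat_lit 5581) (nat_lit 621) (nat_lit 5613)))))) (.f (nat_lit 431) (nat_lit 399) (nat_lit 6542) (.f (nat_lit 463) (nat_lit 558) (nat_lit 6574) (.d (nat_lit 497) (nat_lit 498) (nat_lit 3534) (nat_lit 525) (nat_lit 1517)))))))) (.p (nat_lit 398) (.a (.f (nat_lit 365) (nat_lit 397) (nat_lit 7533) (.f (nat_lit 366) (nat_lit 333) (nat_lit 7501) (.d (nat_lit 367) (nat_lit 335) (nat_lit 6478) (nat_lit 399) (nat_lit 6510)))) (.a (.f (nat_lit 366) (nat_lit 463) (nat_lit 4462) (.d (nat_lit 365) (nat_lit 333) (nat_lit 7501) (nat_lit 397) (nat_lit 7533))) (.a (.f (nat_lit 463) (nat_lit 366) (nat_lit 4462) (.d (nat_lit 399) (nat_lit 367) (nat_lit 6510) (nat_lit 431) (nat_lit 4495))) (.f (nat_lit 397) (nat_lit 365) (nat_lit 7533) (.f (nat_lit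 399) (nat_lit 367) (nat_lit 6510) (.f (nat_lit 431) (nat_lit 463) (nat_lit 4495) (.d (nat_lit 396) (nat_lit 395) (nat_lit 395) (nat_lit 432) (nat_lit 396)))))))))))))))))))
noncomputable def s131451 : Cert := .r (nat_lit 878694101263918967243341553066759667004456269719118571943834632810895941872431333204033232805432610925977714690348616421148506106749024910951364618136600969216) (.p (nat_lit 463) (.a (.f (nat_lit 431) (nat_lit 399) (nat_lit 4495) (.d (nat_lit 560) (nat_lit 464) (nat_lit 7599) (nat_lit 592) (nat_lit 7631))) (.a (.f (nat_lit 526) (nat_lit 525) (nat_lit 1517) (.f (nat_lit 431) (nat_lit 399) (nat_lit 5518) (.d (nat_lit 462) (nat_lit 461) (nat_lit 3533) (nat_lit 558) (nat_lit 6574)))) (.f (nat_lit 462) (nat_lit 461) (nat_lit 3533) (.f (nat_lit 560) (nat_lit 592) (nat_lit 7631) (.f (nat_lit 526) (nat_lit 525) (nat_lit 1517) (.f (nat_lit 558) (nat_lit 590) (nat_lit 6606) (.f (nat_lit 559) (nat_lit 591) (nat_lit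 4558) (.d (nat_lit 557) (nat_lit 529) (nat_lit 2573) (nat_lit 589) (nat_lit 5581))))))))))
noncomputable def s131496 : Cert := .r (nat_lit 878694100829171777138089473786448856888981225379353540441236662336115035134677439368310430323530568230734538717713617017582770541884586161063178095697504239616) (.p (nat_lit 398) (.a (.f (nat_lit 525) (nat_lit 430) (nat_lit 6541) (.f (nat_lit 397) (nat_lit 366) (nat_lit 6509) (.d (nat_lit 524) (nat_lit 492) (nat_lit 5516) (nat_lit 556) (nat_lit 5548)))) (.a (.f (nat_lit 397) (nat_lit 366) (nat_lit 6509) (.f (nat_lit 396) (nat_lit 364) (nat_lit 7532) (.f (nat_lit 428) (nat_lit 525) (nat_lit 7564) (.d (nat_lit 427) (nat_lit 399) (nat_lit 1419) (nat_lit 426) (nat_lit 2442))))) (.a (.f (nat_lit 397) (nat_lit 366) (nat_lit 6509) (.f (nat_lit 396) (nat_lit 364) (nat_lit 7532) (.f (nat_lit 492) (nat_lit 524) (nat_lit 5516) (.f (nat_lit 460) (nat_lit 365) (nat_lit 5484) (.f (nat_lit 462)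 (nat_lit 463) (nat_lit 460) (.f (nat_lit 491) (nat_lit 490) (nat_lit 2506) (.f (nat_lit 428) (nat_lit 523) (nat_lit 5515) (.d (nat_lit 427) (nat_lit 399) (nat_lit 1419) (nat_lit 426) (nat_lit 426))))))))) (.f (nat_lit 525) (nat_lit 430) (nat_lit 6541) (.f (nat_lit 428) (nat_lit 396) (nat_lit 7564) (.f (nat_lit 557) (nat_lit 460) (nat_lit 7596) (.d (nat_lit 556) (nat_lit 524) (nat_lit 5548) (nat_lit 588) (nat_lit 5580)))))))))
noncomputable def s131501 : Cert := .r (nat_lit 878694100829171777138089473786448856888981225379353540441236662336115035134677439368310430323530568230734538717713617017582770541884586161063178095697504239616) (.p (nat_lit 398) (.a (.f (nat_lit 525) (nat_lit 430) (nat_lit 6541) (.f (nat_lit 397) (nat_lit 366) (nat_lit 6509) (.d (nat_lit 524) (nat_lit 492) (nat_lit 5516) (nat_lit 556) (nat_lit 5548)))) (.a (.f (nat_lit 397) (nat_lit 366) (nat_lit 6509) (.f (nat_lit 396) (nat_lit 364) (nat_lit 7532)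 (.f (nat_lit 428) (nat_lit 525) (nat_lit 7564) (.d (nat_lit 427) (nat_lit 399) (nat_lit 1419) (nat_lit 426) (nat_lit 2442))))) (.a (.f (nat_lit 397) (nat_lit 366) (nat_lit 6509) (.f (nat_lit 364) (nat_lit 396) (nat_lit 7532) (.f (nat_lit 365) (nat_lit 332) (nat_lit 7500) (.d (nat_lit 492) (nat_lit 460) (nat_lit 5484) (nat_lit 524) (nat_lit 5516))))) (.f (nat_lit 525) (nat_lit 430) (nat_lit 6541) (.f (nat_lit 428) (nat_lit 396) (nat_lit 7564) (.f (nat_lit 557) (nat_lit 460) (nat_lit 7596) (.d (nat_lit 556) (nat_lit 524) (nat_lit 5548) (nat_lit 588) (nat_lit 5580)))))))))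
noncomputable def s131525 : Cert := .r (nat_lit 878694100829171777138089473786448856888981225379353540441236662336115035134677439368310430323530568230734538717713617017582770541884586161063178095697504239616) (.p (nat_lit 397) (.a (.f (nat_lit 492) (nat_lit 524) (nat_lit 5516) (.f (nat_lit 460) (nat_lit 365) (nat_lit 5484) (.f (nat_lit 463) (nat_lit 462) (nat_lit 460) (.f (nat_lit 396) (nat_lit 364) (nat_lit 7532) (.f (nat_lit 428) (nat_lit 525) (nat_lit 4492) (.f (nat_lit 398) (nat_lit 366) (nat_lit 6509) (.d (nat_lit 399) (nat_lit 427) (nat_lit 1419) (nat_lit 431) (nat_lit 4495)))))))) (.a (.f (nat_lit 492) (nat_lit 524) (nat_lit 5516) (.f (nat_lit 365) (nat_lit 460) (nat_lit 5484) (.d (nat_lit 366) (nat_lit 334) (nat_lit 6477) (nat_lit 398) (nat_lit 6509)))) (.a (.f (nat_lit 396) (nat_lit 364) (nat_lit 7532) (.f (nat_lit 428) (nat_lit 525) (nat_lit 7564) (.f (nat_lit 398) (nat_lit 366) (nat_lit 6509) (.d (nat_lit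 427) (nat_lit 399) (nat_lit 1419) (nat_lit 426) (nat_lit 2442))))) (.f (nat_lit 492) (nat_lit 524) (nat_lit 5516) (.f (nat_lit 460) (nat_lit 365) (nat_lit 5484) (.f (nat_lit 396) (nat_lit 364) (nat_lit 7532) (.f (nat_lit 428) (nat_lit 525) (nat_lit 4492) (.f (nat_lit 395) (nat_lit 363) (nat_lit 7531) (.f (nat_lit 394) (nat_lit 393) (nat_lit 393) (.f (nat_lit 426) (nat_lit 425) (nat_lit 1417) (.f (nat_lit 491) (nat_lit 523) (nat_lit 5515) (.f (nat_lit 362) (nat_lit 361) (nat_lit 3433) (.d (nat_lit 459) (nat_lit 427) (nat_lit 7530) (nat_lit 458) (nat_lit 4458)))))))))))))))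
noncomputable def s131529 : Cert := .r (nat_lit 878694100829171777138089473786448856888981225379353540441236662336115035134677439368310430323530568230734538717713617017582770541884586161063178095697504239616) (.p (nat_lit 398) (.a (.f (nat_lit 525) (nat_lit 430) (nat_lit 6541) (.f (nat_lit 397) (nat_lit 366) (nat_lit 6509) (.d (nat_lit 524) (nat_lit 492) (nat_lit 5516) (nat_lit 556) (nat_lit 5548)))) (.a (.f (nat_lit 397) (nat_lit 366) (nat_lit 6509) (.f (nat_lit 364) (nat_lit 396) (nat_lit 7532) (.f (nat_lit 365) (nat_lit 332) (nat_lit 7500) (.d (nat_lit 492) (nat_lit 460) (nat_lit 5484) (nat_lit 524) (nat_lit 5516))))) (.a (.f (nat_lit 525) (nat_lit 430) (nat_lit 6541) (.f (nat_lit 428) (nat_lit 396) (nat_lit 7564) (.f (nat_lit 557) (nat_lit 460) (nat_lit 7596) (.d (nat_lit 556) (nat_lit 524) (nat_lit 5548) (nat_lit 588) (nat_lit 5580))))) (.f (nat_lit 366) (nat_lit 397) (nat_lit 6509) (.d (nat_lit 430) (nat_lit 334)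 (nat_lit 5453) (nat_lit 462) (nat_lit 5485)))))))
noncomputable def s131565 : Cert := .r (nat_lit 878694100829171777138089473786448856888981225379353540441236662336115035134677439368310430323530568230734538717713617017582770541884586161063178095697504239616) (.p (nat_lit 398) (.a (.f (nat_lit 525) (nat_lit 430) (nat_lit 6541) (.f (nat_lit 397) (nat_lit 366) (nat_lit 6509) (.d (nat_lit 524) (nat_lit 492) (nat_lit 5516) (nat_lit 556) (nat_lit 5548)))) (.a (.f (nat_lit 397) (nat_lit 366) (nat_lit 6509) (.f (nat_lit 396) (nat_lit 364) (nat_lit 7532) (.f (nat_lit 428) (nat_lit 525) (nat_lit 7564) (.d (nat_lit 427) (nat_lit 399) (nat_lit 1419) (nat_lit 426) (nat_lit 2442))))) (.a (.f (nat_lit 366) (nat_lit 397) (nat_lit 6509) (.d (nat_lit 430) (nat_lit 334) (nat_lit 5453) (nat_lit 462) (nat_lit 5485))) (.f (nat_lit 525) (nat_lit 430) (nat_lit 6541) (.f (nat_lit 556) (nat_lit 524) (nat_lit 5548) (.f (nat_lit 557) (nat_lit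 588) (nat_lit 5580) (.d (nat_lit 558) (nat_lit 526) (nat_lit 4525) (nat_lit 590) (nat_lit 4557)))))))))
noncomputable def s131566 : Cert := .r (nat_lit 878694100829171777138089473786448856888981225379353540441236662336115035134677439368310430323530568230734538717713617017582770541884586161063178095697504239616) (.p (nat_lit 398) (.a (.f (nat_lit 525) (nat_lit 430) (nat_lit 6541) (.f (nat_lit 397) (nat_lit 366) (nat_lit 6509) (.d (nat_lit 524) (nat_lit 492) (nat_lit 5516) (nat_lit 556) (nat_lit 5548)))) (.a (.f (nat_lit 397) (nat_lit 366) (nat_lit 6509) (.f (nat_lit 364) (nat_lit 396) (nat_lit 7532) (.f (nat_lit 365) (nat_lit 332) (nat_lit 7500) (.d (nat_lit 492) (nat_lit 460) (nat_lit 5484) (nat_lit 524) (nat_lit 5516))))) (.a (.f (nat_lit 366) (nat_lit 397) (nat_lit 6509) (.d (nat_lit 430) (nat_lit 334) (nat_lit 5453) (nat_lit 462) (nat_lit 5485))) (.f (nat_lit 525) (nat_lit 430) (nat_lit 6541) (.f (nat_lit 556) (nat_lit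 524) (nat_lit 5548) (.f (nat_lit 557) (nat_lit 588) (nat_lit 5580) (.d (nat_lit 558) (nat_lit 526) (nat_lit 4525) (nat_lit 590) (nat_lit 4557)))))))))
noncomputable def s131568 : Cert := .r (nat_lit 878694100829171777138089473786448856888981225379353540441236662336115035134677439368310430323530568230734538717713617017582770541884586161063178095697504239616) (.p (nat_lit 397) (.a (.f (nat_lit 492) (nat_lit 524) (nat_lit 5516) (.f (nat_lit 460) (nat_lit 365) (nat_lit 5484) (.f (nat_lit 463) (nat_lit 462) (nat_lit 460) (.f (nat_lit 396) (nat_lit 364) (nat_lit 7532) (.f (nat_lit 428) (nat_lit 525) (nat_lit 4492) (.f (nat_lit 398) (nat_lit 366) (nat_lit 6509) (.d (nat_lit 399) (nat_lit 427) (nat_lit 1419) (nat_lit 431) (nat_lit 4495)))))))) (.a (.f (nat_lit 492) (nat_lit 524) (nat_lit 5516) (.f (nat_lit 365) (nat_lit 460) (nat_lit 5484) (.d (nat_lit 366) (nat_lit 334) (nat_lit 6477) (nat_lit 398) (nat_lit 6509)))) (.a (.f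 (nat_lit 396) (nat_lit 364) (nat_lit 7532) (.f (nat_lit 428) (nat_lit 525) (nat_lit 7564) (.f (nat_lit 398) (nat_lit 366) (nat_lit 6509) (.d (nat_lit 427) (nat_lit 399) (nat_lit 1419) (nat_lit 426) (nat_lit 2442))))) (.f (nat_lit 396) (nat_lit 364) (nat_lit 7532) (.f (nat_lit 525) (nat_lit 428) (nat_lit 7564) (.f (nat_lit 556) (nat_lit 524) (nat_lit 5548) (.f (nat_lit 557) (nat_lit 588) (nat_lit 5580) (.d (nat_lit 558) (nat_lit 526) (nat_lit 4525) (nat_lit 590) (nat_lit 4557))))))))))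
noncomputable def s131573 : Cert := .r (nat_lit 878694100829171777138089473786448856888981225379353540441236662336115035134677439368310430323530568230734538717713617017582770541884586161063178095697504239616) (.p (nat_lit 398) (.a (.f (nat_lit 525) (nat_lit 430) (nat_lit 6541) (.f (nat_lit 397) (nat_lit 366) (nat_lit 6509) (.d (nat_lit 524) (nat_lit 492) (nat_lit 5516) (nat_lit 556) (nat_lit 5548)))) (.a (.f (nat_lit 397) (nat_lit 366) (nat_lit 6509) (.f (nat_lit 364) (nat_lit 396) (nat_lit 7532) (.f (nat_lit 365) (nat_lit 332) (nat_lit 7500) (.d (nat_lit 492) (nat_lit 460) (nat_lit 5484) (nat_lit 524) (nat_lit 5516))))) (.a (.f (nat_lit 525) (nat_lit 430) (nat_lit 6541) (.f (nat_lit 428) (nat_lit 396) (nat_lit 7564) (.f (nat_lit 557) (nat_lit 460) (nat_lit 7596) (.d (nat_lit 556) (nat_lit 524) (nat_lit 5548) (nat_lit 588) (nat_lit 5580))))) (.f (nat_lit 525) (nat_lit 430) (nat_lit 6541) (.f (nat_lit 397) (nat_lit 366)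 (nat_lit 6509) (.d (nat_lit 396) (nat_lit 364) (nat_lit 7532) (nat_lit 428) (nat_lit 7564))))))))
noncomputable def s131585 : Cert := .r (nat_lit 878694100829171777138089473786448856888981225379353540441236662336115035134677439368310430323530568230734538717713617017582770541884586161063178095697504239616) (.p (nat_lit 397) (.a (.f (nat_lit 396) (nat_lit 364) (nat_lit 7532) (.f (nat_lit 525) (nat_lit 428) (nat_lit 7564) (.f (nat_lit 556) (nat_lit 524) (nat_lit 5548) (.f (nat_lit 557) (nat_lit 588) (nat_lit 5580) (.d (nat_lit 558) (nat_lit 526) (nat_lit 4525) (nat_lit 590) (nat_lit 4557)))))) (.a (.f (nat_lit 492) (nat_lit 524) (nat_lit 5516) (.f (nat_lit 365) (nat_lit 460) (nat_lit 5484) (.d (nat_lit 364) (nat_lit 332) (nat_lit 7500) (nat_lit 396) (nat_lit 7532)))) (.a (.f (nat_lit 396) (nat_lit 364) (nat_lit 7532) (.f (nat_lit 525) (nat_lit 428) (nat_lit 7564) (.f (nat_lit 558) (nat_lit 526) (nat_lit 4525) (.f (nat_lit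 557) (nat_lit 590) (nat_lit 4557) (.f (nat_lit 430) (nat_lit 462) (nat_lit 6573) (.f (nat_lit 431) (nat_lit 432) (nat_lit 3468) (.f (nat_lit 463) (nat_lit 399) (nat_lit 4495) (.d (nat_lit 560) (nat_lit 464) (nat_lit 7599) (nat_lit 592) (nat_lit 7631))))))))) (.f (nat_lit 492) (nat_lit 524) (nat_lit 5516) (.f (nat_lit 460) (nat_lit 365) (nat_lit 5484) (.f (nat_lit 463) (nat_lit 462) (nat_lit 460) (.f (nat_lit 431) (nat_lit 399) (nat_lit 4495) (.d (nat_lit 560) (nat_lit 464) (nat_lit 7599) (nat_lit 592) (nat_lit 7631))))))))))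
noncomputable def s131600 : Cert := .r (nat_lit 878694100829171777138089473786448856888981225379353540441236662336115035134677439368310430323530568230734538717713617017582770541884586161063178095697504239616) (.p (nat_lit 398) (.a (.f (nat_lit 525) (nat_lit 430) (nat_lit 6541) (.f (nat_lit 397) (nat_lit 366) (nat_lit 6509) (.d (nat_lit 524) (nat_lit 492) (nat_lit 5516) (nat_lit 556) (nat_lit 5548)))) (.a (.f (nat_lit 397) (nat_lit 366) (nat_lit 6509) (.f (nat_lit 492) (nat_lit 524) (nat_lit 5516) (.f (nat_lit 460) (nat_lit 365) (nat_lit 5484) (.f (nat_lit 463) (nat_lit 462) (nat_lit 460) (.f (nat_lit 399) (nat_lit 431) (nat_lit 4495) (.f (nat_lit 400) (nat_lit 428) (nat_lit 1420) (.f (nat_lit 432) (nat_lit 433) (nat_lit 397) (.d (nat_lit 368) (nat_lit 369) (nat_lit 2413) (nat_lit 464) (nat_lit 5487))))))))) (.a (.f (nat_lit 366) (nat_lit 397) (nat_lit 6509) (.d (nat_lit 430) (nat_lit 334) (nat_lit 5453) (nat_lit 462)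 (nat_lit 5485))) (.f (nat_lit 525) (nat_lit 430) (nat_lit 6541) (.f (nat_lit 556) (nat_lit 524) (nat_lit 5548) (.f (nat_lit 557) (nat_lit 588) (nat_lit 5580) (.d (nat_lit 558) (nat_lit 526) (nat_lit 4525) (nat_lit 590) (nat_lit 4557)))))))))
noncomputable def s131602 : Cert := .r (nat_lit 878694100829171777138089473786448856888981225379353540441236662336115035134677439368310430323530568230734538717713617017582770541884586161063178095697504239616) (.p (nat_lit 397) (.a (.f (nat_lit 492) (nat_lit 524) (nat_lit 5516) (.f (nat_lit 365) (nat_lit 460) (nat_lit 5484) (.d (nat_lit 366) (nat_lit 334) (nat_lit 6477) (nat_lit 398) (nat_lit 6509)))) (.a (.f (nat_lit 396) (nat_lit 364) (nat_lit 7532) (.f (nat_lit 525) (nat_lit 428) (nat_lit 7564) (.f (nat_lit 556) (nat_lit 524) (nat_lit 5548) (.f (nat_lit 557) (nat_lit 588) (nat_lit 5580) (.d (nat_lit 558) (nat_lit 526) (nat_lit 4525) (nat_lit 590) (nat_lit 4557)))))) (.f (nat_lit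 366) (nat_lit 398) (nat_lit 6509) (.f (nat_lit 365) (nat_lit 334) (nat_lit 6477) (.d (nat_lit 364) (nat_lit 332) (nat_lit 7500) (nat_lit 396) (nat_lit 7532)))))))
noncomputable def s131609 : Cert := .r (nat_lit 878694100829171777138089473786448856888981225379353540441236662336115035134677439368310430323530568230734538717713617017582770541884586161063178095697504239616) (.p (nat_lit 398) (.a (.f (nat_lit 525) (nat_lit 430) (nat_lit 6541) (.f (nat_lit 428) (nat_lit 396) (nat_lit 7564) (.f (nat_lit 557) (nat_lit 460) (nat_lit 7596) (.d (nat_lit 556) (nat_lit 524) (nat_lit 5548) (nat_lit 588) (nat_lit 5580))))) (.a (.f (nat_lit 397) (nat_lit 366) (nat_lit 6509) (.f (nat_lit 396) (nat_lit 364) (nat_lit 7532) (.f (nat_lit 525) (nat_lit 428) (nat_lit 7564) (.f (nat_lit 556) (nat_lit 524) (nat_lit 5548) (.f (nat_lit 557) (nat_lit 588) (nat_lit 5580) (.d (nat_lit 558) (nat_lit 526) (nat_lit 4525) (nat_lit 590) (nat_lit 4557)))))))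 (.f (nat_lit 366) (nat_lit 397) (nat_lit 6509) (.d (nat_lit 430) (nat_lit 334) (nat_lit 5453) (nat_lit 462) (nat_lit 5485))))))
noncomputable def s131610 : Cert := .r (nat_lit 878694100829171777138089473786448856888981225379353540441236662336115035134677439368310430323530568230734538717713617017582770541884586161063178095697504239616) (.p (nat_lit 398) (.a (.f (nat_lit 525) (nat_lit 430) (nat_lit 6541) (.f (nat_lit 397) (nat_lit 366) (nat_lit 6509) (.d (nat_lit 524) (nat_lit 492) (nat_lit 5516) (nat_lit 556) (nat_lit 5548)))) (.a (.f (nat_lit 397) (nat_lit 366) (nat_lit 6509) (.f (nat_lit 396) (nat_lit 364) (nat_lit 7532) (.f (nat_lit 525) (nat_lit 428) (nat_lit 7564) (.f (nat_lit 556) (nat_lit 524) (nat_lit 5548) (.f (nat_lit 557) (nat_lit 588) (nat_lit 5580) (.d (nat_lit 558) (nat_lit 526) (nat_lit 4525) (nat_lit 590) (nat_lit 4557))))))) (.a (.f (nat_lit 366) (nat_lit 397) (nat_lit 6509) (.d (nat_lit 430) (nat_lit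 334) (nat_lit 5453) (nat_lit 462) (nat_lit 5485))) (.f (nat_lit 525) (nat_lit 430) (nat_lit 6541) (.f (nat_lit 556) (nat_lit 524) (nat_lit 5548) (.f (nat_lit 557) (nat_lit 588) (nat_lit 5580) (.d (nat_lit 558) (nat_lit 526) (nat_lit 4525) (nat_lit 590) (nat_lit 4557)))))))))
noncomputable def s131671 : Cert := .r (nat_lit 878694100829171777138089473786448856888981225379353540441236662336115035134677439368310430323530568230734538717713617017582770541884586161063178095697504239616) (.p (nat_lit 397) (.a (.f (nat_lit 492) (nat_lit 524) (nat_lit 5516) (.f (nat_lit 365) (nat_lit 460) (nat_lit 5484) (.d (nat_lit 366) (nat_lit 334) (nat_lit 6477) (nat_lit 398) (nat_lit 6509)))) (.a (.f (nat_lit 396) (nat_lit 364) (nat_lit 7532) (.f (nat_lit 428) (nat_lit 525) (nat_lit 7564) (.f (nat_lit 398) (nat_lit 366) (nat_lit 6509) (.d (nat_lit 427) (nat_lit 399) (nat_lit 1419) (nat_lit 426) (nat_lit 2442))))) (.f (nat_lit 492) (nat_lit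 524) (nat_lit 5516) (.f (nat_lit 460) (nat_lit 365) (nat_lit 5484) (.f (nat_lit 396) (nat_lit 364) (nat_lit 7532) (.f (nat_lit 428) (nat_lit 525) (nat_lit 4492) (.f (nat_lit 395) (nat_lit 363) (nat_lit 7531) (.f (nat_lit 394) (nat_lit 393) (nat_lit 393) (.f (nat_lit 426) (nat_lit 425) (nat_lit 1417) (.f (nat_lit 491) (nat_lit 523) (nat_lit 5515) (.f (nat_lit 362) (nat_lit 361) (nat_lit 3433) (.d (nat_lit 459) (nat_lit 427) (nat_lit 7530) (nat_lit 458) (nat_lit 4458))))))))))))))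
noncomputable def s131689 : Cert := .r (nat_lit 878694100829171777138089473786448856888981225379353540441236662336115035134677439368310430323530568230734538717713617017582770541884586161063178095697504239616) (.p (nat_lit 398) (.a (.f (nat_lit 525) (nat_lit 430) (nat_lit 6541) (.f (nat_lit 397) (nat_lit 366) (nat_lit 6509) (.d (nat_lit 524) (nat_lit 492) (nat_lit 5516) (nat_lit 556) (nat_lit 5548)))) (.a (.f (nat_lit 397) (nat_lit 366) (nat_lit 6509) (.f (nat_lit 524) (nat_lit 492) (nat_lit 5516) (.f (nat_lit 525) (nat_lit 556) (nat_lit 5548) (.f (nat_lit 428) (nat_lit 396) (nat_lit 7564) (.f (nat_lit 558) (nat_lit 526) (nat_lit 4525) (.d (nat_lit 557) (nat_lit 460) (nat_lit 7596) (nat_lit 590) (nat_lit 4557))))))) (.a (.f (nat_lit 525) (nat_lit 430) (nat_lit 6541) (.f (nat_lit 428) (nat_lit 396) (nat_lit 7564) (.f (nat_lit 557) (nat_lit 460) (nat_lit 7596) (.d (nat_lit 556) (nat_lit 524) (nat_lit 5548) (nat_lit 588)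 (nat_lit 5580))))) (.f (nat_lit 366) (nat_lit 397) (nat_lit 6509) (.d (nat_lit 430) (nat_lit 334) (nat_lit 5453) (nat_lit 462) (nat_lit 5485)))))))
noncomputable def s131747 : Cert := .r (nat_lit 878694100829171777138089473786448856888981225379353540441236662336115035134677439368310430323530568230734538717713617017582770541884586161063178095697504239616) (.p (nat_lit 398) (.a (.f (nat_lit 525) (nat_lit 430) (nat_lit 6541) (.f (nat_lit 397) (nat_lit 366) (nat_lit 6509) (.d (nat_lit 524) (nat_lit 492) (nat_lit 5516) (nat_lit 556) (nat_lit 5548)))) (.a (.f (nat_lit 397) (nat_lit 366) (nat_lit 6509) (.f (nat_lit 492) (nat_lit 524) (nat_lit 5516) (.f (nat_lit 460) (nat_lit 365) (nat_lit 5484) (.f (nat_lit 463) (nat_lit 462) (nat_lit 460) (.f (nat_lit 560) (nat_lit 592) (nat_lit 7631) (.d (nat_lit 431) (nat_lit 399) (nat_lit 4495) (nat_lit 464) (nat_lit 7599))))))) (.a (.f (nat_lit 366) (nat_lit 397) (nat_lit 6509) (.d (nat_lit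 430) (nat_lit 334) (nat_lit 5453) (nat_lit 462) (nat_lit 5485))) (.f (nat_lit 525) (nat_lit 430) (nat_lit 6541) (.f (nat_lit 556) (nat_lit 524) (nat_lit 5548) (.f (nat_lit 557) (nat_lit 588) (nat_lit 5580) (.d (nat_lit 558) (nat_lit 526) (nat_lit 4525) (nat_lit 590) (nat_lit 4557)))))))))
noncomputable def s131768 : Cert := .r (nat_lit 878694100829171777138089473786448856888981225379353540441236662336115035134677439368310430323530568230734538717713617017582770541884586161063178095697504239616) (.p (nat_lit 397) (.a (.f (nat_lit 492) (nat_lit 524) (nat_lit 5516) (.f (nat_lit 365) (nat_lit 460) (nat_lit 5484) (.d (nat_lit 366) (nat_lit 334) (nat_lit 6477) (nat_lit 398) (nat_lit 6509)))) (.a (.f (nat_lit 398) (nat_lit 366) (nat_lit 6509) (.f (nat_lit 525) (nat_lit 430) (nat_lit 6541) (.f (nat_lit 558) (nat_lit 526) (nat_lit 4525) (.f (nat_lit 557) (nat_lit 590) (nat_lit 4557) (.d (nat_lit 556) (nat_lit 524) (nat_lit 5548)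 (nat_lit 588) (nat_lit 5580)))))) (.a (.f (nat_lit 492) (nat_lit 524) (nat_lit 5516) (.f (nat_lit 365) (nat_lit 460) (nat_lit 5484) (.f (nat_lit 334) (nat_lit 366) (nat_lit 6477) (.f (nat_lit 333) (nat_lit 302) (nat_lit 6445) (.d (nat_lit 332) (nat_lit 300) (nat_lit 7468) (nat_lit 364) (nat_lit 7500)))))) (.a (.f (nat_lit 398) (nat_lit 366) (nat_lit 6509) (.f (nat_lit 525) (nat_lit 430) (nat_lit 6541) (.f (nat_lit 558) (nat_lit 526) (nat_lit 4525) (.f (nat_lit 557) (nat_lit 590) (nat_lit 4557) (.f (nat_lit 588) (nat_lit 556) (nat_lit 5580) (.f (nat_lit 589) (nat_lit 620) (nat_lit 5612) (.d (nat_lit 460) (nat_lit 428) (nat_lit 7596) (nat_lit 492) (nat_lit 7628)))))))) (.f (nat_lit 492) (nat_lit 524) (nat_lit 5516) (.f (nat_lit 365) (nat_lit 460) (nat_lit 5484) (.f (nat_lit 332) (nat_lit 364) (nat_lit 7500) (.f (nat_lit 333) (nat_lit 300) (nat_lit 7468) (.f (nat_lit 302) (nat_lit 334) (nat_lit 6445) (.f (nat_lit 301)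 (nat_lit 270) (nat_lit 6413) (.d (nat_lit 430) (nat_lit 398) (nat_lit 4397) (nat_lit 462) (nat_lit 4429)))))))))))))
noncomputable def s131789 : Cert := .r (nat_lit 878694100829171777138089473786448856888981225379353540441236662336115035134677439368310430323530568230734538717713617017582770541884586161063178095697504239616) (.p (nat_lit 398) (.a (.f (nat_lit 525) (nat_lit 430) (nat_lit 6541) (.f (nat_lit 397) (nat_lit 366) (nat_lit 6509) (.d (nat_lit 524) (nat_lit 492) (nat_lit 5516) (nat_lit 556) (nat_lit 5548)))) (.a (.f (nat_lit 397) (nat_lit 366) (nat_lit 6509) (.f (nat_lit 524) (nat_lit 492) (nat_lit 5516) (.f (nat_lit 525) (nat_lit 556) (nat_lit 5548) (.f (nat_lit 558) (nat_lit 526) (nat_lit 4525) (.f (nat_lit 557) (nat_lit 590) (nat_lit 4557) (.f (nat_lit 560) (nat_lit 559) (nat_lit 3596) (.f (nat_lit 592) (nat_lit 463) (nat_lit 7631) (.f (nat_lit 625) (nat_lit 593) (nat_lit 4592) (.f (nat_lit 624) (nat_lit 657)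 (nat_lit 4624) (.d (nat_lit 623) (nat_lit 591) (nat_lit 5615) (nat_lit 655) (nat_lit 5647))))))))))) (.a (.f (nat_lit 525) (nat_lit 430) (nat_lit 6541) (.f (nat_lit 556) (nat_lit 524) (nat_lit 5548) (.f (nat_lit 557) (nat_lit 588) (nat_lit 5580) (.d (nat_lit 558) (nat_lit 526) (nat_lit 4525) (nat_lit 590) (nat_lit 4557))))) (.a (.f (nat_lit 397) (nat_lit 366) (nat_lit 6509) (.f (nat_lit 492) (nat_lit 524) (nat_lit 5516) (.f (nat_lit 365) (nat_lit 460) (nat_lit 5484) (.f (nat_lit 364) (nat_lit 332) (nat_lit 7500) (.f (nat_lit 399) (nat_lit 400) (nat_lit 3436) (.f (nat_lit 431) (nat_lit 463) (nat_lit 4495) (.f (nat_lit 432) (nat_lit 464) (nat_lit 7567) (.d (nat_lit 433) (nat_lit 430) (nat_lit 3469) (nat_lit 434) (nat_lit 3470))))))))) (.f (nat_lit 430) (nat_lit 525) (nat_lit 6541) (.d (nat_lit 366) (nat_lit 334) (nat_lit 5453) (nat_lit 397) (nat_lit 6509))))))))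
noncomputable def s131808 : Cert := .r (nat_lit 878694100829171777138089473786448856888981225379353540441236662336115035134677439368310430323530568230734538717713617017582770541884586161063178095697504239616) (.p (nat_lit 398) (.a (.f (nat_lit 525) (nat_lit 430) (nat_lit 6541) (.f (nat_lit 397) (nat_lit 366) (nat_lit 6509) (.d (nat_lit 524) (nat_lit 492) (nat_lit 5516) (nat_lit 556) (nat_lit 5548)))) (.a (.f (nat_lit 397) (nat_lit 366) (nat_lit 6509) (.f (nat_lit 524) (nat_lit 492) (nat_lit 5516) (.f (nat_lit 525) (nat_lit 556) (nat_lit 5548) (.f (nat_lit 558) (nat_lit 526) (nat_lit 4525) (.f (nat_lit 557) (nat_lit 590) (nat_lit 4557) (.f (nat_lit 560) (nat_lit 559) (nat_lit 3596) (.f (nat_lit 592) (nat_lit 463) (nat_lit 7631) (.f (nat_lit 625) (nat_lit 593) (nat_lit 4592) (.f (nat_lit 624) (nat_lit 657) (nat_lit 4624) (.d (nat_lit 623) (nat_lit 591) (nat_lit 5615) (nat_lit 655) (nat_lit 5647))))))))))) (.a (.f (nat_lit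 366) (nat_lit 397) (nat_lit 6509) (.d (nat_lit 430) (nat_lit 334) (nat_lit 5453) (nat_lit 462) (nat_lit 5485))) (.f (nat_lit 525) (nat_lit 430) (nat_lit 6541) (.f (nat_lit 556) (nat_lit 524) (nat_lit 5548) (.f (nat_lit 557) (nat_lit 588) (nat_lit 5580) (.d (nat_lit 558) (nat_lit 526) (nat_lit 4525) (nat_lit 590) (nat_lit 4557)))))))))
noncomputable def s131810 : Cert := .r (nat_lit 878694100829171777138089473786448856888981225379353540441236662336115035134677439368310430323530568230734538717713617017582770541884586161063178095697504239616) (.p (nat_lit 397) (.a (.f (nat_lit 492) (nat_lit 524) (nat_lit 5516) (.f (nat_lit 365) (nat_lit 460) (nat_lit 5484) (.d (nat_lit 366) (nat_lit 334) (nat_lit 6477) (nat_lit 398) (nat_lit 6509)))) (.a (.f (nat_lit 366) (nat_lit 398) (nat_lit 6509) (.f (nat_lit 365) (nat_lit 334) (nat_lit 6477) (.d (nat_lit 364) (nat_lit 332) (nat_lit 7500) (nat_lit 396) (nat_lit 7532)))) (.a (.f (nat_lit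 492) (nat_lit 524) (nat_lit 5516) (.f (nat_lit 365) (nat_lit 460) (nat_lit 5484) (.d (nat_lit 364) (nat_lit 332) (nat_lit 7500) (nat_lit 396) (nat_lit 7532)))) (.f (nat_lit 524) (nat_lit 492) (nat_lit 5516) (.f (nat_lit 525) (nat_lit 556) (nat_lit 5548) (.f (nat_lit 558) (nat_lit 526) (nat_lit 4525) (.f (nat_lit 557) (nat_lit 590) (nat_lit 4557) (.f (nat_lit 560) (nat_lit 559) (nat_lit 3596) (.f (nat_lit 592) (nat_lit 463) (nat_lit 7631) (.f (nat_lit 625) (nat_lit 593) (nat_lit 4592) (.f (nat_lit 624) (nat_lit 657) (nat_lit 4624) (.d (nat_lit 623) (nat_lit 591) (nat_lit 5615) (nat_lit 655) (nat_lit 5647))))))))))))))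
noncomputable def s131814 : Cert := .r (nat_lit 878694100829171777138089473786448856888981225379353540441236662336115035134677439368310430323530568230734538717713617017582770541884586161063178095697504239616) (.p (nat_lit 430) (.a (.f (nat_lit 525) (nat_lit 398) (nat_lit 6541) (.f (nat_lit 557) (nat_lit 462) (nat_lit 6573) (.d (nat_lit 558) (nat_lit 526) (nat_lit 4525) (nat_lit 590) (nat_lit 4557)))) (.a (.p (nat_lit 431) (.a (.f (nat_lit 432) (nat_lit 460) (nat_lit 1452) (.d (nat_lit 399) (nat_lit 463) (nat_lit 4495) (nat_lit 464) (nat_lit 7567))) (.a (.f (nat_lit 432) (nat_lit 460) (nat_lit 1452) (.d (nat_lit 464) (nat_lit 399) (nat_lit 7567) (nat_lit 465) (nat_lit 429))) (.a (.f (nat_lit 432) (nat_lit 460) (nat_lit 1452) (.f (nat_lit 397) (nat_lit 396) (nat_lit 3468) (.d (nat_lit 398) (nat_lit 366) (nat_lit 6509) (nat_lit 433) (nat_lit 3469)))) (.f (nat_lit 463) (nat_lit 399) (nat_lit 4495) (.d (nat_lit 560) (nat_lit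 464) (nat_lit 7599) (nat_lit 592) (nat_lit 7631))))))) (.p (nat_lit 431) (.a (.f (nat_lit 432) (nat_lit 460) (nat_lit 1452) (.d (nat_lit 399) (nat_lit 463) (nat_lit 4495) (nat_lit 464) (nat_lit 7567))) (.a (.f (nat_lit 432) (nat_lit 460) (nat_lit 1452) (.d (nat_lit 464) (nat_lit 399) (nat_lit 7567) (nat_lit 465) (nat_lit 429))) (.a (.f (nat_lit 432) (nat_lit 460) (nat_lit 1452) (.f (nat_lit 433) (nat_lit 462) (nat_lit 1453) (.d (nat_lit 401) (nat_lit 400) (nat_lit 2445) (nat_lit 402) (nat_lit 2446)))) (.f (nat_lit 463) (nat_lit 399) (nat_lit 4495) (.d (nat_lit 560) (nat_lit 464) (nat_lit 7599) (nat_lit 592) (nat_lit 7631))))))))))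
noncomputable def s131823 : Cert := .r (nat_lit 878694100829171777138089473786448856888981225379353540441236662336115035134677439368310430323530568230734538717713617017582770541884586161063178095697504239616) (.p (nat_lit 397) (.a (.f (nat_lit 492) (nat_lit 524) (nat_lit 5516) (.f (nat_lit 365) (nat_lit 460) (nat_lit 5484) (.d (nat_lit 364) (nat_lit 332) (nat_lit 7500) (nat_lit 396) (nat_lit 7532)))) (.a (.f (nat_lit 364) (nat_lit 396) (nat_lit 7532) (.f (nat_lit 365) (nat_lit 332) (nat_lit 7500) (.f (nat_lit 334) (nat_lit 366) (nat_lit 6477) (.f (nat_lit 333) (nat_lit 302) (nat_lit 6445) (.f (nat_lit 462) (nat_lit 430) (nat_lit 4429) (.f (nat_lit 463) (nat_lit 460) (nat_lit 460) (.f (nat_lit 560) (nat_lit 592) (nat_lit 7631) (.d (nat_lit 431) (nat_lit 399) (nat_lit 4495) (nat_lit 464) (nat_lit 7599))))))))) (.f (nat_lit 524) (nat_lit 492) (nat_lit 5516) (.f (nat_lit 525) (nat_lit 556) (nat_lit 5548) (.f (nat_lit 558)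 (nat_lit 526) (nat_lit 4525) (.f (nat_lit 557) (nat_lit 590) (nat_lit 4557) (.f (nat_lit 560) (nat_lit 559) (nat_lit 3596) (.f (nat_lit 592) (nat_lit 463) (nat_lit 7631) (.f (nat_lit 625) (nat_lit 593) (nat_lit 4592) (.f (nat_lit 624) (nat_lit 657) (nat_lit 4624) (.d (nat_lit 623) (nat_lit 591) (nat_lit 5615) (nat_lit 655) (nat_lit 5647)))))))))))))
noncomputable def s131845 : Cert := .r (nat_lit 878694100829171777138089473789221526583102040238931954625379746039551472210053255943480909904145189538540164340753591423686910119981977372024581667526478397440) (.p (nat_lit 397) (.a (.f (nat_lit 398) (nat_lit 366) (nat_lit 6509) (.f (nat_lit 492) (nat_lit 524) (nat_lit 5516) (.f (nat_lit 365) (nat_lit 460) (nat_lit 5484) (.d (nat_lit 333) (nat_lit 301) (nat_lit 4397) (nat_lit 462) (nat_lit 4429))))) (.a (.f (nat_lit 492) (nat_lit 524) (nat_lit 5516) (.f (nat_lit 365) (nat_lit 460) (nat_lit 5484) (.d (nat_lit 364) (nat_lit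 332) (nat_lit 7500) (nat_lit 396) (nat_lit 7532)))) (.a (.f (nat_lit 366) (nat_lit 398) (nat_lit 6509) (.f (nat_lit 365) (nat_lit 334) (nat_lit 6477) (.f (nat_lit 333) (nat_lit 462) (nat_lit 4429) (.d (nat_lit 332) (nat_lit 300) (nat_lit 7468) (nat_lit 364) (nat_lit 7500))))) (.f (nat_lit 398) (nat_lit 366) (nat_lit 6509) (.f (nat_lit 396) (nat_lit 364) (nat_lit 7532) (.f (nat_lit 395) (nat_lit 394) (nat_lit 394) (.f (nat_lit 492) (nat_lit 524) (nat_lit 5516) (.f (nat_lit 363) (nat_lit 362) (nat_lit 3434) (.f (nat_lit 427) (nat_lit 426) (nat_lit 1418) (.f (nat_lit 459) (nat_lit 460) (nat_lit 4459) (.f (nat_lit 490) (nat_lit 458) (nat_lit 5482) (.d (nat_lit 491) (nat_lit 462) (nat_lit 2506) (nat_lit 522) (nat_lit 5514))))))))))))))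
noncomputable def s131858 : Cert := .r (nat_lit 878694100829171777138089473786448856888981225379353540441236662336115035134677439368310430323530568230734538717713617017582770541884586161063178095697504239616) (.p (nat_lit 430) (.a (.p (nat_lit 431) (.a (.f (nat_lit 432) (nat_lit 460) (nat_lit 1452) (.d (nat_lit 399) (nat_lit 463) (nat_lit 4495) (nat_lit 464) (nat_lit 7567))) (.a (.f (nat_lit 432) (nat_lit 460) (nat_lit 1452) (.d (nat_lit 464) (nat_lit 399) (nat_lit 7567) (nat_lit 465) (nat_lit 429))) (.a (.f (nat_lit 432) (nat_lit 460) (nat_lit 1452) (.f (nat_lit 397) (nat_lit 396) (nat_lit 3468) (.d (nat_lit 398) (nat_lit 366) (nat_lit 6509) (nat_lit 433) (nat_lit 3469)))) (.f (nat_lit 463) (nat_lit 399) (nat_lit 4495) (.d (nat_lit 560) (nat_lit 464) (nat_lit 7599) (nat_lit 592) (nat_lit 7631))))))) (.a (.p (nat_lit 397) (.a (.f (nat_lit 398) (nat_lit 366) (nat_lit 6509) (.f (nat_lit 396) (nat_lit 364) (nat_lit 7532)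 (.d (nat_lit 395) (nat_lit 394) (nat_lit 394) (nat_lit 431) (nat_lit 395)))) (.a (.f (nat_lit 398) (nat_lit 366) (nat_lit 6509) (.f (nat_lit 492) (nat_lit 524) (nat_lit 5516) (.f (nat_lit 365) (nat_lit 460) (nat_lit 5484) (.d (nat_lit 333) (nat_lit 301) (nat_lit 4397) (nat_lit 462) (nat_lit 4429))))) (.f (nat_lit 492) (nat_lit 524) (nat_lit 5516) (.f (nat_lit 365) (nat_lit 460) (nat_lit 5484) (.d (nat_lit 364) (nat_lit 332) (nat_lit 7500) (nat_lit 396) (nat_lit 7532))))))) (.a s131845 (.a (.p (nat_lit 431) (.a (.f (nat_lit 432) (nat_lit 460) (nat_lit 1452) (.d (nat_lit 399) (nat_lit 463) (nat_lit 4495) (nat_lit 464) (nat_lit 7567))) (.a (.f (nat_lit 432) (nat_lit 460) (nat_lit 1452) (.d (nat_lit 464) (nat_lit 399) (nat_lit 7567) (nat_lit 465) (nat_lit 429))) (.a (.f (nat_lit 432) (nat_lit 460) (nat_lit 1452) (.f (nat_lit 433) (nat_lit 462) (nat_lit 1453) (.d (nat_lit 401) (nat_lit 400) (nat_lit 2445) (nat_lit 402) (nat_lit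 2446)))) (.f (nat_lit 463) (nat_lit 399) (nat_lit 4495) (.d (nat_lit 560) (nat_lit 464) (nat_lit 7599) (nat_lit 592) (nat_lit 7631))))))) (.p (nat_lit 397) (.a (.f (nat_lit 398) (nat_lit 366) (nat_lit 6509) (.f (nat_lit 396) (nat_lit 364) (nat_lit 7532) (.d (nat_lit 395) (nat_lit 394) (nat_lit 394) (nat_lit 431) (nat_lit 395)))) (.a (.f (nat_lit 366) (nat_lit 398) (nat_lit 6509) (.f (nat_lit 365) (nat_lit 334) (nat_lit 6477) (.f (nat_lit 333) (nat_lit 462) (nat_lit 4429) (.d (nat_lit 332) (nat_lit 300) (nat_lit 7468) (nat_lit 364) (nat_lit 7500))))) (.a (.f (nat_lit 396) (nat_lit 364) (nat_lit 7532) (.f (nat_lit 431) (nat_lit 432) (nat_lit 3468) (.f (nat_lit 463) (nat_lit 399) (nat_lit 4495) (.d (nat_lit 560) (nat_lit 464) (nat_lit 7599) (nat_lit 592) (nat_lit 7631))))) (.f (nat_lit 366) (nat_lit 398) (nat_lit 6509) (.f (nat_lit 365) (nat_lit 334) (nat_lit 6477) (.f (nat_lit 462) (nat_lit 333) (nat_lit 4429) (.f (nat_lit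 492) (nat_lit 524) (nat_lit 5516) (.f (nat_lit 463) (nat_lit 464) (nat_lit 1484) (.f (nat_lit 431) (nat_lit 399) (nat_lit 4495) (.d (nat_lit 432) (nat_lit 396) (nat_lit 3468) (nat_lit 433) (nat_lit 1453)))))))))))))))))
noncomputable def s131875 : Cert := .r (nat_lit 878694100829171777138089473786448856888981225379353540441236662336115035134677439368310430323530568230734538717713617017582770541884586161063178095697504239616) (.p (nat_lit 397) (.a (.f (nat_lit 396) (nat_lit 364) (nat_lit 7532) (.f (nat_lit 428) (nat_lit 525) (nat_lit 7564) (.f (nat_lit 398) (nat_lit 366) (nat_lit 6509) (.d (nat_lit 427) (nat_lit 399) (nat_lit 1419) (nat_lit 426) (nat_lit 2442))))) (.a (.f (nat_lit 396) (nat_lit 364) (nat_lit 7532) (.f (nat_lit 525) (nat_lit 428) (nat_lit 7564) (.f (nat_lit 556) (nat_lit 524) (nat_lit 5548) (.f (nat_lit 557) (nat_lit 588) (nat_lit 5580) (.d (nat_lit 558) (nat_lit 526) (nat_lit 4525) (nat_lit 590) (nat_lit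 4557)))))) (.a (.f (nat_lit 366) (nat_lit 398) (nat_lit 6509) (.f (nat_lit 365) (nat_lit 334) (nat_lit 6477) (.d (nat_lit 364) (nat_lit 332) (nat_lit 7500) (nat_lit 396) (nat_lit 7532)))) (.f (nat_lit 398) (nat_lit 366) (nat_lit 6509) (.f (nat_lit 525) (nat_lit 430) (nat_lit 6541) (.f (nat_lit 558) (nat_lit 526) (nat_lit 4525) (.f (nat_lit 557) (nat_lit 590) (nat_lit 4557) (.d (nat_lit 556) (nat_lit 524) (nat_lit 5548) (nat_lit 588) (nat_lit 5580))))))))))
noncomputable def s131899 : Cert := .r (nat_lit 878694100829171777138089473786448856888981225379353540441236662336115035134677439368310430323530568230734538717713617017582770541884586161063178095697504239616) (.p (nat_lit 525) (.a (.f (nat_lit 524) (nat_lit 556) (nat_lit 5548) (.f (nat_lit 397) (nat_lit 492) (nat_lit 5516) (.d (nat_lit 396) (nat_lit 364) (nat_lit 7532) (nat_lit 428) (nat_lit 7564)))) (.a (.f (nat_lit 524) (nat_lit 556) (nat_lit 5548) (.f (nat_lit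 558) (nat_lit 526) (nat_lit 4525) (.f (nat_lit 557) (nat_lit 590) (nat_lit 4557) (.f (nat_lit 560) (nat_lit 559) (nat_lit 3596) (.f (nat_lit 463) (nat_lit 592) (nat_lit 7631) (.d (nat_lit 431) (nat_lit 399) (nat_lit 4495) (nat_lit 464) (nat_lit 7599))))))) (.a (.f (nat_lit 558) (nat_lit 526) (nat_lit 4525) (.f (nat_lit 557) (nat_lit 590) (nat_lit 4557) (.f (nat_lit 588) (nat_lit 556) (nat_lit 5580) (.f (nat_lit 589) (nat_lit 620) (nat_lit 5612) (.f (nat_lit 560) (nat_lit 559) (nat_lit 1580) (.f (nat_lit 592) (nat_lit 463) (nat_lit 7631) (.f (nat_lit 623) (nat_lit 591) (nat_lit 5615) (.f (nat_lit 624) (nat_lit 655) (nat_lit 5647) (.d (nat_lit 625) (nat_lit 593) (nat_lit 4592) (nat_lit 657) (nat_lit 4624)))))))))) (.f (nat_lit 396) (nat_lit 428) (nat_lit 7564) (.f (nat_lit 397) (nat_lit 364) (nat_lit 7532) (.f (nat_lit 558) (nat_lit 526) (nat_lit 4525) (.f (nat_lit 557) (nat_lit 590) (nat_lit 4557) (.f (nat_lit 524) (nat_lit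 492) (nat_lit 5516) (.f (nat_lit 560) (nat_lit 559) (nat_lit 3596) (.f (nat_lit 592) (nat_lit 463) (nat_lit 7631) (.f (nat_lit 625) (nat_lit 593) (nat_lit 4592) (.f (nat_lit 624) (nat_lit 657) (nat_lit 4624) (.d (nat_lit 623) (nat_lit 591) (nat_lit 5615) (nat_lit 655) (nat_lit 5647)))))))))))))))
noncomputable def s131941 : Cert := .r (nat_lit 878694100829171777138089473786448856888981225379353540441236662336115035134677439368310430323530568230734538717713617017582770541884586161063178095697504239616) (.p (nat_lit 397) (.a (.f (nat_lit 366) (nat_lit 398) (nat_lit 6509) (.f (nat_lit 365) (nat_lit 334) (nat_lit 6477) (.d (nat_lit 364) (nat_lit 332) (nat_lit 7500) (nat_lit 396) (nat_lit 7532)))) (.a (.p (nat_lit 431) (.a (.f (nat_lit 463) (nat_lit 399) (nat_lit 4495) (.d (nat_lit 560) (nat_lit 464) (nat_lit 7599) (nat_lit 592) (nat_lit 7631))) (.f (nat_lit 396) (nat_lit 364) (nat_lit 7532) (.f (nat_lit 430) (nat_lit 432)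 (nat_lit 3468) (.d (nat_lit 395) (nat_lit 394) (nat_lit 394) (nat_lit 428) (nat_lit 3467)))))) (.a (.p (nat_lit 399) (.a (.f (nat_lit 398) (nat_lit 366) (nat_lit 6509) (.f (nat_lit 400) (nat_lit 428) (nat_lit 1420) (.f (nat_lit 369) (nat_lit 368) (nat_lit 2413) (.f (nat_lit 401) (nat_lit 370) (nat_lit 2414) (.d (nat_lit 433) (nat_lit 432) (nat_lit 397) (nat_lit 434) (nat_lit 398)))))) (.a (.f (nat_lit 398) (nat_lit 366) (nat_lit 6509) (.f (nat_lit 400) (nat_lit 428) (nat_lit 1420) (.f (nat_lit 401) (nat_lit 430) (nat_lit 1421) (.d (nat_lit 369) (nat_lit 368) (nat_lit 2413) (nat_lit 370) (nat_lit 2414))))) (.a (.f (nat_lit 463) (nat_lit 431) (nat_lit 4495) (.f (nat_lit 492) (nat_lit 524) (nat_lit 5516) (.f (nat_lit 464) (nat_lit 462) (nat_lit 1484) (.f (nat_lit 560) (nat_lit 592) (nat_lit 7631) (.f (nat_lit 433) (nat_lit 465) (nat_lit 6576) (.f (nat_lit 432) (nat_lit 401) (nat_lit 6544) (.d (nat_lit 400) (nat_lit 367)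 (nat_lit 7535) (nat_lit 368) (nat_lit 5487)))))))) (.f (nat_lit 463) (nat_lit 431) (nat_lit 4495) (.f (nat_lit 366) (nat_lit 398) (nat_lit 6509) (.f (nat_lit 365) (nat_lit 334) (nat_lit 6477) (.f (nat_lit 332) (nat_lit 364) (nat_lit 7500) (.f (nat_lit 333) (nat_lit 300) (nat_lit 7468) (.f (nat_lit 462) (nat_lit 430) (nat_lit 4429) (.d (nat_lit 492) (nat_lit 464) (nat_lit 1484) (nat_lit 524) (nat_lit 5516)))))))))))) (.p (nat_lit 399) (.a (.f (nat_lit 398) (nat_lit 366) (nat_lit 6509) (.f (nat_lit 428) (nat_lit 400) (nat_lit 1420) (.d (nat_lit 427) (nat_lit 396) (nat_lit 1419) (nat_lit 426) (nat_lit 2442)))) (.a (.f (nat_lit 463) (nat_lit 431) (nat_lit 4495) (.f (nat_lit 492) (nat_lit 524) (nat_lit 5516) (.f (nat_lit 464) (nat_lit 462) (nat_lit 1484) (.f (nat_lit 560) (nat_lit 592) (nat_lit 7631) (.f (nat_lit 433) (nat_lit 465) (nat_lit 6576) (.f (nat_lit 432) (nat_lit 401) (nat_lit 6544) (.d (nat_lit 400) (nat_lit 367)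 (nat_lit 7535) (nat_lit 368) (nat_lit 5487)))))))) (.f (nat_lit 398) (nat_lit 366) (nat_lit 6509) (.f (nat_lit 431) (nat_lit 463) (nat_lit 4495) (.d (nat_lit 432) (nat_lit 396) (nat_lit 396) (nat_lit 464) (nat_lit 7567)))))))))))
noncomputable def s131989 : Cert := .r (nat_lit 878694100829171777138089473786448856888981225379353540441236662336115035134677439368310430323530568230734538717713617017582770541884586161063178095697504239616) (.p (nat_lit 398) (.a (.f (nat_lit 397) (nat_lit 366) (nat_lit 6509) (.f (nat_lit 396) (nat_lit 364) (nat_lit 7532) (.f (nat_lit 428) (nat_lit 525) (nat_lit 7564) (.d (nat_lit 427) (nat_lit 399) (nat_lit 1419) (nat_lit 426) (nat_lit 2442))))) (.a (.f (nat_lit 366) (nat_lit 397) (nat_lit 6509) (.d (nat_lit 430) (nat_lit 334) (nat_lit 5453) (nat_lit 462) (nat_lit 5485))) (.a (.f (nat_lit 430) (nat_lit 525) (nat_lit 6541) (.d (nat_lit 366) (nat_lit 334) (nat_lit 5453) (nat_lit 462) (nat_lit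 5485))) (.f (nat_lit 525) (nat_lit 430) (nat_lit 6541) (.f (nat_lit 558) (nat_lit 526) (nat_lit 4525) (.f (nat_lit 557) (nat_lit 590) (nat_lit 4557) (.f (nat_lit 588) (nat_lit 556) (nat_lit 5580) (.f (nat_lit 589) (nat_lit 620) (nat_lit 5612) (.f (nat_lit 560) (nat_lit 559) (nat_lit 1580) (.f (nat_lit 463) (nat_lit 592) (nat_lit 7631) (.d (nat_lit 431) (nat_lit 399) (nat_lit 4495) (nat_lit 464) (nat_lit 7599)))))))))))))
noncomputable def s132000 : Cert := .r (nat_lit 878694100829171777138089473786448856888981225379353540441236662336115035134677439368310430323530568230734538717713617017582770541884586161063178095697504239616) (.p (nat_lit 397) (.a (.f (nat_lit 396) (nat_lit 364) (nat_lit 7532) (.f (nat_lit 428) (nat_lit 525) (nat_lit 7564) (.f (nat_lit 398) (nat_lit 366) (nat_lit 6509) (.d (nat_lit 427) (nat_lit 399) (nat_lit 1419) (nat_lit 426) (nat_lit 2442))))) (.a (.f (nat_lit 396) (nat_lit 364) (nat_lit 7532) (.f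 (nat_lit 525) (nat_lit 428) (nat_lit 7564) (.f (nat_lit 556) (nat_lit 524) (nat_lit 5548) (.f (nat_lit 557) (nat_lit 588) (nat_lit 5580) (.d (nat_lit 558) (nat_lit 526) (nat_lit 4525) (nat_lit 590) (nat_lit 4557)))))) (.a (.f (nat_lit 366) (nat_lit 398) (nat_lit 6509) (.f (nat_lit 365) (nat_lit 334) (nat_lit 6477) (.d (nat_lit 364) (nat_lit 332) (nat_lit 7500) (nat_lit 396) (nat_lit 7532)))) (.a (.f (nat_lit 366) (nat_lit 398) (nat_lit 6509) (.f (nat_lit 365) (nat_lit 334) (nat_lit 6477) (.f (nat_lit 332) (nat_lit 364) (nat_lit 7500) (.f (nat_lit 333) (nat_lit 300) (nat_lit 7468) (.f (nat_lit 460) (nat_lit 428) (nat_lit 5452) (.f (nat_lit 463) (nat_lit 462) (nat_lit 460) (.f (nat_lit 560) (nat_lit 592) (nat_lit 7631) (.d (nat_lit 431) (nat_lit 399) (nat_lit 4495) (nat_lit 464) (nat_lit 7599))))))))) (.p (nat_lit 399) (.a (.f (nat_lit 398) (nat_lit 366) (nat_lit 6509) (.f (nat_lit 428) (nat_lit 400) (nat_lit 1420) (.d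 (nat_lit 396) (nat_lit 427) (nat_lit 1419) (nat_lit 525) (nat_lit 7564)))) (.a (.f (nat_lit 463) (nat_lit 431) (nat_lit 4495) (.f (nat_lit 462) (nat_lit 460) (nat_lit 460) (.f (nat_lit 464) (nat_lit 428) (nat_lit 3500) (.f (nat_lit 432) (nat_lit 433) (nat_lit 2477) (.d (nat_lit 400) (nat_lit 367) (nat_lit 7535) (nat_lit 368) (nat_lit 5487)))))) (.f (nat_lit 398) (nat_lit 366) (nat_lit 6509) (.f (nat_lit 431) (nat_lit 463) (nat_lit 4495) (.d (nat_lit 432) (nat_lit 396) (nat_lit 396) (nat_lit 464) (nat_lit 7567))))))))))))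
noncomputable def s132017 : Cert := .r (nat_lit 878694100829171777138089473786448856888981225379353540441236662336115035134677439368310430323530568230734538717713617017582770541884586161063178095697504239616) (.p (nat_lit 398) (.a (.f (nat_lit 397) (nat_lit 366) (nat_lit 6509) (.f (nat_lit 396) (nat_lit 364) (nat_lit 7532) (.f (nat_lit 428) (nat_lit 525) (nat_lit 7564) (.d (nat_lit 427) (nat_lit 399) (nat_lit 1419) (nat_lit 426) (nat_lit 2442))))) (.a (.f (nat_lit 525) (nat_lit 430) (nat_lit 6541) (.f (nat_lit 397) (nat_lit 366) (nat_lit 6509) (.d (nat_lit 396) (nat_lit 364) (nat_lit 7532) (nat_lit 428) (nat_lit 7564)))) (.a (.f (nat_lit 397) (nat_lit 366) (nat_lit 6509) (.f (nat_lit 364) (nat_lit 396) (nat_lit 7532) (.f (nat_lit 365) (nat_lit 332) (nat_lit 7500) (.f (nat_lit 399) (nat_lit 400) (nat_lit 3436) (.f (nat_lit 431) (nat_lit 463) (nat_lit 4495) (.f (nat_lit 432) (nat_lit 464) (nat_lit 7567) (.d (nat_lit 433)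 (nat_lit 430) (nat_lit 3469) (nat_lit 434) (nat_lit 3470)))))))) (.f (nat_lit 525) (nat_lit 430) (nat_lit 6541) (.f (nat_lit 558) (nat_lit 526) (nat_lit 4525) (.f (nat_lit 557) (nat_lit 590) (nat_lit 4557) (.f (nat_lit 588) (nat_lit 556) (nat_lit 5580) (.f (nat_lit 589) (nat_lit 620) (nat_lit 5612) (.f (nat_lit 560) (nat_lit 559) (nat_lit 1580) (.f (nat_lit 463) (nat_lit 592) (nat_lit 7631) (.d (nat_lit 431) (nat_lit 399) (nat_lit 4495) (nat_lit 464) (nat_lit 7599)))))))))))))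
noncomputable def s132032 : Cert := .r (nat_lit 878694100829171777138089473786448856888981225379353540441236662336115035134677439368310430323530568230734538717713617017582770541884586161063178095697504239616) (.p (nat_lit 397) (.a (.f (nat_lit 396) (nat_lit 364) (nat_lit 7532) (.f (nat_lit 428) (nat_lit 525) (nat_lit 7564) (.f (nat_lit 398) (nat_lit 366) (nat_lit 6509) (.d (nat_lit 427) (nat_lit 399) (nat_lit 1419) (nat_lit 426) (nat_lit 2442))))) (.a (.f (nat_lit 366) (nat_lit 398) (nat_lit 6509) (.f (nat_lit 365) (nat_lit 334) (nat_lit 6477) (.d (nat_lit 364) (nat_lit 332) (nat_lit 7500) (nat_lit 396) (nat_lit 7532)))) (.a (.f (nat_lit 396) (nat_lit 364) (nat_lit 7532) (.f (nat_lit 525) (nat_lit 428) (nat_lit 7564) (.f (nat_lit 558) (nat_lit 526) (nat_lit 4525) (.f (nat_lit 557) (nat_lit 590) (nat_lit 4557) (.f (nat_lit 588) (nat_lit 556) (nat_lit 5580) (.f (nat_lit 589) (nat_lit 620) (nat_lit 5612) (.f (nat_lit 560)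 (nat_lit 559) (nat_lit 1580) (.f (nat_lit 463) (nat_lit 592) (nat_lit 7631) (.d (nat_lit 431) (nat_lit 399) (nat_lit 4495) (nat_lit 464) (nat_lit 7599)))))))))) (.a (.f (nat_lit 366) (nat_lit 398) (nat_lit 6509) (.f (nat_lit 365) (nat_lit 334) (nat_lit 6477) (.f (nat_lit 332) (nat_lit 364) (nat_lit 7500) (.f (nat_lit 333) (nat_lit 300) (nat_lit 7468) (.f (nat_lit 460) (nat_lit 428) (nat_lit 5452) (.f (nat_lit 463) (nat_lit 462) (nat_lit 460) (.f (nat_lit 560) (nat_lit 592) (nat_lit 7631) (.d (nat_lit 431) (nat_lit 399) (nat_lit 4495) (nat_lit 464) (nat_lit 7599))))))))) (.f (nat_lit 366) (nat_lit 398) (nat_lit 6509) (.f (nat_lit 365) (nat_lit 334) (nat_lit 6477) (.f (nat_lit 460) (nat_lit 492) (nat_lit 5484) (.f (nat_lit 428) (nat_lit 333) (nat_lit 5452) (.d (nat_lit 525) (nat_lit 396) (nat_lit 7564) (nat_lit 557) (nat_lit 7596)))))))))))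
noncomputable def s132097 : Cert := .r (nat_lit 878694100829171777138089473789221526583102040238931954625379746039551472210053255943480909904145189538540164340753591423686910119981977372024581667526478397440) (.p (nat_lit 431) (.a (.f (nat_lit 432) (nat_lit 460) (nat_lit 1452) (.d (nat_lit 464) (nat_lit 399) (nat_lit 7567) (nat_lit 465) (nat_lit 429))) (.a (.f (nat_lit 432) (nat_lit 460) (nat_lit 1452) (.f (nat_lit 433) (nat_lit 462) (nat_lit 1453) (.d (nat_lit 401) (nat_lit 400) (nat_lit 2445) (nat_lit 402) (nat_lit 2446)))) (.a (.p (nat_lit 428) (.a (.d (nat_lit 396) (nat_lit 395) (nat_lit 3467) (nat_lit 525) (nat_lit 7564)) (.a (.f (nat_lit 460) (nat_lit 459) (nat_lit 1451) (.d (nat_lit 396) (nat_lit 364) (nat_lit 4460) (nat_lit 395) (nat_lit 3467))) (.a (.f (nat_lit 459) (nat_lit 460) (nat_lit 1451) (.f (nat_lit 427) (nat_lit 458) (nat_lit 1450) (.f (nat_lit 426) (nat_lit 462) (nat_lit 426) (.d (nat_lit 394) (nat_lit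 393) (nat_lit 3465) (nat_lit 395) (nat_lit 3466))))) (.f (nat_lit 460) (nat_lit 459) (nat_lit 1451) (.d (nat_lit 525) (nat_lit 396) (nat_lit 7564) (nat_lit 557) (nat_lit 7596))))))) (.p (nat_lit 432) (.a (.d (nat_lit 464) (nat_lit 399) (nat_lit 7567) (nat_lit 465) (nat_lit 429)) (.f (nat_lit 433) (nat_lit 462) (nat_lit 1453) (.d (nat_lit 401) (nat_lit 400) (nat_lit 2445) (nat_lit 402) (nat_lit 2446)))))))))
noncomputable def s132103 : Cert := .r (nat_lit 878694100829171777138089473794766865971343669958088782993665913446424346360804889093821869065374432154151415586833540235895189276176759793947388811184426713088) (.p (nat_lit 428) (.a (.f (nat_lit 460) (nat_lit 459) (nat_lit 1451) (.d (nat_lit 396) (nat_lit 364) (nat_lit 4460) (nat_lit 395) (nat_lit 3467))) (.a (.f (nat_lit 399) (nat_lit 400) (nat_lit 2444) (.f (nat_lit 427) (nat_lit 398) (nat_lit 2443) (.d (nat_lit 395) (nat_lit 394) (nat_lit 3466) (nat_lit 396) (nat_lit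 3467)))) (.a (.f (nat_lit 459) (nat_lit 460) (nat_lit 1451) (.f (nat_lit 427) (nat_lit 458) (nat_lit 1450) (.f (nat_lit 426) (nat_lit 462) (nat_lit 426) (.d (nat_lit 394) (nat_lit 393) (nat_lit 3465) (nat_lit 395) (nat_lit 3466))))) (.f (nat_lit 460) (nat_lit 459) (nat_lit 1451) (.f (nat_lit 399) (nat_lit 400) (nat_lit 2444) (.f (nat_lit 427) (nat_lit 398) (nat_lit 2443) (.d (nat_lit 426) (nat_lit 425) (nat_lit 425) (nat_lit 462) (nat_lit 426)))))))))
noncomputable def s132104 : Cert := .r (nat_lit 878694100829171777138089473789221526583102040238931954625379746039551472210053255943480909904145189538540164340753591423686910119981977372024581667526478397440) (.p (nat_lit 431) (.a (.f (nat_lit 432) (nat_lit 460) (nat_lit 1452) (.d (nat_lit 464) (nat_lit 399) (nat_lit 7567) (nat_lit 465) (nat_lit 429))) (.a (.f (nat_lit 432) (nat_lit 460) (nat_lit 1452) (.f (nat_lit 433) (nat_lit 462) (nat_lit 1453) (.d (nat_lit 401) (nat_lit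 400) (nat_lit 2445) (nat_lit 402) (nat_lit 2446)))) (.a s132103 (.p (nat_lit 432) (.a (.d (nat_lit 464) (nat_lit 399) (nat_lit 7567) (nat_lit 465) (nat_lit 429)) (.f (nat_lit 433) (nat_lit 462) (nat_lit 1453) (.d (nat_lit 401) (nat_lit 400) (nat_lit 2445) (nat_lit 402) (nat_lit 2446)))))))))
noncomputable def s132120 : Cert := .r (nat_lit 878694100829171777138089473789221526583102040238931954625379746039551472210053255943480909904145189538540164340753591423686910119981977372024581667526478397440) (.p (nat_lit 431) (.a (.f (nat_lit 432) (nat_lit 460) (nat_lit 1452) (.d (nat_lit 399) (nat_lit 463) (nat_lit 4495) (nat_lit 464) (nat_lit 7567))) (.a (.f (nat_lit 432) (nat_lit 460) (nat_lit 1452) (.d (nat_lit 464) (nat_lit 399) (nat_lit 7567) (nat_lit 465) (nat_lit 429))) (.a (.f (nat_lit 399) (nat_lit 463) (nat_lit 4495) (.f (nat_lit 428) (nat_lit 400) (nat_lit 2444) (.f (nat_lit 427) (nat_lit 398) (nat_lit 2443) (.d (nat_lit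 395) (nat_lit 394) (nat_lit 3466) (nat_lit 396) (nat_lit 3467))))) (.f (nat_lit 432) (nat_lit 460) (nat_lit 1452) (.f (nat_lit 464) (nat_lit 465) (nat_lit 429) (.d (nat_lit 401) (nat_lit 400) (nat_lit 2445) (nat_lit 433) (nat_lit 6544))))))))
noncomputable def s132438 : Cert := .r (nat_lit 878694100829171777138089473791994196277222855098510368809522829742987909285429072518651389484759810846345789963793565829791049698079368582985985239355452555264) (.p (nat_lit 397) (.a (.f (nat_lit 492) (nat_lit 524) (nat_lit 5516) (.f (nat_lit 365) (nat_lit 460) (nat_lit 5484) (.d (nat_lit 366) (nat_lit 334) (nat_lit 6477) (nat_lit 398) (nat_lit 6509)))) (.a (.f (nat_lit 364) (nat_lit 396) (nat_lit 7532) (.f (nat_lit 365) (nat_lit 332) (nat_lit 7500) (.d (nat_lit 366) (nat_lit 334) (nat_lit 6477) (nat_lit 398) (nat_lit 6509)))) (.a (.f (nat_lit 492) (nat_lit 524) (nat_lit 5516) (.f (nat_lit 365) (nat_lit 460) (nat_lit 5484) (.d (nat_lit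 364) (nat_lit 332) (nat_lit 7500) (nat_lit 396) (nat_lit 7532)))) (.f (nat_lit 398) (nat_lit 366) (nat_lit 6509) (.f (nat_lit 396) (nat_lit 364) (nat_lit 7532) (.f (nat_lit 399) (nat_lit 432) (nat_lit 396) (.d (nat_lit 428) (nat_lit 400) (nat_lit 1420) (nat_lit 427) (nat_lit 1419)))))))))
noncomputable def s132446 : Cert := .r (nat_lit 878694100829171777138089473791994196277222855098510368809522829742987909285429072518651389484759810846345789963793565829791049698079368582985985239355452555264) (.p (nat_lit 397) (.a (.f (nat_lit 492) (nat_lit 524) (nat_lit 5516) (.f (nat_lit 365) (nat_lit 460) (nat_lit 5484) (.d (nat_lit 366) (nat_lit 334) (nat_lit 6477) (nat_lit 398) (nat_lit 6509)))) (.a (.f (nat_lit 364) (nat_lit 396) (nat_lit 7532) (.f (nat_lit 365) (nat_lit 332) (nat_lit 7500) (.d (nat_lit 366) (nat_lit 334) (nat_lit 6477) (nat_lit 398) (nat_lit 6509)))) (.a (.f (nat_lit 492) (nat_lit 524) (nat_lit 5516) (.f (nat_lit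 365) (nat_lit 460) (nat_lit 5484) (.d (nat_lit 364) (nat_lit 332) (nat_lit 7500) (nat_lit 396) (nat_lit 7532)))) (.f (nat_lit 396) (nat_lit 364) (nat_lit 7532) (.f (nat_lit 398) (nat_lit 366) (nat_lit 6509) (.f (nat_lit 395) (nat_lit 430) (nat_lit 395) (.f (nat_lit 427) (nat_lit 426) (nat_lit 1418) (.f (nat_lit 428) (nat_lit 399) (nat_lit 1419) (.f (nat_lit 492) (nat_lit 524) (nat_lit 5516) (.d (nat_lit 363) (nat_lit 362) (nat_lit 3434) (nat_lit 460) (nat_lit 7531))))))))))))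
noncomputable def s132484 : Cert := .r (nat_lit 878694100829171777138089473791994196277222855098510368809522829742987909285429072518651389484759810846345789963793565829791049698079368582985985239355452555264) (.p (nat_lit 397) (.a (.f (nat_lit 492) (nat_lit 524) (nat_lit 5516) (.f (nat_lit 365) (nat_lit 460) (nat_lit 5484) (.d (nat_lit 366) (nat_lit 334) (nat_lit 6477) (nat_lit 398) (nat_lit 6509)))) (.a (.f (nat_lit 364) (nat_lit 396) (nat_lit 7532) (.f (nat_lit 365) (nat_lit 332) (nat_lit 7500) (.d (nat_lit 366) (nat_lit 334) (nat_lit 6477) (nat_lit 398) (nat_lit 6509)))) (.a (.f (nat_lit 492) (nat_lit 524) (nat_lit 5516) (.f (nat_lit 365) (nat_lit 460) (nat_lit 5484) (.d (nat_lit 364) (nat_lit 332) (nat_lit 7500) (nat_lit 396) (nat_lit 7532)))) (.f (nat_lit 396) (nat_lit 364) (nat_lit 7532) (.f (nat_lit 430) (nat_lit 432) (nat_lit 3468) (.d (nat_lit 398) (nat_lit 366) (nat_lit 6509) (nat_lit 395) (nat_lit 395))))))))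
noncomputable def s132518 : Cert := .r (nat_lit 878694100829171777138089473791994196277545636333271232383229819639488285769720285742755042423863643265913370916545670979119755367239385811915473135852045991936) (.p (nat_lit 432) (.a (.f (nat_lit 464) (nat_lit 399) (nat_lit 7567) (.f (nat_lit 433) (nat_lit 401) (nat_lit 6544) (.d (nat_lit 465) (nat_lit 430) (nat_lit 429) (nat_lit 560) (nat_lit 6576)))) (.a (.f (nat_lit 398) (nat_lit 366) (nat_lit 6509) (.f (nat_lit 433) (nat_lit 430) (nat_lit 3469) (.d (nat_lit 399) (nat_lit 400) (nat_lit 397) (nat_lit 434) (nat_lit 3470)))) (.a (.f (nat_lit 398) (nat_lit 366) (nat_lit 6509) (.f (nat_lit 399) (nat_lit 464) (nat_lit 7567) (.d (nat_lit 400) (nat_lit 428) (nat_lit 1420) (nat_lit 433) (nat_lit 397)))) (.a (.f (nat_lit 430) (nat_lit 460) (nat_lit 1452) (.d (nat_lit 433) (nat_lit 398) (nat_lit 3469) (nat_lit 462) (nat_lit 1453))) (.f (nat_lit 430) (nat_lit 460) (nat_lit 1452)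 (.d (nat_lit 464) (nat_lit 399) (nat_lit 7567) (nat_lit 465) (nat_lit 429))))))))
noncomputable def s132524 : Cert := .r (nat_lit 878694100829171777138089473786448856888981225379353540441236662336115035134677439368310430323530568230734538717713617017582770541884586161063178095697504239616) (.p (nat_lit 431) (.a (.p (nat_lit 397) (.a (.f (nat_lit 396) (nat_lit 364) (nat_lit 7532) (.f (nat_lit 430) (nat_lit 432) (nat_lit 3468) (.d (nat_lit 395) (nat_lit 394) (nat_lit 394) (nat_lit 428) (nat_lit 3467)))) (.f (nat_lit 492) (nat_lit 524) (nat_lit 5516) (.f (nat_lit 365) (nat_lit 460) (nat_lit 5484) (.d (nat_lit 366) (nat_lit 334) (nat_lit 6477) (nat_lit 398) (nat_lit 6509)))))) (.a s132438 (.a s132446 (.a (.p (nat_lit 430) (.a (.f (nat_lit 432) (nat_lit 460) (nat_lit 1452) (.d (nat_lit 464) (nat_lit 399) (nat_lit 7567) (nat_lit 465) (nat_lit 429))) (.a (.f (nat_lit 432) (nat_lit 460) (nat_lit 1452) (.f (nat_lit 397) (nat_lit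 396) (nat_lit 3468) (.d (nat_lit 398) (nat_lit 366) (nat_lit 6509) (nat_lit 433) (nat_lit 3469)))) (.a s132103 (.p (nat_lit 432) (.a (.d (nat_lit 464) (nat_lit 399) (nat_lit 7567) (nat_lit 465) (nat_lit 429)) (.f (nat_lit 433) (nat_lit 462) (nat_lit 1453) (.d (nat_lit 401) (nat_lit 400) (nat_lit 2445) (nat_lit 402) (nat_lit 2446))))))))) (.a (.p (nat_lit 397) (.a (.f (nat_lit 396) (nat_lit 364) (nat_lit 7532) (.f (nat_lit 430) (nat_lit 432) (nat_lit 3468) (.d (nat_lit 395) (nat_lit 394) (nat_lit 394) (nat_lit 428) (nat_lit 3467)))) (.a (.f (nat_lit 492) (nat_lit 524) (nat_lit 5516) (.f (nat_lit 365) (nat_lit 460) (nat_lit 5484) (.d (nat_lit 364) (nat_lit 332) (nat_lit 7500) (nat_lit 396) (nat_lit 7532)))) (.a (.f (nat_lit 492) (nat_lit 524) (nat_lit 5516) (.f (nat_lit 365) (nat_lit 460) (nat_lit 5484) (.f (nat_lit 334) (nat_lit 366) (nat_lit 6477) (.f (nat_lit 333) (nat_lit 302) (nat_lit 6445) (.d (nat_lit 332) (nat_lit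 300) (nat_lit 7468) (nat_lit 364) (nat_lit 7500)))))) (.f (nat_lit 492) (nat_lit 524) (nat_lit 5516) (.f (nat_lit 460) (nat_lit 365) (nat_lit 5484) (.f (nat_lit 430) (nat_lit 432) (nat_lit 1452) (.d (nat_lit 459) (nat_lit 428) (nat_lit 1451) (nat_lit 458) (nat_lit 2474))))))))) (.a (.p (nat_lit 430) (.a (.p (nat_lit 432) (.a (.d (nat_lit 464) (nat_lit 399) (nat_lit 7567) (nat_lit 465) (nat_lit 429)) (.f (nat_lit 433) (nat_lit 462) (nat_lit 1453) (.d (nat_lit 401) (nat_lit 400) (nat_lit 2445) (nat_lit 402) (nat_lit 2446))))) (.a (.p (nat_lit 432) (.a (.f (nat_lit 433) (nat_lit 462) (nat_lit 1453) (.d (nat_lit 401) (nat_lit 400) (nat_lit 2445) (nat_lit 402) (nat_lit 2446))) (.a (.f (nat_lit 397) (nat_lit 396) (nat_lit 3468) (.d (nat_lit 398) (nat_lit 366) (nat_lit 6509) (nat_lit 433) (nat_lit 3469))) (.f (nat_lit 397) (nat_lit 396) (nat_lit 3468) (.f (nat_lit 398) (nat_lit 366) (nat_lit 6509) (.f (nat_lit 400) (nat_lit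 401) (nat_lit 2445) (.f (nat_lit 399) (nat_lit 428) (nat_lit 2444) (.f (nat_lit 365) (nat_lit 364) (nat_lit 3436) (.d (nat_lit 333) (nat_lit 301) (nat_lit 4397) (nat_lit 462) (nat_lit 4429)))))))))) (.a (.p (nat_lit 432) (.a (.d (nat_lit 464) (nat_lit 399) (nat_lit 7567) (nat_lit 465) (nat_lit 429)) (.f (nat_lit 397) (nat_lit 396) (nat_lit 3468) (.d (nat_lit 398) (nat_lit 366) (nat_lit 6509) (nat_lit 433) (nat_lit 3469))))) (.a (.p (nat_lit 428) (.a (.f (nat_lit 399) (nat_lit 400) (nat_lit 2444) (.f (nat_lit 427) (nat_lit 398) (nat_lit 2443) (.d (nat_lit 395) (nat_lit 394) (nat_lit 3466) (nat_lit 396) (nat_lit 3467)))) (.a (.f (nat_lit 396) (nat_lit 395) (nat_lit 3467) (.d (nat_lit 364) (nat_lit 332) (nat_lit 4428) (nat_lit 397) (nat_lit 7532))) (.f (nat_lit 399) (nat_lit 400) (nat_lit 2444) (.f (nat_lit 427) (nat_lit 398) (nat_lit 2443) (.f (nat_lit 426) (nat_lit 462) (nat_lit 426) (.d (nat_lit 458) (nat_lit 457) (nat_lit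 1449) (nat_lit 459) (nat_lit 1450)))))))) (.p (nat_lit 432) (.a (.f (nat_lit 433) (nat_lit 462) (nat_lit 1453) (.d (nat_lit 401) (nat_lit 400) (nat_lit 2445) (nat_lit 402) (nat_lit 2446))) (.a (.f (nat_lit 397) (nat_lit 396) (nat_lit 3468) (.d (nat_lit 398) (nat_lit 366) (nat_lit 6509) (nat_lit 433) (nat_lit 3469))) (.f (nat_lit 397) (nat_lit 396) (nat_lit 3468) (.f (nat_lit 366) (nat_lit 398) (nat_lit 6509) (.f (nat_lit 365) (nat_lit 334) (nat_lit 6477) (.f (nat_lit 333) (nat_lit 462) (nat_lit 4429) (.d (nat_lit 332) (nat_lit 300) (nat_lit 7468) (nat_lit 364) (nat_lit 7500)))))))))))))) (.a (.p (nat_lit 430) (.a (.f (nat_lit 432) (nat_lit 460) (nat_lit 1452) (.d (nat_lit 464) (nat_lit 399) (nat_lit 7567) (nat_lit 465) (nat_lit 429))) (.a (.f (nat_lit 432) (nat_lit 460) (nat_lit 1452) (.f (nat_lit 433) (nat_lit 462) (nat_lit 1453) (.d (nat_lit 401) (nat_lit 400) (nat_lit 2445) (nat_lit 402) (nat_lit 2446)))) (.a s132103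 (.p (nat_lit 432) (.a (.d (nat_lit 464) (nat_lit 399) (nat_lit 7567) (nat_lit 465) (nat_lit 429)) (.f (nat_lit 433) (nat_lit 462) (nat_lit 1453) (.d (nat_lit 401) (nat_lit 400) (nat_lit 2445) (nat_lit 402) (nat_lit 2446))))))))) (.a s132484 (.a (.p (nat_lit 397) (.a (.f (nat_lit 492) (nat_lit 524) (nat_lit 5516) (.f (nat_lit 365) (nat_lit 460) (nat_lit 5484) (.d (nat_lit 366) (nat_lit 334) (nat_lit 6477) (nat_lit 398) (nat_lit 6509)))) (.a (.f (nat_lit 366) (nat_lit 398) (nat_lit 6509) (.f (nat_lit 365) (nat_lit 334) (nat_lit 6477) (.f (nat_lit 332) (nat_lit 364) (nat_lit 7500) (.f (nat_lit 333) (nat_lit 300) (nat_lit 7468) (.f (nat_lit 430) (nat_lit 462) (nat_lit 4429) (.d (nat_lit 460) (nat_lit 428) (nat_lit 5452) (nat_lit 432) (nat_lit 1452))))))) (.a (.f (nat_lit 492) (nat_lit 524) (nat_lit 5516) (.f (nat_lit 365) (nat_lit 460) (nat_lit 5484) (.f (nat_lit 334) (nat_lit 366) (nat_lit 6477) (.f (nat_lit 333) (nat_lit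 302) (nat_lit 6445) (.d (nat_lit 332) (nat_lit 300) (nat_lit 7468) (nat_lit 364) (nat_lit 7500)))))) (.a (.p (nat_lit 432) (.a (.f (nat_lit 464) (nat_lit 399) (nat_lit 7567) (.f (nat_lit 433) (nat_lit 401) (nat_lit 6544) (.d (nat_lit 465) (nat_lit 430) (nat_lit 429) (nat_lit 560) (nat_lit 6576)))) (.a (.f (nat_lit 398) (nat_lit 366) (nat_lit 6509) (.f (nat_lit 433) (nat_lit 430) (nat_lit 3469) (.d (nat_lit 399) (nat_lit 400) (nat_lit 397) (nat_lit 434) (nat_lit 3470)))) (.a (.f (nat_lit 398) (nat_lit 366) (nat_lit 6509) (.f (nat_lit 399) (nat_lit 464) (nat_lit 7567) (.d (nat_lit 400) (nat_lit 428) (nat_lit 1420) (nat_lit 433) (nat_lit 397)))) (.a (.f (nat_lit 366) (nat_lit 398) (nat_lit 6509) (.f (nat_lit 365) (nat_lit 334) (nat_lit 6477) (.f (nat_lit 332) (nat_lit 364) (nat_lit 7500) (.f (nat_lit 333) (nat_lit 300) (nat_lit 7468) (.f (nat_lit 430) (nat_lit 462) (nat_lit 4429) (.f (nat_lit 401) (nat_lit 400) (nat_lit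 2445) (.d (nat_lit 464) (nat_lit 433) (nat_lit 6544) (nat_lit 465) (nat_lit 429)))))))) (.f (nat_lit 464) (nat_lit 399) (nat_lit 7567) (.f (nat_lit 366) (nat_lit 398) (nat_lit 6509) (.f (nat_lit 365) (nat_lit 334) (nat_lit 6477) (.f (nat_lit 332) (nat_lit 364) (nat_lit 7500) (.f (nat_lit 333) (nat_lit 300) (nat_lit 7468) (.d (nat_lit 430) (nat_lit 462) (nat_lit 4429) (nat_lit 465) (nat_lit 429)))))))))))) (.a (.f (nat_lit 492) (nat_lit 524) (nat_lit 5516) (.f (nat_lit 460) (nat_lit 365) (nat_lit 5484) (.f (nat_lit 430) (nat_lit 432) (nat_lit 1452) (.d (nat_lit 459) (nat_lit 428) (nat_lit 1451) (nat_lit 458) (nat_lit 2474))))) s132518)))))) (.p (nat_lit 397) (.a (.f (nat_lit 492) (nat_lit 524) (nat_lit 5516) (.f (nat_lit 365) (nat_lit 460) (nat_lit 5484) (.d (nat_lit 366) (nat_lit 334) (nat_lit 6477) (nat_lit 398) (nat_lit 6509)))) (.a s132518 (.a (.f (nat_lit 492) (nat_lit 524) (nat_lit 5516) (.f (nat_lit 460) (nat_lit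 365) (nat_lit 5484) (.f (nat_lit 430) (nat_lit 432) (nat_lit 1452) (.d (nat_lit 459) (nat_lit 428) (nat_lit 1451) (nat_lit 458) (nat_lit 2474))))) (.p (nat_lit 432) (.a (.f (nat_lit 464) (nat_lit 399) (nat_lit 7567) (.f (nat_lit 433) (nat_lit 401) (nat_lit 6544) (.d (nat_lit 465) (nat_lit 430) (nat_lit 429) (nat_lit 560) (nat_lit 6576)))) (.a (.f (nat_lit 398) (nat_lit 366) (nat_lit 6509) (.f (nat_lit 433) (nat_lit 430) (nat_lit 3469) (.d (nat_lit 399) (nat_lit 400) (nat_lit 397) (nat_lit 434) (nat_lit 3470)))) (.a (.f (nat_lit 398) (nat_lit 366) (nat_lit 6509) (.f (nat_lit 399) (nat_lit 464) (nat_lit 7567) (.d (nat_lit 400) (nat_lit 428) (nat_lit 1420) (nat_lit 433) (nat_lit 397)))) (.a (.f (nat_lit 430) (nat_lit 396) (nat_lit 3468) (.d (nat_lit 433) (nat_lit 398) (nat_lit 3469) (nat_lit 462) (nat_lit 1453))) (.f (nat_lit 430) (nat_lit 396) (nat_lit 3468) (.d (nat_lit 464) (nat_lit 399) (nat_lit 7567) (nat_lit 465)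 (nat_lit 429))))))))))))))))))))))
noncomputable def s132533 : Cert := .r (nat_lit 878694100829171777138089473786448856888981225379353540441236662336115035134677439368310430323530568230734538717713617017582770541884586161063178095697504239616) (.p (nat_lit 431) (.a (.p (nat_lit 397) (.a (.f (nat_lit 396) (nat_lit 364) (nat_lit 7532) (.f (nat_lit 430) (nat_lit 432) (nat_lit 3468) (.d (nat_lit 395) (nat_lit 394) (nat_lit 394) (nat_lit 428) (nat_lit 3467)))) (.f (nat_lit 492) (nat_lit 524) (nat_lit 5516) (.f (nat_lit 365) (nat_lit 460) (nat_lit 5484) (.d (nat_lit 366) (nat_lit 334) (nat_lit 6477) (nat_lit 398) (nat_lit 6509)))))) (.a s132438 (.a s132446 (.a (.f (nat_lit 463) (nat_lit 399) (nat_lit 4495) (.f (nat_lit 460) (nat_lit 462) (nat_lit 460) (.f (nat_lit 430) (nat_lit 432) (nat_lit 1452) (.d (nat_lit 459) (nat_lit 428) (nat_lit 1451) (nat_lit 458) (nat_lit 2474))))) (.a (.p (nat_lit 397) (.a (.f (nat_lit 396) (nat_lit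 364) (nat_lit 7532) (.f (nat_lit 430) (nat_lit 432) (nat_lit 3468) (.d (nat_lit 395) (nat_lit 394) (nat_lit 394) (nat_lit 428) (nat_lit 3467)))) (.a (.f (nat_lit 364) (nat_lit 396) (nat_lit 7532) (.f (nat_lit 365) (nat_lit 332) (nat_lit 7500) (.d (nat_lit 366) (nat_lit 334) (nat_lit 6477) (nat_lit 398) (nat_lit 6509)))) (.f (nat_lit 398) (nat_lit 366) (nat_lit 6509) (.f (nat_lit 399) (nat_lit 463) (nat_lit 4495) (.f (nat_lit 400) (nat_lit 428) (nat_lit 1420) (.f (nat_lit 401) (nat_lit 430) (nat_lit 1421) (.d (nat_lit 369) (nat_lit 368) (nat_lit 2413) (nat_lit 370) (nat_lit 2414))))))))) s132484))))))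
noncomputable def s132650 : Cert := .r (nat_lit 878694100829171777138089473786448856888981225379353540441236662336115035134677439368310430323530568230734538717713617017582770541884586161063178095697504239616) (.p (nat_lit 399) (.a (.p (nat_lit 397) (.a (.f (nat_lit 398) (nat_lit 366) (nat_lit 6509) (.f (nat_lit 396) (nat_lit 364) (nat_lit 7532) (.d (nat_lit 428) (nat_lit 400) (nat_lit 1420) (nat_lit 427) (nat_lit 1419)))) (.a (.f (nat_lit 364) (nat_lit 396) (nat_lit 7532) (.f (nat_lit 365) (nat_lit 332) (nat_lit 7500) (.d (nat_lit 492) (nat_lit 460) (nat_lit 5484) (nat_lit 524) (nat_lit 5516)))) (.a (.f (nat_lit 398) (nat_lit 366) (nat_lit 6509) (.f (nat_lit 400) (nat_lit 428) (nat_lit 1420) (.f (nat_lit 365) (nat_lit 364) (nat_lit 3436) (.d (nat_lit 492) (nat_lit 460) (nat_lit 5484) (nat_lit 524) (nat_lit 5516))))) (.f (nat_lit 398) (nat_lit 366) (nat_lit 6509) (.f (nat_lit 428) (nat_lit 400) (nat_lit 1420) (.d (nat_lit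 427) (nat_lit 396) (nat_lit 1419) (nat_lit 426) (nat_lit 2442)))))))) (.a (.f (nat_lit 463) (nat_lit 431) (nat_lit 4495) (.f (nat_lit 462) (nat_lit 460) (nat_lit 460) (.f (nat_lit 464) (nat_lit 428) (nat_lit 3500) (.f (nat_lit 432) (nat_lit 433) (nat_lit 2477) (.d (nat_lit 400) (nat_lit 367) (nat_lit 7535) (nat_lit 368) (nat_lit 5487)))))) (.a (.p (nat_lit 397) (.a (.f (nat_lit 398) (nat_lit 366) (nat_lit 6509) (.f (nat_lit 396) (nat_lit 364) (nat_lit 7532) (.d (nat_lit 428) (nat_lit 400) (nat_lit 1420) (nat_lit 427) (nat_lit 1419)))) (.a (.f (nat_lit 463) (nat_lit 431) (nat_lit 4495) (.f (nat_lit 492) (nat_lit 524) (nat_lit 5516) (.f (nat_lit 464) (nat_lit 462) (nat_lit 1484) (.f (nat_lit 560) (nat_lit 592) (nat_lit 7631) (.f (nat_lit 433) (nat_lit 465) (nat_lit 6576) (.f (nat_lit 432) (nat_lit 401) (nat_lit 6544) (.d (nat_lit 400) (nat_lit 367) (nat_lit 7535) (nat_lit 368) (nat_lit 5487)))))))) (.f (nat_lit 398) (nat_lit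 366) (nat_lit 6509) (.f (nat_lit 396) (nat_lit 364) (nat_lit 7532) (.d (nat_lit 431) (nat_lit 432) (nat_lit 396) (nat_lit 463) (nat_lit 4495))))))) (.a (.f (nat_lit 463) (nat_lit 431) (nat_lit 4495) (.f (nat_lit 462) (nat_lit 460) (nat_lit 460) (.d (nat_lit 464) (nat_lit 428) (nat_lit 3500) (nat_lit 492) (nat_lit 1484)))) (.p (nat_lit 397) (.a (.f (nat_lit 364) (nat_lit 396) (nat_lit 7532) (.f (nat_lit 365) (nat_lit 332) (nat_lit 7500) (.d (nat_lit 492) (nat_lit 460) (nat_lit 5484) (nat_lit 524) (nat_lit 5516)))) (.a (.f (nat_lit 398) (nat_lit 366) (nat_lit 6509) (.f (nat_lit 364) (nat_lit 396) (nat_lit 7532) (.d (nat_lit 365) (nat_lit 332) (nat_lit 7500) (nat_lit 400) (nat_lit 3436)))) (.a (.f (nat_lit 492) (nat_lit 524) (nat_lit 5516) (.f (nat_lit 365) (nat_lit 460) (nat_lit 5484) (.f (nat_lit 334) (nat_lit 366) (nat_lit 6477) (.f (nat_lit 333) (nat_lit 302) (nat_lit 6445) (.d (nat_lit 332) (nat_lit 300) (nat_lit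 7468) (nat_lit 364) (nat_lit 7500)))))) (.a (.f (nat_lit 398) (nat_lit 366) (nat_lit 6509) (.f (nat_lit 396) (nat_lit 364) (nat_lit 7532) (.d (nat_lit 431) (nat_lit 432) (nat_lit 396) (nat_lit 463) (nat_lit 4495)))) (.f (nat_lit 463) (nat_lit 431) (nat_lit 4495) (.f (nat_lit 492) (nat_lit 524) (nat_lit 5516) (.d (nat_lit 460) (nat_lit 365) (nat_lit 5484) (nat_lit 462) (nat_lit 460))))))))))))))
noncomputable def s132771 : Cert := .r (nat_lit 988530863391261532589708412229224036812991904020294286190326595884866526631003963338061738880256442032244781063351625801272185714828421915846691675524080599040) (.p (nat_lit 429) (.a (.f (nat_lit 428) (nat_lit 396) (nat_lit 7564) (.f (nat_lit 557) (nat_lit 460) (nat_lit 7596) (.d (nat_lit 556) (nat_lit 524) (nat_lit 5548) (nat_lit 588) (nat_lit 5580)))) (.a (.f (nat_lit 524) (nat_lit 556) (nat_lit 5548) (.f (nat_lit 397) (nat_lit 492) (nat_lit 5516) (.d (nat_lit 396) (nat_lit 364)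 (nat_lit 7532) (nat_lit 428) (nat_lit 7564)))) (.a (.f (nat_lit 428) (nat_lit 396) (nat_lit 7564) (.f (nat_lit 557) (nat_lit 460) (nat_lit 7596) (.d (nat_lit 558) (nat_lit 526) (nat_lit 4525) (nat_lit 590) (nat_lit 4557)))) (.a (.f (nat_lit 524) (nat_lit 556) (nat_lit 5548) (.f (nat_lit 397) (nat_lit 492) (nat_lit 5516) (.f (nat_lit 364) (nat_lit 396) (nat_lit 7532) (.f (nat_lit 365) (nat_lit 332) (nat_lit 7500) (.d (nat_lit 366) (nat_lit 334) (nat_lit 6477) (nat_lit 398) (nat_lit 6509)))))) (.f (nat_lit 524) (nat_lit 556) (nat_lit 5548) (.f (nat_lit 492) (nat_lit 397) (nat_lit 5516) (.f (nat_lit 558) (nat_lit 526) (nat_lit 4525) (.f (nat_lit 557) (nat_lit 590) (nat_lit 4557) (.d (nat_lit 460) (nat_lit 428) (nat_lit 4524) (nat_lit 589) (nat_lit 7628)))))))))))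
noncomputable def s132833 : Cert := .r (nat_lit 878694100829171777149997999443921745336680939218001399640015180537897835696641466504100784629673169152608040081087932072678233906832955614845507222866239684608) (.p (nat_lit 525) (.a (.f (nat_lit 557) (nat_lit 430) (nat_lit 6573) (.f (nat_lit 558) (nat_lit 590) (nat_lit 4557) (.f (nat_lit 556) (nat_lit 588) (nat_lit 5580) (.d (nat_lit 429) (nat_lit 524) (nat_lit 5548) (nat_lit 526) (nat_lit 4525))))) (.a (.p (nat_lit 429) (.a (.f (nat_lit 524) (nat_lit 556) (nat_lit 5548) (.f (nat_lit 397) (nat_lit 492) (nat_lit 5516) (.d (nat_lit 396) (nat_lit 364) (nat_lit 7532) (nat_lit 428) (nat_lit 7564)))) (.a (.f (nat_lit 558) (nat_lit 526) (nat_lit 4525) (.f (nat_lit 557) (nat_lit 590) (nat_lit 4557) (.d (nat_lit 556) (nat_lit 524) (nat_lit 5548) (nat_lit 588) (nat_lit 5580)))) (.a (.f (nat_lit 428) (nat_lit 396) (nat_lit 7564) (.f (nat_lit 463) (nat_lit 464) (nat_lit 3500) (.f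 (nat_lit 558) (nat_lit 526) (nat_lit 4525) (.f (nat_lit 557) (nat_lit 590) (nat_lit 4557) (.f (nat_lit 560) (nat_lit 592) (nat_lit 7631) (.f (nat_lit 588) (nat_lit 556) (nat_lit 5580) (.d (nat_lit 559) (nat_lit 529) (nat_lit 2573) (nat_lit 589) (nat_lit 1580)))))))) (.f (nat_lit 428) (nat_lit 396) (nat_lit 7564) (.f (nat_lit 463) (nat_lit 464) (nat_lit 3500) (.f (nat_lit 558) (nat_lit 526) (nat_lit 4525) (.f (nat_lit 557) (nat_lit 590) (nat_lit 4557) (.f (nat_lit 560) (nat_lit 592) (nat_lit 7631) (.d (nat_lit 559) (nat_lit 524) (nat_lit 3596) (nat_lit 529) (nat_lit 2573))))))))))) (.a (.f (nat_lit 557) (nat_lit 430) (nat_lit 6573) (.f (nat_lit 588) (nat_lit 556) (nat_lit 5580) (.f (nat_lit 589) (nat_lit 620) (nat_lit 5612) (.d (nat_lit 590) (nat_lit 558) (nat_lit 4557) (nat_lit 622) (nat_lit 4589))))) (.a (.f (nat_lit 430) (nat_lit 557) (nat_lit 6573) (.d (nat_lit 398) (nat_lit 366) (nat_lit 5485) (nat_lit 429) (nat_lit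 6541))) (.p (nat_lit 429) (.a (.f (nat_lit 524) (nat_lit 556) (nat_lit 5548) (.f (nat_lit 397) (nat_lit 492) (nat_lit 5516) (.d (nat_lit 396) (nat_lit 364) (nat_lit 7532) (nat_lit 428) (nat_lit 7564)))) (.a (.f (nat_lit 398) (nat_lit 430) (nat_lit 6541) (.f (nat_lit 397) (nat_lit 366) (nat_lit 6509) (.d (nat_lit 396) (nat_lit 364) (nat_lit 7532) (nat_lit 428) (nat_lit 7564)))) (.a (.f (nat_lit 430) (nat_lit 398) (nat_lit 6541) (.f (nat_lit 428) (nat_lit 396) (nat_lit 7564) (.d (nat_lit 427) (nat_lit 426) (nat_lit 426) (nat_lit 463) (nat_lit 427)))) (.a (.f (nat_lit 524) (nat_lit 556) (nat_lit 5548) (.f (nat_lit 397) (nat_lit 492) (nat_lit 5516) (.f (nat_lit 364) (nat_lit 396) (nat_lit 7532) (.f (nat_lit 365) (nat_lit 332) (nat_lit 7500) (.d (nat_lit 366) (nat_lit 334) (nat_lit 6477) (nat_lit 398) (nat_lit 6509)))))) (.f (nat_lit 398) (nat_lit 430) (nat_lit 6541) (.f (nat_lit 397) (nat_lit 366) (nat_lit 6509) (.d (nat_lit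 524) (nat_lit 492) (nat_lit 5516) (nat_lit 556) (nat_lit 5548))))))))))))))
noncomputable def s132883 : Cert := .r (nat_lit 878694100829171777138089473786448856888981225379353540441236662336115035134677439368310430323530568230734538717713617017582770541884586161063178095697504239616) (.p (nat_lit 397) (.a (.f (nat_lit 492) (nat_lit 524) (nat_lit 5516) (.f (nat_lit 460) (nat_lit 365) (nat_lit 5484) (.f (nat_lit 396) (nat_lit 364) (nat_lit 7532) (.f (nat_lit 428) (nat_lit 525) (nat_lit 4492) (.f (nat_lit 395) (nat_lit 363) (nat_lit 7531) (.f (nat_lit 394) (nat_lit 393) (nat_lit 393) (.f (nat_lit 426) (nat_lit 425) (nat_lit 1417) (.f (nat_lit 491) (nat_lit 523) (nat_lit 5515) (.f (nat_lit 362) (nat_lit 361) (nat_lit 3433) (.d (nat_lit 459) (nat_lit 427) (nat_lit 7530) (nat_lit 458) (nat_lit 4458))))))))))) (.a (.f (nat_lit 396) (nat_lit 364) (nat_lit 7532) (.f (nat_lit 525) (nat_lit 428) (nat_lit 7564) (.f (nat_lit 556)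 (nat_lit 524) (nat_lit 5548) (.f (nat_lit 557) (nat_lit 588) (nat_lit 5580) (.d (nat_lit 558) (nat_lit 526) (nat_lit 4525) (nat_lit 590) (nat_lit 4557)))))) (.a (.f (nat_lit 492) (nat_lit 524) (nat_lit 5516) (.f (nat_lit 365) (nat_lit 460) (nat_lit 5484) (.d (nat_lit 364) (nat_lit 332) (nat_lit 7500) (nat_lit 396) (nat_lit 7532)))) (.a (.f (nat_lit 364) (nat_lit 396) (nat_lit 7532) (.f (nat_lit 365) (nat_lit 332) (nat_lit 7500) (.f (nat_lit 334) (nat_lit 366) (nat_lit 6477) (.f (nat_lit 333) (nat_lit 302) (nat_lit 6445) (.d (nat_lit 460) (nat_lit 428) (nat_lit 5452) (nat_lit 492) (nat_lit 5484)))))) (.a (.f (nat_lit 492) (nat_lit 524) (nat_lit 5516) (.f (nat_lit 365) (nat_lit 460) (nat_lit 5484) (.f (nat_lit 334) (nat_lit 366) (nat_lit 6477) (.f (nat_lit 333) (nat_lit 302) (nat_lit 6445) (.d (nat_lit 332) (nat_lit 300) (nat_lit 7468) (nat_lit 364) (nat_lit 7500)))))) (.f (nat_lit 524) (nat_lit 492) (nat_lit 5516) (.f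 (nat_lit 525) (nat_lit 556) (nat_lit 5548) (.f (nat_lit 558) (nat_lit 526) (nat_lit 4525) (.f (nat_lit 557) (nat_lit 590) (nat_lit 4557) (.d (nat_lit 428) (nat_lit 396) (nat_lit 7564) (nat_lit 460) (nat_lit 7596))))))))))))
noncomputable def s132926 : Cert := .r (nat_lit 878694100829171777138089473786448856888981225379353540441236662336115035134677439368310430323530568230734538717713617017582770541884586161063178095697504239616) (.p (nat_lit 430) (.a (.f (nat_lit 525) (nat_lit 398) (nat_lit 6541) (.f (nat_lit 428) (nat_lit 396) (nat_lit 7564) (.d (nat_lit 557) (nat_lit 460) (nat_lit 7596) (nat_lit 462) (nat_lit 6573)))) (.a (.f (nat_lit 525) (nat_lit 398) (nat_lit 6541) (.f (nat_lit 428) (nat_lit 396) (nat_lit 7564) (.f (nat_lit 460) (nat_lit 557) (nat_lit 7596) (.d (nat_lit 459) (nat_lit 431) (nat_lit 1451) (nat_lit 458) (nat_lit 2474))))) (.a (.p (nat_lit 431) (.a (.f (nat_lit 432) (nat_lit 460) (nat_lit 1452) (.f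 (nat_lit 433) (nat_lit 462) (nat_lit 1453) (.d (nat_lit 401) (nat_lit 400) (nat_lit 2445) (nat_lit 402) (nat_lit 2446)))) (.a (.f (nat_lit 399) (nat_lit 463) (nat_lit 4495) (.f (nat_lit 428) (nat_lit 400) (nat_lit 2444) (.d (nat_lit 396) (nat_lit 395) (nat_lit 3467) (nat_lit 525) (nat_lit 7564)))) (.f (nat_lit 460) (nat_lit 432) (nat_lit 1452) (.d (nat_lit 463) (nat_lit 399) (nat_lit 4495) (nat_lit 462) (nat_lit 460)))))) (.a (.p (nat_lit 431) (.a (.f (nat_lit 432) (nat_lit 460) (nat_lit 1452) (.f (nat_lit 433) (nat_lit 462) (nat_lit 1453) (.d (nat_lit 401) (nat_lit 400) (nat_lit 2445) (nat_lit 402) (nat_lit 2446)))) (.a (.f (nat_lit 399) (nat_lit 463) (nat_lit 4495) (.f (nat_lit 428) (nat_lit 400) (nat_lit 2444) (.f (nat_lit 427) (nat_lit 398) (nat_lit 2443) (.d (nat_lit 395) (nat_lit 394) (nat_lit 3466) (nat_lit 396) (nat_lit 3467))))) (.f (nat_lit 460) (nat_lit 432) (nat_lit 1452) (.d (nat_lit 463) (nat_lit 399)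 (nat_lit 4495) (nat_lit 462) (nat_lit 460)))))) (.a (.f (nat_lit 525) (nat_lit 398) (nat_lit 6541) (.f (nat_lit 462) (nat_lit 557) (nat_lit 6573) (.f (nat_lit 428) (nat_lit 396) (nat_lit 7564) (.d (nat_lit 427) (nat_lit 426) (nat_lit 426) (nat_lit 463) (nat_lit 427))))) (.f (nat_lit 525) (nat_lit 398) (nat_lit 6541) (.f (nat_lit 557) (nat_lit 462) (nat_lit 6573) (.d (nat_lit 558) (nat_lit 526) (nat_lit 4525) (nat_lit 590) (nat_lit 4557))))))))))
noncomputable def s132929 : Cert := .r (nat_lit 878694100829171777132135210955632910394540757315345800203740090457646307047163563369037393484998301788943568818746478685456934175837358025950960853241405898752) (.p (nat_lit 461) (.a (.p (nat_lit 429) (.a s131496 (.a s131501 (.a s131525 (.a (.p (nat_lit 398) (.a (.f (nat_lit 397) (nat_lit 366) (nat_lit 6509) (.f (nat_lit 396) (nat_lit 364) (nat_lit 7532) (.f (nat_lit 428) (nat_lit 525) (nat_lit 7564) (.d (nat_lit 427) (nat_lit 399) (nat_lit 1419) (nat_lit 426) (nat_lit 2442))))) (.a (.f (nat_lit 525) (nat_lit 430) (nat_lit 6541) (.f (nat_lit 428) (nat_lit 396) (nat_lit 7564) (.f (nat_lit 557) (nat_lit 460) (nat_lit 7596) (.d (nat_lit 556) (nat_lit 524) (nat_lit 5548) (nat_lit 588) (nat_lit 5580))))) (.f (nat_lit 366) (nat_lit 397) (nat_lit 6509) (.d (nat_lit 430) (nat_lit 334) (nat_lit 5453) (nat_lit 462) (nat_lit 5485)))))) (.a s131529 (.a (.p (nat_lit 397) (.a (.f (nat_lit 492) (nat_lit 524) (nat_lit 5516) (.f (nat_lit 460) (nat_lit 365) (nat_lit 5484) (.f (nat_lit 396) (nat_lit 364) (nat_lit 7532) (.f (nat_lit 428) (nat_lit 525) (nat_lit 4492) (.f (nat_lit 395) (nat_lit 363) (nat_lit 7531) (.f (nat_lit 394) (nat_lit 393) (nat_lit 393) (.f (nat_lit 426) (nat_lit 425) (nat_lit 1417) (.f (nat_lit 491) (nat_lit 523) (nat_lit 5515) (.f (nat_lit 362) (nat_lit 361) (nat_lit 3433) (.d (nat_lit 459) (nat_lit 427) (nat_lit 7530) (nat_lit 458) (nat_lit 4458))))))))))) (.a (.f (nat_lit 396) (nat_lit 364) (nat_lit 7532) (.f (nat_lit 525) (nat_lit 428) (nat_lit 7564) (.f (nat_lit 556) (nat_lit 524) (nat_lit 5548) (.f (nat_lit 557) (nat_lit 588) (nat_lit 5580) (.d (nat_lit 558) (nat_lit 526) (nat_lit 4525) (nat_lit 590) (nat_lit 4557)))))) (.a (.f (nat_lit 492) (nat_lit 524) (nat_lit 5516) (.f (nat_lit 365) (nat_lit 460) (nat_lit 5484) (.d (nat_lit 364) (nat_lit 332) (nat_lit 7500) (nat_lit 396) (nat_lit 7532)))) (.a (.f (nat_lit 396) (nat_lit 364) (nat_lit 7532) (.f (nat_lit 525) (nat_lit 428) (nat_lit 7564) (.f (nat_lit 558) (nat_lit 526) (nat_lit 4525) (.f (nat_lit 557) (nat_lit 590) (nat_lit 4557) (.f (nat_lit 430) (nat_lit 462) (nat_lit 6573) (.f (nat_lit 431) (nat_lit 432) (nat_lit 3468) (.f (nat_lit 463) (nat_lit 399) (nat_lit 4495) (.d (nat_lit 560) (nat_lit 464) (nat_lit 7599) (nat_lit 592) (nat_lit 7631))))))))) (.f (nat_lit 492) (nat_lit 524) (nat_lit 5516) (.f (nat_lit 460) (nat_lit 365) (nat_lit 5484) (.f (nat_lit 463) (nat_lit 462) (nat_lit 460) (.f (nat_lit 431) (nat_lit 399) (nat_lit 4495) (.d (nat_lit 560) (nat_lit 464) (nat_lit 7599) (nat_lit 592) (nat_lit 7631))))))))))) (.a (.p (nat_lit 463) (.a (.f (nat_lit 460) (nat_lit 462) (nat_lit 460) (.f (nat_lit 431) (nat_lit 399) (nat_lit 4495) (.f (nat_lit 430) (nat_lit 432) (nat_lit 1452) (.d (nat_lit 459) (nat_lit 428) (nat_lit 1451) (nat_lit 458) (nat_lit 2474))))) (.a (.f (nat_lit 431) (nat_lit 399) (nat_lit 4495) (.d (nat_lit 560) (nat_lit 464) (nat_lit 7599) (nat_lit 592) (nat_lit 7631))) (.f (nat_lit 462) (nat_lit 460) (nat_lit 460) (.d (nat_lit 464) (nat_lit 428) (nat_lit 3500) (nat_lit 492) (nat_lit 1484)))))) (.a s131565 s131566))))))))) (.a (.p (nat_lit 429) (.a s131496 (.a s131501 (.a s131568 (.a (.p (nat_lit 398) (.a (.f (nat_lit 397) (nat_lit 366) (nat_lit 6509) (.f (nat_lit 396) (nat_lit 364) (nat_lit 7532) (.f (nat_lit 428) (nat_lit 525) (nat_lit 7564) (.d (nat_lit 427) (nat_lit 399) (nat_lit 1419) (nat_lit 426) (nat_lit 2442))))) (.a (.f (nat_lit 525) (nat_lit 430) (nat_lit 6541) (.f (nat_lit 428) (nat_lit 396) (nat_lit 7564) (.f (nat_lit 557) (nat_lit 460) (nat_lit 7596) (.d (nat_lit 556) (nat_lit 524) (nat_lit 5548) (nat_lit 588) (nat_lit 5580))))) (.f (nat_lit 366) (nat_lit 397) (nat_lit 6509) (.d (nat_lit 430) (nat_lit 334) (nat_lit 5453) (nat_lit 462) (nat_lit 5485)))))) (.a s131529 (.a (.p (nat_lit 463) (.a (.f (nat_lit 460) (nat_lit 462) (nat_lit 460) (.f (nat_lit 431) (nat_lit 399) (nat_lit 4495) (.f (nat_lit 430) (nat_lit 432) (nat_lit 1452) (.d (nat_lit 459) (nat_lit 428) (nat_lit 1451) (nat_lit 458) (nat_lit 2474))))) (.a (.f (nat_lit 431) (nat_lit 399) (nat_lit 4495) (.d (nat_lit 560) (nat_lit 464) (nat_lit 7599) (nat_lit 592) (nat_lit 7631))) (.f (nat_lit 462) (nat_lit 460) (nat_lit 460) (.d (nat_lit 464) (nat_lit 428) (nat_lit 3500) (nat_lit 492) (nat_lit 1484)))))) (.a s131565 s131566)))))))) (.a (.p (nat_lit 429) (.a s131529 (.a s131573 (.a (.p (nat_lit 397) (.a (.f (nat_lit 492) (nat_lit 524) (nat_lit 5516) (.f (nat_lit 460) (nat_lit 365) (nat_lit 5484) (.f (nat_lit 463) (nat_lit 462) (nat_lit 460) (.f (nat_lit 396) (nat_lit 364) (nat_lit 7532) (.f (nat_lit 428) (nat_lit 525) (nat_lit 4492) (.f (nat_lit 398) (nat_lit 366) (nat_lit 6509) (.d (nat_lit 399) (nat_lit 427) (nat_lit 1419) (nat_lit 431) (nat_lit 4495)))))))) (.a (.f (nat_lit 492) (nat_lit 524) (nat_lit 5516) (.f (nat_lit 365) (nat_lit 460) (nat_lit 5484) (.d (nat_lit 366) (nat_lit 334) (nat_lit 6477) (nat_lit 398) (nat_lit 6509)))) (.a (.f (nat_lit 396) (nat_lit 364) (nat_lit 7532) (.f (nat_lit 525) (nat_lit 428) (nat_lit 7564) (.f (nat_lit 556) (nat_lit 524) (nat_lit 5548) (.f (nat_lit 557) (nat_lit 588) (nat_lit 5580) (.d (nat_lit 558) (nat_lit 526) (nat_lit 4525) (nat_lit 590) (nat_lit 4557)))))) (.f (nat_lit 366) (nat_lit 398) (nat_lit 6509) (.f (nat_lit 365) (nat_lit 334) (nat_lit 6477) (.d (nat_lit 364) (nat_lit 332) (nat_lit 7500) (nat_lit 396) (nat_lit 7532)))))))) (.a (.p (nat_lit 398) (.a (.f (nat_lit 525) (nat_lit 430) (nat_lit 6541) (.f (nat_lit 428) (nat_lit 396) (nat_lit 7564) (.f (nat_lit 557) (nat_lit 460) (nat_lit 7596) (.d (nat_lit 556) (nat_lit 524) (nat_lit 5548) (nat_lit 588) (nat_lit 5580))))) (.a (.f (nat_lit 397) (nat_lit 366) (nat_lit 6509) (.f (nat_lit 396) (nat_lit 364) (nat_lit 7532) (.f (nat_lit 428) (nat_lit 525) (nat_lit 7564) (.d (nat_lit 399) (nat_lit 400) (nat_lit 1420) (nat_lit 427) (nat_lit 1419))))) (.f (nat_lit 366) (nat_lit 397) (nat_lit 6509) (.d (nat_lit 430) (nat_lit 334) (nat_lit 5453) (nat_lit 462) (nat_lit 5485)))))) (.a (.p (nat_lit 463) (.a (.f (nat_lit 460) (nat_lit 462) (nat_lit 460) (.f (nat_lit 431) (nat_lit 399) (nat_lit 4495) (.f (nat_lit 430) (nat_lit 432) (nat_lit 1452) (.d (nat_lit 459) (nat_lit 428) (nat_lit 1451) (nat_lit 458) (nat_lit 2474))))) (.a (.f (nat_lit 431) (nat_lit 399) (nat_lit 4495) (.d (nat_lit 560) (nat_lit 464) (nat_lit 7599) (nat_lit 592) (nat_lit 7631))) (.f (nat_lit 462) (nat_lit 460) (nat_lit 460) (.d (nat_lit 464) (nat_lit 428) (nat_lit 3500) (nat_lit 492) (nat_lit 1484)))))) (.a (.p (nat_lit 398) (.a (.f (nat_lit 525) (nat_lit 430) (nat_lit 6541) (.f (nat_lit 397) (nat_lit 366) (nat_lit 6509) (.d (nat_lit 524) (nat_lit 492) (nat_lit 5516) (nat_lit 556) (nat_lit 5548)))) (.a (.f (nat_lit 397) (nat_lit 366) (nat_lit 6509) (.f (nat_lit 396) (nat_lit 364) (nat_lit 7532) (.f (nat_lit 428) (nat_lit 525) (nat_lit 7564) (.d (nat_lit 399) (nat_lit 400) (nat_lit 1420) (nat_lit 427) (nat_lit 1419))))) (.a (.f (nat_lit 366) (nat_lit 397) (nat_lit 6509) (.d (nat_lit 430) (nat_lit 334) (nat_lit 5453) (nat_lit 462) (nat_lit 5485))) (.f (nat_lit 525) (nat_lit 430) (nat_lit 6541) (.f (nat_lit 556) (nat_lit 524) (nat_lit 5548) (.f (nat_lit 557) (nat_lit 588) (nat_lit 5580) (.d (nat_lit 558) (nat_lit 526) (nat_lit 4525) (nat_lit 590) (nat_lit 4557))))))))) s131566))))))) (.a (.p (nat_lit 429) (.a s131496 (.a s131501 (.a s131568 (.a (.p (nat_lit 398) (.a (.f (nat_lit 397) (nat_lit 366) (nat_lit 6509) (.f (nat_lit 396) (nat_lit 364) (nat_lit 7532) (.f (nat_lit 428) (nat_lit 525) (nat_lit 7564) (.d (nat_lit 427) (nat_lit 399) (nat_lit 1419) (nat_lit 426) (nat_lit 2442))))) (.a (.f (nat_lit 525) (nat_lit 430) (nat_lit 6541) (.f (nat_lit 428) (nat_lit 396) (nat_lit 7564) (.f (nat_lit 557) (nat_lit 460) (nat_lit 7596) (.d (nat_lit 556) (nat_lit 524) (nat_lit 5548) (nat_lit 588) (nat_lit 5580))))) (.f (nat_lit 366) (nat_lit 397) (nat_lit 6509) (.d (nat_lit 430) (nat_lit 334) (nat_lit 5453) (nat_lit 462) (nat_lit 5485)))))) (.a s131529 (.a s131585 (.a (.p (nat_lit 463) (.a (.f (nat_lit 431) (nat_lit 399) (nat_lit 4495) (.d (nat_lit 560) (nat_lit 464) (nat_lit 7599) (nat_lit 592) (nat_lit 7631))) (.a (.f (nat_lit 460) (nat_lit 462) (nat_lit 460) (.f (nat_lit 431) (nat_lit 399) (nat_lit 4495) (.f (nat_lit 430) (nat_lit 432) (nat_lit 1452) (.f (nat_lit 428) (nat_lit 459) (nat_lit 1451) (.d (nat_lit 396) (nat_lit 364) (nat_lit 4460) (nat_lit 395) (nat_lit 3467)))))) (.f (nat_lit 462) (nat_lit 460) (nat_lit 460) (.d (nat_lit 464) (nat_lit 428) (nat_lit 3500) (nat_lit 492) (nat_lit 1484)))))) (.a s131565 (.a s131566 s131600)))))))))) (.a (.p (nat_lit 429) (.a s131529 (.a s131573 (.a s131602 (.a s131609 (.a (.p (nat_lit 463) (.a (.f (nat_lit 460) (nat_lit 462) (nat_lit 460) (.f (nat_lit 431) (nat_lit 399) (nat_lit 4495) (.f (nat_lit 430) (nat_lit 432) (nat_lit 1452) (.d (nat_lit 459) (nat_lit 428) (nat_lit 1451) (nat_lit 458) (nat_lit 2474))))) (.a (.f (nat_lit 431) (nat_lit 399) (nat_lit 4495) (.d (nat_lit 560) (nat_lit 464) (nat_lit 7599) (nat_lit 592) (nat_lit 7631))) (.f (nat_lit 462) (nat_lit 460) (nat_lit 460) (.d (nat_lit 464) (nat_lit 428) (nat_lit 3500) (nat_lit 492) (nat_lit 1484)))))) (.a s131610 s131566))))))) (.a (.p (nat_lit 429) (.a s131496 (.a s131501 (.a s131568 (.a (.p (nat_lit 398) (.a (.f (nat_lit 397) (nat_lit 366) (nat_lit 6509) (.f (nat_lit 396) (nat_lit 364) (nat_lit 7532) (.f (nat_lit 428) (nat_lit 525) (nat_lit 7564) (.d (nat_lit 427) (nat_lit 399) (nat_lit 1419) (nat_lit 426) (nat_lit 2442))))) (.a (.f (nat_lit 525) (nat_lit 430) (nat_lit 6541) (.f (nat_lit 428) (nat_lit 396) (nat_lit 7564) (.f (nat_lit 557) (nat_lit 460) (nat_lit 7596) (.d (nat_lit 556) (nat_lit 524) (nat_lit 5548) (nat_lit 588) (nat_lit 5580))))) (.f (nat_lit 366) (nat_lit 397) (nat_lit 6509) (.d (nat_lit 430) (nat_lit 334) (nat_lit 5453) (nat_lit 462) (nat_lit 5485)))))) (.a s131529 (.a s131585 (.a (.p (nat_lit 430) (.a (.p (nat_lit 431) (.a (.f (nat_lit 432) (nat_lit 460) (nat_lit 1452) (.d (nat_lit 399) (nat_lit 463) (nat_lit 4495) (nat_lit 464) (nat_lit 7567))) (.a (.f (nat_lit 432) (nat_lit 460) (nat_lit 1452) (.d (nat_lit 464) (nat_lit 399) (nat_lit 7567) (nat_lit 465) (nat_lit 429))) (.a (.f (nat_lit 432) (nat_lit 460) (nat_lit 1452) (.f (nat_lit 397) (nat_lit 396) (nat_lit 3468) (.d (nat_lit 398) (nat_lit 366) (nat_lit 6509) (nat_lit 433) (nat_lit 3469)))) (.f (nat_lit 463) (nat_lit 399) (nat_lit 4495) (.d (nat_lit 560) (nat_lit 464) (nat_lit 7599) (nat_lit 592) (nat_lit 7631))))))) (.a (.p (nat_lit 397) (.a (.f (nat_lit 398) (nat_lit 366) (nat_lit 6509) (.f (nat_lit 396) (nat_lit 364) (nat_lit 7532) (.d (nat_lit 395) (nat_lit 394) (nat_lit 394) (nat_lit 431) (nat_lit 395)))) (.a (.f (nat_lit 398) (nat_lit 366) (nat_lit 6509) (.f (nat_lit 396) (nat_lit 364) (nat_lit 7532) (.f (nat_lit 395) (nat_lit 394) (nat_lit 394) (.f (nat_lit 427) (nat_lit 426) (nat_lit 1418) (.f (nat_lit 399) (nat_lit 428) (nat_lit 2443) (.f (nat_lit 400) (nat_lit 401) (nat_lit 1421) (.d (nat_lit 368) (nat_lit 367) (nat_lit 2412) (nat_lit 369) (nat_lit 2413)))))))) (.a (.f (nat_lit 396) (nat_lit 364) (nat_lit 7532) (.f (nat_lit 431) (nat_lit 432) (nat_lit 3468) (.d (nat_lit 395) (nat_lit 394) (nat_lit 394) (nat_lit 428) (nat_lit 3467)))) (.f (nat_lit 398) (nat_lit 366) (nat_lit 6509) (.f (nat_lit 492) (nat_lit 524) (nat_lit 5516) (.f (nat_lit 365) (nat_lit 460) (nat_lit 5484) (.d (nat_lit 333) (nat_lit 301) (nat_lit 4397) (nat_lit 462) (nat_lit 4429))))))))) (.a (.p (nat_lit 397) (.a (.f (nat_lit 398) (nat_lit 366) (nat_lit 6509) (.f (nat_lit 396) (nat_lit 364) (nat_lit 7532) (.f (nat_lit 395) (nat_lit 394) (nat_lit 394) (.f (nat_lit 427) (nat_lit 426) (nat_lit 1418) (.f (nat_lit 399) (nat_lit 428) (nat_lit 2443) (.f (nat_lit 400) (nat_lit 401) (nat_lit 1421) (.d (nat_lit 368) (nat_lit 367) (nat_lit 2412) (nat_lit 369) (nat_lit 2413)))))))) (.a (.f (nat_lit 398) (nat_lit 366) (nat_lit 6509) (.f (nat_lit 492) (nat_lit 524) (nat_lit 5516) (.f (nat_lit 365) (nat_lit 460) (nat_lit 5484) (.d (nat_lit 333) (nat_lit 301) (nat_lit 4397) (nat_lit 462) (nat_lit 4429))))) (.f (nat_lit 492) (nat_lit 524) (nat_lit 5516) (.f (nat_lit 365) (nat_lit 460) (nat_lit 5484) (.d (nat_lit 364) (nat_lit 332) (nat_lit 7500) (nat_lit 396) (nat_lit 7532))))))) (.a (.p (nat_lit 397) (.a (.f (nat_lit 398) (nat_lit 366) (nat_lit 6509) (.f (nat_lit 396) (nat_lit 364) (nat_lit 7532) (.d (nat_lit 395) (nat_lit 394) (nat_lit 394) (nat_lit 431) (nat_lit 395)))) (.a (.f (nat_lit 398) (nat_lit 366) (nat_lit 6509) (.f (nat_lit 492) (nat_lit 524) (nat_lit 5516) (.f (nat_lit 365) (nat_lit 460) (nat_lit 5484) (.d (nat_lit 333) (nat_lit 301) (nat_lit 4397) (nat_lit 462) (nat_lit 4429))))) (.f (nat_lit 396) (nat_lit 364) (nat_lit 7532) (.f (nat_lit 431) (nat_lit 432) (nat_lit 3468) (.d (nat_lit 395) (nat_lit 394) (nat_lit 394) (nat_lit 428) (nat_lit 3467))))))) (.a (.p (nat_lit 431) (.a (.f (nat_lit 432) (nat_lit 460) (nat_lit 1452) (.d (nat_lit 399) (nat_lit 463) (nat_lit 4495) (nat_lit 464) (nat_lit 7567))) (.a (.f (nat_lit 432) (nat_lit 460) (nat_lit 1452) (.d (nat_lit 464) (nat_lit 399) (nat_lit 7567) (nat_lit 465) (nat_lit 429))) (.a (.f (nat_lit 432) (nat_lit 460) (nat_lit 1452) (.f (nat_lit 433) (nat_lit 462) (nat_lit 1453) (.d (nat_lit 401) (nat_lit 400) (nat_lit 2445) (nat_lit 402) (nat_lit 2446)))) (.f (nat_lit 463) (nat_lit 399) (nat_lit 4495) (.d (nat_lit 560) (nat_lit 464) (nat_lit 7599) (nat_lit 592) (nat_lit 7631))))))) (.p (nat_lit 397) (.a (.f (nat_lit 398) (nat_lit 366) (nat_lit 6509) (.f (nat_lit 396) (nat_lit 364) (nat_lit 7532) (.d (nat_lit 395) (nat_lit 394) (nat_lit 394) (nat_lit 431) (nat_lit 395)))) (.a (.f (nat_lit 398) (nat_lit 366) (nat_lit 6509) (.f (nat_lit 396) (nat_lit 364) (nat_lit 7532) (.f (nat_lit 395) (nat_lit 394) (nat_lit 394) (.f (nat_lit 427) (nat_lit 426) (nat_lit 1418) (.f (nat_lit 399) (nat_lit 428) (nat_lit 2443) (.f (nat_lit 400) (nat_lit 401) (nat_lit 1421) (.d (nat_lit 368) (nat_lit 367) (nat_lit 2412) (nat_lit 369) (nat_lit 2413)))))))) (.a (.f (nat_lit 396) (nat_lit 364) (nat_lit 7532) (.f (nat_lit 431) (nat_lit 432) (nat_lit 3468) (.d (nat_lit 395) (nat_lit 394) (nat_lit 394) (nat_lit 428) (nat_lit 3467)))) (.a (.f (nat_lit 366) (nat_lit 398) (nat_lit 6509) (.f (nat_lit 365) (nat_lit 334) (nat_lit 6477) (.f (nat_lit 333) (nat_lit 462) (nat_lit 4429) (.d (nat_lit 332) (nat_lit 300) (nat_lit 7468) (nat_lit 364) (nat_lit 7500))))) (.f (nat_lit 366) (nat_lit 398) (nat_lit 6509) (.f (nat_lit 365) (nat_lit 334) (nat_lit 6477) (.f (nat_lit 333) (nat_lit 462) (nat_lit 4429) (.f (nat_lit 300) (nat_lit 332) (nat_lit 7468) (.f (nat_lit 301) (nat_lit 268) (nat_lit 7436) (.f (nat_lit 396) (nat_lit 428) (nat_lit 5420) (.f (nat_lit 431) (nat_lit 432) (nat_lit 3468) (.f (nat_lit 463) (nat_lit 399) (nat_lit 4495) (.d (nat_lit 560) (nat_lit 464) (nat_lit 7599) (nat_lit 592) (nat_lit 7631))))))))))))))))))))) (.a s131565 (.a (.p (nat_lit 463) (.a (.f (nat_lit 431) (nat_lit 399) (nat_lit 4495) (.d (nat_lit 560) (nat_lit 464) (nat_lit 7599) (nat_lit 592) (nat_lit 7631))) (.a (.f (nat_lit 460) (nat_lit 462) (nat_lit 460) (.f (nat_lit 431) (nat_lit 399) (nat_lit 4495) (.f (nat_lit 430) (nat_lit 432) (nat_lit 1452) (.f (nat_lit 525) (nat_lit 398) (nat_lit 6541) (.d (nat_lit 428) (nat_lit 396) (nat_lit 7564) (nat_lit 557) (nat_lit 7596)))))) (.f (nat_lit 462) (nat_lit 460) (nat_lit 460) (.d (nat_lit 464) (nat_lit 428) (nat_lit 3500) (nat_lit 492) (nat_lit 1484)))))) (.a s131566 s131600))))))))))) (.a (.p (nat_lit 429) (.a s131496 (.a (.p (nat_lit 398) (.a (.f (nat_lit 397) (nat_lit 366) (nat_lit 6509) (.f (nat_lit 396) (nat_lit 364) (nat_lit 7532) (.f (nat_lit 428) (nat_lit 525) (nat_lit 7564) (.d (nat_lit 427) (nat_lit 399) (nat_lit 1419) (nat_lit 426) (nat_lit 2442))))) (.a (.f (nat_lit 525) (nat_lit 430) (nat_lit 6541) (.f (nat_lit 428) (nat_lit 396) (nat_lit 7564) (.f (nat_lit 557) (nat_lit 460) (nat_lit 7596) (.d (nat_lit 556) (nat_lit 524) (nat_lit 5548) (nat_lit 588) (nat_lit 5580))))) (.f (nat_lit 366) (nat_lit 397) (nat_lit 6509) (.d (nat_lit 430) (nat_lit 334) (nat_lit 5453) (nat_lit 462) (nat_lit 5485)))))) (.a s131671 (.a s131609 (.a (.p (nat_lit 463) (.a (.f (nat_lit 460) (nat_lit 462) (nat_lit 460) (.f (nat_lit 431) (nat_lit 399) (nat_lit 4495) (.f (nat_lit 430) (nat_lit 432) (nat_lit 1452) (.d (nat_lit 459) (nat_lit 428) (nat_lit 1451) (nat_lit 458) (nat_lit 2474))))) (.a (.f (nat_lit 431) (nat_lit 399) (nat_lit 4495) (.d (nat_lit 560) (nat_lit 464) (nat_lit 7599) (nat_lit 592) (nat_lit 7631))) (.f (nat_lit 462) (nat_lit 460) (nat_lit 460) (.d (nat_lit 464) (nat_lit 428) (nat_lit 3500) (nat_lit 492) (nat_lit 1484)))))) (.a s131565 (.p (nat_lit 398) (.a (.f (nat_lit 525) (nat_lit 430) (nat_lit 6541) (.f (nat_lit 397) (nat_lit 366) (nat_lit 6509) (.d (nat_lit 524) (nat_lit 492) (nat_lit 5516) (nat_lit 556) (nat_lit 5548)))) (.a (.f (nat_lit 397) (nat_lit 366) (nat_lit 6509) (.f (nat_lit 492) (nat_lit 524) (nat_lit 5516) (.f (nat_lit 460) (nat_lit 365) (nat_lit 5484) (.f (nat_lit 463) (nat_lit 462) (nat_lit 460) (.f (nat_lit 399) (nat_lit 431) (nat_lit 4495) (.f (nat_lit 396) (nat_lit 364) (nat_lit 7532) (.f (nat_lit 368) (nat_lit 367) (nat_lit 2412) (.f (nat_lit 400) (nat_lit 369) (nat_lit 2413) (.d (nat_lit 432) (nat_lit 433) (nat_lit 397) (nat_lit 464) (nat_lit 5487)))))))))) (.a (.f (nat_lit 366) (nat_lit 397) (nat_lit 6509) (.d (nat_lit 430) (nat_lit 334) (nat_lit 5453) (nat_lit 462) (nat_lit 5485))) (.f (nat_lit 525) (nat_lit 430) (nat_lit 6541) (.f (nat_lit 556) (nat_lit 524) (nat_lit 5548) (.f (nat_lit 557) (nat_lit 588) (nat_lit 5580) (.d (nat_lit 558) (nat_lit 526) (nat_lit 4525) (nat_lit 590) (nat_lit 4557)))))))))))))))) (.a (.p (nat_lit 429) (.a (.p (nat_lit 463) (.a (.f (nat_lit 460) (nat_lit 462) (nat_lit 460) (.f (nat_lit 431) (nat_lit 399) (nat_lit 4495) (.f (nat_lit 430) (nat_lit 432) (nat_lit 1452) (.d (nat_lit 459) (nat_lit 428) (nat_lit 1451) (nat_lit 458) (nat_lit 2474))))) (.a (.f (nat_lit 431) (nat_lit 399) (nat_lit 4495) (.d (nat_lit 560) (nat_lit 464) (nat_lit 7599) (nat_lit 592) (nat_lit 7631))) (.f (nat_lit 462) (nat_lit 460) (nat_lit 460) (.d (nat_lit 464) (nat_lit 428) (nat_lit 3500) (nat_lit 492) (nat_lit 1484)))))) (.a s131689 (.a (.p (nat_lit 397) (.a (.f (nat_lit 492) (nat_lit 524) (nat_lit 5516) (.f (nat_lit 365) (nat_lit 460) (nat_lit 5484) (.d (nat_lit 366) (nat_lit 334) (nat_lit 6477) (nat_lit 398) (nat_lit 6509)))) (.a (.f (nat_lit 398) (nat_lit 366) (nat_lit 6509) (.f (nat_lit 525) (nat_lit 430) (nat_lit 6541) (.f (nat_lit 558) (nat_lit 526) (nat_lit 4525) (.f (nat_lit 557) (nat_lit 590) (nat_lit 4557) (.d (nat_lit 556) (nat_lit 524) (nat_lit 5548) (nat_lit 588) (nat_lit 5580)))))) (.a (.f (nat_lit 524) (nat_lit 492) (nat_lit 5516) (.f (nat_lit 525) (nat_lit 556) (nat_lit 5548) (.f (nat_lit 558) (nat_lit 526) (nat_lit 4525) (.f (nat_lit 557) (nat_lit 590) (nat_lit 4557) (.d (nat_lit 428) (nat_lit 396) (nat_lit 7564) (nat_lit 460) (nat_lit 7596)))))) (.f (nat_lit 398) (nat_lit 366) (nat_lit 6509) (.f (nat_lit 525) (nat_lit 430) (nat_lit 6541) (.f (nat_lit 428) (nat_lit 396) (nat_lit 7564) (.f (nat_lit 557) (nat_lit 460) (nat_lit 7596) (.d (nat_lit 558) (nat_lit 526) (nat_lit 4525) (nat_lit 590) (nat_lit 4557)))))))))) (.a (.p (nat_lit 525) (.a (.f (nat_lit 428) (nat_lit 396) (nat_lit 7564) (.f (nat_lit 557) (nat_lit 460) (nat_lit 7596) (.d (nat_lit 556) (nat_lit 524) (nat_lit 5548) (nat_lit 588) (nat_lit 5580)))) (.a (.f (nat_lit 524) (nat_lit 556) (nat_lit 5548) (.f (nat_lit 558) (nat_lit 526) (nat_lit 4525) (.f (nat_lit 557) (nat_lit 590) (nat_lit 4557) (.f (nat_lit 560) (nat_lit 559) (nat_lit 3596) (.f (nat_lit 463) (nat_lit 592) (nat_lit 7631) (.d (nat_lit 431) (nat_lit 399) (nat_lit 4495) (nat_lit 464) (nat_lit 7599))))))) (.a (.f (nat_lit 428) (nat_lit 396) (nat_lit 7564) (.f (nat_lit 557) (nat_lit 460) (nat_lit 7596) (.d (nat_lit 558) (nat_lit 526) (nat_lit 4525) (nat_lit 590) (nat_lit 4557)))) (.f (nat_lit 524) (nat_lit 556) (nat_lit 5548) (.f (nat_lit 397) (nat_lit 492) (nat_lit 5516) (.f (nat_lit 428) (nat_lit 396) (nat_lit 7564) (.f (nat_lit 398) (nat_lit 366) (nat_lit 6509) (.f (nat_lit 399) (nat_lit 400) (nat_lit 1420) (.f (nat_lit 463) (nat_lit 431) (nat_lit 4495) (.d (nat_lit 462) (nat_lit 460) (nat_lit 460) (nat_lit 464) (nat_lit 3500)))))))))))) (.a (.p (nat_lit 463) (.a (.f (nat_lit 460) (nat_lit 462) (nat_lit 460) (.f (nat_lit 431) (nat_lit 399) (nat_lit 4495) (.f (nat_lit 430) (nat_lit 432) (nat_lit 1452) (.d (nat_lit 459) (nat_lit 428) (nat_lit 1451) (nat_lit 458) (nat_lit 2474))))) (.a (.f (nat_lit 431) (nat_lit 399) (nat_lit 4495) (.d (nat_lit 560) (nat_lit 464) (nat_lit 7599) (nat_lit 592) (nat_lit 7631))) (.f (nat_lit 462) (nat_lit 460) (nat_lit 460) (.f (nat_lit 464) (nat_lit 428) (nat_lit 3500) (.f (nat_lit 430) (nat_lit 465) (nat_lit 3501) (.d (nat_lit 398) (nat_lit 366) (nat_lit 5485) (nat_lit 525) (nat_lit 6541)))))))) (.a (.p (nat_lit 398) (.a (.f (nat_lit 525) (nat_lit 430) (nat_lit 6541) (.f (nat_lit 397) (nat_lit 366) (nat_lit 6509) (.d (nat_lit 524) (nat_lit 492) (nat_lit 5516) (nat_lit 556) (nat_lit 5548)))) (.a (.f (nat_lit 397) (nat_lit 366) (nat_lit 6509) (.f (nat_lit 524) (nat_lit 492) (nat_lit 5516) (.f (nat_lit 525) (nat_lit 556) (nat_lit 5548) (.f (nat_lit 428) (nat_lit 396) (nat_lit 7564) (.f (nat_lit 558) (nat_lit 526) (nat_lit 4525) (.f (nat_lit 557) (nat_lit 590) (nat_lit 4557) (.f (nat_lit 560) (nat_lit 559) (nat_lit 3596) (.f (nat_lit 463) (nat_lit 592) (nat_lit 7631) (.d (nat_lit 399) (nat_lit 400) (nat_lit 1420) (nat_lit 431) (nat_lit 4495)))))))))) (.a (.f (nat_lit 366) (nat_lit 397) (nat_lit 6509) (.d (nat_lit 430) (nat_lit 334) (nat_lit 5453) (nat_lit 462) (nat_lit 5485))) (.f (nat_lit 525) (nat_lit 430) (nat_lit 6541) (.f (nat_lit 556) (nat_lit 524) (nat_lit 5548) (.f (nat_lit 557) (nat_lit 588) (nat_lit 5580) (.d (nat_lit 558) (nat_lit 526) (nat_lit 4525) (nat_lit 590) (nat_lit 4557))))))))) s131747))))))) (.a (.p (nat_lit 429) (.a (.p (nat_lit 463) (.a (.f (nat_lit 460) (nat_lit 462) (nat_lit 460) (.f (nat_lit 431) (nat_lit 399) (nat_lit 4495) (.f (nat_lit 430) (nat_lit 432) (nat_lit 1452) (.d (nat_lit 459) (nat_lit 428) (nat_lit 1451) (nat_lit 458) (nat_lit 2474))))) (.a (.f (nat_lit 431) (nat_lit 399) (nat_lit 4495) (.d (nat_lit 560) (nat_lit 464) (nat_lit 7599) (nat_lit 592) (nat_lit 7631))) (.f (nat_lit 462) (nat_lit 460) (nat_lit 460) (.d (nat_lit 464) (nat_lit 428) (nat_lit 3500) (nat_lit 492) (nat_lit 1484)))))) (.a s131768 (.a s131789 (.a (.p (nat_lit 397) (.a (.f (nat_lit 492) (nat_lit 524) (nat_lit 5516) (.f (nat_lit 365) (nat_lit 460) (nat_lit 5484) (.d (nat_lit 366) (nat_lit 334) (nat_lit 6477) (nat_lit 398) (nat_lit 6509)))) (.a (.f (nat_lit 366) (nat_lit 398) (nat_lit 6509) (.f (nat_lit 365) (nat_lit 334) (nat_lit 6477) (.f (nat_lit 332) (nat_lit 364) (nat_lit 7500) (.f (nat_lit 333) (nat_lit 300) (nat_lit 7468) (.f (nat_lit 460) (nat_lit 428) (nat_lit 5452) (.f (nat_lit 463) (nat_lit 462) (nat_lit 460) (.f (nat_lit 560) (nat_lit 592) (nat_lit 7631) (.d (nat_lit 431) (nat_lit 399) (nat_lit 4495) (nat_lit 464) (nat_lit 7599))))))))) (.a (.f (nat_lit 492) (nat_lit 524) (nat_lit 5516) (.f (nat_lit 460) (nat_lit 365) (nat_lit 5484) (.f (nat_lit 463) (nat_lit 462) (nat_lit 460) (.f (nat_lit 431) (nat_lit 399) (nat_lit 4495) (.d (nat_lit 560) (nat_lit 464) (nat_lit 7599) (nat_lit 592) (nat_lit 7631)))))) (.f (nat_lit 524) (nat_lit 492) (nat_lit 5516) (.f (nat_lit 525) (nat_lit 556) (nat_lit 5548) (.f (nat_lit 558) (nat_lit 526) (nat_lit 4525) (.f (nat_lit 557) (nat_lit 590) (nat_lit 4557) (.f (nat_lit 560) (nat_lit 559) (nat_lit 3596) (.f (nat_lit 592) (nat_lit 463) (nat_lit 7631) (.f (nat_lit 625) (nat_lit 593) (nat_lit 4592) (.f (nat_lit 624) (nat_lit 657) (nat_lit 4624) (.d (nat_lit 623) (nat_lit 591) (nat_lit 5615) (nat_lit 655) (nat_lit 5647)))))))))))))) (.a (.p (nat_lit 463) (.a (.f (nat_lit 460) (nat_lit 462) (nat_lit 460) (.f (nat_lit 431) (nat_lit 399) (nat_lit 4495) (.f (nat_lit 430) (nat_lit 432) (nat_lit 1452) (.d (nat_lit 459) (nat_lit 428) (nat_lit 1451) (nat_lit 458) (nat_lit 2474))))) (.a (.f (nat_lit 431) (nat_lit 399) (nat_lit 4495) (.d (nat_lit 560) (nat_lit 464) (nat_lit 7599) (nat_lit 592) (nat_lit 7631))) (.f (nat_lit 462) (nat_lit 460) (nat_lit 460) (.f (nat_lit 464) (nat_lit 428) (nat_lit 3500) (.f (nat_lit 430) (nat_lit 465) (nat_lit 3501) (.d (nat_lit 398) (nat_lit 366) (nat_lit 5485) (nat_lit 525) (nat_lit 6541)))))))) s131808)))))) (.a (.p (nat_lit 429) (.a s131566 (.a s131789 (.a s131810 (.a s131814 (.a s131823 (.a (.p (nat_lit 398) (.a (.f (nat_lit 525) (nat_lit 430) (nat_lit 6541) (.f (nat_lit 397) (nat_lit 366) (nat_lit 6509) (.d (nat_lit 524) (nat_lit 492) (nat_lit 5516) (nat_lit 556) (nat_lit 5548)))) (.a (.f (nat_lit 397) (nat_lit 366) (nat_lit 6509) (.f (nat_lit 364) (nat_lit 396) (nat_lit 7532) (.f (nat_lit 365) (nat_lit 332) (nat_lit 7500) (.d (nat_lit 492) (nat_lit 460) (nat_lit 5484) (nat_lit 524) (nat_lit 5516))))) (.a (.f (nat_lit 366) (nat_lit 397) (nat_lit 6509) (.d (nat_lit 430) (nat_lit 334) (nat_lit 5453) (nat_lit 462) (nat_lit 5485))) (.a (.f (nat_lit 430) (nat_lit 525) (nat_lit 6541) (.d (nat_lit 366) (nat_lit 334) (nat_lit 5453) (nat_lit 462) (nat_lit 5485))) (.f (nat_lit 525) (nat_lit 430) (nat_lit 6541) (.f (nat_lit 556) (nat_lit 524) (nat_lit 5548) (.f (nat_lit 557) (nat_lit 588) (nat_lit 5580) (.f (nat_lit 590) (nat_lit 558) (nat_lit 4557) (.f (nat_lit 589) (nat_lit 622) (nat_lit 4589) (.f (nat_lit 592) (nat_lit 591) (nat_lit 3628) (.f (nat_lit 463) (nat_lit 560) (nat_lit 7631) (.d (nat_lit 460) (nat_lit 462) (nat_lit 460) (nat_lit 492) (nat_lit 7628)))))))))))))) (.a s131858 (.a s131808 (.a (.p (nat_lit 463) (.a (.f (nat_lit 431) (nat_lit 399) (nat_lit 4495) (.d (nat_lit 560) (nat_lit 464) (nat_lit 7599) (nat_lit 592) (nat_lit 7631))) (.a (.f (nat_lit 460) (nat_lit 462) (nat_lit 460) (.f (nat_lit 431) (nat_lit 399) (nat_lit 4495) (.f (nat_lit 430) (nat_lit 432) (nat_lit 1452) (.f (nat_lit 525) (nat_lit 398) (nat_lit 6541) (.f (nat_lit 556) (nat_lit 524) (nat_lit 5548) (.f (nat_lit 557) (nat_lit 588) (nat_lit 5580) (.d (nat_lit 558) (nat_lit 526) (nat_lit 4525) (nat_lit 590) (nat_lit 4557)))))))) (.f (nat_lit 462) (nat_lit 460) (nat_lit 460) (.f (nat_lit 464) (nat_lit 492) (nat_lit 1484) (.f (nat_lit 430) (nat_lit 465) (nat_lit 3501) (.d (nat_lit 398) (nat_lit 366) (nat_lit 5485) (nat_lit 525) (nat_lit 6541)))))))) (.p (nat_lit 463) (.a (.f (nat_lit 431) (nat_lit 399) (nat_lit 4495) (.d (nat_lit 560) (nat_lit 464) (nat_lit 7599) (nat_lit 592) (nat_lit 7631))) (.a (.f (nat_lit 460) (nat_lit 462) (nat_lit 460) (.f (nat_lit 431) (nat_lit 399) (nat_lit 4495) (.f (nat_lit 430) (nat_lit 432) (nat_lit 1452) (.f (nat_lit 525) (nat_lit 398) (nat_lit 6541) (.f (nat_lit 556) (nat_lit 524) (nat_lit 5548) (.f (nat_lit 557) (nat_lit 588) (nat_lit 5580) (.d (nat_lit 558) (nat_lit 526) (nat_lit 4525) (nat_lit 590) (nat_lit 4557)))))))) (.f (nat_lit 462) (nat_lit 460) (nat_lit 460) (.f (nat_lit 464) (nat_lit 492) (nat_lit 1484) (.f (nat_lit 465) (nat_lit 430) (nat_lit 3501) (.d (nat_lit 560) (nat_lit 433) (nat_lit 6576) (nat_lit 592) (nat_lit 7631)))))))))))))))))) (.a (.p (nat_lit 429) (.a s131565 (.a s131875 (.a (.p (nat_lit 397) (.a (.f (nat_lit 396) (nat_lit 364) (nat_lit 7532) (.f (nat_lit 428) (nat_lit 525) (nat_lit 7564) (.f (nat_lit 398) (nat_lit 366) (nat_lit 6509) (.d (nat_lit 427) (nat_lit 399) (nat_lit 1419) (nat_lit 426) (nat_lit 2442))))) (.a (.f (nat_lit 396) (nat_lit 364) (nat_lit 7532) (.f (nat_lit 525) (nat_lit 428) (nat_lit 7564) (.f (nat_lit 556) (nat_lit 524) (nat_lit 5548) (.f (nat_lit 557) (nat_lit 588) (nat_lit 5580) (.d (nat_lit 558) (nat_lit 526) (nat_lit 4525) (nat_lit 590) (nat_lit 4557)))))) (.a (.f (nat_lit 366) (nat_lit 398) (nat_lit 6509) (.f (nat_lit 365) (nat_lit 334) (nat_lit 6477) (.d (nat_lit 364) (nat_lit 332) (nat_lit 7500) (nat_lit 396) (nat_lit 7532)))) (.f (nat_lit 524) (nat_lit 492) (nat_lit 5516) (.f (nat_lit 525) (nat_lit 556) (nat_lit 5548) (.f (nat_lit 558) (nat_lit 526) (nat_lit 4525) (.f (nat_lit 557) (nat_lit 590) (nat_lit 4557) (.f (nat_lit 560) (nat_lit 559) (nat_lit 3596) (.f (nat_lit 592) (nat_lit 463) (nat_lit 7631) (.f (nat_lit 625) (nat_lit 593) (nat_lit 4592) (.f (nat_lit 624) (nat_lit 657) (nat_lit 4624) (.d (nat_lit 623) (nat_lit 591) (nat_lit 5615) (nat_lit 655) (nat_lit 5647)))))))))))))) (.a s131610 (.a s131899 (.a (.p (nat_lit 398) (.a (.f (nat_lit 525) (nat_lit 430) (nat_lit 6541) (.f (nat_lit 397) (nat_lit 366) (nat_lit 6509) (.d (nat_lit 524) (nat_lit 492) (nat_lit 5516) (nat_lit 556) (nat_lit 5548)))) (.a (.f (nat_lit 397) (nat_lit 366) (nat_lit 6509) (.f (nat_lit 396) (nat_lit 364) (nat_lit 7532) (.f (nat_lit 428) (nat_lit 525) (nat_lit 7564) (.d (nat_lit 427) (nat_lit 399) (nat_lit 1419) (nat_lit 426) (nat_lit 2442))))) (.a (.f (nat_lit 366) (nat_lit 397) (nat_lit 6509) (.d (nat_lit 430) (nat_lit 334) (nat_lit 5453) (nat_lit 462) (nat_lit 5485))) (.a (.f (nat_lit 430) (nat_lit 525) (nat_lit 6541) (.d (nat_lit 366) (nat_lit 334) (nat_lit 5453) (nat_lit 462) (nat_lit 5485))) (.f (nat_lit 525) (nat_lit 430) (nat_lit 6541) (.f (nat_lit 524) (nat_lit 556) (nat_lit 5548) (.f (nat_lit 397) (nat_lit 492) (nat_lit 5516) (.d (nat_lit 396) (nat_lit 364) (nat_lit 7532) (nat_lit 428) (nat_lit 7564)))))))))) (.a s131941 (.a (.p (nat_lit 431) (.a (.f (nat_lit 463) (nat_lit 399) (nat_lit 4495) (.d (nat_lit 560) (nat_lit 464) (nat_lit 7599) (nat_lit 592) (nat_lit 7631))) (.a (.p (nat_lit 525) (.a (.f (nat_lit 430) (nat_lit 398) (nat_lit 6541) (.f (nat_lit 557) (nat_lit 462) (nat_lit 6573) (.d (nat_lit 558) (nat_lit 526) (nat_lit 4525) (nat_lit 590) (nat_lit 4557)))) (.a (.f (nat_lit 556) (nat_lit 524) (nat_lit 5548) (.f (nat_lit 557) (nat_lit 588) (nat_lit 5580) (.d (nat_lit 558) (nat_lit 526) (nat_lit 4525) (nat_lit 590) (nat_lit 4557)))) (.a (.f (nat_lit 430) (nat_lit 398) (nat_lit 6541) (.f (nat_lit 557) (nat_lit 462) (nat_lit 6573) (.d (nat_lit 556) (nat_lit 524) (nat_lit 5548) (nat_lit 588) (nat_lit 5580)))) (.f (nat_lit 430) (nat_lit 398) (nat_lit 6541) (.f (nat_lit 428) (nat_lit 396) (nat_lit 7564) (.f (nat_lit 399) (nat_lit 400) (nat_lit 2444) (.f (nat_lit 432) (nat_lit 464) (nat_lit 7567) (.f (nat_lit 433) (nat_lit 462) (nat_lit 1453) (.f (nat_lit 402) (nat_lit 401) (nat_lit 2446) (.f (nat_lit 434) (nat_lit 403) (nat_lit 2447) (.d (nat_lit 466) (nat_lit 465) (nat_lit 430) (nat_lit 467) (nat_lit 431))))))))))))) (.a (.p (nat_lit 430) (.a (.f (nat_lit 525) (nat_lit 398) (nat_lit 6541) (.f (nat_lit 557) (nat_lit 462) (nat_lit 6573) (.d (nat_lit 558) (nat_lit 526) (nat_lit 4525) (nat_lit 590) (nat_lit 4557)))) (.a (.f (nat_lit 525) (nat_lit 398) (nat_lit 6541) (.f (nat_lit 556) (nat_lit 524) (nat_lit 5548) (.f (nat_lit 557) (nat_lit 588) (nat_lit 5580) (.d (nat_lit 558) (nat_lit 526) (nat_lit 4525) (nat_lit 590) (nat_lit 4557))))) (.a (.f (nat_lit 399) (nat_lit 463) (nat_lit 4495) (.f (nat_lit 428) (nat_lit 400) (nat_lit 2444) (.d (nat_lit 396) (nat_lit 395) (nat_lit 3467) (nat_lit 525) (nat_lit 7564)))) (.f (nat_lit 399) (nat_lit 463) (nat_lit 4495) (.f (nat_lit 428) (nat_lit 400) (nat_lit 2444) (.f (nat_lit 427) (nat_lit 398) (nat_lit 2443) (.d (nat_lit 395) (nat_lit 394) (nat_lit 3466) (nat_lit 396) (nat_lit 3467))))))))) (.p (nat_lit 525) (.a (.f (nat_lit 430) (nat_lit 398) (nat_lit 6541) (.f (nat_lit 557) (nat_lit 462) (nat_lit 6573) (.d (nat_lit 558) (nat_lit 526) (nat_lit 4525) (nat_lit 590) (nat_lit 4557)))) (.a (.f (nat_lit 556) (nat_lit 524) (nat_lit 5548) (.f (nat_lit 557) (nat_lit 588) (nat_lit 5580) (.d (nat_lit 558) (nat_lit 526) (nat_lit 4525) (nat_lit 590) (nat_lit 4557)))) (.a (.f (nat_lit 430) (nat_lit 398) (nat_lit 6541) (.f (nat_lit 557) (nat_lit 462) (nat_lit 6573) (.d (nat_lit 556) (nat_lit 524) (nat_lit 5548) (nat_lit 588) (nat_lit 5580)))) (.f (nat_lit 430) (nat_lit 398) (nat_lit 6541) (.f (nat_lit 428) (nat_lit 396) (nat_lit 7564) (.f (nat_lit 464) (nat_lit 463) (nat_lit 428) (.f (nat_lit 432) (nat_lit 465) (nat_lit 429) (.d (nat_lit 401) (nat_lit 400) (nat_lit 2445) (nat_lit 433) (nat_lit 6544)))))))))))))) (.a s131989 s131808)))))))))) (.a (.p (nat_lit 429) (.a (.p (nat_lit 398) (.a (.f (nat_lit 397) (nat_lit 366) (nat_lit 6509) (.f (nat_lit 396) (nat_lit 364) (nat_lit 7532) (.f (nat_lit 428) (nat_lit 525) (nat_lit 7564) (.d (nat_lit 427) (nat_lit 399) (nat_lit 1419) (nat_lit 426) (nat_lit 2442))))) (.a (.f (nat_lit 525) (nat_lit 430) (nat_lit 6541) (.f (nat_lit 428) (nat_lit 396) (nat_lit 7564) (.f (nat_lit 557) (nat_lit 460) (nat_lit 7596) (.d (nat_lit 556) (nat_lit 524) (nat_lit 5548) (nat_lit 588) (nat_lit 5580))))) (.f (nat_lit 366) (nat_lit 397) (nat_lit 6509) (.d (nat_lit 430) (nat_lit 334) (nat_lit 5453) (nat_lit 462) (nat_lit 5485)))))) (.a s131875 (.a s132000 (.a s131609 (.a (.p (nat_lit 463) (.a (.f (nat_lit 460) (nat_lit 462) (nat_lit 460) (.f (nat_lit 431) (nat_lit 399) (nat_lit 4495) (.f (nat_lit 430) (nat_lit 432) (nat_lit 1452) (.d (nat_lit 459) (nat_lit 428) (nat_lit 1451) (nat_lit 458) (nat_lit 2474))))) (.a (.f (nat_lit 431) (nat_lit 399) (nat_lit 4495) (.d (nat_lit 560) (nat_lit 464) (nat_lit 7599) (nat_lit 592) (nat_lit 7631))) (.f (nat_lit 462) (nat_lit 460) (nat_lit 460) (.f (nat_lit 464) (nat_lit 428) (nat_lit 3500) (.f (nat_lit 465) (nat_lit 430) (nat_lit 3501) (.d (nat_lit 560) (nat_lit 433) (nat_lit 6576) (nat_lit 592) (nat_lit 7631)))))))) s131814)))))) (.a (.p (nat_lit 429) (.a (.p (nat_lit 463) (.a (.f (nat_lit 460) (nat_lit 462) (nat_lit 460) (.f (nat_lit 431) (nat_lit 399) (nat_lit 4495) (.f (nat_lit 430) (nat_lit 432) (nat_lit 1452) (.d (nat_lit 459) (nat_lit 428) (nat_lit 1451) (nat_lit 458) (nat_lit 2474))))) (.a (.f (nat_lit 431) (nat_lit 399) (nat_lit 4495) (.d (nat_lit 560) (nat_lit 464) (nat_lit 7599) (nat_lit 592) (nat_lit 7631))) (.f (nat_lit 462) (nat_lit 460) (nat_lit 460) (.d (nat_lit 464) (nat_lit 428) (nat_lit 3500) (nat_lit 492) (nat_lit 1484)))))) (.a (.p (nat_lit 398) (.a (.f (nat_lit 397) (nat_lit 366) (nat_lit 6509) (.f (nat_lit 396) (nat_lit 364) (nat_lit 7532) (.f (nat_lit 428) (nat_lit 525) (nat_lit 7564) (.d (nat_lit 427) (nat_lit 399) (nat_lit 1419) (nat_lit 426) (nat_lit 2442))))) (.a (.f (nat_lit 366) (nat_lit 397) (nat_lit 6509) (.d (nat_lit 430) (nat_lit 334) (nat_lit 5453) (nat_lit 462) (nat_lit 5485))) (.a (.f (nat_lit 430) (nat_lit 525) (nat_lit 6541) (.d (nat_lit 366) (nat_lit 334) (nat_lit 5453) (nat_lit 462) (nat_lit 5485))) (.f (nat_lit 525) (nat_lit 430) (nat_lit 6541) (.f (nat_lit 428) (nat_lit 396) (nat_lit 7564) (.f (nat_lit 557) (nat_lit 460) (nat_lit 7596) (.d (nat_lit 558) (nat_lit 526) (nat_lit 4525) (nat_lit 590) (nat_lit 4557))))))))) (.a s132017 (.a s132032 (.a (.p (nat_lit 398) (.a (.f (nat_lit 366) (nat_lit 397) (nat_lit 6509) (.d (nat_lit 430) (nat_lit 334) (nat_lit 5453) (nat_lit 462) (nat_lit 5485))) (.a (.f (nat_lit 525) (nat_lit 430) (nat_lit 6541) (.f (nat_lit 397) (nat_lit 366) (nat_lit 6509) (.d (nat_lit 396) (nat_lit 364) (nat_lit 7532) (nat_lit 428) (nat_lit 7564)))) (.a (.f (nat_lit 397) (nat_lit 366) (nat_lit 6509) (.f (nat_lit 396) (nat_lit 364) (nat_lit 7532) (.f (nat_lit 525) (nat_lit 428) (nat_lit 7564) (.f (nat_lit 558) (nat_lit 526) (nat_lit 4525) (.f (nat_lit 557) (nat_lit 590) (nat_lit 4557) (.f (nat_lit 588) (nat_lit 556) (nat_lit 5580) (.f (nat_lit 589) (nat_lit 620) (nat_lit 5612) (.f (nat_lit 560) (nat_lit 559) (nat_lit 1580) (.f (nat_lit 592) (nat_lit 463) (nat_lit 7631) (.f (nat_lit 623) (nat_lit 591) (nat_lit 5615) (.f (nat_lit 624) (nat_lit 655) (nat_lit 5647) (.d (nat_lit 625) (nat_lit 593) (nat_lit 4592) (nat_lit 657) (nat_lit 4624))))))))))))) (.a (.f (nat_lit 430) (nat_lit 525) (nat_lit 6541) (.d (nat_lit 366) (nat_lit 334) (nat_lit 5453) (nat_lit 462) (nat_lit 5485))) (.f (nat_lit 525) (nat_lit 430) (nat_lit 6541) (.f (nat_lit 428) (nat_lit 396) (nat_lit 7564) (.f (nat_lit 557) (nat_lit 460) (nat_lit 7596) (.d (nat_lit 558) (nat_lit 526) (nat_lit 4525) (nat_lit 590) (nat_lit 4557)))))))))) (.p (nat_lit 398) (.a (.f (nat_lit 366) (nat_lit 397) (nat_lit 6509) (.d (nat_lit 430) (nat_lit 334) (nat_lit 5453) (nat_lit 462) (nat_lit 5485))) (.a (.f (nat_lit 430) (nat_lit 525) (nat_lit 6541) (.d (nat_lit 366) (nat_lit 334) (nat_lit 5453) (nat_lit 397) (nat_lit 6509))) (.a (.f (nat_lit 397) (nat_lit 366) (nat_lit 6509) (.f (nat_lit 364) (nat_lit 396) (nat_lit 7532) (.f (nat_lit 365) (nat_lit 332) (nat_lit 7500) (.f (nat_lit 399) (nat_lit 400) (nat_lit 3436) (.f (nat_lit 463) (nat_lit 431) (nat_lit 4495) (.d (nat_lit 460) (nat_lit 462) (nat_lit 460) (nat_lit 492) (nat_lit 5484))))))) (.a (.f (nat_lit 430) (nat_lit 525) (nat_lit 6541) (.d (nat_lit 366) (nat_lit 334) (nat_lit 5453) (nat_lit 462) (nat_lit 5485))) (.f (nat_lit 525) (nat_lit 430) (nat_lit 6541) (.f (nat_lit 558) (nat_lit 526) (nat_lit 4525) (.f (nat_lit 557) (nat_lit 590) (nat_lit 4557) (.f (nat_lit 588) (nat_lit 556) (nat_lit 5580) (.f (nat_lit 589) (nat_lit 620) (nat_lit 5612) (.f (nat_lit 560) (nat_lit 559) (nat_lit 1580) (.f (nat_lit 463) (nat_lit 592) (nat_lit 7631) (.d (nat_lit 431) (nat_lit 399) (nat_lit 4495) (nat_lit 464) (nat_lit 7599)))))))))))))))))))) (.a (.p (nat_lit 429) (.a s131525 (.a s131671 (.a (.p (nat_lit 463) (.a (.f (nat_lit 460) (nat_lit 462) (nat_lit 460) (.f (nat_lit 431) (nat_lit 399) (nat_lit 4495) (.f (nat_lit 430) (nat_lit 432) (nat_lit 1452) (.d (nat_lit 459) (nat_lit 428) (nat_lit 1451) (nat_lit 458) (nat_lit 2474))))) (.a (.f (nat_lit 431) (nat_lit 399) (nat_lit 4495) (.d (nat_lit 560) (nat_lit 464) (nat_lit 7599) (nat_lit 592) (nat_lit 7631))) (.f (nat_lit 462) (nat_lit 460) (nat_lit 460) (.f (nat_lit 464) (nat_lit 428) (nat_lit 3500) (.f (nat_lit 430) (nat_lit 465) (nat_lit 3501) (.d (nat_lit 398) (nat_lit 366) (nat_lit 5485) (nat_lit 525) (nat_lit 6541)))))))) (.a (.p (nat_lit 398) (.a (.f (nat_lit 397) (nat_lit 366) (nat_lit 6509) (.f (nat_lit 364) (nat_lit 396) (nat_lit 7532) (.f (nat_lit 365) (nat_lit 332) (nat_lit 7500) (.d (nat_lit 492) (nat_lit 460) (nat_lit 5484) (nat_lit 524) (nat_lit 5516))))) (.a (.f (nat_lit 366) (nat_lit 397) (nat_lit 6509) (.d (nat_lit 430) (nat_lit 334) (nat_lit 5453) (nat_lit 462) (nat_lit 5485))) (.a (.f (nat_lit 430) (nat_lit 525) (nat_lit 6541) (.d (nat_lit 366) (nat_lit 334) (nat_lit 5453) (nat_lit 462) (nat_lit 5485))) (.f (nat_lit 525) (nat_lit 430) (nat_lit 6541) (.f (nat_lit 428) (nat_lit 396) (nat_lit 7564) (.f (nat_lit 557) (nat_lit 460) (nat_lit 7596) (.d (nat_lit 558) (nat_lit 526) (nat_lit 4525) (nat_lit 590) (nat_lit 4557))))))))) (.a (.p (nat_lit 463) (.a (.f (nat_lit 460) (nat_lit 462) (nat_lit 460) (.f (nat_lit 431) (nat_lit 399) (nat_lit 4495) (.f (nat_lit 430) (nat_lit 432) (nat_lit 1452) (.d (nat_lit 459) (nat_lit 428) (nat_lit 1451) (nat_lit 458) (nat_lit 2474))))) (.a (.f (nat_lit 431) (nat_lit 399) (nat_lit 4495) (.d (nat_lit 560) (nat_lit 464) (nat_lit 7599) (nat_lit 592) (nat_lit 7631))) (.f (nat_lit 462) (nat_lit 460) (nat_lit 460) (.d (nat_lit 464) (nat_lit 428) (nat_lit 3500) (nat_lit 492) (nat_lit 1484)))))) (.a (.p (nat_lit 398) (.a (.f (nat_lit 397) (nat_lit 366) (nat_lit 6509) (.f (nat_lit 396) (nat_lit 364) (nat_lit 7532) (.f (nat_lit 428) (nat_lit 525) (nat_lit 7564) (.d (nat_lit 427) (nat_lit 399) (nat_lit 1419) (nat_lit 426) (nat_lit 2442))))) (.a (.f (nat_lit 366) (nat_lit 397) (nat_lit 6509) (.d (nat_lit 430) (nat_lit 334) (nat_lit 5453) (nat_lit 462) (nat_lit 5485))) (.a (.f (nat_lit 430) (nat_lit 525) (nat_lit 6541) (.d (nat_lit 366) (nat_lit 334) (nat_lit 5453) (nat_lit 462) (nat_lit 5485))) (.f (nat_lit 525) (nat_lit 430) (nat_lit 6541) (.f (nat_lit 558) (nat_lit 526) (nat_lit 4525) (.f (nat_lit 557) (nat_lit 590) (nat_lit 4557) (.f (nat_lit 396) (nat_lit 428) (nat_lit 7564) (.f (nat_lit 397) (nat_lit 364) (nat_lit 7532) (.f (nat_lit 524) (nat_lit 492) (nat_lit 5516) (.f (nat_lit 560) (nat_lit 559) (nat_lit 3596) (.f (nat_lit 592) (nat_lit 463) (nat_lit 7631) (.f (nat_lit 623) (nat_lit 591) (nat_lit 5615) (.f (nat_lit 624) (nat_lit 655) (nat_lit 5647) (.d (nat_lit 625) (nat_lit 593) (nat_lit 4592) (nat_lit 657) (nat_lit 4624)))))))))))))))) (.p (nat_lit 397) (.a (.f (nat_lit 492) (nat_lit 524) (nat_lit 5516) (.f (nat_lit 365) (nat_lit 460) (nat_lit 5484) (.d (nat_lit 366) (nat_lit 334) (nat_lit 6477) (nat_lit 398) (nat_lit 6509)))) (.a (.f (nat_lit 366) (nat_lit 398) (nat_lit 6509) (.f (nat_lit 365) (nat_lit 334) (nat_lit 6477) (.d (nat_lit 364) (nat_lit 332) (nat_lit 7500) (nat_lit 396) (nat_lit 7532)))) (.a (.f (nat_lit 492) (nat_lit 524) (nat_lit 5516) (.f (nat_lit 365) (nat_lit 460) (nat_lit 5484) (.d (nat_lit 364) (nat_lit 332) (nat_lit 7500) (nat_lit 396) (nat_lit 7532)))) (.f (nat_lit 398) (nat_lit 366) (nat_lit 6509) (.f (nat_lit 396) (nat_lit 364) (nat_lit 7532) (.f (nat_lit 430) (nat_lit 525) (nat_lit 6541) (.d (nat_lit 395) (nat_lit 394) (nat_lit 394) (nat_lit 431) (nat_lit 395)))))))))))))))) (.a (.p (nat_lit 429) (.a (.p (nat_lit 398) (.a (.f (nat_lit 397) (nat_lit 366) (nat_lit 6509) (.f (nat_lit 396) (nat_lit 364) (nat_lit 7532) (.f (nat_lit 428) (nat_lit 525) (nat_lit 7564) (.d (nat_lit 427) (nat_lit 399) (nat_lit 1419) (nat_lit 426) (nat_lit 2442))))) (.a (.f (nat_lit 525) (nat_lit 430) (nat_lit 6541) (.f (nat_lit 428) (nat_lit 396) (nat_lit 7564) (.f (nat_lit 557) (nat_lit 460) (nat_lit 7596) (.d (nat_lit 556) (nat_lit 524) (nat_lit 5548) (nat_lit 588) (nat_lit 5580))))) (.f (nat_lit 366) (nat_lit 397) (nat_lit 6509) (.d (nat_lit 430) (nat_lit 334) (nat_lit 5453) (nat_lit 462) (nat_lit 5485)))))) (.a s131899 (.a s131609 (.a (.p (nat_lit 463) (.a (.f (nat_lit 460) (nat_lit 462) (nat_lit 460) (.f (nat_lit 431) (nat_lit 399) (nat_lit 4495) (.f (nat_lit 430) (nat_lit 432) (nat_lit 1452) (.d (nat_lit 459) (nat_lit 428) (nat_lit 1451) (nat_lit 458) (nat_lit 2474))))) (.a (.f (nat_lit 431) (nat_lit 399) (nat_lit 4495) (.d (nat_lit 560) (nat_lit 464) (nat_lit 7599) (nat_lit 592) (nat_lit 7631))) (.f (nat_lit 462) (nat_lit 460) (nat_lit 460) (.d (nat_lit 464) (nat_lit 428) (nat_lit 3500) (nat_lit 492) (nat_lit 1484)))))) s131808))))) (.a (.p (nat_lit 430) (.a (.p (nat_lit 462) (.a (.f (nat_lit 398) (nat_lit 366) (nat_lit 5485) (.d (nat_lit 525) (nat_lit 429) (nat_lit 6541) (nat_lit 557) (nat_lit 6573))) (.f (nat_lit 463) (nat_lit 460) (nat_lit 460) (.f (nat_lit 464) (nat_lit 492) (nat_lit 1484) (.d (nat_lit 560) (nat_lit 431) (nat_lit 7599) (nat_lit 592) (nat_lit 7631)))))) (.a (.p (nat_lit 429) (.a (.f (nat_lit 525) (nat_lit 398) (nat_lit 6541) (.f (nat_lit 428) (nat_lit 396) (nat_lit 7564) (.d (nat_lit 557) (nat_lit 460) (nat_lit 7596) (nat_lit 462) (nat_lit 6573)))) (.a (.f (nat_lit 525) (nat_lit 398) (nat_lit 6541) (.f (nat_lit 428) (nat_lit 396) (nat_lit 7564) (.f (nat_lit 460) (nat_lit 557) (nat_lit 7596) (.d (nat_lit 459) (nat_lit 431) (nat_lit 1451) (nat_lit 458) (nat_lit 2474))))) (.a s132097 (.a s132104 (.f (nat_lit 525) (nat_lit 398) (nat_lit 6541) (.f (nat_lit 557) (nat_lit 462) (nat_lit 6573) (.d (nat_lit 558) (nat_lit 526) (nat_lit 4525) (nat_lit 590) (nat_lit 4557))))))))) (.a (.p (nat_lit 462) (.a (.f (nat_lit 398) (nat_lit 366) (nat_lit 5485) (.d (nat_lit 525) (nat_lit 429) (nat_lit 6541) (nat_lit 557) (nat_lit 6573))) (.f (nat_lit 460) (nat_lit 463) (nat_lit 460) (.f (nat_lit 459) (nat_lit 431) (nat_lit 2475) (.f (nat_lit 490) (nat_lit 491) (nat_lit 1482) (.f (nat_lit 458) (nat_lit 489) (nat_lit 1481) (.d (nat_lit 426) (nat_lit 425) (nat_lit 3497) (nat_lit 427) (nat_lit 3498)))))))) (.a (.p (nat_lit 429) (.a (.f (nat_lit 525) (nat_lit 398) (nat_lit 6541) (.f (nat_lit 428) (nat_lit 396) (nat_lit 7564) (.f (nat_lit 460) (nat_lit 557) (nat_lit 7596) (.d (nat_lit 459) (nat_lit 431) (nat_lit 1451) (nat_lit 458) (nat_lit 2474))))) (.a (.f (nat_lit 525) (nat_lit 398) (nat_lit 6541) (.f (nat_lit 428) (nat_lit 396) (nat_lit 7564) (.f (nat_lit 557) (nat_lit 460) (nat_lit 7596) (.d (nat_lit 556) (nat_lit 524) (nat_lit 5548) (nat_lit 588) (nat_lit 5580))))) (.a (.p (nat_lit 431) (.a (.f (nat_lit 432) (nat_lit 460) (nat_lit 1452) (.d (nat_lit 399) (nat_lit 463) (nat_lit 4495) (nat_lit 464) (nat_lit 7567))) (.a (.f (nat_lit 432) (nat_lit 460) (nat_lit 1452) (.d (nat_lit 464) (nat_lit 399) (nat_lit 7567) (nat_lit 465) (nat_lit 429))) (.a (.f (nat_lit 399) (nat_lit 463) (nat_lit 4495) (.f (nat_lit 428) (nat_lit 400) (nat_lit 2444) (.d (nat_lit 396) (nat_lit 395) (nat_lit 3467) (nat_lit 525) (nat_lit 7564)))) (.f (nat_lit 432) (nat_lit 460) (nat_lit 1452) (.f (nat_lit 464) (nat_lit 465) (nat_lit 429) (.d (nat_lit 401) (nat_lit 400) (nat_lit 2445) (nat_lit 433) (nat_lit 6544)))))))) (.a s132120 (.f (nat_lit 525) (nat_lit 398) (nat_lit 6541) (.f (nat_lit 524) (nat_lit 556) (nat_lit 5548) (.f (nat_lit 558) (nat_lit 526) (nat_lit 4525) (.f (nat_lit 557) (nat_lit 590) (nat_lit 4557) (.f (nat_lit 560) (nat_lit 559) (nat_lit 3596) (.f (nat_lit 592) (nat_lit 463) (nat_lit 7631) (.f (nat_lit 623) (nat_lit 591) (nat_lit 5615) (.f (nat_lit 624) (nat_lit 655) (nat_lit 5647) (.d (nat_lit 625) (nat_lit 593) (nat_lit 4592) (nat_lit 657) (nat_lit 4624))))))))))))))) (.a (.p (nat_lit 462) (.a (.f (nat_lit 398) (nat_lit 366) (nat_lit 5485) (.d (nat_lit 525) (nat_lit 429) (nat_lit 6541) (nat_lit 557) (nat_lit 6573))) (.f (nat_lit 463) (nat_lit 460) (nat_lit 460) (.f (nat_lit 464) (nat_lit 492) (nat_lit 1484) (.f (nat_lit 433) (nat_lit 432) (nat_lit 2477) (.d (nat_lit 560) (nat_lit 465) (nat_lit 6576) (nat_lit 592) (nat_lit 7631))))))) (.a (.p (nat_lit 464) (.a (.p (nat_lit 431) (.a (.f (nat_lit 432) (nat_lit 399) (nat_lit 7567) (.d (nat_lit 433) (nat_lit 401) (nat_lit 6544) (nat_lit 462) (nat_lit 1453))) (.a (.f (nat_lit 432) (nat_lit 399) (nat_lit 7567) (.f (nat_lit 433) (nat_lit 401) (nat_lit 6544) (.d (nat_lit 465) (nat_lit 466) (nat_lit 430) (nat_lit 560) (nat_lit 6576)))) (.a (.d (nat_lit 463) (nat_lit 399) (nat_lit 4495) (nat_lit 560) (nat_lit 7599)) (.f (nat_lit 463) (nat_lit 560) (nat_lit 7599) (.d (nat_lit 462) (nat_lit 460) (nat_lit 460) (nat_lit 492) (nat_lit 1484))))))) (.a (.p (nat_lit 433) (.a (.f (nat_lit 465) (nat_lit 560) (nat_lit 6576) (.d (nat_lit 401) (nat_lit 369) (nat_lit 5488) (nat_lit 432) (nat_lit 6544))) (.a (.p (nat_lit 557) (.a (.f (nat_lit 525) (nat_lit 462) (nat_lit 6573) (.f (nat_lit 560) (nat_lit 465) (nat_lit 6576) (.f (nat_lit 558) (nat_lit 590) (nat_lit 4557) (.d (nat_lit 559) (nat_lit 529) (nat_lit 2573) (nat_lit 591) (nat_lit 5583))))) (.a (.f (nat_lit 560) (nat_lit 465) (nat_lit 6576) (.f (nat_lit 559) (nat_lit 591) (nat_lit 5583) (.f (nat_lit 558) (nat_lit 529) (nat_lit 2573) (.d (nat_lit 525) (nat_lit 524) (nat_lit 3596) (nat_lit 590) (nat_lit 4557))))) (.a (.f (nat_lit 525) (nat_lit 462) (nat_lit 6573) (.f (nat_lit 588) (nat_lit 556) (nat_lit 5580) (.f (nat_lit 589) (nat_lit 620) (nat_lit 5612) (.d (nat_lit 590) (nat_lit 558) (nat_lit 4557) (nat_lit 622) (nat_lit 4589))))) (.a (.f (nat_lit 560) (nat_lit 465) (nat_lit 6576) (.f (nat_lit 559) (nat_lit 591) (nat_lit 5583) (.f (nat_lit 558) (nat_lit 529) (nat_lit 2573) (.f (nat_lit 588) (nat_lit 589) (nat_lit 1580) (.f (nat_lit 556) (nat_lit 587) (nat_lit 1579) (.d (nat_lit 524) (nat_lit 492) (nat_lit 6604) (nat_lit 523) (nat_lit 3595))))))) (.f (nat_lit 525) (nat_lit 462) (nat_lit 6573) (.f (nat_lit 460) (nat_lit 428) (nat_lit 7596) (.f (nat_lit 589) (nat_lit 492) (nat_lit 7628) (.d (nat_lit 588) (nat_lit 556) (nat_lit 5580) (nat_lit 620) (nat_lit 5612)))))))))) (.f (nat_lit 432) (nat_lit 401) (nat_lit 6544) (.d (nat_lit 431) (nat_lit 399) (nat_lit 7567) (nat_lit 462) (nat_lit 1453)))))) (.a (.p (nat_lit 431) (.a (.f (nat_lit 432) (nat_lit 399) (nat_lit 7567) (.f (nat_lit 433) (nat_lit 401) (nat_lit 6544) (.d (nat_lit 465) (nat_lit 466) (nat_lit 430) (nat_lit 560) (nat_lit 6576)))) (.a (.d (nat_lit 463) (nat_lit 399) (nat_lit 4495) (nat_lit 560) (nat_lit 7599)) (.a (.d (nat_lit 399) (nat_lit 432) (nat_lit 7567) (nat_lit 463) (nat_lit 4495)) (.p (nat_lit 465) (.a (.d (nat_lit 560) (nat_lit 433) (nat_lit 6576) (nat_lit 463) (nat_lit 7599)) (.a (.f (nat_lit 433) (nat_lit 560) (nat_lit 6576) (.d (nat_lit 401) (nat_lit 369) (nat_lit 5488) (nat_lit 432) (nat_lit 6544))) (.d (nat_lit 466) (nat_lit 463) (nat_lit 3502) (nat_lit 467) (nat_lit 1487))))))))) (.a (.p (nat_lit 557) (.a (.f (nat_lit 525) (nat_lit 462) (nat_lit 6573) (.f (nat_lit 588) (nat_lit 556) (nat_lit 5580) (.f (nat_lit 589) (nat_lit 620) (nat_lit 5612) (.d (nat_lit 590) (nat_lit 558) (nat_lit 4557) (nat_lit 622) (nat_lit 4589))))) (.a (.p (nat_lit 560) (.a (.f (nat_lit 592) (nat_lit 463) (nat_lit 7631) (.d (nat_lit 591) (nat_lit 559) (nat_lit 5583) (nat_lit 623) (nat_lit 5615))) (.a (.f (nat_lit 559) (nat_lit 591) (nat_lit 5583) (.f (nat_lit 558) (nat_lit 529) (nat_lit 2573) (.d (nat_lit 525) (nat_lit 524) (nat_lit 3596) (nat_lit 590) (nat_lit 4557)))) (.a (.f (nat_lit 592) (nat_lit 463) (nat_lit 7631) (.f (nat_lit 593) (nat_lit 625) (nat_lit 4592) (.f (nat_lit 558) (nat_lit 559) (nat_lit 557) (.f (nat_lit 525) (nat_lit 590) (nat_lit 4557) (.f (nat_lit 588) (nat_lit 556) (nat_lit 5580) (.f (nat_lit 589) (nat_lit 620) (nat_lit 5612) (.d (nat_lit 460) (nat_lit 428) (nat_lit 7596) (nat_lit 492) (nat_lit 7628)))))))) (.f (nat_lit 592) (nat_lit 463) (nat_lit 7631) (.f (nat_lit 625) (nat_lit 593) (nat_lit 4592) (.f (nat_lit 624) (nat_lit 657) (nat_lit 4624) (.d (nat_lit 623) (nat_lit 591) (nat_lit 5615) (nat_lit 655) (nat_lit 5647))))))))) (.a (.p (nat_lit 463) (.a (.d (nat_lit 462) (nat_lit 460) (nat_lit 460) (nat_lit 492) (nat_lit 1484)) (.a (.f (nat_lit 560) (nat_lit 592) (nat_lit 7631) (.f (nat_lit 559) (nat_lit 591) (nat_lit 5583) (.f (nat_lit 558) (nat_lit 529) (nat_lit 2573) (.f (nat_lit 588) (nat_lit 589) (nat_lit 1580) (.f (nat_lit 556) (nat_lit 587) (nat_lit 1579) (.d (nat_lit 524) (nat_lit 492) (nat_lit 6604) (nat_lit 523) (nat_lit 3595))))))) (.f (nat_lit 462) (nat_lit 460) (nat_lit 460) (.f (nat_lit 433) (nat_lit 432) (nat_lit 2477) (.d (nat_lit 560) (nat_lit 465) (nat_lit 6576) (nat_lit 592) (nat_lit 7631))))))) (.f (nat_lit 462) (nat_lit 525) (nat_lit 6573) (.d (nat_lit 463) (nat_lit 460) (nat_lit 460) (nat_lit 492) (nat_lit 1484))))))) (.a (.p (nat_lit 463) (.a (.d (nat_lit 462) (nat_lit 460) (nat_lit 460) (nat_lit 492) (nat_lit 1484)) (.d (nat_lit 431) (nat_lit 399) (nat_lit 4495) (nat_lit 560) (nat_lit 7599)))) (.p (nat_lit 432) (.a (.f (nat_lit 433) (nat_lit 401) (nat_lit 6544) (.d (nat_lit 431) (nat_lit 399) (nat_lit 7567) (nat_lit 462) (nat_lit 1453))) (.a (.f (nat_lit 401) (nat_lit 433) (nat_lit 6544) (.f (nat_lit 400) (nat_lit 369) (nat_lit 6512) (.f (nat_lit 368) (nat_lit 463) (nat_lit 5487) (.d (nat_lit 367) (nat_lit 335) (nat_lit 7503) (nat_lit 399) (nat_lit 7535))))) (.a (.f (nat_lit 433) (nat_lit 401) (nat_lit 6544) (.d (nat_lit 462) (nat_lit 431) (nat_lit 1453) (nat_lit 463) (nat_lit 2477))) (.f (nat_lit 399) (nat_lit 431) (nat_lit 7567) (.f (nat_lit 400) (nat_lit 367) (nat_lit 7535) (.f (nat_lit 463) (nat_lit 368) (nat_lit 5487) (.d (nat_lit 462) (nat_lit 460) (nat_lit 460) (nat_lit 492) (nat_lit 1484))))))))))))))) (.a (.p (nat_lit 463) (.a (.f (nat_lit 431) (nat_lit 399) (nat_lit 4495) (.d (nat_lit 560) (nat_lit 464) (nat_lit 7599) (nat_lit 592) (nat_lit 7631))) (.a (.f (nat_lit 431) (nat_lit 399) (nat_lit 4495) (.f (nat_lit 460) (nat_lit 462) (nat_lit 460) (.f (nat_lit 429) (nat_lit 432) (nat_lit 1452) (.d (nat_lit 459) (nat_lit 428) (nat_lit 1451) (nat_lit 458) (nat_lit 2474))))) (.f (nat_lit 462) (nat_lit 460) (nat_lit 460) (.f (nat_lit 464) (nat_lit 492) (nat_lit 1484) (.d (nat_lit 429) (nat_lit 428) (nat_lit 3500) (nat_lit 465) (nat_lit 3501))))))) (.p (nat_lit 431) (.a (.f (nat_lit 463) (nat_lit 399) (nat_lit 4495) (.d (nat_lit 560) (nat_lit 464) (nat_lit 7599) (nat_lit 592) (nat_lit 7631))) (.a (.p (nat_lit 432) (.a (.f (nat_lit 433) (nat_lit 462) (nat_lit 1453) (.d (nat_lit 464) (nat_lit 399) (nat_lit 7567) (nat_lit 401) (nat_lit 6544))) (.a (.f (nat_lit 433) (nat_lit 462) (nat_lit 1453) (.f (nat_lit 402) (nat_lit 401) (nat_lit 2446) (.f (nat_lit 434) (nat_lit 403) (nat_lit 2447) (.d (nat_lit 466) (nat_lit 465) (nat_lit 430) (nat_lit 467) (nat_lit 431))))) (.a (.f (nat_lit 464) (nat_lit 399) (nat_lit 7567) (.f (nat_lit 433) (nat_lit 401) (nat_lit 6544) (.d (nat_lit 465) (nat_lit 466) (nat_lit 430) (nat_lit 560) (nat_lit 6576)))) (.f (nat_lit 464) (nat_lit 399) (nat_lit 7567) (.f (nat_lit 429) (nat_lit 465) (nat_lit 429) (.f (nat_lit 525) (nat_lit 398) (nat_lit 6541) (.f (nat_lit 557) (nat_lit 462) (nat_lit 6573) (.d (nat_lit 558) (nat_lit 526) (nat_lit 4525) (nat_lit 590) (nat_lit 4557)))))))))) (.a (.p (nat_lit 429) (.a (.f (nat_lit 525) (nat_lit 398) (nat_lit 6541) (.f (nat_lit 557) (nat_lit 462) (nat_lit 6573) (.d (nat_lit 558) (nat_lit 526) (nat_lit 4525) (nat_lit 590) (nat_lit 4557)))) (.a (.f (nat_lit 525) (nat_lit 398) (nat_lit 6541) (.f (nat_lit 556) (nat_lit 524) (nat_lit 5548) (.f (nat_lit 557) (nat_lit 588) (nat_lit 5580) (.d (nat_lit 558) (nat_lit 526) (nat_lit 4525) (nat_lit 590) (nat_lit 4557))))) (.a (.f (nat_lit 399) (nat_lit 463) (nat_lit 4495) (.f (nat_lit 428) (nat_lit 400) (nat_lit 2444) (.d (nat_lit 396) (nat_lit 395) (nat_lit 3467) (nat_lit 525) (nat_lit 7564)))) (.f (nat_lit 399) (nat_lit 463) (nat_lit 4495) (.f (nat_lit 428) (nat_lit 400) (nat_lit 2444) (.f (nat_lit 427) (nat_lit 398) (nat_lit 2443) (.d (nat_lit 395) (nat_lit 394) (nat_lit 3466) (nat_lit 396) (nat_lit 3467))))))))) (.p (nat_lit 525) (.a (.f (nat_lit 557) (nat_lit 462) (nat_lit 6573) (.f (nat_lit 588) (nat_lit 556) (nat_lit 5580) (.f (nat_lit 589) (nat_lit 620) (nat_lit 5612) (.d (nat_lit 590) (nat_lit 558) (nat_lit 4557) (nat_lit 622) (nat_lit 4589))))) (.f (nat_lit 429) (nat_lit 398) (nat_lit 6541) (.f (nat_lit 428) (nat_lit 396) (nat_lit 7564) (.f (nat_lit 464) (nat_lit 463) (nat_lit 428) (.f (nat_lit 432) (nat_lit 465) (nat_lit 429) (.d (nat_lit 401) (nat_lit 400) (nat_lit 2445) (nat_lit 433) (nat_lit 6544)))))))))))))))))))) (.a (.p (nat_lit 557) (.a (.p (nat_lit 462) (.a (.f (nat_lit 525) (nat_lit 430) (nat_lit 6573) (.f (nat_lit 588) (nat_lit 556) (nat_lit 5580) (.f (nat_lit 589) (nat_lit 620) (nat_lit 5612) (.d (nat_lit 590) (nat_lit 558) (nat_lit 4557) (nat_lit 622) (nat_lit 4589))))) (.f (nat_lit 463) (nat_lit 460) (nat_lit 460) (.f (nat_lit 464) (nat_lit 492) (nat_lit 1484) (.d (nat_lit 560) (nat_lit 431) (nat_lit 7599) (nat_lit 592) (nat_lit 7631)))))) (.a (.p (nat_lit 525) (.a (.f (nat_lit 588) (nat_lit 556) (nat_lit 5580) (.f (nat_lit 589) (nat_lit 620) (nat_lit 5612) (.d (nat_lit 590) (nat_lit 558) (nat_lit 4557) (nat_lit 622) (nat_lit 4589)))) (.a (.p (nat_lit 589) (.a (.d (nat_lit 588) (nat_lit 556) (nat_lit 5580) (nat_lit 620) (nat_lit 5612)) (.a (.f (nat_lit 620) (nat_lit 588) (nat_lit 5612) (.f (nat_lit 621) (nat_lit 652) (nat_lit 5644) (.d (nat_lit 622) (nat_lit 590) (nat_lit 4589) (nat_lit 654) (nat_lit 4621)))) (.a (.f (nat_lit 622) (nat_lit 590) (nat_lit 4589) (.f (nat_lit 621) (nat_lit 654) (nat_lit 4621) (.f (nat_lit 652) (nat_lit 620) (nat_lit 5644) (.f (nat_lit 653) (nat_lit 684) (nat_lit 5676) (.d (nat_lit 524) (nat_lit 492) (nat_lit 7660) (nat_lit 556) (nat_lit 7692)))))) (.f (nat_lit 556) (nat_lit 588) (nat_lit 5580) (.f (nat_lit 590) (nat_lit 622) (nat_lit 4589) (.f (nat_lit 592) (nat_lit 591) (nat_lit 3628) (.f (nat_lit 463) (nat_lit 560) (nat_lit 7631) (.f (nat_lit 462) (nat_lit 430) (nat_lit 6573) (.f (nat_lit 464) (nat_lit 492) (nat_lit 1484) (.f (nat_lit 432) (nat_lit 433) (nat_lit 2477) (.f (nat_lit 399) (nat_lit 431) (nat_lit 4495) (.d (nat_lit 400) (nat_lit 367) (nat_lit 7535) (nat_lit 368) (nat_lit 5487)))))))))))))) (.a (.p (nat_lit 560) (.a (.f (nat_lit 592) (nat_lit 463) (nat_lit 7631) (.f (nat_lit 588) (nat_lit 556) (nat_lit 5580) (.f (nat_lit 589) (nat_lit 620) (nat_lit 5612) (.f (nat_lit 559) (nat_lit 558) (nat_lit 1580) (.d (nat_lit 591) (nat_lit 464) (nat_lit 5583) (nat_lit 623) (nat_lit 5615)))))) (.a (.f (nat_lit 588) (nat_lit 556) (nat_lit 5580) (.f (nat_lit 589) (nat_lit 620) (nat_lit 5612) (.f (nat_lit 559) (nat_lit 558) (nat_lit 1580) (.f (nat_lit 591) (nat_lit 464) (nat_lit 5583) (.d (nat_lit 623) (nat_lit 592) (nat_lit 5615) (nat_lit 655) (nat_lit 6671)))))) (.a (.f (nat_lit 592) (nat_lit 463) (nat_lit 7631) (.f (nat_lit 623) (nat_lit 591) (nat_lit 5615) (.f (nat_lit 624) (nat_lit 655) (nat_lit 5647) (.d (nat_lit 625) (nat_lit 593) (nat_lit 4592) (nat_lit 657) (nat_lit 4624))))) (.a (.f (nat_lit 588) (nat_lit 556) (nat_lit 5580) (.f (nat_lit 589) (nat_lit 620) (nat_lit 5612) (.f (nat_lit 559) (nat_lit 558) (nat_lit 1580) (.f (nat_lit 464) (nat_lit 591) (nat_lit 5583) (.f (nat_lit 463) (nat_lit 431) (nat_lit 7599) (.d (nat_lit 462) (nat_lit 430) (nat_lit 6573) (nat_lit 492) (nat_lit 1484))))))) (.f (nat_lit 463) (nat_lit 592) (nat_lit 7631) (.d (nat_lit 431) (nat_lit 399) (nat_lit 4495) (nat_lit 464) (nat_lit 7599)))))))) (.p (nat_lit 463) (.a (.f (nat_lit 462) (nat_lit 430) (nat_lit 6573) (.f (nat_lit 464) (nat_lit 492) (nat_lit 1484) (.d (nat_lit 560) (nat_lit 431) (nat_lit 7599) (nat_lit 592) (nat_lit 7631)))) (.a (.f (nat_lit 558) (nat_lit 590) (nat_lit 4557) (.f (nat_lit 560) (nat_lit 592) (nat_lit 7631) (.d (nat_lit 559) (nat_lit 524) (nat_lit 3596) (nat_lit 529) (nat_lit 2573)))) (.f (nat_lit 462) (nat_lit 430) (nat_lit 6573) (.f (nat_lit 464) (nat_lit 492) (nat_lit 1484) (.f (nat_lit 432) (nat_lit 433) (nat_lit 2477) (.f (nat_lit 399) (nat_lit 431) (nat_lit 4495) (.d (nat_lit 400) (nat_lit 367) (nat_lit 7535) (nat_lit 368) (nat_lit 5487))))))))))))) (.a (.p (nat_lit 462) (.a (.f (nat_lit 525) (nat_lit 430) (nat_lit 6573) (.f (nat_lit 588) (nat_lit 556) (nat_lit 5580) (.f (nat_lit 589) (nat_lit 620) (nat_lit 5612) (.d (nat_lit 590) (nat_lit 558) (nat_lit 4557) (nat_lit 622) (nat_lit 4589))))) (.f (nat_lit 463) (nat_lit 460) (nat_lit 460) (.f (nat_lit 560) (nat_lit 592) (nat_lit 7631) (.d (nat_lit 431) (nat_lit 399) (nat_lit 4495) (nat_lit 464) (nat_lit 7599)))))) (.a (.p (nat_lit 462) (.a (.f (nat_lit 463) (nat_lit 460) (nat_lit 460) (.f (nat_lit 464) (nat_lit 492) (nat_lit 1484) (.d (nat_lit 560) (nat_lit 431) (nat_lit 7599) (nat_lit 592) (nat_lit 7631)))) (.a (.f (nat_lit 525) (nat_lit 430) (nat_lit 6573) (.f (nat_lit 460) (nat_lit 428) (nat_lit 7596) (.f (nat_lit 589) (nat_lit 492) (nat_lit 7628) (.d (nat_lit 590) (nat_lit 558) (nat_lit 4557) (nat_lit 622) (nat_lit 4589))))) (.a (.f (nat_lit 463) (nat_lit 460) (nat_lit 460) (.f (nat_lit 560) (nat_lit 592) (nat_lit 7631) (.d (nat_lit 431) (nat_lit 399) (nat_lit 4495) (nat_lit 464) (nat_lit 7599)))) (.f (nat_lit 525) (nat_lit 430) (nat_lit 6573) (.f (nat_lit 590) (nat_lit 558) (nat_lit 4557) (.f (nat_lit 589) (nat_lit 622) (nat_lit 4589) (.f (nat_lit 620) (nat_lit 588) (nat_lit 5612) (.f (nat_lit 621) (nat_lit 652) (nat_lit 5644) (.f (nat_lit 492) (nat_lit 524) (nat_lit 7660) (.f (nat_lit 463) (nat_lit 464) (nat_lit 1484) (.d (nat_lit 592) (nat_lit 560) (nat_lit 7631) (nat_lit 591) (nat_lit 1612))))))))))))) (.a (.p (nat_lit 463) (.a (.f (nat_lit 462) (nat_lit 460) (nat_lit 460) (.f (nat_lit 464) (nat_lit 492) (nat_lit 1484) (.d (nat_lit 560) (nat_lit 431) (nat_lit 7599) (nat_lit 592) (nat_lit 7631)))) (.a (.f (nat_lit 462) (nat_lit 460) (nat_lit 460) (.f (nat_lit 525) (nat_lit 430) (nat_lit 6573) (.f (nat_lit 558) (nat_lit 590) (nat_lit 4557) (.f (nat_lit 560) (nat_lit 592) (nat_lit 7631) (.d (nat_lit 559) (nat_lit 524) (nat_lit 3596) (nat_lit 529) (nat_lit 2573)))))) (.a (.f (nat_lit 560) (nat_lit 592) (nat_lit 7631) (.d (nat_lit 431) (nat_lit 399) (nat_lit 4495) (nat_lit 464) (nat_lit 7599))) (.f (nat_lit 462) (nat_lit 460) (nat_lit 460) (.f (nat_lit 464) (nat_lit 492) (nat_lit 1484) (.f (nat_lit 432) (nat_lit 433) (nat_lit 2477) (.f (nat_lit 399) (nat_lit 431) (nat_lit 4495) (.d (nat_lit 400) (nat_lit 367) (nat_lit 7535) (nat_lit 368) (nat_lit 5487)))))))))) (.a (.p (nat_lit 560) (.a (.f (nat_lit 463) (nat_lit 592) (nat_lit 7631) (.d (nat_lit 431) (nat_lit 399) (nat_lit 4495) (nat_lit 464) (nat_lit 7599))) (.a (.p (nat_lit 591) (.a (.f (nat_lit 559) (nat_lit 464) (nat_lit 5583) (.d (nat_lit 623) (nat_lit 592) (nat_lit 5615) (nat_lit 655) (nat_lit 6671))) (.a (.f (nat_lit 592) (nat_lit 623) (nat_lit 5615) (.f (nat_lit 593) (nat_lit 625) (nat_lit 4592) (.d (nat_lit 558) (nat_lit 559) (nat_lit 557) (nat_lit 590) (nat_lit 3629)))) (.a (.f (nat_lit 559) (nat_lit 464) (nat_lit 5583) (.f (nat_lit 558) (nat_lit 529) (nat_lit 2573) (.f (nat_lit 588) (nat_lit 589) (nat_lit 1580) (.f (nat_lit 556) (nat_lit 587) (nat_lit 1579) (.d (nat_lit 524) (nat_lit 492) (nat_lit 6604) (nat_lit 523) (nat_lit 3595)))))) (.f (nat_lit 592) (nat_lit 623) (nat_lit 5615) (.f (nat_lit 593) (nat_lit 625) (nat_lit 4592) (.f (nat_lit 590) (nat_lit 558) (nat_lit 3629) (.f (nat_lit 589) (nat_lit 556) (nat_lit 3628) (.d (nat_lit 621) (nat_lit 620) (nat_lit 1612) (nat_lit 622) (nat_lit 1613)))))))))) (.a (.f (nat_lit 592) (nat_lit 463) (nat_lit 7631) (.f (nat_lit 593) (nat_lit 625) (nat_lit 4592) (.f (nat_lit 591) (nat_lit 623) (nat_lit 5615) (.d (nat_lit 558) (nat_lit 559) (nat_lit 557) (nat_lit 590) (nat_lit 3629))))) (.p (nat_lit 464) (.a (.f (nat_lit 559) (nat_lit 591) (nat_lit 5583) (.f (nat_lit 558) (nat_lit 529) (nat_lit 2573) (.f (nat_lit 588) (nat_lit 589) (nat_lit 1580) (.f (nat_lit 556) (nat_lit 587) (nat_lit 1579) (.d (nat_lit 524) (nat_lit 492) (nat_lit 6604) (nat_lit 523) (nat_lit 3595)))))) (.f (nat_lit 463) (nat_lit 431) (nat_lit 7599) (.f (nat_lit 433) (nat_lit 465) (nat_lit 6576) (.d (nat_lit 462) (nat_lit 432) (nat_lit 2477) (nat_lit 460) (nat_lit 460)))))))))) (.a (.p (nat_lit 525) (.a (.f (nat_lit 588) (nat_lit 556) (nat_lit 5580) (.f (nat_lit 589) (nat_lit 620) (nat_lit 5612) (.d (nat_lit 590) (nat_lit 558) (nat_lit 4557) (nat_lit 622) (nat_lit 4589)))) (.a (.f (nat_lit 588) (nat_lit 556) (nat_lit 5580) (.f (nat_lit 589) (nat_lit 620) (nat_lit 5612) (.d (nat_lit 460) (nat_lit 428) (nat_lit 7596) (nat_lit 492) (nat_lit 7628)))) (.p (nat_lit 560) (.a (.f (nat_lit 592) (nat_lit 463) (nat_lit 7631) (.f (nat_lit 623) (nat_lit 591) (nat_lit 5615) (.f (nat_lit 624) (nat_lit 655) (nat_lit 5647) (.d (nat_lit 625) (nat_lit 593) (nat_lit 4592) (nat_lit 657) (nat_lit 4624))))) (.f (nat_lit 558) (nat_lit 590) (nat_lit 4557) (.d (nat_lit 559) (nat_lit 524) (nat_lit 3596) (nat_lit 529) (nat_lit 2573)))))))) (.a (.p (nat_lit 463) (.a (.f (nat_lit 462) (nat_lit 460) (nat_lit 460) (.f (nat_lit 464) (nat_lit 492) (nat_lit 1484) (.d (nat_lit 560) (nat_lit 431) (nat_lit 7599) (nat_lit 592) (nat_lit 7631)))) (.a (.f (nat_lit 460) (nat_lit 462) (nat_lit 460) (.f (nat_lit 525) (nat_lit 428) (nat_lit 7596) (.f (nat_lit 589) (nat_lit 492) (nat_lit 7628) (.d (nat_lit 588) (nat_lit 556) (nat_lit 5580) (nat_lit 620) (nat_lit 5612))))) (.f (nat_lit 560) (nat_lit 592) (nat_lit 7631) (.d (nat_lit 431) (nat_lit 399) (nat_lit 4495) (nat_lit 464) (nat_lit 7599)))))) (.a (.p (nat_lit 525) (.a (.f (nat_lit 588) (nat_lit 556) (nat_lit 5580) (.f (nat_lit 589) (nat_lit 620) (nat_lit 5612) (.d (nat_lit 590) (nat_lit 558) (nat_lit 4557) (nat_lit 622) (nat_lit 4589)))) (.a (.f (nat_lit 588) (nat_lit 556) (nat_lit 5580) (.f (nat_lit 589) (nat_lit 620) (nat_lit 5612) (.d (nat_lit 460) (nat_lit 428) (nat_lit 7596) (nat_lit 492) (nat_lit 7628)))) (.a (.f (nat_lit 558) (nat_lit 590) (nat_lit 4557) (.p (nat_lit 559) (.a (.d (nat_lit 560) (nat_lit 524) (nat_lit 3596) (nat_lit 529) (nat_lit 2573)) (.a (.f (nat_lit 556) (nat_lit 588) (nat_lit 5580) (.f (nat_lit 523) (nat_lit 524) (nat_lit 3595) (.f (nat_lit 555) (nat_lit 522) (nat_lit 3594) (.f (nat_lit 586) (nat_lit 587) (nat_lit 1578) (.d (nat_lit 554) (nat_lit 526) (nat_lit 2570) (nat_lit 585) (nat_lit 1577)))))) (.f (nat_lit 560) (nat_lit 529) (nat_lit 2573) (.f (nat_lit 592) (nat_lit 593) (nat_lit 557) (.d (nat_lit 556) (nat_lit 588) (nat_lit 5580) (nat_lit 591) (nat_lit 556)))))))) (.f (nat_lit 460) (nat_lit 428) (nat_lit 7596) (.f (nat_lit 589) (nat_lit 492) (nat_lit 7628) (.d (nat_lit 590) (nat_lit 558) (nat_lit 4557) (nat_lit 622) (nat_lit 4589)))))))) (.p (nat_lit 462) (.a (.f (nat_lit 525) (nat_lit 430) (nat_lit 6573) (.f (nat_lit 588) (nat_lit 556) (nat_lit 5580) (.f (nat_lit 589) (nat_lit 620) (nat_lit 5612) (.d (nat_lit 590) (nat_lit 558) (nat_lit 4557) (nat_lit 622) (nat_lit 4589))))) (.a (.f (nat_lit 460) (nat_lit 463) (nat_lit 460) (.f (nat_lit 525) (nat_lit 428) (nat_lit 7596) (.f (nat_lit 589) (nat_lit 492) (nat_lit 7628) (.d (nat_lit 588) (nat_lit 556) (nat_lit 5580) (nat_lit 620) (nat_lit 5612))))) (.f (nat_lit 463) (nat_lit 460) (nat_lit 460) (.f (nat_lit 464) (nat_lit 492) (nat_lit 1484) (.f (nat_lit 432) (nat_lit 433) (nat_lit 2477) (.f (nat_lit 399) (nat_lit 431) (nat_lit 4495) (.d (nat_lit 400) (nat_lit 367) (nat_lit 7535) (nat_lit 368) (nat_lit 5487))))))))))))))))))) (.a (.p (nat_lit 429) (.a (.p (nat_lit 463) (.a (.f (nat_lit 460) (nat_lit 462) (nat_lit 460) (.f (nat_lit 431) (nat_lit 399) (nat_lit 4495) (.f (nat_lit 430) (nat_lit 432) (nat_lit 1452) (.d (nat_lit 459) (nat_lit 428) (nat_lit 1451) (nat_lit 458) (nat_lit 2474))))) (.a (.f (nat_lit 431) (nat_lit 399) (nat_lit 4495) (.d (nat_lit 560) (nat_lit 464) (nat_lit 7599) (nat_lit 592) (nat_lit 7631))) (.f (nat_lit 462) (nat_lit 460) (nat_lit 460) (.d (nat_lit 464) (nat_lit 428) (nat_lit 3500) (nat_lit 492) (nat_lit 1484)))))) (.a s132524 (.a s132533 (.a (.p (nat_lit 431) (.a (.f (nat_lit 463) (nat_lit 399) (nat_lit 4495) (.d (nat_lit 560) (nat_lit 464) (nat_lit 7599) (nat_lit 592) (nat_lit 7631))) (.p (nat_lit 397) (.a (.f (nat_lit 396) (nat_lit 364) (nat_lit 7532) (.f (nat_lit 430) (nat_lit 432) (nat_lit 3468) (.d (nat_lit 395) (nat_lit 394) (nat_lit 394) (nat_lit 428) (nat_lit 3467)))) (.f (nat_lit 492) (nat_lit 524) (nat_lit 5516) (.f (nat_lit 365) (nat_lit 460) (nat_lit 5484) (.d (nat_lit 366) (nat_lit 334) (nat_lit 6477) (nat_lit 398) (nat_lit 6509)))))))) (.a (.p (nat_lit 462) (.a (.f (nat_lit 463) (nat_lit 460) (nat_lit 460) (.d (nat_lit 464) (nat_lit 428) (nat_lit 3500) (nat_lit 492) (nat_lit 1484))) (.a (.p (nat_lit 397) (.a (.f (nat_lit 366) (nat_lit 398) (nat_lit 6509) (.f (nat_lit 365) (nat_lit 334) (nat_lit 6477) (.d (nat_lit 364) (nat_lit 332) (nat_lit 7500) (nat_lit 396) (nat_lit 7532)))) (.a (.f (nat_lit 364) (nat_lit 396) (nat_lit 7532) (.f (nat_lit 365) (nat_lit 332) (nat_lit 7500) (.f (nat_lit 334) (nat_lit 366) (nat_lit 6477) (.d (nat_lit 333) (nat_lit 302) (nat_lit 6445) (nat_lit 430) (nat_lit 4429))))) (.a (.f (nat_lit 366) (nat_lit 398) (nat_lit 6509) (.f (nat_lit 365) (nat_lit 334) (nat_lit 6477) (.f (nat_lit 333) (nat_lit 430) (nat_lit 4429) (.d (nat_lit 332) (nat_lit 300) (nat_lit 7468) (nat_lit 364) (nat_lit 7500))))) (.a (.f (nat_lit 492) (nat_lit 524) (nat_lit 5516) (.f (nat_lit 365) (nat_lit 460) (nat_lit 5484) (.d (nat_lit 364) (nat_lit 332) (nat_lit 7500) (nat_lit 396) (nat_lit 7532)))) (.a (.p (nat_lit 428) (.a (.f (nat_lit 398) (nat_lit 366) (nat_lit 6509) (.f (nat_lit 427) (nat_lit 426) (nat_lit 426) (.d (nat_lit 399) (nat_lit 400) (nat_lit 1420) (nat_lit 430) (nat_lit 2443)))) (.a (.f (nat_lit 396) (nat_lit 364) (nat_lit 7532) (.f (nat_lit 427) (nat_lit 426) (nat_lit 426) (.d (nat_lit 398) (nat_lit 366) (nat_lit 6509) (nat_lit 399) (nat_lit 1419)))) (.a (.f (nat_lit 427) (nat_lit 426) (nat_lit 426) (.f (nat_lit 396) (nat_lit 364) (nat_lit 7532) (.f (nat_lit 492) (nat_lit 524) (nat_lit 5516) (.f (nat_lit 491) (nat_lit 490) (nat_lit 2506) (.d (nat_lit 523) (nat_lit 459) (nat_lit 6539) (nat_lit 460) (nat_lit 5515)))))) (.f (nat_lit 396) (nat_lit 364) (nat_lit 7532) (.f (nat_lit 492) (nat_lit 524) (nat_lit 5516) (.f (nat_lit 491) (nat_lit 490) (nat_lit 2506) (.f (nat_lit 460) (nat_lit 523) (nat_lit 5515) (.f (nat_lit 395) (nat_lit 363) (nat_lit 7531) (.d (nat_lit 394) (nat_lit 393) (nat_lit 393) (nat_lit 430) (nat_lit 394))))))))))) (.f (nat_lit 492) (nat_lit 524) (nat_lit 5516) (.f (nat_lit 365) (nat_lit 460) (nat_lit 5484) (.d (nat_lit 366) (nat_lit 334) (nat_lit 6477) (nat_lit 398) (nat_lit 6509)))))))))) (.a (.f (nat_lit 463) (nat_lit 460) (nat_lit 460) (.f (nat_lit 464) (nat_lit 428) (nat_lit 3500) (.f (nat_lit 465) (nat_lit 430) (nat_lit 3501) (.d (nat_lit 560) (nat_lit 433) (nat_lit 6576) (nat_lit 592) (nat_lit 7631))))) (.a (.p (nat_lit 397) (.a (.f (nat_lit 366) (nat_lit 398) (nat_lit 6509) (.f (nat_lit 365) (nat_lit 334) (nat_lit 6477) (.d (nat_lit 364) (nat_lit 332) (nat_lit 7500) (nat_lit 396) (nat_lit 7532)))) (.a (.f (nat_lit 364) (nat_lit 396) (nat_lit 7532) (.f (nat_lit 365) (nat_lit 332) (nat_lit 7500) (.f (nat_lit 334) (nat_lit 366) (nat_lit 6477) (.d (nat_lit 333) (nat_lit 302) (nat_lit 6445) (nat_lit 430) (nat_lit 4429))))) (.a (.f (nat_lit 366) (nat_lit 398) (nat_lit 6509) (.f (nat_lit 365) (nat_lit 334) (nat_lit 6477) (.f (nat_lit 333) (nat_lit 430) (nat_lit 4429) (.d (nat_lit 332) (nat_lit 300) (nat_lit 7468) (nat_lit 364) (nat_lit 7500))))) (.a (.p (nat_lit 365) (.a (.d (nat_lit 364) (nat_lit 332) (nat_lit 7500) (nat_lit 396) (nat_lit 7532)) (.a (.f (nat_lit 333) (nat_lit 430) (nat_lit 4429) (.d (nat_lit 332) (nat_lit 300) (nat_lit 7468) (nat_lit 364) (nat_lit 7500))) (.a (.f (nat_lit 333) (nat_lit 430) (nat_lit 4429) (.f (nat_lit 300) (nat_lit 332) (nat_lit 7468) (.f (nat_lit 301) (nat_lit 268) (nat_lit 7436) (.d (nat_lit 302) (nat_lit 270) (nat_lit 6413) (nat_lit 334) (nat_lit 6445))))) (.f (nat_lit 333) (nat_lit 430) (nat_lit 4429) (.f (nat_lit 396) (nat_lit 364) (nat_lit 7532) (.f (nat_lit 301) (nat_lit 428) (nat_lit 5420) (.d (nat_lit 302) (nat_lit 270) (nat_lit 6413) (nat_lit 334) (nat_lit 6445))))))))) (.a (.p (nat_lit 427) (.a (.f (nat_lit 428) (nat_lit 426) (nat_lit 426) (.d (nat_lit 463) (nat_lit 430) (nat_lit 427) (nat_lit 464) (nat_lit 3500))) (.a (.f (nat_lit 398) (nat_lit 366) (nat_lit 6509) (.f (nat_lit 428) (nat_lit 426) (nat_lit 426) (.d (nat_lit 399) (nat_lit 396) (nat_lit 1419) (nat_lit 430) (nat_lit 2443)))) (.a (.f (nat_lit 428) (nat_lit 426) (nat_lit 426) (.f (nat_lit 396) (nat_lit 364) (nat_lit 7532) (.d (nat_lit 398) (nat_lit 366) (nat_lit 6509) (nat_lit 399) (nat_lit 1419)))) (.a (.f (nat_lit 398) (nat_lit 366) (nat_lit 6509) (.f (nat_lit 396) (nat_lit 364) (nat_lit 7532) (.f (nat_lit 395) (nat_lit 426) (nat_lit 1418) (.f (nat_lit 394) (nat_lit 430) (nat_lit 394) (.d (nat_lit 362) (nat_lit 361) (nat_lit 3433) (nat_lit 363) (nat_lit 3434)))))) (.f (nat_lit 398) (nat_lit 366) (nat_lit 6509) (.f (nat_lit 396) (nat_lit 364) (nat_lit 7532) (.f (nat_lit 428) (nat_lit 399) (nat_lit 1419) (.d (nat_lit 463) (nat_lit 430) (nat_lit 427) (nat_lit 464) (nat_lit 3500)))))))))) (.p (nat_lit 428) (.a (.f (nat_lit 398) (nat_lit 366) (nat_lit 6509) (.f (nat_lit 427) (nat_lit 426) (nat_lit 426) (.d (nat_lit 399) (nat_lit 400) (nat_lit 1420) (nat_lit 430) (nat_lit 2443)))) (.a (.f (nat_lit 398) (nat_lit 366) (nat_lit 6509) (.f (nat_lit 427) (nat_lit 426) (nat_lit 426) (.d (nat_lit 399) (nat_lit 396) (nat_lit 1419) (nat_lit 400) (nat_lit 1420)))) (.a (.f (nat_lit 427) (nat_lit 426) (nat_lit 426) (.d (nat_lit 463) (nat_lit 430) (nat_lit 427) (nat_lit 464) (nat_lit 3500))) (.f (nat_lit 366) (nat_lit 398) (nat_lit 6509) (.f (nat_lit 365) (nat_lit 334) (nat_lit 6477) (.f (nat_lit 333) (nat_lit 430) (nat_lit 4429) (.f (nat_lit 301) (nat_lit 396) (nat_lit 5420) (.d (nat_lit 300) (nat_lit 268) (nat_lit 7436) (nat_lit 332) (nat_lit 7468)))))))))))))))) (.f (nat_lit 463) (nat_lit 460) (nat_lit 460) (.f (nat_lit 464) (nat_lit 492) (nat_lit 1484) (.f (nat_lit 465) (nat_lit 430) (nat_lit 3501) (.d (nat_lit 560) (nat_lit 433) (nat_lit 6576) (nat_lit 592) (nat_lit 7631)))))))))) (.a s132650 (.a (.p (nat_lit 463) (.a (.f (nat_lit 460) (nat_lit 462) (nat_lit 460) (.f (nat_lit 431) (nat_lit 399) (nat_lit 4495) (.f (nat_lit 430) (nat_lit 432) (nat_lit 1452) (.d (nat_lit 459) (nat_lit 428) (nat_lit 1451) (nat_lit 458) (nat_lit 2474))))) (.a (.f (nat_lit 431) (nat_lit 399) (nat_lit 4495) (.d (nat_lit 560) (nat_lit 464) (nat_lit 7599) (nat_lit 592) (nat_lit 7631))) (.f (nat_lit 462) (nat_lit 460) (nat_lit 460) (.f (nat_lit 464) (nat_lit 428) (nat_lit 3500) (.f (nat_lit 465) (nat_lit 430) (nat_lit 3501) (.d (nat_lit 560) (nat_lit 433) (nat_lit 6576) (nat_lit 592) (nat_lit 7631)))))))) (.a (.p (nat_lit 430) (.a (.p (nat_lit 397) (.a (.f (nat_lit 398) (nat_lit 366) (nat_lit 6509) (.f (nat_lit 396) (nat_lit 364) (nat_lit 7532) (.d (nat_lit 395) (nat_lit 394) (nat_lit 394) (nat_lit 431) (nat_lit 395)))) (.a (.f (nat_lit 398) (nat_lit 366) (nat_lit 6509) (.f (nat_lit 492) (nat_lit 524) (nat_lit 5516) (.f (nat_lit 365) (nat_lit 460) (nat_lit 5484) (.d (nat_lit 333) (nat_lit 301) (nat_lit 4397) (nat_lit 462) (nat_lit 4429))))) (.f (nat_lit 396) (nat_lit 364) (nat_lit 7532) (.f (nat_lit 431) (nat_lit 432) (nat_lit 3468) (.d (nat_lit 395) (nat_lit 394) (nat_lit 394) (nat_lit 428) (nat_lit 3467))))))) (.a (.p (nat_lit 397) (.a (.f (nat_lit 396) (nat_lit 364) (nat_lit 7532) (.f (nat_lit 431) (nat_lit 432) (nat_lit 3468) (.d (nat_lit 395) (nat_lit 394) (nat_lit 394) (nat_lit 428) (nat_lit 3467)))) (.a (.f (nat_lit 492) (nat_lit 524) (nat_lit 5516) (.f (nat_lit 365) (nat_lit 460) (nat_lit 5484) (.d (nat_lit 364) (nat_lit 332) (nat_lit 7500) (nat_lit 396) (nat_lit 7532)))) (.f (nat_lit 492) (nat_lit 524) (nat_lit 5516) (.f (nat_lit 460) (nat_lit 365) (nat_lit 5484) (.f (nat_lit 431) (nat_lit 432) (nat_lit 1452) (.d (nat_lit 459) (nat_lit 428) (nat_lit 1451) (nat_lit 458) (nat_lit 2474)))))))) (.a s131845 (.a (.p (nat_lit 397) (.a (.f (nat_lit 398) (nat_lit 366) (nat_lit 6509) (.f (nat_lit 396) (nat_lit 364) (nat_lit 7532) (.d (nat_lit 395) (nat_lit 394) (nat_lit 394) (nat_lit 431) (nat_lit 395)))) (.a (.f (nat_lit 366) (nat_lit 398) (nat_lit 6509) (.f (nat_lit 365) (nat_lit 334) (nat_lit 6477) (.f (nat_lit 333) (nat_lit 462) (nat_lit 4429) (.d (nat_lit 332) (nat_lit 300) (nat_lit 7468) (nat_lit 364) (nat_lit 7500))))) (.a (.f (nat_lit 396) (nat_lit 364) (nat_lit 7532) (.f (nat_lit 431) (nat_lit 432) (nat_lit 3468) (.d (nat_lit 395) (nat_lit 394) (nat_lit 394) (nat_lit 428) (nat_lit 3467)))) (.f (nat_lit 366) (nat_lit 398) (nat_lit 6509) (.f (nat_lit 365) (nat_lit 334) (nat_lit 6477) (.f (nat_lit 333) (nat_lit 462) (nat_lit 4429) (.f (nat_lit 428) (nat_lit 460) (nat_lit 5452) (.f (nat_lit 301) (nat_lit 396) (nat_lit 5420) (.d (nat_lit 300) (nat_lit 268) (nat_lit 7436) (nat_lit 332) (nat_lit 7468))))))))))) (.a (.p (nat_lit 431) (.a (.p (nat_lit 432) (.a (.f (nat_lit 433) (nat_lit 462) (nat_lit 1453) (.d (nat_lit 401) (nat_lit 400) (nat_lit 2445) (nat_lit 402) (nat_lit 2446))) (.a (.f (nat_lit 397) (nat_lit 396) (nat_lit 3468) (.d (nat_lit 398) (nat_lit 366) (nat_lit 6509) (nat_lit 433) (nat_lit 3469))) (.f (nat_lit 397) (nat_lit 396) (nat_lit 3468) (.f (nat_lit 366) (nat_lit 398) (nat_lit 6509) (.f (nat_lit 365) (nat_lit 334) (nat_lit 6477) (.f (nat_lit 333) (nat_lit 462) (nat_lit 4429) (.d (nat_lit 332) (nat_lit 300) (nat_lit 7468) (nat_lit 364) (nat_lit 7500))))))))) (.a (.p (nat_lit 432) (.a (.f (nat_lit 397) (nat_lit 396) (nat_lit 3468) (.d (nat_lit 398) (nat_lit 366) (nat_lit 6509) (nat_lit 433) (nat_lit 3469))) (.a (.f (nat_lit 464) (nat_lit 465) (nat_lit 429) (.d (nat_lit 401) (nat_lit 400) (nat_lit 2445) (nat_lit 433) (nat_lit 6544))) (.f (nat_lit 464) (nat_lit 465) (nat_lit 429) (.d (nat_lit 463) (nat_lit 428) (nat_lit 428) (nat_lit 560) (nat_lit 7599)))))) (.a (.p (nat_lit 428) (.a (.f (nat_lit 396) (nat_lit 395) (nat_lit 3467) (.d (nat_lit 364) (nat_lit 332) (nat_lit 4428) (nat_lit 397) (nat_lit 7532))) (.a (.f (nat_lit 463) (nat_lit 464) (nat_lit 428) (.f (nat_lit 427) (nat_lit 462) (nat_lit 427) (.d (nat_lit 395) (nat_lit 394) (nat_lit 3466) (nat_lit 396) (nat_lit 3467)))) (.a (.f (nat_lit 463) (nat_lit 464) (nat_lit 428) (.f (nat_lit 427) (nat_lit 462) (nat_lit 427) (.f (nat_lit 394) (nat_lit 395) (nat_lit 3466) (.f (nat_lit 426) (nat_lit 393) (nat_lit 3465) (.d (nat_lit 458) (nat_lit 457) (nat_lit 1449) (nat_lit 459) (nat_lit 1450)))))) (.f (nat_lit 463) (nat_lit 464) (nat_lit 428) (.f (nat_lit 427) (nat_lit 462) (nat_lit 427) (.f (nat_lit 458) (nat_lit 459) (nat_lit 1450) (.f (nat_lit 426) (nat_lit 457) (nat_lit 1449) (.f (nat_lit 397) (nat_lit 398) (nat_lit 2442) (.d (nat_lit 396) (nat_lit 364) (nat_lit 7532) (nat_lit 425) (nat_lit 2441))))))))))) (.p (nat_lit 432) (.a (.f (nat_lit 433) (nat_lit 462) (nat_lit 1453) (.d (nat_lit 401) (nat_lit 400) (nat_lit 2445) (nat_lit 402) (nat_lit 2446))) (.a (.f (nat_lit 464) (nat_lit 465) (nat_lit 429) (.d (nat_lit 401) (nat_lit 400) (nat_lit 2445) (nat_lit 433) (nat_lit 6544))) (.f (nat_lit 464) (nat_lit 465) (nat_lit 429) (.d (nat_lit 463) (nat_lit 428) (nat_lit 428) (nat_lit 560) (nat_lit 7599)))))))))) (.p (nat_lit 463) (.a (.f (nat_lit 462) (nat_lit 460) (nat_lit 460) (.d (nat_lit 464) (nat_lit 428) (nat_lit 3500) (nat_lit 492) (nat_lit 1484))) (.a (.f (nat_lit 460) (nat_lit 462) (nat_lit 460) (.f (nat_lit 459) (nat_lit 458) (nat_lit 2474) (.d (nat_lit 431) (nat_lit 428) (nat_lit 1451) (nat_lit 432) (nat_lit 1452)))) (.a (.f (nat_lit 560) (nat_lit 592) (nat_lit 7631) (.f (nat_lit 431) (nat_lit 464) (nat_lit 7599) (.f (nat_lit 460) (nat_lit 432) (nat_lit 1452) (.d (nat_lit 459) (nat_lit 428) (nat_lit 1451) (nat_lit 458) (nat_lit 2474))))) (.f (nat_lit 560) (nat_lit 592) (nat_lit 7631) (.f (nat_lit 464) (nat_lit 431) (nat_lit 7599) (.d (nat_lit 465) (nat_lit 433) (nat_lit 6576) (nat_lit 462) (nat_lit 3501)))))))))))))) (.a s131941 s131858)))))))))) (.a (.p (nat_lit 429) (.a s131525 (.a s131671 (.a s132000 (.a s131602 (.a s131899 (.a s132650 (.a (.p (nat_lit 557) (.a (.p (nat_lit 463) (.a (.f (nat_lit 462) (nat_lit 460) (nat_lit 460) (.d (nat_lit 464) (nat_lit 428) (nat_lit 3500) (nat_lit 492) (nat_lit 1484))) (.a (.f (nat_lit 460) (nat_lit 462) (nat_lit 460) (.f (nat_lit 525) (nat_lit 428) (nat_lit 7596) (.d (nat_lit 558) (nat_lit 526) (nat_lit 4525) (nat_lit 590) (nat_lit 4557)))) (.f (nat_lit 560) (nat_lit 592) (nat_lit 7631) (.d (nat_lit 431) (nat_lit 399) (nat_lit 4495) (nat_lit 464) (nat_lit 7599)))))) (.a (.p (nat_lit 525) (.a (.d (nat_lit 558) (nat_lit 526) (nat_lit 4525) (nat_lit 590) (nat_lit 4557)) (.d (nat_lit 556) (nat_lit 524) (nat_lit 5548) (nat_lit 588) (nat_lit 5580)))) (.a (.p (nat_lit 463) (.a (.f (nat_lit 462) (nat_lit 460) (nat_lit 460) (.d (nat_lit 464) (nat_lit 428) (nat_lit 3500) (nat_lit 492) (nat_lit 1484))) (.a (.f (nat_lit 460) (nat_lit 462) (nat_lit 460) (.f (nat_lit 525) (nat_lit 428) (nat_lit 7596) (.d (nat_lit 556) (nat_lit 524) (nat_lit 5548) (nat_lit 588) (nat_lit 5580)))) (.f (nat_lit 560) (nat_lit 592) (nat_lit 7631) (.d (nat_lit 431) (nat_lit 399) (nat_lit 4495) (nat_lit 464) (nat_lit 7599)))))) (.p (nat_lit 560) (.a (.f (nat_lit 463) (nat_lit 592) (nat_lit 7631) (.d (nat_lit 431) (nat_lit 399) (nat_lit 4495) (nat_lit 464) (nat_lit 7599))) (.a (.p (nat_lit 591) (.a (.f (nat_lit 559) (nat_lit 464) (nat_lit 5583) (.d (nat_lit 623) (nat_lit 592) (nat_lit 5615) (nat_lit 655) (nat_lit 6671))) (.a (.f (nat_lit 592) (nat_lit 623) (nat_lit 5615) (.f (nat_lit 593) (nat_lit 625) (nat_lit 4592) (.d (nat_lit 558) (nat_lit 559) (nat_lit 557) (nat_lit 590) (nat_lit 3629)))) (.a (.f (nat_lit 559) (nat_lit 464) (nat_lit 5583) (.f (nat_lit 558) (nat_lit 529) (nat_lit 2573) (.f (nat_lit 588) (nat_lit 589) (nat_lit 1580) (.f (nat_lit 556) (nat_lit 587) (nat_lit 1579) (.d (nat_lit 524) (nat_lit 492) (nat_lit 6604) (nat_lit 523) (nat_lit 3595)))))) (.f (nat_lit 592) (nat_lit 623) (nat_lit 5615) (.f (nat_lit 593) (nat_lit 625) (nat_lit 4592) (.f (nat_lit 590) (nat_lit 558) (nat_lit 3629) (.f (nat_lit 589) (nat_lit 556) (nat_lit 3628) (.d (nat_lit 621) (nat_lit 620) (nat_lit 1612) (nat_lit 622) (nat_lit 1613)))))))))) (.a (.f (nat_lit 592) (nat_lit 463) (nat_lit 7631) (.f (nat_lit 593) (nat_lit 625) (nat_lit 4592) (.f (nat_lit 591) (nat_lit 623) (nat_lit 5615) (.d (nat_lit 558) (nat_lit 559) (nat_lit 557) (nat_lit 590) (nat_lit 3629))))) (.p (nat_lit 464) (.a (.f (nat_lit 559) (nat_lit 591) (nat_lit 5583) (.f (nat_lit 558) (nat_lit 529) (nat_lit 2573) (.f (nat_lit 588) (nat_lit 589) (nat_lit 1580) (.f (nat_lit 556) (nat_lit 587) (nat_lit 1579) (.d (nat_lit 524) (nat_lit 492) (nat_lit 6604) (nat_lit 523) (nat_lit 3595)))))) (.f (nat_lit 463) (nat_lit 431) (nat_lit 7599) (.d (nat_lit 462) (nat_lit 428) (nat_lit 3500) (nat_lit 460) (nat_lit 460))))))))))))) (.a s132032 s131810))))))))) (.a (.p (nat_lit 429) (.a s131501 (.a s131671 (.a s131875 (.a s131573 (.a s131899 (.a (.p (nat_lit 431) (.a (.f (nat_lit 463) (nat_lit 399) (nat_lit 4495) (.d (nat_lit 560) (nat_lit 464) (nat_lit 7599) (nat_lit 592) (nat_lit 7631))) (.p (nat_lit 397) (.a (.f (nat_lit 396) (nat_lit 364) (nat_lit 7532) (.f (nat_lit 430) (nat_lit 432) (nat_lit 3468) (.d (nat_lit 395) (nat_lit 394) (nat_lit 394) (nat_lit 428) (nat_lit 3467)))) (.f (nat_lit 492) (nat_lit 524) (nat_lit 5516) (.f (nat_lit 365) (nat_lit 460) (nat_lit 5484) (.d (nat_lit 366) (nat_lit 334) (nat_lit 6477) (nat_lit 398) (nat_lit 6509)))))))) (.a (.p (nat_lit 430) (.a (.f (nat_lit 525) (nat_lit 398) (nat_lit 6541) (.f (nat_lit 428) (nat_lit 396) (nat_lit 7564) (.f (nat_lit 460) (nat_lit 557) (nat_lit 7596) (.d (nat_lit 459) (nat_lit 431) (nat_lit 1451) (nat_lit 458) (nat_lit 2474))))) (.a (.f (nat_lit 525) (nat_lit 398) (nat_lit 6541) (.f (nat_lit 428) (nat_lit 396) (nat_lit 7564) (.f (nat_lit 557) (nat_lit 460) (nat_lit 7596) (.d (nat_lit 556) (nat_lit 524) (nat_lit 5548) (nat_lit 588) (nat_lit 5580))))) (.a (.p (nat_lit 431) (.a (.f (nat_lit 432) (nat_lit 460) (nat_lit 1452) (.d (nat_lit 399) (nat_lit 463) (nat_lit 4495) (nat_lit 464) (nat_lit 7567))) (.a (.f (nat_lit 432) (nat_lit 460) (nat_lit 1452) (.d (nat_lit 464) (nat_lit 399) (nat_lit 7567) (nat_lit 465) (nat_lit 429))) (.a (.f (nat_lit 399) (nat_lit 463) (nat_lit 4495) (.f (nat_lit 428) (nat_lit 400) (nat_lit 2444) (.d (nat_lit 396) (nat_lit 395) (nat_lit 3467) (nat_lit 525) (nat_lit 7564)))) (.f (nat_lit 432) (nat_lit 460) (nat_lit 1452) (.f (nat_lit 464) (nat_lit 465) (nat_lit 429) (.d (nat_lit 401) (nat_lit 400) (nat_lit 2445) (nat_lit 433) (nat_lit 6544)))))))) (.a s132120 (.f (nat_lit 525) (nat_lit 398) (nat_lit 6541) (.f (nat_lit 524) (nat_lit 556) (nat_lit 5548) (.f (nat_lit 558) (nat_lit 526) (nat_lit 4525) (.f (nat_lit 557) (nat_lit 590) (nat_lit 4557) (.f (nat_lit 560) (nat_lit 559) (nat_lit 3596) (.f (nat_lit 592) (nat_lit 463) (nat_lit 7631) (.f (nat_lit 623) (nat_lit 591) (nat_lit 5615) (.f (nat_lit 624) (nat_lit 655) (nat_lit 5647) (.d (nat_lit 625) (nat_lit 593) (nat_lit 4592) (nat_lit 657) (nat_lit 4624))))))))))))))) (.a s132017 s131789))))))))) (.a (.p (nat_lit 462) (.a (.f (nat_lit 463) (nat_lit 460) (nat_lit 460) (.f (nat_lit 464) (nat_lit 492) (nat_lit 1484) (.d (nat_lit 560) (nat_lit 431) (nat_lit 7599) (nat_lit 592) (nat_lit 7631)))) (.a (.p (nat_lit 525) (.a (.f (nat_lit 557) (nat_lit 430) (nat_lit 6573) (.f (nat_lit 558) (nat_lit 590) (nat_lit 4557) (.f (nat_lit 556) (nat_lit 588) (nat_lit 5580) (.d (nat_lit 429) (nat_lit 524) (nat_lit 5548) (nat_lit 526) (nat_lit 4525))))) (.a s132771 (.a (.f (nat_lit 557) (nat_lit 430) (nat_lit 6573) (.f (nat_lit 588) (nat_lit 556) (nat_lit 5580) (.f (nat_lit 589) (nat_lit 620) (nat_lit 5612) (.d (nat_lit 590) (nat_lit 558) (nat_lit 4557) (nat_lit 622) (nat_lit 4589))))) (.a (.f (nat_lit 557) (nat_lit 430) (nat_lit 6573) (.f (nat_lit 460) (nat_lit 428) (nat_lit 7596) (.f (nat_lit 492) (nat_lit 589) (nat_lit 7628) (.f (nat_lit 556) (nat_lit 588) (nat_lit 5580) (.f (nat_lit 524) (nat_lit 429) (nat_lit 5548) (.f (nat_lit 555) (nat_lit 587) (nat_lit 5579) (.d (nat_lit 554) (nat_lit 526) (nat_lit 2570) (nat_lit 553) (nat_lit 2569)))))))) (.a (.p (nat_lit 429) (.a (.f (nat_lit 524) (nat_lit 556) (nat_lit 5548) (.f (nat_lit 397) (nat_lit 492) (nat_lit 5516) (.d (nat_lit 396) (nat_lit 364) (nat_lit 7532) (nat_lit 428) (nat_lit 7564)))) (.a (.f (nat_lit 398) (nat_lit 430) (nat_lit 6541) (.f (nat_lit 397) (nat_lit 366) (nat_lit 6509) (.d (nat_lit 396) (nat_lit 364) (nat_lit 7532) (nat_lit 428) (nat_lit 7564)))) (.a (.f (nat_lit 430) (nat_lit 398) (nat_lit 6541) (.f (nat_lit 428) (nat_lit 396) (nat_lit 7564) (.f (nat_lit 427) (nat_lit 426) (nat_lit 426) (.f (nat_lit 459) (nat_lit 458) (nat_lit 1450) (.f (nat_lit 460) (nat_lit 431) (nat_lit 2475) (.f (nat_lit 395) (nat_lit 394) (nat_lit 3466) (.d (nat_lit 524) (nat_lit 492) (nat_lit 7563) (nat_lit 556) (nat_lit 5548)))))))) (.a (.f (nat_lit 524) (nat_lit 556) (nat_lit 5548) (.f (nat_lit 397) (nat_lit 492) (nat_lit 5516) (.f (nat_lit 364) (nat_lit 396) (nat_lit 7532) (.f (nat_lit 365) (nat_lit 332) (nat_lit 7500) (.d (nat_lit 366) (nat_lit 334) (nat_lit 6477) (nat_lit 398) (nat_lit 6509)))))) (.f (nat_lit 398) (nat_lit 430) (nat_lit 6541) (.f (nat_lit 397) (nat_lit 366) (nat_lit 6509) (.d (nat_lit 524) (nat_lit 492) (nat_lit 5516) (nat_lit 556) (nat_lit 5548))))))))) (.f (nat_lit 557) (nat_lit 430) (nat_lit 6573) (.f (nat_lit 558) (nat_lit 590) (nat_lit 4557) (.f (nat_lit 460) (nat_lit 428) (nat_lit 7596) (.f (nat_lit 589) (nat_lit 492) (nat_lit 7628) (.f (nat_lit 526) (nat_lit 429) (nat_lit 4525) (.f (nat_lit 621) (nat_lit 653) (nat_lit 6669) (.d (nat_lit 620) (nat_lit 588) (nat_lit 5612) (nat_lit 652) (nat_lit 5644)))))))))))))) (.a (.f (nat_lit 463) (nat_lit 460) (nat_lit 460) (.f (nat_lit 464) (nat_lit 492) (nat_lit 1484) (.f (nat_lit 433) (nat_lit 432) (nat_lit 2477) (.d (nat_lit 560) (nat_lit 465) (nat_lit 6576) (nat_lit 592) (nat_lit 7631))))) (.a (.f (nat_lit 463) (nat_lit 460) (nat_lit 460) (.f (nat_lit 560) (nat_lit 592) (nat_lit 7631) (.f (nat_lit 464) (nat_lit 431) (nat_lit 7599) (.d (nat_lit 433) (nat_lit 432) (nat_lit 2477) (nat_lit 465) (nat_lit 6576))))) s132833))))) (.a (.p (nat_lit 462) (.a (.f (nat_lit 463) (nat_lit 460) (nat_lit 460) (.f (nat_lit 464) (nat_lit 492) (nat_lit 1484) (.f (nat_lit 433) (nat_lit 432) (nat_lit 2477) (.d (nat_lit 560) (nat_lit 465) (nat_lit 6576) (nat_lit 592) (nat_lit 7631))))) (.a (.p (nat_lit 525) (.a (.f (nat_lit 557) (nat_lit 430) (nat_lit 6573) (.f (nat_lit 558) (nat_lit 590) (nat_lit 4557) (.f (nat_lit 556) (nat_lit 588) (nat_lit 5580) (.d (nat_lit 429) (nat_lit 524) (nat_lit 5548) (nat_lit 526) (nat_lit 4525))))) (.a s132771 (.a (.f (nat_lit 557) (nat_lit 430) (nat_lit 6573) (.f (nat_lit 588) (nat_lit 556) (nat_lit 5580) (.f (nat_lit 589) (nat_lit 620) (nat_lit 5612) (.d (nat_lit 590) (nat_lit 558) (nat_lit 4557) (nat_lit 622) (nat_lit 4589))))) (.a (.f (nat_lit 557) (nat_lit 430) (nat_lit 6573) (.f (nat_lit 460) (nat_lit 428) (nat_lit 7596) (.f (nat_lit 492) (nat_lit 589) (nat_lit 7628) (.f (nat_lit 556) (nat_lit 588) (nat_lit 5580) (.f (nat_lit 524) (nat_lit 429) (nat_lit 5548) (.f (nat_lit 555) (nat_lit 587) (nat_lit 5579) (.d (nat_lit 554) (nat_lit 526) (nat_lit 2570) (nat_lit 553) (nat_lit 2569)))))))) (.a (.p (nat_lit 429) (.a (.f (nat_lit 524) (nat_lit 556) (nat_lit 5548) (.f (nat_lit 397) (nat_lit 492) (nat_lit 5516) (.d (nat_lit 396) (nat_lit 364) (nat_lit 7532) (nat_lit 428) (nat_lit 7564)))) (.a (.f (nat_lit 398) (nat_lit 430) (nat_lit 6541) (.f (nat_lit 397) (nat_lit 366) (nat_lit 6509) (.d (nat_lit 396) (nat_lit 364) (nat_lit 7532) (nat_lit 428) (nat_lit 7564)))) (.a (.f (nat_lit 428) (nat_lit 396) (nat_lit 7564) (.f (nat_lit 430) (nat_lit 398) (nat_lit 6541) (.f (nat_lit 427) (nat_lit 426) (nat_lit 426) (.f (nat_lit 459) (nat_lit 458) (nat_lit 1450) (.f (nat_lit 395) (nat_lit 394) (nat_lit 3466) (.f (nat_lit 524) (nat_lit 556) (nat_lit 5548) (.d (nat_lit 492) (nat_lit 460) (nat_lit 7563) (nat_lit 491) (nat_lit 4491)))))))) (.a (.f (nat_lit 524) (nat_lit 556) (nat_lit 5548) (.f (nat_lit 397) (nat_lit 492) (nat_lit 5516) (.f (nat_lit 364) (nat_lit 396) (nat_lit 7532) (.f (nat_lit 365) (nat_lit 332) (nat_lit 7500) (.d (nat_lit 366) (nat_lit 334) (nat_lit 6477) (nat_lit 398) (nat_lit 6509)))))) (.f (nat_lit 398) (nat_lit 430) (nat_lit 6541) (.f (nat_lit 397) (nat_lit 366) (nat_lit 6509) (.d (nat_lit 524) (nat_lit 492) (nat_lit 5516) (nat_lit 556) (nat_lit 5548))))))))) (.f (nat_lit 557) (nat_lit 430) (nat_lit 6573) (.f (nat_lit 558) (nat_lit 590) (nat_lit 4557) (.f (nat_lit 460) (nat_lit 428) (nat_lit 7596) (.f (nat_lit 589) (nat_lit 492) (nat_lit 7628) (.f (nat_lit 526) (nat_lit 429) (nat_lit 4525) (.f (nat_lit 621) (nat_lit 653) (nat_lit 6669) (.d (nat_lit 620) (nat_lit 588) (nat_lit 5612) (nat_lit 652) (nat_lit 5644)))))))))))))) (.a (.p (nat_lit 429) (.a (.f (nat_lit 463) (nat_lit 460) (nat_lit 460) (.f (nat_lit 464) (nat_lit 428) (nat_lit 3500) (.f (nat_lit 465) (nat_lit 430) (nat_lit 3501) (.d (nat_lit 560) (nat_lit 433) (nat_lit 6576) (nat_lit 592) (nat_lit 7631))))) (.a (.p (nat_lit 398) (.a (.d (nat_lit 366) (nat_lit 397) (nat_lit 6509) (nat_lit 430) (nat_lit 5485)) (.a (.f (nat_lit 397) (nat_lit 366) (nat_lit 6509) (.f (nat_lit 396) (nat_lit 364) (nat_lit 7532) (.f (nat_lit 525) (nat_lit 428) (nat_lit 7564) (.f (nat_lit 556) (nat_lit 524) (nat_lit 5548) (.f (nat_lit 557) (nat_lit 588) (nat_lit 5580) (.d (nat_lit 558) (nat_lit 526) (nat_lit 4525) (nat_lit 590) (nat_lit 4557))))))) (.a (.d (nat_lit 430) (nat_lit 366) (nat_lit 5485) (nat_lit 525) (nat_lit 6541)) (.f (nat_lit 525) (nat_lit 430) (nat_lit 6541) (.f (nat_lit 428) (nat_lit 396) (nat_lit 7564) (.f (nat_lit 557) (nat_lit 460) (nat_lit 7596) (.d (nat_lit 556) (nat_lit 524) (nat_lit 5548) (nat_lit 588) (nat_lit 5580))))))))) (.a (.f (nat_lit 463) (nat_lit 460) (nat_lit 460) (.f (nat_lit 464) (nat_lit 428) (nat_lit 3500) (.f (nat_lit 433) (nat_lit 432) (nat_lit 2477) (.d (nat_lit 560) (nat_lit 465) (nat_lit 6576) (nat_lit 592) (nat_lit 7631))))) (.a (.p (nat_lit 398) (.a (.d (nat_lit 366) (nat_lit 397) (nat_lit 6509) (nat_lit 430) (nat_lit 5485)) (.a (.f (nat_lit 397) (nat_lit 366) (nat_lit 6509) (.f (nat_lit 396) (nat_lit 364) (nat_lit 7532) (.f (nat_lit 525) (nat_lit 428) (nat_lit 7564) (.f (nat_lit 556) (nat_lit 524) (nat_lit 5548) (.f (nat_lit 557) (nat_lit 588) (nat_lit 5580) (.d (nat_lit 558) (nat_lit 526) (nat_lit 4525) (nat_lit 590) (nat_lit 4557))))))) (.a (.d (nat_lit 430) (nat_lit 366) (nat_lit 5485) (nat_lit 525) (nat_lit 6541)) (.f (nat_lit 525) (nat_lit 430) (nat_lit 6541) (.f (nat_lit 556) (nat_lit 524) (nat_lit 5548) (.f (nat_lit 557) (nat_lit 588) (nat_lit 5580) (.d (nat_lit 558) (nat_lit 526) (nat_lit 4525) (nat_lit 590) (nat_lit 4557))))))))) (.p (nat_lit 397) (.a (.f (nat_lit 366) (nat_lit 398) (nat_lit 6509) (.f (nat_lit 365) (nat_lit 334) (nat_lit 6477) (.d (nat_lit 364) (nat_lit 332) (nat_lit 7500) (nat_lit 396) (nat_lit 7532)))) (.a (.f (nat_lit 364) (nat_lit 396) (nat_lit 7532) (.f (nat_lit 365) (nat_lit 332) (nat_lit 7500) (.f (nat_lit 334) (nat_lit 366) (nat_lit 6477) (.d (nat_lit 333) (nat_lit 302) (nat_lit 6445) (nat_lit 430) (nat_lit 4429))))) (.a (.f (nat_lit 366) (nat_lit 398) (nat_lit 6509) (.f (nat_lit 365) (nat_lit 334) (nat_lit 6477) (.f (nat_lit 333) (nat_lit 430) (nat_lit 4429) (.d (nat_lit 332) (nat_lit 300) (nat_lit 7468) (nat_lit 364) (nat_lit 7500))))) (.a (.f (nat_lit 364) (nat_lit 396) (nat_lit 7532) (.f (nat_lit 365) (nat_lit 332) (nat_lit 7500) (.f (nat_lit 430) (nat_lit 333) (nat_lit 4429) (.d (nat_lit 525) (nat_lit 398) (nat_lit 6541) (nat_lit 557) (nat_lit 6573))))) (.f (nat_lit 398) (nat_lit 366) (nat_lit 6509) (.f (nat_lit 525) (nat_lit 430) (nat_lit 6541) (.f (nat_lit 558) (nat_lit 526) (nat_lit 4525) (.f (nat_lit 557) (nat_lit 590) (nat_lit 4557) (.d (nat_lit 556) (nat_lit 524) (nat_lit 5548) (nat_lit 588) (nat_lit 5580)))))))))))))))) s132833)))) (.a (.p (nat_lit 429) (.a s131501 (.a s131671 (.a (.p (nat_lit 398) (.a (.f (nat_lit 397) (nat_lit 366) (nat_lit 6509) (.f (nat_lit 396) (nat_lit 364) (nat_lit 7532) (.f (nat_lit 428) (nat_lit 525) (nat_lit 7564) (.d (nat_lit 427) (nat_lit 399) (nat_lit 1419) (nat_lit 426) (nat_lit 2442))))) (.a (.f (nat_lit 525) (nat_lit 430) (nat_lit 6541) (.f (nat_lit 428) (nat_lit 396) (nat_lit 7564) (.f (nat_lit 557) (nat_lit 460) (nat_lit 7596) (.d (nat_lit 556) (nat_lit 524) (nat_lit 5548) (nat_lit 588) (nat_lit 5580))))) (.f (nat_lit 366) (nat_lit 397) (nat_lit 6509) (.d (nat_lit 430) (nat_lit 334) (nat_lit 5453) (nat_lit 462) (nat_lit 5485)))))) (.a s131529 (.a s132883 (.a s132524 (.a s131565 (.a (.p (nat_lit 430) (.a (.f (nat_lit 525) (nat_lit 398) (nat_lit 6541) (.f (nat_lit 428) (nat_lit 396) (nat_lit 7564) (.d (nat_lit 557) (nat_lit 460) (nat_lit 7596) (nat_lit 462) (nat_lit 6573)))) (.a (.f (nat_lit 525) (nat_lit 398) (nat_lit 6541) (.f (nat_lit 428) (nat_lit 396) (nat_lit 7564) (.f (nat_lit 460) (nat_lit 557) (nat_lit 7596) (.d (nat_lit 459) (nat_lit 431) (nat_lit 1451) (nat_lit 458) (nat_lit 2474))))) (.a s132097 (.a s132104 (.f (nat_lit 525) (nat_lit 398) (nat_lit 6541) (.f (nat_lit 557) (nat_lit 462) (nat_lit 6573) (.d (nat_lit 558) (nat_lit 526) (nat_lit 4525) (nat_lit 590) (nat_lit 4557))))))))) (.a s131566 (.a s131768 s131689))))))))))) (.a (.p (nat_lit 429) (.a s131496 (.a s131501 (.a s131525 (.a (.p (nat_lit 398) (.a (.f (nat_lit 397) (nat_lit 366) (nat_lit 6509) (.f (nat_lit 396) (nat_lit 364) (nat_lit 7532) (.f (nat_lit 428) (nat_lit 525) (nat_lit 7564) (.d (nat_lit 427) (nat_lit 399) (nat_lit 1419) (nat_lit 426) (nat_lit 2442))))) (.a (.f (nat_lit 525) (nat_lit 430) (nat_lit 6541) (.f (nat_lit 428) (nat_lit 396) (nat_lit 7564) (.f (nat_lit 557) (nat_lit 460) (nat_lit 7596) (.d (nat_lit 556) (nat_lit 524) (nat_lit 5548) (nat_lit 588) (nat_lit 5580))))) (.f (nat_lit 366) (nat_lit 397) (nat_lit 6509) (.d (nat_lit 430) (nat_lit 334) (nat_lit 5453) (nat_lit 462) (nat_lit 5485)))))) (.a s131529 (.a s131823 (.a (.p (nat_lit 431) (.a (.f (nat_lit 463) (nat_lit 399) (nat_lit 4495) (.d (nat_lit 560) (nat_lit 464) (nat_lit 7599) (nat_lit 592) (nat_lit 7631))) (.a s132446 (.p (nat_lit 397) (.a (.f (nat_lit 492) (nat_lit 524) (nat_lit 5516) (.f (nat_lit 365) (nat_lit 460) (nat_lit 5484) (.d (nat_lit 366) (nat_lit 334) (nat_lit 6477) (nat_lit 398) (nat_lit 6509)))) (.a (.f (nat_lit 364) (nat_lit 396) (nat_lit 7532) (.f (nat_lit 365) (nat_lit 332) (nat_lit 7500) (.d (nat_lit 366) (nat_lit 334) (nat_lit 6477) (nat_lit 398) (nat_lit 6509)))) (.a (.f (nat_lit 492) (nat_lit 524) (nat_lit 5516) (.f (nat_lit 365) (nat_lit 460) (nat_lit 5484) (.d (nat_lit 364) (nat_lit 332) (nat_lit 7500) (nat_lit 396) (nat_lit 7532)))) (.f (nat_lit 396) (nat_lit 364) (nat_lit 7532) (.f (nat_lit 398) (nat_lit 366) (nat_lit 6509) (.f (nat_lit 395) (nat_lit 430) (nat_lit 395) (.f (nat_lit 426) (nat_lit 427) (nat_lit 1418) (.f (nat_lit 394) (nat_lit 425) (nat_lit 1417) (.d (nat_lit 362) (nat_lit 361) (nat_lit 3433) (nat_lit 363) (nat_lit 3434)))))))))))))) (.a s131565 (.a (.p (nat_lit 430) (.a (.f (nat_lit 525) (nat_lit 398) (nat_lit 6541) (.f (nat_lit 428) (nat_lit 396) (nat_lit 7564) (.d (nat_lit 557) (nat_lit 460) (nat_lit 7596) (nat_lit 462) (nat_lit 6573)))) (.a (.f (nat_lit 525) (nat_lit 398) (nat_lit 6541) (.f (nat_lit 428) (nat_lit 396) (nat_lit 7564) (.f (nat_lit 460) (nat_lit 557) (nat_lit 7596) (.d (nat_lit 459) (nat_lit 431) (nat_lit 1451) (nat_lit 458) (nat_lit 2474))))) (.a (.p (nat_lit 462) (.a (.f (nat_lit 463) (nat_lit 460) (nat_lit 460) (.d (nat_lit 464) (nat_lit 428) (nat_lit 3500) (nat_lit 492) (nat_lit 1484))) (.a (.f (nat_lit 525) (nat_lit 557) (nat_lit 6573) (.f (nat_lit 428) (nat_lit 396) (nat_lit 7564) (.f (nat_lit 427) (nat_lit 426) (nat_lit 426) (.f (nat_lit 459) (nat_lit 458) (nat_lit 1450) (.f (nat_lit 460) (nat_lit 431) (nat_lit 2475) (.f (nat_lit 395) (nat_lit 394) (nat_lit 3466) (.d (nat_lit 524) (nat_lit 492) (nat_lit 7563) (nat_lit 556) (nat_lit 5548)))))))) (.a (.f (nat_lit 463) (nat_lit 460) (nat_lit 460) (.d (nat_lit 428) (nat_lit 427) (nat_lit 427) (nat_lit 464) (nat_lit 3500))) (.a (.f (nat_lit 525) (nat_lit 557) (nat_lit 6573) (.f (nat_lit 428) (nat_lit 396) (nat_lit 7564) (.d (nat_lit 427) (nat_lit 426) (nat_lit 426) (nat_lit 463) (nat_lit 427)))) (.f (nat_lit 463) (nat_lit 460) (nat_lit 460) (.d (nat_lit 464) (nat_lit 465) (nat_lit 3501) (nat_lit 492) (nat_lit 1484)))))))) (.a (.p (nat_lit 463) (.a (.f (nat_lit 462) (nat_lit 460) (nat_lit 460) (.d (nat_lit 464) (nat_lit 428) (nat_lit 3500) (nat_lit 492) (nat_lit 1484))) (.a (.f (nat_lit 460) (nat_lit 462) (nat_lit 460) (.f (nat_lit 431) (nat_lit 399) (nat_lit 4495) (.d (nat_lit 459) (nat_lit 428) (nat_lit 1451) (nat_lit 458) (nat_lit 2474)))) (.f (nat_lit 431) (nat_lit 399) (nat_lit 4495) (.d (nat_lit 560) (nat_lit 464) (nat_lit 7599) (nat_lit 592) (nat_lit 7631)))))) (.a (.f (nat_lit 525) (nat_lit 398) (nat_lit 6541) (.f (nat_lit 462) (nat_lit 557) (nat_lit 6573) (.f (nat_lit 428) (nat_lit 396) (nat_lit 7564) (.d (nat_lit 427) (nat_lit 426) (nat_lit 426) (nat_lit 463) (nat_lit 427))))) (.f (nat_lit 525) (nat_lit 398) (nat_lit 6541) (.f (nat_lit 557) (nat_lit 462) (nat_lit 6573) (.d (nat_lit 558) (nat_lit 526) (nat_lit 4525) (nat_lit 590) (nat_lit 4557)))))))))) (.a s131989 s131747))))))))))) (.a (.p (nat_lit 429) (.a s131496 (.a s131501 (.a s131525 (.a (.p (nat_lit 398) (.a (.f (nat_lit 397) (nat_lit 366) (nat_lit 6509) (.f (nat_lit 396) (nat_lit 364) (nat_lit 7532) (.f (nat_lit 428) (nat_lit 525) (nat_lit 7564) (.d (nat_lit 427) (nat_lit 399) (nat_lit 1419) (nat_lit 426) (nat_lit 2442))))) (.a (.f (nat_lit 525) (nat_lit 430) (nat_lit 6541) (.f (nat_lit 428) (nat_lit 396) (nat_lit 7564) (.f (nat_lit 557) (nat_lit 460) (nat_lit 7596) (.d (nat_lit 556) (nat_lit 524) (nat_lit 5548) (nat_lit 588) (nat_lit 5580))))) (.f (nat_lit 366) (nat_lit 397) (nat_lit 6509) (.d (nat_lit 430) (nat_lit 334) (nat_lit 5453) (nat_lit 462) (nat_lit 5485)))))) (.a s131529 (.a (.p (nat_lit 397) (.a (.f (nat_lit 492) (nat_lit 524) (nat_lit 5516) (.f (nat_lit 460) (nat_lit 365) (nat_lit 5484) (.f (nat_lit 396) (nat_lit 364) (nat_lit 7532) (.f (nat_lit 428) (nat_lit 525) (nat_lit 4492) (.f (nat_lit 395) (nat_lit 363) (nat_lit 7531) (.f (nat_lit 394) (nat_lit 393) (nat_lit 393) (.f (nat_lit 426) (nat_lit 425) (nat_lit 1417) (.f (nat_lit 491) (nat_lit 523) (nat_lit 5515) (.f (nat_lit 362) (nat_lit 361) (nat_lit 3433) (.d (nat_lit 459) (nat_lit 427) (nat_lit 7530) (nat_lit 458) (nat_lit 4458))))))))))) (.a (.f (nat_lit 396) (nat_lit 364) (nat_lit 7532) (.f (nat_lit 525) (nat_lit 428) (nat_lit 7564) (.f (nat_lit 556) (nat_lit 524) (nat_lit 5548) (.f (nat_lit 557) (nat_lit 588) (nat_lit 5580) (.d (nat_lit 558) (nat_lit 526) (nat_lit 4525) (nat_lit 590) (nat_lit 4557)))))) (.a (.f (nat_lit 492) (nat_lit 524) (nat_lit 5516) (.f (nat_lit 365) (nat_lit 460) (nat_lit 5484) (.d (nat_lit 364) (nat_lit 332) (nat_lit 7500) (nat_lit 396) (nat_lit 7532)))) (.a (.f (nat_lit 396) (nat_lit 364) (nat_lit 7532) (.f (nat_lit 525) (nat_lit 428) (nat_lit 7564) (.f (nat_lit 558) (nat_lit 526) (nat_lit 4525) (.f (nat_lit 557) (nat_lit 590) (nat_lit 4557) (.f (nat_lit 588) (nat_lit 556) (nat_lit 5580) (.f (nat_lit 589) (nat_lit 620) (nat_lit 5612) (.f (nat_lit 560) (nat_lit 559) (nat_lit 1580) (.f (nat_lit 592) (nat_lit 463) (nat_lit 7631) (.f (nat_lit 623) (nat_lit 591) (nat_lit 5615) (.f (nat_lit 624) (nat_lit 655) (nat_lit 5647) (.d (nat_lit 625) (nat_lit 593) (nat_lit 4592) (nat_lit 657) (nat_lit 4624)))))))))))) (.a (.f (nat_lit 492) (nat_lit 524) (nat_lit 5516) (.f (nat_lit 365) (nat_lit 460) (nat_lit 5484) (.f (nat_lit 334) (nat_lit 366) (nat_lit 6477) (.f (nat_lit 333) (nat_lit 302) (nat_lit 6445) (.d (nat_lit 332) (nat_lit 300) (nat_lit 7468) (nat_lit 364) (nat_lit 7500)))))) (.f (nat_lit 524) (nat_lit 492) (nat_lit 5516) (.f (nat_lit 525) (nat_lit 556) (nat_lit 5548) (.f (nat_lit 558) (nat_lit 526) (nat_lit 4525) (.f (nat_lit 557) (nat_lit 590) (nat_lit 4557) (.d (nat_lit 428) (nat_lit 396) (nat_lit 7564) (nat_lit 460) (nat_lit 7596)))))))))))) (.a s132533 (.a s131565 (.a s132926 (.a s131566 s131768))))))))))) (.p (nat_lit 429) (.a s131496 (.a s131501 (.a s131525 (.a (.p (nat_lit 398) (.a (.f (nat_lit 397) (nat_lit 366) (nat_lit 6509) (.f (nat_lit 396) (nat_lit 364) (nat_lit 7532) (.f (nat_lit 428) (nat_lit 525) (nat_lit 7564) (.d (nat_lit 427) (nat_lit 399) (nat_lit 1419) (nat_lit 426) (nat_lit 2442))))) (.a (.f (nat_lit 525) (nat_lit 430) (nat_lit 6541) (.f (nat_lit 428) (nat_lit 396) (nat_lit 7564) (.f (nat_lit 557) (nat_lit 460) (nat_lit 7596) (.d (nat_lit 556) (nat_lit 524) (nat_lit 5548) (nat_lit 588) (nat_lit 5580))))) (.f (nat_lit 366) (nat_lit 397) (nat_lit 6509) (.d (nat_lit 430) (nat_lit 334) (nat_lit 5453) (nat_lit 462) (nat_lit 5485)))))) (.a s131529 (.a s132883 (.a s132533 (.a s131565 (.a s132926 (.a s131566 s131600)))))))))))))))))))))))))))))))))))))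
noncomputable def s132947 : Cert := .r (nat_lit 878694100803598413007946602596154865888075138938653284219028646789808093233912518084625873524972754192647442591005176465710371121077848209186231220012276776960) (.p (nat_lit 493) (.a (.f (nat_lit 494) (nat_lit 529) (nat_lit 493) (.f (nat_lit 464) (nat_lit 465) (nat_lit 2509) (.f (nat_lit 463) (nat_lit 492) (nat_lit 2508) (.d (nat_lit 560) (nat_lit 431) (nat_lit 7599) (nat_lit 592) (nat_lit 7631))))) (.a (.p (nat_lit 560) (.a (.f (nat_lit 592) (nat_lit 463) (nat_lit 7631) (.f (nat_lit 591) (nat_lit 623) (nat_lit 5615) (.f (nat_lit 593) (nat_lit 625) (nat_lit 4592) (.f (nat_lit 559) (nat_lit 464) (nat_lit 5583) (.d (nat_lit 558) (nat_lit 557) (nat_lit 557) (nat_lit 594) (nat_lit 3630)))))) (.a (.f (nat_lit 494) (nat_lit 529) (nat_lit 493) (.f (nat_lit 464) (nat_lit 465) (nat_lit 2509) (.f (nat_lit 591) (nat_lit 559) (nat_lit 5583) (.f (nat_lit 592) (nat_lit 623) (nat_lit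 5615) (.f (nat_lit 625) (nat_lit 593) (nat_lit 4592) (.f (nat_lit 624) (nat_lit 657) (nat_lit 4624) (.f (nat_lit 461) (nat_lit 460) (nat_lit 3532) (.f (nat_lit 525) (nat_lit 524) (nat_lit 1516) (.f (nat_lit 590) (nat_lit 589) (nat_lit 589) (.d (nat_lit 558) (nat_lit 526) (nat_lit 7629) (nat_lit 557) (nat_lit 4557))))))))))) (.a (.f (nat_lit 592) (nat_lit 463) (nat_lit 7631) (.f (nat_lit 623) (nat_lit 591) (nat_lit 5615) (.f (nat_lit 624) (nat_lit 655) (nat_lit 5647) (.d (nat_lit 625) (nat_lit 593) (nat_lit 4592) (nat_lit 657) (nat_lit 4624))))) (.f (nat_lit 494) (nat_lit 529) (nat_lit 493) (.f (nat_lit 464) (nat_lit 465) (nat_lit 2509) (.f (nat_lit 431) (nat_lit 463) (nat_lit 7599) (.f (nat_lit 432) (nat_lit 399) (nat_lit 7567) (.f (nat_lit 401) (nat_lit 433) (nat_lit 6544) (.f (nat_lit 400) (nat_lit 369) (nat_lit 6512) (.f (nat_lit 461) (nat_lit 460) (nat_lit 3532) (.f (nat_lit 429) (nat_lit 430) (nat_lit 2445) (.f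 (nat_lit 525) (nat_lit 524) (nat_lit 1516) (.d (nat_lit 526) (nat_lit 397) (nat_lit 4493) (nat_lit 558) (nat_lit 4525))))))))))))))) (.a s132929 (.a (.f (nat_lit 494) (nat_lit 529) (nat_lit 493) (.f (nat_lit 464) (nat_lit 465) (nat_lit 2509) (.f (nat_lit 492) (nat_lit 463) (nat_lit 2508) (.d (nat_lit 524) (nat_lit 523) (nat_lit 1515) (nat_lit 525) (nat_lit 1516))))) (.a (.f (nat_lit 494) (nat_lit 529) (nat_lit 493) (.f (nat_lit 460) (nat_lit 461) (nat_lit 3532) (.f (nat_lit 492) (nat_lit 459) (nat_lit 3531) (.d (nat_lit 524) (nat_lit 523) (nat_lit 1515) (nat_lit 525) (nat_lit 1516))))) (.p (nat_lit 494) (.a (.f (nat_lit 464) (nat_lit 465) (nat_lit 2509) (.f (nat_lit 463) (nat_lit 492) (nat_lit 2508) (.d (nat_lit 560) (nat_lit 431) (nat_lit 7599) (nat_lit 592) (nat_lit 7631)))) (.a (.f (nat_lit 524) (nat_lit 525) (nat_lit 1516) (.f (nat_lit 492) (nat_lit 523) (nat_lit 1515) (.d (nat_lit 460) (nat_lit 459) (nat_lit 3531)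 (nat_lit 461) (nat_lit 3532)))) (.p (nat_lit 560) (.a (.f (nat_lit 464) (nat_lit 465) (nat_lit 2509) (.d (nat_lit 463) (nat_lit 431) (nat_lit 7599) (nat_lit 592) (nat_lit 7631))) (.a (.f (nat_lit 464) (nat_lit 465) (nat_lit 2509) (.f (nat_lit 591) (nat_lit 559) (nat_lit 5583) (.f (nat_lit 592) (nat_lit 623) (nat_lit 5615) (.f (nat_lit 625) (nat_lit 593) (nat_lit 4592) (.f (nat_lit 624) (nat_lit 657) (nat_lit 4624) (.f (nat_lit 525) (nat_lit 524) (nat_lit 1516) (.f (nat_lit 461) (nat_lit 460) (nat_lit 3532) (.f (nat_lit 590) (nat_lit 589) (nat_lit 589) (.d (nat_lit 558) (nat_lit 526) (nat_lit 7629) (nat_lit 557) (nat_lit 4557)))))))))) (.a (.f (nat_lit 592) (nat_lit 463) (nat_lit 7631) (.f (nat_lit 623) (nat_lit 591) (nat_lit 5615) (.f (nat_lit 624) (nat_lit 655) (nat_lit 5647) (.d (nat_lit 625) (nat_lit 593) (nat_lit 4592) (nat_lit 657) (nat_lit 4624))))) (.f (nat_lit 464) (nat_lit 465) (nat_lit 2509) (.f (nat_lit 431)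 (nat_lit 463) (nat_lit 7599) (.f (nat_lit 432) (nat_lit 399) (nat_lit 7567) (.f (nat_lit 401) (nat_lit 433) (nat_lit 6544) (.f (nat_lit 400) (nat_lit 369) (nat_lit 6512) (.f (nat_lit 461) (nat_lit 460) (nat_lit 3532) (.f (nat_lit 429) (nat_lit 430) (nat_lit 2445) (.f (nat_lit 525) (nat_lit 524) (nat_lit 1516) (.d (nat_lit 526) (nat_lit 397) (nat_lit 4493) (nat_lit 558) (nat_lit 4525)))))))))))))))))))))))
noncomputable def s133111 : Cert := .r (nat_lit 878694100599011500014437735720330509836350191925113156341337097447102382727904155809333713844768373422278432769074758707737866683001769675068394154179243802624) (.p (nat_lit 496) (.a (.p (nat_lit 494) (.a (.f (nat_lit 493) (nat_lit 529) (nat_lit 493) (.f (nat_lit 464) (nat_lit 465) (nat_lit 2509) (.f (nat_lit 463) (nat_lit 492) (nat_lit 2508) (.d (nat_lit 560) (nat_lit 431) (nat_lit 7599) (nat_lit 592) (nat_lit 7631))))) (.a (.f (nat_lit 493) (nat_lit 529) (nat_lit 493)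 (.f (nat_lit 465) (nat_lit 464) (nat_lit 2509) (.f (nat_lit 497) (nat_lit 466) (nat_lit 2510) (.d (nat_lit 525) (nat_lit 524) (nat_lit 1516) (nat_lit 526) (nat_lit 1517))))) (.a (.f (nat_lit 493) (nat_lit 529) (nat_lit 493) (.f (nat_lit 461) (nat_lit 460) (nat_lit 3532) (.f (nat_lit 525) (nat_lit 524) (nat_lit 1516) (.d (nat_lit 497) (nat_lit 462) (nat_lit 3533) (nat_lit 526) (nat_lit 1517))))) (.a s130646 (.p (nat_lit 461) (.a (.f (nat_lit 497) (nat_lit 462) (nat_lit 3533) (.f (nat_lit 465) (nat_lit 466) (nat_lit 2510) (.f (nat_lit 433) (nat_lit 401) (nat_lit 5520) (.d (nat_lit 560) (nat_lit 464) (nat_lit 6576) (nat_lit 592) (nat_lit 6608))))) (.a (.f (nat_lit 497) (nat_lit 462) (nat_lit 3533) (.f (nat_lit 493) (nat_lit 460) (nat_lit 3532) (.d (nat_lit 525) (nat_lit 524) (nat_lit 1516) (nat_lit 526) (nat_lit 1517)))) (.a (.f (nat_lit 493) (nat_lit 460) (nat_lit 3532) (.f (nat_lit 525) (nat_lit 524) (nat_lit 1516) (.f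 (nat_lit 526) (nat_lit 497) (nat_lit 1517) (.d (nat_lit 429) (nat_lit 397) (nat_lit 4493) (nat_lit 558) (nat_lit 4525))))) (.f (nat_lit 493) (nat_lit 460) (nat_lit 3532) (.f (nat_lit 464) (nat_lit 465) (nat_lit 2509) (.f (nat_lit 463) (nat_lit 492) (nat_lit 2508) (.d (nat_lit 560) (nat_lit 431) (nat_lit 7599) (nat_lit 592) (nat_lit 7631)))))))))))))) (.a (.p (nat_lit 494) (.a (.f (nat_lit 493) (nat_lit 529) (nat_lit 493) (.f (nat_lit 464) (nat_lit 465) (nat_lit 2509) (.f (nat_lit 463) (nat_lit 492) (nat_lit 2508) (.d (nat_lit 560) (nat_lit 431) (nat_lit 7599) (nat_lit 592) (nat_lit 7631))))) (.a (.f (nat_lit 493) (nat_lit 529) (nat_lit 493) (.f (nat_lit 465) (nat_lit 464) (nat_lit 2509) (.f (nat_lit 497) (nat_lit 466) (nat_lit 2510) (.d (nat_lit 525) (nat_lit 524) (nat_lit 1516) (nat_lit 526) (nat_lit 1517))))) (.a (.f (nat_lit 529) (nat_lit 493) (nat_lit 493) (.d (nat_lit 530) (nat_lit 497) (nat_lit 494) (nat_lit 531)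 (nat_lit 3567))) (.a s130646 s130671))))) (.a (.p (nat_lit 494) (.a (.f (nat_lit 493) (nat_lit 529) (nat_lit 493) (.f (nat_lit 465) (nat_lit 464) (nat_lit 2509) (.f (nat_lit 497) (nat_lit 466) (nat_lit 2510) (.d (nat_lit 525) (nat_lit 524) (nat_lit 1516) (nat_lit 526) (nat_lit 1517))))) (.a (.f (nat_lit 493) (nat_lit 529) (nat_lit 493) (.f (nat_lit 461) (nat_lit 460) (nat_lit 3532) (.f (nat_lit 525) (nat_lit 524) (nat_lit 1516) (.d (nat_lit 497) (nat_lit 462) (nat_lit 3533) (nat_lit 526) (nat_lit 1517))))) (.a s130646 (.a (.p (nat_lit 560) (.a (.f (nat_lit 463) (nat_lit 592) (nat_lit 7631) (.d (nat_lit 431) (nat_lit 399) (nat_lit 4495) (nat_lit 464) (nat_lit 7599))) (.a (.f (nat_lit 493) (nat_lit 529) (nat_lit 493) (.f (nat_lit 464) (nat_lit 465) (nat_lit 2509) (.f (nat_lit 591) (nat_lit 559) (nat_lit 5583) (.f (nat_lit 592) (nat_lit 623) (nat_lit 5615) (.f (nat_lit 625) (nat_lit 593) (nat_lit 4592) (.f (nat_lit 624)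 (nat_lit 657) (nat_lit 4624) (.f (nat_lit 461) (nat_lit 460) (nat_lit 3532) (.f (nat_lit 525) (nat_lit 524) (nat_lit 1516) (.f (nat_lit 590) (nat_lit 589) (nat_lit 589) (.d (nat_lit 558) (nat_lit 526) (nat_lit 7629) (nat_lit 557) (nat_lit 4557))))))))))) (.a (.f (nat_lit 592) (nat_lit 463) (nat_lit 7631) (.f (nat_lit 623) (nat_lit 591) (nat_lit 5615) (.f (nat_lit 624) (nat_lit 655) (nat_lit 5647) (.d (nat_lit 625) (nat_lit 593) (nat_lit 4592) (nat_lit 657) (nat_lit 4624))))) (.f (nat_lit 493) (nat_lit 529) (nat_lit 493) (.f (nat_lit 464) (nat_lit 465) (nat_lit 2509) (.f (nat_lit 431) (nat_lit 463) (nat_lit 7599) (.f (nat_lit 432) (nat_lit 399) (nat_lit 7567) (.f (nat_lit 401) (nat_lit 433) (nat_lit 6544) (.f (nat_lit 400) (nat_lit 369) (nat_lit 6512) (.f (nat_lit 461) (nat_lit 460) (nat_lit 3532) (.f (nat_lit 429) (nat_lit 430) (nat_lit 2445) (.f (nat_lit 525) (nat_lit 524) (nat_lit 1516) (.d (nat_lit 526) (nat_lit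 397) (nat_lit 4493) (nat_lit 558) (nat_lit 4525))))))))))))))) (.a s130691 (.f (nat_lit 529) (nat_lit 493) (nat_lit 493) (.d (nat_lit 530) (nat_lit 497) (nat_lit 494) (nat_lit 531) (nat_lit 3567))))))))) (.a (.p (nat_lit 494) (.a (.f (nat_lit 493) (nat_lit 529) (nat_lit 493) (.f (nat_lit 464) (nat_lit 465) (nat_lit 2509) (.f (nat_lit 463) (nat_lit 492) (nat_lit 2508) (.d (nat_lit 560) (nat_lit 431) (nat_lit 7599) (nat_lit 592) (nat_lit 7631))))) (.a (.f (nat_lit 529) (nat_lit 493) (nat_lit 493) (.d (nat_lit 530) (nat_lit 497) (nat_lit 494) (nat_lit 531) (nat_lit 3567))) (.a s130646 (.p (nat_lit 461) (.a (.f (nat_lit 497) (nat_lit 462) (nat_lit 3533) (.f (nat_lit 465) (nat_lit 466) (nat_lit 2510) (.f (nat_lit 433) (nat_lit 401) (nat_lit 5520) (.d (nat_lit 560) (nat_lit 464) (nat_lit 6576) (nat_lit 592) (nat_lit 6608))))) (.a (.f (nat_lit 460) (nat_lit 493) (nat_lit 3532) (.d (nat_lit 462) (nat_lit 459) (nat_lit 459)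 (nat_lit 463) (nat_lit 460))) (.f (nat_lit 493) (nat_lit 460) (nat_lit 3532) (.f (nat_lit 464) (nat_lit 465) (nat_lit 2509) (.f (nat_lit 463) (nat_lit 492) (nat_lit 2508) (.d (nat_lit 560) (nat_lit 431) (nat_lit 7599) (nat_lit 592) (nat_lit 7631)))))))))))) (.a (.p (nat_lit 494) (.a (.f (nat_lit 493) (nat_lit 529) (nat_lit 493) (.f (nat_lit 464) (nat_lit 465) (nat_lit 2509) (.f (nat_lit 463) (nat_lit 492) (nat_lit 2508) (.d (nat_lit 560) (nat_lit 431) (nat_lit 7599) (nat_lit 592) (nat_lit 7631))))) (.a (.f (nat_lit 493) (nat_lit 529) (nat_lit 493) (.f (nat_lit 465) (nat_lit 464) (nat_lit 2509) (.f (nat_lit 497) (nat_lit 466) (nat_lit 2510) (.d (nat_lit 525) (nat_lit 524) (nat_lit 1516) (nat_lit 526) (nat_lit 1517))))) (.a (.f (nat_lit 529) (nat_lit 493) (nat_lit 493) (.d (nat_lit 530) (nat_lit 497) (nat_lit 494) (nat_lit 531) (nat_lit 3567))) (.a s130700 (.p (nat_lit 525) (.a (.f (nat_lit 493) (nat_lit 524) (nat_lit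 1516) (.f (nat_lit 464) (nat_lit 465) (nat_lit 2509) (.f (nat_lit 463) (nat_lit 492) (nat_lit 2508) (.d (nat_lit 560) (nat_lit 431) (nat_lit 7599) (nat_lit 592) (nat_lit 7631))))) (.a (.f (nat_lit 493) (nat_lit 524) (nat_lit 1516) (.f (nat_lit 465) (nat_lit 464) (nat_lit 2509) (.d (nat_lit 497) (nat_lit 466) (nat_lit 2510) (nat_lit 526) (nat_lit 1517)))) (.a (.f (nat_lit 526) (nat_lit 497) (nat_lit 1517) (.d (nat_lit 524) (nat_lit 493) (nat_lit 1516) (nat_lit 523) (nat_lit 2539))) (.f (nat_lit 497) (nat_lit 526) (nat_lit 1517) (.f (nat_lit 465) (nat_lit 466) (nat_lit 2510) (.f (nat_lit 560) (nat_lit 592) (nat_lit 6608) (.d (nat_lit 433) (nat_lit 401) (nat_lit 5520) (nat_lit 464) (nat_lit 6576)))))))))))))) (.a (.p (nat_lit 497) (.a (.p (nat_lit 462) (.a (.f (nat_lit 463) (nat_lit 498) (nat_lit 3534) (.d (nat_lit 461) (nat_lit 464) (nat_lit 461) (nat_lit 494) (nat_lit 3533))) (.a (.f (nat_lit 494) (nat_lit 461) (nat_lit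 3533) (.f (nat_lit 465) (nat_lit 466) (nat_lit 2510) (.f (nat_lit 433) (nat_lit 401) (nat_lit 5520) (.d (nat_lit 560) (nat_lit 464) (nat_lit 6576) (nat_lit 592) (nat_lit 6608))))) (.a (.f (nat_lit 494) (nat_lit 461) (nat_lit 3533) (.f (nat_lit 463) (nat_lit 498) (nat_lit 3534) (.f (nat_lit 526) (nat_lit 525) (nat_lit 1517) (.d (nat_lit 431) (nat_lit 399) (nat_lit 5518) (nat_lit 558) (nat_lit 6574))))) (.a (.f (nat_lit 463) (nat_lit 498) (nat_lit 3534) (.d (nat_lit 461) (nat_lit 460) (nat_lit 460) (nat_lit 464) (nat_lit 461))) (.f (nat_lit 498) (nat_lit 463) (nat_lit 3534) (.f (nat_lit 530) (nat_lit 531) (nat_lit 495) (.f (nat_lit 466) (nat_lit 467) (nat_lit 2511) (.d (nat_lit 494) (nat_lit 465) (nat_lit 2510) (nat_lit 529) (nat_lit 494)))))))))) (.a (.p (nat_lit 465) (.a (.f (nat_lit 433) (nat_lit 401) (nat_lit 5520) (.d (nat_lit 560) (nat_lit 464) (nat_lit 6576) (nat_lit 592) (nat_lit 6608))) (.a (.f (nat_lit 433)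 (nat_lit 401) (nat_lit 5520) (.d (nat_lit 560) (nat_lit 529) (nat_lit 5552) (nat_lit 592) (nat_lit 6608))) (.f (nat_lit 466) (nat_lit 494) (nat_lit 2510) (.d (nat_lit 467) (nat_lit 464) (nat_lit 1487) (nat_lit 498) (nat_lit 2511)))))) (.a (.p (nat_lit 462) (.a (.f (nat_lit 494) (nat_lit 461) (nat_lit 3533) (.f (nat_lit 463) (nat_lit 498) (nat_lit 3534) (.f (nat_lit 526) (nat_lit 525) (nat_lit 1517) (.d (nat_lit 431) (nat_lit 399) (nat_lit 5518) (nat_lit 558) (nat_lit 6574))))) (.a (.f (nat_lit 494) (nat_lit 461) (nat_lit 3533) (.f (nat_lit 465) (nat_lit 466) (nat_lit 2510) (.f (nat_lit 529) (nat_lit 530) (nat_lit 494) (.d (nat_lit 433) (nat_lit 401) (nat_lit 5520) (nat_lit 560) (nat_lit 5552))))) (.f (nat_lit 498) (nat_lit 463) (nat_lit 3534) (.f (nat_lit 531) (nat_lit 530) (nat_lit 495) (.f (nat_lit 499) (nat_lit 532) (nat_lit 496) (.d (nat_lit 467) (nat_lit 466) (nat_lit 2511) (nat_lit 468) (nat_lit 2512)))))))) (.a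 (.p (nat_lit 463) (.a (.f (nat_lit 498) (nat_lit 462) (nat_lit 3534) (.f (nat_lit 499) (nat_lit 464) (nat_lit 3535) (.d (nat_lit 531) (nat_lit 530) (nat_lit 495) (nat_lit 532) (nat_lit 496)))) (.a (.f (nat_lit 498) (nat_lit 462) (nat_lit 3534) (.f (nat_lit 531) (nat_lit 530) (nat_lit 495) (.f (nat_lit 499) (nat_lit 532) (nat_lit 496) (.d (nat_lit 467) (nat_lit 466) (nat_lit 2511) (nat_lit 468) (nat_lit 2512))))) (.f (nat_lit 560) (nat_lit 592) (nat_lit 7631) (.d (nat_lit 431) (nat_lit 399) (nat_lit 4495) (nat_lit 464) (nat_lit 7599)))))) (.a (.p (nat_lit 462) (.a (.f (nat_lit 463) (nat_lit 498) (nat_lit 3534) (.d (nat_lit 461) (nat_lit 464) (nat_lit 461) (nat_lit 494) (nat_lit 3533))) (.a (.f (nat_lit 494) (nat_lit 461) (nat_lit 3533) (.f (nat_lit 530) (nat_lit 529) (nat_lit 494) (.f (nat_lit 498) (nat_lit 531) (nat_lit 495) (.d (nat_lit 466) (nat_lit 465) (nat_lit 2510) (nat_lit 467) (nat_lit 2511))))) (.a (.f (nat_lit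 463) (nat_lit 498) (nat_lit 3534) (.d (nat_lit 461) (nat_lit 460) (nat_lit 460) (nat_lit 464) (nat_lit 461))) (.a (.f (nat_lit 498) (nat_lit 463) (nat_lit 3534) (.f (nat_lit 530) (nat_lit 531) (nat_lit 495) (.f (nat_lit 466) (nat_lit 467) (nat_lit 2511) (.d (nat_lit 494) (nat_lit 465) (nat_lit 2510) (nat_lit 529) (nat_lit 494))))) (.f (nat_lit 494) (nat_lit 461) (nat_lit 3533) (.f (nat_lit 465) (nat_lit 466) (nat_lit 2510) (.f (nat_lit 433) (nat_lit 401) (nat_lit 5520) (.f (nat_lit 529) (nat_lit 530) (nat_lit 494) (.f (nat_lit 432) (nat_lit 400) (nat_lit 7568) (.f (nat_lit 434) (nat_lit 402) (nat_lit 6545) (.d (nat_lit 463) (nat_lit 431) (nat_lit 1454) (nat_lit 464) (nat_lit 2478))))))))))))) (.a (.p (nat_lit 463) (.a (.f (nat_lit 498) (nat_lit 462) (nat_lit 3534) (.f (nat_lit 499) (nat_lit 464) (nat_lit 3535) (.d (nat_lit 531) (nat_lit 530) (nat_lit 495) (nat_lit 532) (nat_lit 496)))) (.a (.f (nat_lit 462) (nat_lit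 498) (nat_lit 3534) (.d (nat_lit 461) (nat_lit 460) (nat_lit 460) (nat_lit 494) (nat_lit 3533))) (.f (nat_lit 560) (nat_lit 592) (nat_lit 7631) (.d (nat_lit 431) (nat_lit 399) (nat_lit 4495) (nat_lit 464) (nat_lit 7599)))))) (.p (nat_lit 465) (.a (.f (nat_lit 433) (nat_lit 401) (nat_lit 5520) (.d (nat_lit 560) (nat_lit 464) (nat_lit 6576) (nat_lit 592) (nat_lit 6608))) (.a (.f (nat_lit 433) (nat_lit 401) (nat_lit 5520) (.d (nat_lit 560) (nat_lit 529) (nat_lit 5552) (nat_lit 592) (nat_lit 6608))) (.a (.f (nat_lit 494) (nat_lit 466) (nat_lit 2510) (.f (nat_lit 529) (nat_lit 530) (nat_lit 494) (.f (nat_lit 433) (nat_lit 401) (nat_lit 5520) (.f (nat_lit 432) (nat_lit 400) (nat_lit 7568) (.f (nat_lit 434) (nat_lit 402) (nat_lit 6545) (.f (nat_lit 462) (nat_lit 461) (nat_lit 3533) (.d (nat_lit 463) (nat_lit 431) (nat_lit 1454) (nat_lit 464) (nat_lit 2478)))))))) (.f (nat_lit 466) (nat_lit 494) (nat_lit 2510) (.d (nat_lit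 467) (nat_lit 464) (nat_lit 1487) (nat_lit 468) (nat_lit 1488)))))))))))))) (.a (.p (nat_lit 494) (.a (.f (nat_lit 493) (nat_lit 529) (nat_lit 493) (.f (nat_lit 464) (nat_lit 465) (nat_lit 2509) (.f (nat_lit 463) (nat_lit 492) (nat_lit 2508) (.d (nat_lit 560) (nat_lit 431) (nat_lit 7599) (nat_lit 592) (nat_lit 7631))))) (.a (.f (nat_lit 529) (nat_lit 493) (nat_lit 493) (.d (nat_lit 530) (nat_lit 497) (nat_lit 494) (nat_lit 531) (nat_lit 3567))) (.a s130700 (.p (nat_lit 461) (.a (.f (nat_lit 497) (nat_lit 462) (nat_lit 3533) (.f (nat_lit 465) (nat_lit 466) (nat_lit 2510) (.f (nat_lit 433) (nat_lit 401) (nat_lit 5520) (.d (nat_lit 560) (nat_lit 464) (nat_lit 6576) (nat_lit 592) (nat_lit 6608))))) (.a (.f (nat_lit 460) (nat_lit 493) (nat_lit 3532) (.d (nat_lit 462) (nat_lit 459) (nat_lit 459) (nat_lit 463) (nat_lit 460))) (.f (nat_lit 493) (nat_lit 460) (nat_lit 3532) (.f (nat_lit 464) (nat_lit 465) (nat_lit 2509) (.f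 (nat_lit 463) (nat_lit 492) (nat_lit 2508) (.d (nat_lit 560) (nat_lit 431) (nat_lit 7599) (nat_lit 592) (nat_lit 7631)))))))))))) (.a (.p (nat_lit 465) (.a (.p (nat_lit 494) (.a (.d (nat_lit 493) (nat_lit 464) (nat_lit 2509) (nat_lit 529) (nat_lit 493)) (.a (.f (nat_lit 497) (nat_lit 466) (nat_lit 2510) (.d (nat_lit 529) (nat_lit 493) (nat_lit 493) (nat_lit 530) (nat_lit 494))) (.f (nat_lit 497) (nat_lit 466) (nat_lit 2510) (.f (nat_lit 560) (nat_lit 592) (nat_lit 6608) (.d (nat_lit 433) (nat_lit 401) (nat_lit 5520) (nat_lit 464) (nat_lit 6576))))))) (.a (.p (nat_lit 497) (.a (.f (nat_lit 433) (nat_lit 401) (nat_lit 5520) (.d (nat_lit 560) (nat_lit 529) (nat_lit 5552) (nat_lit 592) (nat_lit 6608))) (.a (.f (nat_lit 494) (nat_lit 466) (nat_lit 2510) (.d (nat_lit 529) (nat_lit 493) (nat_lit 493) (nat_lit 530) (nat_lit 494))) (.f (nat_lit 466) (nat_lit 494) (nat_lit 2510) (.d (nat_lit 467) (nat_lit 468) (nat_lit 1488)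 (nat_lit 498) (nat_lit 2511)))))) (.a (.p (nat_lit 433) (.a (.f (nat_lit 497) (nat_lit 401) (nat_lit 5520) (.d (nat_lit 560) (nat_lit 464) (nat_lit 6576) (nat_lit 592) (nat_lit 6608))) (.a (.f (nat_lit 497) (nat_lit 401) (nat_lit 5520) (.d (nat_lit 560) (nat_lit 529) (nat_lit 5552) (nat_lit 592) (nat_lit 6608))) (.a (.f (nat_lit 464) (nat_lit 560) (nat_lit 6576) (.d (nat_lit 401) (nat_lit 369) (nat_lit 5488) (nat_lit 432) (nat_lit 6544))) (.a (.f (nat_lit 497) (nat_lit 401) (nat_lit 5520) (.f (nat_lit 466) (nat_lit 494) (nat_lit 2510) (.d (nat_lit 467) (nat_lit 464) (nat_lit 1487) (nat_lit 498) (nat_lit 2511)))) (.f (nat_lit 560) (nat_lit 464) (nat_lit 6576) (.d (nat_lit 497) (nat_lit 529) (nat_lit 5552) (nat_lit 592) (nat_lit 6608)))))))) (.a (.p (nat_lit 433) (.a (.f (nat_lit 497) (nat_lit 401) (nat_lit 5520) (.d (nat_lit 560) (nat_lit 464) (nat_lit 6576) (nat_lit 592) (nat_lit 6608))) (.a (.f (nat_lit 497) (nat_lit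 401) (nat_lit 5520) (.d (nat_lit 560) (nat_lit 529) (nat_lit 5552) (nat_lit 592) (nat_lit 6608))) (.a (.f (nat_lit 464) (nat_lit 560) (nat_lit 6576) (.d (nat_lit 401) (nat_lit 369) (nat_lit 5488) (nat_lit 432) (nat_lit 6544))) (.a (.f (nat_lit 401) (nat_lit 497) (nat_lit 5520) (.d (nat_lit 464) (nat_lit 369) (nat_lit 5488) (nat_lit 432) (nat_lit 6544))) (.f (nat_lit 560) (nat_lit 464) (nat_lit 6576) (.d (nat_lit 497) (nat_lit 529) (nat_lit 5552) (nat_lit 592) (nat_lit 6608)))))))) (.a (.p (nat_lit 464) (.a (.f (nat_lit 433) (nat_lit 560) (nat_lit 6576) (.d (nat_lit 401) (nat_lit 369) (nat_lit 5488) (nat_lit 432) (nat_lit 6544))) (.a (.f (nat_lit 560) (nat_lit 433) (nat_lit 6576) (.d (nat_lit 463) (nat_lit 431) (nat_lit 7599) (nat_lit 592) (nat_lit 7631))) (.f (nat_lit 466) (nat_lit 467) (nat_lit 1487) (.d (nat_lit 494) (nat_lit 463) (nat_lit 1486) (nat_lit 493) (nat_lit 2509)))))) (.p (nat_lit 494) (.a (.d (nat_lit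 493) (nat_lit 464) (nat_lit 2509) (nat_lit 529) (nat_lit 493)) (.a (.f (nat_lit 497) (nat_lit 466) (nat_lit 2510) (.d (nat_lit 529) (nat_lit 493) (nat_lit 493) (nat_lit 530) (nat_lit 494))) (.f (nat_lit 466) (nat_lit 497) (nat_lit 2510) (.d (nat_lit 464) (nat_lit 463) (nat_lit 1486) (nat_lit 467) (nat_lit 1487)))))))))))) (.a (.p (nat_lit 497) (.a (.p (nat_lit 463) (.a (.f (nat_lit 498) (nat_lit 462) (nat_lit 3534) (.f (nat_lit 499) (nat_lit 464) (nat_lit 3535) (.d (nat_lit 531) (nat_lit 530) (nat_lit 495) (nat_lit 532) (nat_lit 496)))) (.a (.f (nat_lit 498) (nat_lit 462) (nat_lit 3534) (.f (nat_lit 531) (nat_lit 530) (nat_lit 495) (.f (nat_lit 499) (nat_lit 532) (nat_lit 496) (.d (nat_lit 467) (nat_lit 466) (nat_lit 2511) (nat_lit 468) (nat_lit 2512))))) (.f (nat_lit 560) (nat_lit 592) (nat_lit 7631) (.d (nat_lit 431) (nat_lit 399) (nat_lit 4495) (nat_lit 464) (nat_lit 7599)))))) (.a (.p (nat_lit 498) (.a (.f (nat_lit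 531) (nat_lit 530) (nat_lit 495) (.f (nat_lit 499) (nat_lit 532) (nat_lit 496) (.d (nat_lit 467) (nat_lit 466) (nat_lit 2511) (nat_lit 468) (nat_lit 2512)))) (.a (.f (nat_lit 467) (nat_lit 466) (nat_lit 2511) (.f (nat_lit 499) (nat_lit 468) (nat_lit 2512) (.f (nat_lit 500) (nat_lit 529) (nat_lit 1520) (.d (nat_lit 532) (nat_lit 531) (nat_lit 496) (nat_lit 533) (nat_lit 497))))) (.a (.p (nat_lit 465) (.a (.f (nat_lit 467) (nat_lit 466) (nat_lit 2511) (.f (nat_lit 499) (nat_lit 468) (nat_lit 2512) (.d (nat_lit 500) (nat_lit 464) (nat_lit 3536) (nat_lit 529) (nat_lit 1520)))) (.a (.f (nat_lit 433) (nat_lit 401) (nat_lit 5520) (.d (nat_lit 560) (nat_lit 529) (nat_lit 5552) (nat_lit 592) (nat_lit 6608))) (.f (nat_lit 433) (nat_lit 401) (nat_lit 5520) (.d (nat_lit 560) (nat_lit 464) (nat_lit 6576) (nat_lit 592) (nat_lit 6608)))))) (.a (.f (nat_lit 531) (nat_lit 530) (nat_lit 495) (.f (nat_lit 499) (nat_lit 532) (nat_lit 496)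 (.f (nat_lit 500) (nat_lit 529) (nat_lit 1520) (.d (nat_lit 468) (nat_lit 467) (nat_lit 2512) (nat_lit 469) (nat_lit 2513))))) (.a s130800 (.f (nat_lit 531) (nat_lit 530) (nat_lit 495) (.f (nat_lit 499) (nat_lit 532) (nat_lit 496) (.f (nat_lit 500) (nat_lit 529) (nat_lit 1520) (.f (nat_lit 465) (nat_lit 464) (nat_lit 3536) (.f (nat_lit 501) (nat_lit 466) (nat_lit 3537) (.d (nat_lit 469) (nat_lit 468) (nat_lit 2513) (nat_lit 470) (nat_lit 2514))))))))))))) (.a (.p (nat_lit 498) (.a (.f (nat_lit 531) (nat_lit 530) (nat_lit 495) (.f (nat_lit 499) (nat_lit 532) (nat_lit 496) (.d (nat_lit 467) (nat_lit 466) (nat_lit 2511) (nat_lit 468) (nat_lit 2512)))) (.a (.f (nat_lit 467) (nat_lit 466) (nat_lit 2511) (.f (nat_lit 499) (nat_lit 468) (nat_lit 2512) (.f (nat_lit 500) (nat_lit 529) (nat_lit 1520) (.d (nat_lit 532) (nat_lit 531) (nat_lit 496) (nat_lit 533) (nat_lit 497))))) (.a s130810 (.a (.f (nat_lit 531) (nat_lit 530) (nat_lit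 495) (.f (nat_lit 499) (nat_lit 532) (nat_lit 496) (.f (nat_lit 500) (nat_lit 529) (nat_lit 1520) (.d (nat_lit 468) (nat_lit 467) (nat_lit 2512) (nat_lit 469) (nat_lit 2513))))) (.a s130800 (.p (nat_lit 465) (.a (.f (nat_lit 530) (nat_lit 531) (nat_lit 495) (.f (nat_lit 433) (nat_lit 401) (nat_lit 5520) (.d (nat_lit 562) (nat_lit 529) (nat_lit 4529) (nat_lit 594) (nat_lit 7633)))) (.a (.f (nat_lit 530) (nat_lit 531) (nat_lit 495) (.f (nat_lit 433) (nat_lit 401) (nat_lit 5520) (.d (nat_lit 562) (nat_lit 466) (nat_lit 7601) (nat_lit 594) (nat_lit 7633)))) (.a (.f (nat_lit 433) (nat_lit 401) (nat_lit 5520) (.d (nat_lit 560) (nat_lit 529) (nat_lit 5552) (nat_lit 592) (nat_lit 6608))) (.f (nat_lit 531) (nat_lit 530) (nat_lit 495) (.f (nat_lit 499) (nat_lit 532) (nat_lit 496) (.f (nat_lit 500) (nat_lit 529) (nat_lit 1520) (.f (nat_lit 501) (nat_lit 466) (nat_lit 3537) (.d (nat_lit 469) (nat_lit 468) (nat_lit 2513) (nat_lit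 470) (nat_lit 2514)))))))))))))))) (.a (.p (nat_lit 498) (.a (.f (nat_lit 531) (nat_lit 530) (nat_lit 495) (.f (nat_lit 499) (nat_lit 532) (nat_lit 496) (.d (nat_lit 467) (nat_lit 466) (nat_lit 2511) (nat_lit 468) (nat_lit 2512)))) (.a (.f (nat_lit 467) (nat_lit 466) (nat_lit 2511) (.f (nat_lit 499) (nat_lit 468) (nat_lit 2512) (.f (nat_lit 500) (nat_lit 529) (nat_lit 1520) (.d (nat_lit 532) (nat_lit 531) (nat_lit 496) (nat_lit 533) (nat_lit 497))))) (.a s130810 (.a (.f (nat_lit 531) (nat_lit 530) (nat_lit 495) (.f (nat_lit 499) (nat_lit 532) (nat_lit 496) (.f (nat_lit 500) (nat_lit 529) (nat_lit 1520) (.d (nat_lit 468) (nat_lit 467) (nat_lit 2512) (nat_lit 469) (nat_lit 2513))))) (.a (.p (nat_lit 433) (.a (.f (nat_lit 465) (nat_lit 401) (nat_lit 5520) (.f (nat_lit 466) (nat_lit 467) (nat_lit 2511) (.d (nat_lit 530) (nat_lit 531) (nat_lit 495) (nat_lit 562) (nat_lit 7601)))) (.a (.f (nat_lit 465) (nat_lit 401) (nat_lit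 5520) (.f (nat_lit 466) (nat_lit 467) (nat_lit 2511) (.f (nat_lit 463) (nat_lit 462) (nat_lit 3534) (.f (nat_lit 431) (nat_lit 399) (nat_lit 4495) (.d (nat_lit 430) (nat_lit 432) (nat_lit 430) (nat_lit 464) (nat_lit 3502)))))) (.a (.f (nat_lit 530) (nat_lit 531) (nat_lit 495) (.f (nat_lit 466) (nat_lit 467) (nat_lit 2511) (.f (nat_lit 434) (nat_lit 401) (nat_lit 7569) (.f (nat_lit 402) (nat_lit 529) (nat_lit 5521) (.d (nat_lit 403) (nat_lit 371) (nat_lit 6514) (nat_lit 435) (nat_lit 6546)))))) (.a (.f (nat_lit 465) (nat_lit 401) (nat_lit 5520) (.f (nat_lit 530) (nat_lit 531) (nat_lit 495) (.d (nat_lit 562) (nat_lit 529) (nat_lit 4529) (nat_lit 594) (nat_lit 7633)))) (.f (nat_lit 530) (nat_lit 531) (nat_lit 495) (.f (nat_lit 466) (nat_lit 467) (nat_lit 2511) (.f (nat_lit 562) (nat_lit 465) (nat_lit 7601) (.f (nat_lit 595) (nat_lit 563) (nat_lit 4562) (.f (nat_lit 594) (nat_lit 627) (nat_lit 4594) (.f (nat_lit 625) (nat_lit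 593) (nat_lit 5617) (.d (nat_lit 626) (nat_lit 529) (nat_lit 7665) (nat_lit 657) (nat_lit 5649))))))))))))) (.f (nat_lit 531) (nat_lit 530) (nat_lit 495) (.f (nat_lit 499) (nat_lit 532) (nat_lit 496) (.f (nat_lit 500) (nat_lit 529) (nat_lit 1520) (.f (nat_lit 465) (nat_lit 464) (nat_lit 3536) (.f (nat_lit 501) (nat_lit 466) (nat_lit 3537) (.d (nat_lit 469) (nat_lit 468) (nat_lit 2513) (nat_lit 470) (nat_lit 2514))))))))))))) (.a (.p (nat_lit 463) (.a (.f (nat_lit 560) (nat_lit 592) (nat_lit 7631) (.d (nat_lit 431) (nat_lit 399) (nat_lit 4495) (nat_lit 464) (nat_lit 7599))) (.f (nat_lit 498) (nat_lit 462) (nat_lit 3534) (.f (nat_lit 467) (nat_lit 466) (nat_lit 2511) (.f (nat_lit 499) (nat_lit 468) (nat_lit 2512) (.f (nat_lit 532) (nat_lit 531) (nat_lit 496) (.d (nat_lit 500) (nat_lit 529) (nat_lit 1520) (nat_lit 533) (nat_lit 497)))))))) (.a (.p (nat_lit 433) (.a (.f (nat_lit 465) (nat_lit 401) (nat_lit 5520) (.d (nat_lit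 560) (nat_lit 464) (nat_lit 6576) (nat_lit 592) (nat_lit 6608))) (.a (.f (nat_lit 465) (nat_lit 401) (nat_lit 5520) (.d (nat_lit 560) (nat_lit 529) (nat_lit 5552) (nat_lit 592) (nat_lit 6608))) (.a (.p (nat_lit 431) (.a (.f (nat_lit 401) (nat_lit 465) (nat_lit 5520) (.f (nat_lit 432) (nat_lit 464) (nat_lit 6544) (.f (nat_lit 430) (nat_lit 402) (nat_lit 2446) (.f (nat_lit 429) (nat_lit 400) (nat_lit 2445) (.d (nat_lit 461) (nat_lit 460) (nat_lit 1452) (nat_lit 462) (nat_lit 1453)))))) (.a (.f (nat_lit 463) (nat_lit 399) (nat_lit 4495) (.f (nat_lit 462) (nat_lit 498) (nat_lit 3534) (.f (nat_lit 432) (nat_lit 434) (nat_lit 1454) (.d (nat_lit 461) (nat_lit 430) (nat_lit 1453) (nat_lit 460) (nat_lit 460))))) (.a (.f (nat_lit 401) (nat_lit 465) (nat_lit 5520) (.f (nat_lit 432) (nat_lit 464) (nat_lit 6544) (.f (nat_lit 402) (nat_lit 430) (nat_lit 2446) (.d (nat_lit 403) (nat_lit 400) (nat_lit 1423) (nat_lit 434) (nat_lit 2447)))))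 (.f (nat_lit 463) (nat_lit 399) (nat_lit 4495) (.f (nat_lit 462) (nat_lit 498) (nat_lit 3534) (.d (nat_lit 461) (nat_lit 460) (nat_lit 460) (nat_lit 464) (nat_lit 461)))))))) (.p (nat_lit 463) (.a (.f (nat_lit 462) (nat_lit 498) (nat_lit 3534) (.d (nat_lit 461) (nat_lit 460) (nat_lit 460) (nat_lit 464) (nat_lit 461))) (.a (.f (nat_lit 462) (nat_lit 498) (nat_lit 3534) (.f (nat_lit 431) (nat_lit 399) (nat_lit 4495) (.f (nat_lit 432) (nat_lit 434) (nat_lit 1454) (.d (nat_lit 461) (nat_lit 430) (nat_lit 1453) (nat_lit 460) (nat_lit 460))))) (.f (nat_lit 431) (nat_lit 399) (nat_lit 4495) (.d (nat_lit 560) (nat_lit 464) (nat_lit 7599) (nat_lit 592) (nat_lit 7631)))))))))) (.p (nat_lit 431) (.a (.f (nat_lit 463) (nat_lit 399) (nat_lit 4495) (.d (nat_lit 560) (nat_lit 464) (nat_lit 7599) (nat_lit 592) (nat_lit 7631))) (.a (.p (nat_lit 432) (.a (.f (nat_lit 464) (nat_lit 399) (nat_lit 7567) (.f (nat_lit 433) (nat_lit 401) (nat_lit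 6544) (.f (nat_lit 465) (nat_lit 560) (nat_lit 6576) (.d (nat_lit 400) (nat_lit 368) (nat_lit 4464) (nat_lit 529) (nat_lit 4496))))) (.a (.p (nat_lit 433) (.a (.f (nat_lit 465) (nat_lit 401) (nat_lit 5520) (.d (nat_lit 560) (nat_lit 529) (nat_lit 5552) (nat_lit 592) (nat_lit 6608))) (.a (.f (nat_lit 465) (nat_lit 401) (nat_lit 5520) (.f (nat_lit 529) (nat_lit 400) (nat_lit 7568) (.d (nat_lit 530) (nat_lit 531) (nat_lit 3567) (nat_lit 562) (nat_lit 4529)))) (.a (.f (nat_lit 465) (nat_lit 401) (nat_lit 5520) (.f (nat_lit 466) (nat_lit 430) (nat_lit 430) (.d (nat_lit 467) (nat_lit 434) (nat_lit 431) (nat_lit 468) (nat_lit 1488)))) (.a s130896 s130899))))) (.a (.f (nat_lit 464) (nat_lit 399) (nat_lit 7567) (.f (nat_lit 433) (nat_lit 401) (nat_lit 6544) (.f (nat_lit 400) (nat_lit 529) (nat_lit 4496) (.f (nat_lit 465) (nat_lit 368) (nat_lit 4464) (.d (nat_lit 430) (nat_lit 429) (nat_lit 429) (nat_lit 466) (nat_lit 430))))))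 (.a (.f (nat_lit 464) (nat_lit 399) (nat_lit 7567) (.f (nat_lit 433) (nat_lit 401) (nat_lit 6544) (.f (nat_lit 465) (nat_lit 560) (nat_lit 6576) (.d (nat_lit 430) (nat_lit 429) (nat_lit 429) (nat_lit 466) (nat_lit 430))))) (.a s130918 (.a (.f (nat_lit 464) (nat_lit 399) (nat_lit 7567) (.f (nat_lit 401) (nat_lit 433) (nat_lit 6544) (.d (nat_lit 400) (nat_lit 369) (nat_lit 6512) (nat_lit 529) (nat_lit 4496)))) (.a (.f (nat_lit 464) (nat_lit 399) (nat_lit 7567) (.f (nat_lit 400) (nat_lit 529) (nat_lit 4496) (.f (nat_lit 368) (nat_lit 465) (nat_lit 4464) (.d (nat_lit 369) (nat_lit 337) (nat_lit 6480) (nat_lit 401) (nat_lit 6512))))) (.f (nat_lit 464) (nat_lit 399) (nat_lit 7567) (.f (nat_lit 400) (nat_lit 529) (nat_lit 4496) (.f (nat_lit 465) (nat_lit 368) (nat_lit 4464) (.d (nat_lit 560) (nat_lit 433) (nat_lit 6576) (nat_lit 592) (nat_lit 6608))))))))))))) (.a (.p (nat_lit 433) (.a (.f (nat_lit 465) (nat_lit 401) (nat_lit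 5520) (.d (nat_lit 560) (nat_lit 529) (nat_lit 5552) (nat_lit 592) (nat_lit 6608))) (.a (.p (nat_lit 432) (.a (.f (nat_lit 465) (nat_lit 401) (nat_lit 5520) (.f (nat_lit 529) (nat_lit 400) (nat_lit 7568) (.d (nat_lit 530) (nat_lit 531) (nat_lit 3567) (nat_lit 562) (nat_lit 4529)))) (.a (.f (nat_lit 465) (nat_lit 401) (nat_lit 5520) (.f (nat_lit 466) (nat_lit 430) (nat_lit 430) (.d (nat_lit 467) (nat_lit 434) (nat_lit 431) (nat_lit 468) (nat_lit 1488)))) (.f (nat_lit 399) (nat_lit 463) (nat_lit 4495) (.f (nat_lit 434) (nat_lit 398) (nat_lit 3470) (.f (nat_lit 435) (nat_lit 400) (nat_lit 3471) (.d (nat_lit 403) (nat_lit 402) (nat_lit 2447) (nat_lit 404) (nat_lit 2448)))))))) (.a (.p (nat_lit 432) (.a (.f (nat_lit 465) (nat_lit 401) (nat_lit 5520) (.f (nat_lit 466) (nat_lit 430) (nat_lit 430) (.d (nat_lit 467) (nat_lit 434) (nat_lit 431) (nat_lit 468) (nat_lit 1488)))) (.a (.f (nat_lit 399) (nat_lit 463) (nat_lit 4495)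 (.f (nat_lit 434) (nat_lit 398) (nat_lit 3470) (.f (nat_lit 435) (nat_lit 400) (nat_lit 3471) (.d (nat_lit 403) (nat_lit 402) (nat_lit 2447) (nat_lit 404) (nat_lit 2448))))) (.f (nat_lit 465) (nat_lit 401) (nat_lit 5520) (.f (nat_lit 463) (nat_lit 399) (nat_lit 4495) (.f (nat_lit 430) (nat_lit 466) (nat_lit 430) (.f (nat_lit 462) (nat_lit 461) (nat_lit 1453) (.d (nat_lit 398) (nat_lit 366) (nat_lit 4462) (nat_lit 397) (nat_lit 3469))))))))) (.a (.p (nat_lit 432) (.a s130896 (.a (.f (nat_lit 399) (nat_lit 463) (nat_lit 4495) (.f (nat_lit 434) (nat_lit 398) (nat_lit 3470) (.f (nat_lit 435) (nat_lit 400) (nat_lit 3471) (.d (nat_lit 403) (nat_lit 402) (nat_lit 2447) (nat_lit 404) (nat_lit 2448))))) (.a s130945 (.a (.f (nat_lit 463) (nat_lit 399) (nat_lit 4495) (.f (nat_lit 462) (nat_lit 434) (nat_lit 1454) (.d (nat_lit 461) (nat_lit 430) (nat_lit 1453) (nat_lit 460) (nat_lit 460)))) (.p (nat_lit 430) (.a (.f (nat_lit 401)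 (nat_lit 402) (nat_lit 2446) (.f (nat_lit 429) (nat_lit 400) (nat_lit 2445) (.d (nat_lit 461) (nat_lit 460) (nat_lit 1452) (nat_lit 462) (nat_lit 1453)))) (.a (.f (nat_lit 401) (nat_lit 402) (nat_lit 2446) (.f (nat_lit 429) (nat_lit 400) (nat_lit 2445) (.d (nat_lit 397) (nat_lit 396) (nat_lit 3468) (nat_lit 398) (nat_lit 3469)))) (.f (nat_lit 463) (nat_lit 399) (nat_lit 4495) (.f (nat_lit 462) (nat_lit 461) (nat_lit 1453) (.d (nat_lit 398) (nat_lit 366) (nat_lit 4462) (nat_lit 397) (nat_lit 3469)))))))))))) (.p (nat_lit 432) (.a s130899 (.a (.f (nat_lit 399) (nat_lit 463) (nat_lit 4495) (.f (nat_lit 434) (nat_lit 398) (nat_lit 3470) (.f (nat_lit 435) (nat_lit 400) (nat_lit 3471) (.d (nat_lit 403) (nat_lit 402) (nat_lit 2447) (nat_lit 404) (nat_lit 2448))))) (.a (.p (nat_lit 430) (.a (.f (nat_lit 465) (nat_lit 466) (nat_lit 430) (.d (nat_lit 529) (nat_lit 400) (nat_lit 7568) (nat_lit 560) (nat_lit 5552))) (.f (nat_lit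 462) (nat_lit 461) (nat_lit 1453) (.f (nat_lit 463) (nat_lit 434) (nat_lit 1454) (.d (nat_lit 398) (nat_lit 366) (nat_lit 4462) (nat_lit 397) (nat_lit 3469)))))) (.a (.f (nat_lit 463) (nat_lit 399) (nat_lit 4495) (.f (nat_lit 462) (nat_lit 434) (nat_lit 1454) (.d (nat_lit 461) (nat_lit 430) (nat_lit 1453) (nat_lit 460) (nat_lit 460)))) (.f (nat_lit 463) (nat_lit 399) (nat_lit 4495) (.f (nat_lit 560) (nat_lit 592) (nat_lit 7631) (.f (nat_lit 465) (nat_lit 529) (nat_lit 5552) (.f (nat_lit 430) (nat_lit 466) (nat_lit 430) (.f (nat_lit 462) (nat_lit 461) (nat_lit 1453) (.d (nat_lit 398) (nat_lit 366) (nat_lit 4462) (nat_lit 397) (nat_lit 3469))))))))))))))))) (.a (.p (nat_lit 432) (.a (.f (nat_lit 464) (nat_lit 399) (nat_lit 7567) (.f (nat_lit 433) (nat_lit 401) (nat_lit 6544) (.f (nat_lit 400) (nat_lit 529) (nat_lit 4496) (.f (nat_lit 465) (nat_lit 368) (nat_lit 4464) (.d (nat_lit 430) (nat_lit 429) (nat_lit 429) (nat_lit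 466) (nat_lit 430)))))) (.a (.p (nat_lit 433) (.a (.f (nat_lit 465) (nat_lit 401) (nat_lit 5520) (.f (nat_lit 529) (nat_lit 400) (nat_lit 7568) (.d (nat_lit 530) (nat_lit 531) (nat_lit 3567) (nat_lit 562) (nat_lit 4529)))) (.a (.f (nat_lit 465) (nat_lit 401) (nat_lit 5520) (.f (nat_lit 466) (nat_lit 430) (nat_lit 430) (.d (nat_lit 467) (nat_lit 434) (nat_lit 431) (nat_lit 468) (nat_lit 1488)))) (.f (nat_lit 399) (nat_lit 463) (nat_lit 4495) (.f (nat_lit 434) (nat_lit 398) (nat_lit 3470) (.f (nat_lit 435) (nat_lit 400) (nat_lit 3471) (.d (nat_lit 403) (nat_lit 402) (nat_lit 2447) (nat_lit 404) (nat_lit 2448)))))))) (.a (.f (nat_lit 464) (nat_lit 399) (nat_lit 7567) (.f (nat_lit 401) (nat_lit 433) (nat_lit 6544) (.d (nat_lit 400) (nat_lit 369) (nat_lit 6512) (nat_lit 529) (nat_lit 4496)))) (.a (.p (nat_lit 433) (.a (.f (nat_lit 465) (nat_lit 401) (nat_lit 5520) (.f (nat_lit 466) (nat_lit 430) (nat_lit 430) (.d (nat_lit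 467) (nat_lit 434) (nat_lit 431) (nat_lit 468) (nat_lit 1488)))) (.a (.f (nat_lit 399) (nat_lit 463) (nat_lit 4495) (.f (nat_lit 434) (nat_lit 398) (nat_lit 3470) (.f (nat_lit 435) (nat_lit 400) (nat_lit 3471) (.d (nat_lit 403) (nat_lit 402) (nat_lit 2447) (nat_lit 404) (nat_lit 2448))))) (.f (nat_lit 465) (nat_lit 401) (nat_lit 5520) (.f (nat_lit 463) (nat_lit 399) (nat_lit 4495) (.f (nat_lit 430) (nat_lit 466) (nat_lit 430) (.f (nat_lit 462) (nat_lit 461) (nat_lit 1453) (.d (nat_lit 398) (nat_lit 366) (nat_lit 4462) (nat_lit 397) (nat_lit 3469))))))))) (.a s131006 (.a (.f (nat_lit 464) (nat_lit 399) (nat_lit 7567) (.f (nat_lit 400) (nat_lit 529) (nat_lit 4496) (.f (nat_lit 368) (nat_lit 465) (nat_lit 4464) (.d (nat_lit 369) (nat_lit 337) (nat_lit 6480) (nat_lit 401) (nat_lit 6512))))) (.d (nat_lit 399) (nat_lit 463) (nat_lit 4495) (nat_lit 464) (nat_lit 7567))))))))) (.p (nat_lit 432) (.a s130918 (.a (.p (nat_lit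 433) (.a (.f (nat_lit 465) (nat_lit 401) (nat_lit 5520) (.d (nat_lit 560) (nat_lit 529) (nat_lit 5552) (nat_lit 592) (nat_lit 6608))) (.a (.f (nat_lit 465) (nat_lit 401) (nat_lit 5520) (.f (nat_lit 529) (nat_lit 400) (nat_lit 7568) (.d (nat_lit 530) (nat_lit 531) (nat_lit 3567) (nat_lit 562) (nat_lit 4529)))) (.a (.f (nat_lit 465) (nat_lit 401) (nat_lit 5520) (.f (nat_lit 466) (nat_lit 430) (nat_lit 430) (.d (nat_lit 467) (nat_lit 434) (nat_lit 431) (nat_lit 468) (nat_lit 1488)))) (.a s130945 (.p (nat_lit 430) (.a (.f (nat_lit 465) (nat_lit 466) (nat_lit 430) (.d (nat_lit 529) (nat_lit 400) (nat_lit 7568) (nat_lit 560) (nat_lit 5552))) (.f (nat_lit 462) (nat_lit 461) (nat_lit 1453) (.f (nat_lit 463) (nat_lit 434) (nat_lit 1454) (.d (nat_lit 398) (nat_lit 366) (nat_lit 4462) (nat_lit 397) (nat_lit 3469))))))))))) (.a (.p (nat_lit 464) (.a (.f (nat_lit 433) (nat_lit 401) (nat_lit 6544) (.f (nat_lit 465) (nat_lit 560)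 (nat_lit 6576) (.d (nat_lit 400) (nat_lit 368) (nat_lit 4464) (nat_lit 529) (nat_lit 4496)))) (.a (.f (nat_lit 401) (nat_lit 433) (nat_lit 6544) (.d (nat_lit 400) (nat_lit 369) (nat_lit 6512) (nat_lit 529) (nat_lit 4496))) (.a (.f (nat_lit 463) (nat_lit 560) (nat_lit 7599) (.f (nat_lit 433) (nat_lit 401) (nat_lit 6544) (.d (nat_lit 434) (nat_lit 435) (nat_lit 1455) (nat_lit 462) (nat_lit 1454)))) (.a (.f (nat_lit 400) (nat_lit 529) (nat_lit 4496) (.f (nat_lit 368) (nat_lit 465) (nat_lit 4464) (.d (nat_lit 369) (nat_lit 337) (nat_lit 6480) (nat_lit 401) (nat_lit 6512)))) (.f (nat_lit 400) (nat_lit 529) (nat_lit 4496) (.f (nat_lit 465) (nat_lit 368) (nat_lit 4464) (.d (nat_lit 560) (nat_lit 433) (nat_lit 6576) (nat_lit 592) (nat_lit 6608))))))))) (.a s131006 (.a (.p (nat_lit 464) (.a (.f (nat_lit 433) (nat_lit 401) (nat_lit 6544) (.f (nat_lit 465) (nat_lit 560) (nat_lit 6576) (.d (nat_lit 430) (nat_lit 429) (nat_lit 429)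 (nat_lit 466) (nat_lit 430)))) (.a (.f (nat_lit 463) (nat_lit 560) (nat_lit 7599) (.f (nat_lit 433) (nat_lit 401) (nat_lit 6544) (.d (nat_lit 434) (nat_lit 435) (nat_lit 1455) (nat_lit 462) (nat_lit 1454)))) (.a (.f (nat_lit 401) (nat_lit 433) (nat_lit 6544) (.f (nat_lit 400) (nat_lit 369) (nat_lit 6512) (.d (nat_lit 368) (nat_lit 463) (nat_lit 5487) (nat_lit 465) (nat_lit 4464)))) (.f (nat_lit 560) (nat_lit 463) (nat_lit 7599) (.f (nat_lit 592) (nat_lit 465) (nat_lit 6608) (.d (nat_lit 591) (nat_lit 559) (nat_lit 5583) (nat_lit 623) (nat_lit 5615)))))))) (.a (.p (nat_lit 464) (.a (.f (nat_lit 401) (nat_lit 433) (nat_lit 6544) (.d (nat_lit 400) (nat_lit 369) (nat_lit 6512) (nat_lit 529) (nat_lit 4496))) (.a (.f (nat_lit 463) (nat_lit 560) (nat_lit 7599) (.f (nat_lit 433) (nat_lit 401) (nat_lit 6544) (.d (nat_lit 434) (nat_lit 435) (nat_lit 1455) (nat_lit 462) (nat_lit 1454)))) (.f (nat_lit 463) (nat_lit 560) (nat_lit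 7599) (.d (nat_lit 400) (nat_lit 368) (nat_lit 5487) (nat_lit 529) (nat_lit 4496)))))) (.a (.p (nat_lit 464) (.a (.f (nat_lit 400) (nat_lit 529) (nat_lit 4496) (.f (nat_lit 368) (nat_lit 465) (nat_lit 4464) (.d (nat_lit 369) (nat_lit 337) (nat_lit 6480) (nat_lit 401) (nat_lit 6512)))) (.a (.f (nat_lit 560) (nat_lit 463) (nat_lit 7599) (.f (nat_lit 592) (nat_lit 465) (nat_lit 6608) (.d (nat_lit 591) (nat_lit 559) (nat_lit 5583) (nat_lit 623) (nat_lit 5615)))) (.f (nat_lit 463) (nat_lit 560) (nat_lit 7599) (.d (nat_lit 400) (nat_lit 368) (nat_lit 5487) (nat_lit 529) (nat_lit 4496)))))) (.a (.p (nat_lit 560) (.a (.d (nat_lit 592) (nat_lit 463) (nat_lit 7631) (nat_lit 465) (nat_lit 6608)) (.a (.f (nat_lit 465) (nat_lit 592) (nat_lit 6608) (.d (nat_lit 433) (nat_lit 401) (nat_lit 5520) (nat_lit 464) (nat_lit 6576))) (.a (.d (nat_lit 463) (nat_lit 464) (nat_lit 7599) (nat_lit 592) (nat_lit 7631)) (.f (nat_lit 464) (nat_lit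 463) (nat_lit 7599) (.d (nat_lit 433) (nat_lit 401) (nat_lit 6544) (nat_lit 465) (nat_lit 6576))))))) (.p (nat_lit 464) (.a (.f (nat_lit 400) (nat_lit 529) (nat_lit 4496) (.f (nat_lit 465) (nat_lit 368) (nat_lit 4464) (.d (nat_lit 560) (nat_lit 433) (nat_lit 6576) (nat_lit 592) (nat_lit 6608)))) (.a (.f (nat_lit 400) (nat_lit 529) (nat_lit 4496) (.d (nat_lit 368) (nat_lit 463) (nat_lit 5487) (nat_lit 465) (nat_lit 4464))) (.a (.f (nat_lit 560) (nat_lit 463) (nat_lit 7599) (.f (nat_lit 592) (nat_lit 465) (nat_lit 6608) (.d (nat_lit 591) (nat_lit 559) (nat_lit 5583) (nat_lit 623) (nat_lit 5615)))) (.f (nat_lit 463) (nat_lit 560) (nat_lit 7599) (.d (nat_lit 400) (nat_lit 368) (nat_lit 5487) (nat_lit 529) (nat_lit 4496)))))))))))))))))))))))))))) (.a (.p (nat_lit 494) (.a (.f (nat_lit 493) (nat_lit 529) (nat_lit 493) (.f (nat_lit 465) (nat_lit 464) (nat_lit 2509) (.f (nat_lit 497) (nat_lit 466) (nat_lit 2510) (.d (nat_lit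 525) (nat_lit 524) (nat_lit 1516) (nat_lit 526) (nat_lit 1517))))) (.a (.f (nat_lit 493) (nat_lit 529) (nat_lit 493) (.f (nat_lit 461) (nat_lit 460) (nat_lit 3532) (.f (nat_lit 525) (nat_lit 524) (nat_lit 1516) (.d (nat_lit 497) (nat_lit 462) (nat_lit 3533) (nat_lit 526) (nat_lit 1517))))) (.a (.p (nat_lit 497) (.a (.f (nat_lit 465) (nat_lit 466) (nat_lit 2510) (.f (nat_lit 433) (nat_lit 401) (nat_lit 5520) (.d (nat_lit 560) (nat_lit 464) (nat_lit 6576) (nat_lit 592) (nat_lit 6608)))) (.a (.f (nat_lit 465) (nat_lit 466) (nat_lit 2510) (.f (nat_lit 529) (nat_lit 530) (nat_lit 494) (.d (nat_lit 433) (nat_lit 401) (nat_lit 5520) (nat_lit 560) (nat_lit 5552)))) (.a (.f (nat_lit 530) (nat_lit 529) (nat_lit 494) (.f (nat_lit 498) (nat_lit 531) (nat_lit 495) (.d (nat_lit 466) (nat_lit 465) (nat_lit 2510) (nat_lit 467) (nat_lit 2511)))) (.a (.f (nat_lit 529) (nat_lit 530) (nat_lit 494) (.f (nat_lit 462) (nat_lit 461) (nat_lit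 3533) (.f (nat_lit 498) (nat_lit 463) (nat_lit 3534) (.f (nat_lit 499) (nat_lit 500) (nat_lit 1520) (.d (nat_lit 467) (nat_lit 466) (nat_lit 2511) (nat_lit 468) (nat_lit 2512)))))) (.f (nat_lit 529) (nat_lit 530) (nat_lit 494) (.f (nat_lit 462) (nat_lit 461) (nat_lit 3533) (.f (nat_lit 463) (nat_lit 498) (nat_lit 3534) (.f (nat_lit 560) (nat_lit 592) (nat_lit 7631) (.f (nat_lit 526) (nat_lit 525) (nat_lit 1517) (.f (nat_lit 558) (nat_lit 590) (nat_lit 6606) (.d (nat_lit 557) (nat_lit 559) (nat_lit 2573) (nat_lit 589) (nat_lit 5581))))))))))))) (.a (.f (nat_lit 493) (nat_lit 529) (nat_lit 493) (.f (nat_lit 464) (nat_lit 465) (nat_lit 2509) (.f (nat_lit 492) (nat_lit 463) (nat_lit 2508) (.d (nat_lit 524) (nat_lit 523) (nat_lit 1515) (nat_lit 525) (nat_lit 1516))))) (.a s130691 (.f (nat_lit 529) (nat_lit 493) (nat_lit 493) (.d (nat_lit 530) (nat_lit 497) (nat_lit 494) (nat_lit 531) (nat_lit 3567))))))))) (.a (.p (nat_lit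 494) (.a (.f (nat_lit 493) (nat_lit 529) (nat_lit 493) (.f (nat_lit 465) (nat_lit 464) (nat_lit 2509) (.f (nat_lit 497) (nat_lit 466) (nat_lit 2510) (.d (nat_lit 525) (nat_lit 524) (nat_lit 1516) (nat_lit 526) (nat_lit 1517))))) (.a (.f (nat_lit 529) (nat_lit 493) (nat_lit 493) (.d (nat_lit 530) (nat_lit 497) (nat_lit 494) (nat_lit 531) (nat_lit 3567))) (.a (.p (nat_lit 497) (.a (.f (nat_lit 465) (nat_lit 466) (nat_lit 2510) (.f (nat_lit 433) (nat_lit 401) (nat_lit 5520) (.d (nat_lit 560) (nat_lit 464) (nat_lit 6576) (nat_lit 592) (nat_lit 6608)))) (.a (.f (nat_lit 465) (nat_lit 466) (nat_lit 2510) (.f (nat_lit 529) (nat_lit 530) (nat_lit 494) (.d (nat_lit 433) (nat_lit 401) (nat_lit 5520) (nat_lit 560) (nat_lit 5552)))) (.a (.f (nat_lit 530) (nat_lit 529) (nat_lit 494) (.f (nat_lit 498) (nat_lit 531) (nat_lit 495) (.d (nat_lit 466) (nat_lit 465) (nat_lit 2510) (nat_lit 467) (nat_lit 2511)))) (.a s131066 (.p (nat_lit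 430) (.a (.f (nat_lit 462) (nat_lit 461) (nat_lit 3533) (.f (nat_lit 526) (nat_lit 525) (nat_lit 1517) (.f (nat_lit 399) (nat_lit 431) (nat_lit 6542) (.f (nat_lit 398) (nat_lit 367) (nat_lit 6510) (.d (nat_lit 397) (nat_lit 365) (nat_lit 7533) (nat_lit 429) (nat_lit 7565)))))) (.a (.p (nat_lit 432) (.a (.f (nat_lit 529) (nat_lit 530) (nat_lit 494) (.f (nat_lit 464) (nat_lit 400) (nat_lit 4496) (.f (nat_lit 433) (nat_lit 401) (nat_lit 6544) (.f (nat_lit 560) (nat_lit 465) (nat_lit 6576) (.f (nat_lit 592) (nat_lit 624) (nat_lit 6640) (.d (nat_lit 591) (nat_lit 559) (nat_lit 5583) (nat_lit 623) (nat_lit 5615))))))) (.a (.p (nat_lit 433) (.a (.f (nat_lit 465) (nat_lit 401) (nat_lit 5520) (.d (nat_lit 529) (nat_lit 530) (nat_lit 494) (nat_lit 560) (nat_lit 5552))) (.a (.f (nat_lit 529) (nat_lit 530) (nat_lit 494) (.d (nat_lit 465) (nat_lit 400) (nat_lit 7568) (nat_lit 401) (nat_lit 5520))) (.a (.f (nat_lit 401) (nat_lit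 465) (nat_lit 5520) (.f (nat_lit 431) (nat_lit 402) (nat_lit 2446) (.f (nat_lit 429) (nat_lit 400) (nat_lit 2445) (.d (nat_lit 397) (nat_lit 396) (nat_lit 3468) (nat_lit 398) (nat_lit 3469))))) (.a (.p (nat_lit 431) (.a (.f (nat_lit 530) (nat_lit 529) (nat_lit 494) (.f (nat_lit 402) (nat_lit 401) (nat_lit 2446) (.f (nat_lit 434) (nat_lit 403) (nat_lit 2447) (.f (nat_lit 399) (nat_lit 398) (nat_lit 3470) (.f (nat_lit 435) (nat_lit 400) (nat_lit 3471) (.f (nat_lit 467) (nat_lit 468) (nat_lit 432) (.d (nat_lit 531) (nat_lit 498) (nat_lit 495) (nat_lit 499) (nat_lit 7570)))))))) (.a (.f (nat_lit 398) (nat_lit 397) (nat_lit 3469) (.f (nat_lit 401) (nat_lit 402) (nat_lit 2446) (.f (nat_lit 400) (nat_lit 429) (nat_lit 2445) (.f (nat_lit 399) (nat_lit 434) (nat_lit 398) (.f (nat_lit 366) (nat_lit 365) (nat_lit 3437) (.f (nat_lit 334) (nat_lit 302) (nat_lit 4398) (.f (nat_lit 335) (nat_lit 303) (nat_lit 6446) (.f (nat_lit 369)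 (nat_lit 370) (nat_lit 2414) (.f (nat_lit 337) (nat_lit 305) (nat_lit 5424) (.f (nat_lit 336) (nat_lit 304) (nat_lit 7472) (.d (nat_lit 333) (nat_lit 301) (nat_lit 7469) (nat_lit 368) (nat_lit 333)))))))))))) (.a (.f (nat_lit 401) (nat_lit 402) (nat_lit 2446) (.f (nat_lit 429) (nat_lit 400) (nat_lit 2445) (.d (nat_lit 397) (nat_lit 396) (nat_lit 3468) (nat_lit 398) (nat_lit 3469)))) (.a (.f (nat_lit 401) (nat_lit 402) (nat_lit 2446) (.f (nat_lit 429) (nat_lit 400) (nat_lit 2445) (.f (nat_lit 460) (nat_lit 461) (nat_lit 1452) (.f (nat_lit 428) (nat_lit 459) (nat_lit 1451) (.d (nat_lit 396) (nat_lit 395) (nat_lit 3467) (nat_lit 397) (nat_lit 3468)))))) (.a (.f (nat_lit 398) (nat_lit 397) (nat_lit 3469) (.f (nat_lit 434) (nat_lit 399) (nat_lit 3470) (.d (nat_lit 402) (nat_lit 401) (nat_lit 2446) (nat_lit 403) (nat_lit 2447)))) (.a (.f (nat_lit 530) (nat_lit 529) (nat_lit 494) (.f (nat_lit 398) (nat_lit 397) (nat_lit 3469)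 (.f (nat_lit 434) (nat_lit 399) (nat_lit 3470) (.f (nat_lit 403) (nat_lit 402) (nat_lit 2447) (.f (nat_lit 435) (nat_lit 404) (nat_lit 2448) (.f (nat_lit 467) (nat_lit 468) (nat_lit 432) (.d (nat_lit 498) (nat_lit 499) (nat_lit 5522) (nat_lit 531) (nat_lit 495)))))))) (.f (nat_lit 397) (nat_lit 398) (nat_lit 3469) (.f (nat_lit 429) (nat_lit 396) (nat_lit 3468) (.f (nat_lit 460) (nat_lit 461) (nat_lit 1452) (.f (nat_lit 428) (nat_lit 459) (nat_lit 1451) (.d (nat_lit 400) (nat_lit 399) (nat_lit 2444) (nat_lit 401) (nat_lit 2445))))))))))))) (.f (nat_lit 529) (nat_lit 530) (nat_lit 494) (.d (nat_lit 465) (nat_lit 400) (nat_lit 7568) (nat_lit 560) (nat_lit 5552)))))))) (.a (.f (nat_lit 529) (nat_lit 530) (nat_lit 494) (.f (nat_lit 464) (nat_lit 400) (nat_lit 4496) (.f (nat_lit 433) (nat_lit 401) (nat_lit 6544) (.f (nat_lit 431) (nat_lit 399) (nat_lit 7567) (.f (nat_lit 429) (nat_lit 465) (nat_lit 429) (.d (nat_lit 397)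 (nat_lit 396) (nat_lit 3468) (nat_lit 398) (nat_lit 3469))))))) (.a (.p (nat_lit 431) (.a (.f (nat_lit 464) (nat_lit 399) (nat_lit 7567) (.f (nat_lit 433) (nat_lit 401) (nat_lit 6544) (.d (nat_lit 465) (nat_lit 429) (nat_lit 429) (nat_lit 560) (nat_lit 6576)))) (.a (.p (nat_lit 429) (.a (.f (nat_lit 401) (nat_lit 400) (nat_lit 2445) (.d (nat_lit 433) (nat_lit 402) (nat_lit 2446) (nat_lit 465) (nat_lit 5520))) (.a (.f (nat_lit 400) (nat_lit 401) (nat_lit 2445) (.f (nat_lit 428) (nat_lit 399) (nat_lit 2444) (.d (nat_lit 460) (nat_lit 459) (nat_lit 1451) (nat_lit 461) (nat_lit 1452)))) (.a (.f (nat_lit 397) (nat_lit 396) (nat_lit 3468) (.f (nat_lit 433) (nat_lit 398) (nat_lit 3469) (.d (nat_lit 401) (nat_lit 402) (nat_lit 2446) (nat_lit 465) (nat_lit 5520)))) (.f (nat_lit 397) (nat_lit 396) (nat_lit 3468) (.f (nat_lit 398) (nat_lit 433) (nat_lit 3469) (.f (nat_lit 460) (nat_lit 461) (nat_lit 1452) (.f (nat_lit 428) (nat_lit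 459) (nat_lit 1451) (.d (nat_lit 427) (nat_lit 399) (nat_lit 2443) (nat_lit 426) (nat_lit 2442)))))))))) (.a (.p (nat_lit 433) (.a (.d (nat_lit 401) (nat_lit 402) (nat_lit 2446) (nat_lit 465) (nat_lit 5520)) (.a (.f (nat_lit 398) (nat_lit 397) (nat_lit 3469) (.f (nat_lit 434) (nat_lit 399) (nat_lit 3470) (.d (nat_lit 402) (nat_lit 401) (nat_lit 2446) (nat_lit 403) (nat_lit 2447)))) (.f (nat_lit 399) (nat_lit 464) (nat_lit 7567) (.d (nat_lit 398) (nat_lit 397) (nat_lit 3469) (nat_lit 434) (nat_lit 3470)))))) (.a (.p (nat_lit 429) (.a (.f (nat_lit 401) (nat_lit 400) (nat_lit 2445) (.d (nat_lit 433) (nat_lit 402) (nat_lit 2446) (nat_lit 465) (nat_lit 5520))) (.a (.f (nat_lit 397) (nat_lit 396) (nat_lit 3468) (.f (nat_lit 401) (nat_lit 400) (nat_lit 2445) (.d (nat_lit 433) (nat_lit 398) (nat_lit 3469) (nat_lit 402) (nat_lit 2446)))) (.f (nat_lit 396) (nat_lit 397) (nat_lit 3468) (.f (nat_lit 428) (nat_lit 395) (nat_lit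 3467) (.d (nat_lit 460) (nat_lit 459) (nat_lit 1451) (nat_lit 461) (nat_lit 1452))))))) (.a s131163 (.f (nat_lit 464) (nat_lit 399) (nat_lit 7567) (.f (nat_lit 429) (nat_lit 465) (nat_lit 429) (.f (nat_lit 396) (nat_lit 397) (nat_lit 3468) (.f (nat_lit 428) (nat_lit 395) (nat_lit 3467) (.d (nat_lit 460) (nat_lit 459) (nat_lit 1451) (nat_lit 461) (nat_lit 1452)))))))))))) (.a (.p (nat_lit 431) (.a (.f (nat_lit 464) (nat_lit 399) (nat_lit 7567) (.d (nat_lit 529) (nat_lit 400) (nat_lit 4496) (nat_lit 530) (nat_lit 494))) (.a s131163 (.a (.f (nat_lit 529) (nat_lit 530) (nat_lit 494) (.f (nat_lit 400) (nat_lit 464) (nat_lit 4496) (.f (nat_lit 429) (nat_lit 401) (nat_lit 2445) (.f (nat_lit 396) (nat_lit 397) (nat_lit 3468) (.f (nat_lit 428) (nat_lit 395) (nat_lit 3467) (.d (nat_lit 460) (nat_lit 459) (nat_lit 1451) (nat_lit 461) (nat_lit 1452))))))) s131191)))) (.a (.f (nat_lit 529) (nat_lit 530) (nat_lit 494) (.f (nat_lit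 464) (nat_lit 400) (nat_lit 4496) (.f (nat_lit 431) (nat_lit 399) (nat_lit 7567) (.f (nat_lit 429) (nat_lit 465) (nat_lit 429) (.f (nat_lit 396) (nat_lit 397) (nat_lit 3468) (.f (nat_lit 428) (nat_lit 395) (nat_lit 3467) (.d (nat_lit 460) (nat_lit 459) (nat_lit 1451) (nat_lit 461) (nat_lit 1452)))))))) (.p (nat_lit 431) (.a (.f (nat_lit 464) (nat_lit 399) (nat_lit 7567) (.f (nat_lit 433) (nat_lit 401) (nat_lit 6544) (.d (nat_lit 465) (nat_lit 429) (nat_lit 429) (nat_lit 560) (nat_lit 6576)))) (.a (.p (nat_lit 433) (.a (.d (nat_lit 401) (nat_lit 402) (nat_lit 2446) (nat_lit 465) (nat_lit 5520)) (.a (.f (nat_lit 398) (nat_lit 397) (nat_lit 3469) (.f (nat_lit 434) (nat_lit 399) (nat_lit 3470) (.d (nat_lit 402) (nat_lit 401) (nat_lit 2446) (nat_lit 403) (nat_lit 2447)))) (.a (.f (nat_lit 530) (nat_lit 529) (nat_lit 494) (.f (nat_lit 398) (nat_lit 397) (nat_lit 3469) (.f (nat_lit 434) (nat_lit 399) (nat_lit 3470) (.f (nat_lit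 403) (nat_lit 402) (nat_lit 2447) (.f (nat_lit 435) (nat_lit 404) (nat_lit 2448) (.f (nat_lit 467) (nat_lit 468) (nat_lit 432) (.d (nat_lit 498) (nat_lit 499) (nat_lit 5522) (nat_lit 531) (nat_lit 495)))))))) (.f (nat_lit 529) (nat_lit 530) (nat_lit 494) (.d (nat_lit 465) (nat_lit 401) (nat_lit 5520) (nat_lit 560) (nat_lit 5552))))))) (.a (.p (nat_lit 433) (.a (.d (nat_lit 401) (nat_lit 402) (nat_lit 2446) (nat_lit 465) (nat_lit 5520)) (.a (.f (nat_lit 398) (nat_lit 397) (nat_lit 3469) (.f (nat_lit 434) (nat_lit 399) (nat_lit 3470) (.d (nat_lit 402) (nat_lit 401) (nat_lit 2446) (nat_lit 403) (nat_lit 2447)))) (.f (nat_lit 399) (nat_lit 464) (nat_lit 7567) (.d (nat_lit 398) (nat_lit 397) (nat_lit 3469) (nat_lit 434) (nat_lit 3470)))))) (.a (.p (nat_lit 429) (.a (.f (nat_lit 397) (nat_lit 396) (nat_lit 3468) (.f (nat_lit 433) (nat_lit 398) (nat_lit 3469) (.d (nat_lit 401) (nat_lit 402) (nat_lit 2446) (nat_lit 465) (nat_lit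 5520)))) (.a (.f (nat_lit 396) (nat_lit 397) (nat_lit 3468) (.f (nat_lit 428) (nat_lit 395) (nat_lit 3467) (.d (nat_lit 460) (nat_lit 459) (nat_lit 1451) (nat_lit 461) (nat_lit 1452)))) (.f (nat_lit 465) (nat_lit 464) (nat_lit 429) (.f (nat_lit 529) (nat_lit 530) (nat_lit 494) (.d (nat_lit 433) (nat_lit 401) (nat_lit 5520) (nat_lit 560) (nat_lit 5552))))))) (.a s131191 (.f (nat_lit 464) (nat_lit 399) (nat_lit 7567) (.f (nat_lit 429) (nat_lit 465) (nat_lit 429) (.f (nat_lit 396) (nat_lit 397) (nat_lit 3468) (.f (nat_lit 428) (nat_lit 395) (nat_lit 3467) (.d (nat_lit 460) (nat_lit 459) (nat_lit 1451) (nat_lit 461) (nat_lit 1452))))))))))))))))))) (.a (.p (nat_lit 433) (.a (.f (nat_lit 465) (nat_lit 401) (nat_lit 5520) (.d (nat_lit 560) (nat_lit 464) (nat_lit 6576) (nat_lit 592) (nat_lit 6608))) (.a (.f (nat_lit 529) (nat_lit 530) (nat_lit 494) (.d (nat_lit 465) (nat_lit 401) (nat_lit 5520) (nat_lit 560) (nat_lit 5552)))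 (.a (.f (nat_lit 462) (nat_lit 461) (nat_lit 3533) (.f (nat_lit 526) (nat_lit 525) (nat_lit 1517) (.f (nat_lit 397) (nat_lit 429) (nat_lit 7565) (.f (nat_lit 398) (nat_lit 365) (nat_lit 7533) (.f (nat_lit 399) (nat_lit 367) (nat_lit 6510) (.f (nat_lit 400) (nat_lit 432) (nat_lit 397) (.f (nat_lit 401) (nat_lit 434) (nat_lit 398) (.d (nat_lit 369) (nat_lit 368) (nat_lit 2413) (nat_lit 370) (nat_lit 2414))))))))) (.f (nat_lit 529) (nat_lit 530) (nat_lit 494) (.f (nat_lit 560) (nat_lit 465) (nat_lit 5552) (.f (nat_lit 592) (nat_lit 624) (nat_lit 6640) (.f (nat_lit 462) (nat_lit 461) (nat_lit 3533) (.f (nat_lit 526) (nat_lit 525) (nat_lit 1517) (.f (nat_lit 591) (nat_lit 623) (nat_lit 5615) (.d (nat_lit 559) (nat_lit 464) (nat_lit 5583) (nat_lit 558) (nat_lit 4558)))))))))))) (.a (.p (nat_lit 433) (.a (.f (nat_lit 465) (nat_lit 401) (nat_lit 5520) (.d (nat_lit 560) (nat_lit 464) (nat_lit 6576) (nat_lit 592) (nat_lit 6608)))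 (.a (.f (nat_lit 529) (nat_lit 530) (nat_lit 494) (.d (nat_lit 465) (nat_lit 401) (nat_lit 5520) (nat_lit 560) (nat_lit 5552))) (.a (.f (nat_lit 401) (nat_lit 465) (nat_lit 5520) (.f (nat_lit 432) (nat_lit 464) (nat_lit 6544) (.f (nat_lit 431) (nat_lit 402) (nat_lit 2446) (.f (nat_lit 462) (nat_lit 461) (nat_lit 3533) (.d (nat_lit 526) (nat_lit 399) (nat_lit 6542) (nat_lit 525) (nat_lit 1517)))))) (.a (.f (nat_lit 462) (nat_lit 461) (nat_lit 3533) (.f (nat_lit 526) (nat_lit 525) (nat_lit 1517) (.f (nat_lit 399) (nat_lit 431) (nat_lit 6542) (.f (nat_lit 398) (nat_lit 367) (nat_lit 6510) (.f (nat_lit 397) (nat_lit 365) (nat_lit 7533) (.f (nat_lit 400) (nat_lit 432) (nat_lit 397) (.f (nat_lit 401) (nat_lit 434) (nat_lit 398) (.d (nat_lit 369) (nat_lit 368) (nat_lit 2413) (nat_lit 370) (nat_lit 2414))))))))) (.f (nat_lit 529) (nat_lit 530) (nat_lit 494) (.f (nat_lit 560) (nat_lit 465) (nat_lit 5552) (.f (nat_lit 592) (nat_lit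 624) (nat_lit 6640) (.f (nat_lit 462) (nat_lit 461) (nat_lit 3533) (.f (nat_lit 526) (nat_lit 525) (nat_lit 1517) (.f (nat_lit 591) (nat_lit 623) (nat_lit 5615) (.d (nat_lit 559) (nat_lit 464) (nat_lit 5583) (nat_lit 558) (nat_lit 4558))))))))))))) (.a (.p (nat_lit 432) (.a (.f (nat_lit 529) (nat_lit 530) (nat_lit 494) (.f (nat_lit 464) (nat_lit 400) (nat_lit 4496) (.f (nat_lit 433) (nat_lit 401) (nat_lit 6544) (.f (nat_lit 560) (nat_lit 465) (nat_lit 6576) (.f (nat_lit 592) (nat_lit 624) (nat_lit 6640) (.d (nat_lit 591) (nat_lit 559) (nat_lit 5583) (nat_lit 623) (nat_lit 5615))))))) (.a (.p (nat_lit 431) (.a (.p (nat_lit 433) (.a (.d (nat_lit 401) (nat_lit 402) (nat_lit 2446) (nat_lit 465) (nat_lit 5520)) (.a (.f (nat_lit 530) (nat_lit 529) (nat_lit 494) (.f (nat_lit 402) (nat_lit 401) (nat_lit 2446) (.f (nat_lit 434) (nat_lit 403) (nat_lit 2447) (.f (nat_lit 399) (nat_lit 398) (nat_lit 3470) (.f (nat_lit 435) (nat_lit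 400) (nat_lit 3471) (.f (nat_lit 467) (nat_lit 468) (nat_lit 432) (.d (nat_lit 531) (nat_lit 498) (nat_lit 495) (nat_lit 499) (nat_lit 7570)))))))) (.f (nat_lit 529) (nat_lit 530) (nat_lit 494) (.d (nat_lit 465) (nat_lit 400) (nat_lit 7568) (nat_lit 560) (nat_lit 5552)))))) (.a (.f (nat_lit 526) (nat_lit 525) (nat_lit 1517) (.f (nat_lit 462) (nat_lit 399) (nat_lit 6542) (.f (nat_lit 397) (nat_lit 429) (nat_lit 7565) (.d (nat_lit 398) (nat_lit 365) (nat_lit 7533) (nat_lit 433) (nat_lit 3469))))) (.a (.p (nat_lit 429) (.a (.f (nat_lit 401) (nat_lit 400) (nat_lit 2445) (.d (nat_lit 433) (nat_lit 402) (nat_lit 2446) (nat_lit 465) (nat_lit 5520))) (.a (.f (nat_lit 397) (nat_lit 396) (nat_lit 3468) (.f (nat_lit 401) (nat_lit 400) (nat_lit 2445) (.d (nat_lit 433) (nat_lit 398) (nat_lit 3469) (nat_lit 402) (nat_lit 2446)))) (.f (nat_lit 397) (nat_lit 396) (nat_lit 3468) (.d (nat_lit 526) (nat_lit 462) (nat_lit 7565) (nat_lit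 525) (nat_lit 1517)))))) (.a (.f (nat_lit 526) (nat_lit 525) (nat_lit 1517) (.f (nat_lit 462) (nat_lit 399) (nat_lit 6542) (.f (nat_lit 429) (nat_lit 397) (nat_lit 7565) (.f (nat_lit 401) (nat_lit 400) (nat_lit 2445) (.d (nat_lit 433) (nat_lit 402) (nat_lit 2446) (nat_lit 465) (nat_lit 5520)))))) s131265))))) (.a (.f (nat_lit 529) (nat_lit 530) (nat_lit 494) (.f (nat_lit 464) (nat_lit 400) (nat_lit 4496) (.f (nat_lit 433) (nat_lit 401) (nat_lit 6544) (.f (nat_lit 431) (nat_lit 399) (nat_lit 7567) (.f (nat_lit 429) (nat_lit 465) (nat_lit 429) (.d (nat_lit 397) (nat_lit 396) (nat_lit 3468) (nat_lit 398) (nat_lit 3469))))))) (.a (.p (nat_lit 431) (.a (.f (nat_lit 464) (nat_lit 399) (nat_lit 7567) (.f (nat_lit 433) (nat_lit 401) (nat_lit 6544) (.d (nat_lit 465) (nat_lit 429) (nat_lit 429) (nat_lit 560) (nat_lit 6576)))) (.a (.f (nat_lit 526) (nat_lit 525) (nat_lit 1517) (.f (nat_lit 462) (nat_lit 399) (nat_lit 6542) (.f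 (nat_lit 397) (nat_lit 429) (nat_lit 7565) (.d (nat_lit 398) (nat_lit 365) (nat_lit 7533) (nat_lit 433) (nat_lit 3469))))) (.a (.p (nat_lit 433) (.a (.d (nat_lit 401) (nat_lit 402) (nat_lit 2446) (nat_lit 465) (nat_lit 5520)) (.a (.f (nat_lit 398) (nat_lit 397) (nat_lit 3469) (.f (nat_lit 434) (nat_lit 399) (nat_lit 3470) (.d (nat_lit 402) (nat_lit 401) (nat_lit 2446) (nat_lit 403) (nat_lit 2447)))) (.f (nat_lit 399) (nat_lit 464) (nat_lit 7567) (.d (nat_lit 398) (nat_lit 397) (nat_lit 3469) (nat_lit 434) (nat_lit 3470)))))) (.a (.p (nat_lit 429) (.a (.f (nat_lit 401) (nat_lit 400) (nat_lit 2445) (.d (nat_lit 433) (nat_lit 402) (nat_lit 2446) (nat_lit 465) (nat_lit 5520))) (.a (.f (nat_lit 397) (nat_lit 396) (nat_lit 3468) (.f (nat_lit 401) (nat_lit 400) (nat_lit 2445) (.d (nat_lit 433) (nat_lit 398) (nat_lit 3469) (nat_lit 402) (nat_lit 2446)))) (.f (nat_lit 397) (nat_lit 396) (nat_lit 3468) (.d (nat_lit 526) (nat_lit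 462) (nat_lit 7565) (nat_lit 525) (nat_lit 1517)))))) s131265))))) (.a (.f (nat_lit 529) (nat_lit 530) (nat_lit 494) (.f (nat_lit 464) (nat_lit 400) (nat_lit 4496) (.f (nat_lit 431) (nat_lit 399) (nat_lit 7567) (.f (nat_lit 433) (nat_lit 401) (nat_lit 6544) (.f (nat_lit 397) (nat_lit 398) (nat_lit 3469) (.f (nat_lit 429) (nat_lit 396) (nat_lit 3468) (.d (nat_lit 526) (nat_lit 462) (nat_lit 7565) (nat_lit 525) (nat_lit 1517)))))))) (.a (.f (nat_lit 529) (nat_lit 530) (nat_lit 494) (.f (nat_lit 464) (nat_lit 400) (nat_lit 4496) (.f (nat_lit 431) (nat_lit 399) (nat_lit 7567) (.f (nat_lit 429) (nat_lit 465) (nat_lit 429) (.f (nat_lit 397) (nat_lit 396) (nat_lit 3468) (.d (nat_lit 526) (nat_lit 462) (nat_lit 7565) (nat_lit 525) (nat_lit 1517))))))) (.p (nat_lit 433) (.a (.f (nat_lit 465) (nat_lit 401) (nat_lit 5520) (.d (nat_lit 529) (nat_lit 530) (nat_lit 494) (nat_lit 560) (nat_lit 5552))) (.a (.d (nat_lit 401) (nat_lit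 464) (nat_lit 6544) (nat_lit 465) (nat_lit 5520)) (.a (.f (nat_lit 464) (nat_lit 401) (nat_lit 6544) (.f (nat_lit 431) (nat_lit 399) (nat_lit 7567) (.f (nat_lit 397) (nat_lit 398) (nat_lit 3469) (.f (nat_lit 429) (nat_lit 396) (nat_lit 3468) (.d (nat_lit 526) (nat_lit 462) (nat_lit 7565) (nat_lit 525) (nat_lit 1517)))))) (.f (nat_lit 529) (nat_lit 530) (nat_lit 494) (.f (nat_lit 560) (nat_lit 465) (nat_lit 5552) (.f (nat_lit 592) (nat_lit 624) (nat_lit 6640) (.f (nat_lit 591) (nat_lit 623) (nat_lit 5615) (.f (nat_lit 593) (nat_lit 625) (nat_lit 4592) (.f (nat_lit 559) (nat_lit 464) (nat_lit 5583) (.d (nat_lit 558) (nat_lit 557) (nat_lit 557) (nat_lit 594) (nat_lit 3630))))))))))))))))))) (.a (.p (nat_lit 433) (.a (.f (nat_lit 465) (nat_lit 401) (nat_lit 5520) (.d (nat_lit 560) (nat_lit 464) (nat_lit 6576) (nat_lit 592) (nat_lit 6608))) (.a (.f (nat_lit 529) (nat_lit 530) (nat_lit 494) (.d (nat_lit 465) (nat_lit 401)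 (nat_lit 5520) (nat_lit 560) (nat_lit 5552))) (.a (.f (nat_lit 529) (nat_lit 530) (nat_lit 494) (.f (nat_lit 465) (nat_lit 401) (nat_lit 5520) (.f (nat_lit 432) (nat_lit 400) (nat_lit 7568) (.f (nat_lit 462) (nat_lit 461) (nat_lit 3533) (.f (nat_lit 526) (nat_lit 525) (nat_lit 1517) (.f (nat_lit 397) (nat_lit 429) (nat_lit 7565) (.d (nat_lit 398) (nat_lit 365) (nat_lit 7533) (nat_lit 431) (nat_lit 3469)))))))) (.a (.f (nat_lit 529) (nat_lit 530) (nat_lit 494) (.f (nat_lit 462) (nat_lit 461) (nat_lit 3533) (.f (nat_lit 526) (nat_lit 525) (nat_lit 1517) (.f (nat_lit 397) (nat_lit 429) (nat_lit 7565) (.f (nat_lit 398) (nat_lit 365) (nat_lit 7533) (.f (nat_lit 432) (nat_lit 431) (nat_lit 3469) (.d (nat_lit 464) (nat_lit 400) (nat_lit 4496) (nat_lit 401) (nat_lit 6544)))))))) (.f (nat_lit 529) (nat_lit 530) (nat_lit 494) (.f (nat_lit 560) (nat_lit 465) (nat_lit 5552) (.f (nat_lit 592) (nat_lit 624) (nat_lit 6640) (.f (nat_lit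 462) (nat_lit 461) (nat_lit 3533) (.f (nat_lit 526) (nat_lit 525) (nat_lit 1517) (.f (nat_lit 591) (nat_lit 623) (nat_lit 5615) (.d (nat_lit 559) (nat_lit 464) (nat_lit 5583) (nat_lit 558) (nat_lit 4558))))))))))))) (.a (.p (nat_lit 432) (.a (.f (nat_lit 529) (nat_lit 530) (nat_lit 494) (.f (nat_lit 464) (nat_lit 400) (nat_lit 4496) (.f (nat_lit 433) (nat_lit 401) (nat_lit 6544) (.f (nat_lit 560) (nat_lit 465) (nat_lit 6576) (.f (nat_lit 592) (nat_lit 624) (nat_lit 6640) (.d (nat_lit 591) (nat_lit 559) (nat_lit 5583) (nat_lit 623) (nat_lit 5615))))))) (.a (.f (nat_lit 462) (nat_lit 461) (nat_lit 3533) (.f (nat_lit 526) (nat_lit 525) (nat_lit 1517) (.f (nat_lit 431) (nat_lit 399) (nat_lit 6542) (.f (nat_lit 429) (nat_lit 397) (nat_lit 7565) (.f (nat_lit 401) (nat_lit 400) (nat_lit 2445) (.d (nat_lit 433) (nat_lit 402) (nat_lit 2446) (nat_lit 465) (nat_lit 5520))))))) (.a (.f (nat_lit 529) (nat_lit 530) (nat_lit 494)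 (.f (nat_lit 462) (nat_lit 461) (nat_lit 3533) (.f (nat_lit 526) (nat_lit 525) (nat_lit 1517) (.f (nat_lit 431) (nat_lit 399) (nat_lit 6542) (.f (nat_lit 429) (nat_lit 397) (nat_lit 7565) (.d (nat_lit 400) (nat_lit 401) (nat_lit 2445) (nat_lit 464) (nat_lit 4496))))))) (.f (nat_lit 529) (nat_lit 530) (nat_lit 494) (.f (nat_lit 462) (nat_lit 461) (nat_lit 3533) (.f (nat_lit 526) (nat_lit 525) (nat_lit 1517) (.f (nat_lit 431) (nat_lit 399) (nat_lit 6542) (.f (nat_lit 429) (nat_lit 397) (nat_lit 7565) (.f (nat_lit 465) (nat_lit 464) (nat_lit 429) (.d (nat_lit 560) (nat_lit 433) (nat_lit 5552) (nat_lit 592) (nat_lit 6608)))))))))))) (.p (nat_lit 431) (.a (.f (nat_lit 462) (nat_lit 461) (nat_lit 3533) (.d (nat_lit 526) (nat_lit 399) (nat_lit 6542) (nat_lit 525) (nat_lit 1517))) (.a (.p (nat_lit 432) (.a (.f (nat_lit 464) (nat_lit 399) (nat_lit 7567) (.d (nat_lit 529) (nat_lit 400) (nat_lit 4496) (nat_lit 530) (nat_lit 494)))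 (.a (.p (nat_lit 433) (.a (.d (nat_lit 401) (nat_lit 402) (nat_lit 2446) (nat_lit 465) (nat_lit 5520)) (.a (.f (nat_lit 530) (nat_lit 529) (nat_lit 494) (.f (nat_lit 402) (nat_lit 401) (nat_lit 2446) (.f (nat_lit 434) (nat_lit 403) (nat_lit 2447) (.f (nat_lit 399) (nat_lit 398) (nat_lit 3470) (.f (nat_lit 435) (nat_lit 400) (nat_lit 3471) (.f (nat_lit 467) (nat_lit 468) (nat_lit 432) (.d (nat_lit 531) (nat_lit 498) (nat_lit 495) (nat_lit 499) (nat_lit 7570)))))))) (.f (nat_lit 529) (nat_lit 530) (nat_lit 494) (.d (nat_lit 465) (nat_lit 400) (nat_lit 7568) (nat_lit 560) (nat_lit 5552)))))) (.a (.f (nat_lit 464) (nat_lit 399) (nat_lit 7567) (.f (nat_lit 433) (nat_lit 401) (nat_lit 6544) (.d (nat_lit 465) (nat_lit 429) (nat_lit 429) (nat_lit 560) (nat_lit 6576)))) (.f (nat_lit 529) (nat_lit 530) (nat_lit 494) (.f (nat_lit 464) (nat_lit 400) (nat_lit 4496) (.f (nat_lit 433) (nat_lit 401) (nat_lit 6544) (.d (nat_lit 465)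 (nat_lit 429) (nat_lit 429) (nat_lit 560) (nat_lit 6576))))))))) (.p (nat_lit 432) (.a (.f (nat_lit 529) (nat_lit 530) (nat_lit 494) (.f (nat_lit 464) (nat_lit 400) (nat_lit 4496) (.f (nat_lit 433) (nat_lit 401) (nat_lit 6544) (.d (nat_lit 465) (nat_lit 429) (nat_lit 429) (nat_lit 560) (nat_lit 6576))))) (.a (.f (nat_lit 461) (nat_lit 462) (nat_lit 3533) (.f (nat_lit 429) (nat_lit 460) (nat_lit 1452) (.f (nat_lit 401) (nat_lit 400) (nat_lit 2445) (.d (nat_lit 433) (nat_lit 402) (nat_lit 2446) (nat_lit 465) (nat_lit 5520))))) (.a (.f (nat_lit 529) (nat_lit 530) (nat_lit 494) (.f (nat_lit 464) (nat_lit 400) (nat_lit 4496) (.f (nat_lit 433) (nat_lit 401) (nat_lit 6544) (.f (nat_lit 560) (nat_lit 465) (nat_lit 6576) (.f (nat_lit 592) (nat_lit 624) (nat_lit 6640) (.d (nat_lit 591) (nat_lit 559) (nat_lit 5583) (nat_lit 623) (nat_lit 5615))))))) (.a (.f (nat_lit 529) (nat_lit 530) (nat_lit 494) (.f (nat_lit 461) (nat_lit 462)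 (nat_lit 3533) (.f (nat_lit 429) (nat_lit 460) (nat_lit 1452) (.d (nat_lit 400) (nat_lit 401) (nat_lit 2445) (nat_lit 464) (nat_lit 4496))))) (.a (.f (nat_lit 461) (nat_lit 462) (nat_lit 3533) (.f (nat_lit 429) (nat_lit 460) (nat_lit 1452) (.f (nat_lit 465) (nat_lit 464) (nat_lit 429) (.f (nat_lit 433) (nat_lit 401) (nat_lit 5520) (.d (nat_lit 529) (nat_lit 530) (nat_lit 494) (nat_lit 560) (nat_lit 5552)))))) (.f (nat_lit 529) (nat_lit 530) (nat_lit 494) (.f (nat_lit 461) (nat_lit 462) (nat_lit 3533) (.f (nat_lit 429) (nat_lit 460) (nat_lit 1452) (.d (nat_lit 464) (nat_lit 400) (nat_lit 4496) (nat_lit 465) (nat_lit 429))))))))))))))))))))))))))) (.a (.f (nat_lit 493) (nat_lit 529) (nat_lit 493) (.f (nat_lit 460) (nat_lit 461) (nat_lit 3532) (.f (nat_lit 492) (nat_lit 459) (nat_lit 3531) (.d (nat_lit 524) (nat_lit 523) (nat_lit 1515) (nat_lit 525) (nat_lit 1516))))) s131362))))) (.a (.p (nat_lit 494) (.a (.f (nat_lit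 493) (nat_lit 529) (nat_lit 493) (.f (nat_lit 461) (nat_lit 460) (nat_lit 3532) (.f (nat_lit 525) (nat_lit 524) (nat_lit 1516) (.d (nat_lit 497) (nat_lit 462) (nat_lit 3533) (nat_lit 526) (nat_lit 1517))))) (.a (.f (nat_lit 529) (nat_lit 493) (nat_lit 493) (.d (nat_lit 530) (nat_lit 497) (nat_lit 494) (nat_lit 531) (nat_lit 3567))) (.a (.p (nat_lit 497) (.a (.f (nat_lit 465) (nat_lit 466) (nat_lit 2510) (.f (nat_lit 529) (nat_lit 530) (nat_lit 494) (.d (nat_lit 433) (nat_lit 401) (nat_lit 5520) (nat_lit 560) (nat_lit 5552)))) (.a (.f (nat_lit 530) (nat_lit 529) (nat_lit 494) (.f (nat_lit 498) (nat_lit 531) (nat_lit 495) (.d (nat_lit 466) (nat_lit 465) (nat_lit 2510) (nat_lit 467) (nat_lit 2511)))) (.f (nat_lit 462) (nat_lit 461) (nat_lit 3533) (.f (nat_lit 463) (nat_lit 498) (nat_lit 3534) (.f (nat_lit 431) (nat_lit 399) (nat_lit 4495) (.d (nat_lit 526) (nat_lit 525) (nat_lit 1517) (nat_lit 558) (nat_lit 6574))))))))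 (.a (.f (nat_lit 493) (nat_lit 529) (nat_lit 493) (.f (nat_lit 460) (nat_lit 461) (nat_lit 3532) (.f (nat_lit 492) (nat_lit 459) (nat_lit 3531) (.d (nat_lit 524) (nat_lit 523) (nat_lit 1515) (nat_lit 525) (nat_lit 1516))))) s131432))))) (.a (.p (nat_lit 494) (.a (.f (nat_lit 493) (nat_lit 529) (nat_lit 493) (.f (nat_lit 465) (nat_lit 464) (nat_lit 2509) (.f (nat_lit 497) (nat_lit 466) (nat_lit 2510) (.d (nat_lit 525) (nat_lit 524) (nat_lit 1516) (nat_lit 526) (nat_lit 1517))))) (.a (.f (nat_lit 493) (nat_lit 529) (nat_lit 493) (.f (nat_lit 461) (nat_lit 460) (nat_lit 3532) (.f (nat_lit 525) (nat_lit 524) (nat_lit 1516) (.d (nat_lit 497) (nat_lit 462) (nat_lit 3533) (nat_lit 526) (nat_lit 1517))))) (.a (.p (nat_lit 497) (.a (.f (nat_lit 530) (nat_lit 529) (nat_lit 494) (.f (nat_lit 498) (nat_lit 531) (nat_lit 495) (.d (nat_lit 466) (nat_lit 465) (nat_lit 2510) (nat_lit 467) (nat_lit 2511)))) (.a (.f (nat_lit 462) (nat_lit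 461) (nat_lit 3533) (.f (nat_lit 463) (nat_lit 498) (nat_lit 3534) (.f (nat_lit 431) (nat_lit 399) (nat_lit 4495) (.d (nat_lit 526) (nat_lit 525) (nat_lit 1517) (nat_lit 558) (nat_lit 6574))))) (.f (nat_lit 465) (nat_lit 466) (nat_lit 2510) (.f (nat_lit 529) (nat_lit 530) (nat_lit 494) (.f (nat_lit 433) (nat_lit 401) (nat_lit 5520) (.f (nat_lit 432) (nat_lit 400) (nat_lit 7568) (.f (nat_lit 434) (nat_lit 402) (nat_lit 6545) (.f (nat_lit 462) (nat_lit 461) (nat_lit 3533) (.d (nat_lit 463) (nat_lit 431) (nat_lit 1454) (nat_lit 464) (nat_lit 2478))))))))))) (.a (.f (nat_lit 493) (nat_lit 529) (nat_lit 493) (.f (nat_lit 464) (nat_lit 465) (nat_lit 2509) (.f (nat_lit 492) (nat_lit 463) (nat_lit 2508) (.d (nat_lit 524) (nat_lit 523) (nat_lit 1515) (nat_lit 525) (nat_lit 1516))))) (.a s131362 (.f (nat_lit 529) (nat_lit 493) (nat_lit 493) (.d (nat_lit 530) (nat_lit 497) (nat_lit 494) (nat_lit 531) (nat_lit 3567))))))))) (.a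 (.p (nat_lit 494) (.a (.f (nat_lit 493) (nat_lit 529) (nat_lit 493) (.f (nat_lit 464) (nat_lit 465) (nat_lit 2509) (.f (nat_lit 463) (nat_lit 492) (nat_lit 2508) (.d (nat_lit 560) (nat_lit 431) (nat_lit 7599) (nat_lit 592) (nat_lit 7631))))) (.a (.f (nat_lit 493) (nat_lit 529) (nat_lit 493) (.f (nat_lit 465) (nat_lit 464) (nat_lit 2509) (.f (nat_lit 497) (nat_lit 466) (nat_lit 2510) (.d (nat_lit 525) (nat_lit 524) (nat_lit 1516) (nat_lit 526) (nat_lit 1517))))) (.a (.f (nat_lit 493) (nat_lit 529) (nat_lit 493) (.f (nat_lit 461) (nat_lit 460) (nat_lit 3532) (.f (nat_lit 525) (nat_lit 524) (nat_lit 1516) (.d (nat_lit 497) (nat_lit 462) (nat_lit 3533) (nat_lit 526) (nat_lit 1517))))) (.a (.p (nat_lit 497) (.a (.f (nat_lit 530) (nat_lit 529) (nat_lit 494) (.f (nat_lit 498) (nat_lit 531) (nat_lit 495) (.d (nat_lit 466) (nat_lit 465) (nat_lit 2510) (nat_lit 467) (nat_lit 2511)))) (.a (.f (nat_lit 462) (nat_lit 461) (nat_lit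 3533) (.f (nat_lit 463) (nat_lit 498) (nat_lit 3534) (.f (nat_lit 431) (nat_lit 399) (nat_lit 4495) (.d (nat_lit 526) (nat_lit 525) (nat_lit 1517) (nat_lit 558) (nat_lit 6574))))) (.f (nat_lit 465) (nat_lit 466) (nat_lit 2510) (.f (nat_lit 560) (nat_lit 592) (nat_lit 6608) (.d (nat_lit 433) (nat_lit 464) (nat_lit 6576) (nat_lit 529) (nat_lit 5552))))))) s130671))))) (.a (.p (nat_lit 494) (.a (.f (nat_lit 493) (nat_lit 529) (nat_lit 493) (.f (nat_lit 464) (nat_lit 465) (nat_lit 2509) (.f (nat_lit 463) (nat_lit 492) (nat_lit 2508) (.d (nat_lit 560) (nat_lit 431) (nat_lit 7599) (nat_lit 592) (nat_lit 7631))))) (.a (.f (nat_lit 493) (nat_lit 529) (nat_lit 493) (.f (nat_lit 465) (nat_lit 464) (nat_lit 2509) (.f (nat_lit 497) (nat_lit 466) (nat_lit 2510) (.d (nat_lit 525) (nat_lit 524) (nat_lit 1516) (nat_lit 526) (nat_lit 1517))))) (.a (.f (nat_lit 493) (nat_lit 529) (nat_lit 493) (.f (nat_lit 461) (nat_lit 460) (nat_lit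 3532) (.f (nat_lit 525) (nat_lit 524) (nat_lit 1516) (.d (nat_lit 497) (nat_lit 462) (nat_lit 3533) (nat_lit 526) (nat_lit 1517))))) (.a (.p (nat_lit 497) (.a (.f (nat_lit 530) (nat_lit 529) (nat_lit 494) (.f (nat_lit 498) (nat_lit 531) (nat_lit 495) (.d (nat_lit 466) (nat_lit 465) (nat_lit 2510) (nat_lit 467) (nat_lit 2511)))) (.a (.f (nat_lit 462) (nat_lit 461) (nat_lit 3533) (.f (nat_lit 463) (nat_lit 498) (nat_lit 3534) (.f (nat_lit 431) (nat_lit 399) (nat_lit 4495) (.d (nat_lit 526) (nat_lit 525) (nat_lit 1517) (nat_lit 558) (nat_lit 6574))))) s131451))) s130671))))) (.a (.p (nat_lit 494) (.a (.f (nat_lit 493) (nat_lit 529) (nat_lit 493) (.f (nat_lit 461) (nat_lit 460) (nat_lit 3532) (.f (nat_lit 525) (nat_lit 524) (nat_lit 1516) (.d (nat_lit 497) (nat_lit 462) (nat_lit 3533) (nat_lit 526) (nat_lit 1517))))) (.a (.f (nat_lit 529) (nat_lit 493) (nat_lit 493) (.d (nat_lit 530) (nat_lit 497) (nat_lit 494) (nat_lit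 531) (nat_lit 3567))) (.a (.p (nat_lit 497) (.a (.f (nat_lit 462) (nat_lit 461) (nat_lit 3533) (.f (nat_lit 463) (nat_lit 498) (nat_lit 3534) (.f (nat_lit 431) (nat_lit 399) (nat_lit 4495) (.d (nat_lit 526) (nat_lit 525) (nat_lit 1517) (nat_lit 558) (nat_lit 6574))))) (.a s131066 s131451))) (.a (.f (nat_lit 493) (nat_lit 529) (nat_lit 493) (.f (nat_lit 460) (nat_lit 461) (nat_lit 3532) (.f (nat_lit 492) (nat_lit 459) (nat_lit 3531) (.d (nat_lit 524) (nat_lit 523) (nat_lit 1515) (nat_lit 525) (nat_lit 1516))))) (.p (nat_lit 493) (.a (.f (nat_lit 525) (nat_lit 524) (nat_lit 1516) (.f (nat_lit 497) (nat_lit 526) (nat_lit 1517) (.f (nat_lit 462) (nat_lit 461) (nat_lit 3533) (.f (nat_lit 463) (nat_lit 498) (nat_lit 3534) (.d (nat_lit 492) (nat_lit 464) (nat_lit 2508) (nat_lit 491) (nat_lit 2507)))))) (.a (.f (nat_lit 461) (nat_lit 460) (nat_lit 3532) (.f (nat_lit 525) (nat_lit 524) (nat_lit 1516) (.d (nat_lit 497) (nat_lit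 462) (nat_lit 3533) (nat_lit 526) (nat_lit 1517)))) (.a (.f (nat_lit 524) (nat_lit 525) (nat_lit 1516) (.f (nat_lit 492) (nat_lit 523) (nat_lit 1515) (.d (nat_lit 460) (nat_lit 459) (nat_lit 3531) (nat_lit 461) (nat_lit 3532)))) (.a (.f (nat_lit 524) (nat_lit 525) (nat_lit 1516) (.f (nat_lit 492) (nat_lit 523) (nat_lit 1515) (.f (nat_lit 463) (nat_lit 464) (nat_lit 2508) (.f (nat_lit 491) (nat_lit 462) (nat_lit 2507) (.d (nat_lit 459) (nat_lit 458) (nat_lit 3530) (nat_lit 460) (nat_lit 3531)))))) (.a (.f (nat_lit 460) (nat_lit 461) (nat_lit 3532) (.f (nat_lit 492) (nat_lit 459) (nat_lit 3531) (.f (nat_lit 463) (nat_lit 464) (nat_lit 2508) (.f (nat_lit 523) (nat_lit 524) (nat_lit 1515) (.d (nat_lit 491) (nat_lit 462) (nat_lit 2507) (nat_lit 522) (nat_lit 1514)))))) (.f (nat_lit 460) (nat_lit 461) (nat_lit 3532) (.f (nat_lit 492) (nat_lit 459) (nat_lit 3531) (.f (nat_lit 463) (nat_lit 464) (nat_lit 2508) (.f (nat_lit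 462) (nat_lit 491) (nat_lit 2507) (.f (nat_lit 431) (nat_lit 399) (nat_lit 4495) (.f (nat_lit 526) (nat_lit 558) (nat_lit 6574) (.d (nat_lit 497) (nat_lit 498) (nat_lit 3534) (nat_lit 525) (nat_lit 1517))))))))))))))))))) (.a s132947 (.a (.p (nat_lit 464) (.a (.p (nat_lit 431) (.a (.f (nat_lit 432) (nat_lit 399) (nat_lit 7567) (.f (nat_lit 433) (nat_lit 401) (nat_lit 6544) (.f (nat_lit 465) (nat_lit 560) (nat_lit 6576) (.d (nat_lit 430) (nat_lit 429) (nat_lit 429) (nat_lit 466) (nat_lit 430))))) (.a (.d (nat_lit 399) (nat_lit 432) (nat_lit 7567) (nat_lit 463) (nat_lit 4495)) (.a (.d (nat_lit 463) (nat_lit 399) (nat_lit 4495) (nat_lit 560) (nat_lit 7599)) (.f (nat_lit 560) (nat_lit 463) (nat_lit 7599) (.f (nat_lit 465) (nat_lit 433) (nat_lit 6576) (.f (nat_lit 497) (nat_lit 592) (nat_lit 6608) (.d (nat_lit 466) (nat_lit 467) (nat_lit 1487) (nat_lit 494) (nat_lit 2510))))))))) (.a (.p (nat_lit 465) (.a (.f (nat_lit 433)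 (nat_lit 560) (nat_lit 6576) (.d (nat_lit 401) (nat_lit 369) (nat_lit 5488) (nat_lit 432) (nat_lit 6544))) (.a (.f (nat_lit 560) (nat_lit 433) (nat_lit 6576) (.f (nat_lit 497) (nat_lit 592) (nat_lit 6608) (.d (nat_lit 466) (nat_lit 467) (nat_lit 1487) (nat_lit 494) (nat_lit 2510)))) (.f (nat_lit 466) (nat_lit 467) (nat_lit 1487) (.d (nat_lit 494) (nat_lit 493) (nat_lit 2509) (nat_lit 497) (nat_lit 2510)))))) (.a (.p (nat_lit 431) (.a (.f (nat_lit 432) (nat_lit 399) (nat_lit 7567) (.f (nat_lit 433) (nat_lit 401) (nat_lit 6544) (.f (nat_lit 465) (nat_lit 560) (nat_lit 6576) (.d (nat_lit 430) (nat_lit 429) (nat_lit 429) (nat_lit 466) (nat_lit 430))))) (.a (.d (nat_lit 399) (nat_lit 432) (nat_lit 7567) (nat_lit 463) (nat_lit 4495)) (.a (.d (nat_lit 463) (nat_lit 399) (nat_lit 4495) (nat_lit 560) (nat_lit 7599)) (.f (nat_lit 560) (nat_lit 463) (nat_lit 7599) (.f (nat_lit 465) (nat_lit 433) (nat_lit 6576) (.f (nat_lit 592)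 (nat_lit 497) (nat_lit 6608) (.d (nat_lit 591) (nat_lit 559) (nat_lit 5583) (nat_lit 623) (nat_lit 5615))))))))) (.a (.p (nat_lit 432) (.a (.f (nat_lit 431) (nat_lit 399) (nat_lit 7567) (.f (nat_lit 463) (nat_lit 560) (nat_lit 7599) (.f (nat_lit 433) (nat_lit 401) (nat_lit 6544) (.d (nat_lit 462) (nat_lit 434) (nat_lit 1454) (nat_lit 461) (nat_lit 2477))))) (.a (.f (nat_lit 399) (nat_lit 431) (nat_lit 7567) (.f (nat_lit 400) (nat_lit 367) (nat_lit 7535) (.d (nat_lit 401) (nat_lit 369) (nat_lit 6512) (nat_lit 433) (nat_lit 6544)))) (.a (.f (nat_lit 433) (nat_lit 401) (nat_lit 6544) (.f (nat_lit 560) (nat_lit 465) (nat_lit 6576) (.f (nat_lit 592) (nat_lit 463) (nat_lit 7631) (.d (nat_lit 591) (nat_lit 559) (nat_lit 5583) (nat_lit 623) (nat_lit 5615))))) (.a (.f (nat_lit 399) (nat_lit 431) (nat_lit 7567) (.f (nat_lit 400) (nat_lit 367) (nat_lit 7535) (.f (nat_lit 368) (nat_lit 463) (nat_lit 5487) (.d (nat_lit 369) (nat_lit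 337) (nat_lit 6480) (nat_lit 401) (nat_lit 6512))))) (.f (nat_lit 399) (nat_lit 431) (nat_lit 7567) (.f (nat_lit 400) (nat_lit 367) (nat_lit 7535) (.f (nat_lit 463) (nat_lit 368) (nat_lit 5487) (.f (nat_lit 560) (nat_lit 592) (nat_lit 7631) (.f (nat_lit 465) (nat_lit 433) (nat_lit 6576) (.d (nat_lit 466) (nat_lit 467) (nat_lit 1487) (nat_lit 494) (nat_lit 1486)))))))))))) (.a (.p (nat_lit 465) (.a (.f (nat_lit 560) (nat_lit 433) (nat_lit 6576) (.d (nat_lit 592) (nat_lit 463) (nat_lit 7631) (nat_lit 497) (nat_lit 6608))) (.a (.f (nat_lit 560) (nat_lit 433) (nat_lit 6576) (.f (nat_lit 497) (nat_lit 592) (nat_lit 6608) (.d (nat_lit 466) (nat_lit 467) (nat_lit 1487) (nat_lit 494) (nat_lit 2510)))) (.a (.f (nat_lit 560) (nat_lit 433) (nat_lit 6576) (.d (nat_lit 463) (nat_lit 431) (nat_lit 7599) (nat_lit 592) (nat_lit 7631))) (.f (nat_lit 466) (nat_lit 467) (nat_lit 1487) (.d (nat_lit 494) (nat_lit 463) (nat_lit 1486) (nat_lit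 497) (nat_lit 2510))))))) (.a (.p (nat_lit 432) (.a (.f (nat_lit 399) (nat_lit 431) (nat_lit 7567) (.f (nat_lit 400) (nat_lit 367) (nat_lit 7535) (.d (nat_lit 401) (nat_lit 369) (nat_lit 6512) (nat_lit 433) (nat_lit 6544)))) (.a (.f (nat_lit 401) (nat_lit 433) (nat_lit 6544) (.f (nat_lit 400) (nat_lit 369) (nat_lit 6512) (.f (nat_lit 368) (nat_lit 463) (nat_lit 5487) (.d (nat_lit 367) (nat_lit 335) (nat_lit 7503) (nat_lit 399) (nat_lit 7535))))) (.a (.p (nat_lit 400) (.a (.d (nat_lit 401) (nat_lit 369) (nat_lit 6512) (nat_lit 433) (nat_lit 6544)) (.a (.f (nat_lit 368) (nat_lit 463) (nat_lit 5487) (.d (nat_lit 369) (nat_lit 337) (nat_lit 6480) (nat_lit 401) (nat_lit 6512))) (.a (.f (nat_lit 368) (nat_lit 463) (nat_lit 5487) (.f (nat_lit 465) (nat_lit 497) (nat_lit 4464) (.f (nat_lit 336) (nat_lit 433) (nat_lit 4432) (.d (nat_lit 337) (nat_lit 305) (nat_lit 6448) (nat_lit 369) (nat_lit 6480))))) (.f (nat_lit 368) (nat_lit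 463) (nat_lit 5487) (.f (nat_lit 465) (nat_lit 497) (nat_lit 4464) (.d (nat_lit 433) (nat_lit 336) (nat_lit 4432) (nat_lit 401) (nat_lit 6544)))))))) (.a (.f (nat_lit 399) (nat_lit 431) (nat_lit 7567) (.f (nat_lit 400) (nat_lit 367) (nat_lit 7535) (.f (nat_lit 368) (nat_lit 463) (nat_lit 5487) (.d (nat_lit 369) (nat_lit 337) (nat_lit 6480) (nat_lit 401) (nat_lit 6512))))) (.a (.p (nat_lit 465) (.a (.f (nat_lit 466) (nat_lit 467) (nat_lit 1487) (.d (nat_lit 494) (nat_lit 463) (nat_lit 1486) (nat_lit 493) (nat_lit 2509))) (.a (.f (nat_lit 466) (nat_lit 467) (nat_lit 1487) (.d (nat_lit 494) (nat_lit 493) (nat_lit 2509) (nat_lit 497) (nat_lit 2510))) (.a (.f (nat_lit 466) (nat_lit 467) (nat_lit 1487) (.d (nat_lit 494) (nat_lit 463) (nat_lit 1486) (nat_lit 497) (nat_lit 2510))) (.a (.f (nat_lit 431) (nat_lit 399) (nat_lit 7567) (.f (nat_lit 466) (nat_lit 467) (nat_lit 3503) (.d (nat_lit 430) (nat_lit 433) (nat_lit 430) (nat_lit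 463) (nat_lit 3502)))) (.f (nat_lit 433) (nat_lit 401) (nat_lit 6544) (.f (nat_lit 431) (nat_lit 399) (nat_lit 7567) (.f (nat_lit 430) (nat_lit 429) (nat_lit 429) (.f (nat_lit 462) (nat_lit 461) (nat_lit 1453) (.f (nat_lit 463) (nat_lit 434) (nat_lit 2478) (.d (nat_lit 398) (nat_lit 366) (nat_lit 4462) (nat_lit 397) (nat_lit 3469)))))))))))) (.f (nat_lit 399) (nat_lit 431) (nat_lit 7567) (.f (nat_lit 400) (nat_lit 367) (nat_lit 7535) (.f (nat_lit 368) (nat_lit 463) (nat_lit 5487) (.f (nat_lit 465) (nat_lit 497) (nat_lit 4464) (.f (nat_lit 336) (nat_lit 433) (nat_lit 4432) (.d (nat_lit 337) (nat_lit 305) (nat_lit 6448) (nat_lit 369) (nat_lit 6480))))))))))))) (.a (.p (nat_lit 432) (.a (.f (nat_lit 431) (nat_lit 399) (nat_lit 7567) (.f (nat_lit 463) (nat_lit 560) (nat_lit 7599) (.f (nat_lit 433) (nat_lit 401) (nat_lit 6544) (.d (nat_lit 462) (nat_lit 434) (nat_lit 1454) (nat_lit 461) (nat_lit 2477))))) (.a (.f (nat_lit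 399) (nat_lit 431) (nat_lit 7567) (.f (nat_lit 400) (nat_lit 367) (nat_lit 7535) (.d (nat_lit 401) (nat_lit 369) (nat_lit 6512) (nat_lit 433) (nat_lit 6544)))) (.a (.f (nat_lit 401) (nat_lit 433) (nat_lit 6544) (.f (nat_lit 400) (nat_lit 369) (nat_lit 6512) (.f (nat_lit 368) (nat_lit 463) (nat_lit 5487) (.d (nat_lit 367) (nat_lit 335) (nat_lit 7503) (nat_lit 399) (nat_lit 7535))))) (.a (.f (nat_lit 401) (nat_lit 433) (nat_lit 6544) (.f (nat_lit 400) (nat_lit 369) (nat_lit 6512) (.f (nat_lit 463) (nat_lit 368) (nat_lit 5487) (.d (nat_lit 560) (nat_lit 431) (nat_lit 7599) (nat_lit 592) (nat_lit 7631))))) (.a (.f (nat_lit 399) (nat_lit 431) (nat_lit 7567) (.f (nat_lit 400) (nat_lit 367) (nat_lit 7535) (.f (nat_lit 368) (nat_lit 463) (nat_lit 5487) (.d (nat_lit 369) (nat_lit 337) (nat_lit 6480) (nat_lit 401) (nat_lit 6512))))) (.p (nat_lit 400) (.a (.d (nat_lit 399) (nat_lit 367) (nat_lit 7535) (nat_lit 431) (nat_lit 7567))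 (.a (.f (nat_lit 368) (nat_lit 463) (nat_lit 5487) (.d (nat_lit 367) (nat_lit 335) (nat_lit 7503) (nat_lit 399) (nat_lit 7535))) (.f (nat_lit 463) (nat_lit 368) (nat_lit 5487) (.d (nat_lit 560) (nat_lit 431) (nat_lit 7599) (nat_lit 592) (nat_lit 7631)))))))))))) (.p (nat_lit 497) (.a (.p (nat_lit 462) (.a (.d (nat_lit 463) (nat_lit 461) (nat_lit 461) (nat_lit 498) (nat_lit 3534)) (.a (.f (nat_lit 494) (nat_lit 461) (nat_lit 3533) (.d (nat_lit 465) (nat_lit 466) (nat_lit 2510) (nat_lit 493) (nat_lit 2509))) (.f (nat_lit 463) (nat_lit 498) (nat_lit 3534) (.d (nat_lit 560) (nat_lit 431) (nat_lit 7599) (nat_lit 592) (nat_lit 7631)))))) (.a (.p (nat_lit 498) (.a (.f (nat_lit 531) (nat_lit 530) (nat_lit 495) (.f (nat_lit 499) (nat_lit 532) (nat_lit 496) (.d (nat_lit 467) (nat_lit 466) (nat_lit 2511) (nat_lit 468) (nat_lit 2512)))) (.a (.f (nat_lit 466) (nat_lit 467) (nat_lit 2511) (.f (nat_lit 494) (nat_lit 465) (nat_lit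 2510) (.f (nat_lit 461) (nat_lit 462) (nat_lit 3533) (.f (nat_lit 493) (nat_lit 460) (nat_lit 3532) (.d (nat_lit 525) (nat_lit 524) (nat_lit 1516) (nat_lit 526) (nat_lit 1517)))))) (.a (.f (nat_lit 531) (nat_lit 530) (nat_lit 495) (.f (nat_lit 499) (nat_lit 532) (nat_lit 496) (.f (nat_lit 468) (nat_lit 467) (nat_lit 2512) (.d (nat_lit 500) (nat_lit 465) (nat_lit 3536) (nat_lit 469) (nat_lit 2513))))) (.f (nat_lit 531) (nat_lit 530) (nat_lit 495) (.f (nat_lit 499) (nat_lit 532) (nat_lit 496) (.f (nat_lit 465) (nat_lit 500) (nat_lit 3536) (.d (nat_lit 494) (nat_lit 466) (nat_lit 2510) (nat_lit 493) (nat_lit 2509))))))))) (.a (.p (nat_lit 494) (.a (.d (nat_lit 465) (nat_lit 466) (nat_lit 2510) (nat_lit 493) (nat_lit 2509)) (.a (.f (nat_lit 466) (nat_lit 465) (nat_lit 2510) (.f (nat_lit 498) (nat_lit 467) (nat_lit 2511) (.f (nat_lit 463) (nat_lit 499) (nat_lit 3535) (.d (nat_lit 560) (nat_lit 431) (nat_lit 7599) (nat_lit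 592) (nat_lit 7631))))) (.f (nat_lit 525) (nat_lit 526) (nat_lit 1517) (.f (nat_lit 493) (nat_lit 524) (nat_lit 1516) (.f (nat_lit 463) (nat_lit 492) (nat_lit 2508) (.d (nat_lit 560) (nat_lit 431) (nat_lit 7599) (nat_lit 592) (nat_lit 7631)))))))) (.a (.p (nat_lit 463) (.a (.d (nat_lit 462) (nat_lit 461) (nat_lit 461) (nat_lit 498) (nat_lit 3534)) (.d (nat_lit 431) (nat_lit 399) (nat_lit 4495) (nat_lit 560) (nat_lit 7599)))) (.p (nat_lit 494) (.a (.d (nat_lit 465) (nat_lit 466) (nat_lit 2510) (nat_lit 493) (nat_lit 2509)) (.a (.f (nat_lit 465) (nat_lit 466) (nat_lit 2510) (.f (nat_lit 560) (nat_lit 592) (nat_lit 6608) (.f (nat_lit 431) (nat_lit 463) (nat_lit 7599) (.f (nat_lit 399) (nat_lit 432) (nat_lit 7567) (.f (nat_lit 462) (nat_lit 461) (nat_lit 3533) (.d (nat_lit 526) (nat_lit 430) (nat_lit 6542) (nat_lit 525) (nat_lit 1517))))))) (.f (nat_lit 525) (nat_lit 526) (nat_lit 1517) (.f (nat_lit 493) (nat_lit 524) (nat_lit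 1516) (.f (nat_lit 463) (nat_lit 492) (nat_lit 2508) (.d (nat_lit 560) (nat_lit 431) (nat_lit 7599) (nat_lit 592) (nat_lit 7631))))))))))))))))))))) (.p (nat_lit 494) (.a (.f (nat_lit 493) (nat_lit 529) (nat_lit 493) (.f (nat_lit 464) (nat_lit 465) (nat_lit 2509) (.f (nat_lit 463) (nat_lit 492) (nat_lit 2508) (.d (nat_lit 560) (nat_lit 431) (nat_lit 7599) (nat_lit 592) (nat_lit 7631))))) (.a (.f (nat_lit 493) (nat_lit 529) (nat_lit 493) (.f (nat_lit 461) (nat_lit 460) (nat_lit 3532) (.f (nat_lit 525) (nat_lit 524) (nat_lit 1516) (.d (nat_lit 497) (nat_lit 462) (nat_lit 3533) (nat_lit 526) (nat_lit 1517))))) (.a (.p (nat_lit 433) (.a (.p (nat_lit 497) (.a (.f (nat_lit 529) (nat_lit 530) (nat_lit 494) (.d (nat_lit 465) (nat_lit 401) (nat_lit 5520) (nat_lit 560) (nat_lit 5552))) (.a (.f (nat_lit 529) (nat_lit 530) (nat_lit 494) (.f (nat_lit 465) (nat_lit 401) (nat_lit 5520) (.f (nat_lit 462) (nat_lit 461) (nat_lit 3533)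 (.f (nat_lit 463) (nat_lit 498) (nat_lit 3534) (.d (nat_lit 434) (nat_lit 402) (nat_lit 6545) (nat_lit 464) (nat_lit 2478)))))) (.a (.f (nat_lit 465) (nat_lit 401) (nat_lit 5520) (.d (nat_lit 560) (nat_lit 464) (nat_lit 6576) (nat_lit 592) (nat_lit 6608))) (.f (nat_lit 462) (nat_lit 461) (nat_lit 3533) (.f (nat_lit 463) (nat_lit 498) (nat_lit 3534) (.f (nat_lit 431) (nat_lit 399) (nat_lit 4495) (.d (nat_lit 526) (nat_lit 525) (nat_lit 1517) (nat_lit 558) (nat_lit 6574))))))))) (.a (.p (nat_lit 465) (.a (.f (nat_lit 464) (nat_lit 560) (nat_lit 6576) (.d (nat_lit 401) (nat_lit 369) (nat_lit 5488) (nat_lit 432) (nat_lit 6544))) (.a (.f (nat_lit 497) (nat_lit 401) (nat_lit 5520) (.d (nat_lit 560) (nat_lit 529) (nat_lit 5552) (nat_lit 592) (nat_lit 6608))) (.a (.f (nat_lit 401) (nat_lit 497) (nat_lit 5520) (.d (nat_lit 464) (nat_lit 369) (nat_lit 5488) (nat_lit 432) (nat_lit 6544))) (.f (nat_lit 560) (nat_lit 464) (nat_lit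 6576) (.d (nat_lit 497) (nat_lit 529) (nat_lit 5552) (nat_lit 592) (nat_lit 6608))))))) (.a (.p (nat_lit 497) (.a (.f (nat_lit 529) (nat_lit 530) (nat_lit 494) (.d (nat_lit 465) (nat_lit 401) (nat_lit 5520) (nat_lit 560) (nat_lit 5552))) (.f (nat_lit 462) (nat_lit 461) (nat_lit 3533) (.f (nat_lit 463) (nat_lit 498) (nat_lit 3534) (.f (nat_lit 431) (nat_lit 399) (nat_lit 4495) (.d (nat_lit 526) (nat_lit 525) (nat_lit 1517) (nat_lit 558) (nat_lit 6574))))))) (.a (.p (nat_lit 464) (.a (.f (nat_lit 465) (nat_lit 560) (nat_lit 6576) (.d (nat_lit 401) (nat_lit 369) (nat_lit 5488) (nat_lit 432) (nat_lit 6544))) (.a (.f (nat_lit 560) (nat_lit 465) (nat_lit 6576) (.d (nat_lit 463) (nat_lit 431) (nat_lit 7599) (nat_lit 592) (nat_lit 7631))) (.a (.f (nat_lit 432) (nat_lit 401) (nat_lit 6544) (.f (nat_lit 399) (nat_lit 431) (nat_lit 7567) (.f (nat_lit 400) (nat_lit 367) (nat_lit 7535) (.f (nat_lit 368) (nat_lit 463) (nat_lit 5487)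 (.f (nat_lit 336) (nat_lit 465) (nat_lit 4432) (.d (nat_lit 337) (nat_lit 305) (nat_lit 6448) (nat_lit 369) (nat_lit 6480))))))) (.f (nat_lit 432) (nat_lit 401) (nat_lit 6544) (.f (nat_lit 431) (nat_lit 399) (nat_lit 7567) (.f (nat_lit 463) (nat_lit 560) (nat_lit 7599) (.d (nat_lit 434) (nat_lit 435) (nat_lit 1455) (nat_lit 462) (nat_lit 1454))))))))) (.a (.p (nat_lit 432) (.a (.f (nat_lit 464) (nat_lit 401) (nat_lit 6544) (.f (nat_lit 399) (nat_lit 431) (nat_lit 7567) (.f (nat_lit 400) (nat_lit 367) (nat_lit 7535) (.f (nat_lit 497) (nat_lit 529) (nat_lit 4496) (.d (nat_lit 368) (nat_lit 463) (nat_lit 5487) (nat_lit 465) (nat_lit 4464)))))) (.a (.p (nat_lit 497) (.a (.f (nat_lit 529) (nat_lit 530) (nat_lit 494) (.d (nat_lit 464) (nat_lit 400) (nat_lit 4496) (nat_lit 401) (nat_lit 6544))) (.a (.f (nat_lit 529) (nat_lit 530) (nat_lit 494) (.d (nat_lit 465) (nat_lit 400) (nat_lit 7568) (nat_lit 401) (nat_lit 5520))) (.a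 (.d (nat_lit 401) (nat_lit 464) (nat_lit 6544) (nat_lit 465) (nat_lit 5520)) (.f (nat_lit 529) (nat_lit 530) (nat_lit 494) (.d (nat_lit 400) (nat_lit 464) (nat_lit 4496) (nat_lit 465) (nat_lit 7568))))))) (.a (.p (nat_lit 497) (.a (.f (nat_lit 529) (nat_lit 530) (nat_lit 494) (.d (nat_lit 465) (nat_lit 400) (nat_lit 7568) (nat_lit 401) (nat_lit 5520))) (.f (nat_lit 462) (nat_lit 461) (nat_lit 3533) (.f (nat_lit 463) (nat_lit 498) (nat_lit 3534) (.d (nat_lit 431) (nat_lit 399) (nat_lit 4495) (nat_lit 434) (nat_lit 1454)))))) (.a (.f (nat_lit 464) (nat_lit 401) (nat_lit 6544) (.f (nat_lit 399) (nat_lit 431) (nat_lit 7567) (.f (nat_lit 400) (nat_lit 367) (nat_lit 7535) (.f (nat_lit 368) (nat_lit 463) (nat_lit 5487) (.f (nat_lit 336) (nat_lit 465) (nat_lit 4432) (.d (nat_lit 337) (nat_lit 305) (nat_lit 6448) (nat_lit 369) (nat_lit 6480))))))) (.a (.f (nat_lit 464) (nat_lit 401) (nat_lit 6544) (.f (nat_lit 399) (nat_lit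 431) (nat_lit 7567) (.f (nat_lit 400) (nat_lit 367) (nat_lit 7535) (.f (nat_lit 497) (nat_lit 529) (nat_lit 4496) (.f (nat_lit 463) (nat_lit 368) (nat_lit 5487) (.d (nat_lit 462) (nat_lit 461) (nat_lit 3533) (nat_lit 498) (nat_lit 3534))))))) (.a (.f (nat_lit 401) (nat_lit 464) (nat_lit 6544) (.f (nat_lit 497) (nat_lit 465) (nat_lit 5520) (.f (nat_lit 530) (nat_lit 529) (nat_lit 494) (.f (nat_lit 462) (nat_lit 461) (nat_lit 3533) (.d (nat_lit 498) (nat_lit 463) (nat_lit 3534) (nat_lit 531) (nat_lit 495)))))) (.p (nat_lit 497) (.a (.f (nat_lit 529) (nat_lit 530) (nat_lit 494) (.d (nat_lit 400) (nat_lit 464) (nat_lit 4496) (nat_lit 465) (nat_lit 7568))) (.f (nat_lit 462) (nat_lit 461) (nat_lit 3533) (.f (nat_lit 463) (nat_lit 498) (nat_lit 3534) (.d (nat_lit 431) (nat_lit 399) (nat_lit 4495) (nat_lit 434) (nat_lit 1454))))))))))))) (.p (nat_lit 463) (.a (.f (nat_lit 431) (nat_lit 399) (nat_lit 4495) (.d (nat_lit 560)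 (nat_lit 464) (nat_lit 7599) (nat_lit 592) (nat_lit 7631))) (.a (.p (nat_lit 462) (.a (.d (nat_lit 461) (nat_lit 460) (nat_lit 460) (nat_lit 497) (nat_lit 3533)) (.a (.f (nat_lit 431) (nat_lit 399) (nat_lit 4495) (.f (nat_lit 461) (nat_lit 460) (nat_lit 460) (.d (nat_lit 432) (nat_lit 430) (nat_lit 1453) (nat_lit 434) (nat_lit 1454)))) (.f (nat_lit 431) (nat_lit 399) (nat_lit 4495) (.f (nat_lit 526) (nat_lit 558) (nat_lit 6574) (.d (nat_lit 497) (nat_lit 498) (nat_lit 3534) (nat_lit 525) (nat_lit 1517))))))) (.p (nat_lit 462) (.a (.d (nat_lit 461) (nat_lit 460) (nat_lit 460) (nat_lit 497) (nat_lit 3533)) (.a (.f (nat_lit 461) (nat_lit 460) (nat_lit 460) (.f (nat_lit 464) (nat_lit 432) (nat_lit 2477) (.f (nat_lit 429) (nat_lit 428) (nat_lit 3500) (.f (nat_lit 526) (nat_lit 558) (nat_lit 7597) (.d (nat_lit 397) (nat_lit 365) (nat_lit 4461) (nat_lit 430) (nat_lit 7565)))))) (.f (nat_lit 497) (nat_lit 498) (nat_lit 3534)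 (.f (nat_lit 526) (nat_lit 525) (nat_lit 1517) (.f (nat_lit 558) (nat_lit 590) (nat_lit 6606) (.f (nat_lit 529) (nat_lit 530) (nat_lit 494) (.f (nat_lit 560) (nat_lit 592) (nat_lit 7631) (.d (nat_lit 559) (nat_lit 557) (nat_lit 2573) (nat_lit 591) (nat_lit 4558))))))))))))))))))) s131432)))))))))))))))))))))))
noncomputable def s133118 : Cert := .r (nat_lit 878694100854745141256323819315110954901006375692038316188451534125484520860414608653448913445023849385239695046487780905203497230596867842715690486470535020544) (.p (nat_lit 497) (.a (.f (nat_lit 465) (nat_lit 466) (nat_lit 2510) (.f (nat_lit 560) (nat_lit 592) (nat_lit 6608) (.d (nat_lit 433) (nat_lit 401) (nat_lit 5520) (nat_lit 464) (nat_lit 6576)))) (.a (.f (nat_lit 465) (nat_lit 466) (nat_lit 2510) (.f (nat_lit 493) (nat_lit 464) (nat_lit 2509) (.d (nat_lit 525) (nat_lit 524) (nat_lit 1516) (nat_lit 526) (nat_lit 1517)))) (.a (.f (nat_lit 462) (nat_lit 461)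 (nat_lit 3533) (.f (nat_lit 463) (nat_lit 498) (nat_lit 3534) (.f (nat_lit 431) (nat_lit 399) (nat_lit 4495) (.d (nat_lit 560) (nat_lit 464) (nat_lit 7599) (nat_lit 592) (nat_lit 7631))))) (.f (nat_lit 462) (nat_lit 461) (nat_lit 3533) (.f (nat_lit 463) (nat_lit 498) (nat_lit 3534) (.f (nat_lit 526) (nat_lit 525) (nat_lit 1517) (.d (nat_lit 431) (nat_lit 399) (nat_lit 4495) (nat_lit 558) (nat_lit 6574)))))))))
noncomputable def s133146 : Cert := .r (nat_lit 1318041150898517250045473654898214211344045530424543867093705766277655612291160104560751758960052383284970277503400742577901866332496784631128653057435310751744) (.p (nat_lit 559) (.a (.d (nat_lit 462) (nat_lit 430) (nat_lit 7598) (nat_lit 591) (nat_lit 7630)) (.a (.f (nat_lit 560) (nat_lit 592) (nat_lit 4559) (.f (nat_lit 464) (nat_lit 432) (nat_lit 6575) (.f (nat_lit 591) (nat_lit 496) (nat_lit 5583) (.d (nat_lit 590) (nat_lit 558) (nat_lit 5582) (nat_lit 622)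 (nat_lit 5614))))) (.f (nat_lit 462) (nat_lit 430) (nat_lit 7598) (.f (nat_lit 464) (nat_lit 432) (nat_lit 6575) (.f (nat_lit 465) (nat_lit 466) (nat_lit 1486) (.f (nat_lit 497) (nat_lit 498) (nat_lit 462) (.f (nat_lit 496) (nat_lit 461) (nat_lit 461) (.d (nat_lit 433) (nat_lit 401) (nat_lit 5520) (nat_lit 434) (nat_lit 2478))))))))))
noncomputable def s133147 : Cert := .r (nat_lit 1318041150898517250021656603580495764754525287887669734512005646170653574091856233714000570767152560133417649153612138061606800024502654512602591231268865703936) (.p (nat_lit 463) (.a (.f (nat_lit 431) (nat_lit 560) (nat_lit 4527) (.d (nat_lit 399) (nat_lit 496) (nat_lit 4495) (nat_lit 526) (nat_lit 5518))) (.a (.p (nat_lit 559) (.a (.d (nat_lit 462) (nat_lit 430) (nat_lit 7598) (nat_lit 591) (nat_lit 7630)) (.a (.f (nat_lit 558) (nat_lit 590) (nat_lit 5582) (.f (nat_lit 526) (nat_lit 431) (nat_lit 5550) (.f (nat_lit 591) (nat_lit 623) (nat_lit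 7662) (.d (nat_lit 464) (nat_lit 432) (nat_lit 6575) (nat_lit 496) (nat_lit 6607))))) (.f (nat_lit 462) (nat_lit 430) (nat_lit 7598) (.f (nat_lit 558) (nat_lit 590) (nat_lit 5582) (.f (nat_lit 526) (nat_lit 431) (nat_lit 5550) (.d (nat_lit 557) (nat_lit 556) (nat_lit 2572) (nat_lit 589) (nat_lit 5581)))))))) (.a s133146 (.f (nat_lit 431) (nat_lit 560) (nat_lit 4527) (.d (nat_lit 526) (nat_lit 399) (nat_lit 5518) (nat_lit 558) (nat_lit 5550)))))))
noncomputable def s133152 : Cert := .r (nat_lit 1318041150898517250021656603580495764754525287887669734512005646170653574091856233714000570767152560133417649153612138061606800024502654512602591231268865703936) (.p (nat_lit 463) (.a (.p (nat_lit 559) (.a (.d (nat_lit 462) (nat_lit 430) (nat_lit 7598) (nat_lit 591) (nat_lit 7630)) (.f (nat_lit 558) (nat_lit 590) (nat_lit 5582) (.f (nat_lit 526) (nat_lit 431) (nat_lit 5550) (.d (nat_lit 529) (nat_lit 530) (nat_lit 3566) (nat_lit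 557) (nat_lit 1549)))))) (.a (.f (nat_lit 431) (nat_lit 560) (nat_lit 4527) (.d (nat_lit 526) (nat_lit 399) (nat_lit 5518) (nat_lit 558) (nat_lit 5550))) (.a (.p (nat_lit 559) (.a (.d (nat_lit 462) (nat_lit 430) (nat_lit 7598) (nat_lit 591) (nat_lit 7630)) (.f (nat_lit 558) (nat_lit 590) (nat_lit 5582) (.f (nat_lit 529) (nat_lit 530) (nat_lit 3566) (.d (nat_lit 560) (nat_lit 557) (nat_lit 2573) (nat_lit 592) (nat_lit 4559)))))) (.f (nat_lit 431) (nat_lit 560) (nat_lit 4527) (.f (nat_lit 430) (nat_lit 398) (nat_lit 7566) (.f (nat_lit 462) (nat_lit 559) (nat_lit 7598) (.d (nat_lit 399) (nat_lit 367) (nat_lit 5486) (nat_lit 526) (nat_lit 5518)))))))))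
noncomputable def s133158 : Cert := .r (nat_lit 1318041150898517250021656603580495764754525287887669734512005646170653574091856233714000570767152560133417649153612138061606800024502654512602591231268865703936) (.p (nat_lit 463) (.a (.f (nat_lit 431) (nat_lit 560) (nat_lit 4527) (.d (nat_lit 399) (nat_lit 496) (nat_lit 4495) (nat_lit 526) (nat_lit 5518))) (.a s126483 (.a (.f (nat_lit 431) (nat_lit 560) (nat_lit 4527) (.f (nat_lit 430) (nat_lit 398) (nat_lit 7566) (.f (nat_lit 462) (nat_lit 559) (nat_lit 7598) (.d (nat_lit 399) (nat_lit 367) (nat_lit 5486) (nat_lit 526) (nat_lit 5518))))) (.f (nat_lit 431) (nat_lit 560) (nat_lit 4527) (.f (nat_lit 399) (nat_lit 496) (nat_lit 4495) (.d (nat_lit 398) (nat_lit 366) (nat_lit 7534) (nat_lit 430) (nat_lit 7566))))))))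
noncomputable def s133206 : Cert := .r (nat_lit 1318041150898517250021656603580495764754525287887669734512005646170653574091856233714000570767152560133417649153612138061606800024502654512602591231268865703936) (.p (nat_lit 463) (.a (.f (nat_lit 431) (nat_lit 560) (nat_lit 4527) (.d (nat_lit 526) (nat_lit 399) (nat_lit 5518) (nat_lit 558) (nat_lit 5550))) (.a (.p (nat_lit 559) (.a (.d (nat_lit 462) (nat_lit 430) (nat_lit 7598) (nat_lit 591) (nat_lit 7630)) (.a (.f (nat_lit 590) (nat_lit 558) (nat_lit 5582) (.f (nat_lit 591) (nat_lit 622) (nat_lit 5614) (.f (nat_lit 624) (nat_lit 592) (nat_lit 4591) (.d (nat_lit 623) (nat_lit 526) (nat_lit 7662) (nat_lit 656) (nat_lit 4623))))) (.f (nat_lit 462) (nat_lit 430) (nat_lit 7598) (.f (nat_lit 558) (nat_lit 590) (nat_lit 5582) (.f (nat_lit 526) (nat_lit 431) (nat_lit 5550) (.d (nat_lit 557) (nat_lit 556) (nat_lit 2572) (nat_lit 589) (nat_lit 5581)))))))) (.a (.p (nat_lit 559)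 (.a (.d (nat_lit 462) (nat_lit 430) (nat_lit 7598) (nat_lit 591) (nat_lit 7630)) (.a (.f (nat_lit 590) (nat_lit 558) (nat_lit 5582) (.f (nat_lit 591) (nat_lit 622) (nat_lit 5614) (.f (nat_lit 624) (nat_lit 592) (nat_lit 4591) (.d (nat_lit 623) (nat_lit 526) (nat_lit 7662) (nat_lit 656) (nat_lit 4623))))) (.f (nat_lit 462) (nat_lit 430) (nat_lit 7598) (.f (nat_lit 493) (nat_lit 492) (nat_lit 492) (.d (nat_lit 464) (nat_lit 432) (nat_lit 6575) (nat_lit 465) (nat_lit 1485))))))) (.f (nat_lit 560) (nat_lit 431) (nat_lit 4527) (.d (nat_lit 592) (nat_lit 559) (nat_lit 4559) (nat_lit 624) (nat_lit 7663)))))))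
noncomputable def s133289 : Cert := .r (nat_lit 878694100854745141280140870632829401490526618228912448770151654232486559059718479500200101637923672536792323396276385421498563538590997961241752312636980068352) (.p (nat_lit 497) (.a (.d (nat_lit 462) (nat_lit 461) (nat_lit 3533) (nat_lit 498) (nat_lit 3534)) (.a (.f (nat_lit 529) (nat_lit 530) (nat_lit 494) (.f (nat_lit 526) (nat_lit 525) (nat_lit 1517) (.f (nat_lit 498) (nat_lit 527) (nat_lit 2542) (.d (nat_lit 466) (nat_lit 465) (nat_lit 2510) (nat_lit 467) (nat_lit 2511))))) (.f (nat_lit 462) (nat_lit 461) (nat_lit 3533) (.f (nat_lit 526) (nat_lit 525) (nat_lit 1517) (.f (nat_lit 558) (nat_lit 590) (nat_lit 6606) (.f (nat_lit 559) (nat_lit 591) (nat_lit 4558) (.f (nat_lit 527) (nat_lit 430) (nat_lit 4526) (.d (nat_lit 557) (nat_lit 556) (nat_lit 2572) (nat_lit 589) (nat_lit 5581))))))))))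
noncomputable def s133290 : Cert := .r (nat_lit 878694100803598413031763653913873312477595381475527416800728766896810131433216388931377061717872577344200070940793780982005437429071978327712293046178721824768) (.p (nat_lit 494) (.a (.f (nat_lit 493) (nat_lit 529) (nat_lit 493) (.d (nat_lit 492) (nat_lit 464) (nat_lit 2508) (nat_lit 527) (nat_lit 492))) (.a (.p (nat_lit 497) (.a (.d (nat_lit 462) (nat_lit 461) (nat_lit 3533) (nat_lit 498) (nat_lit 3534)) (.a (.f (nat_lit 465) (nat_lit 466) (nat_lit 2510) (.f (nat_lit 464) (nat_lit 493) (nat_lit 2509) (.f (nat_lit 498) (nat_lit 499) (nat_lit 3535) (.d (nat_lit 526) (nat_lit 525) (nat_lit 1517) (nat_lit 527) (nat_lit 1518))))) (.f (nat_lit 462) (nat_lit 461) (nat_lit 3533) (.f (nat_lit 465) (nat_lit 466) (nat_lit 2510) (.f (nat_lit 464) (nat_lit 493) (nat_lit 2509) (.d (nat_lit 433) (nat_lit 401) (nat_lit 5520) (nat_lit 434) (nat_lit 2478)))))))) (.a s133289 (.f (nat_lit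 493) (nat_lit 529) (nat_lit 493) (.d (nat_lit 464) (nat_lit 465) (nat_lit 2509) (nat_lit 492) (nat_lit 2508)))))))
noncomputable def s133295 : Cert := .r (nat_lit 878694100803598413031763653913873312477595381475527416800728766896810131433216388931377061717872577344200070940793780982005437429071978327712293046178721824768) (.p (nat_lit 494) (.a (.p (nat_lit 497) (.a (.d (nat_lit 462) (nat_lit 461) (nat_lit 3533) (nat_lit 498) (nat_lit 3534)) (.f (nat_lit 465) (nat_lit 466) (nat_lit 2510) (.f (nat_lit 464) (nat_lit 493) (nat_lit 2509) (.d (nat_lit 560) (nat_lit 433) (nat_lit 6576) (nat_lit 592) (nat_lit 7631)))))) (.a (.f (nat_lit 493) (nat_lit 529) (nat_lit 493) (.d (nat_lit 464) (nat_lit 465) (nat_lit 2509) (nat_lit 492) (nat_lit 2508))) (.a (.p (nat_lit 497) (.a (.d (nat_lit 462) (nat_lit 461) (nat_lit 3533) (nat_lit 498) (nat_lit 3534)) (.f (nat_lit 465) (nat_lit 466) (nat_lit 2510) (.f (nat_lit 560) (nat_lit 592)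 (nat_lit 7631) (.d (nat_lit 529) (nat_lit 433) (nat_lit 5552) (nat_lit 530) (nat_lit 494)))))) (.f (nat_lit 493) (nat_lit 529) (nat_lit 493) (.f (nat_lit 461) (nat_lit 460) (nat_lit 3532) (.f (nat_lit 462) (nat_lit 497) (nat_lit 3533) (.d (nat_lit 492) (nat_lit 464) (nat_lit 2508) (nat_lit 491) (nat_lit 2507)))))))))
noncomputable def s133301 : Cert := .r (nat_lit 878694100803598413031763653913873312477595381475527416800728766896810131433216388931377061717872577344200070940793780982005437429071978327712293046178721824768) (.p (nat_lit 494) (.a (.f (nat_lit 493) (nat_lit 529) (nat_lit 493) (.d (nat_lit 492) (nat_lit 464) (nat_lit 2508) (nat_lit 527) (nat_lit 492))) (.a s126232 (.a (.f (nat_lit 493) (nat_lit 529) (nat_lit 493) (.f (nat_lit 461) (nat_lit 460) (nat_lit 3532) (.f (nat_lit 462) (nat_lit 497) (nat_lit 3533) (.d (nat_lit 492) (nat_lit 464) (nat_lit 2508) (nat_lit 491) (nat_lit 2507))))) (.f (nat_lit 493) (nat_lit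 529) (nat_lit 493) (.f (nat_lit 492) (nat_lit 527) (nat_lit 492) (.d (nat_lit 460) (nat_lit 459) (nat_lit 3531) (nat_lit 461) (nat_lit 3532))))))))
noncomputable def s133343 : Cert := .r (nat_lit 878694100803598413031763653913873312477595381475527416800728766896810131433216388931377061717872577344200070940793780982005437429071978327712293046178721824768) (.p (nat_lit 494) (.a (.f (nat_lit 493) (nat_lit 529) (nat_lit 493) (.d (nat_lit 464) (nat_lit 465) (nat_lit 2509) (nat_lit 492) (nat_lit 2508))) (.a (.p (nat_lit 497) (.a (.d (nat_lit 462) (nat_lit 461) (nat_lit 3533) (nat_lit 498) (nat_lit 3534)) (.a (.f (nat_lit 466) (nat_lit 465) (nat_lit 2510) (.f (nat_lit 498) (nat_lit 467) (nat_lit 2511) (.f (nat_lit 531) (nat_lit 530) (nat_lit 495) (.d (nat_lit 499) (nat_lit 464) (nat_lit 3535) (nat_lit 532) (nat_lit 496))))) (.f (nat_lit 462) (nat_lit 461) (nat_lit 3533) (.f (nat_lit 465) (nat_lit 466) (nat_lit 2510) (.f (nat_lit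 464) (nat_lit 493) (nat_lit 2509) (.d (nat_lit 433) (nat_lit 401) (nat_lit 5520) (nat_lit 434) (nat_lit 2478)))))))) (.a (.p (nat_lit 497) (.a (.d (nat_lit 462) (nat_lit 461) (nat_lit 3533) (nat_lit 498) (nat_lit 3534)) (.a (.f (nat_lit 466) (nat_lit 465) (nat_lit 2510) (.f (nat_lit 498) (nat_lit 467) (nat_lit 2511) (.f (nat_lit 531) (nat_lit 530) (nat_lit 495) (.d (nat_lit 499) (nat_lit 464) (nat_lit 3535) (nat_lit 532) (nat_lit 496))))) (.f (nat_lit 462) (nat_lit 461) (nat_lit 3533) (.f (nat_lit 431) (nat_lit 399) (nat_lit 4495) (.d (nat_lit 526) (nat_lit 525) (nat_lit 1517) (nat_lit 558) (nat_lit 6574))))))) (.f (nat_lit 529) (nat_lit 493) (nat_lit 493) (.d (nat_lit 530) (nat_lit 497) (nat_lit 494) (nat_lit 531) (nat_lit 3567)))))))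
noncomputable def s133474 : Cert := .r (nat_lit 1318041150898517250045473654898214211344045530424543867093705766277655612291160104560751758960052383284970277503400742577901866332496784631128653057435310751744) (.p (nat_lit 431) (.a (.f (nat_lit 430) (nat_lit 398) (nat_lit 7566) (.f (nat_lit 462) (nat_lit 559) (nat_lit 7598) (.f (nat_lit 432) (nat_lit 400) (nat_lit 6543) (.d (nat_lit 461) (nat_lit 433) (nat_lit 1453) (nat_lit 460) (nat_lit 2476))))) (.a (.f (nat_lit 493) (nat_lit 492) (nat_lit 492) (.f (nat_lit 432) (nat_lit 400) (nat_lit 6543) (.f (nat_lit 464) (nat_lit 559) (nat_lit 6575) (.d (nat_lit 465) (nat_lit 462) (nat_lit 1485) (nat_lit 466) (nat_lit 1486))))) (.a (.f (nat_lit 398) (nat_lit 430) (nat_lit 7566) (.f (nat_lit 399) (nat_lit 366) (nat_lit 7534) (.f (nat_lit 368) (nat_lit 400) (nat_lit 6511) (.d (nat_lit 367) (nat_lit 336) (nat_lit 6479) (nat_lit 462) (nat_lit 5486))))) (.a (.f (nat_lit 432) (nat_lit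 400) (nat_lit 6543) (.f (nat_lit 464) (nat_lit 559) (nat_lit 6575) (.f (nat_lit 430) (nat_lit 398) (nat_lit 7566) (.d (nat_lit 429) (nat_lit 428) (nat_lit 428) (nat_lit 465) (nat_lit 429))))) (.f (nat_lit 398) (nat_lit 430) (nat_lit 7566) (.f (nat_lit 399) (nat_lit 366) (nat_lit 7534) (.f (nat_lit 462) (nat_lit 367) (nat_lit 5486) (.f (nat_lit 493) (nat_lit 492) (nat_lit 492) (.f (nat_lit 464) (nat_lit 465) (nat_lit 1485) (.d (nat_lit 559) (nat_lit 432) (nat_lit 6575) (nat_lit 591) (nat_lit 7630))))))))))))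
noncomputable def s133527 : Cert := .r (nat_lit 1318041150898517250045473654898214211344045530424543867093705766277655612291160104560751758960052383284970277503400742577901866332496784631128653057435310751744) (.p (nat_lit 559) (.a (.f (nat_lit 493) (nat_lit 492) (nat_lit 492) (.f (nat_lit 526) (nat_lit 529) (nat_lit 3565) (.f (nat_lit 590) (nat_lit 558) (nat_lit 5582) (.d (nat_lit 591) (nat_lit 622) (nat_lit 5614) (nat_lit 623) (nat_lit 7662))))) (.a (.f (nat_lit 558) (nat_lit 590) (nat_lit 5582) (.f (nat_lit 557) (nat_lit 556) (nat_lit 2572) (.d (nat_lit 560) (nat_lit 529) (nat_lit 2573) (nat_lit 592) (nat_lit 4559)))) (.a (.f (nat_lit 493) (nat_lit 492) (nat_lit 492) (.f (nat_lit 526) (nat_lit 529) (nat_lit 3565) (.f (nat_lit 591) (nat_lit 623) (nat_lit 7662) (.d (nat_lit 592) (nat_lit 560) (nat_lit 4559) (nat_lit 624) (nat_lit 4591))))) (.f (nat_lit 558) (nat_lit 590) (nat_lit 5582) (.f (nat_lit 560) (nat_lit 592)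 (nat_lit 4559) (.f (nat_lit 557) (nat_lit 556) (nat_lit 2572) (.f (nat_lit 525) (nat_lit 524) (nat_lit 3596) (.f (nat_lit 589) (nat_lit 588) (nat_lit 1580) (.f (nat_lit 621) (nat_lit 526) (nat_lit 6637) (.f (nat_lit 654) (nat_lit 622) (nat_lit 4621) (.f (nat_lit 653) (nat_lit 686) (nat_lit 4653) (.d (nat_lit 652) (nat_lit 620) (nat_lit 5644) (nat_lit 684) (nat_lit 5676))))))))))))))
noncomputable def s133663 : Cert := .r (nat_lit 878694100854745141280140870632829401490526618228912448770151654232486559059718479500200101637923672536792323396276385421498563538590997961241752312636980068352) (.p (nat_lit 493) (.a (.f (nat_lit 461) (nat_lit 460) (nat_lit 3532) (.f (nat_lit 462) (nat_lit 497) (nat_lit 3533) (.f (nat_lit 525) (nat_lit 524) (nat_lit 1516) (.d (nat_lit 430) (nat_lit 398) (nat_lit 5517) (nat_lit 557) (nat_lit 6573))))) (.a (.f (nat_lit 431) (nat_lit 399) (nat_lit 4495) (.f (nat_lit 525) (nat_lit 524) (nat_lit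 1516) (.f (nat_lit 526) (nat_lit 497) (nat_lit 1517) (.d (nat_lit 558) (nat_lit 462) (nat_lit 6574) (nat_lit 590) (nat_lit 6606))))) (.a (.f (nat_lit 460) (nat_lit 461) (nat_lit 3532) (.f (nat_lit 492) (nat_lit 459) (nat_lit 3531) (.f (nat_lit 523) (nat_lit 524) (nat_lit 1515) (.d (nat_lit 491) (nat_lit 462) (nat_lit 2507) (nat_lit 522) (nat_lit 1514))))) (.a (.f (nat_lit 525) (nat_lit 524) (nat_lit 1516) (.f (nat_lit 526) (nat_lit 497) (nat_lit 1517) (.f (nat_lit 461) (nat_lit 460) (nat_lit 3532) (.d (nat_lit 429) (nat_lit 397) (nat_lit 4493) (nat_lit 558) (nat_lit 4525))))) (.f (nat_lit 460) (nat_lit 461) (nat_lit 3532) (.f (nat_lit 492) (nat_lit 459) (nat_lit 3531) (.f (nat_lit 462) (nat_lit 491) (nat_lit 2507) (.f (nat_lit 431) (nat_lit 399) (nat_lit 4495) (.f (nat_lit 526) (nat_lit 558) (nat_lit 6574) (.d (nat_lit 497) (nat_lit 498) (nat_lit 3534) (nat_lit 525) (nat_lit 1517))))))))))))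
noncomputable def s133712 : Cert := .r (nat_lit 878694100854745141280140870632829401490526618228912448770151654232486559059718479500200101637923672536792323396276385421498563538590997961241752312636980068352) (.p (nat_lit 497) (.a (.f (nat_lit 431) (nat_lit 399) (nat_lit 4495) (.f (nat_lit 464) (nat_lit 560) (nat_lit 7599) (.f (nat_lit 466) (nat_lit 465) (nat_lit 2510) (.d (nat_lit 498) (nat_lit 467) (nat_lit 2511) (nat_lit 499) (nat_lit 3535))))) (.a (.f (nat_lit 465) (nat_lit 466) (nat_lit 2510) (.f (nat_lit 433) (nat_lit 401) (nat_lit 5520) (.d (nat_lit 529) (nat_lit 530) (nat_lit 494) (nat_lit 560) (nat_lit 5552)))) (.a (.f (nat_lit 431) (nat_lit 399) (nat_lit 4495) (.f (nat_lit 464) (nat_lit 560) (nat_lit 7599) (.f (nat_lit 498) (nat_lit 499) (nat_lit 3535) (.d (nat_lit 530) (nat_lit 529) (nat_lit 494) (nat_lit 531) (nat_lit 495))))) (.f (nat_lit 465) (nat_lit 466) (nat_lit 2510) (.f (nat_lit 529) (nat_lit 530)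 (nat_lit 494) (.f (nat_lit 433) (nat_lit 401) (nat_lit 5520) (.f (nat_lit 432) (nat_lit 400) (nat_lit 7568) (.f (nat_lit 434) (nat_lit 402) (nat_lit 6545) (.f (nat_lit 435) (nat_lit 464) (nat_lit 1455) (.f (nat_lit 468) (nat_lit 467) (nat_lit 432) (.f (nat_lit 436) (nat_lit 469) (nat_lit 433) (.d (nat_lit 404) (nat_lit 403) (nat_lit 2448) (nat_lit 405) (nat_lit 2449))))))))))))))
noncomputable def s133765 : Cert := .r (nat_lit 878694100854745141256323819315110954901006375692038316188451534125484520860414608653448913445023849385239695046487780905203497230596867842715690486470535020544) (.p (nat_lit 497) (.a (.f (nat_lit 465) (nat_lit 466) (nat_lit 2510) (.f (nat_lit 433) (nat_lit 401) (nat_lit 5520) (.d (nat_lit 529) (nat_lit 530) (nat_lit 494) (nat_lit 560) (nat_lit 5552)))) (.a (.f (nat_lit 465) (nat_lit 466) (nat_lit 2510) (.f (nat_lit 560) (nat_lit 592) (nat_lit 6608) (.d (nat_lit 433) (nat_lit 401) (nat_lit 5520)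 (nat_lit 464) (nat_lit 6576)))) (.a (.f (nat_lit 530) (nat_lit 529) (nat_lit 494) (.f (nat_lit 498) (nat_lit 531) (nat_lit 495) (.d (nat_lit 466) (nat_lit 465) (nat_lit 2510) (nat_lit 467) (nat_lit 2511)))) (.f (nat_lit 462) (nat_lit 461) (nat_lit 3533) (.f (nat_lit 463) (nat_lit 498) (nat_lit 3534) (.f (nat_lit 431) (nat_lit 399) (nat_lit 4495) (.d (nat_lit 560) (nat_lit 464) (nat_lit 7599) (nat_lit 592) (nat_lit 7631)))))))))
noncomputable def s133991 : Cert := .r (nat_lit 1318041150898517250021656603580495764754525287887669734512005646170653574091856233714000570767152560133417649153612138061606800024502654512602591231268865703936) (.p (nat_lit 463) (.a (.f (nat_lit 431) (nat_lit 560) (nat_lit 4527) (.d (nat_lit 399) (nat_lit 496) (nat_lit 4495) (nat_lit 526) (nat_lit 5518))) (.a (.f (nat_lit 431) (nat_lit 560) (nat_lit 4527) (.f (nat_lit 399) (nat_lit 526) (nat_lit 5518) (.d (nat_lit 400) (nat_lit 368) (nat_lit 6511)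 (nat_lit 432) (nat_lit 6543)))) (.a (.p (nat_lit 559) (.a (.d (nat_lit 462) (nat_lit 430) (nat_lit 7598) (nat_lit 591) (nat_lit 7630)) (.f (nat_lit 432) (nat_lit 464) (nat_lit 6575) (.f (nat_lit 431) (nat_lit 400) (nat_lit 6543) (.d (nat_lit 399) (nat_lit 496) (nat_lit 4495) (nat_lit 526) (nat_lit 5518)))))) (.p (nat_lit 559) (.a (.d (nat_lit 462) (nat_lit 430) (nat_lit 7598) (nat_lit 591) (nat_lit 7630)) (.a (.f (nat_lit 560) (nat_lit 592) (nat_lit 4559) (.f (nat_lit 462) (nat_lit 430) (nat_lit 7598) (.f (nat_lit 464) (nat_lit 432) (nat_lit 6575) (.f (nat_lit 465) (nat_lit 466) (nat_lit 1486) (.d (nat_lit 433) (nat_lit 434) (nat_lit 2478) (nat_lit 496) (nat_lit 6576)))))) (.f (nat_lit 464) (nat_lit 432) (nat_lit 6575) (.f (nat_lit 591) (nat_lit 496) (nat_lit 6607) (.d (nat_lit 592) (nat_lit 560) (nat_lit 4559) (nat_lit 624) (nat_lit 4591)))))))))))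
noncomputable def s134028 : Cert := .r (nat_lit 878694100803598413031763653913873312477595381475527416800728766896810131433216388931377061717872577344200070940793780982005437429071978327712293046178721824768) (.p (nat_lit 494) (.a (.f (nat_lit 493) (nat_lit 529) (nat_lit 493) (.d (nat_lit 492) (nat_lit 464) (nat_lit 2508) (nat_lit 527) (nat_lit 492))) (.a (.f (nat_lit 493) (nat_lit 529) (nat_lit 493) (.f (nat_lit 492) (nat_lit 464) (nat_lit 2508) (.d (nat_lit 524) (nat_lit 523) (nat_lit 1515) (nat_lit 525) (nat_lit 1516)))) (.a (.p (nat_lit 497) (.a (.d (nat_lit 462) (nat_lit 461) (nat_lit 3533) (nat_lit 498) (nat_lit 3534)) (.f (nat_lit 525) (nat_lit 526) (nat_lit 1517) (.f (nat_lit 493) (nat_lit 524) (nat_lit 1516) (.d (nat_lit 492) (nat_lit 464) (nat_lit 2508) (nat_lit 527) (nat_lit 492)))))) (.p (nat_lit 497) (.a (.d (nat_lit 462) (nat_lit 461) (nat_lit 3533) (nat_lit 498) (nat_lit 3534)) (.a (.f (nat_lit 529) (nat_lit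 530) (nat_lit 494) (.f (nat_lit 462) (nat_lit 461) (nat_lit 3533) (.f (nat_lit 526) (nat_lit 525) (nat_lit 1517) (.f (nat_lit 558) (nat_lit 590) (nat_lit 6606) (.d (nat_lit 557) (nat_lit 527) (nat_lit 1549) (nat_lit 589) (nat_lit 5581)))))) (.f (nat_lit 526) (nat_lit 525) (nat_lit 1517) (.f (nat_lit 498) (nat_lit 527) (nat_lit 1518) (.d (nat_lit 530) (nat_lit 529) (nat_lit 494) (nat_lit 531) (nat_lit 495)))))))))))
noncomputable def s134175 : Cert := .r (nat_lit 1318041150898517250021656603580495764754525287887669734512005646170653574091856233714000570767152560133417649153612138061606800024502654512602591231268865703936) (.p (nat_lit 559) (.a (.f (nat_lit 591) (nat_lit 462) (nat_lit 7630) (.f (nat_lit 623) (nat_lit 526) (nat_lit 7662) (.d (nat_lit 624) (nat_lit 592) (nat_lit 4591) (nat_lit 656) (nat_lit 4623)))) (.a (.f (nat_lit 462) (nat_lit 591) (nat_lit 7630) (.d (nat_lit 430) (nat_lit 398) (nat_lit 4494) (nat_lit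 463) (nat_lit 7598))) (.a (.p (nat_lit 463) (.a (.f (nat_lit 558) (nat_lit 590) (nat_lit 5582) (.f (nat_lit 462) (nat_lit 430) (nat_lit 7598) (.f (nat_lit 557) (nat_lit 556) (nat_lit 2572) (.f (nat_lit 560) (nat_lit 592) (nat_lit 4559) (.d (nat_lit 589) (nat_lit 526) (nat_lit 5581) (nat_lit 588) (nat_lit 1580)))))) (.a (.f (nat_lit 462) (nat_lit 430) (nat_lit 7598) (.f (nat_lit 493) (nat_lit 492) (nat_lit 492) (.d (nat_lit 464) (nat_lit 432) (nat_lit 6575) (nat_lit 465) (nat_lit 1485)))) (.f (nat_lit 558) (nat_lit 590) (nat_lit 5582) (.f (nat_lit 560) (nat_lit 592) (nat_lit 4559) (.f (nat_lit 557) (nat_lit 556) (nat_lit 2572) (.f (nat_lit 525) (nat_lit 524) (nat_lit 3596) (.f (nat_lit 589) (nat_lit 588) (nat_lit 1580) (.f (nat_lit 621) (nat_lit 526) (nat_lit 6637) (.f (nat_lit 652) (nat_lit 620) (nat_lit 5644) (.f (nat_lit 653) (nat_lit 684) (nat_lit 5676) (.d (nat_lit 654) (nat_lit 622) (nat_lit 4621) (nat_lit 686)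 (nat_lit 4653))))))))))))) (.p (nat_lit 591) (.a (.f (nat_lit 623) (nat_lit 526) (nat_lit 7662) (.d (nat_lit 624) (nat_lit 592) (nat_lit 4591) (nat_lit 656) (nat_lit 4623))) (.a (.f (nat_lit 623) (nat_lit 526) (nat_lit 7662) (.d (nat_lit 622) (nat_lit 590) (nat_lit 5614) (nat_lit 654) (nat_lit 5646))) (.f (nat_lit 592) (nat_lit 624) (nat_lit 4591) (.f (nat_lit 590) (nat_lit 622) (nat_lit 5614) (.d (nat_lit 463) (nat_lit 558) (nat_lit 5582) (nat_lit 560) (nat_lit 4559)))))))))))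
noncomputable def s134195 : Cert := .r (nat_lit 1318041151103104163015165470456320120806250234901209862389697195513359284597864595989292730447356940903786658975542555819579304462578733046720428297101898678272) (.p (nat_lit 526) (.a (.f (nat_lit 525) (nat_lit 524) (nat_lit 2540) (.f (nat_lit 557) (nat_lit 556) (nat_lit 1548) (.f (nat_lit 462) (nat_lit 430) (nat_lit 5549) (.d (nat_lit 589) (nat_lit 558) (nat_lit 5581) (nat_lit 621) (nat_lit 6637))))) (.a (.f (nat_lit 493) (nat_lit 492) (nat_lit 492) (.f (nat_lit 461) (nat_lit 460) (nat_lit 3532) (.f (nat_lit 558) (nat_lit 590) (nat_lit 7629) (.d (nat_lit 429) (nat_lit 397) (nat_lit 4493) (nat_lit 462) (nat_lit 7597))))) (.a (.f (nat_lit 493) (nat_lit 492) (nat_lit 492) (.f (nat_lit 525) (nat_lit 524) (nat_lit 2540) (.f (nat_lit 461) (nat_lit 460) (nat_lit 3532) (.d (nat_lit 429) (nat_lit 397) (nat_lit 4493) (nat_lit 558) (nat_lit 4525))))) (.f (nat_lit 525) (nat_lit 524)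 (nat_lit 2540) (.f (nat_lit 493) (nat_lit 492) (nat_lit 492) (.f (nat_lit 557) (nat_lit 556) (nat_lit 1548) (.d (nat_lit 462) (nat_lit 430) (nat_lit 5549) (nat_lit 589) (nat_lit 6605)))))))))
noncomputable def s134217 : Cert := .r (nat_lit 878694100854745141256323819315110954901006375692038316188451534125484520860414608653448913445023849385239695046487780905203497230596867842715690486470535020544) (.p (nat_lit 497) (.a (.f (nat_lit 529) (nat_lit 530) (nat_lit 494) (.f (nat_lit 465) (nat_lit 466) (nat_lit 2510) (.d (nat_lit 433) (nat_lit 401) (nat_lit 5520) (nat_lit 560) (nat_lit 5552)))) (.a (.f (nat_lit 465) (nat_lit 466) (nat_lit 2510) (.f (nat_lit 560) (nat_lit 592) (nat_lit 6608) (.d (nat_lit 433) (nat_lit 401) (nat_lit 5520) (nat_lit 464) (nat_lit 6576)))) (.a (.f (nat_lit 530) (nat_lit 529) (nat_lit 494) (.f (nat_lit 498) (nat_lit 531) (nat_lit 495) (.d (nat_lit 466) (nat_lit 465) (nat_lit 2510) (nat_lit 467)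 (nat_lit 2511)))) (.a (.f (nat_lit 529) (nat_lit 530) (nat_lit 494) (.f (nat_lit 462) (nat_lit 461) (nat_lit 3533) (.f (nat_lit 498) (nat_lit 463) (nat_lit 3534) (.f (nat_lit 499) (nat_lit 500) (nat_lit 1520) (.d (nat_lit 467) (nat_lit 466) (nat_lit 2511) (nat_lit 468) (nat_lit 2512)))))) (.f (nat_lit 529) (nat_lit 530) (nat_lit 494) (.f (nat_lit 462) (nat_lit 461) (nat_lit 3533) (.f (nat_lit 463) (nat_lit 498) (nat_lit 3534) (.f (nat_lit 560) (nat_lit 592) (nat_lit 7631) (.f (nat_lit 526) (nat_lit 525) (nat_lit 1517) (.f (nat_lit 558) (nat_lit 590) (nat_lit 6606) (.d (nat_lit 557) (nat_lit 559) (nat_lit 2573) (nat_lit 589) (nat_lit 5581)))))))))))))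
noncomputable def s134323 : Cert := .r (nat_lit 878694100803598413031763653913873312477595381475527416800728766896810131433216388931377061717872577344200070940793780982005437429071978327712293046178721824768) (.p (nat_lit 497) (.a (.f (nat_lit 498) (nat_lit 462) (nat_lit 3534) (.f (nat_lit 499) (nat_lit 464) (nat_lit 3535) (.d (nat_lit 531) (nat_lit 530) (nat_lit 495) (nat_lit 532) (nat_lit 496)))) (.a (.f (nat_lit 462) (nat_lit 498) (nat_lit 3534) (.d (nat_lit 461) (nat_lit 460) (nat_lit 460) (nat_lit 494) (nat_lit 3533))) (.a (.p (nat_lit 494) (.a (.f (nat_lit 465) (nat_lit 466) (nat_lit 2510) (.f (nat_lit 462) (nat_lit 461) (nat_lit 3533) (.f (nat_lit 433) (nat_lit 401) (nat_lit 5520) (.f (nat_lit 529) (nat_lit 530) (nat_lit 494) (.d (nat_lit 434) (nat_lit 402) (nat_lit 6545) (nat_lit 464) (nat_lit 2478)))))) (.a (.f (nat_lit 462) (nat_lit 461) (nat_lit 3533) (.f (nat_lit 431) (nat_lit 399) (nat_lit 4495) (.d (nat_lit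 526) (nat_lit 525) (nat_lit 1517) (nat_lit 558) (nat_lit 6574)))) (.f (nat_lit 465) (nat_lit 466) (nat_lit 2510) (.f (nat_lit 529) (nat_lit 530) (nat_lit 494) (.f (nat_lit 433) (nat_lit 401) (nat_lit 5520) (.f (nat_lit 432) (nat_lit 400) (nat_lit 7568) (.f (nat_lit 434) (nat_lit 402) (nat_lit 6545) (.f (nat_lit 435) (nat_lit 464) (nat_lit 1455) (.f (nat_lit 404) (nat_lit 403) (nat_lit 2448) (.f (nat_lit 436) (nat_lit 405) (nat_lit 2449) (.d (nat_lit 468) (nat_lit 467) (nat_lit 432) (nat_lit 469) (nat_lit 433))))))))))))) (.p (nat_lit 498) (.a (.f (nat_lit 499) (nat_lit 464) (nat_lit 3535) (.d (nat_lit 531) (nat_lit 530) (nat_lit 495) (nat_lit 532) (nat_lit 496))) (.a (.f (nat_lit 499) (nat_lit 464) (nat_lit 3535) (.d (nat_lit 467) (nat_lit 466) (nat_lit 2511) (nat_lit 468) (nat_lit 2512))) (.f (nat_lit 530) (nat_lit 531) (nat_lit 495) (.f (nat_lit 466) (nat_lit 467) (nat_lit 2511) (.d (nat_lit 494) (nat_lit 465) (nat_lit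 2510) (nat_lit 529) (nat_lit 494)))))))))))
noncomputable def s134343 : Cert := .r (nat_lit 1318041151051957434790605305055082478382839240684698963001974428284684895170666376267220878720205668862747034869848555896381244661053843531717030856810085482496) (.p (nat_lit 464) (.a (.f (nat_lit 432) (nat_lit 400) (nat_lit 5519) (.f (nat_lit 433) (nat_lit 401) (nat_lit 6544) (.f (nat_lit 462) (nat_lit 461) (nat_lit 2477) (.d (nat_lit 434) (nat_lit 435) (nat_lit 1455) (nat_lit 465) (nat_lit 2478))))) (.a (.f (nat_lit 431) (nat_lit 399) (nat_lit 4495) (.f (nat_lit 430) (nat_lit 398) (nat_lit 7566) (.f (nat_lit 465) (nat_lit 466) (nat_lit 3502) (.d (nat_lit 429) (nat_lit 428) (nat_lit 428) (nat_lit 462) (nat_lit 3501))))) (.a (.f (nat_lit 431) (nat_lit 399) (nat_lit 4495) (.f (nat_lit 432) (nat_lit 400) (nat_lit 5519) (.f (nat_lit 430) (nat_lit 398) (nat_lit 7566) (.d (nat_lit 429) (nat_lit 428) (nat_lit 428) (nat_lit 465) (nat_lit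 429))))) (.f (nat_lit 432) (nat_lit 400) (nat_lit 5519) (.f (nat_lit 431) (nat_lit 399) (nat_lit 4495) (.f (nat_lit 433) (nat_lit 401) (nat_lit 6544) (.d (nat_lit 462) (nat_lit 434) (nat_lit 1454) (nat_lit 461) (nat_lit 2477)))))))))
noncomputable def s134365 : Cert := .r (nat_lit 1318041150847370521797096438179258122331114293671158835124282878941979184664658013991928719040001288092378025047918138138408740222977764997599193790977052508160) (.p (nat_lit 559) (.a (.f (nat_lit 560) (nat_lit 592) (nat_lit 4559) (.f (nat_lit 558) (nat_lit 590) (nat_lit 5582) (.d (nat_lit 557) (nat_lit 529) (nat_lit 2573) (nat_lit 556) (nat_lit 2572)))) (.a (.f (nat_lit 558) (nat_lit 590) (nat_lit 5582) (.f (nat_lit 529) (nat_lit 530) (nat_lit 1550) (.d (nat_lit 557) (nat_lit 526) (nat_lit 1549) (nat_lit 556) (nat_lit 2572)))) (.a (.f (nat_lit 592) (nat_lit 560) (nat_lit 4559) (.f (nat_lit 591) (nat_lit 624) (nat_lit 4591) (.d (nat_lit 590)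 (nat_lit 558) (nat_lit 5582) (nat_lit 622) (nat_lit 5614)))) (.a (.f (nat_lit 560) (nat_lit 592) (nat_lit 4559) (.f (nat_lit 462) (nat_lit 430) (nat_lit 7598) (.f (nat_lit 591) (nat_lit 494) (nat_lit 7630) (.f (nat_lit 623) (nat_lit 655) (nat_lit 6671) (.d (nat_lit 622) (nat_lit 590) (nat_lit 5614) (nat_lit 654) (nat_lit 5646)))))) (.f (nat_lit 560) (nat_lit 592) (nat_lit 4559) (.f (nat_lit 462) (nat_lit 430) (nat_lit 7598) (.f (nat_lit 494) (nat_lit 591) (nat_lit 7630) (.f (nat_lit 529) (nat_lit 530) (nat_lit 3566) (.f (nat_lit 464) (nat_lit 432) (nat_lit 6575) (.f (nat_lit 465) (nat_lit 466) (nat_lit 1486) (.d (nat_lit 433) (nat_lit 434) (nat_lit 2478) (nat_lit 497) (nat_lit 5552)))))))))))))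
noncomputable def s134436 : Cert := .r (nat_lit 3075429351840806608808645991426376339362569487970970887347565404386476201415154092488552798856433831015013252414348633279616902842911095695092083207336062091264) (.p (nat_lit 526) (.a (.f (nat_lit 494) (nat_lit 493) (nat_lit 3565) (.f (nat_lit 558) (nat_lit 557) (nat_lit 1549) (.d (nat_lit 463) (nat_lit 431) (nat_lit 5550) (nat_lit 590) (nat_lit 6606)))) (.a (.f (nat_lit 497) (nat_lit 498) (nat_lit 2542) (.f (nat_lit 525) (nat_lit 496) (nat_lit 2541) (.d (nat_lit 557) (nat_lit 556) (nat_lit 1548) (nat_lit 558) (nat_lit 1549)))) (.f (nat_lit 497) (nat_lit 498) (nat_lit 2542) (.f (nat_lit 496) (nat_lit 525) (nat_lit 2541) (.f (nat_lit 494) (nat_lit 493) (nat_lit 493) (.f (nat_lit 465) (nat_lit 466) (nat_lit 2510) (.d (nat_lit 433) (nat_lit 401) (nat_lit 5520) (nat_lit 560) (nat_lit 5552)))))))))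
noncomputable def s134441 : Cert := .r (nat_lit 1318041150847370521797096438179258122331114293671158835124282878941979184664658013991928719040001288092378025047918138138408740222977764997599193790977052508160) (.p (nat_lit 431) (.a (.f (nat_lit 399) (nat_lit 496) (nat_lit 4495) (.d (nat_lit 526) (nat_lit 494) (nat_lit 5518) (nat_lit 558) (nat_lit 5550))) (.a (.f (nat_lit 399) (nat_lit 496) (nat_lit 4495) (.d (nat_lit 400) (nat_lit 368) (nat_lit 6511) (nat_lit 432) (nat_lit 6543))) (.a (.f (nat_lit 526) (nat_lit 558) (nat_lit 5550) (.f (nat_lit 399) (nat_lit 494) (nat_lit 5518) (.d (nat_lit 400) (nat_lit 368) (nat_lit 6511) (nat_lit 432) (nat_lit 6543)))) (.f (nat_lit 432) (nat_lit 400) (nat_lit 6543) (.f (nat_lit 464) (nat_lit 559) (nat_lit 6575) (.f (nat_lit 430) (nat_lit 398) (nat_lit 7566) (.d (nat_lit 429) (nat_lit 428) (nat_lit 428) (nat_lit 465) (nat_lit 429)))))))))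
noncomputable def s134516 : Cert := .r (nat_lit 3075429351840806608808645991426376339362569487970970887347565404386476201415154092488552798856433831015013252414348633279616902842911095695092083207336062091264) (.p (nat_lit 530) (.a (.f (nat_lit 498) (nat_lit 499) (nat_lit 2543) (.f (nat_lit 497) (nat_lit 526) (nat_lit 2542) (.f (nat_lit 562) (nat_lit 563) (nat_lit 527) (.d (nat_lit 465) (nat_lit 433) (nat_lit 4529) (nat_lit 594) (nat_lit 7633))))) (.a (.f (nat_lit 531) (nat_lit 496) (nat_lit 3567) (.d (nat_lit 563) (nat_lit 562) (nat_lit 527) (nat_lit 564) (nat_lit 528))) (.a (.f (nat_lit 496) (nat_lit 531) (nat_lit 3567) (.f (nat_lit 498) (nat_lit 499) (nat_lit 2543) (.f (nat_lit 497) (nat_lit 526) (nat_lit 2542) (.f (nat_lit 466) (nat_lit 467) (nat_lit 2511) (.f (nat_lit 434) (nat_lit 402) (nat_lit 5521) (.f (nat_lit 433) (nat_lit 401) (nat_lit 7569) (.d (nat_lit 465) (nat_lit 560) (nat_lit 5552) (nat_lit 562) (nat_lit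 7601)))))))) (.f (nat_lit 531) (nat_lit 496) (nat_lit 3567) (.d (nat_lit 499) (nat_lit 498) (nat_lit 2543) (nat_lit 500) (nat_lit 2544)))))))
noncomputable def s134557 : Cert := .r (nat_lit 3773962425700235453045152993996215493513076086304515567314859584464652809181956945320039243262284641066441129223411287490775761095635163753639282460618927263661672103936) (.p (nat_lit 464) (.a (.f (nat_lit 463) (nat_lit 431) (nat_lit 7599) (.f (nat_lit 465) (nat_lit 433) (nat_lit 6576) (.d (nat_lit 494) (nat_lit 466) (nat_lit 1486) (nat_lit 493) (nat_lit 2509)))) (.a (.f (nat_lit 559) (nat_lit 591) (nat_lit 5583) (.f (nat_lit 432) (nat_lit 527) (nat_lit 5551) (.d (nat_lit 433) (nat_lit 401) (nat_lit 6544) (nat_lit 465) (nat_lit 6576)))) (.f (nat_lit 559) (nat_lit 591) (nat_lit 5583) (.f (nat_lit 527) (nat_lit 432) (nat_lit 5551) (.f (nat_lit 463) (nat_lit 431) (nat_lit 4527) (.f (nat_lit 558) (nat_lit 590) (nat_lit 5582) (.d (nat_lit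 557) (nat_lit 529) (nat_lit 2573) (nat_lit 556) (nat_lit 2572)))))))))
noncomputable def s134562 : Cert := .r (nat_lit 878694100854745141256323819315110954901006375692038316188451534125484520860414608653448913445023849385239695046487780905203497230596867842715690486470535020544) (.p (nat_lit 493) (.a (.f (nat_lit 492) (nat_lit 527) (nat_lit 492) (.d (nat_lit 464) (nat_lit 463) (nat_lit 2508) (nat_lit 465) (nat_lit 2509))) (.a (.f (nat_lit 492) (nat_lit 527) (nat_lit 492) (.d (nat_lit 524) (nat_lit 523) (nat_lit 1515) (nat_lit 525) (nat_lit 1516))) (.a (.f (nat_lit 464) (nat_lit 465) (nat_lit 2509) (.f (nat_lit 492) (nat_lit 463) (nat_lit 2508) (.d (nat_lit 524) (nat_lit 523) (nat_lit 1515) (nat_lit 525) (nat_lit 1516)))) (.f (nat_lit 525) (nat_lit 524) (nat_lit 1516) (.f (nat_lit 526) (nat_lit 497) (nat_lit 1517) (.f (nat_lit 461) (nat_lit 460) (nat_lit 3532) (.d (nat_lit 429) (nat_lit 397) (nat_lit 4493) (nat_lit 558)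 (nat_lit 4525)))))))))
noncomputable def s134636 : Cert := .r (nat_lit 3773962425700235453045152993996215493513076086304515567314859584464652809181956945320039243262284641066441129223411287490775761095635163753639282460618927263661672103936) (.p (nat_lit 592) (.a (.f (nat_lit 591) (nat_lit 623) (nat_lit 5615) (.f (nat_lit 559) (nat_lit 464) (nat_lit 5583) (.f (nat_lit 593) (nat_lit 625) (nat_lit 4592) (.d (nat_lit 558) (nat_lit 557) (nat_lit 557) (nat_lit 594) (nat_lit 3630))))) (.a (.f (nat_lit 624) (nat_lit 527) (nat_lit 7663) (.d (nat_lit 625) (nat_lit 593) (nat_lit 4592) (nat_lit 657) (nat_lit 4624))) (.a (.f (nat_lit 527) (nat_lit 624) (nat_lit 7663) (.f (nat_lit 591) (nat_lit 623) (nat_lit 5615) (.f (nat_lit 559) (nat_lit 464) (nat_lit 5583) (.f (nat_lit 590) (nat_lit 622) (nat_lit 5614) (.f (nat_lit 589) (nat_lit 588) (nat_lit 2604) (.f (nat_lit 557) (nat_lit 556) (nat_lit 3628) (.d (nat_lit 558) (nat_lit 529)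 (nat_lit 2573) (nat_lit 593) (nat_lit 3629)))))))) (.f (nat_lit 624) (nat_lit 527) (nat_lit 7663) (.d (nat_lit 623) (nat_lit 591) (nat_lit 5615) (nat_lit 655) (nat_lit 5647)))))))
noncomputable def s134675 : Cert := .r (nat_lit 878694100496718043517683302282418331810487718418343092402491322775749527474899974671687634004666183037093927858109549828751614463963730408009475621262727315456) (.p (nat_lit 495) (.a (.p (nat_lit 494) (.a (.p (nat_lit 529) (.a (.f (nat_lit 527) (nat_lit 530) (nat_lit 3566) (.d (nat_lit 493) (nat_lit 496) (nat_lit 493) (nat_lit 526) (nat_lit 3565))) (.a (.f (nat_lit 496) (nat_lit 493) (nat_lit 493) (.d (nat_lit 530) (nat_lit 497) (nat_lit 494) (nat_lit 531) (nat_lit 3567))) (.a (.f (nat_lit 530) (nat_lit 527) (nat_lit 3566) (.d (nat_lit 496) (nat_lit 497) (nat_lit 494) (nat_lit 531) (nat_lit 3567))) (.a (.f (nat_lit 527) (nat_lit 530) (nat_lit 3566) (.d (nat_lit 493) (nat_lit 492) (nat_lit 492) (nat_lit 526) (nat_lit 3565))) (.f (nat_lit 493) (nat_lit 496) (nat_lit 493) (.d (nat_lit 527) (nat_lit 492) (nat_lit 492) (nat_lit 526) (nat_lit 3565)))))))) (.a (.p (nat_lit 496) (.a (.f (nat_lit 493) (nat_lit 529) (nat_lit 493) (.f (nat_lit 464) (nat_lit 465) (nat_lit 2509) (.f (nat_lit 463) (nat_lit 492) (nat_lit 2508) (.d (nat_lit 431) (nat_lit 399) (nat_lit 4495) (nat_lit 560) (nat_lit 7599))))) (.a (.f (nat_lit 493) (nat_lit 529) (nat_lit 493) (.f (nat_lit 525) (nat_lit 524) (nat_lit 1516) (.f (nat_lit 461) (nat_lit 460) (nat_lit 3532) (.d (nat_lit 497) (nat_lit 462) (nat_lit 3533) (nat_lit 526) (nat_lit 1517))))) (.a s133765 s133118)))) (.a (.p (nat_lit 463) (.a (.p (nat_lit 560) (.a (.f (nat_lit 496) (nat_lit 592) (nat_lit 7631) (.d (nat_lit 431) (nat_lit 464) (nat_lit 7599) (nat_lit 527) (nat_lit 4527))) (.a (.f (nat_lit 496) (nat_lit 592) (nat_lit 7631) (.d (nat_lit 431) (nat_lit 399) (nat_lit 4495) (nat_lit 464) (nat_lit 7599))) (.a (.f (nat_lit 592) (nat_lit 496) (nat_lit 7631) (.d (nat_lit 527) (nat_lit 559) (nat_lit 4559) (nat_lit 624) (nat_lit 7663))) (.a (.f (nat_lit 527) (nat_lit 431) (nat_lit 4527) (.d (nat_lit 592) (nat_lit 559) (nat_lit 4559) (nat_lit 624) (nat_lit 7663))) (.f (nat_lit 431) (nat_lit 527) (nat_lit 4527) (.d (nat_lit 399) (nat_lit 496) (nat_lit 4495) (nat_lit 526) (nat_lit 5518)))))))) (.a (.p (nat_lit 496) (.a (.f (nat_lit 431) (nat_lit 399) (nat_lit 4495) (.d (nat_lit 560) (nat_lit 464) (nat_lit 7599) (nat_lit 592) (nat_lit 7631))) (.a (.p (nat_lit 497) (.a (.d (nat_lit 462) (nat_lit 461) (nat_lit 3533) (nat_lit 498) (nat_lit 3534)) (.f (nat_lit 465) (nat_lit 466) (nat_lit 2510) (.f (nat_lit 560) (nat_lit 592) (nat_lit 7631) (.d (nat_lit 464) (nat_lit 433) (nat_lit 6576) (nat_lit 493) (nat_lit 2509)))))) (.a (.p (nat_lit 497) (.a (.d (nat_lit 462) (nat_lit 461) (nat_lit 3533) (nat_lit 498) (nat_lit 3534)) (.f (nat_lit 465) (nat_lit 466) (nat_lit 2510) (.f (nat_lit 493) (nat_lit 464) (nat_lit 2509) (.d (nat_lit 525) (nat_lit 524) (nat_lit 1516) (nat_lit 526) (nat_lit 1517)))))) (.p (nat_lit 526) (.a (.f (nat_lit 431) (nat_lit 399) (nat_lit 4495) (.d (nat_lit 558) (nat_lit 462) (nat_lit 6574) (nat_lit 590) (nat_lit 6606))) (.a (.f (nat_lit 497) (nat_lit 525) (nat_lit 1517) (.d (nat_lit 462) (nat_lit 461) (nat_lit 3533) (nat_lit 498) (nat_lit 3534))) (.f (nat_lit 525) (nat_lit 497) (nat_lit 1517) (.d (nat_lit 524) (nat_lit 493) (nat_lit 1516) (nat_lit 523) (nat_lit 2539)))))))))) (.a (.p (nat_lit 496) (.a (.p (nat_lit 497) (.a (.d (nat_lit 462) (nat_lit 461) (nat_lit 3533) (nat_lit 498) (nat_lit 3534)) (.f (nat_lit 465) (nat_lit 466) (nat_lit 2510) (.f (nat_lit 560) (nat_lit 592) (nat_lit 7631) (.d (nat_lit 464) (nat_lit 433) (nat_lit 6576) (nat_lit 493) (nat_lit 2509)))))) (.a (.p (nat_lit 497) (.a (.d (nat_lit 462) (nat_lit 461) (nat_lit 3533) (nat_lit 498) (nat_lit 3534)) (.f (nat_lit 465) (nat_lit 466) (nat_lit 2510) (.f (nat_lit 560) (nat_lit 592) (nat_lit 7631) (.d (nat_lit 433) (nat_lit 401) (nat_lit 5520) (nat_lit 464) (nat_lit 6576)))))) (.a (.p (nat_lit 497) (.a (.d (nat_lit 462) (nat_lit 461) (nat_lit 3533) (nat_lit 498) (nat_lit 3534)) (.f (nat_lit 465) (nat_lit 466) (nat_lit 2510) (.f (nat_lit 493) (nat_lit 464) (nat_lit 2509) (.d (nat_lit 525) (nat_lit 524) (nat_lit 1516) (nat_lit 526) (nat_lit 1517)))))) (.a (.p (nat_lit 493) (.a (.d (nat_lit 492) (nat_lit 464) (nat_lit 2508) (nat_lit 527) (nat_lit 492)) (.a (.d (nat_lit 464) (nat_lit 465) (nat_lit 2509) (nat_lit 492) (nat_lit 2508)) (.a (.f (nat_lit 464) (nat_lit 465) (nat_lit 2509) (.f (nat_lit 560) (nat_lit 592) (nat_lit 7631) (.f (nat_lit 559) (nat_lit 591) (nat_lit 5583) (.f (nat_lit 527) (nat_lit 432) (nat_lit 5551) (.f (nat_lit 462) (nat_lit 430) (nat_lit 7598) (.f (nat_lit 461) (nat_lit 460) (nat_lit 460) (.f (nat_lit 525) (nat_lit 524) (nat_lit 1516) (.f (nat_lit 557) (nat_lit 589) (nat_lit 6605) (.d (nat_lit 556) (nat_lit 526) (nat_lit 1548) (nat_lit 588) (nat_lit 5580)))))))))) (.f (nat_lit 492) (nat_lit 527) (nat_lit 492) (.d (nat_lit 524) (nat_lit 523) (nat_lit 1515) (nat_lit 525) (nat_lit 1516))))))) (.a (.p (nat_lit 497) (.a (.d (nat_lit 462) (nat_lit 461) (nat_lit 3533) (nat_lit 498) (nat_lit 3534)) (.a (.f (nat_lit 526) (nat_lit 525) (nat_lit 1517) (.f (nat_lit 498) (nat_lit 527) (nat_lit 1518) (.d (nat_lit 466) (nat_lit 465) (nat_lit 2510) (nat_lit 467) (nat_lit 2511)))) (.f (nat_lit 462) (nat_lit 461) (nat_lit 3533) (.f (nat_lit 526) (nat_lit 525) (nat_lit 1517) (.f (nat_lit 558) (nat_lit 590) (nat_lit 6606) (.f (nat_lit 559) (nat_lit 591) (nat_lit 4558) (.f (nat_lit 527) (nat_lit 430) (nat_lit 4526) (.d (nat_lit 557) (nat_lit 556) (nat_lit 2572) (nat_lit 589) (nat_lit 5581)))))))))) (.a s126232 (.p (nat_lit 497) (.a (.f (nat_lit 465) (nat_lit 466) (nat_lit 2510) (.f (nat_lit 560) (nat_lit 592) (nat_lit 7631) (.d (nat_lit 464) (nat_lit 433) (nat_lit 6576) (nat_lit 493) (nat_lit 2509)))) (.a (.f (nat_lit 465) (nat_lit 466) (nat_lit 2510) (.f (nat_lit 560) (nat_lit 592) (nat_lit 7631) (.d (nat_lit 433) (nat_lit 401) (nat_lit 5520) (nat_lit 464) (nat_lit 6576)))) (.a (.f (nat_lit 465) (nat_lit 466) (nat_lit 2510) (.f (nat_lit 493) (nat_lit 464) (nat_lit 2509) (.d (nat_lit 525) (nat_lit 524) (nat_lit 1516) (nat_lit 526) (nat_lit 1517)))) (.a (.f (nat_lit 526) (nat_lit 525) (nat_lit 1517) (.f (nat_lit 498) (nat_lit 527) (nat_lit 1518) (.f (nat_lit 499) (nat_lit 464) (nat_lit 3535) (.d (nat_lit 467) (nat_lit 466) (nat_lit 2511) (nat_lit 468) (nat_lit 2512))))) (.a (.f (nat_lit 526) (nat_lit 525) (nat_lit 1517) (.f (nat_lit 498) (nat_lit 527) (nat_lit 1518) (.d (nat_lit 466) (nat_lit 465) (nat_lit 2510) (nat_lit 467) (nat_lit 2511)))) (.f (nat_lit 526) (nat_lit 525) (nat_lit 1517) (.f (nat_lit 527) (nat_lit 498) (nat_lit 1518) (.f (nat_lit 493) (nat_lit 492) (nat_lit 492) (.f (nat_lit 464) (nat_lit 465) (nat_lit 2509) (.d (nat_lit 432) (nat_lit 400) (nat_lit 5519) (nat_lit 559) (nat_lit 5551))))))))))))))))))) (.a (.p (nat_lit 431) (.a (.f (nat_lit 527) (nat_lit 560) (nat_lit 4527) (.d (nat_lit 526) (nat_lit 399) (nat_lit 5518) (nat_lit 558) (nat_lit 5550))) (.a (.f (nat_lit 399) (nat_lit 526) (nat_lit 5518) (.f (nat_lit 367) (nat_lit 462) (nat_lit 5486) (.d (nat_lit 368) (nat_lit 336) (nat_lit 6479) (nat_lit 400) (nat_lit 6511)))) (.a (.f (nat_lit 527) (nat_lit 560) (nat_lit 4527) (.f (nat_lit 526) (nat_lit 558) (nat_lit 5550) (.f (nat_lit 430) (nat_lit 398) (nat_lit 7566) (.f (nat_lit 462) (nat_lit 559) (nat_lit 4526) (.f (nat_lit 432) (nat_lit 400) (nat_lit 6543) (.d (nat_lit 461) (nat_lit 433) (nat_lit 1453) (nat_lit 460) (nat_lit 2476))))))) (.f (nat_lit 527) (nat_lit 560) (nat_lit 4527) (.f (nat_lit 430) (nat_lit 398) (nat_lit 7566) (.f (nat_lit 462) (nat_lit 559) (nat_lit 7598) (.f (nat_lit 432) (nat_lit 400) (nat_lit 6543) (.d (nat_lit 461) (nat_lit 433) (nat_lit 1453) (nat_lit 460) (nat_lit 2476)))))))))) (.a (.p (nat_lit 496) (.a (.p (nat_lit 497) (.a (.d (nat_lit 462) (nat_lit 461) (nat_lit 3533) (nat_lit 498) (nat_lit 3534)) (.f (nat_lit 465) (nat_lit 466) (nat_lit 2510) (.f (nat_lit 493) (nat_lit 464) (nat_lit 2509) (.d (nat_lit 525) (nat_lit 524) (nat_lit 1516) (nat_lit 526) (nat_lit 1517)))))) (.a (.p (nat_lit 497) (.a (.d (nat_lit 462) (nat_lit 461) (nat_lit 3533) (nat_lit 498) (nat_lit 3534)) (.a (.f (nat_lit 526) (nat_lit 525) (nat_lit 1517) (.f (nat_lit 498) (nat_lit 527) (nat_lit 1518) (.d (nat_lit 466) (nat_lit 465) (nat_lit 2510) (nat_lit 467) (nat_lit 2511)))) (.f (nat_lit 462) (nat_lit 461) (nat_lit 3533) (.f (nat_lit 526) (nat_lit 525) (nat_lit 1517) (.f (nat_lit 558) (nat_lit 590) (nat_lit 6606) (.f (nat_lit 559) (nat_lit 591) (nat_lit 4558) (.f (nat_lit 527) (nat_lit 430) (nat_lit 4526) (.d (nat_lit 557) (nat_lit 556) (nat_lit 2572) (nat_lit 589) (nat_lit 5581)))))))))) (.a (.p (nat_lit 527) (.a (.f (nat_lit 493) (nat_lit 492) (nat_lit 492) (.f (nat_lit 464) (nat_lit 465) (nat_lit 2509) (.d (nat_lit 559) (nat_lit 432) (nat_lit 6575) (nat_lit 591) (nat_lit 6607)))) (.a (.f (nat_lit 431) (nat_lit 399) (nat_lit 4495) (.f (nat_lit 526) (nat_lit 558) (nat_lit 5550) (.f (nat_lit 432) (nat_lit 400) (nat_lit 6543) (.f (nat_lit 559) (nat_lit 464) (nat_lit 5551) (.d (nat_lit 430) (nat_lit 398) (nat_lit 7566) (nat_lit 462) (nat_lit 4526)))))) (.f (nat_lit 431) (nat_lit 399) (nat_lit 4495) (.f (nat_lit 526) (nat_lit 558) (nat_lit 5550) (.f (nat_lit 525) (nat_lit 524) (nat_lit 2540) (.f (nat_lit 557) (nat_lit 556) (nat_lit 1548) (.d (nat_lit 430) (nat_lit 398) (nat_lit 7566) (nat_lit 462) (nat_lit 5549))))))))) (.a (.p (nat_lit 527) (.a (.f (nat_lit 493) (nat_lit 492) (nat_lit 492) (.f (nat_lit 464) (nat_lit 465) (nat_lit 2509) (.d (nat_lit 559) (nat_lit 432) (nat_lit 6575) (nat_lit 591) (nat_lit 6607)))) (.f (nat_lit 431) (nat_lit 399) (nat_lit 4495) (.f (nat_lit 526) (nat_lit 558) (nat_lit 5550) (.d (nat_lit 497) (nat_lit 498) (nat_lit 1518) (nat_lit 525) (nat_lit 2541)))))) (.a (.p (nat_lit 527) (.a (.f (nat_lit 493) (nat_lit 492) (nat_lit 492) (.f (nat_lit 464) (nat_lit 465) (nat_lit 2509) (.d (nat_lit 559) (nat_lit 432) (nat_lit 6575) (nat_lit 591) (nat_lit 6607)))) (.a (.f (nat_lit 431) (nat_lit 399) (nat_lit 4495) (.f (nat_lit 432) (nat_lit 400) (nat_lit 6543) (.f (nat_lit 559) (nat_lit 464) (nat_lit 5551) (.d (nat_lit 591) (nat_lit 462) (nat_lit 7630) (nat_lit 623) (nat_lit 6639))))) (.a (.f (nat_lit 431) (nat_lit 399) (nat_lit 4495) (.f (nat_lit 430) (nat_lit 398) (nat_lit 7566) (.f (nat_lit 462) (nat_lit 559) (nat_lit 7598) (.d (nat_lit 497) (nat_lit 461) (nat_lit 3533) (nat_lit 498) (nat_lit 3534))))) (.f (nat_lit 493) (nat_lit 492) (nat_lit 492) (.f (nat_lit 464) (nat_lit 465) (nat_lit 2509) (.f (nat_lit 432) (nat_lit 400) (nat_lit 5519) (.f (nat_lit 461) (nat_lit 460) (nat_lit 3532) (.d (nat_lit 433) (nat_lit 401) (nat_lit 6544) (nat_lit 462) (nat_lit 2477)))))))))) (.p (nat_lit 526) (.a (.f (nat_lit 431) (nat_lit 399) (nat_lit 4495) (.d (nat_lit 558) (nat_lit 462) (nat_lit 6574) (nat_lit 590) (nat_lit 6606))) (.a (.f (nat_lit 497) (nat_lit 525) (nat_lit 1517) (.d (nat_lit 462) (nat_lit 461) (nat_lit 3533) (nat_lit 498) (nat_lit 3534))) (.f (nat_lit 525) (nat_lit 497) (nat_lit 1517) (.d (nat_lit 524) (nat_lit 493) (nat_lit 1516) (nat_lit 523) (nat_lit 2539)))))))))))) (.p (nat_lit 560) (.a (.f (nat_lit 496) (nat_lit 592) (nat_lit 7631) (.d (nat_lit 431) (nat_lit 464) (nat_lit 7599) (nat_lit 527) (nat_lit 4527))) (.a (.f (nat_lit 496) (nat_lit 592) (nat_lit 7631) (.d (nat_lit 431) (nat_lit 399) (nat_lit 4495) (nat_lit 464) (nat_lit 7599))) (.a (.f (nat_lit 527) (nat_lit 431) (nat_lit 4527) (.d (nat_lit 592) (nat_lit 559) (nat_lit 4559) (nat_lit 624) (nat_lit 7663))) (.a (.f (nat_lit 592) (nat_lit 496) (nat_lit 7631) (.d (nat_lit 527) (nat_lit 559) (nat_lit 4559) (nat_lit 624) (nat_lit 7663))) (.f (nat_lit 431) (nat_lit 527) (nat_lit 4527) (.d (nat_lit 496) (nat_lit 399) (nat_lit 4495) (nat_lit 464) (nat_lit 7599)))))))))))))) (.a (.p (nat_lit 496) (.a s133765 (.a (.p (nat_lit 497) (.a (.f (nat_lit 465) (nat_lit 466) (nat_lit 2510) (.f (nat_lit 433) (nat_lit 401) (nat_lit 5520) (.d (nat_lit 529) (nat_lit 530) (nat_lit 494) (nat_lit 560) (nat_lit 5552)))) (.a (.f (nat_lit 465) (nat_lit 466) (nat_lit 2510) (.f (nat_lit 560) (nat_lit 592) (nat_lit 6608) (.d (nat_lit 433) (nat_lit 401) (nat_lit 5520) (nat_lit 464) (nat_lit 6576)))) (.a (.f (nat_lit 530) (nat_lit 529) (nat_lit 494) (.f (nat_lit 498) (nat_lit 531) (nat_lit 495) (.d (nat_lit 466) (nat_lit 465) (nat_lit 2510) (nat_lit 467) (nat_lit 2511)))) (.f (nat_lit 526) (nat_lit 525) (nat_lit 1517) (.f (nat_lit 527) (nat_lit 498) (nat_lit 1518) (.f (nat_lit 462) (nat_lit 461) (nat_lit 3533) (.d (nat_lit 430) (nat_lit 398) (nat_lit 4494) (nat_lit 559) (nat_lit 4526))))))))) (.a (.p (nat_lit 497) (.a (.f (nat_lit 465) (nat_lit 466) (nat_lit 2510) (.f (nat_lit 560) (nat_lit 592) (nat_lit 6608) (.d (nat_lit 433) (nat_lit 401) (nat_lit 5520) (nat_lit 464) (nat_lit 6576)))) (.f (nat_lit 462) (nat_lit 461) (nat_lit 3533) (.f (nat_lit 463) (nat_lit 498) (nat_lit 3534) (.f (nat_lit 526) (nat_lit 525) (nat_lit 1517) (.d (nat_lit 431) (nat_lit 399) (nat_lit 4495) (nat_lit 558) (nat_lit 6574))))))) (.a (.p (nat_lit 497) (.a (.f (nat_lit 530) (nat_lit 529) (nat_lit 494) (.f (nat_lit 498) (nat_lit 531) (nat_lit 495) (.d (nat_lit 466) (nat_lit 465) (nat_lit 2510) (nat_lit 467) (nat_lit 2511)))) (.a (.f (nat_lit 462) (nat_lit 461) (nat_lit 3533) (.f (nat_lit 463) (nat_lit 498) (nat_lit 3534) (.f (nat_lit 526) (nat_lit 525) (nat_lit 1517) (.d (nat_lit 431) (nat_lit 399) (nat_lit 4495) (nat_lit 558) (nat_lit 6574))))) (.f (nat_lit 529) (nat_lit 530) (nat_lit 494) (.f (nat_lit 462) (nat_lit 461) (nat_lit 3533) (.f (nat_lit 465) (nat_lit 466) (nat_lit 2510) (.f (nat_lit 433) (nat_lit 401) (nat_lit 5520) (.f (nat_lit 432) (nat_lit 400) (nat_lit 7568) (.f (nat_lit 434) (nat_lit 402) (nat_lit 6545) (.d (nat_lit 463) (nat_lit 431) (nat_lit 1454) (nat_lit 464) (nat_lit 2478))))))))))) (.a (.p (nat_lit 560) (.a (.f (nat_lit 463) (nat_lit 592) (nat_lit 7631) (.d (nat_lit 431) (nat_lit 399) (nat_lit 4495) (nat_lit 464) (nat_lit 7599))) (.a (.p (nat_lit 592) (.a (.f (nat_lit 527) (nat_lit 624) (nat_lit 7663) (.f (nat_lit 591) (nat_lit 623) (nat_lit 5615) (.d (nat_lit 559) (nat_lit 462) (nat_lit 7630) (nat_lit 464) (nat_lit 5583)))) (.a (.f (nat_lit 591) (nat_lit 623) (nat_lit 5615) (.f (nat_lit 593) (nat_lit 625) (nat_lit 4592) (.f (nat_lit 559) (nat_lit 464) (nat_lit 5583) (.d (nat_lit 594) (nat_lit 558) (nat_lit 3630) (nat_lit 595) (nat_lit 3631))))) (.f (nat_lit 624) (nat_lit 527) (nat_lit 7663) (.d (nat_lit 625) (nat_lit 593) (nat_lit 4592) (nat_lit 657) (nat_lit 4624)))))) (.a (.p (nat_lit 464) (.a (.f (nat_lit 463) (nat_lit 431) (nat_lit 7599) (.d (nat_lit 465) (nat_lit 433) (nat_lit 6576) (nat_lit 466) (nat_lit 1486))) (.a (.f (nat_lit 559) (nat_lit 591) (nat_lit 5583) (.f (nat_lit 432) (nat_lit 527) (nat_lit 5551) (.d (nat_lit 433) (nat_lit 401) (nat_lit 6544) (nat_lit 465) (nat_lit 6576)))) (.f (nat_lit 559) (nat_lit 591) (nat_lit 5583) (.f (nat_lit 527) (nat_lit 432) (nat_lit 5551) (.f (nat_lit 463) (nat_lit 431) (nat_lit 4527) (.f (nat_lit 558) (nat_lit 590) (nat_lit 5582) (.d (nat_lit 529) (nat_lit 530) (nat_lit 3566) (nat_lit 557) (nat_lit 2573))))))))) (.f (nat_lit 592) (nat_lit 463) (nat_lit 7631) (.f (nat_lit 624) (nat_lit 527) (nat_lit 7663) (.d (nat_lit 623) (nat_lit 591) (nat_lit 5615) (nat_lit 655) (nat_lit 5647)))))))) (.a (.p (nat_lit 463) (.a (.f (nat_lit 431) (nat_lit 399) (nat_lit 4495) (.d (nat_lit 560) (nat_lit 464) (nat_lit 7599) (nat_lit 592) (nat_lit 7631))) (.a s126232 (.f (nat_lit 431) (nat_lit 399) (nat_lit 4495) (.d (nat_lit 560) (nat_lit 527) (nat_lit 4527) (nat_lit 592) (nat_lit 7631)))))) (.a (.p (nat_lit 497) (.a (.f (nat_lit 465) (nat_lit 466) (nat_lit 2510) (.f (nat_lit 433) (nat_lit 401) (nat_lit 5520) (.d (nat_lit 529) (nat_lit 530) (nat_lit 494) (nat_lit 560) (nat_lit 5552)))) (.f (nat_lit 462) (nat_lit 461) (nat_lit 3533) (.f (nat_lit 463) (nat_lit 498) (nat_lit 3534) (.f (nat_lit 526) (nat_lit 525) (nat_lit 1517) (.d (nat_lit 431) (nat_lit 399) (nat_lit 4495) (nat_lit 558) (nat_lit 6574))))))) (.a (.p (nat_lit 497) (.a (.f (nat_lit 465) (nat_lit 466) (nat_lit 2510) (.f (nat_lit 433) (nat_lit 401) (nat_lit 5520) (.d (nat_lit 529) (nat_lit 530) (nat_lit 494) (nat_lit 560) (nat_lit 5552)))) (.a (.f (nat_lit 465) (nat_lit 466) (nat_lit 2510) (.f (nat_lit 560) (nat_lit 592) (nat_lit 6608) (.d (nat_lit 433) (nat_lit 401) (nat_lit 5520) (nat_lit 464) (nat_lit 6576)))) (.a (.f (nat_lit 530) (nat_lit 529) (nat_lit 494) (.f (nat_lit 498) (nat_lit 531) (nat_lit 495) (.d (nat_lit 466) (nat_lit 465) (nat_lit 2510) (nat_lit 467) (nat_lit 2511)))) (.f (nat_lit 529) (nat_lit 530) (nat_lit 494) (.f (nat_lit 526) (nat_lit 525) (nat_lit 1517) (.f (nat_lit 527) (nat_lit 498) (nat_lit 1518) (.f (nat_lit 558) (nat_lit 557) (nat_lit 1549) (.d (nat_lit 463) (nat_lit 431) (nat_lit 5550) (nat_lit 590) (nat_lit 6606)))))))))) (.p (nat_lit 463) (.a (.f (nat_lit 431) (nat_lit 399) (nat_lit 4495) (.d (nat_lit 560) (nat_lit 464) (nat_lit 7599) (nat_lit 592) (nat_lit 7631))) (.p (nat_lit 497) (.a (.d (nat_lit 462) (nat_lit 461) (nat_lit 3533) (nat_lit 498) (nat_lit 3534)) (.a (.f (nat_lit 529) (nat_lit 530) (nat_lit 494) (.f (nat_lit 526) (nat_lit 525) (nat_lit 1517) (.f (nat_lit 527) (nat_lit 498) (nat_lit 1518) (.d (nat_lit 558) (nat_lit 557) (nat_lit 1549) (nat_lit 590) (nat_lit 6606))))) (.f (nat_lit 462) (nat_lit 461) (nat_lit 3533) (.f (nat_lit 526) (nat_lit 525) (nat_lit 1517) (.f (nat_lit 558) (nat_lit 590) (nat_lit 6606) (.f (nat_lit 559) (nat_lit 591) (nat_lit 4558) (.f (nat_lit 527) (nat_lit 430) (nat_lit 4526) (.d (nat_lit 557) (nat_lit 556) (nat_lit 2572) (nat_lit 589) (nat_lit 5581))))))))))))))))))))) (.a (.p (nat_lit 527) (.a (.f (nat_lit 493) (nat_lit 492) (nat_lit 492) (.d (nat_lit 529) (nat_lit 526) (nat_lit 3565) (nat_lit 530) (nat_lit 3566))) (.a (.p (nat_lit 463) (.a (.f (nat_lit 431) (nat_lit 560) (nat_lit 4527) (.d (nat_lit 526) (nat_lit 399) (nat_lit 5518) (nat_lit 558) (nat_lit 5550))) (.a (.p (nat_lit 559) (.a (.d (nat_lit 462) (nat_lit 430) (nat_lit 7598) (nat_lit 591) (nat_lit 7630)) (.f (nat_lit 558) (nat_lit 590) (nat_lit 5582) (.f (nat_lit 560) (nat_lit 592) (nat_lit 4559) (.f (nat_lit 557) (nat_lit 556) (nat_lit 2572) (.f (nat_lit 525) (nat_lit 524) (nat_lit 3596) (.f (nat_lit 589) (nat_lit 588) (nat_lit 1580) (.f (nat_lit 621) (nat_lit 526) (nat_lit 6637) (.f (nat_lit 654) (nat_lit 622) (nat_lit 4621) (.f (nat_lit 653) (nat_lit 686) (nat_lit 4653) (.d (nat_lit 652) (nat_lit 620) (nat_lit 5644) (nat_lit 684) (nat_lit 5676)))))))))))) (.a (.p (nat_lit 559) (.a (.d (nat_lit 462) (nat_lit 430) (nat_lit 7598) (nat_lit 591) (nat_lit 7630)) (.f (nat_lit 558) (nat_lit 590) (nat_lit 5582) (.f (nat_lit 431) (nat_lit 526) (nat_lit 5550) (.d (nat_lit 432) (nat_lit 400) (nat_lit 6543) (nat_lit 464) (nat_lit 6575)))))) (.f (nat_lit 431) (nat_lit 560) (nat_lit 4527) (.f (nat_lit 430) (nat_lit 398) (nat_lit 7566) (.f (nat_lit 462) (nat_lit 559) (nat_lit 7598) (.f (nat_lit 432) (nat_lit 400) (nat_lit 6543) (.d (nat_lit 461) (nat_lit 433) (nat_lit 1453) (nat_lit 460) (nat_lit 2476)))))))))) (.p (nat_lit 463) (.a (.f (nat_lit 431) (nat_lit 560) (nat_lit 4527) (.f (nat_lit 430) (nat_lit 398) (nat_lit 7566) (.f (nat_lit 462) (nat_lit 559) (nat_lit 7598) (.f (nat_lit 432) (nat_lit 400) (nat_lit 6543) (.d (nat_lit 461) (nat_lit 433) (nat_lit 1453) (nat_lit 460) (nat_lit 2476)))))) (.a (.p (nat_lit 559) (.a (.d (nat_lit 462) (nat_lit 430) (nat_lit 7598) (nat_lit 591) (nat_lit 7630)) (.f (nat_lit 558) (nat_lit 590) (nat_lit 5582) (.f (nat_lit 529) (nat_lit 530) (nat_lit 3566) (.d (nat_lit 560) (nat_lit 557) (nat_lit 2573) (nat_lit 592) (nat_lit 4559)))))) (.a (.p (nat_lit 464) (.a (.f (nat_lit 493) (nat_lit 492) (nat_lit 492) (.d (nat_lit 465) (nat_lit 462) (nat_lit 1485) (nat_lit 466) (nat_lit 1486))) (.a (.f (nat_lit 559) (nat_lit 432) (nat_lit 6575) (.d (nat_lit 462) (nat_lit 430) (nat_lit 7598) (nat_lit 591) (nat_lit 7630))) (.f (nat_lit 432) (nat_lit 559) (nat_lit 6575) (.d (nat_lit 400) (nat_lit 368) (nat_lit 5487) (nat_lit 431) (nat_lit 6543)))))) (.a (.f (nat_lit 431) (nat_lit 560) (nat_lit 4527) (.f (nat_lit 398) (nat_lit 430) (nat_lit 7566) (.f (nat_lit 399) (nat_lit 366) (nat_lit 7534) (.d (nat_lit 400) (nat_lit 368) (nat_lit 6511) (nat_lit 432) (nat_lit 6543))))) (.f (nat_lit 431) (nat_lit 560) (nat_lit 4527) (.f (nat_lit 432) (nat_lit 400) (nat_lit 6543) (.f (nat_lit 559) (nat_lit 464) (nat_lit 6575) (.f (nat_lit 591) (nat_lit 462) (nat_lit 7630) (.d (nat_lit 590) (nat_lit 558) (nat_lit 5582) (nat_lit 622) (nat_lit 5614)))))))))))))) (.p (nat_lit 493) (.a (.f (nat_lit 496) (nat_lit 529) (nat_lit 493) (.f (nat_lit 464) (nat_lit 465) (nat_lit 2509) (.d (nat_lit 492) (nat_lit 463) (nat_lit 2508) (nat_lit 527) (nat_lit 492)))) (.a (.f (nat_lit 496) (nat_lit 529) (nat_lit 493) (.f (nat_lit 464) (nat_lit 465) (nat_lit 2509) (.f (nat_lit 463) (nat_lit 492) (nat_lit 2508) (.d (nat_lit 431) (nat_lit 399) (nat_lit 4495) (nat_lit 560) (nat_lit 7599))))) (.a (.f (nat_lit 496) (nat_lit 529) (nat_lit 493) (.f (nat_lit 492) (nat_lit 527) (nat_lit 492) (.d (nat_lit 524) (nat_lit 523) (nat_lit 1515) (nat_lit 525) (nat_lit 1516)))) (.a (.f (nat_lit 492) (nat_lit 527) (nat_lit 492) (.f (nat_lit 463) (nat_lit 464) (nat_lit 2508) (.f (nat_lit 491) (nat_lit 462) (nat_lit 2507) (.d (nat_lit 523) (nat_lit 522) (nat_lit 1514) (nat_lit 524) (nat_lit 1515))))) (.f (nat_lit 496) (nat_lit 529) (nat_lit 493) (.f (nat_lit 461) (nat_lit 460) (nat_lit 3532) (.f (nat_lit 462) (nat_lit 497) (nat_lit 3533) (.f (nat_lit 525) (nat_lit 524) (nat_lit 1516) (.d (nat_lit 430) (nat_lit 398) (nat_lit 5517) (nat_lit 557) (nat_lit 6573))))))))))))))))) (.a s126019 (.a s123088 (.a s130644 (.a s133111 (.a (.p (nat_lit 494) (.a (.p (nat_lit 493) (.a (.f (nat_lit 496) (nat_lit 529) (nat_lit 493) (.f (nat_lit 492) (nat_lit 527) (nat_lit 492) (.d (nat_lit 524) (nat_lit 523) (nat_lit 1515) (nat_lit 525) (nat_lit 1516)))) (.a (.f (nat_lit 492) (nat_lit 527) (nat_lit 492) (.f (nat_lit 524) (nat_lit 523) (nat_lit 1515) (.f (nat_lit 460) (nat_lit 459) (nat_lit 3531) (.d (nat_lit 496) (nat_lit 461) (nat_lit 3532) (nat_lit 525) (nat_lit 1516))))) (.a (.f (nat_lit 496) (nat_lit 529) (nat_lit 493) (.f (nat_lit 464) (nat_lit 465) (nat_lit 2509) (.f (nat_lit 463) (nat_lit 492) (nat_lit 2508) (.f (nat_lit 461) (nat_lit 460) (nat_lit 3532) (.f (nat_lit 462) (nat_lit 497) (nat_lit 461) (.f (nat_lit 525) (nat_lit 524) (nat_lit 1516) (.d (nat_lit 430) (nat_lit 398) (nat_lit 5517) (nat_lit 557) (nat_lit 6573)))))))) (.a (.f (nat_lit 492) (nat_lit 527) (nat_lit 492) (.f (nat_lit 463) (nat_lit 464) (nat_lit 2508) (.f (nat_lit 491) (nat_lit 462) (nat_lit 2507) (.d (nat_lit 523) (nat_lit 522) (nat_lit 1514) (nat_lit 524) (nat_lit 1515))))) (.a (.f (nat_lit 496) (nat_lit 529) (nat_lit 493) (.f (nat_lit 525) (nat_lit 524) (nat_lit 1516) (.f (nat_lit 497) (nat_lit 526) (nat_lit 1517) (.d (nat_lit 461) (nat_lit 460) (nat_lit 3532) (nat_lit 462) (nat_lit 3533))))) (.f (nat_lit 496) (nat_lit 529) (nat_lit 493) (.f (nat_lit 527) (nat_lit 492) (nat_lit 492) (.f (nat_lit 464) (nat_lit 465) (nat_lit 2509) (.d (nat_lit 432) (nat_lit 400) (nat_lit 5519) (nat_lit 559) (nat_lit 5551))))))))))) (.a (.p (nat_lit 527) (.a (.p (nat_lit 496) (.a (.f (nat_lit 493) (nat_lit 492) (nat_lit 492) (.f (nat_lit 464) (nat_lit 465) (nat_lit 2509) (.d (nat_lit 432) (nat_lit 400) (nat_lit 5519) (nat_lit 559) (nat_lit 5551)))) (.a (.p (nat_lit 497) (.a (.d (nat_lit 526) (nat_lit 498) (nat_lit 1518) (nat_lit 525) (nat_lit 1517)) (.a (.f (nat_lit 462) (nat_lit 461) (nat_lit 3533) (.d (nat_lit 498) (nat_lit 463) (nat_lit 3534) (nat_lit 499) (nat_lit 1519))) (.f (nat_lit 526) (nat_lit 525) (nat_lit 1517) (.f (nat_lit 462) (nat_lit 461) (nat_lit 3533) (.d (nat_lit 430) (nat_lit 398) (nat_lit 4494) (nat_lit 559) (nat_lit 4526))))))) (.f (nat_lit 493) (nat_lit 492) (nat_lit 492) (.f (nat_lit 525) (nat_lit 524) (nat_lit 1516) (.f (nat_lit 497) (nat_lit 526) (nat_lit 1517) (.d (nat_lit 461) (nat_lit 460) (nat_lit 3532) (nat_lit 462) (nat_lit 3533)))))))) (.a (.p (nat_lit 559) (.a (.f (nat_lit 591) (nat_lit 462) (nat_lit 7630) (.d (nat_lit 496) (nat_lit 464) (nat_lit 6607) (nat_lit 623) (nat_lit 6639))) (.a (.p (nat_lit 463) (.a (.f (nat_lit 462) (nat_lit 430) (nat_lit 7598) (.f (nat_lit 464) (nat_lit 432) (nat_lit 6575) (.f (nat_lit 465) (nat_lit 466) (nat_lit 1486) (.f (nat_lit 497) (nat_lit 498) (nat_lit 462) (.f (nat_lit 496) (nat_lit 461) (nat_lit 461) (.d (nat_lit 433) (nat_lit 401) (nat_lit 5520) (nat_lit 434) (nat_lit 2478))))))) (.a (.f (nat_lit 560) (nat_lit 592) (nat_lit 4559) (.f (nat_lit 558) (nat_lit 590) (nat_lit 5582) (.f (nat_lit 557) (nat_lit 556) (nat_lit 2572) (.f (nat_lit 525) (nat_lit 524) (nat_lit 3596) (.f (nat_lit 464) (nat_lit 432) (nat_lit 6575) (.f (nat_lit 465) (nat_lit 466) (nat_lit 1486) (.f (nat_lit 496) (nat_lit 433) (nat_lit 6576) (.f (nat_lit 526) (nat_lit 497) (nat_lit 2541) (.d (nat_lit 589) (nat_lit 588) (nat_lit 1580) (nat_lit 621) (nat_lit 6637)))))))))) (.f (nat_lit 558) (nat_lit 590) (nat_lit 5582) (.f (nat_lit 462) (nat_lit 430) (nat_lit 7598) (.f (nat_lit 557) (nat_lit 556) (nat_lit 2572) (.f (nat_lit 560) (nat_lit 592) (nat_lit 4559) (.d (nat_lit 589) (nat_lit 526) (nat_lit 5581) (nat_lit 588) (nat_lit 1580))))))))) (.a (.f (nat_lit 591) (nat_lit 462) (nat_lit 7630) (.f (nat_lit 623) (nat_lit 526) (nat_lit 7662) (.d (nat_lit 624) (nat_lit 592) (nat_lit 4591) (nat_lit 656) (nat_lit 4623)))) (.p (nat_lit 591) (.a (.d (nat_lit 496) (nat_lit 464) (nat_lit 6607) (nat_lit 623) (nat_lit 6639)) (.a (.f (nat_lit 623) (nat_lit 526) (nat_lit 7662) (.d (nat_lit 624) (nat_lit 592) (nat_lit 4591) (nat_lit 656) (nat_lit 4623))) (.f (nat_lit 496) (nat_lit 464) (nat_lit 6607) (.f (nat_lit 592) (nat_lit 624) (nat_lit 4591) (.f (nat_lit 560) (nat_lit 463) (nat_lit 4559) (.f (nat_lit 497) (nat_lit 465) (nat_lit 6608) (.d (nat_lit 526) (nat_lit 498) (nat_lit 1518) (nat_lit 525) (nat_lit 2541))))))))))))) (.a s134175 (.a (.p (nat_lit 496) (.a (.f (nat_lit 493) (nat_lit 492) (nat_lit 492) (.f (nat_lit 525) (nat_lit 524) (nat_lit 1516) (.f (nat_lit 497) (nat_lit 526) (nat_lit 1517) (.d (nat_lit 461) (nat_lit 460) (nat_lit 3532) (nat_lit 462) (nat_lit 3533))))) (.a (.p (nat_lit 497) (.a (.d (nat_lit 526) (nat_lit 498) (nat_lit 1518) (nat_lit 525) (nat_lit 1517)) (.a (.f (nat_lit 462) (nat_lit 461) (nat_lit 3533) (.d (nat_lit 498) (nat_lit 463) (nat_lit 3534) (nat_lit 499) (nat_lit 1519))) (.f (nat_lit 465) (nat_lit 466) (nat_lit 2510) (.f (nat_lit 560) (nat_lit 592) (nat_lit 6608) (.d (nat_lit 433) (nat_lit 401) (nat_lit 5520) (nat_lit 464) (nat_lit 6576))))))) (.a (.f (nat_lit 493) (nat_lit 492) (nat_lit 492) (.f (nat_lit 525) (nat_lit 524) (nat_lit 1516) (.f (nat_lit 461) (nat_lit 460) (nat_lit 3532) (.f (nat_lit 464) (nat_lit 465) (nat_lit 2509) (.f (nat_lit 432) (nat_lit 400) (nat_lit 5519) (.f (nat_lit 433) (nat_lit 401) (nat_lit 6544) (.f (nat_lit 462) (nat_lit 463) (nat_lit 2477) (.d (nat_lit 430) (nat_lit 398) (nat_lit 4494) (nat_lit 557) (nat_lit 6573))))))))) (.f (nat_lit 493) (nat_lit 492) (nat_lit 492) (.f (nat_lit 465) (nat_lit 464) (nat_lit 2509) (.f (nat_lit 497) (nat_lit 466) (nat_lit 2510) (.d (nat_lit 498) (nat_lit 499) (nat_lit 1519) (nat_lit 526) (nat_lit 1518))))))))) (.a (.p (nat_lit 496) (.a (.f (nat_lit 493) (nat_lit 492) (nat_lit 492) (.f (nat_lit 464) (nat_lit 465) (nat_lit 2509) (.d (nat_lit 432) (nat_lit 400) (nat_lit 5519) (nat_lit 559) (nat_lit 5551)))) (.a (.p (nat_lit 497) (.a (.d (nat_lit 526) (nat_lit 498) (nat_lit 1518) (nat_lit 525) (nat_lit 1517)) (.f (nat_lit 465) (nat_lit 466) (nat_lit 2510) (.f (nat_lit 560) (nat_lit 592) (nat_lit 6608) (.d (nat_lit 433) (nat_lit 401) (nat_lit 5520) (nat_lit 464) (nat_lit 6576)))))) (.f (nat_lit 493) (nat_lit 492) (nat_lit 492) (.f (nat_lit 525) (nat_lit 524) (nat_lit 1516) (.f (nat_lit 526) (nat_lit 497) (nat_lit 1517) (.f (nat_lit 461) (nat_lit 460) (nat_lit 3532) (.d (nat_lit 429) (nat_lit 397) (nat_lit 4493) (nat_lit 558) (nat_lit 4525))))))))) (.a (.p (nat_lit 496) (.a (.f (nat_lit 493) (nat_lit 492) (nat_lit 492) (.f (nat_lit 464) (nat_lit 465) (nat_lit 2509) (.d (nat_lit 432) (nat_lit 400) (nat_lit 5519) (nat_lit 559) (nat_lit 5551)))) (.a (.p (nat_lit 497) (.a (.f (nat_lit 462) (nat_lit 461) (nat_lit 3533) (.d (nat_lit 498) (nat_lit 463) (nat_lit 3534) (nat_lit 499) (nat_lit 1519))) (.f (nat_lit 465) (nat_lit 466) (nat_lit 2510) (.f (nat_lit 560) (nat_lit 592) (nat_lit 6608) (.d (nat_lit 433) (nat_lit 401) (nat_lit 5520) (nat_lit 464) (nat_lit 6576)))))) (.f (nat_lit 493) (nat_lit 492) (nat_lit 492) (.f (nat_lit 461) (nat_lit 460) (nat_lit 3532) (.f (nat_lit 462) (nat_lit 497) (nat_lit 3533) (.f (nat_lit 430) (nat_lit 398) (nat_lit 4494) (.d (nat_lit 559) (nat_lit 463) (nat_lit 7598) (nat_lit 591) (nat_lit 7630))))))))) (.a (.p (nat_lit 496) (.a (.p (nat_lit 497) (.a (.d (nat_lit 526) (nat_lit 498) (nat_lit 1518) (nat_lit 525) (nat_lit 1517)) (.a (.f (nat_lit 462) (nat_lit 461) (nat_lit 3533) (.d (nat_lit 498) (nat_lit 463) (nat_lit 3534) (nat_lit 499) (nat_lit 1519))) (.f (nat_lit 526) (nat_lit 525) (nat_lit 1517) (.f (nat_lit 462) (nat_lit 461) (nat_lit 3533) (.d (nat_lit 430) (nat_lit 398) (nat_lit 4494) (nat_lit 559) (nat_lit 4526))))))) (.a s134195 (.a (.f (nat_lit 493) (nat_lit 492) (nat_lit 492) (.f (nat_lit 461) (nat_lit 460) (nat_lit 3532) (.f (nat_lit 462) (nat_lit 497) (nat_lit 3533) (.f (nat_lit 430) (nat_lit 398) (nat_lit 4494) (.d (nat_lit 559) (nat_lit 463) (nat_lit 7598) (nat_lit 591) (nat_lit 7630)))))) (.a (.f (nat_lit 493) (nat_lit 492) (nat_lit 492) (.f (nat_lit 525) (nat_lit 524) (nat_lit 1516) (.f (nat_lit 526) (nat_lit 497) (nat_lit 1517) (.f (nat_lit 461) (nat_lit 460) (nat_lit 3532) (.d (nat_lit 429) (nat_lit 397) (nat_lit 4493) (nat_lit 558) (nat_lit 4525)))))) (.f (nat_lit 493) (nat_lit 492) (nat_lit 492) (.f (nat_lit 525) (nat_lit 524) (nat_lit 1516) (.f (nat_lit 497) (nat_lit 526) (nat_lit 1517) (.f (nat_lit 498) (nat_lit 499) (nat_lit 1519) (.d (nat_lit 466) (nat_lit 465) (nat_lit 2510) (nat_lit 467) (nat_lit 2511))))))))))) (.p (nat_lit 496) (.a (.p (nat_lit 497) (.a (.d (nat_lit 526) (nat_lit 498) (nat_lit 1518) (nat_lit 525) (nat_lit 1517)) (.a (.f (nat_lit 462) (nat_lit 461) (nat_lit 3533) (.d (nat_lit 498) (nat_lit 463) (nat_lit 3534) (nat_lit 499) (nat_lit 1519))) (.f (nat_lit 526) (nat_lit 525) (nat_lit 1517) (.f (nat_lit 462) (nat_lit 461) (nat_lit 3533) (.d (nat_lit 430) (nat_lit 398) (nat_lit 4494) (nat_lit 559) (nat_lit 4526))))))) (.a (.f (nat_lit 493) (nat_lit 492) (nat_lit 492) (.f (nat_lit 525) (nat_lit 524) (nat_lit 1516) (.f (nat_lit 497) (nat_lit 526) (nat_lit 1517) (.d (nat_lit 461) (nat_lit 460) (nat_lit 3532) (nat_lit 462) (nat_lit 3533))))) (.a s134195 (.a (.f (nat_lit 493) (nat_lit 492) (nat_lit 492) (.f (nat_lit 461) (nat_lit 460) (nat_lit 3532) (.f (nat_lit 462) (nat_lit 497) (nat_lit 3533) (.f (nat_lit 430) (nat_lit 398) (nat_lit 4494) (.d (nat_lit 559) (nat_lit 463) (nat_lit 7598) (nat_lit 591) (nat_lit 7630)))))) (.a (.f (nat_lit 493) (nat_lit 492) (nat_lit 492) (.f (nat_lit 525) (nat_lit 524) (nat_lit 1516) (.f (nat_lit 526) (nat_lit 497) (nat_lit 1517) (.f (nat_lit 461) (nat_lit 460) (nat_lit 3532) (.d (nat_lit 429) (nat_lit 397) (nat_lit 4493) (nat_lit 558) (nat_lit 4525)))))) (.f (nat_lit 493) (nat_lit 492) (nat_lit 492) (.f (nat_lit 525) (nat_lit 524) (nat_lit 1516) (.f (nat_lit 526) (nat_lit 497) (nat_lit 1517) (.f (nat_lit 557) (nat_lit 556) (nat_lit 1548) (.d (nat_lit 462) (nat_lit 430) (nat_lit 5549) (nat_lit 589) (nat_lit 6605)))))))))))))))))))) (.a (.p (nat_lit 496) (.a (.p (nat_lit 497) (.a (.f (nat_lit 529) (nat_lit 530) (nat_lit 494) (.f (nat_lit 465) (nat_lit 466) (nat_lit 2510) (.d (nat_lit 433) (nat_lit 401) (nat_lit 5520) (nat_lit 560) (nat_lit 5552)))) (.a (.f (nat_lit 465) (nat_lit 466) (nat_lit 2510) (.f (nat_lit 560) (nat_lit 592) (nat_lit 6608) (.d (nat_lit 433) (nat_lit 401) (nat_lit 5520) (nat_lit 464) (nat_lit 6576)))) (.f (nat_lit 526) (nat_lit 525) (nat_lit 1517) (.f (nat_lit 498) (nat_lit 527) (nat_lit 1518) (.d (nat_lit 530) (nat_lit 529) (nat_lit 494) (nat_lit 531) (nat_lit 495))))))) (.a (.p (nat_lit 497) (.a (.f (nat_lit 465) (nat_lit 466) (nat_lit 2510) (.f (nat_lit 560) (nat_lit 592) (nat_lit 6608) (.d (nat_lit 433) (nat_lit 401) (nat_lit 5520) (nat_lit 464) (nat_lit 6576)))) (.f (nat_lit 526) (nat_lit 525) (nat_lit 1517) (.f (nat_lit 498) (nat_lit 527) (nat_lit 1518) (.d (nat_lit 462) (nat_lit 461) (nat_lit 3533) (nat_lit 463) (nat_lit 3534)))))) (.a (.p (nat_lit 497) (.a (.f (nat_lit 526) (nat_lit 525) (nat_lit 1517) (.f (nat_lit 498) (nat_lit 527) (nat_lit 1518) (.d (nat_lit 530) (nat_lit 529) (nat_lit 494) (nat_lit 531) (nat_lit 495)))) (.a (.f (nat_lit 526) (nat_lit 525) (nat_lit 1517) (.f (nat_lit 498) (nat_lit 527) (nat_lit 1518) (.d (nat_lit 462) (nat_lit 461) (nat_lit 3533) (nat_lit 463) (nat_lit 3534)))) (.a (.f (nat_lit 530) (nat_lit 529) (nat_lit 494) (.f (nat_lit 498) (nat_lit 531) (nat_lit 495) (.d (nat_lit 466) (nat_lit 465) (nat_lit 2510) (nat_lit 467) (nat_lit 2511)))) (.f (nat_lit 529) (nat_lit 530) (nat_lit 494) (.f (nat_lit 465) (nat_lit 466) (nat_lit 2510) (.f (nat_lit 433) (nat_lit 401) (nat_lit 5520) (.f (nat_lit 526) (nat_lit 525) (nat_lit 1517) (.f (nat_lit 462) (nat_lit 461) (nat_lit 3533) (.f (nat_lit 434) (nat_lit 402) (nat_lit 6545) (.f (nat_lit 463) (nat_lit 464) (nat_lit 2478) (.f (nat_lit 558) (nat_lit 590) (nat_lit 6606) (.d (nat_lit 557) (nat_lit 527) (nat_lit 1549) (nat_lit 589) (nat_lit 5581)))))))))))))) (.a s134217 (.a (.p (nat_lit 560) (.a (.f (nat_lit 592) (nat_lit 463) (nat_lit 7631) (.f (nat_lit 527) (nat_lit 624) (nat_lit 7663) (.f (nat_lit 591) (nat_lit 623) (nat_lit 5615) (.d (nat_lit 559) (nat_lit 462) (nat_lit 7630) (nat_lit 464) (nat_lit 5583))))) (.a (.p (nat_lit 464) (.a (.f (nat_lit 559) (nat_lit 591) (nat_lit 5583) (.f (nat_lit 527) (nat_lit 432) (nat_lit 5551) (.f (nat_lit 529) (nat_lit 530) (nat_lit 3566) (.f (nat_lit 558) (nat_lit 557) (nat_lit 2573) (.f (nat_lit 590) (nat_lit 463) (nat_lit 5582) (.d (nat_lit 622) (nat_lit 526) (nat_lit 6638) (nat_lit 654) (nat_lit 6670))))))) (.a (.f (nat_lit 465) (nat_lit 433) (nat_lit 6576) (.d (nat_lit 466) (nat_lit 463) (nat_lit 1486) (nat_lit 467) (nat_lit 1487))) (.f (nat_lit 559) (nat_lit 591) (nat_lit 5583) (.f (nat_lit 432) (nat_lit 527) (nat_lit 5551) (.d (nat_lit 433) (nat_lit 401) (nat_lit 6544) (nat_lit 465) (nat_lit 6576))))))) (.a (.f (nat_lit 592) (nat_lit 463) (nat_lit 7631) (.f (nat_lit 591) (nat_lit 623) (nat_lit 5615) (.f (nat_lit 559) (nat_lit 464) (nat_lit 5583) (.f (nat_lit 593) (nat_lit 625) (nat_lit 4592) (.d (nat_lit 594) (nat_lit 558) (nat_lit 3630) (nat_lit 595) (nat_lit 3631)))))) (.a (.f (nat_lit 592) (nat_lit 463) (nat_lit 7631) (.f (nat_lit 624) (nat_lit 527) (nat_lit 7663) (.d (nat_lit 623) (nat_lit 591) (nat_lit 5615) (nat_lit 655) (nat_lit 5647)))) (.a (.p (nat_lit 592) (.a (.f (nat_lit 527) (nat_lit 624) (nat_lit 7663) (.f (nat_lit 591) (nat_lit 623) (nat_lit 5615) (.d (nat_lit 559) (nat_lit 462) (nat_lit 7630) (nat_lit 464) (nat_lit 5583)))) (.a (.f (nat_lit 591) (nat_lit 623) (nat_lit 5615) (.f (nat_lit 593) (nat_lit 625) (nat_lit 4592) (.f (nat_lit 559) (nat_lit 464) (nat_lit 5583) (.d (nat_lit 594) (nat_lit 558) (nat_lit 3630) (nat_lit 595) (nat_lit 3631))))) (.f (nat_lit 624) (nat_lit 527) (nat_lit 7663) (.d (nat_lit 625) (nat_lit 593) (nat_lit 4592) (nat_lit 657) (nat_lit 4624)))))) (.f (nat_lit 592) (nat_lit 463) (nat_lit 7631) (.f (nat_lit 624) (nat_lit 527) (nat_lit 7663) (.d (nat_lit 625) (nat_lit 593) (nat_lit 4592) (nat_lit 657) (nat_lit 4624)))))))))) (.a (.p (nat_lit 497) (.a (.f (nat_lit 529) (nat_lit 530) (nat_lit 494) (.f (nat_lit 465) (nat_lit 466) (nat_lit 2510) (.d (nat_lit 433) (nat_lit 401) (nat_lit 5520) (nat_lit 560) (nat_lit 5552)))) (.a (.f (nat_lit 465) (nat_lit 466) (nat_lit 2510) (.f (nat_lit 560) (nat_lit 592) (nat_lit 6608) (.d (nat_lit 433) (nat_lit 401) (nat_lit 5520) (nat_lit 464) (nat_lit 6576)))) (.a (.f (nat_lit 530) (nat_lit 529) (nat_lit 494) (.f (nat_lit 498) (nat_lit 531) (nat_lit 495) (.d (nat_lit 466) (nat_lit 465) (nat_lit 2510) (nat_lit 467) (nat_lit 2511)))) (.a (.f (nat_lit 529) (nat_lit 530) (nat_lit 494) (.f (nat_lit 462) (nat_lit 461) (nat_lit 3533) (.f (nat_lit 498) (nat_lit 463) (nat_lit 3534) (.f (nat_lit 499) (nat_lit 500) (nat_lit 1520) (.d (nat_lit 467) (nat_lit 466) (nat_lit 2511) (nat_lit 468) (nat_lit 2512)))))) (.f (nat_lit 529) (nat_lit 530) (nat_lit 494) (.f (nat_lit 462) (nat_lit 461) (nat_lit 3533) (.f (nat_lit 498) (nat_lit 463) (nat_lit 3534) (.d (nat_lit 499) (nat_lit 500) (nat_lit 1520) (nat_lit 527) (nat_lit 1519)))))))))) (.a (.p (nat_lit 497) (.a (.f (nat_lit 529) (nat_lit 530) (nat_lit 494) (.f (nat_lit 465) (nat_lit 466) (nat_lit 2510) (.d (nat_lit 433) (nat_lit 401) (nat_lit 5520) (nat_lit 560) (nat_lit 5552)))) (.f (nat_lit 526) (nat_lit 525) (nat_lit 1517) (.f (nat_lit 498) (nat_lit 527) (nat_lit 1518) (.d (nat_lit 462) (nat_lit 461) (nat_lit 3533) (nat_lit 463) (nat_lit 3534)))))) (.a (.p (nat_lit 497) (.a (.f (nat_lit 526) (nat_lit 525) (nat_lit 1517) (.f (nat_lit 498) (nat_lit 527) (nat_lit 1518) (.d (nat_lit 530) (nat_lit 529) (nat_lit 494) (nat_lit 531) (nat_lit 495)))) (.a (.f (nat_lit 526) (nat_lit 525) (nat_lit 1517) (.f (nat_lit 498) (nat_lit 527) (nat_lit 1518) (.d (nat_lit 462) (nat_lit 461) (nat_lit 3533) (nat_lit 463) (nat_lit 3534)))) (.a (.f (nat_lit 529) (nat_lit 530) (nat_lit 494) (.f (nat_lit 462) (nat_lit 461) (nat_lit 3533) (.f (nat_lit 498) (nat_lit 463) (nat_lit 3534) (.f (nat_lit 499) (nat_lit 500) (nat_lit 1520) (.d (nat_lit 467) (nat_lit 466) (nat_lit 2511) (nat_lit 468) (nat_lit 2512)))))) (.p (nat_lit 527) (.a (.f (nat_lit 526) (nat_lit 525) (nat_lit 1517) (.f (nat_lit 462) (nat_lit 461) (nat_lit 3533) (.d (nat_lit 430) (nat_lit 398) (nat_lit 4494) (nat_lit 559) (nat_lit 4526)))) (.a (.f (nat_lit 462) (nat_lit 461) (nat_lit 3533) (.f (nat_lit 559) (nat_lit 591) (nat_lit 7630) (.d (nat_lit 430) (nat_lit 398) (nat_lit 4494) (nat_lit 463) (nat_lit 7598)))) (.f (nat_lit 526) (nat_lit 525) (nat_lit 1517) (.f (nat_lit 529) (nat_lit 530) (nat_lit 3566) (.f (nat_lit 558) (nat_lit 557) (nat_lit 1549) (.d (nat_lit 590) (nat_lit 463) (nat_lit 6606) (nat_lit 622) (nat_lit 6638)))))))))))) (.p (nat_lit 497) (.a (.f (nat_lit 526) (nat_lit 525) (nat_lit 1517) (.f (nat_lit 498) (nat_lit 527) (nat_lit 1518) (.d (nat_lit 530) (nat_lit 529) (nat_lit 494) (nat_lit 531) (nat_lit 495)))) (.a (.f (nat_lit 526) (nat_lit 525) (nat_lit 1517) (.f (nat_lit 498) (nat_lit 527) (nat_lit 1518) (.d (nat_lit 462) (nat_lit 461) (nat_lit 3533) (nat_lit 463) (nat_lit 3534)))) (.a (.f (nat_lit 529) (nat_lit 530) (nat_lit 494) (.f (nat_lit 462) (nat_lit 461) (nat_lit 3533) (.f (nat_lit 463) (nat_lit 498) (nat_lit 3534) (.f (nat_lit 560) (nat_lit 592) (nat_lit 7631) (.f (nat_lit 526) (nat_lit 525) (nat_lit 1517) (.f (nat_lit 558) (nat_lit 590) (nat_lit 6606) (.d (nat_lit 557) (nat_lit 559) (nat_lit 2573) (nat_lit 589) (nat_lit 5581)))))))) (.a (.f (nat_lit 529) (nat_lit 530) (nat_lit 494) (.f (nat_lit 462) (nat_lit 461) (nat_lit 3533) (.f (nat_lit 498) (nat_lit 463) (nat_lit 3534) (.d (nat_lit 499) (nat_lit 500) (nat_lit 1520) (nat_lit 527) (nat_lit 1519))))) (.p (nat_lit 527) (.a (.f (nat_lit 526) (nat_lit 525) (nat_lit 1517) (.f (nat_lit 462) (nat_lit 461) (nat_lit 3533) (.d (nat_lit 430) (nat_lit 398) (nat_lit 4494) (nat_lit 559) (nat_lit 4526)))) (.a (.f (nat_lit 462) (nat_lit 461) (nat_lit 3533) (.f (nat_lit 559) (nat_lit 591) (nat_lit 7630) (.d (nat_lit 430) (nat_lit 398) (nat_lit 4494) (nat_lit 463) (nat_lit 7598)))) (.f (nat_lit 526) (nat_lit 525) (nat_lit 1517) (.f (nat_lit 529) (nat_lit 530) (nat_lit 3566) (.f (nat_lit 558) (nat_lit 557) (nat_lit 1549) (.d (nat_lit 590) (nat_lit 463) (nat_lit 6606) (nat_lit 622) (nat_lit 6638)))))))))))))))))))))) (.a (.p (nat_lit 496) (.a s134217 (.a (.p (nat_lit 497) (.a (.f (nat_lit 465) (nat_lit 466) (nat_lit 2510) (.f (nat_lit 560) (nat_lit 592) (nat_lit 6608) (.d (nat_lit 433) (nat_lit 401) (nat_lit 5520) (nat_lit 464) (nat_lit 6576)))) (.a (.f (nat_lit 465) (nat_lit 466) (nat_lit 2510) (.f (nat_lit 493) (nat_lit 464) (nat_lit 2509) (.d (nat_lit 525) (nat_lit 524) (nat_lit 1516) (nat_lit 526) (nat_lit 1517)))) (.a (.f (nat_lit 462) (nat_lit 461) (nat_lit 3533) (.f (nat_lit 498) (nat_lit 463) (nat_lit 3534) (.f (nat_lit 531) (nat_lit 530) (nat_lit 495) (.f (nat_lit 499) (nat_lit 532) (nat_lit 496) (.d (nat_lit 467) (nat_lit 466) (nat_lit 2511) (nat_lit 468) (nat_lit 2512)))))) (.f (nat_lit 462) (nat_lit 461) (nat_lit 3533) (.f (nat_lit 463) (nat_lit 498) (nat_lit 3534) (.f (nat_lit 525) (nat_lit 526) (nat_lit 1517) (.f (nat_lit 493) (nat_lit 524) (nat_lit 1516) (.d (nat_lit 492) (nat_lit 464) (nat_lit 2508) (nat_lit 491) (nat_lit 2507)))))))))) (.a (.f (nat_lit 493) (nat_lit 529) (nat_lit 493) (.f (nat_lit 461) (nat_lit 460) (nat_lit 3532) (.f (nat_lit 525) (nat_lit 524) (nat_lit 1516) (.d (nat_lit 497) (nat_lit 462) (nat_lit 3533) (nat_lit 526) (nat_lit 1517))))) (.a (.f (nat_lit 493) (nat_lit 529) (nat_lit 493) (.f (nat_lit 464) (nat_lit 465) (nat_lit 2509) (.f (nat_lit 492) (nat_lit 463) (nat_lit 2508) (.d (nat_lit 524) (nat_lit 523) (nat_lit 1515) (nat_lit 525) (nat_lit 1516))))) (.f (nat_lit 493) (nat_lit 529) (nat_lit 493) (.f (nat_lit 464) (nat_lit 465) (nat_lit 2509) (.f (nat_lit 463) (nat_lit 492) (nat_lit 2508) (.f (nat_lit 461) (nat_lit 460) (nat_lit 3532) (.f (nat_lit 462) (nat_lit 497) (nat_lit 461) (.f (nat_lit 429) (nat_lit 428) (nat_lit 3500) (.d (nat_lit 397) (nat_lit 365) (nat_lit 4461) (nat_lit 526) (nat_lit 4493))))))))))))) (.a (.p (nat_lit 527) (.a s134175 (.a (.p (nat_lit 559) (.a (.f (nat_lit 591) (nat_lit 462) (nat_lit 7630) (.f (nat_lit 623) (nat_lit 526) (nat_lit 7662) (.d (nat_lit 624) (nat_lit 592) (nat_lit 4591) (nat_lit 656) (nat_lit 4623)))) (.a (.f (nat_lit 462) (nat_lit 591) (nat_lit 7630) (.d (nat_lit 430) (nat_lit 398) (nat_lit 4494) (nat_lit 463) (nat_lit 7598))) (.p (nat_lit 558) (.a (.f (nat_lit 529) (nat_lit 530) (nat_lit 3566) (.d (nat_lit 557) (nat_lit 526) (nat_lit 1549) (nat_lit 556) (nat_lit 2572))) (.a (.f (nat_lit 590) (nat_lit 463) (nat_lit 5582) (.d (nat_lit 622) (nat_lit 526) (nat_lit 6638) (nat_lit 654) (nat_lit 6670))) (.f (nat_lit 529) (nat_lit 530) (nat_lit 3566) (.d (nat_lit 557) (nat_lit 556) (nat_lit 2572) (nat_lit 560) (nat_lit 2573))))))))) (.a (.f (nat_lit 529) (nat_lit 530) (nat_lit 3566) (.d (nat_lit 493) (nat_lit 492) (nat_lit 492) (nat_lit 526) (nat_lit 3565))) (.p (nat_lit 559) (.a (.f (nat_lit 462) (nat_lit 591) (nat_lit 7630) (.d (nat_lit 430) (nat_lit 398) (nat_lit 4494) (nat_lit 463) (nat_lit 7598))) (.a (.p (nat_lit 463) (.a (.f (nat_lit 462) (nat_lit 430) (nat_lit 7598) (.f (nat_lit 493) (nat_lit 492) (nat_lit 492) (.d (nat_lit 464) (nat_lit 432) (nat_lit 6575) (nat_lit 465) (nat_lit 1485)))) (.f (nat_lit 558) (nat_lit 590) (nat_lit 5582) (.f (nat_lit 529) (nat_lit 530) (nat_lit 3566) (.d (nat_lit 560) (nat_lit 557) (nat_lit 2573) (nat_lit 592) (nat_lit 4559)))))) (.a (.p (nat_lit 558) (.a (.f (nat_lit 529) (nat_lit 530) (nat_lit 3566) (.d (nat_lit 557) (nat_lit 556) (nat_lit 2572) (nat_lit 560) (nat_lit 2573))) (.f (nat_lit 590) (nat_lit 463) (nat_lit 5582) (.d (nat_lit 622) (nat_lit 591) (nat_lit 5614) (nat_lit 654) (nat_lit 6670))))) (.f (nat_lit 591) (nat_lit 462) (nat_lit 7630) (.f (nat_lit 624) (nat_lit 592) (nat_lit 4591) (.f (nat_lit 623) (nat_lit 656) (nat_lit 4623) (.d (nat_lit 622) (nat_lit 590) (nat_lit 5614) (nat_lit 654) (nat_lit 5646))))))))))))) (.a (.p (nat_lit 493) (.a (.f (nat_lit 496) (nat_lit 529) (nat_lit 493) (.f (nat_lit 492) (nat_lit 527) (nat_lit 492) (.d (nat_lit 524) (nat_lit 523) (nat_lit 1515) (nat_lit 525) (nat_lit 1516)))) (.a (.f (nat_lit 492) (nat_lit 527) (nat_lit 492) (.f (nat_lit 524) (nat_lit 523) (nat_lit 1515) (.f (nat_lit 460) (nat_lit 459) (nat_lit 3531) (.d (nat_lit 496) (nat_lit 461) (nat_lit 3532) (nat_lit 525) (nat_lit 1516))))) (.a (.f (nat_lit 496) (nat_lit 529) (nat_lit 493) (.f (nat_lit 464) (nat_lit 465) (nat_lit 2509) (.f (nat_lit 463) (nat_lit 492) (nat_lit 2508) (.f (nat_lit 461) (nat_lit 460) (nat_lit 3532) (.f (nat_lit 462) (nat_lit 497) (nat_lit 461) (.f (nat_lit 525) (nat_lit 524) (nat_lit 1516) (.d (nat_lit 430) (nat_lit 398) (nat_lit 5517) (nat_lit 557) (nat_lit 6573)))))))) (.a (.f (nat_lit 492) (nat_lit 527) (nat_lit 492) (.f (nat_lit 463) (nat_lit 464) (nat_lit 2508) (.f (nat_lit 491) (nat_lit 462) (nat_lit 2507) (.d (nat_lit 523) (nat_lit 522) (nat_lit 1514) (nat_lit 524) (nat_lit 1515))))) (.a (.f (nat_lit 496) (nat_lit 529) (nat_lit 493) (.f (nat_lit 525) (nat_lit 524) (nat_lit 1516) (.f (nat_lit 497) (nat_lit 526) (nat_lit 1517) (.d (nat_lit 461) (nat_lit 460) (nat_lit 3532) (nat_lit 462) (nat_lit 3533))))) (.f (nat_lit 496) (nat_lit 529) (nat_lit 493) (.f (nat_lit 492) (nat_lit 527) (nat_lit 492) (.d (nat_lit 464) (nat_lit 463) (nat_lit 2508) (nat_lit 465) (nat_lit 2509)))))))))) (.a (.p (nat_lit 493) (.a (.f (nat_lit 496) (nat_lit 529) (nat_lit 493) (.f (nat_lit 492) (nat_lit 527) (nat_lit 492) (.d (nat_lit 524) (nat_lit 523) (nat_lit 1515) (nat_lit 525) (nat_lit 1516)))) (.a (.f (nat_lit 492) (nat_lit 527) (nat_lit 492) (.f (nat_lit 524) (nat_lit 523) (nat_lit 1515) (.f (nat_lit 460) (nat_lit 459) (nat_lit 3531) (.d (nat_lit 496) (nat_lit 461) (nat_lit 3532) (nat_lit 525) (nat_lit 1516))))) (.a (.f (nat_lit 496) (nat_lit 529) (nat_lit 493) (.f (nat_lit 464) (nat_lit 465) (nat_lit 2509) (.f (nat_lit 492) (nat_lit 463) (nat_lit 2508) (.d (nat_lit 524) (nat_lit 523) (nat_lit 1515) (nat_lit 525) (nat_lit 1516))))) (.a (.f (nat_lit 492) (nat_lit 527) (nat_lit 492) (.f (nat_lit 523) (nat_lit 524) (nat_lit 1515) (.f (nat_lit 491) (nat_lit 522) (nat_lit 1514) (.d (nat_lit 459) (nat_lit 458) (nat_lit 3530) (nat_lit 460) (nat_lit 3531))))) (.a (.f (nat_lit 496) (nat_lit 529) (nat_lit 493) (.f (nat_lit 525) (nat_lit 524) (nat_lit 1516) (.f (nat_lit 526) (nat_lit 497) (nat_lit 1517) (.f (nat_lit 461) (nat_lit 460) (nat_lit 3532) (.d (nat_lit 429) (nat_lit 397) (nat_lit 4493) (nat_lit 558) (nat_lit 4525)))))) (.f (nat_lit 496) (nat_lit 529) (nat_lit 493) (.f (nat_lit 527) (nat_lit 492) (nat_lit 492) (.f (nat_lit 464) (nat_lit 465) (nat_lit 2509) (.d (nat_lit 432) (nat_lit 400) (nat_lit 5519) (nat_lit 559) (nat_lit 5551))))))))))) (.a (.p (nat_lit 493) (.a (.f (nat_lit 496) (nat_lit 529) (nat_lit 493) (.f (nat_lit 492) (nat_lit 527) (nat_lit 492) (.d (nat_lit 524) (nat_lit 523) (nat_lit 1515) (nat_lit 525) (nat_lit 1516)))) (.a (.f (nat_lit 492) (nat_lit 527) (nat_lit 492) (.f (nat_lit 524) (nat_lit 523) (nat_lit 1515) (.f (nat_lit 460) (nat_lit 459) (nat_lit 3531) (.d (nat_lit 496) (nat_lit 461) (nat_lit 3532) (nat_lit 525) (nat_lit 1516))))) (.a (.f (nat_lit 492) (nat_lit 527) (nat_lit 492) (.f (nat_lit 463) (nat_lit 464) (nat_lit 2508) (.f (nat_lit 491) (nat_lit 462) (nat_lit 2507) (.d (nat_lit 523) (nat_lit 522) (nat_lit 1514) (nat_lit 524) (nat_lit 1515))))) (.a (.f (nat_lit 496) (nat_lit 529) (nat_lit 493) (.f (nat_lit 464) (nat_lit 465) (nat_lit 2509) (.f (nat_lit 463) (nat_lit 492) (nat_lit 2508) (.f (nat_lit 461) (nat_lit 460) (nat_lit 3532) (.f (nat_lit 462) (nat_lit 497) (nat_lit 461) (.f (nat_lit 525) (nat_lit 524) (nat_lit 1516) (.d (nat_lit 430) (nat_lit 398) (nat_lit 5517) (nat_lit 557) (nat_lit 6573)))))))) (.a (.f (nat_lit 496) (nat_lit 529) (nat_lit 493) (.f (nat_lit 461) (nat_lit 460) (nat_lit 3532) (.f (nat_lit 462) (nat_lit 497) (nat_lit 3533) (.f (nat_lit 525) (nat_lit 524) (nat_lit 1516) (.d (nat_lit 430) (nat_lit 398) (nat_lit 5517) (nat_lit 557) (nat_lit 6573)))))) (.f (nat_lit 496) (nat_lit 529) (nat_lit 493) (.f (nat_lit 527) (nat_lit 492) (nat_lit 492) (.f (nat_lit 464) (nat_lit 465) (nat_lit 2509) (.d (nat_lit 432) (nat_lit 400) (nat_lit 5519) (nat_lit 559) (nat_lit 5551))))))))))) (.a (.p (nat_lit 493) (.a (.f (nat_lit 492) (nat_lit 527) (nat_lit 492) (.f (nat_lit 463) (nat_lit 464) (nat_lit 2508) (.f (nat_lit 491) (nat_lit 462) (nat_lit 2507) (.d (nat_lit 523) (nat_lit 522) (nat_lit 1514) (nat_lit 524) (nat_lit 1515))))) (.a (.f (nat_lit 496) (nat_lit 529) (nat_lit 493) (.f (nat_lit 464) (nat_lit 465) (nat_lit 2509) (.f (nat_lit 463) (nat_lit 492) (nat_lit 2508) (.f (nat_lit 461) (nat_lit 460) (nat_lit 3532) (.f (nat_lit 462) (nat_lit 497) (nat_lit 461) (.f (nat_lit 429) (nat_lit 428) (nat_lit 3500) (.d (nat_lit 397) (nat_lit 365) (nat_lit 4461) (nat_lit 526) (nat_lit 4493)))))))) (.a (.f (nat_lit 496) (nat_lit 529) (nat_lit 493) (.f (nat_lit 465) (nat_lit 464) (nat_lit 2509) (.f (nat_lit 497) (nat_lit 466) (nat_lit 2510) (.d (nat_lit 461) (nat_lit 460) (nat_lit 3532) (nat_lit 462) (nat_lit 3533))))) (.f (nat_lit 492) (nat_lit 527) (nat_lit 492) (.f (nat_lit 523) (nat_lit 524) (nat_lit 1515) (.f (nat_lit 491) (nat_lit 522) (nat_lit 1514) (.d (nat_lit 459) (nat_lit 458) (nat_lit 3530) (nat_lit 460) (nat_lit 3531))))))))) (.p (nat_lit 493) (.a (.f (nat_lit 496) (nat_lit 529) (nat_lit 493) (.f (nat_lit 492) (nat_lit 527) (nat_lit 492) (.d (nat_lit 524) (nat_lit 523) (nat_lit 1515) (nat_lit 525) (nat_lit 1516)))) (.a (.f (nat_lit 492) (nat_lit 527) (nat_lit 492) (.f (nat_lit 524) (nat_lit 523) (nat_lit 1515) (.f (nat_lit 460) (nat_lit 459) (nat_lit 3531) (.d (nat_lit 496) (nat_lit 461) (nat_lit 3532) (nat_lit 525) (nat_lit 1516))))) (.a (.f (nat_lit 496) (nat_lit 529) (nat_lit 493) (.f (nat_lit 525) (nat_lit 524) (nat_lit 1516) (.f (nat_lit 497) (nat_lit 526) (nat_lit 1517) (.d (nat_lit 461) (nat_lit 460) (nat_lit 3532) (nat_lit 462) (nat_lit 3533))))) (.a (.f (nat_lit 492) (nat_lit 527) (nat_lit 492) (.f (nat_lit 523) (nat_lit 524) (nat_lit 1515) (.f (nat_lit 491) (nat_lit 522) (nat_lit 1514) (.d (nat_lit 459) (nat_lit 458) (nat_lit 3530) (nat_lit 460) (nat_lit 3531))))) (.f (nat_lit 527) (nat_lit 492) (nat_lit 492) (.d (nat_lit 529) (nat_lit 496) (nat_lit 493) (nat_lit 526) (nat_lit 3565)))))))))))))))))) (.a (.p (nat_lit 527) (.a (.p (nat_lit 529) (.a (.f (nat_lit 530) (nat_lit 494) (nat_lit 3566) (.f (nat_lit 559) (nat_lit 558) (nat_lit 1550) (.d (nat_lit 531) (nat_lit 496) (nat_lit 3567) (nat_lit 560) (nat_lit 1551)))) (.a (.p (nat_lit 530) (.a (.f (nat_lit 559) (nat_lit 558) (nat_lit 1550) (.d (nat_lit 531) (nat_lit 496) (nat_lit 3567) (nat_lit 560) (nat_lit 1551))) (.a (.f (nat_lit 496) (nat_lit 531) (nat_lit 3567) (.f (nat_lit 559) (nat_lit 558) (nat_lit 1550) (.d (nat_lit 464) (nat_lit 432) (nat_lit 5551) (nat_lit 591) (nat_lit 6607)))) (.a (.f (nat_lit 559) (nat_lit 558) (nat_lit 1550) (.f (nat_lit 560) (nat_lit 531) (nat_lit 1551) (.d (nat_lit 463) (nat_lit 431) (nat_lit 4527) (nat_lit 592) (nat_lit 4559)))) (.f (nat_lit 498) (nat_lit 499) (nat_lit 2543) (.f (nat_lit 497) (nat_lit 526) (nat_lit 2542) (.f (nat_lit 562) (nat_lit 563) (nat_lit 527) (.d (nat_lit 465) (nat_lit 433) (nat_lit 4529) (nat_lit 594) (nat_lit 7633))))))))) (.a (.f (nat_lit 530) (nat_lit 494) (nat_lit 3566) (.f (nat_lit 496) (nat_lit 531) (nat_lit 3567) (.f (nat_lit 559) (nat_lit 558) (nat_lit 1550) (.d (nat_lit 464) (nat_lit 432) (nat_lit 5551) (nat_lit 591) (nat_lit 6607))))) (.a s134436 (.a (.f (nat_lit 530) (nat_lit 494) (nat_lit 3566) (.f (nat_lit 559) (nat_lit 558) (nat_lit 1550) (.f (nat_lit 560) (nat_lit 531) (nat_lit 1551) (.d (nat_lit 463) (nat_lit 431) (nat_lit 4527) (nat_lit 592) (nat_lit 4559))))) (.f (nat_lit 530) (nat_lit 494) (nat_lit 3566) (.f (nat_lit 531) (nat_lit 496) (nat_lit 3567) (.d (nat_lit 499) (nat_lit 498) (nat_lit 2543) (nat_lit 500) (nat_lit 2544)))))))))) (.a (.p (nat_lit 529) (.a (.f (nat_lit 530) (nat_lit 494) (nat_lit 3566) (.f (nat_lit 496) (nat_lit 531) (nat_lit 3567) (.f (nat_lit 559) (nat_lit 558) (nat_lit 1550) (.d (nat_lit 464) (nat_lit 432) (nat_lit 5551) (nat_lit 591) (nat_lit 6607))))) (.a (.p (nat_lit 526) (.a (.f (nat_lit 497) (nat_lit 498) (nat_lit 2542) (.f (nat_lit 525) (nat_lit 496) (nat_lit 2541) (.d (nat_lit 557) (nat_lit 556) (nat_lit 1548) (nat_lit 558) (nat_lit 1549)))) (.a (.f (nat_lit 558) (nat_lit 557) (nat_lit 1549) (.f (nat_lit 559) (nat_lit 530) (nat_lit 1550) (.d (nat_lit 463) (nat_lit 431) (nat_lit 5550) (nat_lit 590) (nat_lit 5582)))) (.a (.f (nat_lit 497) (nat_lit 498) (nat_lit 2542) (.f (nat_lit 525) (nat_lit 496) (nat_lit 2541) (.f (nat_lit 492) (nat_lit 493) (nat_lit 3564) (.f (nat_lit 524) (nat_lit 491) (nat_lit 3563) (.d (nat_lit 556) (nat_lit 555) (nat_lit 1547) (nat_lit 557) (nat_lit 1548)))))) (.f (nat_lit 497) (nat_lit 498) (nat_lit 2542) (.f (nat_lit 496) (nat_lit 525) (nat_lit 2541) (.f (nat_lit 530) (nat_lit 531) (nat_lit 3567) (.f (nat_lit 559) (nat_lit 558) (nat_lit 1550) (.d (nat_lit 464) (nat_lit 432) (nat_lit 5551) (nat_lit 591) (nat_lit 6607)))))))))) (.a (.p (nat_lit 526) (.a (.f (nat_lit 494) (nat_lit 493) (nat_lit 3565) (.f (nat_lit 558) (nat_lit 557) (nat_lit 1549) (.d (nat_lit 463) (nat_lit 431) (nat_lit 5550) (nat_lit 590) (nat_lit 6606)))) (.a (.f (nat_lit 497) (nat_lit 498) (nat_lit 2542) (.f (nat_lit 525) (nat_lit 496) (nat_lit 2541) (.d (nat_lit 557) (nat_lit 556) (nat_lit 1548) (nat_lit 558) (nat_lit 1549)))) (.a (.f (nat_lit 497) (nat_lit 498) (nat_lit 2542) (.f (nat_lit 525) (nat_lit 496) (nat_lit 2541) (.f (nat_lit 492) (nat_lit 493) (nat_lit 3564) (.f (nat_lit 524) (nat_lit 491) (nat_lit 3563) (.d (nat_lit 556) (nat_lit 555) (nat_lit 1547) (nat_lit 557) (nat_lit 1548)))))) (.f (nat_lit 494) (nat_lit 493) (nat_lit 3565) (.f (nat_lit 497) (nat_lit 498) (nat_lit 2542) (.f (nat_lit 496) (nat_lit 525) (nat_lit 2541) (.f (nat_lit 465) (nat_lit 466) (nat_lit 2510) (.f (nat_lit 433) (nat_lit 401) (nat_lit 5520) (.f (nat_lit 432) (nat_lit 400) (nat_lit 7568) (.f (nat_lit 464) (nat_lit 559) (nat_lit 5551) (.f (nat_lit 434) (nat_lit 402) (nat_lit 6545) (.d (nat_lit 435) (nat_lit 436) (nat_lit 1456) (nat_lit 463) (nat_lit 1455)))))))))))))) (.a (.f (nat_lit 530) (nat_lit 494) (nat_lit 3566) (.f (nat_lit 558) (nat_lit 559) (nat_lit 1550) (.f (nat_lit 526) (nat_lit 557) (nat_lit 1549) (.d (nat_lit 498) (nat_lit 497) (nat_lit 2542) (nat_lit 499) (nat_lit 2543))))) (.f (nat_lit 530) (nat_lit 494) (nat_lit 3566) (.f (nat_lit 531) (nat_lit 496) (nat_lit 3567) (.d (nat_lit 499) (nat_lit 498) (nat_lit 2543) (nat_lit 500) (nat_lit 2544))))))))) (.a (.p (nat_lit 463) (.a (.f (nat_lit 431) (nat_lit 560) (nat_lit 4527) (.f (nat_lit 399) (nat_lit 496) (nat_lit 4495) (.d (nat_lit 526) (nat_lit 494) (nat_lit 5518) (nat_lit 558) (nat_lit 5550)))) (.a s134441 (.a (.f (nat_lit 431) (nat_lit 560) (nat_lit 4527) (.f (nat_lit 399) (nat_lit 496) (nat_lit 4495) (.d (nat_lit 400) (nat_lit 368) (nat_lit 6511) (nat_lit 432) (nat_lit 6543)))) (.a (.p (nat_lit 559) (.a (.f (nat_lit 464) (nat_lit 432) (nat_lit 6575) (.f (nat_lit 496) (nat_lit 591) (nat_lit 6607) (.f (nat_lit 560) (nat_lit 592) (nat_lit 4559) (.f (nat_lit 465) (nat_lit 433) (nat_lit 6576) (.d (nat_lit 494) (nat_lit 466) (nat_lit 1486) (nat_lit 493) (nat_lit 2509)))))) (.a (.f (nat_lit 464) (nat_lit 432) (nat_lit 6575) (.f (nat_lit 591) (nat_lit 496) (nat_lit 6607) (.d (nat_lit 590) (nat_lit 558) (nat_lit 5582) (nat_lit 622) (nat_lit 5614)))) (.a (.f (nat_lit 592) (nat_lit 560) (nat_lit 4559) (.f (nat_lit 591) (nat_lit 624) (nat_lit 4591) (.d (nat_lit 590) (nat_lit 558) (nat_lit 5582) (nat_lit 622) (nat_lit 5614)))) (.p (nat_lit 494) (.a (.f (nat_lit 464) (nat_lit 432) (nat_lit 6575) (.f (nat_lit 493) (nat_lit 492) (nat_lit 2508) (.d (nat_lit 465) (nat_lit 466) (nat_lit 1486) (nat_lit 496) (nat_lit 2509)))) (.a (.f (nat_lit 464) (nat_lit 432) (nat_lit 6575) (.f (nat_lit 560) (nat_lit 592) (nat_lit 4559) (.f (nat_lit 558) (nat_lit 590) (nat_lit 5582) (.f (nat_lit 557) (nat_lit 556) (nat_lit 2572) (.f (nat_lit 525) (nat_lit 524) (nat_lit 3596) (.f (nat_lit 465) (nat_lit 466) (nat_lit 1486) (.f (nat_lit 496) (nat_lit 433) (nat_lit 6576) (.f (nat_lit 526) (nat_lit 497) (nat_lit 2541) (.d (nat_lit 589) (nat_lit 588) (nat_lit 1580) (nat_lit 621) (nat_lit 6637)))))))))) (.f (nat_lit 558) (nat_lit 590) (nat_lit 5582) (.f (nat_lit 560) (nat_lit 592) (nat_lit 4559) (.f (nat_lit 557) (nat_lit 556) (nat_lit 2572) (.f (nat_lit 525) (nat_lit 524) (nat_lit 3596) (.f (nat_lit 589) (nat_lit 588) (nat_lit 1580) (.f (nat_lit 621) (nat_lit 526) (nat_lit 6637) (.f (nat_lit 652) (nat_lit 620) (nat_lit 5644) (.f (nat_lit 653) (nat_lit 684) (nat_lit 5676) (.d (nat_lit 654) (nat_lit 622) (nat_lit 4621) (nat_lit 686) (nat_lit 4653))))))))))))))))) (.f (nat_lit 431) (nat_lit 560) (nat_lit 4527) (.f (nat_lit 526) (nat_lit 558) (nat_lit 5550) (.f (nat_lit 399) (nat_lit 494) (nat_lit 5518) (.d (nat_lit 400) (nat_lit 368) (nat_lit 6511) (nat_lit 432) (nat_lit 6543)))))))))) (.a (.p (nat_lit 463) (.a (.f (nat_lit 431) (nat_lit 560) (nat_lit 4527) (.f (nat_lit 399) (nat_lit 496) (nat_lit 4495) (.d (nat_lit 400) (nat_lit 368) (nat_lit 6511) (nat_lit 432) (nat_lit 6543)))) (.a (.p (nat_lit 559) (.a (.f (nat_lit 464) (nat_lit 432) (nat_lit 6575) (.f (nat_lit 591) (nat_lit 496) (nat_lit 6607) (.d (nat_lit 590) (nat_lit 558) (nat_lit 5582) (nat_lit 622) (nat_lit 5614)))) (.a (.f (nat_lit 558) (nat_lit 590) (nat_lit 5582) (.f (nat_lit 526) (nat_lit 431) (nat_lit 5550) (.d (nat_lit 529) (nat_lit 530) (nat_lit 1550) (nat_lit 557) (nat_lit 1549)))) (.a (.f (nat_lit 464) (nat_lit 432) (nat_lit 6575) (.f (nat_lit 591) (nat_lit 496) (nat_lit 6607) (.f (nat_lit 622) (nat_lit 590) (nat_lit 5614) (.f (nat_lit 623) (nat_lit 654) (nat_lit 5646) (.d (nat_lit 624) (nat_lit 592) (nat_lit 4591) (nat_lit 656) (nat_lit 4623)))))) (.f (nat_lit 464) (nat_lit 432) (nat_lit 6575) (.f (nat_lit 496) (nat_lit 591) (nat_lit 6607) (.f (nat_lit 431) (nat_lit 399) (nat_lit 4495) (.f (nat_lit 526) (nat_lit 558) (nat_lit 5550) (.d (nat_lit 497) (nat_lit 498) (nat_lit 1518) (nat_lit 525) (nat_lit 2541)))))))))) (.a (.p (nat_lit 559) (.a (.f (nat_lit 464) (nat_lit 432) (nat_lit 6575) (.f (nat_lit 591) (nat_lit 496) (nat_lit 6607) (.d (nat_lit 590) (nat_lit 558) (nat_lit 5582) (nat_lit 622) (nat_lit 5614)))) (.a (.f (nat_lit 592) (nat_lit 560) (nat_lit 4559) (.f (nat_lit 591) (nat_lit 624) (nat_lit 4591) (.d (nat_lit 590) (nat_lit 558) (nat_lit 5582) (nat_lit 622) (nat_lit 5614)))) (.a (.f (nat_lit 464) (nat_lit 432) (nat_lit 6575) (.f (nat_lit 591) (nat_lit 496) (nat_lit 6607) (.f (nat_lit 622) (nat_lit 590) (nat_lit 5614) (.f (nat_lit 623) (nat_lit 654) (nat_lit 5646) (.d (nat_lit 624) (nat_lit 592) (nat_lit 4591) (nat_lit 656) (nat_lit 4623)))))) (.a (.f (nat_lit 560) (nat_lit 592) (nat_lit 4559) (.f (nat_lit 558) (nat_lit 590) (nat_lit 5582) (.d (nat_lit 529) (nat_lit 530) (nat_lit 1550) (nat_lit 557) (nat_lit 2573)))) (.f (nat_lit 560) (nat_lit 592) (nat_lit 4559) (.f (nat_lit 464) (nat_lit 432) (nat_lit 6575) (.f (nat_lit 496) (nat_lit 591) (nat_lit 5583) (.f (nat_lit 465) (nat_lit 433) (nat_lit 6576) (.f (nat_lit 466) (nat_lit 467) (nat_lit 1487) (.f (nat_lit 498) (nat_lit 499) (nat_lit 463) (.f (nat_lit 497) (nat_lit 526) (nat_lit 1518) (.f (nat_lit 434) (nat_lit 435) (nat_lit 2479) (.d (nat_lit 402) (nat_lit 370) (nat_lit 5489) (nat_lit 529) (nat_lit 5521))))))))))))))) (.a (.f (nat_lit 431) (nat_lit 560) (nat_lit 4527) (.f (nat_lit 558) (nat_lit 526) (nat_lit 5550) (.f (nat_lit 559) (nat_lit 590) (nat_lit 5582) (.d (nat_lit 432) (nat_lit 400) (nat_lit 6543) (nat_lit 464) (nat_lit 6575))))) (.f (nat_lit 431) (nat_lit 560) (nat_lit 4527) (.f (nat_lit 399) (nat_lit 496) (nat_lit 4495) (.d (nat_lit 398) (nat_lit 366) (nat_lit 7534) (nat_lit 430) (nat_lit 7566))))))))) (.a (.p (nat_lit 529) (.a (.f (nat_lit 530) (nat_lit 494) (nat_lit 3566) (.f (nat_lit 559) (nat_lit 558) (nat_lit 1550) (.d (nat_lit 531) (nat_lit 496) (nat_lit 3567) (nat_lit 560) (nat_lit 1551)))) (.a (.p (nat_lit 530) (.a (.f (nat_lit 559) (nat_lit 558) (nat_lit 1550) (.d (nat_lit 531) (nat_lit 496) (nat_lit 3567) (nat_lit 560) (nat_lit 1551))) (.a (.f (nat_lit 496) (nat_lit 531) (nat_lit 3567) (.f (nat_lit 559) (nat_lit 558) (nat_lit 1550) (.d (nat_lit 464) (nat_lit 432) (nat_lit 5551) (nat_lit 591) (nat_lit 6607)))) (.f (nat_lit 498) (nat_lit 499) (nat_lit 2543) (.f (nat_lit 497) (nat_lit 526) (nat_lit 2542) (.f (nat_lit 562) (nat_lit 563) (nat_lit 527) (.d (nat_lit 465) (nat_lit 433) (nat_lit 4529) (nat_lit 594) (nat_lit 7633)))))))) (.a (.f (nat_lit 530) (nat_lit 494) (nat_lit 3566) (.f (nat_lit 496) (nat_lit 531) (nat_lit 3567) (.f (nat_lit 559) (nat_lit 558) (nat_lit 1550) (.d (nat_lit 464) (nat_lit 432) (nat_lit 5551) (nat_lit 591) (nat_lit 6607))))) (.a (.p (nat_lit 526) (.a (.f (nat_lit 497) (nat_lit 498) (nat_lit 2542) (.f (nat_lit 525) (nat_lit 496) (nat_lit 2541) (.d (nat_lit 557) (nat_lit 556) (nat_lit 1548) (nat_lit 558) (nat_lit 1549)))) (.a (.f (nat_lit 493) (nat_lit 494) (nat_lit 3565) (.f (nat_lit 525) (nat_lit 492) (nat_lit 3564) (.d (nat_lit 557) (nat_lit 556) (nat_lit 1548) (nat_lit 558) (nat_lit 1549)))) (.a (.p (nat_lit 560) (.a (.f (nat_lit 497) (nat_lit 498) (nat_lit 2542) (.f (nat_lit 592) (nat_lit 624) (nat_lit 6640) (.d (nat_lit 465) (nat_lit 433) (nat_lit 5552) (nat_lit 496) (nat_lit 6608)))) (.a (.f (nat_lit 497) (nat_lit 498) (nat_lit 2542) (.f (nat_lit 494) (nat_lit 493) (nat_lit 3565) (.f (nat_lit 558) (nat_lit 557) (nat_lit 1549) (.f (nat_lit 590) (nat_lit 622) (nat_lit 6638) (.f (nat_lit 591) (nat_lit 623) (nat_lit 4590) (.f (nat_lit 465) (nat_lit 433) (nat_lit 5552) (.f (nat_lit 496) (nat_lit 466) (nat_lit 2510) (.f (nat_lit 559) (nat_lit 464) (nat_lit 5583) (.d (nat_lit 589) (nat_lit 588) (nat_lit 2604) (nat_lit 621) (nat_lit 5613)))))))))) (.f (nat_lit 558) (nat_lit 557) (nat_lit 1549) (.f (nat_lit 494) (nat_lit 493) (nat_lit 3565) (.f (nat_lit 590) (nat_lit 622) (nat_lit 6638) (.f (nat_lit 591) (nat_lit 623) (nat_lit 4590) (.f (nat_lit 589) (nat_lit 621) (nat_lit 5613) (.f (nat_lit 588) (nat_lit 559) (nat_lit 2604) (.f (nat_lit 619) (nat_lit 620) (nat_lit 1611) (.f (nat_lit 587) (nat_lit 618) (nat_lit 1610) (.d (nat_lit 555) (nat_lit 554) (nat_lit 3626) (nat_lit 556) (nat_lit 3627))))))))))))) (.f (nat_lit 497) (nat_lit 498) (nat_lit 2542) (.f (nat_lit 496) (nat_lit 525) (nat_lit 2541) (.f (nat_lit 494) (nat_lit 493) (nat_lit 493) (.f (nat_lit 465) (nat_lit 466) (nat_lit 2510) (.d (nat_lit 433) (nat_lit 401) (nat_lit 5520) (nat_lit 560) (nat_lit 5552)))))))))) (.a (.f (nat_lit 530) (nat_lit 494) (nat_lit 3566) (.f (nat_lit 558) (nat_lit 559) (nat_lit 1550) (.f (nat_lit 526) (nat_lit 557) (nat_lit 1549) (.d (nat_lit 498) (nat_lit 497) (nat_lit 2542) (nat_lit 499) (nat_lit 2543))))) (.f (nat_lit 530) (nat_lit 494) (nat_lit 3566) (.f (nat_lit 531) (nat_lit 496) (nat_lit 3567) (.d (nat_lit 499) (nat_lit 498) (nat_lit 2543) (nat_lit 500) (nat_lit 2544)))))))))) (.a (.p (nat_lit 558) (.a (.p (nat_lit 529) (.a (.d (nat_lit 530) (nat_lit 494) (nat_lit 3566) (nat_lit 559) (nat_lit 1550)) (.a (.f (nat_lit 559) (nat_lit 530) (nat_lit 1550) (.d (nat_lit 557) (nat_lit 526) (nat_lit 1549) (nat_lit 556) (nat_lit 2572))) (.f (nat_lit 526) (nat_lit 557) (nat_lit 1549) (.f (nat_lit 463) (nat_lit 431) (nat_lit 5550) (.d (nat_lit 494) (nat_lit 493) (nat_lit 3565) (nat_lit 590) (nat_lit 6606))))))) (.a (.p (nat_lit 463) (.a (.d (nat_lit 431) (nat_lit 526) (nat_lit 5550) (nat_lit 560) (nat_lit 4527)) (.a (.f (nat_lit 526) (nat_lit 431) (nat_lit 5550) (.d (nat_lit 590) (nat_lit 494) (nat_lit 6606) (nat_lit 559) (nat_lit 5582))) (.a (.f (nat_lit 590) (nat_lit 559) (nat_lit 5582) (.d (nat_lit 526) (nat_lit 494) (nat_lit 6606) (nat_lit 622) (nat_lit 6638))) (.f (nat_lit 559) (nat_lit 590) (nat_lit 5582) (.d (nat_lit 560) (nat_lit 431) (nat_lit 4527) (nat_lit 592) (nat_lit 4559))))))) (.a (.p (nat_lit 529) (.a (.d (nat_lit 530) (nat_lit 494) (nat_lit 3566) (nat_lit 559) (nat_lit 1550)) (.a (.f (nat_lit 559) (nat_lit 530) (nat_lit 1550) (.d (nat_lit 557) (nat_lit 526) (nat_lit 1549) (nat_lit 556) (nat_lit 2572))) (.a (.f (nat_lit 557) (nat_lit 526) (nat_lit 1549) (.d (nat_lit 559) (nat_lit 556) (nat_lit 2572) (nat_lit 560) (nat_lit 2573))) (.f (nat_lit 526) (nat_lit 557) (nat_lit 1549) (.d (nat_lit 494) (nat_lit 493) (nat_lit 3565) (nat_lit 530) (nat_lit 3566))))))) (.a (.p (nat_lit 463) (.a (.d (nat_lit 431) (nat_lit 526) (nat_lit 5550) (nat_lit 560) (nat_lit 4527)) (.a (.f (nat_lit 559) (nat_lit 590) (nat_lit 5582) (.f (nat_lit 526) (nat_lit 431) (nat_lit 5550) (.d (nat_lit 557) (nat_lit 529) (nat_lit 1549) (nat_lit 556) (nat_lit 2572)))) (.a (.f (nat_lit 559) (nat_lit 590) (nat_lit 5582) (.f (nat_lit 557) (nat_lit 556) (nat_lit 2572) (.d (nat_lit 529) (nat_lit 526) (nat_lit 1549) (nat_lit 530) (nat_lit 1550)))) (.f (nat_lit 559) (nat_lit 590) (nat_lit 5582) (.d (nat_lit 560) (nat_lit 431) (nat_lit 4527) (nat_lit 592) (nat_lit 4559))))))) (.a (.p (nat_lit 559) (.a (.f (nat_lit 590) (nat_lit 463) (nat_lit 5582) (.d (nat_lit 622) (nat_lit 591) (nat_lit 5614) (nat_lit 654) (nat_lit 6670))) (.f (nat_lit 529) (nat_lit 530) (nat_lit 1550) (.d (nat_lit 557) (nat_lit 556) (nat_lit 2572) (nat_lit 560) (nat_lit 2573))))) (.p (nat_lit 526) (.a (.f (nat_lit 529) (nat_lit 557) (nat_lit 1549) (.d (nat_lit 494) (nat_lit 493) (nat_lit 3565) (nat_lit 530) (nat_lit 3566))) (.a (.f (nat_lit 590) (nat_lit 622) (nat_lit 6638) (.d (nat_lit 463) (nat_lit 431) (nat_lit 5550) (nat_lit 494) (nat_lit 6606))) (.f (nat_lit 557) (nat_lit 529) (nat_lit 1549) (.d (nat_lit 556) (nat_lit 525) (nat_lit 1548) (nat_lit 555) (nat_lit 2571)))))))))))) (.a (.p (nat_lit 463) (.a (.f (nat_lit 431) (nat_lit 560) (nat_lit 4527) (.f (nat_lit 399) (nat_lit 496) (nat_lit 4495) (.d (nat_lit 400) (nat_lit 368) (nat_lit 6511) (nat_lit 432) (nat_lit 6543)))) (.a (.p (nat_lit 431) (.a (.f (nat_lit 399) (nat_lit 496) (nat_lit 4495) (.d (nat_lit 400) (nat_lit 368) (nat_lit 6511) (nat_lit 432) (nat_lit 6543))) (.a (.f (nat_lit 432) (nat_lit 400) (nat_lit 6543) (.f (nat_lit 464) (nat_lit 559) (nat_lit 6575) (.f (nat_lit 430) (nat_lit 398) (nat_lit 7566) (.d (nat_lit 429) (nat_lit 428) (nat_lit 428) (nat_lit 465) (nat_lit 429))))) (.f (nat_lit 399) (nat_lit 496) (nat_lit 4495) (.d (nat_lit 398) (nat_lit 366) (nat_lit 7534) (nat_lit 430) (nat_lit 7566)))))) (.a (.p (nat_lit 559) (.a (.f (nat_lit 464) (nat_lit 432) (nat_lit 6575) (.f (nat_lit 496) (nat_lit 591) (nat_lit 6607) (.f (nat_lit 560) (nat_lit 592) (nat_lit 4559) (.f (nat_lit 465) (nat_lit 433) (nat_lit 6576) (.d (nat_lit 494) (nat_lit 466) (nat_lit 1486) (nat_lit 493) (nat_lit 2509)))))) (.a (.f (nat_lit 464) (nat_lit 432) (nat_lit 6575) (.f (nat_lit 591) (nat_lit 496) (nat_lit 6607) (.d (nat_lit 590) (nat_lit 558) (nat_lit 5582) (nat_lit 622) (nat_lit 5614)))) (.a (.f (nat_lit 592) (nat_lit 560) (nat_lit 4559) (.f (nat_lit 591) (nat_lit 624) (nat_lit 4591) (.d (nat_lit 590) (nat_lit 558) (nat_lit 5582) (nat_lit 622) (nat_lit 5614)))) (.f (nat_lit 560) (nat_lit 592) (nat_lit 4559) (.f (nat_lit 558) (nat_lit 590) (nat_lit 5582) (.d (nat_lit 529) (nat_lit 530) (nat_lit 1550) (nat_lit 557) (nat_lit 2573)))))))) (.a (.f (nat_lit 431) (nat_lit 560) (nat_lit 4527) (.f (nat_lit 432) (nat_lit 400) (nat_lit 6543) (.f (nat_lit 430) (nat_lit 398) (nat_lit 7566) (.f (nat_lit 464) (nat_lit 559) (nat_lit 6575) (.d (nat_lit 429) (nat_lit 428) (nat_lit 428) (nat_lit 465) (nat_lit 429)))))) (.f (nat_lit 431) (nat_lit 560) (nat_lit 4527) (.f (nat_lit 399) (nat_lit 496) (nat_lit 4495) (.d (nat_lit 398) (nat_lit 366) (nat_lit 7534) (nat_lit 430) (nat_lit 7566))))))))) (.a (.p (nat_lit 529) (.a s134436 (.a s134516 (.a (.f (nat_lit 530) (nat_lit 494) (nat_lit 3566) (.f (nat_lit 531) (nat_lit 496) (nat_lit 3567) (.d (nat_lit 499) (nat_lit 498) (nat_lit 2543) (nat_lit 500) (nat_lit 2544)))) (.a (.f (nat_lit 530) (nat_lit 494) (nat_lit 3566) (.f (nat_lit 498) (nat_lit 499) (nat_lit 2543) (.f (nat_lit 562) (nat_lit 563) (nat_lit 527) (.f (nat_lit 497) (nat_lit 526) (nat_lit 2542) (.d (nat_lit 465) (nat_lit 433) (nat_lit 4529) (nat_lit 594) (nat_lit 7633)))))) (.f (nat_lit 494) (nat_lit 530) (nat_lit 3566) (.d (nat_lit 493) (nat_lit 492) (nat_lit 492) (nat_lit 526) (nat_lit 3565)))))))) (.a (.p (nat_lit 529) (.a (.f (nat_lit 530) (nat_lit 494) (nat_lit 3566) (.f (nat_lit 531) (nat_lit 496) (nat_lit 3567) (.d (nat_lit 499) (nat_lit 498) (nat_lit 2543) (nat_lit 500) (nat_lit 2544)))) (.a s134516 (.a (.p (nat_lit 526) (.a (.f (nat_lit 497) (nat_lit 498) (nat_lit 2542) (.f (nat_lit 496) (nat_lit 525) (nat_lit 2541) (.f (nat_lit 494) (nat_lit 493) (nat_lit 493) (.f (nat_lit 465) (nat_lit 466) (nat_lit 2510) (.d (nat_lit 433) (nat_lit 401) (nat_lit 5520) (nat_lit 560) (nat_lit 5552)))))) (.a (.f (nat_lit 497) (nat_lit 498) (nat_lit 2542) (.f (nat_lit 525) (nat_lit 496) (nat_lit 2541) (.f (nat_lit 492) (nat_lit 493) (nat_lit 3564) (.f (nat_lit 524) (nat_lit 491) (nat_lit 3563) (.d (nat_lit 556) (nat_lit 555) (nat_lit 1547) (nat_lit 557) (nat_lit 1548)))))) (.a (.f (nat_lit 497) (nat_lit 498) (nat_lit 2542) (.f (nat_lit 525) (nat_lit 496) (nat_lit 2541) (.f (nat_lit 556) (nat_lit 557) (nat_lit 1548) (.f (nat_lit 524) (nat_lit 555) (nat_lit 1547) (.f (nat_lit 491) (nat_lit 492) (nat_lit 3563) (.d (nat_lit 523) (nat_lit 490) (nat_lit 3562) (nat_lit 494) (nat_lit 2539))))))) (.a s127950 (.p (nat_lit 560) (.a (.f (nat_lit 497) (nat_lit 498) (nat_lit 2542) (.f (nat_lit 592) (nat_lit 624) (nat_lit 6640) (.d (nat_lit 465) (nat_lit 433) (nat_lit 5552) (nat_lit 496) (nat_lit 6608)))) (.a (.f (nat_lit 494) (nat_lit 493) (nat_lit 3565) (.f (nat_lit 463) (nat_lit 431) (nat_lit 4527) (.f (nat_lit 497) (nat_lit 498) (nat_lit 2542) (.f (nat_lit 465) (nat_lit 433) (nat_lit 5552) (.d (nat_lit 466) (nat_lit 464) (nat_lit 1486) (nat_lit 496) (nat_lit 2510)))))) (.f (nat_lit 592) (nat_lit 624) (nat_lit 7663) (.d (nat_lit 463) (nat_lit 431) (nat_lit 4527) (nat_lit 559) (nat_lit 4559))))))))))) (.a (.f (nat_lit 530) (nat_lit 494) (nat_lit 3566) (.f (nat_lit 498) (nat_lit 499) (nat_lit 2543) (.f (nat_lit 562) (nat_lit 563) (nat_lit 527) (.f (nat_lit 497) (nat_lit 526) (nat_lit 2542) (.d (nat_lit 465) (nat_lit 433) (nat_lit 4529) (nat_lit 594) (nat_lit 7633)))))) (.f (nat_lit 494) (nat_lit 530) (nat_lit 3566) (.d (nat_lit 493) (nat_lit 492) (nat_lit 492) (nat_lit 526) (nat_lit 3565)))))))) (.p (nat_lit 463) (.a (.f (nat_lit 431) (nat_lit 560) (nat_lit 4527) (.f (nat_lit 399) (nat_lit 496) (nat_lit 4495) (.d (nat_lit 526) (nat_lit 494) (nat_lit 5518) (nat_lit 558) (nat_lit 5550)))) (.a s134441 (.a (.f (nat_lit 431) (nat_lit 560) (nat_lit 4527) (.f (nat_lit 399) (nat_lit 496) (nat_lit 4495) (.d (nat_lit 400) (nat_lit 368) (nat_lit 6511) (nat_lit 432) (nat_lit 6543)))) (.a (.p (nat_lit 559) (.a (.f (nat_lit 464) (nat_lit 432) (nat_lit 6575) (.f (nat_lit 496) (nat_lit 591) (nat_lit 6607) (.f (nat_lit 560) (nat_lit 592) (nat_lit 4559) (.f (nat_lit 465) (nat_lit 433) (nat_lit 6576) (.d (nat_lit 494) (nat_lit 466) (nat_lit 1486) (nat_lit 493) (nat_lit 2509)))))) (.a (.f (nat_lit 464) (nat_lit 432) (nat_lit 6575) (.f (nat_lit 591) (nat_lit 496) (nat_lit 6607) (.d (nat_lit 590) (nat_lit 558) (nat_lit 5582) (nat_lit 622) (nat_lit 5614)))) (.a (.f (nat_lit 592) (nat_lit 560) (nat_lit 4559) (.f (nat_lit 591) (nat_lit 624) (nat_lit 4591) (.d (nat_lit 590) (nat_lit 558) (nat_lit 5582) (nat_lit 622) (nat_lit 5614)))) (.p (nat_lit 526) (.a (.f (nat_lit 558) (nat_lit 590) (nat_lit 5582) (.f (nat_lit 529) (nat_lit 530) (nat_lit 1550) (.f (nat_lit 560) (nat_lit 592) (nat_lit 4559) (.f (nat_lit 525) (nat_lit 524) (nat_lit 524) (.d (nat_lit 493) (nat_lit 492) (nat_lit 3564) (nat_lit 494) (nat_lit 3565)))))) (.a (.f (nat_lit 558) (nat_lit 590) (nat_lit 5582) (.f (nat_lit 529) (nat_lit 530) (nat_lit 1550) (.f (nat_lit 493) (nat_lit 494) (nat_lit 3565) (.f (nat_lit 525) (nat_lit 492) (nat_lit 3564) (.d (nat_lit 497) (nat_lit 496) (nat_lit 2541) (nat_lit 498) (nat_lit 2542)))))) (.a (.f (nat_lit 560) (nat_lit 592) (nat_lit 4559) (.f (nat_lit 525) (nat_lit 524) (nat_lit 524) (.f (nat_lit 558) (nat_lit 590) (nat_lit 5582) (.f (nat_lit 529) (nat_lit 530) (nat_lit 1550) (.d (nat_lit 497) (nat_lit 496) (nat_lit 2541) (nat_lit 498) (nat_lit 2542)))))) (.a (.f (nat_lit 560) (nat_lit 592) (nat_lit 4559) (.f (nat_lit 525) (nat_lit 524) (nat_lit 524) (.f (nat_lit 496) (nat_lit 497) (nat_lit 2541) (.f (nat_lit 464) (nat_lit 432) (nat_lit 6575) (.f (nat_lit 493) (nat_lit 492) (nat_lit 3564) (.d (nat_lit 465) (nat_lit 433) (nat_lit 6576) (nat_lit 494) (nat_lit 2509))))))) (.f (nat_lit 558) (nat_lit 590) (nat_lit 5582) (.f (nat_lit 529) (nat_lit 530) (nat_lit 1550) (.f (nat_lit 560) (nat_lit 592) (nat_lit 4559) (.f (nat_lit 494) (nat_lit 493) (nat_lit 3565) (.f (nat_lit 497) (nat_lit 498) (nat_lit 2542) (.f (nat_lit 465) (nat_lit 433) (nat_lit 5552) (.d (nat_lit 466) (nat_lit 464) (nat_lit 1486) (nat_lit 496) (nat_lit 2510))))))))))))))))) (.f (nat_lit 431) (nat_lit 560) (nat_lit 4527) (.f (nat_lit 526) (nat_lit 558) (nat_lit 5550) (.f (nat_lit 399) (nat_lit 494) (nat_lit 5518) (.d (nat_lit 400) (nat_lit 368) (nat_lit 6511) (nat_lit 432) (nat_lit 6543)))))))))))))))))))) (.a (.p (nat_lit 527) (.a (.p (nat_lit 529) (.a (.f (nat_lit 530) (nat_lit 494) (nat_lit 3566) (.f (nat_lit 531) (nat_lit 496) (nat_lit 3567) (.d (nat_lit 499) (nat_lit 498) (nat_lit 2543) (nat_lit 500) (nat_lit 2544)))) (.a (.f (nat_lit 530) (nat_lit 494) (nat_lit 3566) (.f (nat_lit 559) (nat_lit 558) (nat_lit 1550) (.f (nat_lit 560) (nat_lit 531) (nat_lit 1551) (.d (nat_lit 463) (nat_lit 431) (nat_lit 4527) (nat_lit 592) (nat_lit 4559))))) (.a s127848 s127849)))) (.a (.p (nat_lit 463) (.a (.f (nat_lit 431) (nat_lit 560) (nat_lit 4527) (.f (nat_lit 526) (nat_lit 558) (nat_lit 5550) (.f (nat_lit 494) (nat_lit 399) (nat_lit 5518) (.d (nat_lit 529) (nat_lit 493) (nat_lit 3565) (nat_lit 530) (nat_lit 3566))))) (.a (.f (nat_lit 431) (nat_lit 560) (nat_lit 4527) (.f (nat_lit 558) (nat_lit 526) (nat_lit 5550) (.f (nat_lit 559) (nat_lit 590) (nat_lit 5582) (.d (nat_lit 430) (nat_lit 398) (nat_lit 7566) (nat_lit 462) (nat_lit 7598))))) (.a (.p (nat_lit 559) (.a (.f (nat_lit 558) (nat_lit 590) (nat_lit 5582) (.f (nat_lit 526) (nat_lit 431) (nat_lit 5550) (.d (nat_lit 529) (nat_lit 530) (nat_lit 1550) (nat_lit 557) (nat_lit 1549)))) (.a (.f (nat_lit 558) (nat_lit 590) (nat_lit 5582) (.f (nat_lit 431) (nat_lit 526) (nat_lit 5550) (.d (nat_lit 430) (nat_lit 398) (nat_lit 7566) (nat_lit 462) (nat_lit 7598)))) (.a (.f (nat_lit 462) (nat_lit 430) (nat_lit 7598) (.f (nat_lit 494) (nat_lit 591) (nat_lit 7630) (.f (nat_lit 493) (nat_lit 492) (nat_lit 492) (.d (nat_lit 529) (nat_lit 526) (nat_lit 3565) (nat_lit 530) (nat_lit 3566))))) (.f (nat_lit 462) (nat_lit 430) (nat_lit 7598) (.f (nat_lit 591) (nat_lit 494) (nat_lit 7630) (.d (nat_lit 590) (nat_lit 558) (nat_lit 5582) (nat_lit 622) (nat_lit 5614)))))))) (.a (.p (nat_lit 559) (.a (.f (nat_lit 462) (nat_lit 430) (nat_lit 7598) (.f (nat_lit 494) (nat_lit 591) (nat_lit 7630) (.f (nat_lit 493) (nat_lit 492) (nat_lit 492) (.d (nat_lit 529) (nat_lit 526) (nat_lit 3565) (nat_lit 530) (nat_lit 3566))))) (.a (.f (nat_lit 558) (nat_lit 590) (nat_lit 5582) (.f (nat_lit 557) (nat_lit 556) (nat_lit 2572) (.d (nat_lit 529) (nat_lit 526) (nat_lit 1549) (nat_lit 530) (nat_lit 1550)))) (.f (nat_lit 462) (nat_lit 430) (nat_lit 7598) (.f (nat_lit 591) (nat_lit 494) (nat_lit 7630) (.d (nat_lit 590) (nat_lit 558) (nat_lit 5582) (nat_lit 622) (nat_lit 5614))))))) (.f (nat_lit 431) (nat_lit 560) (nat_lit 4527) (.f (nat_lit 430) (nat_lit 398) (nat_lit 7566) (.f (nat_lit 432) (nat_lit 400) (nat_lit 6543) (.f (nat_lit 462) (nat_lit 559) (nat_lit 7598) (.d (nat_lit 461) (nat_lit 433) (nat_lit 1453) (nat_lit 460) (nat_lit 2476))))))))))) (.a (.p (nat_lit 529) (.a s127848 (.a (.p (nat_lit 530) (.a (.f (nat_lit 559) (nat_lit 558) (nat_lit 1550) (.f (nat_lit 560) (nat_lit 531) (nat_lit 1551) (.d (nat_lit 463) (nat_lit 431) (nat_lit 4527) (nat_lit 592) (nat_lit 4559)))) (.a (.f (nat_lit 558) (nat_lit 559) (nat_lit 1550) (.f (nat_lit 526) (nat_lit 557) (nat_lit 1549) (.d (nat_lit 498) (nat_lit 497) (nat_lit 2542) (nat_lit 499) (nat_lit 2543)))) (.f (nat_lit 498) (nat_lit 499) (nat_lit 2543) (.f (nat_lit 562) (nat_lit 563) (nat_lit 527) (.f (nat_lit 497) (nat_lit 526) (nat_lit 2542) (.d (nat_lit 465) (nat_lit 433) (nat_lit 4529) (nat_lit 594) (nat_lit 7633)))))))) (.a s127865 (.a s127866 (.a s127874 (.a s127878 (.a (.p (nat_lit 463) (.a (.f (nat_lit 431) (nat_lit 560) (nat_lit 4527) (.f (nat_lit 430) (nat_lit 398) (nat_lit 7566) (.f (nat_lit 432) (nat_lit 400) (nat_lit 6543) (.f (nat_lit 462) (nat_lit 559) (nat_lit 7598) (.d (nat_lit 461) (nat_lit 433) (nat_lit 1453) (nat_lit 460) (nat_lit 2476)))))) (.a (.p (nat_lit 559) (.a (.d (nat_lit 558) (nat_lit 530) (nat_lit 1550) (nat_lit 590) (nat_lit 5582)) (.f (nat_lit 430) (nat_lit 462) (nat_lit 7598) (.f (nat_lit 431) (nat_lit 398) (nat_lit 7566) (.f (nat_lit 400) (nat_lit 432) (nat_lit 6543) (.d (nat_lit 399) (nat_lit 368) (nat_lit 6511) (nat_lit 496) (nat_lit 4495))))))) (.a (.p (nat_lit 559) (.a (.d (nat_lit 558) (nat_lit 530) (nat_lit 1550) (nat_lit 590) (nat_lit 5582)) (.a (.f (nat_lit 560) (nat_lit 592) (nat_lit 4559) (.d (nat_lit 558) (nat_lit 557) (nat_lit 2573) (nat_lit 590) (nat_lit 5582))) (.f (nat_lit 560) (nat_lit 592) (nat_lit 4559) (.f (nat_lit 530) (nat_lit 531) (nat_lit 1551) (.f (nat_lit 498) (nat_lit 499) (nat_lit 2543) (.f (nat_lit 562) (nat_lit 563) (nat_lit 527) (.f (nat_lit 462) (nat_lit 430) (nat_lit 7598) (.f (nat_lit 497) (nat_lit 496) (nat_lit 3534) (.d (nat_lit 465) (nat_lit 433) (nat_lit 4529) (nat_lit 594) (nat_lit 7633))))))))))) (.a (.f (nat_lit 431) (nat_lit 560) (nat_lit 4527) (.f (nat_lit 398) (nat_lit 430) (nat_lit 7566) (.f (nat_lit 399) (nat_lit 366) (nat_lit 7534) (.d (nat_lit 400) (nat_lit 368) (nat_lit 6511) (nat_lit 432) (nat_lit 6543))))) (.f (nat_lit 560) (nat_lit 431) (nat_lit 4527) (.d (nat_lit 592) (nat_lit 496) (nat_lit 7631) (nat_lit 559) (nat_lit 4559)))))))) (.p (nat_lit 463) (.a (.f (nat_lit 431) (nat_lit 560) (nat_lit 4527) (.f (nat_lit 558) (nat_lit 526) (nat_lit 5550) (.d (nat_lit 559) (nat_lit 530) (nat_lit 1550) (nat_lit 590) (nat_lit 5582)))) (.a (.p (nat_lit 559) (.a (.d (nat_lit 558) (nat_lit 530) (nat_lit 1550) (nat_lit 590) (nat_lit 5582)) (.f (nat_lit 430) (nat_lit 462) (nat_lit 7598) (.f (nat_lit 431) (nat_lit 398) (nat_lit 7566) (.f (nat_lit 400) (nat_lit 432) (nat_lit 6543) (.d (nat_lit 399) (nat_lit 368) (nat_lit 6511) (nat_lit 496) (nat_lit 4495))))))) (.a (.p (nat_lit 559) (.a (.d (nat_lit 558) (nat_lit 530) (nat_lit 1550) (nat_lit 590) (nat_lit 5582)) (.a (.f (nat_lit 592) (nat_lit 560) (nat_lit 4559) (.f (nat_lit 591) (nat_lit 624) (nat_lit 4591) (.f (nat_lit 622) (nat_lit 590) (nat_lit 5614) (.d (nat_lit 623) (nat_lit 496) (nat_lit 6639) (nat_lit 654) (nat_lit 5646))))) (.f (nat_lit 560) (nat_lit 592) (nat_lit 4559) (.d (nat_lit 558) (nat_lit 530) (nat_lit 1550) (nat_lit 557) (nat_lit 2573)))))) (.f (nat_lit 431) (nat_lit 560) (nat_lit 4527) (.f (nat_lit 398) (nat_lit 430) (nat_lit 7566) (.f (nat_lit 399) (nat_lit 366) (nat_lit 7534) (.d (nat_lit 400) (nat_lit 368) (nat_lit 6511) (nat_lit 432) (nat_lit 6543))))))))))))))))) (.a (.p (nat_lit 529) (.a (.f (nat_lit 530) (nat_lit 494) (nat_lit 3566) (.f (nat_lit 531) (nat_lit 496) (nat_lit 3567) (.d (nat_lit 499) (nat_lit 498) (nat_lit 2543) (nat_lit 500) (nat_lit 2544)))) (.a (.f (nat_lit 530) (nat_lit 494) (nat_lit 3566) (.f (nat_lit 558) (nat_lit 559) (nat_lit 1550) (.f (nat_lit 526) (nat_lit 557) (nat_lit 1549) (.d (nat_lit 498) (nat_lit 497) (nat_lit 2542) (nat_lit 499) (nat_lit 2543))))) (.a s127865 (.a s127849 (.f (nat_lit 530) (nat_lit 494) (nat_lit 3566) (.f (nat_lit 531) (nat_lit 496) (nat_lit 3567) (.d (nat_lit 563) (nat_lit 562) (nat_lit 527) (nat_lit 564) (nat_lit 528))))))))) (.a (.p (nat_lit 529) (.a (.f (nat_lit 530) (nat_lit 494) (nat_lit 3566) (.f (nat_lit 531) (nat_lit 496) (nat_lit 3567) (.d (nat_lit 499) (nat_lit 498) (nat_lit 2543) (nat_lit 500) (nat_lit 2544)))) (.a (.f (nat_lit 530) (nat_lit 494) (nat_lit 3566) (.f (nat_lit 558) (nat_lit 559) (nat_lit 1550) (.f (nat_lit 526) (nat_lit 557) (nat_lit 1549) (.d (nat_lit 498) (nat_lit 497) (nat_lit 2542) (nat_lit 499) (nat_lit 2543))))) (.a s127866 (.a (.p (nat_lit 526) (.a (.f (nat_lit 497) (nat_lit 498) (nat_lit 2542) (.f (nat_lit 525) (nat_lit 496) (nat_lit 2541) (.d (nat_lit 557) (nat_lit 556) (nat_lit 1548) (nat_lit 558) (nat_lit 1549)))) (.a (.f (nat_lit 494) (nat_lit 493) (nat_lit 3565) (.f (nat_lit 558) (nat_lit 557) (nat_lit 1549) (.f (nat_lit 590) (nat_lit 622) (nat_lit 6638) (.f (nat_lit 591) (nat_lit 623) (nat_lit 4590) (.f (nat_lit 462) (nat_lit 559) (nat_lit 4558) (.f (nat_lit 430) (nat_lit 398) (nat_lit 4494) (.d (nat_lit 429) (nat_lit 397) (nat_lit 7565) (nat_lit 461) (nat_lit 7597)))))))) (.a (.f (nat_lit 497) (nat_lit 498) (nat_lit 2542) (.f (nat_lit 525) (nat_lit 496) (nat_lit 2541) (.f (nat_lit 492) (nat_lit 493) (nat_lit 3564) (.f (nat_lit 524) (nat_lit 491) (nat_lit 3563) (.d (nat_lit 556) (nat_lit 555) (nat_lit 1547) (nat_lit 557) (nat_lit 1548)))))) (.f (nat_lit 494) (nat_lit 493) (nat_lit 3565) (.f (nat_lit 497) (nat_lit 498) (nat_lit 2542) (.f (nat_lit 496) (nat_lit 525) (nat_lit 2541) (.f (nat_lit 462) (nat_lit 461) (nat_lit 3533) (.d (nat_lit 430) (nat_lit 398) (nat_lit 4494) (nat_lit 559) (nat_lit 4526)))))))))) (.f (nat_lit 530) (nat_lit 494) (nat_lit 3566) (.f (nat_lit 531) (nat_lit 496) (nat_lit 3567) (.d (nat_lit 563) (nat_lit 562) (nat_lit 527) (nat_lit 564) (nat_lit 528))))))))) (.a (.p (nat_lit 463) (.a (.f (nat_lit 431) (nat_lit 560) (nat_lit 4527) (.f (nat_lit 558) (nat_lit 526) (nat_lit 5550) (.f (nat_lit 559) (nat_lit 590) (nat_lit 5582) (.d (nat_lit 430) (nat_lit 398) (nat_lit 7566) (nat_lit 462) (nat_lit 7598))))) (.a s127919 (.a (.p (nat_lit 559) (.a (.f (nat_lit 462) (nat_lit 430) (nat_lit 7598) (.f (nat_lit 591) (nat_lit 494) (nat_lit 7630) (.d (nat_lit 590) (nat_lit 558) (nat_lit 5582) (nat_lit 622) (nat_lit 5614)))) (.a (.f (nat_lit 592) (nat_lit 560) (nat_lit 4559) (.f (nat_lit 591) (nat_lit 624) (nat_lit 4591) (.d (nat_lit 590) (nat_lit 558) (nat_lit 5582) (nat_lit 622) (nat_lit 5614)))) (.a (.f (nat_lit 462) (nat_lit 430) (nat_lit 7598) (.f (nat_lit 591) (nat_lit 494) (nat_lit 7630) (.f (nat_lit 623) (nat_lit 496) (nat_lit 6639) (.d (nat_lit 622) (nat_lit 590) (nat_lit 5614) (nat_lit 654) (nat_lit 5646))))) (.a (.f (nat_lit 560) (nat_lit 592) (nat_lit 4559) (.f (nat_lit 558) (nat_lit 590) (nat_lit 5582) (.f (nat_lit 557) (nat_lit 556) (nat_lit 2572) (.f (nat_lit 525) (nat_lit 524) (nat_lit 3596) (.f (nat_lit 462) (nat_lit 430) (nat_lit 7598) (.f (nat_lit 589) (nat_lit 588) (nat_lit 1580) (.d (nat_lit 494) (nat_lit 493) (nat_lit 6605) (nat_lit 526) (nat_lit 5581)))))))) (.f (nat_lit 592) (nat_lit 560) (nat_lit 4559) (.f (nat_lit 591) (nat_lit 624) (nat_lit 4591) (.d (nat_lit 462) (nat_lit 430) (nat_lit 7598) (nat_lit 494) (nat_lit 7630))))))))) (.a (.f (nat_lit 431) (nat_lit 560) (nat_lit 4527) (.f (nat_lit 399) (nat_lit 496) (nat_lit 4495) (.d (nat_lit 526) (nat_lit 494) (nat_lit 5518) (nat_lit 558) (nat_lit 5550)))) (.f (nat_lit 431) (nat_lit 560) (nat_lit 4527) (.f (nat_lit 430) (nat_lit 398) (nat_lit 7566) (.f (nat_lit 432) (nat_lit 400) (nat_lit 6543) (.f (nat_lit 462) (nat_lit 559) (nat_lit 7598) (.d (nat_lit 461) (nat_lit 433) (nat_lit 1453) (nat_lit 460) (nat_lit 2476))))))))))) (.a (.p (nat_lit 529) (.a (.f (nat_lit 530) (nat_lit 494) (nat_lit 3566) (.f (nat_lit 531) (nat_lit 496) (nat_lit 3567) (.d (nat_lit 499) (nat_lit 498) (nat_lit 2543) (nat_lit 500) (nat_lit 2544)))) (.a (.f (nat_lit 530) (nat_lit 494) (nat_lit 3566) (.f (nat_lit 498) (nat_lit 499) (nat_lit 2543) (.f (nat_lit 562) (nat_lit 563) (nat_lit 527) (.f (nat_lit 497) (nat_lit 526) (nat_lit 2542) (.d (nat_lit 465) (nat_lit 433) (nat_lit 4529) (nat_lit 594) (nat_lit 7633)))))) (.a s127878 (.a (.p (nat_lit 526) (.a (.f (nat_lit 497) (nat_lit 498) (nat_lit 2542) (.f (nat_lit 525) (nat_lit 496) (nat_lit 2541) (.d (nat_lit 557) (nat_lit 556) (nat_lit 1548) (nat_lit 558) (nat_lit 1549)))) (.a (.f (nat_lit 558) (nat_lit 557) (nat_lit 1549) (.f (nat_lit 494) (nat_lit 493) (nat_lit 3565) (.d (nat_lit 463) (nat_lit 431) (nat_lit 5550) (nat_lit 590) (nat_lit 6606)))) (.a (.f (nat_lit 497) (nat_lit 498) (nat_lit 2542) (.f (nat_lit 525) (nat_lit 496) (nat_lit 2541) (.f (nat_lit 492) (nat_lit 493) (nat_lit 3564) (.f (nat_lit 524) (nat_lit 491) (nat_lit 3563) (.d (nat_lit 556) (nat_lit 555) (nat_lit 1547) (nat_lit 557) (nat_lit 1548)))))) (.f (nat_lit 494) (nat_lit 493) (nat_lit 3565) (.f (nat_lit 497) (nat_lit 498) (nat_lit 2542) (.f (nat_lit 496) (nat_lit 525) (nat_lit 2541) (.f (nat_lit 465) (nat_lit 466) (nat_lit 2510) (.d (nat_lit 433) (nat_lit 401) (nat_lit 5520) (nat_lit 560) (nat_lit 5552)))))))))) (.f (nat_lit 530) (nat_lit 494) (nat_lit 3566) (.f (nat_lit 531) (nat_lit 496) (nat_lit 3567) (.d (nat_lit 563) (nat_lit 562) (nat_lit 527) (nat_lit 564) (nat_lit 528))))))))) (.a (.p (nat_lit 463) (.a (.f (nat_lit 431) (nat_lit 560) (nat_lit 4527) (.f (nat_lit 558) (nat_lit 526) (nat_lit 5550) (.f (nat_lit 559) (nat_lit 590) (nat_lit 5582) (.d (nat_lit 430) (nat_lit 398) (nat_lit 7566) (nat_lit 462) (nat_lit 7598))))) (.a s127919 (.a (.p (nat_lit 559) (.a (.f (nat_lit 462) (nat_lit 430) (nat_lit 7598) (.f (nat_lit 591) (nat_lit 494) (nat_lit 7630) (.d (nat_lit 590) (nat_lit 558) (nat_lit 5582) (nat_lit 622) (nat_lit 5614)))) (.a (.f (nat_lit 558) (nat_lit 590) (nat_lit 5582) (.f (nat_lit 557) (nat_lit 556) (nat_lit 2572) (.d (nat_lit 529) (nat_lit 526) (nat_lit 1549) (nat_lit 530) (nat_lit 1550)))) (.a (.f (nat_lit 462) (nat_lit 430) (nat_lit 7598) (.f (nat_lit 591) (nat_lit 494) (nat_lit 7630) (.f (nat_lit 623) (nat_lit 496) (nat_lit 6639) (.d (nat_lit 622) (nat_lit 590) (nat_lit 5614) (nat_lit 654) (nat_lit 5646))))) (.f (nat_lit 592) (nat_lit 560) (nat_lit 4559) (.f (nat_lit 591) (nat_lit 624) (nat_lit 4591) (.d (nat_lit 462) (nat_lit 430) (nat_lit 7598) (nat_lit 494) (nat_lit 7630)))))))) (.a (.f (nat_lit 431) (nat_lit 560) (nat_lit 4527) (.f (nat_lit 399) (nat_lit 496) (nat_lit 4495) (.d (nat_lit 526) (nat_lit 494) (nat_lit 5518) (nat_lit 558) (nat_lit 5550)))) (.f (nat_lit 431) (nat_lit 560) (nat_lit 4527) (.f (nat_lit 430) (nat_lit 398) (nat_lit 7566) (.f (nat_lit 432) (nat_lit 400) (nat_lit 6543) (.f (nat_lit 462) (nat_lit 559) (nat_lit 7598) (.d (nat_lit 461) (nat_lit 433) (nat_lit 1453) (nat_lit 460) (nat_lit 2476))))))))))) (.a (.p (nat_lit 463) (.a (.f (nat_lit 431) (nat_lit 560) (nat_lit 4527) (.f (nat_lit 430) (nat_lit 398) (nat_lit 7566) (.f (nat_lit 432) (nat_lit 400) (nat_lit 6543) (.f (nat_lit 462) (nat_lit 559) (nat_lit 7598) (.d (nat_lit 461) (nat_lit 433) (nat_lit 1453) (nat_lit 460) (nat_lit 2476)))))) (.a (.p (nat_lit 559) (.a (.f (nat_lit 462) (nat_lit 430) (nat_lit 7598) (.f (nat_lit 591) (nat_lit 494) (nat_lit 7630) (.d (nat_lit 590) (nat_lit 558) (nat_lit 5582) (nat_lit 622) (nat_lit 5614)))) (.a (.f (nat_lit 430) (nat_lit 462) (nat_lit 7598) (.f (nat_lit 431) (nat_lit 398) (nat_lit 7566) (.f (nat_lit 400) (nat_lit 432) (nat_lit 6543) (.d (nat_lit 399) (nat_lit 368) (nat_lit 6511) (nat_lit 496) (nat_lit 4495))))) (.f (nat_lit 590) (nat_lit 558) (nat_lit 5582) (.f (nat_lit 591) (nat_lit 622) (nat_lit 5614) (.f (nat_lit 624) (nat_lit 592) (nat_lit 4591) (.d (nat_lit 623) (nat_lit 496) (nat_lit 6639) (nat_lit 656) (nat_lit 4623)))))))) (.a (.p (nat_lit 559) (.a (.f (nat_lit 462) (nat_lit 430) (nat_lit 7598) (.f (nat_lit 591) (nat_lit 494) (nat_lit 7630) (.d (nat_lit 590) (nat_lit 558) (nat_lit 5582) (nat_lit 622) (nat_lit 5614)))) (.a (.f (nat_lit 592) (nat_lit 560) (nat_lit 4559) (.f (nat_lit 591) (nat_lit 624) (nat_lit 4591) (.d (nat_lit 590) (nat_lit 558) (nat_lit 5582) (nat_lit 622) (nat_lit 5614)))) (.a (.f (nat_lit 462) (nat_lit 430) (nat_lit 7598) (.f (nat_lit 591) (nat_lit 494) (nat_lit 7630) (.f (nat_lit 623) (nat_lit 496) (nat_lit 6639) (.d (nat_lit 622) (nat_lit 590) (nat_lit 5614) (nat_lit 654) (nat_lit 5646))))) (.a (.f (nat_lit 560) (nat_lit 592) (nat_lit 4559) (.f (nat_lit 558) (nat_lit 590) (nat_lit 5582) (.d (nat_lit 529) (nat_lit 530) (nat_lit 1550) (nat_lit 557) (nat_lit 2573)))) (.f (nat_lit 592) (nat_lit 560) (nat_lit 4559) (.f (nat_lit 591) (nat_lit 624) (nat_lit 4591) (.d (nat_lit 462) (nat_lit 430) (nat_lit 7598) (nat_lit 494) (nat_lit 7630))))))))) (.f (nat_lit 431) (nat_lit 560) (nat_lit 4527) (.f (nat_lit 399) (nat_lit 496) (nat_lit 4495) (.d (nat_lit 400) (nat_lit 368) (nat_lit 6511) (nat_lit 432) (nat_lit 6543)))))))) (.a (.p (nat_lit 529) (.a (.f (nat_lit 530) (nat_lit 494) (nat_lit 3566) (.f (nat_lit 531) (nat_lit 496) (nat_lit 3567) (.d (nat_lit 499) (nat_lit 498) (nat_lit 2543) (nat_lit 500) (nat_lit 2544)))) (.a (.f (nat_lit 530) (nat_lit 494) (nat_lit 3566) (.f (nat_lit 498) (nat_lit 499) (nat_lit 2543) (.f (nat_lit 562) (nat_lit 563) (nat_lit 527) (.f (nat_lit 497) (nat_lit 526) (nat_lit 2542) (.d (nat_lit 465) (nat_lit 433) (nat_lit 4529) (nat_lit 594) (nat_lit 7633)))))) (.a s127878 (.a (.p (nat_lit 526) (.a (.f (nat_lit 497) (nat_lit 498) (nat_lit 2542) (.f (nat_lit 525) (nat_lit 496) (nat_lit 2541) (.f (nat_lit 492) (nat_lit 493) (nat_lit 3564) (.f (nat_lit 524) (nat_lit 491) (nat_lit 3563) (.d (nat_lit 556) (nat_lit 555) (nat_lit 1547) (nat_lit 557) (nat_lit 1548)))))) (.a s127950 (.a (.f (nat_lit 497) (nat_lit 498) (nat_lit 2542) (.f (nat_lit 525) (nat_lit 496) (nat_lit 2541) (.f (nat_lit 556) (nat_lit 557) (nat_lit 1548) (.f (nat_lit 524) (nat_lit 555) (nat_lit 1547) (.f (nat_lit 491) (nat_lit 492) (nat_lit 3563) (.d (nat_lit 523) (nat_lit 490) (nat_lit 3562) (nat_lit 494) (nat_lit 2539))))))) (.p (nat_lit 560) (.a (.f (nat_lit 592) (nat_lit 624) (nat_lit 7663) (.d (nat_lit 463) (nat_lit 431) (nat_lit 4527) (nat_lit 559) (nat_lit 4559))) (.a (.f (nat_lit 497) (nat_lit 498) (nat_lit 2542) (.f (nat_lit 592) (nat_lit 624) (nat_lit 6640) (.d (nat_lit 465) (nat_lit 433) (nat_lit 5552) (nat_lit 496) (nat_lit 6608)))) (.f (nat_lit 494) (nat_lit 493) (nat_lit 3565) (.f (nat_lit 497) (nat_lit 498) (nat_lit 2542) (.f (nat_lit 465) (nat_lit 433) (nat_lit 5552) (.f (nat_lit 496) (nat_lit 466) (nat_lit 2510) (.f (nat_lit 462) (nat_lit 461) (nat_lit 3533) (.d (nat_lit 430) (nat_lit 398) (nat_lit 4494) (nat_lit 559) (nat_lit 4526)))))))))))))) (.f (nat_lit 530) (nat_lit 494) (nat_lit 3566) (.f (nat_lit 531) (nat_lit 496) (nat_lit 3567) (.d (nat_lit 563) (nat_lit 562) (nat_lit 527) (nat_lit 564) (nat_lit 528))))))))) (.a (.p (nat_lit 529) (.a (.f (nat_lit 530) (nat_lit 494) (nat_lit 3566) (.f (nat_lit 531) (nat_lit 496) (nat_lit 3567) (.d (nat_lit 499) (nat_lit 498) (nat_lit 2543) (nat_lit 500) (nat_lit 2544)))) (.a (.f (nat_lit 530) (nat_lit 494) (nat_lit 3566) (.f (nat_lit 559) (nat_lit 558) (nat_lit 1550) (.f (nat_lit 560) (nat_lit 531) (nat_lit 1551) (.d (nat_lit 463) (nat_lit 431) (nat_lit 4527) (nat_lit 592) (nat_lit 4559))))) (.a s127848 s127874)))) (.p (nat_lit 529) (.a (.f (nat_lit 530) (nat_lit 494) (nat_lit 3566) (.f (nat_lit 531) (nat_lit 496) (nat_lit 3567) (.d (nat_lit 499) (nat_lit 498) (nat_lit 2543) (nat_lit 500) (nat_lit 2544)))) (.a (.f (nat_lit 530) (nat_lit 494) (nat_lit 3566) (.f (nat_lit 559) (nat_lit 558) (nat_lit 1550) (.f (nat_lit 560) (nat_lit 531) (nat_lit 1551) (.d (nat_lit 463) (nat_lit 431) (nat_lit 4527) (nat_lit 592) (nat_lit 4559))))) (.a s127878 (.p (nat_lit 559) (.a (.p (nat_lit 463) (.a (.f (nat_lit 430) (nat_lit 462) (nat_lit 7598) (.f (nat_lit 431) (nat_lit 398) (nat_lit 7566) (.f (nat_lit 400) (nat_lit 432) (nat_lit 6543) (.d (nat_lit 399) (nat_lit 368) (nat_lit 6511) (nat_lit 496) (nat_lit 4495))))) (.a (.d (nat_lit 560) (nat_lit 431) (nat_lit 4527) (nat_lit 592) (nat_lit 4559)) (.f (nat_lit 592) (nat_lit 560) (nat_lit 4559) (.f (nat_lit 591) (nat_lit 624) (nat_lit 4591) (.f (nat_lit 622) (nat_lit 590) (nat_lit 5614) (.d (nat_lit 623) (nat_lit 496) (nat_lit 6639) (nat_lit 654) (nat_lit 5646)))))))) (.a (.p (nat_lit 463) (.a (.d (nat_lit 560) (nat_lit 431) (nat_lit 4527) (nat_lit 592) (nat_lit 4559)) (.f (nat_lit 462) (nat_lit 430) (nat_lit 7598) (.f (nat_lit 494) (nat_lit 591) (nat_lit 7630) (.d (nat_lit 493) (nat_lit 492) (nat_lit 492) (nat_lit 526) (nat_lit 3565)))))) (.a (.p (nat_lit 463) (.a (.f (nat_lit 430) (nat_lit 462) (nat_lit 7598) (.f (nat_lit 431) (nat_lit 398) (nat_lit 7566) (.f (nat_lit 400) (nat_lit 432) (nat_lit 6543) (.d (nat_lit 399) (nat_lit 368) (nat_lit 6511) (nat_lit 496) (nat_lit 4495))))) (.a (.f (nat_lit 462) (nat_lit 430) (nat_lit 7598) (.f (nat_lit 494) (nat_lit 591) (nat_lit 7630) (.d (nat_lit 493) (nat_lit 492) (nat_lit 492) (nat_lit 526) (nat_lit 3565)))) (.f (nat_lit 558) (nat_lit 590) (nat_lit 5582) (.f (nat_lit 526) (nat_lit 431) (nat_lit 5550) (.f (nat_lit 493) (nat_lit 494) (nat_lit 3565) (.f (nat_lit 525) (nat_lit 492) (nat_lit 3564) (.d (nat_lit 497) (nat_lit 496) (nat_lit 2541) (nat_lit 498) (nat_lit 2542))))))))) (.a (.p (nat_lit 494) (.a (.d (nat_lit 493) (nat_lit 492) (nat_lit 492) (nat_lit 496) (nat_lit 493)) (.a (.d (nat_lit 493) (nat_lit 492) (nat_lit 492) (nat_lit 526) (nat_lit 3565)) (.f (nat_lit 591) (nat_lit 462) (nat_lit 7630) (.d (nat_lit 623) (nat_lit 496) (nat_lit 6639) (nat_lit 526) (nat_lit 7662)))))) (.a (.p (nat_lit 526) (.a (.f (nat_lit 494) (nat_lit 493) (nat_lit 3565) (.f (nat_lit 497) (nat_lit 498) (nat_lit 2542) (.f (nat_lit 496) (nat_lit 525) (nat_lit 2541) (.d (nat_lit 462) (nat_lit 430) (nat_lit 4526) (nat_lit 461) (nat_lit 3533))))) (.a (.f (nat_lit 493) (nat_lit 494) (nat_lit 3565) (.f (nat_lit 525) (nat_lit 492) (nat_lit 3564) (.f (nat_lit 560) (nat_lit 524) (nat_lit 524) (.d (nat_lit 463) (nat_lit 431) (nat_lit 4527) (nat_lit 592) (nat_lit 4559))))) (.a (.f (nat_lit 497) (nat_lit 498) (nat_lit 2542) (.f (nat_lit 525) (nat_lit 496) (nat_lit 2541) (.f (nat_lit 560) (nat_lit 524) (nat_lit 524) (.d (nat_lit 463) (nat_lit 431) (nat_lit 4527) (nat_lit 592) (nat_lit 4559))))) (.f (nat_lit 494) (nat_lit 493) (nat_lit 3565) (.f (nat_lit 462) (nat_lit 430) (nat_lit 4526) (.f (nat_lit 497) (nat_lit 498) (nat_lit 2542) (.f (nat_lit 496) (nat_lit 461) (nat_lit 3533) (.f (nat_lit 465) (nat_lit 466) (nat_lit 2510) (.d (nat_lit 433) (nat_lit 401) (nat_lit 5520) (nat_lit 560) (nat_lit 5552))))))))))) (.p (nat_lit 463) (.a (.f (nat_lit 592) (nat_lit 560) (nat_lit 4559) (.f (nat_lit 591) (nat_lit 624) (nat_lit 4591) (.f (nat_lit 622) (nat_lit 590) (nat_lit 5614) (.d (nat_lit 623) (nat_lit 496) (nat_lit 6639) (nat_lit 654) (nat_lit 5646))))) (.a (.d (nat_lit 560) (nat_lit 431) (nat_lit 4527) (nat_lit 592) (nat_lit 4559)) (.f (nat_lit 558) (nat_lit 590) (nat_lit 5582) (.f (nat_lit 526) (nat_lit 431) (nat_lit 5550) (.f (nat_lit 493) (nat_lit 494) (nat_lit 3565) (.f (nat_lit 525) (nat_lit 492) (nat_lit 3564) (.d (nat_lit 497) (nat_lit 496) (nat_lit 2541) (nat_lit 498) (nat_lit 2542))))))))))))))))))))))))))))))) (.a (.p (nat_lit 463) (.a (.p (nat_lit 431) (.a (.f (nat_lit 527) (nat_lit 560) (nat_lit 4527) (.f (nat_lit 399) (nat_lit 496) (nat_lit 4495) (.d (nat_lit 400) (nat_lit 368) (nat_lit 6511) (nat_lit 432) (nat_lit 6543)))) (.a (.f (nat_lit 399) (nat_lit 496) (nat_lit 4495) (.f (nat_lit 400) (nat_lit 368) (nat_lit 6511) (.f (nat_lit 398) (nat_lit 366) (nat_lit 7534) (.d (nat_lit 527) (nat_lit 430) (nat_lit 7566) (nat_lit 432) (nat_lit 6543))))) (.a (.f (nat_lit 527) (nat_lit 560) (nat_lit 4527) (.f (nat_lit 526) (nat_lit 558) (nat_lit 5550) (.f (nat_lit 494) (nat_lit 399) (nat_lit 5518) (.f (nat_lit 430) (nat_lit 398) (nat_lit 7566) (.f (nat_lit 462) (nat_lit 559) (nat_lit 4526) (.f (nat_lit 432) (nat_lit 400) (nat_lit 6543) (.d (nat_lit 461) (nat_lit 433) (nat_lit 1453) (nat_lit 460) (nat_lit 2476)))))))) (.a (.f (nat_lit 399) (nat_lit 496) (nat_lit 4495) (.f (nat_lit 494) (nat_lit 526) (nat_lit 5518) (.f (nat_lit 367) (nat_lit 462) (nat_lit 5486) (.d (nat_lit 368) (nat_lit 336) (nat_lit 6479) (nat_lit 400) (nat_lit 6511))))) (.a (.f (nat_lit 527) (nat_lit 560) (nat_lit 4527) (.f (nat_lit 432) (nat_lit 400) (nat_lit 6543) (.f (nat_lit 559) (nat_lit 464) (nat_lit 6575) (.d (nat_lit 430) (nat_lit 398) (nat_lit 7566) (nat_lit 462) (nat_lit 7598))))) (.f (nat_lit 527) (nat_lit 560) (nat_lit 4527) (.f (nat_lit 496) (nat_lit 399) (nat_lit 4495) (.f (nat_lit 526) (nat_lit 558) (nat_lit 5550) (.d (nat_lit 525) (nat_lit 497) (nat_lit 2541) (nat_lit 524) (nat_lit 2540))))))))))) (.a (.p (nat_lit 496) (.a (.p (nat_lit 527) (.a (.f (nat_lit 431) (nat_lit 399) (nat_lit 4495) (.f (nat_lit 526) (nat_lit 558) (nat_lit 5550) (.d (nat_lit 525) (nat_lit 497) (nat_lit 2541) (nat_lit 524) (nat_lit 2540)))) (.a (.p (nat_lit 559) (.a (.d (nat_lit 464) (nat_lit 432) (nat_lit 6575) (nat_lit 591) (nat_lit 6607)) (.a (.f (nat_lit 462) (nat_lit 430) (nat_lit 7598) (.d (nat_lit 591) (nat_lit 494) (nat_lit 7630) (nat_lit 623) (nat_lit 6639))) (.f (nat_lit 464) (nat_lit 432) (nat_lit 6575) (.f (nat_lit 462) (nat_lit 430) (nat_lit 7598) (.d (nat_lit 461) (nat_lit 460) (nat_lit 460) (nat_lit 497) (nat_lit 461))))))) (.f (nat_lit 431) (nat_lit 399) (nat_lit 4495) (.f (nat_lit 432) (nat_lit 400) (nat_lit 6543) (.f (nat_lit 559) (nat_lit 464) (nat_lit 6575) (.d (nat_lit 430) (nat_lit 398) (nat_lit 7566) (nat_lit 462) (nat_lit 7598)))))))) (.a (.p (nat_lit 497) (.a (.f (nat_lit 498) (nat_lit 462) (nat_lit 3534) (.d (nat_lit 527) (nat_lit 499) (nat_lit 1519) (nat_lit 526) (nat_lit 1518))) (.a (.p (nat_lit 494) (.a (.f (nat_lit 462) (nat_lit 461) (nat_lit 3533) (.f (nat_lit 526) (nat_lit 525) (nat_lit 1517) (.f (nat_lit 558) (nat_lit 590) (nat_lit 6606) (.f (nat_lit 559) (nat_lit 591) (nat_lit 4558) (.f (nat_lit 527) (nat_lit 430) (nat_lit 4526) (.d (nat_lit 557) (nat_lit 556) (nat_lit 2572) (nat_lit 589) (nat_lit 5581))))))) (.a (.f (nat_lit 529) (nat_lit 530) (nat_lit 494) (.f (nat_lit 465) (nat_lit 466) (nat_lit 2510) (.f (nat_lit 433) (nat_lit 401) (nat_lit 5520) (.f (nat_lit 432) (nat_lit 400) (nat_lit 7568) (.f (nat_lit 526) (nat_lit 525) (nat_lit 1517) (.f (nat_lit 558) (nat_lit 590) (nat_lit 6606) (.f (nat_lit 527) (nat_lit 557) (nat_lit 1549) (.f (nat_lit 464) (nat_lit 559) (nat_lit 5551) (.d (nat_lit 434) (nat_lit 402) (nat_lit 6545) (nat_lit 435) (nat_lit 1455)))))))))) (.f (nat_lit 465) (nat_lit 466) (nat_lit 2510) (.f (nat_lit 462) (nat_lit 461) (nat_lit 3533) (.f (nat_lit 433) (nat_lit 401) (nat_lit 5520) (.f (nat_lit 529) (nat_lit 530) (nat_lit 494) (.d (nat_lit 434) (nat_lit 402) (nat_lit 6545) (nat_lit 464) (nat_lit 2478))))))))) (.a (.f (nat_lit 498) (nat_lit 462) (nat_lit 3534) (.f (nat_lit 499) (nat_lit 464) (nat_lit 3535) (.d (nat_lit 531) (nat_lit 530) (nat_lit 495) (nat_lit 532) (nat_lit 496)))) (.p (nat_lit 498) (.a (.d (nat_lit 527) (nat_lit 499) (nat_lit 1519) (nat_lit 526) (nat_lit 1518)) (.a (.f (nat_lit 499) (nat_lit 464) (nat_lit 3535) (.d (nat_lit 531) (nat_lit 530) (nat_lit 495) (nat_lit 532) (nat_lit 496))) (.f (nat_lit 527) (nat_lit 526) (nat_lit 1518) (.f (nat_lit 530) (nat_lit 531) (nat_lit 495) (.f (nat_lit 529) (nat_lit 494) (nat_lit 494) (.f (nat_lit 559) (nat_lit 558) (nat_lit 1550) (.d (nat_lit 464) (nat_lit 432) (nat_lit 5551) (nat_lit 591) (nat_lit 6607))))))))))))) (.a s134323 (.a (.p (nat_lit 527) (.a (.f (nat_lit 431) (nat_lit 399) (nat_lit 4495) (.f (nat_lit 432) (nat_lit 400) (nat_lit 6543) (.f (nat_lit 559) (nat_lit 464) (nat_lit 6575) (.d (nat_lit 430) (nat_lit 398) (nat_lit 7566) (nat_lit 462) (nat_lit 7598))))) (.a (.p (nat_lit 559) (.a (.d (nat_lit 464) (nat_lit 432) (nat_lit 6575) (nat_lit 591) (nat_lit 6607)) (.a (.f (nat_lit 462) (nat_lit 430) (nat_lit 7598) (.d (nat_lit 591) (nat_lit 494) (nat_lit 7630) (nat_lit 623) (nat_lit 6639))) (.f (nat_lit 558) (nat_lit 590) (nat_lit 5582) (.f (nat_lit 529) (nat_lit 530) (nat_lit 1550) (.d (nat_lit 557) (nat_lit 526) (nat_lit 1549) (nat_lit 556) (nat_lit 2572))))))) (.a (.f (nat_lit 431) (nat_lit 399) (nat_lit 4495) (.f (nat_lit 432) (nat_lit 400) (nat_lit 6543) (.f (nat_lit 430) (nat_lit 398) (nat_lit 7566) (.f (nat_lit 526) (nat_lit 558) (nat_lit 5550) (.f (nat_lit 525) (nat_lit 524) (nat_lit 2540) (.f (nat_lit 557) (nat_lit 556) (nat_lit 1548) (.f (nat_lit 462) (nat_lit 494) (nat_lit 5549) (.d (nat_lit 461) (nat_lit 433) (nat_lit 1453) (nat_lit 460) (nat_lit 460))))))))) (.f (nat_lit 431) (nat_lit 399) (nat_lit 4495) (.f (nat_lit 558) (nat_lit 526) (nat_lit 5550) (.f (nat_lit 559) (nat_lit 590) (nat_lit 5582) (.d (nat_lit 591) (nat_lit 464) (nat_lit 6607) (nat_lit 623) (nat_lit 6639))))))))) (.a (.p (nat_lit 527) (.a (.f (nat_lit 431) (nat_lit 399) (nat_lit 4495) (.f (nat_lit 526) (nat_lit 558) (nat_lit 5550) (.d (nat_lit 525) (nat_lit 497) (nat_lit 2541) (nat_lit 524) (nat_lit 2540)))) (.a (.p (nat_lit 559) (.a (.d (nat_lit 464) (nat_lit 432) (nat_lit 6575) (nat_lit 591) (nat_lit 6607)) (.f (nat_lit 558) (nat_lit 590) (nat_lit 5582) (.f (nat_lit 529) (nat_lit 530) (nat_lit 1550) (.d (nat_lit 557) (nat_lit 526) (nat_lit 1549) (nat_lit 556) (nat_lit 2572)))))) (.f (nat_lit 431) (nat_lit 399) (nat_lit 4495) (.f (nat_lit 432) (nat_lit 400) (nat_lit 6543) (.f (nat_lit 464) (nat_lit 559) (nat_lit 6575) (.f (nat_lit 430) (nat_lit 398) (nat_lit 7566) (.d (nat_lit 429) (nat_lit 428) (nat_lit 428) (nat_lit 465) (nat_lit 429))))))))) (.a (.p (nat_lit 527) (.a (.f (nat_lit 431) (nat_lit 399) (nat_lit 4495) (.f (nat_lit 526) (nat_lit 558) (nat_lit 5550) (.d (nat_lit 525) (nat_lit 497) (nat_lit 2541) (nat_lit 524) (nat_lit 2540)))) (.a (.p (nat_lit 559) (.a (.f (nat_lit 462) (nat_lit 430) (nat_lit 7598) (.d (nat_lit 591) (nat_lit 494) (nat_lit 7630) (nat_lit 623) (nat_lit 6639))) (.f (nat_lit 558) (nat_lit 590) (nat_lit 5582) (.f (nat_lit 529) (nat_lit 530) (nat_lit 1550) (.d (nat_lit 557) (nat_lit 526) (nat_lit 1549) (nat_lit 556) (nat_lit 2572)))))) (.f (nat_lit 431) (nat_lit 399) (nat_lit 4495) (.f (nat_lit 430) (nat_lit 398) (nat_lit 7566) (.f (nat_lit 462) (nat_lit 559) (nat_lit 7598) (.f (nat_lit 461) (nat_lit 460) (nat_lit 460) (.d (nat_lit 497) (nat_lit 494) (nat_lit 3533) (nat_lit 498) (nat_lit 3534))))))))) (.a (.p (nat_lit 527) (.a (.p (nat_lit 559) (.a (.d (nat_lit 464) (nat_lit 432) (nat_lit 6575) (nat_lit 591) (nat_lit 6607)) (.a (.f (nat_lit 462) (nat_lit 430) (nat_lit 7598) (.d (nat_lit 591) (nat_lit 494) (nat_lit 7630) (nat_lit 623) (nat_lit 6639))) (.f (nat_lit 464) (nat_lit 432) (nat_lit 6575) (.f (nat_lit 462) (nat_lit 430) (nat_lit 7598) (.d (nat_lit 461) (nat_lit 460) (nat_lit 460) (nat_lit 497) (nat_lit 461))))))) (.a s134343 (.a (.f (nat_lit 431) (nat_lit 399) (nat_lit 4495) (.f (nat_lit 430) (nat_lit 398) (nat_lit 7566) (.f (nat_lit 462) (nat_lit 559) (nat_lit 7598) (.f (nat_lit 461) (nat_lit 460) (nat_lit 460) (.d (nat_lit 497) (nat_lit 494) (nat_lit 3533) (nat_lit 498) (nat_lit 3534)))))) (.a (.f (nat_lit 431) (nat_lit 399) (nat_lit 4495) (.f (nat_lit 432) (nat_lit 400) (nat_lit 6543) (.f (nat_lit 464) (nat_lit 559) (nat_lit 6575) (.f (nat_lit 430) (nat_lit 398) (nat_lit 7566) (.d (nat_lit 429) (nat_lit 428) (nat_lit 428) (nat_lit 465) (nat_lit 429)))))) (.f (nat_lit 431) (nat_lit 399) (nat_lit 4495) (.f (nat_lit 432) (nat_lit 400) (nat_lit 6543) (.f (nat_lit 559) (nat_lit 464) (nat_lit 6575) (.f (nat_lit 591) (nat_lit 623) (nat_lit 6639) (.d (nat_lit 590) (nat_lit 558) (nat_lit 5582) (nat_lit 622) (nat_lit 5614))))))))))) (.p (nat_lit 527) (.a (.p (nat_lit 559) (.a (.d (nat_lit 464) (nat_lit 432) (nat_lit 6575) (nat_lit 591) (nat_lit 6607)) (.a (.f (nat_lit 462) (nat_lit 430) (nat_lit 7598) (.d (nat_lit 591) (nat_lit 494) (nat_lit 7630) (nat_lit 623) (nat_lit 6639))) (.f (nat_lit 464) (nat_lit 432) (nat_lit 6575) (.f (nat_lit 462) (nat_lit 430) (nat_lit 7598) (.d (nat_lit 461) (nat_lit 460) (nat_lit 460) (nat_lit 497) (nat_lit 461))))))) (.a (.f (nat_lit 431) (nat_lit 399) (nat_lit 4495) (.f (nat_lit 432) (nat_lit 400) (nat_lit 6543) (.f (nat_lit 559) (nat_lit 464) (nat_lit 6575) (.d (nat_lit 430) (nat_lit 398) (nat_lit 7566) (nat_lit 462) (nat_lit 7598))))) (.a s134343 (.a (.f (nat_lit 431) (nat_lit 399) (nat_lit 4495) (.f (nat_lit 430) (nat_lit 398) (nat_lit 7566) (.f (nat_lit 462) (nat_lit 559) (nat_lit 7598) (.f (nat_lit 461) (nat_lit 460) (nat_lit 460) (.d (nat_lit 497) (nat_lit 494) (nat_lit 3533) (nat_lit 498) (nat_lit 3534)))))) (.a (.f (nat_lit 431) (nat_lit 399) (nat_lit 4495) (.f (nat_lit 432) (nat_lit 400) (nat_lit 6543) (.f (nat_lit 464) (nat_lit 559) (nat_lit 6575) (.f (nat_lit 430) (nat_lit 398) (nat_lit 7566) (.d (nat_lit 429) (nat_lit 428) (nat_lit 428) (nat_lit 465) (nat_lit 429)))))) (.f (nat_lit 431) (nat_lit 399) (nat_lit 4495) (.f (nat_lit 432) (nat_lit 400) (nat_lit 6543) (.f (nat_lit 464) (nat_lit 559) (nat_lit 6575) (.f (nat_lit 433) (nat_lit 401) (nat_lit 6544) (.d (nat_lit 462) (nat_lit 434) (nat_lit 1454) (nat_lit 461) (nat_lit 2477)))))))))))))))))))) (.a (.p (nat_lit 527) (.a (.p (nat_lit 559) (.a (.f (nat_lit 560) (nat_lit 592) (nat_lit 4559) (.f (nat_lit 558) (nat_lit 590) (nat_lit 5582) (.d (nat_lit 557) (nat_lit 529) (nat_lit 2573) (nat_lit 556) (nat_lit 2572)))) (.a (.f (nat_lit 558) (nat_lit 590) (nat_lit 5582) (.f (nat_lit 529) (nat_lit 530) (nat_lit 1550) (.d (nat_lit 557) (nat_lit 526) (nat_lit 1549) (nat_lit 556) (nat_lit 2572)))) (.f (nat_lit 464) (nat_lit 432) (nat_lit 6575) (.f (nat_lit 591) (nat_lit 496) (nat_lit 6607) (.d (nat_lit 592) (nat_lit 560) (nat_lit 4559) (nat_lit 624) (nat_lit 4591))))))) (.a (.p (nat_lit 559) (.a (.f (nat_lit 558) (nat_lit 590) (nat_lit 5582) (.f (nat_lit 529) (nat_lit 530) (nat_lit 1550) (.d (nat_lit 557) (nat_lit 526) (nat_lit 1549) (nat_lit 556) (nat_lit 2572)))) (.f (nat_lit 464) (nat_lit 432) (nat_lit 6575) (.f (nat_lit 591) (nat_lit 496) (nat_lit 6607) (.d (nat_lit 462) (nat_lit 430) (nat_lit 7598) (nat_lit 494) (nat_lit 7630)))))) (.a (.p (nat_lit 559) (.a (.f (nat_lit 464) (nat_lit 432) (nat_lit 6575) (.f (nat_lit 591) (nat_lit 496) (nat_lit 6607) (.d (nat_lit 592) (nat_lit 560) (nat_lit 4559) (nat_lit 624) (nat_lit 4591)))) (.a (.f (nat_lit 464) (nat_lit 432) (nat_lit 6575) (.f (nat_lit 591) (nat_lit 496) (nat_lit 6607) (.d (nat_lit 462) (nat_lit 430) (nat_lit 7598) (nat_lit 494) (nat_lit 7630)))) (.a (.f (nat_lit 592) (nat_lit 560) (nat_lit 4559) (.f (nat_lit 591) (nat_lit 624) (nat_lit 4591) (.d (nat_lit 590) (nat_lit 558) (nat_lit 5582) (nat_lit 622) (nat_lit 5614)))) (.f (nat_lit 560) (nat_lit 592) (nat_lit 4559) (.f (nat_lit 558) (nat_lit 590) (nat_lit 5582) (.f (nat_lit 557) (nat_lit 556) (nat_lit 2572) (.f (nat_lit 464) (nat_lit 432) (nat_lit 6575) (.f (nat_lit 462) (nat_lit 430) (nat_lit 7598) (.f (nat_lit 589) (nat_lit 588) (nat_lit 1580) (.f (nat_lit 494) (nat_lit 526) (nat_lit 5581) (.f (nat_lit 465) (nat_lit 466) (nat_lit 1486) (.d (nat_lit 433) (nat_lit 434) (nat_lit 2478) (nat_lit 496) (nat_lit 6576)))))))))))))) (.a s134365 (.a (.p (nat_lit 529) (.a (.f (nat_lit 530) (nat_lit 494) (nat_lit 3566) (.f (nat_lit 496) (nat_lit 531) (nat_lit 3567) (.f (nat_lit 498) (nat_lit 499) (nat_lit 2543) (.d (nat_lit 497) (nat_lit 462) (nat_lit 3534) (nat_lit 526) (nat_lit 2542))))) (.a (.p (nat_lit 526) (.a (.f (nat_lit 497) (nat_lit 498) (nat_lit 2542) (.f (nat_lit 496) (nat_lit 525) (nat_lit 2541) (.f (nat_lit 560) (nat_lit 592) (nat_lit 7631) (.f (nat_lit 465) (nat_lit 433) (nat_lit 5552) (.f (nat_lit 466) (nat_lit 494) (nat_lit 2510) (.d (nat_lit 467) (nat_lit 464) (nat_lit 1487) (nat_lit 468) (nat_lit 1488))))))) (.a (.f (nat_lit 558) (nat_lit 557) (nat_lit 1549) (.d (nat_lit 590) (nat_lit 494) (nat_lit 6606) (nat_lit 622) (nat_lit 6638))) (.f (nat_lit 497) (nat_lit 498) (nat_lit 2542) (.f (nat_lit 525) (nat_lit 496) (nat_lit 2541) (.d (nat_lit 557) (nat_lit 556) (nat_lit 1548) (nat_lit 558) (nat_lit 1549))))))) (.a (.f (nat_lit 530) (nat_lit 494) (nat_lit 3566) (.f (nat_lit 498) (nat_lit 499) (nat_lit 2543) (.f (nat_lit 497) (nat_lit 526) (nat_lit 2542) (.f (nat_lit 562) (nat_lit 563) (nat_lit 527) (.d (nat_lit 594) (nat_lit 465) (nat_lit 7633) (nat_lit 626) (nat_lit 7665)))))) (.a (.f (nat_lit 530) (nat_lit 494) (nat_lit 3566) (.f (nat_lit 531) (nat_lit 496) (nat_lit 3567) (.d (nat_lit 499) (nat_lit 498) (nat_lit 2543) (nat_lit 500) (nat_lit 2544)))) (.a (.p (nat_lit 530) (.a (.f (nat_lit 496) (nat_lit 531) (nat_lit 3567) (.f (nat_lit 498) (nat_lit 499) (nat_lit 2543) (.d (nat_lit 497) (nat_lit 462) (nat_lit 3534) (nat_lit 526) (nat_lit 2542)))) (.a (.f (nat_lit 498) (nat_lit 499) (nat_lit 2543) (.f (nat_lit 562) (nat_lit 563) (nat_lit 527) (.f (nat_lit 497) (nat_lit 526) (nat_lit 2542) (.d (nat_lit 594) (nat_lit 465) (nat_lit 7633) (nat_lit 626) (nat_lit 7665))))) (.f (nat_lit 531) (nat_lit 496) (nat_lit 3567) (.d (nat_lit 563) (nat_lit 562) (nat_lit 527) (nat_lit 564) (nat_lit 528)))))) (.f (nat_lit 530) (nat_lit 494) (nat_lit 3566) (.f (nat_lit 531) (nat_lit 496) (nat_lit 3567) (.d (nat_lit 563) (nat_lit 562) (nat_lit 527) (nat_lit 564) (nat_lit 528)))))))))) (.a (.p (nat_lit 559) (.a (.f (nat_lit 560) (nat_lit 592) (nat_lit 4559) (.f (nat_lit 558) (nat_lit 590) (nat_lit 5582) (.d (nat_lit 557) (nat_lit 529) (nat_lit 2573) (nat_lit 556) (nat_lit 2572)))) (.a (.f (nat_lit 558) (nat_lit 590) (nat_lit 5582) (.f (nat_lit 529) (nat_lit 530) (nat_lit 1550) (.d (nat_lit 557) (nat_lit 526) (nat_lit 1549) (nat_lit 556) (nat_lit 2572)))) (.a (.f (nat_lit 592) (nat_lit 560) (nat_lit 4559) (.f (nat_lit 591) (nat_lit 624) (nat_lit 4591) (.d (nat_lit 590) (nat_lit 558) (nat_lit 5582) (nat_lit 622) (nat_lit 5614)))) (.a (.f (nat_lit 560) (nat_lit 592) (nat_lit 4559) (.f (nat_lit 462) (nat_lit 430) (nat_lit 7598) (.f (nat_lit 591) (nat_lit 494) (nat_lit 7630) (.f (nat_lit 623) (nat_lit 655) (nat_lit 6671) (.d (nat_lit 622) (nat_lit 590) (nat_lit 5614) (nat_lit 654) (nat_lit 5646)))))) (.f (nat_lit 560) (nat_lit 592) (nat_lit 4559) (.f (nat_lit 462) (nat_lit 430) (nat_lit 7598) (.f (nat_lit 591) (nat_lit 494) (nat_lit 7630) (.d (nat_lit 623) (nat_lit 496) (nat_lit 6639) (nat_lit 655) (nat_lit 6671)))))))))) (.a (.p (nat_lit 559) (.a (.f (nat_lit 560) (nat_lit 592) (nat_lit 4559) (.f (nat_lit 558) (nat_lit 590) (nat_lit 5582) (.d (nat_lit 557) (nat_lit 529) (nat_lit 2573) (nat_lit 556) (nat_lit 2572)))) (.f (nat_lit 464) (nat_lit 432) (nat_lit 6575) (.f (nat_lit 591) (nat_lit 496) (nat_lit 6607) (.d (nat_lit 462) (nat_lit 430) (nat_lit 7598) (nat_lit 494) (nat_lit 7630)))))) (.a (.p (nat_lit 559) (.a (.f (nat_lit 464) (nat_lit 432) (nat_lit 6575) (.f (nat_lit 591) (nat_lit 496) (nat_lit 6607) (.d (nat_lit 592) (nat_lit 560) (nat_lit 4559) (nat_lit 624) (nat_lit 4591)))) (.a (.f (nat_lit 464) (nat_lit 432) (nat_lit 6575) (.f (nat_lit 591) (nat_lit 496) (nat_lit 6607) (.d (nat_lit 462) (nat_lit 430) (nat_lit 7598) (nat_lit 494) (nat_lit 7630)))) (.a (.f (nat_lit 560) (nat_lit 592) (nat_lit 4559) (.f (nat_lit 462) (nat_lit 430) (nat_lit 7598) (.f (nat_lit 591) (nat_lit 494) (nat_lit 7630) (.f (nat_lit 623) (nat_lit 655) (nat_lit 6671) (.d (nat_lit 622) (nat_lit 590) (nat_lit 5614) (nat_lit 654) (nat_lit 5646)))))) (.p (nat_lit 496) (.a (.f (nat_lit 464) (nat_lit 432) (nat_lit 6575) (.f (nat_lit 462) (nat_lit 430) (nat_lit 7598) (.d (nat_lit 461) (nat_lit 460) (nat_lit 460) (nat_lit 497) (nat_lit 461)))) (.a (.f (nat_lit 462) (nat_lit 430) (nat_lit 7598) (.f (nat_lit 497) (nat_lit 498) (nat_lit 3534) (.d (nat_lit 461) (nat_lit 460) (nat_lit 460) (nat_lit 494) (nat_lit 3533)))) (.f (nat_lit 464) (nat_lit 432) (nat_lit 6575) (.f (nat_lit 560) (nat_lit 592) (nat_lit 7631) (.f (nat_lit 465) (nat_lit 433) (nat_lit 6576) (.d (nat_lit 466) (nat_lit 467) (nat_lit 1487) (nat_lit 494) (nat_lit 1486)))))))))))) (.p (nat_lit 559) (.a (.f (nat_lit 464) (nat_lit 432) (nat_lit 6575) (.f (nat_lit 591) (nat_lit 496) (nat_lit 6607) (.d (nat_lit 592) (nat_lit 560) (nat_lit 4559) (nat_lit 624) (nat_lit 4591)))) (.a (.f (nat_lit 464) (nat_lit 432) (nat_lit 6575) (.f (nat_lit 591) (nat_lit 496) (nat_lit 6607) (.d (nat_lit 462) (nat_lit 430) (nat_lit 7598) (nat_lit 494) (nat_lit 7630)))) (.a (.f (nat_lit 560) (nat_lit 592) (nat_lit 4559) (.f (nat_lit 462) (nat_lit 430) (nat_lit 7598) (.f (nat_lit 494) (nat_lit 591) (nat_lit 7630) (.f (nat_lit 529) (nat_lit 530) (nat_lit 3566) (.f (nat_lit 464) (nat_lit 432) (nat_lit 6575) (.f (nat_lit 465) (nat_lit 466) (nat_lit 1486) (.d (nat_lit 433) (nat_lit 434) (nat_lit 2478) (nat_lit 497) (nat_lit 5552)))))))) (.a (.f (nat_lit 560) (nat_lit 592) (nat_lit 4559) (.f (nat_lit 462) (nat_lit 430) (nat_lit 7598) (.f (nat_lit 591) (nat_lit 494) (nat_lit 7630) (.d (nat_lit 623) (nat_lit 496) (nat_lit 6639) (nat_lit 655) (nat_lit 6671))))) (.p (nat_lit 496) (.a (.f (nat_lit 464) (nat_lit 432) (nat_lit 6575) (.f (nat_lit 462) (nat_lit 430) (nat_lit 7598) (.d (nat_lit 461) (nat_lit 460) (nat_lit 460) (nat_lit 497) (nat_lit 461)))) (.a (.f (nat_lit 462) (nat_lit 430) (nat_lit 7598) (.f (nat_lit 497) (nat_lit 498) (nat_lit 3534) (.d (nat_lit 461) (nat_lit 460) (nat_lit 460) (nat_lit 494) (nat_lit 3533)))) (.f (nat_lit 464) (nat_lit 432) (nat_lit 6575) (.f (nat_lit 560) (nat_lit 592) (nat_lit 7631) (.f (nat_lit 465) (nat_lit 433) (nat_lit 6576) (.d (nat_lit 466) (nat_lit 467) (nat_lit 1487) (nat_lit 494) (nat_lit 1486)))))))))))))))))))))) (.a (.p (nat_lit 527) (.a s134365 (.a (.p (nat_lit 559) (.a (.f (nat_lit 558) (nat_lit 590) (nat_lit 5582) (.f (nat_lit 529) (nat_lit 530) (nat_lit 1550) (.d (nat_lit 557) (nat_lit 526) (nat_lit 1549) (nat_lit 556) (nat_lit 2572)))) (.a (.f (nat_lit 558) (nat_lit 590) (nat_lit 5582) (.f (nat_lit 431) (nat_lit 526) (nat_lit 5550) (.d (nat_lit 432) (nat_lit 400) (nat_lit 6543) (nat_lit 464) (nat_lit 6575)))) (.a (.f (nat_lit 462) (nat_lit 430) (nat_lit 7598) (.f (nat_lit 591) (nat_lit 494) (nat_lit 7630) (.f (nat_lit 624) (nat_lit 592) (nat_lit 4591) (.f (nat_lit 623) (nat_lit 656) (nat_lit 4623) (.d (nat_lit 622) (nat_lit 590) (nat_lit 5614) (nat_lit 654) (nat_lit 5646)))))) (.f (nat_lit 462) (nat_lit 430) (nat_lit 7598) (.f (nat_lit 494) (nat_lit 591) (nat_lit 7630) (.f (nat_lit 432) (nat_lit 464) (nat_lit 6575) (.f (nat_lit 431) (nat_lit 400) (nat_lit 6543) (.d (nat_lit 399) (nat_lit 367) (nat_lit 5486) (nat_lit 526) (nat_lit 5518)))))))))) (.a (.f (nat_lit 431) (nat_lit 560) (nat_lit 4527) (.f (nat_lit 430) (nat_lit 398) (nat_lit 7566) (.f (nat_lit 432) (nat_lit 400) (nat_lit 6543) (.d (nat_lit 559) (nat_lit 462) (nat_lit 7598) (nat_lit 464) (nat_lit 6575))))) (.a (.f (nat_lit 431) (nat_lit 560) (nat_lit 4527) (.f (nat_lit 526) (nat_lit 558) (nat_lit 5550) (.f (nat_lit 399) (nat_lit 494) (nat_lit 5518) (.d (nat_lit 400) (nat_lit 368) (nat_lit 6511) (nat_lit 432) (nat_lit 6543))))) (.f (nat_lit 431) (nat_lit 560) (nat_lit 4527) (.f (nat_lit 526) (nat_lit 558) (nat_lit 5550) (.f (nat_lit 494) (nat_lit 399) (nat_lit 5518) (.f (nat_lit 430) (nat_lit 398) (nat_lit 7566) (.f (nat_lit 462) (nat_lit 559) (nat_lit 4526) (.f (nat_lit 429) (nat_lit 397) (nat_lit 7565) (.d (nat_lit 428) (nat_lit 427) (nat_lit 427) (nat_lit 464) (nat_lit 428))))))))))))) (.a (.p (nat_lit 496) (.a s134323 (.a (.p (nat_lit 497) (.a (.f (nat_lit 498) (nat_lit 462) (nat_lit 3534) (.f (nat_lit 499) (nat_lit 464) (nat_lit 3535) (.d (nat_lit 531) (nat_lit 530) (nat_lit 495) (nat_lit 532) (nat_lit 496)))) (.a (.f (nat_lit 462) (nat_lit 498) (nat_lit 3534) (.d (nat_lit 461) (nat_lit 460) (nat_lit 460) (nat_lit 494) (nat_lit 3533))) (.p (nat_lit 465) (.a (.f (nat_lit 560) (nat_lit 592) (nat_lit 7631) (.d (nat_lit 433) (nat_lit 401) (nat_lit 5520) (nat_lit 464) (nat_lit 6576))) (.a (.f (nat_lit 466) (nat_lit 494) (nat_lit 2510) (.d (nat_lit 467) (nat_lit 464) (nat_lit 1487) (nat_lit 468) (nat_lit 1488))) (.f (nat_lit 560) (nat_lit 592) (nat_lit 7631) (.d (nat_lit 433) (nat_lit 401) (nat_lit 5520) (nat_lit 529) (nat_lit 5552))))))))) (.a (.f (nat_lit 560) (nat_lit 592) (nat_lit 7631) (.d (nat_lit 431) (nat_lit 399) (nat_lit 4495) (nat_lit 464) (nat_lit 7599))) (.p (nat_lit 497) (.a (.f (nat_lit 462) (nat_lit 498) (nat_lit 3534) (.d (nat_lit 461) (nat_lit 460) (nat_lit 460) (nat_lit 494) (nat_lit 3533))) (.a (.p (nat_lit 494) (.a (.f (nat_lit 462) (nat_lit 461) (nat_lit 3533) (.f (nat_lit 431) (nat_lit 399) (nat_lit 4495) (.d (nat_lit 526) (nat_lit 525) (nat_lit 1517) (nat_lit 558) (nat_lit 6574)))) (.f (nat_lit 465) (nat_lit 466) (nat_lit 2510) (.f (nat_lit 560) (nat_lit 592) (nat_lit 7631) (.d (nat_lit 529) (nat_lit 433) (nat_lit 5552) (nat_lit 530) (nat_lit 494)))))) (.a (.p (nat_lit 465) (.a (.f (nat_lit 560) (nat_lit 592) (nat_lit 7631) (.d (nat_lit 433) (nat_lit 401) (nat_lit 5520) (nat_lit 529) (nat_lit 5552))) (.f (nat_lit 466) (nat_lit 494) (nat_lit 2510) (.d (nat_lit 467) (nat_lit 468) (nat_lit 1488) (nat_lit 498) (nat_lit 2511))))) (.f (nat_lit 498) (nat_lit 462) (nat_lit 3534) (.f (nat_lit 531) (nat_lit 530) (nat_lit 495) (.f (nat_lit 499) (nat_lit 532) (nat_lit 496) (.d (nat_lit 467) (nat_lit 466) (nat_lit 2511) (nat_lit 468) (nat_lit 2512))))))))))))) (.a (.p (nat_lit 431) (.a (.f (nat_lit 527) (nat_lit 560) (nat_lit 4527) (.f (nat_lit 399) (nat_lit 496) (nat_lit 4495) (.d (nat_lit 400) (nat_lit 368) (nat_lit 6511) (nat_lit 432) (nat_lit 6543)))) (.a (.f (nat_lit 399) (nat_lit 496) (nat_lit 4495) (.f (nat_lit 400) (nat_lit 368) (nat_lit 6511) (.f (nat_lit 398) (nat_lit 366) (nat_lit 7534) (.d (nat_lit 527) (nat_lit 430) (nat_lit 7566) (nat_lit 432) (nat_lit 6543))))) (.a (.f (nat_lit 527) (nat_lit 560) (nat_lit 4527) (.f (nat_lit 526) (nat_lit 558) (nat_lit 5550) (.f (nat_lit 494) (nat_lit 399) (nat_lit 5518) (.f (nat_lit 430) (nat_lit 398) (nat_lit 7566) (.f (nat_lit 462) (nat_lit 559) (nat_lit 4526) (.f (nat_lit 432) (nat_lit 400) (nat_lit 6543) (.d (nat_lit 461) (nat_lit 433) (nat_lit 1453) (nat_lit 460) (nat_lit 2476)))))))) (.a (.f (nat_lit 399) (nat_lit 496) (nat_lit 4495) (.f (nat_lit 494) (nat_lit 526) (nat_lit 5518) (.f (nat_lit 367) (nat_lit 462) (nat_lit 5486) (.d (nat_lit 368) (nat_lit 336) (nat_lit 6479) (nat_lit 400) (nat_lit 6511))))) (.a (.f (nat_lit 527) (nat_lit 560) (nat_lit 4527) (.f (nat_lit 432) (nat_lit 400) (nat_lit 6543) (.f (nat_lit 559) (nat_lit 464) (nat_lit 6575) (.d (nat_lit 430) (nat_lit 398) (nat_lit 7566) (nat_lit 462) (nat_lit 7598))))) (.f (nat_lit 527) (nat_lit 560) (nat_lit 4527) (.f (nat_lit 399) (nat_lit 496) (nat_lit 4495) (.d (nat_lit 526) (nat_lit 494) (nat_lit 5518) (nat_lit 558) (nat_lit 5550)))))))))) (.a (.p (nat_lit 431) (.a (.f (nat_lit 527) (nat_lit 560) (nat_lit 4527) (.f (nat_lit 399) (nat_lit 496) (nat_lit 4495) (.d (nat_lit 400) (nat_lit 368) (nat_lit 6511) (nat_lit 432) (nat_lit 6543)))) (.a (.f (nat_lit 399) (nat_lit 496) (nat_lit 4495) (.f (nat_lit 400) (nat_lit 368) (nat_lit 6511) (.f (nat_lit 398) (nat_lit 366) (nat_lit 7534) (.d (nat_lit 527) (nat_lit 430) (nat_lit 7566) (nat_lit 432) (nat_lit 6543))))) (.a (.f (nat_lit 527) (nat_lit 560) (nat_lit 4527) (.f (nat_lit 526) (nat_lit 558) (nat_lit 5550) (.f (nat_lit 399) (nat_lit 494) (nat_lit 5518) (.d (nat_lit 400) (nat_lit 368) (nat_lit 6511) (nat_lit 432) (nat_lit 6543))))) (.a (.f (nat_lit 399) (nat_lit 496) (nat_lit 4495) (.f (nat_lit 368) (nat_lit 400) (nat_lit 6511) (.f (nat_lit 367) (nat_lit 336) (nat_lit 6479) (.d (nat_lit 366) (nat_lit 334) (nat_lit 7502) (nat_lit 398) (nat_lit 7534))))) (.a (.f (nat_lit 527) (nat_lit 560) (nat_lit 4527) (.f (nat_lit 432) (nat_lit 400) (nat_lit 6543) (.f (nat_lit 464) (nat_lit 559) (nat_lit 6575) (.f (nat_lit 430) (nat_lit 398) (nat_lit 7566) (.d (nat_lit 429) (nat_lit 428) (nat_lit 428) (nat_lit 465) (nat_lit 429)))))) (.f (nat_lit 527) (nat_lit 560) (nat_lit 4527) (.f (nat_lit 496) (nat_lit 399) (nat_lit 4495) (.f (nat_lit 526) (nat_lit 558) (nat_lit 5550) (.d (nat_lit 525) (nat_lit 497) (nat_lit 2541) (nat_lit 524) (nat_lit 2540))))))))))) (.a (.p (nat_lit 431) (.a (.f (nat_lit 527) (nat_lit 560) (nat_lit 4527) (.f (nat_lit 399) (nat_lit 496) (nat_lit 4495) (.d (nat_lit 400) (nat_lit 368) (nat_lit 6511) (nat_lit 432) (nat_lit 6543)))) (.a (.f (nat_lit 399) (nat_lit 496) (nat_lit 4495) (.f (nat_lit 400) (nat_lit 368) (nat_lit 6511) (.f (nat_lit 398) (nat_lit 366) (nat_lit 7534) (.d (nat_lit 527) (nat_lit 430) (nat_lit 7566) (nat_lit 432) (nat_lit 6543))))) (.a (.f (nat_lit 399) (nat_lit 496) (nat_lit 4495) (.f (nat_lit 494) (nat_lit 526) (nat_lit 5518) (.f (nat_lit 367) (nat_lit 462) (nat_lit 5486) (.d (nat_lit 368) (nat_lit 336) (nat_lit 6479) (nat_lit 400) (nat_lit 6511))))) (.a (.f (nat_lit 527) (nat_lit 560) (nat_lit 4527) (.f (nat_lit 526) (nat_lit 558) (nat_lit 5550) (.f (nat_lit 494) (nat_lit 399) (nat_lit 5518) (.f (nat_lit 430) (nat_lit 398) (nat_lit 7566) (.f (nat_lit 462) (nat_lit 559) (nat_lit 4526) (.f (nat_lit 432) (nat_lit 400) (nat_lit 6543) (.d (nat_lit 461) (nat_lit 433) (nat_lit 1453) (nat_lit 460) (nat_lit 2476)))))))) (.a (.f (nat_lit 527) (nat_lit 560) (nat_lit 4527) (.f (nat_lit 430) (nat_lit 398) (nat_lit 7566) (.f (nat_lit 462) (nat_lit 559) (nat_lit 7598) (.f (nat_lit 432) (nat_lit 400) (nat_lit 6543) (.d (nat_lit 461) (nat_lit 433) (nat_lit 1453) (nat_lit 460) (nat_lit 2476)))))) (.f (nat_lit 527) (nat_lit 560) (nat_lit 4527) (.f (nat_lit 496) (nat_lit 399) (nat_lit 4495) (.f (nat_lit 526) (nat_lit 558) (nat_lit 5550) (.d (nat_lit 525) (nat_lit 497) (nat_lit 2541) (nat_lit 524) (nat_lit 2540))))))))))) (.a (.p (nat_lit 431) (.a (.f (nat_lit 399) (nat_lit 496) (nat_lit 4495) (.f (nat_lit 494) (nat_lit 526) (nat_lit 5518) (.f (nat_lit 367) (nat_lit 462) (nat_lit 5486) (.d (nat_lit 368) (nat_lit 336) (nat_lit 6479) (nat_lit 400) (nat_lit 6511))))) (.a (.f (nat_lit 527) (nat_lit 560) (nat_lit 4527) (.f (nat_lit 526) (nat_lit 558) (nat_lit 5550) (.f (nat_lit 494) (nat_lit 399) (nat_lit 5518) (.f (nat_lit 430) (nat_lit 398) (nat_lit 7566) (.f (nat_lit 462) (nat_lit 559) (nat_lit 4526) (.f (nat_lit 429) (nat_lit 397) (nat_lit 7565) (.d (nat_lit 428) (nat_lit 427) (nat_lit 427) (nat_lit 464) (nat_lit 428)))))))) (.a (.f (nat_lit 527) (nat_lit 560) (nat_lit 4527) (.f (nat_lit 558) (nat_lit 526) (nat_lit 5550) (.f (nat_lit 559) (nat_lit 590) (nat_lit 5582) (.d (nat_lit 430) (nat_lit 398) (nat_lit 7566) (nat_lit 462) (nat_lit 7598))))) (.f (nat_lit 399) (nat_lit 496) (nat_lit 4495) (.f (nat_lit 368) (nat_lit 400) (nat_lit 6511) (.f (nat_lit 367) (nat_lit 336) (nat_lit 6479) (.d (nat_lit 366) (nat_lit 334) (nat_lit 7502) (nat_lit 398) (nat_lit 7534))))))))) (.p (nat_lit 431) (.a (.f (nat_lit 527) (nat_lit 560) (nat_lit 4527) (.f (nat_lit 399) (nat_lit 496) (nat_lit 4495) (.d (nat_lit 400) (nat_lit 368) (nat_lit 6511) (nat_lit 432) (nat_lit 6543)))) (.a (.f (nat_lit 399) (nat_lit 496) (nat_lit 4495) (.f (nat_lit 400) (nat_lit 368) (nat_lit 6511) (.f (nat_lit 398) (nat_lit 366) (nat_lit 7534) (.d (nat_lit 527) (nat_lit 430) (nat_lit 7566) (nat_lit 432) (nat_lit 6543))))) (.a (.f (nat_lit 527) (nat_lit 560) (nat_lit 4527) (.f (nat_lit 432) (nat_lit 400) (nat_lit 6543) (.f (nat_lit 559) (nat_lit 464) (nat_lit 6575) (.d (nat_lit 430) (nat_lit 398) (nat_lit 7566) (nat_lit 462) (nat_lit 7598))))) (.a (.f (nat_lit 399) (nat_lit 496) (nat_lit 4495) (.f (nat_lit 368) (nat_lit 400) (nat_lit 6511) (.f (nat_lit 367) (nat_lit 336) (nat_lit 6479) (.d (nat_lit 366) (nat_lit 334) (nat_lit 7502) (nat_lit 398) (nat_lit 7534))))) (.f (nat_lit 496) (nat_lit 399) (nat_lit 4495) (.d (nat_lit 560) (nat_lit 464) (nat_lit 7599) (nat_lit 527) (nat_lit 4527)))))))))))))))))) (.a (.p (nat_lit 527) (.a (.p (nat_lit 463) (.a (.f (nat_lit 431) (nat_lit 560) (nat_lit 4527) (.f (nat_lit 399) (nat_lit 496) (nat_lit 4495) (.d (nat_lit 526) (nat_lit 494) (nat_lit 5518) (nat_lit 558) (nat_lit 5550)))) (.a (.f (nat_lit 431) (nat_lit 560) (nat_lit 4527) (.f (nat_lit 526) (nat_lit 558) (nat_lit 5550) (.f (nat_lit 494) (nat_lit 399) (nat_lit 5518) (.d (nat_lit 529) (nat_lit 493) (nat_lit 3565) (nat_lit 530) (nat_lit 3566))))) (.a (.f (nat_lit 431) (nat_lit 560) (nat_lit 4527) (.f (nat_lit 399) (nat_lit 496) (nat_lit 4495) (.d (nat_lit 400) (nat_lit 368) (nat_lit 6511) (nat_lit 432) (nat_lit 6543)))) (.a (.p (nat_lit 559) (.a (.f (nat_lit 558) (nat_lit 590) (nat_lit 5582) (.f (nat_lit 526) (nat_lit 431) (nat_lit 5550) (.d (nat_lit 529) (nat_lit 530) (nat_lit 1550) (nat_lit 557) (nat_lit 1549)))) (.a (.f (nat_lit 464) (nat_lit 432) (nat_lit 6575) (.f (nat_lit 591) (nat_lit 496) (nat_lit 6607) (.d (nat_lit 590) (nat_lit 558) (nat_lit 5582) (nat_lit 622) (nat_lit 5614)))) (.f (nat_lit 464) (nat_lit 432) (nat_lit 6575) (.f (nat_lit 591) (nat_lit 496) (nat_lit 6607) (.d (nat_lit 462) (nat_lit 430) (nat_lit 7598) (nat_lit 494) (nat_lit 7630))))))) (.p (nat_lit 559) (.a (.f (nat_lit 464) (nat_lit 432) (nat_lit 6575) (.f (nat_lit 591) (nat_lit 496) (nat_lit 6607) (.d (nat_lit 590) (nat_lit 558) (nat_lit 5582) (nat_lit 622) (nat_lit 5614)))) (.a (.f (nat_lit 558) (nat_lit 590) (nat_lit 5582) (.f (nat_lit 557) (nat_lit 556) (nat_lit 2572) (.d (nat_lit 529) (nat_lit 526) (nat_lit 1549) (nat_lit 530) (nat_lit 1550)))) (.f (nat_lit 464) (nat_lit 432) (nat_lit 6575) (.f (nat_lit 591) (nat_lit 496) (nat_lit 6607) (.d (nat_lit 462) (nat_lit 430) (nat_lit 7598) (nat_lit 494) (nat_lit 7630)))))))))))) (.a (.p (nat_lit 463) (.a (.f (nat_lit 431) (nat_lit 560) (nat_lit 4527) (.f (nat_lit 526) (nat_lit 558) (nat_lit 5550) (.f (nat_lit 494) (nat_lit 399) (nat_lit 5518) (.d (nat_lit 529) (nat_lit 493) (nat_lit 3565) (nat_lit 530) (nat_lit 3566))))) (.a (.f (nat_lit 431) (nat_lit 560) (nat_lit 4527) (.f (nat_lit 558) (nat_lit 526) (nat_lit 5550) (.f (nat_lit 559) (nat_lit 590) (nat_lit 5582) (.d (nat_lit 432) (nat_lit 400) (nat_lit 6543) (nat_lit 464) (nat_lit 6575))))) (.a (.p (nat_lit 559) (.a (.f (nat_lit 558) (nat_lit 590) (nat_lit 5582) (.f (nat_lit 526) (nat_lit 431) (nat_lit 5550) (.d (nat_lit 529) (nat_lit 530) (nat_lit 1550) (nat_lit 557) (nat_lit 1549)))) (.a (.f (nat_lit 558) (nat_lit 590) (nat_lit 5582) (.f (nat_lit 431) (nat_lit 526) (nat_lit 5550) (.d (nat_lit 432) (nat_lit 400) (nat_lit 6543) (nat_lit 464) (nat_lit 6575)))) (.a (.f (nat_lit 558) (nat_lit 590) (nat_lit 5582) (.f (nat_lit 557) (nat_lit 556) (nat_lit 2572) (.d (nat_lit 529) (nat_lit 526) (nat_lit 1549) (nat_lit 530) (nat_lit 1550)))) (.f (nat_lit 462) (nat_lit 430) (nat_lit 7598) (.f (nat_lit 494) (nat_lit 591) (nat_lit 7630) (.f (nat_lit 464) (nat_lit 432) (nat_lit 6575) (.d (nat_lit 493) (nat_lit 465) (nat_lit 1485) (nat_lit 492) (nat_lit 2508))))))))) (.a (.p (nat_lit 559) (.a (.f (nat_lit 558) (nat_lit 590) (nat_lit 5582) (.f (nat_lit 557) (nat_lit 556) (nat_lit 2572) (.d (nat_lit 529) (nat_lit 526) (nat_lit 1549) (nat_lit 530) (nat_lit 1550)))) (.f (nat_lit 462) (nat_lit 430) (nat_lit 7598) (.f (nat_lit 494) (nat_lit 591) (nat_lit 7630) (.f (nat_lit 464) (nat_lit 432) (nat_lit 6575) (.d (nat_lit 493) (nat_lit 465) (nat_lit 1485) (nat_lit 492) (nat_lit 2508))))))) (.f (nat_lit 431) (nat_lit 560) (nat_lit 4527) (.f (nat_lit 430) (nat_lit 398) (nat_lit 7566) (.f (nat_lit 432) (nat_lit 400) (nat_lit 6543) (.d (nat_lit 559) (nat_lit 462) (nat_lit 7598) (nat_lit 464) (nat_lit 6575)))))))))) (.a (.p (nat_lit 526) (.a (.p (nat_lit 525) (.a (.f (nat_lit 524) (nat_lit 496) (nat_lit 2540) (.d (nat_lit 556) (nat_lit 555) (nat_lit 1547) (nat_lit 557) (nat_lit 1548))) (.a (.f (nat_lit 493) (nat_lit 492) (nat_lit 3564) (.f (nat_lit 494) (nat_lit 529) (nat_lit 3565) (.f (nat_lit 557) (nat_lit 556) (nat_lit 1548) (.d (nat_lit 462) (nat_lit 430) (nat_lit 5549) (nat_lit 589) (nat_lit 6605))))) (.f (nat_lit 524) (nat_lit 496) (nat_lit 2540) (.d (nat_lit 492) (nat_lit 491) (nat_lit 3563) (nat_lit 493) (nat_lit 3564)))))) (.a (.p (nat_lit 525) (.a (.f (nat_lit 493) (nat_lit 492) (nat_lit 3564) (.f (nat_lit 494) (nat_lit 529) (nat_lit 3565) (.f (nat_lit 557) (nat_lit 556) (nat_lit 1548) (.d (nat_lit 462) (nat_lit 430) (nat_lit 5549) (nat_lit 589) (nat_lit 6605))))) (.a (.f (nat_lit 492) (nat_lit 493) (nat_lit 3564) (.f (nat_lit 524) (nat_lit 491) (nat_lit 3563) (.d (nat_lit 556) (nat_lit 555) (nat_lit 1547) (nat_lit 557) (nat_lit 1548)))) (.a (.f (nat_lit 557) (nat_lit 556) (nat_lit 1548) (.f (nat_lit 529) (nat_lit 558) (nat_lit 1549) (.f (nat_lit 494) (nat_lit 530) (nat_lit 3566) (.f (nat_lit 462) (nat_lit 430) (nat_lit 5549) (.f (nat_lit 524) (nat_lit 523) (nat_lit 2539) (.d (nat_lit 559) (nat_lit 560) (nat_lit 524) (nat_lit 591) (nat_lit 7630))))))) (.f (nat_lit 493) (nat_lit 492) (nat_lit 3564) (.f (nat_lit 494) (nat_lit 529) (nat_lit 3565) (.f (nat_lit 524) (nat_lit 523) (nat_lit 2539) (.f (nat_lit 559) (nat_lit 560) (nat_lit 524) (.d (nat_lit 462) (nat_lit 430) (nat_lit 4526) (nat_lit 591) (nat_lit 7630)))))))))) (.a s126895 (.a (.p (nat_lit 494) (.a (.p (nat_lit 525) (.a (.d (nat_lit 524) (nat_lit 496) (nat_lit 2540) (nat_lit 523) (nat_lit 2539)) (.f (nat_lit 493) (nat_lit 492) (nat_lit 492) (.f (nat_lit 557) (nat_lit 556) (nat_lit 1548) (.d (nat_lit 462) (nat_lit 430) (nat_lit 5549) (nat_lit 589) (nat_lit 6605)))))) (.a (.p (nat_lit 525) (.a (.f (nat_lit 493) (nat_lit 492) (nat_lit 492) (.f (nat_lit 557) (nat_lit 556) (nat_lit 1548) (.d (nat_lit 462) (nat_lit 430) (nat_lit 5549) (nat_lit 589) (nat_lit 6605)))) (.a (.f (nat_lit 524) (nat_lit 523) (nat_lit 2539) (.d (nat_lit 556) (nat_lit 555) (nat_lit 1547) (nat_lit 557) (nat_lit 1548))) (.f (nat_lit 524) (nat_lit 523) (nat_lit 2539) (.f (nat_lit 559) (nat_lit 560) (nat_lit 524) (.d (nat_lit 462) (nat_lit 430) (nat_lit 4526) (nat_lit 591) (nat_lit 7630))))))) (.a (.p (nat_lit 525) (.a (.d (nat_lit 524) (nat_lit 496) (nat_lit 2540) (nat_lit 523) (nat_lit 2539)) (.a (.f (nat_lit 524) (nat_lit 523) (nat_lit 2539) (.d (nat_lit 556) (nat_lit 555) (nat_lit 1547) (nat_lit 557) (nat_lit 1548))) (.f (nat_lit 557) (nat_lit 556) (nat_lit 1548) (.f (nat_lit 462) (nat_lit 430) (nat_lit 5549) (.d (nat_lit 589) (nat_lit 558) (nat_lit 5581) (nat_lit 621) (nat_lit 6637))))))) (.a (.f (nat_lit 493) (nat_lit 492) (nat_lit 492) (.p (nat_lit 496) (.a (.f (nat_lit 464) (nat_lit 465) (nat_lit 2509) (.d (nat_lit 432) (nat_lit 400) (nat_lit 5519) (nat_lit 559) (nat_lit 5551))) (.f (nat_lit 461) (nat_lit 460) (nat_lit 3532) (.f (nat_lit 558) (nat_lit 590) (nat_lit 7629) (.d (nat_lit 429) (nat_lit 397) (nat_lit 4493) (nat_lit 462) (nat_lit 7597))))))) (.p (nat_lit 525) (.a (.d (nat_lit 524) (nat_lit 496) (nat_lit 2540) (nat_lit 523) (nat_lit 2539)) (.a (.f (nat_lit 524) (nat_lit 523) (nat_lit 2539) (.d (nat_lit 556) (nat_lit 555) (nat_lit 1547) (nat_lit 557) (nat_lit 1548))) (.f (nat_lit 493) (nat_lit 492) (nat_lit 492) (.f (nat_lit 557) (nat_lit 556) (nat_lit 1548) (.f (nat_lit 589) (nat_lit 621) (nat_lit 6637) (.f (nat_lit 590) (nat_lit 622) (nat_lit 4589) (.f (nat_lit 461) (nat_lit 558) (nat_lit 4557) (.d (nat_lit 460) (nat_lit 428) (nat_lit 7596) (nat_lit 496) (nat_lit 3532))))))))))))))) (.a (.p (nat_lit 525) (.a (.f (nat_lit 524) (nat_lit 496) (nat_lit 2540) (.d (nat_lit 556) (nat_lit 555) (nat_lit 1547) (nat_lit 557) (nat_lit 1548))) (.a (.f (nat_lit 557) (nat_lit 556) (nat_lit 1548) (.f (nat_lit 529) (nat_lit 558) (nat_lit 1549) (.f (nat_lit 494) (nat_lit 530) (nat_lit 3566) (.f (nat_lit 462) (nat_lit 430) (nat_lit 5549) (.f (nat_lit 524) (nat_lit 523) (nat_lit 2539) (.d (nat_lit 559) (nat_lit 560) (nat_lit 524) (nat_lit 591) (nat_lit 7630))))))) (.a (.f (nat_lit 557) (nat_lit 556) (nat_lit 1548) (.f (nat_lit 529) (nat_lit 558) (nat_lit 1549) (.f (nat_lit 530) (nat_lit 494) (nat_lit 3566) (.f (nat_lit 531) (nat_lit 496) (nat_lit 3567) (.d (nat_lit 499) (nat_lit 498) (nat_lit 2543) (nat_lit 500) (nat_lit 2544)))))) (.a (.f (nat_lit 524) (nat_lit 496) (nat_lit 2540) (.f (nat_lit 523) (nat_lit 494) (nat_lit 2539) (.d (nat_lit 555) (nat_lit 554) (nat_lit 1546) (nat_lit 556) (nat_lit 1547)))) (.f (nat_lit 524) (nat_lit 496) (nat_lit 2540) (.f (nat_lit 523) (nat_lit 494) (nat_lit 2539) (.d (nat_lit 559) (nat_lit 558) (nat_lit 523) (nat_lit 560) (nat_lit 524))))))))) (.a (.p (nat_lit 529) (.a (.d (nat_lit 494) (nat_lit 493) (nat_lit 3565) (nat_lit 530) (nat_lit 3566)) (.a (.f (nat_lit 558) (nat_lit 557) (nat_lit 1549) (.f (nat_lit 530) (nat_lit 559) (nat_lit 1550) (.f (nat_lit 531) (nat_lit 496) (nat_lit 3567) (.d (nat_lit 499) (nat_lit 498) (nat_lit 2543) (nat_lit 500) (nat_lit 2544))))) (.f (nat_lit 494) (nat_lit 493) (nat_lit 3565) (.f (nat_lit 558) (nat_lit 557) (nat_lit 1549) (.f (nat_lit 590) (nat_lit 622) (nat_lit 6638) (.f (nat_lit 591) (nat_lit 623) (nat_lit 4590) (.f (nat_lit 559) (nat_lit 462) (nat_lit 4558) (.f (nat_lit 589) (nat_lit 621) (nat_lit 5613) (.d (nat_lit 588) (nat_lit 560) (nat_lit 2604) (nat_lit 587) (nat_lit 2603))))))))))) (.p (nat_lit 525) (.a (.f (nat_lit 524) (nat_lit 496) (nat_lit 2540) (.d (nat_lit 492) (nat_lit 491) (nat_lit 3563) (nat_lit 493) (nat_lit 3564))) (.a (.f (nat_lit 493) (nat_lit 492) (nat_lit 3564) (.f (nat_lit 494) (nat_lit 529) (nat_lit 3565) (.f (nat_lit 524) (nat_lit 523) (nat_lit 2539) (.f (nat_lit 559) (nat_lit 560) (nat_lit 524) (.d (nat_lit 462) (nat_lit 430) (nat_lit 4526) (nat_lit 591) (nat_lit 7630)))))) (.a (.f (nat_lit 524) (nat_lit 496) (nat_lit 2540) (.f (nat_lit 523) (nat_lit 494) (nat_lit 2539) (.d (nat_lit 555) (nat_lit 554) (nat_lit 1546) (nat_lit 556) (nat_lit 1547)))) (.f (nat_lit 493) (nat_lit 492) (nat_lit 3564) (.p (nat_lit 461) (.a (.f (nat_lit 494) (nat_lit 529) (nat_lit 3565) (.d (nat_lit 558) (nat_lit 429) (nat_lit 4525) (nat_lit 590) (nat_lit 7629))) (.a (.f (nat_lit 429) (nat_lit 558) (nat_lit 4525) (.f (nat_lit 398) (nat_lit 430) (nat_lit 6541) (.f (nat_lit 397) (nat_lit 366) (nat_lit 6509) (.d (nat_lit 396) (nat_lit 364) (nat_lit 7532) (nat_lit 428) (nat_lit 7564))))) (.a (.f (nat_lit 494) (nat_lit 529) (nat_lit 3565) (.f (nat_lit 429) (nat_lit 397) (nat_lit 4493) (.f (nat_lit 430) (nat_lit 398) (nat_lit 6541) (.f (nat_lit 460) (nat_lit 496) (nat_lit 3532) (.d (nat_lit 459) (nat_lit 458) (nat_lit 2474) (nat_lit 462) (nat_lit 459)))))) (.f (nat_lit 494) (nat_lit 529) (nat_lit 3565) (.f (nat_lit 496) (nat_lit 460) (nat_lit 3532) (.f (nat_lit 464) (nat_lit 465) (nat_lit 2509) (.d (nat_lit 432) (nat_lit 400) (nat_lit 5519) (nat_lit 559) (nat_lit 5551))))))))))))))))))))) (.a (.p (nat_lit 463) (.a (.f (nat_lit 431) (nat_lit 560) (nat_lit 4527) (.f (nat_lit 399) (nat_lit 496) (nat_lit 4495) (.d (nat_lit 400) (nat_lit 368) (nat_lit 6511) (nat_lit 432) (nat_lit 6543)))) (.a (.f (nat_lit 431) (nat_lit 560) (nat_lit 4527) (.f (nat_lit 558) (nat_lit 526) (nat_lit 5550) (.f (nat_lit 559) (nat_lit 590) (nat_lit 5582) (.d (nat_lit 432) (nat_lit 400) (nat_lit 6543) (nat_lit 464) (nat_lit 6575))))) (.a (.p (nat_lit 559) (.a (.f (nat_lit 558) (nat_lit 590) (nat_lit 5582) (.f (nat_lit 526) (nat_lit 431) (nat_lit 5550) (.d (nat_lit 529) (nat_lit 530) (nat_lit 1550) (nat_lit 557) (nat_lit 1549)))) (.a (.f (nat_lit 464) (nat_lit 432) (nat_lit 6575) (.f (nat_lit 591) (nat_lit 496) (nat_lit 6607) (.d (nat_lit 590) (nat_lit 558) (nat_lit 5582) (nat_lit 622) (nat_lit 5614)))) (.a (.f (nat_lit 464) (nat_lit 432) (nat_lit 6575) (.f (nat_lit 591) (nat_lit 496) (nat_lit 6607) (.f (nat_lit 622) (nat_lit 590) (nat_lit 5614) (.f (nat_lit 623) (nat_lit 654) (nat_lit 5646) (.d (nat_lit 624) (nat_lit 592) (nat_lit 4591) (nat_lit 656) (nat_lit 4623)))))) (.f (nat_lit 464) (nat_lit 432) (nat_lit 6575) (.f (nat_lit 496) (nat_lit 591) (nat_lit 6607) (.f (nat_lit 431) (nat_lit 399) (nat_lit 4495) (.d (nat_lit 430) (nat_lit 398) (nat_lit 7566) (nat_lit 462) (nat_lit 7598))))))))) (.a s126985 (.f (nat_lit 431) (nat_lit 560) (nat_lit 4527) (.f (nat_lit 399) (nat_lit 496) (nat_lit 4495) (.d (nat_lit 398) (nat_lit 366) (nat_lit 7534) (nat_lit 430) (nat_lit 7566))))))))) (.a (.p (nat_lit 463) (.a (.f (nat_lit 431) (nat_lit 560) (nat_lit 4527) (.f (nat_lit 399) (nat_lit 496) (nat_lit 4495) (.d (nat_lit 526) (nat_lit 494) (nat_lit 5518) (nat_lit 558) (nat_lit 5550)))) (.a (.f (nat_lit 431) (nat_lit 560) (nat_lit 4527) (.f (nat_lit 558) (nat_lit 526) (nat_lit 5550) (.f (nat_lit 559) (nat_lit 590) (nat_lit 5582) (.d (nat_lit 432) (nat_lit 400) (nat_lit 6543) (nat_lit 464) (nat_lit 6575))))) (.a (.p (nat_lit 559) (.a (.f (nat_lit 464) (nat_lit 432) (nat_lit 6575) (.f (nat_lit 591) (nat_lit 496) (nat_lit 6607) (.d (nat_lit 590) (nat_lit 558) (nat_lit 5582) (nat_lit 622) (nat_lit 5614)))) (.a (.f (nat_lit 558) (nat_lit 590) (nat_lit 5582) (.f (nat_lit 431) (nat_lit 526) (nat_lit 5550) (.d (nat_lit 432) (nat_lit 400) (nat_lit 6543) (nat_lit 464) (nat_lit 6575)))) (.a (.f (nat_lit 558) (nat_lit 590) (nat_lit 5582) (.f (nat_lit 431) (nat_lit 526) (nat_lit 5550) (.d (nat_lit 430) (nat_lit 398) (nat_lit 7566) (nat_lit 462) (nat_lit 7598)))) (.f (nat_lit 464) (nat_lit 432) (nat_lit 6575) (.f (nat_lit 591) (nat_lit 496) (nat_lit 6607) (.d (nat_lit 462) (nat_lit 430) (nat_lit 7598) (nat_lit 494) (nat_lit 7630)))))))) (.a (.p (nat_lit 559) (.a (.f (nat_lit 464) (nat_lit 432) (nat_lit 6575) (.f (nat_lit 591) (nat_lit 496) (nat_lit 6607) (.d (nat_lit 590) (nat_lit 558) (nat_lit 5582) (nat_lit 622) (nat_lit 5614)))) (.a (.f (nat_lit 462) (nat_lit 430) (nat_lit 7598) (.f (nat_lit 494) (nat_lit 591) (nat_lit 7630) (.f (nat_lit 464) (nat_lit 432) (nat_lit 6575) (.d (nat_lit 493) (nat_lit 465) (nat_lit 1485) (nat_lit 492) (nat_lit 2508))))) (.f (nat_lit 560) (nat_lit 592) (nat_lit 4559) (.f (nat_lit 558) (nat_lit 590) (nat_lit 5582) (.f (nat_lit 557) (nat_lit 556) (nat_lit 2572) (.f (nat_lit 462) (nat_lit 430) (nat_lit 7598) (.f (nat_lit 525) (nat_lit 524) (nat_lit 3596) (.f (nat_lit 589) (nat_lit 588) (nat_lit 1580) (.d (nat_lit 494) (nat_lit 493) (nat_lit 6605) (nat_lit 526) (nat_lit 5581))))))))))) (.f (nat_lit 431) (nat_lit 560) (nat_lit 4527) (.f (nat_lit 399) (nat_lit 496) (nat_lit 4495) (.d (nat_lit 400) (nat_lit 368) (nat_lit 6511) (nat_lit 432) (nat_lit 6543))))))))) (.a (.p (nat_lit 559) (.a (.p (nat_lit 494) (.a (.f (nat_lit 591) (nat_lit 462) (nat_lit 7630) (.d (nat_lit 496) (nat_lit 464) (nat_lit 6607) (nat_lit 623) (nat_lit 6639))) (.a (.f (nat_lit 591) (nat_lit 462) (nat_lit 7630) (.f (nat_lit 526) (nat_lit 623) (nat_lit 7662) (.d (nat_lit 529) (nat_lit 493) (nat_lit 3565) (nat_lit 530) (nat_lit 3566)))) (.f (nat_lit 493) (nat_lit 492) (nat_lit 492) (.d (nat_lit 529) (nat_lit 496) (nat_lit 493) (nat_lit 530) (nat_lit 3566)))))) (.a (.p (nat_lit 494) (.a (.f (nat_lit 591) (nat_lit 462) (nat_lit 7630) (.f (nat_lit 526) (nat_lit 623) (nat_lit 7662) (.d (nat_lit 529) (nat_lit 493) (nat_lit 3565) (nat_lit 530) (nat_lit 3566)))) (.a (.f (nat_lit 591) (nat_lit 462) (nat_lit 7630) (.f (nat_lit 623) (nat_lit 526) (nat_lit 7662) (.d (nat_lit 622) (nat_lit 590) (nat_lit 5614) (nat_lit 654) (nat_lit 5646)))) (.a (.f (nat_lit 591) (nat_lit 462) (nat_lit 7630) (.f (nat_lit 590) (nat_lit 622) (nat_lit 5614) (.f (nat_lit 558) (nat_lit 463) (nat_lit 5582) (.f (nat_lit 592) (nat_lit 624) (nat_lit 4591) (.d (nat_lit 593) (nat_lit 557) (nat_lit 3629) (nat_lit 594) (nat_lit 3630)))))) (.f (nat_lit 529) (nat_lit 530) (nat_lit 3566) (.d (nat_lit 493) (nat_lit 492) (nat_lit 492) (nat_lit 526) (nat_lit 3565))))))) (.a (.p (nat_lit 463) (.a (.f (nat_lit 558) (nat_lit 590) (nat_lit 5582) (.f (nat_lit 526) (nat_lit 431) (nat_lit 5550) (.d (nat_lit 529) (nat_lit 530) (nat_lit 1550) (nat_lit 557) (nat_lit 1549)))) (.a (.f (nat_lit 464) (nat_lit 432) (nat_lit 6575) (.f (nat_lit 591) (nat_lit 496) (nat_lit 6607) (.d (nat_lit 590) (nat_lit 558) (nat_lit 5582) (nat_lit 622) (nat_lit 5614)))) (.a (.f (nat_lit 464) (nat_lit 432) (nat_lit 6575) (.f (nat_lit 591) (nat_lit 496) (nat_lit 6607) (.f (nat_lit 622) (nat_lit 590) (nat_lit 5614) (.f (nat_lit 623) (nat_lit 654) (nat_lit 5646) (.d (nat_lit 624) (nat_lit 592) (nat_lit 4591) (nat_lit 656) (nat_lit 4623)))))) (.f (nat_lit 464) (nat_lit 432) (nat_lit 6575) (.f (nat_lit 496) (nat_lit 591) (nat_lit 6607) (.f (nat_lit 431) (nat_lit 399) (nat_lit 4495) (.d (nat_lit 430) (nat_lit 398) (nat_lit 7566) (nat_lit 462) (nat_lit 7598))))))))) (.a (.p (nat_lit 463) (.a (.f (nat_lit 464) (nat_lit 432) (nat_lit 6575) (.f (nat_lit 591) (nat_lit 496) (nat_lit 6607) (.d (nat_lit 590) (nat_lit 558) (nat_lit 5582) (nat_lit 622) (nat_lit 5614)))) (.a (.f (nat_lit 558) (nat_lit 590) (nat_lit 5582) (.f (nat_lit 431) (nat_lit 526) (nat_lit 5550) (.d (nat_lit 432) (nat_lit 400) (nat_lit 6543) (nat_lit 464) (nat_lit 6575)))) (.a (.f (nat_lit 558) (nat_lit 590) (nat_lit 5582) (.f (nat_lit 431) (nat_lit 526) (nat_lit 5550) (.d (nat_lit 430) (nat_lit 398) (nat_lit 7566) (nat_lit 462) (nat_lit 7598)))) (.f (nat_lit 464) (nat_lit 432) (nat_lit 6575) (.f (nat_lit 591) (nat_lit 496) (nat_lit 6607) (.d (nat_lit 462) (nat_lit 430) (nat_lit 7598) (nat_lit 494) (nat_lit 7630)))))))) (.a (.p (nat_lit 494) (.a (.f (nat_lit 591) (nat_lit 462) (nat_lit 7630) (.d (nat_lit 496) (nat_lit 464) (nat_lit 6607) (nat_lit 623) (nat_lit 6639))) (.a (.f (nat_lit 591) (nat_lit 462) (nat_lit 7630) (.f (nat_lit 590) (nat_lit 622) (nat_lit 5614) (.f (nat_lit 558) (nat_lit 463) (nat_lit 5582) (.f (nat_lit 592) (nat_lit 624) (nat_lit 4591) (.d (nat_lit 593) (nat_lit 557) (nat_lit 3629) (nat_lit 594) (nat_lit 3630)))))) (.f (nat_lit 493) (nat_lit 492) (nat_lit 492) (.d (nat_lit 529) (nat_lit 496) (nat_lit 493) (nat_lit 530) (nat_lit 3566)))))) (.a (.p (nat_lit 463) (.a (.f (nat_lit 558) (nat_lit 590) (nat_lit 5582) (.f (nat_lit 526) (nat_lit 431) (nat_lit 5550) (.d (nat_lit 529) (nat_lit 530) (nat_lit 1550) (nat_lit 557) (nat_lit 1549)))) (.a (.f (nat_lit 558) (nat_lit 590) (nat_lit 5582) (.f (nat_lit 431) (nat_lit 526) (nat_lit 5550) (.d (nat_lit 432) (nat_lit 400) (nat_lit 6543) (nat_lit 464) (nat_lit 6575)))) (.a (.f (nat_lit 558) (nat_lit 590) (nat_lit 5582) (.f (nat_lit 557) (nat_lit 556) (nat_lit 2572) (.d (nat_lit 529) (nat_lit 526) (nat_lit 1549) (nat_lit 530) (nat_lit 1550)))) (.f (nat_lit 432) (nat_lit 464) (nat_lit 6575) (.f (nat_lit 431) (nat_lit 400) (nat_lit 6543) (.d (nat_lit 430) (nat_lit 398) (nat_lit 7566) (nat_lit 462) (nat_lit 7598)))))))) (.p (nat_lit 463) (.a (.f (nat_lit 558) (nat_lit 590) (nat_lit 5582) (.f (nat_lit 526) (nat_lit 431) (nat_lit 5550) (.d (nat_lit 529) (nat_lit 530) (nat_lit 1550) (nat_lit 557) (nat_lit 1549)))) (.a (.f (nat_lit 464) (nat_lit 432) (nat_lit 6575) (.f (nat_lit 591) (nat_lit 496) (nat_lit 6607) (.d (nat_lit 590) (nat_lit 558) (nat_lit 5582) (nat_lit 622) (nat_lit 5614)))) (.a (.f (nat_lit 464) (nat_lit 432) (nat_lit 6575) (.f (nat_lit 591) (nat_lit 496) (nat_lit 6607) (.f (nat_lit 622) (nat_lit 590) (nat_lit 5614) (.f (nat_lit 623) (nat_lit 654) (nat_lit 5646) (.d (nat_lit 624) (nat_lit 592) (nat_lit 4591) (nat_lit 656) (nat_lit 4623)))))) (.f (nat_lit 464) (nat_lit 432) (nat_lit 6575) (.f (nat_lit 496) (nat_lit 591) (nat_lit 6607) (.f (nat_lit 431) (nat_lit 399) (nat_lit 4495) (.f (nat_lit 430) (nat_lit 398) (nat_lit 7566) (.f (nat_lit 465) (nat_lit 466) (nat_lit 3502) (.f (nat_lit 493) (nat_lit 494) (nat_lit 2509) (.f (nat_lit 526) (nat_lit 558) (nat_lit 5550) (.d (nat_lit 525) (nat_lit 492) (nat_lit 3564) (nat_lit 524) (nat_lit 2540)))))))))))))))))))) (.a (.p (nat_lit 526) (.a (.p (nat_lit 525) (.a (.f (nat_lit 524) (nat_lit 496) (nat_lit 2540) (.d (nat_lit 556) (nat_lit 555) (nat_lit 1547) (nat_lit 557) (nat_lit 1548))) (.a (.f (nat_lit 493) (nat_lit 492) (nat_lit 3564) (.f (nat_lit 494) (nat_lit 529) (nat_lit 3565) (.f (nat_lit 557) (nat_lit 556) (nat_lit 1548) (.d (nat_lit 462) (nat_lit 430) (nat_lit 5549) (nat_lit 589) (nat_lit 6605))))) (.f (nat_lit 524) (nat_lit 496) (nat_lit 2540) (.d (nat_lit 492) (nat_lit 491) (nat_lit 3563) (nat_lit 493) (nat_lit 3564)))))) (.a (.p (nat_lit 525) (.a (.f (nat_lit 493) (nat_lit 492) (nat_lit 3564) (.f (nat_lit 494) (nat_lit 529) (nat_lit 3565) (.f (nat_lit 557) (nat_lit 556) (nat_lit 1548) (.d (nat_lit 462) (nat_lit 430) (nat_lit 5549) (nat_lit 589) (nat_lit 6605))))) (.a (.f (nat_lit 492) (nat_lit 493) (nat_lit 3564) (.f (nat_lit 524) (nat_lit 491) (nat_lit 3563) (.d (nat_lit 556) (nat_lit 555) (nat_lit 1547) (nat_lit 557) (nat_lit 1548)))) (.a (.f (nat_lit 557) (nat_lit 556) (nat_lit 1548) (.f (nat_lit 558) (nat_lit 529) (nat_lit 1549) (.f (nat_lit 590) (nat_lit 622) (nat_lit 6638) (.d (nat_lit 463) (nat_lit 431) (nat_lit 5550) (nat_lit 494) (nat_lit 6606))))) (.a (.f (nat_lit 492) (nat_lit 493) (nat_lit 3564) (.f (nat_lit 524) (nat_lit 491) (nat_lit 3563) (.f (nat_lit 523) (nat_lit 494) (nat_lit 2539) (.d (nat_lit 555) (nat_lit 554) (nat_lit 1546) (nat_lit 556) (nat_lit 1547))))) (.f (nat_lit 492) (nat_lit 493) (nat_lit 3564) (.f (nat_lit 524) (nat_lit 491) (nat_lit 3563) (.f (nat_lit 494) (nat_lit 523) (nat_lit 2539) (.f (nat_lit 529) (nat_lit 530) (nat_lit 3566) (.f (nat_lit 558) (nat_lit 557) (nat_lit 1549) (.d (nat_lit 463) (nat_lit 431) (nat_lit 5550) (nat_lit 590) (nat_lit 6606)))))))))))) (.a s126895 (.a (.p (nat_lit 525) (.a (.f (nat_lit 524) (nat_lit 496) (nat_lit 2540) (.d (nat_lit 556) (nat_lit 555) (nat_lit 1547) (nat_lit 557) (nat_lit 1548))) (.a (.f (nat_lit 492) (nat_lit 493) (nat_lit 3564) (.f (nat_lit 524) (nat_lit 491) (nat_lit 3563) (.d (nat_lit 556) (nat_lit 555) (nat_lit 1547) (nat_lit 557) (nat_lit 1548)))) (.a (.p (nat_lit 558) (.a (.f (nat_lit 493) (nat_lit 492) (nat_lit 3564) (.f (nat_lit 590) (nat_lit 622) (nat_lit 7661) (.d (nat_lit 494) (nat_lit 461) (nat_lit 7629) (nat_lit 463) (nat_lit 6606)))) (.a (.f (nat_lit 493) (nat_lit 492) (nat_lit 3564) (.f (nat_lit 590) (nat_lit 622) (nat_lit 7661) (.d (nat_lit 461) (nat_lit 494) (nat_lit 7629) (nat_lit 557) (nat_lit 4557)))) (.a (.f (nat_lit 493) (nat_lit 492) (nat_lit 3564) (.f (nat_lit 590) (nat_lit 622) (nat_lit 6638) (.d (nat_lit 557) (nat_lit 461) (nat_lit 4557) (nat_lit 556) (nat_lit 1548)))) (.a (.f (nat_lit 463) (nat_lit 431) (nat_lit 5550) (.d (nat_lit 590) (nat_lit 494) (nat_lit 6606) (nat_lit 622) (nat_lit 6638))) (.f (nat_lit 463) (nat_lit 431) (nat_lit 5550) (.f (nat_lit 493) (nat_lit 492) (nat_lit 3564) (.f (nat_lit 557) (nat_lit 556) (nat_lit 1548) (.f (nat_lit 461) (nat_lit 429) (nat_lit 4525) (.f (nat_lit 462) (nat_lit 430) (nat_lit 6573) (.d (nat_lit 460) (nat_lit 428) (nat_lit 7596) (nat_lit 496) (nat_lit 460)))))))))))) (.f (nat_lit 524) (nat_lit 496) (nat_lit 2540) (.d (nat_lit 492) (nat_lit 491) (nat_lit 3563) (nat_lit 493) (nat_lit 3564))))))) (.a (.p (nat_lit 525) (.a (.f (nat_lit 524) (nat_lit 496) (nat_lit 2540) (.d (nat_lit 556) (nat_lit 555) (nat_lit 1547) (nat_lit 557) (nat_lit 1548))) (.a (.f (nat_lit 557) (nat_lit 556) (nat_lit 1548) (.f (nat_lit 558) (nat_lit 529) (nat_lit 1549) (.f (nat_lit 590) (nat_lit 622) (nat_lit 6638) (.d (nat_lit 463) (nat_lit 431) (nat_lit 5550) (nat_lit 494) (nat_lit 6606))))) (.a (.f (nat_lit 524) (nat_lit 496) (nat_lit 2540) (.f (nat_lit 523) (nat_lit 494) (nat_lit 2539) (.d (nat_lit 555) (nat_lit 554) (nat_lit 1546) (nat_lit 556) (nat_lit 1547)))) (.f (nat_lit 524) (nat_lit 496) (nat_lit 2540) (.f (nat_lit 523) (nat_lit 494) (nat_lit 2539) (.d (nat_lit 491) (nat_lit 490) (nat_lit 3562) (nat_lit 492) (nat_lit 3563)))))))) (.a (.p (nat_lit 558) (.a (.f (nat_lit 463) (nat_lit 431) (nat_lit 5550) (.d (nat_lit 590) (nat_lit 494) (nat_lit 6606) (nat_lit 622) (nat_lit 6638))) (.a (.f (nat_lit 529) (nat_lit 557) (nat_lit 1549) (.d (nat_lit 494) (nat_lit 493) (nat_lit 3565) (nat_lit 530) (nat_lit 3566))) (.p (nat_lit 592) (.a (.f (nat_lit 560) (nat_lit 624) (nat_lit 7663) (.d (nat_lit 463) (nat_lit 431) (nat_lit 5550) (nat_lit 496) (nat_lit 7631))) (.f (nat_lit 557) (nat_lit 529) (nat_lit 1549) (.f (nat_lit 590) (nat_lit 622) (nat_lit 6638) (.f (nat_lit 591) (nat_lit 593) (nat_lit 3629) (.d (nat_lit 556) (nat_lit 555) (nat_lit 2571) (nat_lit 589) (nat_lit 3628)))))))))) (.a (.p (nat_lit 463) (.a (.d (nat_lit 431) (nat_lit 558) (nat_lit 5550) (nat_lit 560) (nat_lit 4527)) (.a (.f (nat_lit 431) (nat_lit 558) (nat_lit 5550) (.d (nat_lit 399) (nat_lit 494) (nat_lit 5518) (nat_lit 496) (nat_lit 4495))) (.a (.p (nat_lit 525) (.a (.f (nat_lit 493) (nat_lit 492) (nat_lit 3564) (.f (nat_lit 494) (nat_lit 529) (nat_lit 3565) (.d (nat_lit 524) (nat_lit 496) (nat_lit 2540) (nat_lit 523) (nat_lit 2539)))) (.a (.f (nat_lit 492) (nat_lit 493) (nat_lit 3564) (.f (nat_lit 524) (nat_lit 491) (nat_lit 3563) (.f (nat_lit 523) (nat_lit 494) (nat_lit 2539) (.d (nat_lit 555) (nat_lit 554) (nat_lit 1546) (nat_lit 556) (nat_lit 1547))))) (.a (.f (nat_lit 524) (nat_lit 496) (nat_lit 2540) (.d (nat_lit 492) (nat_lit 491) (nat_lit 3563) (nat_lit 493) (nat_lit 3564))) (.a (.f (nat_lit 524) (nat_lit 496) (nat_lit 2540) (.f (nat_lit 523) (nat_lit 494) (nat_lit 2539) (.d (nat_lit 555) (nat_lit 554) (nat_lit 1546) (nat_lit 556) (nat_lit 1547)))) (.f (nat_lit 493) (nat_lit 492) (nat_lit 3564) (.f (nat_lit 494) (nat_lit 529) (nat_lit 3565) (.f (nat_lit 558) (nat_lit 590) (nat_lit 6606) (.f (nat_lit 461) (nat_lit 429) (nat_lit 4525) (.f (nat_lit 460) (nat_lit 496) (nat_lit 3532) (.d (nat_lit 459) (nat_lit 458) (nat_lit 458) (nat_lit 462) (nat_lit 459)))))))))))) (.f (nat_lit 431) (nat_lit 560) (nat_lit 4527) (.d (nat_lit 399) (nat_lit 494) (nat_lit 5518) (nat_lit 496) (nat_lit 4495))))))) (.p (nat_lit 463) (.a (.d (nat_lit 431) (nat_lit 558) (nat_lit 5550) (nat_lit 560) (nat_lit 4527)) (.a (.f (nat_lit 431) (nat_lit 558) (nat_lit 5550) (.d (nat_lit 399) (nat_lit 494) (nat_lit 5518) (nat_lit 496) (nat_lit 4495))) (.a (.p (nat_lit 525) (.a (.f (nat_lit 493) (nat_lit 492) (nat_lit 3564) (.f (nat_lit 494) (nat_lit 529) (nat_lit 3565) (.d (nat_lit 524) (nat_lit 496) (nat_lit 2540) (nat_lit 523) (nat_lit 2539)))) (.a (.f (nat_lit 492) (nat_lit 493) (nat_lit 3564) (.f (nat_lit 524) (nat_lit 491) (nat_lit 3563) (.f (nat_lit 494) (nat_lit 523) (nat_lit 2539) (.f (nat_lit 558) (nat_lit 590) (nat_lit 6606) (.d (nat_lit 529) (nat_lit 530) (nat_lit 3566) (nat_lit 557) (nat_lit 1549)))))) (.a (.f (nat_lit 524) (nat_lit 496) (nat_lit 2540) (.d (nat_lit 492) (nat_lit 491) (nat_lit 3563) (nat_lit 493) (nat_lit 3564))) (.a (.f (nat_lit 524) (nat_lit 496) (nat_lit 2540) (.f (nat_lit 494) (nat_lit 523) (nat_lit 2539) (.f (nat_lit 558) (nat_lit 590) (nat_lit 6606) (.d (nat_lit 529) (nat_lit 530) (nat_lit 3566) (nat_lit 557) (nat_lit 1549))))) (.f (nat_lit 493) (nat_lit 492) (nat_lit 3564) (.f (nat_lit 494) (nat_lit 529) (nat_lit 3565) (.f (nat_lit 558) (nat_lit 590) (nat_lit 6606) (.f (nat_lit 461) (nat_lit 429) (nat_lit 4525) (.f (nat_lit 460) (nat_lit 496) (nat_lit 3532) (.d (nat_lit 459) (nat_lit 458) (nat_lit 458) (nat_lit 462) (nat_lit 459)))))))))))) (.f (nat_lit 431) (nat_lit 560) (nat_lit 4527) (.d (nat_lit 399) (nat_lit 494) (nat_lit 5518) (nat_lit 496) (nat_lit 4495))))))))))))))) (.a (.p (nat_lit 463) (.a (.f (nat_lit 431) (nat_lit 560) (nat_lit 4527) (.f (nat_lit 399) (nat_lit 496) (nat_lit 4495) (.d (nat_lit 400) (nat_lit 368) (nat_lit 6511) (nat_lit 432) (nat_lit 6543)))) (.a (.f (nat_lit 431) (nat_lit 560) (nat_lit 4527) (.f (nat_lit 430) (nat_lit 398) (nat_lit 7566) (.f (nat_lit 432) (nat_lit 400) (nat_lit 6543) (.d (nat_lit 559) (nat_lit 462) (nat_lit 7598) (nat_lit 464) (nat_lit 6575))))) (.a (.p (nat_lit 559) (.a (.f (nat_lit 464) (nat_lit 432) (nat_lit 6575) (.f (nat_lit 591) (nat_lit 496) (nat_lit 6607) (.d (nat_lit 590) (nat_lit 558) (nat_lit 5582) (nat_lit 622) (nat_lit 5614)))) (.a (.f (nat_lit 462) (nat_lit 430) (nat_lit 7598) (.f (nat_lit 494) (nat_lit 591) (nat_lit 7630) (.f (nat_lit 464) (nat_lit 432) (nat_lit 6575) (.d (nat_lit 493) (nat_lit 465) (nat_lit 1485) (nat_lit 492) (nat_lit 2508))))) (.a (.f (nat_lit 432) (nat_lit 464) (nat_lit 6575) (.f (nat_lit 431) (nat_lit 400) (nat_lit 6543) (.d (nat_lit 430) (nat_lit 398) (nat_lit 7566) (nat_lit 462) (nat_lit 7598)))) (.f (nat_lit 462) (nat_lit 430) (nat_lit 7598) (.f (nat_lit 591) (nat_lit 494) (nat_lit 7630) (.f (nat_lit 623) (nat_lit 496) (nat_lit 6639) (.d (nat_lit 624) (nat_lit 592) (nat_lit 4591) (nat_lit 656) (nat_lit 4623))))))))) (.a (.p (nat_lit 559) (.a (.f (nat_lit 464) (nat_lit 432) (nat_lit 6575) (.f (nat_lit 591) (nat_lit 496) (nat_lit 6607) (.d (nat_lit 590) (nat_lit 558) (nat_lit 5582) (nat_lit 622) (nat_lit 5614)))) (.a (.f (nat_lit 462) (nat_lit 430) (nat_lit 7598) (.f (nat_lit 494) (nat_lit 591) (nat_lit 7630) (.f (nat_lit 464) (nat_lit 432) (nat_lit 6575) (.d (nat_lit 493) (nat_lit 465) (nat_lit 1485) (nat_lit 492) (nat_lit 2508))))) (.f (nat_lit 560) (nat_lit 592) (nat_lit 4559) (.f (nat_lit 558) (nat_lit 590) (nat_lit 5582) (.d (nat_lit 529) (nat_lit 530) (nat_lit 1550) (nat_lit 557) (nat_lit 2573))))))) (.f (nat_lit 431) (nat_lit 560) (nat_lit 4527) (.f (nat_lit 399) (nat_lit 496) (nat_lit 4495) (.d (nat_lit 398) (nat_lit 366) (nat_lit 7534) (nat_lit 430) (nat_lit 7566))))))))) (.a (.p (nat_lit 558) (.a (.p (nat_lit 526) (.a (.f (nat_lit 463) (nat_lit 431) (nat_lit 5550) (.d (nat_lit 590) (nat_lit 559) (nat_lit 5582) (nat_lit 622) (nat_lit 6638))) (.f (nat_lit 529) (nat_lit 557) (nat_lit 1549) (.d (nat_lit 494) (nat_lit 493) (nat_lit 3565) (nat_lit 530) (nat_lit 3566))))) (.a (.p (nat_lit 529) (.a (.d (nat_lit 530) (nat_lit 494) (nat_lit 3566) (nat_lit 559) (nat_lit 1550)) (.a (.f (nat_lit 530) (nat_lit 559) (nat_lit 1550) (.f (nat_lit 531) (nat_lit 496) (nat_lit 3567) (.d (nat_lit 499) (nat_lit 498) (nat_lit 2543) (nat_lit 500) (nat_lit 2544)))) (.a (.f (nat_lit 530) (nat_lit 494) (nat_lit 3566) (.f (nat_lit 531) (nat_lit 496) (nat_lit 3567) (.d (nat_lit 499) (nat_lit 498) (nat_lit 2543) (nat_lit 500) (nat_lit 2544)))) (.f (nat_lit 526) (nat_lit 557) (nat_lit 1549) (.f (nat_lit 493) (nat_lit 494) (nat_lit 3565) (.f (nat_lit 525) (nat_lit 492) (nat_lit 3564) (.f (nat_lit 524) (nat_lit 496) (nat_lit 2540) (.d (nat_lit 559) (nat_lit 523) (nat_lit 523) (nat_lit 560) (nat_lit 524)))))))))) (.a (.p (nat_lit 526) (.a (.f (nat_lit 463) (nat_lit 431) (nat_lit 5550) (.d (nat_lit 590) (nat_lit 559) (nat_lit 5582) (nat_lit 622) (nat_lit 6638))) (.f (nat_lit 557) (nat_lit 529) (nat_lit 1549) (.d (nat_lit 556) (nat_lit 525) (nat_lit 1548) (nat_lit 555) (nat_lit 2571))))) (.a s127110 (.a (.p (nat_lit 526) (.a (.f (nat_lit 463) (nat_lit 431) (nat_lit 5550) (.d (nat_lit 590) (nat_lit 494) (nat_lit 6606) (nat_lit 622) (nat_lit 6638))) (.a (.f (nat_lit 529) (nat_lit 557) (nat_lit 1549) (.d (nat_lit 494) (nat_lit 493) (nat_lit 3565) (nat_lit 530) (nat_lit 3566))) (.f (nat_lit 557) (nat_lit 529) (nat_lit 1549) (.d (nat_lit 556) (nat_lit 525) (nat_lit 1548) (nat_lit 555) (nat_lit 2571)))))) (.a (.p (nat_lit 463) (.a (.f (nat_lit 559) (nat_lit 590) (nat_lit 5582) (.d (nat_lit 560) (nat_lit 431) (nat_lit 4527) (nat_lit 592) (nat_lit 4559))) (.a (.f (nat_lit 559) (nat_lit 590) (nat_lit 5582) (.f (nat_lit 432) (nat_lit 464) (nat_lit 6575) (.f (nat_lit 431) (nat_lit 400) (nat_lit 6543) (.d (nat_lit 430) (nat_lit 398) (nat_lit 7566) (nat_lit 462) (nat_lit 7598))))) (.a (.f (nat_lit 431) (nat_lit 560) (nat_lit 4527) (.f (nat_lit 399) (nat_lit 496) (nat_lit 4495) (.d (nat_lit 400) (nat_lit 368) (nat_lit 6511) (nat_lit 432) (nat_lit 6543)))) (.f (nat_lit 559) (nat_lit 590) (nat_lit 5582) (.f (nat_lit 560) (nat_lit 592) (nat_lit 4559) (.d (nat_lit 529) (nat_lit 530) (nat_lit 1550) (nat_lit 557) (nat_lit 2573)))))))) (.p (nat_lit 463) (.a (.d (nat_lit 431) (nat_lit 526) (nat_lit 5550) (nat_lit 560) (nat_lit 4527)) (.a (.f (nat_lit 431) (nat_lit 526) (nat_lit 5550) (.f (nat_lit 559) (nat_lit 590) (nat_lit 5582) (.d (nat_lit 432) (nat_lit 400) (nat_lit 6543) (nat_lit 464) (nat_lit 6575)))) (.a (.f (nat_lit 590) (nat_lit 559) (nat_lit 5582) (.d (nat_lit 526) (nat_lit 494) (nat_lit 6606) (nat_lit 622) (nat_lit 6638))) (.f (nat_lit 559) (nat_lit 590) (nat_lit 5582) (.d (nat_lit 560) (nat_lit 431) (nat_lit 4527) (nat_lit 592) (nat_lit 4559)))))))))))))) (.a (.p (nat_lit 494) (.a (.f (nat_lit 493) (nat_lit 492) (nat_lit 492) (.d (nat_lit 529) (nat_lit 496) (nat_lit 493) (nat_lit 530) (nat_lit 3566))) (.a (.f (nat_lit 493) (nat_lit 492) (nat_lit 492) (.d (nat_lit 529) (nat_lit 526) (nat_lit 3565) (nat_lit 530) (nat_lit 3566))) (.a (.p (nat_lit 463) (.a (.f (nat_lit 431) (nat_lit 560) (nat_lit 4527) (.d (nat_lit 399) (nat_lit 496) (nat_lit 4495) (nat_lit 526) (nat_lit 5518))) (.a (.f (nat_lit 431) (nat_lit 560) (nat_lit 4527) (.f (nat_lit 399) (nat_lit 526) (nat_lit 5518) (.d (nat_lit 400) (nat_lit 368) (nat_lit 6511) (nat_lit 432) (nat_lit 6543)))) (.a (.p (nat_lit 496) (.a (.f (nat_lit 493) (nat_lit 492) (nat_lit 492) (.f (nat_lit 464) (nat_lit 465) (nat_lit 2509) (.d (nat_lit 559) (nat_lit 432) (nat_lit 6575) (nat_lit 591) (nat_lit 6607)))) (.a (.f (nat_lit 431) (nat_lit 399) (nat_lit 4495) (.f (nat_lit 432) (nat_lit 400) (nat_lit 6543) (.f (nat_lit 464) (nat_lit 559) (nat_lit 5551) (.f (nat_lit 430) (nat_lit 398) (nat_lit 7566) (.d (nat_lit 429) (nat_lit 428) (nat_lit 428) (nat_lit 465) (nat_lit 429)))))) (.a (.f (nat_lit 493) (nat_lit 492) (nat_lit 492) (.f (nat_lit 464) (nat_lit 465) (nat_lit 2509) (.f (nat_lit 432) (nat_lit 400) (nat_lit 5519) (.f (nat_lit 433) (nat_lit 401) (nat_lit 6544) (.d (nat_lit 461) (nat_lit 460) (nat_lit 3532) (nat_lit 462) (nat_lit 2477)))))) (.f (nat_lit 431) (nat_lit 399) (nat_lit 4495) (.f (nat_lit 493) (nat_lit 492) (nat_lit 492) (.f (nat_lit 430) (nat_lit 398) (nat_lit 7566) (.f (nat_lit 462) (nat_lit 559) (nat_lit 7598) (.f (nat_lit 461) (nat_lit 460) (nat_lit 460) (.d (nat_lit 525) (nat_lit 524) (nat_lit 1516) (nat_lit 557) (nat_lit 6573))))))))))) (.p (nat_lit 559) (.a (.d (nat_lit 462) (nat_lit 430) (nat_lit 7598) (nat_lit 591) (nat_lit 7630)) (.a (.f (nat_lit 464) (nat_lit 432) (nat_lit 6575) (.f (nat_lit 493) (nat_lit 492) (nat_lit 492) (.d (nat_lit 465) (nat_lit 462) (nat_lit 1485) (nat_lit 466) (nat_lit 1486)))) (.f (nat_lit 464) (nat_lit 432) (nat_lit 6575) (.f (nat_lit 493) (nat_lit 492) (nat_lit 492) (.d (nat_lit 496) (nat_lit 465) (nat_lit 2509) (nat_lit 591) (nat_lit 6607))))))))))) s133991)))) (.a (.p (nat_lit 463) (.a (.f (nat_lit 431) (nat_lit 560) (nat_lit 4527) (.f (nat_lit 399) (nat_lit 496) (nat_lit 4495) (.d (nat_lit 526) (nat_lit 494) (nat_lit 5518) (nat_lit 558) (nat_lit 5550)))) (.a (.f (nat_lit 431) (nat_lit 560) (nat_lit 4527) (.f (nat_lit 526) (nat_lit 558) (nat_lit 5550) (.f (nat_lit 494) (nat_lit 399) (nat_lit 5518) (.d (nat_lit 529) (nat_lit 493) (nat_lit 3565) (nat_lit 530) (nat_lit 3566))))) (.a (.f (nat_lit 431) (nat_lit 560) (nat_lit 4527) (.f (nat_lit 399) (nat_lit 496) (nat_lit 4495) (.d (nat_lit 400) (nat_lit 368) (nat_lit 6511) (nat_lit 432) (nat_lit 6543)))) (.a (.p (nat_lit 559) (.a (.f (nat_lit 558) (nat_lit 590) (nat_lit 5582) (.f (nat_lit 526) (nat_lit 431) (nat_lit 5550) (.d (nat_lit 529) (nat_lit 530) (nat_lit 1550) (nat_lit 557) (nat_lit 1549)))) (.a (.f (nat_lit 464) (nat_lit 432) (nat_lit 6575) (.f (nat_lit 591) (nat_lit 496) (nat_lit 6607) (.d (nat_lit 590) (nat_lit 558) (nat_lit 5582) (nat_lit 622) (nat_lit 5614)))) (.a (.f (nat_lit 464) (nat_lit 432) (nat_lit 6575) (.f (nat_lit 591) (nat_lit 496) (nat_lit 6607) (.f (nat_lit 622) (nat_lit 590) (nat_lit 5614) (.f (nat_lit 623) (nat_lit 654) (nat_lit 5646) (.d (nat_lit 624) (nat_lit 592) (nat_lit 4591) (nat_lit 656) (nat_lit 4623)))))) (.f (nat_lit 464) (nat_lit 432) (nat_lit 6575) (.f (nat_lit 496) (nat_lit 591) (nat_lit 6607) (.f (nat_lit 431) (nat_lit 399) (nat_lit 4495) (.f (nat_lit 430) (nat_lit 398) (nat_lit 7566) (.f (nat_lit 465) (nat_lit 466) (nat_lit 3502) (.f (nat_lit 493) (nat_lit 494) (nat_lit 2509) (.f (nat_lit 526) (nat_lit 558) (nat_lit 5550) (.d (nat_lit 525) (nat_lit 492) (nat_lit 3564) (nat_lit 524) (nat_lit 2540))))))))))))) s126985))))) (.a (.p (nat_lit 463) (.a (.f (nat_lit 431) (nat_lit 560) (nat_lit 4527) (.f (nat_lit 399) (nat_lit 496) (nat_lit 4495) (.d (nat_lit 526) (nat_lit 494) (nat_lit 5518) (nat_lit 558) (nat_lit 5550)))) (.a (.f (nat_lit 431) (nat_lit 560) (nat_lit 4527) (.f (nat_lit 526) (nat_lit 558) (nat_lit 5550) (.f (nat_lit 494) (nat_lit 399) (nat_lit 5518) (.d (nat_lit 529) (nat_lit 493) (nat_lit 3565) (nat_lit 530) (nat_lit 3566))))) (.a (.f (nat_lit 431) (nat_lit 560) (nat_lit 4527) (.f (nat_lit 399) (nat_lit 496) (nat_lit 4495) (.d (nat_lit 400) (nat_lit 368) (nat_lit 6511) (nat_lit 432) (nat_lit 6543)))) (.a (.p (nat_lit 559) (.a (.f (nat_lit 558) (nat_lit 590) (nat_lit 5582) (.f (nat_lit 526) (nat_lit 431) (nat_lit 5550) (.d (nat_lit 529) (nat_lit 530) (nat_lit 1550) (nat_lit 557) (nat_lit 1549)))) (.a (.f (nat_lit 464) (nat_lit 432) (nat_lit 6575) (.f (nat_lit 591) (nat_lit 496) (nat_lit 6607) (.d (nat_lit 590) (nat_lit 558) (nat_lit 5582) (nat_lit 622) (nat_lit 5614)))) (.a (.f (nat_lit 464) (nat_lit 432) (nat_lit 6575) (.f (nat_lit 591) (nat_lit 496) (nat_lit 6607) (.f (nat_lit 622) (nat_lit 590) (nat_lit 5614) (.f (nat_lit 623) (nat_lit 654) (nat_lit 5646) (.d (nat_lit 624) (nat_lit 592) (nat_lit 4591) (nat_lit 656) (nat_lit 4623)))))) (.f (nat_lit 464) (nat_lit 432) (nat_lit 6575) (.f (nat_lit 496) (nat_lit 591) (nat_lit 6607) (.f (nat_lit 431) (nat_lit 399) (nat_lit 4495) (.f (nat_lit 526) (nat_lit 558) (nat_lit 5550) (.f (nat_lit 525) (nat_lit 524) (nat_lit 2540) (.f (nat_lit 493) (nat_lit 492) (nat_lit 3564) (.d (nat_lit 494) (nat_lit 465) (nat_lit 2509) (nat_lit 529) (nat_lit 3565)))))))))))) s126985))))) (.p (nat_lit 494) (.a (.f (nat_lit 493) (nat_lit 492) (nat_lit 492) (.d (nat_lit 529) (nat_lit 496) (nat_lit 493) (nat_lit 530) (nat_lit 3566))) (.a (.f (nat_lit 493) (nat_lit 492) (nat_lit 492) (.d (nat_lit 529) (nat_lit 526) (nat_lit 3565) (nat_lit 530) (nat_lit 3566))) s133991)))))))))))))))) (.a (.p (nat_lit 496) (.a (.p (nat_lit 560) (.a (.f (nat_lit 592) (nat_lit 463) (nat_lit 7631) (.f (nat_lit 624) (nat_lit 527) (nat_lit 7663) (.d (nat_lit 623) (nat_lit 591) (nat_lit 5615) (nat_lit 655) (nat_lit 5647)))) (.a (.f (nat_lit 592) (nat_lit 463) (nat_lit 7631) (.f (nat_lit 497) (nat_lit 465) (nat_lit 6608) (.f (nat_lit 529) (nat_lit 624) (nat_lit 6640) (.d (nat_lit 494) (nat_lit 493) (nat_lit 493) (nat_lit 530) (nat_lit 494))))) (.a s128016 s128017)))) (.a (.p (nat_lit 494) (.a (.f (nat_lit 493) (nat_lit 529) (nat_lit 493) (.f (nat_lit 464) (nat_lit 465) (nat_lit 2509) (.f (nat_lit 463) (nat_lit 492) (nat_lit 2508) (.d (nat_lit 560) (nat_lit 431) (nat_lit 7599) (nat_lit 592) (nat_lit 7631))))) (.a (.f (nat_lit 493) (nat_lit 529) (nat_lit 493) (.f (nat_lit 465) (nat_lit 464) (nat_lit 2509) (.f (nat_lit 497) (nat_lit 466) (nat_lit 2510) (.d (nat_lit 461) (nat_lit 460) (nat_lit 3532) (nat_lit 462) (nat_lit 3533))))) (.a (.p (nat_lit 497) (.a (.f (nat_lit 465) (nat_lit 466) (nat_lit 2510) (.f (nat_lit 464) (nat_lit 493) (nat_lit 2509) (.d (nat_lit 560) (nat_lit 433) (nat_lit 6576) (nat_lit 592) (nat_lit 6608)))) (.a (.f (nat_lit 465) (nat_lit 466) (nat_lit 2510) (.f (nat_lit 493) (nat_lit 464) (nat_lit 2509) (.d (nat_lit 461) (nat_lit 460) (nat_lit 3532) (nat_lit 462) (nat_lit 3533)))) (.a (.f (nat_lit 462) (nat_lit 461) (nat_lit 3533) (.f (nat_lit 463) (nat_lit 498) (nat_lit 3534) (.f (nat_lit 431) (nat_lit 399) (nat_lit 4495) (.d (nat_lit 560) (nat_lit 464) (nat_lit 7599) (nat_lit 592) (nat_lit 7631))))) (.f (nat_lit 462) (nat_lit 461) (nat_lit 3533) (.f (nat_lit 498) (nat_lit 463) (nat_lit 3534) (.d (nat_lit 466) (nat_lit 465) (nat_lit 2510) (nat_lit 467) (nat_lit 2511)))))))) (.a (.p (nat_lit 497) (.a (.f (nat_lit 462) (nat_lit 461) (nat_lit 3533) (.f (nat_lit 463) (nat_lit 498) (nat_lit 3534) (.f (nat_lit 431) (nat_lit 399) (nat_lit 4495) (.d (nat_lit 560) (nat_lit 464) (nat_lit 7599) (nat_lit 592) (nat_lit 7631))))) (.a (.f (nat_lit 465) (nat_lit 466) (nat_lit 2510) (.f (nat_lit 433) (nat_lit 401) (nat_lit 5520) (.d (nat_lit 560) (nat_lit 464) (nat_lit 6576) (nat_lit 592) (nat_lit 6608)))) (.f (nat_lit 462) (nat_lit 461) (nat_lit 3533) (.f (nat_lit 498) (nat_lit 463) (nat_lit 3534) (.d (nat_lit 466) (nat_lit 465) (nat_lit 2510) (nat_lit 467) (nat_lit 2511))))))) (.f (nat_lit 493) (nat_lit 529) (nat_lit 493) (.f (nat_lit 461) (nat_lit 460) (nat_lit 3532) (.f (nat_lit 525) (nat_lit 524) (nat_lit 1516) (.f (nat_lit 462) (nat_lit 497) (nat_lit 3533) (.d (nat_lit 430) (nat_lit 398) (nat_lit 5517) (nat_lit 557) (nat_lit 6573))))))))))) (.a (.p (nat_lit 560) (.a s128016 (.a (.p (nat_lit 592) (.a (.f (nat_lit 497) (nat_lit 465) (nat_lit 6608) (.f (nat_lit 529) (nat_lit 624) (nat_lit 6640) (.d (nat_lit 494) (nat_lit 493) (nat_lit 493) (nat_lit 530) (nat_lit 494)))) (.a (.f (nat_lit 465) (nat_lit 497) (nat_lit 6608) (.f (nat_lit 464) (nat_lit 433) (nat_lit 6576) (.d (nat_lit 591) (nat_lit 559) (nat_lit 5583) (nat_lit 623) (nat_lit 5615)))) (.f (nat_lit 591) (nat_lit 623) (nat_lit 5615) (.f (nat_lit 593) (nat_lit 625) (nat_lit 4592) (.f (nat_lit 559) (nat_lit 464) (nat_lit 5583) (.d (nat_lit 558) (nat_lit 557) (nat_lit 557) (nat_lit 594) (nat_lit 3630)))))))) (.a s128027 (.a s128028 (.a s128036 (.a s128040 (.a (.p (nat_lit 494) (.a (.f (nat_lit 493) (nat_lit 529) (nat_lit 493) (.f (nat_lit 461) (nat_lit 460) (nat_lit 3532) (.f (nat_lit 525) (nat_lit 524) (nat_lit 1516) (.f (nat_lit 462) (nat_lit 497) (nat_lit 3533) (.d (nat_lit 430) (nat_lit 398) (nat_lit 5517) (nat_lit 557) (nat_lit 6573)))))) (.a (.p (nat_lit 497) (.a (.d (nat_lit 465) (nat_lit 466) (nat_lit 2510) (nat_lit 592) (nat_lit 6608)) (.f (nat_lit 461) (nat_lit 462) (nat_lit 3533) (.f (nat_lit 493) (nat_lit 460) (nat_lit 3532) (.f (nat_lit 524) (nat_lit 525) (nat_lit 1516) (.d (nat_lit 492) (nat_lit 523) (nat_lit 1515) (nat_lit 527) (nat_lit 492))))))) (.a (.p (nat_lit 497) (.a (.d (nat_lit 465) (nat_lit 466) (nat_lit 2510) (nat_lit 592) (nat_lit 6608)) (.a (.f (nat_lit 529) (nat_lit 530) (nat_lit 494) (.d (nat_lit 465) (nat_lit 433) (nat_lit 5552) (nat_lit 466) (nat_lit 2510))) (.f (nat_lit 529) (nat_lit 530) (nat_lit 494) (.f (nat_lit 592) (nat_lit 624) (nat_lit 6640) (.f (nat_lit 591) (nat_lit 623) (nat_lit 5615) (.f (nat_lit 593) (nat_lit 625) (nat_lit 4592) (.f (nat_lit 462) (nat_lit 461) (nat_lit 3533) (.f (nat_lit 559) (nat_lit 527) (nat_lit 7630) (.d (nat_lit 558) (nat_lit 557) (nat_lit 557) (nat_lit 594) (nat_lit 3630))))))))))) (.a (.f (nat_lit 493) (nat_lit 529) (nat_lit 493) (.f (nat_lit 460) (nat_lit 461) (nat_lit 3532) (.f (nat_lit 492) (nat_lit 459) (nat_lit 3531) (.d (nat_lit 524) (nat_lit 523) (nat_lit 1515) (nat_lit 525) (nat_lit 1516))))) (.f (nat_lit 529) (nat_lit 493) (nat_lit 493) (.d (nat_lit 530) (nat_lit 497) (nat_lit 494) (nat_lit 527) (nat_lit 3566)))))))) (.p (nat_lit 494) (.a (.f (nat_lit 493) (nat_lit 529) (nat_lit 493) (.f (nat_lit 465) (nat_lit 464) (nat_lit 2509) (.d (nat_lit 497) (nat_lit 466) (nat_lit 2510) (nat_lit 592) (nat_lit 6608)))) (.a (.p (nat_lit 497) (.a (.d (nat_lit 465) (nat_lit 466) (nat_lit 2510) (nat_lit 592) (nat_lit 6608)) (.f (nat_lit 461) (nat_lit 462) (nat_lit 3533) (.f (nat_lit 493) (nat_lit 460) (nat_lit 3532) (.f (nat_lit 524) (nat_lit 525) (nat_lit 1516) (.d (nat_lit 492) (nat_lit 523) (nat_lit 1515) (nat_lit 527) (nat_lit 492))))))) (.a (.p (nat_lit 497) (.a (.d (nat_lit 465) (nat_lit 466) (nat_lit 2510) (nat_lit 592) (nat_lit 6608)) (.a (.f (nat_lit 530) (nat_lit 529) (nat_lit 494) (.f (nat_lit 498) (nat_lit 531) (nat_lit 495) (.f (nat_lit 467) (nat_lit 466) (nat_lit 2511) (.d (nat_lit 499) (nat_lit 468) (nat_lit 2512) (nat_lit 527) (nat_lit 1519))))) (.f (nat_lit 529) (nat_lit 530) (nat_lit 494) (.d (nat_lit 465) (nat_lit 433) (nat_lit 5552) (nat_lit 592) (nat_lit 6608)))))) (.f (nat_lit 493) (nat_lit 529) (nat_lit 493) (.f (nat_lit 460) (nat_lit 461) (nat_lit 3532) (.f (nat_lit 492) (nat_lit 459) (nat_lit 3531) (.d (nat_lit 524) (nat_lit 523) (nat_lit 1515) (nat_lit 525) (nat_lit 1516))))))))))))))))) (.a (.p (nat_lit 560) (.a (.f (nat_lit 592) (nat_lit 463) (nat_lit 7631) (.f (nat_lit 624) (nat_lit 527) (nat_lit 7663) (.d (nat_lit 623) (nat_lit 591) (nat_lit 5615) (nat_lit 655) (nat_lit 5647)))) (.a (.f (nat_lit 592) (nat_lit 463) (nat_lit 7631) (.f (nat_lit 465) (nat_lit 497) (nat_lit 6608) (.f (nat_lit 464) (nat_lit 433) (nat_lit 6576) (.d (nat_lit 591) (nat_lit 559) (nat_lit 5583) (nat_lit 623) (nat_lit 5615))))) (.a s128027 (.a s128017 (.f (nat_lit 592) (nat_lit 463) (nat_lit 7631) (.f (nat_lit 624) (nat_lit 527) (nat_lit 7663) (.d (nat_lit 625) (nat_lit 593) (nat_lit 4592) (nat_lit 657) (nat_lit 4624))))))))) (.a (.p (nat_lit 560) (.a (.f (nat_lit 592) (nat_lit 463) (nat_lit 7631) (.f (nat_lit 624) (nat_lit 527) (nat_lit 7663) (.d (nat_lit 623) (nat_lit 591) (nat_lit 5615) (nat_lit 655) (nat_lit 5647)))) (.a (.f (nat_lit 592) (nat_lit 463) (nat_lit 7631) (.f (nat_lit 465) (nat_lit 497) (nat_lit 6608) (.f (nat_lit 464) (nat_lit 433) (nat_lit 6576) (.d (nat_lit 591) (nat_lit 559) (nat_lit 5583) (nat_lit 623) (nat_lit 5615))))) (.a s128028 (.a (.p (nat_lit 464) (.a (.f (nat_lit 559) (nat_lit 591) (nat_lit 5583) (.f (nat_lit 432) (nat_lit 527) (nat_lit 5551) (.d (nat_lit 433) (nat_lit 401) (nat_lit 6544) (nat_lit 465) (nat_lit 6576)))) (.a (.f (nat_lit 463) (nat_lit 431) (nat_lit 7599) (.f (nat_lit 465) (nat_lit 433) (nat_lit 6576) (.f (nat_lit 466) (nat_lit 467) (nat_lit 1487) (.f (nat_lit 498) (nat_lit 499) (nat_lit 463) (.f (nat_lit 462) (nat_lit 497) (nat_lit 462) (.f (nat_lit 461) (nat_lit 460) (nat_lit 460) (.d (nat_lit 429) (nat_lit 428) (nat_lit 3500) (nat_lit 430) (nat_lit 3501)))))))) (.a (.f (nat_lit 559) (nat_lit 591) (nat_lit 5583) (.f (nat_lit 432) (nat_lit 527) (nat_lit 5551) (.f (nat_lit 399) (nat_lit 431) (nat_lit 7567) (.f (nat_lit 400) (nat_lit 367) (nat_lit 7535) (.d (nat_lit 401) (nat_lit 369) (nat_lit 6512) (nat_lit 433) (nat_lit 6544)))))) (.f (nat_lit 463) (nat_lit 431) (nat_lit 7599) (.f (nat_lit 559) (nat_lit 591) (nat_lit 5583) (.f (nat_lit 527) (nat_lit 432) (nat_lit 5551) (.f (nat_lit 462) (nat_lit 430) (nat_lit 7598) (.d (nat_lit 461) (nat_lit 460) (nat_lit 460) (nat_lit 497) (nat_lit 461)))))))))) (.f (nat_lit 592) (nat_lit 463) (nat_lit 7631) (.f (nat_lit 624) (nat_lit 527) (nat_lit 7663) (.d (nat_lit 625) (nat_lit 593) (nat_lit 4592) (nat_lit 657) (nat_lit 4624))))))))) (.a (.p (nat_lit 494) (.a (.f (nat_lit 493) (nat_lit 529) (nat_lit 493) (.f (nat_lit 465) (nat_lit 464) (nat_lit 2509) (.f (nat_lit 497) (nat_lit 466) (nat_lit 2510) (.d (nat_lit 461) (nat_lit 460) (nat_lit 3532) (nat_lit 462) (nat_lit 3533))))) (.a s128067 (.a (.p (nat_lit 497) (.a (.f (nat_lit 462) (nat_lit 461) (nat_lit 3533) (.f (nat_lit 498) (nat_lit 463) (nat_lit 3534) (.d (nat_lit 466) (nat_lit 465) (nat_lit 2510) (nat_lit 467) (nat_lit 2511)))) (.a (.f (nat_lit 530) (nat_lit 529) (nat_lit 494) (.f (nat_lit 498) (nat_lit 531) (nat_lit 495) (.d (nat_lit 466) (nat_lit 465) (nat_lit 2510) (nat_lit 467) (nat_lit 2511)))) (.a (.f (nat_lit 462) (nat_lit 461) (nat_lit 3533) (.f (nat_lit 498) (nat_lit 463) (nat_lit 3534) (.f (nat_lit 499) (nat_lit 527) (nat_lit 1519) (.d (nat_lit 467) (nat_lit 466) (nat_lit 2511) (nat_lit 468) (nat_lit 2512))))) (.a (.f (nat_lit 529) (nat_lit 530) (nat_lit 494) (.f (nat_lit 465) (nat_lit 466) (nat_lit 2510) (.f (nat_lit 433) (nat_lit 401) (nat_lit 5520) (.f (nat_lit 432) (nat_lit 400) (nat_lit 7568) (.f (nat_lit 462) (nat_lit 461) (nat_lit 3533) (.f (nat_lit 434) (nat_lit 402) (nat_lit 6545) (.d (nat_lit 463) (nat_lit 431) (nat_lit 1454) (nat_lit 464) (nat_lit 2478)))))))) (.f (nat_lit 530) (nat_lit 529) (nat_lit 494) (.f (nat_lit 498) (nat_lit 531) (nat_lit 495) (.d (nat_lit 462) (nat_lit 461) (nat_lit 3533) (nat_lit 463) (nat_lit 3534))))))))) (.a (.f (nat_lit 493) (nat_lit 529) (nat_lit 493) (.f (nat_lit 492) (nat_lit 527) (nat_lit 492) (.d (nat_lit 464) (nat_lit 463) (nat_lit 2508) (nat_lit 465) (nat_lit 2509)))) (.f (nat_lit 493) (nat_lit 529) (nat_lit 493) (.f (nat_lit 461) (nat_lit 460) (nat_lit 3532) (.f (nat_lit 525) (nat_lit 524) (nat_lit 1516) (.f (nat_lit 462) (nat_lit 497) (nat_lit 3533) (.d (nat_lit 430) (nat_lit 398) (nat_lit 5517) (nat_lit 557) (nat_lit 6573))))))))))) (.a (.p (nat_lit 560) (.a (.f (nat_lit 592) (nat_lit 463) (nat_lit 7631) (.f (nat_lit 624) (nat_lit 527) (nat_lit 7663) (.d (nat_lit 623) (nat_lit 591) (nat_lit 5615) (nat_lit 655) (nat_lit 5647)))) (.a (.f (nat_lit 592) (nat_lit 463) (nat_lit 7631) (.f (nat_lit 591) (nat_lit 623) (nat_lit 5615) (.f (nat_lit 593) (nat_lit 625) (nat_lit 4592) (.f (nat_lit 559) (nat_lit 464) (nat_lit 5583) (.d (nat_lit 558) (nat_lit 557) (nat_lit 557) (nat_lit 594) (nat_lit 3630)))))) (.a s128040 (.a (.p (nat_lit 464) (.a (.f (nat_lit 559) (nat_lit 591) (nat_lit 5583) (.f (nat_lit 432) (nat_lit 527) (nat_lit 5551) (.d (nat_lit 433) (nat_lit 401) (nat_lit 6544) (nat_lit 465) (nat_lit 6576)))) (.a (.f (nat_lit 465) (nat_lit 433) (nat_lit 6576) (.f (nat_lit 463) (nat_lit 431) (nat_lit 7599) (.d (nat_lit 494) (nat_lit 466) (nat_lit 1486) (nat_lit 493) (nat_lit 2509)))) (.a (.f (nat_lit 559) (nat_lit 591) (nat_lit 5583) (.f (nat_lit 432) (nat_lit 527) (nat_lit 5551) (.f (nat_lit 399) (nat_lit 431) (nat_lit 7567) (.f (nat_lit 400) (nat_lit 367) (nat_lit 7535) (.d (nat_lit 401) (nat_lit 369) (nat_lit 6512) (nat_lit 433) (nat_lit 6544)))))) (.f (nat_lit 463) (nat_lit 431) (nat_lit 7599) (.f (nat_lit 559) (nat_lit 591) (nat_lit 5583) (.f (nat_lit 527) (nat_lit 432) (nat_lit 5551) (.f (nat_lit 558) (nat_lit 590) (nat_lit 5582) (.d (nat_lit 557) (nat_lit 529) (nat_lit 2573) (nat_lit 556) (nat_lit 2572)))))))))) (.f (nat_lit 592) (nat_lit 463) (nat_lit 7631) (.f (nat_lit 624) (nat_lit 527) (nat_lit 7663) (.d (nat_lit 625) (nat_lit 593) (nat_lit 4592) (nat_lit 657) (nat_lit 4624))))))))) (.a (.p (nat_lit 494) (.a (.f (nat_lit 493) (nat_lit 529) (nat_lit 493) (.f (nat_lit 465) (nat_lit 464) (nat_lit 2509) (.f (nat_lit 497) (nat_lit 466) (nat_lit 2510) (.d (nat_lit 461) (nat_lit 460) (nat_lit 3532) (nat_lit 462) (nat_lit 3533))))) (.a s128067 (.a (.p (nat_lit 497) (.a (.f (nat_lit 462) (nat_lit 461) (nat_lit 3533) (.f (nat_lit 498) (nat_lit 463) (nat_lit 3534) (.d (nat_lit 466) (nat_lit 465) (nat_lit 2510) (nat_lit 467) (nat_lit 2511)))) (.a (.f (nat_lit 465) (nat_lit 466) (nat_lit 2510) (.f (nat_lit 433) (nat_lit 401) (nat_lit 5520) (.d (nat_lit 560) (nat_lit 464) (nat_lit 6576) (nat_lit 592) (nat_lit 6608)))) (.a (.f (nat_lit 462) (nat_lit 461) (nat_lit 3533) (.f (nat_lit 498) (nat_lit 463) (nat_lit 3534) (.f (nat_lit 499) (nat_lit 527) (nat_lit 1519) (.d (nat_lit 467) (nat_lit 466) (nat_lit 2511) (nat_lit 468) (nat_lit 2512))))) (.f (nat_lit 530) (nat_lit 529) (nat_lit 494) (.f (nat_lit 498) (nat_lit 531) (nat_lit 495) (.d (nat_lit 462) (nat_lit 461) (nat_lit 3533) (nat_lit 463) (nat_lit 3534)))))))) (.a (.f (nat_lit 493) (nat_lit 529) (nat_lit 493) (.f (nat_lit 492) (nat_lit 527) (nat_lit 492) (.d (nat_lit 464) (nat_lit 463) (nat_lit 2508) (nat_lit 465) (nat_lit 2509)))) (.f (nat_lit 493) (nat_lit 529) (nat_lit 493) (.f (nat_lit 461) (nat_lit 460) (nat_lit 3532) (.f (nat_lit 525) (nat_lit 524) (nat_lit 1516) (.f (nat_lit 462) (nat_lit 497) (nat_lit 3533) (.d (nat_lit 430) (nat_lit 398) (nat_lit 5517) (nat_lit 557) (nat_lit 6573))))))))))) (.a (.p (nat_lit 494) (.a (.f (nat_lit 493) (nat_lit 529) (nat_lit 493) (.f (nat_lit 461) (nat_lit 460) (nat_lit 3532) (.f (nat_lit 525) (nat_lit 524) (nat_lit 1516) (.f (nat_lit 462) (nat_lit 497) (nat_lit 3533) (.d (nat_lit 430) (nat_lit 398) (nat_lit 5517) (nat_lit 557) (nat_lit 6573)))))) (.a (.p (nat_lit 497) (.a (.f (nat_lit 462) (nat_lit 461) (nat_lit 3533) (.f (nat_lit 498) (nat_lit 463) (nat_lit 3534) (.d (nat_lit 466) (nat_lit 465) (nat_lit 2510) (nat_lit 467) (nat_lit 2511)))) (.a (.f (nat_lit 461) (nat_lit 462) (nat_lit 3533) (.f (nat_lit 493) (nat_lit 460) (nat_lit 3532) (.f (nat_lit 524) (nat_lit 525) (nat_lit 1516) (.d (nat_lit 492) (nat_lit 523) (nat_lit 1515) (nat_lit 527) (nat_lit 492))))) (.f (nat_lit 466) (nat_lit 465) (nat_lit 2510) (.f (nat_lit 498) (nat_lit 467) (nat_lit 2511) (.f (nat_lit 531) (nat_lit 530) (nat_lit 495) (.d (nat_lit 499) (nat_lit 527) (nat_lit 1519) (nat_lit 532) (nat_lit 496)))))))) (.a (.p (nat_lit 497) (.a (.f (nat_lit 462) (nat_lit 461) (nat_lit 3533) (.f (nat_lit 498) (nat_lit 463) (nat_lit 3534) (.d (nat_lit 466) (nat_lit 465) (nat_lit 2510) (nat_lit 467) (nat_lit 2511)))) (.a (.f (nat_lit 530) (nat_lit 529) (nat_lit 494) (.f (nat_lit 498) (nat_lit 531) (nat_lit 495) (.d (nat_lit 466) (nat_lit 465) (nat_lit 2510) (nat_lit 467) (nat_lit 2511)))) (.a (.f (nat_lit 462) (nat_lit 461) (nat_lit 3533) (.f (nat_lit 498) (nat_lit 463) (nat_lit 3534) (.f (nat_lit 499) (nat_lit 527) (nat_lit 1519) (.d (nat_lit 467) (nat_lit 466) (nat_lit 2511) (nat_lit 468) (nat_lit 2512))))) (.a (.f (nat_lit 529) (nat_lit 530) (nat_lit 494) (.f (nat_lit 465) (nat_lit 466) (nat_lit 2510) (.d (nat_lit 560) (nat_lit 433) (nat_lit 5552) (nat_lit 592) (nat_lit 6608)))) (.f (nat_lit 530) (nat_lit 529) (nat_lit 494) (.f (nat_lit 498) (nat_lit 531) (nat_lit 495) (.d (nat_lit 462) (nat_lit 461) (nat_lit 3533) (nat_lit 463) (nat_lit 3534))))))))) (.f (nat_lit 493) (nat_lit 529) (nat_lit 493) (.f (nat_lit 492) (nat_lit 527) (nat_lit 492) (.d (nat_lit 524) (nat_lit 523) (nat_lit 1515) (nat_lit 525) (nat_lit 1516)))))))) (.a (.p (nat_lit 560) (.a (.f (nat_lit 592) (nat_lit 463) (nat_lit 7631) (.f (nat_lit 624) (nat_lit 527) (nat_lit 7663) (.d (nat_lit 623) (nat_lit 591) (nat_lit 5615) (nat_lit 655) (nat_lit 5647)))) (.a (.f (nat_lit 592) (nat_lit 463) (nat_lit 7631) (.f (nat_lit 591) (nat_lit 623) (nat_lit 5615) (.f (nat_lit 593) (nat_lit 625) (nat_lit 4592) (.f (nat_lit 559) (nat_lit 464) (nat_lit 5583) (.d (nat_lit 558) (nat_lit 557) (nat_lit 557) (nat_lit 594) (nat_lit 3630)))))) (.a s128040 (.a (.p (nat_lit 464) (.a (.f (nat_lit 559) (nat_lit 591) (nat_lit 5583) (.f (nat_lit 432) (nat_lit 527) (nat_lit 5551) (.f (nat_lit 399) (nat_lit 431) (nat_lit 7567) (.f (nat_lit 400) (nat_lit 367) (nat_lit 7535) (.d (nat_lit 401) (nat_lit 369) (nat_lit 6512) (nat_lit 433) (nat_lit 6544)))))) (.a s128096 (.a (.f (nat_lit 559) (nat_lit 591) (nat_lit 5583) (.f (nat_lit 432) (nat_lit 527) (nat_lit 5551) (.f (nat_lit 401) (nat_lit 433) (nat_lit 6544) (.f (nat_lit 400) (nat_lit 369) (nat_lit 6512) (.f (nat_lit 367) (nat_lit 399) (nat_lit 7535) (.d (nat_lit 368) (nat_lit 335) (nat_lit 7503) (nat_lit 463) (nat_lit 5487))))))) (.p (nat_lit 529) (.a (.f (nat_lit 530) (nat_lit 531) (nat_lit 3567) (.d (nat_lit 494) (nat_lit 493) (nat_lit 493) (nat_lit 497) (nat_lit 494))) (.a (.f (nat_lit 559) (nat_lit 591) (nat_lit 5583) (.f (nat_lit 530) (nat_lit 531) (nat_lit 1551) (.d (nat_lit 558) (nat_lit 527) (nat_lit 1550) (nat_lit 557) (nat_lit 2573)))) (.f (nat_lit 463) (nat_lit 431) (nat_lit 7599) (.f (nat_lit 559) (nat_lit 591) (nat_lit 5583) (.f (nat_lit 558) (nat_lit 557) (nat_lit 2573) (.f (nat_lit 527) (nat_lit 590) (nat_lit 5582) (.f (nat_lit 462) (nat_lit 430) (nat_lit 7598) (.d (nat_lit 461) (nat_lit 460) (nat_lit 460) (nat_lit 497) (nat_lit 461)))))))))))))) (.f (nat_lit 592) (nat_lit 463) (nat_lit 7631) (.f (nat_lit 624) (nat_lit 527) (nat_lit 7663) (.d (nat_lit 625) (nat_lit 593) (nat_lit 4592) (nat_lit 657) (nat_lit 4624))))))))) (.a (.p (nat_lit 560) (.a (.f (nat_lit 592) (nat_lit 463) (nat_lit 7631) (.f (nat_lit 624) (nat_lit 527) (nat_lit 7663) (.d (nat_lit 623) (nat_lit 591) (nat_lit 5615) (nat_lit 655) (nat_lit 5647)))) (.a (.f (nat_lit 592) (nat_lit 463) (nat_lit 7631) (.f (nat_lit 497) (nat_lit 465) (nat_lit 6608) (.f (nat_lit 529) (nat_lit 624) (nat_lit 6640) (.d (nat_lit 494) (nat_lit 493) (nat_lit 493) (nat_lit 530) (nat_lit 494))))) (.a s128016 s128036)))) (.p (nat_lit 560) (.a (.f (nat_lit 592) (nat_lit 463) (nat_lit 7631) (.f (nat_lit 624) (nat_lit 527) (nat_lit 7663) (.d (nat_lit 623) (nat_lit 591) (nat_lit 5615) (nat_lit 655) (nat_lit 5647)))) (.a (.f (nat_lit 592) (nat_lit 463) (nat_lit 7631) (.f (nat_lit 497) (nat_lit 465) (nat_lit 6608) (.f (nat_lit 529) (nat_lit 624) (nat_lit 6640) (.d (nat_lit 494) (nat_lit 493) (nat_lit 493) (nat_lit 530) (nat_lit 494))))) (.a s128040 (.p (nat_lit 497) (.a (.p (nat_lit 494) (.a (.f (nat_lit 461) (nat_lit 462) (nat_lit 3533) (.f (nat_lit 493) (nat_lit 460) (nat_lit 3532) (.f (nat_lit 524) (nat_lit 525) (nat_lit 1516) (.d (nat_lit 492) (nat_lit 523) (nat_lit 1515) (nat_lit 527) (nat_lit 492))))) (.a (.d (nat_lit 529) (nat_lit 493) (nat_lit 493) (nat_lit 530) (nat_lit 494)) (.f (nat_lit 530) (nat_lit 529) (nat_lit 494) (.f (nat_lit 498) (nat_lit 531) (nat_lit 495) (.f (nat_lit 467) (nat_lit 466) (nat_lit 2511) (.d (nat_lit 499) (nat_lit 468) (nat_lit 2512) (nat_lit 527) (nat_lit 1519)))))))) (.a (.p (nat_lit 494) (.a (.d (nat_lit 529) (nat_lit 493) (nat_lit 493) (nat_lit 530) (nat_lit 494)) (.f (nat_lit 462) (nat_lit 461) (nat_lit 3533) (.f (nat_lit 463) (nat_lit 498) (nat_lit 3534) (.d (nat_lit 431) (nat_lit 399) (nat_lit 4495) (nat_lit 464) (nat_lit 7599)))))) (.a (.p (nat_lit 494) (.a (.f (nat_lit 461) (nat_lit 462) (nat_lit 3533) (.f (nat_lit 493) (nat_lit 460) (nat_lit 3532) (.f (nat_lit 524) (nat_lit 525) (nat_lit 1516) (.d (nat_lit 492) (nat_lit 523) (nat_lit 1515) (nat_lit 527) (nat_lit 492))))) (.a (.f (nat_lit 462) (nat_lit 461) (nat_lit 3533) (.f (nat_lit 463) (nat_lit 498) (nat_lit 3534) (.d (nat_lit 431) (nat_lit 399) (nat_lit 4495) (nat_lit 464) (nat_lit 7599)))) (.f (nat_lit 465) (nat_lit 466) (nat_lit 2510) (.f (nat_lit 464) (nat_lit 493) (nat_lit 2509) (.f (nat_lit 431) (nat_lit 463) (nat_lit 7599) (.f (nat_lit 432) (nat_lit 399) (nat_lit 7567) (.d (nat_lit 559) (nat_lit 527) (nat_lit 5551) (nat_lit 591) (nat_lit 5583))))))))) (.a (.p (nat_lit 463) (.a (.d (nat_lit 431) (nat_lit 399) (nat_lit 4495) (nat_lit 527) (nat_lit 4527)) (.a (.d (nat_lit 431) (nat_lit 399) (nat_lit 4495) (nat_lit 464) (nat_lit 7599)) (.f (nat_lit 498) (nat_lit 462) (nat_lit 3534) (.d (nat_lit 499) (nat_lit 464) (nat_lit 3535) (nat_lit 527) (nat_lit 1519)))))) (.a (.p (nat_lit 464) (.a (.f (nat_lit 463) (nat_lit 431) (nat_lit 7599) (.f (nat_lit 559) (nat_lit 591) (nat_lit 5583) (.f (nat_lit 527) (nat_lit 432) (nat_lit 5551) (.d (nat_lit 462) (nat_lit 430) (nat_lit 7598) (nat_lit 461) (nat_lit 461))))) (.a (.f (nat_lit 431) (nat_lit 463) (nat_lit 7599) (.f (nat_lit 432) (nat_lit 399) (nat_lit 7567) (.f (nat_lit 529) (nat_lit 400) (nat_lit 4496) (.d (nat_lit 494) (nat_lit 493) (nat_lit 493) (nat_lit 530) (nat_lit 494))))) (.a (.f (nat_lit 559) (nat_lit 591) (nat_lit 5583) (.f (nat_lit 432) (nat_lit 527) (nat_lit 5551) (.f (nat_lit 529) (nat_lit 400) (nat_lit 4496) (.d (nat_lit 494) (nat_lit 493) (nat_lit 493) (nat_lit 530) (nat_lit 494))))) (.f (nat_lit 463) (nat_lit 431) (nat_lit 7599) (.f (nat_lit 462) (nat_lit 461) (nat_lit 461) (.f (nat_lit 559) (nat_lit 591) (nat_lit 5583) (.f (nat_lit 527) (nat_lit 430) (nat_lit 7598) (.f (nat_lit 558) (nat_lit 590) (nat_lit 5582) (.d (nat_lit 557) (nat_lit 529) (nat_lit 2573) (nat_lit 556) (nat_lit 2572))))))))))) (.p (nat_lit 494) (.a (.f (nat_lit 530) (nat_lit 529) (nat_lit 494) (.f (nat_lit 498) (nat_lit 531) (nat_lit 495) (.f (nat_lit 467) (nat_lit 466) (nat_lit 2511) (.d (nat_lit 499) (nat_lit 468) (nat_lit 2512) (nat_lit 527) (nat_lit 1519))))) (.a (.d (nat_lit 529) (nat_lit 493) (nat_lit 493) (nat_lit 530) (nat_lit 494)) (.f (nat_lit 465) (nat_lit 466) (nat_lit 2510) (.f (nat_lit 464) (nat_lit 493) (nat_lit 2509) (.f (nat_lit 431) (nat_lit 463) (nat_lit 7599) (.f (nat_lit 432) (nat_lit 399) (nat_lit 7567) (.d (nat_lit 559) (nat_lit 527) (nat_lit 5551) (nat_lit 591) (nat_lit 5583))))))))))))))))))))))))))))))) (.a (.p (nat_lit 496) (.a (.p (nat_lit 494) (.a (.f (nat_lit 493) (nat_lit 529) (nat_lit 493) (.f (nat_lit 492) (nat_lit 527) (nat_lit 492) (.d (nat_lit 464) (nat_lit 463) (nat_lit 2508) (nat_lit 465) (nat_lit 2509)))) (.a (.f (nat_lit 493) (nat_lit 529) (nat_lit 493) (.f (nat_lit 464) (nat_lit 465) (nat_lit 2509) (.f (nat_lit 463) (nat_lit 492) (nat_lit 2508) (.d (nat_lit 560) (nat_lit 431) (nat_lit 7599) (nat_lit 592) (nat_lit 7631))))) (.a (.f (nat_lit 493) (nat_lit 529) (nat_lit 493) (.f (nat_lit 492) (nat_lit 527) (nat_lit 492) (.d (nat_lit 524) (nat_lit 523) (nat_lit 1515) (nat_lit 525) (nat_lit 1516)))) (.a (.p (nat_lit 497) (.a (.f (nat_lit 465) (nat_lit 466) (nat_lit 2510) (.f (nat_lit 464) (nat_lit 493) (nat_lit 2509) (.d (nat_lit 560) (nat_lit 433) (nat_lit 6576) (nat_lit 592) (nat_lit 6608)))) (.a (.f (nat_lit 526) (nat_lit 525) (nat_lit 1517) (.f (nat_lit 498) (nat_lit 527) (nat_lit 1518) (.d (nat_lit 466) (nat_lit 465) (nat_lit 2510) (nat_lit 467) (nat_lit 2511)))) (.f (nat_lit 526) (nat_lit 525) (nat_lit 1517) (.f (nat_lit 498) (nat_lit 527) (nat_lit 1518) (.d (nat_lit 462) (nat_lit 461) (nat_lit 3533) (nat_lit 463) (nat_lit 3534))))))) (.p (nat_lit 497) (.a (.f (nat_lit 526) (nat_lit 525) (nat_lit 1517) (.f (nat_lit 498) (nat_lit 527) (nat_lit 1518) (.d (nat_lit 466) (nat_lit 465) (nat_lit 2510) (nat_lit 467) (nat_lit 2511)))) (.a (.f (nat_lit 465) (nat_lit 466) (nat_lit 2510) (.f (nat_lit 433) (nat_lit 401) (nat_lit 5520) (.d (nat_lit 560) (nat_lit 464) (nat_lit 6576) (nat_lit 592) (nat_lit 6608)))) (.f (nat_lit 526) (nat_lit 525) (nat_lit 1517) (.f (nat_lit 498) (nat_lit 527) (nat_lit 1518) (.d (nat_lit 462) (nat_lit 461) (nat_lit 3533) (nat_lit 463) (nat_lit 3534)))))))))))) (.a (.p (nat_lit 494) (.a (.f (nat_lit 493) (nat_lit 529) (nat_lit 493) (.f (nat_lit 464) (nat_lit 465) (nat_lit 2509) (.f (nat_lit 463) (nat_lit 492) (nat_lit 2508) (.d (nat_lit 560) (nat_lit 431) (nat_lit 7599) (nat_lit 592) (nat_lit 7631))))) (.a (.f (nat_lit 493) (nat_lit 529) (nat_lit 493) (.f (nat_lit 465) (nat_lit 464) (nat_lit 2509) (.f (nat_lit 497) (nat_lit 466) (nat_lit 2510) (.d (nat_lit 525) (nat_lit 524) (nat_lit 1516) (nat_lit 526) (nat_lit 1517))))) (.a (.p (nat_lit 497) (.a (.f (nat_lit 465) (nat_lit 466) (nat_lit 2510) (.f (nat_lit 464) (nat_lit 493) (nat_lit 2509) (.d (nat_lit 560) (nat_lit 433) (nat_lit 6576) (nat_lit 592) (nat_lit 6608)))) (.a (.f (nat_lit 465) (nat_lit 466) (nat_lit 2510) (.f (nat_lit 493) (nat_lit 464) (nat_lit 2509) (.d (nat_lit 525) (nat_lit 524) (nat_lit 1516) (nat_lit 526) (nat_lit 1517)))) (.a (.f (nat_lit 465) (nat_lit 466) (nat_lit 2510) (.f (nat_lit 433) (nat_lit 401) (nat_lit 5520) (.d (nat_lit 560) (nat_lit 464) (nat_lit 6576) (nat_lit 592) (nat_lit 6608)))) (.f (nat_lit 462) (nat_lit 461) (nat_lit 3533) (.f (nat_lit 463) (nat_lit 498) (nat_lit 3534) (.f (nat_lit 526) (nat_lit 525) (nat_lit 1517) (.d (nat_lit 431) (nat_lit 399) (nat_lit 5518) (nat_lit 558) (nat_lit 6574))))))))) (.a (.p (nat_lit 497) (.a (.f (nat_lit 465) (nat_lit 466) (nat_lit 2510) (.f (nat_lit 433) (nat_lit 401) (nat_lit 5520) (.d (nat_lit 560) (nat_lit 464) (nat_lit 6576) (nat_lit 592) (nat_lit 6608)))) (.f (nat_lit 462) (nat_lit 461) (nat_lit 3533) (.f (nat_lit 463) (nat_lit 498) (nat_lit 3534) (.f (nat_lit 526) (nat_lit 525) (nat_lit 1517) (.d (nat_lit 431) (nat_lit 399) (nat_lit 5518) (nat_lit 558) (nat_lit 6574))))))) (.f (nat_lit 493) (nat_lit 529) (nat_lit 493) (.f (nat_lit 461) (nat_lit 460) (nat_lit 3532) (.f (nat_lit 525) (nat_lit 524) (nat_lit 1516) (.d (nat_lit 497) (nat_lit 462) (nat_lit 3533) (nat_lit 526) (nat_lit 1517)))))))))) (.a (.p (nat_lit 464) (.a (.p (nat_lit 432) (.a (.f (nat_lit 400) (nat_lit 527) (nat_lit 5519) (.d (nat_lit 401) (nat_lit 369) (nat_lit 6512) (nat_lit 433) (nat_lit 6544))) (.a (.f (nat_lit 431) (nat_lit 399) (nat_lit 7567) (.f (nat_lit 463) (nat_lit 560) (nat_lit 7599) (.f (nat_lit 433) (nat_lit 401) (nat_lit 6544) (.d (nat_lit 462) (nat_lit 434) (nat_lit 1454) (nat_lit 461) (nat_lit 2477))))) (.f (nat_lit 400) (nat_lit 527) (nat_lit 5519) (.d (nat_lit 399) (nat_lit 367) (nat_lit 7535) (nat_lit 431) (nat_lit 7567)))))) (.a (.p (nat_lit 432) (.a (.f (nat_lit 431) (nat_lit 399) (nat_lit 7567) (.f (nat_lit 463) (nat_lit 560) (nat_lit 7599) (.f (nat_lit 433) (nat_lit 401) (nat_lit 6544) (.d (nat_lit 462) (nat_lit 434) (nat_lit 1454) (nat_lit 461) (nat_lit 2477))))) (.a (.f (nat_lit 399) (nat_lit 431) (nat_lit 7567) (.f (nat_lit 400) (nat_lit 367) (nat_lit 7535) (.d (nat_lit 401) (nat_lit 369) (nat_lit 6512) (nat_lit 433) (nat_lit 6544)))) (.a (.f (nat_lit 433) (nat_lit 401) (nat_lit 6544) (.f (nat_lit 560) (nat_lit 465) (nat_lit 6576) (.f (nat_lit 463) (nat_lit 592) (nat_lit 7631) (.f (nat_lit 462) (nat_lit 461) (nat_lit 2477) (.f (nat_lit 400) (nat_lit 368) (nat_lit 5487) (.d (nat_lit 497) (nat_lit 498) (nat_lit 3534) (nat_lit 529) (nat_lit 4496))))))) (.f (nat_lit 431) (nat_lit 399) (nat_lit 7567) (.f (nat_lit 463) (nat_lit 560) (nat_lit 7599) (.f (nat_lit 400) (nat_lit 368) (nat_lit 5487) (.f (nat_lit 497) (nat_lit 529) (nat_lit 4496) (.d (nat_lit 462) (nat_lit 461) (nat_lit 461) (nat_lit 498) (nat_lit 3534)))))))))) (.a s126563 (.a (.p (nat_lit 463) (.a (.p (nat_lit 432) (.a (.d (nat_lit 400) (nat_lit 368) (nat_lit 5487) (nat_lit 527) (nat_lit 5519)) (.f (nat_lit 431) (nat_lit 399) (nat_lit 4495) (.f (nat_lit 433) (nat_lit 401) (nat_lit 6544) (.d (nat_lit 462) (nat_lit 434) (nat_lit 1454) (nat_lit 461) (nat_lit 2477)))))) (.a (.p (nat_lit 432) (.a (.f (nat_lit 431) (nat_lit 399) (nat_lit 4495) (.f (nat_lit 433) (nat_lit 401) (nat_lit 6544) (.d (nat_lit 462) (nat_lit 434) (nat_lit 1454) (nat_lit 461) (nat_lit 2477)))) (.a (.f (nat_lit 400) (nat_lit 368) (nat_lit 5487) (.d (nat_lit 401) (nat_lit 369) (nat_lit 6512) (nat_lit 433) (nat_lit 6544))) (.f (nat_lit 400) (nat_lit 368) (nat_lit 5487) (.f (nat_lit 497) (nat_lit 529) (nat_lit 4496) (.d (nat_lit 462) (nat_lit 461) (nat_lit 461) (nat_lit 498) (nat_lit 3534))))))) (.a (.p (nat_lit 432) (.a (.d (nat_lit 400) (nat_lit 368) (nat_lit 5487) (nat_lit 527) (nat_lit 5519)) (.a (.f (nat_lit 400) (nat_lit 368) (nat_lit 5487) (.d (nat_lit 401) (nat_lit 369) (nat_lit 6512) (nat_lit 433) (nat_lit 6544))) (.f (nat_lit 433) (nat_lit 401) (nat_lit 6544) (.f (nat_lit 462) (nat_lit 461) (nat_lit 2477) (.d (nat_lit 434) (nat_lit 435) (nat_lit 1455) (nat_lit 465) (nat_lit 2478))))))) (.a (.f (nat_lit 431) (nat_lit 399) (nat_lit 4495) (.p (nat_lit 527) (.a (.f (nat_lit 526) (nat_lit 558) (nat_lit 5550) (.d (nat_lit 525) (nat_lit 497) (nat_lit 2541) (nat_lit 524) (nat_lit 2540))) (.f (nat_lit 430) (nat_lit 398) (nat_lit 7566) (.f (nat_lit 465) (nat_lit 466) (nat_lit 3502) (.d (nat_lit 429) (nat_lit 428) (nat_lit 428) (nat_lit 462) (nat_lit 3501))))))) (.p (nat_lit 432) (.a (.d (nat_lit 400) (nat_lit 368) (nat_lit 5487) (nat_lit 527) (nat_lit 5519)) (.a (.f (nat_lit 400) (nat_lit 368) (nat_lit 5487) (.d (nat_lit 401) (nat_lit 369) (nat_lit 6512) (nat_lit 433) (nat_lit 6544))) (.f (nat_lit 431) (nat_lit 399) (nat_lit 4495) (.f (nat_lit 433) (nat_lit 401) (nat_lit 6544) (.f (nat_lit 434) (nat_lit 435) (nat_lit 1455) (.f (nat_lit 466) (nat_lit 467) (nat_lit 431) (.f (nat_lit 430) (nat_lit 465) (nat_lit 430) (.d (nat_lit 398) (nat_lit 397) (nat_lit 3469) (nat_lit 527) (nat_lit 7566))))))))))))))) (.a (.p (nat_lit 432) (.a (.f (nat_lit 400) (nat_lit 527) (nat_lit 5519) (.d (nat_lit 401) (nat_lit 369) (nat_lit 6512) (nat_lit 433) (nat_lit 6544))) (.a (.f (nat_lit 433) (nat_lit 401) (nat_lit 6544) (.f (nat_lit 560) (nat_lit 465) (nat_lit 6576) (.f (nat_lit 463) (nat_lit 592) (nat_lit 7631) (.f (nat_lit 462) (nat_lit 461) (nat_lit 2477) (.f (nat_lit 400) (nat_lit 368) (nat_lit 5487) (.d (nat_lit 497) (nat_lit 498) (nat_lit 3534) (nat_lit 529) (nat_lit 4496))))))) (.a (.f (nat_lit 433) (nat_lit 401) (nat_lit 6544) (.f (nat_lit 560) (nat_lit 465) (nat_lit 6576) (.f (nat_lit 592) (nat_lit 463) (nat_lit 7631) (.f (nat_lit 624) (nat_lit 527) (nat_lit 7663) (.d (nat_lit 623) (nat_lit 591) (nat_lit 5615) (nat_lit 655) (nat_lit 5647)))))) (.a (.f (nat_lit 400) (nat_lit 527) (nat_lit 5519) (.f (nat_lit 368) (nat_lit 463) (nat_lit 5487) (.d (nat_lit 369) (nat_lit 337) (nat_lit 6480) (nat_lit 401) (nat_lit 6512)))) (.f (nat_lit 400) (nat_lit 527) (nat_lit 5519) (.f (nat_lit 368) (nat_lit 463) (nat_lit 5487) (.d (nat_lit 497) (nat_lit 465) (nat_lit 4464) (nat_lit 529) (nat_lit 4496))))))))) (.a (.p (nat_lit 560) (.a (.d (nat_lit 463) (nat_lit 431) (nat_lit 7599) (nat_lit 592) (nat_lit 7631)) (.a (.f (nat_lit 465) (nat_lit 433) (nat_lit 6576) (.f (nat_lit 592) (nat_lit 497) (nat_lit 6608) (.f (nat_lit 624) (nat_lit 527) (nat_lit 7663) (.d (nat_lit 623) (nat_lit 591) (nat_lit 5615) (nat_lit 655) (nat_lit 5647))))) (.f (nat_lit 463) (nat_lit 431) (nat_lit 7599) (.f (nat_lit 465) (nat_lit 433) (nat_lit 6576) (.f (nat_lit 466) (nat_lit 467) (nat_lit 1487) (.f (nat_lit 498) (nat_lit 499) (nat_lit 463) (.f (nat_lit 497) (nat_lit 462) (nat_lit 462) (.f (nat_lit 434) (nat_lit 435) (nat_lit 2479) (.d (nat_lit 402) (nat_lit 370) (nat_lit 5489) (nat_lit 529) (nat_lit 5521))))))))))) (.p (nat_lit 432) (.a (.f (nat_lit 400) (nat_lit 527) (nat_lit 5519) (.d (nat_lit 399) (nat_lit 367) (nat_lit 7535) (nat_lit 431) (nat_lit 7567))) (.a (.f (nat_lit 431) (nat_lit 399) (nat_lit 7567) (.f (nat_lit 463) (nat_lit 560) (nat_lit 7599) (.f (nat_lit 400) (nat_lit 368) (nat_lit 5487) (.f (nat_lit 497) (nat_lit 529) (nat_lit 4496) (.d (nat_lit 462) (nat_lit 461) (nat_lit 461) (nat_lit 498) (nat_lit 3534)))))) (.a (.f (nat_lit 400) (nat_lit 527) (nat_lit 5519) (.f (nat_lit 368) (nat_lit 463) (nat_lit 5487) (.d (nat_lit 369) (nat_lit 337) (nat_lit 6480) (nat_lit 401) (nat_lit 6512)))) (.f (nat_lit 431) (nat_lit 399) (nat_lit 7567) (.p (nat_lit 430) (.a (.f (nat_lit 463) (nat_lit 560) (nat_lit 7599) (.d (nat_lit 465) (nat_lit 429) (nat_lit 429) (nat_lit 466) (nat_lit 3502))) (.a (.f (nat_lit 429) (nat_lit 465) (nat_lit 429) (.f (nat_lit 460) (nat_lit 461) (nat_lit 1452) (.f (nat_lit 428) (nat_lit 459) (nat_lit 1451) (.d (nat_lit 396) (nat_lit 395) (nat_lit 3467) (nat_lit 397) (nat_lit 3468))))) (.a (.f (nat_lit 463) (nat_lit 560) (nat_lit 7599) (.f (nat_lit 429) (nat_lit 428) (nat_lit 428) (.f (nat_lit 461) (nat_lit 460) (nat_lit 1452) (.f (nat_lit 398) (nat_lit 527) (nat_lit 7566) (.d (nat_lit 366) (nat_lit 334) (nat_lit 5453) (nat_lit 462) (nat_lit 4462)))))) (.f (nat_lit 463) (nat_lit 560) (nat_lit 7599) (.f (nat_lit 527) (nat_lit 398) (nat_lit 7566) (.f (nat_lit 526) (nat_lit 558) (nat_lit 5550) (.d (nat_lit 525) (nat_lit 497) (nat_lit 2541) (nat_lit 524) (nat_lit 2540))))))))))))))))))))) (.a (.p (nat_lit 494) (.a (.f (nat_lit 493) (nat_lit 529) (nat_lit 493) (.f (nat_lit 492) (nat_lit 527) (nat_lit 492) (.d (nat_lit 524) (nat_lit 523) (nat_lit 1515) (nat_lit 525) (nat_lit 1516)))) (.a (.f (nat_lit 493) (nat_lit 529) (nat_lit 493) (.f (nat_lit 465) (nat_lit 464) (nat_lit 2509) (.f (nat_lit 497) (nat_lit 466) (nat_lit 2510) (.d (nat_lit 525) (nat_lit 524) (nat_lit 1516) (nat_lit 526) (nat_lit 1517))))) (.a (.p (nat_lit 497) (.a (.f (nat_lit 465) (nat_lit 466) (nat_lit 2510) (.f (nat_lit 464) (nat_lit 493) (nat_lit 2509) (.d (nat_lit 560) (nat_lit 433) (nat_lit 6576) (nat_lit 592) (nat_lit 6608)))) (.a (.f (nat_lit 526) (nat_lit 525) (nat_lit 1517) (.f (nat_lit 498) (nat_lit 527) (nat_lit 1518) (.d (nat_lit 466) (nat_lit 465) (nat_lit 2510) (nat_lit 467) (nat_lit 2511)))) (.a (.f (nat_lit 526) (nat_lit 525) (nat_lit 1517) (.f (nat_lit 498) (nat_lit 527) (nat_lit 1518) (.f (nat_lit 467) (nat_lit 466) (nat_lit 2511) (.f (nat_lit 499) (nat_lit 468) (nat_lit 2512) (.d (nat_lit 531) (nat_lit 530) (nat_lit 495) (nat_lit 532) (nat_lit 496)))))) (.f (nat_lit 526) (nat_lit 525) (nat_lit 1517) (.f (nat_lit 527) (nat_lit 498) (nat_lit 1518) (.f (nat_lit 493) (nat_lit 492) (nat_lit 492) (.d (nat_lit 461) (nat_lit 460) (nat_lit 3532) (nat_lit 462) (nat_lit 3533))))))))) (.a s126654 (.f (nat_lit 493) (nat_lit 529) (nat_lit 493) (.f (nat_lit 492) (nat_lit 527) (nat_lit 492) (.d (nat_lit 460) (nat_lit 459) (nat_lit 3531) (nat_lit 461) (nat_lit 3532))))))))) (.a (.p (nat_lit 494) (.a (.f (nat_lit 493) (nat_lit 529) (nat_lit 493) (.f (nat_lit 492) (nat_lit 527) (nat_lit 492) (.d (nat_lit 464) (nat_lit 463) (nat_lit 2508) (nat_lit 465) (nat_lit 2509)))) (.a (.f (nat_lit 493) (nat_lit 529) (nat_lit 493) (.f (nat_lit 465) (nat_lit 464) (nat_lit 2509) (.f (nat_lit 497) (nat_lit 466) (nat_lit 2510) (.d (nat_lit 525) (nat_lit 524) (nat_lit 1516) (nat_lit 526) (nat_lit 1517))))) (.a (.p (nat_lit 497) (.a (.f (nat_lit 526) (nat_lit 525) (nat_lit 1517) (.f (nat_lit 498) (nat_lit 527) (nat_lit 1518) (.d (nat_lit 466) (nat_lit 465) (nat_lit 2510) (nat_lit 467) (nat_lit 2511)))) (.a (.f (nat_lit 465) (nat_lit 466) (nat_lit 2510) (.f (nat_lit 493) (nat_lit 464) (nat_lit 2509) (.d (nat_lit 525) (nat_lit 524) (nat_lit 1516) (nat_lit 526) (nat_lit 1517)))) (.a (.f (nat_lit 465) (nat_lit 466) (nat_lit 2510) (.f (nat_lit 493) (nat_lit 464) (nat_lit 2509) (.d (nat_lit 461) (nat_lit 460) (nat_lit 3532) (nat_lit 462) (nat_lit 3533)))) (.f (nat_lit 526) (nat_lit 525) (nat_lit 1517) (.f (nat_lit 498) (nat_lit 527) (nat_lit 1518) (.d (nat_lit 462) (nat_lit 461) (nat_lit 3533) (nat_lit 463) (nat_lit 3534)))))))) (.a (.p (nat_lit 497) (.a (.f (nat_lit 526) (nat_lit 525) (nat_lit 1517) (.f (nat_lit 498) (nat_lit 527) (nat_lit 1518) (.d (nat_lit 466) (nat_lit 465) (nat_lit 2510) (nat_lit 467) (nat_lit 2511)))) (.a (.f (nat_lit 462) (nat_lit 461) (nat_lit 3533) (.f (nat_lit 463) (nat_lit 498) (nat_lit 3534) (.f (nat_lit 526) (nat_lit 525) (nat_lit 1517) (.d (nat_lit 431) (nat_lit 399) (nat_lit 5518) (nat_lit 558) (nat_lit 6574))))) (.f (nat_lit 529) (nat_lit 530) (nat_lit 494) (.f (nat_lit 465) (nat_lit 466) (nat_lit 2510) (.f (nat_lit 433) (nat_lit 401) (nat_lit 5520) (.f (nat_lit 462) (nat_lit 461) (nat_lit 3533) (.f (nat_lit 432) (nat_lit 400) (nat_lit 7568) (.f (nat_lit 434) (nat_lit 402) (nat_lit 6545) (.d (nat_lit 463) (nat_lit 431) (nat_lit 1454) (nat_lit 464) (nat_lit 2478))))))))))) (.f (nat_lit 493) (nat_lit 529) (nat_lit 493) (.f (nat_lit 492) (nat_lit 527) (nat_lit 492) (.d (nat_lit 524) (nat_lit 523) (nat_lit 1515) (nat_lit 525) (nat_lit 1516))))))))) (.a (.p (nat_lit 497) (.a (.p (nat_lit 463) (.a (.f (nat_lit 498) (nat_lit 462) (nat_lit 3534) (.d (nat_lit 527) (nat_lit 499) (nat_lit 1519) (nat_lit 526) (nat_lit 1518))) (.a (.f (nat_lit 498) (nat_lit 462) (nat_lit 3534) (.f (nat_lit 464) (nat_lit 499) (nat_lit 3535) (.d (nat_lit 560) (nat_lit 431) (nat_lit 7599) (nat_lit 592) (nat_lit 7631)))) (.f (nat_lit 431) (nat_lit 399) (nat_lit 4495) (.d (nat_lit 560) (nat_lit 527) (nat_lit 4527) (nat_lit 592) (nat_lit 7631)))))) (.a (.p (nat_lit 463) (.a (.f (nat_lit 498) (nat_lit 462) (nat_lit 3534) (.f (nat_lit 464) (nat_lit 499) (nat_lit 3535) (.d (nat_lit 560) (nat_lit 431) (nat_lit 7599) (nat_lit 592) (nat_lit 7631)))) (.a (.f (nat_lit 498) (nat_lit 462) (nat_lit 3534) (.f (nat_lit 499) (nat_lit 464) (nat_lit 3535) (.d (nat_lit 467) (nat_lit 466) (nat_lit 2511) (nat_lit 468) (nat_lit 2512)))) (.a (.f (nat_lit 498) (nat_lit 462) (nat_lit 3534) (.f (nat_lit 466) (nat_lit 467) (nat_lit 2511) (.f (nat_lit 465) (nat_lit 494) (nat_lit 2510) (.f (nat_lit 530) (nat_lit 531) (nat_lit 495) (.d (nat_lit 562) (nat_lit 433) (nat_lit 7601) (nat_lit 594) (nat_lit 7633)))))) (.f (nat_lit 560) (nat_lit 592) (nat_lit 7631) (.d (nat_lit 431) (nat_lit 399) (nat_lit 4495) (nat_lit 464) (nat_lit 7599))))))) (.a (.p (nat_lit 494) (.a (.f (nat_lit 465) (nat_lit 466) (nat_lit 2510) (.f (nat_lit 464) (nat_lit 493) (nat_lit 2509) (.d (nat_lit 560) (nat_lit 433) (nat_lit 6576) (nat_lit 592) (nat_lit 6608)))) (.a (.f (nat_lit 526) (nat_lit 525) (nat_lit 1517) (.f (nat_lit 498) (nat_lit 527) (nat_lit 1518) (.d (nat_lit 466) (nat_lit 465) (nat_lit 2510) (nat_lit 467) (nat_lit 2511)))) (.a (.f (nat_lit 526) (nat_lit 525) (nat_lit 1517) (.f (nat_lit 498) (nat_lit 527) (nat_lit 1518) (.f (nat_lit 467) (nat_lit 466) (nat_lit 2511) (.f (nat_lit 499) (nat_lit 468) (nat_lit 2512) (.d (nat_lit 531) (nat_lit 530) (nat_lit 495) (nat_lit 532) (nat_lit 496)))))) (.f (nat_lit 526) (nat_lit 525) (nat_lit 1517) (.f (nat_lit 527) (nat_lit 498) (nat_lit 1518) (.f (nat_lit 493) (nat_lit 492) (nat_lit 492) (.d (nat_lit 461) (nat_lit 460) (nat_lit 3532) (nat_lit 462) (nat_lit 3533))))))))) (.a (.p (nat_lit 494) (.a (.f (nat_lit 526) (nat_lit 525) (nat_lit 1517) (.f (nat_lit 498) (nat_lit 527) (nat_lit 1518) (.d (nat_lit 466) (nat_lit 465) (nat_lit 2510) (nat_lit 467) (nat_lit 2511)))) (.a (.f (nat_lit 465) (nat_lit 466) (nat_lit 2510) (.f (nat_lit 493) (nat_lit 464) (nat_lit 2509) (.d (nat_lit 525) (nat_lit 524) (nat_lit 1516) (nat_lit 526) (nat_lit 1517)))) (.a (.f (nat_lit 465) (nat_lit 466) (nat_lit 2510) (.f (nat_lit 493) (nat_lit 464) (nat_lit 2509) (.d (nat_lit 461) (nat_lit 460) (nat_lit 3532) (nat_lit 462) (nat_lit 3533)))) (.f (nat_lit 526) (nat_lit 525) (nat_lit 1517) (.f (nat_lit 498) (nat_lit 527) (nat_lit 1518) (.d (nat_lit 462) (nat_lit 461) (nat_lit 3533) (nat_lit 463) (nat_lit 3534)))))))) (.a (.p (nat_lit 463) (.a (.f (nat_lit 498) (nat_lit 462) (nat_lit 3534) (.d (nat_lit 527) (nat_lit 499) (nat_lit 1519) (nat_lit 526) (nat_lit 1518))) (.a (.f (nat_lit 498) (nat_lit 462) (nat_lit 3534) (.f (nat_lit 466) (nat_lit 467) (nat_lit 2511) (.f (nat_lit 465) (nat_lit 494) (nat_lit 2510) (.f (nat_lit 530) (nat_lit 531) (nat_lit 495) (.d (nat_lit 562) (nat_lit 433) (nat_lit 7601) (nat_lit 594) (nat_lit 7633)))))) (.f (nat_lit 431) (nat_lit 399) (nat_lit 4495) (.d (nat_lit 560) (nat_lit 527) (nat_lit 4527) (nat_lit 592) (nat_lit 7631)))))) (.a (.p (nat_lit 494) (.a (.f (nat_lit 465) (nat_lit 466) (nat_lit 2510) (.f (nat_lit 464) (nat_lit 493) (nat_lit 2509) (.d (nat_lit 560) (nat_lit 433) (nat_lit 6576) (nat_lit 592) (nat_lit 6608)))) (.a (.f (nat_lit 465) (nat_lit 466) (nat_lit 2510) (.f (nat_lit 493) (nat_lit 464) (nat_lit 2509) (.d (nat_lit 525) (nat_lit 524) (nat_lit 1516) (nat_lit 526) (nat_lit 1517)))) (.a (.f (nat_lit 465) (nat_lit 466) (nat_lit 2510) (.f (nat_lit 433) (nat_lit 401) (nat_lit 5520) (.d (nat_lit 560) (nat_lit 464) (nat_lit 6576) (nat_lit 592) (nat_lit 6608)))) (.f (nat_lit 525) (nat_lit 526) (nat_lit 1517) (.f (nat_lit 493) (nat_lit 524) (nat_lit 1516) (.d (nat_lit 461) (nat_lit 460) (nat_lit 3532) (nat_lit 462) (nat_lit 3533)))))))) (.p (nat_lit 494) (.a (.f (nat_lit 465) (nat_lit 466) (nat_lit 2510) (.f (nat_lit 464) (nat_lit 493) (nat_lit 2509) (.d (nat_lit 560) (nat_lit 433) (nat_lit 6576) (nat_lit 592) (nat_lit 6608)))) (.a (.f (nat_lit 526) (nat_lit 525) (nat_lit 1517) (.f (nat_lit 498) (nat_lit 527) (nat_lit 1518) (.d (nat_lit 466) (nat_lit 465) (nat_lit 2510) (nat_lit 467) (nat_lit 2511)))) (.a (.f (nat_lit 526) (nat_lit 525) (nat_lit 1517) (.f (nat_lit 498) (nat_lit 527) (nat_lit 1518) (.f (nat_lit 467) (nat_lit 466) (nat_lit 2511) (.f (nat_lit 499) (nat_lit 468) (nat_lit 2512) (.d (nat_lit 531) (nat_lit 530) (nat_lit 495) (nat_lit 532) (nat_lit 496)))))) (.f (nat_lit 526) (nat_lit 525) (nat_lit 1517) (.f (nat_lit 527) (nat_lit 498) (nat_lit 1518) (.f (nat_lit 493) (nat_lit 492) (nat_lit 492) (.f (nat_lit 461) (nat_lit 460) (nat_lit 3532) (.f (nat_lit 558) (nat_lit 590) (nat_lit 7629) (.f (nat_lit 431) (nat_lit 463) (nat_lit 5550) (.f (nat_lit 464) (nat_lit 465) (nat_lit 2509) (.d (nat_lit 432) (nat_lit 399) (nat_lit 7567) (nat_lit 400) (nat_lit 5519)))))))))))))))))))) (.a (.p (nat_lit 464) (.a (.p (nat_lit 432) (.a (.f (nat_lit 400) (nat_lit 527) (nat_lit 5519) (.d (nat_lit 401) (nat_lit 369) (nat_lit 6512) (nat_lit 433) (nat_lit 6544))) (.a (.f (nat_lit 431) (nat_lit 399) (nat_lit 7567) (.f (nat_lit 463) (nat_lit 560) (nat_lit 7599) (.f (nat_lit 433) (nat_lit 401) (nat_lit 6544) (.d (nat_lit 462) (nat_lit 434) (nat_lit 1454) (nat_lit 461) (nat_lit 2477))))) (.f (nat_lit 400) (nat_lit 527) (nat_lit 5519) (.d (nat_lit 399) (nat_lit 367) (nat_lit 7535) (nat_lit 431) (nat_lit 7567)))))) (.a (.p (nat_lit 432) (.a (.f (nat_lit 431) (nat_lit 399) (nat_lit 7567) (.f (nat_lit 463) (nat_lit 560) (nat_lit 7599) (.f (nat_lit 433) (nat_lit 401) (nat_lit 6544) (.d (nat_lit 462) (nat_lit 434) (nat_lit 1454) (nat_lit 461) (nat_lit 2477))))) (.a (.f (nat_lit 399) (nat_lit 431) (nat_lit 7567) (.f (nat_lit 400) (nat_lit 367) (nat_lit 7535) (.d (nat_lit 401) (nat_lit 369) (nat_lit 6512) (nat_lit 433) (nat_lit 6544)))) (.a (.f (nat_lit 433) (nat_lit 401) (nat_lit 6544) (.f (nat_lit 465) (nat_lit 560) (nat_lit 6576) (.f (nat_lit 466) (nat_lit 467) (nat_lit 1487) (.d (nat_lit 494) (nat_lit 463) (nat_lit 1486) (nat_lit 493) (nat_lit 2509))))) (.a (.f (nat_lit 399) (nat_lit 431) (nat_lit 7567) (.f (nat_lit 400) (nat_lit 367) (nat_lit 7535) (.f (nat_lit 368) (nat_lit 463) (nat_lit 5487) (.d (nat_lit 369) (nat_lit 337) (nat_lit 6480) (nat_lit 401) (nat_lit 6512))))) (.f (nat_lit 399) (nat_lit 431) (nat_lit 7567) (.f (nat_lit 400) (nat_lit 367) (nat_lit 7535) (.f (nat_lit 463) (nat_lit 368) (nat_lit 5487) (.f (nat_lit 560) (nat_lit 592) (nat_lit 7631) (.f (nat_lit 465) (nat_lit 433) (nat_lit 6576) (.d (nat_lit 494) (nat_lit 466) (nat_lit 1486) (nat_lit 493) (nat_lit 2509)))))))))))) (.a s126563 (.a (.p (nat_lit 432) (.a (.f (nat_lit 400) (nat_lit 527) (nat_lit 5519) (.d (nat_lit 401) (nat_lit 369) (nat_lit 6512) (nat_lit 433) (nat_lit 6544))) (.a (.f (nat_lit 399) (nat_lit 431) (nat_lit 7567) (.f (nat_lit 400) (nat_lit 367) (nat_lit 7535) (.d (nat_lit 401) (nat_lit 369) (nat_lit 6512) (nat_lit 433) (nat_lit 6544)))) (.a (.p (nat_lit 465) (.a (.f (nat_lit 431) (nat_lit 399) (nat_lit 7567) (.f (nat_lit 466) (nat_lit 467) (nat_lit 3503) (.d (nat_lit 463) (nat_lit 430) (nat_lit 3502) (nat_lit 494) (nat_lit 1486)))) (.a (.f (nat_lit 431) (nat_lit 399) (nat_lit 7567) (.f (nat_lit 466) (nat_lit 467) (nat_lit 3503) (.d (nat_lit 430) (nat_lit 433) (nat_lit 430) (nat_lit 463) (nat_lit 3502)))) (.a (.f (nat_lit 431) (nat_lit 399) (nat_lit 7567) (.f (nat_lit 466) (nat_lit 467) (nat_lit 1487) (.d (nat_lit 433) (nat_lit 401) (nat_lit 6544) (nat_lit 430) (nat_lit 430)))) (.a (.f (nat_lit 494) (nat_lit 493) (nat_lit 2509) (.d (nat_lit 466) (nat_lit 463) (nat_lit 1486) (nat_lit 467) (nat_lit 1487))) (.f (nat_lit 494) (nat_lit 493) (nat_lit 2509) (.f (nat_lit 431) (nat_lit 399) (nat_lit 7567) (.f (nat_lit 433) (nat_lit 401) (nat_lit 6544) (.f (nat_lit 430) (nat_lit 429) (nat_lit 429) (.f (nat_lit 462) (nat_lit 461) (nat_lit 1453) (.d (nat_lit 398) (nat_lit 397) (nat_lit 3469) (nat_lit 527) (nat_lit 4494)))))))))))) (.f (nat_lit 400) (nat_lit 527) (nat_lit 5519) (.d (nat_lit 399) (nat_lit 367) (nat_lit 7535) (nat_lit 431) (nat_lit 7567))))))) (.a (.p (nat_lit 432) (.a (.f (nat_lit 400) (nat_lit 527) (nat_lit 5519) (.d (nat_lit 401) (nat_lit 369) (nat_lit 6512) (nat_lit 433) (nat_lit 6544))) (.a (.f (nat_lit 433) (nat_lit 401) (nat_lit 6544) (.f (nat_lit 465) (nat_lit 560) (nat_lit 6576) (.f (nat_lit 466) (nat_lit 467) (nat_lit 1487) (.d (nat_lit 494) (nat_lit 463) (nat_lit 1486) (nat_lit 493) (nat_lit 2509))))) (.a (.f (nat_lit 400) (nat_lit 527) (nat_lit 5519) (.f (nat_lit 368) (nat_lit 463) (nat_lit 5487) (.d (nat_lit 369) (nat_lit 337) (nat_lit 6480) (nat_lit 401) (nat_lit 6512)))) (.f (nat_lit 400) (nat_lit 527) (nat_lit 5519) (.f (nat_lit 368) (nat_lit 463) (nat_lit 5487) (.d (nat_lit 367) (nat_lit 335) (nat_lit 7503) (nat_lit 399) (nat_lit 7535)))))))) (.a (.p (nat_lit 465) (.a (.f (nat_lit 494) (nat_lit 493) (nat_lit 2509) (.d (nat_lit 466) (nat_lit 463) (nat_lit 1486) (nat_lit 467) (nat_lit 1487))) (.a (.f (nat_lit 560) (nat_lit 433) (nat_lit 6576) (.d (nat_lit 463) (nat_lit 431) (nat_lit 7599) (nat_lit 592) (nat_lit 7631))) (.p (nat_lit 530) (.a (.f (nat_lit 529) (nat_lit 531) (nat_lit 3567) (.d (nat_lit 494) (nat_lit 493) (nat_lit 2509) (nat_lit 527) (nat_lit 3566))) (.f (nat_lit 433) (nat_lit 560) (nat_lit 6576) (.f (nat_lit 466) (nat_lit 467) (nat_lit 1487) (.f (nat_lit 498) (nat_lit 562) (nat_lit 7601) (.d (nat_lit 401) (nat_lit 369) (nat_lit 5488) (nat_lit 434) (nat_lit 7569)))))))))) (.a (.p (nat_lit 494) (.a (.d (nat_lit 493) (nat_lit 465) (nat_lit 2509) (nat_lit 529) (nat_lit 493)) (.a (.f (nat_lit 493) (nat_lit 465) (nat_lit 2509) (.d (nat_lit 492) (nat_lit 463) (nat_lit 2508) (nat_lit 527) (nat_lit 492))) (.a (.p (nat_lit 432) (.a (.f (nat_lit 431) (nat_lit 399) (nat_lit 7567) (.f (nat_lit 463) (nat_lit 560) (nat_lit 7599) (.d (nat_lit 400) (nat_lit 368) (nat_lit 5487) (nat_lit 527) (nat_lit 5519)))) (.a (.f (nat_lit 399) (nat_lit 431) (nat_lit 7567) (.f (nat_lit 400) (nat_lit 367) (nat_lit 7535) (.f (nat_lit 368) (nat_lit 463) (nat_lit 5487) (.d (nat_lit 369) (nat_lit 337) (nat_lit 6480) (nat_lit 401) (nat_lit 6512))))) (.a (.f (nat_lit 400) (nat_lit 527) (nat_lit 5519) (.d (nat_lit 399) (nat_lit 367) (nat_lit 7535) (nat_lit 431) (nat_lit 7567))) (.a (.f (nat_lit 400) (nat_lit 527) (nat_lit 5519) (.f (nat_lit 368) (nat_lit 463) (nat_lit 5487) (.d (nat_lit 369) (nat_lit 337) (nat_lit 6480) (nat_lit 401) (nat_lit 6512)))) (.f (nat_lit 431) (nat_lit 399) (nat_lit 7567) (.f (nat_lit 463) (nat_lit 560) (nat_lit 7599) (.f (nat_lit 465) (nat_lit 466) (nat_lit 1486) (.f (nat_lit 430) (nat_lit 429) (nat_lit 429) (.f (nat_lit 398) (nat_lit 527) (nat_lit 7566) (.d (nat_lit 366) (nat_lit 334) (nat_lit 4430) (nat_lit 462) (nat_lit 4462)))))))))))) (.f (nat_lit 493) (nat_lit 529) (nat_lit 493) (.d (nat_lit 492) (nat_lit 463) (nat_lit 2508) (nat_lit 527) (nat_lit 492))))))) (.p (nat_lit 494) (.a (.d (nat_lit 493) (nat_lit 465) (nat_lit 2509) (nat_lit 529) (nat_lit 493)) (.a (.f (nat_lit 493) (nat_lit 465) (nat_lit 2509) (.d (nat_lit 492) (nat_lit 463) (nat_lit 2508) (nat_lit 527) (nat_lit 492))) (.a (.p (nat_lit 432) (.a (.f (nat_lit 431) (nat_lit 399) (nat_lit 7567) (.f (nat_lit 463) (nat_lit 560) (nat_lit 7599) (.d (nat_lit 400) (nat_lit 368) (nat_lit 5487) (nat_lit 527) (nat_lit 5519)))) (.a (.f (nat_lit 399) (nat_lit 431) (nat_lit 7567) (.f (nat_lit 400) (nat_lit 367) (nat_lit 7535) (.f (nat_lit 463) (nat_lit 368) (nat_lit 5487) (.f (nat_lit 465) (nat_lit 466) (nat_lit 1486) (.d (nat_lit 560) (nat_lit 433) (nat_lit 6576) (nat_lit 592) (nat_lit 7631)))))) (.a (.f (nat_lit 400) (nat_lit 527) (nat_lit 5519) (.d (nat_lit 399) (nat_lit 367) (nat_lit 7535) (nat_lit 431) (nat_lit 7567))) (.a (.f (nat_lit 400) (nat_lit 527) (nat_lit 5519) (.f (nat_lit 463) (nat_lit 368) (nat_lit 5487) (.f (nat_lit 465) (nat_lit 466) (nat_lit 1486) (.d (nat_lit 560) (nat_lit 433) (nat_lit 6576) (nat_lit 592) (nat_lit 7631))))) (.f (nat_lit 431) (nat_lit 399) (nat_lit 7567) (.f (nat_lit 463) (nat_lit 560) (nat_lit 7599) (.f (nat_lit 465) (nat_lit 466) (nat_lit 1486) (.f (nat_lit 430) (nat_lit 429) (nat_lit 429) (.f (nat_lit 398) (nat_lit 527) (nat_lit 7566) (.d (nat_lit 366) (nat_lit 334) (nat_lit 4430) (nat_lit 462) (nat_lit 4462)))))))))))) (.f (nat_lit 493) (nat_lit 529) (nat_lit 493) (.d (nat_lit 492) (nat_lit 463) (nat_lit 2508) (nat_lit 527) (nat_lit 492))))))))))))))) (.a (.p (nat_lit 494) (.a (.f (nat_lit 493) (nat_lit 529) (nat_lit 493) (.f (nat_lit 492) (nat_lit 527) (nat_lit 492) (.d (nat_lit 524) (nat_lit 523) (nat_lit 1515) (nat_lit 525) (nat_lit 1516)))) (.a (.f (nat_lit 493) (nat_lit 529) (nat_lit 493) (.f (nat_lit 461) (nat_lit 460) (nat_lit 3532) (.f (nat_lit 525) (nat_lit 524) (nat_lit 1516) (.d (nat_lit 497) (nat_lit 462) (nat_lit 3533) (nat_lit 526) (nat_lit 1517))))) (.a (.p (nat_lit 497) (.a (.f (nat_lit 526) (nat_lit 525) (nat_lit 1517) (.f (nat_lit 498) (nat_lit 527) (nat_lit 1518) (.d (nat_lit 466) (nat_lit 465) (nat_lit 2510) (nat_lit 467) (nat_lit 2511)))) (.a (.f (nat_lit 462) (nat_lit 461) (nat_lit 3533) (.f (nat_lit 463) (nat_lit 498) (nat_lit 3534) (.f (nat_lit 526) (nat_lit 525) (nat_lit 1517) (.d (nat_lit 431) (nat_lit 399) (nat_lit 5518) (nat_lit 558) (nat_lit 6574))))) (.a (.f (nat_lit 525) (nat_lit 526) (nat_lit 1517) (.f (nat_lit 493) (nat_lit 524) (nat_lit 1516) (.d (nat_lit 461) (nat_lit 460) (nat_lit 3532) (nat_lit 462) (nat_lit 3533)))) (.f (nat_lit 462) (nat_lit 461) (nat_lit 3533) (.f (nat_lit 498) (nat_lit 463) (nat_lit 3534) (.f (nat_lit 499) (nat_lit 527) (nat_lit 1519) (.d (nat_lit 531) (nat_lit 530) (nat_lit 495) (nat_lit 532) (nat_lit 496))))))))) (.a (.p (nat_lit 497) (.a (.f (nat_lit 526) (nat_lit 525) (nat_lit 1517) (.f (nat_lit 498) (nat_lit 527) (nat_lit 1518) (.d (nat_lit 466) (nat_lit 465) (nat_lit 2510) (nat_lit 467) (nat_lit 2511)))) (.a (.f (nat_lit 462) (nat_lit 461) (nat_lit 3533) (.f (nat_lit 463) (nat_lit 498) (nat_lit 3534) (.f (nat_lit 526) (nat_lit 525) (nat_lit 1517) (.d (nat_lit 431) (nat_lit 399) (nat_lit 5518) (nat_lit 558) (nat_lit 6574))))) (.f (nat_lit 529) (nat_lit 530) (nat_lit 494) (.f (nat_lit 465) (nat_lit 466) (nat_lit 2510) (.d (nat_lit 560) (nat_lit 433) (nat_lit 5552) (nat_lit 592) (nat_lit 6608))))))) (.f (nat_lit 493) (nat_lit 529) (nat_lit 493) (.f (nat_lit 492) (nat_lit 527) (nat_lit 492) (.d (nat_lit 460) (nat_lit 459) (nat_lit 3531) (nat_lit 461) (nat_lit 3532))))))))) (.a (.p (nat_lit 465) (.a (.p (nat_lit 464) (.a (.f (nat_lit 494) (nat_lit 493) (nat_lit 2509) (.d (nat_lit 466) (nat_lit 467) (nat_lit 1487) (nat_lit 497) (nat_lit 2510))) (.f (nat_lit 560) (nat_lit 433) (nat_lit 6576) (.d (nat_lit 463) (nat_lit 431) (nat_lit 7599) (nat_lit 592) (nat_lit 7631))))) (.a (.p (nat_lit 560) (.a (.d (nat_lit 592) (nat_lit 463) (nat_lit 7631) (nat_lit 497) (nat_lit 6608)) (.a (.f (nat_lit 592) (nat_lit 497) (nat_lit 6608) (.f (nat_lit 624) (nat_lit 527) (nat_lit 7663) (.d (nat_lit 623) (nat_lit 591) (nat_lit 5615) (nat_lit 655) (nat_lit 5647)))) (.a (.f (nat_lit 592) (nat_lit 463) (nat_lit 7631) (.f (nat_lit 624) (nat_lit 527) (nat_lit 7663) (.d (nat_lit 623) (nat_lit 591) (nat_lit 5615) (nat_lit 655) (nat_lit 5647)))) (.f (nat_lit 464) (nat_lit 433) (nat_lit 6576) (.f (nat_lit 431) (nat_lit 463) (nat_lit 7599) (.f (nat_lit 432) (nat_lit 399) (nat_lit 7567) (.f (nat_lit 400) (nat_lit 527) (nat_lit 5519) (.d (nat_lit 497) (nat_lit 368) (nat_lit 4464) (nat_lit 529) (nat_lit 4496)))))))))) (.a (.p (nat_lit 464) (.a (.f (nat_lit 494) (nat_lit 493) (nat_lit 2509) (.d (nat_lit 466) (nat_lit 467) (nat_lit 1487) (nat_lit 497) (nat_lit 2510))) (.f (nat_lit 433) (nat_lit 560) (nat_lit 6576) (.d (nat_lit 401) (nat_lit 369) (nat_lit 5488) (nat_lit 432) (nat_lit 6544))))) (.a s126763 (.a (.p (nat_lit 464) (.a (.f (nat_lit 494) (nat_lit 493) (nat_lit 2509) (.d (nat_lit 466) (nat_lit 463) (nat_lit 1486) (nat_lit 467) (nat_lit 1487))) (.a (.f (nat_lit 560) (nat_lit 433) (nat_lit 6576) (.d (nat_lit 463) (nat_lit 431) (nat_lit 7599) (nat_lit 592) (nat_lit 7631))) (.f (nat_lit 433) (nat_lit 560) (nat_lit 6576) (.d (nat_lit 401) (nat_lit 369) (nat_lit 5488) (nat_lit 432) (nat_lit 6544)))))) (.a (.p (nat_lit 494) (.a (.f (nat_lit 497) (nat_lit 466) (nat_lit 2510) (.d (nat_lit 529) (nat_lit 493) (nat_lit 493) (nat_lit 530) (nat_lit 494))) (.a (.f (nat_lit 497) (nat_lit 466) (nat_lit 2510) (.f (nat_lit 525) (nat_lit 526) (nat_lit 1517) (.f (nat_lit 493) (nat_lit 524) (nat_lit 1516) (.d (nat_lit 461) (nat_lit 460) (nat_lit 3532) (nat_lit 462) (nat_lit 3533))))) (.a (.f (nat_lit 493) (nat_lit 529) (nat_lit 493) (.f (nat_lit 492) (nat_lit 527) (nat_lit 492) (.d (nat_lit 524) (nat_lit 523) (nat_lit 1515) (nat_lit 525) (nat_lit 1516)))) (.f (nat_lit 497) (nat_lit 466) (nat_lit 2510) (.f (nat_lit 529) (nat_lit 530) (nat_lit 494) (.d (nat_lit 560) (nat_lit 433) (nat_lit 5552) (nat_lit 592) (nat_lit 6608)))))))) (.p (nat_lit 494) (.a (.d (nat_lit 493) (nat_lit 464) (nat_lit 2509) (nat_lit 529) (nat_lit 493)) (.a (.f (nat_lit 493) (nat_lit 464) (nat_lit 2509) (.f (nat_lit 497) (nat_lit 466) (nat_lit 2510) (.d (nat_lit 525) (nat_lit 524) (nat_lit 1516) (nat_lit 526) (nat_lit 1517)))) (.a (.f (nat_lit 466) (nat_lit 497) (nat_lit 2510) (.d (nat_lit 464) (nat_lit 463) (nat_lit 1486) (nat_lit 467) (nat_lit 1487))) (.f (nat_lit 497) (nat_lit 466) (nat_lit 2510) (.d (nat_lit 529) (nat_lit 493) (nat_lit 493) (nat_lit 530) (nat_lit 494)))))))))))))) (.a (.p (nat_lit 463) (.a (.f (nat_lit 431) (nat_lit 399) (nat_lit 4495) (.d (nat_lit 560) (nat_lit 527) (nat_lit 4527) (nat_lit 592) (nat_lit 7631))) (.a (.f (nat_lit 431) (nat_lit 399) (nat_lit 4495) (.d (nat_lit 560) (nat_lit 464) (nat_lit 7599) (nat_lit 592) (nat_lit 7631))) (.a (.p (nat_lit 494) (.a (.f (nat_lit 493) (nat_lit 529) (nat_lit 493) (.d (nat_lit 492) (nat_lit 464) (nat_lit 2508) (nat_lit 527) (nat_lit 492))) (.a (.f (nat_lit 493) (nat_lit 529) (nat_lit 493) (.f (nat_lit 492) (nat_lit 464) (nat_lit 2508) (.d (nat_lit 524) (nat_lit 523) (nat_lit 1515) (nat_lit 525) (nat_lit 1516)))) (.a (.p (nat_lit 527) (.a (.f (nat_lit 431) (nat_lit 399) (nat_lit 4495) (.f (nat_lit 526) (nat_lit 558) (nat_lit 5550) (.d (nat_lit 497) (nat_lit 498) (nat_lit 1518) (nat_lit 525) (nat_lit 1517)))) (.a (.f (nat_lit 493) (nat_lit 492) (nat_lit 492) (.f (nat_lit 525) (nat_lit 524) (nat_lit 1516) (.f (nat_lit 526) (nat_lit 497) (nat_lit 2541) (.f (nat_lit 461) (nat_lit 460) (nat_lit 3532) (.d (nat_lit 429) (nat_lit 397) (nat_lit 4493) (nat_lit 558) (nat_lit 4525)))))) (.a (.f (nat_lit 431) (nat_lit 399) (nat_lit 4495) (.f (nat_lit 526) (nat_lit 558) (nat_lit 5550) (.f (nat_lit 525) (nat_lit 524) (nat_lit 2540) (.f (nat_lit 557) (nat_lit 556) (nat_lit 1548) (.d (nat_lit 430) (nat_lit 398) (nat_lit 7566) (nat_lit 462) (nat_lit 5549)))))) (.f (nat_lit 493) (nat_lit 492) (nat_lit 492) (.f (nat_lit 431) (nat_lit 399) (nat_lit 4495) (.f (nat_lit 461) (nat_lit 460) (nat_lit 3532) (.f (nat_lit 462) (nat_lit 497) (nat_lit 3533) (.f (nat_lit 430) (nat_lit 398) (nat_lit 4494) (.d (nat_lit 432) (nat_lit 400) (nat_lit 6543) (nat_lit 433) (nat_lit 1453))))))))))) (.p (nat_lit 497) (.a (.d (nat_lit 462) (nat_lit 461) (nat_lit 3533) (nat_lit 498) (nat_lit 3534)) (.a (.f (nat_lit 526) (nat_lit 525) (nat_lit 1517) (.f (nat_lit 431) (nat_lit 399) (nat_lit 4495) (.d (nat_lit 558) (nat_lit 462) (nat_lit 6574) (nat_lit 590) (nat_lit 6606)))) (.f (nat_lit 526) (nat_lit 525) (nat_lit 1517) (.f (nat_lit 431) (nat_lit 399) (nat_lit 4495) (.d (nat_lit 527) (nat_lit 498) (nat_lit 1518) (nat_lit 558) (nat_lit 5550))))))))))) s134028)))) (.a (.p (nat_lit 494) (.a (.f (nat_lit 493) (nat_lit 529) (nat_lit 493) (.f (nat_lit 492) (nat_lit 527) (nat_lit 492) (.d (nat_lit 464) (nat_lit 463) (nat_lit 2508) (nat_lit 465) (nat_lit 2509)))) (.a (.f (nat_lit 493) (nat_lit 529) (nat_lit 493) (.f (nat_lit 464) (nat_lit 465) (nat_lit 2509) (.f (nat_lit 463) (nat_lit 492) (nat_lit 2508) (.d (nat_lit 560) (nat_lit 431) (nat_lit 7599) (nat_lit 592) (nat_lit 7631))))) (.a (.f (nat_lit 493) (nat_lit 529) (nat_lit 493) (.f (nat_lit 492) (nat_lit 527) (nat_lit 492) (.d (nat_lit 524) (nat_lit 523) (nat_lit 1515) (nat_lit 525) (nat_lit 1516)))) (.a (.p (nat_lit 497) (.a (.f (nat_lit 465) (nat_lit 466) (nat_lit 2510) (.f (nat_lit 464) (nat_lit 493) (nat_lit 2509) (.d (nat_lit 560) (nat_lit 433) (nat_lit 6576) (nat_lit 592) (nat_lit 6608)))) (.a (.f (nat_lit 526) (nat_lit 525) (nat_lit 1517) (.f (nat_lit 498) (nat_lit 527) (nat_lit 1518) (.d (nat_lit 466) (nat_lit 465) (nat_lit 2510) (nat_lit 467) (nat_lit 2511)))) (.a (.f (nat_lit 526) (nat_lit 525) (nat_lit 1517) (.f (nat_lit 498) (nat_lit 527) (nat_lit 1518) (.f (nat_lit 467) (nat_lit 466) (nat_lit 2511) (.f (nat_lit 499) (nat_lit 468) (nat_lit 2512) (.d (nat_lit 531) (nat_lit 530) (nat_lit 495) (nat_lit 532) (nat_lit 496)))))) (.f (nat_lit 526) (nat_lit 525) (nat_lit 1517) (.f (nat_lit 527) (nat_lit 498) (nat_lit 1518) (.f (nat_lit 493) (nat_lit 492) (nat_lit 492) (.f (nat_lit 461) (nat_lit 460) (nat_lit 3532) (.f (nat_lit 558) (nat_lit 590) (nat_lit 7629) (.f (nat_lit 431) (nat_lit 463) (nat_lit 5550) (.f (nat_lit 464) (nat_lit 465) (nat_lit 2509) (.d (nat_lit 432) (nat_lit 399) (nat_lit 7567) (nat_lit 400) (nat_lit 5519))))))))))))) s126654))))) (.a (.p (nat_lit 494) (.a (.f (nat_lit 493) (nat_lit 529) (nat_lit 493) (.f (nat_lit 492) (nat_lit 527) (nat_lit 492) (.d (nat_lit 464) (nat_lit 463) (nat_lit 2508) (nat_lit 465) (nat_lit 2509)))) (.a (.f (nat_lit 493) (nat_lit 529) (nat_lit 493) (.f (nat_lit 464) (nat_lit 465) (nat_lit 2509) (.f (nat_lit 463) (nat_lit 492) (nat_lit 2508) (.d (nat_lit 560) (nat_lit 431) (nat_lit 7599) (nat_lit 592) (nat_lit 7631))))) (.a (.f (nat_lit 493) (nat_lit 529) (nat_lit 493) (.f (nat_lit 492) (nat_lit 527) (nat_lit 492) (.d (nat_lit 524) (nat_lit 523) (nat_lit 1515) (nat_lit 525) (nat_lit 1516)))) (.a (.p (nat_lit 497) (.a (.f (nat_lit 465) (nat_lit 466) (nat_lit 2510) (.f (nat_lit 464) (nat_lit 493) (nat_lit 2509) (.d (nat_lit 560) (nat_lit 433) (nat_lit 6576) (nat_lit 592) (nat_lit 6608)))) (.a (.f (nat_lit 526) (nat_lit 525) (nat_lit 1517) (.f (nat_lit 498) (nat_lit 527) (nat_lit 1518) (.d (nat_lit 466) (nat_lit 465) (nat_lit 2510) (nat_lit 467) (nat_lit 2511)))) (.a (.f (nat_lit 526) (nat_lit 525) (nat_lit 1517) (.f (nat_lit 498) (nat_lit 527) (nat_lit 1518) (.f (nat_lit 467) (nat_lit 466) (nat_lit 2511) (.f (nat_lit 499) (nat_lit 468) (nat_lit 2512) (.d (nat_lit 531) (nat_lit 530) (nat_lit 495) (nat_lit 532) (nat_lit 496)))))) (.f (nat_lit 526) (nat_lit 525) (nat_lit 1517) (.f (nat_lit 527) (nat_lit 498) (nat_lit 1518) (.f (nat_lit 493) (nat_lit 492) (nat_lit 492) (.f (nat_lit 464) (nat_lit 465) (nat_lit 2509) (.f (nat_lit 432) (nat_lit 400) (nat_lit 5519) (.f (nat_lit 431) (nat_lit 399) (nat_lit 7567) (.d (nat_lit 463) (nat_lit 558) (nat_lit 5550) (nat_lit 560) (nat_lit 7599)))))))))))) s126654))))) (.p (nat_lit 463) (.a (.f (nat_lit 431) (nat_lit 399) (nat_lit 4495) (.d (nat_lit 560) (nat_lit 527) (nat_lit 4527) (nat_lit 592) (nat_lit 7631))) (.a (.f (nat_lit 431) (nat_lit 399) (nat_lit 4495) (.d (nat_lit 560) (nat_lit 464) (nat_lit 7599) (nat_lit 592) (nat_lit 7631))) s134028)))))))))))))))) (.a (.p (nat_lit 496) (.a (.p (nat_lit 560) (.a (.f (nat_lit 592) (nat_lit 463) (nat_lit 7631) (.f (nat_lit 497) (nat_lit 465) (nat_lit 6608) (.d (nat_lit 624) (nat_lit 527) (nat_lit 7663) (nat_lit 529) (nat_lit 6640)))) (.a (.p (nat_lit 592) (.a (.f (nat_lit 497) (nat_lit 465) (nat_lit 6608) (.d (nat_lit 624) (nat_lit 527) (nat_lit 7663) (nat_lit 529) (nat_lit 6640))) (.a (.f (nat_lit 527) (nat_lit 624) (nat_lit 7663) (.f (nat_lit 497) (nat_lit 465) (nat_lit 6608) (.d (nat_lit 526) (nat_lit 498) (nat_lit 1518) (nat_lit 525) (nat_lit 2541)))) (.a (.f (nat_lit 497) (nat_lit 465) (nat_lit 6608) (.f (nat_lit 529) (nat_lit 624) (nat_lit 6640) (.d (nat_lit 494) (nat_lit 493) (nat_lit 493) (nat_lit 530) (nat_lit 494)))) (.f (nat_lit 591) (nat_lit 623) (nat_lit 5615) (.f (nat_lit 559) (nat_lit 464) (nat_lit 5583) (.f (nat_lit 593) (nat_lit 625) (nat_lit 4592) (.d (nat_lit 558) (nat_lit 557) (nat_lit 557) (nat_lit 594) (nat_lit 3630))))))))) (.a (.f (nat_lit 592) (nat_lit 463) (nat_lit 7631) (.f (nat_lit 527) (nat_lit 624) (nat_lit 7663) (.f (nat_lit 497) (nat_lit 465) (nat_lit 6608) (.d (nat_lit 526) (nat_lit 498) (nat_lit 1518) (nat_lit 525) (nat_lit 2541))))) (.a s134557 (.a (.f (nat_lit 592) (nat_lit 463) (nat_lit 7631) (.f (nat_lit 497) (nat_lit 465) (nat_lit 6608) (.f (nat_lit 529) (nat_lit 624) (nat_lit 6640) (.d (nat_lit 494) (nat_lit 493) (nat_lit 493) (nat_lit 530) (nat_lit 494))))) (.f (nat_lit 592) (nat_lit 463) (nat_lit 7631) (.f (nat_lit 624) (nat_lit 527) (nat_lit 7663) (.d (nat_lit 623) (nat_lit 591) (nat_lit 5615) (nat_lit 655) (nat_lit 5647)))))))))) (.a (.p (nat_lit 560) (.a (.f (nat_lit 592) (nat_lit 463) (nat_lit 7631) (.f (nat_lit 527) (nat_lit 624) (nat_lit 7663) (.f (nat_lit 497) (nat_lit 465) (nat_lit 6608) (.d (nat_lit 526) (nat_lit 498) (nat_lit 1518) (nat_lit 525) (nat_lit 2541))))) (.a (.p (nat_lit 464) (.a (.f (nat_lit 559) (nat_lit 591) (nat_lit 5583) (.f (nat_lit 432) (nat_lit 527) (nat_lit 5551) (.d (nat_lit 433) (nat_lit 401) (nat_lit 6544) (nat_lit 465) (nat_lit 6576)))) (.a (.f (nat_lit 465) (nat_lit 433) (nat_lit 6576) (.f (nat_lit 497) (nat_lit 592) (nat_lit 6608) (.d (nat_lit 494) (nat_lit 466) (nat_lit 2510) (nat_lit 493) (nat_lit 2509)))) (.a (.f (nat_lit 559) (nat_lit 591) (nat_lit 5583) (.f (nat_lit 432) (nat_lit 527) (nat_lit 5551) (.f (nat_lit 399) (nat_lit 431) (nat_lit 7567) (.f (nat_lit 400) (nat_lit 367) (nat_lit 7535) (.d (nat_lit 401) (nat_lit 369) (nat_lit 6512) (nat_lit 433) (nat_lit 6544)))))) (.f (nat_lit 559) (nat_lit 591) (nat_lit 5583) (.f (nat_lit 527) (nat_lit 432) (nat_lit 5551) (.f (nat_lit 592) (nat_lit 624) (nat_lit 7663) (.f (nat_lit 497) (nat_lit 465) (nat_lit 6608) (.d (nat_lit 526) (nat_lit 498) (nat_lit 1518) (nat_lit 525) (nat_lit 2541)))))))))) (.a (.p (nat_lit 464) (.a (.f (nat_lit 463) (nat_lit 431) (nat_lit 7599) (.f (nat_lit 465) (nat_lit 433) (nat_lit 6576) (.d (nat_lit 494) (nat_lit 466) (nat_lit 1486) (nat_lit 493) (nat_lit 2509)))) (.a (.f (nat_lit 559) (nat_lit 591) (nat_lit 5583) (.f (nat_lit 432) (nat_lit 527) (nat_lit 5551) (.d (nat_lit 433) (nat_lit 401) (nat_lit 6544) (nat_lit 465) (nat_lit 6576)))) (.a (.f (nat_lit 559) (nat_lit 591) (nat_lit 5583) (.f (nat_lit 432) (nat_lit 527) (nat_lit 5551) (.f (nat_lit 399) (nat_lit 431) (nat_lit 7567) (.f (nat_lit 400) (nat_lit 367) (nat_lit 7535) (.d (nat_lit 401) (nat_lit 369) (nat_lit 6512) (nat_lit 433) (nat_lit 6544)))))) (.f (nat_lit 463) (nat_lit 431) (nat_lit 7599) (.f (nat_lit 559) (nat_lit 591) (nat_lit 5583) (.f (nat_lit 527) (nat_lit 432) (nat_lit 5551) (.f (nat_lit 558) (nat_lit 590) (nat_lit 5582) (.f (nat_lit 557) (nat_lit 556) (nat_lit 2572) (.f (nat_lit 525) (nat_lit 524) (nat_lit 3596) (.f (nat_lit 526) (nat_lit 497) (nat_lit 2541) (.f (nat_lit 589) (nat_lit 588) (nat_lit 1580) (.d (nat_lit 621) (nat_lit 494) (nat_lit 6637) (nat_lit 653) (nat_lit 6669)))))))))))))) (.a (.f (nat_lit 592) (nat_lit 463) (nat_lit 7631) (.f (nat_lit 465) (nat_lit 497) (nat_lit 6608) (.f (nat_lit 464) (nat_lit 433) (nat_lit 6576) (.d (nat_lit 591) (nat_lit 559) (nat_lit 5583) (nat_lit 623) (nat_lit 5615))))) (.f (nat_lit 592) (nat_lit 463) (nat_lit 7631) (.f (nat_lit 624) (nat_lit 527) (nat_lit 7663) (.d (nat_lit 623) (nat_lit 591) (nat_lit 5615) (nat_lit 655) (nat_lit 5647))))))))) (.a (.p (nat_lit 494) (.a (.f (nat_lit 493) (nat_lit 529) (nat_lit 493) (.f (nat_lit 492) (nat_lit 527) (nat_lit 492) (.d (nat_lit 464) (nat_lit 463) (nat_lit 2508) (nat_lit 465) (nat_lit 2509)))) (.a s134562 (.a (.f (nat_lit 493) (nat_lit 529) (nat_lit 493) (.f (nat_lit 492) (nat_lit 527) (nat_lit 492) (.d (nat_lit 524) (nat_lit 523) (nat_lit 1515) (nat_lit 525) (nat_lit 1516)))) (.a (.p (nat_lit 497) (.a (.f (nat_lit 526) (nat_lit 525) (nat_lit 1517) (.f (nat_lit 527) (nat_lit 498) (nat_lit 1518) (.f (nat_lit 529) (nat_lit 530) (nat_lit 494) (.f (nat_lit 558) (nat_lit 557) (nat_lit 1549) (.d (nat_lit 463) (nat_lit 431) (nat_lit 5550) (nat_lit 590) (nat_lit 6606)))))) (.a (.f (nat_lit 526) (nat_lit 525) (nat_lit 1517) (.f (nat_lit 498) (nat_lit 527) (nat_lit 1518) (.d (nat_lit 466) (nat_lit 465) (nat_lit 2510) (nat_lit 467) (nat_lit 2511)))) (.a (.f (nat_lit 530) (nat_lit 529) (nat_lit 494) (.f (nat_lit 498) (nat_lit 531) (nat_lit 495) (.d (nat_lit 466) (nat_lit 465) (nat_lit 2510) (nat_lit 467) (nat_lit 2511)))) (.p (nat_lit 463) (.a (.f (nat_lit 526) (nat_lit 525) (nat_lit 1517) (.f (nat_lit 431) (nat_lit 399) (nat_lit 5518) (.d (nat_lit 558) (nat_lit 527) (nat_lit 5550) (nat_lit 590) (nat_lit 6606)))) (.a (.f (nat_lit 526) (nat_lit 525) (nat_lit 1517) (.f (nat_lit 529) (nat_lit 530) (nat_lit 494) (.f (nat_lit 465) (nat_lit 466) (nat_lit 2510) (.f (nat_lit 433) (nat_lit 401) (nat_lit 5520) (.f (nat_lit 432) (nat_lit 400) (nat_lit 7568) (.f (nat_lit 558) (nat_lit 590) (nat_lit 6606) (.f (nat_lit 527) (nat_lit 557) (nat_lit 1549) (.f (nat_lit 464) (nat_lit 559) (nat_lit 5551) (.d (nat_lit 434) (nat_lit 402) (nat_lit 6545) (nat_lit 435) (nat_lit 1455)))))))))) (.f (nat_lit 465) (nat_lit 466) (nat_lit 2510) (.f (nat_lit 529) (nat_lit 530) (nat_lit 494) (.f (nat_lit 433) (nat_lit 401) (nat_lit 5520) (.f (nat_lit 432) (nat_lit 400) (nat_lit 7568) (.f (nat_lit 434) (nat_lit 402) (nat_lit 6545) (.f (nat_lit 435) (nat_lit 464) (nat_lit 1455) (.f (nat_lit 404) (nat_lit 403) (nat_lit 2448) (.f (nat_lit 436) (nat_lit 405) (nat_lit 2449) (.d (nat_lit 468) (nat_lit 467) (nat_lit 432) (nat_lit 469) (nat_lit 433))))))))))))))))) (.f (nat_lit 493) (nat_lit 529) (nat_lit 493) (.f (nat_lit 464) (nat_lit 465) (nat_lit 2509) (.f (nat_lit 492) (nat_lit 463) (nat_lit 2508) (.d (nat_lit 524) (nat_lit 523) (nat_lit 1515) (nat_lit 525) (nat_lit 1516)))))))))) (.a (.p (nat_lit 494) (.a (.f (nat_lit 493) (nat_lit 529) (nat_lit 493) (.f (nat_lit 492) (nat_lit 527) (nat_lit 492) (.d (nat_lit 524) (nat_lit 523) (nat_lit 1515) (nat_lit 525) (nat_lit 1516)))) (.a (.p (nat_lit 497) (.a (.f (nat_lit 526) (nat_lit 525) (nat_lit 1517) (.f (nat_lit 498) (nat_lit 527) (nat_lit 1518) (.d (nat_lit 466) (nat_lit 465) (nat_lit 2510) (nat_lit 467) (nat_lit 2511)))) (.a (.f (nat_lit 465) (nat_lit 466) (nat_lit 2510) (.f (nat_lit 464) (nat_lit 493) (nat_lit 2509) (.d (nat_lit 560) (nat_lit 433) (nat_lit 6576) (nat_lit 592) (nat_lit 6608)))) (.a (.f (nat_lit 526) (nat_lit 525) (nat_lit 1517) (.f (nat_lit 498) (nat_lit 527) (nat_lit 1518) (.f (nat_lit 467) (nat_lit 466) (nat_lit 2511) (.f (nat_lit 499) (nat_lit 468) (nat_lit 2512) (.d (nat_lit 531) (nat_lit 530) (nat_lit 495) (nat_lit 532) (nat_lit 496)))))) (.f (nat_lit 526) (nat_lit 525) (nat_lit 1517) (.f (nat_lit 527) (nat_lit 498) (nat_lit 1518) (.f (nat_lit 493) (nat_lit 492) (nat_lit 492) (.f (nat_lit 464) (nat_lit 465) (nat_lit 2509) (.d (nat_lit 559) (nat_lit 432) (nat_lit 5551) (nat_lit 591) (nat_lit 6607)))))))))) (.a (.p (nat_lit 497) (.a (.f (nat_lit 526) (nat_lit 525) (nat_lit 1517) (.f (nat_lit 498) (nat_lit 527) (nat_lit 1518) (.d (nat_lit 466) (nat_lit 465) (nat_lit 2510) (nat_lit 467) (nat_lit 2511)))) (.a (.f (nat_lit 530) (nat_lit 529) (nat_lit 494) (.f (nat_lit 498) (nat_lit 531) (nat_lit 495) (.d (nat_lit 466) (nat_lit 465) (nat_lit 2510) (nat_lit 467) (nat_lit 2511)))) (.a (.f (nat_lit 526) (nat_lit 525) (nat_lit 1517) (.f (nat_lit 498) (nat_lit 527) (nat_lit 1518) (.f (nat_lit 467) (nat_lit 466) (nat_lit 2511) (.f (nat_lit 499) (nat_lit 468) (nat_lit 2512) (.d (nat_lit 531) (nat_lit 530) (nat_lit 495) (nat_lit 532) (nat_lit 496)))))) (.a (.f (nat_lit 529) (nat_lit 530) (nat_lit 494) (.f (nat_lit 465) (nat_lit 466) (nat_lit 2510) (.d (nat_lit 560) (nat_lit 433) (nat_lit 5552) (nat_lit 592) (nat_lit 6608)))) (.f (nat_lit 529) (nat_lit 530) (nat_lit 494) (.f (nat_lit 526) (nat_lit 525) (nat_lit 1517) (.f (nat_lit 527) (nat_lit 498) (nat_lit 2542) (.f (nat_lit 558) (nat_lit 557) (nat_lit 1549) (.f (nat_lit 590) (nat_lit 622) (nat_lit 6638) (.f (nat_lit 591) (nat_lit 623) (nat_lit 4590) (.f (nat_lit 559) (nat_lit 464) (nat_lit 6607) (.f (nat_lit 589) (nat_lit 621) (nat_lit 5613) (.d (nat_lit 588) (nat_lit 560) (nat_lit 2604) (nat_lit 587) (nat_lit 2603))))))))))))))) (.a (.f (nat_lit 493) (nat_lit 529) (nat_lit 493) (.f (nat_lit 465) (nat_lit 464) (nat_lit 2509) (.f (nat_lit 497) (nat_lit 466) (nat_lit 2510) (.d (nat_lit 525) (nat_lit 524) (nat_lit 1516) (nat_lit 526) (nat_lit 1517))))) (.f (nat_lit 493) (nat_lit 529) (nat_lit 493) (.f (nat_lit 492) (nat_lit 527) (nat_lit 492) (.d (nat_lit 460) (nat_lit 459) (nat_lit 3531) (nat_lit 461) (nat_lit 3532))))))))) (.a (.p (nat_lit 560) (.a (.f (nat_lit 592) (nat_lit 463) (nat_lit 7631) (.f (nat_lit 497) (nat_lit 465) (nat_lit 6608) (.d (nat_lit 624) (nat_lit 527) (nat_lit 7663) (nat_lit 529) (nat_lit 6640)))) (.a (.p (nat_lit 592) (.a (.f (nat_lit 497) (nat_lit 465) (nat_lit 6608) (.d (nat_lit 624) (nat_lit 527) (nat_lit 7663) (nat_lit 529) (nat_lit 6640))) (.a (.f (nat_lit 527) (nat_lit 624) (nat_lit 7663) (.f (nat_lit 497) (nat_lit 465) (nat_lit 6608) (.d (nat_lit 526) (nat_lit 498) (nat_lit 1518) (nat_lit 525) (nat_lit 2541)))) (.f (nat_lit 591) (nat_lit 623) (nat_lit 5615) (.f (nat_lit 559) (nat_lit 464) (nat_lit 5583) (.f (nat_lit 593) (nat_lit 625) (nat_lit 4592) (.d (nat_lit 558) (nat_lit 557) (nat_lit 557) (nat_lit 594) (nat_lit 3630)))))))) (.a (.f (nat_lit 592) (nat_lit 463) (nat_lit 7631) (.f (nat_lit 527) (nat_lit 624) (nat_lit 7663) (.f (nat_lit 497) (nat_lit 465) (nat_lit 6608) (.d (nat_lit 526) (nat_lit 498) (nat_lit 1518) (nat_lit 525) (nat_lit 2541))))) (.a (.p (nat_lit 464) (.a (.f (nat_lit 559) (nat_lit 591) (nat_lit 5583) (.f (nat_lit 432) (nat_lit 527) (nat_lit 5551) (.d (nat_lit 433) (nat_lit 401) (nat_lit 6544) (nat_lit 465) (nat_lit 6576)))) (.a (.f (nat_lit 431) (nat_lit 463) (nat_lit 7599) (.f (nat_lit 432) (nat_lit 399) (nat_lit 7567) (.d (nat_lit 433) (nat_lit 401) (nat_lit 6544) (nat_lit 465) (nat_lit 6576)))) (.a (.p (nat_lit 529) (.a (.f (nat_lit 559) (nat_lit 591) (nat_lit 5583) (.f (nat_lit 530) (nat_lit 531) (nat_lit 1551) (.d (nat_lit 558) (nat_lit 527) (nat_lit 1550) (nat_lit 557) (nat_lit 2573)))) (.a (.f (nat_lit 559) (nat_lit 591) (nat_lit 5583) (.f (nat_lit 463) (nat_lit 431) (nat_lit 7599) (.f (nat_lit 465) (nat_lit 433) (nat_lit 6576) (.f (nat_lit 466) (nat_lit 467) (nat_lit 1487) (.f (nat_lit 498) (nat_lit 499) (nat_lit 463) (.f (nat_lit 558) (nat_lit 557) (nat_lit 2573) (.f (nat_lit 527) (nat_lit 590) (nat_lit 5582) (.f (nat_lit 497) (nat_lit 526) (nat_lit 2542) (.d (nat_lit 434) (nat_lit 402) (nat_lit 5521) (nat_lit 435) (nat_lit 2479)))))))))) (.f (nat_lit 465) (nat_lit 433) (nat_lit 6576) (.f (nat_lit 463) (nat_lit 431) (nat_lit 7599) (.f (nat_lit 466) (nat_lit 467) (nat_lit 1487) (.f (nat_lit 498) (nat_lit 499) (nat_lit 463) (.f (nat_lit 434) (nat_lit 435) (nat_lit 2479) (.f (nat_lit 402) (nat_lit 497) (nat_lit 5521) (.f (nat_lit 371) (nat_lit 403) (nat_lit 6514) (.f (nat_lit 370) (nat_lit 339) (nat_lit 6482) (.d (nat_lit 369) (nat_lit 337) (nat_lit 7505) (nat_lit 401) (nat_lit 7537))))))))))))) (.f (nat_lit 559) (nat_lit 591) (nat_lit 5583) (.f (nat_lit 527) (nat_lit 432) (nat_lit 5551) (.f (nat_lit 463) (nat_lit 431) (nat_lit 4527) (.f (nat_lit 558) (nat_lit 590) (nat_lit 5582) (.d (nat_lit 557) (nat_lit 529) (nat_lit 2573) (nat_lit 556) (nat_lit 2572)))))))))) (.a (.f (nat_lit 592) (nat_lit 463) (nat_lit 7631) (.f (nat_lit 465) (nat_lit 497) (nat_lit 6608) (.f (nat_lit 464) (nat_lit 433) (nat_lit 6576) (.d (nat_lit 591) (nat_lit 559) (nat_lit 5583) (nat_lit 623) (nat_lit 5615))))) (.f (nat_lit 592) (nat_lit 463) (nat_lit 7631) (.f (nat_lit 624) (nat_lit 527) (nat_lit 7663) (.d (nat_lit 623) (nat_lit 591) (nat_lit 5615) (nat_lit 655) (nat_lit 5647)))))))))) (.a (.p (nat_lit 465) (.a (.p (nat_lit 560) (.a (.d (nat_lit 592) (nat_lit 463) (nat_lit 7631) (nat_lit 497) (nat_lit 6608)) (.a (.f (nat_lit 497) (nat_lit 592) (nat_lit 6608) (.d (nat_lit 433) (nat_lit 401) (nat_lit 5520) (nat_lit 464) (nat_lit 6576))) (.f (nat_lit 464) (nat_lit 433) (nat_lit 6576) (.f (nat_lit 494) (nat_lit 493) (nat_lit 2509) (.d (nat_lit 463) (nat_lit 431) (nat_lit 7599) (nat_lit 466) (nat_lit 1486))))))) (.a (.p (nat_lit 494) (.a (.d (nat_lit 493) (nat_lit 464) (nat_lit 2509) (nat_lit 529) (nat_lit 493)) (.a (.f (nat_lit 464) (nat_lit 493) (nat_lit 2509) (.d (nat_lit 466) (nat_lit 463) (nat_lit 1486) (nat_lit 497) (nat_lit 2510))) (.a (.f (nat_lit 466) (nat_lit 497) (nat_lit 2510) (.d (nat_lit 464) (nat_lit 463) (nat_lit 1486) (nat_lit 467) (nat_lit 1487))) (.f (nat_lit 497) (nat_lit 466) (nat_lit 2510) (.d (nat_lit 529) (nat_lit 493) (nat_lit 493) (nat_lit 530) (nat_lit 494))))))) (.a (.p (nat_lit 560) (.a (.d (nat_lit 592) (nat_lit 463) (nat_lit 7631) (nat_lit 497) (nat_lit 6608)) (.a (.f (nat_lit 497) (nat_lit 592) (nat_lit 6608) (.d (nat_lit 433) (nat_lit 401) (nat_lit 5520) (nat_lit 464) (nat_lit 6576))) (.a (.f (nat_lit 433) (nat_lit 464) (nat_lit 6576) (.d (nat_lit 497) (nat_lit 401) (nat_lit 5520) (nat_lit 529) (nat_lit 5552))) (.f (nat_lit 464) (nat_lit 433) (nat_lit 6576) (.d (nat_lit 463) (nat_lit 431) (nat_lit 7599) (nat_lit 592) (nat_lit 7631))))))) (.a (.p (nat_lit 494) (.a (.d (nat_lit 493) (nat_lit 464) (nat_lit 2509) (nat_lit 529) (nat_lit 493)) (.a (.f (nat_lit 497) (nat_lit 466) (nat_lit 2510) (.f (nat_lit 464) (nat_lit 493) (nat_lit 2509) (.d (nat_lit 433) (nat_lit 401) (nat_lit 5520) (nat_lit 560) (nat_lit 6576)))) (.a (.f (nat_lit 497) (nat_lit 466) (nat_lit 2510) (.f (nat_lit 433) (nat_lit 401) (nat_lit 5520) (.d (nat_lit 560) (nat_lit 464) (nat_lit 6576) (nat_lit 592) (nat_lit 6608)))) (.f (nat_lit 497) (nat_lit 466) (nat_lit 2510) (.d (nat_lit 529) (nat_lit 493) (nat_lit 493) (nat_lit 530) (nat_lit 494))))))) (.a (.p (nat_lit 497) (.a (.f (nat_lit 466) (nat_lit 494) (nat_lit 2510) (.d (nat_lit 467) (nat_lit 468) (nat_lit 1488) (nat_lit 498) (nat_lit 2511))) (.f (nat_lit 560) (nat_lit 592) (nat_lit 6608) (.d (nat_lit 433) (nat_lit 401) (nat_lit 5520) (nat_lit 529) (nat_lit 5552))))) (.p (nat_lit 464) (.a (.f (nat_lit 560) (nat_lit 433) (nat_lit 6576) (.d (nat_lit 463) (nat_lit 431) (nat_lit 7599) (nat_lit 592) (nat_lit 7631))) (.a (.f (nat_lit 466) (nat_lit 467) (nat_lit 1487) (.d (nat_lit 494) (nat_lit 463) (nat_lit 1486) (nat_lit 493) (nat_lit 2509))) (.f (nat_lit 433) (nat_lit 560) (nat_lit 6576) (.d (nat_lit 401) (nat_lit 369) (nat_lit 5488) (nat_lit 432) (nat_lit 6544)))))))))))) (.a (.p (nat_lit 494) (.a (.f (nat_lit 493) (nat_lit 529) (nat_lit 493) (.f (nat_lit 492) (nat_lit 527) (nat_lit 492) (.d (nat_lit 524) (nat_lit 523) (nat_lit 1515) (nat_lit 525) (nat_lit 1516)))) (.a (.p (nat_lit 493) (.a (.f (nat_lit 492) (nat_lit 527) (nat_lit 492) (.d (nat_lit 524) (nat_lit 523) (nat_lit 1515) (nat_lit 525) (nat_lit 1516))) (.a (.f (nat_lit 525) (nat_lit 524) (nat_lit 1516) (.f (nat_lit 526) (nat_lit 497) (nat_lit 1517) (.f (nat_lit 461) (nat_lit 460) (nat_lit 3532) (.d (nat_lit 429) (nat_lit 397) (nat_lit 4493) (nat_lit 558) (nat_lit 4525))))) (.f (nat_lit 492) (nat_lit 527) (nat_lit 492) (.d (nat_lit 460) (nat_lit 459) (nat_lit 3531) (nat_lit 461) (nat_lit 3532)))))) (.a (.p (nat_lit 497) (.a (.f (nat_lit 526) (nat_lit 525) (nat_lit 1517) (.f (nat_lit 527) (nat_lit 498) (nat_lit 1518) (.f (nat_lit 529) (nat_lit 530) (nat_lit 494) (.f (nat_lit 558) (nat_lit 557) (nat_lit 1549) (.d (nat_lit 463) (nat_lit 431) (nat_lit 5550) (nat_lit 590) (nat_lit 6606)))))) (.a (.f (nat_lit 526) (nat_lit 525) (nat_lit 1517) (.f (nat_lit 498) (nat_lit 527) (nat_lit 1518) (.d (nat_lit 466) (nat_lit 465) (nat_lit 2510) (nat_lit 467) (nat_lit 2511)))) (.a (.f (nat_lit 530) (nat_lit 529) (nat_lit 494) (.f (nat_lit 498) (nat_lit 531) (nat_lit 495) (.d (nat_lit 466) (nat_lit 465) (nat_lit 2510) (nat_lit 467) (nat_lit 2511)))) (.f (nat_lit 529) (nat_lit 530) (nat_lit 494) (.f (nat_lit 465) (nat_lit 466) (nat_lit 2510) (.d (nat_lit 560) (nat_lit 433) (nat_lit 5552) (nat_lit 592) (nat_lit 6608)))))))) (.a (.f (nat_lit 493) (nat_lit 529) (nat_lit 493) (.f (nat_lit 525) (nat_lit 524) (nat_lit 1516) (.f (nat_lit 461) (nat_lit 460) (nat_lit 3532) (.f (nat_lit 526) (nat_lit 497) (nat_lit 1517) (.d (nat_lit 429) (nat_lit 397) (nat_lit 4493) (nat_lit 558) (nat_lit 4525)))))) (.f (nat_lit 493) (nat_lit 529) (nat_lit 493) (.f (nat_lit 492) (nat_lit 527) (nat_lit 492) (.d (nat_lit 460) (nat_lit 459) (nat_lit 3531) (nat_lit 461) (nat_lit 3532))))))))) (.a (.p (nat_lit 560) (.a s134557 (.a s134636 (.a (.f (nat_lit 592) (nat_lit 463) (nat_lit 7631) (.f (nat_lit 624) (nat_lit 527) (nat_lit 7663) (.d (nat_lit 623) (nat_lit 591) (nat_lit 5615) (nat_lit 655) (nat_lit 5647)))) (.a (.f (nat_lit 592) (nat_lit 463) (nat_lit 7631) (.f (nat_lit 591) (nat_lit 623) (nat_lit 5615) (.f (nat_lit 593) (nat_lit 625) (nat_lit 4592) (.f (nat_lit 559) (nat_lit 464) (nat_lit 5583) (.d (nat_lit 558) (nat_lit 557) (nat_lit 557) (nat_lit 594) (nat_lit 3630)))))) (.f (nat_lit 463) (nat_lit 592) (nat_lit 7631) (.d (nat_lit 431) (nat_lit 399) (nat_lit 4495) (nat_lit 464) (nat_lit 7599)))))))) (.a (.p (nat_lit 560) (.a (.f (nat_lit 592) (nat_lit 463) (nat_lit 7631) (.f (nat_lit 624) (nat_lit 527) (nat_lit 7663) (.d (nat_lit 623) (nat_lit 591) (nat_lit 5615) (nat_lit 655) (nat_lit 5647)))) (.a s134636 (.a (.p (nat_lit 464) (.a (.f (nat_lit 559) (nat_lit 591) (nat_lit 5583) (.f (nat_lit 527) (nat_lit 432) (nat_lit 5551) (.f (nat_lit 463) (nat_lit 431) (nat_lit 4527) (.f (nat_lit 558) (nat_lit 590) (nat_lit 5582) (.d (nat_lit 557) (nat_lit 529) (nat_lit 2573) (nat_lit 556) (nat_lit 2572)))))) (.a (.f (nat_lit 559) (nat_lit 591) (nat_lit 5583) (.f (nat_lit 432) (nat_lit 527) (nat_lit 5551) (.f (nat_lit 399) (nat_lit 431) (nat_lit 7567) (.f (nat_lit 400) (nat_lit 367) (nat_lit 7535) (.d (nat_lit 401) (nat_lit 369) (nat_lit 6512) (nat_lit 433) (nat_lit 6544)))))) (.a (.f (nat_lit 559) (nat_lit 591) (nat_lit 5583) (.f (nat_lit 432) (nat_lit 527) (nat_lit 5551) (.f (nat_lit 401) (nat_lit 433) (nat_lit 6544) (.f (nat_lit 400) (nat_lit 369) (nat_lit 6512) (.f (nat_lit 367) (nat_lit 399) (nat_lit 7535) (.d (nat_lit 368) (nat_lit 335) (nat_lit 7503) (nat_lit 463) (nat_lit 5487))))))) (.a s128096 (.p (nat_lit 529) (.a (.f (nat_lit 559) (nat_lit 591) (nat_lit 5583) (.f (nat_lit 530) (nat_lit 531) (nat_lit 1551) (.d (nat_lit 558) (nat_lit 527) (nat_lit 1550) (nat_lit 557) (nat_lit 2573)))) (.a (.f (nat_lit 463) (nat_lit 431) (nat_lit 7599) (.f (nat_lit 494) (nat_lit 493) (nat_lit 493) (.f (nat_lit 559) (nat_lit 591) (nat_lit 5583) (.f (nat_lit 558) (nat_lit 557) (nat_lit 2573) (.d (nat_lit 590) (nat_lit 526) (nat_lit 6606) (nat_lit 527) (nat_lit 5582)))))) (.f (nat_lit 530) (nat_lit 531) (nat_lit 3567) (.d (nat_lit 494) (nat_lit 493) (nat_lit 493) (nat_lit 497) (nat_lit 494))))))))))) (.a (.f (nat_lit 592) (nat_lit 463) (nat_lit 7631) (.f (nat_lit 591) (nat_lit 623) (nat_lit 5615) (.f (nat_lit 593) (nat_lit 625) (nat_lit 4592) (.f (nat_lit 559) (nat_lit 464) (nat_lit 5583) (.d (nat_lit 558) (nat_lit 557) (nat_lit 557) (nat_lit 594) (nat_lit 3630)))))) (.f (nat_lit 463) (nat_lit 592) (nat_lit 7631) (.d (nat_lit 431) (nat_lit 399) (nat_lit 4495) (nat_lit 464) (nat_lit 7599)))))))) (.p (nat_lit 494) (.a (.f (nat_lit 493) (nat_lit 529) (nat_lit 493) (.f (nat_lit 492) (nat_lit 527) (nat_lit 492) (.d (nat_lit 464) (nat_lit 463) (nat_lit 2508) (nat_lit 465) (nat_lit 2509)))) (.a s134562 (.a (.f (nat_lit 493) (nat_lit 529) (nat_lit 493) (.f (nat_lit 492) (nat_lit 527) (nat_lit 492) (.d (nat_lit 524) (nat_lit 523) (nat_lit 1515) (nat_lit 525) (nat_lit 1516)))) (.a (.p (nat_lit 497) (.a (.f (nat_lit 526) (nat_lit 525) (nat_lit 1517) (.f (nat_lit 527) (nat_lit 498) (nat_lit 1518) (.f (nat_lit 529) (nat_lit 530) (nat_lit 494) (.f (nat_lit 558) (nat_lit 557) (nat_lit 1549) (.d (nat_lit 463) (nat_lit 431) (nat_lit 5550) (nat_lit 590) (nat_lit 6606)))))) (.a (.f (nat_lit 526) (nat_lit 525) (nat_lit 1517) (.f (nat_lit 498) (nat_lit 527) (nat_lit 1518) (.d (nat_lit 466) (nat_lit 465) (nat_lit 2510) (nat_lit 467) (nat_lit 2511)))) (.a (.f (nat_lit 530) (nat_lit 529) (nat_lit 494) (.f (nat_lit 498) (nat_lit 531) (nat_lit 495) (.d (nat_lit 466) (nat_lit 465) (nat_lit 2510) (nat_lit 467) (nat_lit 2511)))) (.p (nat_lit 464) (.a (.f (nat_lit 465) (nat_lit 466) (nat_lit 2510) (.f (nat_lit 560) (nat_lit 592) (nat_lit 6608) (.f (nat_lit 529) (nat_lit 530) (nat_lit 494) (.f (nat_lit 432) (nat_lit 400) (nat_lit 4496) (.d (nat_lit 431) (nat_lit 399) (nat_lit 7567) (nat_lit 463) (nat_lit 7599)))))) (.a (.f (nat_lit 465) (nat_lit 466) (nat_lit 2510) (.f (nat_lit 560) (nat_lit 592) (nat_lit 6608) (.f (nat_lit 431) (nat_lit 463) (nat_lit 7599) (.f (nat_lit 432) (nat_lit 399) (nat_lit 7567) (.d (nat_lit 559) (nat_lit 527) (nat_lit 5551) (nat_lit 591) (nat_lit 5583)))))) (.a (.f (nat_lit 529) (nat_lit 530) (nat_lit 494) (.f (nat_lit 432) (nat_lit 400) (nat_lit 4496) (.f (nat_lit 465) (nat_lit 466) (nat_lit 2510) (.f (nat_lit 560) (nat_lit 592) (nat_lit 6608) (.d (nat_lit 559) (nat_lit 527) (nat_lit 5551) (nat_lit 591) (nat_lit 5583)))))) (.a (.f (nat_lit 529) (nat_lit 530) (nat_lit 494) (.f (nat_lit 432) (nat_lit 400) (nat_lit 4496) (.f (nat_lit 527) (nat_lit 559) (nat_lit 5551) (.f (nat_lit 526) (nat_lit 525) (nat_lit 1517) (.f (nat_lit 431) (nat_lit 399) (nat_lit 7567) (.d (nat_lit 558) (nat_lit 463) (nat_lit 5550) (nat_lit 557) (nat_lit 1549))))))) (.f (nat_lit 465) (nat_lit 466) (nat_lit 2510) (.f (nat_lit 560) (nat_lit 592) (nat_lit 6608) (.f (nat_lit 529) (nat_lit 530) (nat_lit 494) (.f (nat_lit 463) (nat_lit 431) (nat_lit 7599) (.f (nat_lit 559) (nat_lit 591) (nat_lit 5583) (.f (nat_lit 558) (nat_lit 557) (nat_lit 2573) (.d (nat_lit 590) (nat_lit 526) (nat_lit 6606) (nat_lit 527) (nat_lit 5582))))))))))))))))) (.f (nat_lit 493) (nat_lit 529) (nat_lit 493) (.f (nat_lit 464) (nat_lit 465) (nat_lit 2509) (.f (nat_lit 492) (nat_lit 463) (nat_lit 2508) (.d (nat_lit 524) (nat_lit 523) (nat_lit 1515) (nat_lit 525) (nat_lit 1516)))))))))))))))))))) (.a (.p (nat_lit 463) (.a (.p (nat_lit 431) (.a (.f (nat_lit 399) (nat_lit 496) (nat_lit 4495) (.f (nat_lit 527) (nat_lit 560) (nat_lit 4527) (.d (nat_lit 526) (nat_lit 494) (nat_lit 5518) (nat_lit 558) (nat_lit 5550)))) (.a (.f (nat_lit 399) (nat_lit 496) (nat_lit 4495) (.f (nat_lit 494) (nat_lit 526) (nat_lit 5518) (.f (nat_lit 367) (nat_lit 462) (nat_lit 5486) (.d (nat_lit 368) (nat_lit 336) (nat_lit 6479) (nat_lit 400) (nat_lit 6511))))) (.a (.f (nat_lit 496) (nat_lit 399) (nat_lit 4495) (.d (nat_lit 560) (nat_lit 464) (nat_lit 7599) (nat_lit 527) (nat_lit 4527))) (.a (.f (nat_lit 527) (nat_lit 560) (nat_lit 4527) (.f (nat_lit 526) (nat_lit 558) (nat_lit 5550) (.f (nat_lit 494) (nat_lit 399) (nat_lit 5518) (.d (nat_lit 529) (nat_lit 493) (nat_lit 3565) (nat_lit 530) (nat_lit 3566))))) (.f (nat_lit 527) (nat_lit 560) (nat_lit 4527) (.f (nat_lit 558) (nat_lit 526) (nat_lit 5550) (.f (nat_lit 559) (nat_lit 590) (nat_lit 5582) (.d (nat_lit 430) (nat_lit 398) (nat_lit 7566) (nat_lit 462) (nat_lit 7598)))))))))) (.a (.p (nat_lit 496) (.a (.p (nat_lit 494) (.a (.f (nat_lit 493) (nat_lit 529) (nat_lit 493) (.d (nat_lit 492) (nat_lit 464) (nat_lit 2508) (nat_lit 527) (nat_lit 492))) (.a (.p (nat_lit 497) (.a (.d (nat_lit 462) (nat_lit 461) (nat_lit 3533) (nat_lit 498) (nat_lit 3534)) (.a (.f (nat_lit 526) (nat_lit 525) (nat_lit 1517) (.f (nat_lit 527) (nat_lit 498) (nat_lit 1518) (.d (nat_lit 431) (nat_lit 399) (nat_lit 4495) (nat_lit 558) (nat_lit 5550)))) (.f (nat_lit 526) (nat_lit 525) (nat_lit 1517) (.f (nat_lit 431) (nat_lit 399) (nat_lit 4495) (.d (nat_lit 558) (nat_lit 527) (nat_lit 5550) (nat_lit 590) (nat_lit 6606))))))) (.f (nat_lit 493) (nat_lit 529) (nat_lit 493) (.d (nat_lit 464) (nat_lit 465) (nat_lit 2509) (nat_lit 492) (nat_lit 2508)))))) (.a (.p (nat_lit 527) (.a (.f (nat_lit 431) (nat_lit 399) (nat_lit 4495) (.f (nat_lit 526) (nat_lit 558) (nat_lit 5550) (.d (nat_lit 497) (nat_lit 498) (nat_lit 1518) (nat_lit 525) (nat_lit 2541)))) (.a (.p (nat_lit 559) (.a (.d (nat_lit 591) (nat_lit 464) (nat_lit 6607) (nat_lit 623) (nat_lit 6639)) (.f (nat_lit 558) (nat_lit 590) (nat_lit 5582) (.f (nat_lit 529) (nat_lit 530) (nat_lit 1550) (.d (nat_lit 557) (nat_lit 526) (nat_lit 1549) (nat_lit 556) (nat_lit 2572)))))) (.f (nat_lit 431) (nat_lit 399) (nat_lit 4495) (.f (nat_lit 430) (nat_lit 398) (nat_lit 7566) (.f (nat_lit 559) (nat_lit 462) (nat_lit 7598) (.d (nat_lit 591) (nat_lit 464) (nat_lit 6607) (nat_lit 623) (nat_lit 6639)))))))) (.a (.p (nat_lit 527) (.a (.f (nat_lit 431) (nat_lit 399) (nat_lit 4495) (.f (nat_lit 526) (nat_lit 558) (nat_lit 5550) (.d (nat_lit 497) (nat_lit 498) (nat_lit 1518) (nat_lit 525) (nat_lit 2541)))) (.a (.p (nat_lit 559) (.a (.d (nat_lit 591) (nat_lit 464) (nat_lit 6607) (nat_lit 623) (nat_lit 6639)) (.f (nat_lit 462) (nat_lit 430) (nat_lit 7598) (.f (nat_lit 497) (nat_lit 498) (nat_lit 3534) (.d (nat_lit 461) (nat_lit 460) (nat_lit 460) (nat_lit 494) (nat_lit 3533)))))) (.f (nat_lit 431) (nat_lit 399) (nat_lit 4495) (.f (nat_lit 430) (nat_lit 398) (nat_lit 7566) (.f (nat_lit 559) (nat_lit 462) (nat_lit 7598) (.d (nat_lit 591) (nat_lit 464) (nat_lit 6607) (nat_lit 623) (nat_lit 6639)))))))) (.a s126066 (.a s126079 (.a s126093 (.a (.p (nat_lit 527) (.a (.p (nat_lit 559) (.a (.d (nat_lit 591) (nat_lit 464) (nat_lit 6607) (nat_lit 623) (nat_lit 6639)) (.f (nat_lit 558) (nat_lit 590) (nat_lit 5582) (.f (nat_lit 529) (nat_lit 530) (nat_lit 1550) (.d (nat_lit 557) (nat_lit 526) (nat_lit 1549) (nat_lit 556) (nat_lit 2572)))))) (.a (.f (nat_lit 431) (nat_lit 399) (nat_lit 4495) (.f (nat_lit 430) (nat_lit 398) (nat_lit 7566) (.f (nat_lit 559) (nat_lit 462) (nat_lit 7598) (.d (nat_lit 591) (nat_lit 464) (nat_lit 6607) (nat_lit 623) (nat_lit 6639))))) (.f (nat_lit 431) (nat_lit 399) (nat_lit 4495) (.f (nat_lit 526) (nat_lit 558) (nat_lit 5550) (.f (nat_lit 525) (nat_lit 524) (nat_lit 2540) (.f (nat_lit 493) (nat_lit 492) (nat_lit 3564) (.f (nat_lit 494) (nat_lit 529) (nat_lit 493) (.f (nat_lit 430) (nat_lit 398) (nat_lit 7566) (.d (nat_lit 557) (nat_lit 462) (nat_lit 5549) (nat_lit 556) (nat_lit 1548))))))))))) (.a (.p (nat_lit 494) (.a (.f (nat_lit 493) (nat_lit 529) (nat_lit 493) (.d (nat_lit 492) (nat_lit 464) (nat_lit 2508) (nat_lit 527) (nat_lit 492))) (.a (.p (nat_lit 497) (.a (.f (nat_lit 526) (nat_lit 525) (nat_lit 1517) (.f (nat_lit 527) (nat_lit 498) (nat_lit 1518) (.d (nat_lit 431) (nat_lit 399) (nat_lit 4495) (nat_lit 558) (nat_lit 5550)))) (.a (.f (nat_lit 466) (nat_lit 465) (nat_lit 2510) (.f (nat_lit 498) (nat_lit 467) (nat_lit 2511) (.d (nat_lit 530) (nat_lit 529) (nat_lit 494) (nat_lit 531) (nat_lit 495)))) (.f (nat_lit 526) (nat_lit 525) (nat_lit 1517) (.f (nat_lit 431) (nat_lit 399) (nat_lit 4495) (.d (nat_lit 558) (nat_lit 527) (nat_lit 5550) (nat_lit 590) (nat_lit 6606))))))) (.a (.p (nat_lit 497) (.a (.f (nat_lit 526) (nat_lit 525) (nat_lit 1517) (.f (nat_lit 527) (nat_lit 498) (nat_lit 1518) (.d (nat_lit 431) (nat_lit 399) (nat_lit 4495) (nat_lit 558) (nat_lit 5550)))) (.a (.f (nat_lit 465) (nat_lit 466) (nat_lit 2510) (.f (nat_lit 493) (nat_lit 464) (nat_lit 2509) (.f (nat_lit 492) (nat_lit 527) (nat_lit 492) (.d (nat_lit 524) (nat_lit 523) (nat_lit 1515) (nat_lit 525) (nat_lit 1516))))) (.a (.f (nat_lit 465) (nat_lit 466) (nat_lit 2510) (.f (nat_lit 493) (nat_lit 464) (nat_lit 2509) (.d (nat_lit 525) (nat_lit 524) (nat_lit 1516) (nat_lit 526) (nat_lit 1517)))) (.f (nat_lit 465) (nat_lit 466) (nat_lit 2510) (.f (nat_lit 493) (nat_lit 464) (nat_lit 2509) (.f (nat_lit 527) (nat_lit 492) (nat_lit 492) (.d (nat_lit 498) (nat_lit 499) (nat_lit 1519) (nat_lit 526) (nat_lit 1518))))))))) (.f (nat_lit 493) (nat_lit 529) (nat_lit 493) (.d (nat_lit 464) (nat_lit 465) (nat_lit 2509) (nat_lit 492) (nat_lit 2508))))))) (.a (.p (nat_lit 494) (.a (.p (nat_lit 497) (.a (.d (nat_lit 462) (nat_lit 461) (nat_lit 3533) (nat_lit 498) (nat_lit 3534)) (.a (.f (nat_lit 526) (nat_lit 525) (nat_lit 1517) (.f (nat_lit 527) (nat_lit 498) (nat_lit 1518) (.d (nat_lit 431) (nat_lit 399) (nat_lit 4495) (nat_lit 558) (nat_lit 5550)))) (.f (nat_lit 526) (nat_lit 525) (nat_lit 1517) (.f (nat_lit 431) (nat_lit 399) (nat_lit 4495) (.d (nat_lit 558) (nat_lit 527) (nat_lit 5550) (nat_lit 590) (nat_lit 6606))))))) (.a (.p (nat_lit 497) (.a (.d (nat_lit 462) (nat_lit 461) (nat_lit 3533) (nat_lit 498) (nat_lit 3534)) (.a (.f (nat_lit 526) (nat_lit 525) (nat_lit 1517) (.f (nat_lit 498) (nat_lit 527) (nat_lit 1518) (.d (nat_lit 530) (nat_lit 529) (nat_lit 494) (nat_lit 531) (nat_lit 495)))) (.f (nat_lit 462) (nat_lit 461) (nat_lit 3533) (.f (nat_lit 526) (nat_lit 525) (nat_lit 1517) (.f (nat_lit 558) (nat_lit 590) (nat_lit 6606) (.f (nat_lit 559) (nat_lit 591) (nat_lit 4558) (.f (nat_lit 527) (nat_lit 430) (nat_lit 4526) (.d (nat_lit 557) (nat_lit 556) (nat_lit 2572) (nat_lit 589) (nat_lit 5581)))))))))) (.a (.f (nat_lit 493) (nat_lit 529) (nat_lit 493) (.f (nat_lit 492) (nat_lit 527) (nat_lit 492) (.d (nat_lit 524) (nat_lit 523) (nat_lit 1515) (nat_lit 525) (nat_lit 1516)))) (.a (.p (nat_lit 497) (.a (.d (nat_lit 462) (nat_lit 461) (nat_lit 3533) (nat_lit 498) (nat_lit 3534)) (.a (.f (nat_lit 466) (nat_lit 465) (nat_lit 2510) (.f (nat_lit 498) (nat_lit 467) (nat_lit 2511) (.d (nat_lit 530) (nat_lit 529) (nat_lit 494) (nat_lit 531) (nat_lit 495)))) (.f (nat_lit 462) (nat_lit 461) (nat_lit 3533) (.f (nat_lit 526) (nat_lit 525) (nat_lit 1517) (.d (nat_lit 431) (nat_lit 399) (nat_lit 4495) (nat_lit 558) (nat_lit 6574))))))) (.f (nat_lit 493) (nat_lit 529) (nat_lit 493) (.f (nat_lit 492) (nat_lit 527) (nat_lit 492) (.d (nat_lit 460) (nat_lit 459) (nat_lit 3531) (nat_lit 461) (nat_lit 3532))))))))) (.p (nat_lit 494) (.a (.f (nat_lit 493) (nat_lit 529) (nat_lit 493) (.d (nat_lit 492) (nat_lit 464) (nat_lit 2508) (nat_lit 527) (nat_lit 492))) (.a (.p (nat_lit 497) (.a (.d (nat_lit 462) (nat_lit 461) (nat_lit 3533) (nat_lit 498) (nat_lit 3534)) (.a (.f (nat_lit 466) (nat_lit 465) (nat_lit 2510) (.f (nat_lit 498) (nat_lit 467) (nat_lit 2511) (.d (nat_lit 530) (nat_lit 529) (nat_lit 494) (nat_lit 531) (nat_lit 495)))) (.f (nat_lit 462) (nat_lit 461) (nat_lit 3533) (.f (nat_lit 465) (nat_lit 466) (nat_lit 2510) (.f (nat_lit 529) (nat_lit 530) (nat_lit 494) (.f (nat_lit 433) (nat_lit 401) (nat_lit 5520) (.d (nat_lit 434) (nat_lit 402) (nat_lit 6545) (nat_lit 464) (nat_lit 2478))))))))) (.a (.p (nat_lit 527) (.a (.f (nat_lit 431) (nat_lit 399) (nat_lit 4495) (.f (nat_lit 430) (nat_lit 398) (nat_lit 7566) (.f (nat_lit 462) (nat_lit 559) (nat_lit 7598) (.d (nat_lit 497) (nat_lit 461) (nat_lit 3533) (nat_lit 498) (nat_lit 3534))))) (.a (.f (nat_lit 493) (nat_lit 492) (nat_lit 492) (.f (nat_lit 464) (nat_lit 465) (nat_lit 2509) (.f (nat_lit 559) (nat_lit 591) (nat_lit 6607) (.f (nat_lit 462) (nat_lit 430) (nat_lit 7598) (.d (nat_lit 461) (nat_lit 460) (nat_lit 3532) (nat_lit 497) (nat_lit 461)))))) (.a (.f (nat_lit 493) (nat_lit 492) (nat_lit 492) (.f (nat_lit 431) (nat_lit 399) (nat_lit 4495) (.f (nat_lit 464) (nat_lit 465) (nat_lit 2509) (.f (nat_lit 559) (nat_lit 591) (nat_lit 6607) (.d (nat_lit 558) (nat_lit 526) (nat_lit 5550) (nat_lit 590) (nat_lit 5582)))))) (.f (nat_lit 431) (nat_lit 399) (nat_lit 4495) (.f (nat_lit 493) (nat_lit 492) (nat_lit 492) (.f (nat_lit 526) (nat_lit 558) (nat_lit 5550) (.f (nat_lit 497) (nat_lit 498) (nat_lit 1518) (.d (nat_lit 461) (nat_lit 460) (nat_lit 3532) (nat_lit 462) (nat_lit 3533)))))))))) (.f (nat_lit 493) (nat_lit 529) (nat_lit 493) (.f (nat_lit 492) (nat_lit 527) (nat_lit 492) (.d (nat_lit 460) (nat_lit 459) (nat_lit 3531) (nat_lit 461) (nat_lit 3532)))))))))))))))))) (.a (.p (nat_lit 431) (.a (.f (nat_lit 496) (nat_lit 399) (nat_lit 4495) (.d (nat_lit 560) (nat_lit 464) (nat_lit 7599) (nat_lit 527) (nat_lit 4527))) (.a (.f (nat_lit 399) (nat_lit 496) (nat_lit 4495) (.f (nat_lit 398) (nat_lit 366) (nat_lit 7534) (.f (nat_lit 430) (nat_lit 527) (nat_lit 7566) (.f (nat_lit 400) (nat_lit 368) (nat_lit 6511) (.d (nat_lit 429) (nat_lit 401) (nat_lit 1421) (nat_lit 428) (nat_lit 2444)))))) (.a (.f (nat_lit 527) (nat_lit 560) (nat_lit 4527) (.f (nat_lit 558) (nat_lit 526) (nat_lit 5550) (.f (nat_lit 559) (nat_lit 590) (nat_lit 5582) (.d (nat_lit 430) (nat_lit 398) (nat_lit 7566) (nat_lit 462) (nat_lit 7598))))) (.f (nat_lit 496) (nat_lit 399) (nat_lit 4495) (.d (nat_lit 560) (nat_lit 464) (nat_lit 7599) (nat_lit 592) (nat_lit 7631))))))) (.a (.p (nat_lit 527) (.a (.f (nat_lit 431) (nat_lit 560) (nat_lit 4527) (.f (nat_lit 526) (nat_lit 558) (nat_lit 5550) (.f (nat_lit 494) (nat_lit 399) (nat_lit 5518) (.d (nat_lit 529) (nat_lit 493) (nat_lit 3565) (nat_lit 530) (nat_lit 3566))))) (.a (.p (nat_lit 559) (.a (.f (nat_lit 558) (nat_lit 590) (nat_lit 5582) (.f (nat_lit 526) (nat_lit 431) (nat_lit 5550) (.d (nat_lit 529) (nat_lit 530) (nat_lit 1550) (nat_lit 557) (nat_lit 1549)))) (.a (.f (nat_lit 558) (nat_lit 590) (nat_lit 5582) (.f (nat_lit 526) (nat_lit 431) (nat_lit 5550) (.f (nat_lit 462) (nat_lit 430) (nat_lit 7598) (.f (nat_lit 494) (nat_lit 591) (nat_lit 4558) (.d (nat_lit 557) (nat_lit 556) (nat_lit 2572) (nat_lit 589) (nat_lit 5581)))))) (.a (.f (nat_lit 462) (nat_lit 430) (nat_lit 7598) (.f (nat_lit 494) (nat_lit 591) (nat_lit 7630) (.f (nat_lit 493) (nat_lit 492) (nat_lit 492) (.d (nat_lit 529) (nat_lit 526) (nat_lit 3565) (nat_lit 530) (nat_lit 3566))))) (.f (nat_lit 462) (nat_lit 430) (nat_lit 7598) (.f (nat_lit 591) (nat_lit 494) (nat_lit 7630) (.d (nat_lit 590) (nat_lit 558) (nat_lit 5582) (nat_lit 622) (nat_lit 5614)))))))) (.a (.f (nat_lit 431) (nat_lit 560) (nat_lit 4527) (.f (nat_lit 558) (nat_lit 526) (nat_lit 5550) (.f (nat_lit 559) (nat_lit 590) (nat_lit 5582) (.d (nat_lit 430) (nat_lit 398) (nat_lit 7566) (nat_lit 462) (nat_lit 7598))))) (.a (.p (nat_lit 559) (.a (.f (nat_lit 462) (nat_lit 430) (nat_lit 7598) (.f (nat_lit 494) (nat_lit 591) (nat_lit 7630) (.f (nat_lit 493) (nat_lit 492) (nat_lit 492) (.d (nat_lit 529) (nat_lit 526) (nat_lit 3565) (nat_lit 530) (nat_lit 3566))))) (.a (.f (nat_lit 558) (nat_lit 590) (nat_lit 5582) (.f (nat_lit 557) (nat_lit 556) (nat_lit 2572) (.d (nat_lit 529) (nat_lit 526) (nat_lit 1549) (nat_lit 530) (nat_lit 1550)))) (.f (nat_lit 462) (nat_lit 430) (nat_lit 7598) (.f (nat_lit 591) (nat_lit 494) (nat_lit 7630) (.d (nat_lit 590) (nat_lit 558) (nat_lit 5582) (nat_lit 622) (nat_lit 5614))))))) (.f (nat_lit 560) (nat_lit 431) (nat_lit 4527) (.d (nat_lit 592) (nat_lit 559) (nat_lit 4559) (nat_lit 624) (nat_lit 7663)))))))) (.a (.p (nat_lit 496) (.a s126066 (.a (.p (nat_lit 559) (.a (.f (nat_lit 560) (nat_lit 592) (nat_lit 7631) (.f (nat_lit 591) (nat_lit 464) (nat_lit 5583) (.d (nat_lit 623) (nat_lit 527) (nat_lit 6639) (nat_lit 655) (nat_lit 6671)))) (.a (.p (nat_lit 527) (.a (.d (nat_lit 591) (nat_lit 464) (nat_lit 6607) (nat_lit 623) (nat_lit 6639)) (.f (nat_lit 558) (nat_lit 590) (nat_lit 5582) (.f (nat_lit 529) (nat_lit 530) (nat_lit 1550) (.d (nat_lit 557) (nat_lit 526) (nat_lit 1549) (nat_lit 556) (nat_lit 2572)))))) (.a (.f (nat_lit 560) (nat_lit 592) (nat_lit 7631) (.f (nat_lit 464) (nat_lit 591) (nat_lit 5583) (.f (nat_lit 465) (nat_lit 433) (nat_lit 6576) (.f (nat_lit 466) (nat_lit 467) (nat_lit 1487) (.f (nat_lit 498) (nat_lit 499) (nat_lit 463) (.f (nat_lit 462) (nat_lit 497) (nat_lit 462) (.f (nat_lit 461) (nat_lit 460) (nat_lit 460) (.d (nat_lit 429) (nat_lit 428) (nat_lit 3500) (nat_lit 430) (nat_lit 3501))))))))) (.a (.p (nat_lit 527) (.a (.f (nat_lit 558) (nat_lit 590) (nat_lit 5582) (.f (nat_lit 529) (nat_lit 530) (nat_lit 1550) (.d (nat_lit 557) (nat_lit 526) (nat_lit 1549) (nat_lit 556) (nat_lit 2572)))) (.f (nat_lit 462) (nat_lit 430) (nat_lit 7598) (.f (nat_lit 497) (nat_lit 498) (nat_lit 3534) (.d (nat_lit 461) (nat_lit 460) (nat_lit 460) (nat_lit 464) (nat_lit 461)))))) (.p (nat_lit 527) (.a (.f (nat_lit 558) (nat_lit 590) (nat_lit 5582) (.f (nat_lit 529) (nat_lit 530) (nat_lit 1550) (.d (nat_lit 557) (nat_lit 526) (nat_lit 1549) (nat_lit 556) (nat_lit 2572)))) (.f (nat_lit 592) (nat_lit 560) (nat_lit 7631) (.d (nat_lit 591) (nat_lit 623) (nat_lit 6639) (nat_lit 624) (nat_lit 4591)))))))))) (.a (.p (nat_lit 559) (.a (.f (nat_lit 560) (nat_lit 592) (nat_lit 7631) (.f (nat_lit 591) (nat_lit 464) (nat_lit 5583) (.d (nat_lit 623) (nat_lit 527) (nat_lit 6639) (nat_lit 655) (nat_lit 6671)))) (.a (.p (nat_lit 527) (.a (.d (nat_lit 591) (nat_lit 464) (nat_lit 6607) (nat_lit 623) (nat_lit 6639)) (.f (nat_lit 462) (nat_lit 430) (nat_lit 7598) (.f (nat_lit 497) (nat_lit 498) (nat_lit 3534) (.d (nat_lit 461) (nat_lit 460) (nat_lit 460) (nat_lit 494) (nat_lit 3533)))))) (.a (.f (nat_lit 560) (nat_lit 592) (nat_lit 7631) (.f (nat_lit 464) (nat_lit 591) (nat_lit 5583) (.f (nat_lit 465) (nat_lit 433) (nat_lit 6576) (.f (nat_lit 466) (nat_lit 467) (nat_lit 1487) (.f (nat_lit 498) (nat_lit 499) (nat_lit 463) (.f (nat_lit 462) (nat_lit 497) (nat_lit 462) (.f (nat_lit 461) (nat_lit 460) (nat_lit 460) (.d (nat_lit 429) (nat_lit 428) (nat_lit 3500) (nat_lit 430) (nat_lit 3501))))))))) (.a (.p (nat_lit 527) (.a (.f (nat_lit 462) (nat_lit 430) (nat_lit 7598) (.f (nat_lit 497) (nat_lit 498) (nat_lit 3534) (.d (nat_lit 461) (nat_lit 460) (nat_lit 460) (nat_lit 494) (nat_lit 3533)))) (.a (.f (nat_lit 462) (nat_lit 430) (nat_lit 7598) (.f (nat_lit 497) (nat_lit 498) (nat_lit 3534) (.d (nat_lit 461) (nat_lit 460) (nat_lit 460) (nat_lit 464) (nat_lit 461)))) (.a (.f (nat_lit 560) (nat_lit 592) (nat_lit 7631) (.f (nat_lit 558) (nat_lit 590) (nat_lit 5582) (.f (nat_lit 557) (nat_lit 556) (nat_lit 2572) (.f (nat_lit 525) (nat_lit 524) (nat_lit 3596) (.f (nat_lit 497) (nat_lit 526) (nat_lit 2541) (.f (nat_lit 498) (nat_lit 499) (nat_lit 1519) (.f (nat_lit 466) (nat_lit 467) (nat_lit 2511) (.f (nat_lit 465) (nat_lit 494) (nat_lit 2510) (.d (nat_lit 433) (nat_lit 401) (nat_lit 5520) (nat_lit 464) (nat_lit 6576)))))))))) (.f (nat_lit 560) (nat_lit 592) (nat_lit 7631) (.f (nat_lit 558) (nat_lit 590) (nat_lit 5582) (.f (nat_lit 557) (nat_lit 556) (nat_lit 2572) (.f (nat_lit 525) (nat_lit 524) (nat_lit 3596) (.f (nat_lit 462) (nat_lit 430) (nat_lit 7598) (.f (nat_lit 589) (nat_lit 588) (nat_lit 1580) (.d (nat_lit 494) (nat_lit 493) (nat_lit 6605) (nat_lit 526) (nat_lit 5581)))))))))))) (.p (nat_lit 527) (.a (.f (nat_lit 462) (nat_lit 430) (nat_lit 7598) (.f (nat_lit 497) (nat_lit 498) (nat_lit 3534) (.d (nat_lit 461) (nat_lit 460) (nat_lit 460) (nat_lit 494) (nat_lit 3533)))) (.f (nat_lit 592) (nat_lit 560) (nat_lit 7631) (.d (nat_lit 591) (nat_lit 623) (nat_lit 6639) (nat_lit 624) (nat_lit 4591)))))))))) (.a s126191 (.a s126093 (.a (.p (nat_lit 559) (.a (.f (nat_lit 560) (nat_lit 592) (nat_lit 7631) (.f (nat_lit 591) (nat_lit 464) (nat_lit 5583) (.d (nat_lit 623) (nat_lit 527) (nat_lit 6639) (nat_lit 655) (nat_lit 6671)))) (.a (.p (nat_lit 527) (.a (.d (nat_lit 591) (nat_lit 464) (nat_lit 6607) (nat_lit 623) (nat_lit 6639)) (.f (nat_lit 558) (nat_lit 590) (nat_lit 5582) (.f (nat_lit 529) (nat_lit 530) (nat_lit 1550) (.d (nat_lit 557) (nat_lit 526) (nat_lit 1549) (nat_lit 556) (nat_lit 2572)))))) (.a (.f (nat_lit 560) (nat_lit 592) (nat_lit 7631) (.f (nat_lit 464) (nat_lit 591) (nat_lit 5583) (.f (nat_lit 465) (nat_lit 433) (nat_lit 6576) (.d (nat_lit 494) (nat_lit 466) (nat_lit 1486) (nat_lit 493) (nat_lit 2509))))) (.a (.p (nat_lit 558) (.a (.f (nat_lit 527) (nat_lit 590) (nat_lit 5582) (.f (nat_lit 560) (nat_lit 592) (nat_lit 7631) (.d (nat_lit 529) (nat_lit 530) (nat_lit 1550) (nat_lit 557) (nat_lit 2573)))) (.a (.f (nat_lit 527) (nat_lit 590) (nat_lit 5582) (.f (nat_lit 529) (nat_lit 530) (nat_lit 1550) (.d (nat_lit 557) (nat_lit 526) (nat_lit 1549) (nat_lit 556) (nat_lit 2572)))) (.a (.f (nat_lit 560) (nat_lit 592) (nat_lit 7631) (.f (nat_lit 557) (nat_lit 529) (nat_lit 2573) (.f (nat_lit 524) (nat_lit 525) (nat_lit 3596) (.f (nat_lit 556) (nat_lit 523) (nat_lit 3595) (.d (nat_lit 588) (nat_lit 587) (nat_lit 1579) (nat_lit 589) (nat_lit 1580)))))) (.a (.f (nat_lit 527) (nat_lit 590) (nat_lit 5582) (.f (nat_lit 560) (nat_lit 592) (nat_lit 7631) (.f (nat_lit 557) (nat_lit 556) (nat_lit 2572) (.f (nat_lit 525) (nat_lit 524) (nat_lit 3596) (.f (nat_lit 462) (nat_lit 430) (nat_lit 7598) (.f (nat_lit 589) (nat_lit 588) (nat_lit 1580) (.d (nat_lit 494) (nat_lit 493) (nat_lit 6605) (nat_lit 526) (nat_lit 5581)))))))) (.f (nat_lit 527) (nat_lit 590) (nat_lit 5582) (.f (nat_lit 560) (nat_lit 592) (nat_lit 4559) (.f (nat_lit 529) (nat_lit 530) (nat_lit 1550) (.f (nat_lit 494) (nat_lit 493) (nat_lit 493) (.f (nat_lit 462) (nat_lit 430) (nat_lit 7598) (.f (nat_lit 461) (nat_lit 460) (nat_lit 460) (.f (nat_lit 429) (nat_lit 526) (nat_lit 7597) (.f (nat_lit 464) (nat_lit 428) (nat_lit 3500) (.d (nat_lit 465) (nat_lit 433) (nat_lit 6576) (nat_lit 466) (nat_lit 1486))))))))))))))) (.p (nat_lit 527) (.a (.f (nat_lit 558) (nat_lit 590) (nat_lit 5582) (.f (nat_lit 529) (nat_lit 530) (nat_lit 1550) (.d (nat_lit 557) (nat_lit 526) (nat_lit 1549) (nat_lit 556) (nat_lit 2572)))) (.f (nat_lit 592) (nat_lit 560) (nat_lit 7631) (.d (nat_lit 591) (nat_lit 623) (nat_lit 6639) (nat_lit 624) (nat_lit 4591)))))))))) (.a (.p (nat_lit 494) (.a (.f (nat_lit 493) (nat_lit 529) (nat_lit 493) (.d (nat_lit 492) (nat_lit 464) (nat_lit 2508) (nat_lit 527) (nat_lit 492))) (.a (.p (nat_lit 497) (.a (.f (nat_lit 526) (nat_lit 525) (nat_lit 1517) (.f (nat_lit 498) (nat_lit 527) (nat_lit 1518) (.d (nat_lit 530) (nat_lit 529) (nat_lit 494) (nat_lit 531) (nat_lit 495)))) (.a (.f (nat_lit 526) (nat_lit 525) (nat_lit 1517) (.f (nat_lit 498) (nat_lit 527) (nat_lit 1518) (.d (nat_lit 466) (nat_lit 465) (nat_lit 2510) (nat_lit 467) (nat_lit 2511)))) (.a (.f (nat_lit 466) (nat_lit 465) (nat_lit 2510) (.f (nat_lit 498) (nat_lit 467) (nat_lit 2511) (.d (nat_lit 530) (nat_lit 529) (nat_lit 494) (nat_lit 531) (nat_lit 495)))) (.f (nat_lit 465) (nat_lit 466) (nat_lit 2510) (.f (nat_lit 560) (nat_lit 592) (nat_lit 7631) (.d (nat_lit 433) (nat_lit 464) (nat_lit 6576) (nat_lit 529) (nat_lit 5552)))))))) (.a (.p (nat_lit 497) (.a (.f (nat_lit 526) (nat_lit 525) (nat_lit 1517) (.f (nat_lit 498) (nat_lit 527) (nat_lit 1518) (.d (nat_lit 466) (nat_lit 465) (nat_lit 2510) (nat_lit 467) (nat_lit 2511)))) (.a (.f (nat_lit 465) (nat_lit 466) (nat_lit 2510) (.f (nat_lit 493) (nat_lit 464) (nat_lit 2509) (.f (nat_lit 492) (nat_lit 527) (nat_lit 492) (.d (nat_lit 524) (nat_lit 523) (nat_lit 1515) (nat_lit 525) (nat_lit 1516))))) (.a (.f (nat_lit 465) (nat_lit 466) (nat_lit 2510) (.f (nat_lit 493) (nat_lit 464) (nat_lit 2509) (.d (nat_lit 525) (nat_lit 524) (nat_lit 1516) (nat_lit 526) (nat_lit 1517)))) (.a (.f (nat_lit 526) (nat_lit 525) (nat_lit 1517) (.f (nat_lit 498) (nat_lit 527) (nat_lit 1518) (.f (nat_lit 499) (nat_lit 464) (nat_lit 3535) (.d (nat_lit 467) (nat_lit 466) (nat_lit 2511) (nat_lit 468) (nat_lit 2512))))) (.a (.f (nat_lit 465) (nat_lit 466) (nat_lit 2510) (.f (nat_lit 493) (nat_lit 464) (nat_lit 2509) (.f (nat_lit 527) (nat_lit 492) (nat_lit 492) (.d (nat_lit 498) (nat_lit 499) (nat_lit 1519) (nat_lit 526) (nat_lit 1518))))) (.f (nat_lit 526) (nat_lit 525) (nat_lit 1517) (.f (nat_lit 498) (nat_lit 527) (nat_lit 1518) (.f (nat_lit 499) (nat_lit 464) (nat_lit 3535) (.d (nat_lit 531) (nat_lit 530) (nat_lit 495) (nat_lit 532) (nat_lit 496))))))))))) (.a (.f (nat_lit 493) (nat_lit 529) (nat_lit 493) (.d (nat_lit 464) (nat_lit 465) (nat_lit 2509) (nat_lit 492) (nat_lit 2508))) (.f (nat_lit 493) (nat_lit 529) (nat_lit 493) (.f (nat_lit 492) (nat_lit 527) (nat_lit 492) (.d (nat_lit 524) (nat_lit 523) (nat_lit 1515) (nat_lit 525) (nat_lit 1516))))))))) (.a (.p (nat_lit 494) (.a (.p (nat_lit 497) (.a (.d (nat_lit 462) (nat_lit 461) (nat_lit 3533) (nat_lit 498) (nat_lit 3534)) (.a (.f (nat_lit 526) (nat_lit 525) (nat_lit 1517) (.f (nat_lit 498) (nat_lit 527) (nat_lit 1518) (.d (nat_lit 530) (nat_lit 529) (nat_lit 494) (nat_lit 531) (nat_lit 495)))) (.f (nat_lit 462) (nat_lit 461) (nat_lit 3533) (.f (nat_lit 526) (nat_lit 525) (nat_lit 1517) (.f (nat_lit 558) (nat_lit 590) (nat_lit 6606) (.f (nat_lit 559) (nat_lit 591) (nat_lit 4558) (.f (nat_lit 527) (nat_lit 430) (nat_lit 4526) (.d (nat_lit 557) (nat_lit 556) (nat_lit 2572) (nat_lit 589) (nat_lit 5581)))))))))) (.a (.p (nat_lit 497) (.a (.d (nat_lit 462) (nat_lit 461) (nat_lit 3533) (nat_lit 498) (nat_lit 3534)) (.a (.f (nat_lit 526) (nat_lit 525) (nat_lit 1517) (.f (nat_lit 498) (nat_lit 527) (nat_lit 1518) (.d (nat_lit 466) (nat_lit 465) (nat_lit 2510) (nat_lit 467) (nat_lit 2511)))) (.f (nat_lit 462) (nat_lit 461) (nat_lit 3533) (.f (nat_lit 526) (nat_lit 525) (nat_lit 1517) (.f (nat_lit 558) (nat_lit 590) (nat_lit 6606) (.f (nat_lit 559) (nat_lit 591) (nat_lit 4558) (.f (nat_lit 527) (nat_lit 430) (nat_lit 4526) (.d (nat_lit 557) (nat_lit 556) (nat_lit 2572) (nat_lit 589) (nat_lit 5581)))))))))) (.a (.f (nat_lit 493) (nat_lit 529) (nat_lit 493) (.f (nat_lit 461) (nat_lit 460) (nat_lit 3532) (.f (nat_lit 525) (nat_lit 524) (nat_lit 1516) (.d (nat_lit 497) (nat_lit 462) (nat_lit 3533) (nat_lit 526) (nat_lit 1517))))) (.a (.f (nat_lit 493) (nat_lit 529) (nat_lit 493) (.f (nat_lit 492) (nat_lit 527) (nat_lit 492) (.d (nat_lit 524) (nat_lit 523) (nat_lit 1515) (nat_lit 525) (nat_lit 1516)))) (.f (nat_lit 493) (nat_lit 529) (nat_lit 493) (.f (nat_lit 492) (nat_lit 527) (nat_lit 492) (.d (nat_lit 460) (nat_lit 459) (nat_lit 3531) (nat_lit 461) (nat_lit 3532))))))))) (.a (.p (nat_lit 494) (.a (.f (nat_lit 493) (nat_lit 529) (nat_lit 493) (.d (nat_lit 492) (nat_lit 464) (nat_lit 2508) (nat_lit 527) (nat_lit 492))) (.a (.p (nat_lit 497) (.a (.d (nat_lit 462) (nat_lit 461) (nat_lit 3533) (nat_lit 498) (nat_lit 3534)) (.a (.f (nat_lit 526) (nat_lit 525) (nat_lit 1517) (.f (nat_lit 498) (nat_lit 527) (nat_lit 1518) (.d (nat_lit 530) (nat_lit 529) (nat_lit 494) (nat_lit 531) (nat_lit 495)))) (.f (nat_lit 462) (nat_lit 461) (nat_lit 3533) (.f (nat_lit 526) (nat_lit 525) (nat_lit 1517) (.f (nat_lit 558) (nat_lit 590) (nat_lit 6606) (.f (nat_lit 559) (nat_lit 591) (nat_lit 4558) (.f (nat_lit 527) (nat_lit 430) (nat_lit 4526) (.d (nat_lit 557) (nat_lit 556) (nat_lit 2572) (nat_lit 589) (nat_lit 5581)))))))))) (.a s126232 (.f (nat_lit 493) (nat_lit 529) (nat_lit 493) (.f (nat_lit 492) (nat_lit 464) (nat_lit 2508) (.d (nat_lit 524) (nat_lit 523) (nat_lit 1515) (nat_lit 525) (nat_lit 1516)))))))) (.p (nat_lit 494) (.a (.f (nat_lit 493) (nat_lit 529) (nat_lit 493) (.d (nat_lit 492) (nat_lit 464) (nat_lit 2508) (nat_lit 527) (nat_lit 492))) (.a (.p (nat_lit 497) (.a (.d (nat_lit 462) (nat_lit 461) (nat_lit 3533) (nat_lit 498) (nat_lit 3534)) (.a (.f (nat_lit 526) (nat_lit 525) (nat_lit 1517) (.f (nat_lit 498) (nat_lit 527) (nat_lit 1518) (.d (nat_lit 530) (nat_lit 529) (nat_lit 494) (nat_lit 531) (nat_lit 495)))) (.f (nat_lit 462) (nat_lit 461) (nat_lit 3533) (.f (nat_lit 526) (nat_lit 525) (nat_lit 1517) (.f (nat_lit 558) (nat_lit 590) (nat_lit 6606) (.f (nat_lit 559) (nat_lit 591) (nat_lit 4558) (.f (nat_lit 527) (nat_lit 430) (nat_lit 4526) (.d (nat_lit 557) (nat_lit 556) (nat_lit 2572) (nat_lit 589) (nat_lit 5581)))))))))) (.a (.p (nat_lit 497) (.a (.d (nat_lit 462) (nat_lit 461) (nat_lit 3533) (nat_lit 498) (nat_lit 3534)) (.a (.f (nat_lit 526) (nat_lit 525) (nat_lit 1517) (.f (nat_lit 498) (nat_lit 527) (nat_lit 1518) (.f (nat_lit 499) (nat_lit 464) (nat_lit 3535) (.d (nat_lit 531) (nat_lit 530) (nat_lit 495) (nat_lit 532) (nat_lit 496))))) (.f (nat_lit 462) (nat_lit 461) (nat_lit 3533) (.f (nat_lit 526) (nat_lit 525) (nat_lit 1517) (.f (nat_lit 558) (nat_lit 590) (nat_lit 6606) (.f (nat_lit 559) (nat_lit 591) (nat_lit 4558) (.f (nat_lit 527) (nat_lit 430) (nat_lit 4526) (.d (nat_lit 557) (nat_lit 556) (nat_lit 2572) (nat_lit 589) (nat_lit 5581)))))))))) (.f (nat_lit 493) (nat_lit 529) (nat_lit 493) (.d (nat_lit 464) (nat_lit 465) (nat_lit 2509) (nat_lit 492) (nat_lit 2508))))))))))))))))) (.a (.p (nat_lit 496) (.a (.f (nat_lit 560) (nat_lit 592) (nat_lit 7631) (.d (nat_lit 431) (nat_lit 399) (nat_lit 4495) (nat_lit 464) (nat_lit 7599))) (.a s126079 (.a s126191 (.p (nat_lit 494) (.a (.p (nat_lit 497) (.a (.d (nat_lit 462) (nat_lit 461) (nat_lit 3533) (nat_lit 498) (nat_lit 3534)) (.a (.f (nat_lit 466) (nat_lit 465) (nat_lit 2510) (.f (nat_lit 498) (nat_lit 467) (nat_lit 2511) (.d (nat_lit 530) (nat_lit 529) (nat_lit 494) (nat_lit 531) (nat_lit 495)))) (.f (nat_lit 462) (nat_lit 461) (nat_lit 3533) (.f (nat_lit 526) (nat_lit 525) (nat_lit 1517) (.d (nat_lit 431) (nat_lit 399) (nat_lit 4495) (nat_lit 558) (nat_lit 6574))))))) (.a (.p (nat_lit 526) (.a (.f (nat_lit 431) (nat_lit 399) (nat_lit 4495) (.d (nat_lit 558) (nat_lit 462) (nat_lit 6574) (nat_lit 590) (nat_lit 6606))) (.a (.f (nat_lit 497) (nat_lit 525) (nat_lit 1517) (.d (nat_lit 462) (nat_lit 461) (nat_lit 3533) (nat_lit 498) (nat_lit 3534))) (.f (nat_lit 525) (nat_lit 497) (nat_lit 1517) (.d (nat_lit 524) (nat_lit 493) (nat_lit 1516) (nat_lit 523) (nat_lit 2539)))))) (.a (.f (nat_lit 493) (nat_lit 529) (nat_lit 493) (.f (nat_lit 461) (nat_lit 460) (nat_lit 3532) (.f (nat_lit 525) (nat_lit 524) (nat_lit 1516) (.d (nat_lit 497) (nat_lit 462) (nat_lit 3533) (nat_lit 526) (nat_lit 1517))))) (.a (.f (nat_lit 493) (nat_lit 529) (nat_lit 493) (.f (nat_lit 461) (nat_lit 460) (nat_lit 3532) (.f (nat_lit 462) (nat_lit 497) (nat_lit 3533) (.f (nat_lit 525) (nat_lit 524) (nat_lit 1516) (.d (nat_lit 430) (nat_lit 398) (nat_lit 5517) (nat_lit 557) (nat_lit 6573)))))) (.a (.f (nat_lit 493) (nat_lit 529) (nat_lit 493) (.f (nat_lit 460) (nat_lit 461) (nat_lit 3532) (.f (nat_lit 492) (nat_lit 459) (nat_lit 3531) (.d (nat_lit 524) (nat_lit 523) (nat_lit 1515) (nat_lit 525) (nat_lit 1516))))) (.a (.f (nat_lit 493) (nat_lit 529) (nat_lit 493) (.f (nat_lit 525) (nat_lit 524) (nat_lit 1516) (.f (nat_lit 497) (nat_lit 526) (nat_lit 1517) (.f (nat_lit 498) (nat_lit 462) (nat_lit 3534) (.d (nat_lit 466) (nat_lit 465) (nat_lit 2510) (nat_lit 467) (nat_lit 2511)))))) (.f (nat_lit 493) (nat_lit 529) (nat_lit 493) (.f (nat_lit 460) (nat_lit 461) (nat_lit 3532) (.f (nat_lit 492) (nat_lit 459) (nat_lit 3531) (.f (nat_lit 491) (nat_lit 462) (nat_lit 2507) (.d (nat_lit 523) (nat_lit 522) (nat_lit 1514) (nat_lit 524) (nat_lit 1515))))))))))))))))) (.p (nat_lit 560) (.a (.f (nat_lit 496) (nat_lit 592) (nat_lit 7631) (.d (nat_lit 431) (nat_lit 464) (nat_lit 7599) (nat_lit 527) (nat_lit 4527))) (.a (.f (nat_lit 527) (nat_lit 431) (nat_lit 4527) (.d (nat_lit 592) (nat_lit 559) (nat_lit 4559) (nat_lit 624) (nat_lit 7663))) (.a (.f (nat_lit 592) (nat_lit 496) (nat_lit 7631) (.d (nat_lit 527) (nat_lit 559) (nat_lit 4559) (nat_lit 624) (nat_lit 7663))) (.a (.f (nat_lit 431) (nat_lit 527) (nat_lit 4527) (.d (nat_lit 496) (nat_lit 399) (nat_lit 4495) (nat_lit 464) (nat_lit 7599))) (.f (nat_lit 496) (nat_lit 592) (nat_lit 7631) (.d (nat_lit 431) (nat_lit 399) (nat_lit 4495) (nat_lit 464) (nat_lit 7599))))))))))))))) (.a (.p (nat_lit 527) (.a (.p (nat_lit 463) (.a (.f (nat_lit 431) (nat_lit 560) (nat_lit 4527) (.f (nat_lit 399) (nat_lit 496) (nat_lit 4495) (.d (nat_lit 526) (nat_lit 494) (nat_lit 5518) (nat_lit 558) (nat_lit 5550)))) (.a (.f (nat_lit 431) (nat_lit 560) (nat_lit 4527) (.f (nat_lit 526) (nat_lit 558) (nat_lit 5550) (.f (nat_lit 494) (nat_lit 399) (nat_lit 5518) (.d (nat_lit 529) (nat_lit 493) (nat_lit 3565) (nat_lit 530) (nat_lit 3566))))) (.a (.f (nat_lit 431) (nat_lit 560) (nat_lit 4527) (.f (nat_lit 496) (nat_lit 399) (nat_lit 4495) (.f (nat_lit 526) (nat_lit 558) (nat_lit 5550) (.d (nat_lit 497) (nat_lit 498) (nat_lit 1518) (nat_lit 525) (nat_lit 2541))))) (.a (.p (nat_lit 559) (.a (.f (nat_lit 560) (nat_lit 592) (nat_lit 4559) (.f (nat_lit 558) (nat_lit 590) (nat_lit 5582) (.d (nat_lit 529) (nat_lit 530) (nat_lit 1550) (nat_lit 557) (nat_lit 2573)))) (.a (.f (nat_lit 558) (nat_lit 590) (nat_lit 5582) (.f (nat_lit 529) (nat_lit 530) (nat_lit 1550) (.d (nat_lit 557) (nat_lit 526) (nat_lit 1549) (nat_lit 556) (nat_lit 2572)))) (.a (.f (nat_lit 560) (nat_lit 592) (nat_lit 4559) (.f (nat_lit 558) (nat_lit 590) (nat_lit 5582) (.d (nat_lit 557) (nat_lit 529) (nat_lit 2573) (nat_lit 556) (nat_lit 2572)))) (.f (nat_lit 464) (nat_lit 432) (nat_lit 6575) (.f (nat_lit 591) (nat_lit 496) (nat_lit 6607) (.d (nat_lit 462) (nat_lit 430) (nat_lit 7598) (nat_lit 494) (nat_lit 7630)))))))) (.a (.p (nat_lit 559) (.a (.f (nat_lit 558) (nat_lit 590) (nat_lit 5582) (.f (nat_lit 529) (nat_lit 530) (nat_lit 1550) (.d (nat_lit 557) (nat_lit 526) (nat_lit 1549) (nat_lit 556) (nat_lit 2572)))) (.f (nat_lit 464) (nat_lit 432) (nat_lit 6575) (.f (nat_lit 591) (nat_lit 496) (nat_lit 6607) (.d (nat_lit 462) (nat_lit 430) (nat_lit 7598) (nat_lit 494) (nat_lit 7630)))))) (.f (nat_lit 431) (nat_lit 560) (nat_lit 4527) (.f (nat_lit 399) (nat_lit 496) (nat_lit 4495) (.d (nat_lit 400) (nat_lit 368) (nat_lit 6511) (nat_lit 432) (nat_lit 6543)))))))))) (.a (.p (nat_lit 463) (.a (.f (nat_lit 431) (nat_lit 560) (nat_lit 4527) (.f (nat_lit 526) (nat_lit 558) (nat_lit 5550) (.f (nat_lit 494) (nat_lit 399) (nat_lit 5518) (.d (nat_lit 529) (nat_lit 493) (nat_lit 3565) (nat_lit 530) (nat_lit 3566))))) (.a (.f (nat_lit 431) (nat_lit 560) (nat_lit 4527) (.f (nat_lit 558) (nat_lit 526) (nat_lit 5550) (.f (nat_lit 559) (nat_lit 590) (nat_lit 5582) (.d (nat_lit 432) (nat_lit 400) (nat_lit 6543) (nat_lit 464) (nat_lit 6575))))) (.a (.p (nat_lit 559) (.a (.f (nat_lit 560) (nat_lit 592) (nat_lit 4559) (.f (nat_lit 558) (nat_lit 590) (nat_lit 5582) (.d (nat_lit 529) (nat_lit 530) (nat_lit 1550) (nat_lit 557) (nat_lit 2573)))) (.a (.f (nat_lit 558) (nat_lit 590) (nat_lit 5582) (.f (nat_lit 529) (nat_lit 530) (nat_lit 1550) (.d (nat_lit 557) (nat_lit 526) (nat_lit 1549) (nat_lit 556) (nat_lit 2572)))) (.a (.f (nat_lit 560) (nat_lit 592) (nat_lit 4559) (.f (nat_lit 558) (nat_lit 590) (nat_lit 5582) (.d (nat_lit 557) (nat_lit 529) (nat_lit 2573) (nat_lit 556) (nat_lit 2572)))) (.a (.f (nat_lit 592) (nat_lit 560) (nat_lit 4559) (.f (nat_lit 591) (nat_lit 624) (nat_lit 4591) (.d (nat_lit 590) (nat_lit 558) (nat_lit 5582) (nat_lit 622) (nat_lit 5614)))) (.f (nat_lit 462) (nat_lit 430) (nat_lit 7598) (.f (nat_lit 494) (nat_lit 591) (nat_lit 7630) (.f (nat_lit 493) (nat_lit 492) (nat_lit 492) (.d (nat_lit 529) (nat_lit 526) (nat_lit 3565) (nat_lit 530) (nat_lit 3566)))))))))) (.a (.p (nat_lit 559) (.a (.f (nat_lit 558) (nat_lit 590) (nat_lit 5582) (.f (nat_lit 529) (nat_lit 530) (nat_lit 1550) (.d (nat_lit 557) (nat_lit 526) (nat_lit 1549) (nat_lit 556) (nat_lit 2572)))) (.a (.f (nat_lit 558) (nat_lit 590) (nat_lit 5582) (.f (nat_lit 526) (nat_lit 431) (nat_lit 5550) (.d (nat_lit 557) (nat_lit 529) (nat_lit 1549) (nat_lit 556) (nat_lit 2572)))) (.a (.f (nat_lit 558) (nat_lit 590) (nat_lit 5582) (.f (nat_lit 431) (nat_lit 526) (nat_lit 5550) (.d (nat_lit 432) (nat_lit 400) (nat_lit 6543) (nat_lit 464) (nat_lit 6575)))) (.a (.f (nat_lit 462) (nat_lit 430) (nat_lit 7598) (.f (nat_lit 494) (nat_lit 591) (nat_lit 7630) (.f (nat_lit 493) (nat_lit 492) (nat_lit 492) (.d (nat_lit 529) (nat_lit 526) (nat_lit 3565) (nat_lit 530) (nat_lit 3566))))) (.f (nat_lit 430) (nat_lit 462) (nat_lit 7598) (.f (nat_lit 431) (nat_lit 398) (nat_lit 7566) (.d (nat_lit 432) (nat_lit 400) (nat_lit 6543) (nat_lit 464) (nat_lit 6575))))))))) (.f (nat_lit 431) (nat_lit 560) (nat_lit 4527) (.f (nat_lit 432) (nat_lit 400) (nat_lit 6543) (.f (nat_lit 430) (nat_lit 398) (nat_lit 7566) (.d (nat_lit 559) (nat_lit 462) (nat_lit 7598) (nat_lit 464) (nat_lit 6575)))))))))) (.a (.p (nat_lit 463) (.a (.f (nat_lit 431) (nat_lit 560) (nat_lit 4527) (.f (nat_lit 496) (nat_lit 399) (nat_lit 4495) (.f (nat_lit 526) (nat_lit 558) (nat_lit 5550) (.d (nat_lit 497) (nat_lit 498) (nat_lit 1518) (nat_lit 525) (nat_lit 2541))))) (.a (.f (nat_lit 431) (nat_lit 560) (nat_lit 4527) (.f (nat_lit 558) (nat_lit 526) (nat_lit 5550) (.f (nat_lit 559) (nat_lit 590) (nat_lit 5582) (.d (nat_lit 432) (nat_lit 400) (nat_lit 6543) (nat_lit 464) (nat_lit 6575))))) (.a (.p (nat_lit 559) (.a (.f (nat_lit 560) (nat_lit 592) (nat_lit 4559) (.f (nat_lit 558) (nat_lit 590) (nat_lit 5582) (.d (nat_lit 529) (nat_lit 530) (nat_lit 1550) (nat_lit 557) (nat_lit 2573)))) (.a (.f (nat_lit 558) (nat_lit 590) (nat_lit 5582) (.f (nat_lit 529) (nat_lit 530) (nat_lit 1550) (.d (nat_lit 557) (nat_lit 526) (nat_lit 1549) (nat_lit 556) (nat_lit 2572)))) (.a (.f (nat_lit 560) (nat_lit 592) (nat_lit 4559) (.f (nat_lit 558) (nat_lit 590) (nat_lit 5582) (.d (nat_lit 557) (nat_lit 529) (nat_lit 2573) (nat_lit 556) (nat_lit 2572)))) (.a (.f (nat_lit 592) (nat_lit 560) (nat_lit 4559) (.f (nat_lit 591) (nat_lit 624) (nat_lit 4591) (.d (nat_lit 590) (nat_lit 558) (nat_lit 5582) (nat_lit 622) (nat_lit 5614)))) (.f (nat_lit 560) (nat_lit 592) (nat_lit 4559) (.f (nat_lit 464) (nat_lit 432) (nat_lit 6575) (.f (nat_lit 496) (nat_lit 591) (nat_lit 5583) (.f (nat_lit 462) (nat_lit 430) (nat_lit 7598) (.d (nat_lit 461) (nat_lit 460) (nat_lit 460) (nat_lit 497) (nat_lit 461))))))))))) (.a (.p (nat_lit 559) (.a (.f (nat_lit 558) (nat_lit 590) (nat_lit 5582) (.f (nat_lit 529) (nat_lit 530) (nat_lit 1550) (.d (nat_lit 557) (nat_lit 526) (nat_lit 1549) (nat_lit 556) (nat_lit 2572)))) (.a (.f (nat_lit 558) (nat_lit 590) (nat_lit 5582) (.f (nat_lit 526) (nat_lit 431) (nat_lit 5550) (.d (nat_lit 557) (nat_lit 529) (nat_lit 1549) (nat_lit 556) (nat_lit 2572)))) (.a (.f (nat_lit 558) (nat_lit 590) (nat_lit 5582) (.f (nat_lit 431) (nat_lit 526) (nat_lit 5550) (.d (nat_lit 432) (nat_lit 400) (nat_lit 6543) (nat_lit 464) (nat_lit 6575)))) (.f (nat_lit 430) (nat_lit 462) (nat_lit 7598) (.f (nat_lit 431) (nat_lit 398) (nat_lit 7566) (.d (nat_lit 432) (nat_lit 400) (nat_lit 6543) (nat_lit 464) (nat_lit 6575)))))))) (.f (nat_lit 431) (nat_lit 560) (nat_lit 4527) (.f (nat_lit 399) (nat_lit 496) (nat_lit 4495) (.d (nat_lit 400) (nat_lit 368) (nat_lit 6511) (nat_lit 432) (nat_lit 6543))))))))) (.a (.p (nat_lit 559) (.a (.p (nat_lit 463) (.a (.f (nat_lit 560) (nat_lit 592) (nat_lit 4559) (.f (nat_lit 558) (nat_lit 590) (nat_lit 5582) (.d (nat_lit 529) (nat_lit 530) (nat_lit 1550) (nat_lit 557) (nat_lit 2573)))) (.a (.f (nat_lit 558) (nat_lit 590) (nat_lit 5582) (.f (nat_lit 529) (nat_lit 530) (nat_lit 1550) (.d (nat_lit 557) (nat_lit 526) (nat_lit 1549) (nat_lit 556) (nat_lit 2572)))) (.a (.f (nat_lit 560) (nat_lit 592) (nat_lit 4559) (.f (nat_lit 558) (nat_lit 590) (nat_lit 5582) (.d (nat_lit 557) (nat_lit 529) (nat_lit 2573) (nat_lit 556) (nat_lit 2572)))) (.f (nat_lit 464) (nat_lit 432) (nat_lit 6575) (.f (nat_lit 591) (nat_lit 496) (nat_lit 6607) (.d (nat_lit 462) (nat_lit 430) (nat_lit 7598) (nat_lit 494) (nat_lit 7630)))))))) (.a (.p (nat_lit 463) (.a (.f (nat_lit 560) (nat_lit 592) (nat_lit 4559) (.f (nat_lit 558) (nat_lit 590) (nat_lit 5582) (.d (nat_lit 529) (nat_lit 530) (nat_lit 1550) (nat_lit 557) (nat_lit 2573)))) (.a (.f (nat_lit 558) (nat_lit 590) (nat_lit 5582) (.f (nat_lit 529) (nat_lit 530) (nat_lit 1550) (.d (nat_lit 557) (nat_lit 526) (nat_lit 1549) (nat_lit 556) (nat_lit 2572)))) (.a (.f (nat_lit 560) (nat_lit 592) (nat_lit 4559) (.f (nat_lit 558) (nat_lit 590) (nat_lit 5582) (.d (nat_lit 557) (nat_lit 529) (nat_lit 2573) (nat_lit 556) (nat_lit 2572)))) (.a (.f (nat_lit 592) (nat_lit 560) (nat_lit 4559) (.f (nat_lit 591) (nat_lit 624) (nat_lit 4591) (.d (nat_lit 590) (nat_lit 558) (nat_lit 5582) (nat_lit 622) (nat_lit 5614)))) (.f (nat_lit 462) (nat_lit 430) (nat_lit 7598) (.f (nat_lit 494) (nat_lit 591) (nat_lit 7630) (.f (nat_lit 493) (nat_lit 492) (nat_lit 492) (.d (nat_lit 529) (nat_lit 526) (nat_lit 3565) (nat_lit 530) (nat_lit 3566)))))))))) (.a (.p (nat_lit 463) (.a (.f (nat_lit 560) (nat_lit 592) (nat_lit 4559) (.f (nat_lit 558) (nat_lit 590) (nat_lit 5582) (.d (nat_lit 529) (nat_lit 530) (nat_lit 1550) (nat_lit 557) (nat_lit 2573)))) (.a (.f (nat_lit 558) (nat_lit 590) (nat_lit 5582) (.f (nat_lit 529) (nat_lit 530) (nat_lit 1550) (.d (nat_lit 557) (nat_lit 526) (nat_lit 1549) (nat_lit 556) (nat_lit 2572)))) (.a (.f (nat_lit 560) (nat_lit 592) (nat_lit 4559) (.f (nat_lit 558) (nat_lit 590) (nat_lit 5582) (.d (nat_lit 557) (nat_lit 529) (nat_lit 2573) (nat_lit 556) (nat_lit 2572)))) (.a (.f (nat_lit 592) (nat_lit 560) (nat_lit 4559) (.f (nat_lit 591) (nat_lit 624) (nat_lit 4591) (.d (nat_lit 590) (nat_lit 558) (nat_lit 5582) (nat_lit 622) (nat_lit 5614)))) (.f (nat_lit 560) (nat_lit 592) (nat_lit 4559) (.f (nat_lit 464) (nat_lit 432) (nat_lit 6575) (.f (nat_lit 496) (nat_lit 591) (nat_lit 5583) (.f (nat_lit 462) (nat_lit 430) (nat_lit 7598) (.d (nat_lit 461) (nat_lit 460) (nat_lit 460) (nat_lit 497) (nat_lit 461))))))))))) (.a (.p (nat_lit 494) (.a (.f (nat_lit 591) (nat_lit 462) (nat_lit 7630) (.d (nat_lit 496) (nat_lit 464) (nat_lit 6607) (nat_lit 623) (nat_lit 6639))) (.a (.f (nat_lit 591) (nat_lit 462) (nat_lit 7630) (.f (nat_lit 623) (nat_lit 526) (nat_lit 7662) (.d (nat_lit 624) (nat_lit 592) (nat_lit 4591) (nat_lit 656) (nat_lit 4623)))) (.f (nat_lit 529) (nat_lit 530) (nat_lit 3566) (.d (nat_lit 493) (nat_lit 492) (nat_lit 492) (nat_lit 526) (nat_lit 3565)))))) (.a (.p (nat_lit 463) (.a (.f (nat_lit 560) (nat_lit 592) (nat_lit 4559) (.f (nat_lit 558) (nat_lit 590) (nat_lit 5582) (.d (nat_lit 557) (nat_lit 529) (nat_lit 2573) (nat_lit 556) (nat_lit 2572)))) (.f (nat_lit 464) (nat_lit 432) (nat_lit 6575) (.f (nat_lit 591) (nat_lit 496) (nat_lit 6607) (.d (nat_lit 462) (nat_lit 430) (nat_lit 7598) (nat_lit 494) (nat_lit 7630)))))) (.a (.p (nat_lit 463) (.a (.f (nat_lit 464) (nat_lit 432) (nat_lit 6575) (.f (nat_lit 591) (nat_lit 496) (nat_lit 6607) (.d (nat_lit 462) (nat_lit 430) (nat_lit 7598) (nat_lit 494) (nat_lit 7630)))) (.a (.f (nat_lit 592) (nat_lit 560) (nat_lit 4559) (.f (nat_lit 591) (nat_lit 624) (nat_lit 4591) (.d (nat_lit 590) (nat_lit 558) (nat_lit 5582) (nat_lit 622) (nat_lit 5614)))) (.f (nat_lit 560) (nat_lit 592) (nat_lit 4559) (.f (nat_lit 558) (nat_lit 590) (nat_lit 5582) (.f (nat_lit 557) (nat_lit 556) (nat_lit 2572) (.f (nat_lit 525) (nat_lit 524) (nat_lit 3596) (.f (nat_lit 462) (nat_lit 430) (nat_lit 7598) (.f (nat_lit 589) (nat_lit 588) (nat_lit 1580) (.d (nat_lit 494) (nat_lit 493) (nat_lit 6605) (nat_lit 526) (nat_lit 5581))))))))))) (.a (.p (nat_lit 463) (.a (.f (nat_lit 558) (nat_lit 590) (nat_lit 5582) (.f (nat_lit 529) (nat_lit 530) (nat_lit 1550) (.d (nat_lit 557) (nat_lit 526) (nat_lit 1549) (nat_lit 556) (nat_lit 2572)))) (.f (nat_lit 464) (nat_lit 432) (nat_lit 6575) (.f (nat_lit 591) (nat_lit 496) (nat_lit 6607) (.d (nat_lit 462) (nat_lit 430) (nat_lit 7598) (nat_lit 494) (nat_lit 7630)))))) (.a (.p (nat_lit 558) (.a (.f (nat_lit 529) (nat_lit 530) (nat_lit 1550) (.d (nat_lit 557) (nat_lit 526) (nat_lit 1549) (nat_lit 556) (nat_lit 2572))) (.a (.f (nat_lit 557) (nat_lit 556) (nat_lit 2572) (.d (nat_lit 529) (nat_lit 526) (nat_lit 1549) (nat_lit 560) (nat_lit 2573))) (.a (.f (nat_lit 463) (nat_lit 590) (nat_lit 5582) (.f (nat_lit 560) (nat_lit 592) (nat_lit 4559) (.f (nat_lit 557) (nat_lit 556) (nat_lit 2572) (.f (nat_lit 525) (nat_lit 524) (nat_lit 3596) (.f (nat_lit 462) (nat_lit 430) (nat_lit 7598) (.f (nat_lit 589) (nat_lit 588) (nat_lit 1580) (.d (nat_lit 494) (nat_lit 493) (nat_lit 6605) (nat_lit 526) (nat_lit 5581)))))))) (.a (.f (nat_lit 529) (nat_lit 530) (nat_lit 1550) (.d (nat_lit 557) (nat_lit 556) (nat_lit 2572) (nat_lit 560) (nat_lit 2573))) (.f (nat_lit 590) (nat_lit 463) (nat_lit 5582) (.d (nat_lit 622) (nat_lit 526) (nat_lit 6638) (nat_lit 654) (nat_lit 6670)))))))) (.p (nat_lit 463) (.a (.f (nat_lit 560) (nat_lit 592) (nat_lit 4559) (.f (nat_lit 558) (nat_lit 590) (nat_lit 5582) (.d (nat_lit 529) (nat_lit 530) (nat_lit 1550) (nat_lit 557) (nat_lit 2573)))) (.a (.f (nat_lit 558) (nat_lit 590) (nat_lit 5582) (.f (nat_lit 529) (nat_lit 530) (nat_lit 1550) (.d (nat_lit 557) (nat_lit 526) (nat_lit 1549) (nat_lit 556) (nat_lit 2572)))) (.a (.f (nat_lit 560) (nat_lit 592) (nat_lit 4559) (.f (nat_lit 558) (nat_lit 590) (nat_lit 5582) (.d (nat_lit 557) (nat_lit 529) (nat_lit 2573) (nat_lit 556) (nat_lit 2572)))) (.a (.f (nat_lit 592) (nat_lit 560) (nat_lit 4559) (.f (nat_lit 591) (nat_lit 624) (nat_lit 4591) (.d (nat_lit 590) (nat_lit 558) (nat_lit 5582) (nat_lit 622) (nat_lit 5614)))) (.a (.f (nat_lit 560) (nat_lit 592) (nat_lit 4559) (.f (nat_lit 464) (nat_lit 432) (nat_lit 6575) (.f (nat_lit 591) (nat_lit 496) (nat_lit 5583) (.f (nat_lit 623) (nat_lit 655) (nat_lit 6671) (.d (nat_lit 622) (nat_lit 590) (nat_lit 5614) (nat_lit 654) (nat_lit 5646)))))) (.f (nat_lit 560) (nat_lit 592) (nat_lit 4559) (.f (nat_lit 464) (nat_lit 432) (nat_lit 6575) (.f (nat_lit 591) (nat_lit 496) (nat_lit 5583) (.f (nat_lit 623) (nat_lit 655) (nat_lit 6671) (.f (nat_lit 526) (nat_lit 494) (nat_lit 7662) (.f (nat_lit 525) (nat_lit 524) (nat_lit 524) (.f (nat_lit 557) (nat_lit 556) (nat_lit 1548) (.f (nat_lit 529) (nat_lit 558) (nat_lit 1549) (.f (nat_lit 530) (nat_lit 531) (nat_lit 1551) (.d (nat_lit 498) (nat_lit 497) (nat_lit 2542) (nat_lit 499) (nat_lit 2543)))))))))))))))))))))))))) (.a (.p (nat_lit 529) (.a (.f (nat_lit 530) (nat_lit 494) (nat_lit 3566) (.f (nat_lit 531) (nat_lit 496) (nat_lit 3567) (.d (nat_lit 499) (nat_lit 498) (nat_lit 2543) (nat_lit 500) (nat_lit 2544)))) (.a (.f (nat_lit 530) (nat_lit 494) (nat_lit 3566) (.f (nat_lit 559) (nat_lit 558) (nat_lit 1550) (.f (nat_lit 531) (nat_lit 560) (nat_lit 1551) (.d (nat_lit 563) (nat_lit 562) (nat_lit 527) (nat_lit 564) (nat_lit 528))))) (.a (.p (nat_lit 530) (.a (.f (nat_lit 531) (nat_lit 496) (nat_lit 3567) (.d (nat_lit 499) (nat_lit 498) (nat_lit 2543) (nat_lit 500) (nat_lit 2544))) (.a (.f (nat_lit 559) (nat_lit 558) (nat_lit 1550) (.f (nat_lit 531) (nat_lit 560) (nat_lit 1551) (.d (nat_lit 563) (nat_lit 562) (nat_lit 527) (nat_lit 564) (nat_lit 528)))) (.f (nat_lit 498) (nat_lit 499) (nat_lit 2543) (.f (nat_lit 526) (nat_lit 497) (nat_lit 2542) (.d (nat_lit 558) (nat_lit 557) (nat_lit 1549) (nat_lit 559) (nat_lit 1550))))))) (.p (nat_lit 526) (.a (.f (nat_lit 497) (nat_lit 498) (nat_lit 2542) (.f (nat_lit 525) (nat_lit 496) (nat_lit 2541) (.d (nat_lit 557) (nat_lit 556) (nat_lit 1548) (nat_lit 558) (nat_lit 1549)))) (.a (.f (nat_lit 494) (nat_lit 493) (nat_lit 3565) (.f (nat_lit 558) (nat_lit 557) (nat_lit 1549) (.f (nat_lit 590) (nat_lit 622) (nat_lit 6638) (.f (nat_lit 591) (nat_lit 623) (nat_lit 4590) (.f (nat_lit 462) (nat_lit 559) (nat_lit 4558) (.f (nat_lit 430) (nat_lit 398) (nat_lit 4494) (.d (nat_lit 429) (nat_lit 397) (nat_lit 7565) (nat_lit 461) (nat_lit 7597)))))))) (.a (.f (nat_lit 494) (nat_lit 493) (nat_lit 3565) (.f (nat_lit 497) (nat_lit 498) (nat_lit 2542) (.f (nat_lit 525) (nat_lit 496) (nat_lit 2541) (.f (nat_lit 524) (nat_lit 523) (nat_lit 2539) (.d (nat_lit 556) (nat_lit 555) (nat_lit 1547) (nat_lit 557) (nat_lit 1548)))))) (.f (nat_lit 494) (nat_lit 493) (nat_lit 3565) (.f (nat_lit 497) (nat_lit 498) (nat_lit 2542) (.f (nat_lit 496) (nat_lit 525) (nat_lit 2541) (.f (nat_lit 462) (nat_lit 461) (nat_lit 3533) (.d (nat_lit 430) (nat_lit 398) (nat_lit 4494) (nat_lit 559) (nat_lit 4526)))))))))))))) (.a (.p (nat_lit 463) (.a (.f (nat_lit 431) (nat_lit 560) (nat_lit 4527) (.f (nat_lit 399) (nat_lit 496) (nat_lit 4495) (.d (nat_lit 526) (nat_lit 494) (nat_lit 5518) (nat_lit 558) (nat_lit 5550)))) (.a (.f (nat_lit 431) (nat_lit 560) (nat_lit 4527) (.f (nat_lit 558) (nat_lit 526) (nat_lit 5550) (.f (nat_lit 559) (nat_lit 590) (nat_lit 5582) (.d (nat_lit 432) (nat_lit 400) (nat_lit 6543) (nat_lit 464) (nat_lit 6575))))) (.a (.p (nat_lit 559) (.a (.f (nat_lit 560) (nat_lit 592) (nat_lit 4559) (.f (nat_lit 558) (nat_lit 590) (nat_lit 5582) (.d (nat_lit 557) (nat_lit 529) (nat_lit 2573) (nat_lit 556) (nat_lit 2572)))) (.f (nat_lit 464) (nat_lit 432) (nat_lit 6575) (.f (nat_lit 591) (nat_lit 496) (nat_lit 6607) (.d (nat_lit 462) (nat_lit 430) (nat_lit 7598) (nat_lit 494) (nat_lit 7630)))))) (.a (.p (nat_lit 559) (.a (.f (nat_lit 464) (nat_lit 432) (nat_lit 6575) (.f (nat_lit 591) (nat_lit 496) (nat_lit 6607) (.d (nat_lit 462) (nat_lit 430) (nat_lit 7598) (nat_lit 494) (nat_lit 7630)))) (.f (nat_lit 558) (nat_lit 590) (nat_lit 5582) (.f (nat_lit 526) (nat_lit 431) (nat_lit 5550) (.d (nat_lit 557) (nat_lit 529) (nat_lit 1549) (nat_lit 556) (nat_lit 2572)))))) (.f (nat_lit 431) (nat_lit 560) (nat_lit 4527) (.f (nat_lit 399) (nat_lit 496) (nat_lit 4495) (.d (nat_lit 400) (nat_lit 368) (nat_lit 6511) (nat_lit 432) (nat_lit 6543))))))))) (.a (.p (nat_lit 559) (.a (.p (nat_lit 494) (.a (.f (nat_lit 591) (nat_lit 462) (nat_lit 7630) (.d (nat_lit 496) (nat_lit 464) (nat_lit 6607) (nat_lit 623) (nat_lit 6639))) (.a (.f (nat_lit 591) (nat_lit 462) (nat_lit 7630) (.f (nat_lit 623) (nat_lit 526) (nat_lit 7662) (.d (nat_lit 624) (nat_lit 592) (nat_lit 4591) (nat_lit 656) (nat_lit 4623)))) (.f (nat_lit 529) (nat_lit 530) (nat_lit 3566) (.d (nat_lit 493) (nat_lit 492) (nat_lit 492) (nat_lit 526) (nat_lit 3565)))))) (.a (.p (nat_lit 494) (.a (.f (nat_lit 591) (nat_lit 462) (nat_lit 7630) (.f (nat_lit 623) (nat_lit 526) (nat_lit 7662) (.d (nat_lit 624) (nat_lit 592) (nat_lit 4591) (nat_lit 656) (nat_lit 4623)))) (.a (.f (nat_lit 529) (nat_lit 530) (nat_lit 3566) (.d (nat_lit 493) (nat_lit 492) (nat_lit 492) (nat_lit 526) (nat_lit 3565))) (.f (nat_lit 591) (nat_lit 462) (nat_lit 7630) (.f (nat_lit 624) (nat_lit 592) (nat_lit 4591) (.f (nat_lit 623) (nat_lit 656) (nat_lit 4623) (.d (nat_lit 622) (nat_lit 590) (nat_lit 5614) (nat_lit 654) (nat_lit 5646)))))))) (.a (.p (nat_lit 463) (.a (.f (nat_lit 558) (nat_lit 590) (nat_lit 5582) (.f (nat_lit 529) (nat_lit 530) (nat_lit 1550) (.d (nat_lit 557) (nat_lit 526) (nat_lit 1549) (nat_lit 556) (nat_lit 2572)))) (.a (.f (nat_lit 558) (nat_lit 590) (nat_lit 5582) (.f (nat_lit 526) (nat_lit 431) (nat_lit 5550) (.d (nat_lit 557) (nat_lit 529) (nat_lit 1549) (nat_lit 556) (nat_lit 2572)))) (.a (.f (nat_lit 558) (nat_lit 590) (nat_lit 5582) (.f (nat_lit 431) (nat_lit 526) (nat_lit 5550) (.d (nat_lit 432) (nat_lit 400) (nat_lit 6543) (nat_lit 464) (nat_lit 6575)))) (.f (nat_lit 430) (nat_lit 462) (nat_lit 7598) (.f (nat_lit 431) (nat_lit 398) (nat_lit 7566) (.d (nat_lit 432) (nat_lit 400) (nat_lit 6543) (nat_lit 464) (nat_lit 6575)))))))) (.a (.p (nat_lit 463) (.a (.f (nat_lit 464) (nat_lit 432) (nat_lit 6575) (.f (nat_lit 591) (nat_lit 496) (nat_lit 6607) (.d (nat_lit 462) (nat_lit 430) (nat_lit 7598) (nat_lit 494) (nat_lit 7630)))) (.f (nat_lit 558) (nat_lit 590) (nat_lit 5582) (.f (nat_lit 526) (nat_lit 431) (nat_lit 5550) (.d (nat_lit 557) (nat_lit 529) (nat_lit 1549) (nat_lit 556) (nat_lit 2572)))))) (.a (.p (nat_lit 463) (.a (.f (nat_lit 464) (nat_lit 432) (nat_lit 6575) (.f (nat_lit 591) (nat_lit 496) (nat_lit 6607) (.d (nat_lit 462) (nat_lit 430) (nat_lit 7598) (nat_lit 494) (nat_lit 7630)))) (.a (.f (nat_lit 558) (nat_lit 590) (nat_lit 5582) (.f (nat_lit 431) (nat_lit 526) (nat_lit 5550) (.d (nat_lit 432) (nat_lit 400) (nat_lit 6543) (nat_lit 464) (nat_lit 6575)))) (.f (nat_lit 558) (nat_lit 590) (nat_lit 5582) (.f (nat_lit 431) (nat_lit 526) (nat_lit 5550) (.d (nat_lit 430) (nat_lit 398) (nat_lit 7566) (nat_lit 462) (nat_lit 7598))))))) (.a (.p (nat_lit 463) (.a (.f (nat_lit 558) (nat_lit 590) (nat_lit 5582) (.f (nat_lit 529) (nat_lit 530) (nat_lit 1550) (.d (nat_lit 557) (nat_lit 526) (nat_lit 1549) (nat_lit 556) (nat_lit 2572)))) (.a (.f (nat_lit 558) (nat_lit 590) (nat_lit 5582) (.f (nat_lit 526) (nat_lit 431) (nat_lit 5550) (.d (nat_lit 557) (nat_lit 529) (nat_lit 1549) (nat_lit 556) (nat_lit 2572)))) (.a (.f (nat_lit 558) (nat_lit 590) (nat_lit 5582) (.f (nat_lit 431) (nat_lit 526) (nat_lit 5550) (.d (nat_lit 432) (nat_lit 400) (nat_lit 6543) (nat_lit 464) (nat_lit 6575)))) (.a (.f (nat_lit 464) (nat_lit 432) (nat_lit 6575) (.f (nat_lit 591) (nat_lit 496) (nat_lit 6607) (.f (nat_lit 622) (nat_lit 590) (nat_lit 5614) (.f (nat_lit 623) (nat_lit 654) (nat_lit 5646) (.d (nat_lit 624) (nat_lit 592) (nat_lit 4591) (nat_lit 656) (nat_lit 4623)))))) (.f (nat_lit 464) (nat_lit 432) (nat_lit 6575) (.f (nat_lit 496) (nat_lit 591) (nat_lit 6607) (.f (nat_lit 431) (nat_lit 399) (nat_lit 4495) (.f (nat_lit 526) (nat_lit 558) (nat_lit 5550) (.d (nat_lit 497) (nat_lit 498) (nat_lit 1518) (nat_lit 525) (nat_lit 2541))))))))))) (.p (nat_lit 463) (.a (.f (nat_lit 464) (nat_lit 432) (nat_lit 6575) (.f (nat_lit 591) (nat_lit 496) (nat_lit 6607) (.d (nat_lit 462) (nat_lit 430) (nat_lit 7598) (nat_lit 494) (nat_lit 7630)))) (.a (.f (nat_lit 430) (nat_lit 462) (nat_lit 7598) (.f (nat_lit 431) (nat_lit 398) (nat_lit 7566) (.d (nat_lit 432) (nat_lit 400) (nat_lit 6543) (nat_lit 464) (nat_lit 6575)))) (.a (.f (nat_lit 464) (nat_lit 432) (nat_lit 6575) (.f (nat_lit 591) (nat_lit 496) (nat_lit 6607) (.f (nat_lit 622) (nat_lit 590) (nat_lit 5614) (.f (nat_lit 623) (nat_lit 654) (nat_lit 5646) (.d (nat_lit 624) (nat_lit 592) (nat_lit 4591) (nat_lit 656) (nat_lit 4623)))))) (.f (nat_lit 558) (nat_lit 590) (nat_lit 5582) (.f (nat_lit 462) (nat_lit 430) (nat_lit 7598) (.f (nat_lit 494) (nat_lit 591) (nat_lit 7630) (.f (nat_lit 529) (nat_lit 530) (nat_lit 1550) (.d (nat_lit 493) (nat_lit 492) (nat_lit 492) (nat_lit 496) (nat_lit 493))))))))))))))))) (.a (.p (nat_lit 529) (.a (.f (nat_lit 530) (nat_lit 494) (nat_lit 3566) (.f (nat_lit 531) (nat_lit 496) (nat_lit 3567) (.d (nat_lit 499) (nat_lit 498) (nat_lit 2543) (nat_lit 500) (nat_lit 2544)))) (.a (.f (nat_lit 530) (nat_lit 494) (nat_lit 3566) (.f (nat_lit 499) (nat_lit 498) (nat_lit 2543) (.f (nat_lit 531) (nat_lit 500) (nat_lit 2544) (.d (nat_lit 563) (nat_lit 562) (nat_lit 527) (nat_lit 564) (nat_lit 528))))) (.a (.p (nat_lit 530) (.a (.f (nat_lit 531) (nat_lit 496) (nat_lit 3567) (.d (nat_lit 499) (nat_lit 498) (nat_lit 2543) (nat_lit 500) (nat_lit 2544))) (.a (.f (nat_lit 499) (nat_lit 498) (nat_lit 2543) (.f (nat_lit 531) (nat_lit 500) (nat_lit 2544) (.d (nat_lit 563) (nat_lit 562) (nat_lit 527) (nat_lit 564) (nat_lit 528)))) (.a (.f (nat_lit 498) (nat_lit 499) (nat_lit 2543) (.f (nat_lit 526) (nat_lit 497) (nat_lit 2542) (.f (nat_lit 557) (nat_lit 558) (nat_lit 1549) (.f (nat_lit 525) (nat_lit 556) (nat_lit 1548) (.f (nat_lit 524) (nat_lit 496) (nat_lit 2540) (.d (nat_lit 492) (nat_lit 491) (nat_lit 3563) (nat_lit 493) (nat_lit 3564))))))) (.f (nat_lit 531) (nat_lit 496) (nat_lit 3567) (.d (nat_lit 563) (nat_lit 562) (nat_lit 527) (nat_lit 564) (nat_lit 528))))))) (.a (.p (nat_lit 526) (.a (.f (nat_lit 497) (nat_lit 498) (nat_lit 2542) (.f (nat_lit 525) (nat_lit 496) (nat_lit 2541) (.d (nat_lit 557) (nat_lit 556) (nat_lit 1548) (nat_lit 558) (nat_lit 1549)))) (.a (.f (nat_lit 558) (nat_lit 557) (nat_lit 1549) (.f (nat_lit 494) (nat_lit 493) (nat_lit 3565) (.d (nat_lit 463) (nat_lit 431) (nat_lit 5550) (nat_lit 590) (nat_lit 6606)))) (.a (.f (nat_lit 494) (nat_lit 493) (nat_lit 3565) (.f (nat_lit 497) (nat_lit 498) (nat_lit 2542) (.f (nat_lit 525) (nat_lit 496) (nat_lit 2541) (.f (nat_lit 524) (nat_lit 523) (nat_lit 2539) (.d (nat_lit 556) (nat_lit 555) (nat_lit 1547) (nat_lit 557) (nat_lit 1548)))))) (.f (nat_lit 494) (nat_lit 493) (nat_lit 3565) (.f (nat_lit 497) (nat_lit 498) (nat_lit 2542) (.f (nat_lit 496) (nat_lit 525) (nat_lit 2541) (.f (nat_lit 462) (nat_lit 461) (nat_lit 3533) (.f (nat_lit 430) (nat_lit 398) (nat_lit 4494) (.f (nat_lit 431) (nat_lit 399) (nat_lit 6542) (.d (nat_lit 463) (nat_lit 558) (nat_lit 5550) (nat_lit 560) (nat_lit 4527)))))))))))) (.f (nat_lit 494) (nat_lit 530) (nat_lit 3566) (.d (nat_lit 493) (nat_lit 492) (nat_lit 492) (nat_lit 526) (nat_lit 3565)))))))) (.a (.p (nat_lit 463) (.a (.f (nat_lit 431) (nat_lit 560) (nat_lit 4527) (.f (nat_lit 399) (nat_lit 496) (nat_lit 4495) (.d (nat_lit 526) (nat_lit 494) (nat_lit 5518) (nat_lit 558) (nat_lit 5550)))) (.a (.f (nat_lit 431) (nat_lit 560) (nat_lit 4527) (.f (nat_lit 558) (nat_lit 526) (nat_lit 5550) (.f (nat_lit 559) (nat_lit 590) (nat_lit 5582) (.d (nat_lit 432) (nat_lit 400) (nat_lit 6543) (nat_lit 464) (nat_lit 6575))))) (.a (.p (nat_lit 559) (.a (.f (nat_lit 464) (nat_lit 432) (nat_lit 6575) (.f (nat_lit 591) (nat_lit 496) (nat_lit 6607) (.d (nat_lit 462) (nat_lit 430) (nat_lit 7598) (nat_lit 494) (nat_lit 7630)))) (.a (.f (nat_lit 592) (nat_lit 560) (nat_lit 4559) (.f (nat_lit 591) (nat_lit 624) (nat_lit 4591) (.d (nat_lit 590) (nat_lit 558) (nat_lit 5582) (nat_lit 622) (nat_lit 5614)))) (.f (nat_lit 560) (nat_lit 592) (nat_lit 4559) (.f (nat_lit 558) (nat_lit 590) (nat_lit 5582) (.f (nat_lit 557) (nat_lit 556) (nat_lit 2572) (.f (nat_lit 525) (nat_lit 524) (nat_lit 3596) (.f (nat_lit 462) (nat_lit 430) (nat_lit 7598) (.f (nat_lit 589) (nat_lit 588) (nat_lit 1580) (.d (nat_lit 494) (nat_lit 493) (nat_lit 6605) (nat_lit 526) (nat_lit 5581))))))))))) (.a (.p (nat_lit 559) (.a (.f (nat_lit 464) (nat_lit 432) (nat_lit 6575) (.f (nat_lit 591) (nat_lit 496) (nat_lit 6607) (.d (nat_lit 462) (nat_lit 430) (nat_lit 7598) (nat_lit 494) (nat_lit 7630)))) (.a (.f (nat_lit 558) (nat_lit 590) (nat_lit 5582) (.f (nat_lit 431) (nat_lit 526) (nat_lit 5550) (.d (nat_lit 432) (nat_lit 400) (nat_lit 6543) (nat_lit 464) (nat_lit 6575)))) (.f (nat_lit 558) (nat_lit 590) (nat_lit 5582) (.f (nat_lit 431) (nat_lit 526) (nat_lit 5550) (.d (nat_lit 430) (nat_lit 398) (nat_lit 7566) (nat_lit 462) (nat_lit 7598))))))) (.f (nat_lit 431) (nat_lit 560) (nat_lit 4527) (.f (nat_lit 399) (nat_lit 496) (nat_lit 4495) (.d (nat_lit 400) (nat_lit 368) (nat_lit 6511) (nat_lit 432) (nat_lit 6543))))))))) (.a (.p (nat_lit 463) (.a (.f (nat_lit 431) (nat_lit 560) (nat_lit 4527) (.f (nat_lit 399) (nat_lit 496) (nat_lit 4495) (.d (nat_lit 526) (nat_lit 494) (nat_lit 5518) (nat_lit 558) (nat_lit 5550)))) (.a (.f (nat_lit 431) (nat_lit 560) (nat_lit 4527) (.f (nat_lit 526) (nat_lit 558) (nat_lit 5550) (.f (nat_lit 494) (nat_lit 399) (nat_lit 5518) (.d (nat_lit 529) (nat_lit 493) (nat_lit 3565) (nat_lit 530) (nat_lit 3566))))) (.a (.f (nat_lit 431) (nat_lit 560) (nat_lit 4527) (.f (nat_lit 496) (nat_lit 399) (nat_lit 4495) (.f (nat_lit 526) (nat_lit 558) (nat_lit 5550) (.d (nat_lit 497) (nat_lit 498) (nat_lit 1518) (nat_lit 525) (nat_lit 2541))))) (.a (.p (nat_lit 559) (.a (.f (nat_lit 560) (nat_lit 592) (nat_lit 4559) (.f (nat_lit 558) (nat_lit 590) (nat_lit 5582) (.d (nat_lit 529) (nat_lit 530) (nat_lit 1550) (nat_lit 557) (nat_lit 2573)))) (.a (.f (nat_lit 558) (nat_lit 590) (nat_lit 5582) (.f (nat_lit 529) (nat_lit 530) (nat_lit 1550) (.d (nat_lit 557) (nat_lit 526) (nat_lit 1549) (nat_lit 556) (nat_lit 2572)))) (.a (.f (nat_lit 560) (nat_lit 592) (nat_lit 4559) (.f (nat_lit 558) (nat_lit 590) (nat_lit 5582) (.d (nat_lit 557) (nat_lit 529) (nat_lit 2573) (nat_lit 556) (nat_lit 2572)))) (.a (.f (nat_lit 592) (nat_lit 560) (nat_lit 4559) (.f (nat_lit 591) (nat_lit 624) (nat_lit 4591) (.d (nat_lit 590) (nat_lit 558) (nat_lit 5582) (nat_lit 622) (nat_lit 5614)))) (.a (.f (nat_lit 560) (nat_lit 592) (nat_lit 4559) (.f (nat_lit 464) (nat_lit 432) (nat_lit 6575) (.f (nat_lit 591) (nat_lit 496) (nat_lit 5583) (.f (nat_lit 623) (nat_lit 655) (nat_lit 6671) (.d (nat_lit 622) (nat_lit 590) (nat_lit 5614) (nat_lit 654) (nat_lit 5646)))))) (.f (nat_lit 560) (nat_lit 592) (nat_lit 4559) (.f (nat_lit 464) (nat_lit 432) (nat_lit 6575) (.f (nat_lit 591) (nat_lit 496) (nat_lit 5583) (.f (nat_lit 623) (nat_lit 655) (nat_lit 6671) (.f (nat_lit 526) (nat_lit 494) (nat_lit 7662) (.f (nat_lit 525) (nat_lit 524) (nat_lit 524) (.f (nat_lit 557) (nat_lit 556) (nat_lit 1548) (.f (nat_lit 529) (nat_lit 558) (nat_lit 1549) (.f (nat_lit 530) (nat_lit 531) (nat_lit 1551) (.d (nat_lit 498) (nat_lit 497) (nat_lit 2542) (nat_lit 499) (nat_lit 2543))))))))))))))))) (.a (.p (nat_lit 559) (.a (.f (nat_lit 558) (nat_lit 590) (nat_lit 5582) (.f (nat_lit 529) (nat_lit 530) (nat_lit 1550) (.d (nat_lit 557) (nat_lit 526) (nat_lit 1549) (nat_lit 556) (nat_lit 2572)))) (.a (.f (nat_lit 558) (nat_lit 590) (nat_lit 5582) (.f (nat_lit 526) (nat_lit 431) (nat_lit 5550) (.d (nat_lit 557) (nat_lit 529) (nat_lit 1549) (nat_lit 556) (nat_lit 2572)))) (.a (.f (nat_lit 558) (nat_lit 590) (nat_lit 5582) (.f (nat_lit 431) (nat_lit 526) (nat_lit 5550) (.d (nat_lit 432) (nat_lit 400) (nat_lit 6543) (nat_lit 464) (nat_lit 6575)))) (.a (.f (nat_lit 464) (nat_lit 432) (nat_lit 6575) (.f (nat_lit 591) (nat_lit 496) (nat_lit 6607) (.f (nat_lit 622) (nat_lit 590) (nat_lit 5614) (.f (nat_lit 623) (nat_lit 654) (nat_lit 5646) (.d (nat_lit 624) (nat_lit 592) (nat_lit 4591) (nat_lit 656) (nat_lit 4623)))))) (.f (nat_lit 464) (nat_lit 432) (nat_lit 6575) (.f (nat_lit 496) (nat_lit 591) (nat_lit 6607) (.f (nat_lit 431) (nat_lit 399) (nat_lit 4495) (.f (nat_lit 526) (nat_lit 558) (nat_lit 5550) (.d (nat_lit 497) (nat_lit 498) (nat_lit 1518) (nat_lit 525) (nat_lit 2541))))))))))) (.f (nat_lit 431) (nat_lit 560) (nat_lit 4527) (.f (nat_lit 399) (nat_lit 496) (nat_lit 4495) (.d (nat_lit 400) (nat_lit 368) (nat_lit 6511) (nat_lit 432) (nat_lit 6543)))))))))) (.a (.p (nat_lit 463) (.a (.f (nat_lit 431) (nat_lit 560) (nat_lit 4527) (.f (nat_lit 399) (nat_lit 496) (nat_lit 4495) (.d (nat_lit 400) (nat_lit 368) (nat_lit 6511) (nat_lit 432) (nat_lit 6543)))) (.a (.f (nat_lit 431) (nat_lit 560) (nat_lit 4527) (.f (nat_lit 432) (nat_lit 400) (nat_lit 6543) (.f (nat_lit 430) (nat_lit 398) (nat_lit 7566) (.d (nat_lit 559) (nat_lit 462) (nat_lit 7598) (nat_lit 464) (nat_lit 6575))))) (.a (.p (nat_lit 559) (.a (.f (nat_lit 560) (nat_lit 592) (nat_lit 4559) (.f (nat_lit 558) (nat_lit 590) (nat_lit 5582) (.d (nat_lit 557) (nat_lit 529) (nat_lit 2573) (nat_lit 556) (nat_lit 2572)))) (.f (nat_lit 464) (nat_lit 432) (nat_lit 6575) (.f (nat_lit 591) (nat_lit 496) (nat_lit 6607) (.d (nat_lit 462) (nat_lit 430) (nat_lit 7598) (nat_lit 494) (nat_lit 7630)))))) (.a (.p (nat_lit 559) (.a (.f (nat_lit 464) (nat_lit 432) (nat_lit 6575) (.f (nat_lit 591) (nat_lit 496) (nat_lit 6607) (.d (nat_lit 462) (nat_lit 430) (nat_lit 7598) (nat_lit 494) (nat_lit 7630)))) (.a (.f (nat_lit 430) (nat_lit 462) (nat_lit 7598) (.f (nat_lit 431) (nat_lit 398) (nat_lit 7566) (.d (nat_lit 432) (nat_lit 400) (nat_lit 6543) (nat_lit 464) (nat_lit 6575)))) (.a (.f (nat_lit 464) (nat_lit 432) (nat_lit 6575) (.f (nat_lit 591) (nat_lit 496) (nat_lit 6607) (.f (nat_lit 622) (nat_lit 590) (nat_lit 5614) (.f (nat_lit 623) (nat_lit 654) (nat_lit 5646) (.d (nat_lit 624) (nat_lit 592) (nat_lit 4591) (nat_lit 656) (nat_lit 4623)))))) (.f (nat_lit 558) (nat_lit 590) (nat_lit 5582) (.f (nat_lit 462) (nat_lit 430) (nat_lit 7598) (.f (nat_lit 494) (nat_lit 591) (nat_lit 7630) (.f (nat_lit 529) (nat_lit 530) (nat_lit 1550) (.d (nat_lit 493) (nat_lit 492) (nat_lit 492) (nat_lit 496) (nat_lit 493)))))))))) (.f (nat_lit 560) (nat_lit 431) (nat_lit 4527) (.d (nat_lit 592) (nat_lit 496) (nat_lit 7631) (nat_lit 559) (nat_lit 4559)))))))) (.a (.p (nat_lit 559) (.a (.p (nat_lit 494) (.a (.f (nat_lit 591) (nat_lit 462) (nat_lit 7630) (.d (nat_lit 496) (nat_lit 464) (nat_lit 6607) (nat_lit 623) (nat_lit 6639))) (.a (.f (nat_lit 591) (nat_lit 462) (nat_lit 7630) (.f (nat_lit 623) (nat_lit 526) (nat_lit 7662) (.d (nat_lit 624) (nat_lit 592) (nat_lit 4591) (nat_lit 656) (nat_lit 4623)))) (.f (nat_lit 529) (nat_lit 530) (nat_lit 3566) (.d (nat_lit 493) (nat_lit 492) (nat_lit 492) (nat_lit 526) (nat_lit 3565)))))) (.a (.p (nat_lit 494) (.a (.f (nat_lit 591) (nat_lit 462) (nat_lit 7630) (.f (nat_lit 623) (nat_lit 526) (nat_lit 7662) (.d (nat_lit 624) (nat_lit 592) (nat_lit 4591) (nat_lit 656) (nat_lit 4623)))) (.a (.f (nat_lit 529) (nat_lit 530) (nat_lit 3566) (.d (nat_lit 493) (nat_lit 492) (nat_lit 492) (nat_lit 526) (nat_lit 3565))) (.f (nat_lit 591) (nat_lit 462) (nat_lit 7630) (.f (nat_lit 624) (nat_lit 592) (nat_lit 4591) (.f (nat_lit 623) (nat_lit 656) (nat_lit 4623) (.d (nat_lit 622) (nat_lit 590) (nat_lit 5614) (nat_lit 654) (nat_lit 5646)))))))) (.a (.p (nat_lit 463) (.a (.f (nat_lit 430) (nat_lit 462) (nat_lit 7598) (.f (nat_lit 431) (nat_lit 398) (nat_lit 7566) (.d (nat_lit 432) (nat_lit 400) (nat_lit 6543) (nat_lit 464) (nat_lit 6575)))) (.a (.f (nat_lit 560) (nat_lit 592) (nat_lit 4559) (.f (nat_lit 464) (nat_lit 432) (nat_lit 6575) (.f (nat_lit 496) (nat_lit 591) (nat_lit 5583) (.f (nat_lit 462) (nat_lit 430) (nat_lit 7598) (.d (nat_lit 461) (nat_lit 460) (nat_lit 460) (nat_lit 497) (nat_lit 461)))))) (.a (.f (nat_lit 560) (nat_lit 592) (nat_lit 4559) (.f (nat_lit 464) (nat_lit 432) (nat_lit 6575) (.f (nat_lit 591) (nat_lit 496) (nat_lit 5583) (.f (nat_lit 623) (nat_lit 655) (nat_lit 6671) (.d (nat_lit 622) (nat_lit 590) (nat_lit 5614) (nat_lit 654) (nat_lit 5646)))))) (.d (nat_lit 560) (nat_lit 431) (nat_lit 4527) (nat_lit 592) (nat_lit 4559)))))) (.a (.p (nat_lit 463) (.a (.f (nat_lit 464) (nat_lit 432) (nat_lit 6575) (.f (nat_lit 591) (nat_lit 496) (nat_lit 6607) (.d (nat_lit 462) (nat_lit 430) (nat_lit 7598) (nat_lit 494) (nat_lit 7630)))) (.a (.f (nat_lit 462) (nat_lit 430) (nat_lit 7598) (.f (nat_lit 494) (nat_lit 591) (nat_lit 7630) (.f (nat_lit 493) (nat_lit 492) (nat_lit 492) (.d (nat_lit 529) (nat_lit 526) (nat_lit 3565) (nat_lit 530) (nat_lit 3566))))) (.a (.f (nat_lit 430) (nat_lit 462) (nat_lit 7598) (.f (nat_lit 431) (nat_lit 398) (nat_lit 7566) (.d (nat_lit 432) (nat_lit 400) (nat_lit 6543) (nat_lit 464) (nat_lit 6575)))) (.f (nat_lit 431) (nat_lit 560) (nat_lit 4527) (.d (nat_lit 432) (nat_lit 400) (nat_lit 6543) (nat_lit 464) (nat_lit 6575))))))) (.a (.p (nat_lit 463) (.a (.f (nat_lit 560) (nat_lit 592) (nat_lit 4559) (.f (nat_lit 464) (nat_lit 432) (nat_lit 6575) (.f (nat_lit 591) (nat_lit 496) (nat_lit 5583) (.f (nat_lit 623) (nat_lit 655) (nat_lit 6671) (.d (nat_lit 622) (nat_lit 590) (nat_lit 5614) (nat_lit 654) (nat_lit 5646)))))) (.a (.d (nat_lit 560) (nat_lit 431) (nat_lit 4527) (nat_lit 592) (nat_lit 4559)) (.a (.f (nat_lit 464) (nat_lit 432) (nat_lit 6575) (.f (nat_lit 591) (nat_lit 496) (nat_lit 6607) (.f (nat_lit 622) (nat_lit 590) (nat_lit 5614) (.f (nat_lit 623) (nat_lit 654) (nat_lit 5646) (.d (nat_lit 624) (nat_lit 592) (nat_lit 4591) (nat_lit 656) (nat_lit 4623)))))) (.f (nat_lit 431) (nat_lit 560) (nat_lit 4527) (.d (nat_lit 432) (nat_lit 400) (nat_lit 6543) (nat_lit 464) (nat_lit 6575))))))) (.p (nat_lit 497) (.a (.p (nat_lit 463) (.a (.d (nat_lit 560) (nat_lit 431) (nat_lit 4527) (nat_lit 592) (nat_lit 4559)) (.f (nat_lit 462) (nat_lit 430) (nat_lit 7598) (.f (nat_lit 496) (nat_lit 498) (nat_lit 3534) (.d (nat_lit 461) (nat_lit 460) (nat_lit 460) (nat_lit 494) (nat_lit 3533)))))) (.a (.p (nat_lit 529) (.a (.f (nat_lit 530) (nat_lit 494) (nat_lit 3566) (.d (nat_lit 498) (nat_lit 499) (nat_lit 2543) (nat_lit 526) (nat_lit 2542))) (.a (.f (nat_lit 498) (nat_lit 526) (nat_lit 2542) (.d (nat_lit 499) (nat_lit 500) (nat_lit 1520) (nat_lit 530) (nat_lit 2543))) (.a (.f (nat_lit 526) (nat_lit 498) (nat_lit 2542) (.f (nat_lit 493) (nat_lit 494) (nat_lit 3565) (.f (nat_lit 525) (nat_lit 492) (nat_lit 3564) (.f (nat_lit 560) (nat_lit 524) (nat_lit 524) (.d (nat_lit 463) (nat_lit 431) (nat_lit 4527) (nat_lit 592) (nat_lit 4559)))))) (.f (nat_lit 530) (nat_lit 494) (nat_lit 3566) (.f (nat_lit 560) (nat_lit 531) (nat_lit 1551) (.d (nat_lit 463) (nat_lit 431) (nat_lit 4527) (nat_lit 592) (nat_lit 4559)))))))) (.a (.p (nat_lit 463) (.a (.d (nat_lit 560) (nat_lit 431) (nat_lit 4527) (nat_lit 592) (nat_lit 4559)) (.f (nat_lit 464) (nat_lit 432) (nat_lit 6575) (.f (nat_lit 462) (nat_lit 430) (nat_lit 7598) (.d (nat_lit 496) (nat_lit 461) (nat_lit 461) (nat_lit 498) (nat_lit 3534)))))) (.a (.p (nat_lit 529) (.a (.f (nat_lit 530) (nat_lit 494) (nat_lit 3566) (.d (nat_lit 498) (nat_lit 499) (nat_lit 2543) (nat_lit 526) (nat_lit 2542))) (.a (.f (nat_lit 498) (nat_lit 526) (nat_lit 2542) (.d (nat_lit 499) (nat_lit 500) (nat_lit 1520) (nat_lit 530) (nat_lit 2543))) (.a (.f (nat_lit 526) (nat_lit 498) (nat_lit 2542) (.f (nat_lit 525) (nat_lit 496) (nat_lit 2541) (.d (nat_lit 493) (nat_lit 492) (nat_lit 3564) (nat_lit 494) (nat_lit 3565)))) (.f (nat_lit 530) (nat_lit 494) (nat_lit 3566) (.d (nat_lit 531) (nat_lit 496) (nat_lit 3567) (nat_lit 560) (nat_lit 1551))))))) (.a (.p (nat_lit 463) (.a (.f (nat_lit 462) (nat_lit 430) (nat_lit 7598) (.f (nat_lit 496) (nat_lit 498) (nat_lit 3534) (.d (nat_lit 461) (nat_lit 460) (nat_lit 460) (nat_lit 494) (nat_lit 3533)))) (.a (.f (nat_lit 430) (nat_lit 462) (nat_lit 7598) (.f (nat_lit 431) (nat_lit 398) (nat_lit 7566) (.d (nat_lit 432) (nat_lit 400) (nat_lit 6543) (nat_lit 464) (nat_lit 6575)))) (.f (nat_lit 432) (nat_lit 464) (nat_lit 6575) (.f (nat_lit 431) (nat_lit 400) (nat_lit 6543) (.f (nat_lit 496) (nat_lit 399) (nat_lit 4495) (.d (nat_lit 526) (nat_lit 498) (nat_lit 1518) (nat_lit 525) (nat_lit 2541)))))))) (.p (nat_lit 463) (.a (.d (nat_lit 560) (nat_lit 431) (nat_lit 4527) (nat_lit 592) (nat_lit 4559)) (.f (nat_lit 464) (nat_lit 432) (nat_lit 6575) (.f (nat_lit 462) (nat_lit 430) (nat_lit 7598) (.f (nat_lit 461) (nat_lit 496) (nat_lit 461) (.f (nat_lit 492) (nat_lit 493) (nat_lit 1484) (.f (nat_lit 460) (nat_lit 491) (nat_lit 1483) (.d (nat_lit 428) (nat_lit 427) (nat_lit 3499) (nat_lit 429) (nat_lit 3500))))))))))))))))))))) (.p (nat_lit 463) (.a (.f (nat_lit 431) (nat_lit 560) (nat_lit 4527) (.f (nat_lit 399) (nat_lit 496) (nat_lit 4495) (.d (nat_lit 526) (nat_lit 494) (nat_lit 5518) (nat_lit 558) (nat_lit 5550)))) (.a (.f (nat_lit 431) (nat_lit 560) (nat_lit 4527) (.f (nat_lit 526) (nat_lit 558) (nat_lit 5550) (.f (nat_lit 494) (nat_lit 399) (nat_lit 5518) (.d (nat_lit 529) (nat_lit 493) (nat_lit 3565) (nat_lit 530) (nat_lit 3566))))) (.a (.f (nat_lit 431) (nat_lit 560) (nat_lit 4527) (.f (nat_lit 496) (nat_lit 399) (nat_lit 4495) (.f (nat_lit 526) (nat_lit 558) (nat_lit 5550) (.d (nat_lit 497) (nat_lit 498) (nat_lit 1518) (nat_lit 525) (nat_lit 2541))))) (.a (.p (nat_lit 497) (.a (.p (nat_lit 559) (.a (.f (nat_lit 462) (nat_lit 430) (nat_lit 7598) (.f (nat_lit 496) (nat_lit 498) (nat_lit 3534) (.d (nat_lit 461) (nat_lit 460) (nat_lit 460) (nat_lit 494) (nat_lit 3533)))) (.a (.f (nat_lit 462) (nat_lit 430) (nat_lit 7598) (.f (nat_lit 494) (nat_lit 591) (nat_lit 7630) (.f (nat_lit 529) (nat_lit 530) (nat_lit 3566) (.d (nat_lit 493) (nat_lit 492) (nat_lit 492) (nat_lit 526) (nat_lit 3565))))) (.a (.f (nat_lit 464) (nat_lit 432) (nat_lit 6575) (.f (nat_lit 462) (nat_lit 430) (nat_lit 7598) (.d (nat_lit 496) (nat_lit 461) (nat_lit 461) (nat_lit 498) (nat_lit 3534)))) (.f (nat_lit 560) (nat_lit 592) (nat_lit 4559) (.f (nat_lit 464) (nat_lit 432) (nat_lit 6575) (.f (nat_lit 496) (nat_lit 591) (nat_lit 5583) (.d (nat_lit 498) (nat_lit 499) (nat_lit 3535) (nat_lit 526) (nat_lit 1518))))))))) (.a (.p (nat_lit 529) (.a (.f (nat_lit 530) (nat_lit 494) (nat_lit 3566) (.d (nat_lit 498) (nat_lit 499) (nat_lit 2543) (nat_lit 526) (nat_lit 2542))) (.a (.f (nat_lit 498) (nat_lit 526) (nat_lit 2542) (.d (nat_lit 499) (nat_lit 500) (nat_lit 1520) (nat_lit 530) (nat_lit 2543))) (.a (.f (nat_lit 526) (nat_lit 498) (nat_lit 2542) (.f (nat_lit 494) (nat_lit 493) (nat_lit 3565) (.f (nat_lit 557) (nat_lit 558) (nat_lit 1549) (.f (nat_lit 525) (nat_lit 556) (nat_lit 1548) (.f (nat_lit 462) (nat_lit 430) (nat_lit 5549) (.f (nat_lit 559) (nat_lit 591) (nat_lit 7630) (.d (nat_lit 524) (nat_lit 523) (nat_lit 2539) (nat_lit 560) (nat_lit 524)))))))) (.f (nat_lit 530) (nat_lit 494) (nat_lit 3566) (.f (nat_lit 559) (nat_lit 558) (nat_lit 1550) (.d (nat_lit 560) (nat_lit 531) (nat_lit 1551) (nat_lit 592) (nat_lit 4559)))))))) (.a (.p (nat_lit 498) (.a (.d (nat_lit 496) (nat_lit 499) (nat_lit 1519) (nat_lit 526) (nat_lit 1518)) (.a (.f (nat_lit 529) (nat_lit 526) (nat_lit 2542) (.d (nat_lit 499) (nat_lit 500) (nat_lit 1520) (nat_lit 530) (nat_lit 2543))) (.a (.d (nat_lit 496) (nat_lit 462) (nat_lit 3534) (nat_lit 499) (nat_lit 1519)) (.d (nat_lit 496) (nat_lit 462) (nat_lit 3534) (nat_lit 526) (nat_lit 1518)))))) (.a (.p (nat_lit 559) (.a (.f (nat_lit 462) (nat_lit 430) (nat_lit 7598) (.f (nat_lit 496) (nat_lit 498) (nat_lit 3534) (.d (nat_lit 461) (nat_lit 460) (nat_lit 460) (nat_lit 494) (nat_lit 3533)))) (.a (.f (nat_lit 560) (nat_lit 592) (nat_lit 4559) (.f (nat_lit 462) (nat_lit 430) (nat_lit 7598) (.f (nat_lit 494) (nat_lit 591) (nat_lit 7630) (.f (nat_lit 493) (nat_lit 492) (nat_lit 492) (.f (nat_lit 526) (nat_lit 529) (nat_lit 3565) (.f (nat_lit 525) (nat_lit 524) (nat_lit 524) (.d (nat_lit 557) (nat_lit 556) (nat_lit 1548) (nat_lit 589) (nat_lit 6605)))))))) (.a (.f (nat_lit 464) (nat_lit 432) (nat_lit 6575) (.f (nat_lit 462) (nat_lit 430) (nat_lit 7598) (.d (nat_lit 496) (nat_lit 461) (nat_lit 461) (nat_lit 498) (nat_lit 3534)))) (.f (nat_lit 560) (nat_lit 592) (nat_lit 4559) (.f (nat_lit 464) (nat_lit 432) (nat_lit 6575) (.f (nat_lit 496) (nat_lit 591) (nat_lit 5583) (.d (nat_lit 498) (nat_lit 499) (nat_lit 3535) (nat_lit 526) (nat_lit 1518))))))))) (.a (.p (nat_lit 559) (.a (.f (nat_lit 462) (nat_lit 430) (nat_lit 7598) (.f (nat_lit 496) (nat_lit 498) (nat_lit 3534) (.d (nat_lit 461) (nat_lit 460) (nat_lit 460) (nat_lit 494) (nat_lit 3533)))) (.a (.f (nat_lit 592) (nat_lit 560) (nat_lit 4559) (.f (nat_lit 591) (nat_lit 624) (nat_lit 4591) (.d (nat_lit 462) (nat_lit 430) (nat_lit 7598) (nat_lit 494) (nat_lit 7630)))) (.a (.f (nat_lit 464) (nat_lit 432) (nat_lit 6575) (.f (nat_lit 462) (nat_lit 430) (nat_lit 7598) (.d (nat_lit 496) (nat_lit 461) (nat_lit 461) (nat_lit 498) (nat_lit 3534)))) (.f (nat_lit 560) (nat_lit 592) (nat_lit 4559) (.f (nat_lit 464) (nat_lit 432) (nat_lit 6575) (.f (nat_lit 496) (nat_lit 591) (nat_lit 5583) (.d (nat_lit 498) (nat_lit 499) (nat_lit 3535) (nat_lit 526) (nat_lit 1518))))))))) (.a (.p (nat_lit 529) (.a (.f (nat_lit 530) (nat_lit 494) (nat_lit 3566) (.d (nat_lit 498) (nat_lit 499) (nat_lit 2543) (nat_lit 526) (nat_lit 2542))) (.a (.f (nat_lit 498) (nat_lit 526) (nat_lit 2542) (.d (nat_lit 499) (nat_lit 500) (nat_lit 1520) (nat_lit 530) (nat_lit 2543))) (.a (.f (nat_lit 498) (nat_lit 526) (nat_lit 2542) (.d (nat_lit 499) (nat_lit 496) (nat_lit 1519) (nat_lit 500) (nat_lit 1520))) (.f (nat_lit 530) (nat_lit 494) (nat_lit 3566) (.f (nat_lit 559) (nat_lit 558) (nat_lit 1550) (.d (nat_lit 560) (nat_lit 531) (nat_lit 1551) (nat_lit 592) (nat_lit 4559)))))))) (.a (.p (nat_lit 559) (.a (.f (nat_lit 462) (nat_lit 430) (nat_lit 7598) (.f (nat_lit 496) (nat_lit 498) (nat_lit 3534) (.d (nat_lit 461) (nat_lit 460) (nat_lit 460) (nat_lit 494) (nat_lit 3533)))) (.a (.f (nat_lit 592) (nat_lit 560) (nat_lit 4559) (.f (nat_lit 591) (nat_lit 624) (nat_lit 4591) (.d (nat_lit 462) (nat_lit 430) (nat_lit 7598) (nat_lit 494) (nat_lit 7630)))) (.a (.f (nat_lit 464) (nat_lit 432) (nat_lit 6575) (.f (nat_lit 462) (nat_lit 430) (nat_lit 7598) (.d (nat_lit 496) (nat_lit 461) (nat_lit 461) (nat_lit 498) (nat_lit 3534)))) (.f (nat_lit 560) (nat_lit 592) (nat_lit 4559) (.f (nat_lit 464) (nat_lit 432) (nat_lit 6575) (.f (nat_lit 496) (nat_lit 591) (nat_lit 5583) (.f (nat_lit 498) (nat_lit 499) (nat_lit 3535) (.f (nat_lit 530) (nat_lit 531) (nat_lit 495) (.d (nat_lit 529) (nat_lit 494) (nat_lit 494) (nat_lit 558) (nat_lit 1550))))))))))) (.p (nat_lit 559) (.a (.f (nat_lit 464) (nat_lit 432) (nat_lit 6575) (.f (nat_lit 462) (nat_lit 430) (nat_lit 7598) (.f (nat_lit 461) (nat_lit 496) (nat_lit 461) (.f (nat_lit 492) (nat_lit 493) (nat_lit 1484) (.f (nat_lit 460) (nat_lit 491) (nat_lit 1483) (.d (nat_lit 428) (nat_lit 427) (nat_lit 3499) (nat_lit 429) (nat_lit 3500))))))) (.a (.f (nat_lit 462) (nat_lit 430) (nat_lit 7598) (.f (nat_lit 494) (nat_lit 591) (nat_lit 7630) (.f (nat_lit 529) (nat_lit 530) (nat_lit 3566) (.d (nat_lit 493) (nat_lit 492) (nat_lit 492) (nat_lit 526) (nat_lit 3565))))) (.a (.f (nat_lit 592) (nat_lit 560) (nat_lit 4559) (.f (nat_lit 591) (nat_lit 624) (nat_lit 4591) (.d (nat_lit 462) (nat_lit 430) (nat_lit 7598) (nat_lit 494) (nat_lit 7630)))) (.f (nat_lit 592) (nat_lit 560) (nat_lit 4559) (.f (nat_lit 591) (nat_lit 624) (nat_lit 4591) (.d (nat_lit 464) (nat_lit 432) (nat_lit 6575) (nat_lit 496) (nat_lit 6607)))))))))))))))) (.a (.p (nat_lit 559) (.a (.f (nat_lit 464) (nat_lit 432) (nat_lit 6575) (.f (nat_lit 591) (nat_lit 496) (nat_lit 6607) (.d (nat_lit 462) (nat_lit 430) (nat_lit 7598) (nat_lit 494) (nat_lit 7630)))) (.a (.f (nat_lit 462) (nat_lit 430) (nat_lit 7598) (.f (nat_lit 494) (nat_lit 591) (nat_lit 7630) (.f (nat_lit 493) (nat_lit 492) (nat_lit 492) (.d (nat_lit 529) (nat_lit 526) (nat_lit 3565) (nat_lit 530) (nat_lit 3566))))) (.a (.f (nat_lit 430) (nat_lit 462) (nat_lit 7598) (.f (nat_lit 431) (nat_lit 398) (nat_lit 7566) (.d (nat_lit 432) (nat_lit 400) (nat_lit 6543) (nat_lit 464) (nat_lit 6575)))) (.f (nat_lit 464) (nat_lit 432) (nat_lit 6575) (.f (nat_lit 496) (nat_lit 591) (nat_lit 6607) (.f (nat_lit 431) (nat_lit 399) (nat_lit 4495) (.f (nat_lit 526) (nat_lit 558) (nat_lit 5550) (.d (nat_lit 497) (nat_lit 498) (nat_lit 1518) (nat_lit 525) (nat_lit 2541)))))))))) (.f (nat_lit 431) (nat_lit 560) (nat_lit 4527) (.f (nat_lit 399) (nat_lit 496) (nat_lit 4495) (.d (nat_lit 400) (nat_lit 368) (nat_lit 6511) (nat_lit 432) (nat_lit 6543))))))))))))))))))))))) (.a (.p (nat_lit 527) (.a (.p (nat_lit 559) (.a (.p (nat_lit 463) (.a (.d (nat_lit 560) (nat_lit 431) (nat_lit 4527) (nat_lit 592) (nat_lit 4559)) (.a (.f (nat_lit 558) (nat_lit 590) (nat_lit 5582) (.f (nat_lit 526) (nat_lit 431) (nat_lit 5550) (.d (nat_lit 529) (nat_lit 530) (nat_lit 1550) (nat_lit 557) (nat_lit 1549)))) (.f (nat_lit 560) (nat_lit 592) (nat_lit 4559) (.f (nat_lit 558) (nat_lit 590) (nat_lit 5582) (.d (nat_lit 529) (nat_lit 530) (nat_lit 1550) (nat_lit 557) (nat_lit 2573))))))) (.a (.p (nat_lit 463) (.a (.f (nat_lit 558) (nat_lit 590) (nat_lit 5582) (.f (nat_lit 526) (nat_lit 431) (nat_lit 5550) (.d (nat_lit 529) (nat_lit 530) (nat_lit 1550) (nat_lit 557) (nat_lit 1549)))) (.f (nat_lit 464) (nat_lit 432) (nat_lit 6575) (.f (nat_lit 591) (nat_lit 496) (nat_lit 6607) (.d (nat_lit 462) (nat_lit 430) (nat_lit 7598) (nat_lit 494) (nat_lit 7630)))))) (.a (.p (nat_lit 494) (.a (.f (nat_lit 591) (nat_lit 462) (nat_lit 7630) (.d (nat_lit 496) (nat_lit 464) (nat_lit 6607) (nat_lit 623) (nat_lit 6639))) (.a (.f (nat_lit 591) (nat_lit 462) (nat_lit 7630) (.f (nat_lit 623) (nat_lit 526) (nat_lit 7662) (.d (nat_lit 624) (nat_lit 592) (nat_lit 4591) (nat_lit 656) (nat_lit 4623)))) (.f (nat_lit 529) (nat_lit 530) (nat_lit 3566) (.d (nat_lit 493) (nat_lit 492) (nat_lit 492) (nat_lit 526) (nat_lit 3565)))))) (.p (nat_lit 463) (.a (.d (nat_lit 560) (nat_lit 431) (nat_lit 4527) (nat_lit 592) (nat_lit 4559)) (.f (nat_lit 464) (nat_lit 432) (nat_lit 6575) (.f (nat_lit 591) (nat_lit 496) (nat_lit 6607) (.d (nat_lit 462) (nat_lit 430) (nat_lit 7598) (nat_lit 494) (nat_lit 7630)))))))))) (.a (.p (nat_lit 463) (.a (.f (nat_lit 431) (nat_lit 560) (nat_lit 4527) (.f (nat_lit 399) (nat_lit 496) (nat_lit 4495) (.d (nat_lit 400) (nat_lit 368) (nat_lit 6511) (nat_lit 432) (nat_lit 6543)))) (.a (.p (nat_lit 559) (.a (.f (nat_lit 558) (nat_lit 590) (nat_lit 5582) (.f (nat_lit 526) (nat_lit 431) (nat_lit 5550) (.d (nat_lit 529) (nat_lit 530) (nat_lit 1550) (nat_lit 557) (nat_lit 1549)))) (.a (.f (nat_lit 558) (nat_lit 590) (nat_lit 5582) (.f (nat_lit 557) (nat_lit 556) (nat_lit 2572) (.d (nat_lit 529) (nat_lit 526) (nat_lit 1549) (nat_lit 530) (nat_lit 1550)))) (.a (.f (nat_lit 558) (nat_lit 590) (nat_lit 5582) (.f (nat_lit 431) (nat_lit 526) (nat_lit 5550) (.d (nat_lit 432) (nat_lit 400) (nat_lit 6543) (nat_lit 464) (nat_lit 6575)))) (.f (nat_lit 464) (nat_lit 432) (nat_lit 6575) (.f (nat_lit 496) (nat_lit 591) (nat_lit 6607) (.f (nat_lit 462) (nat_lit 430) (nat_lit 7598) (.d (nat_lit 461) (nat_lit 460) (nat_lit 460) (nat_lit 497) (nat_lit 461))))))))) (.a (.p (nat_lit 559) (.a (.f (nat_lit 560) (nat_lit 592) (nat_lit 4559) (.f (nat_lit 558) (nat_lit 590) (nat_lit 5582) (.d (nat_lit 529) (nat_lit 530) (nat_lit 1550) (nat_lit 557) (nat_lit 2573)))) (.a (.f (nat_lit 558) (nat_lit 590) (nat_lit 5582) (.f (nat_lit 557) (nat_lit 556) (nat_lit 2572) (.d (nat_lit 529) (nat_lit 526) (nat_lit 1549) (nat_lit 530) (nat_lit 1550)))) (.f (nat_lit 464) (nat_lit 432) (nat_lit 6575) (.f (nat_lit 496) (nat_lit 591) (nat_lit 6607) (.f (nat_lit 462) (nat_lit 430) (nat_lit 7598) (.d (nat_lit 461) (nat_lit 460) (nat_lit 460) (nat_lit 497) (nat_lit 461)))))))) (.a (.f (nat_lit 431) (nat_lit 560) (nat_lit 4527) (.f (nat_lit 558) (nat_lit 526) (nat_lit 5550) (.f (nat_lit 559) (nat_lit 590) (nat_lit 5582) (.d (nat_lit 432) (nat_lit 400) (nat_lit 6543) (nat_lit 464) (nat_lit 6575))))) (.f (nat_lit 431) (nat_lit 560) (nat_lit 4527) (.f (nat_lit 399) (nat_lit 496) (nat_lit 4495) (.d (nat_lit 398) (nat_lit 366) (nat_lit 7534) (nat_lit 430) (nat_lit 7566))))))))) (.a (.p (nat_lit 559) (.a (.p (nat_lit 463) (.a (.f (nat_lit 558) (nat_lit 590) (nat_lit 5582) (.f (nat_lit 526) (nat_lit 431) (nat_lit 5550) (.d (nat_lit 529) (nat_lit 530) (nat_lit 1550) (nat_lit 557) (nat_lit 1549)))) (.f (nat_lit 464) (nat_lit 432) (nat_lit 6575) (.f (nat_lit 591) (nat_lit 496) (nat_lit 6607) (.d (nat_lit 462) (nat_lit 430) (nat_lit 7598) (nat_lit 494) (nat_lit 7630)))))) (.a s127219 (.a s127222 (.a (.p (nat_lit 494) (.a (.f (nat_lit 591) (nat_lit 462) (nat_lit 7630) (.d (nat_lit 496) (nat_lit 464) (nat_lit 6607) (nat_lit 623) (nat_lit 6639))) (.a (.f (nat_lit 591) (nat_lit 462) (nat_lit 7630) (.f (nat_lit 623) (nat_lit 526) (nat_lit 7662) (.d (nat_lit 624) (nat_lit 592) (nat_lit 4591) (nat_lit 656) (nat_lit 4623)))) (.f (nat_lit 529) (nat_lit 530) (nat_lit 3566) (.d (nat_lit 493) (nat_lit 492) (nat_lit 492) (nat_lit 526) (nat_lit 3565)))))) (.a (.p (nat_lit 463) (.a (.f (nat_lit 464) (nat_lit 432) (nat_lit 6575) (.f (nat_lit 591) (nat_lit 496) (nat_lit 6607) (.d (nat_lit 462) (nat_lit 430) (nat_lit 7598) (nat_lit 494) (nat_lit 7630)))) (.a (.f (nat_lit 558) (nat_lit 590) (nat_lit 5582) (.f (nat_lit 431) (nat_lit 526) (nat_lit 5550) (.d (nat_lit 432) (nat_lit 400) (nat_lit 6543) (nat_lit 464) (nat_lit 6575)))) (.f (nat_lit 558) (nat_lit 590) (nat_lit 5582) (.f (nat_lit 431) (nat_lit 526) (nat_lit 5550) (.d (nat_lit 430) (nat_lit 398) (nat_lit 7566) (nat_lit 462) (nat_lit 7598))))))) (.a s127224 (.a s127225 (.a s127226 (.p (nat_lit 463) (.a (.f (nat_lit 558) (nat_lit 590) (nat_lit 5582) (.f (nat_lit 526) (nat_lit 431) (nat_lit 5550) (.d (nat_lit 529) (nat_lit 530) (nat_lit 1550) (nat_lit 557) (nat_lit 1549)))) (.a (.f (nat_lit 558) (nat_lit 590) (nat_lit 5582) (.f (nat_lit 557) (nat_lit 556) (nat_lit 2572) (.d (nat_lit 529) (nat_lit 526) (nat_lit 1549) (nat_lit 530) (nat_lit 1550)))) (.a (.f (nat_lit 558) (nat_lit 590) (nat_lit 5582) (.f (nat_lit 431) (nat_lit 526) (nat_lit 5550) (.d (nat_lit 432) (nat_lit 400) (nat_lit 6543) (nat_lit 464) (nat_lit 6575)))) (.a (.f (nat_lit 464) (nat_lit 432) (nat_lit 6575) (.f (nat_lit 591) (nat_lit 496) (nat_lit 6607) (.f (nat_lit 622) (nat_lit 590) (nat_lit 5614) (.f (nat_lit 623) (nat_lit 654) (nat_lit 5646) (.d (nat_lit 624) (nat_lit 592) (nat_lit 4591) (nat_lit 656) (nat_lit 4623)))))) (.f (nat_lit 464) (nat_lit 432) (nat_lit 6575) (.f (nat_lit 496) (nat_lit 591) (nat_lit 6607) (.f (nat_lit 431) (nat_lit 399) (nat_lit 4495) (.f (nat_lit 526) (nat_lit 558) (nat_lit 5550) (.d (nat_lit 525) (nat_lit 497) (nat_lit 2541) (nat_lit 524) (nat_lit 2540)))))))))))))))))))) (.a (.p (nat_lit 559) (.a (.p (nat_lit 463) (.a (.f (nat_lit 558) (nat_lit 590) (nat_lit 5582) (.f (nat_lit 526) (nat_lit 431) (nat_lit 5550) (.d (nat_lit 529) (nat_lit 530) (nat_lit 1550) (nat_lit 557) (nat_lit 1549)))) (.f (nat_lit 464) (nat_lit 432) (nat_lit 6575) (.f (nat_lit 591) (nat_lit 496) (nat_lit 6607) (.d (nat_lit 462) (nat_lit 430) (nat_lit 7598) (nat_lit 494) (nat_lit 7630)))))) (.a s127219 (.a s127222 (.a (.p (nat_lit 494) (.a (.f (nat_lit 591) (nat_lit 462) (nat_lit 7630) (.d (nat_lit 496) (nat_lit 464) (nat_lit 6607) (nat_lit 623) (nat_lit 6639))) (.f (nat_lit 529) (nat_lit 530) (nat_lit 3566) (.d (nat_lit 493) (nat_lit 492) (nat_lit 492) (nat_lit 526) (nat_lit 3565))))) (.a (.p (nat_lit 463) (.a (.f (nat_lit 464) (nat_lit 432) (nat_lit 6575) (.f (nat_lit 591) (nat_lit 496) (nat_lit 6607) (.d (nat_lit 462) (nat_lit 430) (nat_lit 7598) (nat_lit 494) (nat_lit 7630)))) (.a (.f (nat_lit 558) (nat_lit 590) (nat_lit 5582) (.f (nat_lit 431) (nat_lit 526) (nat_lit 5550) (.d (nat_lit 432) (nat_lit 400) (nat_lit 6543) (nat_lit 464) (nat_lit 6575)))) (.f (nat_lit 558) (nat_lit 590) (nat_lit 5582) (.f (nat_lit 431) (nat_lit 526) (nat_lit 5550) (.d (nat_lit 430) (nat_lit 398) (nat_lit 7566) (nat_lit 462) (nat_lit 7598))))))) (.a s127224 (.a s127225 (.a s127226 (.p (nat_lit 463) (.a (.f (nat_lit 558) (nat_lit 590) (nat_lit 5582) (.f (nat_lit 526) (nat_lit 431) (nat_lit 5550) (.d (nat_lit 529) (nat_lit 530) (nat_lit 1550) (nat_lit 557) (nat_lit 1549)))) (.a (.f (nat_lit 558) (nat_lit 590) (nat_lit 5582) (.f (nat_lit 557) (nat_lit 556) (nat_lit 2572) (.d (nat_lit 529) (nat_lit 526) (nat_lit 1549) (nat_lit 530) (nat_lit 1550)))) (.a (.f (nat_lit 558) (nat_lit 590) (nat_lit 5582) (.f (nat_lit 431) (nat_lit 526) (nat_lit 5550) (.d (nat_lit 432) (nat_lit 400) (nat_lit 6543) (nat_lit 464) (nat_lit 6575)))) (.f (nat_lit 431) (nat_lit 560) (nat_lit 4527) (.d (nat_lit 432) (nat_lit 400) (nat_lit 6543) (nat_lit 464) (nat_lit 6575)))))))))))))))) (.a (.p (nat_lit 526) (.a (.p (nat_lit 525) (.a (.d (nat_lit 496) (nat_lit 497) (nat_lit 2541) (nat_lit 524) (nat_lit 2540)) (.f (nat_lit 557) (nat_lit 556) (nat_lit 1548) (.f (nat_lit 558) (nat_lit 529) (nat_lit 1549) (.f (nat_lit 493) (nat_lit 492) (nat_lit 3564) (.d (nat_lit 461) (nat_lit 429) (nat_lit 4525) (nat_lit 590) (nat_lit 4557))))))) (.a (.p (nat_lit 525) (.a (.f (nat_lit 557) (nat_lit 556) (nat_lit 1548) (.f (nat_lit 558) (nat_lit 529) (nat_lit 1549) (.f (nat_lit 493) (nat_lit 492) (nat_lit 3564) (.d (nat_lit 461) (nat_lit 429) (nat_lit 4525) (nat_lit 590) (nat_lit 4557))))) (.a (.f (nat_lit 557) (nat_lit 556) (nat_lit 1548) (.f (nat_lit 558) (nat_lit 529) (nat_lit 1549) (.f (nat_lit 590) (nat_lit 622) (nat_lit 6638) (.d (nat_lit 463) (nat_lit 431) (nat_lit 5550) (nat_lit 494) (nat_lit 6606))))) (.a (.f (nat_lit 556) (nat_lit 557) (nat_lit 1548) (.f (nat_lit 524) (nat_lit 555) (nat_lit 1547) (.d (nat_lit 492) (nat_lit 491) (nat_lit 3563) (nat_lit 493) (nat_lit 3564)))) (.a (.f (nat_lit 492) (nat_lit 493) (nat_lit 3564) (.f (nat_lit 524) (nat_lit 491) (nat_lit 3563) (.f (nat_lit 523) (nat_lit 494) (nat_lit 2539) (.d (nat_lit 555) (nat_lit 554) (nat_lit 1546) (nat_lit 556) (nat_lit 1547))))) (.f (nat_lit 492) (nat_lit 493) (nat_lit 3564) (.f (nat_lit 524) (nat_lit 491) (nat_lit 3563) (.f (nat_lit 494) (nat_lit 523) (nat_lit 2539) (.f (nat_lit 529) (nat_lit 530) (nat_lit 3566) (.f (nat_lit 558) (nat_lit 557) (nat_lit 1549) (.d (nat_lit 463) (nat_lit 431) (nat_lit 5550) (nat_lit 590) (nat_lit 6606)))))))))))) (.a (.p (nat_lit 525) (.a (.d (nat_lit 496) (nat_lit 497) (nat_lit 2541) (nat_lit 524) (nat_lit 2540)) (.f (nat_lit 557) (nat_lit 556) (nat_lit 1548) (.f (nat_lit 558) (nat_lit 529) (nat_lit 1549) (.f (nat_lit 590) (nat_lit 622) (nat_lit 6638) (.d (nat_lit 463) (nat_lit 431) (nat_lit 5550) (nat_lit 494) (nat_lit 6606))))))) (.a s127244 (.a (.p (nat_lit 558) (.a (.f (nat_lit 463) (nat_lit 431) (nat_lit 5550) (.d (nat_lit 590) (nat_lit 494) (nat_lit 6606) (nat_lit 622) (nat_lit 6638))) (.a (.p (nat_lit 592) (.a (.f (nat_lit 560) (nat_lit 624) (nat_lit 7663) (.d (nat_lit 463) (nat_lit 431) (nat_lit 5550) (nat_lit 496) (nat_lit 7631))) (.f (nat_lit 557) (nat_lit 529) (nat_lit 1549) (.f (nat_lit 590) (nat_lit 622) (nat_lit 6638) (.f (nat_lit 591) (nat_lit 593) (nat_lit 3629) (.d (nat_lit 556) (nat_lit 555) (nat_lit 2571) (nat_lit 589) (nat_lit 3628))))))) (.f (nat_lit 529) (nat_lit 557) (nat_lit 1549) (.d (nat_lit 494) (nat_lit 493) (nat_lit 3565) (nat_lit 530) (nat_lit 3566)))))) (.a (.p (nat_lit 525) (.a (.d (nat_lit 496) (nat_lit 497) (nat_lit 2541) (nat_lit 524) (nat_lit 2540)) (.a (.f (nat_lit 556) (nat_lit 557) (nat_lit 1548) (.f (nat_lit 524) (nat_lit 555) (nat_lit 1547) (.d (nat_lit 492) (nat_lit 491) (nat_lit 3563) (nat_lit 493) (nat_lit 3564)))) (.f (nat_lit 493) (nat_lit 492) (nat_lit 3564) (.f (nat_lit 494) (nat_lit 529) (nat_lit 3565) (.f (nat_lit 557) (nat_lit 556) (nat_lit 1548) (.d (nat_lit 462) (nat_lit 430) (nat_lit 5549) (nat_lit 589) (nat_lit 6605)))))))) (.a (.p (nat_lit 525) (.a (.d (nat_lit 496) (nat_lit 497) (nat_lit 2541) (nat_lit 524) (nat_lit 2540)) (.a (.f (nat_lit 492) (nat_lit 493) (nat_lit 3564) (.f (nat_lit 524) (nat_lit 491) (nat_lit 3563) (.f (nat_lit 523) (nat_lit 494) (nat_lit 2539) (.d (nat_lit 555) (nat_lit 554) (nat_lit 1546) (nat_lit 556) (nat_lit 1547))))) (.f (nat_lit 493) (nat_lit 492) (nat_lit 3564) (.f (nat_lit 494) (nat_lit 529) (nat_lit 3565) (.f (nat_lit 496) (nat_lit 497) (nat_lit 1517) (.f (nat_lit 461) (nat_lit 460) (nat_lit 3532) (.d (nat_lit 429) (nat_lit 397) (nat_lit 4493) (nat_lit 558) (nat_lit 4525))))))))) (.p (nat_lit 525) (.a (.d (nat_lit 496) (nat_lit 497) (nat_lit 2541) (nat_lit 524) (nat_lit 2540)) (.a (.f (nat_lit 492) (nat_lit 493) (nat_lit 3564) (.f (nat_lit 524) (nat_lit 491) (nat_lit 3563) (.f (nat_lit 494) (nat_lit 523) (nat_lit 2539) (.f (nat_lit 529) (nat_lit 530) (nat_lit 3566) (.f (nat_lit 558) (nat_lit 557) (nat_lit 1549) (.d (nat_lit 463) (nat_lit 431) (nat_lit 5550) (nat_lit 590) (nat_lit 6606))))))) (.f (nat_lit 493) (nat_lit 492) (nat_lit 3564) (.f (nat_lit 494) (nat_lit 529) (nat_lit 3565) (.f (nat_lit 496) (nat_lit 497) (nat_lit 1517) (.f (nat_lit 461) (nat_lit 460) (nat_lit 3532) (.d (nat_lit 429) (nat_lit 397) (nat_lit 4493) (nat_lit 558) (nat_lit 4525))))))))))))))))) (.a (.p (nat_lit 559) (.a (.p (nat_lit 463) (.a (.d (nat_lit 560) (nat_lit 431) (nat_lit 4527) (nat_lit 592) (nat_lit 4559)) (.a (.f (nat_lit 558) (nat_lit 590) (nat_lit 5582) (.f (nat_lit 526) (nat_lit 431) (nat_lit 5550) (.d (nat_lit 529) (nat_lit 530) (nat_lit 1550) (nat_lit 557) (nat_lit 1549)))) (.f (nat_lit 560) (nat_lit 592) (nat_lit 4559) (.f (nat_lit 558) (nat_lit 590) (nat_lit 5582) (.d (nat_lit 529) (nat_lit 530) (nat_lit 1550) (nat_lit 557) (nat_lit 2573))))))) (.a s127222 (.a (.p (nat_lit 494) (.a (.f (nat_lit 591) (nat_lit 462) (nat_lit 7630) (.f (nat_lit 623) (nat_lit 526) (nat_lit 7662) (.d (nat_lit 624) (nat_lit 592) (nat_lit 4591) (nat_lit 656) (nat_lit 4623)))) (.a (.f (nat_lit 529) (nat_lit 530) (nat_lit 3566) (.d (nat_lit 493) (nat_lit 492) (nat_lit 492) (nat_lit 526) (nat_lit 3565))) (.f (nat_lit 591) (nat_lit 462) (nat_lit 7630) (.f (nat_lit 624) (nat_lit 592) (nat_lit 4591) (.f (nat_lit 623) (nat_lit 656) (nat_lit 4623) (.d (nat_lit 622) (nat_lit 590) (nat_lit 5614) (nat_lit 654) (nat_lit 5646)))))))) (.a (.p (nat_lit 463) (.a (.d (nat_lit 560) (nat_lit 431) (nat_lit 4527) (nat_lit 592) (nat_lit 4559)) (.a (.f (nat_lit 558) (nat_lit 590) (nat_lit 5582) (.f (nat_lit 431) (nat_lit 526) (nat_lit 5550) (.d (nat_lit 432) (nat_lit 400) (nat_lit 6543) (nat_lit 464) (nat_lit 6575)))) (.f (nat_lit 462) (nat_lit 430) (nat_lit 7598) (.f (nat_lit 494) (nat_lit 591) (nat_lit 7630) (.f (nat_lit 493) (nat_lit 492) (nat_lit 492) (.d (nat_lit 464) (nat_lit 432) (nat_lit 6575) (nat_lit 465) (nat_lit 1485)))))))) (.p (nat_lit 463) (.a (.d (nat_lit 560) (nat_lit 431) (nat_lit 4527) (nat_lit 592) (nat_lit 4559)) (.f (nat_lit 462) (nat_lit 430) (nat_lit 7598) (.f (nat_lit 494) (nat_lit 591) (nat_lit 7630) (.f (nat_lit 493) (nat_lit 492) (nat_lit 492) (.d (nat_lit 464) (nat_lit 432) (nat_lit 6575) (nat_lit 465) (nat_lit 1485)))))))))))) (.a (.p (nat_lit 526) (.a (.p (nat_lit 525) (.a (.d (nat_lit 496) (nat_lit 497) (nat_lit 2541) (nat_lit 524) (nat_lit 2540)) (.f (nat_lit 557) (nat_lit 556) (nat_lit 1548) (.f (nat_lit 558) (nat_lit 529) (nat_lit 1549) (.f (nat_lit 493) (nat_lit 492) (nat_lit 3564) (.d (nat_lit 461) (nat_lit 429) (nat_lit 4525) (nat_lit 590) (nat_lit 4557))))))) (.a (.p (nat_lit 525) (.a (.f (nat_lit 557) (nat_lit 556) (nat_lit 1548) (.f (nat_lit 558) (nat_lit 529) (nat_lit 1549) (.f (nat_lit 493) (nat_lit 492) (nat_lit 3564) (.d (nat_lit 461) (nat_lit 429) (nat_lit 4525) (nat_lit 590) (nat_lit 4557))))) (.a (.f (nat_lit 557) (nat_lit 556) (nat_lit 1548) (.f (nat_lit 529) (nat_lit 558) (nat_lit 1549) (.f (nat_lit 494) (nat_lit 530) (nat_lit 3566) (.f (nat_lit 462) (nat_lit 430) (nat_lit 5549) (.f (nat_lit 524) (nat_lit 523) (nat_lit 2539) (.d (nat_lit 559) (nat_lit 560) (nat_lit 524) (nat_lit 591) (nat_lit 7630))))))) (.a (.f (nat_lit 556) (nat_lit 557) (nat_lit 1548) (.f (nat_lit 524) (nat_lit 555) (nat_lit 1547) (.d (nat_lit 492) (nat_lit 491) (nat_lit 3563) (nat_lit 493) (nat_lit 3564)))) (.a (.f (nat_lit 492) (nat_lit 493) (nat_lit 3564) (.f (nat_lit 524) (nat_lit 491) (nat_lit 3563) (.f (nat_lit 523) (nat_lit 494) (nat_lit 2539) (.d (nat_lit 555) (nat_lit 554) (nat_lit 1546) (nat_lit 556) (nat_lit 1547))))) (.f (nat_lit 493) (nat_lit 492) (nat_lit 3564) (.f (nat_lit 494) (nat_lit 529) (nat_lit 3565) (.f (nat_lit 524) (nat_lit 523) (nat_lit 2539) (.f (nat_lit 559) (nat_lit 560) (nat_lit 524) (.d (nat_lit 462) (nat_lit 430) (nat_lit 4526) (nat_lit 591) (nat_lit 7630))))))))))) (.a (.p (nat_lit 525) (.a (.d (nat_lit 496) (nat_lit 497) (nat_lit 2541) (nat_lit 524) (nat_lit 2540)) (.a (.f (nat_lit 557) (nat_lit 556) (nat_lit 1548) (.f (nat_lit 529) (nat_lit 558) (nat_lit 1549) (.f (nat_lit 494) (nat_lit 530) (nat_lit 3566) (.f (nat_lit 462) (nat_lit 430) (nat_lit 5549) (.f (nat_lit 524) (nat_lit 523) (nat_lit 2539) (.d (nat_lit 559) (nat_lit 560) (nat_lit 524) (nat_lit 591) (nat_lit 7630))))))) (.f (nat_lit 557) (nat_lit 556) (nat_lit 1548) (.f (nat_lit 496) (nat_lit 497) (nat_lit 2541) (.f (nat_lit 529) (nat_lit 558) (nat_lit 1549) (.d (nat_lit 530) (nat_lit 494) (nat_lit 3566) (nat_lit 531) (nat_lit 3567)))))))) (.a s127244 (.a (.p (nat_lit 529) (.a (.d (nat_lit 494) (nat_lit 493) (nat_lit 3565) (nat_lit 530) (nat_lit 3566)) (.a (.f (nat_lit 558) (nat_lit 557) (nat_lit 1549) (.f (nat_lit 530) (nat_lit 559) (nat_lit 1550) (.f (nat_lit 531) (nat_lit 496) (nat_lit 3567) (.d (nat_lit 563) (nat_lit 562) (nat_lit 527) (nat_lit 564) (nat_lit 528))))) (.f (nat_lit 494) (nat_lit 493) (nat_lit 3565) (.f (nat_lit 558) (nat_lit 557) (nat_lit 1549) (.f (nat_lit 590) (nat_lit 622) (nat_lit 6638) (.f (nat_lit 591) (nat_lit 623) (nat_lit 4590) (.f (nat_lit 559) (nat_lit 462) (nat_lit 4558) (.f (nat_lit 589) (nat_lit 621) (nat_lit 5613) (.d (nat_lit 588) (nat_lit 560) (nat_lit 2604) (nat_lit 587) (nat_lit 2603))))))))))) (.a (.p (nat_lit 525) (.a (.d (nat_lit 496) (nat_lit 497) (nat_lit 2541) (nat_lit 524) (nat_lit 2540)) (.a (.f (nat_lit 556) (nat_lit 557) (nat_lit 1548) (.f (nat_lit 524) (nat_lit 555) (nat_lit 1547) (.d (nat_lit 492) (nat_lit 491) (nat_lit 3563) (nat_lit 493) (nat_lit 3564)))) (.f (nat_lit 493) (nat_lit 492) (nat_lit 3564) (.f (nat_lit 494) (nat_lit 529) (nat_lit 3565) (.f (nat_lit 557) (nat_lit 556) (nat_lit 1548) (.d (nat_lit 462) (nat_lit 430) (nat_lit 5549) (nat_lit 589) (nat_lit 6605)))))))) (.p (nat_lit 525) (.a (.d (nat_lit 496) (nat_lit 497) (nat_lit 2541) (nat_lit 524) (nat_lit 2540)) (.a (.f (nat_lit 492) (nat_lit 493) (nat_lit 3564) (.f (nat_lit 524) (nat_lit 491) (nat_lit 3563) (.f (nat_lit 523) (nat_lit 494) (nat_lit 2539) (.d (nat_lit 555) (nat_lit 554) (nat_lit 1546) (nat_lit 556) (nat_lit 1547))))) (.f (nat_lit 493) (nat_lit 492) (nat_lit 3564) (.f (nat_lit 494) (nat_lit 529) (nat_lit 3565) (.f (nat_lit 496) (nat_lit 497) (nat_lit 1517) (.f (nat_lit 461) (nat_lit 460) (nat_lit 3532) (.d (nat_lit 429) (nat_lit 397) (nat_lit 4493) (nat_lit 558) (nat_lit 4525)))))))))))))))) (.a (.p (nat_lit 559) (.a (.p (nat_lit 463) (.a (.d (nat_lit 560) (nat_lit 431) (nat_lit 4527) (nat_lit 592) (nat_lit 4559)) (.f (nat_lit 464) (nat_lit 432) (nat_lit 6575) (.f (nat_lit 591) (nat_lit 496) (nat_lit 6607) (.d (nat_lit 462) (nat_lit 430) (nat_lit 7598) (nat_lit 494) (nat_lit 7630)))))) (.a (.p (nat_lit 463) (.a (.d (nat_lit 560) (nat_lit 431) (nat_lit 4527) (nat_lit 592) (nat_lit 4559)) (.a (.f (nat_lit 558) (nat_lit 590) (nat_lit 5582) (.f (nat_lit 431) (nat_lit 526) (nat_lit 5550) (.d (nat_lit 432) (nat_lit 400) (nat_lit 6543) (nat_lit 464) (nat_lit 6575)))) (.f (nat_lit 464) (nat_lit 432) (nat_lit 6575) (.f (nat_lit 496) (nat_lit 591) (nat_lit 6607) (.f (nat_lit 462) (nat_lit 430) (nat_lit 7598) (.d (nat_lit 461) (nat_lit 460) (nat_lit 460) (nat_lit 497) (nat_lit 461)))))))) (.a (.p (nat_lit 463) (.a (.f (nat_lit 464) (nat_lit 432) (nat_lit 6575) (.f (nat_lit 591) (nat_lit 496) (nat_lit 6607) (.d (nat_lit 462) (nat_lit 430) (nat_lit 7598) (nat_lit 494) (nat_lit 7630)))) (.a (.f (nat_lit 558) (nat_lit 590) (nat_lit 5582) (.f (nat_lit 431) (nat_lit 526) (nat_lit 5550) (.d (nat_lit 432) (nat_lit 400) (nat_lit 6543) (nat_lit 464) (nat_lit 6575)))) (.f (nat_lit 558) (nat_lit 590) (nat_lit 5582) (.f (nat_lit 431) (nat_lit 526) (nat_lit 5550) (.d (nat_lit 430) (nat_lit 398) (nat_lit 7566) (nat_lit 462) (nat_lit 7598))))))) (.a (.p (nat_lit 463) (.a (.d (nat_lit 560) (nat_lit 431) (nat_lit 4527) (nat_lit 592) (nat_lit 4559)) (.a (.f (nat_lit 558) (nat_lit 590) (nat_lit 5582) (.f (nat_lit 431) (nat_lit 526) (nat_lit 5550) (.d (nat_lit 432) (nat_lit 400) (nat_lit 6543) (nat_lit 464) (nat_lit 6575)))) (.f (nat_lit 462) (nat_lit 430) (nat_lit 7598) (.f (nat_lit 494) (nat_lit 591) (nat_lit 7630) (.f (nat_lit 493) (nat_lit 492) (nat_lit 492) (.d (nat_lit 464) (nat_lit 432) (nat_lit 6575) (nat_lit 465) (nat_lit 1485)))))))) (.a s127273 (.a (.p (nat_lit 463) (.a (.d (nat_lit 560) (nat_lit 431) (nat_lit 4527) (nat_lit 592) (nat_lit 4559)) (.a (.f (nat_lit 558) (nat_lit 590) (nat_lit 5582) (.f (nat_lit 431) (nat_lit 526) (nat_lit 5550) (.d (nat_lit 432) (nat_lit 400) (nat_lit 6543) (nat_lit 464) (nat_lit 6575)))) (.f (nat_lit 560) (nat_lit 592) (nat_lit 4559) (.f (nat_lit 462) (nat_lit 430) (nat_lit 7598) (.f (nat_lit 558) (nat_lit 590) (nat_lit 5582) (.f (nat_lit 557) (nat_lit 556) (nat_lit 2572) (.f (nat_lit 525) (nat_lit 524) (nat_lit 3596) (.f (nat_lit 589) (nat_lit 588) (nat_lit 1580) (.d (nat_lit 494) (nat_lit 493) (nat_lit 6605) (nat_lit 526) (nat_lit 5581))))))))))) (.a (.p (nat_lit 463) (.a (.d (nat_lit 560) (nat_lit 431) (nat_lit 4527) (nat_lit 592) (nat_lit 4559)) (.a (.f (nat_lit 558) (nat_lit 590) (nat_lit 5582) (.f (nat_lit 431) (nat_lit 526) (nat_lit 5550) (.d (nat_lit 430) (nat_lit 398) (nat_lit 7566) (nat_lit 462) (nat_lit 7598)))) (.f (nat_lit 560) (nat_lit 592) (nat_lit 4559) (.f (nat_lit 462) (nat_lit 430) (nat_lit 7598) (.f (nat_lit 558) (nat_lit 590) (nat_lit 5582) (.f (nat_lit 557) (nat_lit 556) (nat_lit 2572) (.f (nat_lit 525) (nat_lit 524) (nat_lit 3596) (.f (nat_lit 589) (nat_lit 588) (nat_lit 1580) (.d (nat_lit 494) (nat_lit 493) (nat_lit 6605) (nat_lit 526) (nat_lit 5581))))))))))) (.p (nat_lit 463) (.a (.d (nat_lit 560) (nat_lit 431) (nat_lit 4527) (nat_lit 592) (nat_lit 4559)) (.a (.f (nat_lit 558) (nat_lit 590) (nat_lit 5582) (.f (nat_lit 431) (nat_lit 526) (nat_lit 5550) (.d (nat_lit 432) (nat_lit 400) (nat_lit 6543) (nat_lit 464) (nat_lit 6575)))) (.f (nat_lit 464) (nat_lit 432) (nat_lit 6575) (.f (nat_lit 591) (nat_lit 496) (nat_lit 6607) (.d (nat_lit 590) (nat_lit 558) (nat_lit 5582) (nat_lit 622) (nat_lit 5614))))))))))))))) (.a (.p (nat_lit 559) (.a (.p (nat_lit 463) (.a (.d (nat_lit 560) (nat_lit 431) (nat_lit 4527) (nat_lit 592) (nat_lit 4559)) (.f (nat_lit 464) (nat_lit 432) (nat_lit 6575) (.f (nat_lit 591) (nat_lit 496) (nat_lit 6607) (.d (nat_lit 462) (nat_lit 430) (nat_lit 7598) (nat_lit 494) (nat_lit 7630)))))) (.a (.p (nat_lit 463) (.a (.d (nat_lit 560) (nat_lit 431) (nat_lit 4527) (nat_lit 592) (nat_lit 4559)) (.f (nat_lit 464) (nat_lit 432) (nat_lit 6575) (.f (nat_lit 496) (nat_lit 591) (nat_lit 6607) (.f (nat_lit 462) (nat_lit 430) (nat_lit 7598) (.d (nat_lit 461) (nat_lit 460) (nat_lit 460) (nat_lit 497) (nat_lit 461))))))) (.a s127226 (.a (.p (nat_lit 463) (.a (.d (nat_lit 560) (nat_lit 431) (nat_lit 4527) (nat_lit 592) (nat_lit 4559)) (.f (nat_lit 462) (nat_lit 430) (nat_lit 7598) (.f (nat_lit 494) (nat_lit 591) (nat_lit 7630) (.f (nat_lit 493) (nat_lit 492) (nat_lit 492) (.d (nat_lit 464) (nat_lit 432) (nat_lit 6575) (nat_lit 465) (nat_lit 1485))))))) (.a (.p (nat_lit 494) (.a (.f (nat_lit 591) (nat_lit 462) (nat_lit 7630) (.d (nat_lit 496) (nat_lit 464) (nat_lit 6607) (nat_lit 623) (nat_lit 6639))) (.a (.f (nat_lit 591) (nat_lit 462) (nat_lit 7630) (.f (nat_lit 624) (nat_lit 592) (nat_lit 4591) (.f (nat_lit 623) (nat_lit 656) (nat_lit 4623) (.d (nat_lit 622) (nat_lit 590) (nat_lit 5614) (nat_lit 654) (nat_lit 5646))))) (.f (nat_lit 529) (nat_lit 530) (nat_lit 3566) (.d (nat_lit 493) (nat_lit 492) (nat_lit 492) (nat_lit 496) (nat_lit 493)))))) (.a (.p (nat_lit 463) (.a (.d (nat_lit 560) (nat_lit 431) (nat_lit 4527) (nat_lit 592) (nat_lit 4559)) (.a (.f (nat_lit 432) (nat_lit 464) (nat_lit 6575) (.f (nat_lit 431) (nat_lit 400) (nat_lit 6543) (.d (nat_lit 430) (nat_lit 398) (nat_lit 7566) (nat_lit 462) (nat_lit 7598)))) (.f (nat_lit 560) (nat_lit 592) (nat_lit 4559) (.f (nat_lit 558) (nat_lit 590) (nat_lit 5582) (.d (nat_lit 529) (nat_lit 530) (nat_lit 1550) (nat_lit 557) (nat_lit 2573))))))) (.a (.p (nat_lit 463) (.a (.d (nat_lit 560) (nat_lit 431) (nat_lit 4527) (nat_lit 592) (nat_lit 4559)) (.f (nat_lit 462) (nat_lit 430) (nat_lit 7598) (.f (nat_lit 494) (nat_lit 591) (nat_lit 7630) (.f (nat_lit 493) (nat_lit 492) (nat_lit 492) (.d (nat_lit 529) (nat_lit 496) (nat_lit 493) (nat_lit 530) (nat_lit 3566))))))) (.p (nat_lit 463) (.a (.d (nat_lit 560) (nat_lit 431) (nat_lit 4527) (nat_lit 592) (nat_lit 4559)) (.f (nat_lit 464) (nat_lit 432) (nat_lit 6575) (.f (nat_lit 591) (nat_lit 496) (nat_lit 6607) (.d (nat_lit 590) (nat_lit 558) (nat_lit 5582) (nat_lit 622) (nat_lit 5614)))))))))))))) (.a (.p (nat_lit 558) (.a (.p (nat_lit 559) (.a (.f (nat_lit 557) (nat_lit 556) (nat_lit 2572) (.d (nat_lit 529) (nat_lit 526) (nat_lit 1549) (nat_lit 530) (nat_lit 1550))) (.a (.f (nat_lit 463) (nat_lit 590) (nat_lit 5582) (.d (nat_lit 431) (nat_lit 526) (nat_lit 5550) (nat_lit 560) (nat_lit 4527))) (.f (nat_lit 463) (nat_lit 590) (nat_lit 5582) (.d (nat_lit 560) (nat_lit 431) (nat_lit 4527) (nat_lit 592) (nat_lit 4559)))))) (.a (.p (nat_lit 526) (.a (.f (nat_lit 463) (nat_lit 431) (nat_lit 5550) (.d (nat_lit 590) (nat_lit 559) (nat_lit 5582) (nat_lit 622) (nat_lit 6638))) (.a (.f (nat_lit 463) (nat_lit 431) (nat_lit 5550) (.d (nat_lit 590) (nat_lit 494) (nat_lit 6606) (nat_lit 622) (nat_lit 6638))) (.f (nat_lit 529) (nat_lit 557) (nat_lit 1549) (.d (nat_lit 494) (nat_lit 493) (nat_lit 3565) (nat_lit 530) (nat_lit 3566)))))) (.a (.p (nat_lit 526) (.a (.f (nat_lit 463) (nat_lit 431) (nat_lit 5550) (.d (nat_lit 590) (nat_lit 494) (nat_lit 6606) (nat_lit 622) (nat_lit 6638))) (.f (nat_lit 557) (nat_lit 529) (nat_lit 1549) (.d (nat_lit 556) (nat_lit 525) (nat_lit 1548) (nat_lit 555) (nat_lit 2571))))) (.a (.p (nat_lit 529) (.a (.d (nat_lit 530) (nat_lit 494) (nat_lit 3566) (nat_lit 559) (nat_lit 1550)) (.a (.f (nat_lit 530) (nat_lit 559) (nat_lit 1550) (.f (nat_lit 531) (nat_lit 496) (nat_lit 3567) (.d (nat_lit 563) (nat_lit 562) (nat_lit 527) (nat_lit 564) (nat_lit 528)))) (.a (.f (nat_lit 526) (nat_lit 557) (nat_lit 1549) (.d (nat_lit 494) (nat_lit 493) (nat_lit 3565) (nat_lit 530) (nat_lit 3566))) (.f (nat_lit 526) (nat_lit 557) (nat_lit 1549) (.f (nat_lit 493) (nat_lit 494) (nat_lit 3565) (.f (nat_lit 525) (nat_lit 492) (nat_lit 3564) (.d (nat_lit 496) (nat_lit 497) (nat_lit 2541) (nat_lit 524) (nat_lit 2540))))))))) (.a s127110 (.a (.p (nat_lit 559) (.a (.f (nat_lit 463) (nat_lit 590) (nat_lit 5582) (.d (nat_lit 560) (nat_lit 431) (nat_lit 4527) (nat_lit 592) (nat_lit 4559))) (.a (.f (nat_lit 463) (nat_lit 590) (nat_lit 5582) (.f (nat_lit 432) (nat_lit 464) (nat_lit 6575) (.f (nat_lit 431) (nat_lit 400) (nat_lit 6543) (.d (nat_lit 430) (nat_lit 398) (nat_lit 7566) (nat_lit 462) (nat_lit 7598))))) (.f (nat_lit 529) (nat_lit 530) (nat_lit 1550) (.d (nat_lit 557) (nat_lit 556) (nat_lit 2572) (nat_lit 560) (nat_lit 2573)))))) (.p (nat_lit 463) (.a (.d (nat_lit 431) (nat_lit 526) (nat_lit 5550) (nat_lit 560) (nat_lit 4527)) (.a (.f (nat_lit 431) (nat_lit 526) (nat_lit 5550) (.f (nat_lit 559) (nat_lit 590) (nat_lit 5582) (.d (nat_lit 432) (nat_lit 400) (nat_lit 6543) (nat_lit 464) (nat_lit 6575)))) (.a (.f (nat_lit 590) (nat_lit 559) (nat_lit 5582) (.d (nat_lit 526) (nat_lit 494) (nat_lit 6606) (nat_lit 622) (nat_lit 6638))) (.f (nat_lit 559) (nat_lit 590) (nat_lit 5582) (.d (nat_lit 560) (nat_lit 431) (nat_lit 4527) (nat_lit 592) (nat_lit 4559)))))))))))))) (.a (.p (nat_lit 463) (.a (.f (nat_lit 431) (nat_lit 560) (nat_lit 4527) (.f (nat_lit 399) (nat_lit 496) (nat_lit 4495) (.d (nat_lit 400) (nat_lit 368) (nat_lit 6511) (nat_lit 432) (nat_lit 6543)))) (.a (.p (nat_lit 559) (.a (.f (nat_lit 558) (nat_lit 590) (nat_lit 5582) (.f (nat_lit 526) (nat_lit 431) (nat_lit 5550) (.d (nat_lit 529) (nat_lit 530) (nat_lit 1550) (nat_lit 557) (nat_lit 1549)))) (.a (.f (nat_lit 558) (nat_lit 590) (nat_lit 5582) (.f (nat_lit 557) (nat_lit 556) (nat_lit 2572) (.d (nat_lit 529) (nat_lit 526) (nat_lit 1549) (nat_lit 530) (nat_lit 1550)))) (.a (.f (nat_lit 558) (nat_lit 590) (nat_lit 5582) (.f (nat_lit 431) (nat_lit 526) (nat_lit 5550) (.d (nat_lit 432) (nat_lit 400) (nat_lit 6543) (nat_lit 464) (nat_lit 6575)))) (.a (.f (nat_lit 464) (nat_lit 432) (nat_lit 6575) (.f (nat_lit 591) (nat_lit 496) (nat_lit 6607) (.f (nat_lit 622) (nat_lit 590) (nat_lit 5614) (.f (nat_lit 623) (nat_lit 654) (nat_lit 5646) (.d (nat_lit 624) (nat_lit 592) (nat_lit 4591) (nat_lit 656) (nat_lit 4623)))))) (.f (nat_lit 464) (nat_lit 432) (nat_lit 6575) (.f (nat_lit 496) (nat_lit 591) (nat_lit 6607) (.f (nat_lit 431) (nat_lit 399) (nat_lit 4495) (.f (nat_lit 526) (nat_lit 558) (nat_lit 5550) (.d (nat_lit 525) (nat_lit 497) (nat_lit 2541) (nat_lit 524) (nat_lit 2540))))))))))) (.a (.p (nat_lit 559) (.a (.f (nat_lit 560) (nat_lit 592) (nat_lit 4559) (.f (nat_lit 558) (nat_lit 590) (nat_lit 5582) (.d (nat_lit 529) (nat_lit 530) (nat_lit 1550) (nat_lit 557) (nat_lit 2573)))) (.a (.f (nat_lit 558) (nat_lit 590) (nat_lit 5582) (.f (nat_lit 557) (nat_lit 556) (nat_lit 2572) (.d (nat_lit 529) (nat_lit 526) (nat_lit 1549) (nat_lit 530) (nat_lit 1550)))) (.a (.f (nat_lit 464) (nat_lit 432) (nat_lit 6575) (.f (nat_lit 591) (nat_lit 496) (nat_lit 6607) (.d (nat_lit 590) (nat_lit 558) (nat_lit 5582) (nat_lit 622) (nat_lit 5614)))) (.a (.f (nat_lit 464) (nat_lit 432) (nat_lit 6575) (.f (nat_lit 591) (nat_lit 496) (nat_lit 6607) (.f (nat_lit 622) (nat_lit 590) (nat_lit 5614) (.f (nat_lit 623) (nat_lit 654) (nat_lit 5646) (.d (nat_lit 624) (nat_lit 592) (nat_lit 4591) (nat_lit 656) (nat_lit 4623)))))) (.f (nat_lit 560) (nat_lit 592) (nat_lit 4559) (.f (nat_lit 464) (nat_lit 432) (nat_lit 6575) (.f (nat_lit 496) (nat_lit 591) (nat_lit 5583) (.f (nat_lit 465) (nat_lit 433) (nat_lit 6576) (.d (nat_lit 494) (nat_lit 466) (nat_lit 1486) (nat_lit 493) (nat_lit 2509))))))))))) (.a (.f (nat_lit 431) (nat_lit 560) (nat_lit 4527) (.f (nat_lit 558) (nat_lit 526) (nat_lit 5550) (.f (nat_lit 559) (nat_lit 590) (nat_lit 5582) (.d (nat_lit 432) (nat_lit 400) (nat_lit 6543) (nat_lit 464) (nat_lit 6575))))) (.f (nat_lit 431) (nat_lit 560) (nat_lit 4527) (.f (nat_lit 399) (nat_lit 496) (nat_lit 4495) (.d (nat_lit 398) (nat_lit 366) (nat_lit 7534) (nat_lit 430) (nat_lit 7566))))))))) (.a (.p (nat_lit 559) (.a (.p (nat_lit 494) (.a (.f (nat_lit 591) (nat_lit 462) (nat_lit 7630) (.d (nat_lit 496) (nat_lit 464) (nat_lit 6607) (nat_lit 623) (nat_lit 6639))) (.a (.f (nat_lit 591) (nat_lit 462) (nat_lit 7630) (.f (nat_lit 623) (nat_lit 526) (nat_lit 7662) (.d (nat_lit 624) (nat_lit 592) (nat_lit 4591) (nat_lit 656) (nat_lit 4623)))) (.f (nat_lit 529) (nat_lit 530) (nat_lit 3566) (.d (nat_lit 493) (nat_lit 492) (nat_lit 492) (nat_lit 526) (nat_lit 3565)))))) (.a (.p (nat_lit 463) (.a (.d (nat_lit 560) (nat_lit 431) (nat_lit 4527) (nat_lit 592) (nat_lit 4559)) (.f (nat_lit 464) (nat_lit 432) (nat_lit 6575) (.f (nat_lit 496) (nat_lit 591) (nat_lit 6607) (.f (nat_lit 462) (nat_lit 430) (nat_lit 7598) (.d (nat_lit 461) (nat_lit 460) (nat_lit 460) (nat_lit 497) (nat_lit 461))))))) (.a (.p (nat_lit 494) (.a (.f (nat_lit 591) (nat_lit 462) (nat_lit 7630) (.d (nat_lit 496) (nat_lit 464) (nat_lit 6607) (nat_lit 623) (nat_lit 6639))) (.f (nat_lit 529) (nat_lit 530) (nat_lit 3566) (.d (nat_lit 493) (nat_lit 492) (nat_lit 492) (nat_lit 526) (nat_lit 3565))))) (.a (.p (nat_lit 494) (.a (.f (nat_lit 591) (nat_lit 462) (nat_lit 7630) (.f (nat_lit 623) (nat_lit 526) (nat_lit 7662) (.d (nat_lit 624) (nat_lit 592) (nat_lit 4591) (nat_lit 656) (nat_lit 4623)))) (.a (.f (nat_lit 529) (nat_lit 530) (nat_lit 3566) (.d (nat_lit 493) (nat_lit 492) (nat_lit 492) (nat_lit 526) (nat_lit 3565))) (.f (nat_lit 591) (nat_lit 462) (nat_lit 7630) (.f (nat_lit 624) (nat_lit 592) (nat_lit 4591) (.f (nat_lit 623) (nat_lit 656) (nat_lit 4623) (.d (nat_lit 622) (nat_lit 590) (nat_lit 5614) (nat_lit 654) (nat_lit 5646)))))))) (.a s127322 (.p (nat_lit 463) (.a (.d (nat_lit 560) (nat_lit 431) (nat_lit 4527) (nat_lit 592) (nat_lit 4559)) (.a (.f (nat_lit 464) (nat_lit 432) (nat_lit 6575) (.f (nat_lit 591) (nat_lit 496) (nat_lit 6607) (.f (nat_lit 622) (nat_lit 590) (nat_lit 5614) (.f (nat_lit 623) (nat_lit 654) (nat_lit 5646) (.d (nat_lit 624) (nat_lit 592) (nat_lit 4591) (nat_lit 656) (nat_lit 4623)))))) (.f (nat_lit 431) (nat_lit 560) (nat_lit 4527) (.d (nat_lit 432) (nat_lit 400) (nat_lit 6543) (nat_lit 464) (nat_lit 6575)))))))))))) (.a (.p (nat_lit 559) (.a (.p (nat_lit 463) (.a (.d (nat_lit 560) (nat_lit 431) (nat_lit 4527) (nat_lit 592) (nat_lit 4559)) (.a (.f (nat_lit 558) (nat_lit 590) (nat_lit 5582) (.f (nat_lit 526) (nat_lit 431) (nat_lit 5550) (.d (nat_lit 529) (nat_lit 530) (nat_lit 1550) (nat_lit 557) (nat_lit 1549)))) (.f (nat_lit 560) (nat_lit 592) (nat_lit 4559) (.f (nat_lit 558) (nat_lit 590) (nat_lit 5582) (.d (nat_lit 529) (nat_lit 530) (nat_lit 1550) (nat_lit 557) (nat_lit 2573))))))) (.a (.p (nat_lit 494) (.a (.f (nat_lit 591) (nat_lit 462) (nat_lit 7630) (.d (nat_lit 496) (nat_lit 464) (nat_lit 6607) (nat_lit 623) (nat_lit 6639))) (.a (.f (nat_lit 591) (nat_lit 462) (nat_lit 7630) (.f (nat_lit 623) (nat_lit 526) (nat_lit 7662) (.d (nat_lit 624) (nat_lit 592) (nat_lit 4591) (nat_lit 656) (nat_lit 4623)))) (.f (nat_lit 529) (nat_lit 530) (nat_lit 3566) (.d (nat_lit 493) (nat_lit 492) (nat_lit 492) (nat_lit 526) (nat_lit 3565)))))) (.a (.p (nat_lit 494) (.a (.f (nat_lit 591) (nat_lit 462) (nat_lit 7630) (.d (nat_lit 496) (nat_lit 464) (nat_lit 6607) (nat_lit 623) (nat_lit 6639))) (.f (nat_lit 529) (nat_lit 530) (nat_lit 3566) (.d (nat_lit 493) (nat_lit 492) (nat_lit 492) (nat_lit 526) (nat_lit 3565))))) (.a s127273 (.p (nat_lit 494) (.a (.f (nat_lit 591) (nat_lit 462) (nat_lit 7630) (.d (nat_lit 496) (nat_lit 464) (nat_lit 6607) (nat_lit 623) (nat_lit 6639))) (.a (.f (nat_lit 591) (nat_lit 462) (nat_lit 7630) (.f (nat_lit 624) (nat_lit 592) (nat_lit 4591) (.f (nat_lit 623) (nat_lit 656) (nat_lit 4623) (.d (nat_lit 622) (nat_lit 590) (nat_lit 5614) (nat_lit 654) (nat_lit 5646))))) (.f (nat_lit 529) (nat_lit 530) (nat_lit 3566) (.d (nat_lit 493) (nat_lit 492) (nat_lit 492) (nat_lit 496) (nat_lit 493))))))))))) (.p (nat_lit 559) (.a (.p (nat_lit 494) (.a (.f (nat_lit 591) (nat_lit 462) (nat_lit 7630) (.d (nat_lit 496) (nat_lit 464) (nat_lit 6607) (nat_lit 623) (nat_lit 6639))) (.a (.f (nat_lit 591) (nat_lit 462) (nat_lit 7630) (.f (nat_lit 623) (nat_lit 526) (nat_lit 7662) (.d (nat_lit 624) (nat_lit 592) (nat_lit 4591) (nat_lit 656) (nat_lit 4623)))) (.f (nat_lit 529) (nat_lit 530) (nat_lit 3566) (.d (nat_lit 493) (nat_lit 492) (nat_lit 492) (nat_lit 526) (nat_lit 3565)))))) (.a (.p (nat_lit 463) (.a (.d (nat_lit 560) (nat_lit 431) (nat_lit 4527) (nat_lit 592) (nat_lit 4559)) (.f (nat_lit 464) (nat_lit 432) (nat_lit 6575) (.f (nat_lit 496) (nat_lit 591) (nat_lit 6607) (.f (nat_lit 462) (nat_lit 430) (nat_lit 7598) (.d (nat_lit 461) (nat_lit 460) (nat_lit 460) (nat_lit 497) (nat_lit 461))))))) (.a (.p (nat_lit 494) (.a (.f (nat_lit 591) (nat_lit 462) (nat_lit 7630) (.d (nat_lit 496) (nat_lit 464) (nat_lit 6607) (nat_lit 623) (nat_lit 6639))) (.f (nat_lit 529) (nat_lit 530) (nat_lit 3566) (.d (nat_lit 493) (nat_lit 492) (nat_lit 492) (nat_lit 526) (nat_lit 3565))))) (.a (.p (nat_lit 463) (.a (.d (nat_lit 560) (nat_lit 431) (nat_lit 4527) (nat_lit 592) (nat_lit 4559)) (.f (nat_lit 462) (nat_lit 430) (nat_lit 7598) (.f (nat_lit 494) (nat_lit 591) (nat_lit 7630) (.f (nat_lit 493) (nat_lit 492) (nat_lit 492) (.d (nat_lit 464) (nat_lit 432) (nat_lit 6575) (nat_lit 465) (nat_lit 1485))))))) (.a s127322 (.a (.p (nat_lit 463) (.a (.d (nat_lit 560) (nat_lit 431) (nat_lit 4527) (nat_lit 592) (nat_lit 4559)) (.f (nat_lit 462) (nat_lit 430) (nat_lit 7598) (.f (nat_lit 494) (nat_lit 591) (nat_lit 7630) (.f (nat_lit 493) (nat_lit 492) (nat_lit 492) (.d (nat_lit 529) (nat_lit 496) (nat_lit 493) (nat_lit 530) (nat_lit 3566))))))) (.p (nat_lit 463) (.a (.d (nat_lit 560) (nat_lit 431) (nat_lit 4527) (nat_lit 592) (nat_lit 4559)) (.a (.f (nat_lit 464) (nat_lit 432) (nat_lit 6575) (.f (nat_lit 496) (nat_lit 591) (nat_lit 6607) (.f (nat_lit 431) (nat_lit 399) (nat_lit 4495) (.f (nat_lit 526) (nat_lit 558) (nat_lit 5550) (.d (nat_lit 525) (nat_lit 497) (nat_lit 2541) (nat_lit 524) (nat_lit 2540)))))) (.f (nat_lit 560) (nat_lit 592) (nat_lit 4559) (.f (nat_lit 464) (nat_lit 432) (nat_lit 6575) (.f (nat_lit 496) (nat_lit 591) (nat_lit 5583) (.f (nat_lit 465) (nat_lit 433) (nat_lit 6576) (.d (nat_lit 494) (nat_lit 466) (nat_lit 1486) (nat_lit 493) (nat_lit 2509)))))))))))))))))))))))))))))) (.a (.p (nat_lit 494) (.a (.p (nat_lit 493) (.a (.f (nat_lit 492) (nat_lit 527) (nat_lit 492) (.f (nat_lit 496) (nat_lit 529) (nat_lit 493) (.d (nat_lit 464) (nat_lit 463) (nat_lit 2508) (nat_lit 465) (nat_lit 2509)))) (.a (.f (nat_lit 492) (nat_lit 527) (nat_lit 492) (.f (nat_lit 463) (nat_lit 464) (nat_lit 2508) (.f (nat_lit 491) (nat_lit 462) (nat_lit 2507) (.d (nat_lit 523) (nat_lit 522) (nat_lit 1514) (nat_lit 524) (nat_lit 1515))))) (.a (.f (nat_lit 527) (nat_lit 492) (nat_lit 492) (.d (nat_lit 529) (nat_lit 496) (nat_lit 493) (nat_lit 526) (nat_lit 3565))) (.a (.f (nat_lit 496) (nat_lit 529) (nat_lit 493) (.f (nat_lit 464) (nat_lit 465) (nat_lit 2509) (.f (nat_lit 463) (nat_lit 492) (nat_lit 2508) (.d (nat_lit 560) (nat_lit 431) (nat_lit 7599) (nat_lit 592) (nat_lit 7631))))) (.f (nat_lit 496) (nat_lit 529) (nat_lit 493) (.f (nat_lit 465) (nat_lit 464) (nat_lit 2509) (.f (nat_lit 497) (nat_lit 466) (nat_lit 2510) (.d (nat_lit 461) (nat_lit 460) (nat_lit 3532) (nat_lit 462) (nat_lit 3533)))))))))) (.a (.p (nat_lit 527) (.a (.p (nat_lit 463) (.a (.f (nat_lit 431) (nat_lit 560) (nat_lit 4527) (.d (nat_lit 399) (nat_lit 496) (nat_lit 4495) (nat_lit 526) (nat_lit 5518))) (.a (.p (nat_lit 559) (.a (.d (nat_lit 462) (nat_lit 430) (nat_lit 7598) (nat_lit 591) (nat_lit 7630)) (.a (.f (nat_lit 464) (nat_lit 432) (nat_lit 6575) (.f (nat_lit 496) (nat_lit 591) (nat_lit 6607) (.d (nat_lit 493) (nat_lit 465) (nat_lit 2509) (nat_lit 492) (nat_lit 492)))) (.f (nat_lit 464) (nat_lit 432) (nat_lit 6575) (.f (nat_lit 493) (nat_lit 492) (nat_lit 492) (.d (nat_lit 465) (nat_lit 466) (nat_lit 1486) (nat_lit 496) (nat_lit 2509))))))) (.f (nat_lit 431) (nat_lit 560) (nat_lit 4527) (.d (nat_lit 526) (nat_lit 399) (nat_lit 5518) (nat_lit 558) (nat_lit 5550)))))) (.a (.p (nat_lit 496) (.a (.f (nat_lit 493) (nat_lit 492) (nat_lit 492) (.f (nat_lit 464) (nat_lit 465) (nat_lit 2509) (.d (nat_lit 559) (nat_lit 432) (nat_lit 5551) (nat_lit 591) (nat_lit 6607)))) (.a (.p (nat_lit 497) (.a (.d (nat_lit 498) (nat_lit 499) (nat_lit 1519) (nat_lit 526) (nat_lit 1518)) (.f (nat_lit 465) (nat_lit 466) (nat_lit 2510) (.f (nat_lit 560) (nat_lit 592) (nat_lit 6608) (.d (nat_lit 433) (nat_lit 401) (nat_lit 5520) (nat_lit 464) (nat_lit 6576)))))) (.f (nat_lit 493) (nat_lit 492) (nat_lit 492) (.f (nat_lit 461) (nat_lit 460) (nat_lit 3532) (.f (nat_lit 497) (nat_lit 462) (nat_lit 3533) (.d (nat_lit 498) (nat_lit 499) (nat_lit 1519) (nat_lit 526) (nat_lit 1518)))))))) (.a (.p (nat_lit 496) (.a (.f (nat_lit 493) (nat_lit 492) (nat_lit 492) (.f (nat_lit 464) (nat_lit 465) (nat_lit 2509) (.d (nat_lit 559) (nat_lit 432) (nat_lit 5551) (nat_lit 591) (nat_lit 6607)))) (.a (.p (nat_lit 497) (.a (.d (nat_lit 498) (nat_lit 499) (nat_lit 1519) (nat_lit 526) (nat_lit 1518)) (.f (nat_lit 462) (nat_lit 461) (nat_lit 3533) (.f (nat_lit 559) (nat_lit 591) (nat_lit 7630) (.d (nat_lit 430) (nat_lit 398) (nat_lit 4494) (nat_lit 463) (nat_lit 7598)))))) (.f (nat_lit 493) (nat_lit 492) (nat_lit 492) (.f (nat_lit 461) (nat_lit 460) (nat_lit 3532) (.f (nat_lit 497) (nat_lit 462) (nat_lit 3533) (.d (nat_lit 498) (nat_lit 499) (nat_lit 1519) (nat_lit 526) (nat_lit 1518)))))))) (.a s126316 (.a s126329 (.a s126342 (.a (.p (nat_lit 496) (.a (.p (nat_lit 497) (.a (.d (nat_lit 498) (nat_lit 499) (nat_lit 1519) (nat_lit 526) (nat_lit 1518)) (.f (nat_lit 465) (nat_lit 466) (nat_lit 2510) (.f (nat_lit 560) (nat_lit 592) (nat_lit 6608) (.d (nat_lit 433) (nat_lit 401) (nat_lit 5520) (nat_lit 464) (nat_lit 6576)))))) (.a (.f (nat_lit 493) (nat_lit 492) (nat_lit 492) (.f (nat_lit 461) (nat_lit 460) (nat_lit 3532) (.f (nat_lit 497) (nat_lit 462) (nat_lit 3533) (.d (nat_lit 498) (nat_lit 499) (nat_lit 1519) (nat_lit 526) (nat_lit 1518))))) (.f (nat_lit 493) (nat_lit 492) (nat_lit 492) (.f (nat_lit 464) (nat_lit 465) (nat_lit 2509) (.f (nat_lit 432) (nat_lit 400) (nat_lit 5519) (.f (nat_lit 431) (nat_lit 399) (nat_lit 7567) (.f (nat_lit 463) (nat_lit 560) (nat_lit 4527) (.f (nat_lit 461) (nat_lit 460) (nat_lit 3532) (.d (nat_lit 433) (nat_lit 401) (nat_lit 6544) (nat_lit 462) (nat_lit 2477))))))))))) (.a (.p (nat_lit 463) (.a (.f (nat_lit 431) (nat_lit 560) (nat_lit 4527) (.d (nat_lit 399) (nat_lit 496) (nat_lit 4495) (nat_lit 526) (nat_lit 5518))) (.a (.p (nat_lit 559) (.a (.f (nat_lit 464) (nat_lit 432) (nat_lit 6575) (.f (nat_lit 496) (nat_lit 591) (nat_lit 6607) (.d (nat_lit 493) (nat_lit 465) (nat_lit 2509) (nat_lit 492) (nat_lit 492)))) (.a (.f (nat_lit 590) (nat_lit 558) (nat_lit 5582) (.f (nat_lit 591) (nat_lit 622) (nat_lit 5614) (.d (nat_lit 592) (nat_lit 560) (nat_lit 4559) (nat_lit 624) (nat_lit 4591)))) (.f (nat_lit 464) (nat_lit 432) (nat_lit 6575) (.f (nat_lit 493) (nat_lit 492) (nat_lit 492) (.d (nat_lit 465) (nat_lit 466) (nat_lit 1486) (nat_lit 496) (nat_lit 2509))))))) (.a (.p (nat_lit 559) (.a (.f (nat_lit 464) (nat_lit 432) (nat_lit 6575) (.f (nat_lit 496) (nat_lit 591) (nat_lit 6607) (.d (nat_lit 493) (nat_lit 465) (nat_lit 2509) (nat_lit 492) (nat_lit 492)))) (.a (.f (nat_lit 558) (nat_lit 590) (nat_lit 5582) (.f (nat_lit 431) (nat_lit 526) (nat_lit 5550) (.f (nat_lit 399) (nat_lit 496) (nat_lit 4495) (.d (nat_lit 400) (nat_lit 368) (nat_lit 6511) (nat_lit 432) (nat_lit 6543))))) (.a (.f (nat_lit 558) (nat_lit 590) (nat_lit 5582) (.f (nat_lit 431) (nat_lit 526) (nat_lit 5550) (.d (nat_lit 432) (nat_lit 400) (nat_lit 6543) (nat_lit 464) (nat_lit 6575)))) (.f (nat_lit 558) (nat_lit 590) (nat_lit 5582) (.f (nat_lit 431) (nat_lit 526) (nat_lit 5550) (.f (nat_lit 496) (nat_lit 399) (nat_lit 4495) (.d (nat_lit 591) (nat_lit 464) (nat_lit 6607) (nat_lit 623) (nat_lit 6639))))))))) (.f (nat_lit 431) (nat_lit 560) (nat_lit 4527) (.d (nat_lit 526) (nat_lit 399) (nat_lit 5518) (nat_lit 558) (nat_lit 5550))))))) (.a (.p (nat_lit 463) (.a (.p (nat_lit 559) (.a (.d (nat_lit 462) (nat_lit 430) (nat_lit 7598) (nat_lit 591) (nat_lit 7630)) (.a (.f (nat_lit 464) (nat_lit 432) (nat_lit 6575) (.f (nat_lit 496) (nat_lit 591) (nat_lit 6607) (.d (nat_lit 493) (nat_lit 465) (nat_lit 2509) (nat_lit 492) (nat_lit 492)))) (.f (nat_lit 464) (nat_lit 432) (nat_lit 6575) (.f (nat_lit 493) (nat_lit 492) (nat_lit 492) (.d (nat_lit 465) (nat_lit 466) (nat_lit 1486) (nat_lit 496) (nat_lit 2509))))))) (.a (.p (nat_lit 559) (.a (.d (nat_lit 462) (nat_lit 430) (nat_lit 7598) (nat_lit 591) (nat_lit 7630)) (.a (.f (nat_lit 464) (nat_lit 432) (nat_lit 6575) (.f (nat_lit 591) (nat_lit 496) (nat_lit 6607) (.d (nat_lit 592) (nat_lit 560) (nat_lit 4559) (nat_lit 624) (nat_lit 4591)))) (.f (nat_lit 462) (nat_lit 430) (nat_lit 7598) (.f (nat_lit 464) (nat_lit 432) (nat_lit 6575) (.f (nat_lit 465) (nat_lit 466) (nat_lit 1486) (.f (nat_lit 497) (nat_lit 498) (nat_lit 462) (.f (nat_lit 496) (nat_lit 461) (nat_lit 461) (.d (nat_lit 433) (nat_lit 401) (nat_lit 5520) (nat_lit 434) (nat_lit 2478)))))))))) (.a (.f (nat_lit 431) (nat_lit 560) (nat_lit 4527) (.f (nat_lit 399) (nat_lit 496) (nat_lit 4495) (.d (nat_lit 400) (nat_lit 368) (nat_lit 6511) (nat_lit 432) (nat_lit 6543)))) (.a (.p (nat_lit 559) (.a (.d (nat_lit 462) (nat_lit 430) (nat_lit 7598) (nat_lit 591) (nat_lit 7630)) (.a (.f (nat_lit 590) (nat_lit 558) (nat_lit 5582) (.f (nat_lit 591) (nat_lit 622) (nat_lit 5614) (.d (nat_lit 592) (nat_lit 560) (nat_lit 4559) (nat_lit 624) (nat_lit 4591)))) (.f (nat_lit 462) (nat_lit 430) (nat_lit 7598) (.f (nat_lit 464) (nat_lit 432) (nat_lit 6575) (.d (nat_lit 493) (nat_lit 465) (nat_lit 1485) (nat_lit 492) (nat_lit 492))))))) (.f (nat_lit 431) (nat_lit 560) (nat_lit 4527) (.f (nat_lit 399) (nat_lit 496) (nat_lit 4495) (.d (nat_lit 398) (nat_lit 366) (nat_lit 7534) (nat_lit 430) (nat_lit 7566))))))))) (.p (nat_lit 463) (.a (.f (nat_lit 431) (nat_lit 560) (nat_lit 4527) (.d (nat_lit 399) (nat_lit 496) (nat_lit 4495) (nat_lit 526) (nat_lit 5518))) (.a (.p (nat_lit 559) (.a (.d (nat_lit 462) (nat_lit 430) (nat_lit 7598) (nat_lit 591) (nat_lit 7630)) (.a (.f (nat_lit 590) (nat_lit 558) (nat_lit 5582) (.f (nat_lit 591) (nat_lit 622) (nat_lit 5614) (.d (nat_lit 592) (nat_lit 560) (nat_lit 4559) (nat_lit 624) (nat_lit 4591)))) (.f (nat_lit 462) (nat_lit 430) (nat_lit 7598) (.f (nat_lit 558) (nat_lit 590) (nat_lit 5582) (.f (nat_lit 560) (nat_lit 592) (nat_lit 4559) (.f (nat_lit 557) (nat_lit 556) (nat_lit 2572) (.d (nat_lit 589) (nat_lit 526) (nat_lit 5581) (nat_lit 588) (nat_lit 1580))))))))) (.a (.p (nat_lit 496) (.a (.f (nat_lit 493) (nat_lit 492) (nat_lit 492) (.f (nat_lit 461) (nat_lit 460) (nat_lit 3532) (.f (nat_lit 462) (nat_lit 497) (nat_lit 3533) (.d (nat_lit 559) (nat_lit 430) (nat_lit 7598) (nat_lit 591) (nat_lit 7630))))) (.a (.f (nat_lit 431) (nat_lit 399) (nat_lit 4495) (.f (nat_lit 526) (nat_lit 558) (nat_lit 5550) (.f (nat_lit 497) (nat_lit 498) (nat_lit 1518) (.f (nat_lit 462) (nat_lit 461) (nat_lit 3533) (.d (nat_lit 430) (nat_lit 398) (nat_lit 7566) (nat_lit 559) (nat_lit 4526)))))) (.a (.f (nat_lit 431) (nat_lit 399) (nat_lit 4495) (.f (nat_lit 493) (nat_lit 492) (nat_lit 492) (.f (nat_lit 526) (nat_lit 558) (nat_lit 5550) (.f (nat_lit 497) (nat_lit 498) (nat_lit 1518) (.d (nat_lit 465) (nat_lit 464) (nat_lit 2509) (nat_lit 466) (nat_lit 2510)))))) (.f (nat_lit 493) (nat_lit 492) (nat_lit 492) (.f (nat_lit 431) (nat_lit 399) (nat_lit 4495) (.f (nat_lit 464) (nat_lit 465) (nat_lit 2509) (.f (nat_lit 559) (nat_lit 591) (nat_lit 6607) (.d (nat_lit 430) (nat_lit 398) (nat_lit 7566) (nat_lit 462) (nat_lit 7598)))))))))) (.f (nat_lit 431) (nat_lit 560) (nat_lit 4527) (.f (nat_lit 399) (nat_lit 496) (nat_lit 4495) (.d (nat_lit 398) (nat_lit 366) (nat_lit 7534) (nat_lit 430) (nat_lit 7566)))))))))))))))))) (.a (.p (nat_lit 493) (.a (.f (nat_lit 527) (nat_lit 492) (nat_lit 492) (.d (nat_lit 529) (nat_lit 496) (nat_lit 493) (nat_lit 526) (nat_lit 3565))) (.a (.f (nat_lit 492) (nat_lit 527) (nat_lit 492) (.f (nat_lit 460) (nat_lit 459) (nat_lit 3531) (.f (nat_lit 461) (nat_lit 496) (nat_lit 3532) (.f (nat_lit 524) (nat_lit 523) (nat_lit 1515) (.d (nat_lit 429) (nat_lit 397) (nat_lit 5516) (nat_lit 556) (nat_lit 6572)))))) (.a (.f (nat_lit 496) (nat_lit 529) (nat_lit 493) (.f (nat_lit 465) (nat_lit 464) (nat_lit 2509) (.f (nat_lit 497) (nat_lit 466) (nat_lit 2510) (.d (nat_lit 461) (nat_lit 460) (nat_lit 3532) (nat_lit 462) (nat_lit 3533))))) (.f (nat_lit 527) (nat_lit 492) (nat_lit 492) (.d (nat_lit 529) (nat_lit 526) (nat_lit 3565) (nat_lit 530) (nat_lit 3566))))))) (.a (.p (nat_lit 496) (.a (.f (nat_lit 493) (nat_lit 529) (nat_lit 493) (.f (nat_lit 464) (nat_lit 465) (nat_lit 2509) (.f (nat_lit 463) (nat_lit 492) (nat_lit 2508) (.d (nat_lit 560) (nat_lit 431) (nat_lit 7599) (nat_lit 592) (nat_lit 7631))))) (.a (.p (nat_lit 497) (.a (.f (nat_lit 465) (nat_lit 466) (nat_lit 2510) (.f (nat_lit 464) (nat_lit 493) (nat_lit 2509) (.d (nat_lit 560) (nat_lit 433) (nat_lit 6576) (nat_lit 592) (nat_lit 6608)))) (.a (.f (nat_lit 465) (nat_lit 466) (nat_lit 2510) (.f (nat_lit 464) (nat_lit 493) (nat_lit 2509) (.f (nat_lit 462) (nat_lit 461) (nat_lit 3533) (.f (nat_lit 463) (nat_lit 498) (nat_lit 462) (.d (nat_lit 433) (nat_lit 401) (nat_lit 5520) (nat_lit 434) (nat_lit 2478)))))) (.a (.f (nat_lit 462) (nat_lit 461) (nat_lit 3533) (.f (nat_lit 463) (nat_lit 498) (nat_lit 3534) (.f (nat_lit 431) (nat_lit 399) (nat_lit 4495) (.d (nat_lit 560) (nat_lit 464) (nat_lit 7599) (nat_lit 592) (nat_lit 7631))))) (.f (nat_lit 462) (nat_lit 461) (nat_lit 3533) (.f (nat_lit 498) (nat_lit 463) (nat_lit 3534) (.d (nat_lit 466) (nat_lit 465) (nat_lit 2510) (nat_lit 467) (nat_lit 2511)))))))) (.a (.f (nat_lit 493) (nat_lit 529) (nat_lit 493) (.f (nat_lit 465) (nat_lit 464) (nat_lit 2509) (.f (nat_lit 497) (nat_lit 466) (nat_lit 2510) (.d (nat_lit 461) (nat_lit 460) (nat_lit 3532) (nat_lit 462) (nat_lit 3533))))) (.a (.p (nat_lit 497) (.a (.f (nat_lit 462) (nat_lit 461) (nat_lit 3533) (.f (nat_lit 463) (nat_lit 498) (nat_lit 3534) (.f (nat_lit 431) (nat_lit 399) (nat_lit 4495) (.d (nat_lit 560) (nat_lit 464) (nat_lit 7599) (nat_lit 592) (nat_lit 7631))))) (.a (.f (nat_lit 465) (nat_lit 466) (nat_lit 2510) (.f (nat_lit 433) (nat_lit 401) (nat_lit 5520) (.d (nat_lit 560) (nat_lit 464) (nat_lit 6576) (nat_lit 592) (nat_lit 6608)))) (.f (nat_lit 462) (nat_lit 461) (nat_lit 3533) (.f (nat_lit 498) (nat_lit 463) (nat_lit 3534) (.d (nat_lit 466) (nat_lit 465) (nat_lit 2510) (nat_lit 467) (nat_lit 2511))))))) (.f (nat_lit 529) (nat_lit 493) (nat_lit 493) (.d (nat_lit 530) (nat_lit 497) (nat_lit 494) (nat_lit 531) (nat_lit 3567)))))))) (.a (.p (nat_lit 527) (.a s126316 (.a (.p (nat_lit 497) (.a (.f (nat_lit 529) (nat_lit 530) (nat_lit 3566) (.f (nat_lit 498) (nat_lit 526) (nat_lit 2542) (.d (nat_lit 499) (nat_lit 496) (nat_lit 1519) (nat_lit 500) (nat_lit 1520)))) (.a (.p (nat_lit 496) (.a (.d (nat_lit 498) (nat_lit 499) (nat_lit 1519) (nat_lit 526) (nat_lit 1518)) (.f (nat_lit 465) (nat_lit 466) (nat_lit 2510) (.f (nat_lit 560) (nat_lit 592) (nat_lit 6608) (.d (nat_lit 433) (nat_lit 401) (nat_lit 5520) (nat_lit 464) (nat_lit 6576)))))) (.a (.f (nat_lit 529) (nat_lit 530) (nat_lit 3566) (.f (nat_lit 526) (nat_lit 498) (nat_lit 2542) (.f (nat_lit 558) (nat_lit 557) (nat_lit 1549) (.f (nat_lit 590) (nat_lit 622) (nat_lit 6638) (.f (nat_lit 591) (nat_lit 623) (nat_lit 4590) (.f (nat_lit 462) (nat_lit 559) (nat_lit 4558) (.f (nat_lit 430) (nat_lit 398) (nat_lit 4494) (.d (nat_lit 429) (nat_lit 397) (nat_lit 7565) (nat_lit 461) (nat_lit 7597))))))))) (.a (.p (nat_lit 496) (.a (.f (nat_lit 465) (nat_lit 466) (nat_lit 2510) (.f (nat_lit 560) (nat_lit 592) (nat_lit 6608) (.d (nat_lit 433) (nat_lit 401) (nat_lit 5520) (nat_lit 464) (nat_lit 6576)))) (.f (nat_lit 462) (nat_lit 461) (nat_lit 3533) (.f (nat_lit 559) (nat_lit 591) (nat_lit 7630) (.d (nat_lit 430) (nat_lit 398) (nat_lit 4494) (nat_lit 526) (nat_lit 4526)))))) (.p (nat_lit 496) (.a (.f (nat_lit 465) (nat_lit 466) (nat_lit 2510) (.f (nat_lit 560) (nat_lit 592) (nat_lit 6608) (.d (nat_lit 433) (nat_lit 401) (nat_lit 5520) (nat_lit 464) (nat_lit 6576)))) (.f (nat_lit 530) (nat_lit 529) (nat_lit 3566) (.d (nat_lit 498) (nat_lit 499) (nat_lit 1519) (nat_lit 531) (nat_lit 495)))))))))) (.a (.p (nat_lit 497) (.a (.f (nat_lit 529) (nat_lit 530) (nat_lit 3566) (.f (nat_lit 498) (nat_lit 526) (nat_lit 2542) (.d (nat_lit 499) (nat_lit 496) (nat_lit 1519) (nat_lit 500) (nat_lit 1520)))) (.a (.p (nat_lit 496) (.a (.d (nat_lit 498) (nat_lit 499) (nat_lit 1519) (nat_lit 526) (nat_lit 1518)) (.f (nat_lit 462) (nat_lit 461) (nat_lit 3533) (.f (nat_lit 559) (nat_lit 591) (nat_lit 7630) (.d (nat_lit 430) (nat_lit 398) (nat_lit 4494) (nat_lit 463) (nat_lit 7598)))))) (.a (.f (nat_lit 529) (nat_lit 530) (nat_lit 3566) (.f (nat_lit 526) (nat_lit 498) (nat_lit 2542) (.f (nat_lit 558) (nat_lit 557) (nat_lit 1549) (.f (nat_lit 590) (nat_lit 622) (nat_lit 6638) (.f (nat_lit 591) (nat_lit 623) (nat_lit 4590) (.f (nat_lit 462) (nat_lit 559) (nat_lit 4558) (.f (nat_lit 430) (nat_lit 398) (nat_lit 4494) (.d (nat_lit 429) (nat_lit 397) (nat_lit 7565) (nat_lit 461) (nat_lit 7597))))))))) (.a (.p (nat_lit 496) (.a (.f (nat_lit 462) (nat_lit 461) (nat_lit 3533) (.f (nat_lit 559) (nat_lit 591) (nat_lit 7630) (.d (nat_lit 430) (nat_lit 398) (nat_lit 4494) (nat_lit 463) (nat_lit 7598)))) (.a (.f (nat_lit 462) (nat_lit 461) (nat_lit 3533) (.f (nat_lit 559) (nat_lit 591) (nat_lit 7630) (.d (nat_lit 430) (nat_lit 398) (nat_lit 4494) (nat_lit 526) (nat_lit 4526)))) (.a (.f (nat_lit 529) (nat_lit 530) (nat_lit 3566) (.f (nat_lit 465) (nat_lit 466) (nat_lit 2510) (.f (nat_lit 433) (nat_lit 401) (nat_lit 5520) (.f (nat_lit 432) (nat_lit 400) (nat_lit 7568) (.f (nat_lit 559) (nat_lit 464) (nat_lit 5551) (.f (nat_lit 591) (nat_lit 623) (nat_lit 6639) (.f (nat_lit 590) (nat_lit 622) (nat_lit 5614) (.f (nat_lit 558) (nat_lit 463) (nat_lit 5582) (.d (nat_lit 557) (nat_lit 526) (nat_lit 1549) (nat_lit 556) (nat_lit 2572)))))))))) (.f (nat_lit 529) (nat_lit 530) (nat_lit 3566) (.f (nat_lit 465) (nat_lit 466) (nat_lit 2510) (.f (nat_lit 433) (nat_lit 401) (nat_lit 5520) (.f (nat_lit 432) (nat_lit 400) (nat_lit 7568) (.f (nat_lit 462) (nat_lit 461) (nat_lit 3533) (.f (nat_lit 434) (nat_lit 402) (nat_lit 6545) (.d (nat_lit 463) (nat_lit 431) (nat_lit 1454) (nat_lit 464) (nat_lit 2478)))))))))))) (.p (nat_lit 496) (.a (.f (nat_lit 462) (nat_lit 461) (nat_lit 3533) (.f (nat_lit 559) (nat_lit 591) (nat_lit 7630) (.d (nat_lit 430) (nat_lit 398) (nat_lit 4494) (nat_lit 463) (nat_lit 7598)))) (.f (nat_lit 530) (nat_lit 529) (nat_lit 3566) (.d (nat_lit 498) (nat_lit 499) (nat_lit 1519) (nat_lit 531) (nat_lit 495)))))))))) (.a s126441 (.a s126342 (.a (.p (nat_lit 497) (.a (.f (nat_lit 529) (nat_lit 530) (nat_lit 3566) (.f (nat_lit 498) (nat_lit 526) (nat_lit 2542) (.d (nat_lit 499) (nat_lit 496) (nat_lit 1519) (nat_lit 500) (nat_lit 1520)))) (.a (.p (nat_lit 496) (.a (.d (nat_lit 498) (nat_lit 499) (nat_lit 1519) (nat_lit 526) (nat_lit 1518)) (.f (nat_lit 465) (nat_lit 466) (nat_lit 2510) (.f (nat_lit 560) (nat_lit 592) (nat_lit 6608) (.d (nat_lit 433) (nat_lit 401) (nat_lit 5520) (nat_lit 464) (nat_lit 6576)))))) (.a (.f (nat_lit 529) (nat_lit 530) (nat_lit 3566) (.f (nat_lit 526) (nat_lit 498) (nat_lit 2542) (.f (nat_lit 558) (nat_lit 557) (nat_lit 1549) (.d (nat_lit 463) (nat_lit 431) (nat_lit 5550) (nat_lit 590) (nat_lit 6606))))) (.a (.p (nat_lit 465) (.a (.f (nat_lit 496) (nat_lit 466) (nat_lit 2510) (.f (nat_lit 529) (nat_lit 530) (nat_lit 3566) (.d (nat_lit 560) (nat_lit 433) (nat_lit 5552) (nat_lit 592) (nat_lit 6608)))) (.a (.f (nat_lit 496) (nat_lit 466) (nat_lit 2510) (.f (nat_lit 560) (nat_lit 592) (nat_lit 6608) (.d (nat_lit 433) (nat_lit 401) (nat_lit 5520) (nat_lit 464) (nat_lit 6576)))) (.a (.f (nat_lit 529) (nat_lit 530) (nat_lit 3566) (.f (nat_lit 433) (nat_lit 560) (nat_lit 5552) (.f (nat_lit 400) (nat_lit 432) (nat_lit 7568) (.f (nat_lit 401) (nat_lit 368) (nat_lit 7536) (.d (nat_lit 402) (nat_lit 370) (nat_lit 6513) (nat_lit 434) (nat_lit 6545)))))) (.a (.f (nat_lit 496) (nat_lit 466) (nat_lit 2510) (.f (nat_lit 529) (nat_lit 530) (nat_lit 3566) (.f (nat_lit 433) (nat_lit 401) (nat_lit 5520) (.f (nat_lit 432) (nat_lit 400) (nat_lit 7568) (.f (nat_lit 462) (nat_lit 461) (nat_lit 3533) (.f (nat_lit 434) (nat_lit 402) (nat_lit 6545) (.d (nat_lit 463) (nat_lit 431) (nat_lit 1454) (nat_lit 464) (nat_lit 2478)))))))) (.f (nat_lit 496) (nat_lit 466) (nat_lit 2510) (.f (nat_lit 529) (nat_lit 530) (nat_lit 494) (.f (nat_lit 560) (nat_lit 592) (nat_lit 6608) (.f (nat_lit 463) (nat_lit 431) (nat_lit 4527) (.f (nat_lit 462) (nat_lit 461) (nat_lit 3533) (.f (nat_lit 430) (nat_lit 398) (nat_lit 4494) (.f (nat_lit 429) (nat_lit 464) (nat_lit 3501) (.f (nat_lit 526) (nat_lit 397) (nat_lit 7565) (.d (nat_lit 558) (nat_lit 557) (nat_lit 1549) (nat_lit 590) (nat_lit 6606))))))))))))))) (.p (nat_lit 496) (.a (.f (nat_lit 465) (nat_lit 466) (nat_lit 2510) (.f (nat_lit 560) (nat_lit 592) (nat_lit 6608) (.d (nat_lit 433) (nat_lit 401) (nat_lit 5520) (nat_lit 464) (nat_lit 6576)))) (.f (nat_lit 530) (nat_lit 529) (nat_lit 3566) (.d (nat_lit 498) (nat_lit 499) (nat_lit 1519) (nat_lit 531) (nat_lit 495)))))))))) (.a (.p (nat_lit 463) (.a (.f (nat_lit 431) (nat_lit 560) (nat_lit 4527) (.d (nat_lit 399) (nat_lit 496) (nat_lit 4495) (nat_lit 526) (nat_lit 5518))) (.a (.p (nat_lit 559) (.a (.f (nat_lit 464) (nat_lit 432) (nat_lit 6575) (.f (nat_lit 591) (nat_lit 496) (nat_lit 6607) (.d (nat_lit 592) (nat_lit 560) (nat_lit 4559) (nat_lit 624) (nat_lit 4591)))) (.a (.f (nat_lit 464) (nat_lit 432) (nat_lit 6575) (.f (nat_lit 591) (nat_lit 496) (nat_lit 6607) (.d (nat_lit 590) (nat_lit 558) (nat_lit 5582) (nat_lit 622) (nat_lit 5614)))) (.a (.f (nat_lit 590) (nat_lit 558) (nat_lit 5582) (.f (nat_lit 591) (nat_lit 622) (nat_lit 5614) (.d (nat_lit 592) (nat_lit 560) (nat_lit 4559) (nat_lit 624) (nat_lit 4591)))) (.f (nat_lit 558) (nat_lit 590) (nat_lit 5582) (.f (nat_lit 529) (nat_lit 530) (nat_lit 3566) (.d (nat_lit 557) (nat_lit 526) (nat_lit 1549) (nat_lit 560) (nat_lit 2573)))))))) (.a (.p (nat_lit 559) (.a (.f (nat_lit 464) (nat_lit 432) (nat_lit 6575) (.f (nat_lit 591) (nat_lit 496) (nat_lit 6607) (.d (nat_lit 590) (nat_lit 558) (nat_lit 5582) (nat_lit 622) (nat_lit 5614)))) (.a (.f (nat_lit 558) (nat_lit 590) (nat_lit 5582) (.f (nat_lit 431) (nat_lit 526) (nat_lit 5550) (.f (nat_lit 399) (nat_lit 496) (nat_lit 4495) (.d (nat_lit 400) (nat_lit 368) (nat_lit 6511) (nat_lit 432) (nat_lit 6543))))) (.a (.f (nat_lit 558) (nat_lit 590) (nat_lit 5582) (.f (nat_lit 431) (nat_lit 526) (nat_lit 5550) (.d (nat_lit 432) (nat_lit 400) (nat_lit 6543) (nat_lit 464) (nat_lit 6575)))) (.a (.f (nat_lit 464) (nat_lit 432) (nat_lit 6575) (.f (nat_lit 591) (nat_lit 496) (nat_lit 6607) (.f (nat_lit 623) (nat_lit 526) (nat_lit 7662) (.d (nat_lit 622) (nat_lit 590) (nat_lit 5614) (nat_lit 654) (nat_lit 5646))))) (.a (.f (nat_lit 558) (nat_lit 590) (nat_lit 5582) (.f (nat_lit 431) (nat_lit 526) (nat_lit 5550) (.f (nat_lit 496) (nat_lit 399) (nat_lit 4495) (.d (nat_lit 591) (nat_lit 464) (nat_lit 6607) (nat_lit 623) (nat_lit 6639))))) (.f (nat_lit 464) (nat_lit 432) (nat_lit 6575) (.f (nat_lit 591) (nat_lit 496) (nat_lit 6607) (.f (nat_lit 623) (nat_lit 526) (nat_lit 7662) (.d (nat_lit 624) (nat_lit 592) (nat_lit 4591) (nat_lit 656) (nat_lit 4623))))))))))) (.a (.f (nat_lit 431) (nat_lit 560) (nat_lit 4527) (.d (nat_lit 526) (nat_lit 399) (nat_lit 5518) (nat_lit 558) (nat_lit 5550))) (.f (nat_lit 431) (nat_lit 560) (nat_lit 4527) (.f (nat_lit 399) (nat_lit 496) (nat_lit 4495) (.d (nat_lit 400) (nat_lit 368) (nat_lit 6511) (nat_lit 432) (nat_lit 6543))))))))) (.a (.p (nat_lit 463) (.a (.p (nat_lit 559) (.a (.d (nat_lit 462) (nat_lit 430) (nat_lit 7598) (nat_lit 591) (nat_lit 7630)) (.a (.f (nat_lit 464) (nat_lit 432) (nat_lit 6575) (.f (nat_lit 591) (nat_lit 496) (nat_lit 6607) (.d (nat_lit 592) (nat_lit 560) (nat_lit 4559) (nat_lit 624) (nat_lit 4591)))) (.f (nat_lit 462) (nat_lit 430) (nat_lit 7598) (.f (nat_lit 464) (nat_lit 432) (nat_lit 6575) (.f (nat_lit 465) (nat_lit 466) (nat_lit 1486) (.f (nat_lit 497) (nat_lit 498) (nat_lit 462) (.f (nat_lit 496) (nat_lit 461) (nat_lit 461) (.d (nat_lit 433) (nat_lit 401) (nat_lit 5520) (nat_lit 434) (nat_lit 2478)))))))))) (.a (.p (nat_lit 559) (.a (.d (nat_lit 462) (nat_lit 430) (nat_lit 7598) (nat_lit 591) (nat_lit 7630)) (.a (.f (nat_lit 464) (nat_lit 432) (nat_lit 6575) (.f (nat_lit 591) (nat_lit 496) (nat_lit 6607) (.d (nat_lit 590) (nat_lit 558) (nat_lit 5582) (nat_lit 622) (nat_lit 5614)))) (.f (nat_lit 462) (nat_lit 430) (nat_lit 7598) (.f (nat_lit 464) (nat_lit 432) (nat_lit 6575) (.f (nat_lit 465) (nat_lit 466) (nat_lit 1486) (.f (nat_lit 497) (nat_lit 498) (nat_lit 462) (.f (nat_lit 496) (nat_lit 461) (nat_lit 461) (.d (nat_lit 433) (nat_lit 401) (nat_lit 5520) (nat_lit 434) (nat_lit 2478)))))))))) (.a (.f (nat_lit 431) (nat_lit 560) (nat_lit 4527) (.f (nat_lit 430) (nat_lit 398) (nat_lit 7566) (.f (nat_lit 432) (nat_lit 400) (nat_lit 6543) (.d (nat_lit 559) (nat_lit 462) (nat_lit 7598) (nat_lit 464) (nat_lit 6575))))) (.a (.f (nat_lit 431) (nat_lit 560) (nat_lit 4527) (.f (nat_lit 399) (nat_lit 496) (nat_lit 4495) (.d (nat_lit 400) (nat_lit 368) (nat_lit 6511) (nat_lit 432) (nat_lit 6543)))) (.f (nat_lit 431) (nat_lit 560) (nat_lit 4527) (.f (nat_lit 399) (nat_lit 496) (nat_lit 4495) (.d (nat_lit 398) (nat_lit 366) (nat_lit 7534) (nat_lit 430) (nat_lit 7566))))))))) (.a (.p (nat_lit 463) (.a (.f (nat_lit 431) (nat_lit 560) (nat_lit 4527) (.d (nat_lit 399) (nat_lit 496) (nat_lit 4495) (nat_lit 526) (nat_lit 5518))) (.a (.p (nat_lit 559) (.a (.d (nat_lit 462) (nat_lit 430) (nat_lit 7598) (nat_lit 591) (nat_lit 7630)) (.a (.f (nat_lit 464) (nat_lit 432) (nat_lit 6575) (.f (nat_lit 591) (nat_lit 496) (nat_lit 6607) (.d (nat_lit 592) (nat_lit 560) (nat_lit 4559) (nat_lit 624) (nat_lit 4591)))) (.f (nat_lit 462) (nat_lit 430) (nat_lit 7598) (.f (nat_lit 464) (nat_lit 432) (nat_lit 6575) (.f (nat_lit 465) (nat_lit 466) (nat_lit 1486) (.f (nat_lit 497) (nat_lit 498) (nat_lit 462) (.f (nat_lit 496) (nat_lit 461) (nat_lit 461) (.d (nat_lit 433) (nat_lit 401) (nat_lit 5520) (nat_lit 434) (nat_lit 2478)))))))))) (.a s126483 (.f (nat_lit 431) (nat_lit 560) (nat_lit 4527) (.f (nat_lit 399) (nat_lit 526) (nat_lit 5518) (.d (nat_lit 400) (nat_lit 368) (nat_lit 6511) (nat_lit 432) (nat_lit 6543)))))))) (.p (nat_lit 463) (.a (.f (nat_lit 431) (nat_lit 560) (nat_lit 4527) (.d (nat_lit 399) (nat_lit 496) (nat_lit 4495) (nat_lit 526) (nat_lit 5518))) (.a (.p (nat_lit 559) (.a (.d (nat_lit 462) (nat_lit 430) (nat_lit 7598) (nat_lit 591) (nat_lit 7630)) (.a (.f (nat_lit 464) (nat_lit 432) (nat_lit 6575) (.f (nat_lit 591) (nat_lit 496) (nat_lit 6607) (.d (nat_lit 592) (nat_lit 560) (nat_lit 4559) (nat_lit 624) (nat_lit 4591)))) (.f (nat_lit 462) (nat_lit 430) (nat_lit 7598) (.f (nat_lit 464) (nat_lit 432) (nat_lit 6575) (.f (nat_lit 465) (nat_lit 466) (nat_lit 1486) (.f (nat_lit 497) (nat_lit 498) (nat_lit 462) (.f (nat_lit 496) (nat_lit 461) (nat_lit 461) (.d (nat_lit 433) (nat_lit 401) (nat_lit 5520) (nat_lit 434) (nat_lit 2478)))))))))) (.a (.p (nat_lit 559) (.a (.d (nat_lit 462) (nat_lit 430) (nat_lit 7598) (nat_lit 591) (nat_lit 7630)) (.a (.f (nat_lit 464) (nat_lit 432) (nat_lit 6575) (.f (nat_lit 591) (nat_lit 496) (nat_lit 6607) (.f (nat_lit 623) (nat_lit 526) (nat_lit 7662) (.d (nat_lit 624) (nat_lit 592) (nat_lit 4591) (nat_lit 656) (nat_lit 4623))))) (.f (nat_lit 462) (nat_lit 430) (nat_lit 7598) (.f (nat_lit 464) (nat_lit 432) (nat_lit 6575) (.f (nat_lit 465) (nat_lit 466) (nat_lit 1486) (.f (nat_lit 497) (nat_lit 498) (nat_lit 462) (.f (nat_lit 496) (nat_lit 461) (nat_lit 461) (.d (nat_lit 433) (nat_lit 401) (nat_lit 5520) (nat_lit 434) (nat_lit 2478)))))))))) (.f (nat_lit 431) (nat_lit 560) (nat_lit 4527) (.d (nat_lit 526) (nat_lit 399) (nat_lit 5518) (nat_lit 558) (nat_lit 5550))))))))))))))))) (.a (.p (nat_lit 527) (.a (.f (nat_lit 529) (nat_lit 530) (nat_lit 3566) (.d (nat_lit 493) (nat_lit 492) (nat_lit 492) (nat_lit 526) (nat_lit 3565))) (.a s126329 (.a s126441 (.p (nat_lit 463) (.a (.p (nat_lit 559) (.a (.d (nat_lit 462) (nat_lit 430) (nat_lit 7598) (nat_lit 591) (nat_lit 7630)) (.a (.f (nat_lit 590) (nat_lit 558) (nat_lit 5582) (.f (nat_lit 591) (nat_lit 622) (nat_lit 5614) (.d (nat_lit 592) (nat_lit 560) (nat_lit 4559) (nat_lit 624) (nat_lit 4591)))) (.f (nat_lit 462) (nat_lit 430) (nat_lit 7598) (.f (nat_lit 464) (nat_lit 432) (nat_lit 6575) (.d (nat_lit 493) (nat_lit 465) (nat_lit 1485) (nat_lit 492) (nat_lit 492))))))) (.a (.p (nat_lit 464) (.a (.f (nat_lit 493) (nat_lit 492) (nat_lit 492) (.d (nat_lit 465) (nat_lit 462) (nat_lit 1485) (nat_lit 466) (nat_lit 1486))) (.a (.f (nat_lit 559) (nat_lit 432) (nat_lit 6575) (.d (nat_lit 462) (nat_lit 430) (nat_lit 7598) (nat_lit 591) (nat_lit 7630))) (.f (nat_lit 432) (nat_lit 559) (nat_lit 6575) (.d (nat_lit 400) (nat_lit 368) (nat_lit 5487) (nat_lit 431) (nat_lit 6543)))))) (.a (.f (nat_lit 431) (nat_lit 560) (nat_lit 4527) (.f (nat_lit 430) (nat_lit 398) (nat_lit 7566) (.f (nat_lit 432) (nat_lit 400) (nat_lit 6543) (.d (nat_lit 559) (nat_lit 462) (nat_lit 7598) (nat_lit 464) (nat_lit 6575))))) (.a (.f (nat_lit 431) (nat_lit 560) (nat_lit 4527) (.f (nat_lit 430) (nat_lit 398) (nat_lit 7566) (.f (nat_lit 462) (nat_lit 559) (nat_lit 7598) (.f (nat_lit 432) (nat_lit 400) (nat_lit 6543) (.d (nat_lit 461) (nat_lit 433) (nat_lit 1453) (nat_lit 460) (nat_lit 2476)))))) (.a (.f (nat_lit 431) (nat_lit 560) (nat_lit 4527) (.f (nat_lit 398) (nat_lit 430) (nat_lit 7566) (.f (nat_lit 399) (nat_lit 366) (nat_lit 7534) (.d (nat_lit 400) (nat_lit 368) (nat_lit 6511) (nat_lit 432) (nat_lit 6543))))) (.a (.f (nat_lit 431) (nat_lit 560) (nat_lit 4527) (.f (nat_lit 432) (nat_lit 400) (nat_lit 6543) (.f (nat_lit 559) (nat_lit 464) (nat_lit 6575) (.f (nat_lit 591) (nat_lit 462) (nat_lit 7630) (.d (nat_lit 590) (nat_lit 558) (nat_lit 5582) (nat_lit 622) (nat_lit 5614)))))) (.f (nat_lit 431) (nat_lit 560) (nat_lit 4527) (.f (nat_lit 398) (nat_lit 430) (nat_lit 7566) (.f (nat_lit 399) (nat_lit 366) (nat_lit 7534) (.f (nat_lit 367) (nat_lit 462) (nat_lit 5486) (.d (nat_lit 368) (nat_lit 336) (nat_lit 6479) (nat_lit 400) (nat_lit 6511))))))))))))))))) (.p (nat_lit 529) (.a (.f (nat_lit 527) (nat_lit 530) (nat_lit 3566) (.d (nat_lit 493) (nat_lit 496) (nat_lit 493) (nat_lit 526) (nat_lit 3565))) (.a (.f (nat_lit 496) (nat_lit 493) (nat_lit 493) (.d (nat_lit 530) (nat_lit 497) (nat_lit 494) (nat_lit 531) (nat_lit 3567))) (.a (.f (nat_lit 530) (nat_lit 527) (nat_lit 3566) (.d (nat_lit 496) (nat_lit 497) (nat_lit 494) (nat_lit 531) (nat_lit 3567))) (.a (.f (nat_lit 493) (nat_lit 496) (nat_lit 493) (.d (nat_lit 527) (nat_lit 492) (nat_lit 492) (nat_lit 526) (nat_lit 3565))) (.f (nat_lit 527) (nat_lit 530) (nat_lit 3566) (.d (nat_lit 493) (nat_lit 492) (nat_lit 492) (nat_lit 526) (nat_lit 3565))))))))))))))) (.a (.p (nat_lit 496) (.a (.p (nat_lit 497) (.a (.p (nat_lit 494) (.a (.f (nat_lit 465) (nat_lit 466) (nat_lit 2510) (.f (nat_lit 464) (nat_lit 493) (nat_lit 2509) (.d (nat_lit 560) (nat_lit 433) (nat_lit 6576) (nat_lit 592) (nat_lit 6608)))) (.f (nat_lit 526) (nat_lit 525) (nat_lit 1517) (.f (nat_lit 527) (nat_lit 498) (nat_lit 1518) (.f (nat_lit 462) (nat_lit 461) (nat_lit 3533) (.d (nat_lit 430) (nat_lit 398) (nat_lit 4494) (nat_lit 559) (nat_lit 4526))))))) (.a (.p (nat_lit 463) (.a (.f (nat_lit 498) (nat_lit 462) (nat_lit 3534) (.d (nat_lit 527) (nat_lit 499) (nat_lit 1519) (nat_lit 526) (nat_lit 1518))) (.a (.f (nat_lit 498) (nat_lit 462) (nat_lit 3534) (.f (nat_lit 464) (nat_lit 499) (nat_lit 3535) (.d (nat_lit 560) (nat_lit 431) (nat_lit 7599) (nat_lit 592) (nat_lit 7631)))) (.f (nat_lit 560) (nat_lit 592) (nat_lit 7631) (.d (nat_lit 431) (nat_lit 399) (nat_lit 4495) (nat_lit 464) (nat_lit 7599)))))) (.a (.p (nat_lit 494) (.a (.f (nat_lit 465) (nat_lit 466) (nat_lit 2510) (.f (nat_lit 464) (nat_lit 493) (nat_lit 2509) (.d (nat_lit 560) (nat_lit 433) (nat_lit 6576) (nat_lit 592) (nat_lit 6608)))) (.a (.f (nat_lit 465) (nat_lit 466) (nat_lit 2510) (.f (nat_lit 493) (nat_lit 464) (nat_lit 2509) (.d (nat_lit 525) (nat_lit 524) (nat_lit 1516) (nat_lit 526) (nat_lit 1517)))) (.f (nat_lit 462) (nat_lit 461) (nat_lit 3533) (.f (nat_lit 463) (nat_lit 498) (nat_lit 3534) (.f (nat_lit 526) (nat_lit 525) (nat_lit 1517) (.d (nat_lit 431) (nat_lit 399) (nat_lit 4495) (nat_lit 558) (nat_lit 6574)))))))) (.a (.p (nat_lit 494) (.a (.f (nat_lit 526) (nat_lit 525) (nat_lit 1517) (.f (nat_lit 527) (nat_lit 498) (nat_lit 1518) (.f (nat_lit 462) (nat_lit 461) (nat_lit 3533) (.d (nat_lit 430) (nat_lit 398) (nat_lit 4494) (nat_lit 559) (nat_lit 4526))))) (.a (.f (nat_lit 465) (nat_lit 466) (nat_lit 2510) (.f (nat_lit 493) (nat_lit 464) (nat_lit 2509) (.d (nat_lit 525) (nat_lit 524) (nat_lit 1516) (nat_lit 526) (nat_lit 1517)))) (.f (nat_lit 465) (nat_lit 466) (nat_lit 2510) (.f (nat_lit 493) (nat_lit 464) (nat_lit 2509) (.d (nat_lit 461) (nat_lit 460) (nat_lit 3532) (nat_lit 462) (nat_lit 3533))))))) (.a s119200 (.a s119206 (.a (.p (nat_lit 494) (.a (.f (nat_lit 465) (nat_lit 466) (nat_lit 2510) (.f (nat_lit 464) (nat_lit 493) (nat_lit 2509) (.d (nat_lit 560) (nat_lit 433) (nat_lit 6576) (nat_lit 592) (nat_lit 6608)))) (.a (.f (nat_lit 465) (nat_lit 466) (nat_lit 2510) (.f (nat_lit 493) (nat_lit 464) (nat_lit 2509) (.d (nat_lit 525) (nat_lit 524) (nat_lit 1516) (nat_lit 526) (nat_lit 1517)))) (.a (.f (nat_lit 526) (nat_lit 525) (nat_lit 1517) (.f (nat_lit 498) (nat_lit 527) (nat_lit 1518) (.d (nat_lit 466) (nat_lit 465) (nat_lit 2510) (nat_lit 467) (nat_lit 2511)))) (.a (.f (nat_lit 526) (nat_lit 525) (nat_lit 1517) (.f (nat_lit 498) (nat_lit 527) (nat_lit 1518) (.f (nat_lit 531) (nat_lit 530) (nat_lit 495) (.f (nat_lit 499) (nat_lit 532) (nat_lit 496) (.d (nat_lit 467) (nat_lit 466) (nat_lit 2511) (nat_lit 468) (nat_lit 2512)))))) (.f (nat_lit 526) (nat_lit 525) (nat_lit 1517) (.f (nat_lit 527) (nat_lit 498) (nat_lit 1518) (.f (nat_lit 493) (nat_lit 492) (nat_lit 492) (.f (nat_lit 464) (nat_lit 465) (nat_lit 2509) (.d (nat_lit 432) (nat_lit 400) (nat_lit 5519) (nat_lit 559) (nat_lit 5551))))))))))) s119217)))))))) (.a (.p (nat_lit 560) (.a (.f (nat_lit 592) (nat_lit 463) (nat_lit 7631) (.f (nat_lit 624) (nat_lit 527) (nat_lit 7663) (.d (nat_lit 623) (nat_lit 591) (nat_lit 5615) (nat_lit 655) (nat_lit 5647)))) (.a s119244 (.a (.f (nat_lit 592) (nat_lit 463) (nat_lit 7631) (.f (nat_lit 465) (nat_lit 497) (nat_lit 6608) (.f (nat_lit 464) (nat_lit 433) (nat_lit 6576) (.d (nat_lit 591) (nat_lit 559) (nat_lit 5583) (nat_lit 623) (nat_lit 5615))))) (.a (.p (nat_lit 464) (.a (.f (nat_lit 463) (nat_lit 431) (nat_lit 7599) (.f (nat_lit 559) (nat_lit 591) (nat_lit 5583) (.f (nat_lit 527) (nat_lit 432) (nat_lit 5551) (.f (nat_lit 462) (nat_lit 430) (nat_lit 7598) (.d (nat_lit 461) (nat_lit 460) (nat_lit 460) (nat_lit 497) (nat_lit 461)))))) (.a (.f (nat_lit 559) (nat_lit 591) (nat_lit 5583) (.f (nat_lit 432) (nat_lit 527) (nat_lit 5551) (.d (nat_lit 433) (nat_lit 401) (nat_lit 6544) (nat_lit 465) (nat_lit 6576)))) (.f (nat_lit 463) (nat_lit 431) (nat_lit 7599) (.f (nat_lit 465) (nat_lit 433) (nat_lit 6576) (.f (nat_lit 466) (nat_lit 467) (nat_lit 1487) (.f (nat_lit 498) (nat_lit 499) (nat_lit 463) (.f (nat_lit 462) (nat_lit 497) (nat_lit 462) (.f (nat_lit 461) (nat_lit 460) (nat_lit 460) (.d (nat_lit 429) (nat_lit 428) (nat_lit 3500) (nat_lit 430) (nat_lit 3501))))))))))) (.f (nat_lit 592) (nat_lit 463) (nat_lit 7631) (.f (nat_lit 624) (nat_lit 527) (nat_lit 7663) (.d (nat_lit 625) (nat_lit 593) (nat_lit 4592) (nat_lit 657) (nat_lit 4624))))))))) (.a (.p (nat_lit 497) (.a (.p (nat_lit 494) (.a (.f (nat_lit 465) (nat_lit 466) (nat_lit 2510) (.f (nat_lit 464) (nat_lit 493) (nat_lit 2509) (.d (nat_lit 560) (nat_lit 433) (nat_lit 6576) (nat_lit 592) (nat_lit 6608)))) (.f (nat_lit 526) (nat_lit 525) (nat_lit 1517) (.f (nat_lit 527) (nat_lit 498) (nat_lit 1518) (.f (nat_lit 462) (nat_lit 461) (nat_lit 3533) (.d (nat_lit 430) (nat_lit 398) (nat_lit 4494) (nat_lit 559) (nat_lit 4526))))))) (.a (.p (nat_lit 498) (.a (.d (nat_lit 527) (nat_lit 499) (nat_lit 1519) (nat_lit 526) (nat_lit 1518)) (.a (.f (nat_lit 467) (nat_lit 466) (nat_lit 2511) (.f (nat_lit 499) (nat_lit 468) (nat_lit 2512) (.d (nat_lit 531) (nat_lit 530) (nat_lit 495) (nat_lit 532) (nat_lit 496)))) (.p (nat_lit 433) (.a (.f (nat_lit 465) (nat_lit 401) (nat_lit 5520) (.d (nat_lit 560) (nat_lit 464) (nat_lit 6576) (nat_lit 592) (nat_lit 6608))) (.a (.f (nat_lit 401) (nat_lit 465) (nat_lit 5520) (.f (nat_lit 466) (nat_lit 467) (nat_lit 2511) (.d (nat_lit 530) (nat_lit 434) (nat_lit 7569) (nat_lit 531) (nat_lit 495)))) (.a (.f (nat_lit 527) (nat_lit 526) (nat_lit 1518) (.f (nat_lit 466) (nat_lit 467) (nat_lit 2511) (.f (nat_lit 530) (nat_lit 531) (nat_lit 495) (.f (nat_lit 434) (nat_lit 401) (nat_lit 7569) (.f (nat_lit 403) (nat_lit 435) (nat_lit 6546) (.f (nat_lit 402) (nat_lit 371) (nat_lit 6514) (.f (nat_lit 432) (nat_lit 431) (nat_lit 2447) (.d (nat_lit 464) (nat_lit 400) (nat_lit 5519) (nat_lit 559) (nat_lit 5551))))))))) (.f (nat_lit 466) (nat_lit 467) (nat_lit 2511) (.f (nat_lit 530) (nat_lit 531) (nat_lit 495) (.f (nat_lit 465) (nat_lit 562) (nat_lit 7601) (.d (nat_lit 560) (nat_lit 464) (nat_lit 6576) (nat_lit 592) (nat_lit 6608)))))))))))) (.a s119200 (.a (.p (nat_lit 494) (.a (.f (nat_lit 526) (nat_lit 525) (nat_lit 1517) (.f (nat_lit 527) (nat_lit 498) (nat_lit 1518) (.f (nat_lit 462) (nat_lit 461) (nat_lit 3533) (.d (nat_lit 430) (nat_lit 398) (nat_lit 4494) (nat_lit 559) (nat_lit 4526))))) (.a (.f (nat_lit 465) (nat_lit 466) (nat_lit 2510) (.f (nat_lit 493) (nat_lit 464) (nat_lit 2509) (.d (nat_lit 525) (nat_lit 524) (nat_lit 1516) (nat_lit 526) (nat_lit 1517)))) (.f (nat_lit 465) (nat_lit 466) (nat_lit 2510) (.f (nat_lit 493) (nat_lit 464) (nat_lit 2509) (.d (nat_lit 461) (nat_lit 460) (nat_lit 3532) (nat_lit 462) (nat_lit 3533))))))) (.a s119277 (.a s119278 (.a s119279 s119280)))))))) (.a (.p (nat_lit 464) (.a (.p (nat_lit 560) (.a (.d (nat_lit 463) (nat_lit 431) (nat_lit 7599) (nat_lit 592) (nat_lit 7631)) (.a (.f (nat_lit 465) (nat_lit 433) (nat_lit 6576) (.f (nat_lit 592) (nat_lit 497) (nat_lit 6608) (.d (nat_lit 591) (nat_lit 559) (nat_lit 5583) (nat_lit 623) (nat_lit 5615)))) (.f (nat_lit 463) (nat_lit 431) (nat_lit 7599) (.f (nat_lit 465) (nat_lit 433) (nat_lit 6576) (.f (nat_lit 466) (nat_lit 467) (nat_lit 1487) (.f (nat_lit 498) (nat_lit 499) (nat_lit 463) (.f (nat_lit 462) (nat_lit 497) (nat_lit 462) (.f (nat_lit 461) (nat_lit 460) (nat_lit 460) (.d (nat_lit 429) (nat_lit 428) (nat_lit 3500) (nat_lit 430) (nat_lit 3501))))))))))) (.a (.p (nat_lit 465) (.a (.f (nat_lit 433) (nat_lit 560) (nat_lit 6576) (.d (nat_lit 401) (nat_lit 369) (nat_lit 5488) (nat_lit 432) (nat_lit 6544))) (.f (nat_lit 466) (nat_lit 467) (nat_lit 1487) (.d (nat_lit 494) (nat_lit 493) (nat_lit 2509) (nat_lit 497) (nat_lit 2510))))) (.a (.p (nat_lit 497) (.a (.p (nat_lit 494) (.a (.d (nat_lit 465) (nat_lit 466) (nat_lit 2510) (nat_lit 493) (nat_lit 2509)) (.a (.f (nat_lit 465) (nat_lit 466) (nat_lit 2510) (.f (nat_lit 462) (nat_lit 461) (nat_lit 3533) (.f (nat_lit 463) (nat_lit 498) (nat_lit 462) (.d (nat_lit 433) (nat_lit 401) (nat_lit 5520) (nat_lit 434) (nat_lit 2478))))) (.f (nat_lit 462) (nat_lit 461) (nat_lit 3533) (.f (nat_lit 463) (nat_lit 498) (nat_lit 3534) (.f (nat_lit 431) (nat_lit 399) (nat_lit 4495) (.d (nat_lit 526) (nat_lit 525) (nat_lit 1517) (nat_lit 558) (nat_lit 6574)))))))) (.a (.p (nat_lit 498) (.a (.d (nat_lit 463) (nat_lit 462) (nat_lit 3534) (nat_lit 499) (nat_lit 3535)) (.a (.f (nat_lit 467) (nat_lit 466) (nat_lit 2511) (.f (nat_lit 499) (nat_lit 468) (nat_lit 2512) (.d (nat_lit 531) (nat_lit 530) (nat_lit 495) (nat_lit 532) (nat_lit 496)))) (.f (nat_lit 463) (nat_lit 462) (nat_lit 3534) (.f (nat_lit 431) (nat_lit 399) (nat_lit 4495) (.f (nat_lit 466) (nat_lit 467) (nat_lit 2511) (.f (nat_lit 465) (nat_lit 430) (nat_lit 3502) (.f (nat_lit 433) (nat_lit 401) (nat_lit 5520) (.d (nat_lit 530) (nat_lit 531) (nat_lit 495) (nat_lit 562) (nat_lit 7601)))))))))) (.a s119318 (.a (.p (nat_lit 494) (.a (.d (nat_lit 465) (nat_lit 466) (nat_lit 2510) (nat_lit 493) (nat_lit 2509)) (.a (.f (nat_lit 465) (nat_lit 466) (nat_lit 2510) (.f (nat_lit 433) (nat_lit 401) (nat_lit 5520) (.f (nat_lit 462) (nat_lit 461) (nat_lit 3533) (.f (nat_lit 463) (nat_lit 434) (nat_lit 2478) (.f (nat_lit 431) (nat_lit 399) (nat_lit 4495) (.d (nat_lit 526) (nat_lit 525) (nat_lit 1517) (nat_lit 558) (nat_lit 6574))))))) (.f (nat_lit 461) (nat_lit 462) (nat_lit 3533) (.f (nat_lit 493) (nat_lit 460) (nat_lit 3532) (.d (nat_lit 525) (nat_lit 524) (nat_lit 1516) (nat_lit 526) (nat_lit 1517))))))) (.a (.p (nat_lit 494) (.a (.d (nat_lit 465) (nat_lit 466) (nat_lit 2510) (nat_lit 493) (nat_lit 2509)) (.a (.f (nat_lit 466) (nat_lit 465) (nat_lit 2510) (.f (nat_lit 498) (nat_lit 467) (nat_lit 2511) (.f (nat_lit 531) (nat_lit 530) (nat_lit 495) (.d (nat_lit 499) (nat_lit 463) (nat_lit 3535) (nat_lit 532) (nat_lit 496))))) (.f (nat_lit 525) (nat_lit 526) (nat_lit 1517) (.f (nat_lit 493) (nat_lit 524) (nat_lit 1516) (.f (nat_lit 492) (nat_lit 463) (nat_lit 2508) (.d (nat_lit 460) (nat_lit 459) (nat_lit 3531) (nat_lit 461) (nat_lit 3532)))))))) (.a (.p (nat_lit 494) (.a (.f (nat_lit 462) (nat_lit 461) (nat_lit 3533) (.f (nat_lit 463) (nat_lit 498) (nat_lit 3534) (.f (nat_lit 431) (nat_lit 399) (nat_lit 4495) (.d (nat_lit 526) (nat_lit 525) (nat_lit 1517) (nat_lit 558) (nat_lit 6574))))) (.a (.f (nat_lit 461) (nat_lit 462) (nat_lit 3533) (.f (nat_lit 493) (nat_lit 460) (nat_lit 3532) (.d (nat_lit 525) (nat_lit 524) (nat_lit 1516) (nat_lit 526) (nat_lit 1517)))) (.a (.f (nat_lit 525) (nat_lit 526) (nat_lit 1517) (.f (nat_lit 493) (nat_lit 524) (nat_lit 1516) (.f (nat_lit 492) (nat_lit 463) (nat_lit 2508) (.d (nat_lit 460) (nat_lit 459) (nat_lit 3531) (nat_lit 461) (nat_lit 3532))))) (.a (.f (nat_lit 525) (nat_lit 526) (nat_lit 1517) (.f (nat_lit 493) (nat_lit 524) (nat_lit 1516) (.f (nat_lit 463) (nat_lit 492) (nat_lit 2508) (.d (nat_lit 498) (nat_lit 462) (nat_lit 3534) (nat_lit 499) (nat_lit 3535))))) (.f (nat_lit 462) (nat_lit 461) (nat_lit 3533) (.f (nat_lit 498) (nat_lit 463) (nat_lit 3534) (.f (nat_lit 467) (nat_lit 466) (nat_lit 2511) (.f (nat_lit 499) (nat_lit 468) (nat_lit 2512) (.d (nat_lit 531) (nat_lit 530) (nat_lit 495) (nat_lit 532) (nat_lit 496))))))))))) (.p (nat_lit 494) (.a (.f (nat_lit 462) (nat_lit 461) (nat_lit 3533) (.f (nat_lit 463) (nat_lit 498) (nat_lit 3534) (.f (nat_lit 431) (nat_lit 399) (nat_lit 4495) (.d (nat_lit 526) (nat_lit 525) (nat_lit 1517) (nat_lit 558) (nat_lit 6574))))) (.a (.f (nat_lit 461) (nat_lit 462) (nat_lit 3533) (.f (nat_lit 493) (nat_lit 460) (nat_lit 3532) (.d (nat_lit 525) (nat_lit 524) (nat_lit 1516) (nat_lit 526) (nat_lit 1517)))) (.a (.f (nat_lit 525) (nat_lit 526) (nat_lit 1517) (.f (nat_lit 493) (nat_lit 524) (nat_lit 1516) (.f (nat_lit 492) (nat_lit 463) (nat_lit 2508) (.d (nat_lit 460) (nat_lit 459) (nat_lit 3531) (nat_lit 461) (nat_lit 3532))))) (.a (.f (nat_lit 525) (nat_lit 526) (nat_lit 1517) (.f (nat_lit 493) (nat_lit 524) (nat_lit 1516) (.f (nat_lit 463) (nat_lit 492) (nat_lit 2508) (.d (nat_lit 498) (nat_lit 462) (nat_lit 3534) (nat_lit 499) (nat_lit 3535))))) (.f (nat_lit 493) (nat_lit 465) (nat_lit 2509) (.d (nat_lit 461) (nat_lit 460) (nat_lit 3532) (nat_lit 462) (nat_lit 3533))))))))))))))) (.a (.p (nat_lit 465) (.a (.f (nat_lit 433) (nat_lit 560) (nat_lit 6576) (.d (nat_lit 401) (nat_lit 369) (nat_lit 5488) (nat_lit 432) (nat_lit 6544))) (.f (nat_lit 466) (nat_lit 467) (nat_lit 1487) (.d (nat_lit 494) (nat_lit 463) (nat_lit 1486) (nat_lit 493) (nat_lit 2509))))) (.a (.p (nat_lit 432) (.a (.f (nat_lit 399) (nat_lit 431) (nat_lit 7567) (.f (nat_lit 400) (nat_lit 367) (nat_lit 7535) (.d (nat_lit 401) (nat_lit 369) (nat_lit 6512) (nat_lit 433) (nat_lit 6544)))) (.a (.f (nat_lit 401) (nat_lit 433) (nat_lit 6544) (.f (nat_lit 400) (nat_lit 369) (nat_lit 6512) (.f (nat_lit 368) (nat_lit 463) (nat_lit 5487) (.d (nat_lit 367) (nat_lit 335) (nat_lit 7503) (nat_lit 399) (nat_lit 7535))))) (.a (.f (nat_lit 401) (nat_lit 433) (nat_lit 6544) (.f (nat_lit 400) (nat_lit 369) (nat_lit 6512) (.f (nat_lit 463) (nat_lit 368) (nat_lit 5487) (.d (nat_lit 560) (nat_lit 431) (nat_lit 7599) (nat_lit 592) (nat_lit 7631))))) (.a (.f (nat_lit 399) (nat_lit 431) (nat_lit 7567) (.f (nat_lit 400) (nat_lit 367) (nat_lit 7535) (.f (nat_lit 369) (nat_lit 401) (nat_lit 6512) (.d (nat_lit 368) (nat_lit 337) (nat_lit 6480) (nat_lit 463) (nat_lit 5487))))) (.a (.p (nat_lit 400) (.a (.d (nat_lit 399) (nat_lit 367) (nat_lit 7535) (nat_lit 431) (nat_lit 7567)) (.a (.f (nat_lit 368) (nat_lit 463) (nat_lit 5487) (.d (nat_lit 367) (nat_lit 335) (nat_lit 7503) (nat_lit 399) (nat_lit 7535))) (.f (nat_lit 463) (nat_lit 368) (nat_lit 5487) (.d (nat_lit 560) (nat_lit 431) (nat_lit 7599) (nat_lit 592) (nat_lit 7631)))))) (.f (nat_lit 431) (nat_lit 399) (nat_lit 7567) (.f (nat_lit 463) (nat_lit 560) (nat_lit 7599) (.f (nat_lit 433) (nat_lit 401) (nat_lit 6544) (.d (nat_lit 462) (nat_lit 434) (nat_lit 1454) (nat_lit 461) (nat_lit 2477))))))))))) (.p (nat_lit 497) (.a s119318 (.a (.p (nat_lit 463) (.a (.d (nat_lit 462) (nat_lit 461) (nat_lit 461) (nat_lit 498) (nat_lit 3534)) (.d (nat_lit 560) (nat_lit 431) (nat_lit 7599) (nat_lit 592) (nat_lit 7631)))) (.a (.p (nat_lit 494) (.a (.d (nat_lit 465) (nat_lit 466) (nat_lit 2510) (nat_lit 493) (nat_lit 2509)) (.a (.f (nat_lit 465) (nat_lit 466) (nat_lit 2510) (.f (nat_lit 560) (nat_lit 592) (nat_lit 6608) (.f (nat_lit 431) (nat_lit 463) (nat_lit 7599) (.f (nat_lit 399) (nat_lit 432) (nat_lit 7567) (.f (nat_lit 462) (nat_lit 461) (nat_lit 3533) (.d (nat_lit 526) (nat_lit 430) (nat_lit 6542) (nat_lit 525) (nat_lit 1517))))))) (.f (nat_lit 461) (nat_lit 462) (nat_lit 3533) (.f (nat_lit 493) (nat_lit 460) (nat_lit 3532) (.d (nat_lit 525) (nat_lit 524) (nat_lit 1516) (nat_lit 526) (nat_lit 1517))))))) (.a (.p (nat_lit 494) (.a (.d (nat_lit 465) (nat_lit 466) (nat_lit 2510) (nat_lit 493) (nat_lit 2509)) (.a (.f (nat_lit 466) (nat_lit 465) (nat_lit 2510) (.f (nat_lit 498) (nat_lit 467) (nat_lit 2511) (.f (nat_lit 531) (nat_lit 530) (nat_lit 495) (.d (nat_lit 499) (nat_lit 463) (nat_lit 3535) (nat_lit 532) (nat_lit 496))))) (.f (nat_lit 525) (nat_lit 526) (nat_lit 1517) (.f (nat_lit 493) (nat_lit 524) (nat_lit 1516) (.f (nat_lit 492) (nat_lit 463) (nat_lit 2508) (.d (nat_lit 460) (nat_lit 459) (nat_lit 3531) (nat_lit 461) (nat_lit 3532)))))))) (.p (nat_lit 494) (.a (.d (nat_lit 465) (nat_lit 466) (nat_lit 2510) (nat_lit 493) (nat_lit 2509)) (.a (.f (nat_lit 466) (nat_lit 465) (nat_lit 2510) (.f (nat_lit 498) (nat_lit 467) (nat_lit 2511) (.f (nat_lit 531) (nat_lit 530) (nat_lit 495) (.d (nat_lit 499) (nat_lit 463) (nat_lit 3535) (nat_lit 532) (nat_lit 496))))) (.f (nat_lit 525) (nat_lit 526) (nat_lit 1517) (.f (nat_lit 493) (nat_lit 524) (nat_lit 1516) (.f (nat_lit 463) (nat_lit 492) (nat_lit 2508) (.d (nat_lit 498) (nat_lit 462) (nat_lit 3534) (nat_lit 499) (nat_lit 3535))))))))))))))))))) (.a (.p (nat_lit 497) (.a (.p (nat_lit 494) (.a (.f (nat_lit 526) (nat_lit 525) (nat_lit 1517) (.f (nat_lit 527) (nat_lit 498) (nat_lit 1518) (.f (nat_lit 462) (nat_lit 461) (nat_lit 3533) (.d (nat_lit 430) (nat_lit 398) (nat_lit 4494) (nat_lit 559) (nat_lit 4526))))) (.a (.f (nat_lit 465) (nat_lit 466) (nat_lit 2510) (.f (nat_lit 493) (nat_lit 464) (nat_lit 2509) (.d (nat_lit 525) (nat_lit 524) (nat_lit 1516) (nat_lit 526) (nat_lit 1517)))) (.f (nat_lit 465) (nat_lit 466) (nat_lit 2510) (.f (nat_lit 493) (nat_lit 464) (nat_lit 2509) (.d (nat_lit 461) (nat_lit 460) (nat_lit 3532) (nat_lit 462) (nat_lit 3533))))))) (.a (.p (nat_lit 498) (.a (.d (nat_lit 527) (nat_lit 499) (nat_lit 1519) (nat_lit 526) (nat_lit 1518)) (.a (.f (nat_lit 467) (nat_lit 466) (nat_lit 2511) (.f (nat_lit 499) (nat_lit 468) (nat_lit 2512) (.d (nat_lit 531) (nat_lit 530) (nat_lit 495) (nat_lit 532) (nat_lit 496)))) (.f (nat_lit 527) (nat_lit 526) (nat_lit 1518) (.f (nat_lit 463) (nat_lit 462) (nat_lit 3534) (.f (nat_lit 431) (nat_lit 399) (nat_lit 4495) (.f (nat_lit 432) (nat_lit 400) (nat_lit 6543) (.f (nat_lit 464) (nat_lit 559) (nat_lit 5551) (.f (nat_lit 430) (nat_lit 398) (nat_lit 7566) (.d (nat_lit 466) (nat_lit 465) (nat_lit 3502) (nat_lit 467) (nat_lit 2511))))))))))) (.a (.p (nat_lit 494) (.a (.f (nat_lit 465) (nat_lit 466) (nat_lit 2510) (.f (nat_lit 493) (nat_lit 464) (nat_lit 2509) (.d (nat_lit 525) (nat_lit 524) (nat_lit 1516) (nat_lit 526) (nat_lit 1517)))) (.a (.f (nat_lit 462) (nat_lit 461) (nat_lit 3533) (.f (nat_lit 463) (nat_lit 498) (nat_lit 3534) (.f (nat_lit 526) (nat_lit 525) (nat_lit 1517) (.d (nat_lit 431) (nat_lit 399) (nat_lit 4495) (nat_lit 558) (nat_lit 6574))))) (.f (nat_lit 465) (nat_lit 466) (nat_lit 2510) (.f (nat_lit 493) (nat_lit 464) (nat_lit 2509) (.d (nat_lit 461) (nat_lit 460) (nat_lit 3532) (nat_lit 462) (nat_lit 3533))))))) (.a (.p (nat_lit 494) (.a (.f (nat_lit 465) (nat_lit 466) (nat_lit 2510) (.f (nat_lit 493) (nat_lit 464) (nat_lit 2509) (.d (nat_lit 525) (nat_lit 524) (nat_lit 1516) (nat_lit 526) (nat_lit 1517)))) (.a (.f (nat_lit 525) (nat_lit 526) (nat_lit 1517) (.f (nat_lit 493) (nat_lit 524) (nat_lit 1516) (.d (nat_lit 461) (nat_lit 460) (nat_lit 3532) (nat_lit 462) (nat_lit 3533)))) (.a (.p (nat_lit 463) (.a (.f (nat_lit 526) (nat_lit 525) (nat_lit 1517) (.f (nat_lit 431) (nat_lit 399) (nat_lit 4495) (.d (nat_lit 558) (nat_lit 527) (nat_lit 5550) (nat_lit 590) (nat_lit 6606)))) (.a (.f (nat_lit 462) (nat_lit 461) (nat_lit 3533) (.f (nat_lit 431) (nat_lit 399) (nat_lit 4495) (.d (nat_lit 526) (nat_lit 525) (nat_lit 1517) (nat_lit 558) (nat_lit 6574)))) (.a (.f (nat_lit 462) (nat_lit 461) (nat_lit 3533) (.f (nat_lit 526) (nat_lit 525) (nat_lit 1517) (.f (nat_lit 465) (nat_lit 466) (nat_lit 2510) (.f (nat_lit 558) (nat_lit 590) (nat_lit 6606) (.f (nat_lit 559) (nat_lit 591) (nat_lit 4558) (.f (nat_lit 430) (nat_lit 527) (nat_lit 4526) (.d (nat_lit 429) (nat_lit 397) (nat_lit 7565) (nat_lit 464) (nat_lit 3501)))))))) (.f (nat_lit 462) (nat_lit 461) (nat_lit 3533) (.f (nat_lit 465) (nat_lit 466) (nat_lit 2510) (.f (nat_lit 431) (nat_lit 399) (nat_lit 4495) (.f (nat_lit 433) (nat_lit 401) (nat_lit 5520) (.d (nat_lit 434) (nat_lit 432) (nat_lit 1454) (nat_lit 464) (nat_lit 2478)))))))))) (.f (nat_lit 465) (nat_lit 466) (nat_lit 2510) (.f (nat_lit 493) (nat_lit 464) (nat_lit 2509) (.d (nat_lit 461) (nat_lit 460) (nat_lit 3532) (nat_lit 462) (nat_lit 3533)))))))) (.a s119277 (.a s119408 (.a s119409 (.a s119278 s119280))))))))) (.a (.p (nat_lit 527) (.a s119412 (.a s119428 (.a (.p (nat_lit 497) (.a (.d (nat_lit 498) (nat_lit 499) (nat_lit 1519) (nat_lit 526) (nat_lit 1518)) (.a (.p (nat_lit 494) (.a (.f (nat_lit 526) (nat_lit 525) (nat_lit 2541) (.f (nat_lit 462) (nat_lit 461) (nat_lit 3533) (.d (nat_lit 430) (nat_lit 398) (nat_lit 4494) (nat_lit 559) (nat_lit 4526)))) (.a (.f (nat_lit 493) (nat_lit 492) (nat_lit 492) (.d (nat_lit 461) (nat_lit 460) (nat_lit 3532) (nat_lit 462) (nat_lit 3533))) (.f (nat_lit 525) (nat_lit 526) (nat_lit 2541) (.d (nat_lit 493) (nat_lit 492) (nat_lit 492) (nat_lit 524) (nat_lit 1516)))))) (.f (nat_lit 498) (nat_lit 499) (nat_lit 1519) (.f (nat_lit 466) (nat_lit 467) (nat_lit 2511) (.f (nat_lit 494) (nat_lit 465) (nat_lit 2510) (.f (nat_lit 493) (nat_lit 492) (nat_lit 492) (.d (nat_lit 461) (nat_lit 460) (nat_lit 3532) (nat_lit 462) (nat_lit 3533))))))))) (.a s119444 (.a s119451 (.a (.p (nat_lit 463) (.a (.d (nat_lit 431) (nat_lit 399) (nat_lit 4495) (nat_lit 560) (nat_lit 4527)) (.a (.f (nat_lit 431) (nat_lit 399) (nat_lit 4495) (.f (nat_lit 526) (nat_lit 558) (nat_lit 5550) (.d (nat_lit 497) (nat_lit 498) (nat_lit 1518) (nat_lit 525) (nat_lit 2541)))) (.p (nat_lit 559) (.a (.f (nat_lit 592) (nat_lit 560) (nat_lit 7631) (.d (nat_lit 591) (nat_lit 623) (nat_lit 6639) (nat_lit 624) (nat_lit 4591))) (.a (.f (nat_lit 591) (nat_lit 623) (nat_lit 6639) (.d (nat_lit 590) (nat_lit 558) (nat_lit 5582) (nat_lit 622) (nat_lit 5614))) (.f (nat_lit 560) (nat_lit 592) (nat_lit 4559) (.f (nat_lit 558) (nat_lit 590) (nat_lit 5582) (.f (nat_lit 557) (nat_lit 556) (nat_lit 2572) (.f (nat_lit 525) (nat_lit 524) (nat_lit 3596) (.f (nat_lit 497) (nat_lit 526) (nat_lit 2541) (.f (nat_lit 498) (nat_lit 499) (nat_lit 1519) (.f (nat_lit 466) (nat_lit 467) (nat_lit 2511) (.f (nat_lit 465) (nat_lit 494) (nat_lit 2510) (.f (nat_lit 530) (nat_lit 531) (nat_lit 495) (.d (nat_lit 433) (nat_lit 401) (nat_lit 5520) (nat_lit 562) (nat_lit 7601))))))))))))))))) s119470))))))) (.a (.p (nat_lit 497) (.a (.p (nat_lit 463) (.a (.f (nat_lit 498) (nat_lit 462) (nat_lit 3534) (.d (nat_lit 527) (nat_lit 499) (nat_lit 1519) (nat_lit 526) (nat_lit 1518))) (.a (.f (nat_lit 498) (nat_lit 462) (nat_lit 3534) (.f (nat_lit 464) (nat_lit 499) (nat_lit 3535) (.d (nat_lit 560) (nat_lit 431) (nat_lit 7599) (nat_lit 592) (nat_lit 7631)))) (.f (nat_lit 560) (nat_lit 592) (nat_lit 7631) (.d (nat_lit 431) (nat_lit 399) (nat_lit 4495) (nat_lit 464) (nat_lit 7599)))))) (.a s119200 (.a (.p (nat_lit 494) (.a (.f (nat_lit 465) (nat_lit 466) (nat_lit 2510) (.f (nat_lit 493) (nat_lit 464) (nat_lit 2509) (.d (nat_lit 525) (nat_lit 524) (nat_lit 1516) (nat_lit 526) (nat_lit 1517)))) (.a (.f (nat_lit 462) (nat_lit 461) (nat_lit 3533) (.f (nat_lit 463) (nat_lit 498) (nat_lit 3534) (.f (nat_lit 526) (nat_lit 525) (nat_lit 1517) (.d (nat_lit 431) (nat_lit 399) (nat_lit 4495) (nat_lit 558) (nat_lit 6574))))) (.f (nat_lit 465) (nat_lit 466) (nat_lit 2510) (.f (nat_lit 493) (nat_lit 464) (nat_lit 2509) (.d (nat_lit 461) (nat_lit 460) (nat_lit 3532) (nat_lit 462) (nat_lit 3533))))))) (.a (.p (nat_lit 463) (.a (.f (nat_lit 498) (nat_lit 462) (nat_lit 3534) (.d (nat_lit 527) (nat_lit 499) (nat_lit 1519) (nat_lit 526) (nat_lit 1518))) (.a (.f (nat_lit 498) (nat_lit 462) (nat_lit 3534) (.f (nat_lit 467) (nat_lit 466) (nat_lit 2511) (.f (nat_lit 499) (nat_lit 468) (nat_lit 2512) (.d (nat_lit 531) (nat_lit 530) (nat_lit 495) (nat_lit 532) (nat_lit 496))))) (.f (nat_lit 560) (nat_lit 592) (nat_lit 7631) (.d (nat_lit 431) (nat_lit 399) (nat_lit 4495) (nat_lit 527) (nat_lit 4527)))))) (.a (.p (nat_lit 494) (.a (.f (nat_lit 465) (nat_lit 466) (nat_lit 2510) (.f (nat_lit 464) (nat_lit 493) (nat_lit 2509) (.d (nat_lit 560) (nat_lit 433) (nat_lit 6576) (nat_lit 592) (nat_lit 6608)))) (.a (.f (nat_lit 465) (nat_lit 466) (nat_lit 2510) (.f (nat_lit 493) (nat_lit 464) (nat_lit 2509) (.d (nat_lit 525) (nat_lit 524) (nat_lit 1516) (nat_lit 526) (nat_lit 1517)))) (.a (.f (nat_lit 526) (nat_lit 525) (nat_lit 1517) (.f (nat_lit 498) (nat_lit 527) (nat_lit 1518) (.d (nat_lit 466) (nat_lit 465) (nat_lit 2510) (nat_lit 467) (nat_lit 2511)))) (.a (.f (nat_lit 526) (nat_lit 525) (nat_lit 1517) (.f (nat_lit 498) (nat_lit 527) (nat_lit 1518) (.f (nat_lit 531) (nat_lit 530) (nat_lit 495) (.f (nat_lit 499) (nat_lit 532) (nat_lit 496) (.d (nat_lit 467) (nat_lit 466) (nat_lit 2511) (nat_lit 468) (nat_lit 2512)))))) (.f (nat_lit 526) (nat_lit 525) (nat_lit 1517) (.f (nat_lit 527) (nat_lit 498) (nat_lit 1518) (.f (nat_lit 493) (nat_lit 492) (nat_lit 492) (.f (nat_lit 461) (nat_lit 460) (nat_lit 3532) (.f (nat_lit 558) (nat_lit 590) (nat_lit 7629) (.f (nat_lit 431) (nat_lit 463) (nat_lit 5550) (.f (nat_lit 464) (nat_lit 465) (nat_lit 2509) (.d (nat_lit 432) (nat_lit 399) (nat_lit 7567) (nat_lit 400) (nat_lit 5519)))))))))))))) s119217)))))) (.a (.p (nat_lit 464) (.a (.p (nat_lit 465) (.a (.f (nat_lit 433) (nat_lit 560) (nat_lit 6576) (.d (nat_lit 401) (nat_lit 369) (nat_lit 5488) (nat_lit 432) (nat_lit 6544))) (.f (nat_lit 466) (nat_lit 467) (nat_lit 1487) (.d (nat_lit 494) (nat_lit 493) (nat_lit 2509) (nat_lit 497) (nat_lit 2510))))) (.a (.p (nat_lit 560) (.a (.f (nat_lit 559) (nat_lit 591) (nat_lit 5583) (.f (nat_lit 527) (nat_lit 432) (nat_lit 5551) (.f (nat_lit 592) (nat_lit 624) (nat_lit 7663) (.d (nat_lit 465) (nat_lit 433) (nat_lit 6576) (nat_lit 497) (nat_lit 6608))))) (.a (.f (nat_lit 465) (nat_lit 433) (nat_lit 6576) (.f (nat_lit 592) (nat_lit 497) (nat_lit 6608) (.d (nat_lit 591) (nat_lit 559) (nat_lit 5583) (nat_lit 623) (nat_lit 5615)))) (.a (.f (nat_lit 559) (nat_lit 591) (nat_lit 5583) (.f (nat_lit 432) (nat_lit 527) (nat_lit 5551) (.d (nat_lit 433) (nat_lit 401) (nat_lit 6544) (nat_lit 465) (nat_lit 6576)))) (.a (.f (nat_lit 465) (nat_lit 433) (nat_lit 6576) (.f (nat_lit 592) (nat_lit 497) (nat_lit 6608) (.f (nat_lit 624) (nat_lit 527) (nat_lit 7663) (.d (nat_lit 623) (nat_lit 591) (nat_lit 5615) (nat_lit 655) (nat_lit 5647))))) (.a (.f (nat_lit 465) (nat_lit 433) (nat_lit 6576) (.f (nat_lit 592) (nat_lit 497) (nat_lit 6608) (.f (nat_lit 624) (nat_lit 527) (nat_lit 7663) (.d (nat_lit 625) (nat_lit 593) (nat_lit 4592) (nat_lit 657) (nat_lit 4624))))) (.f (nat_lit 592) (nat_lit 463) (nat_lit 7631) (.d (nat_lit 591) (nat_lit 559) (nat_lit 5583) (nat_lit 623) (nat_lit 5615))))))))) (.a (.p (nat_lit 497) (.a (.p (nat_lit 527) (.a (.d (nat_lit 498) (nat_lit 499) (nat_lit 1519) (nat_lit 526) (nat_lit 1518)) (.d (nat_lit 559) (nat_lit 432) (nat_lit 5551) (nat_lit 591) (nat_lit 6607)))) (.a s119318 (.a (.p (nat_lit 494) (.a (.d (nat_lit 465) (nat_lit 466) (nat_lit 2510) (nat_lit 493) (nat_lit 2509)) (.a (.f (nat_lit 465) (nat_lit 466) (nat_lit 2510) (.f (nat_lit 433) (nat_lit 401) (nat_lit 5520) (.f (nat_lit 462) (nat_lit 461) (nat_lit 3533) (.f (nat_lit 463) (nat_lit 434) (nat_lit 2478) (.f (nat_lit 430) (nat_lit 429) (nat_lit 3501) (.d (nat_lit 398) (nat_lit 366) (nat_lit 4462) (nat_lit 527) (nat_lit 4494))))))) (.f (nat_lit 461) (nat_lit 462) (nat_lit 3533) (.f (nat_lit 493) (nat_lit 460) (nat_lit 3532) (.d (nat_lit 525) (nat_lit 524) (nat_lit 1516) (nat_lit 526) (nat_lit 1517))))))) (.p (nat_lit 527) (.a (.d (nat_lit 559) (nat_lit 432) (nat_lit 5551) (nat_lit 591) (nat_lit 6607)) (.f (nat_lit 498) (nat_lit 499) (nat_lit 1519) (.f (nat_lit 462) (nat_lit 463) (nat_lit 3534) (.f (nat_lit 494) (nat_lit 461) (nat_lit 3533) (.d (nat_lit 466) (nat_lit 465) (nat_lit 2510) (nat_lit 467) (nat_lit 2511))))))))))) (.a (.p (nat_lit 465) (.a (.f (nat_lit 433) (nat_lit 560) (nat_lit 6576) (.d (nat_lit 401) (nat_lit 369) (nat_lit 5488) (nat_lit 432) (nat_lit 6544))) (.f (nat_lit 466) (nat_lit 467) (nat_lit 1487) (.d (nat_lit 494) (nat_lit 463) (nat_lit 1486) (nat_lit 493) (nat_lit 2509))))) (.a (.p (nat_lit 560) (.a (.f (nat_lit 465) (nat_lit 433) (nat_lit 6576) (.f (nat_lit 592) (nat_lit 497) (nat_lit 6608) (.d (nat_lit 591) (nat_lit 559) (nat_lit 5583) (nat_lit 623) (nat_lit 5615)))) (.a (.f (nat_lit 465) (nat_lit 433) (nat_lit 6576) (.f (nat_lit 466) (nat_lit 467) (nat_lit 1487) (.d (nat_lit 494) (nat_lit 493) (nat_lit 2509) (nat_lit 497) (nat_lit 2510)))) (.f (nat_lit 592) (nat_lit 463) (nat_lit 7631) (.d (nat_lit 591) (nat_lit 559) (nat_lit 5583) (nat_lit 623) (nat_lit 5615)))))) (.a (.p (nat_lit 560) (.a (.f (nat_lit 592) (nat_lit 463) (nat_lit 7631) (.d (nat_lit 591) (nat_lit 559) (nat_lit 5583) (nat_lit 623) (nat_lit 5615))) (.a (.f (nat_lit 591) (nat_lit 559) (nat_lit 5583) (.f (nat_lit 592) (nat_lit 623) (nat_lit 5615) (.f (nat_lit 625) (nat_lit 593) (nat_lit 4592) (.d (nat_lit 624) (nat_lit 527) (nat_lit 7663) (nat_lit 657) (nat_lit 4624))))) (.a (.f (nat_lit 559) (nat_lit 591) (nat_lit 5583) (.f (nat_lit 432) (nat_lit 527) (nat_lit 5551) (.f (nat_lit 401) (nat_lit 433) (nat_lit 6544) (.f (nat_lit 400) (nat_lit 369) (nat_lit 6512) (.f (nat_lit 368) (nat_lit 463) (nat_lit 5487) (.d (nat_lit 367) (nat_lit 335) (nat_lit 7503) (nat_lit 399) (nat_lit 7535))))))) (.a (.f (nat_lit 592) (nat_lit 463) (nat_lit 7631) (.f (nat_lit 624) (nat_lit 527) (nat_lit 7663) (.d (nat_lit 623) (nat_lit 591) (nat_lit 5615) (nat_lit 655) (nat_lit 5647)))) (.f (nat_lit 592) (nat_lit 463) (nat_lit 7631) (.f (nat_lit 527) (nat_lit 624) (nat_lit 7663) (.d (nat_lit 432) (nat_lit 400) (nat_lit 5519) (nat_lit 559) (nat_lit 5551))))))))) (.p (nat_lit 497) (.a (.p (nat_lit 527) (.a (.d (nat_lit 498) (nat_lit 499) (nat_lit 1519) (nat_lit 526) (nat_lit 1518)) (.d (nat_lit 559) (nat_lit 432) (nat_lit 5551) (nat_lit 591) (nat_lit 6607)))) (.a s119318 (.a (.p (nat_lit 494) (.a (.d (nat_lit 465) (nat_lit 466) (nat_lit 2510) (nat_lit 493) (nat_lit 2509)) (.a (.f (nat_lit 465) (nat_lit 466) (nat_lit 2510) (.f (nat_lit 560) (nat_lit 592) (nat_lit 6608) (.f (nat_lit 559) (nat_lit 591) (nat_lit 5583) (.f (nat_lit 527) (nat_lit 432) (nat_lit 5551) (.f (nat_lit 526) (nat_lit 525) (nat_lit 1517) (.d (nat_lit 462) (nat_lit 430) (nat_lit 4526) (nat_lit 461) (nat_lit 3533))))))) (.f (nat_lit 461) (nat_lit 462) (nat_lit 3533) (.f (nat_lit 493) (nat_lit 460) (nat_lit 3532) (.d (nat_lit 525) (nat_lit 524) (nat_lit 1516) (nat_lit 526) (nat_lit 1517))))))) (.p (nat_lit 527) (.a (.d (nat_lit 559) (nat_lit 432) (nat_lit 5551) (nat_lit 591) (nat_lit 6607)) (.f (nat_lit 498) (nat_lit 499) (nat_lit 1519) (.f (nat_lit 462) (nat_lit 463) (nat_lit 3534) (.f (nat_lit 494) (nat_lit 461) (nat_lit 3533) (.d (nat_lit 466) (nat_lit 465) (nat_lit 2510) (nat_lit 467) (nat_lit 2511)))))))))))))))))) (.a (.p (nat_lit 560) (.a (.f (nat_lit 592) (nat_lit 463) (nat_lit 7631) (.f (nat_lit 624) (nat_lit 527) (nat_lit 7663) (.d (nat_lit 623) (nat_lit 591) (nat_lit 5615) (nat_lit 655) (nat_lit 5647)))) (.a (.p (nat_lit 592) (.a (.f (nat_lit 624) (nat_lit 527) (nat_lit 7663) (.d (nat_lit 623) (nat_lit 591) (nat_lit 5615) (nat_lit 655) (nat_lit 5647))) (.a (.f (nat_lit 591) (nat_lit 623) (nat_lit 5615) (.f (nat_lit 593) (nat_lit 625) (nat_lit 4592) (.f (nat_lit 559) (nat_lit 464) (nat_lit 5583) (.d (nat_lit 594) (nat_lit 558) (nat_lit 3630) (nat_lit 595) (nat_lit 3631))))) (.f (nat_lit 624) (nat_lit 527) (nat_lit 7663) (.d (nat_lit 625) (nat_lit 593) (nat_lit 4592) (nat_lit 657) (nat_lit 4624)))))) (.a (.f (nat_lit 592) (nat_lit 463) (nat_lit 7631) (.f (nat_lit 591) (nat_lit 623) (nat_lit 5615) (.f (nat_lit 593) (nat_lit 625) (nat_lit 4592) (.f (nat_lit 559) (nat_lit 464) (nat_lit 5583) (.d (nat_lit 594) (nat_lit 558) (nat_lit 3630) (nat_lit 595) (nat_lit 3631)))))) (.a (.p (nat_lit 464) (.a (.f (nat_lit 559) (nat_lit 591) (nat_lit 5583) (.f (nat_lit 432) (nat_lit 527) (nat_lit 5551) (.d (nat_lit 433) (nat_lit 401) (nat_lit 6544) (nat_lit 465) (nat_lit 6576)))) (.a (.f (nat_lit 465) (nat_lit 433) (nat_lit 6576) (.f (nat_lit 463) (nat_lit 431) (nat_lit 7599) (.d (nat_lit 494) (nat_lit 466) (nat_lit 1486) (nat_lit 493) (nat_lit 2509)))) (.a (.f (nat_lit 559) (nat_lit 591) (nat_lit 5583) (.f (nat_lit 432) (nat_lit 527) (nat_lit 5551) (.f (nat_lit 399) (nat_lit 431) (nat_lit 7567) (.f (nat_lit 400) (nat_lit 367) (nat_lit 7535) (.d (nat_lit 401) (nat_lit 369) (nat_lit 6512) (nat_lit 433) (nat_lit 6544)))))) (.f (nat_lit 463) (nat_lit 431) (nat_lit 7599) (.f (nat_lit 559) (nat_lit 591) (nat_lit 5583) (.f (nat_lit 527) (nat_lit 432) (nat_lit 5551) (.f (nat_lit 462) (nat_lit 430) (nat_lit 7598) (.f (nat_lit 461) (nat_lit 460) (nat_lit 460) (.f (nat_lit 493) (nat_lit 492) (nat_lit 1484) (.f (nat_lit 494) (nat_lit 465) (nat_lit 2509) (.f (nat_lit 558) (nat_lit 590) (nat_lit 5582) (.d (nat_lit 429) (nat_lit 428) (nat_lit 3500) (nat_lit 526) (nat_lit 7597)))))))))))))) (.f (nat_lit 592) (nat_lit 463) (nat_lit 7631) (.f (nat_lit 624) (nat_lit 527) (nat_lit 7663) (.d (nat_lit 625) (nat_lit 593) (nat_lit 4592) (nat_lit 657) (nat_lit 4624))))))))) (.a (.p (nat_lit 560) (.a (.f (nat_lit 592) (nat_lit 463) (nat_lit 7631) (.f (nat_lit 624) (nat_lit 527) (nat_lit 7663) (.d (nat_lit 623) (nat_lit 591) (nat_lit 5615) (nat_lit 655) (nat_lit 5647)))) (.a s119244 (.a (.f (nat_lit 592) (nat_lit 463) (nat_lit 7631) (.f (nat_lit 465) (nat_lit 497) (nat_lit 6608) (.f (nat_lit 464) (nat_lit 433) (nat_lit 6576) (.d (nat_lit 591) (nat_lit 559) (nat_lit 5583) (nat_lit 623) (nat_lit 5615))))) (.a (.p (nat_lit 464) (.a (.f (nat_lit 559) (nat_lit 591) (nat_lit 5583) (.f (nat_lit 432) (nat_lit 527) (nat_lit 5551) (.d (nat_lit 433) (nat_lit 401) (nat_lit 6544) (nat_lit 465) (nat_lit 6576)))) (.a (.f (nat_lit 465) (nat_lit 433) (nat_lit 6576) (.f (nat_lit 466) (nat_lit 467) (nat_lit 1487) (.d (nat_lit 494) (nat_lit 493) (nat_lit 2509) (nat_lit 497) (nat_lit 2510)))) (.a (.f (nat_lit 559) (nat_lit 591) (nat_lit 5583) (.f (nat_lit 432) (nat_lit 527) (nat_lit 5551) (.f (nat_lit 399) (nat_lit 431) (nat_lit 7567) (.f (nat_lit 400) (nat_lit 367) (nat_lit 7535) (.d (nat_lit 401) (nat_lit 369) (nat_lit 6512) (nat_lit 433) (nat_lit 6544)))))) (.f (nat_lit 463) (nat_lit 431) (nat_lit 7599) (.f (nat_lit 559) (nat_lit 591) (nat_lit 5583) (.f (nat_lit 527) (nat_lit 432) (nat_lit 5551) (.f (nat_lit 558) (nat_lit 590) (nat_lit 5582) (.f (nat_lit 557) (nat_lit 556) (nat_lit 2572) (.f (nat_lit 525) (nat_lit 524) (nat_lit 3596) (.f (nat_lit 526) (nat_lit 497) (nat_lit 2541) (.f (nat_lit 589) (nat_lit 588) (nat_lit 1580) (.d (nat_lit 621) (nat_lit 494) (nat_lit 6637) (nat_lit 653) (nat_lit 6669)))))))))))))) (.f (nat_lit 592) (nat_lit 463) (nat_lit 7631) (.f (nat_lit 624) (nat_lit 527) (nat_lit 7663) (.d (nat_lit 625) (nat_lit 593) (nat_lit 4592) (nat_lit 657) (nat_lit 4624))))))))) (.a (.p (nat_lit 497) (.a (.p (nat_lit 494) (.a (.f (nat_lit 465) (nat_lit 466) (nat_lit 2510) (.f (nat_lit 464) (nat_lit 493) (nat_lit 2509) (.d (nat_lit 560) (nat_lit 433) (nat_lit 6576) (nat_lit 592) (nat_lit 6608)))) (.f (nat_lit 526) (nat_lit 525) (nat_lit 1517) (.f (nat_lit 527) (nat_lit 498) (nat_lit 1518) (.f (nat_lit 462) (nat_lit 461) (nat_lit 3533) (.d (nat_lit 430) (nat_lit 398) (nat_lit 4494) (nat_lit 559) (nat_lit 4526))))))) (.a (.p (nat_lit 463) (.a (.f (nat_lit 498) (nat_lit 462) (nat_lit 3534) (.d (nat_lit 527) (nat_lit 499) (nat_lit 1519) (nat_lit 526) (nat_lit 1518))) (.a (.f (nat_lit 498) (nat_lit 462) (nat_lit 3534) (.f (nat_lit 464) (nat_lit 499) (nat_lit 3535) (.d (nat_lit 560) (nat_lit 431) (nat_lit 7599) (nat_lit 592) (nat_lit 7631)))) (.f (nat_lit 560) (nat_lit 592) (nat_lit 7631) (.d (nat_lit 431) (nat_lit 399) (nat_lit 4495) (nat_lit 464) (nat_lit 7599)))))) (.a (.p (nat_lit 494) (.a (.f (nat_lit 465) (nat_lit 466) (nat_lit 2510) (.f (nat_lit 464) (nat_lit 493) (nat_lit 2509) (.d (nat_lit 560) (nat_lit 433) (nat_lit 6576) (nat_lit 592) (nat_lit 6608)))) (.a (.f (nat_lit 465) (nat_lit 466) (nat_lit 2510) (.f (nat_lit 493) (nat_lit 464) (nat_lit 2509) (.d (nat_lit 525) (nat_lit 524) (nat_lit 1516) (nat_lit 526) (nat_lit 1517)))) (.f (nat_lit 462) (nat_lit 461) (nat_lit 3533) (.f (nat_lit 463) (nat_lit 498) (nat_lit 3534) (.f (nat_lit 526) (nat_lit 525) (nat_lit 1517) (.d (nat_lit 431) (nat_lit 399) (nat_lit 4495) (nat_lit 558) (nat_lit 6574)))))))) (.a (.p (nat_lit 494) (.a (.f (nat_lit 526) (nat_lit 525) (nat_lit 1517) (.f (nat_lit 527) (nat_lit 498) (nat_lit 1518) (.f (nat_lit 462) (nat_lit 461) (nat_lit 3533) (.d (nat_lit 430) (nat_lit 398) (nat_lit 4494) (nat_lit 559) (nat_lit 4526))))) (.a (.f (nat_lit 465) (nat_lit 466) (nat_lit 2510) (.f (nat_lit 493) (nat_lit 464) (nat_lit 2509) (.d (nat_lit 525) (nat_lit 524) (nat_lit 1516) (nat_lit 526) (nat_lit 1517)))) (.f (nat_lit 465) (nat_lit 466) (nat_lit 2510) (.f (nat_lit 493) (nat_lit 464) (nat_lit 2509) (.d (nat_lit 461) (nat_lit 460) (nat_lit 3532) (nat_lit 462) (nat_lit 3533))))))) (.a s119200 (.a s119206 (.a (.p (nat_lit 494) (.a (.f (nat_lit 465) (nat_lit 466) (nat_lit 2510) (.f (nat_lit 464) (nat_lit 493) (nat_lit 2509) (.d (nat_lit 560) (nat_lit 433) (nat_lit 6576) (nat_lit 592) (nat_lit 6608)))) (.a (.f (nat_lit 465) (nat_lit 466) (nat_lit 2510) (.f (nat_lit 493) (nat_lit 464) (nat_lit 2509) (.d (nat_lit 525) (nat_lit 524) (nat_lit 1516) (nat_lit 526) (nat_lit 1517)))) (.a (.f (nat_lit 526) (nat_lit 525) (nat_lit 1517) (.f (nat_lit 498) (nat_lit 527) (nat_lit 1518) (.d (nat_lit 466) (nat_lit 465) (nat_lit 2510) (nat_lit 467) (nat_lit 2511)))) (.a (.f (nat_lit 526) (nat_lit 525) (nat_lit 1517) (.f (nat_lit 498) (nat_lit 527) (nat_lit 1518) (.f (nat_lit 531) (nat_lit 530) (nat_lit 495) (.f (nat_lit 499) (nat_lit 532) (nat_lit 496) (.d (nat_lit 467) (nat_lit 466) (nat_lit 2511) (nat_lit 468) (nat_lit 2512)))))) (.f (nat_lit 526) (nat_lit 525) (nat_lit 1517) (.f (nat_lit 498) (nat_lit 527) (nat_lit 1518) (.f (nat_lit 531) (nat_lit 530) (nat_lit 495) (.f (nat_lit 499) (nat_lit 532) (nat_lit 496) (.f (nat_lit 464) (nat_lit 463) (nat_lit 3535) (.d (nat_lit 465) (nat_lit 493) (nat_lit 2509) (nat_lit 500) (nat_lit 3536)))))))))))) s119217)))))))) (.a (.p (nat_lit 497) (.a s119217 (.a s119571 (.a s119279 (.a s119409 (.a (.p (nat_lit 494) (.a (.f (nat_lit 465) (nat_lit 466) (nat_lit 2510) (.f (nat_lit 462) (nat_lit 461) (nat_lit 3533) (.f (nat_lit 463) (nat_lit 498) (nat_lit 3534) (.f (nat_lit 560) (nat_lit 592) (nat_lit 6608) (.d (nat_lit 431) (nat_lit 399) (nat_lit 4495) (nat_lit 527) (nat_lit 4527)))))) (.a (.f (nat_lit 461) (nat_lit 462) (nat_lit 3533) (.f (nat_lit 493) (nat_lit 460) (nat_lit 3532) (.f (nat_lit 524) (nat_lit 525) (nat_lit 1516) (.d (nat_lit 492) (nat_lit 523) (nat_lit 1515) (nat_lit 527) (nat_lit 492))))) (.a (.f (nat_lit 462) (nat_lit 461) (nat_lit 3533) (.f (nat_lit 498) (nat_lit 463) (nat_lit 3534) (.d (nat_lit 466) (nat_lit 465) (nat_lit 2510) (nat_lit 467) (nat_lit 2511)))) (.f (nat_lit 466) (nat_lit 465) (nat_lit 2510) (.f (nat_lit 498) (nat_lit 467) (nat_lit 2511) (.f (nat_lit 499) (nat_lit 527) (nat_lit 1519) (.d (nat_lit 531) (nat_lit 530) (nat_lit 495) (nat_lit 532) (nat_lit 496))))))))) (.a (.p (nat_lit 498) (.a (.f (nat_lit 467) (nat_lit 466) (nat_lit 2511) (.f (nat_lit 499) (nat_lit 468) (nat_lit 2512) (.d (nat_lit 531) (nat_lit 530) (nat_lit 495) (nat_lit 532) (nat_lit 496)))) (.a (.f (nat_lit 466) (nat_lit 467) (nat_lit 2511) (.f (nat_lit 465) (nat_lit 494) (nat_lit 2510) (.f (nat_lit 433) (nat_lit 401) (nat_lit 5520) (.d (nat_lit 560) (nat_lit 464) (nat_lit 6576) (nat_lit 592) (nat_lit 6608))))) (.f (nat_lit 499) (nat_lit 527) (nat_lit 1519) (.d (nat_lit 531) (nat_lit 530) (nat_lit 495) (nat_lit 532) (nat_lit 496)))))) (.p (nat_lit 463) (.a (.f (nat_lit 498) (nat_lit 462) (nat_lit 3534) (.f (nat_lit 464) (nat_lit 499) (nat_lit 3535) (.d (nat_lit 560) (nat_lit 431) (nat_lit 7599) (nat_lit 592) (nat_lit 7631)))) (.a (.f (nat_lit 498) (nat_lit 462) (nat_lit 3534) (.d (nat_lit 499) (nat_lit 464) (nat_lit 3535) (nat_lit 527) (nat_lit 1519))) (.f (nat_lit 560) (nat_lit 592) (nat_lit 7631) (.d (nat_lit 431) (nat_lit 399) (nat_lit 4495) (nat_lit 527) (nat_lit 4527))))))))))))) (.a (.p (nat_lit 527) (.a s119412 (.a s119428 (.a (.p (nat_lit 494) (.a (.f (nat_lit 493) (nat_lit 492) (nat_lit 492) (.f (nat_lit 525) (nat_lit 524) (nat_lit 1516) (.f (nat_lit 497) (nat_lit 526) (nat_lit 1517) (.d (nat_lit 461) (nat_lit 460) (nat_lit 3532) (nat_lit 462) (nat_lit 3533))))) (.a (.p (nat_lit 462) (.a (.f (nat_lit 430) (nat_lit 398) (nat_lit 4494) (.d (nat_lit 559) (nat_lit 526) (nat_lit 4526) (nat_lit 591) (nat_lit 7630))) (.a (.f (nat_lit 493) (nat_lit 492) (nat_lit 492) (.f (nat_lit 525) (nat_lit 524) (nat_lit 1516) (.f (nat_lit 430) (nat_lit 398) (nat_lit 4494) (.d (nat_lit 557) (nat_lit 526) (nat_lit 5549) (nat_lit 589) (nat_lit 6605))))) (.a (.f (nat_lit 493) (nat_lit 492) (nat_lit 492) (.f (nat_lit 525) (nat_lit 524) (nat_lit 1516) (.f (nat_lit 430) (nat_lit 398) (nat_lit 4494) (.d (nat_lit 557) (nat_lit 461) (nat_lit 6573) (nat_lit 589) (nat_lit 6605))))) (.f (nat_lit 493) (nat_lit 492) (nat_lit 492) (.f (nat_lit 461) (nat_lit 460) (nat_lit 3532) (.f (nat_lit 525) (nat_lit 524) (nat_lit 1516) (.f (nat_lit 557) (nat_lit 589) (nat_lit 6605) (.d (nat_lit 556) (nat_lit 526) (nat_lit 1548) (nat_lit 588) (nat_lit 5580)))))))))) (.a (.p (nat_lit 462) (.a (.f (nat_lit 430) (nat_lit 398) (nat_lit 4494) (.d (nat_lit 559) (nat_lit 526) (nat_lit 4526) (nat_lit 591) (nat_lit 7630))) (.a (.f (nat_lit 497) (nat_lit 461) (nat_lit 3533) (.d (nat_lit 526) (nat_lit 498) (nat_lit 1518) (nat_lit 525) (nat_lit 2541))) (.f (nat_lit 559) (nat_lit 591) (nat_lit 7630) (.f (nat_lit 461) (nat_lit 497) (nat_lit 3533) (.f (nat_lit 432) (nat_lit 464) (nat_lit 5551) (.f (nat_lit 430) (nat_lit 398) (nat_lit 4494) (.f (nat_lit 431) (nat_lit 433) (nat_lit 1453) (.d (nat_lit 460) (nat_lit 429) (nat_lit 1452) (nat_lit 459) (nat_lit 459)))))))))) (.a (.f (nat_lit 493) (nat_lit 492) (nat_lit 492) (.f (nat_lit 525) (nat_lit 524) (nat_lit 1516) (.f (nat_lit 526) (nat_lit 497) (nat_lit 1517) (.f (nat_lit 461) (nat_lit 460) (nat_lit 3532) (.d (nat_lit 429) (nat_lit 397) (nat_lit 4493) (nat_lit 558) (nat_lit 4525)))))) (.a (.f (nat_lit 493) (nat_lit 492) (nat_lit 492) (.f (nat_lit 461) (nat_lit 460) (nat_lit 3532) (.f (nat_lit 462) (nat_lit 497) (nat_lit 3533) (.f (nat_lit 525) (nat_lit 524) (nat_lit 1516) (.d (nat_lit 430) (nat_lit 398) (nat_lit 4494) (nat_lit 557) (nat_lit 6573)))))) (.a (.f (nat_lit 493) (nat_lit 492) (nat_lit 492) (.f (nat_lit 461) (nat_lit 460) (nat_lit 3532) (.f (nat_lit 462) (nat_lit 497) (nat_lit 3533) (.f (nat_lit 559) (nat_lit 591) (nat_lit 7630) (.d (nat_lit 430) (nat_lit 398) (nat_lit 4494) (nat_lit 526) (nat_lit 4526)))))) (.f (nat_lit 493) (nat_lit 492) (nat_lit 492) (.f (nat_lit 525) (nat_lit 524) (nat_lit 1516) (.f (nat_lit 526) (nat_lit 497) (nat_lit 1517) (.f (nat_lit 557) (nat_lit 556) (nat_lit 1548) (.d (nat_lit 462) (nat_lit 430) (nat_lit 5549) (nat_lit 589) (nat_lit 6605))))))))))))) (.a s119451 (.a s119444 (.a (.p (nat_lit 494) (.a (.f (nat_lit 493) (nat_lit 492) (nat_lit 492) (.f (nat_lit 525) (nat_lit 524) (nat_lit 1516) (.f (nat_lit 497) (nat_lit 526) (nat_lit 1517) (.d (nat_lit 461) (nat_lit 460) (nat_lit 3532) (nat_lit 462) (nat_lit 3533))))) (.a (.p (nat_lit 462) (.a (.f (nat_lit 559) (nat_lit 591) (nat_lit 7630) (.d (nat_lit 430) (nat_lit 398) (nat_lit 4494) (nat_lit 463) (nat_lit 7598))) (.a (.f (nat_lit 430) (nat_lit 398) (nat_lit 4494) (.d (nat_lit 559) (nat_lit 526) (nat_lit 4526) (nat_lit 591) (nat_lit 7630))) (.a (.f (nat_lit 493) (nat_lit 492) (nat_lit 492) (.f (nat_lit 525) (nat_lit 524) (nat_lit 1516) (.f (nat_lit 430) (nat_lit 398) (nat_lit 4494) (.d (nat_lit 557) (nat_lit 526) (nat_lit 5549) (nat_lit 589) (nat_lit 6605))))) (.f (nat_lit 493) (nat_lit 492) (nat_lit 492) (.f (nat_lit 461) (nat_lit 460) (nat_lit 3532) (.f (nat_lit 525) (nat_lit 524) (nat_lit 1516) (.f (nat_lit 557) (nat_lit 589) (nat_lit 6605) (.d (nat_lit 556) (nat_lit 526) (nat_lit 1548) (nat_lit 588) (nat_lit 5580)))))))))) (.a (.p (nat_lit 497) (.a (.f (nat_lit 526) (nat_lit 525) (nat_lit 2541) (.f (nat_lit 462) (nat_lit 461) (nat_lit 3533) (.d (nat_lit 430) (nat_lit 398) (nat_lit 4494) (nat_lit 559) (nat_lit 4526)))) (.a (.d (nat_lit 526) (nat_lit 498) (nat_lit 1518) (nat_lit 525) (nat_lit 1517)) (.f (nat_lit 462) (nat_lit 461) (nat_lit 3533) (.f (nat_lit 559) (nat_lit 591) (nat_lit 7630) (.d (nat_lit 430) (nat_lit 398) (nat_lit 4494) (nat_lit 463) (nat_lit 7598))))))) (.a (.f (nat_lit 493) (nat_lit 492) (nat_lit 492) (.f (nat_lit 525) (nat_lit 524) (nat_lit 1516) (.f (nat_lit 526) (nat_lit 497) (nat_lit 1517) (.f (nat_lit 461) (nat_lit 460) (nat_lit 3532) (.d (nat_lit 429) (nat_lit 397) (nat_lit 4493) (nat_lit 558) (nat_lit 4525)))))) (.a (.f (nat_lit 493) (nat_lit 492) (nat_lit 492) (.f (nat_lit 461) (nat_lit 460) (nat_lit 3532) (.f (nat_lit 462) (nat_lit 497) (nat_lit 3533) (.f (nat_lit 430) (nat_lit 398) (nat_lit 4494) (.d (nat_lit 559) (nat_lit 463) (nat_lit 7598) (nat_lit 591) (nat_lit 7630)))))) (.f (nat_lit 493) (nat_lit 492) (nat_lit 492) (.f (nat_lit 525) (nat_lit 524) (nat_lit 1516) (.f (nat_lit 526) (nat_lit 497) (nat_lit 1517) (.f (nat_lit 557) (nat_lit 556) (nat_lit 1548) (.d (nat_lit 462) (nat_lit 430) (nat_lit 5549) (nat_lit 589) (nat_lit 6605)))))))))))) (.a (.p (nat_lit 464) (.a (.d (nat_lit 432) (nat_lit 400) (nat_lit 5519) (nat_lit 559) (nat_lit 5551)) (.a (.f (nat_lit 432) (nat_lit 400) (nat_lit 5519) (.f (nat_lit 431) (nat_lit 399) (nat_lit 7567) (.f (nat_lit 463) (nat_lit 560) (nat_lit 4527) (.f (nat_lit 526) (nat_lit 558) (nat_lit 5550) (.d (nat_lit 497) (nat_lit 498) (nat_lit 1518) (nat_lit 525) (nat_lit 2541)))))) (.p (nat_lit 560) (.a (.d (nat_lit 463) (nat_lit 431) (nat_lit 4527) (nat_lit 592) (nat_lit 7631)) (.a (.f (nat_lit 591) (nat_lit 559) (nat_lit 6607) (.d (nat_lit 592) (nat_lit 623) (nat_lit 5615) (nat_lit 624) (nat_lit 7663))) (.f (nat_lit 463) (nat_lit 431) (nat_lit 7599) (.f (nat_lit 559) (nat_lit 591) (nat_lit 6607) (.f (nat_lit 558) (nat_lit 590) (nat_lit 5582) (.f (nat_lit 557) (nat_lit 556) (nat_lit 2572) (.f (nat_lit 525) (nat_lit 524) (nat_lit 3596) (.f (nat_lit 526) (nat_lit 497) (nat_lit 2541) (.f (nat_lit 589) (nat_lit 588) (nat_lit 1580) (.d (nat_lit 621) (nat_lit 494) (nat_lit 6637) (nat_lit 653) (nat_lit 6669))))))))))))))) s119470)))))))) (.p (nat_lit 497) (.a (.p (nat_lit 463) (.a (.f (nat_lit 498) (nat_lit 462) (nat_lit 3534) (.d (nat_lit 527) (nat_lit 499) (nat_lit 1519) (nat_lit 526) (nat_lit 1518))) (.a (.f (nat_lit 498) (nat_lit 462) (nat_lit 3534) (.f (nat_lit 464) (nat_lit 499) (nat_lit 3535) (.d (nat_lit 560) (nat_lit 431) (nat_lit 7599) (nat_lit 592) (nat_lit 7631)))) (.f (nat_lit 560) (nat_lit 592) (nat_lit 7631) (.d (nat_lit 431) (nat_lit 399) (nat_lit 4495) (nat_lit 464) (nat_lit 7599)))))) (.a (.p (nat_lit 494) (.a (.f (nat_lit 526) (nat_lit 525) (nat_lit 1517) (.f (nat_lit 527) (nat_lit 498) (nat_lit 1518) (.f (nat_lit 462) (nat_lit 461) (nat_lit 3533) (.d (nat_lit 430) (nat_lit 398) (nat_lit 4494) (nat_lit 559) (nat_lit 4526))))) (.a (.f (nat_lit 465) (nat_lit 466) (nat_lit 2510) (.f (nat_lit 493) (nat_lit 464) (nat_lit 2509) (.d (nat_lit 525) (nat_lit 524) (nat_lit 1516) (nat_lit 526) (nat_lit 1517)))) (.f (nat_lit 465) (nat_lit 466) (nat_lit 2510) (.f (nat_lit 493) (nat_lit 464) (nat_lit 2509) (.d (nat_lit 461) (nat_lit 460) (nat_lit 3532) (nat_lit 462) (nat_lit 3533))))))) (.a s119571 (.a (.p (nat_lit 494) (.a (.f (nat_lit 525) (nat_lit 526) (nat_lit 1517) (.f (nat_lit 493) (nat_lit 524) (nat_lit 1516) (.d (nat_lit 461) (nat_lit 460) (nat_lit 3532) (nat_lit 462) (nat_lit 3533)))) (.a (.p (nat_lit 463) (.a (.f (nat_lit 526) (nat_lit 525) (nat_lit 1517) (.f (nat_lit 431) (nat_lit 399) (nat_lit 4495) (.d (nat_lit 558) (nat_lit 527) (nat_lit 5550) (nat_lit 590) (nat_lit 6606)))) (.a (.f (nat_lit 462) (nat_lit 461) (nat_lit 3533) (.f (nat_lit 431) (nat_lit 399) (nat_lit 4495) (.d (nat_lit 526) (nat_lit 525) (nat_lit 1517) (nat_lit 558) (nat_lit 6574)))) (.a (.f (nat_lit 462) (nat_lit 461) (nat_lit 3533) (.f (nat_lit 526) (nat_lit 525) (nat_lit 1517) (.f (nat_lit 558) (nat_lit 590) (nat_lit 6606) (.f (nat_lit 559) (nat_lit 591) (nat_lit 4558) (.f (nat_lit 527) (nat_lit 430) (nat_lit 4526) (.d (nat_lit 557) (nat_lit 556) (nat_lit 2572) (nat_lit 589) (nat_lit 5581))))))) (.f (nat_lit 431) (nat_lit 399) (nat_lit 4495) (.d (nat_lit 560) (nat_lit 527) (nat_lit 4527) (nat_lit 592) (nat_lit 7631))))))) (.a (.f (nat_lit 525) (nat_lit 526) (nat_lit 1517) (.f (nat_lit 493) (nat_lit 524) (nat_lit 1516) (.f (nat_lit 492) (nat_lit 527) (nat_lit 492) (.d (nat_lit 460) (nat_lit 459) (nat_lit 3531) (nat_lit 461) (nat_lit 3532))))) (.a (.f (nat_lit 461) (nat_lit 462) (nat_lit 3533) (.f (nat_lit 493) (nat_lit 460) (nat_lit 3532) (.f (nat_lit 524) (nat_lit 525) (nat_lit 1516) (.d (nat_lit 492) (nat_lit 523) (nat_lit 1515) (nat_lit 527) (nat_lit 492))))) (.a (.p (nat_lit 463) (.a (.f (nat_lit 431) (nat_lit 399) (nat_lit 4495) (.d (nat_lit 560) (nat_lit 527) (nat_lit 4527) (nat_lit 592) (nat_lit 7631))) (.a (.f (nat_lit 431) (nat_lit 399) (nat_lit 4495) (.d (nat_lit 560) (nat_lit 464) (nat_lit 7599) (nat_lit 592) (nat_lit 7631))) (.f (nat_lit 461) (nat_lit 462) (nat_lit 3533) (.f (nat_lit 493) (nat_lit 460) (nat_lit 3532) (.d (nat_lit 492) (nat_lit 464) (nat_lit 2508) (nat_lit 527) (nat_lit 492))))))) (.f (nat_lit 525) (nat_lit 526) (nat_lit 1517) (.f (nat_lit 493) (nat_lit 524) (nat_lit 1516) (.f (nat_lit 492) (nat_lit 527) (nat_lit 492) (.f (nat_lit 463) (nat_lit 464) (nat_lit 2508) (.f (nat_lit 491) (nat_lit 462) (nat_lit 2507) (.d (nat_lit 459) (nat_lit 458) (nat_lit 3530) (nat_lit 460) (nat_lit 3531))))))))))))) (.a s119206 s119408)))))))))))))))))))) (.a (.p (nat_lit 496) (.a (.p (nat_lit 494) (.a (.f (nat_lit 493) (nat_lit 529) (nat_lit 493) (.f (nat_lit 492) (nat_lit 527) (nat_lit 492) (.d (nat_lit 464) (nat_lit 463) (nat_lit 2508) (nat_lit 465) (nat_lit 2509)))) (.a (.f (nat_lit 493) (nat_lit 529) (nat_lit 493) (.f (nat_lit 464) (nat_lit 465) (nat_lit 2509) (.f (nat_lit 463) (nat_lit 492) (nat_lit 2508) (.d (nat_lit 560) (nat_lit 431) (nat_lit 7599) (nat_lit 592) (nat_lit 7631))))) (.a (.f (nat_lit 493) (nat_lit 529) (nat_lit 493) (.f (nat_lit 527) (nat_lit 492) (nat_lit 492) (.f (nat_lit 464) (nat_lit 465) (nat_lit 2509) (.d (nat_lit 559) (nat_lit 432) (nat_lit 5551) (nat_lit 591) (nat_lit 6607))))) (.a (.p (nat_lit 497) (.a (.f (nat_lit 529) (nat_lit 530) (nat_lit 494) (.f (nat_lit 465) (nat_lit 466) (nat_lit 2510) (.d (nat_lit 560) (nat_lit 433) (nat_lit 5552) (nat_lit 592) (nat_lit 6608)))) (.a (.f (nat_lit 465) (nat_lit 466) (nat_lit 2510) (.f (nat_lit 560) (nat_lit 592) (nat_lit 6608) (.d (nat_lit 433) (nat_lit 401) (nat_lit 5520) (nat_lit 464) (nat_lit 6576)))) (.a (.f (nat_lit 529) (nat_lit 530) (nat_lit 494) (.f (nat_lit 465) (nat_lit 466) (nat_lit 2510) (.d (nat_lit 433) (nat_lit 401) (nat_lit 5520) (nat_lit 560) (nat_lit 5552)))) (.f (nat_lit 526) (nat_lit 525) (nat_lit 1517) (.f (nat_lit 498) (nat_lit 527) (nat_lit 1518) (.d (nat_lit 462) (nat_lit 461) (nat_lit 3533) (nat_lit 463) (nat_lit 3534)))))))) (.a (.p (nat_lit 497) (.a (.f (nat_lit 465) (nat_lit 466) (nat_lit 2510) (.f (nat_lit 560) (nat_lit 592) (nat_lit 6608) (.d (nat_lit 433) (nat_lit 401) (nat_lit 5520) (nat_lit 464) (nat_lit 6576)))) (.f (nat_lit 526) (nat_lit 525) (nat_lit 1517) (.f (nat_lit 498) (nat_lit 527) (nat_lit 1518) (.d (nat_lit 462) (nat_lit 461) (nat_lit 3533) (nat_lit 463) (nat_lit 3534)))))) (.f (nat_lit 493) (nat_lit 529) (nat_lit 493) (.f (nat_lit 492) (nat_lit 527) (nat_lit 492) (.d (nat_lit 524) (nat_lit 523) (nat_lit 1515) (nat_lit 525) (nat_lit 1516)))))))))) (.a (.p (nat_lit 494) (.a (.f (nat_lit 493) (nat_lit 529) (nat_lit 493) (.f (nat_lit 464) (nat_lit 465) (nat_lit 2509) (.f (nat_lit 463) (nat_lit 492) (nat_lit 2508) (.d (nat_lit 560) (nat_lit 431) (nat_lit 7599) (nat_lit 592) (nat_lit 7631))))) (.a (.f (nat_lit 493) (nat_lit 529) (nat_lit 493) (.f (nat_lit 465) (nat_lit 464) (nat_lit 2509) (.f (nat_lit 497) (nat_lit 466) (nat_lit 2510) (.d (nat_lit 525) (nat_lit 524) (nat_lit 1516) (nat_lit 526) (nat_lit 1517))))) (.a (.p (nat_lit 497) (.a (.f (nat_lit 529) (nat_lit 530) (nat_lit 494) (.f (nat_lit 465) (nat_lit 466) (nat_lit 2510) (.d (nat_lit 560) (nat_lit 433) (nat_lit 5552) (nat_lit 592) (nat_lit 6608)))) (.a (.f (nat_lit 465) (nat_lit 466) (nat_lit 2510) (.f (nat_lit 560) (nat_lit 592) (nat_lit 6608) (.d (nat_lit 433) (nat_lit 401) (nat_lit 5520) (nat_lit 464) (nat_lit 6576)))) (.a (.f (nat_lit 529) (nat_lit 530) (nat_lit 494) (.f (nat_lit 465) (nat_lit 466) (nat_lit 2510) (.d (nat_lit 433) (nat_lit 401) (nat_lit 5520) (nat_lit 560) (nat_lit 5552)))) (.a (.f (nat_lit 530) (nat_lit 529) (nat_lit 494) (.f (nat_lit 498) (nat_lit 531) (nat_lit 495) (.d (nat_lit 466) (nat_lit 465) (nat_lit 2510) (nat_lit 467) (nat_lit 2511)))) (.f (nat_lit 462) (nat_lit 461) (nat_lit 3533) (.f (nat_lit 463) (nat_lit 498) (nat_lit 3534) (.f (nat_lit 431) (nat_lit 399) (nat_lit 4495) (.d (nat_lit 560) (nat_lit 464) (nat_lit 7599) (nat_lit 592) (nat_lit 7631)))))))))) (.a (.p (nat_lit 497) (.a (.f (nat_lit 465) (nat_lit 466) (nat_lit 2510) (.f (nat_lit 560) (nat_lit 592) (nat_lit 6608) (.d (nat_lit 433) (nat_lit 401) (nat_lit 5520) (nat_lit 464) (nat_lit 6576)))) (.a (.f (nat_lit 465) (nat_lit 466) (nat_lit 2510) (.f (nat_lit 464) (nat_lit 493) (nat_lit 2509) (.d (nat_lit 433) (nat_lit 401) (nat_lit 5520) (nat_lit 560) (nat_lit 6576)))) (.a (.f (nat_lit 465) (nat_lit 466) (nat_lit 2510) (.f (nat_lit 493) (nat_lit 464) (nat_lit 2509) (.d (nat_lit 525) (nat_lit 524) (nat_lit 1516) (nat_lit 526) (nat_lit 1517)))) (.a (.f (nat_lit 462) (nat_lit 461) (nat_lit 3533) (.f (nat_lit 463) (nat_lit 498) (nat_lit 3534) (.f (nat_lit 431) (nat_lit 399) (nat_lit 4495) (.d (nat_lit 560) (nat_lit 464) (nat_lit 7599) (nat_lit 592) (nat_lit 7631))))) (.f (nat_lit 461) (nat_lit 462) (nat_lit 3533) (.f (nat_lit 493) (nat_lit 460) (nat_lit 3532) (.d (nat_lit 525) (nat_lit 524) (nat_lit 1516) (nat_lit 526) (nat_lit 1517))))))))) (.f (nat_lit 493) (nat_lit 529) (nat_lit 493) (.f (nat_lit 525) (nat_lit 524) (nat_lit 1516) (.f (nat_lit 461) (nat_lit 460) (nat_lit 3532) (.d (nat_lit 497) (nat_lit 462) (nat_lit 3533) (nat_lit 526) (nat_lit 1517)))))))))) (.a (.p (nat_lit 494) (.a (.f (nat_lit 493) (nat_lit 529) (nat_lit 493) (.f (nat_lit 527) (nat_lit 492) (nat_lit 492) (.f (nat_lit 464) (nat_lit 465) (nat_lit 2509) (.d (nat_lit 559) (nat_lit 432) (nat_lit 5551) (nat_lit 591) (nat_lit 6607))))) (.a (.f (nat_lit 493) (nat_lit 529) (nat_lit 493) (.f (nat_lit 465) (nat_lit 464) (nat_lit 2509) (.f (nat_lit 497) (nat_lit 466) (nat_lit 2510) (.d (nat_lit 525) (nat_lit 524) (nat_lit 1516) (nat_lit 526) (nat_lit 1517))))) (.a (.p (nat_lit 497) (.a (.f (nat_lit 529) (nat_lit 530) (nat_lit 494) (.f (nat_lit 465) (nat_lit 466) (nat_lit 2510) (.d (nat_lit 560) (nat_lit 433) (nat_lit 5552) (nat_lit 592) (nat_lit 6608)))) (.a (.f (nat_lit 465) (nat_lit 466) (nat_lit 2510) (.f (nat_lit 560) (nat_lit 592) (nat_lit 6608) (.d (nat_lit 433) (nat_lit 401) (nat_lit 5520) (nat_lit 464) (nat_lit 6576)))) (.a (.f (nat_lit 529) (nat_lit 530) (nat_lit 494) (.f (nat_lit 465) (nat_lit 466) (nat_lit 2510) (.d (nat_lit 433) (nat_lit 401) (nat_lit 5520) (nat_lit 560) (nat_lit 5552)))) (.a (.f (nat_lit 530) (nat_lit 529) (nat_lit 494) (.f (nat_lit 498) (nat_lit 531) (nat_lit 495) (.d (nat_lit 466) (nat_lit 465) (nat_lit 2510) (nat_lit 467) (nat_lit 2511)))) (.f (nat_lit 529) (nat_lit 530) (nat_lit 494) (.f (nat_lit 526) (nat_lit 525) (nat_lit 1517) (.f (nat_lit 527) (nat_lit 498) (nat_lit 2542) (.f (nat_lit 462) (nat_lit 461) (nat_lit 3533) (.d (nat_lit 430) (nat_lit 398) (nat_lit 4494) (nat_lit 559) (nat_lit 4526))))))))))) (.a (.p (nat_lit 497) (.a (.f (nat_lit 465) (nat_lit 466) (nat_lit 2510) (.f (nat_lit 560) (nat_lit 592) (nat_lit 6608) (.d (nat_lit 433) (nat_lit 401) (nat_lit 5520) (nat_lit 464) (nat_lit 6576)))) (.a (.f (nat_lit 465) (nat_lit 466) (nat_lit 2510) (.f (nat_lit 464) (nat_lit 493) (nat_lit 2509) (.d (nat_lit 433) (nat_lit 401) (nat_lit 5520) (nat_lit 560) (nat_lit 6576)))) (.a (.f (nat_lit 465) (nat_lit 466) (nat_lit 2510) (.f (nat_lit 493) (nat_lit 464) (nat_lit 2509) (.d (nat_lit 525) (nat_lit 524) (nat_lit 1516) (nat_lit 526) (nat_lit 1517)))) (.f (nat_lit 461) (nat_lit 462) (nat_lit 3533) (.f (nat_lit 493) (nat_lit 460) (nat_lit 3532) (.d (nat_lit 525) (nat_lit 524) (nat_lit 1516) (nat_lit 526) (nat_lit 1517)))))))) (.f (nat_lit 493) (nat_lit 529) (nat_lit 493) (.f (nat_lit 492) (nat_lit 527) (nat_lit 492) (.d (nat_lit 524) (nat_lit 523) (nat_lit 1515) (nat_lit 525) (nat_lit 1516))))))))) (.a (.p (nat_lit 497) (.a (.p (nat_lit 494) (.a (.f (nat_lit 529) (nat_lit 530) (nat_lit 494) (.f (nat_lit 465) (nat_lit 466) (nat_lit 2510) (.d (nat_lit 560) (nat_lit 433) (nat_lit 5552) (nat_lit 592) (nat_lit 6608)))) (.a (.f (nat_lit 465) (nat_lit 466) (nat_lit 2510) (.f (nat_lit 560) (nat_lit 592) (nat_lit 6608) (.d (nat_lit 433) (nat_lit 401) (nat_lit 5520) (nat_lit 464) (nat_lit 6576)))) (.a (.f (nat_lit 529) (nat_lit 530) (nat_lit 494) (.f (nat_lit 465) (nat_lit 466) (nat_lit 2510) (.d (nat_lit 433) (nat_lit 401) (nat_lit 5520) (nat_lit 560) (nat_lit 5552)))) (.f (nat_lit 526) (nat_lit 525) (nat_lit 1517) (.f (nat_lit 498) (nat_lit 527) (nat_lit 1518) (.d (nat_lit 462) (nat_lit 461) (nat_lit 3533) (nat_lit 463) (nat_lit 3534)))))))) (.a (.p (nat_lit 494) (.a (.f (nat_lit 529) (nat_lit 530) (nat_lit 494) (.f (nat_lit 465) (nat_lit 466) (nat_lit 2510) (.d (nat_lit 560) (nat_lit 433) (nat_lit 5552) (nat_lit 592) (nat_lit 6608)))) (.a (.f (nat_lit 465) (nat_lit 466) (nat_lit 2510) (.f (nat_lit 560) (nat_lit 592) (nat_lit 6608) (.d (nat_lit 433) (nat_lit 401) (nat_lit 5520) (nat_lit 464) (nat_lit 6576)))) (.a (.f (nat_lit 529) (nat_lit 530) (nat_lit 494) (.f (nat_lit 465) (nat_lit 466) (nat_lit 2510) (.d (nat_lit 433) (nat_lit 401) (nat_lit 5520) (nat_lit 560) (nat_lit 5552)))) (.a (.f (nat_lit 530) (nat_lit 529) (nat_lit 494) (.f (nat_lit 498) (nat_lit 531) (nat_lit 495) (.d (nat_lit 466) (nat_lit 465) (nat_lit 2510) (nat_lit 467) (nat_lit 2511)))) (.f (nat_lit 462) (nat_lit 461) (nat_lit 3533) (.f (nat_lit 463) (nat_lit 498) (nat_lit 3534) (.f (nat_lit 431) (nat_lit 399) (nat_lit 4495) (.d (nat_lit 560) (nat_lit 464) (nat_lit 7599) (nat_lit 592) (nat_lit 7631)))))))))) (.a (.p (nat_lit 494) (.a (.f (nat_lit 529) (nat_lit 530) (nat_lit 494) (.f (nat_lit 465) (nat_lit 466) (nat_lit 2510) (.d (nat_lit 560) (nat_lit 433) (nat_lit 5552) (nat_lit 592) (nat_lit 6608)))) (.a (.f (nat_lit 465) (nat_lit 466) (nat_lit 2510) (.f (nat_lit 560) (nat_lit 592) (nat_lit 6608) (.d (nat_lit 433) (nat_lit 401) (nat_lit 5520) (nat_lit 464) (nat_lit 6576)))) (.a (.f (nat_lit 529) (nat_lit 530) (nat_lit 494) (.f (nat_lit 465) (nat_lit 466) (nat_lit 2510) (.d (nat_lit 433) (nat_lit 401) (nat_lit 5520) (nat_lit 560) (nat_lit 5552)))) (.a (.f (nat_lit 530) (nat_lit 529) (nat_lit 494) (.f (nat_lit 498) (nat_lit 531) (nat_lit 495) (.d (nat_lit 466) (nat_lit 465) (nat_lit 2510) (nat_lit 467) (nat_lit 2511)))) (.f (nat_lit 529) (nat_lit 530) (nat_lit 494) (.f (nat_lit 526) (nat_lit 525) (nat_lit 1517) (.f (nat_lit 527) (nat_lit 498) (nat_lit 2542) (.f (nat_lit 462) (nat_lit 461) (nat_lit 3533) (.d (nat_lit 430) (nat_lit 398) (nat_lit 4494) (nat_lit 559) (nat_lit 4526))))))))))) (.a (.p (nat_lit 463) (.a (.f (nat_lit 498) (nat_lit 462) (nat_lit 3534) (.d (nat_lit 527) (nat_lit 499) (nat_lit 1519) (nat_lit 526) (nat_lit 1518))) (.a (.f (nat_lit 498) (nat_lit 462) (nat_lit 3534) (.f (nat_lit 499) (nat_lit 464) (nat_lit 3535) (.d (nat_lit 531) (nat_lit 530) (nat_lit 495) (nat_lit 532) (nat_lit 496)))) (.f (nat_lit 560) (nat_lit 592) (nat_lit 7631) (.d (nat_lit 431) (nat_lit 399) (nat_lit 4495) (nat_lit 464) (nat_lit 7599)))))) (.a (.p (nat_lit 494) (.a (.f (nat_lit 529) (nat_lit 530) (nat_lit 494) (.f (nat_lit 465) (nat_lit 466) (nat_lit 2510) (.d (nat_lit 433) (nat_lit 401) (nat_lit 5520) (nat_lit 560) (nat_lit 5552)))) (.f (nat_lit 526) (nat_lit 525) (nat_lit 1517) (.f (nat_lit 498) (nat_lit 527) (nat_lit 1518) (.d (nat_lit 462) (nat_lit 461) (nat_lit 3533) (nat_lit 463) (nat_lit 3534)))))) (.a (.p (nat_lit 494) (.a (.f (nat_lit 526) (nat_lit 525) (nat_lit 1517) (.f (nat_lit 498) (nat_lit 527) (nat_lit 1518) (.d (nat_lit 462) (nat_lit 461) (nat_lit 3533) (nat_lit 463) (nat_lit 3534)))) (.a (.f (nat_lit 530) (nat_lit 529) (nat_lit 494) (.f (nat_lit 498) (nat_lit 531) (nat_lit 495) (.d (nat_lit 466) (nat_lit 465) (nat_lit 2510) (nat_lit 467) (nat_lit 2511)))) (.f (nat_lit 529) (nat_lit 530) (nat_lit 494) (.f (nat_lit 465) (nat_lit 466) (nat_lit 2510) (.f (nat_lit 433) (nat_lit 401) (nat_lit 5520) (.f (nat_lit 432) (nat_lit 400) (nat_lit 7568) (.f (nat_lit 462) (nat_lit 461) (nat_lit 3533) (.f (nat_lit 434) (nat_lit 402) (nat_lit 6545) (.d (nat_lit 463) (nat_lit 431) (nat_lit 1454) (nat_lit 464) (nat_lit 2478))))))))))) (.a (.p (nat_lit 494) (.a (.f (nat_lit 465) (nat_lit 466) (nat_lit 2510) (.f (nat_lit 560) (nat_lit 592) (nat_lit 6608) (.d (nat_lit 433) (nat_lit 401) (nat_lit 5520) (nat_lit 464) (nat_lit 6576)))) (.f (nat_lit 526) (nat_lit 525) (nat_lit 1517) (.f (nat_lit 498) (nat_lit 527) (nat_lit 1518) (.d (nat_lit 462) (nat_lit 461) (nat_lit 3533) (nat_lit 463) (nat_lit 3534)))))) (.a (.p (nat_lit 465) (.a (.f (nat_lit 560) (nat_lit 592) (nat_lit 6608) (.d (nat_lit 433) (nat_lit 401) (nat_lit 5520) (nat_lit 464) (nat_lit 6576))) (.a (.f (nat_lit 433) (nat_lit 401) (nat_lit 5520) (.d (nat_lit 560) (nat_lit 464) (nat_lit 6576) (nat_lit 529) (nat_lit 5552))) (.a (.f (nat_lit 494) (nat_lit 466) (nat_lit 2510) (.f (nat_lit 529) (nat_lit 530) (nat_lit 494) (.f (nat_lit 433) (nat_lit 401) (nat_lit 5520) (.f (nat_lit 432) (nat_lit 400) (nat_lit 7568) (.f (nat_lit 462) (nat_lit 461) (nat_lit 3533) (.f (nat_lit 434) (nat_lit 402) (nat_lit 6545) (.d (nat_lit 463) (nat_lit 431) (nat_lit 1454) (nat_lit 464) (nat_lit 2478)))))))) (.a (.f (nat_lit 560) (nat_lit 592) (nat_lit 6608) (.d (nat_lit 433) (nat_lit 401) (nat_lit 5520) (nat_lit 529) (nat_lit 5552))) (.f (nat_lit 466) (nat_lit 494) (nat_lit 2510) (.d (nat_lit 467) (nat_lit 464) (nat_lit 1487) (nat_lit 468) (nat_lit 1488)))))))) (.p (nat_lit 494) (.a (.f (nat_lit 529) (nat_lit 530) (nat_lit 494) (.f (nat_lit 465) (nat_lit 466) (nat_lit 2510) (.d (nat_lit 560) (nat_lit 433) (nat_lit 5552) (nat_lit 592) (nat_lit 6608)))) (.a (.f (nat_lit 465) (nat_lit 466) (nat_lit 2510) (.f (nat_lit 560) (nat_lit 592) (nat_lit 6608) (.d (nat_lit 433) (nat_lit 401) (nat_lit 5520) (nat_lit 464) (nat_lit 6576)))) (.a (.f (nat_lit 529) (nat_lit 530) (nat_lit 494) (.f (nat_lit 465) (nat_lit 466) (nat_lit 2510) (.d (nat_lit 433) (nat_lit 401) (nat_lit 5520) (nat_lit 560) (nat_lit 5552)))) (.a (.f (nat_lit 530) (nat_lit 529) (nat_lit 494) (.f (nat_lit 498) (nat_lit 531) (nat_lit 495) (.d (nat_lit 466) (nat_lit 465) (nat_lit 2510) (nat_lit 467) (nat_lit 2511)))) (.a (.f (nat_lit 529) (nat_lit 530) (nat_lit 494) (.f (nat_lit 526) (nat_lit 525) (nat_lit 1517) (.f (nat_lit 498) (nat_lit 527) (nat_lit 2542) (.f (nat_lit 499) (nat_lit 500) (nat_lit 1520) (.d (nat_lit 467) (nat_lit 466) (nat_lit 2511) (nat_lit 468) (nat_lit 2512)))))) (.f (nat_lit 529) (nat_lit 530) (nat_lit 494) (.f (nat_lit 526) (nat_lit 525) (nat_lit 1517) (.f (nat_lit 498) (nat_lit 527) (nat_lit 2542) (.f (nat_lit 499) (nat_lit 500) (nat_lit 1520) (.f (nat_lit 464) (nat_lit 463) (nat_lit 3535) (.f (nat_lit 432) (nat_lit 400) (nat_lit 4496) (.f (nat_lit 433) (nat_lit 401) (nat_lit 6544) (.f (nat_lit 560) (nat_lit 465) (nat_lit 6576) (.f (nat_lit 592) (nat_lit 624) (nat_lit 6640) (.d (nat_lit 591) (nat_lit 559) (nat_lit 5583) (nat_lit 623) (nat_lit 5615)))))))))))))))))))))))))) (.a (.p (nat_lit 560) (.a (.f (nat_lit 592) (nat_lit 463) (nat_lit 7631) (.f (nat_lit 624) (nat_lit 527) (nat_lit 7663) (.d (nat_lit 623) (nat_lit 591) (nat_lit 5615) (nat_lit 655) (nat_lit 5647)))) (.a (.f (nat_lit 592) (nat_lit 463) (nat_lit 7631) (.f (nat_lit 497) (nat_lit 465) (nat_lit 6608) (.f (nat_lit 624) (nat_lit 529) (nat_lit 6640) (.d (nat_lit 625) (nat_lit 593) (nat_lit 4592) (nat_lit 657) (nat_lit 4624))))) (.a (.p (nat_lit 592) (.a (.f (nat_lit 624) (nat_lit 527) (nat_lit 7663) (.d (nat_lit 623) (nat_lit 591) (nat_lit 5615) (nat_lit 655) (nat_lit 5647))) (.a (.f (nat_lit 497) (nat_lit 465) (nat_lit 6608) (.f (nat_lit 624) (nat_lit 529) (nat_lit 6640) (.d (nat_lit 625) (nat_lit 593) (nat_lit 4592) (nat_lit 657) (nat_lit 4624)))) (.f (nat_lit 591) (nat_lit 623) (nat_lit 5615) (.f (nat_lit 464) (nat_lit 559) (nat_lit 5583) (.d (nat_lit 465) (nat_lit 433) (nat_lit 6576) (nat_lit 497) (nat_lit 6608))))))) (.p (nat_lit 464) (.a (.f (nat_lit 559) (nat_lit 591) (nat_lit 5583) (.f (nat_lit 432) (nat_lit 527) (nat_lit 5551) (.d (nat_lit 433) (nat_lit 401) (nat_lit 6544) (nat_lit 465) (nat_lit 6576)))) (.a (.f (nat_lit 463) (nat_lit 431) (nat_lit 7599) (.f (nat_lit 465) (nat_lit 433) (nat_lit 6576) (.f (nat_lit 466) (nat_lit 467) (nat_lit 1487) (.f (nat_lit 498) (nat_lit 499) (nat_lit 463) (.f (nat_lit 462) (nat_lit 497) (nat_lit 462) (.f (nat_lit 461) (nat_lit 460) (nat_lit 460) (.d (nat_lit 429) (nat_lit 428) (nat_lit 3500) (nat_lit 430) (nat_lit 3501)))))))) (.a (.f (nat_lit 463) (nat_lit 431) (nat_lit 7599) (.f (nat_lit 559) (nat_lit 591) (nat_lit 5583) (.f (nat_lit 432) (nat_lit 527) (nat_lit 5551) (.f (nat_lit 400) (nat_lit 368) (nat_lit 5487) (.d (nat_lit 401) (nat_lit 369) (nat_lit 6512) (nat_lit 433) (nat_lit 6544)))))) (.f (nat_lit 463) (nat_lit 431) (nat_lit 7599) (.f (nat_lit 559) (nat_lit 591) (nat_lit 5583) (.f (nat_lit 527) (nat_lit 432) (nat_lit 5551) (.f (nat_lit 462) (nat_lit 430) (nat_lit 7598) (.d (nat_lit 461) (nat_lit 460) (nat_lit 460) (nat_lit 497) (nat_lit 461)))))))))))))) (.a (.p (nat_lit 494) (.a (.f (nat_lit 493) (nat_lit 529) (nat_lit 493) (.f (nat_lit 492) (nat_lit 527) (nat_lit 492) (.d (nat_lit 464) (nat_lit 463) (nat_lit 2508) (nat_lit 465) (nat_lit 2509)))) (.a (.f (nat_lit 493) (nat_lit 529) (nat_lit 493) (.f (nat_lit 465) (nat_lit 464) (nat_lit 2509) (.f (nat_lit 497) (nat_lit 466) (nat_lit 2510) (.d (nat_lit 525) (nat_lit 524) (nat_lit 1516) (nat_lit 526) (nat_lit 1517))))) (.a (.p (nat_lit 497) (.a (.f (nat_lit 529) (nat_lit 530) (nat_lit 494) (.f (nat_lit 465) (nat_lit 466) (nat_lit 2510) (.d (nat_lit 433) (nat_lit 401) (nat_lit 5520) (nat_lit 560) (nat_lit 5552)))) (.f (nat_lit 526) (nat_lit 525) (nat_lit 1517) (.f (nat_lit 498) (nat_lit 527) (nat_lit 1518) (.d (nat_lit 462) (nat_lit 461) (nat_lit 3533) (nat_lit 463) (nat_lit 3534)))))) (.a (.p (nat_lit 497) (.a (.f (nat_lit 526) (nat_lit 525) (nat_lit 1517) (.f (nat_lit 498) (nat_lit 527) (nat_lit 1518) (.d (nat_lit 462) (nat_lit 461) (nat_lit 3533) (nat_lit 463) (nat_lit 3534)))) (.f (nat_lit 465) (nat_lit 466) (nat_lit 2510) (.f (nat_lit 464) (nat_lit 493) (nat_lit 2509) (.d (nat_lit 433) (nat_lit 401) (nat_lit 5520) (nat_lit 560) (nat_lit 6576)))))) (.f (nat_lit 493) (nat_lit 529) (nat_lit 493) (.f (nat_lit 492) (nat_lit 527) (nat_lit 492) (.d (nat_lit 524) (nat_lit 523) (nat_lit 1515) (nat_lit 525) (nat_lit 1516))))))))) (.a (.p (nat_lit 497) (.a (.p (nat_lit 463) (.a (.f (nat_lit 498) (nat_lit 462) (nat_lit 3534) (.d (nat_lit 527) (nat_lit 499) (nat_lit 1519) (nat_lit 526) (nat_lit 1518))) (.a (.f (nat_lit 498) (nat_lit 462) (nat_lit 3534) (.f (nat_lit 499) (nat_lit 464) (nat_lit 3535) (.d (nat_lit 531) (nat_lit 530) (nat_lit 495) (nat_lit 532) (nat_lit 496)))) (.f (nat_lit 560) (nat_lit 592) (nat_lit 7631) (.d (nat_lit 431) (nat_lit 399) (nat_lit 4495) (nat_lit 464) (nat_lit 7599)))))) (.a (.p (nat_lit 463) (.a (.f (nat_lit 498) (nat_lit 462) (nat_lit 3534) (.f (nat_lit 499) (nat_lit 464) (nat_lit 3535) (.d (nat_lit 531) (nat_lit 530) (nat_lit 495) (nat_lit 532) (nat_lit 496)))) (.a (.f (nat_lit 560) (nat_lit 592) (nat_lit 7631) (.d (nat_lit 431) (nat_lit 399) (nat_lit 4495) (nat_lit 464) (nat_lit 7599))) (.f (nat_lit 498) (nat_lit 462) (nat_lit 3534) (.f (nat_lit 531) (nat_lit 530) (nat_lit 495) (.f (nat_lit 499) (nat_lit 532) (nat_lit 496) (.d (nat_lit 467) (nat_lit 466) (nat_lit 2511) (nat_lit 468) (nat_lit 2512)))))))) (.a (.p (nat_lit 494) (.a (.f (nat_lit 465) (nat_lit 466) (nat_lit 2510) (.f (nat_lit 560) (nat_lit 592) (nat_lit 6608) (.d (nat_lit 433) (nat_lit 401) (nat_lit 5520) (nat_lit 464) (nat_lit 6576)))) (.a (.f (nat_lit 465) (nat_lit 466) (nat_lit 2510) (.f (nat_lit 464) (nat_lit 493) (nat_lit 2509) (.d (nat_lit 433) (nat_lit 401) (nat_lit 5520) (nat_lit 560) (nat_lit 6576)))) (.a (.f (nat_lit 465) (nat_lit 466) (nat_lit 2510) (.f (nat_lit 493) (nat_lit 464) (nat_lit 2509) (.d (nat_lit 525) (nat_lit 524) (nat_lit 1516) (nat_lit 526) (nat_lit 1517)))) (.f (nat_lit 461) (nat_lit 462) (nat_lit 3533) (.f (nat_lit 493) (nat_lit 460) (nat_lit 3532) (.d (nat_lit 525) (nat_lit 524) (nat_lit 1516) (nat_lit 526) (nat_lit 1517)))))))) (.a (.p (nat_lit 494) (.a (.f (nat_lit 526) (nat_lit 525) (nat_lit 1517) (.f (nat_lit 498) (nat_lit 527) (nat_lit 1518) (.d (nat_lit 462) (nat_lit 461) (nat_lit 3533) (nat_lit 463) (nat_lit 3534)))) (.f (nat_lit 465) (nat_lit 466) (nat_lit 2510) (.f (nat_lit 464) (nat_lit 493) (nat_lit 2509) (.d (nat_lit 433) (nat_lit 401) (nat_lit 5520) (nat_lit 560) (nat_lit 6576)))))) (.a (.p (nat_lit 494) (.a (.f (nat_lit 526) (nat_lit 525) (nat_lit 1517) (.f (nat_lit 498) (nat_lit 527) (nat_lit 1518) (.d (nat_lit 462) (nat_lit 461) (nat_lit 3533) (nat_lit 463) (nat_lit 3534)))) (.a (.f (nat_lit 465) (nat_lit 466) (nat_lit 2510) (.f (nat_lit 493) (nat_lit 464) (nat_lit 2509) (.d (nat_lit 525) (nat_lit 524) (nat_lit 1516) (nat_lit 526) (nat_lit 1517)))) (.f (nat_lit 465) (nat_lit 466) (nat_lit 2510) (.f (nat_lit 493) (nat_lit 464) (nat_lit 2509) (.d (nat_lit 461) (nat_lit 460) (nat_lit 3532) (nat_lit 462) (nat_lit 3533))))))) (.a (.p (nat_lit 494) (.a (.f (nat_lit 465) (nat_lit 466) (nat_lit 2510) (.f (nat_lit 560) (nat_lit 592) (nat_lit 6608) (.d (nat_lit 433) (nat_lit 401) (nat_lit 5520) (nat_lit 464) (nat_lit 6576)))) (.a (.f (nat_lit 465) (nat_lit 466) (nat_lit 2510) (.f (nat_lit 464) (nat_lit 493) (nat_lit 2509) (.d (nat_lit 433) (nat_lit 401) (nat_lit 5520) (nat_lit 560) (nat_lit 6576)))) (.a (.f (nat_lit 465) (nat_lit 466) (nat_lit 2510) (.f (nat_lit 493) (nat_lit 464) (nat_lit 2509) (.d (nat_lit 525) (nat_lit 524) (nat_lit 1516) (nat_lit 526) (nat_lit 1517)))) (.a (.f (nat_lit 526) (nat_lit 525) (nat_lit 1517) (.f (nat_lit 498) (nat_lit 527) (nat_lit 1518) (.f (nat_lit 467) (nat_lit 466) (nat_lit 2511) (.f (nat_lit 499) (nat_lit 468) (nat_lit 2512) (.d (nat_lit 531) (nat_lit 530) (nat_lit 495) (nat_lit 532) (nat_lit 496)))))) (.f (nat_lit 526) (nat_lit 525) (nat_lit 1517) (.f (nat_lit 527) (nat_lit 498) (nat_lit 1518) (.f (nat_lit 493) (nat_lit 492) (nat_lit 492) (.f (nat_lit 464) (nat_lit 465) (nat_lit 2509) (.d (nat_lit 559) (nat_lit 432) (nat_lit 5551) (nat_lit 591) (nat_lit 6607))))))))))) (.p (nat_lit 494) (.a (.f (nat_lit 526) (nat_lit 525) (nat_lit 1517) (.f (nat_lit 498) (nat_lit 527) (nat_lit 1518) (.d (nat_lit 462) (nat_lit 461) (nat_lit 3533) (nat_lit 463) (nat_lit 3534)))) (.a (.f (nat_lit 461) (nat_lit 462) (nat_lit 3533) (.f (nat_lit 493) (nat_lit 460) (nat_lit 3532) (.d (nat_lit 525) (nat_lit 524) (nat_lit 1516) (nat_lit 526) (nat_lit 1517)))) (.a (.f (nat_lit 526) (nat_lit 525) (nat_lit 1517) (.f (nat_lit 498) (nat_lit 527) (nat_lit 1518) (.f (nat_lit 467) (nat_lit 466) (nat_lit 2511) (.f (nat_lit 499) (nat_lit 468) (nat_lit 2512) (.d (nat_lit 531) (nat_lit 530) (nat_lit 495) (nat_lit 532) (nat_lit 496)))))) (.f (nat_lit 465) (nat_lit 466) (nat_lit 2510) (.f (nat_lit 462) (nat_lit 461) (nat_lit 3533) (.f (nat_lit 463) (nat_lit 498) (nat_lit 3534) (.f (nat_lit 560) (nat_lit 592) (nat_lit 6608) (.d (nat_lit 431) (nat_lit 399) (nat_lit 4495) (nat_lit 527) (nat_lit 4527))))))))))))))))) (.a (.p (nat_lit 560) (.a (.f (nat_lit 592) (nat_lit 463) (nat_lit 7631) (.f (nat_lit 624) (nat_lit 527) (nat_lit 7663) (.d (nat_lit 623) (nat_lit 591) (nat_lit 5615) (nat_lit 655) (nat_lit 5647)))) (.a (.f (nat_lit 592) (nat_lit 463) (nat_lit 7631) (.f (nat_lit 623) (nat_lit 591) (nat_lit 5615) (.f (nat_lit 624) (nat_lit 655) (nat_lit 5647) (.d (nat_lit 625) (nat_lit 593) (nat_lit 4592) (nat_lit 657) (nat_lit 4624))))) (.a (.p (nat_lit 592) (.a (.f (nat_lit 624) (nat_lit 527) (nat_lit 7663) (.d (nat_lit 623) (nat_lit 591) (nat_lit 5615) (nat_lit 655) (nat_lit 5647))) (.a (.f (nat_lit 623) (nat_lit 591) (nat_lit 5615) (.f (nat_lit 624) (nat_lit 655) (nat_lit 5647) (.d (nat_lit 625) (nat_lit 593) (nat_lit 4592) (nat_lit 657) (nat_lit 4624)))) (.a (.f (nat_lit 591) (nat_lit 623) (nat_lit 5615) (.f (nat_lit 464) (nat_lit 559) (nat_lit 5583) (.f (nat_lit 433) (nat_lit 465) (nat_lit 6576) (.f (nat_lit 432) (nat_lit 401) (nat_lit 6544) (.f (nat_lit 400) (nat_lit 527) (nat_lit 5519) (.d (nat_lit 399) (nat_lit 367) (nat_lit 7535) (nat_lit 431) (nat_lit 7567))))))) (.f (nat_lit 624) (nat_lit 527) (nat_lit 7663) (.d (nat_lit 625) (nat_lit 593) (nat_lit 4592) (nat_lit 657) (nat_lit 4624))))))) (.a (.p (nat_lit 464) (.a (.f (nat_lit 559) (nat_lit 591) (nat_lit 5583) (.f (nat_lit 432) (nat_lit 527) (nat_lit 5551) (.d (nat_lit 433) (nat_lit 401) (nat_lit 6544) (nat_lit 465) (nat_lit 6576)))) (.a (.f (nat_lit 465) (nat_lit 433) (nat_lit 6576) (.f (nat_lit 463) (nat_lit 431) (nat_lit 7599) (.d (nat_lit 494) (nat_lit 466) (nat_lit 1486) (nat_lit 493) (nat_lit 2509)))) (.a (.f (nat_lit 463) (nat_lit 431) (nat_lit 7599) (.f (nat_lit 559) (nat_lit 591) (nat_lit 5583) (.f (nat_lit 432) (nat_lit 527) (nat_lit 5551) (.f (nat_lit 400) (nat_lit 368) (nat_lit 5487) (.d (nat_lit 401) (nat_lit 369) (nat_lit 6512) (nat_lit 433) (nat_lit 6544)))))) (.f (nat_lit 463) (nat_lit 431) (nat_lit 7599) (.f (nat_lit 559) (nat_lit 591) (nat_lit 5583) (.f (nat_lit 527) (nat_lit 432) (nat_lit 5551) (.f (nat_lit 462) (nat_lit 430) (nat_lit 7598) (.f (nat_lit 461) (nat_lit 460) (nat_lit 460) (.f (nat_lit 493) (nat_lit 492) (nat_lit 1484) (.d (nat_lit 494) (nat_lit 465) (nat_lit 2509) (nat_lit 529) (nat_lit 493)))))))))))) (.f (nat_lit 463) (nat_lit 592) (nat_lit 7631) (.d (nat_lit 431) (nat_lit 399) (nat_lit 4495) (nat_lit 464) (nat_lit 7599)))))))) (.a (.p (nat_lit 494) (.a (.f (nat_lit 493) (nat_lit 529) (nat_lit 493) (.f (nat_lit 492) (nat_lit 527) (nat_lit 492) (.d (nat_lit 464) (nat_lit 463) (nat_lit 2508) (nat_lit 465) (nat_lit 2509)))) (.a (.f (nat_lit 493) (nat_lit 529) (nat_lit 493) (.f (nat_lit 465) (nat_lit 464) (nat_lit 2509) (.f (nat_lit 497) (nat_lit 466) (nat_lit 2510) (.d (nat_lit 525) (nat_lit 524) (nat_lit 1516) (nat_lit 526) (nat_lit 1517))))) (.a (.p (nat_lit 497) (.a (.f (nat_lit 526) (nat_lit 525) (nat_lit 1517) (.f (nat_lit 498) (nat_lit 527) (nat_lit 1518) (.d (nat_lit 462) (nat_lit 461) (nat_lit 3533) (nat_lit 463) (nat_lit 3534)))) (.a (.f (nat_lit 530) (nat_lit 529) (nat_lit 494) (.f (nat_lit 498) (nat_lit 531) (nat_lit 495) (.d (nat_lit 466) (nat_lit 465) (nat_lit 2510) (nat_lit 467) (nat_lit 2511)))) (.f (nat_lit 529) (nat_lit 530) (nat_lit 494) (.f (nat_lit 465) (nat_lit 466) (nat_lit 2510) (.f (nat_lit 433) (nat_lit 401) (nat_lit 5520) (.f (nat_lit 432) (nat_lit 400) (nat_lit 7568) (.f (nat_lit 462) (nat_lit 461) (nat_lit 3533) (.f (nat_lit 434) (nat_lit 402) (nat_lit 6545) (.d (nat_lit 463) (nat_lit 431) (nat_lit 1454) (nat_lit 464) (nat_lit 2478))))))))))) (.a (.p (nat_lit 497) (.a (.f (nat_lit 526) (nat_lit 525) (nat_lit 1517) (.f (nat_lit 498) (nat_lit 527) (nat_lit 1518) (.d (nat_lit 462) (nat_lit 461) (nat_lit 3533) (nat_lit 463) (nat_lit 3534)))) (.a (.f (nat_lit 465) (nat_lit 466) (nat_lit 2510) (.f (nat_lit 493) (nat_lit 464) (nat_lit 2509) (.d (nat_lit 525) (nat_lit 524) (nat_lit 1516) (nat_lit 526) (nat_lit 1517)))) (.f (nat_lit 465) (nat_lit 466) (nat_lit 2510) (.f (nat_lit 493) (nat_lit 464) (nat_lit 2509) (.d (nat_lit 461) (nat_lit 460) (nat_lit 3532) (nat_lit 462) (nat_lit 3533))))))) (.f (nat_lit 493) (nat_lit 529) (nat_lit 493) (.f (nat_lit 492) (nat_lit 527) (nat_lit 492) (.d (nat_lit 524) (nat_lit 523) (nat_lit 1515) (nat_lit 525) (nat_lit 1516))))))))) (.a (.p (nat_lit 494) (.a (.f (nat_lit 493) (nat_lit 529) (nat_lit 493) (.f (nat_lit 492) (nat_lit 527) (nat_lit 492) (.d (nat_lit 464) (nat_lit 463) (nat_lit 2508) (nat_lit 465) (nat_lit 2509)))) (.a (.f (nat_lit 493) (nat_lit 529) (nat_lit 493) (.f (nat_lit 464) (nat_lit 465) (nat_lit 2509) (.f (nat_lit 463) (nat_lit 492) (nat_lit 2508) (.d (nat_lit 560) (nat_lit 431) (nat_lit 7599) (nat_lit 592) (nat_lit 7631))))) (.a (.f (nat_lit 493) (nat_lit 529) (nat_lit 493) (.f (nat_lit 527) (nat_lit 492) (nat_lit 492) (.f (nat_lit 464) (nat_lit 465) (nat_lit 2509) (.d (nat_lit 559) (nat_lit 432) (nat_lit 5551) (nat_lit 591) (nat_lit 6607))))) (.a (.p (nat_lit 497) (.a (.f (nat_lit 529) (nat_lit 530) (nat_lit 494) (.f (nat_lit 465) (nat_lit 466) (nat_lit 2510) (.d (nat_lit 560) (nat_lit 433) (nat_lit 5552) (nat_lit 592) (nat_lit 6608)))) (.a (.f (nat_lit 465) (nat_lit 466) (nat_lit 2510) (.f (nat_lit 560) (nat_lit 592) (nat_lit 6608) (.d (nat_lit 433) (nat_lit 401) (nat_lit 5520) (nat_lit 464) (nat_lit 6576)))) (.a (.f (nat_lit 529) (nat_lit 530) (nat_lit 494) (.f (nat_lit 465) (nat_lit 466) (nat_lit 2510) (.d (nat_lit 433) (nat_lit 401) (nat_lit 5520) (nat_lit 560) (nat_lit 5552)))) (.a (.f (nat_lit 530) (nat_lit 529) (nat_lit 494) (.f (nat_lit 498) (nat_lit 531) (nat_lit 495) (.d (nat_lit 466) (nat_lit 465) (nat_lit 2510) (nat_lit 467) (nat_lit 2511)))) (.a (.f (nat_lit 529) (nat_lit 530) (nat_lit 494) (.f (nat_lit 526) (nat_lit 525) (nat_lit 1517) (.f (nat_lit 498) (nat_lit 527) (nat_lit 2542) (.f (nat_lit 499) (nat_lit 500) (nat_lit 1520) (.d (nat_lit 467) (nat_lit 466) (nat_lit 2511) (nat_lit 468) (nat_lit 2512)))))) (.f (nat_lit 529) (nat_lit 530) (nat_lit 494) (.f (nat_lit 526) (nat_lit 525) (nat_lit 1517) (.f (nat_lit 498) (nat_lit 527) (nat_lit 2542) (.f (nat_lit 499) (nat_lit 500) (nat_lit 1520) (.f (nat_lit 464) (nat_lit 463) (nat_lit 3535) (.f (nat_lit 432) (nat_lit 400) (nat_lit 4496) (.f (nat_lit 433) (nat_lit 401) (nat_lit 6544) (.f (nat_lit 560) (nat_lit 465) (nat_lit 6576) (.f (nat_lit 592) (nat_lit 624) (nat_lit 6640) (.d (nat_lit 591) (nat_lit 559) (nat_lit 5583) (nat_lit 623) (nat_lit 5615))))))))))))))))) (.a (.p (nat_lit 497) (.a (.f (nat_lit 465) (nat_lit 466) (nat_lit 2510) (.f (nat_lit 560) (nat_lit 592) (nat_lit 6608) (.d (nat_lit 433) (nat_lit 401) (nat_lit 5520) (nat_lit 464) (nat_lit 6576)))) (.a (.f (nat_lit 465) (nat_lit 466) (nat_lit 2510) (.f (nat_lit 464) (nat_lit 493) (nat_lit 2509) (.d (nat_lit 433) (nat_lit 401) (nat_lit 5520) (nat_lit 560) (nat_lit 6576)))) (.a (.f (nat_lit 465) (nat_lit 466) (nat_lit 2510) (.f (nat_lit 493) (nat_lit 464) (nat_lit 2509) (.d (nat_lit 525) (nat_lit 524) (nat_lit 1516) (nat_lit 526) (nat_lit 1517)))) (.a (.f (nat_lit 526) (nat_lit 525) (nat_lit 1517) (.f (nat_lit 498) (nat_lit 527) (nat_lit 1518) (.f (nat_lit 467) (nat_lit 466) (nat_lit 2511) (.f (nat_lit 499) (nat_lit 468) (nat_lit 2512) (.d (nat_lit 531) (nat_lit 530) (nat_lit 495) (nat_lit 532) (nat_lit 496)))))) (.f (nat_lit 526) (nat_lit 525) (nat_lit 1517) (.f (nat_lit 527) (nat_lit 498) (nat_lit 1518) (.f (nat_lit 493) (nat_lit 492) (nat_lit 492) (.f (nat_lit 464) (nat_lit 465) (nat_lit 2509) (.d (nat_lit 559) (nat_lit 432) (nat_lit 5551) (nat_lit 591) (nat_lit 6607))))))))))) (.f (nat_lit 493) (nat_lit 529) (nat_lit 493) (.f (nat_lit 492) (nat_lit 527) (nat_lit 492) (.d (nat_lit 524) (nat_lit 523) (nat_lit 1515) (nat_lit 525) (nat_lit 1516)))))))))) (.a (.p (nat_lit 494) (.a (.f (nat_lit 493) (nat_lit 529) (nat_lit 493) (.f (nat_lit 492) (nat_lit 527) (nat_lit 492) (.d (nat_lit 524) (nat_lit 523) (nat_lit 1515) (nat_lit 525) (nat_lit 1516)))) (.a (.f (nat_lit 493) (nat_lit 529) (nat_lit 493) (.f (nat_lit 525) (nat_lit 524) (nat_lit 1516) (.f (nat_lit 461) (nat_lit 460) (nat_lit 3532) (.d (nat_lit 497) (nat_lit 462) (nat_lit 3533) (nat_lit 526) (nat_lit 1517))))) (.a (.p (nat_lit 497) (.a (.f (nat_lit 529) (nat_lit 530) (nat_lit 494) (.f (nat_lit 465) (nat_lit 466) (nat_lit 2510) (.d (nat_lit 433) (nat_lit 401) (nat_lit 5520) (nat_lit 560) (nat_lit 5552)))) (.f (nat_lit 526) (nat_lit 525) (nat_lit 1517) (.f (nat_lit 498) (nat_lit 527) (nat_lit 1518) (.d (nat_lit 462) (nat_lit 461) (nat_lit 3533) (nat_lit 463) (nat_lit 3534)))))) (.a (.p (nat_lit 497) (.a (.f (nat_lit 526) (nat_lit 525) (nat_lit 1517) (.f (nat_lit 498) (nat_lit 527) (nat_lit 1518) (.d (nat_lit 462) (nat_lit 461) (nat_lit 3533) (nat_lit 463) (nat_lit 3534)))) (.a (.f (nat_lit 461) (nat_lit 462) (nat_lit 3533) (.f (nat_lit 493) (nat_lit 460) (nat_lit 3532) (.d (nat_lit 525) (nat_lit 524) (nat_lit 1516) (nat_lit 526) (nat_lit 1517)))) (.a (.f (nat_lit 526) (nat_lit 525) (nat_lit 1517) (.f (nat_lit 498) (nat_lit 527) (nat_lit 1518) (.f (nat_lit 467) (nat_lit 466) (nat_lit 2511) (.f (nat_lit 499) (nat_lit 468) (nat_lit 2512) (.d (nat_lit 531) (nat_lit 530) (nat_lit 495) (nat_lit 532) (nat_lit 496)))))) (.f (nat_lit 465) (nat_lit 466) (nat_lit 2510) (.f (nat_lit 462) (nat_lit 461) (nat_lit 3533) (.f (nat_lit 463) (nat_lit 498) (nat_lit 3534) (.f (nat_lit 560) (nat_lit 592) (nat_lit 6608) (.d (nat_lit 431) (nat_lit 399) (nat_lit 4495) (nat_lit 527) (nat_lit 4527)))))))))) (.f (nat_lit 529) (nat_lit 493) (nat_lit 493) (.d (nat_lit 530) (nat_lit 497) (nat_lit 494) (nat_lit 527) (nat_lit 3566)))))))) (.a (.p (nat_lit 497) (.a (.p (nat_lit 463) (.a (.f (nat_lit 498) (nat_lit 462) (nat_lit 3534) (.d (nat_lit 527) (nat_lit 499) (nat_lit 1519) (nat_lit 526) (nat_lit 1518))) (.a (.f (nat_lit 498) (nat_lit 462) (nat_lit 3534) (.f (nat_lit 499) (nat_lit 464) (nat_lit 3535) (.d (nat_lit 531) (nat_lit 530) (nat_lit 495) (nat_lit 532) (nat_lit 496)))) (.f (nat_lit 560) (nat_lit 592) (nat_lit 7631) (.d (nat_lit 431) (nat_lit 399) (nat_lit 4495) (nat_lit 464) (nat_lit 7599)))))) (.a (.p (nat_lit 463) (.a (.f (nat_lit 498) (nat_lit 462) (nat_lit 3534) (.f (nat_lit 499) (nat_lit 464) (nat_lit 3535) (.d (nat_lit 531) (nat_lit 530) (nat_lit 495) (nat_lit 532) (nat_lit 496)))) (.a (.f (nat_lit 560) (nat_lit 592) (nat_lit 7631) (.d (nat_lit 431) (nat_lit 399) (nat_lit 4495) (nat_lit 464) (nat_lit 7599))) (.f (nat_lit 498) (nat_lit 462) (nat_lit 3534) (.f (nat_lit 531) (nat_lit 530) (nat_lit 495) (.f (nat_lit 499) (nat_lit 532) (nat_lit 496) (.d (nat_lit 467) (nat_lit 466) (nat_lit 2511) (nat_lit 468) (nat_lit 2512)))))))) (.a (.p (nat_lit 494) (.a (.f (nat_lit 461) (nat_lit 462) (nat_lit 3533) (.f (nat_lit 493) (nat_lit 460) (nat_lit 3532) (.d (nat_lit 525) (nat_lit 524) (nat_lit 1516) (nat_lit 526) (nat_lit 1517)))) (.a (.f (nat_lit 529) (nat_lit 530) (nat_lit 494) (.f (nat_lit 526) (nat_lit 525) (nat_lit 1517) (.f (nat_lit 527) (nat_lit 498) (nat_lit 2542) (.f (nat_lit 462) (nat_lit 461) (nat_lit 3533) (.d (nat_lit 430) (nat_lit 398) (nat_lit 4494) (nat_lit 559) (nat_lit 4526)))))) (.a (.f (nat_lit 529) (nat_lit 530) (nat_lit 494) (.f (nat_lit 526) (nat_lit 525) (nat_lit 1517) (.f (nat_lit 498) (nat_lit 527) (nat_lit 2542) (.f (nat_lit 499) (nat_lit 500) (nat_lit 1520) (.d (nat_lit 467) (nat_lit 466) (nat_lit 2511) (nat_lit 468) (nat_lit 2512)))))) (.d (nat_lit 529) (nat_lit 493) (nat_lit 493) (nat_lit 530) (nat_lit 494)))))) (.a (.p (nat_lit 494) (.a (.f (nat_lit 526) (nat_lit 525) (nat_lit 1517) (.f (nat_lit 498) (nat_lit 527) (nat_lit 1518) (.d (nat_lit 462) (nat_lit 461) (nat_lit 3533) (nat_lit 463) (nat_lit 3534)))) (.a (.f (nat_lit 462) (nat_lit 461) (nat_lit 3533) (.f (nat_lit 463) (nat_lit 498) (nat_lit 3534) (.f (nat_lit 431) (nat_lit 399) (nat_lit 4495) (.d (nat_lit 560) (nat_lit 464) (nat_lit 7599) (nat_lit 592) (nat_lit 7631))))) (.a (.f (nat_lit 461) (nat_lit 462) (nat_lit 3533) (.f (nat_lit 493) (nat_lit 460) (nat_lit 3532) (.d (nat_lit 525) (nat_lit 524) (nat_lit 1516) (nat_lit 526) (nat_lit 1517)))) (.f (nat_lit 493) (nat_lit 529) (nat_lit 493) (.d (nat_lit 525) (nat_lit 524) (nat_lit 1516) (nat_lit 526) (nat_lit 1517))))))) (.a (.p (nat_lit 494) (.a (.f (nat_lit 529) (nat_lit 530) (nat_lit 494) (.f (nat_lit 526) (nat_lit 525) (nat_lit 1517) (.f (nat_lit 498) (nat_lit 527) (nat_lit 2542) (.f (nat_lit 499) (nat_lit 500) (nat_lit 1520) (.d (nat_lit 467) (nat_lit 466) (nat_lit 2511) (nat_lit 468) (nat_lit 2512)))))) (.a (.d (nat_lit 529) (nat_lit 493) (nat_lit 493) (nat_lit 530) (nat_lit 494)) (.a (.f (nat_lit 526) (nat_lit 525) (nat_lit 1517) (.f (nat_lit 498) (nat_lit 527) (nat_lit 1518) (.f (nat_lit 467) (nat_lit 466) (nat_lit 2511) (.f (nat_lit 499) (nat_lit 468) (nat_lit 2512) (.d (nat_lit 531) (nat_lit 530) (nat_lit 495) (nat_lit 532) (nat_lit 496)))))) (.f (nat_lit 493) (nat_lit 529) (nat_lit 493) (.d (nat_lit 525) (nat_lit 524) (nat_lit 1516) (nat_lit 526) (nat_lit 1517))))))) (.p (nat_lit 559) (.a (.p (nat_lit 494) (.a (.d (nat_lit 529) (nat_lit 493) (nat_lit 493) (nat_lit 530) (nat_lit 494)) (.f (nat_lit 462) (nat_lit 461) (nat_lit 3533) (.f (nat_lit 527) (nat_lit 591) (nat_lit 7630) (.d (nat_lit 430) (nat_lit 398) (nat_lit 4494) (nat_lit 463) (nat_lit 7598)))))) (.a (.p (nat_lit 560) (.a (.f (nat_lit 592) (nat_lit 463) (nat_lit 7631) (.d (nat_lit 591) (nat_lit 464) (nat_lit 5583) (nat_lit 623) (nat_lit 5615))) (.a (.f (nat_lit 591) (nat_lit 464) (nat_lit 5583) (.d (nat_lit 623) (nat_lit 592) (nat_lit 5615) (nat_lit 655) (nat_lit 6671))) (.a (.f (nat_lit 464) (nat_lit 591) (nat_lit 5583) (.f (nat_lit 431) (nat_lit 463) (nat_lit 7599) (.f (nat_lit 432) (nat_lit 399) (nat_lit 7567) (.f (nat_lit 529) (nat_lit 400) (nat_lit 4496) (.d (nat_lit 494) (nat_lit 493) (nat_lit 493) (nat_lit 530) (nat_lit 494)))))) (.f (nat_lit 592) (nat_lit 463) (nat_lit 7631) (.f (nat_lit 529) (nat_lit 624) (nat_lit 6640) (.d (nat_lit 494) (nat_lit 493) (nat_lit 493) (nat_lit 530) (nat_lit 494)))))))) (.a (.p (nat_lit 494) (.a (.d (nat_lit 529) (nat_lit 493) (nat_lit 493) (nat_lit 530) (nat_lit 494)) (.f (nat_lit 526) (nat_lit 525) (nat_lit 1517) (.f (nat_lit 462) (nat_lit 461) (nat_lit 3533) (.d (nat_lit 527) (nat_lit 430) (nat_lit 4526) (nat_lit 591) (nat_lit 7630)))))) (.a (.p (nat_lit 560) (.a (.f (nat_lit 592) (nat_lit 463) (nat_lit 7631) (.d (nat_lit 591) (nat_lit 464) (nat_lit 5583) (nat_lit 623) (nat_lit 5615))) (.a (.f (nat_lit 591) (nat_lit 464) (nat_lit 5583) (.d (nat_lit 623) (nat_lit 592) (nat_lit 5615) (nat_lit 655) (nat_lit 6671))) (.a (.f (nat_lit 464) (nat_lit 591) (nat_lit 5583) (.f (nat_lit 432) (nat_lit 527) (nat_lit 5551) (.d (nat_lit 431) (nat_lit 399) (nat_lit 7567) (nat_lit 463) (nat_lit 7599)))) (.f (nat_lit 592) (nat_lit 463) (nat_lit 7631) (.d (nat_lit 624) (nat_lit 527) (nat_lit 7663) (nat_lit 529) (nat_lit 6640))))))) (.a (.p (nat_lit 494) (.a (.f (nat_lit 462) (nat_lit 461) (nat_lit 3533) (.f (nat_lit 527) (nat_lit 591) (nat_lit 7630) (.d (nat_lit 430) (nat_lit 398) (nat_lit 4494) (nat_lit 463) (nat_lit 7598)))) (.a (.f (nat_lit 461) (nat_lit 462) (nat_lit 3533) (.f (nat_lit 493) (nat_lit 460) (nat_lit 3532) (.d (nat_lit 525) (nat_lit 524) (nat_lit 1516) (nat_lit 526) (nat_lit 1517)))) (.f (nat_lit 525) (nat_lit 526) (nat_lit 1517) (.f (nat_lit 493) (nat_lit 524) (nat_lit 1516) (.f (nat_lit 527) (nat_lit 492) (nat_lit 492) (.d (nat_lit 464) (nat_lit 432) (nat_lit 5551) (nat_lit 591) (nat_lit 6607)))))))) (.p (nat_lit 494) (.a (.d (nat_lit 529) (nat_lit 493) (nat_lit 493) (nat_lit 530) (nat_lit 494)) (.f (nat_lit 526) (nat_lit 525) (nat_lit 1517) (.f (nat_lit 462) (nat_lit 461) (nat_lit 3533) (.f (nat_lit 430) (nat_lit 527) (nat_lit 4526) (.f (nat_lit 399) (nat_lit 431) (nat_lit 6542) (.f (nat_lit 398) (nat_lit 367) (nat_lit 6510) (.d (nat_lit 397) (nat_lit 365) (nat_lit 7533) (nat_lit 429) (nat_lit 7565))))))))))))))))))))) (.p (nat_lit 494) (.a (.f (nat_lit 493) (nat_lit 529) (nat_lit 493) (.f (nat_lit 492) (nat_lit 527) (nat_lit 492) (.d (nat_lit 464) (nat_lit 463) (nat_lit 2508) (nat_lit 465) (nat_lit 2509)))) (.a (.f (nat_lit 493) (nat_lit 529) (nat_lit 493) (.f (nat_lit 464) (nat_lit 465) (nat_lit 2509) (.f (nat_lit 463) (nat_lit 492) (nat_lit 2508) (.d (nat_lit 560) (nat_lit 431) (nat_lit 7599) (nat_lit 592) (nat_lit 7631))))) (.a (.f (nat_lit 493) (nat_lit 529) (nat_lit 493) (.f (nat_lit 527) (nat_lit 492) (nat_lit 492) (.f (nat_lit 464) (nat_lit 465) (nat_lit 2509) (.d (nat_lit 559) (nat_lit 432) (nat_lit 5551) (nat_lit 591) (nat_lit 6607))))) (.a (.p (nat_lit 559) (.a (.p (nat_lit 497) (.a (.f (nat_lit 462) (nat_lit 461) (nat_lit 3533) (.f (nat_lit 527) (nat_lit 591) (nat_lit 7630) (.d (nat_lit 430) (nat_lit 398) (nat_lit 4494) (nat_lit 463) (nat_lit 7598)))) (.a (.f (nat_lit 462) (nat_lit 461) (nat_lit 3533) (.f (nat_lit 463) (nat_lit 498) (nat_lit 3534) (.f (nat_lit 560) (nat_lit 592) (nat_lit 7631) (.d (nat_lit 431) (nat_lit 399) (nat_lit 4495) (nat_lit 464) (nat_lit 7599))))) (.a (.f (nat_lit 526) (nat_lit 525) (nat_lit 1517) (.f (nat_lit 462) (nat_lit 461) (nat_lit 3533) (.d (nat_lit 527) (nat_lit 430) (nat_lit 4526) (nat_lit 591) (nat_lit 7630)))) (.f (nat_lit 529) (nat_lit 530) (nat_lit 494) (.f (nat_lit 526) (nat_lit 525) (nat_lit 1517) (.f (nat_lit 527) (nat_lit 498) (nat_lit 2542) (.d (nat_lit 591) (nat_lit 464) (nat_lit 6607) (nat_lit 623) (nat_lit 7662))))))))) (.a (.p (nat_lit 560) (.a (.f (nat_lit 592) (nat_lit 463) (nat_lit 7631) (.d (nat_lit 591) (nat_lit 464) (nat_lit 5583) (nat_lit 623) (nat_lit 5615))) (.a (.f (nat_lit 591) (nat_lit 464) (nat_lit 5583) (.d (nat_lit 623) (nat_lit 592) (nat_lit 5615) (nat_lit 655) (nat_lit 6671))) (.a (.f (nat_lit 464) (nat_lit 591) (nat_lit 5583) (.f (nat_lit 463) (nat_lit 431) (nat_lit 7599) (.f (nat_lit 433) (nat_lit 465) (nat_lit 6576) (.f (nat_lit 432) (nat_lit 401) (nat_lit 6544) (.f (nat_lit 462) (nat_lit 461) (nat_lit 2477) (.f (nat_lit 497) (nat_lit 498) (nat_lit 3534) (.d (nat_lit 400) (nat_lit 368) (nat_lit 5487) (nat_lit 529) (nat_lit 4496)))))))) (.f (nat_lit 592) (nat_lit 463) (nat_lit 7631) (.f (nat_lit 497) (nat_lit 465) (nat_lit 6608) (.d (nat_lit 529) (nat_lit 530) (nat_lit 494) (nat_lit 624) (nat_lit 6640)))))))) (.a (.p (nat_lit 591) (.a (.d (nat_lit 527) (nat_lit 464) (nat_lit 6607) (nat_lit 623) (nat_lit 6639)) (.a (.f (nat_lit 560) (nat_lit 464) (nat_lit 5583) (.d (nat_lit 623) (nat_lit 592) (nat_lit 5615) (nat_lit 655) (nat_lit 6671))) (.a (.d (nat_lit 527) (nat_lit 462) (nat_lit 7630) (nat_lit 623) (nat_lit 6639)) (.d (nat_lit 527) (nat_lit 462) (nat_lit 7630) (nat_lit 464) (nat_lit 6607)))))) (.a (.p (nat_lit 497) (.a (.f (nat_lit 462) (nat_lit 461) (nat_lit 3533) (.f (nat_lit 527) (nat_lit 591) (nat_lit 7630) (.d (nat_lit 430) (nat_lit 398) (nat_lit 4494) (nat_lit 463) (nat_lit 7598)))) (.a (.f (nat_lit 529) (nat_lit 530) (nat_lit 494) (.f (nat_lit 462) (nat_lit 461) (nat_lit 3533) (.f (nat_lit 463) (nat_lit 498) (nat_lit 3534) (.f (nat_lit 431) (nat_lit 399) (nat_lit 4495) (.f (nat_lit 464) (nat_lit 560) (nat_lit 7599) (.f (nat_lit 432) (nat_lit 400) (nat_lit 4496) (.d (nat_lit 433) (nat_lit 401) (nat_lit 6544) (nat_lit 434) (nat_lit 1454)))))))) (.a (.f (nat_lit 526) (nat_lit 525) (nat_lit 1517) (.f (nat_lit 462) (nat_lit 461) (nat_lit 3533) (.d (nat_lit 527) (nat_lit 430) (nat_lit 4526) (nat_lit 591) (nat_lit 7630)))) (.f (nat_lit 529) (nat_lit 530) (nat_lit 494) (.f (nat_lit 526) (nat_lit 525) (nat_lit 1517) (.f (nat_lit 527) (nat_lit 498) (nat_lit 2542) (.d (nat_lit 591) (nat_lit 464) (nat_lit 6607) (nat_lit 623) (nat_lit 7662))))))))) (.a (.p (nat_lit 497) (.a (.f (nat_lit 462) (nat_lit 461) (nat_lit 3533) (.f (nat_lit 527) (nat_lit 591) (nat_lit 7630) (.d (nat_lit 430) (nat_lit 398) (nat_lit 4494) (nat_lit 463) (nat_lit 7598)))) (.a (.f (nat_lit 530) (nat_lit 529) (nat_lit 494) (.f (nat_lit 498) (nat_lit 531) (nat_lit 495) (.d (nat_lit 462) (nat_lit 461) (nat_lit 3533) (nat_lit 463) (nat_lit 3534)))) (.a (.f (nat_lit 526) (nat_lit 525) (nat_lit 1517) (.f (nat_lit 462) (nat_lit 461) (nat_lit 3533) (.d (nat_lit 527) (nat_lit 430) (nat_lit 4526) (nat_lit 591) (nat_lit 7630)))) (.f (nat_lit 529) (nat_lit 530) (nat_lit 494) (.f (nat_lit 526) (nat_lit 525) (nat_lit 1517) (.f (nat_lit 527) (nat_lit 498) (nat_lit 2542) (.d (nat_lit 591) (nat_lit 464) (nat_lit 6607) (nat_lit 623) (nat_lit 7662))))))))) (.a (.p (nat_lit 560) (.a (.f (nat_lit 592) (nat_lit 463) (nat_lit 7631) (.d (nat_lit 591) (nat_lit 464) (nat_lit 5583) (nat_lit 623) (nat_lit 5615))) (.a (.f (nat_lit 591) (nat_lit 464) (nat_lit 5583) (.d (nat_lit 623) (nat_lit 592) (nat_lit 5615) (nat_lit 655) (nat_lit 6671))) (.a (.f (nat_lit 591) (nat_lit 464) (nat_lit 5583) (.d (nat_lit 623) (nat_lit 527) (nat_lit 6639) (nat_lit 655) (nat_lit 6671))) (.f (nat_lit 592) (nat_lit 463) (nat_lit 7631) (.f (nat_lit 497) (nat_lit 465) (nat_lit 6608) (.d (nat_lit 529) (nat_lit 530) (nat_lit 494) (nat_lit 624) (nat_lit 6640)))))))) (.a (.p (nat_lit 497) (.a (.f (nat_lit 462) (nat_lit 461) (nat_lit 3533) (.f (nat_lit 527) (nat_lit 591) (nat_lit 7630) (.d (nat_lit 430) (nat_lit 398) (nat_lit 4494) (nat_lit 463) (nat_lit 7598)))) (.a (.f (nat_lit 530) (nat_lit 529) (nat_lit 494) (.f (nat_lit 498) (nat_lit 531) (nat_lit 495) (.d (nat_lit 462) (nat_lit 461) (nat_lit 3533) (nat_lit 463) (nat_lit 3534)))) (.a (.f (nat_lit 526) (nat_lit 525) (nat_lit 1517) (.f (nat_lit 462) (nat_lit 461) (nat_lit 3533) (.d (nat_lit 527) (nat_lit 430) (nat_lit 4526) (nat_lit 591) (nat_lit 7630)))) (.f (nat_lit 529) (nat_lit 530) (nat_lit 494) (.f (nat_lit 526) (nat_lit 525) (nat_lit 1517) (.f (nat_lit 527) (nat_lit 498) (nat_lit 2542) (.f (nat_lit 591) (nat_lit 623) (nat_lit 7662) (.f (nat_lit 592) (nat_lit 624) (nat_lit 4591) (.d (nat_lit 560) (nat_lit 463) (nat_lit 4559) (nat_lit 465) (nat_lit 6608))))))))))) (.p (nat_lit 497) (.a (.f (nat_lit 526) (nat_lit 525) (nat_lit 1517) (.f (nat_lit 462) (nat_lit 461) (nat_lit 3533) (.f (nat_lit 430) (nat_lit 527) (nat_lit 4526) (.f (nat_lit 399) (nat_lit 431) (nat_lit 6542) (.f (nat_lit 398) (nat_lit 367) (nat_lit 6510) (.d (nat_lit 397) (nat_lit 365) (nat_lit 7533) (nat_lit 429) (nat_lit 7565))))))) (.a (.f (nat_lit 462) (nat_lit 461) (nat_lit 3533) (.f (nat_lit 463) (nat_lit 498) (nat_lit 3534) (.f (nat_lit 560) (nat_lit 592) (nat_lit 7631) (.d (nat_lit 431) (nat_lit 399) (nat_lit 4495) (nat_lit 464) (nat_lit 7599))))) (.a (.f (nat_lit 530) (nat_lit 529) (nat_lit 494) (.f (nat_lit 498) (nat_lit 531) (nat_lit 495) (.d (nat_lit 462) (nat_lit 461) (nat_lit 3533) (nat_lit 463) (nat_lit 3534)))) (.f (nat_lit 530) (nat_lit 529) (nat_lit 494) (.f (nat_lit 498) (nat_lit 531) (nat_lit 495) (.d (nat_lit 526) (nat_lit 525) (nat_lit 1517) (nat_lit 527) (nat_lit 1518)))))))))))))))) (.a (.p (nat_lit 497) (.a (.f (nat_lit 526) (nat_lit 525) (nat_lit 1517) (.f (nat_lit 498) (nat_lit 527) (nat_lit 1518) (.d (nat_lit 462) (nat_lit 461) (nat_lit 3533) (nat_lit 463) (nat_lit 3534)))) (.a (.f (nat_lit 462) (nat_lit 461) (nat_lit 3533) (.f (nat_lit 463) (nat_lit 498) (nat_lit 3534) (.f (nat_lit 431) (nat_lit 399) (nat_lit 4495) (.d (nat_lit 560) (nat_lit 464) (nat_lit 7599) (nat_lit 592) (nat_lit 7631))))) (.a (.f (nat_lit 461) (nat_lit 462) (nat_lit 3533) (.f (nat_lit 493) (nat_lit 460) (nat_lit 3532) (.d (nat_lit 525) (nat_lit 524) (nat_lit 1516) (nat_lit 526) (nat_lit 1517)))) (.f (nat_lit 526) (nat_lit 525) (nat_lit 1517) (.f (nat_lit 527) (nat_lit 498) (nat_lit 1518) (.f (nat_lit 493) (nat_lit 492) (nat_lit 492) (.f (nat_lit 464) (nat_lit 465) (nat_lit 2509) (.d (nat_lit 559) (nat_lit 432) (nat_lit 5551) (nat_lit 591) (nat_lit 6607)))))))))) (.f (nat_lit 493) (nat_lit 529) (nat_lit 493) (.f (nat_lit 492) (nat_lit 527) (nat_lit 492) (.d (nat_lit 524) (nat_lit 523) (nat_lit 1515) (nat_lit 525) (nat_lit 1516))))))))))))))))))))))) (.a (.p (nat_lit 527) (.a (.p (nat_lit 559) (.a (.p (nat_lit 463) (.a (.f (nat_lit 558) (nat_lit 590) (nat_lit 5582) (.f (nat_lit 526) (nat_lit 431) (nat_lit 5550) (.d (nat_lit 529) (nat_lit 530) (nat_lit 1550) (nat_lit 557) (nat_lit 1549)))) (.f (nat_lit 464) (nat_lit 432) (nat_lit 6575) (.f (nat_lit 496) (nat_lit 591) (nat_lit 6607) (.f (nat_lit 462) (nat_lit 430) (nat_lit 7598) (.d (nat_lit 461) (nat_lit 460) (nat_lit 460) (nat_lit 497) (nat_lit 461))))))) (.a (.p (nat_lit 494) (.a (.f (nat_lit 591) (nat_lit 462) (nat_lit 7630) (.d (nat_lit 496) (nat_lit 464) (nat_lit 6607) (nat_lit 623) (nat_lit 6639))) (.a (.f (nat_lit 591) (nat_lit 462) (nat_lit 7630) (.f (nat_lit 526) (nat_lit 623) (nat_lit 7662) (.d (nat_lit 529) (nat_lit 493) (nat_lit 3565) (nat_lit 530) (nat_lit 3566)))) (.f (nat_lit 529) (nat_lit 530) (nat_lit 3566) (.d (nat_lit 493) (nat_lit 492) (nat_lit 492) (nat_lit 526) (nat_lit 3565)))))) (.a (.p (nat_lit 463) (.a (.f (nat_lit 558) (nat_lit 590) (nat_lit 5582) (.f (nat_lit 526) (nat_lit 431) (nat_lit 5550) (.d (nat_lit 529) (nat_lit 530) (nat_lit 1550) (nat_lit 557) (nat_lit 1549)))) (.a (.f (nat_lit 558) (nat_lit 590) (nat_lit 5582) (.f (nat_lit 431) (nat_lit 526) (nat_lit 5550) (.d (nat_lit 432) (nat_lit 400) (nat_lit 6543) (nat_lit 464) (nat_lit 6575)))) (.f (nat_lit 462) (nat_lit 430) (nat_lit 7598) (.f (nat_lit 494) (nat_lit 591) (nat_lit 7630) (.f (nat_lit 464) (nat_lit 432) (nat_lit 6575) (.d (nat_lit 493) (nat_lit 465) (nat_lit 1485) (nat_lit 492) (nat_lit 492)))))))) (.a (.p (nat_lit 463) (.a (.f (nat_lit 464) (nat_lit 432) (nat_lit 6575) (.f (nat_lit 496) (nat_lit 591) (nat_lit 6607) (.f (nat_lit 462) (nat_lit 430) (nat_lit 7598) (.d (nat_lit 461) (nat_lit 460) (nat_lit 460) (nat_lit 497) (nat_lit 461))))) (.a (.f (nat_lit 558) (nat_lit 590) (nat_lit 5582) (.f (nat_lit 431) (nat_lit 526) (nat_lit 5550) (.d (nat_lit 432) (nat_lit 400) (nat_lit 6543) (nat_lit 464) (nat_lit 6575)))) (.f (nat_lit 558) (nat_lit 590) (nat_lit 5582) (.f (nat_lit 431) (nat_lit 526) (nat_lit 5550) (.d (nat_lit 430) (nat_lit 398) (nat_lit 7566) (nat_lit 462) (nat_lit 7598))))))) (.a s119703 (.a s119709 (.a (.p (nat_lit 463) (.a (.f (nat_lit 558) (nat_lit 590) (nat_lit 5582) (.f (nat_lit 526) (nat_lit 431) (nat_lit 5550) (.d (nat_lit 529) (nat_lit 530) (nat_lit 1550) (nat_lit 557) (nat_lit 1549)))) (.a (.f (nat_lit 558) (nat_lit 590) (nat_lit 5582) (.f (nat_lit 431) (nat_lit 526) (nat_lit 5550) (.d (nat_lit 432) (nat_lit 400) (nat_lit 6543) (nat_lit 464) (nat_lit 6575)))) (.a (.f (nat_lit 464) (nat_lit 432) (nat_lit 6575) (.f (nat_lit 591) (nat_lit 496) (nat_lit 6607) (.d (nat_lit 590) (nat_lit 558) (nat_lit 5582) (nat_lit 622) (nat_lit 5614)))) (.a (.f (nat_lit 464) (nat_lit 432) (nat_lit 6575) (.f (nat_lit 591) (nat_lit 496) (nat_lit 6607) (.f (nat_lit 624) (nat_lit 592) (nat_lit 4591) (.f (nat_lit 623) (nat_lit 656) (nat_lit 4623) (.d (nat_lit 622) (nat_lit 590) (nat_lit 5614) (nat_lit 654) (nat_lit 5646)))))) (.f (nat_lit 464) (nat_lit 432) (nat_lit 6575) (.f (nat_lit 496) (nat_lit 591) (nat_lit 6607) (.f (nat_lit 431) (nat_lit 399) (nat_lit 4495) (.f (nat_lit 526) (nat_lit 558) (nat_lit 5550) (.d (nat_lit 525) (nat_lit 497) (nat_lit 2541) (nat_lit 524) (nat_lit 2540))))))))))) s119725)))))))) (.a (.p (nat_lit 529) (.a (.f (nat_lit 530) (nat_lit 494) (nat_lit 3566) (.f (nat_lit 531) (nat_lit 496) (nat_lit 3567) (.d (nat_lit 499) (nat_lit 498) (nat_lit 2543) (nat_lit 500) (nat_lit 2544)))) (.a s119752 (.a (.f (nat_lit 530) (nat_lit 494) (nat_lit 3566) (.f (nat_lit 558) (nat_lit 559) (nat_lit 1550) (.f (nat_lit 526) (nat_lit 557) (nat_lit 1549) (.d (nat_lit 498) (nat_lit 497) (nat_lit 2542) (nat_lit 499) (nat_lit 2543))))) (.a (.p (nat_lit 526) (.a (.f (nat_lit 494) (nat_lit 493) (nat_lit 3565) (.f (nat_lit 497) (nat_lit 498) (nat_lit 2542) (.f (nat_lit 496) (nat_lit 525) (nat_lit 2541) (.f (nat_lit 462) (nat_lit 461) (nat_lit 3533) (.d (nat_lit 430) (nat_lit 398) (nat_lit 4494) (nat_lit 559) (nat_lit 4526)))))) (.a (.f (nat_lit 497) (nat_lit 498) (nat_lit 2542) (.f (nat_lit 525) (nat_lit 496) (nat_lit 2541) (.d (nat_lit 557) (nat_lit 556) (nat_lit 1548) (nat_lit 558) (nat_lit 1549)))) (.f (nat_lit 494) (nat_lit 493) (nat_lit 3565) (.f (nat_lit 558) (nat_lit 557) (nat_lit 1549) (.f (nat_lit 590) (nat_lit 622) (nat_lit 6638) (.f (nat_lit 591) (nat_lit 623) (nat_lit 4590) (.f (nat_lit 462) (nat_lit 559) (nat_lit 4558) (.f (nat_lit 430) (nat_lit 398) (nat_lit 4494) (.d (nat_lit 429) (nat_lit 397) (nat_lit 7565) (nat_lit 461) (nat_lit 7597))))))))))) (.f (nat_lit 530) (nat_lit 494) (nat_lit 3566) (.f (nat_lit 531) (nat_lit 496) (nat_lit 3567) (.d (nat_lit 563) (nat_lit 562) (nat_lit 527) (nat_lit 564) (nat_lit 528))))))))) (.a (.p (nat_lit 559) (.a (.p (nat_lit 463) (.a (.f (nat_lit 558) (nat_lit 590) (nat_lit 5582) (.f (nat_lit 526) (nat_lit 431) (nat_lit 5550) (.d (nat_lit 529) (nat_lit 530) (nat_lit 1550) (nat_lit 557) (nat_lit 1549)))) (.f (nat_lit 464) (nat_lit 432) (nat_lit 6575) (.f (nat_lit 496) (nat_lit 591) (nat_lit 6607) (.f (nat_lit 462) (nat_lit 430) (nat_lit 7598) (.d (nat_lit 461) (nat_lit 460) (nat_lit 460) (nat_lit 497) (nat_lit 461))))))) (.a (.p (nat_lit 591) (.a (.d (nat_lit 496) (nat_lit 464) (nat_lit 6607) (nat_lit 623) (nat_lit 6639)) (.a (.f (nat_lit 622) (nat_lit 590) (nat_lit 5614) (.f (nat_lit 623) (nat_lit 654) (nat_lit 5646) (.d (nat_lit 624) (nat_lit 592) (nat_lit 4591) (nat_lit 656) (nat_lit 4623)))) (.p (nat_lit 557) (.a (.f (nat_lit 558) (nat_lit 556) (nat_lit 2572) (.d (nat_lit 529) (nat_lit 526) (nat_lit 1549) (nat_lit 530) (nat_lit 1550))) (.a (.f (nat_lit 556) (nat_lit 558) (nat_lit 2572) (.f (nat_lit 590) (nat_lit 622) (nat_lit 5614) (.d (nat_lit 592) (nat_lit 589) (nat_lit 3628) (nat_lit 624) (nat_lit 4591)))) (.a (.f (nat_lit 496) (nat_lit 464) (nat_lit 6607) (.f (nat_lit 590) (nat_lit 622) (nat_lit 5614) (.f (nat_lit 592) (nat_lit 624) (nat_lit 4591) (.f (nat_lit 589) (nat_lit 556) (nat_lit 3628) (.f (nat_lit 620) (nat_lit 621) (nat_lit 1612) (.f (nat_lit 588) (nat_lit 619) (nat_lit 1611) (.f (nat_lit 525) (nat_lit 493) (nat_lit 5612) (.d (nat_lit 526) (nat_lit 497) (nat_lit 2541) (nat_lit 524) (nat_lit 2540))))))))) (.f (nat_lit 590) (nat_lit 622) (nat_lit 5614) (.f (nat_lit 592) (nat_lit 624) (nat_lit 4591) (.f (nat_lit 558) (nat_lit 593) (nat_lit 3629) (.d (nat_lit 529) (nat_lit 526) (nat_lit 1549) (nat_lit 530) (nat_lit 1550)))))))))))) (.a s119703 (.a (.p (nat_lit 463) (.a (.f (nat_lit 464) (nat_lit 432) (nat_lit 6575) (.f (nat_lit 496) (nat_lit 591) (nat_lit 6607) (.f (nat_lit 462) (nat_lit 430) (nat_lit 7598) (.d (nat_lit 461) (nat_lit 460) (nat_lit 460) (nat_lit 497) (nat_lit 461))))) (.a (.f (nat_lit 558) (nat_lit 590) (nat_lit 5582) (.f (nat_lit 431) (nat_lit 526) (nat_lit 5550) (.d (nat_lit 432) (nat_lit 400) (nat_lit 6543) (nat_lit 464) (nat_lit 6575)))) (.f (nat_lit 558) (nat_lit 590) (nat_lit 5582) (.f (nat_lit 431) (nat_lit 526) (nat_lit 5550) (.d (nat_lit 430) (nat_lit 398) (nat_lit 7566) (nat_lit 462) (nat_lit 7598))))))) (.a s119794 (.a s119795 (.a s119796 s119797)))))))) (.a (.p (nat_lit 526) (.a (.p (nat_lit 529) (.a (.d (nat_lit 494) (nat_lit 493) (nat_lit 3565) (nat_lit 530) (nat_lit 3566)) (.a (.f (nat_lit 558) (nat_lit 557) (nat_lit 1549) (.f (nat_lit 530) (nat_lit 559) (nat_lit 1550) (.d (nat_lit 498) (nat_lit 497) (nat_lit 2542) (nat_lit 499) (nat_lit 2543)))) (.f (nat_lit 494) (nat_lit 493) (nat_lit 3565) (.f (nat_lit 558) (nat_lit 557) (nat_lit 1549) (.f (nat_lit 590) (nat_lit 622) (nat_lit 6638) (.f (nat_lit 591) (nat_lit 623) (nat_lit 4590) (.f (nat_lit 462) (nat_lit 559) (nat_lit 4558) (.f (nat_lit 430) (nat_lit 398) (nat_lit 4494) (.d (nat_lit 429) (nat_lit 397) (nat_lit 7565) (nat_lit 461) (nat_lit 7597))))))))))) (.a (.p (nat_lit 558) (.a (.f (nat_lit 557) (nat_lit 529) (nat_lit 1549) (.d (nat_lit 556) (nat_lit 525) (nat_lit 1548) (nat_lit 555) (nat_lit 2571))) (.f (nat_lit 590) (nat_lit 622) (nat_lit 6638) (.d (nat_lit 463) (nat_lit 431) (nat_lit 5550) (nat_lit 559) (nat_lit 5582))))) (.a (.p (nat_lit 559) (.a (.p (nat_lit 463) (.a (.d (nat_lit 558) (nat_lit 431) (nat_lit 5550) (nat_lit 590) (nat_lit 5582)) (.a (.f (nat_lit 558) (nat_lit 590) (nat_lit 5582) (.f (nat_lit 462) (nat_lit 430) (nat_lit 7598) (.f (nat_lit 494) (nat_lit 591) (nat_lit 4558) (.d (nat_lit 557) (nat_lit 556) (nat_lit 2572) (nat_lit 589) (nat_lit 5581))))) (.f (nat_lit 462) (nat_lit 430) (nat_lit 7598) (.f (nat_lit 494) (nat_lit 591) (nat_lit 7630) (.f (nat_lit 493) (nat_lit 492) (nat_lit 492) (.d (nat_lit 464) (nat_lit 432) (nat_lit 6575) (nat_lit 465) (nat_lit 1485)))))))) (.a (.p (nat_lit 591) (.a (.d (nat_lit 494) (nat_lit 462) (nat_lit 7630) (nat_lit 623) (nat_lit 7662)) (.a (.f (nat_lit 622) (nat_lit 590) (nat_lit 5614) (.f (nat_lit 623) (nat_lit 654) (nat_lit 5646) (.d (nat_lit 624) (nat_lit 592) (nat_lit 4591) (nat_lit 656) (nat_lit 4623)))) (.f (nat_lit 494) (nat_lit 462) (nat_lit 7630) (.f (nat_lit 493) (nat_lit 492) (nat_lit 492) (.f (nat_lit 590) (nat_lit 622) (nat_lit 5614) (.f (nat_lit 558) (nat_lit 461) (nat_lit 7629) (.f (nat_lit 557) (nat_lit 556) (nat_lit 2572) (.d (nat_lit 592) (nat_lit 593) (nat_lit 3629) (nat_lit 624) (nat_lit 4591)))))))))) (.a s119805 (.a (.p (nat_lit 463) (.a (.d (nat_lit 558) (nat_lit 431) (nat_lit 5550) (nat_lit 590) (nat_lit 5582)) (.a (.f (nat_lit 558) (nat_lit 590) (nat_lit 5582) (.f (nat_lit 557) (nat_lit 556) (nat_lit 2572) (.f (nat_lit 462) (nat_lit 430) (nat_lit 7598) (.f (nat_lit 494) (nat_lit 589) (nat_lit 5581) (.f (nat_lit 493) (nat_lit 492) (nat_lit 492) (.d (nat_lit 464) (nat_lit 432) (nat_lit 6575) (nat_lit 465) (nat_lit 1485))))))) (.f (nat_lit 430) (nat_lit 462) (nat_lit 7598) (.f (nat_lit 431) (nat_lit 398) (nat_lit 7566) (.d (nat_lit 432) (nat_lit 400) (nat_lit 6543) (nat_lit 464) (nat_lit 6575))))))) (.a (.p (nat_lit 463) (.a (.d (nat_lit 558) (nat_lit 431) (nat_lit 5550) (nat_lit 590) (nat_lit 5582)) (.a (.f (nat_lit 590) (nat_lit 558) (nat_lit 5582) (.f (nat_lit 591) (nat_lit 622) (nat_lit 5614) (.f (nat_lit 624) (nat_lit 592) (nat_lit 4591) (.d (nat_lit 623) (nat_lit 494) (nat_lit 7662) (nat_lit 656) (nat_lit 4623))))) (.f (nat_lit 432) (nat_lit 464) (nat_lit 6575) (.f (nat_lit 431) (nat_lit 400) (nat_lit 6543) (.f (nat_lit 399) (nat_lit 494) (nat_lit 5518) (.d (nat_lit 398) (nat_lit 366) (nat_lit 7534) (nat_lit 430) (nat_lit 7566)))))))) (.a (.p (nat_lit 463) (.a (.f (nat_lit 462) (nat_lit 430) (nat_lit 7598) (.f (nat_lit 494) (nat_lit 591) (nat_lit 7630) (.f (nat_lit 493) (nat_lit 492) (nat_lit 492) (.d (nat_lit 464) (nat_lit 432) (nat_lit 6575) (nat_lit 465) (nat_lit 1485))))) (.a (.f (nat_lit 430) (nat_lit 462) (nat_lit 7598) (.f (nat_lit 431) (nat_lit 398) (nat_lit 7566) (.d (nat_lit 432) (nat_lit 400) (nat_lit 6543) (nat_lit 464) (nat_lit 6575)))) (.a (.f (nat_lit 432) (nat_lit 464) (nat_lit 6575) (.f (nat_lit 431) (nat_lit 400) (nat_lit 6543) (.f (nat_lit 399) (nat_lit 494) (nat_lit 5518) (.d (nat_lit 398) (nat_lit 366) (nat_lit 7534) (nat_lit 430) (nat_lit 7566))))) (.a (.f (nat_lit 432) (nat_lit 464) (nat_lit 6575) (.f (nat_lit 431) (nat_lit 400) (nat_lit 6543) (.f (nat_lit 494) (nat_lit 399) (nat_lit 5518) (.d (nat_lit 591) (nat_lit 462) (nat_lit 7630) (nat_lit 623) (nat_lit 7662))))) (.f (nat_lit 462) (nat_lit 430) (nat_lit 7598) (.f (nat_lit 591) (nat_lit 494) (nat_lit 7630) (.f (nat_lit 622) (nat_lit 590) (nat_lit 5614) (.f (nat_lit 623) (nat_lit 654) (nat_lit 5646) (.d (nat_lit 624) (nat_lit 592) (nat_lit 4591) (nat_lit 656) (nat_lit 4623))))))))))) (.p (nat_lit 463) (.a (.f (nat_lit 462) (nat_lit 430) (nat_lit 7598) (.f (nat_lit 494) (nat_lit 591) (nat_lit 7630) (.f (nat_lit 493) (nat_lit 492) (nat_lit 492) (.d (nat_lit 464) (nat_lit 432) (nat_lit 6575) (nat_lit 465) (nat_lit 1485))))) (.a (.f (nat_lit 430) (nat_lit 462) (nat_lit 7598) (.f (nat_lit 431) (nat_lit 398) (nat_lit 7566) (.d (nat_lit 432) (nat_lit 400) (nat_lit 6543) (nat_lit 464) (nat_lit 6575)))) (.a (.f (nat_lit 432) (nat_lit 464) (nat_lit 6575) (.f (nat_lit 431) (nat_lit 400) (nat_lit 6543) (.f (nat_lit 399) (nat_lit 494) (nat_lit 5518) (.d (nat_lit 398) (nat_lit 366) (nat_lit 7534) (nat_lit 430) (nat_lit 7566))))) (.a (.f (nat_lit 432) (nat_lit 464) (nat_lit 6575) (.f (nat_lit 431) (nat_lit 400) (nat_lit 6543) (.f (nat_lit 494) (nat_lit 399) (nat_lit 5518) (.d (nat_lit 591) (nat_lit 462) (nat_lit 7630) (nat_lit 623) (nat_lit 7662))))) (.f (nat_lit 431) (nat_lit 558) (nat_lit 5550) (.d (nat_lit 430) (nat_lit 398) (nat_lit 7566) (nat_lit 462) (nat_lit 7598))))))))))))))) (.a (.p (nat_lit 558) (.a (.f (nat_lit 557) (nat_lit 529) (nat_lit 1549) (.d (nat_lit 556) (nat_lit 525) (nat_lit 1548) (nat_lit 555) (nat_lit 2571))) (.f (nat_lit 590) (nat_lit 622) (nat_lit 6638) (.d (nat_lit 463) (nat_lit 431) (nat_lit 5550) (nat_lit 494) (nat_lit 6606))))) (.a (.p (nat_lit 525) (.a (.f (nat_lit 492) (nat_lit 493) (nat_lit 3564) (.f (nat_lit 524) (nat_lit 491) (nat_lit 3563) (.d (nat_lit 556) (nat_lit 555) (nat_lit 1547) (nat_lit 557) (nat_lit 1548)))) (.a (.f (nat_lit 556) (nat_lit 557) (nat_lit 1548) (.f (nat_lit 524) (nat_lit 555) (nat_lit 1547) (.f (nat_lit 523) (nat_lit 494) (nat_lit 2539) (.d (nat_lit 491) (nat_lit 490) (nat_lit 3562) (nat_lit 492) (nat_lit 3563))))) (.a (.f (nat_lit 556) (nat_lit 557) (nat_lit 1548) (.f (nat_lit 524) (nat_lit 555) (nat_lit 1547) (.f (nat_lit 494) (nat_lit 523) (nat_lit 2539) (.d (nat_lit 529) (nat_lit 493) (nat_lit 3565) (nat_lit 530) (nat_lit 3566))))) (.a (.f (nat_lit 492) (nat_lit 493) (nat_lit 3564) (.f (nat_lit 524) (nat_lit 491) (nat_lit 3563) (.f (nat_lit 555) (nat_lit 556) (nat_lit 1547) (.d (nat_lit 523) (nat_lit 494) (nat_lit 2539) (nat_lit 554) (nat_lit 1546))))) (.a (.p (nat_lit 524) (.a (.d (nat_lit 492) (nat_lit 491) (nat_lit 3563) (nat_lit 493) (nat_lit 3564)) (.a (.f (nat_lit 523) (nat_lit 494) (nat_lit 2539) (.d (nat_lit 491) (nat_lit 490) (nat_lit 3562) (nat_lit 492) (nat_lit 3563))) (.f (nat_lit 494) (nat_lit 523) (nat_lit 2539) (.d (nat_lit 529) (nat_lit 493) (nat_lit 3565) (nat_lit 530) (nat_lit 3566)))))) (.f (nat_lit 493) (nat_lit 492) (nat_lit 3564) (.f (nat_lit 494) (nat_lit 529) (nat_lit 3565) (.f (nat_lit 557) (nat_lit 556) (nat_lit 1548) (.d (nat_lit 462) (nat_lit 430) (nat_lit 5549) (nat_lit 589) (nat_lit 6605))))))))))) (.p (nat_lit 559) (.a s119805 (.a (.p (nat_lit 494) (.a (.d (nat_lit 462) (nat_lit 430) (nat_lit 4526) (nat_lit 591) (nat_lit 7630)) (.d (nat_lit 529) (nat_lit 493) (nat_lit 3565) (nat_lit 530) (nat_lit 3566)))) (.a (.p (nat_lit 463) (.a (.d (nat_lit 558) (nat_lit 431) (nat_lit 5550) (nat_lit 590) (nat_lit 5582)) (.a (.f (nat_lit 558) (nat_lit 590) (nat_lit 5582) (.f (nat_lit 529) (nat_lit 530) (nat_lit 1550) (.f (nat_lit 493) (nat_lit 494) (nat_lit 3565) (.f (nat_lit 492) (nat_lit 525) (nat_lit 3564) (.f (nat_lit 462) (nat_lit 430) (nat_lit 7598) (.d (nat_lit 464) (nat_lit 432) (nat_lit 6575) (nat_lit 461) (nat_lit 1484))))))) (.f (nat_lit 430) (nat_lit 462) (nat_lit 7598) (.f (nat_lit 431) (nat_lit 398) (nat_lit 7566) (.d (nat_lit 432) (nat_lit 400) (nat_lit 6543) (nat_lit 464) (nat_lit 6575))))))) (.a (.p (nat_lit 463) (.a (.d (nat_lit 558) (nat_lit 431) (nat_lit 5550) (nat_lit 590) (nat_lit 5582)) (.a (.f (nat_lit 590) (nat_lit 558) (nat_lit 5582) (.f (nat_lit 591) (nat_lit 622) (nat_lit 5614) (.f (nat_lit 624) (nat_lit 592) (nat_lit 4591) (.d (nat_lit 623) (nat_lit 494) (nat_lit 7662) (nat_lit 656) (nat_lit 4623))))) (.f (nat_lit 432) (nat_lit 464) (nat_lit 6575) (.f (nat_lit 431) (nat_lit 400) (nat_lit 6543) (.f (nat_lit 399) (nat_lit 494) (nat_lit 5518) (.d (nat_lit 398) (nat_lit 366) (nat_lit 7534) (nat_lit 430) (nat_lit 7566)))))))) (.p (nat_lit 463) (.a (.d (nat_lit 558) (nat_lit 431) (nat_lit 5550) (nat_lit 590) (nat_lit 5582)) (.a (.f (nat_lit 590) (nat_lit 558) (nat_lit 5582) (.f (nat_lit 591) (nat_lit 622) (nat_lit 5614) (.f (nat_lit 624) (nat_lit 592) (nat_lit 4591) (.d (nat_lit 623) (nat_lit 494) (nat_lit 7662) (nat_lit 656) (nat_lit 4623))))) (.f (nat_lit 432) (nat_lit 464) (nat_lit 6575) (.f (nat_lit 431) (nat_lit 400) (nat_lit 6543) (.f (nat_lit 494) (nat_lit 399) (nat_lit 5518) (.d (nat_lit 591) (nat_lit 462) (nat_lit 7630) (nat_lit 623) (nat_lit 7662))))))))))))))))))) (.a (.p (nat_lit 559) (.a (.p (nat_lit 463) (.a (.f (nat_lit 464) (nat_lit 432) (nat_lit 6575) (.f (nat_lit 496) (nat_lit 591) (nat_lit 6607) (.f (nat_lit 462) (nat_lit 430) (nat_lit 7598) (.d (nat_lit 461) (nat_lit 460) (nat_lit 460) (nat_lit 497) (nat_lit 461))))) (.a (.f (nat_lit 558) (nat_lit 590) (nat_lit 5582) (.f (nat_lit 431) (nat_lit 526) (nat_lit 5550) (.d (nat_lit 432) (nat_lit 400) (nat_lit 6543) (nat_lit 464) (nat_lit 6575)))) (.f (nat_lit 558) (nat_lit 590) (nat_lit 5582) (.f (nat_lit 431) (nat_lit 526) (nat_lit 5550) (.d (nat_lit 430) (nat_lit 398) (nat_lit 7566) (nat_lit 462) (nat_lit 7598))))))) (.a (.p (nat_lit 591) (.a (.d (nat_lit 496) (nat_lit 464) (nat_lit 6607) (nat_lit 623) (nat_lit 6639)) (.a (.f (nat_lit 622) (nat_lit 590) (nat_lit 5614) (.f (nat_lit 623) (nat_lit 654) (nat_lit 5646) (.d (nat_lit 624) (nat_lit 592) (nat_lit 4591) (nat_lit 656) (nat_lit 4623)))) (.f (nat_lit 496) (nat_lit 464) (nat_lit 6607) (.f (nat_lit 494) (nat_lit 462) (nat_lit 7630) (.f (nat_lit 493) (nat_lit 492) (nat_lit 492) (.f (nat_lit 525) (nat_lit 524) (nat_lit 1516) (.f (nat_lit 526) (nat_lit 497) (nat_lit 2541) (.f (nat_lit 461) (nat_lit 460) (nat_lit 3532) (.d (nat_lit 590) (nat_lit 558) (nat_lit 7629) (nat_lit 622) (nat_lit 5614))))))))))) (.a (.p (nat_lit 463) (.a (.f (nat_lit 558) (nat_lit 590) (nat_lit 5582) (.f (nat_lit 431) (nat_lit 526) (nat_lit 5550) (.d (nat_lit 432) (nat_lit 400) (nat_lit 6543) (nat_lit 464) (nat_lit 6575)))) (.a (.f (nat_lit 462) (nat_lit 430) (nat_lit 7598) (.f (nat_lit 494) (nat_lit 591) (nat_lit 7630) (.f (nat_lit 464) (nat_lit 432) (nat_lit 6575) (.d (nat_lit 493) (nat_lit 465) (nat_lit 1485) (nat_lit 492) (nat_lit 492))))) (.f (nat_lit 558) (nat_lit 590) (nat_lit 5582) (.f (nat_lit 431) (nat_lit 526) (nat_lit 5550) (.d (nat_lit 430) (nat_lit 398) (nat_lit 7566) (nat_lit 462) (nat_lit 7598))))))) (.a (.p (nat_lit 463) (.a (.f (nat_lit 558) (nat_lit 590) (nat_lit 5582) (.f (nat_lit 431) (nat_lit 526) (nat_lit 5550) (.d (nat_lit 432) (nat_lit 400) (nat_lit 6543) (nat_lit 464) (nat_lit 6575)))) (.a (.f (nat_lit 432) (nat_lit 464) (nat_lit 6575) (.f (nat_lit 431) (nat_lit 400) (nat_lit 6543) (.d (nat_lit 430) (nat_lit 398) (nat_lit 7566) (nat_lit 462) (nat_lit 7598)))) (.a (.p (nat_lit 494) (.a (.f (nat_lit 464) (nat_lit 432) (nat_lit 6575) (.f (nat_lit 493) (nat_lit 492) (nat_lit 492) (.d (nat_lit 465) (nat_lit 466) (nat_lit 1486) (nat_lit 496) (nat_lit 2509)))) (.a (.f (nat_lit 462) (nat_lit 430) (nat_lit 7598) (.f (nat_lit 493) (nat_lit 492) (nat_lit 492) (.d (nat_lit 464) (nat_lit 432) (nat_lit 6575) (nat_lit 465) (nat_lit 1485)))) (.a (.f (nat_lit 462) (nat_lit 430) (nat_lit 7598) (.f (nat_lit 464) (nat_lit 432) (nat_lit 6575) (.f (nat_lit 558) (nat_lit 590) (nat_lit 5582) (.f (nat_lit 465) (nat_lit 466) (nat_lit 1486) (.f (nat_lit 497) (nat_lit 498) (nat_lit 462) (.f (nat_lit 461) (nat_lit 496) (nat_lit 461) (.d (nat_lit 429) (nat_lit 428) (nat_lit 3500) (nat_lit 526) (nat_lit 7597)))))))) (.f (nat_lit 462) (nat_lit 430) (nat_lit 7598) (.f (nat_lit 558) (nat_lit 590) (nat_lit 5582) (.f (nat_lit 493) (nat_lit 492) (nat_lit 492) (.f (nat_lit 557) (nat_lit 556) (nat_lit 2572) (.d (nat_lit 589) (nat_lit 525) (nat_lit 6605) (nat_lit 526) (nat_lit 5581)))))))))) (.f (nat_lit 558) (nat_lit 590) (nat_lit 5582) (.f (nat_lit 431) (nat_lit 526) (nat_lit 5550) (.d (nat_lit 430) (nat_lit 398) (nat_lit 7566) (nat_lit 462) (nat_lit 7598)))))))) (.a s119794 (.a s119887 (.a s119888 (.a s119795 s119797))))))))) (.a (.p (nat_lit 496) (.a s119891 (.a s119902 (.a (.p (nat_lit 559) (.a (.d (nat_lit 591) (nat_lit 464) (nat_lit 6607) (nat_lit 623) (nat_lit 6639)) (.a (.p (nat_lit 463) (.a (.f (nat_lit 464) (nat_lit 432) (nat_lit 5551) (.f (nat_lit 462) (nat_lit 430) (nat_lit 7598) (.d (nat_lit 461) (nat_lit 460) (nat_lit 460) (nat_lit 497) (nat_lit 461)))) (.a (.f (nat_lit 431) (nat_lit 399) (nat_lit 4495) (.d (nat_lit 430) (nat_lit 398) (nat_lit 7566) (nat_lit 462) (nat_lit 7598))) (.f (nat_lit 432) (nat_lit 464) (nat_lit 5551) (.d (nat_lit 431) (nat_lit 399) (nat_lit 4495) (nat_lit 400) (nat_lit 6543)))))) (.f (nat_lit 591) (nat_lit 623) (nat_lit 6639) (.f (nat_lit 590) (nat_lit 622) (nat_lit 5614) (.f (nat_lit 463) (nat_lit 558) (nat_lit 5582) (.f (nat_lit 431) (nat_lit 399) (nat_lit 4495) (.d (nat_lit 430) (nat_lit 398) (nat_lit 7566) (nat_lit 462) (nat_lit 7598))))))))) (.a s119914 (.a s119921 (.a (.p (nat_lit 494) (.a (.d (nat_lit 493) (nat_lit 492) (nat_lit 492) (nat_lit 529) (nat_lit 493)) (.a (.f (nat_lit 493) (nat_lit 492) (nat_lit 492) (.f (nat_lit 464) (nat_lit 465) (nat_lit 2509) (.d (nat_lit 559) (nat_lit 432) (nat_lit 5551) (nat_lit 591) (nat_lit 6607)))) (.p (nat_lit 497) (.a (.f (nat_lit 530) (nat_lit 529) (nat_lit 3566) (.d (nat_lit 498) (nat_lit 499) (nat_lit 1519) (nat_lit 531) (nat_lit 495))) (.a (.f (nat_lit 498) (nat_lit 499) (nat_lit 1519) (.d (nat_lit 466) (nat_lit 465) (nat_lit 2510) (nat_lit 467) (nat_lit 2511))) (.f (nat_lit 529) (nat_lit 530) (nat_lit 494) (.f (nat_lit 465) (nat_lit 466) (nat_lit 2510) (.f (nat_lit 433) (nat_lit 401) (nat_lit 5520) (.f (nat_lit 432) (nat_lit 400) (nat_lit 7568) (.f (nat_lit 559) (nat_lit 464) (nat_lit 5551) (.f (nat_lit 591) (nat_lit 623) (nat_lit 6639) (.f (nat_lit 590) (nat_lit 622) (nat_lit 5614) (.f (nat_lit 558) (nat_lit 463) (nat_lit 5582) (.f (nat_lit 592) (nat_lit 624) (nat_lit 4591) (.d (nat_lit 557) (nat_lit 556) (nat_lit 2572) (nat_lit 593) (nat_lit 3629))))))))))))))))) s119935))))))) (.a (.p (nat_lit 559) (.a (.p (nat_lit 494) (.a (.f (nat_lit 591) (nat_lit 462) (nat_lit 7630) (.d (nat_lit 496) (nat_lit 464) (nat_lit 6607) (nat_lit 623) (nat_lit 6639))) (.a (.f (nat_lit 591) (nat_lit 462) (nat_lit 7630) (.f (nat_lit 526) (nat_lit 623) (nat_lit 7662) (.d (nat_lit 529) (nat_lit 493) (nat_lit 3565) (nat_lit 530) (nat_lit 3566)))) (.f (nat_lit 529) (nat_lit 530) (nat_lit 3566) (.d (nat_lit 493) (nat_lit 492) (nat_lit 492) (nat_lit 526) (nat_lit 3565)))))) (.a s119703 (.a (.p (nat_lit 463) (.a (.f (nat_lit 558) (nat_lit 590) (nat_lit 5582) (.f (nat_lit 431) (nat_lit 526) (nat_lit 5550) (.d (nat_lit 432) (nat_lit 400) (nat_lit 6543) (nat_lit 464) (nat_lit 6575)))) (.a (.f (nat_lit 462) (nat_lit 430) (nat_lit 7598) (.f (nat_lit 494) (nat_lit 591) (nat_lit 7630) (.f (nat_lit 464) (nat_lit 432) (nat_lit 6575) (.d (nat_lit 493) (nat_lit 465) (nat_lit 1485) (nat_lit 492) (nat_lit 492))))) (.f (nat_lit 558) (nat_lit 590) (nat_lit 5582) (.f (nat_lit 431) (nat_lit 526) (nat_lit 5550) (.d (nat_lit 430) (nat_lit 398) (nat_lit 7566) (nat_lit 462) (nat_lit 7598))))))) (.a (.p (nat_lit 494) (.a (.f (nat_lit 591) (nat_lit 462) (nat_lit 7630) (.d (nat_lit 496) (nat_lit 464) (nat_lit 6607) (nat_lit 623) (nat_lit 6639))) (.a (.f (nat_lit 591) (nat_lit 462) (nat_lit 7630) (.f (nat_lit 622) (nat_lit 590) (nat_lit 5614) (.f (nat_lit 623) (nat_lit 654) (nat_lit 5646) (.d (nat_lit 624) (nat_lit 592) (nat_lit 4591) (nat_lit 656) (nat_lit 4623))))) (.f (nat_lit 529) (nat_lit 530) (nat_lit 3566) (.d (nat_lit 493) (nat_lit 492) (nat_lit 492) (nat_lit 496) (nat_lit 493)))))) (.a (.p (nat_lit 463) (.a (.f (nat_lit 558) (nat_lit 590) (nat_lit 5582) (.f (nat_lit 526) (nat_lit 431) (nat_lit 5550) (.d (nat_lit 529) (nat_lit 530) (nat_lit 1550) (nat_lit 557) (nat_lit 1549)))) (.a (.f (nat_lit 558) (nat_lit 590) (nat_lit 5582) (.f (nat_lit 431) (nat_lit 526) (nat_lit 5550) (.d (nat_lit 432) (nat_lit 400) (nat_lit 6543) (nat_lit 464) (nat_lit 6575)))) (.a (.f (nat_lit 464) (nat_lit 432) (nat_lit 6575) (.f (nat_lit 591) (nat_lit 496) (nat_lit 6607) (.d (nat_lit 590) (nat_lit 558) (nat_lit 5582) (nat_lit 622) (nat_lit 5614)))) (.a (.f (nat_lit 464) (nat_lit 432) (nat_lit 6575) (.f (nat_lit 591) (nat_lit 496) (nat_lit 6607) (.f (nat_lit 624) (nat_lit 592) (nat_lit 4591) (.f (nat_lit 623) (nat_lit 656) (nat_lit 4623) (.d (nat_lit 622) (nat_lit 590) (nat_lit 5614) (nat_lit 654) (nat_lit 5646)))))) (.f (nat_lit 464) (nat_lit 432) (nat_lit 6575) (.f (nat_lit 496) (nat_lit 591) (nat_lit 6607) (.f (nat_lit 431) (nat_lit 399) (nat_lit 4495) (.f (nat_lit 430) (nat_lit 398) (nat_lit 7566) (.f (nat_lit 465) (nat_lit 466) (nat_lit 3502) (.f (nat_lit 493) (nat_lit 494) (nat_lit 2509) (.f (nat_lit 526) (nat_lit 558) (nat_lit 5550) (.d (nat_lit 525) (nat_lit 492) (nat_lit 3564) (nat_lit 524) (nat_lit 2540)))))))))))))) s119725)))))) (.a (.p (nat_lit 526) (.a (.p (nat_lit 558) (.a (.f (nat_lit 557) (nat_lit 529) (nat_lit 1549) (.d (nat_lit 556) (nat_lit 525) (nat_lit 1548) (nat_lit 555) (nat_lit 2571))) (.f (nat_lit 590) (nat_lit 622) (nat_lit 6638) (.d (nat_lit 463) (nat_lit 431) (nat_lit 5550) (nat_lit 559) (nat_lit 5582))))) (.a (.p (nat_lit 529) (.a (.f (nat_lit 497) (nat_lit 498) (nat_lit 2542) (.f (nat_lit 496) (nat_lit 525) (nat_lit 2541) (.f (nat_lit 530) (nat_lit 531) (nat_lit 3567) (.d (nat_lit 558) (nat_lit 557) (nat_lit 1549) (nat_lit 559) (nat_lit 1550))))) (.a (.f (nat_lit 558) (nat_lit 557) (nat_lit 1549) (.f (nat_lit 530) (nat_lit 559) (nat_lit 1550) (.d (nat_lit 498) (nat_lit 497) (nat_lit 2542) (nat_lit 499) (nat_lit 2543)))) (.a (.f (nat_lit 497) (nat_lit 498) (nat_lit 2542) (.f (nat_lit 525) (nat_lit 496) (nat_lit 2541) (.d (nat_lit 557) (nat_lit 556) (nat_lit 1548) (nat_lit 558) (nat_lit 1549)))) (.a (.f (nat_lit 558) (nat_lit 557) (nat_lit 1549) (.f (nat_lit 530) (nat_lit 559) (nat_lit 1550) (.f (nat_lit 531) (nat_lit 496) (nat_lit 3567) (.d (nat_lit 499) (nat_lit 498) (nat_lit 2543) (nat_lit 500) (nat_lit 2544))))) (.a (.f (nat_lit 558) (nat_lit 557) (nat_lit 1549) (.f (nat_lit 530) (nat_lit 559) (nat_lit 1550) (.f (nat_lit 531) (nat_lit 496) (nat_lit 3567) (.d (nat_lit 563) (nat_lit 562) (nat_lit 527) (nat_lit 564) (nat_lit 528))))) (.f (nat_lit 530) (nat_lit 494) (nat_lit 3566) (.d (nat_lit 498) (nat_lit 497) (nat_lit 2542) (nat_lit 499) (nat_lit 2543))))))))) (.a (.p (nat_lit 559) (.a (.p (nat_lit 496) (.a (.d (nat_lit 591) (nat_lit 464) (nat_lit 6607) (nat_lit 623) (nat_lit 6639)) (.d (nat_lit 497) (nat_lit 498) (nat_lit 1518) (nat_lit 525) (nat_lit 2541)))) (.a s119805 (.a (.p (nat_lit 463) (.a (.d (nat_lit 558) (nat_lit 431) (nat_lit 5550) (nat_lit 590) (nat_lit 5582)) (.a (.f (nat_lit 558) (nat_lit 590) (nat_lit 5582) (.f (nat_lit 557) (nat_lit 556) (nat_lit 2572) (.f (nat_lit 462) (nat_lit 430) (nat_lit 7598) (.f (nat_lit 494) (nat_lit 589) (nat_lit 5581) (.f (nat_lit 461) (nat_lit 429) (nat_lit 7597) (.d (nat_lit 460) (nat_lit 459) (nat_lit 459) (nat_lit 496) (nat_lit 460))))))) (.f (nat_lit 430) (nat_lit 462) (nat_lit 7598) (.f (nat_lit 431) (nat_lit 398) (nat_lit 7566) (.d (nat_lit 432) (nat_lit 400) (nat_lit 6543) (nat_lit 464) (nat_lit 6575))))))) (.p (nat_lit 496) (.a (.d (nat_lit 497) (nat_lit 498) (nat_lit 1518) (nat_lit 525) (nat_lit 2541)) (.f (nat_lit 591) (nat_lit 623) (nat_lit 6639) (.f (nat_lit 462) (nat_lit 494) (nat_lit 7630) (.f (nat_lit 463) (nat_lit 430) (nat_lit 7598) (.d (nat_lit 590) (nat_lit 558) (nat_lit 5582) (nat_lit 622) (nat_lit 5614))))))))))) (.a (.p (nat_lit 558) (.a (.f (nat_lit 557) (nat_lit 529) (nat_lit 1549) (.d (nat_lit 556) (nat_lit 525) (nat_lit 1548) (nat_lit 555) (nat_lit 2571))) (.f (nat_lit 590) (nat_lit 622) (nat_lit 6638) (.d (nat_lit 463) (nat_lit 431) (nat_lit 5550) (nat_lit 494) (nat_lit 6606))))) (.a (.p (nat_lit 529) (.a (.f (nat_lit 558) (nat_lit 557) (nat_lit 1549) (.f (nat_lit 530) (nat_lit 559) (nat_lit 1550) (.d (nat_lit 498) (nat_lit 497) (nat_lit 2542) (nat_lit 499) (nat_lit 2543)))) (.a (.f (nat_lit 558) (nat_lit 557) (nat_lit 1549) (.f (nat_lit 590) (nat_lit 622) (nat_lit 6638) (.d (nat_lit 463) (nat_lit 431) (nat_lit 5550) (nat_lit 559) (nat_lit 5582)))) (.f (nat_lit 530) (nat_lit 494) (nat_lit 3566) (.d (nat_lit 498) (nat_lit 497) (nat_lit 2542) (nat_lit 499) (nat_lit 2543)))))) (.a (.p (nat_lit 529) (.a (.f (nat_lit 530) (nat_lit 494) (nat_lit 3566) (.d (nat_lit 498) (nat_lit 497) (nat_lit 2542) (nat_lit 499) (nat_lit 2543))) (.a (.f (nat_lit 498) (nat_lit 497) (nat_lit 2542) (.f (nat_lit 530) (nat_lit 499) (nat_lit 2543) (.f (nat_lit 563) (nat_lit 562) (nat_lit 527) (.d (nat_lit 531) (nat_lit 496) (nat_lit 3567) (nat_lit 564) (nat_lit 528))))) (.a (.f (nat_lit 497) (nat_lit 498) (nat_lit 2542) (.f (nat_lit 525) (nat_lit 496) (nat_lit 2541) (.f (nat_lit 556) (nat_lit 557) (nat_lit 1548) (.f (nat_lit 524) (nat_lit 555) (nat_lit 1547) (.f (nat_lit 523) (nat_lit 494) (nat_lit 2539) (.d (nat_lit 491) (nat_lit 490) (nat_lit 3562) (nat_lit 492) (nat_lit 3563))))))) (.a (.f (nat_lit 530) (nat_lit 494) (nat_lit 3566) (.f (nat_lit 531) (nat_lit 496) (nat_lit 3567) (.d (nat_lit 499) (nat_lit 498) (nat_lit 2543) (nat_lit 500) (nat_lit 2544)))) (.f (nat_lit 530) (nat_lit 494) (nat_lit 3566) (.f (nat_lit 496) (nat_lit 531) (nat_lit 3567) (.d (nat_lit 525) (nat_lit 497) (nat_lit 2541) (nat_lit 524) (nat_lit 2540))))))))) (.p (nat_lit 559) (.a (.p (nat_lit 496) (.a (.d (nat_lit 591) (nat_lit 464) (nat_lit 6607) (nat_lit 623) (nat_lit 6639)) (.d (nat_lit 497) (nat_lit 498) (nat_lit 1518) (nat_lit 525) (nat_lit 2541)))) (.a s119805 (.a (.p (nat_lit 463) (.a (.d (nat_lit 558) (nat_lit 431) (nat_lit 5550) (nat_lit 590) (nat_lit 5582)) (.a (.f (nat_lit 558) (nat_lit 590) (nat_lit 5582) (.f (nat_lit 529) (nat_lit 530) (nat_lit 1550) (.f (nat_lit 497) (nat_lit 498) (nat_lit 2542) (.f (nat_lit 496) (nat_lit 525) (nat_lit 2541) (.f (nat_lit 464) (nat_lit 432) (nat_lit 6575) (.d (nat_lit 462) (nat_lit 430) (nat_lit 7598) (nat_lit 461) (nat_lit 461))))))) (.f (nat_lit 430) (nat_lit 462) (nat_lit 7598) (.f (nat_lit 431) (nat_lit 398) (nat_lit 7566) (.d (nat_lit 432) (nat_lit 400) (nat_lit 6543) (nat_lit 464) (nat_lit 6575))))))) (.p (nat_lit 496) (.a (.d (nat_lit 497) (nat_lit 498) (nat_lit 1518) (nat_lit 525) (nat_lit 2541)) (.f (nat_lit 591) (nat_lit 623) (nat_lit 6639) (.f (nat_lit 462) (nat_lit 494) (nat_lit 7630) (.f (nat_lit 463) (nat_lit 430) (nat_lit 7598) (.d (nat_lit 590) (nat_lit 558) (nat_lit 5582) (nat_lit 622) (nat_lit 5614)))))))))))))))))) (.a (.p (nat_lit 529) (.a (.f (nat_lit 530) (nat_lit 494) (nat_lit 3566) (.f (nat_lit 531) (nat_lit 496) (nat_lit 3567) (.d (nat_lit 499) (nat_lit 498) (nat_lit 2543) (nat_lit 500) (nat_lit 2544)))) (.a (.p (nat_lit 530) (.a (.f (nat_lit 531) (nat_lit 496) (nat_lit 3567) (.d (nat_lit 499) (nat_lit 498) (nat_lit 2543) (nat_lit 500) (nat_lit 2544))) (.a (.f (nat_lit 498) (nat_lit 499) (nat_lit 2543) (.f (nat_lit 562) (nat_lit 563) (nat_lit 527) (.f (nat_lit 497) (nat_lit 526) (nat_lit 2542) (.d (nat_lit 594) (nat_lit 465) (nat_lit 7633) (nat_lit 626) (nat_lit 7665))))) (.f (nat_lit 531) (nat_lit 496) (nat_lit 3567) (.d (nat_lit 563) (nat_lit 562) (nat_lit 527) (nat_lit 564) (nat_lit 528)))))) (.a (.f (nat_lit 530) (nat_lit 494) (nat_lit 3566) (.f (nat_lit 498) (nat_lit 499) (nat_lit 2543) (.f (nat_lit 562) (nat_lit 563) (nat_lit 527) (.f (nat_lit 497) (nat_lit 526) (nat_lit 2542) (.d (nat_lit 594) (nat_lit 465) (nat_lit 7633) (nat_lit 626) (nat_lit 7665)))))) (.a (.p (nat_lit 526) (.a (.f (nat_lit 497) (nat_lit 498) (nat_lit 2542) (.f (nat_lit 525) (nat_lit 496) (nat_lit 2541) (.d (nat_lit 557) (nat_lit 556) (nat_lit 1548) (nat_lit 558) (nat_lit 1549)))) (.a (.f (nat_lit 558) (nat_lit 557) (nat_lit 1549) (.f (nat_lit 494) (nat_lit 493) (nat_lit 3565) (.d (nat_lit 463) (nat_lit 431) (nat_lit 5550) (nat_lit 590) (nat_lit 6606)))) (.a (.f (nat_lit 497) (nat_lit 498) (nat_lit 2542) (.f (nat_lit 525) (nat_lit 496) (nat_lit 2541) (.f (nat_lit 492) (nat_lit 493) (nat_lit 3564) (.f (nat_lit 524) (nat_lit 491) (nat_lit 3563) (.d (nat_lit 556) (nat_lit 555) (nat_lit 1547) (nat_lit 557) (nat_lit 1548)))))) (.f (nat_lit 494) (nat_lit 493) (nat_lit 3565) (.f (nat_lit 497) (nat_lit 498) (nat_lit 2542) (.f (nat_lit 496) (nat_lit 525) (nat_lit 2541) (.f (nat_lit 462) (nat_lit 461) (nat_lit 3533) (.f (nat_lit 430) (nat_lit 398) (nat_lit 4494) (.f (nat_lit 431) (nat_lit 399) (nat_lit 6542) (.f (nat_lit 463) (nat_lit 558) (nat_lit 5550) (.f (nat_lit 465) (nat_lit 466) (nat_lit 2510) (.d (nat_lit 429) (nat_lit 397) (nat_lit 7565) (nat_lit 464) (nat_lit 3501)))))))))))))) (.f (nat_lit 530) (nat_lit 494) (nat_lit 3566) (.f (nat_lit 531) (nat_lit 496) (nat_lit 3567) (.d (nat_lit 563) (nat_lit 562) (nat_lit 527) (nat_lit 564) (nat_lit 528))))))))) (.a (.p (nat_lit 529) (.a (.f (nat_lit 530) (nat_lit 494) (nat_lit 3566) (.f (nat_lit 531) (nat_lit 496) (nat_lit 3567) (.d (nat_lit 499) (nat_lit 498) (nat_lit 2543) (nat_lit 500) (nat_lit 2544)))) (.a s119752 (.a (.f (nat_lit 530) (nat_lit 494) (nat_lit 3566) (.f (nat_lit 558) (nat_lit 559) (nat_lit 1550) (.f (nat_lit 526) (nat_lit 557) (nat_lit 1549) (.d (nat_lit 498) (nat_lit 497) (nat_lit 2542) (nat_lit 499) (nat_lit 2543))))) (.a (.p (nat_lit 526) (.a (.f (nat_lit 497) (nat_lit 498) (nat_lit 2542) (.f (nat_lit 525) (nat_lit 496) (nat_lit 2541) (.d (nat_lit 557) (nat_lit 556) (nat_lit 1548) (nat_lit 558) (nat_lit 1549)))) (.a (.f (nat_lit 558) (nat_lit 557) (nat_lit 1549) (.f (nat_lit 590) (nat_lit 622) (nat_lit 6638) (.d (nat_lit 463) (nat_lit 431) (nat_lit 5550) (nat_lit 559) (nat_lit 5582)))) (.a (.f (nat_lit 497) (nat_lit 498) (nat_lit 2542) (.f (nat_lit 525) (nat_lit 496) (nat_lit 2541) (.f (nat_lit 492) (nat_lit 493) (nat_lit 3564) (.f (nat_lit 524) (nat_lit 491) (nat_lit 3563) (.d (nat_lit 556) (nat_lit 555) (nat_lit 1547) (nat_lit 557) (nat_lit 1548)))))) (.f (nat_lit 494) (nat_lit 493) (nat_lit 3565) (.f (nat_lit 497) (nat_lit 498) (nat_lit 2542) (.f (nat_lit 496) (nat_lit 525) (nat_lit 2541) (.f (nat_lit 465) (nat_lit 466) (nat_lit 2510) (.f (nat_lit 433) (nat_lit 401) (nat_lit 5520) (.f (nat_lit 432) (nat_lit 400) (nat_lit 7568) (.f (nat_lit 464) (nat_lit 559) (nat_lit 5551) (.f (nat_lit 434) (nat_lit 402) (nat_lit 6545) (.d (nat_lit 435) (nat_lit 436) (nat_lit 1456) (nat_lit 463) (nat_lit 1455)))))))))))))) (.f (nat_lit 530) (nat_lit 494) (nat_lit 3566) (.f (nat_lit 531) (nat_lit 496) (nat_lit 3567) (.d (nat_lit 563) (nat_lit 562) (nat_lit 527) (nat_lit 564) (nat_lit 528))))))))) (.a (.p (nat_lit 559) (.a (.p (nat_lit 463) (.a (.f (nat_lit 558) (nat_lit 590) (nat_lit 5582) (.f (nat_lit 526) (nat_lit 431) (nat_lit 5550) (.d (nat_lit 529) (nat_lit 530) (nat_lit 1550) (nat_lit 557) (nat_lit 1549)))) (.f (nat_lit 464) (nat_lit 432) (nat_lit 6575) (.f (nat_lit 496) (nat_lit 591) (nat_lit 6607) (.f (nat_lit 462) (nat_lit 430) (nat_lit 7598) (.d (nat_lit 461) (nat_lit 460) (nat_lit 460) (nat_lit 497) (nat_lit 461))))))) (.a (.p (nat_lit 494) (.a (.f (nat_lit 591) (nat_lit 462) (nat_lit 7630) (.d (nat_lit 496) (nat_lit 464) (nat_lit 6607) (nat_lit 623) (nat_lit 6639))) (.a (.f (nat_lit 591) (nat_lit 462) (nat_lit 7630) (.f (nat_lit 526) (nat_lit 623) (nat_lit 7662) (.d (nat_lit 529) (nat_lit 493) (nat_lit 3565) (nat_lit 530) (nat_lit 3566)))) (.f (nat_lit 529) (nat_lit 530) (nat_lit 3566) (.d (nat_lit 493) (nat_lit 492) (nat_lit 492) (nat_lit 526) (nat_lit 3565)))))) (.a (.p (nat_lit 463) (.a (.f (nat_lit 558) (nat_lit 590) (nat_lit 5582) (.f (nat_lit 526) (nat_lit 431) (nat_lit 5550) (.d (nat_lit 529) (nat_lit 530) (nat_lit 1550) (nat_lit 557) (nat_lit 1549)))) (.a (.f (nat_lit 558) (nat_lit 590) (nat_lit 5582) (.f (nat_lit 431) (nat_lit 526) (nat_lit 5550) (.d (nat_lit 432) (nat_lit 400) (nat_lit 6543) (nat_lit 464) (nat_lit 6575)))) (.f (nat_lit 462) (nat_lit 430) (nat_lit 7598) (.f (nat_lit 494) (nat_lit 591) (nat_lit 7630) (.f (nat_lit 464) (nat_lit 432) (nat_lit 6575) (.d (nat_lit 493) (nat_lit 465) (nat_lit 1485) (nat_lit 492) (nat_lit 492)))))))) (.a (.p (nat_lit 463) (.a (.f (nat_lit 464) (nat_lit 432) (nat_lit 6575) (.f (nat_lit 496) (nat_lit 591) (nat_lit 6607) (.f (nat_lit 462) (nat_lit 430) (nat_lit 7598) (.d (nat_lit 461) (nat_lit 460) (nat_lit 460) (nat_lit 497) (nat_lit 461))))) (.a (.f (nat_lit 558) (nat_lit 590) (nat_lit 5582) (.f (nat_lit 431) (nat_lit 526) (nat_lit 5550) (.d (nat_lit 432) (nat_lit 400) (nat_lit 6543) (nat_lit 464) (nat_lit 6575)))) (.f (nat_lit 558) (nat_lit 590) (nat_lit 5582) (.f (nat_lit 431) (nat_lit 526) (nat_lit 5550) (.d (nat_lit 430) (nat_lit 398) (nat_lit 7566) (nat_lit 462) (nat_lit 7598))))))) (.a s119703 (.a s119709 (.a (.p (nat_lit 463) (.a (.f (nat_lit 558) (nat_lit 590) (nat_lit 5582) (.f (nat_lit 526) (nat_lit 431) (nat_lit 5550) (.d (nat_lit 529) (nat_lit 530) (nat_lit 1550) (nat_lit 557) (nat_lit 1549)))) (.a (.f (nat_lit 558) (nat_lit 590) (nat_lit 5582) (.f (nat_lit 431) (nat_lit 526) (nat_lit 5550) (.d (nat_lit 432) (nat_lit 400) (nat_lit 6543) (nat_lit 464) (nat_lit 6575)))) (.a (.f (nat_lit 464) (nat_lit 432) (nat_lit 6575) (.f (nat_lit 591) (nat_lit 496) (nat_lit 6607) (.d (nat_lit 590) (nat_lit 558) (nat_lit 5582) (nat_lit 622) (nat_lit 5614)))) (.a (.f (nat_lit 464) (nat_lit 432) (nat_lit 6575) (.f (nat_lit 591) (nat_lit 496) (nat_lit 6607) (.f (nat_lit 624) (nat_lit 592) (nat_lit 4591) (.f (nat_lit 623) (nat_lit 656) (nat_lit 4623) (.d (nat_lit 622) (nat_lit 590) (nat_lit 5614) (nat_lit 654) (nat_lit 5646)))))) (.f (nat_lit 464) (nat_lit 432) (nat_lit 6575) (.f (nat_lit 591) (nat_lit 496) (nat_lit 6607) (.f (nat_lit 624) (nat_lit 592) (nat_lit 4591) (.f (nat_lit 623) (nat_lit 656) (nat_lit 4623) (.f (nat_lit 526) (nat_lit 494) (nat_lit 7662) (.d (nat_lit 558) (nat_lit 431) (nat_lit 5550) (nat_lit 655) (nat_lit 7694)))))))))))) s119725)))))))) (.a (.p (nat_lit 559) (.a s119725 (.a s120033 (.a s119796 (.a s119888 (.a (.p (nat_lit 463) (.a (.f (nat_lit 558) (nat_lit 590) (nat_lit 5582) (.f (nat_lit 462) (nat_lit 430) (nat_lit 7598) (.f (nat_lit 494) (nat_lit 591) (nat_lit 7630) (.f (nat_lit 529) (nat_lit 530) (nat_lit 1550) (.d (nat_lit 493) (nat_lit 492) (nat_lit 492) (nat_lit 496) (nat_lit 493)))))) (.a (.f (nat_lit 430) (nat_lit 462) (nat_lit 7598) (.f (nat_lit 431) (nat_lit 398) (nat_lit 7566) (.f (nat_lit 400) (nat_lit 432) (nat_lit 6543) (.d (nat_lit 399) (nat_lit 368) (nat_lit 6511) (nat_lit 496) (nat_lit 4495))))) (.a (.f (nat_lit 462) (nat_lit 430) (nat_lit 7598) (.f (nat_lit 591) (nat_lit 494) (nat_lit 7630) (.d (nat_lit 590) (nat_lit 558) (nat_lit 5582) (nat_lit 622) (nat_lit 5614)))) (.f (nat_lit 590) (nat_lit 558) (nat_lit 5582) (.f (nat_lit 591) (nat_lit 622) (nat_lit 5614) (.f (nat_lit 623) (nat_lit 496) (nat_lit 6639) (.d (nat_lit 624) (nat_lit 592) (nat_lit 4591) (nat_lit 656) (nat_lit 4623))))))))) (.a (.p (nat_lit 591) (.a (.f (nat_lit 622) (nat_lit 590) (nat_lit 5614) (.f (nat_lit 623) (nat_lit 654) (nat_lit 5646) (.d (nat_lit 624) (nat_lit 592) (nat_lit 4591) (nat_lit 656) (nat_lit 4623)))) (.a (.f (nat_lit 590) (nat_lit 622) (nat_lit 5614) (.f (nat_lit 558) (nat_lit 463) (nat_lit 5582) (.f (nat_lit 557) (nat_lit 556) (nat_lit 2572) (.d (nat_lit 529) (nat_lit 526) (nat_lit 1549) (nat_lit 530) (nat_lit 1550))))) (.f (nat_lit 623) (nat_lit 496) (nat_lit 6639) (.d (nat_lit 624) (nat_lit 592) (nat_lit 4591) (nat_lit 656) (nat_lit 4623)))))) (.p (nat_lit 494) (.a (.f (nat_lit 591) (nat_lit 462) (nat_lit 7630) (.f (nat_lit 526) (nat_lit 623) (nat_lit 7662) (.d (nat_lit 529) (nat_lit 493) (nat_lit 3565) (nat_lit 530) (nat_lit 3566)))) (.a (.f (nat_lit 591) (nat_lit 462) (nat_lit 7630) (.d (nat_lit 623) (nat_lit 496) (nat_lit 6639) (nat_lit 526) (nat_lit 7662))) (.f (nat_lit 529) (nat_lit 530) (nat_lit 3566) (.d (nat_lit 493) (nat_lit 492) (nat_lit 492) (nat_lit 496) (nat_lit 493))))))))))))) (.a (.p (nat_lit 496) (.a s119891 (.a s119902 (.a (.p (nat_lit 463) (.a (.f (nat_lit 431) (nat_lit 399) (nat_lit 4495) (.f (nat_lit 432) (nat_lit 400) (nat_lit 6543) (.f (nat_lit 559) (nat_lit 464) (nat_lit 6575) (.d (nat_lit 430) (nat_lit 398) (nat_lit 7566) (nat_lit 462) (nat_lit 7598))))) (.a (.p (nat_lit 462) (.a (.f (nat_lit 461) (nat_lit 460) (nat_lit 460) (.d (nat_lit 497) (nat_lit 464) (nat_lit 461) (nat_lit 498) (nat_lit 3534))) (.a (.f (nat_lit 431) (nat_lit 399) (nat_lit 4495) (.f (nat_lit 432) (nat_lit 400) (nat_lit 6543) (.f (nat_lit 461) (nat_lit 460) (nat_lit 460) (.d (nat_lit 433) (nat_lit 434) (nat_lit 1454) (nat_lit 464) (nat_lit 2477))))) (.a (.f (nat_lit 431) (nat_lit 399) (nat_lit 4495) (.f (nat_lit 432) (nat_lit 400) (nat_lit 6543) (.f (nat_lit 461) (nat_lit 460) (nat_lit 460) (.d (nat_lit 433) (nat_lit 430) (nat_lit 1453) (nat_lit 434) (nat_lit 1454))))) (.f (nat_lit 431) (nat_lit 399) (nat_lit 4495) (.f (nat_lit 430) (nat_lit 398) (nat_lit 7566) (.f (nat_lit 432) (nat_lit 400) (nat_lit 6543) (.f (nat_lit 433) (nat_lit 434) (nat_lit 1454) (.d (nat_lit 401) (nat_lit 402) (nat_lit 2446) (nat_lit 464) (nat_lit 6544)))))))))) (.a (.p (nat_lit 462) (.a (.f (nat_lit 461) (nat_lit 460) (nat_lit 460) (.d (nat_lit 497) (nat_lit 464) (nat_lit 461) (nat_lit 498) (nat_lit 3534))) (.a (.f (nat_lit 559) (nat_lit 430) (nat_lit 7598) (.d (nat_lit 464) (nat_lit 432) (nat_lit 5551) (nat_lit 591) (nat_lit 6607))) (.f (nat_lit 497) (nat_lit 498) (nat_lit 3534) (.f (nat_lit 430) (nat_lit 559) (nat_lit 7598) (.f (nat_lit 525) (nat_lit 526) (nat_lit 2541) (.f (nat_lit 461) (nat_lit 460) (nat_lit 460) (.f (nat_lit 493) (nat_lit 557) (nat_lit 6573) (.d (nat_lit 398) (nat_lit 366) (nat_lit 4462) (nat_lit 429) (nat_lit 6541)))))))))) (.a (.f (nat_lit 431) (nat_lit 399) (nat_lit 4495) (.f (nat_lit 432) (nat_lit 400) (nat_lit 6543) (.f (nat_lit 464) (nat_lit 559) (nat_lit 6575) (.f (nat_lit 430) (nat_lit 398) (nat_lit 7566) (.d (nat_lit 429) (nat_lit 428) (nat_lit 428) (nat_lit 465) (nat_lit 429)))))) (.a (.f (nat_lit 431) (nat_lit 399) (nat_lit 4495) (.f (nat_lit 430) (nat_lit 398) (nat_lit 7566) (.f (nat_lit 462) (nat_lit 559) (nat_lit 7598) (.f (nat_lit 432) (nat_lit 400) (nat_lit 6543) (.d (nat_lit 461) (nat_lit 433) (nat_lit 1453) (nat_lit 460) (nat_lit 460)))))) (.a (.f (nat_lit 431) (nat_lit 399) (nat_lit 4495) (.f (nat_lit 430) (nat_lit 398) (nat_lit 7566) (.f (nat_lit 462) (nat_lit 559) (nat_lit 7598) (.f (nat_lit 497) (nat_lit 498) (nat_lit 3534) (.d (nat_lit 461) (nat_lit 460) (nat_lit 460) (nat_lit 464) (nat_lit 461)))))) (.f (nat_lit 431) (nat_lit 399) (nat_lit 4495) (.f (nat_lit 432) (nat_lit 400) (nat_lit 6543) (.f (nat_lit 464) (nat_lit 559) (nat_lit 6575) (.f (nat_lit 433) (nat_lit 401) (nat_lit 6544) (.d (nat_lit 462) (nat_lit 434) (nat_lit 1454) (nat_lit 461) (nat_lit 2477))))))))))))) (.a s119921 (.a s119914 (.a (.p (nat_lit 463) (.a (.f (nat_lit 431) (nat_lit 399) (nat_lit 4495) (.f (nat_lit 432) (nat_lit 400) (nat_lit 6543) (.f (nat_lit 559) (nat_lit 464) (nat_lit 6575) (.d (nat_lit 430) (nat_lit 398) (nat_lit 7566) (nat_lit 462) (nat_lit 7598))))) (.a (.p (nat_lit 462) (.a (.f (nat_lit 497) (nat_lit 498) (nat_lit 3534) (.d (nat_lit 461) (nat_lit 460) (nat_lit 460) (nat_lit 494) (nat_lit 3533))) (.a (.f (nat_lit 461) (nat_lit 460) (nat_lit 460) (.d (nat_lit 497) (nat_lit 464) (nat_lit 461) (nat_lit 498) (nat_lit 3534))) (.a (.f (nat_lit 431) (nat_lit 399) (nat_lit 4495) (.f (nat_lit 432) (nat_lit 400) (nat_lit 6543) (.f (nat_lit 461) (nat_lit 460) (nat_lit 460) (.d (nat_lit 433) (nat_lit 434) (nat_lit 1454) (nat_lit 464) (nat_lit 2477))))) (.f (nat_lit 431) (nat_lit 399) (nat_lit 4495) (.f (nat_lit 430) (nat_lit 398) (nat_lit 7566) (.f (nat_lit 432) (nat_lit 400) (nat_lit 6543) (.f (nat_lit 433) (nat_lit 434) (nat_lit 1454) (.d (nat_lit 401) (nat_lit 402) (nat_lit 2446) (nat_lit 464) (nat_lit 6544)))))))))) (.a (.p (nat_lit 559) (.a (.f (nat_lit 464) (nat_lit 432) (nat_lit 5551) (.f (nat_lit 462) (nat_lit 430) (nat_lit 7598) (.d (nat_lit 461) (nat_lit 460) (nat_lit 460) (nat_lit 497) (nat_lit 461)))) (.a (.d (nat_lit 464) (nat_lit 432) (nat_lit 6575) (nat_lit 591) (nat_lit 6607)) (.f (nat_lit 462) (nat_lit 430) (nat_lit 7598) (.f (nat_lit 497) (nat_lit 498) (nat_lit 3534) (.d (nat_lit 461) (nat_lit 460) (nat_lit 460) (nat_lit 494) (nat_lit 3533))))))) (.a (.f (nat_lit 431) (nat_lit 399) (nat_lit 4495) (.f (nat_lit 432) (nat_lit 400) (nat_lit 6543) (.f (nat_lit 464) (nat_lit 559) (nat_lit 6575) (.f (nat_lit 430) (nat_lit 398) (nat_lit 7566) (.d (nat_lit 429) (nat_lit 428) (nat_lit 428) (nat_lit 465) (nat_lit 429)))))) (.a (.f (nat_lit 431) (nat_lit 399) (nat_lit 4495) (.f (nat_lit 430) (nat_lit 398) (nat_lit 7566) (.f (nat_lit 462) (nat_lit 559) (nat_lit 7598) (.f (nat_lit 461) (nat_lit 460) (nat_lit 460) (.d (nat_lit 497) (nat_lit 494) (nat_lit 3533) (nat_lit 498) (nat_lit 3534)))))) (.f (nat_lit 431) (nat_lit 399) (nat_lit 4495) (.f (nat_lit 432) (nat_lit 400) (nat_lit 6543) (.f (nat_lit 464) (nat_lit 559) (nat_lit 6575) (.f (nat_lit 433) (nat_lit 401) (nat_lit 6544) (.d (nat_lit 462) (nat_lit 434) (nat_lit 1454) (nat_lit 461) (nat_lit 2477)))))))))))) (.a (.p (nat_lit 526) (.a (.d (nat_lit 525) (nat_lit 497) (nat_lit 2541) (nat_lit 524) (nat_lit 2540)) (.a (.f (nat_lit 525) (nat_lit 524) (nat_lit 2540) (.f (nat_lit 493) (nat_lit 492) (nat_lit 3564) (.f (nat_lit 494) (nat_lit 529) (nat_lit 493) (.f (nat_lit 464) (nat_lit 465) (nat_lit 2509) (.d (nat_lit 559) (nat_lit 432) (nat_lit 5551) (nat_lit 591) (nat_lit 6607)))))) (.p (nat_lit 529) (.a (.d (nat_lit 494) (nat_lit 493) (nat_lit 493) (nat_lit 530) (nat_lit 3566)) (.a (.f (nat_lit 498) (nat_lit 497) (nat_lit 1518) (.d (nat_lit 530) (nat_lit 499) (nat_lit 2543) (nat_lit 531) (nat_lit 3567))) (.f (nat_lit 494) (nat_lit 493) (nat_lit 3565) (.f (nat_lit 497) (nat_lit 498) (nat_lit 1518) (.f (nat_lit 465) (nat_lit 466) (nat_lit 2510) (.f (nat_lit 433) (nat_lit 401) (nat_lit 5520) (.f (nat_lit 432) (nat_lit 400) (nat_lit 7568) (.f (nat_lit 464) (nat_lit 559) (nat_lit 5551) (.f (nat_lit 434) (nat_lit 402) (nat_lit 6545) (.d (nat_lit 435) (nat_lit 436) (nat_lit 1456) (nat_lit 463) (nat_lit 1455))))))))))))))) s119935)))))))) (.p (nat_lit 559) (.a (.p (nat_lit 494) (.a (.f (nat_lit 591) (nat_lit 462) (nat_lit 7630) (.d (nat_lit 496) (nat_lit 464) (nat_lit 6607) (nat_lit 623) (nat_lit 6639))) (.a (.f (nat_lit 591) (nat_lit 462) (nat_lit 7630) (.f (nat_lit 526) (nat_lit 623) (nat_lit 7662) (.d (nat_lit 529) (nat_lit 493) (nat_lit 3565) (nat_lit 530) (nat_lit 3566)))) (.f (nat_lit 529) (nat_lit 530) (nat_lit 3566) (.d (nat_lit 493) (nat_lit 492) (nat_lit 492) (nat_lit 526) (nat_lit 3565)))))) (.a (.p (nat_lit 463) (.a (.f (nat_lit 464) (nat_lit 432) (nat_lit 6575) (.f (nat_lit 496) (nat_lit 591) (nat_lit 6607) (.f (nat_lit 462) (nat_lit 430) (nat_lit 7598) (.d (nat_lit 461) (nat_lit 460) (nat_lit 460) (nat_lit 497) (nat_lit 461))))) (.a (.f (nat_lit 558) (nat_lit 590) (nat_lit 5582) (.f (nat_lit 431) (nat_lit 526) (nat_lit 5550) (.d (nat_lit 432) (nat_lit 400) (nat_lit 6543) (nat_lit 464) (nat_lit 6575)))) (.f (nat_lit 558) (nat_lit 590) (nat_lit 5582) (.f (nat_lit 431) (nat_lit 526) (nat_lit 5550) (.d (nat_lit 430) (nat_lit 398) (nat_lit 7566) (nat_lit 462) (nat_lit 7598))))))) (.a s120033 (.a (.p (nat_lit 463) (.a (.f (nat_lit 432) (nat_lit 464) (nat_lit 6575) (.f (nat_lit 431) (nat_lit 400) (nat_lit 6543) (.d (nat_lit 430) (nat_lit 398) (nat_lit 7566) (nat_lit 462) (nat_lit 7598)))) (.a (.p (nat_lit 494) (.a (.f (nat_lit 464) (nat_lit 432) (nat_lit 6575) (.f (nat_lit 493) (nat_lit 492) (nat_lit 492) (.d (nat_lit 465) (nat_lit 466) (nat_lit 1486) (nat_lit 496) (nat_lit 2509)))) (.a (.f (nat_lit 462) (nat_lit 430) (nat_lit 7598) (.f (nat_lit 493) (nat_lit 492) (nat_lit 492) (.d (nat_lit 464) (nat_lit 432) (nat_lit 6575) (nat_lit 465) (nat_lit 1485)))) (.a (.f (nat_lit 462) (nat_lit 430) (nat_lit 7598) (.f (nat_lit 464) (nat_lit 432) (nat_lit 6575) (.f (nat_lit 465) (nat_lit 466) (nat_lit 1486) (.f (nat_lit 497) (nat_lit 498) (nat_lit 462) (.f (nat_lit 496) (nat_lit 461) (nat_lit 461) (.d (nat_lit 433) (nat_lit 401) (nat_lit 5520) (nat_lit 434) (nat_lit 2478))))))) (.f (nat_lit 493) (nat_lit 492) (nat_lit 492) (.d (nat_lit 529) (nat_lit 496) (nat_lit 493) (nat_lit 530) (nat_lit 3566))))))) (.a (.f (nat_lit 432) (nat_lit 464) (nat_lit 6575) (.f (nat_lit 431) (nat_lit 400) (nat_lit 6543) (.f (nat_lit 399) (nat_lit 496) (nat_lit 4495) (.d (nat_lit 398) (nat_lit 366) (nat_lit 7534) (nat_lit 430) (nat_lit 7566))))) (.a (.f (nat_lit 430) (nat_lit 462) (nat_lit 7598) (.f (nat_lit 431) (nat_lit 398) (nat_lit 7566) (.f (nat_lit 400) (nat_lit 432) (nat_lit 6543) (.d (nat_lit 399) (nat_lit 368) (nat_lit 6511) (nat_lit 496) (nat_lit 4495))))) (.a (.p (nat_lit 494) (.a (.f (nat_lit 493) (nat_lit 492) (nat_lit 492) (.d (nat_lit 529) (nat_lit 496) (nat_lit 493) (nat_lit 530) (nat_lit 3566))) (.a (.f (nat_lit 493) (nat_lit 492) (nat_lit 492) (.d (nat_lit 529) (nat_lit 526) (nat_lit 3565) (nat_lit 530) (nat_lit 3566))) (.f (nat_lit 430) (nat_lit 462) (nat_lit 7598) (.f (nat_lit 431) (nat_lit 398) (nat_lit 7566) (.d (nat_lit 399) (nat_lit 496) (nat_lit 4495) (nat_lit 526) (nat_lit 5518))))))) (.f (nat_lit 432) (nat_lit 464) (nat_lit 6575) (.f (nat_lit 431) (nat_lit 400) (nat_lit 6543) (.f (nat_lit 399) (nat_lit 496) (nat_lit 4495) (.f (nat_lit 494) (nat_lit 526) (nat_lit 5518) (.f (nat_lit 367) (nat_lit 462) (nat_lit 5486) (.d (nat_lit 366) (nat_lit 334) (nat_lit 7502) (nat_lit 398) (nat_lit 7534))))))))))))) (.a s119709 s119887)))))))))))))))))))) (.a (.p (nat_lit 496) (.a (.p (nat_lit 497) (.a (.p (nat_lit 494) (.a (.d (nat_lit 529) (nat_lit 493) (nat_lit 493) (nat_lit 530) (nat_lit 494)) (.a (.f (nat_lit 465) (nat_lit 466) (nat_lit 2510) (.f (nat_lit 464) (nat_lit 493) (nat_lit 2509) (.d (nat_lit 560) (nat_lit 433) (nat_lit 6576) (nat_lit 592) (nat_lit 6608)))) (.f (nat_lit 529) (nat_lit 530) (nat_lit 494) (.f (nat_lit 465) (nat_lit 466) (nat_lit 2510) (.d (nat_lit 560) (nat_lit 433) (nat_lit 5552) (nat_lit 592) (nat_lit 6608))))))) (.a (.p (nat_lit 494) (.a (.f (nat_lit 465) (nat_lit 466) (nat_lit 2510) (.f (nat_lit 464) (nat_lit 493) (nat_lit 2509) (.d (nat_lit 560) (nat_lit 433) (nat_lit 6576) (nat_lit 592) (nat_lit 6608)))) (.f (nat_lit 526) (nat_lit 525) (nat_lit 1517) (.f (nat_lit 498) (nat_lit 527) (nat_lit 1518) (.d (nat_lit 462) (nat_lit 461) (nat_lit 3533) (nat_lit 463) (nat_lit 3534)))))) (.a (.p (nat_lit 463) (.a (.f (nat_lit 498) (nat_lit 462) (nat_lit 3534) (.d (nat_lit 527) (nat_lit 499) (nat_lit 1519) (nat_lit 526) (nat_lit 1518))) (.a (.f (nat_lit 498) (nat_lit 462) (nat_lit 3534) (.f (nat_lit 499) (nat_lit 464) (nat_lit 3535) (.d (nat_lit 531) (nat_lit 530) (nat_lit 495) (nat_lit 532) (nat_lit 496)))) (.f (nat_lit 560) (nat_lit 592) (nat_lit 7631) (.d (nat_lit 431) (nat_lit 399) (nat_lit 4495) (nat_lit 464) (nat_lit 7599)))))) (.p (nat_lit 494) (.a (.d (nat_lit 529) (nat_lit 493) (nat_lit 493) (nat_lit 530) (nat_lit 494)) (.f (nat_lit 526) (nat_lit 525) (nat_lit 1517) (.f (nat_lit 498) (nat_lit 527) (nat_lit 1518) (.d (nat_lit 462) (nat_lit 461) (nat_lit 3533) (nat_lit 463) (nat_lit 3534)))))))))) (.a (.p (nat_lit 494) (.a (.f (nat_lit 493) (nat_lit 529) (nat_lit 493) (.f (nat_lit 492) (nat_lit 527) (nat_lit 492) (.d (nat_lit 524) (nat_lit 523) (nat_lit 1515) (nat_lit 525) (nat_lit 1516)))) (.a (.p (nat_lit 497) (.a (.f (nat_lit 465) (nat_lit 466) (nat_lit 2510) (.f (nat_lit 464) (nat_lit 493) (nat_lit 2509) (.d (nat_lit 560) (nat_lit 433) (nat_lit 6576) (nat_lit 592) (nat_lit 6608)))) (.a (.f (nat_lit 465) (nat_lit 466) (nat_lit 2510) (.f (nat_lit 433) (nat_lit 401) (nat_lit 5520) (.d (nat_lit 560) (nat_lit 464) (nat_lit 6576) (nat_lit 592) (nat_lit 6608)))) (.a (.f (nat_lit 465) (nat_lit 466) (nat_lit 2510) (.f (nat_lit 493) (nat_lit 464) (nat_lit 2509) (.d (nat_lit 525) (nat_lit 524) (nat_lit 1516) (nat_lit 526) (nat_lit 1517)))) (.f (nat_lit 526) (nat_lit 525) (nat_lit 1517) (.f (nat_lit 527) (nat_lit 498) (nat_lit 1518) (.f (nat_lit 462) (nat_lit 461) (nat_lit 3533) (.d (nat_lit 430) (nat_lit 398) (nat_lit 4494) (nat_lit 559) (nat_lit 4526))))))))) (.a (.p (nat_lit 497) (.a (.f (nat_lit 529) (nat_lit 530) (nat_lit 494) (.f (nat_lit 465) (nat_lit 466) (nat_lit 2510) (.d (nat_lit 560) (nat_lit 433) (nat_lit 5552) (nat_lit 592) (nat_lit 6608)))) (.a (.f (nat_lit 465) (nat_lit 466) (nat_lit 2510) (.f (nat_lit 433) (nat_lit 401) (nat_lit 5520) (.d (nat_lit 560) (nat_lit 464) (nat_lit 6576) (nat_lit 592) (nat_lit 6608)))) (.f (nat_lit 526) (nat_lit 525) (nat_lit 1517) (.f (nat_lit 527) (nat_lit 498) (nat_lit 1518) (.f (nat_lit 462) (nat_lit 461) (nat_lit 3533) (.d (nat_lit 430) (nat_lit 398) (nat_lit 4494) (nat_lit 559) (nat_lit 4526)))))))) (.a (.f (nat_lit 493) (nat_lit 529) (nat_lit 493) (.f (nat_lit 465) (nat_lit 464) (nat_lit 2509) (.f (nat_lit 497) (nat_lit 466) (nat_lit 2510) (.d (nat_lit 525) (nat_lit 524) (nat_lit 1516) (nat_lit 526) (nat_lit 1517))))) (.f (nat_lit 493) (nat_lit 529) (nat_lit 493) (.f (nat_lit 492) (nat_lit 527) (nat_lit 492) (.d (nat_lit 460) (nat_lit 459) (nat_lit 3531) (nat_lit 461) (nat_lit 3532))))))))) (.a (.p (nat_lit 497) (.a (.p (nat_lit 494) (.a (.f (nat_lit 465) (nat_lit 466) (nat_lit 2510) (.f (nat_lit 464) (nat_lit 493) (nat_lit 2509) (.d (nat_lit 560) (nat_lit 433) (nat_lit 6576) (nat_lit 592) (nat_lit 6608)))) (.f (nat_lit 526) (nat_lit 525) (nat_lit 1517) (.f (nat_lit 498) (nat_lit 527) (nat_lit 1518) (.d (nat_lit 462) (nat_lit 461) (nat_lit 3533) (nat_lit 463) (nat_lit 3534)))))) (.a s127338 (.a s127339 (.a (.p (nat_lit 463) (.a (.f (nat_lit 498) (nat_lit 462) (nat_lit 3534) (.d (nat_lit 527) (nat_lit 499) (nat_lit 1519) (nat_lit 526) (nat_lit 1518))) (.a (.f (nat_lit 498) (nat_lit 462) (nat_lit 3534) (.f (nat_lit 499) (nat_lit 464) (nat_lit 3535) (.d (nat_lit 531) (nat_lit 530) (nat_lit 495) (nat_lit 532) (nat_lit 496)))) (.f (nat_lit 560) (nat_lit 592) (nat_lit 7631) (.d (nat_lit 431) (nat_lit 399) (nat_lit 4495) (nat_lit 464) (nat_lit 7599)))))) (.a (.p (nat_lit 494) (.a (.f (nat_lit 526) (nat_lit 525) (nat_lit 1517) (.f (nat_lit 498) (nat_lit 527) (nat_lit 1518) (.d (nat_lit 462) (nat_lit 461) (nat_lit 3533) (nat_lit 463) (nat_lit 3534)))) (.a (.f (nat_lit 465) (nat_lit 466) (nat_lit 2510) (.f (nat_lit 493) (nat_lit 464) (nat_lit 2509) (.d (nat_lit 525) (nat_lit 524) (nat_lit 1516) (nat_lit 526) (nat_lit 1517)))) (.f (nat_lit 465) (nat_lit 466) (nat_lit 2510) (.f (nat_lit 493) (nat_lit 464) (nat_lit 2509) (.d (nat_lit 461) (nat_lit 460) (nat_lit 3532) (nat_lit 462) (nat_lit 3533))))))) (.a s127341 (.a s127342 (.a s127343 (.p (nat_lit 494) (.a (.f (nat_lit 465) (nat_lit 466) (nat_lit 2510) (.f (nat_lit 464) (nat_lit 493) (nat_lit 2509) (.d (nat_lit 560) (nat_lit 433) (nat_lit 6576) (nat_lit 592) (nat_lit 6608)))) (.a (.f (nat_lit 465) (nat_lit 466) (nat_lit 2510) (.f (nat_lit 433) (nat_lit 401) (nat_lit 5520) (.d (nat_lit 560) (nat_lit 464) (nat_lit 6576) (nat_lit 592) (nat_lit 6608)))) (.a (.f (nat_lit 465) (nat_lit 466) (nat_lit 2510) (.f (nat_lit 493) (nat_lit 464) (nat_lit 2509) (.d (nat_lit 525) (nat_lit 524) (nat_lit 1516) (nat_lit 526) (nat_lit 1517)))) (.a (.f (nat_lit 526) (nat_lit 525) (nat_lit 1517) (.f (nat_lit 498) (nat_lit 527) (nat_lit 1518) (.f (nat_lit 467) (nat_lit 466) (nat_lit 2511) (.f (nat_lit 499) (nat_lit 468) (nat_lit 2512) (.d (nat_lit 531) (nat_lit 530) (nat_lit 495) (nat_lit 532) (nat_lit 496)))))) (.f (nat_lit 526) (nat_lit 525) (nat_lit 1517) (.f (nat_lit 527) (nat_lit 498) (nat_lit 1518) (.f (nat_lit 493) (nat_lit 492) (nat_lit 492) (.f (nat_lit 464) (nat_lit 465) (nat_lit 2509) (.d (nat_lit 432) (nat_lit 400) (nat_lit 5519) (nat_lit 559) (nat_lit 5551)))))))))))))))))))) (.a (.p (nat_lit 497) (.a (.p (nat_lit 494) (.a (.f (nat_lit 465) (nat_lit 466) (nat_lit 2510) (.f (nat_lit 464) (nat_lit 493) (nat_lit 2509) (.d (nat_lit 560) (nat_lit 433) (nat_lit 6576) (nat_lit 592) (nat_lit 6608)))) (.f (nat_lit 526) (nat_lit 525) (nat_lit 1517) (.f (nat_lit 498) (nat_lit 527) (nat_lit 1518) (.d (nat_lit 462) (nat_lit 461) (nat_lit 3533) (nat_lit 463) (nat_lit 3534)))))) (.a s127338 (.a s127339 (.a (.p (nat_lit 463) (.a (.f (nat_lit 498) (nat_lit 462) (nat_lit 3534) (.d (nat_lit 527) (nat_lit 499) (nat_lit 1519) (nat_lit 526) (nat_lit 1518))) (.f (nat_lit 560) (nat_lit 592) (nat_lit 7631) (.d (nat_lit 431) (nat_lit 399) (nat_lit 4495) (nat_lit 464) (nat_lit 7599))))) (.a (.p (nat_lit 494) (.a (.f (nat_lit 526) (nat_lit 525) (nat_lit 1517) (.f (nat_lit 498) (nat_lit 527) (nat_lit 1518) (.d (nat_lit 462) (nat_lit 461) (nat_lit 3533) (nat_lit 463) (nat_lit 3534)))) (.a (.f (nat_lit 465) (nat_lit 466) (nat_lit 2510) (.f (nat_lit 493) (nat_lit 464) (nat_lit 2509) (.d (nat_lit 525) (nat_lit 524) (nat_lit 1516) (nat_lit 526) (nat_lit 1517)))) (.f (nat_lit 465) (nat_lit 466) (nat_lit 2510) (.f (nat_lit 493) (nat_lit 464) (nat_lit 2509) (.d (nat_lit 461) (nat_lit 460) (nat_lit 3532) (nat_lit 462) (nat_lit 3533))))))) (.a s127341 (.a s127342 (.a s127343 (.p (nat_lit 494) (.a (.f (nat_lit 465) (nat_lit 466) (nat_lit 2510) (.f (nat_lit 464) (nat_lit 493) (nat_lit 2509) (.d (nat_lit 560) (nat_lit 433) (nat_lit 6576) (nat_lit 592) (nat_lit 6608)))) (.a (.f (nat_lit 465) (nat_lit 466) (nat_lit 2510) (.f (nat_lit 433) (nat_lit 401) (nat_lit 5520) (.d (nat_lit 560) (nat_lit 464) (nat_lit 6576) (nat_lit 592) (nat_lit 6608)))) (.a (.f (nat_lit 465) (nat_lit 466) (nat_lit 2510) (.f (nat_lit 493) (nat_lit 464) (nat_lit 2509) (.d (nat_lit 525) (nat_lit 524) (nat_lit 1516) (nat_lit 526) (nat_lit 1517)))) (.f (nat_lit 493) (nat_lit 529) (nat_lit 493) (.d (nat_lit 525) (nat_lit 524) (nat_lit 1516) (nat_lit 526) (nat_lit 1517)))))))))))))))) (.a (.p (nat_lit 464) (.a (.p (nat_lit 432) (.a (.d (nat_lit 527) (nat_lit 400) (nat_lit 5519) (nat_lit 559) (nat_lit 5551)) (.f (nat_lit 433) (nat_lit 401) (nat_lit 6544) (.f (nat_lit 465) (nat_lit 560) (nat_lit 6576) (.f (nat_lit 431) (nat_lit 399) (nat_lit 7567) (.d (nat_lit 430) (nat_lit 429) (nat_lit 429) (nat_lit 466) (nat_lit 430))))))) (.a (.p (nat_lit 432) (.a (.f (nat_lit 433) (nat_lit 401) (nat_lit 6544) (.f (nat_lit 465) (nat_lit 560) (nat_lit 6576) (.f (nat_lit 431) (nat_lit 399) (nat_lit 7567) (.d (nat_lit 430) (nat_lit 429) (nat_lit 429) (nat_lit 466) (nat_lit 430))))) (.a (.f (nat_lit 433) (nat_lit 401) (nat_lit 6544) (.f (nat_lit 465) (nat_lit 560) (nat_lit 6576) (.f (nat_lit 466) (nat_lit 467) (nat_lit 1487) (.d (nat_lit 494) (nat_lit 463) (nat_lit 1486) (nat_lit 493) (nat_lit 2509))))) (.a (.f (nat_lit 401) (nat_lit 433) (nat_lit 6544) (.f (nat_lit 400) (nat_lit 369) (nat_lit 6512) (.d (nat_lit 399) (nat_lit 367) (nat_lit 7535) (nat_lit 431) (nat_lit 7567)))) (.a (.f (nat_lit 399) (nat_lit 431) (nat_lit 7567) (.f (nat_lit 400) (nat_lit 367) (nat_lit 7535) (.f (nat_lit 368) (nat_lit 463) (nat_lit 5487) (.d (nat_lit 369) (nat_lit 337) (nat_lit 6480) (nat_lit 401) (nat_lit 6512))))) (.f (nat_lit 399) (nat_lit 431) (nat_lit 7567) (.f (nat_lit 400) (nat_lit 367) (nat_lit 7535) (.f (nat_lit 463) (nat_lit 368) (nat_lit 5487) (.f (nat_lit 560) (nat_lit 592) (nat_lit 7631) (.f (nat_lit 465) (nat_lit 433) (nat_lit 6576) (.d (nat_lit 494) (nat_lit 466) (nat_lit 1486) (nat_lit 493) (nat_lit 2509)))))))))))) (.a (.p (nat_lit 432) (.a (.d (nat_lit 527) (nat_lit 400) (nat_lit 5519) (nat_lit 559) (nat_lit 5551)) (.f (nat_lit 433) (nat_lit 401) (nat_lit 6544) (.f (nat_lit 465) (nat_lit 560) (nat_lit 6576) (.f (nat_lit 466) (nat_lit 467) (nat_lit 1487) (.d (nat_lit 494) (nat_lit 463) (nat_lit 1486) (nat_lit 493) (nat_lit 2509))))))) (.a s127361 (.a (.p (nat_lit 465) (.a (.f (nat_lit 494) (nat_lit 493) (nat_lit 2509) (.d (nat_lit 466) (nat_lit 463) (nat_lit 1486) (nat_lit 467) (nat_lit 1487))) (.a (.p (nat_lit 530) (.a (.f (nat_lit 529) (nat_lit 531) (nat_lit 3567) (.d (nat_lit 494) (nat_lit 493) (nat_lit 2509) (nat_lit 527) (nat_lit 3566))) (.f (nat_lit 433) (nat_lit 560) (nat_lit 6576) (.f (nat_lit 466) (nat_lit 467) (nat_lit 1487) (.f (nat_lit 498) (nat_lit 562) (nat_lit 7601) (.d (nat_lit 401) (nat_lit 369) (nat_lit 5488) (nat_lit 434) (nat_lit 7569))))))) (.f (nat_lit 560) (nat_lit 433) (nat_lit 6576) (.d (nat_lit 463) (nat_lit 431) (nat_lit 7599) (nat_lit 592) (nat_lit 7631)))))) (.a (.p (nat_lit 432) (.a (.d (nat_lit 527) (nat_lit 400) (nat_lit 5519) (nat_lit 559) (nat_lit 5551)) (.a (.f (nat_lit 401) (nat_lit 433) (nat_lit 6544) (.f (nat_lit 400) (nat_lit 369) (nat_lit 6512) (.d (nat_lit 399) (nat_lit 367) (nat_lit 7535) (nat_lit 431) (nat_lit 7567)))) (.f (nat_lit 431) (nat_lit 399) (nat_lit 7567) (.f (nat_lit 463) (nat_lit 560) (nat_lit 7599) (.f (nat_lit 433) (nat_lit 401) (nat_lit 6544) (.d (nat_lit 462) (nat_lit 434) (nat_lit 1454) (nat_lit 461) (nat_lit 2477)))))))) (.a (.p (nat_lit 432) (.a (.d (nat_lit 527) (nat_lit 400) (nat_lit 5519) (nat_lit 559) (nat_lit 5551)) (.a (.f (nat_lit 399) (nat_lit 431) (nat_lit 7567) (.f (nat_lit 400) (nat_lit 367) (nat_lit 7535) (.f (nat_lit 368) (nat_lit 463) (nat_lit 5487) (.d (nat_lit 369) (nat_lit 337) (nat_lit 6480) (nat_lit 401) (nat_lit 6512))))) (.f (nat_lit 431) (nat_lit 399) (nat_lit 7567) (.f (nat_lit 463) (nat_lit 560) (nat_lit 7599) (.f (nat_lit 527) (nat_lit 559) (nat_lit 6575) (.f (nat_lit 430) (nat_lit 398) (nat_lit 7566) (.d (nat_lit 429) (nat_lit 428) (nat_lit 428) (nat_lit 465) (nat_lit 429))))))))) (.p (nat_lit 432) (.a (.d (nat_lit 527) (nat_lit 400) (nat_lit 5519) (nat_lit 559) (nat_lit 5551)) (.a (.f (nat_lit 399) (nat_lit 431) (nat_lit 7567) (.f (nat_lit 400) (nat_lit 367) (nat_lit 7535) (.f (nat_lit 463) (nat_lit 368) (nat_lit 5487) (.f (nat_lit 560) (nat_lit 592) (nat_lit 7631) (.f (nat_lit 465) (nat_lit 433) (nat_lit 6576) (.d (nat_lit 494) (nat_lit 466) (nat_lit 1486) (nat_lit 493) (nat_lit 2509))))))) (.f (nat_lit 431) (nat_lit 399) (nat_lit 7567) (.f (nat_lit 463) (nat_lit 560) (nat_lit 7599) (.f (nat_lit 527) (nat_lit 559) (nat_lit 6575) (.f (nat_lit 430) (nat_lit 398) (nat_lit 7566) (.d (nat_lit 429) (nat_lit 428) (nat_lit 428) (nat_lit 465) (nat_lit 429))))))))))))))))) (.a (.p (nat_lit 497) (.a (.p (nat_lit 494) (.a (.d (nat_lit 529) (nat_lit 493) (nat_lit 493) (nat_lit 530) (nat_lit 494)) (.a (.f (nat_lit 465) (nat_lit 466) (nat_lit 2510) (.f (nat_lit 464) (nat_lit 493) (nat_lit 2509) (.d (nat_lit 560) (nat_lit 433) (nat_lit 6576) (nat_lit 592) (nat_lit 6608)))) (.f (nat_lit 529) (nat_lit 530) (nat_lit 494) (.f (nat_lit 465) (nat_lit 466) (nat_lit 2510) (.d (nat_lit 560) (nat_lit 433) (nat_lit 5552) (nat_lit 592) (nat_lit 6608))))))) (.a s127339 (.a (.p (nat_lit 463) (.a (.f (nat_lit 498) (nat_lit 462) (nat_lit 3534) (.f (nat_lit 499) (nat_lit 464) (nat_lit 3535) (.d (nat_lit 531) (nat_lit 530) (nat_lit 495) (nat_lit 532) (nat_lit 496)))) (.a (.f (nat_lit 560) (nat_lit 592) (nat_lit 7631) (.d (nat_lit 431) (nat_lit 399) (nat_lit 4495) (nat_lit 464) (nat_lit 7599))) (.f (nat_lit 498) (nat_lit 462) (nat_lit 3534) (.f (nat_lit 531) (nat_lit 530) (nat_lit 495) (.f (nat_lit 499) (nat_lit 532) (nat_lit 496) (.d (nat_lit 467) (nat_lit 466) (nat_lit 2511) (nat_lit 468) (nat_lit 2512)))))))) (.a (.p (nat_lit 494) (.a (.d (nat_lit 529) (nat_lit 493) (nat_lit 493) (nat_lit 530) (nat_lit 494)) (.a (.f (nat_lit 465) (nat_lit 466) (nat_lit 2510) (.f (nat_lit 493) (nat_lit 464) (nat_lit 2509) (.d (nat_lit 525) (nat_lit 524) (nat_lit 1516) (nat_lit 526) (nat_lit 1517)))) (.f (nat_lit 462) (nat_lit 461) (nat_lit 3533) (.f (nat_lit 463) (nat_lit 498) (nat_lit 3534) (.f (nat_lit 431) (nat_lit 399) (nat_lit 4495) (.d (nat_lit 526) (nat_lit 525) (nat_lit 1517) (nat_lit 558) (nat_lit 6574)))))))) (.p (nat_lit 494) (.a (.d (nat_lit 529) (nat_lit 493) (nat_lit 493) (nat_lit 530) (nat_lit 494)) (.f (nat_lit 462) (nat_lit 461) (nat_lit 3533) (.f (nat_lit 463) (nat_lit 498) (nat_lit 3534) (.f (nat_lit 431) (nat_lit 399) (nat_lit 4495) (.d (nat_lit 526) (nat_lit 525) (nat_lit 1517) (nat_lit 558) (nat_lit 6574)))))))))))) (.a (.p (nat_lit 464) (.a (.p (nat_lit 432) (.a (.d (nat_lit 527) (nat_lit 400) (nat_lit 5519) (nat_lit 559) (nat_lit 5551)) (.f (nat_lit 433) (nat_lit 401) (nat_lit 6544) (.f (nat_lit 465) (nat_lit 560) (nat_lit 6576) (.f (nat_lit 431) (nat_lit 399) (nat_lit 7567) (.d (nat_lit 430) (nat_lit 429) (nat_lit 429) (nat_lit 466) (nat_lit 430))))))) (.a (.p (nat_lit 432) (.a (.f (nat_lit 433) (nat_lit 401) (nat_lit 6544) (.f (nat_lit 465) (nat_lit 560) (nat_lit 6576) (.f (nat_lit 431) (nat_lit 399) (nat_lit 7567) (.d (nat_lit 430) (nat_lit 429) (nat_lit 429) (nat_lit 466) (nat_lit 430))))) (.a (.f (nat_lit 433) (nat_lit 401) (nat_lit 6544) (.f (nat_lit 560) (nat_lit 465) (nat_lit 6576) (.f (nat_lit 463) (nat_lit 592) (nat_lit 7631) (.f (nat_lit 462) (nat_lit 461) (nat_lit 2477) (.f (nat_lit 400) (nat_lit 368) (nat_lit 5487) (.d (nat_lit 497) (nat_lit 498) (nat_lit 3534) (nat_lit 529) (nat_lit 4496))))))) (.a (.f (nat_lit 401) (nat_lit 433) (nat_lit 6544) (.f (nat_lit 400) (nat_lit 369) (nat_lit 6512) (.d (nat_lit 399) (nat_lit 367) (nat_lit 7535) (nat_lit 431) (nat_lit 7567)))) (.a (.f (nat_lit 399) (nat_lit 431) (nat_lit 7567) (.f (nat_lit 400) (nat_lit 367) (nat_lit 7535) (.f (nat_lit 368) (nat_lit 463) (nat_lit 5487) (.d (nat_lit 369) (nat_lit 337) (nat_lit 6480) (nat_lit 401) (nat_lit 6512))))) (.f (nat_lit 431) (nat_lit 399) (nat_lit 7567) (.f (nat_lit 463) (nat_lit 560) (nat_lit 7599) (.f (nat_lit 400) (nat_lit 368) (nat_lit 5487) (.f (nat_lit 497) (nat_lit 529) (nat_lit 4496) (.d (nat_lit 462) (nat_lit 461) (nat_lit 461) (nat_lit 498) (nat_lit 3534))))))))))) (.a (.p (nat_lit 432) (.a (.d (nat_lit 527) (nat_lit 400) (nat_lit 5519) (nat_lit 559) (nat_lit 5551)) (.a (.f (nat_lit 433) (nat_lit 401) (nat_lit 6544) (.f (nat_lit 560) (nat_lit 465) (nat_lit 6576) (.f (nat_lit 463) (nat_lit 592) (nat_lit 7631) (.f (nat_lit 462) (nat_lit 461) (nat_lit 2477) (.f (nat_lit 400) (nat_lit 368) (nat_lit 5487) (.d (nat_lit 497) (nat_lit 498) (nat_lit 3534) (nat_lit 529) (nat_lit 4496))))))) (.f (nat_lit 433) (nat_lit 401) (nat_lit 6544) (.f (nat_lit 527) (nat_lit 559) (nat_lit 5551) (.f (nat_lit 560) (nat_lit 465) (nat_lit 6576) (.d (nat_lit 592) (nat_lit 463) (nat_lit 7631) (nat_lit 624) (nat_lit 7663)))))))) (.a s127361 (.a (.p (nat_lit 560) (.a (.d (nat_lit 463) (nat_lit 431) (nat_lit 7599) (nat_lit 592) (nat_lit 7631)) (.a (.f (nat_lit 465) (nat_lit 433) (nat_lit 6576) (.f (nat_lit 592) (nat_lit 497) (nat_lit 6608) (.f (nat_lit 624) (nat_lit 527) (nat_lit 7663) (.d (nat_lit 625) (nat_lit 593) (nat_lit 4592) (nat_lit 657) (nat_lit 4624))))) (.f (nat_lit 463) (nat_lit 431) (nat_lit 7599) (.f (nat_lit 465) (nat_lit 433) (nat_lit 6576) (.f (nat_lit 466) (nat_lit 467) (nat_lit 1487) (.f (nat_lit 498) (nat_lit 499) (nat_lit 463) (.f (nat_lit 497) (nat_lit 462) (nat_lit 462) (.f (nat_lit 434) (nat_lit 435) (nat_lit 2479) (.d (nat_lit 402) (nat_lit 370) (nat_lit 5489) (nat_lit 529) (nat_lit 5521))))))))))) (.a (.p (nat_lit 432) (.a (.d (nat_lit 527) (nat_lit 400) (nat_lit 5519) (nat_lit 559) (nat_lit 5551)) (.a (.f (nat_lit 401) (nat_lit 433) (nat_lit 6544) (.f (nat_lit 400) (nat_lit 369) (nat_lit 6512) (.d (nat_lit 399) (nat_lit 367) (nat_lit 7535) (nat_lit 431) (nat_lit 7567)))) (.f (nat_lit 431) (nat_lit 399) (nat_lit 7567) (.f (nat_lit 463) (nat_lit 560) (nat_lit 7599) (.f (nat_lit 433) (nat_lit 401) (nat_lit 6544) (.d (nat_lit 462) (nat_lit 434) (nat_lit 1454) (nat_lit 461) (nat_lit 2477)))))))) (.p (nat_lit 432) (.a (.d (nat_lit 527) (nat_lit 400) (nat_lit 5519) (nat_lit 559) (nat_lit 5551)) (.a (.f (nat_lit 399) (nat_lit 431) (nat_lit 7567) (.f (nat_lit 400) (nat_lit 367) (nat_lit 7535) (.f (nat_lit 368) (nat_lit 463) (nat_lit 5487) (.d (nat_lit 369) (nat_lit 337) (nat_lit 6480) (nat_lit 401) (nat_lit 6512))))) (.f (nat_lit 431) (nat_lit 399) (nat_lit 7567) (.f (nat_lit 463) (nat_lit 560) (nat_lit 7599) (.f (nat_lit 527) (nat_lit 559) (nat_lit 6575) (.f (nat_lit 430) (nat_lit 398) (nat_lit 7566) (.d (nat_lit 429) (nat_lit 428) (nat_lit 428) (nat_lit 465) (nat_lit 429)))))))))))))))) (.a (.p (nat_lit 497) (.a (.p (nat_lit 494) (.a (.d (nat_lit 529) (nat_lit 493) (nat_lit 493) (nat_lit 530) (nat_lit 494)) (.f (nat_lit 526) (nat_lit 525) (nat_lit 1517) (.f (nat_lit 498) (nat_lit 527) (nat_lit 1518) (.d (nat_lit 462) (nat_lit 461) (nat_lit 3533) (nat_lit 463) (nat_lit 3534)))))) (.a (.p (nat_lit 494) (.a (.d (nat_lit 529) (nat_lit 493) (nat_lit 493) (nat_lit 530) (nat_lit 494)) (.a (.f (nat_lit 465) (nat_lit 466) (nat_lit 2510) (.f (nat_lit 493) (nat_lit 464) (nat_lit 2509) (.d (nat_lit 525) (nat_lit 524) (nat_lit 1516) (nat_lit 526) (nat_lit 1517)))) (.f (nat_lit 526) (nat_lit 525) (nat_lit 1517) (.f (nat_lit 527) (nat_lit 498) (nat_lit 1518) (.f (nat_lit 462) (nat_lit 461) (nat_lit 3533) (.d (nat_lit 430) (nat_lit 398) (nat_lit 4494) (nat_lit 559) (nat_lit 4526)))))))) (.a (.p (nat_lit 494) (.a (.f (nat_lit 526) (nat_lit 525) (nat_lit 1517) (.f (nat_lit 498) (nat_lit 527) (nat_lit 1518) (.d (nat_lit 462) (nat_lit 461) (nat_lit 3533) (nat_lit 463) (nat_lit 3534)))) (.a (.f (nat_lit 465) (nat_lit 466) (nat_lit 2510) (.f (nat_lit 493) (nat_lit 464) (nat_lit 2509) (.d (nat_lit 525) (nat_lit 524) (nat_lit 1516) (nat_lit 526) (nat_lit 1517)))) (.f (nat_lit 465) (nat_lit 466) (nat_lit 2510) (.f (nat_lit 493) (nat_lit 464) (nat_lit 2509) (.d (nat_lit 461) (nat_lit 460) (nat_lit 3532) (nat_lit 462) (nat_lit 3533))))))) (.a (.p (nat_lit 494) (.a (.d (nat_lit 529) (nat_lit 493) (nat_lit 493) (nat_lit 530) (nat_lit 494)) (.a (.f (nat_lit 465) (nat_lit 466) (nat_lit 2510) (.f (nat_lit 493) (nat_lit 464) (nat_lit 2509) (.d (nat_lit 525) (nat_lit 524) (nat_lit 1516) (nat_lit 526) (nat_lit 1517)))) (.f (nat_lit 462) (nat_lit 461) (nat_lit 3533) (.f (nat_lit 463) (nat_lit 498) (nat_lit 3534) (.f (nat_lit 431) (nat_lit 399) (nat_lit 4495) (.d (nat_lit 526) (nat_lit 525) (nat_lit 1517) (nat_lit 558) (nat_lit 6574)))))))) (.a s127390 (.a (.p (nat_lit 494) (.a (.d (nat_lit 529) (nat_lit 493) (nat_lit 493) (nat_lit 530) (nat_lit 494)) (.a (.f (nat_lit 465) (nat_lit 466) (nat_lit 2510) (.f (nat_lit 493) (nat_lit 464) (nat_lit 2509) (.d (nat_lit 525) (nat_lit 524) (nat_lit 1516) (nat_lit 526) (nat_lit 1517)))) (.f (nat_lit 529) (nat_lit 530) (nat_lit 494) (.f (nat_lit 462) (nat_lit 461) (nat_lit 3533) (.f (nat_lit 465) (nat_lit 466) (nat_lit 2510) (.f (nat_lit 433) (nat_lit 401) (nat_lit 5520) (.f (nat_lit 432) (nat_lit 400) (nat_lit 7568) (.f (nat_lit 434) (nat_lit 402) (nat_lit 6545) (.d (nat_lit 463) (nat_lit 431) (nat_lit 1454) (nat_lit 464) (nat_lit 2478))))))))))) (.a (.p (nat_lit 494) (.a (.d (nat_lit 529) (nat_lit 493) (nat_lit 493) (nat_lit 530) (nat_lit 494)) (.a (.f (nat_lit 465) (nat_lit 466) (nat_lit 2510) (.f (nat_lit 493) (nat_lit 464) (nat_lit 2509) (.d (nat_lit 461) (nat_lit 460) (nat_lit 3532) (nat_lit 462) (nat_lit 3533)))) (.f (nat_lit 529) (nat_lit 530) (nat_lit 494) (.f (nat_lit 462) (nat_lit 461) (nat_lit 3533) (.f (nat_lit 465) (nat_lit 466) (nat_lit 2510) (.f (nat_lit 433) (nat_lit 401) (nat_lit 5520) (.f (nat_lit 432) (nat_lit 400) (nat_lit 7568) (.f (nat_lit 434) (nat_lit 402) (nat_lit 6545) (.d (nat_lit 463) (nat_lit 431) (nat_lit 1454) (nat_lit 464) (nat_lit 2478))))))))))) (.p (nat_lit 494) (.a (.d (nat_lit 529) (nat_lit 493) (nat_lit 493) (nat_lit 530) (nat_lit 494)) (.a (.f (nat_lit 465) (nat_lit 466) (nat_lit 2510) (.f (nat_lit 493) (nat_lit 464) (nat_lit 2509) (.d (nat_lit 525) (nat_lit 524) (nat_lit 1516) (nat_lit 526) (nat_lit 1517)))) (.f (nat_lit 526) (nat_lit 525) (nat_lit 1517) (.f (nat_lit 498) (nat_lit 527) (nat_lit 1518) (.d (nat_lit 466) (nat_lit 465) (nat_lit 2510) (nat_lit 467) (nat_lit 2511))))))))))))))) (.a (.p (nat_lit 497) (.a (.p (nat_lit 494) (.a (.d (nat_lit 529) (nat_lit 493) (nat_lit 493) (nat_lit 530) (nat_lit 494)) (.f (nat_lit 526) (nat_lit 525) (nat_lit 1517) (.f (nat_lit 498) (nat_lit 527) (nat_lit 1518) (.d (nat_lit 462) (nat_lit 461) (nat_lit 3533) (nat_lit 463) (nat_lit 3534)))))) (.a (.p (nat_lit 494) (.a (.d (nat_lit 529) (nat_lit 493) (nat_lit 493) (nat_lit 530) (nat_lit 494)) (.f (nat_lit 526) (nat_lit 525) (nat_lit 1517) (.f (nat_lit 527) (nat_lit 498) (nat_lit 1518) (.f (nat_lit 462) (nat_lit 461) (nat_lit 3533) (.d (nat_lit 430) (nat_lit 398) (nat_lit 4494) (nat_lit 559) (nat_lit 4526))))))) (.a s127343 (.a (.p (nat_lit 494) (.a (.d (nat_lit 529) (nat_lit 493) (nat_lit 493) (nat_lit 530) (nat_lit 494)) (.f (nat_lit 462) (nat_lit 461) (nat_lit 3533) (.f (nat_lit 463) (nat_lit 498) (nat_lit 3534) (.f (nat_lit 431) (nat_lit 399) (nat_lit 4495) (.d (nat_lit 526) (nat_lit 525) (nat_lit 1517) (nat_lit 558) (nat_lit 6574))))))) (.a (.p (nat_lit 463) (.a (.f (nat_lit 498) (nat_lit 462) (nat_lit 3534) (.d (nat_lit 527) (nat_lit 499) (nat_lit 1519) (nat_lit 526) (nat_lit 1518))) (.a (.f (nat_lit 498) (nat_lit 462) (nat_lit 3534) (.f (nat_lit 531) (nat_lit 530) (nat_lit 495) (.f (nat_lit 499) (nat_lit 532) (nat_lit 496) (.d (nat_lit 467) (nat_lit 466) (nat_lit 2511) (nat_lit 468) (nat_lit 2512))))) (.f (nat_lit 560) (nat_lit 592) (nat_lit 7631) (.d (nat_lit 431) (nat_lit 399) (nat_lit 4495) (nat_lit 527) (nat_lit 4527)))))) (.a (.p (nat_lit 494) (.a (.d (nat_lit 529) (nat_lit 493) (nat_lit 493) (nat_lit 530) (nat_lit 494)) (.a (.f (nat_lit 525) (nat_lit 526) (nat_lit 1517) (.f (nat_lit 493) (nat_lit 524) (nat_lit 1516) (.d (nat_lit 461) (nat_lit 460) (nat_lit 3532) (nat_lit 462) (nat_lit 3533)))) (.f (nat_lit 529) (nat_lit 530) (nat_lit 494) (.f (nat_lit 465) (nat_lit 466) (nat_lit 2510) (.d (nat_lit 560) (nat_lit 433) (nat_lit 5552) (nat_lit 592) (nat_lit 6608))))))) (.a (.p (nat_lit 494) (.a (.d (nat_lit 529) (nat_lit 493) (nat_lit 493) (nat_lit 530) (nat_lit 494)) (.f (nat_lit 462) (nat_lit 461) (nat_lit 3533) (.f (nat_lit 463) (nat_lit 498) (nat_lit 3534) (.f (nat_lit 431) (nat_lit 399) (nat_lit 4495) (.d (nat_lit 560) (nat_lit 527) (nat_lit 4527) (nat_lit 592) (nat_lit 7631))))))) (.p (nat_lit 494) (.a (.d (nat_lit 529) (nat_lit 493) (nat_lit 493) (nat_lit 530) (nat_lit 494)) (.f (nat_lit 526) (nat_lit 525) (nat_lit 1517) (.f (nat_lit 498) (nat_lit 527) (nat_lit 1518) (.d (nat_lit 466) (nat_lit 465) (nat_lit 2510) (nat_lit 467) (nat_lit 2511)))))))))))))) (.a (.p (nat_lit 465) (.a (.p (nat_lit 497) (.a (.f (nat_lit 433) (nat_lit 401) (nat_lit 5520) (.d (nat_lit 560) (nat_lit 464) (nat_lit 6576) (nat_lit 592) (nat_lit 6608))) (.a (.f (nat_lit 494) (nat_lit 466) (nat_lit 2510) (.d (nat_lit 493) (nat_lit 464) (nat_lit 2509) (nat_lit 529) (nat_lit 493))) (.f (nat_lit 494) (nat_lit 466) (nat_lit 2510) (.d (nat_lit 529) (nat_lit 493) (nat_lit 493) (nat_lit 530) (nat_lit 494)))))) (.a (.p (nat_lit 464) (.a (.f (nat_lit 494) (nat_lit 493) (nat_lit 2509) (.d (nat_lit 466) (nat_lit 467) (nat_lit 1487) (nat_lit 497) (nat_lit 2510))) (.a (.f (nat_lit 494) (nat_lit 493) (nat_lit 2509) (.d (nat_lit 466) (nat_lit 463) (nat_lit 1486) (nat_lit 467) (nat_lit 1487))) (.f (nat_lit 560) (nat_lit 433) (nat_lit 6576) (.d (nat_lit 463) (nat_lit 431) (nat_lit 7599) (nat_lit 592) (nat_lit 7631)))))) (.a (.p (nat_lit 464) (.a (.f (nat_lit 494) (nat_lit 493) (nat_lit 2509) (.d (nat_lit 466) (nat_lit 463) (nat_lit 1486) (nat_lit 467) (nat_lit 1487))) (.f (nat_lit 433) (nat_lit 560) (nat_lit 6576) (.d (nat_lit 401) (nat_lit 369) (nat_lit 5488) (nat_lit 432) (nat_lit 6544))))) (.a (.p (nat_lit 560) (.a (.d (nat_lit 592) (nat_lit 463) (nat_lit 7631) (nat_lit 497) (nat_lit 6608)) (.a (.f (nat_lit 592) (nat_lit 497) (nat_lit 6608) (.f (nat_lit 624) (nat_lit 527) (nat_lit 7663) (.d (nat_lit 625) (nat_lit 593) (nat_lit 4592) (nat_lit 657) (nat_lit 4624)))) (.a (.f (nat_lit 464) (nat_lit 433) (nat_lit 6576) (.d (nat_lit 463) (nat_lit 431) (nat_lit 7599) (nat_lit 592) (nat_lit 7631))) (.f (nat_lit 464) (nat_lit 433) (nat_lit 6576) (.f (nat_lit 431) (nat_lit 463) (nat_lit 7599) (.f (nat_lit 432) (nat_lit 399) (nat_lit 7567) (.d (nat_lit 527) (nat_lit 400) (nat_lit 5519) (nat_lit 559) (nat_lit 5551))))))))) (.a s126763 (.a (.p (nat_lit 497) (.a (.f (nat_lit 494) (nat_lit 466) (nat_lit 2510) (.d (nat_lit 529) (nat_lit 493) (nat_lit 493) (nat_lit 530) (nat_lit 494))) (.a (.f (nat_lit 494) (nat_lit 466) (nat_lit 2510) (.f (nat_lit 525) (nat_lit 526) (nat_lit 1517) (.f (nat_lit 493) (nat_lit 524) (nat_lit 1516) (.d (nat_lit 461) (nat_lit 460) (nat_lit 3532) (nat_lit 462) (nat_lit 3533))))) (.f (nat_lit 560) (nat_lit 592) (nat_lit 6608) (.d (nat_lit 433) (nat_lit 401) (nat_lit 5520) (nat_lit 529) (nat_lit 5552)))))) (.p (nat_lit 494) (.a (.d (nat_lit 493) (nat_lit 464) (nat_lit 2509) (nat_lit 529) (nat_lit 493)) (.a (.f (nat_lit 493) (nat_lit 464) (nat_lit 2509) (.f (nat_lit 497) (nat_lit 466) (nat_lit 2510) (.d (nat_lit 525) (nat_lit 524) (nat_lit 1516) (nat_lit 526) (nat_lit 1517)))) (.a (.f (nat_lit 466) (nat_lit 497) (nat_lit 2510) (.d (nat_lit 464) (nat_lit 463) (nat_lit 1486) (nat_lit 467) (nat_lit 1487))) (.f (nat_lit 497) (nat_lit 466) (nat_lit 2510) (.d (nat_lit 529) (nat_lit 493) (nat_lit 493) (nat_lit 530) (nat_lit 494)))))))))))))) (.a (.p (nat_lit 494) (.a (.f (nat_lit 493) (nat_lit 529) (nat_lit 493) (.f (nat_lit 492) (nat_lit 527) (nat_lit 492) (.d (nat_lit 524) (nat_lit 523) (nat_lit 1515) (nat_lit 525) (nat_lit 1516)))) (.a (.p (nat_lit 497) (.a (.f (nat_lit 465) (nat_lit 466) (nat_lit 2510) (.f (nat_lit 464) (nat_lit 493) (nat_lit 2509) (.d (nat_lit 560) (nat_lit 433) (nat_lit 6576) (nat_lit 592) (nat_lit 6608)))) (.a (.f (nat_lit 465) (nat_lit 466) (nat_lit 2510) (.f (nat_lit 433) (nat_lit 401) (nat_lit 5520) (.d (nat_lit 560) (nat_lit 464) (nat_lit 6576) (nat_lit 592) (nat_lit 6608)))) (.a (.f (nat_lit 465) (nat_lit 466) (nat_lit 2510) (.f (nat_lit 493) (nat_lit 464) (nat_lit 2509) (.d (nat_lit 525) (nat_lit 524) (nat_lit 1516) (nat_lit 526) (nat_lit 1517)))) (.a (.f (nat_lit 526) (nat_lit 525) (nat_lit 1517) (.f (nat_lit 498) (nat_lit 527) (nat_lit 1518) (.f (nat_lit 467) (nat_lit 466) (nat_lit 2511) (.f (nat_lit 499) (nat_lit 468) (nat_lit 2512) (.d (nat_lit 531) (nat_lit 530) (nat_lit 495) (nat_lit 532) (nat_lit 496)))))) (.f (nat_lit 526) (nat_lit 525) (nat_lit 1517) (.f (nat_lit 527) (nat_lit 498) (nat_lit 1518) (.f (nat_lit 493) (nat_lit 492) (nat_lit 492) (.f (nat_lit 464) (nat_lit 465) (nat_lit 2509) (.d (nat_lit 432) (nat_lit 400) (nat_lit 5519) (nat_lit 559) (nat_lit 5551))))))))))) (.a (.p (nat_lit 497) (.a (.f (nat_lit 529) (nat_lit 530) (nat_lit 494) (.f (nat_lit 465) (nat_lit 466) (nat_lit 2510) (.d (nat_lit 560) (nat_lit 433) (nat_lit 5552) (nat_lit 592) (nat_lit 6608)))) (.a (.f (nat_lit 465) (nat_lit 466) (nat_lit 2510) (.f (nat_lit 433) (nat_lit 401) (nat_lit 5520) (.d (nat_lit 560) (nat_lit 464) (nat_lit 6576) (nat_lit 592) (nat_lit 6608)))) (.a (.f (nat_lit 526) (nat_lit 525) (nat_lit 1517) (.f (nat_lit 498) (nat_lit 527) (nat_lit 1518) (.d (nat_lit 466) (nat_lit 465) (nat_lit 2510) (nat_lit 467) (nat_lit 2511)))) (.a (.f (nat_lit 526) (nat_lit 525) (nat_lit 1517) (.f (nat_lit 498) (nat_lit 527) (nat_lit 1518) (.f (nat_lit 467) (nat_lit 466) (nat_lit 2511) (.f (nat_lit 499) (nat_lit 468) (nat_lit 2512) (.d (nat_lit 531) (nat_lit 530) (nat_lit 495) (nat_lit 532) (nat_lit 496)))))) (.f (nat_lit 529) (nat_lit 530) (nat_lit 494) (.f (nat_lit 526) (nat_lit 525) (nat_lit 1517) (.f (nat_lit 527) (nat_lit 498) (nat_lit 2542) (.f (nat_lit 558) (nat_lit 557) (nat_lit 1549) (.d (nat_lit 463) (nat_lit 431) (nat_lit 5550) (nat_lit 590) (nat_lit 6606))))))))))) (.a (.f (nat_lit 493) (nat_lit 529) (nat_lit 493) (.f (nat_lit 465) (nat_lit 464) (nat_lit 2509) (.f (nat_lit 497) (nat_lit 466) (nat_lit 2510) (.d (nat_lit 525) (nat_lit 524) (nat_lit 1516) (nat_lit 526) (nat_lit 1517))))) (.f (nat_lit 493) (nat_lit 529) (nat_lit 493) (.f (nat_lit 492) (nat_lit 527) (nat_lit 492) (.d (nat_lit 460) (nat_lit 459) (nat_lit 3531) (nat_lit 461) (nat_lit 3532))))))))) (.a (.p (nat_lit 497) (.a (.p (nat_lit 463) (.a (.f (nat_lit 498) (nat_lit 462) (nat_lit 3534) (.d (nat_lit 527) (nat_lit 499) (nat_lit 1519) (nat_lit 526) (nat_lit 1518))) (.a (.f (nat_lit 498) (nat_lit 462) (nat_lit 3534) (.f (nat_lit 499) (nat_lit 464) (nat_lit 3535) (.d (nat_lit 531) (nat_lit 530) (nat_lit 495) (nat_lit 532) (nat_lit 496)))) (.f (nat_lit 560) (nat_lit 592) (nat_lit 7631) (.d (nat_lit 431) (nat_lit 399) (nat_lit 4495) (nat_lit 464) (nat_lit 7599)))))) (.a (.p (nat_lit 494) (.a (.d (nat_lit 529) (nat_lit 493) (nat_lit 493) (nat_lit 530) (nat_lit 494)) (.f (nat_lit 526) (nat_lit 525) (nat_lit 1517) (.f (nat_lit 527) (nat_lit 498) (nat_lit 1518) (.f (nat_lit 462) (nat_lit 461) (nat_lit 3533) (.d (nat_lit 430) (nat_lit 398) (nat_lit 4494) (nat_lit 559) (nat_lit 4526))))))) (.a (.p (nat_lit 463) (.a (.f (nat_lit 498) (nat_lit 462) (nat_lit 3534) (.d (nat_lit 527) (nat_lit 499) (nat_lit 1519) (nat_lit 526) (nat_lit 1518))) (.f (nat_lit 560) (nat_lit 592) (nat_lit 7631) (.d (nat_lit 431) (nat_lit 399) (nat_lit 4495) (nat_lit 464) (nat_lit 7599))))) (.a (.p (nat_lit 463) (.a (.f (nat_lit 498) (nat_lit 462) (nat_lit 3534) (.f (nat_lit 499) (nat_lit 464) (nat_lit 3535) (.d (nat_lit 531) (nat_lit 530) (nat_lit 495) (nat_lit 532) (nat_lit 496)))) (.a (.f (nat_lit 560) (nat_lit 592) (nat_lit 7631) (.d (nat_lit 431) (nat_lit 399) (nat_lit 4495) (nat_lit 464) (nat_lit 7599))) (.f (nat_lit 498) (nat_lit 462) (nat_lit 3534) (.f (nat_lit 531) (nat_lit 530) (nat_lit 495) (.f (nat_lit 499) (nat_lit 532) (nat_lit 496) (.d (nat_lit 467) (nat_lit 466) (nat_lit 2511) (nat_lit 468) (nat_lit 2512)))))))) (.a s127437 (.p (nat_lit 494) (.a (.d (nat_lit 529) (nat_lit 493) (nat_lit 493) (nat_lit 530) (nat_lit 494)) (.a (.f (nat_lit 526) (nat_lit 525) (nat_lit 1517) (.f (nat_lit 498) (nat_lit 527) (nat_lit 1518) (.f (nat_lit 467) (nat_lit 466) (nat_lit 2511) (.f (nat_lit 499) (nat_lit 468) (nat_lit 2512) (.d (nat_lit 531) (nat_lit 530) (nat_lit 495) (nat_lit 532) (nat_lit 496)))))) (.f (nat_lit 493) (nat_lit 529) (nat_lit 493) (.d (nat_lit 525) (nat_lit 524) (nat_lit 1516) (nat_lit 526) (nat_lit 1517)))))))))))) (.a (.p (nat_lit 497) (.a (.p (nat_lit 494) (.a (.d (nat_lit 529) (nat_lit 493) (nat_lit 493) (nat_lit 530) (nat_lit 494)) (.a (.f (nat_lit 465) (nat_lit 466) (nat_lit 2510) (.f (nat_lit 464) (nat_lit 493) (nat_lit 2509) (.d (nat_lit 560) (nat_lit 433) (nat_lit 6576) (nat_lit 592) (nat_lit 6608)))) (.f (nat_lit 529) (nat_lit 530) (nat_lit 494) (.f (nat_lit 465) (nat_lit 466) (nat_lit 2510) (.d (nat_lit 560) (nat_lit 433) (nat_lit 5552) (nat_lit 592) (nat_lit 6608))))))) (.a (.p (nat_lit 463) (.a (.f (nat_lit 498) (nat_lit 462) (nat_lit 3534) (.d (nat_lit 527) (nat_lit 499) (nat_lit 1519) (nat_lit 526) (nat_lit 1518))) (.a (.f (nat_lit 498) (nat_lit 462) (nat_lit 3534) (.f (nat_lit 499) (nat_lit 464) (nat_lit 3535) (.d (nat_lit 531) (nat_lit 530) (nat_lit 495) (nat_lit 532) (nat_lit 496)))) (.f (nat_lit 560) (nat_lit 592) (nat_lit 7631) (.d (nat_lit 431) (nat_lit 399) (nat_lit 4495) (nat_lit 464) (nat_lit 7599)))))) (.a (.p (nat_lit 463) (.a (.f (nat_lit 498) (nat_lit 462) (nat_lit 3534) (.d (nat_lit 527) (nat_lit 499) (nat_lit 1519) (nat_lit 526) (nat_lit 1518))) (.f (nat_lit 560) (nat_lit 592) (nat_lit 7631) (.d (nat_lit 431) (nat_lit 399) (nat_lit 4495) (nat_lit 464) (nat_lit 7599))))) (.a s127390 (.p (nat_lit 463) (.a (.f (nat_lit 498) (nat_lit 462) (nat_lit 3534) (.d (nat_lit 527) (nat_lit 499) (nat_lit 1519) (nat_lit 526) (nat_lit 1518))) (.a (.f (nat_lit 498) (nat_lit 462) (nat_lit 3534) (.f (nat_lit 531) (nat_lit 530) (nat_lit 495) (.f (nat_lit 499) (nat_lit 532) (nat_lit 496) (.d (nat_lit 467) (nat_lit 466) (nat_lit 2511) (nat_lit 468) (nat_lit 2512))))) (.f (nat_lit 560) (nat_lit 592) (nat_lit 7631) (.d (nat_lit 431) (nat_lit 399) (nat_lit 4495) (nat_lit 527) (nat_lit 4527))))))))))) (.p (nat_lit 497) (.a (.p (nat_lit 463) (.a (.f (nat_lit 498) (nat_lit 462) (nat_lit 3534) (.d (nat_lit 527) (nat_lit 499) (nat_lit 1519) (nat_lit 526) (nat_lit 1518))) (.a (.f (nat_lit 498) (nat_lit 462) (nat_lit 3534) (.f (nat_lit 499) (nat_lit 464) (nat_lit 3535) (.d (nat_lit 531) (nat_lit 530) (nat_lit 495) (nat_lit 532) (nat_lit 496)))) (.f (nat_lit 560) (nat_lit 592) (nat_lit 7631) (.d (nat_lit 431) (nat_lit 399) (nat_lit 4495) (nat_lit 464) (nat_lit 7599)))))) (.a (.p (nat_lit 494) (.a (.d (nat_lit 529) (nat_lit 493) (nat_lit 493) (nat_lit 530) (nat_lit 494)) (.f (nat_lit 526) (nat_lit 525) (nat_lit 1517) (.f (nat_lit 527) (nat_lit 498) (nat_lit 1518) (.f (nat_lit 462) (nat_lit 461) (nat_lit 3533) (.d (nat_lit 430) (nat_lit 398) (nat_lit 4494) (nat_lit 559) (nat_lit 4526))))))) (.a (.p (nat_lit 463) (.a (.f (nat_lit 498) (nat_lit 462) (nat_lit 3534) (.d (nat_lit 527) (nat_lit 499) (nat_lit 1519) (nat_lit 526) (nat_lit 1518))) (.f (nat_lit 560) (nat_lit 592) (nat_lit 7631) (.d (nat_lit 431) (nat_lit 399) (nat_lit 4495) (nat_lit 464) (nat_lit 7599))))) (.a (.p (nat_lit 494) (.a (.d (nat_lit 529) (nat_lit 493) (nat_lit 493) (nat_lit 530) (nat_lit 494)) (.f (nat_lit 462) (nat_lit 461) (nat_lit 3533) (.f (nat_lit 463) (nat_lit 498) (nat_lit 3534) (.f (nat_lit 431) (nat_lit 399) (nat_lit 4495) (.d (nat_lit 526) (nat_lit 525) (nat_lit 1517) (nat_lit 558) (nat_lit 6574))))))) (.a s127437 (.a (.p (nat_lit 494) (.a (.d (nat_lit 529) (nat_lit 493) (nat_lit 493) (nat_lit 530) (nat_lit 494)) (.f (nat_lit 462) (nat_lit 461) (nat_lit 3533) (.f (nat_lit 463) (nat_lit 498) (nat_lit 3534) (.f (nat_lit 431) (nat_lit 399) (nat_lit 4495) (.d (nat_lit 560) (nat_lit 527) (nat_lit 4527) (nat_lit 592) (nat_lit 7631))))))) (.p (nat_lit 494) (.a (.d (nat_lit 529) (nat_lit 493) (nat_lit 493) (nat_lit 530) (nat_lit 494)) (.a (.f (nat_lit 526) (nat_lit 525) (nat_lit 1517) (.f (nat_lit 527) (nat_lit 498) (nat_lit 1518) (.f (nat_lit 493) (nat_lit 492) (nat_lit 492) (.f (nat_lit 464) (nat_lit 465) (nat_lit 2509) (.d (nat_lit 432) (nat_lit 400) (nat_lit 5519) (nat_lit 559) (nat_lit 5551)))))) (.f (nat_lit 529) (nat_lit 530) (nat_lit 494) (.f (nat_lit 526) (nat_lit 525) (nat_lit 1517) (.f (nat_lit 527) (nat_lit 498) (nat_lit 2542) (.f (nat_lit 558) (nat_lit 557) (nat_lit 1549) (.d (nat_lit 463) (nat_lit 431) (nat_lit 5550) (nat_lit 590) (nat_lit 6606)))))))))))))))))))))))))))))) (.a (.p (nat_lit 494) (.a (.p (nat_lit 529) (.a (.f (nat_lit 527) (nat_lit 530) (nat_lit 3566) (.d (nat_lit 493) (nat_lit 496) (nat_lit 493) (nat_lit 526) (nat_lit 3565))) (.a (.f (nat_lit 496) (nat_lit 493) (nat_lit 493) (.d (nat_lit 530) (nat_lit 497) (nat_lit 494) (nat_lit 531) (nat_lit 3567))) (.a (.f (nat_lit 530) (nat_lit 527) (nat_lit 3566) (.d (nat_lit 496) (nat_lit 497) (nat_lit 494) (nat_lit 531) (nat_lit 3567))) (.a (.f (nat_lit 527) (nat_lit 530) (nat_lit 3566) (.d (nat_lit 493) (nat_lit 492) (nat_lit 492) (nat_lit 526) (nat_lit 3565))) (.f (nat_lit 493) (nat_lit 496) (nat_lit 493) (.d (nat_lit 527) (nat_lit 492) (nat_lit 492) (nat_lit 526) (nat_lit 3565)))))))) (.a (.p (nat_lit 496) (.a (.f (nat_lit 493) (nat_lit 529) (nat_lit 493) (.f (nat_lit 464) (nat_lit 465) (nat_lit 2509) (.f (nat_lit 463) (nat_lit 492) (nat_lit 2508) (.d (nat_lit 431) (nat_lit 399) (nat_lit 4495) (nat_lit 560) (nat_lit 7599))))) (.a (.f (nat_lit 493) (nat_lit 529) (nat_lit 493) (.f (nat_lit 525) (nat_lit 524) (nat_lit 1516) (.f (nat_lit 461) (nat_lit 460) (nat_lit 3532) (.d (nat_lit 497) (nat_lit 462) (nat_lit 3533) (nat_lit 526) (nat_lit 1517))))) (.a (.p (nat_lit 497) (.a (.f (nat_lit 465) (nat_lit 466) (nat_lit 2510) (.f (nat_lit 560) (nat_lit 592) (nat_lit 6608) (.d (nat_lit 433) (nat_lit 401) (nat_lit 5520) (nat_lit 464) (nat_lit 6576)))) (.a (.f (nat_lit 530) (nat_lit 529) (nat_lit 494) (.f (nat_lit 498) (nat_lit 531) (nat_lit 495) (.d (nat_lit 466) (nat_lit 465) (nat_lit 2510) (nat_lit 467) (nat_lit 2511)))) (.f (nat_lit 530) (nat_lit 529) (nat_lit 494) (.f (nat_lit 498) (nat_lit 531) (nat_lit 495) (.d (nat_lit 462) (nat_lit 461) (nat_lit 3533) (nat_lit 463) (nat_lit 3534))))))) s133118)))) (.a (.p (nat_lit 527) (.a (.p (nat_lit 463) (.a (.f (nat_lit 431) (nat_lit 560) (nat_lit 4527) (.d (nat_lit 399) (nat_lit 496) (nat_lit 4495) (nat_lit 526) (nat_lit 5518))) (.a (.p (nat_lit 559) (.a (.d (nat_lit 462) (nat_lit 430) (nat_lit 7598) (nat_lit 591) (nat_lit 7630)) (.f (nat_lit 558) (nat_lit 590) (nat_lit 5582) (.f (nat_lit 526) (nat_lit 431) (nat_lit 5550) (.d (nat_lit 529) (nat_lit 530) (nat_lit 3566) (nat_lit 557) (nat_lit 1549)))))) (.p (nat_lit 559) (.a (.d (nat_lit 462) (nat_lit 430) (nat_lit 7598) (nat_lit 591) (nat_lit 7630)) (.f (nat_lit 558) (nat_lit 590) (nat_lit 5582) (.f (nat_lit 529) (nat_lit 530) (nat_lit 3566) (.d (nat_lit 560) (nat_lit 557) (nat_lit 2573) (nat_lit 592) (nat_lit 4559))))))))) (.a (.f (nat_lit 529) (nat_lit 530) (nat_lit 3566) (.p (nat_lit 526) (.a (.f (nat_lit 497) (nat_lit 498) (nat_lit 2542) (.f (nat_lit 525) (nat_lit 496) (nat_lit 2541) (.d (nat_lit 557) (nat_lit 556) (nat_lit 1548) (nat_lit 558) (nat_lit 1549)))) (.a (.f (nat_lit 558) (nat_lit 557) (nat_lit 1549) (.f (nat_lit 590) (nat_lit 622) (nat_lit 6638) (.f (nat_lit 591) (nat_lit 623) (nat_lit 4590) (.f (nat_lit 462) (nat_lit 559) (nat_lit 4558) (.f (nat_lit 430) (nat_lit 398) (nat_lit 4494) (.d (nat_lit 429) (nat_lit 397) (nat_lit 7565) (nat_lit 461) (nat_lit 7597))))))) (.a (.f (nat_lit 497) (nat_lit 498) (nat_lit 2542) (.f (nat_lit 525) (nat_lit 496) (nat_lit 2541) (.f (nat_lit 524) (nat_lit 523) (nat_lit 2539) (.d (nat_lit 556) (nat_lit 555) (nat_lit 1547) (nat_lit 557) (nat_lit 1548))))) (.f (nat_lit 497) (nat_lit 498) (nat_lit 2542) (.f (nat_lit 496) (nat_lit 525) (nat_lit 2541) (.f (nat_lit 462) (nat_lit 461) (nat_lit 3533) (.d (nat_lit 430) (nat_lit 398) (nat_lit 4494) (nat_lit 559) (nat_lit 4526)))))))))) (.a s133147 (.a s133152 (.a (.p (nat_lit 463) (.a (.p (nat_lit 559) (.a (.d (nat_lit 462) (nat_lit 430) (nat_lit 7598) (nat_lit 591) (nat_lit 7630)) (.f (nat_lit 558) (nat_lit 590) (nat_lit 5582) (.f (nat_lit 529) (nat_lit 530) (nat_lit 3566) (.d (nat_lit 560) (nat_lit 557) (nat_lit 2573) (nat_lit 592) (nat_lit 4559)))))) (.a (.p (nat_lit 559) (.a (.d (nat_lit 462) (nat_lit 430) (nat_lit 7598) (nat_lit 591) (nat_lit 7630)) (.a (.f (nat_lit 464) (nat_lit 432) (nat_lit 6575) (.f (nat_lit 591) (nat_lit 496) (nat_lit 6607) (.d (nat_lit 590) (nat_lit 558) (nat_lit 5582) (nat_lit 622) (nat_lit 5614)))) (.f (nat_lit 462) (nat_lit 430) (nat_lit 7598) (.f (nat_lit 464) (nat_lit 432) (nat_lit 6575) (.f (nat_lit 465) (nat_lit 466) (nat_lit 1486) (.f (nat_lit 497) (nat_lit 498) (nat_lit 462) (.f (nat_lit 496) (nat_lit 461) (nat_lit 461) (.d (nat_lit 433) (nat_lit 401) (nat_lit 5520) (nat_lit 434) (nat_lit 2478)))))))))) (.a (.f (nat_lit 431) (nat_lit 560) (nat_lit 4527) (.f (nat_lit 399) (nat_lit 496) (nat_lit 4495) (.d (nat_lit 398) (nat_lit 366) (nat_lit 7534) (nat_lit 430) (nat_lit 7566)))) (.f (nat_lit 560) (nat_lit 431) (nat_lit 4527) (.d (nat_lit 592) (nat_lit 496) (nat_lit 7631) (nat_lit 559) (nat_lit 4559))))))) (.a (.f (nat_lit 529) (nat_lit 530) (nat_lit 3566) (.p (nat_lit 526) (.a (.f (nat_lit 497) (nat_lit 498) (nat_lit 2542) (.f (nat_lit 525) (nat_lit 496) (nat_lit 2541) (.d (nat_lit 557) (nat_lit 556) (nat_lit 1548) (nat_lit 558) (nat_lit 1549)))) (.a (.f (nat_lit 558) (nat_lit 557) (nat_lit 1549) (.d (nat_lit 463) (nat_lit 431) (nat_lit 5550) (nat_lit 590) (nat_lit 6606))) (.a (.f (nat_lit 497) (nat_lit 498) (nat_lit 2542) (.f (nat_lit 525) (nat_lit 496) (nat_lit 2541) (.f (nat_lit 524) (nat_lit 523) (nat_lit 2539) (.d (nat_lit 556) (nat_lit 555) (nat_lit 1547) (nat_lit 557) (nat_lit 1548))))) (.f (nat_lit 497) (nat_lit 498) (nat_lit 2542) (.f (nat_lit 496) (nat_lit 525) (nat_lit 2541) (.f (nat_lit 465) (nat_lit 466) (nat_lit 2510) (.d (nat_lit 433) (nat_lit 401) (nat_lit 5520) (nat_lit 560) (nat_lit 5552)))))))))) (.a s133158 (.p (nat_lit 463) (.a (.f (nat_lit 431) (nat_lit 560) (nat_lit 4527) (.d (nat_lit 399) (nat_lit 496) (nat_lit 4495) (nat_lit 526) (nat_lit 5518))) (.a (.p (nat_lit 559) (.a (.d (nat_lit 462) (nat_lit 430) (nat_lit 7598) (nat_lit 591) (nat_lit 7630)) (.a (.f (nat_lit 529) (nat_lit 530) (nat_lit 3566) (.f (nat_lit 464) (nat_lit 432) (nat_lit 6575) (.f (nat_lit 496) (nat_lit 591) (nat_lit 6607) (.f (nat_lit 431) (nat_lit 399) (nat_lit 4495) (.f (nat_lit 526) (nat_lit 558) (nat_lit 5550) (.d (nat_lit 497) (nat_lit 498) (nat_lit 2542) (nat_lit 525) (nat_lit 1517))))))) (.f (nat_lit 462) (nat_lit 430) (nat_lit 7598) (.f (nat_lit 464) (nat_lit 432) (nat_lit 6575) (.f (nat_lit 465) (nat_lit 466) (nat_lit 1486) (.f (nat_lit 497) (nat_lit 498) (nat_lit 462) (.f (nat_lit 496) (nat_lit 461) (nat_lit 461) (.d (nat_lit 433) (nat_lit 401) (nat_lit 5520) (nat_lit 434) (nat_lit 2478)))))))))) (.a (.p (nat_lit 559) (.a (.d (nat_lit 462) (nat_lit 430) (nat_lit 7598) (nat_lit 591) (nat_lit 7630)) (.a (.f (nat_lit 560) (nat_lit 592) (nat_lit 4559) (.f (nat_lit 464) (nat_lit 432) (nat_lit 6575) (.f (nat_lit 496) (nat_lit 591) (nat_lit 5583) (.d (nat_lit 465) (nat_lit 433) (nat_lit 6576) (nat_lit 466) (nat_lit 1486))))) (.f (nat_lit 462) (nat_lit 430) (nat_lit 7598) (.f (nat_lit 464) (nat_lit 432) (nat_lit 6575) (.f (nat_lit 465) (nat_lit 466) (nat_lit 1486) (.f (nat_lit 497) (nat_lit 498) (nat_lit 462) (.f (nat_lit 496) (nat_lit 461) (nat_lit 461) (.d (nat_lit 433) (nat_lit 401) (nat_lit 5520) (nat_lit 434) (nat_lit 2478)))))))))) (.f (nat_lit 431) (nat_lit 560) (nat_lit 4527) (.d (nat_lit 526) (nat_lit 399) (nat_lit 5518) (nat_lit 558) (nat_lit 5550))))))))))))))) (.a (.p (nat_lit 527) (.a s133147 (.a (.p (nat_lit 496) (.a (.f (nat_lit 493) (nat_lit 492) (nat_lit 492) (.f (nat_lit 525) (nat_lit 524) (nat_lit 1516) (.f (nat_lit 497) (nat_lit 526) (nat_lit 1517) (.d (nat_lit 461) (nat_lit 460) (nat_lit 3532) (nat_lit 462) (nat_lit 3533))))) (.a (.p (nat_lit 497) (.a (.d (nat_lit 526) (nat_lit 498) (nat_lit 1518) (nat_lit 525) (nat_lit 1517)) (.f (nat_lit 465) (nat_lit 466) (nat_lit 2510) (.f (nat_lit 560) (nat_lit 592) (nat_lit 6608) (.d (nat_lit 433) (nat_lit 401) (nat_lit 5520) (nat_lit 464) (nat_lit 6576)))))) (.f (nat_lit 493) (nat_lit 492) (nat_lit 492) (.f (nat_lit 464) (nat_lit 465) (nat_lit 2509) (.d (nat_lit 559) (nat_lit 432) (nat_lit 5551) (nat_lit 591) (nat_lit 6607))))))) (.a (.p (nat_lit 463) (.a (.p (nat_lit 559) (.a (.d (nat_lit 462) (nat_lit 430) (nat_lit 7598) (nat_lit 591) (nat_lit 7630)) (.a (.f (nat_lit 558) (nat_lit 590) (nat_lit 5582) (.f (nat_lit 526) (nat_lit 431) (nat_lit 5550) (.f (nat_lit 591) (nat_lit 623) (nat_lit 7662) (.d (nat_lit 464) (nat_lit 432) (nat_lit 6575) (nat_lit 496) (nat_lit 6607))))) (.f (nat_lit 462) (nat_lit 430) (nat_lit 7598) (.f (nat_lit 558) (nat_lit 590) (nat_lit 5582) (.f (nat_lit 526) (nat_lit 431) (nat_lit 5550) (.d (nat_lit 557) (nat_lit 556) (nat_lit 2572) (nat_lit 589) (nat_lit 5581)))))))) (.a (.p (nat_lit 559) (.a (.d (nat_lit 462) (nat_lit 430) (nat_lit 7598) (nat_lit 591) (nat_lit 7630)) (.a (.f (nat_lit 590) (nat_lit 558) (nat_lit 5582) (.f (nat_lit 591) (nat_lit 622) (nat_lit 5614) (.f (nat_lit 624) (nat_lit 592) (nat_lit 4591) (.d (nat_lit 623) (nat_lit 526) (nat_lit 7662) (nat_lit 656) (nat_lit 4623))))) (.f (nat_lit 462) (nat_lit 430) (nat_lit 7598) (.f (nat_lit 558) (nat_lit 590) (nat_lit 5582) (.f (nat_lit 526) (nat_lit 431) (nat_lit 5550) (.d (nat_lit 557) (nat_lit 556) (nat_lit 2572) (nat_lit 589) (nat_lit 5581)))))))) (.a (.p (nat_lit 559) (.a (.d (nat_lit 462) (nat_lit 430) (nat_lit 7598) (nat_lit 591) (nat_lit 7630)) (.a (.f (nat_lit 464) (nat_lit 432) (nat_lit 6575) (.f (nat_lit 591) (nat_lit 496) (nat_lit 6607) (.d (nat_lit 590) (nat_lit 558) (nat_lit 5582) (nat_lit 622) (nat_lit 5614)))) (.f (nat_lit 462) (nat_lit 430) (nat_lit 7598) (.f (nat_lit 464) (nat_lit 432) (nat_lit 6575) (.f (nat_lit 465) (nat_lit 466) (nat_lit 1486) (.f (nat_lit 497) (nat_lit 498) (nat_lit 462) (.f (nat_lit 496) (nat_lit 461) (nat_lit 461) (.d (nat_lit 433) (nat_lit 401) (nat_lit 5520) (nat_lit 434) (nat_lit 2478)))))))))) (.a (.p (nat_lit 496) (.a (.f (nat_lit 431) (nat_lit 399) (nat_lit 4495) (.f (nat_lit 526) (nat_lit 558) (nat_lit 5550) (.d (nat_lit 497) (nat_lit 498) (nat_lit 1518) (nat_lit 525) (nat_lit 2541)))) (.a (.f (nat_lit 493) (nat_lit 492) (nat_lit 492) (.f (nat_lit 525) (nat_lit 524) (nat_lit 1516) (.f (nat_lit 497) (nat_lit 526) (nat_lit 1517) (.d (nat_lit 498) (nat_lit 462) (nat_lit 3534) (nat_lit 499) (nat_lit 1519))))) (.a (.f (nat_lit 493) (nat_lit 492) (nat_lit 492) (.f (nat_lit 464) (nat_lit 465) (nat_lit 2509) (.f (nat_lit 461) (nat_lit 460) (nat_lit 3532) (.f (nat_lit 462) (nat_lit 497) (nat_lit 461) (.f (nat_lit 430) (nat_lit 398) (nat_lit 4494) (.d (nat_lit 525) (nat_lit 524) (nat_lit 1516) (nat_lit 557) (nat_lit 6573))))))) (.a (.f (nat_lit 493) (nat_lit 492) (nat_lit 492) (.f (nat_lit 431) (nat_lit 399) (nat_lit 4495) (.f (nat_lit 526) (nat_lit 558) (nat_lit 5550) (.f (nat_lit 525) (nat_lit 524) (nat_lit 1516) (.f (nat_lit 430) (nat_lit 398) (nat_lit 7566) (.d (nat_lit 557) (nat_lit 462) (nat_lit 5549) (nat_lit 556) (nat_lit 1548))))))) (.f (nat_lit 431) (nat_lit 399) (nat_lit 4495) (.f (nat_lit 493) (nat_lit 492) (nat_lit 492) (.f (nat_lit 526) (nat_lit 558) (nat_lit 5550) (.f (nat_lit 497) (nat_lit 498) (nat_lit 1518) (.d (nat_lit 461) (nat_lit 460) (nat_lit 3532) (nat_lit 462) (nat_lit 3533))))))))))) (.a (.p (nat_lit 496) (.a (.f (nat_lit 431) (nat_lit 399) (nat_lit 4495) (.f (nat_lit 526) (nat_lit 558) (nat_lit 5550) (.d (nat_lit 497) (nat_lit 498) (nat_lit 1518) (nat_lit 525) (nat_lit 2541)))) (.f (nat_lit 493) (nat_lit 492) (nat_lit 492) (.f (nat_lit 464) (nat_lit 465) (nat_lit 2509) (.d (nat_lit 559) (nat_lit 432) (nat_lit 5551) (nat_lit 591) (nat_lit 6607)))))) s126483)))))) (.a s133206 (.a (.p (nat_lit 463) (.a s133146 (.a (.p (nat_lit 559) (.a (.d (nat_lit 462) (nat_lit 430) (nat_lit 7598) (nat_lit 591) (nat_lit 7630)) (.a (.f (nat_lit 464) (nat_lit 432) (nat_lit 6575) (.f (nat_lit 591) (nat_lit 496) (nat_lit 6607) (.d (nat_lit 590) (nat_lit 558) (nat_lit 5582) (nat_lit 622) (nat_lit 5614)))) (.f (nat_lit 462) (nat_lit 430) (nat_lit 7598) (.f (nat_lit 464) (nat_lit 432) (nat_lit 6575) (.f (nat_lit 465) (nat_lit 466) (nat_lit 1486) (.f (nat_lit 497) (nat_lit 498) (nat_lit 462) (.f (nat_lit 496) (nat_lit 461) (nat_lit 461) (.d (nat_lit 433) (nat_lit 401) (nat_lit 5520) (nat_lit 434) (nat_lit 2478)))))))))) (.a (.f (nat_lit 560) (nat_lit 431) (nat_lit 4527) (.d (nat_lit 592) (nat_lit 559) (nat_lit 4559) (nat_lit 624) (nat_lit 7663))) (.f (nat_lit 431) (nat_lit 560) (nat_lit 4527) (.f (nat_lit 399) (nat_lit 496) (nat_lit 4495) (.d (nat_lit 398) (nat_lit 366) (nat_lit 7534) (nat_lit 430) (nat_lit 7566)))))))) (.a (.p (nat_lit 496) (.a (.f (nat_lit 493) (nat_lit 492) (nat_lit 492) (.f (nat_lit 525) (nat_lit 524) (nat_lit 1516) (.f (nat_lit 497) (nat_lit 526) (nat_lit 1517) (.d (nat_lit 461) (nat_lit 460) (nat_lit 3532) (nat_lit 462) (nat_lit 3533))))) (.a (.p (nat_lit 497) (.a (.d (nat_lit 526) (nat_lit 498) (nat_lit 1518) (nat_lit 525) (nat_lit 1517)) (.f (nat_lit 465) (nat_lit 466) (nat_lit 2510) (.f (nat_lit 560) (nat_lit 592) (nat_lit 6608) (.d (nat_lit 433) (nat_lit 401) (nat_lit 5520) (nat_lit 464) (nat_lit 6576)))))) (.a (.f (nat_lit 493) (nat_lit 492) (nat_lit 492) (.f (nat_lit 465) (nat_lit 464) (nat_lit 2509) (.f (nat_lit 497) (nat_lit 466) (nat_lit 2510) (.d (nat_lit 461) (nat_lit 460) (nat_lit 3532) (nat_lit 462) (nat_lit 3533))))) (.p (nat_lit 526) (.a (.f (nat_lit 493) (nat_lit 492) (nat_lit 492) (.f (nat_lit 525) (nat_lit 524) (nat_lit 2540) (.f (nat_lit 461) (nat_lit 460) (nat_lit 3532) (.d (nat_lit 429) (nat_lit 397) (nat_lit 4493) (nat_lit 558) (nat_lit 4525))))) (.a (.f (nat_lit 525) (nat_lit 524) (nat_lit 2540) (.f (nat_lit 557) (nat_lit 556) (nat_lit 1548) (.f (nat_lit 462) (nat_lit 430) (nat_lit 5549) (.d (nat_lit 589) (nat_lit 558) (nat_lit 5581) (nat_lit 621) (nat_lit 6637))))) (.a (.f (nat_lit 493) (nat_lit 492) (nat_lit 492) (.f (nat_lit 461) (nat_lit 460) (nat_lit 3532) (.f (nat_lit 558) (nat_lit 590) (nat_lit 7629) (.d (nat_lit 429) (nat_lit 397) (nat_lit 4493) (nat_lit 462) (nat_lit 7597))))) (.f (nat_lit 493) (nat_lit 492) (nat_lit 492) (.f (nat_lit 525) (nat_lit 524) (nat_lit 2540) (.f (nat_lit 557) (nat_lit 556) (nat_lit 1548) (.d (nat_lit 462) (nat_lit 430) (nat_lit 5549) (nat_lit 589) (nat_lit 6605))))))))))))) (.a s133158 (.a (.p (nat_lit 463) (.a (.f (nat_lit 431) (nat_lit 560) (nat_lit 4527) (.d (nat_lit 399) (nat_lit 496) (nat_lit 4495) (nat_lit 526) (nat_lit 5518))) (.a (.p (nat_lit 496) (.a (.f (nat_lit 431) (nat_lit 399) (nat_lit 4495) (.f (nat_lit 526) (nat_lit 558) (nat_lit 5550) (.d (nat_lit 497) (nat_lit 498) (nat_lit 1518) (nat_lit 525) (nat_lit 2541)))) (.f (nat_lit 493) (nat_lit 492) (nat_lit 492) (.f (nat_lit 464) (nat_lit 465) (nat_lit 2509) (.d (nat_lit 559) (nat_lit 432) (nat_lit 5551) (nat_lit 591) (nat_lit 6607)))))) (.a (.p (nat_lit 559) (.a (.f (nat_lit 560) (nat_lit 592) (nat_lit 4559) (.f (nat_lit 464) (nat_lit 432) (nat_lit 6575) (.f (nat_lit 591) (nat_lit 496) (nat_lit 5583) (.d (nat_lit 590) (nat_lit 558) (nat_lit 5582) (nat_lit 622) (nat_lit 5614))))) (.a (.f (nat_lit 464) (nat_lit 432) (nat_lit 6575) (.f (nat_lit 591) (nat_lit 496) (nat_lit 6607) (.d (nat_lit 590) (nat_lit 558) (nat_lit 5582) (nat_lit 622) (nat_lit 5614)))) (.a (.f (nat_lit 590) (nat_lit 558) (nat_lit 5582) (.f (nat_lit 591) (nat_lit 622) (nat_lit 5614) (.f (nat_lit 624) (nat_lit 592) (nat_lit 4591) (.d (nat_lit 623) (nat_lit 526) (nat_lit 7662) (nat_lit 656) (nat_lit 4623))))) (.a (.f (nat_lit 464) (nat_lit 432) (nat_lit 6575) (.f (nat_lit 591) (nat_lit 496) (nat_lit 6607) (.f (nat_lit 623) (nat_lit 526) (nat_lit 7662) (.d (nat_lit 622) (nat_lit 590) (nat_lit 5614) (nat_lit 654) (nat_lit 5646))))) (.a (.f (nat_lit 493) (nat_lit 492) (nat_lit 492) (.f (nat_lit 558) (nat_lit 590) (nat_lit 5582) (.f (nat_lit 560) (nat_lit 592) (nat_lit 4559) (.f (nat_lit 557) (nat_lit 556) (nat_lit 2572) (.f (nat_lit 525) (nat_lit 524) (nat_lit 3596) (.f (nat_lit 589) (nat_lit 588) (nat_lit 1580) (.f (nat_lit 526) (nat_lit 621) (nat_lit 6637) (.f (nat_lit 496) (nat_lit 497) (nat_lit 1517) (.d (nat_lit 464) (nat_lit 432) (nat_lit 6575) (nat_lit 465) (nat_lit 2509)))))))))) (.f (nat_lit 560) (nat_lit 592) (nat_lit 4559) (.f (nat_lit 464) (nat_lit 432) (nat_lit 6575) (.f (nat_lit 496) (nat_lit 591) (nat_lit 5583) (.d (nat_lit 465) (nat_lit 433) (nat_lit 6576) (nat_lit 466) (nat_lit 1486))))))))))) (.a (.f (nat_lit 431) (nat_lit 560) (nat_lit 4527) (.d (nat_lit 526) (nat_lit 399) (nat_lit 5518) (nat_lit 558) (nat_lit 5550))) (.f (nat_lit 431) (nat_lit 560) (nat_lit 4527) (.f (nat_lit 399) (nat_lit 496) (nat_lit 4495) (.d (nat_lit 398) (nat_lit 366) (nat_lit 7534) (nat_lit 430) (nat_lit 7566))))))))) (.a (.p (nat_lit 463) (.a (.f (nat_lit 431) (nat_lit 560) (nat_lit 4527) (.d (nat_lit 399) (nat_lit 496) (nat_lit 4495) (nat_lit 526) (nat_lit 5518))) (.a (.p (nat_lit 559) (.a (.d (nat_lit 462) (nat_lit 430) (nat_lit 7598) (nat_lit 591) (nat_lit 7630)) (.a (.f (nat_lit 558) (nat_lit 590) (nat_lit 5582) (.f (nat_lit 526) (nat_lit 431) (nat_lit 5550) (.f (nat_lit 591) (nat_lit 623) (nat_lit 7662) (.d (nat_lit 464) (nat_lit 432) (nat_lit 6575) (nat_lit 496) (nat_lit 6607))))) (.f (nat_lit 462) (nat_lit 430) (nat_lit 7598) (.f (nat_lit 558) (nat_lit 590) (nat_lit 5582) (.f (nat_lit 526) (nat_lit 431) (nat_lit 5550) (.d (nat_lit 557) (nat_lit 556) (nat_lit 2572) (nat_lit 589) (nat_lit 5581)))))))) (.a (.p (nat_lit 559) (.a (.d (nat_lit 462) (nat_lit 430) (nat_lit 7598) (nat_lit 591) (nat_lit 7630)) (.a (.f (nat_lit 560) (nat_lit 592) (nat_lit 4559) (.f (nat_lit 464) (nat_lit 432) (nat_lit 6575) (.f (nat_lit 591) (nat_lit 496) (nat_lit 5583) (.d (nat_lit 590) (nat_lit 558) (nat_lit 5582) (nat_lit 622) (nat_lit 5614))))) (.f (nat_lit 462) (nat_lit 430) (nat_lit 7598) (.f (nat_lit 493) (nat_lit 492) (nat_lit 492) (.f (nat_lit 558) (nat_lit 590) (nat_lit 5582) (.f (nat_lit 557) (nat_lit 556) (nat_lit 2572) (.d (nat_lit 589) (nat_lit 525) (nat_lit 6605) (nat_lit 526) (nat_lit 5581))))))))) (.a (.f (nat_lit 431) (nat_lit 560) (nat_lit 4527) (.d (nat_lit 526) (nat_lit 399) (nat_lit 5518) (nat_lit 558) (nat_lit 5550))) (.f (nat_lit 431) (nat_lit 560) (nat_lit 4527) (.f (nat_lit 399) (nat_lit 496) (nat_lit 4495) (.d (nat_lit 398) (nat_lit 366) (nat_lit 7534) (nat_lit 430) (nat_lit 7566))))))))) (.p (nat_lit 463) (.a (.f (nat_lit 431) (nat_lit 560) (nat_lit 4527) (.d (nat_lit 399) (nat_lit 496) (nat_lit 4495) (nat_lit 526) (nat_lit 5518))) (.a (.p (nat_lit 559) (.a (.d (nat_lit 462) (nat_lit 430) (nat_lit 7598) (nat_lit 591) (nat_lit 7630)) (.a (.f (nat_lit 590) (nat_lit 558) (nat_lit 5582) (.f (nat_lit 591) (nat_lit 622) (nat_lit 5614) (.f (nat_lit 624) (nat_lit 592) (nat_lit 4591) (.d (nat_lit 623) (nat_lit 526) (nat_lit 7662) (nat_lit 656) (nat_lit 4623))))) (.f (nat_lit 462) (nat_lit 430) (nat_lit 7598) (.f (nat_lit 558) (nat_lit 590) (nat_lit 5582) (.f (nat_lit 526) (nat_lit 431) (nat_lit 5550) (.d (nat_lit 557) (nat_lit 556) (nat_lit 2572) (nat_lit 589) (nat_lit 5581)))))))) (.a (.p (nat_lit 559) (.a (.d (nat_lit 462) (nat_lit 430) (nat_lit 7598) (nat_lit 591) (nat_lit 7630)) (.a (.f (nat_lit 590) (nat_lit 558) (nat_lit 5582) (.f (nat_lit 591) (nat_lit 622) (nat_lit 5614) (.f (nat_lit 624) (nat_lit 592) (nat_lit 4591) (.d (nat_lit 623) (nat_lit 526) (nat_lit 7662) (nat_lit 656) (nat_lit 4623))))) (.f (nat_lit 462) (nat_lit 430) (nat_lit 7598) (.f (nat_lit 493) (nat_lit 492) (nat_lit 492) (.f (nat_lit 558) (nat_lit 590) (nat_lit 5582) (.f (nat_lit 557) (nat_lit 556) (nat_lit 2572) (.d (nat_lit 589) (nat_lit 525) (nat_lit 6605) (nat_lit 526) (nat_lit 5581))))))))) (.f (nat_lit 431) (nat_lit 560) (nat_lit 4527) (.f (nat_lit 399) (nat_lit 496) (nat_lit 4495) (.d (nat_lit 398) (nat_lit 366) (nat_lit 7534) (nat_lit 430) (nat_lit 7566)))))))))))))))))) (.a (.p (nat_lit 527) (.a s133152 (.a (.f (nat_lit 529) (nat_lit 530) (nat_lit 3566) (.d (nat_lit 493) (nat_lit 492) (nat_lit 492) (nat_lit 526) (nat_lit 3565))) (.a s133206 (.p (nat_lit 559) (.a (.f (nat_lit 591) (nat_lit 462) (nat_lit 7630) (.f (nat_lit 592) (nat_lit 624) (nat_lit 4591) (.f (nat_lit 463) (nat_lit 560) (nat_lit 4559) (.d (nat_lit 590) (nat_lit 558) (nat_lit 5582) (nat_lit 622) (nat_lit 5614))))) (.a (.f (nat_lit 591) (nat_lit 462) (nat_lit 7630) (.f (nat_lit 624) (nat_lit 592) (nat_lit 4591) (.f (nat_lit 623) (nat_lit 656) (nat_lit 4623) (.d (nat_lit 622) (nat_lit 590) (nat_lit 5614) (nat_lit 654) (nat_lit 5646))))) (.a (.p (nat_lit 463) (.a (.f (nat_lit 558) (nat_lit 590) (nat_lit 5582) (.f (nat_lit 529) (nat_lit 530) (nat_lit 3566) (.d (nat_lit 560) (nat_lit 557) (nat_lit 2573) (nat_lit 592) (nat_lit 4559)))) (.f (nat_lit 462) (nat_lit 430) (nat_lit 7598) (.f (nat_lit 493) (nat_lit 492) (nat_lit 492) (.d (nat_lit 464) (nat_lit 432) (nat_lit 6575) (nat_lit 465) (nat_lit 1485)))))) (.a (.p (nat_lit 558) (.a (.f (nat_lit 529) (nat_lit 530) (nat_lit 3566) (.d (nat_lit 557) (nat_lit 556) (nat_lit 2572) (nat_lit 560) (nat_lit 2573))) (.a (.f (nat_lit 463) (nat_lit 590) (nat_lit 5582) (.d (nat_lit 560) (nat_lit 431) (nat_lit 4527) (nat_lit 592) (nat_lit 4559))) (.f (nat_lit 590) (nat_lit 463) (nat_lit 5582) (.d (nat_lit 622) (nat_lit 591) (nat_lit 5614) (nat_lit 654) (nat_lit 6670)))))) (.f (nat_lit 462) (nat_lit 591) (nat_lit 7630) (.d (nat_lit 430) (nat_lit 398) (nat_lit 4494) (nat_lit 463) (nat_lit 7598)))))))))))) (.p (nat_lit 493) (.a (.f (nat_lit 496) (nat_lit 529) (nat_lit 493) (.f (nat_lit 464) (nat_lit 465) (nat_lit 2509) (.d (nat_lit 492) (nat_lit 463) (nat_lit 2508) (nat_lit 527) (nat_lit 492)))) (.a (.f (nat_lit 496) (nat_lit 529) (nat_lit 493) (.f (nat_lit 492) (nat_lit 527) (nat_lit 492) (.d (nat_lit 524) (nat_lit 523) (nat_lit 1515) (nat_lit 525) (nat_lit 1516)))) (.a (.f (nat_lit 496) (nat_lit 529) (nat_lit 493) (.f (nat_lit 464) (nat_lit 465) (nat_lit 2509) (.f (nat_lit 463) (nat_lit 492) (nat_lit 2508) (.d (nat_lit 431) (nat_lit 399) (nat_lit 4495) (nat_lit 560) (nat_lit 7599))))) (.a (.f (nat_lit 492) (nat_lit 527) (nat_lit 492) (.f (nat_lit 463) (nat_lit 464) (nat_lit 2508) (.f (nat_lit 491) (nat_lit 462) (nat_lit 2507) (.d (nat_lit 523) (nat_lit 522) (nat_lit 1514) (nat_lit 524) (nat_lit 1515))))) (.f (nat_lit 496) (nat_lit 529) (nat_lit 493) (.f (nat_lit 461) (nat_lit 460) (nat_lit 3532) (.f (nat_lit 462) (nat_lit 497) (nat_lit 3533) (.f (nat_lit 525) (nat_lit 524) (nat_lit 1516) (.d (nat_lit 430) (nat_lit 398) (nat_lit 5517) (nat_lit 557) (nat_lit 6573))))))))))))))))) (.a (.p (nat_lit 463) (.a (.p (nat_lit 560) (.a (.f (nat_lit 496) (nat_lit 592) (nat_lit 7631) (.d (nat_lit 431) (nat_lit 464) (nat_lit 7599) (nat_lit 527) (nat_lit 4527))) (.a (.f (nat_lit 527) (nat_lit 431) (nat_lit 4527) (.d (nat_lit 592) (nat_lit 559) (nat_lit 4559) (nat_lit 624) (nat_lit 7663))) (.a (.f (nat_lit 592) (nat_lit 496) (nat_lit 7631) (.d (nat_lit 527) (nat_lit 559) (nat_lit 4559) (nat_lit 624) (nat_lit 7663))) (.a (.f (nat_lit 496) (nat_lit 592) (nat_lit 7631) (.d (nat_lit 431) (nat_lit 399) (nat_lit 4495) (nat_lit 464) (nat_lit 7599))) (.f (nat_lit 431) (nat_lit 527) (nat_lit 4527) (.d (nat_lit 496) (nat_lit 399) (nat_lit 4495) (nat_lit 464) (nat_lit 7599)))))))) (.a (.p (nat_lit 527) (.a (.f (nat_lit 431) (nat_lit 560) (nat_lit 4527) (.f (nat_lit 526) (nat_lit 558) (nat_lit 5550) (.f (nat_lit 494) (nat_lit 399) (nat_lit 5518) (.d (nat_lit 493) (nat_lit 492) (nat_lit 492) (nat_lit 529) (nat_lit 3565))))) (.a (.f (nat_lit 431) (nat_lit 560) (nat_lit 4527) (.f (nat_lit 432) (nat_lit 400) (nat_lit 6543) (.f (nat_lit 430) (nat_lit 398) (nat_lit 7566) (.d (nat_lit 559) (nat_lit 462) (nat_lit 7598) (nat_lit 464) (nat_lit 6575))))) (.a (.p (nat_lit 559) (.a (.f (nat_lit 558) (nat_lit 590) (nat_lit 5582) (.f (nat_lit 529) (nat_lit 530) (nat_lit 1550) (.d (nat_lit 557) (nat_lit 526) (nat_lit 1549) (nat_lit 556) (nat_lit 2572)))) (.a (.f (nat_lit 592) (nat_lit 560) (nat_lit 4559) (.f (nat_lit 591) (nat_lit 624) (nat_lit 4591) (.d (nat_lit 590) (nat_lit 558) (nat_lit 5582) (nat_lit 622) (nat_lit 5614)))) (.f (nat_lit 592) (nat_lit 560) (nat_lit 4559) (.f (nat_lit 591) (nat_lit 624) (nat_lit 4591) (.d (nat_lit 462) (nat_lit 430) (nat_lit 7598) (nat_lit 494) (nat_lit 7630))))))) (.p (nat_lit 559) (.a (.f (nat_lit 558) (nat_lit 590) (nat_lit 5582) (.f (nat_lit 529) (nat_lit 530) (nat_lit 1550) (.d (nat_lit 557) (nat_lit 526) (nat_lit 1549) (nat_lit 556) (nat_lit 2572)))) (.a (.f (nat_lit 558) (nat_lit 590) (nat_lit 5582) (.f (nat_lit 431) (nat_lit 526) (nat_lit 5550) (.d (nat_lit 432) (nat_lit 400) (nat_lit 6543) (nat_lit 464) (nat_lit 6575)))) (.a (.f (nat_lit 462) (nat_lit 430) (nat_lit 7598) (.f (nat_lit 494) (nat_lit 591) (nat_lit 7630) (.f (nat_lit 493) (nat_lit 492) (nat_lit 492) (.d (nat_lit 529) (nat_lit 526) (nat_lit 3565) (nat_lit 530) (nat_lit 3566))))) (.f (nat_lit 462) (nat_lit 430) (nat_lit 7598) (.f (nat_lit 494) (nat_lit 591) (nat_lit 7630) (.f (nat_lit 464) (nat_lit 432) (nat_lit 6575) (.d (nat_lit 493) (nat_lit 465) (nat_lit 1485) (nat_lit 492) (nat_lit 492))))))))))))) (.a (.p (nat_lit 496) (.a (.p (nat_lit 494) (.a (.f (nat_lit 493) (nat_lit 529) (nat_lit 493) (.d (nat_lit 492) (nat_lit 464) (nat_lit 2508) (nat_lit 527) (nat_lit 492))) (.a (.p (nat_lit 497) (.a (.d (nat_lit 462) (nat_lit 461) (nat_lit 3533) (nat_lit 498) (nat_lit 3534)) (.f (nat_lit 465) (nat_lit 466) (nat_lit 2510) (.f (nat_lit 464) (nat_lit 493) (nat_lit 2509) (.d (nat_lit 560) (nat_lit 433) (nat_lit 6576) (nat_lit 592) (nat_lit 7631)))))) (.p (nat_lit 497) (.a (.d (nat_lit 462) (nat_lit 461) (nat_lit 3533) (nat_lit 498) (nat_lit 3534)) (.f (nat_lit 465) (nat_lit 466) (nat_lit 2510) (.f (nat_lit 560) (nat_lit 592) (nat_lit 7631) (.d (nat_lit 529) (nat_lit 433) (nat_lit 5552) (nat_lit 530) (nat_lit 494))))))))) (.a (.f (nat_lit 560) (nat_lit 592) (nat_lit 7631) (.p (nat_lit 464) (.a (.f (nat_lit 559) (nat_lit 591) (nat_lit 5583) (.f (nat_lit 432) (nat_lit 527) (nat_lit 5551) (.d (nat_lit 433) (nat_lit 401) (nat_lit 6544) (nat_lit 465) (nat_lit 6576)))) (.a (.f (nat_lit 465) (nat_lit 433) (nat_lit 6576) (.f (nat_lit 466) (nat_lit 467) (nat_lit 1487) (.f (nat_lit 498) (nat_lit 499) (nat_lit 463) (.f (nat_lit 462) (nat_lit 497) (nat_lit 462) (.f (nat_lit 461) (nat_lit 460) (nat_lit 460) (.d (nat_lit 429) (nat_lit 428) (nat_lit 3500) (nat_lit 430) (nat_lit 3501))))))) (.a (.f (nat_lit 559) (nat_lit 591) (nat_lit 5583) (.f (nat_lit 432) (nat_lit 527) (nat_lit 5551) (.f (nat_lit 400) (nat_lit 368) (nat_lit 5487) (.d (nat_lit 401) (nat_lit 369) (nat_lit 6512) (nat_lit 433) (nat_lit 6544))))) (.f (nat_lit 559) (nat_lit 591) (nat_lit 5583) (.f (nat_lit 527) (nat_lit 432) (nat_lit 5551) (.f (nat_lit 462) (nat_lit 430) (nat_lit 7598) (.d (nat_lit 461) (nat_lit 460) (nat_lit 460) (nat_lit 497) (nat_lit 461)))))))))) (.a s133290 (.a s133295 (.a (.p (nat_lit 494) (.a (.p (nat_lit 497) (.a (.d (nat_lit 462) (nat_lit 461) (nat_lit 3533) (nat_lit 498) (nat_lit 3534)) (.f (nat_lit 465) (nat_lit 466) (nat_lit 2510) (.f (nat_lit 560) (nat_lit 592) (nat_lit 7631) (.d (nat_lit 529) (nat_lit 433) (nat_lit 5552) (nat_lit 530) (nat_lit 494)))))) (.a (.p (nat_lit 497) (.a (.d (nat_lit 462) (nat_lit 461) (nat_lit 3533) (nat_lit 498) (nat_lit 3534)) (.a (.f (nat_lit 526) (nat_lit 525) (nat_lit 1517) (.f (nat_lit 498) (nat_lit 527) (nat_lit 1518) (.d (nat_lit 466) (nat_lit 465) (nat_lit 2510) (nat_lit 467) (nat_lit 2511)))) (.f (nat_lit 462) (nat_lit 461) (nat_lit 3533) (.f (nat_lit 526) (nat_lit 525) (nat_lit 1517) (.f (nat_lit 558) (nat_lit 590) (nat_lit 6606) (.f (nat_lit 559) (nat_lit 591) (nat_lit 4558) (.f (nat_lit 527) (nat_lit 430) (nat_lit 4526) (.d (nat_lit 557) (nat_lit 556) (nat_lit 2572) (nat_lit 589) (nat_lit 5581)))))))))) (.a (.f (nat_lit 493) (nat_lit 529) (nat_lit 493) (.f (nat_lit 492) (nat_lit 527) (nat_lit 492) (.d (nat_lit 460) (nat_lit 459) (nat_lit 3531) (nat_lit 461) (nat_lit 3532)))) (.f (nat_lit 529) (nat_lit 493) (nat_lit 493) (.d (nat_lit 530) (nat_lit 497) (nat_lit 494) (nat_lit 527) (nat_lit 3566))))))) (.a (.f (nat_lit 560) (nat_lit 592) (nat_lit 7631) (.p (nat_lit 464) (.a (.f (nat_lit 559) (nat_lit 591) (nat_lit 5583) (.f (nat_lit 432) (nat_lit 527) (nat_lit 5551) (.d (nat_lit 433) (nat_lit 401) (nat_lit 6544) (nat_lit 465) (nat_lit 6576)))) (.a (.f (nat_lit 465) (nat_lit 433) (nat_lit 6576) (.d (nat_lit 494) (nat_lit 466) (nat_lit 1486) (nat_lit 493) (nat_lit 2509))) (.a (.f (nat_lit 559) (nat_lit 591) (nat_lit 5583) (.f (nat_lit 432) (nat_lit 527) (nat_lit 5551) (.f (nat_lit 400) (nat_lit 368) (nat_lit 5487) (.d (nat_lit 401) (nat_lit 369) (nat_lit 6512) (nat_lit 433) (nat_lit 6544))))) (.f (nat_lit 559) (nat_lit 591) (nat_lit 5583) (.f (nat_lit 527) (nat_lit 432) (nat_lit 5551) (.f (nat_lit 558) (nat_lit 590) (nat_lit 5582) (.d (nat_lit 557) (nat_lit 529) (nat_lit 2573) (nat_lit 556) (nat_lit 2572)))))))))) (.a s133301 (.p (nat_lit 494) (.a (.f (nat_lit 493) (nat_lit 529) (nat_lit 493) (.d (nat_lit 492) (nat_lit 464) (nat_lit 2508) (nat_lit 527) (nat_lit 492))) (.a (.p (nat_lit 497) (.a (.d (nat_lit 462) (nat_lit 461) (nat_lit 3533) (nat_lit 498) (nat_lit 3534)) (.a (.f (nat_lit 560) (nat_lit 592) (nat_lit 7631) (.f (nat_lit 526) (nat_lit 525) (nat_lit 1517) (.f (nat_lit 527) (nat_lit 498) (nat_lit 1518) (.f (nat_lit 493) (nat_lit 492) (nat_lit 492) (.f (nat_lit 464) (nat_lit 465) (nat_lit 2509) (.d (nat_lit 559) (nat_lit 432) (nat_lit 6575) (nat_lit 591) (nat_lit 5583))))))) (.f (nat_lit 462) (nat_lit 461) (nat_lit 3533) (.f (nat_lit 526) (nat_lit 525) (nat_lit 1517) (.f (nat_lit 558) (nat_lit 590) (nat_lit 6606) (.f (nat_lit 559) (nat_lit 591) (nat_lit 4558) (.f (nat_lit 527) (nat_lit 430) (nat_lit 4526) (.d (nat_lit 557) (nat_lit 556) (nat_lit 2572) (nat_lit 589) (nat_lit 5581)))))))))) (.a (.p (nat_lit 497) (.a (.d (nat_lit 462) (nat_lit 461) (nat_lit 3533) (nat_lit 498) (nat_lit 3534)) (.a (.f (nat_lit 529) (nat_lit 530) (nat_lit 494) (.f (nat_lit 526) (nat_lit 525) (nat_lit 1517) (.f (nat_lit 527) (nat_lit 498) (nat_lit 2542) (.d (nat_lit 558) (nat_lit 557) (nat_lit 1549) (nat_lit 590) (nat_lit 6606))))) (.f (nat_lit 462) (nat_lit 461) (nat_lit 3533) (.f (nat_lit 526) (nat_lit 525) (nat_lit 1517) (.f (nat_lit 558) (nat_lit 590) (nat_lit 6606) (.f (nat_lit 559) (nat_lit 591) (nat_lit 4558) (.f (nat_lit 527) (nat_lit 430) (nat_lit 4526) (.d (nat_lit 557) (nat_lit 556) (nat_lit 2572) (nat_lit 589) (nat_lit 5581)))))))))) (.f (nat_lit 493) (nat_lit 529) (nat_lit 493) (.d (nat_lit 464) (nat_lit 465) (nat_lit 2509) (nat_lit 492) (nat_lit 2508))))))))))))))) (.a (.p (nat_lit 496) (.a s133290 (.a (.p (nat_lit 527) (.a (.f (nat_lit 431) (nat_lit 399) (nat_lit 4495) (.f (nat_lit 432) (nat_lit 400) (nat_lit 6543) (.f (nat_lit 559) (nat_lit 464) (nat_lit 6575) (.d (nat_lit 430) (nat_lit 398) (nat_lit 7566) (nat_lit 462) (nat_lit 7598))))) (.a (.p (nat_lit 559) (.a (.d (nat_lit 464) (nat_lit 432) (nat_lit 6575) (nat_lit 591) (nat_lit 6607)) (.f (nat_lit 558) (nat_lit 590) (nat_lit 5582) (.f (nat_lit 529) (nat_lit 530) (nat_lit 1550) (.d (nat_lit 557) (nat_lit 526) (nat_lit 1549) (nat_lit 556) (nat_lit 2572)))))) (.f (nat_lit 431) (nat_lit 399) (nat_lit 4495) (.f (nat_lit 526) (nat_lit 558) (nat_lit 5550) (.d (nat_lit 497) (nat_lit 498) (nat_lit 1518) (nat_lit 525) (nat_lit 2541))))))) (.a (.p (nat_lit 494) (.a (.p (nat_lit 497) (.a (.d (nat_lit 462) (nat_lit 461) (nat_lit 3533) (nat_lit 498) (nat_lit 3534)) (.a (.f (nat_lit 465) (nat_lit 466) (nat_lit 2510) (.f (nat_lit 464) (nat_lit 493) (nat_lit 2509) (.f (nat_lit 498) (nat_lit 499) (nat_lit 3535) (.d (nat_lit 526) (nat_lit 525) (nat_lit 1517) (nat_lit 527) (nat_lit 1518))))) (.f (nat_lit 462) (nat_lit 461) (nat_lit 3533) (.f (nat_lit 465) (nat_lit 466) (nat_lit 2510) (.f (nat_lit 464) (nat_lit 493) (nat_lit 2509) (.d (nat_lit 433) (nat_lit 401) (nat_lit 5520) (nat_lit 434) (nat_lit 2478)))))))) (.a (.p (nat_lit 497) (.a (.d (nat_lit 462) (nat_lit 461) (nat_lit 3533) (nat_lit 498) (nat_lit 3534)) (.a (.f (nat_lit 466) (nat_lit 465) (nat_lit 2510) (.f (nat_lit 498) (nat_lit 467) (nat_lit 2511) (.f (nat_lit 531) (nat_lit 530) (nat_lit 495) (.d (nat_lit 499) (nat_lit 464) (nat_lit 3535) (nat_lit 532) (nat_lit 496))))) (.f (nat_lit 462) (nat_lit 461) (nat_lit 3533) (.f (nat_lit 465) (nat_lit 466) (nat_lit 2510) (.f (nat_lit 464) (nat_lit 493) (nat_lit 2509) (.d (nat_lit 433) (nat_lit 401) (nat_lit 5520) (nat_lit 434) (nat_lit 2478)))))))) (.a (.p (nat_lit 497) (.a (.d (nat_lit 462) (nat_lit 461) (nat_lit 3533) (nat_lit 498) (nat_lit 3534)) (.a (.f (nat_lit 526) (nat_lit 525) (nat_lit 1517) (.f (nat_lit 498) (nat_lit 527) (nat_lit 1518) (.d (nat_lit 466) (nat_lit 465) (nat_lit 2510) (nat_lit 467) (nat_lit 2511)))) (.f (nat_lit 462) (nat_lit 461) (nat_lit 3533) (.f (nat_lit 526) (nat_lit 525) (nat_lit 1517) (.f (nat_lit 558) (nat_lit 590) (nat_lit 6606) (.f (nat_lit 559) (nat_lit 591) (nat_lit 4558) (.f (nat_lit 527) (nat_lit 430) (nat_lit 4526) (.d (nat_lit 557) (nat_lit 556) (nat_lit 2572) (nat_lit 589) (nat_lit 5581)))))))))) (.a (.p (nat_lit 527) (.a (.f (nat_lit 493) (nat_lit 492) (nat_lit 492) (.f (nat_lit 464) (nat_lit 465) (nat_lit 2509) (.d (nat_lit 559) (nat_lit 432) (nat_lit 5551) (nat_lit 591) (nat_lit 6607)))) (.a (.f (nat_lit 431) (nat_lit 399) (nat_lit 4495) (.f (nat_lit 432) (nat_lit 400) (nat_lit 6543) (.f (nat_lit 559) (nat_lit 464) (nat_lit 6575) (.d (nat_lit 591) (nat_lit 462) (nat_lit 7630) (nat_lit 623) (nat_lit 6639))))) (.a (.f (nat_lit 431) (nat_lit 399) (nat_lit 4495) (.f (nat_lit 526) (nat_lit 558) (nat_lit 5550) (.f (nat_lit 430) (nat_lit 398) (nat_lit 7566) (.f (nat_lit 462) (nat_lit 559) (nat_lit 4526) (.f (nat_lit 461) (nat_lit 460) (nat_lit 460) (.d (nat_lit 432) (nat_lit 400) (nat_lit 6543) (nat_lit 433) (nat_lit 1453))))))) (.a (.f (nat_lit 431) (nat_lit 399) (nat_lit 4495) (.f (nat_lit 493) (nat_lit 492) (nat_lit 492) (.f (nat_lit 464) (nat_lit 465) (nat_lit 2509) (.f (nat_lit 432) (nat_lit 400) (nat_lit 6543) (.f (nat_lit 461) (nat_lit 460) (nat_lit 3532) (.d (nat_lit 433) (nat_lit 401) (nat_lit 6544) (nat_lit 462) (nat_lit 2477))))))) (.f (nat_lit 493) (nat_lit 492) (nat_lit 492) (.f (nat_lit 431) (nat_lit 399) (nat_lit 4495) (.f (nat_lit 464) (nat_lit 465) (nat_lit 2509) (.f (nat_lit 559) (nat_lit 591) (nat_lit 6607) (.d (nat_lit 430) (nat_lit 398) (nat_lit 7566) (nat_lit 462) (nat_lit 7598))))))))))) (.a (.p (nat_lit 527) (.a (.f (nat_lit 493) (nat_lit 492) (nat_lit 492) (.f (nat_lit 464) (nat_lit 465) (nat_lit 2509) (.d (nat_lit 559) (nat_lit 432) (nat_lit 5551) (nat_lit 591) (nat_lit 6607)))) (.f (nat_lit 431) (nat_lit 399) (nat_lit 4495) (.f (nat_lit 526) (nat_lit 558) (nat_lit 5550) (.d (nat_lit 497) (nat_lit 498) (nat_lit 1518) (nat_lit 525) (nat_lit 2541)))))) s126232)))))) (.a s133343 (.a (.p (nat_lit 494) (.a s133289 (.a (.p (nat_lit 497) (.a (.d (nat_lit 462) (nat_lit 461) (nat_lit 3533) (nat_lit 498) (nat_lit 3534)) (.a (.f (nat_lit 526) (nat_lit 525) (nat_lit 1517) (.f (nat_lit 498) (nat_lit 527) (nat_lit 1518) (.d (nat_lit 466) (nat_lit 465) (nat_lit 2510) (nat_lit 467) (nat_lit 2511)))) (.f (nat_lit 462) (nat_lit 461) (nat_lit 3533) (.f (nat_lit 526) (nat_lit 525) (nat_lit 1517) (.f (nat_lit 558) (nat_lit 590) (nat_lit 6606) (.f (nat_lit 559) (nat_lit 591) (nat_lit 4558) (.f (nat_lit 527) (nat_lit 430) (nat_lit 4526) (.d (nat_lit 557) (nat_lit 556) (nat_lit 2572) (nat_lit 589) (nat_lit 5581)))))))))) (.a (.f (nat_lit 529) (nat_lit 493) (nat_lit 493) (.d (nat_lit 530) (nat_lit 497) (nat_lit 494) (nat_lit 531) (nat_lit 3567))) (.f (nat_lit 493) (nat_lit 529) (nat_lit 493) (.f (nat_lit 492) (nat_lit 527) (nat_lit 492) (.d (nat_lit 460) (nat_lit 459) (nat_lit 3531) (nat_lit 461) (nat_lit 3532)))))))) (.a (.p (nat_lit 527) (.a (.f (nat_lit 431) (nat_lit 399) (nat_lit 4495) (.f (nat_lit 432) (nat_lit 400) (nat_lit 6543) (.f (nat_lit 559) (nat_lit 464) (nat_lit 6575) (.d (nat_lit 430) (nat_lit 398) (nat_lit 7566) (nat_lit 462) (nat_lit 7598))))) (.a (.p (nat_lit 559) (.a (.d (nat_lit 464) (nat_lit 432) (nat_lit 6575) (nat_lit 591) (nat_lit 6607)) (.f (nat_lit 558) (nat_lit 590) (nat_lit 5582) (.f (nat_lit 529) (nat_lit 530) (nat_lit 1550) (.d (nat_lit 557) (nat_lit 526) (nat_lit 1549) (nat_lit 556) (nat_lit 2572)))))) (.a (.f (nat_lit 431) (nat_lit 399) (nat_lit 4495) (.f (nat_lit 558) (nat_lit 526) (nat_lit 5550) (.f (nat_lit 559) (nat_lit 590) (nat_lit 5582) (.d (nat_lit 430) (nat_lit 398) (nat_lit 7566) (nat_lit 462) (nat_lit 7598))))) (.p (nat_lit 464) (.a (.f (nat_lit 431) (nat_lit 399) (nat_lit 4495) (.f (nat_lit 432) (nat_lit 400) (nat_lit 5519) (.f (nat_lit 430) (nat_lit 398) (nat_lit 7566) (.d (nat_lit 429) (nat_lit 428) (nat_lit 428) (nat_lit 465) (nat_lit 429))))) (.a (.f (nat_lit 432) (nat_lit 400) (nat_lit 5519) (.f (nat_lit 433) (nat_lit 401) (nat_lit 6544) (.f (nat_lit 462) (nat_lit 461) (nat_lit 2477) (.d (nat_lit 434) (nat_lit 435) (nat_lit 1455) (nat_lit 465) (nat_lit 2478))))) (.a (.f (nat_lit 431) (nat_lit 399) (nat_lit 4495) (.f (nat_lit 430) (nat_lit 398) (nat_lit 7566) (.f (nat_lit 465) (nat_lit 466) (nat_lit 3502) (.d (nat_lit 429) (nat_lit 428) (nat_lit 428) (nat_lit 462) (nat_lit 3501))))) (.f (nat_lit 431) (nat_lit 399) (nat_lit 4495) (.f (nat_lit 432) (nat_lit 400) (nat_lit 5519) (.f (nat_lit 433) (nat_lit 401) (nat_lit 6544) (.d (nat_lit 462) (nat_lit 434) (nat_lit 1454) (nat_lit 461) (nat_lit 2477))))))))))))) (.a s133301 (.a (.p (nat_lit 494) (.a (.f (nat_lit 493) (nat_lit 529) (nat_lit 493) (.d (nat_lit 492) (nat_lit 464) (nat_lit 2508) (nat_lit 527) (nat_lit 492))) (.a (.p (nat_lit 527) (.a (.f (nat_lit 493) (nat_lit 492) (nat_lit 492) (.f (nat_lit 464) (nat_lit 465) (nat_lit 2509) (.d (nat_lit 559) (nat_lit 432) (nat_lit 5551) (nat_lit 591) (nat_lit 6607)))) (.f (nat_lit 431) (nat_lit 399) (nat_lit 4495) (.f (nat_lit 526) (nat_lit 558) (nat_lit 5550) (.d (nat_lit 497) (nat_lit 498) (nat_lit 1518) (nat_lit 525) (nat_lit 2541)))))) (.a (.p (nat_lit 497) (.a (.f (nat_lit 529) (nat_lit 530) (nat_lit 494) (.f (nat_lit 526) (nat_lit 525) (nat_lit 1517) (.f (nat_lit 498) (nat_lit 527) (nat_lit 2542) (.d (nat_lit 466) (nat_lit 465) (nat_lit 2510) (nat_lit 467) (nat_lit 2511))))) (.a (.f (nat_lit 526) (nat_lit 525) (nat_lit 1517) (.f (nat_lit 498) (nat_lit 527) (nat_lit 1518) (.d (nat_lit 466) (nat_lit 465) (nat_lit 2510) (nat_lit 467) (nat_lit 2511)))) (.a (.f (nat_lit 466) (nat_lit 465) (nat_lit 2510) (.f (nat_lit 498) (nat_lit 467) (nat_lit 2511) (.f (nat_lit 531) (nat_lit 530) (nat_lit 495) (.d (nat_lit 499) (nat_lit 464) (nat_lit 3535) (nat_lit 532) (nat_lit 496))))) (.a (.f (nat_lit 526) (nat_lit 525) (nat_lit 1517) (.f (nat_lit 498) (nat_lit 527) (nat_lit 1518) (.f (nat_lit 499) (nat_lit 464) (nat_lit 3535) (.d (nat_lit 467) (nat_lit 466) (nat_lit 2511) (nat_lit 468) (nat_lit 2512))))) (.a (.f (nat_lit 431) (nat_lit 399) (nat_lit 4495) (.f (nat_lit 465) (nat_lit 466) (nat_lit 2510) (.f (nat_lit 529) (nat_lit 530) (nat_lit 494) (.f (nat_lit 433) (nat_lit 401) (nat_lit 5520) (.f (nat_lit 432) (nat_lit 400) (nat_lit 7568) (.f (nat_lit 434) (nat_lit 402) (nat_lit 6545) (.f (nat_lit 464) (nat_lit 435) (nat_lit 1455) (.f (nat_lit 527) (nat_lit 559) (nat_lit 6575) (.d (nat_lit 526) (nat_lit 525) (nat_lit 1517) (nat_lit 558) (nat_lit 5550)))))))))) (.f (nat_lit 529) (nat_lit 530) (nat_lit 494) (.f (nat_lit 526) (nat_lit 525) (nat_lit 1517) (.f (nat_lit 527) (nat_lit 498) (nat_lit 2542) (.d (nat_lit 558) (nat_lit 557) (nat_lit 1549) (nat_lit 590) (nat_lit 6606))))))))))) (.a (.f (nat_lit 493) (nat_lit 529) (nat_lit 493) (.d (nat_lit 464) (nat_lit 465) (nat_lit 2509) (nat_lit 492) (nat_lit 2508))) (.f (nat_lit 493) (nat_lit 529) (nat_lit 493) (.f (nat_lit 492) (nat_lit 527) (nat_lit 492) (.d (nat_lit 460) (nat_lit 459) (nat_lit 3531) (nat_lit 461) (nat_lit 3532))))))))) (.a (.p (nat_lit 494) (.a (.f (nat_lit 493) (nat_lit 529) (nat_lit 493) (.d (nat_lit 492) (nat_lit 464) (nat_lit 2508) (nat_lit 527) (nat_lit 492))) (.a (.p (nat_lit 497) (.a (.d (nat_lit 462) (nat_lit 461) (nat_lit 3533) (nat_lit 498) (nat_lit 3534)) (.a (.f (nat_lit 465) (nat_lit 466) (nat_lit 2510) (.f (nat_lit 464) (nat_lit 493) (nat_lit 2509) (.f (nat_lit 498) (nat_lit 499) (nat_lit 3535) (.d (nat_lit 526) (nat_lit 525) (nat_lit 1517) (nat_lit 527) (nat_lit 1518))))) (.f (nat_lit 462) (nat_lit 461) (nat_lit 3533) (.f (nat_lit 465) (nat_lit 466) (nat_lit 2510) (.f (nat_lit 464) (nat_lit 493) (nat_lit 2509) (.d (nat_lit 433) (nat_lit 401) (nat_lit 5520) (nat_lit 434) (nat_lit 2478)))))))) (.a (.p (nat_lit 497) (.a (.d (nat_lit 462) (nat_lit 461) (nat_lit 3533) (nat_lit 498) (nat_lit 3534)) (.a (.f (nat_lit 529) (nat_lit 530) (nat_lit 494) (.f (nat_lit 526) (nat_lit 525) (nat_lit 1517) (.f (nat_lit 498) (nat_lit 527) (nat_lit 2542) (.d (nat_lit 466) (nat_lit 465) (nat_lit 2510) (nat_lit 467) (nat_lit 2511))))) (.f (nat_lit 462) (nat_lit 461) (nat_lit 3533) (.f (nat_lit 431) (nat_lit 399) (nat_lit 4495) (.f (nat_lit 465) (nat_lit 466) (nat_lit 2510) (.f (nat_lit 433) (nat_lit 401) (nat_lit 5520) (.d (nat_lit 434) (nat_lit 432) (nat_lit 1454) (nat_lit 464) (nat_lit 2478))))))))) (.a (.f (nat_lit 493) (nat_lit 529) (nat_lit 493) (.d (nat_lit 464) (nat_lit 465) (nat_lit 2509) (nat_lit 492) (nat_lit 2508))) (.f (nat_lit 493) (nat_lit 529) (nat_lit 493) (.f (nat_lit 492) (nat_lit 527) (nat_lit 492) (.d (nat_lit 460) (nat_lit 459) (nat_lit 3531) (nat_lit 461) (nat_lit 3532))))))))) (.p (nat_lit 494) (.a (.f (nat_lit 493) (nat_lit 529) (nat_lit 493) (.d (nat_lit 492) (nat_lit 464) (nat_lit 2508) (nat_lit 527) (nat_lit 492))) (.a (.p (nat_lit 497) (.a (.d (nat_lit 462) (nat_lit 461) (nat_lit 3533) (nat_lit 498) (nat_lit 3534)) (.a (.f (nat_lit 466) (nat_lit 465) (nat_lit 2510) (.f (nat_lit 498) (nat_lit 467) (nat_lit 2511) (.f (nat_lit 531) (nat_lit 530) (nat_lit 495) (.d (nat_lit 499) (nat_lit 464) (nat_lit 3535) (nat_lit 532) (nat_lit 496))))) (.f (nat_lit 462) (nat_lit 461) (nat_lit 3533) (.f (nat_lit 465) (nat_lit 466) (nat_lit 2510) (.f (nat_lit 464) (nat_lit 493) (nat_lit 2509) (.d (nat_lit 433) (nat_lit 401) (nat_lit 5520) (nat_lit 434) (nat_lit 2478)))))))) (.a (.p (nat_lit 497) (.a (.d (nat_lit 462) (nat_lit 461) (nat_lit 3533) (nat_lit 498) (nat_lit 3534)) (.a (.f (nat_lit 466) (nat_lit 465) (nat_lit 2510) (.f (nat_lit 498) (nat_lit 467) (nat_lit 2511) (.f (nat_lit 531) (nat_lit 530) (nat_lit 495) (.d (nat_lit 499) (nat_lit 464) (nat_lit 3535) (nat_lit 532) (nat_lit 496))))) (.f (nat_lit 462) (nat_lit 461) (nat_lit 3533) (.f (nat_lit 431) (nat_lit 399) (nat_lit 4495) (.f (nat_lit 465) (nat_lit 466) (nat_lit 2510) (.f (nat_lit 433) (nat_lit 401) (nat_lit 5520) (.d (nat_lit 434) (nat_lit 432) (nat_lit 1454) (nat_lit 464) (nat_lit 2478))))))))) (.f (nat_lit 493) (nat_lit 529) (nat_lit 493) (.f (nat_lit 492) (nat_lit 527) (nat_lit 492) (.d (nat_lit 460) (nat_lit 459) (nat_lit 3531) (nat_lit 461) (nat_lit 3532)))))))))))))))))) (.a (.p (nat_lit 496) (.a s133295 (.a (.f (nat_lit 560) (nat_lit 592) (nat_lit 7631) (.d (nat_lit 431) (nat_lit 399) (nat_lit 4495) (nat_lit 464) (nat_lit 7599))) (.a s133343 (.p (nat_lit 497) (.a (.f (nat_lit 498) (nat_lit 462) (nat_lit 3534) (.f (nat_lit 530) (nat_lit 531) (nat_lit 495) (.f (nat_lit 494) (nat_lit 529) (nat_lit 494) (.d (nat_lit 466) (nat_lit 465) (nat_lit 2510) (nat_lit 467) (nat_lit 2511))))) (.a (.f (nat_lit 498) (nat_lit 462) (nat_lit 3534) (.f (nat_lit 531) (nat_lit 530) (nat_lit 495) (.f (nat_lit 499) (nat_lit 532) (nat_lit 496) (.d (nat_lit 467) (nat_lit 466) (nat_lit 2511) (nat_lit 468) (nat_lit 2512))))) (.a (.p (nat_lit 494) (.a (.f (nat_lit 465) (nat_lit 466) (nat_lit 2510) (.f (nat_lit 560) (nat_lit 592) (nat_lit 7631) (.d (nat_lit 529) (nat_lit 433) (nat_lit 5552) (nat_lit 530) (nat_lit 494)))) (.f (nat_lit 462) (nat_lit 461) (nat_lit 3533) (.f (nat_lit 431) (nat_lit 399) (nat_lit 4495) (.d (nat_lit 526) (nat_lit 525) (nat_lit 1517) (nat_lit 558) (nat_lit 6574)))))) (.a (.p (nat_lit 465) (.a (.f (nat_lit 560) (nat_lit 592) (nat_lit 7631) (.d (nat_lit 433) (nat_lit 401) (nat_lit 5520) (nat_lit 529) (nat_lit 5552))) (.a (.f (nat_lit 494) (nat_lit 466) (nat_lit 2510) (.d (nat_lit 529) (nat_lit 493) (nat_lit 493) (nat_lit 530) (nat_lit 494))) (.f (nat_lit 466) (nat_lit 494) (nat_lit 2510) (.d (nat_lit 467) (nat_lit 468) (nat_lit 1488) (nat_lit 498) (nat_lit 2511)))))) (.f (nat_lit 462) (nat_lit 498) (nat_lit 3534) (.d (nat_lit 461) (nat_lit 460) (nat_lit 460) (nat_lit 494) (nat_lit 3533)))))))))))) (.p (nat_lit 431) (.a (.f (nat_lit 527) (nat_lit 560) (nat_lit 4527) (.f (nat_lit 526) (nat_lit 558) (nat_lit 5550) (.d (nat_lit 399) (nat_lit 494) (nat_lit 5518) (nat_lit 496) (nat_lit 4495)))) (.a (.f (nat_lit 527) (nat_lit 560) (nat_lit 4527) (.f (nat_lit 399) (nat_lit 496) (nat_lit 4495) (.d (nat_lit 400) (nat_lit 368) (nat_lit 6511) (nat_lit 432) (nat_lit 6543)))) (.a (.f (nat_lit 527) (nat_lit 560) (nat_lit 4527) (.f (nat_lit 526) (nat_lit 558) (nat_lit 5550) (.f (nat_lit 494) (nat_lit 399) (nat_lit 5518) (.d (nat_lit 493) (nat_lit 492) (nat_lit 492) (nat_lit 529) (nat_lit 3565))))) (.a (.f (nat_lit 399) (nat_lit 496) (nat_lit 4495) (.f (nat_lit 494) (nat_lit 526) (nat_lit 5518) (.f (nat_lit 367) (nat_lit 462) (nat_lit 5486) (.d (nat_lit 368) (nat_lit 336) (nat_lit 6479) (nat_lit 400) (nat_lit 6511))))) (.f (nat_lit 527) (nat_lit 560) (nat_lit 4527) (.f (nat_lit 430) (nat_lit 398) (nat_lit 7566) (.f (nat_lit 462) (nat_lit 559) (nat_lit 7598) (.f (nat_lit 432) (nat_lit 400) (nat_lit 6543) (.d (nat_lit 461) (nat_lit 433) (nat_lit 1453) (nat_lit 460) (nat_lit 2476))))))))))))))))) (.a (.p (nat_lit 494) (.a (.p (nat_lit 493) (.a (.f (nat_lit 492) (nat_lit 527) (nat_lit 492) (.f (nat_lit 496) (nat_lit 529) (nat_lit 493) (.d (nat_lit 524) (nat_lit 523) (nat_lit 1515) (nat_lit 525) (nat_lit 1516)))) (.a (.f (nat_lit 492) (nat_lit 527) (nat_lit 492) (.f (nat_lit 463) (nat_lit 464) (nat_lit 2508) (.f (nat_lit 491) (nat_lit 462) (nat_lit 2507) (.d (nat_lit 523) (nat_lit 522) (nat_lit 1514) (nat_lit 524) (nat_lit 1515))))) (.a (.f (nat_lit 496) (nat_lit 529) (nat_lit 493) (.f (nat_lit 464) (nat_lit 465) (nat_lit 2509) (.f (nat_lit 463) (nat_lit 492) (nat_lit 2508) (.d (nat_lit 431) (nat_lit 399) (nat_lit 4495) (nat_lit 560) (nat_lit 7599))))) (.f (nat_lit 496) (nat_lit 529) (nat_lit 493) (.f (nat_lit 525) (nat_lit 524) (nat_lit 1516) (.f (nat_lit 461) (nat_lit 460) (nat_lit 3532) (.d (nat_lit 497) (nat_lit 462) (nat_lit 3533) (nat_lit 526) (nat_lit 1517))))))))) (.a (.p (nat_lit 493) (.a (.f (nat_lit 492) (nat_lit 527) (nat_lit 492) (.f (nat_lit 496) (nat_lit 529) (nat_lit 493) (.d (nat_lit 524) (nat_lit 523) (nat_lit 1515) (nat_lit 525) (nat_lit 1516)))) (.a (.f (nat_lit 492) (nat_lit 527) (nat_lit 492) (.f (nat_lit 523) (nat_lit 524) (nat_lit 1515) (.f (nat_lit 491) (nat_lit 522) (nat_lit 1514) (.d (nat_lit 459) (nat_lit 458) (nat_lit 3530) (nat_lit 460) (nat_lit 3531))))) (.a (.f (nat_lit 496) (nat_lit 529) (nat_lit 493) (.f (nat_lit 525) (nat_lit 524) (nat_lit 1516) (.f (nat_lit 461) (nat_lit 460) (nat_lit 3532) (.d (nat_lit 497) (nat_lit 462) (nat_lit 3533) (nat_lit 526) (nat_lit 1517))))) (.f (nat_lit 496) (nat_lit 529) (nat_lit 493) (.f (nat_lit 527) (nat_lit 492) (nat_lit 492) (.f (nat_lit 464) (nat_lit 465) (nat_lit 2509) (.d (nat_lit 432) (nat_lit 400) (nat_lit 5519) (nat_lit 559) (nat_lit 5551))))))))) (.a (.p (nat_lit 496) (.a (.p (nat_lit 497) (.a (.f (nat_lit 526) (nat_lit 525) (nat_lit 1517) (.f (nat_lit 527) (nat_lit 498) (nat_lit 1518) (.f (nat_lit 462) (nat_lit 461) (nat_lit 3533) (.d (nat_lit 430) (nat_lit 398) (nat_lit 4494) (nat_lit 559) (nat_lit 4526))))) (.f (nat_lit 465) (nat_lit 466) (nat_lit 2510) (.f (nat_lit 560) (nat_lit 592) (nat_lit 6608) (.d (nat_lit 433) (nat_lit 401) (nat_lit 5520) (nat_lit 464) (nat_lit 6576)))))) (.a (.p (nat_lit 497) (.a (.f (nat_lit 526) (nat_lit 525) (nat_lit 1517) (.f (nat_lit 527) (nat_lit 498) (nat_lit 1518) (.f (nat_lit 462) (nat_lit 461) (nat_lit 3533) (.d (nat_lit 430) (nat_lit 398) (nat_lit 4494) (nat_lit 559) (nat_lit 4526))))) (.a (.f (nat_lit 462) (nat_lit 461) (nat_lit 3533) (.f (nat_lit 498) (nat_lit 463) (nat_lit 3534) (.d (nat_lit 466) (nat_lit 465) (nat_lit 2510) (nat_lit 467) (nat_lit 2511)))) (.a (.f (nat_lit 526) (nat_lit 525) (nat_lit 1517) (.f (nat_lit 498) (nat_lit 527) (nat_lit 1518) (.d (nat_lit 466) (nat_lit 465) (nat_lit 2510) (nat_lit 467) (nat_lit 2511)))) (.p (nat_lit 463) (.a (.f (nat_lit 462) (nat_lit 461) (nat_lit 3533) (.f (nat_lit 526) (nat_lit 525) (nat_lit 1517) (.f (nat_lit 558) (nat_lit 590) (nat_lit 6606) (.f (nat_lit 559) (nat_lit 591) (nat_lit 4558) (.f (nat_lit 527) (nat_lit 430) (nat_lit 4526) (.d (nat_lit 557) (nat_lit 529) (nat_lit 1549) (nat_lit 589) (nat_lit 5581))))))) (.a (.f (nat_lit 462) (nat_lit 461) (nat_lit 3533) (.f (nat_lit 465) (nat_lit 466) (nat_lit 2510) (.f (nat_lit 433) (nat_lit 401) (nat_lit 5520) (.f (nat_lit 464) (nat_lit 434) (nat_lit 2478) (.f (nat_lit 431) (nat_lit 399) (nat_lit 4495) (.f (nat_lit 430) (nat_lit 429) (nat_lit 3501) (.d (nat_lit 527) (nat_lit 398) (nat_lit 7566) (nat_lit 559) (nat_lit 7598)))))))) (.a (.f (nat_lit 526) (nat_lit 525) (nat_lit 1517) (.f (nat_lit 431) (nat_lit 399) (nat_lit 4495) (.d (nat_lit 558) (nat_lit 527) (nat_lit 5550) (nat_lit 590) (nat_lit 6606)))) (.f (nat_lit 462) (nat_lit 461) (nat_lit 3533) (.f (nat_lit 431) (nat_lit 399) (nat_lit 4495) (.d (nat_lit 526) (nat_lit 525) (nat_lit 1517) (nat_lit 558) (nat_lit 6574)))))))))))) (.a (.p (nat_lit 497) (.a (.f (nat_lit 465) (nat_lit 466) (nat_lit 2510) (.f (nat_lit 560) (nat_lit 592) (nat_lit 6608) (.d (nat_lit 433) (nat_lit 401) (nat_lit 5520) (nat_lit 464) (nat_lit 6576)))) (.a (.f (nat_lit 462) (nat_lit 461) (nat_lit 3533) (.f (nat_lit 498) (nat_lit 463) (nat_lit 3534) (.d (nat_lit 466) (nat_lit 465) (nat_lit 2510) (nat_lit 467) (nat_lit 2511)))) (.f (nat_lit 462) (nat_lit 461) (nat_lit 3533) (.f (nat_lit 463) (nat_lit 498) (nat_lit 3534) (.f (nat_lit 431) (nat_lit 399) (nat_lit 4495) (.d (nat_lit 560) (nat_lit 464) (nat_lit 7599) (nat_lit 592) (nat_lit 7631)))))))) (.a (.p (nat_lit 560) (.a (.f (nat_lit 463) (nat_lit 592) (nat_lit 7631) (.d (nat_lit 431) (nat_lit 399) (nat_lit 4495) (nat_lit 464) (nat_lit 7599))) (.a (.p (nat_lit 592) (.a (.f (nat_lit 624) (nat_lit 527) (nat_lit 7663) (.d (nat_lit 623) (nat_lit 591) (nat_lit 5615) (nat_lit 655) (nat_lit 5647))) (.a (.f (nat_lit 591) (nat_lit 623) (nat_lit 5615) (.f (nat_lit 593) (nat_lit 625) (nat_lit 4592) (.f (nat_lit 559) (nat_lit 464) (nat_lit 5583) (.d (nat_lit 594) (nat_lit 558) (nat_lit 3630) (nat_lit 595) (nat_lit 3631))))) (.f (nat_lit 624) (nat_lit 527) (nat_lit 7663) (.d (nat_lit 625) (nat_lit 593) (nat_lit 4592) (nat_lit 657) (nat_lit 4624)))))) (.a (.p (nat_lit 464) (.a (.f (nat_lit 463) (nat_lit 431) (nat_lit 7599) (.d (nat_lit 465) (nat_lit 433) (nat_lit 6576) (nat_lit 466) (nat_lit 1486))) (.a (.f (nat_lit 559) (nat_lit 591) (nat_lit 5583) (.f (nat_lit 432) (nat_lit 527) (nat_lit 5551) (.d (nat_lit 433) (nat_lit 401) (nat_lit 6544) (nat_lit 465) (nat_lit 6576)))) (.f (nat_lit 463) (nat_lit 431) (nat_lit 7599) (.f (nat_lit 559) (nat_lit 591) (nat_lit 5583) (.f (nat_lit 527) (nat_lit 432) (nat_lit 5551) (.f (nat_lit 558) (nat_lit 590) (nat_lit 5582) (.d (nat_lit 557) (nat_lit 529) (nat_lit 2573) (nat_lit 556) (nat_lit 2572))))))))) (.f (nat_lit 592) (nat_lit 463) (nat_lit 7631) (.f (nat_lit 624) (nat_lit 527) (nat_lit 7663) (.d (nat_lit 623) (nat_lit 591) (nat_lit 5615) (nat_lit 655) (nat_lit 5647)))))))) (.a (.p (nat_lit 497) (.a (.f (nat_lit 526) (nat_lit 525) (nat_lit 1517) (.f (nat_lit 527) (nat_lit 498) (nat_lit 1518) (.f (nat_lit 462) (nat_lit 461) (nat_lit 3533) (.d (nat_lit 430) (nat_lit 398) (nat_lit 4494) (nat_lit 559) (nat_lit 4526))))) (.a (.f (nat_lit 462) (nat_lit 461) (nat_lit 3533) (.f (nat_lit 498) (nat_lit 463) (nat_lit 3534) (.d (nat_lit 466) (nat_lit 465) (nat_lit 2510) (nat_lit 467) (nat_lit 2511)))) (.a (.f (nat_lit 526) (nat_lit 525) (nat_lit 1517) (.f (nat_lit 498) (nat_lit 527) (nat_lit 1518) (.d (nat_lit 466) (nat_lit 465) (nat_lit 2510) (nat_lit 467) (nat_lit 2511)))) (.f (nat_lit 465) (nat_lit 466) (nat_lit 2510) (.f (nat_lit 560) (nat_lit 592) (nat_lit 6608) (.d (nat_lit 433) (nat_lit 401) (nat_lit 5520) (nat_lit 529) (nat_lit 5552)))))))) (.p (nat_lit 463) (.a (.f (nat_lit 431) (nat_lit 399) (nat_lit 4495) (.d (nat_lit 560) (nat_lit 527) (nat_lit 4527) (nat_lit 592) (nat_lit 7631))) (.a (.p (nat_lit 526) (.a (.f (nat_lit 431) (nat_lit 399) (nat_lit 4495) (.d (nat_lit 558) (nat_lit 527) (nat_lit 5550) (nat_lit 590) (nat_lit 6606))) (.a (.f (nat_lit 497) (nat_lit 525) (nat_lit 1517) (.d (nat_lit 498) (nat_lit 462) (nat_lit 3534) (nat_lit 527) (nat_lit 1518))) (.f (nat_lit 431) (nat_lit 399) (nat_lit 5518) (.d (nat_lit 558) (nat_lit 462) (nat_lit 6574) (nat_lit 590) (nat_lit 6606)))))) (.a (.p (nat_lit 497) (.a (.d (nat_lit 462) (nat_lit 461) (nat_lit 3533) (nat_lit 498) (nat_lit 3534)) (.a (.f (nat_lit 526) (nat_lit 525) (nat_lit 1517) (.f (nat_lit 527) (nat_lit 498) (nat_lit 1518) (.f (nat_lit 558) (nat_lit 590) (nat_lit 6606) (.f (nat_lit 557) (nat_lit 529) (nat_lit 1549) (.d (nat_lit 556) (nat_lit 555) (nat_lit 2571) (nat_lit 559) (nat_lit 2572)))))) (.f (nat_lit 462) (nat_lit 461) (nat_lit 3533) (.f (nat_lit 526) (nat_lit 525) (nat_lit 1517) (.f (nat_lit 558) (nat_lit 590) (nat_lit 6606) (.f (nat_lit 559) (nat_lit 591) (nat_lit 4558) (.f (nat_lit 527) (nat_lit 430) (nat_lit 4526) (.d (nat_lit 557) (nat_lit 529) (nat_lit 1549) (nat_lit 589) (nat_lit 5581)))))))))) (.f (nat_lit 431) (nat_lit 399) (nat_lit 4495) (.d (nat_lit 560) (nat_lit 464) (nat_lit 7599) (nat_lit 592) (nat_lit 7631))))))))))))) (.a (.p (nat_lit 527) (.a (.p (nat_lit 463) (.a (.f (nat_lit 431) (nat_lit 560) (nat_lit 4527) (.d (nat_lit 526) (nat_lit 399) (nat_lit 5518) (nat_lit 558) (nat_lit 5550))) (.a (.p (nat_lit 559) (.a (.d (nat_lit 462) (nat_lit 430) (nat_lit 7598) (nat_lit 591) (nat_lit 7630)) (.a (.f (nat_lit 493) (nat_lit 492) (nat_lit 492) (.f (nat_lit 526) (nat_lit 529) (nat_lit 3565) (.f (nat_lit 590) (nat_lit 558) (nat_lit 5582) (.d (nat_lit 591) (nat_lit 622) (nat_lit 5614) (nat_lit 623) (nat_lit 7662))))) (.f (nat_lit 493) (nat_lit 492) (nat_lit 492) (.f (nat_lit 462) (nat_lit 430) (nat_lit 7598) (.d (nat_lit 464) (nat_lit 432) (nat_lit 6575) (nat_lit 465) (nat_lit 1485))))))) s133474))) (.a (.p (nat_lit 463) (.a (.f (nat_lit 431) (nat_lit 560) (nat_lit 4527) (.d (nat_lit 526) (nat_lit 399) (nat_lit 5518) (nat_lit 558) (nat_lit 5550))) (.a (.p (nat_lit 559) (.a (.d (nat_lit 462) (nat_lit 430) (nat_lit 7598) (nat_lit 591) (nat_lit 7630)) (.f (nat_lit 558) (nat_lit 590) (nat_lit 5582) (.f (nat_lit 557) (nat_lit 556) (nat_lit 2572) (.d (nat_lit 560) (nat_lit 529) (nat_lit 2573) (nat_lit 592) (nat_lit 4559)))))) (.a (.p (nat_lit 526) (.a (.d (nat_lit 431) (nat_lit 399) (nat_lit 5518) (nat_lit 558) (nat_lit 5550)) (.a (.f (nat_lit 558) (nat_lit 590) (nat_lit 6606) (.f (nat_lit 557) (nat_lit 529) (nat_lit 1549) (.d (nat_lit 556) (nat_lit 525) (nat_lit 1548) (nat_lit 555) (nat_lit 2571)))) (.f (nat_lit 431) (nat_lit 399) (nat_lit 5518) (.f (nat_lit 430) (nat_lit 398) (nat_lit 7566) (.f (nat_lit 462) (nat_lit 559) (nat_lit 4526) (.f (nat_lit 432) (nat_lit 400) (nat_lit 6543) (.d (nat_lit 461) (nat_lit 433) (nat_lit 1453) (nat_lit 460) (nat_lit 2476))))))))) (.f (nat_lit 431) (nat_lit 560) (nat_lit 4527) (.f (nat_lit 399) (nat_lit 526) (nat_lit 5518) (.d (nat_lit 400) (nat_lit 368) (nat_lit 6511) (nat_lit 432) (nat_lit 6543)))))))) (.a (.p (nat_lit 526) (.a (.d (nat_lit 493) (nat_lit 492) (nat_lit 492) (nat_lit 529) (nat_lit 3565)) (.a (.p (nat_lit 558) (.a (.f (nat_lit 557) (nat_lit 529) (nat_lit 1549) (.d (nat_lit 556) (nat_lit 525) (nat_lit 1548) (nat_lit 555) (nat_lit 2571))) (.f (nat_lit 590) (nat_lit 622) (nat_lit 6638) (.f (nat_lit 591) (nat_lit 623) (nat_lit 4590) (.f (nat_lit 462) (nat_lit 559) (nat_lit 4558) (.f (nat_lit 430) (nat_lit 398) (nat_lit 4494) (.d (nat_lit 429) (nat_lit 397) (nat_lit 7565) (nat_lit 461) (nat_lit 7597)))))))) (.p (nat_lit 525) (.a (.f (nat_lit 493) (nat_lit 492) (nat_lit 492) (.f (nat_lit 557) (nat_lit 556) (nat_lit 1548) (.d (nat_lit 462) (nat_lit 430) (nat_lit 5549) (nat_lit 589) (nat_lit 6605)))) (.a (.f (nat_lit 524) (nat_lit 523) (nat_lit 2539) (.d (nat_lit 556) (nat_lit 555) (nat_lit 1547) (nat_lit 557) (nat_lit 1548))) (.f (nat_lit 524) (nat_lit 523) (nat_lit 2539) (.f (nat_lit 559) (nat_lit 560) (nat_lit 524) (.d (nat_lit 462) (nat_lit 430) (nat_lit 4526) (nat_lit 591) (nat_lit 7630)))))))))) (.a (.p (nat_lit 463) (.a (.f (nat_lit 493) (nat_lit 492) (nat_lit 492) (.f (nat_lit 526) (nat_lit 529) (nat_lit 3565) (.d (nat_lit 431) (nat_lit 399) (nat_lit 5518) (nat_lit 558) (nat_lit 5550)))) (.a (.p (nat_lit 526) (.a (.d (nat_lit 431) (nat_lit 399) (nat_lit 5518) (nat_lit 558) (nat_lit 5550)) (.a (.f (nat_lit 558) (nat_lit 590) (nat_lit 6606) (.f (nat_lit 557) (nat_lit 529) (nat_lit 1549) (.d (nat_lit 556) (nat_lit 525) (nat_lit 1548) (nat_lit 555) (nat_lit 2571)))) (.f (nat_lit 431) (nat_lit 399) (nat_lit 5518) (.f (nat_lit 430) (nat_lit 398) (nat_lit 7566) (.f (nat_lit 462) (nat_lit 559) (nat_lit 4526) (.f (nat_lit 432) (nat_lit 400) (nat_lit 6543) (.d (nat_lit 461) (nat_lit 433) (nat_lit 1453) (nat_lit 460) (nat_lit 2476))))))))) (.a (.p (nat_lit 559) (.a (.d (nat_lit 462) (nat_lit 430) (nat_lit 7598) (nat_lit 591) (nat_lit 7630)) (.a (.f (nat_lit 493) (nat_lit 492) (nat_lit 492) (.f (nat_lit 526) (nat_lit 529) (nat_lit 3565) (.f (nat_lit 590) (nat_lit 558) (nat_lit 5582) (.d (nat_lit 591) (nat_lit 622) (nat_lit 5614) (nat_lit 623) (nat_lit 7662))))) (.f (nat_lit 493) (nat_lit 492) (nat_lit 492) (.f (nat_lit 462) (nat_lit 430) (nat_lit 7598) (.d (nat_lit 464) (nat_lit 432) (nat_lit 6575) (nat_lit 465) (nat_lit 1485))))))) s133474)))) (.a (.p (nat_lit 463) (.a s133474 (.a (.p (nat_lit 559) (.a (.d (nat_lit 462) (nat_lit 430) (nat_lit 7598) (nat_lit 591) (nat_lit 7630)) (.f (nat_lit 558) (nat_lit 590) (nat_lit 5582) (.f (nat_lit 557) (nat_lit 556) (nat_lit 2572) (.d (nat_lit 560) (nat_lit 529) (nat_lit 2573) (nat_lit 592) (nat_lit 4559)))))) (.a (.f (nat_lit 431) (nat_lit 560) (nat_lit 4527) (.f (nat_lit 398) (nat_lit 430) (nat_lit 7566) (.f (nat_lit 399) (nat_lit 366) (nat_lit 7534) (.d (nat_lit 400) (nat_lit 368) (nat_lit 6511) (nat_lit 432) (nat_lit 6543))))) (.f (nat_lit 493) (nat_lit 492) (nat_lit 492) (.f (nat_lit 431) (nat_lit 560) (nat_lit 4527) (.f (nat_lit 432) (nat_lit 400) (nat_lit 6543) (.f (nat_lit 464) (nat_lit 559) (nat_lit 6575) (.d (nat_lit 465) (nat_lit 462) (nat_lit 1485) (nat_lit 466) (nat_lit 1486)))))))))) (.a (.p (nat_lit 526) (.a (.d (nat_lit 493) (nat_lit 492) (nat_lit 492) (nat_lit 529) (nat_lit 3565)) (.a (.p (nat_lit 463) (.a (.d (nat_lit 431) (nat_lit 399) (nat_lit 5518) (nat_lit 558) (nat_lit 5550)) (.a (.f (nat_lit 558) (nat_lit 590) (nat_lit 6606) (.f (nat_lit 557) (nat_lit 529) (nat_lit 1549) (.d (nat_lit 556) (nat_lit 525) (nat_lit 1548) (nat_lit 555) (nat_lit 2571)))) (.d (nat_lit 431) (nat_lit 399) (nat_lit 5518) (nat_lit 560) (nat_lit 4527))))) (.p (nat_lit 525) (.a (.f (nat_lit 493) (nat_lit 492) (nat_lit 492) (.f (nat_lit 557) (nat_lit 556) (nat_lit 1548) (.d (nat_lit 462) (nat_lit 430) (nat_lit 5549) (nat_lit 589) (nat_lit 6605)))) (.a (.f (nat_lit 524) (nat_lit 523) (nat_lit 2539) (.d (nat_lit 556) (nat_lit 555) (nat_lit 1547) (nat_lit 557) (nat_lit 1548))) (.f (nat_lit 492) (nat_lit 493) (nat_lit 492) (.d (nat_lit 524) (nat_lit 491) (nat_lit 3563) (nat_lit 523) (nat_lit 2539))))))))) (.a (.p (nat_lit 463) (.a (.f (nat_lit 431) (nat_lit 560) (nat_lit 4527) (.d (nat_lit 526) (nat_lit 399) (nat_lit 5518) (nat_lit 558) (nat_lit 5550))) (.a s133527 (.a (.f (nat_lit 493) (nat_lit 492) (nat_lit 492) (.f (nat_lit 526) (nat_lit 529) (nat_lit 3565) (.d (nat_lit 431) (nat_lit 399) (nat_lit 5518) (nat_lit 558) (nat_lit 5550)))) (.f (nat_lit 431) (nat_lit 560) (nat_lit 4527) (.f (nat_lit 398) (nat_lit 430) (nat_lit 7566) (.f (nat_lit 399) (nat_lit 366) (nat_lit 7534) (.d (nat_lit 400) (nat_lit 368) (nat_lit 6511) (nat_lit 432) (nat_lit 6543))))))))) (.a (.p (nat_lit 463) (.a s133474 (.a (.f (nat_lit 431) (nat_lit 560) (nat_lit 4527) (.f (nat_lit 399) (nat_lit 526) (nat_lit 5518) (.d (nat_lit 400) (nat_lit 368) (nat_lit 6511) (nat_lit 432) (nat_lit 6543)))) (.a (.p (nat_lit 559) (.a (.d (nat_lit 462) (nat_lit 430) (nat_lit 7598) (nat_lit 591) (nat_lit 7630)) (.a (.f (nat_lit 493) (nat_lit 492) (nat_lit 492) (.f (nat_lit 526) (nat_lit 529) (nat_lit 3565) (.f (nat_lit 591) (nat_lit 623) (nat_lit 7662) (.d (nat_lit 592) (nat_lit 560) (nat_lit 4559) (nat_lit 624) (nat_lit 4591))))) (.f (nat_lit 493) (nat_lit 492) (nat_lit 492) (.f (nat_lit 462) (nat_lit 430) (nat_lit 7598) (.d (nat_lit 464) (nat_lit 432) (nat_lit 6575) (nat_lit 465) (nat_lit 1485))))))) (.f (nat_lit 493) (nat_lit 492) (nat_lit 492) (.f (nat_lit 431) (nat_lit 560) (nat_lit 4527) (.d (nat_lit 526) (nat_lit 399) (nat_lit 5518) (nat_lit 529) (nat_lit 3565)))))))) (.a (.p (nat_lit 463) (.a (.f (nat_lit 431) (nat_lit 560) (nat_lit 4527) (.d (nat_lit 526) (nat_lit 399) (nat_lit 5518) (nat_lit 558) (nat_lit 5550))) (.a s133527 (.a (.f (nat_lit 493) (nat_lit 492) (nat_lit 492) (.f (nat_lit 526) (nat_lit 529) (nat_lit 3565) (.d (nat_lit 431) (nat_lit 399) (nat_lit 5518) (nat_lit 558) (nat_lit 5550)))) (.f (nat_lit 493) (nat_lit 492) (nat_lit 492) (.f (nat_lit 431) (nat_lit 560) (nat_lit 4527) (.f (nat_lit 432) (nat_lit 400) (nat_lit 6543) (.f (nat_lit 464) (nat_lit 559) (nat_lit 6575) (.d (nat_lit 465) (nat_lit 462) (nat_lit 1485) (nat_lit 466) (nat_lit 1486)))))))))) (.p (nat_lit 463) (.a (.f (nat_lit 431) (nat_lit 560) (nat_lit 4527) (.d (nat_lit 526) (nat_lit 399) (nat_lit 5518) (nat_lit 558) (nat_lit 5550))) (.a (.p (nat_lit 559) (.a (.d (nat_lit 462) (nat_lit 430) (nat_lit 7598) (nat_lit 591) (nat_lit 7630)) (.f (nat_lit 558) (nat_lit 590) (nat_lit 5582) (.f (nat_lit 560) (nat_lit 592) (nat_lit 4559) (.f (nat_lit 557) (nat_lit 556) (nat_lit 2572) (.f (nat_lit 525) (nat_lit 524) (nat_lit 3596) (.f (nat_lit 589) (nat_lit 588) (nat_lit 1580) (.f (nat_lit 621) (nat_lit 526) (nat_lit 6637) (.f (nat_lit 654) (nat_lit 622) (nat_lit 4621) (.f (nat_lit 653) (nat_lit 686) (nat_lit 4653) (.d (nat_lit 652) (nat_lit 620) (nat_lit 5644) (nat_lit 684) (nat_lit 5676)))))))))))) s133474))))))))))))) (.a (.p (nat_lit 496) (.a (.p (nat_lit 497) (.a (.f (nat_lit 465) (nat_lit 466) (nat_lit 2510) (.f (nat_lit 560) (nat_lit 592) (nat_lit 6608) (.d (nat_lit 433) (nat_lit 401) (nat_lit 5520) (nat_lit 464) (nat_lit 6576)))) (.a (.f (nat_lit 462) (nat_lit 461) (nat_lit 3533) (.f (nat_lit 498) (nat_lit 463) (nat_lit 3534) (.d (nat_lit 466) (nat_lit 465) (nat_lit 2510) (nat_lit 467) (nat_lit 2511)))) (.f (nat_lit 462) (nat_lit 461) (nat_lit 3533) (.f (nat_lit 463) (nat_lit 498) (nat_lit 3534) (.f (nat_lit 431) (nat_lit 399) (nat_lit 4495) (.d (nat_lit 560) (nat_lit 464) (nat_lit 7599) (nat_lit 592) (nat_lit 7631)))))))) (.a (.f (nat_lit 493) (nat_lit 529) (nat_lit 493) (.f (nat_lit 525) (nat_lit 524) (nat_lit 1516) (.f (nat_lit 461) (nat_lit 460) (nat_lit 3532) (.d (nat_lit 497) (nat_lit 462) (nat_lit 3533) (nat_lit 526) (nat_lit 1517))))) (.f (nat_lit 493) (nat_lit 529) (nat_lit 493) (.f (nat_lit 464) (nat_lit 465) (nat_lit 2509) (.f (nat_lit 463) (nat_lit 492) (nat_lit 2508) (.d (nat_lit 431) (nat_lit 399) (nat_lit 4495) (nat_lit 560) (nat_lit 7599)))))))) (.a (.p (nat_lit 493) (.a (.f (nat_lit 492) (nat_lit 527) (nat_lit 492) (.f (nat_lit 496) (nat_lit 529) (nat_lit 493) (.d (nat_lit 524) (nat_lit 523) (nat_lit 1515) (nat_lit 525) (nat_lit 1516)))) (.a (.f (nat_lit 492) (nat_lit 527) (nat_lit 492) (.f (nat_lit 463) (nat_lit 464) (nat_lit 2508) (.f (nat_lit 491) (nat_lit 462) (nat_lit 2507) (.d (nat_lit 523) (nat_lit 522) (nat_lit 1514) (nat_lit 524) (nat_lit 1515))))) (.a (.f (nat_lit 496) (nat_lit 529) (nat_lit 493) (.f (nat_lit 461) (nat_lit 460) (nat_lit 3532) (.f (nat_lit 462) (nat_lit 497) (nat_lit 3533) (.f (nat_lit 525) (nat_lit 524) (nat_lit 1516) (.d (nat_lit 430) (nat_lit 398) (nat_lit 5517) (nat_lit 557) (nat_lit 6573)))))) (.f (nat_lit 496) (nat_lit 529) (nat_lit 493) (.f (nat_lit 464) (nat_lit 465) (nat_lit 2509) (.f (nat_lit 463) (nat_lit 492) (nat_lit 2508) (.d (nat_lit 431) (nat_lit 399) (nat_lit 4495) (nat_lit 560) (nat_lit 7599))))))))) (.a (.p (nat_lit 493) (.a (.f (nat_lit 492) (nat_lit 527) (nat_lit 492) (.f (nat_lit 496) (nat_lit 529) (nat_lit 493) (.d (nat_lit 524) (nat_lit 523) (nat_lit 1515) (nat_lit 525) (nat_lit 1516)))) (.a (.f (nat_lit 492) (nat_lit 527) (nat_lit 492) (.f (nat_lit 523) (nat_lit 524) (nat_lit 1515) (.f (nat_lit 491) (nat_lit 522) (nat_lit 1514) (.d (nat_lit 459) (nat_lit 458) (nat_lit 3530) (nat_lit 460) (nat_lit 3531))))) (.a (.f (nat_lit 496) (nat_lit 529) (nat_lit 493) (.f (nat_lit 464) (nat_lit 465) (nat_lit 2509) (.f (nat_lit 463) (nat_lit 492) (nat_lit 2508) (.d (nat_lit 431) (nat_lit 399) (nat_lit 4495) (nat_lit 560) (nat_lit 7599))))) (.f (nat_lit 496) (nat_lit 529) (nat_lit 493) (.f (nat_lit 525) (nat_lit 524) (nat_lit 1516) (.f (nat_lit 526) (nat_lit 497) (nat_lit 1517) (.f (nat_lit 461) (nat_lit 460) (nat_lit 3532) (.d (nat_lit 429) (nat_lit 397) (nat_lit 4493) (nat_lit 558) (nat_lit 4525)))))))))) (.a (.p (nat_lit 493) (.a (.f (nat_lit 492) (nat_lit 527) (nat_lit 492) (.f (nat_lit 496) (nat_lit 529) (nat_lit 493) (.d (nat_lit 524) (nat_lit 523) (nat_lit 1515) (nat_lit 525) (nat_lit 1516)))) (.a (.f (nat_lit 492) (nat_lit 527) (nat_lit 492) (.f (nat_lit 523) (nat_lit 524) (nat_lit 1515) (.f (nat_lit 491) (nat_lit 522) (nat_lit 1514) (.d (nat_lit 459) (nat_lit 458) (nat_lit 3530) (nat_lit 460) (nat_lit 3531))))) (.a (.f (nat_lit 496) (nat_lit 529) (nat_lit 493) (.f (nat_lit 525) (nat_lit 524) (nat_lit 1516) (.f (nat_lit 461) (nat_lit 460) (nat_lit 3532) (.d (nat_lit 497) (nat_lit 462) (nat_lit 3533) (nat_lit 526) (nat_lit 1517))))) (.f (nat_lit 527) (nat_lit 492) (nat_lit 492) (.d (nat_lit 529) (nat_lit 496) (nat_lit 493) (nat_lit 526) (nat_lit 3565))))))) (.a (.p (nat_lit 493) (.a (.f (nat_lit 492) (nat_lit 527) (nat_lit 492) (.f (nat_lit 463) (nat_lit 464) (nat_lit 2508) (.f (nat_lit 491) (nat_lit 462) (nat_lit 2507) (.d (nat_lit 523) (nat_lit 522) (nat_lit 1514) (nat_lit 524) (nat_lit 1515))))) (.a (.f (nat_lit 492) (nat_lit 527) (nat_lit 492) (.f (nat_lit 523) (nat_lit 524) (nat_lit 1515) (.f (nat_lit 491) (nat_lit 522) (nat_lit 1514) (.d (nat_lit 459) (nat_lit 458) (nat_lit 3530) (nat_lit 460) (nat_lit 3531))))) (.a (.f (nat_lit 496) (nat_lit 529) (nat_lit 493) (.f (nat_lit 464) (nat_lit 465) (nat_lit 2509) (.f (nat_lit 463) (nat_lit 492) (nat_lit 2508) (.d (nat_lit 431) (nat_lit 399) (nat_lit 4495) (nat_lit 560) (nat_lit 7599))))) (.f (nat_lit 496) (nat_lit 529) (nat_lit 493) (.f (nat_lit 465) (nat_lit 464) (nat_lit 2509) (.f (nat_lit 497) (nat_lit 466) (nat_lit 2510) (.d (nat_lit 461) (nat_lit 460) (nat_lit 3532) (nat_lit 462) (nat_lit 3533))))))))) (.a (.p (nat_lit 496) (.a (.p (nat_lit 497) (.a (.f (nat_lit 526) (nat_lit 525) (nat_lit 1517) (.f (nat_lit 527) (nat_lit 498) (nat_lit 1518) (.f (nat_lit 462) (nat_lit 461) (nat_lit 3533) (.d (nat_lit 430) (nat_lit 398) (nat_lit 4494) (nat_lit 559) (nat_lit 4526))))) (.f (nat_lit 465) (nat_lit 466) (nat_lit 2510) (.f (nat_lit 560) (nat_lit 592) (nat_lit 6608) (.d (nat_lit 433) (nat_lit 401) (nat_lit 5520) (nat_lit 464) (nat_lit 6576)))))) (.a (.p (nat_lit 493) (.a (.f (nat_lit 492) (nat_lit 527) (nat_lit 492) (.d (nat_lit 524) (nat_lit 523) (nat_lit 1515) (nat_lit 525) (nat_lit 1516))) (.a (.f (nat_lit 461) (nat_lit 460) (nat_lit 3532) (.f (nat_lit 525) (nat_lit 524) (nat_lit 1516) (.d (nat_lit 497) (nat_lit 462) (nat_lit 3533) (nat_lit 526) (nat_lit 1517)))) (.f (nat_lit 492) (nat_lit 527) (nat_lit 492) (.d (nat_lit 464) (nat_lit 463) (nat_lit 2508) (nat_lit 465) (nat_lit 2509)))))) (.a (.p (nat_lit 497) (.a (.f (nat_lit 465) (nat_lit 466) (nat_lit 2510) (.f (nat_lit 560) (nat_lit 592) (nat_lit 6608) (.d (nat_lit 433) (nat_lit 401) (nat_lit 5520) (nat_lit 464) (nat_lit 6576)))) (.a (.f (nat_lit 462) (nat_lit 461) (nat_lit 3533) (.f (nat_lit 498) (nat_lit 463) (nat_lit 3534) (.d (nat_lit 466) (nat_lit 465) (nat_lit 2510) (nat_lit 467) (nat_lit 2511)))) (.f (nat_lit 462) (nat_lit 461) (nat_lit 3533) (.f (nat_lit 463) (nat_lit 498) (nat_lit 3534) (.f (nat_lit 431) (nat_lit 399) (nat_lit 4495) (.d (nat_lit 560) (nat_lit 464) (nat_lit 7599) (nat_lit 592) (nat_lit 7631)))))))) (.a (.p (nat_lit 463) (.a (.f (nat_lit 431) (nat_lit 399) (nat_lit 4495) (.d (nat_lit 560) (nat_lit 527) (nat_lit 4527) (nat_lit 592) (nat_lit 7631))) (.a (.p (nat_lit 493) (.a (.d (nat_lit 492) (nat_lit 464) (nat_lit 2508) (nat_lit 527) (nat_lit 492)) (.a (.f (nat_lit 464) (nat_lit 465) (nat_lit 2509) (.f (nat_lit 461) (nat_lit 460) (nat_lit 3532) (.f (nat_lit 560) (nat_lit 592) (nat_lit 7631) (.f (nat_lit 559) (nat_lit 591) (nat_lit 5583) (.f (nat_lit 432) (nat_lit 527) (nat_lit 5551) (.d (nat_lit 433) (nat_lit 401) (nat_lit 6544) (nat_lit 462) (nat_lit 2477))))))) (.a (.f (nat_lit 492) (nat_lit 527) (nat_lit 492) (.d (nat_lit 524) (nat_lit 523) (nat_lit 1515) (nat_lit 525) (nat_lit 1516))) (.d (nat_lit 464) (nat_lit 465) (nat_lit 2509) (nat_lit 492) (nat_lit 2508)))))) (.a (.p (nat_lit 527) (.a (.f (nat_lit 431) (nat_lit 399) (nat_lit 4495) (.f (nat_lit 432) (nat_lit 400) (nat_lit 6543) (.f (nat_lit 464) (nat_lit 559) (nat_lit 5551) (.f (nat_lit 465) (nat_lit 466) (nat_lit 1486) (.d (nat_lit 430) (nat_lit 398) (nat_lit 7566) (nat_lit 429) (nat_lit 429)))))) (.a (.f (nat_lit 493) (nat_lit 492) (nat_lit 492) (.f (nat_lit 464) (nat_lit 465) (nat_lit 2509) (.d (nat_lit 559) (nat_lit 432) (nat_lit 6575) (nat_lit 591) (nat_lit 6607)))) (.f (nat_lit 431) (nat_lit 399) (nat_lit 4495) (.f (nat_lit 526) (nat_lit 558) (nat_lit 5550) (.f (nat_lit 525) (nat_lit 524) (nat_lit 2540) (.f (nat_lit 430) (nat_lit 398) (nat_lit 7566) (.d (nat_lit 557) (nat_lit 462) (nat_lit 5549) (nat_lit 556) (nat_lit 1548))))))))) (.f (nat_lit 431) (nat_lit 399) (nat_lit 4495) (.d (nat_lit 560) (nat_lit 464) (nat_lit 7599) (nat_lit 592) (nat_lit 7631))))))) (.a (.p (nat_lit 493) (.a (.f (nat_lit 492) (nat_lit 527) (nat_lit 492) (.d (nat_lit 524) (nat_lit 523) (nat_lit 1515) (nat_lit 525) (nat_lit 1516))) (.a (.f (nat_lit 461) (nat_lit 460) (nat_lit 3532) (.f (nat_lit 525) (nat_lit 524) (nat_lit 1516) (.d (nat_lit 497) (nat_lit 462) (nat_lit 3533) (nat_lit 526) (nat_lit 1517)))) (.f (nat_lit 492) (nat_lit 527) (nat_lit 492) (.d (nat_lit 460) (nat_lit 459) (nat_lit 3531) (nat_lit 461) (nat_lit 3532)))))) (.a (.p (nat_lit 493) (.a (.f (nat_lit 492) (nat_lit 527) (nat_lit 492) (.d (nat_lit 524) (nat_lit 523) (nat_lit 1515) (nat_lit 525) (nat_lit 1516))) (.a (.f (nat_lit 464) (nat_lit 465) (nat_lit 2509) (.f (nat_lit 463) (nat_lit 492) (nat_lit 2508) (.d (nat_lit 431) (nat_lit 399) (nat_lit 4495) (nat_lit 560) (nat_lit 7599)))) (.f (nat_lit 525) (nat_lit 524) (nat_lit 1516) (.f (nat_lit 526) (nat_lit 497) (nat_lit 1517) (.f (nat_lit 461) (nat_lit 460) (nat_lit 3532) (.d (nat_lit 429) (nat_lit 397) (nat_lit 4493) (nat_lit 558) (nat_lit 4525)))))))) (.p (nat_lit 493) (.a (.f (nat_lit 492) (nat_lit 527) (nat_lit 492) (.d (nat_lit 524) (nat_lit 523) (nat_lit 1515) (nat_lit 525) (nat_lit 1516))) (.a (.f (nat_lit 464) (nat_lit 465) (nat_lit 2509) (.f (nat_lit 463) (nat_lit 492) (nat_lit 2508) (.d (nat_lit 431) (nat_lit 399) (nat_lit 4495) (nat_lit 560) (nat_lit 7599)))) (.f (nat_lit 465) (nat_lit 464) (nat_lit 2509) (.f (nat_lit 497) (nat_lit 466) (nat_lit 2510) (.d (nat_lit 525) (nat_lit 524) (nat_lit 1516) (nat_lit 526) (nat_lit 1517)))))))))))))) (.p (nat_lit 493) (.a (.f (nat_lit 492) (nat_lit 527) (nat_lit 492) (.f (nat_lit 496) (nat_lit 529) (nat_lit 493) (.d (nat_lit 524) (nat_lit 523) (nat_lit 1515) (nat_lit 525) (nat_lit 1516)))) (.a (.f (nat_lit 492) (nat_lit 527) (nat_lit 492) (.f (nat_lit 463) (nat_lit 464) (nat_lit 2508) (.f (nat_lit 491) (nat_lit 462) (nat_lit 2507) (.d (nat_lit 523) (nat_lit 522) (nat_lit 1514) (nat_lit 524) (nat_lit 1515))))) (.a (.f (nat_lit 496) (nat_lit 529) (nat_lit 493) (.f (nat_lit 464) (nat_lit 465) (nat_lit 2509) (.f (nat_lit 463) (nat_lit 492) (nat_lit 2508) (.d (nat_lit 431) (nat_lit 399) (nat_lit 4495) (nat_lit 560) (nat_lit 7599))))) (.f (nat_lit 496) (nat_lit 529) (nat_lit 493) (.f (nat_lit 525) (nat_lit 524) (nat_lit 1516) (.f (nat_lit 497) (nat_lit 526) (nat_lit 1517) (.d (nat_lit 465) (nat_lit 464) (nat_lit 2509) (nat_lit 466) (nat_lit 2510)))))))))))))))))))) (.p (nat_lit 463) (.a (.p (nat_lit 431) (.a (.f (nat_lit 399) (nat_lit 496) (nat_lit 4495) (.f (nat_lit 527) (nat_lit 560) (nat_lit 4527) (.d (nat_lit 400) (nat_lit 368) (nat_lit 6511) (nat_lit 432) (nat_lit 6543)))) (.a (.f (nat_lit 399) (nat_lit 496) (nat_lit 4495) (.f (nat_lit 494) (nat_lit 526) (nat_lit 5518) (.f (nat_lit 367) (nat_lit 462) (nat_lit 5486) (.d (nat_lit 368) (nat_lit 336) (nat_lit 6479) (nat_lit 400) (nat_lit 6511))))) (.a (.f (nat_lit 527) (nat_lit 560) (nat_lit 4527) (.f (nat_lit 526) (nat_lit 558) (nat_lit 5550) (.f (nat_lit 494) (nat_lit 399) (nat_lit 5518) (.d (nat_lit 493) (nat_lit 492) (nat_lit 492) (nat_lit 529) (nat_lit 3565))))) (.f (nat_lit 527) (nat_lit 560) (nat_lit 4527) (.f (nat_lit 432) (nat_lit 400) (nat_lit 6543) (.f (nat_lit 430) (nat_lit 398) (nat_lit 7566) (.d (nat_lit 559) (nat_lit 462) (nat_lit 7598) (nat_lit 464) (nat_lit 6575))))))))) (.a (.p (nat_lit 431) (.a (.f (nat_lit 399) (nat_lit 496) (nat_lit 4495) (.f (nat_lit 527) (nat_lit 560) (nat_lit 4527) (.d (nat_lit 400) (nat_lit 368) (nat_lit 6511) (nat_lit 432) (nat_lit 6543)))) (.a (.f (nat_lit 399) (nat_lit 496) (nat_lit 4495) (.f (nat_lit 368) (nat_lit 400) (nat_lit 6511) (.f (nat_lit 367) (nat_lit 336) (nat_lit 6479) (.d (nat_lit 366) (nat_lit 334) (nat_lit 7502) (nat_lit 398) (nat_lit 7534))))) (.a (.f (nat_lit 527) (nat_lit 560) (nat_lit 4527) (.f (nat_lit 432) (nat_lit 400) (nat_lit 6543) (.f (nat_lit 430) (nat_lit 398) (nat_lit 7566) (.d (nat_lit 559) (nat_lit 462) (nat_lit 7598) (nat_lit 464) (nat_lit 6575))))) (.f (nat_lit 527) (nat_lit 560) (nat_lit 4527) (.f (nat_lit 496) (nat_lit 399) (nat_lit 4495) (.f (nat_lit 526) (nat_lit 558) (nat_lit 5550) (.d (nat_lit 525) (nat_lit 497) (nat_lit 2541) (nat_lit 524) (nat_lit 2540))))))))) (.a (.p (nat_lit 527) (.a (.p (nat_lit 559) (.a (.f (nat_lit 464) (nat_lit 432) (nat_lit 6575) (.f (nat_lit 496) (nat_lit 591) (nat_lit 6607) (.f (nat_lit 462) (nat_lit 430) (nat_lit 7598) (.d (nat_lit 461) (nat_lit 460) (nat_lit 460) (nat_lit 497) (nat_lit 461))))) (.f (nat_lit 558) (nat_lit 590) (nat_lit 5582) (.f (nat_lit 529) (nat_lit 530) (nat_lit 1550) (.d (nat_lit 557) (nat_lit 526) (nat_lit 1549) (nat_lit 556) (nat_lit 2572)))))) (.a (.p (nat_lit 559) (.a (.f (nat_lit 464) (nat_lit 432) (nat_lit 6575) (.f (nat_lit 496) (nat_lit 591) (nat_lit 6607) (.f (nat_lit 462) (nat_lit 430) (nat_lit 7598) (.d (nat_lit 461) (nat_lit 460) (nat_lit 460) (nat_lit 497) (nat_lit 461))))) (.a (.f (nat_lit 462) (nat_lit 430) (nat_lit 7598) (.f (nat_lit 591) (nat_lit 494) (nat_lit 7630) (.d (nat_lit 590) (nat_lit 558) (nat_lit 5582) (nat_lit 622) (nat_lit 5614)))) (.a (.f (nat_lit 464) (nat_lit 432) (nat_lit 6575) (.f (nat_lit 591) (nat_lit 496) (nat_lit 6607) (.d (nat_lit 590) (nat_lit 558) (nat_lit 5582) (nat_lit 622) (nat_lit 5614)))) (.p (nat_lit 494) (.a (.f (nat_lit 462) (nat_lit 430) (nat_lit 7598) (.f (nat_lit 464) (nat_lit 432) (nat_lit 6575) (.f (nat_lit 465) (nat_lit 466) (nat_lit 1486) (.f (nat_lit 497) (nat_lit 498) (nat_lit 462) (.f (nat_lit 496) (nat_lit 461) (nat_lit 461) (.d (nat_lit 433) (nat_lit 434) (nat_lit 2478) (nat_lit 560) (nat_lit 6576))))))) (.a (.f (nat_lit 462) (nat_lit 430) (nat_lit 7598) (.f (nat_lit 558) (nat_lit 590) (nat_lit 5582) (.f (nat_lit 557) (nat_lit 556) (nat_lit 2572) (.f (nat_lit 526) (nat_lit 589) (nat_lit 5581) (.f (nat_lit 493) (nat_lit 492) (nat_lit 492) (.f (nat_lit 461) (nat_lit 429) (nat_lit 7597) (.d (nat_lit 496) (nat_lit 460) (nat_lit 3532) (nat_lit 497) (nat_lit 3533)))))))) (.a (.f (nat_lit 464) (nat_lit 432) (nat_lit 6575) (.f (nat_lit 493) (nat_lit 492) (nat_lit 492) (.d (nat_lit 465) (nat_lit 466) (nat_lit 1486) (nat_lit 496) (nat_lit 2509)))) (.f (nat_lit 462) (nat_lit 430) (nat_lit 7598) (.f (nat_lit 493) (nat_lit 492) (nat_lit 492) (.d (nat_lit 464) (nat_lit 432) (nat_lit 6575) (nat_lit 465) (nat_lit 1485)))))))))))) (.a (.p (nat_lit 559) (.a (.f (nat_lit 558) (nat_lit 590) (nat_lit 5582) (.f (nat_lit 529) (nat_lit 530) (nat_lit 1550) (.d (nat_lit 557) (nat_lit 526) (nat_lit 1549) (nat_lit 556) (nat_lit 2572)))) (.a (.f (nat_lit 462) (nat_lit 430) (nat_lit 7598) (.f (nat_lit 591) (nat_lit 494) (nat_lit 7630) (.d (nat_lit 590) (nat_lit 558) (nat_lit 5582) (nat_lit 622) (nat_lit 5614)))) (.f (nat_lit 462) (nat_lit 430) (nat_lit 7598) (.f (nat_lit 494) (nat_lit 591) (nat_lit 7630) (.f (nat_lit 493) (nat_lit 492) (nat_lit 492) (.d (nat_lit 529) (nat_lit 526) (nat_lit 3565) (nat_lit 530) (nat_lit 3566)))))))) (.a (.p (nat_lit 529) (.a (.f (nat_lit 494) (nat_lit 530) (nat_lit 3566) (.d (nat_lit 493) (nat_lit 492) (nat_lit 492) (nat_lit 526) (nat_lit 3565))) (.a (.p (nat_lit 530) (.a (.f (nat_lit 531) (nat_lit 496) (nat_lit 3567) (.d (nat_lit 499) (nat_lit 498) (nat_lit 2543) (nat_lit 500) (nat_lit 2544))) (.a (.f (nat_lit 498) (nat_lit 499) (nat_lit 2543) (.f (nat_lit 562) (nat_lit 563) (nat_lit 527) (.f (nat_lit 497) (nat_lit 526) (nat_lit 2542) (.d (nat_lit 594) (nat_lit 465) (nat_lit 7633) (nat_lit 626) (nat_lit 7665))))) (.f (nat_lit 531) (nat_lit 496) (nat_lit 3567) (.d (nat_lit 563) (nat_lit 562) (nat_lit 527) (nat_lit 564) (nat_lit 528)))))) (.a (.p (nat_lit 526) (.a (.f (nat_lit 494) (nat_lit 493) (nat_lit 3565) (.d (nat_lit 558) (nat_lit 557) (nat_lit 1549) (nat_lit 590) (nat_lit 6606))) (.a (.f (nat_lit 497) (nat_lit 498) (nat_lit 2542) (.f (nat_lit 525) (nat_lit 496) (nat_lit 2541) (.d (nat_lit 557) (nat_lit 556) (nat_lit 1548) (nat_lit 558) (nat_lit 1549)))) (.f (nat_lit 494) (nat_lit 493) (nat_lit 3565) (.f (nat_lit 497) (nat_lit 498) (nat_lit 2542) (.f (nat_lit 496) (nat_lit 525) (nat_lit 2541) (.f (nat_lit 465) (nat_lit 466) (nat_lit 2510) (.d (nat_lit 433) (nat_lit 401) (nat_lit 5520) (nat_lit 560) (nat_lit 5552))))))))) (.f (nat_lit 530) (nat_lit 494) (nat_lit 3566) (.f (nat_lit 531) (nat_lit 496) (nat_lit 3567) (.d (nat_lit 499) (nat_lit 498) (nat_lit 2543) (nat_lit 500) (nat_lit 2544)))))))) (.a (.p (nat_lit 559) (.a (.f (nat_lit 464) (nat_lit 432) (nat_lit 6575) (.f (nat_lit 496) (nat_lit 591) (nat_lit 6607) (.f (nat_lit 462) (nat_lit 430) (nat_lit 7598) (.d (nat_lit 461) (nat_lit 460) (nat_lit 460) (nat_lit 497) (nat_lit 461))))) (.a (.f (nat_lit 462) (nat_lit 430) (nat_lit 7598) (.f (nat_lit 591) (nat_lit 494) (nat_lit 7630) (.d (nat_lit 590) (nat_lit 558) (nat_lit 5582) (nat_lit 622) (nat_lit 5614)))) (.a (.f (nat_lit 464) (nat_lit 432) (nat_lit 6575) (.f (nat_lit 591) (nat_lit 496) (nat_lit 6607) (.d (nat_lit 590) (nat_lit 558) (nat_lit 5582) (nat_lit 622) (nat_lit 5614)))) (.f (nat_lit 558) (nat_lit 590) (nat_lit 5582) (.f (nat_lit 529) (nat_lit 530) (nat_lit 1550) (.d (nat_lit 557) (nat_lit 556) (nat_lit 2572) (nat_lit 560) (nat_lit 2573)))))))) (.p (nat_lit 494) (.a (.f (nat_lit 493) (nat_lit 492) (nat_lit 492) (.d (nat_lit 529) (nat_lit 496) (nat_lit 493) (nat_lit 530) (nat_lit 3566))) (.a (.p (nat_lit 464) (.a (.f (nat_lit 493) (nat_lit 492) (nat_lit 492) (.d (nat_lit 465) (nat_lit 466) (nat_lit 1486) (nat_lit 496) (nat_lit 2509))) (.a (.f (nat_lit 559) (nat_lit 432) (nat_lit 6575) (.d (nat_lit 591) (nat_lit 462) (nat_lit 7630) (nat_lit 496) (nat_lit 6607))) (.f (nat_lit 493) (nat_lit 492) (nat_lit 2508) (.d (nat_lit 465) (nat_lit 462) (nat_lit 1485) (nat_lit 466) (nat_lit 1486)))))) (.a (.p (nat_lit 559) (.a (.d (nat_lit 462) (nat_lit 430) (nat_lit 7598) (nat_lit 591) (nat_lit 7630)) (.a (.f (nat_lit 464) (nat_lit 432) (nat_lit 6575) (.f (nat_lit 496) (nat_lit 591) (nat_lit 6607) (.f (nat_lit 465) (nat_lit 466) (nat_lit 1486) (.f (nat_lit 433) (nat_lit 560) (nat_lit 6576) (.d (nat_lit 401) (nat_lit 369) (nat_lit 5488) (nat_lit 497) (nat_lit 5520)))))) (.f (nat_lit 462) (nat_lit 430) (nat_lit 7598) (.f (nat_lit 464) (nat_lit 432) (nat_lit 6575) (.f (nat_lit 465) (nat_lit 466) (nat_lit 1486) (.f (nat_lit 497) (nat_lit 498) (nat_lit 462) (.f (nat_lit 496) (nat_lit 461) (nat_lit 461) (.d (nat_lit 433) (nat_lit 434) (nat_lit 2478) (nat_lit 560) (nat_lit 6576)))))))))) (.f (nat_lit 493) (nat_lit 492) (nat_lit 492) (.d (nat_lit 529) (nat_lit 526) (nat_lit 3565) (nat_lit 530) (nat_lit 3566))))))))))))) (.a (.p (nat_lit 496) (.a (.p (nat_lit 494) (.a (.f (nat_lit 493) (nat_lit 529) (nat_lit 493) (.d (nat_lit 464) (nat_lit 465) (nat_lit 2509) (nat_lit 492) (nat_lit 2508))) (.a (.p (nat_lit 497) (.a (.d (nat_lit 462) (nat_lit 461) (nat_lit 3533) (nat_lit 498) (nat_lit 3534)) (.a (.f (nat_lit 431) (nat_lit 399) (nat_lit 4495) (.f (nat_lit 464) (nat_lit 560) (nat_lit 7599) (.f (nat_lit 466) (nat_lit 465) (nat_lit 2510) (.d (nat_lit 498) (nat_lit 467) (nat_lit 2511) (nat_lit 499) (nat_lit 3535))))) (.f (nat_lit 431) (nat_lit 399) (nat_lit 4495) (.f (nat_lit 462) (nat_lit 461) (nat_lit 3533) (.d (nat_lit 526) (nat_lit 525) (nat_lit 1517) (nat_lit 558) (nat_lit 6574))))))) s133663))) (.a (.p (nat_lit 494) (.a (.f (nat_lit 493) (nat_lit 529) (nat_lit 493) (.d (nat_lit 464) (nat_lit 465) (nat_lit 2509) (nat_lit 492) (nat_lit 2508))) (.a (.p (nat_lit 497) (.a (.d (nat_lit 462) (nat_lit 461) (nat_lit 3533) (nat_lit 498) (nat_lit 3534)) (.f (nat_lit 465) (nat_lit 466) (nat_lit 2510) (.f (nat_lit 433) (nat_lit 401) (nat_lit 5520) (.d (nat_lit 529) (nat_lit 530) (nat_lit 494) (nat_lit 560) (nat_lit 5552)))))) (.a (.p (nat_lit 464) (.a (.d (nat_lit 493) (nat_lit 465) (nat_lit 2509) (nat_lit 492) (nat_lit 2508)) (.a (.f (nat_lit 465) (nat_lit 466) (nat_lit 1486) (.f (nat_lit 433) (nat_lit 560) (nat_lit 6576) (.d (nat_lit 401) (nat_lit 369) (nat_lit 5488) (nat_lit 432) (nat_lit 6544)))) (.f (nat_lit 493) (nat_lit 492) (nat_lit 2508) (.f (nat_lit 461) (nat_lit 460) (nat_lit 3532) (.f (nat_lit 462) (nat_lit 497) (nat_lit 461) (.f (nat_lit 525) (nat_lit 524) (nat_lit 1516) (.d (nat_lit 430) (nat_lit 398) (nat_lit 5517) (nat_lit 557) (nat_lit 6573))))))))) (.f (nat_lit 493) (nat_lit 529) (nat_lit 493) (.f (nat_lit 492) (nat_lit 464) (nat_lit 2508) (.d (nat_lit 524) (nat_lit 523) (nat_lit 1515) (nat_lit 525) (nat_lit 1516)))))))) (.a (.p (nat_lit 464) (.a (.d (nat_lit 431) (nat_lit 399) (nat_lit 4495) (nat_lit 560) (nat_lit 7599)) (.a (.p (nat_lit 465) (.a (.f (nat_lit 433) (nat_lit 560) (nat_lit 6576) (.d (nat_lit 401) (nat_lit 369) (nat_lit 5488) (nat_lit 432) (nat_lit 6544))) (.f (nat_lit 466) (nat_lit 467) (nat_lit 1487) (.f (nat_lit 498) (nat_lit 499) (nat_lit 463) (.f (nat_lit 462) (nat_lit 497) (nat_lit 462) (.f (nat_lit 461) (nat_lit 460) (nat_lit 460) (.d (nat_lit 429) (nat_lit 428) (nat_lit 3500) (nat_lit 430) (nat_lit 3501)))))))) (.p (nat_lit 432) (.a (.f (nat_lit 431) (nat_lit 399) (nat_lit 4495) (.f (nat_lit 433) (nat_lit 401) (nat_lit 6544) (.d (nat_lit 462) (nat_lit 434) (nat_lit 1454) (nat_lit 461) (nat_lit 2477)))) (.a (.f (nat_lit 400) (nat_lit 368) (nat_lit 5487) (.d (nat_lit 401) (nat_lit 369) (nat_lit 6512) (nat_lit 433) (nat_lit 6544))) (.f (nat_lit 400) (nat_lit 368) (nat_lit 5487) (.f (nat_lit 497) (nat_lit 529) (nat_lit 4496) (.d (nat_lit 462) (nat_lit 461) (nat_lit 461) (nat_lit 498) (nat_lit 3534)))))))))) (.a (.p (nat_lit 494) (.a (.f (nat_lit 431) (nat_lit 399) (nat_lit 4495) (.f (nat_lit 464) (nat_lit 560) (nat_lit 7599) (.d (nat_lit 493) (nat_lit 465) (nat_lit 2509) (nat_lit 492) (nat_lit 2508)))) (.a (.p (nat_lit 464) (.a (.d (nat_lit 493) (nat_lit 465) (nat_lit 2509) (nat_lit 492) (nat_lit 2508)) (.a (.f (nat_lit 465) (nat_lit 466) (nat_lit 1486) (.f (nat_lit 433) (nat_lit 560) (nat_lit 6576) (.d (nat_lit 401) (nat_lit 369) (nat_lit 5488) (nat_lit 432) (nat_lit 6544)))) (.f (nat_lit 493) (nat_lit 492) (nat_lit 2508) (.f (nat_lit 461) (nat_lit 460) (nat_lit 3532) (.f (nat_lit 462) (nat_lit 497) (nat_lit 461) (.f (nat_lit 525) (nat_lit 524) (nat_lit 1516) (.d (nat_lit 430) (nat_lit 398) (nat_lit 5517) (nat_lit 557) (nat_lit 6573))))))))) (.a (.p (nat_lit 497) (.a (.d (nat_lit 462) (nat_lit 461) (nat_lit 3533) (nat_lit 498) (nat_lit 3534)) (.a (.f (nat_lit 431) (nat_lit 399) (nat_lit 4495) (.f (nat_lit 464) (nat_lit 560) (nat_lit 7599) (.f (nat_lit 466) (nat_lit 465) (nat_lit 2510) (.d (nat_lit 498) (nat_lit 467) (nat_lit 2511) (nat_lit 499) (nat_lit 3535))))) (.f (nat_lit 431) (nat_lit 399) (nat_lit 4495) (.f (nat_lit 462) (nat_lit 461) (nat_lit 3533) (.d (nat_lit 526) (nat_lit 525) (nat_lit 1517) (nat_lit 558) (nat_lit 6574))))))) s133663)))) (.a (.p (nat_lit 494) (.a s133663 (.a (.p (nat_lit 497) (.a (.d (nat_lit 462) (nat_lit 461) (nat_lit 3533) (nat_lit 498) (nat_lit 3534)) (.f (nat_lit 465) (nat_lit 466) (nat_lit 2510) (.f (nat_lit 433) (nat_lit 401) (nat_lit 5520) (.d (nat_lit 529) (nat_lit 530) (nat_lit 494) (nat_lit 560) (nat_lit 5552)))))) (.a (.f (nat_lit 493) (nat_lit 529) (nat_lit 493) (.f (nat_lit 460) (nat_lit 461) (nat_lit 3532) (.f (nat_lit 492) (nat_lit 459) (nat_lit 3531) (.d (nat_lit 524) (nat_lit 523) (nat_lit 1515) (nat_lit 525) (nat_lit 1516))))) (.f (nat_lit 431) (nat_lit 399) (nat_lit 4495) (.f (nat_lit 493) (nat_lit 529) (nat_lit 493) (.f (nat_lit 525) (nat_lit 524) (nat_lit 1516) (.f (nat_lit 526) (nat_lit 497) (nat_lit 1517) (.d (nat_lit 558) (nat_lit 462) (nat_lit 6574) (nat_lit 590) (nat_lit 6606)))))))))) (.a (.p (nat_lit 464) (.a (.d (nat_lit 431) (nat_lit 399) (nat_lit 4495) (nat_lit 560) (nat_lit 7599)) (.a (.p (nat_lit 494) (.a (.d (nat_lit 493) (nat_lit 465) (nat_lit 2509) (nat_lit 492) (nat_lit 2508)) (.a (.f (nat_lit 465) (nat_lit 466) (nat_lit 1486) (.f (nat_lit 433) (nat_lit 560) (nat_lit 6576) (.d (nat_lit 401) (nat_lit 369) (nat_lit 5488) (nat_lit 432) (nat_lit 6544)))) (.d (nat_lit 493) (nat_lit 492) (nat_lit 2508) (nat_lit 529) (nat_lit 493))))) (.p (nat_lit 432) (.a (.f (nat_lit 431) (nat_lit 399) (nat_lit 4495) (.f (nat_lit 433) (nat_lit 401) (nat_lit 6544) (.d (nat_lit 462) (nat_lit 434) (nat_lit 1454) (nat_lit 461) (nat_lit 2477)))) (.a (.f (nat_lit 400) (nat_lit 368) (nat_lit 5487) (.d (nat_lit 401) (nat_lit 369) (nat_lit 6512) (nat_lit 433) (nat_lit 6544))) (.f (nat_lit 399) (nat_lit 431) (nat_lit 4495) (.d (nat_lit 400) (nat_lit 367) (nat_lit 7535) (nat_lit 368) (nat_lit 5487))))))))) (.a (.p (nat_lit 494) (.a (.f (nat_lit 493) (nat_lit 529) (nat_lit 493) (.d (nat_lit 464) (nat_lit 465) (nat_lit 2509) (nat_lit 492) (nat_lit 2508))) (.a s133712 (.a (.f (nat_lit 431) (nat_lit 399) (nat_lit 4495) (.f (nat_lit 464) (nat_lit 560) (nat_lit 7599) (.d (nat_lit 493) (nat_lit 465) (nat_lit 2509) (nat_lit 492) (nat_lit 2508)))) (.f (nat_lit 493) (nat_lit 529) (nat_lit 493) (.f (nat_lit 460) (nat_lit 461) (nat_lit 3532) (.f (nat_lit 492) (nat_lit 459) (nat_lit 3531) (.d (nat_lit 524) (nat_lit 523) (nat_lit 1515) (nat_lit 525) (nat_lit 1516))))))))) (.a (.p (nat_lit 494) (.a s133663 (.a (.f (nat_lit 493) (nat_lit 529) (nat_lit 493) (.f (nat_lit 492) (nat_lit 464) (nat_lit 2508) (.d (nat_lit 524) (nat_lit 523) (nat_lit 1515) (nat_lit 525) (nat_lit 1516)))) (.a (.p (nat_lit 497) (.a (.d (nat_lit 462) (nat_lit 461) (nat_lit 3533) (nat_lit 498) (nat_lit 3534)) (.a (.f (nat_lit 431) (nat_lit 399) (nat_lit 4495) (.f (nat_lit 464) (nat_lit 560) (nat_lit 7599) (.f (nat_lit 498) (nat_lit 499) (nat_lit 3535) (.d (nat_lit 530) (nat_lit 529) (nat_lit 494) (nat_lit 531) (nat_lit 495))))) (.f (nat_lit 431) (nat_lit 399) (nat_lit 4495) (.f (nat_lit 462) (nat_lit 461) (nat_lit 3533) (.d (nat_lit 526) (nat_lit 525) (nat_lit 1517) (nat_lit 558) (nat_lit 6574))))))) (.f (nat_lit 431) (nat_lit 399) (nat_lit 4495) (.f (nat_lit 493) (nat_lit 529) (nat_lit 493) (.d (nat_lit 464) (nat_lit 492) (nat_lit 2508) (nat_lit 560) (nat_lit 7599)))))))) (.a (.p (nat_lit 494) (.a (.f (nat_lit 493) (nat_lit 529) (nat_lit 493) (.d (nat_lit 464) (nat_lit 465) (nat_lit 2509) (nat_lit 492) (nat_lit 2508))) (.a s133712 (.a (.f (nat_lit 431) (nat_lit 399) (nat_lit 4495) (.f (nat_lit 464) (nat_lit 560) (nat_lit 7599) (.d (nat_lit 493) (nat_lit 465) (nat_lit 2509) (nat_lit 492) (nat_lit 2508)))) (.f (nat_lit 431) (nat_lit 399) (nat_lit 4495) (.f (nat_lit 493) (nat_lit 529) (nat_lit 493) (.f (nat_lit 525) (nat_lit 524) (nat_lit 1516) (.f (nat_lit 526) (nat_lit 497) (nat_lit 1517) (.d (nat_lit 558) (nat_lit 462) (nat_lit 6574) (nat_lit 590) (nat_lit 6606)))))))))) (.p (nat_lit 494) (.a (.f (nat_lit 493) (nat_lit 529) (nat_lit 493) (.d (nat_lit 464) (nat_lit 465) (nat_lit 2509) (nat_lit 492) (nat_lit 2508))) (.a (.p (nat_lit 497) (.a (.d (nat_lit 462) (nat_lit 461) (nat_lit 3533) (nat_lit 498) (nat_lit 3534)) (.f (nat_lit 465) (nat_lit 466) (nat_lit 2510) (.f (nat_lit 529) (nat_lit 530) (nat_lit 494) (.f (nat_lit 433) (nat_lit 401) (nat_lit 5520) (.f (nat_lit 432) (nat_lit 400) (nat_lit 7568) (.f (nat_lit 434) (nat_lit 402) (nat_lit 6545) (.f (nat_lit 435) (nat_lit 464) (nat_lit 1455) (.f (nat_lit 468) (nat_lit 467) (nat_lit 432) (.f (nat_lit 436) (nat_lit 469) (nat_lit 433) (.d (nat_lit 404) (nat_lit 403) (nat_lit 2448) (nat_lit 405) (nat_lit 2449)))))))))))) s133663))))))))))))) (.a (.p (nat_lit 527) (.a (.p (nat_lit 559) (.a (.f (nat_lit 558) (nat_lit 590) (nat_lit 5582) (.f (nat_lit 529) (nat_lit 530) (nat_lit 1550) (.d (nat_lit 557) (nat_lit 526) (nat_lit 1549) (nat_lit 556) (nat_lit 2572)))) (.a (.f (nat_lit 462) (nat_lit 430) (nat_lit 7598) (.f (nat_lit 591) (nat_lit 494) (nat_lit 7630) (.d (nat_lit 590) (nat_lit 558) (nat_lit 5582) (nat_lit 622) (nat_lit 5614)))) (.f (nat_lit 462) (nat_lit 430) (nat_lit 7598) (.f (nat_lit 494) (nat_lit 591) (nat_lit 7630) (.f (nat_lit 493) (nat_lit 492) (nat_lit 492) (.d (nat_lit 529) (nat_lit 526) (nat_lit 3565) (nat_lit 530) (nat_lit 3566)))))))) (.a (.f (nat_lit 431) (nat_lit 560) (nat_lit 4527) (.f (nat_lit 432) (nat_lit 400) (nat_lit 6543) (.f (nat_lit 430) (nat_lit 398) (nat_lit 7566) (.d (nat_lit 559) (nat_lit 462) (nat_lit 7598) (nat_lit 464) (nat_lit 6575))))) (.f (nat_lit 431) (nat_lit 560) (nat_lit 4527) (.f (nat_lit 526) (nat_lit 558) (nat_lit 5550) (.f (nat_lit 494) (nat_lit 399) (nat_lit 5518) (.d (nat_lit 493) (nat_lit 492) (nat_lit 492) (nat_lit 529) (nat_lit 3565)))))))) (.a (.p (nat_lit 431) (.a (.f (nat_lit 399) (nat_lit 496) (nat_lit 4495) (.f (nat_lit 527) (nat_lit 560) (nat_lit 4527) (.d (nat_lit 400) (nat_lit 368) (nat_lit 6511) (nat_lit 432) (nat_lit 6543)))) (.a (.f (nat_lit 399) (nat_lit 496) (nat_lit 4495) (.f (nat_lit 494) (nat_lit 526) (nat_lit 5518) (.f (nat_lit 367) (nat_lit 462) (nat_lit 5486) (.d (nat_lit 368) (nat_lit 336) (nat_lit 6479) (nat_lit 400) (nat_lit 6511))))) (.a (.f (nat_lit 527) (nat_lit 560) (nat_lit 4527) (.f (nat_lit 430) (nat_lit 398) (nat_lit 7566) (.f (nat_lit 462) (nat_lit 559) (nat_lit 7598) (.f (nat_lit 432) (nat_lit 400) (nat_lit 6543) (.d (nat_lit 461) (nat_lit 433) (nat_lit 1453) (nat_lit 460) (nat_lit 2476)))))) (.f (nat_lit 527) (nat_lit 560) (nat_lit 4527) (.f (nat_lit 526) (nat_lit 558) (nat_lit 5550) (.f (nat_lit 494) (nat_lit 399) (nat_lit 5518) (.d (nat_lit 493) (nat_lit 492) (nat_lit 492) (nat_lit 529) (nat_lit 3565))))))))) (.a (.p (nat_lit 431) (.a (.f (nat_lit 399) (nat_lit 496) (nat_lit 4495) (.f (nat_lit 527) (nat_lit 560) (nat_lit 4527) (.d (nat_lit 400) (nat_lit 368) (nat_lit 6511) (nat_lit 432) (nat_lit 6543)))) (.a (.f (nat_lit 399) (nat_lit 496) (nat_lit 4495) (.f (nat_lit 368) (nat_lit 400) (nat_lit 6511) (.f (nat_lit 367) (nat_lit 336) (nat_lit 6479) (.d (nat_lit 366) (nat_lit 334) (nat_lit 7502) (nat_lit 398) (nat_lit 7534))))) (.a (.f (nat_lit 527) (nat_lit 560) (nat_lit 4527) (.f (nat_lit 526) (nat_lit 558) (nat_lit 5550) (.f (nat_lit 494) (nat_lit 399) (nat_lit 5518) (.d (nat_lit 493) (nat_lit 492) (nat_lit 492) (nat_lit 529) (nat_lit 3565))))) (.f (nat_lit 527) (nat_lit 560) (nat_lit 4527) (.f (nat_lit 432) (nat_lit 400) (nat_lit 6543) (.f (nat_lit 464) (nat_lit 559) (nat_lit 6575) (.f (nat_lit 430) (nat_lit 398) (nat_lit 7566) (.d (nat_lit 429) (nat_lit 428) (nat_lit 428) (nat_lit 465) (nat_lit 429)))))))))) (.a (.p (nat_lit 431) (.a (.f (nat_lit 399) (nat_lit 496) (nat_lit 4495) (.f (nat_lit 527) (nat_lit 560) (nat_lit 4527) (.d (nat_lit 400) (nat_lit 368) (nat_lit 6511) (nat_lit 432) (nat_lit 6543)))) (.a (.f (nat_lit 399) (nat_lit 496) (nat_lit 4495) (.f (nat_lit 368) (nat_lit 400) (nat_lit 6511) (.f (nat_lit 367) (nat_lit 336) (nat_lit 6479) (.d (nat_lit 366) (nat_lit 334) (nat_lit 7502) (nat_lit 398) (nat_lit 7534))))) (.a (.f (nat_lit 527) (nat_lit 560) (nat_lit 4527) (.f (nat_lit 432) (nat_lit 400) (nat_lit 6543) (.f (nat_lit 430) (nat_lit 398) (nat_lit 7566) (.d (nat_lit 559) (nat_lit 462) (nat_lit 7598) (nat_lit 464) (nat_lit 6575))))) (.f (nat_lit 496) (nat_lit 399) (nat_lit 4495) (.d (nat_lit 560) (nat_lit 464) (nat_lit 7599) (nat_lit 527) (nat_lit 4527))))))) (.a (.p (nat_lit 431) (.a (.f (nat_lit 399) (nat_lit 496) (nat_lit 4495) (.f (nat_lit 494) (nat_lit 526) (nat_lit 5518) (.f (nat_lit 367) (nat_lit 462) (nat_lit 5486) (.d (nat_lit 368) (nat_lit 336) (nat_lit 6479) (nat_lit 400) (nat_lit 6511))))) (.a (.f (nat_lit 399) (nat_lit 496) (nat_lit 4495) (.f (nat_lit 368) (nat_lit 400) (nat_lit 6511) (.f (nat_lit 367) (nat_lit 336) (nat_lit 6479) (.d (nat_lit 366) (nat_lit 334) (nat_lit 7502) (nat_lit 398) (nat_lit 7534))))) (.a (.f (nat_lit 527) (nat_lit 560) (nat_lit 4527) (.f (nat_lit 526) (nat_lit 558) (nat_lit 5550) (.f (nat_lit 494) (nat_lit 399) (nat_lit 5518) (.d (nat_lit 493) (nat_lit 492) (nat_lit 492) (nat_lit 529) (nat_lit 3565))))) (.f (nat_lit 527) (nat_lit 560) (nat_lit 4527) (.f (nat_lit 558) (nat_lit 526) (nat_lit 5550) (.f (nat_lit 559) (nat_lit 590) (nat_lit 5582) (.d (nat_lit 430) (nat_lit 398) (nat_lit 7566) (nat_lit 462) (nat_lit 7598))))))))) (.a (.p (nat_lit 527) (.a (.p (nat_lit 559) (.a (.f (nat_lit 464) (nat_lit 432) (nat_lit 6575) (.f (nat_lit 496) (nat_lit 591) (nat_lit 6607) (.f (nat_lit 462) (nat_lit 430) (nat_lit 7598) (.d (nat_lit 461) (nat_lit 460) (nat_lit 460) (nat_lit 497) (nat_lit 461))))) (.f (nat_lit 558) (nat_lit 590) (nat_lit 5582) (.f (nat_lit 529) (nat_lit 530) (nat_lit 1550) (.d (nat_lit 557) (nat_lit 526) (nat_lit 1549) (nat_lit 556) (nat_lit 2572)))))) (.a (.p (nat_lit 431) (.a (.f (nat_lit 399) (nat_lit 496) (nat_lit 4495) (.d (nat_lit 400) (nat_lit 368) (nat_lit 6511) (nat_lit 432) (nat_lit 6543))) (.a (.f (nat_lit 430) (nat_lit 398) (nat_lit 7566) (.f (nat_lit 432) (nat_lit 400) (nat_lit 6543) (.d (nat_lit 559) (nat_lit 462) (nat_lit 7598) (nat_lit 464) (nat_lit 6575)))) (.f (nat_lit 399) (nat_lit 496) (nat_lit 4495) (.d (nat_lit 526) (nat_lit 494) (nat_lit 5518) (nat_lit 558) (nat_lit 5550)))))) (.a (.p (nat_lit 559) (.a (.f (nat_lit 558) (nat_lit 590) (nat_lit 5582) (.f (nat_lit 529) (nat_lit 530) (nat_lit 1550) (.d (nat_lit 557) (nat_lit 526) (nat_lit 1549) (nat_lit 556) (nat_lit 2572)))) (.a (.f (nat_lit 462) (nat_lit 430) (nat_lit 7598) (.f (nat_lit 591) (nat_lit 494) (nat_lit 7630) (.d (nat_lit 590) (nat_lit 558) (nat_lit 5582) (nat_lit 622) (nat_lit 5614)))) (.f (nat_lit 462) (nat_lit 430) (nat_lit 7598) (.f (nat_lit 494) (nat_lit 591) (nat_lit 7630) (.f (nat_lit 493) (nat_lit 492) (nat_lit 492) (.d (nat_lit 529) (nat_lit 526) (nat_lit 3565) (nat_lit 530) (nat_lit 3566)))))))) (.a (.p (nat_lit 494) (.a (.f (nat_lit 493) (nat_lit 492) (nat_lit 492) (.d (nat_lit 529) (nat_lit 496) (nat_lit 493) (nat_lit 530) (nat_lit 3566))) (.a (.p (nat_lit 431) (.a (.d (nat_lit 399) (nat_lit 496) (nat_lit 4495) (nat_lit 526) (nat_lit 5518)) (.a (.f (nat_lit 526) (nat_lit 558) (nat_lit 5550) (.f (nat_lit 430) (nat_lit 398) (nat_lit 7566) (.f (nat_lit 529) (nat_lit 530) (nat_lit 3566) (.f (nat_lit 497) (nat_lit 498) (nat_lit 2542) (.f (nat_lit 525) (nat_lit 496) (nat_lit 2541) (.d (nat_lit 557) (nat_lit 462) (nat_lit 5549) (nat_lit 556) (nat_lit 1548))))))) (.a (.f (nat_lit 399) (nat_lit 496) (nat_lit 4495) (.d (nat_lit 400) (nat_lit 368) (nat_lit 6511) (nat_lit 432) (nat_lit 6543))) (.d (nat_lit 526) (nat_lit 399) (nat_lit 5518) (nat_lit 558) (nat_lit 5550)))))) (.a (.p (nat_lit 496) (.a (.f (nat_lit 493) (nat_lit 492) (nat_lit 492) (.f (nat_lit 525) (nat_lit 524) (nat_lit 1516) (.f (nat_lit 526) (nat_lit 497) (nat_lit 2541) (.f (nat_lit 558) (nat_lit 590) (nat_lit 6606) (.d (nat_lit 461) (nat_lit 429) (nat_lit 4525) (nat_lit 460) (nat_lit 3532)))))) (.a (.f (nat_lit 431) (nat_lit 399) (nat_lit 4495) (.f (nat_lit 526) (nat_lit 558) (nat_lit 5550) (.d (nat_lit 497) (nat_lit 498) (nat_lit 1518) (nat_lit 525) (nat_lit 1517)))) (.f (nat_lit 493) (nat_lit 492) (nat_lit 492) (.f (nat_lit 464) (nat_lit 465) (nat_lit 2509) (.f (nat_lit 432) (nat_lit 400) (nat_lit 5519) (.f (nat_lit 461) (nat_lit 460) (nat_lit 3532) (.d (nat_lit 433) (nat_lit 401) (nat_lit 6544) (nat_lit 462) (nat_lit 2477))))))))) (.f (nat_lit 493) (nat_lit 492) (nat_lit 492) (.d (nat_lit 529) (nat_lit 526) (nat_lit 3565) (nat_lit 530) (nat_lit 3566))))))) (.a (.p (nat_lit 431) (.a (.f (nat_lit 399) (nat_lit 496) (nat_lit 4495) (.d (nat_lit 400) (nat_lit 368) (nat_lit 6511) (nat_lit 432) (nat_lit 6543))) (.a (.f (nat_lit 430) (nat_lit 398) (nat_lit 7566) (.f (nat_lit 432) (nat_lit 400) (nat_lit 6543) (.d (nat_lit 559) (nat_lit 462) (nat_lit 7598) (nat_lit 464) (nat_lit 6575)))) (.f (nat_lit 399) (nat_lit 496) (nat_lit 4495) (.d (nat_lit 398) (nat_lit 366) (nat_lit 7534) (nat_lit 430) (nat_lit 7566)))))) (.a (.p (nat_lit 431) (.a (.f (nat_lit 399) (nat_lit 496) (nat_lit 4495) (.d (nat_lit 400) (nat_lit 368) (nat_lit 6511) (nat_lit 432) (nat_lit 6543))) (.a (.f (nat_lit 526) (nat_lit 558) (nat_lit 5550) (.f (nat_lit 494) (nat_lit 399) (nat_lit 5518) (.d (nat_lit 493) (nat_lit 492) (nat_lit 492) (nat_lit 529) (nat_lit 3565)))) (.f (nat_lit 432) (nat_lit 400) (nat_lit 6543) (.f (nat_lit 464) (nat_lit 559) (nat_lit 6575) (.f (nat_lit 430) (nat_lit 398) (nat_lit 7566) (.d (nat_lit 429) (nat_lit 428) (nat_lit 428) (nat_lit 465) (nat_lit 429)))))))) (.p (nat_lit 431) (.a (.f (nat_lit 399) (nat_lit 496) (nat_lit 4495) (.d (nat_lit 400) (nat_lit 368) (nat_lit 6511) (nat_lit 432) (nat_lit 6543))) (.a (.f (nat_lit 526) (nat_lit 558) (nat_lit 5550) (.f (nat_lit 494) (nat_lit 399) (nat_lit 5518) (.d (nat_lit 493) (nat_lit 492) (nat_lit 492) (nat_lit 529) (nat_lit 3565)))) (.f (nat_lit 558) (nat_lit 526) (nat_lit 5550) (.f (nat_lit 559) (nat_lit 590) (nat_lit 5582) (.d (nat_lit 432) (nat_lit 400) (nat_lit 6543) (nat_lit 464) (nat_lit 6575)))))))))))))) (.p (nat_lit 431) (.a (.f (nat_lit 399) (nat_lit 496) (nat_lit 4495) (.f (nat_lit 527) (nat_lit 560) (nat_lit 4527) (.d (nat_lit 400) (nat_lit 368) (nat_lit 6511) (nat_lit 432) (nat_lit 6543)))) (.a (.f (nat_lit 399) (nat_lit 496) (nat_lit 4495) (.f (nat_lit 494) (nat_lit 526) (nat_lit 5518) (.f (nat_lit 367) (nat_lit 462) (nat_lit 5486) (.d (nat_lit 368) (nat_lit 336) (nat_lit 6479) (nat_lit 400) (nat_lit 6511))))) (.a (.f (nat_lit 527) (nat_lit 560) (nat_lit 4527) (.f (nat_lit 526) (nat_lit 558) (nat_lit 5550) (.f (nat_lit 494) (nat_lit 399) (nat_lit 5518) (.d (nat_lit 493) (nat_lit 492) (nat_lit 492) (nat_lit 529) (nat_lit 3565))))) (.f (nat_lit 527) (nat_lit 560) (nat_lit 4527) (.f (nat_lit 432) (nat_lit 400) (nat_lit 6543) (.f (nat_lit 559) (nat_lit 464) (nat_lit 6575) (.d (nat_lit 558) (nat_lit 526) (nat_lit 5550) (nat_lit 590) (nat_lit 5582)))))))))))))))))))))))))))))))))))))))))))))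
end Vale.Agent.Lib.P062.Full
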