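import Vale.Agent.Lib.P062.Full.K_0

set_option maxRecDepth 100000
set_option linter.all false

namespace Vale.Agent.Lib.P062.Full
open Vale.Agent.Lib.P062 Vale.Agent.Lib.P062.V2

noncomputable def s463 : Cert := .r (nat_lit 3773962428116644229104247244179581274475989964705769372444992896754966622801209580117001630196487395058966561419866074367681396487743346872425423281468229623384622759936) (.p (nat_lit 525) (.a (.d (nat_lit 493) (nat_lit 492) (nat_lit 3564) (nat_lit 494) (nat_lit 3565)) (.a (.f (nat_lit 524) (nat_lit 559) (nat_lit 524) (.d (nat_lit 492) (nat_lit 491) (nat_lit 3563) (nat_lit 493) (nat_lit 3564))) (.a (.f (nat_lit 524) (nat_lit 559) (nat_lit 524) (.f (nat_lit 491) (nat_lit 492) (nat_lit 3563) (.f (nat_lit 523) (nat_lit 490) (nat_lit 3562) (.d (nat_lit 555) (nat_lit 554) (nat_lit 1546) (nat_lit 556) (nat_lit 1547))))) (.f (nat_lit 524) (nat_lit 559) (nat_lit 524) (.f (nat_lit 494) (nat_lit 493) (nat_lit 3565) (.f (nat_lit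 523) (nat_lit 495) (nat_lit 2539) (.d (nat_lit 555) (nat_lit 554) (nat_lit 1546) (nat_lit 556) (nat_lit 1547)))))))))
noncomputable def s13969 : Cert := .r (nat_lit 3075429351738513152311891557988464161336707014464200823408719629715123346162149911350906719016331640629828747503383424400630650623873056428033164674419545604096) (.p (nat_lit 530) (.a (.f (nat_lit 495) (nat_lit 494) (nat_lit 3566) (.f (nat_lit 531) (nat_lit 496) (nat_lit 3567) (.d (nat_lit 499) (nat_lit 498) (nat_lit 2543) (nat_lit 500) (nat_lit 2544)))) (.a (.f (nat_lit 499) (nat_lit 498) (nat_lit 2543) (.f (nat_lit 531) (nat_lit 500) (nat_lit 2544) (.d (nat_lit 563) (nat_lit 562) (nat_lit 527) (nat_lit 564) (nat_lit 528)))) (.a (.f (nat_lit 498) (nat_lit 499) (nat_lit 2543) (.f (nat_lit 526) (nat_lit 497) (nat_lit 2542) (.d (nat_lit 494) (nat_lit 493) (nat_lit 3565) (nat_lit 495) (nat_lit 3566)))) (.f (nat_lit 495) (nat_lit 494) (nat_lit 3566) (.f (nat_lit 531) (nat_lit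 496) (nat_lit 3567) (.d (nat_lit 563) (nat_lit 562) (nat_lit 527) (nat_lit 564) (nat_lit 528))))))))
noncomputable def s14377 : Cert := .r (nat_lit 16209045190941378747264522569282111398454259652685483301944743458568313367990392076588979006111774107789179713591725348373559806391710671697063755444630727080615906093956692180992) (.p (nat_lit 530) (.a (.f (nat_lit 495) (nat_lit 494) (nat_lit 3566) (.f (nat_lit 560) (nat_lit 624) (nat_lit 7663) (.d (nat_lit 463) (nat_lit 431) (nat_lit 4527) (nat_lit 496) (nat_lit 7631)))) (.a (.f (nat_lit 495) (nat_lit 494) (nat_lit 3566) (.f (nat_lit 559) (nat_lit 558) (nat_lit 1550) (.f (nat_lit 591) (nat_lit 624) (nat_lit 4591) (.d (nat_lit 496) (nat_lit 464) (nat_lit 6607) (nat_lit 531) (nat_lit 3567))))) (.a (.f (nat_lit 559) (nat_lit 558) (nat_lit 1550) (.f (nat_lit 560) (nat_lit 531) (nat_lit 1551) (.d (nat_lit 495) (nat_lit 463) (nat_lit 4559) (nat_lit 494) (nat_lit 3566)))) (.f (nat_lit 559) (nat_lit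 558) (nat_lit 1550) (.f (nat_lit 560) (nat_lit 531) (nat_lit 1551) (.f (nat_lit 562) (nat_lit 563) (nat_lit 527) (.f (nat_lit 561) (nat_lit 526) (nat_lit 526) (.f (nat_lit 591) (nat_lit 590) (nat_lit 1582) (.d (nat_lit 496) (nat_lit 464) (nat_lit 5583) (nat_lit 623) (nat_lit 5615)))))))))))
noncomputable def s14381 : Cert := .r (nat_lit 16209045190941378747264522569282111398454259652685483301944743458568313367990392076588979006111774107789179713591725348373559806391710671697063755444630727080615906093956692180992) (.p (nat_lit 530) (.a (.f (nat_lit 495) (nat_lit 494) (nat_lit 3566) (.f (nat_lit 560) (nat_lit 624) (nat_lit 7663) (.d (nat_lit 463) (nat_lit 431) (nat_lit 4527) (nat_lit 496) (nat_lit 7631)))) (.a (.f (nat_lit 495) (nat_lit 494) (nat_lit 3566) (.f (nat_lit 559) (nat_lit 558) (nat_lit 1550) (.f (nat_lit 591) (nat_lit 624) (nat_lit 4591) (.d (nat_lit 496) (nat_lit 464) (nat_lit 6607) (nat_lit 531) (nat_lit 3567))))) (.a (.f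 (nat_lit 559) (nat_lit 558) (nat_lit 1550) (.f (nat_lit 560) (nat_lit 531) (nat_lit 1551) (.d (nat_lit 495) (nat_lit 463) (nat_lit 4559) (nat_lit 494) (nat_lit 3566)))) (.f (nat_lit 559) (nat_lit 558) (nat_lit 1550) (.f (nat_lit 560) (nat_lit 531) (nat_lit 1551) (.d (nat_lit 624) (nat_lit 497) (nat_lit 6640) (nat_lit 656) (nat_lit 7695))))))))
noncomputable def s14393 : Cert := .r (nat_lit 16209045190941378747264522569282111398454259652685483301944743458568313367990392076588979006111774107789179713591725348373559806391710671697063755444630727080615906093956692180992) (.p (nat_lit 526) (.a (.f (nat_lit 497) (nat_lit 498) (nat_lit 2542) (.f (nat_lit 560) (nat_lit 624) (nat_lit 6640) (.d (nat_lit 465) (nat_lit 433) (nat_lit 5552) (nat_lit 496) (nat_lit 6608)))) (.a (.f (nat_lit 497) (nat_lit 498) (nat_lit 2542) (.f (nat_lit 525) (nat_lit 496) (nat_lit 2541) (.d (nat_lit 493) (nat_lit 492) (nat_lit 3564) (nat_lit 494) (nat_lit 3565)))) (.a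 (.f (nat_lit 561) (nat_lit 562) (nat_lit 526) (.f (nat_lit 560) (nat_lit 525) (nat_lit 525) (.d (nat_lit 497) (nat_lit 465) (nat_lit 5584) (nat_lit 498) (nat_lit 2542)))) (.f (nat_lit 561) (nat_lit 562) (nat_lit 526) (.f (nat_lit 560) (nat_lit 525) (nat_lit 525) (.d (nat_lit 624) (nat_lit 495) (nat_lit 7663) (nat_lit 656) (nat_lit 6672))))))))
noncomputable def s14394 : Cert := .r (nat_lit 16209045190941378747264522569282111398454259652685483301944743458568313367990392076588979006111774107789179713591725348373559806391710671697063755444630727080615906093956692180992) (.p (nat_lit 530) (.a (.f (nat_lit 498) (nat_lit 499) (nat_lit 2543) (.f (nat_lit 562) (nat_lit 563) (nat_lit 527) (.d (nat_lit 526) (nat_lit 497) (nat_lit 2542) (nat_lit 561) (nat_lit 526)))) (.a (.f (nat_lit 559) (nat_lit 558) (nat_lit 1550) (.f (nat_lit 560) (nat_lit 531) (nat_lit 1551) (.f (nat_lit 562) (nat_lit 563) (nat_lit 527) (.f (nat_lit 561) (nat_lit 526) (nat_lit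 526) (.f (nat_lit 591) (nat_lit 590) (nat_lit 1582) (.d (nat_lit 496) (nat_lit 464) (nat_lit 5583) (nat_lit 623) (nat_lit 5615))))))) (.f (nat_lit 559) (nat_lit 558) (nat_lit 1550) (.f (nat_lit 560) (nat_lit 531) (nat_lit 1551) (.d (nat_lit 624) (nat_lit 497) (nat_lit 6640) (nat_lit 656) (nat_lit 7695)))))))
noncomputable def s14395 : Cert := .r (nat_lit 16209045190941378746825175519033752376695418001544274136039499599359141821789146415201104242374324120453335896589392256855012842462655896782687948212648861876611168283325328523264) (.p (nat_lit 527) (.a (.p (nat_lit 530) (.a (.f (nat_lit 495) (nat_lit 494) (nat_lit 3566) (.f (nat_lit 560) (nat_lit 624) (nat_lit 7663) (.d (nat_lit 463) (nat_lit 431) (nat_lit 4527) (nat_lit 496) (nat_lit 7631)))) (.f (nat_lit 498) (nat_lit 499) (nat_lit 2543) (.f (nat_lit 562) (nat_lit 563) (nat_lit 527) (.d (nat_lit 526) (nat_lit 497) (nat_lit 2542) (nat_lit 561) (nat_lit 526)))))) (.a (.p (nat_lit 530)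 (.a (.f (nat_lit 498) (nat_lit 499) (nat_lit 2543) (.f (nat_lit 562) (nat_lit 563) (nat_lit 527) (.d (nat_lit 526) (nat_lit 497) (nat_lit 2542) (nat_lit 561) (nat_lit 526)))) (.f (nat_lit 495) (nat_lit 494) (nat_lit 3566) (.f (nat_lit 559) (nat_lit 558) (nat_lit 1550) (.f (nat_lit 591) (nat_lit 624) (nat_lit 4591) (.d (nat_lit 496) (nat_lit 464) (nat_lit 6607) (nat_lit 531) (nat_lit 3567))))))) (.a (.p (nat_lit 530) (.a (.f (nat_lit 498) (nat_lit 499) (nat_lit 2543) (.f (nat_lit 562) (nat_lit 563) (nat_lit 527) (.d (nat_lit 526) (nat_lit 497) (nat_lit 2542) (nat_lit 561) (nat_lit 526)))) (.f (nat_lit 559) (nat_lit 558) (nat_lit 1550) (.f (nat_lit 560) (nat_lit 531) (nat_lit 1551) (.d (nat_lit 495) (nat_lit 463) (nat_lit 4559) (nat_lit 494) (nat_lit 3566)))))) (.a s14377 (.a s14381 (.a s14393 s14394)))))))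
noncomputable def s14413 : Cert := .r (nat_lit 16209045190941378747264522569282111398454259652685483301944743458568313367990392076588979006111774107789179713591725348373559806391710671697063755444630727080615906093956692180992) (.p (nat_lit 530) (.a (.f (nat_lit 498) (nat_lit 499) (nat_lit 2543) (.f (nat_lit 562) (nat_lit 563) (nat_lit 527) (.d (nat_lit 526) (nat_lit 497) (nat_lit 2542) (nat_lit 561) (nat_lit 526)))) (.a (.f (nat_lit 562) (nat_lit 563) (nat_lit 527) (.f (nat_lit 498) (nat_lit 499) (nat_lit 2543) (.f (nat_lit 561) (nat_lit 526) (nat_lit 526) (.d (nat_lit 466) (nat_lit 434) (nat_lit 5553) (nat_lit 593) (nat_lit 5585))))) (.a (.f (nat_lit 498) (nat_lit 499) (nat_lit 2543) (.f (nat_lit 562) (nat_lit 563) (nat_lit 527) (.f (nat_lit 497) (nat_lit 526) (nat_lit 2542) (.d (nat_lit 465) (nat_lit 433) (nat_lit 4529) (nat_lit 594) (nat_lit 7633))))) (.a (.f (nat_lit 499) (nat_lit 498) (nat_lit 2543) (.f (nat_lit 531) (nat_lit 500)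 (nat_lit 2544) (.d (nat_lit 563) (nat_lit 562) (nat_lit 527) (nat_lit 564) (nat_lit 528)))) (.a (.f (nat_lit 498) (nat_lit 499) (nat_lit 2543) (.f (nat_lit 526) (nat_lit 497) (nat_lit 2542) (.d (nat_lit 494) (nat_lit 493) (nat_lit 3565) (nat_lit 495) (nat_lit 3566)))) (.f (nat_lit 562) (nat_lit 563) (nat_lit 527) (.f (nat_lit 526) (nat_lit 561) (nat_lit 526) (.d (nat_lit 494) (nat_lit 493) (nat_lit 3565) (nat_lit 495) (nat_lit 3566))))))))))
noncomputable def s14428 : Cert := .r (nat_lit 16209045190941378747264522569282111398454259652685483301944743458568313367990392076588979006111774107789179713591725348373559806391710671697063755444630727080615906093956692180992) (.p (nat_lit 530) (.a (.f (nat_lit 495) (nat_lit 494) (nat_lit 3566) (.f (nat_lit 559) (nat_lit 558) (nat_lit 1550) (.f (nat_lit 591) (nat_lit 624) (nat_lit 4591) (.d (nat_lit 496) (nat_lit 464) (nat_lit 6607) (nat_lit 531) (nat_lit 3567))))) (.a (.f (nat_lit 499) (nat_lit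 498) (nat_lit 2543) (.f (nat_lit 531) (nat_lit 500) (nat_lit 2544) (.d (nat_lit 563) (nat_lit 562) (nat_lit 527) (nat_lit 564) (nat_lit 528)))) (.f (nat_lit 495) (nat_lit 494) (nat_lit 3566) (.f (nat_lit 559) (nat_lit 558) (nat_lit 1550) (.f (nat_lit 591) (nat_lit 624) (nat_lit 4591) (.d (nat_lit 496) (nat_lit 464) (nat_lit 6607) (nat_lit 623) (nat_lit 6639))))))))
noncomputable def s14436 : Cert := .r (nat_lit 16209045190941378747264522569282111398454259652685483301944743458568313367990392076588979006111774107789179713591725348373559806391710671697063755444630727080615906093956692180992) (.p (nat_lit 530) (.a (.f (nat_lit 498) (nat_lit 499) (nat_lit 2543) (.f (nat_lit 562) (nat_lit 563) (nat_lit 527) (.d (nat_lit 526) (nat_lit 497) (nat_lit 2542) (nat_lit 561) (nat_lit 526)))) (.a (.f (nat_lit 562) (nat_lit 563) (nat_lit 527) (.f (nat_lit 498) (nat_lit 499) (nat_lit 2543) (.f (nat_lit 561) (nat_lit 526) (nat_lit 526) (.d (nat_lit 466)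 (nat_lit 434) (nat_lit 5553) (nat_lit 593) (nat_lit 5585))))) (.a (.f (nat_lit 498) (nat_lit 499) (nat_lit 2543) (.f (nat_lit 562) (nat_lit 563) (nat_lit 527) (.f (nat_lit 497) (nat_lit 526) (nat_lit 2542) (.d (nat_lit 465) (nat_lit 433) (nat_lit 4529) (nat_lit 594) (nat_lit 7633))))) (.a (.f (nat_lit 499) (nat_lit 498) (nat_lit 2543) (.f (nat_lit 531) (nat_lit 500) (nat_lit 2544) (.d (nat_lit 563) (nat_lit 562) (nat_lit 527) (nat_lit 564) (nat_lit 528)))) (.a (.f (nat_lit 498) (nat_lit 499) (nat_lit 2543) (.f (nat_lit 526) (nat_lit 497) (nat_lit 2542) (.d (nat_lit 558) (nat_lit 557) (nat_lit 1549) (nat_lit 559) (nat_lit 1550)))) (.f (nat_lit 562) (nat_lit 563) (nat_lit 527) (.f (nat_lit 526) (nat_lit 561) (nat_lit 526) (.d (nat_lit 558) (nat_lit 557) (nat_lit 1549) (nat_lit 559) (nat_lit 1550))))))))))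
noncomputable def s14438 : Cert := .r (nat_lit 16209045190941378746825175519033752376695418001544274136039499599359141821789146415201104242374324120453335896589392256855012842462655896782687948212648861876611168283325328523264) (.p (nat_lit 527) (.a (.p (nat_lit 530) (.a (.f (nat_lit 498) (nat_lit 499) (nat_lit 2543) (.f (nat_lit 562) (nat_lit 563) (nat_lit 527) (.d (nat_lit 526) (nat_lit 497) (nat_lit 2542) (nat_lit 561) (nat_lit 526)))) (.f (nat_lit 495) (nat_lit 494) (nat_lit 3566) (.f (nat_lit 559) (nat_lit 558) (nat_lit 1550) (.f (nat_lit 591) (nat_lit 624) (nat_lit 4591) (.d (nat_lit 496) (nat_lit 464) (nat_lit 6607) (nat_lit 531) (nat_lit 3567))))))) (.a s14413 (.a (.p (nat_lit 530) (.a (.f (nat_lit 495) (nat_lit 494) (nat_lit 3566) (.f (nat_lit 559) (nat_lit 558) (nat_lit 1550) (.f (nat_lit 591) (nat_lit 624) (nat_lit 4591) (.d (nat_lit 496) (nat_lit 464) (nat_lit 6607) (nat_lit 531) (nat_lit 3567))))) (.f (nat_lit 562) (nat_lit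 563) (nat_lit 527) (.f (nat_lit 498) (nat_lit 499) (nat_lit 2543) (.f (nat_lit 561) (nat_lit 526) (nat_lit 526) (.d (nat_lit 466) (nat_lit 434) (nat_lit 5553) (nat_lit 593) (nat_lit 5585))))))) (.a (.p (nat_lit 530) (.a (.f (nat_lit 495) (nat_lit 494) (nat_lit 3566) (.f (nat_lit 559) (nat_lit 558) (nat_lit 1550) (.f (nat_lit 591) (nat_lit 624) (nat_lit 4591) (.d (nat_lit 496) (nat_lit 464) (nat_lit 6607) (nat_lit 531) (nat_lit 3567))))) (.f (nat_lit 498) (nat_lit 499) (nat_lit 2543) (.f (nat_lit 562) (nat_lit 563) (nat_lit 527) (.f (nat_lit 497) (nat_lit 526) (nat_lit 2542) (.d (nat_lit 465) (nat_lit 433) (nat_lit 4529) (nat_lit 594) (nat_lit 7633))))))) (.a (.p (nat_lit 526) (.a (.f (nat_lit 497) (nat_lit 498) (nat_lit 2542) (.f (nat_lit 525) (nat_lit 496) (nat_lit 2541) (.d (nat_lit 493) (nat_lit 492) (nat_lit 3564) (nat_lit 494) (nat_lit 3565)))) (.a (.f (nat_lit 493) (nat_lit 494) (nat_lit 3565) (.f (nat_lit 525) (nat_lit 492) (nat_lit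 3564) (.d (nat_lit 557) (nat_lit 556) (nat_lit 1548) (nat_lit 558) (nat_lit 1549)))) (.f (nat_lit 497) (nat_lit 498) (nat_lit 2542) (.f (nat_lit 561) (nat_lit 562) (nat_lit 526) (.f (nat_lit 593) (nat_lit 624) (nat_lit 5616) (.d (nat_lit 496) (nat_lit 464) (nat_lit 7632) (nat_lit 625) (nat_lit 7664)))))))) (.a s14428 (.a (.p (nat_lit 530) (.a (.f (nat_lit 495) (nat_lit 494) (nat_lit 3566) (.f (nat_lit 559) (nat_lit 558) (nat_lit 1550) (.f (nat_lit 591) (nat_lit 624) (nat_lit 4591) (.d (nat_lit 496) (nat_lit 464) (nat_lit 6607) (nat_lit 531) (nat_lit 3567))))) (.a (.f (nat_lit 498) (nat_lit 499) (nat_lit 2543) (.f (nat_lit 526) (nat_lit 497) (nat_lit 2542) (.d (nat_lit 494) (nat_lit 493) (nat_lit 3565) (nat_lit 495) (nat_lit 3566)))) (.f (nat_lit 498) (nat_lit 499) (nat_lit 2543) (.f (nat_lit 526) (nat_lit 497) (nat_lit 2542) (.d (nat_lit 558) (nat_lit 557) (nat_lit 1549) (nat_lit 559) (nat_lit 1550))))))) (.a s14436 (.p (nat_lit 530)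 (.a (.f (nat_lit 495) (nat_lit 494) (nat_lit 3566) (.f (nat_lit 559) (nat_lit 558) (nat_lit 1550) (.f (nat_lit 591) (nat_lit 624) (nat_lit 4591) (.d (nat_lit 496) (nat_lit 464) (nat_lit 6607) (nat_lit 531) (nat_lit 3567))))) (.a (.f (nat_lit 562) (nat_lit 563) (nat_lit 527) (.f (nat_lit 526) (nat_lit 561) (nat_lit 526) (.d (nat_lit 494) (nat_lit 493) (nat_lit 3565) (nat_lit 495) (nat_lit 3566)))) (.f (nat_lit 562) (nat_lit 563) (nat_lit 527) (.f (nat_lit 526) (nat_lit 561) (nat_lit 526) (.d (nat_lit 558) (nat_lit 557) (nat_lit 1549) (nat_lit 559) (nat_lit 1550))))))))))))))))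
noncomputable def s14449 : Cert := .r (nat_lit 16209045190941378746825175519033752376695418001544274136039499599359141821789146415201104242374324120453335896589392256855012842462655896782687948212648861876611168283325328523264) (.p (nat_lit 527) (.a (.p (nat_lit 530) (.a (.f (nat_lit 498) (nat_lit 499) (nat_lit 2543) (.f (nat_lit 562) (nat_lit 563) (nat_lit 527) (.d (nat_lit 526) (nat_lit 497) (nat_lit 2542) (nat_lit 561) (nat_lit 526)))) (.f (nat_lit 559) (nat_lit 558) (nat_lit 1550) (.f (nat_lit 560) (nat_lit 531) (nat_lit 1551) (.d (nat_lit 495) (nat_lit 463) (nat_lit 4559) (nat_lit 494) (nat_lit 3566)))))) (.a s14413 (.a (.p (nat_lit 530) (.a (.f (nat_lit 559) (nat_lit 558) (nat_lit 1550) (.f (nat_lit 560) (nat_lit 531) (nat_lit 1551) (.d (nat_lit 495) (nat_lit 463) (nat_lit 4559) (nat_lit 494) (nat_lit 3566)))) (.f (nat_lit 562) (nat_lit 563) (nat_lit 527) (.f (nat_lit 498) (nat_lit 499) (nat_lit 2543) (.f (nat_lit 561) (nat_lit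 526) (nat_lit 526) (.d (nat_lit 466) (nat_lit 434) (nat_lit 5553) (nat_lit 593) (nat_lit 5585))))))) (.a (.p (nat_lit 530) (.a (.f (nat_lit 559) (nat_lit 558) (nat_lit 1550) (.f (nat_lit 560) (nat_lit 531) (nat_lit 1551) (.d (nat_lit 495) (nat_lit 463) (nat_lit 4559) (nat_lit 494) (nat_lit 3566)))) (.f (nat_lit 498) (nat_lit 499) (nat_lit 2543) (.f (nat_lit 562) (nat_lit 563) (nat_lit 527) (.f (nat_lit 497) (nat_lit 526) (nat_lit 2542) (.d (nat_lit 465) (nat_lit 433) (nat_lit 4529) (nat_lit 594) (nat_lit 7633))))))) (.a (.p (nat_lit 526) (.a (.f (nat_lit 561) (nat_lit 562) (nat_lit 526) (.f (nat_lit 560) (nat_lit 525) (nat_lit 525) (.d (nat_lit 497) (nat_lit 465) (nat_lit 5584) (nat_lit 498) (nat_lit 2542)))) (.a (.f (nat_lit 493) (nat_lit 494) (nat_lit 3565) (.f (nat_lit 525) (nat_lit 492) (nat_lit 3564) (.d (nat_lit 557) (nat_lit 556) (nat_lit 1548) (nat_lit 558) (nat_lit 1549)))) (.f (nat_lit 497) (nat_lit 498) (nat_lit 2542) (.f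 (nat_lit 560) (nat_lit 624) (nat_lit 6640) (.d (nat_lit 465) (nat_lit 433) (nat_lit 5552) (nat_lit 561) (nat_lit 5584))))))) (.a (.p (nat_lit 530) (.a (.f (nat_lit 559) (nat_lit 558) (nat_lit 1550) (.f (nat_lit 560) (nat_lit 531) (nat_lit 1551) (.d (nat_lit 495) (nat_lit 463) (nat_lit 4559) (nat_lit 494) (nat_lit 3566)))) (.a (.f (nat_lit 499) (nat_lit 498) (nat_lit 2543) (.f (nat_lit 531) (nat_lit 500) (nat_lit 2544) (.d (nat_lit 563) (nat_lit 562) (nat_lit 527) (nat_lit 564) (nat_lit 528)))) (.f (nat_lit 495) (nat_lit 494) (nat_lit 3566) (.f (nat_lit 560) (nat_lit 624) (nat_lit 7663) (.d (nat_lit 463) (nat_lit 431) (nat_lit 4527) (nat_lit 559) (nat_lit 4559))))))) (.a (.p (nat_lit 530) (.a (.f (nat_lit 559) (nat_lit 558) (nat_lit 1550) (.f (nat_lit 560) (nat_lit 531) (nat_lit 1551) (.d (nat_lit 495) (nat_lit 463) (nat_lit 4559) (nat_lit 494) (nat_lit 3566)))) (.a (.f (nat_lit 498) (nat_lit 499) (nat_lit 2543) (.f (nat_lit 526) (nat_lit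 497) (nat_lit 2542) (.d (nat_lit 494) (nat_lit 493) (nat_lit 3565) (nat_lit 495) (nat_lit 3566)))) (.f (nat_lit 559) (nat_lit 558) (nat_lit 1550) (.f (nat_lit 560) (nat_lit 531) (nat_lit 1551) (.d (nat_lit 624) (nat_lit 497) (nat_lit 6640) (nat_lit 656) (nat_lit 7695))))))) (.a s14436 (.p (nat_lit 530) (.a (.f (nat_lit 559) (nat_lit 558) (nat_lit 1550) (.f (nat_lit 560) (nat_lit 531) (nat_lit 1551) (.d (nat_lit 495) (nat_lit 463) (nat_lit 4559) (nat_lit 494) (nat_lit 3566)))) (.a (.f (nat_lit 562) (nat_lit 563) (nat_lit 527) (.f (nat_lit 526) (nat_lit 561) (nat_lit 526) (.d (nat_lit 494) (nat_lit 493) (nat_lit 3565) (nat_lit 495) (nat_lit 3566)))) (.f (nat_lit 559) (nat_lit 558) (nat_lit 1550) (.f (nat_lit 560) (nat_lit 531) (nat_lit 1551) (.d (nat_lit 624) (nat_lit 497) (nat_lit 6640) (nat_lit 656) (nat_lit 7695))))))))))))))))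
noncomputable def s14479 : Cert := .r (nat_lit 16209045190941378746825175519033752376695418001544274136039499599359141821789146415201104242374324120453335896589392256855012842462655896782687948212648861876611168283325328523264) (.p (nat_lit 560) (.a (.f (nat_lit 624) (nat_lit 497) (nat_lit 6640) (.f (nat_lit 656) (nat_lit 561) (nat_lit 6672) (.d (nat_lit 655) (nat_lit 623) (nat_lit 5647) (nat_lit 687) (nat_lit 5679)))) (.a (.p (nat_lit 496) (.a (.f (nat_lit 593) (nat_lit 625) (nat_lit 4592) (.f (nat_lit 591) (nat_lit 623) (nat_lit 5615) (.d (nat_lit 464) (nat_lit 559) (nat_lit 5583) (nat_lit 561) (nat_lit 4560)))) (.a (.f (nat_lit 591) (nat_lit 623) (nat_lit 5615) (.f (nat_lit 559) (nat_lit 464) (nat_lit 5583) (.f (nat_lit 593) (nat_lit 625) (nat_lit 4592) (.d (nat_lit 558) (nat_lit 557) (nat_lit 557) (nat_lit 594) (nat_lit 3630))))) (.a (.f (nat_lit 593) (nat_lit 625) (nat_lit 4592) (.f (nat_lit 561) (nat_lit 464) (nat_lit 4560) (.f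 (nat_lit 591) (nat_lit 623) (nat_lit 5615) (.d (nat_lit 562) (nat_lit 563) (nat_lit 1583) (nat_lit 590) (nat_lit 2606))))) (.a (.f (nat_lit 495) (nat_lit 463) (nat_lit 7631) (.f (nat_lit 530) (nat_lit 531) (nat_lit 3567) (.f (nat_lit 591) (nat_lit 623) (nat_lit 5615) (.f (nat_lit 559) (nat_lit 464) (nat_lit 5583) (.d (nat_lit 558) (nat_lit 557) (nat_lit 2573) (nat_lit 561) (nat_lit 2574)))))) (.a (.f (nat_lit 593) (nat_lit 625) (nat_lit 4592) (.f (nat_lit 464) (nat_lit 561) (nat_lit 4560) (.d (nat_lit 463) (nat_lit 431) (nat_lit 7599) (nat_lit 495) (nat_lit 7631)))) (.f (nat_lit 625) (nat_lit 593) (nat_lit 4592) (.f (nat_lit 624) (nat_lit 657) (nat_lit 4624) (.d (nat_lit 623) (nat_lit 591) (nat_lit 5615) (nat_lit 655) (nat_lit 5647)))))))))) (.a (.f (nat_lit 624) (nat_lit 497) (nat_lit 6640) (.f (nat_lit 623) (nat_lit 655) (nat_lit 5647) (.f (nat_lit 625) (nat_lit 657) (nat_lit 4624) (.d (nat_lit 496) (nat_lit 591) (nat_lit 5615) (nat_lit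 593) (nat_lit 4592))))) (.a (.p (nat_lit 496) (.a (.f (nat_lit 593) (nat_lit 625) (nat_lit 4592) (.f (nat_lit 591) (nat_lit 623) (nat_lit 5615) (.d (nat_lit 464) (nat_lit 559) (nat_lit 5583) (nat_lit 561) (nat_lit 4560)))) (.a (.f (nat_lit 591) (nat_lit 623) (nat_lit 5615) (.f (nat_lit 559) (nat_lit 464) (nat_lit 5583) (.f (nat_lit 593) (nat_lit 625) (nat_lit 4592) (.d (nat_lit 558) (nat_lit 557) (nat_lit 557) (nat_lit 594) (nat_lit 3630))))) (.a (.f (nat_lit 593) (nat_lit 625) (nat_lit 4592) (.f (nat_lit 561) (nat_lit 464) (nat_lit 4560) (.f (nat_lit 591) (nat_lit 623) (nat_lit 5615) (.d (nat_lit 562) (nat_lit 563) (nat_lit 1583) (nat_lit 590) (nat_lit 2606))))) (.a (.f (nat_lit 495) (nat_lit 463) (nat_lit 7631) (.f (nat_lit 530) (nat_lit 531) (nat_lit 3567) (.f (nat_lit 591) (nat_lit 623) (nat_lit 5615) (.f (nat_lit 559) (nat_lit 464) (nat_lit 5583) (.d (nat_lit 558) (nat_lit 557) (nat_lit 2573) (nat_lit 561) (nat_lit 2574)))))) (.a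 (.f (nat_lit 593) (nat_lit 625) (nat_lit 4592) (.f (nat_lit 464) (nat_lit 561) (nat_lit 4560) (.d (nat_lit 463) (nat_lit 431) (nat_lit 7599) (nat_lit 495) (nat_lit 7631)))) (.f (nat_lit 497) (nat_lit 465) (nat_lit 6608) (.f (nat_lit 495) (nat_lit 463) (nat_lit 7631) (.d (nat_lit 494) (nat_lit 493) (nat_lit 493) (nat_lit 530) (nat_lit 494)))))))))) (.f (nat_lit 497) (nat_lit 624) (nat_lit 6640) (.d (nat_lit 465) (nat_lit 433) (nat_lit 5552) (nat_lit 496) (nat_lit 6608))))))))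
noncomputable def s14496 : Cert := .r (nat_lit 16209045190941378750339951921020624550766151210673947463281450473032514191399111706304102352273924019140086432608056989003388553895094096097694406068503783508649070768376237785088) (.p (nat_lit 531) (.a (.f (nat_lit 560) (nat_lit 559) (nat_lit 1551) (.f (nat_lit 496) (nat_lit 495) (nat_lit 3567) (.f (nat_lit 561) (nat_lit 532) (nat_lit 1552) (.d (nat_lit 593) (nat_lit 464) (nat_lit 4560) (nat_lit 625) (nat_lit 4592))))) (.a (.f (nat_lit 564) (nat_lit 563) (nat_lit 528) (.f (nat_lit 532) (nat_lit 565) (nat_lit 529) (.d (nat_lit 500) (nat_lit 499) (nat_lit 2544) (nat_lit 501) (nat_lit 2545)))) (.f (nat_lit 560) (nat_lit 559) (nat_lit 1551) (.f (nat_lit 496) (nat_lit 495) (nat_lit 3567) (.f (nat_lit 593) (nat_lit 625) (nat_lit 4592) (.f (nat_lit 561) (nat_lit 464) (nat_lit 4560) (.f (nat_lit 563) (nat_lit 564) (nat_lit 528) (.d (nat_lit 591) (nat_lit 562) (nat_lit 1583) (nat_lit 623) (nat_lit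 5615))))))))))
noncomputable def s14497 : Cert := .r (nat_lit 16209045190941378750339951921020624550766151210673947463281450473032514191399111706304102352273924019140086432608056989003388553895094096097694406068503783508649070768376237785088) (.p (nat_lit 527) (.a (.f (nat_lit 495) (nat_lit 494) (nat_lit 3566) (.f (nat_lit 560) (nat_lit 624) (nat_lit 7663) (.d (nat_lit 463) (nat_lit 431) (nat_lit 4527) (nat_lit 496) (nat_lit 7631)))) (.a (.f (nat_lit 495) (nat_lit 494) (nat_lit 3566) (.f (nat_lit 559) (nat_lit 558) (nat_lit 1550) (.f (nat_lit 591) (nat_lit 624) (nat_lit 4591) (.d (nat_lit 496) (nat_lit 464) (nat_lit 6607) (nat_lit 531) (nat_lit 3567))))) (.a (.f (nat_lit 559) (nat_lit 558) (nat_lit 1550) (.f (nat_lit 560) (nat_lit 531) (nat_lit 1551) (.d (nat_lit 495) (nat_lit 463) (nat_lit 4559) (nat_lit 494) (nat_lit 3566)))) (.f (nat_lit 499) (nat_lit 498) (nat_lit 2543) (.f (nat_lit 531) (nat_lit 500) (nat_lit 2544) (.d (nat_lit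 563) (nat_lit 562) (nat_lit 527) (nat_lit 564) (nat_lit 528))))))))
noncomputable def s14508 : Cert := .r (nat_lit 16209045190941378746825175519033752376695418001544274136039499599359141821789146415201104242374324120453335896589392256855012842462655896782687948212648861876611168283325328523264) (.p (nat_lit 530) (.a (.p (nat_lit 527) (.a (.f (nat_lit 495) (nat_lit 494) (nat_lit 3566) (.f (nat_lit 560) (nat_lit 624) (nat_lit 7663) (.d (nat_lit 463) (nat_lit 431) (nat_lit 4527) (nat_lit 496) (nat_lit 7631)))) (.a (.f (nat_lit 495) (nat_lit 494) (nat_lit 3566) (.f (nat_lit 559) (nat_lit 558) (nat_lit 1550) (.f (nat_lit 591) (nat_lit 624) (nat_lit 4591) (.d (nat_lit 496) (nat_lit 464) (nat_lit 6607) (nat_lit 531) (nat_lit 3567))))) (.a (.f (nat_lit 559) (nat_lit 558) (nat_lit 1550) (.f (nat_lit 560) (nat_lit 531) (nat_lit 1551) (.d (nat_lit 495) (nat_lit 463) (nat_lit 4559) (nat_lit 494) (nat_lit 3566)))) (.f (nat_lit 559) (nat_lit 558)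 (nat_lit 1550) (.f (nat_lit 560) (nat_lit 531) (nat_lit 1551) (.f (nat_lit 562) (nat_lit 563) (nat_lit 527) (.f (nat_lit 561) (nat_lit 526) (nat_lit 526) (.f (nat_lit 591) (nat_lit 590) (nat_lit 1582) (.d (nat_lit 496) (nat_lit 464) (nat_lit 5583) (nat_lit 623) (nat_lit 5615))))))))))) (.a (.p (nat_lit 527) (.a (.f (nat_lit 495) (nat_lit 494) (nat_lit 3566) (.f (nat_lit 559) (nat_lit 558) (nat_lit 1550) (.f (nat_lit 591) (nat_lit 624) (nat_lit 4591) (.d (nat_lit 496) (nat_lit 464) (nat_lit 6607) (nat_lit 531) (nat_lit 3567))))) (.f (nat_lit 562) (nat_lit 563) (nat_lit 527) (.f (nat_lit 498) (nat_lit 499) (nat_lit 2543) (.f (nat_lit 561) (nat_lit 526) (nat_lit 526) (.d (nat_lit 466) (nat_lit 434) (nat_lit 5553) (nat_lit 593) (nat_lit 5585))))))) (.a (.p (nat_lit 527) (.a (.f (nat_lit 559) (nat_lit 558) (nat_lit 1550) (.f (nat_lit 560) (nat_lit 531) (nat_lit 1551) (.d (nat_lit 495) (nat_lit 463) (nat_lit 4559) (nat_lit 494) (nat_lit 3566))))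 (.f (nat_lit 562) (nat_lit 563) (nat_lit 527) (.f (nat_lit 498) (nat_lit 499) (nat_lit 2543) (.f (nat_lit 561) (nat_lit 526) (nat_lit 526) (.d (nat_lit 466) (nat_lit 434) (nat_lit 5553) (nat_lit 593) (nat_lit 5585))))))) (.a s14496 (.a s14497 (.a (.p (nat_lit 527) (.a (.f (nat_lit 495) (nat_lit 494) (nat_lit 3566) (.f (nat_lit 560) (nat_lit 624) (nat_lit 7663) (.d (nat_lit 463) (nat_lit 431) (nat_lit 4527) (nat_lit 496) (nat_lit 7631)))) (.f (nat_lit 562) (nat_lit 563) (nat_lit 527) (.f (nat_lit 498) (nat_lit 499) (nat_lit 2543) (.f (nat_lit 561) (nat_lit 526) (nat_lit 526) (.d (nat_lit 466) (nat_lit 434) (nat_lit 5553) (nat_lit 593) (nat_lit 5585))))))) (.a (.p (nat_lit 527) (.a (.f (nat_lit 559) (nat_lit 558) (nat_lit 1550) (.f (nat_lit 560) (nat_lit 531) (nat_lit 1551) (.f (nat_lit 562) (nat_lit 563) (nat_lit 527) (.f (nat_lit 561) (nat_lit 526) (nat_lit 526) (.f (nat_lit 591) (nat_lit 590) (nat_lit 1582) (.d (nat_lit 496) (nat_lit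 464) (nat_lit 5583) (nat_lit 623) (nat_lit 5615))))))) (.a (.f (nat_lit 562) (nat_lit 563) (nat_lit 527) (.f (nat_lit 498) (nat_lit 499) (nat_lit 2543) (.f (nat_lit 561) (nat_lit 526) (nat_lit 526) (.d (nat_lit 466) (nat_lit 434) (nat_lit 5553) (nat_lit 593) (nat_lit 5585))))) (.a (.f (nat_lit 499) (nat_lit 498) (nat_lit 2543) (.f (nat_lit 531) (nat_lit 500) (nat_lit 2544) (.d (nat_lit 563) (nat_lit 562) (nat_lit 527) (nat_lit 564) (nat_lit 528)))) (.f (nat_lit 559) (nat_lit 558) (nat_lit 1550) (.f (nat_lit 560) (nat_lit 531) (nat_lit 1551) (.f (nat_lit 624) (nat_lit 656) (nat_lit 7695) (.f (nat_lit 623) (nat_lit 655) (nat_lit 5647) (.f (nat_lit 591) (nat_lit 496) (nat_lit 5615) (.f (nat_lit 625) (nat_lit 657) (nat_lit 4624) (.d (nat_lit 590) (nat_lit 589) (nat_lit 589) (nat_lit 626) (nat_lit 3662)))))))))))) (.p (nat_lit 527) (.a (.f (nat_lit 495) (nat_lit 494) (nat_lit 3566) (.f (nat_lit 560) (nat_lit 624) (nat_lit 7663) (.d (nat_lit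 463) (nat_lit 431) (nat_lit 4527) (nat_lit 496) (nat_lit 7631)))) (.a (.f (nat_lit 495) (nat_lit 494) (nat_lit 3566) (.f (nat_lit 559) (nat_lit 558) (nat_lit 1550) (.f (nat_lit 591) (nat_lit 624) (nat_lit 4591) (.d (nat_lit 496) (nat_lit 464) (nat_lit 6607) (nat_lit 531) (nat_lit 3567))))) (.a (.f (nat_lit 559) (nat_lit 558) (nat_lit 1550) (.f (nat_lit 560) (nat_lit 531) (nat_lit 1551) (.d (nat_lit 495) (nat_lit 463) (nat_lit 4559) (nat_lit 494) (nat_lit 3566)))) (.f (nat_lit 559) (nat_lit 558) (nat_lit 1550) (.f (nat_lit 560) (nat_lit 531) (nat_lit 1551) (.f (nat_lit 624) (nat_lit 656) (nat_lit 7695) (.f (nat_lit 623) (nat_lit 655) (nat_lit 5647) (.f (nat_lit 591) (nat_lit 496) (nat_lit 5615) (.f (nat_lit 625) (nat_lit 657) (nat_lit 4624) (.d (nat_lit 590) (nat_lit 589) (nat_lit 589) (nat_lit 626) (nat_lit 3662))))))))))))))))))))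
noncomputable def s14512 : Cert := .r (nat_lit 16209045190941378746825175519033752376695418001544274136039499599359141821789146415201104242374324120453335896589392256855012842462655896782687948212648861876611168283325328523264) (.p (nat_lit 527) (.a s14381 (.a (.p (nat_lit 530) (.a (.f (nat_lit 495) (nat_lit 494) (nat_lit 3566) (.f (nat_lit 559) (nat_lit 558) (nat_lit 1550) (.f (nat_lit 591) (nat_lit 624) (nat_lit 4591) (.d (nat_lit 496) (nat_lit 464) (nat_lit 6607) (nat_lit 531) (nat_lit 3567))))) (.f (nat_lit 498) (nat_lit 499) (nat_lit 2543) (.f (nat_lit 562) (nat_lit 563) (nat_lit 527) (.f (nat_lit 497) (nat_lit 526) (nat_lit 2542) (.d (nat_lit 465) (nat_lit 433) (nat_lit 4529) (nat_lit 594) (nat_lit 7633))))))) (.a (.p (nat_lit 530) (.a (.f (nat_lit 559) (nat_lit 558) (nat_lit 1550) (.f (nat_lit 560) (nat_lit 531) (nat_lit 1551) (.d (nat_lit 495) (nat_lit 463) (nat_lit 4559) (nat_lit 494) (nat_lit 3566)))) (.f (nat_lit 498) (nat_lit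 499) (nat_lit 2543) (.f (nat_lit 562) (nat_lit 563) (nat_lit 527) (.f (nat_lit 497) (nat_lit 526) (nat_lit 2542) (.d (nat_lit 465) (nat_lit 433) (nat_lit 4529) (nat_lit 594) (nat_lit 7633))))))) (.a s14428 (.a (.p (nat_lit 526) (.a (.f (nat_lit 497) (nat_lit 498) (nat_lit 2542) (.f (nat_lit 560) (nat_lit 624) (nat_lit 6640) (.d (nat_lit 465) (nat_lit 433) (nat_lit 5552) (nat_lit 496) (nat_lit 6608)))) (.a (.f (nat_lit 497) (nat_lit 498) (nat_lit 2542) (.f (nat_lit 525) (nat_lit 496) (nat_lit 2541) (.d (nat_lit 493) (nat_lit 492) (nat_lit 3564) (nat_lit 494) (nat_lit 3565)))) (.f (nat_lit 493) (nat_lit 494) (nat_lit 3565) (.f (nat_lit 525) (nat_lit 492) (nat_lit 3564) (.d (nat_lit 557) (nat_lit 556) (nat_lit 1548) (nat_lit 558) (nat_lit 1549))))))) (.a (.p (nat_lit 530) (.a (.f (nat_lit 495) (nat_lit 494) (nat_lit 3566) (.f (nat_lit 560) (nat_lit 624) (nat_lit 7663) (.d (nat_lit 463) (nat_lit 431) (nat_lit 4527) (nat_lit 496) (nat_lit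 7631)))) (.f (nat_lit 498) (nat_lit 499) (nat_lit 2543) (.f (nat_lit 562) (nat_lit 563) (nat_lit 527) (.f (nat_lit 497) (nat_lit 526) (nat_lit 2542) (.d (nat_lit 465) (nat_lit 433) (nat_lit 4529) (nat_lit 594) (nat_lit 7633))))))) (.p (nat_lit 530) (.a (.f (nat_lit 559) (nat_lit 558) (nat_lit 1550) (.f (nat_lit 560) (nat_lit 531) (nat_lit 1551) (.d (nat_lit 624) (nat_lit 497) (nat_lit 6640) (nat_lit 656) (nat_lit 7695)))) (.a (.f (nat_lit 498) (nat_lit 499) (nat_lit 2543) (.f (nat_lit 562) (nat_lit 563) (nat_lit 527) (.f (nat_lit 497) (nat_lit 526) (nat_lit 2542) (.d (nat_lit 465) (nat_lit 433) (nat_lit 4529) (nat_lit 594) (nat_lit 7633))))) (.f (nat_lit 499) (nat_lit 498) (nat_lit 2543) (.f (nat_lit 531) (nat_lit 500) (nat_lit 2544) (.d (nat_lit 563) (nat_lit 562) (nat_lit 527) (nat_lit 564) (nat_lit 528))))))))))))))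
noncomputable def s14516 : Cert := .r (nat_lit 16209045194715341171646716871275306957683686892461195356455940027735348122034770577593253094460450845630994664130860631885776687362426481412612740845210296128043864326974723850240) (.p (nat_lit 496) (.a (.f (nat_lit 593) (nat_lit 625) (nat_lit 4592) (.f (nat_lit 591) (nat_lit 623) (nat_lit 5615) (.d (nat_lit 464) (nat_lit 559) (nat_lit 5583) (nat_lit 561) (nat_lit 4560)))) (.a (.f (nat_lit 591) (nat_lit 623) (nat_lit 5615) (.f (nat_lit 559) (nat_lit 464) (nat_lit 5583) (.f (nat_lit 593) (nat_lit 625) (nat_lit 4592) (.d (nat_lit 558) (nat_lit 557) (nat_lit 557) (nat_lit 594) (nat_lit 3630))))) (.a (.f (nat_lit 593) (nat_lit 625) (nat_lit 4592) (.f (nat_lit 561) (nat_lit 464) (nat_lit 4560) (.f (nat_lit 591) (nat_lit 623) (nat_lit 5615) (.d (nat_lit 562) (nat_lit 563) (nat_lit 1583) (nat_lit 590) (nat_lit 2606))))) (.a (.f (nat_lit 495) (nat_lit 463) (nat_lit 7631) (.f (nat_lit 624) (nat_lit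 527) (nat_lit 7663) (.d (nat_lit 623) (nat_lit 591) (nat_lit 5615) (nat_lit 655) (nat_lit 5647)))) (.f (nat_lit 593) (nat_lit 625) (nat_lit 4592) (.f (nat_lit 464) (nat_lit 561) (nat_lit 4560) (.d (nat_lit 463) (nat_lit 431) (nat_lit 7599) (nat_lit 495) (nat_lit 7631)))))))))
noncomputable def s14522 : Cert := .r (nat_lit 16209045194715341171646716871275306957683686892461195356455940027735348122034770577593253094460450845630994664130860631885776687362426481412612740845210296128043864326974723850240) (.p (nat_lit 496) (.a (.f (nat_lit 593) (nat_lit 625) (nat_lit 4592) (.f (nat_lit 591) (nat_lit 623) (nat_lit 5615) (.d (nat_lit 464) (nat_lit 559) (nat_lit 5583) (nat_lit 561) (nat_lit 4560)))) (.a (.f (nat_lit 591) (nat_lit 623) (nat_lit 5615) (.f (nat_lit 559) (nat_lit 464) (nat_lit 5583) (.f (nat_lit 593) (nat_lit 625) (nat_lit 4592) (.d (nat_lit 558) (nat_lit 557) (nat_lit 557) (nat_lit 594) (nat_lit 3630))))) (.a (.f (nat_lit 593) (nat_lit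 625) (nat_lit 4592) (.f (nat_lit 561) (nat_lit 464) (nat_lit 4560) (.f (nat_lit 591) (nat_lit 623) (nat_lit 5615) (.d (nat_lit 562) (nat_lit 563) (nat_lit 1583) (nat_lit 590) (nat_lit 2606))))) (.a (.f (nat_lit 497) (nat_lit 465) (nat_lit 6608) (.f (nat_lit 495) (nat_lit 463) (nat_lit 7631) (.f (nat_lit 494) (nat_lit 493) (nat_lit 493) (.f (nat_lit 526) (nat_lit 525) (nat_lit 1517) (.f (nat_lit 527) (nat_lit 498) (nat_lit 2542) (.f (nat_lit 591) (nat_lit 623) (nat_lit 5615) (.d (nat_lit 462) (nat_lit 461) (nat_lit 3533) (nat_lit 559) (nat_lit 7630)))))))) (.f (nat_lit 593) (nat_lit 625) (nat_lit 4592) (.f (nat_lit 464) (nat_lit 561) (nat_lit 4560) (.d (nat_lit 463) (nat_lit 431) (nat_lit 7599) (nat_lit 495) (nat_lit 7631)))))))))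
noncomputable def s14523 : Cert := .r (nat_lit 16209045190941378746825175519033752376695418001544274136039499599359141821789146415201104242374324120453335896589392256855012842462655896782687948212648861876611168283325328523264) (.p (nat_lit 560) (.a (.f (nat_lit 624) (nat_lit 497) (nat_lit 6640) (.f (nat_lit 656) (nat_lit 561) (nat_lit 6672) (.d (nat_lit 655) (nat_lit 623) (nat_lit 5647) (nat_lit 687) (nat_lit 5679)))) (.a s14516 (.a (.f (nat_lit 624) (nat_lit 497) (nat_lit 6640) (.f (nat_lit 623) (nat_lit 655) (nat_lit 5647) (.f (nat_lit 625) (nat_lit 657) (nat_lit 4624) (.d (nat_lit 496) (nat_lit 591) (nat_lit 5615) (nat_lit 593) (nat_lit 4592))))) (.a s14522 (.f (nat_lit 497) (nat_lit 624) (nat_lit 6640) (.d (nat_lit 465) (nat_lit 433) (nat_lit 5552) (nat_lit 496) (nat_lit 6608))))))))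
noncomputable def s14535 : Cert := .r (nat_lit 16209045190941378747264522569282111398454259652685483301944743458568313367990392076588979006111774107789179713591725348373559806391710671697063755444630727080615906093956692180992) (.p (nat_lit 530) (.a (.f (nat_lit 498) (nat_lit 499) (nat_lit 2543) (.f (nat_lit 562) (nat_lit 563) (nat_lit 527) (.d (nat_lit 526) (nat_lit 497) (nat_lit 2542) (nat_lit 561) (nat_lit 526)))) (.a (.f (nat_lit 562) (nat_lit 563) (nat_lit 527) (.f (nat_lit 498) (nat_lit 499) (nat_lit 2543) (.f (nat_lit 561) (nat_lit 526) (nat_lit 526) (.d (nat_lit 466) (nat_lit 434) (nat_lit 5553) (nat_lit 593) (nat_lit 5585))))) (.a (.f (nat_lit 498) (nat_lit 499) (nat_lit 2543) (.f (nat_lit 562) (nat_lit 563) (nat_lit 527) (.f (nat_lit 497) (nat_lit 526) (nat_lit 2542) (.d (nat_lit 465) (nat_lit 433) (nat_lit 4529) (nat_lit 594) (nat_lit 7633))))) (.a (.f (nat_lit 499) (nat_lit 498) (nat_lit 2543) (.f (nat_lit 531) (nat_lit 500)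 (nat_lit 2544) (.d (nat_lit 563) (nat_lit 562) (nat_lit 527) (nat_lit 564) (nat_lit 528)))) (.a (.f (nat_lit 498) (nat_lit 499) (nat_lit 2543) (.f (nat_lit 497) (nat_lit 526) (nat_lit 2542) (.f (nat_lit 560) (nat_lit 624) (nat_lit 6640) (.d (nat_lit 465) (nat_lit 433) (nat_lit 5552) (nat_lit 496) (nat_lit 6608))))) (.f (nat_lit 562) (nat_lit 563) (nat_lit 527) (.f (nat_lit 526) (nat_lit 561) (nat_lit 526) (.f (nat_lit 557) (nat_lit 558) (nat_lit 1549) (.f (nat_lit 525) (nat_lit 556) (nat_lit 1548) (.f (nat_lit 496) (nat_lit 497) (nat_lit 2541) (.d (nat_lit 495) (nat_lit 524) (nat_lit 2540) (nat_lit 531) (nat_lit 3567)))))))))))))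
noncomputable def s14542 : Cert := .r (nat_lit 16209045190941378746825175519033752376695418001544274136039499599359141821789146415201104242374324120453335896589392256855012842462655896782687948212648861876611168283325328523264) (.p (nat_lit 527) (.a (.p (nat_lit 530) (.a (.f (nat_lit 495) (nat_lit 494) (nat_lit 3566) (.f (nat_lit 560) (nat_lit 624) (nat_lit 7663) (.d (nat_lit 463) (nat_lit 431) (nat_lit 4527) (nat_lit 496) (nat_lit 7631)))) (.f (nat_lit 498) (nat_lit 499) (nat_lit 2543) (.f (nat_lit 562) (nat_lit 563) (nat_lit 527) (.d (nat_lit 526) (nat_lit 497) (nat_lit 2542) (nat_lit 561) (nat_lit 526)))))) (.a s14413 (.a (.p (nat_lit 530) (.a (.f (nat_lit 495) (nat_lit 494) (nat_lit 3566) (.f (nat_lit 560) (nat_lit 624) (nat_lit 7663) (.d (nat_lit 463) (nat_lit 431) (nat_lit 4527) (nat_lit 496) (nat_lit 7631)))) (.f (nat_lit 562) (nat_lit 563) (nat_lit 527) (.f (nat_lit 498) (nat_lit 499) (nat_lit 2543) (.f (nat_lit 561) (nat_lit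 526) (nat_lit 526) (.d (nat_lit 466) (nat_lit 434) (nat_lit 5553) (nat_lit 593) (nat_lit 5585))))))) (.a (.p (nat_lit 526) (.a (.f (nat_lit 497) (nat_lit 498) (nat_lit 2542) (.f (nat_lit 560) (nat_lit 624) (nat_lit 6640) (.d (nat_lit 465) (nat_lit 433) (nat_lit 5552) (nat_lit 496) (nat_lit 6608)))) (.a (.f (nat_lit 497) (nat_lit 498) (nat_lit 2542) (.f (nat_lit 525) (nat_lit 496) (nat_lit 2541) (.d (nat_lit 493) (nat_lit 492) (nat_lit 3564) (nat_lit 494) (nat_lit 3565)))) (.f (nat_lit 493) (nat_lit 494) (nat_lit 3565) (.f (nat_lit 525) (nat_lit 492) (nat_lit 3564) (.d (nat_lit 557) (nat_lit 556) (nat_lit 1548) (nat_lit 558) (nat_lit 1549))))))) (.a (.p (nat_lit 530) (.a (.f (nat_lit 495) (nat_lit 494) (nat_lit 3566) (.f (nat_lit 560) (nat_lit 624) (nat_lit 7663) (.d (nat_lit 463) (nat_lit 431) (nat_lit 4527) (nat_lit 496) (nat_lit 7631)))) (.f (nat_lit 499) (nat_lit 498) (nat_lit 2543) (.f (nat_lit 531) (nat_lit 500) (nat_lit 2544) (.d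 (nat_lit 563) (nat_lit 562) (nat_lit 527) (nat_lit 564) (nat_lit 528)))))) (.a s14535 (.p (nat_lit 530) (.a (.f (nat_lit 495) (nat_lit 494) (nat_lit 3566) (.f (nat_lit 560) (nat_lit 624) (nat_lit 7663) (.d (nat_lit 463) (nat_lit 431) (nat_lit 4527) (nat_lit 496) (nat_lit 7631)))) (.a (.f (nat_lit 562) (nat_lit 563) (nat_lit 527) (.f (nat_lit 526) (nat_lit 561) (nat_lit 526) (.d (nat_lit 494) (nat_lit 493) (nat_lit 3565) (nat_lit 495) (nat_lit 3566)))) (.a (.f (nat_lit 562) (nat_lit 563) (nat_lit 527) (.f (nat_lit 526) (nat_lit 561) (nat_lit 526) (.f (nat_lit 493) (nat_lit 494) (nat_lit 3565) (.f (nat_lit 525) (nat_lit 492) (nat_lit 3564) (.d (nat_lit 557) (nat_lit 556) (nat_lit 1548) (nat_lit 558) (nat_lit 1549)))))) (.f (nat_lit 562) (nat_lit 563) (nat_lit 527) (.f (nat_lit 526) (nat_lit 561) (nat_lit 526) (.f (nat_lit 557) (nat_lit 558) (nat_lit 1549) (.f (nat_lit 525) (nat_lit 556) (nat_lit 1548) (.f (nat_lit 496) (nat_lit 497) (nat_lit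 2541) (.d (nat_lit 495) (nat_lit 524) (nat_lit 2540) (nat_lit 531) (nat_lit 3567))))))))))))))))))
noncomputable def s14543 : Cert := .r (nat_lit 16209045190941378747264522569282111398454259652685483301944743458568313367990392076588979006111774107789179713591725348373559806391710671697063755444630727080615906093956692180992) (.p (nat_lit 530) (.a (.f (nat_lit 559) (nat_lit 558) (nat_lit 1550) (.f (nat_lit 560) (nat_lit 531) (nat_lit 1551) (.f (nat_lit 562) (nat_lit 563) (nat_lit 527) (.f (nat_lit 561) (nat_lit 526) (nat_lit 526) (.f (nat_lit 591) (nat_lit 590) (nat_lit 1582) (.d (nat_lit 496) (nat_lit 464) (nat_lit 5583) (nat_lit 623) (nat_lit 5615))))))) (.a (.f (nat_lit 562) (nat_lit 563) (nat_lit 527) (.f (nat_lit 498) (nat_lit 499) (nat_lit 2543) (.f (nat_lit 561) (nat_lit 526) (nat_lit 526) (.d (nat_lit 466) (nat_lit 434) (nat_lit 5553) (nat_lit 593) (nat_lit 5585))))) (.a (.f (nat_lit 499) (nat_lit 498) (nat_lit 2543) (.f (nat_lit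 531) (nat_lit 500) (nat_lit 2544) (.d (nat_lit 563) (nat_lit 562) (nat_lit 527) (nat_lit 564) (nat_lit 528)))) (.f (nat_lit 559) (nat_lit 558) (nat_lit 1550) (.f (nat_lit 560) (nat_lit 531) (nat_lit 1551) (.f (nat_lit 624) (nat_lit 656) (nat_lit 7695) (.f (nat_lit 623) (nat_lit 655) (nat_lit 5647) (.f (nat_lit 591) (nat_lit 496) (nat_lit 5615) (.f (nat_lit 625) (nat_lit 657) (nat_lit 4624) (.d (nat_lit 590) (nat_lit 589) (nat_lit 589) (nat_lit 626) (nat_lit 3662))))))))))))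
noncomputable def s14575 : Cert := .r (nat_lit 48627135572824136235642709004369307890738995842079521583160816346776538457153736970336690326011022500665725702742512763861021924168365166289929965086146068385781388933030985334784) (.p (nat_lit 530) (.a (.f (nat_lit 498) (nat_lit 499) (nat_lit 2543) (.f (nat_lit 561) (nat_lit 625) (nat_lit 6641) (.d (nat_lit 466) (nat_lit 434) (nat_lit 5553) (nat_lit 497) (nat_lit 6609)))) (.a (.f (nat_lit 562) (nat_lit 563) (nat_lit 527) (.f (nat_lit 498) (nat_lit 499) (nat_lit 2543) (.d (nat_lit 561) (nat_lit 466) (nat_lit 5585) (nat_lit 625) (nat_lit 6641)))) (.a (.f (nat_lit 499) (nat_lit 498) (nat_lit 2543) (.f (nat_lit 531) (nat_lit 500) (nat_lit 2544) (.d (nat_lit 563) (nat_lit 562) (nat_lit 527) (nat_lit 564) (nat_lit 528)))) (.f (nat_lit 559) (nat_lit 558) (nat_lit 1550) (.f (nat_lit 560) (nat_lit 531) (nat_lit 1551) (.d (nat_lit 624) (nat_lit 497) (nat_lit 6640) (nat_lit 656) (nat_lit 7695))))))))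
noncomputable def s14594 : Cert := .r (nat_lit 48627135572824136235642709004369307890738995842079521583160816346776538457153736970336690326011022500665725702742512763861021924168365166289929965086146068385781388933030985334784) (.p (nat_lit 560) (.a (.f (nat_lit 624) (nat_lit 497) (nat_lit 6640) (.d (nat_lit 625) (nat_lit 496) (nat_lit 4592) (nat_lit 657) (nat_lit 4624))) (.a (.f (nat_lit 624) (nat_lit 497) (nat_lit 6640) (.f (nat_lit 559) (nat_lit 656) (nat_lit 7695) (.d (nat_lit 530) (nat_lit 531) (nat_lit 1551) (nat_lit 558) (nat_lit 1550)))) (.a (.f (nat_lit 625) (nat_lit 496) (nat_lit 4592) (.d (nat_lit 657) (nat_lit 624) (nat_lit 4624) (nat_lit 689) (nat_lit 7728))) (.f (nat_lit 496) (nat_lit 625) (nat_lit 4592) (.f (nat_lit 591) (nat_lit 623) (nat_lit 5615) (.f (nat_lit 559) (nat_lit 464) (nat_lit 5583) (.d (nat_lit 530) (nat_lit 531) (nat_lit 1551) (nat_lit 558) (nat_lit 1550)))))))))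
noncomputable def s14600 : Cert := .r (nat_lit 48627135572824136235642709004369307890738995842079521583160816346776538457153736970336690326011022500665725702742512763861021924168365166289929965086146068385781388933030985334784) (.p (nat_lit 530) (.a (.f (nat_lit 499) (nat_lit 498) (nat_lit 2543) (.f (nat_lit 531) (nat_lit 500) (nat_lit 2544) (.d (nat_lit 563) (nat_lit 562) (nat_lit 527) (nat_lit 564) (nat_lit 528)))) (.a (.f (nat_lit 562) (nat_lit 563) (nat_lit 527) (.f (nat_lit 498) (nat_lit 499) (nat_lit 2543) (.f (nat_lit 561) (nat_lit 466) (nat_lit 5585) (.f (nat_lit 497) (nat_lit 624) (nat_lit 5616) (.d (nat_lit 465) (nat_lit 433) (nat_lit 4529) (nat_lit 560) (nat_lit 5584)))))) (.f (nat_lit 559) (nat_lit 558) (nat_lit 1550) (.f (nat_lit 560) (nat_lit 531) (nat_lit 1551) (.d (nat_lit 624) (nat_lit 497) (nat_lit 6640) (nat_lit 656) (nat_lit 7695)))))))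
noncomputable def s14601 : Cert := .r (nat_lit 16209045190941378747264522569282111398454259652685483301944743458568313367990392076588979006111774107789179713591725348373559806391710671697063755444630727080615906093956692180992) (.p (nat_lit 593) (.a (.p (nat_lit 560) (.a (.f (nat_lit 624) (nat_lit 497) (nat_lit 6640) (.d (nat_lit 625) (nat_lit 496) (nat_lit 4592) (nat_lit 657) (nat_lit 4624))) (.a (.f (nat_lit 624) (nat_lit 497) (nat_lit 6640) (.d (nat_lit 656) (nat_lit 559) (nat_lit 7695) (nat_lit 561) (nat_lit 6672))) (.a (.f (nat_lit 625) (nat_lit 496) (nat_lit 4592) (.d (nat_lit 657) (nat_lit 561) (nat_lit 7696) (nat_lit 624) (nat_lit 4624))) (.f (nat_lit 496) (nat_lit 625) (nat_lit 4592) (.f (nat_lit 561) (nat_lit 464) (nat_lit 4560) (.f (nat_lit 497) (nat_lit 465) (nat_lit 6608) (.d (nat_lit 498) (nat_lit 466) (nat_lit 6609) (nat_lit 499) (nat_lit 1519))))))))) (.a (.p (nat_lit 561) (.a (.f (nat_lit 625) (nat_lit 496) (nat_lit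 7664) (.d (nat_lit 624) (nat_lit 497) (nat_lit 5616) (nat_lit 656) (nat_lit 5648))) (.a (.f (nat_lit 497) (nat_lit 624) (nat_lit 5616) (.f (nat_lit 498) (nat_lit 466) (nat_lit 6609) (.d (nat_lit 499) (nat_lit 500) (nat_lit 1520) (nat_lit 530) (nat_lit 2543)))) (.f (nat_lit 625) (nat_lit 496) (nat_lit 7664) (.f (nat_lit 530) (nat_lit 498) (nat_lit 6641) (.d (nat_lit 562) (nat_lit 563) (nat_lit 527) (nat_lit 657) (nat_lit 6673))))))) (.a s14575 (.a (.p (nat_lit 530) (.a (.f (nat_lit 562) (nat_lit 563) (nat_lit 527) (.f (nat_lit 498) (nat_lit 499) (nat_lit 2543) (.d (nat_lit 561) (nat_lit 466) (nat_lit 5585) (nat_lit 625) (nat_lit 6641)))) (.a (.f (nat_lit 499) (nat_lit 498) (nat_lit 2543) (.f (nat_lit 531) (nat_lit 500) (nat_lit 2544) (.d (nat_lit 563) (nat_lit 562) (nat_lit 527) (nat_lit 564) (nat_lit 528)))) (.a (.f (nat_lit 559) (nat_lit 558) (nat_lit 1550) (.f (nat_lit 560) (nat_lit 531) (nat_lit 1551) (.f (nat_lit 625) (nat_lit 496)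 (nat_lit 4592) (.d (nat_lit 498) (nat_lit 499) (nat_lit 2543) (nat_lit 561) (nat_lit 6641))))) (.f (nat_lit 559) (nat_lit 558) (nat_lit 1550) (.f (nat_lit 560) (nat_lit 531) (nat_lit 1551) (.f (nat_lit 496) (nat_lit 625) (nat_lit 4592) (.d (nat_lit 464) (nat_lit 561) (nat_lit 4560) (nat_lit 591) (nat_lit 5583))))))))) (.a s14594 s14600))))))
noncomputable def s14609 : Cert := .r (nat_lit 16209045190941378747264522569282111398454259652685483301944743458568313367990392076588979006111774107789179713591725348373559806391710671697063755444630727080615906093956692180992) (.p (nat_lit 530) (.a (.f (nat_lit 498) (nat_lit 499) (nat_lit 2543) (.f (nat_lit 562) (nat_lit 563) (nat_lit 527) (.d (nat_lit 526) (nat_lit 497) (nat_lit 2542) (nat_lit 561) (nat_lit 526)))) (.a (.f (nat_lit 562) (nat_lit 563) (nat_lit 527) (.f (nat_lit 498) (nat_lit 499) (nat_lit 2543) (.f (nat_lit 561) (nat_lit 526) (nat_lit 526) (.d (nat_lit 466) (nat_lit 434) (nat_lit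 5553) (nat_lit 593) (nat_lit 5585))))) (.a (.f (nat_lit 498) (nat_lit 499) (nat_lit 2543) (.f (nat_lit 562) (nat_lit 563) (nat_lit 527) (.f (nat_lit 497) (nat_lit 526) (nat_lit 2542) (.d (nat_lit 465) (nat_lit 433) (nat_lit 4529) (nat_lit 594) (nat_lit 7633))))) (.a (.f (nat_lit 499) (nat_lit 498) (nat_lit 2543) (.f (nat_lit 531) (nat_lit 500) (nat_lit 2544) (.d (nat_lit 563) (nat_lit 562) (nat_lit 527) (nat_lit 564) (nat_lit 528)))) (.a (.f (nat_lit 498) (nat_lit 499) (nat_lit 2543) (.f (nat_lit 497) (nat_lit 526) (nat_lit 2542) (.f (nat_lit 560) (nat_lit 624) (nat_lit 6640) (.d (nat_lit 465) (nat_lit 433) (nat_lit 5552) (nat_lit 496) (nat_lit 6608))))) (.f (nat_lit 562) (nat_lit 563) (nat_lit 527) (.f (nat_lit 526) (nat_lit 561) (nat_lit 526) (.f (nat_lit 493) (nat_lit 494) (nat_lit 3565) (.f (nat_lit 525) (nat_lit 492) (nat_lit 3564) (.f (nat_lit 497) (nat_lit 496) (nat_lit 2541) (.f (nat_lit 560) (nat_lit 624) (nat_lit 6640) (.d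 (nat_lit 559) (nat_lit 524) (nat_lit 524) (nat_lit 531) (nat_lit 1551))))))))))))))
noncomputable def s14610 : Cert := .r (nat_lit 16209045190941378747264522569282111398454259652685483301944743458568313367990392076588979006111774107789179713591725348373559806391710671697063755444630727080615906093956692180992) (.p (nat_lit 530) (.a (.f (nat_lit 559) (nat_lit 558) (nat_lit 1550) (.f (nat_lit 560) (nat_lit 531) (nat_lit 1551) (.f (nat_lit 562) (nat_lit 563) (nat_lit 527) (.f (nat_lit 561) (nat_lit 526) (nat_lit 526) (.f (nat_lit 591) (nat_lit 590) (nat_lit 1582) (.d (nat_lit 496) (nat_lit 464) (nat_lit 5583) (nat_lit 623) (nat_lit 5615))))))) (.a (.f (nat_lit 562) (nat_lit 563) (nat_lit 527) (.f (nat_lit 526) (nat_lit 561) (nat_lit 526) (.d (nat_lit 558) (nat_lit 557) (nat_lit 1549) (nat_lit 559) (nat_lit 1550)))) (.a (.f (nat_lit 559) (nat_lit 558) (nat_lit 1550) (.f (nat_lit 560) (nat_lit 531) (nat_lit 1551) (.d (nat_lit 624) (nat_lit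 497) (nat_lit 6640) (nat_lit 656) (nat_lit 7695)))) (.a (.f (nat_lit 562) (nat_lit 563) (nat_lit 527) (.f (nat_lit 526) (nat_lit 561) (nat_lit 526) (.f (nat_lit 493) (nat_lit 494) (nat_lit 3565) (.f (nat_lit 525) (nat_lit 492) (nat_lit 3564) (.d (nat_lit 557) (nat_lit 556) (nat_lit 1548) (nat_lit 558) (nat_lit 1549)))))) (.f (nat_lit 562) (nat_lit 563) (nat_lit 527) (.f (nat_lit 526) (nat_lit 561) (nat_lit 526) (.f (nat_lit 493) (nat_lit 494) (nat_lit 3565) (.f (nat_lit 525) (nat_lit 492) (nat_lit 3564) (.f (nat_lit 497) (nat_lit 496) (nat_lit 2541) (.f (nat_lit 560) (nat_lit 624) (nat_lit 6640) (.d (nat_lit 559) (nat_lit 524) (nat_lit 524) (nat_lit 531) (nat_lit 1551)))))))))))))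
noncomputable def s14612 : Cert := .r (nat_lit 16209045190941378747264522569282111398454259652685483301944743458568313367990392076588979006111774107789179713591725348373559806391710671697063755444630727080615906093956692180992) (.p (nat_lit 530) (.a (.f (nat_lit 495) (nat_lit 494) (nat_lit 3566) (.f (nat_lit 560) (nat_lit 624) (nat_lit 7663) (.d (nat_lit 463) (nat_lit 431) (nat_lit 4527) (nat_lit 496) (nat_lit 7631)))) (.a (.f (nat_lit 495) (nat_lit 494) (nat_lit 3566) (.f (nat_lit 559) (nat_lit 558) (nat_lit 1550) (.f (nat_lit 591) (nat_lit 624) (nat_lit 4591) (.d (nat_lit 496) (nat_lit 464) (nat_lit 6607) (nat_lit 531) (nat_lit 3567))))) (.a (.f (nat_lit 559) (nat_lit 558) (nat_lit 1550) (.f (nat_lit 560) (nat_lit 531) (nat_lit 1551) (.d (nat_lit 495) (nat_lit 463) (nat_lit 4559) (nat_lit 494) (nat_lit 3566)))) (.f (nat_lit 559) (nat_lit 558) (nat_lit 1550) (.f (nat_lit 560) (nat_lit 531) (nat_lit 1551) (.f (nat_lit 624) (nat_lit 656)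 (nat_lit 7695) (.f (nat_lit 623) (nat_lit 655) (nat_lit 5647) (.f (nat_lit 591) (nat_lit 496) (nat_lit 5615) (.f (nat_lit 625) (nat_lit 657) (nat_lit 4624) (.d (nat_lit 590) (nat_lit 589) (nat_lit 589) (nat_lit 626) (nat_lit 3662))))))))))))
noncomputable def s14615 : Cert := .r (nat_lit 16209045190941378747264522569282111398454259652685483301944743458568313367990392076588979006111774107789179713591725348373559806391710671697063755444630727080615906093956692180992) (.p (nat_lit 530) (.a (.f (nat_lit 559) (nat_lit 558) (nat_lit 1550) (.f (nat_lit 560) (nat_lit 531) (nat_lit 1551) (.d (nat_lit 624) (nat_lit 497) (nat_lit 6640) (nat_lit 656) (nat_lit 7695)))) (.a (.f (nat_lit 498) (nat_lit 499) (nat_lit 2543) (.f (nat_lit 526) (nat_lit 497) (nat_lit 2542) (.d (nat_lit 558) (nat_lit 557) (nat_lit 1549) (nat_lit 559) (nat_lit 1550)))) (.a (.f (nat_lit 559) (nat_lit 558) (nat_lit 1550) (.f (nat_lit 560) (nat_lit 531) (nat_lit 1551) (.f (nat_lit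 624) (nat_lit 656) (nat_lit 7695) (.f (nat_lit 623) (nat_lit 655) (nat_lit 5647) (.f (nat_lit 591) (nat_lit 496) (nat_lit 5615) (.f (nat_lit 625) (nat_lit 657) (nat_lit 4624) (.d (nat_lit 590) (nat_lit 589) (nat_lit 589) (nat_lit 626) (nat_lit 3662)))))))) (.f (nat_lit 498) (nat_lit 499) (nat_lit 2543) (.f (nat_lit 497) (nat_lit 526) (nat_lit 2542) (.f (nat_lit 560) (nat_lit 624) (nat_lit 6640) (.d (nat_lit 465) (nat_lit 433) (nat_lit 5552) (nat_lit 496) (nat_lit 6608)))))))))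
noncomputable def s14616 : Cert := .r (nat_lit 16209045190941378746825175519033752376695418001544274136039499599359141821789146415201104242374324120453335896589392256855012842462655896782687948212648861876611168283325328523264) (.p (nat_lit 527) (.a s14381 (.a (.p (nat_lit 530) (.a (.f (nat_lit 495) (nat_lit 494) (nat_lit 3566) (.f (nat_lit 559) (nat_lit 558) (nat_lit 1550) (.f (nat_lit 591) (nat_lit 624) (nat_lit 4591) (.d (nat_lit 496) (nat_lit 464) (nat_lit 6607) (nat_lit 531) (nat_lit 3567))))) (.a (.f (nat_lit 498) (nat_lit 499) (nat_lit 2543) (.f (nat_lit 526) (nat_lit 497) (nat_lit 2542) (.d (nat_lit 494) (nat_lit 493) (nat_lit 3565) (nat_lit 495) (nat_lit 3566)))) (.f (nat_lit 498) (nat_lit 499) (nat_lit 2543) (.f (nat_lit 526) (nat_lit 497) (nat_lit 2542) (.d (nat_lit 558) (nat_lit 557) (nat_lit 1549) (nat_lit 559) (nat_lit 1550))))))) (.a (.p (nat_lit 530) (.a (.f (nat_lit 559) (nat_lit 558) (nat_lit 1550) (.f (nat_lit 560)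 (nat_lit 531) (nat_lit 1551) (.d (nat_lit 495) (nat_lit 463) (nat_lit 4559) (nat_lit 494) (nat_lit 3566)))) (.a (.f (nat_lit 498) (nat_lit 499) (nat_lit 2543) (.f (nat_lit 526) (nat_lit 497) (nat_lit 2542) (.d (nat_lit 494) (nat_lit 493) (nat_lit 3565) (nat_lit 495) (nat_lit 3566)))) (.f (nat_lit 559) (nat_lit 558) (nat_lit 1550) (.f (nat_lit 560) (nat_lit 531) (nat_lit 1551) (.d (nat_lit 624) (nat_lit 497) (nat_lit 6640) (nat_lit 656) (nat_lit 7695))))))) (.a s14612 (.a (.p (nat_lit 526) (.a (.f (nat_lit 497) (nat_lit 498) (nat_lit 2542) (.f (nat_lit 560) (nat_lit 624) (nat_lit 6640) (.d (nat_lit 465) (nat_lit 433) (nat_lit 5552) (nat_lit 496) (nat_lit 6608)))) (.a (.f (nat_lit 497) (nat_lit 498) (nat_lit 2542) (.f (nat_lit 525) (nat_lit 496) (nat_lit 2541) (.d (nat_lit 493) (nat_lit 492) (nat_lit 3564) (nat_lit 494) (nat_lit 3565)))) (.f (nat_lit 493) (nat_lit 494) (nat_lit 3565) (.f (nat_lit 525) (nat_lit 492) (nat_lit 3564) (.d (nat_lit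 557) (nat_lit 556) (nat_lit 1548) (nat_lit 558) (nat_lit 1549))))))) (.a (.p (nat_lit 530) (.a (.f (nat_lit 559) (nat_lit 558) (nat_lit 1550) (.f (nat_lit 560) (nat_lit 531) (nat_lit 1551) (.d (nat_lit 495) (nat_lit 463) (nat_lit 4559) (nat_lit 494) (nat_lit 3566)))) (.a (.f (nat_lit 498) (nat_lit 499) (nat_lit 2543) (.f (nat_lit 526) (nat_lit 497) (nat_lit 2542) (.d (nat_lit 494) (nat_lit 493) (nat_lit 3565) (nat_lit 495) (nat_lit 3566)))) (.f (nat_lit 498) (nat_lit 499) (nat_lit 2543) (.f (nat_lit 526) (nat_lit 497) (nat_lit 2542) (.d (nat_lit 558) (nat_lit 557) (nat_lit 1549) (nat_lit 559) (nat_lit 1550))))))) (.a (.p (nat_lit 530) (.a (.f (nat_lit 495) (nat_lit 494) (nat_lit 3566) (.f (nat_lit 560) (nat_lit 624) (nat_lit 7663) (.d (nat_lit 463) (nat_lit 431) (nat_lit 4527) (nat_lit 496) (nat_lit 7631)))) (.a (.f (nat_lit 498) (nat_lit 499) (nat_lit 2543) (.f (nat_lit 526) (nat_lit 497) (nat_lit 2542) (.d (nat_lit 494) (nat_lit 493)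 (nat_lit 3565) (nat_lit 495) (nat_lit 3566)))) (.f (nat_lit 498) (nat_lit 499) (nat_lit 2543) (.f (nat_lit 497) (nat_lit 526) (nat_lit 2542) (.f (nat_lit 560) (nat_lit 624) (nat_lit 6640) (.d (nat_lit 465) (nat_lit 433) (nat_lit 5552) (nat_lit 496) (nat_lit 6608)))))))) s14615))))))))
noncomputable def s14625 : Cert := .r (nat_lit 16209045190941378747264522569282111398454259652685483301944743458568313367990392076588979006111774107789179713591725348373559806391710671697063755444630727080615906093956692180992) (.p (nat_lit 526) (.a (.f (nat_lit 497) (nat_lit 498) (nat_lit 2542) (.f (nat_lit 525) (nat_lit 496) (nat_lit 2541) (.d (nat_lit 493) (nat_lit 492) (nat_lit 3564) (nat_lit 494) (nat_lit 3565)))) (.a (.f (nat_lit 561) (nat_lit 562) (nat_lit 526) (.f (nat_lit 560) (nat_lit 525) (nat_lit 525) (.d (nat_lit 497) (nat_lit 465) (nat_lit 5584) (nat_lit 498) (nat_lit 2542)))) (.a (.f (nat_lit 493) (nat_lit 494) (nat_lit 3565) (.f (nat_lit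 525) (nat_lit 492) (nat_lit 3564) (.d (nat_lit 557) (nat_lit 556) (nat_lit 1548) (nat_lit 558) (nat_lit 1549)))) (.f (nat_lit 497) (nat_lit 498) (nat_lit 2542) (.f (nat_lit 561) (nat_lit 562) (nat_lit 526) (.f (nat_lit 465) (nat_lit 560) (nat_lit 5584) (.f (nat_lit 494) (nat_lit 493) (nat_lit 3565) (.f (nat_lit 558) (nat_lit 557) (nat_lit 1549) (.f (nat_lit 466) (nat_lit 434) (nat_lit 6577) (.f (nat_lit 495) (nat_lit 496) (nat_lit 2510) (.d (nat_lit 463) (nat_lit 431) (nat_lit 5550) (nat_lit 464) (nat_lit 1486)))))))))))))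
noncomputable def s14634 : Cert := .r (nat_lit 16209045190941378747264522569282111398454259652685483301944743458568313367990392076588979006111774107789179713591725348373559806391710671697063755444630727080615906093956692180992) (.p (nat_lit 530) (.a (.f (nat_lit 559) (nat_lit 558) (nat_lit 1550) (.f (nat_lit 560) (nat_lit 531) (nat_lit 1551) (.d (nat_lit 495) (nat_lit 463) (nat_lit 4559) (nat_lit 494) (nat_lit 3566)))) (.a (.f (nat_lit 499) (nat_lit 498) (nat_lit 2543) (.f (nat_lit 531) (nat_lit 500) (nat_lit 2544) (.d (nat_lit 563) (nat_lit 562) (nat_lit 527) (nat_lit 564) (nat_lit 528)))) (.f (nat_lit 495) (nat_lit 494) (nat_lit 3566) (.f (nat_lit 559) (nat_lit 558) (nat_lit 1550) (.f (nat_lit 463) (nat_lit 560) (nat_lit 4559) (.f (nat_lit 498) (nat_lit 499) (nat_lit 2543) (.f (nat_lit 562) (nat_lit 563) (nat_lit 527) (.f (nat_lit 462) (nat_lit 430) (nat_lit 7598) (.f (nat_lit 497) (nat_lit 496) (nat_lit 3534) (.d (nat_lit 465) (nat_lit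 433) (nat_lit 4529) (nat_lit 464) (nat_lit 462))))))))))))
noncomputable def s14635 : Cert := .r (nat_lit 16209045190941378747264522569282111398454259652685483301944743458568313367990392076588979006111774107789179713591725348373559806391710671697063755444630727080615906093956692180992) (.p (nat_lit 530) (.a (.f (nat_lit 559) (nat_lit 558) (nat_lit 1550) (.f (nat_lit 560) (nat_lit 531) (nat_lit 1551) (.d (nat_lit 495) (nat_lit 463) (nat_lit 4559) (nat_lit 494) (nat_lit 3566)))) (.a (.f (nat_lit 562) (nat_lit 563) (nat_lit 527) (.f (nat_lit 526) (nat_lit 561) (nat_lit 526) (.d (nat_lit 494) (nat_lit 493) (nat_lit 3565) (nat_lit 495) (nat_lit 3566)))) (.f (nat_lit 559) (nat_lit 558) (nat_lit 1550) (.f (nat_lit 560) (nat_lit 531) (nat_lit 1551) (.f (nat_lit 562) (nat_lit 563) (nat_lit 527) (.f (nat_lit 561) (nat_lit 526) (nat_lit 526) (.f (nat_lit 591) (nat_lit 590) (nat_lit 1582) (.d (nat_lit 496) (nat_lit 464) (nat_lit 5583) (nat_lit 623)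 (nat_lit 5615))))))))))
noncomputable def s14636 : Cert := .r (nat_lit 16209045190941378746825175519033752376695418001544274136039499599359141821789146415201104242374324120453335896589392256855012842462655896782687948212648861876611168283325328523264) (.p (nat_lit 527) (.a (.p (nat_lit 530) (.a (.f (nat_lit 498) (nat_lit 499) (nat_lit 2543) (.f (nat_lit 562) (nat_lit 563) (nat_lit 527) (.d (nat_lit 526) (nat_lit 497) (nat_lit 2542) (nat_lit 561) (nat_lit 526)))) (.f (nat_lit 559) (nat_lit 558) (nat_lit 1550) (.f (nat_lit 560) (nat_lit 531) (nat_lit 1551) (.d (nat_lit 495) (nat_lit 463) (nat_lit 4559) (nat_lit 494) (nat_lit 3566)))))) (.a s14413 (.a (.p (nat_lit 530) (.a (.f (nat_lit 559) (nat_lit 558) (nat_lit 1550) (.f (nat_lit 560) (nat_lit 531) (nat_lit 1551) (.d (nat_lit 495) (nat_lit 463) (nat_lit 4559) (nat_lit 494) (nat_lit 3566)))) (.f (nat_lit 562) (nat_lit 563) (nat_lit 527) (.f (nat_lit 498) (nat_lit 499) (nat_lit 2543) (.f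 (nat_lit 561) (nat_lit 526) (nat_lit 526) (.d (nat_lit 466) (nat_lit 434) (nat_lit 5553) (nat_lit 593) (nat_lit 5585))))))) (.a (.p (nat_lit 530) (.a (.f (nat_lit 559) (nat_lit 558) (nat_lit 1550) (.f (nat_lit 560) (nat_lit 531) (nat_lit 1551) (.d (nat_lit 495) (nat_lit 463) (nat_lit 4559) (nat_lit 494) (nat_lit 3566)))) (.f (nat_lit 498) (nat_lit 499) (nat_lit 2543) (.f (nat_lit 562) (nat_lit 563) (nat_lit 527) (.f (nat_lit 497) (nat_lit 526) (nat_lit 2542) (.d (nat_lit 465) (nat_lit 433) (nat_lit 4529) (nat_lit 594) (nat_lit 7633))))))) (.a s14625 (.a s14634 (.a s14436 (.a (.p (nat_lit 530) (.a (.f (nat_lit 559) (nat_lit 558) (nat_lit 1550) (.f (nat_lit 560) (nat_lit 531) (nat_lit 1551) (.d (nat_lit 495) (nat_lit 463) (nat_lit 4559) (nat_lit 494) (nat_lit 3566)))) (.a (.f (nat_lit 498) (nat_lit 499) (nat_lit 2543) (.f (nat_lit 526) (nat_lit 497) (nat_lit 2542) (.d (nat_lit 494) (nat_lit 493) (nat_lit 3565) (nat_lit 495) (nat_lit 3566))))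 (.f (nat_lit 498) (nat_lit 499) (nat_lit 2543) (.f (nat_lit 526) (nat_lit 497) (nat_lit 2542) (.d (nat_lit 558) (nat_lit 557) (nat_lit 1549) (nat_lit 559) (nat_lit 1550))))))) s14635)))))))))
noncomputable def s14641 : Cert := .r (nat_lit 16209045190941378747264522569282111398454259652685483301944743458568313367990392076588979006111774107789179713591725348373559806391710671697063755444630727080615906093956692180992) (.p (nat_lit 530) (.a (.f (nat_lit 498) (nat_lit 499) (nat_lit 2543) (.f (nat_lit 562) (nat_lit 563) (nat_lit 527) (.d (nat_lit 526) (nat_lit 497) (nat_lit 2542) (nat_lit 561) (nat_lit 526)))) (.a (.f (nat_lit 562) (nat_lit 563) (nat_lit 527) (.f (nat_lit 498) (nat_lit 499) (nat_lit 2543) (.f (nat_lit 561) (nat_lit 526) (nat_lit 526) (.d (nat_lit 466) (nat_lit 434) (nat_lit 5553) (nat_lit 593) (nat_lit 5585))))) (.a (.f (nat_lit 498) (nat_lit 499) (nat_lit 2543) (.f (nat_lit 562) (nat_lit 563) (nat_lit 527) (.f (nat_lit 497)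 (nat_lit 526) (nat_lit 2542) (.d (nat_lit 465) (nat_lit 433) (nat_lit 4529) (nat_lit 594) (nat_lit 7633))))) (.a (.f (nat_lit 499) (nat_lit 498) (nat_lit 2543) (.f (nat_lit 531) (nat_lit 500) (nat_lit 2544) (.d (nat_lit 563) (nat_lit 562) (nat_lit 527) (nat_lit 564) (nat_lit 528)))) (.a (.f (nat_lit 498) (nat_lit 499) (nat_lit 2543) (.f (nat_lit 497) (nat_lit 526) (nat_lit 2542) (.f (nat_lit 560) (nat_lit 624) (nat_lit 6640) (.d (nat_lit 465) (nat_lit 433) (nat_lit 5552) (nat_lit 496) (nat_lit 6608))))) (.f (nat_lit 563) (nat_lit 562) (nat_lit 527) (.f (nat_lit 531) (nat_lit 564) (nat_lit 528) (.f (nat_lit 560) (nat_lit 559) (nat_lit 1551) (.d (nat_lit 495) (nat_lit 496) (nat_lit 3567) (nat_lit 624) (nat_lit 7663)))))))))))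
noncomputable def s14643 : Cert := .r (nat_lit 16209045190941378746825175519033752376695418001544274136039499599359141821789146415201104242374324120453335896589392256855012842462655896782687948212648861876611168283325328523264) (.p (nat_lit 527) (.a (.p (nat_lit 530) (.a (.f (nat_lit 495) (nat_lit 494) (nat_lit 3566) (.f (nat_lit 560) (nat_lit 624) (nat_lit 7663) (.d (nat_lit 463) (nat_lit 431) (nat_lit 4527) (nat_lit 496) (nat_lit 7631)))) (.f (nat_lit 498) (nat_lit 499) (nat_lit 2543) (.f (nat_lit 562) (nat_lit 563) (nat_lit 527) (.d (nat_lit 526) (nat_lit 497) (nat_lit 2542) (nat_lit 561) (nat_lit 526)))))) (.a s14413 (.a (.p (nat_lit 530) (.a (.f (nat_lit 495) (nat_lit 494) (nat_lit 3566) (.f (nat_lit 560) (nat_lit 624) (nat_lit 7663) (.d (nat_lit 463) (nat_lit 431) (nat_lit 4527) (nat_lit 496) (nat_lit 7631)))) (.f (nat_lit 562) (nat_lit 563) (nat_lit 527) (.f (nat_lit 498) (nat_lit 499) (nat_lit 2543) (.f (nat_lit 561) (nat_lit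 526) (nat_lit 526) (.d (nat_lit 466) (nat_lit 434) (nat_lit 5553) (nat_lit 593) (nat_lit 5585))))))) (.a (.p (nat_lit 530) (.a (.f (nat_lit 495) (nat_lit 494) (nat_lit 3566) (.f (nat_lit 560) (nat_lit 624) (nat_lit 7663) (.d (nat_lit 463) (nat_lit 431) (nat_lit 4527) (nat_lit 496) (nat_lit 7631)))) (.f (nat_lit 498) (nat_lit 499) (nat_lit 2543) (.f (nat_lit 562) (nat_lit 563) (nat_lit 527) (.f (nat_lit 497) (nat_lit 526) (nat_lit 2542) (.d (nat_lit 465) (nat_lit 433) (nat_lit 4529) (nat_lit 594) (nat_lit 7633))))))) (.a s14393 (.a (.p (nat_lit 530) (.a (.f (nat_lit 495) (nat_lit 494) (nat_lit 3566) (.f (nat_lit 560) (nat_lit 624) (nat_lit 7663) (.d (nat_lit 463) (nat_lit 431) (nat_lit 4527) (nat_lit 496) (nat_lit 7631)))) (.f (nat_lit 499) (nat_lit 498) (nat_lit 2543) (.f (nat_lit 531) (nat_lit 500) (nat_lit 2544) (.d (nat_lit 563) (nat_lit 562) (nat_lit 527) (nat_lit 564) (nat_lit 528)))))) (.a s14609 (.a (.p (nat_lit 530) (.a (.f (nat_lit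 495) (nat_lit 494) (nat_lit 3566) (.f (nat_lit 560) (nat_lit 624) (nat_lit 7663) (.d (nat_lit 463) (nat_lit 431) (nat_lit 4527) (nat_lit 496) (nat_lit 7631)))) (.a (.f (nat_lit 498) (nat_lit 499) (nat_lit 2543) (.f (nat_lit 526) (nat_lit 497) (nat_lit 2542) (.d (nat_lit 494) (nat_lit 493) (nat_lit 3565) (nat_lit 495) (nat_lit 3566)))) (.f (nat_lit 498) (nat_lit 499) (nat_lit 2543) (.f (nat_lit 497) (nat_lit 526) (nat_lit 2542) (.f (nat_lit 560) (nat_lit 624) (nat_lit 6640) (.d (nat_lit 465) (nat_lit 433) (nat_lit 5552) (nat_lit 496) (nat_lit 6608)))))))) (.a s14641 (.p (nat_lit 530) (.a (.f (nat_lit 495) (nat_lit 494) (nat_lit 3566) (.f (nat_lit 560) (nat_lit 624) (nat_lit 7663) (.d (nat_lit 463) (nat_lit 431) (nat_lit 4527) (nat_lit 496) (nat_lit 7631)))) (.a (.f (nat_lit 562) (nat_lit 563) (nat_lit 527) (.f (nat_lit 526) (nat_lit 561) (nat_lit 526) (.d (nat_lit 494) (nat_lit 493) (nat_lit 3565) (nat_lit 495) (nat_lit 3566)))) (.a (.f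 (nat_lit 562) (nat_lit 563) (nat_lit 527) (.f (nat_lit 526) (nat_lit 561) (nat_lit 526) (.f (nat_lit 493) (nat_lit 494) (nat_lit 3565) (.f (nat_lit 525) (nat_lit 492) (nat_lit 3564) (.f (nat_lit 497) (nat_lit 496) (nat_lit 2541) (.f (nat_lit 560) (nat_lit 624) (nat_lit 6640) (.d (nat_lit 559) (nat_lit 524) (nat_lit 524) (nat_lit 531) (nat_lit 1551)))))))) (.f (nat_lit 563) (nat_lit 562) (nat_lit 527) (.f (nat_lit 531) (nat_lit 564) (nat_lit 528) (.f (nat_lit 560) (nat_lit 559) (nat_lit 1551) (.d (nat_lit 495) (nat_lit 496) (nat_lit 3567) (nat_lit 624) (nat_lit 7663)))))))))))))))))))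
noncomputable def s14644 : Cert := .r (nat_lit 16209045190941378747264522569282111398454259652685483301944743458568313367990392076588979006111774107789179713591725348373559806391710671697063755444630727080615906093956692180992) (.p (nat_lit 526) (.a (.f (nat_lit 497) (nat_lit 498) (nat_lit 2542) (.f (nat_lit 560) (nat_lit 624) (nat_lit 6640) (.d (nat_lit 465) (nat_lit 433) (nat_lit 5552) (nat_lit 496) (nat_lit 6608)))) (.a (.f (nat_lit 497) (nat_lit 498) (nat_lit 2542) (.f (nat_lit 561) (nat_lit 562) (nat_lit 526) (.f (nat_lit 593) (nat_lit 624) (nat_lit 5616) (.d (nat_lit 496) (nat_lit 464) (nat_lit 7632) (nat_lit 625) (nat_lit 7664))))) (.a (.f (nat_lit 561) (nat_lit 562) (nat_lit 526) (.f (nat_lit 560) (nat_lit 525) (nat_lit 525) (.d (nat_lit 497) (nat_lit 465) (nat_lit 5584) (nat_lit 498) (nat_lit 2542)))) (.f (nat_lit 561) (nat_lit 562) (nat_lit 526) (.f (nat_lit 560) (nat_lit 525) (nat_lit 525) (.d (nat_lit 624) (nat_lit 495) (nat_lit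 7663) (nat_lit 656) (nat_lit 6672))))))))
noncomputable def s14645 : Cert := .r (nat_lit 16209045190941378747264522569282111398454259652685483301944743458568313367990392076588979006111774107789179713591725348373559806391710671697063755444630727080615906093956692180992) (.p (nat_lit 530) (.a (.f (nat_lit 559) (nat_lit 558) (nat_lit 1550) (.f (nat_lit 560) (nat_lit 531) (nat_lit 1551) (.f (nat_lit 562) (nat_lit 563) (nat_lit 527) (.f (nat_lit 561) (nat_lit 526) (nat_lit 526) (.f (nat_lit 591) (nat_lit 590) (nat_lit 1582) (.d (nat_lit 496) (nat_lit 464) (nat_lit 5583) (nat_lit 623) (nat_lit 5615))))))) (.a (.f (nat_lit 562) (nat_lit 563) (nat_lit 527) (.f (nat_lit 526) (nat_lit 561) (nat_lit 526) (.d (nat_lit 558) (nat_lit 557) (nat_lit 1549) (nat_lit 559) (nat_lit 1550)))) (.a (.f (nat_lit 559) (nat_lit 558) (nat_lit 1550) (.f (nat_lit 560) (nat_lit 531) (nat_lit 1551) (.d (nat_lit 624) (nat_lit 497) (nat_lit 6640) (nat_lit 656) (nat_lit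 7695)))) (.a (.f (nat_lit 562) (nat_lit 563) (nat_lit 527) (.f (nat_lit 526) (nat_lit 561) (nat_lit 526) (.f (nat_lit 557) (nat_lit 558) (nat_lit 1549) (.f (nat_lit 525) (nat_lit 556) (nat_lit 1548) (.f (nat_lit 496) (nat_lit 497) (nat_lit 2541) (.d (nat_lit 495) (nat_lit 524) (nat_lit 2540) (nat_lit 531) (nat_lit 3567))))))) (.f (nat_lit 563) (nat_lit 562) (nat_lit 527) (.f (nat_lit 531) (nat_lit 564) (nat_lit 528) (.f (nat_lit 560) (nat_lit 559) (nat_lit 1551) (.d (nat_lit 495) (nat_lit 496) (nat_lit 3567) (nat_lit 624) (nat_lit 7663))))))))))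
noncomputable def s14646 : Cert := .r (nat_lit 16209045190941378746825175519033752376695418001544274136039499599359141821789146415201104242374324120453335896589392256855012842462655896782687948212648861876611168283325328523264) (.p (nat_lit 527) (.a s14394 (.a s14436 (.a s14543 (.a (.p (nat_lit 530) (.a (.f (nat_lit 559) (nat_lit 558) (nat_lit 1550) (.f (nat_lit 560) (nat_lit 531) (nat_lit 1551) (.d (nat_lit 624) (nat_lit 497) (nat_lit 6640) (nat_lit 656) (nat_lit 7695)))) (.a (.f (nat_lit 498) (nat_lit 499) (nat_lit 2543) (.f (nat_lit 562) (nat_lit 563) (nat_lit 527) (.f (nat_lit 497) (nat_lit 526) (nat_lit 2542) (.d (nat_lit 465) (nat_lit 433) (nat_lit 4529) (nat_lit 594) (nat_lit 7633))))) (.f (nat_lit 499) (nat_lit 498) (nat_lit 2543) (.f (nat_lit 531) (nat_lit 500) (nat_lit 2544) (.d (nat_lit 563) (nat_lit 562) (nat_lit 527) (nat_lit 564) (nat_lit 528))))))) (.a s14644 (.a s14601 (.a s14615 s14645))))))))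
noncomputable def s14673 : Cert := .r (nat_lit 3075429351738513152311891557988464161336707014464200823408719629715123346162149911350906719016331640629828747503383424400630650623873056428033164674419545604096) (.p (nat_lit 526) (.a (.f (nat_lit 493) (nat_lit 494) (nat_lit 3565) (.f (nat_lit 525) (nat_lit 492) (nat_lit 3564) (.d (nat_lit 497) (nat_lit 496) (nat_lit 2541) (nat_lit 498) (nat_lit 2542)))) (.a (.f (nat_lit 493) (nat_lit 494) (nat_lit 3565) (.f (nat_lit 525) (nat_lit 492) (nat_lit 3564) (.d (nat_lit 557) (nat_lit 556) (nat_lit 1548) (nat_lit 558) (nat_lit 1549)))) (.a (.f (nat_lit 561) (nat_lit 562) (nat_lit 526) (.p (nat_lit 593) (.a (.f (nat_lit 497) (nat_lit 498) (nat_lit 2542) (.d (nat_lit 496) (nat_lit 464) (nat_lit 7632) (nat_lit 625) (nat_lit 7664))) (.a (.f (nat_lit 497) (nat_lit 498) (nat_lit 2542) (.f (nat_lit 624) (nat_lit 592) (nat_lit 5616) (.f (nat_lit 625) (nat_lit 656) (nat_lit 5648) (.d (nat_lit 626) (nat_lit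 594) (nat_lit 4593) (nat_lit 658) (nat_lit 4625))))) (.a (.f (nat_lit 625) (nat_lit 496) (nat_lit 7664) (.f (nat_lit 656) (nat_lit 624) (nat_lit 5648) (.f (nat_lit 657) (nat_lit 688) (nat_lit 5680) (.d (nat_lit 658) (nat_lit 626) (nat_lit 4625) (nat_lit 690) (nat_lit 4657))))) (.f (nat_lit 497) (nat_lit 498) (nat_lit 2542) (.f (nat_lit 494) (nat_lit 493) (nat_lit 3565) (.f (nat_lit 558) (nat_lit 557) (nat_lit 1549) (.f (nat_lit 592) (nat_lit 624) (nat_lit 5616) (.f (nat_lit 594) (nat_lit 626) (nat_lit 4593) (.f (nat_lit 591) (nat_lit 559) (nat_lit 3630) (.d (nat_lit 623) (nat_lit 590) (nat_lit 4590) (nat_lit 622) (nat_lit 1614))))))))))))) (.f (nat_lit 497) (nat_lit 498) (nat_lit 2542) (.f (nat_lit 525) (nat_lit 496) (nat_lit 2541) (.d (nat_lit 557) (nat_lit 556) (nat_lit 1548) (nat_lit 558) (nat_lit 1549))))))))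
noncomputable def s14706 : Cert := .r (nat_lit 3075429351738513152311891557988464161336707014464200823408719629715123346162149911350906719016331640629828747503383424400630650623873056428033164674419545604096) (.p (nat_lit 530) (.a (.f (nat_lit 495) (nat_lit 494) (nat_lit 3566) (.f (nat_lit 531) (nat_lit 496) (nat_lit 3567) (.d (nat_lit 499) (nat_lit 498) (nat_lit 2543) (nat_lit 500) (nat_lit 2544)))) (.a (.f (nat_lit 499) (nat_lit 498) (nat_lit 2543) (.f (nat_lit 531) (nat_lit 500) (nat_lit 2544) (.d (nat_lit 563) (nat_lit 562) (nat_lit 527) (nat_lit 564) (nat_lit 528)))) (.a (.p (nat_lit 593) (.a (.f (nat_lit 498) (nat_lit 499) (nat_lit 2543) (.f (nat_lit 561) (nat_lit 625) (nat_lit 6641) (.d (nat_lit 466) (nat_lit 434) (nat_lit 5553) (nat_lit 497) (nat_lit 6609)))) (.a (.f (nat_lit 498) (nat_lit 499) (nat_lit 2543) (.f (nat_lit 561) (nat_lit 625) (nat_lit 6641) (.d (nat_lit 466) (nat_lit 434) (nat_lit 5553) (nat_lit 562) (nat_lit 5585))))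 (.a (.f (nat_lit 498) (nat_lit 499) (nat_lit 2543) (.f (nat_lit 562) (nat_lit 563) (nat_lit 527) (.f (nat_lit 594) (nat_lit 625) (nat_lit 5617) (.d (nat_lit 497) (nat_lit 465) (nat_lit 7633) (nat_lit 626) (nat_lit 7665))))) (.a (.f (nat_lit 498) (nat_lit 499) (nat_lit 2543) (.f (nat_lit 562) (nat_lit 563) (nat_lit 527) (.f (nat_lit 466) (nat_lit 561) (nat_lit 5585) (.f (nat_lit 433) (nat_lit 465) (nat_lit 7601) (.f (nat_lit 434) (nat_lit 401) (nat_lit 7569) (.d (nat_lit 435) (nat_lit 403) (nat_lit 6546) (nat_lit 467) (nat_lit 6578))))))) (.p (nat_lit 496) (.a (.f (nat_lit 495) (nat_lit 494) (nat_lit 3566) (.f (nat_lit 559) (nat_lit 558) (nat_lit 1550) (.d (nat_lit 591) (nat_lit 464) (nat_lit 6607) (nat_lit 623) (nat_lit 6639)))) (.a (.f (nat_lit 561) (nat_lit 625) (nat_lit 7664) (.f (nat_lit 497) (nat_lit 464) (nat_lit 7632) (.f (nat_lit 562) (nat_lit 563) (nat_lit 527) (.d (nat_lit 465) (nat_lit 433) (nat_lit 4529) (nat_lit 594) (nat_lit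 4561))))) (.f (nat_lit 495) (nat_lit 494) (nat_lit 3566) (.f (nat_lit 559) (nat_lit 558) (nat_lit 1550) (.f (nat_lit 591) (nat_lit 623) (nat_lit 6639) (.f (nat_lit 561) (nat_lit 625) (nat_lit 7664) (.f (nat_lit 562) (nat_lit 563) (nat_lit 527) (.d (nat_lit 590) (nat_lit 592) (nat_lit 2606) (nat_lit 622) (nat_lit 5614))))))))))))))) (.f (nat_lit 495) (nat_lit 494) (nat_lit 3566) (.f (nat_lit 531) (nat_lit 496) (nat_lit 3567) (.d (nat_lit 563) (nat_lit 562) (nat_lit 527) (nat_lit 564) (nat_lit 528))))))))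
noncomputable def s14708 : Cert := .r (nat_lit 3075429351738513152311891557988464161336707014464200823408719629715123346162149911350906719016331640629828747503383424400630650623873056428033164674419545604096) (.p (nat_lit 530) (.a (.f (nat_lit 498) (nat_lit 499) (nat_lit 2543) (.f (nat_lit 562) (nat_lit 563) (nat_lit 527) (.d (nat_lit 526) (nat_lit 497) (nat_lit 2542) (nat_lit 561) (nat_lit 526)))) (.a (.f (nat_lit 499) (nat_lit 498) (nat_lit 2543) (.f (nat_lit 531) (nat_lit 500) (nat_lit 2544) (.d (nat_lit 563) (nat_lit 562) (nat_lit 527) (nat_lit 564) (nat_lit 528)))) (.a (.f (nat_lit 498) (nat_lit 499) (nat_lit 2543) (.f (nat_lit 526) (nat_lit 497) (nat_lit 2542) (.d (nat_lit 558) (nat_lit 557) (nat_lit 1549) (nat_lit 559) (nat_lit 1550)))) (.f (nat_lit 562) (nat_lit 563) (nat_lit 527) (.f (nat_lit 526) (nat_lit 561) (nat_lit 526) (.d (nat_lit 558) (nat_lit 557) (nat_lit 1549) (nat_lit 559) (nat_lit 1550))))))))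
noncomputable def s14709 : Cert := .r (nat_lit 3075429351738513152311891557988464161336707014464200823408719629715123346162149911350906719016331640629828747503383424400630650623873056428033164674419545604096) (.p (nat_lit 530) (.a (.f (nat_lit 494) (nat_lit 495) (nat_lit 3566) (.f (nat_lit 526) (nat_lit 493) (nat_lit 3565) (.d (nat_lit 558) (nat_lit 557) (nat_lit 1549) (nat_lit 559) (nat_lit 1550)))) (.a (.f (nat_lit 562) (nat_lit 563) (nat_lit 527) (.f (nat_lit 526) (nat_lit 561) (nat_lit 526) (.d (nat_lit 494) (nat_lit 493) (nat_lit 3565) (nat_lit 495) (nat_lit 3566)))) (.a (.f (nat_lit 495) (nat_lit 494) (nat_lit 3566) (.f (nat_lit 531) (nat_lit 496) (nat_lit 3567) (.d (nat_lit 563) (nat_lit 562) (nat_lit 527) (nat_lit 564) (nat_lit 528)))) (.f (nat_lit 562) (nat_lit 563) (nat_lit 527) (.f (nat_lit 526) (nat_lit 561) (nat_lit 526) (.d (nat_lit 558) (nat_lit 557) (nat_lit 1549) (nat_lit 559) (nat_lit 1550))))))))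
noncomputable def s14752 : Cert := .r (nat_lit 16209045190941378747484196094406290909333680478256087884897365388172899141091014907282916387980499101457101622092891894132833288356238059154251659060621659682618274999272374009856) (.p (nat_lit 591) (.a (.f (nat_lit 558) (nat_lit 557) (nat_lit 1549) (.f (nat_lit 494) (nat_lit 493) (nat_lit 3565) (.d (nat_lit 559) (nat_lit 462) (nat_lit 4558) (nat_lit 623) (nat_lit 7662)))) (.a (.f (nat_lit 558) (nat_lit 557) (nat_lit 1549) (.f (nat_lit 494) (nat_lit 493) (nat_lit 3565) (.f (nat_lit 590) (nat_lit 623) (nat_lit 4590) (.d (nat_lit 495) (nat_lit 463) (nat_lit 6606) (nat_lit 622) (nat_lit 6638))))) (.a (.f (nat_lit 494) (nat_lit 493) (nat_lit 3565) (.f (nat_lit 559) (nat_lit 623) (nat_lit 7662) (.d (nat_lit 462) (nat_lit 430) (nat_lit 4526) (nat_lit 495) (nat_lit 7630)))) (.f (nat_lit 558) (nat_lit 557) (nat_lit 1549) (.f (nat_lit 561) (nat_lit 562) (nat_lit 526) (.f (nat_lit 497) (nat_lit 498)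 (nat_lit 2542) (.f (nat_lit 560) (nat_lit 465) (nat_lit 5584) (.f (nat_lit 590) (nat_lit 589) (nat_lit 2605) (.f (nat_lit 622) (nat_lit 495) (nat_lit 6638) (.d (nat_lit 621) (nat_lit 593) (nat_lit 1613) (nat_lit 653) (nat_lit 5645))))))))))))
noncomputable def s14755 : Cert := .r (nat_lit 3075429351738513152311891557988464161336707014464200823408719629715123346162149911350906719016331640629828747503383424400630650623873056428033164674419545604096) (.p (nat_lit 530) (.a (.f (nat_lit 498) (nat_lit 499) (nat_lit 2543) (.f (nat_lit 562) (nat_lit 563) (nat_lit 527) (.d (nat_lit 526) (nat_lit 497) (nat_lit 2542) (nat_lit 561) (nat_lit 526)))) (.a (.f (nat_lit 499) (nat_lit 498) (nat_lit 2543) (.f (nat_lit 531) (nat_lit 500) (nat_lit 2544) (.d (nat_lit 563) (nat_lit 562) (nat_lit 527) (nat_lit 564) (nat_lit 528)))) (.a (.f (nat_lit 498) (nat_lit 499) (nat_lit 2543) (.f (nat_lit 526) (nat_lit 497) (nat_lit 2542) (.d (nat_lit 494) (nat_lit 493)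 (nat_lit 3565) (nat_lit 495) (nat_lit 3566)))) (.f (nat_lit 562) (nat_lit 563) (nat_lit 527) (.f (nat_lit 526) (nat_lit 561) (nat_lit 526) (.d (nat_lit 494) (nat_lit 493) (nat_lit 3565) (nat_lit 495) (nat_lit 3566))))))))
noncomputable def s14773 : Cert := .r (nat_lit 16209045190941378750779298971268983572524992861815156629186694332241685737600357367691977116011374006475930249610390080521935517824148871012070213300485648712653808579007601442816) (.p (nat_lit 593) (.a (.f (nat_lit 498) (nat_lit 499) (nat_lit 2543) (.f (nat_lit 561) (nat_lit 625) (nat_lit 6641) (.d (nat_lit 466) (nat_lit 434) (nat_lit 5553) (nat_lit 497) (nat_lit 6609)))) (.a (.f (nat_lit 562) (nat_lit 563) (nat_lit 527) (.f (nat_lit 498) (nat_lit 499) (nat_lit 2543) (.d (nat_lit 561) (nat_lit 466) (nat_lit 5585) (nat_lit 625) (nat_lit 6641)))) (.a (.f (nat_lit 562) (nat_lit 563) (nat_lit 527) (.f (nat_lit 498) (nat_lit 499) (nat_lit 2543) (.f (nat_lit 594) (nat_lit 625)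 (nat_lit 5617) (.d (nat_lit 497) (nat_lit 465) (nat_lit 7633) (nat_lit 626) (nat_lit 7665))))) (.a (.f (nat_lit 562) (nat_lit 563) (nat_lit 527) (.f (nat_lit 498) (nat_lit 499) (nat_lit 2543) (.f (nat_lit 561) (nat_lit 466) (nat_lit 5585) (.f (nat_lit 497) (nat_lit 624) (nat_lit 5616) (.d (nat_lit 465) (nat_lit 433) (nat_lit 4529) (nat_lit 560) (nat_lit 5584)))))) (.f (nat_lit 562) (nat_lit 563) (nat_lit 527) (.f (nat_lit 495) (nat_lit 494) (nat_lit 3566) (.f (nat_lit 624) (nat_lit 560) (nat_lit 7663) (.f (nat_lit 561) (nat_lit 497) (nat_lit 5616) (.d (nat_lit 625) (nat_lit 656) (nat_lit 5648) (nat_lit 657) (nat_lit 6673)))))))))))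
noncomputable def s14796 : Cert := .r (nat_lit 16209045190941378750779298971268983572524992861815156629186694332241685737600357367691977116011374006475930249610390080521935517824148871012070213300485648712653808579007601442816) (.p (nat_lit 593) (.a (.f (nat_lit 498) (nat_lit 499) (nat_lit 2543) (.f (nat_lit 561) (nat_lit 625) (nat_lit 6641) (.d (nat_lit 466) (nat_lit 434) (nat_lit 5553) (nat_lit 497) (nat_lit 6609)))) (.a (.f (nat_lit 562) (nat_lit 563) (nat_lit 527) (.f (nat_lit 498) (nat_lit 499) (nat_lit 2543) (.d (nat_lit 561) (nat_lit 466) (nat_lit 5585) (nat_lit 625) (nat_lit 6641)))) (.a (.f (nat_lit 562) (nat_lit 563) (nat_lit 527) (.f (nat_lit 498) (nat_lit 499) (nat_lit 2543) (.f (nat_lit 594) (nat_lit 625) (nat_lit 5617) (.d (nat_lit 497) (nat_lit 465) (nat_lit 7633) (nat_lit 626) (nat_lit 7665))))) (.a (.f (nat_lit 562) (nat_lit 563) (nat_lit 527) (.f (nat_lit 498) (nat_lit 499) (nat_lit 2543) (.f (nat_lit 466) (nat_lit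 561) (nat_lit 5585) (.f (nat_lit 433) (nat_lit 465) (nat_lit 7601) (.f (nat_lit 434) (nat_lit 401) (nat_lit 7569) (.d (nat_lit 435) (nat_lit 403) (nat_lit 6546) (nat_lit 467) (nat_lit 6578))))))) (.f (nat_lit 562) (nat_lit 563) (nat_lit 527) (.f (nat_lit 559) (nat_lit 558) (nat_lit 1550) (.f (nat_lit 495) (nat_lit 494) (nat_lit 3566) (.f (nat_lit 560) (nat_lit 463) (nat_lit 4559) (.f (nat_lit 594) (nat_lit 595) (nat_lit 3631) (.f (nat_lit 626) (nat_lit 497) (nat_lit 7665) (.d (nat_lit 627) (nat_lit 591) (nat_lit 591) (nat_lit 659) (nat_lit 4626)))))))))))))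
noncomputable def s14828 : Cert := .r (nat_lit 32418090389430682340657351441060459784814323878075135717480416900215666966862067186859257606496201767246926426247722714660271591150524313338970638298529401032059301790161265754112) (.p (nat_lit 498) (.a (.f (nat_lit 497) (nat_lit 466) (nat_lit 6609) (.f (nat_lit 530) (nat_lit 625) (nat_lit 6641) (.f (nat_lit 594) (nat_lit 626) (nat_lit 4593) (.f (nat_lit 562) (nat_lit 465) (nat_lit 4561) (.d (nat_lit 499) (nat_lit 467) (nat_lit 6610) (nat_lit 500) (nat_lit 1520)))))) (.a (.f (nat_lit 530) (nat_lit 625) (nat_lit 6641) (.d (nat_lit 466) (nat_lit 434) (nat_lit 5553) (nat_lit 562) (nat_lit 5585))) (.a (.f (nat_lit 497) (nat_lit 466) (nat_lit 6609) (.f (nat_lit 592) (nat_lit 624) (nat_lit 5616) (.f (nat_lit 560) (nat_lit 465) (nat_lit 5584) (.f (nat_lit 594) (nat_lit 626) (nat_lit 4593) (.d (nat_lit 559) (nat_lit 558) (nat_lit 558) (nat_lit 595) (nat_lit 3631)))))) (.f (nat_lit 625) (nat_lit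 530) (nat_lit 6641) (.f (nat_lit 657) (nat_lit 560) (nat_lit 7696) (.d (nat_lit 656) (nat_lit 624) (nat_lit 5648) (nat_lit 688) (nat_lit 5680))))))))
noncomputable def s14852 : Cert := .r (nat_lit 32418090381882757491014268736577350622837786096241293276647536043463254366370818862074959902323948316891608891164785964598743901350983144079121053033406532529193909702862475100160) (.p (nat_lit 561) (.a (.f (nat_lit 625) (nat_lit 496) (nat_lit 7664) (.f (nat_lit 657) (nat_lit 560) (nat_lit 7696) (.d (nat_lit 530) (nat_lit 498) (nat_lit 6641) (nat_lit 562) (nat_lit 6673)))) (.a (.f (nat_lit 625) (nat_lit 496) (nat_lit 7664) (.f (nat_lit 530) (nat_lit 498) (nat_lit 6641) (.f (nat_lit 562) (nat_lit 657) (nat_lit 6673) (.f (nat_lit 626) (nat_lit 658) (nat_lit 4625) (.f (nat_lit 594) (nat_lit 497) (nat_lit 4593) (.f (nat_lit 563) (nat_lit 564) (nat_lit 3600) (.f (nat_lit 627) (nat_lit 659) (nat_lit 4626) (.d (nat_lit 592) (nat_lit 591) (nat_lit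 2607) (nat_lit 628) (nat_lit 3664))))))))) (.a s14828 (.a (.f (nat_lit 625) (nat_lit 496) (nat_lit 7664) (.f (nat_lit 657) (nat_lit 560) (nat_lit 7696) (.d (nat_lit 656) (nat_lit 624) (nat_lit 5648) (nat_lit 688) (nat_lit 5680)))) (.p (nat_lit 497) (.a (.f (nat_lit 592) (nat_lit 624) (nat_lit 5616) (.f (nat_lit 560) (nat_lit 465) (nat_lit 5584) (.f (nat_lit 594) (nat_lit 626) (nat_lit 4593) (.d (nat_lit 559) (nat_lit 558) (nat_lit 558) (nat_lit 595) (nat_lit 3631))))) (.a (.f (nat_lit 466) (nat_lit 498) (nat_lit 6609) (.f (nat_lit 465) (nat_lit 434) (nat_lit 6577) (.d (nat_lit 594) (nat_lit 562) (nat_lit 4561) (nat_lit 626) (nat_lit 4593)))) (.a (.f (nat_lit 592) (nat_lit 624) (nat_lit 5616) (.f (nat_lit 560) (nat_lit 465) (nat_lit 5584) (.f (nat_lit 496) (nat_lit 464) (nat_lit 4560) (.f (nat_lit 495) (nat_lit 463) (nat_lit 7631) (.d (nat_lit 494) (nat_lit 493) (nat_lit 493) (nat_lit 530) (nat_lit 494)))))) (.f (nat_lit 496) (nat_lit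 464) (nat_lit 7632) (.f (nat_lit 498) (nat_lit 466) (nat_lit 6609) (.f (nat_lit 499) (nat_lit 500) (nat_lit 1520) (.f (nat_lit 531) (nat_lit 532) (nat_lit 496) (.f (nat_lit 530) (nat_lit 495) (nat_lit 3567) (.f (nat_lit 594) (nat_lit 626) (nat_lit 4593) (.d (nat_lit 467) (nat_lit 468) (nat_lit 2512) (nat_lit 562) (nat_lit 6610)))))))))))))))))
noncomputable def s14886 : Cert := .r (nat_lit 32418090381882757491014268736577350622837786096241293276647536043463254366370818862074959902323948316891608891164785964598743901350983144079121053033406532529193909702862475100160) (.p (nat_lit 561) (.a (.f (nat_lit 625) (nat_lit 496) (nat_lit 7664) (.f (nat_lit 530) (nat_lit 498) (nat_lit 6641) (.f (nat_lit 562) (nat_lit 657) (nat_lit 6673) (.f (nat_lit 626) (nat_lit 658) (nat_lit 4625) (.f (nat_lit 594) (nat_lit 497) (nat_lit 4593) (.f (nat_lit 563) (nat_lit 564) (nat_lit 3600) (.f (nat_lit 627) (nat_lit 659) (nat_lit 4626) (.d (nat_lit 592) (nat_lit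 591) (nat_lit 2607) (nat_lit 628) (nat_lit 3664))))))))) (.a (.p (nat_lit 498) (.a (.f (nat_lit 497) (nat_lit 466) (nat_lit 6609) (.f (nat_lit 530) (nat_lit 625) (nat_lit 6641) (.f (nat_lit 594) (nat_lit 626) (nat_lit 4593) (.f (nat_lit 562) (nat_lit 465) (nat_lit 4561) (.d (nat_lit 499) (nat_lit 467) (nat_lit 6610) (nat_lit 500) (nat_lit 1520)))))) (.a (.f (nat_lit 530) (nat_lit 625) (nat_lit 6641) (.d (nat_lit 466) (nat_lit 434) (nat_lit 5553) (nat_lit 562) (nat_lit 5585))) (.a (.f (nat_lit 497) (nat_lit 466) (nat_lit 6609) (.f (nat_lit 594) (nat_lit 626) (nat_lit 4593) (.f (nat_lit 562) (nat_lit 465) (nat_lit 4561) (.f (nat_lit 592) (nat_lit 624) (nat_lit 5616) (.d (nat_lit 563) (nat_lit 564) (nat_lit 1584) (nat_lit 591) (nat_lit 2607)))))) (.a (.f (nat_lit 497) (nat_lit 466) (nat_lit 6609) (.f (nat_lit 625) (nat_lit 530) (nat_lit 6641) (.d (nat_lit 624) (nat_lit 592) (nat_lit 5616) (nat_lit 656) (nat_lit 5648)))) (.f (nat_lit 625)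 (nat_lit 530) (nat_lit 6641) (.f (nat_lit 626) (nat_lit 658) (nat_lit 4625) (.f (nat_lit 624) (nat_lit 656) (nat_lit 5648) (.d (nat_lit 497) (nat_lit 592) (nat_lit 5616) (nat_lit 594) (nat_lit 4593)))))))))) (.a (.f (nat_lit 625) (nat_lit 496) (nat_lit 7664) (.f (nat_lit 530) (nat_lit 498) (nat_lit 6641) (.f (nat_lit 657) (nat_lit 562) (nat_lit 6673) (.d (nat_lit 656) (nat_lit 624) (nat_lit 5648) (nat_lit 688) (nat_lit 5680))))) (.a (.f (nat_lit 625) (nat_lit 496) (nat_lit 7664) (.f (nat_lit 626) (nat_lit 658) (nat_lit 4625) (.f (nat_lit 624) (nat_lit 656) (nat_lit 5648) (.d (nat_lit 497) (nat_lit 592) (nat_lit 5616) (nat_lit 594) (nat_lit 4593))))) (.p (nat_lit 497) (.a (.f (nat_lit 466) (nat_lit 498) (nat_lit 6609) (.f (nat_lit 465) (nat_lit 434) (nat_lit 6577) (.d (nat_lit 594) (nat_lit 562) (nat_lit 4561) (nat_lit 626) (nat_lit 4593)))) (.a (.f (nat_lit 496) (nat_lit 464) (nat_lit 7632) (.f (nat_lit 498) (nat_lit 466) (nat_lit 6609)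 (.f (nat_lit 499) (nat_lit 500) (nat_lit 1520) (.f (nat_lit 531) (nat_lit 532) (nat_lit 496) (.f (nat_lit 495) (nat_lit 530) (nat_lit 3567) (.f (nat_lit 494) (nat_lit 493) (nat_lit 493) (.d (nat_lit 462) (nat_lit 461) (nat_lit 3533) (nat_lit 463) (nat_lit 3534)))))))) (.f (nat_lit 594) (nat_lit 626) (nat_lit 4593) (.f (nat_lit 562) (nat_lit 465) (nat_lit 4561) (.f (nat_lit 563) (nat_lit 564) (nat_lit 3600) (.d (nat_lit 592) (nat_lit 591) (nat_lit 2607) (nat_lit 624) (nat_lit 5616)))))))))))))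
noncomputable def s14902 : Cert := .r (nat_lit 48627135576598098660024903306362503449968423081855233637672012915943573211198115471340964414359699238507540653281648047373238805139080976005478950486725637433209347166049017004032) (.p (nat_lit 561) (.a (.f (nat_lit 625) (nat_lit 657) (nat_lit 7696) (.f (nat_lit 624) (nat_lit 656) (nat_lit 5648) (.f (nat_lit 623) (nat_lit 655) (nat_lit 5647) (.d (nat_lit 594) (nat_lit 595) (nat_lit 1615) (nat_lit 622) (nat_lit 2638))))) (.a (.f (nat_lit 625) (nat_lit 657) (nat_lit 7696) (.f (nat_lit 530) (nat_lit 498) (nat_lit 6641) (.d (nat_lit 531) (nat_lit 532) (nat_lit 1552) (nat_lit 559) (nat_lit 1551)))) (.f (nat_lit 624) (nat_lit 656) (nat_lit 6672) (.f (nat_lit 623) (nat_lit 655) (nat_lit 5647) (.f (nat_lit 594) (nat_lit 595) (nat_lit 1615) (.d (nat_lit 622) (nat_lit 591) (nat_lit 1614) (nat_lit 621) (nat_lit 2637))))))))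
noncomputable def s14917 : Cert := .r (nat_lit 48627135572824136235203361954120948868980154190938312417255572487567366910952491308948815562273572513329881885740179672342474960239310391375554157854164203181776651122399621677056) (.p (nat_lit 560) (.a (.f (nat_lit 624) (nat_lit 497) (nat_lit 6640) (.f (nat_lit 625) (nat_lit 657) (nat_lit 4624) (.f (nat_lit 623) (nat_lit 655) (nat_lit 5647) (.d (nat_lit 594) (nat_lit 595) (nat_lit 1615) (nat_lit 622) (nat_lit 2638))))) (.a s14902 (.a (.p (nat_lit 561) (.a (.f (nat_lit 625) (nat_lit 657) (nat_lit 7696) (.f (nat_lit 530) (nat_lit 498) (nat_lit 6641) (.d (nat_lit 531) (nat_lit 532) (nat_lit 1552) (nat_lit 559) (nat_lit 1551)))) (.a (.f (nat_lit 497) (nat_lit 465) (nat_lit 5584) (.f (nat_lit 594) (nat_lit 626) (nat_lit 4593) (.d (nat_lit 559) (nat_lit 558) (nat_lit 558) (nat_lit 595) (nat_lit 3631)))) (.f (nat_lit 625) (nat_lit 657) (nat_lit 7696) (.f (nat_lit 626) (nat_lit 658) (nat_lit 4625)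 (.d (nat_lit 497) (nat_lit 465) (nat_lit 5584) (nat_lit 594) (nat_lit 4593))))))) (.a (.f (nat_lit 624) (nat_lit 497) (nat_lit 6640) (.f (nat_lit 623) (nat_lit 655) (nat_lit 5647) (.f (nat_lit 594) (nat_lit 595) (nat_lit 1615) (.d (nat_lit 622) (nat_lit 591) (nat_lit 1614) (nat_lit 621) (nat_lit 2637))))) (.f (nat_lit 624) (nat_lit 497) (nat_lit 6640) (.f (nat_lit 561) (nat_lit 656) (nat_lit 6672) (.f (nat_lit 625) (nat_lit 657) (nat_lit 4624) (.f (nat_lit 626) (nat_lit 658) (nat_lit 4625) (.d (nat_lit 591) (nat_lit 590) (nat_lit 590) (nat_lit 627) (nat_lit 3663)))))))))))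
noncomputable def s14961 : Cert := .r (nat_lit 48627135580372061084846444658604058030956691972772154858088453344319779511443739633733113266445825963685199420823116422404002650038851560635403743119287071684642043209698412331008) (.p (nat_lit 498) (.a (.f (nat_lit 530) (nat_lit 625) (nat_lit 6641) (.d (nat_lit 466) (nat_lit 434) (nat_lit 5553) (nat_lit 497) (nat_lit 6609))) (.a (.f (nat_lit 530) (nat_lit 625) (nat_lit 6641) (.d (nat_lit 466) (nat_lit 434) (nat_lit 5553) (nat_lit 562) (nat_lit 5585))) (.a (.f (nat_lit 497) (nat_lit 466) (nat_lit 6609) (.f (nat_lit 594) (nat_lit 626) (nat_lit 4593) (.f (nat_lit 562) (nat_lit 465) (nat_lit 4561) (.d (nat_lit 563) (nat_lit 564) (nat_lit 1584) (nat_lit 591) (nat_lit 2607))))) (.f (nat_lit 625) (nat_lit 530) (nat_lit 6641) (.f (nat_lit 626) (nat_lit 658) (nat_lit 4625) (.f (nat_lit 594) (nat_lit 497) (nat_lit 4593) (.d (nat_lit 591) (nat_lit 590) (nat_lit 590) (nat_lit 627) (nat_lit 591)))))))))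
noncomputable def s14964 : Cert := .r (nat_lit 48627135572824136235203361954120948868980154190938312417255572487567366910952491308948815562273572513329881885740179672342474960239310391375554157854164203181776651122399621677056) (.p (nat_lit 561) (.a (.f (nat_lit 497) (nat_lit 624) (nat_lit 5616) (.f (nat_lit 594) (nat_lit 626) (nat_lit 4593) (.f (nat_lit 562) (nat_lit 465) (nat_lit 4561) (.d (nat_lit 563) (nat_lit 564) (nat_lit 1584) (nat_lit 591) (nat_lit 2607))))) (.a (.p (nat_lit 625) (.a (.f (nat_lit 624) (nat_lit 656) (nat_lit 5648) (.f (nat_lit 626) (nat_lit 658) (nat_lit 4625) (.d (nat_lit 591) (nat_lit 590) (nat_lit 590) (nat_lit 627) (nat_lit 3663)))) (.a (.f (nat_lit 624) (nat_lit 656) (nat_lit 5648) (.f (nat_lit 626) (nat_lit 658) (nat_lit 4625) (.f (nat_lit 627) (nat_lit 628) (nat_lit 3664) (.f (nat_lit 595) (nat_lit 596) (nat_lit 2640) (.f (nat_lit 594) (nat_lit 623) (nat_lit 1615) (.f (nat_lit 530) (nat_lit 498) (nat_lit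 6641) (.d (nat_lit 562) (nat_lit 657) (nat_lit 5649) (nat_lit 659) (nat_lit 4626)))))))) (.a (.f (nat_lit 626) (nat_lit 658) (nat_lit 4625) (.f (nat_lit 591) (nat_lit 590) (nat_lit 590) (.d (nat_lit 627) (nat_lit 594) (nat_lit 591) (nat_lit 628) (nat_lit 3664)))) (.f (nat_lit 530) (nat_lit 498) (nat_lit 6641) (.f (nat_lit 562) (nat_lit 657) (nat_lit 6673) (.f (nat_lit 563) (nat_lit 564) (nat_lit 3600) (.d (nat_lit 591) (nat_lit 590) (nat_lit 2606) (nat_lit 594) (nat_lit 2607))))))))) (.a (.f (nat_lit 497) (nat_lit 624) (nat_lit 5616) (.f (nat_lit 498) (nat_lit 466) (nat_lit 6609) (.f (nat_lit 530) (nat_lit 625) (nat_lit 6641) (.f (nat_lit 594) (nat_lit 626) (nat_lit 4593) (.f (nat_lit 562) (nat_lit 465) (nat_lit 4561) (.d (nat_lit 499) (nat_lit 467) (nat_lit 6610) (nat_lit 500) (nat_lit 1520))))))) (.a (.f (nat_lit 497) (nat_lit 624) (nat_lit 5616) (.f (nat_lit 498) (nat_lit 466) (nat_lit 6609) (.f (nat_lit 625) (nat_lit 530) (nat_lit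 6641) (.d (nat_lit 626) (nat_lit 594) (nat_lit 4593) (nat_lit 658) (nat_lit 4625))))) (.a s14961 (.f (nat_lit 624) (nat_lit 497) (nat_lit 5616) (.d (nat_lit 656) (nat_lit 625) (nat_lit 5648) (nat_lit 688) (nat_lit 6704)))))))))
noncomputable def s14982 : Cert := .r (nat_lit 56731658168294825607297908562892747992051338238286821987559590709619423183243327532385743392248384611549018383027876526214340489683474015023770710264543038508068021832168194965504) (.p (nat_lit 594) (.a (.f (nat_lit 559) (nat_lit 558) (nat_lit 3630) (.f (nat_lit 560) (nat_lit 595) (nat_lit 3631) (.d (nat_lit 623) (nat_lit 622) (nat_lit 1614) (nat_lit 655) (nat_lit 6671)))) (.a (.f (nat_lit 622) (nat_lit 623) (nat_lit 1614) (.f (nat_lit 590) (nat_lit 621) (nat_lit 1613) (.d (nat_lit 558) (nat_lit 557) (nat_lit 3629) (nat_lit 559) (nat_lit 3630)))) (.a (.f (nat_lit 563) (nat_lit 562) (nat_lit 2607) (.f (nat_lit 595) (nat_lit 564) (nat_lit 2608) (.d (nat_lit 623) (nat_lit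 622) (nat_lit 1614) (nat_lit 624) (nat_lit 1615)))) (.f (nat_lit 559) (nat_lit 558) (nat_lit 3630) (.f (nat_lit 595) (nat_lit 560) (nat_lit 3631) (.d (nat_lit 563) (nat_lit 562) (nat_lit 2607) (nat_lit 564) (nat_lit 2608))))))))
noncomputable def s14988 : Cert := .r (nat_lit 56731658168294825607297908562892747992051338238286821987559590709619423183243327532385743392248384611549018383027876526214340489683474015023770710264543038508068021832168194965504) (.p (nat_lit 594) (.a (.f (nat_lit 562) (nat_lit 563) (nat_lit 2607) (.f (nat_lit 626) (nat_lit 627) (nat_lit 591) (.d (nat_lit 561) (nat_lit 590) (nat_lit 2606) (nat_lit 658) (nat_lit 7697)))) (.a (.f (nat_lit 563) (nat_lit 562) (nat_lit 2607) (.f (nat_lit 595) (nat_lit 564) (nat_lit 2608) (.d (nat_lit 623) (nat_lit 622) (nat_lit 1614) (nat_lit 624) (nat_lit 1615)))) (.f (nat_lit 623) (nat_lit 622) (nat_lit 1614) (.f (nat_lit 624) (nat_lit 595) (nat_lit 1615) (.f (nat_lit 626) (nat_lit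 627) (nat_lit 591) (.f (nat_lit 625) (nat_lit 590) (nat_lit 590) (.d (nat_lit 560) (nat_lit 655) (nat_lit 5647) (nat_lit 657) (nat_lit 4624)))))))))
noncomputable def s14994 : Cert := .r (nat_lit 56731658168294825607297908562892747992051338238286821987559590709619423183243327532385743392248384611549018383027876526214340489683474015023770710264543038508068021832168194965504) (.p (nat_lit 594) (.a (.f (nat_lit 559) (nat_lit 558) (nat_lit 3630) (.f (nat_lit 560) (nat_lit 595) (nat_lit 3631) (.d (nat_lit 623) (nat_lit 622) (nat_lit 1614) (nat_lit 655) (nat_lit 6671)))) (.a (.f (nat_lit 622) (nat_lit 623) (nat_lit 1614) (.f (nat_lit 590) (nat_lit 621) (nat_lit 1613) (.d (nat_lit 558) (nat_lit 557) (nat_lit 3629) (nat_lit 559) (nat_lit 3630)))) (.a (.f (nat_lit 623) (nat_lit 622) (nat_lit 1614) (.f (nat_lit 624) (nat_lit 595) (nat_lit 1615) (.f (nat_lit 626) (nat_lit 627) (nat_lit 591) (.f (nat_lit 625) (nat_lit 590) (nat_lit 590) (.d (nat_lit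 560) (nat_lit 655) (nat_lit 5647) (nat_lit 657) (nat_lit 4624)))))) (.f (nat_lit 559) (nat_lit 558) (nat_lit 3630) (.f (nat_lit 560) (nat_lit 595) (nat_lit 3631) (.f (nat_lit 626) (nat_lit 627) (nat_lit 591) (.f (nat_lit 625) (nat_lit 590) (nat_lit 590) (.d (nat_lit 561) (nat_lit 657) (nat_lit 7696) (nat_lit 658) (nat_lit 4625))))))))))
noncomputable def s15016 : Cert := .r (nat_lit 56731658168294825607297908562892747992051338238286821987559590709619423183243327532385743392248384611549018383027876526214340489683474015023770710264543038508068021832168194965504) (.p (nat_lit 594) (.a (.f (nat_lit 562) (nat_lit 563) (nat_lit 2607) (.f (nat_lit 626) (nat_lit 627) (nat_lit 591) (.d (nat_lit 561) (nat_lit 590) (nat_lit 2606) (nat_lit 658) (nat_lit 7697)))) (.a (.f (nat_lit 559) (nat_lit 558) (nat_lit 3630) (.f (nat_lit 595) (nat_lit 560) (nat_lit 3631) (.d (nat_lit 563) (nat_lit 562) (nat_lit 2607) (nat_lit 564) (nat_lit 2608)))) (.f (nat_lit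 559) (nat_lit 558) (nat_lit 3630) (.f (nat_lit 560) (nat_lit 595) (nat_lit 3631) (.f (nat_lit 626) (nat_lit 627) (nat_lit 591) (.f (nat_lit 625) (nat_lit 590) (nat_lit 590) (.d (nat_lit 561) (nat_lit 657) (nat_lit 7696) (nat_lit 658) (nat_lit 4625)))))))))
noncomputable def s15023 : Cert := .r (nat_lit 56731658168294825607297908562892747992051338238286821987559590709619423183243327532385743392248384611549018383027876526214340489683474015023770710264543038508068021832168194965504) (.p (nat_lit 594) (.a (.f (nat_lit 559) (nat_lit 558) (nat_lit 3630) (.f (nat_lit 560) (nat_lit 595) (nat_lit 3631) (.d (nat_lit 623) (nat_lit 622) (nat_lit 1614) (nat_lit 655) (nat_lit 6671)))) (.a (.f (nat_lit 563) (nat_lit 562) (nat_lit 2607) (.f (nat_lit 595) (nat_lit 564) (nat_lit 2608) (.d (nat_lit 623) (nat_lit 622) (nat_lit 1614) (nat_lit 624) (nat_lit 1615)))) (.a (.f (nat_lit 559) (nat_lit 558) (nat_lit 3630) (.f (nat_lit 595) (nat_lit 560) (nat_lit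 3631) (.d (nat_lit 563) (nat_lit 562) (nat_lit 2607) (nat_lit 564) (nat_lit 2608)))) (.f (nat_lit 559) (nat_lit 558) (nat_lit 3630) (.f (nat_lit 623) (nat_lit 622) (nat_lit 1614) (.f (nat_lit 655) (nat_lit 560) (nat_lit 6671) (.f (nat_lit 688) (nat_lit 656) (nat_lit 4655) (.f (nat_lit 687) (nat_lit 720) (nat_lit 4687) (.d (nat_lit 686) (nat_lit 654) (nat_lit 5678) (nat_lit 718) (nat_lit 5710)))))))))))
noncomputable def s15024 : Cert := .r (nat_lit 48627135572824136235203361954120948868980154190938312417255572487567366910952491308948815562273572513329881885740179672342474960239310391375554157854164203181776651122399621677056) (.p (nat_lit 591) (.a (.p (nat_lit 594) (.a (.f (nat_lit 559) (nat_lit 558) (nat_lit 3630) (.f (nat_lit 560) (nat_lit 595) (nat_lit 3631) (.d (nat_lit 623) (nat_lit 622) (nat_lit 1614) (nat_lit 655) (nat_lit 6671)))) (.f (nat_lit 562) (nat_lit 563) (nat_lit 2607) (.f (nat_lit 626) (nat_lit 627) (nat_lit 591) (.d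 (nat_lit 561) (nat_lit 590) (nat_lit 2606) (nat_lit 658) (nat_lit 7697)))))) (.a (.p (nat_lit 594) (.a (.f (nat_lit 562) (nat_lit 563) (nat_lit 2607) (.f (nat_lit 626) (nat_lit 627) (nat_lit 591) (.d (nat_lit 561) (nat_lit 590) (nat_lit 2606) (nat_lit 658) (nat_lit 7697)))) (.a (.f (nat_lit 622) (nat_lit 623) (nat_lit 1614) (.f (nat_lit 590) (nat_lit 621) (nat_lit 1613) (.d (nat_lit 558) (nat_lit 557) (nat_lit 3629) (nat_lit 559) (nat_lit 3630)))) (.f (nat_lit 563) (nat_lit 562) (nat_lit 2607) (.f (nat_lit 595) (nat_lit 564) (nat_lit 2608) (.d (nat_lit 623) (nat_lit 622) (nat_lit 1614) (nat_lit 624) (nat_lit 1615))))))) (.a s14982 (.a s14988 (.a s14994 (.a (.p (nat_lit 590) (.a (.f (nat_lit 561) (nat_lit 562) (nat_lit 2606) (.f (nat_lit 625) (nat_lit 626) (nat_lit 590) (.d (nat_lit 560) (nat_lit 589) (nat_lit 2605) (nat_lit 657) (nat_lit 7696)))) (.a (.f (nat_lit 625) (nat_lit 626) (nat_lit 590) (.f (nat_lit 561) (nat_lit 562) (nat_lit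 2606) (.d (nat_lit 624) (nat_lit 589) (nat_lit 589) (nat_lit 656) (nat_lit 5648)))) (.a (.f (nat_lit 625) (nat_lit 626) (nat_lit 590) (.f (nat_lit 589) (nat_lit 624) (nat_lit 589) (.d (nat_lit 557) (nat_lit 556) (nat_lit 3628) (nat_lit 558) (nat_lit 3629)))) (.a (.f (nat_lit 561) (nat_lit 562) (nat_lit 2606) (.f (nat_lit 560) (nat_lit 589) (nat_lit 2605) (.f (nat_lit 558) (nat_lit 557) (nat_lit 3629) (.f (nat_lit 559) (nat_lit 530) (nat_lit 2574) (.f (nat_lit 623) (nat_lit 655) (nat_lit 6671) (.d (nat_lit 526) (nat_lit 494) (nat_lit 4590) (nat_lit 525) (nat_lit 3597))))))) (.f (nat_lit 561) (nat_lit 562) (nat_lit 2606) (.f (nat_lit 625) (nat_lit 626) (nat_lit 590) (.f (nat_lit 560) (nat_lit 657) (nat_lit 7696) (.f (nat_lit 558) (nat_lit 557) (nat_lit 3629) (.d (nat_lit 530) (nat_lit 498) (nat_lit 6641) (nat_lit 559) (nat_lit 2574))))))))))) (.a s15016 s15023))))))))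
noncomputable def s15039 : Cert := .r (nat_lit 113463316336589651211959734824295341853549626569726388979687718263983817089279181096444238202072069299082973864041754503317399195792619380561286577137194885792107616800548207984640) (.p (nat_lit 591) (.a (.f (nat_lit 559) (nat_lit 558) (nat_lit 3630) (.f (nat_lit 560) (nat_lit 595) (nat_lit 3631) (.d (nat_lit 623) (nat_lit 622) (nat_lit 1614) (nat_lit 655) (nat_lit 6671)))) (.a (.f (nat_lit 622) (nat_lit 623) (nat_lit 1614) (.f (nat_lit 590) (nat_lit 621) (nat_lit 1613) (.d (nat_lit 558) (nat_lit 557) (nat_lit 3629) (nat_lit 559) (nat_lit 3630)))) (.a (.f (nat_lit 563) (nat_lit 562) (nat_lit 2607) (.f (nat_lit 595) (nat_lit 564) (nat_lit 2608) (.d (nat_lit 623) (nat_lit 622) (nat_lit 1614) (nat_lit 624) (nat_lit 1615)))) (.f (nat_lit 559) (nat_lit 558) (nat_lit 3630) (.f (nat_lit 595) (nat_lit 560) (nat_lit 3631) (.d (nat_lit 563) (nat_lit 562) (nat_lit 2607) (nat_lit 564) (nat_lit 2608))))))))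
noncomputable def s15040 : Cert := .r (nat_lit 113463316336589651211959734824295341853549626569726388979687718263983817089279181096444238202072069299082973864041754503317399195792619380561286577137194885792107616800548207984640) (.p (nat_lit 591) (.a (.f (nat_lit 563) (nat_lit 562) (nat_lit 2607) (.f (nat_lit 595) (nat_lit 564) (nat_lit 2608) (.d (nat_lit 623) (nat_lit 622) (nat_lit 1614) (nat_lit 624) (nat_lit 1615)))) (.a (.f (nat_lit 623) (nat_lit 622) (nat_lit 1614) (.f (nat_lit 624) (nat_lit 595) (nat_lit 1615) (.f (nat_lit 626) (nat_lit 627) (nat_lit 591) (.f (nat_lit 625) (nat_lit 590) (nat_lit 590) (.d (nat_lit 560) (nat_lit 655) (nat_lit 5647) (nat_lit 657) (nat_lit 4624)))))) (.f (nat_lit 626) (nat_lit 627) (nat_lit 591) (.f (nat_lit 562) (nat_lit 563) (nat_lit 2607) (.f (nat_lit 625) (nat_lit 590) (nat_lit 590) (.d (nat_lit 530) (nat_lit 497) (nat_lit 7665) (nat_lit 498) (nat_lit 5617))))))))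
noncomputable def s15048 : Cert := .r (nat_lit 113463316336589651211959734824295341853549626569726388979687718263983817089279181096444238202072069299082973864041754503317399195792619380561286577137194885792107616800548207984640) (.p (nat_lit 560) (.a (.f (nat_lit 624) (nat_lit 497) (nat_lit 6640) (.d (nat_lit 595) (nat_lit 559) (nat_lit 3631) (nat_lit 623) (nat_lit 1615))) (.a (.f (nat_lit 595) (nat_lit 559) (nat_lit 3631) (.f (nat_lit 624) (nat_lit 623) (nat_lit 1615) (.d (nat_lit 625) (nat_lit 596) (nat_lit 1616) (nat_lit 657) (nat_lit 4624)))) (.a (.f (nat_lit 624) (nat_lit 497) (nat_lit 6640) (.d (nat_lit 623) (nat_lit 595) (nat_lit 1615) (nat_lit 655) (nat_lit 5647))) (.a (.f (nat_lit 595) (nat_lit 559) (nat_lit 3631) (.f (nat_lit 564) (nat_lit 563) (nat_lit 2608) (.f (nat_lit 596) (nat_lit 565) (nat_lit 2609) (.d (nat_lit 628) (nat_lit 627) (nat_lit 592) (nat_lit 629) (nat_lit 593))))) (.f (nat_lit 624) (nat_lit 497) (nat_lit 6640)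 (.f (nat_lit 625) (nat_lit 657) (nat_lit 4624) (.d (nat_lit 623) (nat_lit 622) (nat_lit 2638) (nat_lit 655) (nat_lit 5647)))))))))
noncomputable def s15055 : Cert := .r (nat_lit 113463316336589651211959734824295341853549626569726388979687718263983817089279181096444238202072069299082973864041754503317399195792619380561286577137194885792107616800548207984640) (.p (nat_lit 591) (.a (.f (nat_lit 559) (nat_lit 558) (nat_lit 3630) (.f (nat_lit 595) (nat_lit 560) (nat_lit 3631) (.d (nat_lit 563) (nat_lit 562) (nat_lit 2607) (nat_lit 564) (nat_lit 2608)))) (.a (.f (nat_lit 626) (nat_lit 627) (nat_lit 591) (.f (nat_lit 562) (nat_lit 563) (nat_lit 2607) (.f (nat_lit 625) (nat_lit 590) (nat_lit 590) (.d (nat_lit 530) (nat_lit 497) (nat_lit 7665) (nat_lit 498) (nat_lit 5617))))) (.f (nat_lit 559) (nat_lit 558) (nat_lit 3630) (.f (nat_lit 560) (nat_lit 595) (nat_lit 3631) (.f (nat_lit 624) (nat_lit 497) (nat_lit 6640) (.f (nat_lit 625) (nat_lit 657)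 (nat_lit 4624) (.d (nat_lit 590) (nat_lit 589) (nat_lit 589) (nat_lit 626) (nat_lit 590)))))))))
noncomputable def s15056 : Cert := .r (nat_lit 113463316336589651211959734824295341853549626569726388979687718263983817089279181096444238202072069299082973864041754503317399195792619380561286577137194885792107616800548207984640) (.p (nat_lit 591) (.a (.f (nat_lit 622) (nat_lit 623) (nat_lit 1614) (.f (nat_lit 590) (nat_lit 621) (nat_lit 1613) (.d (nat_lit 558) (nat_lit 557) (nat_lit 3629) (nat_lit 559) (nat_lit 3630)))) (.a (.f (nat_lit 626) (nat_lit 627) (nat_lit 591) (.f (nat_lit 562) (nat_lit 563) (nat_lit 2607) (.f (nat_lit 625) (nat_lit 590) (nat_lit 590) (.d (nat_lit 530) (nat_lit 497) (nat_lit 7665) (nat_lit 498) (nat_lit 5617))))) (.f (nat_lit 559) (nat_lit 558) (nat_lit 3630) (.f (nat_lit 623) (nat_lit 622) (nat_lit 1614) (.f (nat_lit 655) (nat_lit 560) (nat_lit 6671) (.f (nat_lit 688) (nat_lit 656) (nat_lit 4655) (.f (nat_lit 687)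 (nat_lit 720) (nat_lit 4687) (.d (nat_lit 686) (nat_lit 654) (nat_lit 5678) (nat_lit 718) (nat_lit 5710))))))))))
noncomputable def s15057 : Cert := .r (nat_lit 48627135572824136235203361954120948868980154190938312417255572487567366910952491308948815562273572513329881885740179672342474960239310391375554157854164203181776651122399621677056) (.p (nat_lit 594) (.a (.p (nat_lit 560) (.a (.f (nat_lit 624) (nat_lit 497) (nat_lit 6640) (.d (nat_lit 595) (nat_lit 559) (nat_lit 3631) (nat_lit 623) (nat_lit 1615))) (.a (.f (nat_lit 559) (nat_lit 595) (nat_lit 3631) (.d (nat_lit 558) (nat_lit 557) (nat_lit 557) (nat_lit 591) (nat_lit 3630))) (.a (.f (nat_lit 624) (nat_lit 497) (nat_lit 6640) (.d (nat_lit 623) (nat_lit 595) (nat_lit 1615) (nat_lit 655) (nat_lit 5647))) (.f (nat_lit 624) (nat_lit 497) (nat_lit 6640) (.f (nat_lit 625) (nat_lit 657) (nat_lit 4624) (.d (nat_lit 623) (nat_lit 622) (nat_lit 2638) (nat_lit 655) (nat_lit 5647)))))))) (.a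 (.p (nat_lit 591) (.a (.f (nat_lit 622) (nat_lit 623) (nat_lit 1614) (.f (nat_lit 590) (nat_lit 621) (nat_lit 1613) (.d (nat_lit 558) (nat_lit 557) (nat_lit 3629) (nat_lit 559) (nat_lit 3630)))) (.a (.f (nat_lit 563) (nat_lit 562) (nat_lit 2607) (.f (nat_lit 595) (nat_lit 564) (nat_lit 2608) (.d (nat_lit 623) (nat_lit 622) (nat_lit 1614) (nat_lit 624) (nat_lit 1615)))) (.f (nat_lit 626) (nat_lit 627) (nat_lit 591) (.f (nat_lit 562) (nat_lit 563) (nat_lit 2607) (.f (nat_lit 625) (nat_lit 590) (nat_lit 590) (.d (nat_lit 530) (nat_lit 497) (nat_lit 7665) (nat_lit 498) (nat_lit 5617)))))))) (.a s15039 (.a s15040 (.a s15048 (.a (.p (nat_lit 591) (.a (.f (nat_lit 559) (nat_lit 558) (nat_lit 3630) (.f (nat_lit 560) (nat_lit 595) (nat_lit 3631) (.d (nat_lit 623) (nat_lit 622) (nat_lit 1614) (nat_lit 655) (nat_lit 6671)))) (.a (.f (nat_lit 622) (nat_lit 623) (nat_lit 1614) (.f (nat_lit 590) (nat_lit 621) (nat_lit 1613) (.d (nat_lit 558) (nat_lit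 557) (nat_lit 3629) (nat_lit 559) (nat_lit 3630)))) (.f (nat_lit 626) (nat_lit 627) (nat_lit 591) (.f (nat_lit 562) (nat_lit 563) (nat_lit 2607) (.f (nat_lit 625) (nat_lit 590) (nat_lit 590) (.d (nat_lit 530) (nat_lit 497) (nat_lit 7665) (nat_lit 498) (nat_lit 5617)))))))) (.a s15055 s15056))))))))
noncomputable def s15064 : Cert := .r (nat_lit 48627135580372061084846444658604058030956691972772154858088453344319779511443739633733113266445825963685199420823116422404002650038851560635403743119287071684642043209698412331008) (.p (nat_lit 560) (.a (.f (nat_lit 625) (nat_lit 657) (nat_lit 7696) (.f (nat_lit 624) (nat_lit 656) (nat_lit 5648) (.f (nat_lit 623) (nat_lit 655) (nat_lit 5647) (.d (nat_lit 594) (nat_lit 595) (nat_lit 1615) (nat_lit 622) (nat_lit 2638))))) (.a (.f (nat_lit 625) (nat_lit 657) (nat_lit 7696) (.f (nat_lit 626) (nat_lit 658) (nat_lit 4625) (.f (nat_lit 591) (nat_lit 590) (nat_lit 590) (.d (nat_lit 627) (nat_lit 594)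 (nat_lit 591) (nat_lit 628) (nat_lit 3664))))) (.a (.f (nat_lit 624) (nat_lit 656) (nat_lit 6672) (.f (nat_lit 623) (nat_lit 655) (nat_lit 5647) (.f (nat_lit 594) (nat_lit 595) (nat_lit 1615) (.d (nat_lit 622) (nat_lit 591) (nat_lit 1614) (nat_lit 621) (nat_lit 2637))))) (.f (nat_lit 625) (nat_lit 657) (nat_lit 7696) (.f (nat_lit 624) (nat_lit 656) (nat_lit 5648) (.f (nat_lit 626) (nat_lit 658) (nat_lit 4625) (.d (nat_lit 591) (nat_lit 590) (nat_lit 590) (nat_lit 627) (nat_lit 3663)))))))))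
noncomputable def s15078 : Cert := .r (nat_lit 48627135580372061084846444658604058030956691972772154858088453344319779511443739633733113266445825963685199420823116422404002650038851560635403743119287071684642043209698412331008) (.p (nat_lit 625) (.a (.f (nat_lit 626) (nat_lit 658) (nat_lit 4625) (.f (nat_lit 591) (nat_lit 590) (nat_lit 590) (.d (nat_lit 627) (nat_lit 594) (nat_lit 591) (nat_lit 628) (nat_lit 3664)))) (.a (.f (nat_lit 560) (nat_lit 657) (nat_lit 7696) (.f (nat_lit 497) (nat_lit 465) (nat_lit 5584) (.d (nat_lit 626) (nat_lit 594) (nat_lit 4593) (nat_lit 658) (nat_lit 4625)))) (.a (.f (nat_lit 657) (nat_lit 560) (nat_lit 7696) (.d (nat_lit 658) (nat_lit 626) (nat_lit 4625) (nat_lit 690) (nat_lit 4657))) (.a (.f (nat_lit 657) (nat_lit 560) (nat_lit 7696) (.f (nat_lit 688) (nat_lit 656) (nat_lit 5680) (.f (nat_lit 689) (nat_lit 720) (nat_lit 5712) (.d (nat_lit 690) (nat_lit 658) (nat_lit 4657) (nat_lit 722) (nat_lit 4689)))))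 (.f (nat_lit 560) (nat_lit 657) (nat_lit 7696) (.f (nat_lit 497) (nat_lit 465) (nat_lit 5584) (.f (nat_lit 594) (nat_lit 626) (nat_lit 4593) (.d (nat_lit 559) (nat_lit 558) (nat_lit 558) (nat_lit 595) (nat_lit 3631))))))))))
noncomputable def s15079 : Cert := .r (nat_lit 48627135572824136235203361954120948868980154190938312417255572487567366910952491308948815562273572513329881885740179672342474960239310391375554157854164203181776651122399621677056) (.p (nat_lit 561) (.a (.f (nat_lit 497) (nat_lit 624) (nat_lit 5616) (.f (nat_lit 594) (nat_lit 626) (nat_lit 4593) (.f (nat_lit 562) (nat_lit 465) (nat_lit 4561) (.d (nat_lit 563) (nat_lit 564) (nat_lit 1584) (nat_lit 591) (nat_lit 2607))))) (.a s15064 (.a (.f (nat_lit 624) (nat_lit 497) (nat_lit 5616) (.d (nat_lit 656) (nat_lit 625) (nat_lit 5648) (nat_lit 688) (nat_lit 6704))) s15078))))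
noncomputable def s15090 : Cert := .r (nat_lit 48627135572824136235203361954120948868980154190938312417255572487567366910952491308948815562273572513329881885740179672342474960239310391375554157854164203181776651122399621677056) (.p (nat_lit 560) (.a (.f (nat_lit 624) (nat_lit 497) (nat_lit 6640) (.f (nat_lit 625) (nat_lit 657) (nat_lit 4624) (.f (nat_lit 623) (nat_lit 655) (nat_lit 5647) (.d (nat_lit 594) (nat_lit 595) (nat_lit 1615) (nat_lit 622) (nat_lit 2638))))) (.a (.p (nat_lit 624) (.a (.f (nat_lit 561) (nat_lit 656) (nat_lit 6672) (.f (nat_lit 625) (nat_lit 657) (nat_lit 4624) (.f (nat_lit 530) (nat_lit 498) (nat_lit 6641) (.d (nat_lit 531) (nat_lit 532) (nat_lit 1552) (nat_lit 559) (nat_lit 1551))))) (.a (.f (nat_lit 623) (nat_lit 655) (nat_lit 5647) (.f (nat_lit 625) (nat_lit 657) (nat_lit 4624) (.d (nat_lit 594) (nat_lit 595) (nat_lit 1615) (nat_lit 622) (nat_lit 2638)))) (.f (nat_lit 656) (nat_lit 561) (nat_lit 6672) (.d (nat_lit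 655) (nat_lit 623) (nat_lit 5647) (nat_lit 687) (nat_lit 5679)))))) (.a (.p (nat_lit 561) (.a (.f (nat_lit 625) (nat_lit 657) (nat_lit 7696) (.f (nat_lit 530) (nat_lit 498) (nat_lit 6641) (.d (nat_lit 531) (nat_lit 532) (nat_lit 1552) (nat_lit 559) (nat_lit 1551)))) (.a (.f (nat_lit 497) (nat_lit 465) (nat_lit 5584) (.f (nat_lit 594) (nat_lit 626) (nat_lit 4593) (.d (nat_lit 559) (nat_lit 558) (nat_lit 558) (nat_lit 595) (nat_lit 3631)))) (.f (nat_lit 625) (nat_lit 657) (nat_lit 7696) (.f (nat_lit 626) (nat_lit 658) (nat_lit 4625) (.d (nat_lit 497) (nat_lit 465) (nat_lit 5584) (nat_lit 594) (nat_lit 4593))))))) (.f (nat_lit 624) (nat_lit 497) (nat_lit 6640) (.f (nat_lit 656) (nat_lit 561) (nat_lit 6672) (.d (nat_lit 655) (nat_lit 623) (nat_lit 5647) (nat_lit 687) (nat_lit 5679))))))))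
noncomputable def s15105 : Cert := .r (nat_lit 56731658168294825607297908562892747992051338238286821987559590709619423183243327532385743392248384611549018383027876526214340489683474015023770710264543038508068021832168194965504) (.p (nat_lit 594) (.a (.f (nat_lit 562) (nat_lit 563) (nat_lit 2607) (.f (nat_lit 626) (nat_lit 627) (nat_lit 591) (.d (nat_lit 561) (nat_lit 590) (nat_lit 2606) (nat_lit 658) (nat_lit 7697)))) (.a (.f (nat_lit 626) (nat_lit 627) (nat_lit 591) (.f (nat_lit 562) (nat_lit 563) (nat_lit 2607) (.f (nat_lit 625) (nat_lit 590) (nat_lit 590) (.d (nat_lit 530) (nat_lit 497) (nat_lit 7665) (nat_lit 498) (nat_lit 5617))))) (.a (.f (nat_lit 626) (nat_lit 627) (nat_lit 591) (.f (nat_lit 561) (nat_lit 497) (nat_lit 4593) (.d (nat_lit 625) (nat_lit 590) (nat_lit 590) (nat_lit 658) (nat_lit 4625)))) (.a (.f (nat_lit 626) (nat_lit 627) (nat_lit 591) (.f (nat_lit 562) (nat_lit 563) (nat_lit 2607) (.d (nat_lit 497) (nat_lit 530)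 (nat_lit 7665) (nat_lit 561) (nat_lit 4593)))) (.f (nat_lit 562) (nat_lit 563) (nat_lit 2607) (.f (nat_lit 561) (nat_lit 590) (nat_lit 2606) (.f (nat_lit 497) (nat_lit 465) (nat_lit 4561) (.f (nat_lit 498) (nat_lit 466) (nat_lit 6609) (.f (nat_lit 530) (nat_lit 625) (nat_lit 6641) (.d (nat_lit 499) (nat_lit 467) (nat_lit 6610) (nat_lit 500) (nat_lit 1520))))))))))))
noncomputable def s15110 : Cert := .r (nat_lit 56731658168294825607297908562892747992051338238286821987559590709619423183243327532385743392248384611549018383027876526214340489683474015023770710264543038508068021832168194965504) (.p (nat_lit 590) (.a (.f (nat_lit 561) (nat_lit 562) (nat_lit 2606) (.f (nat_lit 625) (nat_lit 626) (nat_lit 590) (.d (nat_lit 560) (nat_lit 589) (nat_lit 2605) (nat_lit 657) (nat_lit 7696)))) (.a (.f (nat_lit 557) (nat_lit 558) (nat_lit 3629) (.f (nat_lit 589) (nat_lit 556) (nat_lit 3628) (.d (nat_lit 621) (nat_lit 620) (nat_lit 1612) (nat_lit 622)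 (nat_lit 1613)))) (.f (nat_lit 561) (nat_lit 562) (nat_lit 2606) (.f (nat_lit 625) (nat_lit 626) (nat_lit 590) (.f (nat_lit 560) (nat_lit 657) (nat_lit 7696) (.f (nat_lit 558) (nat_lit 557) (nat_lit 3629) (.d (nat_lit 530) (nat_lit 498) (nat_lit 6641) (nat_lit 559) (nat_lit 2574)))))))))
noncomputable def s15112 : Cert := .r (nat_lit 56731658168294825607297908562892747992051338238286821987559590709619423183243327532385743392248384611549018383027876526214340489683474015023770710264543038508068021832168194965504) (.p (nat_lit 594) (.a (.f (nat_lit 559) (nat_lit 558) (nat_lit 3630) (.f (nat_lit 560) (nat_lit 595) (nat_lit 3631) (.d (nat_lit 623) (nat_lit 622) (nat_lit 1614) (nat_lit 655) (nat_lit 6671)))) (.a (.f (nat_lit 622) (nat_lit 623) (nat_lit 1614) (.f (nat_lit 590) (nat_lit 621) (nat_lit 1613) (.d (nat_lit 558) (nat_lit 557) (nat_lit 3629) (nat_lit 559) (nat_lit 3630)))) (.f (nat_lit 562) (nat_lit 563) (nat_lit 2607) (.f (nat_lit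 561) (nat_lit 590) (nat_lit 2606) (.f (nat_lit 497) (nat_lit 465) (nat_lit 4561) (.f (nat_lit 498) (nat_lit 466) (nat_lit 6609) (.f (nat_lit 530) (nat_lit 625) (nat_lit 6641) (.d (nat_lit 499) (nat_lit 467) (nat_lit 6610) (nat_lit 500) (nat_lit 1520))))))))))
noncomputable def s15113 : Cert := .r (nat_lit 48627135572824136235203361954120948868980154190938312417255572487567366910952491308948815562273572513329881885740179672342474960239310391375554157854164203181776651122399621677056) (.p (nat_lit 591) (.a (.p (nat_lit 594) (.a (.f (nat_lit 559) (nat_lit 558) (nat_lit 3630) (.f (nat_lit 560) (nat_lit 595) (nat_lit 3631) (.d (nat_lit 623) (nat_lit 622) (nat_lit 1614) (nat_lit 655) (nat_lit 6671)))) (.f (nat_lit 562) (nat_lit 563) (nat_lit 2607) (.f (nat_lit 626) (nat_lit 627) (nat_lit 591) (.d (nat_lit 561) (nat_lit 590) (nat_lit 2606) (nat_lit 658) (nat_lit 7697)))))) (.a (.p (nat_lit 594) (.a (.f (nat_lit 562) (nat_lit 563) (nat_lit 2607)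 (.f (nat_lit 626) (nat_lit 627) (nat_lit 591) (.d (nat_lit 561) (nat_lit 590) (nat_lit 2606) (nat_lit 658) (nat_lit 7697)))) (.a (.f (nat_lit 622) (nat_lit 623) (nat_lit 1614) (.f (nat_lit 590) (nat_lit 621) (nat_lit 1613) (.d (nat_lit 558) (nat_lit 557) (nat_lit 3629) (nat_lit 559) (nat_lit 3630)))) (.f (nat_lit 626) (nat_lit 627) (nat_lit 591) (.f (nat_lit 562) (nat_lit 563) (nat_lit 2607) (.d (nat_lit 497) (nat_lit 530) (nat_lit 7665) (nat_lit 561) (nat_lit 4593))))))) (.a (.p (nat_lit 594) (.a (.f (nat_lit 559) (nat_lit 558) (nat_lit 3630) (.f (nat_lit 560) (nat_lit 595) (nat_lit 3631) (.d (nat_lit 623) (nat_lit 622) (nat_lit 1614) (nat_lit 655) (nat_lit 6671)))) (.a (.f (nat_lit 622) (nat_lit 623) (nat_lit 1614) (.f (nat_lit 590) (nat_lit 621) (nat_lit 1613) (.d (nat_lit 558) (nat_lit 557) (nat_lit 3629) (nat_lit 559) (nat_lit 3630)))) (.f (nat_lit 626) (nat_lit 627) (nat_lit 591) (.f (nat_lit 562) (nat_lit 563) (nat_lit 2607) (.f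 (nat_lit 625) (nat_lit 590) (nat_lit 590) (.d (nat_lit 530) (nat_lit 497) (nat_lit 7665) (nat_lit 498) (nat_lit 5617)))))))) (.a s15105 (.a (.p (nat_lit 594) (.a (.f (nat_lit 559) (nat_lit 558) (nat_lit 3630) (.f (nat_lit 560) (nat_lit 595) (nat_lit 3631) (.d (nat_lit 623) (nat_lit 622) (nat_lit 1614) (nat_lit 655) (nat_lit 6671)))) (.a (.f (nat_lit 622) (nat_lit 623) (nat_lit 1614) (.f (nat_lit 590) (nat_lit 621) (nat_lit 1613) (.d (nat_lit 558) (nat_lit 557) (nat_lit 3629) (nat_lit 559) (nat_lit 3630)))) (.f (nat_lit 626) (nat_lit 627) (nat_lit 591) (.f (nat_lit 561) (nat_lit 497) (nat_lit 4593) (.d (nat_lit 625) (nat_lit 590) (nat_lit 590) (nat_lit 658) (nat_lit 4625))))))) (.a s15110 (.a (.p (nat_lit 594) (.a (.f (nat_lit 559) (nat_lit 558) (nat_lit 3630) (.f (nat_lit 560) (nat_lit 595) (nat_lit 3631) (.d (nat_lit 623) (nat_lit 622) (nat_lit 1614) (nat_lit 655) (nat_lit 6671)))) (.f (nat_lit 626) (nat_lit 627) (nat_lit 591) (.f (nat_lit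 562) (nat_lit 563) (nat_lit 2607) (.d (nat_lit 497) (nat_lit 530) (nat_lit 7665) (nat_lit 561) (nat_lit 4593)))))) s15112))))))))
noncomputable def s15128 : Cert := .r (nat_lit 56731658168294825607297908562892747992051338238286821987559590709619423183243327532385743392248384611549018383027876526214340489683474015023770710264543038508068021832168194965504) (.p (nat_lit 561) (.a (.f (nat_lit 562) (nat_lit 590) (nat_lit 2606) (.d (nat_lit 563) (nat_lit 564) (nat_lit 1584) (nat_lit 594) (nat_lit 2607))) (.a (.f (nat_lit 497) (nat_lit 624) (nat_lit 5616) (.f (nat_lit 594) (nat_lit 626) (nat_lit 4593) (.f (nat_lit 560) (nat_lit 465) (nat_lit 5584) (.f (nat_lit 590) (nat_lit 589) (nat_lit 2605) (.d (nat_lit 622) (nat_lit 621) (nat_lit 1613) (nat_lit 623) (nat_lit 1614)))))) (.a (.f (nat_lit 590) (nat_lit 562) (nat_lit 2606) (.f (nat_lit 557) (nat_lit 558) (nat_lit 3629) (.f (nat_lit 589) (nat_lit 556) (nat_lit 3628) (.d (nat_lit 621) (nat_lit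 620) (nat_lit 1612) (nat_lit 622) (nat_lit 1613))))) (.f (nat_lit 497) (nat_lit 624) (nat_lit 5616) (.f (nat_lit 594) (nat_lit 626) (nat_lit 4593) (.d (nat_lit 465) (nat_lit 560) (nat_lit 5584) (nat_lit 562) (nat_lit 4561))))))))
noncomputable def s15136 : Cert := .r (nat_lit 56731658168294825607297908562892747992051338238286821987559590709619423183243327532385743392248384611549018383027876526214340489683474015023770710264543038508068021832168194965504) (.p (nat_lit 594) (.a (.f (nat_lit 559) (nat_lit 558) (nat_lit 3630) (.f (nat_lit 560) (nat_lit 595) (nat_lit 3631) (.d (nat_lit 623) (nat_lit 622) (nat_lit 1614) (nat_lit 655) (nat_lit 6671)))) (.a (.f (nat_lit 622) (nat_lit 623) (nat_lit 1614) (.f (nat_lit 590) (nat_lit 621) (nat_lit 1613) (.d (nat_lit 558) (nat_lit 557) (nat_lit 3629) (nat_lit 559) (nat_lit 3630)))) (.a (.f (nat_lit 623) (nat_lit 622) (nat_lit 1614) (.f (nat_lit 624) (nat_lit 595) (nat_lit 1615) (.d (nat_lit 497) (nat_lit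 560) (nat_lit 6640) (nat_lit 561) (nat_lit 5616)))) (.f (nat_lit 559) (nat_lit 558) (nat_lit 3630) (.f (nat_lit 560) (nat_lit 595) (nat_lit 3631) (.f (nat_lit 497) (nat_lit 624) (nat_lit 6640) (.d (nat_lit 465) (nat_lit 433) (nat_lit 5552) (nat_lit 561) (nat_lit 5584)))))))))
noncomputable def s15140 : Cert := .r (nat_lit 56731658168294825607297908562892747992051338238286821987559590709619423183243327532385743392248384611549018383027876526214340489683474015023770710264543038508068021832168194965504) (.p (nat_lit 561) (.a (.f (nat_lit 562) (nat_lit 590) (nat_lit 2606) (.d (nat_lit 563) (nat_lit 564) (nat_lit 1584) (nat_lit 594) (nat_lit 2607))) (.a (.f (nat_lit 497) (nat_lit 624) (nat_lit 5616) (.f (nat_lit 594) (nat_lit 626) (nat_lit 4593) (.f (nat_lit 560) (nat_lit 465) (nat_lit 5584) (.f (nat_lit 590) (nat_lit 589) (nat_lit 2605) (.d (nat_lit 622) (nat_lit 621) (nat_lit 1613) (nat_lit 623) (nat_lit 1614)))))) (.a (.f (nat_lit 497)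 (nat_lit 624) (nat_lit 5616) (.f (nat_lit 560) (nat_lit 465) (nat_lit 5584) (.d (nat_lit 562) (nat_lit 563) (nat_lit 1583) (nat_lit 590) (nat_lit 2606)))) (.f (nat_lit 497) (nat_lit 624) (nat_lit 5616) (.f (nat_lit 594) (nat_lit 626) (nat_lit 4593) (.d (nat_lit 465) (nat_lit 560) (nat_lit 5584) (nat_lit 562) (nat_lit 4561))))))))
noncomputable def s15151 : Cert := .r (nat_lit 56731658168294825607297908562892747992051338238286821987559590709619423183243327532385743392248384611549018383027876526214340489683474015023770710264543038508068021832168194965504) (.p (nat_lit 561) (.a (.f (nat_lit 590) (nat_lit 562) (nat_lit 2606) (.f (nat_lit 557) (nat_lit 558) (nat_lit 3629) (.f (nat_lit 589) (nat_lit 556) (nat_lit 3628) (.d (nat_lit 621) (nat_lit 620) (nat_lit 1612) (nat_lit 622) (nat_lit 1613))))) (.a (.f (nat_lit 497) (nat_lit 624) (nat_lit 5616) (.f (nat_lit 560) (nat_lit 465) (nat_lit 5584) (.f (nat_lit 590) (nat_lit 589) (nat_lit 2605)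 (.f (nat_lit 558) (nat_lit 557) (nat_lit 3629) (.f (nat_lit 559) (nat_lit 530) (nat_lit 2574) (.f (nat_lit 623) (nat_lit 655) (nat_lit 6671) (.d (nat_lit 526) (nat_lit 494) (nat_lit 4590) (nat_lit 525) (nat_lit 3597)))))))) (.a (.f (nat_lit 497) (nat_lit 624) (nat_lit 5616) (.f (nat_lit 560) (nat_lit 465) (nat_lit 5584) (.d (nat_lit 562) (nat_lit 563) (nat_lit 1583) (nat_lit 590) (nat_lit 2606)))) (.f (nat_lit 497) (nat_lit 624) (nat_lit 5616) (.f (nat_lit 465) (nat_lit 560) (nat_lit 5584) (.d (nat_lit 466) (nat_lit 434) (nat_lit 6577) (nat_lit 498) (nat_lit 6609))))))))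
noncomputable def s15153 : Cert := .r (nat_lit 48627135572824136235203361954120948868980154190938312417255572487567366910952491308948815562273572513329881885740179672342474960239310391375554157854164203181776651122399621677056) (.p (nat_lit 591) (.a (.p (nat_lit 594) (.a (.f (nat_lit 559) (nat_lit 558) (nat_lit 3630) (.f (nat_lit 560) (nat_lit 595) (nat_lit 3631) (.d (nat_lit 623) (nat_lit 622) (nat_lit 1614) (nat_lit 655) (nat_lit 6671)))) (.f (nat_lit 562) (nat_lit 563) (nat_lit 2607) (.f (nat_lit 626) (nat_lit 627) (nat_lit 591) (.d (nat_lit 561) (nat_lit 590) (nat_lit 2606) (nat_lit 658) (nat_lit 7697)))))) (.a (.p (nat_lit 594) (.a (.f (nat_lit 562) (nat_lit 563) (nat_lit 2607) (.f (nat_lit 626) (nat_lit 627) (nat_lit 591) (.d (nat_lit 561) (nat_lit 590) (nat_lit 2606) (nat_lit 658) (nat_lit 7697)))) (.a (.f (nat_lit 622) (nat_lit 623) (nat_lit 1614) (.f (nat_lit 590) (nat_lit 621) (nat_lit 1613) (.d (nat_lit 558) (nat_lit 557)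 (nat_lit 3629) (nat_lit 559) (nat_lit 3630)))) (.f (nat_lit 563) (nat_lit 562) (nat_lit 2607) (.f (nat_lit 595) (nat_lit 564) (nat_lit 2608) (.d (nat_lit 623) (nat_lit 622) (nat_lit 1614) (nat_lit 624) (nat_lit 1615))))))) (.a s14982 (.a s15128 (.a s15136 (.a s15140 (.a s15151 (.a (.p (nat_lit 561) (.a (.f (nat_lit 562) (nat_lit 590) (nat_lit 2606) (.d (nat_lit 563) (nat_lit 564) (nat_lit 1584) (nat_lit 594) (nat_lit 2607))) (.f (nat_lit 497) (nat_lit 624) (nat_lit 5616) (.f (nat_lit 465) (nat_lit 560) (nat_lit 5584) (.d (nat_lit 466) (nat_lit 434) (nat_lit 6577) (nat_lit 498) (nat_lit 6609)))))) s15023)))))))))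
noncomputable def s15165 : Cert := .r (nat_lit 48627135572824136235203361954120948868980154190938312417255572487567366910952491308948815562273572513329881885740179672342474960239310391375554157854164203181776651122399621677056) (.p (nat_lit 624) (.a (.d (nat_lit 497) (nat_lit 560) (nat_lit 6640) (nat_lit 561) (nat_lit 5616)) (.a (.f (nat_lit 561) (nat_lit 497) (nat_lit 5616) (.d (nat_lit 656) (nat_lit 625) (nat_lit 5648) (nat_lit 688) (nat_lit 6704))) (.a (.p (nat_lit 560) (.a (.f (nat_lit 561) (nat_lit 656) (nat_lit 6672) (.f (nat_lit 625) (nat_lit 657) (nat_lit 4624) (.f (nat_lit 530) (nat_lit 498) (nat_lit 6641) (.d (nat_lit 531) (nat_lit 532) (nat_lit 1552) (nat_lit 559) (nat_lit 1551))))) (.a (.f (nat_lit 625) (nat_lit 657) (nat_lit 4624) (.f (nat_lit 623) (nat_lit 655) (nat_lit 5647) (.f (nat_lit 622) (nat_lit 621) (nat_lit 2637) (.f (nat_lit 590) (nat_lit 589) (nat_lit 3661) (.f (nat_lit 626) (nat_lit 591) (nat_lit 590) (.f (nat_lit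 627) (nat_lit 628) (nat_lit 3664) (.d (nat_lit 659) (nat_lit 658) (nat_lit 623) (nat_lit 660) (nat_lit 624)))))))) (.f (nat_lit 656) (nat_lit 561) (nat_lit 6672) (.d (nat_lit 655) (nat_lit 623) (nat_lit 5647) (nat_lit 687) (nat_lit 5679)))))) (.f (nat_lit 560) (nat_lit 497) (nat_lit 6640) (.f (nat_lit 625) (nat_lit 657) (nat_lit 4624) (.f (nat_lit 623) (nat_lit 655) (nat_lit 5647) (.f (nat_lit 622) (nat_lit 621) (nat_lit 2637) (.f (nat_lit 590) (nat_lit 589) (nat_lit 3661) (.f (nat_lit 626) (nat_lit 591) (nat_lit 590) (.f (nat_lit 627) (nat_lit 628) (nat_lit 3664) (.d (nat_lit 659) (nat_lit 658) (nat_lit 623) (nat_lit 660) (nat_lit 624)))))))))))))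
noncomputable def s15169 : Cert := .r (nat_lit 48627135572824136235203361954120948868980154190938312417255572487567366910952491308948815562273572513329881885740179672342474960239310391375554157854164203181776651122399621677056) (.p (nat_lit 561) (.a (.f (nat_lit 497) (nat_lit 624) (nat_lit 5616) (.f (nat_lit 594) (nat_lit 626) (nat_lit 4593) (.f (nat_lit 562) (nat_lit 465) (nat_lit 4561) (.d (nat_lit 563) (nat_lit 564) (nat_lit 1584) (nat_lit 591) (nat_lit 2607))))) (.a (.p (nat_lit 625) (.a (.f (nat_lit 626) (nat_lit 658) (nat_lit 4625) (.f (nat_lit 591) (nat_lit 590) (nat_lit 590) (.d (nat_lit 627) (nat_lit 594) (nat_lit 591) (nat_lit 628) (nat_lit 3664)))) (.f (nat_lit 657) (nat_lit 560) (nat_lit 7696) (.d (nat_lit 530) (nat_lit 498) (nat_lit 6641) (nat_lit 562) (nat_lit 6673))))) (.a (.f (nat_lit 497) (nat_lit 624) (nat_lit 5616) (.f (nat_lit 498) (nat_lit 466) (nat_lit 6609) (.f (nat_lit 530) (nat_lit 625) (nat_lit 6641) (.f (nat_lit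 594) (nat_lit 626) (nat_lit 4593) (.f (nat_lit 562) (nat_lit 465) (nat_lit 4561) (.d (nat_lit 499) (nat_lit 467) (nat_lit 6610) (nat_lit 500) (nat_lit 1520))))))) (.a (.f (nat_lit 497) (nat_lit 624) (nat_lit 5616) (.f (nat_lit 498) (nat_lit 466) (nat_lit 6609) (.f (nat_lit 625) (nat_lit 530) (nat_lit 6641) (.d (nat_lit 626) (nat_lit 594) (nat_lit 4593) (nat_lit 658) (nat_lit 4625))))) (.f (nat_lit 624) (nat_lit 497) (nat_lit 5616) (.d (nat_lit 656) (nat_lit 625) (nat_lit 5648) (nat_lit 688) (nat_lit 6704))))))))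
noncomputable def s15173 : Cert := .r (nat_lit 48627135572824136235203361954120948868980154190938312417255572487567366910952491308948815562273572513329881885740179672342474960239310391375554157854164203181776651122399621677056) (.p (nat_lit 591) (.a s14982 (.a (.p (nat_lit 561) (.a (.f (nat_lit 562) (nat_lit 590) (nat_lit 2606) (.d (nat_lit 563) (nat_lit 564) (nat_lit 1584) (nat_lit 594) (nat_lit 2607))) (.f (nat_lit 624) (nat_lit 497) (nat_lit 5616) (.d (nat_lit 656) (nat_lit 625) (nat_lit 5648) (nat_lit 688) (nat_lit 6704))))) (.a s15136 (.a s15112 (.a s15151 s15023))))))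
noncomputable def s15197 : Cert := .r (nat_lit 56731658168294825607297908562892747992051338238286821987559590709619423183243327532385743392248384611549018383027876526214340489683474015023770710264543038508068021832168194965504) (.p (nat_lit 561) (.a (.f (nat_lit 590) (nat_lit 562) (nat_lit 2606) (.f (nat_lit 625) (nat_lit 626) (nat_lit 590) (.d (nat_lit 624) (nat_lit 589) (nat_lit 589) (nat_lit 656) (nat_lit 5648)))) (.a (.f (nat_lit 625) (nat_lit 496) (nat_lit 7664) (.d (nat_lit 626) (nat_lit 590) (nat_lit 590) (nat_lit 658) (nat_lit 4625))) (.a (.f (nat_lit 590) (nat_lit 562) (nat_lit 2606) (.f (nat_lit 557) (nat_lit 558) (nat_lit 3629) (.f (nat_lit 589) (nat_lit 556) (nat_lit 3628) (.d (nat_lit 621) (nat_lit 620) (nat_lit 1612) (nat_lit 622) (nat_lit 1613))))) (.f (nat_lit 625) (nat_lit 496) (nat_lit 7664) (.f (nat_lit 624) (nat_lit 656) (nat_lit 5648) (.d (nat_lit 626) (nat_lit 627) (nat_lit 3663) (nat_lit 658) (nat_lit 4625))))))))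
noncomputable def s15208 : Cert := .r (nat_lit 56731658168294825607297908562892747992051338238286821987559590709619423183243327532385743392248384611549018383027876526214340489683474015023770710264543038508068021832168194965504) (.p (nat_lit 594) (.a (.f (nat_lit 563) (nat_lit 562) (nat_lit 2607) (.f (nat_lit 595) (nat_lit 564) (nat_lit 2608) (.d (nat_lit 623) (nat_lit 622) (nat_lit 1614) (nat_lit 624) (nat_lit 1615)))) (.a (.f (nat_lit 623) (nat_lit 622) (nat_lit 1614) (.f (nat_lit 595) (nat_lit 624) (nat_lit 1615) (.d (nat_lit 627) (nat_lit 626) (nat_lit 591) (nat_lit 628) (nat_lit 592)))) (.a (.f (nat_lit 563) (nat_lit 562) (nat_lit 2607) (.f (nat_lit 595) (nat_lit 564) (nat_lit 2608) (.d (nat_lit 627) (nat_lit 626) (nat_lit 591) (nat_lit 628) (nat_lit 592)))) (.f (nat_lit 562) (nat_lit 563) (nat_lit 2607) (.f (nat_lit 626) (nat_lit 627) (nat_lit 591) (.f (nat_lit 658) (nat_lit 561) (nat_lit 7697) (.f (nat_lit 657) (nat_lit 689) (nat_lit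 5681) (.f (nat_lit 625) (nat_lit 530) (nat_lit 5649) (.f (nat_lit 659) (nat_lit 691) (nat_lit 4658) (.d (nat_lit 623) (nat_lit 622) (nat_lit 1614) (nat_lit 624) (nat_lit 623))))))))))))
noncomputable def s15234 : Cert := .r (nat_lit 56731658168294825607297908562892747992051338238286821987559590709619423183243327532385743392248384611549018383027876526214340489683474015023770710264543038508068021832168194965504) (.p (nat_lit 590) (.a (.f (nat_lit 625) (nat_lit 626) (nat_lit 590) (.f (nat_lit 589) (nat_lit 624) (nat_lit 589) (.d (nat_lit 557) (nat_lit 556) (nat_lit 3628) (nat_lit 558) (nat_lit 3629)))) (.a (.f (nat_lit 557) (nat_lit 558) (nat_lit 3629) (.f (nat_lit 589) (nat_lit 556) (nat_lit 3628) (.d (nat_lit 621) (nat_lit 620) (nat_lit 1612) (nat_lit 622) (nat_lit 1613)))) (.a (.f (nat_lit 625) (nat_lit 626) (nat_lit 590) (.f (nat_lit 560) (nat_lit 496) (nat_lit 4592) (.d (nat_lit 624) (nat_lit 589) (nat_lit 589) (nat_lit 657) (nat_lit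 4624)))) (.f (nat_lit 625) (nat_lit 626) (nat_lit 590) (.f (nat_lit 560) (nat_lit 496) (nat_lit 4592) (.d (nat_lit 657) (nat_lit 624) (nat_lit 4624) (nat_lit 689) (nat_lit 7728))))))))
noncomputable def s15236 : Cert := .r (nat_lit 48627135572824136235203361954120948868980154190938312417255572487567366910952491308948815562273572513329881885740179672342474960239310391375554157854164203181776651122399621677056) (.p (nat_lit 591) (.a s14982 (.a (.p (nat_lit 594) (.a (.f (nat_lit 622) (nat_lit 623) (nat_lit 1614) (.f (nat_lit 590) (nat_lit 621) (nat_lit 1613) (.d (nat_lit 558) (nat_lit 557) (nat_lit 3629) (nat_lit 559) (nat_lit 3630)))) (.a (.f (nat_lit 563) (nat_lit 562) (nat_lit 2607) (.f (nat_lit 595) (nat_lit 564) (nat_lit 2608) (.d (nat_lit 623) (nat_lit 622) (nat_lit 1614) (nat_lit 624) (nat_lit 1615)))) (.f (nat_lit 626) (nat_lit 627) (nat_lit 591) (.f (nat_lit 590) (nat_lit 625) (nat_lit 590) (.d (nat_lit 558) (nat_lit 557) (nat_lit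 3629) (nat_lit 559) (nat_lit 3630))))))) (.a (.p (nat_lit 594) (.a (.f (nat_lit 563) (nat_lit 562) (nat_lit 2607) (.f (nat_lit 595) (nat_lit 564) (nat_lit 2608) (.d (nat_lit 623) (nat_lit 622) (nat_lit 1614) (nat_lit 624) (nat_lit 1615)))) (.a (.f (nat_lit 623) (nat_lit 622) (nat_lit 1614) (.f (nat_lit 624) (nat_lit 595) (nat_lit 1615) (.f (nat_lit 626) (nat_lit 627) (nat_lit 591) (.f (nat_lit 625) (nat_lit 590) (nat_lit 590) (.d (nat_lit 560) (nat_lit 655) (nat_lit 5647) (nat_lit 657) (nat_lit 4624)))))) (.a (.f (nat_lit 563) (nat_lit 562) (nat_lit 2607) (.f (nat_lit 595) (nat_lit 564) (nat_lit 2608) (.d (nat_lit 627) (nat_lit 626) (nat_lit 591) (nat_lit 628) (nat_lit 592)))) (.f (nat_lit 623) (nat_lit 622) (nat_lit 1614) (.f (nat_lit 560) (nat_lit 496) (nat_lit 5615) (.d (nat_lit 655) (nat_lit 624) (nat_lit 5647) (nat_lit 687) (nat_lit 6703)))))))) (.a (.p (nat_lit 594) (.a (.f (nat_lit 559) (nat_lit 558) (nat_lit 3630) (.f (nat_lit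 560) (nat_lit 595) (nat_lit 3631) (.d (nat_lit 623) (nat_lit 622) (nat_lit 1614) (nat_lit 655) (nat_lit 6671)))) (.a (.f (nat_lit 622) (nat_lit 623) (nat_lit 1614) (.f (nat_lit 590) (nat_lit 621) (nat_lit 1613) (.d (nat_lit 558) (nat_lit 557) (nat_lit 3629) (nat_lit 559) (nat_lit 3630)))) (.a (.f (nat_lit 623) (nat_lit 622) (nat_lit 1614) (.f (nat_lit 624) (nat_lit 595) (nat_lit 1615) (.f (nat_lit 626) (nat_lit 627) (nat_lit 591) (.f (nat_lit 625) (nat_lit 590) (nat_lit 590) (.d (nat_lit 560) (nat_lit 655) (nat_lit 5647) (nat_lit 657) (nat_lit 4624)))))) (.f (nat_lit 626) (nat_lit 627) (nat_lit 591) (.f (nat_lit 590) (nat_lit 625) (nat_lit 590) (.d (nat_lit 558) (nat_lit 557) (nat_lit 3629) (nat_lit 559) (nat_lit 3630)))))))) (.a (.p (nat_lit 594) (.a (.f (nat_lit 559) (nat_lit 558) (nat_lit 3630) (.f (nat_lit 560) (nat_lit 595) (nat_lit 3631) (.d (nat_lit 623) (nat_lit 622) (nat_lit 1614) (nat_lit 655) (nat_lit 6671)))) (.a (.f (nat_lit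 622) (nat_lit 623) (nat_lit 1614) (.f (nat_lit 590) (nat_lit 621) (nat_lit 1613) (.d (nat_lit 558) (nat_lit 557) (nat_lit 3629) (nat_lit 559) (nat_lit 3630)))) (.f (nat_lit 563) (nat_lit 562) (nat_lit 2607) (.f (nat_lit 595) (nat_lit 564) (nat_lit 2608) (.d (nat_lit 627) (nat_lit 626) (nat_lit 591) (nat_lit 628) (nat_lit 592))))))) (.a s15234 (.a s15023 (.p (nat_lit 594) (.a (.f (nat_lit 559) (nat_lit 558) (nat_lit 3630) (.f (nat_lit 595) (nat_lit 560) (nat_lit 3631) (.d (nat_lit 563) (nat_lit 562) (nat_lit 2607) (nat_lit 564) (nat_lit 2608)))) (.a (.f (nat_lit 626) (nat_lit 627) (nat_lit 591) (.f (nat_lit 590) (nat_lit 625) (nat_lit 590) (.d (nat_lit 558) (nat_lit 557) (nat_lit 3629) (nat_lit 559) (nat_lit 3630)))) (.f (nat_lit 563) (nat_lit 562) (nat_lit 2607) (.f (nat_lit 595) (nat_lit 564) (nat_lit 2608) (.d (nat_lit 627) (nat_lit 626) (nat_lit 591) (nat_lit 628) (nat_lit 592)))))))))))))))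
noncomputable def s15237 : Cert := .r (nat_lit 48627135576598098660024903306362503449968423081855233637672012915943573211198115471340964414359699238507540653281648047373238805139080976005478950486725637433209347166049017004032) (.p (nat_lit 561) (.a (.f (nat_lit 625) (nat_lit 657) (nat_lit 7696) (.f (nat_lit 624) (nat_lit 656) (nat_lit 5648) (.f (nat_lit 623) (nat_lit 655) (nat_lit 5647) (.d (nat_lit 594) (nat_lit 595) (nat_lit 1615) (nat_lit 622) (nat_lit 2638))))) (.a (.f (nat_lit 625) (nat_lit 657) (nat_lit 7696) (.f (nat_lit 626) (nat_lit 658) (nat_lit 4625) (.f (nat_lit 591) (nat_lit 590) (nat_lit 590) (.d (nat_lit 627) (nat_lit 594) (nat_lit 591) (nat_lit 628) (nat_lit 3664))))) (.a (.f (nat_lit 624) (nat_lit 656) (nat_lit 6672) (.f (nat_lit 623) (nat_lit 655) (nat_lit 5647) (.f (nat_lit 594) (nat_lit 595) (nat_lit 1615) (.d (nat_lit 622) (nat_lit 591) (nat_lit 1614) (nat_lit 621) (nat_lit 2637))))) (.f (nat_lit 625) (nat_lit 657)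 (nat_lit 7696) (.f (nat_lit 624) (nat_lit 656) (nat_lit 5648) (.f (nat_lit 626) (nat_lit 658) (nat_lit 4625) (.d (nat_lit 591) (nat_lit 590) (nat_lit 590) (nat_lit 627) (nat_lit 3663)))))))))
noncomputable def s15252 : Cert := .r (nat_lit 48627135572824136235203361954120948868980154190938312417255572487567366910952491308948815562273572513329881885740179672342474960239310391375554157854164203181776651122399621677056) (.p (nat_lit 560) (.a s15237 (.a (.f (nat_lit 625) (nat_lit 496) (nat_lit 4592) (.d (nat_lit 657) (nat_lit 624) (nat_lit 4624) (nat_lit 689) (nat_lit 7728))) (.a (.f (nat_lit 496) (nat_lit 625) (nat_lit 4592) (.f (nat_lit 591) (nat_lit 623) (nat_lit 5615) (.f (nat_lit 561) (nat_lit 464) (nat_lit 4560) (.d (nat_lit 562) (nat_lit 563) (nat_lit 1583) (nat_lit 590) (nat_lit 2606))))) (.p (nat_lit 624) (.a (.f (nat_lit 656) (nat_lit 561) (nat_lit 6672) (.d (nat_lit 655) (nat_lit 623) (nat_lit 5647) (nat_lit 687) (nat_lit 5679)))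 (.a (.f (nat_lit 623) (nat_lit 655) (nat_lit 5647) (.f (nat_lit 594) (nat_lit 595) (nat_lit 1615) (.d (nat_lit 622) (nat_lit 591) (nat_lit 1614) (nat_lit 621) (nat_lit 2637)))) (.a (.f (nat_lit 656) (nat_lit 561) (nat_lit 6672) (.f (nat_lit 687) (nat_lit 655) (nat_lit 5679) (.f (nat_lit 688) (nat_lit 719) (nat_lit 5711) (.d (nat_lit 689) (nat_lit 657) (nat_lit 4656) (nat_lit 721) (nat_lit 4688))))) (.f (nat_lit 561) (nat_lit 656) (nat_lit 6672) (.f (nat_lit 496) (nat_lit 464) (nat_lit 4560) (.f (nat_lit 591) (nat_lit 623) (nat_lit 5615) (.d (nat_lit 562) (nat_lit 563) (nat_lit 1583) (nat_lit 590) (nat_lit 2606)))))))))))))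
noncomputable def s15267 : Cert := .r (nat_lit 48627135572824136235203361954120948868980154190938312417255572487567366910952491308948815562273572513329881885740179672342474960239310391375554157854164203181776651122399621677056) (.p (nat_lit 625) (.a (.d (nat_lit 496) (nat_lit 560) (nat_lit 4592) (nat_lit 561) (nat_lit 7664)) (.a (.f (nat_lit 561) (nat_lit 496) (nat_lit 7664) (.f (nat_lit 624) (nat_lit 656) (nat_lit 5648) (.f (nat_lit 626) (nat_lit 658) (nat_lit 4625) (.f (nat_lit 627) (nat_lit 628) (nat_lit 3664) (.f (nat_lit 595) (nat_lit 596) (nat_lit 2640) (.f (nat_lit 594) (nat_lit 623) (nat_lit 1615) (.f (nat_lit 530) (nat_lit 498) (nat_lit 6641) (.d (nat_lit 562) (nat_lit 657) (nat_lit 5649) (nat_lit 659) (nat_lit 4626))))))))) (.a (.p (nat_lit 561) (.a (.f (nat_lit 624) (nat_lit 656) (nat_lit 5648) (.f (nat_lit 626) (nat_lit 658) (nat_lit 4625) (.f (nat_lit 627) (nat_lit 628) (nat_lit 3664) (.f (nat_lit 595) (nat_lit 596) (nat_lit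 2640) (.f (nat_lit 594) (nat_lit 623) (nat_lit 1615) (.f (nat_lit 530) (nat_lit 498) (nat_lit 6641) (.d (nat_lit 562) (nat_lit 657) (nat_lit 5649) (nat_lit 659) (nat_lit 4626)))))))) (.a (.f (nat_lit 624) (nat_lit 656) (nat_lit 5648) (.f (nat_lit 657) (nat_lit 560) (nat_lit 4624) (.d (nat_lit 658) (nat_lit 626) (nat_lit 4625) (nat_lit 690) (nat_lit 4657)))) (.a (.f (nat_lit 657) (nat_lit 560) (nat_lit 7696) (.d (nat_lit 530) (nat_lit 498) (nat_lit 6641) (nat_lit 562) (nat_lit 6673))) (.f (nat_lit 624) (nat_lit 656) (nat_lit 5648) (.f (nat_lit 626) (nat_lit 658) (nat_lit 4625) (.f (nat_lit 627) (nat_lit 628) (nat_lit 3664) (.f (nat_lit 595) (nat_lit 596) (nat_lit 2640) (.f (nat_lit 594) (nat_lit 623) (nat_lit 1615) (.f (nat_lit 530) (nat_lit 498) (nat_lit 6641) (.d (nat_lit 659) (nat_lit 562) (nat_lit 4626) (nat_lit 660) (nat_lit 624)))))))))))) (.f (nat_lit 560) (nat_lit 496) (nat_lit 4592) (.d (nat_lit 657) (nat_lit 624) (nat_lit 4624)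 (nat_lit 689) (nat_lit 7728)))))))
noncomputable def s15278 : Cert := .r (nat_lit 48627135576598098660024903306362503449968423081855233637672012915943573211198115471340964414359699238507540653281648047373238805139080976005478950486725637433209347166049017004032) (.p (nat_lit 624) (.a (.f (nat_lit 656) (nat_lit 561) (nat_lit 6672) (.d (nat_lit 655) (nat_lit 623) (nat_lit 5647) (nat_lit 687) (nat_lit 5679))) (.a (.f (nat_lit 623) (nat_lit 655) (nat_lit 5647) (.f (nat_lit 594) (nat_lit 595) (nat_lit 1615) (.d (nat_lit 622) (nat_lit 591) (nat_lit 1614) (nat_lit 621) (nat_lit 2637)))) (.a (.f (nat_lit 656) (nat_lit 561) (nat_lit 6672) (.f (nat_lit 687) (nat_lit 655) (nat_lit 5679) (.f (nat_lit 688) (nat_lit 719) (nat_lit 5711) (.d (nat_lit 689) (nat_lit 657) (nat_lit 4656) (nat_lit 721) (nat_lit 4688))))) (.f (nat_lit 656) (nat_lit 561) (nat_lit 6672) (.f (nat_lit 689) (nat_lit 657) (nat_lit 4656) (.f (nat_lit 688) (nat_lit 721) (nat_lit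 4688) (.f (nat_lit 591) (nat_lit 559) (nat_lit 7727) (.f (nat_lit 623) (nat_lit 720) (nat_lit 7759) (.d (nat_lit 594) (nat_lit 595) (nat_lit 1615) (nat_lit 622) (nat_lit 1614)))))))))))
noncomputable def s15279 : Cert := .r (nat_lit 48627135572824136235203361954120948868980154190938312417255572487567366910952491308948815562273572513329881885740179672342474960239310391375554157854164203181776651122399621677056) (.p (nat_lit 560) (.a (.f (nat_lit 496) (nat_lit 625) (nat_lit 4592) (.f (nat_lit 591) (nat_lit 623) (nat_lit 5615) (.d (nat_lit 464) (nat_lit 559) (nat_lit 5583) (nat_lit 561) (nat_lit 4560)))) (.a s14902 (.a (.f (nat_lit 496) (nat_lit 625) (nat_lit 4592) (.f (nat_lit 591) (nat_lit 623) (nat_lit 5615) (.f (nat_lit 559) (nat_lit 464) (nat_lit 5583) (.d (nat_lit 558) (nat_lit 557) (nat_lit 557) (nat_lit 594) (nat_lit 3630))))) (.a s15237 (.a (.p (nat_lit 624) (.a (.f (nat_lit 561) (nat_lit 656) (nat_lit 6672) (.f (nat_lit 625) (nat_lit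 657) (nat_lit 4624) (.f (nat_lit 530) (nat_lit 498) (nat_lit 6641) (.d (nat_lit 531) (nat_lit 532) (nat_lit 1552) (nat_lit 559) (nat_lit 1551))))) (.a (.f (nat_lit 623) (nat_lit 655) (nat_lit 5647) (.f (nat_lit 625) (nat_lit 657) (nat_lit 4624) (.d (nat_lit 594) (nat_lit 595) (nat_lit 1615) (nat_lit 622) (nat_lit 2638)))) (.f (nat_lit 656) (nat_lit 561) (nat_lit 6672) (.d (nat_lit 655) (nat_lit 623) (nat_lit 5647) (nat_lit 687) (nat_lit 5679)))))) (.a s15278 (.f (nat_lit 625) (nat_lit 496) (nat_lit 4592) (.d (nat_lit 657) (nat_lit 624) (nat_lit 4624) (nat_lit 689) (nat_lit 7728))))))))))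
noncomputable def s15281 : Cert := .r (nat_lit 56731658168294825607297908562892747992051338238286821987559590709619423183243327532385743392248384611549018383027876526214340489683474015023770710264543038508068021832168194965504) (.p (nat_lit 594) (.a (.f (nat_lit 559) (nat_lit 558) (nat_lit 3630) (.f (nat_lit 560) (nat_lit 595) (nat_lit 3631) (.d (nat_lit 623) (nat_lit 622) (nat_lit 1614) (nat_lit 655) (nat_lit 6671)))) (.a (.f (nat_lit 563) (nat_lit 562) (nat_lit 2607) (.f (nat_lit 595) (nat_lit 564) (nat_lit 2608) (.d (nat_lit 627) (nat_lit 626) (nat_lit 591) (nat_lit 628) (nat_lit 592)))) (.f (nat_lit 559) (nat_lit 558) (nat_lit 3630) (.f (nat_lit 623) (nat_lit 622) (nat_lit 1614) (.f (nat_lit 655) (nat_lit 560) (nat_lit 6671) (.f (nat_lit 688) (nat_lit 656) (nat_lit 4655) (.f (nat_lit 687) (nat_lit 720) (nat_lit 4687) (.d (nat_lit 686) (nat_lit 654) (nat_lit 5678) (nat_lit 718) (nat_lit 5710))))))))))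
noncomputable def s15285 : Cert := .r (nat_lit 48627135572824136235203361954120948868980154190938312417255572487567366910952491308948815562273572513329881885740179672342474960239310391375554157854164203181776651122399621677056) (.p (nat_lit 591) (.a (.p (nat_lit 594) (.a (.f (nat_lit 559) (nat_lit 558) (nat_lit 3630) (.f (nat_lit 560) (nat_lit 595) (nat_lit 3631) (.d (nat_lit 623) (nat_lit 622) (nat_lit 1614) (nat_lit 655) (nat_lit 6671)))) (.f (nat_lit 562) (nat_lit 563) (nat_lit 2607) (.f (nat_lit 626) (nat_lit 627) (nat_lit 591) (.d (nat_lit 561) (nat_lit 590) (nat_lit 2606) (nat_lit 658) (nat_lit 7697)))))) (.a (.p (nat_lit 561) (.a (.f (nat_lit 562) (nat_lit 590) (nat_lit 2606) (.d (nat_lit 563) (nat_lit 564) (nat_lit 1584) (nat_lit 594) (nat_lit 2607))) (.a (.f (nat_lit 625) (nat_lit 496) (nat_lit 7664) (.d (nat_lit 626) (nat_lit 590) (nat_lit 590) (nat_lit 658) (nat_lit 4625))) (.f (nat_lit 625) (nat_lit 496) (nat_lit 7664) (.f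 (nat_lit 626) (nat_lit 658) (nat_lit 4625) (.d (nat_lit 627) (nat_lit 594) (nat_lit 591) (nat_lit 628) (nat_lit 3664))))))) (.a (.p (nat_lit 594) (.a (.f (nat_lit 559) (nat_lit 558) (nat_lit 3630) (.f (nat_lit 560) (nat_lit 595) (nat_lit 3631) (.d (nat_lit 623) (nat_lit 622) (nat_lit 1614) (nat_lit 655) (nat_lit 6671)))) (.a (.f (nat_lit 622) (nat_lit 623) (nat_lit 1614) (.f (nat_lit 590) (nat_lit 621) (nat_lit 1613) (.d (nat_lit 558) (nat_lit 557) (nat_lit 3629) (nat_lit 559) (nat_lit 3630)))) (.f (nat_lit 563) (nat_lit 562) (nat_lit 2607) (.f (nat_lit 595) (nat_lit 564) (nat_lit 2608) (.d (nat_lit 627) (nat_lit 626) (nat_lit 591) (nat_lit 628) (nat_lit 592))))))) (.a (.p (nat_lit 594) (.a (.f (nat_lit 559) (nat_lit 558) (nat_lit 3630) (.f (nat_lit 560) (nat_lit 595) (nat_lit 3631) (.d (nat_lit 623) (nat_lit 622) (nat_lit 1614) (nat_lit 655) (nat_lit 6671)))) (.a (.f (nat_lit 622) (nat_lit 623) (nat_lit 1614) (.f (nat_lit 590) (nat_lit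 621) (nat_lit 1613) (.d (nat_lit 558) (nat_lit 557) (nat_lit 3629) (nat_lit 559) (nat_lit 3630)))) (.f (nat_lit 626) (nat_lit 627) (nat_lit 591) (.f (nat_lit 625) (nat_lit 590) (nat_lit 590) (.d (nat_lit 561) (nat_lit 496) (nat_lit 7664) (nat_lit 658) (nat_lit 4625))))))) (.a s15110 (.a s15281 (.p (nat_lit 561) (.a (.f (nat_lit 562) (nat_lit 590) (nat_lit 2606) (.d (nat_lit 563) (nat_lit 564) (nat_lit 1584) (nat_lit 594) (nat_lit 2607))) (.f (nat_lit 496) (nat_lit 625) (nat_lit 7664) (.d (nat_lit 560) (nat_lit 464) (nat_lit 4560) (nat_lit 623) (nat_lit 5615))))))))))))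
noncomputable def s15303 : Cert := .r (nat_lit 113463316336589651211959734824295341853549626569726388979687718263983817089279181096444238202072069299082973864041754503317399195792619380561286577137194885792107616800548207984640) (.p (nat_lit 595) (.a (.f (nat_lit 560) (nat_lit 559) (nat_lit 3631) (.f (nat_lit 561) (nat_lit 596) (nat_lit 3632) (.d (nat_lit 624) (nat_lit 623) (nat_lit 1615) (nat_lit 656) (nat_lit 6672)))) (.a (.f (nat_lit 564) (nat_lit 563) (nat_lit 2608) (.f (nat_lit 596) (nat_lit 565) (nat_lit 2609) (.d (nat_lit 628) (nat_lit 627) (nat_lit 592) (nat_lit 629) (nat_lit 593)))) (.f (nat_lit 560) (nat_lit 559) (nat_lit 3631) (.f (nat_lit 624) (nat_lit 623) (nat_lit 1615) (.f (nat_lit 561) (nat_lit 656) (nat_lit 6672) (.f (nat_lit 563) (nat_lit 564) (nat_lit 2608) (.f (nat_lit 627) (nat_lit 628) (nat_lit 592) (.f (nat_lit 496) (nat_lit 464) (nat_lit 4560) (.f (nat_lit 495) (nat_lit 463) (nat_lit 7631) (.f (nat_lit 531) (nat_lit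 530) (nat_lit 3567) (.d (nat_lit 532) (nat_lit 500) (nat_lit 6643) (nat_lit 562) (nat_lit 2576)))))))))))))
noncomputable def s15307 : Cert := .r (nat_lit 113463316336589651211959734824295341853549626569726388979687718263983817089279181096444238202072069299082973864041754503317399195792619380561286577137194885792107616800548207984640) (.p (nat_lit 591) (.a (.f (nat_lit 559) (nat_lit 558) (nat_lit 3630) (.f (nat_lit 560) (nat_lit 595) (nat_lit 3631) (.d (nat_lit 623) (nat_lit 622) (nat_lit 1614) (nat_lit 655) (nat_lit 6671)))) (.a (.f (nat_lit 622) (nat_lit 623) (nat_lit 1614) (.f (nat_lit 590) (nat_lit 621) (nat_lit 1613) (.d (nat_lit 558) (nat_lit 557) (nat_lit 3629) (nat_lit 559) (nat_lit 3630)))) (.a (.f (nat_lit 623) (nat_lit 622) (nat_lit 1614) (.f (nat_lit 595) (nat_lit 624) (nat_lit 1615) (.d (nat_lit 627) (nat_lit 626) (nat_lit 591) (nat_lit 628) (nat_lit 592)))) (.f (nat_lit 559) (nat_lit 558) (nat_lit 3630) (.f (nat_lit 595)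 (nat_lit 560) (nat_lit 3631) (.d (nat_lit 627) (nat_lit 626) (nat_lit 591) (nat_lit 628) (nat_lit 592))))))))
noncomputable def s15310 : Cert := .r (nat_lit 113463316336589651211959734824295341853549626569726388979687718263983817089279181096444238202072069299082973864041754503317399195792619380561286577137194885792107616800548207984640) (.p (nat_lit 591) (.a (.f (nat_lit 562) (nat_lit 563) (nat_lit 2607) (.f (nat_lit 626) (nat_lit 627) (nat_lit 591) (.d (nat_lit 561) (nat_lit 590) (nat_lit 2606) (nat_lit 658) (nat_lit 7697)))) (.a (.f (nat_lit 622) (nat_lit 623) (nat_lit 1614) (.f (nat_lit 590) (nat_lit 621) (nat_lit 1613) (.d (nat_lit 558) (nat_lit 557) (nat_lit 3629) (nat_lit 559) (nat_lit 3630)))) (.f (nat_lit 559) (nat_lit 558) (nat_lit 3630) (.f (nat_lit 623) (nat_lit 622) (nat_lit 1614) (.f (nat_lit 655) (nat_lit 560) (nat_lit 6671) (.f (nat_lit 688) (nat_lit 656) (nat_lit 4655) (.f (nat_lit 687) (nat_lit 720) (nat_lit 4687) (.d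 (nat_lit 686) (nat_lit 654) (nat_lit 5678) (nat_lit 718) (nat_lit 5710))))))))))
noncomputable def s15311 : Cert := .r (nat_lit 48627135572824136235203361954120948868980154190938312417255572487567366910952491308948815562273572513329881885740179672342474960239310391375554157854164203181776651122399621677056) (.p (nat_lit 594) (.a s15039 (.a (.p (nat_lit 591) (.a (.f (nat_lit 562) (nat_lit 563) (nat_lit 2607) (.f (nat_lit 626) (nat_lit 627) (nat_lit 591) (.d (nat_lit 561) (nat_lit 590) (nat_lit 2606) (nat_lit 658) (nat_lit 7697)))) (.a (.f (nat_lit 622) (nat_lit 623) (nat_lit 1614) (.f (nat_lit 590) (nat_lit 621) (nat_lit 1613) (.d (nat_lit 558) (nat_lit 557) (nat_lit 3629) (nat_lit 559) (nat_lit 3630)))) (.f (nat_lit 563) (nat_lit 562) (nat_lit 2607) (.f (nat_lit 595) (nat_lit 564) (nat_lit 2608) (.d (nat_lit 623) (nat_lit 622) (nat_lit 1614) (nat_lit 624) (nat_lit 1615))))))) (.a (.p (nat_lit 591) (.a (.f (nat_lit 562) (nat_lit 563)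 (nat_lit 2607) (.f (nat_lit 626) (nat_lit 627) (nat_lit 591) (.d (nat_lit 561) (nat_lit 590) (nat_lit 2606) (nat_lit 658) (nat_lit 7697)))) (.a (.f (nat_lit 563) (nat_lit 562) (nat_lit 2607) (.f (nat_lit 595) (nat_lit 564) (nat_lit 2608) (.d (nat_lit 623) (nat_lit 622) (nat_lit 1614) (nat_lit 624) (nat_lit 1615)))) (.f (nat_lit 623) (nat_lit 622) (nat_lit 1614) (.f (nat_lit 595) (nat_lit 624) (nat_lit 1615) (.d (nat_lit 627) (nat_lit 626) (nat_lit 591) (nat_lit 628) (nat_lit 592))))))) (.a s15303 (.a s15307 (.a (.p (nat_lit 591) (.a (.f (nat_lit 559) (nat_lit 558) (nat_lit 3630) (.f (nat_lit 560) (nat_lit 595) (nat_lit 3631) (.d (nat_lit 623) (nat_lit 622) (nat_lit 1614) (nat_lit 655) (nat_lit 6671)))) (.f (nat_lit 562) (nat_lit 563) (nat_lit 2607) (.f (nat_lit 626) (nat_lit 627) (nat_lit 591) (.d (nat_lit 561) (nat_lit 590) (nat_lit 2606) (nat_lit 658) (nat_lit 7697)))))) (.a (.p (nat_lit 591) (.a (.f (nat_lit 562) (nat_lit 563) (nat_lit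 2607) (.f (nat_lit 626) (nat_lit 627) (nat_lit 591) (.d (nat_lit 561) (nat_lit 590) (nat_lit 2606) (nat_lit 658) (nat_lit 7697)))) (.a (.f (nat_lit 559) (nat_lit 558) (nat_lit 3630) (.f (nat_lit 595) (nat_lit 560) (nat_lit 3631) (.d (nat_lit 563) (nat_lit 562) (nat_lit 2607) (nat_lit 564) (nat_lit 2608)))) (.f (nat_lit 559) (nat_lit 558) (nat_lit 3630) (.f (nat_lit 595) (nat_lit 560) (nat_lit 3631) (.d (nat_lit 627) (nat_lit 626) (nat_lit 591) (nat_lit 628) (nat_lit 592))))))) s15310))))))))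
noncomputable def s15314 : Cert := .r (nat_lit 48627135572824136235203361954120948868980154190938312417255572487567366910952491308948815562273572513329881885740179672342474960239310391375554157854164203181776651122399621677056) (.p (nat_lit 625) (.a (.d (nat_lit 496) (nat_lit 560) (nat_lit 4592) (nat_lit 561) (nat_lit 7664)) (.a (.f (nat_lit 561) (nat_lit 496) (nat_lit 7664) (.f (nat_lit 624) (nat_lit 656) (nat_lit 5648) (.f (nat_lit 626) (nat_lit 658) (nat_lit 4625) (.d (nat_lit 591) (nat_lit 590) (nat_lit 590) (nat_lit 627) (nat_lit 3663))))) (.a (.p (nat_lit 561) (.a (.f (nat_lit 624) (nat_lit 656) (nat_lit 5648) (.f (nat_lit 626) (nat_lit 658) (nat_lit 4625) (.d (nat_lit 591) (nat_lit 590) (nat_lit 590) (nat_lit 627) (nat_lit 3663)))) (.a (.f (nat_lit 624) (nat_lit 656) (nat_lit 5648) (.f (nat_lit 657) (nat_lit 560) (nat_lit 4624) (.d (nat_lit 658) (nat_lit 626) (nat_lit 4625) (nat_lit 690) (nat_lit 4657)))) (.f (nat_lit 657) (nat_lit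 560) (nat_lit 7696) (.d (nat_lit 530) (nat_lit 498) (nat_lit 6641) (nat_lit 562) (nat_lit 6673)))))) (.f (nat_lit 560) (nat_lit 496) (nat_lit 4592) (.d (nat_lit 657) (nat_lit 624) (nat_lit 4624) (nat_lit 689) (nat_lit 7728)))))))
noncomputable def s15315 : Cert := .r (nat_lit 48627135572824136235203361954120948868980154190938312417255572487567366910952491308948815562273572513329881885740179672342474960239310391375554157854164203181776651122399621677056) (.p (nat_lit 591) (.a (.p (nat_lit 594) (.a (.f (nat_lit 559) (nat_lit 558) (nat_lit 3630) (.f (nat_lit 560) (nat_lit 595) (nat_lit 3631) (.d (nat_lit 623) (nat_lit 622) (nat_lit 1614) (nat_lit 655) (nat_lit 6671)))) (.f (nat_lit 562) (nat_lit 563) (nat_lit 2607) (.f (nat_lit 626) (nat_lit 627) (nat_lit 591) (.d (nat_lit 561) (nat_lit 590) (nat_lit 2606) (nat_lit 658) (nat_lit 7697)))))) (.a (.p (nat_lit 594) (.a (.f (nat_lit 562) (nat_lit 563) (nat_lit 2607) (.f (nat_lit 626) (nat_lit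 627) (nat_lit 591) (.d (nat_lit 561) (nat_lit 590) (nat_lit 2606) (nat_lit 658) (nat_lit 7697)))) (.a (.f (nat_lit 622) (nat_lit 623) (nat_lit 1614) (.f (nat_lit 590) (nat_lit 621) (nat_lit 1613) (.d (nat_lit 558) (nat_lit 557) (nat_lit 3629) (nat_lit 559) (nat_lit 3630)))) (.f (nat_lit 563) (nat_lit 562) (nat_lit 2607) (.f (nat_lit 595) (nat_lit 564) (nat_lit 2608) (.d (nat_lit 623) (nat_lit 622) (nat_lit 1614) (nat_lit 624) (nat_lit 1615))))))) (.a s14982 (.a s14988 (.a s14994 (.a s15110 (.a s15208 s15016))))))))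
noncomputable def s15316 : Cert := .r (nat_lit 48627135572824136235203361954120948868980154190938312417255572487567366910952491308948815562273572513329881885740179672342474960239310391375554157854164203181776651122399621677056) (.p (nat_lit 560) (.a (.f (nat_lit 496) (nat_lit 625) (nat_lit 4592) (.f (nat_lit 591) (nat_lit 623) (nat_lit 5615) (.d (nat_lit 464) (nat_lit 559) (nat_lit 5583) (nat_lit 561) (nat_lit 4560)))) (.a s14902 (.a (.f (nat_lit 496) (nat_lit 625) (nat_lit 4592) (.f (nat_lit 591) (nat_lit 623) (nat_lit 5615) (.f (nat_lit 559) (nat_lit 464) (nat_lit 5583) (.d (nat_lit 558) (nat_lit 557) (nat_lit 557) (nat_lit 594) (nat_lit 3630))))) (.a (.f (nat_lit 625) (nat_lit 496) (nat_lit 4592) (.d (nat_lit 657) (nat_lit 624) (nat_lit 4624) (nat_lit 689) (nat_lit 7728))) s15278)))))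
noncomputable def s15401 : Cert := .r (nat_lit 113463316336589651211959734824295341853549626569726388979687718263983817089279181096444238202072069299082973864041754503317399195792619380561286577137194885792107616800548207984640) (.p (nat_lit 563) (.a (.f (nat_lit 595) (nat_lit 564) (nat_lit 2608) (.f (nat_lit 627) (nat_lit 628) (nat_lit 592) (.f (nat_lit 562) (nat_lit 591) (nat_lit 2607) (.d (nat_lit 530) (nat_lit 498) (nat_lit 4594) (nat_lit 659) (nat_lit 7698))))) (.a (.f (nat_lit 595) (nat_lit 564) (nat_lit 2608) (.f (nat_lit 591) (nat_lit 562) (nat_lit 2607) (.d (nat_lit 623) (nat_lit 622) (nat_lit 1614) (nat_lit 624) (nat_lit 1615)))) (.a (.f (nat_lit 595) (nat_lit 564) (nat_lit 2608) (.f (nat_lit 628) (nat_lit 627) (nat_lit 592) (.f (nat_lit 596) (nat_lit 629) (nat_lit 593) (.d (nat_lit 624) (nat_lit 623) (nat_lit 1615) (nat_lit 625) (nat_lit 1616))))) (.f (nat_lit 591) (nat_lit 562) (nat_lit 2607) (.f (nat_lit 622) (nat_lit 623)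 (nat_lit 1614) (.f (nat_lit 590) (nat_lit 621) (nat_lit 1613) (.d (nat_lit 558) (nat_lit 557) (nat_lit 3629) (nat_lit 559) (nat_lit 3630)))))))))
noncomputable def s15406 : Cert := .r (nat_lit 113463316336589651211959734824295341853549626569726388979687718263983817089279181096444238202072069299082973864041754503317399195792619380561286577137194885792107616800548207984640) (.p (nat_lit 591) (.a (.f (nat_lit 622) (nat_lit 623) (nat_lit 1614) (.f (nat_lit 590) (nat_lit 621) (nat_lit 1613) (.d (nat_lit 558) (nat_lit 557) (nat_lit 3629) (nat_lit 559) (nat_lit 3630)))) (.a (.f (nat_lit 626) (nat_lit 627) (nat_lit 591) (.f (nat_lit 562) (nat_lit 563) (nat_lit 2607) (.f (nat_lit 625) (nat_lit 590) (nat_lit 590) (.d (nat_lit 530) (nat_lit 497) (nat_lit 7665) (nat_lit 498) (nat_lit 5617))))) (.f (nat_lit 562) (nat_lit 563) (nat_lit 2607) (.f (nat_lit 626) (nat_lit 627) (nat_lit 591) (.f (nat_lit 530) (nat_lit 497) (nat_lit 7665) (.d (nat_lit 625)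 (nat_lit 498) (nat_lit 5617) (nat_lit 657) (nat_lit 5649))))))))
noncomputable def s15417 : Cert := .r (nat_lit 113463316336589651211959734824295341853549626569726388979687718263983817089279181096444238202072069299082973864041754503317399195792619380561286577137194885792107616800548207984640) (.p (nat_lit 591) (.a (.f (nat_lit 622) (nat_lit 623) (nat_lit 1614) (.f (nat_lit 590) (nat_lit 621) (nat_lit 1613) (.d (nat_lit 558) (nat_lit 557) (nat_lit 3629) (nat_lit 559) (nat_lit 3630)))) (.a (.f (nat_lit 563) (nat_lit 562) (nat_lit 2607) (.f (nat_lit 595) (nat_lit 564) (nat_lit 2608) (.d (nat_lit 623) (nat_lit 622) (nat_lit 1614) (nat_lit 624) (nat_lit 1615)))) (.a (.f (nat_lit 558) (nat_lit 559) (nat_lit 3630) (.f (nat_lit 590) (nat_lit 557) (nat_lit 3629) (.f (nat_lit 621) (nat_lit 622) (nat_lit 1613) (.f (nat_lit 589) (nat_lit 620) (nat_lit 1612) (.d (nat_lit 625) (nat_lit 624) (nat_lit 589) (nat_lit 626) (nat_lit 590)))))) (.f (nat_lit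 563) (nat_lit 562) (nat_lit 2607) (.f (nat_lit 595) (nat_lit 564) (nat_lit 2608) (.f (nat_lit 624) (nat_lit 623) (nat_lit 1615) (.f (nat_lit 625) (nat_lit 596) (nat_lit 1616) (.d (nat_lit 590) (nat_lit 589) (nat_lit 589) (nat_lit 626) (nat_lit 590))))))))))
noncomputable def s15427 : Cert := .r (nat_lit 48627135572824136235203361954120948868980154190938312417255572487567366910952491308948815562273572513329881885740179672342474960239310391375554157854164203181776651122399621677056) (.p (nat_lit 560) (.a (.f (nat_lit 496) (nat_lit 625) (nat_lit 4592) (.d (nat_lit 497) (nat_lit 465) (nat_lit 6608) (nat_lit 624) (nat_lit 6640))) (.a (.f (nat_lit 624) (nat_lit 497) (nat_lit 6640) (.f (nat_lit 625) (nat_lit 657) (nat_lit 4624) (.f (nat_lit 623) (nat_lit 655) (nat_lit 5647) (.d (nat_lit 594) (nat_lit 595) (nat_lit 1615) (nat_lit 622) (nat_lit 2638))))) (.a (.f (nat_lit 625) (nat_lit 496) (nat_lit 4592) (.d (nat_lit 657) (nat_lit 624) (nat_lit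 4624) (nat_lit 689) (nat_lit 7728))) (.a (.f (nat_lit 496) (nat_lit 625) (nat_lit 4592) (.f (nat_lit 495) (nat_lit 463) (nat_lit 7631) (.f (nat_lit 497) (nat_lit 465) (nat_lit 6608) (.d (nat_lit 494) (nat_lit 493) (nat_lit 493) (nat_lit 530) (nat_lit 494))))) (.f (nat_lit 497) (nat_lit 624) (nat_lit 6640) (.d (nat_lit 465) (nat_lit 433) (nat_lit 5552) (nat_lit 496) (nat_lit 6608))))))))
noncomputable def s15436 : Cert := .r (nat_lit 113463316336589651211959734824295341853549626569726388979687718263983817089279181096444238202072069299082973864041754503317399195792619380561286577137194885792107616800548207984640) (.p (nat_lit 560) (.a (.f (nat_lit 559) (nat_lit 595) (nat_lit 3631) (.d (nat_lit 558) (nat_lit 557) (nat_lit 557) (nat_lit 591) (nat_lit 3630))) (.a (.f (nat_lit 496) (nat_lit 625) (nat_lit 4592) (.f (nat_lit 591) (nat_lit 623) (nat_lit 5615) (.f (nat_lit 563) (nat_lit 562) (nat_lit 2607) (.f (nat_lit 595) (nat_lit 564) (nat_lit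 2608) (.d (nat_lit 627) (nat_lit 626) (nat_lit 591) (nat_lit 628) (nat_lit 592)))))) (.a (.f (nat_lit 595) (nat_lit 559) (nat_lit 3631) (.f (nat_lit 564) (nat_lit 563) (nat_lit 2608) (.f (nat_lit 596) (nat_lit 565) (nat_lit 2609) (.d (nat_lit 628) (nat_lit 627) (nat_lit 592) (nat_lit 629) (nat_lit 593))))) (.f (nat_lit 496) (nat_lit 625) (nat_lit 4592) (.f (nat_lit 591) (nat_lit 623) (nat_lit 5615) (.d (nat_lit 559) (nat_lit 464) (nat_lit 5583) (nat_lit 558) (nat_lit 3630))))))))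
noncomputable def s15456 : Cert := .r (nat_lit 121567838932060340584054281433067140976620810617074898549991736486035873361570017319881166032046881397302110361329451357189264725236783004209503129547573721118398987510316781273088) (.f (nat_lit 563) (nat_lit 562) (nat_lit 2607) (.f (nat_lit 595) (nat_lit 564) (nat_lit 2608) (.f (nat_lit 628) (nat_lit 627) (nat_lit 592) (.f (nat_lit 596) (nat_lit 629) (nat_lit 593) (.f (nat_lit 623) (nat_lit 622) (nat_lit 1614) (.f (nat_lit 496) (nat_lit 560) (nat_lit 5615) (.f (nat_lit 531) (nat_lit 499) (nat_lit 4595) (.f (nat_lit 530) (nat_lit 495) (nat_lit 3567) (.f (nat_lit 532) (nat_lit 497) (nat_lit 3568) (.f (nat_lit 501) (nat_lit 500) (nat_lit 2545) (.f (nat_lit 533) (nat_lit 502) (nat_lit 2546) (.d (nat_lit 565) (nat_lit 566) (nat_lit 530) (nat_lit 597) (nat_lit 5620)))))))))))))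
noncomputable def s15499 : Cert := .r (nat_lit 56731658168294825607297908562892747992051338238286821987559590709619423183243327532385743392248384611549018383027876526214340489683474015023770710264543038508068021832168194965504) (.p (nat_lit 594) (.a (.f (nat_lit 559) (nat_lit 558) (nat_lit 3630) (.f (nat_lit 595) (nat_lit 560) (nat_lit 3631) (.d (nat_lit 563) (nat_lit 562) (nat_lit 2607) (nat_lit 564) (nat_lit 2608)))) (.a (.f (nat_lit 563) (nat_lit 562) (nat_lit 2607) (.f (nat_lit 595) (nat_lit 564) (nat_lit 2608) (.d (nat_lit 627) (nat_lit 626) (nat_lit 591) (nat_lit 628) (nat_lit 592)))) (.a (.f (nat_lit 559) (nat_lit 558) (nat_lit 3630) (.f (nat_lit 595) (nat_lit 560) (nat_lit 3631) (.d (nat_lit 627) (nat_lit 626) (nat_lit 591) (nat_lit 628) (nat_lit 592)))) (.f (nat_lit 562) (nat_lit 563) (nat_lit 2607) (.f (nat_lit 626) (nat_lit 627) (nat_lit 591) (.f (nat_lit 497) (nat_lit 530) (nat_lit 7665) (.f (nat_lit 560) (nat_lit 624) (nat_lit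 6640) (.d (nat_lit 465) (nat_lit 433) (nat_lit 5552) (nat_lit 496) (nat_lit 6608))))))))))
noncomputable def s15502 : Cert := .r (nat_lit 48627135572824136235203361954120948868980154190938312417255572487567366910952491308948815562273572513329881885740179672342474960239310391375554157854164203181776651122399621677056) (.p (nat_lit 560) (.a (.f (nat_lit 496) (nat_lit 625) (nat_lit 4592) (.d (nat_lit 497) (nat_lit 465) (nat_lit 6608) (nat_lit 624) (nat_lit 6640))) (.a (.f (nat_lit 624) (nat_lit 497) (nat_lit 6640) (.f (nat_lit 625) (nat_lit 657) (nat_lit 4624) (.f (nat_lit 623) (nat_lit 655) (nat_lit 5647) (.f (nat_lit 622) (nat_lit 621) (nat_lit 2637) (.f (nat_lit 590) (nat_lit 589) (nat_lit 3661) (.f (nat_lit 626) (nat_lit 591) (nat_lit 590) (.f (nat_lit 627) (nat_lit 628) (nat_lit 3664) (.d (nat_lit 659) (nat_lit 658) (nat_lit 623) (nat_lit 660) (nat_lit 624))))))))) (.a (.f (nat_lit 625) (nat_lit 496) (nat_lit 4592) (.d (nat_lit 657)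 (nat_lit 624) (nat_lit 4624) (nat_lit 689) (nat_lit 7728))) (.a (.f (nat_lit 496) (nat_lit 625) (nat_lit 4592) (.f (nat_lit 495) (nat_lit 463) (nat_lit 7631) (.f (nat_lit 497) (nat_lit 465) (nat_lit 6608) (.d (nat_lit 494) (nat_lit 493) (nat_lit 493) (nat_lit 530) (nat_lit 494))))) (.f (nat_lit 497) (nat_lit 624) (nat_lit 6640) (.d (nat_lit 465) (nat_lit 433) (nat_lit 5552) (nat_lit 496) (nat_lit 6608))))))))
noncomputable def s15516 : Cert := .r (nat_lit 48627135572824136235203361954120948868980154190938312417255572487567366910952491308948815562273572513329881885740179672342474960239310391375554157854164203181776651122399621677056) (.p (nat_lit 560) (.a (.f (nat_lit 496) (nat_lit 625) (nat_lit 4592) (.d (nat_lit 497) (nat_lit 465) (nat_lit 6608) (nat_lit 624) (nat_lit 6640))) (.a (.p (nat_lit 559) (.a (.f (nat_lit 558) (nat_lit 557) (nat_lit 2573) (.d (nat_lit 594) (nat_lit 591) (nat_lit 3630) (nat_lit 595) (nat_lit 3631))) (.a (.f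 (nat_lit 497) (nat_lit 624) (nat_lit 6640) (.f (nat_lit 530) (nat_lit 531) (nat_lit 1551) (.f (nat_lit 594) (nat_lit 595) (nat_lit 3631) (.f (nat_lit 562) (nat_lit 626) (nat_lit 7665) (.d (nat_lit 465) (nat_lit 433) (nat_lit 4529) (nat_lit 498) (nat_lit 7633)))))) (.f (nat_lit 624) (nat_lit 497) (nat_lit 6640) (.f (nat_lit 657) (nat_lit 625) (nat_lit 4624) (.f (nat_lit 656) (nat_lit 689) (nat_lit 4656) (.f (nat_lit 687) (nat_lit 655) (nat_lit 5679) (.d (nat_lit 688) (nat_lit 591) (nat_lit 7727) (nat_lit 719) (nat_lit 5711))))))))) (.a (.f (nat_lit 625) (nat_lit 496) (nat_lit 4592) (.d (nat_lit 657) (nat_lit 624) (nat_lit 4624) (nat_lit 689) (nat_lit 7728))) (.a (.f (nat_lit 496) (nat_lit 625) (nat_lit 4592) (.f (nat_lit 495) (nat_lit 463) (nat_lit 7631) (.f (nat_lit 497) (nat_lit 465) (nat_lit 6608) (.d (nat_lit 494) (nat_lit 493) (nat_lit 493) (nat_lit 530) (nat_lit 494))))) (.f (nat_lit 497) (nat_lit 624) (nat_lit 6640) (.d (nat_lit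 465) (nat_lit 433) (nat_lit 5552) (nat_lit 496) (nat_lit 6608))))))))
noncomputable def s15539 : Cert := .r (nat_lit 32418090381882757491014268736577350622837786096241293276647536043463254366370818862074959902323948316891608891164785964598743901350983144079121053033406532529193909702862475100160) (.p (nat_lit 561) (.a (.f (nat_lit 625) (nat_lit 496) (nat_lit 7664) (.f (nat_lit 657) (nat_lit 560) (nat_lit 7696) (.d (nat_lit 656) (nat_lit 624) (nat_lit 5648) (nat_lit 688) (nat_lit 5680)))) (.a (.f (nat_lit 625) (nat_lit 496) (nat_lit 7664) (.f (nat_lit 626) (nat_lit 658) (nat_lit 4625) (.f (nat_lit 624) (nat_lit 656) (nat_lit 5648) (.d (nat_lit 497) (nat_lit 592) (nat_lit 5616) (nat_lit 594) (nat_lit 4593))))) (.a (.p (nat_lit 497) (.a (.f (nat_lit 592) (nat_lit 624) (nat_lit 5616) (.f (nat_lit 560) (nat_lit 465) (nat_lit 5584) (.f (nat_lit 594) (nat_lit 626) (nat_lit 4593) (.d (nat_lit 559) (nat_lit 558) (nat_lit 558) (nat_lit 595) (nat_lit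 3631))))) (.a (.f (nat_lit 466) (nat_lit 498) (nat_lit 6609) (.f (nat_lit 465) (nat_lit 434) (nat_lit 6577) (.d (nat_lit 594) (nat_lit 562) (nat_lit 4561) (nat_lit 626) (nat_lit 4593)))) (.a (.f (nat_lit 592) (nat_lit 624) (nat_lit 5616) (.f (nat_lit 465) (nat_lit 560) (nat_lit 5584) (.d (nat_lit 466) (nat_lit 434) (nat_lit 6577) (nat_lit 498) (nat_lit 6609)))) (.f (nat_lit 624) (nat_lit 592) (nat_lit 5616) (.f (nat_lit 625) (nat_lit 656) (nat_lit 5648) (.d (nat_lit 626) (nat_lit 594) (nat_lit 4593) (nat_lit 658) (nat_lit 4625)))))))) (.a (.f (nat_lit 625) (nat_lit 496) (nat_lit 7664) (.f (nat_lit 657) (nat_lit 560) (nat_lit 7696) (.d (nat_lit 658) (nat_lit 626) (nat_lit 4625) (nat_lit 690) (nat_lit 4657)))) (.p (nat_lit 497) (.a (.f (nat_lit 592) (nat_lit 624) (nat_lit 5616) (.f (nat_lit 560) (nat_lit 465) (nat_lit 5584) (.f (nat_lit 594) (nat_lit 626) (nat_lit 4593) (.d (nat_lit 559) (nat_lit 558) (nat_lit 558) (nat_lit 595) (nat_lit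 3631))))) (.a (.f (nat_lit 466) (nat_lit 498) (nat_lit 6609) (.f (nat_lit 465) (nat_lit 434) (nat_lit 6577) (.d (nat_lit 594) (nat_lit 562) (nat_lit 4561) (nat_lit 626) (nat_lit 4593)))) (.a (.f (nat_lit 592) (nat_lit 624) (nat_lit 5616) (.f (nat_lit 465) (nat_lit 560) (nat_lit 5584) (.d (nat_lit 466) (nat_lit 434) (nat_lit 6577) (nat_lit 498) (nat_lit 6609)))) (.f (nat_lit 592) (nat_lit 624) (nat_lit 5616) (.f (nat_lit 594) (nat_lit 626) (nat_lit 4593) (.f (nat_lit 496) (nat_lit 464) (nat_lit 7632) (.f (nat_lit 498) (nat_lit 466) (nat_lit 6609) (.f (nat_lit 499) (nat_lit 500) (nat_lit 1520) (.f (nat_lit 467) (nat_lit 468) (nat_lit 2512) (.f (nat_lit 531) (nat_lit 532) (nat_lit 496) (.f (nat_lit 563) (nat_lit 562) (nat_lit 5586) (.d (nat_lit 564) (nat_lit 595) (nat_lit 2608) (nat_lit 596) (nat_lit 4563)))))))))))))))))))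
noncomputable def s15553 : Cert := .r (nat_lit 32418090389430682340657351441060459784814323878075135717480416900215666966862067186859257606496201767246926426247722714660271591150524313338970638298529401032059301790161265754112) (.p (nat_lit 497) (.a (.f (nat_lit 466) (nat_lit 498) (nat_lit 6609) (.f (nat_lit 465) (nat_lit 434) (nat_lit 6577) (.d (nat_lit 594) (nat_lit 562) (nat_lit 4561) (nat_lit 626) (nat_lit 4593)))) (.a (.f (nat_lit 496) (nat_lit 464) (nat_lit 7632) (.f (nat_lit 498) (nat_lit 466) (nat_lit 6609) (.f (nat_lit 499) (nat_lit 500) (nat_lit 1520) (.f (nat_lit 531) (nat_lit 532) (nat_lit 496) (.f (nat_lit 495) (nat_lit 530) (nat_lit 3567) (.f (nat_lit 494) (nat_lit 493) (nat_lit 493) (.d (nat_lit 462) (nat_lit 461) (nat_lit 3533) (nat_lit 463) (nat_lit 3534)))))))) (.f (nat_lit 496) (nat_lit 464) (nat_lit 7632) (.f (nat_lit 594) (nat_lit 626) (nat_lit 4593) (.f (nat_lit 465) (nat_lit 562) (nat_lit 4561) (.d (nat_lit 433)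 (nat_lit 401) (nat_lit 5520) (nat_lit 560) (nat_lit 5552))))))))
noncomputable def s15554 : Cert := .r (nat_lit 32418090381882757491014268736577350622837786096241293276647536043463254366370818862074959902323948316891608891164785964598743901350983144079121053033406532529193909702862475100160) (.p (nat_lit 561) (.a (.f (nat_lit 625) (nat_lit 496) (nat_lit 7664) (.f (nat_lit 657) (nat_lit 560) (nat_lit 7696) (.d (nat_lit 530) (nat_lit 498) (nat_lit 6641) (nat_lit 562) (nat_lit 6673)))) (.a (.f (nat_lit 625) (nat_lit 496) (nat_lit 7664) (.f (nat_lit 530) (nat_lit 498) (nat_lit 6641) (.f (nat_lit 657) (nat_lit 562) (nat_lit 6673) (.d (nat_lit 656) (nat_lit 624) (nat_lit 5648) (nat_lit 688) (nat_lit 5680))))) (.a (.p (nat_lit 498) (.a (.f (nat_lit 497) (nat_lit 466) (nat_lit 6609) (.f (nat_lit 530) (nat_lit 625) (nat_lit 6641) (.f (nat_lit 594) (nat_lit 626) (nat_lit 4593) (.f (nat_lit 562) (nat_lit 465) (nat_lit 4561) (.d (nat_lit 499) (nat_lit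 467) (nat_lit 6610) (nat_lit 500) (nat_lit 1520)))))) (.a (.f (nat_lit 530) (nat_lit 625) (nat_lit 6641) (.d (nat_lit 466) (nat_lit 434) (nat_lit 5553) (nat_lit 562) (nat_lit 5585))) (.a (.f (nat_lit 497) (nat_lit 466) (nat_lit 6609) (.f (nat_lit 594) (nat_lit 626) (nat_lit 4593) (.f (nat_lit 562) (nat_lit 465) (nat_lit 4561) (.f (nat_lit 563) (nat_lit 564) (nat_lit 3600) (.f (nat_lit 499) (nat_lit 500) (nat_lit 1520) (.f (nat_lit 531) (nat_lit 467) (nat_lit 5586) (.f (nat_lit 560) (nat_lit 532) (nat_lit 2576) (.d (nat_lit 559) (nat_lit 558) (nat_lit 558) (nat_lit 595) (nat_lit 559))))))))) (.f (nat_lit 625) (nat_lit 530) (nat_lit 6641) (.f (nat_lit 657) (nat_lit 560) (nat_lit 7696) (.d (nat_lit 656) (nat_lit 624) (nat_lit 5648) (nat_lit 688) (nat_lit 5680)))))))) (.a (.f (nat_lit 625) (nat_lit 496) (nat_lit 7664) (.f (nat_lit 657) (nat_lit 560) (nat_lit 7696) (.d (nat_lit 656) (nat_lit 624) (nat_lit 5648) (nat_lit 688) (nat_lit 5680))))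 s15553)))))
noncomputable def s15564 : Cert := .r (nat_lit 32418090381882757491014268736577350622837786096241293276647536043463254366370818862074959902323948316891608891164785964598743901350983144079121053033406532529193909702862475100160) (.p (nat_lit 561) (.a (.f (nat_lit 625) (nat_lit 496) (nat_lit 7664) (.f (nat_lit 657) (nat_lit 560) (nat_lit 7696) (.d (nat_lit 530) (nat_lit 498) (nat_lit 6641) (nat_lit 562) (nat_lit 6673)))) (.a (.f (nat_lit 625) (nat_lit 496) (nat_lit 7664) (.f (nat_lit 530) (nat_lit 498) (nat_lit 6641) (.f (nat_lit 562) (nat_lit 657) (nat_lit 6673) (.f (nat_lit 626) (nat_lit 658) (nat_lit 4625) (.f (nat_lit 594) (nat_lit 497) (nat_lit 4593) (.f (nat_lit 563) (nat_lit 564) (nat_lit 3600) (.f (nat_lit 627) (nat_lit 659) (nat_lit 4626) (.d (nat_lit 592) (nat_lit 591) (nat_lit 2607) (nat_lit 628) (nat_lit 3664))))))))) (.a s14828 (.a (.f (nat_lit 625) (nat_lit 496) (nat_lit 7664) (.f (nat_lit 657) (nat_lit 560) (nat_lit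 7696) (.d (nat_lit 656) (nat_lit 624) (nat_lit 5648) (nat_lit 688) (nat_lit 5680)))) (.p (nat_lit 497) (.a (.f (nat_lit 592) (nat_lit 624) (nat_lit 5616) (.f (nat_lit 560) (nat_lit 465) (nat_lit 5584) (.f (nat_lit 594) (nat_lit 626) (nat_lit 4593) (.d (nat_lit 559) (nat_lit 558) (nat_lit 558) (nat_lit 595) (nat_lit 3631))))) (.a (.f (nat_lit 466) (nat_lit 498) (nat_lit 6609) (.f (nat_lit 465) (nat_lit 434) (nat_lit 6577) (.d (nat_lit 594) (nat_lit 562) (nat_lit 4561) (nat_lit 626) (nat_lit 4593)))) (.a (.f (nat_lit 592) (nat_lit 624) (nat_lit 5616) (.f (nat_lit 560) (nat_lit 465) (nat_lit 5584) (.f (nat_lit 496) (nat_lit 464) (nat_lit 4560) (.f (nat_lit 495) (nat_lit 463) (nat_lit 7631) (.d (nat_lit 494) (nat_lit 493) (nat_lit 493) (nat_lit 530) (nat_lit 494)))))) (.f (nat_lit 592) (nat_lit 624) (nat_lit 5616) (.f (nat_lit 594) (nat_lit 626) (nat_lit 4593) (.f (nat_lit 496) (nat_lit 464) (nat_lit 7632) (.f (nat_lit 498) (nat_lit 466)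 (nat_lit 6609) (.f (nat_lit 499) (nat_lit 500) (nat_lit 1520) (.f (nat_lit 467) (nat_lit 468) (nat_lit 2512) (.f (nat_lit 562) (nat_lit 530) (nat_lit 6610) (.d (nat_lit 563) (nat_lit 564) (nat_lit 1584) (nat_lit 591) (nat_lit 2607))))))))))))))))))
noncomputable def s15570 : Cert := .r (nat_lit 32418090381882757491014268736577350622837786096241293276647536043463254366370818862074959902323948316891608891164785964598743901350983144079121053033406532529193909702862475100160) (.p (nat_lit 561) (.a (.f (nat_lit 625) (nat_lit 496) (nat_lit 7664) (.f (nat_lit 657) (nat_lit 560) (nat_lit 7696) (.d (nat_lit 656) (nat_lit 624) (nat_lit 5648) (nat_lit 688) (nat_lit 5680)))) (.a (.f (nat_lit 625) (nat_lit 496) (nat_lit 7664) (.f (nat_lit 626) (nat_lit 658) (nat_lit 4625) (.f (nat_lit 624) (nat_lit 656) (nat_lit 5648) (.d (nat_lit 497) (nat_lit 592) (nat_lit 5616) (nat_lit 594) (nat_lit 4593))))) (.a (.p (nat_lit 498) (.a (.f (nat_lit 497) (nat_lit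 466) (nat_lit 6609) (.f (nat_lit 592) (nat_lit 624) (nat_lit 5616) (.f (nat_lit 560) (nat_lit 465) (nat_lit 5584) (.f (nat_lit 594) (nat_lit 626) (nat_lit 4593) (.d (nat_lit 559) (nat_lit 558) (nat_lit 558) (nat_lit 595) (nat_lit 3631)))))) (.a (.f (nat_lit 497) (nat_lit 466) (nat_lit 6609) (.f (nat_lit 625) (nat_lit 530) (nat_lit 6641) (.d (nat_lit 624) (nat_lit 592) (nat_lit 5616) (nat_lit 656) (nat_lit 5648)))) (.a (.f (nat_lit 625) (nat_lit 530) (nat_lit 6641) (.f (nat_lit 657) (nat_lit 560) (nat_lit 7696) (.d (nat_lit 656) (nat_lit 624) (nat_lit 5648) (nat_lit 688) (nat_lit 5680)))) (.f (nat_lit 497) (nat_lit 466) (nat_lit 6609) (.f (nat_lit 625) (nat_lit 530) (nat_lit 6641) (.d (nat_lit 626) (nat_lit 594) (nat_lit 4593) (nat_lit 658) (nat_lit 4625)))))))) (.a (.f (nat_lit 625) (nat_lit 496) (nat_lit 7664) (.f (nat_lit 657) (nat_lit 560) (nat_lit 7696) (.d (nat_lit 658) (nat_lit 626) (nat_lit 4625) (nat_lit 690) (nat_lit 4657))))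 (.p (nat_lit 497) (.a (.f (nat_lit 592) (nat_lit 624) (nat_lit 5616) (.f (nat_lit 560) (nat_lit 465) (nat_lit 5584) (.f (nat_lit 594) (nat_lit 626) (nat_lit 4593) (.d (nat_lit 559) (nat_lit 558) (nat_lit 558) (nat_lit 595) (nat_lit 3631))))) (.f (nat_lit 496) (nat_lit 464) (nat_lit 7632) (.f (nat_lit 498) (nat_lit 466) (nat_lit 6609) (.f (nat_lit 499) (nat_lit 500) (nat_lit 1520) (.f (nat_lit 531) (nat_lit 532) (nat_lit 496) (.f (nat_lit 495) (nat_lit 530) (nat_lit 3567) (.f (nat_lit 494) (nat_lit 493) (nat_lit 493) (.d (nat_lit 462) (nat_lit 461) (nat_lit 3533) (nat_lit 463) (nat_lit 3534)))))))))))))))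
noncomputable def s15575 : Cert := .r (nat_lit 32418090381882757491014268736577350622837786096241293276647536043463254366370818862074959902323948316891608891164785964598743901350983144079121053033406532529193909702862475100160) (.p (nat_lit 561) (.a (.f (nat_lit 625) (nat_lit 496) (nat_lit 7664) (.f (nat_lit 657) (nat_lit 560) (nat_lit 7696) (.d (nat_lit 530) (nat_lit 498) (nat_lit 6641) (nat_lit 562) (nat_lit 6673)))) (.a (.f (nat_lit 625) (nat_lit 496) (nat_lit 7664) (.f (nat_lit 530) (nat_lit 498) (nat_lit 6641) (.f (nat_lit 562) (nat_lit 657) (nat_lit 6673) (.f (nat_lit 626) (nat_lit 658) (nat_lit 4625) (.f (nat_lit 594) (nat_lit 497) (nat_lit 4593) (.f (nat_lit 563) (nat_lit 564) (nat_lit 3600) (.f (nat_lit 627) (nat_lit 659) (nat_lit 4626) (.d (nat_lit 592) (nat_lit 591) (nat_lit 2607) (nat_lit 628) (nat_lit 3664))))))))) (.a (.p (nat_lit 498) (.a (.f (nat_lit 497) (nat_lit 466) (nat_lit 6609) (.f (nat_lit 530) (nat_lit 625) (nat_lit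 6641) (.f (nat_lit 594) (nat_lit 626) (nat_lit 4593) (.f (nat_lit 562) (nat_lit 465) (nat_lit 4561) (.d (nat_lit 499) (nat_lit 467) (nat_lit 6610) (nat_lit 500) (nat_lit 1520)))))) (.a (.f (nat_lit 530) (nat_lit 625) (nat_lit 6641) (.d (nat_lit 466) (nat_lit 434) (nat_lit 5553) (nat_lit 562) (nat_lit 5585))) (.a (.f (nat_lit 497) (nat_lit 466) (nat_lit 6609) (.f (nat_lit 594) (nat_lit 626) (nat_lit 4593) (.f (nat_lit 562) (nat_lit 465) (nat_lit 4561) (.f (nat_lit 563) (nat_lit 564) (nat_lit 3600) (.f (nat_lit 499) (nat_lit 500) (nat_lit 1520) (.f (nat_lit 531) (nat_lit 467) (nat_lit 5586) (.f (nat_lit 560) (nat_lit 532) (nat_lit 2576) (.d (nat_lit 559) (nat_lit 558) (nat_lit 558) (nat_lit 595) (nat_lit 559))))))))) (.a (.f (nat_lit 497) (nat_lit 466) (nat_lit 6609) (.f (nat_lit 625) (nat_lit 530) (nat_lit 6641) (.d (nat_lit 626) (nat_lit 594) (nat_lit 4593) (nat_lit 658) (nat_lit 4625)))) (.f (nat_lit 625) (nat_lit 530) (nat_lit 6641)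 (.f (nat_lit 657) (nat_lit 560) (nat_lit 7696) (.d (nat_lit 658) (nat_lit 626) (nat_lit 4625) (nat_lit 690) (nat_lit 4657))))))))) (.a (.f (nat_lit 625) (nat_lit 496) (nat_lit 7664) (.f (nat_lit 657) (nat_lit 560) (nat_lit 7696) (.d (nat_lit 658) (nat_lit 626) (nat_lit 4625) (nat_lit 690) (nat_lit 4657)))) s15553)))))
noncomputable def s15576 : Cert := .r (nat_lit 97254271145648272467770641606751743607407258475029369839079681819879704544697508649570382542122445102644700869466360795573668136904292133264853472316437215139524875381011061407744) (.p (nat_lit 592) (.a s15039 (.a (.p (nat_lit 591) (.a (.f (nat_lit 562) (nat_lit 563) (nat_lit 2607) (.f (nat_lit 626) (nat_lit 627) (nat_lit 591) (.d (nat_lit 561) (nat_lit 590) (nat_lit 2606) (nat_lit 658) (nat_lit 7697)))) (.a (.f (nat_lit 622) (nat_lit 623) (nat_lit 1614) (.f (nat_lit 590) (nat_lit 621) (nat_lit 1613) (.d (nat_lit 558) (nat_lit 557) (nat_lit 3629) (nat_lit 559) (nat_lit 3630))))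 (.f (nat_lit 563) (nat_lit 562) (nat_lit 2607) (.f (nat_lit 595) (nat_lit 564) (nat_lit 2608) (.d (nat_lit 623) (nat_lit 622) (nat_lit 1614) (nat_lit 624) (nat_lit 1615))))))) (.a (.p (nat_lit 591) (.a (.f (nat_lit 562) (nat_lit 563) (nat_lit 2607) (.f (nat_lit 626) (nat_lit 627) (nat_lit 591) (.d (nat_lit 561) (nat_lit 590) (nat_lit 2606) (nat_lit 658) (nat_lit 7697)))) (.a (.f (nat_lit 563) (nat_lit 562) (nat_lit 2607) (.f (nat_lit 595) (nat_lit 564) (nat_lit 2608) (.d (nat_lit 623) (nat_lit 622) (nat_lit 1614) (nat_lit 624) (nat_lit 1615)))) (.f (nat_lit 623) (nat_lit 622) (nat_lit 1614) (.f (nat_lit 595) (nat_lit 624) (nat_lit 1615) (.d (nat_lit 627) (nat_lit 626) (nat_lit 591) (nat_lit 628) (nat_lit 592))))))) (.a s15303 (.a s15307 (.a (.p (nat_lit 591) (.a (.f (nat_lit 559) (nat_lit 558) (nat_lit 3630) (.f (nat_lit 560) (nat_lit 595) (nat_lit 3631) (.d (nat_lit 623) (nat_lit 622) (nat_lit 1614) (nat_lit 655) (nat_lit 6671)))) (.f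 (nat_lit 562) (nat_lit 563) (nat_lit 2607) (.f (nat_lit 626) (nat_lit 627) (nat_lit 591) (.d (nat_lit 561) (nat_lit 590) (nat_lit 2606) (nat_lit 658) (nat_lit 7697)))))) (.a (.p (nat_lit 591) (.a (.f (nat_lit 562) (nat_lit 563) (nat_lit 2607) (.f (nat_lit 626) (nat_lit 627) (nat_lit 591) (.d (nat_lit 561) (nat_lit 590) (nat_lit 2606) (nat_lit 658) (nat_lit 7697)))) (.a (.f (nat_lit 559) (nat_lit 558) (nat_lit 3630) (.f (nat_lit 595) (nat_lit 560) (nat_lit 3631) (.d (nat_lit 563) (nat_lit 562) (nat_lit 2607) (nat_lit 564) (nat_lit 2608)))) (.f (nat_lit 559) (nat_lit 558) (nat_lit 3630) (.f (nat_lit 595) (nat_lit 560) (nat_lit 3631) (.d (nat_lit 627) (nat_lit 626) (nat_lit 591) (nat_lit 628) (nat_lit 592))))))) s15310))))))))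
noncomputable def s15589 : Cert := .r (nat_lit 97254271145648272471285418008738615781477991684159043166321632693553076914307473940673380652022045001331451405485025527722043848336730332579859930172292136771562777866061970669568) (.p (nat_lit 531) (.a (.f (nat_lit 563) (nat_lit 564) (nat_lit 528) (.f (nat_lit 499) (nat_lit 500) (nat_lit 2544) (.d (nat_lit 562) (nat_lit 467) (nat_lit 5586) (nat_lit 626) (nat_lit 6642)))) (.a (.f (nat_lit 496) (nat_lit 495) (nat_lit 3567) (.f (nat_lit 497) (nat_lit 532) (nat_lit 3568) (.d (nat_lit 561) (nat_lit 464) (nat_lit 7632) (nat_lit 626) (nat_lit 4593)))) (.f (nat_lit 563) (nat_lit 564) (nat_lit 528) (.f (nat_lit 499) (nat_lit 500) (nat_lit 2544) (.f (nat_lit 562) (nat_lit 467) (nat_lit 5586) (.f (nat_lit 496) (nat_lit 495) (nat_lit 3567) (.f (nat_lit 497) (nat_lit 532) (nat_lit 3568) (.d (nat_lit 465) (nat_lit 433) (nat_lit 4529) (nat_lit 498) (nat_lit 7633))))))))))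
noncomputable def s15615 : Cert := .r (nat_lit 113463316336589651215474511226282214027620359778856062306929669137657189458889146387547236311971669197769724400060419235465774907225057579876293034993049807424145519285599117246464) (.p (nat_lit 591) (.a (.f (nat_lit 622) (nat_lit 623) (nat_lit 1614) (.f (nat_lit 590) (nat_lit 621) (nat_lit 1613) (.d (nat_lit 558) (nat_lit 557) (nat_lit 3629) (nat_lit 559) (nat_lit 3630)))) (.a (.f (nat_lit 623) (nat_lit 622) (nat_lit 1614) (.f (nat_lit 595) (nat_lit 624) (nat_lit 1615) (.d (nat_lit 627) (nat_lit 626) (nat_lit 591) (nat_lit 628) (nat_lit 592)))) (.f (nat_lit 627) (nat_lit 626) (nat_lit 591) (.f (nat_lit 595) (nat_lit 628) (nat_lit 592) (.f (nat_lit 563) (nat_lit 564) (nat_lit 2608) (.f (nat_lit 531) (nat_lit 498) (nat_lit 7666) (.d (nat_lit 500) (nat_lit 499) (nat_lit 2544) (nat_lit 532) (nat_lit 6643)))))))))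
noncomputable def s15666 : Cert := .r (nat_lit 97254271145648272471285418008738615781477991684159043166321632693553076914307473940673380652022045001331451405485025527722043848336730332579859930172292136771562777866061970669568) (.p (nat_lit 531) (.a (.f (nat_lit 563) (nat_lit 564) (nat_lit 528) (.f (nat_lit 499) (nat_lit 500) (nat_lit 2544) (.d (nat_lit 562) (nat_lit 467) (nat_lit 5586) (nat_lit 626) (nat_lit 6642)))) (.a (.f (nat_lit 496) (nat_lit 495) (nat_lit 3567) (.f (nat_lit 532) (nat_lit 497) (nat_lit 3568) (.d (nat_lit 500) (nat_lit 499) (nat_lit 2544) (nat_lit 501) (nat_lit 2545)))) (.a (.f (nat_lit 563) (nat_lit 564) (nat_lit 528) (.f (nat_lit 496) (nat_lit 495) (nat_lit 3567) (.f (nat_lit 532) (nat_lit 497) (nat_lit 3568) (.f (nat_lit 501) (nat_lit 500) (nat_lit 2545) (.f (nat_lit 533) (nat_lit 502) (nat_lit 2546) (.f (nat_lit 562) (nat_lit 534) (nat_lit 1554) (.f (nat_lit 626) (nat_lit 658) (nat_lit 6674) (.f (nat_lit 627)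 (nat_lit 659) (nat_lit 4626) (.f (nat_lit 595) (nat_lit 498) (nat_lit 4594) (.d (nat_lit 592) (nat_lit 591) (nat_lit 2607) (nat_lit 628) (nat_lit 592))))))))))) (.f (nat_lit 496) (nat_lit 495) (nat_lit 3567) (.f (nat_lit 497) (nat_lit 532) (nat_lit 3568) (.f (nat_lit 562) (nat_lit 626) (nat_lit 7665) (.d (nat_lit 465) (nat_lit 433) (nat_lit 4529) (nat_lit 498) (nat_lit 7633)))))))))
noncomputable def s15745 : Cert := .r (nat_lit 97254271145648272471285418008738615781477991684159043166321632693553076914307473940673380652022045001331451405485025527722043848336730332579859930172292136771562777866061970669568) (.p (nat_lit 531) (.a (.f (nat_lit 563) (nat_lit 564) (nat_lit 528) (.f (nat_lit 499) (nat_lit 500) (nat_lit 2544) (.f (nat_lit 562) (nat_lit 467) (nat_lit 5586) (.f (nat_lit 496) (nat_lit 495) (nat_lit 3567) (.f (nat_lit 497) (nat_lit 532) (nat_lit 3568) (.d (nat_lit 465) (nat_lit 433) (nat_lit 4529) (nat_lit 498) (nat_lit 7633)))))))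 (.a (.f (nat_lit 500) (nat_lit 499) (nat_lit 2544) (.f (nat_lit 532) (nat_lit 501) (nat_lit 2545) (.d (nat_lit 564) (nat_lit 563) (nat_lit 528) (nat_lit 565) (nat_lit 529)))) (.a (.f (nat_lit 496) (nat_lit 495) (nat_lit 3567) (.f (nat_lit 532) (nat_lit 497) (nat_lit 3568) (.d (nat_lit 500) (nat_lit 499) (nat_lit 2544) (nat_lit 501) (nat_lit 2545)))) (.a (.f (nat_lit 563) (nat_lit 564) (nat_lit 528) (.f (nat_lit 499) (nat_lit 500) (nat_lit 2544) (.f (nat_lit 467) (nat_lit 562) (nat_lit 5586) (.f (nat_lit 466) (nat_lit 434) (nat_lit 7602) (.f (nat_lit 498) (nat_lit 595) (nat_lit 7634) (.f (nat_lit 497) (nat_lit 561) (nat_lit 6609) (.d (nat_lit 468) (nat_lit 436) (nat_lit 6579) (nat_lit 469) (nat_lit 1489)))))))) (.f (nat_lit 564) (nat_lit 563) (nat_lit 528) (.f (nat_lit 532) (nat_lit 565) (nat_lit 529) (.d (nat_lit 496) (nat_lit 495) (nat_lit 3567) (nat_lit 497) (nat_lit 3568)))))))))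
noncomputable def s15750 : Cert := .r (nat_lit 97254271145648272467770641606751743607407258475029369839079681819879704544697508649570382542122445102644700869466360795573668136904292133264853472316437215139524875381011061407744) (.p (nat_lit 592) (.a s15039 (.a (.p (nat_lit 591) (.a (.f (nat_lit 562) (nat_lit 563) (nat_lit 2607) (.f (nat_lit 626) (nat_lit 627) (nat_lit 591) (.d (nat_lit 561) (nat_lit 590) (nat_lit 2606) (nat_lit 658) (nat_lit 7697)))) (.a (.f (nat_lit 622) (nat_lit 623) (nat_lit 1614) (.f (nat_lit 590) (nat_lit 621) (nat_lit 1613) (.d (nat_lit 558) (nat_lit 557) (nat_lit 3629) (nat_lit 559) (nat_lit 3630)))) (.f (nat_lit 563) (nat_lit 562) (nat_lit 2607) (.f (nat_lit 595) (nat_lit 564) (nat_lit 2608) (.d (nat_lit 623) (nat_lit 622) (nat_lit 1614) (nat_lit 624) (nat_lit 1615))))))) (.a (.p (nat_lit 591) (.a (.f (nat_lit 562) (nat_lit 563) (nat_lit 2607) (.f (nat_lit 626) (nat_lit 627) (nat_lit 591) (.d (nat_lit 561) (nat_lit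 590) (nat_lit 2606) (nat_lit 658) (nat_lit 7697)))) (.a (.f (nat_lit 563) (nat_lit 562) (nat_lit 2607) (.f (nat_lit 595) (nat_lit 564) (nat_lit 2608) (.d (nat_lit 623) (nat_lit 622) (nat_lit 1614) (nat_lit 624) (nat_lit 1615)))) (.f (nat_lit 623) (nat_lit 622) (nat_lit 1614) (.f (nat_lit 595) (nat_lit 624) (nat_lit 1615) (.d (nat_lit 627) (nat_lit 626) (nat_lit 591) (nat_lit 628) (nat_lit 592))))))) (.a (.p (nat_lit 560) (.a (.f (nat_lit 624) (nat_lit 497) (nat_lit 6640) (.d (nat_lit 595) (nat_lit 559) (nat_lit 3631) (nat_lit 623) (nat_lit 1615))) (.a (.f (nat_lit 595) (nat_lit 559) (nat_lit 3631) (.f (nat_lit 564) (nat_lit 563) (nat_lit 2608) (.f (nat_lit 596) (nat_lit 565) (nat_lit 2609) (.d (nat_lit 628) (nat_lit 627) (nat_lit 592) (nat_lit 629) (nat_lit 593))))) (.a (.f (nat_lit 624) (nat_lit 497) (nat_lit 6640) (.d (nat_lit 623) (nat_lit 595) (nat_lit 1615) (nat_lit 655) (nat_lit 5647))) (.f (nat_lit 497) (nat_lit 624) (nat_lit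 6640) (.d (nat_lit 465) (nat_lit 433) (nat_lit 5552) (nat_lit 561) (nat_lit 5584))))))) (.a (.p (nat_lit 591) (.a (.f (nat_lit 559) (nat_lit 558) (nat_lit 3630) (.f (nat_lit 560) (nat_lit 595) (nat_lit 3631) (.d (nat_lit 623) (nat_lit 622) (nat_lit 1614) (nat_lit 655) (nat_lit 6671)))) (.f (nat_lit 562) (nat_lit 563) (nat_lit 2607) (.f (nat_lit 626) (nat_lit 627) (nat_lit 591) (.d (nat_lit 561) (nat_lit 590) (nat_lit 2606) (nat_lit 658) (nat_lit 7697)))))) (.a s15307 (.a (.p (nat_lit 591) (.a (.f (nat_lit 562) (nat_lit 563) (nat_lit 2607) (.f (nat_lit 626) (nat_lit 627) (nat_lit 591) (.d (nat_lit 561) (nat_lit 590) (nat_lit 2606) (nat_lit 658) (nat_lit 7697)))) (.a (.f (nat_lit 559) (nat_lit 558) (nat_lit 3630) (.f (nat_lit 595) (nat_lit 560) (nat_lit 3631) (.d (nat_lit 563) (nat_lit 562) (nat_lit 2607) (nat_lit 564) (nat_lit 2608)))) (.f (nat_lit 559) (nat_lit 558) (nat_lit 3630) (.f (nat_lit 595) (nat_lit 560) (nat_lit 3631) (.d (nat_lit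 627) (nat_lit 626) (nat_lit 591) (nat_lit 628) (nat_lit 592))))))) s15310))))))))
noncomputable def s15751 : Cert := .r (nat_lit 113463316336589651211959734824295341853549626569726388979687718263983817089279181096444238202072069299082973864041754503317399195792619380561286577137194885792107616800548207984640) (.p (nat_lit 591) (.a (.f (nat_lit 563) (nat_lit 562) (nat_lit 2607) (.f (nat_lit 595) (nat_lit 564) (nat_lit 2608) (.d (nat_lit 623) (nat_lit 622) (nat_lit 1614) (nat_lit 624) (nat_lit 1615)))) (.a (.f (nat_lit 623) (nat_lit 622) (nat_lit 1614) (.f (nat_lit 595) (nat_lit 624) (nat_lit 1615) (.d (nat_lit 627) (nat_lit 626) (nat_lit 591) (nat_lit 628) (nat_lit 592)))) (.a (.f (nat_lit 563) (nat_lit 562) (nat_lit 2607) (.f (nat_lit 595) (nat_lit 564) (nat_lit 2608) (.d (nat_lit 627) (nat_lit 626) (nat_lit 591) (nat_lit 628) (nat_lit 592)))) (.f (nat_lit 623) (nat_lit 622) (nat_lit 1614) (.f (nat_lit 560) (nat_lit 496) (nat_lit 5615)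 (.d (nat_lit 655) (nat_lit 624) (nat_lit 5647) (nat_lit 687) (nat_lit 6703))))))))
noncomputable def s15756 : Cert := .r (nat_lit 113463316336589651211959734824295341853549626569726388979687718263983817089279181096444238202072069299082973864041754503317399195792619380561286577137194885792107616800548207984640) (.p (nat_lit 591) (.a (.f (nat_lit 622) (nat_lit 623) (nat_lit 1614) (.f (nat_lit 590) (nat_lit 621) (nat_lit 1613) (.d (nat_lit 558) (nat_lit 557) (nat_lit 3629) (nat_lit 559) (nat_lit 3630)))) (.a (.f (nat_lit 623) (nat_lit 622) (nat_lit 1614) (.f (nat_lit 560) (nat_lit 496) (nat_lit 5615) (.d (nat_lit 655) (nat_lit 624) (nat_lit 5647) (nat_lit 687) (nat_lit 6703)))) (.f (nat_lit 562) (nat_lit 563) (nat_lit 2607) (.f (nat_lit 626) (nat_lit 627) (nat_lit 591) (.f (nat_lit 497) (nat_lit 530) (nat_lit 7665) (.f (nat_lit 560) (nat_lit 624) (nat_lit 6640) (.d (nat_lit 465) (nat_lit 433) (nat_lit 5552) (nat_lit 496) (nat_lit 6608)))))))))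
noncomputable def s15757 : Cert := .r (nat_lit 97254271145648272467770641606751743607407258475029369839079681819879704544697508649570382542122445102644700869466360795573668136904292133264853472316437215139524875381011061407744) (.p (nat_lit 592) (.a s15039 (.a (.p (nat_lit 591) (.a (.f (nat_lit 622) (nat_lit 623) (nat_lit 1614) (.f (nat_lit 590) (nat_lit 621) (nat_lit 1613) (.d (nat_lit 558) (nat_lit 557) (nat_lit 3629) (nat_lit 559) (nat_lit 3630)))) (.a (.f (nat_lit 563) (nat_lit 562) (nat_lit 2607) (.f (nat_lit 595) (nat_lit 564) (nat_lit 2608) (.d (nat_lit 623) (nat_lit 622) (nat_lit 1614) (nat_lit 624) (nat_lit 1615)))) (.f (nat_lit 563) (nat_lit 562) (nat_lit 2607) (.f (nat_lit 595) (nat_lit 564) (nat_lit 2608) (.d (nat_lit 627) (nat_lit 626) (nat_lit 591) (nat_lit 628) (nat_lit 592))))))) (.a s15751 (.a (.p (nat_lit 560) (.a (.f (nat_lit 624) (nat_lit 497) (nat_lit 6640) (.d (nat_lit 595) (nat_lit 559) (nat_lit 3631) (nat_lit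 623) (nat_lit 1615))) (.a (.f (nat_lit 595) (nat_lit 559) (nat_lit 3631) (.f (nat_lit 564) (nat_lit 563) (nat_lit 2608) (.f (nat_lit 596) (nat_lit 565) (nat_lit 2609) (.d (nat_lit 628) (nat_lit 627) (nat_lit 592) (nat_lit 629) (nat_lit 593))))) (.a (.f (nat_lit 624) (nat_lit 497) (nat_lit 6640) (.d (nat_lit 623) (nat_lit 595) (nat_lit 1615) (nat_lit 655) (nat_lit 5647))) (.f (nat_lit 497) (nat_lit 624) (nat_lit 6640) (.d (nat_lit 465) (nat_lit 433) (nat_lit 5552) (nat_lit 496) (nat_lit 6608))))))) (.a (.p (nat_lit 591) (.a (.f (nat_lit 559) (nat_lit 558) (nat_lit 3630) (.f (nat_lit 560) (nat_lit 595) (nat_lit 3631) (.d (nat_lit 623) (nat_lit 622) (nat_lit 1614) (nat_lit 655) (nat_lit 6671)))) (.a (.f (nat_lit 622) (nat_lit 623) (nat_lit 1614) (.f (nat_lit 590) (nat_lit 621) (nat_lit 1613) (.d (nat_lit 558) (nat_lit 557) (nat_lit 3629) (nat_lit 559) (nat_lit 3630)))) (.f (nat_lit 563) (nat_lit 562) (nat_lit 2607) (.f (nat_lit 595) (nat_lit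 564) (nat_lit 2608) (.d (nat_lit 627) (nat_lit 626) (nat_lit 591) (nat_lit 628) (nat_lit 592))))))) (.a s15307 (.a (.p (nat_lit 560) (.a (.f (nat_lit 559) (nat_lit 595) (nat_lit 3631) (.d (nat_lit 558) (nat_lit 557) (nat_lit 557) (nat_lit 591) (nat_lit 3630))) (.f (nat_lit 497) (nat_lit 624) (nat_lit 6640) (.d (nat_lit 465) (nat_lit 433) (nat_lit 5552) (nat_lit 496) (nat_lit 6608))))) s15756))))))))
noncomputable def s15788 : Cert := .r (nat_lit 113463316336589651211959734824295341853549626569726388979687718263983817089279181096444238202072069299082973864041754503317399195792619380561286577137194885792107616800548207984640) (.p (nat_lit 591) (.a (.f (nat_lit 563) (nat_lit 562) (nat_lit 2607) (.f (nat_lit 595) (nat_lit 564) (nat_lit 2608) (.d (nat_lit 623) (nat_lit 622) (nat_lit 1614) (nat_lit 624) (nat_lit 1615)))) (.a (.f (nat_lit 623) (nat_lit 622) (nat_lit 1614) (.f (nat_lit 624) (nat_lit 595) (nat_lit 1615) (.d (nat_lit 497) (nat_lit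 560) (nat_lit 6640) (nat_lit 561) (nat_lit 5616)))) (.a s15456 (.f (nat_lit 562) (nat_lit 563) (nat_lit 2607) (.f (nat_lit 561) (nat_lit 590) (nat_lit 2606) (.d (nat_lit 497) (nat_lit 465) (nat_lit 4561) (nat_lit 624) (nat_lit 5616))))))))
noncomputable def s15789 : Cert := .r (nat_lit 97254271145648272467770641606751743607407258475029369839079681819879704544697508649570382542122445102644700869466360795573668136904292133264853472316437215139524875381011061407744) (.p (nat_lit 592) (.a (.p (nat_lit 591) (.a (.f (nat_lit 562) (nat_lit 563) (nat_lit 2607) (.f (nat_lit 626) (nat_lit 627) (nat_lit 591) (.d (nat_lit 561) (nat_lit 590) (nat_lit 2606) (nat_lit 658) (nat_lit 7697)))) (.a (.f (nat_lit 563) (nat_lit 562) (nat_lit 2607) (.f (nat_lit 595) (nat_lit 564) (nat_lit 2608) (.d (nat_lit 623) (nat_lit 622) (nat_lit 1614) (nat_lit 624) (nat_lit 1615)))) (.f (nat_lit 623) (nat_lit 622) (nat_lit 1614) (.f (nat_lit 595) (nat_lit 624) (nat_lit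 1615) (.d (nat_lit 627) (nat_lit 626) (nat_lit 591) (nat_lit 628) (nat_lit 592))))))) (.a s15751 (.a (.p (nat_lit 497) (.a (.d (nat_lit 561) (nat_lit 624) (nat_lit 5616) (nat_lit 626) (nat_lit 4593)) (.a (.f (nat_lit 560) (nat_lit 624) (nat_lit 6640) (.d (nat_lit 465) (nat_lit 433) (nat_lit 5552) (nat_lit 496) (nat_lit 6608))) (.f (nat_lit 561) (nat_lit 626) (nat_lit 4593) (.d (nat_lit 465) (nat_lit 560) (nat_lit 5584) (nat_lit 562) (nat_lit 4561)))))) (.a (.p (nat_lit 591) (.a (.f (nat_lit 623) (nat_lit 622) (nat_lit 1614) (.f (nat_lit 624) (nat_lit 595) (nat_lit 1615) (.d (nat_lit 497) (nat_lit 560) (nat_lit 6640) (nat_lit 561) (nat_lit 5616)))) (.a (.f (nat_lit 623) (nat_lit 622) (nat_lit 1614) (.f (nat_lit 595) (nat_lit 624) (nat_lit 1615) (.d (nat_lit 627) (nat_lit 626) (nat_lit 591) (nat_lit 628) (nat_lit 592)))) (.a (.f (nat_lit 623) (nat_lit 622) (nat_lit 1614) (.f (nat_lit 560) (nat_lit 496) (nat_lit 5615) (.f (nat_lit 627)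 (nat_lit 626) (nat_lit 591) (.f (nat_lit 595) (nat_lit 628) (nat_lit 592) (.f (nat_lit 561) (nat_lit 596) (nat_lit 3632) (.f (nat_lit 497) (nat_lit 465) (nat_lit 5584) (.f (nat_lit 563) (nat_lit 564) (nat_lit 2608) (.f (nat_lit 498) (nat_lit 466) (nat_lit 6609) (.f (nat_lit 531) (nat_lit 530) (nat_lit 7666) (.d (nat_lit 500) (nat_lit 499) (nat_lit 1520) (nat_lit 532) (nat_lit 6643))))))))))) (.f (nat_lit 626) (nat_lit 627) (nat_lit 591) (.f (nat_lit 497) (nat_lit 561) (nat_lit 4593) (.f (nat_lit 560) (nat_lit 624) (nat_lit 6640) (.d (nat_lit 465) (nat_lit 433) (nat_lit 5552) (nat_lit 496) (nat_lit 6608))))))))) (.a (.p (nat_lit 591) (.a (.f (nat_lit 562) (nat_lit 563) (nat_lit 2607) (.f (nat_lit 626) (nat_lit 627) (nat_lit 591) (.d (nat_lit 561) (nat_lit 590) (nat_lit 2606) (nat_lit 658) (nat_lit 7697)))) (.a (.f (nat_lit 563) (nat_lit 562) (nat_lit 2607) (.f (nat_lit 595) (nat_lit 564) (nat_lit 2608) (.d (nat_lit 627) (nat_lit 626)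 (nat_lit 591) (nat_lit 628) (nat_lit 592)))) (.a (.f (nat_lit 623) (nat_lit 622) (nat_lit 1614) (.f (nat_lit 560) (nat_lit 496) (nat_lit 5615) (.f (nat_lit 627) (nat_lit 626) (nat_lit 591) (.f (nat_lit 595) (nat_lit 628) (nat_lit 592) (.f (nat_lit 561) (nat_lit 596) (nat_lit 3632) (.f (nat_lit 497) (nat_lit 465) (nat_lit 5584) (.f (nat_lit 563) (nat_lit 564) (nat_lit 2608) (.f (nat_lit 498) (nat_lit 466) (nat_lit 6609) (.f (nat_lit 531) (nat_lit 530) (nat_lit 7666) (.d (nat_lit 500) (nat_lit 499) (nat_lit 1520) (nat_lit 532) (nat_lit 6643))))))))))) (.a (.f (nat_lit 626) (nat_lit 627) (nat_lit 591) (.f (nat_lit 561) (nat_lit 497) (nat_lit 4593) (.d (nat_lit 562) (nat_lit 590) (nat_lit 2606) (nat_lit 658) (nat_lit 7697)))) (.a s15456 (.f (nat_lit 562) (nat_lit 563) (nat_lit 2607) (.f (nat_lit 561) (nat_lit 590) (nat_lit 2606) (.d (nat_lit 497) (nat_lit 465) (nat_lit 4561) (nat_lit 626) (nat_lit 4593)))))))))) s15788))))))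
noncomputable def s15795 : Cert := .r (nat_lit 97254271145648272471285418008738615781477991684159043166321632693553076914307473940673380652022045001331451405485025527722043848336730332579859930172292136771562777866061970669568) (.p (nat_lit 531) (.a (.f (nat_lit 563) (nat_lit 564) (nat_lit 528) (.f (nat_lit 499) (nat_lit 500) (nat_lit 2544) (.d (nat_lit 562) (nat_lit 467) (nat_lit 5586) (nat_lit 626) (nat_lit 6642)))) (.a (.f (nat_lit 500) (nat_lit 499) (nat_lit 2544) (.f (nat_lit 532) (nat_lit 501) (nat_lit 2545) (.d (nat_lit 564) (nat_lit 563) (nat_lit 528) (nat_lit 565) (nat_lit 529)))) (.a (.f (nat_lit 499) (nat_lit 500) (nat_lit 2544) (.f (nat_lit 562) (nat_lit 626) (nat_lit 6642) (.d (nat_lit 467) (nat_lit 435) (nat_lit 5554) (nat_lit 498) (nat_lit 6610)))) (.f (nat_lit 564) (nat_lit 563) (nat_lit 528) (.f (nat_lit 532) (nat_lit 565) (nat_lit 529) (.f (nat_lit 561) (nat_lit 560) (nat_lit 1552) (.f (nat_lit 497) (nat_lit 626) (nat_lit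 4593) (.d (nat_lit 498) (nat_lit 466) (nat_lit 6609) (nat_lit 533) (nat_lit 3569))))))))))
noncomputable def s15803 : Cert := .r (nat_lit 97254271145648272471285418008738615781477991684159043166321632693553076914307473940673380652022045001331451405485025527722043848336730332579859930172292136771562777866061970669568) (.p (nat_lit 531) (.a (.f (nat_lit 563) (nat_lit 564) (nat_lit 528) (.f (nat_lit 499) (nat_lit 500) (nat_lit 2544) (.d (nat_lit 562) (nat_lit 467) (nat_lit 5586) (nat_lit 626) (nat_lit 6642)))) (.a (.f (nat_lit 500) (nat_lit 499) (nat_lit 2544) (.f (nat_lit 532) (nat_lit 501) (nat_lit 2545) (.d (nat_lit 564) (nat_lit 563) (nat_lit 528) (nat_lit 565) (nat_lit 529)))) (.a (.f (nat_lit 499) (nat_lit 500) (nat_lit 2544) (.f (nat_lit 562) (nat_lit 626) (nat_lit 6642) (.d (nat_lit 467) (nat_lit 435) (nat_lit 5554) (nat_lit 498) (nat_lit 6610)))) (.f (nat_lit 564) (nat_lit 563) (nat_lit 528) (.f (nat_lit 532) (nat_lit 565) (nat_lit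 529) (.f (nat_lit 561) (nat_lit 560) (nat_lit 1552) (.f (nat_lit 562) (nat_lit 533) (nat_lit 1553) (.f (nat_lit 626) (nat_lit 658) (nat_lit 7697) (.f (nat_lit 627) (nat_lit 659) (nat_lit 4626) (.d (nat_lit 498) (nat_lit 466) (nat_lit 5585) (nat_lit 595) (nat_lit 4594))))))))))))
noncomputable def s15883 : Cert := .r (nat_lit 97254271145648272467770641606751743607407258475029369839079681819879704544697508649570382542122445102644700869466360795573668136904292133264853472316437215139524875381011061407744) (.p (nat_lit 595) (.a (.p (nat_lit 592) (.a (.f (nat_lit 560) (nat_lit 559) (nat_lit 3631) (.f (nat_lit 561) (nat_lit 596) (nat_lit 3632) (.d (nat_lit 624) (nat_lit 623) (nat_lit 1615) (nat_lit 656) (nat_lit 6672)))) (.a (.f (nat_lit 564) (nat_lit 563) (nat_lit 2608) (.f (nat_lit 596) (nat_lit 565) (nat_lit 2609) (.d (nat_lit 628) (nat_lit 627) (nat_lit 592) (nat_lit 629) (nat_lit 593)))) (.f (nat_lit 560) (nat_lit 559) (nat_lit 3631)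 (.d (nat_lit 624) (nat_lit 497) (nat_lit 6640) (nat_lit 623) (nat_lit 1615)))))) (.a (.p (nat_lit 564) (.a (.f (nat_lit 563) (nat_lit 592) (nat_lit 2608) (.d (nat_lit 565) (nat_lit 566) (nat_lit 1586) (nat_lit 596) (nat_lit 2609))) (.a (.f (nat_lit 565) (nat_lit 596) (nat_lit 2609) (.f (nat_lit 563) (nat_lit 566) (nat_lit 1586) (.f (nat_lit 531) (nat_lit 530) (nat_lit 528) (.f (nat_lit 626) (nat_lit 499) (nat_lit 5618) (.d (nat_lit 658) (nat_lit 627) (nat_lit 5650) (nat_lit 690) (nat_lit 6706)))))) (.a (.f (nat_lit 596) (nat_lit 565) (nat_lit 2609) (.f (nat_lit 628) (nat_lit 629) (nat_lit 593) (.f (nat_lit 627) (nat_lit 592) (nat_lit 592) (.d (nat_lit 532) (nat_lit 500) (nat_lit 5619) (nat_lit 659) (nat_lit 5651))))) (.f (nat_lit 563) (nat_lit 592) (nat_lit 2608) (.f (nat_lit 531) (nat_lit 530) (nat_lit 528) (.f (nat_lit 626) (nat_lit 499) (nat_lit 5618) (.d (nat_lit 658) (nat_lit 627) (nat_lit 5650) (nat_lit 690) (nat_lit 6706)))))))))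 (.a (.p (nat_lit 561) (.a (.f (nat_lit 560) (nat_lit 596) (nat_lit 3632) (.f (nat_lit 497) (nat_lit 626) (nat_lit 4593) (.f (nat_lit 465) (nat_lit 433) (nat_lit 5552) (.d (nat_lit 466) (nat_lit 434) (nat_lit 6577) (nat_lit 498) (nat_lit 6609))))) (.a (.f (nat_lit 497) (nat_lit 626) (nat_lit 4593) (.f (nat_lit 496) (nat_lit 464) (nat_lit 7632) (.f (nat_lit 498) (nat_lit 466) (nat_lit 6609) (.f (nat_lit 499) (nat_lit 500) (nat_lit 1520) (.f (nat_lit 531) (nat_lit 532) (nat_lit 496) (.f (nat_lit 495) (nat_lit 530) (nat_lit 3567) (.f (nat_lit 494) (nat_lit 493) (nat_lit 493) (.d (nat_lit 462) (nat_lit 461) (nat_lit 3533) (nat_lit 463) (nat_lit 3534))))))))) (.f (nat_lit 596) (nat_lit 560) (nat_lit 3632) (.f (nat_lit 629) (nat_lit 628) (nat_lit 593) (.f (nat_lit 597) (nat_lit 630) (nat_lit 594) (.d (nat_lit 565) (nat_lit 564) (nat_lit 2609) (nat_lit 566) (nat_lit 2610)))))))) (.a (.p (nat_lit 592) (.a (.f (nat_lit 560) (nat_lit 559) (nat_lit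 3631) (.f (nat_lit 561) (nat_lit 596) (nat_lit 3632) (.d (nat_lit 624) (nat_lit 623) (nat_lit 1615) (nat_lit 656) (nat_lit 6672)))) (.a (.f (nat_lit 627) (nat_lit 628) (nat_lit 592) (.f (nat_lit 591) (nat_lit 626) (nat_lit 591) (.d (nat_lit 623) (nat_lit 622) (nat_lit 1614) (nat_lit 624) (nat_lit 1615)))) (.f (nat_lit 560) (nat_lit 559) (nat_lit 3631) (.f (nat_lit 561) (nat_lit 596) (nat_lit 3632) (.d (nat_lit 497) (nat_lit 465) (nat_lit 5584) (nat_lit 626) (nat_lit 4593))))))) (.a (.p (nat_lit 592) (.a (.f (nat_lit 560) (nat_lit 559) (nat_lit 3631) (.d (nat_lit 624) (nat_lit 497) (nat_lit 6640) (nat_lit 623) (nat_lit 1615))) (.a (.f (nat_lit 627) (nat_lit 628) (nat_lit 592) (.f (nat_lit 591) (nat_lit 626) (nat_lit 591) (.d (nat_lit 623) (nat_lit 622) (nat_lit 1614) (nat_lit 624) (nat_lit 1615)))) (.f (nat_lit 627) (nat_lit 628) (nat_lit 592) (.f (nat_lit 563) (nat_lit 564) (nat_lit 2608) (.f (nat_lit 626) (nat_lit 591) (nat_lit 591)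 (.d (nat_lit 531) (nat_lit 499) (nat_lit 5618) (nat_lit 658) (nat_lit 5650)))))))) (.p (nat_lit 560) (.a (.f (nat_lit 561) (nat_lit 596) (nat_lit 3632) (.f (nat_lit 497) (nat_lit 626) (nat_lit 4593) (.f (nat_lit 465) (nat_lit 433) (nat_lit 5552) (.d (nat_lit 466) (nat_lit 434) (nat_lit 6577) (nat_lit 498) (nat_lit 6609))))) (.a (.f (nat_lit 559) (nat_lit 592) (nat_lit 3631) (.d (nat_lit 558) (nat_lit 557) (nat_lit 2573) (nat_lit 561) (nat_lit 558))) (.f (nat_lit 592) (nat_lit 559) (nat_lit 3631) (.d (nat_lit 624) (nat_lit 497) (nat_lit 6640) (nat_lit 623) (nat_lit 1615))))))))))))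
noncomputable def s15886 : Cert := .r (nat_lit 97254271145648272467770641606751743607407258475029369839079681819879704544697508649570382542122445102644700869466360795573668136904292133264853472316437215139524875381011061407744) (.p (nat_lit 592) (.a s15307 (.a (.p (nat_lit 591) (.a (.f (nat_lit 622) (nat_lit 623) (nat_lit 1614) (.f (nat_lit 590) (nat_lit 621) (nat_lit 1613) (.d (nat_lit 558) (nat_lit 557) (nat_lit 3629) (nat_lit 559) (nat_lit 3630)))) (.a (.f (nat_lit 623) (nat_lit 622) (nat_lit 1614) (.f (nat_lit 595) (nat_lit 624) (nat_lit 1615) (.d (nat_lit 627) (nat_lit 626) (nat_lit 591) (nat_lit 628) (nat_lit 592)))) (.f (nat_lit 626) (nat_lit 627) (nat_lit 591) (.f (nat_lit 561) (nat_lit 497) (nat_lit 4593) (.d (nat_lit 562) (nat_lit 590) (nat_lit 2606) (nat_lit 658) (nat_lit 7697))))))) (.a (.p (nat_lit 497) (.a (.d (nat_lit 561) (nat_lit 624) (nat_lit 5616) (nat_lit 626) (nat_lit 4593)) (.a (.f (nat_lit 560) (nat_lit 624) (nat_lit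 6640) (.d (nat_lit 465) (nat_lit 433) (nat_lit 5552) (nat_lit 496) (nat_lit 6608))) (.f (nat_lit 561) (nat_lit 626) (nat_lit 4593) (.d (nat_lit 465) (nat_lit 560) (nat_lit 5584) (nat_lit 562) (nat_lit 4561)))))) (.a (.p (nat_lit 591) (.a (.f (nat_lit 559) (nat_lit 558) (nat_lit 3630) (.f (nat_lit 560) (nat_lit 595) (nat_lit 3631) (.d (nat_lit 623) (nat_lit 622) (nat_lit 1614) (nat_lit 655) (nat_lit 6671)))) (.a (.f (nat_lit 622) (nat_lit 623) (nat_lit 1614) (.f (nat_lit 590) (nat_lit 621) (nat_lit 1613) (.d (nat_lit 558) (nat_lit 557) (nat_lit 3629) (nat_lit 559) (nat_lit 3630)))) (.f (nat_lit 626) (nat_lit 627) (nat_lit 591) (.f (nat_lit 561) (nat_lit 497) (nat_lit 4593) (.d (nat_lit 562) (nat_lit 590) (nat_lit 2606) (nat_lit 658) (nat_lit 7697))))))) (.p (nat_lit 560) (.a (.f (nat_lit 559) (nat_lit 595) (nat_lit 3631) (.d (nat_lit 558) (nat_lit 557) (nat_lit 557) (nat_lit 591) (nat_lit 3630))) (.f (nat_lit 497) (nat_lit 624) (nat_lit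 6640) (.d (nat_lit 465) (nat_lit 433) (nat_lit 5552) (nat_lit 496) (nat_lit 6608))))))))))
noncomputable def s15890 : Cert := .r (nat_lit 97254271145648272467770641606751743607407258475029369839079681819879704544697508649570382542122445102644700869466360795573668136904292133264853472316437215139524875381011061407744) (.p (nat_lit 592) (.a s15039 (.a (.p (nat_lit 591) (.a (.f (nat_lit 622) (nat_lit 623) (nat_lit 1614) (.f (nat_lit 590) (nat_lit 621) (nat_lit 1613) (.d (nat_lit 558) (nat_lit 557) (nat_lit 3629) (nat_lit 559) (nat_lit 3630)))) (.a (.f (nat_lit 563) (nat_lit 562) (nat_lit 2607) (.f (nat_lit 595) (nat_lit 564) (nat_lit 2608) (.d (nat_lit 623) (nat_lit 622) (nat_lit 1614) (nat_lit 624) (nat_lit 1615)))) (.f (nat_lit 562) (nat_lit 563) (nat_lit 2607) (.f (nat_lit 561) (nat_lit 590) (nat_lit 2606) (.d (nat_lit 497) (nat_lit 465) (nat_lit 4561) (nat_lit 624) (nat_lit 5616))))))) (.a s15788 (.a s15303 (.a (.p (nat_lit 560) (.a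 (.f (nat_lit 624) (nat_lit 497) (nat_lit 6640) (.d (nat_lit 595) (nat_lit 559) (nat_lit 3631) (nat_lit 623) (nat_lit 1615))) (.a (.f (nat_lit 595) (nat_lit 559) (nat_lit 3631) (.f (nat_lit 564) (nat_lit 563) (nat_lit 2608) (.f (nat_lit 596) (nat_lit 565) (nat_lit 2609) (.d (nat_lit 628) (nat_lit 627) (nat_lit 592) (nat_lit 629) (nat_lit 593))))) (.a (.f (nat_lit 624) (nat_lit 497) (nat_lit 6640) (.d (nat_lit 623) (nat_lit 595) (nat_lit 1615) (nat_lit 655) (nat_lit 5647))) (.f (nat_lit 497) (nat_lit 624) (nat_lit 6640) (.d (nat_lit 465) (nat_lit 433) (nat_lit 5552) (nat_lit 561) (nat_lit 5584))))))) (.a (.p (nat_lit 591) (.a (.f (nat_lit 559) (nat_lit 558) (nat_lit 3630) (.f (nat_lit 560) (nat_lit 595) (nat_lit 3631) (.d (nat_lit 623) (nat_lit 622) (nat_lit 1614) (nat_lit 655) (nat_lit 6671)))) (.a (.f (nat_lit 622) (nat_lit 623) (nat_lit 1614) (.f (nat_lit 590) (nat_lit 621) (nat_lit 1613) (.d (nat_lit 558) (nat_lit 557) (nat_lit 3629)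 (nat_lit 559) (nat_lit 3630)))) (.a s15456 (.f (nat_lit 559) (nat_lit 558) (nat_lit 3630) (.f (nat_lit 595) (nat_lit 560) (nat_lit 3631) (.d (nat_lit 563) (nat_lit 562) (nat_lit 2607) (nat_lit 564) (nat_lit 2608)))))))) (.a (.p (nat_lit 560) (.a (.f (nat_lit 559) (nat_lit 595) (nat_lit 3631) (.d (nat_lit 558) (nat_lit 557) (nat_lit 557) (nat_lit 591) (nat_lit 3630))) (.f (nat_lit 497) (nat_lit 624) (nat_lit 6640) (.d (nat_lit 465) (nat_lit 433) (nat_lit 5552) (nat_lit 496) (nat_lit 6608))))) (.p (nat_lit 591) (.a (.f (nat_lit 622) (nat_lit 623) (nat_lit 1614) (.f (nat_lit 590) (nat_lit 621) (nat_lit 1613) (.d (nat_lit 558) (nat_lit 557) (nat_lit 3629) (nat_lit 559) (nat_lit 3630)))) (.a (.f (nat_lit 623) (nat_lit 622) (nat_lit 1614) (.f (nat_lit 560) (nat_lit 496) (nat_lit 5615) (.d (nat_lit 655) (nat_lit 624) (nat_lit 5647) (nat_lit 687) (nat_lit 6703)))) (.f (nat_lit 562) (nat_lit 563) (nat_lit 2607) (.f (nat_lit 561) (nat_lit 590)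 (nat_lit 2606) (.d (nat_lit 497) (nat_lit 465) (nat_lit 4561) (nat_lit 624) (nat_lit 5616)))))))))))))))
noncomputable def s15893 : Cert := .r (nat_lit 97254271145648272467770641606751743607407258475029369839079681819879704544697508649570382542122445102644700869466360795573668136904292133264853472316437215139524875381011061407744) (.p (nat_lit 592) (.a s15310 (.a (.p (nat_lit 591) (.a (.f (nat_lit 562) (nat_lit 563) (nat_lit 2607) (.f (nat_lit 626) (nat_lit 627) (nat_lit 591) (.d (nat_lit 561) (nat_lit 590) (nat_lit 2606) (nat_lit 658) (nat_lit 7697)))) (.a (.f (nat_lit 622) (nat_lit 623) (nat_lit 1614) (.f (nat_lit 590) (nat_lit 621) (nat_lit 1613) (.d (nat_lit 558) (nat_lit 557) (nat_lit 3629) (nat_lit 559) (nat_lit 3630)))) (.f (nat_lit 626) (nat_lit 627) (nat_lit 591) (.f (nat_lit 562) (nat_lit 563) (nat_lit 2607) (.d (nat_lit 497) (nat_lit 530) (nat_lit 7665) (nat_lit 561) (nat_lit 4593))))))) (.a s15756 (.a (.p (nat_lit 497) (.a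 (.d (nat_lit 561) (nat_lit 624) (nat_lit 5616) (nat_lit 626) (nat_lit 4593)) (.a (.f (nat_lit 560) (nat_lit 624) (nat_lit 6640) (.d (nat_lit 465) (nat_lit 433) (nat_lit 5552) (nat_lit 496) (nat_lit 6608))) (.f (nat_lit 561) (nat_lit 626) (nat_lit 4593) (.d (nat_lit 465) (nat_lit 560) (nat_lit 5584) (nat_lit 562) (nat_lit 4561)))))) (.a (.p (nat_lit 591) (.a (.f (nat_lit 622) (nat_lit 623) (nat_lit 1614) (.f (nat_lit 590) (nat_lit 621) (nat_lit 1613) (.d (nat_lit 558) (nat_lit 557) (nat_lit 3629) (nat_lit 559) (nat_lit 3630)))) (.a (.f (nat_lit 623) (nat_lit 622) (nat_lit 1614) (.f (nat_lit 560) (nat_lit 496) (nat_lit 5615) (.d (nat_lit 655) (nat_lit 624) (nat_lit 5647) (nat_lit 687) (nat_lit 6703)))) (.f (nat_lit 626) (nat_lit 627) (nat_lit 591) (.f (nat_lit 497) (nat_lit 561) (nat_lit 4593) (.f (nat_lit 560) (nat_lit 624) (nat_lit 6640) (.d (nat_lit 465) (nat_lit 433) (nat_lit 5552) (nat_lit 496) (nat_lit 6608)))))))) (.p (nat_lit 591)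 (.a (.f (nat_lit 622) (nat_lit 623) (nat_lit 1614) (.f (nat_lit 590) (nat_lit 621) (nat_lit 1613) (.d (nat_lit 558) (nat_lit 557) (nat_lit 3629) (nat_lit 559) (nat_lit 3630)))) (.a (.f (nat_lit 623) (nat_lit 622) (nat_lit 1614) (.f (nat_lit 560) (nat_lit 496) (nat_lit 5615) (.d (nat_lit 655) (nat_lit 624) (nat_lit 5647) (nat_lit 687) (nat_lit 6703)))) (.f (nat_lit 562) (nat_lit 563) (nat_lit 2607) (.f (nat_lit 561) (nat_lit 590) (nat_lit 2606) (.d (nat_lit 497) (nat_lit 465) (nat_lit 4561) (nat_lit 624) (nat_lit 5616)))))))))))))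
noncomputable def s15895 : Cert := .r (nat_lit 97254271145648272467770641606751743607407258475029369839079681819879704544697508649570382542122445102644700869466360795573668136904292133264853472316437215139524875381011061407744) (.p (nat_lit 592) (.a s15039 (.a (.p (nat_lit 591) (.a (.f (nat_lit 622) (nat_lit 623) (nat_lit 1614) (.f (nat_lit 590) (nat_lit 621) (nat_lit 1613) (.d (nat_lit 558) (nat_lit 557) (nat_lit 3629) (nat_lit 559) (nat_lit 3630)))) (.a (.f (nat_lit 563) (nat_lit 562) (nat_lit 2607) (.f (nat_lit 595) (nat_lit 564) (nat_lit 2608) (.d (nat_lit 623) (nat_lit 622) (nat_lit 1614) (nat_lit 624) (nat_lit 1615)))) (.f (nat_lit 562) (nat_lit 563) (nat_lit 2607) (.f (nat_lit 561) (nat_lit 590) (nat_lit 2606) (.d (nat_lit 497) (nat_lit 465) (nat_lit 4561) (nat_lit 624) (nat_lit 5616))))))) (.a (.p (nat_lit 497) (.a (.d (nat_lit 561) (nat_lit 624) (nat_lit 5616) (nat_lit 626) (nat_lit 4593)) (.a (.f (nat_lit 560) (nat_lit 624)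 (nat_lit 6640) (.d (nat_lit 465) (nat_lit 433) (nat_lit 5552) (nat_lit 496) (nat_lit 6608))) (.f (nat_lit 561) (nat_lit 626) (nat_lit 4593) (.d (nat_lit 465) (nat_lit 560) (nat_lit 5584) (nat_lit 562) (nat_lit 4561)))))) (.a (.p (nat_lit 560) (.a (.f (nat_lit 559) (nat_lit 595) (nat_lit 3631) (.d (nat_lit 558) (nat_lit 557) (nat_lit 557) (nat_lit 591) (nat_lit 3630))) (.f (nat_lit 497) (nat_lit 624) (nat_lit 6640) (.d (nat_lit 465) (nat_lit 433) (nat_lit 5552) (nat_lit 496) (nat_lit 6608))))) (.p (nat_lit 591) (.a (.f (nat_lit 559) (nat_lit 558) (nat_lit 3630) (.f (nat_lit 560) (nat_lit 595) (nat_lit 3631) (.d (nat_lit 623) (nat_lit 622) (nat_lit 1614) (nat_lit 655) (nat_lit 6671)))) (.a (.f (nat_lit 622) (nat_lit 623) (nat_lit 1614) (.f (nat_lit 590) (nat_lit 621) (nat_lit 1613) (.d (nat_lit 558) (nat_lit 557) (nat_lit 3629) (nat_lit 559) (nat_lit 3630)))) (.f (nat_lit 562) (nat_lit 563) (nat_lit 2607) (.f (nat_lit 561) (nat_lit 590)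 (nat_lit 2606) (.d (nat_lit 497) (nat_lit 465) (nat_lit 4561) (nat_lit 626) (nat_lit 4593))))))))))))
noncomputable def s15905 : Cert := .r (nat_lit 32418090389430682340657351441060459784814323878075135717480416900215666966862067186859257606496201767246926426247722714660271591150524313338970638298529401032059301790161265754112) (.p (nat_lit 497) (.a (.f (nat_lit 592) (nat_lit 624) (nat_lit 5616) (.f (nat_lit 560) (nat_lit 465) (nat_lit 5584) (.f (nat_lit 496) (nat_lit 464) (nat_lit 4560) (.f (nat_lit 495) (nat_lit 463) (nat_lit 7631) (.d (nat_lit 494) (nat_lit 493) (nat_lit 493) (nat_lit 530) (nat_lit 494)))))) (.a (.f (nat_lit 496) (nat_lit 464) (nat_lit 7632) (.f (nat_lit 498) (nat_lit 466) (nat_lit 6609) (.f (nat_lit 499) (nat_lit 500) (nat_lit 1520) (.f (nat_lit 531) (nat_lit 532) (nat_lit 496) (.f (nat_lit 495) (nat_lit 530) (nat_lit 3567) (.f (nat_lit 494) (nat_lit 493) (nat_lit 493) (.d (nat_lit 462) (nat_lit 461) (nat_lit 3533)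 (nat_lit 463) (nat_lit 3534)))))))) (.f (nat_lit 592) (nat_lit 624) (nat_lit 5616) (.f (nat_lit 465) (nat_lit 560) (nat_lit 5584) (.d (nat_lit 466) (nat_lit 434) (nat_lit 6577) (nat_lit 498) (nat_lit 6609)))))))
noncomputable def s15906 : Cert := .r (nat_lit 32418090381882757491014268736577350622837786096241293276647536043463254366370818862074959902323948316891608891164785964598743901350983144079121053033406532529193909702862475100160) (.p (nat_lit 561) (.a (.f (nat_lit 625) (nat_lit 496) (nat_lit 7664) (.f (nat_lit 657) (nat_lit 560) (nat_lit 7696) (.d (nat_lit 530) (nat_lit 498) (nat_lit 6641) (nat_lit 562) (nat_lit 6673)))) (.a (.f (nat_lit 625) (nat_lit 496) (nat_lit 7664) (.f (nat_lit 530) (nat_lit 498) (nat_lit 6641) (.f (nat_lit 657) (nat_lit 562) (nat_lit 6673) (.d (nat_lit 656) (nat_lit 624) (nat_lit 5648) (nat_lit 688) (nat_lit 5680))))) (.a (.p (nat_lit 498) (.a (.f (nat_lit 530) (nat_lit 625) (nat_lit 6641) (.d (nat_lit 466)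 (nat_lit 434) (nat_lit 5553) (nat_lit 562) (nat_lit 5585))) (.a (.f (nat_lit 497) (nat_lit 466) (nat_lit 6609) (.f (nat_lit 624) (nat_lit 592) (nat_lit 5616) (.f (nat_lit 625) (nat_lit 656) (nat_lit 5648) (.f (nat_lit 657) (nat_lit 560) (nat_lit 7696) (.d (nat_lit 658) (nat_lit 626) (nat_lit 4625) (nat_lit 690) (nat_lit 4657)))))) (.a (.f (nat_lit 466) (nat_lit 497) (nat_lit 6609) (.d (nat_lit 530) (nat_lit 434) (nat_lit 5553) (nat_lit 562) (nat_lit 5585))) (.f (nat_lit 625) (nat_lit 530) (nat_lit 6641) (.f (nat_lit 657) (nat_lit 560) (nat_lit 7696) (.d (nat_lit 656) (nat_lit 624) (nat_lit 5648) (nat_lit 688) (nat_lit 5680)))))))) (.a (.f (nat_lit 625) (nat_lit 496) (nat_lit 7664) (.f (nat_lit 657) (nat_lit 560) (nat_lit 7696) (.d (nat_lit 656) (nat_lit 624) (nat_lit 5648) (nat_lit 688) (nat_lit 5680)))) s15905)))))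
noncomputable def s15907 : Cert := .r (nat_lit 48627135572824136235203361954120948868980154190938312417255572487567366910952491308948815562273572513329881885740179672342474960239310391375554157854164203181776651122399621677056) (.p (nat_lit 560) (.a (.f (nat_lit 496) (nat_lit 625) (nat_lit 4592) (.d (nat_lit 497) (nat_lit 465) (nat_lit 6608) (nat_lit 624) (nat_lit 6640))) (.a (.f (nat_lit 624) (nat_lit 497) (nat_lit 6640) (.f (nat_lit 625) (nat_lit 657) (nat_lit 4624) (.f (nat_lit 623) (nat_lit 655) (nat_lit 5647) (.d (nat_lit 594) (nat_lit 595) (nat_lit 1615) (nat_lit 622) (nat_lit 2638))))) (.a (.f (nat_lit 496) (nat_lit 625) (nat_lit 4592) (.f (nat_lit 591) (nat_lit 623) (nat_lit 5615) (.d (nat_lit 464) (nat_lit 559) (nat_lit 5583) (nat_lit 561) (nat_lit 4560)))) (.f (nat_lit 497) (nat_lit 624) (nat_lit 6640) (.d (nat_lit 465) (nat_lit 433) (nat_lit 5552) (nat_lit 496) (nat_lit 6608)))))))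
noncomputable def s15915 : Cert := .r (nat_lit 48627135572824136235203361954120948868980154190938312417255572487567366910952491308948815562273572513329881885740179672342474960239310391375554157854164203181776651122399621677056) (.p (nat_lit 561) (.a (.f (nat_lit 625) (nat_lit 496) (nat_lit 7664) (.d (nat_lit 624) (nat_lit 497) (nat_lit 5616) (nat_lit 656) (nat_lit 5648))) (.a (.f (nat_lit 497) (nat_lit 624) (nat_lit 5616) (.f (nat_lit 594) (nat_lit 626) (nat_lit 4593) (.f (nat_lit 562) (nat_lit 465) (nat_lit 4561) (.d (nat_lit 563) (nat_lit 564) (nat_lit 1584) (nat_lit 591) (nat_lit 2607))))) (.a (.f (nat_lit 625) (nat_lit 496) (nat_lit 7664) (.f (nat_lit 624) (nat_lit 656) (nat_lit 5648) (.f (nat_lit 626) (nat_lit 658) (nat_lit 4625) (.d (nat_lit 591) (nat_lit 590) (nat_lit 590) (nat_lit 627) (nat_lit 3663))))) (.f (nat_lit 625) (nat_lit 496) (nat_lit 7664) (.f (nat_lit 626) (nat_lit 658) (nat_lit 4625) (.f (nat_lit 594) (nat_lit 497)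 (nat_lit 4593) (.d (nat_lit 591) (nat_lit 590) (nat_lit 590) (nat_lit 627) (nat_lit 591)))))))))
noncomputable def s15924 : Cert := .r (nat_lit 48627135572824136235203361954120948868980154190938312417255572487567366910952491308948815562273572513329881885740179672342474960239310391375554157854164203181776651122399621677056) (.p (nat_lit 561) (.a (.f (nat_lit 625) (nat_lit 496) (nat_lit 7664) (.f (nat_lit 626) (nat_lit 658) (nat_lit 4625) (.f (nat_lit 594) (nat_lit 497) (nat_lit 4593) (.d (nat_lit 591) (nat_lit 590) (nat_lit 590) (nat_lit 627) (nat_lit 591))))) (.a s15078 (.a (.f (nat_lit 625) (nat_lit 496) (nat_lit 7664) (.f (nat_lit 626) (nat_lit 658) (nat_lit 4625) (.f (nat_lit 591) (nat_lit 590) (nat_lit 590) (.d (nat_lit 627) (nat_lit 594) (nat_lit 591) (nat_lit 628) (nat_lit 3664))))) (.a (.f (nat_lit 625) (nat_lit 496) (nat_lit 7664) (.f (nat_lit 560) (nat_lit 657) (nat_lit 7696) (.f (nat_lit 626) (nat_lit 658) (nat_lit 4625) (.d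 (nat_lit 497) (nat_lit 465) (nat_lit 5584) (nat_lit 594) (nat_lit 4593))))) (.a (.p (nat_lit 560) (.a (.f (nat_lit 497) (nat_lit 465) (nat_lit 5584) (.f (nat_lit 594) (nat_lit 626) (nat_lit 4593) (.d (nat_lit 559) (nat_lit 558) (nat_lit 558) (nat_lit 595) (nat_lit 3631)))) (.f (nat_lit 496) (nat_lit 464) (nat_lit 4560) (.f (nat_lit 591) (nat_lit 623) (nat_lit 5615) (.d (nat_lit 562) (nat_lit 563) (nat_lit 1583) (nat_lit 590) (nat_lit 2606)))))) (.a (.f (nat_lit 625) (nat_lit 496) (nat_lit 7664) (.f (nat_lit 657) (nat_lit 560) (nat_lit 7696) (.d (nat_lit 658) (nat_lit 626) (nat_lit 4625) (nat_lit 690) (nat_lit 4657)))) (.f (nat_lit 496) (nat_lit 625) (nat_lit 7664) (.d (nat_lit 464) (nat_lit 497) (nat_lit 7632) (nat_lit 560) (nat_lit 4560))))))))))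
noncomputable def s15925 : Cert := .r (nat_lit 32418090381882757491014268736577350622837786096241293276647536043463254366370818862074959902323948316891608891164785964598743901350983144079121053033406532529193909702862475100160) (.p (nat_lit 592) (.a s15907 (.a s15915 (.a s15079 (.a s15236 (.a s15427 (.a s15924 (.a s15311 s15502))))))))
noncomputable def s15947 : Cert := .r (nat_lit 32418090381882757491014268736577350622837786096241293276647536043463254366370818862074959902323948316891608891164785964598743901350983144079121053033406532529193909702862475100160) (.p (nat_lit 561) (.a (.f (nat_lit 625) (nat_lit 496) (nat_lit 7664) (.f (nat_lit 657) (nat_lit 560) (nat_lit 7696) (.d (nat_lit 530) (nat_lit 498) (nat_lit 6641) (nat_lit 562) (nat_lit 6673)))) (.a (.f (nat_lit 625) (nat_lit 496) (nat_lit 7664) (.f (nat_lit 530) (nat_lit 498) (nat_lit 6641) (.f (nat_lit 657) (nat_lit 562) (nat_lit 6673) (.d (nat_lit 656) (nat_lit 624) (nat_lit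 5648) (nat_lit 688) (nat_lit 5680))))) (.a (.p (nat_lit 497) (.a (.f (nat_lit 592) (nat_lit 624) (nat_lit 5616) (.f (nat_lit 465) (nat_lit 560) (nat_lit 5584) (.d (nat_lit 466) (nat_lit 434) (nat_lit 6577) (nat_lit 498) (nat_lit 6609)))) (.a (.f (nat_lit 498) (nat_lit 466) (nat_lit 6609) (.f (nat_lit 625) (nat_lit 530) (nat_lit 6641) (.d (nat_lit 624) (nat_lit 592) (nat_lit 5616) (nat_lit 656) (nat_lit 5648)))) (.a (.f (nat_lit 498) (nat_lit 466) (nat_lit 6609) (.f (nat_lit 625) (nat_lit 530) (nat_lit 6641) (.f (nat_lit 657) (nat_lit 560) (nat_lit 7696) (.d (nat_lit 656) (nat_lit 624) (nat_lit 5648) (nat_lit 688) (nat_lit 5680))))) (.a (.f (nat_lit 498) (nat_lit 466) (nat_lit 6609) (.f (nat_lit 625) (nat_lit 530) (nat_lit 6641) (.f (nat_lit 560) (nat_lit 657) (nat_lit 7696) (.d (nat_lit 465) (nat_lit 433) (nat_lit 5552) (nat_lit 592) (nat_lit 5584))))) (.a (.f (nat_lit 592) (nat_lit 624) (nat_lit 5616) (.f (nat_lit 465) (nat_lit 560)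 (nat_lit 5584) (.f (nat_lit 562) (nat_lit 594) (nat_lit 4561) (.f (nat_lit 433) (nat_lit 530) (nat_lit 4529) (.d (nat_lit 434) (nat_lit 402) (nat_lit 6545) (nat_lit 466) (nat_lit 6577)))))) (.f (nat_lit 592) (nat_lit 624) (nat_lit 5616) (.f (nat_lit 560) (nat_lit 465) (nat_lit 5584) (.f (nat_lit 625) (nat_lit 657) (nat_lit 7696) (.f (nat_lit 530) (nat_lit 498) (nat_lit 6641) (.d (nat_lit 531) (nat_lit 532) (nat_lit 1552) (nat_lit 559) (nat_lit 1551)))))))))))) (.a (.f (nat_lit 625) (nat_lit 496) (nat_lit 7664) (.f (nat_lit 657) (nat_lit 560) (nat_lit 7696) (.d (nat_lit 656) (nat_lit 624) (nat_lit 5648) (nat_lit 688) (nat_lit 5680)))) s15905)))))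
noncomputable def s15952 : Cert := .r (nat_lit 2636082301490154130553049906847254995431463155255029277207473968327248582424699924015062902013998549111281783574328649486254843391891191224028426863788181946368) (.p (nat_lit 593) (.a s14852 (.a s14886 (.a (.p (nat_lit 592) (.a s14917 (.a s14964 (.a s15024 (.a s15057 (.a s15079 (.a s15090 (.a s15113 (.a s15153 (.a s15165 (.a s15169 s15173))))))))))) (.a (.p (nat_lit 592) (.a s15024 (.a (.p (nat_lit 591) (.a (.p (nat_lit 594) (.a (.f (nat_lit 562) (nat_lit 563) (nat_lit 2607) (.f (nat_lit 626) (nat_lit 627) (nat_lit 591) (.d (nat_lit 561) (nat_lit 590) (nat_lit 2606) (nat_lit 658) (nat_lit 7697)))) (.a (.f (nat_lit 622) (nat_lit 623) (nat_lit 1614) (.f (nat_lit 590) (nat_lit 621) (nat_lit 1613) (.d (nat_lit 558) (nat_lit 557) (nat_lit 3629) (nat_lit 559) (nat_lit 3630)))) (.f (nat_lit 563) (nat_lit 562) (nat_lit 2607) (.f (nat_lit 595) (nat_lit 564) (nat_lit 2608) (.d (nat_lit 623) (nat_lit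 622) (nat_lit 1614) (nat_lit 624) (nat_lit 1615))))))) (.a (.p (nat_lit 594) (.a (.f (nat_lit 622) (nat_lit 623) (nat_lit 1614) (.f (nat_lit 590) (nat_lit 621) (nat_lit 1613) (.d (nat_lit 558) (nat_lit 557) (nat_lit 3629) (nat_lit 559) (nat_lit 3630)))) (.a (.f (nat_lit 563) (nat_lit 562) (nat_lit 2607) (.f (nat_lit 595) (nat_lit 564) (nat_lit 2608) (.d (nat_lit 623) (nat_lit 622) (nat_lit 1614) (nat_lit 624) (nat_lit 1615)))) (.f (nat_lit 626) (nat_lit 627) (nat_lit 591) (.f (nat_lit 590) (nat_lit 625) (nat_lit 590) (.d (nat_lit 558) (nat_lit 557) (nat_lit 3629) (nat_lit 559) (nat_lit 3630))))))) (.a (.p (nat_lit 561) (.a (.f (nat_lit 562) (nat_lit 590) (nat_lit 2606) (.d (nat_lit 563) (nat_lit 564) (nat_lit 1584) (nat_lit 594) (nat_lit 2607))) (.a (.f (nat_lit 625) (nat_lit 496) (nat_lit 7664) (.d (nat_lit 626) (nat_lit 590) (nat_lit 590) (nat_lit 658) (nat_lit 4625))) (.f (nat_lit 625) (nat_lit 496) (nat_lit 7664) (.f (nat_lit 624)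 (nat_lit 656) (nat_lit 5648) (.d (nat_lit 626) (nat_lit 627) (nat_lit 3663) (nat_lit 658) (nat_lit 4625))))))) (.a (.p (nat_lit 594) (.a (.f (nat_lit 622) (nat_lit 623) (nat_lit 1614) (.f (nat_lit 590) (nat_lit 621) (nat_lit 1613) (.d (nat_lit 558) (nat_lit 557) (nat_lit 3629) (nat_lit 559) (nat_lit 3630)))) (.a (.f (nat_lit 626) (nat_lit 627) (nat_lit 591) (.f (nat_lit 625) (nat_lit 590) (nat_lit 590) (.d (nat_lit 561) (nat_lit 496) (nat_lit 7664) (nat_lit 658) (nat_lit 4625)))) (.f (nat_lit 623) (nat_lit 622) (nat_lit 1614) (.f (nat_lit 595) (nat_lit 624) (nat_lit 1615) (.d (nat_lit 627) (nat_lit 626) (nat_lit 591) (nat_lit 628) (nat_lit 592))))))) (.a (.p (nat_lit 561) (.a (.f (nat_lit 562) (nat_lit 590) (nat_lit 2606) (.d (nat_lit 563) (nat_lit 564) (nat_lit 1584) (nat_lit 594) (nat_lit 2607))) (.a (.f (nat_lit 625) (nat_lit 496) (nat_lit 7664) (.d (nat_lit 626) (nat_lit 590) (nat_lit 590) (nat_lit 658) (nat_lit 4625))) (.f (nat_lit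 625) (nat_lit 496) (nat_lit 7664) (.f (nat_lit 626) (nat_lit 658) (nat_lit 4625) (.d (nat_lit 627) (nat_lit 594) (nat_lit 591) (nat_lit 628) (nat_lit 3664))))))) (.a s15197 (.a s15208 (.p (nat_lit 561) (.a (.f (nat_lit 562) (nat_lit 590) (nat_lit 2606) (.d (nat_lit 563) (nat_lit 564) (nat_lit 1584) (nat_lit 594) (nat_lit 2607))) (.a (.f (nat_lit 625) (nat_lit 496) (nat_lit 7664) (.f (nat_lit 624) (nat_lit 656) (nat_lit 5648) (.f (nat_lit 590) (nat_lit 589) (nat_lit 589) (.f (nat_lit 622) (nat_lit 621) (nat_lit 1613) (.f (nat_lit 623) (nat_lit 594) (nat_lit 1614) (.f (nat_lit 558) (nat_lit 557) (nat_lit 3629) (.d (nat_lit 526) (nat_lit 494) (nat_lit 4590) (nat_lit 655) (nat_lit 4622)))))))) (.a (.f (nat_lit 590) (nat_lit 562) (nat_lit 2606) (.f (nat_lit 557) (nat_lit 558) (nat_lit 3629) (.f (nat_lit 589) (nat_lit 556) (nat_lit 3628) (.d (nat_lit 621) (nat_lit 620) (nat_lit 1612) (nat_lit 622) (nat_lit 1613))))) (.f (nat_lit 625) (nat_lit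 496) (nat_lit 7664) (.f (nat_lit 530) (nat_lit 498) (nat_lit 6641) (.f (nat_lit 562) (nat_lit 657) (nat_lit 6673) (.d (nat_lit 563) (nat_lit 564) (nat_lit 1584) (nat_lit 594) (nat_lit 2607))))))))))))))))) (.a s15236 (.a s15252 (.a s15267 (.a s15279 (.a s15285 (.a s15311 (.a s15314 (.a s15315 s15316))))))))))) (.a (.p (nat_lit 592) (.a s15057 (.a (.p (nat_lit 594) (.a (.p (nat_lit 591) (.a (.f (nat_lit 622) (nat_lit 623) (nat_lit 1614) (.f (nat_lit 590) (nat_lit 621) (nat_lit 1613) (.d (nat_lit 558) (nat_lit 557) (nat_lit 3629) (nat_lit 559) (nat_lit 3630)))) (.a (.f (nat_lit 563) (nat_lit 562) (nat_lit 2607) (.f (nat_lit 595) (nat_lit 564) (nat_lit 2608) (.d (nat_lit 623) (nat_lit 622) (nat_lit 1614) (nat_lit 624) (nat_lit 1615)))) (.f (nat_lit 626) (nat_lit 627) (nat_lit 591) (.f (nat_lit 562) (nat_lit 563) (nat_lit 2607) (.f (nat_lit 625) (nat_lit 590) (nat_lit 590) (.d (nat_lit 530) (nat_lit 497) (nat_lit 7665) (nat_lit 498) (nat_lit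 5617)))))))) (.a (.p (nat_lit 591) (.a (.f (nat_lit 622) (nat_lit 623) (nat_lit 1614) (.f (nat_lit 590) (nat_lit 621) (nat_lit 1613) (.d (nat_lit 558) (nat_lit 557) (nat_lit 3629) (nat_lit 559) (nat_lit 3630)))) (.a (.f (nat_lit 563) (nat_lit 562) (nat_lit 2607) (.f (nat_lit 595) (nat_lit 564) (nat_lit 2608) (.d (nat_lit 623) (nat_lit 622) (nat_lit 1614) (nat_lit 624) (nat_lit 1615)))) (.f (nat_lit 626) (nat_lit 627) (nat_lit 591) (.f (nat_lit 590) (nat_lit 625) (nat_lit 590) (.d (nat_lit 558) (nat_lit 557) (nat_lit 3629) (nat_lit 559) (nat_lit 3630))))))) (.a (.p (nat_lit 591) (.a (.f (nat_lit 563) (nat_lit 562) (nat_lit 2607) (.f (nat_lit 595) (nat_lit 564) (nat_lit 2608) (.d (nat_lit 623) (nat_lit 622) (nat_lit 1614) (nat_lit 624) (nat_lit 1615)))) (.a (.f (nat_lit 623) (nat_lit 622) (nat_lit 1614) (.f (nat_lit 595) (nat_lit 624) (nat_lit 1615) (.d (nat_lit 627) (nat_lit 626) (nat_lit 591) (nat_lit 628) (nat_lit 592)))) (.f (nat_lit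 626) (nat_lit 627) (nat_lit 591) (.f (nat_lit 562) (nat_lit 563) (nat_lit 2607) (.f (nat_lit 625) (nat_lit 590) (nat_lit 590) (.d (nat_lit 530) (nat_lit 497) (nat_lit 7665) (nat_lit 498) (nat_lit 5617)))))))) (.a (.p (nat_lit 530) (.a (.p (nat_lit 562) (.a (.f (nat_lit 498) (nat_lit 625) (nat_lit 5617) (.d (nat_lit 497) (nat_lit 465) (nat_lit 7633) (nat_lit 626) (nat_lit 7665))) (.a (.f (nat_lit 498) (nat_lit 625) (nat_lit 5617) (.f (nat_lit 595) (nat_lit 627) (nat_lit 4594) (.d (nat_lit 563) (nat_lit 466) (nat_lit 4562) (nat_lit 564) (nat_lit 2608)))) (.f (nat_lit 626) (nat_lit 497) (nat_lit 7665) (.f (nat_lit 531) (nat_lit 499) (nat_lit 6642) (.d (nat_lit 563) (nat_lit 564) (nat_lit 528) (nat_lit 658) (nat_lit 6674))))))) (.a (.p (nat_lit 531) (.a (.f (nat_lit 563) (nat_lit 564) (nat_lit 528) (.f (nat_lit 499) (nat_lit 500) (nat_lit 2544) (.d (nat_lit 562) (nat_lit 467) (nat_lit 5586) (nat_lit 626) (nat_lit 6642)))) (.a (.f (nat_lit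 564) (nat_lit 563) (nat_lit 528) (.f (nat_lit 532) (nat_lit 565) (nat_lit 529) (.d (nat_lit 500) (nat_lit 499) (nat_lit 2544) (nat_lit 501) (nat_lit 2545)))) (.a (.f (nat_lit 499) (nat_lit 500) (nat_lit 2544) (.f (nat_lit 562) (nat_lit 626) (nat_lit 6642) (.d (nat_lit 467) (nat_lit 435) (nat_lit 5554) (nat_lit 498) (nat_lit 6610)))) (.a (.f (nat_lit 564) (nat_lit 563) (nat_lit 528) (.f (nat_lit 532) (nat_lit 565) (nat_lit 529) (.f (nat_lit 501) (nat_lit 500) (nat_lit 2545) (.f (nat_lit 533) (nat_lit 502) (nat_lit 2546) (.f (nat_lit 628) (nat_lit 596) (nat_lit 6644) (.f (nat_lit 627) (nat_lit 595) (nat_lit 592) (.d (nat_lit 626) (nat_lit 625) (nat_lit 3664) (nat_lit 629) (nat_lit 3665)))))))) (.f (nat_lit 564) (nat_lit 563) (nat_lit 528) (.f (nat_lit 565) (nat_lit 532) (nat_lit 529) (.f (nat_lit 595) (nat_lit 596) (nat_lit 2609) (.f (nat_lit 627) (nat_lit 628) (nat_lit 592) (.f (nat_lit 562) (nat_lit 498) (nat_lit 4594) (.d (nat_lit 626)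 (nat_lit 499) (nat_lit 6642) (nat_lit 659) (nat_lit 4626)))))))))))) (.a (.p (nat_lit 562) (.a (.f (nat_lit 498) (nat_lit 625) (nat_lit 5617) (.d (nat_lit 497) (nat_lit 465) (nat_lit 7633) (nat_lit 626) (nat_lit 7665))) (.a (.f (nat_lit 498) (nat_lit 625) (nat_lit 5617) (.f (nat_lit 595) (nat_lit 627) (nat_lit 4594) (.d (nat_lit 563) (nat_lit 466) (nat_lit 4562) (nat_lit 564) (nat_lit 2608)))) (.a (.f (nat_lit 497) (nat_lit 626) (nat_lit 7665) (.d (nat_lit 465) (nat_lit 433) (nat_lit 4529) (nat_lit 498) (nat_lit 7633))) (.f (nat_lit 626) (nat_lit 497) (nat_lit 7665) (.f (nat_lit 625) (nat_lit 657) (nat_lit 5649) (.d (nat_lit 627) (nat_lit 628) (nat_lit 3664) (nat_lit 659) (nat_lit 4626)))))))) (.a (.p (nat_lit 531) (.a (.f (nat_lit 564) (nat_lit 563) (nat_lit 528) (.f (nat_lit 532) (nat_lit 565) (nat_lit 529) (.d (nat_lit 500) (nat_lit 499) (nat_lit 2544) (nat_lit 501) (nat_lit 2545)))) (.a (.f (nat_lit 496) (nat_lit 495) (nat_lit 3567)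 (.f (nat_lit 532) (nat_lit 497) (nat_lit 3568) (.d (nat_lit 500) (nat_lit 499) (nat_lit 2544) (nat_lit 501) (nat_lit 2545)))) (.a (.f (nat_lit 563) (nat_lit 564) (nat_lit 528) (.f (nat_lit 499) (nat_lit 500) (nat_lit 2544) (.f (nat_lit 595) (nat_lit 626) (nat_lit 5618) (.d (nat_lit 498) (nat_lit 466) (nat_lit 7634) (nat_lit 627) (nat_lit 7666))))) (.a (.f (nat_lit 564) (nat_lit 563) (nat_lit 528) (.f (nat_lit 532) (nat_lit 565) (nat_lit 529) (.f (nat_lit 501) (nat_lit 500) (nat_lit 2545) (.f (nat_lit 533) (nat_lit 502) (nat_lit 2546) (.f (nat_lit 628) (nat_lit 596) (nat_lit 6644) (.f (nat_lit 627) (nat_lit 595) (nat_lit 592) (.d (nat_lit 626) (nat_lit 625) (nat_lit 3664) (nat_lit 629) (nat_lit 3665)))))))) (.f (nat_lit 564) (nat_lit 563) (nat_lit 528) (.f (nat_lit 532) (nat_lit 565) (nat_lit 529) (.d (nat_lit 496) (nat_lit 495) (nat_lit 3567) (nat_lit 497) (nat_lit 3568))))))))) (.a (.p (nat_lit 531) (.a (.f (nat_lit 563) (nat_lit 564)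 (nat_lit 528) (.f (nat_lit 499) (nat_lit 500) (nat_lit 2544) (.d (nat_lit 562) (nat_lit 467) (nat_lit 5586) (nat_lit 626) (nat_lit 6642)))) (.a (.f (nat_lit 564) (nat_lit 563) (nat_lit 528) (.f (nat_lit 532) (nat_lit 565) (nat_lit 529) (.d (nat_lit 500) (nat_lit 499) (nat_lit 2544) (nat_lit 501) (nat_lit 2545)))) (.a (.f (nat_lit 499) (nat_lit 500) (nat_lit 2544) (.f (nat_lit 562) (nat_lit 626) (nat_lit 6642) (.d (nat_lit 467) (nat_lit 435) (nat_lit 5554) (nat_lit 498) (nat_lit 6610)))) (.f (nat_lit 564) (nat_lit 563) (nat_lit 528) (.f (nat_lit 532) (nat_lit 565) (nat_lit 529) (.d (nat_lit 496) (nat_lit 495) (nat_lit 3567) (nat_lit 497) (nat_lit 3568)))))))) (.a (.p (nat_lit 562) (.a (.f (nat_lit 498) (nat_lit 625) (nat_lit 5617) (.d (nat_lit 497) (nat_lit 465) (nat_lit 7633) (nat_lit 626) (nat_lit 7665))) (.a (.f (nat_lit 625) (nat_lit 498) (nat_lit 5617) (.d (nat_lit 657) (nat_lit 626) (nat_lit 5649) (nat_lit 689) (nat_lit 6705)))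 (.a (.f (nat_lit 497) (nat_lit 626) (nat_lit 7665) (.d (nat_lit 465) (nat_lit 433) (nat_lit 4529) (nat_lit 498) (nat_lit 7633))) (.a (.f (nat_lit 626) (nat_lit 497) (nat_lit 7665) (.f (nat_lit 625) (nat_lit 657) (nat_lit 5649) (.d (nat_lit 627) (nat_lit 628) (nat_lit 3664) (nat_lit 659) (nat_lit 4626)))) (.f (nat_lit 498) (nat_lit 625) (nat_lit 5617) (.f (nat_lit 497) (nat_lit 465) (nat_lit 7633) (.d (nat_lit 499) (nat_lit 467) (nat_lit 6610) (nat_lit 500) (nat_lit 1520))))))))) (.a (.p (nat_lit 531) (.a (.f (nat_lit 563) (nat_lit 564) (nat_lit 528) (.f (nat_lit 499) (nat_lit 500) (nat_lit 2544) (.d (nat_lit 562) (nat_lit 467) (nat_lit 5586) (nat_lit 626) (nat_lit 6642)))) (.a (.f (nat_lit 564) (nat_lit 563) (nat_lit 528) (.f (nat_lit 532) (nat_lit 565) (nat_lit 529) (.d (nat_lit 500) (nat_lit 499) (nat_lit 2544) (nat_lit 501) (nat_lit 2545)))) (.a (.f (nat_lit 496) (nat_lit 495) (nat_lit 3567) (.f (nat_lit 532) (nat_lit 497) (nat_lit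 3568) (.d (nat_lit 500) (nat_lit 499) (nat_lit 2544) (nat_lit 501) (nat_lit 2545)))) (.a (.f (nat_lit 564) (nat_lit 563) (nat_lit 528) (.f (nat_lit 532) (nat_lit 565) (nat_lit 529) (.f (nat_lit 501) (nat_lit 500) (nat_lit 2545) (.f (nat_lit 533) (nat_lit 502) (nat_lit 2546) (.f (nat_lit 628) (nat_lit 596) (nat_lit 6644) (.f (nat_lit 627) (nat_lit 595) (nat_lit 592) (.d (nat_lit 626) (nat_lit 625) (nat_lit 3664) (nat_lit 629) (nat_lit 3665)))))))) (.f (nat_lit 564) (nat_lit 563) (nat_lit 528) (.f (nat_lit 532) (nat_lit 565) (nat_lit 529) (.d (nat_lit 496) (nat_lit 495) (nat_lit 3567) (nat_lit 497) (nat_lit 3568))))))))) (.p (nat_lit 531) (.a (.f (nat_lit 564) (nat_lit 563) (nat_lit 528) (.f (nat_lit 532) (nat_lit 565) (nat_lit 529) (.d (nat_lit 500) (nat_lit 499) (nat_lit 2544) (nat_lit 501) (nat_lit 2545)))) (.a (.f (nat_lit 496) (nat_lit 495) (nat_lit 3567) (.f (nat_lit 532) (nat_lit 497) (nat_lit 3568) (.d (nat_lit 500) (nat_lit 499)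 (nat_lit 2544) (nat_lit 501) (nat_lit 2545)))) (.a (.f (nat_lit 563) (nat_lit 564) (nat_lit 528) (.f (nat_lit 499) (nat_lit 500) (nat_lit 2544) (.f (nat_lit 467) (nat_lit 562) (nat_lit 5586) (.f (nat_lit 434) (nat_lit 466) (nat_lit 7602) (.f (nat_lit 435) (nat_lit 402) (nat_lit 7570) (.d (nat_lit 436) (nat_lit 404) (nat_lit 6547) (nat_lit 468) (nat_lit 6579))))))) (.f (nat_lit 564) (nat_lit 563) (nat_lit 528) (.f (nat_lit 532) (nat_lit 565) (nat_lit 529) (.d (nat_lit 496) (nat_lit 495) (nat_lit 3567) (nat_lit 497) (nat_lit 3568)))))))))))))))) (.a (.p (nat_lit 591) (.a (.f (nat_lit 622) (nat_lit 623) (nat_lit 1614) (.f (nat_lit 590) (nat_lit 621) (nat_lit 1613) (.d (nat_lit 558) (nat_lit 557) (nat_lit 3629) (nat_lit 559) (nat_lit 3630)))) (.a (.f (nat_lit 623) (nat_lit 622) (nat_lit 1614) (.f (nat_lit 595) (nat_lit 624) (nat_lit 1615) (.d (nat_lit 627) (nat_lit 626) (nat_lit 591) (nat_lit 628) (nat_lit 592)))) (.f (nat_lit 626) (nat_lit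 627) (nat_lit 591) (.f (nat_lit 590) (nat_lit 625) (nat_lit 590) (.d (nat_lit 558) (nat_lit 557) (nat_lit 3629) (nat_lit 559) (nat_lit 3630))))))) (.a (.p (nat_lit 591) (.a (.f (nat_lit 622) (nat_lit 623) (nat_lit 1614) (.f (nat_lit 590) (nat_lit 621) (nat_lit 1613) (.d (nat_lit 558) (nat_lit 557) (nat_lit 3629) (nat_lit 559) (nat_lit 3630)))) (.a (.f (nat_lit 563) (nat_lit 562) (nat_lit 2607) (.f (nat_lit 595) (nat_lit 564) (nat_lit 2608) (.d (nat_lit 623) (nat_lit 622) (nat_lit 1614) (nat_lit 624) (nat_lit 1615)))) (.f (nat_lit 563) (nat_lit 562) (nat_lit 2607) (.f (nat_lit 595) (nat_lit 564) (nat_lit 2608) (.d (nat_lit 627) (nat_lit 626) (nat_lit 591) (nat_lit 628) (nat_lit 592))))))) (.a s15401 (.a s15406 s15417))))))))) (.a s15236 (.a s15427 (.a (.p (nat_lit 594) (.a (.p (nat_lit 591) (.a (.f (nat_lit 559) (nat_lit 558) (nat_lit 3630) (.f (nat_lit 560) (nat_lit 595) (nat_lit 3631) (.d (nat_lit 623) (nat_lit 622) (nat_lit 1614) (nat_lit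 655) (nat_lit 6671)))) (.a (.f (nat_lit 622) (nat_lit 623) (nat_lit 1614) (.f (nat_lit 590) (nat_lit 621) (nat_lit 1613) (.d (nat_lit 558) (nat_lit 557) (nat_lit 3629) (nat_lit 559) (nat_lit 3630)))) (.f (nat_lit 626) (nat_lit 627) (nat_lit 591) (.f (nat_lit 562) (nat_lit 563) (nat_lit 2607) (.f (nat_lit 625) (nat_lit 590) (nat_lit 590) (.d (nat_lit 530) (nat_lit 497) (nat_lit 7665) (nat_lit 498) (nat_lit 5617)))))))) (.a s15406 (.a s15436 (.a (.p (nat_lit 591) (.a (.f (nat_lit 626) (nat_lit 627) (nat_lit 591) (.f (nat_lit 562) (nat_lit 563) (nat_lit 2607) (.f (nat_lit 625) (nat_lit 590) (nat_lit 590) (.d (nat_lit 530) (nat_lit 497) (nat_lit 7665) (nat_lit 498) (nat_lit 5617))))) (.a (.f (nat_lit 563) (nat_lit 562) (nat_lit 2607) (.f (nat_lit 595) (nat_lit 564) (nat_lit 2608) (.d (nat_lit 627) (nat_lit 626) (nat_lit 591) (nat_lit 628) (nat_lit 592)))) (.a (.f (nat_lit 623) (nat_lit 622) (nat_lit 1614) (.f (nat_lit 496) (nat_lit 560)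 (nat_lit 5615) (.f (nat_lit 626) (nat_lit 627) (nat_lit 591) (.f (nat_lit 590) (nat_lit 625) (nat_lit 590) (.f (nat_lit 558) (nat_lit 557) (nat_lit 3629) (.f (nat_lit 494) (nat_lit 526) (nat_lit 4590) (.f (nat_lit 495) (nat_lit 493) (nat_lit 493) (.d (nat_lit 530) (nat_lit 497) (nat_lit 494) (nat_lit 531) (nat_lit 3567))))))))) (.a s15456 (.f (nat_lit 562) (nat_lit 563) (nat_lit 2607) (.f (nat_lit 622) (nat_lit 623) (nat_lit 1614) (.f (nat_lit 590) (nat_lit 621) (nat_lit 1613) (.f (nat_lit 625) (nat_lit 626) (nat_lit 590) (.f (nat_lit 530) (nat_lit 498) (nat_lit 5617) (.f (nat_lit 496) (nat_lit 560) (nat_lit 4592) (.f (nat_lit 531) (nat_lit 495) (nat_lit 3567) (.f (nat_lit 532) (nat_lit 497) (nat_lit 3568) (.d (nat_lit 500) (nat_lit 499) (nat_lit 2544) (nat_lit 501) (nat_lit 2545))))))))))))))) (.a (.p (nat_lit 560) (.a (.f (nat_lit 595) (nat_lit 559) (nat_lit 3631) (.f (nat_lit 564) (nat_lit 563) (nat_lit 2608) (.f (nat_lit 596) (nat_lit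 565) (nat_lit 2609) (.d (nat_lit 628) (nat_lit 627) (nat_lit 592) (nat_lit 629) (nat_lit 593))))) (.f (nat_lit 496) (nat_lit 625) (nat_lit 4592) (.f (nat_lit 495) (nat_lit 463) (nat_lit 7631) (.f (nat_lit 497) (nat_lit 465) (nat_lit 6608) (.d (nat_lit 494) (nat_lit 493) (nat_lit 493) (nat_lit 530) (nat_lit 494))))))) (.a (.p (nat_lit 591) (.a (.f (nat_lit 559) (nat_lit 558) (nat_lit 3630) (.f (nat_lit 560) (nat_lit 595) (nat_lit 3631) (.d (nat_lit 623) (nat_lit 622) (nat_lit 1614) (nat_lit 655) (nat_lit 6671)))) (.a (.f (nat_lit 622) (nat_lit 623) (nat_lit 1614) (.f (nat_lit 590) (nat_lit 621) (nat_lit 1613) (.d (nat_lit 558) (nat_lit 557) (nat_lit 3629) (nat_lit 559) (nat_lit 3630)))) (.f (nat_lit 563) (nat_lit 562) (nat_lit 2607) (.f (nat_lit 595) (nat_lit 564) (nat_lit 2608) (.d (nat_lit 627) (nat_lit 626) (nat_lit 591) (nat_lit 628) (nat_lit 592))))))) (.p (nat_lit 560) (.a (.f (nat_lit 559) (nat_lit 595) (nat_lit 3631) (.d (nat_lit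 558) (nat_lit 557) (nat_lit 557) (nat_lit 591) (nat_lit 3630))) (.f (nat_lit 496) (nat_lit 625) (nat_lit 4592) (.f (nat_lit 495) (nat_lit 463) (nat_lit 7631) (.f (nat_lit 497) (nat_lit 465) (nat_lit 6608) (.d (nat_lit 494) (nat_lit 493) (nat_lit 493) (nat_lit 530) (nat_lit 494)))))))))))))) (.a (.p (nat_lit 591) (.a s14982 (.a (.p (nat_lit 594) (.a (.f (nat_lit 622) (nat_lit 623) (nat_lit 1614) (.f (nat_lit 590) (nat_lit 621) (nat_lit 1613) (.d (nat_lit 558) (nat_lit 557) (nat_lit 3629) (nat_lit 559) (nat_lit 3630)))) (.a (.f (nat_lit 563) (nat_lit 562) (nat_lit 2607) (.f (nat_lit 595) (nat_lit 564) (nat_lit 2608) (.d (nat_lit 623) (nat_lit 622) (nat_lit 1614) (nat_lit 624) (nat_lit 1615)))) (.f (nat_lit 563) (nat_lit 562) (nat_lit 2607) (.f (nat_lit 595) (nat_lit 564) (nat_lit 2608) (.d (nat_lit 627) (nat_lit 626) (nat_lit 591) (nat_lit 628) (nat_lit 592))))))) (.a (.p (nat_lit 560) (.a (.f (nat_lit 624) (nat_lit 497) (nat_lit 6640)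 (.f (nat_lit 623) (nat_lit 655) (nat_lit 5647) (.d (nat_lit 594) (nat_lit 595) (nat_lit 1615) (nat_lit 622) (nat_lit 1614)))) (.a (.f (nat_lit 623) (nat_lit 496) (nat_lit 5615) (.d (nat_lit 655) (nat_lit 624) (nat_lit 5647) (nat_lit 687) (nat_lit 6703))) (.a (.f (nat_lit 496) (nat_lit 623) (nat_lit 5615) (.f (nat_lit 495) (nat_lit 463) (nat_lit 7631) (.f (nat_lit 497) (nat_lit 465) (nat_lit 6608) (.d (nat_lit 494) (nat_lit 493) (nat_lit 493) (nat_lit 530) (nat_lit 494))))) (.f (nat_lit 497) (nat_lit 624) (nat_lit 6640) (.d (nat_lit 465) (nat_lit 433) (nat_lit 5552) (nat_lit 496) (nat_lit 6608))))))) (.a (.p (nat_lit 594) (.a (.f (nat_lit 559) (nat_lit 558) (nat_lit 3630) (.f (nat_lit 560) (nat_lit 595) (nat_lit 3631) (.d (nat_lit 623) (nat_lit 622) (nat_lit 1614) (nat_lit 655) (nat_lit 6671)))) (.a (.f (nat_lit 622) (nat_lit 623) (nat_lit 1614) (.f (nat_lit 590) (nat_lit 621) (nat_lit 1613) (.d (nat_lit 558) (nat_lit 557) (nat_lit 3629)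 (nat_lit 559) (nat_lit 3630)))) (.f (nat_lit 563) (nat_lit 562) (nat_lit 2607) (.f (nat_lit 595) (nat_lit 564) (nat_lit 2608) (.d (nat_lit 627) (nat_lit 626) (nat_lit 591) (nat_lit 628) (nat_lit 592))))))) (.a (.p (nat_lit 560) (.a (.f (nat_lit 623) (nat_lit 496) (nat_lit 5615) (.d (nat_lit 655) (nat_lit 624) (nat_lit 5647) (nat_lit 687) (nat_lit 6703))) (.a (.f (nat_lit 624) (nat_lit 497) (nat_lit 6640) (.f (nat_lit 655) (nat_lit 623) (nat_lit 5647) (.f (nat_lit 656) (nat_lit 687) (nat_lit 5679) (.f (nat_lit 688) (nat_lit 559) (nat_lit 7727) (.d (nat_lit 689) (nat_lit 657) (nat_lit 4656) (nat_lit 721) (nat_lit 4688)))))) (.a (.f (nat_lit 496) (nat_lit 623) (nat_lit 5615) (.f (nat_lit 495) (nat_lit 463) (nat_lit 7631) (.f (nat_lit 497) (nat_lit 465) (nat_lit 6608) (.d (nat_lit 494) (nat_lit 493) (nat_lit 493) (nat_lit 530) (nat_lit 494))))) (.f (nat_lit 497) (nat_lit 624) (nat_lit 6640) (.d (nat_lit 465) (nat_lit 433) (nat_lit 5552)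 (nat_lit 496) (nat_lit 6608))))))) s15499)))))) (.a s15502 (.a s15516 (.p (nat_lit 560) (.a (.f (nat_lit 496) (nat_lit 625) (nat_lit 4592) (.d (nat_lit 497) (nat_lit 465) (nat_lit 6608) (nat_lit 624) (nat_lit 6640))) (.a (.f (nat_lit 624) (nat_lit 497) (nat_lit 6640) (.f (nat_lit 623) (nat_lit 655) (nat_lit 5647) (.f (nat_lit 594) (nat_lit 595) (nat_lit 1615) (.d (nat_lit 622) (nat_lit 591) (nat_lit 1614) (nat_lit 621) (nat_lit 2637))))) (.f (nat_lit 496) (nat_lit 625) (nat_lit 4592) (.f (nat_lit 591) (nat_lit 623) (nat_lit 5615) (.f (nat_lit 559) (nat_lit 464) (nat_lit 5583) (.d (nat_lit 558) (nat_lit 557) (nat_lit 557) (nat_lit 594) (nat_lit 3630))))))))))))))))) (.a s15539 (.a s15554 (.a s15564 (.a s15570 (.a s15575 (.a (.p (nat_lit 594) (.a s15576 (.a (.p (nat_lit 530) (.a s15589 (.a (.p (nat_lit 592) (.a (.p (nat_lit 591) (.a (.f (nat_lit 562) (nat_lit 563) (nat_lit 2607) (.d (nat_lit 626) (nat_lit 497) (nat_lit 7665) (nat_lit 627)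 (nat_lit 591))) (.f (nat_lit 622) (nat_lit 623) (nat_lit 1614) (.f (nat_lit 590) (nat_lit 621) (nat_lit 1613) (.d (nat_lit 558) (nat_lit 557) (nat_lit 3629) (nat_lit 559) (nat_lit 3630)))))) (.a (.p (nat_lit 591) (.a (.f (nat_lit 622) (nat_lit 623) (nat_lit 1614) (.f (nat_lit 590) (nat_lit 621) (nat_lit 1613) (.d (nat_lit 558) (nat_lit 557) (nat_lit 3629) (nat_lit 559) (nat_lit 3630)))) (.a (.f (nat_lit 623) (nat_lit 622) (nat_lit 1614) (.f (nat_lit 595) (nat_lit 624) (nat_lit 1615) (.d (nat_lit 627) (nat_lit 626) (nat_lit 591) (nat_lit 628) (nat_lit 592)))) (.f (nat_lit 563) (nat_lit 562) (nat_lit 2607) (.d (nat_lit 564) (nat_lit 531) (nat_lit 528) (nat_lit 595) (nat_lit 2608)))))) (.a (.p (nat_lit 591) (.a (.f (nat_lit 562) (nat_lit 563) (nat_lit 2607) (.d (nat_lit 626) (nat_lit 497) (nat_lit 7665) (nat_lit 627) (nat_lit 591))) (.a (.f (nat_lit 623) (nat_lit 622) (nat_lit 1614) (.f (nat_lit 595) (nat_lit 624) (nat_lit 1615) (.d (nat_lit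 627) (nat_lit 626) (nat_lit 591) (nat_lit 628) (nat_lit 592)))) (.f (nat_lit 563) (nat_lit 562) (nat_lit 2607) (.d (nat_lit 564) (nat_lit 531) (nat_lit 528) (nat_lit 595) (nat_lit 2608)))))) (.a (.p (nat_lit 531) (.a (.f (nat_lit 563) (nat_lit 564) (nat_lit 528) (.f (nat_lit 499) (nat_lit 500) (nat_lit 2544) (.d (nat_lit 562) (nat_lit 467) (nat_lit 5586) (nat_lit 626) (nat_lit 6642)))) (.a (.f (nat_lit 564) (nat_lit 563) (nat_lit 528) (.f (nat_lit 532) (nat_lit 565) (nat_lit 529) (.d (nat_lit 500) (nat_lit 499) (nat_lit 2544) (nat_lit 501) (nat_lit 2545)))) (.a (.f (nat_lit 499) (nat_lit 500) (nat_lit 2544) (.f (nat_lit 562) (nat_lit 626) (nat_lit 6642) (.d (nat_lit 467) (nat_lit 435) (nat_lit 5554) (nat_lit 498) (nat_lit 6610)))) (.a (.f (nat_lit 564) (nat_lit 563) (nat_lit 528) (.f (nat_lit 532) (nat_lit 565) (nat_lit 529) (.f (nat_lit 501) (nat_lit 500) (nat_lit 2545) (.f (nat_lit 533) (nat_lit 502) (nat_lit 2546) (.f (nat_lit 497)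 (nat_lit 498) (nat_lit 3569) (.d (nat_lit 561) (nat_lit 562) (nat_lit 1553) (nat_lit 624) (nat_lit 5616))))))) (.f (nat_lit 564) (nat_lit 563) (nat_lit 528) (.f (nat_lit 565) (nat_lit 532) (nat_lit 529) (.f (nat_lit 595) (nat_lit 596) (nat_lit 2609) (.f (nat_lit 627) (nat_lit 628) (nat_lit 592) (.f (nat_lit 562) (nat_lit 498) (nat_lit 4594) (.d (nat_lit 626) (nat_lit 499) (nat_lit 6642) (nat_lit 659) (nat_lit 4626)))))))))))) (.a s15615 (.a (.p (nat_lit 591) (.a (.f (nat_lit 622) (nat_lit 623) (nat_lit 1614) (.f (nat_lit 590) (nat_lit 621) (nat_lit 1613) (.d (nat_lit 558) (nat_lit 557) (nat_lit 3629) (nat_lit 559) (nat_lit 3630)))) (.a (.f (nat_lit 623) (nat_lit 622) (nat_lit 1614) (.f (nat_lit 595) (nat_lit 624) (nat_lit 1615) (.d (nat_lit 627) (nat_lit 626) (nat_lit 591) (nat_lit 628) (nat_lit 592)))) (.f (nat_lit 626) (nat_lit 627) (nat_lit 591) (.d (nat_lit 497) (nat_lit 561) (nat_lit 4593) (nat_lit 562) (nat_lit 7665)))))) (.p (nat_lit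 591) (.a (.f (nat_lit 622) (nat_lit 623) (nat_lit 1614) (.f (nat_lit 590) (nat_lit 621) (nat_lit 1613) (.d (nat_lit 558) (nat_lit 557) (nat_lit 3629) (nat_lit 559) (nat_lit 3630)))) (.f (nat_lit 563) (nat_lit 562) (nat_lit 2607) (.d (nat_lit 564) (nat_lit 531) (nat_lit 528) (nat_lit 595) (nat_lit 2608)))))))))))) (.a (.p (nat_lit 592) (.a (.p (nat_lit 591) (.a (.f (nat_lit 622) (nat_lit 623) (nat_lit 1614) (.f (nat_lit 590) (nat_lit 621) (nat_lit 1613) (.d (nat_lit 558) (nat_lit 557) (nat_lit 3629) (nat_lit 559) (nat_lit 3630)))) (.a (.f (nat_lit 623) (nat_lit 622) (nat_lit 1614) (.f (nat_lit 595) (nat_lit 624) (nat_lit 1615) (.d (nat_lit 627) (nat_lit 626) (nat_lit 591) (nat_lit 628) (nat_lit 592)))) (.f (nat_lit 563) (nat_lit 562) (nat_lit 2607) (.d (nat_lit 564) (nat_lit 531) (nat_lit 528) (nat_lit 595) (nat_lit 2608)))))) (.a (.p (nat_lit 591) (.a (.f (nat_lit 623) (nat_lit 622) (nat_lit 1614) (.f (nat_lit 595) (nat_lit 624) (nat_lit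 1615) (.d (nat_lit 627) (nat_lit 626) (nat_lit 591) (nat_lit 628) (nat_lit 592)))) (.a (.f (nat_lit 563) (nat_lit 562) (nat_lit 2607) (.d (nat_lit 564) (nat_lit 531) (nat_lit 528) (nat_lit 595) (nat_lit 2608))) (.f (nat_lit 562) (nat_lit 563) (nat_lit 2607) (.f (nat_lit 626) (nat_lit 627) (nat_lit 591) (.d (nat_lit 561) (nat_lit 590) (nat_lit 2606) (nat_lit 658) (nat_lit 7697))))))) (.a (.p (nat_lit 591) (.a (.f (nat_lit 622) (nat_lit 623) (nat_lit 1614) (.f (nat_lit 590) (nat_lit 621) (nat_lit 1613) (.d (nat_lit 558) (nat_lit 557) (nat_lit 3629) (nat_lit 559) (nat_lit 3630)))) (.a (.f (nat_lit 623) (nat_lit 622) (nat_lit 1614) (.f (nat_lit 595) (nat_lit 624) (nat_lit 1615) (.d (nat_lit 627) (nat_lit 626) (nat_lit 591) (nat_lit 628) (nat_lit 592)))) (.f (nat_lit 562) (nat_lit 563) (nat_lit 2607) (.f (nat_lit 626) (nat_lit 627) (nat_lit 591) (.d (nat_lit 561) (nat_lit 590) (nat_lit 2606) (nat_lit 658) (nat_lit 7697))))))) (.a (.p (nat_lit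 531) (.a (.f (nat_lit 563) (nat_lit 564) (nat_lit 528) (.f (nat_lit 499) (nat_lit 500) (nat_lit 2544) (.d (nat_lit 562) (nat_lit 467) (nat_lit 5586) (nat_lit 626) (nat_lit 6642)))) (.a (.f (nat_lit 564) (nat_lit 563) (nat_lit 528) (.f (nat_lit 532) (nat_lit 565) (nat_lit 529) (.d (nat_lit 500) (nat_lit 499) (nat_lit 2544) (nat_lit 501) (nat_lit 2545)))) (.a (.f (nat_lit 499) (nat_lit 500) (nat_lit 2544) (.f (nat_lit 562) (nat_lit 626) (nat_lit 6642) (.d (nat_lit 467) (nat_lit 435) (nat_lit 5554) (nat_lit 498) (nat_lit 6610)))) (.a (.f (nat_lit 564) (nat_lit 563) (nat_lit 528) (.f (nat_lit 532) (nat_lit 565) (nat_lit 529) (.f (nat_lit 501) (nat_lit 500) (nat_lit 2545) (.f (nat_lit 533) (nat_lit 502) (nat_lit 2546) (.f (nat_lit 628) (nat_lit 596) (nat_lit 6644) (.f (nat_lit 627) (nat_lit 595) (nat_lit 592) (.f (nat_lit 626) (nat_lit 629) (nat_lit 3665) (.d (nat_lit 562) (nat_lit 561) (nat_lit 1553) (nat_lit 659) (nat_lit 4626)))))))))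 (.f (nat_lit 564) (nat_lit 563) (nat_lit 528) (.f (nat_lit 565) (nat_lit 532) (nat_lit 529) (.f (nat_lit 595) (nat_lit 596) (nat_lit 2609) (.f (nat_lit 627) (nat_lit 628) (nat_lit 592) (.f (nat_lit 562) (nat_lit 498) (nat_lit 4594) (.d (nat_lit 626) (nat_lit 499) (nat_lit 6642) (nat_lit 659) (nat_lit 4626)))))))))))) (.a s15615 (.a (.p (nat_lit 591) (.a (.f (nat_lit 622) (nat_lit 623) (nat_lit 1614) (.f (nat_lit 590) (nat_lit 621) (nat_lit 1613) (.d (nat_lit 558) (nat_lit 557) (nat_lit 3629) (nat_lit 559) (nat_lit 3630)))) (.a (.f (nat_lit 623) (nat_lit 622) (nat_lit 1614) (.f (nat_lit 595) (nat_lit 624) (nat_lit 1615) (.d (nat_lit 627) (nat_lit 626) (nat_lit 591) (nat_lit 628) (nat_lit 592)))) (.f (nat_lit 627) (nat_lit 626) (nat_lit 591) (.f (nat_lit 595) (nat_lit 628) (nat_lit 592) (.f (nat_lit 562) (nat_lit 498) (nat_lit 4594) (.f (nat_lit 590) (nat_lit 561) (nat_lit 2606) (.d (nat_lit 558) (nat_lit 557) (nat_lit 3629) (nat_lit 559)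 (nat_lit 3630))))))))) (.a (.p (nat_lit 591) (.a (.f (nat_lit 622) (nat_lit 623) (nat_lit 1614) (.f (nat_lit 590) (nat_lit 621) (nat_lit 1613) (.d (nat_lit 558) (nat_lit 557) (nat_lit 3629) (nat_lit 559) (nat_lit 3630)))) (.f (nat_lit 563) (nat_lit 562) (nat_lit 2607) (.d (nat_lit 564) (nat_lit 531) (nat_lit 528) (nat_lit 595) (nat_lit 2608))))) (.p (nat_lit 591) (.a (.f (nat_lit 622) (nat_lit 623) (nat_lit 1614) (.f (nat_lit 590) (nat_lit 621) (nat_lit 1613) (.d (nat_lit 558) (nat_lit 557) (nat_lit 3629) (nat_lit 559) (nat_lit 3630)))) (.a (.f (nat_lit 562) (nat_lit 563) (nat_lit 2607) (.f (nat_lit 626) (nat_lit 627) (nat_lit 591) (.d (nat_lit 561) (nat_lit 590) (nat_lit 2606) (nat_lit 658) (nat_lit 7697)))) (.f (nat_lit 562) (nat_lit 563) (nat_lit 2607) (.f (nat_lit 626) (nat_lit 627) (nat_lit 591) (.f (nat_lit 658) (nat_lit 561) (nat_lit 7697) (.f (nat_lit 689) (nat_lit 657) (nat_lit 5681) (.f (nat_lit 690) (nat_lit 721) (nat_lit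 5713) (.d (nat_lit 691) (nat_lit 659) (nat_lit 4658) (nat_lit 723) (nat_lit 4690)))))))))))))))))) (.a s15666 (.a (.p (nat_lit 562) (.a (.f (nat_lit 497) (nat_lit 626) (nat_lit 7665) (.d (nat_lit 465) (nat_lit 433) (nat_lit 4529) (nat_lit 498) (nat_lit 7633))) (.a (.p (nat_lit 626) (.a (.f (nat_lit 561) (nat_lit 658) (nat_lit 7697) (.f (nat_lit 498) (nat_lit 466) (nat_lit 5585) (.d (nat_lit 627) (nat_lit 595) (nat_lit 4594) (nat_lit 659) (nat_lit 4626)))) (.a (.f (nat_lit 627) (nat_lit 659) (nat_lit 4626) (.f (nat_lit 595) (nat_lit 498) (nat_lit 4594) (.d (nat_lit 592) (nat_lit 591) (nat_lit 591) (nat_lit 628) (nat_lit 592)))) (.a (.f (nat_lit 658) (nat_lit 561) (nat_lit 7697) (.d (nat_lit 659) (nat_lit 627) (nat_lit 4626) (nat_lit 691) (nat_lit 4658))) (.a (.f (nat_lit 658) (nat_lit 561) (nat_lit 7697) (.f (nat_lit 689) (nat_lit 657) (nat_lit 5681) (.f (nat_lit 690) (nat_lit 721) (nat_lit 5713) (.d (nat_lit 691) (nat_lit 659) (nat_lit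 4658) (nat_lit 723) (nat_lit 4690))))) (.f (nat_lit 561) (nat_lit 658) (nat_lit 7697) (.f (nat_lit 498) (nat_lit 466) (nat_lit 5585) (.f (nat_lit 564) (nat_lit 563) (nat_lit 3600) (.f (nat_lit 595) (nat_lit 627) (nat_lit 4594) (.d (nat_lit 596) (nat_lit 565) (nat_lit 2609) (nat_lit 597) (nat_lit 3633))))))))))) (.a (.f (nat_lit 626) (nat_lit 497) (nat_lit 7665) (.f (nat_lit 658) (nat_lit 561) (nat_lit 7697) (.d (nat_lit 659) (nat_lit 627) (nat_lit 4626) (nat_lit 691) (nat_lit 4658)))) (.p (nat_lit 561) (.a (.f (nat_lit 498) (nat_lit 466) (nat_lit 5585) (.f (nat_lit 497) (nat_lit 465) (nat_lit 4561) (.d (nat_lit 499) (nat_lit 467) (nat_lit 6610) (nat_lit 500) (nat_lit 1520)))) (.a (.f (nat_lit 498) (nat_lit 466) (nat_lit 5585) (.f (nat_lit 564) (nat_lit 563) (nat_lit 3600) (.f (nat_lit 595) (nat_lit 627) (nat_lit 4594) (.d (nat_lit 596) (nat_lit 565) (nat_lit 2609) (nat_lit 597) (nat_lit 3633))))) (.f (nat_lit 563) (nat_lit 564) (nat_lit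 3600) (.f (nat_lit 592) (nat_lit 591) (nat_lit 2607) (.d (nat_lit 497) (nat_lit 465) (nat_lit 4561) (nat_lit 624) (nat_lit 5616))))))))))) (.a (.p (nat_lit 531) (.a (.f (nat_lit 496) (nat_lit 495) (nat_lit 3567) (.f (nat_lit 497) (nat_lit 532) (nat_lit 3568) (.d (nat_lit 561) (nat_lit 464) (nat_lit 7632) (nat_lit 626) (nat_lit 4593)))) (.a (.f (nat_lit 500) (nat_lit 499) (nat_lit 2544) (.f (nat_lit 532) (nat_lit 501) (nat_lit 2545) (.d (nat_lit 564) (nat_lit 563) (nat_lit 528) (nat_lit 565) (nat_lit 529)))) (.f (nat_lit 563) (nat_lit 564) (nat_lit 528) (.f (nat_lit 499) (nat_lit 500) (nat_lit 2544) (.f (nat_lit 595) (nat_lit 626) (nat_lit 5618) (.d (nat_lit 498) (nat_lit 466) (nat_lit 7634) (nat_lit 627) (nat_lit 7666)))))))) (.a (.p (nat_lit 531) (.a (.f (nat_lit 496) (nat_lit 495) (nat_lit 3567) (.f (nat_lit 497) (nat_lit 532) (nat_lit 3568) (.d (nat_lit 561) (nat_lit 464) (nat_lit 7632) (nat_lit 626) (nat_lit 4593)))) (.a (.f (nat_lit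 499) (nat_lit 500) (nat_lit 2544) (.f (nat_lit 562) (nat_lit 626) (nat_lit 6642) (.d (nat_lit 467) (nat_lit 435) (nat_lit 5554) (nat_lit 498) (nat_lit 6610)))) (.f (nat_lit 496) (nat_lit 495) (nat_lit 3567) (.f (nat_lit 532) (nat_lit 497) (nat_lit 3568) (.d (nat_lit 500) (nat_lit 499) (nat_lit 2544) (nat_lit 501) (nat_lit 2545))))))) (.a (.p (nat_lit 531) (.a (.f (nat_lit 563) (nat_lit 564) (nat_lit 528) (.f (nat_lit 499) (nat_lit 500) (nat_lit 2544) (.d (nat_lit 562) (nat_lit 467) (nat_lit 5586) (nat_lit 626) (nat_lit 6642)))) (.a (.f (nat_lit 496) (nat_lit 495) (nat_lit 3567) (.f (nat_lit 497) (nat_lit 532) (nat_lit 3568) (.d (nat_lit 561) (nat_lit 464) (nat_lit 7632) (nat_lit 626) (nat_lit 4593)))) (.f (nat_lit 496) (nat_lit 495) (nat_lit 3567) (.f (nat_lit 532) (nat_lit 497) (nat_lit 3568) (.d (nat_lit 500) (nat_lit 499) (nat_lit 2544) (nat_lit 501) (nat_lit 2545))))))) (.a (.p (nat_lit 592) (.a (.p (nat_lit 591) (.a (.f (nat_lit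 562) (nat_lit 563) (nat_lit 2607) (.d (nat_lit 626) (nat_lit 497) (nat_lit 7665) (nat_lit 627) (nat_lit 591))) (.f (nat_lit 622) (nat_lit 623) (nat_lit 1614) (.f (nat_lit 590) (nat_lit 621) (nat_lit 1613) (.d (nat_lit 558) (nat_lit 557) (nat_lit 3629) (nat_lit 559) (nat_lit 3630)))))) (.a (.p (nat_lit 591) (.a (.f (nat_lit 622) (nat_lit 623) (nat_lit 1614) (.f (nat_lit 590) (nat_lit 621) (nat_lit 1613) (.d (nat_lit 558) (nat_lit 557) (nat_lit 3629) (nat_lit 559) (nat_lit 3630)))) (.a (.f (nat_lit 623) (nat_lit 622) (nat_lit 1614) (.f (nat_lit 595) (nat_lit 624) (nat_lit 1615) (.d (nat_lit 627) (nat_lit 626) (nat_lit 591) (nat_lit 628) (nat_lit 592)))) (.f (nat_lit 563) (nat_lit 562) (nat_lit 2607) (.d (nat_lit 564) (nat_lit 531) (nat_lit 528) (nat_lit 595) (nat_lit 2608)))))) (.a (.p (nat_lit 591) (.a (.f (nat_lit 562) (nat_lit 563) (nat_lit 2607) (.d (nat_lit 626) (nat_lit 497) (nat_lit 7665) (nat_lit 627) (nat_lit 591))) (.a (.f (nat_lit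 623) (nat_lit 622) (nat_lit 1614) (.f (nat_lit 595) (nat_lit 624) (nat_lit 1615) (.d (nat_lit 627) (nat_lit 626) (nat_lit 591) (nat_lit 628) (nat_lit 592)))) (.f (nat_lit 563) (nat_lit 562) (nat_lit 2607) (.d (nat_lit 564) (nat_lit 531) (nat_lit 528) (nat_lit 595) (nat_lit 2608)))))) (.a (.p (nat_lit 497) (.a (.d (nat_lit 561) (nat_lit 624) (nat_lit 5616) (nat_lit 626) (nat_lit 4593)) (.a (.f (nat_lit 562) (nat_lit 626) (nat_lit 7665) (.d (nat_lit 465) (nat_lit 433) (nat_lit 4529) (nat_lit 498) (nat_lit 7633))) (.f (nat_lit 561) (nat_lit 624) (nat_lit 5616) (.f (nat_lit 496) (nat_lit 464) (nat_lit 7632) (.d (nat_lit 495) (nat_lit 494) (nat_lit 494) (nat_lit 531) (nat_lit 3567))))))) (.a (.p (nat_lit 591) (.a (.f (nat_lit 622) (nat_lit 623) (nat_lit 1614) (.f (nat_lit 590) (nat_lit 621) (nat_lit 1613) (.d (nat_lit 558) (nat_lit 557) (nat_lit 3629) (nat_lit 559) (nat_lit 3630)))) (.a (.f (nat_lit 623) (nat_lit 622) (nat_lit 1614) (.f (nat_lit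 595) (nat_lit 624) (nat_lit 1615) (.d (nat_lit 627) (nat_lit 626) (nat_lit 591) (nat_lit 628) (nat_lit 592)))) (.f (nat_lit 627) (nat_lit 626) (nat_lit 591) (.f (nat_lit 595) (nat_lit 628) (nat_lit 592) (.f (nat_lit 563) (nat_lit 564) (nat_lit 2608) (.f (nat_lit 531) (nat_lit 498) (nat_lit 7666) (.f (nat_lit 496) (nat_lit 495) (nat_lit 3567) (.d (nat_lit 532) (nat_lit 497) (nat_lit 3568) (nat_lit 500) (nat_lit 6643)))))))))) (.p (nat_lit 591) (.a (.f (nat_lit 622) (nat_lit 623) (nat_lit 1614) (.f (nat_lit 590) (nat_lit 621) (nat_lit 1613) (.d (nat_lit 558) (nat_lit 557) (nat_lit 3629) (nat_lit 559) (nat_lit 3630)))) (.f (nat_lit 563) (nat_lit 562) (nat_lit 2607) (.d (nat_lit 564) (nat_lit 531) (nat_lit 528) (nat_lit 595) (nat_lit 2608))))))))))) (.a (.p (nat_lit 592) (.a (.p (nat_lit 591) (.a (.f (nat_lit 562) (nat_lit 563) (nat_lit 2607) (.d (nat_lit 626) (nat_lit 497) (nat_lit 7665) (nat_lit 627) (nat_lit 591))) (.f (nat_lit 622) (nat_lit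 623) (nat_lit 1614) (.f (nat_lit 590) (nat_lit 621) (nat_lit 1613) (.d (nat_lit 558) (nat_lit 557) (nat_lit 3629) (nat_lit 559) (nat_lit 3630)))))) (.a (.p (nat_lit 591) (.a (.f (nat_lit 622) (nat_lit 623) (nat_lit 1614) (.f (nat_lit 590) (nat_lit 621) (nat_lit 1613) (.d (nat_lit 558) (nat_lit 557) (nat_lit 3629) (nat_lit 559) (nat_lit 3630)))) (.a (.f (nat_lit 623) (nat_lit 622) (nat_lit 1614) (.f (nat_lit 595) (nat_lit 624) (nat_lit 1615) (.d (nat_lit 627) (nat_lit 626) (nat_lit 591) (nat_lit 628) (nat_lit 592)))) (.f (nat_lit 563) (nat_lit 562) (nat_lit 2607) (.d (nat_lit 564) (nat_lit 531) (nat_lit 528) (nat_lit 595) (nat_lit 2608)))))) (.a (.p (nat_lit 591) (.a (.f (nat_lit 562) (nat_lit 563) (nat_lit 2607) (.d (nat_lit 626) (nat_lit 497) (nat_lit 7665) (nat_lit 627) (nat_lit 591))) (.a (.f (nat_lit 623) (nat_lit 622) (nat_lit 1614) (.f (nat_lit 595) (nat_lit 624) (nat_lit 1615) (.d (nat_lit 627) (nat_lit 626) (nat_lit 591) (nat_lit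 628) (nat_lit 592)))) (.f (nat_lit 563) (nat_lit 562) (nat_lit 2607) (.d (nat_lit 564) (nat_lit 531) (nat_lit 528) (nat_lit 595) (nat_lit 2608)))))) (.a (.p (nat_lit 497) (.a (.d (nat_lit 561) (nat_lit 624) (nat_lit 5616) (nat_lit 626) (nat_lit 4593)) (.a (.f (nat_lit 562) (nat_lit 626) (nat_lit 7665) (.d (nat_lit 465) (nat_lit 433) (nat_lit 4529) (nat_lit 498) (nat_lit 7633))) (.f (nat_lit 561) (nat_lit 624) (nat_lit 5616) (.f (nat_lit 496) (nat_lit 464) (nat_lit 7632) (.d (nat_lit 495) (nat_lit 494) (nat_lit 494) (nat_lit 531) (nat_lit 3567))))))) (.a (.p (nat_lit 591) (.a (.f (nat_lit 622) (nat_lit 623) (nat_lit 1614) (.f (nat_lit 590) (nat_lit 621) (nat_lit 1613) (.d (nat_lit 558) (nat_lit 557) (nat_lit 3629) (nat_lit 559) (nat_lit 3630)))) (.a (.f (nat_lit 623) (nat_lit 622) (nat_lit 1614) (.f (nat_lit 595) (nat_lit 624) (nat_lit 1615) (.d (nat_lit 627) (nat_lit 626) (nat_lit 591) (nat_lit 628) (nat_lit 592)))) (.f (nat_lit 627)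 (nat_lit 626) (nat_lit 591) (.f (nat_lit 595) (nat_lit 628) (nat_lit 592) (.f (nat_lit 563) (nat_lit 564) (nat_lit 2608) (.f (nat_lit 531) (nat_lit 498) (nat_lit 7666) (.f (nat_lit 496) (nat_lit 495) (nat_lit 3567) (.f (nat_lit 497) (nat_lit 532) (nat_lit 3568) (.d (nat_lit 561) (nat_lit 464) (nat_lit 7632) (nat_lit 624) (nat_lit 5616))))))))))) (.p (nat_lit 591) (.a (.f (nat_lit 622) (nat_lit 623) (nat_lit 1614) (.f (nat_lit 590) (nat_lit 621) (nat_lit 1613) (.d (nat_lit 558) (nat_lit 557) (nat_lit 3629) (nat_lit 559) (nat_lit 3630)))) (.f (nat_lit 563) (nat_lit 562) (nat_lit 2607) (.d (nat_lit 564) (nat_lit 531) (nat_lit 528) (nat_lit 595) (nat_lit 2608))))))))))) s15745))))))))))) (.a s15750 (.a s15757 (.a s15789 (.a (.p (nat_lit 530) (.a s15589 (.a s15795 (.a s15803 (.a (.p (nat_lit 531) (.a (.f (nat_lit 563) (nat_lit 564) (nat_lit 528) (.f (nat_lit 499) (nat_lit 500) (nat_lit 2544) (.d (nat_lit 562) (nat_lit 467) (nat_lit 5586)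 (nat_lit 626) (nat_lit 6642)))) (.a (.f (nat_lit 496) (nat_lit 495) (nat_lit 3567) (.f (nat_lit 532) (nat_lit 497) (nat_lit 3568) (.d (nat_lit 500) (nat_lit 499) (nat_lit 2544) (nat_lit 501) (nat_lit 2545)))) (.f (nat_lit 496) (nat_lit 495) (nat_lit 3567) (.f (nat_lit 497) (nat_lit 532) (nat_lit 3568) (.f (nat_lit 562) (nat_lit 626) (nat_lit 7665) (.d (nat_lit 465) (nat_lit 433) (nat_lit 4529) (nat_lit 498) (nat_lit 7633)))))))) (.a (.p (nat_lit 497) (.a (.d (nat_lit 626) (nat_lit 561) (nat_lit 4593) (nat_lit 562) (nat_lit 7665)) (.a (.f (nat_lit 562) (nat_lit 626) (nat_lit 7665) (.d (nat_lit 465) (nat_lit 433) (nat_lit 4529) (nat_lit 498) (nat_lit 7633))) (.a (.f (nat_lit 561) (nat_lit 626) (nat_lit 4593) (.f (nat_lit 496) (nat_lit 464) (nat_lit 7632) (.f (nat_lit 466) (nat_lit 498) (nat_lit 6609) (.f (nat_lit 465) (nat_lit 434) (nat_lit 6577) (.d (nat_lit 433) (nat_lit 401) (nat_lit 5520) (nat_lit 560) (nat_lit 5552)))))) (.p (nat_lit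 561) (.a (.f (nat_lit 562) (nat_lit 465) (nat_lit 4561) (.f (nat_lit 498) (nat_lit 466) (nat_lit 6609) (.d (nat_lit 499) (nat_lit 467) (nat_lit 6610) (nat_lit 500) (nat_lit 1520)))) (.a (.f (nat_lit 496) (nat_lit 464) (nat_lit 7632) (.f (nat_lit 466) (nat_lit 498) (nat_lit 6609) (.f (nat_lit 465) (nat_lit 434) (nat_lit 6577) (.d (nat_lit 433) (nat_lit 401) (nat_lit 5520) (nat_lit 560) (nat_lit 5552))))) (.a (.f (nat_lit 465) (nat_lit 562) (nat_lit 4561) (.f (nat_lit 496) (nat_lit 464) (nat_lit 7632) (.d (nat_lit 433) (nat_lit 401) (nat_lit 5520) (nat_lit 560) (nat_lit 5552)))) (.f (nat_lit 498) (nat_lit 466) (nat_lit 6609) (.f (nat_lit 499) (nat_lit 500) (nat_lit 1520) (.f (nat_lit 496) (nat_lit 464) (nat_lit 7632) (.d (nat_lit 467) (nat_lit 468) (nat_lit 2512) (nat_lit 562) (nat_lit 6610))))))))))))) (.a (.p (nat_lit 531) (.a (.f (nat_lit 496) (nat_lit 495) (nat_lit 3567) (.f (nat_lit 497) (nat_lit 532) (nat_lit 3568) (.d (nat_lit 561)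 (nat_lit 464) (nat_lit 7632) (nat_lit 626) (nat_lit 4593)))) (.a (.f (nat_lit 500) (nat_lit 499) (nat_lit 2544) (.f (nat_lit 532) (nat_lit 501) (nat_lit 2545) (.d (nat_lit 564) (nat_lit 563) (nat_lit 528) (nat_lit 565) (nat_lit 529)))) (.f (nat_lit 563) (nat_lit 564) (nat_lit 528) (.f (nat_lit 499) (nat_lit 500) (nat_lit 2544) (.f (nat_lit 595) (nat_lit 626) (nat_lit 5618) (.d (nat_lit 498) (nat_lit 466) (nat_lit 7634) (nat_lit 627) (nat_lit 7666)))))))) (.a (.p (nat_lit 531) (.a (.f (nat_lit 563) (nat_lit 564) (nat_lit 528) (.f (nat_lit 499) (nat_lit 500) (nat_lit 2544) (.d (nat_lit 562) (nat_lit 467) (nat_lit 5586) (nat_lit 626) (nat_lit 6642)))) (.a (.f (nat_lit 496) (nat_lit 495) (nat_lit 3567) (.f (nat_lit 497) (nat_lit 532) (nat_lit 3568) (.d (nat_lit 561) (nat_lit 464) (nat_lit 7632) (nat_lit 626) (nat_lit 4593)))) (.f (nat_lit 496) (nat_lit 495) (nat_lit 3567) (.f (nat_lit 532) (nat_lit 497) (nat_lit 3568) (.d (nat_lit 500) (nat_lit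 499) (nat_lit 2544) (nat_lit 501) (nat_lit 2545))))))) (.a (.p (nat_lit 531) (.a (.f (nat_lit 496) (nat_lit 495) (nat_lit 3567) (.f (nat_lit 497) (nat_lit 532) (nat_lit 3568) (.d (nat_lit 561) (nat_lit 464) (nat_lit 7632) (nat_lit 626) (nat_lit 4593)))) (.a (.f (nat_lit 564) (nat_lit 563) (nat_lit 528) (.f (nat_lit 532) (nat_lit 565) (nat_lit 529) (.f (nat_lit 561) (nat_lit 560) (nat_lit 1552) (.f (nat_lit 497) (nat_lit 626) (nat_lit 4593) (.d (nat_lit 498) (nat_lit 466) (nat_lit 6609) (nat_lit 533) (nat_lit 3569)))))) (.a (.f (nat_lit 564) (nat_lit 563) (nat_lit 528) (.f (nat_lit 532) (nat_lit 565) (nat_lit 529) (.f (nat_lit 561) (nat_lit 560) (nat_lit 1552) (.f (nat_lit 562) (nat_lit 533) (nat_lit 1553) (.f (nat_lit 626) (nat_lit 658) (nat_lit 7697) (.f (nat_lit 627) (nat_lit 659) (nat_lit 4626) (.d (nat_lit 498) (nat_lit 466) (nat_lit 5585) (nat_lit 595) (nat_lit 4594)))))))) (.a (.f (nat_lit 496) (nat_lit 495) (nat_lit 3567) (.f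 (nat_lit 497) (nat_lit 532) (nat_lit 3568) (.f (nat_lit 562) (nat_lit 626) (nat_lit 7665) (.d (nat_lit 465) (nat_lit 433) (nat_lit 4529) (nat_lit 498) (nat_lit 7633))))) (.a (.f (nat_lit 560) (nat_lit 559) (nat_lit 1551) (.f (nat_lit 496) (nat_lit 495) (nat_lit 3567) (.f (nat_lit 561) (nat_lit 464) (nat_lit 4560) (.f (nat_lit 497) (nat_lit 626) (nat_lit 4593) (.d (nat_lit 465) (nat_lit 433) (nat_lit 5552) (nat_lit 562) (nat_lit 4561)))))) (.f (nat_lit 564) (nat_lit 563) (nat_lit 528) (.f (nat_lit 532) (nat_lit 565) (nat_lit 529) (.d (nat_lit 496) (nat_lit 495) (nat_lit 3567) (nat_lit 497) (nat_lit 3568)))))))))) s15745))))))))) (.a s15883 (.a s15886 (.a s15890 (.a s15893 s15895))))))))))) (.a s15906 (.a s15925 (.a (.p (nat_lit 592) (.a s15907 (.a s15915 (.a s14917 (.a s15024 (.a s15057 (.a s15090 (.a s15285 (.a s15153 s15165))))))))) (.a s15947 (.p (nat_lit 592) (.a s15915 (.a s15153 (.a s15311 (.a (.p (nat_lit 560) (.a (.f (nat_lit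 496) (nat_lit 625) (nat_lit 4592) (.d (nat_lit 497) (nat_lit 465) (nat_lit 6608) (nat_lit 624) (nat_lit 6640))) (.a (.f (nat_lit 624) (nat_lit 497) (nat_lit 6640) (.f (nat_lit 623) (nat_lit 655) (nat_lit 5647) (.f (nat_lit 594) (nat_lit 595) (nat_lit 1615) (.d (nat_lit 622) (nat_lit 591) (nat_lit 1614) (nat_lit 621) (nat_lit 2637))))) (.f (nat_lit 496) (nat_lit 625) (nat_lit 4592) (.f (nat_lit 591) (nat_lit 623) (nat_lit 5615) (.f (nat_lit 559) (nat_lit 464) (nat_lit 5583) (.d (nat_lit 558) (nat_lit 557) (nat_lit 557) (nat_lit 594) (nat_lit 3630)))))))) (.a (.p (nat_lit 560) (.a (.f (nat_lit 496) (nat_lit 625) (nat_lit 4592) (.d (nat_lit 497) (nat_lit 465) (nat_lit 6608) (nat_lit 624) (nat_lit 6640))) (.a (.f (nat_lit 624) (nat_lit 497) (nat_lit 6640) (.f (nat_lit 656) (nat_lit 561) (nat_lit 6672) (.d (nat_lit 655) (nat_lit 623) (nat_lit 5647) (nat_lit 687) (nat_lit 5679)))) (.f (nat_lit 496) (nat_lit 625) (nat_lit 4592) (.f (nat_lit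 464) (nat_lit 561) (nat_lit 4560) (.d (nat_lit 463) (nat_lit 431) (nat_lit 7599) (nat_lit 495) (nat_lit 7631))))))) (.p (nat_lit 561) (.a (.f (nat_lit 625) (nat_lit 496) (nat_lit 7664) (.f (nat_lit 626) (nat_lit 658) (nat_lit 4625) (.f (nat_lit 594) (nat_lit 497) (nat_lit 4593) (.d (nat_lit 591) (nat_lit 590) (nat_lit 590) (nat_lit 627) (nat_lit 591))))) (.a s14961 (.a (.f (nat_lit 625) (nat_lit 496) (nat_lit 7664) (.f (nat_lit 626) (nat_lit 658) (nat_lit 4625) (.f (nat_lit 591) (nat_lit 590) (nat_lit 590) (.d (nat_lit 627) (nat_lit 594) (nat_lit 591) (nat_lit 628) (nat_lit 3664))))) (.a (.f (nat_lit 496) (nat_lit 625) (nat_lit 7664) (.d (nat_lit 464) (nat_lit 497) (nat_lit 7632) (nat_lit 560) (nat_lit 4560))) (.p (nat_lit 560) (.a (.f (nat_lit 497) (nat_lit 465) (nat_lit 5584) (.f (nat_lit 594) (nat_lit 626) (nat_lit 4593) (.d (nat_lit 559) (nat_lit 558) (nat_lit 558) (nat_lit 595) (nat_lit 3631)))) (.f (nat_lit 496) (nat_lit 464) (nat_lit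 4560) (.f (nat_lit 591) (nat_lit 623) (nat_lit 5615) (.d (nat_lit 562) (nat_lit 563) (nat_lit 1583) (nat_lit 590) (nat_lit 2606)))))))))))))))))))))))))))))))))
noncomputable def s15963 : Cert := .r (nat_lit 3773962427896970703980067733300160448905385381753147442840407123654343792107272198248276636528565486557800015660592592403154009030555443256434490679465860718068940931072) (.p (nat_lit 526) (.a (.f (nat_lit 557) (nat_lit 558) (nat_lit 1549) (.f (nat_lit 525) (nat_lit 556) (nat_lit 1548) (.d (nat_lit 493) (nat_lit 492) (nat_lit 3564) (nat_lit 494) (nat_lit 3565)))) (.a (.f (nat_lit 493) (nat_lit 494) (nat_lit 3565) (.f (nat_lit 525) (nat_lit 492) (nat_lit 3564) (.f (nat_lit 524) (nat_lit 559) (nat_lit 524) (.d (nat_lit 556) (nat_lit 555) (nat_lit 1547) (nat_lit 557) (nat_lit 1548))))) (.a (.p (nat_lit 495) (.a (.f (nat_lit 558) (nat_lit 557) (nat_lit 1549) (.f (nat_lit 463) (nat_lit 431) (nat_lit 4527) (.d (nat_lit 494) (nat_lit 493)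 (nat_lit 3565) (nat_lit 590) (nat_lit 6606)))) (.a (.f (nat_lit 592) (nat_lit 624) (nat_lit 7663) (.d (nat_lit 463) (nat_lit 431) (nat_lit 4527) (nat_lit 559) (nat_lit 4559))) (.f (nat_lit 494) (nat_lit 493) (nat_lit 3565) (.f (nat_lit 558) (nat_lit 557) (nat_lit 1549) (.f (nat_lit 590) (nat_lit 622) (nat_lit 6638) (.f (nat_lit 591) (nat_lit 623) (nat_lit 4590) (.f (nat_lit 462) (nat_lit 559) (nat_lit 7630) (.f (nat_lit 430) (nat_lit 398) (nat_lit 4494) (.d (nat_lit 429) (nat_lit 397) (nat_lit 7565) (nat_lit 461) (nat_lit 7597))))))))))) (.a (.f (nat_lit 557) (nat_lit 558) (nat_lit 1549) (.f (nat_lit 525) (nat_lit 556) (nat_lit 1548) (.f (nat_lit 492) (nat_lit 493) (nat_lit 3564) (.d (nat_lit 524) (nat_lit 491) (nat_lit 3563) (nat_lit 559) (nat_lit 524))))) (.a s463 (.p (nat_lit 495) (.a (.f (nat_lit 592) (nat_lit 624) (nat_lit 7663) (.d (nat_lit 463) (nat_lit 431) (nat_lit 4527) (nat_lit 559) (nat_lit 4559))) (.a (.f (nat_lit 558) (nat_lit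 557) (nat_lit 1549) (.f (nat_lit 463) (nat_lit 431) (nat_lit 4527) (.d (nat_lit 590) (nat_lit 494) (nat_lit 6606) (nat_lit 622) (nat_lit 6638)))) (.f (nat_lit 557) (nat_lit 558) (nat_lit 1549) (.f (nat_lit 525) (nat_lit 556) (nat_lit 1548) (.f (nat_lit 524) (nat_lit 559) (nat_lit 524) (.f (nat_lit 523) (nat_lit 494) (nat_lit 2539) (.d (nat_lit 491) (nat_lit 490) (nat_lit 3562) (nat_lit 492) (nat_lit 3563)))))))))))))))
noncomputable def s15982 : Cert := .r (nat_lit 3773962427896970703980067733300160448905385381753147442840407123654343792107272198248276636528565486557800015660592592403154009030555443256434490679465860718068940931072) (.p (nat_lit 592) (.a (.f (nat_lit 495) (nat_lit 624) (nat_lit 7663) (.d (nat_lit 463) (nat_lit 431) (nat_lit 4527) (nat_lit 496) (nat_lit 7631))) (.a (.f (nat_lit 624) (nat_lit 495) (nat_lit 7663) (.d (nat_lit 656) (nat_lit 559) (nat_lit 7695) (nat_lit 561) (nat_lit 6672))) (.a (.p (nat_lit 496) (.a (.f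 (nat_lit 591) (nat_lit 623) (nat_lit 5615) (.f (nat_lit 593) (nat_lit 625) (nat_lit 4592) (.d (nat_lit 464) (nat_lit 559) (nat_lit 5583) (nat_lit 561) (nat_lit 4560)))) (.a (.f (nat_lit 591) (nat_lit 623) (nat_lit 5615) (.f (nat_lit 559) (nat_lit 464) (nat_lit 5583) (.f (nat_lit 558) (nat_lit 557) (nat_lit 2573) (.d (nat_lit 593) (nat_lit 594) (nat_lit 3630) (nat_lit 625) (nat_lit 4592))))) (.a (.f (nat_lit 593) (nat_lit 625) (nat_lit 4592) (.f (nat_lit 561) (nat_lit 464) (nat_lit 4560) (.f (nat_lit 562) (nat_lit 563) (nat_lit 3599) (.d (nat_lit 591) (nat_lit 590) (nat_lit 2606) (nat_lit 623) (nat_lit 5615))))) (.a (.f (nat_lit 623) (nat_lit 591) (nat_lit 5615) (.f (nat_lit 624) (nat_lit 655) (nat_lit 5647) (.d (nat_lit 656) (nat_lit 559) (nat_lit 7695) (nat_lit 561) (nat_lit 6672)))) (.f (nat_lit 625) (nat_lit 593) (nat_lit 4592) (.f (nat_lit 624) (nat_lit 657) (nat_lit 4624) (.d (nat_lit 656) (nat_lit 559) (nat_lit 7695) (nat_lit 561)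 (nat_lit 6672))))))))) (.p (nat_lit 496) (.a (.f (nat_lit 591) (nat_lit 623) (nat_lit 5615) (.f (nat_lit 593) (nat_lit 625) (nat_lit 4592) (.d (nat_lit 464) (nat_lit 559) (nat_lit 5583) (nat_lit 561) (nat_lit 4560)))) (.a (.f (nat_lit 591) (nat_lit 623) (nat_lit 5615) (.f (nat_lit 559) (nat_lit 464) (nat_lit 5583) (.f (nat_lit 558) (nat_lit 557) (nat_lit 2573) (.d (nat_lit 593) (nat_lit 594) (nat_lit 3630) (nat_lit 625) (nat_lit 4592))))) (.a (.f (nat_lit 593) (nat_lit 625) (nat_lit 4592) (.f (nat_lit 561) (nat_lit 464) (nat_lit 4560) (.f (nat_lit 562) (nat_lit 563) (nat_lit 3599) (.d (nat_lit 591) (nat_lit 590) (nat_lit 2606) (nat_lit 623) (nat_lit 5615))))) (.a (.f (nat_lit 495) (nat_lit 463) (nat_lit 7631) (.f (nat_lit 591) (nat_lit 623) (nat_lit 5615) (.f (nat_lit 559) (nat_lit 464) (nat_lit 5583) (.d (nat_lit 494) (nat_lit 462) (nat_lit 7630) (nat_lit 493) (nat_lit 493))))) (.a (.f (nat_lit 463) (nat_lit 495) (nat_lit 7631) (.f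 (nat_lit 593) (nat_lit 625) (nat_lit 4592) (.d (nat_lit 464) (nat_lit 431) (nat_lit 7599) (nat_lit 561) (nat_lit 4560)))) (.f (nat_lit 495) (nat_lit 463) (nat_lit 7631) (.f (nat_lit 591) (nat_lit 623) (nat_lit 5615) (.f (nat_lit 593) (nat_lit 625) (nat_lit 4592) (.f (nat_lit 494) (nat_lit 493) (nat_lit 493) (.f (nat_lit 559) (nat_lit 462) (nat_lit 7630) (.d (nat_lit 558) (nat_lit 557) (nat_lit 557) (nat_lit 594) (nat_lit 3630)))))))))))))))))
noncomputable def s15986 : Cert := .r (nat_lit 3773962427896970703980067733300160448905385381753147442840407123654343792107272198248276636528565486557800015660592592403154009030555443256434490679465860718068940931072) (.p (nat_lit 561) (.a (.d (nat_lit 526) (nat_lit 525) (nat_lit 525) (nat_lit 562) (nat_lit 526)) (.a (.p (nat_lit 559) (.a (.f (nat_lit 558) (nat_lit 557) (nat_lit 2573) (.f (nat_lit 562) (nat_lit 563) (nat_lit 3599) (.d (nat_lit 590) (nat_lit 589) (nat_lit 1581) (nat_lit 591) (nat_lit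 1582)))) (.a (.f (nat_lit 558) (nat_lit 557) (nat_lit 2573) (.f (nat_lit 562) (nat_lit 563) (nat_lit 3599) (.d (nat_lit 594) (nat_lit 593) (nat_lit 558) (nat_lit 595) (nat_lit 559)))) (.a (.f (nat_lit 558) (nat_lit 557) (nat_lit 2573) (.f (nat_lit 590) (nat_lit 589) (nat_lit 1581) (.f (nat_lit 495) (nat_lit 463) (nat_lit 5582) (.d (nat_lit 622) (nat_lit 591) (nat_lit 5614) (nat_lit 654) (nat_lit 6670))))) (.f (nat_lit 562) (nat_lit 563) (nat_lit 3599) (.f (nat_lit 591) (nat_lit 590) (nat_lit 1582) (.d (nat_lit 496) (nat_lit 464) (nat_lit 5583) (nat_lit 623) (nat_lit 6639)))))))) (.p (nat_lit 593) (.a (.f (nat_lit 526) (nat_lit 525) (nat_lit 525) (.f (nat_lit 558) (nat_lit 557) (nat_lit 1549) (.f (nat_lit 559) (nat_lit 594) (nat_lit 558) (.f (nat_lit 590) (nat_lit 589) (nat_lit 1581) (.d (nat_lit 495) (nat_lit 463) (nat_lit 5582) (nat_lit 622) (nat_lit 6638)))))) (.d (nat_lit 496) (nat_lit 464) (nat_lit 4560) (nat_lit 625) (nat_lit 7664)))))))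
noncomputable def s16000 : Cert := .r (nat_lit 16209045194715341172086063921523665979442528543602404522361183886944519668236016238981127858197900832966838481133193723404323651291481256326988548077192161332048602137606087507968) (.p (nat_lit 561) (.a (.d (nat_lit 526) (nat_lit 525) (nat_lit 525) (nat_lit 562) (nat_lit 526)) (.a (.f (nat_lit 562) (nat_lit 563) (nat_lit 3599) (.f (nat_lit 624) (nat_lit 656) (nat_lit 6672) (.f (nat_lit 625) (nat_lit 657) (nat_lit 4624) (.f (nat_lit 593) (nat_lit 496) (nat_lit 4592) (.f (nat_lit 626) (nat_lit 658) (nat_lit 4625) (.d (nat_lit 591) (nat_lit 590) (nat_lit 2606) (nat_lit 627) (nat_lit 3663))))))) (.f (nat_lit 624) (nat_lit 656) (nat_lit 6672) (.f (nat_lit 625) (nat_lit 657) (nat_lit 4624) (.f (nat_lit 593) (nat_lit 496) (nat_lit 4592) (.f (nat_lit 623) (nat_lit 655) (nat_lit 5647) (.d (nat_lit 594) (nat_lit 595) (nat_lit 1615) (nat_lit 622) (nat_lit 2638)))))))))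
noncomputable def s16001 : Cert := .r (nat_lit 16209045194715341172086063921523665979442528543602404522361183886944519668236016238981127858197900832966838481133193723404323651291481256326988548077192161332048602137606087507968) (.p (nat_lit 496) (.a (.f (nat_lit 591) (nat_lit 623) (nat_lit 5615) (.f (nat_lit 593) (nat_lit 625) (nat_lit 4592) (.d (nat_lit 464) (nat_lit 559) (nat_lit 5583) (nat_lit 561) (nat_lit 4560)))) (.a (.f (nat_lit 495) (nat_lit 463) (nat_lit 7631) (.f (nat_lit 591) (nat_lit 623) (nat_lit 5615) (.f (nat_lit 559) (nat_lit 464) (nat_lit 5583) (.d (nat_lit 494) (nat_lit 462) (nat_lit 7630) (nat_lit 493) (nat_lit 493))))) (.a (.f (nat_lit 593) (nat_lit 625) (nat_lit 4592) (.f (nat_lit 561) (nat_lit 464) (nat_lit 4560) (.f (nat_lit 562) (nat_lit 563) (nat_lit 3599) (.d (nat_lit 591) (nat_lit 590) (nat_lit 2606) (nat_lit 623) (nat_lit 5615))))) (.a (.f (nat_lit 463) (nat_lit 495) (nat_lit 7631) (.f (nat_lit 593) (nat_lit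 625) (nat_lit 4592) (.d (nat_lit 464) (nat_lit 431) (nat_lit 7599) (nat_lit 561) (nat_lit 4560)))) (.f (nat_lit 495) (nat_lit 463) (nat_lit 7631) (.f (nat_lit 494) (nat_lit 493) (nat_lit 493) (.f (nat_lit 591) (nat_lit 623) (nat_lit 5615) (.f (nat_lit 593) (nat_lit 625) (nat_lit 4592) (.f (nat_lit 559) (nat_lit 462) (nat_lit 7630) (.f (nat_lit 590) (nat_lit 622) (nat_lit 5614) (.d (nat_lit 561) (nat_lit 562) (nat_lit 2606) (nat_lit 589) (nat_lit 2605)))))))))))))
noncomputable def s16014 : Cert := .r (nat_lit 16209045194715341172086063921523665979442528543602404522361183886944519668236016238981127858197900832966838481133193723404323651291481256326988548077192161332048602137606087507968) (.p (nat_lit 624) (.a (.f (nat_lit 559) (nat_lit 656) (nat_lit 7695) (.f (nat_lit 623) (nat_lit 655) (nat_lit 5647) (.f (nat_lit 591) (nat_lit 496) (nat_lit 5615) (.f (nat_lit 558) (nat_lit 557) (nat_lit 2573) (.f (nat_lit 622) (nat_lit 654) (nat_lit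 5646) (.d (nat_lit 593) (nat_lit 594) (nat_lit 3630) (nat_lit 621) (nat_lit 2637))))))) (.a (.f (nat_lit 656) (nat_lit 559) (nat_lit 7695) (.d (nat_lit 655) (nat_lit 623) (nat_lit 5647) (nat_lit 687) (nat_lit 5679))) (.a (.f (nat_lit 623) (nat_lit 655) (nat_lit 5647) (.f (nat_lit 625) (nat_lit 657) (nat_lit 4624) (.d (nat_lit 496) (nat_lit 591) (nat_lit 5615) (nat_lit 593) (nat_lit 4592)))) (.f (nat_lit 559) (nat_lit 656) (nat_lit 7695) (.f (nat_lit 558) (nat_lit 557) (nat_lit 2573) (.f (nat_lit 625) (nat_lit 657) (nat_lit 4624) (.f (nat_lit 593) (nat_lit 496) (nat_lit 4592) (.d (nat_lit 594) (nat_lit 591) (nat_lit 3630) (nat_lit 595) (nat_lit 3631))))))))))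
noncomputable def s16016 : Cert := .r (nat_lit 3773962427896970703980067733300160448905385381753147442840407123654343792107272198248276636528565486557800015660592592403154009030555443256434490679465860718068940931072) (.p (nat_lit 592) (.a (.f (nat_lit 495) (nat_lit 624) (nat_lit 7663) (.d (nat_lit 463) (nat_lit 431) (nat_lit 4527) (nat_lit 496) (nat_lit 7631))) (.a (.f (nat_lit 624) (nat_lit 495) (nat_lit 7663) (.d (nat_lit 656) (nat_lit 559) (nat_lit 7695) (nat_lit 561) (nat_lit 6672))) (.a s16014 (.p (nat_lit 496) (.a (.f (nat_lit 591) (nat_lit 623) (nat_lit 5615) (.f (nat_lit 593) (nat_lit 625) (nat_lit 4592) (.d (nat_lit 464) (nat_lit 559) (nat_lit 5583) (nat_lit 561) (nat_lit 4560)))) (.a (.f (nat_lit 591) (nat_lit 623) (nat_lit 5615) (.f (nat_lit 559) (nat_lit 464) (nat_lit 5583) (.f (nat_lit 558) (nat_lit 557) (nat_lit 2573) (.d (nat_lit 593) (nat_lit 594) (nat_lit 3630) (nat_lit 625) (nat_lit 4592))))) (.a (.f (nat_lit 463)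 (nat_lit 495) (nat_lit 7631) (.f (nat_lit 593) (nat_lit 625) (nat_lit 4592) (.d (nat_lit 464) (nat_lit 431) (nat_lit 7599) (nat_lit 561) (nat_lit 4560)))) (.a (.f (nat_lit 495) (nat_lit 463) (nat_lit 7631) (.f (nat_lit 591) (nat_lit 623) (nat_lit 5615) (.f (nat_lit 559) (nat_lit 464) (nat_lit 5583) (.d (nat_lit 494) (nat_lit 462) (nat_lit 7630) (nat_lit 493) (nat_lit 493))))) (.f (nat_lit 495) (nat_lit 463) (nat_lit 7631) (.f (nat_lit 591) (nat_lit 623) (nat_lit 5615) (.f (nat_lit 593) (nat_lit 625) (nat_lit 4592) (.f (nat_lit 494) (nat_lit 493) (nat_lit 493) (.f (nat_lit 559) (nat_lit 462) (nat_lit 7630) (.d (nat_lit 558) (nat_lit 557) (nat_lit 557) (nat_lit 594) (nat_lit 3630))))))))))))))))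
noncomputable def s16064 : Cert := .r (nat_lit 16209045194715341172086063921523665979442528543602404522361183886944519668236016238981127858197900832966838481133193723404323651291481256326988548077192161332048602137606087507968) (.p (nat_lit 496) (.a (.f (nat_lit 591) (nat_lit 623) (nat_lit 5615) (.f (nat_lit 559) (nat_lit 464) (nat_lit 5583) (.f (nat_lit 558) (nat_lit 557) (nat_lit 2573) (.d (nat_lit 593) (nat_lit 594) (nat_lit 3630) (nat_lit 625) (nat_lit 4592))))) (.a (.f (nat_lit 463) (nat_lit 495) (nat_lit 7631) (.f (nat_lit 465) (nat_lit 497) (nat_lit 6608) (.d (nat_lit 464) (nat_lit 431) (nat_lit 7599) (nat_lit 433) (nat_lit 6576)))) (.f (nat_lit 495) (nat_lit 463) (nat_lit 7631) (.f (nat_lit 591) (nat_lit 623) (nat_lit 5615) (.f (nat_lit 593) (nat_lit 625) (nat_lit 4592) (.f (nat_lit 494) (nat_lit 493) (nat_lit 493) (.f (nat_lit 559) (nat_lit 462) (nat_lit 7630) (.d (nat_lit 558) (nat_lit 557) (nat_lit 557) (nat_lit 594) (nat_lit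 3630))))))))))
noncomputable def s16072 : Cert := .r (nat_lit 3773962427896970703980067733300160448905385381753147442840407123654343792107272198248276636528565486557800015660592592403154009030555443256434490679465860718068940931072) (.p (nat_lit 526) (.a (.f (nat_lit 557) (nat_lit 558) (nat_lit 1549) (.f (nat_lit 525) (nat_lit 556) (nat_lit 1548) (.d (nat_lit 493) (nat_lit 492) (nat_lit 3564) (nat_lit 494) (nat_lit 3565)))) (.a (.f (nat_lit 493) (nat_lit 494) (nat_lit 3565) (.f (nat_lit 525) (nat_lit 492) (nat_lit 3564) (.f (nat_lit 524) (nat_lit 559) (nat_lit 524) (.d (nat_lit 556) (nat_lit 555) (nat_lit 1547) (nat_lit 557) (nat_lit 1548))))) (.a (.p (nat_lit 495) (.a (.f (nat_lit 558) (nat_lit 557) (nat_lit 1549) (.f (nat_lit 463) (nat_lit 431) (nat_lit 4527) (.d (nat_lit 494) (nat_lit 493) (nat_lit 3565) (nat_lit 590) (nat_lit 6606)))) (.a (.f (nat_lit 494) (nat_lit 493) (nat_lit 3565) (.f (nat_lit 497) (nat_lit 498) (nat_lit 2542)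 (.f (nat_lit 463) (nat_lit 431) (nat_lit 4527) (.f (nat_lit 465) (nat_lit 433) (nat_lit 5552) (.d (nat_lit 466) (nat_lit 464) (nat_lit 1486) (nat_lit 496) (nat_lit 2510)))))) (.a (.f (nat_lit 558) (nat_lit 557) (nat_lit 1549) (.f (nat_lit 463) (nat_lit 431) (nat_lit 4527) (.d (nat_lit 590) (nat_lit 559) (nat_lit 5582) (nat_lit 622) (nat_lit 6638)))) (.f (nat_lit 494) (nat_lit 493) (nat_lit 3565) (.f (nat_lit 558) (nat_lit 557) (nat_lit 1549) (.f (nat_lit 590) (nat_lit 622) (nat_lit 6638) (.f (nat_lit 591) (nat_lit 623) (nat_lit 4590) (.f (nat_lit 462) (nat_lit 559) (nat_lit 7630) (.f (nat_lit 430) (nat_lit 398) (nat_lit 4494) (.d (nat_lit 429) (nat_lit 397) (nat_lit 7565) (nat_lit 461) (nat_lit 7597)))))))))))) (.a (.f (nat_lit 557) (nat_lit 558) (nat_lit 1549) (.f (nat_lit 525) (nat_lit 556) (nat_lit 1548) (.f (nat_lit 492) (nat_lit 493) (nat_lit 3564) (.d (nat_lit 524) (nat_lit 491) (nat_lit 3563) (nat_lit 559) (nat_lit 524))))) (.a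 s463 (.f (nat_lit 497) (nat_lit 498) (nat_lit 2542) (.f (nat_lit 525) (nat_lit 496) (nat_lit 2541) (.d (nat_lit 557) (nat_lit 556) (nat_lit 1548) (nat_lit 558) (nat_lit 1549))))))))))
noncomputable def s16079 : Cert := .r (nat_lit 3075429351738513152311891557988464161336707014464200823408719629715123346162149911350906719016331640629828747503383424400630650623873056428033164674419545604096) (.p (nat_lit 560) (.a s15963 (.a (.p (nat_lit 526) (.a (.f (nat_lit 557) (nat_lit 558) (nat_lit 1549) (.f (nat_lit 525) (nat_lit 556) (nat_lit 1548) (.d (nat_lit 493) (nat_lit 492) (nat_lit 3564) (nat_lit 494) (nat_lit 3565)))) (.a (.f (nat_lit 497) (nat_lit 498) (nat_lit 2542) (.f (nat_lit 496) (nat_lit 525) (nat_lit 2541) (.d (nat_lit 465) (nat_lit 433) (nat_lit 5552) (nat_lit 592) (nat_lit 6608)))) (.f (nat_lit 497) (nat_lit 498) (nat_lit 2542) (.f (nat_lit 592) (nat_lit 624) (nat_lit 6640) (.d (nat_lit 465) (nat_lit 433) (nat_lit 5552) (nat_lit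 496) (nat_lit 6608))))))) (.a (.p (nat_lit 592) (.a (.d (nat_lit 624) (nat_lit 495) (nat_lit 7663) (nat_lit 497) (nat_lit 6640)) (.a (.f (nat_lit 495) (nat_lit 624) (nat_lit 7663) (.d (nat_lit 463) (nat_lit 431) (nat_lit 4527) (nat_lit 496) (nat_lit 7631))) (.a (.f (nat_lit 497) (nat_lit 624) (nat_lit 6640) (.d (nat_lit 465) (nat_lit 433) (nat_lit 5552) (nat_lit 496) (nat_lit 6608))) s16064)))) (.a s16072 (.a (.p (nat_lit 526) (.a (.f (nat_lit 493) (nat_lit 494) (nat_lit 3565) (.f (nat_lit 525) (nat_lit 492) (nat_lit 3564) (.f (nat_lit 524) (nat_lit 559) (nat_lit 524) (.d (nat_lit 556) (nat_lit 555) (nat_lit 1547) (nat_lit 557) (nat_lit 1548))))) (.a (.f (nat_lit 497) (nat_lit 498) (nat_lit 2542) (.f (nat_lit 496) (nat_lit 525) (nat_lit 2541) (.d (nat_lit 465) (nat_lit 433) (nat_lit 5552) (nat_lit 592) (nat_lit 6608)))) (.f (nat_lit 497) (nat_lit 498) (nat_lit 2542) (.f (nat_lit 592) (nat_lit 624) (nat_lit 6640) (.d (nat_lit 465) (nat_lit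 433) (nat_lit 5552) (nat_lit 496) (nat_lit 6608))))))) (.a (.p (nat_lit 526) (.a (.f (nat_lit 557) (nat_lit 558) (nat_lit 1549) (.f (nat_lit 525) (nat_lit 556) (nat_lit 1548) (.f (nat_lit 492) (nat_lit 493) (nat_lit 3564) (.d (nat_lit 524) (nat_lit 491) (nat_lit 3563) (nat_lit 559) (nat_lit 524))))) (.a (.f (nat_lit 497) (nat_lit 498) (nat_lit 2542) (.f (nat_lit 496) (nat_lit 525) (nat_lit 2541) (.d (nat_lit 465) (nat_lit 433) (nat_lit 5552) (nat_lit 592) (nat_lit 6608)))) (.f (nat_lit 497) (nat_lit 498) (nat_lit 2542) (.f (nat_lit 592) (nat_lit 624) (nat_lit 6640) (.d (nat_lit 465) (nat_lit 433) (nat_lit 5552) (nat_lit 496) (nat_lit 6608))))))) (.a (.p (nat_lit 592) (.a (.d (nat_lit 624) (nat_lit 495) (nat_lit 7663) (nat_lit 497) (nat_lit 6640)) (.a (.f (nat_lit 495) (nat_lit 624) (nat_lit 7663) (.d (nat_lit 463) (nat_lit 431) (nat_lit 4527) (nat_lit 496) (nat_lit 7631))) (.a (.f (nat_lit 497) (nat_lit 624) (nat_lit 6640) (.d (nat_lit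 465) (nat_lit 433) (nat_lit 5552) (nat_lit 496) (nat_lit 6608))) (.p (nat_lit 496) (.a (.f (nat_lit 495) (nat_lit 463) (nat_lit 7631) (.f (nat_lit 591) (nat_lit 623) (nat_lit 5615) (.f (nat_lit 559) (nat_lit 464) (nat_lit 5583) (.d (nat_lit 494) (nat_lit 462) (nat_lit 7630) (nat_lit 493) (nat_lit 493))))) (.a (.f (nat_lit 463) (nat_lit 495) (nat_lit 7631) (.f (nat_lit 465) (nat_lit 497) (nat_lit 6608) (.d (nat_lit 464) (nat_lit 431) (nat_lit 7599) (nat_lit 433) (nat_lit 6576)))) (.f (nat_lit 497) (nat_lit 465) (nat_lit 6608) (.d (nat_lit 498) (nat_lit 499) (nat_lit 1519) (nat_lit 526) (nat_lit 2542)))))))))) (.p (nat_lit 592) (.a (.d (nat_lit 624) (nat_lit 495) (nat_lit 7663) (nat_lit 497) (nat_lit 6640)) (.a (.f (nat_lit 495) (nat_lit 624) (nat_lit 7663) (.d (nat_lit 463) (nat_lit 431) (nat_lit 4527) (nat_lit 496) (nat_lit 7631))) (.a (.f (nat_lit 497) (nat_lit 624) (nat_lit 6640) (.d (nat_lit 465) (nat_lit 433) (nat_lit 5552) (nat_lit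 496) (nat_lit 6608))) (.p (nat_lit 496) (.a (.f (nat_lit 591) (nat_lit 623) (nat_lit 5615) (.f (nat_lit 559) (nat_lit 464) (nat_lit 5583) (.f (nat_lit 558) (nat_lit 557) (nat_lit 2573) (.d (nat_lit 593) (nat_lit 594) (nat_lit 3630) (nat_lit 625) (nat_lit 4592))))) (.a (.f (nat_lit 463) (nat_lit 495) (nat_lit 7631) (.f (nat_lit 465) (nat_lit 497) (nat_lit 6608) (.d (nat_lit 464) (nat_lit 431) (nat_lit 7599) (nat_lit 433) (nat_lit 6576)))) (.f (nat_lit 497) (nat_lit 465) (nat_lit 6608) (.d (nat_lit 498) (nat_lit 499) (nat_lit 1519) (nat_lit 526) (nat_lit 2542))))))))))))))))))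
noncomputable def s16080 : Cert := .r (nat_lit 16209045190941378747264522569282111398454259652685483301944743458568313367990392076588979006111774107789179713591725348373559806391710671697063755444630727080615906093956692180992) (.p (nat_lit 560) (.a (.d (nat_lit 624) (nat_lit 495) (nat_lit 7663) (nat_lit 497) (nat_lit 6640)) (.a (.f (nat_lit 495) (nat_lit 624) (nat_lit 7663) (.d (nat_lit 463) (nat_lit 431) (nat_lit 4527) (nat_lit 496) (nat_lit 7631))) (.a (.f (nat_lit 497) (nat_lit 624) (nat_lit 6640) (.d (nat_lit 465) (nat_lit 433) (nat_lit 5552) (nat_lit 496) (nat_lit 6608))) s16064))))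
noncomputable def s16089 : Cert := .r (nat_lit 16209045190941378747264522569282111398454259652685483301944743458568313367990392076588979006111774107789179713591725348373559806391710671697063755444630727080615906093956692180992) (.p (nat_lit 530) (.a (.f (nat_lit 559) (nat_lit 558) (nat_lit 1550) (.f (nat_lit 560) (nat_lit 531) (nat_lit 1551) (.d (nat_lit 624) (nat_lit 497) (nat_lit 6640) (nat_lit 656) (nat_lit 7695)))) (.a (.f (nat_lit 499) (nat_lit 498) (nat_lit 2543) (.f (nat_lit 531) (nat_lit 500) (nat_lit 2544) (.d (nat_lit 563) (nat_lit 562) (nat_lit 527) (nat_lit 564) (nat_lit 528)))) (.p (nat_lit 497) (.a (.f (nat_lit 498) (nat_lit 499) (nat_lit 2543) (.f (nat_lit 562) (nat_lit 563) (nat_lit 527) (.d (nat_lit 465) (nat_lit 433) (nat_lit 4529) (nat_lit 594) (nat_lit 7633)))) (.a (.f (nat_lit 560) (nat_lit 624) (nat_lit 6640) (.d (nat_lit 465) (nat_lit 433) (nat_lit 5552) (nat_lit 496) (nat_lit 6608))) (.f (nat_lit 498) (nat_lit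 499) (nat_lit 2543) (.f (nat_lit 562) (nat_lit 563) (nat_lit 527) (.f (nat_lit 594) (nat_lit 626) (nat_lit 7665) (.f (nat_lit 560) (nat_lit 624) (nat_lit 6640) (.f (nat_lit 559) (nat_lit 558) (nat_lit 1550) (.d (nat_lit 593) (nat_lit 595) (nat_lit 3631) (nat_lit 625) (nat_lit 5617)))))))))))))
noncomputable def s16101 : Cert := .r (nat_lit 16209045190941378747264522569282111398454259652685483301944743458568313367990392076588979006111774107789179713591725348373559806391710671697063755444630727080615906093956692180992) (.p (nat_lit 526) (.a (.f (nat_lit 493) (nat_lit 494) (nat_lit 3565) (.f (nat_lit 525) (nat_lit 492) (nat_lit 3564) (.d (nat_lit 557) (nat_lit 556) (nat_lit 1548) (nat_lit 558) (nat_lit 1549)))) (.a (.f (nat_lit 494) (nat_lit 493) (nat_lit 3565) (.f (nat_lit 497) (nat_lit 498) (nat_lit 2542) (.f (nat_lit 561) (nat_lit 562) (nat_lit 526) (.f (nat_lit 593) (nat_lit 624) (nat_lit 5616) (.f (nat_lit 626) (nat_lit 594) (nat_lit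 4593) (.f (nat_lit 625) (nat_lit 658) (nat_lit 4625) (.f (nat_lit 591) (nat_lit 590) (nat_lit 590) (.f (nat_lit 559) (nat_lit 623) (nat_lit 7662) (.d (nat_lit 462) (nat_lit 430) (nat_lit 4526) (nat_lit 495) (nat_lit 7630)))))))))) (.f (nat_lit 558) (nat_lit 557) (nat_lit 1549) (.f (nat_lit 497) (nat_lit 498) (nat_lit 2542) (.f (nat_lit 561) (nat_lit 562) (nat_lit 526) (.f (nat_lit 593) (nat_lit 624) (nat_lit 5616) (.f (nat_lit 594) (nat_lit 626) (nat_lit 4593) (.f (nat_lit 591) (nat_lit 559) (nat_lit 3630) (.f (nat_lit 622) (nat_lit 623) (nat_lit 1614) (.d (nat_lit 590) (nat_lit 495) (nat_lit 6638) (nat_lit 621) (nat_lit 1613))))))))))))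
noncomputable def s16117 : Cert := .r (nat_lit 48627135572824136235642709004369307890738995842079521583160816346776538457153736970336690326011022500665725702742512763861021924168365166289929965086146068385781388933030985334784) (.p (nat_lit 561) (.a (.f (nat_lit 562) (nat_lit 526) (nat_lit 526) (.f (nat_lit 563) (nat_lit 564) (nat_lit 3600) (.d (nat_lit 591) (nat_lit 590) (nat_lit 2606) (nat_lit 594) (nat_lit 2607)))) (.a (.f (nat_lit 625) (nat_lit 496) (nat_lit 7664) (.f (nat_lit 624) (nat_lit 656) (nat_lit 5648) (.f (nat_lit 626) (nat_lit 658) (nat_lit 4625) (.d (nat_lit 591) (nat_lit 590) (nat_lit 590) (nat_lit 627) (nat_lit 3663))))) (.f (nat_lit 625) (nat_lit 496) (nat_lit 7664) (.f (nat_lit 624) (nat_lit 656) (nat_lit 5648) (.f (nat_lit 626) (nat_lit 658) (nat_lit 4625) (.f (nat_lit 627) (nat_lit 628) (nat_lit 3664) (.f (nat_lit 595) (nat_lit 596) (nat_lit 2640) (.f (nat_lit 623) (nat_lit 594) (nat_lit 1615) (.f (nat_lit 622) (nat_lit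 621) (nat_lit 2637) (.d (nat_lit 654) (nat_lit 653) (nat_lit 1645) (nat_lit 655) (nat_lit 1646))))))))))))
noncomputable def s16182 : Cert := .r (nat_lit 56731658168294825607737255613141107013810179889428031153464834568828594729444573193773618155985834598884862200030209617732887453612528789938146517496524903712072759642799558623232) (.p (nat_lit 526) (.a (.f (nat_lit 494) (nat_lit 493) (nat_lit 3565) (.f (nat_lit 559) (nat_lit 623) (nat_lit 7662) (.d (nat_lit 462) (nat_lit 430) (nat_lit 4526) (nat_lit 495) (nat_lit 7630)))) (.a (.f (nat_lit 557) (nat_lit 558) (nat_lit 1549) (.f (nat_lit 525) (nat_lit 556) (nat_lit 1548) (.f (nat_lit 492) (nat_lit 493) (nat_lit 3564) (.f (nat_lit 524) (nat_lit 491) (nat_lit 3563) (.f (nat_lit 621) (nat_lit 589) (nat_lit 7660) (.f (nat_lit 622) (nat_lit 590) (nat_lit 1613) (.d (nat_lit 623) (nat_lit 620) (nat_lit 2636) (nat_lit 624) (nat_lit 2637)))))))) (.a (.f (nat_lit 558) (nat_lit 557) (nat_lit 1549)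 (.f (nat_lit 494) (nat_lit 493) (nat_lit 3565) (.d (nat_lit 559) (nat_lit 462) (nat_lit 4558) (nat_lit 594) (nat_lit 3630)))) (.f (nat_lit 558) (nat_lit 557) (nat_lit 1549) (.f (nat_lit 559) (nat_lit 594) (nat_lit 3630) (.f (nat_lit 495) (nat_lit 624) (nat_lit 4591) (.d (nat_lit 463) (nat_lit 431) (nat_lit 5550) (nat_lit 590) (nat_lit 5582)))))))))
noncomputable def s16219 : Cert := .r (nat_lit 56731658168294825607737255613141107013810179889428031153464834568828594729444573193773618155985834598884862200030209617732887453612528789938146517496524903712072759642799558623232) (.p (nat_lit 559) (.a (.f (nat_lit 623) (nat_lit 496) (nat_lit 6639) (.d (nat_lit 594) (nat_lit 558) (nat_lit 3630) (nat_lit 622) (nat_lit 1614))) (.a (.f (nat_lit 594) (nat_lit 558) (nat_lit 3630) (.f (nat_lit 623) (nat_lit 622) (nat_lit 1614) (.d (nat_lit 624) (nat_lit 495) (nat_lit 4591) (nat_lit 595) (nat_lit 1615)))) (.a (.f (nat_lit 623) (nat_lit 496) (nat_lit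 6639) (.d (nat_lit 622) (nat_lit 594) (nat_lit 1614) (nat_lit 654) (nat_lit 5646))) (.a (.f (nat_lit 495) (nat_lit 624) (nat_lit 4591) (.d (nat_lit 496) (nat_lit 464) (nat_lit 6607) (nat_lit 623) (nat_lit 6639))) (.f (nat_lit 495) (nat_lit 624) (nat_lit 4591) (.f (nat_lit 590) (nat_lit 622) (nat_lit 5614) (.d (nat_lit 558) (nat_lit 463) (nat_lit 5582) (nat_lit 557) (nat_lit 3629)))))))))
noncomputable def s16233 : Cert := .r (nat_lit 56731658168294825607737255613141107013810179889428031153464834568828594729444573193773618155985834598884862200030209617732887453612528789938146517496524903712072759642799558623232) (.p (nat_lit 526) (.a (.f (nat_lit 494) (nat_lit 493) (nat_lit 3565) (.f (nat_lit 559) (nat_lit 623) (nat_lit 7662) (.d (nat_lit 462) (nat_lit 430) (nat_lit 4526) (nat_lit 495) (nat_lit 7630)))) (.a (.f (nat_lit 558) (nat_lit 557) (nat_lit 1549) (.f (nat_lit 494) (nat_lit 493) (nat_lit 3565) (.f (nat_lit 590) (nat_lit 623) (nat_lit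 4590) (.d (nat_lit 495) (nat_lit 463) (nat_lit 6606) (nat_lit 622) (nat_lit 6638))))) (.a (.f (nat_lit 558) (nat_lit 557) (nat_lit 1549) (.f (nat_lit 494) (nat_lit 493) (nat_lit 3565) (.d (nat_lit 559) (nat_lit 462) (nat_lit 4558) (nat_lit 594) (nat_lit 3630)))) (.f (nat_lit 558) (nat_lit 557) (nat_lit 1549) (.f (nat_lit 559) (nat_lit 594) (nat_lit 3630) (.d (nat_lit 623) (nat_lit 496) (nat_lit 6639) (nat_lit 655) (nat_lit 7694))))))))
noncomputable def s16249 : Cert := .r (nat_lit 56731658168294825607737255613141107013810179889428031153464834568828594729444573193773618155985834598884862200030209617732887453612528789938146517496524903712072759642799558623232) (.p (nat_lit 526) (.a (.f (nat_lit 494) (nat_lit 493) (nat_lit 3565) (.f (nat_lit 559) (nat_lit 623) (nat_lit 7662) (.d (nat_lit 462) (nat_lit 430) (nat_lit 4526) (nat_lit 495) (nat_lit 7630)))) (.a (.f (nat_lit 557) (nat_lit 558) (nat_lit 1549) (.f (nat_lit 525) (nat_lit 556) (nat_lit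 1548) (.f (nat_lit 492) (nat_lit 493) (nat_lit 3564) (.f (nat_lit 524) (nat_lit 491) (nat_lit 3563) (.f (nat_lit 621) (nat_lit 589) (nat_lit 7660) (.f (nat_lit 622) (nat_lit 590) (nat_lit 1613) (.d (nat_lit 623) (nat_lit 620) (nat_lit 2636) (nat_lit 624) (nat_lit 2637)))))))) (.a (.f (nat_lit 557) (nat_lit 558) (nat_lit 1549) (.f (nat_lit 525) (nat_lit 556) (nat_lit 1548) (.d (nat_lit 493) (nat_lit 492) (nat_lit 3564) (nat_lit 494) (nat_lit 3565)))) (.f (nat_lit 557) (nat_lit 558) (nat_lit 1549) (.f (nat_lit 556) (nat_lit 525) (nat_lit 1548) (.f (nat_lit 590) (nat_lit 589) (nat_lit 3628) (.f (nat_lit 622) (nat_lit 621) (nat_lit 1613) (.f (nat_lit 559) (nat_lit 495) (nat_lit 5614) (.d (nat_lit 623) (nat_lit 494) (nat_lit 7662) (nat_lit 496) (nat_lit 6639)))))))))))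
noncomputable def s16281 : Cert := .r (nat_lit 48627135572824136235642709004369307890738995842079521583160816346776538457153736970336690326011022500665725702742512763861021924168365166289929965086146068385781388933030985334784) (.p (nat_lit 591) (.a s16219 (.a (.p (nat_lit 559) (.a (.f (nat_lit 594) (nat_lit 558) (nat_lit 3630) (.f (nat_lit 623) (nat_lit 622) (nat_lit 1614) (.d (nat_lit 624) (nat_lit 495) (nat_lit 4591) (nat_lit 595) (nat_lit 1615)))) (.a (.f (nat_lit 594) (nat_lit 558) (nat_lit 3630) (.f (nat_lit 623) (nat_lit 622) (nat_lit 1614) (.d (nat_lit 624) (nat_lit 595) (nat_lit 1615) (nat_lit 656) (nat_lit 4623)))) (.a (.f (nat_lit 558) (nat_lit 594) (nat_lit 3630) (.d (nat_lit 557) (nat_lit 556) (nat_lit 556) (nat_lit 590) (nat_lit 3629))) (.f (nat_lit 624) (nat_lit 495) (nat_lit 4591) (.d (nat_lit 656) (nat_lit 623) (nat_lit 4623) (nat_lit 688) (nat_lit 7727))))))) (.a (.p (nat_lit 561) (.a (.f (nat_lit 590) (nat_lit 562)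 (nat_lit 2606) (.f (nat_lit 625) (nat_lit 626) (nat_lit 590) (.d (nat_lit 624) (nat_lit 589) (nat_lit 589) (nat_lit 656) (nat_lit 5648)))) (.a (.f (nat_lit 625) (nat_lit 496) (nat_lit 7664) (.d (nat_lit 626) (nat_lit 590) (nat_lit 590) (nat_lit 658) (nat_lit 4625))) (.a (.f (nat_lit 562) (nat_lit 590) (nat_lit 2606) (.d (nat_lit 563) (nat_lit 564) (nat_lit 1584) (nat_lit 594) (nat_lit 2607))) (.f (nat_lit 625) (nat_lit 496) (nat_lit 7664) (.f (nat_lit 624) (nat_lit 656) (nat_lit 5648) (.d (nat_lit 626) (nat_lit 627) (nat_lit 3663) (nat_lit 658) (nat_lit 4625)))))))) (.a (.p (nat_lit 561) (.a (.f (nat_lit 625) (nat_lit 496) (nat_lit 7664) (.d (nat_lit 626) (nat_lit 590) (nat_lit 590) (nat_lit 658) (nat_lit 4625))) (.a (.f (nat_lit 562) (nat_lit 590) (nat_lit 2606) (.d (nat_lit 563) (nat_lit 564) (nat_lit 1584) (nat_lit 594) (nat_lit 2607))) (.f (nat_lit 625) (nat_lit 496) (nat_lit 7664) (.f (nat_lit 626) (nat_lit 658) (nat_lit 4625) (.d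 (nat_lit 627) (nat_lit 594) (nat_lit 591) (nat_lit 628) (nat_lit 3664))))))) (.a (.p (nat_lit 561) (.a (.f (nat_lit 590) (nat_lit 562) (nat_lit 2606) (.f (nat_lit 625) (nat_lit 626) (nat_lit 590) (.d (nat_lit 624) (nat_lit 589) (nat_lit 589) (nat_lit 656) (nat_lit 5648)))) (.a (.f (nat_lit 625) (nat_lit 496) (nat_lit 7664) (.d (nat_lit 626) (nat_lit 590) (nat_lit 590) (nat_lit 658) (nat_lit 4625))) (.a (.f (nat_lit 590) (nat_lit 562) (nat_lit 2606) (.f (nat_lit 622) (nat_lit 621) (nat_lit 1613) (.f (nat_lit 559) (nat_lit 495) (nat_lit 5614) (.d (nat_lit 558) (nat_lit 557) (nat_lit 3629) (nat_lit 654) (nat_lit 6670))))) (.f (nat_lit 625) (nat_lit 496) (nat_lit 7664) (.f (nat_lit 624) (nat_lit 656) (nat_lit 5648) (.d (nat_lit 626) (nat_lit 627) (nat_lit 3663) (nat_lit 658) (nat_lit 4625)))))))) (.p (nat_lit 559) (.a (.f (nat_lit 623) (nat_lit 496) (nat_lit 6639) (.d (nat_lit 622) (nat_lit 594) (nat_lit 1614) (nat_lit 654) (nat_lit 5646)))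 (.a (.f (nat_lit 624) (nat_lit 495) (nat_lit 4591) (.d (nat_lit 656) (nat_lit 623) (nat_lit 4623) (nat_lit 688) (nat_lit 7727))) (.f (nat_lit 495) (nat_lit 624) (nat_lit 4591) (.f (nat_lit 494) (nat_lit 462) (nat_lit 7630) (.d (nat_lit 493) (nat_lit 492) (nat_lit 492) (nat_lit 496) (nat_lit 493)))))))))))))
noncomputable def s16286 : Cert := .r (nat_lit 48627135572824136235642709004369307890738995842079521583160816346776538457153736970336690326011022500665725702742512763861021924168365166289929965086146068385781388933030985334784) (.p (nat_lit 561) (.a (.f (nat_lit 625) (nat_lit 496) (nat_lit 7664) (.f (nat_lit 624) (nat_lit 656) (nat_lit 5648) (.f (nat_lit 626) (nat_lit 658) (nat_lit 4625) (.f (nat_lit 627) (nat_lit 628) (nat_lit 3664) (.f (nat_lit 595) (nat_lit 596) (nat_lit 2640) (.f (nat_lit 623) (nat_lit 594) (nat_lit 1615) (.f (nat_lit 622) (nat_lit 621) (nat_lit 2637) (.d (nat_lit 654) (nat_lit 653) (nat_lit 1645) (nat_lit 655)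 (nat_lit 1646))))))))) (.f (nat_lit 526) (nat_lit 562) (nat_lit 526) (.f (nat_lit 493) (nat_lit 494) (nat_lit 3565) (.f (nat_lit 525) (nat_lit 492) (nat_lit 3564) (.d (nat_lit 557) (nat_lit 556) (nat_lit 1548) (nat_lit 558) (nat_lit 1549)))))))
noncomputable def s16303 : Cert := .r (nat_lit 48627135572824136235642709004369307890738995842079521583160816346776538457153736970336690326011022500665725702742512763861021924168365166289929965086146068385781388933030985334784) (.p (nat_lit 561) (.a (.f (nat_lit 562) (nat_lit 526) (nat_lit 526) (.f (nat_lit 563) (nat_lit 564) (nat_lit 3600) (.d (nat_lit 591) (nat_lit 590) (nat_lit 2606) (nat_lit 594) (nat_lit 2607)))) (.a (.f (nat_lit 625) (nat_lit 496) (nat_lit 7664) (.f (nat_lit 626) (nat_lit 658) (nat_lit 4625) (.f (nat_lit 591) (nat_lit 590) (nat_lit 590) (.d (nat_lit 627) (nat_lit 594) (nat_lit 591) (nat_lit 628) (nat_lit 3664))))) (.f (nat_lit 526) (nat_lit 562) (nat_lit 526) (.f (nat_lit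 493) (nat_lit 494) (nat_lit 3565) (.f (nat_lit 525) (nat_lit 492) (nat_lit 3564) (.d (nat_lit 557) (nat_lit 556) (nat_lit 1548) (nat_lit 558) (nat_lit 1549))))))))
noncomputable def s16317 : Cert := .r (nat_lit 48627135572824136235862382529493487401618416667650126166113438276381124230254359801030627707879747494333647611243679309620295406132892553747117868702137000987783757838346667163648) (.p (nat_lit 525) (.a (.d (nat_lit 493) (nat_lit 492) (nat_lit 3564) (nat_lit 494) (nat_lit 3565)) (.a (.f (nat_lit 492) (nat_lit 493) (nat_lit 3564) (.f (nat_lit 524) (nat_lit 491) (nat_lit 3563) (.d (nat_lit 556) (nat_lit 555) (nat_lit 1547) (nat_lit 557) (nat_lit 1548)))) (.a (.f (nat_lit 556) (nat_lit 557) (nat_lit 1548) (.f (nat_lit 524) (nat_lit 555) (nat_lit 1547) (.f (nat_lit 491) (nat_lit 492) (nat_lit 3563) (.f (nat_lit 523) (nat_lit 490) (nat_lit 3562) (.d (nat_lit 495) (nat_lit 494) (nat_lit 2539) (nat_lit 496) (nat_lit 2540)))))) (.f (nat_lit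 494) (nat_lit 493) (nat_lit 3565) (.f (nat_lit 556) (nat_lit 557) (nat_lit 1548) (.f (nat_lit 524) (nat_lit 555) (nat_lit 1547) (.d (nat_lit 495) (nat_lit 496) (nat_lit 2540) (nat_lit 523) (nat_lit 2539)))))))))
noncomputable def s16380 : Cert := .r (nat_lit 56731658168294825607737255613141107013810179889428031153464834568828594729444573193773618155985834598884862200030209617732887453612528789938146517496524903712072759642799558623232) (.p (nat_lit 594) (.a (.f (nat_lit 622) (nat_lit 623) (nat_lit 1614) (.f (nat_lit 590) (nat_lit 621) (nat_lit 1613) (.d (nat_lit 626) (nat_lit 625) (nat_lit 590) (nat_lit 627) (nat_lit 591)))) (.a (.f (nat_lit 623) (nat_lit 622) (nat_lit 1614) (.f (nat_lit 595) (nat_lit 624) (nat_lit 1615) (.d (nat_lit 563) (nat_lit 562) (nat_lit 2607) (nat_lit 564) (nat_lit 2608)))) (.a (.f (nat_lit 626) (nat_lit 627) (nat_lit 591) (.f (nat_lit 590) (nat_lit 625) (nat_lit 590) (.f (nat_lit 557) (nat_lit 558) (nat_lit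 3629) (.f (nat_lit 589) (nat_lit 556) (nat_lit 3628) (.d (nat_lit 621) (nat_lit 620) (nat_lit 1612) (nat_lit 622) (nat_lit 1613)))))) (.f (nat_lit 626) (nat_lit 627) (nat_lit 591) (.f (nat_lit 625) (nat_lit 590) (nat_lit 590) (.f (nat_lit 563) (nat_lit 562) (nat_lit 2607) (.f (nat_lit 595) (nat_lit 564) (nat_lit 2608) (.d (nat_lit 596) (nat_lit 597) (nat_lit 1617) (nat_lit 624) (nat_lit 1616))))))))))
noncomputable def s16390 : Cert := .r (nat_lit 56731658168294825607737255613141107013810179889428031153464834568828594729444573193773618155985834598884862200030209617732887453612528789938146517496524903712072759642799558623232) (.p (nat_lit 594) (.a (.f (nat_lit 622) (nat_lit 623) (nat_lit 1614) (.f (nat_lit 590) (nat_lit 621) (nat_lit 1613) (.d (nat_lit 626) (nat_lit 625) (nat_lit 590) (nat_lit 627) (nat_lit 591)))) (.a (.f (nat_lit 562) (nat_lit 563) (nat_lit 2607) (.f (nat_lit 561) (nat_lit 590) (nat_lit 2606) (.d (nat_lit 497) (nat_lit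 465) (nat_lit 4561) (nat_lit 626) (nat_lit 4593)))) (.a (.f (nat_lit 626) (nat_lit 627) (nat_lit 591) (.f (nat_lit 561) (nat_lit 497) (nat_lit 4593) (.d (nat_lit 562) (nat_lit 563) (nat_lit 2607) (nat_lit 658) (nat_lit 7697)))) (.f (nat_lit 562) (nat_lit 563) (nat_lit 2607) (.f (nat_lit 590) (nat_lit 561) (nat_lit 2606) (.d (nat_lit 558) (nat_lit 557) (nat_lit 3629) (nat_lit 559) (nat_lit 3630))))))))
noncomputable def s16440 : Cert := .r (nat_lit 48627135572824136235642709004369307890738995842079521583160816346776538457153736970336690326011022500665725702742512763861021924168365166289929965086146068385781388933030985334784) (.p (nat_lit 591) (.a (.p (nat_lit 561) (.a (.f (nat_lit 625) (nat_lit 496) (nat_lit 7664) (.d (nat_lit 626) (nat_lit 590) (nat_lit 590) (nat_lit 658) (nat_lit 4625))) (.a (.f (nat_lit 562) (nat_lit 590) (nat_lit 2606) (.d (nat_lit 563) (nat_lit 564) (nat_lit 1584) (nat_lit 594) (nat_lit 2607))) (.f (nat_lit 625)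 (nat_lit 496) (nat_lit 7664) (.f (nat_lit 626) (nat_lit 658) (nat_lit 4625) (.d (nat_lit 627) (nat_lit 594) (nat_lit 591) (nat_lit 628) (nat_lit 3664))))))) (.a s16390 (.a (.p (nat_lit 559) (.a (.f (nat_lit 623) (nat_lit 496) (nat_lit 6639) (.d (nat_lit 594) (nat_lit 558) (nat_lit 3630) (nat_lit 622) (nat_lit 1614))) (.a (.f (nat_lit 558) (nat_lit 594) (nat_lit 3630) (.d (nat_lit 557) (nat_lit 556) (nat_lit 556) (nat_lit 590) (nat_lit 3629))) (.a (.f (nat_lit 623) (nat_lit 496) (nat_lit 6639) (.d (nat_lit 622) (nat_lit 594) (nat_lit 1614) (nat_lit 654) (nat_lit 5646))) (.f (nat_lit 623) (nat_lit 496) (nat_lit 6639) (.f (nat_lit 622) (nat_lit 654) (nat_lit 5646) (.d (nat_lit 590) (nat_lit 495) (nat_lit 5614) (nat_lit 621) (nat_lit 1613)))))))) (.a (.p (nat_lit 561) (.a (.f (nat_lit 625) (nat_lit 496) (nat_lit 7664) (.d (nat_lit 626) (nat_lit 590) (nat_lit 590) (nat_lit 658) (nat_lit 4625))) (.a (.f (nat_lit 590) (nat_lit 562) (nat_lit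 2606) (.f (nat_lit 622) (nat_lit 621) (nat_lit 1613) (.f (nat_lit 559) (nat_lit 495) (nat_lit 5614) (.d (nat_lit 558) (nat_lit 557) (nat_lit 3629) (nat_lit 654) (nat_lit 6670))))) (.f (nat_lit 496) (nat_lit 625) (nat_lit 7664) (.f (nat_lit 497) (nat_lit 464) (nat_lit 7632) (.d (nat_lit 498) (nat_lit 466) (nat_lit 6609) (nat_lit 499) (nat_lit 1519))))))) (.p (nat_lit 559) (.a (.f (nat_lit 623) (nat_lit 496) (nat_lit 6639) (.d (nat_lit 594) (nat_lit 558) (nat_lit 3630) (nat_lit 622) (nat_lit 1614))) (.a (.f (nat_lit 594) (nat_lit 558) (nat_lit 3630) (.f (nat_lit 626) (nat_lit 627) (nat_lit 591) (.f (nat_lit 561) (nat_lit 497) (nat_lit 4593) (.d (nat_lit 562) (nat_lit 563) (nat_lit 2607) (nat_lit 658) (nat_lit 7697))))) (.a (.f (nat_lit 623) (nat_lit 496) (nat_lit 6639) (.d (nat_lit 622) (nat_lit 594) (nat_lit 1614) (nat_lit 654) (nat_lit 5646))) (.f (nat_lit 496) (nat_lit 623) (nat_lit 6639) (.f (nat_lit 495) (nat_lit 464) (nat_lit 6607)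 (.d (nat_lit 494) (nat_lit 462) (nat_lit 7630) (nat_lit 493) (nat_lit 493)))))))))))))
noncomputable def s16475 : Cert := .r (nat_lit 16209045198489303596907605273765220560430797434519325742777624315320725968481640401373276710284027558144497248674662098435087496191251840956913340709753595583481298181255482834944) (.p (nat_lit 593) (.a (.f (nat_lit 562) (nat_lit 526) (nat_lit 526) (.f (nat_lit 563) (nat_lit 564) (nat_lit 3600) (.d (nat_lit 591) (nat_lit 590) (nat_lit 2606) (nat_lit 594) (nat_lit 2607)))) (.a (.f (nat_lit 625) (nat_lit 496) (nat_lit 7664) (.f (nat_lit 624) (nat_lit 656) (nat_lit 5648) (.f (nat_lit 626) (nat_lit 658) (nat_lit 4625) (.d (nat_lit 591) (nat_lit 590) (nat_lit 590) (nat_lit 627) (nat_lit 3663))))) (.f (nat_lit 625) (nat_lit 496) (nat_lit 7664) (.f (nat_lit 624) (nat_lit 656) (nat_lit 5648) (.f (nat_lit 626) (nat_lit 658) (nat_lit 4625) (.f (nat_lit 627) (nat_lit 628) (nat_lit 3664) (.f (nat_lit 595) (nat_lit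 596) (nat_lit 2640) (.f (nat_lit 623) (nat_lit 594) (nat_lit 1615) (.f (nat_lit 622) (nat_lit 621) (nat_lit 2637) (.d (nat_lit 654) (nat_lit 653) (nat_lit 1645) (nat_lit 655) (nat_lit 1646))))))))))))
noncomputable def s16476 : Cert := .r (nat_lit 16209045198489303596907605273765220560430797434519325742777624315320725968481640401373276710284027558144497248674662098435087496191251840956913340709753595583481298181255482834944) (.p (nat_lit 593) (.a (.f (nat_lit 625) (nat_lit 496) (nat_lit 7664) (.d (nat_lit 624) (nat_lit 497) (nat_lit 5616) (nat_lit 656) (nat_lit 5648))) (.a (.f (nat_lit 497) (nat_lit 624) (nat_lit 5616) (.f (nat_lit 594) (nat_lit 626) (nat_lit 4593) (.f (nat_lit 562) (nat_lit 465) (nat_lit 4561) (.d (nat_lit 563) (nat_lit 564) (nat_lit 1584) (nat_lit 591) (nat_lit 2607))))) (.a (.f (nat_lit 625) (nat_lit 496) (nat_lit 7664) (.f (nat_lit 624) (nat_lit 656) (nat_lit 5648) (.f (nat_lit 626) (nat_lit 658) (nat_lit 4625) (.d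 (nat_lit 591) (nat_lit 590) (nat_lit 590) (nat_lit 627) (nat_lit 3663))))) (.f (nat_lit 625) (nat_lit 496) (nat_lit 7664) (.f (nat_lit 626) (nat_lit 658) (nat_lit 4625) (.f (nat_lit 591) (nat_lit 590) (nat_lit 590) (.d (nat_lit 627) (nat_lit 594) (nat_lit 591) (nat_lit 628) (nat_lit 3664)))))))))
noncomputable def s16481 : Cert := .r (nat_lit 16209045198489303596907605273765220560430797434519325742777624315320725968481640401373276710284027558144497248674662098435087496191251840956913340709753595583481298181255482834944) (.p (nat_lit 593) (.a (.f (nat_lit 625) (nat_lit 496) (nat_lit 7664) (.d (nat_lit 624) (nat_lit 497) (nat_lit 5616) (nat_lit 656) (nat_lit 5648))) (.a (.f (nat_lit 624) (nat_lit 497) (nat_lit 5616) (.d (nat_lit 656) (nat_lit 625) (nat_lit 5648) (nat_lit 688) (nat_lit 6704))) (.a (.f (nat_lit 625) (nat_lit 496) (nat_lit 7664) (.f (nat_lit 624) (nat_lit 656) (nat_lit 5648) (.f (nat_lit 626) (nat_lit 658) (nat_lit 4625)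 (.d (nat_lit 591) (nat_lit 590) (nat_lit 590) (nat_lit 627) (nat_lit 3663))))) (.a (.f (nat_lit 625) (nat_lit 496) (nat_lit 7664) (.f (nat_lit 626) (nat_lit 658) (nat_lit 4625) (.f (nat_lit 591) (nat_lit 590) (nat_lit 590) (.d (nat_lit 627) (nat_lit 594) (nat_lit 591) (nat_lit 628) (nat_lit 3664))))) (.f (nat_lit 497) (nat_lit 624) (nat_lit 5616) (.f (nat_lit 498) (nat_lit 466) (nat_lit 6609) (.d (nat_lit 496) (nat_lit 464) (nat_lit 7632) (nat_lit 499) (nat_lit 1519)))))))))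
noncomputable def s16482 : Cert := .r (nat_lit 16209045190941378747264522569282111398454259652685483301944743458568313367990392076588979006111774107789179713591725348373559806391710671697063755444630727080615906093956692180992) (.p (nat_lit 561) (.a (.f (nat_lit 526) (nat_lit 562) (nat_lit 526) (.f (nat_lit 497) (nat_lit 498) (nat_lit 2542) (.f (nat_lit 593) (nat_lit 624) (nat_lit 5616) (.d (nat_lit 496) (nat_lit 464) (nat_lit 7632) (nat_lit 525) (nat_lit 2541))))) (.a (.f (nat_lit 526) (nat_lit 562) (nat_lit 526) (.f (nat_lit 497) (nat_lit 498) (nat_lit 2542) (.f (nat_lit 593) (nat_lit 624) (nat_lit 5616) (.f (nat_lit 626) (nat_lit 594) (nat_lit 4593) (.f (nat_lit 625) (nat_lit 658) (nat_lit 4625) (.f (nat_lit 494) (nat_lit 493) (nat_lit 3565) (.f (nat_lit 591) (nat_lit 590) (nat_lit 590) (.f (nat_lit 559) (nat_lit 623) (nat_lit 7662) (.d (nat_lit 462) (nat_lit 430) (nat_lit 4526) (nat_lit 495) (nat_lit 7630)))))))))) (.a s16475 (.a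 s16476 (.a (.f (nat_lit 526) (nat_lit 562) (nat_lit 526) (.f (nat_lit 497) (nat_lit 498) (nat_lit 2542) (.f (nat_lit 525) (nat_lit 496) (nat_lit 2541) (.d (nat_lit 493) (nat_lit 492) (nat_lit 3564) (nat_lit 494) (nat_lit 3565))))) s16481))))))
noncomputable def s16497 : Cert := .r (nat_lit 16209045190941378747264522569282111398454259652685483301944743458568313367990392076588979006111774107789179713591725348373559806391710671697063755444630727080615906093956692180992) (.p (nat_lit 561) (.a (.f (nat_lit 526) (nat_lit 562) (nat_lit 526) (.f (nat_lit 497) (nat_lit 498) (nat_lit 2542) (.f (nat_lit 593) (nat_lit 624) (nat_lit 5616) (.d (nat_lit 496) (nat_lit 464) (nat_lit 7632) (nat_lit 525) (nat_lit 2541))))) (.a (.f (nat_lit 526) (nat_lit 562) (nat_lit 526) (.f (nat_lit 497) (nat_lit 498) (nat_lit 2542) (.f (nat_lit 593) (nat_lit 624) (nat_lit 5616) (.f (nat_lit 626) (nat_lit 594) (nat_lit 4593) (.f (nat_lit 625) (nat_lit 658) (nat_lit 4625)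 (.f (nat_lit 558) (nat_lit 557) (nat_lit 1549) (.f (nat_lit 590) (nat_lit 591) (nat_lit 590) (.f (nat_lit 622) (nat_lit 495) (nat_lit 6638) (.f (nat_lit 654) (nat_lit 559) (nat_lit 6670) (.d (nat_lit 653) (nat_lit 621) (nat_lit 5645) (nat_lit 685) (nat_lit 5677))))))))))) (.a s16475 (.a s16476 (.a (.f (nat_lit 526) (nat_lit 562) (nat_lit 526) (.f (nat_lit 497) (nat_lit 498) (nat_lit 2542) (.f (nat_lit 525) (nat_lit 496) (nat_lit 2541) (.d (nat_lit 557) (nat_lit 556) (nat_lit 1548) (nat_lit 558) (nat_lit 1549))))) s16481))))))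
noncomputable def s16505 : Cert := .r (nat_lit 56731658168294825607297908562892747992051338238286821987559590709619423183243327532385743392248384611549018383027876526214340489683474015023770710264543038508068021832168194965504) (.p (nat_lit 594) (.a (.f (nat_lit 563) (nat_lit 562) (nat_lit 2607) (.f (nat_lit 595) (nat_lit 564) (nat_lit 2608) (.d (nat_lit 623) (nat_lit 622) (nat_lit 1614) (nat_lit 624) (nat_lit 1615)))) (.a (.f (nat_lit 623) (nat_lit 622) (nat_lit 1614) (.f (nat_lit 595) (nat_lit 624) (nat_lit 1615) (.d (nat_lit 627) (nat_lit 626) (nat_lit 591) (nat_lit 628) (nat_lit 592)))) (.a (.f (nat_lit 563) (nat_lit 562) (nat_lit 2607) (.f (nat_lit 595) (nat_lit 564) (nat_lit 2608) (.d (nat_lit 627) (nat_lit 626) (nat_lit 591) (nat_lit 628) (nat_lit 592)))) (.f (nat_lit 626) (nat_lit 627) (nat_lit 591) (.f (nat_lit 561) (nat_lit 497) (nat_lit 4593) (.d (nat_lit 562) (nat_lit 563) (nat_lit 2607) (nat_lit 658) (nat_lit 7697))))))))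
noncomputable def s16516 : Cert := .r (nat_lit 48627135572824136235203361954120948868980154190938312417255572487567366910952491308948815562273572513329881885740179672342474960239310391375554157854164203181776651122399621677056) (.p (nat_lit 591) (.a (.p (nat_lit 594) (.a (.f (nat_lit 559) (nat_lit 558) (nat_lit 3630) (.f (nat_lit 560) (nat_lit 595) (nat_lit 3631) (.d (nat_lit 623) (nat_lit 622) (nat_lit 1614) (nat_lit 655) (nat_lit 6671)))) (.f (nat_lit 562) (nat_lit 563) (nat_lit 2607) (.f (nat_lit 626) (nat_lit 627) (nat_lit 591) (.d (nat_lit 561) (nat_lit 590) (nat_lit 2606) (nat_lit 658) (nat_lit 7697)))))) (.a (.p (nat_lit 594) (.a (.f (nat_lit 562) (nat_lit 563) (nat_lit 2607) (.f (nat_lit 626) (nat_lit 627) (nat_lit 591) (.d (nat_lit 561) (nat_lit 590) (nat_lit 2606) (nat_lit 658) (nat_lit 7697)))) (.a (.f (nat_lit 622) (nat_lit 623) (nat_lit 1614) (.f (nat_lit 590) (nat_lit 621) (nat_lit 1613) (.d (nat_lit 558) (nat_lit 557)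 (nat_lit 3629) (nat_lit 559) (nat_lit 3630)))) (.f (nat_lit 563) (nat_lit 562) (nat_lit 2607) (.f (nat_lit 595) (nat_lit 564) (nat_lit 2608) (.d (nat_lit 623) (nat_lit 622) (nat_lit 1614) (nat_lit 624) (nat_lit 1615))))))) (.a s14982 (.a s14988 (.a s14994 (.a (.p (nat_lit 590) (.a (.f (nat_lit 561) (nat_lit 562) (nat_lit 2606) (.f (nat_lit 625) (nat_lit 626) (nat_lit 590) (.d (nat_lit 560) (nat_lit 589) (nat_lit 2605) (nat_lit 657) (nat_lit 7696)))) (.a (.f (nat_lit 625) (nat_lit 626) (nat_lit 590) (.f (nat_lit 561) (nat_lit 562) (nat_lit 2606) (.d (nat_lit 624) (nat_lit 589) (nat_lit 589) (nat_lit 656) (nat_lit 5648)))) (.a (.f (nat_lit 625) (nat_lit 626) (nat_lit 590) (.f (nat_lit 589) (nat_lit 624) (nat_lit 589) (.d (nat_lit 557) (nat_lit 556) (nat_lit 3628) (nat_lit 558) (nat_lit 3629)))) (.a (.f (nat_lit 557) (nat_lit 558) (nat_lit 3629) (.f (nat_lit 589) (nat_lit 556) (nat_lit 3628) (.d (nat_lit 621) (nat_lit 620) (nat_lit 1612)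 (nat_lit 622) (nat_lit 1613)))) (.f (nat_lit 561) (nat_lit 562) (nat_lit 2606) (.f (nat_lit 625) (nat_lit 626) (nat_lit 590) (.f (nat_lit 560) (nat_lit 657) (nat_lit 7696) (.f (nat_lit 624) (nat_lit 656) (nat_lit 5648) (.f (nat_lit 623) (nat_lit 655) (nat_lit 5647) (.f (nat_lit 622) (nat_lit 621) (nat_lit 1613) (.f (nat_lit 527) (nat_lit 495) (nat_lit 7663) (.d (nat_lit 654) (nat_lit 559) (nat_lit 5646) (nat_lit 653) (nat_lit 1645)))))))))))))) (.a s15016 s15023))))))))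
noncomputable def s16533 : Cert := .r (nat_lit 113463316336589651211959734824295341853549626569726388979687718263983817089279181096444238202072069299082973864041754503317399195792619380561286577137194885792107616800548207984640) (.p (nat_lit 591) (.a (.f (nat_lit 622) (nat_lit 623) (nat_lit 1614) (.f (nat_lit 590) (nat_lit 621) (nat_lit 1613) (.d (nat_lit 558) (nat_lit 557) (nat_lit 3629) (nat_lit 559) (nat_lit 3630)))) (.a (.f (nat_lit 622) (nat_lit 623) (nat_lit 1614) (.f (nat_lit 590) (nat_lit 621) (nat_lit 1613) (.d (nat_lit 626) (nat_lit 625) (nat_lit 590) (nat_lit 627) (nat_lit 591)))) (.a (.f (nat_lit 626) (nat_lit 627) (nat_lit 591) (.f (nat_lit 590) (nat_lit 625) (nat_lit 590) (.d (nat_lit 558) (nat_lit 557) (nat_lit 3629) (nat_lit 559) (nat_lit 3630)))) (.f (nat_lit 559) (nat_lit 558) (nat_lit 3630) (.f (nat_lit 623) (nat_lit 622) (nat_lit 1614) (.f (nat_lit 655) (nat_lit 560) (nat_lit 6671) (.f (nat_lit 688) (nat_lit 656)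 (nat_lit 4655) (.f (nat_lit 687) (nat_lit 720) (nat_lit 4687) (.d (nat_lit 686) (nat_lit 654) (nat_lit 5678) (nat_lit 718) (nat_lit 5710)))))))))))
noncomputable def s16554 : Cert := .r (nat_lit 56731658168294825607297908562892747992051338238286821987559590709619423183243327532385743392248384611549018383027876526214340489683474015023770710264543038508068021832168194965504) (.p (nat_lit 594) (.a (.f (nat_lit 562) (nat_lit 563) (nat_lit 2607) (.f (nat_lit 626) (nat_lit 627) (nat_lit 591) (.d (nat_lit 561) (nat_lit 590) (nat_lit 2606) (nat_lit 658) (nat_lit 7697)))) (.a (.f (nat_lit 563) (nat_lit 562) (nat_lit 2607) (.f (nat_lit 595) (nat_lit 564) (nat_lit 2608) (.d (nat_lit 627) (nat_lit 626) (nat_lit 591) (nat_lit 628) (nat_lit 592)))) (.a (.f (nat_lit 626) (nat_lit 627) (nat_lit 591) (.f (nat_lit 561) (nat_lit 497) (nat_lit 4593) (.d (nat_lit 625) (nat_lit 590) (nat_lit 590) (nat_lit 658) (nat_lit 4625)))) (.f (nat_lit 562) (nat_lit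 563) (nat_lit 2607) (.f (nat_lit 590) (nat_lit 561) (nat_lit 2606) (.d (nat_lit 622) (nat_lit 621) (nat_lit 1613) (nat_lit 623) (nat_lit 1614))))))))
noncomputable def s16564 : Cert := .r (nat_lit 56731658168294825607297908562892747992051338238286821987559590709619423183243327532385743392248384611549018383027876526214340489683474015023770710264543038508068021832168194965504) (.p (nat_lit 590) (.a (.f (nat_lit 561) (nat_lit 562) (nat_lit 2606) (.f (nat_lit 625) (nat_lit 626) (nat_lit 590) (.d (nat_lit 560) (nat_lit 589) (nat_lit 2605) (nat_lit 657) (nat_lit 7696)))) (.a (.f (nat_lit 557) (nat_lit 558) (nat_lit 3629) (.f (nat_lit 589) (nat_lit 556) (nat_lit 3628) (.d (nat_lit 621) (nat_lit 620) (nat_lit 1612) (nat_lit 622) (nat_lit 1613)))) (.f (nat_lit 561) (nat_lit 562) (nat_lit 2606) (.f (nat_lit 625) (nat_lit 626) (nat_lit 590) (.f (nat_lit 560) (nat_lit 657) (nat_lit 7696) (.f (nat_lit 558) (nat_lit 557) (nat_lit 3629) (.f (nat_lit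 622) (nat_lit 621) (nat_lit 1613) (.f (nat_lit 497) (nat_lit 465) (nat_lit 5584) (.f (nat_lit 498) (nat_lit 466) (nat_lit 6609) (.f (nat_lit 526) (nat_lit 527) (nat_lit 2542) (.d (nat_lit 525) (nat_lit 493) (nat_lit 7661) (nat_lit 559) (nat_lit 3597)))))))))))))
noncomputable def s16565 : Cert := .r (nat_lit 56731658168294825607297908562892747992051338238286821987559590709619423183243327532385743392248384611549018383027876526214340489683474015023770710264543038508068021832168194965504) (.p (nat_lit 594) (.a (.f (nat_lit 559) (nat_lit 558) (nat_lit 3630) (.f (nat_lit 560) (nat_lit 595) (nat_lit 3631) (.d (nat_lit 623) (nat_lit 622) (nat_lit 1614) (nat_lit 655) (nat_lit 6671)))) (.a (.f (nat_lit 622) (nat_lit 623) (nat_lit 1614) (.f (nat_lit 590) (nat_lit 621) (nat_lit 1613) (.d (nat_lit 558) (nat_lit 557) (nat_lit 3629) (nat_lit 559) (nat_lit 3630)))) (.a (.f (nat_lit 562) (nat_lit 563) (nat_lit 2607) (.f (nat_lit 590) (nat_lit 561) (nat_lit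 2606) (.d (nat_lit 622) (nat_lit 621) (nat_lit 1613) (nat_lit 623) (nat_lit 1614)))) (.f (nat_lit 559) (nat_lit 558) (nat_lit 3630) (.f (nat_lit 595) (nat_lit 560) (nat_lit 3631) (.d (nat_lit 563) (nat_lit 562) (nat_lit 2607) (nat_lit 564) (nat_lit 2608))))))))
noncomputable def s16568 : Cert := .r (nat_lit 48627135572824136235203361954120948868980154190938312417255572487567366910952491308948815562273572513329881885740179672342474960239310391375554157854164203181776651122399621677056) (.p (nat_lit 591) (.a (.p (nat_lit 594) (.a (.f (nat_lit 559) (nat_lit 558) (nat_lit 3630) (.f (nat_lit 560) (nat_lit 595) (nat_lit 3631) (.d (nat_lit 623) (nat_lit 622) (nat_lit 1614) (nat_lit 655) (nat_lit 6671)))) (.f (nat_lit 562) (nat_lit 563) (nat_lit 2607) (.f (nat_lit 626) (nat_lit 627) (nat_lit 591) (.d (nat_lit 561) (nat_lit 590) (nat_lit 2606) (nat_lit 658) (nat_lit 7697)))))) (.a (.p (nat_lit 594) (.a (.f (nat_lit 562) (nat_lit 563) (nat_lit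 2607) (.f (nat_lit 626) (nat_lit 627) (nat_lit 591) (.d (nat_lit 561) (nat_lit 590) (nat_lit 2606) (nat_lit 658) (nat_lit 7697)))) (.a (.f (nat_lit 622) (nat_lit 623) (nat_lit 1614) (.f (nat_lit 590) (nat_lit 621) (nat_lit 1613) (.d (nat_lit 558) (nat_lit 557) (nat_lit 3629) (nat_lit 559) (nat_lit 3630)))) (.f (nat_lit 563) (nat_lit 562) (nat_lit 2607) (.f (nat_lit 595) (nat_lit 564) (nat_lit 2608) (.d (nat_lit 623) (nat_lit 622) (nat_lit 1614) (nat_lit 624) (nat_lit 1615))))))) (.a s14982 (.a s15128 (.a s15136 (.a s15140 (.a (.p (nat_lit 561) (.a (.f (nat_lit 590) (nat_lit 562) (nat_lit 2606) (.f (nat_lit 557) (nat_lit 558) (nat_lit 3629) (.f (nat_lit 589) (nat_lit 556) (nat_lit 3628) (.d (nat_lit 621) (nat_lit 620) (nat_lit 1612) (nat_lit 622) (nat_lit 1613))))) (.f (nat_lit 497) (nat_lit 624) (nat_lit 5616) (.f (nat_lit 465) (nat_lit 560) (nat_lit 5584) (.d (nat_lit 466) (nat_lit 434) (nat_lit 6577) (nat_lit 498) (nat_lit 6609))))))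 (.a s15023 (.p (nat_lit 561) (.a (.f (nat_lit 562) (nat_lit 590) (nat_lit 2606) (.d (nat_lit 563) (nat_lit 564) (nat_lit 1584) (nat_lit 594) (nat_lit 2607))) (.f (nat_lit 497) (nat_lit 624) (nat_lit 5616) (.f (nat_lit 465) (nat_lit 560) (nat_lit 5584) (.d (nat_lit 466) (nat_lit 434) (nat_lit 6577) (nat_lit 498) (nat_lit 6609)))))))))))))))
noncomputable def s16578 : Cert := .r (nat_lit 16209045190941378746825175519033752376695418001544274136039499599359141821789146415201104242374324120453335896589392256855012842462655896782687948212648861876611168283325328523264) (.p (nat_lit 593) (.a s15079 (.a (.p (nat_lit 591) (.a (.p (nat_lit 594) (.a (.f (nat_lit 562) (nat_lit 563) (nat_lit 2607) (.f (nat_lit 626) (nat_lit 627) (nat_lit 591) (.d (nat_lit 561) (nat_lit 590) (nat_lit 2606) (nat_lit 658) (nat_lit 7697)))) (.a (.f (nat_lit 622) (nat_lit 623) (nat_lit 1614) (.f (nat_lit 590) (nat_lit 621) (nat_lit 1613) (.d (nat_lit 558) (nat_lit 557)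 (nat_lit 3629) (nat_lit 559) (nat_lit 3630)))) (.f (nat_lit 563) (nat_lit 562) (nat_lit 2607) (.f (nat_lit 595) (nat_lit 564) (nat_lit 2608) (.d (nat_lit 623) (nat_lit 622) (nat_lit 1614) (nat_lit 624) (nat_lit 1615))))))) (.a (.p (nat_lit 594) (.a (.f (nat_lit 622) (nat_lit 623) (nat_lit 1614) (.f (nat_lit 590) (nat_lit 621) (nat_lit 1613) (.d (nat_lit 558) (nat_lit 557) (nat_lit 3629) (nat_lit 559) (nat_lit 3630)))) (.a (.f (nat_lit 563) (nat_lit 562) (nat_lit 2607) (.f (nat_lit 595) (nat_lit 564) (nat_lit 2608) (.d (nat_lit 623) (nat_lit 622) (nat_lit 1614) (nat_lit 624) (nat_lit 1615)))) (.f (nat_lit 626) (nat_lit 627) (nat_lit 591) (.f (nat_lit 590) (nat_lit 625) (nat_lit 590) (.d (nat_lit 558) (nat_lit 557) (nat_lit 3629) (nat_lit 559) (nat_lit 3630))))))) (.a (.p (nat_lit 561) (.a (.f (nat_lit 590) (nat_lit 562) (nat_lit 2606) (.f (nat_lit 625) (nat_lit 626) (nat_lit 590) (.d (nat_lit 624) (nat_lit 589) (nat_lit 589) (nat_lit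 656) (nat_lit 5648)))) (.a (.f (nat_lit 624) (nat_lit 497) (nat_lit 5616) (.d (nat_lit 656) (nat_lit 625) (nat_lit 5648) (nat_lit 688) (nat_lit 6704))) (.f (nat_lit 590) (nat_lit 562) (nat_lit 2606) (.f (nat_lit 557) (nat_lit 558) (nat_lit 3629) (.f (nat_lit 589) (nat_lit 556) (nat_lit 3628) (.d (nat_lit 621) (nat_lit 620) (nat_lit 1612) (nat_lit 622) (nat_lit 1613)))))))) (.a (.p (nat_lit 594) (.a (.f (nat_lit 622) (nat_lit 623) (nat_lit 1614) (.f (nat_lit 590) (nat_lit 621) (nat_lit 1613) (.d (nat_lit 558) (nat_lit 557) (nat_lit 3629) (nat_lit 559) (nat_lit 3630)))) (.a (.f (nat_lit 623) (nat_lit 622) (nat_lit 1614) (.f (nat_lit 595) (nat_lit 624) (nat_lit 1615) (.d (nat_lit 627) (nat_lit 626) (nat_lit 591) (nat_lit 628) (nat_lit 592)))) (.f (nat_lit 626) (nat_lit 627) (nat_lit 591) (.f (nat_lit 590) (nat_lit 625) (nat_lit 590) (.d (nat_lit 558) (nat_lit 557) (nat_lit 3629) (nat_lit 559) (nat_lit 3630))))))) (.a (.p (nat_lit 594) (.a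 (.f (nat_lit 562) (nat_lit 563) (nat_lit 2607) (.f (nat_lit 626) (nat_lit 627) (nat_lit 591) (.d (nat_lit 561) (nat_lit 590) (nat_lit 2606) (nat_lit 658) (nat_lit 7697)))) (.a (.f (nat_lit 622) (nat_lit 623) (nat_lit 1614) (.f (nat_lit 590) (nat_lit 621) (nat_lit 1613) (.d (nat_lit 558) (nat_lit 557) (nat_lit 3629) (nat_lit 559) (nat_lit 3630)))) (.f (nat_lit 563) (nat_lit 562) (nat_lit 2607) (.f (nat_lit 595) (nat_lit 564) (nat_lit 2608) (.d (nat_lit 627) (nat_lit 626) (nat_lit 591) (nat_lit 628) (nat_lit 592))))))) (.a (.p (nat_lit 561) (.a (.f (nat_lit 562) (nat_lit 590) (nat_lit 2606) (.d (nat_lit 563) (nat_lit 564) (nat_lit 1584) (nat_lit 594) (nat_lit 2607))) (.f (nat_lit 624) (nat_lit 497) (nat_lit 5616) (.d (nat_lit 656) (nat_lit 625) (nat_lit 5648) (nat_lit 688) (nat_lit 6704))))) s16505))))))) (.a s16516 (.a (.p (nat_lit 594) (.a (.p (nat_lit 560) (.a (.f (nat_lit 624) (nat_lit 497) (nat_lit 6640) (.d (nat_lit 595) (nat_lit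 559) (nat_lit 3631) (nat_lit 623) (nat_lit 1615))) (.a (.f (nat_lit 559) (nat_lit 595) (nat_lit 3631) (.d (nat_lit 558) (nat_lit 557) (nat_lit 557) (nat_lit 591) (nat_lit 3630))) (.a (.f (nat_lit 624) (nat_lit 497) (nat_lit 6640) (.d (nat_lit 623) (nat_lit 595) (nat_lit 1615) (nat_lit 655) (nat_lit 5647))) (.f (nat_lit 624) (nat_lit 497) (nat_lit 6640) (.f (nat_lit 625) (nat_lit 657) (nat_lit 4624) (.d (nat_lit 623) (nat_lit 622) (nat_lit 2638) (nat_lit 655) (nat_lit 5647)))))))) (.a (.p (nat_lit 591) (.a (.f (nat_lit 622) (nat_lit 623) (nat_lit 1614) (.f (nat_lit 590) (nat_lit 621) (nat_lit 1613) (.d (nat_lit 558) (nat_lit 557) (nat_lit 3629) (nat_lit 559) (nat_lit 3630)))) (.a (.f (nat_lit 563) (nat_lit 562) (nat_lit 2607) (.f (nat_lit 595) (nat_lit 564) (nat_lit 2608) (.d (nat_lit 623) (nat_lit 622) (nat_lit 1614) (nat_lit 624) (nat_lit 1615)))) (.f (nat_lit 626) (nat_lit 627) (nat_lit 591) (.f (nat_lit 590) (nat_lit 625) (nat_lit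 590) (.d (nat_lit 558) (nat_lit 557) (nat_lit 3629) (nat_lit 559) (nat_lit 3630))))))) (.a (.p (nat_lit 591) (.a (.f (nat_lit 563) (nat_lit 562) (nat_lit 2607) (.f (nat_lit 595) (nat_lit 564) (nat_lit 2608) (.d (nat_lit 623) (nat_lit 622) (nat_lit 1614) (nat_lit 624) (nat_lit 1615)))) (.a (.f (nat_lit 623) (nat_lit 622) (nat_lit 1614) (.f (nat_lit 624) (nat_lit 595) (nat_lit 1615) (.f (nat_lit 626) (nat_lit 627) (nat_lit 591) (.f (nat_lit 625) (nat_lit 590) (nat_lit 590) (.d (nat_lit 560) (nat_lit 655) (nat_lit 5647) (nat_lit 657) (nat_lit 4624)))))) (.a (.f (nat_lit 563) (nat_lit 562) (nat_lit 2607) (.f (nat_lit 595) (nat_lit 564) (nat_lit 2608) (.d (nat_lit 627) (nat_lit 626) (nat_lit 591) (nat_lit 628) (nat_lit 592)))) (.f (nat_lit 622) (nat_lit 623) (nat_lit 1614) (.f (nat_lit 590) (nat_lit 621) (nat_lit 1613) (.d (nat_lit 626) (nat_lit 625) (nat_lit 590) (nat_lit 627) (nat_lit 591)))))))) (.a s15048 (.a (.p (nat_lit 591) (.a (.f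 (nat_lit 559) (nat_lit 558) (nat_lit 3630) (.f (nat_lit 560) (nat_lit 595) (nat_lit 3631) (.d (nat_lit 623) (nat_lit 622) (nat_lit 1614) (nat_lit 655) (nat_lit 6671)))) (.a (.f (nat_lit 622) (nat_lit 623) (nat_lit 1614) (.f (nat_lit 590) (nat_lit 621) (nat_lit 1613) (.d (nat_lit 558) (nat_lit 557) (nat_lit 3629) (nat_lit 559) (nat_lit 3630)))) (.f (nat_lit 563) (nat_lit 562) (nat_lit 2607) (.f (nat_lit 595) (nat_lit 564) (nat_lit 2608) (.d (nat_lit 627) (nat_lit 626) (nat_lit 591) (nat_lit 628) (nat_lit 592))))))) (.a (.p (nat_lit 560) (.a (.f (nat_lit 559) (nat_lit 595) (nat_lit 3631) (.d (nat_lit 558) (nat_lit 557) (nat_lit 557) (nat_lit 591) (nat_lit 3630))) (.a (.f (nat_lit 624) (nat_lit 497) (nat_lit 6640) (.f (nat_lit 625) (nat_lit 657) (nat_lit 4624) (.f (nat_lit 595) (nat_lit 596) (nat_lit 1616) (.f (nat_lit 627) (nat_lit 628) (nat_lit 592) (.f (nat_lit 626) (nat_lit 591) (nat_lit 591) (.f (nat_lit 563) (nat_lit 564) (nat_lit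 2608) (.d (nat_lit 531) (nat_lit 499) (nat_lit 5618) (nat_lit 658) (nat_lit 5650)))))))) (.a (.f (nat_lit 595) (nat_lit 559) (nat_lit 3631) (.f (nat_lit 564) (nat_lit 563) (nat_lit 2608) (.f (nat_lit 596) (nat_lit 565) (nat_lit 2609) (.d (nat_lit 628) (nat_lit 627) (nat_lit 592) (nat_lit 629) (nat_lit 593))))) (.f (nat_lit 624) (nat_lit 497) (nat_lit 6640) (.f (nat_lit 527) (nat_lit 495) (nat_lit 7663) (.f (nat_lit 559) (nat_lit 656) (nat_lit 7695) (.d (nat_lit 558) (nat_lit 557) (nat_lit 557) (nat_lit 591) (nat_lit 3630))))))))) s16533))))))) (.a (.p (nat_lit 561) (.a (.f (nat_lit 497) (nat_lit 624) (nat_lit 5616) (.f (nat_lit 594) (nat_lit 626) (nat_lit 4593) (.f (nat_lit 562) (nat_lit 465) (nat_lit 4561) (.d (nat_lit 563) (nat_lit 564) (nat_lit 1584) (nat_lit 591) (nat_lit 2607))))) (.a s15064 (.a (.f (nat_lit 624) (nat_lit 497) (nat_lit 5616) (.d (nat_lit 656) (nat_lit 625) (nat_lit 5648) (nat_lit 688) (nat_lit 6704))) (.p (nat_lit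 625) (.a (.f (nat_lit 626) (nat_lit 658) (nat_lit 4625) (.f (nat_lit 591) (nat_lit 590) (nat_lit 590) (.d (nat_lit 627) (nat_lit 594) (nat_lit 591) (nat_lit 628) (nat_lit 3664)))) (.a (.f (nat_lit 560) (nat_lit 657) (nat_lit 7696) (.f (nat_lit 497) (nat_lit 465) (nat_lit 5584) (.d (nat_lit 626) (nat_lit 594) (nat_lit 4593) (nat_lit 658) (nat_lit 4625)))) (.a (.f (nat_lit 657) (nat_lit 560) (nat_lit 7696) (.d (nat_lit 658) (nat_lit 626) (nat_lit 4625) (nat_lit 690) (nat_lit 4657))) (.a (.f (nat_lit 657) (nat_lit 560) (nat_lit 7696) (.f (nat_lit 688) (nat_lit 656) (nat_lit 5680) (.f (nat_lit 689) (nat_lit 720) (nat_lit 5712) (.d (nat_lit 690) (nat_lit 658) (nat_lit 4657) (nat_lit 722) (nat_lit 4689))))) (.f (nat_lit 560) (nat_lit 657) (nat_lit 7696) (.f (nat_lit 497) (nat_lit 465) (nat_lit 5584) (.f (nat_lit 594) (nat_lit 626) (nat_lit 4593) (.f (nat_lit 595) (nat_lit 596) (nat_lit 3632) (.f (nat_lit 563) (nat_lit 564) (nat_lit 2608) (.d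 (nat_lit 562) (nat_lit 527) (nat_lit 3599) (nat_lit 591) (nat_lit 1583)))))))))))))))) (.a (.p (nat_lit 624) (.a (.d (nat_lit 497) (nat_lit 560) (nat_lit 6640) (nat_lit 561) (nat_lit 5616)) (.a (.f (nat_lit 561) (nat_lit 497) (nat_lit 5616) (.d (nat_lit 656) (nat_lit 625) (nat_lit 5648) (nat_lit 688) (nat_lit 6704))) (.a (.p (nat_lit 560) (.a (.f (nat_lit 623) (nat_lit 655) (nat_lit 5647) (.f (nat_lit 625) (nat_lit 657) (nat_lit 4624) (.d (nat_lit 594) (nat_lit 595) (nat_lit 1615) (nat_lit 622) (nat_lit 2638)))) (.a (.f (nat_lit 656) (nat_lit 561) (nat_lit 6672) (.d (nat_lit 655) (nat_lit 623) (nat_lit 5647) (nat_lit 687) (nat_lit 5679))) (.a (.f (nat_lit 656) (nat_lit 561) (nat_lit 6672) (.f (nat_lit 687) (nat_lit 655) (nat_lit 5679) (.f (nat_lit 688) (nat_lit 719) (nat_lit 5711) (.d (nat_lit 689) (nat_lit 657) (nat_lit 4656) (nat_lit 721) (nat_lit 4688))))) (.f (nat_lit 561) (nat_lit 656) (nat_lit 6672) (.f (nat_lit 527) (nat_lit 495)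 (nat_lit 7663) (.d (nat_lit 526) (nat_lit 525) (nat_lit 525) (nat_lit 562) (nat_lit 526)))))))) (.f (nat_lit 560) (nat_lit 497) (nat_lit 6640) (.f (nat_lit 623) (nat_lit 655) (nat_lit 5647) (.f (nat_lit 625) (nat_lit 657) (nat_lit 4624) (.d (nat_lit 594) (nat_lit 595) (nat_lit 1615) (nat_lit 622) (nat_lit 2638))))))))) (.a (.p (nat_lit 561) (.a (.f (nat_lit 624) (nat_lit 497) (nat_lit 5616) (.d (nat_lit 656) (nat_lit 625) (nat_lit 5648) (nat_lit 688) (nat_lit 6704))) (.a s15064 (.a s15078 (.f (nat_lit 497) (nat_lit 624) (nat_lit 5616) (.f (nat_lit 560) (nat_lit 465) (nat_lit 5584) (.f (nat_lit 594) (nat_lit 626) (nat_lit 4593) (.d (nat_lit 559) (nat_lit 558) (nat_lit 558) (nat_lit 595) (nat_lit 3631))))))))) (.a (.p (nat_lit 591) (.a (.p (nat_lit 594) (.a (.f (nat_lit 559) (nat_lit 558) (nat_lit 3630) (.f (nat_lit 560) (nat_lit 595) (nat_lit 3631) (.d (nat_lit 623) (nat_lit 622) (nat_lit 1614) (nat_lit 655) (nat_lit 6671)))) (.f (nat_lit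 562) (nat_lit 563) (nat_lit 2607) (.f (nat_lit 626) (nat_lit 627) (nat_lit 591) (.d (nat_lit 561) (nat_lit 590) (nat_lit 2606) (nat_lit 658) (nat_lit 7697)))))) (.a (.p (nat_lit 594) (.a (.f (nat_lit 562) (nat_lit 563) (nat_lit 2607) (.f (nat_lit 626) (nat_lit 627) (nat_lit 591) (.d (nat_lit 561) (nat_lit 590) (nat_lit 2606) (nat_lit 658) (nat_lit 7697)))) (.a (.f (nat_lit 622) (nat_lit 623) (nat_lit 1614) (.f (nat_lit 590) (nat_lit 621) (nat_lit 1613) (.d (nat_lit 558) (nat_lit 557) (nat_lit 3629) (nat_lit 559) (nat_lit 3630)))) (.f (nat_lit 563) (nat_lit 562) (nat_lit 2607) (.f (nat_lit 595) (nat_lit 564) (nat_lit 2608) (.d (nat_lit 627) (nat_lit 626) (nat_lit 591) (nat_lit 628) (nat_lit 592))))))) (.a (.p (nat_lit 594) (.a (.f (nat_lit 559) (nat_lit 558) (nat_lit 3630) (.f (nat_lit 560) (nat_lit 595) (nat_lit 3631) (.d (nat_lit 623) (nat_lit 622) (nat_lit 1614) (nat_lit 655) (nat_lit 6671)))) (.a (.f (nat_lit 622) (nat_lit 623) (nat_lit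 1614) (.f (nat_lit 590) (nat_lit 621) (nat_lit 1613) (.d (nat_lit 558) (nat_lit 557) (nat_lit 3629) (nat_lit 559) (nat_lit 3630)))) (.f (nat_lit 563) (nat_lit 562) (nat_lit 2607) (.f (nat_lit 595) (nat_lit 564) (nat_lit 2608) (.d (nat_lit 627) (nat_lit 626) (nat_lit 591) (nat_lit 628) (nat_lit 592))))))) (.a s16554 (.a (.p (nat_lit 594) (.a (.f (nat_lit 559) (nat_lit 558) (nat_lit 3630) (.f (nat_lit 560) (nat_lit 595) (nat_lit 3631) (.d (nat_lit 623) (nat_lit 622) (nat_lit 1614) (nat_lit 655) (nat_lit 6671)))) (.a (.f (nat_lit 622) (nat_lit 623) (nat_lit 1614) (.f (nat_lit 590) (nat_lit 621) (nat_lit 1613) (.d (nat_lit 558) (nat_lit 557) (nat_lit 3629) (nat_lit 559) (nat_lit 3630)))) (.f (nat_lit 626) (nat_lit 627) (nat_lit 591) (.f (nat_lit 561) (nat_lit 497) (nat_lit 4593) (.d (nat_lit 625) (nat_lit 590) (nat_lit 590) (nat_lit 658) (nat_lit 4625))))))) (.a s16564 (.a s15281 (.a s16565 s15016))))))))) (.a s16568 (.a (.p (nat_lit 624)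 (.a (.d (nat_lit 497) (nat_lit 560) (nat_lit 6640) (nat_lit 561) (nat_lit 5616)) (.a (.f (nat_lit 561) (nat_lit 497) (nat_lit 5616) (.d (nat_lit 656) (nat_lit 625) (nat_lit 5648) (nat_lit 688) (nat_lit 6704))) (.a (.p (nat_lit 560) (.a (.f (nat_lit 656) (nat_lit 561) (nat_lit 6672) (.d (nat_lit 655) (nat_lit 623) (nat_lit 5647) (nat_lit 687) (nat_lit 5679))) (.a (.f (nat_lit 625) (nat_lit 657) (nat_lit 4624) (.f (nat_lit 623) (nat_lit 655) (nat_lit 5647) (.f (nat_lit 622) (nat_lit 621) (nat_lit 2637) (.f (nat_lit 590) (nat_lit 589) (nat_lit 3661) (.f (nat_lit 626) (nat_lit 591) (nat_lit 590) (.f (nat_lit 627) (nat_lit 628) (nat_lit 3664) (.d (nat_lit 659) (nat_lit 658) (nat_lit 623) (nat_lit 660) (nat_lit 624)))))))) (.a (.f (nat_lit 656) (nat_lit 561) (nat_lit 6672) (.f (nat_lit 687) (nat_lit 655) (nat_lit 5679) (.f (nat_lit 688) (nat_lit 719) (nat_lit 5711) (.d (nat_lit 689) (nat_lit 657) (nat_lit 4656) (nat_lit 721) (nat_lit 4688)))))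 (.f (nat_lit 561) (nat_lit 656) (nat_lit 6672) (.f (nat_lit 527) (nat_lit 495) (nat_lit 7663) (.d (nat_lit 526) (nat_lit 525) (nat_lit 525) (nat_lit 562) (nat_lit 526)))))))) (.f (nat_lit 560) (nat_lit 497) (nat_lit 6640) (.f (nat_lit 625) (nat_lit 657) (nat_lit 4624) (.f (nat_lit 623) (nat_lit 655) (nat_lit 5647) (.f (nat_lit 622) (nat_lit 621) (nat_lit 2637) (.f (nat_lit 590) (nat_lit 589) (nat_lit 3661) (.f (nat_lit 626) (nat_lit 591) (nat_lit 590) (.f (nat_lit 627) (nat_lit 628) (nat_lit 3664) (.d (nat_lit 659) (nat_lit 658) (nat_lit 623) (nat_lit 660) (nat_lit 624))))))))))))) (.a (.p (nat_lit 561) (.a (.f (nat_lit 497) (nat_lit 624) (nat_lit 5616) (.f (nat_lit 594) (nat_lit 626) (nat_lit 4593) (.f (nat_lit 562) (nat_lit 465) (nat_lit 4561) (.d (nat_lit 563) (nat_lit 564) (nat_lit 1584) (nat_lit 591) (nat_lit 2607))))) (.a (.p (nat_lit 625) (.a (.f (nat_lit 624) (nat_lit 656) (nat_lit 5648) (.f (nat_lit 626) (nat_lit 658) (nat_lit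 4625) (.d (nat_lit 591) (nat_lit 590) (nat_lit 590) (nat_lit 627) (nat_lit 3663)))) (.a (.f (nat_lit 624) (nat_lit 656) (nat_lit 5648) (.f (nat_lit 657) (nat_lit 560) (nat_lit 4624) (.d (nat_lit 658) (nat_lit 626) (nat_lit 4625) (nat_lit 690) (nat_lit 4657)))) (.a (.f (nat_lit 657) (nat_lit 560) (nat_lit 7696) (.d (nat_lit 658) (nat_lit 626) (nat_lit 4625) (nat_lit 690) (nat_lit 4657))) (.a (.f (nat_lit 657) (nat_lit 560) (nat_lit 7696) (.f (nat_lit 688) (nat_lit 656) (nat_lit 5680) (.f (nat_lit 689) (nat_lit 720) (nat_lit 5712) (.d (nat_lit 690) (nat_lit 658) (nat_lit 4657) (nat_lit 722) (nat_lit 4689))))) (.f (nat_lit 560) (nat_lit 657) (nat_lit 7696) (.f (nat_lit 624) (nat_lit 656) (nat_lit 5648) (.f (nat_lit 527) (nat_lit 495) (nat_lit 7663) (.d (nat_lit 526) (nat_lit 525) (nat_lit 525) (nat_lit 562) (nat_lit 526)))))))))) (.a (.f (nat_lit 624) (nat_lit 497) (nat_lit 5616) (.d (nat_lit 656) (nat_lit 625) (nat_lit 5648) (nat_lit 688)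 (nat_lit 6704))) s15078)))) (.p (nat_lit 591) (.a (.p (nat_lit 594) (.a (.f (nat_lit 559) (nat_lit 558) (nat_lit 3630) (.f (nat_lit 560) (nat_lit 595) (nat_lit 3631) (.d (nat_lit 623) (nat_lit 622) (nat_lit 1614) (nat_lit 655) (nat_lit 6671)))) (.f (nat_lit 562) (nat_lit 563) (nat_lit 2607) (.f (nat_lit 626) (nat_lit 627) (nat_lit 591) (.d (nat_lit 561) (nat_lit 590) (nat_lit 2606) (nat_lit 658) (nat_lit 7697)))))) (.a (.p (nat_lit 594) (.a (.f (nat_lit 562) (nat_lit 563) (nat_lit 2607) (.f (nat_lit 626) (nat_lit 627) (nat_lit 591) (.d (nat_lit 561) (nat_lit 590) (nat_lit 2606) (nat_lit 658) (nat_lit 7697)))) (.a (.f (nat_lit 622) (nat_lit 623) (nat_lit 1614) (.f (nat_lit 590) (nat_lit 621) (nat_lit 1613) (.d (nat_lit 558) (nat_lit 557) (nat_lit 3629) (nat_lit 559) (nat_lit 3630)))) (.f (nat_lit 563) (nat_lit 562) (nat_lit 2607) (.f (nat_lit 595) (nat_lit 564) (nat_lit 2608) (.d (nat_lit 623) (nat_lit 622) (nat_lit 1614) (nat_lit 624)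 (nat_lit 1615))))))) (.a s14982 (.a s14988 (.a s14994 (.a s16564 (.a s16505 s15016))))))))))))))))))))
noncomputable def s16598 : Cert := .r (nat_lit 16209045190941378746825175519033752376695418001544274136039499599359141821789146415201104242374324120453335896589392256855012842462655896782687948212648861876611168283325328523264) (.p (nat_lit 560) (.a (.f (nat_lit 624) (nat_lit 497) (nat_lit 6640) (.f (nat_lit 656) (nat_lit 561) (nat_lit 6672) (.d (nat_lit 655) (nat_lit 623) (nat_lit 5647) (nat_lit 687) (nat_lit 5679)))) (.a (.p (nat_lit 496) (.a (.f (nat_lit 593) (nat_lit 625) (nat_lit 4592) (.f (nat_lit 591) (nat_lit 623) (nat_lit 5615) (.d (nat_lit 464) (nat_lit 559) (nat_lit 5583) (nat_lit 561) (nat_lit 4560)))) (.a (.f (nat_lit 591) (nat_lit 623) (nat_lit 5615) (.f (nat_lit 559) (nat_lit 464) (nat_lit 5583) (.f (nat_lit 593) (nat_lit 625) (nat_lit 4592) (.d (nat_lit 558) (nat_lit 557) (nat_lit 557) (nat_lit 594) (nat_lit 3630)))))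 (.a (.f (nat_lit 593) (nat_lit 625) (nat_lit 4592) (.f (nat_lit 561) (nat_lit 464) (nat_lit 4560) (.f (nat_lit 591) (nat_lit 623) (nat_lit 5615) (.d (nat_lit 562) (nat_lit 563) (nat_lit 1583) (nat_lit 590) (nat_lit 2606))))) (.a (.f (nat_lit 591) (nat_lit 623) (nat_lit 5615) (.f (nat_lit 559) (nat_lit 464) (nat_lit 5583) (.f (nat_lit 558) (nat_lit 557) (nat_lit 2573) (.f (nat_lit 495) (nat_lit 463) (nat_lit 7631) (.f (nat_lit 494) (nat_lit 493) (nat_lit 493) (.f (nat_lit 526) (nat_lit 462) (nat_lit 4558) (.f (nat_lit 561) (nat_lit 525) (nat_lit 3597) (.d (nat_lit 562) (nat_lit 563) (nat_lit 1583) (nat_lit 590) (nat_lit 1582))))))))) (.a (.f (nat_lit 593) (nat_lit 625) (nat_lit 4592) (.f (nat_lit 464) (nat_lit 561) (nat_lit 4560) (.d (nat_lit 463) (nat_lit 431) (nat_lit 7599) (nat_lit 495) (nat_lit 7631)))) (.f (nat_lit 625) (nat_lit 593) (nat_lit 4592) (.f (nat_lit 624) (nat_lit 657) (nat_lit 4624) (.d (nat_lit 623) (nat_lit 591) (nat_lit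 5615) (nat_lit 655) (nat_lit 5647)))))))))) (.a (.f (nat_lit 624) (nat_lit 497) (nat_lit 6640) (.f (nat_lit 623) (nat_lit 655) (nat_lit 5647) (.f (nat_lit 625) (nat_lit 657) (nat_lit 4624) (.d (nat_lit 496) (nat_lit 591) (nat_lit 5615) (nat_lit 593) (nat_lit 4592))))) (.a (.p (nat_lit 496) (.a (.f (nat_lit 593) (nat_lit 625) (nat_lit 4592) (.f (nat_lit 591) (nat_lit 623) (nat_lit 5615) (.d (nat_lit 464) (nat_lit 559) (nat_lit 5583) (nat_lit 561) (nat_lit 4560)))) (.a (.f (nat_lit 591) (nat_lit 623) (nat_lit 5615) (.f (nat_lit 559) (nat_lit 464) (nat_lit 5583) (.f (nat_lit 593) (nat_lit 625) (nat_lit 4592) (.d (nat_lit 558) (nat_lit 557) (nat_lit 557) (nat_lit 594) (nat_lit 3630))))) (.a (.f (nat_lit 593) (nat_lit 625) (nat_lit 4592) (.f (nat_lit 561) (nat_lit 464) (nat_lit 4560) (.f (nat_lit 591) (nat_lit 623) (nat_lit 5615) (.d (nat_lit 562) (nat_lit 563) (nat_lit 1583) (nat_lit 590) (nat_lit 2606))))) (.a (.f (nat_lit 591) (nat_lit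 623) (nat_lit 5615) (.f (nat_lit 559) (nat_lit 464) (nat_lit 5583) (.f (nat_lit 558) (nat_lit 557) (nat_lit 2573) (.f (nat_lit 495) (nat_lit 463) (nat_lit 7631) (.f (nat_lit 494) (nat_lit 493) (nat_lit 493) (.f (nat_lit 526) (nat_lit 462) (nat_lit 4558) (.f (nat_lit 561) (nat_lit 525) (nat_lit 3597) (.d (nat_lit 562) (nat_lit 563) (nat_lit 1583) (nat_lit 590) (nat_lit 1582))))))))) (.a (.f (nat_lit 593) (nat_lit 625) (nat_lit 4592) (.f (nat_lit 464) (nat_lit 561) (nat_lit 4560) (.d (nat_lit 463) (nat_lit 431) (nat_lit 7599) (nat_lit 495) (nat_lit 7631)))) (.f (nat_lit 497) (nat_lit 465) (nat_lit 6608) (.f (nat_lit 593) (nat_lit 625) (nat_lit 4592) (.f (nat_lit 591) (nat_lit 623) (nat_lit 5615) (.f (nat_lit 495) (nat_lit 463) (nat_lit 7631) (.f (nat_lit 494) (nat_lit 493) (nat_lit 493) (.f (nat_lit 462) (nat_lit 461) (nat_lit 3533) (.f (nat_lit 526) (nat_lit 525) (nat_lit 1517) (.f (nat_lit 558) (nat_lit 559) (nat_lit 4558) (.d (nat_lit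 557) (nat_lit 589) (nat_lit 5581) (nat_lit 590) (nat_lit 3629)))))))))))))))) (.f (nat_lit 497) (nat_lit 624) (nat_lit 6640) (.d (nat_lit 465) (nat_lit 433) (nat_lit 5552) (nat_lit 496) (nat_lit 6608))))))))
noncomputable def s16605 : Cert := .r (nat_lit 56731658168294825607297908562892747992051338238286821987559590709619423183243327532385743392248384611549018383027876526214340489683474015023770710264543038508068021832168194965504) (.p (nat_lit 594) (.a (.f (nat_lit 563) (nat_lit 562) (nat_lit 2607) (.f (nat_lit 595) (nat_lit 564) (nat_lit 2608) (.d (nat_lit 623) (nat_lit 622) (nat_lit 1614) (nat_lit 624) (nat_lit 1615)))) (.a (.f (nat_lit 623) (nat_lit 622) (nat_lit 1614) (.f (nat_lit 595) (nat_lit 624) (nat_lit 1615) (.d (nat_lit 627) (nat_lit 626) (nat_lit 591) (nat_lit 628) (nat_lit 592)))) (.a (.f (nat_lit 563) (nat_lit 562) (nat_lit 2607) (.f (nat_lit 595) (nat_lit 564) (nat_lit 2608) (.d (nat_lit 627) (nat_lit 626) (nat_lit 591)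 (nat_lit 628) (nat_lit 592)))) (.f (nat_lit 562) (nat_lit 563) (nat_lit 2607) (.f (nat_lit 626) (nat_lit 627) (nat_lit 591) (.f (nat_lit 658) (nat_lit 561) (nat_lit 7697) (.f (nat_lit 689) (nat_lit 657) (nat_lit 5681) (.f (nat_lit 690) (nat_lit 721) (nat_lit 5713) (.d (nat_lit 691) (nat_lit 659) (nat_lit 4658) (nat_lit 723) (nat_lit 4690)))))))))))
noncomputable def s16626 : Cert := .r (nat_lit 56731658168294825607297908562892747992051338238286821987559590709619423183243327532385743392248384611549018383027876526214340489683474015023770710264543038508068021832168194965504) (.p (nat_lit 561) (.a (.f (nat_lit 590) (nat_lit 562) (nat_lit 2606) (.f (nat_lit 625) (nat_lit 626) (nat_lit 590) (.d (nat_lit 560) (nat_lit 589) (nat_lit 2605) (nat_lit 657) (nat_lit 7696)))) (.a (.f (nat_lit 590) (nat_lit 562) (nat_lit 2606) (.f (nat_lit 557) (nat_lit 558) (nat_lit 3629) (.f (nat_lit 589) (nat_lit 556) (nat_lit 3628) (.d (nat_lit 621) (nat_lit 620)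 (nat_lit 1612) (nat_lit 622) (nat_lit 1613))))) (.a (.f (nat_lit 625) (nat_lit 496) (nat_lit 7664) (.d (nat_lit 626) (nat_lit 590) (nat_lit 590) (nat_lit 658) (nat_lit 4625))) (.f (nat_lit 496) (nat_lit 625) (nat_lit 7664) (.d (nat_lit 560) (nat_lit 464) (nat_lit 4560) (nat_lit 623) (nat_lit 5615)))))))
noncomputable def s16643 : Cert := .r (nat_lit 56731658168294825607297908562892747992051338238286821987559590709619423183243327532385743392248384611549018383027876526214340489683474015023770710264543038508068021832168194965504) (.p (nat_lit 594) (.a (.f (nat_lit 559) (nat_lit 558) (nat_lit 3630) (.f (nat_lit 595) (nat_lit 560) (nat_lit 3631) (.d (nat_lit 563) (nat_lit 562) (nat_lit 2607) (nat_lit 564) (nat_lit 2608)))) (.a (.f (nat_lit 563) (nat_lit 562) (nat_lit 2607) (.f (nat_lit 595) (nat_lit 564) (nat_lit 2608) (.d (nat_lit 627) (nat_lit 626) (nat_lit 591) (nat_lit 628) (nat_lit 592)))) (.a (.f (nat_lit 559) (nat_lit 558) (nat_lit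 3630) (.f (nat_lit 595) (nat_lit 560) (nat_lit 3631) (.d (nat_lit 627) (nat_lit 626) (nat_lit 591) (nat_lit 628) (nat_lit 592)))) (.f (nat_lit 562) (nat_lit 563) (nat_lit 2607) (.f (nat_lit 626) (nat_lit 627) (nat_lit 591) (.f (nat_lit 658) (nat_lit 561) (nat_lit 7697) (.f (nat_lit 689) (nat_lit 657) (nat_lit 5681) (.f (nat_lit 690) (nat_lit 721) (nat_lit 5713) (.d (nat_lit 691) (nat_lit 659) (nat_lit 4658) (nat_lit 723) (nat_lit 4690)))))))))))
noncomputable def s16663 : Cert := .r (nat_lit 16209045190941378746825175519033752376695418001544274136039499599359141821789146415201104242374324120453335896589392256855012842462655896782687948212648861876611168283325328523264) (.p (nat_lit 593) (.a s15236 (.a (.p (nat_lit 591) (.a (.p (nat_lit 594) (.a (.f (nat_lit 562) (nat_lit 563) (nat_lit 2607) (.f (nat_lit 626) (nat_lit 627) (nat_lit 591) (.d (nat_lit 561) (nat_lit 590) (nat_lit 2606) (nat_lit 658) (nat_lit 7697)))) (.a (.f (nat_lit 622)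 (nat_lit 623) (nat_lit 1614) (.f (nat_lit 590) (nat_lit 621) (nat_lit 1613) (.d (nat_lit 558) (nat_lit 557) (nat_lit 3629) (nat_lit 559) (nat_lit 3630)))) (.f (nat_lit 563) (nat_lit 562) (nat_lit 2607) (.f (nat_lit 595) (nat_lit 564) (nat_lit 2608) (.d (nat_lit 623) (nat_lit 622) (nat_lit 1614) (nat_lit 624) (nat_lit 1615))))))) (.a (.p (nat_lit 594) (.a (.f (nat_lit 622) (nat_lit 623) (nat_lit 1614) (.f (nat_lit 590) (nat_lit 621) (nat_lit 1613) (.d (nat_lit 558) (nat_lit 557) (nat_lit 3629) (nat_lit 559) (nat_lit 3630)))) (.a (.f (nat_lit 563) (nat_lit 562) (nat_lit 2607) (.f (nat_lit 595) (nat_lit 564) (nat_lit 2608) (.d (nat_lit 623) (nat_lit 622) (nat_lit 1614) (nat_lit 624) (nat_lit 1615)))) (.f (nat_lit 626) (nat_lit 627) (nat_lit 591) (.f (nat_lit 590) (nat_lit 625) (nat_lit 590) (.d (nat_lit 558) (nat_lit 557) (nat_lit 3629) (nat_lit 559) (nat_lit 3630))))))) (.a (.p (nat_lit 561) (.a (.f (nat_lit 562) (nat_lit 590) (nat_lit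 2606) (.d (nat_lit 563) (nat_lit 564) (nat_lit 1584) (nat_lit 594) (nat_lit 2607))) (.a (.f (nat_lit 625) (nat_lit 496) (nat_lit 7664) (.d (nat_lit 626) (nat_lit 590) (nat_lit 590) (nat_lit 658) (nat_lit 4625))) (.f (nat_lit 625) (nat_lit 496) (nat_lit 7664) (.f (nat_lit 624) (nat_lit 656) (nat_lit 5648) (.d (nat_lit 626) (nat_lit 627) (nat_lit 3663) (nat_lit 658) (nat_lit 4625))))))) (.a (.p (nat_lit 594) (.a (.f (nat_lit 622) (nat_lit 623) (nat_lit 1614) (.f (nat_lit 590) (nat_lit 621) (nat_lit 1613) (.d (nat_lit 558) (nat_lit 557) (nat_lit 3629) (nat_lit 559) (nat_lit 3630)))) (.a (.f (nat_lit 626) (nat_lit 627) (nat_lit 591) (.f (nat_lit 625) (nat_lit 590) (nat_lit 590) (.d (nat_lit 561) (nat_lit 496) (nat_lit 7664) (nat_lit 658) (nat_lit 4625)))) (.f (nat_lit 623) (nat_lit 622) (nat_lit 1614) (.f (nat_lit 595) (nat_lit 624) (nat_lit 1615) (.d (nat_lit 627) (nat_lit 626) (nat_lit 591) (nat_lit 628) (nat_lit 592))))))) (.a (.p (nat_lit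 561) (.a (.f (nat_lit 562) (nat_lit 590) (nat_lit 2606) (.d (nat_lit 563) (nat_lit 564) (nat_lit 1584) (nat_lit 594) (nat_lit 2607))) (.a (.f (nat_lit 625) (nat_lit 496) (nat_lit 7664) (.d (nat_lit 626) (nat_lit 590) (nat_lit 590) (nat_lit 658) (nat_lit 4625))) (.f (nat_lit 625) (nat_lit 496) (nat_lit 7664) (.f (nat_lit 626) (nat_lit 658) (nat_lit 4625) (.d (nat_lit 627) (nat_lit 594) (nat_lit 591) (nat_lit 628) (nat_lit 3664))))))) (.a s15197 (.a s16605 (.p (nat_lit 594) (.a (.f (nat_lit 622) (nat_lit 623) (nat_lit 1614) (.f (nat_lit 590) (nat_lit 621) (nat_lit 1613) (.d (nat_lit 558) (nat_lit 557) (nat_lit 3629) (nat_lit 559) (nat_lit 3630)))) (.a (.f (nat_lit 563) (nat_lit 562) (nat_lit 2607) (.f (nat_lit 595) (nat_lit 564) (nat_lit 2608) (.d (nat_lit 623) (nat_lit 622) (nat_lit 1614) (nat_lit 624) (nat_lit 1615)))) (.f (nat_lit 562) (nat_lit 563) (nat_lit 2607) (.f (nat_lit 561) (nat_lit 590) (nat_lit 2606) (.f (nat_lit 625) (nat_lit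 496) (nat_lit 7664) (.f (nat_lit 624) (nat_lit 656) (nat_lit 5648) (.f (nat_lit 527) (nat_lit 526) (nat_lit 526) (.d (nat_lit 559) (nat_lit 495) (nat_lit 4591) (nat_lit 558) (nat_lit 3630)))))))))))))))))) (.a s16516 (.a s15252 (.a (.p (nat_lit 625) (.a (.d (nat_lit 496) (nat_lit 560) (nat_lit 4592) (nat_lit 561) (nat_lit 7664)) (.a (.f (nat_lit 561) (nat_lit 496) (nat_lit 7664) (.f (nat_lit 624) (nat_lit 656) (nat_lit 5648) (.f (nat_lit 626) (nat_lit 658) (nat_lit 4625) (.f (nat_lit 627) (nat_lit 628) (nat_lit 3664) (.f (nat_lit 595) (nat_lit 596) (nat_lit 2640) (.f (nat_lit 623) (nat_lit 594) (nat_lit 1615) (.f (nat_lit 622) (nat_lit 621) (nat_lit 2637) (.d (nat_lit 654) (nat_lit 653) (nat_lit 1645) (nat_lit 655) (nat_lit 1646))))))))) (.a (.p (nat_lit 561) (.a (.f (nat_lit 624) (nat_lit 656) (nat_lit 5648) (.f (nat_lit 657) (nat_lit 560) (nat_lit 4624) (.d (nat_lit 658) (nat_lit 626) (nat_lit 4625) (nat_lit 690) (nat_lit 4657))))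 (.a (.f (nat_lit 624) (nat_lit 656) (nat_lit 5648) (.f (nat_lit 626) (nat_lit 658) (nat_lit 4625) (.f (nat_lit 627) (nat_lit 628) (nat_lit 3664) (.f (nat_lit 595) (nat_lit 596) (nat_lit 2640) (.f (nat_lit 623) (nat_lit 594) (nat_lit 1615) (.f (nat_lit 622) (nat_lit 621) (nat_lit 2637) (.d (nat_lit 654) (nat_lit 653) (nat_lit 1645) (nat_lit 655) (nat_lit 1646)))))))) (.a (.f (nat_lit 657) (nat_lit 560) (nat_lit 7696) (.d (nat_lit 658) (nat_lit 626) (nat_lit 4625) (nat_lit 690) (nat_lit 4657))) (.a (.f (nat_lit 657) (nat_lit 560) (nat_lit 7696) (.f (nat_lit 688) (nat_lit 656) (nat_lit 5680) (.f (nat_lit 689) (nat_lit 720) (nat_lit 5712) (.d (nat_lit 690) (nat_lit 658) (nat_lit 4657) (nat_lit 722) (nat_lit 4689))))) (.f (nat_lit 560) (nat_lit 657) (nat_lit 7696) (.f (nat_lit 624) (nat_lit 656) (nat_lit 5648) (.f (nat_lit 527) (nat_lit 495) (nat_lit 7663) (.d (nat_lit 526) (nat_lit 525) (nat_lit 525) (nat_lit 562) (nat_lit 526))))))))))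 (.f (nat_lit 560) (nat_lit 496) (nat_lit 4592) (.d (nat_lit 657) (nat_lit 624) (nat_lit 4624) (nat_lit 689) (nat_lit 7728))))))) (.a (.p (nat_lit 560) (.a (.f (nat_lit 496) (nat_lit 625) (nat_lit 4592) (.f (nat_lit 591) (nat_lit 623) (nat_lit 5615) (.d (nat_lit 464) (nat_lit 559) (nat_lit 5583) (nat_lit 561) (nat_lit 4560)))) (.a s15237 (.a (.f (nat_lit 496) (nat_lit 625) (nat_lit 4592) (.f (nat_lit 591) (nat_lit 623) (nat_lit 5615) (.f (nat_lit 559) (nat_lit 464) (nat_lit 5583) (.d (nat_lit 558) (nat_lit 557) (nat_lit 557) (nat_lit 594) (nat_lit 3630))))) (.a (.f (nat_lit 625) (nat_lit 496) (nat_lit 4592) (.d (nat_lit 657) (nat_lit 624) (nat_lit 4624) (nat_lit 689) (nat_lit 7728))) s15278))))) (.a (.p (nat_lit 591) (.a (.p (nat_lit 594) (.a (.f (nat_lit 559) (nat_lit 558) (nat_lit 3630) (.f (nat_lit 560) (nat_lit 595) (nat_lit 3631) (.d (nat_lit 623) (nat_lit 622) (nat_lit 1614) (nat_lit 655) (nat_lit 6671)))) (.f (nat_lit 562) (nat_lit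 563) (nat_lit 2607) (.f (nat_lit 626) (nat_lit 627) (nat_lit 591) (.d (nat_lit 561) (nat_lit 590) (nat_lit 2606) (nat_lit 658) (nat_lit 7697)))))) (.a (.p (nat_lit 561) (.a (.f (nat_lit 562) (nat_lit 590) (nat_lit 2606) (.d (nat_lit 563) (nat_lit 564) (nat_lit 1584) (nat_lit 594) (nat_lit 2607))) (.a (.f (nat_lit 625) (nat_lit 496) (nat_lit 7664) (.d (nat_lit 626) (nat_lit 590) (nat_lit 590) (nat_lit 658) (nat_lit 4625))) (.f (nat_lit 625) (nat_lit 496) (nat_lit 7664) (.f (nat_lit 626) (nat_lit 658) (nat_lit 4625) (.d (nat_lit 627) (nat_lit 594) (nat_lit 591) (nat_lit 628) (nat_lit 3664))))))) (.a (.p (nat_lit 594) (.a (.f (nat_lit 559) (nat_lit 558) (nat_lit 3630) (.f (nat_lit 560) (nat_lit 595) (nat_lit 3631) (.d (nat_lit 623) (nat_lit 622) (nat_lit 1614) (nat_lit 655) (nat_lit 6671)))) (.a (.f (nat_lit 622) (nat_lit 623) (nat_lit 1614) (.f (nat_lit 590) (nat_lit 621) (nat_lit 1613) (.d (nat_lit 558) (nat_lit 557) (nat_lit 3629) (nat_lit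 559) (nat_lit 3630)))) (.f (nat_lit 563) (nat_lit 562) (nat_lit 2607) (.f (nat_lit 595) (nat_lit 564) (nat_lit 2608) (.d (nat_lit 627) (nat_lit 626) (nat_lit 591) (nat_lit 628) (nat_lit 592))))))) (.a (.p (nat_lit 594) (.a (.f (nat_lit 559) (nat_lit 558) (nat_lit 3630) (.f (nat_lit 560) (nat_lit 595) (nat_lit 3631) (.d (nat_lit 623) (nat_lit 622) (nat_lit 1614) (nat_lit 655) (nat_lit 6671)))) (.a (.f (nat_lit 622) (nat_lit 623) (nat_lit 1614) (.f (nat_lit 590) (nat_lit 621) (nat_lit 1613) (.d (nat_lit 558) (nat_lit 557) (nat_lit 3629) (nat_lit 559) (nat_lit 3630)))) (.f (nat_lit 626) (nat_lit 627) (nat_lit 591) (.f (nat_lit 625) (nat_lit 590) (nat_lit 590) (.d (nat_lit 561) (nat_lit 496) (nat_lit 7664) (nat_lit 658) (nat_lit 4625))))))) (.a s16626 (.a s15281 (.p (nat_lit 561) (.a (.f (nat_lit 562) (nat_lit 590) (nat_lit 2606) (.d (nat_lit 563) (nat_lit 564) (nat_lit 1584) (nat_lit 594) (nat_lit 2607))) (.f (nat_lit 496) (nat_lit 625)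 (nat_lit 7664) (.d (nat_lit 560) (nat_lit 464) (nat_lit 4560) (nat_lit 623) (nat_lit 5615)))))))))))) (.a (.p (nat_lit 594) (.a s15039 (.a (.p (nat_lit 591) (.a (.f (nat_lit 562) (nat_lit 563) (nat_lit 2607) (.f (nat_lit 626) (nat_lit 627) (nat_lit 591) (.d (nat_lit 561) (nat_lit 590) (nat_lit 2606) (nat_lit 658) (nat_lit 7697)))) (.a (.f (nat_lit 622) (nat_lit 623) (nat_lit 1614) (.f (nat_lit 590) (nat_lit 621) (nat_lit 1613) (.d (nat_lit 558) (nat_lit 557) (nat_lit 3629) (nat_lit 559) (nat_lit 3630)))) (.f (nat_lit 563) (nat_lit 562) (nat_lit 2607) (.f (nat_lit 595) (nat_lit 564) (nat_lit 2608) (.d (nat_lit 623) (nat_lit 622) (nat_lit 1614) (nat_lit 624) (nat_lit 1615))))))) (.a (.p (nat_lit 591) (.a (.f (nat_lit 562) (nat_lit 563) (nat_lit 2607) (.f (nat_lit 626) (nat_lit 627) (nat_lit 591) (.d (nat_lit 561) (nat_lit 590) (nat_lit 2606) (nat_lit 658) (nat_lit 7697)))) (.a (.f (nat_lit 563) (nat_lit 562) (nat_lit 2607) (.f (nat_lit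 595) (nat_lit 564) (nat_lit 2608) (.d (nat_lit 623) (nat_lit 622) (nat_lit 1614) (nat_lit 624) (nat_lit 1615)))) (.f (nat_lit 623) (nat_lit 622) (nat_lit 1614) (.f (nat_lit 595) (nat_lit 624) (nat_lit 1615) (.d (nat_lit 627) (nat_lit 626) (nat_lit 591) (nat_lit 628) (nat_lit 592))))))) (.a (.p (nat_lit 595) (.a (.f (nat_lit 560) (nat_lit 559) (nat_lit 3631) (.f (nat_lit 561) (nat_lit 596) (nat_lit 3632) (.d (nat_lit 624) (nat_lit 623) (nat_lit 1615) (nat_lit 656) (nat_lit 6672)))) (.a (.f (nat_lit 564) (nat_lit 563) (nat_lit 2608) (.f (nat_lit 596) (nat_lit 565) (nat_lit 2609) (.d (nat_lit 628) (nat_lit 627) (nat_lit 592) (nat_lit 629) (nat_lit 593)))) (.f (nat_lit 560) (nat_lit 559) (nat_lit 3631) (.f (nat_lit 624) (nat_lit 623) (nat_lit 1615) (.f (nat_lit 561) (nat_lit 656) (nat_lit 6672) (.f (nat_lit 563) (nat_lit 564) (nat_lit 2608) (.d (nat_lit 527) (nat_lit 495) (nat_lit 7663) (nat_lit 562) (nat_lit 3599))))))))) (.a s15307 (.a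 (.p (nat_lit 591) (.a (.f (nat_lit 559) (nat_lit 558) (nat_lit 3630) (.f (nat_lit 560) (nat_lit 595) (nat_lit 3631) (.d (nat_lit 623) (nat_lit 622) (nat_lit 1614) (nat_lit 655) (nat_lit 6671)))) (.f (nat_lit 562) (nat_lit 563) (nat_lit 2607) (.f (nat_lit 626) (nat_lit 627) (nat_lit 591) (.d (nat_lit 561) (nat_lit 590) (nat_lit 2606) (nat_lit 658) (nat_lit 7697)))))) (.a (.p (nat_lit 591) (.a (.f (nat_lit 562) (nat_lit 563) (nat_lit 2607) (.f (nat_lit 626) (nat_lit 627) (nat_lit 591) (.d (nat_lit 561) (nat_lit 590) (nat_lit 2606) (nat_lit 658) (nat_lit 7697)))) (.a (.f (nat_lit 559) (nat_lit 558) (nat_lit 3630) (.f (nat_lit 595) (nat_lit 560) (nat_lit 3631) (.d (nat_lit 563) (nat_lit 562) (nat_lit 2607) (nat_lit 564) (nat_lit 2608)))) (.f (nat_lit 559) (nat_lit 558) (nat_lit 3630) (.f (nat_lit 595) (nat_lit 560) (nat_lit 3631) (.d (nat_lit 627) (nat_lit 626) (nat_lit 591) (nat_lit 628) (nat_lit 592))))))) s15310)))))))) (.a (.p (nat_lit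 560) (.a (.f (nat_lit 496) (nat_lit 625) (nat_lit 4592) (.f (nat_lit 591) (nat_lit 623) (nat_lit 5615) (.d (nat_lit 464) (nat_lit 559) (nat_lit 5583) (nat_lit 561) (nat_lit 4560)))) (.a (.p (nat_lit 624) (.a (.f (nat_lit 656) (nat_lit 561) (nat_lit 6672) (.d (nat_lit 655) (nat_lit 623) (nat_lit 5647) (nat_lit 687) (nat_lit 5679))) (.a (.f (nat_lit 625) (nat_lit 657) (nat_lit 4624) (.f (nat_lit 623) (nat_lit 655) (nat_lit 5647) (.f (nat_lit 622) (nat_lit 621) (nat_lit 2637) (.f (nat_lit 590) (nat_lit 589) (nat_lit 3661) (.f (nat_lit 626) (nat_lit 591) (nat_lit 590) (.f (nat_lit 627) (nat_lit 628) (nat_lit 3664) (.d (nat_lit 659) (nat_lit 658) (nat_lit 623) (nat_lit 660) (nat_lit 624)))))))) (.a (.f (nat_lit 656) (nat_lit 561) (nat_lit 6672) (.f (nat_lit 687) (nat_lit 655) (nat_lit 5679) (.f (nat_lit 688) (nat_lit 719) (nat_lit 5711) (.d (nat_lit 689) (nat_lit 657) (nat_lit 4656) (nat_lit 721) (nat_lit 4688))))) (.f (nat_lit 561) (nat_lit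 656) (nat_lit 6672) (.f (nat_lit 527) (nat_lit 495) (nat_lit 7663) (.d (nat_lit 526) (nat_lit 525) (nat_lit 525) (nat_lit 562) (nat_lit 526)))))))) (.a (.f (nat_lit 625) (nat_lit 496) (nat_lit 4592) (.d (nat_lit 657) (nat_lit 624) (nat_lit 4624) (nat_lit 689) (nat_lit 7728))) (.p (nat_lit 561) (.a (.f (nat_lit 496) (nat_lit 464) (nat_lit 4560) (.f (nat_lit 591) (nat_lit 623) (nat_lit 5615) (.d (nat_lit 562) (nat_lit 563) (nat_lit 1583) (nat_lit 590) (nat_lit 2606)))) (.a (.f (nat_lit 624) (nat_lit 656) (nat_lit 6672) (.f (nat_lit 527) (nat_lit 495) (nat_lit 7663) (.d (nat_lit 526) (nat_lit 525) (nat_lit 525) (nat_lit 562) (nat_lit 526)))) (.f (nat_lit 624) (nat_lit 656) (nat_lit 6672) (.f (nat_lit 496) (nat_lit 464) (nat_lit 4560) (.d (nat_lit 495) (nat_lit 463) (nat_lit 7631) (nat_lit 527) (nat_lit 7663))))))))))) (.a (.p (nat_lit 591) (.a s15016 (.a (.p (nat_lit 561) (.a (.f (nat_lit 562) (nat_lit 590) (nat_lit 2606) (.d (nat_lit 563)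 (nat_lit 564) (nat_lit 1584) (nat_lit 594) (nat_lit 2607))) (.a (.f (nat_lit 625) (nat_lit 496) (nat_lit 7664) (.d (nat_lit 626) (nat_lit 590) (nat_lit 590) (nat_lit 658) (nat_lit 4625))) (.f (nat_lit 625) (nat_lit 496) (nat_lit 7664) (.f (nat_lit 624) (nat_lit 656) (nat_lit 5648) (.d (nat_lit 626) (nat_lit 627) (nat_lit 3663) (nat_lit 658) (nat_lit 4625))))))) (.a s15234 (.a (.p (nat_lit 594) (.a (.f (nat_lit 562) (nat_lit 563) (nat_lit 2607) (.f (nat_lit 626) (nat_lit 627) (nat_lit 591) (.d (nat_lit 561) (nat_lit 590) (nat_lit 2606) (nat_lit 658) (nat_lit 7697)))) (.a (.f (nat_lit 559) (nat_lit 558) (nat_lit 3630) (.f (nat_lit 595) (nat_lit 560) (nat_lit 3631) (.d (nat_lit 563) (nat_lit 562) (nat_lit 2607) (nat_lit 564) (nat_lit 2608)))) (.f (nat_lit 559) (nat_lit 558) (nat_lit 3630) (.f (nat_lit 595) (nat_lit 560) (nat_lit 3631) (.d (nat_lit 627) (nat_lit 626) (nat_lit 591) (nat_lit 628) (nat_lit 592))))))) (.a s16643 (.p (nat_lit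 561) (.a (.f (nat_lit 562) (nat_lit 590) (nat_lit 2606) (.d (nat_lit 563) (nat_lit 564) (nat_lit 1584) (nat_lit 594) (nat_lit 2607))) (.a (.f (nat_lit 625) (nat_lit 496) (nat_lit 7664) (.f (nat_lit 560) (nat_lit 657) (nat_lit 7696) (.f (nat_lit 624) (nat_lit 656) (nat_lit 5648) (.f (nat_lit 590) (nat_lit 589) (nat_lit 589) (.f (nat_lit 558) (nat_lit 557) (nat_lit 3629) (.f (nat_lit 559) (nat_lit 594) (nat_lit 3630) (.f (nat_lit 527) (nat_lit 495) (nat_lit 7663) (.d (nat_lit 622) (nat_lit 621) (nat_lit 1613) (nat_lit 654) (nat_lit 6670))))))))) (.a (.f (nat_lit 590) (nat_lit 562) (nat_lit 2606) (.f (nat_lit 557) (nat_lit 558) (nat_lit 3629) (.f (nat_lit 589) (nat_lit 556) (nat_lit 3628) (.d (nat_lit 621) (nat_lit 620) (nat_lit 1612) (nat_lit 622) (nat_lit 1613))))) (.f (nat_lit 625) (nat_lit 496) (nat_lit 7664) (.f (nat_lit 560) (nat_lit 657) (nat_lit 7696) (.f (nat_lit 624) (nat_lit 656) (nat_lit 5648) (.f (nat_lit 562) (nat_lit 563)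 (nat_lit 1583) (.d (nat_lit 527) (nat_lit 495) (nat_lit 7663) (nat_lit 526) (nat_lit 526)))))))))))))))) (.a (.p (nat_lit 591) (.a (.p (nat_lit 594) (.a (.f (nat_lit 559) (nat_lit 558) (nat_lit 3630) (.f (nat_lit 560) (nat_lit 595) (nat_lit 3631) (.d (nat_lit 623) (nat_lit 622) (nat_lit 1614) (nat_lit 655) (nat_lit 6671)))) (.f (nat_lit 562) (nat_lit 563) (nat_lit 2607) (.f (nat_lit 626) (nat_lit 627) (nat_lit 591) (.d (nat_lit 561) (nat_lit 590) (nat_lit 2606) (nat_lit 658) (nat_lit 7697)))))) (.a (.p (nat_lit 594) (.a (.f (nat_lit 562) (nat_lit 563) (nat_lit 2607) (.f (nat_lit 626) (nat_lit 627) (nat_lit 591) (.d (nat_lit 561) (nat_lit 590) (nat_lit 2606) (nat_lit 658) (nat_lit 7697)))) (.a (.f (nat_lit 622) (nat_lit 623) (nat_lit 1614) (.f (nat_lit 590) (nat_lit 621) (nat_lit 1613) (.d (nat_lit 558) (nat_lit 557) (nat_lit 3629) (nat_lit 559) (nat_lit 3630)))) (.f (nat_lit 563) (nat_lit 562) (nat_lit 2607) (.f (nat_lit 595) (nat_lit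 564) (nat_lit 2608) (.d (nat_lit 623) (nat_lit 622) (nat_lit 1614) (nat_lit 624) (nat_lit 1615))))))) (.a s14982 (.a s14988 (.a s14994 (.a s15234 (.a s16605 s15016)))))))) (.a (.p (nat_lit 560) (.a (.f (nat_lit 496) (nat_lit 625) (nat_lit 4592) (.f (nat_lit 591) (nat_lit 623) (nat_lit 5615) (.d (nat_lit 464) (nat_lit 559) (nat_lit 5583) (nat_lit 561) (nat_lit 4560)))) (.a s15278 (.a (.f (nat_lit 496) (nat_lit 625) (nat_lit 4592) (.f (nat_lit 591) (nat_lit 623) (nat_lit 5615) (.f (nat_lit 559) (nat_lit 464) (nat_lit 5583) (.d (nat_lit 558) (nat_lit 557) (nat_lit 557) (nat_lit 594) (nat_lit 3630))))) (.f (nat_lit 625) (nat_lit 496) (nat_lit 4592) (.d (nat_lit 657) (nat_lit 624) (nat_lit 4624) (nat_lit 689) (nat_lit 7728))))))) (.p (nat_lit 560) (.a (.f (nat_lit 496) (nat_lit 625) (nat_lit 4592) (.f (nat_lit 591) (nat_lit 623) (nat_lit 5615) (.d (nat_lit 464) (nat_lit 559) (nat_lit 5583) (nat_lit 561) (nat_lit 4560)))) (.a (.p (nat_lit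 561) (.a (.f (nat_lit 625) (nat_lit 657) (nat_lit 7696) (.f (nat_lit 626) (nat_lit 658) (nat_lit 4625) (.f (nat_lit 591) (nat_lit 590) (nat_lit 590) (.d (nat_lit 627) (nat_lit 594) (nat_lit 591) (nat_lit 628) (nat_lit 3664))))) (.f (nat_lit 624) (nat_lit 656) (nat_lit 6672) (.f (nat_lit 527) (nat_lit 495) (nat_lit 7663) (.d (nat_lit 526) (nat_lit 525) (nat_lit 525) (nat_lit 562) (nat_lit 526)))))) (.a (.f (nat_lit 496) (nat_lit 625) (nat_lit 4592) (.f (nat_lit 591) (nat_lit 623) (nat_lit 5615) (.f (nat_lit 559) (nat_lit 464) (nat_lit 5583) (.d (nat_lit 558) (nat_lit 557) (nat_lit 557) (nat_lit 594) (nat_lit 3630))))) (.a (.f (nat_lit 625) (nat_lit 496) (nat_lit 4592) (.d (nat_lit 657) (nat_lit 624) (nat_lit 4624) (nat_lit 689) (nat_lit 7728))) (.p (nat_lit 561) (.a (.f (nat_lit 496) (nat_lit 464) (nat_lit 4560) (.f (nat_lit 591) (nat_lit 623) (nat_lit 5615) (.d (nat_lit 562) (nat_lit 563) (nat_lit 1583) (nat_lit 590) (nat_lit 2606))))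 (.a (.f (nat_lit 624) (nat_lit 656) (nat_lit 6672) (.f (nat_lit 527) (nat_lit 495) (nat_lit 7663) (.d (nat_lit 526) (nat_lit 525) (nat_lit 525) (nat_lit 562) (nat_lit 526)))) (.f (nat_lit 624) (nat_lit 656) (nat_lit 6672) (.f (nat_lit 496) (nat_lit 464) (nat_lit 4560) (.d (nat_lit 495) (nat_lit 463) (nat_lit 7631) (nat_lit 527) (nat_lit 7663)))))))))))))))))))))))))
noncomputable def s16671 : Cert := .r (nat_lit 16209045194715341171646716871275306957683686892461195356455940027735348122034770577593253094460450845630994664130860631885776687362426481412612740845210296128043864326974723850240) (.p (nat_lit 496) (.a (.f (nat_lit 591) (nat_lit 623) (nat_lit 5615) (.f (nat_lit 559) (nat_lit 464) (nat_lit 5583) (.f (nat_lit 593) (nat_lit 625) (nat_lit 4592) (.d (nat_lit 558) (nat_lit 557) (nat_lit 557) (nat_lit 594) (nat_lit 3630))))) (.a (.f (nat_lit 625) (nat_lit 593) (nat_lit 4592) (.f (nat_lit 624) (nat_lit 657) (nat_lit 4624) (.d (nat_lit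 623) (nat_lit 591) (nat_lit 5615) (nat_lit 655) (nat_lit 5647)))) (.a (.f (nat_lit 495) (nat_lit 463) (nat_lit 7631) (.f (nat_lit 624) (nat_lit 527) (nat_lit 7663) (.d (nat_lit 623) (nat_lit 591) (nat_lit 5615) (nat_lit 655) (nat_lit 5647)))) (.f (nat_lit 495) (nat_lit 463) (nat_lit 7631) (.f (nat_lit 624) (nat_lit 527) (nat_lit 7663) (.d (nat_lit 625) (nat_lit 593) (nat_lit 4592) (nat_lit 657) (nat_lit 4624))))))))
noncomputable def s16680 : Cert := .r (nat_lit 16209045190941378746825175519033752376695418001544274136039499599359141821789146415201104242374324120453335896589392256855012842462655896782687948212648861876611168283325328523264) (.p (nat_lit 560) (.a (.f (nat_lit 624) (nat_lit 497) (nat_lit 6640) (.f (nat_lit 623) (nat_lit 655) (nat_lit 5647) (.f (nat_lit 625) (nat_lit 657) (nat_lit 4624) (.d (nat_lit 496) (nat_lit 591) (nat_lit 5615) (nat_lit 593) (nat_lit 4592))))) (.a (.f (nat_lit 624) (nat_lit 497) (nat_lit 6640) (.f (nat_lit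 655) (nat_lit 623) (nat_lit 5647) (.f (nat_lit 656) (nat_lit 687) (nat_lit 5679) (.d (nat_lit 657) (nat_lit 625) (nat_lit 4624) (nat_lit 689) (nat_lit 4656))))) (.a s16671 (.a (.p (nat_lit 496) (.a (.f (nat_lit 591) (nat_lit 623) (nat_lit 5615) (.f (nat_lit 559) (nat_lit 464) (nat_lit 5583) (.f (nat_lit 593) (nat_lit 625) (nat_lit 4592) (.d (nat_lit 558) (nat_lit 557) (nat_lit 557) (nat_lit 594) (nat_lit 3630))))) (.f (nat_lit 497) (nat_lit 465) (nat_lit 6608) (.f (nat_lit 495) (nat_lit 463) (nat_lit 7631) (.f (nat_lit 494) (nat_lit 493) (nat_lit 493) (.f (nat_lit 526) (nat_lit 525) (nat_lit 1517) (.f (nat_lit 498) (nat_lit 527) (nat_lit 2542) (.f (nat_lit 499) (nat_lit 500) (nat_lit 1520) (.d (nat_lit 467) (nat_lit 466) (nat_lit 2511) (nat_lit 468) (nat_lit 2512)))))))))) (.f (nat_lit 497) (nat_lit 624) (nat_lit 6640) (.d (nat_lit 465) (nat_lit 433) (nat_lit 5552) (nat_lit 496) (nat_lit 6608))))))))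
noncomputable def s16681 : Cert := .r (nat_lit 16209045194715341171646716871275306957683686892461195356455940027735348122034770577593253094460450845630994664130860631885776687362426481412612740845210296128043864326974723850240) (.p (nat_lit 496) (.a (.f (nat_lit 593) (nat_lit 625) (nat_lit 4592) (.f (nat_lit 561) (nat_lit 464) (nat_lit 4560) (.f (nat_lit 591) (nat_lit 623) (nat_lit 5615) (.d (nat_lit 562) (nat_lit 563) (nat_lit 1583) (nat_lit 590) (nat_lit 2606))))) (.a (.f (nat_lit 625) (nat_lit 593) (nat_lit 4592) (.f (nat_lit 624) (nat_lit 657) (nat_lit 4624) (.d (nat_lit 623) (nat_lit 591) (nat_lit 5615) (nat_lit 655) (nat_lit 5647)))) (.a (.f (nat_lit 495) (nat_lit 463) (nat_lit 7631) (.f (nat_lit 624) (nat_lit 527) (nat_lit 7663) (.d (nat_lit 623) (nat_lit 591) (nat_lit 5615) (nat_lit 655) (nat_lit 5647)))) (.f (nat_lit 593) (nat_lit 625) (nat_lit 4592) (.f (nat_lit 464) (nat_lit 561) (nat_lit 4560) (.d (nat_lit 463) (nat_lit 431)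 (nat_lit 7599) (nat_lit 495) (nat_lit 7631))))))))
noncomputable def s16683 : Cert := .r (nat_lit 16209045190941378746825175519033752376695418001544274136039499599359141821789146415201104242374324120453335896589392256855012842462655896782687948212648861876611168283325328523264) (.p (nat_lit 560) (.a (.f (nat_lit 624) (nat_lit 497) (nat_lit 6640) (.f (nat_lit 656) (nat_lit 561) (nat_lit 6672) (.d (nat_lit 655) (nat_lit 623) (nat_lit 5647) (nat_lit 687) (nat_lit 5679)))) (.a s16681 (.a (.f (nat_lit 624) (nat_lit 497) (nat_lit 6640) (.f (nat_lit 623) (nat_lit 655) (nat_lit 5647) (.f (nat_lit 625) (nat_lit 657) (nat_lit 4624) (.d (nat_lit 496) (nat_lit 591) (nat_lit 5615) (nat_lit 593) (nat_lit 4592))))) (.a (.p (nat_lit 496) (.a (.f (nat_lit 593) (nat_lit 625) (nat_lit 4592) (.f (nat_lit 561) (nat_lit 464) (nat_lit 4560) (.f (nat_lit 591) (nat_lit 623) (nat_lit 5615) (.d (nat_lit 562) (nat_lit 563) (nat_lit 1583) (nat_lit 590) (nat_lit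 2606))))) (.f (nat_lit 497) (nat_lit 465) (nat_lit 6608) (.f (nat_lit 495) (nat_lit 463) (nat_lit 7631) (.f (nat_lit 494) (nat_lit 493) (nat_lit 493) (.f (nat_lit 526) (nat_lit 525) (nat_lit 1517) (.f (nat_lit 498) (nat_lit 527) (nat_lit 2542) (.f (nat_lit 499) (nat_lit 500) (nat_lit 1520) (.d (nat_lit 467) (nat_lit 466) (nat_lit 2511) (nat_lit 468) (nat_lit 2512)))))))))) (.f (nat_lit 497) (nat_lit 624) (nat_lit 6640) (.d (nat_lit 465) (nat_lit 433) (nat_lit 5552) (nat_lit 496) (nat_lit 6608))))))))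
noncomputable def s16696 : Cert := .r (nat_lit 16209045190941378746825175519033752376695418001544274136039499599359141821789146415201104242374324120453335896589392256855012842462655896782687948212648861876611168283325328523264) (.p (nat_lit 560) (.a (.f (nat_lit 624) (nat_lit 497) (nat_lit 6640) (.f (nat_lit 656) (nat_lit 561) (nat_lit 6672) (.d (nat_lit 655) (nat_lit 623) (nat_lit 5647) (nat_lit 687) (nat_lit 5679)))) (.a s14516 (.a (.f (nat_lit 624) (nat_lit 497) (nat_lit 6640) (.f (nat_lit 623) (nat_lit 655) (nat_lit 5647) (.f (nat_lit 625) (nat_lit 657) (nat_lit 4624) (.d (nat_lit 496) (nat_lit 591) (nat_lit 5615) (nat_lit 593) (nat_lit 4592))))) (.a (.p (nat_lit 496) (.a (.f (nat_lit 593) (nat_lit 625) (nat_lit 4592) (.f (nat_lit 591) (nat_lit 623) (nat_lit 5615) (.d (nat_lit 464) (nat_lit 559) (nat_lit 5583) (nat_lit 561) (nat_lit 4560)))) (.a (.f (nat_lit 591) (nat_lit 623) (nat_lit 5615) (.f (nat_lit 559) (nat_lit 464) (nat_lit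 5583) (.f (nat_lit 593) (nat_lit 625) (nat_lit 4592) (.d (nat_lit 558) (nat_lit 557) (nat_lit 557) (nat_lit 594) (nat_lit 3630))))) (.a (.f (nat_lit 593) (nat_lit 625) (nat_lit 4592) (.f (nat_lit 561) (nat_lit 464) (nat_lit 4560) (.f (nat_lit 591) (nat_lit 623) (nat_lit 5615) (.d (nat_lit 562) (nat_lit 563) (nat_lit 1583) (nat_lit 590) (nat_lit 2606))))) (.a (.f (nat_lit 465) (nat_lit 497) (nat_lit 6608) (.f (nat_lit 464) (nat_lit 433) (nat_lit 6576) (.d (nat_lit 463) (nat_lit 431) (nat_lit 7599) (nat_lit 495) (nat_lit 7631)))) (.f (nat_lit 497) (nat_lit 465) (nat_lit 6608) (.f (nat_lit 495) (nat_lit 463) (nat_lit 7631) (.f (nat_lit 593) (nat_lit 625) (nat_lit 4592) (.f (nat_lit 591) (nat_lit 623) (nat_lit 5615) (.f (nat_lit 494) (nat_lit 493) (nat_lit 493) (.f (nat_lit 462) (nat_lit 461) (nat_lit 3533) (.f (nat_lit 559) (nat_lit 527) (nat_lit 7630) (.d (nat_lit 558) (nat_lit 557) (nat_lit 557) (nat_lit 594) (nat_lit 3630))))))))))))))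 (.f (nat_lit 497) (nat_lit 624) (nat_lit 6640) (.d (nat_lit 465) (nat_lit 433) (nat_lit 5552) (nat_lit 496) (nat_lit 6608))))))))
noncomputable def s16707 : Cert := .r (nat_lit 16209045194715341171646716871275306957683686892461195356455940027735348122034770577593253094460450845630994664130860631885776687362426481412612740845210296128043864326974723850240) (.p (nat_lit 496) (.a (.f (nat_lit 495) (nat_lit 463) (nat_lit 7631) (.f (nat_lit 624) (nat_lit 527) (nat_lit 7663) (.d (nat_lit 623) (nat_lit 591) (nat_lit 5615) (nat_lit 655) (nat_lit 5647)))) (.a (.f (nat_lit 591) (nat_lit 623) (nat_lit 5615) (.f (nat_lit 559) (nat_lit 464) (nat_lit 5583) (.f (nat_lit 558) (nat_lit 557) (nat_lit 2573) (.f (nat_lit 495) (nat_lit 463) (nat_lit 7631) (.f (nat_lit 494) (nat_lit 493) (nat_lit 493) (.f (nat_lit 526) (nat_lit 462) (nat_lit 4558) (.f (nat_lit 561) (nat_lit 525) (nat_lit 3597) (.d (nat_lit 562) (nat_lit 563) (nat_lit 1583) (nat_lit 590) (nat_lit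 1582))))))))) (.a (.f (nat_lit 623) (nat_lit 591) (nat_lit 5615) (.f (nat_lit 624) (nat_lit 655) (nat_lit 5647) (.f (nat_lit 656) (nat_lit 561) (nat_lit 6672) (.d (nat_lit 657) (nat_lit 625) (nat_lit 4624) (nat_lit 689) (nat_lit 4656))))) (.a (.f (nat_lit 495) (nat_lit 463) (nat_lit 7631) (.f (nat_lit 624) (nat_lit 527) (nat_lit 7663) (.f (nat_lit 656) (nat_lit 561) (nat_lit 6672) (.d (nat_lit 655) (nat_lit 623) (nat_lit 5647) (nat_lit 687) (nat_lit 5679))))) (.f (nat_lit 495) (nat_lit 463) (nat_lit 7631) (.f (nat_lit 624) (nat_lit 527) (nat_lit 7663) (.f (nat_lit 656) (nat_lit 561) (nat_lit 6672) (.d (nat_lit 657) (nat_lit 625) (nat_lit 4624) (nat_lit 689) (nat_lit 4656))))))))))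
noncomputable def s16711 : Cert := .r (nat_lit 16209045194715341171646716871275306957683686892461195356455940027735348122034770577593253094460450845630994664130860631885776687362426481412612740845210296128043864326974723850240) (.p (nat_lit 496) (.a (.f (nat_lit 497) (nat_lit 465) (nat_lit 6608) (.f (nat_lit 495) (nat_lit 463) (nat_lit 7631) (.f (nat_lit 494) (nat_lit 493) (nat_lit 493) (.f (nat_lit 526) (nat_lit 525) (nat_lit 1517) (.f (nat_lit 527) (nat_lit 498) (nat_lit 2542) (.f (nat_lit 591) (nat_lit 623) (nat_lit 5615) (.d (nat_lit 462) (nat_lit 461) (nat_lit 3533) (nat_lit 559) (nat_lit 7630)))))))) (.a (.f (nat_lit 591) (nat_lit 623) (nat_lit 5615) (.f (nat_lit 559) (nat_lit 464) (nat_lit 5583) (.f (nat_lit 558) (nat_lit 557) (nat_lit 2573) (.f (nat_lit 495) (nat_lit 463) (nat_lit 7631) (.f (nat_lit 494) (nat_lit 493) (nat_lit 493) (.f (nat_lit 526) (nat_lit 462) (nat_lit 4558) (.f (nat_lit 561) (nat_lit 525) (nat_lit 3597) (.d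 (nat_lit 562) (nat_lit 563) (nat_lit 1583) (nat_lit 590) (nat_lit 1582))))))))) (.a (.f (nat_lit 497) (nat_lit 465) (nat_lit 6608) (.f (nat_lit 495) (nat_lit 463) (nat_lit 7631) (.f (nat_lit 494) (nat_lit 493) (nat_lit 493) (.f (nat_lit 526) (nat_lit 525) (nat_lit 1517) (.f (nat_lit 498) (nat_lit 527) (nat_lit 2542) (.f (nat_lit 499) (nat_lit 500) (nat_lit 1520) (.d (nat_lit 467) (nat_lit 466) (nat_lit 2511) (nat_lit 468) (nat_lit 2512)))))))) (.a (.f (nat_lit 465) (nat_lit 497) (nat_lit 6608) (.f (nat_lit 464) (nat_lit 433) (nat_lit 6576) (.d (nat_lit 463) (nat_lit 431) (nat_lit 7599) (nat_lit 495) (nat_lit 7631)))) (.f (nat_lit 465) (nat_lit 497) (nat_lit 6608) (.f (nat_lit 591) (nat_lit 623) (nat_lit 5615) (.d (nat_lit 464) (nat_lit 433) (nat_lit 6576) (nat_lit 559) (nat_lit 5583)))))))))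
noncomputable def s16712 : Cert := .r (nat_lit 16209045190941378746825175519033752376695418001544274136039499599359141821789146415201104242374324120453335896589392256855012842462655896782687948212648861876611168283325328523264) (.p (nat_lit 560) (.a (.f (nat_lit 624) (nat_lit 497) (nat_lit 6640) (.f (nat_lit 656) (nat_lit 561) (nat_lit 6672) (.d (nat_lit 655) (nat_lit 623) (nat_lit 5647) (nat_lit 687) (nat_lit 5679)))) (.a s16707 (.a (.f (nat_lit 497) (nat_lit 624) (nat_lit 6640) (.d (nat_lit 465) (nat_lit 433) (nat_lit 5552) (nat_lit 496) (nat_lit 6608))) s16711))))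
noncomputable def s16716 : Cert := .r (nat_lit 48627135572824136235203361954120948868980154190938312417255572487567366910952491308948815562273572513329881885740179672342474960239310391375554157854164203181776651122399621677056) (.p (nat_lit 560) (.a (.f (nat_lit 496) (nat_lit 625) (nat_lit 4592) (.d (nat_lit 497) (nat_lit 465) (nat_lit 6608) (nat_lit 624) (nat_lit 6640))) (.a (.f (nat_lit 624) (nat_lit 497) (nat_lit 6640) (.f (nat_lit 625) (nat_lit 657) (nat_lit 4624) (.f (nat_lit 623) (nat_lit 655) (nat_lit 5647) (.d (nat_lit 594) (nat_lit 595) (nat_lit 1615) (nat_lit 622) (nat_lit 2638))))) (.a (.f (nat_lit 625) (nat_lit 496) (nat_lit 4592) (.d (nat_lit 657) (nat_lit 624) (nat_lit 4624) (nat_lit 689) (nat_lit 7728))) (.a (.f (nat_lit 496) (nat_lit 625) (nat_lit 4592) (.f (nat_lit 497) (nat_lit 465) (nat_lit 6608) (.f (nat_lit 561) (nat_lit 464) (nat_lit 4560) (.f (nat_lit 594) (nat_lit 626) (nat_lit 4593) (.d (nat_lit 559) (nat_lit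 558) (nat_lit 558) (nat_lit 595) (nat_lit 3631)))))) (.f (nat_lit 497) (nat_lit 624) (nat_lit 6640) (.d (nat_lit 465) (nat_lit 433) (nat_lit 5552) (nat_lit 496) (nat_lit 6608))))))))
noncomputable def s16717 : Cert := .r (nat_lit 48627135572824136235203361954120948868980154190938312417255572487567366910952491308948815562273572513329881885740179672342474960239310391375554157854164203181776651122399621677056) (.p (nat_lit 560) (.a (.f (nat_lit 496) (nat_lit 625) (nat_lit 4592) (.d (nat_lit 497) (nat_lit 465) (nat_lit 6608) (nat_lit 624) (nat_lit 6640))) (.a (.f (nat_lit 624) (nat_lit 497) (nat_lit 6640) (.f (nat_lit 561) (nat_lit 656) (nat_lit 6672) (.f (nat_lit 625) (nat_lit 657) (nat_lit 4624) (.f (nat_lit 626) (nat_lit 658) (nat_lit 4625) (.d (nat_lit 591) (nat_lit 590) (nat_lit 590) (nat_lit 627) (nat_lit 3663)))))) (.a (.f (nat_lit 496) (nat_lit 625) (nat_lit 4592) (.f (nat_lit 591) (nat_lit 623) (nat_lit 5615) (.d (nat_lit 464) (nat_lit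 559) (nat_lit 5583) (nat_lit 561) (nat_lit 4560)))) (.f (nat_lit 497) (nat_lit 624) (nat_lit 6640) (.d (nat_lit 465) (nat_lit 433) (nat_lit 5552) (nat_lit 496) (nat_lit 6608)))))))
noncomputable def s16718 : Cert := .r (nat_lit 16209045190941378746825175519033752376695418001544274136039499599359141821789146415201104242374324120453335896589392256855012842462655896782687948212648861876611168283325328523264) (.p (nat_lit 593) (.a s15907 (.a s15915 (.a s15079 (.a s15236 (.a s16716 (.a s15924 (.a s16568 s16717))))))))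
noncomputable def s16723 : Cert := .r (nat_lit 16209045194715341171646716871275306957683686892461195356455940027735348122034770577593253094460450845630994664130860631885776687362426481412612740845210296128043864326974723850240) (.p (nat_lit 496) (.a (.f (nat_lit 593) (nat_lit 625) (nat_lit 4592) (.f (nat_lit 464) (nat_lit 561) (nat_lit 4560) (.d (nat_lit 463) (nat_lit 431) (nat_lit 7599) (nat_lit 495) (nat_lit 7631)))) (.a (.f (nat_lit 495) (nat_lit 463) (nat_lit 7631) (.f (nat_lit 624) (nat_lit 527) (nat_lit 7663) (.d (nat_lit 625) (nat_lit 593) (nat_lit 4592) (nat_lit 657) (nat_lit 4624)))) (.a (.f (nat_lit 495) (nat_lit 463) (nat_lit 7631) (.f (nat_lit 624) (nat_lit 527) (nat_lit 7663) (.f (nat_lit 656) (nat_lit 561) (nat_lit 6672) (.d (nat_lit 655) (nat_lit 623) (nat_lit 5647) (nat_lit 687) (nat_lit 5679))))) (.f (nat_lit 625) (nat_lit 593) (nat_lit 4592) (.f (nat_lit 624) (nat_lit 657) (nat_lit 4624) (.f (nat_lit 656) (nat_lit 561)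 (nat_lit 6672) (.d (nat_lit 655) (nat_lit 623) (nat_lit 5647) (nat_lit 687) (nat_lit 5679)))))))))
noncomputable def s16726 : Cert := .r (nat_lit 16209045194715341171646716871275306957683686892461195356455940027735348122034770577593253094460450845630994664130860631885776687362426481412612740845210296128043864326974723850240) (.p (nat_lit 496) (.a (.f (nat_lit 593) (nat_lit 625) (nat_lit 4592) (.f (nat_lit 464) (nat_lit 561) (nat_lit 4560) (.d (nat_lit 463) (nat_lit 431) (nat_lit 7599) (nat_lit 495) (nat_lit 7631)))) (.a (.f (nat_lit 497) (nat_lit 465) (nat_lit 6608) (.f (nat_lit 495) (nat_lit 463) (nat_lit 7631) (.f (nat_lit 494) (nat_lit 493) (nat_lit 493) (.f (nat_lit 526) (nat_lit 525) (nat_lit 1517) (.f (nat_lit 498) (nat_lit 527) (nat_lit 2542) (.f (nat_lit 499) (nat_lit 500) (nat_lit 1520) (.d (nat_lit 467) (nat_lit 466) (nat_lit 2511) (nat_lit 468) (nat_lit 2512)))))))) (.f (nat_lit 497) (nat_lit 465) (nat_lit 6608) (.f (nat_lit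 593) (nat_lit 625) (nat_lit 4592) (.f (nat_lit 561) (nat_lit 464) (nat_lit 4560) (.f (nat_lit 594) (nat_lit 626) (nat_lit 4593) (.d (nat_lit 559) (nat_lit 558) (nat_lit 558) (nat_lit 595) (nat_lit 3631)))))))))
noncomputable def s16727 : Cert := .r (nat_lit 16209045190941378746825175519033752376695418001544274136039499599359141821789146415201104242374324120453335896589392256855012842462655896782687948212648861876611168283325328523264) (.p (nat_lit 560) (.a (.f (nat_lit 624) (nat_lit 497) (nat_lit 6640) (.f (nat_lit 656) (nat_lit 561) (nat_lit 6672) (.d (nat_lit 655) (nat_lit 623) (nat_lit 5647) (nat_lit 687) (nat_lit 5679)))) (.a s16723 (.a (.f (nat_lit 497) (nat_lit 624) (nat_lit 6640) (.d (nat_lit 465) (nat_lit 433) (nat_lit 5552) (nat_lit 496) (nat_lit 6608))) s16726))))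
noncomputable def s16744 : Cert := .r (nat_lit 56731658168294825607297908562892747992051338238286821987559590709619423183243327532385743392248384611549018383027876526214340489683474015023770710264543038508068021832168194965504) (.p (nat_lit 594) (.a (.f (nat_lit 563) (nat_lit 562) (nat_lit 2607) (.f (nat_lit 595) (nat_lit 564) (nat_lit 2608) (.d (nat_lit 627) (nat_lit 626) (nat_lit 591) (nat_lit 628) (nat_lit 592)))) (.a (.f (nat_lit 626) (nat_lit 627) (nat_lit 591) (.f (nat_lit 561) (nat_lit 497) (nat_lit 4593) (.d (nat_lit 625) (nat_lit 496) (nat_lit 7664) (nat_lit 658) (nat_lit 4625)))) (.f (nat_lit 562) (nat_lit 563) (nat_lit 2607) (.f (nat_lit 559) (nat_lit 558) (nat_lit 3630) (.f (nat_lit 623) (nat_lit 622) (nat_lit 1614) (.f (nat_lit 527) (nat_lit 496) (nat_lit 6639) (.d (nat_lit 526) (nat_lit 494) (nat_lit 7662) (nat_lit 561) (nat_lit 526)))))))))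
noncomputable def s16746 : Cert := .r (nat_lit 24313567786412068118919722127805551499766602048892783706343517821411198094079982638638032072349136218672472393877089110726878371906819520430904500623027697202902538993093901811712) (.p (nat_lit 593) (.a (.p (nat_lit 561) (.a (.f (nat_lit 562) (nat_lit 590) (nat_lit 2606) (.d (nat_lit 563) (nat_lit 564) (nat_lit 1584) (nat_lit 594) (nat_lit 2607))) (.a (.f (nat_lit 625) (nat_lit 496) (nat_lit 7664) (.d (nat_lit 626) (nat_lit 590) (nat_lit 590) (nat_lit 658) (nat_lit 4625))) (.f (nat_lit 625) (nat_lit 496) (nat_lit 7664) (.f (nat_lit 626) (nat_lit 658) (nat_lit 4625) (.d (nat_lit 627) (nat_lit 594) (nat_lit 591) (nat_lit 628) (nat_lit 3664))))))) (.a (.p (nat_lit 594) (.a (.f (nat_lit 562) (nat_lit 563) (nat_lit 2607) (.f (nat_lit 626) (nat_lit 627) (nat_lit 591) (.d (nat_lit 561) (nat_lit 590) (nat_lit 2606) (nat_lit 658) (nat_lit 7697)))) (.a (.f (nat_lit 622) (nat_lit 623) (nat_lit 1614)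 (.f (nat_lit 590) (nat_lit 621) (nat_lit 1613) (.d (nat_lit 558) (nat_lit 557) (nat_lit 3629) (nat_lit 559) (nat_lit 3630)))) (.f (nat_lit 563) (nat_lit 562) (nat_lit 2607) (.f (nat_lit 595) (nat_lit 564) (nat_lit 2608) (.d (nat_lit 627) (nat_lit 626) (nat_lit 591) (nat_lit 628) (nat_lit 592))))))) (.a (.p (nat_lit 594) (.a (.f (nat_lit 622) (nat_lit 623) (nat_lit 1614) (.f (nat_lit 590) (nat_lit 621) (nat_lit 1613) (.d (nat_lit 558) (nat_lit 557) (nat_lit 3629) (nat_lit 559) (nat_lit 3630)))) (.f (nat_lit 563) (nat_lit 562) (nat_lit 2607) (.f (nat_lit 595) (nat_lit 564) (nat_lit 2608) (.d (nat_lit 627) (nat_lit 626) (nat_lit 591) (nat_lit 628) (nat_lit 592)))))) (.a (.p (nat_lit 594) (.a (.f (nat_lit 622) (nat_lit 623) (nat_lit 1614) (.f (nat_lit 590) (nat_lit 621) (nat_lit 1613) (.d (nat_lit 558) (nat_lit 557) (nat_lit 3629) (nat_lit 559) (nat_lit 3630)))) (.a (.f (nat_lit 626) (nat_lit 627) (nat_lit 591) (.f (nat_lit 561) (nat_lit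 497) (nat_lit 4593) (.d (nat_lit 625) (nat_lit 590) (nat_lit 590) (nat_lit 658) (nat_lit 4625)))) (.f (nat_lit 626) (nat_lit 627) (nat_lit 591) (.f (nat_lit 561) (nat_lit 497) (nat_lit 4593) (.d (nat_lit 625) (nat_lit 496) (nat_lit 7664) (nat_lit 658) (nat_lit 4625))))))) (.a (.p (nat_lit 561) (.a (.f (nat_lit 590) (nat_lit 562) (nat_lit 2606) (.f (nat_lit 557) (nat_lit 558) (nat_lit 3629) (.f (nat_lit 589) (nat_lit 556) (nat_lit 3628) (.d (nat_lit 621) (nat_lit 620) (nat_lit 1612) (nat_lit 622) (nat_lit 1613))))) (.a (.f (nat_lit 625) (nat_lit 496) (nat_lit 7664) (.d (nat_lit 626) (nat_lit 590) (nat_lit 590) (nat_lit 658) (nat_lit 4625))) (.f (nat_lit 496) (nat_lit 625) (nat_lit 7664) (.f (nat_lit 497) (nat_lit 464) (nat_lit 7632) (.f (nat_lit 498) (nat_lit 466) (nat_lit 6609) (.d (nat_lit 499) (nat_lit 500) (nat_lit 1520) (nat_lit 527) (nat_lit 1519)))))))) (.a s16744 (.p (nat_lit 561) (.a (.f (nat_lit 562) (nat_lit 590) (nat_lit 2606)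 (.d (nat_lit 563) (nat_lit 564) (nat_lit 1584) (nat_lit 594) (nat_lit 2607))) (.f (nat_lit 496) (nat_lit 625) (nat_lit 7664) (.f (nat_lit 497) (nat_lit 464) (nat_lit 7632) (.f (nat_lit 498) (nat_lit 466) (nat_lit 6609) (.d (nat_lit 499) (nat_lit 500) (nat_lit 1520) (nat_lit 527) (nat_lit 1519))))))))))))))
noncomputable def s16753 : Cert := .r (nat_lit 24313567786412068119359069178053910521525443700033992872248761680620369640281228300025906836086586206008316210879422202245425335835874295345280307855009562406907276803725265469440) (.p (nat_lit 526) (.a (.f (nat_lit 558) (nat_lit 557) (nat_lit 1549) (.f (nat_lit 494) (nat_lit 493) (nat_lit 3565) (.d (nat_lit 559) (nat_lit 462) (nat_lit 4558) (nat_lit 623) (nat_lit 7662)))) (.a (.f (nat_lit 558) (nat_lit 557) (nat_lit 1549) (.f (nat_lit 494) (nat_lit 493) (nat_lit 3565) (.f (nat_lit 590) (nat_lit 623) (nat_lit 4590) (.d (nat_lit 495) (nat_lit 463) (nat_lit 6606) (nat_lit 622) (nat_lit 6638)))))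 (.a (.f (nat_lit 494) (nat_lit 493) (nat_lit 3565) (.f (nat_lit 559) (nat_lit 623) (nat_lit 7662) (.d (nat_lit 462) (nat_lit 430) (nat_lit 4526) (nat_lit 495) (nat_lit 7630)))) (.f (nat_lit 557) (nat_lit 558) (nat_lit 1549) (.f (nat_lit 525) (nat_lit 556) (nat_lit 1548) (.d (nat_lit 497) (nat_lit 496) (nat_lit 2541) (nat_lit 498) (nat_lit 2542))))))))
noncomputable def s16872 : Cert := .r (nat_lit 56731658168294825607737255613141107013810179889428031153464834568828594729444573193773618155985834598884862200030209617732887453612528789938146517496524903712072759642799558623232) (.p (nat_lit 594) (.a (.f (nat_lit 626) (nat_lit 627) (nat_lit 591) (.f (nat_lit 590) (nat_lit 625) (nat_lit 590) (.f (nat_lit 557) (nat_lit 558) (nat_lit 3629) (.f (nat_lit 589) (nat_lit 556) (nat_lit 3628) (.d (nat_lit 621) (nat_lit 620) (nat_lit 1612) (nat_lit 622) (nat_lit 1613)))))) (.a (.f (nat_lit 627) (nat_lit 626) (nat_lit 591) (.f (nat_lit 595) (nat_lit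 628) (nat_lit 592) (.d (nat_lit 563) (nat_lit 562) (nat_lit 2607) (nat_lit 564) (nat_lit 2608)))) (.f (nat_lit 559) (nat_lit 558) (nat_lit 3630) (.f (nat_lit 560) (nat_lit 595) (nat_lit 3631) (.d (nat_lit 496) (nat_lit 464) (nat_lit 5583) (nat_lit 625) (nat_lit 4592)))))))
noncomputable def s16891 : Cert := .r (nat_lit 24313567786412068119359069178053910521525443700033992872248761680620369640281228300025906836086586206008316210879422202245425335835874295345280307855009562406907276803725265469440) (.p (nat_lit 526) (.a (.f (nat_lit 557) (nat_lit 558) (nat_lit 1549) (.f (nat_lit 525) (nat_lit 556) (nat_lit 1548) (.d (nat_lit 493) (nat_lit 492) (nat_lit 3564) (nat_lit 494) (nat_lit 3565)))) (.a (.f (nat_lit 497) (nat_lit 498) (nat_lit 2542) (.f (nat_lit 496) (nat_lit 525) (nat_lit 2541) (.f (nat_lit 560) (nat_lit 465) (nat_lit 6608) (.f (nat_lit 495) (nat_lit 463) (nat_lit 7631) (.f (nat_lit 494) (nat_lit 493) (nat_lit 493) (.d (nat_lit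 462) (nat_lit 461) (nat_lit 3533) (nat_lit 559) (nat_lit 7630))))))) (.a (.f (nat_lit 558) (nat_lit 557) (nat_lit 1549) (.f (nat_lit 494) (nat_lit 493) (nat_lit 3565) (.f (nat_lit 462) (nat_lit 559) (nat_lit 4558) (.f (nat_lit 463) (nat_lit 431) (nat_lit 6574) (.f (nat_lit 495) (nat_lit 590) (nat_lit 6606) (.f (nat_lit 496) (nat_lit 560) (nat_lit 7631) (.d (nat_lit 461) (nat_lit 429) (nat_lit 7597) (nat_lit 460) (nat_lit 460)))))))) (.f (nat_lit 557) (nat_lit 558) (nat_lit 1549) (.f (nat_lit 525) (nat_lit 556) (nat_lit 1548) (.d (nat_lit 497) (nat_lit 496) (nat_lit 2541) (nat_lit 498) (nat_lit 2542))))))))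
noncomputable def s17029 : Cert := .r (nat_lit 56731658168294825607297908562892747992051338238286821987559590709619423183243327532385743392248384611549018383027876526214340489683474015023770710264543038508068021832168194965504) (.p (nat_lit 594) (.a (.f (nat_lit 559) (nat_lit 558) (nat_lit 3630) (.f (nat_lit 560) (nat_lit 595) (nat_lit 3631) (.f (nat_lit 626) (nat_lit 627) (nat_lit 591) (.f (nat_lit 625) (nat_lit 590) (nat_lit 590) (.d (nat_lit 561) (nat_lit 657) (nat_lit 7696) (nat_lit 658) (nat_lit 4625)))))) (.a (.f (nat_lit 626) (nat_lit 627) (nat_lit 591) (.f (nat_lit 561) (nat_lit 497) (nat_lit 4593) (.d (nat_lit 625) (nat_lit 590) (nat_lit 590) (nat_lit 658) (nat_lit 4625)))) (.a (.f (nat_lit 626) (nat_lit 627) (nat_lit 591) (.f (nat_lit 590) (nat_lit 625) (nat_lit 590) (.d (nat_lit 558) (nat_lit 557) (nat_lit 3629) (nat_lit 559) (nat_lit 3630)))) (.a (.f (nat_lit 559) (nat_lit 558) (nat_lit 3630) (.f (nat_lit 595) (nat_lit 560)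 (nat_lit 3631) (.d (nat_lit 627) (nat_lit 626) (nat_lit 591) (nat_lit 628) (nat_lit 592)))) (.f (nat_lit 558) (nat_lit 559) (nat_lit 3630) (.f (nat_lit 590) (nat_lit 557) (nat_lit 3629) (.f (nat_lit 621) (nat_lit 622) (nat_lit 1613) (.f (nat_lit 589) (nat_lit 620) (nat_lit 1612) (.f (nat_lit 560) (nat_lit 561) (nat_lit 2605) (.f (nat_lit 496) (nat_lit 625) (nat_lit 4592) (.f (nat_lit 495) (nat_lit 463) (nat_lit 7631) (.d (nat_lit 494) (nat_lit 493) (nat_lit 493) (nat_lit 526) (nat_lit 5613))))))))))))))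
noncomputable def s17045 : Cert := .r (nat_lit 16209045194715341171646716871275306957683686892461195356455940027735348122034770577593253094460450845630994664130860631885776687362426481412612740845210296128043864326974723850240) (.p (nat_lit 624) (.a (.f (nat_lit 656) (nat_lit 561) (nat_lit 6672) (.d (nat_lit 527) (nat_lit 495) (nat_lit 7663) (nat_lit 559) (nat_lit 7695))) (.a (.f (nat_lit 656) (nat_lit 561) (nat_lit 6672) (.d (nat_lit 655) (nat_lit 623) (nat_lit 5647) (nat_lit 687) (nat_lit 5679))) (.a (.f (nat_lit 527) (nat_lit 495) (nat_lit 7663) (.f (nat_lit 559) (nat_lit 656) (nat_lit 7695) (.f (nat_lit 623) (nat_lit 655) (nat_lit 5647) (.f (nat_lit 591) (nat_lit 496) (nat_lit 5615) (.f (nat_lit 558) (nat_lit 557) (nat_lit 2573) (.f (nat_lit 622) (nat_lit 654) (nat_lit 5646) (.d (nat_lit 593) (nat_lit 594) (nat_lit 3630) (nat_lit 621) (nat_lit 2637)))))))) (.f (nat_lit 623) (nat_lit 655) (nat_lit 5647) (.f (nat_lit 496) (nat_lit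 591) (nat_lit 5615) (.d (nat_lit 495) (nat_lit 463) (nat_lit 7631) (nat_lit 527) (nat_lit 7663))))))))
noncomputable def s17046 : Cert := .r (nat_lit 16209045190941378746825175519033752376695418001544274136039499599359141821789146415201104242374324120453335896589392256855012842462655896782687948212648861876611168283325328523264) (.p (nat_lit 560) (.a (.f (nat_lit 624) (nat_lit 497) (nat_lit 6640) (.f (nat_lit 656) (nat_lit 561) (nat_lit 6672) (.d (nat_lit 655) (nat_lit 623) (nat_lit 5647) (nat_lit 687) (nat_lit 5679)))) (.a s17045 (.a (.f (nat_lit 497) (nat_lit 624) (nat_lit 6640) (.d (nat_lit 465) (nat_lit 433) (nat_lit 5552) (nat_lit 496) (nat_lit 6608))) s16711))))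
noncomputable def s17059 : Cert := .r (nat_lit 16209045194715341171646716871275306957683686892461195356455940027735348122034770577593253094460450845630994664130860631885776687362426481412612740845210296128043864326974723850240) (.p (nat_lit 496) (.a (.f (nat_lit 593) (nat_lit 625) (nat_lit 4592) (.f (nat_lit 464) (nat_lit 561) (nat_lit 4560) (.d (nat_lit 463) (nat_lit 431) (nat_lit 7599) (nat_lit 495) (nat_lit 7631)))) (.a (.f (nat_lit 495) (nat_lit 463) (nat_lit 7631) (.f (nat_lit 624) (nat_lit 527) (nat_lit 7663) (.d (nat_lit 625) (nat_lit 593) (nat_lit 4592) (nat_lit 657) (nat_lit 4624)))) (.a (.f (nat_lit 495) (nat_lit 463) (nat_lit 7631) (.f (nat_lit 624) (nat_lit 527) (nat_lit 7663) (.f (nat_lit 656) (nat_lit 561) (nat_lit 6672) (.d (nat_lit 657) (nat_lit 625) (nat_lit 4624) (nat_lit 689) (nat_lit 4656))))) (.a (.f (nat_lit 625) (nat_lit 593) (nat_lit 4592) (.f (nat_lit 624) (nat_lit 657) (nat_lit 4624) (.f (nat_lit 656) (nat_lit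 561) (nat_lit 6672) (.f (nat_lit 559) (nat_lit 527) (nat_lit 7695) (.d (nat_lit 591) (nat_lit 464) (nat_lit 5583) (nat_lit 688) (nat_lit 7727)))))) (.f (nat_lit 495) (nat_lit 463) (nat_lit 7631) (.f (nat_lit 624) (nat_lit 527) (nat_lit 7663) (.f (nat_lit 656) (nat_lit 561) (nat_lit 6672) (.f (nat_lit 687) (nat_lit 655) (nat_lit 5679) (.f (nat_lit 688) (nat_lit 719) (nat_lit 5711) (.d (nat_lit 689) (nat_lit 657) (nat_lit 4656) (nat_lit 721) (nat_lit 4688))))))))))))
noncomputable def s17060 : Cert := .r (nat_lit 16209045190941378746825175519033752376695418001544274136039499599359141821789146415201104242374324120453335896589392256855012842462655896782687948212648861876611168283325328523264) (.p (nat_lit 560) (.a (.f (nat_lit 497) (nat_lit 624) (nat_lit 6640) (.d (nat_lit 465) (nat_lit 433) (nat_lit 5552) (nat_lit 496) (nat_lit 6608))) (.a (.f (nat_lit 624) (nat_lit 497) (nat_lit 6640) (.f (nat_lit 656) (nat_lit 561) (nat_lit 6672) (.d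 (nat_lit 527) (nat_lit 495) (nat_lit 7663) (nat_lit 559) (nat_lit 7695)))) (.a s17059 s16726))))
noncomputable def s17063 : Cert := .r (nat_lit 16209045190941378746825175519033752376695418001544274136039499599359141821789146415201104242374324120453335896589392256855012842462655896782687948212648861876611168283325328523264) (.p (nat_lit 560) (.a (.f (nat_lit 624) (nat_lit 497) (nat_lit 6640) (.f (nat_lit 623) (nat_lit 655) (nat_lit 5647) (.f (nat_lit 625) (nat_lit 657) (nat_lit 4624) (.d (nat_lit 496) (nat_lit 591) (nat_lit 5615) (nat_lit 593) (nat_lit 4592))))) (.a (.f (nat_lit 497) (nat_lit 624) (nat_lit 6640) (.d (nat_lit 465) (nat_lit 433) (nat_lit 5552) (nat_lit 561) (nat_lit 5584))) (.a s14516 s14522))))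
noncomputable def s17066 : Cert := .r (nat_lit 2636082301490154130553049906847254995431463155255029277207473968327248582424699924015062902013998549111281783574328649486254843391891191224028426863788181946368) (.p (nat_lit 592) (.a s14523 (.a (.p (nat_lit 527) (.a (.p (nat_lit 526) (.a (.f (nat_lit 497) (nat_lit 498) (nat_lit 2542) (.f (nat_lit 525) (nat_lit 496) (nat_lit 2541) (.d (nat_lit 493) (nat_lit 492) (nat_lit 3564) (nat_lit 494) (nat_lit 3565)))) (.a (.f (nat_lit 493) (nat_lit 494) (nat_lit 3565) (.f (nat_lit 525) (nat_lit 492) (nat_lit 3564) (.d (nat_lit 557) (nat_lit 556) (nat_lit 1548) (nat_lit 558) (nat_lit 1549)))) (.f (nat_lit 497) (nat_lit 498) (nat_lit 2542) (.f (nat_lit 561) (nat_lit 562) (nat_lit 526) (.f (nat_lit 593) (nat_lit 624) (nat_lit 5616) (.d (nat_lit 496) (nat_lit 464) (nat_lit 7632) (nat_lit 625) (nat_lit 7664)))))))) (.a s16101 (.a (.p (nat_lit 593) (.a s16117 (.a (.p (nat_lit 526) (.a (.f (nat_lit 557)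 (nat_lit 558) (nat_lit 1549) (.f (nat_lit 525) (nat_lit 556) (nat_lit 1548) (.d (nat_lit 493) (nat_lit 492) (nat_lit 3564) (nat_lit 494) (nat_lit 3565)))) (.a (.p (nat_lit 591) (.a (.f (nat_lit 494) (nat_lit 493) (nat_lit 3565) (.f (nat_lit 559) (nat_lit 623) (nat_lit 7662) (.d (nat_lit 462) (nat_lit 430) (nat_lit 4526) (nat_lit 495) (nat_lit 7630)))) (.a (.f (nat_lit 562) (nat_lit 561) (nat_lit 526) (.f (nat_lit 594) (nat_lit 563) (nat_lit 2607) (.f (nat_lit 626) (nat_lit 627) (nat_lit 591) (.f (nat_lit 625) (nat_lit 590) (nat_lit 590) (.f (nat_lit 623) (nat_lit 622) (nat_lit 1614) (.f (nat_lit 624) (nat_lit 595) (nat_lit 1615) (.f (nat_lit 657) (nat_lit 689) (nat_lit 6705) (.f (nat_lit 658) (nat_lit 659) (nat_lit 623) (.f (nat_lit 655) (nat_lit 654) (nat_lit 1646) (.f (nat_lit 687) (nat_lit 719) (nat_lit 6735) (.d (nat_lit 686) (nat_lit 656) (nat_lit 1678) (nat_lit 718) (nat_lit 5710)))))))))))) (.f (nat_lit 562) (nat_lit 561) (nat_lit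 526) (.f (nat_lit 594) (nat_lit 563) (nat_lit 2607) (.f (nat_lit 626) (nat_lit 627) (nat_lit 591) (.f (nat_lit 590) (nat_lit 625) (nat_lit 590) (.f (nat_lit 493) (nat_lit 494) (nat_lit 3565) (.f (nat_lit 525) (nat_lit 492) (nat_lit 3564) (.f (nat_lit 556) (nat_lit 557) (nat_lit 1548) (.f (nat_lit 524) (nat_lit 555) (nat_lit 1547) (.f (nat_lit 620) (nat_lit 588) (nat_lit 6636) (.d (nat_lit 621) (nat_lit 589) (nat_lit 1612) (nat_lit 622) (nat_lit 1613)))))))))))))) (.a (.p (nat_lit 591) (.a (.f (nat_lit 494) (nat_lit 493) (nat_lit 3565) (.f (nat_lit 559) (nat_lit 623) (nat_lit 7662) (.d (nat_lit 462) (nat_lit 430) (nat_lit 4526) (nat_lit 495) (nat_lit 7630)))) (.a (.f (nat_lit 562) (nat_lit 561) (nat_lit 526) (.f (nat_lit 594) (nat_lit 563) (nat_lit 2607) (.f (nat_lit 626) (nat_lit 627) (nat_lit 591) (.f (nat_lit 625) (nat_lit 590) (nat_lit 590) (.f (nat_lit 623) (nat_lit 622) (nat_lit 1614) (.f (nat_lit 624) (nat_lit 595) (nat_lit 1615)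 (.f (nat_lit 657) (nat_lit 689) (nat_lit 6705) (.f (nat_lit 658) (nat_lit 659) (nat_lit 623) (.f (nat_lit 655) (nat_lit 654) (nat_lit 1646) (.f (nat_lit 687) (nat_lit 719) (nat_lit 6735) (.d (nat_lit 686) (nat_lit 656) (nat_lit 1678) (nat_lit 718) (nat_lit 5710)))))))))))) (.f (nat_lit 558) (nat_lit 557) (nat_lit 1549) (.f (nat_lit 494) (nat_lit 493) (nat_lit 3565) (.d (nat_lit 559) (nat_lit 462) (nat_lit 4558) (nat_lit 594) (nat_lit 3630))))))) (.a (.p (nat_lit 591) (.a (.f (nat_lit 562) (nat_lit 561) (nat_lit 526) (.f (nat_lit 594) (nat_lit 563) (nat_lit 2607) (.f (nat_lit 626) (nat_lit 627) (nat_lit 591) (.f (nat_lit 625) (nat_lit 590) (nat_lit 590) (.f (nat_lit 623) (nat_lit 622) (nat_lit 1614) (.f (nat_lit 624) (nat_lit 595) (nat_lit 1615) (.f (nat_lit 657) (nat_lit 689) (nat_lit 6705) (.f (nat_lit 658) (nat_lit 659) (nat_lit 623) (.f (nat_lit 655) (nat_lit 654) (nat_lit 1646) (.f (nat_lit 687) (nat_lit 719) (nat_lit 6735) (.d (nat_lit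 686) (nat_lit 656) (nat_lit 1678) (nat_lit 718) (nat_lit 5710)))))))))))) (.a (.f (nat_lit 558) (nat_lit 557) (nat_lit 1549) (.f (nat_lit 559) (nat_lit 594) (nat_lit 3630) (.f (nat_lit 495) (nat_lit 624) (nat_lit 4591) (.d (nat_lit 463) (nat_lit 431) (nat_lit 5550) (nat_lit 590) (nat_lit 5582))))) (.a (.f (nat_lit 558) (nat_lit 557) (nat_lit 1549) (.f (nat_lit 594) (nat_lit 559) (nat_lit 3630) (.d (nat_lit 562) (nat_lit 561) (nat_lit 526) (nat_lit 563) (nat_lit 2607)))) (.f (nat_lit 557) (nat_lit 558) (nat_lit 1549) (.f (nat_lit 525) (nat_lit 556) (nat_lit 1548) (.f (nat_lit 492) (nat_lit 493) (nat_lit 3564) (.f (nat_lit 524) (nat_lit 491) (nat_lit 3563) (.f (nat_lit 621) (nat_lit 589) (nat_lit 7660) (.f (nat_lit 622) (nat_lit 590) (nat_lit 1613) (.d (nat_lit 623) (nat_lit 620) (nat_lit 2636) (nat_lit 624) (nat_lit 2637)))))))))))) (.a (.p (nat_lit 591) (.a (.f (nat_lit 494) (nat_lit 493) (nat_lit 3565) (.f (nat_lit 559) (nat_lit 623)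 (nat_lit 7662) (.d (nat_lit 462) (nat_lit 430) (nat_lit 4526) (nat_lit 495) (nat_lit 7630)))) (.a (.f (nat_lit 562) (nat_lit 561) (nat_lit 526) (.f (nat_lit 594) (nat_lit 563) (nat_lit 2607) (.f (nat_lit 626) (nat_lit 627) (nat_lit 591) (.f (nat_lit 625) (nat_lit 590) (nat_lit 590) (.f (nat_lit 623) (nat_lit 622) (nat_lit 1614) (.f (nat_lit 624) (nat_lit 595) (nat_lit 1615) (.f (nat_lit 657) (nat_lit 689) (nat_lit 6705) (.f (nat_lit 658) (nat_lit 659) (nat_lit 623) (.f (nat_lit 655) (nat_lit 654) (nat_lit 1646) (.f (nat_lit 687) (nat_lit 719) (nat_lit 6735) (.d (nat_lit 686) (nat_lit 656) (nat_lit 1678) (nat_lit 718) (nat_lit 5710)))))))))))) (.f (nat_lit 562) (nat_lit 561) (nat_lit 526) (.f (nat_lit 594) (nat_lit 563) (nat_lit 2607) (.f (nat_lit 559) (nat_lit 558) (nat_lit 3630) (.f (nat_lit 494) (nat_lit 493) (nat_lit 3565) (.d (nat_lit 462) (nat_lit 430) (nat_lit 4526) (nat_lit 495) (nat_lit 7630))))))))) (.p (nat_lit 591) (.a (.f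 (nat_lit 562) (nat_lit 561) (nat_lit 526) (.f (nat_lit 594) (nat_lit 563) (nat_lit 2607) (.f (nat_lit 626) (nat_lit 627) (nat_lit 591) (.f (nat_lit 625) (nat_lit 590) (nat_lit 590) (.f (nat_lit 623) (nat_lit 622) (nat_lit 1614) (.f (nat_lit 624) (nat_lit 595) (nat_lit 1615) (.f (nat_lit 657) (nat_lit 689) (nat_lit 6705) (.f (nat_lit 658) (nat_lit 659) (nat_lit 623) (.f (nat_lit 655) (nat_lit 654) (nat_lit 1646) (.f (nat_lit 687) (nat_lit 719) (nat_lit 6735) (.d (nat_lit 686) (nat_lit 656) (nat_lit 1678) (nat_lit 718) (nat_lit 5710)))))))))))) (.a (.f (nat_lit 558) (nat_lit 557) (nat_lit 1549) (.f (nat_lit 559) (nat_lit 594) (nat_lit 3630) (.f (nat_lit 495) (nat_lit 624) (nat_lit 4591) (.d (nat_lit 463) (nat_lit 431) (nat_lit 5550) (nat_lit 590) (nat_lit 5582))))) (.a (.f (nat_lit 558) (nat_lit 557) (nat_lit 1549) (.f (nat_lit 594) (nat_lit 559) (nat_lit 3630) (.d (nat_lit 562) (nat_lit 561) (nat_lit 526) (nat_lit 563) (nat_lit 2607))))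 (.f (nat_lit 557) (nat_lit 558) (nat_lit 1549) (.f (nat_lit 561) (nat_lit 562) (nat_lit 526) (.f (nat_lit 556) (nat_lit 525) (nat_lit 1548) (.f (nat_lit 590) (nat_lit 589) (nat_lit 3628) (.f (nat_lit 625) (nat_lit 626) (nat_lit 590) (.f (nat_lit 624) (nat_lit 656) (nat_lit 5648) (.f (nat_lit 622) (nat_lit 621) (nat_lit 1613) (.f (nat_lit 559) (nat_lit 495) (nat_lit 4591) (.d (nat_lit 623) (nat_lit 494) (nat_lit 7662) (nat_lit 654) (nat_lit 5646)))))))))))))))))))) (.a (.p (nat_lit 591) (.a s16182 (.a (.p (nat_lit 594) (.a (.f (nat_lit 622) (nat_lit 623) (nat_lit 1614) (.f (nat_lit 590) (nat_lit 621) (nat_lit 1613) (.d (nat_lit 626) (nat_lit 625) (nat_lit 590) (nat_lit 627) (nat_lit 591)))) (.a (.f (nat_lit 622) (nat_lit 623) (nat_lit 1614) (.f (nat_lit 590) (nat_lit 621) (nat_lit 1613) (.f (nat_lit 557) (nat_lit 558) (nat_lit 3629) (.f (nat_lit 589) (nat_lit 556) (nat_lit 3628) (.f (nat_lit 493) (nat_lit 525) (nat_lit 4589) (.f (nat_lit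 494) (nat_lit 526) (nat_lit 3565) (.d (nat_lit 495) (nat_lit 492) (nat_lit 492) (nat_lit 496) (nat_lit 493)))))))) (.a (.f (nat_lit 626) (nat_lit 627) (nat_lit 591) (.f (nat_lit 590) (nat_lit 625) (nat_lit 590) (.f (nat_lit 557) (nat_lit 558) (nat_lit 3629) (.f (nat_lit 589) (nat_lit 556) (nat_lit 3628) (.d (nat_lit 621) (nat_lit 620) (nat_lit 1612) (nat_lit 622) (nat_lit 1613)))))) (.a (.f (nat_lit 623) (nat_lit 622) (nat_lit 1614) (.f (nat_lit 595) (nat_lit 624) (nat_lit 1615) (.d (nat_lit 563) (nat_lit 562) (nat_lit 2607) (nat_lit 564) (nat_lit 2608)))) (.f (nat_lit 626) (nat_lit 627) (nat_lit 591) (.f (nat_lit 625) (nat_lit 590) (nat_lit 590) (.f (nat_lit 563) (nat_lit 562) (nat_lit 2607) (.f (nat_lit 595) (nat_lit 564) (nat_lit 2608) (.d (nat_lit 596) (nat_lit 597) (nat_lit 1617) (nat_lit 624) (nat_lit 1616))))))))))) (.a s16219 (.a (.p (nat_lit 526) (.a (.f (nat_lit 558) (nat_lit 557) (nat_lit 1549) (.f (nat_lit 494) (nat_lit 493)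 (nat_lit 3565) (.d (nat_lit 559) (nat_lit 462) (nat_lit 4558) (nat_lit 594) (nat_lit 3630)))) (.a (.f (nat_lit 557) (nat_lit 558) (nat_lit 1549) (.f (nat_lit 525) (nat_lit 556) (nat_lit 1548) (.f (nat_lit 492) (nat_lit 493) (nat_lit 3564) (.f (nat_lit 524) (nat_lit 491) (nat_lit 3563) (.f (nat_lit 621) (nat_lit 589) (nat_lit 7660) (.f (nat_lit 622) (nat_lit 590) (nat_lit 1613) (.d (nat_lit 623) (nat_lit 620) (nat_lit 2636) (nat_lit 624) (nat_lit 2637)))))))) (.a (.f (nat_lit 494) (nat_lit 493) (nat_lit 3565) (.f (nat_lit 623) (nat_lit 559) (nat_lit 7662) (.f (nat_lit 594) (nat_lit 622) (nat_lit 1614) (.f (nat_lit 595) (nat_lit 624) (nat_lit 1615) (.d (nat_lit 563) (nat_lit 562) (nat_lit 2607) (nat_lit 564) (nat_lit 2608)))))) (.f (nat_lit 558) (nat_lit 557) (nat_lit 1549) (.f (nat_lit 559) (nat_lit 594) (nat_lit 3630) (.d (nat_lit 623) (nat_lit 496) (nat_lit 6639) (nat_lit 655) (nat_lit 7694)))))))) (.a s16233 (.a (.p (nat_lit 559) (.a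 (.f (nat_lit 623) (nat_lit 496) (nat_lit 6639) (.d (nat_lit 622) (nat_lit 594) (nat_lit 1614) (nat_lit 654) (nat_lit 5646))) (.a (.f (nat_lit 624) (nat_lit 495) (nat_lit 4591) (.d (nat_lit 656) (nat_lit 623) (nat_lit 4623) (nat_lit 688) (nat_lit 7727))) (.f (nat_lit 495) (nat_lit 624) (nat_lit 4591) (.f (nat_lit 494) (nat_lit 462) (nat_lit 7630) (.d (nat_lit 493) (nat_lit 492) (nat_lit 492) (nat_lit 496) (nat_lit 493))))))) (.a s16249 (.a (.p (nat_lit 559) (.a (.f (nat_lit 495) (nat_lit 624) (nat_lit 4591) (.f (nat_lit 590) (nat_lit 622) (nat_lit 5614) (.d (nat_lit 558) (nat_lit 463) (nat_lit 5582) (nat_lit 557) (nat_lit 3629)))) (.a (.f (nat_lit 558) (nat_lit 594) (nat_lit 3630) (.d (nat_lit 557) (nat_lit 526) (nat_lit 1549) (nat_lit 556) (nat_lit 2572))) (.f (nat_lit 495) (nat_lit 624) (nat_lit 4591) (.f (nat_lit 494) (nat_lit 462) (nat_lit 7630) (.d (nat_lit 493) (nat_lit 492) (nat_lit 492) (nat_lit 496) (nat_lit 493))))))) (.p (nat_lit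 526) (.a (.f (nat_lit 494) (nat_lit 493) (nat_lit 3565) (.f (nat_lit 559) (nat_lit 623) (nat_lit 7662) (.d (nat_lit 462) (nat_lit 430) (nat_lit 4526) (nat_lit 495) (nat_lit 7630)))) (.a (.f (nat_lit 557) (nat_lit 558) (nat_lit 1549) (.f (nat_lit 525) (nat_lit 556) (nat_lit 1548) (.d (nat_lit 493) (nat_lit 492) (nat_lit 3564) (nat_lit 494) (nat_lit 3565)))) (.f (nat_lit 558) (nat_lit 557) (nat_lit 1549) (.f (nat_lit 559) (nat_lit 594) (nat_lit 3630) (.f (nat_lit 495) (nat_lit 624) (nat_lit 4591) (.d (nat_lit 463) (nat_lit 431) (nat_lit 5550) (nat_lit 590) (nat_lit 5582))))))))))))))))) (.a s16281 (.a s16286 (.a (.p (nat_lit 591) (.a s16182 (.a (.p (nat_lit 594) (.a (.f (nat_lit 622) (nat_lit 623) (nat_lit 1614) (.f (nat_lit 590) (nat_lit 621) (nat_lit 1613) (.d (nat_lit 626) (nat_lit 625) (nat_lit 590) (nat_lit 627) (nat_lit 591)))) (.a (.f (nat_lit 622) (nat_lit 623) (nat_lit 1614) (.f (nat_lit 590) (nat_lit 621) (nat_lit 1613) (.f (nat_lit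 557) (nat_lit 558) (nat_lit 3629) (.f (nat_lit 589) (nat_lit 556) (nat_lit 3628) (.f (nat_lit 493) (nat_lit 525) (nat_lit 4589) (.f (nat_lit 494) (nat_lit 526) (nat_lit 3565) (.d (nat_lit 495) (nat_lit 492) (nat_lit 492) (nat_lit 496) (nat_lit 493)))))))) (.a (.f (nat_lit 626) (nat_lit 627) (nat_lit 591) (.f (nat_lit 590) (nat_lit 625) (nat_lit 590) (.f (nat_lit 557) (nat_lit 558) (nat_lit 3629) (.f (nat_lit 589) (nat_lit 556) (nat_lit 3628) (.d (nat_lit 621) (nat_lit 620) (nat_lit 1612) (nat_lit 622) (nat_lit 1613)))))) (.a (.f (nat_lit 623) (nat_lit 622) (nat_lit 1614) (.f (nat_lit 595) (nat_lit 624) (nat_lit 1615) (.d (nat_lit 627) (nat_lit 626) (nat_lit 591) (nat_lit 628) (nat_lit 592)))) (.f (nat_lit 626) (nat_lit 627) (nat_lit 591) (.f (nat_lit 625) (nat_lit 590) (nat_lit 590) (.d (nat_lit 561) (nat_lit 496) (nat_lit 7664) (nat_lit 658) (nat_lit 4625))))))))) (.a s16219 (.a (.p (nat_lit 526) (.a (.f (nat_lit 558) (nat_lit 557)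 (nat_lit 1549) (.f (nat_lit 494) (nat_lit 493) (nat_lit 3565) (.d (nat_lit 559) (nat_lit 462) (nat_lit 4558) (nat_lit 594) (nat_lit 3630)))) (.a (.f (nat_lit 557) (nat_lit 558) (nat_lit 1549) (.f (nat_lit 525) (nat_lit 556) (nat_lit 1548) (.f (nat_lit 492) (nat_lit 493) (nat_lit 3564) (.f (nat_lit 524) (nat_lit 491) (nat_lit 3563) (.f (nat_lit 621) (nat_lit 589) (nat_lit 7660) (.f (nat_lit 622) (nat_lit 590) (nat_lit 1613) (.d (nat_lit 623) (nat_lit 620) (nat_lit 2636) (nat_lit 624) (nat_lit 2637)))))))) (.a (.f (nat_lit 494) (nat_lit 493) (nat_lit 3565) (.f (nat_lit 623) (nat_lit 559) (nat_lit 7662) (.f (nat_lit 622) (nat_lit 594) (nat_lit 1614) (.d (nat_lit 621) (nat_lit 590) (nat_lit 1613) (nat_lit 620) (nat_lit 2636))))) (.f (nat_lit 558) (nat_lit 557) (nat_lit 1549) (.f (nat_lit 559) (nat_lit 594) (nat_lit 3630) (.d (nat_lit 623) (nat_lit 496) (nat_lit 6639) (nat_lit 655) (nat_lit 7694)))))))) (.a s16233 (.a (.p (nat_lit 559) (.a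 (.f (nat_lit 623) (nat_lit 496) (nat_lit 6639) (.d (nat_lit 622) (nat_lit 594) (nat_lit 1614) (nat_lit 654) (nat_lit 5646))) (.a (.f (nat_lit 624) (nat_lit 495) (nat_lit 4591) (.d (nat_lit 656) (nat_lit 623) (nat_lit 4623) (nat_lit 688) (nat_lit 7727))) (.f (nat_lit 495) (nat_lit 624) (nat_lit 4591) (.f (nat_lit 494) (nat_lit 462) (nat_lit 7630) (.d (nat_lit 493) (nat_lit 492) (nat_lit 492) (nat_lit 496) (nat_lit 493))))))) (.a s16249 (.a (.p (nat_lit 559) (.a (.f (nat_lit 495) (nat_lit 624) (nat_lit 4591) (.f (nat_lit 590) (nat_lit 622) (nat_lit 5614) (.d (nat_lit 558) (nat_lit 463) (nat_lit 5582) (nat_lit 557) (nat_lit 3629)))) (.a (.f (nat_lit 558) (nat_lit 594) (nat_lit 3630) (.d (nat_lit 557) (nat_lit 526) (nat_lit 1549) (nat_lit 556) (nat_lit 2572))) (.f (nat_lit 495) (nat_lit 624) (nat_lit 4591) (.f (nat_lit 494) (nat_lit 462) (nat_lit 7630) (.d (nat_lit 493) (nat_lit 492) (nat_lit 492) (nat_lit 496) (nat_lit 493))))))) (.p (nat_lit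 526) (.a (.f (nat_lit 494) (nat_lit 493) (nat_lit 3565) (.f (nat_lit 559) (nat_lit 623) (nat_lit 7662) (.d (nat_lit 462) (nat_lit 430) (nat_lit 4526) (nat_lit 495) (nat_lit 7630)))) (.a (.f (nat_lit 557) (nat_lit 558) (nat_lit 1549) (.f (nat_lit 525) (nat_lit 556) (nat_lit 1548) (.d (nat_lit 493) (nat_lit 492) (nat_lit 3564) (nat_lit 494) (nat_lit 3565)))) (.f (nat_lit 558) (nat_lit 557) (nat_lit 1549) (.f (nat_lit 559) (nat_lit 594) (nat_lit 3630) (.f (nat_lit 495) (nat_lit 624) (nat_lit 4591) (.d (nat_lit 463) (nat_lit 431) (nat_lit 5550) (nat_lit 590) (nat_lit 5582))))))))))))))))) (.a s16303 (.a (.p (nat_lit 526) (.a (.f (nat_lit 557) (nat_lit 558) (nat_lit 1549) (.f (nat_lit 525) (nat_lit 556) (nat_lit 1548) (.d (nat_lit 493) (nat_lit 492) (nat_lit 3564) (nat_lit 494) (nat_lit 3565)))) (.a s16317 (.a (.p (nat_lit 591) (.a (.f (nat_lit 494) (nat_lit 493) (nat_lit 3565) (.f (nat_lit 559) (nat_lit 623) (nat_lit 7662) (.d (nat_lit 462)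 (nat_lit 430) (nat_lit 4526) (nat_lit 495) (nat_lit 7630)))) (.a (.f (nat_lit 558) (nat_lit 557) (nat_lit 1549) (.f (nat_lit 494) (nat_lit 493) (nat_lit 3565) (.f (nat_lit 590) (nat_lit 623) (nat_lit 4590) (.d (nat_lit 495) (nat_lit 463) (nat_lit 6606) (nat_lit 622) (nat_lit 6638))))) (.a (.f (nat_lit 558) (nat_lit 557) (nat_lit 1549) (.f (nat_lit 494) (nat_lit 493) (nat_lit 3565) (.d (nat_lit 559) (nat_lit 462) (nat_lit 4558) (nat_lit 594) (nat_lit 3630)))) (.f (nat_lit 558) (nat_lit 557) (nat_lit 1549) (.f (nat_lit 559) (nat_lit 594) (nat_lit 3630) (.f (nat_lit 495) (nat_lit 624) (nat_lit 4591) (.d (nat_lit 463) (nat_lit 431) (nat_lit 5550) (nat_lit 590) (nat_lit 5582))))))))) (.a (.p (nat_lit 525) (.a (.f (nat_lit 492) (nat_lit 493) (nat_lit 3564) (.f (nat_lit 524) (nat_lit 491) (nat_lit 3563) (.d (nat_lit 556) (nat_lit 555) (nat_lit 1547) (nat_lit 557) (nat_lit 1548)))) (.a (.f (nat_lit 492) (nat_lit 493) (nat_lit 3564) (.f (nat_lit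 524) (nat_lit 491) (nat_lit 3563) (.f (nat_lit 555) (nat_lit 556) (nat_lit 1547) (.f (nat_lit 523) (nat_lit 554) (nat_lit 1546) (.f (nat_lit 495) (nat_lit 496) (nat_lit 2540) (.f (nat_lit 559) (nat_lit 558) (nat_lit 523) (.f (nat_lit 591) (nat_lit 624) (nat_lit 4591) (.f (nat_lit 622) (nat_lit 590) (nat_lit 5614) (.d (nat_lit 623) (nat_lit 594) (nat_lit 1614) (nat_lit 654) (nat_lit 5646)))))))))) (.a (.d (nat_lit 557) (nat_lit 556) (nat_lit 1548) (nat_lit 558) (nat_lit 1549)) (.f (nat_lit 558) (nat_lit 557) (nat_lit 1549) (.f (nat_lit 492) (nat_lit 493) (nat_lit 3564) (.f (nat_lit 524) (nat_lit 491) (nat_lit 3563) (.f (nat_lit 495) (nat_lit 496) (nat_lit 2540) (.f (nat_lit 559) (nat_lit 523) (nat_lit 523) (.d (nat_lit 463) (nat_lit 431) (nat_lit 5550) (nat_lit 590) (nat_lit 5582))))))))))) (.a (.p (nat_lit 591) (.a (.f (nat_lit 494) (nat_lit 493) (nat_lit 3565) (.f (nat_lit 559) (nat_lit 623) (nat_lit 7662) (.d (nat_lit 462) (nat_lit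 430) (nat_lit 4526) (nat_lit 495) (nat_lit 7630)))) (.a (.f (nat_lit 562) (nat_lit 561) (nat_lit 526) (.f (nat_lit 594) (nat_lit 563) (nat_lit 2607) (.f (nat_lit 493) (nat_lit 494) (nat_lit 3565) (.f (nat_lit 622) (nat_lit 623) (nat_lit 1614) (.f (nat_lit 590) (nat_lit 621) (nat_lit 1613) (.d (nat_lit 525) (nat_lit 492) (nat_lit 3564) (nat_lit 558) (nat_lit 7661))))))) (.a (.f (nat_lit 562) (nat_lit 561) (nat_lit 526) (.f (nat_lit 594) (nat_lit 563) (nat_lit 2607) (.f (nat_lit 559) (nat_lit 558) (nat_lit 3630) (.d (nat_lit 623) (nat_lit 496) (nat_lit 6639) (nat_lit 622) (nat_lit 1614))))) (.f (nat_lit 562) (nat_lit 561) (nat_lit 526) (.f (nat_lit 594) (nat_lit 563) (nat_lit 2607) (.f (nat_lit 559) (nat_lit 558) (nat_lit 3630) (.f (nat_lit 494) (nat_lit 493) (nat_lit 3565) (.d (nat_lit 462) (nat_lit 430) (nat_lit 4526) (nat_lit 495) (nat_lit 7630)))))))))) (.p (nat_lit 591) (.a (.f (nat_lit 558) (nat_lit 557) (nat_lit 1549) (.f (nat_lit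 559) (nat_lit 594) (nat_lit 3630) (.f (nat_lit 495) (nat_lit 624) (nat_lit 4591) (.d (nat_lit 463) (nat_lit 431) (nat_lit 5550) (nat_lit 590) (nat_lit 5582))))) (.a (.f (nat_lit 557) (nat_lit 558) (nat_lit 1549) (.f (nat_lit 562) (nat_lit 561) (nat_lit 526) (.f (nat_lit 594) (nat_lit 563) (nat_lit 2607) (.f (nat_lit 525) (nat_lit 556) (nat_lit 1548) (.f (nat_lit 622) (nat_lit 623) (nat_lit 1614) (.f (nat_lit 621) (nat_lit 590) (nat_lit 1613) (.d (nat_lit 589) (nat_lit 494) (nat_lit 6637) (nat_lit 654) (nat_lit 4621)))))))) (.a (.f (nat_lit 562) (nat_lit 561) (nat_lit 526) (.f (nat_lit 594) (nat_lit 563) (nat_lit 2607) (.f (nat_lit 623) (nat_lit 622) (nat_lit 1614) (.d (nat_lit 559) (nat_lit 494) (nat_lit 7662) (nat_lit 496) (nat_lit 6639))))) (.f (nat_lit 557) (nat_lit 558) (nat_lit 1549) (.f (nat_lit 556) (nat_lit 525) (nat_lit 1548) (.f (nat_lit 590) (nat_lit 589) (nat_lit 3628) (.f (nat_lit 622) (nat_lit 621) (nat_lit 1613) (.f (nat_lit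 559) (nat_lit 495) (nat_lit 5614) (.d (nat_lit 623) (nat_lit 494) (nat_lit 7662) (nat_lit 496) (nat_lit 6639))))))))))))))))) (.p (nat_lit 561) (.a (.f (nat_lit 625) (nat_lit 496) (nat_lit 7664) (.f (nat_lit 624) (nat_lit 656) (nat_lit 5648) (.f (nat_lit 626) (nat_lit 658) (nat_lit 4625) (.d (nat_lit 591) (nat_lit 590) (nat_lit 590) (nat_lit 627) (nat_lit 3663))))) (.f (nat_lit 526) (nat_lit 562) (nat_lit 526) (.f (nat_lit 493) (nat_lit 494) (nat_lit 3565) (.f (nat_lit 525) (nat_lit 492) (nat_lit 3564) (.d (nat_lit 557) (nat_lit 556) (nat_lit 1548) (nat_lit 558) (nat_lit 1549)))))))))))))))) (.a (.p (nat_lit 526) (.a (.f (nat_lit 497) (nat_lit 498) (nat_lit 2542) (.f (nat_lit 525) (nat_lit 496) (nat_lit 2541) (.d (nat_lit 493) (nat_lit 492) (nat_lit 3564) (nat_lit 494) (nat_lit 3565)))) (.a (.f (nat_lit 493) (nat_lit 494) (nat_lit 3565) (.f (nat_lit 525) (nat_lit 492) (nat_lit 3564) (.d (nat_lit 557) (nat_lit 556) (nat_lit 1548) (nat_lit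 558) (nat_lit 1549)))) (.a (.p (nat_lit 591) (.a (.f (nat_lit 558) (nat_lit 557) (nat_lit 1549) (.f (nat_lit 494) (nat_lit 493) (nat_lit 3565) (.d (nat_lit 559) (nat_lit 462) (nat_lit 4558) (nat_lit 623) (nat_lit 7662)))) (.a (.f (nat_lit 558) (nat_lit 557) (nat_lit 1549) (.f (nat_lit 494) (nat_lit 493) (nat_lit 3565) (.f (nat_lit 590) (nat_lit 623) (nat_lit 4590) (.d (nat_lit 495) (nat_lit 463) (nat_lit 6606) (nat_lit 622) (nat_lit 6638))))) (.a (.f (nat_lit 494) (nat_lit 493) (nat_lit 3565) (.f (nat_lit 559) (nat_lit 623) (nat_lit 7662) (.d (nat_lit 462) (nat_lit 430) (nat_lit 4526) (nat_lit 495) (nat_lit 7630)))) (.a (.p (nat_lit 559) (.a (.f (nat_lit 558) (nat_lit 557) (nat_lit 1549) (.d (nat_lit 623) (nat_lit 496) (nat_lit 6639) (nat_lit 655) (nat_lit 7694))) (.a (.f (nat_lit 558) (nat_lit 557) (nat_lit 1549) (.f (nat_lit 495) (nat_lit 624) (nat_lit 4591) (.d (nat_lit 463) (nat_lit 431) (nat_lit 5550) (nat_lit 590) (nat_lit 5582))))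 (.f (nat_lit 623) (nat_lit 496) (nat_lit 6639) (.d (nat_lit 624) (nat_lit 495) (nat_lit 4591) (nat_lit 656) (nat_lit 4623)))))) (.f (nat_lit 558) (nat_lit 557) (nat_lit 1549) (.f (nat_lit 494) (nat_lit 493) (nat_lit 3565) (.f (nat_lit 559) (nat_lit 462) (nat_lit 4558) (.f (nat_lit 495) (nat_lit 624) (nat_lit 4591) (.d (nat_lit 463) (nat_lit 431) (nat_lit 5550) (nat_lit 590) (nat_lit 5582))))))))))) (.f (nat_lit 497) (nat_lit 498) (nat_lit 2542) (.f (nat_lit 525) (nat_lit 496) (nat_lit 2541) (.d (nat_lit 557) (nat_lit 556) (nat_lit 1548) (nat_lit 558) (nat_lit 1549)))))))) (.a (.p (nat_lit 593) (.a s16281 (.a (.p (nat_lit 591) (.a (.p (nat_lit 559) (.a (.f (nat_lit 594) (nat_lit 558) (nat_lit 3630) (.f (nat_lit 623) (nat_lit 622) (nat_lit 1614) (.d (nat_lit 624) (nat_lit 495) (nat_lit 4591) (nat_lit 595) (nat_lit 1615)))) (.a (.f (nat_lit 594) (nat_lit 558) (nat_lit 3630) (.f (nat_lit 623) (nat_lit 622) (nat_lit 1614) (.d (nat_lit 624)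 (nat_lit 595) (nat_lit 1615) (nat_lit 656) (nat_lit 4623)))) (.a (.f (nat_lit 558) (nat_lit 594) (nat_lit 3630) (.d (nat_lit 557) (nat_lit 556) (nat_lit 556) (nat_lit 590) (nat_lit 3629))) (.f (nat_lit 624) (nat_lit 495) (nat_lit 4591) (.d (nat_lit 656) (nat_lit 623) (nat_lit 4623) (nat_lit 688) (nat_lit 7727))))))) (.a s16380 (.a s16390 (.a (.p (nat_lit 594) (.a (.f (nat_lit 622) (nat_lit 623) (nat_lit 1614) (.f (nat_lit 590) (nat_lit 621) (nat_lit 1613) (.d (nat_lit 626) (nat_lit 625) (nat_lit 590) (nat_lit 627) (nat_lit 591)))) (.a (.f (nat_lit 623) (nat_lit 622) (nat_lit 1614) (.f (nat_lit 595) (nat_lit 624) (nat_lit 1615) (.d (nat_lit 563) (nat_lit 562) (nat_lit 2607) (nat_lit 564) (nat_lit 2608)))) (.f (nat_lit 626) (nat_lit 627) (nat_lit 591) (.f (nat_lit 625) (nat_lit 590) (nat_lit 590) (.f (nat_lit 563) (nat_lit 562) (nat_lit 2607) (.f (nat_lit 595) (nat_lit 564) (nat_lit 2608) (.d (nat_lit 596) (nat_lit 597) (nat_lit 1617)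 (nat_lit 624) (nat_lit 1616))))))))) (.a (.p (nat_lit 561) (.a (.f (nat_lit 590) (nat_lit 562) (nat_lit 2606) (.f (nat_lit 625) (nat_lit 626) (nat_lit 590) (.d (nat_lit 624) (nat_lit 589) (nat_lit 589) (nat_lit 656) (nat_lit 5648)))) (.a (.f (nat_lit 624) (nat_lit 497) (nat_lit 5616) (.d (nat_lit 656) (nat_lit 625) (nat_lit 5648) (nat_lit 688) (nat_lit 6704))) (.f (nat_lit 590) (nat_lit 562) (nat_lit 2606) (.f (nat_lit 622) (nat_lit 621) (nat_lit 1613) (.f (nat_lit 559) (nat_lit 495) (nat_lit 5614) (.d (nat_lit 558) (nat_lit 557) (nat_lit 3629) (nat_lit 654) (nat_lit 6670)))))))) (.a (.p (nat_lit 559) (.a (.f (nat_lit 594) (nat_lit 558) (nat_lit 3630) (.f (nat_lit 623) (nat_lit 622) (nat_lit 1614) (.d (nat_lit 624) (nat_lit 495) (nat_lit 4591) (nat_lit 595) (nat_lit 1615)))) (.a (.f (nat_lit 594) (nat_lit 558) (nat_lit 3630) (.f (nat_lit 623) (nat_lit 622) (nat_lit 1614) (.d (nat_lit 624) (nat_lit 595) (nat_lit 1615) (nat_lit 656) (nat_lit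 4623)))) (.a (.f (nat_lit 594) (nat_lit 558) (nat_lit 3630) (.f (nat_lit 626) (nat_lit 627) (nat_lit 591) (.f (nat_lit 561) (nat_lit 497) (nat_lit 4593) (.d (nat_lit 562) (nat_lit 563) (nat_lit 2607) (nat_lit 658) (nat_lit 7697))))) (.f (nat_lit 624) (nat_lit 495) (nat_lit 4591) (.d (nat_lit 656) (nat_lit 623) (nat_lit 4623) (nat_lit 688) (nat_lit 7727))))))) (.p (nat_lit 561) (.a (.f (nat_lit 590) (nat_lit 562) (nat_lit 2606) (.f (nat_lit 625) (nat_lit 626) (nat_lit 590) (.d (nat_lit 624) (nat_lit 589) (nat_lit 589) (nat_lit 656) (nat_lit 5648)))) (.a (.f (nat_lit 624) (nat_lit 497) (nat_lit 5616) (.d (nat_lit 656) (nat_lit 625) (nat_lit 5648) (nat_lit 688) (nat_lit 6704))) (.f (nat_lit 562) (nat_lit 590) (nat_lit 2606) (.d (nat_lit 563) (nat_lit 564) (nat_lit 1584) (nat_lit 594) (nat_lit 2607))))))))))))) (.a (.p (nat_lit 591) (.a s16219 (.a (.p (nat_lit 559) (.a (.f (nat_lit 594) (nat_lit 558) (nat_lit 3630) (.f (nat_lit 623) (nat_lit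 622) (nat_lit 1614) (.d (nat_lit 624) (nat_lit 495) (nat_lit 4591) (nat_lit 595) (nat_lit 1615)))) (.a (.f (nat_lit 594) (nat_lit 558) (nat_lit 3630) (.f (nat_lit 623) (nat_lit 622) (nat_lit 1614) (.d (nat_lit 624) (nat_lit 595) (nat_lit 1615) (nat_lit 656) (nat_lit 4623)))) (.a (.f (nat_lit 558) (nat_lit 594) (nat_lit 3630) (.d (nat_lit 557) (nat_lit 556) (nat_lit 556) (nat_lit 590) (nat_lit 3629))) (.f (nat_lit 624) (nat_lit 495) (nat_lit 4591) (.d (nat_lit 656) (nat_lit 623) (nat_lit 4623) (nat_lit 688) (nat_lit 7727))))))) (.a s16380 (.a (.p (nat_lit 559) (.a (.f (nat_lit 623) (nat_lit 496) (nat_lit 6639) (.d (nat_lit 594) (nat_lit 558) (nat_lit 3630) (nat_lit 622) (nat_lit 1614))) (.a (.f (nat_lit 558) (nat_lit 594) (nat_lit 3630) (.d (nat_lit 557) (nat_lit 556) (nat_lit 556) (nat_lit 590) (nat_lit 3629))) (.a (.f (nat_lit 623) (nat_lit 496) (nat_lit 6639) (.d (nat_lit 622) (nat_lit 594) (nat_lit 1614) (nat_lit 654) (nat_lit 5646)))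 (.f (nat_lit 623) (nat_lit 496) (nat_lit 6639) (.f (nat_lit 622) (nat_lit 654) (nat_lit 5646) (.d (nat_lit 590) (nat_lit 495) (nat_lit 5614) (nat_lit 621) (nat_lit 1613)))))))) (.a (.p (nat_lit 559) (.a (.f (nat_lit 623) (nat_lit 496) (nat_lit 6639) (.d (nat_lit 622) (nat_lit 594) (nat_lit 1614) (nat_lit 654) (nat_lit 5646))) (.a (.f (nat_lit 624) (nat_lit 495) (nat_lit 4591) (.d (nat_lit 656) (nat_lit 623) (nat_lit 4623) (nat_lit 688) (nat_lit 7727))) (.f (nat_lit 495) (nat_lit 624) (nat_lit 4591) (.f (nat_lit 494) (nat_lit 462) (nat_lit 7630) (.d (nat_lit 493) (nat_lit 492) (nat_lit 492) (nat_lit 496) (nat_lit 493))))))) (.a (.p (nat_lit 559) (.a (.f (nat_lit 495) (nat_lit 624) (nat_lit 4591) (.d (nat_lit 496) (nat_lit 464) (nat_lit 6607) (nat_lit 623) (nat_lit 6639))) (.a (.f (nat_lit 495) (nat_lit 624) (nat_lit 4591) (.f (nat_lit 590) (nat_lit 622) (nat_lit 5614) (.d (nat_lit 558) (nat_lit 463) (nat_lit 5582) (nat_lit 557) (nat_lit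 3629)))) (.f (nat_lit 623) (nat_lit 496) (nat_lit 6639) (.f (nat_lit 622) (nat_lit 654) (nat_lit 5646) (.d (nat_lit 621) (nat_lit 590) (nat_lit 1613) (nat_lit 620) (nat_lit 2636))))))) (.a (.p (nat_lit 559) (.a (.f (nat_lit 495) (nat_lit 624) (nat_lit 4591) (.f (nat_lit 590) (nat_lit 622) (nat_lit 5614) (.d (nat_lit 558) (nat_lit 463) (nat_lit 5582) (nat_lit 557) (nat_lit 3629)))) (.a (.f (nat_lit 558) (nat_lit 594) (nat_lit 3630) (.d (nat_lit 557) (nat_lit 556) (nat_lit 556) (nat_lit 590) (nat_lit 3629))) (.f (nat_lit 495) (nat_lit 624) (nat_lit 4591) (.f (nat_lit 494) (nat_lit 462) (nat_lit 7630) (.d (nat_lit 493) (nat_lit 492) (nat_lit 492) (nat_lit 496) (nat_lit 493))))))) (.p (nat_lit 559) (.a (.f (nat_lit 495) (nat_lit 624) (nat_lit 4591) (.d (nat_lit 496) (nat_lit 464) (nat_lit 6607) (nat_lit 623) (nat_lit 6639))) (.a (.f (nat_lit 624) (nat_lit 495) (nat_lit 4591) (.d (nat_lit 656) (nat_lit 623) (nat_lit 4623) (nat_lit 688) (nat_lit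 7727))) (.f (nat_lit 558) (nat_lit 594) (nat_lit 3630) (.d (nat_lit 557) (nat_lit 556) (nat_lit 556) (nat_lit 590) (nat_lit 3629)))))))))))))) (.a (.p (nat_lit 561) (.a (.f (nat_lit 625) (nat_lit 496) (nat_lit 7664) (.d (nat_lit 624) (nat_lit 497) (nat_lit 5616) (nat_lit 656) (nat_lit 5648))) (.a (.f (nat_lit 497) (nat_lit 624) (nat_lit 5616) (.f (nat_lit 594) (nat_lit 626) (nat_lit 4593) (.f (nat_lit 562) (nat_lit 465) (nat_lit 4561) (.d (nat_lit 563) (nat_lit 564) (nat_lit 1584) (nat_lit 591) (nat_lit 2607))))) (.a (.f (nat_lit 625) (nat_lit 496) (nat_lit 7664) (.f (nat_lit 624) (nat_lit 656) (nat_lit 5648) (.f (nat_lit 626) (nat_lit 658) (nat_lit 4625) (.d (nat_lit 591) (nat_lit 590) (nat_lit 590) (nat_lit 627) (nat_lit 3663))))) (.f (nat_lit 625) (nat_lit 496) (nat_lit 7664) (.f (nat_lit 626) (nat_lit 658) (nat_lit 4625) (.f (nat_lit 591) (nat_lit 590) (nat_lit 590) (.d (nat_lit 627) (nat_lit 594) (nat_lit 591) (nat_lit 628) (nat_lit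 3664))))))))) (.a (.p (nat_lit 561) (.a (.f (nat_lit 625) (nat_lit 496) (nat_lit 7664) (.d (nat_lit 624) (nat_lit 497) (nat_lit 5616) (nat_lit 656) (nat_lit 5648))) (.a (.f (nat_lit 497) (nat_lit 624) (nat_lit 5616) (.f (nat_lit 594) (nat_lit 626) (nat_lit 4593) (.f (nat_lit 465) (nat_lit 562) (nat_lit 4561) (.d (nat_lit 466) (nat_lit 434) (nat_lit 6577) (nat_lit 498) (nat_lit 6609))))) (.a (.f (nat_lit 625) (nat_lit 496) (nat_lit 7664) (.f (nat_lit 624) (nat_lit 656) (nat_lit 5648) (.f (nat_lit 626) (nat_lit 658) (nat_lit 4625) (.f (nat_lit 627) (nat_lit 628) (nat_lit 3664) (.f (nat_lit 595) (nat_lit 596) (nat_lit 2640) (.f (nat_lit 623) (nat_lit 594) (nat_lit 1615) (.f (nat_lit 622) (nat_lit 621) (nat_lit 2637) (.d (nat_lit 654) (nat_lit 653) (nat_lit 1645) (nat_lit 655) (nat_lit 1646))))))))) (.f (nat_lit 496) (nat_lit 625) (nat_lit 7664) (.f (nat_lit 497) (nat_lit 464) (nat_lit 7632) (.d (nat_lit 498) (nat_lit 466) (nat_lit 6609)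 (nat_lit 499) (nat_lit 1519)))))))) (.a (.p (nat_lit 561) (.a (.f (nat_lit 625) (nat_lit 496) (nat_lit 7664) (.d (nat_lit 624) (nat_lit 497) (nat_lit 5616) (nat_lit 656) (nat_lit 5648))) (.a (.f (nat_lit 624) (nat_lit 497) (nat_lit 5616) (.d (nat_lit 656) (nat_lit 625) (nat_lit 5648) (nat_lit 688) (nat_lit 6704))) (.a (.f (nat_lit 625) (nat_lit 496) (nat_lit 7664) (.f (nat_lit 624) (nat_lit 656) (nat_lit 5648) (.f (nat_lit 626) (nat_lit 658) (nat_lit 4625) (.d (nat_lit 591) (nat_lit 590) (nat_lit 590) (nat_lit 627) (nat_lit 3663))))) (.a (.f (nat_lit 625) (nat_lit 496) (nat_lit 7664) (.f (nat_lit 626) (nat_lit 658) (nat_lit 4625) (.f (nat_lit 591) (nat_lit 590) (nat_lit 590) (.d (nat_lit 627) (nat_lit 594) (nat_lit 591) (nat_lit 628) (nat_lit 3664))))) (.f (nat_lit 497) (nat_lit 624) (nat_lit 5616) (.f (nat_lit 498) (nat_lit 466) (nat_lit 6609) (.d (nat_lit 496) (nat_lit 464) (nat_lit 7632) (nat_lit 499) (nat_lit 1519))))))))) (.a s16440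 (.a (.p (nat_lit 591) (.a s16219 (.a (.p (nat_lit 559) (.a (.f (nat_lit 594) (nat_lit 558) (nat_lit 3630) (.f (nat_lit 623) (nat_lit 622) (nat_lit 1614) (.d (nat_lit 624) (nat_lit 495) (nat_lit 4591) (nat_lit 595) (nat_lit 1615)))) (.a (.f (nat_lit 594) (nat_lit 558) (nat_lit 3630) (.f (nat_lit 623) (nat_lit 622) (nat_lit 1614) (.d (nat_lit 624) (nat_lit 595) (nat_lit 1615) (nat_lit 656) (nat_lit 4623)))) (.a (.f (nat_lit 558) (nat_lit 594) (nat_lit 3630) (.d (nat_lit 557) (nat_lit 556) (nat_lit 556) (nat_lit 590) (nat_lit 3629))) (.f (nat_lit 624) (nat_lit 495) (nat_lit 4591) (.d (nat_lit 656) (nat_lit 623) (nat_lit 4623) (nat_lit 688) (nat_lit 7727))))))) (.a (.p (nat_lit 561) (.a (.f (nat_lit 562) (nat_lit 590) (nat_lit 2606) (.d (nat_lit 563) (nat_lit 564) (nat_lit 1584) (nat_lit 594) (nat_lit 2607))) (.f (nat_lit 497) (nat_lit 624) (nat_lit 5616) (.f (nat_lit 498) (nat_lit 466) (nat_lit 6609) (.d (nat_lit 496) (nat_lit 464) (nat_lit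 7632) (nat_lit 499) (nat_lit 1519)))))) (.a (.p (nat_lit 559) (.a (.f (nat_lit 623) (nat_lit 496) (nat_lit 6639) (.d (nat_lit 594) (nat_lit 558) (nat_lit 3630) (nat_lit 622) (nat_lit 1614))) (.a (.f (nat_lit 558) (nat_lit 594) (nat_lit 3630) (.d (nat_lit 557) (nat_lit 556) (nat_lit 556) (nat_lit 590) (nat_lit 3629))) (.a (.f (nat_lit 623) (nat_lit 496) (nat_lit 6639) (.d (nat_lit 622) (nat_lit 594) (nat_lit 1614) (nat_lit 654) (nat_lit 5646))) (.f (nat_lit 623) (nat_lit 496) (nat_lit 6639) (.f (nat_lit 622) (nat_lit 654) (nat_lit 5646) (.d (nat_lit 590) (nat_lit 495) (nat_lit 5614) (nat_lit 621) (nat_lit 1613)))))))) (.a (.p (nat_lit 559) (.a (.f (nat_lit 495) (nat_lit 624) (nat_lit 4591) (.d (nat_lit 496) (nat_lit 464) (nat_lit 6607) (nat_lit 623) (nat_lit 6639))) (.a (.f (nat_lit 495) (nat_lit 624) (nat_lit 4591) (.f (nat_lit 590) (nat_lit 622) (nat_lit 5614) (.d (nat_lit 558) (nat_lit 463) (nat_lit 5582) (nat_lit 557) (nat_lit 3629))))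 (.f (nat_lit 623) (nat_lit 496) (nat_lit 6639) (.f (nat_lit 622) (nat_lit 654) (nat_lit 5646) (.d (nat_lit 621) (nat_lit 590) (nat_lit 1613) (nat_lit 620) (nat_lit 2636))))))) (.p (nat_lit 559) (.a (.f (nat_lit 623) (nat_lit 496) (nat_lit 6639) (.d (nat_lit 622) (nat_lit 594) (nat_lit 1614) (nat_lit 654) (nat_lit 5646))) (.a (.f (nat_lit 624) (nat_lit 495) (nat_lit 4591) (.d (nat_lit 656) (nat_lit 623) (nat_lit 4623) (nat_lit 688) (nat_lit 7727))) (.f (nat_lit 495) (nat_lit 624) (nat_lit 4591) (.f (nat_lit 494) (nat_lit 462) (nat_lit 7630) (.d (nat_lit 493) (nat_lit 492) (nat_lit 492) (nat_lit 496) (nat_lit 493))))))))))))) (.p (nat_lit 561) (.a (.f (nat_lit 625) (nat_lit 496) (nat_lit 7664) (.d (nat_lit 624) (nat_lit 497) (nat_lit 5616) (nat_lit 656) (nat_lit 5648))) (.a (.f (nat_lit 624) (nat_lit 497) (nat_lit 5616) (.d (nat_lit 656) (nat_lit 625) (nat_lit 5648) (nat_lit 688) (nat_lit 6704))) (.a (.f (nat_lit 625) (nat_lit 496) (nat_lit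 7664) (.f (nat_lit 624) (nat_lit 656) (nat_lit 5648) (.f (nat_lit 626) (nat_lit 658) (nat_lit 4625) (.d (nat_lit 591) (nat_lit 590) (nat_lit 590) (nat_lit 627) (nat_lit 3663))))) (.a (.f (nat_lit 496) (nat_lit 625) (nat_lit 7664) (.f (nat_lit 497) (nat_lit 464) (nat_lit 7632) (.d (nat_lit 498) (nat_lit 466) (nat_lit 6609) (nat_lit 499) (nat_lit 1519)))) (.f (nat_lit 497) (nat_lit 624) (nat_lit 5616) (.f (nat_lit 498) (nat_lit 466) (nat_lit 6609) (.d (nat_lit 496) (nat_lit 464) (nat_lit 7632) (nat_lit 499) (nat_lit 1519)))))))))))))))))) (.a (.p (nat_lit 593) (.a s16303 (.a (.p (nat_lit 526) (.a (.f (nat_lit 557) (nat_lit 558) (nat_lit 1549) (.f (nat_lit 525) (nat_lit 556) (nat_lit 1548) (.d (nat_lit 493) (nat_lit 492) (nat_lit 3564) (nat_lit 494) (nat_lit 3565)))) (.a (.f (nat_lit 561) (nat_lit 562) (nat_lit 526) (.f (nat_lit 497) (nat_lit 498) (nat_lit 2542) (.f (nat_lit 626) (nat_lit 594) (nat_lit 4593) (.f (nat_lit 625) (nat_lit 658)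 (nat_lit 4625) (.f (nat_lit 494) (nat_lit 493) (nat_lit 3565) (.f (nat_lit 591) (nat_lit 590) (nat_lit 590) (.f (nat_lit 559) (nat_lit 623) (nat_lit 7662) (.d (nat_lit 462) (nat_lit 430) (nat_lit 4526) (nat_lit 495) (nat_lit 7630))))))))) (.f (nat_lit 558) (nat_lit 557) (nat_lit 1549) (.f (nat_lit 561) (nat_lit 562) (nat_lit 526) (.f (nat_lit 497) (nat_lit 498) (nat_lit 2542) (.f (nat_lit 594) (nat_lit 626) (nat_lit 4593) (.f (nat_lit 591) (nat_lit 559) (nat_lit 3630) (.f (nat_lit 622) (nat_lit 623) (nat_lit 1614) (.d (nat_lit 590) (nat_lit 495) (nat_lit 6638) (nat_lit 621) (nat_lit 1613))))))))))) (.a (.p (nat_lit 526) (.a (.f (nat_lit 557) (nat_lit 558) (nat_lit 1549) (.f (nat_lit 525) (nat_lit 556) (nat_lit 1548) (.d (nat_lit 493) (nat_lit 492) (nat_lit 3564) (nat_lit 494) (nat_lit 3565)))) (.a s16317 (.a (.p (nat_lit 591) (.a (.f (nat_lit 494) (nat_lit 493) (nat_lit 3565) (.f (nat_lit 559) (nat_lit 623) (nat_lit 7662) (.d (nat_lit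 462) (nat_lit 430) (nat_lit 4526) (nat_lit 495) (nat_lit 7630)))) (.a (.f (nat_lit 558) (nat_lit 557) (nat_lit 1549) (.f (nat_lit 494) (nat_lit 493) (nat_lit 3565) (.f (nat_lit 590) (nat_lit 623) (nat_lit 4590) (.d (nat_lit 495) (nat_lit 463) (nat_lit 6606) (nat_lit 622) (nat_lit 6638))))) (.a (.f (nat_lit 558) (nat_lit 557) (nat_lit 1549) (.f (nat_lit 494) (nat_lit 493) (nat_lit 3565) (.d (nat_lit 559) (nat_lit 462) (nat_lit 4558) (nat_lit 594) (nat_lit 3630)))) (.f (nat_lit 558) (nat_lit 557) (nat_lit 1549) (.f (nat_lit 559) (nat_lit 594) (nat_lit 3630) (.d (nat_lit 623) (nat_lit 496) (nat_lit 6639) (nat_lit 655) (nat_lit 7694)))))))) (.a (.f (nat_lit 497) (nat_lit 498) (nat_lit 2542) (.f (nat_lit 525) (nat_lit 496) (nat_lit 2541) (.d (nat_lit 557) (nat_lit 556) (nat_lit 1548) (nat_lit 558) (nat_lit 1549)))) (.f (nat_lit 493) (nat_lit 494) (nat_lit 3565) (.f (nat_lit 525) (nat_lit 492) (nat_lit 3564) (.d (nat_lit 497) (nat_lit 496)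 (nat_lit 2541) (nat_lit 498) (nat_lit 2542))))))))) (.a s16440 (.a (.p (nat_lit 561) (.a (.f (nat_lit 526) (nat_lit 562) (nat_lit 526) (.f (nat_lit 493) (nat_lit 494) (nat_lit 3565) (.f (nat_lit 525) (nat_lit 492) (nat_lit 3564) (.d (nat_lit 557) (nat_lit 556) (nat_lit 1548) (nat_lit 558) (nat_lit 1549))))) (.f (nat_lit 496) (nat_lit 625) (nat_lit 7664) (.f (nat_lit 497) (nat_lit 464) (nat_lit 7632) (.d (nat_lit 498) (nat_lit 466) (nat_lit 6609) (nat_lit 499) (nat_lit 1519)))))) (.p (nat_lit 561) (.a (.f (nat_lit 562) (nat_lit 526) (nat_lit 526) (.f (nat_lit 563) (nat_lit 564) (nat_lit 3600) (.d (nat_lit 591) (nat_lit 590) (nat_lit 2606) (nat_lit 594) (nat_lit 2607)))) (.a (.f (nat_lit 625) (nat_lit 496) (nat_lit 7664) (.f (nat_lit 626) (nat_lit 658) (nat_lit 4625) (.f (nat_lit 591) (nat_lit 590) (nat_lit 590) (.d (nat_lit 627) (nat_lit 594) (nat_lit 591) (nat_lit 628) (nat_lit 3664))))) (.f (nat_lit 496) (nat_lit 625) (nat_lit 7664)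 (.f (nat_lit 497) (nat_lit 464) (nat_lit 7632) (.d (nat_lit 498) (nat_lit 466) (nat_lit 6609) (nat_lit 499) (nat_lit 1519))))))))))))) (.a s16482 s16497)))))))) (.a s16578 (.a s16598 (.a s16663 (.a s16680 (.a s16683 (.a s16696 (.a s16712 (.a s16718 (.a s16727 (.a (.p (nat_lit 591) (.a (.p (nat_lit 593) (.a (.p (nat_lit 594) (.a (.f (nat_lit 559) (nat_lit 558) (nat_lit 3630) (.f (nat_lit 560) (nat_lit 595) (nat_lit 3631) (.d (nat_lit 623) (nat_lit 622) (nat_lit 1614) (nat_lit 655) (nat_lit 6671)))) (.f (nat_lit 562) (nat_lit 563) (nat_lit 2607) (.f (nat_lit 626) (nat_lit 627) (nat_lit 591) (.d (nat_lit 561) (nat_lit 590) (nat_lit 2606) (nat_lit 658) (nat_lit 7697)))))) (.a (.p (nat_lit 561) (.a (.f (nat_lit 562) (nat_lit 590) (nat_lit 2606) (.d (nat_lit 563) (nat_lit 564) (nat_lit 1584) (nat_lit 594) (nat_lit 2607))) (.a (.f (nat_lit 625) (nat_lit 496) (nat_lit 7664) (.d (nat_lit 626) (nat_lit 590) (nat_lit 590) (nat_lit 658) (nat_lit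 4625))) (.f (nat_lit 625) (nat_lit 496) (nat_lit 7664) (.f (nat_lit 626) (nat_lit 658) (nat_lit 4625) (.d (nat_lit 627) (nat_lit 594) (nat_lit 591) (nat_lit 628) (nat_lit 3664))))))) (.a (.p (nat_lit 594) (.a (.f (nat_lit 559) (nat_lit 558) (nat_lit 3630) (.f (nat_lit 560) (nat_lit 595) (nat_lit 3631) (.d (nat_lit 623) (nat_lit 622) (nat_lit 1614) (nat_lit 655) (nat_lit 6671)))) (.a (.f (nat_lit 622) (nat_lit 623) (nat_lit 1614) (.f (nat_lit 590) (nat_lit 621) (nat_lit 1613) (.d (nat_lit 558) (nat_lit 557) (nat_lit 3629) (nat_lit 559) (nat_lit 3630)))) (.f (nat_lit 563) (nat_lit 562) (nat_lit 2607) (.f (nat_lit 595) (nat_lit 564) (nat_lit 2608) (.d (nat_lit 627) (nat_lit 626) (nat_lit 591) (nat_lit 628) (nat_lit 592))))))) (.a (.p (nat_lit 594) (.a (.f (nat_lit 559) (nat_lit 558) (nat_lit 3630) (.f (nat_lit 560) (nat_lit 595) (nat_lit 3631) (.d (nat_lit 623) (nat_lit 622) (nat_lit 1614) (nat_lit 655) (nat_lit 6671)))) (.a (.f (nat_lit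 622) (nat_lit 623) (nat_lit 1614) (.f (nat_lit 590) (nat_lit 621) (nat_lit 1613) (.d (nat_lit 558) (nat_lit 557) (nat_lit 3629) (nat_lit 559) (nat_lit 3630)))) (.f (nat_lit 626) (nat_lit 627) (nat_lit 591) (.f (nat_lit 561) (nat_lit 497) (nat_lit 4593) (.d (nat_lit 625) (nat_lit 590) (nat_lit 590) (nat_lit 658) (nat_lit 4625))))))) (.a s16564 (.a s15281 (.p (nat_lit 561) (.a (.f (nat_lit 562) (nat_lit 590) (nat_lit 2606) (.d (nat_lit 563) (nat_lit 564) (nat_lit 1584) (nat_lit 594) (nat_lit 2607))) (.f (nat_lit 496) (nat_lit 625) (nat_lit 7664) (.d (nat_lit 560) (nat_lit 464) (nat_lit 4560) (nat_lit 623) (nat_lit 5615)))))))))))) (.a s16746 (.a (.p (nat_lit 593) (.a (.p (nat_lit 594) (.a (.f (nat_lit 559) (nat_lit 558) (nat_lit 3630) (.f (nat_lit 560) (nat_lit 595) (nat_lit 3631) (.d (nat_lit 623) (nat_lit 622) (nat_lit 1614) (nat_lit 655) (nat_lit 6671)))) (.f (nat_lit 562) (nat_lit 563) (nat_lit 2607) (.f (nat_lit 626) (nat_lit 627)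 (nat_lit 591) (.d (nat_lit 561) (nat_lit 590) (nat_lit 2606) (nat_lit 658) (nat_lit 7697)))))) (.a (.p (nat_lit 594) (.a (.f (nat_lit 562) (nat_lit 563) (nat_lit 2607) (.f (nat_lit 626) (nat_lit 627) (nat_lit 591) (.d (nat_lit 561) (nat_lit 590) (nat_lit 2606) (nat_lit 658) (nat_lit 7697)))) (.a (.f (nat_lit 622) (nat_lit 623) (nat_lit 1614) (.f (nat_lit 590) (nat_lit 621) (nat_lit 1613) (.d (nat_lit 558) (nat_lit 557) (nat_lit 3629) (nat_lit 559) (nat_lit 3630)))) (.f (nat_lit 563) (nat_lit 562) (nat_lit 2607) (.f (nat_lit 595) (nat_lit 564) (nat_lit 2608) (.d (nat_lit 627) (nat_lit 626) (nat_lit 591) (nat_lit 628) (nat_lit 592))))))) (.a (.p (nat_lit 594) (.a (.f (nat_lit 559) (nat_lit 558) (nat_lit 3630) (.f (nat_lit 560) (nat_lit 595) (nat_lit 3631) (.d (nat_lit 623) (nat_lit 622) (nat_lit 1614) (nat_lit 655) (nat_lit 6671)))) (.a (.f (nat_lit 622) (nat_lit 623) (nat_lit 1614) (.f (nat_lit 590) (nat_lit 621) (nat_lit 1613) (.d (nat_lit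 558) (nat_lit 557) (nat_lit 3629) (nat_lit 559) (nat_lit 3630)))) (.f (nat_lit 563) (nat_lit 562) (nat_lit 2607) (.f (nat_lit 595) (nat_lit 564) (nat_lit 2608) (.d (nat_lit 627) (nat_lit 626) (nat_lit 591) (nat_lit 628) (nat_lit 592))))))) (.a s16554 (.a (.p (nat_lit 594) (.a (.f (nat_lit 559) (nat_lit 558) (nat_lit 3630) (.f (nat_lit 560) (nat_lit 595) (nat_lit 3631) (.d (nat_lit 623) (nat_lit 622) (nat_lit 1614) (nat_lit 655) (nat_lit 6671)))) (.a (.f (nat_lit 622) (nat_lit 623) (nat_lit 1614) (.f (nat_lit 590) (nat_lit 621) (nat_lit 1613) (.d (nat_lit 558) (nat_lit 557) (nat_lit 3629) (nat_lit 559) (nat_lit 3630)))) (.f (nat_lit 626) (nat_lit 627) (nat_lit 591) (.f (nat_lit 561) (nat_lit 497) (nat_lit 4593) (.d (nat_lit 625) (nat_lit 590) (nat_lit 590) (nat_lit 658) (nat_lit 4625))))))) (.a s16564 (.a s15281 (.a s16565 s15016))))))))) (.a (.p (nat_lit 593) (.a (.p (nat_lit 594) (.a (.f (nat_lit 559) (nat_lit 558) (nat_lit 3630) (.f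 (nat_lit 560) (nat_lit 595) (nat_lit 3631) (.d (nat_lit 623) (nat_lit 622) (nat_lit 1614) (nat_lit 655) (nat_lit 6671)))) (.f (nat_lit 562) (nat_lit 563) (nat_lit 2607) (.f (nat_lit 626) (nat_lit 627) (nat_lit 591) (.d (nat_lit 561) (nat_lit 590) (nat_lit 2606) (nat_lit 658) (nat_lit 7697)))))) (.a (.p (nat_lit 561) (.a (.f (nat_lit 562) (nat_lit 590) (nat_lit 2606) (.d (nat_lit 563) (nat_lit 564) (nat_lit 1584) (nat_lit 594) (nat_lit 2607))) (.a (.f (nat_lit 625) (nat_lit 496) (nat_lit 7664) (.d (nat_lit 626) (nat_lit 590) (nat_lit 590) (nat_lit 658) (nat_lit 4625))) (.f (nat_lit 625) (nat_lit 496) (nat_lit 7664) (.f (nat_lit 626) (nat_lit 658) (nat_lit 4625) (.d (nat_lit 627) (nat_lit 594) (nat_lit 591) (nat_lit 628) (nat_lit 3664))))))) (.a (.p (nat_lit 594) (.a (.f (nat_lit 559) (nat_lit 558) (nat_lit 3630) (.f (nat_lit 560) (nat_lit 595) (nat_lit 3631) (.d (nat_lit 623) (nat_lit 622) (nat_lit 1614) (nat_lit 655) (nat_lit 6671))))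 (.a (.f (nat_lit 622) (nat_lit 623) (nat_lit 1614) (.f (nat_lit 590) (nat_lit 621) (nat_lit 1613) (.d (nat_lit 558) (nat_lit 557) (nat_lit 3629) (nat_lit 559) (nat_lit 3630)))) (.f (nat_lit 563) (nat_lit 562) (nat_lit 2607) (.f (nat_lit 595) (nat_lit 564) (nat_lit 2608) (.d (nat_lit 627) (nat_lit 626) (nat_lit 591) (nat_lit 628) (nat_lit 592))))))) (.a (.p (nat_lit 594) (.a (.f (nat_lit 559) (nat_lit 558) (nat_lit 3630) (.f (nat_lit 560) (nat_lit 595) (nat_lit 3631) (.d (nat_lit 623) (nat_lit 622) (nat_lit 1614) (nat_lit 655) (nat_lit 6671)))) (.a (.f (nat_lit 622) (nat_lit 623) (nat_lit 1614) (.f (nat_lit 590) (nat_lit 621) (nat_lit 1613) (.d (nat_lit 558) (nat_lit 557) (nat_lit 3629) (nat_lit 559) (nat_lit 3630)))) (.f (nat_lit 626) (nat_lit 627) (nat_lit 591) (.f (nat_lit 561) (nat_lit 497) (nat_lit 4593) (.d (nat_lit 625) (nat_lit 590) (nat_lit 590) (nat_lit 658) (nat_lit 4625))))))) (.a s16626 (.a s15281 (.p (nat_lit 561) (.a (.f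 (nat_lit 562) (nat_lit 590) (nat_lit 2606) (.d (nat_lit 563) (nat_lit 564) (nat_lit 1584) (nat_lit 594) (nat_lit 2607))) (.f (nat_lit 496) (nat_lit 625) (nat_lit 7664) (.d (nat_lit 560) (nat_lit 464) (nat_lit 4560) (nat_lit 623) (nat_lit 5615)))))))))))) (.a (.p (nat_lit 593) (.a (.p (nat_lit 594) (.a (.f (nat_lit 559) (nat_lit 558) (nat_lit 3630) (.f (nat_lit 560) (nat_lit 595) (nat_lit 3631) (.d (nat_lit 623) (nat_lit 622) (nat_lit 1614) (nat_lit 655) (nat_lit 6671)))) (.f (nat_lit 562) (nat_lit 563) (nat_lit 2607) (.f (nat_lit 626) (nat_lit 627) (nat_lit 591) (.d (nat_lit 561) (nat_lit 590) (nat_lit 2606) (nat_lit 658) (nat_lit 7697)))))) (.a (.p (nat_lit 561) (.a (.f (nat_lit 562) (nat_lit 590) (nat_lit 2606) (.d (nat_lit 563) (nat_lit 564) (nat_lit 1584) (nat_lit 594) (nat_lit 2607))) (.a (.f (nat_lit 625) (nat_lit 496) (nat_lit 7664) (.d (nat_lit 626) (nat_lit 590) (nat_lit 590) (nat_lit 658) (nat_lit 4625))) (.f (nat_lit 625)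 (nat_lit 496) (nat_lit 7664) (.f (nat_lit 626) (nat_lit 658) (nat_lit 4625) (.d (nat_lit 627) (nat_lit 594) (nat_lit 591) (nat_lit 628) (nat_lit 3664))))))) (.a (.p (nat_lit 594) (.a (.f (nat_lit 559) (nat_lit 558) (nat_lit 3630) (.f (nat_lit 560) (nat_lit 595) (nat_lit 3631) (.d (nat_lit 623) (nat_lit 622) (nat_lit 1614) (nat_lit 655) (nat_lit 6671)))) (.a (.f (nat_lit 622) (nat_lit 623) (nat_lit 1614) (.f (nat_lit 590) (nat_lit 621) (nat_lit 1613) (.d (nat_lit 558) (nat_lit 557) (nat_lit 3629) (nat_lit 559) (nat_lit 3630)))) (.f (nat_lit 563) (nat_lit 562) (nat_lit 2607) (.f (nat_lit 595) (nat_lit 564) (nat_lit 2608) (.d (nat_lit 627) (nat_lit 626) (nat_lit 591) (nat_lit 628) (nat_lit 592))))))) (.a (.p (nat_lit 594) (.a (.f (nat_lit 559) (nat_lit 558) (nat_lit 3630) (.f (nat_lit 560) (nat_lit 595) (nat_lit 3631) (.d (nat_lit 623) (nat_lit 622) (nat_lit 1614) (nat_lit 655) (nat_lit 6671)))) (.a (.f (nat_lit 622) (nat_lit 623) (nat_lit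 1614) (.f (nat_lit 590) (nat_lit 621) (nat_lit 1613) (.d (nat_lit 558) (nat_lit 557) (nat_lit 3629) (nat_lit 559) (nat_lit 3630)))) (.f (nat_lit 626) (nat_lit 627) (nat_lit 591) (.f (nat_lit 625) (nat_lit 590) (nat_lit 590) (.d (nat_lit 561) (nat_lit 496) (nat_lit 7664) (nat_lit 658) (nat_lit 4625))))))) (.a s16626 (.a s15281 (.p (nat_lit 561) (.a (.f (nat_lit 562) (nat_lit 590) (nat_lit 2606) (.d (nat_lit 563) (nat_lit 564) (nat_lit 1584) (nat_lit 594) (nat_lit 2607))) (.f (nat_lit 496) (nat_lit 625) (nat_lit 7664) (.d (nat_lit 560) (nat_lit 464) (nat_lit 4560) (nat_lit 623) (nat_lit 5615)))))))))))) (.a (.p (nat_lit 527) (.a s16753 (.a (.p (nat_lit 593) (.a (.p (nat_lit 526) (.a (.f (nat_lit 494) (nat_lit 493) (nat_lit 3565) (.f (nat_lit 559) (nat_lit 623) (nat_lit 7662) (.d (nat_lit 462) (nat_lit 430) (nat_lit 4526) (nat_lit 495) (nat_lit 7630)))) (.a (.f (nat_lit 558) (nat_lit 557) (nat_lit 1549) (.f (nat_lit 494) (nat_lit 493) (nat_lit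 3565) (.f (nat_lit 590) (nat_lit 623) (nat_lit 4590) (.d (nat_lit 495) (nat_lit 463) (nat_lit 6606) (nat_lit 622) (nat_lit 6638))))) (.a (.f (nat_lit 558) (nat_lit 557) (nat_lit 1549) (.f (nat_lit 494) (nat_lit 493) (nat_lit 3565) (.d (nat_lit 559) (nat_lit 462) (nat_lit 4558) (nat_lit 594) (nat_lit 3630)))) (.f (nat_lit 558) (nat_lit 557) (nat_lit 1549) (.f (nat_lit 594) (nat_lit 559) (nat_lit 3630) (.f (nat_lit 622) (nat_lit 623) (nat_lit 1614) (.d (nat_lit 590) (nat_lit 495) (nat_lit 6638) (nat_lit 621) (nat_lit 1613))))))))) (.a (.p (nat_lit 594) (.a (.f (nat_lit 622) (nat_lit 623) (nat_lit 1614) (.f (nat_lit 590) (nat_lit 621) (nat_lit 1613) (.d (nat_lit 626) (nat_lit 625) (nat_lit 590) (nat_lit 627) (nat_lit 591)))) (.a (.f (nat_lit 627) (nat_lit 626) (nat_lit 591) (.f (nat_lit 595) (nat_lit 628) (nat_lit 592) (.d (nat_lit 563) (nat_lit 562) (nat_lit 2607) (nat_lit 564) (nat_lit 2608)))) (.f (nat_lit 622) (nat_lit 623) (nat_lit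 1614) (.f (nat_lit 590) (nat_lit 621) (nat_lit 1613) (.f (nat_lit 558) (nat_lit 557) (nat_lit 3629) (.f (nat_lit 526) (nat_lit 495) (nat_lit 6638) (.d (nat_lit 493) (nat_lit 494) (nat_lit 3565) (nat_lit 525) (nat_lit 7661))))))))) (.a (.p (nat_lit 594) (.a (.f (nat_lit 622) (nat_lit 623) (nat_lit 1614) (.f (nat_lit 590) (nat_lit 621) (nat_lit 1613) (.d (nat_lit 626) (nat_lit 625) (nat_lit 590) (nat_lit 627) (nat_lit 591)))) (.a (.f (nat_lit 627) (nat_lit 626) (nat_lit 591) (.f (nat_lit 595) (nat_lit 628) (nat_lit 592) (.d (nat_lit 563) (nat_lit 562) (nat_lit 2607) (nat_lit 564) (nat_lit 2608)))) (.f (nat_lit 559) (nat_lit 558) (nat_lit 3630) (.f (nat_lit 560) (nat_lit 595) (nat_lit 3631) (.d (nat_lit 623) (nat_lit 622) (nat_lit 1614) (nat_lit 655) (nat_lit 6671))))))) (.a (.p (nat_lit 594) (.a (.f (nat_lit 622) (nat_lit 623) (nat_lit 1614) (.f (nat_lit 590) (nat_lit 621) (nat_lit 1613) (.d (nat_lit 626) (nat_lit 625) (nat_lit 590) (nat_lit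 627) (nat_lit 591)))) (.a (.f (nat_lit 627) (nat_lit 626) (nat_lit 591) (.f (nat_lit 595) (nat_lit 628) (nat_lit 592) (.d (nat_lit 563) (nat_lit 562) (nat_lit 2607) (nat_lit 564) (nat_lit 2608)))) (.f (nat_lit 622) (nat_lit 623) (nat_lit 1614) (.f (nat_lit 590) (nat_lit 621) (nat_lit 1613) (.f (nat_lit 559) (nat_lit 495) (nat_lit 5614) (.f (nat_lit 595) (nat_lit 560) (nat_lit 3631) (.d (nat_lit 563) (nat_lit 562) (nat_lit 2607) (nat_lit 564) (nat_lit 2608))))))))) (.a (.p (nat_lit 526) (.a (.f (nat_lit 494) (nat_lit 493) (nat_lit 3565) (.f (nat_lit 559) (nat_lit 623) (nat_lit 7662) (.d (nat_lit 462) (nat_lit 430) (nat_lit 4526) (nat_lit 495) (nat_lit 7630)))) (.a (.f (nat_lit 558) (nat_lit 557) (nat_lit 1549) (.f (nat_lit 494) (nat_lit 493) (nat_lit 3565) (.f (nat_lit 590) (nat_lit 623) (nat_lit 4590) (.d (nat_lit 495) (nat_lit 463) (nat_lit 6606) (nat_lit 622) (nat_lit 6638))))) (.a (.f (nat_lit 557) (nat_lit 558) (nat_lit 1549) (.f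 (nat_lit 525) (nat_lit 556) (nat_lit 1548) (.d (nat_lit 493) (nat_lit 492) (nat_lit 3564) (nat_lit 494) (nat_lit 3565)))) (.a (.f (nat_lit 557) (nat_lit 558) (nat_lit 1549) (.f (nat_lit 525) (nat_lit 556) (nat_lit 1548) (.f (nat_lit 492) (nat_lit 493) (nat_lit 3564) (.f (nat_lit 524) (nat_lit 491) (nat_lit 3563) (.f (nat_lit 621) (nat_lit 589) (nat_lit 7660) (.f (nat_lit 622) (nat_lit 590) (nat_lit 1613) (.f (nat_lit 623) (nat_lit 620) (nat_lit 2636) (.d (nat_lit 559) (nat_lit 560) (nat_lit 524) (nat_lit 654) (nat_lit 5646))))))))) (.f (nat_lit 557) (nat_lit 558) (nat_lit 1549) (.f (nat_lit 556) (nat_lit 525) (nat_lit 1548) (.f (nat_lit 590) (nat_lit 589) (nat_lit 3628) (.f (nat_lit 622) (nat_lit 621) (nat_lit 1613) (.f (nat_lit 559) (nat_lit 495) (nat_lit 5614) (.d (nat_lit 623) (nat_lit 494) (nat_lit 7662) (nat_lit 654) (nat_lit 5646)))))))))))) (.a (.p (nat_lit 594) (.a (.f (nat_lit 626) (nat_lit 627) (nat_lit 591) (.f (nat_lit 590)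 (nat_lit 625) (nat_lit 590) (.f (nat_lit 557) (nat_lit 558) (nat_lit 3629) (.f (nat_lit 589) (nat_lit 556) (nat_lit 3628) (.d (nat_lit 621) (nat_lit 620) (nat_lit 1612) (nat_lit 622) (nat_lit 1613)))))) (.a (.f (nat_lit 627) (nat_lit 626) (nat_lit 591) (.f (nat_lit 595) (nat_lit 628) (nat_lit 592) (.d (nat_lit 563) (nat_lit 562) (nat_lit 2607) (nat_lit 564) (nat_lit 2608)))) (.f (nat_lit 558) (nat_lit 559) (nat_lit 3630) (.d (nat_lit 557) (nat_lit 526) (nat_lit 1549) (nat_lit 590) (nat_lit 3629)))))) (.p (nat_lit 526) (.a (.f (nat_lit 494) (nat_lit 493) (nat_lit 3565) (.f (nat_lit 559) (nat_lit 623) (nat_lit 7662) (.d (nat_lit 462) (nat_lit 430) (nat_lit 4526) (nat_lit 495) (nat_lit 7630)))) (.a (.f (nat_lit 557) (nat_lit 558) (nat_lit 1549) (.f (nat_lit 525) (nat_lit 556) (nat_lit 1548) (.d (nat_lit 493) (nat_lit 492) (nat_lit 3564) (nat_lit 494) (nat_lit 3565)))) (.f (nat_lit 558) (nat_lit 557) (nat_lit 1549) (.f (nat_lit 594) (nat_lit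 559) (nat_lit 3630) (.f (nat_lit 627) (nat_lit 626) (nat_lit 591) (.f (nat_lit 595) (nat_lit 628) (nat_lit 592) (.d (nat_lit 563) (nat_lit 562) (nat_lit 2607) (nat_lit 564) (nat_lit 2608)))))))))))))))) (.a (.p (nat_lit 526) (.a (.f (nat_lit 558) (nat_lit 557) (nat_lit 1549) (.f (nat_lit 494) (nat_lit 493) (nat_lit 3565) (.f (nat_lit 590) (nat_lit 623) (nat_lit 4590) (.d (nat_lit 495) (nat_lit 463) (nat_lit 6606) (nat_lit 622) (nat_lit 6638))))) (.a (.f (nat_lit 557) (nat_lit 558) (nat_lit 1549) (.f (nat_lit 525) (nat_lit 556) (nat_lit 1548) (.d (nat_lit 493) (nat_lit 492) (nat_lit 3564) (nat_lit 494) (nat_lit 3565)))) (.f (nat_lit 497) (nat_lit 498) (nat_lit 2542) (.f (nat_lit 496) (nat_lit 525) (nat_lit 2541) (.d (nat_lit 560) (nat_lit 465) (nat_lit 6608) (nat_lit 623) (nat_lit 5615))))))) (.a (.p (nat_lit 559) (.a (.f (nat_lit 496) (nat_lit 623) (nat_lit 6639) (.d (nat_lit 464) (nat_lit 495) (nat_lit 6607) (nat_lit 560) (nat_lit 5583)))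 (.a (.f (nat_lit 623) (nat_lit 496) (nat_lit 6639) (.f (nat_lit 622) (nat_lit 654) (nat_lit 5646) (.f (nat_lit 590) (nat_lit 495) (nat_lit 5614) (.d (nat_lit 593) (nat_lit 594) (nat_lit 1614) (nat_lit 621) (nat_lit 1613))))) (.a (.p (nat_lit 623) (.a (.f (nat_lit 560) (nat_lit 655) (nat_lit 6671) (.f (nat_lit 622) (nat_lit 654) (nat_lit 5646) (.d (nat_lit 495) (nat_lit 463) (nat_lit 4559) (nat_lit 590) (nat_lit 5614)))) (.a (.f (nat_lit 622) (nat_lit 654) (nat_lit 5646) (.f (nat_lit 590) (nat_lit 495) (nat_lit 5614) (.d (nat_lit 593) (nat_lit 594) (nat_lit 1614) (nat_lit 621) (nat_lit 1613)))) (.a (.f (nat_lit 655) (nat_lit 560) (nat_lit 6671) (.d (nat_lit 654) (nat_lit 622) (nat_lit 5646) (nat_lit 686) (nat_lit 5678))) (.a (.f (nat_lit 655) (nat_lit 560) (nat_lit 6671) (.f (nat_lit 686) (nat_lit 654) (nat_lit 5678) (.f (nat_lit 687) (nat_lit 718) (nat_lit 5710) (.d (nat_lit 688) (nat_lit 656) (nat_lit 4655) (nat_lit 720) (nat_lit 4687)))))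 (.f (nat_lit 560) (nat_lit 655) (nat_lit 6671) (.f (nat_lit 557) (nat_lit 558) (nat_lit 2573) (.f (nat_lit 495) (nat_lit 463) (nat_lit 4559) (.f (nat_lit 590) (nat_lit 622) (nat_lit 5614) (.d (nat_lit 589) (nat_lit 556) (nat_lit 3628) (nat_lit 588) (nat_lit 2604))))))))))) (.a (.f (nat_lit 623) (nat_lit 496) (nat_lit 6639) (.f (nat_lit 655) (nat_lit 560) (nat_lit 6671) (.d (nat_lit 654) (nat_lit 622) (nat_lit 5646) (nat_lit 686) (nat_lit 5678)))) (.p (nat_lit 560) (.a (.f (nat_lit 557) (nat_lit 558) (nat_lit 2573) (.f (nat_lit 495) (nat_lit 463) (nat_lit 4559) (.f (nat_lit 590) (nat_lit 622) (nat_lit 5614) (.d (nat_lit 589) (nat_lit 556) (nat_lit 3628) (nat_lit 588) (nat_lit 2604))))) (.a (.f (nat_lit 558) (nat_lit 557) (nat_lit 2573) (.f (nat_lit 593) (nat_lit 594) (nat_lit 3630) (.d (nat_lit 496) (nat_lit 464) (nat_lit 5583) (nat_lit 625) (nat_lit 4592)))) (.f (nat_lit 495) (nat_lit 463) (nat_lit 4559) (.f (nat_lit 496) (nat_lit 464)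 (nat_lit 5583) (.d (nat_lit 494) (nat_lit 462) (nat_lit 7630) (nat_lit 493) (nat_lit 493)))))))))))) (.a (.p (nat_lit 526) (.a (.f (nat_lit 558) (nat_lit 557) (nat_lit 1549) (.f (nat_lit 494) (nat_lit 493) (nat_lit 3565) (.d (nat_lit 559) (nat_lit 462) (nat_lit 4558) (nat_lit 623) (nat_lit 7662)))) (.a (.f (nat_lit 557) (nat_lit 558) (nat_lit 1549) (.f (nat_lit 525) (nat_lit 556) (nat_lit 1548) (.d (nat_lit 493) (nat_lit 492) (nat_lit 3564) (nat_lit 494) (nat_lit 3565)))) (.f (nat_lit 497) (nat_lit 498) (nat_lit 2542) (.f (nat_lit 496) (nat_lit 525) (nat_lit 2541) (.d (nat_lit 560) (nat_lit 465) (nat_lit 6608) (nat_lit 623) (nat_lit 5615))))))) (.a (.p (nat_lit 526) (.a (.f (nat_lit 494) (nat_lit 493) (nat_lit 3565) (.f (nat_lit 559) (nat_lit 623) (nat_lit 7662) (.d (nat_lit 462) (nat_lit 430) (nat_lit 4526) (nat_lit 495) (nat_lit 7630)))) (.a (.f (nat_lit 497) (nat_lit 498) (nat_lit 2542) (.f (nat_lit 496) (nat_lit 525) (nat_lit 2541)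 (.d (nat_lit 560) (nat_lit 465) (nat_lit 6608) (nat_lit 623) (nat_lit 5615)))) (.f (nat_lit 497) (nat_lit 498) (nat_lit 2542) (.f (nat_lit 496) (nat_lit 525) (nat_lit 2541) (.f (nat_lit 560) (nat_lit 465) (nat_lit 6608) (.f (nat_lit 495) (nat_lit 463) (nat_lit 7631) (.f (nat_lit 494) (nat_lit 493) (nat_lit 493) (.d (nat_lit 462) (nat_lit 461) (nat_lit 3533) (nat_lit 559) (nat_lit 7630)))))))))) (.a (.p (nat_lit 593) (.a (.p (nat_lit 559) (.a (.f (nat_lit 623) (nat_lit 496) (nat_lit 6639) (.d (nat_lit 594) (nat_lit 558) (nat_lit 3630) (nat_lit 622) (nat_lit 1614))) (.a (.f (nat_lit 558) (nat_lit 594) (nat_lit 3630) (.d (nat_lit 557) (nat_lit 556) (nat_lit 556) (nat_lit 590) (nat_lit 3629))) (.a (.f (nat_lit 623) (nat_lit 496) (nat_lit 6639) (.d (nat_lit 622) (nat_lit 594) (nat_lit 1614) (nat_lit 654) (nat_lit 5646))) (.f (nat_lit 623) (nat_lit 496) (nat_lit 6639) (.f (nat_lit 622) (nat_lit 654) (nat_lit 5646) (.d (nat_lit 590) (nat_lit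 495) (nat_lit 5614) (nat_lit 621) (nat_lit 1613)))))))) (.a (.p (nat_lit 594) (.a (.f (nat_lit 622) (nat_lit 623) (nat_lit 1614) (.f (nat_lit 590) (nat_lit 621) (nat_lit 1613) (.d (nat_lit 626) (nat_lit 625) (nat_lit 590) (nat_lit 627) (nat_lit 591)))) (.a (.f (nat_lit 627) (nat_lit 626) (nat_lit 591) (.f (nat_lit 595) (nat_lit 628) (nat_lit 592) (.d (nat_lit 563) (nat_lit 562) (nat_lit 2607) (nat_lit 564) (nat_lit 2608)))) (.f (nat_lit 559) (nat_lit 558) (nat_lit 3630) (.f (nat_lit 560) (nat_lit 595) (nat_lit 3631) (.d (nat_lit 623) (nat_lit 622) (nat_lit 1614) (nat_lit 655) (nat_lit 6671))))))) (.a (.p (nat_lit 594) (.a (.f (nat_lit 622) (nat_lit 623) (nat_lit 1614) (.f (nat_lit 590) (nat_lit 621) (nat_lit 1613) (.d (nat_lit 626) (nat_lit 625) (nat_lit 590) (nat_lit 627) (nat_lit 591)))) (.a (.f (nat_lit 627) (nat_lit 626) (nat_lit 591) (.f (nat_lit 595) (nat_lit 628) (nat_lit 592) (.d (nat_lit 563) (nat_lit 562) (nat_lit 2607) (nat_lit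 564) (nat_lit 2608)))) (.f (nat_lit 622) (nat_lit 623) (nat_lit 1614) (.f (nat_lit 590) (nat_lit 621) (nat_lit 1613) (.f (nat_lit 558) (nat_lit 557) (nat_lit 3629) (.f (nat_lit 526) (nat_lit 495) (nat_lit 6638) (.f (nat_lit 497) (nat_lit 498) (nat_lit 2542) (.d (nat_lit 525) (nat_lit 493) (nat_lit 7661) (nat_lit 496) (nat_lit 2541)))))))))) (.a (.p (nat_lit 594) (.a (.f (nat_lit 622) (nat_lit 623) (nat_lit 1614) (.f (nat_lit 590) (nat_lit 621) (nat_lit 1613) (.d (nat_lit 626) (nat_lit 625) (nat_lit 590) (nat_lit 627) (nat_lit 591)))) (.a (.f (nat_lit 627) (nat_lit 626) (nat_lit 591) (.f (nat_lit 595) (nat_lit 628) (nat_lit 592) (.d (nat_lit 563) (nat_lit 562) (nat_lit 2607) (nat_lit 564) (nat_lit 2608)))) (.f (nat_lit 623) (nat_lit 622) (nat_lit 1614) (.d (nat_lit 496) (nat_lit 559) (nat_lit 6639) (nat_lit 560) (nat_lit 5615)))))) (.a (.p (nat_lit 496) (.a (.d (nat_lit 560) (nat_lit 623) (nat_lit 5615) (nat_lit 625) (nat_lit 4592)) (.a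 (.f (nat_lit 559) (nat_lit 623) (nat_lit 6639) (.f (nat_lit 495) (nat_lit 464) (nat_lit 6607) (.f (nat_lit 590) (nat_lit 622) (nat_lit 5614) (.d (nat_lit 558) (nat_lit 463) (nat_lit 5582) (nat_lit 557) (nat_lit 3629))))) (.f (nat_lit 560) (nat_lit 625) (nat_lit 4592) (.f (nat_lit 497) (nat_lit 465) (nat_lit 6608) (.d (nat_lit 498) (nat_lit 499) (nat_lit 1519) (nat_lit 526) (nat_lit 2542))))))) (.a s16872 (.p (nat_lit 526) (.a (.f (nat_lit 558) (nat_lit 557) (nat_lit 1549) (.f (nat_lit 559) (nat_lit 594) (nat_lit 3630) (.d (nat_lit 623) (nat_lit 496) (nat_lit 6639) (nat_lit 655) (nat_lit 7694)))) (.a (.f (nat_lit 558) (nat_lit 557) (nat_lit 1549) (.f (nat_lit 594) (nat_lit 559) (nat_lit 3630) (.f (nat_lit 627) (nat_lit 626) (nat_lit 591) (.f (nat_lit 595) (nat_lit 628) (nat_lit 592) (.d (nat_lit 563) (nat_lit 562) (nat_lit 2607) (nat_lit 564) (nat_lit 2608)))))) (.a (.f (nat_lit 557) (nat_lit 558) (nat_lit 1549) (.f (nat_lit 525) (nat_lit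 556) (nat_lit 1548) (.f (nat_lit 492) (nat_lit 493) (nat_lit 3564) (.f (nat_lit 524) (nat_lit 491) (nat_lit 3563) (.f (nat_lit 496) (nat_lit 495) (nat_lit 2540) (.d (nat_lit 560) (nat_lit 623) (nat_lit 5615) (nat_lit 625) (nat_lit 4592))))))) (.f (nat_lit 497) (nat_lit 498) (nat_lit 2542) (.f (nat_lit 496) (nat_lit 525) (nat_lit 2541) (.d (nat_lit 560) (nat_lit 465) (nat_lit 6608) (nat_lit 623) (nat_lit 5615))))))))))))))) (.a s16891 (.p (nat_lit 593) (.a (.p (nat_lit 559) (.a (.f (nat_lit 623) (nat_lit 496) (nat_lit 6639) (.d (nat_lit 594) (nat_lit 558) (nat_lit 3630) (nat_lit 622) (nat_lit 1614))) (.a (.f (nat_lit 558) (nat_lit 594) (nat_lit 3630) (.d (nat_lit 557) (nat_lit 556) (nat_lit 556) (nat_lit 590) (nat_lit 3629))) (.a (.f (nat_lit 623) (nat_lit 496) (nat_lit 6639) (.d (nat_lit 622) (nat_lit 594) (nat_lit 1614) (nat_lit 654) (nat_lit 5646))) (.f (nat_lit 623) (nat_lit 496) (nat_lit 6639) (.f (nat_lit 622) (nat_lit 654) (nat_lit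 5646) (.d (nat_lit 590) (nat_lit 495) (nat_lit 5614) (nat_lit 621) (nat_lit 1613)))))))) (.a (.p (nat_lit 594) (.a (.f (nat_lit 622) (nat_lit 623) (nat_lit 1614) (.f (nat_lit 590) (nat_lit 621) (nat_lit 1613) (.d (nat_lit 626) (nat_lit 625) (nat_lit 590) (nat_lit 627) (nat_lit 591)))) (.a (.f (nat_lit 627) (nat_lit 626) (nat_lit 591) (.f (nat_lit 595) (nat_lit 628) (nat_lit 592) (.d (nat_lit 563) (nat_lit 562) (nat_lit 2607) (nat_lit 564) (nat_lit 2608)))) (.f (nat_lit 559) (nat_lit 558) (nat_lit 3630) (.f (nat_lit 560) (nat_lit 595) (nat_lit 3631) (.d (nat_lit 623) (nat_lit 622) (nat_lit 1614) (nat_lit 655) (nat_lit 6671))))))) (.a (.p (nat_lit 594) (.a (.f (nat_lit 622) (nat_lit 623) (nat_lit 1614) (.f (nat_lit 590) (nat_lit 621) (nat_lit 1613) (.d (nat_lit 626) (nat_lit 625) (nat_lit 590) (nat_lit 627) (nat_lit 591)))) (.a (.f (nat_lit 627) (nat_lit 626) (nat_lit 591) (.f (nat_lit 595) (nat_lit 628) (nat_lit 592) (.d (nat_lit 563)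 (nat_lit 562) (nat_lit 2607) (nat_lit 564) (nat_lit 2608)))) (.f (nat_lit 622) (nat_lit 623) (nat_lit 1614) (.f (nat_lit 590) (nat_lit 621) (nat_lit 1613) (.f (nat_lit 558) (nat_lit 557) (nat_lit 3629) (.f (nat_lit 526) (nat_lit 495) (nat_lit 6638) (.f (nat_lit 497) (nat_lit 498) (nat_lit 2542) (.f (nat_lit 496) (nat_lit 525) (nat_lit 2541) (.d (nat_lit 560) (nat_lit 465) (nat_lit 6608) (nat_lit 625) (nat_lit 4592))))))))))) (.a (.p (nat_lit 594) (.a (.f (nat_lit 622) (nat_lit 623) (nat_lit 1614) (.f (nat_lit 590) (nat_lit 621) (nat_lit 1613) (.d (nat_lit 626) (nat_lit 625) (nat_lit 590) (nat_lit 627) (nat_lit 591)))) (.a (.f (nat_lit 627) (nat_lit 626) (nat_lit 591) (.f (nat_lit 595) (nat_lit 628) (nat_lit 592) (.d (nat_lit 563) (nat_lit 562) (nat_lit 2607) (nat_lit 564) (nat_lit 2608)))) (.f (nat_lit 623) (nat_lit 622) (nat_lit 1614) (.d (nat_lit 496) (nat_lit 559) (nat_lit 6639) (nat_lit 560) (nat_lit 5615)))))) (.a (.p (nat_lit 496)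 (.a (.d (nat_lit 560) (nat_lit 623) (nat_lit 5615) (nat_lit 625) (nat_lit 4592)) (.a (.f (nat_lit 559) (nat_lit 623) (nat_lit 6639) (.f (nat_lit 495) (nat_lit 464) (nat_lit 6607) (.f (nat_lit 590) (nat_lit 622) (nat_lit 5614) (.d (nat_lit 558) (nat_lit 463) (nat_lit 5582) (nat_lit 557) (nat_lit 3629))))) (.f (nat_lit 560) (nat_lit 625) (nat_lit 4592) (.f (nat_lit 497) (nat_lit 465) (nat_lit 6608) (.d (nat_lit 498) (nat_lit 499) (nat_lit 1519) (nat_lit 526) (nat_lit 2542))))))) (.a s16872 (.p (nat_lit 526) (.a (.f (nat_lit 558) (nat_lit 557) (nat_lit 1549) (.f (nat_lit 559) (nat_lit 594) (nat_lit 3630) (.d (nat_lit 623) (nat_lit 496) (nat_lit 6639) (nat_lit 655) (nat_lit 7694)))) (.a (.f (nat_lit 558) (nat_lit 557) (nat_lit 1549) (.f (nat_lit 594) (nat_lit 559) (nat_lit 3630) (.f (nat_lit 627) (nat_lit 626) (nat_lit 591) (.f (nat_lit 595) (nat_lit 628) (nat_lit 592) (.d (nat_lit 563) (nat_lit 562) (nat_lit 2607) (nat_lit 564) (nat_lit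 2608)))))) (.a (.f (nat_lit 557) (nat_lit 558) (nat_lit 1549) (.f (nat_lit 525) (nat_lit 556) (nat_lit 1548) (.d (nat_lit 497) (nat_lit 496) (nat_lit 2541) (nat_lit 498) (nat_lit 2542)))) (.f (nat_lit 497) (nat_lit 498) (nat_lit 2542) (.f (nat_lit 496) (nat_lit 525) (nat_lit 2541) (.d (nat_lit 560) (nat_lit 465) (nat_lit 6608) (nat_lit 623) (nat_lit 5615)))))))))))))))))))))))) (.a (.p (nat_lit 590) (.a (.p (nat_lit 593) (.a (.f (nat_lit 561) (nat_lit 562) (nat_lit 2606) (.f (nat_lit 625) (nat_lit 626) (nat_lit 590) (.d (nat_lit 560) (nat_lit 589) (nat_lit 2605) (nat_lit 657) (nat_lit 7696)))) (.a (.f (nat_lit 557) (nat_lit 558) (nat_lit 3629) (.f (nat_lit 589) (nat_lit 556) (nat_lit 3628) (.d (nat_lit 621) (nat_lit 620) (nat_lit 1612) (nat_lit 622) (nat_lit 1613)))) (.f (nat_lit 561) (nat_lit 562) (nat_lit 2606) (.d (nat_lit 625) (nat_lit 496) (nat_lit 7664) (nat_lit 626) (nat_lit 590)))))) (.a (.p (nat_lit 593) (.a (.f (nat_lit 557)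 (nat_lit 558) (nat_lit 3629) (.f (nat_lit 589) (nat_lit 556) (nat_lit 3628) (.d (nat_lit 621) (nat_lit 620) (nat_lit 1612) (nat_lit 622) (nat_lit 1613)))) (.f (nat_lit 561) (nat_lit 562) (nat_lit 2606) (.d (nat_lit 625) (nat_lit 496) (nat_lit 7664) (nat_lit 626) (nat_lit 590))))) (.a (.p (nat_lit 593) (.a (.f (nat_lit 561) (nat_lit 562) (nat_lit 2606) (.f (nat_lit 625) (nat_lit 626) (nat_lit 590) (.d (nat_lit 560) (nat_lit 589) (nat_lit 2605) (nat_lit 657) (nat_lit 7696)))) (.a (.f (nat_lit 557) (nat_lit 558) (nat_lit 3629) (.f (nat_lit 589) (nat_lit 556) (nat_lit 3628) (.d (nat_lit 621) (nat_lit 620) (nat_lit 1612) (nat_lit 622) (nat_lit 1613)))) (.f (nat_lit 561) (nat_lit 562) (nat_lit 2606) (.f (nat_lit 626) (nat_lit 625) (nat_lit 590) (.d (nat_lit 594) (nat_lit 497) (nat_lit 4593) (nat_lit 627) (nat_lit 591))))))) (.a (.p (nat_lit 557) (.a (.f (nat_lit 558) (nat_lit 593) (nat_lit 3629) (.d (nat_lit 556) (nat_lit 555) (nat_lit 555)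 (nat_lit 589) (nat_lit 3628))) (.a (.f (nat_lit 556) (nat_lit 589) (nat_lit 3628) (.f (nat_lit 558) (nat_lit 555) (nat_lit 555) (.f (nat_lit 526) (nat_lit 527) (nat_lit 1549) (.f (nat_lit 623) (nat_lit 494) (nat_lit 4590) (.d (nat_lit 655) (nat_lit 622) (nat_lit 4622) (nat_lit 687) (nat_lit 7726)))))) (.a (.f (nat_lit 589) (nat_lit 556) (nat_lit 3628) (.f (nat_lit 621) (nat_lit 620) (nat_lit 1612) (.f (nat_lit 622) (nat_lit 593) (nat_lit 1613) (.d (nat_lit 525) (nat_lit 493) (nat_lit 4589) (nat_lit 654) (nat_lit 4621))))) (.f (nat_lit 593) (nat_lit 558) (nat_lit 3629) (.f (nat_lit 622) (nat_lit 621) (nat_lit 1613) (.f (nat_lit 594) (nat_lit 623) (nat_lit 1614) (.d (nat_lit 626) (nat_lit 625) (nat_lit 590) (nat_lit 627) (nat_lit 591))))))))) (.a (.p (nat_lit 560) (.a (.f (nat_lit 496) (nat_lit 623) (nat_lit 5615) (.f (nat_lit 497) (nat_lit 465) (nat_lit 6608) (.f (nat_lit 495) (nat_lit 463) (nat_lit 7631) (.f (nat_lit 494) (nat_lit 493)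 (nat_lit 493) (.f (nat_lit 526) (nat_lit 525) (nat_lit 1517) (.f (nat_lit 498) (nat_lit 527) (nat_lit 2542) (.f (nat_lit 499) (nat_lit 500) (nat_lit 1520) (.d (nat_lit 467) (nat_lit 466) (nat_lit 2511) (nat_lit 468) (nat_lit 2512))))))))) (.f (nat_lit 589) (nat_lit 561) (nat_lit 2605) (.f (nat_lit 620) (nat_lit 621) (nat_lit 1612) (.f (nat_lit 588) (nat_lit 619) (nat_lit 1611) (.d (nat_lit 556) (nat_lit 555) (nat_lit 3627) (nat_lit 557) (nat_lit 3628))))))) (.a (.p (nat_lit 593) (.a (.f (nat_lit 561) (nat_lit 562) (nat_lit 2606) (.f (nat_lit 625) (nat_lit 626) (nat_lit 590) (.d (nat_lit 560) (nat_lit 589) (nat_lit 2605) (nat_lit 657) (nat_lit 7696)))) (.a (.f (nat_lit 561) (nat_lit 562) (nat_lit 2606) (.d (nat_lit 625) (nat_lit 496) (nat_lit 7664) (nat_lit 626) (nat_lit 590))) (.a (.f (nat_lit 622) (nat_lit 621) (nat_lit 1613) (.f (nat_lit 594) (nat_lit 623) (nat_lit 1614) (.d (nat_lit 626) (nat_lit 625) (nat_lit 590) (nat_lit 627) (nat_lit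 591)))) (.f (nat_lit 561) (nat_lit 562) (nat_lit 2606) (.f (nat_lit 560) (nat_lit 589) (nat_lit 2605) (.d (nat_lit 496) (nat_lit 464) (nat_lit 4560) (nat_lit 623) (nat_lit 5615)))))))) (.a (.p (nat_lit 593) (.a (.f (nat_lit 561) (nat_lit 562) (nat_lit 2606) (.d (nat_lit 625) (nat_lit 496) (nat_lit 7664) (nat_lit 626) (nat_lit 590))) (.a (.f (nat_lit 561) (nat_lit 562) (nat_lit 2606) (.f (nat_lit 626) (nat_lit 625) (nat_lit 590) (.d (nat_lit 594) (nat_lit 497) (nat_lit 4593) (nat_lit 627) (nat_lit 591)))) (.a (.f (nat_lit 622) (nat_lit 621) (nat_lit 1613) (.f (nat_lit 594) (nat_lit 623) (nat_lit 1614) (.d (nat_lit 626) (nat_lit 625) (nat_lit 590) (nat_lit 627) (nat_lit 591)))) (.f (nat_lit 622) (nat_lit 621) (nat_lit 1613) (.f (nat_lit 558) (nat_lit 557) (nat_lit 3629) (.f (nat_lit 623) (nat_lit 594) (nat_lit 1614) (.d (nat_lit 526) (nat_lit 494) (nat_lit 4590) (nat_lit 655) (nat_lit 4622))))))))) (.p (nat_lit 560) (.a (.f (nat_lit 496)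 (nat_lit 623) (nat_lit 5615) (.f (nat_lit 497) (nat_lit 465) (nat_lit 6608) (.f (nat_lit 495) (nat_lit 463) (nat_lit 7631) (.f (nat_lit 494) (nat_lit 493) (nat_lit 493) (.f (nat_lit 526) (nat_lit 525) (nat_lit 1517) (.f (nat_lit 498) (nat_lit 527) (nat_lit 2542) (.f (nat_lit 499) (nat_lit 500) (nat_lit 1520) (.d (nat_lit 467) (nat_lit 466) (nat_lit 2511) (nat_lit 468) (nat_lit 2512))))))))) (.f (nat_lit 561) (nat_lit 589) (nat_lit 2605) (.d (nat_lit 562) (nat_lit 563) (nat_lit 1583) (nat_lit 593) (nat_lit 2606))))))))))))) (.a (.p (nat_lit 527) (.a s16753 (.a (.p (nat_lit 526) (.a (.f (nat_lit 558) (nat_lit 557) (nat_lit 1549) (.f (nat_lit 494) (nat_lit 493) (nat_lit 3565) (.f (nat_lit 590) (nat_lit 623) (nat_lit 4590) (.d (nat_lit 495) (nat_lit 463) (nat_lit 6606) (nat_lit 622) (nat_lit 6638))))) (.a (.f (nat_lit 561) (nat_lit 562) (nat_lit 526) (.f (nat_lit 558) (nat_lit 557) (nat_lit 1549) (.f (nat_lit 494) (nat_lit 493) (nat_lit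 3565) (.f (nat_lit 590) (nat_lit 623) (nat_lit 4590) (.d (nat_lit 589) (nat_lit 560) (nat_lit 2605) (nat_lit 621) (nat_lit 5613)))))) (.f (nat_lit 561) (nat_lit 562) (nat_lit 526) (.f (nat_lit 560) (nat_lit 525) (nat_lit 525) (.d (nat_lit 497) (nat_lit 465) (nat_lit 5584) (nat_lit 498) (nat_lit 2542))))))) (.a (.p (nat_lit 526) (.a (.f (nat_lit 558) (nat_lit 557) (nat_lit 1549) (.f (nat_lit 494) (nat_lit 493) (nat_lit 3565) (.d (nat_lit 559) (nat_lit 462) (nat_lit 4558) (nat_lit 623) (nat_lit 7662)))) (.a (.f (nat_lit 558) (nat_lit 557) (nat_lit 1549) (.f (nat_lit 494) (nat_lit 493) (nat_lit 3565) (.f (nat_lit 590) (nat_lit 623) (nat_lit 4590) (.d (nat_lit 495) (nat_lit 463) (nat_lit 6606) (nat_lit 622) (nat_lit 6638))))) (.a (.f (nat_lit 494) (nat_lit 493) (nat_lit 3565) (.f (nat_lit 559) (nat_lit 623) (nat_lit 7662) (.d (nat_lit 462) (nat_lit 430) (nat_lit 4526) (nat_lit 495) (nat_lit 7630)))) (.f (nat_lit 557) (nat_lit 558) (nat_lit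 1549) (.f (nat_lit 525) (nat_lit 556) (nat_lit 1548) (.d (nat_lit 561) (nat_lit 560) (nat_lit 525) (nat_lit 562) (nat_lit 526)))))))) (.a (.p (nat_lit 496) (.a (.d (nat_lit 623) (nat_lit 559) (nat_lit 6639) (nat_lit 560) (nat_lit 5615)) (.a (.f (nat_lit 559) (nat_lit 623) (nat_lit 6639) (.f (nat_lit 495) (nat_lit 464) (nat_lit 6607) (.d (nat_lit 494) (nat_lit 462) (nat_lit 7630) (nat_lit 493) (nat_lit 493)))) (.a (.f (nat_lit 560) (nat_lit 623) (nat_lit 5615) (.f (nat_lit 465) (nat_lit 497) (nat_lit 6608) (.f (nat_lit 463) (nat_lit 495) (nat_lit 7631) (.d (nat_lit 464) (nat_lit 431) (nat_lit 7599) (nat_lit 433) (nat_lit 6576))))) (.p (nat_lit 560) (.a (.f (nat_lit 495) (nat_lit 463) (nat_lit 7631) (.f (nat_lit 559) (nat_lit 464) (nat_lit 5583) (.d (nat_lit 494) (nat_lit 462) (nat_lit 7630) (nat_lit 493) (nat_lit 493)))) (.a (.f (nat_lit 465) (nat_lit 497) (nat_lit 6608) (.f (nat_lit 463) (nat_lit 495) (nat_lit 7631) (.d (nat_lit 464)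 (nat_lit 431) (nat_lit 7599) (nat_lit 433) (nat_lit 6576)))) (.a (.f (nat_lit 465) (nat_lit 497) (nat_lit 6608) (.d (nat_lit 464) (nat_lit 433) (nat_lit 6576) (nat_lit 559) (nat_lit 5583))) (.f (nat_lit 495) (nat_lit 463) (nat_lit 7631) (.f (nat_lit 497) (nat_lit 465) (nat_lit 6608) (.f (nat_lit 494) (nat_lit 493) (nat_lit 493) (.d (nat_lit 462) (nat_lit 461) (nat_lit 3533) (nat_lit 559) (nat_lit 7630))))))))))))) (.a (.p (nat_lit 526) (.a (.f (nat_lit 558) (nat_lit 557) (nat_lit 1549) (.f (nat_lit 494) (nat_lit 493) (nat_lit 3565) (.d (nat_lit 559) (nat_lit 462) (nat_lit 4558) (nat_lit 623) (nat_lit 7662)))) (.a (.f (nat_lit 557) (nat_lit 558) (nat_lit 1549) (.f (nat_lit 525) (nat_lit 556) (nat_lit 1548) (.d (nat_lit 493) (nat_lit 492) (nat_lit 3564) (nat_lit 494) (nat_lit 3565)))) (.f (nat_lit 497) (nat_lit 498) (nat_lit 2542) (.f (nat_lit 496) (nat_lit 525) (nat_lit 2541) (.d (nat_lit 560) (nat_lit 465) (nat_lit 6608) (nat_lit 623)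 (nat_lit 5615))))))) (.a (.p (nat_lit 526) (.a (.f (nat_lit 557) (nat_lit 558) (nat_lit 1549) (.f (nat_lit 525) (nat_lit 556) (nat_lit 1548) (.d (nat_lit 497) (nat_lit 496) (nat_lit 2541) (nat_lit 498) (nat_lit 2542)))) (.a (.f (nat_lit 561) (nat_lit 562) (nat_lit 526) (.f (nat_lit 560) (nat_lit 525) (nat_lit 525) (.d (nat_lit 497) (nat_lit 465) (nat_lit 5584) (nat_lit 498) (nat_lit 2542)))) (.a (.f (nat_lit 557) (nat_lit 558) (nat_lit 1549) (.f (nat_lit 525) (nat_lit 556) (nat_lit 1548) (.d (nat_lit 561) (nat_lit 560) (nat_lit 525) (nat_lit 562) (nat_lit 526)))) (.f (nat_lit 558) (nat_lit 557) (nat_lit 1549) (.f (nat_lit 497) (nat_lit 498) (nat_lit 2542) (.f (nat_lit 561) (nat_lit 562) (nat_lit 526) (.f (nat_lit 560) (nat_lit 465) (nat_lit 5584) (.f (nat_lit 623) (nat_lit 496) (nat_lit 5615) (.d (nat_lit 655) (nat_lit 559) (nat_lit 7694) (nat_lit 687) (nat_lit 6703))))))))))) s16891))))))) (.a (.p (nat_lit 593) (.a (.p (nat_lit 594)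 (.a (.f (nat_lit 559) (nat_lit 558) (nat_lit 3630) (.f (nat_lit 560) (nat_lit 595) (nat_lit 3631) (.d (nat_lit 623) (nat_lit 622) (nat_lit 1614) (nat_lit 655) (nat_lit 6671)))) (.a (.f (nat_lit 622) (nat_lit 623) (nat_lit 1614) (.f (nat_lit 590) (nat_lit 621) (nat_lit 1613) (.d (nat_lit 558) (nat_lit 557) (nat_lit 3629) (nat_lit 559) (nat_lit 3630)))) (.f (nat_lit 626) (nat_lit 627) (nat_lit 591) (.f (nat_lit 561) (nat_lit 497) (nat_lit 4593) (.d (nat_lit 625) (nat_lit 590) (nat_lit 590) (nat_lit 658) (nat_lit 4625))))))) (.a (.p (nat_lit 594) (.a (.f (nat_lit 622) (nat_lit 623) (nat_lit 1614) (.f (nat_lit 590) (nat_lit 621) (nat_lit 1613) (.d (nat_lit 558) (nat_lit 557) (nat_lit 3629) (nat_lit 559) (nat_lit 3630)))) (.a (.f (nat_lit 626) (nat_lit 627) (nat_lit 591) (.f (nat_lit 561) (nat_lit 497) (nat_lit 4593) (.d (nat_lit 625) (nat_lit 590) (nat_lit 590) (nat_lit 658) (nat_lit 4625)))) (.f (nat_lit 626) (nat_lit 627) (nat_lit 591)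 (.f (nat_lit 561) (nat_lit 497) (nat_lit 4593) (.d (nat_lit 625) (nat_lit 496) (nat_lit 7664) (nat_lit 658) (nat_lit 4625))))))) (.a (.p (nat_lit 594) (.a (.f (nat_lit 559) (nat_lit 558) (nat_lit 3630) (.f (nat_lit 560) (nat_lit 595) (nat_lit 3631) (.d (nat_lit 623) (nat_lit 622) (nat_lit 1614) (nat_lit 655) (nat_lit 6671)))) (.a (.f (nat_lit 622) (nat_lit 623) (nat_lit 1614) (.f (nat_lit 590) (nat_lit 621) (nat_lit 1613) (.d (nat_lit 558) (nat_lit 557) (nat_lit 3629) (nat_lit 559) (nat_lit 3630)))) (.f (nat_lit 626) (nat_lit 627) (nat_lit 591) (.f (nat_lit 625) (nat_lit 590) (nat_lit 590) (.d (nat_lit 561) (nat_lit 496) (nat_lit 7664) (nat_lit 658) (nat_lit 4625))))))) (.a (.p (nat_lit 594) (.a (.f (nat_lit 559) (nat_lit 558) (nat_lit 3630) (.f (nat_lit 560) (nat_lit 595) (nat_lit 3631) (.d (nat_lit 623) (nat_lit 622) (nat_lit 1614) (nat_lit 655) (nat_lit 6671)))) (.a (.f (nat_lit 622) (nat_lit 623) (nat_lit 1614) (.f (nat_lit 590)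 (nat_lit 621) (nat_lit 1613) (.d (nat_lit 558) (nat_lit 557) (nat_lit 3629) (nat_lit 559) (nat_lit 3630)))) (.a (.f (nat_lit 622) (nat_lit 623) (nat_lit 1614) (.f (nat_lit 590) (nat_lit 621) (nat_lit 1613) (.d (nat_lit 626) (nat_lit 625) (nat_lit 590) (nat_lit 627) (nat_lit 591)))) (.f (nat_lit 626) (nat_lit 627) (nat_lit 591) (.f (nat_lit 590) (nat_lit 625) (nat_lit 590) (.d (nat_lit 558) (nat_lit 557) (nat_lit 3629) (nat_lit 559) (nat_lit 3630)))))))) (.a (.p (nat_lit 594) (.a (.f (nat_lit 626) (nat_lit 627) (nat_lit 591) (.f (nat_lit 561) (nat_lit 497) (nat_lit 4593) (.d (nat_lit 625) (nat_lit 590) (nat_lit 590) (nat_lit 658) (nat_lit 4625)))) (.a (.f (nat_lit 626) (nat_lit 627) (nat_lit 591) (.f (nat_lit 625) (nat_lit 590) (nat_lit 590) (.d (nat_lit 561) (nat_lit 496) (nat_lit 7664) (nat_lit 658) (nat_lit 4625)))) (.a (.f (nat_lit 622) (nat_lit 623) (nat_lit 1614) (.f (nat_lit 590) (nat_lit 621) (nat_lit 1613) (.d (nat_lit 626) (nat_lit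 625) (nat_lit 590) (nat_lit 627) (nat_lit 591)))) (.a (.f (nat_lit 623) (nat_lit 622) (nat_lit 1614) (.f (nat_lit 560) (nat_lit 496) (nat_lit 5615) (.f (nat_lit 627) (nat_lit 626) (nat_lit 591) (.f (nat_lit 595) (nat_lit 628) (nat_lit 592) (.f (nat_lit 561) (nat_lit 596) (nat_lit 3632) (.f (nat_lit 497) (nat_lit 465) (nat_lit 5584) (.f (nat_lit 498) (nat_lit 466) (nat_lit 6609) (.f (nat_lit 590) (nat_lit 589) (nat_lit 2605) (.f (nat_lit 526) (nat_lit 527) (nat_lit 2542) (.d (nat_lit 558) (nat_lit 494) (nat_lit 4590) (nat_lit 557) (nat_lit 3629))))))))))) (.a (.f (nat_lit 626) (nat_lit 627) (nat_lit 591) (.f (nat_lit 561) (nat_lit 497) (nat_lit 4593) (.d (nat_lit 625) (nat_lit 496) (nat_lit 7664) (nat_lit 658) (nat_lit 4625)))) (.f (nat_lit 623) (nat_lit 622) (nat_lit 1614) (.f (nat_lit 496) (nat_lit 560) (nat_lit 5615) (.f (nat_lit 561) (nat_lit 625) (nat_lit 7664) (.f (nat_lit 497) (nat_lit 464) (nat_lit 7632) (.f (nat_lit 498) (nat_lit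 466) (nat_lit 6609) (.d (nat_lit 499) (nat_lit 500) (nat_lit 1520) (nat_lit 527) (nat_lit 1519))))))))))))) (.a (.p (nat_lit 594) (.a (.f (nat_lit 626) (nat_lit 627) (nat_lit 591) (.f (nat_lit 561) (nat_lit 497) (nat_lit 4593) (.d (nat_lit 625) (nat_lit 590) (nat_lit 590) (nat_lit 658) (nat_lit 4625)))) (.a (.f (nat_lit 626) (nat_lit 627) (nat_lit 591) (.f (nat_lit 625) (nat_lit 590) (nat_lit 590) (.d (nat_lit 561) (nat_lit 496) (nat_lit 7664) (nat_lit 658) (nat_lit 4625)))) (.f (nat_lit 623) (nat_lit 622) (nat_lit 1614) (.f (nat_lit 560) (nat_lit 496) (nat_lit 5615) (.d (nat_lit 559) (nat_lit 595) (nat_lit 3631) (nat_lit 655) (nat_lit 6671))))))) (.a (.p (nat_lit 594) (.a (.f (nat_lit 559) (nat_lit 558) (nat_lit 3630) (.f (nat_lit 560) (nat_lit 595) (nat_lit 3631) (.d (nat_lit 623) (nat_lit 622) (nat_lit 1614) (nat_lit 655) (nat_lit 6671)))) (.a (.f (nat_lit 622) (nat_lit 623) (nat_lit 1614) (.f (nat_lit 590) (nat_lit 621) (nat_lit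 1613) (.d (nat_lit 558) (nat_lit 557) (nat_lit 3629) (nat_lit 559) (nat_lit 3630)))) (.a (.f (nat_lit 623) (nat_lit 622) (nat_lit 1614) (.f (nat_lit 560) (nat_lit 496) (nat_lit 5615) (.f (nat_lit 627) (nat_lit 626) (nat_lit 591) (.f (nat_lit 595) (nat_lit 628) (nat_lit 592) (.f (nat_lit 561) (nat_lit 596) (nat_lit 3632) (.f (nat_lit 497) (nat_lit 465) (nat_lit 5584) (.f (nat_lit 498) (nat_lit 466) (nat_lit 6609) (.f (nat_lit 590) (nat_lit 589) (nat_lit 2605) (.f (nat_lit 526) (nat_lit 527) (nat_lit 2542) (.d (nat_lit 558) (nat_lit 494) (nat_lit 4590) (nat_lit 557) (nat_lit 3629))))))))))) (.a (.f (nat_lit 623) (nat_lit 622) (nat_lit 1614) (.f (nat_lit 560) (nat_lit 496) (nat_lit 5615) (.d (nat_lit 559) (nat_lit 595) (nat_lit 3631) (nat_lit 655) (nat_lit 6671)))) (.f (nat_lit 559) (nat_lit 558) (nat_lit 3630) (.f (nat_lit 595) (nat_lit 560) (nat_lit 3631) (.d (nat_lit 627) (nat_lit 626) (nat_lit 591) (nat_lit 628) (nat_lit 592)))))))))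 (.a (.p (nat_lit 496) (.a (.d (nat_lit 560) (nat_lit 623) (nat_lit 5615) (nat_lit 625) (nat_lit 4592)) (.a (.f (nat_lit 561) (nat_lit 625) (nat_lit 7664) (.f (nat_lit 497) (nat_lit 464) (nat_lit 7632) (.f (nat_lit 498) (nat_lit 466) (nat_lit 6609) (.d (nat_lit 499) (nat_lit 500) (nat_lit 1520) (nat_lit 527) (nat_lit 1519))))) (.f (nat_lit 560) (nat_lit 623) (nat_lit 5615) (.d (nat_lit 464) (nat_lit 559) (nat_lit 5583) (nat_lit 561) (nat_lit 4560)))))) s17029))))))))) (.a (.p (nat_lit 593) (.a (.p (nat_lit 561) (.a (.f (nat_lit 562) (nat_lit 590) (nat_lit 2606) (.d (nat_lit 563) (nat_lit 564) (nat_lit 1584) (nat_lit 594) (nat_lit 2607))) (.a (.f (nat_lit 625) (nat_lit 496) (nat_lit 7664) (.d (nat_lit 626) (nat_lit 590) (nat_lit 590) (nat_lit 658) (nat_lit 4625))) (.f (nat_lit 625) (nat_lit 496) (nat_lit 7664) (.f (nat_lit 626) (nat_lit 658) (nat_lit 4625) (.d (nat_lit 627) (nat_lit 594) (nat_lit 591) (nat_lit 628) (nat_lit 3664)))))))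 (.a s16554 (.a (.p (nat_lit 594) (.a (.f (nat_lit 563) (nat_lit 562) (nat_lit 2607) (.f (nat_lit 595) (nat_lit 564) (nat_lit 2608) (.d (nat_lit 627) (nat_lit 626) (nat_lit 591) (nat_lit 628) (nat_lit 592)))) (.a (.f (nat_lit 623) (nat_lit 622) (nat_lit 1614) (.f (nat_lit 560) (nat_lit 496) (nat_lit 5615) (.d (nat_lit 559) (nat_lit 595) (nat_lit 3631) (nat_lit 655) (nat_lit 6671)))) (.f (nat_lit 622) (nat_lit 623) (nat_lit 1614) (.f (nat_lit 590) (nat_lit 621) (nat_lit 1613) (.d (nat_lit 626) (nat_lit 625) (nat_lit 590) (nat_lit 627) (nat_lit 591))))))) (.a (.p (nat_lit 594) (.a (.f (nat_lit 626) (nat_lit 627) (nat_lit 591) (.f (nat_lit 561) (nat_lit 497) (nat_lit 4593) (.d (nat_lit 625) (nat_lit 590) (nat_lit 590) (nat_lit 658) (nat_lit 4625)))) (.a (.f (nat_lit 626) (nat_lit 627) (nat_lit 591) (.f (nat_lit 625) (nat_lit 590) (nat_lit 590) (.d (nat_lit 561) (nat_lit 496) (nat_lit 7664) (nat_lit 658) (nat_lit 4625)))) (.f (nat_lit 623)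 (nat_lit 622) (nat_lit 1614) (.f (nat_lit 560) (nat_lit 496) (nat_lit 5615) (.d (nat_lit 559) (nat_lit 595) (nat_lit 3631) (nat_lit 655) (nat_lit 6671))))))) (.a (.p (nat_lit 594) (.a (.f (nat_lit 562) (nat_lit 563) (nat_lit 2607) (.f (nat_lit 626) (nat_lit 627) (nat_lit 591) (.d (nat_lit 561) (nat_lit 590) (nat_lit 2606) (nat_lit 658) (nat_lit 7697)))) (.a (.f (nat_lit 563) (nat_lit 562) (nat_lit 2607) (.f (nat_lit 595) (nat_lit 564) (nat_lit 2608) (.d (nat_lit 627) (nat_lit 626) (nat_lit 591) (nat_lit 628) (nat_lit 592)))) (.f (nat_lit 623) (nat_lit 622) (nat_lit 1614) (.f (nat_lit 560) (nat_lit 496) (nat_lit 5615) (.d (nat_lit 559) (nat_lit 595) (nat_lit 3631) (nat_lit 655) (nat_lit 6671))))))) (.p (nat_lit 496) (.a (.d (nat_lit 560) (nat_lit 623) (nat_lit 5615) (nat_lit 625) (nat_lit 4592)) (.a (.f (nat_lit 561) (nat_lit 625) (nat_lit 7664) (.f (nat_lit 497) (nat_lit 464) (nat_lit 7632) (.f (nat_lit 498) (nat_lit 466) (nat_lit 6609)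 (.d (nat_lit 499) (nat_lit 500) (nat_lit 1520) (nat_lit 527) (nat_lit 1519))))) (.f (nat_lit 560) (nat_lit 623) (nat_lit 5615) (.d (nat_lit 464) (nat_lit 559) (nat_lit 5583) (nat_lit 561) (nat_lit 4560)))))))))))) (.a (.p (nat_lit 593) (.a s15016 (.a (.p (nat_lit 561) (.a (.f (nat_lit 562) (nat_lit 590) (nat_lit 2606) (.d (nat_lit 563) (nat_lit 564) (nat_lit 1584) (nat_lit 594) (nat_lit 2607))) (.a (.f (nat_lit 625) (nat_lit 496) (nat_lit 7664) (.d (nat_lit 626) (nat_lit 590) (nat_lit 590) (nat_lit 658) (nat_lit 4625))) (.f (nat_lit 625) (nat_lit 496) (nat_lit 7664) (.f (nat_lit 626) (nat_lit 658) (nat_lit 4625) (.d (nat_lit 627) (nat_lit 594) (nat_lit 591) (nat_lit 628) (nat_lit 3664))))))) (.a (.p (nat_lit 594) (.a (.f (nat_lit 559) (nat_lit 558) (nat_lit 3630) (.f (nat_lit 595) (nat_lit 560) (nat_lit 3631) (.d (nat_lit 563) (nat_lit 562) (nat_lit 2607) (nat_lit 564) (nat_lit 2608)))) (.a (.f (nat_lit 626) (nat_lit 627) (nat_lit 591)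 (.f (nat_lit 590) (nat_lit 625) (nat_lit 590) (.d (nat_lit 558) (nat_lit 557) (nat_lit 3629) (nat_lit 559) (nat_lit 3630)))) (.f (nat_lit 563) (nat_lit 562) (nat_lit 2607) (.f (nat_lit 595) (nat_lit 564) (nat_lit 2608) (.d (nat_lit 627) (nat_lit 626) (nat_lit 591) (nat_lit 628) (nat_lit 592))))))) (.a s17029 (.a (.p (nat_lit 594) (.a (.f (nat_lit 562) (nat_lit 563) (nat_lit 2607) (.f (nat_lit 626) (nat_lit 627) (nat_lit 591) (.d (nat_lit 561) (nat_lit 590) (nat_lit 2606) (nat_lit 658) (nat_lit 7697)))) (.a (.f (nat_lit 559) (nat_lit 558) (nat_lit 3630) (.f (nat_lit 595) (nat_lit 560) (nat_lit 3631) (.d (nat_lit 563) (nat_lit 562) (nat_lit 2607) (nat_lit 564) (nat_lit 2608)))) (.f (nat_lit 559) (nat_lit 558) (nat_lit 3630) (.f (nat_lit 595) (nat_lit 560) (nat_lit 3631) (.d (nat_lit 627) (nat_lit 626) (nat_lit 591) (nat_lit 628) (nat_lit 592))))))) (.a s16564 (.a s16643 (.p (nat_lit 561) (.a (.f (nat_lit 562) (nat_lit 590) (nat_lit 2606)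 (.d (nat_lit 563) (nat_lit 564) (nat_lit 1584) (nat_lit 594) (nat_lit 2607))) (.f (nat_lit 496) (nat_lit 625) (nat_lit 7664) (.f (nat_lit 497) (nat_lit 464) (nat_lit 7632) (.f (nat_lit 498) (nat_lit 466) (nat_lit 6609) (.d (nat_lit 499) (nat_lit 500) (nat_lit 1520) (nat_lit 527) (nat_lit 1519))))))))))))))) (.a (.p (nat_lit 593) (.a s15281 (.a s16744 (.a (.p (nat_lit 594) (.a (.f (nat_lit 563) (nat_lit 562) (nat_lit 2607) (.f (nat_lit 595) (nat_lit 564) (nat_lit 2608) (.d (nat_lit 627) (nat_lit 626) (nat_lit 591) (nat_lit 628) (nat_lit 592)))) (.a (.f (nat_lit 626) (nat_lit 627) (nat_lit 591) (.f (nat_lit 561) (nat_lit 497) (nat_lit 4593) (.d (nat_lit 625) (nat_lit 496) (nat_lit 7664) (nat_lit 658) (nat_lit 4625)))) (.f (nat_lit 623) (nat_lit 622) (nat_lit 1614) (.f (nat_lit 496) (nat_lit 560) (nat_lit 5615) (.f (nat_lit 561) (nat_lit 625) (nat_lit 7664) (.f (nat_lit 497) (nat_lit 464) (nat_lit 7632) (.f (nat_lit 498) (nat_lit 466) (nat_lit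 6609) (.d (nat_lit 499) (nat_lit 500) (nat_lit 1520) (nat_lit 527) (nat_lit 1519)))))))))) (.a (.p (nat_lit 496) (.a (.d (nat_lit 560) (nat_lit 623) (nat_lit 5615) (nat_lit 625) (nat_lit 4592)) (.a (.f (nat_lit 561) (nat_lit 625) (nat_lit 7664) (.f (nat_lit 497) (nat_lit 464) (nat_lit 7632) (.f (nat_lit 498) (nat_lit 466) (nat_lit 6609) (.d (nat_lit 499) (nat_lit 500) (nat_lit 1520) (nat_lit 527) (nat_lit 1519))))) (.f (nat_lit 560) (nat_lit 623) (nat_lit 5615) (.d (nat_lit 464) (nat_lit 559) (nat_lit 5583) (nat_lit 561) (nat_lit 4560)))))) s16643))))) (.p (nat_lit 593) (.a s15016 (.a (.p (nat_lit 561) (.a (.f (nat_lit 562) (nat_lit 590) (nat_lit 2606) (.d (nat_lit 563) (nat_lit 564) (nat_lit 1584) (nat_lit 594) (nat_lit 2607))) (.a (.f (nat_lit 625) (nat_lit 496) (nat_lit 7664) (.d (nat_lit 626) (nat_lit 590) (nat_lit 590) (nat_lit 658) (nat_lit 4625))) (.f (nat_lit 625) (nat_lit 496) (nat_lit 7664) (.f (nat_lit 626) (nat_lit 658) (nat_lit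 4625) (.d (nat_lit 627) (nat_lit 594) (nat_lit 591) (nat_lit 628) (nat_lit 3664))))))) (.a (.p (nat_lit 594) (.a (.f (nat_lit 559) (nat_lit 558) (nat_lit 3630) (.f (nat_lit 595) (nat_lit 560) (nat_lit 3631) (.d (nat_lit 563) (nat_lit 562) (nat_lit 2607) (nat_lit 564) (nat_lit 2608)))) (.a (.f (nat_lit 626) (nat_lit 627) (nat_lit 591) (.f (nat_lit 590) (nat_lit 625) (nat_lit 590) (.d (nat_lit 558) (nat_lit 557) (nat_lit 3629) (nat_lit 559) (nat_lit 3630)))) (.f (nat_lit 563) (nat_lit 562) (nat_lit 2607) (.f (nat_lit 595) (nat_lit 564) (nat_lit 2608) (.d (nat_lit 627) (nat_lit 626) (nat_lit 591) (nat_lit 628) (nat_lit 592))))))) (.a (.p (nat_lit 496) (.a (.d (nat_lit 560) (nat_lit 623) (nat_lit 5615) (nat_lit 625) (nat_lit 4592)) (.a (.f (nat_lit 561) (nat_lit 625) (nat_lit 7664) (.f (nat_lit 497) (nat_lit 464) (nat_lit 7632) (.f (nat_lit 498) (nat_lit 466) (nat_lit 6609) (.d (nat_lit 499) (nat_lit 500) (nat_lit 1520) (nat_lit 527) (nat_lit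 1519))))) (.f (nat_lit 560) (nat_lit 623) (nat_lit 5615) (.d (nat_lit 464) (nat_lit 559) (nat_lit 5583) (nat_lit 561) (nat_lit 4560)))))) (.p (nat_lit 594) (.a (.f (nat_lit 562) (nat_lit 563) (nat_lit 2607) (.f (nat_lit 626) (nat_lit 627) (nat_lit 591) (.d (nat_lit 561) (nat_lit 590) (nat_lit 2606) (nat_lit 658) (nat_lit 7697)))) (.a (.f (nat_lit 559) (nat_lit 558) (nat_lit 3630) (.f (nat_lit 595) (nat_lit 560) (nat_lit 3631) (.d (nat_lit 563) (nat_lit 562) (nat_lit 2607) (nat_lit 564) (nat_lit 2608)))) (.f (nat_lit 559) (nat_lit 558) (nat_lit 3630) (.f (nat_lit 595) (nat_lit 560) (nat_lit 3631) (.d (nat_lit 627) (nat_lit 626) (nat_lit 591) (nat_lit 628) (nat_lit 592))))))))))))))))))))))))) (.a s17046 (.a s17060 (.a s17063 (.p (nat_lit 560) (.a (.f (nat_lit 497) (nat_lit 624) (nat_lit 6640) (.d (nat_lit 465) (nat_lit 433) (nat_lit 5552) (nat_lit 496) (nat_lit 6608))) (.a (.f (nat_lit 624) (nat_lit 497) (nat_lit 6640) (.f (nat_lit 656)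 (nat_lit 561) (nat_lit 6672) (.d (nat_lit 527) (nat_lit 495) (nat_lit 7663) (nat_lit 559) (nat_lit 7695)))) (.a (.p (nat_lit 496) (.a (.f (nat_lit 593) (nat_lit 625) (nat_lit 4592) (.f (nat_lit 591) (nat_lit 623) (nat_lit 5615) (.d (nat_lit 464) (nat_lit 559) (nat_lit 5583) (nat_lit 561) (nat_lit 4560)))) (.a (.f (nat_lit 591) (nat_lit 623) (nat_lit 5615) (.f (nat_lit 559) (nat_lit 464) (nat_lit 5583) (.f (nat_lit 593) (nat_lit 625) (nat_lit 4592) (.d (nat_lit 558) (nat_lit 557) (nat_lit 557) (nat_lit 594) (nat_lit 3630))))) (.a (.f (nat_lit 593) (nat_lit 625) (nat_lit 4592) (.f (nat_lit 561) (nat_lit 464) (nat_lit 4560) (.f (nat_lit 591) (nat_lit 623) (nat_lit 5615) (.d (nat_lit 562) (nat_lit 563) (nat_lit 1583) (nat_lit 590) (nat_lit 2606))))) (.a (.f (nat_lit 591) (nat_lit 623) (nat_lit 5615) (.f (nat_lit 559) (nat_lit 464) (nat_lit 5583) (.f (nat_lit 558) (nat_lit 557) (nat_lit 2573) (.f (nat_lit 495) (nat_lit 463) (nat_lit 7631)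 (.f (nat_lit 494) (nat_lit 493) (nat_lit 493) (.f (nat_lit 526) (nat_lit 462) (nat_lit 4558) (.f (nat_lit 561) (nat_lit 525) (nat_lit 3597) (.d (nat_lit 562) (nat_lit 563) (nat_lit 1583) (nat_lit 590) (nat_lit 1582))))))))) (.a (.f (nat_lit 593) (nat_lit 625) (nat_lit 4592) (.f (nat_lit 464) (nat_lit 561) (nat_lit 4560) (.d (nat_lit 463) (nat_lit 431) (nat_lit 7599) (nat_lit 495) (nat_lit 7631)))) (.f (nat_lit 495) (nat_lit 463) (nat_lit 7631) (.f (nat_lit 624) (nat_lit 527) (nat_lit 7663) (.d (nat_lit 625) (nat_lit 593) (nat_lit 4592) (nat_lit 657) (nat_lit 4624)))))))))) s14522))))))))))))))))))))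
noncomputable def s17075 : Cert := .r (nat_lit 16209045190941378747264522569282111398454259652685483301944743458568313367990392076588979006111774107789179713591725348373559806391710671697063755444630727080615906093956692180992) (.p (nat_lit 526) (.a (.f (nat_lit 561) (nat_lit 562) (nat_lit 526) (.f (nat_lit 560) (nat_lit 525) (nat_lit 525) (.d (nat_lit 624) (nat_lit 495) (nat_lit 7663) (nat_lit 656) (nat_lit 6672)))) (.a (.f (nat_lit 493) (nat_lit 494) (nat_lit 3565) (.f (nat_lit 525) (nat_lit 492) (nat_lit 3564) (.d (nat_lit 557) (nat_lit 556) (nat_lit 1548) (nat_lit 558) (nat_lit 1549)))) (.p (nat_lit 495) (.a (.f (nat_lit 494) (nat_lit 493) (nat_lit 3565) (.f (nat_lit 558) (nat_lit 557) (nat_lit 1549) (.d (nat_lit 463) (nat_lit 431) (nat_lit 5550) (nat_lit 590) (nat_lit 6606)))) (.a (.f (nat_lit 560) (nat_lit 624) (nat_lit 7663) (.d (nat_lit 463) (nat_lit 431) (nat_lit 4527) (nat_lit 496) (nat_lit 7631))) (.f (nat_lit 494) (nat_lit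 493) (nat_lit 3565) (.f (nat_lit 558) (nat_lit 557) (nat_lit 1549) (.f (nat_lit 590) (nat_lit 622) (nat_lit 6638) (.f (nat_lit 560) (nat_lit 624) (nat_lit 7663) (.f (nat_lit 561) (nat_lit 562) (nat_lit 526) (.d (nat_lit 589) (nat_lit 591) (nat_lit 2605) (nat_lit 621) (nat_lit 5613)))))))))))))
noncomputable def s17076 : Cert := .r (nat_lit 16209045194715341172086063921523665979442528543602404522361183886944519668236016238981127858197900832966838481133193723404323651291481256326988548077192161332048602137606087507968) (.p (nat_lit 496) (.a (.f (nat_lit 593) (nat_lit 625) (nat_lit 4592) (.f (nat_lit 561) (nat_lit 464) (nat_lit 4560) (.f (nat_lit 562) (nat_lit 563) (nat_lit 3599) (.d (nat_lit 591) (nat_lit 590) (nat_lit 2606) (nat_lit 623) (nat_lit 5615))))) (.a (.f (nat_lit 463) (nat_lit 495) (nat_lit 7631) (.f (nat_lit 465) (nat_lit 497) (nat_lit 6608) (.d (nat_lit 464) (nat_lit 431) (nat_lit 7599) (nat_lit 433) (nat_lit 6576)))) (.f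 (nat_lit 497) (nat_lit 465) (nat_lit 6608) (.f (nat_lit 495) (nat_lit 463) (nat_lit 7631) (.f (nat_lit 498) (nat_lit 499) (nat_lit 1519) (.f (nat_lit 593) (nat_lit 625) (nat_lit 4592) (.d (nat_lit 466) (nat_lit 467) (nat_lit 2511) (nat_lit 561) (nat_lit 6609)))))))))
noncomputable def s17077 : Cert := .r (nat_lit 16209045190941378747264522569282111398454259652685483301944743458568313367990392076588979006111774107789179713591725348373559806391710671697063755444630727080615906093956692180992) (.p (nat_lit 560) (.a (.d (nat_lit 624) (nat_lit 495) (nat_lit 7663) (nat_lit 497) (nat_lit 6640)) (.a (.f (nat_lit 495) (nat_lit 624) (nat_lit 7663) (.d (nat_lit 463) (nat_lit 431) (nat_lit 4527) (nat_lit 496) (nat_lit 7631))) (.a (.f (nat_lit 497) (nat_lit 624) (nat_lit 6640) (.d (nat_lit 465) (nat_lit 433) (nat_lit 5552) (nat_lit 496) (nat_lit 6608))) s17076))))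
noncomputable def s17092 : Cert := .r (nat_lit 16209045194715341172086063921523665979442528543602404522361183886944519668236016238981127858197900832966838481133193723404323651291481256326988548077192161332048602137606087507968) (.p (nat_lit 496) (.a (.f (nat_lit 463) (nat_lit 495) (nat_lit 7631) (.f (nat_lit 593) (nat_lit 625) (nat_lit 4592) (.d (nat_lit 464) (nat_lit 431) (nat_lit 7599) (nat_lit 561) (nat_lit 4560)))) (.a (.f (nat_lit 463) (nat_lit 495) (nat_lit 7631) (.f (nat_lit 465) (nat_lit 497) (nat_lit 6608) (.d (nat_lit 464) (nat_lit 431) (nat_lit 7599) (nat_lit 433) (nat_lit 6576)))) (.a (.f (nat_lit 497) (nat_lit 465) (nat_lit 6608) (.f (nat_lit 593) (nat_lit 625) (nat_lit 4592) (.f (nat_lit 561) (nat_lit 464) (nat_lit 4560) (.d (nat_lit 498) (nat_lit 466) (nat_lit 6609) (nat_lit 499) (nat_lit 1519))))) (.f (nat_lit 497) (nat_lit 465) (nat_lit 6608) (.f (nat_lit 495) (nat_lit 463) (nat_lit 7631) (.f (nat_lit 498) (nat_lit 499)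 (nat_lit 1519) (.f (nat_lit 593) (nat_lit 625) (nat_lit 4592) (.d (nat_lit 466) (nat_lit 467) (nat_lit 2511) (nat_lit 561) (nat_lit 6609))))))))))
noncomputable def s17097 : Cert := .r (nat_lit 3075429351738513152311891557988464161336707014464200823408719629715123346162149911350906719016331640629828747503383424400630650623873056428033164674419545604096) (.p (nat_lit 560) (.a (.p (nat_lit 530) (.a (.f (nat_lit 563) (nat_lit 562) (nat_lit 527) (.f (nat_lit 531) (nat_lit 564) (nat_lit 528) (.d (nat_lit 499) (nat_lit 498) (nat_lit 2543) (nat_lit 500) (nat_lit 2544)))) (.f (nat_lit 495) (nat_lit 494) (nat_lit 3566) (.f (nat_lit 592) (nat_lit 624) (nat_lit 7663) (.d (nat_lit 463) (nat_lit 431) (nat_lit 4527) (nat_lit 496) (nat_lit 7631)))))) (.a (.p (nat_lit 530) (.a (.f (nat_lit 563) (nat_lit 562) (nat_lit 527) (.f (nat_lit 531) (nat_lit 564) (nat_lit 528) (.d (nat_lit 499) (nat_lit 498) (nat_lit 2543) (nat_lit 500) (nat_lit 2544)))) (.a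 (.p (nat_lit 497) (.a (.f (nat_lit 562) (nat_lit 563) (nat_lit 527) (.f (nat_lit 465) (nat_lit 433) (nat_lit 5552) (.d (nat_lit 498) (nat_lit 499) (nat_lit 2543) (nat_lit 594) (nat_lit 7633)))) (.a (.f (nat_lit 592) (nat_lit 624) (nat_lit 6640) (.d (nat_lit 465) (nat_lit 433) (nat_lit 5552) (nat_lit 561) (nat_lit 5584))) (.f (nat_lit 498) (nat_lit 499) (nat_lit 2543) (.f (nat_lit 562) (nat_lit 563) (nat_lit 527) (.f (nat_lit 594) (nat_lit 626) (nat_lit 7665) (.f (nat_lit 593) (nat_lit 625) (nat_lit 5617) (.f (nat_lit 466) (nat_lit 561) (nat_lit 6609) (.f (nat_lit 434) (nat_lit 402) (nat_lit 5521) (.d (nat_lit 435) (nat_lit 403) (nat_lit 6546) (nat_lit 467) (nat_lit 6578))))))))))) (.a (.f (nat_lit 499) (nat_lit 498) (nat_lit 2543) (.f (nat_lit 531) (nat_lit 500) (nat_lit 2544) (.f (nat_lit 532) (nat_lit 561) (nat_lit 1552) (.d (nat_lit 564) (nat_lit 563) (nat_lit 528) (nat_lit 565) (nat_lit 529))))) (.a s2694 (.a (.f (nat_lit 563) (nat_lit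 562) (nat_lit 527) (.f (nat_lit 531) (nat_lit 564) (nat_lit 528) (.f (nat_lit 500) (nat_lit 499) (nat_lit 2544) (.d (nat_lit 532) (nat_lit 501) (nat_lit 2545) (nat_lit 561) (nat_lit 1552))))) (.p (nat_lit 497) (.a (.f (nat_lit 592) (nat_lit 624) (nat_lit 6640) (.d (nat_lit 465) (nat_lit 433) (nat_lit 5552) (nat_lit 561) (nat_lit 5584))) (.a (.f (nat_lit 562) (nat_lit 563) (nat_lit 527) (.f (nat_lit 465) (nat_lit 433) (nat_lit 5552) (.d (nat_lit 594) (nat_lit 498) (nat_lit 7633) (nat_lit 626) (nat_lit 7665)))) (.f (nat_lit 563) (nat_lit 562) (nat_lit 527) (.f (nat_lit 531) (nat_lit 564) (nat_lit 528) (.f (nat_lit 532) (nat_lit 561) (nat_lit 1552) (.f (nat_lit 533) (nat_lit 498) (nat_lit 3569) (.d (nat_lit 501) (nat_lit 500) (nat_lit 2545) (nat_lit 502) (nat_lit 2546))))))))))))))) (.a (.p (nat_lit 592) (.a (.d (nat_lit 624) (nat_lit 495) (nat_lit 7663) (nat_lit 497) (nat_lit 6640)) (.a (.f (nat_lit 495) (nat_lit 624) (nat_lit 7663) (.d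 (nat_lit 463) (nat_lit 431) (nat_lit 4527) (nat_lit 496) (nat_lit 7631))) (.a (.f (nat_lit 497) (nat_lit 624) (nat_lit 6640) (.d (nat_lit 465) (nat_lit 433) (nat_lit 5552) (nat_lit 496) (nat_lit 6608))) s17076)))) (.a (.p (nat_lit 530) (.a (.f (nat_lit 563) (nat_lit 562) (nat_lit 527) (.f (nat_lit 531) (nat_lit 564) (nat_lit 528) (.d (nat_lit 499) (nat_lit 498) (nat_lit 2543) (nat_lit 500) (nat_lit 2544)))) (.a (.p (nat_lit 497) (.a (.f (nat_lit 562) (nat_lit 563) (nat_lit 527) (.f (nat_lit 465) (nat_lit 433) (nat_lit 5552) (.d (nat_lit 498) (nat_lit 499) (nat_lit 2543) (nat_lit 594) (nat_lit 7633)))) (.a (.f (nat_lit 498) (nat_lit 499) (nat_lit 2543) (.f (nat_lit 495) (nat_lit 494) (nat_lit 3566) (.f (nat_lit 465) (nat_lit 433) (nat_lit 5552) (.f (nat_lit 463) (nat_lit 431) (nat_lit 4527) (.d (nat_lit 462) (nat_lit 464) (nat_lit 462) (nat_lit 496) (nat_lit 3534)))))) (.a (.f (nat_lit 562) (nat_lit 563) (nat_lit 527) (.f (nat_lit 465)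 (nat_lit 433) (nat_lit 5552) (.d (nat_lit 594) (nat_lit 561) (nat_lit 4561) (nat_lit 626) (nat_lit 7665)))) (.f (nat_lit 498) (nat_lit 499) (nat_lit 2543) (.f (nat_lit 562) (nat_lit 563) (nat_lit 527) (.f (nat_lit 594) (nat_lit 626) (nat_lit 7665) (.f (nat_lit 593) (nat_lit 625) (nat_lit 5617) (.f (nat_lit 466) (nat_lit 561) (nat_lit 6609) (.f (nat_lit 434) (nat_lit 402) (nat_lit 5521) (.d (nat_lit 435) (nat_lit 403) (nat_lit 6546) (nat_lit 467) (nat_lit 6578)))))))))))) (.a (.f (nat_lit 499) (nat_lit 498) (nat_lit 2543) (.f (nat_lit 531) (nat_lit 500) (nat_lit 2544) (.f (nat_lit 532) (nat_lit 561) (nat_lit 1552) (.d (nat_lit 564) (nat_lit 563) (nat_lit 528) (nat_lit 565) (nat_lit 529))))) (.a s2694 (.a (.f (nat_lit 563) (nat_lit 562) (nat_lit 527) (.f (nat_lit 531) (nat_lit 564) (nat_lit 528) (.f (nat_lit 500) (nat_lit 499) (nat_lit 2544) (.d (nat_lit 532) (nat_lit 501) (nat_lit 2545) (nat_lit 561) (nat_lit 1552))))) (.f (nat_lit 495)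 (nat_lit 494) (nat_lit 3566) (.f (nat_lit 531) (nat_lit 496) (nat_lit 3567) (.d (nat_lit 563) (nat_lit 562) (nat_lit 527) (nat_lit 564) (nat_lit 528)))))))))) (.a (.p (nat_lit 530) (.a (.f (nat_lit 495) (nat_lit 494) (nat_lit 3566) (.f (nat_lit 592) (nat_lit 624) (nat_lit 7663) (.d (nat_lit 463) (nat_lit 431) (nat_lit 4527) (nat_lit 496) (nat_lit 7631)))) (.f (nat_lit 499) (nat_lit 498) (nat_lit 2543) (.f (nat_lit 531) (nat_lit 500) (nat_lit 2544) (.f (nat_lit 532) (nat_lit 561) (nat_lit 1552) (.d (nat_lit 564) (nat_lit 563) (nat_lit 528) (nat_lit 565) (nat_lit 529))))))) (.a (.p (nat_lit 592) (.a (.d (nat_lit 624) (nat_lit 495) (nat_lit 7663) (nat_lit 497) (nat_lit 6640)) (.a (.f (nat_lit 495) (nat_lit 624) (nat_lit 7663) (.d (nat_lit 463) (nat_lit 431) (nat_lit 4527) (nat_lit 496) (nat_lit 7631))) (.a (.f (nat_lit 497) (nat_lit 624) (nat_lit 6640) (.d (nat_lit 465) (nat_lit 433) (nat_lit 5552) (nat_lit 496) (nat_lit 6608))) s17092))))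 (.a (.p (nat_lit 530) (.a (.f (nat_lit 495) (nat_lit 494) (nat_lit 3566) (.f (nat_lit 592) (nat_lit 624) (nat_lit 7663) (.d (nat_lit 463) (nat_lit 431) (nat_lit 4527) (nat_lit 496) (nat_lit 7631)))) (.f (nat_lit 563) (nat_lit 562) (nat_lit 527) (.f (nat_lit 531) (nat_lit 564) (nat_lit 528) (.f (nat_lit 500) (nat_lit 499) (nat_lit 2544) (.d (nat_lit 532) (nat_lit 501) (nat_lit 2545) (nat_lit 561) (nat_lit 1552))))))) (.p (nat_lit 592) (.a (.d (nat_lit 624) (nat_lit 495) (nat_lit 7663) (nat_lit 497) (nat_lit 6640)) (.a (.f (nat_lit 495) (nat_lit 624) (nat_lit 7663) (.d (nat_lit 463) (nat_lit 431) (nat_lit 4527) (nat_lit 496) (nat_lit 7631))) (.a (.f (nat_lit 497) (nat_lit 624) (nat_lit 6640) (.d (nat_lit 465) (nat_lit 433) (nat_lit 5552) (nat_lit 496) (nat_lit 6608))) (.p (nat_lit 496) (.a (.f (nat_lit 593) (nat_lit 625) (nat_lit 4592) (.f (nat_lit 561) (nat_lit 464) (nat_lit 4560) (.f (nat_lit 562) (nat_lit 563) (nat_lit 3599) (.d (nat_lit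 591) (nat_lit 590) (nat_lit 2606) (nat_lit 623) (nat_lit 5615))))) (.a (.f (nat_lit 463) (nat_lit 495) (nat_lit 7631) (.f (nat_lit 465) (nat_lit 497) (nat_lit 6608) (.d (nat_lit 464) (nat_lit 431) (nat_lit 7599) (nat_lit 433) (nat_lit 6576)))) (.f (nat_lit 495) (nat_lit 463) (nat_lit 7631) (.d (nat_lit 494) (nat_lit 493) (nat_lit 493) (nat_lit 530) (nat_lit 3566))))))))))))))))))
noncomputable def s17098 : Cert := .r (nat_lit 3075429351738513152311891557988464161336707014464200823408719629715123346162149911350906719016331640629828747503383424400630650623873056428033164674419545604096) (.p (nat_lit 530) (.a (.f (nat_lit 498) (nat_lit 499) (nat_lit 2543) (.f (nat_lit 562) (nat_lit 563) (nat_lit 527) (.d (nat_lit 526) (nat_lit 497) (nat_lit 2542) (nat_lit 561) (nat_lit 526)))) (.a (.f (nat_lit 499) (nat_lit 498) (nat_lit 2543) (.f (nat_lit 531) (nat_lit 500) (nat_lit 2544) (.d (nat_lit 563) (nat_lit 562) (nat_lit 527) (nat_lit 564) (nat_lit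 528)))) (.a (.f (nat_lit 498) (nat_lit 499) (nat_lit 2543) (.f (nat_lit 526) (nat_lit 497) (nat_lit 2542) (.f (nat_lit 493) (nat_lit 494) (nat_lit 3565) (.f (nat_lit 525) (nat_lit 492) (nat_lit 3564) (.d (nat_lit 557) (nat_lit 556) (nat_lit 1548) (nat_lit 558) (nat_lit 1549)))))) (.f (nat_lit 562) (nat_lit 563) (nat_lit 527) (.f (nat_lit 526) (nat_lit 561) (nat_lit 526) (.f (nat_lit 493) (nat_lit 494) (nat_lit 3565) (.f (nat_lit 525) (nat_lit 492) (nat_lit 3564) (.d (nat_lit 557) (nat_lit 556) (nat_lit 1548) (nat_lit 558) (nat_lit 1549))))))))))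
noncomputable def s17099 : Cert := .r (nat_lit 3075429351738513152311891557988464161336707014464200823408719629715123346162149911350906719016331640629828747503383424400630650623873056428033164674419545604096) (.p (nat_lit 530) (.a (.f (nat_lit 495) (nat_lit 494) (nat_lit 3566) (.f (nat_lit 531) (nat_lit 496) (nat_lit 3567) (.d (nat_lit 499) (nat_lit 498) (nat_lit 2543) (nat_lit 500) (nat_lit 2544)))) (.a (.f (nat_lit 498) (nat_lit 499) (nat_lit 2543) (.f (nat_lit 526) (nat_lit 497) (nat_lit 2542) (.d (nat_lit 494) (nat_lit 493) (nat_lit 3565) (nat_lit 495) (nat_lit 3566)))) (.a (.f (nat_lit 498) (nat_lit 499) (nat_lit 2543) (.f (nat_lit 526) (nat_lit 497) (nat_lit 2542) (.f (nat_lit 493) (nat_lit 494) (nat_lit 3565) (.f (nat_lit 525) (nat_lit 492) (nat_lit 3564) (.d (nat_lit 557) (nat_lit 556) (nat_lit 1548) (nat_lit 558) (nat_lit 1549)))))) (.a (.f (nat_lit 499) (nat_lit 498) (nat_lit 2543) (.f (nat_lit 531) (nat_lit 500) (nat_lit 2544)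 (.f (nat_lit 564) (nat_lit 563) (nat_lit 528) (.f (nat_lit 532) (nat_lit 565) (nat_lit 529) (.d (nat_lit 496) (nat_lit 495) (nat_lit 3567) (nat_lit 497) (nat_lit 3568)))))) (.a (.f (nat_lit 495) (nat_lit 494) (nat_lit 3566) (.f (nat_lit 531) (nat_lit 496) (nat_lit 3567) (.f (nat_lit 500) (nat_lit 499) (nat_lit 2544) (.f (nat_lit 532) (nat_lit 501) (nat_lit 2545) (.d (nat_lit 564) (nat_lit 563) (nat_lit 528) (nat_lit 565) (nat_lit 529)))))) (.f (nat_lit 494) (nat_lit 495) (nat_lit 3566) (.f (nat_lit 526) (nat_lit 493) (nat_lit 3565) (.f (nat_lit 557) (nat_lit 558) (nat_lit 1549) (.f (nat_lit 525) (nat_lit 556) (nat_lit 1548) (.d (nat_lit 497) (nat_lit 496) (nat_lit 2541) (nat_lit 498) (nat_lit 2542))))))))))))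
noncomputable def s17165 : Cert := .r (nat_lit 97254271145648272471285418008738615781477991684159043166321632693553076914307473940673380652022045001331451405485025527722043848336730332579859930172292136771562777866061970669568) (.p (nat_lit 527) (.a (.f (nat_lit 562) (nat_lit 563) (nat_lit 527) (.d (nat_lit 498) (nat_lit 499) (nat_lit 2543) (nat_lit 625) (nat_lit 5617))) (.a (.f (nat_lit 495) (nat_lit 494) (nat_lit 3566) (.f (nat_lit 531) (nat_lit 496) (nat_lit 3567) (.d (nat_lit 499) (nat_lit 498) (nat_lit 2543) (nat_lit 500) (nat_lit 2544)))) (.a (.f (nat_lit 562) (nat_lit 563) (nat_lit 527) (.f (nat_lit 495) (nat_lit 494) (nat_lit 3566) (.f (nat_lit 531) (nat_lit 496) (nat_lit 3567) (.d (nat_lit 499) (nat_lit 500) (nat_lit 2544) (nat_lit 626) (nat_lit 6642))))) (.f (nat_lit 562) (nat_lit 563) (nat_lit 527) (.f (nat_lit 625) (nat_lit 498) (nat_lit 5617) (.d (nat_lit 657) (nat_lit 626) (nat_lit 5649) (nat_lit 689) (nat_lit 6705))))))))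
noncomputable def s17172 : Cert := .r (nat_lit 97254271145648272471285418008738615781477991684159043166321632693553076914307473940673380652022045001331451405485025527722043848336730332579859930172292136771562777866061970669568) (.p (nat_lit 531) (.a (.f (nat_lit 496) (nat_lit 495) (nat_lit 3567) (.f (nat_lit 532) (nat_lit 497) (nat_lit 3568) (.d (nat_lit 500) (nat_lit 499) (nat_lit 2544) (nat_lit 501) (nat_lit 2545)))) (.a (.f (nat_lit 500) (nat_lit 499) (nat_lit 2544) (.f (nat_lit 532) (nat_lit 501) (nat_lit 2545) (.d (nat_lit 564) (nat_lit 563) (nat_lit 528) (nat_lit 565) (nat_lit 529)))) (.a (.f (nat_lit 563) (nat_lit 564) (nat_lit 528) (.f (nat_lit 499) (nat_lit 500) (nat_lit 2544) (.f (nat_lit 595) (nat_lit 626) (nat_lit 5618) (.d (nat_lit 498) (nat_lit 466) (nat_lit 7634) (nat_lit 627) (nat_lit 7666))))) (.f (nat_lit 564) (nat_lit 563) (nat_lit 528) (.f (nat_lit 532) (nat_lit 565) (nat_lit 529) (.d (nat_lit 496) (nat_lit 495) (nat_lit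 3567) (nat_lit 497) (nat_lit 3568))))))))
noncomputable def s17190 : Cert := .r (nat_lit 113463316336589651211959734824295341853549626569726388979687718263983817089279181096444238202072069299082973864041754503317399195792619380561286577137194885792107616800548207984640) (.p (nat_lit 560) (.a (.f (nat_lit 624) (nat_lit 497) (nat_lit 6640) (.f (nat_lit 625) (nat_lit 657) (nat_lit 4624) (.f (nat_lit 595) (nat_lit 596) (nat_lit 1616) (.f (nat_lit 627) (nat_lit 628) (nat_lit 592) (.f (nat_lit 626) (nat_lit 591) (nat_lit 591) (.f (nat_lit 563) (nat_lit 564) (nat_lit 2608) (.d (nat_lit 531) (nat_lit 499) (nat_lit 5618) (nat_lit 658) (nat_lit 5650)))))))) (.a (.f (nat_lit 625) (nat_lit 496) (nat_lit 4592) (.d (nat_lit 657) (nat_lit 624) (nat_lit 4624) (nat_lit 689) (nat_lit 7728))) (.a (.f (nat_lit 496) (nat_lit 625) (nat_lit 4592) (.f (nat_lit 495) (nat_lit 463) (nat_lit 7631) (.f (nat_lit 497) (nat_lit 465) (nat_lit 6608) (.d (nat_lit 494)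 (nat_lit 493) (nat_lit 493) (nat_lit 530) (nat_lit 494))))) (.f (nat_lit 497) (nat_lit 624) (nat_lit 6640) (.d (nat_lit 465) (nat_lit 433) (nat_lit 5552) (nat_lit 496) (nat_lit 6608)))))))
noncomputable def s17191 : Cert := .r (nat_lit 113463316336589651211959734824295341853549626569726388979687718263983817089279181096444238202072069299082973864041754503317399195792619380561286577137194885792107616800548207984640) (.p (nat_lit 560) (.a (.f (nat_lit 624) (nat_lit 497) (nat_lit 6640) (.f (nat_lit 625) (nat_lit 657) (nat_lit 4624) (.d (nat_lit 623) (nat_lit 622) (nat_lit 2638) (nat_lit 655) (nat_lit 5647)))) (.a (.f (nat_lit 625) (nat_lit 496) (nat_lit 4592) (.d (nat_lit 657) (nat_lit 624) (nat_lit 4624) (nat_lit 689) (nat_lit 7728))) (.a (.f (nat_lit 496) (nat_lit 625) (nat_lit 4592) (.f (nat_lit 495) (nat_lit 463) (nat_lit 7631) (.f (nat_lit 497) (nat_lit 465) (nat_lit 6608) (.d (nat_lit 494) (nat_lit 493) (nat_lit 493) (nat_lit 530)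 (nat_lit 494))))) (.f (nat_lit 497) (nat_lit 624) (nat_lit 6640) (.d (nat_lit 465) (nat_lit 433) (nat_lit 5552) (nat_lit 496) (nat_lit 6608)))))))
noncomputable def s17200 : Cert := .r (nat_lit 97254271145648272471285418008738615781477991684159043166321632693553076914307473940673380652022045001331451405485025527722043848336730332579859930172292136771562777866061970669568) (.p (nat_lit 527) (.a (.f (nat_lit 562) (nat_lit 563) (nat_lit 527) (.d (nat_lit 498) (nat_lit 499) (nat_lit 2543) (nat_lit 625) (nat_lit 5617))) (.a (.f (nat_lit 499) (nat_lit 498) (nat_lit 2543) (.f (nat_lit 531) (nat_lit 500) (nat_lit 2544) (.d (nat_lit 559) (nat_lit 558) (nat_lit 1550) (nat_lit 560) (nat_lit 1551)))) (.a (.f (nat_lit 562) (nat_lit 563) (nat_lit 527) (.f (nat_lit 626) (nat_lit 497) (nat_lit 7665) (.f (nat_lit 531) (nat_lit 499) (nat_lit 6642) (.d (nat_lit 559) (nat_lit 558) (nat_lit 1550) (nat_lit 560) (nat_lit 1551))))) (.f (nat_lit 562) (nat_lit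 563) (nat_lit 527) (.f (nat_lit 625) (nat_lit 498) (nat_lit 5617) (.d (nat_lit 657) (nat_lit 626) (nat_lit 5649) (nat_lit 689) (nat_lit 6705))))))))
noncomputable def s17209 : Cert := .r (nat_lit 97254271145648272471285418008738615781477991684159043166321632693553076914307473940673380652022045001331451405485025527722043848336730332579859930172292136771562777866061970669568) (.p (nat_lit 562) (.a (.f (nat_lit 497) (nat_lit 626) (nat_lit 7665) (.d (nat_lit 465) (nat_lit 433) (nat_lit 4529) (nat_lit 498) (nat_lit 7633))) (.a (.f (nat_lit 498) (nat_lit 625) (nat_lit 5617) (.d (nat_lit 499) (nat_lit 467) (nat_lit 6610) (nat_lit 527) (nat_lit 2543))) (.f (nat_lit 626) (nat_lit 497) (nat_lit 7665) (.f (nat_lit 625) (nat_lit 657) (nat_lit 5649) (.f (nat_lit 627) (nat_lit 659) (nat_lit 4626) (.f (nat_lit 628) (nat_lit 629) (nat_lit 3665) (.f (nat_lit 596) (nat_lit 597) (nat_lit 2641) (.f (nat_lit 624) (nat_lit 595) (nat_lit 1616) (.f (nat_lit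 623) (nat_lit 622) (nat_lit 2638) (.d (nat_lit 655) (nat_lit 654) (nat_lit 1646) (nat_lit 656) (nat_lit 1647))))))))))))
noncomputable def s17293 : Cert := .r (nat_lit 2636082301490154130553049906847254995431463155255029277207473968327248582424699924015062902013998549111281783574328649486254843391891191224028426863788181946368) (.p (nat_lit 593) (.a s14852 (.a s14886 (.a (.p (nat_lit 592) (.a s14917 (.a s14964 (.a s15315 (.a s15057 (.a s15079 (.a s15090 (.a s15113 (.a s16568 (.a s15165 (.a s15169 (.p (nat_lit 527) (.a s14575 (.a (.p (nat_lit 530) (.a (.f (nat_lit 498) (nat_lit 499) (nat_lit 2543) (.f (nat_lit 561) (nat_lit 625) (nat_lit 6641) (.d (nat_lit 466) (nat_lit 434) (nat_lit 5553) (nat_lit 497) (nat_lit 6609)))) (.a (.f (nat_lit 562) (nat_lit 563) (nat_lit 527) (.f (nat_lit 498) (nat_lit 499) (nat_lit 2543) (.d (nat_lit 561) (nat_lit 466) (nat_lit 5585) (nat_lit 625) (nat_lit 6641)))) (.a (.f (nat_lit 499) (nat_lit 498) (nat_lit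 2543) (.f (nat_lit 531) (nat_lit 500) (nat_lit 2544) (.d (nat_lit 563) (nat_lit 562) (nat_lit 527) (nat_lit 564) (nat_lit 528)))) (.f (nat_lit 562) (nat_lit 563) (nat_lit 527) (.f (nat_lit 559) (nat_lit 558) (nat_lit 1550) (.f (nat_lit 495) (nat_lit 494) (nat_lit 3566) (.f (nat_lit 591) (nat_lit 624) (nat_lit 4591) (.d (nat_lit 590) (nat_lit 561) (nat_lit 2606) (nat_lit 622) (nat_lit 5614)))))))))) (.a (.p (nat_lit 530) (.a (.f (nat_lit 562) (nat_lit 563) (nat_lit 527) (.f (nat_lit 498) (nat_lit 499) (nat_lit 2543) (.d (nat_lit 561) (nat_lit 466) (nat_lit 5585) (nat_lit 625) (nat_lit 6641)))) (.a (.f (nat_lit 499) (nat_lit 498) (nat_lit 2543) (.f (nat_lit 531) (nat_lit 500) (nat_lit 2544) (.d (nat_lit 563) (nat_lit 562) (nat_lit 527) (nat_lit 564) (nat_lit 528)))) (.f (nat_lit 559) (nat_lit 558) (nat_lit 1550) (.f (nat_lit 560) (nat_lit 531) (nat_lit 1551) (.d (nat_lit 495) (nat_lit 463) (nat_lit 4559) (nat_lit 494) (nat_lit 3566)))))))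 (.a (.p (nat_lit 530) (.a (.f (nat_lit 499) (nat_lit 498) (nat_lit 2543) (.f (nat_lit 531) (nat_lit 500) (nat_lit 2544) (.d (nat_lit 563) (nat_lit 562) (nat_lit 527) (nat_lit 564) (nat_lit 528)))) (.a (.f (nat_lit 559) (nat_lit 558) (nat_lit 1550) (.f (nat_lit 562) (nat_lit 563) (nat_lit 527) (.f (nat_lit 498) (nat_lit 499) (nat_lit 2543) (.f (nat_lit 594) (nat_lit 625) (nat_lit 5617) (.d (nat_lit 595) (nat_lit 560) (nat_lit 3631) (nat_lit 627) (nat_lit 4594)))))) (.f (nat_lit 559) (nat_lit 558) (nat_lit 1550) (.f (nat_lit 560) (nat_lit 531) (nat_lit 1551) (.d (nat_lit 624) (nat_lit 497) (nat_lit 6640) (nat_lit 656) (nat_lit 7695))))))) (.a (.p (nat_lit 624) (.a (.f (nat_lit 560) (nat_lit 495) (nat_lit 7663) (.f (nat_lit 625) (nat_lit 657) (nat_lit 4624) (.f (nat_lit 623) (nat_lit 655) (nat_lit 5647) (.d (nat_lit 594) (nat_lit 595) (nat_lit 1615) (nat_lit 622) (nat_lit 2638))))) (.a (.f (nat_lit 561) (nat_lit 497) (nat_lit 5616) (.d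 (nat_lit 656) (nat_lit 625) (nat_lit 5648) (nat_lit 688) (nat_lit 6704))) (.d (nat_lit 497) (nat_lit 560) (nat_lit 6640) (nat_lit 561) (nat_lit 5616))))) s14600))))))))))))))))) (.a (.p (nat_lit 592) (.a s15236 (.a (.p (nat_lit 591) (.a (.p (nat_lit 594) (.a (.f (nat_lit 562) (nat_lit 563) (nat_lit 2607) (.f (nat_lit 626) (nat_lit 627) (nat_lit 591) (.d (nat_lit 561) (nat_lit 590) (nat_lit 2606) (nat_lit 658) (nat_lit 7697)))) (.a (.f (nat_lit 622) (nat_lit 623) (nat_lit 1614) (.f (nat_lit 590) (nat_lit 621) (nat_lit 1613) (.d (nat_lit 558) (nat_lit 557) (nat_lit 3629) (nat_lit 559) (nat_lit 3630)))) (.f (nat_lit 563) (nat_lit 562) (nat_lit 2607) (.f (nat_lit 595) (nat_lit 564) (nat_lit 2608) (.d (nat_lit 623) (nat_lit 622) (nat_lit 1614) (nat_lit 624) (nat_lit 1615))))))) (.a (.p (nat_lit 594) (.a (.f (nat_lit 622) (nat_lit 623) (nat_lit 1614) (.f (nat_lit 590) (nat_lit 621) (nat_lit 1613) (.d (nat_lit 558) (nat_lit 557) (nat_lit 3629)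 (nat_lit 559) (nat_lit 3630)))) (.a (.f (nat_lit 563) (nat_lit 562) (nat_lit 2607) (.f (nat_lit 595) (nat_lit 564) (nat_lit 2608) (.d (nat_lit 623) (nat_lit 622) (nat_lit 1614) (nat_lit 624) (nat_lit 1615)))) (.f (nat_lit 626) (nat_lit 627) (nat_lit 591) (.f (nat_lit 590) (nat_lit 625) (nat_lit 590) (.d (nat_lit 558) (nat_lit 557) (nat_lit 3629) (nat_lit 559) (nat_lit 3630))))))) (.a (.p (nat_lit 561) (.a (.f (nat_lit 562) (nat_lit 590) (nat_lit 2606) (.d (nat_lit 563) (nat_lit 564) (nat_lit 1584) (nat_lit 594) (nat_lit 2607))) (.a (.f (nat_lit 625) (nat_lit 496) (nat_lit 7664) (.d (nat_lit 626) (nat_lit 590) (nat_lit 590) (nat_lit 658) (nat_lit 4625))) (.f (nat_lit 625) (nat_lit 496) (nat_lit 7664) (.f (nat_lit 624) (nat_lit 656) (nat_lit 5648) (.d (nat_lit 626) (nat_lit 627) (nat_lit 3663) (nat_lit 658) (nat_lit 4625))))))) (.a (.p (nat_lit 594) (.a (.f (nat_lit 622) (nat_lit 623) (nat_lit 1614) (.f (nat_lit 590) (nat_lit 621) (nat_lit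 1613) (.d (nat_lit 558) (nat_lit 557) (nat_lit 3629) (nat_lit 559) (nat_lit 3630)))) (.a (.f (nat_lit 626) (nat_lit 627) (nat_lit 591) (.f (nat_lit 625) (nat_lit 590) (nat_lit 590) (.d (nat_lit 561) (nat_lit 496) (nat_lit 7664) (nat_lit 658) (nat_lit 4625)))) (.f (nat_lit 623) (nat_lit 622) (nat_lit 1614) (.f (nat_lit 595) (nat_lit 624) (nat_lit 1615) (.d (nat_lit 627) (nat_lit 626) (nat_lit 591) (nat_lit 628) (nat_lit 592))))))) (.a (.p (nat_lit 561) (.a (.f (nat_lit 562) (nat_lit 590) (nat_lit 2606) (.d (nat_lit 563) (nat_lit 564) (nat_lit 1584) (nat_lit 594) (nat_lit 2607))) (.a (.f (nat_lit 625) (nat_lit 496) (nat_lit 7664) (.d (nat_lit 626) (nat_lit 590) (nat_lit 590) (nat_lit 658) (nat_lit 4625))) (.f (nat_lit 625) (nat_lit 496) (nat_lit 7664) (.f (nat_lit 626) (nat_lit 658) (nat_lit 4625) (.d (nat_lit 627) (nat_lit 594) (nat_lit 591) (nat_lit 628) (nat_lit 3664))))))) (.a s15197 (.a s15208 (.p (nat_lit 561) (.a (.f (nat_lit 562)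 (nat_lit 590) (nat_lit 2606) (.d (nat_lit 563) (nat_lit 564) (nat_lit 1584) (nat_lit 594) (nat_lit 2607))) (.a (.f (nat_lit 625) (nat_lit 496) (nat_lit 7664) (.f (nat_lit 624) (nat_lit 656) (nat_lit 5648) (.f (nat_lit 590) (nat_lit 589) (nat_lit 589) (.f (nat_lit 622) (nat_lit 621) (nat_lit 1613) (.f (nat_lit 623) (nat_lit 594) (nat_lit 1614) (.f (nat_lit 654) (nat_lit 653) (nat_lit 1645) (.d (nat_lit 559) (nat_lit 527) (nat_lit 5646) (nat_lit 686) (nat_lit 6702)))))))) (.a (.f (nat_lit 590) (nat_lit 562) (nat_lit 2606) (.f (nat_lit 557) (nat_lit 558) (nat_lit 3629) (.f (nat_lit 589) (nat_lit 556) (nat_lit 3628) (.d (nat_lit 621) (nat_lit 620) (nat_lit 1612) (nat_lit 622) (nat_lit 1613))))) (.f (nat_lit 625) (nat_lit 496) (nat_lit 7664) (.f (nat_lit 530) (nat_lit 498) (nat_lit 6641) (.f (nat_lit 562) (nat_lit 657) (nat_lit 6673) (.d (nat_lit 563) (nat_lit 564) (nat_lit 1584) (nat_lit 594) (nat_lit 2607))))))))))))))))) (.a s15315 (.a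 s15252 (.a s15267 (.a s15279 (.a s15285 (.a s15311 (.a s15314 s15316)))))))))) (.a (.p (nat_lit 594) (.a s15757 (.a (.p (nat_lit 530) (.a s15666 (.a (.p (nat_lit 527) (.a (.f (nat_lit 562) (nat_lit 563) (nat_lit 527) (.f (nat_lit 626) (nat_lit 497) (nat_lit 7665) (.f (nat_lit 625) (nat_lit 657) (nat_lit 5649) (.f (nat_lit 627) (nat_lit 659) (nat_lit 4626) (.d (nat_lit 592) (nat_lit 591) (nat_lit 591) (nat_lit 628) (nat_lit 3664)))))) (.a (.f (nat_lit 562) (nat_lit 563) (nat_lit 527) (.d (nat_lit 498) (nat_lit 499) (nat_lit 2543) (nat_lit 625) (nat_lit 5617))) (.a (.f (nat_lit 499) (nat_lit 498) (nat_lit 2543) (.f (nat_lit 531) (nat_lit 500) (nat_lit 2544) (.f (nat_lit 563) (nat_lit 564) (nat_lit 528) (.f (nat_lit 595) (nat_lit 626) (nat_lit 5618) (.f (nat_lit 628) (nat_lit 596) (nat_lit 4595) (.d (nat_lit 627) (nat_lit 592) (nat_lit 592) (nat_lit 660) (nat_lit 4627))))))) (.f (nat_lit 498) (nat_lit 499) (nat_lit 2543) (.f (nat_lit 562)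 (nat_lit 625) (nat_lit 5617) (.d (nat_lit 497) (nat_lit 465) (nat_lit 7633) (nat_lit 626) (nat_lit 7665)))))))) (.a s17165 (.a (.p (nat_lit 562) (.a (.f (nat_lit 497) (nat_lit 626) (nat_lit 7665) (.d (nat_lit 465) (nat_lit 433) (nat_lit 4529) (nat_lit 498) (nat_lit 7633))) (.a (.f (nat_lit 498) (nat_lit 625) (nat_lit 5617) (.d (nat_lit 499) (nat_lit 467) (nat_lit 6610) (nat_lit 527) (nat_lit 2543))) (.f (nat_lit 563) (nat_lit 527) (nat_lit 527) (.f (nat_lit 564) (nat_lit 565) (nat_lit 3601) (.d (nat_lit 592) (nat_lit 591) (nat_lit 2607) (nat_lit 595) (nat_lit 2608))))))) (.a s17172 (.a (.p (nat_lit 527) (.a (.f (nat_lit 495) (nat_lit 494) (nat_lit 3566) (.f (nat_lit 531) (nat_lit 496) (nat_lit 3567) (.d (nat_lit 499) (nat_lit 498) (nat_lit 2543) (nat_lit 500) (nat_lit 2544)))) (.a (.f (nat_lit 498) (nat_lit 499) (nat_lit 2543) (.f (nat_lit 562) (nat_lit 625) (nat_lit 5617) (.d (nat_lit 497) (nat_lit 465) (nat_lit 7633) (nat_lit 626)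 (nat_lit 7665)))) (.f (nat_lit 495) (nat_lit 494) (nat_lit 3566) (.f (nat_lit 559) (nat_lit 558) (nat_lit 1550) (.f (nat_lit 496) (nat_lit 531) (nat_lit 3567) (.d (nat_lit 591) (nat_lit 464) (nat_lit 6607) (nat_lit 623) (nat_lit 6639)))))))) (.a (.p (nat_lit 527) (.a (.f (nat_lit 562) (nat_lit 563) (nat_lit 527) (.f (nat_lit 626) (nat_lit 497) (nat_lit 7665) (.f (nat_lit 625) (nat_lit 657) (nat_lit 5649) (.f (nat_lit 627) (nat_lit 659) (nat_lit 4626) (.d (nat_lit 592) (nat_lit 591) (nat_lit 591) (nat_lit 628) (nat_lit 3664)))))) (.a (.f (nat_lit 562) (nat_lit 563) (nat_lit 527) (.f (nat_lit 495) (nat_lit 494) (nat_lit 3566) (.f (nat_lit 531) (nat_lit 496) (nat_lit 3567) (.d (nat_lit 499) (nat_lit 500) (nat_lit 2544) (nat_lit 626) (nat_lit 6642))))) (.f (nat_lit 495) (nat_lit 494) (nat_lit 3566) (.f (nat_lit 559) (nat_lit 558) (nat_lit 1550) (.f (nat_lit 496) (nat_lit 531) (nat_lit 3567) (.d (nat_lit 591) (nat_lit 464) (nat_lit 6607)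 (nat_lit 623) (nat_lit 6639)))))))) (.a (.p (nat_lit 527) (.a (.f (nat_lit 562) (nat_lit 563) (nat_lit 527) (.f (nat_lit 626) (nat_lit 497) (nat_lit 7665) (.f (nat_lit 625) (nat_lit 657) (nat_lit 5649) (.f (nat_lit 627) (nat_lit 659) (nat_lit 4626) (.d (nat_lit 592) (nat_lit 591) (nat_lit 591) (nat_lit 628) (nat_lit 3664)))))) (.a (.f (nat_lit 562) (nat_lit 563) (nat_lit 527) (.f (nat_lit 625) (nat_lit 498) (nat_lit 5617) (.d (nat_lit 657) (nat_lit 626) (nat_lit 5649) (nat_lit 689) (nat_lit 6705)))) (.f (nat_lit 495) (nat_lit 494) (nat_lit 3566) (.f (nat_lit 559) (nat_lit 558) (nat_lit 1550) (.f (nat_lit 496) (nat_lit 531) (nat_lit 3567) (.d (nat_lit 591) (nat_lit 464) (nat_lit 6607) (nat_lit 623) (nat_lit 6639)))))))) (.p (nat_lit 527) (.a (.f (nat_lit 562) (nat_lit 563) (nat_lit 527) (.d (nat_lit 498) (nat_lit 499) (nat_lit 2543) (nat_lit 625) (nat_lit 5617))) (.a (.f (nat_lit 495) (nat_lit 494) (nat_lit 3566) (.f (nat_lit 531) (nat_lit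 496) (nat_lit 3567) (.d (nat_lit 499) (nat_lit 498) (nat_lit 2543) (nat_lit 500) (nat_lit 2544)))) (.f (nat_lit 495) (nat_lit 494) (nat_lit 3566) (.f (nat_lit 559) (nat_lit 558) (nat_lit 1550) (.f (nat_lit 496) (nat_lit 531) (nat_lit 3567) (.d (nat_lit 591) (nat_lit 464) (nat_lit 6607) (nat_lit 623) (nat_lit 6639))))))))))))))))) (.a (.p (nat_lit 592) (.a (.p (nat_lit 560) (.a (.f (nat_lit 624) (nat_lit 497) (nat_lit 6640) (.d (nat_lit 595) (nat_lit 559) (nat_lit 3631) (nat_lit 623) (nat_lit 1615))) (.a (.f (nat_lit 559) (nat_lit 595) (nat_lit 3631) (.d (nat_lit 558) (nat_lit 557) (nat_lit 557) (nat_lit 591) (nat_lit 3630))) (.a (.f (nat_lit 624) (nat_lit 497) (nat_lit 6640) (.d (nat_lit 623) (nat_lit 595) (nat_lit 1615) (nat_lit 655) (nat_lit 5647))) (.f (nat_lit 624) (nat_lit 497) (nat_lit 6640) (.f (nat_lit 625) (nat_lit 657) (nat_lit 4624) (.d (nat_lit 623) (nat_lit 622) (nat_lit 2638) (nat_lit 655) (nat_lit 5647)))))))) (.a (.p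 (nat_lit 591) (.a (.f (nat_lit 622) (nat_lit 623) (nat_lit 1614) (.f (nat_lit 590) (nat_lit 621) (nat_lit 1613) (.d (nat_lit 558) (nat_lit 557) (nat_lit 3629) (nat_lit 559) (nat_lit 3630)))) (.a (.f (nat_lit 563) (nat_lit 562) (nat_lit 2607) (.f (nat_lit 595) (nat_lit 564) (nat_lit 2608) (.d (nat_lit 623) (nat_lit 622) (nat_lit 1614) (nat_lit 624) (nat_lit 1615)))) (.f (nat_lit 626) (nat_lit 627) (nat_lit 591) (.f (nat_lit 562) (nat_lit 563) (nat_lit 2607) (.f (nat_lit 625) (nat_lit 590) (nat_lit 590) (.d (nat_lit 530) (nat_lit 497) (nat_lit 7665) (nat_lit 498) (nat_lit 5617)))))))) (.a s15039 (.a s15040 (.a s15048 (.a (.p (nat_lit 591) (.a (.f (nat_lit 559) (nat_lit 558) (nat_lit 3630) (.f (nat_lit 560) (nat_lit 595) (nat_lit 3631) (.d (nat_lit 623) (nat_lit 622) (nat_lit 1614) (nat_lit 655) (nat_lit 6671)))) (.a (.f (nat_lit 622) (nat_lit 623) (nat_lit 1614) (.f (nat_lit 590) (nat_lit 621) (nat_lit 1613) (.d (nat_lit 558) (nat_lit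 557) (nat_lit 3629) (nat_lit 559) (nat_lit 3630)))) (.f (nat_lit 626) (nat_lit 627) (nat_lit 591) (.f (nat_lit 562) (nat_lit 563) (nat_lit 2607) (.f (nat_lit 625) (nat_lit 590) (nat_lit 590) (.d (nat_lit 530) (nat_lit 497) (nat_lit 7665) (nat_lit 498) (nat_lit 5617)))))))) (.a s15055 s15056)))))))) (.a (.p (nat_lit 592) (.a s15039 (.a (.p (nat_lit 591) (.a (.f (nat_lit 622) (nat_lit 623) (nat_lit 1614) (.f (nat_lit 590) (nat_lit 621) (nat_lit 1613) (.d (nat_lit 558) (nat_lit 557) (nat_lit 3629) (nat_lit 559) (nat_lit 3630)))) (.a (.f (nat_lit 563) (nat_lit 562) (nat_lit 2607) (.f (nat_lit 595) (nat_lit 564) (nat_lit 2608) (.d (nat_lit 623) (nat_lit 622) (nat_lit 1614) (nat_lit 624) (nat_lit 1615)))) (.f (nat_lit 626) (nat_lit 627) (nat_lit 591) (.f (nat_lit 590) (nat_lit 625) (nat_lit 590) (.d (nat_lit 558) (nat_lit 557) (nat_lit 3629) (nat_lit 559) (nat_lit 3630))))))) (.a s15751 (.a (.p (nat_lit 560) (.a (.f (nat_lit 595) (nat_lit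 559) (nat_lit 3631) (.f (nat_lit 624) (nat_lit 623) (nat_lit 1615) (.d (nat_lit 625) (nat_lit 596) (nat_lit 1616) (nat_lit 657) (nat_lit 4624)))) (.a (.f (nat_lit 625) (nat_lit 496) (nat_lit 4592) (.d (nat_lit 657) (nat_lit 624) (nat_lit 4624) (nat_lit 689) (nat_lit 7728))) (.f (nat_lit 595) (nat_lit 559) (nat_lit 3631) (.f (nat_lit 564) (nat_lit 563) (nat_lit 2608) (.f (nat_lit 596) (nat_lit 565) (nat_lit 2609) (.d (nat_lit 628) (nat_lit 627) (nat_lit 592) (nat_lit 629) (nat_lit 593)))))))) (.a s15436 (.a s15307 (.a (.p (nat_lit 560) (.a (.f (nat_lit 559) (nat_lit 595) (nat_lit 3631) (.d (nat_lit 558) (nat_lit 557) (nat_lit 557) (nat_lit 591) (nat_lit 3630))) (.f (nat_lit 625) (nat_lit 496) (nat_lit 4592) (.d (nat_lit 657) (nat_lit 624) (nat_lit 4624) (nat_lit 689) (nat_lit 7728))))) s16533)))))))) (.a (.p (nat_lit 592) (.a s15040 (.a (.p (nat_lit 591) (.a (.f (nat_lit 563) (nat_lit 562) (nat_lit 2607) (.f (nat_lit 595) (nat_lit 564)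 (nat_lit 2608) (.d (nat_lit 623) (nat_lit 622) (nat_lit 1614) (nat_lit 624) (nat_lit 1615)))) (.a (.f (nat_lit 623) (nat_lit 622) (nat_lit 1614) (.f (nat_lit 595) (nat_lit 624) (nat_lit 1615) (.d (nat_lit 627) (nat_lit 626) (nat_lit 591) (nat_lit 628) (nat_lit 592)))) (.f (nat_lit 626) (nat_lit 627) (nat_lit 591) (.f (nat_lit 562) (nat_lit 563) (nat_lit 2607) (.f (nat_lit 625) (nat_lit 590) (nat_lit 590) (.d (nat_lit 530) (nat_lit 497) (nat_lit 7665) (nat_lit 498) (nat_lit 5617)))))))) (.a s15751 (.a (.p (nat_lit 560) (.a (.f (nat_lit 624) (nat_lit 497) (nat_lit 6640) (.d (nat_lit 623) (nat_lit 595) (nat_lit 1615) (nat_lit 655) (nat_lit 5647))) (.a (.f (nat_lit 625) (nat_lit 496) (nat_lit 4592) (.d (nat_lit 657) (nat_lit 624) (nat_lit 4624) (nat_lit 689) (nat_lit 7728))) (.f (nat_lit 496) (nat_lit 625) (nat_lit 4592) (.f (nat_lit 495) (nat_lit 463) (nat_lit 7631) (.f (nat_lit 497) (nat_lit 465) (nat_lit 6608) (.d (nat_lit 494) (nat_lit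 493) (nat_lit 493) (nat_lit 530) (nat_lit 494)))))))) (.a (.p (nat_lit 591) (.a (.f (nat_lit 626) (nat_lit 627) (nat_lit 591) (.f (nat_lit 562) (nat_lit 563) (nat_lit 2607) (.f (nat_lit 625) (nat_lit 590) (nat_lit 590) (.d (nat_lit 530) (nat_lit 497) (nat_lit 7665) (nat_lit 498) (nat_lit 5617))))) (.a (.f (nat_lit 563) (nat_lit 562) (nat_lit 2607) (.f (nat_lit 595) (nat_lit 564) (nat_lit 2608) (.d (nat_lit 627) (nat_lit 626) (nat_lit 591) (nat_lit 628) (nat_lit 592)))) (.a (.f (nat_lit 622) (nat_lit 623) (nat_lit 1614) (.f (nat_lit 590) (nat_lit 621) (nat_lit 1613) (.d (nat_lit 626) (nat_lit 625) (nat_lit 590) (nat_lit 627) (nat_lit 591)))) (.a s15456 (.f (nat_lit 562) (nat_lit 563) (nat_lit 2607) (.f (nat_lit 622) (nat_lit 623) (nat_lit 1614) (.f (nat_lit 590) (nat_lit 621) (nat_lit 1613) (.f (nat_lit 625) (nat_lit 626) (nat_lit 590) (.f (nat_lit 530) (nat_lit 498) (nat_lit 5617) (.f (nat_lit 496) (nat_lit 560) (nat_lit 4592) (.f (nat_lit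 531) (nat_lit 495) (nat_lit 3567) (.f (nat_lit 532) (nat_lit 497) (nat_lit 3568) (.d (nat_lit 500) (nat_lit 499) (nat_lit 2544) (nat_lit 501) (nat_lit 2545))))))))))))))) (.a s17190 s17191))))))) (.a (.p (nat_lit 530) (.a (.p (nat_lit 531) (.a (.f (nat_lit 563) (nat_lit 564) (nat_lit 528) (.f (nat_lit 499) (nat_lit 500) (nat_lit 2544) (.d (nat_lit 562) (nat_lit 467) (nat_lit 5586) (nat_lit 626) (nat_lit 6642)))) (.a (.f (nat_lit 496) (nat_lit 495) (nat_lit 3567) (.f (nat_lit 532) (nat_lit 497) (nat_lit 3568) (.d (nat_lit 500) (nat_lit 499) (nat_lit 2544) (nat_lit 501) (nat_lit 2545)))) (.f (nat_lit 496) (nat_lit 495) (nat_lit 3567) (.f (nat_lit 497) (nat_lit 532) (nat_lit 3568) (.f (nat_lit 562) (nat_lit 626) (nat_lit 7665) (.d (nat_lit 465) (nat_lit 433) (nat_lit 4529) (nat_lit 498) (nat_lit 7633)))))))) (.a s17200 (.a s17165 (.a s17209 (.a s17172 (.a (.p (nat_lit 527) (.a (.f (nat_lit 562) (nat_lit 563) (nat_lit 527) (.f (nat_lit 495)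 (nat_lit 494) (nat_lit 3566) (.f (nat_lit 531) (nat_lit 496) (nat_lit 3567) (.d (nat_lit 499) (nat_lit 500) (nat_lit 2544) (nat_lit 626) (nat_lit 6642))))) (.a (.f (nat_lit 562) (nat_lit 563) (nat_lit 527) (.f (nat_lit 626) (nat_lit 497) (nat_lit 7665) (.f (nat_lit 531) (nat_lit 499) (nat_lit 6642) (.d (nat_lit 559) (nat_lit 558) (nat_lit 1550) (nat_lit 560) (nat_lit 1551))))) (.a (.f (nat_lit 562) (nat_lit 563) (nat_lit 527) (.f (nat_lit 626) (nat_lit 497) (nat_lit 7665) (.f (nat_lit 625) (nat_lit 657) (nat_lit 5649) (.f (nat_lit 627) (nat_lit 659) (nat_lit 4626) (.f (nat_lit 628) (nat_lit 629) (nat_lit 3665) (.f (nat_lit 596) (nat_lit 597) (nat_lit 2641) (.f (nat_lit 624) (nat_lit 595) (nat_lit 1616) (.f (nat_lit 623) (nat_lit 622) (nat_lit 2638) (.d (nat_lit 655) (nat_lit 654) (nat_lit 1646) (nat_lit 656) (nat_lit 1647)))))))))) (.f (nat_lit 495) (nat_lit 494) (nat_lit 3566) (.f (nat_lit 559) (nat_lit 558) (nat_lit 1550) (.f (nat_lit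 496) (nat_lit 531) (nat_lit 3567) (.d (nat_lit 591) (nat_lit 464) (nat_lit 6607) (nat_lit 623) (nat_lit 6639))))))))) (.a (.p (nat_lit 527) (.a (.f (nat_lit 562) (nat_lit 563) (nat_lit 527) (.f (nat_lit 625) (nat_lit 498) (nat_lit 5617) (.d (nat_lit 657) (nat_lit 626) (nat_lit 5649) (nat_lit 689) (nat_lit 6705)))) (.f (nat_lit 495) (nat_lit 494) (nat_lit 3566) (.f (nat_lit 559) (nat_lit 558) (nat_lit 1550) (.f (nat_lit 496) (nat_lit 531) (nat_lit 3567) (.d (nat_lit 591) (nat_lit 464) (nat_lit 6607) (nat_lit 623) (nat_lit 6639))))))) (.p (nat_lit 527) (.a (.f (nat_lit 562) (nat_lit 563) (nat_lit 527) (.d (nat_lit 498) (nat_lit 499) (nat_lit 2543) (nat_lit 625) (nat_lit 5617))) (.a (.f (nat_lit 495) (nat_lit 494) (nat_lit 3566) (.f (nat_lit 531) (nat_lit 496) (nat_lit 3567) (.d (nat_lit 499) (nat_lit 498) (nat_lit 2543) (nat_lit 500) (nat_lit 2544)))) (.f (nat_lit 495) (nat_lit 494) (nat_lit 3566) (.f (nat_lit 559) (nat_lit 558) (nat_lit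 1550) (.f (nat_lit 496) (nat_lit 531) (nat_lit 3567) (.d (nat_lit 591) (nat_lit 464) (nat_lit 6607) (nat_lit 623) (nat_lit 6639)))))))))))))))) (.a (.p (nat_lit 530) (.a (.p (nat_lit 531) (.a (.f (nat_lit 563) (nat_lit 564) (nat_lit 528) (.f (nat_lit 499) (nat_lit 500) (nat_lit 2544) (.d (nat_lit 562) (nat_lit 467) (nat_lit 5586) (nat_lit 626) (nat_lit 6642)))) (.a (.f (nat_lit 496) (nat_lit 495) (nat_lit 3567) (.f (nat_lit 532) (nat_lit 497) (nat_lit 3568) (.d (nat_lit 500) (nat_lit 499) (nat_lit 2544) (nat_lit 501) (nat_lit 2545)))) (.f (nat_lit 496) (nat_lit 495) (nat_lit 3567) (.f (nat_lit 497) (nat_lit 532) (nat_lit 3568) (.f (nat_lit 562) (nat_lit 626) (nat_lit 7665) (.d (nat_lit 465) (nat_lit 433) (nat_lit 4529) (nat_lit 498) (nat_lit 7633)))))))) (.a s17200 (.a s17165 (.a s17209 (.a s17172 (.a (.p (nat_lit 527) (.a (.f (nat_lit 562) (nat_lit 563) (nat_lit 527) (.f (nat_lit 495) (nat_lit 494) (nat_lit 3566) (.f (nat_lit 531) (nat_lit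 496) (nat_lit 3567) (.d (nat_lit 499) (nat_lit 500) (nat_lit 2544) (nat_lit 626) (nat_lit 6642))))) (.a (.f (nat_lit 562) (nat_lit 563) (nat_lit 527) (.f (nat_lit 626) (nat_lit 497) (nat_lit 7665) (.f (nat_lit 531) (nat_lit 499) (nat_lit 6642) (.d (nat_lit 559) (nat_lit 558) (nat_lit 1550) (nat_lit 560) (nat_lit 1551))))) (.a (.f (nat_lit 562) (nat_lit 563) (nat_lit 527) (.f (nat_lit 626) (nat_lit 497) (nat_lit 7665) (.f (nat_lit 625) (nat_lit 657) (nat_lit 5649) (.f (nat_lit 627) (nat_lit 659) (nat_lit 4626) (.f (nat_lit 628) (nat_lit 629) (nat_lit 3665) (.f (nat_lit 596) (nat_lit 597) (nat_lit 2641) (.f (nat_lit 624) (nat_lit 595) (nat_lit 1616) (.f (nat_lit 623) (nat_lit 622) (nat_lit 2638) (.d (nat_lit 655) (nat_lit 654) (nat_lit 1646) (nat_lit 656) (nat_lit 1647)))))))))) (.f (nat_lit 495) (nat_lit 494) (nat_lit 3566) (.f (nat_lit 531) (nat_lit 496) (nat_lit 3567) (.d (nat_lit 559) (nat_lit 558) (nat_lit 1550) (nat_lit 560) (nat_lit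 1551)))))))) (.a (.p (nat_lit 527) (.a (.f (nat_lit 562) (nat_lit 563) (nat_lit 527) (.f (nat_lit 625) (nat_lit 498) (nat_lit 5617) (.d (nat_lit 657) (nat_lit 626) (nat_lit 5649) (nat_lit 689) (nat_lit 6705)))) (.f (nat_lit 495) (nat_lit 494) (nat_lit 3566) (.f (nat_lit 531) (nat_lit 496) (nat_lit 3567) (.d (nat_lit 559) (nat_lit 558) (nat_lit 1550) (nat_lit 560) (nat_lit 1551)))))) (.p (nat_lit 527) (.a (.f (nat_lit 562) (nat_lit 563) (nat_lit 527) (.d (nat_lit 498) (nat_lit 499) (nat_lit 2543) (nat_lit 625) (nat_lit 5617))) (.a (.f (nat_lit 495) (nat_lit 494) (nat_lit 3566) (.f (nat_lit 531) (nat_lit 496) (nat_lit 3567) (.d (nat_lit 499) (nat_lit 498) (nat_lit 2543) (nat_lit 500) (nat_lit 2544)))) (.f (nat_lit 495) (nat_lit 494) (nat_lit 3566) (.f (nat_lit 531) (nat_lit 496) (nat_lit 3567) (.d (nat_lit 559) (nat_lit 558) (nat_lit 1550) (nat_lit 560) (nat_lit 1551))))))))))))))) (.a (.p (nat_lit 592) (.a (.p (nat_lit 560) (.a (.f (nat_lit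 624) (nat_lit 497) (nat_lit 6640) (.d (nat_lit 595) (nat_lit 559) (nat_lit 3631) (nat_lit 623) (nat_lit 1615))) (.a (.f (nat_lit 559) (nat_lit 595) (nat_lit 3631) (.d (nat_lit 558) (nat_lit 557) (nat_lit 557) (nat_lit 591) (nat_lit 3630))) (.a (.f (nat_lit 624) (nat_lit 497) (nat_lit 6640) (.d (nat_lit 623) (nat_lit 595) (nat_lit 1615) (nat_lit 655) (nat_lit 5647))) (.f (nat_lit 624) (nat_lit 497) (nat_lit 6640) (.f (nat_lit 625) (nat_lit 657) (nat_lit 4624) (.d (nat_lit 623) (nat_lit 622) (nat_lit 2638) (nat_lit 655) (nat_lit 5647)))))))) (.a (.p (nat_lit 591) (.a (.f (nat_lit 622) (nat_lit 623) (nat_lit 1614) (.f (nat_lit 590) (nat_lit 621) (nat_lit 1613) (.d (nat_lit 558) (nat_lit 557) (nat_lit 3629) (nat_lit 559) (nat_lit 3630)))) (.a (.f (nat_lit 623) (nat_lit 622) (nat_lit 1614) (.f (nat_lit 595) (nat_lit 624) (nat_lit 1615) (.d (nat_lit 627) (nat_lit 626) (nat_lit 591) (nat_lit 628) (nat_lit 592)))) (.f (nat_lit 626) (nat_lit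 627) (nat_lit 591) (.f (nat_lit 590) (nat_lit 625) (nat_lit 590) (.d (nat_lit 558) (nat_lit 557) (nat_lit 3629) (nat_lit 559) (nat_lit 3630))))))) (.a (.p (nat_lit 560) (.a (.f (nat_lit 624) (nat_lit 497) (nat_lit 6640) (.d (nat_lit 623) (nat_lit 595) (nat_lit 1615) (nat_lit 655) (nat_lit 5647))) (.a (.f (nat_lit 625) (nat_lit 496) (nat_lit 4592) (.d (nat_lit 657) (nat_lit 624) (nat_lit 4624) (nat_lit 689) (nat_lit 7728))) (.f (nat_lit 496) (nat_lit 625) (nat_lit 4592) (.f (nat_lit 495) (nat_lit 463) (nat_lit 7631) (.f (nat_lit 497) (nat_lit 465) (nat_lit 6608) (.d (nat_lit 494) (nat_lit 493) (nat_lit 493) (nat_lit 530) (nat_lit 494)))))))) (.a (.p (nat_lit 560) (.a (.f (nat_lit 595) (nat_lit 559) (nat_lit 3631) (.f (nat_lit 564) (nat_lit 563) (nat_lit 2608) (.f (nat_lit 596) (nat_lit 565) (nat_lit 2609) (.d (nat_lit 628) (nat_lit 627) (nat_lit 592) (nat_lit 629) (nat_lit 593))))) (.f (nat_lit 496) (nat_lit 625) (nat_lit 4592) (.f (nat_lit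 495) (nat_lit 463) (nat_lit 7631) (.f (nat_lit 497) (nat_lit 465) (nat_lit 6608) (.d (nat_lit 494) (nat_lit 493) (nat_lit 493) (nat_lit 530) (nat_lit 494))))))) (.a s15307 s16533)))))) (.a (.p (nat_lit 592) (.a (.p (nat_lit 560) (.a (.f (nat_lit 624) (nat_lit 497) (nat_lit 6640) (.d (nat_lit 595) (nat_lit 559) (nat_lit 3631) (nat_lit 623) (nat_lit 1615))) (.a (.f (nat_lit 559) (nat_lit 595) (nat_lit 3631) (.d (nat_lit 558) (nat_lit 557) (nat_lit 557) (nat_lit 591) (nat_lit 3630))) (.a (.f (nat_lit 624) (nat_lit 497) (nat_lit 6640) (.d (nat_lit 623) (nat_lit 595) (nat_lit 1615) (nat_lit 655) (nat_lit 5647))) (.f (nat_lit 624) (nat_lit 497) (nat_lit 6640) (.f (nat_lit 625) (nat_lit 657) (nat_lit 4624) (.d (nat_lit 623) (nat_lit 622) (nat_lit 2638) (nat_lit 655) (nat_lit 5647)))))))) (.a (.p (nat_lit 591) (.a (.f (nat_lit 622) (nat_lit 623) (nat_lit 1614) (.f (nat_lit 590) (nat_lit 621) (nat_lit 1613) (.d (nat_lit 558) (nat_lit 557) (nat_lit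 3629) (nat_lit 559) (nat_lit 3630)))) (.a (.f (nat_lit 623) (nat_lit 622) (nat_lit 1614) (.f (nat_lit 595) (nat_lit 624) (nat_lit 1615) (.d (nat_lit 627) (nat_lit 626) (nat_lit 591) (nat_lit 628) (nat_lit 592)))) (.f (nat_lit 626) (nat_lit 627) (nat_lit 591) (.f (nat_lit 590) (nat_lit 625) (nat_lit 590) (.d (nat_lit 558) (nat_lit 557) (nat_lit 3629) (nat_lit 559) (nat_lit 3630))))))) (.a (.p (nat_lit 560) (.a (.f (nat_lit 624) (nat_lit 497) (nat_lit 6640) (.d (nat_lit 623) (nat_lit 595) (nat_lit 1615) (nat_lit 655) (nat_lit 5647))) (.a (.f (nat_lit 625) (nat_lit 496) (nat_lit 4592) (.d (nat_lit 657) (nat_lit 624) (nat_lit 4624) (nat_lit 689) (nat_lit 7728))) (.f (nat_lit 496) (nat_lit 625) (nat_lit 4592) (.f (nat_lit 495) (nat_lit 463) (nat_lit 7631) (.f (nat_lit 497) (nat_lit 465) (nat_lit 6608) (.d (nat_lit 494) (nat_lit 493) (nat_lit 493) (nat_lit 530) (nat_lit 494)))))))) (.a (.p (nat_lit 560) (.a (.f (nat_lit 559) (nat_lit 595)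 (nat_lit 3631) (.d (nat_lit 558) (nat_lit 557) (nat_lit 557) (nat_lit 591) (nat_lit 3630))) (.f (nat_lit 496) (nat_lit 625) (nat_lit 4592) (.f (nat_lit 495) (nat_lit 463) (nat_lit 7631) (.f (nat_lit 497) (nat_lit 465) (nat_lit 6608) (.d (nat_lit 494) (nat_lit 493) (nat_lit 493) (nat_lit 530) (nat_lit 494))))))) (.a s15307 s16533)))))) (.a (.p (nat_lit 592) (.a s15055 (.a (.p (nat_lit 591) (.a (.f (nat_lit 626) (nat_lit 627) (nat_lit 591) (.f (nat_lit 562) (nat_lit 563) (nat_lit 2607) (.f (nat_lit 625) (nat_lit 590) (nat_lit 590) (.d (nat_lit 530) (nat_lit 497) (nat_lit 7665) (nat_lit 498) (nat_lit 5617))))) (.a (.f (nat_lit 626) (nat_lit 627) (nat_lit 591) (.f (nat_lit 590) (nat_lit 625) (nat_lit 590) (.d (nat_lit 558) (nat_lit 557) (nat_lit 3629) (nat_lit 559) (nat_lit 3630)))) (.a (.f (nat_lit 563) (nat_lit 562) (nat_lit 2607) (.f (nat_lit 595) (nat_lit 564) (nat_lit 2608) (.d (nat_lit 627) (nat_lit 626) (nat_lit 591) (nat_lit 628)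 (nat_lit 592)))) (.a (.f (nat_lit 563) (nat_lit 562) (nat_lit 2607) (.f (nat_lit 595) (nat_lit 564) (nat_lit 2608) (.f (nat_lit 628) (nat_lit 627) (nat_lit 592) (.f (nat_lit 596) (nat_lit 629) (nat_lit 593) (.f (nat_lit 499) (nat_lit 531) (nat_lit 4595) (.f (nat_lit 559) (nat_lit 558) (nat_lit 3630) (.f (nat_lit 624) (nat_lit 625) (nat_lit 1616) (.f (nat_lit 527) (nat_lit 495) (nat_lit 4591) (.f (nat_lit 498) (nat_lit 530) (nat_lit 2543) (.d (nat_lit 497) (nat_lit 496) (nat_lit 1519) (nat_lit 500) (nat_lit 1520))))))))))) (.f (nat_lit 558) (nat_lit 559) (nat_lit 3630) (.f (nat_lit 590) (nat_lit 557) (nat_lit 3629) (.f (nat_lit 621) (nat_lit 622) (nat_lit 1613) (.f (nat_lit 589) (nat_lit 620) (nat_lit 1612) (.d (nat_lit 625) (nat_lit 624) (nat_lit 589) (nat_lit 626) (nat_lit 590))))))))))) (.a (.p (nat_lit 560) (.a (.f (nat_lit 559) (nat_lit 595) (nat_lit 3631) (.d (nat_lit 558) (nat_lit 557) (nat_lit 557) (nat_lit 591) (nat_lit 3630)))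 (.f (nat_lit 625) (nat_lit 496) (nat_lit 4592) (.d (nat_lit 657) (nat_lit 624) (nat_lit 4624) (nat_lit 689) (nat_lit 7728))))) (.a s17190 (.a (.p (nat_lit 560) (.a (.f (nat_lit 595) (nat_lit 559) (nat_lit 3631) (.f (nat_lit 564) (nat_lit 563) (nat_lit 2608) (.f (nat_lit 596) (nat_lit 565) (nat_lit 2609) (.d (nat_lit 628) (nat_lit 627) (nat_lit 592) (nat_lit 629) (nat_lit 593))))) (.f (nat_lit 496) (nat_lit 625) (nat_lit 4592) (.f (nat_lit 495) (nat_lit 463) (nat_lit 7631) (.f (nat_lit 497) (nat_lit 465) (nat_lit 6608) (.d (nat_lit 494) (nat_lit 493) (nat_lit 493) (nat_lit 530) (nat_lit 494))))))) (.a (.p (nat_lit 560) (.a (.f (nat_lit 559) (nat_lit 595) (nat_lit 3631) (.d (nat_lit 558) (nat_lit 557) (nat_lit 557) (nat_lit 591) (nat_lit 3630))) (.f (nat_lit 497) (nat_lit 624) (nat_lit 6640) (.d (nat_lit 465) (nat_lit 433) (nat_lit 5552) (nat_lit 496) (nat_lit 6608))))) (.p (nat_lit 560) (.a (.f (nat_lit 496) (nat_lit 625) (nat_lit 4592)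 (.f (nat_lit 495) (nat_lit 463) (nat_lit 7631) (.f (nat_lit 497) (nat_lit 465) (nat_lit 6608) (.d (nat_lit 494) (nat_lit 493) (nat_lit 493) (nat_lit 530) (nat_lit 494))))) (.a (.f (nat_lit 624) (nat_lit 497) (nat_lit 6640) (.f (nat_lit 527) (nat_lit 495) (nat_lit 7663) (.f (nat_lit 559) (nat_lit 656) (nat_lit 7695) (.d (nat_lit 558) (nat_lit 557) (nat_lit 557) (nat_lit 591) (nat_lit 3630))))) (.f (nat_lit 625) (nat_lit 496) (nat_lit 4592) (.d (nat_lit 657) (nat_lit 624) (nat_lit 4624) (nat_lit 689) (nat_lit 7728))))))))))))) (.a (.p (nat_lit 592) (.a (.p (nat_lit 560) (.a (.f (nat_lit 624) (nat_lit 497) (nat_lit 6640) (.d (nat_lit 595) (nat_lit 559) (nat_lit 3631) (nat_lit 623) (nat_lit 1615))) (.a (.f (nat_lit 559) (nat_lit 595) (nat_lit 3631) (.d (nat_lit 558) (nat_lit 557) (nat_lit 557) (nat_lit 591) (nat_lit 3630))) (.a (.f (nat_lit 624) (nat_lit 497) (nat_lit 6640) (.d (nat_lit 623) (nat_lit 595) (nat_lit 1615) (nat_lit 655) (nat_lit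 5647))) (.f (nat_lit 624) (nat_lit 497) (nat_lit 6640) (.f (nat_lit 625) (nat_lit 657) (nat_lit 4624) (.d (nat_lit 623) (nat_lit 622) (nat_lit 2638) (nat_lit 655) (nat_lit 5647)))))))) (.a s15401 (.a (.p (nat_lit 560) (.a (.f (nat_lit 624) (nat_lit 497) (nat_lit 6640) (.d (nat_lit 623) (nat_lit 595) (nat_lit 1615) (nat_lit 655) (nat_lit 5647))) (.a (.f (nat_lit 625) (nat_lit 496) (nat_lit 4592) (.d (nat_lit 657) (nat_lit 624) (nat_lit 4624) (nat_lit 689) (nat_lit 7728))) (.f (nat_lit 496) (nat_lit 625) (nat_lit 4592) (.f (nat_lit 495) (nat_lit 463) (nat_lit 7631) (.f (nat_lit 497) (nat_lit 465) (nat_lit 6608) (.d (nat_lit 494) (nat_lit 493) (nat_lit 493) (nat_lit 530) (nat_lit 494)))))))) (.a (.p (nat_lit 560) (.a (.f (nat_lit 595) (nat_lit 559) (nat_lit 3631) (.f (nat_lit 564) (nat_lit 563) (nat_lit 2608) (.f (nat_lit 596) (nat_lit 565) (nat_lit 2609) (.d (nat_lit 628) (nat_lit 627) (nat_lit 592) (nat_lit 629) (nat_lit 593))))) (.f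 (nat_lit 496) (nat_lit 625) (nat_lit 4592) (.f (nat_lit 495) (nat_lit 463) (nat_lit 7631) (.f (nat_lit 497) (nat_lit 465) (nat_lit 6608) (.d (nat_lit 494) (nat_lit 493) (nat_lit 493) (nat_lit 530) (nat_lit 494))))))) (.a s15039 s17191)))))) (.a (.p (nat_lit 592) (.a s15056 (.a s15406 (.a s16533 (.a s17191 (.a s15756 (.p (nat_lit 560) (.a (.f (nat_lit 496) (nat_lit 625) (nat_lit 4592) (.f (nat_lit 495) (nat_lit 463) (nat_lit 7631) (.f (nat_lit 497) (nat_lit 465) (nat_lit 6608) (.d (nat_lit 494) (nat_lit 493) (nat_lit 493) (nat_lit 530) (nat_lit 494))))) (.a (.f (nat_lit 624) (nat_lit 497) (nat_lit 6640) (.f (nat_lit 527) (nat_lit 495) (nat_lit 7663) (.f (nat_lit 559) (nat_lit 656) (nat_lit 7695) (.d (nat_lit 558) (nat_lit 557) (nat_lit 557) (nat_lit 591) (nat_lit 3630))))) (.f (nat_lit 625) (nat_lit 496) (nat_lit 4592) (.d (nat_lit 657) (nat_lit 624) (nat_lit 4624) (nat_lit 689) (nat_lit 7728)))))))))))) (.p (nat_lit 592) (.a (.p (nat_lit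 560) (.a (.f (nat_lit 624) (nat_lit 497) (nat_lit 6640) (.d (nat_lit 595) (nat_lit 559) (nat_lit 3631) (nat_lit 623) (nat_lit 1615))) (.a (.f (nat_lit 559) (nat_lit 595) (nat_lit 3631) (.d (nat_lit 558) (nat_lit 557) (nat_lit 557) (nat_lit 591) (nat_lit 3630))) (.a (.f (nat_lit 624) (nat_lit 497) (nat_lit 6640) (.d (nat_lit 623) (nat_lit 595) (nat_lit 1615) (nat_lit 655) (nat_lit 5647))) (.f (nat_lit 624) (nat_lit 497) (nat_lit 6640) (.f (nat_lit 625) (nat_lit 657) (nat_lit 4624) (.d (nat_lit 623) (nat_lit 622) (nat_lit 2638) (nat_lit 655) (nat_lit 5647)))))))) (.a s15417 (.a (.p (nat_lit 560) (.a (.f (nat_lit 624) (nat_lit 497) (nat_lit 6640) (.d (nat_lit 623) (nat_lit 595) (nat_lit 1615) (nat_lit 655) (nat_lit 5647))) (.a (.f (nat_lit 625) (nat_lit 496) (nat_lit 4592) (.d (nat_lit 657) (nat_lit 624) (nat_lit 4624) (nat_lit 689) (nat_lit 7728))) (.f (nat_lit 496) (nat_lit 625) (nat_lit 4592) (.f (nat_lit 495) (nat_lit 463) (nat_lit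 7631) (.f (nat_lit 497) (nat_lit 465) (nat_lit 6608) (.d (nat_lit 494) (nat_lit 493) (nat_lit 493) (nat_lit 530) (nat_lit 494)))))))) (.a (.p (nat_lit 560) (.a (.f (nat_lit 559) (nat_lit 595) (nat_lit 3631) (.d (nat_lit 558) (nat_lit 557) (nat_lit 557) (nat_lit 591) (nat_lit 3630))) (.f (nat_lit 496) (nat_lit 625) (nat_lit 4592) (.f (nat_lit 495) (nat_lit 463) (nat_lit 7631) (.f (nat_lit 497) (nat_lit 465) (nat_lit 6608) (.d (nat_lit 494) (nat_lit 493) (nat_lit 493) (nat_lit 530) (nat_lit 494))))))) (.a s15039 s17191))))))))))))))))))) (.a s15539 (.a s15564 (.a s15554 (.a s15570 (.a s15575 (.a (.p (nat_lit 594) (.a s15576 (.a (.p (nat_lit 530) (.a s15589 (.a (.p (nat_lit 562) (.a (.f (nat_lit 497) (nat_lit 626) (nat_lit 7665) (.d (nat_lit 465) (nat_lit 433) (nat_lit 4529) (nat_lit 498) (nat_lit 7633))) (.f (nat_lit 563) (nat_lit 527) (nat_lit 527) (.f (nat_lit 564) (nat_lit 565) (nat_lit 3601) (.d (nat_lit 592) (nat_lit 591) (nat_lit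 2607) (nat_lit 595) (nat_lit 2608)))))) (.a (.p (nat_lit 527) (.a (.f (nat_lit 495) (nat_lit 494) (nat_lit 3566) (.f (nat_lit 531) (nat_lit 496) (nat_lit 3567) (.d (nat_lit 499) (nat_lit 498) (nat_lit 2543) (nat_lit 500) (nat_lit 2544)))) (.a (.f (nat_lit 499) (nat_lit 498) (nat_lit 2543) (.f (nat_lit 531) (nat_lit 500) (nat_lit 2544) (.f (nat_lit 563) (nat_lit 564) (nat_lit 528) (.f (nat_lit 595) (nat_lit 626) (nat_lit 5618) (.f (nat_lit 628) (nat_lit 596) (nat_lit 4595) (.d (nat_lit 627) (nat_lit 592) (nat_lit 592) (nat_lit 660) (nat_lit 4627))))))) (.a (.f (nat_lit 562) (nat_lit 563) (nat_lit 527) (.f (nat_lit 498) (nat_lit 499) (nat_lit 2543) (.f (nat_lit 466) (nat_lit 561) (nat_lit 5585) (.f (nat_lit 433) (nat_lit 465) (nat_lit 7601) (.f (nat_lit 434) (nat_lit 401) (nat_lit 7569) (.d (nat_lit 435) (nat_lit 403) (nat_lit 6546) (nat_lit 467) (nat_lit 6578))))))) (.a (.f (nat_lit 562) (nat_lit 563) (nat_lit 527) (.f (nat_lit 495) (nat_lit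 494) (nat_lit 3566) (.f (nat_lit 531) (nat_lit 496) (nat_lit 3567) (.d (nat_lit 499) (nat_lit 500) (nat_lit 2544) (nat_lit 626) (nat_lit 6642))))) (.f (nat_lit 495) (nat_lit 494) (nat_lit 3566) (.f (nat_lit 559) (nat_lit 558) (nat_lit 1550) (.f (nat_lit 496) (nat_lit 531) (nat_lit 3567) (.d (nat_lit 591) (nat_lit 464) (nat_lit 6607) (nat_lit 623) (nat_lit 6639)))))))))) (.a (.p (nat_lit 531) (.a (.f (nat_lit 496) (nat_lit 495) (nat_lit 3567) (.f (nat_lit 497) (nat_lit 532) (nat_lit 3568) (.d (nat_lit 561) (nat_lit 464) (nat_lit 7632) (nat_lit 626) (nat_lit 4593)))) (.a (.f (nat_lit 500) (nat_lit 499) (nat_lit 2544) (.f (nat_lit 532) (nat_lit 501) (nat_lit 2545) (.d (nat_lit 564) (nat_lit 563) (nat_lit 528) (nat_lit 565) (nat_lit 529)))) (.f (nat_lit 563) (nat_lit 564) (nat_lit 528) (.f (nat_lit 499) (nat_lit 500) (nat_lit 2544) (.f (nat_lit 595) (nat_lit 626) (nat_lit 5618) (.d (nat_lit 498) (nat_lit 466) (nat_lit 7634) (nat_lit 627)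 (nat_lit 7666)))))))) (.a (.p (nat_lit 531) (.a (.f (nat_lit 496) (nat_lit 495) (nat_lit 3567) (.f (nat_lit 497) (nat_lit 532) (nat_lit 3568) (.d (nat_lit 561) (nat_lit 464) (nat_lit 7632) (nat_lit 626) (nat_lit 4593)))) (.a (.f (nat_lit 499) (nat_lit 500) (nat_lit 2544) (.f (nat_lit 562) (nat_lit 626) (nat_lit 6642) (.d (nat_lit 467) (nat_lit 435) (nat_lit 5554) (nat_lit 498) (nat_lit 6610)))) (.f (nat_lit 496) (nat_lit 495) (nat_lit 3567) (.f (nat_lit 532) (nat_lit 497) (nat_lit 3568) (.d (nat_lit 500) (nat_lit 499) (nat_lit 2544) (nat_lit 501) (nat_lit 2545))))))) (.a (.p (nat_lit 531) (.a (.f (nat_lit 563) (nat_lit 564) (nat_lit 528) (.f (nat_lit 499) (nat_lit 500) (nat_lit 2544) (.d (nat_lit 562) (nat_lit 467) (nat_lit 5586) (nat_lit 626) (nat_lit 6642)))) (.a (.f (nat_lit 496) (nat_lit 495) (nat_lit 3567) (.f (nat_lit 497) (nat_lit 532) (nat_lit 3568) (.d (nat_lit 561) (nat_lit 464) (nat_lit 7632) (nat_lit 626) (nat_lit 4593))))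 (.f (nat_lit 496) (nat_lit 495) (nat_lit 3567) (.f (nat_lit 532) (nat_lit 497) (nat_lit 3568) (.d (nat_lit 500) (nat_lit 499) (nat_lit 2544) (nat_lit 501) (nat_lit 2545))))))) s15745))))))) (.a s15750 (.a s15757 (.a s15789 (.a (.p (nat_lit 530) (.a s15589 (.a s15795 (.a s15803 (.a (.p (nat_lit 531) (.a (.f (nat_lit 563) (nat_lit 564) (nat_lit 528) (.f (nat_lit 499) (nat_lit 500) (nat_lit 2544) (.d (nat_lit 562) (nat_lit 467) (nat_lit 5586) (nat_lit 626) (nat_lit 6642)))) (.a (.f (nat_lit 496) (nat_lit 495) (nat_lit 3567) (.f (nat_lit 532) (nat_lit 497) (nat_lit 3568) (.d (nat_lit 500) (nat_lit 499) (nat_lit 2544) (nat_lit 501) (nat_lit 2545)))) (.f (nat_lit 496) (nat_lit 495) (nat_lit 3567) (.f (nat_lit 497) (nat_lit 532) (nat_lit 3568) (.f (nat_lit 562) (nat_lit 626) (nat_lit 7665) (.d (nat_lit 465) (nat_lit 433) (nat_lit 4529) (nat_lit 498) (nat_lit 7633)))))))) (.a (.p (nat_lit 562) (.a (.f (nat_lit 497) (nat_lit 626) (nat_lit 7665)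 (.d (nat_lit 465) (nat_lit 433) (nat_lit 4529) (nat_lit 498) (nat_lit 7633))) (.f (nat_lit 563) (nat_lit 527) (nat_lit 527) (.d (nat_lit 564) (nat_lit 561) (nat_lit 3600) (nat_lit 565) (nat_lit 3601))))) (.a (.p (nat_lit 531) (.a (.f (nat_lit 496) (nat_lit 495) (nat_lit 3567) (.f (nat_lit 497) (nat_lit 532) (nat_lit 3568) (.d (nat_lit 561) (nat_lit 464) (nat_lit 7632) (nat_lit 626) (nat_lit 4593)))) (.a (.f (nat_lit 500) (nat_lit 499) (nat_lit 2544) (.f (nat_lit 532) (nat_lit 501) (nat_lit 2545) (.d (nat_lit 564) (nat_lit 563) (nat_lit 528) (nat_lit 565) (nat_lit 529)))) (.f (nat_lit 563) (nat_lit 564) (nat_lit 528) (.f (nat_lit 499) (nat_lit 500) (nat_lit 2544) (.f (nat_lit 595) (nat_lit 626) (nat_lit 5618) (.d (nat_lit 498) (nat_lit 466) (nat_lit 7634) (nat_lit 627) (nat_lit 7666)))))))) (.a (.p (nat_lit 531) (.a (.f (nat_lit 496) (nat_lit 495) (nat_lit 3567) (.f (nat_lit 497) (nat_lit 532) (nat_lit 3568) (.d (nat_lit 561) (nat_lit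 464) (nat_lit 7632) (nat_lit 626) (nat_lit 4593)))) (.a (.f (nat_lit 499) (nat_lit 500) (nat_lit 2544) (.f (nat_lit 562) (nat_lit 626) (nat_lit 6642) (.d (nat_lit 467) (nat_lit 435) (nat_lit 5554) (nat_lit 498) (nat_lit 6610)))) (.f (nat_lit 496) (nat_lit 495) (nat_lit 3567) (.f (nat_lit 532) (nat_lit 497) (nat_lit 3568) (.d (nat_lit 500) (nat_lit 499) (nat_lit 2544) (nat_lit 501) (nat_lit 2545))))))) (.a (.p (nat_lit 531) (.a (.f (nat_lit 563) (nat_lit 564) (nat_lit 528) (.f (nat_lit 499) (nat_lit 500) (nat_lit 2544) (.d (nat_lit 562) (nat_lit 467) (nat_lit 5586) (nat_lit 626) (nat_lit 6642)))) (.a (.f (nat_lit 496) (nat_lit 495) (nat_lit 3567) (.f (nat_lit 497) (nat_lit 532) (nat_lit 3568) (.d (nat_lit 561) (nat_lit 464) (nat_lit 7632) (nat_lit 626) (nat_lit 4593)))) (.f (nat_lit 496) (nat_lit 495) (nat_lit 3567) (.f (nat_lit 532) (nat_lit 497) (nat_lit 3568) (.d (nat_lit 500) (nat_lit 499) (nat_lit 2544) (nat_lit 501) (nat_lit 2545)))))))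 s15745))))))))) (.a s15883 (.a s15886 (.a s15890 (.a s15893 s15895))))))))))) (.a s15906 (.a s15925 (.a (.p (nat_lit 530) (.a (.p (nat_lit 496) (.a (.f (nat_lit 561) (nat_lit 625) (nat_lit 7664) (.d (nat_lit 464) (nat_lit 497) (nat_lit 7632) (nat_lit 560) (nat_lit 4560))) (.a (.f (nat_lit 561) (nat_lit 625) (nat_lit 7664) (.f (nat_lit 497) (nat_lit 464) (nat_lit 7632) (.d (nat_lit 495) (nat_lit 494) (nat_lit 494) (nat_lit 531) (nat_lit 3567)))) (.a (.f (nat_lit 561) (nat_lit 625) (nat_lit 7664) (.f (nat_lit 560) (nat_lit 464) (nat_lit 4560) (.d (nat_lit 531) (nat_lit 495) (nat_lit 3567) (nat_lit 532) (nat_lit 1552)))) (.f (nat_lit 531) (nat_lit 495) (nat_lit 3567) (.f (nat_lit 560) (nat_lit 559) (nat_lit 1551) (.f (nat_lit 497) (nat_lit 532) (nat_lit 3568) (.d (nat_lit 465) (nat_lit 433) (nat_lit 5552) (nat_lit 592) (nat_lit 6608))))))))) (.a (.p (nat_lit 527) (.a (.f (nat_lit 498) (nat_lit 499) (nat_lit 2543) (.f (nat_lit 561) (nat_lit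 625) (nat_lit 6641) (.d (nat_lit 466) (nat_lit 434) (nat_lit 5553) (nat_lit 497) (nat_lit 6609)))) (.a (.f (nat_lit 498) (nat_lit 499) (nat_lit 2543) (.f (nat_lit 561) (nat_lit 625) (nat_lit 6641) (.d (nat_lit 466) (nat_lit 434) (nat_lit 5553) (nat_lit 562) (nat_lit 5585)))) (.f (nat_lit 495) (nat_lit 494) (nat_lit 3566) (.f (nat_lit 531) (nat_lit 496) (nat_lit 3567) (.d (nat_lit 563) (nat_lit 562) (nat_lit 527) (nat_lit 564) (nat_lit 528))))))) (.a (.p (nat_lit 527) (.a (.f (nat_lit 498) (nat_lit 499) (nat_lit 2543) (.f (nat_lit 561) (nat_lit 625) (nat_lit 6641) (.d (nat_lit 466) (nat_lit 434) (nat_lit 5553) (nat_lit 497) (nat_lit 6609)))) (.a (.f (nat_lit 498) (nat_lit 499) (nat_lit 2543) (.f (nat_lit 561) (nat_lit 625) (nat_lit 6641) (.d (nat_lit 466) (nat_lit 434) (nat_lit 5553) (nat_lit 562) (nat_lit 5585)))) (.a (.f (nat_lit 498) (nat_lit 499) (nat_lit 2543) (.f (nat_lit 562) (nat_lit 563) (nat_lit 527) (.f (nat_lit 594) (nat_lit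 625) (nat_lit 5617) (.d (nat_lit 497) (nat_lit 465) (nat_lit 7633) (nat_lit 626) (nat_lit 7665))))) (.a (.f (nat_lit 498) (nat_lit 499) (nat_lit 2543) (.f (nat_lit 562) (nat_lit 563) (nat_lit 527) (.f (nat_lit 466) (nat_lit 561) (nat_lit 5585) (.f (nat_lit 433) (nat_lit 465) (nat_lit 7601) (.f (nat_lit 434) (nat_lit 401) (nat_lit 7569) (.d (nat_lit 435) (nat_lit 403) (nat_lit 6546) (nat_lit 467) (nat_lit 6578))))))) (.f (nat_lit 559) (nat_lit 558) (nat_lit 1550) (.f (nat_lit 560) (nat_lit 531) (nat_lit 1551) (.f (nat_lit 495) (nat_lit 494) (nat_lit 3566) (.d (nat_lit 463) (nat_lit 431) (nat_lit 4527) (nat_lit 592) (nat_lit 4559)))))))))) (.a (.p (nat_lit 527) (.a (.f (nat_lit 498) (nat_lit 499) (nat_lit 2543) (.f (nat_lit 562) (nat_lit 563) (nat_lit 527) (.f (nat_lit 466) (nat_lit 561) (nat_lit 5585) (.f (nat_lit 433) (nat_lit 465) (nat_lit 7601) (.f (nat_lit 434) (nat_lit 401) (nat_lit 7569) (.d (nat_lit 435) (nat_lit 403) (nat_lit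 6546) (nat_lit 467) (nat_lit 6578))))))) (.f (nat_lit 559) (nat_lit 558) (nat_lit 1550) (.f (nat_lit 560) (nat_lit 531) (nat_lit 1551) (.f (nat_lit 495) (nat_lit 494) (nat_lit 3566) (.d (nat_lit 463) (nat_lit 431) (nat_lit 4527) (nat_lit 592) (nat_lit 4559))))))) (.a (.p (nat_lit 527) (.a (.f (nat_lit 498) (nat_lit 499) (nat_lit 2543) (.f (nat_lit 562) (nat_lit 563) (nat_lit 527) (.f (nat_lit 594) (nat_lit 625) (nat_lit 5617) (.d (nat_lit 497) (nat_lit 465) (nat_lit 7633) (nat_lit 626) (nat_lit 7665))))) (.f (nat_lit 559) (nat_lit 558) (nat_lit 1550) (.f (nat_lit 560) (nat_lit 531) (nat_lit 1551) (.f (nat_lit 495) (nat_lit 494) (nat_lit 3566) (.d (nat_lit 463) (nat_lit 431) (nat_lit 4527) (nat_lit 592) (nat_lit 4559))))))) (.p (nat_lit 498) (.a (.f (nat_lit 561) (nat_lit 625) (nat_lit 6641) (.d (nat_lit 466) (nat_lit 434) (nat_lit 5553) (nat_lit 497) (nat_lit 6609))) (.a (.f (nat_lit 561) (nat_lit 625) (nat_lit 6641) (.d (nat_lit 466)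 (nat_lit 434) (nat_lit 5553) (nat_lit 562) (nat_lit 5585))) (.a (.f (nat_lit 527) (nat_lit 499) (nat_lit 2543) (.f (nat_lit 562) (nat_lit 563) (nat_lit 527) (.f (nat_lit 594) (nat_lit 625) (nat_lit 5617) (.d (nat_lit 497) (nat_lit 465) (nat_lit 7633) (nat_lit 626) (nat_lit 7665))))) (.f (nat_lit 527) (nat_lit 499) (nat_lit 2543) (.f (nat_lit 562) (nat_lit 563) (nat_lit 527) (.f (nat_lit 466) (nat_lit 561) (nat_lit 5585) (.f (nat_lit 433) (nat_lit 465) (nat_lit 7601) (.f (nat_lit 434) (nat_lit 401) (nat_lit 7569) (.d (nat_lit 435) (nat_lit 403) (nat_lit 6546) (nat_lit 467) (nat_lit 6578))))))))))))))))) s15947)))))))))))))))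
noncomputable def s17296 : Cert := .r (nat_lit 16209045194715341172086063921523665979442528543602404522361183886944519668236016238981127858197900832966838481133193723404323651291481256326988548077192161332048602137606087507968) (.p (nat_lit 496) (.a (.f (nat_lit 495) (nat_lit 463) (nat_lit 7631) (.f (nat_lit 591) (nat_lit 623) (nat_lit 5615) (.f (nat_lit 559) (nat_lit 464) (nat_lit 5583) (.d (nat_lit 494) (nat_lit 462) (nat_lit 7630) (nat_lit 493) (nat_lit 493))))) (.a (.f (nat_lit 463) (nat_lit 495) (nat_lit 7631) (.f (nat_lit 465) (nat_lit 497) (nat_lit 6608) (.d (nat_lit 464) (nat_lit 431) (nat_lit 7599) (nat_lit 433) (nat_lit 6576)))) (.a (.f (nat_lit 465) (nat_lit 497) (nat_lit 6608) (.f (nat_lit 591) (nat_lit 623) (nat_lit 5615) (.d (nat_lit 464) (nat_lit 433) (nat_lit 6576) (nat_lit 559) (nat_lit 5583)))) (.f (nat_lit 495) (nat_lit 463) (nat_lit 7631) (.f (nat_lit 497) (nat_lit 465) (nat_lit 6608) (.f (nat_lit 494) (nat_lit 493)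 (nat_lit 493) (.f (nat_lit 591) (nat_lit 623) (nat_lit 5615) (.d (nat_lit 462) (nat_lit 461) (nat_lit 3533) (nat_lit 559) (nat_lit 7630))))))))))
noncomputable def s17299 : Cert := .r (nat_lit 16209045190941378747264522569282111398454259652685483301944743458568313367990392076588979006111774107789179713591725348373559806391710671697063755444630727080615906093956692180992) (.p (nat_lit 560) (.a (.d (nat_lit 624) (nat_lit 495) (nat_lit 7663) (nat_lit 497) (nat_lit 6640)) (.a (.f (nat_lit 495) (nat_lit 624) (nat_lit 7663) (.d (nat_lit 463) (nat_lit 431) (nat_lit 4527) (nat_lit 496) (nat_lit 7631))) (.a (.f (nat_lit 497) (nat_lit 624) (nat_lit 6640) (.d (nat_lit 465) (nat_lit 433) (nat_lit 5552) (nat_lit 496) (nat_lit 6608))) s17296))))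
noncomputable def s17307 : Cert := .r (nat_lit 16209045190941378747264522569282111398454259652685483301944743458568313367990392076588979006111774107789179713591725348373559806391710671697063755444630727080615906093956692180992) (.p (nat_lit 530) (.a (.f (nat_lit 559) (nat_lit 558) (nat_lit 1550) (.f (nat_lit 560) (nat_lit 531) (nat_lit 1551) (.d (nat_lit 624) (nat_lit 497) (nat_lit 6640) (nat_lit 656) (nat_lit 7695)))) (.a (.f (nat_lit 499) (nat_lit 498) (nat_lit 2543) (.f (nat_lit 531) (nat_lit 500) (nat_lit 2544) (.d (nat_lit 563) (nat_lit 562) (nat_lit 527) (nat_lit 564) (nat_lit 528)))) (.p (nat_lit 497) (.a (.f (nat_lit 498) (nat_lit 499) (nat_lit 2543) (.f (nat_lit 562) (nat_lit 563) (nat_lit 527) (.d (nat_lit 465) (nat_lit 433) (nat_lit 4529) (nat_lit 594) (nat_lit 7633)))) (.a (.f (nat_lit 560) (nat_lit 624) (nat_lit 6640) (.d (nat_lit 465) (nat_lit 433) (nat_lit 5552) (nat_lit 561) (nat_lit 5584))) (.f (nat_lit 498) (nat_lit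 499) (nat_lit 2543) (.f (nat_lit 562) (nat_lit 563) (nat_lit 527) (.f (nat_lit 560) (nat_lit 624) (nat_lit 6640) (.f (nat_lit 559) (nat_lit 558) (nat_lit 1550) (.f (nat_lit 594) (nat_lit 626) (nat_lit 7665) (.d (nat_lit 595) (nat_lit 561) (nat_lit 559) (nat_lit 627) (nat_lit 4594)))))))))))))
noncomputable def s17356 : Cert := .r (nat_lit 32418090381882757491453615786825709644596627747382502442552779902672425912572064523462834666061398304227452708167119056117290865280037918993496860265388397733198647513493838757888) (.p (nat_lit 530) (.a (.f (nat_lit 498) (nat_lit 499) (nat_lit 2543) (.f (nat_lit 561) (nat_lit 625) (nat_lit 6641) (.d (nat_lit 466) (nat_lit 434) (nat_lit 5553) (nat_lit 497) (nat_lit 6609)))) (.a (.f (nat_lit 498) (nat_lit 499) (nat_lit 2543) (.f (nat_lit 561) (nat_lit 625) (nat_lit 6641) (.d (nat_lit 466) (nat_lit 434) (nat_lit 5553) (nat_lit 562) (nat_lit 5585)))) (.a (.f (nat_lit 495) (nat_lit 494) (nat_lit 3566) (.f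 (nat_lit 531) (nat_lit 496) (nat_lit 3567) (.d (nat_lit 499) (nat_lit 498) (nat_lit 2543) (nat_lit 500) (nat_lit 2544)))) (.f (nat_lit 495) (nat_lit 494) (nat_lit 3566) (.f (nat_lit 531) (nat_lit 496) (nat_lit 3567) (.d (nat_lit 563) (nat_lit 562) (nat_lit 527) (nat_lit 564) (nat_lit 528))))))))
noncomputable def s17360 : Cert := .r (nat_lit 32418090381882757491453615786825709644596627747382502442552779902672425912572064523462834666061398304227452708167119056117290865280037918993496860265388397733198647513493838757888) (.p (nat_lit 530) (.a (.f (nat_lit 498) (nat_lit 499) (nat_lit 2543) (.f (nat_lit 561) (nat_lit 625) (nat_lit 6641) (.d (nat_lit 466) (nat_lit 434) (nat_lit 5553) (nat_lit 497) (nat_lit 6609)))) (.a (.f (nat_lit 498) (nat_lit 499) (nat_lit 2543) (.f (nat_lit 561) (nat_lit 625) (nat_lit 6641) (.d (nat_lit 466) (nat_lit 434) (nat_lit 5553) (nat_lit 562) (nat_lit 5585)))) (.a (.f (nat_lit 498) (nat_lit 499) (nat_lit 2543)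 (.f (nat_lit 562) (nat_lit 563) (nat_lit 527) (.f (nat_lit 594) (nat_lit 625) (nat_lit 5617) (.d (nat_lit 497) (nat_lit 465) (nat_lit 7633) (nat_lit 626) (nat_lit 7665))))) (.a (.f (nat_lit 498) (nat_lit 499) (nat_lit 2543) (.f (nat_lit 562) (nat_lit 563) (nat_lit 527) (.f (nat_lit 466) (nat_lit 561) (nat_lit 5585) (.f (nat_lit 433) (nat_lit 465) (nat_lit 7601) (.f (nat_lit 434) (nat_lit 401) (nat_lit 7569) (.d (nat_lit 435) (nat_lit 403) (nat_lit 6546) (nat_lit 467) (nat_lit 6578))))))) (.f (nat_lit 559) (nat_lit 558) (nat_lit 1550) (.f (nat_lit 531) (nat_lit 560) (nat_lit 1551) (.d (nat_lit 563) (nat_lit 562) (nat_lit 527) (nat_lit 564) (nat_lit 528)))))))))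
noncomputable def s17363 : Cert := .r (nat_lit 32418090381882757491453615786825709644596627747382502442552779902672425912572064523462834666061398304227452708167119056117290865280037918993496860265388397733198647513493838757888) (.p (nat_lit 561) (.a (.f (nat_lit 625) (nat_lit 496) (nat_lit 7664) (.f (nat_lit 658) (nat_lit 626) (nat_lit 4625) (.f (nat_lit 657) (nat_lit 690) (nat_lit 4657) (.d (nat_lit 656) (nat_lit 624) (nat_lit 5648) (nat_lit 688) (nat_lit 5680))))) (.a (.p (nat_lit 625) (.a (.f (nat_lit 657) (nat_lit 560) (nat_lit 7696) (.d (nat_lit 656) (nat_lit 624) (nat_lit 5648) (nat_lit 688) (nat_lit 5680))) (.a (.f (nat_lit 626) (nat_lit 658) (nat_lit 4625) (.f (nat_lit 624) (nat_lit 656) (nat_lit 5648) (.f (nat_lit 594) (nat_lit 497) (nat_lit 4593) (.d (nat_lit 595) (nat_lit 596) (nat_lit 1616) (nat_lit 623) (nat_lit 2639))))) (.f (nat_lit 657) (nat_lit 560) (nat_lit 7696) (.d (nat_lit 658) (nat_lit 626) (nat_lit 4625) (nat_lit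 690) (nat_lit 4657)))))) (.a (.f (nat_lit 496) (nat_lit 625) (nat_lit 7664) (.d (nat_lit 464) (nat_lit 497) (nat_lit 7632) (nat_lit 560) (nat_lit 4560))) (.p (nat_lit 497) (.a (.f (nat_lit 594) (nat_lit 626) (nat_lit 4593) (.f (nat_lit 562) (nat_lit 465) (nat_lit 4561) (.d (nat_lit 563) (nat_lit 560) (nat_lit 3599) (nat_lit 564) (nat_lit 3600)))) (.f (nat_lit 496) (nat_lit 464) (nat_lit 7632) (.d (nat_lit 498) (nat_lit 466) (nat_lit 6609) (nat_lit 499) (nat_lit 1519)))))))))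
noncomputable def s17373 : Cert := .r (nat_lit 32418090381882757491453615786825709644596627747382502442552779902672425912572064523462834666061398304227452708167119056117290865280037918993496860265388397733198647513493838757888) (.p (nat_lit 530) (.a (.f (nat_lit 498) (nat_lit 499) (nat_lit 2543) (.f (nat_lit 561) (nat_lit 625) (nat_lit 6641) (.d (nat_lit 466) (nat_lit 434) (nat_lit 5553) (nat_lit 497) (nat_lit 6609)))) (.a (.f (nat_lit 495) (nat_lit 494) (nat_lit 3566) (.f (nat_lit 531) (nat_lit 496) (nat_lit 3567) (.d (nat_lit 499) (nat_lit 498) (nat_lit 2543) (nat_lit 500) (nat_lit 2544)))) (.a (.f (nat_lit 495) (nat_lit 494) (nat_lit 3566) (.f (nat_lit 531) (nat_lit 496) (nat_lit 3567) (.f (nat_lit 500) (nat_lit 499) (nat_lit 2544) (.f (nat_lit 532) (nat_lit 501) (nat_lit 2545) (.d (nat_lit 564) (nat_lit 563) (nat_lit 528) (nat_lit 565) (nat_lit 529)))))) (.f (nat_lit 495) (nat_lit 494) (nat_lit 3566) (.f (nat_lit 496) (nat_lit 531)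 (nat_lit 3567) (.f (nat_lit 561) (nat_lit 625) (nat_lit 7664) (.d (nat_lit 464) (nat_lit 497) (nat_lit 7632) (nat_lit 560) (nat_lit 4560)))))))))
noncomputable def s17374 : Cert := .r (nat_lit 32418090381882757491453615786825709644596627747382502442552779902672425912572064523462834666061398304227452708167119056117290865280037918993496860265388397733198647513493838757888) (.p (nat_lit 530) (.a (.f (nat_lit 495) (nat_lit 494) (nat_lit 3566) (.f (nat_lit 531) (nat_lit 496) (nat_lit 3567) (.d (nat_lit 499) (nat_lit 498) (nat_lit 2543) (nat_lit 500) (nat_lit 2544)))) (.a (.f (nat_lit 498) (nat_lit 499) (nat_lit 2543) (.f (nat_lit 562) (nat_lit 563) (nat_lit 527) (.f (nat_lit 466) (nat_lit 561) (nat_lit 5585) (.f (nat_lit 433) (nat_lit 465) (nat_lit 7601) (.f (nat_lit 434) (nat_lit 401) (nat_lit 7569) (.d (nat_lit 435) (nat_lit 403) (nat_lit 6546) (nat_lit 467) (nat_lit 6578))))))) (.f (nat_lit 495) (nat_lit 494) (nat_lit 3566) (.f (nat_lit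 531) (nat_lit 496) (nat_lit 3567) (.d (nat_lit 563) (nat_lit 562) (nat_lit 527) (nat_lit 564) (nat_lit 528)))))))
noncomputable def s17382 : Cert := .r (nat_lit 32418090381882757494968392188812581818667360956512175769794730776345798282182029814565832775960998202914203244185783788265666576712476118308503318121243319365236549998544748019712) (.p (nat_lit 496) (.a (.f (nat_lit 495) (nat_lit 494) (nat_lit 3566) (.f (nat_lit 559) (nat_lit 558) (nat_lit 1550) (.d (nat_lit 591) (nat_lit 464) (nat_lit 6607) (nat_lit 623) (nat_lit 6639)))) (.a (.f (nat_lit 561) (nat_lit 625) (nat_lit 7664) (.f (nat_lit 497) (nat_lit 464) (nat_lit 7632) (.f (nat_lit 562) (nat_lit 563) (nat_lit 527) (.d (nat_lit 465) (nat_lit 433) (nat_lit 4529) (nat_lit 594) (nat_lit 4561))))) (.f (nat_lit 495) (nat_lit 494) (nat_lit 3566) (.f (nat_lit 559) (nat_lit 558) (nat_lit 1550) (.f (nat_lit 561) (nat_lit 625) (nat_lit 7664) (.f (nat_lit 562) (nat_lit 563) (nat_lit 527)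 (.f (nat_lit 591) (nat_lit 623) (nat_lit 6639) (.d (nat_lit 590) (nat_lit 560) (nat_lit 1582) (nat_lit 622) (nat_lit 5614))))))))))
noncomputable def s17399 : Cert := .r (nat_lit 24313567786412068119359069178053910521525443700033992872248761680620369640281228300025906836086586206008316210879422202245425335835874295345280307855009562406907276803725265469440) (.p (nat_lit 530) (.a (.f (nat_lit 498) (nat_lit 499) (nat_lit 2543) (.f (nat_lit 562) (nat_lit 563) (nat_lit 527) (.f (nat_lit 497) (nat_lit 526) (nat_lit 2542) (.d (nat_lit 465) (nat_lit 433) (nat_lit 4529) (nat_lit 594) (nat_lit 7633))))) (.a (.f (nat_lit 494) (nat_lit 495) (nat_lit 3566) (.f (nat_lit 526) (nat_lit 493) (nat_lit 3565) (.f (nat_lit 558) (nat_lit 557) (nat_lit 1549) (.f (nat_lit 590) (nat_lit 623) (nat_lit 4590) (.f (nat_lit 621) (nat_lit 589) (nat_lit 5613) (.d (nat_lit 622) (nat_lit 593) (nat_lit 1613) (nat_lit 653) (nat_lit 5645))))))) (.f (nat_lit 559) (nat_lit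 558) (nat_lit 1550) (.d (nat_lit 495) (nat_lit 494) (nat_lit 3566) (nat_lit 624) (nat_lit 4591))))))
noncomputable def s17407 : Cert := .r (nat_lit 24313567786412068119359069178053910521525443700033992872248761680620369640281228300025906836086586206008316210879422202245425335835874295345280307855009562406907276803725265469440) (.p (nat_lit 530) (.a (.f (nat_lit 494) (nat_lit 495) (nat_lit 3566) (.f (nat_lit 526) (nat_lit 493) (nat_lit 3565) (.f (nat_lit 558) (nat_lit 557) (nat_lit 1549) (.f (nat_lit 590) (nat_lit 623) (nat_lit 4590) (.f (nat_lit 621) (nat_lit 589) (nat_lit 5613) (.d (nat_lit 622) (nat_lit 593) (nat_lit 1613) (nat_lit 653) (nat_lit 5645))))))) (.a (.f (nat_lit 559) (nat_lit 558) (nat_lit 1550) (.d (nat_lit 495) (nat_lit 494) (nat_lit 3566) (nat_lit 624) (nat_lit 4591))) (.a (.f (nat_lit 558) (nat_lit 559) (nat_lit 1550) (.f (nat_lit 526) (nat_lit 557) (nat_lit 1549) (.d (nat_lit 562) (nat_lit 561) (nat_lit 526) (nat_lit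 563) (nat_lit 527)))) (.f (nat_lit 562) (nat_lit 563) (nat_lit 527) (.f (nat_lit 498) (nat_lit 499) (nat_lit 2543) (.f (nat_lit 561) (nat_lit 526) (nat_lit 526) (.d (nat_lit 466) (nat_lit 434) (nat_lit 5553) (nat_lit 593) (nat_lit 5585)))))))))
noncomputable def s17459 : Cert := .r (nat_lit 24313567786412068119359069178053910521525443700033992872248761680620369640281228300025906836086586206008316210879422202245425335835874295345280307855009562406907276803725265469440) (.p (nat_lit 530) (.a (.f (nat_lit 498) (nat_lit 499) (nat_lit 2543) (.f (nat_lit 562) (nat_lit 563) (nat_lit 527) (.f (nat_lit 497) (nat_lit 526) (nat_lit 2542) (.d (nat_lit 465) (nat_lit 433) (nat_lit 4529) (nat_lit 594) (nat_lit 7633))))) (.a (.f (nat_lit 562) (nat_lit 563) (nat_lit 527) (.f (nat_lit 498) (nat_lit 499) (nat_lit 2543) (.f (nat_lit 561) (nat_lit 526) (nat_lit 526) (.d (nat_lit 466) (nat_lit 434) (nat_lit 5553) (nat_lit 593) (nat_lit 5585))))) (.a (.f (nat_lit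 495) (nat_lit 494) (nat_lit 3566) (.f (nat_lit 559) (nat_lit 624) (nat_lit 4591) (.f (nat_lit 622) (nat_lit 590) (nat_lit 5614) (.f (nat_lit 623) (nat_lit 654) (nat_lit 5646) (.f (nat_lit 562) (nat_lit 563) (nat_lit 527) (.f (nat_lit 594) (nat_lit 593) (nat_lit 1614) (.f (nat_lit 498) (nat_lit 499) (nat_lit 2543) (.d (nat_lit 497) (nat_lit 465) (nat_lit 7633) (nat_lit 626) (nat_lit 7665))))))))) (.a (.f (nat_lit 498) (nat_lit 499) (nat_lit 2543) (.f (nat_lit 494) (nat_lit 495) (nat_lit 3566) (.d (nat_lit 526) (nat_lit 493) (nat_lit 3565) (nat_lit 497) (nat_lit 2542)))) (.f (nat_lit 562) (nat_lit 563) (nat_lit 527) (.f (nat_lit 561) (nat_lit 526) (nat_lit 526) (.f (nat_lit 593) (nat_lit 590) (nat_lit 2606) (.f (nat_lit 624) (nat_lit 497) (nat_lit 5616) (.d (nat_lit 495) (nat_lit 494) (nat_lit 3566) (nat_lit 559) (nat_lit 4591)))))))))))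
noncomputable def s17470 : Cert := .r (nat_lit 24313567786412068119359069178053910521525443700033992872248761680620369640281228300025906836086586206008316210879422202245425335835874295345280307855009562406907276803725265469440) (.p (nat_lit 559) (.a (.f (nat_lit 623) (nat_lit 496) (nat_lit 6639) (.f (nat_lit 526) (nat_lit 494) (nat_lit 7662) (.d (nat_lit 558) (nat_lit 557) (nat_lit 1549) (nat_lit 655) (nat_lit 7694)))) (.a (.f (nat_lit 495) (nat_lit 624) (nat_lit 4591) (.f (nat_lit 590) (nat_lit 622) (nat_lit 5614) (.f (nat_lit 558) (nat_lit 463) (nat_lit 5582) (.d (nat_lit 557) (nat_lit 556) (nat_lit 556) (nat_lit 593) (nat_lit 3629))))) (.f (nat_lit 623) (nat_lit 496) (nat_lit 6639) (.f (nat_lit 622) (nat_lit 654) (nat_lit 5646) (.f (nat_lit 590) (nat_lit 495) (nat_lit 5614) (.d (nat_lit 593) (nat_lit 594) (nat_lit 1614) (nat_lit 621) (nat_lit 1613))))))))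
noncomputable def s17488 : Cert := .r (nat_lit 24313567786412068119359069178053910521525443700033992872248761680620369640281228300025906836086586206008316210879422202245425335835874295345280307855009562406907276803725265469440) (.p (nat_lit 526) (.a (.f (nat_lit 558) (nat_lit 557) (nat_lit 1549) (.f (nat_lit 494) (nat_lit 493) (nat_lit 3565) (.f (nat_lit 590) (nat_lit 623) (nat_lit 4590) (.d (nat_lit 495) (nat_lit 463) (nat_lit 6606) (nat_lit 622) (nat_lit 6638))))) (.a (.f (nat_lit 557) (nat_lit 558) (nat_lit 1549) (.f (nat_lit 525) (nat_lit 556) (nat_lit 1548) (.d (nat_lit 493) (nat_lit 492) (nat_lit 3564) (nat_lit 494) (nat_lit 3565)))) (.a (.f (nat_lit 562) (nat_lit 561) (nat_lit 526) (.f (nat_lit 530) (nat_lit 563) (nat_lit 527) (.d (nat_lit 494) (nat_lit 493) (nat_lit 3565) (nat_lit 495) (nat_lit 3566)))) (.a (.f (nat_lit 557) (nat_lit 558) (nat_lit 1549) (.f (nat_lit 525) (nat_lit 556) (nat_lit 1548) (.f (nat_lit 492) (nat_lit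 493) (nat_lit 3564) (.f (nat_lit 524) (nat_lit 491) (nat_lit 3563) (.f (nat_lit 562) (nat_lit 561) (nat_lit 526) (.f (nat_lit 621) (nat_lit 589) (nat_lit 7660) (.f (nat_lit 563) (nat_lit 530) (nat_lit 527) (.f (nat_lit 593) (nat_lit 594) (nat_lit 2607) (.f (nat_lit 622) (nat_lit 590) (nat_lit 1613) (.d (nat_lit 623) (nat_lit 620) (nat_lit 2636) (nat_lit 624) (nat_lit 2637))))))))))) (.f (nat_lit 562) (nat_lit 561) (nat_lit 526) (.f (nat_lit 530) (nat_lit 563) (nat_lit 527) (.f (nat_lit 558) (nat_lit 557) (nat_lit 1549) (.f (nat_lit 494) (nat_lit 495) (nat_lit 3566) (.f (nat_lit 590) (nat_lit 623) (nat_lit 4590) (.f (nat_lit 621) (nat_lit 589) (nat_lit 5613) (.d (nat_lit 622) (nat_lit 593) (nat_lit 1613) (nat_lit 653) (nat_lit 5645)))))))))))))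
noncomputable def s17501 : Cert := .r (nat_lit 24313567786412068119359069178053910521525443700033992872248761680620369640281228300025906836086586206008316210879422202245425335835874295345280307855009562406907276803725265469440) (.p (nat_lit 530) (.a (.f (nat_lit 559) (nat_lit 558) (nat_lit 1550) (.d (nat_lit 495) (nat_lit 494) (nat_lit 3566) (nat_lit 624) (nat_lit 4591))) (.a (.f (nat_lit 494) (nat_lit 495) (nat_lit 3566) (.f (nat_lit 526) (nat_lit 493) (nat_lit 3565) (.d (nat_lit 562) (nat_lit 561) (nat_lit 526) (nat_lit 563) (nat_lit 527)))) (.f (nat_lit 559) (nat_lit 558) (nat_lit 1550) (.f (nat_lit 623) (nat_lit 496) (nat_lit 6639) (.f (nat_lit 624) (nat_lit 656) (nat_lit 4623) (.f (nat_lit 622) (nat_lit 654) (nat_lit 5646) (.f (nat_lit 621) (nat_lit 620) (nat_lit 2636) (.f (nat_lit 589) (nat_lit 588) (nat_lit 3660) (.f (nat_lit 625) (nat_lit 590) (nat_lit 589) (.f (nat_lit 626) (nat_lit 627) (nat_lit 3663) (.d (nat_lit 658) (nat_lit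 657) (nat_lit 622) (nat_lit 659) (nat_lit 623)))))))))))))
noncomputable def s17507 : Cert := .r (nat_lit 24313567786412068119359069178053910521525443700033992872248761680620369640281228300025906836086586206008316210879422202245425335835874295345280307855009562406907276803725265469440) (.p (nat_lit 530) (.a (.f (nat_lit 559) (nat_lit 558) (nat_lit 1550) (.f (nat_lit 623) (nat_lit 496) (nat_lit 6639) (.f (nat_lit 624) (nat_lit 656) (nat_lit 4623) (.f (nat_lit 622) (nat_lit 654) (nat_lit 5646) (.d (nat_lit 593) (nat_lit 594) (nat_lit 1614) (nat_lit 621) (nat_lit 2637)))))) (.a (.f (nat_lit 558) (nat_lit 559) (nat_lit 1550) (.f (nat_lit 526) (nat_lit 557) (nat_lit 1549) (.d (nat_lit 562) (nat_lit 561) (nat_lit 526) (nat_lit 563) (nat_lit 527)))) (.f (nat_lit 562) (nat_lit 563) (nat_lit 527) (.f (nat_lit 498) (nat_lit 499) (nat_lit 2543) (.f (nat_lit 561) (nat_lit 526) (nat_lit 526) (.d (nat_lit 466) (nat_lit 434) (nat_lit 5553) (nat_lit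 593) (nat_lit 5585))))))))
noncomputable def s17518 : Cert := .r (nat_lit 24313567786412068119359069178053910521525443700033992872248761680620369640281228300025906836086586206008316210879422202245425335835874295345280307855009562406907276803725265469440) (.p (nat_lit 526) (.a (.f (nat_lit 558) (nat_lit 557) (nat_lit 1549) (.f (nat_lit 494) (nat_lit 493) (nat_lit 3565) (.f (nat_lit 590) (nat_lit 623) (nat_lit 4590) (.d (nat_lit 495) (nat_lit 463) (nat_lit 6606) (nat_lit 622) (nat_lit 6638))))) (.a (.f (nat_lit 557) (nat_lit 558) (nat_lit 1549) (.f (nat_lit 525) (nat_lit 556) (nat_lit 1548) (.d (nat_lit 493) (nat_lit 492) (nat_lit 3564) (nat_lit 494) (nat_lit 3565)))) (.a (.f (nat_lit 493) (nat_lit 494) (nat_lit 3565) (.f (nat_lit 525) (nat_lit 492) (nat_lit 3564) (.d (nat_lit 497) (nat_lit 496) (nat_lit 2541) (nat_lit 498) (nat_lit 2542)))) (.f (nat_lit 557) (nat_lit 558) (nat_lit 1549) (.f (nat_lit 525) (nat_lit 556) (nat_lit 1548) (.d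 (nat_lit 497) (nat_lit 496) (nat_lit 2541) (nat_lit 498) (nat_lit 2542))))))))
noncomputable def s17525 : Cert := .r (nat_lit 24313567786412068119359069178053910521525443700033992872248761680620369640281228300025906836086586206008316210879422202245425335835874295345280307855009562406907276803725265469440) (.p (nat_lit 526) (.a (.f (nat_lit 557) (nat_lit 558) (nat_lit 1549) (.f (nat_lit 525) (nat_lit 556) (nat_lit 1548) (.d (nat_lit 493) (nat_lit 492) (nat_lit 3564) (nat_lit 494) (nat_lit 3565)))) (.a (.f (nat_lit 493) (nat_lit 494) (nat_lit 3565) (.f (nat_lit 525) (nat_lit 492) (nat_lit 3564) (.d (nat_lit 497) (nat_lit 496) (nat_lit 2541) (nat_lit 498) (nat_lit 2542)))) (.a (.f (nat_lit 558) (nat_lit 557) (nat_lit 1549) (.f (nat_lit 494) (nat_lit 493) (nat_lit 3565) (.f (nat_lit 462) (nat_lit 559) (nat_lit 4558) (.f (nat_lit 431) (nat_lit 463) (nat_lit 6574) (.f (nat_lit 430) (nat_lit 399) (nat_lit 6542) (.d (nat_lit 429) (nat_lit 397)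 (nat_lit 7565) (nat_lit 461) (nat_lit 7597))))))) (.f (nat_lit 557) (nat_lit 558) (nat_lit 1549) (.f (nat_lit 525) (nat_lit 556) (nat_lit 1548) (.d (nat_lit 497) (nat_lit 496) (nat_lit 2541) (nat_lit 498) (nat_lit 2542))))))))
noncomputable def s17546 : Cert := .r (nat_lit 24313567786412068119359069178053910521525443700033992872248761680620369640281228300025906836086586206008316210879422202245425335835874295345280307855009562406907276803725265469440) (.p (nat_lit 559) (.a (.f (nat_lit 496) (nat_lit 623) (nat_lit 6639) (.f (nat_lit 495) (nat_lit 464) (nat_lit 6607) (.d (nat_lit 494) (nat_lit 462) (nat_lit 7630) (nat_lit 493) (nat_lit 493)))) (.a (.f (nat_lit 495) (nat_lit 624) (nat_lit 4591) (.d (nat_lit 494) (nat_lit 462) (nat_lit 7630) (nat_lit 530) (nat_lit 3566))) (.f (nat_lit 623) (nat_lit 496) (nat_lit 6639) (.f (nat_lit 624) (nat_lit 656) (nat_lit 4623) (.f (nat_lit 622) (nat_lit 654) (nat_lit 5646) (.f (nat_lit 621) (nat_lit 620)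 (nat_lit 2636) (.f (nat_lit 589) (nat_lit 588) (nat_lit 3660) (.f (nat_lit 625) (nat_lit 590) (nat_lit 589) (.f (nat_lit 626) (nat_lit 627) (nat_lit 3663) (.d (nat_lit 658) (nat_lit 657) (nat_lit 622) (nat_lit 659) (nat_lit 623))))))))))))
noncomputable def s17559 : Cert := .r (nat_lit 24313567786412068119359069178053910521525443700033992872248761680620369640281228300025906836086586206008316210879422202245425335835874295345280307855009562406907276803725265469440) (.p (nat_lit 526) (.a (.f (nat_lit 557) (nat_lit 558) (nat_lit 1549) (.f (nat_lit 525) (nat_lit 556) (nat_lit 1548) (.d (nat_lit 497) (nat_lit 496) (nat_lit 2541) (nat_lit 498) (nat_lit 2542)))) (.a (.f (nat_lit 558) (nat_lit 557) (nat_lit 1549) (.f (nat_lit 559) (nat_lit 530) (nat_lit 1550) (.f (nat_lit 495) (nat_lit 624) (nat_lit 4591) (.d (nat_lit 463) (nat_lit 431) (nat_lit 5550) (nat_lit 590) (nat_lit 5582))))) (.a (.f (nat_lit 497) (nat_lit 498) (nat_lit 2542) (.f (nat_lit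 525) (nat_lit 496) (nat_lit 2541) (.f (nat_lit 556) (nat_lit 557) (nat_lit 1548) (.f (nat_lit 524) (nat_lit 555) (nat_lit 1547) (.d (nat_lit 492) (nat_lit 491) (nat_lit 3563) (nat_lit 493) (nat_lit 3564)))))) (.f (nat_lit 497) (nat_lit 498) (nat_lit 2542) (.f (nat_lit 496) (nat_lit 525) (nat_lit 2541) (.f (nat_lit 559) (nat_lit 623) (nat_lit 6639) (.d (nat_lit 495) (nat_lit 464) (nat_lit 6607) (nat_lit 624) (nat_lit 4591)))))))))
noncomputable def s17578 : Cert := .r (nat_lit 24313567786412068119359069178053910521525443700033992872248761680620369640281228300025906836086586206008316210879422202245425335835874295345280307855009562406907276803725265469440) (.p (nat_lit 526) (.a (.f (nat_lit 557) (nat_lit 558) (nat_lit 1549) (.f (nat_lit 525) (nat_lit 556) (nat_lit 1548) (.d (nat_lit 493) (nat_lit 492) (nat_lit 3564) (nat_lit 494) (nat_lit 3565)))) (.a (.f (nat_lit 493) (nat_lit 494) (nat_lit 3565) (.f (nat_lit 525) (nat_lit 492) (nat_lit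 3564) (.d (nat_lit 497) (nat_lit 496) (nat_lit 2541) (nat_lit 498) (nat_lit 2542)))) (.a (.f (nat_lit 562) (nat_lit 561) (nat_lit 526) (.f (nat_lit 530) (nat_lit 563) (nat_lit 527) (.d (nat_lit 494) (nat_lit 493) (nat_lit 3565) (nat_lit 495) (nat_lit 3566)))) (.f (nat_lit 557) (nat_lit 558) (nat_lit 1549) (.f (nat_lit 525) (nat_lit 556) (nat_lit 1548) (.d (nat_lit 497) (nat_lit 496) (nat_lit 2541) (nat_lit 498) (nat_lit 2542))))))))
noncomputable def s17599 : Cert := .r (nat_lit 24313567786412068119359069178053910521525443700033992872248761680620369640281228300025906836086586206008316210879422202245425335835874295345280307855009562406907276803725265469440) (.p (nat_lit 526) (.a (.f (nat_lit 494) (nat_lit 493) (nat_lit 3565) (.f (nat_lit 559) (nat_lit 623) (nat_lit 7662) (.d (nat_lit 462) (nat_lit 430) (nat_lit 4526) (nat_lit 495) (nat_lit 7630)))) (.a (.f (nat_lit 493) (nat_lit 494) (nat_lit 3565) (.f (nat_lit 525) (nat_lit 492) (nat_lit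 3564) (.d (nat_lit 497) (nat_lit 496) (nat_lit 2541) (nat_lit 498) (nat_lit 2542)))) (.a (.f (nat_lit 497) (nat_lit 498) (nat_lit 2542) (.f (nat_lit 525) (nat_lit 496) (nat_lit 2541) (.f (nat_lit 556) (nat_lit 557) (nat_lit 1548) (.f (nat_lit 524) (nat_lit 555) (nat_lit 1547) (.d (nat_lit 492) (nat_lit 491) (nat_lit 3563) (nat_lit 493) (nat_lit 3564)))))) (.f (nat_lit 497) (nat_lit 498) (nat_lit 2542) (.f (nat_lit 496) (nat_lit 525) (nat_lit 2541) (.f (nat_lit 561) (nat_lit 562) (nat_lit 526) (.d (nat_lit 593) (nat_lit 464) (nat_lit 7632) (nat_lit 625) (nat_lit 7664)))))))))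
noncomputable def s17610 : Cert := .r (nat_lit 16209045190941378747264522569282111398454259652685483301944743458568313367990392076588979006111774107789179713591725348373559806391710671697063755444630727080615906093956692180992) (.p (nat_lit 526) (.a (.f (nat_lit 561) (nat_lit 562) (nat_lit 526) (.f (nat_lit 560) (nat_lit 525) (nat_lit 525) (.d (nat_lit 624) (nat_lit 495) (nat_lit 7663) (nat_lit 656) (nat_lit 6672)))) (.a (.f (nat_lit 493) (nat_lit 494) (nat_lit 3565) (.f (nat_lit 525) (nat_lit 492) (nat_lit 3564) (.d (nat_lit 557) (nat_lit 556) (nat_lit 1548) (nat_lit 558) (nat_lit 1549)))) (.p (nat_lit 495) (.a (.f (nat_lit 560) (nat_lit 624) (nat_lit 7663) (.d (nat_lit 463) (nat_lit 431) (nat_lit 4527) (nat_lit 559) (nat_lit 4559))) (.a (.f (nat_lit 494) (nat_lit 493) (nat_lit 3565) (.f (nat_lit 558) (nat_lit 557) (nat_lit 1549) (.d (nat_lit 463) (nat_lit 431) (nat_lit 5550) (nat_lit 590) (nat_lit 6606)))) (.f (nat_lit 494) (nat_lit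 493) (nat_lit 3565) (.f (nat_lit 558) (nat_lit 557) (nat_lit 1549) (.f (nat_lit 590) (nat_lit 622) (nat_lit 6638) (.f (nat_lit 591) (nat_lit 623) (nat_lit 4590) (.d (nat_lit 559) (nat_lit 462) (nat_lit 4558) (nat_lit 624) (nat_lit 4591))))))))))))
noncomputable def s17647 : Cert := .r (nat_lit 16209045190941378747264522569282111398454259652685483301944743458568313367990392076588979006111774107789179713591725348373559806391710671697063755444630727080615906093956692180992) (.p (nat_lit 526) (.a (.f (nat_lit 493) (nat_lit 494) (nat_lit 3565) (.f (nat_lit 525) (nat_lit 492) (nat_lit 3564) (.d (nat_lit 557) (nat_lit 556) (nat_lit 1548) (nat_lit 558) (nat_lit 1549)))) (.a (.f (nat_lit 493) (nat_lit 494) (nat_lit 3565) (.f (nat_lit 525) (nat_lit 492) (nat_lit 3564) (.f (nat_lit 556) (nat_lit 557) (nat_lit 1548) (.f (nat_lit 524) (nat_lit 555) (nat_lit 1547) (.f (nat_lit 560) (nat_lit 559) (nat_lit 524) (.d (nat_lit 497) (nat_lit 498) (nat_lit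 2542) (nat_lit 624) (nat_lit 6640))))))) (.a (.p (nat_lit 495) (.a (.f (nat_lit 560) (nat_lit 624) (nat_lit 7663) (.d (nat_lit 463) (nat_lit 431) (nat_lit 4527) (nat_lit 559) (nat_lit 4559))) (.a (.f (nat_lit 494) (nat_lit 493) (nat_lit 3565) (.f (nat_lit 558) (nat_lit 557) (nat_lit 1549) (.d (nat_lit 463) (nat_lit 431) (nat_lit 5550) (nat_lit 590) (nat_lit 6606)))) (.f (nat_lit 494) (nat_lit 493) (nat_lit 3565) (.f (nat_lit 558) (nat_lit 557) (nat_lit 1549) (.f (nat_lit 590) (nat_lit 622) (nat_lit 6638) (.f (nat_lit 591) (nat_lit 623) (nat_lit 4590) (.d (nat_lit 559) (nat_lit 462) (nat_lit 4558) (nat_lit 624) (nat_lit 4591))))))))) (.a (.f (nat_lit 557) (nat_lit 558) (nat_lit 1549) (.f (nat_lit 525) (nat_lit 556) (nat_lit 1548) (.f (nat_lit 492) (nat_lit 493) (nat_lit 3564) (.f (nat_lit 524) (nat_lit 491) (nat_lit 3563) (.f (nat_lit 560) (nat_lit 559) (nat_lit 524) (.d (nat_lit 497) (nat_lit 498) (nat_lit 2542) (nat_lit 624) (nat_lit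 6640))))))) (.a (.p (nat_lit 559) (.a (.f (nat_lit 494) (nat_lit 493) (nat_lit 3565) (.f (nat_lit 591) (nat_lit 623) (nat_lit 7662) (.d (nat_lit 462) (nat_lit 430) (nat_lit 4526) (nat_lit 495) (nat_lit 7630)))) (.a (.f (nat_lit 494) (nat_lit 493) (nat_lit 3565) (.f (nat_lit 591) (nat_lit 623) (nat_lit 7662) (.d (nat_lit 462) (nat_lit 430) (nat_lit 4526) (nat_lit 558) (nat_lit 4558)))) (.a (.f (nat_lit 493) (nat_lit 494) (nat_lit 3565) (.f (nat_lit 525) (nat_lit 492) (nat_lit 3564) (.f (nat_lit 560) (nat_lit 524) (nat_lit 524) (.d (nat_lit 495) (nat_lit 463) (nat_lit 4559) (nat_lit 624) (nat_lit 7663))))) (.f (nat_lit 497) (nat_lit 498) (nat_lit 2542) (.f (nat_lit 624) (nat_lit 560) (nat_lit 6640) (.f (nat_lit 591) (nat_lit 495) (nat_lit 4591) (.d (nat_lit 656) (nat_lit 623) (nat_lit 4623) (nat_lit 688) (nat_lit 7727))))))))) (.p (nat_lit 495) (.a (.f (nat_lit 560) (nat_lit 624) (nat_lit 7663) (.d (nat_lit 463) (nat_lit 431) (nat_lit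 4527) (nat_lit 559) (nat_lit 4559))) (.a (.f (nat_lit 558) (nat_lit 557) (nat_lit 1549) (.f (nat_lit 590) (nat_lit 622) (nat_lit 6638) (.d (nat_lit 463) (nat_lit 431) (nat_lit 5550) (nat_lit 494) (nat_lit 6606)))) (.f (nat_lit 560) (nat_lit 624) (nat_lit 7663) (.f (nat_lit 557) (nat_lit 558) (nat_lit 1549) (.f (nat_lit 525) (nat_lit 556) (nat_lit 1548) (.f (nat_lit 524) (nat_lit 559) (nat_lit 524) (.f (nat_lit 523) (nat_lit 494) (nat_lit 2539) (.d (nat_lit 491) (nat_lit 490) (nat_lit 3562) (nat_lit 492) (nat_lit 3563))))))))))))))))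
noncomputable def s17649 : Cert := .r (nat_lit 16209045190941378747264522569282111398454259652685483301944743458568313367990392076588979006111774107789179713591725348373559806391710671697063755444630727080615906093956692180992) (.p (nat_lit 526) (.a (.f (nat_lit 561) (nat_lit 562) (nat_lit 526) (.f (nat_lit 560) (nat_lit 525) (nat_lit 525) (.d (nat_lit 497) (nat_lit 465) (nat_lit 5584) (nat_lit 498) (nat_lit 2542)))) (.a (.f (nat_lit 493) (nat_lit 494) (nat_lit 3565) (.f (nat_lit 525) (nat_lit 492) (nat_lit 3564) (.d (nat_lit 557) (nat_lit 556) (nat_lit 1548) (nat_lit 558) (nat_lit 1549)))) s14752)))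
noncomputable def s17657 : Cert := .r (nat_lit 16209045190941378747264522569282111398454259652685483301944743458568313367990392076588979006111774107789179713591725348373559806391710671697063755444630727080615906093956692180992) (.p (nat_lit 526) (.a (.f (nat_lit 561) (nat_lit 562) (nat_lit 526) (.f (nat_lit 560) (nat_lit 525) (nat_lit 525) (.d (nat_lit 497) (nat_lit 465) (nat_lit 5584) (nat_lit 498) (nat_lit 2542)))) (.a (.f (nat_lit 558) (nat_lit 557) (nat_lit 1549) (.f (nat_lit 497) (nat_lit 498) (nat_lit 2542) (.f (nat_lit 561) (nat_lit 562) (nat_lit 526) (.f (nat_lit 593) (nat_lit 624) (nat_lit 5616) (.f (nat_lit 594) (nat_lit 626) (nat_lit 4593) (.f (nat_lit 591) (nat_lit 559) (nat_lit 3630) (.f (nat_lit 622) (nat_lit 623) (nat_lit 1614) (.d (nat_lit 590) (nat_lit 495) (nat_lit 6638) (nat_lit 621) (nat_lit 1613))))))))) (.a (.f (nat_lit 561) (nat_lit 562) (nat_lit 526) (.f (nat_lit 560) (nat_lit 525) (nat_lit 525) (.d (nat_lit 624)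 (nat_lit 495) (nat_lit 7663) (nat_lit 656) (nat_lit 6672)))) (.f (nat_lit 558) (nat_lit 557) (nat_lit 1549) (.f (nat_lit 559) (nat_lit 530) (nat_lit 1550) (.f (nat_lit 497) (nat_lit 498) (nat_lit 2542) (.f (nat_lit 624) (nat_lit 560) (nat_lit 6640) (.f (nat_lit 591) (nat_lit 495) (nat_lit 4591) (.d (nat_lit 623) (nat_lit 655) (nat_lit 7694) (nat_lit 656) (nat_lit 4623)))))))))))
noncomputable def s17789 : Cert := .r (nat_lit 2636082301490154130553049906847254995431463155255029277207473968327248582424699924015062902013998549111281783574328649486254843391891191224028426863788181946368) (.p (nat_lit 592) (.a s14523 (.a (.p (nat_lit 591) (.a s16746 (.a (.p (nat_lit 527) (.a s17399 (.a s17407 (.a (.p (nat_lit 526) (.a (.f (nat_lit 558) (nat_lit 557) (nat_lit 1549) (.f (nat_lit 494) (nat_lit 493) (nat_lit 3565) (.d (nat_lit 559) (nat_lit 462) (nat_lit 4558) (nat_lit 623) (nat_lit 7662)))) (.a (.f (nat_lit 558) (nat_lit 557) (nat_lit 1549)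 (.f (nat_lit 494) (nat_lit 493) (nat_lit 3565) (.f (nat_lit 590) (nat_lit 623) (nat_lit 4590) (.d (nat_lit 495) (nat_lit 463) (nat_lit 6606) (nat_lit 622) (nat_lit 6638))))) (.a (.f (nat_lit 494) (nat_lit 493) (nat_lit 3565) (.f (nat_lit 559) (nat_lit 623) (nat_lit 7662) (.d (nat_lit 462) (nat_lit 430) (nat_lit 4526) (nat_lit 495) (nat_lit 7630)))) (.a (.f (nat_lit 557) (nat_lit 558) (nat_lit 1549) (.f (nat_lit 525) (nat_lit 556) (nat_lit 1548) (.f (nat_lit 492) (nat_lit 493) (nat_lit 3564) (.f (nat_lit 524) (nat_lit 491) (nat_lit 3563) (.f (nat_lit 621) (nat_lit 589) (nat_lit 7660) (.f (nat_lit 561) (nat_lit 562) (nat_lit 526) (.f (nat_lit 497) (nat_lit 498) (nat_lit 2542) (.f (nat_lit 593) (nat_lit 624) (nat_lit 5616) (.f (nat_lit 626) (nat_lit 594) (nat_lit 4593) (.d (nat_lit 590) (nat_lit 622) (nat_lit 1613) (nat_lit 625) (nat_lit 590))))))))))) (.f (nat_lit 558) (nat_lit 557) (nat_lit 1549) (.f (nat_lit 561) (nat_lit 562) (nat_lit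 526) (.f (nat_lit 497) (nat_lit 498) (nat_lit 2542) (.f (nat_lit 593) (nat_lit 624) (nat_lit 5616) (.d (nat_lit 594) (nat_lit 559) (nat_lit 3630) (nat_lit 626) (nat_lit 4593))))))))))) (.a (.p (nat_lit 526) (.a (.f (nat_lit 558) (nat_lit 557) (nat_lit 1549) (.f (nat_lit 494) (nat_lit 493) (nat_lit 3565) (.f (nat_lit 590) (nat_lit 623) (nat_lit 4590) (.d (nat_lit 495) (nat_lit 463) (nat_lit 6606) (nat_lit 622) (nat_lit 6638))))) (.a (.f (nat_lit 557) (nat_lit 558) (nat_lit 1549) (.f (nat_lit 525) (nat_lit 556) (nat_lit 1548) (.d (nat_lit 493) (nat_lit 492) (nat_lit 3564) (nat_lit 494) (nat_lit 3565)))) (.a (.f (nat_lit 562) (nat_lit 561) (nat_lit 526) (.f (nat_lit 530) (nat_lit 563) (nat_lit 527) (.d (nat_lit 494) (nat_lit 493) (nat_lit 3565) (nat_lit 495) (nat_lit 3566)))) (.a (.f (nat_lit 557) (nat_lit 558) (nat_lit 1549) (.f (nat_lit 525) (nat_lit 556) (nat_lit 1548) (.f (nat_lit 492) (nat_lit 493) (nat_lit 3564) (.f (nat_lit 524)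 (nat_lit 491) (nat_lit 3563) (.f (nat_lit 621) (nat_lit 589) (nat_lit 7660) (.f (nat_lit 561) (nat_lit 562) (nat_lit 526) (.f (nat_lit 497) (nat_lit 498) (nat_lit 2542) (.f (nat_lit 593) (nat_lit 624) (nat_lit 5616) (.f (nat_lit 626) (nat_lit 594) (nat_lit 4593) (.d (nat_lit 590) (nat_lit 622) (nat_lit 1613) (nat_lit 625) (nat_lit 590))))))))))) (.f (nat_lit 562) (nat_lit 561) (nat_lit 526) (.f (nat_lit 530) (nat_lit 563) (nat_lit 527) (.d (nat_lit 498) (nat_lit 497) (nat_lit 2542) (nat_lit 499) (nat_lit 2543))))))))) (.a (.p (nat_lit 559) (.a (.f (nat_lit 495) (nat_lit 624) (nat_lit 4591) (.d (nat_lit 494) (nat_lit 462) (nat_lit 7630) (nat_lit 530) (nat_lit 3566))) (.a (.f (nat_lit 495) (nat_lit 624) (nat_lit 4591) (.f (nat_lit 590) (nat_lit 622) (nat_lit 5614) (.f (nat_lit 558) (nat_lit 463) (nat_lit 5582) (.d (nat_lit 557) (nat_lit 556) (nat_lit 556) (nat_lit 593) (nat_lit 3629))))) (.f (nat_lit 558) (nat_lit 530) (nat_lit 1550) (.f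 (nat_lit 557) (nat_lit 556) (nat_lit 2572) (.d (nat_lit 593) (nat_lit 590) (nat_lit 3629) (nat_lit 594) (nat_lit 3630))))))) (.a (.p (nat_lit 530) (.a (.f (nat_lit 498) (nat_lit 499) (nat_lit 2543) (.f (nat_lit 562) (nat_lit 563) (nat_lit 527) (.f (nat_lit 497) (nat_lit 526) (nat_lit 2542) (.d (nat_lit 465) (nat_lit 433) (nat_lit 4529) (nat_lit 594) (nat_lit 7633))))) (.f (nat_lit 559) (nat_lit 558) (nat_lit 1550) (.d (nat_lit 495) (nat_lit 494) (nat_lit 3566) (nat_lit 624) (nat_lit 4591))))) (.a (.p (nat_lit 526) (.a (.f (nat_lit 558) (nat_lit 557) (nat_lit 1549) (.f (nat_lit 494) (nat_lit 493) (nat_lit 3565) (.d (nat_lit 559) (nat_lit 462) (nat_lit 4558) (nat_lit 623) (nat_lit 7662)))) (.a (.f (nat_lit 557) (nat_lit 558) (nat_lit 1549) (.f (nat_lit 525) (nat_lit 556) (nat_lit 1548) (.d (nat_lit 493) (nat_lit 492) (nat_lit 3564) (nat_lit 494) (nat_lit 3565)))) (.f (nat_lit 562) (nat_lit 561) (nat_lit 526) (.f (nat_lit 530) (nat_lit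 563) (nat_lit 527) (.d (nat_lit 498) (nat_lit 497) (nat_lit 2542) (nat_lit 499) (nat_lit 2543))))))) (.a s17459 (.p (nat_lit 530) (.a (.f (nat_lit 498) (nat_lit 499) (nat_lit 2543) (.f (nat_lit 562) (nat_lit 563) (nat_lit 527) (.f (nat_lit 497) (nat_lit 526) (nat_lit 2542) (.d (nat_lit 465) (nat_lit 433) (nat_lit 4529) (nat_lit 594) (nat_lit 7633))))) (.a (.f (nat_lit 558) (nat_lit 559) (nat_lit 1550) (.f (nat_lit 526) (nat_lit 557) (nat_lit 1549) (.d (nat_lit 562) (nat_lit 561) (nat_lit 526) (nat_lit 563) (nat_lit 527)))) (.f (nat_lit 559) (nat_lit 558) (nat_lit 1550) (.f (nat_lit 624) (nat_lit 495) (nat_lit 4591) (.d (nat_lit 656) (nat_lit 623) (nat_lit 4623) (nat_lit 688) (nat_lit 7727)))))))))))))))) (.a (.p (nat_lit 593) (.a (.p (nat_lit 594) (.a (.f (nat_lit 562) (nat_lit 563) (nat_lit 2607) (.f (nat_lit 626) (nat_lit 627) (nat_lit 591) (.d (nat_lit 561) (nat_lit 590) (nat_lit 2606) (nat_lit 658) (nat_lit 7697)))) (.a (.f (nat_lit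 622) (nat_lit 623) (nat_lit 1614) (.f (nat_lit 590) (nat_lit 621) (nat_lit 1613) (.d (nat_lit 558) (nat_lit 557) (nat_lit 3629) (nat_lit 559) (nat_lit 3630)))) (.f (nat_lit 563) (nat_lit 562) (nat_lit 2607) (.f (nat_lit 595) (nat_lit 564) (nat_lit 2608) (.d (nat_lit 623) (nat_lit 622) (nat_lit 1614) (nat_lit 624) (nat_lit 1615))))))) (.a (.p (nat_lit 594) (.a (.f (nat_lit 622) (nat_lit 623) (nat_lit 1614) (.f (nat_lit 590) (nat_lit 621) (nat_lit 1613) (.d (nat_lit 558) (nat_lit 557) (nat_lit 3629) (nat_lit 559) (nat_lit 3630)))) (.a (.f (nat_lit 563) (nat_lit 562) (nat_lit 2607) (.f (nat_lit 595) (nat_lit 564) (nat_lit 2608) (.d (nat_lit 623) (nat_lit 622) (nat_lit 1614) (nat_lit 624) (nat_lit 1615)))) (.f (nat_lit 626) (nat_lit 627) (nat_lit 591) (.f (nat_lit 562) (nat_lit 563) (nat_lit 2607) (.f (nat_lit 625) (nat_lit 590) (nat_lit 590) (.d (nat_lit 530) (nat_lit 497) (nat_lit 7665) (nat_lit 498) (nat_lit 5617)))))))) (.a s15105 (.a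 (.p (nat_lit 594) (.a (.f (nat_lit 622) (nat_lit 623) (nat_lit 1614) (.f (nat_lit 590) (nat_lit 621) (nat_lit 1613) (.d (nat_lit 558) (nat_lit 557) (nat_lit 3629) (nat_lit 559) (nat_lit 3630)))) (.a (.f (nat_lit 626) (nat_lit 627) (nat_lit 591) (.f (nat_lit 625) (nat_lit 590) (nat_lit 590) (.d (nat_lit 561) (nat_lit 496) (nat_lit 7664) (nat_lit 658) (nat_lit 4625)))) (.f (nat_lit 623) (nat_lit 622) (nat_lit 1614) (.f (nat_lit 595) (nat_lit 624) (nat_lit 1615) (.d (nat_lit 627) (nat_lit 626) (nat_lit 591) (nat_lit 628) (nat_lit 592))))))) (.a (.p (nat_lit 561) (.a (.f (nat_lit 590) (nat_lit 562) (nat_lit 2606) (.f (nat_lit 625) (nat_lit 626) (nat_lit 590) (.d (nat_lit 624) (nat_lit 589) (nat_lit 589) (nat_lit 656) (nat_lit 5648)))) (.a (.f (nat_lit 624) (nat_lit 497) (nat_lit 5616) (.d (nat_lit 656) (nat_lit 625) (nat_lit 5648) (nat_lit 688) (nat_lit 6704))) (.f (nat_lit 590) (nat_lit 562) (nat_lit 2606) (.f (nat_lit 557) (nat_lit 558)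 (nat_lit 3629) (.f (nat_lit 589) (nat_lit 556) (nat_lit 3628) (.d (nat_lit 621) (nat_lit 620) (nat_lit 1612) (nat_lit 622) (nat_lit 1613)))))))) (.a s15208 (.p (nat_lit 561) (.a (.f (nat_lit 562) (nat_lit 590) (nat_lit 2606) (.d (nat_lit 563) (nat_lit 564) (nat_lit 1584) (nat_lit 594) (nat_lit 2607))) (.f (nat_lit 624) (nat_lit 497) (nat_lit 5616) (.d (nat_lit 656) (nat_lit 625) (nat_lit 5648) (nat_lit 688) (nat_lit 6704)))))))))))) (.a (.p (nat_lit 527) (.a s17407 (.a (.p (nat_lit 559) (.a (.f (nat_lit 495) (nat_lit 624) (nat_lit 4591) (.d (nat_lit 494) (nat_lit 462) (nat_lit 7630) (nat_lit 530) (nat_lit 3566))) (.a (.f (nat_lit 495) (nat_lit 624) (nat_lit 4591) (.f (nat_lit 590) (nat_lit 622) (nat_lit 5614) (.f (nat_lit 558) (nat_lit 463) (nat_lit 5582) (.d (nat_lit 557) (nat_lit 556) (nat_lit 556) (nat_lit 593) (nat_lit 3629))))) (.f (nat_lit 558) (nat_lit 530) (nat_lit 1550) (.f (nat_lit 557) (nat_lit 556) (nat_lit 2572) (.d (nat_lit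 593) (nat_lit 590) (nat_lit 3629) (nat_lit 594) (nat_lit 3630))))))) (.a s17470 (.a s17488 (.a s17501 (.a s17507 (.a (.p (nat_lit 530) (.a (.f (nat_lit 494) (nat_lit 495) (nat_lit 3566) (.f (nat_lit 526) (nat_lit 493) (nat_lit 3565) (.f (nat_lit 558) (nat_lit 557) (nat_lit 1549) (.f (nat_lit 590) (nat_lit 623) (nat_lit 4590) (.f (nat_lit 621) (nat_lit 589) (nat_lit 5613) (.d (nat_lit 622) (nat_lit 593) (nat_lit 1613) (nat_lit 653) (nat_lit 5645))))))) (.a (.f (nat_lit 559) (nat_lit 558) (nat_lit 1550) (.f (nat_lit 495) (nat_lit 494) (nat_lit 3566) (.d (nat_lit 496) (nat_lit 464) (nat_lit 6607) (nat_lit 623) (nat_lit 6639)))) (.a (.f (nat_lit 558) (nat_lit 559) (nat_lit 1550) (.f (nat_lit 526) (nat_lit 557) (nat_lit 1549) (.d (nat_lit 562) (nat_lit 561) (nat_lit 526) (nat_lit 563) (nat_lit 527)))) (.f (nat_lit 562) (nat_lit 563) (nat_lit 527) (.f (nat_lit 498) (nat_lit 499) (nat_lit 2543) (.f (nat_lit 561) (nat_lit 526) (nat_lit 526)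 (.d (nat_lit 466) (nat_lit 434) (nat_lit 5553) (nat_lit 593) (nat_lit 5585))))))))) (.p (nat_lit 530) (.a (.f (nat_lit 562) (nat_lit 563) (nat_lit 527) (.f (nat_lit 498) (nat_lit 499) (nat_lit 2543) (.f (nat_lit 561) (nat_lit 526) (nat_lit 526) (.d (nat_lit 466) (nat_lit 434) (nat_lit 5553) (nat_lit 593) (nat_lit 5585))))) (.f (nat_lit 495) (nat_lit 494) (nat_lit 3566) (.f (nat_lit 559) (nat_lit 624) (nat_lit 4591) (.d (nat_lit 496) (nat_lit 464) (nat_lit 6607) (nat_lit 623) (nat_lit 6639)))))))))))))) (.a (.p (nat_lit 527) (.a s16753 (.a s17399 (.a (.p (nat_lit 559) (.a (.f (nat_lit 495) (nat_lit 624) (nat_lit 4591) (.d (nat_lit 494) (nat_lit 462) (nat_lit 7630) (nat_lit 530) (nat_lit 3566))) (.a (.f (nat_lit 495) (nat_lit 624) (nat_lit 4591) (.f (nat_lit 590) (nat_lit 622) (nat_lit 5614) (.f (nat_lit 558) (nat_lit 463) (nat_lit 5582) (.d (nat_lit 557) (nat_lit 556) (nat_lit 556) (nat_lit 593) (nat_lit 3629))))) (.f (nat_lit 558) (nat_lit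 530) (nat_lit 1550) (.f (nat_lit 557) (nat_lit 556) (nat_lit 2572) (.d (nat_lit 593) (nat_lit 590) (nat_lit 3629) (nat_lit 594) (nat_lit 3630))))))) (.a s17518 (.a s17525 (.a (.p (nat_lit 530) (.a (.f (nat_lit 498) (nat_lit 499) (nat_lit 2543) (.f (nat_lit 562) (nat_lit 563) (nat_lit 527) (.f (nat_lit 497) (nat_lit 526) (nat_lit 2542) (.d (nat_lit 465) (nat_lit 433) (nat_lit 4529) (nat_lit 594) (nat_lit 7633))))) (.f (nat_lit 495) (nat_lit 494) (nat_lit 3566) (.f (nat_lit 559) (nat_lit 624) (nat_lit 4591) (.d (nat_lit 496) (nat_lit 464) (nat_lit 6607) (nat_lit 623) (nat_lit 6639)))))) (.p (nat_lit 530) (.a (.f (nat_lit 498) (nat_lit 499) (nat_lit 2543) (.f (nat_lit 562) (nat_lit 563) (nat_lit 527) (.f (nat_lit 497) (nat_lit 526) (nat_lit 2542) (.d (nat_lit 465) (nat_lit 433) (nat_lit 4529) (nat_lit 594) (nat_lit 7633))))) (.a (.f (nat_lit 559) (nat_lit 558) (nat_lit 1550) (.f (nat_lit 623) (nat_lit 496) (nat_lit 6639) (.f (nat_lit 624)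 (nat_lit 656) (nat_lit 4623) (.f (nat_lit 622) (nat_lit 654) (nat_lit 5646) (.d (nat_lit 593) (nat_lit 594) (nat_lit 1614) (nat_lit 621) (nat_lit 2637)))))) (.f (nat_lit 559) (nat_lit 558) (nat_lit 1550) (.f (nat_lit 623) (nat_lit 496) (nat_lit 6639) (.f (nat_lit 624) (nat_lit 656) (nat_lit 4623) (.f (nat_lit 622) (nat_lit 654) (nat_lit 5646) (.f (nat_lit 621) (nat_lit 620) (nat_lit 2636) (.f (nat_lit 589) (nat_lit 588) (nat_lit 3660) (.f (nat_lit 625) (nat_lit 590) (nat_lit 589) (.f (nat_lit 626) (nat_lit 627) (nat_lit 3663) (.d (nat_lit 658) (nat_lit 657) (nat_lit 622) (nat_lit 659) (nat_lit 623)))))))))))))))))))) (.a (.p (nat_lit 593) (.a s15105 (.a (.p (nat_lit 561) (.a (.f (nat_lit 562) (nat_lit 590) (nat_lit 2606) (.d (nat_lit 563) (nat_lit 564) (nat_lit 1584) (nat_lit 594) (nat_lit 2607))) (.a (.f (nat_lit 625) (nat_lit 496) (nat_lit 7664) (.d (nat_lit 626) (nat_lit 590) (nat_lit 590) (nat_lit 658) (nat_lit 4625))) (.f (nat_lit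 625) (nat_lit 496) (nat_lit 7664) (.f (nat_lit 624) (nat_lit 656) (nat_lit 5648) (.d (nat_lit 626) (nat_lit 627) (nat_lit 3663) (nat_lit 658) (nat_lit 4625))))))) (.a (.p (nat_lit 594) (.a (.f (nat_lit 563) (nat_lit 562) (nat_lit 2607) (.f (nat_lit 595) (nat_lit 564) (nat_lit 2608) (.d (nat_lit 623) (nat_lit 622) (nat_lit 1614) (nat_lit 624) (nat_lit 1615)))) (.a (.f (nat_lit 623) (nat_lit 622) (nat_lit 1614) (.f (nat_lit 595) (nat_lit 624) (nat_lit 1615) (.d (nat_lit 627) (nat_lit 626) (nat_lit 591) (nat_lit 628) (nat_lit 592)))) (.f (nat_lit 626) (nat_lit 627) (nat_lit 591) (.f (nat_lit 562) (nat_lit 563) (nat_lit 2607) (.f (nat_lit 625) (nat_lit 590) (nat_lit 590) (.d (nat_lit 530) (nat_lit 497) (nat_lit 7665) (nat_lit 498) (nat_lit 5617)))))))) (.a (.p (nat_lit 561) (.a (.f (nat_lit 624) (nat_lit 497) (nat_lit 5616) (.d (nat_lit 656) (nat_lit 625) (nat_lit 5648) (nat_lit 688) (nat_lit 6704))) (.a (.f (nat_lit 625) (nat_lit 496) (nat_lit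 7664) (.d (nat_lit 626) (nat_lit 590) (nat_lit 590) (nat_lit 658) (nat_lit 4625))) (.f (nat_lit 497) (nat_lit 624) (nat_lit 5616) (.f (nat_lit 498) (nat_lit 466) (nat_lit 6609) (.f (nat_lit 499) (nat_lit 500) (nat_lit 1520) (.d (nat_lit 496) (nat_lit 464) (nat_lit 7632) (nat_lit 527) (nat_lit 1519)))))))) (.a (.p (nat_lit 594) (.a (.f (nat_lit 562) (nat_lit 563) (nat_lit 2607) (.f (nat_lit 626) (nat_lit 627) (nat_lit 591) (.d (nat_lit 561) (nat_lit 590) (nat_lit 2606) (nat_lit 658) (nat_lit 7697)))) (.a (.f (nat_lit 563) (nat_lit 562) (nat_lit 2607) (.f (nat_lit 595) (nat_lit 564) (nat_lit 2608) (.d (nat_lit 623) (nat_lit 622) (nat_lit 1614) (nat_lit 624) (nat_lit 1615)))) (.f (nat_lit 623) (nat_lit 622) (nat_lit 1614) (.f (nat_lit 595) (nat_lit 624) (nat_lit 1615) (.d (nat_lit 627) (nat_lit 626) (nat_lit 591) (nat_lit 628) (nat_lit 592))))))) (.a s15208 (.p (nat_lit 561) (.a (.f (nat_lit 562) (nat_lit 590) (nat_lit 2606) (.d (nat_lit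 563) (nat_lit 564) (nat_lit 1584) (nat_lit 594) (nat_lit 2607))) (.f (nat_lit 624) (nat_lit 497) (nat_lit 5616) (.d (nat_lit 656) (nat_lit 625) (nat_lit 5648) (nat_lit 688) (nat_lit 6704)))))))))))) (.a (.p (nat_lit 527) (.a s16753 (.a (.p (nat_lit 530) (.a (.f (nat_lit 498) (nat_lit 499) (nat_lit 2543) (.f (nat_lit 562) (nat_lit 563) (nat_lit 527) (.f (nat_lit 497) (nat_lit 526) (nat_lit 2542) (.d (nat_lit 465) (nat_lit 433) (nat_lit 4529) (nat_lit 594) (nat_lit 7633))))) (.f (nat_lit 559) (nat_lit 558) (nat_lit 1550) (.d (nat_lit 495) (nat_lit 494) (nat_lit 3566) (nat_lit 624) (nat_lit 4591))))) (.a s17501 (.a s17518 (.a s17546 (.a s17525 (.p (nat_lit 530) (.a (.f (nat_lit 498) (nat_lit 499) (nat_lit 2543) (.f (nat_lit 562) (nat_lit 563) (nat_lit 527) (.f (nat_lit 497) (nat_lit 526) (nat_lit 2542) (.d (nat_lit 465) (nat_lit 433) (nat_lit 4529) (nat_lit 594) (nat_lit 7633))))) (.a (.f (nat_lit 558) (nat_lit 559) (nat_lit 1550) (.f (nat_lit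 526) (nat_lit 557) (nat_lit 1549) (.d (nat_lit 562) (nat_lit 561) (nat_lit 526) (nat_lit 563) (nat_lit 527)))) (.f (nat_lit 559) (nat_lit 558) (nat_lit 1550) (.f (nat_lit 624) (nat_lit 495) (nat_lit 4591) (.d (nat_lit 656) (nat_lit 623) (nat_lit 4623) (nat_lit 688) (nat_lit 7727)))))))))))))) (.a (.p (nat_lit 527) (.a s16753 (.a (.p (nat_lit 559) (.a (.f (nat_lit 495) (nat_lit 624) (nat_lit 4591) (.d (nat_lit 494) (nat_lit 462) (nat_lit 7630) (nat_lit 530) (nat_lit 3566))) (.a (.f (nat_lit 495) (nat_lit 624) (nat_lit 4591) (.f (nat_lit 590) (nat_lit 622) (nat_lit 5614) (.f (nat_lit 558) (nat_lit 463) (nat_lit 5582) (.d (nat_lit 557) (nat_lit 556) (nat_lit 556) (nat_lit 593) (nat_lit 3629))))) (.f (nat_lit 558) (nat_lit 530) (nat_lit 1550) (.f (nat_lit 557) (nat_lit 556) (nat_lit 2572) (.d (nat_lit 593) (nat_lit 590) (nat_lit 3629) (nat_lit 594) (nat_lit 3630))))))) (.a s17518 (.a s17525 (.a s17546 s17559)))))) (.a (.p (nat_lit 527) (.a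 s16753 (.a s17399 (.a s17407 (.a s17518 (.a (.p (nat_lit 559) (.a (.f (nat_lit 495) (nat_lit 624) (nat_lit 4591) (.d (nat_lit 494) (nat_lit 462) (nat_lit 7630) (nat_lit 530) (nat_lit 3566))) (.a (.f (nat_lit 495) (nat_lit 624) (nat_lit 4591) (.f (nat_lit 590) (nat_lit 622) (nat_lit 5614) (.f (nat_lit 558) (nat_lit 463) (nat_lit 5582) (.d (nat_lit 557) (nat_lit 556) (nat_lit 556) (nat_lit 593) (nat_lit 3629))))) (.f (nat_lit 558) (nat_lit 530) (nat_lit 1550) (.f (nat_lit 557) (nat_lit 556) (nat_lit 2572) (.d (nat_lit 593) (nat_lit 590) (nat_lit 3629) (nat_lit 594) (nat_lit 3630))))))) (.a s17525 (.a s17459 (.p (nat_lit 530) (.a (.f (nat_lit 498) (nat_lit 499) (nat_lit 2543) (.f (nat_lit 562) (nat_lit 563) (nat_lit 527) (.f (nat_lit 497) (nat_lit 526) (nat_lit 2542) (.d (nat_lit 465) (nat_lit 433) (nat_lit 4529) (nat_lit 594) (nat_lit 7633))))) (.a (.f (nat_lit 558) (nat_lit 559) (nat_lit 1550) (.f (nat_lit 526) (nat_lit 557) (nat_lit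 1549) (.d (nat_lit 562) (nat_lit 561) (nat_lit 526) (nat_lit 563) (nat_lit 527)))) (.f (nat_lit 559) (nat_lit 558) (nat_lit 1550) (.f (nat_lit 624) (nat_lit 495) (nat_lit 4591) (.d (nat_lit 656) (nat_lit 623) (nat_lit 4623) (nat_lit 688) (nat_lit 7727))))))))))))))) (.a (.p (nat_lit 527) (.a s16753 (.a s17407 (.a s17518 (.a s17546 (.a s17525 (.a s17559 (.p (nat_lit 530) (.a (.f (nat_lit 562) (nat_lit 563) (nat_lit 527) (.f (nat_lit 498) (nat_lit 499) (nat_lit 2543) (.f (nat_lit 561) (nat_lit 526) (nat_lit 526) (.d (nat_lit 466) (nat_lit 434) (nat_lit 5553) (nat_lit 593) (nat_lit 5585))))) (.f (nat_lit 495) (nat_lit 494) (nat_lit 3566) (.f (nat_lit 559) (nat_lit 624) (nat_lit 4591) (.d (nat_lit 496) (nat_lit 464) (nat_lit 6607) (nat_lit 623) (nat_lit 6639))))))))))))) (.a (.p (nat_lit 527) (.a (.p (nat_lit 559) (.a (.f (nat_lit 495) (nat_lit 624) (nat_lit 4591) (.d (nat_lit 494) (nat_lit 462) (nat_lit 7630) (nat_lit 530) (nat_lit 3566)))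 (.a (.f (nat_lit 495) (nat_lit 624) (nat_lit 4591) (.f (nat_lit 590) (nat_lit 622) (nat_lit 5614) (.f (nat_lit 558) (nat_lit 463) (nat_lit 5582) (.d (nat_lit 557) (nat_lit 556) (nat_lit 556) (nat_lit 593) (nat_lit 3629))))) (.f (nat_lit 558) (nat_lit 530) (nat_lit 1550) (.f (nat_lit 557) (nat_lit 556) (nat_lit 2572) (.d (nat_lit 593) (nat_lit 590) (nat_lit 3629) (nat_lit 594) (nat_lit 3630))))))) (.a s17470 (.a s17488 (.a s17501 (.a (.p (nat_lit 530) (.a (.f (nat_lit 559) (nat_lit 558) (nat_lit 1550) (.f (nat_lit 623) (nat_lit 496) (nat_lit 6639) (.f (nat_lit 624) (nat_lit 656) (nat_lit 4623) (.f (nat_lit 622) (nat_lit 654) (nat_lit 5646) (.d (nat_lit 593) (nat_lit 594) (nat_lit 1614) (nat_lit 621) (nat_lit 2637)))))) (.a (.f (nat_lit 558) (nat_lit 559) (nat_lit 1550) (.f (nat_lit 526) (nat_lit 557) (nat_lit 1549) (.d (nat_lit 562) (nat_lit 561) (nat_lit 526) (nat_lit 563) (nat_lit 527)))) (.a (.f (nat_lit 562) (nat_lit 563) (nat_lit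 527) (.f (nat_lit 526) (nat_lit 561) (nat_lit 526) (.f (nat_lit 557) (nat_lit 558) (nat_lit 1549) (.f (nat_lit 525) (nat_lit 556) (nat_lit 1548) (.d (nat_lit 493) (nat_lit 492) (nat_lit 3564) (nat_lit 494) (nat_lit 3565)))))) (.f (nat_lit 562) (nat_lit 563) (nat_lit 527) (.f (nat_lit 561) (nat_lit 526) (nat_lit 526) (.f (nat_lit 593) (nat_lit 590) (nat_lit 2606) (.d (nat_lit 625) (nat_lit 496) (nat_lit 7664) (nat_lit 657) (nat_lit 6673))))))))) (.a (.p (nat_lit 530) (.a (.f (nat_lit 494) (nat_lit 495) (nat_lit 3566) (.f (nat_lit 526) (nat_lit 493) (nat_lit 3565) (.f (nat_lit 558) (nat_lit 557) (nat_lit 1549) (.f (nat_lit 590) (nat_lit 623) (nat_lit 4590) (.f (nat_lit 621) (nat_lit 589) (nat_lit 5613) (.d (nat_lit 622) (nat_lit 593) (nat_lit 1613) (nat_lit 653) (nat_lit 5645))))))) (.a (.f (nat_lit 559) (nat_lit 558) (nat_lit 1550) (.f (nat_lit 495) (nat_lit 494) (nat_lit 3566) (.d (nat_lit 496) (nat_lit 464) (nat_lit 6607) (nat_lit 623)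 (nat_lit 6639)))) (.a (.f (nat_lit 558) (nat_lit 559) (nat_lit 1550) (.f (nat_lit 526) (nat_lit 557) (nat_lit 1549) (.d (nat_lit 562) (nat_lit 561) (nat_lit 526) (nat_lit 563) (nat_lit 527)))) (.f (nat_lit 494) (nat_lit 495) (nat_lit 3566) (.f (nat_lit 526) (nat_lit 493) (nat_lit 3565) (.d (nat_lit 562) (nat_lit 561) (nat_lit 526) (nat_lit 563) (nat_lit 527)))))))) (.a s17546 (.a (.p (nat_lit 530) (.a (.f (nat_lit 559) (nat_lit 558) (nat_lit 1550) (.f (nat_lit 623) (nat_lit 496) (nat_lit 6639) (.f (nat_lit 624) (nat_lit 656) (nat_lit 4623) (.f (nat_lit 622) (nat_lit 654) (nat_lit 5646) (.d (nat_lit 593) (nat_lit 594) (nat_lit 1614) (nat_lit 621) (nat_lit 2637)))))) (.a (.f (nat_lit 558) (nat_lit 559) (nat_lit 1550) (.f (nat_lit 526) (nat_lit 557) (nat_lit 1549) (.d (nat_lit 562) (nat_lit 561) (nat_lit 526) (nat_lit 563) (nat_lit 527)))) (.f (nat_lit 562) (nat_lit 563) (nat_lit 527) (.f (nat_lit 561) (nat_lit 526) (nat_lit 526) (.f (nat_lit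 593) (nat_lit 590) (nat_lit 2606) (.d (nat_lit 625) (nat_lit 496) (nat_lit 7664) (nat_lit 657) (nat_lit 6673)))))))) (.a (.p (nat_lit 530) (.a (.f (nat_lit 559) (nat_lit 558) (nat_lit 1550) (.d (nat_lit 495) (nat_lit 494) (nat_lit 3566) (nat_lit 624) (nat_lit 4591))) (.a (.f (nat_lit 494) (nat_lit 495) (nat_lit 3566) (.f (nat_lit 526) (nat_lit 493) (nat_lit 3565) (.d (nat_lit 562) (nat_lit 561) (nat_lit 526) (nat_lit 563) (nat_lit 527)))) (.f (nat_lit 559) (nat_lit 558) (nat_lit 1550) (.f (nat_lit 623) (nat_lit 496) (nat_lit 6639) (.f (nat_lit 624) (nat_lit 656) (nat_lit 4623) (.f (nat_lit 622) (nat_lit 654) (nat_lit 5646) (.d (nat_lit 593) (nat_lit 594) (nat_lit 1614) (nat_lit 621) (nat_lit 2637))))))))) (.p (nat_lit 530) (.a (.f (nat_lit 559) (nat_lit 558) (nat_lit 1550) (.d (nat_lit 495) (nat_lit 494) (nat_lit 3566) (nat_lit 624) (nat_lit 4591))) (.a (.f (nat_lit 494) (nat_lit 495) (nat_lit 3566) (.f (nat_lit 526) (nat_lit 493) (nat_lit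 3565) (.d (nat_lit 562) (nat_lit 561) (nat_lit 526) (nat_lit 563) (nat_lit 527)))) (.f (nat_lit 558) (nat_lit 559) (nat_lit 1550) (.f (nat_lit 526) (nat_lit 557) (nat_lit 1549) (.d (nat_lit 562) (nat_lit 561) (nat_lit 526) (nat_lit 563) (nat_lit 527))))))))))))))))) (.a (.p (nat_lit 527) (.a s17525 (.a (.p (nat_lit 559) (.a (.f (nat_lit 495) (nat_lit 624) (nat_lit 4591) (.d (nat_lit 494) (nat_lit 462) (nat_lit 7630) (nat_lit 530) (nat_lit 3566))) (.a (.f (nat_lit 495) (nat_lit 624) (nat_lit 4591) (.f (nat_lit 590) (nat_lit 622) (nat_lit 5614) (.f (nat_lit 558) (nat_lit 463) (nat_lit 5582) (.d (nat_lit 557) (nat_lit 556) (nat_lit 556) (nat_lit 593) (nat_lit 3629))))) (.f (nat_lit 558) (nat_lit 530) (nat_lit 1550) (.f (nat_lit 557) (nat_lit 556) (nat_lit 2572) (.d (nat_lit 593) (nat_lit 590) (nat_lit 3629) (nat_lit 594) (nat_lit 3630))))))) (.a s17578 (.a (.p (nat_lit 530) (.a (.f (nat_lit 498) (nat_lit 499) (nat_lit 2543) (.f (nat_lit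 562) (nat_lit 563) (nat_lit 527) (.f (nat_lit 497) (nat_lit 526) (nat_lit 2542) (.d (nat_lit 465) (nat_lit 433) (nat_lit 4529) (nat_lit 594) (nat_lit 7633))))) (.a (.f (nat_lit 562) (nat_lit 563) (nat_lit 527) (.f (nat_lit 498) (nat_lit 499) (nat_lit 2543) (.f (nat_lit 561) (nat_lit 526) (nat_lit 526) (.d (nat_lit 466) (nat_lit 434) (nat_lit 5553) (nat_lit 593) (nat_lit 5585))))) (.a (.f (nat_lit 495) (nat_lit 494) (nat_lit 3566) (.f (nat_lit 559) (nat_lit 624) (nat_lit 4591) (.f (nat_lit 562) (nat_lit 563) (nat_lit 527) (.f (nat_lit 498) (nat_lit 499) (nat_lit 2543) (.f (nat_lit 590) (nat_lit 622) (nat_lit 5614) (.f (nat_lit 593) (nat_lit 561) (nat_lit 2606) (.d (nat_lit 625) (nat_lit 594) (nat_lit 5617) (nat_lit 626) (nat_lit 590)))))))) (.a (.f (nat_lit 498) (nat_lit 499) (nat_lit 2543) (.f (nat_lit 494) (nat_lit 495) (nat_lit 3566) (.d (nat_lit 526) (nat_lit 493) (nat_lit 3565) (nat_lit 497) (nat_lit 2542)))) (.f (nat_lit 562) (nat_lit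 563) (nat_lit 527) (.f (nat_lit 561) (nat_lit 526) (nat_lit 526) (.f (nat_lit 593) (nat_lit 590) (nat_lit 2606) (.f (nat_lit 624) (nat_lit 497) (nat_lit 5616) (.d (nat_lit 495) (nat_lit 494) (nat_lit 3566) (nat_lit 559) (nat_lit 4591))))))))))) (.p (nat_lit 530) (.a (.f (nat_lit 498) (nat_lit 499) (nat_lit 2543) (.f (nat_lit 562) (nat_lit 563) (nat_lit 527) (.f (nat_lit 497) (nat_lit 526) (nat_lit 2542) (.d (nat_lit 465) (nat_lit 433) (nat_lit 4529) (nat_lit 594) (nat_lit 7633))))) (.a (.f (nat_lit 558) (nat_lit 559) (nat_lit 1550) (.f (nat_lit 526) (nat_lit 557) (nat_lit 1549) (.d (nat_lit 562) (nat_lit 561) (nat_lit 526) (nat_lit 563) (nat_lit 527)))) (.a (.f (nat_lit 559) (nat_lit 558) (nat_lit 1550) (.f (nat_lit 495) (nat_lit 624) (nat_lit 4591) (.f (nat_lit 562) (nat_lit 563) (nat_lit 527) (.f (nat_lit 498) (nat_lit 499) (nat_lit 2543) (.f (nat_lit 590) (nat_lit 622) (nat_lit 5614) (.f (nat_lit 593) (nat_lit 561) (nat_lit 2606)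 (.d (nat_lit 625) (nat_lit 594) (nat_lit 5617) (nat_lit 626) (nat_lit 590)))))))) (.f (nat_lit 559) (nat_lit 558) (nat_lit 1550) (.f (nat_lit 498) (nat_lit 499) (nat_lit 2543) (.f (nat_lit 495) (nat_lit 624) (nat_lit 4591) (.f (nat_lit 496) (nat_lit 464) (nat_lit 6607) (.f (nat_lit 497) (nat_lit 526) (nat_lit 2542) (.f (nat_lit 466) (nat_lit 467) (nat_lit 2511) (.d (nat_lit 434) (nat_lit 402) (nat_lit 5521) (nat_lit 561) (nat_lit 5553))))))))))))))))) (.a (.p (nat_lit 527) (.a s17599 (.a (.p (nat_lit 530) (.a (.f (nat_lit 498) (nat_lit 499) (nat_lit 2543) (.f (nat_lit 562) (nat_lit 563) (nat_lit 527) (.f (nat_lit 497) (nat_lit 526) (nat_lit 2542) (.d (nat_lit 465) (nat_lit 433) (nat_lit 4529) (nat_lit 594) (nat_lit 7633))))) (.f (nat_lit 559) (nat_lit 558) (nat_lit 1550) (.d (nat_lit 495) (nat_lit 494) (nat_lit 3566) (nat_lit 624) (nat_lit 4591))))) (.a s17507 (.a s17578 (.p (nat_lit 559) (.a (.f (nat_lit 496) (nat_lit 623) (nat_lit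 6639) (.f (nat_lit 495) (nat_lit 464) (nat_lit 6607) (.d (nat_lit 494) (nat_lit 462) (nat_lit 7630) (nat_lit 493) (nat_lit 493)))) (.a (.f (nat_lit 495) (nat_lit 624) (nat_lit 4591) (.d (nat_lit 494) (nat_lit 462) (nat_lit 7630) (nat_lit 530) (nat_lit 3566))) (.f (nat_lit 623) (nat_lit 496) (nat_lit 6639) (.f (nat_lit 558) (nat_lit 530) (nat_lit 1550) (.f (nat_lit 624) (nat_lit 656) (nat_lit 4623) (.f (nat_lit 593) (nat_lit 594) (nat_lit 3630) (.d (nat_lit 622) (nat_lit 621) (nat_lit 2637) (nat_lit 654) (nat_lit 5646)))))))))))))) (.p (nat_lit 527) (.a s17599 (.a (.p (nat_lit 530) (.a (.f (nat_lit 498) (nat_lit 499) (nat_lit 2543) (.f (nat_lit 562) (nat_lit 563) (nat_lit 527) (.f (nat_lit 497) (nat_lit 526) (nat_lit 2542) (.d (nat_lit 465) (nat_lit 433) (nat_lit 4529) (nat_lit 594) (nat_lit 7633))))) (.f (nat_lit 559) (nat_lit 558) (nat_lit 1550) (.d (nat_lit 495) (nat_lit 494) (nat_lit 3566) (nat_lit 624) (nat_lit 4591))))) (.a (.p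 (nat_lit 530) (.a (.f (nat_lit 562) (nat_lit 563) (nat_lit 527) (.f (nat_lit 498) (nat_lit 499) (nat_lit 2543) (.f (nat_lit 561) (nat_lit 526) (nat_lit 526) (.d (nat_lit 466) (nat_lit 434) (nat_lit 5553) (nat_lit 593) (nat_lit 5585))))) (.f (nat_lit 495) (nat_lit 494) (nat_lit 3566) (.f (nat_lit 559) (nat_lit 624) (nat_lit 4591) (.d (nat_lit 496) (nat_lit 464) (nat_lit 6607) (nat_lit 623) (nat_lit 6639)))))) (.a s17578 (.a (.p (nat_lit 559) (.a (.f (nat_lit 496) (nat_lit 623) (nat_lit 6639) (.f (nat_lit 495) (nat_lit 464) (nat_lit 6607) (.d (nat_lit 494) (nat_lit 462) (nat_lit 7630) (nat_lit 493) (nat_lit 493)))) (.a (.f (nat_lit 495) (nat_lit 624) (nat_lit 4591) (.d (nat_lit 494) (nat_lit 462) (nat_lit 7630) (nat_lit 530) (nat_lit 3566))) (.f (nat_lit 558) (nat_lit 530) (nat_lit 1550) (.f (nat_lit 557) (nat_lit 556) (nat_lit 2572) (.d (nat_lit 593) (nat_lit 590) (nat_lit 3629) (nat_lit 594) (nat_lit 3630))))))) (.a s17525 (.p (nat_lit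 530) (.a (.f (nat_lit 498) (nat_lit 499) (nat_lit 2543) (.f (nat_lit 562) (nat_lit 563) (nat_lit 527) (.f (nat_lit 497) (nat_lit 526) (nat_lit 2542) (.d (nat_lit 465) (nat_lit 433) (nat_lit 4529) (nat_lit 594) (nat_lit 7633))))) (.a (.f (nat_lit 558) (nat_lit 559) (nat_lit 1550) (.f (nat_lit 526) (nat_lit 557) (nat_lit 1549) (.d (nat_lit 562) (nat_lit 561) (nat_lit 526) (nat_lit 563) (nat_lit 527)))) (.f (nat_lit 559) (nat_lit 558) (nat_lit 1550) (.f (nat_lit 624) (nat_lit 495) (nat_lit 4591) (.d (nat_lit 656) (nat_lit 623) (nat_lit 4623) (nat_lit 688) (nat_lit 7727)))))))))))))))))))))))))))) (.a (.p (nat_lit 527) (.a (.p (nat_lit 526) (.a (.f (nat_lit 561) (nat_lit 562) (nat_lit 526) (.f (nat_lit 560) (nat_lit 525) (nat_lit 525) (.d (nat_lit 497) (nat_lit 465) (nat_lit 5584) (nat_lit 498) (nat_lit 2542)))) (.a (.f (nat_lit 493) (nat_lit 494) (nat_lit 3565) (.f (nat_lit 525) (nat_lit 492) (nat_lit 3564) (.d (nat_lit 557) (nat_lit 556)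 (nat_lit 1548) (nat_lit 558) (nat_lit 1549)))) (.f (nat_lit 497) (nat_lit 498) (nat_lit 2542) (.f (nat_lit 560) (nat_lit 624) (nat_lit 6640) (.d (nat_lit 465) (nat_lit 433) (nat_lit 5552) (nat_lit 561) (nat_lit 5584))))))) (.a s16101 (.a s17610 (.a s17647 (.a (.p (nat_lit 530) (.a (.f (nat_lit 495) (nat_lit 494) (nat_lit 3566) (.f (nat_lit 560) (nat_lit 624) (nat_lit 7663) (.d (nat_lit 463) (nat_lit 431) (nat_lit 4527) (nat_lit 559) (nat_lit 4559)))) (.a (.f (nat_lit 498) (nat_lit 499) (nat_lit 2543) (.f (nat_lit 562) (nat_lit 563) (nat_lit 527) (.f (nat_lit 495) (nat_lit 494) (nat_lit 3566) (.f (nat_lit 559) (nat_lit 558) (nat_lit 1550) (.f (nat_lit 591) (nat_lit 624) (nat_lit 4591) (.f (nat_lit 590) (nat_lit 622) (nat_lit 5614) (.f (nat_lit 593) (nat_lit 561) (nat_lit 2606) (.d (nat_lit 625) (nat_lit 594) (nat_lit 5617) (nat_lit 626) (nat_lit 590))))))))) (.a s14773 (.a (.p (nat_lit 497) (.a (.f (nat_lit 498) (nat_lit 499) (nat_lit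 2543) (.f (nat_lit 562) (nat_lit 563) (nat_lit 527) (.d (nat_lit 465) (nat_lit 433) (nat_lit 4529) (nat_lit 594) (nat_lit 7633)))) (.a (.f (nat_lit 560) (nat_lit 624) (nat_lit 6640) (.d (nat_lit 465) (nat_lit 433) (nat_lit 5552) (nat_lit 561) (nat_lit 5584))) (.f (nat_lit 498) (nat_lit 499) (nat_lit 2543) (.f (nat_lit 562) (nat_lit 563) (nat_lit 527) (.f (nat_lit 594) (nat_lit 626) (nat_lit 7665) (.f (nat_lit 593) (nat_lit 625) (nat_lit 5617) (.d (nat_lit 561) (nat_lit 466) (nat_lit 5585) (nat_lit 624) (nat_lit 5616))))))))) s14796))))) (.a s17649 (.a (.p (nat_lit 530) (.a (.f (nat_lit 498) (nat_lit 499) (nat_lit 2543) (.f (nat_lit 562) (nat_lit 563) (nat_lit 527) (.d (nat_lit 526) (nat_lit 497) (nat_lit 2542) (nat_lit 561) (nat_lit 526)))) (.a (.f (nat_lit 562) (nat_lit 563) (nat_lit 527) (.f (nat_lit 498) (nat_lit 499) (nat_lit 2543) (.f (nat_lit 561) (nat_lit 526) (nat_lit 526) (.d (nat_lit 466) (nat_lit 434) (nat_lit 5553) (nat_lit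 593) (nat_lit 5585))))) (.a (.f (nat_lit 498) (nat_lit 499) (nat_lit 2543) (.f (nat_lit 562) (nat_lit 563) (nat_lit 527) (.f (nat_lit 497) (nat_lit 526) (nat_lit 2542) (.d (nat_lit 465) (nat_lit 433) (nat_lit 4529) (nat_lit 594) (nat_lit 7633))))) (.f (nat_lit 495) (nat_lit 494) (nat_lit 3566) (.f (nat_lit 560) (nat_lit 624) (nat_lit 7663) (.d (nat_lit 463) (nat_lit 431) (nat_lit 4527) (nat_lit 559) (nat_lit 4559)))))))) s17657)))))))) (.a s16598 (.a s16663 (.a s16680 (.a s16683 (.a s16696 (.a s16712 (.a s16718 (.a s16727 (.a (.p (nat_lit 561) (.a (.p (nat_lit 593) (.a (.f (nat_lit 625) (nat_lit 496) (nat_lit 7664) (.f (nat_lit 626) (nat_lit 658) (nat_lit 4625) (.f (nat_lit 594) (nat_lit 497) (nat_lit 4593) (.d (nat_lit 591) (nat_lit 590) (nat_lit 590) (nat_lit 627) (nat_lit 591))))) (.a s15078 (.a (.f (nat_lit 625) (nat_lit 496) (nat_lit 7664) (.f (nat_lit 626) (nat_lit 658) (nat_lit 4625) (.f (nat_lit 591) (nat_lit 590) (nat_lit 590)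 (.d (nat_lit 627) (nat_lit 594) (nat_lit 591) (nat_lit 628) (nat_lit 3664))))) (.a (.f (nat_lit 625) (nat_lit 496) (nat_lit 7664) (.f (nat_lit 560) (nat_lit 657) (nat_lit 7696) (.f (nat_lit 626) (nat_lit 658) (nat_lit 4625) (.d (nat_lit 497) (nat_lit 465) (nat_lit 5584) (nat_lit 594) (nat_lit 4593))))) (.a (.p (nat_lit 560) (.a (.f (nat_lit 497) (nat_lit 465) (nat_lit 5584) (.f (nat_lit 594) (nat_lit 626) (nat_lit 4593) (.d (nat_lit 559) (nat_lit 558) (nat_lit 558) (nat_lit 595) (nat_lit 3631)))) (.f (nat_lit 496) (nat_lit 464) (nat_lit 4560) (.f (nat_lit 591) (nat_lit 623) (nat_lit 5615) (.d (nat_lit 562) (nat_lit 563) (nat_lit 1583) (nat_lit 590) (nat_lit 2606)))))) (.a (.f (nat_lit 625) (nat_lit 496) (nat_lit 7664) (.f (nat_lit 657) (nat_lit 560) (nat_lit 7696) (.d (nat_lit 658) (nat_lit 626) (nat_lit 4625) (nat_lit 690) (nat_lit 4657)))) (.f (nat_lit 496) (nat_lit 625) (nat_lit 7664) (.d (nat_lit 464) (nat_lit 497) (nat_lit 7632)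 (nat_lit 560) (nat_lit 4560)))))))))) (.a (.p (nat_lit 593) (.a (.f (nat_lit 625) (nat_lit 496) (nat_lit 7664) (.f (nat_lit 626) (nat_lit 658) (nat_lit 4625) (.f (nat_lit 594) (nat_lit 497) (nat_lit 4593) (.d (nat_lit 591) (nat_lit 590) (nat_lit 590) (nat_lit 627) (nat_lit 591))))) (.a s14961 (.a (.f (nat_lit 625) (nat_lit 496) (nat_lit 7664) (.f (nat_lit 626) (nat_lit 658) (nat_lit 4625) (.f (nat_lit 591) (nat_lit 590) (nat_lit 590) (.d (nat_lit 627) (nat_lit 594) (nat_lit 591) (nat_lit 628) (nat_lit 3664))))) (.a (.f (nat_lit 625) (nat_lit 496) (nat_lit 7664) (.f (nat_lit 530) (nat_lit 498) (nat_lit 6641) (.f (nat_lit 657) (nat_lit 562) (nat_lit 6673) (.d (nat_lit 658) (nat_lit 626) (nat_lit 4625) (nat_lit 690) (nat_lit 4657))))) (.a (.p (nat_lit 497) (.a (.f (nat_lit 594) (nat_lit 626) (nat_lit 4593) (.f (nat_lit 562) (nat_lit 465) (nat_lit 4561) (.d (nat_lit 563) (nat_lit 564) (nat_lit 1584) (nat_lit 591) (nat_lit 2607)))) (.f (nat_lit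 498) (nat_lit 466) (nat_lit 6609) (.f (nat_lit 496) (nat_lit 464) (nat_lit 7632) (.d (nat_lit 499) (nat_lit 500) (nat_lit 1520) (nat_lit 527) (nat_lit 1519)))))) (.f (nat_lit 625) (nat_lit 496) (nat_lit 7664) (.f (nat_lit 530) (nat_lit 498) (nat_lit 6641) (.f (nat_lit 562) (nat_lit 657) (nat_lit 6673) (.f (nat_lit 563) (nat_lit 564) (nat_lit 3600) (.d (nat_lit 591) (nat_lit 590) (nat_lit 2606) (nat_lit 594) (nat_lit 2607)))))))))))) (.a (.p (nat_lit 527) (.a (.f (nat_lit 526) (nat_lit 562) (nat_lit 526) (.f (nat_lit 560) (nat_lit 525) (nat_lit 525) (.d (nat_lit 497) (nat_lit 465) (nat_lit 5584) (nat_lit 498) (nat_lit 2542)))) (.a (.f (nat_lit 526) (nat_lit 562) (nat_lit 526) (.f (nat_lit 557) (nat_lit 558) (nat_lit 1549) (.f (nat_lit 525) (nat_lit 556) (nat_lit 1548) (.d (nat_lit 493) (nat_lit 492) (nat_lit 3564) (nat_lit 494) (nat_lit 3565))))) (.a (.p (nat_lit 530) (.a (.f (nat_lit 562) (nat_lit 563) (nat_lit 527) (.f (nat_lit 498)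 (nat_lit 499) (nat_lit 2543) (.d (nat_lit 466) (nat_lit 434) (nat_lit 5553) (nat_lit 593) (nat_lit 5585)))) (.a (.f (nat_lit 562) (nat_lit 563) (nat_lit 527) (.f (nat_lit 498) (nat_lit 499) (nat_lit 2543) (.f (nat_lit 466) (nat_lit 434) (nat_lit 5553) (.f (nat_lit 465) (nat_lit 433) (nat_lit 7601) (.d (nat_lit 497) (nat_lit 560) (nat_lit 5584) (nat_lit 594) (nat_lit 4561)))))) (.a (.f (nat_lit 498) (nat_lit 499) (nat_lit 2543) (.f (nat_lit 593) (nat_lit 625) (nat_lit 6641) (.d (nat_lit 466) (nat_lit 434) (nat_lit 5553) (nat_lit 497) (nat_lit 6609)))) (.f (nat_lit 562) (nat_lit 563) (nat_lit 527) (.f (nat_lit 559) (nat_lit 558) (nat_lit 1550) (.f (nat_lit 495) (nat_lit 494) (nat_lit 3566) (.f (nat_lit 560) (nat_lit 463) (nat_lit 4559) (.f (nat_lit 594) (nat_lit 595) (nat_lit 559) (.d (nat_lit 497) (nat_lit 465) (nat_lit 5584) (nat_lit 626) (nat_lit 7665))))))))))) (.p (nat_lit 530) (.a (.f (nat_lit 498) (nat_lit 499) (nat_lit 2543) (.f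 (nat_lit 593) (nat_lit 625) (nat_lit 6641) (.d (nat_lit 466) (nat_lit 434) (nat_lit 5553) (nat_lit 497) (nat_lit 6609)))) (.f (nat_lit 494) (nat_lit 495) (nat_lit 3566) (.f (nat_lit 526) (nat_lit 493) (nat_lit 3565) (.d (nat_lit 558) (nat_lit 557) (nat_lit 1549) (nat_lit 559) (nat_lit 1550)))))))))) (.a (.p (nat_lit 527) (.a (.f (nat_lit 526) (nat_lit 562) (nat_lit 526) (.f (nat_lit 557) (nat_lit 558) (nat_lit 1549) (.f (nat_lit 525) (nat_lit 556) (nat_lit 1548) (.d (nat_lit 493) (nat_lit 492) (nat_lit 3564) (nat_lit 494) (nat_lit 3565))))) (.a (.p (nat_lit 530) (.a (.f (nat_lit 562) (nat_lit 563) (nat_lit 527) (.f (nat_lit 498) (nat_lit 499) (nat_lit 2543) (.d (nat_lit 466) (nat_lit 434) (nat_lit 5553) (nat_lit 593) (nat_lit 5585)))) (.a (.f (nat_lit 562) (nat_lit 563) (nat_lit 527) (.f (nat_lit 559) (nat_lit 558) (nat_lit 1550) (.f (nat_lit 495) (nat_lit 494) (nat_lit 3566) (.f (nat_lit 560) (nat_lit 463) (nat_lit 4559) (.f (nat_lit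 591) (nat_lit 590) (nat_lit 1582) (.d (nat_lit 496) (nat_lit 464) (nat_lit 6607) (nat_lit 623) (nat_lit 5615))))))) (.f (nat_lit 498) (nat_lit 499) (nat_lit 2543) (.f (nat_lit 559) (nat_lit 558) (nat_lit 1550) (.f (nat_lit 495) (nat_lit 494) (nat_lit 3566) (.f (nat_lit 560) (nat_lit 463) (nat_lit 4559) (.f (nat_lit 593) (nat_lit 625) (nat_lit 6641) (.f (nat_lit 496) (nat_lit 464) (nat_lit 4560) (.f (nat_lit 591) (nat_lit 623) (nat_lit 5615) (.d (nat_lit 590) (nat_lit 589) (nat_lit 2605) (nat_lit 622) (nat_lit 5614)))))))))))) (.a (.p (nat_lit 526) (.a (.f (nat_lit 560) (nat_lit 525) (nat_lit 525) (.f (nat_lit 558) (nat_lit 557) (nat_lit 1549) (.f (nat_lit 559) (nat_lit 530) (nat_lit 1550) (.f (nat_lit 495) (nat_lit 463) (nat_lit 4559) (.d (nat_lit 590) (nat_lit 589) (nat_lit 1581) (nat_lit 622) (nat_lit 6638)))))) (.a (.f (nat_lit 494) (nat_lit 493) (nat_lit 3565) (.f (nat_lit 558) (nat_lit 557) (nat_lit 1549) (.d (nat_lit 530) (nat_lit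 495) (nat_lit 3566) (nat_lit 559) (nat_lit 1550)))) (.f (nat_lit 525) (nat_lit 560) (nat_lit 525) (.d (nat_lit 493) (nat_lit 492) (nat_lit 3564) (nat_lit 494) (nat_lit 3565)))))) (.f (nat_lit 562) (nat_lit 526) (nat_lit 526) (.d (nat_lit 563) (nat_lit 530) (nat_lit 527) (nat_lit 560) (nat_lit 3599))))))) (.a (.p (nat_lit 527) (.a (.f (nat_lit 526) (nat_lit 562) (nat_lit 526) (.f (nat_lit 560) (nat_lit 525) (nat_lit 525) (.d (nat_lit 497) (nat_lit 465) (nat_lit 5584) (nat_lit 498) (nat_lit 2542)))) (.a (.f (nat_lit 526) (nat_lit 562) (nat_lit 526) (.f (nat_lit 557) (nat_lit 558) (nat_lit 1549) (.f (nat_lit 525) (nat_lit 556) (nat_lit 1548) (.d (nat_lit 493) (nat_lit 492) (nat_lit 3564) (nat_lit 494) (nat_lit 3565))))) (.a (.p (nat_lit 530) (.a (.f (nat_lit 562) (nat_lit 563) (nat_lit 527) (.f (nat_lit 498) (nat_lit 499) (nat_lit 2543) (.f (nat_lit 466) (nat_lit 434) (nat_lit 5553) (.f (nat_lit 465) (nat_lit 433) (nat_lit 7601) (.d (nat_lit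 497) (nat_lit 560) (nat_lit 5584) (nat_lit 594) (nat_lit 4561)))))) (.a (.f (nat_lit 562) (nat_lit 563) (nat_lit 527) (.f (nat_lit 498) (nat_lit 499) (nat_lit 2543) (.f (nat_lit 466) (nat_lit 434) (nat_lit 5553) (.f (nat_lit 465) (nat_lit 433) (nat_lit 7601) (.f (nat_lit 594) (nat_lit 497) (nat_lit 4561) (.f (nat_lit 626) (nat_lit 658) (nat_lit 7697) (.d (nat_lit 627) (nat_lit 595) (nat_lit 4594) (nat_lit 659) (nat_lit 4626)))))))) (.a (.f (nat_lit 562) (nat_lit 563) (nat_lit 527) (.f (nat_lit 559) (nat_lit 558) (nat_lit 1550) (.f (nat_lit 495) (nat_lit 494) (nat_lit 3566) (.f (nat_lit 560) (nat_lit 463) (nat_lit 4559) (.f (nat_lit 591) (nat_lit 590) (nat_lit 1582) (.d (nat_lit 496) (nat_lit 464) (nat_lit 6607) (nat_lit 623) (nat_lit 5615))))))) (.f (nat_lit 559) (nat_lit 558) (nat_lit 1550) (.f (nat_lit 495) (nat_lit 494) (nat_lit 3566) (.f (nat_lit 560) (nat_lit 463) (nat_lit 4559) (.f (nat_lit 497) (nat_lit 465) (nat_lit 5584) (.f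 (nat_lit 498) (nat_lit 499) (nat_lit 2543) (.f (nat_lit 466) (nat_lit 434) (nat_lit 5553) (.f (nat_lit 496) (nat_lit 467) (nat_lit 2511) (.d (nat_lit 591) (nat_lit 464) (nat_lit 6607) (nat_lit 623) (nat_lit 5615))))))))))))) (.p (nat_lit 526) (.a (.f (nat_lit 560) (nat_lit 525) (nat_lit 525) (.f (nat_lit 558) (nat_lit 557) (nat_lit 1549) (.f (nat_lit 559) (nat_lit 530) (nat_lit 1550) (.f (nat_lit 495) (nat_lit 463) (nat_lit 4559) (.d (nat_lit 590) (nat_lit 589) (nat_lit 1581) (nat_lit 622) (nat_lit 6638)))))) (.a (.f (nat_lit 494) (nat_lit 493) (nat_lit 3565) (.f (nat_lit 558) (nat_lit 557) (nat_lit 1549) (.d (nat_lit 530) (nat_lit 495) (nat_lit 3566) (nat_lit 559) (nat_lit 1550)))) (.f (nat_lit 525) (nat_lit 560) (nat_lit 525) (.d (nat_lit 493) (nat_lit 492) (nat_lit 3564) (nat_lit 494) (nat_lit 3565)))))))))) (.p (nat_lit 527) (.a (.p (nat_lit 530) (.a (.f (nat_lit 498) (nat_lit 499) (nat_lit 2543) (.f (nat_lit 593) (nat_lit 625) (nat_lit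 6641) (.d (nat_lit 466) (nat_lit 434) (nat_lit 5553) (nat_lit 497) (nat_lit 6609)))) (.f (nat_lit 494) (nat_lit 495) (nat_lit 3566) (.f (nat_lit 526) (nat_lit 493) (nat_lit 3565) (.d (nat_lit 558) (nat_lit 557) (nat_lit 1549) (nat_lit 559) (nat_lit 1550)))))) (.a (.p (nat_lit 526) (.a (.f (nat_lit 560) (nat_lit 525) (nat_lit 525) (.f (nat_lit 558) (nat_lit 557) (nat_lit 1549) (.f (nat_lit 559) (nat_lit 530) (nat_lit 1550) (.f (nat_lit 495) (nat_lit 463) (nat_lit 4559) (.d (nat_lit 590) (nat_lit 589) (nat_lit 1581) (nat_lit 622) (nat_lit 6638)))))) (.a (.f (nat_lit 494) (nat_lit 493) (nat_lit 3565) (.f (nat_lit 558) (nat_lit 557) (nat_lit 1549) (.d (nat_lit 530) (nat_lit 495) (nat_lit 3566) (nat_lit 559) (nat_lit 1550)))) (.f (nat_lit 525) (nat_lit 560) (nat_lit 525) (.d (nat_lit 493) (nat_lit 492) (nat_lit 3564) (nat_lit 494) (nat_lit 3565)))))) (.a (.p (nat_lit 526) (.a (.f (nat_lit 525) (nat_lit 560) (nat_lit 525) (.d (nat_lit 493)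 (nat_lit 492) (nat_lit 3564) (nat_lit 494) (nat_lit 3565))) (.a (.f (nat_lit 497) (nat_lit 498) (nat_lit 2542) (.f (nat_lit 496) (nat_lit 525) (nat_lit 2541) (.d (nat_lit 593) (nat_lit 464) (nat_lit 7632) (nat_lit 625) (nat_lit 7664)))) (.f (nat_lit 497) (nat_lit 498) (nat_lit 2542) (.f (nat_lit 465) (nat_lit 560) (nat_lit 5584) (.f (nat_lit 494) (nat_lit 493) (nat_lit 3565) (.f (nat_lit 558) (nat_lit 557) (nat_lit 1549) (.f (nat_lit 466) (nat_lit 434) (nat_lit 6577) (.f (nat_lit 495) (nat_lit 496) (nat_lit 2510) (.d (nat_lit 463) (nat_lit 431) (nat_lit 5550) (nat_lit 464) (nat_lit 1486))))))))))) (.a (.p (nat_lit 530) (.a (.f (nat_lit 498) (nat_lit 499) (nat_lit 2543) (.f (nat_lit 593) (nat_lit 625) (nat_lit 6641) (.d (nat_lit 466) (nat_lit 434) (nat_lit 5553) (nat_lit 497) (nat_lit 6609)))) (.a (.f (nat_lit 498) (nat_lit 499) (nat_lit 2543) (.f (nat_lit 559) (nat_lit 558) (nat_lit 1550) (.f (nat_lit 495) (nat_lit 494) (nat_lit 3566)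 (.f (nat_lit 560) (nat_lit 463) (nat_lit 4559) (.f (nat_lit 593) (nat_lit 625) (nat_lit 6641) (.f (nat_lit 496) (nat_lit 464) (nat_lit 4560) (.f (nat_lit 591) (nat_lit 623) (nat_lit 5615) (.d (nat_lit 590) (nat_lit 589) (nat_lit 2605) (nat_lit 622) (nat_lit 5614))))))))) (.a (.f (nat_lit 559) (nat_lit 558) (nat_lit 1550) (.f (nat_lit 495) (nat_lit 494) (nat_lit 3566) (.f (nat_lit 560) (nat_lit 463) (nat_lit 4559) (.f (nat_lit 497) (nat_lit 465) (nat_lit 5584) (.f (nat_lit 498) (nat_lit 499) (nat_lit 2543) (.f (nat_lit 466) (nat_lit 434) (nat_lit 5553) (.f (nat_lit 496) (nat_lit 467) (nat_lit 2511) (.d (nat_lit 591) (nat_lit 464) (nat_lit 6607) (nat_lit 623) (nat_lit 5615))))))))) (.f (nat_lit 559) (nat_lit 558) (nat_lit 1550) (.f (nat_lit 495) (nat_lit 494) (nat_lit 3566) (.f (nat_lit 463) (nat_lit 560) (nat_lit 4559) (.f (nat_lit 430) (nat_lit 462) (nat_lit 7598) (.f (nat_lit 431) (nat_lit 398) (nat_lit 7566) (.f (nat_lit 496) (nat_lit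 399) (nat_lit 4495) (.d (nat_lit 591) (nat_lit 464) (nat_lit 6607) (nat_lit 623) (nat_lit 6639)))))))))))) (.a (.p (nat_lit 530) (.a (.f (nat_lit 498) (nat_lit 499) (nat_lit 2543) (.f (nat_lit 593) (nat_lit 625) (nat_lit 6641) (.d (nat_lit 466) (nat_lit 434) (nat_lit 5553) (nat_lit 497) (nat_lit 6609)))) (.f (nat_lit 558) (nat_lit 559) (nat_lit 1550) (.f (nat_lit 526) (nat_lit 557) (nat_lit 1549) (.f (nat_lit 493) (nat_lit 494) (nat_lit 3565) (.d (nat_lit 525) (nat_lit 492) (nat_lit 3564) (nat_lit 560) (nat_lit 525))))))) (.a (.p (nat_lit 526) (.a (.f (nat_lit 525) (nat_lit 560) (nat_lit 525) (.d (nat_lit 493) (nat_lit 492) (nat_lit 3564) (nat_lit 494) (nat_lit 3565))) (.a (.f (nat_lit 497) (nat_lit 498) (nat_lit 2542) (.f (nat_lit 496) (nat_lit 525) (nat_lit 2541) (.d (nat_lit 593) (nat_lit 464) (nat_lit 7632) (nat_lit 625) (nat_lit 7664)))) (.f (nat_lit 497) (nat_lit 498) (nat_lit 2542) (.f (nat_lit 560) (nat_lit 465) (nat_lit 5584)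 (.f (nat_lit 494) (nat_lit 493) (nat_lit 3565) (.f (nat_lit 495) (nat_lit 530) (nat_lit 3566) (.d (nat_lit 463) (nat_lit 431) (nat_lit 4527) (nat_lit 496) (nat_lit 7631))))))))) (.p (nat_lit 530) (.a (.f (nat_lit 498) (nat_lit 499) (nat_lit 2543) (.f (nat_lit 593) (nat_lit 625) (nat_lit 6641) (.d (nat_lit 466) (nat_lit 434) (nat_lit 5553) (nat_lit 497) (nat_lit 6609)))) (.a (.f (nat_lit 558) (nat_lit 559) (nat_lit 1550) (.f (nat_lit 526) (nat_lit 557) (nat_lit 1549) (.f (nat_lit 498) (nat_lit 499) (nat_lit 2543) (.f (nat_lit 560) (nat_lit 525) (nat_lit 525) (.f (nat_lit 593) (nat_lit 625) (nat_lit 6641) (.f (nat_lit 496) (nat_lit 464) (nat_lit 4560) (.f (nat_lit 495) (nat_lit 463) (nat_lit 7631) (.f (nat_lit 591) (nat_lit 623) (nat_lit 5615) (.d (nat_lit 590) (nat_lit 589) (nat_lit 2605) (nat_lit 622) (nat_lit 6638)))))))))) (.a (.f (nat_lit 498) (nat_lit 499) (nat_lit 2543) (.f (nat_lit 497) (nat_lit 526) (nat_lit 2542) (.f (nat_lit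 465) (nat_lit 560) (nat_lit 5584) (.f (nat_lit 434) (nat_lit 466) (nat_lit 5553) (.d (nat_lit 433) (nat_lit 401) (nat_lit 4497) (nat_lit 402) (nat_lit 6545)))))) (.f (nat_lit 558) (nat_lit 559) (nat_lit 1550) (.f (nat_lit 526) (nat_lit 557) (nat_lit 1549) (.f (nat_lit 525) (nat_lit 560) (nat_lit 525) (.f (nat_lit 496) (nat_lit 497) (nat_lit 2541) (.f (nat_lit 524) (nat_lit 495) (nat_lit 2540) (.d (nat_lit 492) (nat_lit 491) (nat_lit 3563) (nat_lit 493) (nat_lit 3564)))))))))))))))))))))))) (.a s17046 (.a s17060 s17063)))))))))))))))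
noncomputable def s17825 : Cert := .r (nat_lit 32418090381882757494968392188812581818667360956512175769794730776345798282182029814565832775960998202914203244185783788265666576712476118308503318121243319365236549998544748019712) (.p (nat_lit 531) (.a (.d (nat_lit 563) (nat_lit 562) (nat_lit 527) (nat_lit 564) (nat_lit 528)) (.a (.f (nat_lit 500) (nat_lit 499) (nat_lit 2544) (.f (nat_lit 532) (nat_lit 501) (nat_lit 2545) (.d (nat_lit 564) (nat_lit 563) (nat_lit 528) (nat_lit 565) (nat_lit 529)))) (.a (.f (nat_lit 500) (nat_lit 499) (nat_lit 2544) (.f (nat_lit 532) (nat_lit 501) (nat_lit 2545) (.f (nat_lit 565) (nat_lit 564) (nat_lit 529) (.f (nat_lit 533) (nat_lit 566) (nat_lit 530) (.f (nat_lit 561) (nat_lit 562) (nat_lit 1553) (.d (nat_lit 496) (nat_lit 497) (nat_lit 3568) (nat_lit 625) (nat_lit 7664))))))) (.f (nat_lit 562) (nat_lit 563) (nat_lit 527) (.f (nat_lit 500) (nat_lit 499) (nat_lit 2544) (.f (nat_lit 532) (nat_lit 501) (nat_lit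 2545) (.f (nat_lit 561) (nat_lit 533) (nat_lit 1553) (.d (nat_lit 496) (nat_lit 497) (nat_lit 3568) (nat_lit 625) (nat_lit 7664))))))))))
noncomputable def s17826 : Cert := .r (nat_lit 32418090381882757494968392188812581818667360956512175769794730776345798282182029814565832775960998202914203244185783788265666576712476118308503318121243319365236549998544748019712) (.p (nat_lit 498) (.a (.f (nat_lit 561) (nat_lit 625) (nat_lit 6641) (.d (nat_lit 466) (nat_lit 434) (nat_lit 5553) (nat_lit 497) (nat_lit 6609))) (.a (.f (nat_lit 561) (nat_lit 625) (nat_lit 6641) (.d (nat_lit 466) (nat_lit 434) (nat_lit 5553) (nat_lit 562) (nat_lit 5585))) (.a (.f (nat_lit 562) (nat_lit 563) (nat_lit 527) (.f (nat_lit 594) (nat_lit 625) (nat_lit 5617) (.d (nat_lit 497) (nat_lit 465) (nat_lit 7633) (nat_lit 626) (nat_lit 7665)))) (.f (nat_lit 562) (nat_lit 563) (nat_lit 527) (.f (nat_lit 466) (nat_lit 561) (nat_lit 5585) (.f (nat_lit 433) (nat_lit 465) (nat_lit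 7601) (.f (nat_lit 434) (nat_lit 401) (nat_lit 7569) (.d (nat_lit 435) (nat_lit 403) (nat_lit 6546) (nat_lit 467) (nat_lit 6578))))))))))
noncomputable def s17868 : Cert := .r (nat_lit 32418090381882757494968392188812581818667360956512175769794730776345798282182029814565832775960998202914203244185783788265666576712476118308503318121243319365236549998544748019712) (.p (nat_lit 561) (.a (.f (nat_lit 625) (nat_lit 496) (nat_lit 7664) (.f (nat_lit 624) (nat_lit 656) (nat_lit 5648) (.f (nat_lit 626) (nat_lit 658) (nat_lit 4625) (.d (nat_lit 497) (nat_lit 592) (nat_lit 5616) (nat_lit 594) (nat_lit 4593))))) (.a (.f (nat_lit 625) (nat_lit 498) (nat_lit 6641) (.d (nat_lit 657) (nat_lit 560) (nat_lit 7696) (nat_lit 562) (nat_lit 6673))) (.f (nat_lit 559) (nat_lit 558) (nat_lit 1550) (.f (nat_lit 560) (nat_lit 531) (nat_lit 1551) (.f (nat_lit 496) (nat_lit 464) (nat_lit 4560) (.f (nat_lit 591) (nat_lit 623) (nat_lit 6639) (.f (nat_lit 562) (nat_lit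 590) (nat_lit 1582) (.f (nat_lit 594) (nat_lit 595) (nat_lit 559) (.d (nat_lit 497) (nat_lit 465) (nat_lit 4561) (nat_lit 626) (nat_lit 4593)))))))))))
noncomputable def s17939 : Cert := .r (nat_lit 3075429351738513152311891557988464161336707014464200823408719629715123346162149911350906719016331640629828747503383424400630650623873056428033164674419545604096) (.p (nat_lit 530) (.a (.f (nat_lit 498) (nat_lit 499) (nat_lit 2543) (.f (nat_lit 526) (nat_lit 497) (nat_lit 2542) (.d (nat_lit 558) (nat_lit 557) (nat_lit 1549) (nat_lit 559) (nat_lit 1550)))) (.a (.f (nat_lit 559) (nat_lit 558) (nat_lit 1550) (.f (nat_lit 531) (nat_lit 560) (nat_lit 1551) (.d (nat_lit 499) (nat_lit 498) (nat_lit 2543) (nat_lit 500) (nat_lit 2544)))) (.a (.f (nat_lit 498) (nat_lit 499) (nat_lit 2543) (.f (nat_lit 526) (nat_lit 497) (nat_lit 2542) (.f (nat_lit 493) (nat_lit 494) (nat_lit 3565) (.f (nat_lit 525) (nat_lit 492) (nat_lit 3564) (.d (nat_lit 557) (nat_lit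 556) (nat_lit 1548) (nat_lit 558) (nat_lit 1549)))))) (.a (.f (nat_lit 498) (nat_lit 499) (nat_lit 2543) (.f (nat_lit 526) (nat_lit 497) (nat_lit 2542) (.f (nat_lit 493) (nat_lit 494) (nat_lit 3565) (.f (nat_lit 525) (nat_lit 492) (nat_lit 3564) (.f (nat_lit 556) (nat_lit 557) (nat_lit 1548) (.f (nat_lit 524) (nat_lit 555) (nat_lit 1547) (.d (nat_lit 560) (nat_lit 559) (nat_lit 524) (nat_lit 561) (nat_lit 525)))))))) (.a (.f (nat_lit 559) (nat_lit 558) (nat_lit 1550) (.f (nat_lit 531) (nat_lit 560) (nat_lit 1551) (.f (nat_lit 500) (nat_lit 499) (nat_lit 2544) (.f (nat_lit 532) (nat_lit 501) (nat_lit 2545) (.d (nat_lit 564) (nat_lit 563) (nat_lit 528) (nat_lit 565) (nat_lit 529)))))) (.f (nat_lit 559) (nat_lit 558) (nat_lit 1550) (.f (nat_lit 531) (nat_lit 560) (nat_lit 1551) (.f (nat_lit 564) (nat_lit 563) (nat_lit 528) (.f (nat_lit 532) (nat_lit 565) (nat_lit 529) (.f (nat_lit 497) (nat_lit 496) (nat_lit 3568) (.d (nat_lit 498) (nat_lit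 526) (nat_lit 2542) (nat_lit 533) (nat_lit 3569)))))))))))))
noncomputable def s17940 : Cert := .r (nat_lit 3075429351738513152311891557988464161336707014464200823408719629715123346162149911350906719016331640629828747503383424400630650623873056428033164674419545604096) (.p (nat_lit 530) (.a (.f (nat_lit 498) (nat_lit 499) (nat_lit 2543) (.f (nat_lit 562) (nat_lit 563) (nat_lit 527) (.d (nat_lit 526) (nat_lit 497) (nat_lit 2542) (nat_lit 561) (nat_lit 526)))) (.a (.f (nat_lit 499) (nat_lit 498) (nat_lit 2543) (.f (nat_lit 531) (nat_lit 500) (nat_lit 2544) (.d (nat_lit 563) (nat_lit 562) (nat_lit 527) (nat_lit 564) (nat_lit 528)))) (.a (.f (nat_lit 498) (nat_lit 499) (nat_lit 2543) (.f (nat_lit 526) (nat_lit 497) (nat_lit 2542) (.f (nat_lit 493) (nat_lit 494) (nat_lit 3565) (.f (nat_lit 525) (nat_lit 492) (nat_lit 3564) (.f (nat_lit 556) (nat_lit 557) (nat_lit 1548) (.f (nat_lit 524) (nat_lit 555) (nat_lit 1547) (.d (nat_lit 560) (nat_lit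 559) (nat_lit 524) (nat_lit 561) (nat_lit 525)))))))) (.a (.f (nat_lit 563) (nat_lit 562) (nat_lit 527) (.f (nat_lit 531) (nat_lit 564) (nat_lit 528) (.f (nat_lit 500) (nat_lit 499) (nat_lit 2544) (.f (nat_lit 532) (nat_lit 501) (nat_lit 2545) (.d (nat_lit 560) (nat_lit 559) (nat_lit 1551) (nat_lit 561) (nat_lit 1552)))))) (.f (nat_lit 562) (nat_lit 563) (nat_lit 527) (.f (nat_lit 526) (nat_lit 561) (nat_lit 526) (.f (nat_lit 497) (nat_lit 498) (nat_lit 2542) (.f (nat_lit 525) (nat_lit 496) (nat_lit 2541) (.d (nat_lit 493) (nat_lit 492) (nat_lit 3564) (nat_lit 494) (nat_lit 3565)))))))))))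
noncomputable def s17950 : Cert := .r (nat_lit 16209045190941378747264522569282111398454259652685483301944743458568313367990392076588979006111774107789179713591725348373559806391710671697063755444630727080615906093956692180992) (.p (nat_lit 526) (.a (.f (nat_lit 561) (nat_lit 562) (nat_lit 526) (.f (nat_lit 560) (nat_lit 525) (nat_lit 525) (.d (nat_lit 624) (nat_lit 495) (nat_lit 7663) (nat_lit 656) (nat_lit 6672)))) (.a (.f (nat_lit 493) (nat_lit 494) (nat_lit 3565) (.f (nat_lit 525) (nat_lit 492) (nat_lit 3564) (.d (nat_lit 557) (nat_lit 556) (nat_lit 1548) (nat_lit 558) (nat_lit 1549)))) (.p (nat_lit 495) (.a (.f (nat_lit 560) (nat_lit 624) (nat_lit 7663) (.d (nat_lit 463) (nat_lit 431) (nat_lit 4527) (nat_lit 559) (nat_lit 4559))) (.a (.f (nat_lit 494) (nat_lit 493) (nat_lit 3565) (.f (nat_lit 558) (nat_lit 557) (nat_lit 1549) (.d (nat_lit 463) (nat_lit 431) (nat_lit 5550) (nat_lit 590) (nat_lit 6606)))) (.f (nat_lit 494) (nat_lit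 493) (nat_lit 3565) (.f (nat_lit 558) (nat_lit 557) (nat_lit 1549) (.f (nat_lit 560) (nat_lit 624) (nat_lit 7663) (.f (nat_lit 561) (nat_lit 562) (nat_lit 526) (.f (nat_lit 590) (nat_lit 622) (nat_lit 6638) (.d (nat_lit 589) (nat_lit 559) (nat_lit 1581) (nat_lit 621) (nat_lit 5613)))))))))))))
noncomputable def s17951 : Cert := .r (nat_lit 16209045190941378747264522569282111398454259652685483301944743458568313367990392076588979006111774107789179713591725348373559806391710671697063755444630727080615906093956692180992) (.p (nat_lit 560) (.a (.d (nat_lit 624) (nat_lit 495) (nat_lit 7663) (nat_lit 497) (nat_lit 6640)) (.a (.f (nat_lit 495) (nat_lit 624) (nat_lit 7663) (.d (nat_lit 463) (nat_lit 431) (nat_lit 4527) (nat_lit 496) (nat_lit 7631))) (.a (.f (nat_lit 497) (nat_lit 624) (nat_lit 6640) (.d (nat_lit 465) (nat_lit 433) (nat_lit 5552) (nat_lit 496) (nat_lit 6608))) s17092))))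
noncomputable def s17977 : Cert := .r (nat_lit 48627135572824136235642709004369307890738995842079521583160816346776538457153736970336690326011022500665725702742512763861021924168365166289929965086146068385781388933030985334784) (.p (nat_lit 560) (.a (.f (nat_lit 624) (nat_lit 497) (nat_lit 6640) (.d (nat_lit 625) (nat_lit 496) (nat_lit 4592) (nat_lit 657) (nat_lit 4624))) (.a (.f (nat_lit 624) (nat_lit 495) (nat_lit 7663) (.f (nat_lit 625) (nat_lit 657) (nat_lit 4624) (.f (nat_lit 623) (nat_lit 655) (nat_lit 5647) (.d (nat_lit 594) (nat_lit 595) (nat_lit 1615) (nat_lit 622) (nat_lit 2638))))) (.a (.f (nat_lit 496) (nat_lit 625) (nat_lit 4592) (.f (nat_lit 463) (nat_lit 495) (nat_lit 7631) (.f (nat_lit 465) (nat_lit 497) (nat_lit 6608) (.d (nat_lit 464) (nat_lit 431) (nat_lit 7599) (nat_lit 433) (nat_lit 6576))))) (.f (nat_lit 495) (nat_lit 624) (nat_lit 7663) (.d (nat_lit 463) (nat_lit 431) (nat_lit 4527) (nat_lit 496) (nat_lit 7631)))))))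
noncomputable def s18026 : Cert := .r (nat_lit 16209045190941378750779298971268983572524992861815156629186694332241685737600357367691977116011374006475930249610390080521935517824148871012070213300485648712653808579007601442816) (.p (nat_lit 531) (.a (.d (nat_lit 499) (nat_lit 498) (nat_lit 2543) (nat_lit 500) (nat_lit 2544)) (.a (.f (nat_lit 500) (nat_lit 499) (nat_lit 2544) (.f (nat_lit 532) (nat_lit 501) (nat_lit 2545) (.d (nat_lit 564) (nat_lit 563) (nat_lit 528) (nat_lit 565) (nat_lit 529)))) (.a (.f (nat_lit 564) (nat_lit 563) (nat_lit 528) (.f (nat_lit 532) (nat_lit 565) (nat_lit 529) (.f (nat_lit 501) (nat_lit 500) (nat_lit 2545) (.f (nat_lit 533) (nat_lit 502) (nat_lit 2546) (.d (nat_lit 497) (nat_lit 496) (nat_lit 3568) (nat_lit 498) (nat_lit 3569)))))) (.f (nat_lit 498) (nat_lit 499) (nat_lit 2543) (.f (nat_lit 564) (nat_lit 563) (nat_lit 528) (.f (nat_lit 532) (nat_lit 565) (nat_lit 529) (.d (nat_lit 497) (nat_lit 496) (nat_lit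 3568) (nat_lit 533) (nat_lit 3569)))))))))
noncomputable def s18027 : Cert := .r (nat_lit 16209045190941378747264522569282111398454259652685483301944743458568313367990392076588979006111774107789179713591725348373559806391710671697063755444630727080615906093956692180992) (.p (nat_lit 530) (.a (.f (nat_lit 495) (nat_lit 494) (nat_lit 3566) (.f (nat_lit 559) (nat_lit 558) (nat_lit 1550) (.f (nat_lit 591) (nat_lit 624) (nat_lit 4591) (.d (nat_lit 496) (nat_lit 464) (nat_lit 6607) (nat_lit 531) (nat_lit 3567))))) (.a (.f (nat_lit 498) (nat_lit 499) (nat_lit 2543) (.f (nat_lit 495) (nat_lit 494) (nat_lit 3566) (.f (nat_lit 559) (nat_lit 558) (nat_lit 1550) (.f (nat_lit 591) (nat_lit 624) (nat_lit 4591) (.f (nat_lit 622) (nat_lit 590) (nat_lit 5614) (.f (nat_lit 623) (nat_lit 654) (nat_lit 5646) (.f (nat_lit 593) (nat_lit 594) (nat_lit 1614) (.f (nat_lit 561) (nat_lit 625) (nat_lit 6641) (.d (nat_lit 466) (nat_lit 434) (nat_lit 5553) (nat_lit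 497) (nat_lit 6609)))))))))) (.a (.f (nat_lit 495) (nat_lit 494) (nat_lit 3566) (.f (nat_lit 531) (nat_lit 496) (nat_lit 3567) (.d (nat_lit 499) (nat_lit 498) (nat_lit 2543) (nat_lit 500) (nat_lit 2544)))) s18026))))
noncomputable def s18042 : Cert := .r (nat_lit 16209045190941378747264522569282111398454259652685483301944743458568313367990392076588979006111774107789179713591725348373559806391710671697063755444630727080615906093956692180992) (.p (nat_lit 560) (.a (.f (nat_lit 497) (nat_lit 624) (nat_lit 6640) (.d (nat_lit 465) (nat_lit 433) (nat_lit 5552) (nat_lit 496) (nat_lit 6608))) (.a (.f (nat_lit 624) (nat_lit 497) (nat_lit 6640) (.d (nat_lit 656) (nat_lit 559) (nat_lit 7695) (nat_lit 561) (nat_lit 6672))) (.a s16014 (.p (nat_lit 496) (.a (.f (nat_lit 591) (nat_lit 623) (nat_lit 5615) (.f (nat_lit 593) (nat_lit 625) (nat_lit 4592) (.d (nat_lit 464) (nat_lit 559) (nat_lit 5583) (nat_lit 561) (nat_lit 4560)))) (.a (.f (nat_lit 591)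 (nat_lit 623) (nat_lit 5615) (.f (nat_lit 559) (nat_lit 464) (nat_lit 5583) (.f (nat_lit 558) (nat_lit 557) (nat_lit 2573) (.d (nat_lit 593) (nat_lit 594) (nat_lit 3630) (nat_lit 625) (nat_lit 4592))))) (.a (.f (nat_lit 497) (nat_lit 465) (nat_lit 6608) (.f (nat_lit 593) (nat_lit 625) (nat_lit 4592) (.f (nat_lit 561) (nat_lit 464) (nat_lit 4560) (.d (nat_lit 498) (nat_lit 466) (nat_lit 6609) (nat_lit 499) (nat_lit 1519))))) (.a (.f (nat_lit 465) (nat_lit 497) (nat_lit 6608) (.f (nat_lit 591) (nat_lit 623) (nat_lit 5615) (.d (nat_lit 464) (nat_lit 433) (nat_lit 6576) (nat_lit 559) (nat_lit 5583)))) (.f (nat_lit 497) (nat_lit 465) (nat_lit 6608) (.f (nat_lit 498) (nat_lit 499) (nat_lit 1519) (.f (nat_lit 593) (nat_lit 625) (nat_lit 4592) (.f (nat_lit 561) (nat_lit 466) (nat_lit 6609) (.f (nat_lit 594) (nat_lit 626) (nat_lit 4593) (.d (nat_lit 559) (nat_lit 558) (nat_lit 558) (nat_lit 595) (nat_lit 3631))))))))))))))))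
noncomputable def s18053 : Cert := .r (nat_lit 16209045190941378747264522569282111398454259652685483301944743458568313367990392076588979006111774107789179713591725348373559806391710671697063755444630727080615906093956692180992) (.p (nat_lit 530) (.a (.f (nat_lit 559) (nat_lit 558) (nat_lit 1550) (.f (nat_lit 560) (nat_lit 531) (nat_lit 1551) (.d (nat_lit 495) (nat_lit 463) (nat_lit 4559) (nat_lit 494) (nat_lit 3566)))) (.a (.f (nat_lit 495) (nat_lit 494) (nat_lit 3566) (.f (nat_lit 531) (nat_lit 496) (nat_lit 3567) (.d (nat_lit 499) (nat_lit 498) (nat_lit 2543) (nat_lit 500) (nat_lit 2544)))) (.a (.f (nat_lit 495) (nat_lit 494) (nat_lit 3566) (.f (nat_lit 559) (nat_lit 558) (nat_lit 1550) (.f (nat_lit 463) (nat_lit 560) (nat_lit 4559) (.f (nat_lit 430) (nat_lit 462) (nat_lit 7598) (.f (nat_lit 431) (nat_lit 398) (nat_lit 7566) (.f (nat_lit 496) (nat_lit 399) (nat_lit 4495) (.d (nat_lit 591) (nat_lit 464) (nat_lit 6607) (nat_lit 623)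 (nat_lit 6639)))))))) (.f (nat_lit 559) (nat_lit 558) (nat_lit 1550) (.f (nat_lit 531) (nat_lit 560) (nat_lit 1551) (.d (nat_lit 499) (nat_lit 498) (nat_lit 2543) (nat_lit 500) (nat_lit 2544))))))))
noncomputable def s18055 : Cert := .r (nat_lit 3075429351738513152311891557988464161336707014464200823408719629715123346162149911350906719016331640629828747503383424400630650623873056428033164674419545604096) (.p (nat_lit 530) (.a (.f (nat_lit 495) (nat_lit 494) (nat_lit 3566) (.f (nat_lit 531) (nat_lit 496) (nat_lit 3567) (.d (nat_lit 499) (nat_lit 498) (nat_lit 2543) (nat_lit 500) (nat_lit 2544)))) (.a (.f (nat_lit 498) (nat_lit 499) (nat_lit 2543) (.f (nat_lit 526) (nat_lit 497) (nat_lit 2542) (.d (nat_lit 494) (nat_lit 493) (nat_lit 3565) (nat_lit 495) (nat_lit 3566)))) (.a (.f (nat_lit 498) (nat_lit 499) (nat_lit 2543) (.f (nat_lit 526) (nat_lit 497) (nat_lit 2542) (.f (nat_lit 493) (nat_lit 494) (nat_lit 3565) (.f (nat_lit 525) (nat_lit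 492) (nat_lit 3564) (.f (nat_lit 556) (nat_lit 557) (nat_lit 1548) (.f (nat_lit 524) (nat_lit 555) (nat_lit 1547) (.d (nat_lit 560) (nat_lit 559) (nat_lit 524) (nat_lit 561) (nat_lit 525)))))))) (.a (.f (nat_lit 499) (nat_lit 498) (nat_lit 2543) (.f (nat_lit 531) (nat_lit 500) (nat_lit 2544) (.f (nat_lit 564) (nat_lit 563) (nat_lit 528) (.f (nat_lit 532) (nat_lit 565) (nat_lit 529) (.d (nat_lit 496) (nat_lit 495) (nat_lit 3567) (nat_lit 497) (nat_lit 3568)))))) (.a (.f (nat_lit 495) (nat_lit 494) (nat_lit 3566) (.f (nat_lit 531) (nat_lit 496) (nat_lit 3567) (.f (nat_lit 500) (nat_lit 499) (nat_lit 2544) (.f (nat_lit 532) (nat_lit 501) (nat_lit 2545) (.d (nat_lit 564) (nat_lit 563) (nat_lit 528) (nat_lit 565) (nat_lit 529)))))) (.f (nat_lit 495) (nat_lit 494) (nat_lit 3566) (.f (nat_lit 531) (nat_lit 496) (nat_lit 3567) (.f (nat_lit 560) (nat_lit 559) (nat_lit 1551) (.f (nat_lit 532) (nat_lit 561) (nat_lit 1552) (.d (nat_lit 564) (nat_lit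 563) (nat_lit 528) (nat_lit 565) (nat_lit 529))))))))))))
noncomputable def s18072 : Cert := .r (nat_lit 16209045190941378747264522569282111398454259652685483301944743458568313367990392076588979006111774107789179713591725348373559806391710671697063755444630727080615906093956692180992) (.p (nat_lit 526) (.a (.f (nat_lit 561) (nat_lit 562) (nat_lit 526) (.f (nat_lit 560) (nat_lit 525) (nat_lit 525) (.d (nat_lit 497) (nat_lit 465) (nat_lit 5584) (nat_lit 498) (nat_lit 2542)))) (.a (.f (nat_lit 494) (nat_lit 493) (nat_lit 3565) (.f (nat_lit 497) (nat_lit 498) (nat_lit 2542) (.f (nat_lit 561) (nat_lit 562) (nat_lit 526) (.f (nat_lit 593) (nat_lit 624) (nat_lit 5616) (.f (nat_lit 626) (nat_lit 594) (nat_lit 4593) (.f (nat_lit 625) (nat_lit 658) (nat_lit 4625) (.f (nat_lit 591) (nat_lit 590) (nat_lit 590) (.f (nat_lit 559) (nat_lit 623) (nat_lit 7662) (.d (nat_lit 462) (nat_lit 430) (nat_lit 4526) (nat_lit 495) (nat_lit 7630)))))))))) (.a (.f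 (nat_lit 561) (nat_lit 562) (nat_lit 526) (.f (nat_lit 560) (nat_lit 525) (nat_lit 525) (.d (nat_lit 624) (nat_lit 495) (nat_lit 7663) (nat_lit 656) (nat_lit 6672)))) (.f (nat_lit 493) (nat_lit 494) (nat_lit 3565) (.f (nat_lit 525) (nat_lit 492) (nat_lit 3564) (.f (nat_lit 556) (nat_lit 557) (nat_lit 1548) (.f (nat_lit 524) (nat_lit 555) (nat_lit 1547) (.f (nat_lit 560) (nat_lit 559) (nat_lit 524) (.d (nat_lit 497) (nat_lit 498) (nat_lit 2542) (nat_lit 624) (nat_lit 6640)))))))))))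
noncomputable def s18081 : Cert := .r (nat_lit 16209045190941378747264522569282111398454259652685483301944743458568313367990392076588979006111774107789179713591725348373559806391710671697063755444630727080615906093956692180992) (.p (nat_lit 526) (.a (.f (nat_lit 497) (nat_lit 498) (nat_lit 2542) (.f (nat_lit 560) (nat_lit 624) (nat_lit 6640) (.d (nat_lit 465) (nat_lit 433) (nat_lit 5552) (nat_lit 496) (nat_lit 6608)))) (.a (.f (nat_lit 497) (nat_lit 498) (nat_lit 2542) (.f (nat_lit 525) (nat_lit 496) (nat_lit 2541) (.d (nat_lit 493) (nat_lit 492) (nat_lit 3564) (nat_lit 494) (nat_lit 3565)))) (.a (.f (nat_lit 561) (nat_lit 562) (nat_lit 526) (.f (nat_lit 560) (nat_lit 525) (nat_lit 525) (.d (nat_lit 497) (nat_lit 465) (nat_lit 5584) (nat_lit 498) (nat_lit 2542)))) (.f (nat_lit 561) (nat_lit 562) (nat_lit 526) (.f (nat_lit 560) (nat_lit 525) (nat_lit 525) (.f (nat_lit 624) (nat_lit 656) (nat_lit 6672) (.f (nat_lit 625) (nat_lit 657) (nat_lit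 4624) (.f (nat_lit 593) (nat_lit 496) (nat_lit 4592) (.f (nat_lit 623) (nat_lit 655) (nat_lit 5647) (.d (nat_lit 594) (nat_lit 595) (nat_lit 1615) (nat_lit 622) (nat_lit 2638))))))))))))
noncomputable def s18090 : Cert := .r (nat_lit 16209045190941378747264522569282111398454259652685483301944743458568313367990392076588979006111774107789179713591725348373559806391710671697063755444630727080615906093956692180992) (.p (nat_lit 526) (.a (.f (nat_lit 497) (nat_lit 498) (nat_lit 2542) (.f (nat_lit 525) (nat_lit 496) (nat_lit 2541) (.d (nat_lit 493) (nat_lit 492) (nat_lit 3564) (nat_lit 494) (nat_lit 3565)))) (.a (.f (nat_lit 561) (nat_lit 562) (nat_lit 526) (.f (nat_lit 560) (nat_lit 525) (nat_lit 525) (.d (nat_lit 497) (nat_lit 465) (nat_lit 5584) (nat_lit 498) (nat_lit 2542)))) (.a (.f (nat_lit 561) (nat_lit 562) (nat_lit 526) (.f (nat_lit 525) (nat_lit 560) (nat_lit 525) (.d (nat_lit 493) (nat_lit 492) (nat_lit 3564) (nat_lit 494) (nat_lit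 3565)))) (.f (nat_lit 497) (nat_lit 498) (nat_lit 2542) (.f (nat_lit 561) (nat_lit 562) (nat_lit 526) (.f (nat_lit 465) (nat_lit 560) (nat_lit 5584) (.f (nat_lit 494) (nat_lit 493) (nat_lit 3565) (.f (nat_lit 466) (nat_lit 434) (nat_lit 6577) (.f (nat_lit 496) (nat_lit 495) (nat_lit 2510) (.d (nat_lit 593) (nat_lit 464) (nat_lit 7632) (nat_lit 625) (nat_lit 7664))))))))))))
noncomputable def s18102 : Cert := .r (nat_lit 16209045190941378747264522569282111398454259652685483301944743458568313367990392076588979006111774107789179713591725348373559806391710671697063755444630727080615906093956692180992) (.p (nat_lit 530) (.a (.f (nat_lit 498) (nat_lit 499) (nat_lit 2543) (.f (nat_lit 562) (nat_lit 563) (nat_lit 527) (.d (nat_lit 526) (nat_lit 497) (nat_lit 2542) (nat_lit 561) (nat_lit 526)))) (.a (.f (nat_lit 562) (nat_lit 563) (nat_lit 527) (.f (nat_lit 498) (nat_lit 499) (nat_lit 2543) (.f (nat_lit 561) (nat_lit 526) (nat_lit 526) (.d (nat_lit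 466) (nat_lit 434) (nat_lit 5553) (nat_lit 593) (nat_lit 5585))))) (.a (.f (nat_lit 499) (nat_lit 498) (nat_lit 2543) (.f (nat_lit 531) (nat_lit 500) (nat_lit 2544) (.d (nat_lit 563) (nat_lit 562) (nat_lit 527) (nat_lit 564) (nat_lit 528)))) (.a (.f (nat_lit 498) (nat_lit 499) (nat_lit 2543) (.f (nat_lit 526) (nat_lit 497) (nat_lit 2542) (.d (nat_lit 558) (nat_lit 557) (nat_lit 1549) (nat_lit 559) (nat_lit 1550)))) (.f (nat_lit 562) (nat_lit 563) (nat_lit 527) (.f (nat_lit 526) (nat_lit 561) (nat_lit 526) (.d (nat_lit 558) (nat_lit 557) (nat_lit 1549) (nat_lit 559) (nat_lit 1550)))))))))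
noncomputable def s18110 : Cert := .r (nat_lit 16209045190941378747264522569282111398454259652685483301944743458568313367990392076588979006111774107789179713591725348373559806391710671697063755444630727080615906093956692180992) (.p (nat_lit 530) (.a (.f (nat_lit 562) (nat_lit 563) (nat_lit 527) (.f (nat_lit 498) (nat_lit 499) (nat_lit 2543) (.f (nat_lit 561) (nat_lit 526) (nat_lit 526) (.d (nat_lit 466) (nat_lit 434) (nat_lit 5553) (nat_lit 593) (nat_lit 5585))))) (.a (.f (nat_lit 499) (nat_lit 498) (nat_lit 2543) (.f (nat_lit 531) (nat_lit 500) (nat_lit 2544) (.d (nat_lit 563) (nat_lit 562) (nat_lit 527) (nat_lit 564) (nat_lit 528)))) (.a (.f (nat_lit 495) (nat_lit 494) (nat_lit 3566) (.f (nat_lit 560) (nat_lit 624) (nat_lit 7663) (.f (nat_lit 499) (nat_lit 498) (nat_lit 2543) (.f (nat_lit 531) (nat_lit 500) (nat_lit 2544) (.f (nat_lit 532) (nat_lit 561) (nat_lit 1552) (.d (nat_lit 564) (nat_lit 563) (nat_lit 528) (nat_lit 565) (nat_lit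 529))))))) (.a (.f (nat_lit 495) (nat_lit 494) (nat_lit 3566) (.f (nat_lit 560) (nat_lit 624) (nat_lit 7663) (.f (nat_lit 499) (nat_lit 498) (nat_lit 2543) (.f (nat_lit 531) (nat_lit 500) (nat_lit 2544) (.f (nat_lit 561) (nat_lit 532) (nat_lit 1552) (.d (nat_lit 526) (nat_lit 525) (nat_lit 525) (nat_lit 562) (nat_lit 526))))))) (.f (nat_lit 562) (nat_lit 563) (nat_lit 527) (.f (nat_lit 526) (nat_lit 561) (nat_lit 526) (.d (nat_lit 494) (nat_lit 493) (nat_lit 3565) (nat_lit 495) (nat_lit 3566)))))))))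
noncomputable def s18114 : Cert := .r (nat_lit 16209045190941378746825175519033752376695418001544274136039499599359141821789146415201104242374324120453335896589392256855012842462655896782687948212648861876611168283325328523264) (.p (nat_lit 560) (.a (.f (nat_lit 624) (nat_lit 497) (nat_lit 6640) (.f (nat_lit 656) (nat_lit 561) (nat_lit 6672) (.d (nat_lit 655) (nat_lit 623) (nat_lit 5647) (nat_lit 687) (nat_lit 5679)))) (.a (.p (nat_lit 496) (.a (.f (nat_lit 593) (nat_lit 625) (nat_lit 4592) (.f (nat_lit 591) (nat_lit 623) (nat_lit 5615) (.d (nat_lit 464) (nat_lit 559) (nat_lit 5583) (nat_lit 561) (nat_lit 4560)))) (.a (.f (nat_lit 625) (nat_lit 593) (nat_lit 4592) (.f (nat_lit 624) (nat_lit 657) (nat_lit 4624) (.d (nat_lit 623) (nat_lit 591) (nat_lit 5615) (nat_lit 655) (nat_lit 5647)))) (.a (.f (nat_lit 495) (nat_lit 463) (nat_lit 7631) (.f (nat_lit 530) (nat_lit 531) (nat_lit 3567) (.f (nat_lit 591) (nat_lit 623) (nat_lit 5615) (.f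 (nat_lit 559) (nat_lit 464) (nat_lit 5583) (.d (nat_lit 558) (nat_lit 557) (nat_lit 2573) (nat_lit 561) (nat_lit 2574)))))) (.f (nat_lit 593) (nat_lit 625) (nat_lit 4592) (.f (nat_lit 464) (nat_lit 561) (nat_lit 4560) (.d (nat_lit 463) (nat_lit 431) (nat_lit 7599) (nat_lit 495) (nat_lit 7631)))))))) (.a (.f (nat_lit 624) (nat_lit 497) (nat_lit 6640) (.f (nat_lit 623) (nat_lit 655) (nat_lit 5647) (.f (nat_lit 625) (nat_lit 657) (nat_lit 4624) (.d (nat_lit 496) (nat_lit 591) (nat_lit 5615) (nat_lit 593) (nat_lit 4592))))) (.a (.p (nat_lit 496) (.a (.f (nat_lit 593) (nat_lit 625) (nat_lit 4592) (.f (nat_lit 591) (nat_lit 623) (nat_lit 5615) (.d (nat_lit 464) (nat_lit 559) (nat_lit 5583) (nat_lit 561) (nat_lit 4560)))) (.f (nat_lit 497) (nat_lit 465) (nat_lit 6608) (.f (nat_lit 495) (nat_lit 463) (nat_lit 7631) (.d (nat_lit 494) (nat_lit 493) (nat_lit 493) (nat_lit 530) (nat_lit 494)))))) (.f (nat_lit 497) (nat_lit 624) (nat_lit 6640) (.d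 (nat_lit 465) (nat_lit 433) (nat_lit 5552) (nat_lit 496) (nat_lit 6608))))))))
noncomputable def s18118 : Cert := .r (nat_lit 16209045190941378746825175519033752376695418001544274136039499599359141821789146415201104242374324120453335896589392256855012842462655896782687948212648861876611168283325328523264) (.p (nat_lit 527) (.a s14394 (.a s18102 (.a s14543 (.a s14615 (.a s14644 (.a s14601 s14645)))))))
noncomputable def s18126 : Cert := .r (nat_lit 16209045192828359959675293245402888688948394098143943912152963672756416518113204157785053432154837470378009097362459535888941728841595964012026151760911444206332254115781389844480) (.p (nat_lit 591) (.a (.f (nat_lit 623) (nat_lit 496) (nat_lit 6639) (.f (nat_lit 622) (nat_lit 654) (nat_lit 5646) (.f (nat_lit 590) (nat_lit 495) (nat_lit 5614) (.d (nat_lit 593) (nat_lit 594) (nat_lit 1614) (nat_lit 621) (nat_lit 1613))))) (.a (.f (nat_lit 495) (nat_lit 624) (nat_lit 4591) (.f (nat_lit 590) (nat_lit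 622) (nat_lit 5614) (.f (nat_lit 558) (nat_lit 463) (nat_lit 5582) (.d (nat_lit 557) (nat_lit 556) (nat_lit 556) (nat_lit 593) (nat_lit 3629))))) (.a (.f (nat_lit 623) (nat_lit 496) (nat_lit 6639) (.f (nat_lit 624) (nat_lit 656) (nat_lit 4623) (.f (nat_lit 622) (nat_lit 654) (nat_lit 5646) (.f (nat_lit 621) (nat_lit 620) (nat_lit 2636) (.f (nat_lit 589) (nat_lit 588) (nat_lit 3660) (.f (nat_lit 625) (nat_lit 590) (nat_lit 589) (.f (nat_lit 626) (nat_lit 627) (nat_lit 3663) (.d (nat_lit 658) (nat_lit 657) (nat_lit 622) (nat_lit 659) (nat_lit 623))))))))) (.f (nat_lit 623) (nat_lit 496) (nat_lit 6639) (.d (nat_lit 624) (nat_lit 495) (nat_lit 4591) (nat_lit 656) (nat_lit 4623)))))))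
noncomputable def s18143 : Cert := .r (nat_lit 16209045190941378747264522569282111398454259652685483301944743458568313367990392076588979006111774107789179713591725348373559806391710671697063755444630727080615906093956692180992) (.p (nat_lit 530) (.a (.f (nat_lit 498) (nat_lit 499) (nat_lit 2543) (.f (nat_lit 562) (nat_lit 563) (nat_lit 527) (.f (nat_lit 497) (nat_lit 526) (nat_lit 2542) (.d (nat_lit 465) (nat_lit 433) (nat_lit 4529) (nat_lit 594) (nat_lit 7633))))) (.a (.f (nat_lit 499) (nat_lit 498) (nat_lit 2543) (.f (nat_lit 531) (nat_lit 500) (nat_lit 2544) (.d (nat_lit 563) (nat_lit 562) (nat_lit 527) (nat_lit 564) (nat_lit 528)))) (.a (.f (nat_lit 498) (nat_lit 499) (nat_lit 2543) (.f (nat_lit 526) (nat_lit 497) (nat_lit 2542) (.d (nat_lit 558) (nat_lit 557) (nat_lit 1549) (nat_lit 559) (nat_lit 1550)))) (.f (nat_lit 558) (nat_lit 559) (nat_lit 1550) (.f (nat_lit 526) (nat_lit 557) (nat_lit 1549) (.f (nat_lit 563) (nat_lit 562)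 (nat_lit 527) (.f (nat_lit 531) (nat_lit 564) (nat_lit 528) (.f (nat_lit 496) (nat_lit 495) (nat_lit 3567) (.d (nat_lit 497) (nat_lit 525) (nat_lit 2541) (nat_lit 532) (nat_lit 3568)))))))))))
noncomputable def s18156 : Cert := .r (nat_lit 16209045190941378747264522569282111398454259652685483301944743458568313367990392076588979006111774107789179713591725348373559806391710671697063755444630727080615906093956692180992) (.p (nat_lit 530) (.a (.f (nat_lit 498) (nat_lit 499) (nat_lit 2543) (.f (nat_lit 562) (nat_lit 563) (nat_lit 527) (.d (nat_lit 526) (nat_lit 497) (nat_lit 2542) (nat_lit 561) (nat_lit 526)))) (.a (.f (nat_lit 562) (nat_lit 563) (nat_lit 527) (.f (nat_lit 498) (nat_lit 499) (nat_lit 2543) (.f (nat_lit 561) (nat_lit 526) (nat_lit 526) (.d (nat_lit 466) (nat_lit 434) (nat_lit 5553) (nat_lit 593) (nat_lit 5585))))) (.a (.f (nat_lit 498) (nat_lit 499) (nat_lit 2543) (.f (nat_lit 562) (nat_lit 563) (nat_lit 527) (.f (nat_lit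 497) (nat_lit 526) (nat_lit 2542) (.d (nat_lit 465) (nat_lit 433) (nat_lit 4529) (nat_lit 594) (nat_lit 7633))))) (.a (.f (nat_lit 499) (nat_lit 498) (nat_lit 2543) (.f (nat_lit 531) (nat_lit 500) (nat_lit 2544) (.d (nat_lit 563) (nat_lit 562) (nat_lit 527) (nat_lit 564) (nat_lit 528)))) (.a (.f (nat_lit 499) (nat_lit 498) (nat_lit 2543) (.f (nat_lit 531) (nat_lit 500) (nat_lit 2544) (.f (nat_lit 564) (nat_lit 563) (nat_lit 528) (.f (nat_lit 532) (nat_lit 565) (nat_lit 529) (.d (nat_lit 496) (nat_lit 495) (nat_lit 3567) (nat_lit 497) (nat_lit 3568)))))) (.a (.f (nat_lit 499) (nat_lit 498) (nat_lit 2543) (.f (nat_lit 531) (nat_lit 500) (nat_lit 2544) (.f (nat_lit 496) (nat_lit 495) (nat_lit 3567) (.f (nat_lit 497) (nat_lit 532) (nat_lit 3568) (.f (nat_lit 526) (nat_lit 525) (nat_lit 2541) (.f (nat_lit 561) (nat_lit 562) (nat_lit 526) (.d (nat_lit 593) (nat_lit 464) (nat_lit 7632) (nat_lit 624) (nat_lit 5616)))))))) (.f (nat_lit 562) (nat_lit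 563) (nat_lit 527) (.f (nat_lit 526) (nat_lit 561) (nat_lit 526) (.f (nat_lit 557) (nat_lit 558) (nat_lit 1549) (.f (nat_lit 525) (nat_lit 556) (nat_lit 1548) (.f (nat_lit 496) (nat_lit 497) (nat_lit 2541) (.d (nat_lit 495) (nat_lit 524) (nat_lit 2540) (nat_lit 531) (nat_lit 3567))))))))))))))
noncomputable def s18172 : Cert := .r (nat_lit 16209045190941378747264522569282111398454259652685483301944743458568313367990392076588979006111774107789179713591725348373559806391710671697063755444630727080615906093956692180992) (.p (nat_lit 559) (.a s18126 (.a (.f (nat_lit 558) (nat_lit 530) (nat_lit 1550) (.d (nat_lit 557) (nat_lit 526) (nat_lit 1549) (nat_lit 556) (nat_lit 2572))) (.p (nat_lit 591) (.a (.f (nat_lit 623) (nat_lit 496) (nat_lit 6639) (.f (nat_lit 622) (nat_lit 654) (nat_lit 5646) (.f (nat_lit 590) (nat_lit 495) (nat_lit 5614) (.d (nat_lit 593) (nat_lit 594) (nat_lit 1614) (nat_lit 621) (nat_lit 1613))))) (.a (.f (nat_lit 624) (nat_lit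 495) (nat_lit 4591) (.d (nat_lit 656) (nat_lit 623) (nat_lit 4623) (nat_lit 688) (nat_lit 7727))) (.a (.f (nat_lit 623) (nat_lit 496) (nat_lit 6639) (.f (nat_lit 624) (nat_lit 656) (nat_lit 4623) (.f (nat_lit 622) (nat_lit 654) (nat_lit 5646) (.f (nat_lit 621) (nat_lit 620) (nat_lit 2636) (.f (nat_lit 589) (nat_lit 588) (nat_lit 3660) (.f (nat_lit 625) (nat_lit 590) (nat_lit 589) (.f (nat_lit 626) (nat_lit 627) (nat_lit 3663) (.d (nat_lit 658) (nat_lit 657) (nat_lit 622) (nat_lit 659) (nat_lit 623))))))))) (.f (nat_lit 495) (nat_lit 624) (nat_lit 4591) (.f (nat_lit 496) (nat_lit 464) (nat_lit 6607) (.f (nat_lit 530) (nat_lit 531) (nat_lit 3567) (.f (nat_lit 498) (nat_lit 499) (nat_lit 2543) (.f (nat_lit 497) (nat_lit 526) (nat_lit 2542) (.f (nat_lit 466) (nat_lit 467) (nat_lit 2511) (.d (nat_lit 434) (nat_lit 402) (nat_lit 5521) (nat_lit 561) (nat_lit 5553)))))))))))))))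
noncomputable def s18183 : Cert := .r (nat_lit 16209045190941378747264522569282111398454259652685483301944743458568313367990392076588979006111774107789179713591725348373559806391710671697063755444630727080615906093956692180992) (.p (nat_lit 530) (.a (.f (nat_lit 498) (nat_lit 499) (nat_lit 2543) (.f (nat_lit 562) (nat_lit 563) (nat_lit 527) (.d (nat_lit 526) (nat_lit 497) (nat_lit 2542) (nat_lit 561) (nat_lit 526)))) (.a (.f (nat_lit 562) (nat_lit 563) (nat_lit 527) (.f (nat_lit 498) (nat_lit 499) (nat_lit 2543) (.f (nat_lit 561) (nat_lit 526) (nat_lit 526) (.d (nat_lit 466) (nat_lit 434) (nat_lit 5553) (nat_lit 593) (nat_lit 5585))))) (.a (.f (nat_lit 498) (nat_lit 499) (nat_lit 2543) (.f (nat_lit 562) (nat_lit 563) (nat_lit 527) (.f (nat_lit 497) (nat_lit 526) (nat_lit 2542) (.d (nat_lit 465) (nat_lit 433) (nat_lit 4529) (nat_lit 594) (nat_lit 7633))))) (.a (.f (nat_lit 499) (nat_lit 498) (nat_lit 2543) (.f (nat_lit 531) (nat_lit 500)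 (nat_lit 2544) (.d (nat_lit 563) (nat_lit 562) (nat_lit 527) (nat_lit 564) (nat_lit 528)))) (.a (.f (nat_lit 499) (nat_lit 498) (nat_lit 2543) (.f (nat_lit 531) (nat_lit 500) (nat_lit 2544) (.f (nat_lit 564) (nat_lit 563) (nat_lit 528) (.f (nat_lit 532) (nat_lit 565) (nat_lit 529) (.d (nat_lit 496) (nat_lit 495) (nat_lit 3567) (nat_lit 497) (nat_lit 3568)))))) (.a (.f (nat_lit 499) (nat_lit 498) (nat_lit 2543) (.f (nat_lit 531) (nat_lit 500) (nat_lit 2544) (.f (nat_lit 496) (nat_lit 495) (nat_lit 3567) (.f (nat_lit 497) (nat_lit 532) (nat_lit 3568) (.f (nat_lit 526) (nat_lit 525) (nat_lit 2541) (.f (nat_lit 561) (nat_lit 562) (nat_lit 526) (.d (nat_lit 593) (nat_lit 464) (nat_lit 7632) (nat_lit 624) (nat_lit 5616)))))))) (.a (.f (nat_lit 563) (nat_lit 562) (nat_lit 527) (.f (nat_lit 531) (nat_lit 564) (nat_lit 528) (.f (nat_lit 500) (nat_lit 499) (nat_lit 2544) (.f (nat_lit 532) (nat_lit 501) (nat_lit 2545) (.d (nat_lit 496) (nat_lit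 495) (nat_lit 3567) (nat_lit 497) (nat_lit 3568)))))) (.f (nat_lit 562) (nat_lit 563) (nat_lit 527) (.f (nat_lit 526) (nat_lit 561) (nat_lit 526) (.f (nat_lit 497) (nat_lit 498) (nat_lit 2542) (.f (nat_lit 496) (nat_lit 525) (nat_lit 2541) (.d (nat_lit 531) (nat_lit 495) (nat_lit 3567) (nat_lit 532) (nat_lit 3568))))))))))))))
noncomputable def s18193 : Cert := .r (nat_lit 16209045190941378747264522569282111398454259652685483301944743458568313367990392076588979006111774107789179713591725348373559806391710671697063755444630727080615906093956692180992) (.p (nat_lit 561) (.a s16475 (.a (.f (nat_lit 562) (nat_lit 526) (nat_lit 526) (.d (nat_lit 563) (nat_lit 530) (nat_lit 527) (nat_lit 564) (nat_lit 3600))) (.a s16476 (.p (nat_lit 593) (.a (.f (nat_lit 625) (nat_lit 496) (nat_lit 7664) (.d (nat_lit 624) (nat_lit 497) (nat_lit 5616) (nat_lit 656) (nat_lit 5648))) (.a (.f (nat_lit 624) (nat_lit 497) (nat_lit 5616) (.d (nat_lit 656) (nat_lit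 625) (nat_lit 5648) (nat_lit 688) (nat_lit 6704))) (.a (.f (nat_lit 625) (nat_lit 496) (nat_lit 7664) (.f (nat_lit 624) (nat_lit 656) (nat_lit 5648) (.f (nat_lit 626) (nat_lit 658) (nat_lit 4625) (.d (nat_lit 591) (nat_lit 590) (nat_lit 590) (nat_lit 627) (nat_lit 3663))))) (.a (.f (nat_lit 625) (nat_lit 496) (nat_lit 7664) (.f (nat_lit 626) (nat_lit 658) (nat_lit 4625) (.f (nat_lit 591) (nat_lit 590) (nat_lit 590) (.d (nat_lit 627) (nat_lit 594) (nat_lit 591) (nat_lit 628) (nat_lit 3664))))) (.f (nat_lit 497) (nat_lit 624) (nat_lit 5616) (.f (nat_lit 496) (nat_lit 464) (nat_lit 7632) (.f (nat_lit 526) (nat_lit 525) (nat_lit 2541) (.f (nat_lit 558) (nat_lit 557) (nat_lit 1549) (.f (nat_lit 559) (nat_lit 530) (nat_lit 1550) (.d (nat_lit 591) (nat_lit 594) (nat_lit 3630) (nat_lit 623) (nat_lit 6639))))))))))))))))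
noncomputable def s18194 : Cert := .r (nat_lit 16209045190941378746825175519033752376695418001544274136039499599359141821789146415201104242374324120453335896589392256855012842462655896782687948212648861876611168283325328523264) (.p (nat_lit 527) (.a s14436 (.a (.p (nat_lit 559) (.a (.f (nat_lit 530) (nat_lit 558) (nat_lit 1550) (.f (nat_lit 499) (nat_lit 498) (nat_lit 2543) (.f (nat_lit 531) (nat_lit 500) (nat_lit 2544) (.d (nat_lit 563) (nat_lit 562) (nat_lit 527) (nat_lit 564) (nat_lit 528))))) (.a s18126 (.p (nat_lit 591) (.a (.f (nat_lit 623) (nat_lit 496) (nat_lit 6639) (.f (nat_lit 622) (nat_lit 654) (nat_lit 5646) (.f (nat_lit 590) (nat_lit 495) (nat_lit 5614) (.d (nat_lit 593) (nat_lit 594) (nat_lit 1614) (nat_lit 621) (nat_lit 1613))))) (.a (.f (nat_lit 624) (nat_lit 495) (nat_lit 4591) (.d (nat_lit 656) (nat_lit 623) (nat_lit 4623) (nat_lit 688) (nat_lit 7727))) (.a (.f (nat_lit 623) (nat_lit 496) (nat_lit 6639) (.f (nat_lit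 624) (nat_lit 656) (nat_lit 4623) (.f (nat_lit 622) (nat_lit 654) (nat_lit 5646) (.f (nat_lit 621) (nat_lit 620) (nat_lit 2636) (.f (nat_lit 589) (nat_lit 588) (nat_lit 3660) (.f (nat_lit 625) (nat_lit 590) (nat_lit 589) (.f (nat_lit 626) (nat_lit 627) (nat_lit 3663) (.d (nat_lit 658) (nat_lit 657) (nat_lit 622) (nat_lit 659) (nat_lit 623))))))))) (.f (nat_lit 495) (nat_lit 624) (nat_lit 4591) (.f (nat_lit 496) (nat_lit 464) (nat_lit 6607) (.f (nat_lit 530) (nat_lit 531) (nat_lit 3567) (.f (nat_lit 562) (nat_lit 563) (nat_lit 527) (.f (nat_lit 561) (nat_lit 526) (nat_lit 526) (.d (nat_lit 590) (nat_lit 593) (nat_lit 2606) (nat_lit 622) (nat_lit 5614)))))))))))))) (.a s18143 (.a s16497 (.a s18156 (.a (.p (nat_lit 559) (.a (.f (nat_lit 530) (nat_lit 558) (nat_lit 1550) (.f (nat_lit 499) (nat_lit 498) (nat_lit 2543) (.f (nat_lit 531) (nat_lit 500) (nat_lit 2544) (.d (nat_lit 563) (nat_lit 562) (nat_lit 527) (nat_lit 564) (nat_lit 528)))))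 (.a s18126 (.p (nat_lit 591) (.a (.f (nat_lit 623) (nat_lit 496) (nat_lit 6639) (.f (nat_lit 622) (nat_lit 654) (nat_lit 5646) (.f (nat_lit 590) (nat_lit 495) (nat_lit 5614) (.d (nat_lit 593) (nat_lit 594) (nat_lit 1614) (nat_lit 621) (nat_lit 1613))))) (.a (.f (nat_lit 624) (nat_lit 495) (nat_lit 4591) (.d (nat_lit 656) (nat_lit 623) (nat_lit 4623) (nat_lit 688) (nat_lit 7727))) (.a (.f (nat_lit 623) (nat_lit 496) (nat_lit 6639) (.f (nat_lit 624) (nat_lit 656) (nat_lit 4623) (.f (nat_lit 622) (nat_lit 654) (nat_lit 5646) (.f (nat_lit 621) (nat_lit 620) (nat_lit 2636) (.f (nat_lit 589) (nat_lit 588) (nat_lit 3660) (.f (nat_lit 625) (nat_lit 590) (nat_lit 589) (.f (nat_lit 626) (nat_lit 627) (nat_lit 3663) (.d (nat_lit 658) (nat_lit 657) (nat_lit 622) (nat_lit 659) (nat_lit 623))))))))) (.f (nat_lit 495) (nat_lit 624) (nat_lit 4591) (.f (nat_lit 496) (nat_lit 464) (nat_lit 6607) (.f (nat_lit 530) (nat_lit 531) (nat_lit 3567) (.f (nat_lit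 498) (nat_lit 499) (nat_lit 2543) (.f (nat_lit 562) (nat_lit 563) (nat_lit 527) (.f (nat_lit 590) (nat_lit 622) (nat_lit 5614) (.f (nat_lit 593) (nat_lit 561) (nat_lit 2606) (.d (nat_lit 625) (nat_lit 594) (nat_lit 5617) (nat_lit 626) (nat_lit 590)))))))))))))))) (.a s18172 (.a s18183 (.a s18102 s18193))))))))))
noncomputable def s18220 : Cert := .r (nat_lit 16209045190941378747264522569282111398454259652685483301944743458568313367990392076588979006111774107789179713591725348373559806391710671697063755444630727080615906093956692180992) (.p (nat_lit 526) (.a (.f (nat_lit 497) (nat_lit 498) (nat_lit 2542) (.f (nat_lit 560) (nat_lit 624) (nat_lit 6640) (.d (nat_lit 465) (nat_lit 433) (nat_lit 5552) (nat_lit 496) (nat_lit 6608)))) (.a (.f (nat_lit 497) (nat_lit 498) (nat_lit 2542) (.f (nat_lit 525) (nat_lit 496) (nat_lit 2541) (.d (nat_lit 557) (nat_lit 556) (nat_lit 1548) (nat_lit 558) (nat_lit 1549)))) (.a (.f (nat_lit 557) (nat_lit 558)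 (nat_lit 1549) (.f (nat_lit 525) (nat_lit 556) (nat_lit 1548) (.f (nat_lit 492) (nat_lit 493) (nat_lit 3564) (.f (nat_lit 524) (nat_lit 491) (nat_lit 3563) (.f (nat_lit 560) (nat_lit 559) (nat_lit 524) (.d (nat_lit 497) (nat_lit 498) (nat_lit 2542) (nat_lit 624) (nat_lit 6640))))))) (.f (nat_lit 557) (nat_lit 558) (nat_lit 1549) (.f (nat_lit 525) (nat_lit 556) (nat_lit 1548) (.f (nat_lit 492) (nat_lit 493) (nat_lit 3564) (.f (nat_lit 524) (nat_lit 491) (nat_lit 3563) (.f (nat_lit 560) (nat_lit 559) (nat_lit 524) (.d (nat_lit 495) (nat_lit 496) (nat_lit 2540) (nat_lit 624) (nat_lit 7663)))))))))))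
noncomputable def s18226 : Cert := .r (nat_lit 16209045190941378747264522569282111398454259652685483301944743458568313367990392076588979006111774107789179713591725348373559806391710671697063755444630727080615906093956692180992) (.p (nat_lit 530) (.a (.f (nat_lit 498) (nat_lit 499) (nat_lit 2543) (.f (nat_lit 562) (nat_lit 563) (nat_lit 527) (.f (nat_lit 497) (nat_lit 526) (nat_lit 2542) (.d (nat_lit 465) (nat_lit 433) (nat_lit 4529) (nat_lit 594) (nat_lit 7633))))) (.a (.f (nat_lit 499) (nat_lit 498) (nat_lit 2543) (.f (nat_lit 531) (nat_lit 500) (nat_lit 2544) (.d (nat_lit 563) (nat_lit 562) (nat_lit 527) (nat_lit 564) (nat_lit 528)))) (.a (.f (nat_lit 498) (nat_lit 499) (nat_lit 2543) (.f (nat_lit 497) (nat_lit 526) (nat_lit 2542) (.f (nat_lit 560) (nat_lit 624) (nat_lit 6640) (.d (nat_lit 465) (nat_lit 433) (nat_lit 5552) (nat_lit 496) (nat_lit 6608))))) (.a (.f (nat_lit 563) (nat_lit 562) (nat_lit 527) (.f (nat_lit 531) (nat_lit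 564) (nat_lit 528) (.f (nat_lit 500) (nat_lit 499) (nat_lit 2544) (.f (nat_lit 532) (nat_lit 501) (nat_lit 2545) (.d (nat_lit 496) (nat_lit 495) (nat_lit 3567) (nat_lit 497) (nat_lit 3568)))))) (.f (nat_lit 563) (nat_lit 562) (nat_lit 527) (.f (nat_lit 531) (nat_lit 564) (nat_lit 528) (.f (nat_lit 496) (nat_lit 495) (nat_lit 3567) (.f (nat_lit 497) (nat_lit 532) (nat_lit 3568) (.d (nat_lit 526) (nat_lit 498) (nat_lit 2542) (nat_lit 525) (nat_lit 2541)))))))))))
noncomputable def s18237 : Cert := .r (nat_lit 16209045190941378746825175519033752376695418001544274136039499599359141821789146415201104242374324120453335896589392256855012842462655896782687948212648861876611168283325328523264) (.p (nat_lit 527) (.a (.p (nat_lit 530) (.a (.f (nat_lit 559) (nat_lit 558) (nat_lit 1550) (.f (nat_lit 560) (nat_lit 531) (nat_lit 1551) (.d (nat_lit 624) (nat_lit 497) (nat_lit 6640) (nat_lit 656) (nat_lit 7695)))) (.a (.f (nat_lit 498) (nat_lit 499)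 (nat_lit 2543) (.f (nat_lit 562) (nat_lit 563) (nat_lit 527) (.f (nat_lit 497) (nat_lit 526) (nat_lit 2542) (.d (nat_lit 465) (nat_lit 433) (nat_lit 4529) (nat_lit 594) (nat_lit 7633))))) (.f (nat_lit 499) (nat_lit 498) (nat_lit 2543) (.f (nat_lit 531) (nat_lit 500) (nat_lit 2544) (.d (nat_lit 563) (nat_lit 562) (nat_lit 527) (nat_lit 564) (nat_lit 528))))))) (.a s18143 (.a (.p (nat_lit 530) (.a (.f (nat_lit 499) (nat_lit 498) (nat_lit 2543) (.f (nat_lit 531) (nat_lit 500) (nat_lit 2544) (.d (nat_lit 563) (nat_lit 562) (nat_lit 527) (nat_lit 564) (nat_lit 528)))) (.p (nat_lit 624) (.a (.f (nat_lit 559) (nat_lit 558) (nat_lit 1550) (.f (nat_lit 591) (nat_lit 495) (nat_lit 4591) (.d (nat_lit 623) (nat_lit 496) (nat_lit 6639) (nat_lit 656) (nat_lit 4623)))) (.a (.f (nat_lit 559) (nat_lit 558) (nat_lit 1550) (.f (nat_lit 591) (nat_lit 495) (nat_lit 4591) (.d (nat_lit 656) (nat_lit 623) (nat_lit 4623) (nat_lit 688) (nat_lit 7727)))) (.a (.f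 (nat_lit 560) (nat_lit 495) (nat_lit 7663) (.f (nat_lit 623) (nat_lit 655) (nat_lit 5647) (.f (nat_lit 625) (nat_lit 657) (nat_lit 4624) (.d (nat_lit 496) (nat_lit 591) (nat_lit 5615) (nat_lit 593) (nat_lit 4592))))) (.a (.f (nat_lit 559) (nat_lit 558) (nat_lit 1550) (.f (nat_lit 560) (nat_lit 656) (nat_lit 7695) (.f (nat_lit 623) (nat_lit 655) (nat_lit 5647) (.f (nat_lit 591) (nat_lit 496) (nat_lit 5615) (.f (nat_lit 622) (nat_lit 654) (nat_lit 5646) (.d (nat_lit 593) (nat_lit 594) (nat_lit 1614) (nat_lit 621) (nat_lit 2637))))))) (.f (nat_lit 560) (nat_lit 495) (nat_lit 7663) (.d (nat_lit 559) (nat_lit 558) (nat_lit 1550) (nat_lit 656) (nat_lit 7695)))))))))) (.a s18220 (.a s18226 (.p (nat_lit 560) (.a (.d (nat_lit 624) (nat_lit 495) (nat_lit 7663) (nat_lit 497) (nat_lit 6640)) (.a (.f (nat_lit 495) (nat_lit 624) (nat_lit 7663) (.d (nat_lit 463) (nat_lit 431) (nat_lit 4527) (nat_lit 496) (nat_lit 7631))) (.a (.f (nat_lit 497) (nat_lit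 624) (nat_lit 6640) (.d (nat_lit 465) (nat_lit 433) (nat_lit 5552) (nat_lit 496) (nat_lit 6608))) (.p (nat_lit 496) (.a (.f (nat_lit 591) (nat_lit 623) (nat_lit 5615) (.f (nat_lit 559) (nat_lit 464) (nat_lit 5583) (.f (nat_lit 558) (nat_lit 557) (nat_lit 2573) (.d (nat_lit 593) (nat_lit 594) (nat_lit 3630) (nat_lit 625) (nat_lit 4592))))) (.a (.f (nat_lit 463) (nat_lit 495) (nat_lit 7631) (.f (nat_lit 465) (nat_lit 497) (nat_lit 6608) (.d (nat_lit 464) (nat_lit 431) (nat_lit 7599) (nat_lit 433) (nat_lit 6576)))) (.f (nat_lit 495) (nat_lit 463) (nat_lit 7631) (.f (nat_lit 530) (nat_lit 531) (nat_lit 3567) (.f (nat_lit 559) (nat_lit 558) (nat_lit 1550) (.f (nat_lit 591) (nat_lit 623) (nat_lit 5615) (.f (nat_lit 497) (nat_lit 465) (nat_lit 6608) (.f (nat_lit 593) (nat_lit 625) (nat_lit 4592) (.f (nat_lit 594) (nat_lit 595) (nat_lit 3631) (.d (nat_lit 562) (nat_lit 563) (nat_lit 2607) (nat_lit 626) (nat_lit 7665))))))))))))))))))))))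
noncomputable def s18248 : Cert := .r (nat_lit 16209045190941378747264522569282111398454259652685483301944743458568313367990392076588979006111774107789179713591725348373559806391710671697063755444630727080615906093956692180992) (.p (nat_lit 498) (.a (.f (nat_lit 530) (nat_lit 499) (nat_lit 2543) (.f (nat_lit 562) (nat_lit 563) (nat_lit 527) (.f (nat_lit 497) (nat_lit 526) (nat_lit 2542) (.d (nat_lit 465) (nat_lit 433) (nat_lit 4529) (nat_lit 594) (nat_lit 7633))))) (.a (.f (nat_lit 530) (nat_lit 499) (nat_lit 2543) (.f (nat_lit 562) (nat_lit 563) (nat_lit 527) (.f (nat_lit 561) (nat_lit 526) (nat_lit 526) (.d (nat_lit 466) (nat_lit 434) (nat_lit 5553) (nat_lit 593) (nat_lit 5585))))) (.a (.f (nat_lit 497) (nat_lit 526) (nat_lit 2542) (.f (nat_lit 560) (nat_lit 624) (nat_lit 6640) (.d (nat_lit 465) (nat_lit 433) (nat_lit 5552) (nat_lit 561) (nat_lit 5584)))) (.f (nat_lit 499) (nat_lit 530) (nat_lit 2543) (.f (nat_lit 497) (nat_lit 500)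 (nat_lit 1520) (.f (nat_lit 560) (nat_lit 624) (nat_lit 6640) (.d (nat_lit 465) (nat_lit 433) (nat_lit 5552) (nat_lit 561) (nat_lit 5584)))))))))
noncomputable def s18271 : Cert := .r (nat_lit 16209045190941378747264522569282111398454259652685483301944743458568313367990392076588979006111774107789179713591725348373559806391710671697063755444630727080615906093956692180992) (.p (nat_lit 560) (.a (.f (nat_lit 495) (nat_lit 624) (nat_lit 7663) (.d (nat_lit 463) (nat_lit 431) (nat_lit 4527) (nat_lit 496) (nat_lit 7631))) (.a (.f (nat_lit 624) (nat_lit 495) (nat_lit 7663) (.f (nat_lit 561) (nat_lit 656) (nat_lit 6672) (.d (nat_lit 526) (nat_lit 525) (nat_lit 525) (nat_lit 562) (nat_lit 526)))) (.a s16000 (.p (nat_lit 530) (.a (.f (nat_lit 499) (nat_lit 498) (nat_lit 2543) (.f (nat_lit 531) (nat_lit 500) (nat_lit 2544) (.d (nat_lit 563) (nat_lit 562) (nat_lit 527) (nat_lit 564) (nat_lit 528)))) (.a (.f (nat_lit 562) (nat_lit 563) (nat_lit 527)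 (.f (nat_lit 561) (nat_lit 526) (nat_lit 526) (.f (nat_lit 498) (nat_lit 499) (nat_lit 2543) (.d (nat_lit 466) (nat_lit 434) (nat_lit 5553) (nat_lit 593) (nat_lit 5585))))) (.a (.f (nat_lit 499) (nat_lit 498) (nat_lit 2543) (.f (nat_lit 531) (nat_lit 500) (nat_lit 2544) (.f (nat_lit 532) (nat_lit 561) (nat_lit 1552) (.d (nat_lit 564) (nat_lit 563) (nat_lit 528) (nat_lit 565) (nat_lit 529))))) (.a (.f (nat_lit 499) (nat_lit 498) (nat_lit 2543) (.f (nat_lit 531) (nat_lit 500) (nat_lit 2544) (.f (nat_lit 561) (nat_lit 532) (nat_lit 1552) (.d (nat_lit 526) (nat_lit 525) (nat_lit 525) (nat_lit 562) (nat_lit 526))))) (.f (nat_lit 562) (nat_lit 563) (nat_lit 527) (.f (nat_lit 561) (nat_lit 526) (nat_lit 526) (.f (nat_lit 531) (nat_lit 532) (nat_lit 1552) (.f (nat_lit 496) (nat_lit 495) (nat_lit 3567) (.d (nat_lit 593) (nat_lit 464) (nat_lit 4560) (nat_lit 625) (nat_lit 4592)))))))))))))))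
noncomputable def s18300 : Cert := .r (nat_lit 16209045190941378746825175519033752376695418001544274136039499599359141821789146415201104242374324120453335896589392256855012842462655896782687948212648861876611168283325328523264) (.p (nat_lit 527) (.a s14535 (.a s18156 (.a s18248 (.a s18271 (.a s18226 (.a s14644 (.a s17077 (.a s17951 (.a (.p (nat_lit 530) (.a (.f (nat_lit 498) (nat_lit 499) (nat_lit 2543) (.f (nat_lit 562) (nat_lit 563) (nat_lit 527) (.d (nat_lit 526) (nat_lit 497) (nat_lit 2542) (nat_lit 561) (nat_lit 526)))) (.a (.f (nat_lit 562) (nat_lit 563) (nat_lit 527) (.f (nat_lit 498) (nat_lit 499) (nat_lit 2543) (.f (nat_lit 561) (nat_lit 526) (nat_lit 526) (.d (nat_lit 466) (nat_lit 434) (nat_lit 5553) (nat_lit 593) (nat_lit 5585))))) (.a (.f (nat_lit 498) (nat_lit 499) (nat_lit 2543) (.f (nat_lit 562) (nat_lit 563) (nat_lit 527) (.f (nat_lit 497) (nat_lit 526) (nat_lit 2542) (.d (nat_lit 465) (nat_lit 433) (nat_lit 4529) (nat_lit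 594) (nat_lit 7633))))) (.a (.f (nat_lit 499) (nat_lit 498) (nat_lit 2543) (.f (nat_lit 531) (nat_lit 500) (nat_lit 2544) (.d (nat_lit 563) (nat_lit 562) (nat_lit 527) (nat_lit 564) (nat_lit 528)))) (.a (.f (nat_lit 499) (nat_lit 498) (nat_lit 2543) (.f (nat_lit 531) (nat_lit 500) (nat_lit 2544) (.f (nat_lit 564) (nat_lit 563) (nat_lit 528) (.f (nat_lit 532) (nat_lit 565) (nat_lit 529) (.d (nat_lit 496) (nat_lit 495) (nat_lit 3567) (nat_lit 497) (nat_lit 3568)))))) (.a (.f (nat_lit 498) (nat_lit 499) (nat_lit 2543) (.f (nat_lit 526) (nat_lit 497) (nat_lit 2542) (.f (nat_lit 561) (nat_lit 562) (nat_lit 526) (.f (nat_lit 560) (nat_lit 525) (nat_lit 525) (.f (nat_lit 593) (nat_lit 625) (nat_lit 6641) (.f (nat_lit 496) (nat_lit 464) (nat_lit 4560) (.d (nat_lit 495) (nat_lit 463) (nat_lit 7631) (nat_lit 531) (nat_lit 3567)))))))) (.f (nat_lit 562) (nat_lit 563) (nat_lit 527) (.f (nat_lit 526) (nat_lit 561) (nat_lit 526) (.f (nat_lit 557)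 (nat_lit 558) (nat_lit 1549) (.f (nat_lit 525) (nat_lit 556) (nat_lit 1548) (.f (nat_lit 496) (nat_lit 497) (nat_lit 2541) (.d (nat_lit 495) (nat_lit 524) (nat_lit 2540) (nat_lit 531) (nat_lit 3567)))))))))))))) (.p (nat_lit 593) (.a s16117 (.a (.p (nat_lit 624) (.a (.f (nat_lit 560) (nat_lit 495) (nat_lit 7663) (.f (nat_lit 625) (nat_lit 657) (nat_lit 4624) (.f (nat_lit 623) (nat_lit 655) (nat_lit 5647) (.d (nat_lit 594) (nat_lit 595) (nat_lit 1615) (nat_lit 622) (nat_lit 2638))))) (.a (.f (nat_lit 561) (nat_lit 497) (nat_lit 5616) (.d (nat_lit 656) (nat_lit 625) (nat_lit 5648) (nat_lit 688) (nat_lit 6704))) (.d (nat_lit 497) (nat_lit 560) (nat_lit 6640) (nat_lit 561) (nat_lit 5616))))) (.a s17977 (.a (.p (nat_lit 561) (.a (.f (nat_lit 562) (nat_lit 526) (nat_lit 526) (.f (nat_lit 563) (nat_lit 564) (nat_lit 3600) (.d (nat_lit 591) (nat_lit 590) (nat_lit 2606) (nat_lit 594) (nat_lit 2607)))) (.a (.f (nat_lit 625) (nat_lit 496) (nat_lit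 7664) (.f (nat_lit 626) (nat_lit 658) (nat_lit 4625) (.f (nat_lit 591) (nat_lit 590) (nat_lit 590) (.d (nat_lit 627) (nat_lit 594) (nat_lit 591) (nat_lit 628) (nat_lit 3664))))) (.f (nat_lit 625) (nat_lit 496) (nat_lit 7664) (.f (nat_lit 657) (nat_lit 560) (nat_lit 7696) (.d (nat_lit 658) (nat_lit 626) (nat_lit 4625) (nat_lit 690) (nat_lit 4657))))))) (.a (.p (nat_lit 561) (.a (.f (nat_lit 562) (nat_lit 526) (nat_lit 526) (.f (nat_lit 563) (nat_lit 564) (nat_lit 3600) (.d (nat_lit 591) (nat_lit 590) (nat_lit 2606) (nat_lit 594) (nat_lit 2607)))) (.a (.f (nat_lit 497) (nat_lit 624) (nat_lit 5616) (.f (nat_lit 594) (nat_lit 626) (nat_lit 4593) (.f (nat_lit 562) (nat_lit 465) (nat_lit 4561) (.d (nat_lit 563) (nat_lit 564) (nat_lit 1584) (nat_lit 591) (nat_lit 2607))))) (.a (.f (nat_lit 497) (nat_lit 624) (nat_lit 5616) (.f (nat_lit 594) (nat_lit 626) (nat_lit 4593) (.f (nat_lit 562) (nat_lit 465) (nat_lit 4561) (.d (nat_lit 563) (nat_lit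 530) (nat_lit 527) (nat_lit 564) (nat_lit 3600))))) (.f (nat_lit 497) (nat_lit 624) (nat_lit 5616) (.f (nat_lit 560) (nat_lit 465) (nat_lit 5584) (.f (nat_lit 496) (nat_lit 464) (nat_lit 4560) (.f (nat_lit 526) (nat_lit 525) (nat_lit 525) (.f (nat_lit 495) (nat_lit 463) (nat_lit 7631) (.f (nat_lit 591) (nat_lit 623) (nat_lit 5615) (.f (nat_lit 590) (nat_lit 589) (nat_lit 2605) (.d (nat_lit 558) (nat_lit 557) (nat_lit 3629) (nat_lit 622) (nat_lit 6638))))))))))))) (.p (nat_lit 560) (.a (.f (nat_lit 624) (nat_lit 497) (nat_lit 6640) (.d (nat_lit 625) (nat_lit 496) (nat_lit 4592) (nat_lit 657) (nat_lit 4624))) (.a (.f (nat_lit 624) (nat_lit 495) (nat_lit 7663) (.f (nat_lit 561) (nat_lit 656) (nat_lit 6672) (.d (nat_lit 526) (nat_lit 525) (nat_lit 525) (nat_lit 562) (nat_lit 526)))) (.f (nat_lit 496) (nat_lit 625) (nat_lit 4592) (.f (nat_lit 561) (nat_lit 464) (nat_lit 4560) (.d (nat_lit 526) (nat_lit 525) (nat_lit 525) (nat_lit 562) (nat_lit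 526)))))))))))))))))))))))
noncomputable def s18311 : Cert := .r (nat_lit 16209045190941378747264522569282111398454259652685483301944743458568313367990392076588979006111774107789179713591725348373559806391710671697063755444630727080615906093956692180992) (.p (nat_lit 530) (.a (.f (nat_lit 562) (nat_lit 563) (nat_lit 527) (.f (nat_lit 498) (nat_lit 499) (nat_lit 2543) (.f (nat_lit 561) (nat_lit 526) (nat_lit 526) (.d (nat_lit 466) (nat_lit 434) (nat_lit 5553) (nat_lit 593) (nat_lit 5585))))) (.a (.f (nat_lit 499) (nat_lit 498) (nat_lit 2543) (.f (nat_lit 531) (nat_lit 500) (nat_lit 2544) (.d (nat_lit 563) (nat_lit 562) (nat_lit 527) (nat_lit 564) (nat_lit 528)))) (.a (.f (nat_lit 559) (nat_lit 558) (nat_lit 1550) (.f (nat_lit 560) (nat_lit 531) (nat_lit 1551) (.f (nat_lit 624) (nat_lit 656) (nat_lit 7695) (.f (nat_lit 623) (nat_lit 655) (nat_lit 5647) (.f (nat_lit 625) (nat_lit 657) (nat_lit 4624) (.f (nat_lit 498) (nat_lit 499) (nat_lit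 2543) (.f (nat_lit 593) (nat_lit 561) (nat_lit 6641) (.d (nat_lit 594) (nat_lit 595) (nat_lit 3631) (nat_lit 622) (nat_lit 2638))))))))) (.f (nat_lit 562) (nat_lit 563) (nat_lit 527) (.f (nat_lit 526) (nat_lit 561) (nat_lit 526) (.d (nat_lit 558) (nat_lit 557) (nat_lit 1549) (nat_lit 559) (nat_lit 1550))))))))
noncomputable def s18312 : Cert := .r (nat_lit 16209045190941378747264522569282111398454259652685483301944743458568313367990392076588979006111774107789179713591725348373559806391710671697063755444630727080615906093956692180992) (.p (nat_lit 530) (.a (.f (nat_lit 559) (nat_lit 558) (nat_lit 1550) (.f (nat_lit 560) (nat_lit 531) (nat_lit 1551) (.d (nat_lit 624) (nat_lit 497) (nat_lit 6640) (nat_lit 656) (nat_lit 7695)))) (.a (.f (nat_lit 562) (nat_lit 563) (nat_lit 527) (.f (nat_lit 526) (nat_lit 561) (nat_lit 526) (.d (nat_lit 558) (nat_lit 557) (nat_lit 1549) (nat_lit 559) (nat_lit 1550)))) (.a (.f (nat_lit 562) (nat_lit 563) (nat_lit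 527) (.f (nat_lit 526) (nat_lit 561) (nat_lit 526) (.f (nat_lit 557) (nat_lit 558) (nat_lit 1549) (.f (nat_lit 525) (nat_lit 556) (nat_lit 1548) (.f (nat_lit 496) (nat_lit 497) (nat_lit 2541) (.d (nat_lit 495) (nat_lit 524) (nat_lit 2540) (nat_lit 531) (nat_lit 3567))))))) (.f (nat_lit 563) (nat_lit 562) (nat_lit 527) (.f (nat_lit 531) (nat_lit 564) (nat_lit 528) (.f (nat_lit 560) (nat_lit 559) (nat_lit 1551) (.d (nat_lit 495) (nat_lit 496) (nat_lit 3567) (nat_lit 624) (nat_lit 7663)))))))))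
noncomputable def s18313 : Cert := .r (nat_lit 16209045190941378746825175519033752376695418001544274136039499599359141821789146415201104242374324120453335896589392256855012842462655896782687948212648861876611168283325328523264) (.p (nat_lit 527) (.a s14436 (.a s18311 (.a (.p (nat_lit 530) (.a (.f (nat_lit 559) (nat_lit 558) (nat_lit 1550) (.f (nat_lit 560) (nat_lit 531) (nat_lit 1551) (.d (nat_lit 624) (nat_lit 497) (nat_lit 6640) (nat_lit 656) (nat_lit 7695)))) (.a (.f (nat_lit 498) (nat_lit 499) (nat_lit 2543) (.f (nat_lit 562) (nat_lit 563) (nat_lit 527) (.f (nat_lit 497) (nat_lit 526) (nat_lit 2542) (.d (nat_lit 465) (nat_lit 433) (nat_lit 4529) (nat_lit 594) (nat_lit 7633))))) (.f (nat_lit 499) (nat_lit 498) (nat_lit 2543) (.f (nat_lit 531) (nat_lit 500) (nat_lit 2544) (.d (nat_lit 563) (nat_lit 562) (nat_lit 527) (nat_lit 564) (nat_lit 528))))))) (.a s14644 (.a s16089 (.a s17951 s18312)))))))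
noncomputable def s18335 : Cert := .r (nat_lit 16209045190941378747264522569282111398454259652685483301944743458568313367990392076588979006111774107789179713591725348373559806391710671697063755444630727080615906093956692180992) (.p (nat_lit 530) (.a (.f (nat_lit 498) (nat_lit 499) (nat_lit 2543) (.f (nat_lit 526) (nat_lit 497) (nat_lit 2542) (.d (nat_lit 558) (nat_lit 557) (nat_lit 1549) (nat_lit 559) (nat_lit 1550)))) (.a (.f (nat_lit 559) (nat_lit 558) (nat_lit 1550) (.f (nat_lit 531) (nat_lit 560) (nat_lit 1551) (.d (nat_lit 499) (nat_lit 498) (nat_lit 2543) (nat_lit 500) (nat_lit 2544)))) (.a (.f (nat_lit 499) (nat_lit 498) (nat_lit 2543) (.f (nat_lit 531) (nat_lit 500) (nat_lit 2544) (.f (nat_lit 564) (nat_lit 563) (nat_lit 528) (.f (nat_lit 532) (nat_lit 565) (nat_lit 529) (.d (nat_lit 496) (nat_lit 495) (nat_lit 3567) (nat_lit 497) (nat_lit 3568)))))) (.a (.f (nat_lit 559) (nat_lit 558) (nat_lit 1550) (.f (nat_lit 531) (nat_lit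 560) (nat_lit 1551) (.f (nat_lit 496) (nat_lit 495) (nat_lit 3567) (.f (nat_lit 532) (nat_lit 497) (nat_lit 3568) (.d (nat_lit 500) (nat_lit 499) (nat_lit 2544) (nat_lit 501) (nat_lit 2545)))))) (.f (nat_lit 559) (nat_lit 558) (nat_lit 1550) (.f (nat_lit 531) (nat_lit 560) (nat_lit 1551) (.f (nat_lit 496) (nat_lit 495) (nat_lit 3567) (.f (nat_lit 497) (nat_lit 532) (nat_lit 3568) (.d (nat_lit 526) (nat_lit 498) (nat_lit 2542) (nat_lit 525) (nat_lit 2541)))))))))))
noncomputable def s18355 : Cert := .r (nat_lit 16209045190941378747264522569282111398454259652685483301944743458568313367990392076588979006111774107789179713591725348373559806391710671697063755444630727080615906093956692180992) (.p (nat_lit 560) (.a (.d (nat_lit 624) (nat_lit 495) (nat_lit 7663) (nat_lit 497) (nat_lit 6640)) (.a (.f (nat_lit 495) (nat_lit 624) (nat_lit 7663) (.d (nat_lit 463) (nat_lit 431) (nat_lit 4527) (nat_lit 496) (nat_lit 7631))) (.a (.f (nat_lit 497)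 (nat_lit 624) (nat_lit 6640) (.d (nat_lit 465) (nat_lit 433) (nat_lit 5552) (nat_lit 496) (nat_lit 6608))) (.p (nat_lit 526) (.a (.f (nat_lit 557) (nat_lit 558) (nat_lit 1549) (.f (nat_lit 525) (nat_lit 556) (nat_lit 1548) (.f (nat_lit 492) (nat_lit 493) (nat_lit 3564) (.d (nat_lit 524) (nat_lit 491) (nat_lit 3563) (nat_lit 559) (nat_lit 524))))) (.a (.f (nat_lit 557) (nat_lit 558) (nat_lit 1549) (.f (nat_lit 525) (nat_lit 556) (nat_lit 1548) (.f (nat_lit 496) (nat_lit 497) (nat_lit 2541) (.d (nat_lit 495) (nat_lit 463) (nat_lit 7631) (nat_lit 524) (nat_lit 2540))))) (.a (.f (nat_lit 525) (nat_lit 561) (nat_lit 525) (.f (nat_lit 496) (nat_lit 497) (nat_lit 2541) (.d (nat_lit 495) (nat_lit 463) (nat_lit 7631) (nat_lit 524) (nat_lit 2540)))) (.f (nat_lit 558) (nat_lit 557) (nat_lit 1549) (.f (nat_lit 559) (nat_lit 530) (nat_lit 1550) (.f (nat_lit 495) (nat_lit 463) (nat_lit 4559) (.f (nat_lit 590) (nat_lit 622) (nat_lit 6638) (.f (nat_lit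 561) (nat_lit 589) (nat_lit 1581) (.f (nat_lit 593) (nat_lit 594) (nat_lit 558) (.d (nat_lit 496) (nat_lit 464) (nat_lit 4560) (nat_lit 625) (nat_lit 4592))))))))))))))))
noncomputable def s18357 : Cert := .r (nat_lit 16209045190941378747264522569282111398454259652685483301944743458568313367990392076588979006111774107789179713591725348373559806391710671697063755444630727080615906093956692180992) (.p (nat_lit 530) (.a (.f (nat_lit 559) (nat_lit 558) (nat_lit 1550) (.f (nat_lit 560) (nat_lit 531) (nat_lit 1551) (.f (nat_lit 562) (nat_lit 563) (nat_lit 527) (.f (nat_lit 561) (nat_lit 526) (nat_lit 526) (.f (nat_lit 591) (nat_lit 590) (nat_lit 1582) (.d (nat_lit 496) (nat_lit 464) (nat_lit 5583) (nat_lit 623) (nat_lit 5615))))))) (.a (.f (nat_lit 562) (nat_lit 563) (nat_lit 527) (.f (nat_lit 498) (nat_lit 499) (nat_lit 2543) (.f (nat_lit 561) (nat_lit 526) (nat_lit 526) (.d (nat_lit 466) (nat_lit 434) (nat_lit 5553) (nat_lit 593) (nat_lit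 5585))))) (.a (.f (nat_lit 499) (nat_lit 498) (nat_lit 2543) (.f (nat_lit 531) (nat_lit 500) (nat_lit 2544) (.d (nat_lit 563) (nat_lit 562) (nat_lit 527) (nat_lit 564) (nat_lit 528)))) (.f (nat_lit 559) (nat_lit 558) (nat_lit 1550) (.f (nat_lit 531) (nat_lit 560) (nat_lit 1551) (.d (nat_lit 499) (nat_lit 498) (nat_lit 2543) (nat_lit 500) (nat_lit 2544))))))))
noncomputable def s18368 : Cert := .r (nat_lit 16209045190941378747264522569282111398454259652685483301944743458568313367990392076588979006111774107789179713591725348373559806391710671697063755444630727080615906093956692180992) (.p (nat_lit 526) (.a (.f (nat_lit 561) (nat_lit 562) (nat_lit 526) (.f (nat_lit 560) (nat_lit 525) (nat_lit 525) (.d (nat_lit 497) (nat_lit 465) (nat_lit 5584) (nat_lit 498) (nat_lit 2542)))) (.a (.f (nat_lit 497) (nat_lit 498) (nat_lit 2542) (.f (nat_lit 525) (nat_lit 496) (nat_lit 2541) (.d (nat_lit 557) (nat_lit 556) (nat_lit 1548) (nat_lit 558) (nat_lit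 1549)))) (.a (.f (nat_lit 561) (nat_lit 562) (nat_lit 526) (.f (nat_lit 525) (nat_lit 560) (nat_lit 525) (.d (nat_lit 557) (nat_lit 556) (nat_lit 1548) (nat_lit 558) (nat_lit 1549)))) (.f (nat_lit 497) (nat_lit 498) (nat_lit 2542) (.f (nat_lit 561) (nat_lit 562) (nat_lit 526) (.f (nat_lit 465) (nat_lit 560) (nat_lit 5584) (.f (nat_lit 434) (nat_lit 466) (nat_lit 6577) (.f (nat_lit 433) (nat_lit 402) (nat_lit 6545) (.f (nat_lit 496) (nat_lit 401) (nat_lit 5520) (.d (nat_lit 593) (nat_lit 464) (nat_lit 7632) (nat_lit 625) (nat_lit 7664))))))))))))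
noncomputable def s18404 : Cert := .r (nat_lit 16209045190941378747264522569282111398454259652685483301944743458568313367990392076588979006111774107789179713591725348373559806391710671697063755444630727080615906093956692180992) (.p (nat_lit 530) (.a (.f (nat_lit 498) (nat_lit 499) (nat_lit 2543) (.f (nat_lit 562) (nat_lit 563) (nat_lit 527) (.d (nat_lit 526) (nat_lit 497) (nat_lit 2542) (nat_lit 561) (nat_lit 526)))) (.a (.f (nat_lit 562) (nat_lit 563) (nat_lit 527) (.f (nat_lit 498) (nat_lit 499) (nat_lit 2543) (.f (nat_lit 561) (nat_lit 526) (nat_lit 526) (.d (nat_lit 466) (nat_lit 434) (nat_lit 5553) (nat_lit 593) (nat_lit 5585))))) (.a (.f (nat_lit 498) (nat_lit 499) (nat_lit 2543) (.f (nat_lit 562) (nat_lit 563) (nat_lit 527) (.f (nat_lit 497) (nat_lit 526) (nat_lit 2542) (.d (nat_lit 465) (nat_lit 433) (nat_lit 4529) (nat_lit 594) (nat_lit 7633))))) (.a (.f (nat_lit 499) (nat_lit 498) (nat_lit 2543) (.f (nat_lit 531) (nat_lit 500)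 (nat_lit 2544) (.d (nat_lit 563) (nat_lit 562) (nat_lit 527) (nat_lit 564) (nat_lit 528)))) (.a (.f (nat_lit 499) (nat_lit 498) (nat_lit 2543) (.f (nat_lit 531) (nat_lit 500) (nat_lit 2544) (.f (nat_lit 564) (nat_lit 563) (nat_lit 528) (.f (nat_lit 532) (nat_lit 565) (nat_lit 529) (.d (nat_lit 496) (nat_lit 495) (nat_lit 3567) (nat_lit 497) (nat_lit 3568)))))) (.a (.f (nat_lit 498) (nat_lit 499) (nat_lit 2543) (.f (nat_lit 526) (nat_lit 497) (nat_lit 2542) (.f (nat_lit 561) (nat_lit 562) (nat_lit 526) (.f (nat_lit 560) (nat_lit 525) (nat_lit 525) (.f (nat_lit 593) (nat_lit 625) (nat_lit 6641) (.f (nat_lit 496) (nat_lit 464) (nat_lit 4560) (.d (nat_lit 495) (nat_lit 463) (nat_lit 7631) (nat_lit 531) (nat_lit 3567)))))))) (.a (.f (nat_lit 563) (nat_lit 562) (nat_lit 527) (.f (nat_lit 531) (nat_lit 564) (nat_lit 528) (.f (nat_lit 500) (nat_lit 499) (nat_lit 2544) (.f (nat_lit 532) (nat_lit 501) (nat_lit 2545) (.d (nat_lit 496) (nat_lit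 495) (nat_lit 3567) (nat_lit 497) (nat_lit 3568)))))) (.f (nat_lit 562) (nat_lit 563) (nat_lit 527) (.f (nat_lit 526) (nat_lit 561) (nat_lit 526) (.f (nat_lit 497) (nat_lit 498) (nat_lit 2542) (.f (nat_lit 496) (nat_lit 525) (nat_lit 2541) (.d (nat_lit 531) (nat_lit 495) (nat_lit 3567) (nat_lit 532) (nat_lit 3568))))))))))))))
noncomputable def s18406 : Cert := .r (nat_lit 16209045190941378746825175519033752376695418001544274136039499599359141821789146415201104242374324120453335896589392256855012842462655896782687948212648861876611168283325328523264) (.p (nat_lit 527) (.a s14436 (.a s18357 (.a s18143 (.a s18368 (.a (.p (nat_lit 496) (.a (.p (nat_lit 560) (.a (.f (nat_lit 591) (nat_lit 623) (nat_lit 5615) (.f (nat_lit 593) (nat_lit 625) (nat_lit 4592) (.d (nat_lit 464) (nat_lit 559) (nat_lit 5583) (nat_lit 561) (nat_lit 4560)))) (.a (.f (nat_lit 591) (nat_lit 623) (nat_lit 5615) (.f (nat_lit 559) (nat_lit 464) (nat_lit 5583) (.f (nat_lit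 558) (nat_lit 557) (nat_lit 2573) (.d (nat_lit 593) (nat_lit 594) (nat_lit 3630) (nat_lit 625) (nat_lit 4592))))) (.a (.f (nat_lit 593) (nat_lit 625) (nat_lit 4592) (.f (nat_lit 561) (nat_lit 464) (nat_lit 4560) (.f (nat_lit 562) (nat_lit 563) (nat_lit 3599) (.d (nat_lit 591) (nat_lit 590) (nat_lit 2606) (nat_lit 623) (nat_lit 5615))))) (.a (.f (nat_lit 463) (nat_lit 495) (nat_lit 7631) (.f (nat_lit 465) (nat_lit 497) (nat_lit 6608) (.d (nat_lit 464) (nat_lit 431) (nat_lit 7599) (nat_lit 433) (nat_lit 6576)))) (.f (nat_lit 497) (nat_lit 465) (nat_lit 6608) (.f (nat_lit 495) (nat_lit 463) (nat_lit 7631) (.f (nat_lit 498) (nat_lit 499) (nat_lit 1519) (.f (nat_lit 593) (nat_lit 625) (nat_lit 4592) (.d (nat_lit 466) (nat_lit 467) (nat_lit 2511) (nat_lit 561) (nat_lit 6609))))))))))) (.a (.p (nat_lit 530) (.a (.f (nat_lit 499) (nat_lit 498) (nat_lit 2543) (.f (nat_lit 531) (nat_lit 500) (nat_lit 2544) (.d (nat_lit 563) (nat_lit 562) (nat_lit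 527) (nat_lit 564) (nat_lit 528)))) (.a (.f (nat_lit 498) (nat_lit 499) (nat_lit 2543) (.f (nat_lit 562) (nat_lit 563) (nat_lit 527) (.f (nat_lit 559) (nat_lit 558) (nat_lit 1550) (.f (nat_lit 591) (nat_lit 623) (nat_lit 6639) (.f (nat_lit 495) (nat_lit 464) (nat_lit 6607) (.f (nat_lit 590) (nat_lit 622) (nat_lit 5614) (.f (nat_lit 593) (nat_lit 561) (nat_lit 2606) (.d (nat_lit 625) (nat_lit 594) (nat_lit 5617) (nat_lit 626) (nat_lit 590))))))))) (.a (.f (nat_lit 499) (nat_lit 498) (nat_lit 2543) (.f (nat_lit 531) (nat_lit 500) (nat_lit 2544) (.f (nat_lit 532) (nat_lit 497) (nat_lit 3568) (.d (nat_lit 564) (nat_lit 563) (nat_lit 528) (nat_lit 565) (nat_lit 529))))) (.a (.f (nat_lit 531) (nat_lit 495) (nat_lit 3567) (.f (nat_lit 532) (nat_lit 497) (nat_lit 3568) (.d (nat_lit 500) (nat_lit 499) (nat_lit 2544) (nat_lit 501) (nat_lit 2545)))) (.f (nat_lit 531) (nat_lit 495) (nat_lit 3567) (.d (nat_lit 563) (nat_lit 562) (nat_lit 527) (nat_lit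 564) (nat_lit 528)))))))) (.a (.p (nat_lit 560) (.a (.f (nat_lit 591) (nat_lit 623) (nat_lit 5615) (.f (nat_lit 593) (nat_lit 625) (nat_lit 4592) (.d (nat_lit 464) (nat_lit 559) (nat_lit 5583) (nat_lit 561) (nat_lit 4560)))) (.a (.f (nat_lit 591) (nat_lit 623) (nat_lit 5615) (.f (nat_lit 559) (nat_lit 464) (nat_lit 5583) (.f (nat_lit 558) (nat_lit 557) (nat_lit 2573) (.d (nat_lit 593) (nat_lit 594) (nat_lit 3630) (nat_lit 625) (nat_lit 4592))))) (.a (.f (nat_lit 593) (nat_lit 625) (nat_lit 4592) (.f (nat_lit 561) (nat_lit 464) (nat_lit 4560) (.f (nat_lit 562) (nat_lit 563) (nat_lit 3599) (.d (nat_lit 591) (nat_lit 590) (nat_lit 2606) (nat_lit 623) (nat_lit 5615))))) (.a (.f (nat_lit 495) (nat_lit 463) (nat_lit 7631) (.f (nat_lit 530) (nat_lit 531) (nat_lit 3567) (.f (nat_lit 559) (nat_lit 558) (nat_lit 1550) (.d (nat_lit 591) (nat_lit 464) (nat_lit 6607) (nat_lit 623) (nat_lit 5615))))) (.a (.f (nat_lit 463) (nat_lit 495) (nat_lit 7631)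 (.f (nat_lit 593) (nat_lit 625) (nat_lit 4592) (.d (nat_lit 464) (nat_lit 431) (nat_lit 7599) (nat_lit 561) (nat_lit 4560)))) (.f (nat_lit 495) (nat_lit 463) (nat_lit 7631) (.f (nat_lit 530) (nat_lit 531) (nat_lit 3567) (.f (nat_lit 559) (nat_lit 558) (nat_lit 1550) (.f (nat_lit 591) (nat_lit 623) (nat_lit 5615) (.f (nat_lit 590) (nat_lit 622) (nat_lit 5614) (.d (nat_lit 561) (nat_lit 562) (nat_lit 1582) (nat_lit 589) (nat_lit 2605))))))))))))) (.a (.p (nat_lit 560) (.a (.f (nat_lit 591) (nat_lit 623) (nat_lit 5615) (.f (nat_lit 559) (nat_lit 464) (nat_lit 5583) (.f (nat_lit 558) (nat_lit 557) (nat_lit 2573) (.d (nat_lit 593) (nat_lit 594) (nat_lit 3630) (nat_lit 625) (nat_lit 4592))))) (.a (.f (nat_lit 463) (nat_lit 495) (nat_lit 7631) (.f (nat_lit 465) (nat_lit 497) (nat_lit 6608) (.d (nat_lit 464) (nat_lit 431) (nat_lit 7599) (nat_lit 433) (nat_lit 6576)))) (.f (nat_lit 495) (nat_lit 463) (nat_lit 7631) (.f (nat_lit 530) (nat_lit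 531) (nat_lit 3567) (.f (nat_lit 559) (nat_lit 558) (nat_lit 1550) (.f (nat_lit 591) (nat_lit 623) (nat_lit 5615) (.f (nat_lit 497) (nat_lit 465) (nat_lit 6608) (.f (nat_lit 593) (nat_lit 625) (nat_lit 4592) (.f (nat_lit 594) (nat_lit 595) (nat_lit 3631) (.d (nat_lit 562) (nat_lit 563) (nat_lit 2607) (nat_lit 626) (nat_lit 7665)))))))))))) (.a (.p (nat_lit 560) (.a (.f (nat_lit 593) (nat_lit 625) (nat_lit 4592) (.f (nat_lit 561) (nat_lit 464) (nat_lit 4560) (.f (nat_lit 562) (nat_lit 563) (nat_lit 3599) (.d (nat_lit 591) (nat_lit 590) (nat_lit 2606) (nat_lit 623) (nat_lit 5615))))) (.a (.f (nat_lit 463) (nat_lit 495) (nat_lit 7631) (.f (nat_lit 465) (nat_lit 497) (nat_lit 6608) (.d (nat_lit 464) (nat_lit 431) (nat_lit 7599) (nat_lit 433) (nat_lit 6576)))) (.f (nat_lit 497) (nat_lit 465) (nat_lit 6608) (.f (nat_lit 495) (nat_lit 463) (nat_lit 7631) (.f (nat_lit 498) (nat_lit 499) (nat_lit 1519) (.f (nat_lit 593) (nat_lit 625) (nat_lit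 4592) (.d (nat_lit 466) (nat_lit 467) (nat_lit 2511) (nat_lit 561) (nat_lit 6609))))))))) (.a (.p (nat_lit 560) (.a (.f (nat_lit 463) (nat_lit 495) (nat_lit 7631) (.f (nat_lit 465) (nat_lit 497) (nat_lit 6608) (.d (nat_lit 464) (nat_lit 431) (nat_lit 7599) (nat_lit 433) (nat_lit 6576)))) (.a (.f (nat_lit 495) (nat_lit 463) (nat_lit 7631) (.f (nat_lit 530) (nat_lit 531) (nat_lit 3567) (.f (nat_lit 559) (nat_lit 558) (nat_lit 1550) (.d (nat_lit 591) (nat_lit 464) (nat_lit 6607) (nat_lit 623) (nat_lit 5615))))) (.a (.f (nat_lit 465) (nat_lit 497) (nat_lit 6608) (.f (nat_lit 591) (nat_lit 623) (nat_lit 5615) (.d (nat_lit 464) (nat_lit 433) (nat_lit 6576) (nat_lit 559) (nat_lit 5583)))) (.f (nat_lit 495) (nat_lit 463) (nat_lit 7631) (.f (nat_lit 530) (nat_lit 531) (nat_lit 3567) (.f (nat_lit 559) (nat_lit 558) (nat_lit 1550) (.f (nat_lit 591) (nat_lit 623) (nat_lit 5615) (.f (nat_lit 590) (nat_lit 622) (nat_lit 5614) (.d (nat_lit 561) (nat_lit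 562) (nat_lit 1582) (nat_lit 589) (nat_lit 2605))))))))))) (.a (.p (nat_lit 560) (.a (.f (nat_lit 591) (nat_lit 623) (nat_lit 5615) (.f (nat_lit 593) (nat_lit 625) (nat_lit 4592) (.d (nat_lit 464) (nat_lit 559) (nat_lit 5583) (nat_lit 561) (nat_lit 4560)))) (.a (.f (nat_lit 591) (nat_lit 623) (nat_lit 5615) (.f (nat_lit 559) (nat_lit 464) (nat_lit 5583) (.f (nat_lit 558) (nat_lit 557) (nat_lit 2573) (.d (nat_lit 593) (nat_lit 594) (nat_lit 3630) (nat_lit 625) (nat_lit 4592))))) (.a (.f (nat_lit 593) (nat_lit 625) (nat_lit 4592) (.f (nat_lit 561) (nat_lit 464) (nat_lit 4560) (.f (nat_lit 562) (nat_lit 563) (nat_lit 3599) (.d (nat_lit 591) (nat_lit 590) (nat_lit 2606) (nat_lit 623) (nat_lit 5615))))) (.a (.f (nat_lit 465) (nat_lit 497) (nat_lit 6608) (.f (nat_lit 591) (nat_lit 623) (nat_lit 5615) (.d (nat_lit 464) (nat_lit 433) (nat_lit 6576) (nat_lit 559) (nat_lit 5583)))) (.a (.f (nat_lit 497) (nat_lit 465) (nat_lit 6608) (.f (nat_lit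 593) (nat_lit 625) (nat_lit 4592) (.f (nat_lit 561) (nat_lit 464) (nat_lit 4560) (.d (nat_lit 498) (nat_lit 466) (nat_lit 6609) (nat_lit 499) (nat_lit 1519))))) (.f (nat_lit 497) (nat_lit 465) (nat_lit 6608) (.f (nat_lit 498) (nat_lit 499) (nat_lit 1519) (.f (nat_lit 593) (nat_lit 625) (nat_lit 4592) (.f (nat_lit 561) (nat_lit 466) (nat_lit 6609) (.f (nat_lit 594) (nat_lit 626) (nat_lit 4593) (.d (nat_lit 559) (nat_lit 558) (nat_lit 558) (nat_lit 595) (nat_lit 3631))))))))))))) (.a (.p (nat_lit 560) (.a (.f (nat_lit 463) (nat_lit 495) (nat_lit 7631) (.f (nat_lit 593) (nat_lit 625) (nat_lit 4592) (.d (nat_lit 464) (nat_lit 431) (nat_lit 7599) (nat_lit 561) (nat_lit 4560)))) (.a (.f (nat_lit 463) (nat_lit 495) (nat_lit 7631) (.f (nat_lit 465) (nat_lit 497) (nat_lit 6608) (.d (nat_lit 464) (nat_lit 431) (nat_lit 7599) (nat_lit 433) (nat_lit 6576)))) (.a (.f (nat_lit 497) (nat_lit 465) (nat_lit 6608) (.f (nat_lit 593) (nat_lit 625) (nat_lit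 4592) (.f (nat_lit 561) (nat_lit 464) (nat_lit 4560) (.d (nat_lit 498) (nat_lit 466) (nat_lit 6609) (nat_lit 499) (nat_lit 1519))))) (.f (nat_lit 497) (nat_lit 465) (nat_lit 6608) (.f (nat_lit 495) (nat_lit 463) (nat_lit 7631) (.f (nat_lit 498) (nat_lit 499) (nat_lit 1519) (.f (nat_lit 593) (nat_lit 625) (nat_lit 4592) (.d (nat_lit 466) (nat_lit 467) (nat_lit 2511) (nat_lit 561) (nat_lit 6609)))))))))) (.p (nat_lit 560) (.a (.f (nat_lit 497) (nat_lit 465) (nat_lit 6608) (.f (nat_lit 495) (nat_lit 463) (nat_lit 7631) (.f (nat_lit 498) (nat_lit 499) (nat_lit 1519) (.f (nat_lit 593) (nat_lit 625) (nat_lit 4592) (.d (nat_lit 466) (nat_lit 467) (nat_lit 2511) (nat_lit 561) (nat_lit 6609)))))) (.a (.f (nat_lit 495) (nat_lit 463) (nat_lit 7631) (.f (nat_lit 530) (nat_lit 531) (nat_lit 3567) (.f (nat_lit 559) (nat_lit 558) (nat_lit 1550) (.f (nat_lit 591) (nat_lit 623) (nat_lit 5615) (.f (nat_lit 590) (nat_lit 622) (nat_lit 5614) (.d (nat_lit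 561) (nat_lit 562) (nat_lit 1582) (nat_lit 589) (nat_lit 2605))))))) (.a (.f (nat_lit 495) (nat_lit 463) (nat_lit 7631) (.f (nat_lit 530) (nat_lit 531) (nat_lit 3567) (.f (nat_lit 559) (nat_lit 558) (nat_lit 1550) (.f (nat_lit 591) (nat_lit 623) (nat_lit 5615) (.f (nat_lit 497) (nat_lit 465) (nat_lit 6608) (.f (nat_lit 593) (nat_lit 625) (nat_lit 4592) (.f (nat_lit 594) (nat_lit 595) (nat_lit 3631) (.d (nat_lit 562) (nat_lit 563) (nat_lit 2607) (nat_lit 626) (nat_lit 7665))))))))) (.f (nat_lit 497) (nat_lit 465) (nat_lit 6608) (.f (nat_lit 498) (nat_lit 499) (nat_lit 1519) (.f (nat_lit 593) (nat_lit 625) (nat_lit 4592) (.f (nat_lit 561) (nat_lit 466) (nat_lit 6609) (.f (nat_lit 594) (nat_lit 626) (nat_lit 4593) (.d (nat_lit 559) (nat_lit 558) (nat_lit 558) (nat_lit 595) (nat_lit 3631)))))))))))))))))))) (.a s18335 (.a s18404 (.p (nat_lit 530) (.a (.f (nat_lit 559) (nat_lit 558) (nat_lit 1550) (.f (nat_lit 560) (nat_lit 531) (nat_lit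 1551) (.f (nat_lit 562) (nat_lit 563) (nat_lit 527) (.f (nat_lit 561) (nat_lit 526) (nat_lit 526) (.f (nat_lit 591) (nat_lit 590) (nat_lit 1582) (.d (nat_lit 496) (nat_lit 464) (nat_lit 5583) (nat_lit 623) (nat_lit 5615))))))) (.a (.f (nat_lit 562) (nat_lit 563) (nat_lit 527) (.f (nat_lit 526) (nat_lit 561) (nat_lit 526) (.d (nat_lit 558) (nat_lit 557) (nat_lit 1549) (nat_lit 559) (nat_lit 1550)))) (.a (.f (nat_lit 558) (nat_lit 559) (nat_lit 1550) (.f (nat_lit 526) (nat_lit 557) (nat_lit 1549) (.f (nat_lit 563) (nat_lit 562) (nat_lit 527) (.f (nat_lit 531) (nat_lit 564) (nat_lit 528) (.f (nat_lit 496) (nat_lit 495) (nat_lit 3567) (.d (nat_lit 497) (nat_lit 525) (nat_lit 2541) (nat_lit 532) (nat_lit 3568))))))) (.a (.f (nat_lit 562) (nat_lit 563) (nat_lit 527) (.f (nat_lit 526) (nat_lit 561) (nat_lit 526) (.f (nat_lit 557) (nat_lit 558) (nat_lit 1549) (.f (nat_lit 525) (nat_lit 556) (nat_lit 1548) (.f (nat_lit 496) (nat_lit 497) (nat_lit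 2541) (.d (nat_lit 495) (nat_lit 524) (nat_lit 2540) (nat_lit 531) (nat_lit 3567))))))) (.a (.f (nat_lit 563) (nat_lit 562) (nat_lit 527) (.f (nat_lit 531) (nat_lit 564) (nat_lit 528) (.f (nat_lit 500) (nat_lit 499) (nat_lit 2544) (.f (nat_lit 532) (nat_lit 501) (nat_lit 2545) (.d (nat_lit 496) (nat_lit 495) (nat_lit 3567) (nat_lit 497) (nat_lit 3568)))))) (.f (nat_lit 559) (nat_lit 558) (nat_lit 1550) (.f (nat_lit 531) (nat_lit 560) (nat_lit 1551) (.f (nat_lit 496) (nat_lit 495) (nat_lit 3567) (.f (nat_lit 532) (nat_lit 497) (nat_lit 3568) (.d (nat_lit 500) (nat_lit 499) (nat_lit 2544) (nat_lit 501) (nat_lit 2545))))))))))))))))))))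
noncomputable def s18414 : Cert := .r (nat_lit 16209045190941378746825175519033752376695418001544274136039499599359141821789146415201104242374324120453335896589392256855012842462655896782687948212648861876611168283325328523264) (.p (nat_lit 527) (.a s14641 (.a s18183 (.a s18248 (.a s18271 (.a s18226 (.a s14644 (.a s17077 (.a s17951 (.a s18404 (.p (nat_lit 593) (.a (.p (nat_lit 560) (.a (.f (nat_lit 625) (nat_lit 496) (nat_lit 4592) (.d (nat_lit 657) (nat_lit 561) (nat_lit 7696) (nat_lit 624) (nat_lit 4624))) (.a (.f (nat_lit 624) (nat_lit 495) (nat_lit 7663) (.d (nat_lit 656) (nat_lit 559) (nat_lit 7695) (nat_lit 561) (nat_lit 6672))) (.a (.f (nat_lit 625) (nat_lit 496) (nat_lit 4592) (.d (nat_lit 657) (nat_lit 624) (nat_lit 4624) (nat_lit 689) (nat_lit 7728))) (.f (nat_lit 496) (nat_lit 625) (nat_lit 4592) (.f (nat_lit 591) (nat_lit 623) (nat_lit 5615) (.d (nat_lit 464) (nat_lit 559) (nat_lit 5583) (nat_lit 561) (nat_lit 4560))))))))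 (.a s16117 (.a (.p (nat_lit 624) (.a (.f (nat_lit 560) (nat_lit 495) (nat_lit 7663) (.f (nat_lit 625) (nat_lit 657) (nat_lit 4624) (.f (nat_lit 623) (nat_lit 655) (nat_lit 5647) (.d (nat_lit 594) (nat_lit 595) (nat_lit 1615) (nat_lit 622) (nat_lit 2638))))) (.a (.f (nat_lit 561) (nat_lit 497) (nat_lit 5616) (.d (nat_lit 656) (nat_lit 625) (nat_lit 5648) (nat_lit 688) (nat_lit 6704))) (.d (nat_lit 497) (nat_lit 560) (nat_lit 6640) (nat_lit 561) (nat_lit 5616))))) (.a s17977 (.a (.p (nat_lit 561) (.a (.f (nat_lit 562) (nat_lit 526) (nat_lit 526) (.f (nat_lit 563) (nat_lit 564) (nat_lit 3600) (.d (nat_lit 591) (nat_lit 590) (nat_lit 2606) (nat_lit 594) (nat_lit 2607)))) (.a (.f (nat_lit 625) (nat_lit 496) (nat_lit 7664) (.f (nat_lit 626) (nat_lit 658) (nat_lit 4625) (.f (nat_lit 591) (nat_lit 590) (nat_lit 590) (.d (nat_lit 627) (nat_lit 594) (nat_lit 591) (nat_lit 628) (nat_lit 3664))))) (.f (nat_lit 625) (nat_lit 496) (nat_lit 7664) (.f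 (nat_lit 657) (nat_lit 560) (nat_lit 7696) (.d (nat_lit 658) (nat_lit 626) (nat_lit 4625) (nat_lit 690) (nat_lit 4657))))))) (.p (nat_lit 561) (.a (.f (nat_lit 562) (nat_lit 526) (nat_lit 526) (.f (nat_lit 563) (nat_lit 564) (nat_lit 3600) (.d (nat_lit 591) (nat_lit 590) (nat_lit 2606) (nat_lit 594) (nat_lit 2607)))) (.a (.f (nat_lit 497) (nat_lit 624) (nat_lit 5616) (.f (nat_lit 594) (nat_lit 626) (nat_lit 4593) (.f (nat_lit 562) (nat_lit 465) (nat_lit 4561) (.d (nat_lit 563) (nat_lit 564) (nat_lit 1584) (nat_lit 591) (nat_lit 2607))))) (.a (.f (nat_lit 497) (nat_lit 624) (nat_lit 5616) (.f (nat_lit 594) (nat_lit 626) (nat_lit 4593) (.f (nat_lit 562) (nat_lit 465) (nat_lit 4561) (.d (nat_lit 563) (nat_lit 530) (nat_lit 527) (nat_lit 564) (nat_lit 3600))))) (.f (nat_lit 624) (nat_lit 497) (nat_lit 5616) (.d (nat_lit 560) (nat_lit 495) (nat_lit 7663) (nat_lit 656) (nat_lit 6672)))))))))))))))))))))))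
noncomputable def s18432 : Cert := .r (nat_lit 16209045190941378747264522569282111398454259652685483301944743458568313367990392076588979006111774107789179713591725348373559806391710671697063755444630727080615906093956692180992) (.p (nat_lit 558) (.a (.f (nat_lit 559) (nat_lit 530) (nat_lit 1550) (.d (nat_lit 557) (nat_lit 526) (nat_lit 1549) (nat_lit 556) (nat_lit 2572))) (.a (.f (nat_lit 557) (nat_lit 526) (nat_lit 1549) (.d (nat_lit 559) (nat_lit 556) (nat_lit 2572) (nat_lit 560) (nat_lit 2573))) (.a (.f (nat_lit 526) (nat_lit 557) (nat_lit 1549) (.f (nat_lit 561) (nat_lit 562) (nat_lit 526) (.f (nat_lit 560) (nat_lit 525) (nat_lit 525) (.d (nat_lit 624) (nat_lit 495) (nat_lit 7663) (nat_lit 656) (nat_lit 6672))))) (.a (.f (nat_lit 559) (nat_lit 530) (nat_lit 1550) (.d (nat_lit 557) (nat_lit 556) (nat_lit 2572) (nat_lit 560) (nat_lit 2573))) (.f (nat_lit 530) (nat_lit 559) (nat_lit 1550) (.f (nat_lit 499) (nat_lit 498) (nat_lit 2543)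 (.f (nat_lit 531) (nat_lit 500) (nat_lit 2544) (.f (nat_lit 495) (nat_lit 496) (nat_lit 3567) (.f (nat_lit 560) (nat_lit 624) (nat_lit 7663) (.f (nat_lit 561) (nat_lit 532) (nat_lit 1552) (.d (nat_lit 526) (nat_lit 525) (nat_lit 525) (nat_lit 562) (nat_lit 526)))))))))))))
noncomputable def s18433 : Cert := .r (nat_lit 16209045190941378746825175519033752376695418001544274136039499599359141821789146415201104242374324120453335896589392256855012842462655896782687948212648861876611168283325328523264) (.p (nat_lit 527) (.a s14615 (.a s18172 (.a s17657 (.a s18432 (.a s14644 (.a s17951 (.a s18368 s18355))))))))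
noncomputable def s18434 : Cert := .r (nat_lit 16209045190941378746825175519033752376695418001544274136039499599359141821789146415201104242374324120453335896589392256855012842462655896782687948212648861876611168283325328523264) (.p (nat_lit 527) (.a s14436 (.a s18432 (.a (.p (nat_lit 530) (.a (.f (nat_lit 559) (nat_lit 558) (nat_lit 1550) (.f (nat_lit 560) (nat_lit 531) (nat_lit 1551) (.d (nat_lit 624) (nat_lit 497) (nat_lit 6640) (nat_lit 656) (nat_lit 7695)))) (.a (.f (nat_lit 498) (nat_lit 499) (nat_lit 2543) (.f (nat_lit 562) (nat_lit 563) (nat_lit 527) (.f (nat_lit 497) (nat_lit 526) (nat_lit 2542) (.d (nat_lit 465) (nat_lit 433) (nat_lit 4529) (nat_lit 594) (nat_lit 7633))))) (.f (nat_lit 499) (nat_lit 498) (nat_lit 2543) (.f (nat_lit 531) (nat_lit 500) (nat_lit 2544) (.d (nat_lit 563) (nat_lit 562) (nat_lit 527) (nat_lit 564) (nat_lit 528))))))) (.a s14644 (.a s16089 (.a s17951 s18312)))))))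
noncomputable def s18435 : Cert := .r (nat_lit 16209045190941378746825175519033752376695418001544274136039499599359141821789146415201104242374324120453335896589392256855012842462655896782687948212648861876611168283325328523264) (.p (nat_lit 527) (.a s14394 (.a s14436 (.a s18311 (.a (.p (nat_lit 530) (.a (.f (nat_lit 559) (nat_lit 558) (nat_lit 1550) (.f (nat_lit 560) (nat_lit 531) (nat_lit 1551) (.d (nat_lit 624) (nat_lit 497) (nat_lit 6640) (nat_lit 656) (nat_lit 7695)))) (.a (.f (nat_lit 498) (nat_lit 499) (nat_lit 2543) (.f (nat_lit 562) (nat_lit 563) (nat_lit 527) (.f (nat_lit 497) (nat_lit 526) (nat_lit 2542) (.d (nat_lit 465) (nat_lit 433) (nat_lit 4529) (nat_lit 594) (nat_lit 7633))))) (.f (nat_lit 499) (nat_lit 498) (nat_lit 2543) (.f (nat_lit 531) (nat_lit 500) (nat_lit 2544) (.d (nat_lit 563) (nat_lit 562) (nat_lit 527) (nat_lit 564) (nat_lit 528))))))) (.a s14644 (.a s14601 (.a s17951 s14645))))))))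
noncomputable def s18436 : Cert := .r (nat_lit 2636082301490154130553049906847254995431463155255029277207473968327248582424699924015062902013998549111281783574328649486254843391891191224028426863788181946368) (.p (nat_lit 592) (.a s14646 (.a s18194 (.a s16578 (.a s16718 (.a s16663 (.a s18237 (.a s18300 (.a (.p (nat_lit 527) (.a s14394 (.a s18143 (.a (.p (nat_lit 530) (.a (.f (nat_lit 559) (nat_lit 558) (nat_lit 1550) (.f (nat_lit 560) (nat_lit 531) (nat_lit 1551) (.d (nat_lit 624) (nat_lit 497) (nat_lit 6640) (nat_lit 656) (nat_lit 7695)))) (.a (.f (nat_lit 498) (nat_lit 499) (nat_lit 2543) (.f (nat_lit 562) (nat_lit 563) (nat_lit 527) (.f (nat_lit 497) (nat_lit 526) (nat_lit 2542) (.d (nat_lit 465) (nat_lit 433) (nat_lit 4529) (nat_lit 594) (nat_lit 7633))))) (.f (nat_lit 499) (nat_lit 498) (nat_lit 2543) (.f (nat_lit 531) (nat_lit 500) (nat_lit 2544) (.d (nat_lit 563) (nat_lit 562) (nat_lit 527) (nat_lit 564) (nat_lit 528))))))) (.a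 (.p (nat_lit 530) (.a (.f (nat_lit 559) (nat_lit 558) (nat_lit 1550) (.f (nat_lit 560) (nat_lit 531) (nat_lit 1551) (.f (nat_lit 562) (nat_lit 563) (nat_lit 527) (.f (nat_lit 561) (nat_lit 526) (nat_lit 526) (.f (nat_lit 591) (nat_lit 590) (nat_lit 1582) (.d (nat_lit 496) (nat_lit 464) (nat_lit 5583) (nat_lit 623) (nat_lit 5615))))))) (.a (.f (nat_lit 499) (nat_lit 498) (nat_lit 2543) (.f (nat_lit 531) (nat_lit 500) (nat_lit 2544) (.d (nat_lit 563) (nat_lit 562) (nat_lit 527) (nat_lit 564) (nat_lit 528)))) (.a (.f (nat_lit 562) (nat_lit 563) (nat_lit 527) (.f (nat_lit 526) (nat_lit 561) (nat_lit 526) (.d (nat_lit 558) (nat_lit 557) (nat_lit 1549) (nat_lit 559) (nat_lit 1550)))) (.f (nat_lit 559) (nat_lit 558) (nat_lit 1550) (.f (nat_lit 560) (nat_lit 531) (nat_lit 1551) (.f (nat_lit 624) (nat_lit 656) (nat_lit 7695) (.f (nat_lit 623) (nat_lit 655) (nat_lit 5647) (.f (nat_lit 591) (nat_lit 496) (nat_lit 5615) (.f (nat_lit 625) (nat_lit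 657) (nat_lit 4624) (.d (nat_lit 590) (nat_lit 589) (nat_lit 589) (nat_lit 626) (nat_lit 3662)))))))))))) (.a s18220 (.a s18226 (.a s17307 s14645)))))))) (.a s18313 (.a (.p (nat_lit 527) (.a s14615 (.a s18172 (.a (.p (nat_lit 530) (.a (.f (nat_lit 559) (nat_lit 558) (nat_lit 1550) (.f (nat_lit 560) (nat_lit 531) (nat_lit 1551) (.d (nat_lit 624) (nat_lit 497) (nat_lit 6640) (nat_lit 656) (nat_lit 7695)))) (.a (.f (nat_lit 498) (nat_lit 499) (nat_lit 2543) (.f (nat_lit 526) (nat_lit 497) (nat_lit 2542) (.d (nat_lit 558) (nat_lit 557) (nat_lit 1549) (nat_lit 559) (nat_lit 1550)))) (.a (.f (nat_lit 559) (nat_lit 558) (nat_lit 1550) (.f (nat_lit 560) (nat_lit 531) (nat_lit 1551) (.f (nat_lit 624) (nat_lit 656) (nat_lit 7695) (.f (nat_lit 623) (nat_lit 655) (nat_lit 5647) (.f (nat_lit 625) (nat_lit 657) (nat_lit 4624) (.f (nat_lit 498) (nat_lit 499) (nat_lit 2543) (.f (nat_lit 593) (nat_lit 561) (nat_lit 6641) (.d (nat_lit 594) (nat_lit 595)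 (nat_lit 3631) (nat_lit 622) (nat_lit 2638))))))))) (.f (nat_lit 498) (nat_lit 499) (nat_lit 2543) (.f (nat_lit 497) (nat_lit 526) (nat_lit 2542) (.f (nat_lit 560) (nat_lit 624) (nat_lit 6640) (.d (nat_lit 465) (nat_lit 433) (nat_lit 5552) (nat_lit 561) (nat_lit 5584))))))))) (.a (.p (nat_lit 560) (.a (.f (nat_lit 495) (nat_lit 624) (nat_lit 7663) (.d (nat_lit 463) (nat_lit 431) (nat_lit 4527) (nat_lit 496) (nat_lit 7631))) (.a (.f (nat_lit 624) (nat_lit 495) (nat_lit 7663) (.d (nat_lit 656) (nat_lit 559) (nat_lit 7695) (nat_lit 561) (nat_lit 6672))) (.a s16014 (.p (nat_lit 530) (.a (.d (nat_lit 559) (nat_lit 531) (nat_lit 1551) (nat_lit 558) (nat_lit 1550)) (.a (.f (nat_lit 499) (nat_lit 498) (nat_lit 2543) (.f (nat_lit 531) (nat_lit 500) (nat_lit 2544) (.f (nat_lit 532) (nat_lit 561) (nat_lit 1552) (.d (nat_lit 564) (nat_lit 563) (nat_lit 528) (nat_lit 565) (nat_lit 529))))) (.f (nat_lit 558) (nat_lit 559) (nat_lit 1550) (.f (nat_lit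 526) (nat_lit 557) (nat_lit 1549) (.f (nat_lit 561) (nat_lit 525) (nat_lit 525) (.f (nat_lit 498) (nat_lit 499) (nat_lit 2543) (.f (nat_lit 593) (nat_lit 625) (nat_lit 6641) (.f (nat_lit 496) (nat_lit 464) (nat_lit 4560) (.f (nat_lit 495) (nat_lit 463) (nat_lit 7631) (.f (nat_lit 591) (nat_lit 623) (nat_lit 5615) (.d (nat_lit 590) (nat_lit 589) (nat_lit 2605) (nat_lit 622) (nat_lit 6638))))))))))))))))) (.a s17951 (.a s18335 s18355))))))) (.a s18406 (.a s18414 (.a (.p (nat_lit 527) (.a s14394 (.a s14436 (.a s18357 (.a (.p (nat_lit 530) (.a (.f (nat_lit 559) (nat_lit 558) (nat_lit 1550) (.f (nat_lit 560) (nat_lit 531) (nat_lit 1551) (.d (nat_lit 624) (nat_lit 497) (nat_lit 6640) (nat_lit 656) (nat_lit 7695)))) (.a (.f (nat_lit 498) (nat_lit 499) (nat_lit 2543) (.f (nat_lit 562) (nat_lit 563) (nat_lit 527) (.f (nat_lit 497) (nat_lit 526) (nat_lit 2542) (.d (nat_lit 465) (nat_lit 433) (nat_lit 4529) (nat_lit 594) (nat_lit 7633))))) (.f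 (nat_lit 499) (nat_lit 498) (nat_lit 2543) (.f (nat_lit 531) (nat_lit 500) (nat_lit 2544) (.d (nat_lit 563) (nat_lit 562) (nat_lit 527) (nat_lit 564) (nat_lit 528))))))) (.a s18220 (.a s14535 (.a s17307 (.a s14641 s14645))))))))) (.a s18118 (.a s18433 (.a s18434 s18435)))))))))))))))))
noncomputable def s18482 : Cert := .r (nat_lit 16209045190941378747264522569282111398454259652685483301944743458568313367990392076588979006111774107789179713591725348373559806391710671697063755444630727080615906093956692180992) (.p (nat_lit 593) (.a s16286 (.a (.p (nat_lit 530) (.a (.f (nat_lit 559) (nat_lit 558) (nat_lit 1550) (.f (nat_lit 495) (nat_lit 494) (nat_lit 3566) (.f (nat_lit 591) (nat_lit 624) (nat_lit 4591) (.f (nat_lit 622) (nat_lit 590) (nat_lit 5614) (.d (nat_lit 623) (nat_lit 594) (nat_lit 1614) (nat_lit 654) (nat_lit 5646)))))) (.f (nat_lit 498) (nat_lit 499) (nat_lit 2543) (.f (nat_lit 561) (nat_lit 625) (nat_lit 6641) (.d (nat_lit 466)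 (nat_lit 434) (nat_lit 5553) (nat_lit 562) (nat_lit 5585)))))) (.a (.p (nat_lit 558) (.a (.f (nat_lit 557) (nat_lit 526) (nat_lit 1549) (.f (nat_lit 591) (nat_lit 590) (nat_lit 3629) (.d (nat_lit 559) (nat_lit 556) (nat_lit 556) (nat_lit 594) (nat_lit 3630)))) (.a (.f (nat_lit 526) (nat_lit 557) (nat_lit 1549) (.f (nat_lit 494) (nat_lit 493) (nat_lit 3565) (.f (nat_lit 495) (nat_lit 530) (nat_lit 3566) (.d (nat_lit 463) (nat_lit 431) (nat_lit 5550) (nat_lit 590) (nat_lit 6606))))) (.a (.f (nat_lit 559) (nat_lit 530) (nat_lit 1550) (.f (nat_lit 591) (nat_lit 594) (nat_lit 3630) (.d (nat_lit 557) (nat_lit 556) (nat_lit 556) (nat_lit 590) (nat_lit 3629)))) (.f (nat_lit 530) (nat_lit 559) (nat_lit 1550) (.f (nat_lit 495) (nat_lit 494) (nat_lit 3566) (.f (nat_lit 531) (nat_lit 496) (nat_lit 3567) (.d (nat_lit 499) (nat_lit 498) (nat_lit 2543) (nat_lit 500) (nat_lit 2544))))))))) (.a (.p (nat_lit 530) (.a (.f (nat_lit 498) (nat_lit 499) (nat_lit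 2543) (.f (nat_lit 561) (nat_lit 625) (nat_lit 6641) (.d (nat_lit 466) (nat_lit 434) (nat_lit 5553) (nat_lit 562) (nat_lit 5585)))) (.a (.f (nat_lit 495) (nat_lit 494) (nat_lit 3566) (.f (nat_lit 531) (nat_lit 496) (nat_lit 3567) (.d (nat_lit 499) (nat_lit 498) (nat_lit 2543) (nat_lit 500) (nat_lit 2544)))) (.f (nat_lit 495) (nat_lit 494) (nat_lit 3566) (.f (nat_lit 496) (nat_lit 531) (nat_lit 3567) (.f (nat_lit 561) (nat_lit 625) (nat_lit 7664) (.f (nat_lit 562) (nat_lit 526) (nat_lit 526) (.f (nat_lit 591) (nat_lit 590) (nat_lit 2606) (.d (nat_lit 559) (nat_lit 464) (nat_lit 6607) (nat_lit 623) (nat_lit 6639)))))))))) (.p (nat_lit 530) (.a (.f (nat_lit 498) (nat_lit 499) (nat_lit 2543) (.f (nat_lit 561) (nat_lit 625) (nat_lit 6641) (.d (nat_lit 466) (nat_lit 434) (nat_lit 5553) (nat_lit 562) (nat_lit 5585)))) (.a (.f (nat_lit 499) (nat_lit 498) (nat_lit 2543) (.f (nat_lit 531) (nat_lit 500) (nat_lit 2544) (.f (nat_lit 559) (nat_lit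 558) (nat_lit 1550) (.f (nat_lit 495) (nat_lit 496) (nat_lit 3567) (.f (nat_lit 591) (nat_lit 624) (nat_lit 4591) (.f (nat_lit 622) (nat_lit 590) (nat_lit 5614) (.d (nat_lit 623) (nat_lit 594) (nat_lit 1614) (nat_lit 654) (nat_lit 5646)))))))) (.f (nat_lit 558) (nat_lit 559) (nat_lit 1550) (.f (nat_lit 526) (nat_lit 557) (nat_lit 1549) (.f (nat_lit 561) (nat_lit 562) (nat_lit 526) (.f (nat_lit 625) (nat_lit 496) (nat_lit 7664) (.f (nat_lit 624) (nat_lit 656) (nat_lit 5648) (.f (nat_lit 626) (nat_lit 658) (nat_lit 4625) (.d (nat_lit 591) (nat_lit 590) (nat_lit 590) (nat_lit 627) (nat_lit 3663))))))))))))))))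
noncomputable def s18491 : Cert := .r (nat_lit 16209045192828359959675293245402888688948394098143943912152963672756416518113204157785053432154837470378009097362459535888941728841595964012026151760911444206332254115781389844480) (.p (nat_lit 591) (.a (.f (nat_lit 558) (nat_lit 530) (nat_lit 1550) (.f (nat_lit 557) (nat_lit 556) (nat_lit 2572) (.d (nat_lit 593) (nat_lit 590) (nat_lit 3629) (nat_lit 594) (nat_lit 3630)))) (.a (.f (nat_lit 623) (nat_lit 496) (nat_lit 6639) (.f (nat_lit 624) (nat_lit 656) (nat_lit 4623) (.f (nat_lit 622) (nat_lit 654) (nat_lit 5646) (.f (nat_lit 621) (nat_lit 620) (nat_lit 2636) (.f (nat_lit 589) (nat_lit 588) (nat_lit 3660) (.f (nat_lit 625) (nat_lit 590) (nat_lit 589) (.f (nat_lit 626) (nat_lit 627) (nat_lit 3663) (.d (nat_lit 658) (nat_lit 657) (nat_lit 622) (nat_lit 659) (nat_lit 623))))))))) (.f (nat_lit 623) (nat_lit 496) (nat_lit 6639) (.f (nat_lit 558) (nat_lit 530) (nat_lit 1550) (.f (nat_lit 624)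 (nat_lit 656) (nat_lit 4623) (.f (nat_lit 593) (nat_lit 594) (nat_lit 3630) (.d (nat_lit 622) (nat_lit 621) (nat_lit 2637) (nat_lit 654) (nat_lit 5646)))))))))
noncomputable def s18496 : Cert := .r (nat_lit 16209045192828359959675293245402888688948394098143943912152963672756416518113204157785053432154837470378009097362459535888941728841595964012026151760911444206332254115781389844480) (.p (nat_lit 591) (.a (.f (nat_lit 623) (nat_lit 496) (nat_lit 6639) (.f (nat_lit 622) (nat_lit 654) (nat_lit 5646) (.f (nat_lit 590) (nat_lit 495) (nat_lit 5614) (.d (nat_lit 593) (nat_lit 594) (nat_lit 1614) (nat_lit 621) (nat_lit 1613))))) (.a (.f (nat_lit 495) (nat_lit 624) (nat_lit 4591) (.d (nat_lit 494) (nat_lit 462) (nat_lit 7630) (nat_lit 530) (nat_lit 3566))) (.f (nat_lit 623) (nat_lit 496) (nat_lit 6639) (.f (nat_lit 624) (nat_lit 656) (nat_lit 4623) (.f (nat_lit 622) (nat_lit 654) (nat_lit 5646) (.f (nat_lit 621) (nat_lit 620) (nat_lit 2636)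 (.f (nat_lit 589) (nat_lit 588) (nat_lit 3660) (.f (nat_lit 625) (nat_lit 590) (nat_lit 589) (.f (nat_lit 626) (nat_lit 627) (nat_lit 3663) (.d (nat_lit 658) (nat_lit 657) (nat_lit 622) (nat_lit 659) (nat_lit 623))))))))))))
noncomputable def s18504 : Cert := .r (nat_lit 16209045190941378747264522569282111398454259652685483301944743458568313367990392076588979006111774107789179713591725348373559806391710671697063755444630727080615906093956692180992) (.p (nat_lit 526) (.a (.f (nat_lit 497) (nat_lit 498) (nat_lit 2542) (.f (nat_lit 525) (nat_lit 496) (nat_lit 2541) (.d (nat_lit 493) (nat_lit 492) (nat_lit 3564) (nat_lit 494) (nat_lit 3565)))) (.a (.f (nat_lit 493) (nat_lit 494) (nat_lit 3565) (.f (nat_lit 525) (nat_lit 492) (nat_lit 3564) (.d (nat_lit 557) (nat_lit 556) (nat_lit 1548) (nat_lit 558) (nat_lit 1549)))) (.a (.f (nat_lit 494) (nat_lit 493) (nat_lit 3565) (.f (nat_lit 530) (nat_lit 495) (nat_lit 3566) (.d (nat_lit 498) (nat_lit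 497) (nat_lit 2542) (nat_lit 499) (nat_lit 2543)))) (.f (nat_lit 558) (nat_lit 557) (nat_lit 1549) (.f (nat_lit 530) (nat_lit 559) (nat_lit 1550) (.d (nat_lit 498) (nat_lit 497) (nat_lit 2542) (nat_lit 499) (nat_lit 2543))))))))
noncomputable def s18546 : Cert := .r (nat_lit 16209045190941378747264522569282111398454259652685483301944743458568313367990392076588979006111774107789179713591725348373559806391710671697063755444630727080615906093956692180992) (.p (nat_lit 526) (.a (.f (nat_lit 493) (nat_lit 494) (nat_lit 3565) (.f (nat_lit 525) (nat_lit 492) (nat_lit 3564) (.d (nat_lit 557) (nat_lit 556) (nat_lit 1548) (nat_lit 558) (nat_lit 1549)))) (.a (.f (nat_lit 493) (nat_lit 494) (nat_lit 3565) (.f (nat_lit 525) (nat_lit 492) (nat_lit 3564) (.f (nat_lit 556) (nat_lit 557) (nat_lit 1548) (.f (nat_lit 524) (nat_lit 555) (nat_lit 1547) (.d (nat_lit 496) (nat_lit 495) (nat_lit 2540) (nat_lit 497) (nat_lit 2541)))))) (.a (.f (nat_lit 494)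 (nat_lit 493) (nat_lit 3565) (.f (nat_lit 558) (nat_lit 557) (nat_lit 1549) (.d (nat_lit 530) (nat_lit 495) (nat_lit 3566) (nat_lit 559) (nat_lit 1550)))) (.a (.f (nat_lit 557) (nat_lit 558) (nat_lit 1549) (.f (nat_lit 525) (nat_lit 556) (nat_lit 1548) (.f (nat_lit 492) (nat_lit 493) (nat_lit 3564) (.f (nat_lit 524) (nat_lit 491) (nat_lit 3563) (.d (nat_lit 496) (nat_lit 495) (nat_lit 2540) (nat_lit 497) (nat_lit 2541)))))) (.a (.f (nat_lit 493) (nat_lit 494) (nat_lit 3565) (.f (nat_lit 525) (nat_lit 492) (nat_lit 3564) (.f (nat_lit 496) (nat_lit 497) (nat_lit 2541) (.f (nat_lit 495) (nat_lit 524) (nat_lit 2540) (.f (nat_lit 530) (nat_lit 531) (nat_lit 3567) (.f (nat_lit 559) (nat_lit 558) (nat_lit 1550) (.d (nat_lit 591) (nat_lit 464) (nat_lit 6607) (nat_lit 623) (nat_lit 6639)))))))) (.f (nat_lit 558) (nat_lit 557) (nat_lit 1549) (.f (nat_lit 530) (nat_lit 559) (nat_lit 1550) (.f (nat_lit 495) (nat_lit 494) (nat_lit 3566) (.f (nat_lit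 496) (nat_lit 531) (nat_lit 3567) (.d (nat_lit 525) (nat_lit 497) (nat_lit 2541) (nat_lit 524) (nat_lit 2540))))))))))))
noncomputable def s18558 : Cert := .r (nat_lit 16209045190941378750779298971268983572524992861815156629186694332241685737600357367691977116011374006475930249610390080521935517824148871012070213300485648712653808579007601442816) (.p (nat_lit 561) (.a (.f (nat_lit 498) (nat_lit 499) (nat_lit 2543) (.f (nat_lit 593) (nat_lit 625) (nat_lit 6641) (.d (nat_lit 466) (nat_lit 434) (nat_lit 5553) (nat_lit 497) (nat_lit 6609)))) (.a (.f (nat_lit 498) (nat_lit 499) (nat_lit 2543) (.f (nat_lit 593) (nat_lit 625) (nat_lit 6641) (.d (nat_lit 466) (nat_lit 434) (nat_lit 5553) (nat_lit 562) (nat_lit 5585)))) (.a (.f (nat_lit 498) (nat_lit 499) (nat_lit 2543) (.d (nat_lit 526) (nat_lit 497) (nat_lit 2542) (nat_lit 562) (nat_lit 526))) (.f (nat_lit 526) (nat_lit 562) (nat_lit 526) (.f (nat_lit 493) (nat_lit 494) (nat_lit 3565) (.f (nat_lit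 525) (nat_lit 492) (nat_lit 3564) (.f (nat_lit 497) (nat_lit 496) (nat_lit 2541) (.f (nat_lit 558) (nat_lit 559) (nat_lit 1550) (.f (nat_lit 593) (nat_lit 624) (nat_lit 5616) (.f (nat_lit 626) (nat_lit 594) (nat_lit 4593) (.f (nat_lit 625) (nat_lit 658) (nat_lit 4625) (.d (nat_lit 590) (nat_lit 591) (nat_lit 590) (nat_lit 622) (nat_lit 7661))))))))))))))
noncomputable def s18559 : Cert := .r (nat_lit 16209045190941378747264522569282111398454259652685483301944743458568313367990392076588979006111774107789179713591725348373559806391710671697063755444630727080615906093956692180992) (.p (nat_lit 530) (.a (.f (nat_lit 495) (nat_lit 494) (nat_lit 3566) (.f (nat_lit 559) (nat_lit 558) (nat_lit 1550) (.f (nat_lit 591) (nat_lit 624) (nat_lit 4591) (.d (nat_lit 496) (nat_lit 464) (nat_lit 6607) (nat_lit 531) (nat_lit 3567))))) (.a (.f (nat_lit 498) (nat_lit 499) (nat_lit 2543) (.f (nat_lit 526) (nat_lit 497) (nat_lit 2542) (.d (nat_lit 494) (nat_lit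 493) (nat_lit 3565) (nat_lit 495) (nat_lit 3566)))) (.a s18558 (.f (nat_lit 499) (nat_lit 498) (nat_lit 2543) (.f (nat_lit 531) (nat_lit 500) (nat_lit 2544) (.f (nat_lit 496) (nat_lit 495) (nat_lit 3567) (.f (nat_lit 497) (nat_lit 532) (nat_lit 3568) (.f (nat_lit 526) (nat_lit 525) (nat_lit 2541) (.f (nat_lit 561) (nat_lit 562) (nat_lit 526) (.d (nat_lit 593) (nat_lit 464) (nat_lit 7632) (nat_lit 624) (nat_lit 5616))))))))))))
noncomputable def s18576 : Cert := .r (nat_lit 16209045190941378747264522569282111398454259652685483301944743458568313367990392076588979006111774107789179713591725348373559806391710671697063755444630727080615906093956692180992) (.p (nat_lit 526) (.a (.f (nat_lit 493) (nat_lit 494) (nat_lit 3565) (.f (nat_lit 525) (nat_lit 492) (nat_lit 3564) (.d (nat_lit 557) (nat_lit 556) (nat_lit 1548) (nat_lit 558) (nat_lit 1549)))) (.a (.f (nat_lit 561) (nat_lit 562) (nat_lit 526) (.f (nat_lit 560) (nat_lit 525) (nat_lit 525)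 (.f (nat_lit 624) (nat_lit 656) (nat_lit 6672) (.f (nat_lit 625) (nat_lit 657) (nat_lit 4624) (.f (nat_lit 593) (nat_lit 496) (nat_lit 4592) (.f (nat_lit 623) (nat_lit 655) (nat_lit 5647) (.d (nat_lit 594) (nat_lit 595) (nat_lit 1615) (nat_lit 622) (nat_lit 2638)))))))) (.f (nat_lit 558) (nat_lit 557) (nat_lit 1549) (.f (nat_lit 559) (nat_lit 530) (nat_lit 1550) (.f (nat_lit 494) (nat_lit 493) (nat_lit 3565) (.d (nat_lit 462) (nat_lit 430) (nat_lit 4526) (nat_lit 591) (nat_lit 4558))))))))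
noncomputable def s18589 : Cert := .r (nat_lit 16209045190941378746825175519033752376695418001544274136039499599359141821789146415201104242374324120453335896589392256855012842462655896782687948212648861876611168283325328523264) (.p (nat_lit 527) (.a (.p (nat_lit 526) (.a (.f (nat_lit 497) (nat_lit 498) (nat_lit 2542) (.f (nat_lit 525) (nat_lit 496) (nat_lit 2541) (.d (nat_lit 493) (nat_lit 492) (nat_lit 3564) (nat_lit 494) (nat_lit 3565)))) (.a (.f (nat_lit 493) (nat_lit 494) (nat_lit 3565) (.f (nat_lit 525) (nat_lit 492) (nat_lit 3564) (.d (nat_lit 557) (nat_lit 556) (nat_lit 1548) (nat_lit 558) (nat_lit 1549)))) (.f (nat_lit 497) (nat_lit 498) (nat_lit 2542) (.f (nat_lit 561) (nat_lit 562) (nat_lit 526) (.f (nat_lit 593) (nat_lit 624) (nat_lit 5616) (.d (nat_lit 496) (nat_lit 464) (nat_lit 7632) (nat_lit 625) (nat_lit 7664)))))))) (.a (.p (nat_lit 526) (.a (.f (nat_lit 561) (nat_lit 562) (nat_lit 526) (.f (nat_lit 560) (nat_lit 525)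 (nat_lit 525) (.d (nat_lit 497) (nat_lit 465) (nat_lit 5584) (nat_lit 498) (nat_lit 2542)))) (.a (.f (nat_lit 493) (nat_lit 494) (nat_lit 3565) (.f (nat_lit 525) (nat_lit 492) (nat_lit 3564) (.d (nat_lit 557) (nat_lit 556) (nat_lit 1548) (nat_lit 558) (nat_lit 1549)))) (.f (nat_lit 497) (nat_lit 498) (nat_lit 2542) (.f (nat_lit 560) (nat_lit 624) (nat_lit 6640) (.d (nat_lit 465) (nat_lit 433) (nat_lit 5552) (nat_lit 561) (nat_lit 5584))))))) (.a s18576 (.a (.p (nat_lit 526) (.a (.f (nat_lit 497) (nat_lit 498) (nat_lit 2542) (.f (nat_lit 560) (nat_lit 624) (nat_lit 6640) (.d (nat_lit 465) (nat_lit 433) (nat_lit 5552) (nat_lit 496) (nat_lit 6608)))) (.a (.f (nat_lit 497) (nat_lit 498) (nat_lit 2542) (.f (nat_lit 525) (nat_lit 496) (nat_lit 2541) (.d (nat_lit 493) (nat_lit 492) (nat_lit 3564) (nat_lit 494) (nat_lit 3565)))) (.f (nat_lit 493) (nat_lit 494) (nat_lit 3565) (.f (nat_lit 525) (nat_lit 492) (nat_lit 3564) (.d (nat_lit 557) (nat_lit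 556) (nat_lit 1548) (nat_lit 558) (nat_lit 1549))))))) (.a s18042 (.a s18368 s18081)))))))
noncomputable def s18590 : Cert := .r (nat_lit 16209045190941378746825175519033752376695418001544274136039499599359141821789146415201104242374324120453335896589392256855012842462655896782687948212648861876611168283325328523264) (.p (nat_lit 527) (.a (.p (nat_lit 530) (.a (.f (nat_lit 559) (nat_lit 558) (nat_lit 1550) (.f (nat_lit 560) (nat_lit 531) (nat_lit 1551) (.d (nat_lit 495) (nat_lit 463) (nat_lit 4559) (nat_lit 494) (nat_lit 3566)))) (.a (.f (nat_lit 498) (nat_lit 499) (nat_lit 2543) (.f (nat_lit 526) (nat_lit 497) (nat_lit 2542) (.d (nat_lit 494) (nat_lit 493) (nat_lit 3565) (nat_lit 495) (nat_lit 3566)))) (.f (nat_lit 498) (nat_lit 499) (nat_lit 2543) (.f (nat_lit 526) (nat_lit 497) (nat_lit 2542) (.d (nat_lit 558) (nat_lit 557) (nat_lit 1549) (nat_lit 559) (nat_lit 1550))))))) (.a s18504 (.a s18053 (.a s14625 (.a s18368 (.a s18090 s18546)))))))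
noncomputable def s18624 : Cert := .r (nat_lit 16209045190941378747264522569282111398454259652685483301944743458568313367990392076588979006111774107789179713591725348373559806391710671697063755444630727080615906093956692180992) (.p (nat_lit 526) (.a (.f (nat_lit 493) (nat_lit 494) (nat_lit 3565) (.f (nat_lit 525) (nat_lit 492) (nat_lit 3564) (.d (nat_lit 557) (nat_lit 556) (nat_lit 1548) (nat_lit 558) (nat_lit 1549)))) (.a (.f (nat_lit 493) (nat_lit 494) (nat_lit 3565) (.f (nat_lit 525) (nat_lit 492) (nat_lit 3564) (.f (nat_lit 556) (nat_lit 557) (nat_lit 1548) (.f (nat_lit 524) (nat_lit 555) (nat_lit 1547) (.d (nat_lit 496) (nat_lit 495) (nat_lit 2540) (nat_lit 497) (nat_lit 2541)))))) (.a (.f (nat_lit 494) (nat_lit 493) (nat_lit 3565) (.f (nat_lit 495) (nat_lit 530) (nat_lit 3566) (.f (nat_lit 558) (nat_lit 557) (nat_lit 1549) (.d (nat_lit 463) (nat_lit 431) (nat_lit 5550) (nat_lit 590) (nat_lit 6606))))) (.a (.f (nat_lit 557) (nat_lit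 558) (nat_lit 1549) (.f (nat_lit 525) (nat_lit 556) (nat_lit 1548) (.f (nat_lit 492) (nat_lit 493) (nat_lit 3564) (.f (nat_lit 524) (nat_lit 491) (nat_lit 3563) (.d (nat_lit 496) (nat_lit 495) (nat_lit 2540) (nat_lit 497) (nat_lit 2541)))))) (.a (.f (nat_lit 493) (nat_lit 494) (nat_lit 3565) (.f (nat_lit 525) (nat_lit 492) (nat_lit 3564) (.f (nat_lit 496) (nat_lit 497) (nat_lit 2541) (.f (nat_lit 495) (nat_lit 524) (nat_lit 2540) (.f (nat_lit 530) (nat_lit 531) (nat_lit 3567) (.d (nat_lit 562) (nat_lit 561) (nat_lit 526) (nat_lit 563) (nat_lit 527))))))) (.f (nat_lit 557) (nat_lit 558) (nat_lit 1549) (.f (nat_lit 525) (nat_lit 556) (nat_lit 1548) (.f (nat_lit 496) (nat_lit 497) (nat_lit 2541) (.f (nat_lit 495) (nat_lit 524) (nat_lit 2540) (.d (nat_lit 530) (nat_lit 494) (nat_lit 3566) (nat_lit 531) (nat_lit 3567))))))))))))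
noncomputable def s18648 : Cert := .r (nat_lit 16209045190941378747264522569282111398454259652685483301944743458568313367990392076588979006111774107789179713591725348373559806391710671697063755444630727080615906093956692180992) (.p (nat_lit 561) (.a s16475 (.a (.f (nat_lit 562) (nat_lit 526) (nat_lit 526) (.d (nat_lit 563) (nat_lit 530) (nat_lit 527) (nat_lit 564) (nat_lit 3600))) (.a s16476 (.p (nat_lit 593) (.a (.f (nat_lit 625) (nat_lit 496) (nat_lit 7664) (.d (nat_lit 624) (nat_lit 497) (nat_lit 5616) (nat_lit 656) (nat_lit 5648))) (.a (.f (nat_lit 624) (nat_lit 497) (nat_lit 5616) (.d (nat_lit 656) (nat_lit 625) (nat_lit 5648) (nat_lit 688) (nat_lit 6704))) (.a (.f (nat_lit 625) (nat_lit 496) (nat_lit 7664) (.f (nat_lit 624) (nat_lit 656) (nat_lit 5648) (.f (nat_lit 626) (nat_lit 658) (nat_lit 4625) (.d (nat_lit 591) (nat_lit 590) (nat_lit 590) (nat_lit 627) (nat_lit 3663))))) (.a (.f (nat_lit 625) (nat_lit 496) (nat_lit 7664) (.f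 (nat_lit 626) (nat_lit 658) (nat_lit 4625) (.f (nat_lit 591) (nat_lit 590) (nat_lit 590) (.d (nat_lit 627) (nat_lit 594) (nat_lit 591) (nat_lit 628) (nat_lit 3664))))) (.f (nat_lit 497) (nat_lit 624) (nat_lit 5616) (.f (nat_lit 496) (nat_lit 464) (nat_lit 7632) (.f (nat_lit 526) (nat_lit 525) (nat_lit 2541) (.f (nat_lit 494) (nat_lit 493) (nat_lit 3565) (.f (nat_lit 495) (nat_lit 530) (nat_lit 3566) (.f (nat_lit 462) (nat_lit 461) (nat_lit 3533) (.d (nat_lit 430) (nat_lit 398) (nat_lit 4494) (nat_lit 559) (nat_lit 4526)))))))))))))))))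
noncomputable def s18649 : Cert := .r (nat_lit 16209045190941378746825175519033752376695418001544274136039499599359141821789146415201104242374324120453335896589392256855012842462655896782687948212648861876611168283325328523264) (.p (nat_lit 527) (.a (.p (nat_lit 530) (.a (.f (nat_lit 495) (nat_lit 494) (nat_lit 3566) (.f (nat_lit 559) (nat_lit 558) (nat_lit 1550) (.f (nat_lit 591) (nat_lit 624) (nat_lit 4591) (.d (nat_lit 496) (nat_lit 464) (nat_lit 6607) (nat_lit 531) (nat_lit 3567))))) (.a (.f (nat_lit 562) (nat_lit 563) (nat_lit 527) (.f (nat_lit 526) (nat_lit 561) (nat_lit 526) (.d (nat_lit 494) (nat_lit 493) (nat_lit 3565) (nat_lit 495) (nat_lit 3566)))) (.f (nat_lit 562) (nat_lit 563) (nat_lit 527) (.f (nat_lit 526) (nat_lit 561) (nat_lit 526) (.d (nat_lit 558) (nat_lit 557) (nat_lit 1549) (nat_lit 559) (nat_lit 1550))))))) (.a (.p (nat_lit 530) (.a (.f (nat_lit 562) (nat_lit 563) (nat_lit 527) (.f (nat_lit 526) (nat_lit 561) (nat_lit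 526) (.d (nat_lit 494) (nat_lit 493) (nat_lit 3565) (nat_lit 495) (nat_lit 3566)))) (.a (.f (nat_lit 494) (nat_lit 495) (nat_lit 3566) (.f (nat_lit 526) (nat_lit 493) (nat_lit 3565) (.d (nat_lit 558) (nat_lit 557) (nat_lit 1549) (nat_lit 559) (nat_lit 1550)))) (.a (.f (nat_lit 562) (nat_lit 563) (nat_lit 527) (.f (nat_lit 495) (nat_lit 494) (nat_lit 3566) (.f (nat_lit 559) (nat_lit 558) (nat_lit 1550) (.f (nat_lit 591) (nat_lit 624) (nat_lit 4591) (.f (nat_lit 590) (nat_lit 622) (nat_lit 5614) (.f (nat_lit 593) (nat_lit 561) (nat_lit 2606) (.f (nat_lit 626) (nat_lit 625) (nat_lit 590) (.d (nat_lit 594) (nat_lit 497) (nat_lit 7665) (nat_lit 627) (nat_lit 591))))))))) (.f (nat_lit 562) (nat_lit 563) (nat_lit 527) (.f (nat_lit 526) (nat_lit 561) (nat_lit 526) (.d (nat_lit 558) (nat_lit 557) (nat_lit 1549) (nat_lit 559) (nat_lit 1550)))))))) (.a s18546 (.a (.p (nat_lit 561) (.a (.f (nat_lit 526) (nat_lit 562) (nat_lit 526) (.f (nat_lit 557)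 (nat_lit 558) (nat_lit 1549) (.f (nat_lit 525) (nat_lit 556) (nat_lit 1548) (.d (nat_lit 493) (nat_lit 492) (nat_lit 3564) (nat_lit 494) (nat_lit 3565))))) (.a s16476 (.p (nat_lit 593) (.a (.f (nat_lit 625) (nat_lit 496) (nat_lit 7664) (.d (nat_lit 624) (nat_lit 497) (nat_lit 5616) (nat_lit 656) (nat_lit 5648))) (.a (.f (nat_lit 624) (nat_lit 497) (nat_lit 5616) (.d (nat_lit 656) (nat_lit 625) (nat_lit 5648) (nat_lit 688) (nat_lit 6704))) (.a (.f (nat_lit 625) (nat_lit 496) (nat_lit 7664) (.f (nat_lit 624) (nat_lit 656) (nat_lit 5648) (.f (nat_lit 626) (nat_lit 658) (nat_lit 4625) (.d (nat_lit 591) (nat_lit 590) (nat_lit 590) (nat_lit 627) (nat_lit 3663))))) (.a (.f (nat_lit 625) (nat_lit 496) (nat_lit 7664) (.f (nat_lit 626) (nat_lit 658) (nat_lit 4625) (.f (nat_lit 591) (nat_lit 590) (nat_lit 590) (.d (nat_lit 627) (nat_lit 594) (nat_lit 591) (nat_lit 628) (nat_lit 3664))))) (.f (nat_lit 497) (nat_lit 624) (nat_lit 5616) (.f (nat_lit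 496) (nat_lit 464) (nat_lit 7632) (.f (nat_lit 526) (nat_lit 525) (nat_lit 2541) (.f (nat_lit 494) (nat_lit 493) (nat_lit 3565) (.f (nat_lit 558) (nat_lit 557) (nat_lit 1549) (.f (nat_lit 594) (nat_lit 626) (nat_lit 4593) (.f (nat_lit 591) (nat_lit 559) (nat_lit 3630) (.d (nat_lit 623) (nat_lit 590) (nat_lit 4590) (nat_lit 622) (nat_lit 1614))))))))))))))))) (.a s18624 (.a (.p (nat_lit 559) (.a s18126 (.a (.f (nat_lit 530) (nat_lit 558) (nat_lit 1550) (.f (nat_lit 495) (nat_lit 494) (nat_lit 3566) (.f (nat_lit 591) (nat_lit 624) (nat_lit 4591) (.f (nat_lit 622) (nat_lit 590) (nat_lit 5614) (.f (nat_lit 623) (nat_lit 654) (nat_lit 5646) (.f (nat_lit 562) (nat_lit 563) (nat_lit 527) (.f (nat_lit 594) (nat_lit 593) (nat_lit 1614) (.f (nat_lit 626) (nat_lit 497) (nat_lit 7665) (.f (nat_lit 658) (nat_lit 561) (nat_lit 7697) (.d (nat_lit 657) (nat_lit 625) (nat_lit 5649) (nat_lit 689) (nat_lit 5681))))))))))) (.a (.f (nat_lit 530) (nat_lit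 558) (nat_lit 1550) (.f (nat_lit 495) (nat_lit 494) (nat_lit 3566) (.f (nat_lit 591) (nat_lit 624) (nat_lit 4591) (.d (nat_lit 496) (nat_lit 464) (nat_lit 6607) (nat_lit 531) (nat_lit 3567))))) (.a s18491 (.a (.f (nat_lit 530) (nat_lit 558) (nat_lit 1550) (.f (nat_lit 495) (nat_lit 494) (nat_lit 3566) (.f (nat_lit 531) (nat_lit 496) (nat_lit 3567) (.d (nat_lit 563) (nat_lit 562) (nat_lit 527) (nat_lit 564) (nat_lit 528))))) s18496)))))) (.a s18648 s18193))))))))
noncomputable def s18695 : Cert := .r (nat_lit 16209045190941378746825175519033752376695418001544274136039499599359141821789146415201104242374324120453335896589392256855012842462655896782687948212648861876611168283325328523264) (.p (nat_lit 560) (.a (.f (nat_lit 624) (nat_lit 497) (nat_lit 6640) (.f (nat_lit 623) (nat_lit 655) (nat_lit 5647) (.f (nat_lit 625) (nat_lit 657) (nat_lit 4624) (.d (nat_lit 496) (nat_lit 591) (nat_lit 5615) (nat_lit 593) (nat_lit 4592))))) (.a (.f (nat_lit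 624) (nat_lit 497) (nat_lit 6640) (.f (nat_lit 527) (nat_lit 495) (nat_lit 7663) (.f (nat_lit 559) (nat_lit 656) (nat_lit 7695) (.d (nat_lit 530) (nat_lit 531) (nat_lit 1551) (nat_lit 558) (nat_lit 1550))))) (.a s16671 (.p (nat_lit 496) (.a (.f (nat_lit 591) (nat_lit 623) (nat_lit 5615) (.f (nat_lit 559) (nat_lit 464) (nat_lit 5583) (.f (nat_lit 593) (nat_lit 625) (nat_lit 4592) (.d (nat_lit 558) (nat_lit 557) (nat_lit 557) (nat_lit 594) (nat_lit 3630))))) (.f (nat_lit 497) (nat_lit 465) (nat_lit 6608) (.f (nat_lit 495) (nat_lit 463) (nat_lit 7631) (.d (nat_lit 494) (nat_lit 493) (nat_lit 493) (nat_lit 530) (nat_lit 494))))))))))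
noncomputable def s18697 : Cert := .r (nat_lit 16209045190941378746825175519033752376695418001544274136039499599359141821789146415201104242374324120453335896589392256855012842462655896782687948212648861876611168283325328523264) (.p (nat_lit 560) (.a (.f (nat_lit 624) (nat_lit 497) (nat_lit 6640) (.f (nat_lit 656) (nat_lit 561) (nat_lit 6672) (.d (nat_lit 655) (nat_lit 623) (nat_lit 5647) (nat_lit 687) (nat_lit 5679)))) (.a s16681 (.a (.f (nat_lit 624) (nat_lit 497) (nat_lit 6640) (.f (nat_lit 623) (nat_lit 655) (nat_lit 5647) (.f (nat_lit 625) (nat_lit 657) (nat_lit 4624) (.d (nat_lit 496) (nat_lit 591) (nat_lit 5615) (nat_lit 593) (nat_lit 4592))))) (.a (.p (nat_lit 496) (.a (.f (nat_lit 593) (nat_lit 625) (nat_lit 4592) (.f (nat_lit 561) (nat_lit 464) (nat_lit 4560) (.f (nat_lit 591) (nat_lit 623) (nat_lit 5615) (.d (nat_lit 562) (nat_lit 563) (nat_lit 1583) (nat_lit 590) (nat_lit 2606))))) (.f (nat_lit 497) (nat_lit 465) (nat_lit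 6608) (.f (nat_lit 495) (nat_lit 463) (nat_lit 7631) (.d (nat_lit 494) (nat_lit 493) (nat_lit 493) (nat_lit 530) (nat_lit 494)))))) (.f (nat_lit 497) (nat_lit 624) (nat_lit 6640) (.d (nat_lit 465) (nat_lit 433) (nat_lit 5552) (nat_lit 496) (nat_lit 6608))))))))
noncomputable def s18698 : Cert := .r (nat_lit 16209045194715341171646716871275306957683686892461195356455940027735348122034770577593253094460450845630994664130860631885776687362426481412612740845210296128043864326974723850240) (.p (nat_lit 496) (.a (.f (nat_lit 495) (nat_lit 463) (nat_lit 7631) (.f (nat_lit 530) (nat_lit 531) (nat_lit 3567) (.f (nat_lit 591) (nat_lit 623) (nat_lit 5615) (.f (nat_lit 559) (nat_lit 464) (nat_lit 5583) (.d (nat_lit 558) (nat_lit 557) (nat_lit 2573) (nat_lit 561) (nat_lit 2574)))))) (.a (.f (nat_lit 497) (nat_lit 465) (nat_lit 6608) (.f (nat_lit 495) (nat_lit 463) (nat_lit 7631) (.d (nat_lit 494) (nat_lit 493) (nat_lit 493) (nat_lit 530) (nat_lit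 494)))) (.a (.f (nat_lit 591) (nat_lit 623) (nat_lit 5615) (.f (nat_lit 559) (nat_lit 464) (nat_lit 5583) (.f (nat_lit 558) (nat_lit 557) (nat_lit 2573) (.f (nat_lit 495) (nat_lit 463) (nat_lit 7631) (.f (nat_lit 494) (nat_lit 493) (nat_lit 493) (.f (nat_lit 526) (nat_lit 462) (nat_lit 4558) (.f (nat_lit 561) (nat_lit 525) (nat_lit 3597) (.d (nat_lit 562) (nat_lit 563) (nat_lit 1583) (nat_lit 590) (nat_lit 1582))))))))) (.f (nat_lit 465) (nat_lit 497) (nat_lit 6608) (.f (nat_lit 591) (nat_lit 623) (nat_lit 5615) (.d (nat_lit 464) (nat_lit 433) (nat_lit 6576) (nat_lit 559) (nat_lit 5583))))))))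
noncomputable def s18699 : Cert := .r (nat_lit 16209045190941378746825175519033752376695418001544274136039499599359141821789146415201104242374324120453335896589392256855012842462655896782687948212648861876611168283325328523264) (.p (nat_lit 560) (.a (.f (nat_lit 624) (nat_lit 497) (nat_lit 6640) (.f (nat_lit 656) (nat_lit 561) (nat_lit 6672) (.d (nat_lit 655) (nat_lit 623) (nat_lit 5647) (nat_lit 687) (nat_lit 5679)))) (.a s16707 (.a (.f (nat_lit 497) (nat_lit 624) (nat_lit 6640) (.d (nat_lit 465) (nat_lit 433) (nat_lit 5552) (nat_lit 496) (nat_lit 6608))) s18698))))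
noncomputable def s18703 : Cert := .r (nat_lit 16209045194715341171646716871275306957683686892461195356455940027735348122034770577593253094460450845630994664130860631885776687362426481412612740845210296128043864326974723850240) (.p (nat_lit 496) (.a (.f (nat_lit 593) (nat_lit 625) (nat_lit 4592) (.f (nat_lit 464) (nat_lit 561) (nat_lit 4560) (.d (nat_lit 463) (nat_lit 431) (nat_lit 7599) (nat_lit 495) (nat_lit 7631)))) (.a (.f (nat_lit 497) (nat_lit 465) (nat_lit 6608) (.f (nat_lit 495) (nat_lit 463) (nat_lit 7631) (.d (nat_lit 494) (nat_lit 493) (nat_lit 493) (nat_lit 530) (nat_lit 494)))) (.f (nat_lit 497) (nat_lit 465) (nat_lit 6608) (.f (nat_lit 593) (nat_lit 625) (nat_lit 4592) (.f (nat_lit 561) (nat_lit 464) (nat_lit 4560) (.f (nat_lit 594) (nat_lit 626) (nat_lit 4593) (.d (nat_lit 559) (nat_lit 558) (nat_lit 558) (nat_lit 595) (nat_lit 3631)))))))))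
noncomputable def s18704 : Cert := .r (nat_lit 16209045190941378746825175519033752376695418001544274136039499599359141821789146415201104242374324120453335896589392256855012842462655896782687948212648861876611168283325328523264) (.p (nat_lit 560) (.a (.f (nat_lit 624) (nat_lit 497) (nat_lit 6640) (.f (nat_lit 656) (nat_lit 561) (nat_lit 6672) (.d (nat_lit 655) (nat_lit 623) (nat_lit 5647) (nat_lit 687) (nat_lit 5679)))) (.a s16723 (.a (.f (nat_lit 497) (nat_lit 624) (nat_lit 6640) (.d (nat_lit 465) (nat_lit 433) (nat_lit 5552) (nat_lit 496) (nat_lit 6608))) s18703))))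
noncomputable def s18733 : Cert := .r (nat_lit 16209045190941378750339951921020624550766151210673947463281450473032514191399111706304102352273924019140086432608056989003388553895094096097694406068503783508649070768376237785088) (.p (nat_lit 527) (.a (.f (nat_lit 559) (nat_lit 558) (nat_lit 1550) (.f (nat_lit 560) (nat_lit 531) (nat_lit 1551) (.d (nat_lit 495) (nat_lit 463) (nat_lit 4559) (nat_lit 494) (nat_lit 3566)))) (.a (.f (nat_lit 494) (nat_lit 495) (nat_lit 3566) (.f (nat_lit 526) (nat_lit 493) (nat_lit 3565) (.d (nat_lit 558) (nat_lit 557) (nat_lit 1549) (nat_lit 559) (nat_lit 1550)))) (.a (.f (nat_lit 495) (nat_lit 494) (nat_lit 3566) (.f (nat_lit 531) (nat_lit 496) (nat_lit 3567) (.f (nat_lit 500) (nat_lit 499) (nat_lit 2544) (.f (nat_lit 532) (nat_lit 501) (nat_lit 2545) (.d (nat_lit 564) (nat_lit 563) (nat_lit 528) (nat_lit 565) (nat_lit 529)))))) (.f (nat_lit 559) (nat_lit 558) (nat_lit 1550) (.f (nat_lit 531) (nat_lit 560)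 (nat_lit 1551) (.f (nat_lit 500) (nat_lit 499) (nat_lit 2544) (.f (nat_lit 532) (nat_lit 501) (nat_lit 2545) (.d (nat_lit 564) (nat_lit 563) (nat_lit 528) (nat_lit 565) (nat_lit 529))))))))))
noncomputable def s18743 : Cert := .r (nat_lit 16209045190941378746825175519033752376695418001544274136039499599359141821789146415201104242374324120453335896589392256855012842462655896782687948212648861876611168283325328523264) (.p (nat_lit 560) (.a (.f (nat_lit 624) (nat_lit 497) (nat_lit 6640) (.f (nat_lit 656) (nat_lit 561) (nat_lit 6672) (.d (nat_lit 655) (nat_lit 623) (nat_lit 5647) (nat_lit 687) (nat_lit 5679)))) (.a s17045 (.a (.f (nat_lit 497) (nat_lit 624) (nat_lit 6640) (.d (nat_lit 465) (nat_lit 433) (nat_lit 5552) (nat_lit 496) (nat_lit 6608))) s18698))))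
noncomputable def s18744 : Cert := .r (nat_lit 16209045190941378746825175519033752376695418001544274136039499599359141821789146415201104242374324120453335896589392256855012842462655896782687948212648861876611168283325328523264) (.p (nat_lit 560) (.a (.f (nat_lit 497) (nat_lit 624) (nat_lit 6640) (.d (nat_lit 465) (nat_lit 433) (nat_lit 5552) (nat_lit 496) (nat_lit 6608))) (.a (.f (nat_lit 624) (nat_lit 497) (nat_lit 6640) (.f (nat_lit 527) (nat_lit 495) (nat_lit 7663) (.f (nat_lit 559) (nat_lit 656) (nat_lit 7695) (.d (nat_lit 530) (nat_lit 531) (nat_lit 1551) (nat_lit 558) (nat_lit 1550))))) (.a s17059 s18703))))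
noncomputable def s18752 : Cert := .r (nat_lit 16209045190941378747264522569282111398454259652685483301944743458568313367990392076588979006111774107789179713591725348373559806391710671697063755444630727080615906093956692180992) (.p (nat_lit 530) (.a (.f (nat_lit 498) (nat_lit 499) (nat_lit 2543) (.f (nat_lit 562) (nat_lit 563) (nat_lit 527) (.d (nat_lit 526) (nat_lit 497) (nat_lit 2542) (nat_lit 561) (nat_lit 526)))) (.a (.f (nat_lit 562) (nat_lit 563) (nat_lit 527) (.f (nat_lit 498) (nat_lit 499) (nat_lit 2543) (.f (nat_lit 561) (nat_lit 526) (nat_lit 526) (.d (nat_lit 466) (nat_lit 434) (nat_lit 5553) (nat_lit 593) (nat_lit 5585))))) (.a (.f (nat_lit 498) (nat_lit 499) (nat_lit 2543) (.f (nat_lit 562) (nat_lit 563) (nat_lit 527) (.f (nat_lit 497) (nat_lit 526) (nat_lit 2542) (.d (nat_lit 465) (nat_lit 433) (nat_lit 4529) (nat_lit 594) (nat_lit 7633))))) (.a (.f (nat_lit 499) (nat_lit 498) (nat_lit 2543) (.f (nat_lit 531) (nat_lit 500)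 (nat_lit 2544) (.d (nat_lit 563) (nat_lit 562) (nat_lit 527) (nat_lit 564) (nat_lit 528)))) (.a s18026 (.a s18558 (.p (nat_lit 591) (.a (.f (nat_lit 559) (nat_lit 558) (nat_lit 1550) (.f (nat_lit 623) (nat_lit 496) (nat_lit 6639) (.f (nat_lit 624) (nat_lit 656) (nat_lit 4623) (.f (nat_lit 622) (nat_lit 654) (nat_lit 5646) (.d (nat_lit 593) (nat_lit 594) (nat_lit 1614) (nat_lit 621) (nat_lit 2637)))))) (.a (.f (nat_lit 562) (nat_lit 563) (nat_lit 527) (.f (nat_lit 561) (nat_lit 526) (nat_lit 526) (.f (nat_lit 593) (nat_lit 590) (nat_lit 2606) (.f (nat_lit 497) (nat_lit 624) (nat_lit 5616) (.d (nat_lit 465) (nat_lit 433) (nat_lit 4529) (nat_lit 594) (nat_lit 4561)))))) (.a (.f (nat_lit 559) (nat_lit 558) (nat_lit 1550) (.f (nat_lit 623) (nat_lit 496) (nat_lit 6639) (.f (nat_lit 624) (nat_lit 656) (nat_lit 4623) (.f (nat_lit 622) (nat_lit 654) (nat_lit 5646) (.f (nat_lit 621) (nat_lit 620) (nat_lit 2636) (.f (nat_lit 589) (nat_lit 588)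 (nat_lit 3660) (.f (nat_lit 625) (nat_lit 590) (nat_lit 589) (.f (nat_lit 626) (nat_lit 627) (nat_lit 3663) (.d (nat_lit 658) (nat_lit 657) (nat_lit 622) (nat_lit 659) (nat_lit 623)))))))))) (.f (nat_lit 562) (nat_lit 563) (nat_lit 527) (.f (nat_lit 561) (nat_lit 526) (nat_lit 526) (.f (nat_lit 593) (nat_lit 590) (nat_lit 2606) (.d (nat_lit 625) (nat_lit 496) (nat_lit 7664) (nat_lit 657) (nat_lit 6673))))))))))))))))
noncomputable def s18850 : Cert := .r (nat_lit 16209045190941378746825175519033752376695418001544274136039499599359141821789146415201104242374324120453335896589392256855012842462655896782687948212648861876611168283325328523264) (.p (nat_lit 530) (.a (.p (nat_lit 527) (.a (.f (nat_lit 495) (nat_lit 494) (nat_lit 3566) (.f (nat_lit 559) (nat_lit 558) (nat_lit 1550) (.f (nat_lit 591) (nat_lit 624) (nat_lit 4591) (.d (nat_lit 496) (nat_lit 464) (nat_lit 6607) (nat_lit 531) (nat_lit 3567))))) (.f (nat_lit 562) (nat_lit 563) (nat_lit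 527) (.f (nat_lit 498) (nat_lit 499) (nat_lit 2543) (.f (nat_lit 561) (nat_lit 526) (nat_lit 526) (.d (nat_lit 466) (nat_lit 434) (nat_lit 5553) (nat_lit 593) (nat_lit 5585))))))) (.a (.p (nat_lit 527) (.a (.f (nat_lit 559) (nat_lit 558) (nat_lit 1550) (.f (nat_lit 560) (nat_lit 531) (nat_lit 1551) (.d (nat_lit 495) (nat_lit 463) (nat_lit 4559) (nat_lit 494) (nat_lit 3566)))) (.f (nat_lit 562) (nat_lit 563) (nat_lit 527) (.f (nat_lit 498) (nat_lit 499) (nat_lit 2543) (.f (nat_lit 561) (nat_lit 526) (nat_lit 526) (.d (nat_lit 466) (nat_lit 434) (nat_lit 5553) (nat_lit 593) (nat_lit 5585))))))) (.a (.p (nat_lit 531) (.a (.f (nat_lit 560) (nat_lit 559) (nat_lit 1551) (.f (nat_lit 496) (nat_lit 495) (nat_lit 3567) (.f (nat_lit 561) (nat_lit 532) (nat_lit 1552) (.d (nat_lit 593) (nat_lit 464) (nat_lit 4560) (nat_lit 625) (nat_lit 4592))))) (.a (.f (nat_lit 564) (nat_lit 563) (nat_lit 528) (.f (nat_lit 532) (nat_lit 565) (nat_lit 529) (.d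 (nat_lit 500) (nat_lit 499) (nat_lit 2544) (nat_lit 501) (nat_lit 2545)))) (.f (nat_lit 560) (nat_lit 559) (nat_lit 1551) (.f (nat_lit 496) (nat_lit 495) (nat_lit 3567) (.f (nat_lit 593) (nat_lit 625) (nat_lit 4592) (.f (nat_lit 561) (nat_lit 464) (nat_lit 4560) (.f (nat_lit 563) (nat_lit 564) (nat_lit 528) (.f (nat_lit 562) (nat_lit 591) (nat_lit 1583) (.f (nat_lit 595) (nat_lit 596) (nat_lit 560) (.d (nat_lit 498) (nat_lit 466) (nat_lit 5585) (nat_lit 627) (nat_lit 7666)))))))))))) (.a s14497 (.a (.p (nat_lit 527) (.a (.f (nat_lit 495) (nat_lit 494) (nat_lit 3566) (.f (nat_lit 560) (nat_lit 624) (nat_lit 7663) (.d (nat_lit 463) (nat_lit 431) (nat_lit 4527) (nat_lit 496) (nat_lit 7631)))) (.f (nat_lit 562) (nat_lit 563) (nat_lit 527) (.f (nat_lit 498) (nat_lit 499) (nat_lit 2543) (.f (nat_lit 561) (nat_lit 526) (nat_lit 526) (.d (nat_lit 466) (nat_lit 434) (nat_lit 5553) (nat_lit 593) (nat_lit 5585))))))) (.a (.p (nat_lit 527) (.a (.f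 (nat_lit 562) (nat_lit 563) (nat_lit 527) (.f (nat_lit 498) (nat_lit 499) (nat_lit 2543) (.f (nat_lit 561) (nat_lit 526) (nat_lit 526) (.d (nat_lit 466) (nat_lit 434) (nat_lit 5553) (nat_lit 593) (nat_lit 5585))))) (.a (.f (nat_lit 499) (nat_lit 498) (nat_lit 2543) (.f (nat_lit 531) (nat_lit 500) (nat_lit 2544) (.d (nat_lit 563) (nat_lit 562) (nat_lit 527) (nat_lit 564) (nat_lit 528)))) (.a (.f (nat_lit 559) (nat_lit 558) (nat_lit 1550) (.f (nat_lit 531) (nat_lit 560) (nat_lit 1551) (.d (nat_lit 499) (nat_lit 498) (nat_lit 2543) (nat_lit 500) (nat_lit 2544)))) (.f (nat_lit 562) (nat_lit 563) (nat_lit 527) (.f (nat_lit 526) (nat_lit 561) (nat_lit 526) (.d (nat_lit 558) (nat_lit 557) (nat_lit 1549) (nat_lit 559) (nat_lit 1550)))))))) (.a s18733 (.a (.p (nat_lit 527) (.a (.f (nat_lit 495) (nat_lit 494) (nat_lit 3566) (.f (nat_lit 560) (nat_lit 624) (nat_lit 7663) (.d (nat_lit 463) (nat_lit 431) (nat_lit 4527) (nat_lit 496) (nat_lit 7631))))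 (.a (.f (nat_lit 495) (nat_lit 494) (nat_lit 3566) (.f (nat_lit 559) (nat_lit 558) (nat_lit 1550) (.f (nat_lit 591) (nat_lit 624) (nat_lit 4591) (.d (nat_lit 496) (nat_lit 464) (nat_lit 6607) (nat_lit 531) (nat_lit 3567))))) (.a (.f (nat_lit 559) (nat_lit 558) (nat_lit 1550) (.f (nat_lit 560) (nat_lit 531) (nat_lit 1551) (.d (nat_lit 495) (nat_lit 463) (nat_lit 4559) (nat_lit 494) (nat_lit 3566)))) (.f (nat_lit 559) (nat_lit 558) (nat_lit 1550) (.f (nat_lit 531) (nat_lit 560) (nat_lit 1551) (.d (nat_lit 499) (nat_lit 498) (nat_lit 2543) (nat_lit 500) (nat_lit 2544)))))))) (.p (nat_lit 527) (.a (.f (nat_lit 559) (nat_lit 558) (nat_lit 1550) (.f (nat_lit 560) (nat_lit 531) (nat_lit 1551) (.d (nat_lit 495) (nat_lit 463) (nat_lit 4559) (nat_lit 494) (nat_lit 3566)))) (.a (.f (nat_lit 562) (nat_lit 563) (nat_lit 527) (.f (nat_lit 526) (nat_lit 561) (nat_lit 526) (.d (nat_lit 494) (nat_lit 493) (nat_lit 3565) (nat_lit 495) (nat_lit 3566))))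 (.f (nat_lit 562) (nat_lit 563) (nat_lit 527) (.f (nat_lit 526) (nat_lit 561) (nat_lit 526) (.d (nat_lit 558) (nat_lit 557) (nat_lit 1549) (nat_lit 559) (nat_lit 1550))))))))))))))))
noncomputable def s18885 : Cert := .r (nat_lit 16209045190941378746825175519033752376695418001544274136039499599359141821789146415201104242374324120453335896589392256855012842462655896782687948212648861876611168283325328523264) (.p (nat_lit 527) (.a s14625 (.a s18546 (.a (.p (nat_lit 530) (.a (.f (nat_lit 559) (nat_lit 558) (nat_lit 1550) (.f (nat_lit 560) (nat_lit 531) (nat_lit 1551) (.d (nat_lit 495) (nat_lit 463) (nat_lit 4559) (nat_lit 494) (nat_lit 3566)))) (.a (.f (nat_lit 562) (nat_lit 563) (nat_lit 527) (.f (nat_lit 526) (nat_lit 561) (nat_lit 526) (.d (nat_lit 494) (nat_lit 493) (nat_lit 3565) (nat_lit 495) (nat_lit 3566)))) (.f (nat_lit 562) (nat_lit 563) (nat_lit 527) (.f (nat_lit 526) (nat_lit 561) (nat_lit 526) (.d (nat_lit 558) (nat_lit 557)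 (nat_lit 1549) (nat_lit 559) (nat_lit 1550))))))) (.a (.p (nat_lit 530) (.a (.f (nat_lit 559) (nat_lit 558) (nat_lit 1550) (.f (nat_lit 560) (nat_lit 531) (nat_lit 1551) (.d (nat_lit 495) (nat_lit 463) (nat_lit 4559) (nat_lit 494) (nat_lit 3566)))) (.a (.f (nat_lit 495) (nat_lit 494) (nat_lit 3566) (.f (nat_lit 531) (nat_lit 496) (nat_lit 3567) (.d (nat_lit 563) (nat_lit 562) (nat_lit 527) (nat_lit 564) (nat_lit 528)))) (.a (.f (nat_lit 495) (nat_lit 494) (nat_lit 3566) (.f (nat_lit 559) (nat_lit 558) (nat_lit 1550) (.f (nat_lit 463) (nat_lit 560) (nat_lit 4559) (.f (nat_lit 430) (nat_lit 462) (nat_lit 7598) (.f (nat_lit 431) (nat_lit 398) (nat_lit 7566) (.f (nat_lit 496) (nat_lit 399) (nat_lit 4495) (.d (nat_lit 591) (nat_lit 464) (nat_lit 6607) (nat_lit 623) (nat_lit 6639)))))))) (.f (nat_lit 559) (nat_lit 558) (nat_lit 1550) (.f (nat_lit 531) (nat_lit 560) (nat_lit 1551) (.d (nat_lit 563) (nat_lit 562) (nat_lit 527) (nat_lit 564)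 (nat_lit 528)))))))) (.a s18368 s18090))))))
noncomputable def s18895 : Cert := .r (nat_lit 2636082301490154130553049906847254995431463155255029277207473968327248582424699924015062902013998549111281783574328649486254843391891191224028426863788181946368) (.p (nat_lit 592) (.a s14508 (.a s18194 (.a (.p (nat_lit 593) (.a s14917 (.a s14964 (.a s15024 (.a s15057 (.a s15079 (.a s15090 (.a s15113 (.a s15153 (.a s15165 (.a s15169 s15173))))))))))) (.a (.p (nat_lit 560) (.a (.f (nat_lit 624) (nat_lit 497) (nat_lit 6640) (.f (nat_lit 623) (nat_lit 655) (nat_lit 5647) (.f (nat_lit 625) (nat_lit 657) (nat_lit 4624) (.d (nat_lit 496) (nat_lit 591) (nat_lit 5615) (nat_lit 593) (nat_lit 4592))))) (.a (.f (nat_lit 624) (nat_lit 497) (nat_lit 6640) (.f (nat_lit 527) (nat_lit 495) (nat_lit 7663) (.f (nat_lit 559) (nat_lit 656) (nat_lit 7695) (.d (nat_lit 530) (nat_lit 531) (nat_lit 1551) (nat_lit 558) (nat_lit 1550))))) (.a s16671 (.p (nat_lit 496) (.a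 (.f (nat_lit 591) (nat_lit 623) (nat_lit 5615) (.f (nat_lit 559) (nat_lit 464) (nat_lit 5583) (.f (nat_lit 593) (nat_lit 625) (nat_lit 4592) (.d (nat_lit 558) (nat_lit 557) (nat_lit 557) (nat_lit 594) (nat_lit 3630))))) (.a (.f (nat_lit 465) (nat_lit 497) (nat_lit 6608) (.f (nat_lit 464) (nat_lit 433) (nat_lit 6576) (.d (nat_lit 463) (nat_lit 431) (nat_lit 7599) (nat_lit 495) (nat_lit 7631)))) (.f (nat_lit 497) (nat_lit 465) (nat_lit 6608) (.f (nat_lit 495) (nat_lit 463) (nat_lit 7631) (.d (nat_lit 530) (nat_lit 494) (nat_lit 494) (nat_lit 531) (nat_lit 3567))))))))))) (.a s16663 (.a s18300 (.a (.p (nat_lit 527) (.a (.p (nat_lit 530) (.a (.f (nat_lit 495) (nat_lit 494) (nat_lit 3566) (.f (nat_lit 560) (nat_lit 624) (nat_lit 7663) (.d (nat_lit 463) (nat_lit 431) (nat_lit 4527) (nat_lit 496) (nat_lit 7631)))) (.f (nat_lit 498) (nat_lit 499) (nat_lit 2543) (.f (nat_lit 562) (nat_lit 563) (nat_lit 527) (.d (nat_lit 526) (nat_lit 497) (nat_lit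 2542) (nat_lit 561) (nat_lit 526)))))) (.a (.p (nat_lit 530) (.a (.f (nat_lit 498) (nat_lit 499) (nat_lit 2543) (.f (nat_lit 562) (nat_lit 563) (nat_lit 527) (.d (nat_lit 526) (nat_lit 497) (nat_lit 2542) (nat_lit 561) (nat_lit 526)))) (.f (nat_lit 495) (nat_lit 494) (nat_lit 3566) (.f (nat_lit 559) (nat_lit 558) (nat_lit 1550) (.f (nat_lit 591) (nat_lit 624) (nat_lit 4591) (.d (nat_lit 496) (nat_lit 464) (nat_lit 6607) (nat_lit 531) (nat_lit 3567))))))) (.a (.p (nat_lit 530) (.a (.f (nat_lit 498) (nat_lit 499) (nat_lit 2543) (.f (nat_lit 562) (nat_lit 563) (nat_lit 527) (.d (nat_lit 526) (nat_lit 497) (nat_lit 2542) (nat_lit 561) (nat_lit 526)))) (.f (nat_lit 559) (nat_lit 558) (nat_lit 1550) (.f (nat_lit 560) (nat_lit 531) (nat_lit 1551) (.d (nat_lit 495) (nat_lit 463) (nat_lit 4559) (nat_lit 494) (nat_lit 3566)))))) (.a s14377 (.a s14381 (.a (.p (nat_lit 526) (.a (.f (nat_lit 497) (nat_lit 498) (nat_lit 2542) (.f (nat_lit 560) (nat_lit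 624) (nat_lit 6640) (.d (nat_lit 465) (nat_lit 433) (nat_lit 5552) (nat_lit 496) (nat_lit 6608)))) (.a (.f (nat_lit 497) (nat_lit 498) (nat_lit 2542) (.f (nat_lit 525) (nat_lit 496) (nat_lit 2541) (.d (nat_lit 557) (nat_lit 556) (nat_lit 1548) (nat_lit 558) (nat_lit 1549)))) (.a (.f (nat_lit 561) (nat_lit 562) (nat_lit 526) (.f (nat_lit 560) (nat_lit 525) (nat_lit 525) (.d (nat_lit 497) (nat_lit 465) (nat_lit 5584) (nat_lit 498) (nat_lit 2542)))) (.f (nat_lit 561) (nat_lit 562) (nat_lit 526) (.f (nat_lit 560) (nat_lit 525) (nat_lit 525) (.d (nat_lit 624) (nat_lit 495) (nat_lit 7663) (nat_lit 656) (nat_lit 6672)))))))) s14394))))))) (.a s18313 (.a s18406 (.a s18414 s18434)))))))))))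
noncomputable def s18901 : Cert := .r (nat_lit 878694100496718043517683302282418331810487718418343092402491322775749527474899974671687634004666183037093927858109549828751614463963730408009475621262727315456) (.p (nat_lit 529) (.a (.p (nat_lit 592) (.a s14395 (.a s14438 (.a s14449 (.a s14479 (.a s14508 (.a s14512 (.a s14523 (.a s14542 (.a (.p (nat_lit 527) (.a s14394 (.a (.p (nat_lit 526) (.a (.f (nat_lit 497) (nat_lit 498) (nat_lit 2542) (.f (nat_lit 525) (nat_lit 496) (nat_lit 2541) (.d (nat_lit 493) (nat_lit 492) (nat_lit 3564) (nat_lit 494) (nat_lit 3565)))) (.a (.f (nat_lit 493) (nat_lit 494) (nat_lit 3565) (.f (nat_lit 525) (nat_lit 492) (nat_lit 3564) (.d (nat_lit 557) (nat_lit 556) (nat_lit 1548) (nat_lit 558) (nat_lit 1549)))) (.f (nat_lit 497) (nat_lit 498) (nat_lit 2542) (.f (nat_lit 561) (nat_lit 562) (nat_lit 526) (.f (nat_lit 593) (nat_lit 624) (nat_lit 5616) (.d (nat_lit 496) (nat_lit 464) (nat_lit 7632) (nat_lit 625) (nat_lit 7664)))))))) (.a s14436 (.a s14543 (.a (.p (nat_lit 526) (.a (.f (nat_lit 497) (nat_lit 498) (nat_lit 2542) (.f (nat_lit 560) (nat_lit 624) (nat_lit 6640) (.d (nat_lit 465) (nat_lit 433) (nat_lit 5552) (nat_lit 496) (nat_lit 6608)))) (.a (.f (nat_lit 497) (nat_lit 498) (nat_lit 2542) (.f (nat_lit 525) (nat_lit 496) (nat_lit 2541) (.d (nat_lit 493) (nat_lit 492) (nat_lit 3564) (nat_lit 494) (nat_lit 3565)))) (.f (nat_lit 493) (nat_lit 494) (nat_lit 3565) (.f (nat_lit 525) (nat_lit 492) (nat_lit 3564) (.d (nat_lit 557) (nat_lit 556) (nat_lit 1548) (nat_lit 558) (nat_lit 1549))))))) (.a s14601 (.a s14609 s14610)))))))) (.a s14616 (.a s14636 (.a s14643 s14646))))))))))))) (.a (.p (nat_lit 527) (.a (.p (nat_lit 530) (.a (.f (nat_lit 498) (nat_lit 499) (nat_lit 2543) (.f (nat_lit 562) (nat_lit 563) (nat_lit 527) (.d (nat_lit 526) (nat_lit 497) (nat_lit 2542) (nat_lit 561) (nat_lit 526)))) (.a (.f (nat_lit 494) (nat_lit 495) (nat_lit 3566) (.f (nat_lit 526) (nat_lit 493) (nat_lit 3565) (.d (nat_lit 558) (nat_lit 557) (nat_lit 1549) (nat_lit 559) (nat_lit 1550)))) (.f (nat_lit 495) (nat_lit 494) (nat_lit 3566) (.f (nat_lit 531) (nat_lit 496) (nat_lit 3567) (.d (nat_lit 499) (nat_lit 498) (nat_lit 2543) (nat_lit 500) (nat_lit 2544))))))) (.a (.p (nat_lit 530) (.a (.f (nat_lit 498) (nat_lit 499) (nat_lit 2543) (.f (nat_lit 562) (nat_lit 563) (nat_lit 527) (.d (nat_lit 526) (nat_lit 497) (nat_lit 2542) (nat_lit 561) (nat_lit 526)))) (.a (.f (nat_lit 494) (nat_lit 495) (nat_lit 3566) (.f (nat_lit 526) (nat_lit 493) (nat_lit 3565) (.d (nat_lit 558) (nat_lit 557) (nat_lit 1549) (nat_lit 559) (nat_lit 1550)))) (.f (nat_lit 499) (nat_lit 498) (nat_lit 2543) (.f (nat_lit 531) (nat_lit 500) (nat_lit 2544) (.d (nat_lit 563) (nat_lit 562) (nat_lit 527) (nat_lit 564) (nat_lit 528))))))) (.a (.p (nat_lit 530) (.a (.f (nat_lit 494) (nat_lit 495) (nat_lit 3566) (.f (nat_lit 526) (nat_lit 493) (nat_lit 3565) (.d (nat_lit 558) (nat_lit 557) (nat_lit 1549) (nat_lit 559) (nat_lit 1550)))) (.a (.f (nat_lit 495) (nat_lit 494) (nat_lit 3566) (.f (nat_lit 531) (nat_lit 496) (nat_lit 3567) (.d (nat_lit 499) (nat_lit 498) (nat_lit 2543) (nat_lit 500) (nat_lit 2544)))) (.f (nat_lit 499) (nat_lit 498) (nat_lit 2543) (.f (nat_lit 531) (nat_lit 500) (nat_lit 2544) (.d (nat_lit 563) (nat_lit 562) (nat_lit 527) (nat_lit 564) (nat_lit 528))))))) (.a s14673 (.a (.p (nat_lit 530) (.a (.f (nat_lit 498) (nat_lit 499) (nat_lit 2543) (.f (nat_lit 562) (nat_lit 563) (nat_lit 527) (.d (nat_lit 526) (nat_lit 497) (nat_lit 2542) (nat_lit 561) (nat_lit 526)))) (.a (.f (nat_lit 495) (nat_lit 494) (nat_lit 3566) (.f (nat_lit 531) (nat_lit 496) (nat_lit 3567) (.d (nat_lit 499) (nat_lit 498) (nat_lit 2543) (nat_lit 500) (nat_lit 2544)))) (.f (nat_lit 562) (nat_lit 563) (nat_lit 527) (.f (nat_lit 526) (nat_lit 561) (nat_lit 526) (.d (nat_lit 494) (nat_lit 493) (nat_lit 3565) (nat_lit 495) (nat_lit 3566))))))) (.a s14706 (.a (.p (nat_lit 530) (.a (.f (nat_lit 494) (nat_lit 495) (nat_lit 3566) (.f (nat_lit 526) (nat_lit 493) (nat_lit 3565) (.d (nat_lit 558) (nat_lit 557) (nat_lit 1549) (nat_lit 559) (nat_lit 1550)))) (.a (.f (nat_lit 495) (nat_lit 494) (nat_lit 3566) (.f (nat_lit 531) (nat_lit 496) (nat_lit 3567) (.d (nat_lit 499) (nat_lit 498) (nat_lit 2543) (nat_lit 500) (nat_lit 2544)))) (.f (nat_lit 498) (nat_lit 499) (nat_lit 2543) (.f (nat_lit 526) (nat_lit 497) (nat_lit 2542) (.d (nat_lit 558) (nat_lit 557) (nat_lit 1549) (nat_lit 559) (nat_lit 1550))))))) (.a s14708 s14709))))))))) (.a (.p (nat_lit 527) (.a (.p (nat_lit 530) (.a (.f (nat_lit 498) (nat_lit 499) (nat_lit 2543) (.f (nat_lit 562) (nat_lit 563) (nat_lit 527) (.d (nat_lit 526) (nat_lit 497) (nat_lit 2542) (nat_lit 561) (nat_lit 526)))) (.a (.f (nat_lit 494) (nat_lit 495) (nat_lit 3566) (.f (nat_lit 526) (nat_lit 493) (nat_lit 3565) (.d (nat_lit 558) (nat_lit 557) (nat_lit 1549) (nat_lit 559) (nat_lit 1550)))) (.f (nat_lit 499) (nat_lit 498) (nat_lit 2543) (.f (nat_lit 531) (nat_lit 500) (nat_lit 2544) (.d (nat_lit 563) (nat_lit 562) (nat_lit 527) (nat_lit 564) (nat_lit 528))))))) (.a (.p (nat_lit 530) (.a (.f (nat_lit 494) (nat_lit 495) (nat_lit 3566) (.f (nat_lit 526) (nat_lit 493) (nat_lit 3565) (.d (nat_lit 558) (nat_lit 557) (nat_lit 1549) (nat_lit 559) (nat_lit 1550)))) (.f (nat_lit 499) (nat_lit 498) (nat_lit 2543) (.f (nat_lit 531) (nat_lit 500) (nat_lit 2544) (.d (nat_lit 563) (nat_lit 562) (nat_lit 527) (nat_lit 564) (nat_lit 528)))))) (.a (.p (nat_lit 526) (.a (.f (nat_lit 493) (nat_lit 494) (nat_lit 3565) (.f (nat_lit 525) (nat_lit 492) (nat_lit 3564) (.d (nat_lit 557) (nat_lit 556) (nat_lit 1548) (nat_lit 558) (nat_lit 1549)))) (.a (.f (nat_lit 561) (nat_lit 562) (nat_lit 526) (.f (nat_lit 525) (nat_lit 560) (nat_lit 525) (.d (nat_lit 493) (nat_lit 492) (nat_lit 3564) (nat_lit 494) (nat_lit 3565)))) (.a (.p (nat_lit 592) (.a (.f (nat_lit 497) (nat_lit 498) (nat_lit 2542) (.f (nat_lit 560) (nat_lit 624) (nat_lit 6640) (.d (nat_lit 465) (nat_lit 433) (nat_lit 5552) (nat_lit 561) (nat_lit 5584)))) (.a (.f (nat_lit 494) (nat_lit 493) (nat_lit 3565) (.f (nat_lit 497) (nat_lit 498) (nat_lit 2542) (.f (nat_lit 561) (nat_lit 562) (nat_lit 526) (.f (nat_lit 593) (nat_lit 624) (nat_lit 5616) (.f (nat_lit 626) (nat_lit 594) (nat_lit 4593) (.f (nat_lit 625) (nat_lit 658) (nat_lit 4625) (.f (nat_lit 591) (nat_lit 590) (nat_lit 590) (.f (nat_lit 559) (nat_lit 623) (nat_lit 7662) (.d (nat_lit 462) (nat_lit 430) (nat_lit 4526) (nat_lit 495) (nat_lit 7630)))))))))) (.a (.p (nat_lit 495) (.a (.f (nat_lit 560) (nat_lit 624) (nat_lit 7663) (.d (nat_lit 463) (nat_lit 431) (nat_lit 4527) (nat_lit 559) (nat_lit 4559))) (.a (.f (nat_lit 494) (nat_lit 493) (nat_lit 3565) (.f (nat_lit 558) (nat_lit 557) (nat_lit 1549) (.d (nat_lit 463) (nat_lit 431) (nat_lit 5550) (nat_lit 590) (nat_lit 6606)))) (.f (nat_lit 494) (nat_lit 493) (nat_lit 3565) (.f (nat_lit 558) (nat_lit 557) (nat_lit 1549) (.f (nat_lit 590) (nat_lit 622) (nat_lit 6638) (.f (nat_lit 591) (nat_lit 623) (nat_lit 4590) (.d (nat_lit 559) (nat_lit 462) (nat_lit 4558) (nat_lit 624) (nat_lit 4591))))))))) s14752)))) (.f (nat_lit 557) (nat_lit 558) (nat_lit 1549) (.f (nat_lit 525) (nat_lit 556) (nat_lit 1548) (.d (nat_lit 561) (nat_lit 560) (nat_lit 525) (nat_lit 562) (nat_lit 526)))))))) (.a s14755 (.a (.p (nat_lit 530) (.a (.f (nat_lit 499) (nat_lit 498) (nat_lit 2543) (.f (nat_lit 531) (nat_lit 500) (nat_lit 2544) (.d (nat_lit 563) (nat_lit 562) (nat_lit 527) (nat_lit 564) (nat_lit 528)))) (.a (.p (nat_lit 592) (.a (.f (nat_lit 495) (nat_lit 494) (nat_lit 3566) (.f (nat_lit 560) (nat_lit 624) (nat_lit 7663) (.d (nat_lit 463) (nat_lit 431) (nat_lit 4527) (nat_lit 559) (nat_lit 4559)))) (.a (.f (nat_lit 498) (nat_lit 499) (nat_lit 2543) (.f (nat_lit 562) (nat_lit 563) (nat_lit 527) (.f (nat_lit 495) (nat_lit 494) (nat_lit 3566) (.f (nat_lit 559) (nat_lit 558) (nat_lit 1550) (.f (nat_lit 591) (nat_lit 624) (nat_lit 4591) (.f (nat_lit 590) (nat_lit 622) (nat_lit 5614) (.f (nat_lit 593) (nat_lit 561) (nat_lit 2606) (.d (nat_lit 625) (nat_lit 594) (nat_lit 5617) (nat_lit 626) (nat_lit 590))))))))) (.a s14773 (.a (.p (nat_lit 497) (.a (.f (nat_lit 498) (nat_lit 499) (nat_lit 2543) (.f (nat_lit 562) (nat_lit 563) (nat_lit 527) (.d (nat_lit 465) (nat_lit 433) (nat_lit 4529) (nat_lit 594) (nat_lit 7633)))) (.a (.f (nat_lit 560) (nat_lit 624) (nat_lit 6640) (.d (nat_lit 465) (nat_lit 433) (nat_lit 5552) (nat_lit 561) (nat_lit 5584))) (.f (nat_lit 498) (nat_lit 499) (nat_lit 2543) (.f (nat_lit 562) (nat_lit 563) (nat_lit 527) (.f (nat_lit 594) (nat_lit 626) (nat_lit 7665) (.f (nat_lit 593) (nat_lit 625) (nat_lit 5617) (.d (nat_lit 561) (nat_lit 466) (nat_lit 5585) (nat_lit 624) (nat_lit 5616))))))))) s14796))))) (.a (.f (nat_lit 559) (nat_lit 558) (nat_lit 1550) (.f (nat_lit 531) (nat_lit 560) (nat_lit 1551) (.d (nat_lit 499) (nat_lit 498) (nat_lit 2543) (nat_lit 500) (nat_lit 2544)))) (.f (nat_lit 559) (nat_lit 558) (nat_lit 1550) (.f (nat_lit 531) (nat_lit 560) (nat_lit 1551) (.d (nat_lit 563) (nat_lit 562) (nat_lit 527) (nat_lit 564) (nat_lit 528)))))))) (.a s14708 (.a (.p (nat_lit 530) (.a (.f (nat_lit 494) (nat_lit 495) (nat_lit 3566) (.f (nat_lit 526) (nat_lit 493) (nat_lit 3565) (.d (nat_lit 558) (nat_lit 557) (nat_lit 1549) (nat_lit 559) (nat_lit 1550)))) (.a (.f (nat_lit 498) (nat_lit 499) (nat_lit 2543) (.f (nat_lit 526) (nat_lit 497) (nat_lit 2542) (.d (nat_lit 494) (nat_lit 493) (nat_lit 3565) (nat_lit 495) (nat_lit 3566)))) (.f (nat_lit 559) (nat_lit 558) (nat_lit 1550) (.f (nat_lit 531) (nat_lit 560) (nat_lit 1551) (.d (nat_lit 499) (nat_lit 498) (nat_lit 2543) (nat_lit 500) (nat_lit 2544))))))) (.p (nat_lit 530) (.a (.f (nat_lit 494) (nat_lit 495) (nat_lit 3566) (.f (nat_lit 526) (nat_lit 493) (nat_lit 3565) (.d (nat_lit 558) (nat_lit 557) (nat_lit 1549) (nat_lit 559) (nat_lit 1550)))) (.a (.f (nat_lit 562) (nat_lit 563) (nat_lit 527) (.f (nat_lit 526) (nat_lit 561) (nat_lit 526) (.d (nat_lit 494) (nat_lit 493) (nat_lit 3565) (nat_lit 495) (nat_lit 3566)))) (.f (nat_lit 559) (nat_lit 558) (nat_lit 1550) (.f (nat_lit 531) (nat_lit 560) (nat_lit 1551) (.d (nat_lit 563) (nat_lit 562) (nat_lit 527) (nat_lit 564) (nat_lit 528))))))))))))))) (.a s15952 (.a (.p (nat_lit 527) (.a (.p (nat_lit 530) (.a (.f (nat_lit 494) (nat_lit 495) (nat_lit 3566) (.f (nat_lit 526) (nat_lit 493) (nat_lit 3565) (.d (nat_lit 558) (nat_lit 557) (nat_lit 1549) (nat_lit 559) (nat_lit 1550)))) (.a (.f (nat_lit 495) (nat_lit 494) (nat_lit 3566) (.f (nat_lit 531) (nat_lit 496) (nat_lit 3567) (.d (nat_lit 499) (nat_lit 498) (nat_lit 2543) (nat_lit 500) (nat_lit 2544)))) (.f (nat_lit 499) (nat_lit 498) (nat_lit 2543) (.f (nat_lit 531) (nat_lit 500) (nat_lit 2544) (.d (nat_lit 563) (nat_lit 562) (nat_lit 527) (nat_lit 564) (nat_lit 528))))))) (.a (.p (nat_lit 530) (.a (.f (nat_lit 494) (nat_lit 495) (nat_lit 3566) (.f (nat_lit 526) (nat_lit 493) (nat_lit 3565) (.d (nat_lit 558) (nat_lit 557) (nat_lit 1549) (nat_lit 559) (nat_lit 1550)))) (.f (nat_lit 499) (nat_lit 498) (nat_lit 2543) (.f (nat_lit 531) (nat_lit 500) (nat_lit 2544) (.d (nat_lit 563) (nat_lit 562) (nat_lit 527) (nat_lit 564) (nat_lit 528)))))) (.a (.p (nat_lit 560) (.a (.p (nat_lit 561) (.a (.d (nat_lit 526) (nat_lit 525) (nat_lit 525) (nat_lit 562) (nat_lit 526)) (.a (.p (nat_lit 559) (.a (.f (nat_lit 558) (nat_lit 557) (nat_lit 2573) (.f (nat_lit 562) (nat_lit 563) (nat_lit 3599) (.d (nat_lit 590) (nat_lit 589) (nat_lit 1581) (nat_lit 591) (nat_lit 1582)))) (.a (.f (nat_lit 558) (nat_lit 557) (nat_lit 2573) (.f (nat_lit 562) (nat_lit 563) (nat_lit 3599) (.d (nat_lit 594) (nat_lit 593) (nat_lit 558) (nat_lit 595) (nat_lit 559)))) (.a (.f (nat_lit 558) (nat_lit 557) (nat_lit 2573) (.f (nat_lit 590) (nat_lit 589) (nat_lit 1581) (.f (nat_lit 495) (nat_lit 463) (nat_lit 5582) (.d (nat_lit 622) (nat_lit 591) (nat_lit 5614) (nat_lit 654) (nat_lit 6670))))) (.f (nat_lit 562) (nat_lit 563) (nat_lit 3599) (.f (nat_lit 591) (nat_lit 590) (nat_lit 1582) (.f (nat_lit 623) (nat_lit 655) (nat_lit 6671) (.f (nat_lit 624) (nat_lit 656) (nat_lit 4623) (.f (nat_lit 592) (nat_lit 495) (nat_lit 7663) (.f (nat_lit 594) (nat_lit 595) (nat_lit 559) (.d (nat_lit 622) (nat_lit 593) (nat_lit 1614) (nat_lit 654) (nat_lit 5646)))))))))))) (.p (nat_lit 593) (.a (.f (nat_lit 526) (nat_lit 525) (nat_lit 525) (.f (nat_lit 558) (nat_lit 557) (nat_lit 1549) (.f (nat_lit 559) (nat_lit 594) (nat_lit 558) (.f (nat_lit 590) (nat_lit 589) (nat_lit 1581) (.d (nat_lit 495) (nat_lit 463) (nat_lit 5582) (nat_lit 622) (nat_lit 6638)))))) (.a (.f (nat_lit 625) (nat_lit 657) (nat_lit 7696) (.f (nat_lit 624) (nat_lit 656) (nat_lit 5648) (.f (nat_lit 626) (nat_lit 658) (nat_lit 4625) (.f (nat_lit 592) (nat_lit 495) (nat_lit 7663) (.d (nat_lit 591) (nat_lit 590) (nat_lit 590) (nat_lit 627) (nat_lit 3663)))))) (.f (nat_lit 526) (nat_lit 525) (nat_lit 525) (.f (nat_lit 558) (nat_lit 557) (nat_lit 1549) (.f (nat_lit 559) (nat_lit 594) (nat_lit 558) (.f (nat_lit 494) (nat_lit 493) (nat_lit 3565) (.d (nat_lit 462) (nat_lit 430) (nat_lit 4526) (nat_lit 591) (nat_lit 4558)))))))))))) (.a s15963 (.a (.p (nat_lit 526) (.a (.d (nat_lit 561) (nat_lit 525) (nat_lit 525) (nat_lit 562) (nat_lit 526)) (.a (.f (nat_lit 557) (nat_lit 558) (nat_lit 1549) (.f (nat_lit 525) (nat_lit 556) (nat_lit 1548) (.d (nat_lit 493) (nat_lit 492) (nat_lit 3564) (nat_lit 494) (nat_lit 3565)))) (.p (nat_lit 495) (.a (.f (nat_lit 558) (nat_lit 557) (nat_lit 1549) (.f (nat_lit 463) (nat_lit 431) (nat_lit 4527) (.d (nat_lit 494) (nat_lit 493) (nat_lit 3565) (nat_lit 590) (nat_lit 6606)))) (.a (.f (nat_lit 463) (nat_lit 431) (nat_lit 4527) (.d (nat_lit 592) (nat_lit 496) (nat_lit 7631) (nat_lit 624) (nat_lit 7663))) (.f (nat_lit 494) (nat_lit 493) (nat_lit 3565) (.f (nat_lit 558) (nat_lit 557) (nat_lit 1549) (.f (nat_lit 561) (nat_lit 562) (nat_lit 526) (.f (nat_lit 590) (nat_lit 622) (nat_lit 6638) (.f (nat_lit 592) (nat_lit 624) (nat_lit 7663) (.d (nat_lit 589) (nat_lit 591) (nat_lit 2605) (nat_lit 621) (nat_lit 5613))))))))))))) (.a s15982 (.a s15986 (.a (.p (nat_lit 561) (.a (.d (nat_lit 526) (nat_lit 525) (nat_lit 525) (nat_lit 562) (nat_lit 526)) (.a (.p (nat_lit 559) (.a (.f (nat_lit 558) (nat_lit 557) (nat_lit 2573) (.f (nat_lit 562) (nat_lit 563) (nat_lit 3599) (.d (nat_lit 590) (nat_lit 589) (nat_lit 1581) (nat_lit 591) (nat_lit 1582)))) (.a (.f (nat_lit 558) (nat_lit 557) (nat_lit 2573) (.f (nat_lit 562) (nat_lit 563) (nat_lit 3599) (.d (nat_lit 594) (nat_lit 593) (nat_lit 558) (nat_lit 595) (nat_lit 559)))) (.a (.f (nat_lit 558) (nat_lit 557) (nat_lit 2573) (.f (nat_lit 593) (nat_lit 594) (nat_lit 558) (.d (nat_lit 496) (nat_lit 464) (nat_lit 4560) (nat_lit 625) (nat_lit 7664)))) (.f (nat_lit 562) (nat_lit 563) (nat_lit 3599) (.f (nat_lit 591) (nat_lit 590) (nat_lit 1582) (.d (nat_lit 496) (nat_lit 464) (nat_lit 5583) (nat_lit 623) (nat_lit 6639)))))))) (.p (nat_lit 593) (.a (.f (nat_lit 526) (nat_lit 525) (nat_lit 525) (.f (nat_lit 558) (nat_lit 557) (nat_lit 1549) (.f (nat_lit 559) (nat_lit 594) (nat_lit 558) (.f (nat_lit 494) (nat_lit 493) (nat_lit 3565) (.d (nat_lit 462) (nat_lit 430) (nat_lit 4526) (nat_lit 591) (nat_lit 4558)))))) (.d (nat_lit 496) (nat_lit 464) (nat_lit 4560) (nat_lit 625) (nat_lit 7664))))))) (.a (.p (nat_lit 526) (.a (.d (nat_lit 561) (nat_lit 525) (nat_lit 525) (nat_lit 562) (nat_lit 526)) (.a (.f (nat_lit 557) (nat_lit 558) (nat_lit 1549) (.f (nat_lit 525) (nat_lit 556) (nat_lit 1548) (.d (nat_lit 493) (nat_lit 492) (nat_lit 3564) (nat_lit 494) (nat_lit 3565)))) (.p (nat_lit 495) (.a (.f (nat_lit 558) (nat_lit 557) (nat_lit 1549) (.f (nat_lit 463) (nat_lit 431) (nat_lit 4527) (.d (nat_lit 494) (nat_lit 493) (nat_lit 3565) (nat_lit 590) (nat_lit 6606)))) (.a (.f (nat_lit 592) (nat_lit 624) (nat_lit 7663) (.d (nat_lit 463) (nat_lit 431) (nat_lit 4527) (nat_lit 559) (nat_lit 4559))) (.f (nat_lit 561) (nat_lit 562) (nat_lit 526) (.f (nat_lit 558) (nat_lit 557) (nat_lit 1549) (.f (nat_lit 494) (nat_lit 493) (nat_lit 3565) (.f (nat_lit 590) (nat_lit 622) (nat_lit 6638) (.d (nat_lit 589) (nat_lit 559) (nat_lit 1581) (nat_lit 621) (nat_lit 5613)))))))))))) (.a (.p (nat_lit 592) (.a (.f (nat_lit 495) (nat_lit 624) (nat_lit 7663) (.d (nat_lit 463) (nat_lit 431) (nat_lit 4527) (nat_lit 496) (nat_lit 7631))) (.a (.f (nat_lit 624) (nat_lit 495) (nat_lit 7663) (.d (nat_lit 656) (nat_lit 559) (nat_lit 7695) (nat_lit 561) (nat_lit 6672))) (.a s16000 s16001)))) s16016))))))))) (.a (.p (nat_lit 530) (.a (.f (nat_lit 495) (nat_lit 494) (nat_lit 3566) (.f (nat_lit 531) (nat_lit 496) (nat_lit 3567) (.d (nat_lit 499) (nat_lit 498) (nat_lit 2543) (nat_lit 500) (nat_lit 2544)))) (.a (.f (nat_lit 499) (nat_lit 498) (nat_lit 2543) (.f (nat_lit 531) (nat_lit 500) (nat_lit 2544) (.d (nat_lit 563) (nat_lit 562) (nat_lit 527) (nat_lit 564) (nat_lit 528)))) (.f (nat_lit 562) (nat_lit 563) (nat_lit 527) (.f (nat_lit 526) (nat_lit 561) (nat_lit 526) (.d (nat_lit 494) (nat_lit 493) (nat_lit 3565) (nat_lit 495) (nat_lit 3566))))))) (.a (.p (nat_lit 560) (.a (.p (nat_lit 530) (.a (.d (nat_lit 559) (nat_lit 531) (nat_lit 1551) (nat_lit 558) (nat_lit 1550)) (.a (.f (nat_lit 563) (nat_lit 562) (nat_lit 527) (.f (nat_lit 531) (nat_lit 564) (nat_lit 528) (.d (nat_lit 499) (nat_lit 498) (nat_lit 2543) (nat_lit 500) (nat_lit 2544)))) (.f (nat_lit 559) (nat_lit 558) (nat_lit 1550) (.f (nat_lit 495) (nat_lit 494) (nat_lit 3566) (.d (nat_lit 463) (nat_lit 431) (nat_lit 4527) (nat_lit 592) (nat_lit 4559))))))) (.a s15982 (.a (.p (nat_lit 530) (.a (.f (nat_lit 563) (nat_lit 562) (nat_lit 527) (.f (nat_lit 531) (nat_lit 564) (nat_lit 528) (.d (nat_lit 499) (nat_lit 498) (nat_lit 2543) (nat_lit 500) (nat_lit 2544)))) (.f (nat_lit 495) (nat_lit 494) (nat_lit 3566) (.f (nat_lit 592) (nat_lit 624) (nat_lit 7663) (.d (nat_lit 463) (nat_lit 431) (nat_lit 4527) (nat_lit 496) (nat_lit 7631)))))) (.a (.p (nat_lit 559) (.a (.d (nat_lit 530) (nat_lit 531) (nat_lit 1551) (nat_lit 558) (nat_lit 1550)) (.a (.p (nat_lit 561) (.a (.f (nat_lit 558) (nat_lit 557) (nat_lit 2573) (.f (nat_lit 562) (nat_lit 563) (nat_lit 3599) (.d (nat_lit 590) (nat_lit 589) (nat_lit 1581) (nat_lit 591) (nat_lit 1582)))) (.a (.f (nat_lit 558) (nat_lit 557) (nat_lit 2573) (.f (nat_lit 562) (nat_lit 563) (nat_lit 3599) (.d (nat_lit 594) (nat_lit 593) (nat_lit 558) (nat_lit 595) (nat_lit 559)))) (.a (.f (nat_lit 558) (nat_lit 557) (nat_lit 2573) (.f (nat_lit 590) (nat_lit 589) (nat_lit 1581) (.f (nat_lit 495) (nat_lit 463) (nat_lit 5582) (.d (nat_lit 622) (nat_lit 591) (nat_lit 5614) (nat_lit 654) (nat_lit 6670))))) (.f (nat_lit 562) (nat_lit 563) (nat_lit 3599) (.f (nat_lit 591) (nat_lit 590) (nat_lit 1582) (.d (nat_lit 496) (nat_lit 464) (nat_lit 5583) (nat_lit 623) (nat_lit 6639)))))))) (.p (nat_lit 591) (.a (.d (nat_lit 496) (nat_lit 464) (nat_lit 5583) (nat_lit 623) (nat_lit 6639)) (.f (nat_lit 530) (nat_lit 531) (nat_lit 1551) (.f (nat_lit 495) (nat_lit 494) (nat_lit 3566) (.f (nat_lit 562) (nat_lit 563) (nat_lit 527) (.d (nat_lit 590) (nat_lit 561) (nat_lit 1582) (nat_lit 622) (nat_lit 5614)))))))))) (.a (.p (nat_lit 593) (.a (.p (nat_lit 530) (.a (.d (nat_lit 559) (nat_lit 531) (nat_lit 1551) (nat_lit 558) (nat_lit 1550)) (.f (nat_lit 562) (nat_lit 563) (nat_lit 527) (.f (nat_lit 498) (nat_lit 499) (nat_lit 2543) (.d (nat_lit 561) (nat_lit 466) (nat_lit 5585) (nat_lit 625) (nat_lit 6641)))))) (.a (.p (nat_lit 530) (.a (.d (nat_lit 559) (nat_lit 531) (nat_lit 1551) (nat_lit 558) (nat_lit 1550)) (.a (.f (nat_lit 499) (nat_lit 498) (nat_lit 2543) (.f (nat_lit 531) (nat_lit 500) (nat_lit 2544) (.d (nat_lit 563) (nat_lit 562) (nat_lit 527) (nat_lit 564) (nat_lit 528)))) (.f (nat_lit 559) (nat_lit 558) (nat_lit 1550) (.f (nat_lit 498) (nat_lit 499) (nat_lit 2543) (.f (nat_lit 562) (nat_lit 563) (nat_lit 527) (.f (nat_lit 594) (nat_lit 625) (nat_lit 5617) (.d (nat_lit 595) (nat_lit 592) (nat_lit 3631) (nat_lit 627) (nat_lit 4594))))))))) (.a (.p (nat_lit 625) (.a (.d (nat_lit 496) (nat_lit 561) (nat_lit 7664) (nat_lit 592) (nat_lit 4592)) (.a (.f (nat_lit 657) (nat_lit 561) (nat_lit 7696) (.d (nat_lit 592) (nat_lit 624) (nat_lit 4624) (nat_lit 689) (nat_lit 7728))) (.a (.f (nat_lit 592) (nat_lit 496) (nat_lit 4592) (.d (nat_lit 657) (nat_lit 624) (nat_lit 4624) (nat_lit 689) (nat_lit 7728))) (.d (nat_lit 561) (nat_lit 496) (nat_lit 7664) (nat_lit 657) (nat_lit 7696)))))) (.p (nat_lit 530) (.a (.d (nat_lit 559) (nat_lit 531) (nat_lit 1551) (nat_lit 558) (nat_lit 1550)) (.a (.f (nat_lit 499) (nat_lit 498) (nat_lit 2543) (.f (nat_lit 531) (nat_lit 500) (nat_lit 2544) (.d (nat_lit 563) (nat_lit 562) (nat_lit 527) (nat_lit 564) (nat_lit 528)))) (.f (nat_lit 559) (nat_lit 558) (nat_lit 1550) (.f (nat_lit 562) (nat_lit 563) (nat_lit 527) (.f (nat_lit 498) (nat_lit 499) (nat_lit 2543) (.f (nat_lit 561) (nat_lit 466) (nat_lit 5585) (.f (nat_lit 591) (nat_lit 590) (nat_lit 1582) (.d (nat_lit 496) (nat_lit 464) (nat_lit 5583) (nat_lit 623) (nat_lit 6639)))))))))))))) s16016)))))) (.a (.p (nat_lit 530) (.a (.f (nat_lit 499) (nat_lit 498) (nat_lit 2543) (.f (nat_lit 531) (nat_lit 500) (nat_lit 2544) (.d (nat_lit 563) (nat_lit 562) (nat_lit 527) (nat_lit 564) (nat_lit 528)))) (.a (.f (nat_lit 562) (nat_lit 563) (nat_lit 527) (.f (nat_lit 526) (nat_lit 561) (nat_lit 526) (.d (nat_lit 558) (nat_lit 557) (nat_lit 1549) (nat_lit 559) (nat_lit 1550)))) (.f (nat_lit 559) (nat_lit 558) (nat_lit 1550) (.f (nat_lit 531) (nat_lit 560) (nat_lit 1551) (.d (nat_lit 499) (nat_lit 498) (nat_lit 2543) (nat_lit 500) (nat_lit 2544))))))) (.p (nat_lit 530) (.a (.f (nat_lit 494) (nat_lit 495) (nat_lit 3566) (.f (nat_lit 526) (nat_lit 493) (nat_lit 3565) (.d (nat_lit 558) (nat_lit 557) (nat_lit 1549) (nat_lit 559) (nat_lit 1550)))) (.a (.f (nat_lit 495) (nat_lit 494) (nat_lit 3566) (.f (nat_lit 531) (nat_lit 496) (nat_lit 3567) (.d (nat_lit 499) (nat_lit 498) (nat_lit 2543) (nat_lit 500) (nat_lit 2544)))) (.f (nat_lit 559) (nat_lit 558) (nat_lit 1550) (.f (nat_lit 531) (nat_lit 560) (nat_lit 1551) (.d (nat_lit 499) (nat_lit 498) (nat_lit 2543) (nat_lit 500) (nat_lit 2544)))))))))))))) (.a (.p (nat_lit 527) (.a (.p (nat_lit 530) (.a (.f (nat_lit 494) (nat_lit 495) (nat_lit 3566) (.f (nat_lit 526) (nat_lit 493) (nat_lit 3565) (.d (nat_lit 558) (nat_lit 557) (nat_lit 1549) (nat_lit 559) (nat_lit 1550)))) (.a (.f (nat_lit 495) (nat_lit 494) (nat_lit 3566) (.f (nat_lit 531) (nat_lit 496) (nat_lit 3567) (.d (nat_lit 499) (nat_lit 498) (nat_lit 2543) (nat_lit 500) (nat_lit 2544)))) (.f (nat_lit 499) (nat_lit 498) (nat_lit 2543) (.f (nat_lit 531) (nat_lit 500) (nat_lit 2544) (.d (nat_lit 563) (nat_lit 562) (nat_lit 527) (nat_lit 564) (nat_lit 528))))))) (.a (.p (nat_lit 530) (.a (.f (nat_lit 494) (nat_lit 495) (nat_lit 3566) (.f (nat_lit 526) (nat_lit 493) (nat_lit 3565) (.d (nat_lit 558) (nat_lit 557) (nat_lit 1549) (nat_lit 559) (nat_lit 1550)))) (.f (nat_lit 499) (nat_lit 498) (nat_lit 2543) (.f (nat_lit 531) (nat_lit 500) (nat_lit 2544) (.d (nat_lit 563) (nat_lit 562) (nat_lit 527) (nat_lit 564) (nat_lit 528)))))) (.a s16079 (.a s13969 (.a (.p (nat_lit 592) (.a s14381 (.a s14428 (.a (.p (nat_lit 530) (.a (.f (nat_lit 559) (nat_lit 558) (nat_lit 1550) (.f (nat_lit 560) (nat_lit 531) (nat_lit 1551) (.d (nat_lit 495) (nat_lit 463) (nat_lit 4559) (nat_lit 494) (nat_lit 3566)))) (.a (.f (nat_lit 499) (nat_lit 498) (nat_lit 2543) (.f (nat_lit 531) (nat_lit 500) (nat_lit 2544) (.d (nat_lit 563) (nat_lit 562) (nat_lit 527) (nat_lit 564) (nat_lit 528)))) (.f (nat_lit 495) (nat_lit 494) (nat_lit 3566) (.f (nat_lit 560) (nat_lit 624) (nat_lit 7663) (.d (nat_lit 463) (nat_lit 431) (nat_lit 4527) (nat_lit 559) (nat_lit 4559))))))) (.a s16080 (.a (.p (nat_lit 530) (.a (.f (nat_lit 495) (nat_lit 494) (nat_lit 3566) (.f (nat_lit 560) (nat_lit 624) (nat_lit 7663) (.d (nat_lit 463) (nat_lit 431) (nat_lit 4527) (nat_lit 496) (nat_lit 7631)))) (.f (nat_lit 499) (nat_lit 498) (nat_lit 2543) (.f (nat_lit 531) (nat_lit 500) (nat_lit 2544) (.d (nat_lit 563) (nat_lit 562) (nat_lit 527) (nat_lit 564) (nat_lit 528)))))) (.a s16089 s14634))))))) (.a (.p (nat_lit 530) (.a (.f (nat_lit 499) (nat_lit 498) (nat_lit 2543) (.f (nat_lit 531) (nat_lit 500) (nat_lit 2544) (.d (nat_lit 563) (nat_lit 562) (nat_lit 527) (nat_lit 564) (nat_lit 528)))) (.a (.f (nat_lit 498) (nat_lit 499) (nat_lit 2543) (.f (nat_lit 526) (nat_lit 497) (nat_lit 2542) (.d (nat_lit 558) (nat_lit 557) (nat_lit 1549) (nat_lit 559) (nat_lit 1550)))) (.f (nat_lit 559) (nat_lit 558) (nat_lit 1550) (.f (nat_lit 531) (nat_lit 560) (nat_lit 1551) (.d (nat_lit 563) (nat_lit 562) (nat_lit 527) (nat_lit 564) (nat_lit 528))))))) (.p (nat_lit 530) (.a (.f (nat_lit 494) (nat_lit 495) (nat_lit 3566) (.f (nat_lit 526) (nat_lit 493) (nat_lit 3565) (.d (nat_lit 558) (nat_lit 557) (nat_lit 1549) (nat_lit 559) (nat_lit 1550)))) (.a (.f (nat_lit 495) (nat_lit 494) (nat_lit 3566) (.f (nat_lit 531) (nat_lit 496) (nat_lit 3567) (.d (nat_lit 563) (nat_lit 562) (nat_lit 527) (nat_lit 564) (nat_lit 528)))) (.f (nat_lit 559) (nat_lit 558) (nat_lit 1550) (.f (nat_lit 531) (nat_lit 560) (nat_lit 1551) (.d (nat_lit 563) (nat_lit 562) (nat_lit 527) (nat_lit 564) (nat_lit 528)))))))))))))) (.a s17066 (.a (.p (nat_lit 527) (.a (.p (nat_lit 530) (.a (.f (nat_lit 498) (nat_lit 499) (nat_lit 2543) (.f (nat_lit 562) (nat_lit 563) (nat_lit 527) (.d (nat_lit 526) (nat_lit 497) (nat_lit 2542) (nat_lit 561) (nat_lit 526)))) (.a (.f (nat_lit 495) (nat_lit 494) (nat_lit 3566) (.f (nat_lit 531) (nat_lit 496) (nat_lit 3567) (.d (nat_lit 499) (nat_lit 498) (nat_lit 2543) (nat_lit 500) (nat_lit 2544)))) (.f (nat_lit 562) (nat_lit 563) (nat_lit 527) (.f (nat_lit 526) (nat_lit 561) (nat_lit 526) (.d (nat_lit 494) (nat_lit 493) (nat_lit 3565) (nat_lit 495) (nat_lit 3566))))))) (.a s14755 (.a (.p (nat_lit 530) (.a (.f (nat_lit 495) (nat_lit 494) (nat_lit 3566) (.f (nat_lit 531) (nat_lit 496) (nat_lit 3567) (.d (nat_lit 499) (nat_lit 498) (nat_lit 2543) (nat_lit 500) (nat_lit 2544)))) (.a (.f (nat_lit 499) (nat_lit 498) (nat_lit 2543) (.f (nat_lit 531) (nat_lit 500) (nat_lit 2544) (.d (nat_lit 563) (nat_lit 562) (nat_lit 527) (nat_lit 564) (nat_lit 528)))) (.f (nat_lit 562) (nat_lit 563) (nat_lit 527) (.f (nat_lit 526) (nat_lit 561) (nat_lit 526) (.d (nat_lit 494) (nat_lit 493) (nat_lit 3565) (nat_lit 495) (nat_lit 3566))))))) (.a s13969 (.a (.p (nat_lit 592) (.a s14393 (.a (.p (nat_lit 526) (.a (.f (nat_lit 497) (nat_lit 498) (nat_lit 2542) (.f (nat_lit 525) (nat_lit 496) (nat_lit 2541) (.d (nat_lit 493) (nat_lit 492) (nat_lit 3564) (nat_lit 494) (nat_lit 3565)))) (.a (.f (nat_lit 493) (nat_lit 494) (nat_lit 3565) (.f (nat_lit 525) (nat_lit 492) (nat_lit 3564) (.d (nat_lit 557) (nat_lit 556) (nat_lit 1548) (nat_lit 558) (nat_lit 1549)))) (.f (nat_lit 497) (nat_lit 498) (nat_lit 2542) (.f (nat_lit 561) (nat_lit 562) (nat_lit 526) (.f (nat_lit 593) (nat_lit 624) (nat_lit 5616) (.d (nat_lit 496) (nat_lit 464) (nat_lit 7632) (nat_lit 625) (nat_lit 7664)))))))) (.a (.p (nat_lit 526) (.a (.f (nat_lit 561) (nat_lit 562) (nat_lit 526) (.f (nat_lit 560) (nat_lit 525) (nat_lit 525) (.d (nat_lit 497) (nat_lit 465) (nat_lit 5584) (nat_lit 498) (nat_lit 2542)))) (.a (.f (nat_lit 493) (nat_lit 494) (nat_lit 3565) (.f (nat_lit 525) (nat_lit 492) (nat_lit 3564) (.d (nat_lit 557) (nat_lit 556) (nat_lit 1548) (nat_lit 558) (nat_lit 1549)))) (.f (nat_lit 497) (nat_lit 498) (nat_lit 2542) (.f (nat_lit 560) (nat_lit 624) (nat_lit 6640) (.d (nat_lit 465) (nat_lit 433) (nat_lit 5552) (nat_lit 561) (nat_lit 5584))))))) (.a s17075 (.a (.p (nat_lit 526) (.a (.f (nat_lit 497) (nat_lit 498) (nat_lit 2542) (.f (nat_lit 560) (nat_lit 624) (nat_lit 6640) (.d (nat_lit 465) (nat_lit 433) (nat_lit 5552) (nat_lit 496) (nat_lit 6608)))) (.a (.f (nat_lit 497) (nat_lit 498) (nat_lit 2542) (.f (nat_lit 525) (nat_lit 496) (nat_lit 2541) (.d (nat_lit 493) (nat_lit 492) (nat_lit 3564) (nat_lit 494) (nat_lit 3565)))) (.f (nat_lit 493) (nat_lit 494) (nat_lit 3565) (.f (nat_lit 525) (nat_lit 492) (nat_lit 3564) (.d (nat_lit 557) (nat_lit 556) (nat_lit 1548) (nat_lit 558) (nat_lit 1549))))))) (.a s17077 s14625))))))) (.a s17097 (.a s17098 (.a s17099 (.a (.p (nat_lit 530) (.a (.f (nat_lit 498) (nat_lit 499) (nat_lit 2543) (.f (nat_lit 562) (nat_lit 563) (nat_lit 527) (.d (nat_lit 526) (nat_lit 497) (nat_lit 2542) (nat_lit 561) (nat_lit 526)))) (.a (.f (nat_lit 499) (nat_lit 498) (nat_lit 2543) (.f (nat_lit 531) (nat_lit 500) (nat_lit 2544) (.d (nat_lit 563) (nat_lit 562) (nat_lit 527) (nat_lit 564) (nat_lit 528)))) (.a (.f (nat_lit 499) (nat_lit 498) (nat_lit 2543) (.f (nat_lit 531) (nat_lit 500) (nat_lit 2544) (.f (nat_lit 564) (nat_lit 563) (nat_lit 528) (.f (nat_lit 532) (nat_lit 565) (nat_lit 529) (.d (nat_lit 496) (nat_lit 495) (nat_lit 3567) (nat_lit 497) (nat_lit 3568)))))) (.a (.f (nat_lit 498) (nat_lit 499) (nat_lit 2543) (.f (nat_lit 526) (nat_lit 497) (nat_lit 2542) (.f (nat_lit 561) (nat_lit 562) (nat_lit 526) (.f (nat_lit 525) (nat_lit 560) (nat_lit 525) (.d (nat_lit 557) (nat_lit 556) (nat_lit 1548) (nat_lit 558) (nat_lit 1549)))))) (.f (nat_lit 562) (nat_lit 563) (nat_lit 527) (.f (nat_lit 526) (nat_lit 561) (nat_lit 526) (.f (nat_lit 557) (nat_lit 558) (nat_lit 1549) (.f (nat_lit 525) (nat_lit 556) (nat_lit 1548) (.f (nat_lit 492) (nat_lit 493) (nat_lit 3564) (.f (nat_lit 524) (nat_lit 491) (nat_lit 3563) (.d (nat_lit 496) (nat_lit 495) (nat_lit 2540) (nat_lit 497) (nat_lit 2541))))))))))))) (.a (.p (nat_lit 530) (.a (.f (nat_lit 495) (nat_lit 494) (nat_lit 3566) (.f (nat_lit 531) (nat_lit 496) (nat_lit 3567) (.d (nat_lit 499) (nat_lit 498) (nat_lit 2543) (nat_lit 500) (nat_lit 2544)))) (.a (.f (nat_lit 498) (nat_lit 499) (nat_lit 2543) (.f (nat_lit 526) (nat_lit 497) (nat_lit 2542) (.d (nat_lit 494) (nat_lit 493) (nat_lit 3565) (nat_lit 495) (nat_lit 3566)))) (.a (.f (nat_lit 498) (nat_lit 499) (nat_lit 2543) (.f (nat_lit 526) (nat_lit 497) (nat_lit 2542) (.f (nat_lit 493) (nat_lit 494) (nat_lit 3565) (.f (nat_lit 525) (nat_lit 492) (nat_lit 3564) (.d (nat_lit 557) (nat_lit 556) (nat_lit 1548) (nat_lit 558) (nat_lit 1549)))))) (.a (.f (nat_lit 498) (nat_lit 499) (nat_lit 2543) (.f (nat_lit 526) (nat_lit 497) (nat_lit 2542) (.f (nat_lit 561) (nat_lit 562) (nat_lit 526) (.f (nat_lit 525) (nat_lit 560) (nat_lit 525) (.d (nat_lit 557) (nat_lit 556) (nat_lit 1548) (nat_lit 558) (nat_lit 1549)))))) (.a (.f (nat_lit 495) (nat_lit 494) (nat_lit 3566) (.f (nat_lit 531) (nat_lit 496) (nat_lit 3567) (.f (nat_lit 500) (nat_lit 499) (nat_lit 2544) (.f (nat_lit 532) (nat_lit 501) (nat_lit 2545) (.f (nat_lit 561) (nat_lit 560) (nat_lit 1552) (.d (nat_lit 562) (nat_lit 526) (nat_lit 526) (nat_lit 533) (nat_lit 1553))))))) (.f (nat_lit 494) (nat_lit 495) (nat_lit 3566) (.f (nat_lit 526) (nat_lit 493) (nat_lit 3565) (.f (nat_lit 557) (nat_lit 558) (nat_lit 1549) (.f (nat_lit 525) (nat_lit 556) (nat_lit 1548) (.d (nat_lit 497) (nat_lit 496) (nat_lit 2541) (nat_lit 498) (nat_lit 2542)))))))))))) (.a (.p (nat_lit 530) (.a (.f (nat_lit 562) (nat_lit 563) (nat_lit 527) (.f (nat_lit 526) (nat_lit 561) (nat_lit 526) (.d (nat_lit 494) (nat_lit 493) (nat_lit 3565) (nat_lit 495) (nat_lit 3566)))) (.a (.f (nat_lit 495) (nat_lit 494) (nat_lit 3566) (.f (nat_lit 531) (nat_lit 496) (nat_lit 3567) (.d (nat_lit 563) (nat_lit 562) (nat_lit 527) (nat_lit 564) (nat_lit 528)))) (.a (.f (nat_lit 562) (nat_lit 563) (nat_lit 527) (.f (nat_lit 526) (nat_lit 561) (nat_lit 526) (.f (nat_lit 493) (nat_lit 494) (nat_lit 3565) (.f (nat_lit 525) (nat_lit 492) (nat_lit 3564) (.d (nat_lit 557) (nat_lit 556) (nat_lit 1548) (nat_lit 558) (nat_lit 1549)))))) (.a (.f (nat_lit 495) (nat_lit 494) (nat_lit 3566) (.f (nat_lit 531) (nat_lit 496) (nat_lit 3567) (.f (nat_lit 500) (nat_lit 499) (nat_lit 2544) (.f (nat_lit 532) (nat_lit 501) (nat_lit 2545) (.d (nat_lit 564) (nat_lit 563) (nat_lit 528) (nat_lit 565) (nat_lit 529)))))) (.a (.f (nat_lit 562) (nat_lit 563) (nat_lit 527) (.f (nat_lit 526) (nat_lit 561) (nat_lit 526) (.f (nat_lit 557) (nat_lit 558) (nat_lit 1549) (.f (nat_lit 525) (nat_lit 556) (nat_lit 1548) (.f (nat_lit 492) (nat_lit 493) (nat_lit 3564) (.f (nat_lit 524) (nat_lit 491) (nat_lit 3563) (.d (nat_lit 496) (nat_lit 495) (nat_lit 2540) (nat_lit 497) (nat_lit 2541)))))))) (.f (nat_lit 495) (nat_lit 494) (nat_lit 3566) (.f (nat_lit 531) (nat_lit 496) (nat_lit 3567) (.f (nat_lit 500) (nat_lit 499) (nat_lit 2544) (.f (nat_lit 532) (nat_lit 501) (nat_lit 2545) (.f (nat_lit 561) (nat_lit 560) (nat_lit 1552) (.d (nat_lit 562) (nat_lit 526) (nat_lit 526) (nat_lit 533) (nat_lit 1553))))))))))))) (.a (.p (nat_lit 530) (.a (.f (nat_lit 562) (nat_lit 563) (nat_lit 527) (.f (nat_lit 526) (nat_lit 561) (nat_lit 526) (.d (nat_lit 494) (nat_lit 493) (nat_lit 3565) (nat_lit 495) (nat_lit 3566)))) (.a (.f (nat_lit 495) (nat_lit 494) (nat_lit 3566) (.f (nat_lit 531) (nat_lit 496) (nat_lit 3567) (.d (nat_lit 563) (nat_lit 562) (nat_lit 527) (nat_lit 564) (nat_lit 528)))) (.a (.f (nat_lit 562) (nat_lit 563) (nat_lit 527) (.f (nat_lit 526) (nat_lit 561) (nat_lit 526) (.f (nat_lit 493) (nat_lit 494) (nat_lit 3565) (.f (nat_lit 525) (nat_lit 492) (nat_lit 3564) (.d (nat_lit 557) (nat_lit 556) (nat_lit 1548) (nat_lit 558) (nat_lit 1549)))))) (.a (.f (nat_lit 494) (nat_lit 495) (nat_lit 3566) (.f (nat_lit 526) (nat_lit 493) (nat_lit 3565) (.f (nat_lit 557) (nat_lit 558) (nat_lit 1549) (.f (nat_lit 525) (nat_lit 556) (nat_lit 1548) (.d (nat_lit 497) (nat_lit 496) (nat_lit 2541) (nat_lit 498) (nat_lit 2542)))))) (.f (nat_lit 562) (nat_lit 563) (nat_lit 527) (.f (nat_lit 526) (nat_lit 561) (nat_lit 526) (.f (nat_lit 557) (nat_lit 558) (nat_lit 1549) (.f (nat_lit 525) (nat_lit 556) (nat_lit 1548) (.f (nat_lit 492) (nat_lit 493) (nat_lit 3564) (.f (nat_lit 524) (nat_lit 491) (nat_lit 3563) (.d (nat_lit 496) (nat_lit 495) (nat_lit 2540) (nat_lit 497) (nat_lit 2541))))))))))))) (.p (nat_lit 530) (.a (.f (nat_lit 498) (nat_lit 499) (nat_lit 2543) (.f (nat_lit 562) (nat_lit 563) (nat_lit 527) (.d (nat_lit 526) (nat_lit 497) (nat_lit 2542) (nat_lit 561) (nat_lit 526)))) (.a (.f (nat_lit 495) (nat_lit 494) (nat_lit 3566) (.f (nat_lit 531) (nat_lit 496) (nat_lit 3567) (.d (nat_lit 499) (nat_lit 498) (nat_lit 2543) (nat_lit 500) (nat_lit 2544)))) (.f (nat_lit 495) (nat_lit 494) (nat_lit 3566) (.f (nat_lit 531) (nat_lit 496) (nat_lit 3567) (.d (nat_lit 563) (nat_lit 562) (nat_lit 527) (nat_lit 564) (nat_lit 528)))))))))))))))))))) (.a s17293 (.a (.p (nat_lit 527) (.a (.p (nat_lit 530) (.a (.f (nat_lit 498) (nat_lit 499) (nat_lit 2543) (.f (nat_lit 562) (nat_lit 563) (nat_lit 527) (.d (nat_lit 526) (nat_lit 497) (nat_lit 2542) (nat_lit 561) (nat_lit 526)))) (.a (.f (nat_lit 494) (nat_lit 495) (nat_lit 3566) (.f (nat_lit 526) (nat_lit 493) (nat_lit 3565) (.d (nat_lit 558) (nat_lit 557) (nat_lit 1549) (nat_lit 559) (nat_lit 1550)))) (.f (nat_lit 495) (nat_lit 494) (nat_lit 3566) (.f (nat_lit 531) (nat_lit 496) (nat_lit 3567) (.d (nat_lit 499) (nat_lit 498) (nat_lit 2543) (nat_lit 500) (nat_lit 2544))))))) (.a (.p (nat_lit 530) (.a (.f (nat_lit 498) (nat_lit 499) (nat_lit 2543) (.f (nat_lit 562) (nat_lit 563) (nat_lit 527) (.d (nat_lit 526) (nat_lit 497) (nat_lit 2542) (nat_lit 561) (nat_lit 526)))) (.a (.f (nat_lit 494) (nat_lit 495) (nat_lit 3566) (.f (nat_lit 526) (nat_lit 493) (nat_lit 3565) (.d (nat_lit 558) (nat_lit 557) (nat_lit 1549) (nat_lit 559) (nat_lit 1550)))) (.f (nat_lit 499) (nat_lit 498) (nat_lit 2543) (.f (nat_lit 531) (nat_lit 500) (nat_lit 2544) (.d (nat_lit 563) (nat_lit 562) (nat_lit 527) (nat_lit 564) (nat_lit 528))))))) (.a (.p (nat_lit 530) (.a (.f (nat_lit 494) (nat_lit 495) (nat_lit 3566) (.f (nat_lit 526) (nat_lit 493) (nat_lit 3565) (.d (nat_lit 558) (nat_lit 557) (nat_lit 1549) (nat_lit 559) (nat_lit 1550)))) (.a (.f (nat_lit 495) (nat_lit 494) (nat_lit 3566) (.f (nat_lit 531) (nat_lit 496) (nat_lit 3567) (.d (nat_lit 499) (nat_lit 498) (nat_lit 2543) (nat_lit 500) (nat_lit 2544)))) (.f (nat_lit 499) (nat_lit 498) (nat_lit 2543) (.f (nat_lit 531) (nat_lit 500) (nat_lit 2544) (.d (nat_lit 563) (nat_lit 562) (nat_lit 527) (nat_lit 564) (nat_lit 528))))))) (.a (.p (nat_lit 560) (.a (.p (nat_lit 526) (.a (.d (nat_lit 561) (nat_lit 525) (nat_lit 525) (nat_lit 562) (nat_lit 526)) (.a (.f (nat_lit 557) (nat_lit 558) (nat_lit 1549) (.f (nat_lit 525) (nat_lit 556) (nat_lit 1548) (.d (nat_lit 493) (nat_lit 492) (nat_lit 3564) (nat_lit 494) (nat_lit 3565)))) (.f (nat_lit 561) (nat_lit 562) (nat_lit 526) (.f (nat_lit 497) (nat_lit 498) (nat_lit 2542) (.d (nat_lit 465) (nat_lit 433) (nat_lit 5552) (nat_lit 592) (nat_lit 5584))))))) (.a s15963 (.a (.p (nat_lit 592) (.a (.d (nat_lit 624) (nat_lit 495) (nat_lit 7663) (nat_lit 497) (nat_lit 6640)) (.a (.f (nat_lit 495) (nat_lit 624) (nat_lit 7663) (.d (nat_lit 463) (nat_lit 431) (nat_lit 4527) (nat_lit 496) (nat_lit 7631))) (.a (.f (nat_lit 497) (nat_lit 624) (nat_lit 6640) (.d (nat_lit 465) (nat_lit 433) (nat_lit 5552) (nat_lit 496) (nat_lit 6608))) s17296)))) (.a s16072 (.a (.p (nat_lit 526) (.a (.f (nat_lit 557) (nat_lit 558) (nat_lit 1549) (.f (nat_lit 525) (nat_lit 556) (nat_lit 1548) (.f (nat_lit 492) (nat_lit 493) (nat_lit 3564) (.d (nat_lit 524) (nat_lit 491) (nat_lit 3563) (nat_lit 559) (nat_lit 524))))) (.a (.f (nat_lit 497) (nat_lit 498) (nat_lit 2542) (.f (nat_lit 496) (nat_lit 525) (nat_lit 2541) (.d (nat_lit 465) (nat_lit 433) (nat_lit 5552) (nat_lit 592) (nat_lit 6608)))) (.f (nat_lit 497) (nat_lit 498) (nat_lit 2542) (.f (nat_lit 592) (nat_lit 624) (nat_lit 6640) (.d (nat_lit 465) (nat_lit 433) (nat_lit 5552) (nat_lit 496) (nat_lit 6608))))))) (.p (nat_lit 526) (.a (.d (nat_lit 561) (nat_lit 525) (nat_lit 525) (nat_lit 562) (nat_lit 526)) (.a (.f (nat_lit 497) (nat_lit 498) (nat_lit 2542) (.f (nat_lit 496) (nat_lit 525) (nat_lit 2541) (.d (nat_lit 465) (nat_lit 433) (nat_lit 5552) (nat_lit 592) (nat_lit 6608)))) (.f (nat_lit 561) (nat_lit 562) (nat_lit 526) (.f (nat_lit 497) (nat_lit 498) (nat_lit 2542) (.d (nat_lit 465) (nat_lit 433) (nat_lit 5552) (nat_lit 592) (nat_lit 5584))))))))))))) (.a (.p (nat_lit 530) (.a (.f (nat_lit 498) (nat_lit 499) (nat_lit 2543) (.f (nat_lit 562) (nat_lit 563) (nat_lit 527) (.d (nat_lit 526) (nat_lit 497) (nat_lit 2542) (nat_lit 561) (nat_lit 526)))) (.a (.f (nat_lit 495) (nat_lit 494) (nat_lit 3566) (.f (nat_lit 531) (nat_lit 496) (nat_lit 3567) (.d (nat_lit 499) (nat_lit 498) (nat_lit 2543) (nat_lit 500) (nat_lit 2544)))) (.f (nat_lit 562) (nat_lit 563) (nat_lit 527) (.f (nat_lit 526) (nat_lit 561) (nat_lit 526) (.d (nat_lit 494) (nat_lit 493) (nat_lit 3565) (nat_lit 495) (nat_lit 3566))))))) (.a (.p (nat_lit 592) (.a s14381 (.a s14428 (.a (.p (nat_lit 530) (.a (.f (nat_lit 559) (nat_lit 558) (nat_lit 1550) (.f (nat_lit 560) (nat_lit 531) (nat_lit 1551) (.d (nat_lit 495) (nat_lit 463) (nat_lit 4559) (nat_lit 494) (nat_lit 3566)))) (.a (.f (nat_lit 499) (nat_lit 498) (nat_lit 2543) (.f (nat_lit 531) (nat_lit 500) (nat_lit 2544) (.d (nat_lit 563) (nat_lit 562) (nat_lit 527) (nat_lit 564) (nat_lit 528)))) (.f (nat_lit 495) (nat_lit 494) (nat_lit 3566) (.f (nat_lit 560) (nat_lit 624) (nat_lit 7663) (.d (nat_lit 463) (nat_lit 431) (nat_lit 4527) (nat_lit 559) (nat_lit 4559))))))) (.a s17299 (.a (.p (nat_lit 530) (.a (.f (nat_lit 495) (nat_lit 494) (nat_lit 3566) (.f (nat_lit 560) (nat_lit 624) (nat_lit 7663) (.d (nat_lit 463) (nat_lit 431) (nat_lit 4527) (nat_lit 496) (nat_lit 7631)))) (.f (nat_lit 499) (nat_lit 498) (nat_lit 2543) (.f (nat_lit 531) (nat_lit 500) (nat_lit 2544) (.d (nat_lit 563) (nat_lit 562) (nat_lit 527) (nat_lit 564) (nat_lit 528)))))) (.a s17307 s14634))))))) (.a s14708 (.a (.p (nat_lit 530) (.a (.f (nat_lit 494) (nat_lit 495) (nat_lit 3566) (.f (nat_lit 526) (nat_lit 493) (nat_lit 3565) (.d (nat_lit 558) (nat_lit 557) (nat_lit 1549) (nat_lit 559) (nat_lit 1550)))) (.a (.f (nat_lit 495) (nat_lit 494) (nat_lit 3566) (.f (nat_lit 531) (nat_lit 496) (nat_lit 3567) (.d (nat_lit 499) (nat_lit 498) (nat_lit 2543) (nat_lit 500) (nat_lit 2544)))) (.f (nat_lit 498) (nat_lit 499) (nat_lit 2543) (.f (nat_lit 526) (nat_lit 497) (nat_lit 2542) (.d (nat_lit 558) (nat_lit 557) (nat_lit 1549) (nat_lit 559) (nat_lit 1550))))))) s14709))))))))) (.a (.p (nat_lit 527) (.a (.p (nat_lit 530) (.a (.f (nat_lit 498) (nat_lit 499) (nat_lit 2543) (.f (nat_lit 562) (nat_lit 563) (nat_lit 527) (.d (nat_lit 526) (nat_lit 497) (nat_lit 2542) (nat_lit 561) (nat_lit 526)))) (.a (.f (nat_lit 494) (nat_lit 495) (nat_lit 3566) (.f (nat_lit 526) (nat_lit 493) (nat_lit 3565) (.d (nat_lit 558) (nat_lit 557) (nat_lit 1549) (nat_lit 559) (nat_lit 1550)))) (.f (nat_lit 495) (nat_lit 494) (nat_lit 3566) (.f (nat_lit 531) (nat_lit 496) (nat_lit 3567) (.d (nat_lit 499) (nat_lit 498) (nat_lit 2543) (nat_lit 500) (nat_lit 2544))))))) (.a (.p (nat_lit 530) (.a (.f (nat_lit 498) (nat_lit 499) (nat_lit 2543) (.f (nat_lit 562) (nat_lit 563) (nat_lit 527) (.d (nat_lit 526) (nat_lit 497) (nat_lit 2542) (nat_lit 561) (nat_lit 526)))) (.a (.f (nat_lit 494) (nat_lit 495) (nat_lit 3566) (.f (nat_lit 526) (nat_lit 493) (nat_lit 3565) (.d (nat_lit 558) (nat_lit 557) (nat_lit 1549) (nat_lit 559) (nat_lit 1550)))) (.f (nat_lit 499) (nat_lit 498) (nat_lit 2543) (.f (nat_lit 531) (nat_lit 500) (nat_lit 2544) (.d (nat_lit 563) (nat_lit 562) (nat_lit 527) (nat_lit 564) (nat_lit 528))))))) (.a (.p (nat_lit 530) (.a (.f (nat_lit 494) (nat_lit 495) (nat_lit 3566) (.f (nat_lit 526) (nat_lit 493) (nat_lit 3565) (.d (nat_lit 558) (nat_lit 557) (nat_lit 1549) (nat_lit 559) (nat_lit 1550)))) (.a (.f (nat_lit 495) (nat_lit 494) (nat_lit 3566) (.f (nat_lit 531) (nat_lit 496) (nat_lit 3567) (.d (nat_lit 499) (nat_lit 498) (nat_lit 2543) (nat_lit 500) (nat_lit 2544)))) (.f (nat_lit 499) (nat_lit 498) (nat_lit 2543) (.f (nat_lit 531) (nat_lit 500) (nat_lit 2544) (.d (nat_lit 563) (nat_lit 562) (nat_lit 527) (nat_lit 564) (nat_lit 528))))))) (.a (.p (nat_lit 561) (.a (.f (nat_lit 526) (nat_lit 562) (nat_lit 526) (.f (nat_lit 497) (nat_lit 498) (nat_lit 2542) (.f (nat_lit 496) (nat_lit 525) (nat_lit 2541) (.d (nat_lit 593) (nat_lit 464) (nat_lit 7632) (nat_lit 625) (nat_lit 7664))))) (.a (.f (nat_lit 526) (nat_lit 562) (nat_lit 526) (.f (nat_lit 493) (nat_lit 494) (nat_lit 3565) (.f (nat_lit 525) (nat_lit 492) (nat_lit 3564) (.d (nat_lit 557) (nat_lit 556) (nat_lit 1548) (nat_lit 558) (nat_lit 1549))))) (.a (.p (nat_lit 593) (.a (.f (nat_lit 625) (nat_lit 496) (nat_lit 7664) (.f (nat_lit 658) (nat_lit 626) (nat_lit 4625) (.f (nat_lit 657) (nat_lit 690) (nat_lit 4657) (.d (nat_lit 656) (nat_lit 624) (nat_lit 5648) (nat_lit 688) (nat_lit 5680))))) (.a (.p (nat_lit 625) (.a (.f (nat_lit 657) (nat_lit 560) (nat_lit 7696) (.d (nat_lit 656) (nat_lit 624) (nat_lit 5648) (nat_lit 688) (nat_lit 5680))) (.a (.f (nat_lit 626) (nat_lit 658) (nat_lit 4625) (.f (nat_lit 624) (nat_lit 656) (nat_lit 5648) (.f (nat_lit 594) (nat_lit 497) (nat_lit 4593) (.d (nat_lit 595) (nat_lit 596) (nat_lit 1616) (nat_lit 623) (nat_lit 2639))))) (.f (nat_lit 657) (nat_lit 560) (nat_lit 7696) (.d (nat_lit 658) (nat_lit 626) (nat_lit 4625) (nat_lit 690) (nat_lit 4657)))))) (.a (.f (nat_lit 496) (nat_lit 625) (nat_lit 7664) (.d (nat_lit 464) (nat_lit 497) (nat_lit 7632) (nat_lit 560) (nat_lit 4560))) (.p (nat_lit 497) (.a (.f (nat_lit 594) (nat_lit 626) (nat_lit 4593) (.f (nat_lit 562) (nat_lit 465) (nat_lit 4561) (.d (nat_lit 563) (nat_lit 560) (nat_lit 3599) (nat_lit 564) (nat_lit 3600)))) (.f (nat_lit 496) (nat_lit 464) (nat_lit 7632) (.d (nat_lit 498) (nat_lit 466) (nat_lit 6609) (nat_lit 499) (nat_lit 1519))))))))) (.p (nat_lit 593) (.a (.f (nat_lit 625) (nat_lit 496) (nat_lit 7664) (.f (nat_lit 658) (nat_lit 626) (nat_lit 4625) (.f (nat_lit 657) (nat_lit 690) (nat_lit 4657) (.d (nat_lit 656) (nat_lit 624) (nat_lit 5648) (nat_lit 688) (nat_lit 5680))))) (.a (.p (nat_lit 625) (.a (.f (nat_lit 657) (nat_lit 560) (nat_lit 7696) (.d (nat_lit 656) (nat_lit 624) (nat_lit 5648) (nat_lit 688) (nat_lit 5680))) (.a (.f (nat_lit 626) (nat_lit 658) (nat_lit 4625) (.f (nat_lit 624) (nat_lit 656) (nat_lit 5648) (.f (nat_lit 594) (nat_lit 497) (nat_lit 4593) (.d (nat_lit 595) (nat_lit 596) (nat_lit 1616) (nat_lit 623) (nat_lit 2639))))) (.f (nat_lit 657) (nat_lit 560) (nat_lit 7696) (.d (nat_lit 658) (nat_lit 626) (nat_lit 4625) (nat_lit 690) (nat_lit 4657)))))) (.a (.f (nat_lit 496) (nat_lit 625) (nat_lit 7664) (.d (nat_lit 464) (nat_lit 497) (nat_lit 7632) (nat_lit 560) (nat_lit 4560))) (.p (nat_lit 526) (.a (.f (nat_lit 497) (nat_lit 498) (nat_lit 2542) (.d (nat_lit 496) (nat_lit 464) (nat_lit 7632) (nat_lit 525) (nat_lit 2541))) (.a (.f (nat_lit 525) (nat_lit 560) (nat_lit 525) (.d (nat_lit 493) (nat_lit 492) (nat_lit 3564) (nat_lit 494) (nat_lit 3565))) (.f (nat_lit 497) (nat_lit 498) (nat_lit 2542) (.f (nat_lit 494) (nat_lit 493) (nat_lit 3565) (.f (nat_lit 558) (nat_lit 557) (nat_lit 1549) (.f (nat_lit 594) (nat_lit 626) (nat_lit 4593) (.f (nat_lit 559) (nat_lit 560) (nat_lit 558) (.d (nat_lit 462) (nat_lit 430) (nat_lit 4526) (nat_lit 591) (nat_lit 4558)))))))))))))))))) (.a (.p (nat_lit 530) (.a (.f (nat_lit 498) (nat_lit 499) (nat_lit 2543) (.f (nat_lit 562) (nat_lit 563) (nat_lit 527) (.d (nat_lit 526) (nat_lit 497) (nat_lit 2542) (nat_lit 561) (nat_lit 526)))) (.a (.f (nat_lit 495) (nat_lit 494) (nat_lit 3566) (.f (nat_lit 531) (nat_lit 496) (nat_lit 3567) (.d (nat_lit 499) (nat_lit 498) (nat_lit 2543) (nat_lit 500) (nat_lit 2544)))) (.f (nat_lit 562) (nat_lit 563) (nat_lit 527) (.f (nat_lit 526) (nat_lit 561) (nat_lit 526) (.d (nat_lit 494) (nat_lit 493) (nat_lit 3565) (nat_lit 495) (nat_lit 3566))))))) (.a (.p (nat_lit 593) (.a s17356 (.a s17360 (.a (.p (nat_lit 530) (.a (.f (nat_lit 498) (nat_lit 499) (nat_lit 2543) (.f (nat_lit 561) (nat_lit 625) (nat_lit 6641) (.d (nat_lit 466) (nat_lit 434) (nat_lit 5553) (nat_lit 562) (nat_lit 5585)))) (.a (.f (nat_lit 495) (nat_lit 494) (nat_lit 3566) (.f (nat_lit 531) (nat_lit 496) (nat_lit 3567) (.d (nat_lit 499) (nat_lit 498) (nat_lit 2543) (nat_lit 500) (nat_lit 2544)))) (.f (nat_lit 495) (nat_lit 494) (nat_lit 3566) (.f (nat_lit 531) (nat_lit 496) (nat_lit 3567) (.d (nat_lit 563) (nat_lit 562) (nat_lit 527) (nat_lit 564) (nat_lit 528))))))) (.a (.p (nat_lit 530) (.a (.f (nat_lit 495) (nat_lit 494) (nat_lit 3566) (.f (nat_lit 531) (nat_lit 496) (nat_lit 3567) (.d (nat_lit 499) (nat_lit 498) (nat_lit 2543) (nat_lit 500) (nat_lit 2544)))) (.a (.f (nat_lit 498) (nat_lit 499) (nat_lit 2543) (.f (nat_lit 562) (nat_lit 563) (nat_lit 527) (.f (nat_lit 594) (nat_lit 625) (nat_lit 5617) (.d (nat_lit 497) (nat_lit 465) (nat_lit 7633) (nat_lit 626) (nat_lit 7665))))) (.f (nat_lit 495) (nat_lit 494) (nat_lit 3566) (.f (nat_lit 531) (nat_lit 496) (nat_lit 3567) (.d (nat_lit 563) (nat_lit 562) (nat_lit 527) (nat_lit 564) (nat_lit 528))))))) (.a s17363 (.a s17373 (.a s17374 (.a (.p (nat_lit 530) (.a (.f (nat_lit 498) (nat_lit 499) (nat_lit 2543) (.f (nat_lit 561) (nat_lit 625) (nat_lit 6641) (.d (nat_lit 466) (nat_lit 434) (nat_lit 5553) (nat_lit 497) (nat_lit 6609)))) (.a (.f (nat_lit 498) (nat_lit 499) (nat_lit 2543) (.f (nat_lit 561) (nat_lit 625) (nat_lit 6641) (.d (nat_lit 466) (nat_lit 434) (nat_lit 5553) (nat_lit 562) (nat_lit 5585)))) (.a (.f (nat_lit 495) (nat_lit 494) (nat_lit 3566) (.f (nat_lit 531) (nat_lit 496) (nat_lit 3567) (.d (nat_lit 499) (nat_lit 498) (nat_lit 2543) (nat_lit 500) (nat_lit 2544)))) (.f (nat_lit 495) (nat_lit 494) (nat_lit 3566) (.f (nat_lit 496) (nat_lit 531) (nat_lit 3567) (.f (nat_lit 561) (nat_lit 625) (nat_lit 7664) (.d (nat_lit 464) (nat_lit 497) (nat_lit 7632) (nat_lit 560) (nat_lit 4560))))))))) (.a (.p (nat_lit 530) (.a (.f (nat_lit 495) (nat_lit 494) (nat_lit 3566) (.f (nat_lit 531) (nat_lit 496) (nat_lit 3567) (.d (nat_lit 563) (nat_lit 562) (nat_lit 527) (nat_lit 564) (nat_lit 528)))) (.a (.f (nat_lit 559) (nat_lit 558) (nat_lit 1550) (.f (nat_lit 531) (nat_lit 560) (nat_lit 1551) (.d (nat_lit 563) (nat_lit 562) (nat_lit 527) (nat_lit 564) (nat_lit 528)))) (.a s17382 (.a (.f (nat_lit 495) (nat_lit 494) (nat_lit 3566) (.f (nat_lit 531) (nat_lit 496) (nat_lit 3567) (.f (nat_lit 500) (nat_lit 499) (nat_lit 2544) (.f (nat_lit 532) (nat_lit 501) (nat_lit 2545) (.d (nat_lit 564) (nat_lit 563) (nat_lit 528) (nat_lit 565) (nat_lit 529)))))) (.f (nat_lit 495) (nat_lit 494) (nat_lit 3566) (.f (nat_lit 496) (nat_lit 531) (nat_lit 3567) (.f (nat_lit 561) (nat_lit 625) (nat_lit 7664) (.d (nat_lit 464) (nat_lit 497) (nat_lit 7632) (nat_lit 560) (nat_lit 4560)))))))))) (.p (nat_lit 530) (.a (.f (nat_lit 495) (nat_lit 494) (nat_lit 3566) (.f (nat_lit 531) (nat_lit 496) (nat_lit 3567) (.d (nat_lit 563) (nat_lit 562) (nat_lit 527) (nat_lit 564) (nat_lit 528)))) (.a (.f (nat_lit 559) (nat_lit 558) (nat_lit 1550) (.f (nat_lit 531) (nat_lit 560) (nat_lit 1551) (.d (nat_lit 563) (nat_lit 562) (nat_lit 527) (nat_lit 564) (nat_lit 528)))) (.a s17382 (.f (nat_lit 495) (nat_lit 494) (nat_lit 3566) (.f (nat_lit 496) (nat_lit 531) (nat_lit 3567) (.f (nat_lit 561) (nat_lit 625) (nat_lit 7664) (.d (nat_lit 464) (nat_lit 497) (nat_lit 7632) (nat_lit 560) (nat_lit 4560))))))))))))))))))) (.a (.p (nat_lit 530) (.a (.f (nat_lit 494) (nat_lit 495) (nat_lit 3566) (.f (nat_lit 526) (nat_lit 493) (nat_lit 3565) (.d (nat_lit 558) (nat_lit 557) (nat_lit 1549) (nat_lit 559) (nat_lit 1550)))) (.a (.f (nat_lit 495) (nat_lit 494) (nat_lit 3566) (.f (nat_lit 531) (nat_lit 496) (nat_lit 3567) (.d (nat_lit 499) (nat_lit 498) (nat_lit 2543) (nat_lit 500) (nat_lit 2544)))) (.f (nat_lit 498) (nat_lit 499) (nat_lit 2543) (.f (nat_lit 526) (nat_lit 497) (nat_lit 2542) (.d (nat_lit 558) (nat_lit 557) (nat_lit 1549) (nat_lit 559) (nat_lit 1550))))))) (.a s14708 s14709))))))))) (.a s17789 (.a (.p (nat_lit 527) (.a s14673 (.a s14708 (.a (.p (nat_lit 530) (.a (.f (nat_lit 499) (nat_lit 498) (nat_lit 2543) (.f (nat_lit 531) (nat_lit 500) (nat_lit 2544) (.d (nat_lit 563) (nat_lit 562) (nat_lit 527) (nat_lit 564) (nat_lit 528)))) (.a (.f (nat_lit 562) (nat_lit 563) (nat_lit 527) (.f (nat_lit 526) (nat_lit 561) (nat_lit 526) (.d (nat_lit 558) (nat_lit 557) (nat_lit 1549) (nat_lit 559) (nat_lit 1550)))) (.f (nat_lit 559) (nat_lit 558) (nat_lit 1550) (.f (nat_lit 531) (nat_lit 560) (nat_lit 1551) (.d (nat_lit 499) (nat_lit 498) (nat_lit 2543) (nat_lit 500) (nat_lit 2544))))))) (.a (.p (nat_lit 530) (.a (.f (nat_lit 499) (nat_lit 498) (nat_lit 2543) (.f (nat_lit 531) (nat_lit 500) (nat_lit 2544) (.d (nat_lit 563) (nat_lit 562) (nat_lit 527) (nat_lit 564) (nat_lit 528)))) (.a (.f (nat_lit 498) (nat_lit 499) (nat_lit 2543) (.f (nat_lit 526) (nat_lit 497) (nat_lit 2542) (.d (nat_lit 558) (nat_lit 557) (nat_lit 1549) (nat_lit 559) (nat_lit 1550)))) (.f (nat_lit 559) (nat_lit 558) (nat_lit 1550) (.f (nat_lit 531) (nat_lit 560) (nat_lit 1551) (.d (nat_lit 563) (nat_lit 562) (nat_lit 527) (nat_lit 564) (nat_lit 528))))))) (.a s17098 (.a (.p (nat_lit 593) (.a (.p (nat_lit 561) (.a (.f (nat_lit 625) (nat_lit 496) (nat_lit 7664) (.f (nat_lit 626) (nat_lit 658) (nat_lit 4625) (.f (nat_lit 624) (nat_lit 656) (nat_lit 5648) (.d (nat_lit 497) (nat_lit 592) (nat_lit 5616) (nat_lit 594) (nat_lit 4593))))) (.a (.p (nat_lit 497) (.a (.f (nat_lit 592) (nat_lit 624) (nat_lit 5616) (.f (nat_lit 560) (nat_lit 465) (nat_lit 5584) (.f (nat_lit 625) (nat_lit 657) (nat_lit 7696) (.d (nat_lit 626) (nat_lit 594) (nat_lit 4593) (nat_lit 658) (nat_lit 4625))))) (.a (.f (nat_lit 594) (nat_lit 626) (nat_lit 4593) (.f (nat_lit 562) (nat_lit 465) (nat_lit 4561) (.f (nat_lit 592) (nat_lit 624) (nat_lit 5616) (.d (nat_lit 563) (nat_lit 564) (nat_lit 1584) (nat_lit 591) (nat_lit 2607))))) (.a (.f (nat_lit 594) (nat_lit 626) (nat_lit 4593) (.f (nat_lit 562) (nat_lit 465) (nat_lit 4561) (.d (nat_lit 563) (nat_lit 560) (nat_lit 3599) (nat_lit 564) (nat_lit 3600)))) (.a (.f (nat_lit 592) (nat_lit 624) (nat_lit 5616) (.f (nat_lit 465) (nat_lit 560) (nat_lit 5584) (.d (nat_lit 466) (nat_lit 434) (nat_lit 6577) (nat_lit 498) (nat_lit 6609)))) (.f (nat_lit 624) (nat_lit 592) (nat_lit 5616) (.f (nat_lit 625) (nat_lit 656) (nat_lit 5648) (.d (nat_lit 626) (nat_lit 594) (nat_lit 4593) (nat_lit 658) (nat_lit 4625))))))))) (.a (.f (nat_lit 625) (nat_lit 496) (nat_lit 7664) (.f (nat_lit 658) (nat_lit 626) (nat_lit 4625) (.f (nat_lit 657) (nat_lit 690) (nat_lit 4657) (.d (nat_lit 656) (nat_lit 624) (nat_lit 5648) (nat_lit 688) (nat_lit 5680))))) (.a (.f (nat_lit 496) (nat_lit 625) (nat_lit 7664) (.d (nat_lit 464) (nat_lit 497) (nat_lit 7632) (nat_lit 560) (nat_lit 4560))) (.p (nat_lit 497) (.a (.f (nat_lit 594) (nat_lit 626) (nat_lit 4593) (.f (nat_lit 562) (nat_lit 465) (nat_lit 4561) (.f (nat_lit 592) (nat_lit 624) (nat_lit 5616) (.d (nat_lit 563) (nat_lit 564) (nat_lit 1584) (nat_lit 591) (nat_lit 2607))))) (.a (.f (nat_lit 594) (nat_lit 626) (nat_lit 4593) (.f (nat_lit 562) (nat_lit 465) (nat_lit 4561) (.d (nat_lit 563) (nat_lit 560) (nat_lit 3599) (nat_lit 564) (nat_lit 3600)))) (.a (.f (nat_lit 592) (nat_lit 624) (nat_lit 5616) (.f (nat_lit 465) (nat_lit 560) (nat_lit 5584) (.d (nat_lit 466) (nat_lit 434) (nat_lit 6577) (nat_lit 498) (nat_lit 6609)))) (.f (nat_lit 496) (nat_lit 464) (nat_lit 7632) (.d (nat_lit 498) (nat_lit 466) (nat_lit 6609) (nat_lit 499) (nat_lit 1519)))))))))))) (.a (.p (nat_lit 530) (.a (.f (nat_lit 498) (nat_lit 499) (nat_lit 2543) (.f (nat_lit 561) (nat_lit 625) (nat_lit 6641) (.d (nat_lit 466) (nat_lit 434) (nat_lit 5553) (nat_lit 497) (nat_lit 6609)))) (.a (.f (nat_lit 498) (nat_lit 499) (nat_lit 2543) (.f (nat_lit 561) (nat_lit 625) (nat_lit 6641) (.d (nat_lit 466) (nat_lit 434) (nat_lit 5553) (nat_lit 562) (nat_lit 5585)))) (.a (.f (nat_lit 498) (nat_lit 499) (nat_lit 2543) (.f (nat_lit 562) (nat_lit 563) (nat_lit 527) (.f (nat_lit 594) (nat_lit 625) (nat_lit 5617) (.d (nat_lit 497) (nat_lit 465) (nat_lit 7633) (nat_lit 626) (nat_lit 7665))))) (.a (.f (nat_lit 498) (nat_lit 499) (nat_lit 2543) (.f (nat_lit 562) (nat_lit 563) (nat_lit 527) (.f (nat_lit 466) (nat_lit 561) (nat_lit 5585) (.f (nat_lit 433) (nat_lit 465) (nat_lit 7601) (.f (nat_lit 434) (nat_lit 401) (nat_lit 7569) (.d (nat_lit 435) (nat_lit 403) (nat_lit 6546) (nat_lit 467) (nat_lit 6578))))))) (.a s17825 s17826)))))) (.a s17360 (.a (.p (nat_lit 530) (.a (.f (nat_lit 498) (nat_lit 499) (nat_lit 2543) (.f (nat_lit 561) (nat_lit 625) (nat_lit 6641) (.d (nat_lit 466) (nat_lit 434) (nat_lit 5553) (nat_lit 562) (nat_lit 5585)))) (.a (.f (nat_lit 559) (nat_lit 558) (nat_lit 1550) (.f (nat_lit 531) (nat_lit 560) (nat_lit 1551) (.d (nat_lit 499) (nat_lit 498) (nat_lit 2543) (nat_lit 500) (nat_lit 2544)))) (.f (nat_lit 559) (nat_lit 558) (nat_lit 1550) (.f (nat_lit 531) (nat_lit 560) (nat_lit 1551) (.d (nat_lit 563) (nat_lit 562) (nat_lit 527) (nat_lit 564) (nat_lit 528))))))) (.a (.p (nat_lit 530) (.a (.f (nat_lit 498) (nat_lit 499) (nat_lit 2543) (.f (nat_lit 562) (nat_lit 563) (nat_lit 527) (.f (nat_lit 594) (nat_lit 625) (nat_lit 5617) (.d (nat_lit 497) (nat_lit 465) (nat_lit 7633) (nat_lit 626) (nat_lit 7665))))) (.a (.f (nat_lit 559) (nat_lit 558) (nat_lit 1550) (.f (nat_lit 531) (nat_lit 560) (nat_lit 1551) (.d (nat_lit 499) (nat_lit 498) (nat_lit 2543) (nat_lit 500) (nat_lit 2544)))) (.f (nat_lit 559) (nat_lit 558) (nat_lit 1550) (.f (nat_lit 531) (nat_lit 560) (nat_lit 1551) (.d (nat_lit 563) (nat_lit 562) (nat_lit 527) (nat_lit 564) (nat_lit 528))))))) (.a (.p (nat_lit 530) (.a (.f (nat_lit 498) (nat_lit 499) (nat_lit 2543) (.f (nat_lit 561) (nat_lit 625) (nat_lit 6641) (.d (nat_lit 466) (nat_lit 434) (nat_lit 5553) (nat_lit 497) (nat_lit 6609)))) (.a (.f (nat_lit 559) (nat_lit 558) (nat_lit 1550) (.f (nat_lit 531) (nat_lit 560) (nat_lit 1551) (.d (nat_lit 499) (nat_lit 498) (nat_lit 2543) (nat_lit 500) (nat_lit 2544)))) (.a (.f (nat_lit 559) (nat_lit 558) (nat_lit 1550) (.f (nat_lit 531) (nat_lit 560) (nat_lit 1551) (.f (nat_lit 500) (nat_lit 499) (nat_lit 2544) (.f (nat_lit 532) (nat_lit 501) (nat_lit 2545) (.d (nat_lit 564) (nat_lit 563) (nat_lit 528) (nat_lit 565) (nat_lit 529)))))) (.f (nat_lit 559) (nat_lit 558) (nat_lit 1550) (.f (nat_lit 531) (nat_lit 560) (nat_lit 1551) (.f (nat_lit 564) (nat_lit 563) (nat_lit 528) (.f (nat_lit 532) (nat_lit 565) (nat_lit 529) (.f (nat_lit 497) (nat_lit 496) (nat_lit 3568) (.f (nat_lit 498) (nat_lit 533) (nat_lit 3569) (.d (nat_lit 561) (nat_lit 466) (nat_lit 6609) (nat_lit 625) (nat_lit 6641)))))))))))) (.a (.p (nat_lit 530) (.a (.f (nat_lit 498) (nat_lit 499) (nat_lit 2543) (.f (nat_lit 562) (nat_lit 563) (nat_lit 527) (.f (nat_lit 466) (nat_lit 561) (nat_lit 5585) (.f (nat_lit 433) (nat_lit 465) (nat_lit 7601) (.f (nat_lit 434) (nat_lit 401) (nat_lit 7569) (.d (nat_lit 435) (nat_lit 403) (nat_lit 6546) (nat_lit 467) (nat_lit 6578))))))) (.a (.f (nat_lit 559) (nat_lit 558) (nat_lit 1550) (.f (nat_lit 531) (nat_lit 560) (nat_lit 1551) (.d (nat_lit 499) (nat_lit 498) (nat_lit 2543) (nat_lit 500) (nat_lit 2544)))) (.f (nat_lit 559) (nat_lit 558) (nat_lit 1550) (.f (nat_lit 531) (nat_lit 560) (nat_lit 1551) (.d (nat_lit 563) (nat_lit 562) (nat_lit 527) (nat_lit 564) (nat_lit 528))))))) (.a (.p (nat_lit 530) (.a (.f (nat_lit 498) (nat_lit 499) (nat_lit 2543) (.f (nat_lit 561) (nat_lit 625) (nat_lit 6641) (.d (nat_lit 466) (nat_lit 434) (nat_lit 5553) (nat_lit 497) (nat_lit 6609)))) (.a (.f (nat_lit 498) (nat_lit 499) (nat_lit 2543) (.f (nat_lit 561) (nat_lit 625) (nat_lit 6641) (.d (nat_lit 466) (nat_lit 434) (nat_lit 5553) (nat_lit 562) (nat_lit 5585)))) (.a (.f (nat_lit 559) (nat_lit 558) (nat_lit 1550) (.f (nat_lit 531) (nat_lit 560) (nat_lit 1551) (.d (nat_lit 499) (nat_lit 498) (nat_lit 2543) (nat_lit 500) (nat_lit 2544)))) (.a (.f (nat_lit 559) (nat_lit 558) (nat_lit 1550) (.f (nat_lit 531) (nat_lit 560) (nat_lit 1551) (.f (nat_lit 500) (nat_lit 499) (nat_lit 2544) (.f (nat_lit 532) (nat_lit 501) (nat_lit 2545) (.f (nat_lit 496) (nat_lit 497) (nat_lit 3568) (.f (nat_lit 565) (nat_lit 564) (nat_lit 529) (.f (nat_lit 533) (nat_lit 566) (nat_lit 530) (.d (nat_lit 561) (nat_lit 562) (nat_lit 1553) (nat_lit 625) (nat_lit 7664))))))))) s17868))))) (.a (.p (nat_lit 530) (.a (.p (nat_lit 531) (.a (.d (nat_lit 563) (nat_lit 562) (nat_lit 527) (nat_lit 564) (nat_lit 528)) (.a (.f (nat_lit 500) (nat_lit 499) (nat_lit 2544) (.f (nat_lit 532) (nat_lit 501) (nat_lit 2545) (.d (nat_lit 564) (nat_lit 563) (nat_lit 528) (nat_lit 565) (nat_lit 529)))) (.f (nat_lit 500) (nat_lit 499) (nat_lit 2544) (.f (nat_lit 532) (nat_lit 501) (nat_lit 2545) (.f (nat_lit 561) (nat_lit 560) (nat_lit 1552) (.f (nat_lit 562) (nat_lit 533) (nat_lit 1553) (.f (nat_lit 625) (nat_lit 657) (nat_lit 6673) (.f (nat_lit 626) (nat_lit 658) (nat_lit 4625) (.f (nat_lit 594) (nat_lit 497) (nat_lit 4593) (.f (nat_lit 627) (nat_lit 659) (nat_lit 4626) (.d (nat_lit 592) (nat_lit 591) (nat_lit 591) (nat_lit 628) (nat_lit 3664))))))))))))) (.a s17825 (.a (.f (nat_lit 559) (nat_lit 558) (nat_lit 1550) (.f (nat_lit 531) (nat_lit 560) (nat_lit 1551) (.d (nat_lit 563) (nat_lit 562) (nat_lit 527) (nat_lit 564) (nat_lit 528)))) (.a (.p (nat_lit 496) (.a (.f (nat_lit 561) (nat_lit 625) (nat_lit 7664) (.f (nat_lit 497) (nat_lit 464) (nat_lit 7632) (.f (nat_lit 562) (nat_lit 563) (nat_lit 527) (.d (nat_lit 465) (nat_lit 433) (nat_lit 4529) (nat_lit 594) (nat_lit 4561))))) (.a (.f (nat_lit 561) (nat_lit 625) (nat_lit 7664) (.f (nat_lit 560) (nat_lit 464) (nat_lit 4560) (.f (nat_lit 559) (nat_lit 558) (nat_lit 1550) (.f (nat_lit 562) (nat_lit 563) (nat_lit 527) (.d (nat_lit 591) (nat_lit 590) (nat_lit 1582) (nat_lit 623) (nat_lit 6639)))))) (.a (.f (nat_lit 559) (nat_lit 558) (nat_lit 1550) (.f (nat_lit 591) (nat_lit 623) (nat_lit 6639) (.f (nat_lit 560) (nat_lit 464) (nat_lit 5583) (.f (nat_lit 592) (nat_lit 625) (nat_lit 4592) (.d (nat_lit 497) (nat_lit 465) (nat_lit 6608) (nat_lit 624) (nat_lit 6640)))))) (.a (.f (nat_lit 559) (nat_lit 558) (nat_lit 1550) (.f (nat_lit 591) (nat_lit 623) (nat_lit 6639) (.f (nat_lit 560) (nat_lit 464) (nat_lit 5583) (.f (nat_lit 562) (nat_lit 563) (nat_lit 527) (.f (nat_lit 561) (nat_lit 590) (nat_lit 1582) (.f (nat_lit 594) (nat_lit 595) (nat_lit 559) (.d (nat_lit 497) (nat_lit 465) (nat_lit 4561) (nat_lit 626) (nat_lit 4593)))))))) (.f (nat_lit 561) (nat_lit 625) (nat_lit 7664) (.f (nat_lit 562) (nat_lit 563) (nat_lit 527) (.f (nat_lit 559) (nat_lit 558) (nat_lit 1550) (.f (nat_lit 591) (nat_lit 623) (nat_lit 6639) (.d (nat_lit 590) (nat_lit 560) (nat_lit 1582) (nat_lit 592) (nat_lit 2606))))))))))) (.a (.f (nat_lit 559) (nat_lit 558) (nat_lit 1550) (.f (nat_lit 531) (nat_lit 560) (nat_lit 1551) (.f (nat_lit 500) (nat_lit 499) (nat_lit 2544) (.f (nat_lit 532) (nat_lit 501) (nat_lit 2545) (.d (nat_lit 564) (nat_lit 563) (nat_lit 528) (nat_lit 565) (nat_lit 529)))))) (.f (nat_lit 559) (nat_lit 558) (nat_lit 1550) (.f (nat_lit 531) (nat_lit 560) (nat_lit 1551) (.f (nat_lit 500) (nat_lit 499) (nat_lit 2544) (.f (nat_lit 532) (nat_lit 501) (nat_lit 2545) (.f (nat_lit 496) (nat_lit 497) (nat_lit 3568) (.f (nat_lit 565) (nat_lit 564) (nat_lit 529) (.f (nat_lit 533) (nat_lit 566) (nat_lit 530) (.d (nat_lit 561) (nat_lit 562) (nat_lit 1553) (nat_lit 625) (nat_lit 7664))))))))))))))) (.a (.p (nat_lit 530) (.a (.f (nat_lit 559) (nat_lit 558) (nat_lit 1550) (.f (nat_lit 531) (nat_lit 560) (nat_lit 1551) (.d (nat_lit 563) (nat_lit 562) (nat_lit 527) (nat_lit 564) (nat_lit 528)))) (.a s17826 (.a (.f (nat_lit 559) (nat_lit 558) (nat_lit 1550) (.f (nat_lit 531) (nat_lit 560) (nat_lit 1551) (.f (nat_lit 564) (nat_lit 563) (nat_lit 528) (.f (nat_lit 532) (nat_lit 565) (nat_lit 529) (.f (nat_lit 497) (nat_lit 496) (nat_lit 3568) (.f (nat_lit 498) (nat_lit 533) (nat_lit 3569) (.d (nat_lit 561) (nat_lit 466) (nat_lit 6609) (nat_lit 625) (nat_lit 6641)))))))) s17868)))) (.p (nat_lit 592) (.a (.p (nat_lit 560) (.a (.f (nat_lit 624) (nat_lit 497) (nat_lit 6640) (.d (nat_lit 625) (nat_lit 496) (nat_lit 4592) (nat_lit 657) (nat_lit 4624))) (.a (.f (nat_lit 624) (nat_lit 497) (nat_lit 6640) (.d (nat_lit 656) (nat_lit 559) (nat_lit 7695) (nat_lit 561) (nat_lit 6672))) (.a (.f (nat_lit 625) (nat_lit 496) (nat_lit 4592) (.d (nat_lit 657) (nat_lit 561) (nat_lit 7696) (nat_lit 624) (nat_lit 4624))) (.f (nat_lit 496) (nat_lit 625) (nat_lit 4592) (.f (nat_lit 561) (nat_lit 464) (nat_lit 4560) (.f (nat_lit 497) (nat_lit 465) (nat_lit 6608) (.d (nat_lit 498) (nat_lit 466) (nat_lit 6609) (nat_lit 499) (nat_lit 1519))))))))) (.a (.p (nat_lit 561) (.a (.f (nat_lit 625) (nat_lit 496) (nat_lit 7664) (.d (nat_lit 624) (nat_lit 497) (nat_lit 5616) (nat_lit 656) (nat_lit 5648))) (.a (.f (nat_lit 497) (nat_lit 624) (nat_lit 5616) (.f (nat_lit 498) (nat_lit 466) (nat_lit 6609) (.d (nat_lit 499) (nat_lit 500) (nat_lit 1520) (nat_lit 530) (nat_lit 2543)))) (.f (nat_lit 625) (nat_lit 496) (nat_lit 7664) (.f (nat_lit 530) (nat_lit 498) (nat_lit 6641) (.d (nat_lit 562) (nat_lit 563) (nat_lit 527) (nat_lit 657) (nat_lit 6673))))))) (.a (.p (nat_lit 530) (.a (.f (nat_lit 498) (nat_lit 499) (nat_lit 2543) (.f (nat_lit 561) (nat_lit 625) (nat_lit 6641) (.d (nat_lit 466) (nat_lit 434) (nat_lit 5553) (nat_lit 497) (nat_lit 6609)))) (.a (.f (nat_lit 559) (nat_lit 558) (nat_lit 1550) (.f (nat_lit 560) (nat_lit 531) (nat_lit 1551) (.f (nat_lit 624) (nat_lit 656) (nat_lit 7695) (.f (nat_lit 625) (nat_lit 657) (nat_lit 4624) (.d (nat_lit 498) (nat_lit 499) (nat_lit 2543) (nat_lit 561) (nat_lit 6641)))))) (.f (nat_lit 559) (nat_lit 558) (nat_lit 1550) (.f (nat_lit 560) (nat_lit 531) (nat_lit 1551) (.d (nat_lit 624) (nat_lit 497) (nat_lit 6640) (nat_lit 656) (nat_lit 7695))))))) (.a (.p (nat_lit 530) (.a (.f (nat_lit 559) (nat_lit 558) (nat_lit 1550) (.f (nat_lit 560) (nat_lit 531) (nat_lit 1551) (.f (nat_lit 625) (nat_lit 496) (nat_lit 4592) (.d (nat_lit 498) (nat_lit 499) (nat_lit 2543) (nat_lit 561) (nat_lit 6641))))) (.a (.f (nat_lit 498) (nat_lit 499) (nat_lit 2543) (.f (nat_lit 561) (nat_lit 625) (nat_lit 6641) (.d (nat_lit 466) (nat_lit 434) (nat_lit 5553) (nat_lit 562) (nat_lit 5585)))) (.a (.f (nat_lit 559) (nat_lit 558) (nat_lit 1550) (.f (nat_lit 560) (nat_lit 531) (nat_lit 1551) (.f (nat_lit 624) (nat_lit 656) (nat_lit 7695) (.d (nat_lit 625) (nat_lit 496) (nat_lit 4592) (nat_lit 657) (nat_lit 4624))))) (.f (nat_lit 559) (nat_lit 558) (nat_lit 1550) (.f (nat_lit 560) (nat_lit 531) (nat_lit 1551) (.f (nat_lit 624) (nat_lit 656) (nat_lit 7695) (.f (nat_lit 623) (nat_lit 655) (nat_lit 5647) (.f (nat_lit 591) (nat_lit 496) (nat_lit 5615) (.d (nat_lit 594) (nat_lit 595) (nat_lit 3631) (nat_lit 622) (nat_lit 1614))))))))))) (.a s14594 (.a (.p (nat_lit 530) (.a (.f (nat_lit 498) (nat_lit 499) (nat_lit 2543) (.f (nat_lit 561) (nat_lit 625) (nat_lit 6641) (.d (nat_lit 466) (nat_lit 434) (nat_lit 5553) (nat_lit 497) (nat_lit 6609)))) (.a (.f (nat_lit 559) (nat_lit 558) (nat_lit 1550) (.f (nat_lit 560) (nat_lit 531) (nat_lit 1551) (.f (nat_lit 625) (nat_lit 496) (nat_lit 4592) (.d (nat_lit 498) (nat_lit 499) (nat_lit 2543) (nat_lit 561) (nat_lit 6641))))) (.a (.f (nat_lit 559) (nat_lit 558) (nat_lit 1550) (.f (nat_lit 560) (nat_lit 531) (nat_lit 1551) (.f (nat_lit 496) (nat_lit 625) (nat_lit 4592) (.d (nat_lit 591) (nat_lit 464) (nat_lit 5583) (nat_lit 623) (nat_lit 5615))))) (.f (nat_lit 559) (nat_lit 558) (nat_lit 1550) (.f (nat_lit 531) (nat_lit 560) (nat_lit 1551) (.d (nat_lit 499) (nat_lit 498) (nat_lit 2543) (nat_lit 500) (nat_lit 2544)))))))) (.p (nat_lit 530) (.a (.f (nat_lit 559) (nat_lit 558) (nat_lit 1550) (.f (nat_lit 560) (nat_lit 531) (nat_lit 1551) (.d (nat_lit 624) (nat_lit 497) (nat_lit 6640) (nat_lit 656) (nat_lit 7695)))) (.f (nat_lit 562) (nat_lit 563) (nat_lit 527) (.f (nat_lit 498) (nat_lit 499) (nat_lit 2543) (.f (nat_lit 466) (nat_lit 561) (nat_lit 5585) (.f (nat_lit 433) (nat_lit 465) (nat_lit 7601) (.f (nat_lit 434) (nat_lit 401) (nat_lit 7569) (.d (nat_lit 435) (nat_lit 403) (nat_lit 6546) (nat_lit 467) (nat_lit 6578))))))))))))))))))))))))))) (.a s17939 (.a s17940 (.p (nat_lit 530) (.a (.f (nat_lit 562) (nat_lit 563) (nat_lit 527) (.f (nat_lit 526) (nat_lit 561) (nat_lit 526) (.d (nat_lit 558) (nat_lit 557) (nat_lit 1549) (nat_lit 559) (nat_lit 1550)))) (.a (.f (nat_lit 559) (nat_lit 558) (nat_lit 1550) (.f (nat_lit 531) (nat_lit 560) (nat_lit 1551) (.d (nat_lit 563) (nat_lit 562) (nat_lit 527) (nat_lit 564) (nat_lit 528)))) (.a (.f (nat_lit 562) (nat_lit 563) (nat_lit 527) (.f (nat_lit 526) (nat_lit 561) (nat_lit 526) (.f (nat_lit 493) (nat_lit 494) (nat_lit 3565) (.f (nat_lit 525) (nat_lit 492) (nat_lit 3564) (.d (nat_lit 557) (nat_lit 556) (nat_lit 1548) (nat_lit 558) (nat_lit 1549)))))) (.a (.f (nat_lit 559) (nat_lit 558) (nat_lit 1550) (.f (nat_lit 531) (nat_lit 560) (nat_lit 1551) (.f (nat_lit 500) (nat_lit 499) (nat_lit 2544) (.f (nat_lit 532) (nat_lit 501) (nat_lit 2545) (.d (nat_lit 564) (nat_lit 563) (nat_lit 528) (nat_lit 565) (nat_lit 529)))))) (.a (.f (nat_lit 563) (nat_lit 562) (nat_lit 527) (.f (nat_lit 531) (nat_lit 564) (nat_lit 528) (.f (nat_lit 500) (nat_lit 499) (nat_lit 2544) (.f (nat_lit 532) (nat_lit 501) (nat_lit 2545) (.d (nat_lit 560) (nat_lit 559) (nat_lit 1551) (nat_lit 561) (nat_lit 1552)))))) (.f (nat_lit 558) (nat_lit 559) (nat_lit 1550) (.f (nat_lit 526) (nat_lit 557) (nat_lit 1549) (.f (nat_lit 493) (nat_lit 494) (nat_lit 3565) (.f (nat_lit 525) (nat_lit 492) (nat_lit 3564) (.d (nat_lit 561) (nat_lit 560) (nat_lit 525) (nat_lit 562) (nat_lit 526))))))))))))))))))))) (.a (.p (nat_lit 527) (.a (.p (nat_lit 530) (.a (.f (nat_lit 498) (nat_lit 499) (nat_lit 2543) (.f (nat_lit 562) (nat_lit 563) (nat_lit 527) (.d (nat_lit 526) (nat_lit 497) (nat_lit 2542) (nat_lit 561) (nat_lit 526)))) (.a (.f (nat_lit 494) (nat_lit 495) (nat_lit 3566) (.f (nat_lit 526) (nat_lit 493) (nat_lit 3565) (.d (nat_lit 558) (nat_lit 557) (nat_lit 1549) (nat_lit 559) (nat_lit 1550)))) (.f (nat_lit 495) (nat_lit 494) (nat_lit 3566) (.f (nat_lit 531) (nat_lit 496) (nat_lit 3567) (.d (nat_lit 499) (nat_lit 498) (nat_lit 2543) (nat_lit 500) (nat_lit 2544))))))) (.a (.p (nat_lit 530) (.a (.f (nat_lit 498) (nat_lit 499) (nat_lit 2543) (.f (nat_lit 562) (nat_lit 563) (nat_lit 527) (.d (nat_lit 526) (nat_lit 497) (nat_lit 2542) (nat_lit 561) (nat_lit 526)))) (.a (.f (nat_lit 494) (nat_lit 495) (nat_lit 3566) (.f (nat_lit 526) (nat_lit 493) (nat_lit 3565) (.d (nat_lit 558) (nat_lit 557) (nat_lit 1549) (nat_lit 559) (nat_lit 1550)))) (.f (nat_lit 499) (nat_lit 498) (nat_lit 2543) (.f (nat_lit 531) (nat_lit 500) (nat_lit 2544) (.d (nat_lit 563) (nat_lit 562) (nat_lit 527) (nat_lit 564) (nat_lit 528))))))) (.a (.p (nat_lit 530) (.a (.f (nat_lit 494) (nat_lit 495) (nat_lit 3566) (.f (nat_lit 526) (nat_lit 493) (nat_lit 3565) (.d (nat_lit 558) (nat_lit 557) (nat_lit 1549) (nat_lit 559) (nat_lit 1550)))) (.a (.f (nat_lit 495) (nat_lit 494) (nat_lit 3566) (.f (nat_lit 531) (nat_lit 496) (nat_lit 3567) (.d (nat_lit 499) (nat_lit 498) (nat_lit 2543) (nat_lit 500) (nat_lit 2544)))) (.f (nat_lit 499) (nat_lit 498) (nat_lit 2543) (.f (nat_lit 531) (nat_lit 500) (nat_lit 2544) (.d (nat_lit 563) (nat_lit 562) (nat_lit 527) (nat_lit 564) (nat_lit 528))))))) (.a (.p (nat_lit 592) (.a s14393 (.a (.p (nat_lit 526) (.a (.f (nat_lit 497) (nat_lit 498) (nat_lit 2542) (.f (nat_lit 525) (nat_lit 496) (nat_lit 2541) (.d (nat_lit 493) (nat_lit 492) (nat_lit 3564) (nat_lit 494) (nat_lit 3565)))) (.a (.f (nat_lit 493) (nat_lit 494) (nat_lit 3565) (.f (nat_lit 525) (nat_lit 492) (nat_lit 3564) (.d (nat_lit 557) (nat_lit 556) (nat_lit 1548) (nat_lit 558) (nat_lit 1549)))) (.f (nat_lit 497) (nat_lit 498) (nat_lit 2542) (.f (nat_lit 561) (nat_lit 562) (nat_lit 526) (.f (nat_lit 593) (nat_lit 624) (nat_lit 5616) (.d (nat_lit 496) (nat_lit 464) (nat_lit 7632) (nat_lit 625) (nat_lit 7664)))))))) (.a (.p (nat_lit 526) (.a (.f (nat_lit 561) (nat_lit 562) (nat_lit 526) (.f (nat_lit 560) (nat_lit 525) (nat_lit 525) (.d (nat_lit 497) (nat_lit 465) (nat_lit 5584) (nat_lit 498) (nat_lit 2542)))) (.a (.f (nat_lit 493) (nat_lit 494) (nat_lit 3565) (.f (nat_lit 525) (nat_lit 492) (nat_lit 3564) (.d (nat_lit 557) (nat_lit 556) (nat_lit 1548) (nat_lit 558) (nat_lit 1549)))) (.f (nat_lit 497) (nat_lit 498) (nat_lit 2542) (.f (nat_lit 560) (nat_lit 624) (nat_lit 6640) (.d (nat_lit 465) (nat_lit 433) (nat_lit 5552) (nat_lit 561) (nat_lit 5584))))))) (.a s17950 (.a (.p (nat_lit 526) (.a (.f (nat_lit 497) (nat_lit 498) (nat_lit 2542) (.f (nat_lit 560) (nat_lit 624) (nat_lit 6640) (.d (nat_lit 465) (nat_lit 433) (nat_lit 5552) (nat_lit 496) (nat_lit 6608)))) (.a (.f (nat_lit 497) (nat_lit 498) (nat_lit 2542) (.f (nat_lit 525) (nat_lit 496) (nat_lit 2541) (.d (nat_lit 493) (nat_lit 492) (nat_lit 3564) (nat_lit 494) (nat_lit 3565)))) (.f (nat_lit 493) (nat_lit 494) (nat_lit 3565) (.f (nat_lit 525) (nat_lit 492) (nat_lit 3564) (.d (nat_lit 557) (nat_lit 556) (nat_lit 1548) (nat_lit 558) (nat_lit 1549))))))) (.a s17951 s14625))))))) (.a (.p (nat_lit 530) (.a (.f (nat_lit 498) (nat_lit 499) (nat_lit 2543) (.f (nat_lit 562) (nat_lit 563) (nat_lit 527) (.d (nat_lit 526) (nat_lit 497) (nat_lit 2542) (nat_lit 561) (nat_lit 526)))) (.a (.f (nat_lit 495) (nat_lit 494) (nat_lit 3566) (.f (nat_lit 531) (nat_lit 496) (nat_lit 3567) (.d (nat_lit 499) (nat_lit 498) (nat_lit 2543) (nat_lit 500) (nat_lit 2544)))) (.f (nat_lit 562) (nat_lit 563) (nat_lit 527) (.f (nat_lit 526) (nat_lit 561) (nat_lit 526) (.d (nat_lit 494) (nat_lit 493) (nat_lit 3565) (nat_lit 495) (nat_lit 3566))))))) (.a (.p (nat_lit 593) (.a s17356 (.a (.p (nat_lit 530) (.a (.f (nat_lit 498) (nat_lit 499) (nat_lit 2543) (.f (nat_lit 561) (nat_lit 625) (nat_lit 6641) (.d (nat_lit 466) (nat_lit 434) (nat_lit 5553) (nat_lit 497) (nat_lit 6609)))) (.a (.f (nat_lit 498) (nat_lit 499) (nat_lit 2543) (.f (nat_lit 561) (nat_lit 625) (nat_lit 6641) (.d (nat_lit 466) (nat_lit 434) (nat_lit 5553) (nat_lit 562) (nat_lit 5585)))) (.a (.f (nat_lit 498) (nat_lit 499) (nat_lit 2543) (.f (nat_lit 562) (nat_lit 563) (nat_lit 527) (.f (nat_lit 594) (nat_lit 625) (nat_lit 5617) (.d (nat_lit 497) (nat_lit 465) (nat_lit 7633) (nat_lit 626) (nat_lit 7665))))) (.a (.f (nat_lit 498) (nat_lit 499) (nat_lit 2543) (.f (nat_lit 562) (nat_lit 563) (nat_lit 527) (.f (nat_lit 466) (nat_lit 561) (nat_lit 5585) (.f (nat_lit 433) (nat_lit 465) (nat_lit 7601) (.f (nat_lit 434) (nat_lit 401) (nat_lit 7569) (.d (nat_lit 435) (nat_lit 403) (nat_lit 6546) (nat_lit 467) (nat_lit 6578))))))) (.f (nat_lit 559) (nat_lit 558) (nat_lit 1550) (.f (nat_lit 560) (nat_lit 531) (nat_lit 1551) (.f (nat_lit 495) (nat_lit 494) (nat_lit 3566) (.d (nat_lit 463) (nat_lit 431) (nat_lit 4527) (nat_lit 592) (nat_lit 4559)))))))))) (.a (.p (nat_lit 530) (.a (.f (nat_lit 498) (nat_lit 499) (nat_lit 2543) (.f (nat_lit 561) (nat_lit 625) (nat_lit 6641) (.d (nat_lit 466) (nat_lit 434) (nat_lit 5553) (nat_lit 562) (nat_lit 5585)))) (.a (.f (nat_lit 495) (nat_lit 494) (nat_lit 3566) (.f (nat_lit 531) (nat_lit 496) (nat_lit 3567) (.d (nat_lit 499) (nat_lit 498) (nat_lit 2543) (nat_lit 500) (nat_lit 2544)))) (.f (nat_lit 495) (nat_lit 494) (nat_lit 3566) (.f (nat_lit 531) (nat_lit 496) (nat_lit 3567) (.d (nat_lit 563) (nat_lit 562) (nat_lit 527) (nat_lit 564) (nat_lit 528))))))) (.a (.p (nat_lit 530) (.a (.f (nat_lit 495) (nat_lit 494) (nat_lit 3566) (.f (nat_lit 531) (nat_lit 496) (nat_lit 3567) (.d (nat_lit 499) (nat_lit 498) (nat_lit 2543) (nat_lit 500) (nat_lit 2544)))) (.a (.f (nat_lit 498) (nat_lit 499) (nat_lit 2543) (.f (nat_lit 562) (nat_lit 563) (nat_lit 527) (.f (nat_lit 594) (nat_lit 625) (nat_lit 5617) (.d (nat_lit 497) (nat_lit 465) (nat_lit 7633) (nat_lit 626) (nat_lit 7665))))) (.f (nat_lit 495) (nat_lit 494) (nat_lit 3566) (.f (nat_lit 531) (nat_lit 496) (nat_lit 3567) (.d (nat_lit 563) (nat_lit 562) (nat_lit 527) (nat_lit 564) (nat_lit 528))))))) (.a s17363 (.a s17373 (.a s17374 (.a (.p (nat_lit 530) (.a (.f (nat_lit 498) (nat_lit 499) (nat_lit 2543) (.f (nat_lit 561) (nat_lit 625) (nat_lit 6641) (.d (nat_lit 466) (nat_lit 434) (nat_lit 5553) (nat_lit 562) (nat_lit 5585)))) (.f (nat_lit 559) (nat_lit 558) (nat_lit 1550) (.f (nat_lit 560) (nat_lit 531) (nat_lit 1551) (.f (nat_lit 495) (nat_lit 494) (nat_lit 3566) (.d (nat_lit 463) (nat_lit 431) (nat_lit 4527) (nat_lit 592) (nat_lit 4559))))))) (.p (nat_lit 592) (.a (.p (nat_lit 624) (.a (.f (nat_lit 560) (nat_lit 495) (nat_lit 7663) (.f (nat_lit 625) (nat_lit 657) (nat_lit 4624) (.f (nat_lit 623) (nat_lit 655) (nat_lit 5647) (.d (nat_lit 594) (nat_lit 595) (nat_lit 1615) (nat_lit 622) (nat_lit 2638))))) (.a (.f (nat_lit 561) (nat_lit 497) (nat_lit 5616) (.d (nat_lit 656) (nat_lit 625) (nat_lit 5648) (nat_lit 688) (nat_lit 6704))) (.d (nat_lit 497) (nat_lit 560) (nat_lit 6640) (nat_lit 561) (nat_lit 5616))))) (.a (.p (nat_lit 561) (.a (.f (nat_lit 625) (nat_lit 496) (nat_lit 7664) (.d (nat_lit 624) (nat_lit 497) (nat_lit 5616) (nat_lit 656) (nat_lit 5648))) (.a (.f (nat_lit 624) (nat_lit 497) (nat_lit 5616) (.d (nat_lit 656) (nat_lit 625) (nat_lit 5648) (nat_lit 688) (nat_lit 6704))) (.a (.f (nat_lit 625) (nat_lit 496) (nat_lit 7664) (.f (nat_lit 624) (nat_lit 656) (nat_lit 5648) (.f (nat_lit 626) (nat_lit 658) (nat_lit 4625) (.f (nat_lit 627) (nat_lit 628) (nat_lit 3664) (.f (nat_lit 595) (nat_lit 596) (nat_lit 2640) (.f (nat_lit 623) (nat_lit 594) (nat_lit 1615) (.f (nat_lit 622) (nat_lit 621) (nat_lit 2637) (.d (nat_lit 654) (nat_lit 653) (nat_lit 1645) (nat_lit 655) (nat_lit 1646))))))))) (.a (.f (nat_lit 625) (nat_lit 496) (nat_lit 7664) (.f (nat_lit 658) (nat_lit 626) (nat_lit 4625) (.f (nat_lit 657) (nat_lit 690) (nat_lit 4657) (.f (nat_lit 562) (nat_lit 530) (nat_lit 6673) (.f (nat_lit 688) (nat_lit 656) (nat_lit 5680) (.d (nat_lit 689) (nat_lit 594) (nat_lit 6705) (nat_lit 720) (nat_lit 5712))))))) (.f (nat_lit 497) (nat_lit 624) (nat_lit 5616) (.f (nat_lit 594) (nat_lit 626) (nat_lit 4593) (.f (nat_lit 562) (nat_lit 465) (nat_lit 4561) (.d (nat_lit 563) (nat_lit 530) (nat_lit 527) (nat_lit 564) (nat_lit 3600)))))))))) (.a (.p (nat_lit 560) (.a (.f (nat_lit 625) (nat_lit 496) (nat_lit 4592) (.d (nat_lit 657) (nat_lit 561) (nat_lit 7696) (nat_lit 624) (nat_lit 4624))) (.a (.f (nat_lit 624) (nat_lit 495) (nat_lit 7663) (.d (nat_lit 656) (nat_lit 559) (nat_lit 7695) (nat_lit 561) (nat_lit 6672))) (.a (.f (nat_lit 625) (nat_lit 496) (nat_lit 4592) (.d (nat_lit 657) (nat_lit 624) (nat_lit 4624) (nat_lit 689) (nat_lit 7728))) (.f (nat_lit 496) (nat_lit 625) (nat_lit 4592) (.f (nat_lit 463) (nat_lit 495) (nat_lit 7631) (.d (nat_lit 464) (nat_lit 431) (nat_lit 7599) (nat_lit 561) (nat_lit 4560)))))))) (.a s17977 (.a (.p (nat_lit 530) (.a (.f (nat_lit 559) (nat_lit 558) (nat_lit 1550) (.f (nat_lit 560) (nat_lit 531) (nat_lit 1551) (.d (nat_lit 495) (nat_lit 463) (nat_lit 4559) (nat_lit 494) (nat_lit 3566)))) (.a (.f (nat_lit 563) (nat_lit 562) (nat_lit 527) (.f (nat_lit 531) (nat_lit 564) (nat_lit 528) (.d (nat_lit 495) (nat_lit 494) (nat_lit 3566) (nat_lit 496) (nat_lit 3567)))) (.a (.f (nat_lit 562) (nat_lit 563) (nat_lit 527) (.f (nat_lit 495) (nat_lit 494) (nat_lit 3566) (.f (nat_lit 559) (nat_lit 558) (nat_lit 1550) (.f (nat_lit 560) (nat_lit 463) (nat_lit 4559) (.f (nat_lit 625) (nat_lit 496) (nat_lit 4592) (.d (nat_lit 657) (nat_lit 561) (nat_lit 6673) (nat_lit 689) (nat_lit 7728))))))) (.f (nat_lit 559) (nat_lit 558) (nat_lit 1550) (.f (nat_lit 560) (nat_lit 531) (nat_lit 1551) (.f (nat_lit 496) (nat_lit 625) (nat_lit 4592) (.f (nat_lit 561) (nat_lit 464) (nat_lit 4560) (.f (nat_lit 594) (nat_lit 595) (nat_lit 3631) (.d (nat_lit 497) (nat_lit 465) (nat_lit 5584) (nat_lit 626) (nat_lit 4593))))))))))) (.p (nat_lit 530) (.a (.f (nat_lit 559) (nat_lit 558) (nat_lit 1550) (.f (nat_lit 560) (nat_lit 531) (nat_lit 1551) (.d (nat_lit 624) (nat_lit 497) (nat_lit 6640) (nat_lit 656) (nat_lit 7695)))) (.a (.f (nat_lit 563) (nat_lit 562) (nat_lit 527) (.f (nat_lit 531) (nat_lit 564) (nat_lit 528) (.d (nat_lit 495) (nat_lit 494) (nat_lit 3566) (nat_lit 496) (nat_lit 3567)))) (.f (nat_lit 495) (nat_lit 494) (nat_lit 3566) (.f (nat_lit 560) (nat_lit 624) (nat_lit 7663) (.d (nat_lit 463) (nat_lit 431) (nat_lit 4527) (nat_lit 559) (nat_lit 4559)))))))))))))))))))))) (.a s14708 (.a (.p (nat_lit 530) (.a (.f (nat_lit 494) (nat_lit 495) (nat_lit 3566) (.f (nat_lit 526) (nat_lit 493) (nat_lit 3565) (.d (nat_lit 558) (nat_lit 557) (nat_lit 1549) (nat_lit 559) (nat_lit 1550)))) (.a (.f (nat_lit 495) (nat_lit 494) (nat_lit 3566) (.f (nat_lit 531) (nat_lit 496) (nat_lit 3567) (.d (nat_lit 499) (nat_lit 498) (nat_lit 2543) (nat_lit 500) (nat_lit 2544)))) (.f (nat_lit 498) (nat_lit 499) (nat_lit 2543) (.f (nat_lit 526) (nat_lit 497) (nat_lit 2542) (.d (nat_lit 558) (nat_lit 557) (nat_lit 1549) (nat_lit 559) (nat_lit 1550))))))) s14709))))))))) (.a (.p (nat_lit 527) (.a (.p (nat_lit 530) (.a (.f (nat_lit 494) (nat_lit 495) (nat_lit 3566) (.f (nat_lit 526) (nat_lit 493) (nat_lit 3565) (.d (nat_lit 558) (nat_lit 557) (nat_lit 1549) (nat_lit 559) (nat_lit 1550)))) (.a (.f (nat_lit 495) (nat_lit 494) (nat_lit 3566) (.f (nat_lit 531) (nat_lit 496) (nat_lit 3567) (.d (nat_lit 499) (nat_lit 498) (nat_lit 2543) (nat_lit 500) (nat_lit 2544)))) (.f (nat_lit 498) (nat_lit 499) (nat_lit 2543) (.f (nat_lit 526) (nat_lit 497) (nat_lit 2542) (.d (nat_lit 558) (nat_lit 557) (nat_lit 1549) (nat_lit 559) (nat_lit 1550))))))) (.a (.p (nat_lit 530) (.a (.f (nat_lit 494) (nat_lit 495) (nat_lit 3566) (.f (nat_lit 526) (nat_lit 493) (nat_lit 3565) (.d (nat_lit 558) (nat_lit 557) (nat_lit 1549) (nat_lit 559) (nat_lit 1550)))) (.a (.f (nat_lit 498) (nat_lit 499) (nat_lit 2543) (.f (nat_lit 526) (nat_lit 497) (nat_lit 2542) (.d (nat_lit 494) (nat_lit 493) (nat_lit 3565) (nat_lit 495) (nat_lit 3566)))) (.f (nat_lit 559) (nat_lit 558) (nat_lit 1550) (.f (nat_lit 531) (nat_lit 560) (nat_lit 1551) (.d (nat_lit 499) (nat_lit 498) (nat_lit 2543) (nat_lit 500) (nat_lit 2544))))))) (.a (.p (nat_lit 530) (.a (.f (nat_lit 494) (nat_lit 495) (nat_lit 3566) (.f (nat_lit 526) (nat_lit 493) (nat_lit 3565) (.d (nat_lit 558) (nat_lit 557) (nat_lit 1549) (nat_lit 559) (nat_lit 1550)))) (.a (.f (nat_lit 495) (nat_lit 494) (nat_lit 3566) (.f (nat_lit 531) (nat_lit 496) (nat_lit 3567) (.d (nat_lit 499) (nat_lit 498) (nat_lit 2543) (nat_lit 500) (nat_lit 2544)))) (.f (nat_lit 559) (nat_lit 558) (nat_lit 1550) (.f (nat_lit 531) (nat_lit 560) (nat_lit 1551) (.d (nat_lit 499) (nat_lit 498) (nat_lit 2543) (nat_lit 500) (nat_lit 2544))))))) (.a s16079 (.a s17099 (.a (.p (nat_lit 592) (.a s14381 (.a s18027 (.a (.p (nat_lit 530) (.a (.f (nat_lit 559) (nat_lit 558) (nat_lit 1550) (.f (nat_lit 560) (nat_lit 531) (nat_lit 1551) (.d (nat_lit 495) (nat_lit 463) (nat_lit 4559) (nat_lit 494) (nat_lit 3566)))) (.a (.f (nat_lit 498) (nat_lit 499) (nat_lit 2543) (.f (nat_lit 495) (nat_lit 494) (nat_lit 3566) (.f (nat_lit 559) (nat_lit 558) (nat_lit 1550) (.f (nat_lit 591) (nat_lit 624) (nat_lit 4591) (.f (nat_lit 622) (nat_lit 590) (nat_lit 5614) (.f (nat_lit 623) (nat_lit 654) (nat_lit 5646) (.f (nat_lit 593) (nat_lit 594) (nat_lit 1614) (.f (nat_lit 561) (nat_lit 625) (nat_lit 6641) (.d (nat_lit 466) (nat_lit 434) (nat_lit 5553) (nat_lit 497) (nat_lit 6609)))))))))) (.a (.f (nat_lit 495) (nat_lit 494) (nat_lit 3566) (.f (nat_lit 560) (nat_lit 624) (nat_lit 7663) (.f (nat_lit 499) (nat_lit 498) (nat_lit 2543) (.f (nat_lit 531) (nat_lit 500) (nat_lit 2544) (.f (nat_lit 532) (nat_lit 561) (nat_lit 1552) (.d (nat_lit 564) (nat_lit 563) (nat_lit 528) (nat_lit 565) (nat_lit 529))))))) (.f (nat_lit 559) (nat_lit 558) (nat_lit 1550) (.f (nat_lit 560) (nat_lit 531) (nat_lit 1551) (.d (nat_lit 624) (nat_lit 497) (nat_lit 6640) (nat_lit 656) (nat_lit 7695)))))))) (.a s14612 (.a s16080 (.a s17951 (.a s18042 s18053)))))))) (.a s17939 (.a s18055 (.a s13650 (.a (.p (nat_lit 530) (.a (.f (nat_lit 494) (nat_lit 495) (nat_lit 3566) (.f (nat_lit 526) (nat_lit 493) (nat_lit 3565) (.d (nat_lit 558) (nat_lit 557) (nat_lit 1549) (nat_lit 559) (nat_lit 1550)))) (.a (.f (nat_lit 495) (nat_lit 494) (nat_lit 3566) (.f (nat_lit 531) (nat_lit 496) (nat_lit 3567) (.f (nat_lit 500) (nat_lit 499) (nat_lit 2544) (.f (nat_lit 532) (nat_lit 501) (nat_lit 2545) (.d (nat_lit 564) (nat_lit 563) (nat_lit 528) (nat_lit 565) (nat_lit 529)))))) (.f (nat_lit 559) (nat_lit 558) (nat_lit 1550) (.f (nat_lit 531) (nat_lit 560) (nat_lit 1551) (.f (nat_lit 500) (nat_lit 499) (nat_lit 2544) (.f (nat_lit 532) (nat_lit 501) (nat_lit 2545) (.d (nat_lit 564) (nat_lit 563) (nat_lit 528) (nat_lit 565) (nat_lit 529))))))))) (.a (.p (nat_lit 530) (.a (.f (nat_lit 495) (nat_lit 494) (nat_lit 3566) (.f (nat_lit 531) (nat_lit 496) (nat_lit 3567) (.d (nat_lit 499) (nat_lit 498) (nat_lit 2543) (nat_lit 500) (nat_lit 2544)))) (.a (.f (nat_lit 498) (nat_lit 499) (nat_lit 2543) (.f (nat_lit 526) (nat_lit 497) (nat_lit 2542) (.d (nat_lit 494) (nat_lit 493) (nat_lit 3565) (nat_lit 495) (nat_lit 3566)))) (.a (.f (nat_lit 559) (nat_lit 558) (nat_lit 1550) (.f (nat_lit 531) (nat_lit 560) (nat_lit 1551) (.d (nat_lit 499) (nat_lit 498) (nat_lit 2543) (nat_lit 500) (nat_lit 2544)))) (.a (.f (nat_lit 495) (nat_lit 494) (nat_lit 3566) (.f (nat_lit 531) (nat_lit 496) (nat_lit 3567) (.f (nat_lit 500) (nat_lit 499) (nat_lit 2544) (.f (nat_lit 532) (nat_lit 501) (nat_lit 2545) (.d (nat_lit 564) (nat_lit 563) (nat_lit 528) (nat_lit 565) (nat_lit 529)))))) (.f (nat_lit 559) (nat_lit 558) (nat_lit 1550) (.f (nat_lit 531) (nat_lit 560) (nat_lit 1551) (.f (nat_lit 564) (nat_lit 563) (nat_lit 528) (.f (nat_lit 532) (nat_lit 565) (nat_lit 529) (.f (nat_lit 497) (nat_lit 496) (nat_lit 3568) (.d (nat_lit 498) (nat_lit 526) (nat_lit 2542) (nat_lit 533) (nat_lit 3569)))))))))))) (.p (nat_lit 530) (.a (.f (nat_lit 494) (nat_lit 495) (nat_lit 3566) (.f (nat_lit 526) (nat_lit 493) (nat_lit 3565) (.d (nat_lit 558) (nat_lit 557) (nat_lit 1549) (nat_lit 559) (nat_lit 1550)))) (.a (.f (nat_lit 494) (nat_lit 495) (nat_lit 3566) (.f (nat_lit 526) (nat_lit 493) (nat_lit 3565) (.f (nat_lit 557) (nat_lit 558) (nat_lit 1549) (.f (nat_lit 525) (nat_lit 556) (nat_lit 1548) (.d (nat_lit 497) (nat_lit 496) (nat_lit 2541) (nat_lit 498) (nat_lit 2542)))))) (.a (.f (nat_lit 495) (nat_lit 494) (nat_lit 3566) (.f (nat_lit 531) (nat_lit 496) (nat_lit 3567) (.f (nat_lit 560) (nat_lit 559) (nat_lit 1551) (.f (nat_lit 532) (nat_lit 561) (nat_lit 1552) (.d (nat_lit 564) (nat_lit 563) (nat_lit 528) (nat_lit 565) (nat_lit 529)))))) (.f (nat_lit 559) (nat_lit 558) (nat_lit 1550) (.f (nat_lit 531) (nat_lit 560) (nat_lit 1551) (.f (nat_lit 564) (nat_lit 563) (nat_lit 528) (.f (nat_lit 532) (nat_lit 565) (nat_lit 529) (.f (nat_lit 497) (nat_lit 496) (nat_lit 3568) (.d (nat_lit 498) (nat_lit 526) (nat_lit 2542) (nat_lit 533) (nat_lit 3569))))))))))))))))))))))) (.a (.p (nat_lit 527) (.a (.p (nat_lit 530) (.a (.f (nat_lit 498) (nat_lit 499) (nat_lit 2543) (.f (nat_lit 562) (nat_lit 563) (nat_lit 527) (.d (nat_lit 526) (nat_lit 497) (nat_lit 2542) (nat_lit 561) (nat_lit 526)))) (.a (.f (nat_lit 494) (nat_lit 495) (nat_lit 3566) (.f (nat_lit 526) (nat_lit 493) (nat_lit 3565) (.d (nat_lit 558) (nat_lit 557) (nat_lit 1549) (nat_lit 559) (nat_lit 1550)))) (.f (nat_lit 495) (nat_lit 494) (nat_lit 3566) (.f (nat_lit 531) (nat_lit 496) (nat_lit 3567) (.d (nat_lit 499) (nat_lit 498) (nat_lit 2543) (nat_lit 500) (nat_lit 2544))))))) (.a (.p (nat_lit 530) (.a (.f (nat_lit 498) (nat_lit 499) (nat_lit 2543) (.f (nat_lit 562) (nat_lit 563) (nat_lit 527) (.d (nat_lit 526) (nat_lit 497) (nat_lit 2542) (nat_lit 561) (nat_lit 526)))) (.a (.f (nat_lit 494) (nat_lit 495) (nat_lit 3566) (.f (nat_lit 526) (nat_lit 493) (nat_lit 3565) (.d (nat_lit 558) (nat_lit 557) (nat_lit 1549) (nat_lit 559) (nat_lit 1550)))) (.f (nat_lit 499) (nat_lit 498) (nat_lit 2543) (.f (nat_lit 531) (nat_lit 500) (nat_lit 2544) (.d (nat_lit 563) (nat_lit 562) (nat_lit 527) (nat_lit 564) (nat_lit 528))))))) (.a (.p (nat_lit 530) (.a (.f (nat_lit 494) (nat_lit 495) (nat_lit 3566) (.f (nat_lit 526) (nat_lit 493) (nat_lit 3565) (.d (nat_lit 558) (nat_lit 557) (nat_lit 1549) (nat_lit 559) (nat_lit 1550)))) (.a (.f (nat_lit 495) (nat_lit 494) (nat_lit 3566) (.f (nat_lit 531) (nat_lit 496) (nat_lit 3567) (.d (nat_lit 499) (nat_lit 498) (nat_lit 2543) (nat_lit 500) (nat_lit 2544)))) (.f (nat_lit 499) (nat_lit 498) (nat_lit 2543) (.f (nat_lit 531) (nat_lit 500) (nat_lit 2544) (.d (nat_lit 563) (nat_lit 562) (nat_lit 527) (nat_lit 564) (nat_lit 528))))))) (.a (.p (nat_lit 560) (.a (.p (nat_lit 526) (.a (.d (nat_lit 561) (nat_lit 525) (nat_lit 525) (nat_lit 562) (nat_lit 526)) (.a (.f (nat_lit 557) (nat_lit 558) (nat_lit 1549) (.f (nat_lit 525) (nat_lit 556) (nat_lit 1548) (.d (nat_lit 493) (nat_lit 492) (nat_lit 3564) (nat_lit 494) (nat_lit 3565)))) (.f (nat_lit 561) (nat_lit 562) (nat_lit 526) (.f (nat_lit 497) (nat_lit 498) (nat_lit 2542) (.d (nat_lit 465) (nat_lit 433) (nat_lit 5552) (nat_lit 592) (nat_lit 5584))))))) (.a s15986 (.a s16072 (.a (.p (nat_lit 496) (.a (.p (nat_lit 592) (.a (.f (nat_lit 591) (nat_lit 623) (nat_lit 5615) (.f (nat_lit 593) (nat_lit 625) (nat_lit 4592) (.d (nat_lit 464) (nat_lit 559) (nat_lit 5583) (nat_lit 561) (nat_lit 4560)))) (.a (.f (nat_lit 591) (nat_lit 623) (nat_lit 5615) (.f (nat_lit 559) (nat_lit 464) (nat_lit 5583) (.f (nat_lit 558) (nat_lit 557) (nat_lit 2573) (.d (nat_lit 593) (nat_lit 594) (nat_lit 3630) (nat_lit 625) (nat_lit 4592))))) (.a (.f (nat_lit 593) (nat_lit 625) (nat_lit 4592) (.f (nat_lit 561) (nat_lit 464) (nat_lit 4560) (.f (nat_lit 562) (nat_lit 563) (nat_lit 3599) (.d (nat_lit 591) (nat_lit 590) (nat_lit 2606) (nat_lit 623) (nat_lit 5615))))) (.a (.f (nat_lit 495) (nat_lit 463) (nat_lit 7631) (.f (nat_lit 591) (nat_lit 623) (nat_lit 5615) (.f (nat_lit 559) (nat_lit 464) (nat_lit 5583) (.d (nat_lit 494) (nat_lit 462) (nat_lit 7630) (nat_lit 493) (nat_lit 493))))) (.a (.f (nat_lit 463) (nat_lit 495) (nat_lit 7631) (.f (nat_lit 593) (nat_lit 625) (nat_lit 4592) (.d (nat_lit 464) (nat_lit 431) (nat_lit 7599) (nat_lit 561) (nat_lit 4560)))) (.f (nat_lit 495) (nat_lit 463) (nat_lit 7631) (.f (nat_lit 591) (nat_lit 623) (nat_lit 5615) (.f (nat_lit 593) (nat_lit 625) (nat_lit 4592) (.f (nat_lit 494) (nat_lit 493) (nat_lit 493) (.f (nat_lit 559) (nat_lit 462) (nat_lit 7630) (.d (nat_lit 558) (nat_lit 557) (nat_lit 557) (nat_lit 594) (nat_lit 3630))))))))))))) (.a (.p (nat_lit 592) (.a (.f (nat_lit 591) (nat_lit 623) (nat_lit 5615) (.f (nat_lit 559) (nat_lit 464) (nat_lit 5583) (.f (nat_lit 558) (nat_lit 557) (nat_lit 2573) (.d (nat_lit 593) (nat_lit 594) (nat_lit 3630) (nat_lit 625) (nat_lit 4592))))) (.a (.f (nat_lit 463) (nat_lit 495) (nat_lit 7631) (.f (nat_lit 465) (nat_lit 497) (nat_lit 6608) (.d (nat_lit 464) (nat_lit 431) (nat_lit 7599) (nat_lit 433) (nat_lit 6576)))) (.f (nat_lit 495) (nat_lit 463) (nat_lit 7631) (.f (nat_lit 591) (nat_lit 623) (nat_lit 5615) (.f (nat_lit 593) (nat_lit 625) (nat_lit 4592) (.f (nat_lit 494) (nat_lit 493) (nat_lit 493) (.f (nat_lit 559) (nat_lit 462) (nat_lit 7630) (.d (nat_lit 558) (nat_lit 557) (nat_lit 557) (nat_lit 594) (nat_lit 3630)))))))))) (.a (.p (nat_lit 592) (.a (.f (nat_lit 593) (nat_lit 625) (nat_lit 4592) (.f (nat_lit 561) (nat_lit 464) (nat_lit 4560) (.f (nat_lit 562) (nat_lit 563) (nat_lit 3599) (.d (nat_lit 591) (nat_lit 590) (nat_lit 2606) (nat_lit 623) (nat_lit 5615))))) (.a (.f (nat_lit 463) (nat_lit 495) (nat_lit 7631) (.f (nat_lit 465) (nat_lit 497) (nat_lit 6608) (.d (nat_lit 464) (nat_lit 431) (nat_lit 7599) (nat_lit 433) (nat_lit 6576)))) (.f (nat_lit 497) (nat_lit 465) (nat_lit 6608) (.f (nat_lit 495) (nat_lit 463) (nat_lit 7631) (.f (nat_lit 498) (nat_lit 499) (nat_lit 1519) (.f (nat_lit 593) (nat_lit 625) (nat_lit 4592) (.d (nat_lit 466) (nat_lit 467) (nat_lit 2511) (nat_lit 561) (nat_lit 6609))))))))) (.a (.p (nat_lit 592) (.a (.f (nat_lit 495) (nat_lit 463) (nat_lit 7631) (.f (nat_lit 591) (nat_lit 623) (nat_lit 5615) (.f (nat_lit 559) (nat_lit 464) (nat_lit 5583) (.d (nat_lit 494) (nat_lit 462) (nat_lit 7630) (nat_lit 493) (nat_lit 493))))) (.a (.f (nat_lit 463) (nat_lit 495) (nat_lit 7631) (.f (nat_lit 465) (nat_lit 497) (nat_lit 6608) (.d (nat_lit 464) (nat_lit 431) (nat_lit 7599) (nat_lit 433) (nat_lit 6576)))) (.a (.f (nat_lit 465) (nat_lit 497) (nat_lit 6608) (.f (nat_lit 591) (nat_lit 623) (nat_lit 5615) (.d (nat_lit 464) (nat_lit 433) (nat_lit 6576) (nat_lit 559) (nat_lit 5583)))) (.f (nat_lit 495) (nat_lit 463) (nat_lit 7631) (.f (nat_lit 497) (nat_lit 465) (nat_lit 6608) (.f (nat_lit 494) (nat_lit 493) (nat_lit 493) (.f (nat_lit 591) (nat_lit 623) (nat_lit 5615) (.d (nat_lit 462) (nat_lit 461) (nat_lit 3533) (nat_lit 559) (nat_lit 7630)))))))))) (.a (.p (nat_lit 464) (.a (.f (nat_lit 559) (nat_lit 591) (nat_lit 5583) (.f (nat_lit 561) (nat_lit 593) (nat_lit 4560) (.f (nat_lit 558) (nat_lit 557) (nat_lit 2573) (.f (nat_lit 463) (nat_lit 431) (nat_lit 7599) (.d (nat_lit 590) (nat_lit 495) (nat_lit 5582) (nat_lit 589) (nat_lit 1581)))))) (.a (.f (nat_lit 559) (nat_lit 591) (nat_lit 5583) (.f (nat_lit 463) (nat_lit 431) (nat_lit 7599) (.f (nat_lit 465) (nat_lit 433) (nat_lit 6576) (.f (nat_lit 558) (nat_lit 557) (nat_lit 2573) (.f (nat_lit 495) (nat_lit 590) (nat_lit 5582) (.d (nat_lit 466) (nat_lit 467) (nat_lit 1487) (nat_lit 494) (nat_lit 1486))))))) (.a (.f (nat_lit 561) (nat_lit 593) (nat_lit 4560) (.f (nat_lit 465) (nat_lit 433) (nat_lit 6576) (.f (nat_lit 463) (nat_lit 431) (nat_lit 7599) (.f (nat_lit 562) (nat_lit 563) (nat_lit 3599) (.f (nat_lit 497) (nat_lit 594) (nat_lit 4561) (.d (nat_lit 462) (nat_lit 461) (nat_lit 461) (nat_lit 498) (nat_lit 462))))))) (.f (nat_lit 559) (nat_lit 591) (nat_lit 5583) (.f (nat_lit 561) (nat_lit 593) (nat_lit 4560) (.f (nat_lit 562) (nat_lit 563) (nat_lit 3599) (.f (nat_lit 465) (nat_lit 433) (nat_lit 6576) (.d (nat_lit 594) (nat_lit 497) (nat_lit 4561) (nat_lit 595) (nat_lit 559)))))))))) (.a (.p (nat_lit 592) (.a (.f (nat_lit 591) (nat_lit 623) (nat_lit 5615) (.f (nat_lit 593) (nat_lit 625) (nat_lit 4592) (.d (nat_lit 464) (nat_lit 559) (nat_lit 5583) (nat_lit 561) (nat_lit 4560)))) (.a (.f (nat_lit 591) (nat_lit 623) (nat_lit 5615) (.f (nat_lit 559) (nat_lit 464) (nat_lit 5583) (.f (nat_lit 558) (nat_lit 557) (nat_lit 2573) (.d (nat_lit 593) (nat_lit 594) (nat_lit 3630) (nat_lit 625) (nat_lit 4592))))) (.a (.f (nat_lit 593) (nat_lit 625) (nat_lit 4592) (.f (nat_lit 561) (nat_lit 464) (nat_lit 4560) (.f (nat_lit 562) (nat_lit 563) (nat_lit 3599) (.d (nat_lit 591) (nat_lit 590) (nat_lit 2606) (nat_lit 623) (nat_lit 5615))))) (.a (.f (nat_lit 465) (nat_lit 497) (nat_lit 6608) (.f (nat_lit 591) (nat_lit 623) (nat_lit 5615) (.d (nat_lit 464) (nat_lit 433) (nat_lit 6576) (nat_lit 559) (nat_lit 5583)))) (.a (.f (nat_lit 497) (nat_lit 465) (nat_lit 6608) (.f (nat_lit 593) (nat_lit 625) (nat_lit 4592) (.f (nat_lit 561) (nat_lit 464) (nat_lit 4560) (.d (nat_lit 498) (nat_lit 466) (nat_lit 6609) (nat_lit 499) (nat_lit 1519))))) (.f (nat_lit 497) (nat_lit 465) (nat_lit 6608) (.f (nat_lit 498) (nat_lit 499) (nat_lit 1519) (.f (nat_lit 593) (nat_lit 625) (nat_lit 4592) (.f (nat_lit 561) (nat_lit 466) (nat_lit 6609) (.f (nat_lit 594) (nat_lit 626) (nat_lit 4593) (.d (nat_lit 559) (nat_lit 558) (nat_lit 558) (nat_lit 595) (nat_lit 3631))))))))))))) (.a (.p (nat_lit 592) (.a (.f (nat_lit 463) (nat_lit 495) (nat_lit 7631) (.f (nat_lit 593) (nat_lit 625) (nat_lit 4592) (.d (nat_lit 464) (nat_lit 431) (nat_lit 7599) (nat_lit 561) (nat_lit 4560)))) (.a (.f (nat_lit 463) (nat_lit 495) (nat_lit 7631) (.f (nat_lit 465) (nat_lit 497) (nat_lit 6608) (.d (nat_lit 464) (nat_lit 431) (nat_lit 7599) (nat_lit 433) (nat_lit 6576)))) (.a (.f (nat_lit 497) (nat_lit 465) (nat_lit 6608) (.f (nat_lit 593) (nat_lit 625) (nat_lit 4592) (.f (nat_lit 561) (nat_lit 464) (nat_lit 4560) (.d (nat_lit 498) (nat_lit 466) (nat_lit 6609) (nat_lit 499) (nat_lit 1519))))) (.f (nat_lit 497) (nat_lit 465) (nat_lit 6608) (.f (nat_lit 495) (nat_lit 463) (nat_lit 7631) (.f (nat_lit 498) (nat_lit 499) (nat_lit 1519) (.f (nat_lit 593) (nat_lit 625) (nat_lit 4592) (.d (nat_lit 466) (nat_lit 467) (nat_lit 2511) (nat_lit 561) (nat_lit 6609)))))))))) (.p (nat_lit 592) (.a (.f (nat_lit 495) (nat_lit 463) (nat_lit 7631) (.f (nat_lit 591) (nat_lit 623) (nat_lit 5615) (.f (nat_lit 593) (nat_lit 625) (nat_lit 4592) (.f (nat_lit 494) (nat_lit 493) (nat_lit 493) (.f (nat_lit 559) (nat_lit 462) (nat_lit 7630) (.d (nat_lit 558) (nat_lit 557) (nat_lit 557) (nat_lit 594) (nat_lit 3630))))))) (.a (.f (nat_lit 497) (nat_lit 465) (nat_lit 6608) (.f (nat_lit 495) (nat_lit 463) (nat_lit 7631) (.f (nat_lit 498) (nat_lit 499) (nat_lit 1519) (.f (nat_lit 593) (nat_lit 625) (nat_lit 4592) (.d (nat_lit 466) (nat_lit 467) (nat_lit 2511) (nat_lit 561) (nat_lit 6609)))))) (.a (.f (nat_lit 495) (nat_lit 463) (nat_lit 7631) (.f (nat_lit 497) (nat_lit 465) (nat_lit 6608) (.f (nat_lit 494) (nat_lit 493) (nat_lit 493) (.f (nat_lit 591) (nat_lit 623) (nat_lit 5615) (.d (nat_lit 462) (nat_lit 461) (nat_lit 3533) (nat_lit 559) (nat_lit 7630)))))) (.f (nat_lit 497) (nat_lit 465) (nat_lit 6608) (.f (nat_lit 498) (nat_lit 499) (nat_lit 1519) (.f (nat_lit 593) (nat_lit 625) (nat_lit 4592) (.f (nat_lit 561) (nat_lit 466) (nat_lit 6609) (.f (nat_lit 594) (nat_lit 626) (nat_lit 4593) (.d (nat_lit 559) (nat_lit 558) (nat_lit 558) (nat_lit 595) (nat_lit 3631))))))))))))))))))) (.p (nat_lit 526) (.a (.d (nat_lit 561) (nat_lit 525) (nat_lit 525) (nat_lit 562) (nat_lit 526)) (.a (.f (nat_lit 497) (nat_lit 498) (nat_lit 2542) (.f (nat_lit 496) (nat_lit 525) (nat_lit 2541) (.d (nat_lit 465) (nat_lit 433) (nat_lit 5552) (nat_lit 592) (nat_lit 6608)))) (.f (nat_lit 561) (nat_lit 562) (nat_lit 526) (.f (nat_lit 497) (nat_lit 498) (nat_lit 2542) (.d (nat_lit 465) (nat_lit 433) (nat_lit 5552) (nat_lit 592) (nat_lit 5584)))))))))))) (.a (.p (nat_lit 530) (.a (.f (nat_lit 498) (nat_lit 499) (nat_lit 2543) (.f (nat_lit 562) (nat_lit 563) (nat_lit 527) (.d (nat_lit 526) (nat_lit 497) (nat_lit 2542) (nat_lit 561) (nat_lit 526)))) (.a (.f (nat_lit 495) (nat_lit 494) (nat_lit 3566) (.f (nat_lit 531) (nat_lit 496) (nat_lit 3567) (.d (nat_lit 499) (nat_lit 498) (nat_lit 2543) (nat_lit 500) (nat_lit 2544)))) (.f (nat_lit 562) (nat_lit 563) (nat_lit 527) (.f (nat_lit 526) (nat_lit 561) (nat_lit 526) (.d (nat_lit 494) (nat_lit 493) (nat_lit 3565) (nat_lit 495) (nat_lit 3566))))))) (.a s14706 (.a s14708 (.a (.p (nat_lit 530) (.a (.f (nat_lit 494) (nat_lit 495) (nat_lit 3566) (.f (nat_lit 526) (nat_lit 493) (nat_lit 3565) (.d (nat_lit 558) (nat_lit 557) (nat_lit 1549) (nat_lit 559) (nat_lit 1550)))) (.a (.f (nat_lit 495) (nat_lit 494) (nat_lit 3566) (.f (nat_lit 531) (nat_lit 496) (nat_lit 3567) (.d (nat_lit 499) (nat_lit 498) (nat_lit 2543) (nat_lit 500) (nat_lit 2544)))) (.f (nat_lit 498) (nat_lit 499) (nat_lit 2543) (.f (nat_lit 526) (nat_lit 497) (nat_lit 2542) (.d (nat_lit 558) (nat_lit 557) (nat_lit 1549) (nat_lit 559) (nat_lit 1550))))))) s14709))))))))) (.a (.p (nat_lit 527) (.a (.p (nat_lit 530) (.a (.f (nat_lit 498) (nat_lit 499) (nat_lit 2543) (.f (nat_lit 562) (nat_lit 563) (nat_lit 527) (.d (nat_lit 526) (nat_lit 497) (nat_lit 2542) (nat_lit 561) (nat_lit 526)))) (.a (.f (nat_lit 495) (nat_lit 494) (nat_lit 3566) (.f (nat_lit 531) (nat_lit 496) (nat_lit 3567) (.d (nat_lit 499) (nat_lit 498) (nat_lit 2543) (nat_lit 500) (nat_lit 2544)))) (.f (nat_lit 562) (nat_lit 563) (nat_lit 527) (.f (nat_lit 526) (nat_lit 561) (nat_lit 526) (.d (nat_lit 494) (nat_lit 493) (nat_lit 3565) (nat_lit 495) (nat_lit 3566))))))) (.a s14755 (.a (.p (nat_lit 530) (.a (.f (nat_lit 495) (nat_lit 494) (nat_lit 3566) (.f (nat_lit 531) (nat_lit 496) (nat_lit 3567) (.d (nat_lit 499) (nat_lit 498) (nat_lit 2543) (nat_lit 500) (nat_lit 2544)))) (.a (.f (nat_lit 499) (nat_lit 498) (nat_lit 2543) (.f (nat_lit 531) (nat_lit 500) (nat_lit 2544) (.d (nat_lit 563) (nat_lit 562) (nat_lit 527) (nat_lit 564) (nat_lit 528)))) (.f (nat_lit 562) (nat_lit 563) (nat_lit 527) (.f (nat_lit 526) (nat_lit 561) (nat_lit 526) (.d (nat_lit 494) (nat_lit 493) (nat_lit 3565) (nat_lit 495) (nat_lit 3566))))))) (.a s13969 (.a (.p (nat_lit 592) (.a s14393 (.a s16482 (.a s18072 (.a (.p (nat_lit 560) (.a (.f (nat_lit 495) (nat_lit 624) (nat_lit 7663) (.d (nat_lit 463) (nat_lit 431) (nat_lit 4527) (nat_lit 496) (nat_lit 7631))) (.a (.f (nat_lit 624) (nat_lit 495) (nat_lit 7663) (.d (nat_lit 656) (nat_lit 559) (nat_lit 7695) (nat_lit 561) (nat_lit 6672))) (.a s16000 s16001)))) (.a s17299 (.a s18081 (.a s18090 s14644)))))))) (.a s17097 (.a s17940 (.a s18055 (.a (.p (nat_lit 530) (.a (.f (nat_lit 498) (nat_lit 499) (nat_lit 2543) (.f (nat_lit 562) (nat_lit 563) (nat_lit 527) (.d (nat_lit 526) (nat_lit 497) (nat_lit 2542) (nat_lit 561) (nat_lit 526)))) (.a (.f (nat_lit 499) (nat_lit 498) (nat_lit 2543) (.f (nat_lit 531) (nat_lit 500) (nat_lit 2544) (.d (nat_lit 563) (nat_lit 562) (nat_lit 527) (nat_lit 564) (nat_lit 528)))) (.a (.f (nat_lit 499) (nat_lit 498) (nat_lit 2543) (.f (nat_lit 531) (nat_lit 500) (nat_lit 2544) (.f (nat_lit 564) (nat_lit 563) (nat_lit 528) (.f (nat_lit 532) (nat_lit 565) (nat_lit 529) (.d (nat_lit 496) (nat_lit 495) (nat_lit 3567) (nat_lit 497) (nat_lit 3568)))))) (.a (.f (nat_lit 498) (nat_lit 499) (nat_lit 2543) (.f (nat_lit 526) (nat_lit 497) (nat_lit 2542) (.f (nat_lit 561) (nat_lit 562) (nat_lit 526) (.f (nat_lit 560) (nat_lit 525) (nat_lit 525) (.d (nat_lit 531) (nat_lit 532) (nat_lit 1552) (nat_lit 559) (nat_lit 1551)))))) (.a (.f (nat_lit 563) (nat_lit 562) (nat_lit 527) (.f (nat_lit 531) (nat_lit 564) (nat_lit 528) (.f (nat_lit 500) (nat_lit 499) (nat_lit 2544) (.f (nat_lit 532) (nat_lit 501) (nat_lit 2545) (.d (nat_lit 560) (nat_lit 559) (nat_lit 1551) (nat_lit 561) (nat_lit 1552)))))) (.f (nat_lit 562) (nat_lit 563) (nat_lit 527) (.f (nat_lit 526) (nat_lit 561) (nat_lit 526) (.f (nat_lit 497) (nat_lit 498) (nat_lit 2542) (.f (nat_lit 496) (nat_lit 525) (nat_lit 2541) (.d (nat_lit 531) (nat_lit 495) (nat_lit 3567) (nat_lit 532) (nat_lit 3568)))))))))))) (.a (.p (nat_lit 530) (.a (.f (nat_lit 495) (nat_lit 494) (nat_lit 3566) (.f (nat_lit 531) (nat_lit 496) (nat_lit 3567) (.d (nat_lit 499) (nat_lit 498) (nat_lit 2543) (nat_lit 500) (nat_lit 2544)))) (.a (.f (nat_lit 498) (nat_lit 499) (nat_lit 2543) (.f (nat_lit 526) (nat_lit 497) (nat_lit 2542) (.d (nat_lit 494) (nat_lit 493) (nat_lit 3565) (nat_lit 495) (nat_lit 3566)))) (.a (.f (nat_lit 498) (nat_lit 499) (nat_lit 2543) (.f (nat_lit 526) (nat_lit 497) (nat_lit 2542) (.f (nat_lit 493) (nat_lit 494) (nat_lit 3565) (.f (nat_lit 525) (nat_lit 492) (nat_lit 3564) (.f (nat_lit 556) (nat_lit 557) (nat_lit 1548) (.f (nat_lit 524) (nat_lit 555) (nat_lit 1547) (.d (nat_lit 560) (nat_lit 559) (nat_lit 524) (nat_lit 561) (nat_lit 525)))))))) (.a (.f (nat_lit 498) (nat_lit 499) (nat_lit 2543) (.f (nat_lit 526) (nat_lit 497) (nat_lit 2542) (.f (nat_lit 561) (nat_lit 562) (nat_lit 526) (.f (nat_lit 560) (nat_lit 525) (nat_lit 525) (.d (nat_lit 531) (nat_lit 532) (nat_lit 1552) (nat_lit 559) (nat_lit 1551)))))) (.a (.f (nat_lit 495) (nat_lit 494) (nat_lit 3566) (.f (nat_lit 531) (nat_lit 496) (nat_lit 3567) (.f (nat_lit 500) (nat_lit 499) (nat_lit 2544) (.f (nat_lit 532) (nat_lit 501) (nat_lit 2545) (.f (nat_lit 561) (nat_lit 560) (nat_lit 1552) (.d (nat_lit 562) (nat_lit 526) (nat_lit 526) (nat_lit 533) (nat_lit 1553))))))) (.f (nat_lit 495) (nat_lit 494) (nat_lit 3566) (.f (nat_lit 531) (nat_lit 496) (nat_lit 3567) (.f (nat_lit 560) (nat_lit 559) (nat_lit 1551) (.f (nat_lit 561) (nat_lit 532) (nat_lit 1552) (.d (nat_lit 526) (nat_lit 525) (nat_lit 525) (nat_lit 562) (nat_lit 526)))))))))))) (.a (.p (nat_lit 530) (.a (.f (nat_lit 562) (nat_lit 563) (nat_lit 527) (.f (nat_lit 526) (nat_lit 561) (nat_lit 526) (.d (nat_lit 494) (nat_lit 493) (nat_lit 3565) (nat_lit 495) (nat_lit 3566)))) (.a (.f (nat_lit 495) (nat_lit 494) (nat_lit 3566) (.f (nat_lit 531) (nat_lit 496) (nat_lit 3567) (.d (nat_lit 563) (nat_lit 562) (nat_lit 527) (nat_lit 564) (nat_lit 528)))) (.a (.f (nat_lit 563) (nat_lit 562) (nat_lit 527) (.f (nat_lit 531) (nat_lit 564) (nat_lit 528) (.f (nat_lit 500) (nat_lit 499) (nat_lit 2544) (.f (nat_lit 532) (nat_lit 501) (nat_lit 2545) (.d (nat_lit 560) (nat_lit 559) (nat_lit 1551) (nat_lit 561) (nat_lit 1552)))))) (.a (.f (nat_lit 495) (nat_lit 494) (nat_lit 3566) (.f (nat_lit 531) (nat_lit 496) (nat_lit 3567) (.f (nat_lit 500) (nat_lit 499) (nat_lit 2544) (.f (nat_lit 532) (nat_lit 501) (nat_lit 2545) (.d (nat_lit 564) (nat_lit 563) (nat_lit 528) (nat_lit 565) (nat_lit 529)))))) (.f (nat_lit 495) (nat_lit 494) (nat_lit 3566) (.f (nat_lit 531) (nat_lit 496) (nat_lit 3567) (.f (nat_lit 500) (nat_lit 499) (nat_lit 2544) (.f (nat_lit 532) (nat_lit 501) (nat_lit 2545) (.f (nat_lit 561) (nat_lit 560) (nat_lit 1552) (.d (nat_lit 562) (nat_lit 526) (nat_lit 526) (nat_lit 533) (nat_lit 1553)))))))))))) (.p (nat_lit 530) (.a (.f (nat_lit 562) (nat_lit 563) (nat_lit 527) (.f (nat_lit 526) (nat_lit 561) (nat_lit 526) (.d (nat_lit 494) (nat_lit 493) (nat_lit 3565) (nat_lit 495) (nat_lit 3566)))) (.a (.f (nat_lit 495) (nat_lit 494) (nat_lit 3566) (.f (nat_lit 531) (nat_lit 496) (nat_lit 3567) (.d (nat_lit 563) (nat_lit 562) (nat_lit 527) (nat_lit 564) (nat_lit 528)))) (.a (.f (nat_lit 562) (nat_lit 563) (nat_lit 527) (.f (nat_lit 526) (nat_lit 561) (nat_lit 526) (.f (nat_lit 497) (nat_lit 498) (nat_lit 2542) (.f (nat_lit 525) (nat_lit 496) (nat_lit 2541) (.d (nat_lit 493) (nat_lit 492) (nat_lit 3564) (nat_lit 494) (nat_lit 3565)))))) (.a (.f (nat_lit 495) (nat_lit 494) (nat_lit 3566) (.f (nat_lit 531) (nat_lit 496) (nat_lit 3567) (.f (nat_lit 560) (nat_lit 559) (nat_lit 1551) (.f (nat_lit 532) (nat_lit 561) (nat_lit 1552) (.d (nat_lit 564) (nat_lit 563) (nat_lit 528) (nat_lit 565) (nat_lit 529)))))) (.a (.f (nat_lit 562) (nat_lit 563) (nat_lit 527) (.f (nat_lit 526) (nat_lit 561) (nat_lit 526) (.f (nat_lit 497) (nat_lit 498) (nat_lit 2542) (.f (nat_lit 496) (nat_lit 525) (nat_lit 2541) (.d (nat_lit 531) (nat_lit 495) (nat_lit 3567) (nat_lit 532) (nat_lit 3568)))))) (.f (nat_lit 495) (nat_lit 494) (nat_lit 3566) (.f (nat_lit 531) (nat_lit 496) (nat_lit 3567) (.f (nat_lit 560) (nat_lit 559) (nat_lit 1551) (.f (nat_lit 561) (nat_lit 532) (nat_lit 1552) (.d (nat_lit 526) (nat_lit 525) (nat_lit 525) (nat_lit 562) (nat_lit 526)))))))))))))))))))))))) (.a (.p (nat_lit 592) (.a s14395 (.a (.p (nat_lit 527) (.a (.p (nat_lit 530) (.a (.f (nat_lit 498) (nat_lit 499) (nat_lit 2543) (.f (nat_lit 562) (nat_lit 563) (nat_lit 527) (.d (nat_lit 526) (nat_lit 497) (nat_lit 2542) (nat_lit 561) (nat_lit 526)))) (.f (nat_lit 495) (nat_lit 494) (nat_lit 3566) (.f (nat_lit 559) (nat_lit 558) (nat_lit 1550) (.f (nat_lit 591) (nat_lit 624) (nat_lit 4591) (.d (nat_lit 496) (nat_lit 464) (nat_lit 6607) (nat_lit 531) (nat_lit 3567))))))) (.a (.p (nat_lit 530) (.a (.f (nat_lit 562) (nat_lit 563) (nat_lit 527) (.f (nat_lit 498) (nat_lit 499) (nat_lit 2543) (.f (nat_lit 561) (nat_lit 526) (nat_lit 526) (.d (nat_lit 466) (nat_lit 434) (nat_lit 5553) (nat_lit 593) (nat_lit 5585))))) (.a (.f (nat_lit 499) (nat_lit 498) (nat_lit 2543) (.f (nat_lit 531) (nat_lit 500) (nat_lit 2544) (.d (nat_lit 563) (nat_lit 562) (nat_lit 527) (nat_lit 564) (nat_lit 528)))) (.f (nat_lit 494) (nat_lit 495) (nat_lit 3566) (.f (nat_lit 526) (nat_lit 493) (nat_lit 3565) (.d (nat_lit 558) (nat_lit 557) (nat_lit 1549) (nat_lit 559) (nat_lit 1550))))))) (.a s14428 (.a (.p (nat_lit 526) (.a (.f (nat_lit 497) (nat_lit 498) (nat_lit 2542) (.f (nat_lit 525) (nat_lit 496) (nat_lit 2541) (.d (nat_lit 493) (nat_lit 492) (nat_lit 3564) (nat_lit 494) (nat_lit 3565)))) (.a (.f (nat_lit 493) (nat_lit 494) (nat_lit 3565) (.f (nat_lit 525) (nat_lit 492) (nat_lit 3564) (.d (nat_lit 557) (nat_lit 556) (nat_lit 1548) (nat_lit 558) (nat_lit 1549)))) (.f (nat_lit 497) (nat_lit 498) (nat_lit 2542) (.f (nat_lit 561) (nat_lit 562) (nat_lit 526) (.f (nat_lit 593) (nat_lit 624) (nat_lit 5616) (.d (nat_lit 496) (nat_lit 464) (nat_lit 7632) (nat_lit 625) (nat_lit 7664)))))))) (.a (.p (nat_lit 530) (.a (.f (nat_lit 495) (nat_lit 494) (nat_lit 3566) (.f (nat_lit 559) (nat_lit 558) (nat_lit 1550) (.f (nat_lit 591) (nat_lit 624) (nat_lit 4591) (.d (nat_lit 496) (nat_lit 464) (nat_lit 6607) (nat_lit 531) (nat_lit 3567))))) (.a (.f (nat_lit 498) (nat_lit 499) (nat_lit 2543) (.f (nat_lit 526) (nat_lit 497) (nat_lit 2542) (.d (nat_lit 494) (nat_lit 493) (nat_lit 3565) (nat_lit 495) (nat_lit 3566)))) (.f (nat_lit 498) (nat_lit 499) (nat_lit 2543) (.f (nat_lit 526) (nat_lit 497) (nat_lit 2542) (.d (nat_lit 558) (nat_lit 557) (nat_lit 1549) (nat_lit 559) (nat_lit 1550))))))) (.a (.p (nat_lit 530) (.a (.f (nat_lit 498) (nat_lit 499) (nat_lit 2543) (.f (nat_lit 562) (nat_lit 563) (nat_lit 527) (.d (nat_lit 526) (nat_lit 497) (nat_lit 2542) (nat_lit 561) (nat_lit 526)))) (.a (.f (nat_lit 562) (nat_lit 563) (nat_lit 527) (.f (nat_lit 498) (nat_lit 499) (nat_lit 2543) (.f (nat_lit 561) (nat_lit 526) (nat_lit 526) (.d (nat_lit 466) (nat_lit 434) (nat_lit 5553) (nat_lit 593) (nat_lit 5585))))) (.a (.f (nat_lit 499) (nat_lit 498) (nat_lit 2543) (.f (nat_lit 531) (nat_lit 500) (nat_lit 2544) (.d (nat_lit 563) (nat_lit 562) (nat_lit 527) (nat_lit 564) (nat_lit 528)))) (.a (.f (nat_lit 498) (nat_lit 499) (nat_lit 2543) (.f (nat_lit 526) (nat_lit 497) (nat_lit 2542) (.d (nat_lit 494) (nat_lit 493) (nat_lit 3565) (nat_lit 495) (nat_lit 3566)))) (.f (nat_lit 562) (nat_lit 563) (nat_lit 527) (.f (nat_lit 526) (nat_lit 561) (nat_lit 526) (.d (nat_lit 494) (nat_lit 493) (nat_lit 3565) (nat_lit 495) (nat_lit 3566))))))))) (.a s18102 (.p (nat_lit 530) (.a (.f (nat_lit 495) (nat_lit 494) (nat_lit 3566) (.f (nat_lit 559) (nat_lit 558) (nat_lit 1550) (.f (nat_lit 591) (nat_lit 624) (nat_lit 4591) (.d (nat_lit 496) (nat_lit 464) (nat_lit 6607) (nat_lit 531) (nat_lit 3567))))) (.a (.f (nat_lit 562) (nat_lit 563) (nat_lit 527) (.f (nat_lit 526) (nat_lit 561) (nat_lit 526) (.d (nat_lit 494) (nat_lit 493) (nat_lit 3565) (nat_lit 495) (nat_lit 3566)))) (.f (nat_lit 562) (nat_lit 563) (nat_lit 527) (.f (nat_lit 526) (nat_lit 561) (nat_lit 526) (.d (nat_lit 558) (nat_lit 557) (nat_lit 1549) (nat_lit 559) (nat_lit 1550))))))))))))))) (.a (.p (nat_lit 527) (.a (.p (nat_lit 530) (.a (.f (nat_lit 498) (nat_lit 499) (nat_lit 2543) (.f (nat_lit 562) (nat_lit 563) (nat_lit 527) (.d (nat_lit 526) (nat_lit 497) (nat_lit 2542) (nat_lit 561) (nat_lit 526)))) (.f (nat_lit 559) (nat_lit 558) (nat_lit 1550) (.f (nat_lit 560) (nat_lit 531) (nat_lit 1551) (.d (nat_lit 495) (nat_lit 463) (nat_lit 4559) (nat_lit 494) (nat_lit 3566)))))) (.a (.p (nat_lit 530) (.a (.f (nat_lit 562) (nat_lit 563) (nat_lit 527) (.f (nat_lit 498) (nat_lit 499) (nat_lit 2543) (.f (nat_lit 561) (nat_lit 526) (nat_lit 526) (.d (nat_lit 466) (nat_lit 434) (nat_lit 5553) (nat_lit 593) (nat_lit 5585))))) (.a (.f (nat_lit 499) (nat_lit 498) (nat_lit 2543) (.f (nat_lit 531) (nat_lit 500) (nat_lit 2544) (.d (nat_lit 563) (nat_lit 562) (nat_lit 527) (nat_lit 564) (nat_lit 528)))) (.f (nat_lit 494) (nat_lit 495) (nat_lit 3566) (.f (nat_lit 526) (nat_lit 493) (nat_lit 3565) (.d (nat_lit 558) (nat_lit 557) (nat_lit 1549) (nat_lit 559) (nat_lit 1550))))))) (.a (.p (nat_lit 530) (.a (.f (nat_lit 559) (nat_lit 558) (nat_lit 1550) (.f (nat_lit 560) (nat_lit 531) (nat_lit 1551) (.d (nat_lit 495) (nat_lit 463) (nat_lit 4559) (nat_lit 494) (nat_lit 3566)))) (.a (.f (nat_lit 499) (nat_lit 498) (nat_lit 2543) (.f (nat_lit 531) (nat_lit 500) (nat_lit 2544) (.d (nat_lit 563) (nat_lit 562) (nat_lit 527) (nat_lit 564) (nat_lit 528)))) (.f (nat_lit 495) (nat_lit 494) (nat_lit 3566) (.f (nat_lit 560) (nat_lit 624) (nat_lit 7663) (.d (nat_lit 463) (nat_lit 431) (nat_lit 4527) (nat_lit 559) (nat_lit 4559))))))) (.a (.p (nat_lit 526) (.a (.f (nat_lit 561) (nat_lit 562) (nat_lit 526) (.f (nat_lit 560) (nat_lit 525) (nat_lit 525) (.d (nat_lit 497) (nat_lit 465) (nat_lit 5584) (nat_lit 498) (nat_lit 2542)))) (.a (.f (nat_lit 493) (nat_lit 494) (nat_lit 3565) (.f (nat_lit 525) (nat_lit 492) (nat_lit 3564) (.d (nat_lit 557) (nat_lit 556) (nat_lit 1548) (nat_lit 558) (nat_lit 1549)))) (.f (nat_lit 497) (nat_lit 498) (nat_lit 2542) (.f (nat_lit 560) (nat_lit 624) (nat_lit 6640) (.d (nat_lit 465) (nat_lit 433) (nat_lit 5552) (nat_lit 561) (nat_lit 5584))))))) (.a (.p (nat_lit 530) (.a (.f (nat_lit 559) (nat_lit 558) (nat_lit 1550) (.f (nat_lit 560) (nat_lit 531) (nat_lit 1551) (.d (nat_lit 495) (nat_lit 463) (nat_lit 4559) (nat_lit 494) (nat_lit 3566)))) (.a (.f (nat_lit 498) (nat_lit 499) (nat_lit 2543) (.f (nat_lit 526) (nat_lit 497) (nat_lit 2542) (.d (nat_lit 494) (nat_lit 493) (nat_lit 3565) (nat_lit 495) (nat_lit 3566)))) (.f (nat_lit 559) (nat_lit 558) (nat_lit 1550) (.f (nat_lit 560) (nat_lit 531) (nat_lit 1551) (.d (nat_lit 624) (nat_lit 497) (nat_lit 6640) (nat_lit 656) (nat_lit 7695))))))) (.a s18110 (.a s18102 (.p (nat_lit 530) (.a (.f (nat_lit 559) (nat_lit 558) (nat_lit 1550) (.f (nat_lit 560) (nat_lit 531) (nat_lit 1551) (.d (nat_lit 495) (nat_lit 463) (nat_lit 4559) (nat_lit 494) (nat_lit 3566)))) (.a (.f (nat_lit 562) (nat_lit 563) (nat_lit 527) (.f (nat_lit 526) (nat_lit 561) (nat_lit 526) (.d (nat_lit 494) (nat_lit 493) (nat_lit 3565) (nat_lit 495) (nat_lit 3566)))) (.f (nat_lit 559) (nat_lit 558) (nat_lit 1550) (.f (nat_lit 560) (nat_lit 531) (nat_lit 1551) (.d (nat_lit 624) (nat_lit 497) (nat_lit 6640) (nat_lit 656) (nat_lit 7695))))))))))))))) (.a s18114 (.a s14508 (.a s14616 (.a s16683 (.a (.p (nat_lit 527) (.a s14394 (.a (.p (nat_lit 526) (.a (.f (nat_lit 497) (nat_lit 498) (nat_lit 2542) (.f (nat_lit 525) (nat_lit 496) (nat_lit 2541) (.d (nat_lit 493) (nat_lit 492) (nat_lit 3564) (nat_lit 494) (nat_lit 3565)))) (.a (.f (nat_lit 493) (nat_lit 494) (nat_lit 3565) (.f (nat_lit 525) (nat_lit 492) (nat_lit 3564) (.d (nat_lit 557) (nat_lit 556) (nat_lit 1548) (nat_lit 558) (nat_lit 1549)))) (.f (nat_lit 497) (nat_lit 498) (nat_lit 2542) (.f (nat_lit 561) (nat_lit 562) (nat_lit 526) (.f (nat_lit 593) (nat_lit 624) (nat_lit 5616) (.d (nat_lit 496) (nat_lit 464) (nat_lit 7632) (nat_lit 625) (nat_lit 7664)))))))) (.a (.p (nat_lit 526) (.a (.f (nat_lit 561) (nat_lit 562) (nat_lit 526) (.f (nat_lit 560) (nat_lit 525) (nat_lit 525) (.d (nat_lit 497) (nat_lit 465) (nat_lit 5584) (nat_lit 498) (nat_lit 2542)))) (.a (.f (nat_lit 493) (nat_lit 494) (nat_lit 3565) (.f (nat_lit 525) (nat_lit 492) (nat_lit 3564) (.d (nat_lit 557) (nat_lit 556) (nat_lit 1548) (nat_lit 558) (nat_lit 1549)))) (.f (nat_lit 497) (nat_lit 498) (nat_lit 2542) (.f (nat_lit 560) (nat_lit 624) (nat_lit 6640) (.d (nat_lit 465) (nat_lit 433) (nat_lit 5552) (nat_lit 561) (nat_lit 5584))))))) (.a s14543 (.a (.p (nat_lit 526) (.a (.f (nat_lit 497) (nat_lit 498) (nat_lit 2542) (.f (nat_lit 560) (nat_lit 624) (nat_lit 6640) (.d (nat_lit 465) (nat_lit 433) (nat_lit 5552) (nat_lit 496) (nat_lit 6608)))) (.a (.f (nat_lit 497) (nat_lit 498) (nat_lit 2542) (.f (nat_lit 525) (nat_lit 496) (nat_lit 2541) (.d (nat_lit 493) (nat_lit 492) (nat_lit 3564) (nat_lit 494) (nat_lit 3565)))) (.f (nat_lit 493) (nat_lit 494) (nat_lit 3565) (.f (nat_lit 525) (nat_lit 492) (nat_lit 3564) (.d (nat_lit 557) (nat_lit 556) (nat_lit 1548) (nat_lit 558) (nat_lit 1549))))))) (.a s14601 (.a s18102 (.a (.p (nat_lit 530) (.a (.f (nat_lit 498) (nat_lit 499) (nat_lit 2543) (.f (nat_lit 562) (nat_lit 563) (nat_lit 527) (.d (nat_lit 526) (nat_lit 497) (nat_lit 2542) (nat_lit 561) (nat_lit 526)))) (.a (.f (nat_lit 562) (nat_lit 563) (nat_lit 527) (.f (nat_lit 498) (nat_lit 499) (nat_lit 2543) (.f (nat_lit 561) (nat_lit 526) (nat_lit 526) (.d (nat_lit 466) (nat_lit 434) (nat_lit 5553) (nat_lit 593) (nat_lit 5585))))) (.a (.f (nat_lit 499) (nat_lit 498) (nat_lit 2543) (.f (nat_lit 531) (nat_lit 500) (nat_lit 2544) (.d (nat_lit 563) (nat_lit 562) (nat_lit 527) (nat_lit 564) (nat_lit 528)))) (.a (.f (nat_lit 498) (nat_lit 499) (nat_lit 2543) (.f (nat_lit 497) (nat_lit 526) (nat_lit 2542) (.f (nat_lit 560) (nat_lit 624) (nat_lit 6640) (.d (nat_lit 465) (nat_lit 433) (nat_lit 5552) (nat_lit 496) (nat_lit 6608))))) (.f (nat_lit 562) (nat_lit 563) (nat_lit 527) (.f (nat_lit 526) (nat_lit 561) (nat_lit 526) (.f (nat_lit 493) (nat_lit 494) (nat_lit 3565) (.f (nat_lit 525) (nat_lit 492) (nat_lit 3564) (.f (nat_lit 497) (nat_lit 496) (nat_lit 2541) (.f (nat_lit 560) (nat_lit 624) (nat_lit 6640) (.d (nat_lit 559) (nat_lit 524) (nat_lit 524) (nat_lit 531) (nat_lit 1551))))))))))))) s14610))))))))) (.a (.p (nat_lit 527) (.a (.p (nat_lit 530) (.a (.f (nat_lit 498) (nat_lit 499) (nat_lit 2543) (.f (nat_lit 562) (nat_lit 563) (nat_lit 527) (.d (nat_lit 526) (nat_lit 497) (nat_lit 2542) (nat_lit 561) (nat_lit 526)))) (.f (nat_lit 559) (nat_lit 558) (nat_lit 1550) (.f (nat_lit 560) (nat_lit 531) (nat_lit 1551) (.d (nat_lit 495) (nat_lit 463) (nat_lit 4559) (nat_lit 494) (nat_lit 3566)))))) (.a (.p (nat_lit 530) (.a (.f (nat_lit 562) (nat_lit 563) (nat_lit 527) (.f (nat_lit 498) (nat_lit 499) (nat_lit 2543) (.f (nat_lit 561) (nat_lit 526) (nat_lit 526) (.d (nat_lit 466) (nat_lit 434) (nat_lit 5553) (nat_lit 593) (nat_lit 5585))))) (.a (.f (nat_lit 499) (nat_lit 498) (nat_lit 2543) (.f (nat_lit 531) (nat_lit 500) (nat_lit 2544) (.d (nat_lit 563) (nat_lit 562) (nat_lit 527) (nat_lit 564) (nat_lit 528)))) (.f (nat_lit 494) (nat_lit 495) (nat_lit 3566) (.f (nat_lit 526) (nat_lit 493) (nat_lit 3565) (.d (nat_lit 558) (nat_lit 557) (nat_lit 1549) (nat_lit 559) (nat_lit 1550))))))) (.a (.p (nat_lit 530) (.a (.f (nat_lit 559) (nat_lit 558) (nat_lit 1550) (.f (nat_lit 560) (nat_lit 531) (nat_lit 1551) (.d (nat_lit 495) (nat_lit 463) (nat_lit 4559) (nat_lit 494) (nat_lit 3566)))) (.a (.f (nat_lit 498) (nat_lit 499) (nat_lit 2543) (.f (nat_lit 526) (nat_lit 497) (nat_lit 2542) (.d (nat_lit 494) (nat_lit 493) (nat_lit 3565) (nat_lit 495) (nat_lit 3566)))) (.f (nat_lit 498) (nat_lit 499) (nat_lit 2543) (.f (nat_lit 526) (nat_lit 497) (nat_lit 2542) (.d (nat_lit 558) (nat_lit 557) (nat_lit 1549) (nat_lit 559) (nat_lit 1550))))))) (.a s14625 (.a s14634 (.a s18102 (.a s18090 s14635)))))))) s18118)))))))))) (.a s18436 (.a (.p (nat_lit 592) (.a s14616 (.a (.p (nat_lit 527) (.a (.p (nat_lit 526) (.a (.f (nat_lit 497) (nat_lit 498) (nat_lit 2542) (.f (nat_lit 525) (nat_lit 496) (nat_lit 2541) (.d (nat_lit 493) (nat_lit 492) (nat_lit 3564) (nat_lit 494) (nat_lit 3565)))) (.a (.f (nat_lit 493) (nat_lit 494) (nat_lit 3565) (.f (nat_lit 525) (nat_lit 492) (nat_lit 3564) (.d (nat_lit 557) (nat_lit 556) (nat_lit 1548) (nat_lit 558) (nat_lit 1549)))) (.f (nat_lit 497) (nat_lit 498) (nat_lit 2542) (.f (nat_lit 561) (nat_lit 562) (nat_lit 526) (.f (nat_lit 593) (nat_lit 624) (nat_lit 5616) (.d (nat_lit 496) (nat_lit 464) (nat_lit 7632) (nat_lit 625) (nat_lit 7664)))))))) (.a s16101 (.a s18482 (.a (.p (nat_lit 530) (.a (.f (nat_lit 495) (nat_lit 494) (nat_lit 3566) (.f (nat_lit 559) (nat_lit 558) (nat_lit 1550) (.f (nat_lit 591) (nat_lit 624) (nat_lit 4591) (.d (nat_lit 496) (nat_lit 464) (nat_lit 6607) (nat_lit 531) (nat_lit 3567))))) (.a (.f (nat_lit 498) (nat_lit 499) (nat_lit 2543) (.f (nat_lit 526) (nat_lit 497) (nat_lit 2542) (.d (nat_lit 494) (nat_lit 493) (nat_lit 3565) (nat_lit 495) (nat_lit 3566)))) (.f (nat_lit 498) (nat_lit 499) (nat_lit 2543) (.f (nat_lit 526) (nat_lit 497) (nat_lit 2542) (.d (nat_lit 558) (nat_lit 557) (nat_lit 1549) (nat_lit 559) (nat_lit 1550))))))) (.a (.p (nat_lit 559) (.a s18126 (.a (.f (nat_lit 530) (nat_lit 558) (nat_lit 1550) (.f (nat_lit 495) (nat_lit 494) (nat_lit 3566) (.f (nat_lit 591) (nat_lit 624) (nat_lit 4591) (.f (nat_lit 622) (nat_lit 590) (nat_lit 5614) (.f (nat_lit 623) (nat_lit 654) (nat_lit 5646) (.f (nat_lit 498) (nat_lit 499) (nat_lit 2543) (.f (nat_lit 593) (nat_lit 594) (nat_lit 1614) (.f (nat_lit 561) (nat_lit 625) (nat_lit 6641) (.d (nat_lit 466) (nat_lit 434) (nat_lit 5553) (nat_lit 497) (nat_lit 6609)))))))))) (.a (.f (nat_lit 530) (nat_lit 558) (nat_lit 1550) (.f (nat_lit 495) (nat_lit 494) (nat_lit 3566) (.f (nat_lit 591) (nat_lit 624) (nat_lit 4591) (.d (nat_lit 496) (nat_lit 464) (nat_lit 6607) (nat_lit 531) (nat_lit 3567))))) (.a s18491 (.a (.f (nat_lit 530) (nat_lit 558) (nat_lit 1550) (.f (nat_lit 495) (nat_lit 494) (nat_lit 3566) (.f (nat_lit 531) (nat_lit 496) (nat_lit 3567) (.d (nat_lit 499) (nat_lit 498) (nat_lit 2543) (nat_lit 500) (nat_lit 2544))))) s18496)))))) (.a s18504 (.a (.p (nat_lit 561) (.a (.f (nat_lit 526) (nat_lit 562) (nat_lit 526) (.f (nat_lit 497) (nat_lit 498) (nat_lit 2542) (.f (nat_lit 593) (nat_lit 624) (nat_lit 5616) (.d (nat_lit 496) (nat_lit 464) (nat_lit 7632) (nat_lit 525) (nat_lit 2541))))) (.a (.f (nat_lit 526) (nat_lit 562) (nat_lit 526) (.f (nat_lit 497) (nat_lit 498) (nat_lit 2542) (.f (nat_lit 593) (nat_lit 624) (nat_lit 5616) (.f (nat_lit 626) (nat_lit 594) (nat_lit 4593) (.f (nat_lit 625) (nat_lit 658) (nat_lit 4625) (.f (nat_lit 494) (nat_lit 493) (nat_lit 3565) (.f (nat_lit 591) (nat_lit 590) (nat_lit 590) (.f (nat_lit 559) (nat_lit 623) (nat_lit 7662) (.d (nat_lit 462) (nat_lit 430) (nat_lit 4526) (nat_lit 495) (nat_lit 7630)))))))))) (.a (.p (nat_lit 530) (.a (.f (nat_lit 498) (nat_lit 499) (nat_lit 2543) (.f (nat_lit 593) (nat_lit 625) (nat_lit 6641) (.d (nat_lit 466) (nat_lit 434) (nat_lit 5553) (nat_lit 562) (nat_lit 5585)))) (.a (.f (nat_lit 495) (nat_lit 494) (nat_lit 3566) (.f (nat_lit 531) (nat_lit 496) (nat_lit 3567) (.d (nat_lit 499) (nat_lit 498) (nat_lit 2543) (nat_lit 500) (nat_lit 2544)))) (.f (nat_lit 495) (nat_lit 494) (nat_lit 3566) (.f (nat_lit 496) (nat_lit 531) (nat_lit 3567) (.f (nat_lit 593) (nat_lit 625) (nat_lit 7664) (.f (nat_lit 562) (nat_lit 526) (nat_lit 526) (.f (nat_lit 591) (nat_lit 590) (nat_lit 2606) (.d (nat_lit 559) (nat_lit 464) (nat_lit 6607) (nat_lit 623) (nat_lit 6639)))))))))) (.a s16481 (.a (.f (nat_lit 526) (nat_lit 562) (nat_lit 526) (.f (nat_lit 497) (nat_lit 498) (nat_lit 2542) (.f (nat_lit 525) (nat_lit 496) (nat_lit 2541) (.d (nat_lit 493) (nat_lit 492) (nat_lit 3564) (nat_lit 494) (nat_lit 3565))))) (.f (nat_lit 526) (nat_lit 562) (nat_lit 526) (.f (nat_lit 493) (nat_lit 494) (nat_lit 3565) (.f (nat_lit 525) (nat_lit 492) (nat_lit 3564) (.f (nat_lit 496) (nat_lit 497) (nat_lit 2541) (.f (nat_lit 524) (nat_lit 495) (nat_lit 2540) (.d (nat_lit 556) (nat_lit 555) (nat_lit 1547) (nat_lit 557) (nat_lit 1548))))))))))))) (.a s18172 (.a s18546 s18559)))))))))) (.a (.p (nat_lit 527) (.a (.p (nat_lit 526) (.a (.f (nat_lit 561) (nat_lit 562) (nat_lit 526) (.f (nat_lit 560) (nat_lit 525) (nat_lit 525) (.d (nat_lit 497) (nat_lit 465) (nat_lit 5584) (nat_lit 498) (nat_lit 2542)))) (.a (.f (nat_lit 493) (nat_lit 494) (nat_lit 3565) (.f (nat_lit 525) (nat_lit 492) (nat_lit 3564) (.d (nat_lit 557) (nat_lit 556) (nat_lit 1548) (nat_lit 558) (nat_lit 1549)))) (.f (nat_lit 497) (nat_lit 498) (nat_lit 2542) (.f (nat_lit 560) (nat_lit 624) (nat_lit 6640) (.d (nat_lit 465) (nat_lit 433) (nat_lit 5552) (nat_lit 561) (nat_lit 5584))))))) (.a s16101 (.a s17610 (.a (.p (nat_lit 530) (.a (.f (nat_lit 559) (nat_lit 558) (nat_lit 1550) (.f (nat_lit 560) (nat_lit 531) (nat_lit 1551) (.d (nat_lit 495) (nat_lit 463) (nat_lit 4559) (nat_lit 494) (nat_lit 3566)))) (.a (.f (nat_lit 498) (nat_lit 499) (nat_lit 2543) (.f (nat_lit 526) (nat_lit 497) (nat_lit 2542) (.d (nat_lit 494) (nat_lit 493) (nat_lit 3565) (nat_lit 495) (nat_lit 3566)))) (.f (nat_lit 559) (nat_lit 558) (nat_lit 1550) (.f (nat_lit 560) (nat_lit 531) (nat_lit 1551) (.d (nat_lit 624) (nat_lit 497) (nat_lit 6640) (nat_lit 656) (nat_lit 7695))))))) (.a (.p (nat_lit 530) (.a (.f (nat_lit 559) (nat_lit 558) (nat_lit 1550) (.f (nat_lit 560) (nat_lit 531) (nat_lit 1551) (.d (nat_lit 495) (nat_lit 463) (nat_lit 4559) (nat_lit 494) (nat_lit 3566)))) (.a (.f (nat_lit 498) (nat_lit 499) (nat_lit 2543) (.f (nat_lit 495) (nat_lit 494) (nat_lit 3566) (.f (nat_lit 559) (nat_lit 558) (nat_lit 1550) (.f (nat_lit 591) (nat_lit 624) (nat_lit 4591) (.f (nat_lit 622) (nat_lit 590) (nat_lit 5614) (.f (nat_lit 623) (nat_lit 654) (nat_lit 5646) (.f (nat_lit 593) (nat_lit 594) (nat_lit 1614) (.f (nat_lit 561) (nat_lit 625) (nat_lit 6641) (.d (nat_lit 466) (nat_lit 434) (nat_lit 5553) (nat_lit 497) (nat_lit 6609)))))))))) (.a (.p (nat_lit 561) (.a (.f (nat_lit 498) (nat_lit 499) (nat_lit 2543) (.f (nat_lit 593) (nat_lit 625) (nat_lit 6641) (.d (nat_lit 466) (nat_lit 434) (nat_lit 5553) (nat_lit 497) (nat_lit 6609)))) (.a (.f (nat_lit 498) (nat_lit 499) (nat_lit 2543) (.f (nat_lit 593) (nat_lit 625) (nat_lit 6641) (.d (nat_lit 466) (nat_lit 434) (nat_lit 5553) (nat_lit 562) (nat_lit 5585)))) (.a (.f (nat_lit 495) (nat_lit 494) (nat_lit 3566) (.f (nat_lit 560) (nat_lit 624) (nat_lit 7663) (.f (nat_lit 499) (nat_lit 498) (nat_lit 2543) (.d (nat_lit 531) (nat_lit 500) (nat_lit 2544) (nat_lit 532) (nat_lit 1552))))) (.f (nat_lit 495) (nat_lit 494) (nat_lit 3566) (.f (nat_lit 624) (nat_lit 560) (nat_lit 7663) (.f (nat_lit 593) (nat_lit 497) (nat_lit 5616) (.d (nat_lit 656) (nat_lit 625) (nat_lit 5648) (nat_lit 688) (nat_lit 6704))))))))) (.f (nat_lit 559) (nat_lit 558) (nat_lit 1550) (.f (nat_lit 560) (nat_lit 531) (nat_lit 1551) (.d (nat_lit 624) (nat_lit 497) (nat_lit 6640) (nat_lit 656) (nat_lit 7695)))))))) (.a (.p (nat_lit 530) (.a (.f (nat_lit 559) (nat_lit 558) (nat_lit 1550) (.f (nat_lit 560) (nat_lit 531) (nat_lit 1551) (.d (nat_lit 495) (nat_lit 463) (nat_lit 4559) (nat_lit 494) (nat_lit 3566)))) (.a (.f (nat_lit 498) (nat_lit 499) (nat_lit 2543) (.f (nat_lit 526) (nat_lit 497) (nat_lit 2542) (.d (nat_lit 494) (nat_lit 493) (nat_lit 3565) (nat_lit 495) (nat_lit 3566)))) (.f (nat_lit 498) (nat_lit 499) (nat_lit 2543) (.f (nat_lit 526) (nat_lit 497) (nat_lit 2542) (.d (nat_lit 558) (nat_lit 557) (nat_lit 1549) (nat_lit 559) (nat_lit 1550))))))) (.a s18072 s17657)))))))) (.a s18114 (.a (.p (nat_lit 527) (.a s14612 (.a s18482 (.a s17610 (.a s17075 (.a s18576 (.a s17950 (.a s18053 (.a (.p (nat_lit 530) (.a (.f (nat_lit 495) (nat_lit 494) (nat_lit 3566) (.f (nat_lit 560) (nat_lit 624) (nat_lit 7663) (.d (nat_lit 463) (nat_lit 431) (nat_lit 4527) (nat_lit 496) (nat_lit 7631)))) (.a (.f (nat_lit 495) (nat_lit 494) (nat_lit 3566) (.f (nat_lit 531) (nat_lit 496) (nat_lit 3567) (.d (nat_lit 499) (nat_lit 498) (nat_lit 2543) (nat_lit 500) (nat_lit 2544)))) (.a (.f (nat_lit 495) (nat_lit 494) (nat_lit 3566) (.f (nat_lit 560) (nat_lit 624) (nat_lit 7663) (.d (nat_lit 463) (nat_lit 431) (nat_lit 4527) (nat_lit 559) (nat_lit 4559)))) (.f (nat_lit 499) (nat_lit 498) (nat_lit 2543) (.f (nat_lit 531) (nat_lit 500) (nat_lit 2544) (.f (nat_lit 560) (nat_lit 559) (nat_lit 1551) (.f (nat_lit 561) (nat_lit 532) (nat_lit 1552) (.d (nat_lit 526) (nat_lit 525) (nat_lit 525) (nat_lit 562) (nat_lit 526)))))))))) s18432))))))))) (.a s16680 (.a (.p (nat_lit 560) (.a (.f (nat_lit 624) (nat_lit 497) (nat_lit 6640) (.f (nat_lit 656) (nat_lit 561) (nat_lit 6672) (.d (nat_lit 655) (nat_lit 623) (nat_lit 5647) (nat_lit 687) (nat_lit 5679)))) (.a s16723 (.a (.f (nat_lit 624) (nat_lit 497) (nat_lit 6640) (.f (nat_lit 623) (nat_lit 655) (nat_lit 5647) (.f (nat_lit 625) (nat_lit 657) (nat_lit 4624) (.d (nat_lit 496) (nat_lit 591) (nat_lit 5615) (nat_lit 593) (nat_lit 4592))))) (.p (nat_lit 496) (.a (.f (nat_lit 593) (nat_lit 625) (nat_lit 4592) (.f (nat_lit 464) (nat_lit 561) (nat_lit 4560) (.d (nat_lit 463) (nat_lit 431) (nat_lit 7599) (nat_lit 495) (nat_lit 7631)))) (.a (.f (nat_lit 497) (nat_lit 465) (nat_lit 6608) (.f (nat_lit 495) (nat_lit 463) (nat_lit 7631) (.d (nat_lit 494) (nat_lit 493) (nat_lit 493) (nat_lit 530) (nat_lit 494)))) (.f (nat_lit 497) (nat_lit 465) (nat_lit 6608) (.f (nat_lit 593) (nat_lit 625) (nat_lit 4592) (.f (nat_lit 561) (nat_lit 464) (nat_lit 4560) (.f (nat_lit 498) (nat_lit 466) (nat_lit 6609) (.d (nat_lit 499) (nat_lit 500) (nat_lit 1520) (nat_lit 527) (nat_lit 1519))))))))))))) (.a s18589 (.a s16727 (.a s18590 (.a (.p (nat_lit 527) (.a s14381 (.a (.p (nat_lit 530) (.a (.f (nat_lit 495) (nat_lit 494) (nat_lit 3566) (.f (nat_lit 559) (nat_lit 558) (nat_lit 1550) (.f (nat_lit 591) (nat_lit 624) (nat_lit 4591) (.d (nat_lit 496) (nat_lit 464) (nat_lit 6607) (nat_lit 531) (nat_lit 3567))))) (.a (.f (nat_lit 498) (nat_lit 499) (nat_lit 2543) (.f (nat_lit 526) (nat_lit 497) (nat_lit 2542) (.d (nat_lit 494) (nat_lit 493) (nat_lit 3565) (nat_lit 495) (nat_lit 3566)))) (.f (nat_lit 498) (nat_lit 499) (nat_lit 2543) (.f (nat_lit 526) (nat_lit 497) (nat_lit 2542) (.d (nat_lit 558) (nat_lit 557) (nat_lit 1549) (nat_lit 559) (nat_lit 1550))))))) (.a (.p (nat_lit 526) (.a (.f (nat_lit 561) (nat_lit 562) (nat_lit 526) (.f (nat_lit 560) (nat_lit 525) (nat_lit 525) (.d (nat_lit 497) (nat_lit 465) (nat_lit 5584) (nat_lit 498) (nat_lit 2542)))) (.a (.f (nat_lit 493) (nat_lit 494) (nat_lit 3565) (.f (nat_lit 525) (nat_lit 492) (nat_lit 3564) (.d (nat_lit 557) (nat_lit 556) (nat_lit 1548) (nat_lit 558) (nat_lit 1549)))) (.f (nat_lit 497) (nat_lit 498) (nat_lit 2542) (.f (nat_lit 560) (nat_lit 624) (nat_lit 6640) (.d (nat_lit 465) (nat_lit 433) (nat_lit 5552) (nat_lit 561) (nat_lit 5584))))))) (.a s18053 (.a s14393 s17657)))))) (.a s18433 (.a s17060 (.p (nat_lit 527) (.a s14381 (.a (.p (nat_lit 530) (.a (.f (nat_lit 495) (nat_lit 494) (nat_lit 3566) (.f (nat_lit 559) (nat_lit 558) (nat_lit 1550) (.f (nat_lit 591) (nat_lit 624) (nat_lit 4591) (.d (nat_lit 496) (nat_lit 464) (nat_lit 6607) (nat_lit 531) (nat_lit 3567))))) (.a (.f (nat_lit 498) (nat_lit 499) (nat_lit 2543) (.f (nat_lit 526) (nat_lit 497) (nat_lit 2542) (.d (nat_lit 558) (nat_lit 557) (nat_lit 1549) (nat_lit 559) (nat_lit 1550)))) (.f (nat_lit 495) (nat_lit 494) (nat_lit 3566) (.f (nat_lit 531) (nat_lit 496) (nat_lit 3567) (.d (nat_lit 499) (nat_lit 498) (nat_lit 2543) (nat_lit 500) (nat_lit 2544))))))) (.a s17657 (.a s14612 (.a s14644 (.a s14615 s18053))))))))))))))))))))) (.a (.p (nat_lit 592) (.a s14479 (.a s18649 (.a (.p (nat_lit 530) (.a (.p (nat_lit 560) (.a (.f (nat_lit 531) (nat_lit 559) (nat_lit 1551) (.f (nat_lit 500) (nat_lit 499) (nat_lit 2544) (.f (nat_lit 532) (nat_lit 501) (nat_lit 2545) (.d (nat_lit 564) (nat_lit 563) (nat_lit 528) (nat_lit 565) (nat_lit 529))))) (.f (nat_lit 624) (nat_lit 497) (nat_lit 6640) (.f (nat_lit 655) (nat_lit 623) (nat_lit 5647) (.f (nat_lit 656) (nat_lit 687) (nat_lit 5679) (.d (nat_lit 657) (nat_lit 625) (nat_lit 4624) (nat_lit 689) (nat_lit 4656))))))) (.a (.p (nat_lit 527) (.a (.f (nat_lit 562) (nat_lit 563) (nat_lit 527) (.f (nat_lit 526) (nat_lit 561) (nat_lit 526) (.d (nat_lit 494) (nat_lit 493) (nat_lit 3565) (nat_lit 495) (nat_lit 3566)))) (.a (.f (nat_lit 494) (nat_lit 495) (nat_lit 3566) (.f (nat_lit 526) (nat_lit 493) (nat_lit 3565) (.d (nat_lit 558) (nat_lit 557) (nat_lit 1549) (nat_lit 559) (nat_lit 1550)))) (.a (.f (nat_lit 562) (nat_lit 563) (nat_lit 527) (.f (nat_lit 495) (nat_lit 494) (nat_lit 3566) (.f (nat_lit 559) (nat_lit 558) (nat_lit 1550) (.f (nat_lit 591) (nat_lit 624) (nat_lit 4591) (.f (nat_lit 590) (nat_lit 622) (nat_lit 5614) (.f (nat_lit 593) (nat_lit 561) (nat_lit 2606) (.f (nat_lit 626) (nat_lit 625) (nat_lit 590) (.d (nat_lit 594) (nat_lit 497) (nat_lit 7665) (nat_lit 627) (nat_lit 591))))))))) (.f (nat_lit 562) (nat_lit 563) (nat_lit 527) (.f (nat_lit 526) (nat_lit 561) (nat_lit 526) (.d (nat_lit 558) (nat_lit 557) (nat_lit 1549) (nat_lit 559) (nat_lit 1550)))))))) (.a (.p (nat_lit 527) (.a (.f (nat_lit 559) (nat_lit 558) (nat_lit 1550) (.f (nat_lit 560) (nat_lit 531) (nat_lit 1551) (.d (nat_lit 495) (nat_lit 463) (nat_lit 4559) (nat_lit 494) (nat_lit 3566)))) (.a (.f (nat_lit 562) (nat_lit 563) (nat_lit 527) (.f (nat_lit 526) (nat_lit 561) (nat_lit 526) (.d (nat_lit 494) (nat_lit 493) (nat_lit 3565) (nat_lit 495) (nat_lit 3566)))) (.f (nat_lit 562) (nat_lit 563) (nat_lit 527) (.f (nat_lit 526) (nat_lit 561) (nat_lit 526) (.d (nat_lit 558) (nat_lit 557) (nat_lit 1549) (nat_lit 559) (nat_lit 1550))))))) (.a (.p (nat_lit 531) (.a (.f (nat_lit 564) (nat_lit 563) (nat_lit 528) (.f (nat_lit 532) (nat_lit 565) (nat_lit 529) (.d (nat_lit 500) (nat_lit 499) (nat_lit 2544) (nat_lit 501) (nat_lit 2545)))) (.a (.f (nat_lit 500) (nat_lit 499) (nat_lit 2544) (.f (nat_lit 532) (nat_lit 501) (nat_lit 2545) (.f (nat_lit 560) (nat_lit 561) (nat_lit 1552) (.f (nat_lit 624) (nat_lit 497) (nat_lit 6640) (.f (nat_lit 655) (nat_lit 623) (nat_lit 5647) (.f (nat_lit 656) (nat_lit 687) (nat_lit 5679) (.d (nat_lit 657) (nat_lit 625) (nat_lit 4624) (nat_lit 689) (nat_lit 4656)))))))) (.a (.f (nat_lit 563) (nat_lit 564) (nat_lit 528) (.f (nat_lit 562) (nat_lit 527) (nat_lit 527) (.f (nat_lit 499) (nat_lit 500) (nat_lit 2544) (.d (nat_lit 467) (nat_lit 435) (nat_lit 5554) (nat_lit 594) (nat_lit 5586))))) (.f (nat_lit 563) (nat_lit 564) (nat_lit 528) (.f (nat_lit 527) (nat_lit 562) (nat_lit 527) (.f (nat_lit 494) (nat_lit 495) (nat_lit 3566) (.f (nat_lit 526) (nat_lit 493) (nat_lit 3565) (.f (nat_lit 557) (nat_lit 558) (nat_lit 1549) (.f (nat_lit 525) (nat_lit 556) (nat_lit 1548) (.f (nat_lit 560) (nat_lit 561) (nat_lit 525) (.f (nat_lit 624) (nat_lit 497) (nat_lit 6640) (.f (nat_lit 655) (nat_lit 623) (nat_lit 5647) (.f (nat_lit 656) (nat_lit 687) (nat_lit 5679) (.d (nat_lit 657) (nat_lit 625) (nat_lit 4624) (nat_lit 689) (nat_lit 4656)))))))))))))))) (.p (nat_lit 527) (.a (.f (nat_lit 559) (nat_lit 558) (nat_lit 1550) (.f (nat_lit 560) (nat_lit 531) (nat_lit 1551) (.d (nat_lit 495) (nat_lit 463) (nat_lit 4559) (nat_lit 494) (nat_lit 3566)))) (.a (.f (nat_lit 494) (nat_lit 495) (nat_lit 3566) (.f (nat_lit 526) (nat_lit 493) (nat_lit 3565) (.d (nat_lit 558) (nat_lit 557) (nat_lit 1549) (nat_lit 559) (nat_lit 1550)))) (.a (.f (nat_lit 494) (nat_lit 495) (nat_lit 3566) (.f (nat_lit 526) (nat_lit 493) (nat_lit 3565) (.f (nat_lit 557) (nat_lit 558) (nat_lit 1549) (.f (nat_lit 525) (nat_lit 556) (nat_lit 1548) (.d (nat_lit 561) (nat_lit 560) (nat_lit 525) (nat_lit 562) (nat_lit 526)))))) (.a (.f (nat_lit 559) (nat_lit 558) (nat_lit 1550) (.f (nat_lit 560) (nat_lit 531) (nat_lit 1551) (.d (nat_lit 624) (nat_lit 497) (nat_lit 6640) (nat_lit 656) (nat_lit 7695)))) (.f (nat_lit 495) (nat_lit 494) (nat_lit 3566) (.f (nat_lit 560) (nat_lit 624) (nat_lit 7663) (.d (nat_lit 463) (nat_lit 431) (nat_lit 4527) (nat_lit 559) (nat_lit 4559)))))))))))))) (.a s16663 (.a s18695 (.a s18697 (.a s18699 (.a (.p (nat_lit 593) (.a s15907 (.a s15915 (.a s15079 (.a s15236 (.a s16716 (.a s15924 (.a (.p (nat_lit 560) (.a (.f (nat_lit 497) (nat_lit 624) (nat_lit 6640) (.d (nat_lit 465) (nat_lit 433) (nat_lit 5552) (nat_lit 496) (nat_lit 6608))) (.a (.f (nat_lit 624) (nat_lit 497) (nat_lit 6640) (.f (nat_lit 623) (nat_lit 655) (nat_lit 5647) (.f (nat_lit 594) (nat_lit 595) (nat_lit 1615) (.d (nat_lit 622) (nat_lit 591) (nat_lit 1614) (nat_lit 621) (nat_lit 2637))))) (.a s15278 (.p (nat_lit 561) (.a (.f (nat_lit 497) (nat_lit 465) (nat_lit 5584) (.f (nat_lit 594) (nat_lit 626) (nat_lit 4593) (.d (nat_lit 559) (nat_lit 558) (nat_lit 558) (nat_lit 595) (nat_lit 3631)))) (.f (nat_lit 496) (nat_lit 464) (nat_lit 4560) (.f (nat_lit 591) (nat_lit 623) (nat_lit 5615) (.d (nat_lit 562) (nat_lit 563) (nat_lit 1583) (nat_lit 590) (nat_lit 2606)))))))))) s16717)))))))) (.a s18704 (.a (.p (nat_lit 530) (.a s14496 (.a (.p (nat_lit 527) (.a (.f (nat_lit 562) (nat_lit 563) (nat_lit 527) (.f (nat_lit 526) (nat_lit 561) (nat_lit 526) (.d (nat_lit 494) (nat_lit 493) (nat_lit 3565) (nat_lit 495) (nat_lit 3566)))) (.a (.f (nat_lit 494) (nat_lit 495) (nat_lit 3566) (.f (nat_lit 526) (nat_lit 493) (nat_lit 3565) (.d (nat_lit 558) (nat_lit 557) (nat_lit 1549) (nat_lit 559) (nat_lit 1550)))) (.a (.f (nat_lit 563) (nat_lit 562) (nat_lit 527) (.f (nat_lit 531) (nat_lit 564) (nat_lit 528) (.f (nat_lit 500) (nat_lit 499) (nat_lit 2544) (.f (nat_lit 532) (nat_lit 501) (nat_lit 2545) (.d (nat_lit 496) (nat_lit 495) (nat_lit 3567) (nat_lit 497) (nat_lit 3568)))))) (.f (nat_lit 562) (nat_lit 563) (nat_lit 527) (.f (nat_lit 526) (nat_lit 561) (nat_lit 526) (.d (nat_lit 558) (nat_lit 557) (nat_lit 1549) (nat_lit 559) (nat_lit 1550)))))))) (.a (.p (nat_lit 527) (.a (.f (nat_lit 559) (nat_lit 558) (nat_lit 1550) (.f (nat_lit 560) (nat_lit 531) (nat_lit 1551) (.d (nat_lit 495) (nat_lit 463) (nat_lit 4559) (nat_lit 494) (nat_lit 3566)))) (.a (.f (nat_lit 562) (nat_lit 563) (nat_lit 527) (.f (nat_lit 526) (nat_lit 561) (nat_lit 526) (.d (nat_lit 494) (nat_lit 493) (nat_lit 3565) (nat_lit 495) (nat_lit 3566)))) (.f (nat_lit 562) (nat_lit 563) (nat_lit 527) (.f (nat_lit 526) (nat_lit 561) (nat_lit 526) (.d (nat_lit 558) (nat_lit 557) (nat_lit 1549) (nat_lit 559) (nat_lit 1550))))))) (.a (.p (nat_lit 527) (.a (.f (nat_lit 559) (nat_lit 558) (nat_lit 1550) (.f (nat_lit 560) (nat_lit 531) (nat_lit 1551) (.d (nat_lit 495) (nat_lit 463) (nat_lit 4559) (nat_lit 494) (nat_lit 3566)))) (.a (.f (nat_lit 494) (nat_lit 495) (nat_lit 3566) (.f (nat_lit 526) (nat_lit 493) (nat_lit 3565) (.d (nat_lit 558) (nat_lit 557) (nat_lit 1549) (nat_lit 559) (nat_lit 1550)))) (.a (.f (nat_lit 563) (nat_lit 562) (nat_lit 527) (.f (nat_lit 531) (nat_lit 564) (nat_lit 528) (.f (nat_lit 500) (nat_lit 499) (nat_lit 2544) (.f (nat_lit 532) (nat_lit 501) (nat_lit 2545) (.d (nat_lit 496) (nat_lit 495) (nat_lit 3567) (nat_lit 497) (nat_lit 3568)))))) (.f (nat_lit 559) (nat_lit 558) (nat_lit 1550) (.f (nat_lit 531) (nat_lit 560) (nat_lit 1551) (.d (nat_lit 563) (nat_lit 562) (nat_lit 527) (nat_lit 564) (nat_lit 528)))))))) (.a (.p (nat_lit 527) (.a (.f (nat_lit 562) (nat_lit 563) (nat_lit 527) (.f (nat_lit 526) (nat_lit 561) (nat_lit 526) (.d (nat_lit 494) (nat_lit 493) (nat_lit 3565) (nat_lit 495) (nat_lit 3566)))) (.a (.f (nat_lit 563) (nat_lit 562) (nat_lit 527) (.f (nat_lit 531) (nat_lit 564) (nat_lit 528) (.f (nat_lit 500) (nat_lit 499) (nat_lit 2544) (.f (nat_lit 532) (nat_lit 501) (nat_lit 2545) (.d (nat_lit 496) (nat_lit 495) (nat_lit 3567) (nat_lit 497) (nat_lit 3568)))))) (.a (.f (nat_lit 562) (nat_lit 563) (nat_lit 527) (.f (nat_lit 526) (nat_lit 561) (nat_lit 526) (.f (nat_lit 493) (nat_lit 494) (nat_lit 3565) (.f (nat_lit 525) (nat_lit 492) (nat_lit 3564) (.d (nat_lit 557) (nat_lit 556) (nat_lit 1548) (nat_lit 558) (nat_lit 1549)))))) (.a (.f (nat_lit 495) (nat_lit 494) (nat_lit 3566) (.f (nat_lit 531) (nat_lit 496) (nat_lit 3567) (.f (nat_lit 500) (nat_lit 499) (nat_lit 2544) (.f (nat_lit 532) (nat_lit 501) (nat_lit 2545) (.d (nat_lit 564) (nat_lit 563) (nat_lit 528) (nat_lit 565) (nat_lit 529)))))) (.f (nat_lit 494) (nat_lit 495) (nat_lit 3566) (.f (nat_lit 526) (nat_lit 493) (nat_lit 3565) (.f (nat_lit 557) (nat_lit 558) (nat_lit 1549) (.f (nat_lit 525) (nat_lit 556) (nat_lit 1548) (.d (nat_lit 561) (nat_lit 560) (nat_lit 525) (nat_lit 562) (nat_lit 526))))))))))) (.a (.p (nat_lit 527) (.a (.f (nat_lit 562) (nat_lit 563) (nat_lit 527) (.f (nat_lit 526) (nat_lit 561) (nat_lit 526) (.d (nat_lit 494) (nat_lit 493) (nat_lit 3565) (nat_lit 495) (nat_lit 3566)))) (.a (.f (nat_lit 494) (nat_lit 495) (nat_lit 3566) (.f (nat_lit 526) (nat_lit 493) (nat_lit 3565) (.d (nat_lit 558) (nat_lit 557) (nat_lit 1549) (nat_lit 559) (nat_lit 1550)))) (.a (.f (nat_lit 495) (nat_lit 494) (nat_lit 3566) (.f (nat_lit 559) (nat_lit 558) (nat_lit 1550) (.f (nat_lit 463) (nat_lit 560) (nat_lit 4559) (.f (nat_lit 430) (nat_lit 462) (nat_lit 7598) (.f (nat_lit 431) (nat_lit 398) (nat_lit 7566) (.f (nat_lit 496) (nat_lit 399) (nat_lit 4495) (.d (nat_lit 591) (nat_lit 464) (nat_lit 6607) (nat_lit 623) (nat_lit 6639)))))))) (.f (nat_lit 562) (nat_lit 563) (nat_lit 527) (.f (nat_lit 526) (nat_lit 561) (nat_lit 526) (.d (nat_lit 558) (nat_lit 557) (nat_lit 1549) (nat_lit 559) (nat_lit 1550)))))))) (.a (.p (nat_lit 527) (.a (.f (nat_lit 559) (nat_lit 558) (nat_lit 1550) (.f (nat_lit 560) (nat_lit 531) (nat_lit 1551) (.f (nat_lit 562) (nat_lit 563) (nat_lit 527) (.f (nat_lit 561) (nat_lit 526) (nat_lit 526) (.f (nat_lit 591) (nat_lit 590) (nat_lit 1582) (.d (nat_lit 496) (nat_lit 464) (nat_lit 5583) (nat_lit 623) (nat_lit 5615))))))) (.a (.f (nat_lit 562) (nat_lit 563) (nat_lit 527) (.f (nat_lit 526) (nat_lit 561) (nat_lit 526) (.d (nat_lit 558) (nat_lit 557) (nat_lit 1549) (nat_lit 559) (nat_lit 1550)))) (.a (.f (nat_lit 559) (nat_lit 558) (nat_lit 1550) (.f (nat_lit 531) (nat_lit 560) (nat_lit 1551) (.d (nat_lit 563) (nat_lit 562) (nat_lit 527) (nat_lit 564) (nat_lit 528)))) (.a (.f (nat_lit 562) (nat_lit 563) (nat_lit 527) (.f (nat_lit 526) (nat_lit 561) (nat_lit 526) (.f (nat_lit 493) (nat_lit 494) (nat_lit 3565) (.f (nat_lit 525) (nat_lit 492) (nat_lit 3564) (.d (nat_lit 557) (nat_lit 556) (nat_lit 1548) (nat_lit 558) (nat_lit 1549)))))) (.a (.f (nat_lit 559) (nat_lit 558) (nat_lit 1550) (.f (nat_lit 531) (nat_lit 560) (nat_lit 1551) (.f (nat_lit 500) (nat_lit 499) (nat_lit 2544) (.f (nat_lit 532) (nat_lit 501) (nat_lit 2545) (.d (nat_lit 564) (nat_lit 563) (nat_lit 528) (nat_lit 565) (nat_lit 529)))))) (.a (.f (nat_lit 563) (nat_lit 562) (nat_lit 527) (.f (nat_lit 531) (nat_lit 564) (nat_lit 528) (.f (nat_lit 560) (nat_lit 559) (nat_lit 1551) (.f (nat_lit 532) (nat_lit 561) (nat_lit 1552) (.d (nat_lit 500) (nat_lit 499) (nat_lit 2544) (nat_lit 501) (nat_lit 2545)))))) (.f (nat_lit 558) (nat_lit 559) (nat_lit 1550) (.f (nat_lit 526) (nat_lit 557) (nat_lit 1549) (.f (nat_lit 493) (nat_lit 494) (nat_lit 3565) (.f (nat_lit 525) (nat_lit 492) (nat_lit 3564) (.d (nat_lit 561) (nat_lit 560) (nat_lit 525) (nat_lit 562) (nat_lit 526))))))))))))) (.a s18733 (.p (nat_lit 527) (.a (.f (nat_lit 559) (nat_lit 558) (nat_lit 1550) (.f (nat_lit 560) (nat_lit 531) (nat_lit 1551) (.d (nat_lit 495) (nat_lit 463) (nat_lit 4559) (nat_lit 494) (nat_lit 3566)))) (.a (.f (nat_lit 494) (nat_lit 495) (nat_lit 3566) (.f (nat_lit 526) (nat_lit 493) (nat_lit 3565) (.d (nat_lit 558) (nat_lit 557) (nat_lit 1549) (nat_lit 559) (nat_lit 1550)))) (.a (.f (nat_lit 494) (nat_lit 495) (nat_lit 3566) (.f (nat_lit 526) (nat_lit 493) (nat_lit 3565) (.f (nat_lit 557) (nat_lit 558) (nat_lit 1549) (.f (nat_lit 525) (nat_lit 556) (nat_lit 1548) (.d (nat_lit 561) (nat_lit 560) (nat_lit 525) (nat_lit 562) (nat_lit 526)))))) (.a (.f (nat_lit 558) (nat_lit 559) (nat_lit 1550) (.f (nat_lit 526) (nat_lit 557) (nat_lit 1549) (.f (nat_lit 493) (nat_lit 494) (nat_lit 3565) (.f (nat_lit 525) (nat_lit 492) (nat_lit 3564) (.d (nat_lit 561) (nat_lit 560) (nat_lit 525) (nat_lit 562) (nat_lit 526)))))) (.a (.f (nat_lit 495) (nat_lit 494) (nat_lit 3566) (.f (nat_lit 496) (nat_lit 531) (nat_lit 3567) (.f (nat_lit 560) (nat_lit 463) (nat_lit 7631) (.f (nat_lit 497) (nat_lit 465) (nat_lit 6608) (.f (nat_lit 526) (nat_lit 525) (nat_lit 2541) (.f (nat_lit 561) (nat_lit 562) (nat_lit 526) (.d (nat_lit 593) (nat_lit 464) (nat_lit 7632) (nat_lit 625) (nat_lit 4592)))))))) (.f (nat_lit 559) (nat_lit 558) (nat_lit 1550) (.f (nat_lit 531) (nat_lit 560) (nat_lit 1551) (.f (nat_lit 496) (nat_lit 495) (nat_lit 3567) (.f (nat_lit 532) (nat_lit 497) (nat_lit 3568) (.d (nat_lit 500) (nat_lit 499) (nat_lit 2544) (nat_lit 501) (nat_lit 2545))))))))))))))))))))) (.a s18743 s18744)))))))))))) (.a (.p (nat_lit 592) (.a s14395 (.a (.p (nat_lit 527) (.a (.p (nat_lit 530) (.a (.f (nat_lit 498) (nat_lit 499) (nat_lit 2543) (.f (nat_lit 562) (nat_lit 563) (nat_lit 527) (.d (nat_lit 526) (nat_lit 497) (nat_lit 2542) (nat_lit 561) (nat_lit 526)))) (.f (nat_lit 495) (nat_lit 494) (nat_lit 3566) (.f (nat_lit 559) (nat_lit 558) (nat_lit 1550) (.f (nat_lit 591) (nat_lit 624) (nat_lit 4591) (.d (nat_lit 496) (nat_lit 464) (nat_lit 6607) (nat_lit 531) (nat_lit 3567))))))) (.a s14413 (.a (.p (nat_lit 530) (.a (.f (nat_lit 495) (nat_lit 494) (nat_lit 3566) (.f (nat_lit 559) (nat_lit 558) (nat_lit 1550) (.f (nat_lit 591) (nat_lit 624) (nat_lit 4591) (.d (nat_lit 496) (nat_lit 464) (nat_lit 6607) (nat_lit 531) (nat_lit 3567))))) (.f (nat_lit 562) (nat_lit 563) (nat_lit 527) (.f (nat_lit 498) (nat_lit 499) (nat_lit 2543) (.f (nat_lit 561) (nat_lit 526) (nat_lit 526) (.d (nat_lit 466) (nat_lit 434) (nat_lit 5553) (nat_lit 593) (nat_lit 5585))))))) (.a (.p (nat_lit 530) (.a (.f (nat_lit 495) (nat_lit 494) (nat_lit 3566) (.f (nat_lit 559) (nat_lit 558) (nat_lit 1550) (.f (nat_lit 591) (nat_lit 624) (nat_lit 4591) (.d (nat_lit 496) (nat_lit 464) (nat_lit 6607) (nat_lit 531) (nat_lit 3567))))) (.f (nat_lit 498) (nat_lit 499) (nat_lit 2543) (.f (nat_lit 562) (nat_lit 563) (nat_lit 527) (.f (nat_lit 497) (nat_lit 526) (nat_lit 2542) (.d (nat_lit 465) (nat_lit 433) (nat_lit 4529) (nat_lit 594) (nat_lit 7633))))))) (.a s16482 (.a s14428 (.a s18752 (.a s18027 (.a s18183 (.a s18559 s18648))))))))))) (.a (.p (nat_lit 530) (.a (.p (nat_lit 527) (.a (.f (nat_lit 559) (nat_lit 558) (nat_lit 1550) (.f (nat_lit 560) (nat_lit 531) (nat_lit 1551) (.d (nat_lit 495) (nat_lit 463) (nat_lit 4559) (nat_lit 494) (nat_lit 3566)))) (.f (nat_lit 562) (nat_lit 563) (nat_lit 527) (.f (nat_lit 498) (nat_lit 499) (nat_lit 2543) (.f (nat_lit 561) (nat_lit 526) (nat_lit 526) (.d (nat_lit 466) (nat_lit 434) (nat_lit 5553) (nat_lit 593) (nat_lit 5585))))))) (.a (.p (nat_lit 527) (.a (.f (nat_lit 498) (nat_lit 499) (nat_lit 2543) (.f (nat_lit 562) (nat_lit 563) (nat_lit 527) (.d (nat_lit 526) (nat_lit 497) (nat_lit 2542) (nat_lit 561) (nat_lit 526)))) (.a (.f (nat_lit 562) (nat_lit 563) (nat_lit 527) (.f (nat_lit 498) (nat_lit 499) (nat_lit 2543) (.f (nat_lit 561) (nat_lit 526) (nat_lit 526) (.d (nat_lit 466) (nat_lit 434) (nat_lit 5553) (nat_lit 593) (nat_lit 5585))))) (.a (.f (nat_lit 498) (nat_lit 499) (nat_lit 2543) (.f (nat_lit 562) (nat_lit 563) (nat_lit 527) (.f (nat_lit 497) (nat_lit 526) (nat_lit 2542) (.d (nat_lit 465) (nat_lit 433) (nat_lit 4529) (nat_lit 594) (nat_lit 7633))))) (.a (.f (nat_lit 498) (nat_lit 499) (nat_lit 2543) (.f (nat_lit 562) (nat_lit 563) (nat_lit 527) (.f (nat_lit 495) (nat_lit 494) (nat_lit 3566) (.f (nat_lit 559) (nat_lit 558) (nat_lit 1550) (.f (nat_lit 591) (nat_lit 624) (nat_lit 4591) (.f (nat_lit 590) (nat_lit 622) (nat_lit 5614) (.f (nat_lit 593) (nat_lit 561) (nat_lit 2606) (.d (nat_lit 625) (nat_lit 594) (nat_lit 5617) (nat_lit 626) (nat_lit 590))))))))) (.a (.f (nat_lit 498) (nat_lit 499) (nat_lit 2543) (.f (nat_lit 526) (nat_lit 497) (nat_lit 2542) (.d (nat_lit 494) (nat_lit 493) (nat_lit 3565) (nat_lit 495) (nat_lit 3566)))) (.f (nat_lit 562) (nat_lit 563) (nat_lit 527) (.f (nat_lit 526) (nat_lit 561) (nat_lit 526) (.d (nat_lit 494) (nat_lit 493) (nat_lit 3565) (nat_lit 495) (nat_lit 3566)))))))))) (.a (.p (nat_lit 560) (.a (.f (nat_lit 531) (nat_lit 559) (nat_lit 1551) (.f (nat_lit 500) (nat_lit 499) (nat_lit 2544) (.f (nat_lit 532) (nat_lit 501) (nat_lit 2545) (.d (nat_lit 564) (nat_lit 563) (nat_lit 528) (nat_lit 565) (nat_lit 529))))) (.f (nat_lit 624) (nat_lit 497) (nat_lit 6640) (.f (nat_lit 655) (nat_lit 623) (nat_lit 5647) (.f (nat_lit 656) (nat_lit 687) (nat_lit 5679) (.d (nat_lit 657) (nat_lit 625) (nat_lit 4624) (nat_lit 689) (nat_lit 4656))))))) (.a (.p (nat_lit 527) (.a (.f (nat_lit 498) (nat_lit 499) (nat_lit 2543) (.f (nat_lit 562) (nat_lit 563) (nat_lit 527) (.d (nat_lit 526) (nat_lit 497) (nat_lit 2542) (nat_lit 561) (nat_lit 526)))) (.a (.f (nat_lit 562) (nat_lit 563) (nat_lit 527) (.f (nat_lit 498) (nat_lit 499) (nat_lit 2543) (.f (nat_lit 561) (nat_lit 526) (nat_lit 526) (.d (nat_lit 466) (nat_lit 434) (nat_lit 5553) (nat_lit 593) (nat_lit 5585))))) (.a (.f (nat_lit 498) (nat_lit 499) (nat_lit 2543) (.f (nat_lit 562) (nat_lit 563) (nat_lit 527) (.f (nat_lit 497) (nat_lit 526) (nat_lit 2542) (.d (nat_lit 465) (nat_lit 433) (nat_lit 4529) (nat_lit 594) (nat_lit 7633))))) (.a (.f (nat_lit 499) (nat_lit 498) (nat_lit 2543) (.f (nat_lit 531) (nat_lit 500) (nat_lit 2544) (.d (nat_lit 563) (nat_lit 562) (nat_lit 527) (nat_lit 564) (nat_lit 528)))) (.a (.f (nat_lit 498) (nat_lit 499) (nat_lit 2543) (.f (nat_lit 526) (nat_lit 497) (nat_lit 2542) (.d (nat_lit 494) (nat_lit 493) (nat_lit 3565) (nat_lit 495) (nat_lit 3566)))) (.f (nat_lit 562) (nat_lit 563) (nat_lit 527) (.f (nat_lit 526) (nat_lit 561) (nat_lit 526) (.d (nat_lit 494) (nat_lit 493) (nat_lit 3565) (nat_lit 495) (nat_lit 3566)))))))))) (.a (.p (nat_lit 527) (.a (.f (nat_lit 559) (nat_lit 558) (nat_lit 1550) (.f (nat_lit 560) (nat_lit 531) (nat_lit 1551) (.d (nat_lit 495) (nat_lit 463) (nat_lit 4559) (nat_lit 494) (nat_lit 3566)))) (.a (.f (nat_lit 498) (nat_lit 499) (nat_lit 2543) (.f (nat_lit 526) (nat_lit 497) (nat_lit 2542) (.d (nat_lit 494) (nat_lit 493) (nat_lit 3565) (nat_lit 495) (nat_lit 3566)))) (.f (nat_lit 559) (nat_lit 558) (nat_lit 1550) (.f (nat_lit 560) (nat_lit 531) (nat_lit 1551) (.d (nat_lit 624) (nat_lit 497) (nat_lit 6640) (nat_lit 656) (nat_lit 7695))))))) (.p (nat_lit 527) (.a (.f (nat_lit 559) (nat_lit 558) (nat_lit 1550) (.f (nat_lit 560) (nat_lit 531) (nat_lit 1551) (.d (nat_lit 495) (nat_lit 463) (nat_lit 4559) (nat_lit 494) (nat_lit 3566)))) (.a (.f (nat_lit 562) (nat_lit 563) (nat_lit 527) (.f (nat_lit 526) (nat_lit 561) (nat_lit 526) (.d (nat_lit 494) (nat_lit 493) (nat_lit 3565) (nat_lit 495) (nat_lit 3566)))) (.f (nat_lit 559) (nat_lit 558) (nat_lit 1550) (.f (nat_lit 560) (nat_lit 531) (nat_lit 1551) (.d (nat_lit 624) (nat_lit 497) (nat_lit 6640) (nat_lit 656) (nat_lit 7695))))))))))))) (.a (.p (nat_lit 560) (.a (.f (nat_lit 624) (nat_lit 497) (nat_lit 6640) (.f (nat_lit 656) (nat_lit 561) (nat_lit 6672) (.d (nat_lit 655) (nat_lit 623) (nat_lit 5647) (nat_lit 687) (nat_lit 5679)))) (.a (.p (nat_lit 496) (.a (.f (nat_lit 593) (nat_lit 625) (nat_lit 4592) (.f (nat_lit 591) (nat_lit 623) (nat_lit 5615) (.d (nat_lit 464) (nat_lit 559) (nat_lit 5583) (nat_lit 561) (nat_lit 4560)))) (.a (.f (nat_lit 625) (nat_lit 593) (nat_lit 4592) (.f (nat_lit 624) (nat_lit 657) (nat_lit 4624) (.d (nat_lit 623) (nat_lit 591) (nat_lit 5615) (nat_lit 655) (nat_lit 5647)))) (.a (.f (nat_lit 623) (nat_lit 591) (nat_lit 5615) (.f (nat_lit 624) (nat_lit 655) (nat_lit 5647) (.f (nat_lit 656) (nat_lit 561) (nat_lit 6672) (.d (nat_lit 657) (nat_lit 625) (nat_lit 4624) (nat_lit 689) (nat_lit 4656))))) (.a (.f (nat_lit 593) (nat_lit 625) (nat_lit 4592) (.f (nat_lit 464) (nat_lit 561) (nat_lit 4560) (.d (nat_lit 463) (nat_lit 431) (nat_lit 7599) (nat_lit 495) (nat_lit 7631)))) (.f (nat_lit 495) (nat_lit 463) (nat_lit 7631) (.f (nat_lit 530) (nat_lit 531) (nat_lit 3567) (.f (nat_lit 591) (nat_lit 623) (nat_lit 5615) (.f (nat_lit 559) (nat_lit 464) (nat_lit 5583) (.f (nat_lit 561) (nat_lit 558) (nat_lit 2574) (.d (nat_lit 562) (nat_lit 563) (nat_lit 1583) (nat_lit 590) (nat_lit 1582)))))))))))) (.a (.f (nat_lit 624) (nat_lit 497) (nat_lit 6640) (.f (nat_lit 623) (nat_lit 655) (nat_lit 5647) (.f (nat_lit 625) (nat_lit 657) (nat_lit 4624) (.d (nat_lit 496) (nat_lit 591) (nat_lit 5615) (nat_lit 593) (nat_lit 4592))))) (.a (.p (nat_lit 496) (.a (.f (nat_lit 593) (nat_lit 625) (nat_lit 4592) (.f (nat_lit 591) (nat_lit 623) (nat_lit 5615) (.d (nat_lit 464) (nat_lit 559) (nat_lit 5583) (nat_lit 561) (nat_lit 4560)))) (.f (nat_lit 497) (nat_lit 465) (nat_lit 6608) (.f (nat_lit 495) (nat_lit 463) (nat_lit 7631) (.d (nat_lit 494) (nat_lit 493) (nat_lit 493) (nat_lit 530) (nat_lit 494)))))) (.f (nat_lit 497) (nat_lit 624) (nat_lit 6640) (.d (nat_lit 465) (nat_lit 433) (nat_lit 5552) (nat_lit 496) (nat_lit 6608)))))))) (.a s14508 (.a (.p (nat_lit 560) (.a (.f (nat_lit 624) (nat_lit 497) (nat_lit 6640) (.f (nat_lit 623) (nat_lit 655) (nat_lit 5647) (.f (nat_lit 625) (nat_lit 657) (nat_lit 4624) (.d (nat_lit 496) (nat_lit 591) (nat_lit 5615) (nat_lit 593) (nat_lit 4592))))) (.a (.f (nat_lit 624) (nat_lit 497) (nat_lit 6640) (.f (nat_lit 527) (nat_lit 495) (nat_lit 7663) (.f (nat_lit 559) (nat_lit 656) (nat_lit 7695) (.d (nat_lit 530) (nat_lit 531) (nat_lit 1551) (nat_lit 558) (nat_lit 1550))))) (.a (.p (nat_lit 496) (.a (.f (nat_lit 625) (nat_lit 593) (nat_lit 4592) (.f (nat_lit 624) (nat_lit 657) (nat_lit 4624) (.d (nat_lit 623) (nat_lit 591) (nat_lit 5615) (nat_lit 655) (nat_lit 5647)))) (.a (.f (nat_lit 495) (nat_lit 463) (nat_lit 7631) (.f (nat_lit 624) (nat_lit 527) (nat_lit 7663) (.d (nat_lit 623) (nat_lit 591) (nat_lit 5615) (nat_lit 655) (nat_lit 5647)))) (.a (.f (nat_lit 495) (nat_lit 463) (nat_lit 7631) (.f (nat_lit 624) (nat_lit 527) (nat_lit 7663) (.d (nat_lit 625) (nat_lit 593) (nat_lit 4592) (nat_lit 657) (nat_lit 4624)))) (.f (nat_lit 495) (nat_lit 463) (nat_lit 7631) (.f (nat_lit 530) (nat_lit 531) (nat_lit 3567) (.d (nat_lit 494) (nat_lit 493) (nat_lit 493) (nat_lit 527) (nat_lit 3566)))))))) (.p (nat_lit 496) (.a (.f (nat_lit 497) (nat_lit 465) (nat_lit 6608) (.f (nat_lit 495) (nat_lit 463) (nat_lit 7631) (.d (nat_lit 494) (nat_lit 493) (nat_lit 493) (nat_lit 530) (nat_lit 494)))) (.a (.f (nat_lit 495) (nat_lit 463) (nat_lit 7631) (.f (nat_lit 530) (nat_lit 531) (nat_lit 3567) (.d (nat_lit 494) (nat_lit 493) (nat_lit 493) (nat_lit 527) (nat_lit 3566)))) (.a (.f (nat_lit 497) (nat_lit 465) (nat_lit 6608) (.f (nat_lit 495) (nat_lit 463) (nat_lit 7631) (.f (nat_lit 494) (nat_lit 493) (nat_lit 493) (.f (nat_lit 526) (nat_lit 525) (nat_lit 1517) (.f (nat_lit 527) (nat_lit 498) (nat_lit 2542) (.f (nat_lit 591) (nat_lit 623) (nat_lit 5615) (.d (nat_lit 462) (nat_lit 461) (nat_lit 3533) (nat_lit 559) (nat_lit 7630)))))))) (.f (nat_lit 465) (nat_lit 497) (nat_lit 6608) (.f (nat_lit 591) (nat_lit 623) (nat_lit 5615) (.d (nat_lit 464) (nat_lit 433) (nat_lit 6576) (nat_lit 559) (nat_lit 5583)))))))))))) (.a s16683 (.a (.p (nat_lit 527) (.a s14394 (.a s18752 (.a (.p (nat_lit 530) (.a (.f (nat_lit 559) (nat_lit 558) (nat_lit 1550) (.f (nat_lit 560) (nat_lit 531) (nat_lit 1551) (.d (nat_lit 624) (nat_lit 497) (nat_lit 6640) (nat_lit 656) (nat_lit 7695)))) (.a (.f (nat_lit 498) (nat_lit 499) (nat_lit 2543) (.f (nat_lit 562) (nat_lit 563) (nat_lit 527) (.f (nat_lit 497) (nat_lit 526) (nat_lit 2542) (.d (nat_lit 465) (nat_lit 433) (nat_lit 4529) (nat_lit 594) (nat_lit 7633))))) (.f (nat_lit 499) (nat_lit 498) (nat_lit 2543) (.f (nat_lit 531) (nat_lit 500) (nat_lit 2544) (.d (nat_lit 563) (nat_lit 562) (nat_lit 527) (nat_lit 564) (nat_lit 528))))))) (.a s14543 (.a s18081 (.a s14601 (.a (.p (nat_lit 526) (.a (.f (nat_lit 497) (nat_lit 498) (nat_lit 2542) (.f (nat_lit 560) (nat_lit 624) (nat_lit 6640) (.d (nat_lit 465) (nat_lit 433) (nat_lit 5552) (nat_lit 496) (nat_lit 6608)))) (.a (.f (nat_lit 497) (nat_lit 498) (nat_lit 2542) (.f (nat_lit 525) (nat_lit 496) (nat_lit 2541) (.d (nat_lit 493) (nat_lit 492) (nat_lit 3564) (nat_lit 494) (nat_lit 3565)))) (.a (.f (nat_lit 497) (nat_lit 498) (nat_lit 2542) (.f (nat_lit 560) (nat_lit 624) (nat_lit 6640) (.d (nat_lit 465) (nat_lit 433) (nat_lit 5552) (nat_lit 561) (nat_lit 5584)))) (.f (nat_lit 493) (nat_lit 494) (nat_lit 3565) (.f (nat_lit 525) (nat_lit 492) (nat_lit 3564) (.f (nat_lit 560) (nat_lit 561) (nat_lit 525) (.f (nat_lit 559) (nat_lit 524) (nat_lit 524) (.d (nat_lit 530) (nat_lit 531) (nat_lit 1551) (nat_lit 558) (nat_lit 1550)))))))))) (.a s18357 (.p (nat_lit 562) (.a (.f (nat_lit 561) (nat_lit 526) (nat_lit 526) (.d (nat_lit 563) (nat_lit 560) (nat_lit 3599) (nat_lit 564) (nat_lit 3600))) (.a (.f (nat_lit 561) (nat_lit 526) (nat_lit 526) (.d (nat_lit 563) (nat_lit 530) (nat_lit 527) (nat_lit 564) (nat_lit 3600))) (.a (.f (nat_lit 530) (nat_lit 563) (nat_lit 527) (.f (nat_lit 559) (nat_lit 558) (nat_lit 1550) (.f (nat_lit 560) (nat_lit 531) (nat_lit 1551) (.d (nat_lit 624) (nat_lit 497) (nat_lit 6640) (nat_lit 656) (nat_lit 7695))))) (.f (nat_lit 526) (nat_lit 561) (nat_lit 526) (.f (nat_lit 493) (nat_lit 494) (nat_lit 3565) (.f (nat_lit 525) (nat_lit 492) (nat_lit 3564) (.f (nat_lit 497) (nat_lit 496) (nat_lit 2541) (.f (nat_lit 560) (nat_lit 624) (nat_lit 6640) (.f (nat_lit 559) (nat_lit 524) (nat_lit 524) (.d (nat_lit 530) (nat_lit 531) (nat_lit 1551) (nat_lit 558) (nat_lit 1550))))))))))))))))))))) (.a s14643 (.a (.p (nat_lit 527) (.a (.p (nat_lit 530) (.a (.f (nat_lit 498) (nat_lit 499) (nat_lit 2543) (.f (nat_lit 562) (nat_lit 563) (nat_lit 527) (.d (nat_lit 526) (nat_lit 497) (nat_lit 2542) (nat_lit 561) (nat_lit 526)))) (.f (nat_lit 559) (nat_lit 558) (nat_lit 1550) (.f (nat_lit 560) (nat_lit 531) (nat_lit 1551) (.d (nat_lit 495) (nat_lit 463) (nat_lit 4559) (nat_lit 494) (nat_lit 3566)))))) (.a s14413 (.a (.p (nat_lit 530) (.a (.f (nat_lit 559) (nat_lit 558) (nat_lit 1550) (.f (nat_lit 560) (nat_lit 531) (nat_lit 1551) (.d (nat_lit 495) (nat_lit 463) (nat_lit 4559) (nat_lit 494) (nat_lit 3566)))) (.f (nat_lit 562) (nat_lit 563) (nat_lit 527) (.f (nat_lit 498) (nat_lit 499) (nat_lit 2543) (.f (nat_lit 561) (nat_lit 526) (nat_lit 526) (.d (nat_lit 466) (nat_lit 434) (nat_lit 5553) (nat_lit 593) (nat_lit 5585))))))) (.a (.p (nat_lit 530) (.a (.f (nat_lit 559) (nat_lit 558) (nat_lit 1550) (.f (nat_lit 560) (nat_lit 531) (nat_lit 1551) (.d (nat_lit 495) (nat_lit 463) (nat_lit 4559) (nat_lit 494) (nat_lit 3566)))) (.f (nat_lit 498) (nat_lit 499) (nat_lit 2543) (.f (nat_lit 562) (nat_lit 563) (nat_lit 527) (.f (nat_lit 497) (nat_lit 526) (nat_lit 2542) (.d (nat_lit 465) (nat_lit 433) (nat_lit 4529) (nat_lit 594) (nat_lit 7633))))))) (.a s18090 (.a s14634 (.a s18357 (.a s18053 s14635))))))))) s18414))))))))))) (.a (.p (nat_lit 592) (.a s14449 (.a (.p (nat_lit 527) (.a (.p (nat_lit 530) (.a (.f (nat_lit 498) (nat_lit 499) (nat_lit 2543) (.f (nat_lit 562) (nat_lit 563) (nat_lit 527) (.d (nat_lit 526) (nat_lit 497) (nat_lit 2542) (nat_lit 561) (nat_lit 526)))) (.f (nat_lit 495) (nat_lit 494) (nat_lit 3566) (.f (nat_lit 559) (nat_lit 558) (nat_lit 1550) (.f (nat_lit 591) (nat_lit 624) (nat_lit 4591) (.d (nat_lit 496) (nat_lit 464) (nat_lit 6607) (nat_lit 531) (nat_lit 3567))))))) (.a s14413 (.a (.p (nat_lit 530) (.a (.f (nat_lit 495) (nat_lit 494) (nat_lit 3566) (.f (nat_lit 559) (nat_lit 558) (nat_lit 1550) (.f (nat_lit 591) (nat_lit 624) (nat_lit 4591) (.d (nat_lit 496) (nat_lit 464) (nat_lit 6607) (nat_lit 531) (nat_lit 3567))))) (.f (nat_lit 562) (nat_lit 563) (nat_lit 527) (.f (nat_lit 498) (nat_lit 499) (nat_lit 2543) (.f (nat_lit 561) (nat_lit 526) (nat_lit 526) (.d (nat_lit 466) (nat_lit 434) (nat_lit 5553) (nat_lit 593) (nat_lit 5585))))))) (.a (.p (nat_lit 530) (.a (.f (nat_lit 495) (nat_lit 494) (nat_lit 3566) (.f (nat_lit 559) (nat_lit 558) (nat_lit 1550) (.f (nat_lit 591) (nat_lit 624) (nat_lit 4591) (.d (nat_lit 496) (nat_lit 464) (nat_lit 6607) (nat_lit 531) (nat_lit 3567))))) (.f (nat_lit 498) (nat_lit 499) (nat_lit 2543) (.f (nat_lit 562) (nat_lit 563) (nat_lit 527) (.f (nat_lit 497) (nat_lit 526) (nat_lit 2542) (.d (nat_lit 465) (nat_lit 433) (nat_lit 4529) (nat_lit 594) (nat_lit 7633))))))) (.a (.p (nat_lit 526) (.a (.f (nat_lit 497) (nat_lit 498) (nat_lit 2542) (.f (nat_lit 525) (nat_lit 496) (nat_lit 2541) (.d (nat_lit 493) (nat_lit 492) (nat_lit 3564) (nat_lit 494) (nat_lit 3565)))) (.a (.f (nat_lit 493) (nat_lit 494) (nat_lit 3565) (.f (nat_lit 525) (nat_lit 492) (nat_lit 3564) (.d (nat_lit 557) (nat_lit 556) (nat_lit 1548) (nat_lit 558) (nat_lit 1549)))) (.f (nat_lit 497) (nat_lit 498) (nat_lit 2542) (.f (nat_lit 561) (nat_lit 562) (nat_lit 526) (.f (nat_lit 593) (nat_lit 624) (nat_lit 5616) (.d (nat_lit 496) (nat_lit 464) (nat_lit 7632) (nat_lit 625) (nat_lit 7664)))))))) (.a (.p (nat_lit 530) (.a (.f (nat_lit 495) (nat_lit 494) (nat_lit 3566) (.f (nat_lit 559) (nat_lit 558) (nat_lit 1550) (.f (nat_lit 591) (nat_lit 624) (nat_lit 4591) (.d (nat_lit 496) (nat_lit 464) (nat_lit 6607) (nat_lit 531) (nat_lit 3567))))) (.a (.f (nat_lit 499) (nat_lit 498) (nat_lit 2543) (.f (nat_lit 531) (nat_lit 500) (nat_lit 2544) (.d (nat_lit 563) (nat_lit 562) (nat_lit 527) (nat_lit 564) (nat_lit 528)))) (.f (nat_lit 498) (nat_lit 499) (nat_lit 2543) (.f (nat_lit 562) (nat_lit 563) (nat_lit 527) (.f (nat_lit 495) (nat_lit 494) (nat_lit 3566) (.f (nat_lit 559) (nat_lit 558) (nat_lit 1550) (.f (nat_lit 591) (nat_lit 624) (nat_lit 4591) (.f (nat_lit 590) (nat_lit 622) (nat_lit 5614) (.f (nat_lit 593) (nat_lit 561) (nat_lit 2606) (.d (nat_lit 625) (nat_lit 594) (nat_lit 5617) (nat_lit 626) (nat_lit 590)))))))))))) (.a (.p (nat_lit 530) (.a (.f (nat_lit 495) (nat_lit 494) (nat_lit 3566) (.f (nat_lit 559) (nat_lit 558) (nat_lit 1550) (.f (nat_lit 591) (nat_lit 624) (nat_lit 4591) (.d (nat_lit 496) (nat_lit 464) (nat_lit 6607) (nat_lit 531) (nat_lit 3567))))) (.a (.f (nat_lit 498) (nat_lit 499) (nat_lit 2543) (.f (nat_lit 526) (nat_lit 497) (nat_lit 2542) (.d (nat_lit 494) (nat_lit 493) (nat_lit 3565) (nat_lit 495) (nat_lit 3566)))) (.f (nat_lit 498) (nat_lit 499) (nat_lit 2543) (.f (nat_lit 526) (nat_lit 497) (nat_lit 2542) (.d (nat_lit 558) (nat_lit 557) (nat_lit 1549) (nat_lit 559) (nat_lit 1550))))))) (.a s14436 (.p (nat_lit 530) (.a (.f (nat_lit 495) (nat_lit 494) (nat_lit 3566) (.f (nat_lit 559) (nat_lit 558) (nat_lit 1550) (.f (nat_lit 591) (nat_lit 624) (nat_lit 4591) (.d (nat_lit 496) (nat_lit 464) (nat_lit 6607) (nat_lit 531) (nat_lit 3567))))) (.a (.f (nat_lit 562) (nat_lit 563) (nat_lit 527) (.f (nat_lit 526) (nat_lit 561) (nat_lit 526) (.d (nat_lit 494) (nat_lit 493) (nat_lit 3565) (nat_lit 495) (nat_lit 3566)))) (.f (nat_lit 562) (nat_lit 563) (nat_lit 527) (.f (nat_lit 526) (nat_lit 561) (nat_lit 526) (.d (nat_lit 558) (nat_lit 557) (nat_lit 1549) (nat_lit 559) (nat_lit 1550)))))))))))))))) (.a (.p (nat_lit 593) (.a s15915 (.a s15169 (.a s15314 (.a s15516 (.a (.p (nat_lit 560) (.a (.f (nat_lit 496) (nat_lit 625) (nat_lit 4592) (.d (nat_lit 497) (nat_lit 465) (nat_lit 6608) (nat_lit 624) (nat_lit 6640))) (.a (.f (nat_lit 497) (nat_lit 624) (nat_lit 6640) (.d (nat_lit 465) (nat_lit 433) (nat_lit 5552) (nat_lit 561) (nat_lit 5584))) (.a (.f (nat_lit 625) (nat_lit 496) (nat_lit 4592) (.d (nat_lit 657) (nat_lit 624) (nat_lit 4624) (nat_lit 689) (nat_lit 7728))) (.f (nat_lit 496) (nat_lit 625) (nat_lit 4592) (.f (nat_lit 464) (nat_lit 561) (nat_lit 4560) (.d (nat_lit 463) (nat_lit 431) (nat_lit 7599) (nat_lit 495) (nat_lit 7631)))))))) (.a (.p (nat_lit 560) (.a (.p (nat_lit 561) (.a (.f (nat_lit 625) (nat_lit 657) (nat_lit 7696) (.f (nat_lit 530) (nat_lit 498) (nat_lit 6641) (.d (nat_lit 531) (nat_lit 532) (nat_lit 1552) (nat_lit 559) (nat_lit 1551)))) (.a (.f (nat_lit 497) (nat_lit 465) (nat_lit 5584) (.f (nat_lit 594) (nat_lit 626) (nat_lit 4593) (.d (nat_lit 559) (nat_lit 558) (nat_lit 558) (nat_lit 595) (nat_lit 3631)))) (.f (nat_lit 625) (nat_lit 657) (nat_lit 7696) (.f (nat_lit 626) (nat_lit 658) (nat_lit 4625) (.d (nat_lit 497) (nat_lit 465) (nat_lit 5584) (nat_lit 594) (nat_lit 4593))))))) (.a (.f (nat_lit 496) (nat_lit 625) (nat_lit 4592) (.f (nat_lit 464) (nat_lit 561) (nat_lit 4560) (.d (nat_lit 463) (nat_lit 431) (nat_lit 7599) (nat_lit 495) (nat_lit 7631)))) (.a (.f (nat_lit 496) (nat_lit 625) (nat_lit 4592) (.f (nat_lit 495) (nat_lit 463) (nat_lit 7631) (.f (nat_lit 497) (nat_lit 465) (nat_lit 6608) (.d (nat_lit 494) (nat_lit 493) (nat_lit 493) (nat_lit 530) (nat_lit 494))))) (.p (nat_lit 496) (.a (.f (nat_lit 495) (nat_lit 463) (nat_lit 7631) (.f (nat_lit 497) (nat_lit 465) (nat_lit 6608) (.d (nat_lit 494) (nat_lit 493) (nat_lit 493) (nat_lit 530) (nat_lit 494)))) (.a (.f (nat_lit 464) (nat_lit 561) (nat_lit 4560) (.d (nat_lit 463) (nat_lit 431) (nat_lit 7599) (nat_lit 495) (nat_lit 7631))) (.f (nat_lit 561) (nat_lit 464) (nat_lit 4560) (.f (nat_lit 497) (nat_lit 465) (nat_lit 6608) (.f (nat_lit 594) (nat_lit 626) (nat_lit 4593) (.d (nat_lit 559) (nat_lit 558) (nat_lit 558) (nat_lit 595) (nat_lit 3631)))))))))))) (.p (nat_lit 591) (.a (.p (nat_lit 561) (.a (.f (nat_lit 562) (nat_lit 590) (nat_lit 2606) (.d (nat_lit 563) (nat_lit 564) (nat_lit 1584) (nat_lit 594) (nat_lit 2607))) (.f (nat_lit 497) (nat_lit 624) (nat_lit 5616) (.f (nat_lit 465) (nat_lit 560) (nat_lit 5584) (.d (nat_lit 466) (nat_lit 434) (nat_lit 6577) (nat_lit 498) (nat_lit 6609)))))) (.a (.p (nat_lit 561) (.a (.f (nat_lit 562) (nat_lit 590) (nat_lit 2606) (.d (nat_lit 563) (nat_lit 564) (nat_lit 1584) (nat_lit 594) (nat_lit 2607))) (.a (.f (nat_lit 497) (nat_lit 624) (nat_lit 5616) (.f (nat_lit 594) (nat_lit 626) (nat_lit 4593) (.f (nat_lit 466) (nat_lit 498) (nat_lit 6609) (.f (nat_lit 496) (nat_lit 464) (nat_lit 7632) (.f (nat_lit 465) (nat_lit 434) (nat_lit 6577) (.f (nat_lit 494) (nat_lit 495) (nat_lit 2510) (.f (nat_lit 558) (nat_lit 559) (nat_lit 3630) (.f (nat_lit 590) (nat_lit 557) (nat_lit 3629) (.f (nat_lit 621) (nat_lit 622) (nat_lit 1613) (.d (nat_lit 589) (nat_lit 526) (nat_lit 5613) (nat_lit 620) (nat_lit 1612))))))))))) (.a (.f (nat_lit 590) (nat_lit 562) (nat_lit 2606) (.f (nat_lit 557) (nat_lit 558) (nat_lit 3629) (.f (nat_lit 589) (nat_lit 556) (nat_lit 3628) (.d (nat_lit 621) (nat_lit 620) (nat_lit 1612) (nat_lit 622) (nat_lit 1613))))) (.f (nat_lit 497) (nat_lit 624) (nat_lit 5616) (.f (nat_lit 594) (nat_lit 626) (nat_lit 4593) (.d (nat_lit 562) (nat_lit 465) (nat_lit 4561) (nat_lit 563) (nat_lit 2607)))))))) (.a (.p (nat_lit 594) (.a (.f (nat_lit 562) (nat_lit 563) (nat_lit 2607) (.f (nat_lit 626) (nat_lit 627) (nat_lit 591) (.d (nat_lit 561) (nat_lit 590) (nat_lit 2606) (nat_lit 658) (nat_lit 7697)))) (.a (.f (nat_lit 559) (nat_lit 558) (nat_lit 3630) (.f (nat_lit 595) (nat_lit 560) (nat_lit 3631) (.d (nat_lit 563) (nat_lit 562) (nat_lit 2607) (nat_lit 564) (nat_lit 2608)))) (.f (nat_lit 559) (nat_lit 558) (nat_lit 3630) (.f (nat_lit 595) (nat_lit 560) (nat_lit 3631) (.d (nat_lit 627) (nat_lit 626) (nat_lit 591) (nat_lit 628) (nat_lit 592))))))) (.a s15499 (.a (.p (nat_lit 558) (.a (.f (nat_lit 557) (nat_lit 590) (nat_lit 3629) (.d (nat_lit 559) (nat_lit 556) (nat_lit 556) (nat_lit 560) (nat_lit 2573))) (.a (.f (nat_lit 557) (nat_lit 590) (nat_lit 3629) (.d (nat_lit 559) (nat_lit 556) (nat_lit 556) (nat_lit 594) (nat_lit 3630))) (.a (.f (nat_lit 590) (nat_lit 557) (nat_lit 3629) (.f (nat_lit 621) (nat_lit 622) (nat_lit 1613) (.f (nat_lit 589) (nat_lit 620) (nat_lit 1612) (.f (nat_lit 561) (nat_lit 560) (nat_lit 2605) (.f (nat_lit 497) (nat_lit 624) (nat_lit 5616) (.f (nat_lit 466) (nat_lit 498) (nat_lit 6609) (.f (nat_lit 496) (nat_lit 464) (nat_lit 7632) (.f (nat_lit 494) (nat_lit 526) (nat_lit 5613) (.d (nat_lit 465) (nat_lit 434) (nat_lit 6577) (nat_lit 495) (nat_lit 2510)))))))))) (.f (nat_lit 594) (nat_lit 559) (nat_lit 3630) (.f (nat_lit 626) (nat_lit 627) (nat_lit 591) (.f (nat_lit 497) (nat_lit 561) (nat_lit 4593) (.f (nat_lit 560) (nat_lit 624) (nat_lit 6640) (.d (nat_lit 465) (nat_lit 433) (nat_lit 5552) (nat_lit 496) (nat_lit 6608)))))))))) (.p (nat_lit 561) (.a (.f (nat_lit 590) (nat_lit 562) (nat_lit 2606) (.f (nat_lit 557) (nat_lit 558) (nat_lit 3629) (.f (nat_lit 589) (nat_lit 556) (nat_lit 3628) (.d (nat_lit 621) (nat_lit 620) (nat_lit 1612) (nat_lit 622) (nat_lit 1613))))) (.f (nat_lit 497) (nat_lit 624) (nat_lit 5616) (.f (nat_lit 465) (nat_lit 560) (nat_lit 5584) (.d (nat_lit 466) (nat_lit 434) (nat_lit 6577) (nat_lit 498) (nat_lit 6609))))))))))))))))))) (.a s18850 (.a (.p (nat_lit 527) (.a s14381 (.a (.p (nat_lit 530) (.a (.f (nat_lit 495) (nat_lit 494) (nat_lit 3566) (.f (nat_lit 559) (nat_lit 558) (nat_lit 1550) (.f (nat_lit 591) (nat_lit 624) (nat_lit 4591) (.d (nat_lit 496) (nat_lit 464) (nat_lit 6607) (nat_lit 531) (nat_lit 3567))))) (.f (nat_lit 498) (nat_lit 499) (nat_lit 2543) (.f (nat_lit 562) (nat_lit 563) (nat_lit 527) (.f (nat_lit 497) (nat_lit 526) (nat_lit 2542) (.d (nat_lit 465) (nat_lit 433) (nat_lit 4529) (nat_lit 594) (nat_lit 7633))))))) (.a (.p (nat_lit 530) (.a (.f (nat_lit 559) (nat_lit 558) (nat_lit 1550) (.f (nat_lit 560) (nat_lit 531) (nat_lit 1551) (.d (nat_lit 495) (nat_lit 463) (nat_lit 4559) (nat_lit 494) (nat_lit 3566)))) (.f (nat_lit 498) (nat_lit 499) (nat_lit 2543) (.f (nat_lit 562) (nat_lit 563) (nat_lit 527) (.f (nat_lit 497) (nat_lit 526) (nat_lit 2542) (.d (nat_lit 465) (nat_lit 433) (nat_lit 4529) (nat_lit 594) (nat_lit 7633))))))) (.a (.p (nat_lit 530) (.a (.f (nat_lit 559) (nat_lit 558) (nat_lit 1550) (.f (nat_lit 560) (nat_lit 531) (nat_lit 1551) (.d (nat_lit 495) (nat_lit 463) (nat_lit 4559) (nat_lit 494) (nat_lit 3566)))) (.a (.f (nat_lit 499) (nat_lit 498) (nat_lit 2543) (.f (nat_lit 531) (nat_lit 500) (nat_lit 2544) (.d (nat_lit 563) (nat_lit 562) (nat_lit 527) (nat_lit 564) (nat_lit 528)))) (.f (nat_lit 495) (nat_lit 494) (nat_lit 3566) (.f (nat_lit 560) (nat_lit 624) (nat_lit 7663) (.d (nat_lit 463) (nat_lit 431) (nat_lit 4527) (nat_lit 559) (nat_lit 4559))))))) (.a (.p (nat_lit 526) (.a (.f (nat_lit 497) (nat_lit 498) (nat_lit 2542) (.f (nat_lit 560) (nat_lit 624) (nat_lit 6640) (.d (nat_lit 465) (nat_lit 433) (nat_lit 5552) (nat_lit 496) (nat_lit 6608)))) (.a (.f (nat_lit 497) (nat_lit 498) (nat_lit 2542) (.f (nat_lit 525) (nat_lit 496) (nat_lit 2541) (.d (nat_lit 493) (nat_lit 492) (nat_lit 3564) (nat_lit 494) (nat_lit 3565)))) (.f (nat_lit 493) (nat_lit 494) (nat_lit 3565) (.f (nat_lit 525) (nat_lit 492) (nat_lit 3564) (.d (nat_lit 557) (nat_lit 556) (nat_lit 1548) (nat_lit 558) (nat_lit 1549))))))) (.a (.p (nat_lit 530) (.a (.f (nat_lit 495) (nat_lit 494) (nat_lit 3566) (.f (nat_lit 560) (nat_lit 624) (nat_lit 7663) (.d (nat_lit 463) (nat_lit 431) (nat_lit 4527) (nat_lit 496) (nat_lit 7631)))) (.f (nat_lit 498) (nat_lit 499) (nat_lit 2543) (.f (nat_lit 562) (nat_lit 563) (nat_lit 527) (.f (nat_lit 497) (nat_lit 526) (nat_lit 2542) (.d (nat_lit 465) (nat_lit 433) (nat_lit 4529) (nat_lit 594) (nat_lit 7633))))))) (.p (nat_lit 530) (.a (.f (nat_lit 559) (nat_lit 558) (nat_lit 1550) (.f (nat_lit 560) (nat_lit 531) (nat_lit 1551) (.d (nat_lit 624) (nat_lit 497) (nat_lit 6640) (nat_lit 656) (nat_lit 7695)))) (.a (.f (nat_lit 498) (nat_lit 499) (nat_lit 2543) (.f (nat_lit 562) (nat_lit 563) (nat_lit 527) (.f (nat_lit 497) (nat_lit 526) (nat_lit 2542) (.d (nat_lit 465) (nat_lit 433) (nat_lit 4529) (nat_lit 594) (nat_lit 7633))))) (.f (nat_lit 499) (nat_lit 498) (nat_lit 2543) (.f (nat_lit 531) (nat_lit 500) (nat_lit 2544) (.d (nat_lit 563) (nat_lit 562) (nat_lit 527) (nat_lit 564) (nat_lit 528)))))))))))))) (.a s17060 (.a s14542 (.a s18744 (.a (.p (nat_lit 527) (.a (.p (nat_lit 526) (.a (.f (nat_lit 497) (nat_lit 498) (nat_lit 2542) (.f (nat_lit 525) (nat_lit 496) (nat_lit 2541) (.d (nat_lit 493) (nat_lit 492) (nat_lit 3564) (nat_lit 494) (nat_lit 3565)))) (.a (.f (nat_lit 493) (nat_lit 494) (nat_lit 3565) (.f (nat_lit 525) (nat_lit 492) (nat_lit 3564) (.d (nat_lit 557) (nat_lit 556) (nat_lit 1548) (nat_lit 558) (nat_lit 1549)))) (.f (nat_lit 497) (nat_lit 498) (nat_lit 2542) (.f (nat_lit 561) (nat_lit 562) (nat_lit 526) (.f (nat_lit 593) (nat_lit 624) (nat_lit 5616) (.d (nat_lit 496) (nat_lit 464) (nat_lit 7632) (nat_lit 625) (nat_lit 7664)))))))) (.a s14436 (.a (.p (nat_lit 530) (.a (.f (nat_lit 562) (nat_lit 563) (nat_lit 527) (.f (nat_lit 498) (nat_lit 499) (nat_lit 2543) (.f (nat_lit 561) (nat_lit 526) (nat_lit 526) (.d (nat_lit 466) (nat_lit 434) (nat_lit 5553) (nat_lit 593) (nat_lit 5585))))) (.a (.f (nat_lit 499) (nat_lit 498) (nat_lit 2543) (.f (nat_lit 531) (nat_lit 500) (nat_lit 2544) (.d (nat_lit 563) (nat_lit 562) (nat_lit 527) (nat_lit 564) (nat_lit 528)))) (.a (.f (nat_lit 559) (nat_lit 558) (nat_lit 1550) (.f (nat_lit 531) (nat_lit 560) (nat_lit 1551) (.d (nat_lit 499) (nat_lit 498) (nat_lit 2543) (nat_lit 500) (nat_lit 2544)))) (.f (nat_lit 562) (nat_lit 563) (nat_lit 527) (.f (nat_lit 526) (nat_lit 561) (nat_lit 526) (.d (nat_lit 558) (nat_lit 557) (nat_lit 1549) (nat_lit 559) (nat_lit 1550)))))))) (.a (.p (nat_lit 526) (.a (.f (nat_lit 497) (nat_lit 498) (nat_lit 2542) (.f (nat_lit 560) (nat_lit 624) (nat_lit 6640) (.d (nat_lit 465) (nat_lit 433) (nat_lit 5552) (nat_lit 496) (nat_lit 6608)))) (.a (.f (nat_lit 497) (nat_lit 498) (nat_lit 2542) (.f (nat_lit 525) (nat_lit 496) (nat_lit 2541) (.d (nat_lit 493) (nat_lit 492) (nat_lit 3564) (nat_lit 494) (nat_lit 3565)))) (.f (nat_lit 493) (nat_lit 494) (nat_lit 3565) (.f (nat_lit 525) (nat_lit 492) (nat_lit 3564) (.d (nat_lit 557) (nat_lit 556) (nat_lit 1548) (nat_lit 558) (nat_lit 1549))))))) (.a s16089 (.a s14609 (.p (nat_lit 561) (.a (.f (nat_lit 526) (nat_lit 562) (nat_lit 526) (.f (nat_lit 557) (nat_lit 558) (nat_lit 1549) (.f (nat_lit 525) (nat_lit 556) (nat_lit 1548) (.d (nat_lit 493) (nat_lit 492) (nat_lit 3564) (nat_lit 494) (nat_lit 3565))))) (.a s16476 (.p (nat_lit 593) (.a (.f (nat_lit 625) (nat_lit 496) (nat_lit 7664) (.d (nat_lit 624) (nat_lit 497) (nat_lit 5616) (nat_lit 656) (nat_lit 5648))) (.a (.f (nat_lit 624) (nat_lit 497) (nat_lit 5616) (.d (nat_lit 656) (nat_lit 625) (nat_lit 5648) (nat_lit 688) (nat_lit 6704))) (.a (.f (nat_lit 625) (nat_lit 496) (nat_lit 7664) (.f (nat_lit 624) (nat_lit 656) (nat_lit 5648) (.f (nat_lit 626) (nat_lit 658) (nat_lit 4625) (.d (nat_lit 591) (nat_lit 590) (nat_lit 590) (nat_lit 627) (nat_lit 3663))))) (.a (.f (nat_lit 625) (nat_lit 496) (nat_lit 7664) (.f (nat_lit 626) (nat_lit 658) (nat_lit 4625) (.f (nat_lit 591) (nat_lit 590) (nat_lit 590) (.d (nat_lit 627) (nat_lit 594) (nat_lit 591) (nat_lit 628) (nat_lit 3664))))) (.f (nat_lit 497) (nat_lit 624) (nat_lit 5616) (.f (nat_lit 496) (nat_lit 464) (nat_lit 7632) (.f (nat_lit 465) (nat_lit 560) (nat_lit 6608) (.f (nat_lit 433) (nat_lit 401) (nat_lit 5520) (.d (nat_lit 434) (nat_lit 402) (nat_lit 6545) (nat_lit 466) (nat_lit 6577))))))))))))))))))))) (.a (.p (nat_lit 527) (.a (.p (nat_lit 530) (.a (.f (nat_lit 498) (nat_lit 499) (nat_lit 2543) (.f (nat_lit 562) (nat_lit 563) (nat_lit 527) (.d (nat_lit 526) (nat_lit 497) (nat_lit 2542) (nat_lit 561) (nat_lit 526)))) (.f (nat_lit 559) (nat_lit 558) (nat_lit 1550) (.f (nat_lit 560) (nat_lit 531) (nat_lit 1551) (.d (nat_lit 495) (nat_lit 463) (nat_lit 4559) (nat_lit 494) (nat_lit 3566)))))) (.a s14413 (.a (.p (nat_lit 530) (.a (.f (nat_lit 559) (nat_lit 558) (nat_lit 1550) (.f (nat_lit 560) (nat_lit 531) (nat_lit 1551) (.d (nat_lit 495) (nat_lit 463) (nat_lit 4559) (nat_lit 494) (nat_lit 3566)))) (.f (nat_lit 562) (nat_lit 563) (nat_lit 527) (.f (nat_lit 498) (nat_lit 499) (nat_lit 2543) (.f (nat_lit 561) (nat_lit 526) (nat_lit 526) (.d (nat_lit 466) (nat_lit 434) (nat_lit 5553) (nat_lit 593) (nat_lit 5585))))))) (.a (.p (nat_lit 530) (.a (.f (nat_lit 559) (nat_lit 558) (nat_lit 1550) (.f (nat_lit 560) (nat_lit 531) (nat_lit 1551) (.d (nat_lit 495) (nat_lit 463) (nat_lit 4559) (nat_lit 494) (nat_lit 3566)))) (.f (nat_lit 498) (nat_lit 499) (nat_lit 2543) (.f (nat_lit 562) (nat_lit 563) (nat_lit 527) (.f (nat_lit 497) (nat_lit 526) (nat_lit 2542) (.d (nat_lit 465) (nat_lit 433) (nat_lit 4529) (nat_lit 594) (nat_lit 7633))))))) (.a s14625 (.a s14634 (.a s14436 (.a (.p (nat_lit 530) (.a (.f (nat_lit 559) (nat_lit 558) (nat_lit 1550) (.f (nat_lit 560) (nat_lit 531) (nat_lit 1551) (.d (nat_lit 495) (nat_lit 463) (nat_lit 4559) (nat_lit 494) (nat_lit 3566)))) (.a (.f (nat_lit 498) (nat_lit 499) (nat_lit 2543) (.f (nat_lit 526) (nat_lit 497) (nat_lit 2542) (.d (nat_lit 494) (nat_lit 493) (nat_lit 3565) (nat_lit 495) (nat_lit 3566)))) (.f (nat_lit 498) (nat_lit 499) (nat_lit 2543) (.f (nat_lit 526) (nat_lit 497) (nat_lit 2542) (.d (nat_lit 558) (nat_lit 557) (nat_lit 1549) (nat_lit 559) (nat_lit 1550))))))) s18624))))))))) (.a s14643 s18434)))))))))))) (.a (.p (nat_lit 592) (.a s14438 (.a s14449 (.a s18114 (.a s18850 (.a s14512 (.a s16680 (.a s14542 (.a s18589 (.a s18590 (.a s14643 (.a s18237 s18313)))))))))))) (.a (.p (nat_lit 592) (.a s14479 (.a s18649 (.a (.p (nat_lit 527) (.a (.p (nat_lit 526) (.a (.f (nat_lit 561) (nat_lit 562) (nat_lit 526) (.f (nat_lit 560) (nat_lit 525) (nat_lit 525) (.d (nat_lit 497) (nat_lit 465) (nat_lit 5584) (nat_lit 498) (nat_lit 2542)))) (.a (.f (nat_lit 493) (nat_lit 494) (nat_lit 3565) (.f (nat_lit 525) (nat_lit 492) (nat_lit 3564) (.d (nat_lit 557) (nat_lit 556) (nat_lit 1548) (nat_lit 558) (nat_lit 1549)))) (.f (nat_lit 497) (nat_lit 498) (nat_lit 2542) (.f (nat_lit 560) (nat_lit 624) (nat_lit 6640) (.d (nat_lit 465) (nat_lit 433) (nat_lit 5552) (nat_lit 561) (nat_lit 5584))))))) (.a s16101 (.a s17610 (.a s17647 (.a (.p (nat_lit 530) (.a (.f (nat_lit 559) (nat_lit 558) (nat_lit 1550) (.f (nat_lit 560) (nat_lit 531) (nat_lit 1551) (.d (nat_lit 495) (nat_lit 463) (nat_lit 4559) (nat_lit 494) (nat_lit 3566)))) (.a (.f (nat_lit 562) (nat_lit 563) (nat_lit 527) (.f (nat_lit 495) (nat_lit 494) (nat_lit 3566) (.f (nat_lit 559) (nat_lit 558) (nat_lit 1550) (.f (nat_lit 591) (nat_lit 624) (nat_lit 4591) (.f (nat_lit 590) (nat_lit 622) (nat_lit 5614) (.f (nat_lit 593) (nat_lit 561) (nat_lit 2606) (.f (nat_lit 626) (nat_lit 625) (nat_lit 590) (.d (nat_lit 594) (nat_lit 497) (nat_lit 7665) (nat_lit 627) (nat_lit 591))))))))) (.p (nat_lit 497) (.a (.f (nat_lit 560) (nat_lit 624) (nat_lit 6640) (.d (nat_lit 465) (nat_lit 433) (nat_lit 5552) (nat_lit 561) (nat_lit 5584))) (.a (.f (nat_lit 562) (nat_lit 563) (nat_lit 527) (.f (nat_lit 594) (nat_lit 626) (nat_lit 7665) (.d (nat_lit 465) (nat_lit 433) (nat_lit 4529) (nat_lit 561) (nat_lit 4561)))) (.a (.f (nat_lit 560) (nat_lit 624) (nat_lit 6640) (.f (nat_lit 562) (nat_lit 563) (nat_lit 527) (.f (nat_lit 465) (nat_lit 433) (nat_lit 5552) (.d (nat_lit 594) (nat_lit 498) (nat_lit 7633) (nat_lit 626) (nat_lit 7665))))) (.f (nat_lit 560) (nat_lit 624) (nat_lit 6640) (.f (nat_lit 563) (nat_lit 562) (nat_lit 527) (.f (nat_lit 531) (nat_lit 564) (nat_lit 528) (.f (nat_lit 532) (nat_lit 561) (nat_lit 1552) (.f (nat_lit 533) (nat_lit 498) (nat_lit 3569) (.d (nat_lit 501) (nat_lit 500) (nat_lit 2545) (nat_lit 502) (nat_lit 2546)))))))))))))) (.a s17649 (.a s18072 s17657)))))))) (.a s16663 (.a s18695 (.a s18697 (.a s18699 (.a s16718 (.a s18704 (.a s18885 (.a s18743 s18744)))))))))))) (.a s18895 (.a (.p (nat_lit 592) (.a s14395 (.a s18649 (.a s16578 (.a s14479 (.a s16663 (.a s14616 (.a s18697 (.a s16718 (.a s18704 (.a s18885 s18744))))))))))) (.p (nat_lit 592) (.a s14395 (.a s14438 (.a s14449 (.a s14479 (.a (.p (nat_lit 527) (.a (.p (nat_lit 530) (.a (.f (nat_lit 559) (nat_lit 558) (nat_lit 1550) (.f (nat_lit 560) (nat_lit 531) (nat_lit 1551) (.d (nat_lit 495) (nat_lit 463) (nat_lit 4559) (nat_lit 494) (nat_lit 3566)))) (.f (nat_lit 562) (nat_lit 563) (nat_lit 527) (.f (nat_lit 498) (nat_lit 499) (nat_lit 2543) (.f (nat_lit 561) (nat_lit 526) (nat_lit 526) (.d (nat_lit 466) (nat_lit 434) (nat_lit 5553) (nat_lit 593) (nat_lit 5585))))))) (.a (.p (nat_lit 530) (.a (.f (nat_lit 562) (nat_lit 563) (nat_lit 527) (.f (nat_lit 498) (nat_lit 499) (nat_lit 2543) (.f (nat_lit 561) (nat_lit 526) (nat_lit 526) (.d (nat_lit 466) (nat_lit 434) (nat_lit 5553) (nat_lit 593) (nat_lit 5585))))) (.a (.f (nat_lit 499) (nat_lit 498) (nat_lit 2543) (.f (nat_lit 531) (nat_lit 500) (nat_lit 2544) (.d (nat_lit 563) (nat_lit 562) (nat_lit 527) (nat_lit 564) (nat_lit 528)))) (.f (nat_lit 494) (nat_lit 495) (nat_lit 3566) (.f (nat_lit 526) (nat_lit 493) (nat_lit 3565) (.d (nat_lit 558) (nat_lit 557) (nat_lit 1549) (nat_lit 559) (nat_lit 1550))))))) (.a (.p (nat_lit 530) (.a (.f (nat_lit 559) (nat_lit 558) (nat_lit 1550) (.f (nat_lit 560) (nat_lit 531) (nat_lit 1551) (.d (nat_lit 495) (nat_lit 463) (nat_lit 4559) (nat_lit 494) (nat_lit 3566)))) (.a (.f (nat_lit 499) (nat_lit 498) (nat_lit 2543) (.f (nat_lit 531) (nat_lit 500) (nat_lit 2544) (.d (nat_lit 563) (nat_lit 562) (nat_lit 527) (nat_lit 564) (nat_lit 528)))) (.f (nat_lit 495) (nat_lit 494) (nat_lit 3566) (.f (nat_lit 560) (nat_lit 624) (nat_lit 7663) (.d (nat_lit 463) (nat_lit 431) (nat_lit 4527) (nat_lit 559) (nat_lit 4559))))))) (.a s17610 (.a s18110 (.a s18311 (.p (nat_lit 530) (.a (.f (nat_lit 559) (nat_lit 558) (nat_lit 1550) (.f (nat_lit 560) (nat_lit 531) (nat_lit 1551) (.d (nat_lit 495) (nat_lit 463) (nat_lit 4559) (nat_lit 494) (nat_lit 3566)))) (.a (.f (nat_lit 494) (nat_lit 495) (nat_lit 3566) (.f (nat_lit 526) (nat_lit 493) (nat_lit 3565) (.d (nat_lit 558) (nat_lit 557) (nat_lit 1549) (nat_lit 559) (nat_lit 1550)))) (.a (.f (nat_lit 495) (nat_lit 494) (nat_lit 3566) (.f (nat_lit 560) (nat_lit 624) (nat_lit 7663) (.f (nat_lit 499) (nat_lit 498) (nat_lit 2543) (.f (nat_lit 531) (nat_lit 500) (nat_lit 2544) (.f (nat_lit 532) (nat_lit 561) (nat_lit 1552) (.d (nat_lit 564) (nat_lit 563) (nat_lit 528) (nat_lit 565) (nat_lit 529))))))) (.f (nat_lit 559) (nat_lit 558) (nat_lit 1550) (.f (nat_lit 560) (nat_lit 531) (nat_lit 1551) (.f (nat_lit 624) (nat_lit 656) (nat_lit 7695) (.f (nat_lit 623) (nat_lit 655) (nat_lit 5647) (.f (nat_lit 625) (nat_lit 657) (nat_lit 4624) (.f (nat_lit 498) (nat_lit 499) (nat_lit 2543) (.f (nat_lit 593) (nat_lit 561) (nat_lit 6641) (.d (nat_lit 594) (nat_lit 595) (nat_lit 3631) (nat_lit 622) (nat_lit 2638)))))))))))))))))))) (.a s14512 (.a s14523 (.a s14542 (.a (.p (nat_lit 527) (.a s14394 (.a (.p (nat_lit 526) (.a (.f (nat_lit 497) (nat_lit 498) (nat_lit 2542) (.f (nat_lit 525) (nat_lit 496) (nat_lit 2541) (.d (nat_lit 493) (nat_lit 492) (nat_lit 3564) (nat_lit 494) (nat_lit 3565)))) (.a (.f (nat_lit 493) (nat_lit 494) (nat_lit 3565) (.f (nat_lit 525) (nat_lit 492) (nat_lit 3564) (.d (nat_lit 557) (nat_lit 556) (nat_lit 1548) (nat_lit 558) (nat_lit 1549)))) (.f (nat_lit 497) (nat_lit 498) (nat_lit 2542) (.f (nat_lit 561) (nat_lit 562) (nat_lit 526) (.f (nat_lit 593) (nat_lit 624) (nat_lit 5616) (.d (nat_lit 496) (nat_lit 464) (nat_lit 7632) (nat_lit 625) (nat_lit 7664)))))))) (.a s14436 (.a s18311 (.a (.p (nat_lit 526) (.a (.f (nat_lit 497) (nat_lit 498) (nat_lit 2542) (.f (nat_lit 560) (nat_lit 624) (nat_lit 6640) (.d (nat_lit 465) (nat_lit 433) (nat_lit 5552) (nat_lit 496) (nat_lit 6608)))) (.a (.f (nat_lit 497) (nat_lit 498) (nat_lit 2542) (.f (nat_lit 525) (nat_lit 496) (nat_lit 2541) (.d (nat_lit 493) (nat_lit 492) (nat_lit 3564) (nat_lit 494) (nat_lit 3565)))) (.f (nat_lit 493) (nat_lit 494) (nat_lit 3565) (.f (nat_lit 525) (nat_lit 492) (nat_lit 3564) (.d (nat_lit 557) (nat_lit 556) (nat_lit 1548) (nat_lit 558) (nat_lit 1549))))))) (.a s14601 (.a s14609 s14610)))))))) (.a s16680 (.a s14636 (.a s14643 s18435)))))))))))))))))))))))))))))))))))))))))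
end Vale.Agent.Lib.P062.Full
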