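import Vale.Agent.Lib.P062.Full.K_0

set_option maxRecDepth 100000
set_option linter.all false

namespace Vale.Agent.Lib.P062.Full
open Vale.Agent.Lib.P062 Vale.Agent.Lib.P062.V2

noncomputable def s1880 : Cert := .r (nat_lit 1886981213948485352092327323146834657890604868902436194926973625766017670724988954377142499401928823119002198215480801112542213394263973847255284606791848891950986952704) (.p (nat_lit 463) (.a (.f (nat_lit 430) (nat_lit 462) (nat_lit 7598) (.f (nat_lit 431) (nat_lit 398) (nat_lit 7566) (.d (nat_lit 432) (nat_lit 400) (nat_lit 6543) (nat_lit 464) (nat_lit 6575)))) (.a (.f (nat_lit 430) (nat_lit 462) (nat_lit 7598) (.f (nat_lit 431) (nat_lit 398) (nat_lit 7566) (.f (nat_lit 399) (nat_lit 494) (nat_lit 5518) (.d (nat_lit 400) (nat_lit 368) (nat_lit 6511) (nat_lit 432) (nat_lit 6543))))) (.a (.f (nat_lit 462) (nat_lit 430) (nat_lit 7598) (.f (nat_lit 591) (nat_lit 494) (nat_lit 7630) (.f (nat_lit 622) (nat_lit 590) (nat_lit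 5614) (.f (nat_lit 623) (nat_lit 654) (nat_lit 5646) (.d (nat_lit 624) (nat_lit 592) (nat_lit 4591) (nat_lit 656) (nat_lit 4623)))))) (.a (.f (nat_lit 432) (nat_lit 464) (nat_lit 6575) (.f (nat_lit 431) (nat_lit 400) (nat_lit 6543) (.f (nat_lit 398) (nat_lit 430) (nat_lit 7566) (.d (nat_lit 399) (nat_lit 366) (nat_lit 7534) (nat_lit 494) (nat_lit 5518))))) (.f (nat_lit 432) (nat_lit 464) (nat_lit 6575) (.f (nat_lit 431) (nat_lit 400) (nat_lit 6543) (.f (nat_lit 494) (nat_lit 399) (nat_lit 5518) (.d (nat_lit 591) (nat_lit 462) (nat_lit 7630) (nat_lit 623) (nat_lit 7662))))))))))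
noncomputable def s1905 : Cert := .r (nat_lit 1886981213948485352092327323146834657890604868902436194926973625766017670724988954377142499401928823119002198215480801112542213394263973847255284606791848891950986952704) (.p (nat_lit 591) (.a (.f (nat_lit 590) (nat_lit 622) (nat_lit 5614) (.f (nat_lit 558) (nat_lit 463) (nat_lit 5582) (.f (nat_lit 557) (nat_lit 556) (nat_lit 2572) (.d (nat_lit 592) (nat_lit 593) (nat_lit 3629) (nat_lit 624) (nat_lit 4591))))) (.a (.f (nat_lit 590) (nat_lit 622) (nat_lit 5614) (.f (nat_lit 463) (nat_lit 558) (nat_lit 5582) (.f (nat_lit 430) (nat_lit 462) (nat_lit 7598) (.f (nat_lit 431) (nat_lit 398) (nat_lit 7566) (.d (nat_lit 432) (nat_lit 400) (nat_lit 6543) (nat_lit 464) (nat_lit 6575)))))) (.a (.f (nat_lit 622) (nat_lit 590) (nat_lit 5614) (.f (nat_lit 623) (nat_lit 654) (nat_lit 5646) (.d (nat_lit 624) (nat_lit 592) (nat_lit 4591) (nat_lit 656) (nat_lit 4623)))) (.a (.f (nat_lit 624) (nat_lit 592) (nat_lit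 4591) (.f (nat_lit 623) (nat_lit 656) (nat_lit 4623) (.f (nat_lit 654) (nat_lit 622) (nat_lit 5646) (.d (nat_lit 655) (nat_lit 558) (nat_lit 7694) (nat_lit 686) (nat_lit 5678))))) (.f (nat_lit 624) (nat_lit 592) (nat_lit 4591) (.f (nat_lit 623) (nat_lit 656) (nat_lit 4623) (.f (nat_lit 558) (nat_lit 655) (nat_lit 7694) (.d (nat_lit 463) (nat_lit 431) (nat_lit 5550) (nat_lit 590) (nat_lit 5582))))))))))
noncomputable def s28014 : Cert := .r (nat_lit 1537714675869256576155945778994232080668353507232100411704359814857561673081074955675453359508165820314914373751691712200315325311936528214016582337209772802048) (.p (nat_lit 529) (.a (.f (nat_lit 494) (nat_lit 493) (nat_lit 3565) (.f (nat_lit 558) (nat_lit 557) (nat_lit 1549) (.d (nat_lit 530) (nat_lit 495) (nat_lit 3566) (nat_lit 559) (nat_lit 1550)))) (.a (.f (nat_lit 493) (nat_lit 494) (nat_lit 3565) (.f (nat_lit 525) (nat_lit 492) (nat_lit 3564) (.d (nat_lit 557) (nat_lit 556) (nat_lit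 1548) (nat_lit 558) (nat_lit 1549)))) (.a (.f (nat_lit 558) (nat_lit 557) (nat_lit 1549) (.f (nat_lit 559) (nat_lit 530) (nat_lit 1550) (.f (nat_lit 561) (nat_lit 562) (nat_lit 526) (.f (nat_lit 560) (nat_lit 525) (nat_lit 525) (.f (nat_lit 590) (nat_lit 589) (nat_lit 1581) (.d (nat_lit 495) (nat_lit 463) (nat_lit 5582) (nat_lit 622) (nat_lit 6638))))))) (.f (nat_lit 494) (nat_lit 493) (nat_lit 3565) (.f (nat_lit 495) (nat_lit 530) (nat_lit 3566) (.f (nat_lit 561) (nat_lit 562) (nat_lit 526) (.f (nat_lit 560) (nat_lit 525) (nat_lit 525) (.f (nat_lit 592) (nat_lit 624) (nat_lit 7663) (.d (nat_lit 463) (nat_lit 431) (nat_lit 4527) (nat_lit 559) (nat_lit 4559)))))))))))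
noncomputable def s28025 : Cert := .r (nat_lit 1537714675869256576155945778994232080668353507232100411704359814857561673081074955675453359508165820314914373751691712200315325311936528214016582337209772802048) (.p (nat_lit 529) (.a (.f (nat_lit 494) (nat_lit 493) (nat_lit 3565) (.f (nat_lit 558) (nat_lit 557) (nat_lit 1549) (.d (nat_lit 530) (nat_lit 495) (nat_lit 3566) (nat_lit 559) (nat_lit 1550)))) (.a (.f (nat_lit 493) (nat_lit 494) (nat_lit 3565) (.f (nat_lit 525) (nat_lit 492) (nat_lit 3564) (.d (nat_lit 557) (nat_lit 556) (nat_lit 1548) (nat_lit 558) (nat_lit 1549)))) (.a (.f (nat_lit 558) (nat_lit 557) (nat_lit 1549) (.f (nat_lit 559) (nat_lit 530) (nat_lit 1550) (.f (nat_lit 497) (nat_lit 498) (nat_lit 2542) (.f (nat_lit 496) (nat_lit 525) (nat_lit 2541) (.f (nat_lit 464) (nat_lit 432) (nat_lit 5551) (.d (nat_lit 561) (nat_lit 562) (nat_lit 526) (nat_lit 593) (nat_lit 7632))))))) (.f (nat_lit 494) (nat_lit 493) (nat_lit 3565)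 (.f (nat_lit 495) (nat_lit 530) (nat_lit 3566) (.f (nat_lit 497) (nat_lit 498) (nat_lit 2542) (.f (nat_lit 496) (nat_lit 525) (nat_lit 2541) (.f (nat_lit 462) (nat_lit 461) (nat_lit 3533) (.d (nat_lit 430) (nat_lit 398) (nat_lit 4494) (nat_lit 559) (nat_lit 4526)))))))))))
noncomputable def s28044 : Cert := .r (nat_lit 1886981213948485351990033866650080224452692690876573721420203561827171896053636099124138318264282743278900007830296296201577004515277721628217245339732930359034470465536) (.p (nat_lit 560) (.a (.d (nat_lit 525) (nat_lit 524) (nat_lit 524) (nat_lit 561) (nat_lit 525)) (.a (.p (nat_lit 558) (.a (.f (nat_lit 557) (nat_lit 556) (nat_lit 2572) (.f (nat_lit 592) (nat_lit 593) (nat_lit 557) (.d (nat_lit 495) (nat_lit 463) (nat_lit 4559) (nat_lit 624) (nat_lit 7663)))) (.a (.f (nat_lit 557) (nat_lit 556) (nat_lit 2572) (.f (nat_lit 561) (nat_lit 562) (nat_lit 3598) (.d (nat_lit 589) (nat_lit 588) (nat_lit 1580) (nat_lit 590) (nat_lit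 1581)))) (.f (nat_lit 561) (nat_lit 562) (nat_lit 3598) (.f (nat_lit 590) (nat_lit 589) (nat_lit 1581) (.d (nat_lit 495) (nat_lit 463) (nat_lit 5582) (nat_lit 622) (nat_lit 6638))))))) (.p (nat_lit 495) (.a (.d (nat_lit 463) (nat_lit 431) (nat_lit 4527) (nat_lit 592) (nat_lit 4559)) (.a (.f (nat_lit 463) (nat_lit 431) (nat_lit 4527) (.f (nat_lit 558) (nat_lit 590) (nat_lit 5582) (.f (nat_lit 462) (nat_lit 430) (nat_lit 7598) (.f (nat_lit 494) (nat_lit 591) (nat_lit 4558) (.d (nat_lit 557) (nat_lit 556) (nat_lit 2572) (nat_lit 589) (nat_lit 5581)))))) (.f (nat_lit 525) (nat_lit 524) (nat_lit 524) (.f (nat_lit 592) (nat_lit 624) (nat_lit 7663) (.f (nat_lit 557) (nat_lit 556) (nat_lit 1548) (.f (nat_lit 558) (nat_lit 593) (nat_lit 557) (.f (nat_lit 590) (nat_lit 622) (nat_lit 6638) (.d (nat_lit 493) (nat_lit 461) (nat_lit 4557) (nat_lit 492) (nat_lit 3564)))))))))))))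
noncomputable def s28086 : Cert := .r (nat_lit 1886981213948485351990033866650080224452692690876573721420203561827171896053636099124138318264282743278900007830296296201577004515277721628217245339732930359034470465536) (.p (nat_lit 525) (.a (.d (nat_lit 560) (nat_lit 524) (nat_lit 524) (nat_lit 561) (nat_lit 525)) (.a (.f (nat_lit 496) (nat_lit 497) (nat_lit 2541) (.f (nat_lit 524) (nat_lit 495) (nat_lit 2540) (.d (nat_lit 492) (nat_lit 491) (nat_lit 3563) (nat_lit 493) (nat_lit 3564)))) (.f (nat_lit 560) (nat_lit 561) (nat_lit 525) (.f (nat_lit 496) (nat_lit 497) (nat_lit 2541) (.f (nat_lit 464) (nat_lit 432) (nat_lit 5551) (.f (nat_lit 463) (nat_lit 431) (nat_lit 7599) (.f (nat_lit 495) (nat_lit 592) (nat_lit 7631) (.f (nat_lit 493) (nat_lit 492) (nat_lit 3564) (.d (nat_lit 465) (nat_lit 433) (nat_lit 6576) (nat_lit 494) (nat_lit 2509)))))))))))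
noncomputable def s28087 : Cert := .r (nat_lit 1537714675869256576155945778994232080668353507232100411704359814857561673081074955675453359508165820314914373751691712200315325311936528214016582337209772802048) (.p (nat_lit 559) (.a (.p (nat_lit 496) (.a (.f (nat_lit 525) (nat_lit 497) (nat_lit 2541) (.d (nat_lit 524) (nat_lit 495) (nat_lit 2540) (nat_lit 560) (nat_lit 524))) (.a (.f (nat_lit 525) (nat_lit 497) (nat_lit 2541) (.f (nat_lit 495) (nat_lit 524) (nat_lit 2540) (.d (nat_lit 464) (nat_lit 432) (nat_lit 5551) (nat_lit 591) (nat_lit 6607)))) (.a (.f (nat_lit 525) (nat_lit 497) (nat_lit 2541) (.d (nat_lit 560) (nat_lit 524) (nat_lit 524) (nat_lit 561) (nat_lit 525))) (.f (nat_lit 591) (nat_lit 623) (nat_lit 6639) (.d (nat_lit 464) (nat_lit 432) (nat_lit 5551) (nat_lit 495) (nat_lit 6607))))))) (.a s28044 (.a (.p (nat_lit 496) (.a (.f (nat_lit 525) (nat_lit 497) (nat_lit 2541) (.f (nat_lit 495) (nat_lit 524) (nat_lit 2540) (.d (nat_lit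 464) (nat_lit 432) (nat_lit 5551) (nat_lit 591) (nat_lit 6607)))) (.a (.f (nat_lit 525) (nat_lit 497) (nat_lit 2541) (.f (nat_lit 556) (nat_lit 557) (nat_lit 1548) (.f (nat_lit 524) (nat_lit 555) (nat_lit 1547) (.d (nat_lit 492) (nat_lit 491) (nat_lit 3563) (nat_lit 493) (nat_lit 3564))))) (.f (nat_lit 591) (nat_lit 623) (nat_lit 6639) (.d (nat_lit 464) (nat_lit 432) (nat_lit 5551) (nat_lit 495) (nat_lit 6607)))))) (.a (.p (nat_lit 496) (.a (.f (nat_lit 525) (nat_lit 497) (nat_lit 2541) (.d (nat_lit 560) (nat_lit 524) (nat_lit 524) (nat_lit 561) (nat_lit 525))) (.a (.f (nat_lit 525) (nat_lit 497) (nat_lit 2541) (.f (nat_lit 556) (nat_lit 557) (nat_lit 1548) (.f (nat_lit 524) (nat_lit 555) (nat_lit 1547) (.d (nat_lit 492) (nat_lit 491) (nat_lit 3563) (nat_lit 493) (nat_lit 3564))))) (.f (nat_lit 591) (nat_lit 623) (nat_lit 6639) (.d (nat_lit 464) (nat_lit 432) (nat_lit 5551) (nat_lit 560) (nat_lit 5583)))))) (.a (.p (nat_lit 495) (.a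 (.p (nat_lit 464) (.a (.d (nat_lit 432) (nat_lit 463) (nat_lit 6575) (nat_lit 496) (nat_lit 5551)) (.a (.f (nat_lit 463) (nat_lit 432) (nat_lit 6575) (.d (nat_lit 431) (nat_lit 558) (nat_lit 5550) (nat_lit 560) (nat_lit 4527))) (.a (.d (nat_lit 496) (nat_lit 432) (nat_lit 5551) (nat_lit 591) (nat_lit 6607)) (.f (nat_lit 591) (nat_lit 496) (nat_lit 6607) (.d (nat_lit 494) (nat_lit 462) (nat_lit 7630) (nat_lit 623) (nat_lit 7662))))))) (.a (.p (nat_lit 591) (.a (.d (nat_lit 494) (nat_lit 462) (nat_lit 7630) (nat_lit 623) (nat_lit 7662)) (.f (nat_lit 590) (nat_lit 622) (nat_lit 5614) (.f (nat_lit 463) (nat_lit 558) (nat_lit 5582) (.d (nat_lit 560) (nat_lit 431) (nat_lit 4527) (nat_lit 592) (nat_lit 4559)))))) (.a (.p (nat_lit 464) (.a (.d (nat_lit 432) (nat_lit 463) (nat_lit 6575) (nat_lit 496) (nat_lit 5551)) (.a (.f (nat_lit 463) (nat_lit 432) (nat_lit 6575) (.d (nat_lit 558) (nat_lit 431) (nat_lit 5550) (nat_lit 590) (nat_lit 5582)))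 (.a (.d (nat_lit 496) (nat_lit 432) (nat_lit 5551) (nat_lit 591) (nat_lit 6607)) (.f (nat_lit 591) (nat_lit 496) (nat_lit 6607) (.d (nat_lit 494) (nat_lit 462) (nat_lit 7630) (nat_lit 623) (nat_lit 7662))))))) (.a (.p (nat_lit 464) (.a (.d (nat_lit 432) (nat_lit 463) (nat_lit 6575) (nat_lit 496) (nat_lit 5551)) (.a (.f (nat_lit 463) (nat_lit 432) (nat_lit 6575) (.d (nat_lit 431) (nat_lit 558) (nat_lit 5550) (nat_lit 560) (nat_lit 4527))) (.a (.d (nat_lit 496) (nat_lit 432) (nat_lit 5551) (nat_lit 591) (nat_lit 6607)) (.f (nat_lit 591) (nat_lit 496) (nat_lit 6607) (.f (nat_lit 590) (nat_lit 622) (nat_lit 5614) (.f (nat_lit 558) (nat_lit 463) (nat_lit 5582) (.f (nat_lit 592) (nat_lit 624) (nat_lit 4591) (.d (nat_lit 557) (nat_lit 556) (nat_lit 556) (nat_lit 593) (nat_lit 3629)))))))))) (.a (.p (nat_lit 591) (.a (.d (nat_lit 494) (nat_lit 462) (nat_lit 7630) (nat_lit 623) (nat_lit 7662)) (.a (.d (nat_lit 496) (nat_lit 464) (nat_lit 6607)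 (nat_lit 623) (nat_lit 6639)) (.f (nat_lit 494) (nat_lit 462) (nat_lit 7630) (.f (nat_lit 496) (nat_lit 464) (nat_lit 6607) (.f (nat_lit 493) (nat_lit 492) (nat_lit 492) (.f (nat_lit 590) (nat_lit 622) (nat_lit 5614) (.d (nat_lit 461) (nat_lit 460) (nat_lit 3532) (nat_lit 558) (nat_lit 7629))))))))) (.a (.p (nat_lit 463) (.a (.d (nat_lit 431) (nat_lit 558) (nat_lit 5550) (nat_lit 560) (nat_lit 4527)) (.a (.d (nat_lit 558) (nat_lit 431) (nat_lit 5550) (nat_lit 590) (nat_lit 5582)) (.a (.d (nat_lit 560) (nat_lit 431) (nat_lit 4527) (nat_lit 592) (nat_lit 4559)) (.f (nat_lit 558) (nat_lit 590) (nat_lit 5582) (.f (nat_lit 560) (nat_lit 592) (nat_lit 4559) (.f (nat_lit 557) (nat_lit 556) (nat_lit 2572) (.f (nat_lit 462) (nat_lit 430) (nat_lit 7598) (.d (nat_lit 589) (nat_lit 494) (nat_lit 5581) (nat_lit 588) (nat_lit 1580)))))))))) (.p (nat_lit 464) (.a (.d (nat_lit 432) (nat_lit 463) (nat_lit 6575) (nat_lit 496) (nat_lit 5551)) (.a (.f (nat_lit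 463) (nat_lit 432) (nat_lit 6575) (.d (nat_lit 560) (nat_lit 431) (nat_lit 4527) (nat_lit 592) (nat_lit 4559))) (.a (.d (nat_lit 496) (nat_lit 432) (nat_lit 5551) (nat_lit 591) (nat_lit 6607)) (.f (nat_lit 591) (nat_lit 496) (nat_lit 6607) (.d (nat_lit 494) (nat_lit 462) (nat_lit 7630) (nat_lit 623) (nat_lit 7662)))))))))))))) s28086))))))
noncomputable def s28103 : Cert := .r (nat_lit 3295102876862692663191312383559068744289328944068786596509342460409060728030874905018828627517498186389102229467910811857818554239863989030035533579735227432960) (.p (nat_lit 559) (.a (.f (nat_lit 558) (nat_lit 557) (nat_lit 1549) (.f (nat_lit 494) (nat_lit 493) (nat_lit 3565) (.d (nat_lit 462) (nat_lit 430) (nat_lit 4526) (nat_lit 591) (nat_lit 4558)))) (.a (.p (nat_lit 560) (.a (.f (nat_lit 561) (nat_lit 562) (nat_lit 526) (.f (nat_lit 558) (nat_lit 557) (nat_lit 1549) (.f (nat_lit 593) (nat_lit 594) (nat_lit 558) (.d (nat_lit 496) (nat_lit 464) (nat_lit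 4560) (nat_lit 625) (nat_lit 7664))))) (.a (.f (nat_lit 558) (nat_lit 557) (nat_lit 1549) (.f (nat_lit 561) (nat_lit 562) (nat_lit 526) (.f (nat_lit 590) (nat_lit 589) (nat_lit 1581) (.d (nat_lit 495) (nat_lit 463) (nat_lit 5582) (nat_lit 622) (nat_lit 6638))))) (.f (nat_lit 497) (nat_lit 498) (nat_lit 2542) (.f (nat_lit 592) (nat_lit 624) (nat_lit 6640) (.d (nat_lit 465) (nat_lit 433) (nat_lit 5552) (nat_lit 496) (nat_lit 6608))))))) (.f (nat_lit 494) (nat_lit 493) (nat_lit 3565) (.f (nat_lit 591) (nat_lit 623) (nat_lit 7662) (.d (nat_lit 462) (nat_lit 430) (nat_lit 4526) (nat_lit 495) (nat_lit 7630)))))))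
noncomputable def s28110 : Cert := .r (nat_lit 1537714675869256576155945778994232080668353507232100411704359814857561673081074955675453359508165820314914373751691712200315325311936528214016582337209772802048) (.p (nat_lit 529) (.a (.f (nat_lit 561) (nat_lit 562) (nat_lit 526) (.f (nat_lit 497) (nat_lit 498) (nat_lit 2542) (.d (nat_lit 525) (nat_lit 496) (nat_lit 2541) (nat_lit 560) (nat_lit 525)))) (.a (.f (nat_lit 558) (nat_lit 557) (nat_lit 1549) (.f (nat_lit 559) (nat_lit 530) (nat_lit 1550) (.f (nat_lit 561) (nat_lit 562) (nat_lit 526) (.f (nat_lit 560) (nat_lit 525) (nat_lit 525) (.f (nat_lit 590) (nat_lit 589) (nat_lit 1581) (.d (nat_lit 495) (nat_lit 463) (nat_lit 5582) (nat_lit 622) (nat_lit 6638))))))) (.a (.f (nat_lit 558) (nat_lit 557) (nat_lit 1549) (.f (nat_lit 559) (nat_lit 530) (nat_lit 1550) (.f (nat_lit 497) (nat_lit 498) (nat_lit 2542) (.f (nat_lit 496) (nat_lit 525) (nat_lit 2541) (.f (nat_lit 464) (nat_lit 432) (nat_lit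 5551) (.d (nat_lit 561) (nat_lit 562) (nat_lit 526) (nat_lit 593) (nat_lit 7632))))))) (.a (.f (nat_lit 558) (nat_lit 557) (nat_lit 1549) (.f (nat_lit 530) (nat_lit 559) (nat_lit 1550) (.d (nat_lit 562) (nat_lit 561) (nat_lit 526) (nat_lit 563) (nat_lit 527)))) (.f (nat_lit 558) (nat_lit 557) (nat_lit 1549) (.f (nat_lit 559) (nat_lit 530) (nat_lit 1550) (.f (nat_lit 497) (nat_lit 498) (nat_lit 2542) (.f (nat_lit 525) (nat_lit 496) (nat_lit 2541) (.d (nat_lit 524) (nat_lit 523) (nat_lit 523) (nat_lit 560) (nat_lit 524)))))))))))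
noncomputable def s28111 : Cert := .r (nat_lit 1537714675869256576155945778994232080668353507232100411704359814857561673081074955675453359508165820314914373751691712200315325311936528214016582337209772802048) (.p (nat_lit 529) (.a (.f (nat_lit 494) (nat_lit 493) (nat_lit 3565) (.f (nat_lit 558) (nat_lit 557) (nat_lit 1549) (.d (nat_lit 530) (nat_lit 495) (nat_lit 3566) (nat_lit 559) (nat_lit 1550)))) (.a (.f (nat_lit 493) (nat_lit 494) (nat_lit 3565) (.f (nat_lit 525) (nat_lit 492) (nat_lit 3564) (.d (nat_lit 557) (nat_lit 556) (nat_lit 1548) (nat_lit 558) (nat_lit 1549)))) (.a (.f (nat_lit 558) (nat_lit 557) (nat_lit 1549) (.f (nat_lit 559) (nat_lit 530) (nat_lit 1550) (.f (nat_lit 497) (nat_lit 498) (nat_lit 2542) (.f (nat_lit 525) (nat_lit 496) (nat_lit 2541) (.d (nat_lit 524) (nat_lit 523) (nat_lit 523) (nat_lit 560) (nat_lit 524)))))) (.f (nat_lit 494) (nat_lit 493) (nat_lit 3565) (.f (nat_lit 495) (nat_lit 530) (nat_lit 3566) (.f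 (nat_lit 497) (nat_lit 498) (nat_lit 2542) (.f (nat_lit 496) (nat_lit 525) (nat_lit 2541) (.f (nat_lit 462) (nat_lit 461) (nat_lit 3533) (.d (nat_lit 430) (nat_lit 398) (nat_lit 4494) (nat_lit 559) (nat_lit 4526)))))))))))
noncomputable def s28112 : Cert := .r (nat_lit 1537714675869256576155945778994232080668353507232100411704359814857561673081074955675453359508165820314914373751691712200315325311936528214016582337209772802048) (.p (nat_lit 529) (.a (.f (nat_lit 561) (nat_lit 562) (nat_lit 526) (.f (nat_lit 497) (nat_lit 498) (nat_lit 2542) (.d (nat_lit 525) (nat_lit 496) (nat_lit 2541) (nat_lit 560) (nat_lit 525)))) (.a (.f (nat_lit 494) (nat_lit 493) (nat_lit 3565) (.f (nat_lit 495) (nat_lit 530) (nat_lit 3566) (.f (nat_lit 561) (nat_lit 562) (nat_lit 526) (.f (nat_lit 560) (nat_lit 525) (nat_lit 525) (.f (nat_lit 592) (nat_lit 624) (nat_lit 7663) (.d (nat_lit 463) (nat_lit 431) (nat_lit 4527) (nat_lit 559) (nat_lit 4559))))))) (.a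 (.f (nat_lit 494) (nat_lit 493) (nat_lit 3565) (.f (nat_lit 495) (nat_lit 530) (nat_lit 3566) (.f (nat_lit 497) (nat_lit 498) (nat_lit 2542) (.f (nat_lit 496) (nat_lit 525) (nat_lit 2541) (.f (nat_lit 462) (nat_lit 461) (nat_lit 3533) (.d (nat_lit 430) (nat_lit 398) (nat_lit 4494) (nat_lit 559) (nat_lit 4526))))))) (.f (nat_lit 494) (nat_lit 493) (nat_lit 3565) (.f (nat_lit 530) (nat_lit 495) (nat_lit 3566) (.d (nat_lit 562) (nat_lit 561) (nat_lit 526) (nat_lit 563) (nat_lit 527))))))))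
noncomputable def s28114 : Cert := .r (nat_lit 1537714675869256576155945778994232080668353507232100411704359814857561673081074955675453359508165820314914373751691712200315325311936528214016582337209772802048) (.p (nat_lit 529) (.a (.f (nat_lit 494) (nat_lit 493) (nat_lit 3565) (.f (nat_lit 558) (nat_lit 557) (nat_lit 1549) (.d (nat_lit 530) (nat_lit 495) (nat_lit 3566) (nat_lit 559) (nat_lit 1550)))) (.a (.f (nat_lit 493) (nat_lit 494) (nat_lit 3565) (.f (nat_lit 525) (nat_lit 492) (nat_lit 3564) (.d (nat_lit 557) (nat_lit 556) (nat_lit 1548) (nat_lit 558) (nat_lit 1549)))) (.a (.f (nat_lit 558) (nat_lit 557) (nat_lit 1549) (.f (nat_lit 530) (nat_lit 559) (nat_lit 1550) (.d (nat_lit 562) (nat_lit 561) (nat_lit 526) (nat_lit 563) (nat_lit 527)))) (.f (nat_lit 494) (nat_lit 493) (nat_lit 3565) (.f (nat_lit 530) (nat_lit 495) (nat_lit 3566) (.d (nat_lit 562) (nat_lit 561) (nat_lit 526) (nat_lit 563) (nat_lit 527))))))))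
noncomputable def s28115 : Cert := .r (nat_lit 1537714675869256576155945778994232080668353507232100411704359814857561673081074955675453359508165820314914373751691712200315325311936528214016582337209772802048) (.p (nat_lit 529) (.a (.f (nat_lit 493) (nat_lit 494) (nat_lit 3565) (.f (nat_lit 525) (nat_lit 492) (nat_lit 3564) (.d (nat_lit 557) (nat_lit 556) (nat_lit 1548) (nat_lit 558) (nat_lit 1549)))) (.a (.f (nat_lit 494) (nat_lit 493) (nat_lit 3565) (.f (nat_lit 495) (nat_lit 530) (nat_lit 3566) (.f (nat_lit 558) (nat_lit 557) (nat_lit 1549) (.d (nat_lit 463) (nat_lit 431) (nat_lit 5550) (nat_lit 590) (nat_lit 6606))))) (.f (nat_lit 561) (nat_lit 562) (nat_lit 526) (.f (nat_lit 497) (nat_lit 498) (nat_lit 2542) (.f (nat_lit 560) (nat_lit 525) (nat_lit 525) (.d (nat_lit 465) (nat_lit 433) (nat_lit 5552) (nat_lit 592) (nat_lit 5584))))))))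
noncomputable def s28121 : Cert := .r (nat_lit 1886981213948485352092327323146834657890604868902436194926973625766017670724988954377142499401928823119002198215480801112542213394263973847255284606791848891950986952704) (.p (nat_lit 591) (.a (.f (nat_lit 590) (nat_lit 622) (nat_lit 5614) (.f (nat_lit 558) (nat_lit 463) (nat_lit 5582) (.f (nat_lit 557) (nat_lit 556) (nat_lit 2572) (.d (nat_lit 592) (nat_lit 593) (nat_lit 3629) (nat_lit 624) (nat_lit 4591))))) (.a (.f (nat_lit 623) (nat_lit 494) (nat_lit 7662) (.d (nat_lit 622) (nat_lit 590) (nat_lit 5614) (nat_lit 654) (nat_lit 5646))) (.a (.f (nat_lit 624) (nat_lit 592) (nat_lit 4591) (.f (nat_lit 623) (nat_lit 656) (nat_lit 4623) (.f (nat_lit 654) (nat_lit 622) (nat_lit 5646) (.d (nat_lit 655) (nat_lit 558) (nat_lit 7694) (nat_lit 686) (nat_lit 5678))))) (.f (nat_lit 624) (nat_lit 592) (nat_lit 4591) (.f (nat_lit 623) (nat_lit 656) (nat_lit 4623) (.f (nat_lit 558) (nat_lit 655) (nat_lit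 7694) (.d (nat_lit 463) (nat_lit 431) (nat_lit 5550) (nat_lit 590) (nat_lit 5582)))))))))
noncomputable def s28127 : Cert := .r (nat_lit 1886981213948485351990033866650080224452692690876573721420203561827171896053636099124138318264282743278900007830296296201577004515277721628217245339732930359034470465536) (.p (nat_lit 495) (.a (.p (nat_lit 591) (.a (.d (nat_lit 494) (nat_lit 462) (nat_lit 7630) (nat_lit 623) (nat_lit 7662)) (.f (nat_lit 590) (nat_lit 622) (nat_lit 5614) (.f (nat_lit 558) (nat_lit 463) (nat_lit 5582) (.f (nat_lit 557) (nat_lit 556) (nat_lit 2572) (.d (nat_lit 592) (nat_lit 593) (nat_lit 3629) (nat_lit 624) (nat_lit 4591))))))) (.a (.p (nat_lit 591) (.a (.d (nat_lit 494) (nat_lit 462) (nat_lit 7630) (nat_lit 623) (nat_lit 7662)) (.a (.f (nat_lit 590) (nat_lit 622) (nat_lit 5614) (.f (nat_lit 463) (nat_lit 558) (nat_lit 5582) (.f (nat_lit 430) (nat_lit 462) (nat_lit 7598) (.f (nat_lit 431) (nat_lit 398) (nat_lit 7566)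 (.d (nat_lit 432) (nat_lit 400) (nat_lit 6543) (nat_lit 464) (nat_lit 6575)))))) (.f (nat_lit 623) (nat_lit 494) (nat_lit 7662) (.d (nat_lit 622) (nat_lit 590) (nat_lit 5614) (nat_lit 654) (nat_lit 5646)))))) (.a s1905 (.a (.p (nat_lit 591) (.a (.d (nat_lit 494) (nat_lit 462) (nat_lit 7630) (nat_lit 623) (nat_lit 7662)) (.a (.f (nat_lit 622) (nat_lit 590) (nat_lit 5614) (.f (nat_lit 623) (nat_lit 654) (nat_lit 5646) (.d (nat_lit 624) (nat_lit 592) (nat_lit 4591) (nat_lit 656) (nat_lit 4623)))) (.f (nat_lit 494) (nat_lit 462) (nat_lit 7630) (.f (nat_lit 493) (nat_lit 492) (nat_lit 492) (.f (nat_lit 590) (nat_lit 622) (nat_lit 5614) (.f (nat_lit 558) (nat_lit 461) (nat_lit 7629) (.f (nat_lit 557) (nat_lit 556) (nat_lit 2572) (.d (nat_lit 592) (nat_lit 593) (nat_lit 3629) (nat_lit 624) (nat_lit 4591)))))))))) (.a (.p (nat_lit 463) (.a (.d (nat_lit 558) (nat_lit 431) (nat_lit 5550) (nat_lit 590) (nat_lit 5582)) (.a (.f (nat_lit 430) (nat_lit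 462) (nat_lit 7598) (.f (nat_lit 431) (nat_lit 398) (nat_lit 7566) (.d (nat_lit 432) (nat_lit 400) (nat_lit 6543) (nat_lit 464) (nat_lit 6575)))) (.f (nat_lit 558) (nat_lit 590) (nat_lit 5582) (.f (nat_lit 557) (nat_lit 556) (nat_lit 2572) (.f (nat_lit 462) (nat_lit 430) (nat_lit 7598) (.f (nat_lit 494) (nat_lit 589) (nat_lit 5581) (.f (nat_lit 493) (nat_lit 492) (nat_lit 492) (.d (nat_lit 464) (nat_lit 432) (nat_lit 6575) (nat_lit 465) (nat_lit 1485)))))))))) (.a s1880 (.a s28121 (.p (nat_lit 591) (.a (.d (nat_lit 494) (nat_lit 462) (nat_lit 7630) (nat_lit 623) (nat_lit 7662)) (.a (.f (nat_lit 624) (nat_lit 592) (nat_lit 4591) (.f (nat_lit 623) (nat_lit 656) (nat_lit 4623) (.f (nat_lit 654) (nat_lit 622) (nat_lit 5646) (.d (nat_lit 655) (nat_lit 558) (nat_lit 7694) (nat_lit 686) (nat_lit 5678))))) (.f (nat_lit 462) (nat_lit 494) (nat_lit 7630) (.f (nat_lit 463) (nat_lit 430) (nat_lit 7598) (.f (nat_lit 431) (nat_lit 558) (nat_lit 5550)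 (.d (nat_lit 432) (nat_lit 400) (nat_lit 6543) (nat_lit 464) (nat_lit 6575))))))))))))))))
noncomputable def s28133 : Cert := .r (nat_lit 5660943638770026704231588447638349115369613911293014149796409862072796058445784951210265043441941510820368382861060141101347589145202514260778679591165626402683865792512) (.p (nat_lit 558) (.a (.f (nat_lit 557) (nat_lit 556) (nat_lit 2572) (.f (nat_lit 561) (nat_lit 562) (nat_lit 3598) (.d (nat_lit 589) (nat_lit 588) (nat_lit 1580) (nat_lit 590) (nat_lit 1581)))) (.a (.f (nat_lit 557) (nat_lit 556) (nat_lit 2572) (.f (nat_lit 589) (nat_lit 588) (nat_lit 1580) (.f (nat_lit 494) (nat_lit 462) (nat_lit 5581) (.d (nat_lit 621) (nat_lit 590) (nat_lit 5613) (nat_lit 653) (nat_lit 6669))))) (.a (.f (nat_lit 561) (nat_lit 562) (nat_lit 3598) (.f (nat_lit 590) (nat_lit 589) (nat_lit 1581) (.f (nat_lit 622) (nat_lit 654) (nat_lit 6670) (.f (nat_lit 623) (nat_lit 655) (nat_lit 4622) (.f (nat_lit 494) (nat_lit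 591) (nat_lit 4590) (.f (nat_lit 462) (nat_lit 430) (nat_lit 4526) (.d (nat_lit 461) (nat_lit 429) (nat_lit 7597) (nat_lit 493) (nat_lit 7629)))))))) (.f (nat_lit 557) (nat_lit 556) (nat_lit 2572) (.f (nat_lit 561) (nat_lit 562) (nat_lit 3598) (.d (nat_lit 593) (nat_lit 592) (nat_lit 557) (nat_lit 594) (nat_lit 558))))))))
noncomputable def s28136 : Cert := .r (nat_lit 5660943638770026704231588447638349115369613911293014149796409862072796058445784951210265043441941510820368382861060141101347589145202514260778679591165626402683865792512) (.p (nat_lit 558) (.a (.f (nat_lit 557) (nat_lit 556) (nat_lit 2572) (.f (nat_lit 589) (nat_lit 588) (nat_lit 1580) (.f (nat_lit 494) (nat_lit 462) (nat_lit 5581) (.d (nat_lit 621) (nat_lit 590) (nat_lit 5613) (nat_lit 653) (nat_lit 6669))))) (.a (.f (nat_lit 557) (nat_lit 556) (nat_lit 2572) (.f (nat_lit 525) (nat_lit 524) (nat_lit 524) (.f (nat_lit 493) (nat_lit 492) (nat_lit 3564) (.d (nat_lit 461)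 (nat_lit 429) (nat_lit 4525) (nat_lit 590) (nat_lit 4557))))) (.a (.f (nat_lit 525) (nat_lit 524) (nat_lit 524) (.f (nat_lit 493) (nat_lit 492) (nat_lit 3564) (.f (nat_lit 590) (nat_lit 622) (nat_lit 7661) (.d (nat_lit 461) (nat_lit 429) (nat_lit 4525) (nat_lit 494) (nat_lit 7629))))) (.f (nat_lit 557) (nat_lit 556) (nat_lit 2572) (.f (nat_lit 525) (nat_lit 524) (nat_lit 524) (.f (nat_lit 589) (nat_lit 588) (nat_lit 1580) (.d (nat_lit 494) (nat_lit 462) (nat_lit 5581) (nat_lit 621) (nat_lit 6637)))))))))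
noncomputable def s28137 : Cert := .r (nat_lit 1886981213948485351990033866650080224452692690876573721420203561827171896053636099124138318264282743278900007830296296201577004515277721628217245339732930359034470465536) (.p (nat_lit 560) (.a (.d (nat_lit 525) (nat_lit 524) (nat_lit 524) (nat_lit 561) (nat_lit 525)) (.a s28133 s28136)))
noncomputable def s28147 : Cert := .r (nat_lit 1886981213948485351990033866650080224452692690876573721420203561827171896053636099124138318264282743278900007830296296201577004515277721628217245339732930359034470465536) (.p (nat_lit 495) (.a (.p (nat_lit 591) (.a (.d (nat_lit 494) (nat_lit 462) (nat_lit 7630) (nat_lit 623) (nat_lit 7662)) (.a (.f (nat_lit 590) (nat_lit 622) (nat_lit 5614) (.f (nat_lit 463) (nat_lit 558) (nat_lit 5582) (.f (nat_lit 430) (nat_lit 462) (nat_lit 7598) (.f (nat_lit 431) (nat_lit 398) (nat_lit 7566) (.d (nat_lit 432) (nat_lit 400) (nat_lit 6543) (nat_lit 464) (nat_lit 6575))))))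 (.f (nat_lit 623) (nat_lit 494) (nat_lit 7662) (.d (nat_lit 622) (nat_lit 590) (nat_lit 5614) (nat_lit 654) (nat_lit 5646)))))) (.a (.p (nat_lit 560) (.a (.f (nat_lit 463) (nat_lit 431) (nat_lit 4527) (.f (nat_lit 558) (nat_lit 590) (nat_lit 5582) (.f (nat_lit 462) (nat_lit 430) (nat_lit 7598) (.f (nat_lit 494) (nat_lit 591) (nat_lit 4558) (.d (nat_lit 557) (nat_lit 556) (nat_lit 2572) (nat_lit 589) (nat_lit 5581)))))) (.d (nat_lit 525) (nat_lit 524) (nat_lit 524) (nat_lit 561) (nat_lit 525)))) (.a (.p (nat_lit 525) (.a (.f (nat_lit 556) (nat_lit 557) (nat_lit 1548) (.f (nat_lit 524) (nat_lit 555) (nat_lit 1547) (.d (nat_lit 492) (nat_lit 491) (nat_lit 3563) (nat_lit 493) (nat_lit 3564)))) (.a (.f (nat_lit 492) (nat_lit 493) (nat_lit 3564) (.f (nat_lit 524) (nat_lit 491) (nat_lit 3563) (.f (nat_lit 558) (nat_lit 523) (nat_lit 523) (.d (nat_lit 463) (nat_lit 431) (nat_lit 5550) (nat_lit 590) (nat_lit 5582))))) (.a (.f (nat_lit 560) (nat_lit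 561) (nat_lit 525) (.f (nat_lit 463) (nat_lit 431) (nat_lit 4527) (.f (nat_lit 590) (nat_lit 558) (nat_lit 5582) (.f (nat_lit 622) (nat_lit 591) (nat_lit 5614) (.f (nat_lit 557) (nat_lit 556) (nat_lit 1548) (.d (nat_lit 493) (nat_lit 492) (nat_lit 3564) (nat_lit 589) (nat_lit 4589))))))) (.f (nat_lit 556) (nat_lit 557) (nat_lit 1548) (.f (nat_lit 524) (nat_lit 555) (nat_lit 1547) (.f (nat_lit 558) (nat_lit 523) (nat_lit 523) (.d (nat_lit 463) (nat_lit 431) (nat_lit 5550) (nat_lit 590) (nat_lit 5582))))))))) (.a s1979 (.a (.p (nat_lit 463) (.a (.d (nat_lit 558) (nat_lit 431) (nat_lit 5550) (nat_lit 590) (nat_lit 5582)) (.a (.f (nat_lit 430) (nat_lit 462) (nat_lit 7598) (.f (nat_lit 431) (nat_lit 398) (nat_lit 7566) (.d (nat_lit 432) (nat_lit 400) (nat_lit 6543) (nat_lit 464) (nat_lit 6575)))) (.f (nat_lit 558) (nat_lit 590) (nat_lit 5582) (.f (nat_lit 557) (nat_lit 556) (nat_lit 2572) (.f (nat_lit 462) (nat_lit 430) (nat_lit 7598) (.f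 (nat_lit 494) (nat_lit 589) (nat_lit 5581) (.f (nat_lit 493) (nat_lit 492) (nat_lit 492) (.d (nat_lit 464) (nat_lit 432) (nat_lit 6575) (nat_lit 465) (nat_lit 1485)))))))))) (.a (.p (nat_lit 560) (.a (.d (nat_lit 525) (nat_lit 524) (nat_lit 524) (nat_lit 561) (nat_lit 525)) (.f (nat_lit 463) (nat_lit 431) (nat_lit 4527) (.f (nat_lit 462) (nat_lit 430) (nat_lit 7598) (.f (nat_lit 591) (nat_lit 494) (nat_lit 7630) (.f (nat_lit 623) (nat_lit 655) (nat_lit 6671) (.d (nat_lit 622) (nat_lit 590) (nat_lit 5614) (nat_lit 654) (nat_lit 5646)))))))) (.p (nat_lit 560) (.a (.d (nat_lit 525) (nat_lit 524) (nat_lit 524) (nat_lit 561) (nat_lit 525)) (.f (nat_lit 463) (nat_lit 431) (nat_lit 4527) (.f (nat_lit 462) (nat_lit 430) (nat_lit 7598) (.f (nat_lit 494) (nat_lit 591) (nat_lit 7630) (.f (nat_lit 493) (nat_lit 492) (nat_lit 492) (.d (nat_lit 464) (nat_lit 432) (nat_lit 6575) (nat_lit 465) (nat_lit 1485)))))))))))))))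
noncomputable def s28149 : Cert := .r (nat_lit 1886981213948485351990033866650080224452692690876573721420203561827171896053636099124138318264282743278900007830296296201577004515277721628217245339732930359034470465536) (.p (nat_lit 560) (.a (.d (nat_lit 525) (nat_lit 524) (nat_lit 524) (nat_lit 561) (nat_lit 525)) (.a (.p (nat_lit 558) (.a (.f (nat_lit 557) (nat_lit 556) (nat_lit 2572) (.f (nat_lit 592) (nat_lit 593) (nat_lit 557) (.d (nat_lit 495) (nat_lit 463) (nat_lit 4559) (nat_lit 624) (nat_lit 7663)))) (.a (.f (nat_lit 557) (nat_lit 556) (nat_lit 2572) (.f (nat_lit 561) (nat_lit 562) (nat_lit 3598) (.d (nat_lit 589) (nat_lit 588) (nat_lit 1580) (nat_lit 590) (nat_lit 1581)))) (.f (nat_lit 561) (nat_lit 562) (nat_lit 3598) (.f (nat_lit 590) (nat_lit 589) (nat_lit 1581) (.d (nat_lit 495) (nat_lit 463) (nat_lit 5582) (nat_lit 622) (nat_lit 6638))))))) (.p (nat_lit 495) (.a (.d (nat_lit 463) (nat_lit 431) (nat_lit 4527) (nat_lit 592)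 (nat_lit 4559)) (.a (.f (nat_lit 463) (nat_lit 431) (nat_lit 4527) (.f (nat_lit 525) (nat_lit 524) (nat_lit 524) (.f (nat_lit 590) (nat_lit 558) (nat_lit 5582) (.f (nat_lit 622) (nat_lit 591) (nat_lit 5614) (.f (nat_lit 557) (nat_lit 556) (nat_lit 1548) (.d (nat_lit 493) (nat_lit 492) (nat_lit 3564) (nat_lit 589) (nat_lit 4589))))))) (.f (nat_lit 525) (nat_lit 524) (nat_lit 524) (.f (nat_lit 592) (nat_lit 624) (nat_lit 7663) (.f (nat_lit 557) (nat_lit 556) (nat_lit 1548) (.f (nat_lit 558) (nat_lit 593) (nat_lit 557) (.f (nat_lit 590) (nat_lit 622) (nat_lit 6638) (.d (nat_lit 493) (nat_lit 461) (nat_lit 4557) (nat_lit 492) (nat_lit 3564)))))))))))))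
noncomputable def s28150 : Cert := .r (nat_lit 1886981213948485351990033866650080224452692690876573721420203561827171896053636099124138318264282743278900007830296296201577004515277721628217245339732930359034470465536) (.p (nat_lit 560) (.a (.d (nat_lit 525) (nat_lit 524) (nat_lit 524) (nat_lit 561) (nat_lit 525)) (.a (.p (nat_lit 558) (.a (.f (nat_lit 557) (nat_lit 556) (nat_lit 2572) (.f (nat_lit 592) (nat_lit 593) (nat_lit 557) (.d (nat_lit 495) (nat_lit 463) (nat_lit 4559) (nat_lit 624) (nat_lit 7663)))) (.a (.f (nat_lit 557) (nat_lit 556) (nat_lit 2572) (.f (nat_lit 561) (nat_lit 562) (nat_lit 3598) (.d (nat_lit 589) (nat_lit 588) (nat_lit 1580) (nat_lit 590) (nat_lit 1581)))) (.f (nat_lit 561) (nat_lit 562) (nat_lit 3598) (.f (nat_lit 590) (nat_lit 589) (nat_lit 1581) (.d (nat_lit 495) (nat_lit 463) (nat_lit 5582) (nat_lit 622) (nat_lit 6638))))))) s28136)))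
noncomputable def s28154 : Cert := .r (nat_lit 1886981213948485351990033866650080224452692690876573721420203561827171896053636099124138318264282743278900007830296296201577004515277721628217245339732930359034470465536) (.p (nat_lit 525) (.a (.d (nat_lit 560) (nat_lit 524) (nat_lit 524) (nat_lit 561) (nat_lit 525)) (.a (.f (nat_lit 492) (nat_lit 493) (nat_lit 3564) (.f (nat_lit 524) (nat_lit 491) (nat_lit 3563) (.d (nat_lit 556) (nat_lit 555) (nat_lit 1547) (nat_lit 557) (nat_lit 1548)))) (.p (nat_lit 494) (.a (.f (nat_lit 462) (nat_lit 430) (nat_lit 4526) (.d (nat_lit 591) (nat_lit 495) (nat_lit 7630) (nat_lit 623) (nat_lit 7662))) (.a (.f (nat_lit 557) (nat_lit 556) (nat_lit 1548) (.f (nat_lit 462) (nat_lit 430) (nat_lit 4526) (.d (nat_lit 493) (nat_lit 492) (nat_lit 3564) (nat_lit 589) (nat_lit 6605)))) (.f (nat_lit 560) (nat_lit 561) (nat_lit 525) (.f (nat_lit 493) (nat_lit 492) (nat_lit 3564) (.f (nat_lit 557) (nat_lit 556) (nat_lit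 1548) (.f (nat_lit 589) (nat_lit 621) (nat_lit 6637) (.f (nat_lit 591) (nat_lit 623) (nat_lit 7662) (.d (nat_lit 588) (nat_lit 590) (nat_lit 2604) (nat_lit 620) (nat_lit 5612)))))))))))))
noncomputable def s28155 : Cert := .r (nat_lit 1886981213948485352092327323146834657890604868902436194926973625766017670724988954377142499401928823119002198215480801112542213394263973847255284606791848891950986952704) (.p (nat_lit 591) (.a (.d (nat_lit 494) (nat_lit 462) (nat_lit 7630) (nat_lit 623) (nat_lit 7662)) (.a (.f (nat_lit 622) (nat_lit 590) (nat_lit 5614) (.f (nat_lit 623) (nat_lit 654) (nat_lit 5646) (.d (nat_lit 624) (nat_lit 592) (nat_lit 4591) (nat_lit 656) (nat_lit 4623)))) (.f (nat_lit 494) (nat_lit 462) (nat_lit 7630) (.f (nat_lit 493) (nat_lit 492) (nat_lit 492) (.f (nat_lit 590) (nat_lit 622) (nat_lit 5614) (.f (nat_lit 592) (nat_lit 624) (nat_lit 4591) (.f (nat_lit 558) (nat_lit 461) (nat_lit 7629) (.f (nat_lit 589) (nat_lit 621)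 (nat_lit 5613) (.d (nat_lit 560) (nat_lit 561) (nat_lit 2605) (nat_lit 588) (nat_lit 2604)))))))))))
noncomputable def s28156 : Cert := .r (nat_lit 1886981213948485351990033866650080224452692690876573721420203561827171896053636099124138318264282743278900007830296296201577004515277721628217245339732930359034470465536) (.p (nat_lit 495) (.a (.p (nat_lit 591) (.a (.d (nat_lit 494) (nat_lit 462) (nat_lit 7630) (nat_lit 623) (nat_lit 7662)) (.f (nat_lit 590) (nat_lit 622) (nat_lit 5614) (.f (nat_lit 463) (nat_lit 558) (nat_lit 5582) (.d (nat_lit 560) (nat_lit 431) (nat_lit 4527) (nat_lit 592) (nat_lit 4559)))))) (.a (.p (nat_lit 591) (.a (.d (nat_lit 494) (nat_lit 462) (nat_lit 7630) (nat_lit 623) (nat_lit 7662)) (.a (.f (nat_lit 590) (nat_lit 622) (nat_lit 5614) (.f (nat_lit 463) (nat_lit 558) (nat_lit 5582) (.f (nat_lit 430) (nat_lit 462) (nat_lit 7598) (.f (nat_lit 431) (nat_lit 398) (nat_lit 7566) (.d (nat_lit 432) (nat_lit 400) (nat_lit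 6543) (nat_lit 464) (nat_lit 6575)))))) (.f (nat_lit 623) (nat_lit 494) (nat_lit 7662) (.d (nat_lit 622) (nat_lit 590) (nat_lit 5614) (nat_lit 654) (nat_lit 5646)))))) (.a (.p (nat_lit 560) (.a (.d (nat_lit 463) (nat_lit 431) (nat_lit 4527) (nat_lit 592) (nat_lit 4559)) (.d (nat_lit 525) (nat_lit 524) (nat_lit 524) (nat_lit 561) (nat_lit 525)))) s28155))))
noncomputable def s28164 : Cert := .r (nat_lit 1886981213948485351990033866650080224452692690876573721420203561827171896053636099124138318264282743278900007830296296201577004515277721628217245339732930359034470465536) (.p (nat_lit 560) (.a (.d (nat_lit 525) (nat_lit 524) (nat_lit 524) (nat_lit 561) (nat_lit 525)) (.a (.p (nat_lit 558) (.a (.f (nat_lit 557) (nat_lit 556) (nat_lit 2572) (.f (nat_lit 592) (nat_lit 593) (nat_lit 557) (.d (nat_lit 495) (nat_lit 463) (nat_lit 4559) (nat_lit 624) (nat_lit 7663)))) (.a (.f (nat_lit 557) (nat_lit 556) (nat_lit 2572) (.f (nat_lit 561) (nat_lit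 562) (nat_lit 3598) (.d (nat_lit 589) (nat_lit 588) (nat_lit 1580) (nat_lit 590) (nat_lit 1581)))) (.f (nat_lit 561) (nat_lit 562) (nat_lit 3598) (.f (nat_lit 590) (nat_lit 589) (nat_lit 1581) (.d (nat_lit 495) (nat_lit 463) (nat_lit 5582) (nat_lit 622) (nat_lit 6638))))))) (.p (nat_lit 495) (.a (.d (nat_lit 463) (nat_lit 431) (nat_lit 4527) (nat_lit 592) (nat_lit 4559)) (.a (.f (nat_lit 463) (nat_lit 431) (nat_lit 4527) (.f (nat_lit 558) (nat_lit 590) (nat_lit 5582) (.f (nat_lit 462) (nat_lit 430) (nat_lit 7598) (.f (nat_lit 494) (nat_lit 591) (nat_lit 4558) (.d (nat_lit 557) (nat_lit 556) (nat_lit 2572) (nat_lit 589) (nat_lit 5581)))))) (.f (nat_lit 592) (nat_lit 624) (nat_lit 7663) (.f (nat_lit 525) (nat_lit 524) (nat_lit 524) (.f (nat_lit 557) (nat_lit 556) (nat_lit 1548) (.f (nat_lit 558) (nat_lit 593) (nat_lit 557) (.f (nat_lit 589) (nat_lit 588) (nat_lit 1580) (.d (nat_lit 494) (nat_lit 462) (nat_lit 5581) (nat_lit 621) (nat_lit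 6637)))))))))))))
noncomputable def s28175 : Cert := .r (nat_lit 1886981213948485352092327323146834657890604868902436194926973625766017670724988954377142499401928823119002198215480801112542213394263973847255284606791848891950986952704) (.p (nat_lit 525) (.a (.f (nat_lit 492) (nat_lit 493) (nat_lit 3564) (.f (nat_lit 524) (nat_lit 491) (nat_lit 3563) (.d (nat_lit 523) (nat_lit 494) (nat_lit 2539) (nat_lit 558) (nat_lit 523)))) (.a (.f (nat_lit 556) (nat_lit 557) (nat_lit 1548) (.f (nat_lit 524) (nat_lit 555) (nat_lit 1547) (.d (nat_lit 492) (nat_lit 491) (nat_lit 3563) (nat_lit 493) (nat_lit 3564)))) (.a (.f (nat_lit 560) (nat_lit 561) (nat_lit 525) (.f (nat_lit 592) (nat_lit 624) (nat_lit 7663) (.f (nat_lit 557) (nat_lit 556) (nat_lit 1548) (.f (nat_lit 493) (nat_lit 492) (nat_lit 3564) (.f (nat_lit 558) (nat_lit 593) (nat_lit 557) (.f (nat_lit 589) (nat_lit 588) (nat_lit 1580) (.d (nat_lit 494) (nat_lit 462) (nat_lit 6605) (nat_lit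 621) (nat_lit 6637)))))))) (.f (nat_lit 556) (nat_lit 557) (nat_lit 1548) (.f (nat_lit 524) (nat_lit 555) (nat_lit 1547) (.d (nat_lit 523) (nat_lit 494) (nat_lit 2539) (nat_lit 558) (nat_lit 523))))))))
noncomputable def s28176 : Cert := .r (nat_lit 1886981213948485351990033866650080224452692690876573721420203561827171896053636099124138318264282743278900007830296296201577004515277721628217245339732930359034470465536) (.p (nat_lit 495) (.a (.p (nat_lit 591) (.a (.d (nat_lit 494) (nat_lit 462) (nat_lit 7630) (nat_lit 623) (nat_lit 7662)) (.a (.f (nat_lit 624) (nat_lit 592) (nat_lit 4591) (.f (nat_lit 623) (nat_lit 656) (nat_lit 4623) (.f (nat_lit 654) (nat_lit 622) (nat_lit 5646) (.d (nat_lit 655) (nat_lit 558) (nat_lit 7694) (nat_lit 686) (nat_lit 5678))))) (.f (nat_lit 462) (nat_lit 494) (nat_lit 7630) (.f (nat_lit 463) (nat_lit 430) (nat_lit 7598) (.f (nat_lit 431) (nat_lit 558) (nat_lit 5550) (.d (nat_lit 432) (nat_lit 400) (nat_lit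 6543) (nat_lit 464) (nat_lit 6575)))))))) (.a (.p (nat_lit 560) (.a (.d (nat_lit 525) (nat_lit 524) (nat_lit 524) (nat_lit 561) (nat_lit 525)) (.f (nat_lit 463) (nat_lit 431) (nat_lit 4527) (.f (nat_lit 462) (nat_lit 430) (nat_lit 7598) (.f (nat_lit 494) (nat_lit 591) (nat_lit 7630) (.f (nat_lit 493) (nat_lit 492) (nat_lit 492) (.d (nat_lit 464) (nat_lit 432) (nat_lit 6575) (nat_lit 465) (nat_lit 1485)))))))) (.a (.p (nat_lit 560) (.a (.d (nat_lit 463) (nat_lit 431) (nat_lit 4527) (nat_lit 592) (nat_lit 4559)) (.d (nat_lit 525) (nat_lit 524) (nat_lit 524) (nat_lit 561) (nat_lit 525)))) s28175))))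
noncomputable def s28177 : Cert := .r (nat_lit 1886981213948485351990033866650080224452692690876573721420203561827171896053636099124138318264282743278900007830296296201577004515277721628217245339732930359034470465536) (.p (nat_lit 495) (.a (.p (nat_lit 591) (.a (.d (nat_lit 494) (nat_lit 462) (nat_lit 7630) (nat_lit 623) (nat_lit 7662)) (.f (nat_lit 590) (nat_lit 622) (nat_lit 5614) (.f (nat_lit 463) (nat_lit 558) (nat_lit 5582) (.d (nat_lit 560) (nat_lit 431) (nat_lit 4527) (nat_lit 592) (nat_lit 4559)))))) (.a (.p (nat_lit 591) (.a (.d (nat_lit 494) (nat_lit 462) (nat_lit 7630) (nat_lit 623) (nat_lit 7662)) (.f (nat_lit 590) (nat_lit 622) (nat_lit 5614) (.f (nat_lit 558) (nat_lit 463) (nat_lit 5582) (.f (nat_lit 557) (nat_lit 556) (nat_lit 2572) (.d (nat_lit 592) (nat_lit 593) (nat_lit 3629) (nat_lit 624) (nat_lit 4591))))))) (.a (.p (nat_lit 591) (.a (.d (nat_lit 494) (nat_lit 462) (nat_lit 7630) (nat_lit 623) (nat_lit 7662)) (.a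 (.f (nat_lit 590) (nat_lit 622) (nat_lit 5614) (.f (nat_lit 463) (nat_lit 558) (nat_lit 5582) (.f (nat_lit 430) (nat_lit 462) (nat_lit 7598) (.f (nat_lit 431) (nat_lit 398) (nat_lit 7566) (.d (nat_lit 432) (nat_lit 400) (nat_lit 6543) (nat_lit 464) (nat_lit 6575)))))) (.f (nat_lit 623) (nat_lit 494) (nat_lit 7662) (.d (nat_lit 622) (nat_lit 590) (nat_lit 5614) (nat_lit 654) (nat_lit 5646)))))) (.a s1905 (.a (.p (nat_lit 591) (.a (.d (nat_lit 494) (nat_lit 462) (nat_lit 7630) (nat_lit 623) (nat_lit 7662)) (.a (.f (nat_lit 622) (nat_lit 590) (nat_lit 5614) (.f (nat_lit 623) (nat_lit 654) (nat_lit 5646) (.d (nat_lit 624) (nat_lit 592) (nat_lit 4591) (nat_lit 656) (nat_lit 4623)))) (.f (nat_lit 494) (nat_lit 462) (nat_lit 7630) (.f (nat_lit 493) (nat_lit 492) (nat_lit 492) (.f (nat_lit 590) (nat_lit 622) (nat_lit 5614) (.f (nat_lit 558) (nat_lit 461) (nat_lit 7629) (.f (nat_lit 557) (nat_lit 556) (nat_lit 2572) (.d (nat_lit 592) (nat_lit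 593) (nat_lit 3629) (nat_lit 624) (nat_lit 4591)))))))))) (.p (nat_lit 560) (.a (.d (nat_lit 463) (nat_lit 431) (nat_lit 4527) (nat_lit 592) (nat_lit 4559)) (.d (nat_lit 525) (nat_lit 524) (nat_lit 524) (nat_lit 561) (nat_lit 525))))))))))
noncomputable def s28178 : Cert := .r (nat_lit 1537714675869256576155945778994232080668353507232100411704359814857561673081074955675453359508165820314914373751691712200315325311936528214016582337209772802048) (.p (nat_lit 559) (.a s28044 (.a s28127 (.a s28137 (.a s28147 (.a s28149 (.a s28150 (.a s28154 (.a s28156 (.a s28164 (.a s28176 s28177)))))))))))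
noncomputable def s28179 : Cert := .r (nat_lit 1537714675869256576155945778994232080668353507232100411704359814857561673081074955675453359508165820314914373751691712200315325311936528214016582337209772802048) (.p (nat_lit 529) (.a (.f (nat_lit 493) (nat_lit 494) (nat_lit 3565) (.f (nat_lit 525) (nat_lit 492) (nat_lit 3564) (.d (nat_lit 557) (nat_lit 556) (nat_lit 1548) (nat_lit 558) (nat_lit 1549)))) (.a (.f (nat_lit 558) (nat_lit 557) (nat_lit 1549) (.f (nat_lit 559) (nat_lit 530) (nat_lit 1550) (.f (nat_lit 494) (nat_lit 493) (nat_lit 3565) (.d (nat_lit 462) (nat_lit 430) (nat_lit 4526) (nat_lit 591) (nat_lit 4558))))) (.a (.f (nat_lit 558) (nat_lit 557) (nat_lit 1549) (.f (nat_lit 530) (nat_lit 559) (nat_lit 1550) (.d (nat_lit 562) (nat_lit 561) (nat_lit 526) (nat_lit 563) (nat_lit 527)))) (.f (nat_lit 561) (nat_lit 562) (nat_lit 526) (.f (nat_lit 497) (nat_lit 498) (nat_lit 2542) (.f (nat_lit 560) (nat_lit 525) (nat_lit 525) (.d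 (nat_lit 465) (nat_lit 433) (nat_lit 5552) (nat_lit 592) (nat_lit 5584)))))))))
noncomputable def s28185 : Cert := .r (nat_lit 3773962428116644229104247244179581274475989964705769372444992896754966622801209580117001630196487395058966561419866074367681396487743346872425423281468229623384622759936) (.p (nat_lit 495) (.a (.f (nat_lit 463) (nat_lit 431) (nat_lit 4527) (.d (nat_lit 592) (nat_lit 559) (nat_lit 4559) (nat_lit 624) (nat_lit 7663))) (.a (.f (nat_lit 558) (nat_lit 557) (nat_lit 1549) (.f (nat_lit 463) (nat_lit 431) (nat_lit 4527) (.d (nat_lit 494) (nat_lit 493) (nat_lit 3565) (nat_lit 590) (nat_lit 6606)))) (.f (nat_lit 494) (nat_lit 493) (nat_lit 3565) (.f (nat_lit 558) (nat_lit 557) (nat_lit 1549) (.f (nat_lit 590) (nat_lit 622) (nat_lit 6638) (.f (nat_lit 591) (nat_lit 623) (nat_lit 4590) (.f (nat_lit 462) (nat_lit 559) (nat_lit 4558) (.f (nat_lit 430) (nat_lit 398) (nat_lit 4494) (.d (nat_lit 429) (nat_lit 397) (nat_lit 7565)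 (nat_lit 461) (nat_lit 7597)))))))))))
noncomputable def s28186 : Cert := .r (nat_lit 3295102876862692663191312383559068744289328944068786596509342460409060728030874905018828627517498186389102229467910811857818554239863989030035533579735227432960) (.p (nat_lit 560) (.a (.f (nat_lit 561) (nat_lit 562) (nat_lit 526) (.f (nat_lit 497) (nat_lit 498) (nat_lit 2542) (.d (nat_lit 465) (nat_lit 433) (nat_lit 5552) (nat_lit 592) (nat_lit 5584)))) (.a (.f (nat_lit 561) (nat_lit 562) (nat_lit 526) (.f (nat_lit 558) (nat_lit 557) (nat_lit 1549) (.f (nat_lit 494) (nat_lit 493) (nat_lit 3565) (.f (nat_lit 497) (nat_lit 498) (nat_lit 2542) (.f (nat_lit 465) (nat_lit 433) (nat_lit 5552) (.f (nat_lit 464) (nat_lit 432) (nat_lit 7600) (.f (nat_lit 466) (nat_lit 434) (nat_lit 6577) (.f (nat_lit 463) (nat_lit 495) (nat_lit 1486) (.d (nat_lit 431) (nat_lit 430) (nat_lit 3502) (nat_lit 462) (nat_lit 6574)))))))))) s28185)))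
noncomputable def s28187 : Cert := .r (nat_lit 1537714675869256576155945778994232080668353507232100411704359814857561673081074955675453359508165820314914373751691712200315325311936528214016582337209772802048) (.p (nat_lit 529) (.a (.f (nat_lit 494) (nat_lit 493) (nat_lit 3565) (.f (nat_lit 558) (nat_lit 557) (nat_lit 1549) (.d (nat_lit 530) (nat_lit 495) (nat_lit 3566) (nat_lit 559) (nat_lit 1550)))) (.a (.f (nat_lit 494) (nat_lit 493) (nat_lit 3565) (.f (nat_lit 495) (nat_lit 530) (nat_lit 3566) (.f (nat_lit 558) (nat_lit 557) (nat_lit 1549) (.d (nat_lit 463) (nat_lit 431) (nat_lit 5550) (nat_lit 590) (nat_lit 6606))))) (.a (.f (nat_lit 558) (nat_lit 557) (nat_lit 1549) (.f (nat_lit 559) (nat_lit 530) (nat_lit 1550) (.f (nat_lit 494) (nat_lit 493) (nat_lit 3565) (.d (nat_lit 462) (nat_lit 430) (nat_lit 4526) (nat_lit 591) (nat_lit 4558))))) (.a s28186 (.a (.f (nat_lit 558) (nat_lit 557) (nat_lit 1549) (.f (nat_lit 530) (nat_lit 559)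 (nat_lit 1550) (.d (nat_lit 562) (nat_lit 561) (nat_lit 526) (nat_lit 563) (nat_lit 527)))) (.f (nat_lit 494) (nat_lit 493) (nat_lit 3565) (.f (nat_lit 530) (nat_lit 495) (nat_lit 3566) (.d (nat_lit 562) (nat_lit 561) (nat_lit 526) (nat_lit 563) (nat_lit 527))))))))))
noncomputable def s28213 : Cert := .r (nat_lit 1537714675869256576155945778994232080668353507232100411704359814857561673081074955675453359508165820314914373751691712200315325311936528214016582337209772802048) (.p (nat_lit 525) (.a (.f (nat_lit 493) (nat_lit 492) (nat_lit 3564) (.f (nat_lit 557) (nat_lit 556) (nat_lit 1548) (.d (nat_lit 529) (nat_lit 494) (nat_lit 3565) (nat_lit 558) (nat_lit 1549)))) (.a (.f (nat_lit 492) (nat_lit 493) (nat_lit 3564) (.f (nat_lit 524) (nat_lit 491) (nat_lit 3563) (.d (nat_lit 556) (nat_lit 555) (nat_lit 1547) (nat_lit 557) (nat_lit 1548)))) (.a (.f (nat_lit 492) (nat_lit 493) (nat_lit 3564) (.f (nat_lit 524) (nat_lit 491) (nat_lit 3563)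 (.f (nat_lit 555) (nat_lit 556) (nat_lit 1547) (.f (nat_lit 523) (nat_lit 554) (nat_lit 1546) (.d (nat_lit 559) (nat_lit 558) (nat_lit 523) (nat_lit 560) (nat_lit 524)))))) (.a (.f (nat_lit 556) (nat_lit 557) (nat_lit 1548) (.f (nat_lit 524) (nat_lit 555) (nat_lit 1547) (.f (nat_lit 491) (nat_lit 492) (nat_lit 3563) (.f (nat_lit 523) (nat_lit 490) (nat_lit 3562) (.d (nat_lit 559) (nat_lit 558) (nat_lit 523) (nat_lit 560) (nat_lit 524)))))) (.a (.f (nat_lit 493) (nat_lit 492) (nat_lit 3564) (.f (nat_lit 529) (nat_lit 494) (nat_lit 3565) (.f (nat_lit 558) (nat_lit 557) (nat_lit 1549) (.f (nat_lit 559) (nat_lit 530) (nat_lit 1550) (.d (nat_lit 524) (nat_lit 523) (nat_lit 523) (nat_lit 560) (nat_lit 524)))))) (.f (nat_lit 557) (nat_lit 556) (nat_lit 1548) (.f (nat_lit 529) (nat_lit 558) (nat_lit 1549) (.f (nat_lit 494) (nat_lit 493) (nat_lit 3565) (.f (nat_lit 495) (nat_lit 530) (nat_lit 3566) (.f (nat_lit 462) (nat_lit 430) (nat_lit 5549)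 (.f (nat_lit 559) (nat_lit 591) (nat_lit 7630) (.d (nat_lit 524) (nat_lit 523) (nat_lit 2539) (nat_lit 560) (nat_lit 524))))))))))))))
noncomputable def s28218 : Cert := .r (nat_lit 1537714675869256576155945778994232080668353507232100411704359814857561673081074955675453359508165820314914373751691712200315325311936528214016582337209772802048) (.p (nat_lit 525) (.a (.f (nat_lit 560) (nat_lit 561) (nat_lit 525) (.f (nat_lit 524) (nat_lit 559) (nat_lit 524) (.d (nat_lit 492) (nat_lit 491) (nat_lit 3563) (nat_lit 493) (nat_lit 3564)))) (.a (.f (nat_lit 492) (nat_lit 493) (nat_lit 3564) (.f (nat_lit 524) (nat_lit 491) (nat_lit 3563) (.d (nat_lit 556) (nat_lit 555) (nat_lit 1547) (nat_lit 557) (nat_lit 1548)))) (.a (.f (nat_lit 560) (nat_lit 561) (nat_lit 525) (.f (nat_lit 524) (nat_lit 559) (nat_lit 524) (.d (nat_lit 556) (nat_lit 555) (nat_lit 1547) (nat_lit 557) (nat_lit 1548)))) (.f (nat_lit 493) (nat_lit 492) (nat_lit 3564) (.f (nat_lit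 529) (nat_lit 494) (nat_lit 3565) (.d (nat_lit 561) (nat_lit 560) (nat_lit 525) (nat_lit 562) (nat_lit 526))))))))
noncomputable def s28219 : Cert := .r (nat_lit 1537714675869256576155945778994232080668353507232100411704359814857561673081074955675453359508165820314914373751691712200315325311936528214016582337209772802048) (.p (nat_lit 529) (.a (.f (nat_lit 494) (nat_lit 493) (nat_lit 3565) (.f (nat_lit 495) (nat_lit 530) (nat_lit 3566) (.f (nat_lit 561) (nat_lit 562) (nat_lit 526) (.f (nat_lit 560) (nat_lit 525) (nat_lit 525) (.f (nat_lit 592) (nat_lit 624) (nat_lit 7663) (.d (nat_lit 463) (nat_lit 431) (nat_lit 4527) (nat_lit 559) (nat_lit 4559))))))) (.a (.f (nat_lit 494) (nat_lit 493) (nat_lit 3565) (.f (nat_lit 530) (nat_lit 495) (nat_lit 3566) (.d (nat_lit 562) (nat_lit 561) (nat_lit 526) (nat_lit 563) (nat_lit 527)))) (.a (.f (nat_lit 561) (nat_lit 562) (nat_lit 526) (.f (nat_lit 497) (nat_lit 498) (nat_lit 2542) (.f (nat_lit 560)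 (nat_lit 525) (nat_lit 525) (.d (nat_lit 465) (nat_lit 433) (nat_lit 5552) (nat_lit 592) (nat_lit 5584))))) (.a (.f (nat_lit 494) (nat_lit 493) (nat_lit 3565) (.f (nat_lit 530) (nat_lit 495) (nat_lit 3566) (.f (nat_lit 559) (nat_lit 558) (nat_lit 1550) (.f (nat_lit 531) (nat_lit 560) (nat_lit 1551) (.d (nat_lit 563) (nat_lit 562) (nat_lit 527) (nat_lit 564) (nat_lit 528)))))) (.f (nat_lit 494) (nat_lit 493) (nat_lit 3565) (.f (nat_lit 530) (nat_lit 495) (nat_lit 3566) (.f (nat_lit 559) (nat_lit 558) (nat_lit 1550) (.f (nat_lit 560) (nat_lit 531) (nat_lit 1551) (.d (nat_lit 525) (nat_lit 524) (nat_lit 524) (nat_lit 561) (nat_lit 525)))))))))))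
noncomputable def s28253 : Cert := .r (nat_lit 1537714675869256576155945778994232080668353507232100411704359814857561673081074955675453359508165820314914373751691712200315325311936528214016582337209772802048) (.p (nat_lit 495) (.a (.p (nat_lit 529) (.a (.f (nat_lit 558) (nat_lit 557) (nat_lit 1549) (.f (nat_lit 463) (nat_lit 431) (nat_lit 5550) (.d (nat_lit 590) (nat_lit 559) (nat_lit 5582) (nat_lit 622) (nat_lit 6638)))) (.f (nat_lit 561) (nat_lit 562) (nat_lit 526) (.f (nat_lit 560) (nat_lit 525) (nat_lit 525) (.f (nat_lit 497) (nat_lit 498) (nat_lit 2542) (.d (nat_lit 465) (nat_lit 433) (nat_lit 5552) (nat_lit 592) (nat_lit 5584))))))) (.a (.p (nat_lit 529) (.a (.f (nat_lit 558) (nat_lit 557) (nat_lit 1549) (.f (nat_lit 463) (nat_lit 431) (nat_lit 5550) (.d (nat_lit 590) (nat_lit 559) (nat_lit 5582) (nat_lit 622) (nat_lit 6638)))) (.a (.f (nat_lit 558) (nat_lit 557) (nat_lit 1549) (.f (nat_lit 494) (nat_lit 530) (nat_lit 3566) (.d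 (nat_lit 463) (nat_lit 431) (nat_lit 5550) (nat_lit 590) (nat_lit 6606)))) (.a (.f (nat_lit 558) (nat_lit 557) (nat_lit 1549) (.d (nat_lit 530) (nat_lit 494) (nat_lit 3566) (nat_lit 559) (nat_lit 1550))) (.f (nat_lit 530) (nat_lit 494) (nat_lit 3566) (.d (nat_lit 562) (nat_lit 561) (nat_lit 526) (nat_lit 563) (nat_lit 527))))))) (.a (.p (nat_lit 529) (.a (.f (nat_lit 561) (nat_lit 562) (nat_lit 526) (.f (nat_lit 560) (nat_lit 525) (nat_lit 525) (.f (nat_lit 497) (nat_lit 498) (nat_lit 2542) (.d (nat_lit 465) (nat_lit 433) (nat_lit 5552) (nat_lit 592) (nat_lit 5584))))) (.f (nat_lit 558) (nat_lit 557) (nat_lit 1549) (.f (nat_lit 494) (nat_lit 530) (nat_lit 3566) (.d (nat_lit 463) (nat_lit 431) (nat_lit 5550) (nat_lit 590) (nat_lit 6606)))))) (.a (.p (nat_lit 560) (.a (.f (nat_lit 463) (nat_lit 431) (nat_lit 4527) (.d (nat_lit 592) (nat_lit 559) (nat_lit 4559) (nat_lit 624) (nat_lit 7663))) (.f (nat_lit 525) (nat_lit 561) (nat_lit 525)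 (.f (nat_lit 556) (nat_lit 557) (nat_lit 1548) (.f (nat_lit 524) (nat_lit 555) (nat_lit 1547) (.f (nat_lit 491) (nat_lit 492) (nat_lit 3563) (.d (nat_lit 523) (nat_lit 490) (nat_lit 3562) (nat_lit 494) (nat_lit 2539)))))))) (.a (.p (nat_lit 558) (.a (.f (nat_lit 590) (nat_lit 622) (nat_lit 6638) (.d (nat_lit 463) (nat_lit 431) (nat_lit 5550) (nat_lit 494) (nat_lit 6606))) (.a (.f (nat_lit 529) (nat_lit 557) (nat_lit 1549) (.f (nat_lit 559) (nat_lit 530) (nat_lit 1550) (.d (nat_lit 463) (nat_lit 431) (nat_lit 5550) (nat_lit 590) (nat_lit 5582)))) (.f (nat_lit 557) (nat_lit 529) (nat_lit 1549) (.d (nat_lit 556) (nat_lit 525) (nat_lit 1548) (nat_lit 555) (nat_lit 2571)))))) (.a (.p (nat_lit 529) (.a (.f (nat_lit 561) (nat_lit 562) (nat_lit 526) (.f (nat_lit 560) (nat_lit 525) (nat_lit 525) (.f (nat_lit 497) (nat_lit 498) (nat_lit 2542) (.d (nat_lit 465) (nat_lit 433) (nat_lit 5552) (nat_lit 592) (nat_lit 5584))))) (.f (nat_lit 558) (nat_lit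 557) (nat_lit 1549) (.d (nat_lit 530) (nat_lit 494) (nat_lit 3566) (nat_lit 559) (nat_lit 1550))))) (.p (nat_lit 529) (.a (.f (nat_lit 561) (nat_lit 562) (nat_lit 526) (.f (nat_lit 560) (nat_lit 525) (nat_lit 525) (.f (nat_lit 592) (nat_lit 624) (nat_lit 7663) (.d (nat_lit 463) (nat_lit 431) (nat_lit 4527) (nat_lit 559) (nat_lit 4559))))) (.a (.f (nat_lit 530) (nat_lit 494) (nat_lit 3566) (.d (nat_lit 562) (nat_lit 561) (nat_lit 526) (nat_lit 563) (nat_lit 527))) (.f (nat_lit 530) (nat_lit 494) (nat_lit 3566) (.f (nat_lit 559) (nat_lit 558) (nat_lit 1550) (.f (nat_lit 560) (nat_lit 531) (nat_lit 1551) (.d (nat_lit 463) (nat_lit 431) (nat_lit 4527) (nat_lit 592) (nat_lit 4559)))))))))))))))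
noncomputable def s28255 : Cert := .r (nat_lit 1537714675869256576155945778994232080668353507232100411704359814857561673081074955675453359508165820314914373751691712200315325311936528214016582337209772802048) (.p (nat_lit 529) (.a (.f (nat_lit 493) (nat_lit 494) (nat_lit 3565) (.f (nat_lit 525) (nat_lit 492) (nat_lit 3564) (.d (nat_lit 557) (nat_lit 556) (nat_lit 1548) (nat_lit 558) (nat_lit 1549)))) (.a (.f (nat_lit 494) (nat_lit 493) (nat_lit 3565) (.f (nat_lit 495) (nat_lit 530) (nat_lit 3566) (.f (nat_lit 558) (nat_lit 557) (nat_lit 1549) (.d (nat_lit 463) (nat_lit 431) (nat_lit 5550) (nat_lit 590) (nat_lit 6606))))) (.a (.f (nat_lit 497) (nat_lit 498) (nat_lit 2542) (.f (nat_lit 525) (nat_lit 496) (nat_lit 2541) (.d (nat_lit 557) (nat_lit 556) (nat_lit 1548) (nat_lit 558) (nat_lit 1549)))) (.f (nat_lit 494) (nat_lit 493) (nat_lit 3565) (.f (nat_lit 530) (nat_lit 495) (nat_lit 3566) (.d (nat_lit 562) (nat_lit 561) (nat_lit 526) (nat_lit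 563) (nat_lit 527))))))))
noncomputable def s28273 : Cert := .r (nat_lit 1886981214058322114552123622089790637237994982352884686222496448377483311400604790058500815098243697529483280709933037183840698243871673436212711640734114811692311379968) (.p (nat_lit 494) (.a (.f (nat_lit 557) (nat_lit 556) (nat_lit 1548) (.f (nat_lit 462) (nat_lit 430) (nat_lit 4526) (.d (nat_lit 493) (nat_lit 492) (nat_lit 3564) (nat_lit 589) (nat_lit 6605)))) (.a (.f (nat_lit 591) (nat_lit 623) (nat_lit 7662) (.d (nat_lit 462) (nat_lit 430) (nat_lit 4526) (nat_lit 558) (nat_lit 4558))) (.f (nat_lit 493) (nat_lit 492) (nat_lit 3564) (.f (nat_lit 557) (nat_lit 556) (nat_lit 1548) (.f (nat_lit 589) (nat_lit 621) (nat_lit 6637) (.f (nat_lit 590) (nat_lit 622) (nat_lit 4589) (.f (nat_lit 461) (nat_lit 558) (nat_lit 7629) (.f (nat_lit 429) (nat_lit 397) (nat_lit 4493) (.d (nat_lit 428) (nat_lit 396) (nat_lit 7564) (nat_lit 460) (nat_lit 7596)))))))))))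
noncomputable def s28298 : Cert := .r (nat_lit 1886981213948485351990033866650080224452692690876573721420203561827171896053636099124138318264282743278900007830296296201577004515277721628217245339732930359034470465536) (.p (nat_lit 525) (.a (.f (nat_lit 492) (nat_lit 493) (nat_lit 3564) (.f (nat_lit 524) (nat_lit 491) (nat_lit 3563) (.f (nat_lit 523) (nat_lit 558) (nat_lit 523) (.d (nat_lit 555) (nat_lit 554) (nat_lit 1546) (nat_lit 556) (nat_lit 1547))))) (.a (.f (nat_lit 492) (nat_lit 493) (nat_lit 3564) (.f (nat_lit 524) (nat_lit 491) (nat_lit 3563) (.d (nat_lit 556) (nat_lit 555) (nat_lit 1547) (nat_lit 557) (nat_lit 1548)))) (.a (.f (nat_lit 556) (nat_lit 557) (nat_lit 1548) (.f (nat_lit 524) (nat_lit 555) (nat_lit 1547) (.f (nat_lit 523) (nat_lit 558) (nat_lit 523) (.d (nat_lit 491) (nat_lit 490) (nat_lit 3562) (nat_lit 492) (nat_lit 3563))))) (.a s28273 (.a (.p (nat_lit 524) (.a (.d (nat_lit 492) (nat_lit 491) (nat_lit 3563) (nat_lit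 493) (nat_lit 3564)) (.a (.f (nat_lit 523) (nat_lit 558) (nat_lit 523) (.d (nat_lit 491) (nat_lit 490) (nat_lit 3562) (nat_lit 492) (nat_lit 3563))) (.a (.f (nat_lit 523) (nat_lit 558) (nat_lit 523) (.f (nat_lit 490) (nat_lit 491) (nat_lit 3562) (.f (nat_lit 522) (nat_lit 489) (nat_lit 3561) (.d (nat_lit 554) (nat_lit 553) (nat_lit 1545) (nat_lit 555) (nat_lit 1546))))) (.f (nat_lit 523) (nat_lit 558) (nat_lit 523) (.f (nat_lit 493) (nat_lit 492) (nat_lit 3564) (.f (nat_lit 522) (nat_lit 494) (nat_lit 2538) (.d (nat_lit 554) (nat_lit 553) (nat_lit 1545) (nat_lit 555) (nat_lit 1546))))))))) (.p (nat_lit 494) (.a (.f (nat_lit 591) (nat_lit 623) (nat_lit 7662) (.d (nat_lit 462) (nat_lit 430) (nat_lit 4526) (nat_lit 558) (nat_lit 4558))) (.a (.f (nat_lit 557) (nat_lit 556) (nat_lit 1548) (.f (nat_lit 462) (nat_lit 430) (nat_lit 4526) (.d (nat_lit 589) (nat_lit 493) (nat_lit 6605) (nat_lit 558) (nat_lit 5581)))) (.a (.f (nat_lit 557) (nat_lit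 556) (nat_lit 1548) (.f (nat_lit 462) (nat_lit 430) (nat_lit 4526) (.d (nat_lit 589) (nat_lit 493) (nat_lit 6605) (nat_lit 621) (nat_lit 6637)))) (.f (nat_lit 556) (nat_lit 557) (nat_lit 1548) (.f (nat_lit 524) (nat_lit 555) (nat_lit 1547) (.f (nat_lit 523) (nat_lit 558) (nat_lit 523) (.f (nat_lit 522) (nat_lit 493) (nat_lit 2538) (.d (nat_lit 490) (nat_lit 489) (nat_lit 3561) (nat_lit 491) (nat_lit 3562))))))))))))))))
noncomputable def s28309 : Cert := .r (nat_lit 1886981214058322114552123622089790637237994982352884686222496448377483311400604790058500815098243697529483280709933037183840698243871673436212711640734114811692311379968) (.p (nat_lit 494) (.a (.f (nat_lit 557) (nat_lit 556) (nat_lit 1548) (.f (nat_lit 462) (nat_lit 430) (nat_lit 4526) (.d (nat_lit 493) (nat_lit 492) (nat_lit 3564) (nat_lit 589) (nat_lit 6605)))) (.a (.f (nat_lit 493) (nat_lit 492) (nat_lit 3564) (.f (nat_lit 462) (nat_lit 430) (nat_lit 4526) (.f (nat_lit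 496) (nat_lit 497) (nat_lit 2541) (.f (nat_lit 464) (nat_lit 432) (nat_lit 5551) (.f (nat_lit 463) (nat_lit 465) (nat_lit 1485) (.f (nat_lit 558) (nat_lit 431) (nat_lit 6574) (.d (nat_lit 461) (nat_lit 429) (nat_lit 7597) (nat_lit 590) (nat_lit 7629)))))))) (.a (.f (nat_lit 557) (nat_lit 556) (nat_lit 1548) (.f (nat_lit 462) (nat_lit 430) (nat_lit 4526) (.d (nat_lit 589) (nat_lit 558) (nat_lit 5581) (nat_lit 621) (nat_lit 6637)))) (.f (nat_lit 493) (nat_lit 492) (nat_lit 3564) (.f (nat_lit 557) (nat_lit 556) (nat_lit 1548) (.f (nat_lit 589) (nat_lit 621) (nat_lit 6637) (.f (nat_lit 590) (nat_lit 622) (nat_lit 4589) (.f (nat_lit 461) (nat_lit 558) (nat_lit 7629) (.f (nat_lit 429) (nat_lit 397) (nat_lit 4493) (.d (nat_lit 428) (nat_lit 396) (nat_lit 7564) (nat_lit 460) (nat_lit 7596))))))))))))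
noncomputable def s28313 : Cert := .r (nat_lit 1886981213948485351990033866650080224452692690876573721420203561827171896053636099124138318264282743278900007830296296201577004515277721628217245339732930359034470465536) (.p (nat_lit 525) (.a (.f (nat_lit 496) (nat_lit 497) (nat_lit 2541) (.f (nat_lit 524) (nat_lit 495) (nat_lit 2540) (.d (nat_lit 492) (nat_lit 491) (nat_lit 3563) (nat_lit 493) (nat_lit 3564)))) (.a (.f (nat_lit 492) (nat_lit 493) (nat_lit 3564) (.f (nat_lit 524) (nat_lit 491) (nat_lit 3563) (.f (nat_lit 523) (nat_lit 558) (nat_lit 523) (.d (nat_lit 555) (nat_lit 554) (nat_lit 1546) (nat_lit 556) (nat_lit 1547))))) (.a (.f (nat_lit 556) (nat_lit 557) (nat_lit 1548) (.f (nat_lit 524) (nat_lit 555) (nat_lit 1547) (.f (nat_lit 523) (nat_lit 558) (nat_lit 523) (.d (nat_lit 491) (nat_lit 490) (nat_lit 3562) (nat_lit 492) (nat_lit 3563))))) (.a s28309 (.f (nat_lit 496) (nat_lit 497) (nat_lit 2541) (.f (nat_lit 524) (nat_lit 495)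 (nat_lit 2540) (.d (nat_lit 556) (nat_lit 555) (nat_lit 1547) (nat_lit 557) (nat_lit 1548)))))))))
noncomputable def s28339 : Cert := .r (nat_lit 1886981213948485351990033866650080224452692690876573721420203561827171896053636099124138318264282743278900007830296296201577004515277721628217245339732930359034470465536) (.p (nat_lit 496) (.a (.f (nat_lit 525) (nat_lit 497) (nat_lit 2541) (.f (nat_lit 495) (nat_lit 524) (nat_lit 2540) (.d (nat_lit 464) (nat_lit 432) (nat_lit 5551) (nat_lit 591) (nat_lit 6607)))) (.a (.p (nat_lit 462) (.a (.f (nat_lit 494) (nat_lit 430) (nat_lit 4526) (.d (nat_lit 591) (nat_lit 558) (nat_lit 4558) (nat_lit 623) (nat_lit 6639))) (.f (nat_lit 464) (nat_lit 432) (nat_lit 5551) (.f (nat_lit 497) (nat_lit 525) (nat_lit 2541) (.f (nat_lit 463) (nat_lit 461) (nat_lit 461) (.f (nat_lit 465) (nat_lit 498) (nat_lit 462) (.d (nat_lit 433) (nat_lit 401) (nat_lit 5520) (nat_lit 434) (nat_lit 2478)))))))) (.a (.f (nat_lit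 591) (nat_lit 623) (nat_lit 6639) (.d (nat_lit 464) (nat_lit 432) (nat_lit 5551) (nat_lit 495) (nat_lit 6607))) (.a (.f (nat_lit 591) (nat_lit 623) (nat_lit 6639) (.f (nat_lit 525) (nat_lit 497) (nat_lit 2541) (.f (nat_lit 495) (nat_lit 524) (nat_lit 2540) (.f (nat_lit 494) (nat_lit 462) (nat_lit 7630) (.f (nat_lit 493) (nat_lit 492) (nat_lit 492) (.f (nat_lit 590) (nat_lit 622) (nat_lit 5614) (.d (nat_lit 461) (nat_lit 460) (nat_lit 3532) (nat_lit 558) (nat_lit 7629)))))))) (.f (nat_lit 525) (nat_lit 497) (nat_lit 2541) (.f (nat_lit 495) (nat_lit 524) (nat_lit 2540) (.f (nat_lit 464) (nat_lit 432) (nat_lit 5551) (.f (nat_lit 493) (nat_lit 492) (nat_lit 3564) (.f (nat_lit 494) (nat_lit 465) (nat_lit 2509) (.f (nat_lit 461) (nat_lit 460) (nat_lit 3532) (.d (nat_lit 429) (nat_lit 397) (nat_lit 4493) (nat_lit 558) (nat_lit 4525)))))))))))))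
noncomputable def s28347 : Cert := .r (nat_lit 1886981213948485351990033866650080224452692690876573721420203561827171896053636099124138318264282743278900007830296296201577004515277721628217245339732930359034470465536) (.p (nat_lit 496) (.a (.f (nat_lit 525) (nat_lit 497) (nat_lit 2541) (.f (nat_lit 495) (nat_lit 524) (nat_lit 2540) (.d (nat_lit 464) (nat_lit 432) (nat_lit 5551) (nat_lit 591) (nat_lit 6607)))) (.a (.p (nat_lit 462) (.a (.f (nat_lit 494) (nat_lit 430) (nat_lit 4526) (.d (nat_lit 591) (nat_lit 558) (nat_lit 4558) (nat_lit 623) (nat_lit 6639))) (.f (nat_lit 464) (nat_lit 432) (nat_lit 5551) (.f (nat_lit 497) (nat_lit 525) (nat_lit 2541) (.f (nat_lit 463) (nat_lit 461) (nat_lit 461) (.f (nat_lit 465) (nat_lit 498) (nat_lit 462) (.d (nat_lit 433) (nat_lit 401) (nat_lit 5520) (nat_lit 434) (nat_lit 2478)))))))) (.a (.f (nat_lit 591) (nat_lit 623) (nat_lit 6639) (.d (nat_lit 464) (nat_lit 432) (nat_lit 5551) (nat_lit 495) (nat_lit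 6607))) (.a (.f (nat_lit 591) (nat_lit 623) (nat_lit 6639) (.f (nat_lit 525) (nat_lit 497) (nat_lit 2541) (.f (nat_lit 495) (nat_lit 524) (nat_lit 2540) (.f (nat_lit 462) (nat_lit 494) (nat_lit 7630) (.f (nat_lit 463) (nat_lit 430) (nat_lit 7598) (.d (nat_lit 431) (nat_lit 399) (nat_lit 4495) (nat_lit 558) (nat_lit 5550))))))) (.f (nat_lit 525) (nat_lit 497) (nat_lit 2541) (.f (nat_lit 524) (nat_lit 495) (nat_lit 2540) (.d (nat_lit 556) (nat_lit 555) (nat_lit 1547) (nat_lit 557) (nat_lit 1548)))))))))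
noncomputable def s28348 : Cert := .r (nat_lit 1537714675869256576155945778994232080668353507232100411704359814857561673081074955675453359508165820314914373751691712200315325311936528214016582337209772802048) (.p (nat_lit 559) (.a (.p (nat_lit 496) (.a (.f (nat_lit 525) (nat_lit 497) (nat_lit 2541) (.f (nat_lit 495) (nat_lit 524) (nat_lit 2540) (.d (nat_lit 464) (nat_lit 432) (nat_lit 5551) (nat_lit 591) (nat_lit 6607)))) (.a (.f (nat_lit 525) (nat_lit 497) (nat_lit 2541) (.f (nat_lit 556) (nat_lit 557) (nat_lit 1548) (.f (nat_lit 524) (nat_lit 555) (nat_lit 1547) (.d (nat_lit 492) (nat_lit 491) (nat_lit 3563) (nat_lit 493) (nat_lit 3564))))) (.f (nat_lit 591) (nat_lit 623) (nat_lit 6639) (.d (nat_lit 464) (nat_lit 432) (nat_lit 5551) (nat_lit 495) (nat_lit 6607)))))) (.a s28127 (.a s28298 (.a s28313 (.a (.p (nat_lit 496) (.a (.f (nat_lit 525) (nat_lit 497) (nat_lit 2541) (.f (nat_lit 495) (nat_lit 524) (nat_lit 2540) (.d (nat_lit 464)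 (nat_lit 432) (nat_lit 5551) (nat_lit 591) (nat_lit 6607)))) (.a (.f (nat_lit 525) (nat_lit 497) (nat_lit 2541) (.f (nat_lit 492) (nat_lit 493) (nat_lit 3564) (.f (nat_lit 524) (nat_lit 491) (nat_lit 3563) (.f (nat_lit 523) (nat_lit 558) (nat_lit 523) (.d (nat_lit 555) (nat_lit 554) (nat_lit 1546) (nat_lit 556) (nat_lit 1547)))))) (.f (nat_lit 591) (nat_lit 623) (nat_lit 6639) (.d (nat_lit 464) (nat_lit 432) (nat_lit 5551) (nat_lit 495) (nat_lit 6607)))))) (.a (.p (nat_lit 496) (.a (.f (nat_lit 525) (nat_lit 497) (nat_lit 2541) (.f (nat_lit 495) (nat_lit 524) (nat_lit 2540) (.d (nat_lit 464) (nat_lit 432) (nat_lit 5551) (nat_lit 591) (nat_lit 6607)))) (.a (.f (nat_lit 525) (nat_lit 497) (nat_lit 2541) (.f (nat_lit 556) (nat_lit 557) (nat_lit 1548) (.f (nat_lit 524) (nat_lit 555) (nat_lit 1547) (.f (nat_lit 491) (nat_lit 492) (nat_lit 3563) (.d (nat_lit 523) (nat_lit 490) (nat_lit 3562) (nat_lit 558) (nat_lit 523)))))) (.f (nat_lit 591)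 (nat_lit 623) (nat_lit 6639) (.d (nat_lit 464) (nat_lit 432) (nat_lit 5551) (nat_lit 495) (nat_lit 6607)))))) (.a s28339 s28347))))))))
noncomputable def s28349 : Cert := .r (nat_lit 1537714675869256576155945778994232080668353507232100411704359814857561673081074955675453359508165820314914373751691712200315325311936528214016582337209772802048) (.p (nat_lit 529) (.a (.f (nat_lit 493) (nat_lit 494) (nat_lit 3565) (.f (nat_lit 525) (nat_lit 492) (nat_lit 3564) (.d (nat_lit 557) (nat_lit 556) (nat_lit 1548) (nat_lit 558) (nat_lit 1549)))) (.a (.f (nat_lit 558) (nat_lit 557) (nat_lit 1549) (.f (nat_lit 559) (nat_lit 530) (nat_lit 1550) (.f (nat_lit 494) (nat_lit 493) (nat_lit 3565) (.d (nat_lit 462) (nat_lit 430) (nat_lit 4526) (nat_lit 591) (nat_lit 4558))))) (.a (.f (nat_lit 558) (nat_lit 557) (nat_lit 1549) (.f (nat_lit 559) (nat_lit 530) (nat_lit 1550) (.f (nat_lit 497) (nat_lit 498) (nat_lit 2542) (.f (nat_lit 496) (nat_lit 525) (nat_lit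 2541) (.f (nat_lit 464) (nat_lit 432) (nat_lit 5551) (.d (nat_lit 561) (nat_lit 562) (nat_lit 526) (nat_lit 593) (nat_lit 7632))))))) (.f (nat_lit 493) (nat_lit 494) (nat_lit 3565) (.f (nat_lit 525) (nat_lit 492) (nat_lit 3564) (.d (nat_lit 497) (nat_lit 496) (nat_lit 2541) (nat_lit 498) (nat_lit 2542))))))))
noncomputable def s28367 : Cert := .r (nat_lit 3295102876862692663191312383559068744289328944068786596509342460409060728030874905018828627517498186389102229467910811857818554239863989030035533579735227432960) (.p (nat_lit 559) (.a (.f (nat_lit 558) (nat_lit 557) (nat_lit 1549) (.f (nat_lit 494) (nat_lit 493) (nat_lit 3565) (.d (nat_lit 462) (nat_lit 430) (nat_lit 4526) (nat_lit 591) (nat_lit 4558)))) (.a (.p (nat_lit 496) (.a (.f (nat_lit 464) (nat_lit 432) (nat_lit 5551) (.d (nat_lit 591) (nat_lit 495) (nat_lit 6607) (nat_lit 623) (nat_lit 6639))) (.a (.f (nat_lit 561) (nat_lit 562) (nat_lit 526) (.f (nat_lit 464) (nat_lit 432)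 (nat_lit 4528) (.d (nat_lit 497) (nat_lit 498) (nat_lit 2542) (nat_lit 593) (nat_lit 7632)))) (.f (nat_lit 558) (nat_lit 557) (nat_lit 1549) (.f (nat_lit 591) (nat_lit 623) (nat_lit 6639) (.f (nat_lit 497) (nat_lit 498) (nat_lit 2542) (.f (nat_lit 561) (nat_lit 562) (nat_lit 526) (.f (nat_lit 593) (nat_lit 625) (nat_lit 7664) (.d (nat_lit 592) (nat_lit 594) (nat_lit 3630) (nat_lit 624) (nat_lit 5616)))))))))) (.a (.f (nat_lit 558) (nat_lit 557) (nat_lit 1549) (.f (nat_lit 494) (nat_lit 493) (nat_lit 3565) (.f (nat_lit 462) (nat_lit 430) (nat_lit 4526) (.f (nat_lit 463) (nat_lit 431) (nat_lit 6574) (.f (nat_lit 495) (nat_lit 590) (nat_lit 6606) (.f (nat_lit 461) (nat_lit 429) (nat_lit 7597) (.d (nat_lit 460) (nat_lit 459) (nat_lit 459) (nat_lit 496) (nat_lit 460)))))))) (.f (nat_lit 494) (nat_lit 493) (nat_lit 3565) (.f (nat_lit 591) (nat_lit 623) (nat_lit 7662) (.d (nat_lit 462) (nat_lit 430) (nat_lit 4526) (nat_lit 495) (nat_lit 7630))))))))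
noncomputable def s28368 : Cert := .r (nat_lit 1537714675869256576155945778994232080668353507232100411704359814857561673081074955675453359508165820314914373751691712200315325311936528214016582337209772802048) (.p (nat_lit 529) (.a (.f (nat_lit 494) (nat_lit 493) (nat_lit 3565) (.f (nat_lit 558) (nat_lit 557) (nat_lit 1549) (.d (nat_lit 530) (nat_lit 495) (nat_lit 3566) (nat_lit 559) (nat_lit 1550)))) (.a (.f (nat_lit 494) (nat_lit 493) (nat_lit 3565) (.f (nat_lit 495) (nat_lit 530) (nat_lit 3566) (.f (nat_lit 558) (nat_lit 557) (nat_lit 1549) (.d (nat_lit 463) (nat_lit 431) (nat_lit 5550) (nat_lit 590) (nat_lit 6606))))) (.a (.f (nat_lit 558) (nat_lit 557) (nat_lit 1549) (.f (nat_lit 559) (nat_lit 530) (nat_lit 1550) (.f (nat_lit 494) (nat_lit 493) (nat_lit 3565) (.d (nat_lit 462) (nat_lit 430) (nat_lit 4526) (nat_lit 591) (nat_lit 4558))))) (.a s28367 (.a (.f (nat_lit 558) (nat_lit 557) (nat_lit 1549) (.f (nat_lit 530) (nat_lit 559)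 (nat_lit 1550) (.d (nat_lit 562) (nat_lit 561) (nat_lit 526) (nat_lit 563) (nat_lit 527)))) (.f (nat_lit 494) (nat_lit 493) (nat_lit 3565) (.f (nat_lit 530) (nat_lit 495) (nat_lit 3566) (.d (nat_lit 562) (nat_lit 561) (nat_lit 526) (nat_lit 563) (nat_lit 527))))))))))
noncomputable def s28369 : Cert := .r (nat_lit 1537714675869256576155945778994232080668353507232100411704359814857561673081074955675453359508165820314914373751691712200315325311936528214016582337209772802048) (.p (nat_lit 529) (.a (.f (nat_lit 558) (nat_lit 557) (nat_lit 1549) (.f (nat_lit 559) (nat_lit 530) (nat_lit 1550) (.f (nat_lit 497) (nat_lit 498) (nat_lit 2542) (.f (nat_lit 496) (nat_lit 525) (nat_lit 2541) (.f (nat_lit 464) (nat_lit 432) (nat_lit 5551) (.d (nat_lit 561) (nat_lit 562) (nat_lit 526) (nat_lit 593) (nat_lit 7632))))))) (.a (.f (nat_lit 558) (nat_lit 557) (nat_lit 1549) (.f (nat_lit 530) (nat_lit 559) (nat_lit 1550) (.d (nat_lit 562) (nat_lit 561) (nat_lit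 526) (nat_lit 563) (nat_lit 527)))) (.a (.f (nat_lit 497) (nat_lit 498) (nat_lit 2542) (.f (nat_lit 525) (nat_lit 496) (nat_lit 2541) (.d (nat_lit 557) (nat_lit 556) (nat_lit 1548) (nat_lit 558) (nat_lit 1549)))) (.f (nat_lit 497) (nat_lit 498) (nat_lit 2542) (.f (nat_lit 496) (nat_lit 525) (nat_lit 2541) (.f (nat_lit 561) (nat_lit 562) (nat_lit 526) (.d (nat_lit 464) (nat_lit 432) (nat_lit 4528) (nat_lit 593) (nat_lit 7632)))))))))
noncomputable def s28370 : Cert := .r (nat_lit 1537714675869256576155945778994232080668353507232100411704359814857561673081074955675453359508165820314914373751691712200315325311936528214016582337209772802048) (.p (nat_lit 529) (.a (.f (nat_lit 494) (nat_lit 493) (nat_lit 3565) (.f (nat_lit 495) (nat_lit 530) (nat_lit 3566) (.f (nat_lit 497) (nat_lit 498) (nat_lit 2542) (.f (nat_lit 496) (nat_lit 525) (nat_lit 2541) (.f (nat_lit 462) (nat_lit 461) (nat_lit 3533) (.d (nat_lit 430) (nat_lit 398) (nat_lit 4494)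 (nat_lit 559) (nat_lit 4526))))))) (.a (.f (nat_lit 494) (nat_lit 493) (nat_lit 3565) (.f (nat_lit 530) (nat_lit 495) (nat_lit 3566) (.d (nat_lit 562) (nat_lit 561) (nat_lit 526) (nat_lit 563) (nat_lit 527)))) (.a (.f (nat_lit 493) (nat_lit 494) (nat_lit 3565) (.f (nat_lit 525) (nat_lit 492) (nat_lit 3564) (.d (nat_lit 497) (nat_lit 496) (nat_lit 2541) (nat_lit 498) (nat_lit 2542)))) (.f (nat_lit 497) (nat_lit 498) (nat_lit 2542) (.f (nat_lit 496) (nat_lit 525) (nat_lit 2541) (.f (nat_lit 561) (nat_lit 562) (nat_lit 526) (.d (nat_lit 464) (nat_lit 432) (nat_lit 4528) (nat_lit 593) (nat_lit 7632)))))))))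
noncomputable def s28372 : Cert := .r (nat_lit 5660943640307741380100845023794294894363845991961367657028510273777155873303346624291339999117394870328534203175974514853039301345517839572715207805182208739893638594560) (.p (nat_lit 561) (.a (.f (nat_lit 558) (nat_lit 557) (nat_lit 2573) (.f (nat_lit 562) (nat_lit 563) (nat_lit 3599) (.d (nat_lit 590) (nat_lit 589) (nat_lit 1581) (nat_lit 591) (nat_lit 1582)))) (.a (.f (nat_lit 562) (nat_lit 563) (nat_lit 3599) (.f (nat_lit 594) (nat_lit 595) (nat_lit 559) (.f (nat_lit 497) (nat_lit 465) (nat_lit 4561) (.d (nat_lit 626) (nat_lit 593) (nat_lit 4593) (nat_lit 658) (nat_lit 7697))))) (.f (nat_lit 558) (nat_lit 557) (nat_lit 2573) (.f (nat_lit 590) (nat_lit 589) (nat_lit 1581) (.f (nat_lit 495) (nat_lit 463) (nat_lit 5582) (.d (nat_lit 622) (nat_lit 591) (nat_lit 5614) (nat_lit 654) (nat_lit 6670))))))))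
noncomputable def s28385 : Cert := .r (nat_lit 3773962427896970703980067733300160448905385381753147442840407123654343792107272198248276636528565486557800015660592592403154009030555443256434490679465860718068940931072) (.p (nat_lit 496) (.a (.p (nat_lit 495) (.a (.d (nat_lit 463) (nat_lit 431) (nat_lit 4527) (nat_lit 592) (nat_lit 7631)) (.d (nat_lit 494) (nat_lit 493) (nat_lit 493) (nat_lit 530) (nat_lit 3566)))) (.a (.p (nat_lit 464) (.a (.d (nat_lit 561) (nat_lit 432) (nat_lit 4528) (nat_lit 593) (nat_lit 4560)) (.a (.f (nat_lit 433) (nat_lit 465) (nat_lit 6576) (.f (nat_lit 432) (nat_lit 401) (nat_lit 6544) (.d (nat_lit 431) (nat_lit 399) (nat_lit 7567) (nat_lit 463) (nat_lit 7599)))) (.f (nat_lit 561) (nat_lit 593) (nat_lit 4560) (.f (nat_lit 465) (nat_lit 433) (nat_lit 6576) (.f (nat_lit 497) (nat_lit 592) (nat_lit 6608) (.d (nat_lit 562) (nat_lit 563) (nat_lit 3599) (nat_lit 594) (nat_lit 4561)))))))) (.a (.p (nat_lit 464) (.a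 (.d (nat_lit 561) (nat_lit 432) (nat_lit 4528) (nat_lit 593) (nat_lit 4560)) (.a (.f (nat_lit 433) (nat_lit 465) (nat_lit 6576) (.f (nat_lit 432) (nat_lit 401) (nat_lit 6544) (.d (nat_lit 431) (nat_lit 399) (nat_lit 7567) (nat_lit 463) (nat_lit 7599)))) (.f (nat_lit 561) (nat_lit 593) (nat_lit 4560) (.f (nat_lit 562) (nat_lit 563) (nat_lit 3599) (.f (nat_lit 465) (nat_lit 433) (nat_lit 6576) (.f (nat_lit 463) (nat_lit 431) (nat_lit 7599) (.f (nat_lit 497) (nat_lit 594) (nat_lit 4561) (.d (nat_lit 462) (nat_lit 461) (nat_lit 461) (nat_lit 498) (nat_lit 462)))))))))) (.p (nat_lit 495) (.a (.d (nat_lit 494) (nat_lit 493) (nat_lit 493) (nat_lit 530) (nat_lit 3566)) (.f (nat_lit 592) (nat_lit 624) (nat_lit 7663) (.f (nat_lit 465) (nat_lit 497) (nat_lit 6608) (.f (nat_lit 464) (nat_lit 433) (nat_lit 6576) (.d (nat_lit 432) (nat_lit 400) (nat_lit 5519) (nat_lit 561) (nat_lit 4528)))))))))))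
noncomputable def s28413 : Cert := .r (nat_lit 3773962427896970703980067733300160448905385381753147442840407123654343792107272198248276636528565486557800015660592592403154009030555443256434490679465860718068940931072) (.p (nat_lit 496) (.a (.p (nat_lit 464) (.a (.d (nat_lit 561) (nat_lit 432) (nat_lit 4528) (nat_lit 593) (nat_lit 4560)) (.a (.f (nat_lit 433) (nat_lit 465) (nat_lit 6576) (.f (nat_lit 432) (nat_lit 401) (nat_lit 6544) (.d (nat_lit 431) (nat_lit 399) (nat_lit 7567) (nat_lit 463) (nat_lit 7599)))) (.f (nat_lit 561) (nat_lit 593) (nat_lit 4560) (.f (nat_lit 465) (nat_lit 433) (nat_lit 6576) (.f (nat_lit 497) (nat_lit 592) (nat_lit 6608) (.d (nat_lit 562) (nat_lit 563) (nat_lit 3599) (nat_lit 594) (nat_lit 4561)))))))) (.a (.p (nat_lit 464) (.a (.d (nat_lit 561) (nat_lit 432) (nat_lit 4528) (nat_lit 593) (nat_lit 4560)) (.a (.f (nat_lit 433) (nat_lit 465) (nat_lit 6576) (.f (nat_lit 432) (nat_lit 401) (nat_lit 6544) (.d (nat_lit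 431) (nat_lit 399) (nat_lit 7567) (nat_lit 463) (nat_lit 7599)))) (.f (nat_lit 561) (nat_lit 593) (nat_lit 4560) (.f (nat_lit 562) (nat_lit 563) (nat_lit 3599) (.f (nat_lit 465) (nat_lit 433) (nat_lit 6576) (.f (nat_lit 463) (nat_lit 431) (nat_lit 7599) (.f (nat_lit 497) (nat_lit 594) (nat_lit 4561) (.d (nat_lit 462) (nat_lit 461) (nat_lit 461) (nat_lit 498) (nat_lit 462)))))))))) (.a (.p (nat_lit 591) (.a (.f (nat_lit 592) (nat_lit 623) (nat_lit 5615) (.d (nat_lit 497) (nat_lit 465) (nat_lit 6608) (nat_lit 624) (nat_lit 6640))) (.a (.d (nat_lit 559) (nat_lit 464) (nat_lit 5583) (nat_lit 623) (nat_lit 6639)) (.f (nat_lit 464) (nat_lit 559) (nat_lit 5583) (.f (nat_lit 465) (nat_lit 433) (nat_lit 6576) (.f (nat_lit 463) (nat_lit 431) (nat_lit 7599) (.d (nat_lit 592) (nat_lit 495) (nat_lit 7631) (nat_lit 497) (nat_lit 6608)))))))) (.a (.p (nat_lit 592) (.a (.d (nat_lit 495) (nat_lit 463) (nat_lit 7631) (nat_lit 624) (nat_lit 7663)) (.a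 (.d (nat_lit 497) (nat_lit 465) (nat_lit 6608) (nat_lit 624) (nat_lit 6640)) (.f (nat_lit 495) (nat_lit 463) (nat_lit 7631) (.f (nat_lit 497) (nat_lit 465) (nat_lit 6608) (.f (nat_lit 494) (nat_lit 493) (nat_lit 493) (.f (nat_lit 591) (nat_lit 623) (nat_lit 5615) (.d (nat_lit 462) (nat_lit 461) (nat_lit 3533) (nat_lit 559) (nat_lit 7630))))))))) (.a (.p (nat_lit 591) (.a (.f (nat_lit 592) (nat_lit 623) (nat_lit 5615) (.d (nat_lit 497) (nat_lit 465) (nat_lit 6608) (nat_lit 624) (nat_lit 6640))) (.a (.d (nat_lit 559) (nat_lit 464) (nat_lit 5583) (nat_lit 623) (nat_lit 6639)) (.f (nat_lit 464) (nat_lit 559) (nat_lit 5583) (.d (nat_lit 561) (nat_lit 432) (nat_lit 4528) (nat_lit 593) (nat_lit 4560)))))) (.p (nat_lit 591) (.a (.d (nat_lit 559) (nat_lit 464) (nat_lit 5583) (nat_lit 623) (nat_lit 6639)) (.a (.f (nat_lit 592) (nat_lit 623) (nat_lit 5615) (.d (nat_lit 495) (nat_lit 463) (nat_lit 7631) (nat_lit 624) (nat_lit 7663))) (.f (nat_lit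 464) (nat_lit 559) (nat_lit 5583) (.d (nat_lit 561) (nat_lit 432) (nat_lit 4528) (nat_lit 593) (nat_lit 4560))))))))))))
noncomputable def s28419 : Cert := .r (nat_lit 3773962427896970703980067733300160448905385381753147442840407123654343792107272198248276636528565486557800015660592592403154009030555443256434490679465860718068940931072) (.p (nat_lit 530) (.a (.d (nat_lit 559) (nat_lit 531) (nat_lit 1551) (nat_lit 558) (nat_lit 1550)) (.a (.f (nat_lit 495) (nat_lit 494) (nat_lit 3566) (.f (nat_lit 531) (nat_lit 496) (nat_lit 3567) (.d (nat_lit 563) (nat_lit 562) (nat_lit 527) (nat_lit 564) (nat_lit 528)))) (.f (nat_lit 559) (nat_lit 558) (nat_lit 1550) (.f (nat_lit 495) (nat_lit 494) (nat_lit 3566) (.f (nat_lit 463) (nat_lit 431) (nat_lit 4527) (.f (nat_lit 464) (nat_lit 432) (nat_lit 6575) (.f (nat_lit 496) (nat_lit 591) (nat_lit 5583) (.f (nat_lit 462) (nat_lit 430) (nat_lit 7598) (.d (nat_lit 461) (nat_lit 460) (nat_lit 460) (nat_lit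 497) (nat_lit 461)))))))))))
noncomputable def s28422 : Cert := .r (nat_lit 5660943638550353179107408936758928289799009328340392220191824088972173227751847569341540049774019602319201837101786659136820201688014610644787746989163257497368183963648) (.p (nat_lit 529) (.a s28372 (.a (.d (nat_lit 530) (nat_lit 531) (nat_lit 1551) (nat_lit 558) (nat_lit 1550)) (.f (nat_lit 530) (nat_lit 531) (nat_lit 1551) (.f (nat_lit 495) (nat_lit 494) (nat_lit 3566) (.d (nat_lit 463) (nat_lit 431) (nat_lit 4527) (nat_lit 592) (nat_lit 4559)))))))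
noncomputable def s28435 : Cert := .r (nat_lit 5660943638550353179107408936758928289799009328340392220191824088972173227751847569341540049774019602319201837101786659136820201688014610644787746989163257497368183963648) (.p (nat_lit 558) (.a (.f (nat_lit 557) (nat_lit 556) (nat_lit 2572) (.f (nat_lit 592) (nat_lit 593) (nat_lit 557) (.d (nat_lit 495) (nat_lit 463) (nat_lit 4559) (nat_lit 624) (nat_lit 7663)))) (.a (.f (nat_lit 557) (nat_lit 556) (nat_lit 2572) (.f (nat_lit 592) (nat_lit 593) (nat_lit 557) (.f (nat_lit 624) (nat_lit 656) (nat_lit 7695) (.f (nat_lit 589) (nat_lit 588) (nat_lit 1580) (.f (nat_lit 590) (nat_lit 561) (nat_lit 1581) (.d (nat_lit 625) (nat_lit 591) (nat_lit 589) (nat_lit 657) (nat_lit 4624))))))) (.a (.f (nat_lit 557) (nat_lit 556) (nat_lit 2572) (.f (nat_lit 589) (nat_lit 588) (nat_lit 1580) (.f (nat_lit 590) (nat_lit 561) (nat_lit 1581) (.f (nat_lit 622) (nat_lit 654) (nat_lit 6670) (.d (nat_lit 495) (nat_lit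 463) (nat_lit 5582) (nat_lit 591) (nat_lit 5614)))))) (.p (nat_lit 590) (.a (.f (nat_lit 495) (nat_lit 463) (nat_lit 5582) (.d (nat_lit 622) (nat_lit 591) (nat_lit 5614) (nat_lit 654) (nat_lit 6670))) (.a (.f (nat_lit 561) (nat_lit 589) (nat_lit 1581) (.d (nat_lit 562) (nat_lit 563) (nat_lit 3599) (nat_lit 591) (nat_lit 1582))) (.f (nat_lit 561) (nat_lit 589) (nat_lit 1581) (.f (nat_lit 562) (nat_lit 563) (nat_lit 3599) (.d (nat_lit 594) (nat_lit 593) (nat_lit 558) (nat_lit 595) (nat_lit 559)))))))))))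
noncomputable def s28462 : Cert := .r (nat_lit 5660943638550353179107408936758928289799009328340392220191824088972173227751847569341540049774019602319201837101786659136820201688014610644787746989163257497368183963648) (.p (nat_lit 529) (.a (.d (nat_lit 530) (nat_lit 531) (nat_lit 1551) (nat_lit 558) (nat_lit 1550)) (.a (.p (nat_lit 561) (.a (.f (nat_lit 558) (nat_lit 557) (nat_lit 2573) (.f (nat_lit 562) (nat_lit 563) (nat_lit 3599) (.d (nat_lit 590) (nat_lit 589) (nat_lit 1581) (nat_lit 591) (nat_lit 1582)))) (.a (.f (nat_lit 562) (nat_lit 563) (nat_lit 3599) (.f (nat_lit 594) (nat_lit 595) (nat_lit 559) (.f (nat_lit 497) (nat_lit 465) (nat_lit 4561) (.d (nat_lit 626) (nat_lit 593) (nat_lit 4593) (nat_lit 658) (nat_lit 7697))))) (.f (nat_lit 558) (nat_lit 557) (nat_lit 2573) (.f (nat_lit 593) (nat_lit 594) (nat_lit 558) (.f (nat_lit 625) (nat_lit 657) (nat_lit 7696) (.f (nat_lit 624) (nat_lit 656) (nat_lit 5648) (.f (nat_lit 592) (nat_lit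 497) (nat_lit 6640) (.f (nat_lit 590) (nat_lit 589) (nat_lit 1581) (.d (nat_lit 626) (nat_lit 591) (nat_lit 590) (nat_lit 658) (nat_lit 4625))))))))))) (.p (nat_lit 591) (.a (.f (nat_lit 623) (nat_lit 655) (nat_lit 6671) (.f (nat_lit 624) (nat_lit 656) (nat_lit 4623) (.f (nat_lit 592) (nat_lit 497) (nat_lit 6640) (.f (nat_lit 625) (nat_lit 657) (nat_lit 4624) (.d (nat_lit 590) (nat_lit 589) (nat_lit 589) (nat_lit 626) (nat_lit 3662)))))) (.a (.f (nat_lit 530) (nat_lit 531) (nat_lit 1551) (.f (nat_lit 562) (nat_lit 563) (nat_lit 527) (.f (nat_lit 561) (nat_lit 590) (nat_lit 1582) (.f (nat_lit 594) (nat_lit 595) (nat_lit 559) (.d (nat_lit 497) (nat_lit 465) (nat_lit 4561) (nat_lit 626) (nat_lit 7665)))))) (.a (.f (nat_lit 623) (nat_lit 655) (nat_lit 6671) (.f (nat_lit 624) (nat_lit 656) (nat_lit 4623) (.f (nat_lit 592) (nat_lit 497) (nat_lit 6640) (.f (nat_lit 622) (nat_lit 654) (nat_lit 5646) (.d (nat_lit 593) (nat_lit 594) (nat_lit 1614)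 (nat_lit 621) (nat_lit 2637)))))) (.f (nat_lit 623) (nat_lit 655) (nat_lit 6671) (.f (nat_lit 624) (nat_lit 656) (nat_lit 4623) (.f (nat_lit 622) (nat_lit 654) (nat_lit 5646) (.f (nat_lit 530) (nat_lit 531) (nat_lit 1551) (.f (nat_lit 562) (nat_lit 563) (nat_lit 527) (.f (nat_lit 590) (nat_lit 561) (nat_lit 1582) (.d (nat_lit 589) (nat_lit 588) (nat_lit 588) (nat_lit 625) (nat_lit 3661)))))))))))))))
noncomputable def s28464 : Cert := .r (nat_lit 5660943638550353179107408936758928289799009328340392220191824088972173227751847569341540049774019602319201837101786659136820201688014610644787746989163257497368183963648) (.p (nat_lit 558) (.a (.f (nat_lit 557) (nat_lit 556) (nat_lit 2572) (.f (nat_lit 589) (nat_lit 588) (nat_lit 1580) (.f (nat_lit 590) (nat_lit 561) (nat_lit 1581) (.f (nat_lit 622) (nat_lit 654) (nat_lit 6670) (.d (nat_lit 495) (nat_lit 463) (nat_lit 5582) (nat_lit 591) (nat_lit 5614)))))) (.a (.d (nat_lit 529) (nat_lit 530)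 (nat_lit 1550) (nat_lit 557) (nat_lit 2573)) (.p (nat_lit 590) (.a (.f (nat_lit 495) (nat_lit 463) (nat_lit 5582) (.d (nat_lit 622) (nat_lit 591) (nat_lit 5614) (nat_lit 654) (nat_lit 6670))) (.a (.f (nat_lit 561) (nat_lit 589) (nat_lit 1581) (.d (nat_lit 562) (nat_lit 563) (nat_lit 3599) (nat_lit 591) (nat_lit 1582))) (.f (nat_lit 561) (nat_lit 589) (nat_lit 1581) (.f (nat_lit 562) (nat_lit 563) (nat_lit 3599) (.d (nat_lit 594) (nat_lit 593) (nat_lit 558) (nat_lit 595) (nat_lit 559))))))))))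
noncomputable def s28465 : Cert := .r (nat_lit 5660943638550353179107408936758928289799009328340392220191824088972173227751847569341540049774019602319201837101786659136820201688014610644787746989163257497368183963648) (.p (nat_lit 495) (.a (.d (nat_lit 463) (nat_lit 431) (nat_lit 4527) (nat_lit 592) (nat_lit 4559)) (.a (.f (nat_lit 463) (nat_lit 431) (nat_lit 4527) (.f (nat_lit 558) (nat_lit 590) (nat_lit 5582) (.d (nat_lit 529) (nat_lit 530) (nat_lit 1550) (nat_lit 557) (nat_lit 2573)))) (.p (nat_lit 591) (.a (.f (nat_lit 592) (nat_lit 624) (nat_lit 7663) (.f (nat_lit 590) (nat_lit 622) (nat_lit 5614) (.f (nat_lit 589) (nat_lit 588) (nat_lit 2604) (.f (nat_lit 557) (nat_lit 556) (nat_lit 3628) (.d (nat_lit 558) (nat_lit 529) (nat_lit 2573) (nat_lit 593) (nat_lit 557)))))) (.a (.f (nat_lit 592) (nat_lit 624) (nat_lit 7663) (.f (nat_lit 590) (nat_lit 622) (nat_lit 5614) (.f (nat_lit 589) (nat_lit 588) (nat_lit 2604) (.f (nat_lit 557)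 (nat_lit 556) (nat_lit 3628) (.f (nat_lit 593) (nat_lit 558) (nat_lit 557) (.f (nat_lit 594) (nat_lit 595) (nat_lit 3631) (.d (nat_lit 626) (nat_lit 625) (nat_lit 590) (nat_lit 627) (nat_lit 591)))))))) (.a (.f (nat_lit 623) (nat_lit 655) (nat_lit 6671) (.d (nat_lit 622) (nat_lit 590) (nat_lit 5614) (nat_lit 654) (nat_lit 5646))) (.f (nat_lit 624) (nat_lit 592) (nat_lit 7663) (.d (nat_lit 623) (nat_lit 655) (nat_lit 6671) (nat_lit 656) (nat_lit 4623))))))))))
noncomputable def s28466 : Cert := .r (nat_lit 5660943638550353179107408936758928289799009328340392220191824088972173227751847569341540049774019602319201837101786659136820201688014610644787746989163257497368183963648) (.p (nat_lit 495) (.a (.d (nat_lit 463) (nat_lit 431) (nat_lit 4527) (nat_lit 592) (nat_lit 4559)) (.a (.f (nat_lit 463) (nat_lit 431) (nat_lit 4527) (.f (nat_lit 462) (nat_lit 430) (nat_lit 7598) (.f (nat_lit 494) (nat_lit 591) (nat_lit 7630) (.f (nat_lit 464) (nat_lit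 432) (nat_lit 6575) (.d (nat_lit 465) (nat_lit 466) (nat_lit 1486) (nat_lit 493) (nat_lit 1485)))))) (.p (nat_lit 591) (.a (.f (nat_lit 623) (nat_lit 655) (nat_lit 6671) (.d (nat_lit 622) (nat_lit 590) (nat_lit 5614) (nat_lit 654) (nat_lit 5646))) (.a (.f (nat_lit 592) (nat_lit 624) (nat_lit 7663) (.f (nat_lit 590) (nat_lit 622) (nat_lit 5614) (.d (nat_lit 561) (nat_lit 562) (nat_lit 1582) (nat_lit 589) (nat_lit 2605)))) (.f (nat_lit 624) (nat_lit 592) (nat_lit 7663) (.d (nat_lit 623) (nat_lit 655) (nat_lit 6671) (nat_lit 656) (nat_lit 4623)))))))))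
noncomputable def s28475 : Cert := .r (nat_lit 5660943638550353179107408936758928289799009328340392220191824088972173227751847569341540049774019602319201837101786659136820201688014610644787746989163257497368183963648) (.p (nat_lit 558) (.a (.f (nat_lit 557) (nat_lit 556) (nat_lit 2572) (.f (nat_lit 592) (nat_lit 593) (nat_lit 557) (.d (nat_lit 495) (nat_lit 463) (nat_lit 4559) (nat_lit 624) (nat_lit 7663)))) (.a (.d (nat_lit 529) (nat_lit 530) (nat_lit 1550) (nat_lit 557) (nat_lit 2573)) (.p (nat_lit 561) (.a (.f (nat_lit 562) (nat_lit 563) (nat_lit 3599) (.d (nat_lit 594) (nat_lit 593) (nat_lit 558) (nat_lit 595) (nat_lit 559))) (.a (.f (nat_lit 529) (nat_lit 530) (nat_lit 1550) (.f (nat_lit 593) (nat_lit 594) (nat_lit 558) (.f (nat_lit 625) (nat_lit 657) (nat_lit 7696) (.f (nat_lit 624) (nat_lit 656) (nat_lit 5648) (.d (nat_lit 592) (nat_lit 495) (nat_lit 7663) (nat_lit 497) (nat_lit 6640)))))) (.f (nat_lit 530) (nat_lit 529) (nat_lit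 1550) (.d (nat_lit 562) (nat_lit 531) (nat_lit 2575) (nat_lit 563) (nat_lit 3599)))))))))
noncomputable def s28517 : Cert := .r (nat_lit 5660943638550353179311995849752437156674833684392117167205364216849864777094553279847548412049311761999406217872155668958750619445987115082863825523281094563201216937984) (.p (nat_lit 592) (.a (.f (nat_lit 591) (nat_lit 623) (nat_lit 5615) (.f (nat_lit 593) (nat_lit 625) (nat_lit 4592) (.d (nat_lit 558) (nat_lit 557) (nat_lit 557) (nat_lit 594) (nat_lit 3630)))) (.a (.f (nat_lit 591) (nat_lit 623) (nat_lit 5615) (.f (nat_lit 593) (nat_lit 625) (nat_lit 4592) (.f (nat_lit 594) (nat_lit 595) (nat_lit 3631) (.f (nat_lit 562) (nat_lit 563) (nat_lit 2607) (.f (nat_lit 590) (nat_lit 561) (nat_lit 1582) (.f (nat_lit 589) (nat_lit 588) (nat_lit 2604) (.d (nat_lit 621) (nat_lit 620) (nat_lit 1612) (nat_lit 622) (nat_lit 1613)))))))) (.a (.f (nat_lit 593) (nat_lit 625) (nat_lit 4592) (.f (nat_lit 558) (nat_lit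 557) (nat_lit 557) (.d (nat_lit 594) (nat_lit 561) (nat_lit 558) (nat_lit 595) (nat_lit 3631)))) (.f (nat_lit 623) (nat_lit 591) (nat_lit 5615) (.d (nat_lit 624) (nat_lit 655) (nat_lit 5647) (nat_lit 656) (nat_lit 7695)))))))
noncomputable def s28522 : Cert := .r (nat_lit 5660943638550353179107408936758928289799009328340392220191824088972173227751847569341540049774019602319201837101786659136820201688014610644787746989163257497368183963648) (.p (nat_lit 496) (.a (.d (nat_lit 464) (nat_lit 432) (nat_lit 5551) (nat_lit 591) (nat_lit 5583)) (.a s28517 (.f (nat_lit 464) (nat_lit 432) (nat_lit 5551) (.f (nat_lit 465) (nat_lit 433) (nat_lit 6576) (.f (nat_lit 463) (nat_lit 431) (nat_lit 7599) (.f (nat_lit 497) (nat_lit 592) (nat_lit 6608) (.d (nat_lit 462) (nat_lit 461) (nat_lit 461) (nat_lit 498) (nat_lit 462)))))))))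
noncomputable def s28527 : Cert := .r (nat_lit 5660943638550353179311995849752437156674833684392117167205364216849864777094553279847548412049311761999406217872155668958750619445987115082863825523281094563201216937984) (.p (nat_lit 495) (.a (.f (nat_lit 463) (nat_lit 431) (nat_lit 4527) (.f (nat_lit 591) (nat_lit 623) (nat_lit 6639) (.d (nat_lit 462) (nat_lit 430) (nat_lit 7598) (nat_lit 494) (nat_lit 7630)))) (.a (.f (nat_lit 463) (nat_lit 431) (nat_lit 4527) (.f (nat_lit 591) (nat_lit 623) (nat_lit 6639) (.d (nat_lit 590) (nat_lit 558) (nat_lit 5582) (nat_lit 622) (nat_lit 5614)))) (.a (.f (nat_lit 591) (nat_lit 623) (nat_lit 6639) (.f (nat_lit 590) (nat_lit 622) (nat_lit 5614) (.f (nat_lit 561) (nat_lit 562) (nat_lit 1582) (.d (nat_lit 589) (nat_lit 558) (nat_lit 1581) (nat_lit 588) (nat_lit 2604))))) (.f (nat_lit 463) (nat_lit 431) (nat_lit 4527) (.f (nat_lit 462) (nat_lit 430) (nat_lit 7598) (.f (nat_lit 461) (nat_lit 460) (nat_lit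 460) (.d (nat_lit 497) (nat_lit 494) (nat_lit 3533) (nat_lit 498) (nat_lit 3534)))))))))
noncomputable def s28538 : Cert := .r (nat_lit 5660943638550353179107408936758928289799009328340392220191824088972173227751847569341540049774019602319201837101786659136820201688014610644787746989163257497368183963648) (.p (nat_lit 496) (.a (.d (nat_lit 464) (nat_lit 432) (nat_lit 5551) (nat_lit 591) (nat_lit 5583)) (.a s28527 (.f (nat_lit 464) (nat_lit 432) (nat_lit 5551) (.f (nat_lit 463) (nat_lit 431) (nat_lit 7599) (.f (nat_lit 465) (nat_lit 433) (nat_lit 6576) (.f (nat_lit 561) (nat_lit 593) (nat_lit 4560) (.f (nat_lit 562) (nat_lit 563) (nat_lit 3599) (.f (nat_lit 530) (nat_lit 531) (nat_lit 2575) (.f (nat_lit 594) (nat_lit 595) (nat_lit 559) (.f (nat_lit 497) (nat_lit 498) (nat_lit 7633) (.f (nat_lit 462) (nat_lit 461) (nat_lit 461) (.d (nat_lit 430) (nat_lit 429) (nat_lit 3501) (nat_lit 495) (nat_lit 7598))))))))))))))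
noncomputable def s28540 : Cert := .r (nat_lit 5660943638550353179107408936758928289799009328340392220191824088972173227751847569341540049774019602319201837101786659136820201688014610644787746989163257497368183963648) (.p (nat_lit 496) (.a (.d (nat_lit 464) (nat_lit 432) (nat_lit 5551) (nat_lit 591) (nat_lit 5583)) (.a (.p (nat_lit 495) (.a (.f (nat_lit 463) (nat_lit 431) (nat_lit 4527) (.f (nat_lit 591) (nat_lit 623) (nat_lit 6639) (.d (nat_lit 462) (nat_lit 430) (nat_lit 7598) (nat_lit 494) (nat_lit 7630)))) (.a (.f (nat_lit 463) (nat_lit 431) (nat_lit 4527) (.f (nat_lit 591) (nat_lit 623) (nat_lit 6639) (.d (nat_lit 590) (nat_lit 558) (nat_lit 5582) (nat_lit 622) (nat_lit 5614)))) (.a (.f (nat_lit 592) (nat_lit 624) (nat_lit 7663) (.f (nat_lit 591) (nat_lit 623) (nat_lit 5615) (.f (nat_lit 593) (nat_lit 625) (nat_lit 4592) (.d (nat_lit 558) (nat_lit 557) (nat_lit 557) (nat_lit 594) (nat_lit 3630))))) (.f (nat_lit 463) (nat_lit 431)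 (nat_lit 4527) (.f (nat_lit 462) (nat_lit 430) (nat_lit 7598) (.f (nat_lit 461) (nat_lit 460) (nat_lit 460) (.d (nat_lit 497) (nat_lit 494) (nat_lit 3533) (nat_lit 498) (nat_lit 3534))))))))) (.f (nat_lit 464) (nat_lit 432) (nat_lit 5551) (.f (nat_lit 465) (nat_lit 433) (nat_lit 6576) (.f (nat_lit 463) (nat_lit 431) (nat_lit 7599) (.f (nat_lit 497) (nat_lit 592) (nat_lit 6608) (.d (nat_lit 462) (nat_lit 461) (nat_lit 461) (nat_lit 498) (nat_lit 462)))))))))
noncomputable def s28541 : Cert := .r (nat_lit 5660943638550353179107408936758928289799009328340392220191824088972173227751847569341540049774019602319201837101786659136820201688014610644787746989163257497368183963648) (.p (nat_lit 496) (.a (.d (nat_lit 464) (nat_lit 432) (nat_lit 5551) (nat_lit 591) (nat_lit 5583)) (.a s28517 (.f (nat_lit 464) (nat_lit 432) (nat_lit 5551) (.f (nat_lit 465) (nat_lit 433) (nat_lit 6576) (.f (nat_lit 592) (nat_lit 497) (nat_lit 6608) (.d (nat_lit 624)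 (nat_lit 495) (nat_lit 7663) (nat_lit 656) (nat_lit 7695))))))))
noncomputable def s28543 : Cert := .r (nat_lit 5660943638550353179107408936758928289799009328340392220191824088972173227751847569341540049774019602319201837101786659136820201688014610644787746989163257497368183963648) (.p (nat_lit 496) (.a (.f (nat_lit 464) (nat_lit 432) (nat_lit 5551) (.f (nat_lit 465) (nat_lit 433) (nat_lit 6576) (.f (nat_lit 463) (nat_lit 431) (nat_lit 7599) (.f (nat_lit 497) (nat_lit 592) (nat_lit 6608) (.d (nat_lit 462) (nat_lit 461) (nat_lit 461) (nat_lit 498) (nat_lit 462)))))) (.a (.f (nat_lit 464) (nat_lit 432) (nat_lit 5551) (.f (nat_lit 463) (nat_lit 431) (nat_lit 7599) (.f (nat_lit 465) (nat_lit 433) (nat_lit 6576) (.f (nat_lit 561) (nat_lit 593) (nat_lit 4560) (.f (nat_lit 562) (nat_lit 563) (nat_lit 3599) (.f (nat_lit 530) (nat_lit 531) (nat_lit 2575) (.f (nat_lit 594) (nat_lit 595) (nat_lit 559) (.f (nat_lit 497) (nat_lit 498) (nat_lit 7633)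 (.f (nat_lit 462) (nat_lit 461) (nat_lit 461) (.d (nat_lit 430) (nat_lit 429) (nat_lit 3501) (nat_lit 495) (nat_lit 7598))))))))))) (.a (.p (nat_lit 495) (.a (.f (nat_lit 463) (nat_lit 431) (nat_lit 4527) (.f (nat_lit 462) (nat_lit 430) (nat_lit 7598) (.f (nat_lit 461) (nat_lit 460) (nat_lit 460) (.d (nat_lit 497) (nat_lit 494) (nat_lit 3533) (nat_lit 498) (nat_lit 3534))))) (.a (.d (nat_lit 463) (nat_lit 431) (nat_lit 4527) (nat_lit 592) (nat_lit 7631)) (.f (nat_lit 592) (nat_lit 624) (nat_lit 7663) (.f (nat_lit 593) (nat_lit 625) (nat_lit 4592) (.f (nat_lit 558) (nat_lit 557) (nat_lit 557) (.d (nat_lit 594) (nat_lit 561) (nat_lit 558) (nat_lit 595) (nat_lit 3631)))))))) (.a (.f (nat_lit 464) (nat_lit 432) (nat_lit 5551) (.f (nat_lit 465) (nat_lit 433) (nat_lit 6576) (.f (nat_lit 592) (nat_lit 497) (nat_lit 6608) (.d (nat_lit 624) (nat_lit 495) (nat_lit 7663) (nat_lit 656) (nat_lit 7695))))) (.f (nat_lit 464) (nat_lit 432) (nat_lit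 5551) (.f (nat_lit 463) (nat_lit 431) (nat_lit 7599) (.f (nat_lit 495) (nat_lit 592) (nat_lit 7631) (.f (nat_lit 465) (nat_lit 433) (nat_lit 6576) (.d (nat_lit 466) (nat_lit 467) (nat_lit 1487) (nat_lit 494) (nat_lit 1486)))))))))))
noncomputable def s28593 : Cert := .r (nat_lit 11321887275782665207674327721234840493050215515016777809769673667218301020682776557976738499815799913311608780418301436308406496390874304031705976900430138628675309928448) (.p (nat_lit 464) (.a (.f (nat_lit 432) (nat_lit 529) (nat_lit 4528) (.d (nat_lit 431) (nat_lit 399) (nat_lit 7567) (nat_lit 463) (nat_lit 7599))) (.a (.f (nat_lit 433) (nat_lit 465) (nat_lit 6576) (.f (nat_lit 432) (nat_lit 401) (nat_lit 6544) (.d (nat_lit 431) (nat_lit 399) (nat_lit 7567) (nat_lit 463) (nat_lit 7599)))) (.a (.f (nat_lit 432) (nat_lit 529) (nat_lit 4528) (.d (nat_lit 433) (nat_lit 401) (nat_lit 6544) (nat_lit 465) (nat_lit 6576))) (.f (nat_lit 465) (nat_lit 433) (nat_lit 6576)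 (.f (nat_lit 592) (nat_lit 497) (nat_lit 6608) (.f (nat_lit 623) (nat_lit 591) (nat_lit 5615) (.f (nat_lit 624) (nat_lit 655) (nat_lit 5647) (.f (nat_lit 656) (nat_lit 529) (nat_lit 6672) (.d (nat_lit 657) (nat_lit 625) (nat_lit 4624) (nat_lit 689) (nat_lit 4656)))))))))))
noncomputable def s28636 : Cert := .r (nat_lit 13208868488193435883590518098735466071632851769173273076944236689463421552536145273513793500129337137402138587163314348936361370947864195909910615492028649584666974617600) (.p (nat_lit 593) (.a (.f (nat_lit 496) (nat_lit 464) (nat_lit 4560) (.d (nat_lit 625) (nat_lit 529) (nat_lit 7664) (nat_lit 592) (nat_lit 4592))) (.a (.f (nat_lit 562) (nat_lit 563) (nat_lit 3599) (.f (nat_lit 530) (nat_lit 531) (nat_lit 2575) (.f (nat_lit 625) (nat_lit 657) (nat_lit 7696) (.d (nat_lit 498) (nat_lit 466) (nat_lit 5585) (nat_lit 529) (nat_lit 6641))))) (.a (.f (nat_lit 625) (nat_lit 657) (nat_lit 7696) (.d (nat_lit 496) (nat_lit 464)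 (nat_lit 4560) (nat_lit 592) (nat_lit 4592))) (.f (nat_lit 562) (nat_lit 563) (nat_lit 3599) (.f (nat_lit 594) (nat_lit 595) (nat_lit 559) (.f (nat_lit 530) (nat_lit 531) (nat_lit 2575) (.f (nat_lit 498) (nat_lit 466) (nat_lit 5585) (.f (nat_lit 497) (nat_lit 465) (nat_lit 7633) (.f (nat_lit 626) (nat_lit 529) (nat_lit 4593) (.f (nat_lit 658) (nat_lit 690) (nat_lit 7729) (.d (nat_lit 659) (nat_lit 627) (nat_lit 4626) (nat_lit 691) (nat_lit 4658)))))))))))))
noncomputable def s28696 : Cert := .r (nat_lit 5660943638550353179107408936758928289799009328340392220191824088972173227751847569341540049774019602319201837101786659136820201688014610644787746989163257497368183963648) (.p (nat_lit 496) (.a (.d (nat_lit 464) (nat_lit 432) (nat_lit 5551) (nat_lit 591) (nat_lit 5583)) (.a s28527 (.f (nat_lit 464) (nat_lit 432) (nat_lit 5551) (.f (nat_lit 561) (nat_lit 593) (nat_lit 4560) (.f (nat_lit 463) (nat_lit 431) (nat_lit 7599) (.f (nat_lit 465)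 (nat_lit 433) (nat_lit 6576) (.f (nat_lit 562) (nat_lit 563) (nat_lit 3599) (.f (nat_lit 594) (nat_lit 595) (nat_lit 559) (.f (nat_lit 497) (nat_lit 529) (nat_lit 4561) (.d (nat_lit 462) (nat_lit 461) (nat_lit 461) (nat_lit 498) (nat_lit 462))))))))))))
noncomputable def s28701 : Cert := .r (nat_lit 5660943638550353179107408936758928289799009328340392220191824088972173227751847569341540049774019602319201837101786659136820201688014610644787746989163257497368183963648) (.p (nat_lit 529) (.a (.p (nat_lit 561) (.a (.f (nat_lit 558) (nat_lit 557) (nat_lit 2573) (.f (nat_lit 593) (nat_lit 594) (nat_lit 558) (.d (nat_lit 496) (nat_lit 464) (nat_lit 4560) (nat_lit 625) (nat_lit 7664)))) (.a (.f (nat_lit 558) (nat_lit 557) (nat_lit 2573) (.f (nat_lit 562) (nat_lit 563) (nat_lit 3599) (.d (nat_lit 590) (nat_lit 589) (nat_lit 1581) (nat_lit 591) (nat_lit 1582)))) (.f (nat_lit 562) (nat_lit 563) (nat_lit 3599) (.f (nat_lit 591) (nat_lit 590) (nat_lit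 1582) (.d (nat_lit 496) (nat_lit 464) (nat_lit 5583) (nat_lit 623) (nat_lit 6639))))))) (.a (.d (nat_lit 530) (nat_lit 531) (nat_lit 1551) (nat_lit 558) (nat_lit 1550)) (.p (nat_lit 496) (.a (.d (nat_lit 464) (nat_lit 432) (nat_lit 5551) (nat_lit 591) (nat_lit 5583)) (.a (.f (nat_lit 591) (nat_lit 623) (nat_lit 6639) (.f (nat_lit 530) (nat_lit 531) (nat_lit 1551) (.f (nat_lit 562) (nat_lit 563) (nat_lit 527) (.f (nat_lit 561) (nat_lit 590) (nat_lit 1582) (.f (nat_lit 593) (nat_lit 625) (nat_lit 7664) (.f (nat_lit 594) (nat_lit 595) (nat_lit 559) (.d (nat_lit 497) (nat_lit 465) (nat_lit 4561) (nat_lit 626) (nat_lit 4593)))))))) (.f (nat_lit 464) (nat_lit 432) (nat_lit 5551) (.f (nat_lit 561) (nat_lit 593) (nat_lit 4560) (.f (nat_lit 562) (nat_lit 563) (nat_lit 3599) (.f (nat_lit 465) (nat_lit 433) (nat_lit 6576) (.d (nat_lit 594) (nat_lit 497) (nat_lit 4561) (nat_lit 595) (nat_lit 559))))))))))))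
noncomputable def s28702 : Cert := .r (nat_lit 5660943638550353179311995849752437156674833684392117167205364216849864777094553279847548412049311761999406217872155668958750619445987115082863825523281094563201216937984) (.p (nat_lit 495) (.a (.f (nat_lit 463) (nat_lit 431) (nat_lit 4527) (.f (nat_lit 591) (nat_lit 623) (nat_lit 6639) (.d (nat_lit 462) (nat_lit 430) (nat_lit 7598) (nat_lit 494) (nat_lit 7630)))) (.a (.f (nat_lit 463) (nat_lit 431) (nat_lit 4527) (.f (nat_lit 591) (nat_lit 623) (nat_lit 6639) (.d (nat_lit 590) (nat_lit 558) (nat_lit 5582) (nat_lit 622) (nat_lit 5614)))) (.a (.f (nat_lit 591) (nat_lit 623) (nat_lit 6639) (.f (nat_lit 494) (nat_lit 462) (nat_lit 7630) (.d (nat_lit 493) (nat_lit 492) (nat_lit 492) (nat_lit 529) (nat_lit 493)))) (.f (nat_lit 463) (nat_lit 431) (nat_lit 4527) (.f (nat_lit 462) (nat_lit 430) (nat_lit 7598) (.f (nat_lit 461) (nat_lit 460) (nat_lit 460) (.d (nat_lit 497) (nat_lit 494) (nat_lit 3533)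 (nat_lit 498) (nat_lit 3534)))))))))
noncomputable def s28707 : Cert := .r (nat_lit 5660943638550353179311995849752437156674833684392117167205364216849864777094553279847548412049311761999406217872155668958750619445987115082863825523281094563201216937984) (.p (nat_lit 529) (.a (.f (nat_lit 464) (nat_lit 432) (nat_lit 5551) (.f (nat_lit 530) (nat_lit 531) (nat_lit 1551) (.f (nat_lit 495) (nat_lit 494) (nat_lit 3566) (.f (nat_lit 463) (nat_lit 431) (nat_lit 4527) (.f (nat_lit 462) (nat_lit 430) (nat_lit 7598) (.d (nat_lit 461) (nat_lit 460) (nat_lit 460) (nat_lit 497) (nat_lit 461))))))) (.a (.d (nat_lit 530) (nat_lit 531) (nat_lit 1551) (nat_lit 558) (nat_lit 1550)) (.f (nat_lit 464) (nat_lit 432) (nat_lit 5551) (.f (nat_lit 463) (nat_lit 431) (nat_lit 7599) (.f (nat_lit 465) (nat_lit 433) (nat_lit 6576) (.f (nat_lit 558) (nat_lit 557) (nat_lit 2573) (.f (nat_lit 495) (nat_lit 590) (nat_lit 5582) (.d (nat_lit 466) (nat_lit 467) (nat_lit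 1487) (nat_lit 494) (nat_lit 1486))))))))))
noncomputable def s28708 : Cert := .r (nat_lit 5660943638550353179107408936758928289799009328340392220191824088972173227751847569341540049774019602319201837101786659136820201688014610644787746989163257497368183963648) (.p (nat_lit 496) (.a (.d (nat_lit 464) (nat_lit 432) (nat_lit 5551) (nat_lit 591) (nat_lit 5583)) (.a s28702 s28707)))
noncomputable def s28710 : Cert := .r (nat_lit 5660943638550353179107408936758928289799009328340392220191824088972173227751847569341540049774019602319201837101786659136820201688014610644787746989163257497368183963648) (.p (nat_lit 495) (.a (.f (nat_lit 463) (nat_lit 431) (nat_lit 4527) (.f (nat_lit 464) (nat_lit 432) (nat_lit 6575) (.f (nat_lit 496) (nat_lit 591) (nat_lit 5583) (.f (nat_lit 462) (nat_lit 430) (nat_lit 7598) (.d (nat_lit 461) (nat_lit 460) (nat_lit 460) (nat_lit 497) (nat_lit 461)))))) (.a (.f (nat_lit 463) (nat_lit 431) (nat_lit 4527) (.f (nat_lit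 462) (nat_lit 430) (nat_lit 7598) (.f (nat_lit 494) (nat_lit 591) (nat_lit 7630) (.f (nat_lit 464) (nat_lit 432) (nat_lit 6575) (.d (nat_lit 465) (nat_lit 466) (nat_lit 1486) (nat_lit 493) (nat_lit 1485)))))) (.a (.f (nat_lit 463) (nat_lit 431) (nat_lit 4527) (.f (nat_lit 462) (nat_lit 430) (nat_lit 7598) (.f (nat_lit 591) (nat_lit 494) (nat_lit 7630) (.d (nat_lit 623) (nat_lit 496) (nat_lit 6639) (nat_lit 655) (nat_lit 6671))))) (.a (.p (nat_lit 496) (.a (.f (nat_lit 591) (nat_lit 623) (nat_lit 6639) (.f (nat_lit 494) (nat_lit 462) (nat_lit 7630) (.d (nat_lit 493) (nat_lit 492) (nat_lit 492) (nat_lit 529) (nat_lit 493)))) (.a (.d (nat_lit 464) (nat_lit 432) (nat_lit 5551) (nat_lit 591) (nat_lit 5583)) (.f (nat_lit 464) (nat_lit 432) (nat_lit 5551) (.f (nat_lit 465) (nat_lit 433) (nat_lit 6576) (.f (nat_lit 494) (nat_lit 493) (nat_lit 2509) (.d (nat_lit 466) (nat_lit 467) (nat_lit 1487) (nat_lit 497) (nat_lit 2510)))))))) (.a (.p (nat_lit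 496) (.a (.f (nat_lit 463) (nat_lit 431) (nat_lit 4527) (.f (nat_lit 462) (nat_lit 430) (nat_lit 7598) (.f (nat_lit 461) (nat_lit 460) (nat_lit 460) (.d (nat_lit 497) (nat_lit 494) (nat_lit 3533) (nat_lit 498) (nat_lit 3534))))) (.a (.f (nat_lit 464) (nat_lit 432) (nat_lit 5551) (.f (nat_lit 463) (nat_lit 431) (nat_lit 4527) (.f (nat_lit 462) (nat_lit 430) (nat_lit 7598) (.d (nat_lit 461) (nat_lit 460) (nat_lit 460) (nat_lit 497) (nat_lit 461))))) (.a (.f (nat_lit 464) (nat_lit 432) (nat_lit 5551) (.f (nat_lit 465) (nat_lit 433) (nat_lit 6576) (.f (nat_lit 494) (nat_lit 493) (nat_lit 2509) (.d (nat_lit 466) (nat_lit 467) (nat_lit 1487) (nat_lit 497) (nat_lit 2510))))) (.f (nat_lit 464) (nat_lit 432) (nat_lit 5551) (.f (nat_lit 463) (nat_lit 431) (nat_lit 4527) (.f (nat_lit 465) (nat_lit 433) (nat_lit 6576) (.d (nat_lit 466) (nat_lit 467) (nat_lit 1487) (nat_lit 494) (nat_lit 1486))))))))) (.f (nat_lit 463) (nat_lit 431) (nat_lit 4527)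 (.f (nat_lit 464) (nat_lit 432) (nat_lit 6575) (.f (nat_lit 496) (nat_lit 591) (nat_lit 5583) (.f (nat_lit 465) (nat_lit 433) (nat_lit 6576) (.d (nat_lit 466) (nat_lit 467) (nat_lit 1487) (nat_lit 494) (nat_lit 1486))))))))))))
noncomputable def s28717 : Cert := .r (nat_lit 5660943638550353179107408936758928289799009328340392220191824088972173227751847569341540049774019602319201837101786659136820201688014610644787746989163257497368183963648) (.p (nat_lit 558) (.a (.d (nat_lit 529) (nat_lit 530) (nat_lit 1550) (nat_lit 557) (nat_lit 2573)) (.a (.f (nat_lit 557) (nat_lit 556) (nat_lit 2572) (.f (nat_lit 589) (nat_lit 588) (nat_lit 1580) (.f (nat_lit 590) (nat_lit 561) (nat_lit 1581) (.f (nat_lit 525) (nat_lit 524) (nat_lit 3596) (.d (nat_lit 493) (nat_lit 461) (nat_lit 4557) (nat_lit 622) (nat_lit 4589)))))) (.p (nat_lit 561) (.a (.f (nat_lit 562) (nat_lit 563) (nat_lit 3599) (.d (nat_lit 594) (nat_lit 593) (nat_lit 558) (nat_lit 595)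 (nat_lit 559))) (.a (.f (nat_lit 529) (nat_lit 530) (nat_lit 1550) (.f (nat_lit 593) (nat_lit 594) (nat_lit 558) (.d (nat_lit 496) (nat_lit 464) (nat_lit 4560) (nat_lit 625) (nat_lit 7664)))) (.f (nat_lit 530) (nat_lit 529) (nat_lit 1550) (.d (nat_lit 562) (nat_lit 531) (nat_lit 2575) (nat_lit 563) (nat_lit 3599)))))))))
noncomputable def s28731 : Cert := .r (nat_lit 3773962426139582503293512015755057144654285252209759426524031130665898470569831709057489230598128458068774220741958251419830536010010970985621147664623665074293035761664) (.p (nat_lit 559) (.a (.f (nat_lit 463) (nat_lit 431) (nat_lit 4527) (.f (nat_lit 591) (nat_lit 623) (nat_lit 6639) (.d (nat_lit 462) (nat_lit 430) (nat_lit 7598) (nat_lit 494) (nat_lit 7630)))) (.a (.f (nat_lit 463) (nat_lit 431) (nat_lit 4527) (.f (nat_lit 591) (nat_lit 623) (nat_lit 6639) (.d (nat_lit 590) (nat_lit 558) (nat_lit 5582) (nat_lit 622) (nat_lit 5614)))) (.a (.f (nat_lit 591) (nat_lit 623)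 (nat_lit 6639) (.f (nat_lit 494) (nat_lit 462) (nat_lit 7630) (.d (nat_lit 493) (nat_lit 492) (nat_lit 492) (nat_lit 529) (nat_lit 493)))) (.f (nat_lit 463) (nat_lit 431) (nat_lit 4527) (.f (nat_lit 462) (nat_lit 430) (nat_lit 7598) (.f (nat_lit 461) (nat_lit 460) (nat_lit 460) (.d (nat_lit 497) (nat_lit 494) (nat_lit 3533) (nat_lit 498) (nat_lit 3534)))))))))
noncomputable def s28761 : Cert := .r (nat_lit 3773962426139582503191218559258302711216373074183896953017261066727052695898478853804485049460482378228672030356773746508865327131024718766583108397564746541376519274496) (.p (nat_lit 464) (.a (.f (nat_lit 561) (nat_lit 593) (nat_lit 4560) (.f (nat_lit 432) (nat_lit 529) (nat_lit 4528) (.d (nat_lit 431) (nat_lit 399) (nat_lit 7567) (nat_lit 463) (nat_lit 7599)))) (.a (.f (nat_lit 433) (nat_lit 465) (nat_lit 6576) (.f (nat_lit 432) (nat_lit 401) (nat_lit 6544) (.d (nat_lit 431) (nat_lit 399) (nat_lit 7567) (nat_lit 463) (nat_lit 7599))))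 (.a (.f (nat_lit 561) (nat_lit 593) (nat_lit 4560) (.f (nat_lit 432) (nat_lit 529) (nat_lit 4528) (.d (nat_lit 433) (nat_lit 401) (nat_lit 6544) (nat_lit 465) (nat_lit 6576)))) (.f (nat_lit 465) (nat_lit 433) (nat_lit 6576) (.f (nat_lit 592) (nat_lit 497) (nat_lit 6608) (.d (nat_lit 593) (nat_lit 561) (nat_lit 4560) (nat_lit 625) (nat_lit 4592))))))))
noncomputable def s28782 : Cert := .r (nat_lit 5660943638550353179107408936758928289799009328340392220191824088972173227751847569341540049774019602319201837101786659136820201688014610644787746989163257497368183963648) (.p (nat_lit 496) (.a (.d (nat_lit 464) (nat_lit 432) (nat_lit 5551) (nat_lit 591) (nat_lit 5583)) (.a (.p (nat_lit 592) (.a (.f (nat_lit 591) (nat_lit 623) (nat_lit 5615) (.f (nat_lit 593) (nat_lit 625) (nat_lit 4592) (.d (nat_lit 558) (nat_lit 557) (nat_lit 557) (nat_lit 594) (nat_lit 3630)))) (.a (.f (nat_lit 623) (nat_lit 591) (nat_lit 5615) (.d (nat_lit 624) (nat_lit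 655) (nat_lit 5647) (nat_lit 656) (nat_lit 7695))) (.f (nat_lit 624) (nat_lit 656) (nat_lit 7695) (.d (nat_lit 497) (nat_lit 465) (nat_lit 6608) (nat_lit 529) (nat_lit 6640)))))) (.f (nat_lit 464) (nat_lit 432) (nat_lit 5551) (.f (nat_lit 465) (nat_lit 433) (nat_lit 6576) (.f (nat_lit 592) (nat_lit 497) (nat_lit 6608) (.d (nat_lit 624) (nat_lit 495) (nat_lit 7663) (nat_lit 656) (nat_lit 7695))))))))
noncomputable def s28855 : Cert := .r (nat_lit 3773962427896970703980067733300160448905385381753147442840407123654343792107272198248276636528565486557800015660592592403154009030555443256434490679465860718068940931072) (.p (nat_lit 559) (.a (.f (nat_lit 530) (nat_lit 531) (nat_lit 1551) (.f (nat_lit 495) (nat_lit 494) (nat_lit 3566) (.d (nat_lit 463) (nat_lit 431) (nat_lit 4527) (nat_lit 592) (nat_lit 4559)))) (.a (.d (nat_lit 530) (nat_lit 531) (nat_lit 1551) (nat_lit 558) (nat_lit 1550)) (.p (nat_lit 561) (.a (.f (nat_lit 558) (nat_lit 557)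 (nat_lit 2573) (.f (nat_lit 562) (nat_lit 563) (nat_lit 3599) (.d (nat_lit 590) (nat_lit 589) (nat_lit 1581) (nat_lit 591) (nat_lit 1582)))) (.a (.f (nat_lit 562) (nat_lit 563) (nat_lit 3599) (.f (nat_lit 591) (nat_lit 590) (nat_lit 1582) (.f (nat_lit 623) (nat_lit 655) (nat_lit 6671) (.f (nat_lit 624) (nat_lit 656) (nat_lit 4623) (.f (nat_lit 495) (nat_lit 592) (nat_lit 7663) (.f (nat_lit 463) (nat_lit 431) (nat_lit 4527) (.d (nat_lit 462) (nat_lit 430) (nat_lit 7598) (nat_lit 494) (nat_lit 7630)))))))) (.a (.f (nat_lit 558) (nat_lit 557) (nat_lit 2573) (.f (nat_lit 590) (nat_lit 589) (nat_lit 1581) (.f (nat_lit 495) (nat_lit 463) (nat_lit 5582) (.d (nat_lit 622) (nat_lit 591) (nat_lit 5614) (nat_lit 654) (nat_lit 6670))))) (.f (nat_lit 558) (nat_lit 557) (nat_lit 2573) (.f (nat_lit 562) (nat_lit 563) (nat_lit 3599) (.d (nat_lit 594) (nat_lit 593) (nat_lit 558) (nat_lit 595) (nat_lit 559)))))))))))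
noncomputable def s28876 : Cert := .r (nat_lit 3773962427896970703980067733300160448905385381753147442840407123654343792107272198248276636528565486557800015660592592403154009030555443256434490679465860718068940931072) (.p (nat_lit 559) (.a (.p (nat_lit 561) (.a (.f (nat_lit 558) (nat_lit 557) (nat_lit 2573) (.f (nat_lit 593) (nat_lit 594) (nat_lit 558) (.d (nat_lit 496) (nat_lit 464) (nat_lit 4560) (nat_lit 625) (nat_lit 7664)))) (.a (.f (nat_lit 558) (nat_lit 557) (nat_lit 2573) (.f (nat_lit 562) (nat_lit 563) (nat_lit 3599) (.d (nat_lit 590) (nat_lit 589) (nat_lit 1581) (nat_lit 591) (nat_lit 1582)))) (.f (nat_lit 562) (nat_lit 563) (nat_lit 3599) (.f (nat_lit 591) (nat_lit 590) (nat_lit 1582) (.d (nat_lit 496) (nat_lit 464) (nat_lit 5583) (nat_lit 623) (nat_lit 6639))))))) (.a (.d (nat_lit 530) (nat_lit 531) (nat_lit 1551) (nat_lit 558) (nat_lit 1550)) (.p (nat_lit 496) (.a (.d (nat_lit 464) (nat_lit 432) (nat_lit 5551) (nat_lit 591)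 (nat_lit 5583)) (.a (.f (nat_lit 591) (nat_lit 623) (nat_lit 6639) (.f (nat_lit 530) (nat_lit 531) (nat_lit 1551) (.f (nat_lit 562) (nat_lit 563) (nat_lit 527) (.f (nat_lit 561) (nat_lit 590) (nat_lit 1582) (.f (nat_lit 593) (nat_lit 625) (nat_lit 7664) (.f (nat_lit 594) (nat_lit 595) (nat_lit 559) (.f (nat_lit 626) (nat_lit 658) (nat_lit 7697) (.d (nat_lit 627) (nat_lit 592) (nat_lit 591) (nat_lit 659) (nat_lit 4626))))))))) (.f (nat_lit 464) (nat_lit 432) (nat_lit 5551) (.f (nat_lit 593) (nat_lit 561) (nat_lit 4560) (.f (nat_lit 530) (nat_lit 531) (nat_lit 1551) (.f (nat_lit 625) (nat_lit 592) (nat_lit 4592) (.f (nat_lit 562) (nat_lit 563) (nat_lit 527) (.f (nat_lit 594) (nat_lit 498) (nat_lit 5617) (.d (nat_lit 657) (nat_lit 626) (nat_lit 5649) (nat_lit 689) (nat_lit 6705))))))))))))))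
noncomputable def s28909 : Cert := .r (nat_lit 3773962427896970704082361189796914882343297559779009916347177187593189566778625053501280817666211566397902206045777097314119217909541695475472529946524779250985457418240) (.p (nat_lit 497) (.a (.f (nat_lit 592) (nat_lit 624) (nat_lit 6640) (.d (nat_lit 465) (nat_lit 433) (nat_lit 5552) (nat_lit 561) (nat_lit 5584))) (.a (.f (nat_lit 530) (nat_lit 494) (nat_lit 3566) (.f (nat_lit 562) (nat_lit 563) (nat_lit 527) (.f (nat_lit 465) (nat_lit 433) (nat_lit 5552) (.d (nat_lit 594) (nat_lit 498) (nat_lit 7633) (nat_lit 561) (nat_lit 4561))))) (.a (.f (nat_lit 530) (nat_lit 494) (nat_lit 3566) (.f (nat_lit 562) (nat_lit 563) (nat_lit 527) (.f (nat_lit 465) (nat_lit 433) (nat_lit 5552) (.d (nat_lit 594) (nat_lit 498) (nat_lit 7633) (nat_lit 626) (nat_lit 7665))))) (.f (nat_lit 530) (nat_lit 494) (nat_lit 3566) (.f (nat_lit 563) (nat_lit 562) (nat_lit 527) (.f (nat_lit 531) (nat_lit 564) (nat_lit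 528) (.f (nat_lit 532) (nat_lit 561) (nat_lit 1552) (.f (nat_lit 533) (nat_lit 498) (nat_lit 3569) (.d (nat_lit 501) (nat_lit 500) (nat_lit 2545) (nat_lit 502) (nat_lit 2546)))))))))))
noncomputable def s28912 : Cert := .r (nat_lit 3773962427896970703980067733300160448905385381753147442840407123654343792107272198248276636528565486557800015660592592403154009030555443256434490679465860718068940931072) (.p (nat_lit 495) (.a s28909 (.a (.f (nat_lit 592) (nat_lit 624) (nat_lit 7663) (.d (nat_lit 463) (nat_lit 431) (nat_lit 4527) (nat_lit 559) (nat_lit 4559))) (.f (nat_lit 530) (nat_lit 494) (nat_lit 3566) (.f (nat_lit 531) (nat_lit 559) (nat_lit 1551) (.d (nat_lit 563) (nat_lit 562) (nat_lit 527) (nat_lit 564) (nat_lit 528)))))))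
noncomputable def s28933 : Cert := .r (nat_lit 3773962427896970704184654646293669315781209737804872389853947251532035341449977908754284998803857646238004396430961602225084426788527947694510569213583697783901973905408) (.p (nat_lit 464) (.a (.f (nat_lit 433) (nat_lit 465) (nat_lit 6576) (.f (nat_lit 432) (nat_lit 401) (nat_lit 6544) (.d (nat_lit 431) (nat_lit 399) (nat_lit 7567) (nat_lit 463) (nat_lit 7599)))) (.a (.f (nat_lit 433) (nat_lit 465) (nat_lit 6576) (.f (nat_lit 432) (nat_lit 401) (nat_lit 6544) (.f (nat_lit 399) (nat_lit 431) (nat_lit 7567) (.d (nat_lit 400) (nat_lit 367) (nat_lit 7535) (nat_lit 497) (nat_lit 4496))))) (.a (.f (nat_lit 465) (nat_lit 433) (nat_lit 6576) (.f (nat_lit 497) (nat_lit 592) (nat_lit 6608) (.f (nat_lit 463) (nat_lit 431) (nat_lit 7599) (.d (nat_lit 462) (nat_lit 461) (nat_lit 461) (nat_lit 498) (nat_lit 462))))) (.a (.f (nat_lit 465) (nat_lit 433) (nat_lit 6576) (.f (nat_lit 497) (nat_lit 592) (nat_lit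 6608) (.d (nat_lit 432) (nat_lit 400) (nat_lit 4496) (nat_lit 561) (nat_lit 4528)))) (.f (nat_lit 432) (nat_lit 561) (nat_lit 4528) (.d (nat_lit 431) (nat_lit 399) (nat_lit 7567) (nat_lit 463) (nat_lit 7599))))))))
noncomputable def s28940 : Cert := .r (nat_lit 3773962427896970704184654646293669315781209737804872389853947251532035341449977908754284998803857646238004396430961602225084426788527947694510569213583697783901973905408) (.p (nat_lit 530) (.a (.d (nat_lit 559) (nat_lit 531) (nat_lit 1551) (nat_lit 558) (nat_lit 1550)) (.a (.f (nat_lit 563) (nat_lit 562) (nat_lit 527) (.f (nat_lit 531) (nat_lit 564) (nat_lit 528) (.f (nat_lit 497) (nat_lit 532) (nat_lit 3568) (.d (nat_lit 465) (nat_lit 433) (nat_lit 5552) (nat_lit 592) (nat_lit 6608))))) (.f (nat_lit 559) (nat_lit 558) (nat_lit 1550) (.f (nat_lit 591) (nat_lit 623) (nat_lit 6639) (.f (nat_lit 562) (nat_lit 563) (nat_lit 527) (.f (nat_lit 561) (nat_lit 590) (nat_lit 1582) (.f (nat_lit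 594) (nat_lit 595) (nat_lit 559) (.d (nat_lit 497) (nat_lit 465) (nat_lit 4561) (nat_lit 626) (nat_lit 7665))))))))))
noncomputable def s28971 : Cert := .r (nat_lit 1537714675869256576155945778994232080668353507232100411704359814857561673081074955675453359508165820314914373751691712200315325311936528214016582337209772802048) (.p (nat_lit 525) (.a (.f (nat_lit 492) (nat_lit 493) (nat_lit 3564) (.f (nat_lit 524) (nat_lit 491) (nat_lit 3563) (.d (nat_lit 556) (nat_lit 555) (nat_lit 1547) (nat_lit 557) (nat_lit 1548)))) (.a (.f (nat_lit 496) (nat_lit 497) (nat_lit 2541) (.f (nat_lit 524) (nat_lit 495) (nat_lit 2540) (.d (nat_lit 492) (nat_lit 491) (nat_lit 3563) (nat_lit 493) (nat_lit 3564)))) (.a (.f (nat_lit 496) (nat_lit 497) (nat_lit 2541) (.f (nat_lit 524) (nat_lit 495) (nat_lit 2540) (.d (nat_lit 556) (nat_lit 555) (nat_lit 1547) (nat_lit 557) (nat_lit 1548)))) s26459))))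
noncomputable def s28972 : Cert := .r (nat_lit 1537714675869256576155945778994232080668353507232100411704359814857561673081074955675453359508165820314914373751691712200315325311936528214016582337209772802048) (.p (nat_lit 525) (.a (.f (nat_lit 493) (nat_lit 492) (nat_lit 3564) (.f (nat_lit 557) (nat_lit 556) (nat_lit 1548) (.d (nat_lit 529) (nat_lit 494) (nat_lit 3565) (nat_lit 558) (nat_lit 1549)))) (.a (.f (nat_lit 492) (nat_lit 493) (nat_lit 3564) (.f (nat_lit 524) (nat_lit 491) (nat_lit 3563) (.d (nat_lit 556) (nat_lit 555) (nat_lit 1547) (nat_lit 557) (nat_lit 1548)))) (.a (.f (nat_lit 493) (nat_lit 492) (nat_lit 3564) (.f (nat_lit 529) (nat_lit 494) (nat_lit 3565) (.d (nat_lit 561) (nat_lit 560) (nat_lit 525) (nat_lit 562) (nat_lit 526)))) (.f (nat_lit 557) (nat_lit 556) (nat_lit 1548) (.f (nat_lit 529) (nat_lit 558) (nat_lit 1549) (.d (nat_lit 561) (nat_lit 560) (nat_lit 525) (nat_lit 562) (nat_lit 526))))))))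
noncomputable def s28986 : Cert := .r (nat_lit 3295102876862692663191312383559068744289328944068786596509342460409060728030874905018828627517498186389102229467910811857818554239863989030035533579735227432960) (.f (nat_lit 561) (nat_lit 562) (nat_lit 526) (.p (nat_lit 464) (.a (.f (nat_lit 496) (nat_lit 432) (nat_lit 4528) (.d (nat_lit 497) (nat_lit 498) (nat_lit 2542) (nat_lit 593) (nat_lit 7632))) (.a (.f (nat_lit 497) (nat_lit 498) (nat_lit 2542) (.f (nat_lit 465) (nat_lit 432) (nat_lit 7600) (.d (nat_lit 560) (nat_lit 433) (nat_lit 5552) (nat_lit 592) (nat_lit 5584)))) (.a (.f (nat_lit 497) (nat_lit 498) (nat_lit 2542) (.f (nat_lit 593) (nat_lit 496) (nat_lit 7632) (.f (nat_lit 592) (nat_lit 624) (nat_lit 5616) (.f (nat_lit 560) (nat_lit 465) (nat_lit 5584) (.f (nat_lit 625) (nat_lit 657) (nat_lit 7696) (.d (nat_lit 626) (nat_lit 594) (nat_lit 4593) (nat_lit 658) (nat_lit 4625))))))) (.f (nat_lit 496) (nat_lit 432) (nat_lit 4528)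 (.d (nat_lit 593) (nat_lit 560) (nat_lit 4560) (nat_lit 625) (nat_lit 7664))))))))
noncomputable def s28987 : Cert := .r (nat_lit 1537714675869256576155945778994232080668353507232100411704359814857561673081074955675453359508165820314914373751691712200315325311936528214016582337209772802048) (.p (nat_lit 529) (.a (.f (nat_lit 494) (nat_lit 493) (nat_lit 3565) (.f (nat_lit 495) (nat_lit 530) (nat_lit 3566) (.f (nat_lit 558) (nat_lit 557) (nat_lit 1549) (.d (nat_lit 463) (nat_lit 431) (nat_lit 5550) (nat_lit 590) (nat_lit 6606))))) s28986))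
noncomputable def s28988 : Cert := .r (nat_lit 1537714675869256576155945778994232080668353507232100411704359814857561673081074955675453359508165820314914373751691712200315325311936528214016582337209772802048) (.p (nat_lit 529) (.a (.f (nat_lit 493) (nat_lit 494) (nat_lit 3565) (.f (nat_lit 525) (nat_lit 492) (nat_lit 3564) (.d (nat_lit 557) (nat_lit 556) (nat_lit 1548) (nat_lit 558) (nat_lit 1549)))) (.a (.f (nat_lit 494) (nat_lit 493) (nat_lit 3565) (.f (nat_lit 495) (nat_lit 530) (nat_lit 3566) (.f (nat_lit 558) (nat_lit 557) (nat_lit 1549) (.d (nat_lit 463) (nat_lit 431) (nat_lit 5550) (nat_lit 590) (nat_lit 6606))))) (.a (.f (nat_lit 497) (nat_lit 498) (nat_lit 2542) (.f (nat_lit 525) (nat_lit 496) (nat_lit 2541) (.d (nat_lit 557) (nat_lit 556) (nat_lit 1548) (nat_lit 558) (nat_lit 1549)))) (.f (nat_lit 493) (nat_lit 494) (nat_lit 3565) (.f (nat_lit 525) (nat_lit 492) (nat_lit 3564) (.d (nat_lit 497) (nat_lit 496) (nat_lit 2541)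 (nat_lit 498) (nat_lit 2542))))))))
noncomputable def s28992 : Cert := .r (nat_lit 1537714675869256576155945778994232080668353507232100411704359814857561673081074955675453359508165820314914373751691712200315325311936528214016582337209772802048) (.p (nat_lit 525) (.a (.f (nat_lit 557) (nat_lit 556) (nat_lit 1548) (.f (nat_lit 529) (nat_lit 558) (nat_lit 1549) (.d (nat_lit 561) (nat_lit 560) (nat_lit 525) (nat_lit 562) (nat_lit 526)))) (.a (.f (nat_lit 557) (nat_lit 556) (nat_lit 1548) (.f (nat_lit 529) (nat_lit 558) (nat_lit 1549) (.d (nat_lit 497) (nat_lit 496) (nat_lit 2541) (nat_lit 498) (nat_lit 2542)))) (.a (.f (nat_lit 496) (nat_lit 497) (nat_lit 2541) (.f (nat_lit 524) (nat_lit 495) (nat_lit 2540) (.d (nat_lit 556) (nat_lit 555) (nat_lit 1547) (nat_lit 557) (nat_lit 1548)))) (.f (nat_lit 496) (nat_lit 497) (nat_lit 2541) (.f (nat_lit 495) (nat_lit 524) (nat_lit 2540) (.f (nat_lit 560) (nat_lit 561) (nat_lit 525) (.d (nat_lit 463)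 (nat_lit 431) (nat_lit 4527) (nat_lit 592) (nat_lit 7631)))))))))
noncomputable def s29001 : Cert := .r (nat_lit 1886981213728811826968147812267413832320000285949814265322387852665394840031051572508417505734006914617835652456207319148014825937076070231264352004789479986635305123840) (.p (nat_lit 591) (.a (.f (nat_lit 592) (nat_lit 624) (nat_lit 4591) (.f (nat_lit 463) (nat_lit 560) (nat_lit 4559) (.d (nat_lit 462) (nat_lit 430) (nat_lit 7598) (nat_lit 494) (nat_lit 7630)))) (.a (.f (nat_lit 494) (nat_lit 462) (nat_lit 7630) (.f (nat_lit 526) (nat_lit 623) (nat_lit 7662) (.f (nat_lit 590) (nat_lit 622) (nat_lit 5614) (.f (nat_lit 558) (nat_lit 463) (nat_lit 5582) (.d (nat_lit 493) (nat_lit 461) (nat_lit 7629) (nat_lit 492) (nat_lit 492)))))) (.a (.f (nat_lit 592) (nat_lit 624) (nat_lit 4591) (.f (nat_lit 560) (nat_lit 463) (nat_lit 4559) (.f (nat_lit 590) (nat_lit 622) (nat_lit 5614) (.d (nat_lit 561) (nat_lit 562) (nat_lit 1582) (nat_lit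 589) (nat_lit 2605))))) (.f (nat_lit 494) (nat_lit 462) (nat_lit 7630) (.f (nat_lit 623) (nat_lit 526) (nat_lit 7662) (.d (nat_lit 622) (nat_lit 590) (nat_lit 5614) (nat_lit 654) (nat_lit 5646))))))))
noncomputable def s29002 : Cert := .r (nat_lit 1886981213728811826968147812267413832320000285949814265322387852665394840031051572508417505734006914617835652456207319148014825937076070231264352004789479986635305123840) (.p (nat_lit 591) (.a (.d (nat_lit 496) (nat_lit 464) (nat_lit 6607) (nat_lit 623) (nat_lit 6639)) (.a (.f (nat_lit 494) (nat_lit 462) (nat_lit 7630) (.f (nat_lit 526) (nat_lit 623) (nat_lit 7662) (.f (nat_lit 590) (nat_lit 622) (nat_lit 5614) (.f (nat_lit 558) (nat_lit 463) (nat_lit 5582) (.d (nat_lit 493) (nat_lit 461) (nat_lit 7629) (nat_lit 492) (nat_lit 492)))))) (.f (nat_lit 496) (nat_lit 464) (nat_lit 6607) (.f (nat_lit 494) (nat_lit 462) (nat_lit 7630) (.f (nat_lit 493) (nat_lit 492) (nat_lit 492) (.f (nat_lit 525)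 (nat_lit 524) (nat_lit 1516) (.f (nat_lit 526) (nat_lit 497) (nat_lit 2541) (.f (nat_lit 590) (nat_lit 622) (nat_lit 5614) (.d (nat_lit 461) (nat_lit 460) (nat_lit 3532) (nat_lit 558) (nat_lit 7629)))))))))))
noncomputable def s29038 : Cert := .r (nat_lit 6604434244755738517167797582005995512528239633444502327285875664033579268349884782363071731068434294204568930859477620361762847845495808802928105552021431508280532795392) (.p (nat_lit 526) (.a (.f (nat_lit 557) (nat_lit 556) (nat_lit 2572) (.f (nat_lit 589) (nat_lit 588) (nat_lit 1580) (.f (nat_lit 494) (nat_lit 462) (nat_lit 5581) (.d (nat_lit 621) (nat_lit 590) (nat_lit 5613) (nat_lit 653) (nat_lit 6669))))) (.a (.f (nat_lit 557) (nat_lit 556) (nat_lit 2572) (.f (nat_lit 525) (nat_lit 524) (nat_lit 524) (.f (nat_lit 493) (nat_lit 492) (nat_lit 3564) (.d (nat_lit 461) (nat_lit 429) (nat_lit 4525) (nat_lit 590) (nat_lit 4557))))) (.a (.f (nat_lit 525) (nat_lit 524) (nat_lit 524) (.f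 (nat_lit 493) (nat_lit 492) (nat_lit 3564) (.f (nat_lit 590) (nat_lit 622) (nat_lit 7661) (.d (nat_lit 461) (nat_lit 429) (nat_lit 4525) (nat_lit 494) (nat_lit 7629))))) (.f (nat_lit 557) (nat_lit 556) (nat_lit 2572) (.f (nat_lit 525) (nat_lit 524) (nat_lit 524) (.f (nat_lit 589) (nat_lit 588) (nat_lit 1580) (.d (nat_lit 494) (nat_lit 462) (nat_lit 5581) (nat_lit 621) (nat_lit 6637)))))))))
noncomputable def s29048 : Cert := .r (nat_lit 5660943638770026704231588447638349115369613911293014149796409862072796058445784951210265043441941510820368382861060141101347589145202514260778679591165626402683865792512) (.p (nat_lit 558) (.a (.f (nat_lit 557) (nat_lit 556) (nat_lit 2572) (.f (nat_lit 561) (nat_lit 562) (nat_lit 3598) (.d (nat_lit 589) (nat_lit 588) (nat_lit 1580) (nat_lit 590) (nat_lit 1581)))) (.a (.f (nat_lit 557) (nat_lit 556) (nat_lit 2572) (.f (nat_lit 589) (nat_lit 588) (nat_lit 1580) (.f (nat_lit 494) (nat_lit 462) (nat_lit 5581)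 (.d (nat_lit 621) (nat_lit 590) (nat_lit 5613) (nat_lit 653) (nat_lit 6669))))) (.f (nat_lit 561) (nat_lit 562) (nat_lit 3598) (.f (nat_lit 593) (nat_lit 594) (nat_lit 558) (.f (nat_lit 496) (nat_lit 464) (nat_lit 4560) (.d (nat_lit 625) (nat_lit 592) (nat_lit 4592) (nat_lit 657) (nat_lit 7696))))))))
noncomputable def s29049 : Cert := .r (nat_lit 5660943638550353179107408936758928289799009328340392220191824088972173227751847569341540049774019602319201837101786659136820201688014610644787746989163257497368183963648) (.p (nat_lit 526) (.a (.d (nat_lit 525) (nat_lit 524) (nat_lit 524) (nat_lit 561) (nat_lit 525)) (.a s29048 s28136)))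
noncomputable def s29072 : Cert := .r (nat_lit 1886981213948485352092327323146834657890604868902436194926973625766017670724988954377142499401928823119002198215480801112542213394263973847255284606791848891950986952704) (.p (nat_lit 591) (.a (.f (nat_lit 590) (nat_lit 622) (nat_lit 5614) (.f (nat_lit 463) (nat_lit 558) (nat_lit 5582) (.d (nat_lit 560) (nat_lit 431) (nat_lit 4527) (nat_lit 592) (nat_lit 4559)))) (.a (.f (nat_lit 590) (nat_lit 622) (nat_lit 5614) (.f (nat_lit 558) (nat_lit 463) (nat_lit 5582) (.f (nat_lit 557) (nat_lit 556) (nat_lit 2572) (.d (nat_lit 592) (nat_lit 593) (nat_lit 3629) (nat_lit 624) (nat_lit 4591))))) (.a (.f (nat_lit 622) (nat_lit 590) (nat_lit 5614) (.f (nat_lit 623) (nat_lit 654) (nat_lit 5646) (.d (nat_lit 655) (nat_lit 558) (nat_lit 7694) (nat_lit 560) (nat_lit 6671)))) (.a (.f (nat_lit 622) (nat_lit 590) (nat_lit 5614) (.f (nat_lit 623) (nat_lit 654) (nat_lit 5646) (.d (nat_lit 624) (nat_lit 592) (nat_lit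 4591) (nat_lit 656) (nat_lit 4623)))) (.a (.f (nat_lit 624) (nat_lit 592) (nat_lit 4591) (.f (nat_lit 623) (nat_lit 656) (nat_lit 4623) (.f (nat_lit 654) (nat_lit 622) (nat_lit 5646) (.d (nat_lit 655) (nat_lit 558) (nat_lit 7694) (nat_lit 686) (nat_lit 5678))))) (.f (nat_lit 624) (nat_lit 592) (nat_lit 4591) (.f (nat_lit 623) (nat_lit 656) (nat_lit 4623) (.f (nat_lit 558) (nat_lit 655) (nat_lit 7694) (.d (nat_lit 463) (nat_lit 431) (nat_lit 5550) (nat_lit 590) (nat_lit 5582)))))))))))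
noncomputable def s29092 : Cert := .r (nat_lit 1886981213948485351990033866650080224452692690876573721420203561827171896053636099124138318264282743278900007830296296201577004515277721628217245339732930359034470465536) (.p (nat_lit 495) (.a (.p (nat_lit 464) (.a (.d (nat_lit 432) (nat_lit 463) (nat_lit 6575) (nat_lit 496) (nat_lit 5551)) (.a (.f (nat_lit 463) (nat_lit 432) (nat_lit 6575) (.d (nat_lit 431) (nat_lit 558) (nat_lit 5550) (nat_lit 560) (nat_lit 4527))) (.a (.d (nat_lit 496) (nat_lit 432) (nat_lit 5551) (nat_lit 591) (nat_lit 6607)) (.f (nat_lit 591) (nat_lit 496) (nat_lit 6607) (.f (nat_lit 590) (nat_lit 622) (nat_lit 5614) (.f (nat_lit 558) (nat_lit 463) (nat_lit 5582) (.f (nat_lit 592) (nat_lit 624) (nat_lit 4591) (.d (nat_lit 557) (nat_lit 556) (nat_lit 556) (nat_lit 593) (nat_lit 3629)))))))))) (.a s1905 (.a (.p (nat_lit 591) (.a (.d (nat_lit 496) (nat_lit 464) (nat_lit 6607) (nat_lit 623) (nat_lit 6639)) (.a (.f (nat_lit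 590) (nat_lit 622) (nat_lit 5614) (.f (nat_lit 463) (nat_lit 558) (nat_lit 5582) (.f (nat_lit 430) (nat_lit 462) (nat_lit 7598) (.f (nat_lit 431) (nat_lit 398) (nat_lit 7566) (.d (nat_lit 432) (nat_lit 400) (nat_lit 6543) (nat_lit 464) (nat_lit 6575)))))) (.f (nat_lit 622) (nat_lit 590) (nat_lit 5614) (.f (nat_lit 623) (nat_lit 654) (nat_lit 5646) (.d (nat_lit 655) (nat_lit 558) (nat_lit 7694) (nat_lit 560) (nat_lit 6671))))))) (.a s29072 (.a (.p (nat_lit 591) (.a (.d (nat_lit 496) (nat_lit 464) (nat_lit 6607) (nat_lit 623) (nat_lit 6639)) (.a (.f (nat_lit 622) (nat_lit 590) (nat_lit 5614) (.f (nat_lit 623) (nat_lit 654) (nat_lit 5646) (.d (nat_lit 624) (nat_lit 592) (nat_lit 4591) (nat_lit 656) (nat_lit 4623)))) (.f (nat_lit 496) (nat_lit 464) (nat_lit 6607) (.f (nat_lit 592) (nat_lit 624) (nat_lit 4591) (.f (nat_lit 560) (nat_lit 463) (nat_lit 7631) (.d (nat_lit 497) (nat_lit 465) (nat_lit 6608) (nat_lit 498) (nat_lit 1518))))))))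 (.a (.p (nat_lit 591) (.a (.d (nat_lit 496) (nat_lit 464) (nat_lit 6607) (nat_lit 623) (nat_lit 6639)) (.a (.f (nat_lit 622) (nat_lit 590) (nat_lit 5614) (.f (nat_lit 623) (nat_lit 654) (nat_lit 5646) (.d (nat_lit 624) (nat_lit 592) (nat_lit 4591) (nat_lit 656) (nat_lit 4623)))) (.f (nat_lit 496) (nat_lit 464) (nat_lit 6607) (.f (nat_lit 592) (nat_lit 624) (nat_lit 4591) (.f (nat_lit 590) (nat_lit 622) (nat_lit 5614) (.f (nat_lit 497) (nat_lit 498) (nat_lit 1518) (.f (nat_lit 560) (nat_lit 465) (nat_lit 6608) (.d (nat_lit 561) (nat_lit 562) (nat_lit 1582) (nat_lit 589) (nat_lit 2605)))))))))) (.a (.p (nat_lit 463) (.a (.d (nat_lit 431) (nat_lit 558) (nat_lit 5550) (nat_lit 560) (nat_lit 4527)) (.a (.d (nat_lit 558) (nat_lit 431) (nat_lit 5550) (nat_lit 590) (nat_lit 5582)) (.a (.d (nat_lit 560) (nat_lit 431) (nat_lit 4527) (nat_lit 592) (nat_lit 4559)) (.f (nat_lit 560) (nat_lit 592) (nat_lit 4559) (.f (nat_lit 558) (nat_lit 590) (nat_lit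 5582) (.f (nat_lit 561) (nat_lit 562) (nat_lit 3598) (.f (nat_lit 464) (nat_lit 432) (nat_lit 6575) (.d (nat_lit 593) (nat_lit 496) (nat_lit 4560) (nat_lit 594) (nat_lit 558)))))))))) (.p (nat_lit 591) (.a (.d (nat_lit 496) (nat_lit 464) (nat_lit 6607) (nat_lit 623) (nat_lit 6639)) (.a (.f (nat_lit 624) (nat_lit 592) (nat_lit 4591) (.f (nat_lit 623) (nat_lit 656) (nat_lit 4623) (.f (nat_lit 654) (nat_lit 622) (nat_lit 5646) (.d (nat_lit 655) (nat_lit 558) (nat_lit 7694) (nat_lit 686) (nat_lit 5678))))) (.f (nat_lit 496) (nat_lit 464) (nat_lit 6607) (.f (nat_lit 592) (nat_lit 624) (nat_lit 4591) (.f (nat_lit 560) (nat_lit 463) (nat_lit 7631) (.d (nat_lit 497) (nat_lit 465) (nat_lit 6608) (nat_lit 498) (nat_lit 1518))))))))))))))))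
noncomputable def s29112 : Cert := .r (nat_lit 1886981213948485351990033866650080224452692690876573721420203561827171896053636099124138318264282743278900007830296296201577004515277721628217245339732930359034470465536) (.p (nat_lit 495) (.a (.p (nat_lit 591) (.a (.d (nat_lit 494) (nat_lit 462) (nat_lit 7630) (nat_lit 623) (nat_lit 7662)) (.f (nat_lit 590) (nat_lit 622) (nat_lit 5614) (.f (nat_lit 463) (nat_lit 558) (nat_lit 5582) (.d (nat_lit 560) (nat_lit 431) (nat_lit 4527) (nat_lit 592) (nat_lit 4559)))))) (.a (.p (nat_lit 591) (.a (.d (nat_lit 494) (nat_lit 462) (nat_lit 7630) (nat_lit 623) (nat_lit 7662)) (.f (nat_lit 590) (nat_lit 622) (nat_lit 5614) (.f (nat_lit 558) (nat_lit 463) (nat_lit 5582) (.f (nat_lit 557) (nat_lit 556) (nat_lit 2572) (.d (nat_lit 592) (nat_lit 593) (nat_lit 3629) (nat_lit 624) (nat_lit 4591))))))) (.a s1979 (.a s29072 (.a (.p (nat_lit 591) (.a (.d (nat_lit 494) (nat_lit 462) (nat_lit 7630) (nat_lit 623)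 (nat_lit 7662)) (.a (.f (nat_lit 622) (nat_lit 590) (nat_lit 5614) (.f (nat_lit 623) (nat_lit 654) (nat_lit 5646) (.d (nat_lit 624) (nat_lit 592) (nat_lit 4591) (nat_lit 656) (nat_lit 4623)))) (.f (nat_lit 592) (nat_lit 624) (nat_lit 4591) (.f (nat_lit 560) (nat_lit 463) (nat_lit 4559) (.f (nat_lit 561) (nat_lit 562) (nat_lit 3598) (.d (nat_lit 590) (nat_lit 589) (nat_lit 2605) (nat_lit 622) (nat_lit 5614)))))))) (.a (.p (nat_lit 463) (.a (.d (nat_lit 431) (nat_lit 558) (nat_lit 5550) (nat_lit 560) (nat_lit 4527)) (.a (.d (nat_lit 558) (nat_lit 431) (nat_lit 5550) (nat_lit 590) (nat_lit 5582)) (.a (.d (nat_lit 560) (nat_lit 431) (nat_lit 4527) (nat_lit 592) (nat_lit 4559)) (.f (nat_lit 558) (nat_lit 590) (nat_lit 5582) (.f (nat_lit 560) (nat_lit 592) (nat_lit 4559) (.f (nat_lit 557) (nat_lit 556) (nat_lit 2572) (.f (nat_lit 462) (nat_lit 430) (nat_lit 7598) (.d (nat_lit 589) (nat_lit 494) (nat_lit 5581) (nat_lit 588) (nat_lit 1580))))))))))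 (.p (nat_lit 591) (.a (.d (nat_lit 494) (nat_lit 462) (nat_lit 7630) (nat_lit 623) (nat_lit 7662)) (.a (.f (nat_lit 624) (nat_lit 592) (nat_lit 4591) (.f (nat_lit 623) (nat_lit 656) (nat_lit 4623) (.f (nat_lit 654) (nat_lit 622) (nat_lit 5646) (.d (nat_lit 655) (nat_lit 558) (nat_lit 7694) (nat_lit 686) (nat_lit 5678))))) (.f (nat_lit 494) (nat_lit 462) (nat_lit 7630) (.f (nat_lit 592) (nat_lit 624) (nat_lit 4591) (.f (nat_lit 463) (nat_lit 560) (nat_lit 4559) (.d (nat_lit 431) (nat_lit 399) (nat_lit 5518) (nat_lit 558) (nat_lit 5550)))))))))))))))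
noncomputable def s29114 : Cert := .r (nat_lit 1886981213948485351990033866650080224452692690876573721420203561827171896053636099124138318264282743278900007830296296201577004515277721628217245339732930359034470465536) (.p (nat_lit 495) (.a (.p (nat_lit 591) (.a (.d (nat_lit 494) (nat_lit 462) (nat_lit 7630) (nat_lit 623) (nat_lit 7662)) (.f (nat_lit 590) (nat_lit 622) (nat_lit 5614) (.f (nat_lit 463) (nat_lit 558) (nat_lit 5582) (.d (nat_lit 560) (nat_lit 431) (nat_lit 4527) (nat_lit 592) (nat_lit 4559)))))) (.a (.p (nat_lit 496) (.a (.d (nat_lit 497) (nat_lit 498) (nat_lit 1518) (nat_lit 525) (nat_lit 2541)) (.f (nat_lit 591) (nat_lit 623) (nat_lit 6639) (.f (nat_lit 590) (nat_lit 622) (nat_lit 5614) (.f (nat_lit 463) (nat_lit 558) (nat_lit 5582) (.f (nat_lit 431) (nat_lit 399) (nat_lit 4495) (.d (nat_lit 430) (nat_lit 398) (nat_lit 7566) (nat_lit 462) (nat_lit 7598)))))))) (.a (.p (nat_lit 560) (.a (.d (nat_lit 525) (nat_lit 524) (nat_lit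 524) (nat_lit 561) (nat_lit 525)) (.f (nat_lit 463) (nat_lit 431) (nat_lit 4527) (.f (nat_lit 462) (nat_lit 430) (nat_lit 7598) (.f (nat_lit 591) (nat_lit 494) (nat_lit 7630) (.f (nat_lit 623) (nat_lit 655) (nat_lit 6671) (.d (nat_lit 622) (nat_lit 590) (nat_lit 5614) (nat_lit 654) (nat_lit 5646)))))))) (.a s28155 (.p (nat_lit 560) (.a (.d (nat_lit 463) (nat_lit 431) (nat_lit 4527) (nat_lit 592) (nat_lit 4559)) (.d (nat_lit 525) (nat_lit 524) (nat_lit 524) (nat_lit 561) (nat_lit 525)))))))))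
noncomputable def s29126 : Cert := .r (nat_lit 1886981213948485351990033866650080224452692690876573721420203561827171896053636099124138318264282743278900007830296296201577004515277721628217245339732930359034470465536) (.p (nat_lit 495) (.a (.p (nat_lit 560) (.a (.d (nat_lit 463) (nat_lit 431) (nat_lit 4527) (nat_lit 592) (nat_lit 4559)) (.d (nat_lit 525) (nat_lit 524) (nat_lit 524) (nat_lit 561) (nat_lit 525)))) (.a (.p (nat_lit 525) (.a (.f (nat_lit 556) (nat_lit 557) (nat_lit 1548) (.f (nat_lit 524) (nat_lit 555) (nat_lit 1547) (.d (nat_lit 492) (nat_lit 491) (nat_lit 3563) (nat_lit 493) (nat_lit 3564)))) (.a (.f (nat_lit 492) (nat_lit 493) (nat_lit 3564) (.f (nat_lit 524) (nat_lit 491) (nat_lit 3563) (.f (nat_lit 494) (nat_lit 523) (nat_lit 2539) (.d (nat_lit 462) (nat_lit 430) (nat_lit 4526) (nat_lit 591) (nat_lit 7630))))) (.a (.f (nat_lit 496) (nat_lit 497) (nat_lit 2541) (.f (nat_lit 591) (nat_lit 623) (nat_lit 6639) (.f (nat_lit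 462) (nat_lit 494) (nat_lit 7630) (.f (nat_lit 430) (nat_lit 463) (nat_lit 7598) (.f (nat_lit 493) (nat_lit 492) (nat_lit 3564) (.d (nat_lit 557) (nat_lit 461) (nat_lit 6573) (nat_lit 556) (nat_lit 1548))))))) (.f (nat_lit 556) (nat_lit 557) (nat_lit 1548) (.f (nat_lit 524) (nat_lit 555) (nat_lit 1547) (.f (nat_lit 494) (nat_lit 523) (nat_lit 2539) (.d (nat_lit 462) (nat_lit 430) (nat_lit 4526) (nat_lit 591) (nat_lit 7630))))))))) (.a (.p (nat_lit 591) (.a (.d (nat_lit 494) (nat_lit 462) (nat_lit 7630) (nat_lit 623) (nat_lit 7662)) (.a (.f (nat_lit 624) (nat_lit 592) (nat_lit 4591) (.f (nat_lit 623) (nat_lit 656) (nat_lit 4623) (.f (nat_lit 654) (nat_lit 622) (nat_lit 5646) (.d (nat_lit 655) (nat_lit 558) (nat_lit 7694) (nat_lit 686) (nat_lit 5678))))) (.f (nat_lit 494) (nat_lit 462) (nat_lit 7630) (.f (nat_lit 592) (nat_lit 624) (nat_lit 4591) (.f (nat_lit 463) (nat_lit 560) (nat_lit 4559) (.d (nat_lit 431) (nat_lit 399) (nat_lit 5518)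 (nat_lit 558) (nat_lit 5550)))))))) s28175))))
noncomputable def s29127 : Cert := .r (nat_lit 1886981213948485351990033866650080224452692690876573721420203561827171896053636099124138318264282743278900007830296296201577004515277721628217245339732930359034470465536) (.p (nat_lit 495) (.a (.p (nat_lit 591) (.a (.d (nat_lit 494) (nat_lit 462) (nat_lit 7630) (nat_lit 623) (nat_lit 7662)) (.f (nat_lit 590) (nat_lit 622) (nat_lit 5614) (.f (nat_lit 463) (nat_lit 558) (nat_lit 5582) (.d (nat_lit 560) (nat_lit 431) (nat_lit 4527) (nat_lit 592) (nat_lit 4559)))))) (.a (.p (nat_lit 591) (.a (.d (nat_lit 494) (nat_lit 462) (nat_lit 7630) (nat_lit 623) (nat_lit 7662)) (.f (nat_lit 590) (nat_lit 622) (nat_lit 5614) (.f (nat_lit 558) (nat_lit 463) (nat_lit 5582) (.f (nat_lit 557) (nat_lit 556) (nat_lit 2572) (.d (nat_lit 592) (nat_lit 593) (nat_lit 3629) (nat_lit 624) (nat_lit 4591))))))) (.a (.p (nat_lit 560) (.a (.d (nat_lit 525) (nat_lit 524) (nat_lit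 524) (nat_lit 561) (nat_lit 525)) (.f (nat_lit 463) (nat_lit 431) (nat_lit 4527) (.f (nat_lit 462) (nat_lit 430) (nat_lit 7598) (.f (nat_lit 591) (nat_lit 494) (nat_lit 7630) (.f (nat_lit 623) (nat_lit 655) (nat_lit 6671) (.d (nat_lit 622) (nat_lit 590) (nat_lit 5614) (nat_lit 654) (nat_lit 5646)))))))) (.a (.p (nat_lit 560) (.a (.d (nat_lit 463) (nat_lit 431) (nat_lit 4527) (nat_lit 592) (nat_lit 4559)) (.d (nat_lit 525) (nat_lit 524) (nat_lit 524) (nat_lit 561) (nat_lit 525)))) (.p (nat_lit 591) (.a (.d (nat_lit 494) (nat_lit 462) (nat_lit 7630) (nat_lit 623) (nat_lit 7662)) (.a (.f (nat_lit 622) (nat_lit 590) (nat_lit 5614) (.f (nat_lit 623) (nat_lit 654) (nat_lit 5646) (.d (nat_lit 624) (nat_lit 592) (nat_lit 4591) (nat_lit 656) (nat_lit 4623)))) (.f (nat_lit 494) (nat_lit 462) (nat_lit 7630) (.f (nat_lit 493) (nat_lit 492) (nat_lit 492) (.f (nat_lit 590) (nat_lit 622) (nat_lit 5614) (.f (nat_lit 558) (nat_lit 461) (nat_lit 7629)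 (.f (nat_lit 557) (nat_lit 556) (nat_lit 2572) (.d (nat_lit 592) (nat_lit 593) (nat_lit 3629) (nat_lit 624) (nat_lit 4591)))))))))))))))
noncomputable def s29159 : Cert := .r (nat_lit 1886981213948485351990033866650080224452692690876573721420203561827171896053636099124138318264282743278900007830296296201577004515277721628217245339732930359034470465536) (.p (nat_lit 591) (.a (.f (nat_lit 494) (nat_lit 623) (nat_lit 7662) (.d (nat_lit 462) (nat_lit 430) (nat_lit 4526) (nat_lit 495) (nat_lit 7630))) (.a (.f (nat_lit 623) (nat_lit 494) (nat_lit 7662) (.f (nat_lit 655) (nat_lit 558) (nat_lit 7694) (.d (nat_lit 654) (nat_lit 622) (nat_lit 5646) (nat_lit 686) (nat_lit 5678)))) (.a (.f (nat_lit 496) (nat_lit 623) (nat_lit 6639) (.d (nat_lit 464) (nat_lit 432) (nat_lit 5551) (nat_lit 495) (nat_lit 6607))) (.p (nat_lit 495) (.a (.f (nat_lit 494) (nat_lit 462) (nat_lit 7630) (.f (nat_lit 496) (nat_lit 464) (nat_lit 6607) (.f (nat_lit 493) (nat_lit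 492) (nat_lit 492) (.f (nat_lit 590) (nat_lit 622) (nat_lit 5614) (.d (nat_lit 461) (nat_lit 460) (nat_lit 3532) (nat_lit 558) (nat_lit 7629)))))) (.a (.f (nat_lit 494) (nat_lit 462) (nat_lit 7630) (.f (nat_lit 493) (nat_lit 492) (nat_lit 492) (.f (nat_lit 590) (nat_lit 622) (nat_lit 5614) (.f (nat_lit 558) (nat_lit 461) (nat_lit 7629) (.f (nat_lit 557) (nat_lit 556) (nat_lit 2572) (.d (nat_lit 592) (nat_lit 593) (nat_lit 3629) (nat_lit 624) (nat_lit 4591))))))) (.a (.f (nat_lit 496) (nat_lit 464) (nat_lit 6607) (.f (nat_lit 592) (nat_lit 624) (nat_lit 4591) (.f (nat_lit 590) (nat_lit 622) (nat_lit 5614) (.f (nat_lit 497) (nat_lit 498) (nat_lit 1518) (.f (nat_lit 560) (nat_lit 465) (nat_lit 6608) (.d (nat_lit 561) (nat_lit 562) (nat_lit 1582) (nat_lit 589) (nat_lit 2605))))))) (.f (nat_lit 494) (nat_lit 462) (nat_lit 7630) (.f (nat_lit 496) (nat_lit 464) (nat_lit 6607) (.f (nat_lit 592) (nat_lit 624) (nat_lit 4591) (.f (nat_lit 497)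 (nat_lit 498) (nat_lit 1518) (.d (nat_lit 465) (nat_lit 466) (nat_lit 2510) (nat_lit 560) (nat_lit 6608))))))))))))))
noncomputable def s29165 : Cert := .r (nat_lit 1886981213948485351990033866650080224452692690876573721420203561827171896053636099124138318264282743278900007830296296201577004515277721628217245339732930359034470465536) (.p (nat_lit 525) (.a (.d (nat_lit 560) (nat_lit 524) (nat_lit 524) (nat_lit 561) (nat_lit 525)) (.a (.f (nat_lit 496) (nat_lit 497) (nat_lit 2541) (.f (nat_lit 524) (nat_lit 495) (nat_lit 2540) (.d (nat_lit 492) (nat_lit 491) (nat_lit 3563) (nat_lit 493) (nat_lit 3564)))) (.f (nat_lit 560) (nat_lit 561) (nat_lit 525) (.f (nat_lit 557) (nat_lit 556) (nat_lit 1548) (.f (nat_lit 493) (nat_lit 492) (nat_lit 3564) (.f (nat_lit 496) (nat_lit 497) (nat_lit 2541) (.f (nat_lit 464) (nat_lit 432) (nat_lit 5551) (.f (nat_lit 465) (nat_lit 433) (nat_lit 6576) (.f (nat_lit 494) (nat_lit 495) (nat_lit 2509) (.d (nat_lit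 462) (nat_lit 430) (nat_lit 5549) (nat_lit 589) (nat_lit 6605))))))))))))
noncomputable def s29180 : Cert := .r (nat_lit 1886981213948485351990033866650080224452692690876573721420203561827171896053636099124138318264282743278900007830296296201577004515277721628217245339732930359034470465536) (.p (nat_lit 525) (.a (.d (nat_lit 560) (nat_lit 524) (nat_lit 524) (nat_lit 561) (nat_lit 525)) (.a (.f (nat_lit 556) (nat_lit 557) (nat_lit 1548) (.f (nat_lit 524) (nat_lit 555) (nat_lit 1547) (.f (nat_lit 523) (nat_lit 558) (nat_lit 523) (.d (nat_lit 491) (nat_lit 490) (nat_lit 3562) (nat_lit 492) (nat_lit 3563))))) (.f (nat_lit 560) (nat_lit 561) (nat_lit 525) (.f (nat_lit 496) (nat_lit 497) (nat_lit 2541) (.f (nat_lit 464) (nat_lit 432) (nat_lit 5551) (.f (nat_lit 463) (nat_lit 431) (nat_lit 7599) (.f (nat_lit 592) (nat_lit 495) (nat_lit 7631) (.f (nat_lit 557) (nat_lit 556) (nat_lit 1548) (.d (nat_lit 593) (nat_lit 558) (nat_lit 557) (nat_lit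 625) (nat_lit 4592)))))))))))
noncomputable def s29201 : Cert := .r (nat_lit 1886981213948485351990033866650080224452692690876573721420203561827171896053636099124138318264282743278900007830296296201577004515277721628217245339732930359034470465536) (.p (nat_lit 560) (.a (.d (nat_lit 525) (nat_lit 524) (nat_lit 524) (nat_lit 561) (nat_lit 525)) (.a s29048 (.f (nat_lit 525) (nat_lit 524) (nat_lit 524) (.f (nat_lit 496) (nat_lit 497) (nat_lit 2541) (.d (nat_lit 464) (nat_lit 432) (nat_lit 5551) (nat_lit 591) (nat_lit 5583)))))))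
noncomputable def s29202 : Cert := .r (nat_lit 1886981213948485351990033866650080224452692690876573721420203561827171896053636099124138318264282743278900007830296296201577004515277721628217245339732930359034470465536) (.p (nat_lit 525) (.a (.d (nat_lit 560) (nat_lit 524) (nat_lit 524) (nat_lit 561) (nat_lit 525)) (.a (.f (nat_lit 496) (nat_lit 497) (nat_lit 2541) (.f (nat_lit 524) (nat_lit 495) (nat_lit 2540) (.d (nat_lit 556) (nat_lit 555) (nat_lit 1547) (nat_lit 557) (nat_lit 1548)))) (.f (nat_lit 560) (nat_lit 561) (nat_lit 525) (.f (nat_lit 496) (nat_lit 497) (nat_lit 2541) (.f (nat_lit 464) (nat_lit 432) (nat_lit 5551) (.f (nat_lit 463) (nat_lit 431) (nat_lit 7599) (.f (nat_lit 592) (nat_lit 495) (nat_lit 7631) (.f (nat_lit 557) (nat_lit 556) (nat_lit 1548) (.d (nat_lit 593) (nat_lit 558) (nat_lit 557) (nat_lit 625) (nat_lit 4592)))))))))))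
noncomputable def s29215 : Cert := .r (nat_lit 1537714675869256576155945778994232080668353507232100411704359814857561673081074955675453359508165820314914373751691712200315325311936528214016582337209772802048) (.p (nat_lit 525) (.a (.f (nat_lit 560) (nat_lit 561) (nat_lit 525) (.f (nat_lit 524) (nat_lit 559) (nat_lit 524) (.d (nat_lit 492) (nat_lit 491) (nat_lit 3563) (nat_lit 493) (nat_lit 3564)))) (.a (.f (nat_lit 492) (nat_lit 493) (nat_lit 3564) (.f (nat_lit 524) (nat_lit 491) (nat_lit 3563) (.d (nat_lit 556) (nat_lit 555) (nat_lit 1547) (nat_lit 557) (nat_lit 1548)))) (.a (.f (nat_lit 560) (nat_lit 561) (nat_lit 525) (.f (nat_lit 524) (nat_lit 559) (nat_lit 524) (.d (nat_lit 556) (nat_lit 555) (nat_lit 1547) (nat_lit 557) (nat_lit 1548)))) (.p (nat_lit 559) (.a s28273 (.a (.f (nat_lit 560) (nat_lit 561) (nat_lit 525) (.f (nat_lit 496) (nat_lit 497) (nat_lit 2541) (.d (nat_lit 464) (nat_lit 432) (nat_lit 5551) (nat_lit 591) (nat_lit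 5583)))) s28309)))))))
noncomputable def s29216 : Cert := .r (nat_lit 1537714675869256576155945778994232080668353507232100411704359814857561673081074955675453359508165820314914373751691712200315325311936528214016582337209772802048) (.p (nat_lit 529) (.a (.f (nat_lit 558) (nat_lit 557) (nat_lit 1549) (.f (nat_lit 559) (nat_lit 530) (nat_lit 1550) (.f (nat_lit 494) (nat_lit 493) (nat_lit 3565) (.d (nat_lit 462) (nat_lit 430) (nat_lit 4526) (nat_lit 591) (nat_lit 4558))))) s28986))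
noncomputable def s29217 : Cert := .r (nat_lit 1537714675869256576155945778994232080668353507232100411704359814857561673081074955675453359508165820314914373751691712200315325311936528214016582337209772802048) (.p (nat_lit 529) (.a (.f (nat_lit 493) (nat_lit 494) (nat_lit 3565) (.f (nat_lit 525) (nat_lit 492) (nat_lit 3564) (.d (nat_lit 557) (nat_lit 556) (nat_lit 1548) (nat_lit 558) (nat_lit 1549)))) (.a (.f (nat_lit 558) (nat_lit 557) (nat_lit 1549) (.f (nat_lit 559) (nat_lit 530) (nat_lit 1550) (.f (nat_lit 494) (nat_lit 493) (nat_lit 3565) (.d (nat_lit 462) (nat_lit 430) (nat_lit 4526) (nat_lit 591) (nat_lit 4558))))) (.a (.f (nat_lit 558) (nat_lit 557) (nat_lit 1549) (.f (nat_lit 559) (nat_lit 530) (nat_lit 1550) (.f (nat_lit 497) (nat_lit 498) (nat_lit 2542) (.f (nat_lit 525) (nat_lit 496) (nat_lit 2541) (.d (nat_lit 524) (nat_lit 523) (nat_lit 523) (nat_lit 560) (nat_lit 524)))))) (.f (nat_lit 493) (nat_lit 494) (nat_lit 3565)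 (.f (nat_lit 525) (nat_lit 492) (nat_lit 3564) (.d (nat_lit 497) (nat_lit 496) (nat_lit 2541) (nat_lit 498) (nat_lit 2542))))))))
noncomputable def s29225 : Cert := .r (nat_lit 1537714675869256576155945778994232080668353507232100411704359814857561673081074955675453359508165820314914373751691712200315325311936528214016582337209772802048) (.p (nat_lit 529) (.a (.f (nat_lit 561) (nat_lit 562) (nat_lit 526) (.f (nat_lit 497) (nat_lit 498) (nat_lit 2542) (.d (nat_lit 525) (nat_lit 496) (nat_lit 2541) (nat_lit 560) (nat_lit 525)))) (.a (.f (nat_lit 561) (nat_lit 562) (nat_lit 526) (.f (nat_lit 497) (nat_lit 498) (nat_lit 2542) (.f (nat_lit 560) (nat_lit 525) (nat_lit 525) (.d (nat_lit 465) (nat_lit 433) (nat_lit 5552) (nat_lit 592) (nat_lit 5584))))) (.a (.f (nat_lit 493) (nat_lit 494) (nat_lit 3565) (.f (nat_lit 525) (nat_lit 492) (nat_lit 3564) (.d (nat_lit 497) (nat_lit 496) (nat_lit 2541) (nat_lit 498) (nat_lit 2542)))) (.a (.f (nat_lit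 562) (nat_lit 561) (nat_lit 526) (.f (nat_lit 530) (nat_lit 563) (nat_lit 527) (.f (nat_lit 497) (nat_lit 498) (nat_lit 2542) (.f (nat_lit 465) (nat_lit 433) (nat_lit 4529) (.f (nat_lit 559) (nat_lit 558) (nat_lit 1550) (.f (nat_lit 560) (nat_lit 531) (nat_lit 1551) (.d (nat_lit 592) (nat_lit 496) (nat_lit 6608) (nat_lit 624) (nat_lit 6640)))))))) (.f (nat_lit 561) (nat_lit 562) (nat_lit 526) (.f (nat_lit 525) (nat_lit 560) (nat_lit 525) (.d (nat_lit 493) (nat_lit 492) (nat_lit 3564) (nat_lit 494) (nat_lit 3565)))))))))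
noncomputable def s29343 : Cert := .r (nat_lit 3295102876862692663191312383559068744289328944068786596509342460409060728030874905018828627517498186389102229467910811857818554239863989030035533579735227432960) (.p (nat_lit 559) (.a (.f (nat_lit 558) (nat_lit 557) (nat_lit 1549) (.f (nat_lit 494) (nat_lit 493) (nat_lit 3565) (.d (nat_lit 462) (nat_lit 430) (nat_lit 4526) (nat_lit 591) (nat_lit 4558)))) (.a (.p (nat_lit 496) (.a (.f (nat_lit 464) (nat_lit 432) (nat_lit 5551) (.d (nat_lit 591) (nat_lit 495) (nat_lit 6607) (nat_lit 623) (nat_lit 6639))) (.a (.f (nat_lit 561) (nat_lit 562) (nat_lit 526) (.f (nat_lit 464) (nat_lit 432) (nat_lit 4528) (.d (nat_lit 497) (nat_lit 498) (nat_lit 2542) (nat_lit 593) (nat_lit 7632)))) (.f (nat_lit 558) (nat_lit 557) (nat_lit 1549) (.f (nat_lit 561) (nat_lit 562) (nat_lit 526) (.f (nat_lit 497) (nat_lit 498) (nat_lit 2542) (.f (nat_lit 593) (nat_lit 625) (nat_lit 7664) (.d (nat_lit 594) (nat_lit 560)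 (nat_lit 558) (nat_lit 626) (nat_lit 4593))))))))) (.a (.f (nat_lit 494) (nat_lit 493) (nat_lit 3565) (.f (nat_lit 591) (nat_lit 623) (nat_lit 7662) (.d (nat_lit 462) (nat_lit 430) (nat_lit 4526) (nat_lit 495) (nat_lit 7630)))) (.f (nat_lit 558) (nat_lit 557) (nat_lit 1549) (.f (nat_lit 494) (nat_lit 493) (nat_lit 3565) (.f (nat_lit 462) (nat_lit 430) (nat_lit 4526) (.f (nat_lit 463) (nat_lit 431) (nat_lit 6574) (.f (nat_lit 495) (nat_lit 590) (nat_lit 6606) (.f (nat_lit 461) (nat_lit 429) (nat_lit 7597) (.d (nat_lit 460) (nat_lit 459) (nat_lit 459) (nat_lit 496) (nat_lit 460))))))))))))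
noncomputable def s29345 : Cert := .r (nat_lit 3295102876862692663191312383559068744289328944068786596509342460409060728030874905018828627517498186389102229467910811857818554239863989030035533579735227432960) (.p (nat_lit 560) (.a (.f (nat_lit 497) (nat_lit 498) (nat_lit 2542) (.f (nat_lit 592) (nat_lit 624) (nat_lit 6640) (.d (nat_lit 465) (nat_lit 433) (nat_lit 5552) (nat_lit 496) (nat_lit 6608)))) (.a s28185 (.p (nat_lit 495) (.a (.f (nat_lit 558) (nat_lit 557) (nat_lit 1549) (.f (nat_lit 463) (nat_lit 431) (nat_lit 4527) (.d (nat_lit 494) (nat_lit 493) (nat_lit 3565) (nat_lit 590) (nat_lit 6606)))) (.a (.f (nat_lit 558) (nat_lit 557) (nat_lit 1549) (.f (nat_lit 463) (nat_lit 431) (nat_lit 4527) (.d (nat_lit 590) (nat_lit 559) (nat_lit 5582) (nat_lit 622) (nat_lit 6638)))) (.a (.f (nat_lit 494) (nat_lit 493) (nat_lit 3565) (.f (nat_lit 463) (nat_lit 431) (nat_lit 4527) (.f (nat_lit 497) (nat_lit 498) (nat_lit 2542) (.f (nat_lit 465)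 (nat_lit 433) (nat_lit 5552) (.d (nat_lit 466) (nat_lit 464) (nat_lit 1486) (nat_lit 496) (nat_lit 2510)))))) (.f (nat_lit 494) (nat_lit 493) (nat_lit 3565) (.f (nat_lit 558) (nat_lit 557) (nat_lit 1549) (.f (nat_lit 590) (nat_lit 622) (nat_lit 6638) (.f (nat_lit 591) (nat_lit 623) (nat_lit 4590) (.f (nat_lit 462) (nat_lit 559) (nat_lit 4558) (.f (nat_lit 430) (nat_lit 398) (nat_lit 4494) (.d (nat_lit 429) (nat_lit 397) (nat_lit 7565) (nat_lit 461) (nat_lit 7597)))))))))))))))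
noncomputable def s29347 : Cert := .r (nat_lit 3295102876862692663191312383559068744289328944068786596509342460409060728030874905018828627517498186389102229467910811857818554239863989030035533579735227432960) (.p (nat_lit 559) (.a (.f (nat_lit 558) (nat_lit 557) (nat_lit 1549) (.f (nat_lit 494) (nat_lit 493) (nat_lit 3565) (.d (nat_lit 462) (nat_lit 430) (nat_lit 4526) (nat_lit 591) (nat_lit 4558)))) (.a (.p (nat_lit 560) (.a (.f (nat_lit 558) (nat_lit 557) (nat_lit 1549) (.f (nat_lit 561) (nat_lit 562) (nat_lit 526) (.f (nat_lit 590) (nat_lit 589) (nat_lit 1581) (.d (nat_lit 495) (nat_lit 463) (nat_lit 5582) (nat_lit 622) (nat_lit 6638))))) (.f (nat_lit 497) (nat_lit 498) (nat_lit 2542) (.f (nat_lit 592) (nat_lit 624) (nat_lit 6640) (.d (nat_lit 465) (nat_lit 433) (nat_lit 5552) (nat_lit 496) (nat_lit 6608)))))) (.f (nat_lit 494) (nat_lit 493) (nat_lit 3565) (.f (nat_lit 591) (nat_lit 623) (nat_lit 7662) (.d (nat_lit 462) (nat_lit 430)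 (nat_lit 4526) (nat_lit 495) (nat_lit 7630)))))))
noncomputable def s29360 : Cert := .r (nat_lit 3295102876862692663191312383559068744289328944068786596509342460409060728030874905018828627517498186389102229467910811857818554239863989030035533579735227432960) (.p (nat_lit 559) (.a (.f (nat_lit 558) (nat_lit 557) (nat_lit 1549) (.f (nat_lit 494) (nat_lit 493) (nat_lit 3565) (.d (nat_lit 462) (nat_lit 430) (nat_lit 4526) (nat_lit 591) (nat_lit 4558)))) (.a (.p (nat_lit 496) (.a (.f (nat_lit 464) (nat_lit 432) (nat_lit 5551) (.d (nat_lit 591) (nat_lit 495) (nat_lit 6607) (nat_lit 623) (nat_lit 6639))) (.a (.f (nat_lit 561) (nat_lit 562) (nat_lit 526) (.f (nat_lit 464) (nat_lit 432) (nat_lit 4528) (.d (nat_lit 560) (nat_lit 591) (nat_lit 5583) (nat_lit 593) (nat_lit 4560)))) (.a (.f (nat_lit 558) (nat_lit 557) (nat_lit 1549) (.f (nat_lit 561) (nat_lit 562) (nat_lit 526) (.f (nat_lit 591) (nat_lit 623) (nat_lit 6639) (.f (nat_lit 593) (nat_lit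 625) (nat_lit 7664) (.d (nat_lit 594) (nat_lit 560) (nat_lit 558) (nat_lit 592) (nat_lit 3630)))))) (.f (nat_lit 561) (nat_lit 562) (nat_lit 526) (.f (nat_lit 464) (nat_lit 432) (nat_lit 4528) (.d (nat_lit 593) (nat_lit 560) (nat_lit 4560) (nat_lit 625) (nat_lit 7664)))))))) (.a (.f (nat_lit 494) (nat_lit 493) (nat_lit 3565) (.f (nat_lit 591) (nat_lit 623) (nat_lit 7662) (.d (nat_lit 462) (nat_lit 430) (nat_lit 4526) (nat_lit 495) (nat_lit 7630)))) (.f (nat_lit 558) (nat_lit 557) (nat_lit 1549) (.f (nat_lit 494) (nat_lit 493) (nat_lit 3565) (.f (nat_lit 462) (nat_lit 430) (nat_lit 4526) (.f (nat_lit 463) (nat_lit 431) (nat_lit 6574) (.f (nat_lit 495) (nat_lit 590) (nat_lit 6606) (.f (nat_lit 461) (nat_lit 429) (nat_lit 7597) (.d (nat_lit 460) (nat_lit 459) (nat_lit 459) (nat_lit 496) (nat_lit 460))))))))))))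
noncomputable def s29456 : Cert := .r (nat_lit 3295102876862692663191312383559068744289328944068786596509342460409060728030874905018828627517498186389102229467910811857818554239863989030035533579735227432960) (.p (nat_lit 560) (.a (.f (nat_lit 497) (nat_lit 498) (nat_lit 2542) (.f (nat_lit 592) (nat_lit 624) (nat_lit 6640) (.d (nat_lit 465) (nat_lit 433) (nat_lit 5552) (nat_lit 496) (nat_lit 6608)))) (.a (.f (nat_lit 497) (nat_lit 498) (nat_lit 2542) (.f (nat_lit 592) (nat_lit 624) (nat_lit 6640) (.d (nat_lit 465) (nat_lit 433) (nat_lit 5552) (nat_lit 561) (nat_lit 5584)))) (.a (.p (nat_lit 464) (.a (.f (nat_lit 558) (nat_lit 557) (nat_lit 1549) (.f (nat_lit 559) (nat_lit 530) (nat_lit 1550) (.d (nat_lit 496) (nat_lit 432) (nat_lit 5551) (nat_lit 591) (nat_lit 5583)))) (.a (.f (nat_lit 558) (nat_lit 557) (nat_lit 1549) (.f (nat_lit 559) (nat_lit 530) (nat_lit 1550) (.f (nat_lit 497) (nat_lit 498) (nat_lit 2542) (.f (nat_lit 465) (nat_lit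 433) (nat_lit 5552) (.f (nat_lit 561) (nat_lit 432) (nat_lit 7600) (.f (nat_lit 590) (nat_lit 589) (nat_lit 1581) (.d (nat_lit 495) (nat_lit 463) (nat_lit 5582) (nat_lit 622) (nat_lit 6638)))))))) (.a (.f (nat_lit 497) (nat_lit 498) (nat_lit 2542) (.f (nat_lit 465) (nat_lit 433) (nat_lit 5552) (.f (nat_lit 561) (nat_lit 432) (nat_lit 7600) (.f (nat_lit 593) (nat_lit 496) (nat_lit 4560) (.f (nat_lit 625) (nat_lit 657) (nat_lit 7696) (.d (nat_lit 626) (nat_lit 594) (nat_lit 4593) (nat_lit 658) (nat_lit 4625))))))) (.f (nat_lit 558) (nat_lit 557) (nat_lit 1549) (.f (nat_lit 559) (nat_lit 530) (nat_lit 1550) (.f (nat_lit 496) (nat_lit 591) (nat_lit 5583) (.f (nat_lit 463) (nat_lit 431) (nat_lit 7599) (.f (nat_lit 561) (nat_lit 593) (nat_lit 4560) (.d (nat_lit 590) (nat_lit 495) (nat_lit 5582) (nat_lit 589) (nat_lit 1581))))))))))) (.p (nat_lit 495) (.a (.f (nat_lit 463) (nat_lit 431) (nat_lit 4527) (.d (nat_lit 592) (nat_lit 559) (nat_lit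 4559) (nat_lit 624) (nat_lit 7663))) (.a (.f (nat_lit 463) (nat_lit 431) (nat_lit 4527) (.d (nat_lit 592) (nat_lit 496) (nat_lit 7631) (nat_lit 624) (nat_lit 7663))) (.a (.f (nat_lit 558) (nat_lit 557) (nat_lit 1549) (.f (nat_lit 463) (nat_lit 431) (nat_lit 4527) (.d (nat_lit 590) (nat_lit 559) (nat_lit 5582) (nat_lit 622) (nat_lit 6638)))) (.f (nat_lit 558) (nat_lit 557) (nat_lit 1549) (.f (nat_lit 559) (nat_lit 530) (nat_lit 1550) (.f (nat_lit 590) (nat_lit 622) (nat_lit 6638) (.f (nat_lit 589) (nat_lit 561) (nat_lit 1581) (.d (nat_lit 588) (nat_lit 587) (nat_lit 2603) (nat_lit 591) (nat_lit 2604))))))))))))))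
noncomputable def s29457 : Cert := .r (nat_lit 1537714675869256576155945778994232080668353507232100411704359814857561673081074955675453359508165820314914373751691712200315325311936528214016582337209772802048) (.p (nat_lit 529) (.a (.f (nat_lit 558) (nat_lit 557) (nat_lit 1549) (.f (nat_lit 530) (nat_lit 559) (nat_lit 1550) (.d (nat_lit 562) (nat_lit 561) (nat_lit 526) (nat_lit 563) (nat_lit 527)))) (.a s28986 (.a (.f (nat_lit 558) (nat_lit 557) (nat_lit 1549) (.f (nat_lit 530) (nat_lit 559) (nat_lit 1550) (.f (nat_lit 497) (nat_lit 498) (nat_lit 2542) (.f (nat_lit 563) (nat_lit 562) (nat_lit 527) (.f (nat_lit 531) (nat_lit 564) (nat_lit 528) (.d (nat_lit 496) (nat_lit 495) (nat_lit 3567) (nat_lit 532) (nat_lit 3568))))))) s29456))))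
noncomputable def s29458 : Cert := .r (nat_lit 1537714675869256576155945778994232080668353507232100411704359814857561673081074955675453359508165820314914373751691712200315325311936528214016582337209772802048) (.p (nat_lit 525) (.a (.f (nat_lit 492) (nat_lit 493) (nat_lit 3564) (.f (nat_lit 524) (nat_lit 491) (nat_lit 3563) (.d (nat_lit 556) (nat_lit 555) (nat_lit 1547) (nat_lit 557) (nat_lit 1548)))) (.a (.f (nat_lit 492) (nat_lit 493) (nat_lit 3564) (.f (nat_lit 524) (nat_lit 491) (nat_lit 3563) (.f (nat_lit 555) (nat_lit 556) (nat_lit 1547) (.f (nat_lit 523) (nat_lit 554) (nat_lit 1546) (.d (nat_lit 559) (nat_lit 558) (nat_lit 523) (nat_lit 560) (nat_lit 524)))))) (.a (.f (nat_lit 556) (nat_lit 557) (nat_lit 1548) (.f (nat_lit 524) (nat_lit 555) (nat_lit 1547) (.f (nat_lit 491) (nat_lit 492) (nat_lit 3563) (.f (nat_lit 523) (nat_lit 490) (nat_lit 3562) (.d (nat_lit 559) (nat_lit 558) (nat_lit 523) (nat_lit 560) (nat_lit 524)))))) (.a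 (.f (nat_lit 557) (nat_lit 556) (nat_lit 1548) (.f (nat_lit 529) (nat_lit 558) (nat_lit 1549) (.d (nat_lit 497) (nat_lit 496) (nat_lit 2541) (nat_lit 498) (nat_lit 2542)))) (.f (nat_lit 496) (nat_lit 497) (nat_lit 2541) (.f (nat_lit 524) (nat_lit 495) (nat_lit 2540) (.d (nat_lit 492) (nat_lit 491) (nat_lit 3563) (nat_lit 493) (nat_lit 3564)))))))))
noncomputable def s29462 : Cert := .r (nat_lit 1537714675869256576155945778994232080668353507232100411704359814857561673081074955675453359508165820314914373751691712200315325311936528214016582337209772802048) (.p (nat_lit 525) (.a (.f (nat_lit 560) (nat_lit 561) (nat_lit 525) (.f (nat_lit 524) (nat_lit 559) (nat_lit 524) (.d (nat_lit 492) (nat_lit 491) (nat_lit 3563) (nat_lit 493) (nat_lit 3564)))) (.a (.f (nat_lit 492) (nat_lit 493) (nat_lit 3564) (.f (nat_lit 524) (nat_lit 491) (nat_lit 3563) (.d (nat_lit 556) (nat_lit 555) (nat_lit 1547) (nat_lit 557) (nat_lit 1548)))) (.a (.f (nat_lit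 560) (nat_lit 561) (nat_lit 525) (.f (nat_lit 524) (nat_lit 559) (nat_lit 524) (.d (nat_lit 556) (nat_lit 555) (nat_lit 1547) (nat_lit 557) (nat_lit 1548)))) (.f (nat_lit 561) (nat_lit 560) (nat_lit 525) (.f (nat_lit 529) (nat_lit 562) (nat_lit 526) (.d (nat_lit 497) (nat_lit 496) (nat_lit 2541) (nat_lit 498) (nat_lit 2542))))))))
noncomputable def s29463 : Cert := .r (nat_lit 1537714675869256576155945778994232080668353507232100411704359814857561673081074955675453359508165820314914373751691712200315325311936528214016582337209772802048) (.p (nat_lit 525) (.a (.f (nat_lit 560) (nat_lit 561) (nat_lit 525) (.f (nat_lit 524) (nat_lit 559) (nat_lit 524) (.d (nat_lit 492) (nat_lit 491) (nat_lit 3563) (nat_lit 493) (nat_lit 3564)))) (.a (.f (nat_lit 496) (nat_lit 497) (nat_lit 2541) (.f (nat_lit 524) (nat_lit 495) (nat_lit 2540) (.d (nat_lit 492) (nat_lit 491) (nat_lit 3563) (nat_lit 493) (nat_lit 3564)))) (.a (.f (nat_lit 496) (nat_lit 497)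 (nat_lit 2541) (.f (nat_lit 495) (nat_lit 524) (nat_lit 2540) (.f (nat_lit 560) (nat_lit 561) (nat_lit 525) (.d (nat_lit 463) (nat_lit 431) (nat_lit 4527) (nat_lit 592) (nat_lit 7631))))) (.f (nat_lit 561) (nat_lit 560) (nat_lit 525) (.f (nat_lit 529) (nat_lit 562) (nat_lit 526) (.d (nat_lit 497) (nat_lit 496) (nat_lit 2541) (nat_lit 498) (nat_lit 2542))))))))
noncomputable def s29473 : Cert := .r (nat_lit 1537714675869256576155945778994232080668353507232100411704359814857561673081074955675453359508165820314914373751691712200315325311936528214016582337209772802048) (.p (nat_lit 529) (.a (.f (nat_lit 494) (nat_lit 493) (nat_lit 3565) (.f (nat_lit 558) (nat_lit 557) (nat_lit 1549) (.d (nat_lit 530) (nat_lit 495) (nat_lit 3566) (nat_lit 559) (nat_lit 1550)))) (.a (.f (nat_lit 494) (nat_lit 493) (nat_lit 3565) (.f (nat_lit 495) (nat_lit 530) (nat_lit 3566) (.f (nat_lit 558) (nat_lit 557) (nat_lit 1549) (.d (nat_lit 463) (nat_lit 431) (nat_lit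 5550) (nat_lit 590) (nat_lit 6606))))) (.a (.f (nat_lit 558) (nat_lit 557) (nat_lit 1549) (.f (nat_lit 559) (nat_lit 530) (nat_lit 1550) (.f (nat_lit 494) (nat_lit 493) (nat_lit 3565) (.d (nat_lit 462) (nat_lit 430) (nat_lit 4526) (nat_lit 591) (nat_lit 4558))))) (.a s29345 (.a (.f (nat_lit 558) (nat_lit 557) (nat_lit 1549) (.f (nat_lit 530) (nat_lit 559) (nat_lit 1550) (.f (nat_lit 497) (nat_lit 498) (nat_lit 2542) (.f (nat_lit 563) (nat_lit 562) (nat_lit 527) (.f (nat_lit 531) (nat_lit 564) (nat_lit 528) (.d (nat_lit 496) (nat_lit 495) (nat_lit 3567) (nat_lit 532) (nat_lit 3568))))))) (.f (nat_lit 494) (nat_lit 493) (nat_lit 3565) (.f (nat_lit 530) (nat_lit 495) (nat_lit 3566) (.f (nat_lit 497) (nat_lit 498) (nat_lit 2542) (.f (nat_lit 563) (nat_lit 562) (nat_lit 527) (.f (nat_lit 531) (nat_lit 564) (nat_lit 528) (.f (nat_lit 560) (nat_lit 559) (nat_lit 1551) (.f (nat_lit 496) (nat_lit 532) (nat_lit 3568) (.d (nat_lit 465) (nat_lit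 433) (nat_lit 5552) (nat_lit 592) (nat_lit 6608)))))))))))))))
noncomputable def s29478 : Cert := .r (nat_lit 1537714675869256576155945778994232080668353507232100411704359814857561673081074955675453359508165820314914373751691712200315325311936528214016582337209772802048) (.p (nat_lit 525) (.a (.f (nat_lit 492) (nat_lit 493) (nat_lit 3564) (.f (nat_lit 524) (nat_lit 491) (nat_lit 3563) (.d (nat_lit 556) (nat_lit 555) (nat_lit 1547) (nat_lit 557) (nat_lit 1548)))) (.a (.f (nat_lit 496) (nat_lit 497) (nat_lit 2541) (.f (nat_lit 524) (nat_lit 495) (nat_lit 2540) (.d (nat_lit 492) (nat_lit 491) (nat_lit 3563) (nat_lit 493) (nat_lit 3564)))) (.a (.f (nat_lit 496) (nat_lit 497) (nat_lit 2541) (.f (nat_lit 524) (nat_lit 495) (nat_lit 2540) (.d (nat_lit 556) (nat_lit 555) (nat_lit 1547) (nat_lit 557) (nat_lit 1548)))) (.f (nat_lit 493) (nat_lit 492) (nat_lit 3564) (.f (nat_lit 494) (nat_lit 529) (nat_lit 3565) (.f (nat_lit 557) (nat_lit 556)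 (nat_lit 1548) (.d (nat_lit 462) (nat_lit 430) (nat_lit 5549) (nat_lit 589) (nat_lit 6605)))))))))
noncomputable def s29491 : Cert := .r (nat_lit 1537714675869256576155945778994232080668353507232100411704359814857561673081074955675453359508165820314914373751691712200315325311936528214016582337209772802048) (.p (nat_lit 525) (.a (.f (nat_lit 492) (nat_lit 493) (nat_lit 3564) (.f (nat_lit 524) (nat_lit 491) (nat_lit 3563) (.f (nat_lit 555) (nat_lit 556) (nat_lit 1547) (.f (nat_lit 523) (nat_lit 554) (nat_lit 1546) (.d (nat_lit 559) (nat_lit 558) (nat_lit 523) (nat_lit 560) (nat_lit 524)))))) (.a (.f (nat_lit 493) (nat_lit 492) (nat_lit 3564) (.f (nat_lit 494) (nat_lit 529) (nat_lit 3565) (.f (nat_lit 496) (nat_lit 497) (nat_lit 2541) (.f (nat_lit 495) (nat_lit 524) (nat_lit 2540) (.f (nat_lit 461) (nat_lit 460) (nat_lit 3532) (.d (nat_lit 429) (nat_lit 397) (nat_lit 4493) (nat_lit 558) (nat_lit 4525))))))) (.a (.f (nat_lit 496) (nat_lit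 497) (nat_lit 2541) (.f (nat_lit 524) (nat_lit 495) (nat_lit 2540) (.d (nat_lit 492) (nat_lit 491) (nat_lit 3563) (nat_lit 493) (nat_lit 3564)))) (.a (.f (nat_lit 496) (nat_lit 497) (nat_lit 2541) (.f (nat_lit 524) (nat_lit 495) (nat_lit 2540) (.f (nat_lit 559) (nat_lit 560) (nat_lit 524) (.f (nat_lit 523) (nat_lit 558) (nat_lit 523) (.d (nat_lit 491) (nat_lit 490) (nat_lit 3562) (nat_lit 492) (nat_lit 3563)))))) (.a (.f (nat_lit 493) (nat_lit 492) (nat_lit 3564) (.f (nat_lit 529) (nat_lit 494) (nat_lit 3565) (.d (nat_lit 497) (nat_lit 496) (nat_lit 2541) (nat_lit 498) (nat_lit 2542)))) (.f (nat_lit 496) (nat_lit 497) (nat_lit 2541) (.f (nat_lit 524) (nat_lit 495) (nat_lit 2540) (.f (nat_lit 559) (nat_lit 560) (nat_lit 524) (.f (nat_lit 523) (nat_lit 558) (nat_lit 523) (.d (nat_lit 555) (nat_lit 554) (nat_lit 1546) (nat_lit 556) (nat_lit 1547))))))))))))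
noncomputable def s29492 : Cert := .r (nat_lit 1537714675869256576155945778994232080668353507232100411704359814857561673081074955675453359508165820314914373751691712200315325311936528214016582337209772802048) (.p (nat_lit 525) (.a (.f (nat_lit 556) (nat_lit 557) (nat_lit 1548) (.f (nat_lit 524) (nat_lit 555) (nat_lit 1547) (.f (nat_lit 491) (nat_lit 492) (nat_lit 3563) (.f (nat_lit 523) (nat_lit 490) (nat_lit 3562) (.d (nat_lit 559) (nat_lit 558) (nat_lit 523) (nat_lit 560) (nat_lit 524)))))) (.a (.f (nat_lit 557) (nat_lit 556) (nat_lit 1548) (.f (nat_lit 529) (nat_lit 558) (nat_lit 1549) (.d (nat_lit 497) (nat_lit 496) (nat_lit 2541) (nat_lit 498) (nat_lit 2542)))) (.a (.f (nat_lit 496) (nat_lit 497) (nat_lit 2541) (.f (nat_lit 524) (nat_lit 495) (nat_lit 2540) (.d (nat_lit 556) (nat_lit 555) (nat_lit 1547) (nat_lit 557) (nat_lit 1548)))) (.f (nat_lit 496) (nat_lit 497) (nat_lit 2541) (.f (nat_lit 524) (nat_lit 495) (nat_lit 2540) (.f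 (nat_lit 559) (nat_lit 560) (nat_lit 524) (.f (nat_lit 523) (nat_lit 558) (nat_lit 523) (.d (nat_lit 491) (nat_lit 490) (nat_lit 3562) (nat_lit 492) (nat_lit 3563))))))))))
noncomputable def s29494 : Cert := .r (nat_lit 1537714675869256576155945778994232080668353507232100411704359814857561673081074955675453359508165820314914373751691712200315325311936528214016582337209772802048) (.p (nat_lit 559) (.a s28044 (.a s28298 (.a s29112 (.a s28149 (.a s28154 (.a s28150 (.a s29114 (.a s28164 (.a s29126 s29127))))))))))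
noncomputable def s29503 : Cert := .r (nat_lit 1886981213948485351990033866650080224452692690876573721420203561827171896053636099124138318264282743278900007830296296201577004515277721628217245339732930359034470465536) (.p (nat_lit 495) (.a (.p (nat_lit 464) (.a (.d (nat_lit 432) (nat_lit 463) (nat_lit 6575) (nat_lit 496) (nat_lit 5551)) (.a (.f (nat_lit 463) (nat_lit 432) (nat_lit 6575) (.d (nat_lit 560) (nat_lit 431) (nat_lit 4527) (nat_lit 592) (nat_lit 4559))) (.a (.d (nat_lit 496) (nat_lit 432) (nat_lit 5551) (nat_lit 591) (nat_lit 6607)) (.f (nat_lit 591) (nat_lit 496) (nat_lit 6607) (.d (nat_lit 494) (nat_lit 462) (nat_lit 7630) (nat_lit 623) (nat_lit 7662))))))) (.a s1880 (.a (.p (nat_lit 591) (.a (.d (nat_lit 494) (nat_lit 462) (nat_lit 7630) (nat_lit 623) (nat_lit 7662)) (.a (.d (nat_lit 496) (nat_lit 464) (nat_lit 6607) (nat_lit 623) (nat_lit 6639)) (.f (nat_lit 496) (nat_lit 464) (nat_lit 6607) (.f (nat_lit 462) (nat_lit 494)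 (nat_lit 7630) (.f (nat_lit 463) (nat_lit 430) (nat_lit 7598) (.d (nat_lit 431) (nat_lit 399) (nat_lit 4495) (nat_lit 560) (nat_lit 4527)))))))) (.a (.p (nat_lit 591) (.a (.d (nat_lit 496) (nat_lit 464) (nat_lit 6607) (nat_lit 623) (nat_lit 6639)) (.a (.f (nat_lit 622) (nat_lit 590) (nat_lit 5614) (.f (nat_lit 623) (nat_lit 654) (nat_lit 5646) (.d (nat_lit 624) (nat_lit 592) (nat_lit 4591) (nat_lit 656) (nat_lit 4623)))) (.f (nat_lit 496) (nat_lit 464) (nat_lit 6607) (.f (nat_lit 592) (nat_lit 624) (nat_lit 4591) (.f (nat_lit 560) (nat_lit 463) (nat_lit 7631) (.d (nat_lit 497) (nat_lit 465) (nat_lit 6608) (nat_lit 498) (nat_lit 1518)))))))) (.a (.p (nat_lit 591) (.a (.d (nat_lit 494) (nat_lit 462) (nat_lit 7630) (nat_lit 623) (nat_lit 7662)) (.a (.f (nat_lit 622) (nat_lit 590) (nat_lit 5614) (.f (nat_lit 623) (nat_lit 654) (nat_lit 5646) (.d (nat_lit 624) (nat_lit 592) (nat_lit 4591) (nat_lit 656) (nat_lit 4623)))) (.f (nat_lit 592)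 (nat_lit 624) (nat_lit 4591) (.f (nat_lit 560) (nat_lit 463) (nat_lit 4559) (.f (nat_lit 561) (nat_lit 562) (nat_lit 3598) (.d (nat_lit 590) (nat_lit 589) (nat_lit 2605) (nat_lit 622) (nat_lit 5614)))))))) (.a (.p (nat_lit 591) (.a (.d (nat_lit 496) (nat_lit 464) (nat_lit 6607) (nat_lit 623) (nat_lit 6639)) (.a (.f (nat_lit 622) (nat_lit 590) (nat_lit 5614) (.f (nat_lit 623) (nat_lit 654) (nat_lit 5646) (.d (nat_lit 624) (nat_lit 592) (nat_lit 4591) (nat_lit 656) (nat_lit 4623)))) (.f (nat_lit 496) (nat_lit 464) (nat_lit 6607) (.f (nat_lit 592) (nat_lit 624) (nat_lit 4591) (.f (nat_lit 590) (nat_lit 622) (nat_lit 5614) (.f (nat_lit 497) (nat_lit 498) (nat_lit 1518) (.f (nat_lit 560) (nat_lit 465) (nat_lit 6608) (.d (nat_lit 561) (nat_lit 562) (nat_lit 1582) (nat_lit 589) (nat_lit 2605)))))))))) (.p (nat_lit 463) (.a (.d (nat_lit 560) (nat_lit 431) (nat_lit 4527) (nat_lit 592) (nat_lit 4559)) (.a (.f (nat_lit 430) (nat_lit 462) (nat_lit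 7598) (.f (nat_lit 431) (nat_lit 398) (nat_lit 7566) (.d (nat_lit 432) (nat_lit 400) (nat_lit 6543) (nat_lit 464) (nat_lit 6575)))) (.f (nat_lit 560) (nat_lit 592) (nat_lit 4559) (.f (nat_lit 464) (nat_lit 432) (nat_lit 6575) (.f (nat_lit 462) (nat_lit 430) (nat_lit 7598) (.f (nat_lit 561) (nat_lit 562) (nat_lit 3598) (.f (nat_lit 496) (nat_lit 593) (nat_lit 4560) (.d (nat_lit 461) (nat_lit 460) (nat_lit 460) (nat_lit 497) (nat_lit 461)))))))))))))))))
noncomputable def s29511 : Cert := .r (nat_lit 3295102876862692663191312383559068744289328944068786596509342460409060728030874905018828627517498186389102229467910811857818554239863989030035533579735227432960) (.p (nat_lit 560) (.a (.f (nat_lit 497) (nat_lit 498) (nat_lit 2542) (.f (nat_lit 592) (nat_lit 624) (nat_lit 6640) (.d (nat_lit 465) (nat_lit 433) (nat_lit 5552) (nat_lit 496) (nat_lit 6608)))) (.a (.f (nat_lit 494) (nat_lit 493) (nat_lit 3565) (.f (nat_lit 495) (nat_lit 530) (nat_lit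 3566) (.f (nat_lit 463) (nat_lit 431) (nat_lit 4527) (.d (nat_lit 592) (nat_lit 559) (nat_lit 4559) (nat_lit 624) (nat_lit 7663))))) (.f (nat_lit 494) (nat_lit 493) (nat_lit 3565) (.f (nat_lit 495) (nat_lit 530) (nat_lit 3566) (.f (nat_lit 463) (nat_lit 431) (nat_lit 4527) (.f (nat_lit 497) (nat_lit 498) (nat_lit 2542) (.f (nat_lit 465) (nat_lit 433) (nat_lit 5552) (.d (nat_lit 466) (nat_lit 464) (nat_lit 1486) (nat_lit 496) (nat_lit 2510))))))))))
noncomputable def s29512 : Cert := .r (nat_lit 1537714675869256576155945778994232080668353507232100411704359814857561673081074955675453359508165820314914373751691712200315325311936528214016582337209772802048) (.p (nat_lit 529) (.a (.f (nat_lit 494) (nat_lit 493) (nat_lit 3565) (.f (nat_lit 530) (nat_lit 495) (nat_lit 3566) (.d (nat_lit 562) (nat_lit 561) (nat_lit 526) (nat_lit 563) (nat_lit 527)))) (.a s28986 (.a (.f (nat_lit 494) (nat_lit 493) (nat_lit 3565) (.f (nat_lit 530) (nat_lit 495)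 (nat_lit 3566) (.f (nat_lit 497) (nat_lit 498) (nat_lit 2542) (.f (nat_lit 563) (nat_lit 562) (nat_lit 527) (.f (nat_lit 531) (nat_lit 564) (nat_lit 528) (.f (nat_lit 560) (nat_lit 559) (nat_lit 1551) (.f (nat_lit 496) (nat_lit 532) (nat_lit 3568) (.d (nat_lit 465) (nat_lit 433) (nat_lit 5552) (nat_lit 592) (nat_lit 6608))))))))) s29511))))
noncomputable def s29513 : Cert := .r (nat_lit 1537714675869256576155945778994232080668353507232100411704359814857561673081074955675453359508165820314914373751691712200315325311936528214016582337209772802048) (.p (nat_lit 525) (.a (.f (nat_lit 560) (nat_lit 561) (nat_lit 525) (.f (nat_lit 524) (nat_lit 559) (nat_lit 524) (.d (nat_lit 556) (nat_lit 555) (nat_lit 1547) (nat_lit 557) (nat_lit 1548)))) (.a (.f (nat_lit 496) (nat_lit 497) (nat_lit 2541) (.f (nat_lit 524) (nat_lit 495) (nat_lit 2540) (.d (nat_lit 556) (nat_lit 555) (nat_lit 1547) (nat_lit 557) (nat_lit 1548)))) (.a (.f (nat_lit 496) (nat_lit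 497) (nat_lit 2541) (.f (nat_lit 495) (nat_lit 524) (nat_lit 2540) (.f (nat_lit 560) (nat_lit 561) (nat_lit 525) (.d (nat_lit 463) (nat_lit 431) (nat_lit 4527) (nat_lit 592) (nat_lit 7631))))) (.f (nat_lit 561) (nat_lit 560) (nat_lit 525) (.f (nat_lit 529) (nat_lit 562) (nat_lit 526) (.d (nat_lit 497) (nat_lit 496) (nat_lit 2541) (nat_lit 498) (nat_lit 2542))))))))
noncomputable def s29515 : Cert := .r (nat_lit 1537714675869256576155945778994232080668353507232100411704359814857561673081074955675453359508165820314914373751691712200315325311936528214016582337209772802048) (.p (nat_lit 529) (.a (.f (nat_lit 494) (nat_lit 493) (nat_lit 3565) (.f (nat_lit 558) (nat_lit 557) (nat_lit 1549) (.d (nat_lit 530) (nat_lit 495) (nat_lit 3566) (nat_lit 559) (nat_lit 1550)))) (.a (.f (nat_lit 494) (nat_lit 493) (nat_lit 3565) (.f (nat_lit 495) (nat_lit 530) (nat_lit 3566) (.f (nat_lit 558) (nat_lit 557) (nat_lit 1549) (.d (nat_lit 463) (nat_lit 431)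 (nat_lit 5550) (nat_lit 590) (nat_lit 6606))))) (.a (.f (nat_lit 558) (nat_lit 557) (nat_lit 1549) (.f (nat_lit 559) (nat_lit 530) (nat_lit 1550) (.f (nat_lit 494) (nat_lit 493) (nat_lit 3565) (.d (nat_lit 462) (nat_lit 430) (nat_lit 4526) (nat_lit 591) (nat_lit 4558))))) (.a s29345 (.a s29456 s29511))))))
noncomputable def s29526 : Cert := .r (nat_lit 1537714675869256576155945778994232080668353507232100411704359814857561673081074955675453359508165820314914373751691712200315325311936528214016582337209772802048) (.p (nat_lit 560) (.a (.f (nat_lit 525) (nat_lit 561) (nat_lit 525) (.f (nat_lit 524) (nat_lit 559) (nat_lit 524) (.d (nat_lit 492) (nat_lit 491) (nat_lit 3563) (nat_lit 493) (nat_lit 3564)))) (.a (.f (nat_lit 525) (nat_lit 561) (nat_lit 525) (.f (nat_lit 492) (nat_lit 493) (nat_lit 3564) (.f (nat_lit 524) (nat_lit 491) (nat_lit 3563) (.d (nat_lit 556) (nat_lit 555) (nat_lit 1547) (nat_lit 557) (nat_lit 1548))))) (.a (.p (nat_lit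 496) (.a (.p (nat_lit 464) (.a (.f (nat_lit 432) (nat_lit 559) (nat_lit 5551) (.d (nat_lit 431) (nat_lit 399) (nat_lit 7567) (nat_lit 463) (nat_lit 7599))) (.a (.f (nat_lit 463) (nat_lit 431) (nat_lit 7599) (.f (nat_lit 495) (nat_lit 592) (nat_lit 7631) (.f (nat_lit 465) (nat_lit 433) (nat_lit 6576) (.d (nat_lit 466) (nat_lit 467) (nat_lit 1487) (nat_lit 494) (nat_lit 1486))))) (.f (nat_lit 432) (nat_lit 559) (nat_lit 5551) (.d (nat_lit 433) (nat_lit 401) (nat_lit 6544) (nat_lit 465) (nat_lit 6576)))))) (.a s26246 (.a (.p (nat_lit 464) (.a (.f (nat_lit 432) (nat_lit 559) (nat_lit 5551) (.d (nat_lit 431) (nat_lit 399) (nat_lit 7567) (nat_lit 463) (nat_lit 7599))) (.a (.f (nat_lit 433) (nat_lit 465) (nat_lit 6576) (.f (nat_lit 432) (nat_lit 401) (nat_lit 6544) (.d (nat_lit 431) (nat_lit 399) (nat_lit 7567) (nat_lit 463) (nat_lit 7599)))) (.a (.f (nat_lit 432) (nat_lit 559) (nat_lit 5551) (.d (nat_lit 433) (nat_lit 401) (nat_lit 6544) (nat_lit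 465) (nat_lit 6576))) (.f (nat_lit 465) (nat_lit 433) (nat_lit 6576) (.f (nat_lit 592) (nat_lit 497) (nat_lit 6608) (.d (nat_lit 593) (nat_lit 561) (nat_lit 4560) (nat_lit 625) (nat_lit 4592)))))))) (.a (.p (nat_lit 464) (.a (.f (nat_lit 432) (nat_lit 559) (nat_lit 5551) (.d (nat_lit 431) (nat_lit 399) (nat_lit 7567) (nat_lit 463) (nat_lit 7599))) (.a (.f (nat_lit 433) (nat_lit 465) (nat_lit 6576) (.f (nat_lit 432) (nat_lit 401) (nat_lit 6544) (.d (nat_lit 431) (nat_lit 399) (nat_lit 7567) (nat_lit 463) (nat_lit 7599)))) (.a (.f (nat_lit 432) (nat_lit 559) (nat_lit 5551) (.d (nat_lit 433) (nat_lit 401) (nat_lit 6544) (nat_lit 465) (nat_lit 6576))) (.f (nat_lit 561) (nat_lit 593) (nat_lit 4560) (.d (nat_lit 562) (nat_lit 559) (nat_lit 3598) (nat_lit 563) (nat_lit 3599))))))) (.a (.p (nat_lit 592) (.a (.d (nat_lit 495) (nat_lit 463) (nat_lit 7631) (nat_lit 624) (nat_lit 7663)) (.a (.f (nat_lit 625) (nat_lit 593) (nat_lit 4592) (.f (nat_lit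 624) (nat_lit 657) (nat_lit 4624) (.f (nat_lit 655) (nat_lit 623) (nat_lit 5647) (.d (nat_lit 656) (nat_lit 559) (nat_lit 7695) (nat_lit 687) (nat_lit 5679))))) (.f (nat_lit 495) (nat_lit 463) (nat_lit 7631) (.d (nat_lit 497) (nat_lit 465) (nat_lit 6608) (nat_lit 498) (nat_lit 1518)))))) (.a (.p (nat_lit 464) (.a (.f (nat_lit 432) (nat_lit 559) (nat_lit 5551) (.d (nat_lit 433) (nat_lit 401) (nat_lit 6544) (nat_lit 465) (nat_lit 6576))) (.a (.f (nat_lit 465) (nat_lit 433) (nat_lit 6576) (.f (nat_lit 592) (nat_lit 497) (nat_lit 6608) (.d (nat_lit 593) (nat_lit 561) (nat_lit 4560) (nat_lit 625) (nat_lit 4592)))) (.f (nat_lit 561) (nat_lit 593) (nat_lit 4560) (.d (nat_lit 562) (nat_lit 559) (nat_lit 3598) (nat_lit 563) (nat_lit 3599)))))) (.p (nat_lit 464) (.a (.f (nat_lit 432) (nat_lit 559) (nat_lit 5551) (.d (nat_lit 431) (nat_lit 399) (nat_lit 7567) (nat_lit 463) (nat_lit 7599))) (.a (.f (nat_lit 463) (nat_lit 431) (nat_lit 7599) (.f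 (nat_lit 592) (nat_lit 495) (nat_lit 7631) (.d (nat_lit 593) (nat_lit 561) (nat_lit 4560) (nat_lit 625) (nat_lit 4592)))) (.f (nat_lit 561) (nat_lit 593) (nat_lit 4560) (.d (nat_lit 562) (nat_lit 559) (nat_lit 3598) (nat_lit 563) (nat_lit 3599))))))))))))) (.p (nat_lit 496) (.a (.p (nat_lit 464) (.a (.f (nat_lit 432) (nat_lit 559) (nat_lit 5551) (.d (nat_lit 431) (nat_lit 399) (nat_lit 7567) (nat_lit 463) (nat_lit 7599))) (.a (.f (nat_lit 463) (nat_lit 431) (nat_lit 7599) (.f (nat_lit 495) (nat_lit 592) (nat_lit 7631) (.f (nat_lit 465) (nat_lit 433) (nat_lit 6576) (.d (nat_lit 466) (nat_lit 467) (nat_lit 1487) (nat_lit 494) (nat_lit 1486))))) (.f (nat_lit 432) (nat_lit 559) (nat_lit 5551) (.d (nat_lit 433) (nat_lit 401) (nat_lit 6544) (nat_lit 465) (nat_lit 6576)))))) (.a (.f (nat_lit 525) (nat_lit 497) (nat_lit 2541) (.f (nat_lit 495) (nat_lit 524) (nat_lit 2540) (.d (nat_lit 463) (nat_lit 431) (nat_lit 4527) (nat_lit 592) (nat_lit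 7631)))) (.f (nat_lit 525) (nat_lit 497) (nat_lit 2541) (.f (nat_lit 524) (nat_lit 559) (nat_lit 524) (.d (nat_lit 492) (nat_lit 491) (nat_lit 3563) (nat_lit 493) (nat_lit 3564)))))))))))
noncomputable def s29528 : Cert := .r (nat_lit 1537714675869256576155945778994232080668353507232100411704359814857561673081074955675453359508165820314914373751691712200315325311936528214016582337209772802048) (.p (nat_lit 529) (.a (.f (nat_lit 494) (nat_lit 493) (nat_lit 3565) (.f (nat_lit 558) (nat_lit 557) (nat_lit 1549) (.d (nat_lit 530) (nat_lit 495) (nat_lit 3566) (nat_lit 559) (nat_lit 1550)))) (.a (.f (nat_lit 494) (nat_lit 493) (nat_lit 3565) (.f (nat_lit 495) (nat_lit 530) (nat_lit 3566) (.f (nat_lit 558) (nat_lit 557) (nat_lit 1549) (.d (nat_lit 463) (nat_lit 431) (nat_lit 5550) (nat_lit 590) (nat_lit 6606))))) (.a (.f (nat_lit 558) (nat_lit 557) (nat_lit 1549) (.f (nat_lit 559) (nat_lit 530) (nat_lit 1550) (.f (nat_lit 494) (nat_lit 493)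 (nat_lit 3565) (.d (nat_lit 462) (nat_lit 430) (nat_lit 4526) (nat_lit 591) (nat_lit 4558))))) (.a s29360 (.a (.f (nat_lit 558) (nat_lit 557) (nat_lit 1549) (.f (nat_lit 530) (nat_lit 559) (nat_lit 1550) (.d (nat_lit 562) (nat_lit 561) (nat_lit 526) (nat_lit 563) (nat_lit 527)))) (.f (nat_lit 494) (nat_lit 493) (nat_lit 3565) (.f (nat_lit 530) (nat_lit 495) (nat_lit 3566) (.d (nat_lit 562) (nat_lit 561) (nat_lit 526) (nat_lit 563) (nat_lit 527))))))))))
noncomputable def s29544 : Cert := .r (nat_lit 1537714675869256576155945778994232080668353507232100411704359814857561673081074955675453359508165820314914373751691712200315325311936528214016582337209772802048) (.p (nat_lit 525) (.a (.f (nat_lit 560) (nat_lit 561) (nat_lit 525) (.f (nat_lit 524) (nat_lit 559) (nat_lit 524) (.d (nat_lit 492) (nat_lit 491) (nat_lit 3563) (nat_lit 493) (nat_lit 3564)))) (.a (.f (nat_lit 492) (nat_lit 493) (nat_lit 3564) (.f (nat_lit 524) (nat_lit 491) (nat_lit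 3563) (.f (nat_lit 555) (nat_lit 556) (nat_lit 1547) (.f (nat_lit 523) (nat_lit 554) (nat_lit 1546) (.d (nat_lit 495) (nat_lit 494) (nat_lit 2539) (nat_lit 496) (nat_lit 2540)))))) (.a (.f (nat_lit 560) (nat_lit 561) (nat_lit 525) (.f (nat_lit 524) (nat_lit 559) (nat_lit 524) (.f (nat_lit 495) (nat_lit 496) (nat_lit 2540) (.f (nat_lit 523) (nat_lit 494) (nat_lit 2539) (.d (nat_lit 491) (nat_lit 490) (nat_lit 3562) (nat_lit 492) (nat_lit 3563)))))) (.a (.f (nat_lit 493) (nat_lit 492) (nat_lit 3564) (.f (nat_lit 529) (nat_lit 494) (nat_lit 3565) (.d (nat_lit 561) (nat_lit 560) (nat_lit 525) (nat_lit 562) (nat_lit 526)))) (.f (nat_lit 560) (nat_lit 561) (nat_lit 525) (.f (nat_lit 524) (nat_lit 559) (nat_lit 524) (.f (nat_lit 495) (nat_lit 496) (nat_lit 2540) (.f (nat_lit 494) (nat_lit 523) (nat_lit 2539) (.d (nat_lit 529) (nat_lit 493) (nat_lit 3565) (nat_lit 530) (nat_lit 3566)))))))))))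
noncomputable def s29562 : Cert := .r (nat_lit 1537714675869256576155945778994232080668353507232100411704359814857561673081074955675453359508165820314914373751691712200315325311936528214016582337209772802048) (.p (nat_lit 529) (.a (.f (nat_lit 558) (nat_lit 557) (nat_lit 1549) (.f (nat_lit 559) (nat_lit 530) (nat_lit 1550) (.f (nat_lit 561) (nat_lit 562) (nat_lit 526) (.f (nat_lit 560) (nat_lit 525) (nat_lit 525) (.f (nat_lit 590) (nat_lit 589) (nat_lit 1581) (.d (nat_lit 495) (nat_lit 463) (nat_lit 5582) (nat_lit 622) (nat_lit 6638))))))) (.a (.f (nat_lit 558) (nat_lit 557) (nat_lit 1549) (.f (nat_lit 530) (nat_lit 559) (nat_lit 1550) (.d (nat_lit 562) (nat_lit 561) (nat_lit 526) (nat_lit 563) (nat_lit 527)))) (.a (.f (nat_lit 561) (nat_lit 562) (nat_lit 526) (.f (nat_lit 525) (nat_lit 560) (nat_lit 525) (.d (nat_lit 557) (nat_lit 556) (nat_lit 1548) (nat_lit 558) (nat_lit 1549)))) (.a (.f (nat_lit 558) (nat_lit 557) (nat_lit 1549)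 (.f (nat_lit 530) (nat_lit 559) (nat_lit 1550) (.f (nat_lit 495) (nat_lit 494) (nat_lit 3566) (.f (nat_lit 531) (nat_lit 496) (nat_lit 3567) (.d (nat_lit 563) (nat_lit 562) (nat_lit 527) (nat_lit 564) (nat_lit 528)))))) (.a (.f (nat_lit 561) (nat_lit 562) (nat_lit 526) (.f (nat_lit 525) (nat_lit 560) (nat_lit 525) (.f (nat_lit 556) (nat_lit 557) (nat_lit 1548) (.f (nat_lit 524) (nat_lit 555) (nat_lit 1547) (.f (nat_lit 491) (nat_lit 492) (nat_lit 3563) (.f (nat_lit 523) (nat_lit 490) (nat_lit 3562) (.d (nat_lit 495) (nat_lit 494) (nat_lit 2539) (nat_lit 496) (nat_lit 2540)))))))) (.a (.f (nat_lit 558) (nat_lit 557) (nat_lit 1549) (.f (nat_lit 530) (nat_lit 559) (nat_lit 1550) (.f (nat_lit 495) (nat_lit 494) (nat_lit 3566) (.f (nat_lit 496) (nat_lit 531) (nat_lit 3567) (.f (nat_lit 463) (nat_lit 431) (nat_lit 5550) (.f (nat_lit 560) (nat_lit 592) (nat_lit 7631) (.d (nat_lit 525) (nat_lit 524) (nat_lit 2540) (nat_lit 561) (nat_lit 525))))))))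 (.f (nat_lit 562) (nat_lit 561) (nat_lit 526) (.f (nat_lit 530) (nat_lit 563) (nat_lit 527) (.f (nat_lit 495) (nat_lit 494) (nat_lit 3566) (.f (nat_lit 559) (nat_lit 558) (nat_lit 1550) (.d (nat_lit 531) (nat_lit 496) (nat_lit 3567) (nat_lit 560) (nat_lit 1551)))))))))))))
noncomputable def s29576 : Cert := .r (nat_lit 1537714675869256576155945778994232080668353507232100411704359814857561673081074955675453359508165820314914373751691712200315325311936528214016582337209772802048) (.p (nat_lit 525) (.a (.f (nat_lit 496) (nat_lit 497) (nat_lit 2541) (.f (nat_lit 495) (nat_lit 524) (nat_lit 2540) (.f (nat_lit 560) (nat_lit 561) (nat_lit 525) (.d (nat_lit 463) (nat_lit 431) (nat_lit 4527) (nat_lit 592) (nat_lit 7631))))) (.a (.f (nat_lit 560) (nat_lit 561) (nat_lit 525) (.f (nat_lit 524) (nat_lit 559) (nat_lit 524) (.f (nat_lit 491) (nat_lit 492) (nat_lit 3563) (.f (nat_lit 523) (nat_lit 490) (nat_lit 3562) (.d (nat_lit 555) (nat_lit 554)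 (nat_lit 1546) (nat_lit 556) (nat_lit 1547)))))) (.a (.f (nat_lit 496) (nat_lit 497) (nat_lit 2541) (.f (nat_lit 524) (nat_lit 495) (nat_lit 2540) (.f (nat_lit 491) (nat_lit 492) (nat_lit 3563) (.f (nat_lit 523) (nat_lit 490) (nat_lit 3562) (.d (nat_lit 555) (nat_lit 554) (nat_lit 1546) (nat_lit 556) (nat_lit 1547)))))) (.f (nat_lit 561) (nat_lit 560) (nat_lit 525) (.f (nat_lit 529) (nat_lit 562) (nat_lit 526) (.d (nat_lit 497) (nat_lit 496) (nat_lit 2541) (nat_lit 498) (nat_lit 2542))))))))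
noncomputable def s29599 : Cert := .r (nat_lit 878694100496718043517683302282418331810487718418343092402491322775749527474899974671687634004666183037093927858109549828751614463963730408009475621262727315456) (.p (nat_lit 527) (.a (.p (nat_lit 526) (.a (.p (nat_lit 529) (.a (.f (nat_lit 494) (nat_lit 493) (nat_lit 3565) (.f (nat_lit 558) (nat_lit 557) (nat_lit 1549) (.d (nat_lit 530) (nat_lit 495) (nat_lit 3566) (nat_lit 559) (nat_lit 1550)))) (.f (nat_lit 561) (nat_lit 562) (nat_lit 526) (.f (nat_lit 497) (nat_lit 498) (nat_lit 2542) (.d (nat_lit 525) (nat_lit 496) (nat_lit 2541) (nat_lit 560) (nat_lit 525)))))) (.a s28014 (.a s28025 (.a (.p (nat_lit 529) (.a (.f (nat_lit 561) (nat_lit 562) (nat_lit 526) (.f (nat_lit 497) (nat_lit 498) (nat_lit 2542) (.d (nat_lit 525) (nat_lit 496) (nat_lit 2541) (nat_lit 560) (nat_lit 525)))) (.a (.f (nat_lit 493) (nat_lit 494) (nat_lit 3565) (.f (nat_lit 525) (nat_lit 492) (nat_lit 3564) (.d (nat_lit 557) (nat_lit 556) (nat_lit 1548) (nat_lit 558) (nat_lit 1549)))) (.f (nat_lit 494) (nat_lit 493) (nat_lit 3565) (.f (nat_lit 495) (nat_lit 530) (nat_lit 3566) (.f (nat_lit 558) (nat_lit 557) (nat_lit 1549) (.d (nat_lit 463) (nat_lit 431) (nat_lit 5550) (nat_lit 590) (nat_lit 6606)))))))) (.a s28087 (.a (.p (nat_lit 529) (.a (.f (nat_lit 561) (nat_lit 562) (nat_lit 526) (.f (nat_lit 497) (nat_lit 498) (nat_lit 2542) (.d (nat_lit 525) (nat_lit 496) (nat_lit 2541) (nat_lit 560) (nat_lit 525)))) (.a (.f (nat_lit 493) (nat_lit 494) (nat_lit 3565) (.f (nat_lit 525) (nat_lit 492) (nat_lit 3564) (.d (nat_lit 557) (nat_lit 556) (nat_lit 1548) (nat_lit 558) (nat_lit 1549)))) (.f (nat_lit 558) (nat_lit 557) (nat_lit 1549) (.f (nat_lit 559) (nat_lit 530) (nat_lit 1550) (.f (nat_lit 494) (nat_lit 493) (nat_lit 3565) (.d (nat_lit 462) (nat_lit 430) (nat_lit 4526) (nat_lit 591) (nat_lit 4558)))))))) (.a (.p (nat_lit 529) (.a (.f (nat_lit 494) (nat_lit 493) (nat_lit 3565) (.f (nat_lit 558) (nat_lit 557) (nat_lit 1549) (.d (nat_lit 530) (nat_lit 495) (nat_lit 3566) (nat_lit 559) (nat_lit 1550)))) (.a (.f (nat_lit 494) (nat_lit 493) (nat_lit 3565) (.f (nat_lit 495) (nat_lit 530) (nat_lit 3566) (.f (nat_lit 558) (nat_lit 557) (nat_lit 1549) (.d (nat_lit 463) (nat_lit 431) (nat_lit 5550) (nat_lit 590) (nat_lit 6606))))) (.a (.f (nat_lit 558) (nat_lit 557) (nat_lit 1549) (.f (nat_lit 559) (nat_lit 530) (nat_lit 1550) (.f (nat_lit 494) (nat_lit 493) (nat_lit 3565) (.d (nat_lit 462) (nat_lit 430) (nat_lit 4526) (nat_lit 591) (nat_lit 4558))))) (.a s28103 (.a (.f (nat_lit 558) (nat_lit 557) (nat_lit 1549) (.f (nat_lit 530) (nat_lit 559) (nat_lit 1550) (.d (nat_lit 562) (nat_lit 561) (nat_lit 526) (nat_lit 563) (nat_lit 527)))) (.f (nat_lit 494) (nat_lit 493) (nat_lit 3565) (.f (nat_lit 530) (nat_lit 495) (nat_lit 3566) (.d (nat_lit 562) (nat_lit 561) (nat_lit 526) (nat_lit 563) (nat_lit 527)))))))))) (.a s28110 (.a s28111 s28112)))))))))) (.a (.p (nat_lit 526) (.a s28014 (.a s28114 (.a s28115 (.a s28178 (.a s28179 (.a s28187 (.a (.p (nat_lit 525) (.a (.f (nat_lit 560) (nat_lit 561) (nat_lit 525) (.f (nat_lit 524) (nat_lit 559) (nat_lit 524) (.d (nat_lit 492) (nat_lit 491) (nat_lit 3563) (nat_lit 493) (nat_lit 3564)))) (.a (.f (nat_lit 492) (nat_lit 493) (nat_lit 3564) (.f (nat_lit 524) (nat_lit 491) (nat_lit 3563) (.d (nat_lit 556) (nat_lit 555) (nat_lit 1547) (nat_lit 557) (nat_lit 1548)))) (.f (nat_lit 557) (nat_lit 556) (nat_lit 1548) (.f (nat_lit 529) (nat_lit 558) (nat_lit 1549) (.d (nat_lit 561) (nat_lit 560) (nat_lit 525) (nat_lit 562) (nat_lit 526))))))) (.a s28213 (.a s28218 (.a s28219 s28253))))))))))) (.a (.p (nat_lit 526) (.a s28025 (.a s28114 (.a s28255 (.a s28348 (.a s28349 (.a s28368 (.a s28369 s28370)))))))) (.a (.p (nat_lit 560) (.a (.p (nat_lit 529) (.a (.p (nat_lit 559) (.a s28372 (.a (.d (nat_lit 530) (nat_lit 531) (nat_lit 1551) (nat_lit 558) (nat_lit 1550)) (.f (nat_lit 530) (nat_lit 531) (nat_lit 1551) (.f (nat_lit 495) (nat_lit 494) (nat_lit 3566) (.d (nat_lit 463) (nat_lit 431) (nat_lit 4527) (nat_lit 592) (nat_lit 4559))))))) (.a s28385 (.a (.p (nat_lit 559) (.a (.p (nat_lit 561) (.a (.f (nat_lit 558) (nat_lit 557) (nat_lit 2573) (.f (nat_lit 593) (nat_lit 594) (nat_lit 558) (.d (nat_lit 496) (nat_lit 464) (nat_lit 4560) (nat_lit 625) (nat_lit 7664)))) (.a (.f (nat_lit 558) (nat_lit 557) (nat_lit 2573) (.f (nat_lit 562) (nat_lit 563) (nat_lit 3599) (.d (nat_lit 590) (nat_lit 589) (nat_lit 1581) (nat_lit 591) (nat_lit 1582)))) (.f (nat_lit 562) (nat_lit 563) (nat_lit 3599) (.f (nat_lit 591) (nat_lit 590) (nat_lit 1582) (.d (nat_lit 496) (nat_lit 464) (nat_lit 5583) (nat_lit 623) (nat_lit 6639))))))) (.a (.d (nat_lit 530) (nat_lit 531) (nat_lit 1551) (nat_lit 558) (nat_lit 1550)) (.p (nat_lit 496) (.a (.d (nat_lit 464) (nat_lit 432) (nat_lit 5551) (nat_lit 591) (nat_lit 5583)) (.a (.f (nat_lit 591) (nat_lit 623) (nat_lit 6639) (.f (nat_lit 530) (nat_lit 531) (nat_lit 1551) (.f (nat_lit 562) (nat_lit 563) (nat_lit 527) (.f (nat_lit 561) (nat_lit 590) (nat_lit 1582) (.f (nat_lit 593) (nat_lit 625) (nat_lit 7664) (.f (nat_lit 594) (nat_lit 595) (nat_lit 559) (.d (nat_lit 497) (nat_lit 465) (nat_lit 4561) (nat_lit 626) (nat_lit 4593)))))))) (.f (nat_lit 464) (nat_lit 432) (nat_lit 5551) (.f (nat_lit 561) (nat_lit 593) (nat_lit 4560) (.f (nat_lit 562) (nat_lit 563) (nat_lit 3599) (.f (nat_lit 465) (nat_lit 433) (nat_lit 6576) (.d (nat_lit 497) (nat_lit 592) (nat_lit 5584) (nat_lit 594) (nat_lit 4561)))))))))))) (.a s28413 (.a s28419 (.p (nat_lit 495) (.a (.f (nat_lit 530) (nat_lit 494) (nat_lit 3566) (.d (nat_lit 531) (nat_lit 496) (nat_lit 3567) (nat_lit 559) (nat_lit 1551))) (.a (.f (nat_lit 530) (nat_lit 494) (nat_lit 3566) (.d (nat_lit 559) (nat_lit 531) (nat_lit 1551) (nat_lit 558) (nat_lit 1550))) (.f (nat_lit 592) (nat_lit 624) (nat_lit 7663) (.d (nat_lit 463) (nat_lit 431) (nat_lit 4527) (nat_lit 496) (nat_lit 7631)))))))))))) (.a (.p (nat_lit 559) (.a s28422 (.a s28435 (.a s28462 (.a s28464 (.a s28465 (.a s28466 s28475))))))) (.a (.p (nat_lit 592) (.a (.f (nat_lit 624) (nat_lit 495) (nat_lit 7663) (.f (nat_lit 625) (nat_lit 657) (nat_lit 4624) (.f (nat_lit 623) (nat_lit 655) (nat_lit 5647) (.d (nat_lit 496) (nat_lit 591) (nat_lit 5615) (nat_lit 593) (nat_lit 4592))))) (.a (.f (nat_lit 624) (nat_lit 495) (nat_lit 7663) (.f (nat_lit 529) (nat_lit 497) (nat_lit 6640) (.f (nat_lit 656) (nat_lit 561) (nat_lit 6672) (.d (nat_lit 655) (nat_lit 623) (nat_lit 5647) (nat_lit 687) (nat_lit 5679))))) (.a (.p (nat_lit 496) (.a (.f (nat_lit 465) (nat_lit 497) (nat_lit 6608) (.f (nat_lit 464) (nat_lit 433) (nat_lit 6576) (.d (nat_lit 593) (nat_lit 561) (nat_lit 4560) (nat_lit 625) (nat_lit 4592)))) (.a (.f (nat_lit 623) (nat_lit 591) (nat_lit 5615) (.f (nat_lit 624) (nat_lit 655) (nat_lit 5647) (.d (nat_lit 625) (nat_lit 593) (nat_lit 4592) (nat_lit 657) (nat_lit 4624)))) (.f (nat_lit 497) (nat_lit 465) (nat_lit 6608) (.f (nat_lit 624) (nat_lit 529) (nat_lit 6640) (.d (nat_lit 623) (nat_lit 591) (nat_lit 5615) (nat_lit 655) (nat_lit 5647))))))) (.a (.p (nat_lit 496) (.a (.f (nat_lit 465) (nat_lit 497) (nat_lit 6608) (.f (nat_lit 464) (nat_lit 433) (nat_lit 6576) (.d (nat_lit 593) (nat_lit 561) (nat_lit 4560) (nat_lit 625) (nat_lit 4592)))) (.a (.f (nat_lit 463) (nat_lit 495) (nat_lit 7631) (.f (nat_lit 464) (nat_lit 431) (nat_lit 7599) (.d (nat_lit 465) (nat_lit 433) (nat_lit 6576) (nat_lit 497) (nat_lit 6608)))) (.a (.p (nat_lit 562) (.a (.f (nat_lit 561) (nat_lit 563) (nat_lit 3599) (.f (nat_lit 593) (nat_lit 625) (nat_lit 4592) (.d (nat_lit 591) (nat_lit 590) (nat_lit 2606) (nat_lit 623) (nat_lit 5615)))) (.a (.f (nat_lit 495) (nat_lit 463) (nat_lit 7631) (.f (nat_lit 497) (nat_lit 465) (nat_lit 6608) (.f (nat_lit 591) (nat_lit 623) (nat_lit 5615) (.f (nat_lit 593) (nat_lit 625) (nat_lit 4592) (.f (nat_lit 594) (nat_lit 563) (nat_lit 2607) (.f (nat_lit 627) (nat_lit 626) (nat_lit 591) (.f (nat_lit 595) (nat_lit 628) (nat_lit 592) (.f (nat_lit 530) (nat_lit 498) (nat_lit 4594) (.d (nat_lit 529) (nat_lit 494) (nat_lit 494) (nat_lit 531) (nat_lit 3567)))))))))) (.a (.f (nat_lit 495) (nat_lit 463) (nat_lit 7631) (.f (nat_lit 497) (nat_lit 465) (nat_lit 6608) (.f (nat_lit 563) (nat_lit 561) (nat_lit 3599) (.f (nat_lit 530) (nat_lit 529) (nat_lit 527) (.f (nat_lit 498) (nat_lit 531) (nat_lit 495) (.d (nat_lit 466) (nat_lit 467) (nat_lit 2511) (nat_lit 595) (nat_lit 4562))))))) (.f (nat_lit 593) (nat_lit 625) (nat_lit 4592) (.f (nat_lit 591) (nat_lit 623) (nat_lit 5615) (.f (nat_lit 590) (nat_lit 561) (nat_lit 2606) (.f (nat_lit 557) (nat_lit 558) (nat_lit 3629) (.f (nat_lit 589) (nat_lit 556) (nat_lit 3628) (.d (nat_lit 621) (nat_lit 620) (nat_lit 1612) (nat_lit 622) (nat_lit 1613))))))))))) (.a (.f (nat_lit 495) (nat_lit 463) (nat_lit 7631) (.f (nat_lit 593) (nat_lit 625) (nat_lit 4592) (.f (nat_lit 464) (nat_lit 561) (nat_lit 4560) (.f (nat_lit 432) (nat_lit 400) (nat_lit 5519) (.d (nat_lit 433) (nat_lit 401) (nat_lit 6544) (nat_lit 465) (nat_lit 6576)))))) (.f (nat_lit 593) (nat_lit 625) (nat_lit 4592) (.f (nat_lit 561) (nat_lit 464) (nat_lit 4560) (.f (nat_lit 562) (nat_lit 563) (nat_lit 3599) (.d (nat_lit 591) (nat_lit 590) (nat_lit 2606) (nat_lit 623) (nat_lit 5615)))))))))) (.f (nat_lit 624) (nat_lit 495) (nat_lit 7663) (.f (nat_lit 625) (nat_lit 657) (nat_lit 4624) (.f (nat_lit 529) (nat_lit 497) (nat_lit 6640) (.f (nat_lit 561) (nat_lit 656) (nat_lit 6672) (.f (nat_lit 593) (nat_lit 496) (nat_lit 4592) (.f (nat_lit 562) (nat_lit 563) (nat_lit 3599) (.f (nat_lit 626) (nat_lit 658) (nat_lit 4625) (.d (nat_lit 591) (nat_lit 590) (nat_lit 2606) (nat_lit 627) (nat_lit 3663)))))))))))))) (.a (.p (nat_lit 559) (.a s28435 (.a s28522 (.a s28538 (.a s28540 (.a s28466 (.a s28541 s28543))))))) (.a (.p (nat_lit 561) (.a (.p (nat_lit 559) (.a (.f (nat_lit 562) (nat_lit 563) (nat_lit 3599) (.f (nat_lit 591) (nat_lit 590) (nat_lit 1582) (.d (nat_lit 496) (nat_lit 464) (nat_lit 5583) (nat_lit 623) (nat_lit 6639)))) (.a (.f (nat_lit 562) (nat_lit 563) (nat_lit 3599) (.f (nat_lit 530) (nat_lit 531) (nat_lit 2575) (.f (nat_lit 558) (nat_lit 529) (nat_lit 1550) (.d (nat_lit 590) (nat_lit 589) (nat_lit 1581) (nat_lit 591) (nat_lit 1582))))) (.a (.p (nat_lit 558) (.a (.f (nat_lit 529) (nat_lit 530) (nat_lit 1550) (.f (nat_lit 593) (nat_lit 594) (nat_lit 558) (.d (nat_lit 496) (nat_lit 464) (nat_lit 4560) (nat_lit 625) (nat_lit 7664)))) (.a (.f (nat_lit 529) (nat_lit 530) (nat_lit 1550) (.f (nat_lit 593) (nat_lit 594) (nat_lit 558) (.f (nat_lit 625) (nat_lit 657) (nat_lit 7696) (.f (nat_lit 624) (nat_lit 656) (nat_lit 5648) (.f (nat_lit 592) (nat_lit 497) (nat_lit 6640) (.f (nat_lit 590) (nat_lit 589) (nat_lit 1581) (.d (nat_lit 626) (nat_lit 591) (nat_lit 590) (nat_lit 658) (nat_lit 4625)))))))) (.a (.f (nat_lit 593) (nat_lit 594) (nat_lit 558) (.d (nat_lit 557) (nat_lit 556) (nat_lit 2572) (nat_lit 592) (nat_lit 557))) (.d (nat_lit 529) (nat_lit 530) (nat_lit 2574) (nat_lit 557) (nat_lit 2573)))))) (.f (nat_lit 562) (nat_lit 563) (nat_lit 3599) (.f (nat_lit 530) (nat_lit 531) (nat_lit 2575) (.f (nat_lit 558) (nat_lit 529) (nat_lit 1550) (.d (nat_lit 594) (nat_lit 593) (nat_lit 558) (nat_lit 595) (nat_lit 559))))))))) (.a (.p (nat_lit 559) (.a (.f (nat_lit 562) (nat_lit 563) (nat_lit 3599) (.f (nat_lit 530) (nat_lit 531) (nat_lit 2575) (.f (nat_lit 558) (nat_lit 529) (nat_lit 1550) (.d (nat_lit 590) (nat_lit 589) (nat_lit 1581) (nat_lit 591) (nat_lit 1582))))) (.a (.f (nat_lit 562) (nat_lit 563) (nat_lit 3599) (.f (nat_lit 591) (nat_lit 590) (nat_lit 1582) (.f (nat_lit 623) (nat_lit 655) (nat_lit 6671) (.f (nat_lit 594) (nat_lit 595) (nat_lit 559) (.f (nat_lit 593) (nat_lit 558) (nat_lit 558) (.d (nat_lit 622) (nat_lit 592) (nat_lit 1614) (nat_lit 654) (nat_lit 5646))))))) (.a (.f (nat_lit 562) (nat_lit 563) (nat_lit 3599) (.f (nat_lit 591) (nat_lit 590) (nat_lit 1582) (.f (nat_lit 623) (nat_lit 655) (nat_lit 6671) (.f (nat_lit 624) (nat_lit 656) (nat_lit 4623) (.f (nat_lit 594) (nat_lit 595) (nat_lit 559) (.f (nat_lit 622) (nat_lit 654) (nat_lit 5646) (.d (nat_lit 593) (nat_lit 592) (nat_lit 1614) (nat_lit 625) (nat_lit 2638)))))))) (.a (.p (nat_lit 558) (.a (.f (nat_lit 529) (nat_lit 530) (nat_lit 1550) (.f (nat_lit 593) (nat_lit 594) (nat_lit 558) (.f (nat_lit 625) (nat_lit 657) (nat_lit 7696) (.f (nat_lit 624) (nat_lit 656) (nat_lit 5648) (.f (nat_lit 592) (nat_lit 497) (nat_lit 6640) (.f (nat_lit 590) (nat_lit 589) (nat_lit 1581) (.d (nat_lit 626) (nat_lit 591) (nat_lit 590) (nat_lit 658) (nat_lit 4625)))))))) (.a (.f (nat_lit 593) (nat_lit 594) (nat_lit 558) (.d (nat_lit 557) (nat_lit 556) (nat_lit 2572) (nat_lit 592) (nat_lit 557))) (.d (nat_lit 529) (nat_lit 530) (nat_lit 2574) (nat_lit 557) (nat_lit 2573))))) (.f (nat_lit 562) (nat_lit 563) (nat_lit 3599) (.f (nat_lit 530) (nat_lit 531) (nat_lit 2575) (.f (nat_lit 558) (nat_lit 529) (nat_lit 1550) (.d (nat_lit 594) (nat_lit 593) (nat_lit 558) (nat_lit 595) (nat_lit 559)))))))))) (.a (.p (nat_lit 496) (.a (.f (nat_lit 464) (nat_lit 593) (nat_lit 4560) (.f (nat_lit 432) (nat_lit 529) (nat_lit 4528) (.d (nat_lit 431) (nat_lit 399) (nat_lit 7567) (nat_lit 463) (nat_lit 7599)))) (.a (.f (nat_lit 464) (nat_lit 593) (nat_lit 4560) (.f (nat_lit 433) (nat_lit 465) (nat_lit 6576) (.f (nat_lit 432) (nat_lit 401) (nat_lit 6544) (.d (nat_lit 431) (nat_lit 399) (nat_lit 7567) (nat_lit 463) (nat_lit 7599))))) (.a (.p (nat_lit 592) (.a (.f (nat_lit 593) (nat_lit 625) (nat_lit 4592) (.f (nat_lit 562) (nat_lit 563) (nat_lit 3599) (.d (nat_lit 591) (nat_lit 590) (nat_lit 2606) (nat_lit 623) (nat_lit 5615)))) (.a (.f (nat_lit 497) (nat_lit 465) (nat_lit 6608) (.f (nat_lit 624) (nat_lit 529) (nat_lit 6640) (.d (nat_lit 623) (nat_lit 591) (nat_lit 5615) (nat_lit 655) (nat_lit 5647)))) (.f (nat_lit 593) (nat_lit 625) (nat_lit 4592) (.f (nat_lit 497) (nat_lit 465) (nat_lit 6608) (.f (nat_lit 529) (nat_lit 624) (nat_lit 6640) (.f (nat_lit 562) (nat_lit 563) (nat_lit 3599) (.f (nat_lit 594) (nat_lit 626) (nat_lit 4593) (.f (nat_lit 595) (nat_lit 596) (nat_lit 3632) (.f (nat_lit 498) (nat_lit 466) (nat_lit 6609) (.d (nat_lit 627) (nat_lit 530) (nat_lit 4594) (nat_lit 628) (nat_lit 592)))))))))))) s28593)))) (.a (.p (nat_lit 559) (.a (.f (nat_lit 562) (nat_lit 563) (nat_lit 3599) (.f (nat_lit 591) (nat_lit 590) (nat_lit 1582) (.d (nat_lit 496) (nat_lit 464) (nat_lit 5583) (nat_lit 623) (nat_lit 6639)))) (.a (.f (nat_lit 562) (nat_lit 563) (nat_lit 3599) (.f (nat_lit 591) (nat_lit 590) (nat_lit 1582) (.f (nat_lit 623) (nat_lit 655) (nat_lit 6671) (.f (nat_lit 594) (nat_lit 595) (nat_lit 559) (.f (nat_lit 593) (nat_lit 558) (nat_lit 558) (.d (nat_lit 622) (nat_lit 592) (nat_lit 1614) (nat_lit 654) (nat_lit 5646))))))) (.a (.p (nat_lit 558) (.a (.f (nat_lit 593) (nat_lit 594) (nat_lit 558) (.d (nat_lit 557) (nat_lit 556) (nat_lit 2572) (nat_lit 592) (nat_lit 557))) (.a (.f (nat_lit 557) (nat_lit 556) (nat_lit 2572) (.d (nat_lit 589) (nat_lit 588) (nat_lit 1580) (nat_lit 590) (nat_lit 1581))) (.f (nat_lit 593) (nat_lit 594) (nat_lit 558) (.f (nat_lit 496) (nat_lit 464) (nat_lit 4560) (.d (nat_lit 625) (nat_lit 592) (nat_lit 4592) (nat_lit 657) (nat_lit 7696))))))) (.f (nat_lit 562) (nat_lit 563) (nat_lit 3599) (.f (nat_lit 594) (nat_lit 595) (nat_lit 559) (.f (nat_lit 593) (nat_lit 558) (nat_lit 558) (.f (nat_lit 625) (nat_lit 657) (nat_lit 7696) (.d (nat_lit 496) (nat_lit 464) (nat_lit 4560) (nat_lit 592) (nat_lit 4592)))))))))) (.a (.p (nat_lit 559) (.a (.f (nat_lit 562) (nat_lit 563) (nat_lit 3599) (.f (nat_lit 591) (nat_lit 590) (nat_lit 1582) (.d (nat_lit 496) (nat_lit 464) (nat_lit 5583) (nat_lit 623) (nat_lit 6639)))) (.a (.f (nat_lit 562) (nat_lit 563) (nat_lit 3599) (.f (nat_lit 530) (nat_lit 531) (nat_lit 2575) (.f (nat_lit 558) (nat_lit 529) (nat_lit 1550) (.d (nat_lit 590) (nat_lit 589) (nat_lit 1581) (nat_lit 591) (nat_lit 1582))))) (.a (.p (nat_lit 558) (.a (.f (nat_lit 529) (nat_lit 530) (nat_lit 1550) (.f (nat_lit 593) (nat_lit 594) (nat_lit 558) (.d (nat_lit 496) (nat_lit 464) (nat_lit 4560) (nat_lit 625) (nat_lit 7664)))) (.a (.d (nat_lit 529) (nat_lit 530) (nat_lit 2574) (nat_lit 557) (nat_lit 2573)) (.f (nat_lit 557) (nat_lit 556) (nat_lit 2572) (.d (nat_lit 589) (nat_lit 588) (nat_lit 1580) (nat_lit 590) (nat_lit 1581)))))) (.f (nat_lit 562) (nat_lit 563) (nat_lit 3599) (.f (nat_lit 530) (nat_lit 531) (nat_lit 2575) (.f (nat_lit 558) (nat_lit 529) (nat_lit 1550) (.d (nat_lit 594) (nat_lit 593) (nat_lit 558) (nat_lit 595) (nat_lit 559))))))))) (.a (.p (nat_lit 496) (.a (.f (nat_lit 464) (nat_lit 593) (nat_lit 4560) (.f (nat_lit 432) (nat_lit 529) (nat_lit 4528) (.d (nat_lit 431) (nat_lit 399) (nat_lit 7567) (nat_lit 463) (nat_lit 7599)))) (.a (.f (nat_lit 464) (nat_lit 593) (nat_lit 4560) (.f (nat_lit 433) (nat_lit 465) (nat_lit 6576) (.f (nat_lit 432) (nat_lit 401) (nat_lit 6544) (.d (nat_lit 431) (nat_lit 399) (nat_lit 7567) (nat_lit 463) (nat_lit 7599))))) (.a (.p (nat_lit 592) (.a (.f (nat_lit 497) (nat_lit 465) (nat_lit 6608) (.f (nat_lit 624) (nat_lit 529) (nat_lit 6640) (.d (nat_lit 623) (nat_lit 591) (nat_lit 5615) (nat_lit 655) (nat_lit 5647)))) (.a (.f (nat_lit 593) (nat_lit 625) (nat_lit 4592) (.f (nat_lit 591) (nat_lit 623) (nat_lit 5615) (.f (nat_lit 590) (nat_lit 589) (nat_lit 2605) (.f (nat_lit 558) (nat_lit 557) (nat_lit 3629) (.f (nat_lit 594) (nat_lit 559) (nat_lit 558) (.f (nat_lit 595) (nat_lit 596) (nat_lit 3632) (.d (nat_lit 627) (nat_lit 626) (nat_lit 591) (nat_lit 628) (nat_lit 592)))))))) (.f (nat_lit 593) (nat_lit 625) (nat_lit 4592) (.f (nat_lit 497) (nat_lit 465) (nat_lit 6608) (.f (nat_lit 624) (nat_lit 529) (nat_lit 6640) (.d (nat_lit 656) (nat_lit 559) (nat_lit 7695) (nat_lit 688) (nat_lit 6704)))))))) s28593)))) (.a (.p (nat_lit 559) (.a (.f (nat_lit 562) (nat_lit 563) (nat_lit 3599) (.f (nat_lit 530) (nat_lit 531) (nat_lit 2575) (.f (nat_lit 558) (nat_lit 529) (nat_lit 1550) (.d (nat_lit 594) (nat_lit 593) (nat_lit 558) (nat_lit 595) (nat_lit 559))))) (.a (.p (nat_lit 558) (.a (.f (nat_lit 593) (nat_lit 594) (nat_lit 558) (.d (nat_lit 557) (nat_lit 556) (nat_lit 2572) (nat_lit 592) (nat_lit 557))) (.a (.f (nat_lit 557) (nat_lit 556) (nat_lit 2572) (.d (nat_lit 589) (nat_lit 588) (nat_lit 1580) (nat_lit 590) (nat_lit 1581))) (.f (nat_lit 593) (nat_lit 594) (nat_lit 558) (.f (nat_lit 496) (nat_lit 464) (nat_lit 4560) (.d (nat_lit 625) (nat_lit 592) (nat_lit 4592) (nat_lit 657) (nat_lit 7696))))))) (.a s28636 (.a (.f (nat_lit 562) (nat_lit 563) (nat_lit 3599) (.f (nat_lit 530) (nat_lit 531) (nat_lit 2575) (.f (nat_lit 529) (nat_lit 558) (nat_lit 1550) (.f (nat_lit 594) (nat_lit 595) (nat_lit 559) (.d (nat_lit 497) (nat_lit 465) (nat_lit 4561) (nat_lit 626) (nat_lit 7665)))))) (.f (nat_lit 562) (nat_lit 563) (nat_lit 3599) (.f (nat_lit 530) (nat_lit 531) (nat_lit 2575) (.f (nat_lit 558) (nat_lit 529) (nat_lit 1550) (.f (nat_lit 557) (nat_lit 556) (nat_lit 2572) (.d (nat_lit 589) (nat_lit 588) (nat_lit 1580) (nat_lit 590) (nat_lit 1581))))))))))) (.a (.p (nat_lit 559) (.a (.f (nat_lit 562) (nat_lit 563) (nat_lit 3599) (.f (nat_lit 530) (nat_lit 531) (nat_lit 2575) (.f (nat_lit 558) (nat_lit 529) (nat_lit 1550) (.d (nat_lit 594) (nat_lit 593) (nat_lit 558) (nat_lit 595) (nat_lit 559))))) (.a (.f (nat_lit 562) (nat_lit 563) (nat_lit 3599) (.f (nat_lit 594) (nat_lit 595) (nat_lit 559) (.f (nat_lit 593) (nat_lit 558) (nat_lit 558) (.f (nat_lit 625) (nat_lit 657) (nat_lit 7696) (.d (nat_lit 496) (nat_lit 464) (nat_lit 4560) (nat_lit 592) (nat_lit 4592)))))) (.a s28636 (.a (.p (nat_lit 558) (.a (.f (nat_lit 529) (nat_lit 530) (nat_lit 1550) (.f (nat_lit 593) (nat_lit 594) (nat_lit 558) (.d (nat_lit 496) (nat_lit 464) (nat_lit 4560) (nat_lit 625) (nat_lit 7664)))) (.a (.f (nat_lit 593) (nat_lit 594) (nat_lit 558) (.d (nat_lit 557) (nat_lit 556) (nat_lit 2572) (nat_lit 592) (nat_lit 557))) (.d (nat_lit 529) (nat_lit 530) (nat_lit 2574) (nat_lit 557) (nat_lit 2573))))) (.a (.f (nat_lit 562) (nat_lit 563) (nat_lit 3599) (.f (nat_lit 530) (nat_lit 531) (nat_lit 2575) (.f (nat_lit 529) (nat_lit 558) (nat_lit 1550) (.f (nat_lit 594) (nat_lit 595) (nat_lit 559) (.d (nat_lit 497) (nat_lit 465) (nat_lit 4561) (nat_lit 626) (nat_lit 7665)))))) (.f (nat_lit 562) (nat_lit 563) (nat_lit 3599) (.f (nat_lit 530) (nat_lit 531) (nat_lit 2575) (.f (nat_lit 558) (nat_lit 529) (nat_lit 1550) (.f (nat_lit 557) (nat_lit 556) (nat_lit 2572) (.f (nat_lit 592) (nat_lit 593) (nat_lit 557) (.f (nat_lit 624) (nat_lit 656) (nat_lit 7695) (.f (nat_lit 623) (nat_lit 655) (nat_lit 5647) (.f (nat_lit 496) (nat_lit 591) (nat_lit 5615) (.f (nat_lit 464) (nat_lit 432) (nat_lit 5551) (.d (nat_lit 465) (nat_lit 433) (nat_lit 6576) (nat_lit 497) (nat_lit 6608))))))))))))))))) (.a (.p (nat_lit 496) (.a s28593 (.a (.p (nat_lit 559) (.a (.d (nat_lit 464) (nat_lit 432) (nat_lit 5551) (nat_lit 591) (nat_lit 5583)) (.a (.f (nat_lit 591) (nat_lit 623) (nat_lit 6639) (.d (nat_lit 562) (nat_lit 563) (nat_lit 3599) (nat_lit 590) (nat_lit 1582))) (.f (nat_lit 464) (nat_lit 432) (nat_lit 5551) (.f (nat_lit 465) (nat_lit 433) (nat_lit 6576) (.f (nat_lit 463) (nat_lit 431) (nat_lit 7599) (.f (nat_lit 497) (nat_lit 592) (nat_lit 6608) (.d (nat_lit 462) (nat_lit 461) (nat_lit 461) (nat_lit 498) (nat_lit 462))))))))) (.a (.p (nat_lit 559) (.a (.d (nat_lit 464) (nat_lit 432) (nat_lit 5551) (nat_lit 591) (nat_lit 5583)) (.a (.f (nat_lit 591) (nat_lit 623) (nat_lit 6639) (.d (nat_lit 562) (nat_lit 563) (nat_lit 3599) (nat_lit 590) (nat_lit 1582))) (.f (nat_lit 562) (nat_lit 563) (nat_lit 3599) (.f (nat_lit 530) (nat_lit 531) (nat_lit 2575) (.f (nat_lit 558) (nat_lit 529) (nat_lit 1550) (.f (nat_lit 557) (nat_lit 556) (nat_lit 2572) (.d (nat_lit 589) (nat_lit 588) (nat_lit 1580) (nat_lit 590) (nat_lit 1581))))))))) (.a (.p (nat_lit 592) (.a (.f (nat_lit 497) (nat_lit 465) (nat_lit 6608) (.f (nat_lit 624) (nat_lit 529) (nat_lit 6640) (.d (nat_lit 623) (nat_lit 591) (nat_lit 5615) (nat_lit 655) (nat_lit 5647)))) (.a (.f (nat_lit 591) (nat_lit 623) (nat_lit 5615) (.f (nat_lit 562) (nat_lit 563) (nat_lit 3599) (.d (nat_lit 590) (nat_lit 559) (nat_lit 1582) (nat_lit 589) (nat_lit 2605)))) (.a (.f (nat_lit 497) (nat_lit 465) (nat_lit 6608) (.f (nat_lit 624) (nat_lit 529) (nat_lit 6640) (.f (nat_lit 656) (nat_lit 559) (nat_lit 7695) (.d (nat_lit 655) (nat_lit 623) (nat_lit 5647) (nat_lit 687) (nat_lit 5679))))) (.f (nat_lit 497) (nat_lit 465) (nat_lit 6608) (.f (nat_lit 624) (nat_lit 529) (nat_lit 6640) (.f (nat_lit 656) (nat_lit 559) (nat_lit 7695) (.d (nat_lit 657) (nat_lit 625) (nat_lit 4624) (nat_lit 689) (nat_lit 4656))))))))) (.p (nat_lit 559) (.a (.f (nat_lit 464) (nat_lit 432) (nat_lit 5551) (.f (nat_lit 465) (nat_lit 433) (nat_lit 6576) (.f (nat_lit 463) (nat_lit 431) (nat_lit 7599) (.f (nat_lit 497) (nat_lit 592) (nat_lit 6608) (.d (nat_lit 462) (nat_lit 461) (nat_lit 461) (nat_lit 498) (nat_lit 462)))))) (.f (nat_lit 562) (nat_lit 563) (nat_lit 3599) (.f (nat_lit 530) (nat_lit 531) (nat_lit 2575) (.f (nat_lit 558) (nat_lit 529) (nat_lit 1550) (.f (nat_lit 557) (nat_lit 556) (nat_lit 2572) (.d (nat_lit 589) (nat_lit 588) (nat_lit 1580) (nat_lit 590) (nat_lit 1581))))))))))))) (.p (nat_lit 559) (.a (.f (nat_lit 562) (nat_lit 563) (nat_lit 3599) (.f (nat_lit 591) (nat_lit 590) (nat_lit 1582) (.d (nat_lit 496) (nat_lit 464) (nat_lit 5583) (nat_lit 623) (nat_lit 6639)))) (.a (.f (nat_lit 562) (nat_lit 563) (nat_lit 3599) (.f (nat_lit 530) (nat_lit 531) (nat_lit 2575) (.f (nat_lit 558) (nat_lit 529) (nat_lit 1550) (.d (nat_lit 590) (nat_lit 589) (nat_lit 1581) (nat_lit 591) (nat_lit 1582))))) (.a (.p (nat_lit 558) (.a (.f (nat_lit 593) (nat_lit 594) (nat_lit 558) (.d (nat_lit 557) (nat_lit 556) (nat_lit 2572) (nat_lit 592) (nat_lit 557))) (.a (.d (nat_lit 529) (nat_lit 530) (nat_lit 2574) (nat_lit 557) (nat_lit 2573)) (.f (nat_lit 529) (nat_lit 530) (nat_lit 1550) (.f (nat_lit 593) (nat_lit 594) (nat_lit 558) (.f (nat_lit 496) (nat_lit 464) (nat_lit 4560) (.f (nat_lit 591) (nat_lit 623) (nat_lit 6639) (.f (nat_lit 590) (nat_lit 589) (nat_lit 1581) (.f (nat_lit 622) (nat_lit 654) (nat_lit 6670) (.f (nat_lit 592) (nat_lit 621) (nat_lit 1613) (.d (nat_lit 497) (nat_lit 465) (nat_lit 5584) (nat_lit 624) (nat_lit 6640)))))))))))) (.f (nat_lit 562) (nat_lit 563) (nat_lit 3599) (.f (nat_lit 530) (nat_lit 531) (nat_lit 2575) (.f (nat_lit 558) (nat_lit 529) (nat_lit 1550) (.d (nat_lit 594) (nat_lit 593) (nat_lit 558) (nat_lit 595) (nat_lit 559))))))))))))))))))) (.a (.p (nat_lit 559) (.a s28435 (.a s28522 (.a s28696 (.a s28540 (.a s28466 (.a s28541 (.p (nat_lit 496) (.a (.f (nat_lit 464) (nat_lit 432) (nat_lit 5551) (.f (nat_lit 465) (nat_lit 433) (nat_lit 6576) (.f (nat_lit 463) (nat_lit 431) (nat_lit 7599) (.f (nat_lit 497) (nat_lit 592) (nat_lit 6608) (.d (nat_lit 462) (nat_lit 461) (nat_lit 461) (nat_lit 498) (nat_lit 462)))))) (.a (.f (nat_lit 464) (nat_lit 432) (nat_lit 5551) (.f (nat_lit 561) (nat_lit 593) (nat_lit 4560) (.f (nat_lit 463) (nat_lit 431) (nat_lit 7599) (.f (nat_lit 465) (nat_lit 433) (nat_lit 6576) (.f (nat_lit 562) (nat_lit 563) (nat_lit 3599) (.f (nat_lit 594) (nat_lit 595) (nat_lit 559) (.f (nat_lit 497) (nat_lit 529) (nat_lit 4561) (.d (nat_lit 462) (nat_lit 461) (nat_lit 461) (nat_lit 498) (nat_lit 462))))))))) (.a (.p (nat_lit 495) (.a (.f (nat_lit 463) (nat_lit 431) (nat_lit 4527) (.f (nat_lit 462) (nat_lit 430) (nat_lit 7598) (.f (nat_lit 461) (nat_lit 460) (nat_lit 460) (.d (nat_lit 497) (nat_lit 494) (nat_lit 3533) (nat_lit 498) (nat_lit 3534))))) (.a (.d (nat_lit 463) (nat_lit 431) (nat_lit 4527) (nat_lit 592) (nat_lit 7631)) (.f (nat_lit 592) (nat_lit 624) (nat_lit 7663) (.f (nat_lit 593) (nat_lit 625) (nat_lit 4592) (.f (nat_lit 558) (nat_lit 557) (nat_lit 557) (.d (nat_lit 594) (nat_lit 561) (nat_lit 558) (nat_lit 595) (nat_lit 3631)))))))) (.a (.f (nat_lit 464) (nat_lit 432) (nat_lit 5551) (.f (nat_lit 465) (nat_lit 433) (nat_lit 6576) (.f (nat_lit 592) (nat_lit 497) (nat_lit 6608) (.d (nat_lit 624) (nat_lit 495) (nat_lit 7663) (nat_lit 656) (nat_lit 7695))))) (.f (nat_lit 464) (nat_lit 432) (nat_lit 5551) (.f (nat_lit 463) (nat_lit 431) (nat_lit 7599) (.f (nat_lit 495) (nat_lit 592) (nat_lit 7631) (.f (nat_lit 465) (nat_lit 433) (nat_lit 6576) (.d (nat_lit 466) (nat_lit 467) (nat_lit 1487) (nat_lit 494) (nat_lit 1486)))))))))))))))))) (.a (.p (nat_lit 559) (.a s28464 (.a s28538 (.a s28701 (.a s28696 (.a s28708 (.a s28710 s28717))))))) (.a (.p (nat_lit 496) (.a (.p (nat_lit 591) (.a (.d (nat_lit 559) (nat_lit 464) (nat_lit 5583) (nat_lit 623) (nat_lit 6639)) (.a (.f (nat_lit 592) (nat_lit 623) (nat_lit 5615) (.f (nat_lit 625) (nat_lit 593) (nat_lit 4592) (.f (nat_lit 624) (nat_lit 657) (nat_lit 4624) (.d (nat_lit 497) (nat_lit 465) (nat_lit 6608) (nat_lit 529) (nat_lit 6640))))) (.f (nat_lit 464) (nat_lit 559) (nat_lit 5583) (.f (nat_lit 433) (nat_lit 465) (nat_lit 6576) (.f (nat_lit 432) (nat_lit 401) (nat_lit 6544) (.d (nat_lit 431) (nat_lit 399) (nat_lit 7567) (nat_lit 463) (nat_lit 7599)))))))) (.a (.p (nat_lit 464) (.a (.f (nat_lit 463) (nat_lit 431) (nat_lit 7599) (.f (nat_lit 495) (nat_lit 592) (nat_lit 7631) (.f (nat_lit 465) (nat_lit 433) (nat_lit 6576) (.d (nat_lit 466) (nat_lit 467) (nat_lit 1487) (nat_lit 494) (nat_lit 1486))))) (.a (.f (nat_lit 433) (nat_lit 465) (nat_lit 6576) (.f (nat_lit 432) (nat_lit 401) (nat_lit 6544) (.d (nat_lit 431) (nat_lit 399) (nat_lit 7567) (nat_lit 463) (nat_lit 7599)))) (.a (.f (nat_lit 465) (nat_lit 433) (nat_lit 6576) (.f (nat_lit 592) (nat_lit 497) (nat_lit 6608) (.f (nat_lit 624) (nat_lit 495) (nat_lit 7663) (.d (nat_lit 623) (nat_lit 591) (nat_lit 5615) (nat_lit 655) (nat_lit 5647))))) (.f (nat_lit 463) (nat_lit 431) (nat_lit 7599) (.f (nat_lit 592) (nat_lit 495) (nat_lit 7631) (.f (nat_lit 623) (nat_lit 591) (nat_lit 5615) (.f (nat_lit 624) (nat_lit 655) (nat_lit 5647) (.d (nat_lit 625) (nat_lit 593) (nat_lit 4592) (nat_lit 657) (nat_lit 4624)))))))))) (.a (.p (nat_lit 559) (.a (.d (nat_lit 464) (nat_lit 432) (nat_lit 5551) (nat_lit 591) (nat_lit 5583)) (.a s28702 s28707))) (.a (.p (nat_lit 495) (.a (.d (nat_lit 463) (nat_lit 431) (nat_lit 4527) (nat_lit 592) (nat_lit 7631)) (.a s28731 (.p (nat_lit 529) (.a (.d (nat_lit 494) (nat_lit 493) (nat_lit 493) (nat_lit 530) (nat_lit 3566)) (.a (.f (nat_lit 592) (nat_lit 624) (nat_lit 7663) (.f (nat_lit 494) (nat_lit 493) (nat_lit 493) (.f (nat_lit 497) (nat_lit 465) (nat_lit 6608) (.f (nat_lit 591) (nat_lit 623) (nat_lit 5615) (.d (nat_lit 462) (nat_lit 461) (nat_lit 3533) (nat_lit 559) (nat_lit 7630)))))) (.f (nat_lit 592) (nat_lit 624) (nat_lit 7663) (.f (nat_lit 530) (nat_lit 531) (nat_lit 3567) (.f (nat_lit 559) (nat_lit 558) (nat_lit 1550) (.f (nat_lit 593) (nat_lit 625) (nat_lit 4592) (.f (nat_lit 594) (nat_lit 595) (nat_lit 3631) (.f (nat_lit 562) (nat_lit 563) (nat_lit 527) (.d (nat_lit 497) (nat_lit 465) (nat_lit 6608) (nat_lit 626) (nat_lit 7665)))))))))))))) (.a (.p (nat_lit 591) (.a (.d (nat_lit 559) (nat_lit 464) (nat_lit 5583) (nat_lit 623) (nat_lit 6639)) (.a (.f (nat_lit 592) (nat_lit 623) (nat_lit 5615) (.f (nat_lit 625) (nat_lit 593) (nat_lit 4592) (.f (nat_lit 624) (nat_lit 657) (nat_lit 4624) (.d (nat_lit 497) (nat_lit 465) (nat_lit 6608) (nat_lit 529) (nat_lit 6640))))) (.f (nat_lit 464) (nat_lit 559) (nat_lit 5583) (.f (nat_lit 465) (nat_lit 433) (nat_lit 6576) (.f (nat_lit 592) (nat_lit 497) (nat_lit 6608) (.f (nat_lit 624) (nat_lit 495) (nat_lit 7663) (.d (nat_lit 625) (nat_lit 593) (nat_lit 4592) (nat_lit 657) (nat_lit 4624))))))))) (.a s27707 (.p (nat_lit 591) (.a (.f (nat_lit 592) (nat_lit 623) (nat_lit 5615) (.d (nat_lit 495) (nat_lit 463) (nat_lit 7631) (nat_lit 624) (nat_lit 7663))) (.a (.d (nat_lit 559) (nat_lit 464) (nat_lit 5583) (nat_lit 623) (nat_lit 6639)) (.f (nat_lit 464) (nat_lit 559) (nat_lit 5583) (.f (nat_lit 431) (nat_lit 463) (nat_lit 7599) (.f (nat_lit 432) (nat_lit 399) (nat_lit 7567) (.f (nat_lit 400) (nat_lit 495) (nat_lit 5519) (.d (nat_lit 401) (nat_lit 369) (nat_lit 6512) (nat_lit 433) (nat_lit 6544)))))))))))))))) (.a (.p (nat_lit 559) (.a s28422 (.a s28435 (.a s28462 (.a s28464 (.a s28465 (.a (.p (nat_lit 495) (.a (.d (nat_lit 463) (nat_lit 431) (nat_lit 4527) (nat_lit 592) (nat_lit 4559)) (.a (.f (nat_lit 463) (nat_lit 431) (nat_lit 4527) (.f (nat_lit 462) (nat_lit 430) (nat_lit 7598) (.f (nat_lit 591) (nat_lit 494) (nat_lit 7630) (.d (nat_lit 623) (nat_lit 496) (nat_lit 6639) (nat_lit 655) (nat_lit 6671))))) (.p (nat_lit 591) (.a (.f (nat_lit 623) (nat_lit 655) (nat_lit 6671) (.d (nat_lit 622) (nat_lit 590) (nat_lit 5614) (nat_lit 654) (nat_lit 5646))) (.a (.f (nat_lit 592) (nat_lit 624) (nat_lit 7663) (.f (nat_lit 590) (nat_lit 622) (nat_lit 5614) (.d (nat_lit 561) (nat_lit 562) (nat_lit 1582) (nat_lit 589) (nat_lit 2605)))) (.f (nat_lit 624) (nat_lit 592) (nat_lit 7663) (.d (nat_lit 623) (nat_lit 655) (nat_lit 6671) (nat_lit 656) (nat_lit 4623))))))))) s28475))))))) (.a (.p (nat_lit 496) (.a (.p (nat_lit 464) (.a (.f (nat_lit 463) (nat_lit 431) (nat_lit 7599) (.f (nat_lit 495) (nat_lit 592) (nat_lit 7631) (.f (nat_lit 465) (nat_lit 433) (nat_lit 6576) (.d (nat_lit 466) (nat_lit 467) (nat_lit 1487) (nat_lit 494) (nat_lit 1486))))) (.a (.f (nat_lit 561) (nat_lit 593) (nat_lit 4560) (.f (nat_lit 432) (nat_lit 529) (nat_lit 4528) (.d (nat_lit 431) (nat_lit 399) (nat_lit 7567) (nat_lit 463) (nat_lit 7599)))) (.f (nat_lit 561) (nat_lit 593) (nat_lit 4560) (.f (nat_lit 432) (nat_lit 529) (nat_lit 4528) (.d (nat_lit 433) (nat_lit 401) (nat_lit 6544) (nat_lit 465) (nat_lit 6576))))))) (.a s27460 (.a s28761 (.a (.p (nat_lit 464) (.a (.f (nat_lit 561) (nat_lit 593) (nat_lit 4560) (.f (nat_lit 432) (nat_lit 529) (nat_lit 4528) (.d (nat_lit 431) (nat_lit 399) (nat_lit 7567) (nat_lit 463) (nat_lit 7599)))) (.a (.f (nat_lit 433) (nat_lit 465) (nat_lit 6576) (.f (nat_lit 432) (nat_lit 401) (nat_lit 6544) (.d (nat_lit 431) (nat_lit 399) (nat_lit 7567) (nat_lit 463) (nat_lit 7599)))) (.a (.f (nat_lit 561) (nat_lit 593) (nat_lit 4560) (.f (nat_lit 432) (nat_lit 529) (nat_lit 4528) (.d (nat_lit 433) (nat_lit 401) (nat_lit 6544) (nat_lit 465) (nat_lit 6576)))) (.f (nat_lit 559) (nat_lit 591) (nat_lit 5583) (.f (nat_lit 561) (nat_lit 593) (nat_lit 4560) (.f (nat_lit 562) (nat_lit 563) (nat_lit 3599) (.f (nat_lit 465) (nat_lit 433) (nat_lit 6576) (.f (nat_lit 530) (nat_lit 531) (nat_lit 2575) (.f (nat_lit 594) (nat_lit 595) (nat_lit 559) (.d (nat_lit 497) (nat_lit 498) (nat_lit 7633) (nat_lit 529) (nat_lit 4561)))))))))))) (.a (.p (nat_lit 591) (.a (.d (nat_lit 559) (nat_lit 464) (nat_lit 5583) (nat_lit 623) (nat_lit 6639)) (.a (.f (nat_lit 592) (nat_lit 623) (nat_lit 5615) (.f (nat_lit 625) (nat_lit 593) (nat_lit 4592) (.f (nat_lit 624) (nat_lit 657) (nat_lit 4624) (.d (nat_lit 497) (nat_lit 465) (nat_lit 6608) (nat_lit 529) (nat_lit 6640))))) (.f (nat_lit 464) (nat_lit 559) (nat_lit 5583) (.f (nat_lit 433) (nat_lit 465) (nat_lit 6576) (.f (nat_lit 432) (nat_lit 401) (nat_lit 6544) (.d (nat_lit 431) (nat_lit 399) (nat_lit 7567) (nat_lit 463) (nat_lit 7599)))))))) (.a (.p (nat_lit 592) (.a (.f (nat_lit 623) (nat_lit 591) (nat_lit 5615) (.f (nat_lit 624) (nat_lit 655) (nat_lit 5647) (.d (nat_lit 625) (nat_lit 593) (nat_lit 4592) (nat_lit 657) (nat_lit 4624)))) (.a (.p (nat_lit 562) (.a (.f (nat_lit 561) (nat_lit 563) (nat_lit 3599) (.f (nat_lit 593) (nat_lit 625) (nat_lit 4592) (.d (nat_lit 591) (nat_lit 590) (nat_lit 2606) (nat_lit 623) (nat_lit 5615)))) (.a (.f (nat_lit 495) (nat_lit 463) (nat_lit 7631) (.f (nat_lit 497) (nat_lit 465) (nat_lit 6608) (.f (nat_lit 591) (nat_lit 623) (nat_lit 5615) (.f (nat_lit 593) (nat_lit 625) (nat_lit 4592) (.f (nat_lit 594) (nat_lit 563) (nat_lit 2607) (.f (nat_lit 627) (nat_lit 626) (nat_lit 591) (.f (nat_lit 595) (nat_lit 628) (nat_lit 592) (.f (nat_lit 530) (nat_lit 498) (nat_lit 4594) (.d (nat_lit 529) (nat_lit 494) (nat_lit 494) (nat_lit 531) (nat_lit 3567)))))))))) (.a (.f (nat_lit 495) (nat_lit 463) (nat_lit 7631) (.f (nat_lit 497) (nat_lit 465) (nat_lit 6608) (.f (nat_lit 563) (nat_lit 561) (nat_lit 3599) (.f (nat_lit 530) (nat_lit 529) (nat_lit 527) (.f (nat_lit 498) (nat_lit 531) (nat_lit 495) (.d (nat_lit 466) (nat_lit 467) (nat_lit 2511) (nat_lit 595) (nat_lit 4562))))))) (.f (nat_lit 495) (nat_lit 463) (nat_lit 7631) (.f (nat_lit 591) (nat_lit 623) (nat_lit 5615) (.f (nat_lit 593) (nat_lit 625) (nat_lit 4592) (.f (nat_lit 590) (nat_lit 561) (nat_lit 2606) (.d (nat_lit 622) (nat_lit 559) (nat_lit 5614) (nat_lit 621) (nat_lit 1613)))))))))) (.d (nat_lit 495) (nat_lit 463) (nat_lit 7631) (nat_lit 624) (nat_lit 7663))))) (.a (.p (nat_lit 591) (.a (.d (nat_lit 559) (nat_lit 464) (nat_lit 5583) (nat_lit 623) (nat_lit 6639)) (.a (.f (nat_lit 592) (nat_lit 623) (nat_lit 5615) (.f (nat_lit 625) (nat_lit 593) (nat_lit 4592) (.f (nat_lit 624) (nat_lit 657) (nat_lit 4624) (.d (nat_lit 497) (nat_lit 465) (nat_lit 6608) (nat_lit 529) (nat_lit 6640))))) (.f (nat_lit 464) (nat_lit 559) (nat_lit 5583) (.f (nat_lit 465) (nat_lit 433) (nat_lit 6576) (.f (nat_lit 592) (nat_lit 497) (nat_lit 6608) (.f (nat_lit 624) (nat_lit 495) (nat_lit 7663) (.d (nat_lit 625) (nat_lit 593) (nat_lit 4592) (nat_lit 657) (nat_lit 4624))))))))) (.a s27707 (.p (nat_lit 591) (.a (.f (nat_lit 592) (nat_lit 623) (nat_lit 5615) (.d (nat_lit 495) (nat_lit 463) (nat_lit 7631) (nat_lit 624) (nat_lit 7663))) (.a (.d (nat_lit 559) (nat_lit 464) (nat_lit 5583) (nat_lit 623) (nat_lit 6639)) (.f (nat_lit 464) (nat_lit 559) (nat_lit 5583) (.f (nat_lit 431) (nat_lit 463) (nat_lit 7599) (.f (nat_lit 432) (nat_lit 399) (nat_lit 7567) (.f (nat_lit 400) (nat_lit 495) (nat_lit 5519) (.d (nat_lit 401) (nat_lit 369) (nat_lit 6512) (nat_lit 433) (nat_lit 6544)))))))))))))))))) (.a (.p (nat_lit 559) (.a s28465 (.a s28540 (.a (.p (nat_lit 496) (.a (.d (nat_lit 464) (nat_lit 432) (nat_lit 5551) (nat_lit 591) (nat_lit 5583)) (.a (.p (nat_lit 592) (.a (.f (nat_lit 591) (nat_lit 623) (nat_lit 5615) (.f (nat_lit 593) (nat_lit 625) (nat_lit 4592) (.d (nat_lit 558) (nat_lit 557) (nat_lit 557) (nat_lit 594) (nat_lit 3630)))) (.a (.f (nat_lit 623) (nat_lit 591) (nat_lit 5615) (.d (nat_lit 624) (nat_lit 655) (nat_lit 5647) (nat_lit 656) (nat_lit 7695))) (.f (nat_lit 624) (nat_lit 656) (nat_lit 7695) (.d (nat_lit 497) (nat_lit 465) (nat_lit 6608) (nat_lit 529) (nat_lit 6640)))))) (.f (nat_lit 464) (nat_lit 432) (nat_lit 5551) (.f (nat_lit 465) (nat_lit 433) (nat_lit 6576) (.f (nat_lit 463) (nat_lit 431) (nat_lit 7599) (.f (nat_lit 497) (nat_lit 592) (nat_lit 6608) (.d (nat_lit 462) (nat_lit 461) (nat_lit 461) (nat_lit 498) (nat_lit 462))))))))) (.a s28708 (.a s28710 (.a s28782 (.p (nat_lit 496) (.a (.f (nat_lit 464) (nat_lit 432) (nat_lit 5551) (.f (nat_lit 465) (nat_lit 433) (nat_lit 6576) (.f (nat_lit 463) (nat_lit 431) (nat_lit 7599) (.f (nat_lit 497) (nat_lit 592) (nat_lit 6608) (.d (nat_lit 462) (nat_lit 461) (nat_lit 461) (nat_lit 498) (nat_lit 462)))))) (.a s28707 (.a (.p (nat_lit 495) (.a (.f (nat_lit 463) (nat_lit 431) (nat_lit 4527) (.f (nat_lit 462) (nat_lit 430) (nat_lit 7598) (.f (nat_lit 461) (nat_lit 460) (nat_lit 460) (.d (nat_lit 497) (nat_lit 494) (nat_lit 3533) (nat_lit 498) (nat_lit 3534))))) (.a (.d (nat_lit 463) (nat_lit 431) (nat_lit 4527) (nat_lit 592) (nat_lit 7631)) (.f (nat_lit 592) (nat_lit 624) (nat_lit 7663) (.f (nat_lit 593) (nat_lit 625) (nat_lit 4592) (.f (nat_lit 558) (nat_lit 557) (nat_lit 557) (.d (nat_lit 594) (nat_lit 561) (nat_lit 558) (nat_lit 595) (nat_lit 3631)))))))) (.a (.f (nat_lit 464) (nat_lit 432) (nat_lit 5551) (.f (nat_lit 465) (nat_lit 433) (nat_lit 6576) (.f (nat_lit 592) (nat_lit 497) (nat_lit 6608) (.d (nat_lit 624) (nat_lit 495) (nat_lit 7663) (nat_lit 656) (nat_lit 7695))))) (.f (nat_lit 464) (nat_lit 432) (nat_lit 5551) (.f (nat_lit 463) (nat_lit 431) (nat_lit 7599) (.f (nat_lit 495) (nat_lit 592) (nat_lit 7631) (.f (nat_lit 465) (nat_lit 433) (nat_lit 6576) (.d (nat_lit 466) (nat_lit 467) (nat_lit 1487) (nat_lit 494) (nat_lit 1486)))))))))))))))))) (.a (.p (nat_lit 559) (.a s28462 (.a s28541 (.a s28701 (.a s28782 (.a (.p (nat_lit 496) (.a (.d (nat_lit 464) (nat_lit 432) (nat_lit 5551) (nat_lit 591) (nat_lit 5583)) (.a (.p (nat_lit 592) (.a (.f (nat_lit 591) (nat_lit 623) (nat_lit 5615) (.f (nat_lit 593) (nat_lit 625) (nat_lit 4592) (.f (nat_lit 594) (nat_lit 595) (nat_lit 3631) (.f (nat_lit 562) (nat_lit 563) (nat_lit 2607) (.f (nat_lit 590) (nat_lit 561) (nat_lit 1582) (.f (nat_lit 589) (nat_lit 588) (nat_lit 2604) (.d (nat_lit 621) (nat_lit 620) (nat_lit 1612) (nat_lit 622) (nat_lit 1613)))))))) (.a (.f (nat_lit 623) (nat_lit 591) (nat_lit 5615) (.d (nat_lit 624) (nat_lit 655) (nat_lit 5647) (nat_lit 656) (nat_lit 7695))) (.f (nat_lit 624) (nat_lit 656) (nat_lit 7695) (.d (nat_lit 497) (nat_lit 465) (nat_lit 6608) (nat_lit 529) (nat_lit 6640)))))) (.f (nat_lit 464) (nat_lit 432) (nat_lit 5551) (.f (nat_lit 465) (nat_lit 433) (nat_lit 6576) (.f (nat_lit 592) (nat_lit 497) (nat_lit 6608) (.d (nat_lit 624) (nat_lit 495) (nat_lit 7663) (nat_lit 656) (nat_lit 7695)))))))) (.a s28717 (.p (nat_lit 558) (.a (.d (nat_lit 529) (nat_lit 530) (nat_lit 1550) (nat_lit 557) (nat_lit 2573)) (.a (.f (nat_lit 557) (nat_lit 556) (nat_lit 2572) (.f (nat_lit 589) (nat_lit 588) (nat_lit 1580) (.f (nat_lit 590) (nat_lit 561) (nat_lit 1581) (.f (nat_lit 525) (nat_lit 524) (nat_lit 3596) (.d (nat_lit 493) (nat_lit 461) (nat_lit 4557) (nat_lit 622) (nat_lit 4589)))))) (.p (nat_lit 590) (.a (.f (nat_lit 561) (nat_lit 589) (nat_lit 1581) (.d (nat_lit 562) (nat_lit 563) (nat_lit 3599) (nat_lit 591) (nat_lit 1582))) (.a (.f (nat_lit 622) (nat_lit 654) (nat_lit 6670) (.f (nat_lit 591) (nat_lit 495) (nat_lit 5614) (.d (nat_lit 496) (nat_lit 464) (nat_lit 5583) (nat_lit 623) (nat_lit 6639)))) (.f (nat_lit 530) (nat_lit 529) (nat_lit 1550) (.f (nat_lit 561) (nat_lit 589) (nat_lit 1581) (.d (nat_lit 562) (nat_lit 531) (nat_lit 2575) (nat_lit 563) (nat_lit 3599))))))))))))))))) (.a (.p (nat_lit 495) (.a (.f (nat_lit 592) (nat_lit 624) (nat_lit 7663) (.d (nat_lit 463) (nat_lit 431) (nat_lit 4527) (nat_lit 496) (nat_lit 7631))) (.a (.f (nat_lit 463) (nat_lit 431) (nat_lit 4527) (.d (nat_lit 592) (nat_lit 559) (nat_lit 4559) (nat_lit 624) (nat_lit 7663))) (.a (.p (nat_lit 464) (.a (.f (nat_lit 463) (nat_lit 431) (nat_lit 4527) (.f (nat_lit 432) (nat_lit 559) (nat_lit 6575) (.d (nat_lit 400) (nat_lit 368) (nat_lit 5487) (nat_lit 496) (nat_lit 5519)))) (.a (.f (nat_lit 463) (nat_lit 431) (nat_lit 4527) (.f (nat_lit 559) (nat_lit 432) (nat_lit 6575) (.f (nat_lit 558) (nat_lit 590) (nat_lit 5582) (.d (nat_lit 529) (nat_lit 530) (nat_lit 1550) (nat_lit 557) (nat_lit 2573))))) (.a (.p (nat_lit 496) (.a (.f (nat_lit 463) (nat_lit 431) (nat_lit 4527) (.f (nat_lit 465) (nat_lit 433) (nat_lit 6576) (.d (nat_lit 466) (nat_lit 467) (nat_lit 1487) (nat_lit 494) (nat_lit 1486)))) (.a (.f (nat_lit 432) (nat_lit 400) (nat_lit 5519) (.d (nat_lit 433) (nat_lit 401) (nat_lit 6544) (nat_lit 465) (nat_lit 6576))) (.f (nat_lit 432) (nat_lit 400) (nat_lit 5519) (.d (nat_lit 561) (nat_lit 529) (nat_lit 4528) (nat_lit 593) (nat_lit 4560)))))) (.a (.p (nat_lit 496) (.a (.f (nat_lit 432) (nat_lit 400) (nat_lit 5519) (.d (nat_lit 433) (nat_lit 401) (nat_lit 6544) (nat_lit 465) (nat_lit 6576))) (.a (.f (nat_lit 465) (nat_lit 433) (nat_lit 6576) (.f (nat_lit 494) (nat_lit 493) (nat_lit 2509) (.d (nat_lit 466) (nat_lit 467) (nat_lit 1487) (nat_lit 497) (nat_lit 2510)))) (.f (nat_lit 432) (nat_lit 400) (nat_lit 5519) (.d (nat_lit 561) (nat_lit 529) (nat_lit 4528) (nat_lit 593) (nat_lit 4560)))))) (.p (nat_lit 494) (.a (.f (nat_lit 463) (nat_lit 431) (nat_lit 4527) (.f (nat_lit 493) (nat_lit 492) (nat_lit 492) (.d (nat_lit 465) (nat_lit 462) (nat_lit 1485) (nat_lit 466) (nat_lit 1486)))) (.a (.f (nat_lit 493) (nat_lit 492) (nat_lit 492) (.d (nat_lit 496) (nat_lit 465) (nat_lit 2509) (nat_lit 529) (nat_lit 493))) (.a (.f (nat_lit 463) (nat_lit 431) (nat_lit 4527) (.f (nat_lit 465) (nat_lit 466) (nat_lit 1486) (.f (nat_lit 496) (nat_lit 433) (nat_lit 6576) (.f (nat_lit 529) (nat_lit 530) (nat_lit 3566) (.f (nat_lit 561) (nat_lit 593) (nat_lit 4560) (.f (nat_lit 562) (nat_lit 563) (nat_lit 3599) (.f (nat_lit 497) (nat_lit 594) (nat_lit 4561) (.d (nat_lit 462) (nat_lit 461) (nat_lit 461) (nat_lit 498) (nat_lit 3534))))))))) (.f (nat_lit 493) (nat_lit 492) (nat_lit 492) (.d (nat_lit 529) (nat_lit 496) (nat_lit 493) (nat_lit 530) (nat_lit 3566)))))))))))) (.p (nat_lit 496) (.a (.f (nat_lit 592) (nat_lit 624) (nat_lit 7663) (.f (nat_lit 465) (nat_lit 497) (nat_lit 6608) (.f (nat_lit 464) (nat_lit 433) (nat_lit 6576) (.d (nat_lit 432) (nat_lit 400) (nat_lit 5519) (nat_lit 559) (nat_lit 5551))))) (.a (.f (nat_lit 592) (nat_lit 624) (nat_lit 7663) (.f (nat_lit 465) (nat_lit 497) (nat_lit 6608) (.f (nat_lit 464) (nat_lit 433) (nat_lit 6576) (.d (nat_lit 593) (nat_lit 561) (nat_lit 4560) (nat_lit 625) (nat_lit 4592))))) (.a (.p (nat_lit 464) (.a (.f (nat_lit 432) (nat_lit 400) (nat_lit 5519) (.d (nat_lit 433) (nat_lit 401) (nat_lit 6544) (nat_lit 465) (nat_lit 6576))) (.a (.f (nat_lit 465) (nat_lit 433) (nat_lit 6576) (.f (nat_lit 494) (nat_lit 493) (nat_lit 2509) (.d (nat_lit 466) (nat_lit 467) (nat_lit 1487) (nat_lit 497) (nat_lit 2510)))) (.f (nat_lit 432) (nat_lit 400) (nat_lit 5519) (.d (nat_lit 561) (nat_lit 529) (nat_lit 4528) (nat_lit 593) (nat_lit 4560)))))) (.a (.p (nat_lit 494) (.a (.d (nat_lit 493) (nat_lit 492) (nat_lit 492) (nat_lit 529) (nat_lit 493)) (.a (.f (nat_lit 592) (nat_lit 624) (nat_lit 7663) (.f (nat_lit 497) (nat_lit 465) (nat_lit 6608) (.f (nat_lit 493) (nat_lit 492) (nat_lit 492) (.d (nat_lit 461) (nat_lit 460) (nat_lit 3532) (nat_lit 462) (nat_lit 3533))))) (.f (nat_lit 530) (nat_lit 529) (nat_lit 3566) (.f (nat_lit 592) (nat_lit 624) (nat_lit 7663) (.f (nat_lit 497) (nat_lit 465) (nat_lit 6608) (.f (nat_lit 498) (nat_lit 531) (nat_lit 495) (.f (nat_lit 466) (nat_lit 467) (nat_lit 2511) (.f (nat_lit 593) (nat_lit 625) (nat_lit 4592) (.f (nat_lit 562) (nat_lit 561) (nat_lit 5585) (.f (nat_lit 595) (nat_lit 563) (nat_lit 4562) (.d (nat_lit 594) (nat_lit 559) (nat_lit 3631) (nat_lit 627) (nat_lit 4594))))))))))))) (.f (nat_lit 592) (nat_lit 624) (nat_lit 7663) (.f (nat_lit 593) (nat_lit 625) (nat_lit 4592) (.f (nat_lit 464) (nat_lit 561) (nat_lit 4560) (.d (nat_lit 432) (nat_lit 400) (nat_lit 5519) (nat_lit 559) (nat_lit 5551)))))))))))))) (.a (.p (nat_lit 529) (.a (.p (nat_lit 495) (.a (.f (nat_lit 530) (nat_lit 494) (nat_lit 3566) (.d (nat_lit 531) (nat_lit 496) (nat_lit 3567) (nat_lit 559) (nat_lit 1551))) (.a (.f (nat_lit 530) (nat_lit 494) (nat_lit 3566) (.d (nat_lit 559) (nat_lit 531) (nat_lit 1551) (nat_lit 558) (nat_lit 1550))) (.f (nat_lit 592) (nat_lit 624) (nat_lit 7663) (.d (nat_lit 463) (nat_lit 431) (nat_lit 4527) (nat_lit 496) (nat_lit 7631)))))) (.a s28855 (.a (.p (nat_lit 592) (.a (.f (nat_lit 495) (nat_lit 624) (nat_lit 7663) (.d (nat_lit 463) (nat_lit 431) (nat_lit 4527) (nat_lit 496) (nat_lit 7631))) (.a (.f (nat_lit 624) (nat_lit 495) (nat_lit 7663) (.f (nat_lit 656) (nat_lit 561) (nat_lit 6672) (.d (nat_lit 655) (nat_lit 623) (nat_lit 5647) (nat_lit 687) (nat_lit 5679)))) (.a (.p (nat_lit 496) (.a (.f (nat_lit 593) (nat_lit 625) (nat_lit 4592) (.f (nat_lit 561) (nat_lit 464) (nat_lit 4560) (.f (nat_lit 562) (nat_lit 563) (nat_lit 3599) (.d (nat_lit 591) (nat_lit 590) (nat_lit 2606) (nat_lit 623) (nat_lit 5615))))) (.a (.f (nat_lit 623) (nat_lit 591) (nat_lit 5615) (.f (nat_lit 624) (nat_lit 655) (nat_lit 5647) (.d (nat_lit 625) (nat_lit 593) (nat_lit 4592) (nat_lit 657) (nat_lit 4624)))) (.a (.f (nat_lit 593) (nat_lit 625) (nat_lit 4592) (.f (nat_lit 464) (nat_lit 561) (nat_lit 4560) (.f (nat_lit 431) (nat_lit 463) (nat_lit 7599) (.f (nat_lit 432) (nat_lit 399) (nat_lit 7567) (.d (nat_lit 433) (nat_lit 401) (nat_lit 6544) (nat_lit 465) (nat_lit 6576)))))) (.a (.f (nat_lit 623) (nat_lit 591) (nat_lit 5615) (.f (nat_lit 624) (nat_lit 655) (nat_lit 5647) (.f (nat_lit 656) (nat_lit 561) (nat_lit 6672) (.d (nat_lit 657) (nat_lit 625) (nat_lit 4624) (nat_lit 689) (nat_lit 4656))))) (.f (nat_lit 623) (nat_lit 591) (nat_lit 5615) (.f (nat_lit 624) (nat_lit 655) (nat_lit 5647) (.f (nat_lit 561) (nat_lit 656) (nat_lit 6672) (.d (nat_lit 464) (nat_lit 432) (nat_lit 4528) (nat_lit 593) (nat_lit 4560)))))))))) (.p (nat_lit 496) (.a (.f (nat_lit 495) (nat_lit 463) (nat_lit 7631) (.d (nat_lit 494) (nat_lit 493) (nat_lit 493) (nat_lit 530) (nat_lit 3566))) (.f (nat_lit 593) (nat_lit 625) (nat_lit 4592) (.f (nat_lit 561) (nat_lit 464) (nat_lit 4560) (.f (nat_lit 562) (nat_lit 563) (nat_lit 3599) (.d (nat_lit 591) (nat_lit 590) (nat_lit 2606) (nat_lit 623) (nat_lit 5615))))))))))) (.a s28876 (.a (.p (nat_lit 496) (.a (.p (nat_lit 591) (.a (.d (nat_lit 559) (nat_lit 464) (nat_lit 5583) (nat_lit 623) (nat_lit 6639)) (.a (.f (nat_lit 592) (nat_lit 623) (nat_lit 5615) (.d (nat_lit 495) (nat_lit 463) (nat_lit 7631) (nat_lit 624) (nat_lit 7663))) (.f (nat_lit 464) (nat_lit 559) (nat_lit 5583) (.d (nat_lit 561) (nat_lit 432) (nat_lit 4528) (nat_lit 593) (nat_lit 4560)))))) (.a (.p (nat_lit 592) (.a (.f (nat_lit 593) (nat_lit 625) (nat_lit 4592) (.f (nat_lit 561) (nat_lit 464) (nat_lit 4560) (.f (nat_lit 562) (nat_lit 563) (nat_lit 3599) (.d (nat_lit 591) (nat_lit 590) (nat_lit 2606) (nat_lit 623) (nat_lit 5615))))) (.a (.f (nat_lit 623) (nat_lit 591) (nat_lit 5615) (.f (nat_lit 624) (nat_lit 655) (nat_lit 5647) (.d (nat_lit 625) (nat_lit 593) (nat_lit 4592) (nat_lit 657) (nat_lit 4624)))) (.a (.f (nat_lit 593) (nat_lit 625) (nat_lit 4592) (.f (nat_lit 464) (nat_lit 561) (nat_lit 4560) (.f (nat_lit 431) (nat_lit 463) (nat_lit 7599) (.f (nat_lit 432) (nat_lit 399) (nat_lit 7567) (.d (nat_lit 433) (nat_lit 401) (nat_lit 6544) (nat_lit 465) (nat_lit 6576)))))) (.a (.f (nat_lit 623) (nat_lit 591) (nat_lit 5615) (.f (nat_lit 624) (nat_lit 655) (nat_lit 5647) (.f (nat_lit 656) (nat_lit 561) (nat_lit 6672) (.d (nat_lit 657) (nat_lit 625) (nat_lit 4624) (nat_lit 689) (nat_lit 4656))))) (.f (nat_lit 623) (nat_lit 591) (nat_lit 5615) (.f (nat_lit 624) (nat_lit 655) (nat_lit 5647) (.f (nat_lit 561) (nat_lit 656) (nat_lit 6672) (.d (nat_lit 464) (nat_lit 432) (nat_lit 4528) (nat_lit 593) (nat_lit 4560)))))))))) (.a (.p (nat_lit 464) (.a (.d (nat_lit 561) (nat_lit 432) (nat_lit 4528) (nat_lit 593) (nat_lit 4560)) (.a (.f (nat_lit 433) (nat_lit 465) (nat_lit 6576) (.f (nat_lit 432) (nat_lit 401) (nat_lit 6544) (.d (nat_lit 431) (nat_lit 399) (nat_lit 7567) (nat_lit 463) (nat_lit 7599)))) (.f (nat_lit 559) (nat_lit 591) (nat_lit 5583) (.f (nat_lit 561) (nat_lit 593) (nat_lit 4560) (.f (nat_lit 558) (nat_lit 557) (nat_lit 2573) (.f (nat_lit 463) (nat_lit 431) (nat_lit 7599) (.d (nat_lit 590) (nat_lit 495) (nat_lit 5582) (nat_lit 589) (nat_lit 1581))))))))) (.a (.p (nat_lit 591) (.a (.d (nat_lit 559) (nat_lit 464) (nat_lit 5583) (nat_lit 623) (nat_lit 6639)) (.a (.f (nat_lit 592) (nat_lit 623) (nat_lit 5615) (.d (nat_lit 495) (nat_lit 463) (nat_lit 7631) (nat_lit 624) (nat_lit 7663))) (.f (nat_lit 464) (nat_lit 559) (nat_lit 5583) (.f (nat_lit 431) (nat_lit 463) (nat_lit 7599) (.f (nat_lit 432) (nat_lit 399) (nat_lit 7567) (.d (nat_lit 433) (nat_lit 401) (nat_lit 6544) (nat_lit 465) (nat_lit 6576)))))))) (.a (.p (nat_lit 592) (.a (.d (nat_lit 495) (nat_lit 463) (nat_lit 7631) (nat_lit 624) (nat_lit 7663)) (.a (.f (nat_lit 623) (nat_lit 591) (nat_lit 5615) (.f (nat_lit 624) (nat_lit 655) (nat_lit 5647) (.d (nat_lit 625) (nat_lit 593) (nat_lit 4592) (nat_lit 657) (nat_lit 4624)))) (.f (nat_lit 495) (nat_lit 463) (nat_lit 7631) (.f (nat_lit 591) (nat_lit 623) (nat_lit 5615) (.f (nat_lit 593) (nat_lit 625) (nat_lit 4592) (.f (nat_lit 494) (nat_lit 493) (nat_lit 493) (.f (nat_lit 559) (nat_lit 462) (nat_lit 7630) (.d (nat_lit 558) (nat_lit 557) (nat_lit 557) (nat_lit 594) (nat_lit 3630)))))))))) (.a (.p (nat_lit 591) (.a (.d (nat_lit 559) (nat_lit 464) (nat_lit 5583) (nat_lit 623) (nat_lit 6639)) (.a (.f (nat_lit 592) (nat_lit 623) (nat_lit 5615) (.f (nat_lit 593) (nat_lit 625) (nat_lit 4592) (.f (nat_lit 561) (nat_lit 464) (nat_lit 4560) (.d (nat_lit 562) (nat_lit 563) (nat_lit 1583) (nat_lit 590) (nat_lit 2606))))) (.a (.d (nat_lit 623) (nat_lit 559) (nat_lit 6639) (nat_lit 592) (nat_lit 5615)) (.f (nat_lit 464) (nat_lit 559) (nat_lit 5583) (.d (nat_lit 561) (nat_lit 432) (nat_lit 4528) (nat_lit 593) (nat_lit 4560))))))) (.p (nat_lit 464) (.a (.d (nat_lit 561) (nat_lit 432) (nat_lit 4528) (nat_lit 593) (nat_lit 4560)) (.a (.f (nat_lit 433) (nat_lit 465) (nat_lit 6576) (.f (nat_lit 432) (nat_lit 401) (nat_lit 6544) (.d (nat_lit 431) (nat_lit 399) (nat_lit 7567) (nat_lit 463) (nat_lit 7599)))) (.f (nat_lit 463) (nat_lit 431) (nat_lit 7599) (.f (nat_lit 495) (nat_lit 592) (nat_lit 7631) (.f (nat_lit 494) (nat_lit 493) (nat_lit 493) (.d (nat_lit 465) (nat_lit 433) (nat_lit 6576) (nat_lit 466) (nat_lit 1486))))))))))))))) (.p (nat_lit 530) (.a (.d (nat_lit 559) (nat_lit 531) (nat_lit 1551) (nat_lit 558) (nat_lit 1550)) (.a (.f (nat_lit 495) (nat_lit 494) (nat_lit 3566) (.f (nat_lit 531) (nat_lit 496) (nat_lit 3567) (.d (nat_lit 563) (nat_lit 562) (nat_lit 527) (nat_lit 564) (nat_lit 528)))) (.f (nat_lit 559) (nat_lit 558) (nat_lit 1550) (.f (nat_lit 495) (nat_lit 494) (nat_lit 3566) (.f (nat_lit 463) (nat_lit 431) (nat_lit 4527) (.f (nat_lit 464) (nat_lit 432) (nat_lit 6575) (.f (nat_lit 591) (nat_lit 496) (nat_lit 5583) (.f (nat_lit 562) (nat_lit 563) (nat_lit 527) (.d (nat_lit 590) (nat_lit 561) (nat_lit 1582) (nat_lit 622) (nat_lit 5614))))))))))))))))) (.a (.p (nat_lit 529) (.a s28385 (.a s28912 (.a (.p (nat_lit 497) (.a (.f (nat_lit 592) (nat_lit 624) (nat_lit 6640) (.d (nat_lit 465) (nat_lit 433) (nat_lit 5552) (nat_lit 561) (nat_lit 5584))) (.a (.p (nat_lit 530) (.a (.f (nat_lit 562) (nat_lit 563) (nat_lit 527) (.f (nat_lit 465) (nat_lit 433) (nat_lit 5552) (.d (nat_lit 594) (nat_lit 498) (nat_lit 7633) (nat_lit 561) (nat_lit 4561)))) (.a (.f (nat_lit 562) (nat_lit 563) (nat_lit 527) (.f (nat_lit 465) (nat_lit 433) (nat_lit 5552) (.d (nat_lit 594) (nat_lit 498) (nat_lit 7633) (nat_lit 626) (nat_lit 7665)))) (.d (nat_lit 559) (nat_lit 531) (nat_lit 1551) (nat_lit 558) (nat_lit 1550))))) (.a (.f (nat_lit 592) (nat_lit 624) (nat_lit 6640) (.d (nat_lit 465) (nat_lit 433) (nat_lit 5552) (nat_lit 496) (nat_lit 6608))) (.p (nat_lit 530) (.a (.f (nat_lit 563) (nat_lit 562) (nat_lit 527) (.f (nat_lit 531) (nat_lit 564) (nat_lit 528) (.f (nat_lit 532) (nat_lit 561) (nat_lit 1552) (.f (nat_lit 533) (nat_lit 498) (nat_lit 3569) (.d (nat_lit 501) (nat_lit 500) (nat_lit 2545) (nat_lit 502) (nat_lit 2546)))))) (.a (.d (nat_lit 559) (nat_lit 531) (nat_lit 1551) (nat_lit 558) (nat_lit 1550)) (.f (nat_lit 559) (nat_lit 558) (nat_lit 1550) (.f (nat_lit 562) (nat_lit 563) (nat_lit 527) (.f (nat_lit 594) (nat_lit 626) (nat_lit 7665) (.f (nat_lit 592) (nat_lit 624) (nat_lit 6640) (.d (nat_lit 595) (nat_lit 561) (nat_lit 559) (nat_lit 593) (nat_lit 3631))))))))))))) (.a s28413 (.a s28419 (.p (nat_lit 495) (.a (.f (nat_lit 530) (nat_lit 494) (nat_lit 3566) (.d (nat_lit 531) (nat_lit 496) (nat_lit 3567) (nat_lit 559) (nat_lit 1551))) (.a (.f (nat_lit 530) (nat_lit 494) (nat_lit 3566) (.d (nat_lit 559) (nat_lit 531) (nat_lit 1551) (nat_lit 558) (nat_lit 1550))) (.f (nat_lit 592) (nat_lit 624) (nat_lit 7663) (.d (nat_lit 463) (nat_lit 431) (nat_lit 4527) (nat_lit 496) (nat_lit 7631)))))))))))) (.a (.p (nat_lit 529) (.a s28419 (.a s28912 (.a (.p (nat_lit 495) (.a s28909 (.a (.f (nat_lit 592) (nat_lit 624) (nat_lit 7663) (.d (nat_lit 463) (nat_lit 431) (nat_lit 4527) (nat_lit 496) (nat_lit 7631))) (.f (nat_lit 530) (nat_lit 494) (nat_lit 3566) (.f (nat_lit 531) (nat_lit 496) (nat_lit 3567) (.d (nat_lit 563) (nat_lit 562) (nat_lit 527) (nat_lit 564) (nat_lit 528))))))) (.a (.p (nat_lit 496) (.a (.p (nat_lit 559) (.a (.d (nat_lit 464) (nat_lit 432) (nat_lit 5551) (nat_lit 591) (nat_lit 5583)) (.d (nat_lit 530) (nat_lit 531) (nat_lit 1551) (nat_lit 558) (nat_lit 1550)))) (.a s28933 s28940))) (.a (.p (nat_lit 496) (.a (.p (nat_lit 591) (.a (.f (nat_lit 592) (nat_lit 623) (nat_lit 5615) (.d (nat_lit 497) (nat_lit 465) (nat_lit 6608) (nat_lit 624) (nat_lit 6640))) (.a (.d (nat_lit 559) (nat_lit 464) (nat_lit 5583) (nat_lit 623) (nat_lit 6639)) (.f (nat_lit 464) (nat_lit 559) (nat_lit 5583) (.f (nat_lit 465) (nat_lit 433) (nat_lit 6576) (.f (nat_lit 463) (nat_lit 431) (nat_lit 7599) (.d (nat_lit 592) (nat_lit 495) (nat_lit 7631) (nat_lit 497) (nat_lit 6608)))))))) (.a s28933 (.a (.p (nat_lit 464) (.a (.f (nat_lit 433) (nat_lit 465) (nat_lit 6576) (.f (nat_lit 432) (nat_lit 401) (nat_lit 6544) (.d (nat_lit 431) (nat_lit 399) (nat_lit 7567) (nat_lit 463) (nat_lit 7599)))) (.a (.f (nat_lit 433) (nat_lit 465) (nat_lit 6576) (.f (nat_lit 432) (nat_lit 401) (nat_lit 6544) (.d (nat_lit 400) (nat_lit 495) (nat_lit 5519) (nat_lit 497) (nat_lit 4496)))) (.a (.f (nat_lit 559) (nat_lit 591) (nat_lit 5583) (.f (nat_lit 463) (nat_lit 431) (nat_lit 7599) (.f (nat_lit 465) (nat_lit 433) (nat_lit 6576) (.f (nat_lit 558) (nat_lit 557) (nat_lit 2573) (.f (nat_lit 495) (nat_lit 590) (nat_lit 5582) (.d (nat_lit 466) (nat_lit 467) (nat_lit 1487) (nat_lit 494) (nat_lit 1486))))))) (.f (nat_lit 432) (nat_lit 561) (nat_lit 4528) (.d (nat_lit 431) (nat_lit 399) (nat_lit 7567) (nat_lit 463) (nat_lit 7599))))))) (.a (.p (nat_lit 592) (.a (.d (nat_lit 495) (nat_lit 463) (nat_lit 7631) (nat_lit 624) (nat_lit 7663)) (.a (.d (nat_lit 497) (nat_lit 465) (nat_lit 6608) (nat_lit 624) (nat_lit 6640)) (.f (nat_lit 495) (nat_lit 463) (nat_lit 7631) (.f (nat_lit 497) (nat_lit 465) (nat_lit 6608) (.f (nat_lit 494) (nat_lit 493) (nat_lit 493) (.f (nat_lit 591) (nat_lit 623) (nat_lit 5615) (.d (nat_lit 462) (nat_lit 461) (nat_lit 3533) (nat_lit 559) (nat_lit 7630))))))))) (.a (.p (nat_lit 591) (.a (.f (nat_lit 592) (nat_lit 623) (nat_lit 5615) (.d (nat_lit 497) (nat_lit 465) (nat_lit 6608) (nat_lit 624) (nat_lit 6640))) (.a (.d (nat_lit 559) (nat_lit 464) (nat_lit 5583) (nat_lit 623) (nat_lit 6639)) (.f (nat_lit 464) (nat_lit 559) (nat_lit 5583) (.f (nat_lit 432) (nat_lit 561) (nat_lit 4528) (.d (nat_lit 400) (nat_lit 495) (nat_lit 5519) (nat_lit 497) (nat_lit 4496))))))) (.a (.p (nat_lit 591) (.a (.d (nat_lit 559) (nat_lit 464) (nat_lit 5583) (nat_lit 623) (nat_lit 6639)) (.a (.f (nat_lit 592) (nat_lit 623) (nat_lit 5615) (.d (nat_lit 495) (nat_lit 463) (nat_lit 7631) (nat_lit 624) (nat_lit 7663))) (.f (nat_lit 464) (nat_lit 559) (nat_lit 5583) (.f (nat_lit 431) (nat_lit 463) (nat_lit 7599) (.f (nat_lit 432) (nat_lit 399) (nat_lit 7567) (.d (nat_lit 433) (nat_lit 401) (nat_lit 6544) (nat_lit 465) (nat_lit 6576)))))))) (.p (nat_lit 591) (.a (.d (nat_lit 559) (nat_lit 464) (nat_lit 5583) (nat_lit 623) (nat_lit 6639)) (.a (.f (nat_lit 592) (nat_lit 623) (nat_lit 5615) (.d (nat_lit 495) (nat_lit 463) (nat_lit 7631) (nat_lit 624) (nat_lit 7663))) (.f (nat_lit 464) (nat_lit 559) (nat_lit 5583) (.f (nat_lit 432) (nat_lit 561) (nat_lit 4528) (.d (nat_lit 400) (nat_lit 495) (nat_lit 5519) (nat_lit 497) (nat_lit 4496)))))))))))))) (.a (.p (nat_lit 496) (.a (.p (nat_lit 495) (.a (.d (nat_lit 494) (nat_lit 493) (nat_lit 493) (nat_lit 530) (nat_lit 3566)) (.f (nat_lit 592) (nat_lit 624) (nat_lit 7663) (.f (nat_lit 465) (nat_lit 497) (nat_lit 6608) (.f (nat_lit 464) (nat_lit 433) (nat_lit 6576) (.d (nat_lit 432) (nat_lit 400) (nat_lit 5519) (nat_lit 561) (nat_lit 4528))))))) (.a (.p (nat_lit 559) (.a (.d (nat_lit 464) (nat_lit 432) (nat_lit 5551) (nat_lit 591) (nat_lit 5583)) (.d (nat_lit 530) (nat_lit 531) (nat_lit 1551) (nat_lit 558) (nat_lit 1550)))) (.a (.p (nat_lit 591) (.a (.f (nat_lit 592) (nat_lit 623) (nat_lit 5615) (.d (nat_lit 497) (nat_lit 465) (nat_lit 6608) (nat_lit 624) (nat_lit 6640))) (.a (.d (nat_lit 559) (nat_lit 464) (nat_lit 5583) (nat_lit 623) (nat_lit 6639)) (.f (nat_lit 464) (nat_lit 559) (nat_lit 5583) (.f (nat_lit 432) (nat_lit 561) (nat_lit 4528) (.d (nat_lit 400) (nat_lit 495) (nat_lit 5519) (nat_lit 497) (nat_lit 4496))))))) s28940)))) (.p (nat_lit 495) (.a (.f (nat_lit 530) (nat_lit 494) (nat_lit 3566) (.d (nat_lit 531) (nat_lit 496) (nat_lit 3567) (nat_lit 559) (nat_lit 1551))) (.a (.f (nat_lit 530) (nat_lit 494) (nat_lit 3566) (.d (nat_lit 559) (nat_lit 531) (nat_lit 1551) (nat_lit 558) (nat_lit 1550))) (.f (nat_lit 592) (nat_lit 624) (nat_lit 7663) (.d (nat_lit 463) (nat_lit 431) (nat_lit 4527) (nat_lit 496) (nat_lit 7631))))))))))))) (.a (.p (nat_lit 529) (.a s28419 (.a s28855 (.a (.p (nat_lit 592) (.a (.f (nat_lit 624) (nat_lit 497) (nat_lit 6640) (.f (nat_lit 561) (nat_lit 656) (nat_lit 6672) (.f (nat_lit 625) (nat_lit 657) (nat_lit 4624) (.f (nat_lit 593) (nat_lit 496) (nat_lit 4592) (.f (nat_lit 562) (nat_lit 563) (nat_lit 3599) (.f (nat_lit 626) (nat_lit 658) (nat_lit 4625) (.d (nat_lit 591) (nat_lit 590) (nat_lit 2606) (nat_lit 627) (nat_lit 3663)))))))) (.a (.f (nat_lit 624) (nat_lit 497) (nat_lit 6640) (.f (nat_lit 656) (nat_lit 561) (nat_lit 6672) (.d (nat_lit 655) (nat_lit 623) (nat_lit 5647) (nat_lit 687) (nat_lit 5679)))) (.a (.f (nat_lit 624) (nat_lit 497) (nat_lit 6640) (.f (nat_lit 623) (nat_lit 655) (nat_lit 5647) (.f (nat_lit 625) (nat_lit 657) (nat_lit 4624) (.d (nat_lit 496) (nat_lit 591) (nat_lit 5615) (nat_lit 593) (nat_lit 4592))))) (.p (nat_lit 496) (.a (.f (nat_lit 495) (nat_lit 463) (nat_lit 7631) (.d (nat_lit 494) (nat_lit 493) (nat_lit 493) (nat_lit 530) (nat_lit 3566))) (.f (nat_lit 593) (nat_lit 625) (nat_lit 4592) (.f (nat_lit 561) (nat_lit 464) (nat_lit 4560) (.f (nat_lit 562) (nat_lit 563) (nat_lit 3599) (.d (nat_lit 591) (nat_lit 590) (nat_lit 2606) (nat_lit 623) (nat_lit 5615))))))))))) (.a s28876 (.a (.p (nat_lit 496) (.a (.p (nat_lit 591) (.a (.d (nat_lit 559) (nat_lit 464) (nat_lit 5583) (nat_lit 623) (nat_lit 6639)) (.a (.f (nat_lit 592) (nat_lit 623) (nat_lit 5615) (.d (nat_lit 495) (nat_lit 463) (nat_lit 7631) (nat_lit 624) (nat_lit 7663))) (.f (nat_lit 464) (nat_lit 559) (nat_lit 5583) (.d (nat_lit 561) (nat_lit 432) (nat_lit 4528) (nat_lit 593) (nat_lit 4560)))))) (.a (.p (nat_lit 464) (.a (.d (nat_lit 561) (nat_lit 432) (nat_lit 4528) (nat_lit 593) (nat_lit 4560)) (.a (.f (nat_lit 431) (nat_lit 463) (nat_lit 7599) (.f (nat_lit 432) (nat_lit 399) (nat_lit 7567) (.f (nat_lit 400) (nat_lit 497) (nat_lit 4496) (.d (nat_lit 401) (nat_lit 369) (nat_lit 6512) (nat_lit 433) (nat_lit 6544))))) (.f (nat_lit 593) (nat_lit 561) (nat_lit 4560) (.f (nat_lit 592) (nat_lit 625) (nat_lit 4592) (.f (nat_lit 623) (nat_lit 591) (nat_lit 5615) (.d (nat_lit 624) (nat_lit 497) (nat_lit 6640) (nat_lit 655) (nat_lit 5647)))))))) (.a (.p (nat_lit 464) (.a (.d (nat_lit 561) (nat_lit 432) (nat_lit 4528) (nat_lit 593) (nat_lit 4560)) (.a (.f (nat_lit 431) (nat_lit 463) (nat_lit 7599) (.f (nat_lit 432) (nat_lit 399) (nat_lit 7567) (.f (nat_lit 400) (nat_lit 497) (nat_lit 4496) (.d (nat_lit 401) (nat_lit 369) (nat_lit 6512) (nat_lit 433) (nat_lit 6544))))) (.f (nat_lit 559) (nat_lit 591) (nat_lit 5583) (.f (nat_lit 561) (nat_lit 593) (nat_lit 4560) (.f (nat_lit 558) (nat_lit 557) (nat_lit 2573) (.f (nat_lit 463) (nat_lit 431) (nat_lit 7599) (.d (nat_lit 590) (nat_lit 495) (nat_lit 5582) (nat_lit 589) (nat_lit 1581))))))))) (.a (.p (nat_lit 592) (.a (.d (nat_lit 495) (nat_lit 463) (nat_lit 7631) (nat_lit 624) (nat_lit 7663)) (.a (.f (nat_lit 623) (nat_lit 591) (nat_lit 5615) (.f (nat_lit 624) (nat_lit 655) (nat_lit 5647) (.d (nat_lit 625) (nat_lit 593) (nat_lit 4592) (nat_lit 657) (nat_lit 4624)))) (.f (nat_lit 495) (nat_lit 463) (nat_lit 7631) (.f (nat_lit 591) (nat_lit 623) (nat_lit 5615) (.f (nat_lit 593) (nat_lit 625) (nat_lit 4592) (.f (nat_lit 494) (nat_lit 493) (nat_lit 493) (.f (nat_lit 559) (nat_lit 462) (nat_lit 7630) (.d (nat_lit 558) (nat_lit 557) (nat_lit 557) (nat_lit 594) (nat_lit 3630)))))))))) (.a (.p (nat_lit 591) (.a (.d (nat_lit 559) (nat_lit 464) (nat_lit 5583) (nat_lit 623) (nat_lit 6639)) (.a (.f (nat_lit 592) (nat_lit 623) (nat_lit 5615) (.f (nat_lit 593) (nat_lit 625) (nat_lit 4592) (.f (nat_lit 561) (nat_lit 464) (nat_lit 4560) (.d (nat_lit 562) (nat_lit 563) (nat_lit 1583) (nat_lit 590) (nat_lit 2606))))) (.a (.d (nat_lit 623) (nat_lit 559) (nat_lit 6639) (nat_lit 592) (nat_lit 5615)) (.f (nat_lit 464) (nat_lit 559) (nat_lit 5583) (.d (nat_lit 561) (nat_lit 432) (nat_lit 4528) (nat_lit 593) (nat_lit 4560))))))) (.a (.p (nat_lit 464) (.a (.d (nat_lit 561) (nat_lit 432) (nat_lit 4528) (nat_lit 593) (nat_lit 4560)) (.a (.f (nat_lit 431) (nat_lit 463) (nat_lit 7599) (.f (nat_lit 432) (nat_lit 399) (nat_lit 7567) (.f (nat_lit 400) (nat_lit 497) (nat_lit 4496) (.d (nat_lit 401) (nat_lit 369) (nat_lit 6512) (nat_lit 433) (nat_lit 6544))))) (.f (nat_lit 561) (nat_lit 593) (nat_lit 4560) (.f (nat_lit 463) (nat_lit 431) (nat_lit 7599) (.f (nat_lit 592) (nat_lit 495) (nat_lit 7631) (.d (nat_lit 624) (nat_lit 497) (nat_lit 6640) (nat_lit 656) (nat_lit 6672)))))))) (.p (nat_lit 591) (.a (.d (nat_lit 559) (nat_lit 464) (nat_lit 5583) (nat_lit 623) (nat_lit 6639)) (.a (.f (nat_lit 592) (nat_lit 623) (nat_lit 5615) (.d (nat_lit 495) (nat_lit 463) (nat_lit 7631) (nat_lit 624) (nat_lit 7663))) (.f (nat_lit 464) (nat_lit 559) (nat_lit 5583) (.f (nat_lit 432) (nat_lit 561) (nat_lit 4528) (.d (nat_lit 400) (nat_lit 495) (nat_lit 5519) (nat_lit 497) (nat_lit 4496)))))))))))))) (.p (nat_lit 495) (.a (.f (nat_lit 530) (nat_lit 494) (nat_lit 3566) (.d (nat_lit 531) (nat_lit 496) (nat_lit 3567) (nat_lit 559) (nat_lit 1551))) (.a (.f (nat_lit 530) (nat_lit 494) (nat_lit 3566) (.d (nat_lit 559) (nat_lit 531) (nat_lit 1551) (nat_lit 558) (nat_lit 1550))) (.f (nat_lit 592) (nat_lit 624) (nat_lit 7663) (.d (nat_lit 463) (nat_lit 431) (nat_lit 4527) (nat_lit 496) (nat_lit 7631)))))))))))) (.p (nat_lit 496) (.a (.p (nat_lit 464) (.a (.f (nat_lit 463) (nat_lit 431) (nat_lit 7599) (.f (nat_lit 495) (nat_lit 592) (nat_lit 7631) (.f (nat_lit 465) (nat_lit 433) (nat_lit 6576) (.d (nat_lit 466) (nat_lit 467) (nat_lit 1487) (nat_lit 494) (nat_lit 1486))))) (.a (.f (nat_lit 561) (nat_lit 593) (nat_lit 4560) (.f (nat_lit 432) (nat_lit 529) (nat_lit 4528) (.d (nat_lit 431) (nat_lit 399) (nat_lit 7567) (nat_lit 463) (nat_lit 7599)))) (.f (nat_lit 561) (nat_lit 593) (nat_lit 4560) (.f (nat_lit 432) (nat_lit 529) (nat_lit 4528) (.d (nat_lit 433) (nat_lit 401) (nat_lit 6544) (nat_lit 465) (nat_lit 6576))))))) (.a s27460 (.a s28761 (.a (.p (nat_lit 464) (.a (.f (nat_lit 561) (nat_lit 593) (nat_lit 4560) (.f (nat_lit 432) (nat_lit 529) (nat_lit 4528) (.d (nat_lit 431) (nat_lit 399) (nat_lit 7567) (nat_lit 463) (nat_lit 7599)))) (.a (.f (nat_lit 433) (nat_lit 465) (nat_lit 6576) (.f (nat_lit 432) (nat_lit 401) (nat_lit 6544) (.d (nat_lit 431) (nat_lit 399) (nat_lit 7567) (nat_lit 463) (nat_lit 7599)))) (.a (.f (nat_lit 561) (nat_lit 593) (nat_lit 4560) (.f (nat_lit 432) (nat_lit 529) (nat_lit 4528) (.d (nat_lit 433) (nat_lit 401) (nat_lit 6544) (nat_lit 465) (nat_lit 6576)))) (.f (nat_lit 559) (nat_lit 591) (nat_lit 5583) (.f (nat_lit 561) (nat_lit 593) (nat_lit 4560) (.f (nat_lit 562) (nat_lit 563) (nat_lit 3599) (.f (nat_lit 530) (nat_lit 531) (nat_lit 2575) (.f (nat_lit 558) (nat_lit 529) (nat_lit 1550) (.f (nat_lit 557) (nat_lit 556) (nat_lit 2572) (.d (nat_lit 589) (nat_lit 588) (nat_lit 1580) (nat_lit 590) (nat_lit 1581)))))))))))) (.a (.p (nat_lit 591) (.a (.d (nat_lit 559) (nat_lit 464) (nat_lit 5583) (nat_lit 623) (nat_lit 6639)) (.a (.f (nat_lit 592) (nat_lit 623) (nat_lit 5615) (.f (nat_lit 625) (nat_lit 593) (nat_lit 4592) (.f (nat_lit 624) (nat_lit 657) (nat_lit 4624) (.d (nat_lit 497) (nat_lit 465) (nat_lit 6608) (nat_lit 529) (nat_lit 6640))))) (.f (nat_lit 464) (nat_lit 559) (nat_lit 5583) (.f (nat_lit 433) (nat_lit 465) (nat_lit 6576) (.f (nat_lit 432) (nat_lit 401) (nat_lit 6544) (.d (nat_lit 431) (nat_lit 399) (nat_lit 7567) (nat_lit 463) (nat_lit 7599)))))))) (.a (.p (nat_lit 495) (.a (.d (nat_lit 463) (nat_lit 431) (nat_lit 4527) (nat_lit 592) (nat_lit 7631)) (.a s28731 (.p (nat_lit 529) (.a (.d (nat_lit 494) (nat_lit 493) (nat_lit 493) (nat_lit 530) (nat_lit 3566)) (.a (.f (nat_lit 592) (nat_lit 624) (nat_lit 7663) (.f (nat_lit 494) (nat_lit 493) (nat_lit 493) (.f (nat_lit 497) (nat_lit 465) (nat_lit 6608) (.f (nat_lit 591) (nat_lit 623) (nat_lit 5615) (.d (nat_lit 462) (nat_lit 461) (nat_lit 3533) (nat_lit 559) (nat_lit 7630)))))) (.f (nat_lit 592) (nat_lit 624) (nat_lit 7663) (.f (nat_lit 530) (nat_lit 531) (nat_lit 3567) (.f (nat_lit 559) (nat_lit 558) (nat_lit 1550) (.f (nat_lit 591) (nat_lit 623) (nat_lit 5615) (.f (nat_lit 590) (nat_lit 622) (nat_lit 5614) (.d (nat_lit 561) (nat_lit 562) (nat_lit 1582) (nat_lit 589) (nat_lit 2605))))))))))))) (.a (.p (nat_lit 591) (.a (.d (nat_lit 559) (nat_lit 464) (nat_lit 5583) (nat_lit 623) (nat_lit 6639)) (.a (.f (nat_lit 592) (nat_lit 623) (nat_lit 5615) (.f (nat_lit 625) (nat_lit 593) (nat_lit 4592) (.f (nat_lit 624) (nat_lit 657) (nat_lit 4624) (.d (nat_lit 497) (nat_lit 465) (nat_lit 6608) (nat_lit 529) (nat_lit 6640))))) (.f (nat_lit 464) (nat_lit 559) (nat_lit 5583) (.f (nat_lit 465) (nat_lit 433) (nat_lit 6576) (.f (nat_lit 592) (nat_lit 497) (nat_lit 6608) (.f (nat_lit 624) (nat_lit 495) (nat_lit 7663) (.d (nat_lit 625) (nat_lit 593) (nat_lit 4592) (nat_lit 657) (nat_lit 4624))))))))) (.p (nat_lit 591) (.a (.f (nat_lit 592) (nat_lit 623) (nat_lit 5615) (.d (nat_lit 495) (nat_lit 463) (nat_lit 7631) (nat_lit 624) (nat_lit 7663))) (.a (.d (nat_lit 559) (nat_lit 464) (nat_lit 5583) (nat_lit 623) (nat_lit 6639)) (.f (nat_lit 464) (nat_lit 559) (nat_lit 5583) (.f (nat_lit 431) (nat_lit 463) (nat_lit 7599) (.f (nat_lit 432) (nat_lit 399) (nat_lit 7567) (.f (nat_lit 400) (nat_lit 495) (nat_lit 5519) (.d (nat_lit 401) (nat_lit 369) (nat_lit 6512) (nat_lit 433) (nat_lit 6544))))))))))))))))))))))))))))))))))) (.a (.p (nat_lit 526) (.a (.p (nat_lit 529) (.a (.f (nat_lit 561) (nat_lit 562) (nat_lit 526) (.f (nat_lit 497) (nat_lit 498) (nat_lit 2542) (.d (nat_lit 525) (nat_lit 496) (nat_lit 2541) (nat_lit 560) (nat_lit 525)))) (.a (.f (nat_lit 493) (nat_lit 494) (nat_lit 3565) (.f (nat_lit 525) (nat_lit 492) (nat_lit 3564) (.d (nat_lit 557) (nat_lit 556) (nat_lit 1548) (nat_lit 558) (nat_lit 1549)))) (.f (nat_lit 494) (nat_lit 493) (nat_lit 3565) (.f (nat_lit 495) (nat_lit 530) (nat_lit 3566) (.f (nat_lit 558) (nat_lit 557) (nat_lit 1549) (.d (nat_lit 463) (nat_lit 431) (nat_lit 5550) (nat_lit 590) (nat_lit 6606)))))))) (.a s28115 (.a s28255 (.a s28971 (.a s28972 (.a s28987 (.a s28988 (.a (.p (nat_lit 529) (.a (.f (nat_lit 561) (nat_lit 562) (nat_lit 526) (.f (nat_lit 497) (nat_lit 498) (nat_lit 2542) (.d (nat_lit 525) (nat_lit 496) (nat_lit 2541) (nat_lit 560) (nat_lit 525)))) (.a (.f (nat_lit 494) (nat_lit 493) (nat_lit 3565) (.f (nat_lit 530) (nat_lit 495) (nat_lit 3566) (.d (nat_lit 562) (nat_lit 561) (nat_lit 526) (nat_lit 563) (nat_lit 527)))) (.f (nat_lit 493) (nat_lit 494) (nat_lit 3565) (.f (nat_lit 525) (nat_lit 492) (nat_lit 3564) (.d (nat_lit 497) (nat_lit 496) (nat_lit 2541) (nat_lit 498) (nat_lit 2542))))))) s28992))))))))) (.a (.p (nat_lit 559) (.a (.p (nat_lit 495) (.a (.p (nat_lit 591) (.a (.d (nat_lit 496) (nat_lit 464) (nat_lit 6607) (nat_lit 623) (nat_lit 6639)) (.f (nat_lit 592) (nat_lit 624) (nat_lit 4591) (.f (nat_lit 463) (nat_lit 560) (nat_lit 4559) (.d (nat_lit 462) (nat_lit 430) (nat_lit 7598) (nat_lit 494) (nat_lit 7630)))))) (.a s29001 (.a s29002 (.a (.p (nat_lit 591) (.a (.d (nat_lit 496) (nat_lit 464) (nat_lit 6607) (nat_lit 623) (nat_lit 6639)) (.f (nat_lit 592) (nat_lit 624) (nat_lit 4591) (.f (nat_lit 560) (nat_lit 463) (nat_lit 4559) (.f (nat_lit 590) (nat_lit 622) (nat_lit 5614) (.d (nat_lit 561) (nat_lit 562) (nat_lit 1582) (nat_lit 589) (nat_lit 2605))))))) (.a s2312 s26489)))))) (.a (.p (nat_lit 526) (.a s28044 (.a s28127 (.a s28137 (.a s28147 (.a s28149 (.a s28154 (.a s28150 (.a s28156 (.a s28164 (.a s28176 s28177))))))))))) (.a (.p (nat_lit 591) (.a (.f (nat_lit 623) (nat_lit 496) (nat_lit 6639) (.f (nat_lit 526) (nat_lit 494) (nat_lit 7662) (.f (nat_lit 558) (nat_lit 655) (nat_lit 7694) (.f (nat_lit 622) (nat_lit 654) (nat_lit 5646) (.f (nat_lit 590) (nat_lit 495) (nat_lit 5614) (.f (nat_lit 557) (nat_lit 556) (nat_lit 2572) (.f (nat_lit 621) (nat_lit 653) (nat_lit 5645) (.d (nat_lit 592) (nat_lit 593) (nat_lit 3629) (nat_lit 620) (nat_lit 2636))))))))) (.a (.p (nat_lit 495) (.a (.f (nat_lit 494) (nat_lit 462) (nat_lit 7630) (.f (nat_lit 526) (nat_lit 623) (nat_lit 7662) (.f (nat_lit 590) (nat_lit 622) (nat_lit 5614) (.f (nat_lit 558) (nat_lit 463) (nat_lit 5582) (.d (nat_lit 493) (nat_lit 461) (nat_lit 7629) (nat_lit 492) (nat_lit 492)))))) (.a (.f (nat_lit 590) (nat_lit 622) (nat_lit 5614) (.f (nat_lit 558) (nat_lit 463) (nat_lit 5582) (.f (nat_lit 592) (nat_lit 624) (nat_lit 4591) (.d (nat_lit 557) (nat_lit 556) (nat_lit 556) (nat_lit 593) (nat_lit 3629))))) (.a (.f (nat_lit 494) (nat_lit 462) (nat_lit 7630) (.f (nat_lit 623) (nat_lit 526) (nat_lit 7662) (.d (nat_lit 622) (nat_lit 590) (nat_lit 5614) (nat_lit 654) (nat_lit 5646)))) (.f (nat_lit 494) (nat_lit 462) (nat_lit 7630) (.f (nat_lit 623) (nat_lit 526) (nat_lit 7662) (.d (nat_lit 624) (nat_lit 592) (nat_lit 4591) (nat_lit 656) (nat_lit 4623)))))))) (.a (.f (nat_lit 623) (nat_lit 496) (nat_lit 6639) (.f (nat_lit 622) (nat_lit 654) (nat_lit 5646) (.f (nat_lit 624) (nat_lit 656) (nat_lit 4623) (.d (nat_lit 495) (nat_lit 590) (nat_lit 5614) (nat_lit 592) (nat_lit 4591))))) (.a (.f (nat_lit 623) (nat_lit 496) (nat_lit 6639) (.f (nat_lit 526) (nat_lit 494) (nat_lit 7662) (.f (nat_lit 655) (nat_lit 558) (nat_lit 7694) (.d (nat_lit 654) (nat_lit 622) (nat_lit 5646) (nat_lit 686) (nat_lit 5678))))) (.a (.p (nat_lit 495) (.a (.f (nat_lit 496) (nat_lit 464) (nat_lit 6607) (.f (nat_lit 494) (nat_lit 462) (nat_lit 7630) (.f (nat_lit 493) (nat_lit 492) (nat_lit 492) (.f (nat_lit 525) (nat_lit 524) (nat_lit 1516) (.f (nat_lit 526) (nat_lit 497) (nat_lit 2541) (.f (nat_lit 590) (nat_lit 622) (nat_lit 5614) (.d (nat_lit 461) (nat_lit 460) (nat_lit 3532) (nat_lit 558) (nat_lit 7629)))))))) (.a (.f (nat_lit 590) (nat_lit 622) (nat_lit 5614) (.f (nat_lit 558) (nat_lit 463) (nat_lit 5582) (.f (nat_lit 592) (nat_lit 624) (nat_lit 4591) (.d (nat_lit 557) (nat_lit 556) (nat_lit 556) (nat_lit 593) (nat_lit 3629))))) (.f (nat_lit 464) (nat_lit 496) (nat_lit 6607) (.f (nat_lit 463) (nat_lit 432) (nat_lit 6575) (.d (nat_lit 462) (nat_lit 430) (nat_lit 7598) (nat_lit 494) (nat_lit 7630))))))) (.f (nat_lit 623) (nat_lit 496) (nat_lit 6639) (.f (nat_lit 526) (nat_lit 494) (nat_lit 7662) (.f (nat_lit 558) (nat_lit 655) (nat_lit 7694) (.f (nat_lit 557) (nat_lit 556) (nat_lit 2572) (.f (nat_lit 624) (nat_lit 656) (nat_lit 4623) (.f (nat_lit 592) (nat_lit 495) (nat_lit 4591) (.d (nat_lit 593) (nat_lit 590) (nat_lit 3629) (nat_lit 594) (nat_lit 3630)))))))))))))) (.a (.p (nat_lit 495) (.a (.p (nat_lit 591) (.a (.d (nat_lit 496) (nat_lit 464) (nat_lit 6607) (nat_lit 623) (nat_lit 6639)) (.f (nat_lit 592) (nat_lit 624) (nat_lit 4591) (.f (nat_lit 463) (nat_lit 560) (nat_lit 4559) (.d (nat_lit 462) (nat_lit 430) (nat_lit 7598) (nat_lit 494) (nat_lit 7630)))))) (.a (.p (nat_lit 591) (.a (.f (nat_lit 592) (nat_lit 624) (nat_lit 4591) (.f (nat_lit 463) (nat_lit 560) (nat_lit 4559) (.d (nat_lit 462) (nat_lit 430) (nat_lit 7598) (nat_lit 494) (nat_lit 7630)))) (.a (.f (nat_lit 590) (nat_lit 622) (nat_lit 5614) (.f (nat_lit 558) (nat_lit 463) (nat_lit 5582) (.f (nat_lit 592) (nat_lit 624) (nat_lit 4591) (.d (nat_lit 557) (nat_lit 556) (nat_lit 556) (nat_lit 593) (nat_lit 3629))))) (.a (.f (nat_lit 590) (nat_lit 622) (nat_lit 5614) (.f (nat_lit 463) (nat_lit 558) (nat_lit 5582) (.d (nat_lit 462) (nat_lit 430) (nat_lit 7598) (nat_lit 494) (nat_lit 7630)))) (.f (nat_lit 624) (nat_lit 592) (nat_lit 4591) (.f (nat_lit 623) (nat_lit 656) (nat_lit 4623) (.d (nat_lit 622) (nat_lit 590) (nat_lit 5614) (nat_lit 654) (nat_lit 5646)))))))) (.a (.p (nat_lit 591) (.a (.d (nat_lit 496) (nat_lit 464) (nat_lit 6607) (nat_lit 623) (nat_lit 6639)) (.f (nat_lit 590) (nat_lit 622) (nat_lit 5614) (.f (nat_lit 558) (nat_lit 463) (nat_lit 5582) (.f (nat_lit 592) (nat_lit 624) (nat_lit 4591) (.d (nat_lit 557) (nat_lit 556) (nat_lit 556) (nat_lit 593) (nat_lit 3629))))))) (.a (.p (nat_lit 591) (.a (.d (nat_lit 496) (nat_lit 464) (nat_lit 6607) (nat_lit 623) (nat_lit 6639)) (.f (nat_lit 590) (nat_lit 622) (nat_lit 5614) (.f (nat_lit 463) (nat_lit 558) (nat_lit 5582) (.d (nat_lit 462) (nat_lit 430) (nat_lit 7598) (nat_lit 494) (nat_lit 7630)))))) (.a (.p (nat_lit 591) (.a (.d (nat_lit 496) (nat_lit 464) (nat_lit 6607) (nat_lit 623) (nat_lit 6639)) (.a (.f (nat_lit 624) (nat_lit 592) (nat_lit 4591) (.f (nat_lit 623) (nat_lit 656) (nat_lit 4623) (.d (nat_lit 622) (nat_lit 590) (nat_lit 5614) (nat_lit 654) (nat_lit 5646)))) (.f (nat_lit 496) (nat_lit 464) (nat_lit 6607) (.f (nat_lit 592) (nat_lit 624) (nat_lit 4591) (.f (nat_lit 590) (nat_lit 622) (nat_lit 5614) (.f (nat_lit 494) (nat_lit 462) (nat_lit 7630) (.f (nat_lit 493) (nat_lit 492) (nat_lit 492) (.f (nat_lit 461) (nat_lit 460) (nat_lit 3532) (.f (nat_lit 525) (nat_lit 524) (nat_lit 1516) (.f (nat_lit 557) (nat_lit 558) (nat_lit 4557) (.d (nat_lit 556) (nat_lit 588) (nat_lit 5580) (nat_lit 589) (nat_lit 3628))))))))))))) (.p (nat_lit 463) (.a (.d (nat_lit 560) (nat_lit 431) (nat_lit 4527) (nat_lit 592) (nat_lit 4559)) (.a (.f (nat_lit 432) (nat_lit 464) (nat_lit 6575) (.f (nat_lit 431) (nat_lit 400) (nat_lit 6543) (.d (nat_lit 430) (nat_lit 398) (nat_lit 7566) (nat_lit 462) (nat_lit 7598)))) (.f (nat_lit 560) (nat_lit 592) (nat_lit 4559) (.f (nat_lit 464) (nat_lit 432) (nat_lit 6575) (.f (nat_lit 462) (nat_lit 430) (nat_lit 7598) (.f (nat_lit 558) (nat_lit 590) (nat_lit 5582) (.f (nat_lit 557) (nat_lit 556) (nat_lit 2572) (.f (nat_lit 525) (nat_lit 524) (nat_lit 3596) (.f (nat_lit 589) (nat_lit 588) (nat_lit 1580) (.f (nat_lit 493) (nat_lit 494) (nat_lit 6605) (.d (nat_lit 492) (nat_lit 460) (nat_lit 7628) (nat_lit 461) (nat_lit 1484))))))))))))))))))) (.a (.p (nat_lit 560) (.a s28522 (.a (.p (nat_lit 526) (.a (.d (nat_lit 525) (nat_lit 524) (nat_lit 524) (nat_lit 561) (nat_lit 525)) (.a s28133 s28136))) (.a (.p (nat_lit 558) (.a (.f (nat_lit 557) (nat_lit 556) (nat_lit 2572) (.f (nat_lit 589) (nat_lit 588) (nat_lit 1580) (.f (nat_lit 590) (nat_lit 561) (nat_lit 1581) (.f (nat_lit 525) (nat_lit 524) (nat_lit 3596) (.d (nat_lit 493) (nat_lit 461) (nat_lit 4557) (nat_lit 622) (nat_lit 4589)))))) (.a (.f (nat_lit 557) (nat_lit 556) (nat_lit 2572) (.f (nat_lit 589) (nat_lit 588) (nat_lit 1580) (.f (nat_lit 561) (nat_lit 590) (nat_lit 1581) (.d (nat_lit 562) (nat_lit 526) (nat_lit 3598) (nat_lit 563) (nat_lit 3599))))) (.a s29038 (.a (.p (nat_lit 526) (.a (.f (nat_lit 561) (nat_lit 562) (nat_lit 3598) (.f (nat_lit 590) (nat_lit 589) (nat_lit 1581) (.f (nat_lit 622) (nat_lit 654) (nat_lit 6670) (.f (nat_lit 623) (nat_lit 655) (nat_lit 4622) (.f (nat_lit 494) (nat_lit 591) (nat_lit 4590) (.f (nat_lit 462) (nat_lit 430) (nat_lit 4526) (.d (nat_lit 461) (nat_lit 429) (nat_lit 7597) (nat_lit 493) (nat_lit 7629)))))))) (.a (.d (nat_lit 525) (nat_lit 524) (nat_lit 524) (nat_lit 561) (nat_lit 525)) (.f (nat_lit 525) (nat_lit 524) (nat_lit 524) (.f (nat_lit 493) (nat_lit 492) (nat_lit 3564) (.f (nat_lit 590) (nat_lit 622) (nat_lit 7661) (.d (nat_lit 461) (nat_lit 429) (nat_lit 4525) (nat_lit 494) (nat_lit 7629)))))))) (.a (.f (nat_lit 557) (nat_lit 556) (nat_lit 2572) (.f (nat_lit 525) (nat_lit 524) (nat_lit 3596) (.f (nat_lit 526) (nat_lit 561) (nat_lit 525) (.f (nat_lit 589) (nat_lit 588) (nat_lit 1580) (.d (nat_lit 494) (nat_lit 462) (nat_lit 5581) (nat_lit 621) (nat_lit 6637)))))) (.f (nat_lit 557) (nat_lit 556) (nat_lit 2572) (.f (nat_lit 525) (nat_lit 524) (nat_lit 3596) (.f (nat_lit 526) (nat_lit 561) (nat_lit 525) (.f (nat_lit 493) (nat_lit 492) (nat_lit 3564) (.d (nat_lit 461) (nat_lit 429) (nat_lit 4525) (nat_lit 590) (nat_lit 4557)))))))))))) (.a (.p (nat_lit 496) (.a (.d (nat_lit 464) (nat_lit 432) (nat_lit 5551) (nat_lit 591) (nat_lit 5583)) (.a (.p (nat_lit 592) (.a (.f (nat_lit 591) (nat_lit 623) (nat_lit 5615) (.f (nat_lit 593) (nat_lit 625) (nat_lit 4592) (.d (nat_lit 558) (nat_lit 557) (nat_lit 557) (nat_lit 594) (nat_lit 3630)))) (.a (.f (nat_lit 623) (nat_lit 591) (nat_lit 5615) (.d (nat_lit 624) (nat_lit 655) (nat_lit 5647) (nat_lit 656) (nat_lit 7695))) (.f (nat_lit 624) (nat_lit 656) (nat_lit 7695) (.d (nat_lit 625) (nat_lit 593) (nat_lit 4592) (nat_lit 657) (nat_lit 4624)))))) (.f (nat_lit 464) (nat_lit 432) (nat_lit 5551) (.f (nat_lit 465) (nat_lit 433) (nat_lit 6576) (.f (nat_lit 463) (nat_lit 431) (nat_lit 7599) (.f (nat_lit 497) (nat_lit 592) (nat_lit 6608) (.d (nat_lit 462) (nat_lit 461) (nat_lit 461) (nat_lit 498) (nat_lit 462))))))))) (.a (.p (nat_lit 496) (.a (.d (nat_lit 464) (nat_lit 432) (nat_lit 5551) (nat_lit 591) (nat_lit 5583)) (.a (.p (nat_lit 592) (.a (.f (nat_lit 591) (nat_lit 623) (nat_lit 5615) (.f (nat_lit 593) (nat_lit 625) (nat_lit 4592) (.f (nat_lit 594) (nat_lit 595) (nat_lit 3631) (.f (nat_lit 562) (nat_lit 563) (nat_lit 2607) (.f (nat_lit 590) (nat_lit 561) (nat_lit 1582) (.f (nat_lit 589) (nat_lit 588) (nat_lit 2604) (.d (nat_lit 621) (nat_lit 620) (nat_lit 1612) (nat_lit 622) (nat_lit 1613)))))))) (.a (.f (nat_lit 623) (nat_lit 591) (nat_lit 5615) (.d (nat_lit 624) (nat_lit 655) (nat_lit 5647) (nat_lit 656) (nat_lit 7695))) (.f (nat_lit 624) (nat_lit 656) (nat_lit 7695) (.d (nat_lit 625) (nat_lit 593) (nat_lit 4592) (nat_lit 657) (nat_lit 4624)))))) (.f (nat_lit 464) (nat_lit 432) (nat_lit 5551) (.f (nat_lit 465) (nat_lit 433) (nat_lit 6576) (.f (nat_lit 463) (nat_lit 431) (nat_lit 7599) (.f (nat_lit 497) (nat_lit 592) (nat_lit 6608) (.d (nat_lit 462) (nat_lit 461) (nat_lit 461) (nat_lit 498) (nat_lit 462))))))))) (.a s29049 (.p (nat_lit 526) (.a (.d (nat_lit 525) (nat_lit 524) (nat_lit 524) (nat_lit 561) (nat_lit 525)) (.a (.p (nat_lit 558) (.a (.f (nat_lit 557) (nat_lit 556) (nat_lit 2572) (.f (nat_lit 561) (nat_lit 562) (nat_lit 3598) (.d (nat_lit 589) (nat_lit 588) (nat_lit 1580) (nat_lit 590) (nat_lit 1581)))) (.a (.f (nat_lit 557) (nat_lit 556) (nat_lit 2572) (.f (nat_lit 592) (nat_lit 593) (nat_lit 557) (.f (nat_lit 624) (nat_lit 656) (nat_lit 7695) (.f (nat_lit 623) (nat_lit 655) (nat_lit 5647) (.f (nat_lit 591) (nat_lit 496) (nat_lit 5615) (.f (nat_lit 589) (nat_lit 588) (nat_lit 1580) (.d (nat_lit 625) (nat_lit 590) (nat_lit 589) (nat_lit 657) (nat_lit 4624)))))))) (.f (nat_lit 561) (nat_lit 562) (nat_lit 3598) (.f (nat_lit 593) (nat_lit 594) (nat_lit 558) (.f (nat_lit 496) (nat_lit 464) (nat_lit 4560) (.d (nat_lit 625) (nat_lit 592) (nat_lit 4592) (nat_lit 657) (nat_lit 7696)))))))) (.f (nat_lit 525) (nat_lit 524) (nat_lit 524) (.f (nat_lit 496) (nat_lit 497) (nat_lit 2541) (.d (nat_lit 464) (nat_lit 432) (nat_lit 5551) (nat_lit 591) (nat_lit 5583)))))))))))))) (.a (.p (nat_lit 495) (.a (.p (nat_lit 591) (.a (.d (nat_lit 496) (nat_lit 464) (nat_lit 6607) (nat_lit 623) (nat_lit 6639)) (.f (nat_lit 592) (nat_lit 624) (nat_lit 4591) (.f (nat_lit 463) (nat_lit 560) (nat_lit 4559) (.d (nat_lit 462) (nat_lit 430) (nat_lit 7598) (nat_lit 494) (nat_lit 7630)))))) (.a s29001 (.a (.p (nat_lit 591) (.a (.f (nat_lit 494) (nat_lit 462) (nat_lit 7630) (.f (nat_lit 526) (nat_lit 623) (nat_lit 7662) (.f (nat_lit 590) (nat_lit 622) (nat_lit 5614) (.f (nat_lit 558) (nat_lit 463) (nat_lit 5582) (.d (nat_lit 493) (nat_lit 461) (nat_lit 7629) (nat_lit 492) (nat_lit 492)))))) (.a (.f (nat_lit 590) (nat_lit 622) (nat_lit 5614) (.f (nat_lit 558) (nat_lit 463) (nat_lit 5582) (.f (nat_lit 592) (nat_lit 624) (nat_lit 4591) (.d (nat_lit 557) (nat_lit 556) (nat_lit 556) (nat_lit 593) (nat_lit 3629))))) (.a (.f (nat_lit 494) (nat_lit 462) (nat_lit 7630) (.f (nat_lit 623) (nat_lit 526) (nat_lit 7662) (.d (nat_lit 622) (nat_lit 590) (nat_lit 5614) (nat_lit 654) (nat_lit 5646)))) (.f (nat_lit 494) (nat_lit 462) (nat_lit 7630) (.f (nat_lit 623) (nat_lit 526) (nat_lit 7662) (.d (nat_lit 624) (nat_lit 592) (nat_lit 4591) (nat_lit 656) (nat_lit 4623)))))))) (.a (.p (nat_lit 591) (.a (.d (nat_lit 496) (nat_lit 464) (nat_lit 6607) (nat_lit 623) (nat_lit 6639)) (.a (.f (nat_lit 494) (nat_lit 462) (nat_lit 7630) (.f (nat_lit 623) (nat_lit 526) (nat_lit 7662) (.d (nat_lit 622) (nat_lit 590) (nat_lit 5614) (nat_lit 654) (nat_lit 5646)))) (.f (nat_lit 464) (nat_lit 496) (nat_lit 6607) (.f (nat_lit 463) (nat_lit 432) (nat_lit 6575) (.d (nat_lit 462) (nat_lit 430) (nat_lit 7598) (nat_lit 494) (nat_lit 7630))))))) (.a (.p (nat_lit 591) (.a (.d (nat_lit 496) (nat_lit 464) (nat_lit 6607) (nat_lit 623) (nat_lit 6639)) (.f (nat_lit 592) (nat_lit 624) (nat_lit 4591) (.f (nat_lit 560) (nat_lit 463) (nat_lit 4559) (.f (nat_lit 590) (nat_lit 622) (nat_lit 5614) (.d (nat_lit 561) (nat_lit 562) (nat_lit 1582) (nat_lit 589) (nat_lit 2605))))))) (.a s26728 s26729))))))) (.a (.p (nat_lit 591) (.a (.f (nat_lit 623) (nat_lit 496) (nat_lit 6639) (.f (nat_lit 526) (nat_lit 494) (nat_lit 7662) (.f (nat_lit 655) (nat_lit 558) (nat_lit 7694) (.d (nat_lit 654) (nat_lit 622) (nat_lit 5646) (nat_lit 686) (nat_lit 5678))))) (.a (.p (nat_lit 495) (.a (.f (nat_lit 494) (nat_lit 462) (nat_lit 7630) (.f (nat_lit 526) (nat_lit 623) (nat_lit 7662) (.f (nat_lit 590) (nat_lit 622) (nat_lit 5614) (.f (nat_lit 558) (nat_lit 463) (nat_lit 5582) (.d (nat_lit 493) (nat_lit 461) (nat_lit 7629) (nat_lit 492) (nat_lit 492)))))) (.a (.f (nat_lit 590) (nat_lit 622) (nat_lit 5614) (.f (nat_lit 463) (nat_lit 558) (nat_lit 5582) (.d (nat_lit 462) (nat_lit 430) (nat_lit 7598) (nat_lit 494) (nat_lit 7630)))) (.a (.f (nat_lit 590) (nat_lit 622) (nat_lit 5614) (.f (nat_lit 463) (nat_lit 558) (nat_lit 5582) (.f (nat_lit 431) (nat_lit 560) (nat_lit 4527) (.d (nat_lit 430) (nat_lit 398) (nat_lit 7566) (nat_lit 462) (nat_lit 7598))))) (.a (.f (nat_lit 494) (nat_lit 462) (nat_lit 7630) (.f (nat_lit 623) (nat_lit 526) (nat_lit 7662) (.d (nat_lit 622) (nat_lit 590) (nat_lit 5614) (nat_lit 654) (nat_lit 5646)))) (.a (.f (nat_lit 590) (nat_lit 622) (nat_lit 5614) (.f (nat_lit 463) (nat_lit 558) (nat_lit 5582) (.f (nat_lit 560) (nat_lit 431) (nat_lit 4527) (.f (nat_lit 561) (nat_lit 562) (nat_lit 1582) (.f (nat_lit 623) (nat_lit 655) (nat_lit 6671) (.d (nat_lit 526) (nat_lit 494) (nat_lit 7662) (nat_lit 525) (nat_lit 525))))))) (.a (.f (nat_lit 494) (nat_lit 462) (nat_lit 7630) (.f (nat_lit 623) (nat_lit 526) (nat_lit 7662) (.f (nat_lit 655) (nat_lit 560) (nat_lit 6671) (.d (nat_lit 654) (nat_lit 622) (nat_lit 5646) (nat_lit 686) (nat_lit 5678))))) (.f (nat_lit 494) (nat_lit 462) (nat_lit 7630) (.f (nat_lit 623) (nat_lit 526) (nat_lit 7662) (.f (nat_lit 655) (nat_lit 560) (nat_lit 6671) (.d (nat_lit 656) (nat_lit 624) (nat_lit 4623) (nat_lit 688) (nat_lit 4655)))))))))))) (.a (.f (nat_lit 623) (nat_lit 496) (nat_lit 6639) (.f (nat_lit 655) (nat_lit 560) (nat_lit 6671) (.d (nat_lit 654) (nat_lit 622) (nat_lit 5646) (nat_lit 686) (nat_lit 5678)))) (.a (.p (nat_lit 495) (.a (.f (nat_lit 496) (nat_lit 464) (nat_lit 6607) (.f (nat_lit 494) (nat_lit 462) (nat_lit 7630) (.f (nat_lit 493) (nat_lit 492) (nat_lit 492) (.f (nat_lit 525) (nat_lit 524) (nat_lit 1516) (.f (nat_lit 526) (nat_lit 497) (nat_lit 2541) (.f (nat_lit 590) (nat_lit 622) (nat_lit 5614) (.d (nat_lit 461) (nat_lit 460) (nat_lit 3532) (nat_lit 558) (nat_lit 7629)))))))) (.a (.f (nat_lit 590) (nat_lit 622) (nat_lit 5614) (.f (nat_lit 463) (nat_lit 558) (nat_lit 5582) (.d (nat_lit 462) (nat_lit 430) (nat_lit 7598) (nat_lit 494) (nat_lit 7630)))) (.a (.f (nat_lit 590) (nat_lit 622) (nat_lit 5614) (.f (nat_lit 463) (nat_lit 558) (nat_lit 5582) (.f (nat_lit 431) (nat_lit 560) (nat_lit 4527) (.d (nat_lit 430) (nat_lit 398) (nat_lit 7566) (nat_lit 462) (nat_lit 7598))))) (.a (.f (nat_lit 464) (nat_lit 496) (nat_lit 6607) (.f (nat_lit 463) (nat_lit 432) (nat_lit 6575) (.d (nat_lit 462) (nat_lit 430) (nat_lit 7598) (nat_lit 494) (nat_lit 7630)))) (.f (nat_lit 496) (nat_lit 464) (nat_lit 6607) (.f (nat_lit 590) (nat_lit 622) (nat_lit 5614) (.f (nat_lit 463) (nat_lit 558) (nat_lit 5582) (.d (nat_lit 431) (nat_lit 399) (nat_lit 4495) (nat_lit 560) (nat_lit 4527)))))))))) (.f (nat_lit 623) (nat_lit 496) (nat_lit 6639) (.f (nat_lit 655) (nat_lit 560) (nat_lit 6671) (.d (nat_lit 526) (nat_lit 494) (nat_lit 7662) (nat_lit 558) (nat_lit 7694))))))))) (.a (.p (nat_lit 526) (.a (.p (nat_lit 496) (.a (.f (nat_lit 525) (nat_lit 497) (nat_lit 2541) (.d (nat_lit 524) (nat_lit 495) (nat_lit 2540) (nat_lit 560) (nat_lit 524))) (.a (.f (nat_lit 525) (nat_lit 497) (nat_lit 2541) (.f (nat_lit 495) (nat_lit 524) (nat_lit 2540) (.d (nat_lit 464) (nat_lit 432) (nat_lit 5551) (nat_lit 591) (nat_lit 6607)))) (.a (.f (nat_lit 525) (nat_lit 497) (nat_lit 2541) (.d (nat_lit 560) (nat_lit 524) (nat_lit 524) (nat_lit 561) (nat_lit 525))) (.f (nat_lit 591) (nat_lit 623) (nat_lit 6639) (.d (nat_lit 464) (nat_lit 432) (nat_lit 5551) (nat_lit 495) (nat_lit 6607))))))) (.a s28149 (.a (.p (nat_lit 496) (.a (.f (nat_lit 525) (nat_lit 497) (nat_lit 2541) (.f (nat_lit 495) (nat_lit 524) (nat_lit 2540) (.d (nat_lit 464) (nat_lit 432) (nat_lit 5551) (nat_lit 591) (nat_lit 6607)))) (.a (.f (nat_lit 525) (nat_lit 497) (nat_lit 2541) (.f (nat_lit 556) (nat_lit 557) (nat_lit 1548) (.f (nat_lit 524) (nat_lit 555) (nat_lit 1547) (.d (nat_lit 492) (nat_lit 491) (nat_lit 3563) (nat_lit 493) (nat_lit 3564))))) (.f (nat_lit 591) (nat_lit 623) (nat_lit 6639) (.d (nat_lit 464) (nat_lit 432) (nat_lit 5551) (nat_lit 495) (nat_lit 6607)))))) (.a (.p (nat_lit 496) (.a (.f (nat_lit 525) (nat_lit 497) (nat_lit 2541) (.d (nat_lit 560) (nat_lit 524) (nat_lit 524) (nat_lit 561) (nat_lit 525))) (.a (.f (nat_lit 525) (nat_lit 497) (nat_lit 2541) (.f (nat_lit 556) (nat_lit 557) (nat_lit 1548) (.f (nat_lit 524) (nat_lit 555) (nat_lit 1547) (.d (nat_lit 492) (nat_lit 491) (nat_lit 3563) (nat_lit 493) (nat_lit 3564))))) (.f (nat_lit 591) (nat_lit 623) (nat_lit 6639) (.d (nat_lit 464) (nat_lit 432) (nat_lit 5551) (nat_lit 560) (nat_lit 5583)))))) (.a s29092 (.p (nat_lit 525) (.a (.d (nat_lit 560) (nat_lit 524) (nat_lit 524) (nat_lit 561) (nat_lit 525)) (.a (.f (nat_lit 496) (nat_lit 497) (nat_lit 2541) (.f (nat_lit 524) (nat_lit 495) (nat_lit 2540) (.d (nat_lit 492) (nat_lit 491) (nat_lit 3563) (nat_lit 493) (nat_lit 3564)))) (.f (nat_lit 560) (nat_lit 561) (nat_lit 525) (.f (nat_lit 496) (nat_lit 497) (nat_lit 2541) (.f (nat_lit 464) (nat_lit 432) (nat_lit 5551) (.f (nat_lit 463) (nat_lit 431) (nat_lit 7599) (.f (nat_lit 592) (nat_lit 495) (nat_lit 7631) (.f (nat_lit 557) (nat_lit 556) (nat_lit 1548) (.d (nat_lit 593) (nat_lit 558) (nat_lit 557) (nat_lit 625) (nat_lit 4592))))))))))))))))) (.a (.p (nat_lit 526) (.a s28044 (.a s28298 (.a s29112 (.a s28149 (.a s28154 (.a s28150 (.a s29114 (.a s28164 (.a s29126 s29127)))))))))) (.a (.p (nat_lit 591) (.a (.f (nat_lit 623) (nat_lit 496) (nat_lit 6639) (.f (nat_lit 622) (nat_lit 654) (nat_lit 5646) (.f (nat_lit 624) (nat_lit 656) (nat_lit 4623) (.d (nat_lit 495) (nat_lit 590) (nat_lit 5614) (nat_lit 592) (nat_lit 4591))))) (.a (.p (nat_lit 495) (.a (.f (nat_lit 592) (nat_lit 624) (nat_lit 4591) (.f (nat_lit 463) (nat_lit 560) (nat_lit 4559) (.d (nat_lit 462) (nat_lit 430) (nat_lit 7598) (nat_lit 494) (nat_lit 7630)))) (.a (.f (nat_lit 494) (nat_lit 462) (nat_lit 7630) (.f (nat_lit 623) (nat_lit 526) (nat_lit 7662) (.d (nat_lit 622) (nat_lit 590) (nat_lit 5614) (nat_lit 654) (nat_lit 5646)))) (.f (nat_lit 592) (nat_lit 624) (nat_lit 4591) (.f (nat_lit 560) (nat_lit 463) (nat_lit 4559) (.f (nat_lit 590) (nat_lit 622) (nat_lit 5614) (.d (nat_lit 561) (nat_lit 562) (nat_lit 1582) (nat_lit 589) (nat_lit 2605)))))))) (.a (.f (nat_lit 623) (nat_lit 496) (nat_lit 6639) (.f (nat_lit 655) (nat_lit 560) (nat_lit 6671) (.d (nat_lit 654) (nat_lit 622) (nat_lit 5646) (nat_lit 686) (nat_lit 5678)))) (.a (.p (nat_lit 495) (.a (.f (nat_lit 592) (nat_lit 624) (nat_lit 4591) (.f (nat_lit 463) (nat_lit 560) (nat_lit 4559) (.d (nat_lit 462) (nat_lit 430) (nat_lit 7598) (nat_lit 494) (nat_lit 7630)))) (.a (.f (nat_lit 464) (nat_lit 496) (nat_lit 6607) (.f (nat_lit 463) (nat_lit 432) (nat_lit 6575) (.d (nat_lit 462) (nat_lit 430) (nat_lit 7598) (nat_lit 494) (nat_lit 7630)))) (.a (.f (nat_lit 592) (nat_lit 624) (nat_lit 4591) (.f (nat_lit 560) (nat_lit 463) (nat_lit 4559) (.f (nat_lit 590) (nat_lit 622) (nat_lit 5614) (.d (nat_lit 561) (nat_lit 562) (nat_lit 1582) (nat_lit 589) (nat_lit 2605))))) (.f (nat_lit 496) (nat_lit 464) (nat_lit 6607) (.f (nat_lit 494) (nat_lit 462) (nat_lit 7630) (.f (nat_lit 493) (nat_lit 492) (nat_lit 492) (.f (nat_lit 525) (nat_lit 524) (nat_lit 1516) (.f (nat_lit 526) (nat_lit 497) (nat_lit 2541) (.f (nat_lit 560) (nat_lit 561) (nat_lit 525) (.f (nat_lit 557) (nat_lit 556) (nat_lit 1548) (.f (nat_lit 589) (nat_lit 621) (nat_lit 6637) (.d (nat_lit 588) (nat_lit 590) (nat_lit 2604) (nat_lit 620) (nat_lit 5612)))))))))))))) (.f (nat_lit 623) (nat_lit 496) (nat_lit 6639) (.f (nat_lit 560) (nat_lit 655) (nat_lit 6671) (.f (nat_lit 624) (nat_lit 656) (nat_lit 4623) (.f (nat_lit 495) (nat_lit 592) (nat_lit 7663) (.d (nat_lit 494) (nat_lit 462) (nat_lit 7630) (nat_lit 526) (nat_lit 7662))))))))))) (.a (.p (nat_lit 495) (.a s29002 (.a s26489 (.a (.p (nat_lit 591) (.a (.d (nat_lit 496) (nat_lit 464) (nat_lit 6607) (nat_lit 623) (nat_lit 6639)) (.f (nat_lit 590) (nat_lit 622) (nat_lit 5614) (.f (nat_lit 463) (nat_lit 558) (nat_lit 5582) (.d (nat_lit 462) (nat_lit 430) (nat_lit 7598) (nat_lit 494) (nat_lit 7630)))))) (.a (.p (nat_lit 591) (.a (.d (nat_lit 496) (nat_lit 464) (nat_lit 6607) (nat_lit 623) (nat_lit 6639)) (.f (nat_lit 590) (nat_lit 622) (nat_lit 5614) (.f (nat_lit 463) (nat_lit 558) (nat_lit 5582) (.f (nat_lit 431) (nat_lit 560) (nat_lit 4527) (.d (nat_lit 430) (nat_lit 398) (nat_lit 7566) (nat_lit 462) (nat_lit 7598))))))) (.a (.p (nat_lit 591) (.a (.d (nat_lit 496) (nat_lit 464) (nat_lit 6607) (nat_lit 623) (nat_lit 6639)) (.a (.f (nat_lit 494) (nat_lit 462) (nat_lit 7630) (.f (nat_lit 623) (nat_lit 526) (nat_lit 7662) (.d (nat_lit 622) (nat_lit 590) (nat_lit 5614) (nat_lit 654) (nat_lit 5646)))) (.f (nat_lit 464) (nat_lit 496) (nat_lit 6607) (.f (nat_lit 463) (nat_lit 432) (nat_lit 6575) (.d (nat_lit 462) (nat_lit 430) (nat_lit 7598) (nat_lit 494) (nat_lit 7630))))))) (.a s2312 (.a (.p (nat_lit 591) (.a (.d (nat_lit 496) (nat_lit 464) (nat_lit 6607) (nat_lit 623) (nat_lit 6639)) (.a (.f (nat_lit 590) (nat_lit 622) (nat_lit 5614) (.f (nat_lit 463) (nat_lit 558) (nat_lit 5582) (.f (nat_lit 560) (nat_lit 431) (nat_lit 4527) (.f (nat_lit 561) (nat_lit 562) (nat_lit 1582) (.f (nat_lit 623) (nat_lit 655) (nat_lit 6671) (.d (nat_lit 526) (nat_lit 494) (nat_lit 7662) (nat_lit 525) (nat_lit 525))))))) (.f (nat_lit 496) (nat_lit 464) (nat_lit 6607) (.f (nat_lit 590) (nat_lit 622) (nat_lit 5614) (.f (nat_lit 463) (nat_lit 558) (nat_lit 5582) (.d (nat_lit 431) (nat_lit 399) (nat_lit 4495) (nat_lit 560) (nat_lit 4527)))))))) (.p (nat_lit 591) (.a (.d (nat_lit 496) (nat_lit 464) (nat_lit 6607) (nat_lit 623) (nat_lit 6639)) (.a (.f (nat_lit 494) (nat_lit 462) (nat_lit 7630) (.f (nat_lit 623) (nat_lit 526) (nat_lit 7662) (.f (nat_lit 655) (nat_lit 560) (nat_lit 6671) (.d (nat_lit 654) (nat_lit 622) (nat_lit 5646) (nat_lit 686) (nat_lit 5678))))) (.f (nat_lit 464) (nat_lit 496) (nat_lit 6607) (.f (nat_lit 463) (nat_lit 432) (nat_lit 6575) (.d (nat_lit 462) (nat_lit 430) (nat_lit 7598) (nat_lit 494) (nat_lit 7630))))))))))))))) (.a (.p (nat_lit 526) (.a (.p (nat_lit 496) (.a (.f (nat_lit 525) (nat_lit 497) (nat_lit 2541) (.d (nat_lit 524) (nat_lit 495) (nat_lit 2540) (nat_lit 560) (nat_lit 524))) (.a (.f (nat_lit 525) (nat_lit 497) (nat_lit 2541) (.f (nat_lit 495) (nat_lit 524) (nat_lit 2540) (.d (nat_lit 464) (nat_lit 432) (nat_lit 5551) (nat_lit 591) (nat_lit 6607)))) (.a (.f (nat_lit 525) (nat_lit 497) (nat_lit 2541) (.d (nat_lit 560) (nat_lit 524) (nat_lit 524) (nat_lit 561) (nat_lit 525))) (.f (nat_lit 591) (nat_lit 623) (nat_lit 6639) (.d (nat_lit 464) (nat_lit 432) (nat_lit 5551) (nat_lit 495) (nat_lit 6607))))))) (.a s28137 (.a (.p (nat_lit 496) (.a (.f (nat_lit 525) (nat_lit 497) (nat_lit 2541) (.f (nat_lit 495) (nat_lit 524) (nat_lit 2540) (.d (nat_lit 464) (nat_lit 432) (nat_lit 5551) (nat_lit 591) (nat_lit 6607)))) (.a (.f (nat_lit 525) (nat_lit 497) (nat_lit 2541) (.f (nat_lit 556) (nat_lit 557) (nat_lit 1548) (.f (nat_lit 524) (nat_lit 555) (nat_lit 1547) (.d (nat_lit 492) (nat_lit 491) (nat_lit 3563) (nat_lit 493) (nat_lit 3564))))) (.f (nat_lit 591) (nat_lit 623) (nat_lit 6639) (.d (nat_lit 464) (nat_lit 432) (nat_lit 5551) (nat_lit 495) (nat_lit 6607)))))) (.a s29159 s29165))))) (.a (.p (nat_lit 560) (.a s28543 (.a (.p (nat_lit 526) (.a (.d (nat_lit 525) (nat_lit 524) (nat_lit 524) (nat_lit 561) (nat_lit 525)) (.a (.p (nat_lit 558) (.a (.f (nat_lit 557) (nat_lit 556) (nat_lit 2572) (.f (nat_lit 592) (nat_lit 593) (nat_lit 557) (.d (nat_lit 495) (nat_lit 463) (nat_lit 4559) (nat_lit 624) (nat_lit 7663)))) (.a (.f (nat_lit 557) (nat_lit 556) (nat_lit 2572) (.f (nat_lit 561) (nat_lit 562) (nat_lit 3598) (.d (nat_lit 589) (nat_lit 588) (nat_lit 1580) (nat_lit 590) (nat_lit 1581)))) (.f (nat_lit 561) (nat_lit 562) (nat_lit 3598) (.f (nat_lit 590) (nat_lit 589) (nat_lit 1581) (.d (nat_lit 495) (nat_lit 463) (nat_lit 5582) (nat_lit 622) (nat_lit 6638))))))) s28136))) (.a s29049 (.a (.p (nat_lit 558) (.a (.f (nat_lit 557) (nat_lit 556) (nat_lit 2572) (.f (nat_lit 589) (nat_lit 588) (nat_lit 1580) (.f (nat_lit 590) (nat_lit 561) (nat_lit 1581) (.f (nat_lit 525) (nat_lit 524) (nat_lit 3596) (.d (nat_lit 493) (nat_lit 461) (nat_lit 4557) (nat_lit 622) (nat_lit 4589)))))) (.a (.f (nat_lit 557) (nat_lit 556) (nat_lit 2572) (.f (nat_lit 589) (nat_lit 588) (nat_lit 1580) (.f (nat_lit 561) (nat_lit 590) (nat_lit 1581) (.d (nat_lit 562) (nat_lit 526) (nat_lit 3598) (nat_lit 563) (nat_lit 3599))))) (.a s29038 (.a (.p (nat_lit 526) (.a (.f (nat_lit 561) (nat_lit 562) (nat_lit 3598) (.f (nat_lit 590) (nat_lit 589) (nat_lit 1581) (.d (nat_lit 495) (nat_lit 463) (nat_lit 5582) (nat_lit 622) (nat_lit 6638)))) (.a (.f (nat_lit 525) (nat_lit 524) (nat_lit 524) (.f (nat_lit 493) (nat_lit 492) (nat_lit 3564) (.f (nat_lit 590) (nat_lit 622) (nat_lit 7661) (.d (nat_lit 461) (nat_lit 429) (nat_lit 4525) (nat_lit 494) (nat_lit 7629))))) (.d (nat_lit 525) (nat_lit 524) (nat_lit 524) (nat_lit 561) (nat_lit 525))))) (.a (.f (nat_lit 557) (nat_lit 556) (nat_lit 2572) (.f (nat_lit 525) (nat_lit 524) (nat_lit 3596) (.f (nat_lit 526) (nat_lit 561) (nat_lit 525) (.f (nat_lit 589) (nat_lit 588) (nat_lit 1580) (.d (nat_lit 494) (nat_lit 462) (nat_lit 5581) (nat_lit 621) (nat_lit 6637)))))) (.f (nat_lit 557) (nat_lit 556) (nat_lit 2572) (.f (nat_lit 525) (nat_lit 524) (nat_lit 3596) (.f (nat_lit 526) (nat_lit 561) (nat_lit 525) (.f (nat_lit 493) (nat_lit 492) (nat_lit 3564) (.d (nat_lit 461) (nat_lit 429) (nat_lit 4525) (nat_lit 590) (nat_lit 4557)))))))))))) (.a (.p (nat_lit 526) (.a (.d (nat_lit 525) (nat_lit 524) (nat_lit 524) (nat_lit 561) (nat_lit 525)) (.a (.p (nat_lit 558) (.a (.f (nat_lit 557) (nat_lit 556) (nat_lit 2572) (.f (nat_lit 592) (nat_lit 593) (nat_lit 557) (.d (nat_lit 495) (nat_lit 463) (nat_lit 4559) (nat_lit 624) (nat_lit 7663)))) (.a (.f (nat_lit 557) (nat_lit 556) (nat_lit 2572) (.f (nat_lit 561) (nat_lit 562) (nat_lit 3598) (.d (nat_lit 589) (nat_lit 588) (nat_lit 1580) (nat_lit 590) (nat_lit 1581)))) (.f (nat_lit 561) (nat_lit 562) (nat_lit 3598) (.f (nat_lit 590) (nat_lit 589) (nat_lit 1581) (.d (nat_lit 495) (nat_lit 463) (nat_lit 5582) (nat_lit 622) (nat_lit 6638))))))) (.f (nat_lit 525) (nat_lit 524) (nat_lit 524) (.f (nat_lit 496) (nat_lit 497) (nat_lit 2541) (.f (nat_lit 464) (nat_lit 432) (nat_lit 5551) (.f (nat_lit 463) (nat_lit 431) (nat_lit 7599) (.f (nat_lit 592) (nat_lit 495) (nat_lit 7631) (.f (nat_lit 557) (nat_lit 556) (nat_lit 1548) (.d (nat_lit 593) (nat_lit 558) (nat_lit 557) (nat_lit 625) (nat_lit 4592))))))))))) (.p (nat_lit 496) (.a (.f (nat_lit 464) (nat_lit 432) (nat_lit 5551) (.f (nat_lit 465) (nat_lit 433) (nat_lit 6576) (.f (nat_lit 463) (nat_lit 431) (nat_lit 7599) (.f (nat_lit 497) (nat_lit 592) (nat_lit 6608) (.d (nat_lit 462) (nat_lit 461) (nat_lit 461) (nat_lit 498) (nat_lit 462)))))) (.a (.p (nat_lit 495) (.a (.f (nat_lit 463) (nat_lit 431) (nat_lit 4527) (.f (nat_lit 462) (nat_lit 430) (nat_lit 7598) (.f (nat_lit 461) (nat_lit 460) (nat_lit 460) (.d (nat_lit 497) (nat_lit 494) (nat_lit 3533) (nat_lit 498) (nat_lit 3534))))) (.a (.f (nat_lit 464) (nat_lit 432) (nat_lit 5551) (.f (nat_lit 463) (nat_lit 431) (nat_lit 4527) (.f (nat_lit 462) (nat_lit 430) (nat_lit 7598) (.d (nat_lit 461) (nat_lit 460) (nat_lit 460) (nat_lit 497) (nat_lit 461))))) (.a (.f (nat_lit 464) (nat_lit 432) (nat_lit 5551) (.f (nat_lit 465) (nat_lit 433) (nat_lit 6576) (.f (nat_lit 494) (nat_lit 493) (nat_lit 2509) (.d (nat_lit 466) (nat_lit 467) (nat_lit 1487) (nat_lit 497) (nat_lit 2510))))) (.f (nat_lit 464) (nat_lit 432) (nat_lit 5551) (.f (nat_lit 463) (nat_lit 431) (nat_lit 4527) (.f (nat_lit 465) (nat_lit 433) (nat_lit 6576) (.d (nat_lit 466) (nat_lit 467) (nat_lit 1487) (nat_lit 494) (nat_lit 1486))))))))) (.a (.p (nat_lit 495) (.a (.f (nat_lit 463) (nat_lit 431) (nat_lit 4527) (.f (nat_lit 462) (nat_lit 430) (nat_lit 7598) (.f (nat_lit 461) (nat_lit 460) (nat_lit 460) (.d (nat_lit 497) (nat_lit 494) (nat_lit 3533) (nat_lit 498) (nat_lit 3534))))) (.a (.d (nat_lit 463) (nat_lit 431) (nat_lit 4527) (nat_lit 592) (nat_lit 7631)) (.f (nat_lit 592) (nat_lit 624) (nat_lit 7663) (.f (nat_lit 497) (nat_lit 465) (nat_lit 6608) (.d (nat_lit 526) (nat_lit 498) (nat_lit 1518) (nat_lit 525) (nat_lit 2541))))))) (.a (.f (nat_lit 464) (nat_lit 432) (nat_lit 5551) (.f (nat_lit 465) (nat_lit 433) (nat_lit 6576) (.f (nat_lit 592) (nat_lit 497) (nat_lit 6608) (.d (nat_lit 624) (nat_lit 495) (nat_lit 7663) (nat_lit 656) (nat_lit 7695))))) (.a (.f (nat_lit 464) (nat_lit 432) (nat_lit 5551) (.f (nat_lit 463) (nat_lit 431) (nat_lit 7599) (.f (nat_lit 495) (nat_lit 592) (nat_lit 7631) (.f (nat_lit 465) (nat_lit 433) (nat_lit 6576) (.d (nat_lit 466) (nat_lit 467) (nat_lit 1487) (nat_lit 494) (nat_lit 1486)))))) (.f (nat_lit 464) (nat_lit 432) (nat_lit 5551) (.f (nat_lit 463) (nat_lit 431) (nat_lit 7599) (.f (nat_lit 495) (nat_lit 592) (nat_lit 7631) (.f (nat_lit 462) (nat_lit 430) (nat_lit 7598) (.d (nat_lit 461) (nat_lit 460) (nat_lit 460) (nat_lit 497) (nat_lit 461)))))))))))))))))) (.a (.p (nat_lit 526) (.a (.p (nat_lit 496) (.a (.f (nat_lit 525) (nat_lit 497) (nat_lit 2541) (.d (nat_lit 524) (nat_lit 495) (nat_lit 2540) (nat_lit 560) (nat_lit 524))) (.a (.f (nat_lit 525) (nat_lit 497) (nat_lit 2541) (.f (nat_lit 495) (nat_lit 524) (nat_lit 2540) (.d (nat_lit 464) (nat_lit 432) (nat_lit 5551) (nat_lit 591) (nat_lit 6607)))) (.a (.f (nat_lit 525) (nat_lit 497) (nat_lit 2541) (.d (nat_lit 560) (nat_lit 524) (nat_lit 524) (nat_lit 561) (nat_lit 525))) (.f (nat_lit 591) (nat_lit 623) (nat_lit 6639) (.d (nat_lit 464) (nat_lit 432) (nat_lit 5551) (nat_lit 495) (nat_lit 6607))))))) (.a s28164 (.a (.p (nat_lit 496) (.a (.f (nat_lit 525) (nat_lit 497) (nat_lit 2541) (.f (nat_lit 495) (nat_lit 524) (nat_lit 2540) (.d (nat_lit 464) (nat_lit 432) (nat_lit 5551) (nat_lit 591) (nat_lit 6607)))) (.a (.f (nat_lit 525) (nat_lit 497) (nat_lit 2541) (.f (nat_lit 556) (nat_lit 557) (nat_lit 1548) (.f (nat_lit 524) (nat_lit 555) (nat_lit 1547) (.f (nat_lit 491) (nat_lit 492) (nat_lit 3563) (.d (nat_lit 523) (nat_lit 490) (nat_lit 3562) (nat_lit 558) (nat_lit 523)))))) (.f (nat_lit 591) (nat_lit 623) (nat_lit 6639) (.d (nat_lit 464) (nat_lit 432) (nat_lit 5551) (nat_lit 495) (nat_lit 6607)))))) (.a (.p (nat_lit 496) (.a (.f (nat_lit 525) (nat_lit 497) (nat_lit 2541) (.d (nat_lit 560) (nat_lit 524) (nat_lit 524) (nat_lit 561) (nat_lit 525))) (.a (.f (nat_lit 525) (nat_lit 497) (nat_lit 2541) (.f (nat_lit 556) (nat_lit 557) (nat_lit 1548) (.f (nat_lit 524) (nat_lit 555) (nat_lit 1547) (.f (nat_lit 491) (nat_lit 492) (nat_lit 3563) (.d (nat_lit 523) (nat_lit 490) (nat_lit 3562) (nat_lit 558) (nat_lit 523)))))) (.f (nat_lit 591) (nat_lit 623) (nat_lit 6639) (.d (nat_lit 464) (nat_lit 432) (nat_lit 5551) (nat_lit 560) (nat_lit 5583)))))) (.a s29092 s29180)))))) (.a (.p (nat_lit 526) (.a (.p (nat_lit 496) (.a (.f (nat_lit 525) (nat_lit 497) (nat_lit 2541) (.d (nat_lit 524) (nat_lit 495) (nat_lit 2540) (nat_lit 560) (nat_lit 524))) (.a (.f (nat_lit 525) (nat_lit 497) (nat_lit 2541) (.f (nat_lit 495) (nat_lit 524) (nat_lit 2540) (.d (nat_lit 464) (nat_lit 432) (nat_lit 5551) (nat_lit 591) (nat_lit 6607)))) (.a (.f (nat_lit 525) (nat_lit 497) (nat_lit 2541) (.d (nat_lit 560) (nat_lit 524) (nat_lit 524) (nat_lit 561) (nat_lit 525))) (.f (nat_lit 591) (nat_lit 623) (nat_lit 6639) (.d (nat_lit 464) (nat_lit 432) (nat_lit 5551) (nat_lit 495) (nat_lit 6607))))))) (.a s28149 (.a (.p (nat_lit 496) (.a (.f (nat_lit 525) (nat_lit 497) (nat_lit 2541) (.f (nat_lit 495) (nat_lit 524) (nat_lit 2540) (.d (nat_lit 464) (nat_lit 432) (nat_lit 5551) (nat_lit 591) (nat_lit 6607)))) (.a (.f (nat_lit 525) (nat_lit 497) (nat_lit 2541) (.f (nat_lit 556) (nat_lit 557) (nat_lit 1548) (.f (nat_lit 524) (nat_lit 555) (nat_lit 1547) (.d (nat_lit 492) (nat_lit 491) (nat_lit 3563) (nat_lit 493) (nat_lit 3564))))) (.f (nat_lit 591) (nat_lit 623) (nat_lit 6639) (.d (nat_lit 464) (nat_lit 432) (nat_lit 5551) (nat_lit 495) (nat_lit 6607)))))) (.a (.p (nat_lit 496) (.a (.f (nat_lit 525) (nat_lit 497) (nat_lit 2541) (.d (nat_lit 560) (nat_lit 524) (nat_lit 524) (nat_lit 561) (nat_lit 525))) (.a (.f (nat_lit 525) (nat_lit 497) (nat_lit 2541) (.f (nat_lit 556) (nat_lit 557) (nat_lit 1548) (.f (nat_lit 524) (nat_lit 555) (nat_lit 1547) (.d (nat_lit 492) (nat_lit 491) (nat_lit 3563) (nat_lit 493) (nat_lit 3564))))) (.f (nat_lit 591) (nat_lit 623) (nat_lit 6639) (.d (nat_lit 464) (nat_lit 432) (nat_lit 5551) (nat_lit 560) (nat_lit 5583)))))) (.a (.p (nat_lit 495) (.a (.p (nat_lit 464) (.a (.d (nat_lit 432) (nat_lit 463) (nat_lit 6575) (nat_lit 496) (nat_lit 5551)) (.a (.f (nat_lit 463) (nat_lit 432) (nat_lit 6575) (.d (nat_lit 431) (nat_lit 558) (nat_lit 5550) (nat_lit 560) (nat_lit 4527))) (.a (.d (nat_lit 496) (nat_lit 432) (nat_lit 5551) (nat_lit 591) (nat_lit 6607)) (.f (nat_lit 591) (nat_lit 496) (nat_lit 6607) (.f (nat_lit 590) (nat_lit 622) (nat_lit 5614) (.f (nat_lit 558) (nat_lit 463) (nat_lit 5582) (.f (nat_lit 592) (nat_lit 624) (nat_lit 4591) (.d (nat_lit 557) (nat_lit 556) (nat_lit 556) (nat_lit 593) (nat_lit 3629)))))))))) (.a s28121 (.a (.p (nat_lit 591) (.a (.d (nat_lit 496) (nat_lit 464) (nat_lit 6607) (nat_lit 623) (nat_lit 6639)) (.a (.f (nat_lit 623) (nat_lit 494) (nat_lit 7662) (.d (nat_lit 622) (nat_lit 590) (nat_lit 5614) (nat_lit 654) (nat_lit 5646))) (.f (nat_lit 496) (nat_lit 464) (nat_lit 6607) (.f (nat_lit 590) (nat_lit 622) (nat_lit 5614) (.f (nat_lit 463) (nat_lit 558) (nat_lit 5582) (.d (nat_lit 431) (nat_lit 399) (nat_lit 4495) (nat_lit 560) (nat_lit 4527)))))))) (.a (.p (nat_lit 591) (.a (.d (nat_lit 496) (nat_lit 464) (nat_lit 6607) (nat_lit 623) (nat_lit 6639)) (.a (.f (nat_lit 622) (nat_lit 590) (nat_lit 5614) (.f (nat_lit 623) (nat_lit 654) (nat_lit 5646) (.d (nat_lit 624) (nat_lit 592) (nat_lit 4591) (nat_lit 656) (nat_lit 4623)))) (.f (nat_lit 496) (nat_lit 464) (nat_lit 6607) (.f (nat_lit 592) (nat_lit 624) (nat_lit 4591) (.f (nat_lit 560) (nat_lit 463) (nat_lit 7631) (.d (nat_lit 497) (nat_lit 465) (nat_lit 6608) (nat_lit 498) (nat_lit 1518)))))))) (.a (.p (nat_lit 591) (.a (.d (nat_lit 496) (nat_lit 464) (nat_lit 6607) (nat_lit 623) (nat_lit 6639)) (.a (.f (nat_lit 622) (nat_lit 590) (nat_lit 5614) (.f (nat_lit 623) (nat_lit 654) (nat_lit 5646) (.d (nat_lit 624) (nat_lit 592) (nat_lit 4591) (nat_lit 656) (nat_lit 4623)))) (.f (nat_lit 496) (nat_lit 464) (nat_lit 6607) (.f (nat_lit 592) (nat_lit 624) (nat_lit 4591) (.f (nat_lit 590) (nat_lit 622) (nat_lit 5614) (.f (nat_lit 497) (nat_lit 498) (nat_lit 1518) (.f (nat_lit 560) (nat_lit 465) (nat_lit 6608) (.d (nat_lit 561) (nat_lit 562) (nat_lit 1582) (nat_lit 589) (nat_lit 2605)))))))))) (.a (.p (nat_lit 463) (.a (.d (nat_lit 431) (nat_lit 558) (nat_lit 5550) (nat_lit 560) (nat_lit 4527)) (.a (.d (nat_lit 558) (nat_lit 431) (nat_lit 5550) (nat_lit 590) (nat_lit 5582)) (.a (.d (nat_lit 560) (nat_lit 431) (nat_lit 4527) (nat_lit 592) (nat_lit 4559)) (.f (nat_lit 560) (nat_lit 592) (nat_lit 4559) (.f (nat_lit 558) (nat_lit 590) (nat_lit 5582) (.f (nat_lit 561) (nat_lit 562) (nat_lit 3598) (.f (nat_lit 464) (nat_lit 432) (nat_lit 6575) (.d (nat_lit 593) (nat_lit 496) (nat_lit 4560) (nat_lit 594) (nat_lit 558)))))))))) (.p (nat_lit 591) (.a (.d (nat_lit 496) (nat_lit 464) (nat_lit 6607) (nat_lit 623) (nat_lit 6639)) (.a (.f (nat_lit 624) (nat_lit 592) (nat_lit 4591) (.f (nat_lit 623) (nat_lit 656) (nat_lit 4623) (.f (nat_lit 654) (nat_lit 622) (nat_lit 5646) (.d (nat_lit 655) (nat_lit 558) (nat_lit 7694) (nat_lit 686) (nat_lit 5678))))) (.f (nat_lit 496) (nat_lit 464) (nat_lit 6607) (.f (nat_lit 592) (nat_lit 624) (nat_lit 4591) (.f (nat_lit 560) (nat_lit 463) (nat_lit 7631) (.d (nat_lit 497) (nat_lit 465) (nat_lit 6608) (nat_lit 498) (nat_lit 1518))))))))))))))) s28086)))))) (.a (.p (nat_lit 591) (.a (.f (nat_lit 623) (nat_lit 496) (nat_lit 6639) (.f (nat_lit 526) (nat_lit 494) (nat_lit 7662) (.f (nat_lit 655) (nat_lit 558) (nat_lit 7694) (.d (nat_lit 654) (nat_lit 622) (nat_lit 5646) (nat_lit 686) (nat_lit 5678))))) (.a (.p (nat_lit 495) (.a (.f (nat_lit 592) (nat_lit 624) (nat_lit 4591) (.f (nat_lit 463) (nat_lit 560) (nat_lit 4559) (.d (nat_lit 462) (nat_lit 430) (nat_lit 7598) (nat_lit 494) (nat_lit 7630)))) (.a (.f (nat_lit 494) (nat_lit 462) (nat_lit 7630) (.f (nat_lit 623) (nat_lit 526) (nat_lit 7662) (.d (nat_lit 624) (nat_lit 592) (nat_lit 4591) (nat_lit 656) (nat_lit 4623)))) (.a (.f (nat_lit 494) (nat_lit 462) (nat_lit 7630) (.f (nat_lit 623) (nat_lit 526) (nat_lit 7662) (.f (nat_lit 655) (nat_lit 560) (nat_lit 6671) (.d (nat_lit 654) (nat_lit 622) (nat_lit 5646) (nat_lit 686) (nat_lit 5678))))) (.a (.f (nat_lit 592) (nat_lit 624) (nat_lit 4591) (.f (nat_lit 463) (nat_lit 560) (nat_lit 4559) (.f (nat_lit 430) (nat_lit 462) (nat_lit 7598) (.f (nat_lit 431) (nat_lit 398) (nat_lit 7566) (.d (nat_lit 432) (nat_lit 400) (nat_lit 6543) (nat_lit 464) (nat_lit 6575)))))) (.f (nat_lit 592) (nat_lit 624) (nat_lit 4591) (.f (nat_lit 560) (nat_lit 463) (nat_lit 4559) (.f (nat_lit 623) (nat_lit 655) (nat_lit 6671) (.f (nat_lit 526) (nat_lit 494) (nat_lit 7662) (.d (nat_lit 525) (nat_lit 524) (nat_lit 524) (nat_lit 561) (nat_lit 525))))))))))) (.a (.f (nat_lit 623) (nat_lit 496) (nat_lit 6639) (.f (nat_lit 655) (nat_lit 560) (nat_lit 6671) (.d (nat_lit 654) (nat_lit 622) (nat_lit 5646) (nat_lit 686) (nat_lit 5678)))) (.p (nat_lit 495) (.a (.f (nat_lit 592) (nat_lit 624) (nat_lit 4591) (.f (nat_lit 463) (nat_lit 560) (nat_lit 4559) (.d (nat_lit 462) (nat_lit 430) (nat_lit 7598) (nat_lit 494) (nat_lit 7630)))) (.a (.f (nat_lit 464) (nat_lit 496) (nat_lit 6607) (.f (nat_lit 463) (nat_lit 432) (nat_lit 6575) (.d (nat_lit 462) (nat_lit 430) (nat_lit 7598) (nat_lit 494) (nat_lit 7630)))) (.a (.f (nat_lit 592) (nat_lit 624) (nat_lit 4591) (.f (nat_lit 463) (nat_lit 560) (nat_lit 4559) (.f (nat_lit 430) (nat_lit 462) (nat_lit 7598) (.f (nat_lit 431) (nat_lit 398) (nat_lit 7566) (.d (nat_lit 432) (nat_lit 400) (nat_lit 6543) (nat_lit 464) (nat_lit 6575)))))) (.a (.f (nat_lit 496) (nat_lit 464) (nat_lit 6607) (.f (nat_lit 494) (nat_lit 462) (nat_lit 7630) (.f (nat_lit 493) (nat_lit 492) (nat_lit 492) (.f (nat_lit 525) (nat_lit 524) (nat_lit 1516) (.f (nat_lit 526) (nat_lit 497) (nat_lit 2541) (.f (nat_lit 557) (nat_lit 556) (nat_lit 1548) (.f (nat_lit 560) (nat_lit 561) (nat_lit 525) (.f (nat_lit 592) (nat_lit 624) (nat_lit 7663) (.d (nat_lit 593) (nat_lit 558) (nat_lit 557) (nat_lit 625) (nat_lit 4592)))))))))) (.f (nat_lit 496) (nat_lit 464) (nat_lit 6607) (.f (nat_lit 592) (nat_lit 624) (nat_lit 4591) (.f (nat_lit 560) (nat_lit 463) (nat_lit 7631) (.f (nat_lit 593) (nat_lit 625) (nat_lit 4592) (.d (nat_lit 558) (nat_lit 557) (nat_lit 557) (nat_lit 594) (nat_lit 3630))))))))))))))) (.a (.p (nat_lit 526) (.a (.p (nat_lit 496) (.a (.f (nat_lit 525) (nat_lit 497) (nat_lit 2541) (.d (nat_lit 524) (nat_lit 495) (nat_lit 2540) (nat_lit 560) (nat_lit 524))) (.a (.f (nat_lit 525) (nat_lit 497) (nat_lit 2541) (.f (nat_lit 495) (nat_lit 524) (nat_lit 2540) (.d (nat_lit 464) (nat_lit 432) (nat_lit 5551) (nat_lit 591) (nat_lit 6607)))) (.a (.f (nat_lit 525) (nat_lit 497) (nat_lit 2541) (.d (nat_lit 560) (nat_lit 524) (nat_lit 524) (nat_lit 561) (nat_lit 525))) (.f (nat_lit 591) (nat_lit 623) (nat_lit 6639) (.d (nat_lit 464) (nat_lit 432) (nat_lit 5551) (nat_lit 495) (nat_lit 6607))))))) (.a s28164 (.a s28347 (.a s29201 (.a s29092 s29202)))))) (.p (nat_lit 495) (.a (.p (nat_lit 591) (.a (.d (nat_lit 496) (nat_lit 464) (nat_lit 6607) (nat_lit 623) (nat_lit 6639)) (.f (nat_lit 592) (nat_lit 624) (nat_lit 4591) (.f (nat_lit 463) (nat_lit 560) (nat_lit 4559) (.d (nat_lit 462) (nat_lit 430) (nat_lit 7598) (nat_lit 494) (nat_lit 7630)))))) (.a s26489 (.a (.p (nat_lit 591) (.a (.d (nat_lit 496) (nat_lit 464) (nat_lit 6607) (nat_lit 623) (nat_lit 6639)) (.a (.f (nat_lit 494) (nat_lit 462) (nat_lit 7630) (.f (nat_lit 623) (nat_lit 526) (nat_lit 7662) (.d (nat_lit 624) (nat_lit 592) (nat_lit 4591) (nat_lit 656) (nat_lit 4623)))) (.f (nat_lit 464) (nat_lit 496) (nat_lit 6607) (.f (nat_lit 463) (nat_lit 432) (nat_lit 6575) (.d (nat_lit 462) (nat_lit 430) (nat_lit 7598) (nat_lit 494) (nat_lit 7630))))))) (.a (.p (nat_lit 591) (.a (.d (nat_lit 496) (nat_lit 464) (nat_lit 6607) (nat_lit 623) (nat_lit 6639)) (.a (.f (nat_lit 494) (nat_lit 462) (nat_lit 7630) (.f (nat_lit 623) (nat_lit 526) (nat_lit 7662) (.f (nat_lit 655) (nat_lit 560) (nat_lit 6671) (.d (nat_lit 656) (nat_lit 624) (nat_lit 4623) (nat_lit 688) (nat_lit 4655))))) (.f (nat_lit 464) (nat_lit 496) (nat_lit 6607) (.f (nat_lit 463) (nat_lit 432) (nat_lit 6575) (.d (nat_lit 462) (nat_lit 430) (nat_lit 7598) (nat_lit 494) (nat_lit 7630))))))) (.a (.p (nat_lit 591) (.a (.d (nat_lit 496) (nat_lit 464) (nat_lit 6607) (nat_lit 623) (nat_lit 6639)) (.a (.f (nat_lit 592) (nat_lit 624) (nat_lit 4591) (.f (nat_lit 463) (nat_lit 560) (nat_lit 4559) (.f (nat_lit 430) (nat_lit 462) (nat_lit 7598) (.f (nat_lit 431) (nat_lit 398) (nat_lit 7566) (.d (nat_lit 432) (nat_lit 400) (nat_lit 6543) (nat_lit 464) (nat_lit 6575)))))) (.f (nat_lit 623) (nat_lit 496) (nat_lit 6639) (.d (nat_lit 624) (nat_lit 592) (nat_lit 4591) (nat_lit 656) (nat_lit 4623)))))) (.a (.p (nat_lit 591) (.a (.d (nat_lit 496) (nat_lit 464) (nat_lit 6607) (nat_lit 623) (nat_lit 6639)) (.a (.f (nat_lit 494) (nat_lit 462) (nat_lit 7630) (.f (nat_lit 623) (nat_lit 526) (nat_lit 7662) (.d (nat_lit 624) (nat_lit 592) (nat_lit 4591) (nat_lit 656) (nat_lit 4623)))) (.f (nat_lit 496) (nat_lit 464) (nat_lit 6607) (.f (nat_lit 494) (nat_lit 462) (nat_lit 7630) (.f (nat_lit 493) (nat_lit 492) (nat_lit 492) (.f (nat_lit 525) (nat_lit 524) (nat_lit 1516) (.f (nat_lit 526) (nat_lit 497) (nat_lit 2541) (.f (nat_lit 557) (nat_lit 556) (nat_lit 1548) (.f (nat_lit 560) (nat_lit 561) (nat_lit 525) (.f (nat_lit 592) (nat_lit 624) (nat_lit 7663) (.d (nat_lit 593) (nat_lit 558) (nat_lit 557) (nat_lit 625) (nat_lit 4592))))))))))))) (.p (nat_lit 591) (.a (.d (nat_lit 496) (nat_lit 464) (nat_lit 6607) (nat_lit 623) (nat_lit 6639)) (.a (.f (nat_lit 592) (nat_lit 624) (nat_lit 4591) (.f (nat_lit 560) (nat_lit 463) (nat_lit 4559) (.f (nat_lit 623) (nat_lit 655) (nat_lit 6671) (.f (nat_lit 526) (nat_lit 494) (nat_lit 7662) (.d (nat_lit 525) (nat_lit 524) (nat_lit 524) (nat_lit 561) (nat_lit 525)))))) (.f (nat_lit 496) (nat_lit 464) (nat_lit 6607) (.f (nat_lit 592) (nat_lit 624) (nat_lit 4591) (.f (nat_lit 560) (nat_lit 463) (nat_lit 7631) (.f (nat_lit 593) (nat_lit 625) (nat_lit 4592) (.d (nat_lit 558) (nat_lit 557) (nat_lit 557) (nat_lit 594) (nat_lit 3630)))))))))))))))))))))))))))))))))) (.a (.p (nat_lit 526) (.a (.p (nat_lit 529) (.a (.f (nat_lit 561) (nat_lit 562) (nat_lit 526) (.f (nat_lit 497) (nat_lit 498) (nat_lit 2542) (.d (nat_lit 525) (nat_lit 496) (nat_lit 2541) (nat_lit 560) (nat_lit 525)))) (.a (.f (nat_lit 493) (nat_lit 494) (nat_lit 3565) (.f (nat_lit 525) (nat_lit 492) (nat_lit 3564) (.d (nat_lit 557) (nat_lit 556) (nat_lit 1548) (nat_lit 558) (nat_lit 1549)))) (.f (nat_lit 558) (nat_lit 557) (nat_lit 1549) (.f (nat_lit 559) (nat_lit 530) (nat_lit 1550) (.f (nat_lit 494) (nat_lit 493) (nat_lit 3565) (.d (nat_lit 462) (nat_lit 430) (nat_lit 4526) (nat_lit 591) (nat_lit 4558)))))))) (.a s28179 (.a s28349 (.a s28972 (.a s29215 (.a s29216 (.a (.p (nat_lit 525) (.a (.f (nat_lit 560) (nat_lit 561) (nat_lit 525) (.f (nat_lit 524) (nat_lit 559) (nat_lit 524) (.d (nat_lit 492) (nat_lit 491) (nat_lit 3563) (nat_lit 493) (nat_lit 3564)))) (.a (.f (nat_lit 492) (nat_lit 493) (nat_lit 3564) (.f (nat_lit 524) (nat_lit 491) (nat_lit 3563) (.d (nat_lit 556) (nat_lit 555) (nat_lit 1547) (nat_lit 557) (nat_lit 1548)))) (.f (nat_lit 557) (nat_lit 556) (nat_lit 1548) (.f (nat_lit 529) (nat_lit 558) (nat_lit 1549) (.d (nat_lit 561) (nat_lit 560) (nat_lit 525) (nat_lit 562) (nat_lit 526))))))) (.a s29217 (.a s28218 (.a s29225 s28369))))))))))) (.a (.p (nat_lit 529) (.a (.p (nat_lit 559) (.a (.f (nat_lit 530) (nat_lit 558) (nat_lit 1550) (.f (nat_lit 495) (nat_lit 494) (nat_lit 3566) (.d (nat_lit 531) (nat_lit 496) (nat_lit 3567) (nat_lit 560) (nat_lit 1551)))) (.a (.f (nat_lit 530) (nat_lit 558) (nat_lit 1550) (.f (nat_lit 560) (nat_lit 531) (nat_lit 1551) (.f (nat_lit 495) (nat_lit 494) (nat_lit 3566) (.d (nat_lit 463) (nat_lit 431) (nat_lit 4527) (nat_lit 592) (nat_lit 4559))))) (.a (.f (nat_lit 530) (nat_lit 558) (nat_lit 1550) (.f (nat_lit 495) (nat_lit 494) (nat_lit 3566) (.f (nat_lit 496) (nat_lit 531) (nat_lit 3567) (.d (nat_lit 464) (nat_lit 432) (nat_lit 5551) (nat_lit 591) (nat_lit 6607))))) (.a (.f (nat_lit 530) (nat_lit 558) (nat_lit 1550) (.f (nat_lit 531) (nat_lit 560) (nat_lit 1551) (.d (nat_lit 563) (nat_lit 562) (nat_lit 527) (nat_lit 564) (nat_lit 528)))) (.a (.p (nat_lit 495) (.a (.p (nat_lit 558) (.a (.d (nat_lit 557) (nat_lit 556) (nat_lit 2572) (nat_lit 560) (nat_lit 2573)) (.f (nat_lit 463) (nat_lit 590) (nat_lit 5582) (.f (nat_lit 464) (nat_lit 432) (nat_lit 6575) (.f (nat_lit 496) (nat_lit 591) (nat_lit 6607) (.f (nat_lit 462) (nat_lit 430) (nat_lit 7598) (.d (nat_lit 461) (nat_lit 460) (nat_lit 460) (nat_lit 497) (nat_lit 461)))))))) (.a (.p (nat_lit 558) (.a (.d (nat_lit 557) (nat_lit 556) (nat_lit 2572) (nat_lit 560) (nat_lit 2573)) (.f (nat_lit 463) (nat_lit 590) (nat_lit 5582) (.f (nat_lit 430) (nat_lit 462) (nat_lit 7598) (.f (nat_lit 431) (nat_lit 398) (nat_lit 7566) (.d (nat_lit 432) (nat_lit 400) (nat_lit 6543) (nat_lit 464) (nat_lit 6575))))))) (.a (.p (nat_lit 494) (.a (.d (nat_lit 493) (nat_lit 492) (nat_lit 492) (nat_lit 496) (nat_lit 493)) (.f (nat_lit 591) (nat_lit 462) (nat_lit 7630) (.f (nat_lit 590) (nat_lit 622) (nat_lit 5614) (.f (nat_lit 558) (nat_lit 463) (nat_lit 5582) (.f (nat_lit 592) (nat_lit 624) (nat_lit 4591) (.d (nat_lit 557) (nat_lit 556) (nat_lit 556) (nat_lit 593) (nat_lit 3629)))))))) (.a (.p (nat_lit 494) (.a (.d (nat_lit 493) (nat_lit 492) (nat_lit 492) (nat_lit 496) (nat_lit 493)) (.f (nat_lit 591) (nat_lit 462) (nat_lit 7630) (.f (nat_lit 592) (nat_lit 624) (nat_lit 4591) (.f (nat_lit 560) (nat_lit 463) (nat_lit 4559) (.f (nat_lit 590) (nat_lit 622) (nat_lit 5614) (.d (nat_lit 561) (nat_lit 562) (nat_lit 1582) (nat_lit 589) (nat_lit 2605)))))))) (.a (.p (nat_lit 494) (.a (.d (nat_lit 493) (nat_lit 492) (nat_lit 492) (nat_lit 496) (nat_lit 493)) (.f (nat_lit 591) (nat_lit 462) (nat_lit 7630) (.f (nat_lit 624) (nat_lit 592) (nat_lit 4591) (.f (nat_lit 623) (nat_lit 656) (nat_lit 4623) (.d (nat_lit 622) (nat_lit 590) (nat_lit 5614) (nat_lit 654) (nat_lit 5646))))))) (.a (.p (nat_lit 558) (.a (.d (nat_lit 557) (nat_lit 556) (nat_lit 2572) (nat_lit 560) (nat_lit 2573)) (.f (nat_lit 590) (nat_lit 463) (nat_lit 5582) (.d (nat_lit 622) (nat_lit 591) (nat_lit 5614) (nat_lit 654) (nat_lit 6670))))) (.p (nat_lit 494) (.a (.d (nat_lit 493) (nat_lit 492) (nat_lit 492) (nat_lit 496) (nat_lit 493)) (.f (nat_lit 462) (nat_lit 591) (nat_lit 7630) (.d (nat_lit 430) (nat_lit 398) (nat_lit 4494) (nat_lit 463) (nat_lit 7598)))))))))))) (.p (nat_lit 496) (.a (.f (nat_lit 464) (nat_lit 432) (nat_lit 5551) (.d (nat_lit 591) (nat_lit 495) (nat_lit 6607) (nat_lit 560) (nat_lit 5583))) (.a (.f (nat_lit 464) (nat_lit 432) (nat_lit 5551) (.d (nat_lit 591) (nat_lit 495) (nat_lit 6607) (nat_lit 623) (nat_lit 6639))) (.a (.f (nat_lit 464) (nat_lit 432) (nat_lit 5551) (.d (nat_lit 591) (nat_lit 560) (nat_lit 5583) (nat_lit 623) (nat_lit 6639))) (.a (.p (nat_lit 495) (.a (.f (nat_lit 591) (nat_lit 623) (nat_lit 6639) (.d (nat_lit 494) (nat_lit 462) (nat_lit 7630) (nat_lit 493) (nat_lit 493))) (.a (.f (nat_lit 591) (nat_lit 623) (nat_lit 6639) (.f (nat_lit 592) (nat_lit 624) (nat_lit 4591) (.f (nat_lit 560) (nat_lit 463) (nat_lit 7631) (.f (nat_lit 530) (nat_lit 531) (nat_lit 1551) (.f (nat_lit 562) (nat_lit 563) (nat_lit 527) (.d (nat_lit 590) (nat_lit 561) (nat_lit 1582) (nat_lit 622) (nat_lit 5614))))))) (.d (nat_lit 494) (nat_lit 493) (nat_lit 493) (nat_lit 530) (nat_lit 3566))))) (.p (nat_lit 560) (.a (.f (nat_lit 464) (nat_lit 432) (nat_lit 5551) (.f (nat_lit 561) (nat_lit 593) (nat_lit 4560) (.f (nat_lit 562) (nat_lit 563) (nat_lit 3599) (.f (nat_lit 465) (nat_lit 433) (nat_lit 6576) (.d (nat_lit 497) (nat_lit 592) (nat_lit 5584) (nat_lit 594) (nat_lit 4561)))))) (.a (.f (nat_lit 464) (nat_lit 432) (nat_lit 5551) (.f (nat_lit 530) (nat_lit 531) (nat_lit 1551) (.f (nat_lit 495) (nat_lit 494) (nat_lit 3566) (.f (nat_lit 463) (nat_lit 431) (nat_lit 4527) (.f (nat_lit 462) (nat_lit 430) (nat_lit 7598) (.d (nat_lit 461) (nat_lit 460) (nat_lit 460) (nat_lit 497) (nat_lit 461))))))) (.f (nat_lit 530) (nat_lit 531) (nat_lit 1551) (.f (nat_lit 495) (nat_lit 494) (nat_lit 3566) (.d (nat_lit 463) (nat_lit 431) (nat_lit 4527) (nat_lit 592) (nat_lit 7631)))))))))))))))))) (.a (.p (nat_lit 558) (.a (.f (nat_lit 526) (nat_lit 557) (nat_lit 1549) (.f (nat_lit 494) (nat_lit 493) (nat_lit 3565) (.d (nat_lit 530) (nat_lit 495) (nat_lit 3566) (nat_lit 559) (nat_lit 1550)))) (.a (.f (nat_lit 559) (nat_lit 530) (nat_lit 1550) (.d (nat_lit 557) (nat_lit 556) (nat_lit 2572) (nat_lit 560) (nat_lit 2573))) (.a (.f (nat_lit 526) (nat_lit 557) (nat_lit 1549) (.f (nat_lit 494) (nat_lit 493) (nat_lit 3565) (.f (nat_lit 495) (nat_lit 530) (nat_lit 3566) (.d (nat_lit 463) (nat_lit 431) (nat_lit 5550) (nat_lit 590) (nat_lit 6606))))) (.a (.f (nat_lit 557) (nat_lit 526) (nat_lit 1549) (.d (nat_lit 559) (nat_lit 556) (nat_lit 2572) (nat_lit 560) (nat_lit 2573))) (.f (nat_lit 530) (nat_lit 559) (nat_lit 1550) (.f (nat_lit 562) (nat_lit 563) (nat_lit 527) (.f (nat_lit 526) (nat_lit 561) (nat_lit 526) (.d (nat_lit 494) (nat_lit 493) (nat_lit 3565) (nat_lit 495) (nat_lit 3566)))))))))) (.a (.p (nat_lit 494) (.a (.f (nat_lit 526) (nat_lit 493) (nat_lit 3565) (.f (nat_lit 558) (nat_lit 557) (nat_lit 1549) (.d (nat_lit 530) (nat_lit 495) (nat_lit 3566) (nat_lit 559) (nat_lit 1550)))) (.a (.f (nat_lit 495) (nat_lit 530) (nat_lit 3566) (.d (nat_lit 493) (nat_lit 492) (nat_lit 492) (nat_lit 496) (nat_lit 493))) (.a (.f (nat_lit 526) (nat_lit 493) (nat_lit 3565) (.f (nat_lit 558) (nat_lit 557) (nat_lit 1549) (.f (nat_lit 559) (nat_lit 530) (nat_lit 1550) (.d (nat_lit 462) (nat_lit 430) (nat_lit 4526) (nat_lit 591) (nat_lit 4558))))) (.a (.f (nat_lit 493) (nat_lit 526) (nat_lit 3565) (.d (nat_lit 495) (nat_lit 492) (nat_lit 492) (nat_lit 496) (nat_lit 493))) (.f (nat_lit 530) (nat_lit 495) (nat_lit 3566) (.f (nat_lit 562) (nat_lit 563) (nat_lit 527) (.f (nat_lit 526) (nat_lit 561) (nat_lit 526) (.d (nat_lit 558) (nat_lit 557) (nat_lit 1549) (nat_lit 559) (nat_lit 1550)))))))))) (.a (.p (nat_lit 526) (.a (.f (nat_lit 494) (nat_lit 493) (nat_lit 3565) (.f (nat_lit 495) (nat_lit 530) (nat_lit 3566) (.f (nat_lit 558) (nat_lit 557) (nat_lit 1549) (.d (nat_lit 463) (nat_lit 431) (nat_lit 5550) (nat_lit 590) (nat_lit 6606))))) s28986)) (.a (.p (nat_lit 497) (.a (.f (nat_lit 526) (nat_lit 498) (nat_lit 2542) (.f (nat_lit 558) (nat_lit 557) (nat_lit 1549) (.f (nat_lit 559) (nat_lit 530) (nat_lit 1550) (.f (nat_lit 494) (nat_lit 493) (nat_lit 3565) (.d (nat_lit 462) (nat_lit 430) (nat_lit 4526) (nat_lit 591) (nat_lit 4558)))))) (.a (.p (nat_lit 530) (.a (.f (nat_lit 562) (nat_lit 563) (nat_lit 527) (.f (nat_lit 465) (nat_lit 433) (nat_lit 4529) (.d (nat_lit 594) (nat_lit 498) (nat_lit 7633) (nat_lit 561) (nat_lit 4561)))) (.a (.f (nat_lit 562) (nat_lit 563) (nat_lit 527) (.f (nat_lit 465) (nat_lit 433) (nat_lit 4529) (.d (nat_lit 594) (nat_lit 498) (nat_lit 7633) (nat_lit 626) (nat_lit 7665)))) (.a (.f (nat_lit 559) (nat_lit 558) (nat_lit 1550) (.f (nat_lit 560) (nat_lit 531) (nat_lit 1551) (.f (nat_lit 592) (nat_lit 624) (nat_lit 6640) (.d (nat_lit 465) (nat_lit 433) (nat_lit 5552) (nat_lit 561) (nat_lit 5584))))) (.f (nat_lit 559) (nat_lit 558) (nat_lit 1550) (.f (nat_lit 531) (nat_lit 560) (nat_lit 1551) (.d (nat_lit 563) (nat_lit 562) (nat_lit 527) (nat_lit 564) (nat_lit 528)))))))) (.a (.p (nat_lit 592) (.a (.f (nat_lit 560) (nat_lit 624) (nat_lit 6640) (.d (nat_lit 465) (nat_lit 433) (nat_lit 5552) (nat_lit 561) (nat_lit 5584))) (.a (.f (nat_lit 526) (nat_lit 498) (nat_lit 2542) (.f (nat_lit 561) (nat_lit 562) (nat_lit 526) (.f (nat_lit 593) (nat_lit 624) (nat_lit 5616) (.d (nat_lit 496) (nat_lit 464) (nat_lit 7632) (nat_lit 625) (nat_lit 7664))))) (.a (.f (nat_lit 560) (nat_lit 624) (nat_lit 6640) (.d (nat_lit 465) (nat_lit 433) (nat_lit 5552) (nat_lit 496) (nat_lit 6608))) (.f (nat_lit 526) (nat_lit 498) (nat_lit 2542) (.f (nat_lit 561) (nat_lit 562) (nat_lit 526) (.f (nat_lit 465) (nat_lit 560) (nat_lit 5584) (.f (nat_lit 432) (nat_lit 464) (nat_lit 7600) (.f (nat_lit 433) (nat_lit 400) (nat_lit 7568) (.d (nat_lit 434) (nat_lit 402) (nat_lit 6545) (nat_lit 466) (nat_lit 6577))))))))))) (.p (nat_lit 530) (.a (.f (nat_lit 562) (nat_lit 563) (nat_lit 527) (.f (nat_lit 561) (nat_lit 526) (nat_lit 526) (.d (nat_lit 465) (nat_lit 433) (nat_lit 4529) (nat_lit 594) (nat_lit 4561)))) (.a (.f (nat_lit 559) (nat_lit 558) (nat_lit 1550) (.f (nat_lit 560) (nat_lit 531) (nat_lit 1551) (.f (nat_lit 592) (nat_lit 624) (nat_lit 6640) (.d (nat_lit 465) (nat_lit 433) (nat_lit 5552) (nat_lit 561) (nat_lit 5584))))) (.f (nat_lit 559) (nat_lit 558) (nat_lit 1550) (.f (nat_lit 531) (nat_lit 560) (nat_lit 1551) (.d (nat_lit 563) (nat_lit 562) (nat_lit 527) (nat_lit 564) (nat_lit 528))))))))))) (.a (.p (nat_lit 526) (.a s28103 (.a s28186 (.a s28367 (.a s28986 (.a s29343 (.a s29345 (.a s29347 s29360)))))))) (.a (.p (nat_lit 496) (.a (.p (nat_lit 526) (.a (.f (nat_lit 561) (nat_lit 562) (nat_lit 526) (.f (nat_lit 464) (nat_lit 432) (nat_lit 4528) (.d (nat_lit 497) (nat_lit 498) (nat_lit 2542) (nat_lit 593) (nat_lit 7632)))) (.a (.f (nat_lit 558) (nat_lit 557) (nat_lit 1549) (.f (nat_lit 559) (nat_lit 530) (nat_lit 1550) (.f (nat_lit 591) (nat_lit 623) (nat_lit 6639) (.d (nat_lit 464) (nat_lit 432) (nat_lit 5551) (nat_lit 560) (nat_lit 5583))))) (.f (nat_lit 558) (nat_lit 557) (nat_lit 1549) (.f (nat_lit 497) (nat_lit 498) (nat_lit 2542) (.f (nat_lit 561) (nat_lit 562) (nat_lit 526) (.f (nat_lit 593) (nat_lit 625) (nat_lit 7664) (.f (nat_lit 592) (nat_lit 624) (nat_lit 5616) (.f (nat_lit 560) (nat_lit 465) (nat_lit 6608) (.d (nat_lit 594) (nat_lit 559) (nat_lit 558) (nat_lit 626) (nat_lit 4593))))))))))) (.a (.p (nat_lit 526) (.a (.f (nat_lit 561) (nat_lit 562) (nat_lit 526) (.f (nat_lit 464) (nat_lit 432) (nat_lit 4528) (.d (nat_lit 497) (nat_lit 498) (nat_lit 2542) (nat_lit 593) (nat_lit 7632)))) (.a (.f (nat_lit 558) (nat_lit 557) (nat_lit 1549) (.f (nat_lit 559) (nat_lit 530) (nat_lit 1550) (.f (nat_lit 591) (nat_lit 623) (nat_lit 6639) (.d (nat_lit 464) (nat_lit 432) (nat_lit 5551) (nat_lit 495) (nat_lit 6607))))) (.f (nat_lit 558) (nat_lit 557) (nat_lit 1549) (.f (nat_lit 530) (nat_lit 559) (nat_lit 1550) (.d (nat_lit 562) (nat_lit 561) (nat_lit 526) (nat_lit 563) (nat_lit 527))))))) (.a (.p (nat_lit 559) (.a (.f (nat_lit 464) (nat_lit 432) (nat_lit 5551) (.d (nat_lit 591) (nat_lit 495) (nat_lit 6607) (nat_lit 560) (nat_lit 5583))) (.a (.f (nat_lit 464) (nat_lit 432) (nat_lit 5551) (.d (nat_lit 591) (nat_lit 495) (nat_lit 6607) (nat_lit 623) (nat_lit 6639))) (.a (.f (nat_lit 464) (nat_lit 432) (nat_lit 5551) (.d (nat_lit 591) (nat_lit 560) (nat_lit 5583) (nat_lit 623) (nat_lit 6639))) (.f (nat_lit 530) (nat_lit 558) (nat_lit 1550) (.d (nat_lit 531) (nat_lit 495) (nat_lit 3567) (nat_lit 560) (nat_lit 1551))))))) (.a (.p (nat_lit 561) (.a (.f (nat_lit 593) (nat_lit 625) (nat_lit 7664) (.d (nat_lit 464) (nat_lit 432) (nat_lit 4528) (nat_lit 497) (nat_lit 7632))) (.f (nat_lit 562) (nat_lit 526) (nat_lit 526) (.d (nat_lit 563) (nat_lit 530) (nat_lit 527) (nat_lit 560) (nat_lit 3599))))) (.a (.p (nat_lit 561) (.a (.f (nat_lit 593) (nat_lit 625) (nat_lit 7664) (.d (nat_lit 464) (nat_lit 432) (nat_lit 4528) (nat_lit 497) (nat_lit 7632))) (.f (nat_lit 562) (nat_lit 526) (nat_lit 526) (.d (nat_lit 563) (nat_lit 560) (nat_lit 3599) (nat_lit 564) (nat_lit 3600))))) (.p (nat_lit 526) (.a (.f (nat_lit 558) (nat_lit 557) (nat_lit 1549) (.f (nat_lit 497) (nat_lit 498) (nat_lit 2542) (.f (nat_lit 561) (nat_lit 562) (nat_lit 526) (.f (nat_lit 593) (nat_lit 625) (nat_lit 7664) (.f (nat_lit 592) (nat_lit 624) (nat_lit 5616) (.f (nat_lit 560) (nat_lit 465) (nat_lit 6608) (.d (nat_lit 594) (nat_lit 559) (nat_lit 558) (nat_lit 626) (nat_lit 4593)))))))) (.a (.f (nat_lit 558) (nat_lit 557) (nat_lit 1549) (.f (nat_lit 530) (nat_lit 559) (nat_lit 1550) (.d (nat_lit 562) (nat_lit 561) (nat_lit 526) (nat_lit 563) (nat_lit 527)))) (.a (.f (nat_lit 497) (nat_lit 498) (nat_lit 2542) (.f (nat_lit 561) (nat_lit 562) (nat_lit 526) (.f (nat_lit 593) (nat_lit 625) (nat_lit 7664) (.f (nat_lit 592) (nat_lit 624) (nat_lit 5616) (.f (nat_lit 465) (nat_lit 560) (nat_lit 6608) (.f (nat_lit 433) (nat_lit 401) (nat_lit 5520) (.d (nat_lit 434) (nat_lit 402) (nat_lit 6545) (nat_lit 466) (nat_lit 6577)))))))) (.f (nat_lit 497) (nat_lit 498) (nat_lit 2542) (.f (nat_lit 558) (nat_lit 557) (nat_lit 1549) (.f (nat_lit 530) (nat_lit 559) (nat_lit 1550) (.d (nat_lit 531) (nat_lit 495) (nat_lit 3567) (nat_lit 532) (nat_lit 3568))))))))))))))) (.a (.p (nat_lit 558) (.a (.f (nat_lit 526) (nat_lit 557) (nat_lit 1549) (.f (nat_lit 494) (nat_lit 493) (nat_lit 3565) (.d (nat_lit 530) (nat_lit 495) (nat_lit 3566) (nat_lit 559) (nat_lit 1550)))) (.a (.f (nat_lit 559) (nat_lit 530) (nat_lit 1550) (.d (nat_lit 557) (nat_lit 556) (nat_lit 2572) (nat_lit 560) (nat_lit 2573))) (.a (.f (nat_lit 526) (nat_lit 557) (nat_lit 1549) (.f (nat_lit 494) (nat_lit 493) (nat_lit 3565) (.f (nat_lit 495) (nat_lit 530) (nat_lit 3566) (.d (nat_lit 463) (nat_lit 431) (nat_lit 5550) (nat_lit 590) (nat_lit 6606))))) (.a (.f (nat_lit 557) (nat_lit 526) (nat_lit 1549) (.d (nat_lit 559) (nat_lit 556) (nat_lit 2572) (nat_lit 560) (nat_lit 2573))) (.f (nat_lit 530) (nat_lit 559) (nat_lit 1550) (.f (nat_lit 495) (nat_lit 494) (nat_lit 3566) (.f (nat_lit 531) (nat_lit 496) (nat_lit 3567) (.d (nat_lit 563) (nat_lit 562) (nat_lit 527) (nat_lit 564) (nat_lit 528)))))))))) (.a (.p (nat_lit 530) (.a (.f (nat_lit 562) (nat_lit 563) (nat_lit 527) (.f (nat_lit 526) (nat_lit 561) (nat_lit 526) (.d (nat_lit 494) (nat_lit 493) (nat_lit 3565) (nat_lit 495) (nat_lit 3566)))) (.a (.f (nat_lit 495) (nat_lit 494) (nat_lit 3566) (.f (nat_lit 531) (nat_lit 496) (nat_lit 3567) (.d (nat_lit 563) (nat_lit 562) (nat_lit 527) (nat_lit 564) (nat_lit 528)))) (.a (.f (nat_lit 563) (nat_lit 562) (nat_lit 527) (.f (nat_lit 531) (nat_lit 564) (nat_lit 528) (.f (nat_lit 560) (nat_lit 559) (nat_lit 1551) (.f (nat_lit 532) (nat_lit 561) (nat_lit 1552) (.f (nat_lit 497) (nat_lit 496) (nat_lit 3568) (.d (nat_lit 498) (nat_lit 526) (nat_lit 2542) (nat_lit 533) (nat_lit 3569))))))) (.a (.f (nat_lit 495) (nat_lit 494) (nat_lit 3566) (.f (nat_lit 531) (nat_lit 496) (nat_lit 3567) (.f (nat_lit 560) (nat_lit 559) (nat_lit 1551) (.f (nat_lit 532) (nat_lit 561) (nat_lit 1552) (.d (nat_lit 564) (nat_lit 563) (nat_lit 528) (nat_lit 565) (nat_lit 529)))))) (.f (nat_lit 495) (nat_lit 494) (nat_lit 3566) (.f (nat_lit 531) (nat_lit 496) (nat_lit 3567) (.f (nat_lit 560) (nat_lit 559) (nat_lit 1551) (.f (nat_lit 532) (nat_lit 561) (nat_lit 1552) (.f (nat_lit 501) (nat_lit 500) (nat_lit 2545) (.f (nat_lit 533) (nat_lit 502) (nat_lit 2546) (.d (nat_lit 565) (nat_lit 564) (nat_lit 529) (nat_lit 566) (nat_lit 530))))))))))))) (.p (nat_lit 494) (.a (.f (nat_lit 526) (nat_lit 493) (nat_lit 3565) (.f (nat_lit 558) (nat_lit 557) (nat_lit 1549) (.d (nat_lit 530) (nat_lit 495) (nat_lit 3566) (nat_lit 559) (nat_lit 1550)))) (.a (.f (nat_lit 495) (nat_lit 530) (nat_lit 3566) (.d (nat_lit 493) (nat_lit 492) (nat_lit 492) (nat_lit 496) (nat_lit 493))) (.a (.f (nat_lit 526) (nat_lit 493) (nat_lit 3565) (.f (nat_lit 558) (nat_lit 557) (nat_lit 1549) (.f (nat_lit 559) (nat_lit 530) (nat_lit 1550) (.d (nat_lit 462) (nat_lit 430) (nat_lit 4526) (nat_lit 591) (nat_lit 4558))))) (.a (.f (nat_lit 493) (nat_lit 526) (nat_lit 3565) (.d (nat_lit 495) (nat_lit 492) (nat_lit 492) (nat_lit 496) (nat_lit 493))) (.f (nat_lit 530) (nat_lit 495) (nat_lit 3566) (.f (nat_lit 559) (nat_lit 558) (nat_lit 1550) (.f (nat_lit 531) (nat_lit 560) (nat_lit 1551) (.f (nat_lit 564) (nat_lit 563) (nat_lit 528) (.f (nat_lit 532) (nat_lit 565) (nat_lit 529) (.f (nat_lit 501) (nat_lit 500) (nat_lit 2545) (.f (nat_lit 533) (nat_lit 502) (nat_lit 2546) (.d (nat_lit 497) (nat_lit 496) (nat_lit 3568) (nat_lit 498) (nat_lit 3569)))))))))))))))))))))))) (.a (.p (nat_lit 526) (.a s28087 (.a s28178 (.a s28348 (.a s28971 (.a (.p (nat_lit 525) (.a (.f (nat_lit 560) (nat_lit 561) (nat_lit 525) (.f (nat_lit 524) (nat_lit 559) (nat_lit 524) (.d (nat_lit 492) (nat_lit 491) (nat_lit 3563) (nat_lit 493) (nat_lit 3564)))) (.a (.f (nat_lit 492) (nat_lit 493) (nat_lit 3564) (.f (nat_lit 524) (nat_lit 491) (nat_lit 3563) (.d (nat_lit 556) (nat_lit 555) (nat_lit 1547) (nat_lit 557) (nat_lit 1548)))) (.f (nat_lit 557) (nat_lit 556) (nat_lit 1548) (.f (nat_lit 529) (nat_lit 558) (nat_lit 1549) (.d (nat_lit 561) (nat_lit 560) (nat_lit 525) (nat_lit 562) (nat_lit 526))))))) (.a (.p (nat_lit 529) (.a s28103 (.a s28186 (.a s28367 (.a s28986 (.a s29343 (.a s29345 (.a s29347 s29360)))))))) (.a s28218 (.a (.p (nat_lit 525) (.a (.f (nat_lit 560) (nat_lit 561) (nat_lit 525) (.f (nat_lit 524) (nat_lit 559) (nat_lit 524) (.d (nat_lit 492) (nat_lit 491) (nat_lit 3563) (nat_lit 493) (nat_lit 3564)))) (.a (.f (nat_lit 493) (nat_lit 492) (nat_lit 3564) (.f (nat_lit 494) (nat_lit 529) (nat_lit 3565) (.f (nat_lit 496) (nat_lit 497) (nat_lit 2541) (.f (nat_lit 495) (nat_lit 524) (nat_lit 2540) (.f (nat_lit 461) (nat_lit 460) (nat_lit 3532) (.d (nat_lit 429) (nat_lit 397) (nat_lit 4493) (nat_lit 558) (nat_lit 4525))))))) (.a (.f (nat_lit 496) (nat_lit 497) (nat_lit 2541) (.f (nat_lit 495) (nat_lit 524) (nat_lit 2540) (.f (nat_lit 560) (nat_lit 561) (nat_lit 525) (.d (nat_lit 463) (nat_lit 431) (nat_lit 4527) (nat_lit 592) (nat_lit 7631))))) (.f (nat_lit 493) (nat_lit 492) (nat_lit 3564) (.f (nat_lit 529) (nat_lit 494) (nat_lit 3565) (.d (nat_lit 561) (nat_lit 560) (nat_lit 525) (nat_lit 562) (nat_lit 526)))))))) s28992))))))))) (.a (.p (nat_lit 526) (.a (.p (nat_lit 529) (.a (.f (nat_lit 494) (nat_lit 493) (nat_lit 3565) (.f (nat_lit 558) (nat_lit 557) (nat_lit 1549) (.d (nat_lit 530) (nat_lit 495) (nat_lit 3566) (nat_lit 559) (nat_lit 1550)))) (.f (nat_lit 561) (nat_lit 562) (nat_lit 526) (.f (nat_lit 497) (nat_lit 498) (nat_lit 2542) (.d (nat_lit 525) (nat_lit 496) (nat_lit 2541) (nat_lit 560) (nat_lit 525)))))) (.a s28114 (.a (.p (nat_lit 529) (.a (.f (nat_lit 561) (nat_lit 562) (nat_lit 526) (.f (nat_lit 497) (nat_lit 498) (nat_lit 2542) (.d (nat_lit 525) (nat_lit 496) (nat_lit 2541) (nat_lit 560) (nat_lit 525)))) (.a (.f (nat_lit 493) (nat_lit 494) (nat_lit 3565) (.f (nat_lit 525) (nat_lit 492) (nat_lit 3564) (.d (nat_lit 557) (nat_lit 556) (nat_lit 1548) (nat_lit 558) (nat_lit 1549)))) (.f (nat_lit 494) (nat_lit 493) (nat_lit 3565) (.f (nat_lit 495) (nat_lit 530) (nat_lit 3566) (.f (nat_lit 558) (nat_lit 557) (nat_lit 1549) (.d (nat_lit 463) (nat_lit 431) (nat_lit 5550) (nat_lit 590) (nat_lit 6606)))))))) (.a s29215 (.a (.p (nat_lit 529) (.a (.f (nat_lit 494) (nat_lit 493) (nat_lit 3565) (.f (nat_lit 558) (nat_lit 557) (nat_lit 1549) (.d (nat_lit 530) (nat_lit 495) (nat_lit 3566) (nat_lit 559) (nat_lit 1550)))) (.a (.f (nat_lit 494) (nat_lit 493) (nat_lit 3565) (.f (nat_lit 495) (nat_lit 530) (nat_lit 3566) (.f (nat_lit 558) (nat_lit 557) (nat_lit 1549) (.d (nat_lit 463) (nat_lit 431) (nat_lit 5550) (nat_lit 590) (nat_lit 6606))))) (.a (.f (nat_lit 558) (nat_lit 557) (nat_lit 1549) (.f (nat_lit 559) (nat_lit 530) (nat_lit 1550) (.f (nat_lit 494) (nat_lit 493) (nat_lit 3565) (.d (nat_lit 462) (nat_lit 430) (nat_lit 4526) (nat_lit 591) (nat_lit 4558))))) (.a s29343 (.a (.f (nat_lit 558) (nat_lit 557) (nat_lit 1549) (.f (nat_lit 530) (nat_lit 559) (nat_lit 1550) (.d (nat_lit 562) (nat_lit 561) (nat_lit 526) (nat_lit 563) (nat_lit 527)))) (.f (nat_lit 494) (nat_lit 493) (nat_lit 3565) (.f (nat_lit 530) (nat_lit 495) (nat_lit 3566) (.d (nat_lit 562) (nat_lit 561) (nat_lit 526) (nat_lit 563) (nat_lit 527)))))))))) (.a s28110 (.a s28111 (.a s28218 s28370))))))))) (.a (.p (nat_lit 526) (.a s28110 (.a (.p (nat_lit 525) (.a (.f (nat_lit 560) (nat_lit 561) (nat_lit 525) (.f (nat_lit 524) (nat_lit 559) (nat_lit 524) (.d (nat_lit 492) (nat_lit 491) (nat_lit 3563) (nat_lit 493) (nat_lit 3564)))) (.a (.f (nat_lit 492) (nat_lit 493) (nat_lit 3564) (.f (nat_lit 524) (nat_lit 491) (nat_lit 3563) (.d (nat_lit 556) (nat_lit 555) (nat_lit 1547) (nat_lit 557) (nat_lit 1548)))) (.f (nat_lit 557) (nat_lit 556) (nat_lit 1548) (.f (nat_lit 529) (nat_lit 558) (nat_lit 1549) (.d (nat_lit 561) (nat_lit 560) (nat_lit 525) (nat_lit 562) (nat_lit 526))))))) (.a s28369 (.a s28971 (.a s29457 (.a s29458 (.a s29462 s29463)))))))) (.a (.p (nat_lit 526) (.a s28111 (.a s28213 (.a s28348 (.a s28988 (.a s29217 (.a s29473 (.a s29458 (.a s29478 (.a s29491 s29492)))))))))) (.a (.p (nat_lit 526) (.a (.p (nat_lit 529) (.a (.f (nat_lit 494) (nat_lit 493) (nat_lit 3565) (.f (nat_lit 558) (nat_lit 557) (nat_lit 1549) (.d (nat_lit 530) (nat_lit 495) (nat_lit 3566) (nat_lit 559) (nat_lit 1550)))) (.f (nat_lit 561) (nat_lit 562) (nat_lit 526) (.f (nat_lit 497) (nat_lit 498) (nat_lit 2542) (.d (nat_lit 525) (nat_lit 496) (nat_lit 2541) (nat_lit 560) (nat_lit 525)))))) (.a s28014 (.a s28114 (.a (.p (nat_lit 529) (.a (.f (nat_lit 561) (nat_lit 562) (nat_lit 526) (.f (nat_lit 497) (nat_lit 498) (nat_lit 2542) (.d (nat_lit 525) (nat_lit 496) (nat_lit 2541) (nat_lit 560) (nat_lit 525)))) (.a (.f (nat_lit 493) (nat_lit 494) (nat_lit 3565) (.f (nat_lit 525) (nat_lit 492) (nat_lit 3564) (.d (nat_lit 557) (nat_lit 556) (nat_lit 1548) (nat_lit 558) (nat_lit 1549)))) (.f (nat_lit 494) (nat_lit 493) (nat_lit 3565) (.f (nat_lit 495) (nat_lit 530) (nat_lit 3566) (.f (nat_lit 558) (nat_lit 557) (nat_lit 1549) (.d (nat_lit 463) (nat_lit 431) (nat_lit 5550) (nat_lit 590) (nat_lit 6606)))))))) (.a s29494 (.a (.p (nat_lit 529) (.a (.f (nat_lit 561) (nat_lit 562) (nat_lit 526) (.f (nat_lit 497) (nat_lit 498) (nat_lit 2542) (.d (nat_lit 525) (nat_lit 496) (nat_lit 2541) (nat_lit 560) (nat_lit 525)))) (.a (.f (nat_lit 493) (nat_lit 494) (nat_lit 3565) (.f (nat_lit 525) (nat_lit 492) (nat_lit 3564) (.d (nat_lit 557) (nat_lit 556) (nat_lit 1548) (nat_lit 558) (nat_lit 1549)))) (.f (nat_lit 558) (nat_lit 557) (nat_lit 1549) (.f (nat_lit 559) (nat_lit 530) (nat_lit 1550) (.f (nat_lit 494) (nat_lit 493) (nat_lit 3565) (.d (nat_lit 462) (nat_lit 430) (nat_lit 4526) (nat_lit 591) (nat_lit 4558)))))))) (.a (.p (nat_lit 529) (.a (.f (nat_lit 494) (nat_lit 493) (nat_lit 3565) (.f (nat_lit 558) (nat_lit 557) (nat_lit 1549) (.d (nat_lit 530) (nat_lit 495) (nat_lit 3566) (nat_lit 559) (nat_lit 1550)))) (.a (.f (nat_lit 494) (nat_lit 493) (nat_lit 3565) (.f (nat_lit 495) (nat_lit 530) (nat_lit 3566) (.f (nat_lit 558) (nat_lit 557) (nat_lit 1549) (.d (nat_lit 463) (nat_lit 431) (nat_lit 5550) (nat_lit 590) (nat_lit 6606))))) (.a (.f (nat_lit 558) (nat_lit 557) (nat_lit 1549) (.f (nat_lit 559) (nat_lit 530) (nat_lit 1550) (.f (nat_lit 494) (nat_lit 493) (nat_lit 3565) (.d (nat_lit 462) (nat_lit 430) (nat_lit 4526) (nat_lit 591) (nat_lit 4558))))) (.a s29347 (.a (.f (nat_lit 558) (nat_lit 557) (nat_lit 1549) (.f (nat_lit 530) (nat_lit 559) (nat_lit 1550) (.d (nat_lit 562) (nat_lit 561) (nat_lit 526) (nat_lit 563) (nat_lit 527)))) (.f (nat_lit 494) (nat_lit 493) (nat_lit 3565) (.f (nat_lit 530) (nat_lit 495) (nat_lit 3566) (.d (nat_lit 562) (nat_lit 561) (nat_lit 526) (nat_lit 563) (nat_lit 527)))))))))) (.a (.p (nat_lit 525) (.a (.f (nat_lit 560) (nat_lit 561) (nat_lit 525) (.f (nat_lit 524) (nat_lit 559) (nat_lit 524) (.d (nat_lit 492) (nat_lit 491) (nat_lit 3563) (nat_lit 493) (nat_lit 3564)))) (.a (.f (nat_lit 492) (nat_lit 493) (nat_lit 3564) (.f (nat_lit 524) (nat_lit 491) (nat_lit 3563) (.d (nat_lit 556) (nat_lit 555) (nat_lit 1547) (nat_lit 557) (nat_lit 1548)))) (.f (nat_lit 557) (nat_lit 556) (nat_lit 1548) (.f (nat_lit 529) (nat_lit 558) (nat_lit 1549) (.d (nat_lit 561) (nat_lit 560) (nat_lit 525) (nat_lit 562) (nat_lit 526))))))) (.a s28111 (.a s28112 s28253))))))))))) (.a (.p (nat_lit 526) (.a s28112 (.a s28218 (.a s28370 (.a (.p (nat_lit 529) (.a (.f (nat_lit 561) (nat_lit 562) (nat_lit 526) (.f (nat_lit 497) (nat_lit 498) (nat_lit 2542) (.d (nat_lit 525) (nat_lit 496) (nat_lit 2541) (nat_lit 560) (nat_lit 525)))) (.a (.f (nat_lit 494) (nat_lit 493) (nat_lit 3565) (.f (nat_lit 530) (nat_lit 495) (nat_lit 3566) (.d (nat_lit 562) (nat_lit 561) (nat_lit 526) (nat_lit 563) (nat_lit 527)))) (.f (nat_lit 493) (nat_lit 494) (nat_lit 3565) (.f (nat_lit 525) (nat_lit 492) (nat_lit 3564) (.d (nat_lit 497) (nat_lit 496) (nat_lit 2541) (nat_lit 498) (nat_lit 2542))))))) (.a (.p (nat_lit 559) (.a (.p (nat_lit 496) (.a (.f (nat_lit 525) (nat_lit 497) (nat_lit 2541) (.d (nat_lit 524) (nat_lit 495) (nat_lit 2540) (nat_lit 560) (nat_lit 524))) (.a (.f (nat_lit 525) (nat_lit 497) (nat_lit 2541) (.f (nat_lit 495) (nat_lit 524) (nat_lit 2540) (.d (nat_lit 464) (nat_lit 432) (nat_lit 5551) (nat_lit 591) (nat_lit 6607)))) (.a (.f (nat_lit 525) (nat_lit 497) (nat_lit 2541) (.d (nat_lit 560) (nat_lit 524) (nat_lit 524) (nat_lit 561) (nat_lit 525))) (.f (nat_lit 591) (nat_lit 623) (nat_lit 6639) (.d (nat_lit 464) (nat_lit 432) (nat_lit 5551) (nat_lit 495) (nat_lit 6607))))))) (.a s28154 (.a (.p (nat_lit 496) (.a (.f (nat_lit 525) (nat_lit 497) (nat_lit 2541) (.f (nat_lit 495) (nat_lit 524) (nat_lit 2540) (.d (nat_lit 464) (nat_lit 432) (nat_lit 5551) (nat_lit 591) (nat_lit 6607)))) (.a (.f (nat_lit 525) (nat_lit 497) (nat_lit 2541) (.f (nat_lit 556) (nat_lit 557) (nat_lit 1548) (.f (nat_lit 524) (nat_lit 555) (nat_lit 1547) (.d (nat_lit 492) (nat_lit 491) (nat_lit 3563) (nat_lit 493) (nat_lit 3564))))) (.f (nat_lit 591) (nat_lit 623) (nat_lit 6639) (.d (nat_lit 464) (nat_lit 432) (nat_lit 5551) (nat_lit 495) (nat_lit 6607)))))) (.a (.p (nat_lit 496) (.a (.f (nat_lit 525) (nat_lit 497) (nat_lit 2541) (.d (nat_lit 560) (nat_lit 524) (nat_lit 524) (nat_lit 561) (nat_lit 525))) (.a (.f (nat_lit 525) (nat_lit 497) (nat_lit 2541) (.f (nat_lit 556) (nat_lit 557) (nat_lit 1548) (.f (nat_lit 524) (nat_lit 555) (nat_lit 1547) (.d (nat_lit 492) (nat_lit 491) (nat_lit 3563) (nat_lit 493) (nat_lit 3564))))) (.f (nat_lit 591) (nat_lit 623) (nat_lit 6639) (.d (nat_lit 464) (nat_lit 432) (nat_lit 5551) (nat_lit 560) (nat_lit 5583)))))) (.a s29503 s28086)))))) (.a s29512 (.a s29462 (.a s29478 s29513))))))))) (.a (.p (nat_lit 526) (.a s28111 (.a s28213 (.a s28348 (.a s28971 (.a s29215 (.a s29515 (.a s29478 (.a s29491 s29492))))))))) (.a (.p (nat_lit 526) (.a (.p (nat_lit 529) (.a (.f (nat_lit 494) (nat_lit 493) (nat_lit 3565) (.f (nat_lit 558) (nat_lit 557) (nat_lit 1549) (.d (nat_lit 530) (nat_lit 495) (nat_lit 3566) (nat_lit 559) (nat_lit 1550)))) (.f (nat_lit 561) (nat_lit 562) (nat_lit 526) (.f (nat_lit 497) (nat_lit 498) (nat_lit 2542) (.d (nat_lit 525) (nat_lit 496) (nat_lit 2541) (nat_lit 560) (nat_lit 525)))))) (.a s28114 (.a s28972 (.a (.p (nat_lit 559) (.a (.p (nat_lit 496) (.a (.f (nat_lit 525) (nat_lit 497) (nat_lit 2541) (.d (nat_lit 524) (nat_lit 495) (nat_lit 2540) (nat_lit 560) (nat_lit 524))) (.a (.f (nat_lit 525) (nat_lit 497) (nat_lit 2541) (.f (nat_lit 495) (nat_lit 524) (nat_lit 2540) (.d (nat_lit 464) (nat_lit 432) (nat_lit 5551) (nat_lit 591) (nat_lit 6607)))) (.a (.f (nat_lit 525) (nat_lit 497) (nat_lit 2541) (.d (nat_lit 560) (nat_lit 524) (nat_lit 524) (nat_lit 561) (nat_lit 525))) (.f (nat_lit 591) (nat_lit 623) (nat_lit 6639) (.d (nat_lit 464) (nat_lit 432) (nat_lit 5551) (nat_lit 495) (nat_lit 6607))))))) (.a s28137 (.a (.p (nat_lit 496) (.a (.f (nat_lit 525) (nat_lit 497) (nat_lit 2541) (.f (nat_lit 495) (nat_lit 524) (nat_lit 2540) (.d (nat_lit 464) (nat_lit 432) (nat_lit 5551) (nat_lit 591) (nat_lit 6607)))) (.a (.f (nat_lit 525) (nat_lit 497) (nat_lit 2541) (.f (nat_lit 556) (nat_lit 557) (nat_lit 1548) (.f (nat_lit 524) (nat_lit 555) (nat_lit 1547) (.d (nat_lit 492) (nat_lit 491) (nat_lit 3563) (nat_lit 493) (nat_lit 3564))))) (.f (nat_lit 591) (nat_lit 623) (nat_lit 6639) (.d (nat_lit 464) (nat_lit 432) (nat_lit 5551) (nat_lit 495) (nat_lit 6607)))))) (.a s29159 s29165))))) (.a s29216 (.a (.p (nat_lit 525) (.a (.f (nat_lit 560) (nat_lit 561) (nat_lit 525) (.f (nat_lit 524) (nat_lit 559) (nat_lit 524) (.d (nat_lit 492) (nat_lit 491) (nat_lit 3563) (nat_lit 493) (nat_lit 3564)))) (.a (.f (nat_lit 492) (nat_lit 493) (nat_lit 3564) (.f (nat_lit 524) (nat_lit 491) (nat_lit 3563) (.d (nat_lit 556) (nat_lit 555) (nat_lit 1547) (nat_lit 557) (nat_lit 1548)))) (.f (nat_lit 557) (nat_lit 556) (nat_lit 1548) (.f (nat_lit 529) (nat_lit 558) (nat_lit 1549) (.d (nat_lit 561) (nat_lit 560) (nat_lit 525) (nat_lit 562) (nat_lit 526))))))) (.a s28111 (.a s28218 (.a s28370 s28369)))))))))) (.a (.p (nat_lit 526) (.a (.p (nat_lit 529) (.a (.f (nat_lit 494) (nat_lit 493) (nat_lit 3565) (.f (nat_lit 558) (nat_lit 557) (nat_lit 1549) (.d (nat_lit 530) (nat_lit 495) (nat_lit 3566) (nat_lit 559) (nat_lit 1550)))) (.f (nat_lit 561) (nat_lit 562) (nat_lit 526) (.f (nat_lit 497) (nat_lit 498) (nat_lit 2542) (.d (nat_lit 525) (nat_lit 496) (nat_lit 2541) (nat_lit 560) (nat_lit 525)))))) (.a s28014 (.a s28025 (.a (.p (nat_lit 529) (.a (.f (nat_lit 561) (nat_lit 562) (nat_lit 526) (.f (nat_lit 497) (nat_lit 498) (nat_lit 2542) (.d (nat_lit 525) (nat_lit 496) (nat_lit 2541) (nat_lit 560) (nat_lit 525)))) (.a (.f (nat_lit 493) (nat_lit 494) (nat_lit 3565) (.f (nat_lit 525) (nat_lit 492) (nat_lit 3564) (.d (nat_lit 557) (nat_lit 556) (nat_lit 1548) (nat_lit 558) (nat_lit 1549)))) (.f (nat_lit 494) (nat_lit 493) (nat_lit 3565) (.f (nat_lit 495) (nat_lit 530) (nat_lit 3566) (.f (nat_lit 558) (nat_lit 557) (nat_lit 1549) (.d (nat_lit 463) (nat_lit 431) (nat_lit 5550) (nat_lit 590) (nat_lit 6606)))))))) (.a s29526 (.a (.p (nat_lit 525) (.a (.f (nat_lit 560) (nat_lit 561) (nat_lit 525) (.f (nat_lit 524) (nat_lit 559) (nat_lit 524) (.d (nat_lit 492) (nat_lit 491) (nat_lit 3563) (nat_lit 493) (nat_lit 3564)))) (.a (.f (nat_lit 492) (nat_lit 493) (nat_lit 3564) (.f (nat_lit 524) (nat_lit 491) (nat_lit 3563) (.d (nat_lit 556) (nat_lit 555) (nat_lit 1547) (nat_lit 557) (nat_lit 1548)))) (.f (nat_lit 557) (nat_lit 556) (nat_lit 1548) (.f (nat_lit 529) (nat_lit 558) (nat_lit 1549) (.d (nat_lit 561) (nat_lit 560) (nat_lit 525) (nat_lit 562) (nat_lit 526))))))) (.a s28987 (.a s28111 (.a s28112 s28110)))))))))) (.a (.p (nat_lit 526) (.a s28014 (.a s28114 (.a s28972 (.a s28178 (.a s29528 (.a (.p (nat_lit 525) (.a (.f (nat_lit 560) (nat_lit 561) (nat_lit 525) (.f (nat_lit 524) (nat_lit 559) (nat_lit 524) (.d (nat_lit 492) (nat_lit 491) (nat_lit 3563) (nat_lit 493) (nat_lit 3564)))) (.a (.f (nat_lit 492) (nat_lit 493) (nat_lit 3564) (.f (nat_lit 524) (nat_lit 491) (nat_lit 3563) (.d (nat_lit 556) (nat_lit 555) (nat_lit 1547) (nat_lit 557) (nat_lit 1548)))) (.f (nat_lit 557) (nat_lit 556) (nat_lit 1548) (.f (nat_lit 529) (nat_lit 558) (nat_lit 1549) (.d (nat_lit 561) (nat_lit 560) (nat_lit 525) (nat_lit 562) (nat_lit 526))))))) (.a s28213 (.a s28218 (.a s29544 s29562)))))))))) (.a (.p (nat_lit 526) (.a s28112 (.a s28219 (.a s28370 (.a (.p (nat_lit 529) (.a (.f (nat_lit 561) (nat_lit 562) (nat_lit 526) (.f (nat_lit 497) (nat_lit 498) (nat_lit 2542) (.d (nat_lit 525) (nat_lit 496) (nat_lit 2541) (nat_lit 560) (nat_lit 525)))) (.a (.f (nat_lit 494) (nat_lit 493) (nat_lit 3565) (.f (nat_lit 530) (nat_lit 495) (nat_lit 3566) (.d (nat_lit 562) (nat_lit 561) (nat_lit 526) (nat_lit 563) (nat_lit 527)))) (.f (nat_lit 493) (nat_lit 494) (nat_lit 3565) (.f (nat_lit 525) (nat_lit 492) (nat_lit 3564) (.d (nat_lit 497) (nat_lit 496) (nat_lit 2541) (nat_lit 498) (nat_lit 2542))))))) (.a (.p (nat_lit 559) (.a (.p (nat_lit 496) (.a (.f (nat_lit 525) (nat_lit 497) (nat_lit 2541) (.d (nat_lit 524) (nat_lit 495) (nat_lit 2540) (nat_lit 560) (nat_lit 524))) (.a (.f (nat_lit 525) (nat_lit 497) (nat_lit 2541) (.f (nat_lit 495) (nat_lit 524) (nat_lit 2540) (.d (nat_lit 464) (nat_lit 432) (nat_lit 5551) (nat_lit 591) (nat_lit 6607)))) (.a (.f (nat_lit 525) (nat_lit 497) (nat_lit 2541) (.d (nat_lit 560) (nat_lit 524) (nat_lit 524) (nat_lit 561) (nat_lit 525))) (.f (nat_lit 591) (nat_lit 623) (nat_lit 6639) (.d (nat_lit 464) (nat_lit 432) (nat_lit 5551) (nat_lit 495) (nat_lit 6607))))))) (.a s28156 (.a (.p (nat_lit 496) (.a (.f (nat_lit 525) (nat_lit 497) (nat_lit 2541) (.f (nat_lit 495) (nat_lit 524) (nat_lit 2540) (.d (nat_lit 464) (nat_lit 432) (nat_lit 5551) (nat_lit 591) (nat_lit 6607)))) (.a (.f (nat_lit 525) (nat_lit 497) (nat_lit 2541) (.f (nat_lit 492) (nat_lit 493) (nat_lit 3564) (.f (nat_lit 524) (nat_lit 491) (nat_lit 3563) (.f (nat_lit 523) (nat_lit 558) (nat_lit 523) (.d (nat_lit 555) (nat_lit 554) (nat_lit 1546) (nat_lit 556) (nat_lit 1547)))))) (.f (nat_lit 591) (nat_lit 623) (nat_lit 6639) (.d (nat_lit 464) (nat_lit 432) (nat_lit 5551) (nat_lit 495) (nat_lit 6607)))))) (.a (.p (nat_lit 496) (.a (.f (nat_lit 525) (nat_lit 497) (nat_lit 2541) (.d (nat_lit 560) (nat_lit 524) (nat_lit 524) (nat_lit 561) (nat_lit 525))) (.a (.f (nat_lit 525) (nat_lit 497) (nat_lit 2541) (.f (nat_lit 492) (nat_lit 493) (nat_lit 3564) (.f (nat_lit 524) (nat_lit 491) (nat_lit 3563) (.f (nat_lit 523) (nat_lit 558) (nat_lit 523) (.d (nat_lit 555) (nat_lit 554) (nat_lit 1546) (nat_lit 556) (nat_lit 1547)))))) (.f (nat_lit 591) (nat_lit 623) (nat_lit 6639) (.d (nat_lit 464) (nat_lit 432) (nat_lit 5551) (nat_lit 560) (nat_lit 5583)))))) (.a s29503 (.a s29114 s28086))))))) (.a s29225 (.a s29512 (.a s29463 (.a s29491 (.a s29544 s29576))))))))))) (.a (.p (nat_lit 526) (.a (.p (nat_lit 529) (.a (.f (nat_lit 494) (nat_lit 493) (nat_lit 3565) (.f (nat_lit 558) (nat_lit 557) (nat_lit 1549) (.d (nat_lit 530) (nat_lit 495) (nat_lit 3566) (nat_lit 559) (nat_lit 1550)))) (.f (nat_lit 561) (nat_lit 562) (nat_lit 526) (.f (nat_lit 497) (nat_lit 498) (nat_lit 2542) (.d (nat_lit 525) (nat_lit 496) (nat_lit 2541) (nat_lit 560) (nat_lit 525)))))) (.a s28014 (.a s28025 (.a (.p (nat_lit 529) (.a (.f (nat_lit 561) (nat_lit 562) (nat_lit 526) (.f (nat_lit 497) (nat_lit 498) (nat_lit 2542) (.d (nat_lit 525) (nat_lit 496) (nat_lit 2541) (nat_lit 560) (nat_lit 525)))) (.a (.f (nat_lit 493) (nat_lit 494) (nat_lit 3565) (.f (nat_lit 525) (nat_lit 492) (nat_lit 3564) (.d (nat_lit 557) (nat_lit 556) (nat_lit 1548) (nat_lit 558) (nat_lit 1549)))) (.f (nat_lit 494) (nat_lit 493) (nat_lit 3565) (.f (nat_lit 495) (nat_lit 530) (nat_lit 3566) (.f (nat_lit 558) (nat_lit 557) (nat_lit 1549) (.d (nat_lit 463) (nat_lit 431) (nat_lit 5550) (nat_lit 590) (nat_lit 6606)))))))) (.a (.p (nat_lit 559) (.a s28044 (.a s28313 (.a (.p (nat_lit 525) (.a (.d (nat_lit 560) (nat_lit 524) (nat_lit 524) (nat_lit 561) (nat_lit 525)) (.a (.f (nat_lit 492) (nat_lit 493) (nat_lit 3564) (.f (nat_lit 524) (nat_lit 491) (nat_lit 3563) (.f (nat_lit 523) (nat_lit 558) (nat_lit 523) (.d (nat_lit 555) (nat_lit 554) (nat_lit 1546) (nat_lit 556) (nat_lit 1547))))) (.f (nat_lit 560) (nat_lit 561) (nat_lit 525) (.f (nat_lit 557) (nat_lit 556) (nat_lit 1548) (.f (nat_lit 493) (nat_lit 492) (nat_lit 3564) (.f (nat_lit 496) (nat_lit 497) (nat_lit 2541) (.f (nat_lit 464) (nat_lit 432) (nat_lit 5551) (.f (nat_lit 463) (nat_lit 431) (nat_lit 7599) (.f (nat_lit 465) (nat_lit 433) (nat_lit 6576) (.f (nat_lit 462) (nat_lit 494) (nat_lit 1485) (.d (nat_lit 430) (nat_lit 429) (nat_lit 3501) (nat_lit 461) (nat_lit 6573))))))))))))) (.a (.p (nat_lit 495) (.a (.p (nat_lit 464) (.a (.d (nat_lit 432) (nat_lit 463) (nat_lit 6575) (nat_lit 496) (nat_lit 5551)) (.a (.f (nat_lit 463) (nat_lit 432) (nat_lit 6575) (.d (nat_lit 431) (nat_lit 558) (nat_lit 5550) (nat_lit 560) (nat_lit 4527))) (.a (.d (nat_lit 496) (nat_lit 432) (nat_lit 5551) (nat_lit 591) (nat_lit 6607)) (.f (nat_lit 591) (nat_lit 496) (nat_lit 6607) (.f (nat_lit 590) (nat_lit 622) (nat_lit 5614) (.f (nat_lit 558) (nat_lit 463) (nat_lit 5582) (.f (nat_lit 592) (nat_lit 624) (nat_lit 4591) (.d (nat_lit 557) (nat_lit 556) (nat_lit 556) (nat_lit 593) (nat_lit 3629)))))))))) (.a (.p (nat_lit 463) (.a (.d (nat_lit 431) (nat_lit 558) (nat_lit 5550) (nat_lit 560) (nat_lit 4527)) (.a (.d (nat_lit 558) (nat_lit 431) (nat_lit 5550) (nat_lit 590) (nat_lit 5582)) (.a (.d (nat_lit 560) (nat_lit 431) (nat_lit 4527) (nat_lit 592) (nat_lit 4559)) (.f (nat_lit 558) (nat_lit 590) (nat_lit 5582) (.f (nat_lit 560) (nat_lit 592) (nat_lit 4559) (.f (nat_lit 557) (nat_lit 556) (nat_lit 2572) (.f (nat_lit 462) (nat_lit 430) (nat_lit 7598) (.d (nat_lit 589) (nat_lit 494) (nat_lit 5581) (nat_lit 588) (nat_lit 1580)))))))))) (.a (.p (nat_lit 463) (.a (.d (nat_lit 558) (nat_lit 431) (nat_lit 5550) (nat_lit 590) (nat_lit 5582)) (.a (.f (nat_lit 430) (nat_lit 462) (nat_lit 7598) (.f (nat_lit 431) (nat_lit 398) (nat_lit 7566) (.d (nat_lit 432) (nat_lit 400) (nat_lit 6543) (nat_lit 464) (nat_lit 6575)))) (.f (nat_lit 558) (nat_lit 590) (nat_lit 5582) (.f (nat_lit 557) (nat_lit 556) (nat_lit 2572) (.f (nat_lit 462) (nat_lit 430) (nat_lit 7598) (.f (nat_lit 494) (nat_lit 589) (nat_lit 5581) (.f (nat_lit 493) (nat_lit 492) (nat_lit 492) (.d (nat_lit 464) (nat_lit 432) (nat_lit 6575) (nat_lit 465) (nat_lit 1485)))))))))) (.a (.p (nat_lit 463) (.a (.d (nat_lit 560) (nat_lit 431) (nat_lit 4527) (nat_lit 592) (nat_lit 4559)) (.a (.f (nat_lit 430) (nat_lit 462) (nat_lit 7598) (.f (nat_lit 431) (nat_lit 398) (nat_lit 7566) (.d (nat_lit 432) (nat_lit 400) (nat_lit 6543) (nat_lit 464) (nat_lit 6575)))) (.f (nat_lit 560) (nat_lit 592) (nat_lit 4559) (.f (nat_lit 464) (nat_lit 432) (nat_lit 6575) (.f (nat_lit 462) (nat_lit 430) (nat_lit 7598) (.f (nat_lit 561) (nat_lit 562) (nat_lit 3598) (.f (nat_lit 496) (nat_lit 593) (nat_lit 4560) (.d (nat_lit 461) (nat_lit 460) (nat_lit 460) (nat_lit 497) (nat_lit 461)))))))))) (.p (nat_lit 591) (.a (.f (nat_lit 494) (nat_lit 462) (nat_lit 7630) (.f (nat_lit 496) (nat_lit 464) (nat_lit 6607) (.f (nat_lit 493) (nat_lit 492) (nat_lit 492) (.f (nat_lit 590) (nat_lit 622) (nat_lit 5614) (.d (nat_lit 461) (nat_lit 460) (nat_lit 3532) (nat_lit 558) (nat_lit 7629)))))) (.a (.f (nat_lit 494) (nat_lit 462) (nat_lit 7630) (.f (nat_lit 493) (nat_lit 492) (nat_lit 492) (.f (nat_lit 590) (nat_lit 622) (nat_lit 5614) (.f (nat_lit 558) (nat_lit 461) (nat_lit 7629) (.f (nat_lit 557) (nat_lit 556) (nat_lit 2572) (.d (nat_lit 592) (nat_lit 593) (nat_lit 3629) (nat_lit 624) (nat_lit 4591))))))) (.a (.f (nat_lit 496) (nat_lit 464) (nat_lit 6607) (.f (nat_lit 592) (nat_lit 624) (nat_lit 4591) (.f (nat_lit 590) (nat_lit 622) (nat_lit 5614) (.f (nat_lit 497) (nat_lit 498) (nat_lit 1518) (.f (nat_lit 560) (nat_lit 465) (nat_lit 6608) (.d (nat_lit 561) (nat_lit 562) (nat_lit 1582) (nat_lit 589) (nat_lit 2605))))))) (.f (nat_lit 494) (nat_lit 462) (nat_lit 7630) (.f (nat_lit 496) (nat_lit 464) (nat_lit 6607) (.f (nat_lit 592) (nat_lit 624) (nat_lit 4591) (.f (nat_lit 497) (nat_lit 498) (nat_lit 1518) (.d (nat_lit 465) (nat_lit 466) (nat_lit 2510) (nat_lit 560) (nat_lit 6608))))))))))))))) (.a s28149 (.a s28086 (.a s29165 s28164)))))))) (.a (.p (nat_lit 529) (.a (.f (nat_lit 561) (nat_lit 562) (nat_lit 526) (.f (nat_lit 497) (nat_lit 498) (nat_lit 2542) (.d (nat_lit 525) (nat_lit 496) (nat_lit 2541) (nat_lit 560) (nat_lit 525)))) (.a (.f (nat_lit 493) (nat_lit 494) (nat_lit 3565) (.f (nat_lit 525) (nat_lit 492) (nat_lit 3564) (.d (nat_lit 557) (nat_lit 556) (nat_lit 1548) (nat_lit 558) (nat_lit 1549)))) (.f (nat_lit 558) (nat_lit 557) (nat_lit 1549) (.f (nat_lit 559) (nat_lit 530) (nat_lit 1550) (.f (nat_lit 494) (nat_lit 493) (nat_lit 3565) (.d (nat_lit 462) (nat_lit 430) (nat_lit 4526) (nat_lit 591) (nat_lit 4558)))))))) (.a s28987 (.a s28110 (.a s28111 s28112)))))))))) (.a (.p (nat_lit 526) (.a s28110 (.a s28253 (.a s28369 (.a s28992 (.a (.p (nat_lit 559) (.a (.p (nat_lit 496) (.a (.f (nat_lit 525) (nat_lit 497) (nat_lit 2541) (.d (nat_lit 524) (nat_lit 495) (nat_lit 2540) (nat_lit 560) (nat_lit 524))) (.a (.f (nat_lit 525) (nat_lit 497) (nat_lit 2541) (.f (nat_lit 495) (nat_lit 524) (nat_lit 2540) (.d (nat_lit 464) (nat_lit 432) (nat_lit 5551) (nat_lit 591) (nat_lit 6607)))) (.a (.f (nat_lit 525) (nat_lit 497) (nat_lit 2541) (.d (nat_lit 560) (nat_lit 524) (nat_lit 524) (nat_lit 561) (nat_lit 525))) (.f (nat_lit 591) (nat_lit 623) (nat_lit 6639) (.d (nat_lit 464) (nat_lit 432) (nat_lit 5551) (nat_lit 495) (nat_lit 6607))))))) (.a s28164 (.a (.p (nat_lit 496) (.a (.f (nat_lit 525) (nat_lit 497) (nat_lit 2541) (.f (nat_lit 495) (nat_lit 524) (nat_lit 2540) (.d (nat_lit 464) (nat_lit 432) (nat_lit 5551) (nat_lit 591) (nat_lit 6607)))) (.a (.f (nat_lit 525) (nat_lit 497) (nat_lit 2541) (.f (nat_lit 556) (nat_lit 557) (nat_lit 1548) (.f (nat_lit 524) (nat_lit 555) (nat_lit 1547) (.f (nat_lit 491) (nat_lit 492) (nat_lit 3563) (.d (nat_lit 523) (nat_lit 490) (nat_lit 3562) (nat_lit 558) (nat_lit 523)))))) (.f (nat_lit 591) (nat_lit 623) (nat_lit 6639) (.d (nat_lit 464) (nat_lit 432) (nat_lit 5551) (nat_lit 495) (nat_lit 6607)))))) (.a (.p (nat_lit 496) (.a (.f (nat_lit 525) (nat_lit 497) (nat_lit 2541) (.d (nat_lit 560) (nat_lit 524) (nat_lit 524) (nat_lit 561) (nat_lit 525))) (.a (.f (nat_lit 525) (nat_lit 497) (nat_lit 2541) (.f (nat_lit 556) (nat_lit 557) (nat_lit 1548) (.f (nat_lit 524) (nat_lit 555) (nat_lit 1547) (.f (nat_lit 491) (nat_lit 492) (nat_lit 3563) (.d (nat_lit 523) (nat_lit 490) (nat_lit 3562) (nat_lit 558) (nat_lit 523)))))) (.f (nat_lit 591) (nat_lit 623) (nat_lit 6639) (.d (nat_lit 464) (nat_lit 432) (nat_lit 5551) (nat_lit 560) (nat_lit 5583)))))) (.a s29092 s29180)))))) (.a s29457 (.a s29492 (.a s29513 (.a s29562 s29576)))))))))) (.a (.p (nat_lit 526) (.a (.p (nat_lit 529) (.a (.f (nat_lit 494) (nat_lit 493) (nat_lit 3565) (.f (nat_lit 558) (nat_lit 557) (nat_lit 1549) (.d (nat_lit 530) (nat_lit 495) (nat_lit 3566) (nat_lit 559) (nat_lit 1550)))) (.f (nat_lit 561) (nat_lit 562) (nat_lit 526) (.f (nat_lit 497) (nat_lit 498) (nat_lit 2542) (.d (nat_lit 525) (nat_lit 496) (nat_lit 2541) (nat_lit 560) (nat_lit 525)))))) (.a s28014 (.a s28114 (.a (.p (nat_lit 529) (.a (.f (nat_lit 561) (nat_lit 562) (nat_lit 526) (.f (nat_lit 497) (nat_lit 498) (nat_lit 2542) (.d (nat_lit 525) (nat_lit 496) (nat_lit 2541) (nat_lit 560) (nat_lit 525)))) (.a (.f (nat_lit 493) (nat_lit 494) (nat_lit 3565) (.f (nat_lit 525) (nat_lit 492) (nat_lit 3564) (.d (nat_lit 557) (nat_lit 556) (nat_lit 1548) (nat_lit 558) (nat_lit 1549)))) (.f (nat_lit 494) (nat_lit 493) (nat_lit 3565) (.f (nat_lit 495) (nat_lit 530) (nat_lit 3566) (.f (nat_lit 558) (nat_lit 557) (nat_lit 1549) (.d (nat_lit 463) (nat_lit 431) (nat_lit 5550) (nat_lit 590) (nat_lit 6606)))))))) (.a s29526 (.a (.p (nat_lit 525) (.a (.f (nat_lit 560) (nat_lit 561) (nat_lit 525) (.f (nat_lit 524) (nat_lit 559) (nat_lit 524) (.d (nat_lit 492) (nat_lit 491) (nat_lit 3563) (nat_lit 493) (nat_lit 3564)))) (.a (.f (nat_lit 492) (nat_lit 493) (nat_lit 3564) (.f (nat_lit 524) (nat_lit 491) (nat_lit 3563) (.d (nat_lit 556) (nat_lit 555) (nat_lit 1547) (nat_lit 557) (nat_lit 1548)))) (.f (nat_lit 557) (nat_lit 556) (nat_lit 1548) (.f (nat_lit 529) (nat_lit 558) (nat_lit 1549) (.d (nat_lit 561) (nat_lit 560) (nat_lit 525) (nat_lit 562) (nat_lit 526))))))) (.a s28987 (.a s28988 (.a s28219 s28110)))))))))) (.a (.p (nat_lit 526) (.a (.p (nat_lit 529) (.a (.f (nat_lit 494) (nat_lit 493) (nat_lit 3565) (.f (nat_lit 558) (nat_lit 557) (nat_lit 1549) (.d (nat_lit 530) (nat_lit 495) (nat_lit 3566) (nat_lit 559) (nat_lit 1550)))) (.f (nat_lit 561) (nat_lit 562) (nat_lit 526) (.f (nat_lit 497) (nat_lit 498) (nat_lit 2542) (.d (nat_lit 525) (nat_lit 496) (nat_lit 2541) (nat_lit 560) (nat_lit 525)))))) (.a s28114 (.a s28972 (.a s29526 (.a s29216 (.a (.p (nat_lit 525) (.a (.f (nat_lit 560) (nat_lit 561) (nat_lit 525) (.f (nat_lit 524) (nat_lit 559) (nat_lit 524) (.d (nat_lit 492) (nat_lit 491) (nat_lit 3563) (nat_lit 493) (nat_lit 3564)))) (.a (.f (nat_lit 492) (nat_lit 493) (nat_lit 3564) (.f (nat_lit 524) (nat_lit 491) (nat_lit 3563) (.d (nat_lit 556) (nat_lit 555) (nat_lit 1547) (nat_lit 557) (nat_lit 1548)))) (.f (nat_lit 557) (nat_lit 556) (nat_lit 1548) (.f (nat_lit 529) (nat_lit 558) (nat_lit 1549) (.d (nat_lit 561) (nat_lit 560) (nat_lit 525) (nat_lit 562) (nat_lit 526))))))) (.a s28111 (.a s28112 s28369))))))))) (.a (.p (nat_lit 526) (.a (.p (nat_lit 529) (.a (.f (nat_lit 494) (nat_lit 493) (nat_lit 3565) (.f (nat_lit 558) (nat_lit 557) (nat_lit 1549) (.d (nat_lit 530) (nat_lit 495) (nat_lit 3566) (nat_lit 559) (nat_lit 1550)))) (.f (nat_lit 561) (nat_lit 562) (nat_lit 526) (.f (nat_lit 497) (nat_lit 498) (nat_lit 2542) (.d (nat_lit 525) (nat_lit 496) (nat_lit 2541) (nat_lit 560) (nat_lit 525)))))) (.a s28014 (.a s28114 (.a (.p (nat_lit 529) (.a (.f (nat_lit 561) (nat_lit 562) (nat_lit 526) (.f (nat_lit 497) (nat_lit 498) (nat_lit 2542) (.d (nat_lit 525) (nat_lit 496) (nat_lit 2541) (nat_lit 560) (nat_lit 525)))) (.a (.f (nat_lit 493) (nat_lit 494) (nat_lit 3565) (.f (nat_lit 525) (nat_lit 492) (nat_lit 3564) (.d (nat_lit 557) (nat_lit 556) (nat_lit 1548) (nat_lit 558) (nat_lit 1549)))) (.f (nat_lit 494) (nat_lit 493) (nat_lit 3565) (.f (nat_lit 495) (nat_lit 530) (nat_lit 3566) (.f (nat_lit 558) (nat_lit 557) (nat_lit 1549) (.d (nat_lit 463) (nat_lit 431) (nat_lit 5550) (nat_lit 590) (nat_lit 6606)))))))) (.a s29215 (.a s28187 (.a (.p (nat_lit 525) (.a (.f (nat_lit 560) (nat_lit 561) (nat_lit 525) (.f (nat_lit 524) (nat_lit 559) (nat_lit 524) (.d (nat_lit 492) (nat_lit 491) (nat_lit 3563) (nat_lit 493) (nat_lit 3564)))) (.a (.f (nat_lit 492) (nat_lit 493) (nat_lit 3564) (.f (nat_lit 524) (nat_lit 491) (nat_lit 3563) (.d (nat_lit 556) (nat_lit 555) (nat_lit 1547) (nat_lit 557) (nat_lit 1548)))) (.f (nat_lit 557) (nat_lit 556) (nat_lit 1548) (.f (nat_lit 529) (nat_lit 558) (nat_lit 1549) (.d (nat_lit 561) (nat_lit 560) (nat_lit 525) (nat_lit 562) (nat_lit 526))))))) (.a s28111 (.a s28112 s28253)))))))))) (.a (.p (nat_lit 526) (.a (.p (nat_lit 529) (.a (.f (nat_lit 494) (nat_lit 493) (nat_lit 3565) (.f (nat_lit 558) (nat_lit 557) (nat_lit 1549) (.d (nat_lit 530) (nat_lit 495) (nat_lit 3566) (nat_lit 559) (nat_lit 1550)))) (.f (nat_lit 561) (nat_lit 562) (nat_lit 526) (.f (nat_lit 497) (nat_lit 498) (nat_lit 2542) (.d (nat_lit 525) (nat_lit 496) (nat_lit 2541) (nat_lit 560) (nat_lit 525)))))) (.a s28014 (.a s28025 (.a (.p (nat_lit 529) (.a (.f (nat_lit 561) (nat_lit 562) (nat_lit 526) (.f (nat_lit 497) (nat_lit 498) (nat_lit 2542) (.d (nat_lit 525) (nat_lit 496) (nat_lit 2541) (nat_lit 560) (nat_lit 525)))) (.a (.f (nat_lit 493) (nat_lit 494) (nat_lit 3565) (.f (nat_lit 525) (nat_lit 492) (nat_lit 3564) (.d (nat_lit 557) (nat_lit 556) (nat_lit 1548) (nat_lit 558) (nat_lit 1549)))) (.f (nat_lit 494) (nat_lit 493) (nat_lit 3565) (.f (nat_lit 495) (nat_lit 530) (nat_lit 3566) (.f (nat_lit 558) (nat_lit 557) (nat_lit 1549) (.d (nat_lit 463) (nat_lit 431) (nat_lit 5550) (nat_lit 590) (nat_lit 6606)))))))) (.a s29494 (.a (.p (nat_lit 529) (.a (.f (nat_lit 561) (nat_lit 562) (nat_lit 526) (.f (nat_lit 497) (nat_lit 498) (nat_lit 2542) (.d (nat_lit 525) (nat_lit 496) (nat_lit 2541) (nat_lit 560) (nat_lit 525)))) (.a (.f (nat_lit 493) (nat_lit 494) (nat_lit 3565) (.f (nat_lit 525) (nat_lit 492) (nat_lit 3564) (.d (nat_lit 557) (nat_lit 556) (nat_lit 1548) (nat_lit 558) (nat_lit 1549)))) (.f (nat_lit 558) (nat_lit 557) (nat_lit 1549) (.f (nat_lit 559) (nat_lit 530) (nat_lit 1550) (.f (nat_lit 494) (nat_lit 493) (nat_lit 3565) (.d (nat_lit 462) (nat_lit 430) (nat_lit 4526) (nat_lit 591) (nat_lit 4558)))))))) (.a s28368 (.a s28110 (.a s28111 s28112)))))))))) (.a (.p (nat_lit 526) (.a (.p (nat_lit 529) (.a (.f (nat_lit 494) (nat_lit 493) (nat_lit 3565) (.f (nat_lit 558) (nat_lit 557) (nat_lit 1549) (.d (nat_lit 530) (nat_lit 495) (nat_lit 3566) (nat_lit 559) (nat_lit 1550)))) (.f (nat_lit 561) (nat_lit 562) (nat_lit 526) (.f (nat_lit 497) (nat_lit 498) (nat_lit 2542) (.d (nat_lit 525) (nat_lit 496) (nat_lit 2541) (nat_lit 560) (nat_lit 525)))))) (.a s28187 (.a s28368 (.a s28987 (.a (.p (nat_lit 559) (.a (.p (nat_lit 496) (.a (.f (nat_lit 525) (nat_lit 497) (nat_lit 2541) (.d (nat_lit 524) (nat_lit 495) (nat_lit 2540) (nat_lit 560) (nat_lit 524))) (.a (.f (nat_lit 525) (nat_lit 497) (nat_lit 2541) (.f (nat_lit 495) (nat_lit 524) (nat_lit 2540) (.d (nat_lit 464) (nat_lit 432) (nat_lit 5551) (nat_lit 591) (nat_lit 6607)))) (.a (.f (nat_lit 525) (nat_lit 497) (nat_lit 2541) (.d (nat_lit 560) (nat_lit 524) (nat_lit 524) (nat_lit 561) (nat_lit 525))) (.f (nat_lit 591) (nat_lit 623) (nat_lit 6639) (.d (nat_lit 464) (nat_lit 432) (nat_lit 5551) (nat_lit 495) (nat_lit 6607))))))) (.a s28164 (.a s28347 (.a s29201 (.a s29092 s29202)))))) (.a s28369 (.a s29473 (.a s28112 (.a s29515 s29528)))))))))) (.p (nat_lit 526) (.a (.p (nat_lit 529) (.a (.f (nat_lit 494) (nat_lit 493) (nat_lit 3565) (.f (nat_lit 558) (nat_lit 557) (nat_lit 1549) (.d (nat_lit 530) (nat_lit 495) (nat_lit 3566) (nat_lit 559) (nat_lit 1550)))) (.f (nat_lit 561) (nat_lit 562) (nat_lit 526) (.f (nat_lit 497) (nat_lit 498) (nat_lit 2542) (.d (nat_lit 525) (nat_lit 496) (nat_lit 2541) (nat_lit 560) (nat_lit 525)))))) (.a s28187 (.a s28368 (.a s28987 (.a (.p (nat_lit 559) (.a (.p (nat_lit 496) (.a (.f (nat_lit 525) (nat_lit 497) (nat_lit 2541) (.d (nat_lit 524) (nat_lit 495) (nat_lit 2540) (nat_lit 560) (nat_lit 524))) (.a (.f (nat_lit 525) (nat_lit 497) (nat_lit 2541) (.f (nat_lit 495) (nat_lit 524) (nat_lit 2540) (.d (nat_lit 464) (nat_lit 432) (nat_lit 5551) (nat_lit 591) (nat_lit 6607)))) (.a (.f (nat_lit 525) (nat_lit 497) (nat_lit 2541) (.d (nat_lit 560) (nat_lit 524) (nat_lit 524) (nat_lit 561) (nat_lit 525))) (.f (nat_lit 591) (nat_lit 623) (nat_lit 6639) (.d (nat_lit 464) (nat_lit 432) (nat_lit 5551) (nat_lit 495) (nat_lit 6607))))))) (.a s28156 (.a s28339 (.a (.p (nat_lit 496) (.a (.f (nat_lit 525) (nat_lit 497) (nat_lit 2541) (.d (nat_lit 560) (nat_lit 524) (nat_lit 524) (nat_lit 561) (nat_lit 525))) (.a (.p (nat_lit 462) (.a (.f (nat_lit 494) (nat_lit 430) (nat_lit 4526) (.d (nat_lit 591) (nat_lit 558) (nat_lit 4558) (nat_lit 623) (nat_lit 6639))) (.f (nat_lit 464) (nat_lit 432) (nat_lit 5551) (.f (nat_lit 497) (nat_lit 525) (nat_lit 2541) (.f (nat_lit 463) (nat_lit 461) (nat_lit 461) (.f (nat_lit 465) (nat_lit 498) (nat_lit 462) (.d (nat_lit 433) (nat_lit 401) (nat_lit 5520) (nat_lit 434) (nat_lit 2478)))))))) (.f (nat_lit 591) (nat_lit 623) (nat_lit 6639) (.d (nat_lit 464) (nat_lit 432) (nat_lit 5551) (nat_lit 560) (nat_lit 5583)))))) (.a s29503 (.a s29114 s28086))))))) (.a s29216 (.a s28110 (.a s29473 (.a s28112 (.a s29515 s29528))))))))))))))))))))))))))))))))))))))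
end Vale.Agent.Lib.P062.Full
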