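import Vale.Agent.Lib.P062.Full.K_0

set_option maxRecDepth 100000
set_option linter.all false

namespace Vale.Agent.Lib.P062.Full
open Vale.Agent.Lib.P062 Vale.Agent.Lib.P062.V2

noncomputable def s18927 : Cert := .r (nat_lit 3773962425919908978067039048378881885645768491231275023412675293626429865204541471935760055792560469727505484597500264544337939673836815150592175795562377636060837445632) (.p (nat_lit 464) (.a (.f (nat_lit 561) (nat_lit 593) (nat_lit 4560) (.f (nat_lit 527) (nat_lit 525) (nat_lit 525) (.d (nat_lit 432) (nat_lit 529) (nat_lit 4528) (nat_lit 559) (nat_lit 5551)))) (.a (.f (nat_lit 559) (nat_lit 591) (nat_lit 5583) (.f (nat_lit 527) (nat_lit 432) (nat_lit 5551) (.d (nat_lit 525) (nat_lit 497) (nat_lit 2541) (nat_lit 524) (nat_lit 524)))) (.a (.f (nat_lit 561) (nat_lit 593) (nat_lit 4560) (.f (nat_lit 529) (nat_lit 432) (nat_lit 4528) (.f (nat_lit 559) (nat_lit 591) (nat_lit 5583) (.d (nat_lit 530) (nat_lit 531)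 (nat_lit 1551) (nat_lit 558) (nat_lit 2574))))) (.a (.f (nat_lit 561) (nat_lit 593) (nat_lit 4560) (.f (nat_lit 527) (nat_lit 525) (nat_lit 525) (.d (nat_lit 529) (nat_lit 432) (nat_lit 4528) (nat_lit 562) (nat_lit 526)))) (.f (nat_lit 561) (nat_lit 593) (nat_lit 4560) (.f (nat_lit 527) (nat_lit 525) (nat_lit 525) (.d (nat_lit 559) (nat_lit 562) (nat_lit 3598) (nat_lit 591) (nat_lit 5583)))))))))
noncomputable def s18940 : Cert := .r (nat_lit 3773962425919908978067039048378881885645768491231275023412675293626429865204541471935760055792560469727505484597500264544337939673836815150592175795562377636060837445632) (.p (nat_lit 592) (.a (.f (nat_lit 495) (nat_lit 463) (nat_lit 7631) (.f (nat_lit 527) (nat_lit 624) (nat_lit 7663) (.d (nat_lit 497) (nat_lit 465) (nat_lit 6608) (nat_lit 525) (nat_lit 2541)))) (.a (.f (nat_lit 497) (nat_lit 465) (nat_lit 6608) (.f (nat_lit 624) (nat_lit 529) (nat_lit 6640) (.d (nat_lit 623) (nat_lit 591)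 (nat_lit 5615) (nat_lit 655) (nat_lit 5647)))) (.a (.f (nat_lit 495) (nat_lit 463) (nat_lit 7631) (.f (nat_lit 527) (nat_lit 624) (nat_lit 7663) (.d (nat_lit 525) (nat_lit 524) (nat_lit 2540) (nat_lit 561) (nat_lit 525)))) (.f (nat_lit 495) (nat_lit 463) (nat_lit 7631) (.f (nat_lit 497) (nat_lit 465) (nat_lit 6608) (.d (nat_lit 525) (nat_lit 494) (nat_lit 1517) (nat_lit 527) (nat_lit 2541))))))))
noncomputable def s18947 : Cert := .r (nat_lit 3773962425919908978067039048378881885645768491231275023412675293626429865204541471935760055792560469727505484597500264544337939673836815150592175795562377636060837445632) (.p (nat_lit 464) (.a (.f (nat_lit 559) (nat_lit 591) (nat_lit 5583) (.f (nat_lit 527) (nat_lit 432) (nat_lit 5551) (.d (nat_lit 525) (nat_lit 497) (nat_lit 2541) (nat_lit 524) (nat_lit 524)))) (.a (.f (nat_lit 465) (nat_lit 433) (nat_lit 6576) (.f (nat_lit 592) (nat_lit 497) (nat_lit 6608) (.d (nat_lit 463) (nat_lit 431) (nat_lit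 7599) (nat_lit 495) (nat_lit 7631)))) (.f (nat_lit 559) (nat_lit 591) (nat_lit 5583) (.f (nat_lit 527) (nat_lit 432) (nat_lit 5551) (.f (nat_lit 463) (nat_lit 431) (nat_lit 7599) (.f (nat_lit 495) (nat_lit 592) (nat_lit 7631) (.f (nat_lit 558) (nat_lit 590) (nat_lit 5582) (.d (nat_lit 529) (nat_lit 530) (nat_lit 1550) (nat_lit 557) (nat_lit 1549))))))))))
noncomputable def s18950 : Cert := .r (nat_lit 1098367625825484467390612994728847270814834595036468993380805702812392619849633330614901702186037109566736419644567355043912022518030741544129681592411442118656) (.p (nat_lit 560) (.a (.p (nat_lit 464) (.a (.f (nat_lit 561) (nat_lit 593) (nat_lit 4560) (.f (nat_lit 527) (nat_lit 525) (nat_lit 525) (.d (nat_lit 432) (nat_lit 529) (nat_lit 4528) (nat_lit 559) (nat_lit 5551)))) (.a (.f (nat_lit 559) (nat_lit 591) (nat_lit 5583) (.f (nat_lit 527) (nat_lit 432) (nat_lit 5551) (.d (nat_lit 525) (nat_lit 497) (nat_lit 2541) (nat_lit 524) (nat_lit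 524)))) (.f (nat_lit 465) (nat_lit 433) (nat_lit 6576) (.f (nat_lit 592) (nat_lit 497) (nat_lit 6608) (.d (nat_lit 463) (nat_lit 431) (nat_lit 7599) (nat_lit 495) (nat_lit 7631))))))) (.a (.p (nat_lit 464) (.a (.f (nat_lit 559) (nat_lit 591) (nat_lit 5583) (.f (nat_lit 527) (nat_lit 432) (nat_lit 5551) (.d (nat_lit 525) (nat_lit 497) (nat_lit 2541) (nat_lit 524) (nat_lit 524)))) (.a (.f (nat_lit 465) (nat_lit 433) (nat_lit 6576) (.f (nat_lit 592) (nat_lit 497) (nat_lit 6608) (.d (nat_lit 463) (nat_lit 431) (nat_lit 7599) (nat_lit 495) (nat_lit 7631)))) (.f (nat_lit 559) (nat_lit 591) (nat_lit 5583) (.f (nat_lit 527) (nat_lit 432) (nat_lit 5551) (.d (nat_lit 525) (nat_lit 524) (nat_lit 524) (nat_lit 561) (nat_lit 525))))))) (.a (.p (nat_lit 464) (.a (.f (nat_lit 465) (nat_lit 433) (nat_lit 6576) (.f (nat_lit 592) (nat_lit 497) (nat_lit 6608) (.d (nat_lit 463) (nat_lit 431) (nat_lit 7599) (nat_lit 495) (nat_lit 7631)))) (.f (nat_lit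 561) (nat_lit 593) (nat_lit 4560) (.f (nat_lit 529) (nat_lit 432) (nat_lit 4528) (.f (nat_lit 559) (nat_lit 591) (nat_lit 5583) (.d (nat_lit 530) (nat_lit 531) (nat_lit 1551) (nat_lit 558) (nat_lit 2574))))))) (.a s18927 (.a s18940 (.a s18947 (.a (.p (nat_lit 464) (.a (.f (nat_lit 561) (nat_lit 593) (nat_lit 4560) (.f (nat_lit 527) (nat_lit 525) (nat_lit 525) (.d (nat_lit 432) (nat_lit 529) (nat_lit 4528) (nat_lit 559) (nat_lit 5551)))) (.a (.f (nat_lit 559) (nat_lit 591) (nat_lit 5583) (.f (nat_lit 527) (nat_lit 432) (nat_lit 5551) (.d (nat_lit 525) (nat_lit 524) (nat_lit 524) (nat_lit 561) (nat_lit 525)))) (.a (.f (nat_lit 561) (nat_lit 593) (nat_lit 4560) (.f (nat_lit 529) (nat_lit 432) (nat_lit 4528) (.f (nat_lit 559) (nat_lit 591) (nat_lit 5583) (.d (nat_lit 530) (nat_lit 531) (nat_lit 1551) (nat_lit 558) (nat_lit 2574))))) (.a (.f (nat_lit 561) (nat_lit 593) (nat_lit 4560) (.f (nat_lit 527) (nat_lit 525) (nat_lit 525) (.d (nat_lit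 529) (nat_lit 432) (nat_lit 4528) (nat_lit 562) (nat_lit 526)))) (.a (.f (nat_lit 561) (nat_lit 593) (nat_lit 4560) (.f (nat_lit 527) (nat_lit 525) (nat_lit 525) (.d (nat_lit 559) (nat_lit 562) (nat_lit 3598) (nat_lit 591) (nat_lit 5583)))) (.f (nat_lit 559) (nat_lit 591) (nat_lit 5583) (.f (nat_lit 527) (nat_lit 432) (nat_lit 5551) (.f (nat_lit 463) (nat_lit 431) (nat_lit 7599) (.f (nat_lit 495) (nat_lit 592) (nat_lit 7631) (.f (nat_lit 558) (nat_lit 590) (nat_lit 5582) (.d (nat_lit 529) (nat_lit 530) (nat_lit 1550) (nat_lit 557) (nat_lit 1549))))))))))))) (.p (nat_lit 464) (.a (.f (nat_lit 561) (nat_lit 593) (nat_lit 4560) (.f (nat_lit 527) (nat_lit 525) (nat_lit 525) (.d (nat_lit 432) (nat_lit 529) (nat_lit 4528) (nat_lit 559) (nat_lit 5551)))) (.f (nat_lit 465) (nat_lit 433) (nat_lit 6576) (.f (nat_lit 592) (nat_lit 497) (nat_lit 6608) (.d (nat_lit 463) (nat_lit 431) (nat_lit 7599) (nat_lit 495) (nat_lit 7631))))))))))))))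
noncomputable def s18960 : Cert := .r (nat_lit 3773962425919908978067039048378881885645768491231275023412675293626429865204541471935760055792560469727505484597500264544337939673836815150592175795562377636060837445632) (.p (nat_lit 464) (.a (.f (nat_lit 465) (nat_lit 433) (nat_lit 6576) (.f (nat_lit 592) (nat_lit 497) (nat_lit 6608) (.d (nat_lit 463) (nat_lit 431) (nat_lit 7599) (nat_lit 495) (nat_lit 7631)))) (.a (.f (nat_lit 433) (nat_lit 465) (nat_lit 6576) (.f (nat_lit 432) (nat_lit 401) (nat_lit 6544) (.d (nat_lit 431) (nat_lit 399) (nat_lit 7567) (nat_lit 463) (nat_lit 7599)))) (.a (.f (nat_lit 465) (nat_lit 433) (nat_lit 6576) (.f (nat_lit 592) (nat_lit 497) (nat_lit 6608) (.d (nat_lit 591) (nat_lit 559) (nat_lit 5583) (nat_lit 623) (nat_lit 5615)))) (.f (nat_lit 463) (nat_lit 431) (nat_lit 7599) (.f (nat_lit 592) (nat_lit 495) (nat_lit 7631) (.d (nat_lit 591) (nat_lit 559) (nat_lit 5583) (nat_lit 623) (nat_lit 5615))))))))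
noncomputable def s18977 : Cert := .r (nat_lit 3773962425919908978067039048378881885645768491231275023412675293626429865204541471935760055792560469727505484597500264544337939673836815150592175795562377636060837445632) (.p (nat_lit 464) (.a (.f (nat_lit 465) (nat_lit 433) (nat_lit 6576) (.f (nat_lit 592) (nat_lit 497) (nat_lit 6608) (.d (nat_lit 463) (nat_lit 431) (nat_lit 7599) (nat_lit 495) (nat_lit 7631)))) (.a (.f (nat_lit 433) (nat_lit 465) (nat_lit 6576) (.f (nat_lit 432) (nat_lit 401) (nat_lit 6544) (.d (nat_lit 431) (nat_lit 399) (nat_lit 7567) (nat_lit 463) (nat_lit 7599)))) (.a (.f (nat_lit 465) (nat_lit 433) (nat_lit 6576) (.f (nat_lit 497) (nat_lit 592) (nat_lit 6608) (.f (nat_lit 527) (nat_lit 525) (nat_lit 2541) (.f (nat_lit 432) (nat_lit 559) (nat_lit 5551) (.d (nat_lit 400) (nat_lit 368) (nat_lit 4464) (nat_lit 495) (nat_lit 5519)))))) (.f (nat_lit 463) (nat_lit 431) (nat_lit 7599) (.f (nat_lit 495) (nat_lit 592) (nat_lit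 7631) (.f (nat_lit 561) (nat_lit 593) (nat_lit 4560) (.f (nat_lit 527) (nat_lit 525) (nat_lit 525) (.d (nat_lit 432) (nat_lit 400) (nat_lit 5519) (nat_lit 559) (nat_lit 5551))))))))))
noncomputable def s18981 : Cert := .r (nat_lit 3773962425919908978067039048378881885645768491231275023412675293626429865204541471935760055792560469727505484597500264544337939673836815150592175795562377636060837445632) (.p (nat_lit 464) (.a (.f (nat_lit 559) (nat_lit 591) (nat_lit 5583) (.f (nat_lit 527) (nat_lit 432) (nat_lit 5551) (.d (nat_lit 525) (nat_lit 497) (nat_lit 2541) (nat_lit 524) (nat_lit 524)))) (.a (.f (nat_lit 465) (nat_lit 433) (nat_lit 6576) (.f (nat_lit 592) (nat_lit 497) (nat_lit 6608) (.d (nat_lit 591) (nat_lit 559) (nat_lit 5583) (nat_lit 623) (nat_lit 5615)))) (.a (.f (nat_lit 465) (nat_lit 433) (nat_lit 6576) (.f (nat_lit 592) (nat_lit 497) (nat_lit 6608) (.d (nat_lit 593) (nat_lit 561) (nat_lit 4560) (nat_lit 625) (nat_lit 4592))))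 (.f (nat_lit 559) (nat_lit 591) (nat_lit 5583) (.f (nat_lit 527) (nat_lit 432) (nat_lit 5551) (.d (nat_lit 525) (nat_lit 524) (nat_lit 524) (nat_lit 561) (nat_lit 525))))))))
noncomputable def s18986 : Cert := .r (nat_lit 1098367625825484467390612994728847270814834595036468993380805702812392619849633330614901702186037109566736419644567355043912022518030741544129681592411442118656) (.p (nat_lit 560) (.a (.p (nat_lit 464) (.a (.f (nat_lit 559) (nat_lit 591) (nat_lit 5583) (.f (nat_lit 527) (nat_lit 432) (nat_lit 5551) (.d (nat_lit 525) (nat_lit 497) (nat_lit 2541) (nat_lit 524) (nat_lit 524)))) (.a (.f (nat_lit 465) (nat_lit 433) (nat_lit 6576) (.f (nat_lit 592) (nat_lit 497) (nat_lit 6608) (.d (nat_lit 463) (nat_lit 431) (nat_lit 7599) (nat_lit 495) (nat_lit 7631)))) (.f (nat_lit 559) (nat_lit 591) (nat_lit 5583) (.f (nat_lit 527) (nat_lit 432) (nat_lit 5551) (.d (nat_lit 525) (nat_lit 524) (nat_lit 524) (nat_lit 561) (nat_lit 525)))))))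 (.a s18960 (.a (.p (nat_lit 464) (.a (.f (nat_lit 559) (nat_lit 591) (nat_lit 5583) (.f (nat_lit 527) (nat_lit 432) (nat_lit 5551) (.d (nat_lit 525) (nat_lit 497) (nat_lit 2541) (nat_lit 524) (nat_lit 524)))) (.a (.f (nat_lit 433) (nat_lit 465) (nat_lit 6576) (.f (nat_lit 432) (nat_lit 401) (nat_lit 6544) (.d (nat_lit 431) (nat_lit 399) (nat_lit 7567) (nat_lit 463) (nat_lit 7599)))) (.f (nat_lit 561) (nat_lit 593) (nat_lit 4560) (.f (nat_lit 527) (nat_lit 525) (nat_lit 525) (.d (nat_lit 559) (nat_lit 562) (nat_lit 3598) (nat_lit 591) (nat_lit 5583))))))) (.a (.p (nat_lit 592) (.a (.f (nat_lit 495) (nat_lit 463) (nat_lit 7631) (.f (nat_lit 527) (nat_lit 624) (nat_lit 7663) (.d (nat_lit 497) (nat_lit 465) (nat_lit 6608) (nat_lit 525) (nat_lit 2541)))) (.a (.f (nat_lit 623) (nat_lit 591) (nat_lit 5615) (.f (nat_lit 624) (nat_lit 655) (nat_lit 5647) (.d (nat_lit 625) (nat_lit 593) (nat_lit 4592) (nat_lit 657) (nat_lit 4624)))) (.f (nat_lit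 495) (nat_lit 463) (nat_lit 7631) (.f (nat_lit 497) (nat_lit 465) (nat_lit 6608) (.d (nat_lit 525) (nat_lit 494) (nat_lit 1517) (nat_lit 527) (nat_lit 2541))))))) (.a (.p (nat_lit 464) (.a (.f (nat_lit 559) (nat_lit 591) (nat_lit 5583) (.f (nat_lit 527) (nat_lit 432) (nat_lit 5551) (.d (nat_lit 525) (nat_lit 524) (nat_lit 524) (nat_lit 561) (nat_lit 525)))) (.a (.f (nat_lit 433) (nat_lit 465) (nat_lit 6576) (.f (nat_lit 432) (nat_lit 401) (nat_lit 6544) (.d (nat_lit 431) (nat_lit 399) (nat_lit 7567) (nat_lit 463) (nat_lit 7599)))) (.f (nat_lit 561) (nat_lit 593) (nat_lit 4560) (.f (nat_lit 527) (nat_lit 525) (nat_lit 525) (.d (nat_lit 559) (nat_lit 562) (nat_lit 3598) (nat_lit 591) (nat_lit 5583))))))) (.a s18977 (.a s18981 (.p (nat_lit 464) (.a (.f (nat_lit 559) (nat_lit 591) (nat_lit 5583) (.f (nat_lit 527) (nat_lit 432) (nat_lit 5551) (.d (nat_lit 525) (nat_lit 497) (nat_lit 2541) (nat_lit 524) (nat_lit 524)))) (.a (.f (nat_lit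 463) (nat_lit 431) (nat_lit 7599) (.f (nat_lit 592) (nat_lit 495) (nat_lit 7631) (.d (nat_lit 591) (nat_lit 559) (nat_lit 5583) (nat_lit 623) (nat_lit 5615)))) (.f (nat_lit 463) (nat_lit 431) (nat_lit 7599) (.f (nat_lit 592) (nat_lit 495) (nat_lit 7631) (.d (nat_lit 593) (nat_lit 561) (nat_lit 4560) (nat_lit 625) (nat_lit 4592)))))))))))))))
noncomputable def s18995 : Cert := .r (nat_lit 3773962425919908978067039048378881885645768491231275023412675293626429865204541471935760055792560469727505484597500264544337939673836815150592175795562377636060837445632) (.p (nat_lit 592) (.a (.f (nat_lit 497) (nat_lit 465) (nat_lit 6608) (.f (nat_lit 624) (nat_lit 529) (nat_lit 6640) (.d (nat_lit 623) (nat_lit 591) (nat_lit 5615) (nat_lit 655) (nat_lit 5647)))) (.a (.f (nat_lit 623) (nat_lit 591) (nat_lit 5615) (.f (nat_lit 624) (nat_lit 655) (nat_lit 5647) (.d (nat_lit 625) (nat_lit 593) (nat_lit 4592) (nat_lit 657) (nat_lit 4624)))) (.a (.f (nat_lit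 497) (nat_lit 465) (nat_lit 6608) (.f (nat_lit 624) (nat_lit 529) (nat_lit 6640) (.d (nat_lit 625) (nat_lit 593) (nat_lit 4592) (nat_lit 657) (nat_lit 4624)))) (.f (nat_lit 495) (nat_lit 463) (nat_lit 7631) (.f (nat_lit 497) (nat_lit 465) (nat_lit 6608) (.f (nat_lit 494) (nat_lit 525) (nat_lit 1517) (.d (nat_lit 529) (nat_lit 493) (nat_lit 493) (nat_lit 530) (nat_lit 494)))))))))
noncomputable def s19000 : Cert := .r (nat_lit 3773962425919908978067039048378881885645768491231275023412675293626429865204541471935760055792560469727505484597500264544337939673836815150592175795562377636060837445632) (.p (nat_lit 464) (.a (.f (nat_lit 561) (nat_lit 593) (nat_lit 4560) (.f (nat_lit 529) (nat_lit 432) (nat_lit 4528) (.f (nat_lit 559) (nat_lit 591) (nat_lit 5583) (.d (nat_lit 530) (nat_lit 531) (nat_lit 1551) (nat_lit 558) (nat_lit 2574))))) (.a (.f (nat_lit 433) (nat_lit 465) (nat_lit 6576) (.f (nat_lit 432) (nat_lit 401) (nat_lit 6544) (.d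 (nat_lit 431) (nat_lit 399) (nat_lit 7567) (nat_lit 463) (nat_lit 7599)))) (.f (nat_lit 559) (nat_lit 591) (nat_lit 5583) (.f (nat_lit 561) (nat_lit 593) (nat_lit 4560) (.f (nat_lit 558) (nat_lit 525) (nat_lit 3597) (.d (nat_lit 529) (nat_lit 530) (nat_lit 2574) (nat_lit 557) (nat_lit 2573))))))))
noncomputable def s19001 : Cert := .r (nat_lit 3773962425919908978067039048378881885645768491231275023412675293626429865204541471935760055792560469727505484597500264544337939673836815150592175795562377636060837445632) (.p (nat_lit 464) (.a (.f (nat_lit 465) (nat_lit 433) (nat_lit 6576) (.f (nat_lit 592) (nat_lit 497) (nat_lit 6608) (.d (nat_lit 463) (nat_lit 431) (nat_lit 7599) (nat_lit 495) (nat_lit 7631)))) (.a (.f (nat_lit 433) (nat_lit 465) (nat_lit 6576) (.f (nat_lit 432) (nat_lit 401) (nat_lit 6544) (.d (nat_lit 431) (nat_lit 399) (nat_lit 7567) (nat_lit 463) (nat_lit 7599)))) (.a (.f (nat_lit 465) (nat_lit 433) (nat_lit 6576) (.f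 (nat_lit 592) (nat_lit 497) (nat_lit 6608) (.d (nat_lit 593) (nat_lit 561) (nat_lit 4560) (nat_lit 625) (nat_lit 4592)))) (.f (nat_lit 463) (nat_lit 431) (nat_lit 7599) (.f (nat_lit 592) (nat_lit 495) (nat_lit 7631) (.d (nat_lit 593) (nat_lit 561) (nat_lit 4560) (nat_lit 625) (nat_lit 4592))))))))
noncomputable def s19004 : Cert := .r (nat_lit 1098367625825484467390612994728847270814834595036468993380805702812392619849633330614901702186037109566736419644567355043912022518030741544129681592411442118656) (.p (nat_lit 560) (.a (.p (nat_lit 464) (.a (.f (nat_lit 465) (nat_lit 433) (nat_lit 6576) (.f (nat_lit 592) (nat_lit 497) (nat_lit 6608) (.d (nat_lit 463) (nat_lit 431) (nat_lit 7599) (nat_lit 495) (nat_lit 7631)))) (.f (nat_lit 561) (nat_lit 593) (nat_lit 4560) (.f (nat_lit 529) (nat_lit 432) (nat_lit 4528) (.f (nat_lit 559) (nat_lit 591) (nat_lit 5583) (.d (nat_lit 530) (nat_lit 531) (nat_lit 1551) (nat_lit 558) (nat_lit 2574)))))))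 (.a s18960 (.a (.p (nat_lit 464) (.a (.f (nat_lit 561) (nat_lit 593) (nat_lit 4560) (.f (nat_lit 529) (nat_lit 432) (nat_lit 4528) (.f (nat_lit 559) (nat_lit 591) (nat_lit 5583) (.d (nat_lit 530) (nat_lit 531) (nat_lit 1551) (nat_lit 558) (nat_lit 2574))))) (.a (.f (nat_lit 433) (nat_lit 465) (nat_lit 6576) (.f (nat_lit 432) (nat_lit 401) (nat_lit 6544) (.d (nat_lit 431) (nat_lit 399) (nat_lit 7567) (nat_lit 463) (nat_lit 7599)))) (.f (nat_lit 465) (nat_lit 433) (nat_lit 6576) (.f (nat_lit 592) (nat_lit 497) (nat_lit 6608) (.d (nat_lit 591) (nat_lit 559) (nat_lit 5583) (nat_lit 623) (nat_lit 5615))))))) (.a s18995 (.a s19000 (.a s19001 (.a (.p (nat_lit 464) (.a (.f (nat_lit 561) (nat_lit 593) (nat_lit 4560) (.f (nat_lit 529) (nat_lit 432) (nat_lit 4528) (.f (nat_lit 559) (nat_lit 591) (nat_lit 5583) (.d (nat_lit 530) (nat_lit 531) (nat_lit 1551) (nat_lit 558) (nat_lit 2574))))) (.a (.f (nat_lit 465) (nat_lit 433) (nat_lit 6576) (.f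 (nat_lit 592) (nat_lit 497) (nat_lit 6608) (.d (nat_lit 591) (nat_lit 559) (nat_lit 5583) (nat_lit 623) (nat_lit 5615)))) (.f (nat_lit 465) (nat_lit 433) (nat_lit 6576) (.f (nat_lit 592) (nat_lit 497) (nat_lit 6608) (.d (nat_lit 593) (nat_lit 561) (nat_lit 4560) (nat_lit 625) (nat_lit 4592))))))) (.p (nat_lit 464) (.a (.f (nat_lit 561) (nat_lit 593) (nat_lit 4560) (.f (nat_lit 529) (nat_lit 432) (nat_lit 4528) (.f (nat_lit 559) (nat_lit 591) (nat_lit 5583) (.d (nat_lit 530) (nat_lit 531) (nat_lit 1551) (nat_lit 558) (nat_lit 2574))))) (.a (.f (nat_lit 463) (nat_lit 431) (nat_lit 7599) (.f (nat_lit 592) (nat_lit 495) (nat_lit 7631) (.d (nat_lit 591) (nat_lit 559) (nat_lit 5583) (nat_lit 623) (nat_lit 5615)))) (.f (nat_lit 463) (nat_lit 431) (nat_lit 7599) (.f (nat_lit 592) (nat_lit 495) (nat_lit 7631) (.d (nat_lit 593) (nat_lit 561) (nat_lit 4560) (nat_lit 625) (nat_lit 4592)))))))))))))))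
noncomputable def s19025 : Cert := .r (nat_lit 1098367625825484467390612994728847270814834595036468993380805702812392619849633330614901702186037109566736419644567355043912022518030741544129681592411442118656) (.p (nat_lit 527) (.a (.f (nat_lit 525) (nat_lit 497) (nat_lit 2541) (.f (nat_lit 560) (nat_lit 561) (nat_lit 525) (.f (nat_lit 559) (nat_lit 524) (nat_lit 524) (.d (nat_lit 464) (nat_lit 432) (nat_lit 5551) (nat_lit 591) (nat_lit 5583))))) (.a (.f (nat_lit 525) (nat_lit 497) (nat_lit 2541) (.f (nat_lit 557) (nat_lit 556) (nat_lit 1548) (.f (nat_lit 493) (nat_lit 492) (nat_lit 3564) (.d (nat_lit 529) (nat_lit 494) (nat_lit 3565) (nat_lit 558) (nat_lit 1549))))) (.a (.p (nat_lit 529) (.a (.f (nat_lit 561) (nat_lit 562) (nat_lit 526) (.f (nat_lit 464) (nat_lit 432) (nat_lit 4528) (.d (nat_lit 593) (nat_lit 497) (nat_lit 7632) (nat_lit 560) (nat_lit 4560)))) (.a (.f (nat_lit 561) (nat_lit 562) (nat_lit 526) (.f (nat_lit 464) (nat_lit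 432) (nat_lit 4528) (.d (nat_lit 593) (nat_lit 497) (nat_lit 7632) (nat_lit 625) (nat_lit 7664)))) (.f (nat_lit 558) (nat_lit 557) (nat_lit 1549) (.f (nat_lit 559) (nat_lit 530) (nat_lit 1550) (.f (nat_lit 494) (nat_lit 493) (nat_lit 3565) (.d (nat_lit 462) (nat_lit 430) (nat_lit 4526) (nat_lit 591) (nat_lit 4558)))))))) (.p (nat_lit 529) (.a (.f (nat_lit 558) (nat_lit 557) (nat_lit 1549) (.f (nat_lit 559) (nat_lit 530) (nat_lit 1550) (.f (nat_lit 494) (nat_lit 493) (nat_lit 3565) (.d (nat_lit 462) (nat_lit 430) (nat_lit 4526) (nat_lit 591) (nat_lit 4558))))) (.f (nat_lit 561) (nat_lit 562) (nat_lit 526) (.f (nat_lit 560) (nat_lit 525) (nat_lit 525) (.d (nat_lit 464) (nat_lit 432) (nat_lit 4528) (nat_lit 593) (nat_lit 4560))))))))))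
noncomputable def s19032 : Cert := .r (nat_lit 1098367625825484467390612994728847270814834595036468993380805702812392619849633330614901702186037109566736419644567355043912022518030741544129681592411442118656) (.p (nat_lit 527) (.a (.f (nat_lit 525) (nat_lit 497) (nat_lit 2541) (.f (nat_lit 557) (nat_lit 556) (nat_lit 1548) (.f (nat_lit 493) (nat_lit 492) (nat_lit 3564) (.d (nat_lit 529) (nat_lit 494) (nat_lit 3565) (nat_lit 558) (nat_lit 1549))))) (.a (.f (nat_lit 525) (nat_lit 497) (nat_lit 2541) (.f (nat_lit 524) (nat_lit 495) (nat_lit 2540) (.d (nat_lit 492) (nat_lit 491) (nat_lit 3563) (nat_lit 493) (nat_lit 3564)))) (.a (.p (nat_lit 529) (.a (.f (nat_lit 561) (nat_lit 562) (nat_lit 526) (.f (nat_lit 464) (nat_lit 432) (nat_lit 4528) (.d (nat_lit 593) (nat_lit 497) (nat_lit 7632) (nat_lit 625) (nat_lit 7664)))) (.f (nat_lit 558) (nat_lit 557) (nat_lit 1549) (.f (nat_lit 559) (nat_lit 530) (nat_lit 1550) (.f (nat_lit 494) (nat_lit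 493) (nat_lit 3565) (.d (nat_lit 462) (nat_lit 430) (nat_lit 4526) (nat_lit 591) (nat_lit 4558))))))) (.a (.p (nat_lit 529) (.a (.f (nat_lit 558) (nat_lit 557) (nat_lit 1549) (.f (nat_lit 559) (nat_lit 530) (nat_lit 1550) (.f (nat_lit 494) (nat_lit 493) (nat_lit 3565) (.d (nat_lit 462) (nat_lit 430) (nat_lit 4526) (nat_lit 591) (nat_lit 4558))))) (.a (.f (nat_lit 493) (nat_lit 494) (nat_lit 3565) (.f (nat_lit 525) (nat_lit 492) (nat_lit 3564) (.d (nat_lit 557) (nat_lit 556) (nat_lit 1548) (nat_lit 558) (nat_lit 1549)))) (.a (.f (nat_lit 558) (nat_lit 557) (nat_lit 1549) (.f (nat_lit 559) (nat_lit 530) (nat_lit 1550) (.f (nat_lit 591) (nat_lit 623) (nat_lit 6639) (.d (nat_lit 464) (nat_lit 432) (nat_lit 5551) (nat_lit 495) (nat_lit 6607))))) (.f (nat_lit 494) (nat_lit 493) (nat_lit 3565) (.f (nat_lit 530) (nat_lit 495) (nat_lit 3566) (.d (nat_lit 562) (nat_lit 561) (nat_lit 526) (nat_lit 563) (nat_lit 527)))))))) (.f (nat_lit 525)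 (nat_lit 497) (nat_lit 2541) (.f (nat_lit 524) (nat_lit 495) (nat_lit 2540) (.d (nat_lit 556) (nat_lit 555) (nat_lit 1547) (nat_lit 557) (nat_lit 1548)))))))))
noncomputable def s19062 : Cert := .r (nat_lit 943490607303752963937019840886057434177033664931875938883905600411634630746106260497667102478139433991455298517019633324992605640886346785690119740517314869782049193984) (.p (nat_lit 462) (.a (.f (nat_lit 461) (nat_lit 429) (nat_lit 7597) (.f (nat_lit 495) (nat_lit 497) (nat_lit 3533) (.d (nat_lit 460) (nat_lit 459) (nat_lit 459) (nat_lit 463) (nat_lit 460)))) (.a (.f (nat_lit 429) (nat_lit 461) (nat_lit 7597) (.f (nat_lit 430) (nat_lit 397) (nat_lit 7565) (.d (nat_lit 431) (nat_lit 399) (nat_lit 6542) (nat_lit 463) (nat_lit 6574)))) (.a (.f (nat_lit 461) (nat_lit 429) (nat_lit 7597) (.f (nat_lit 493) (nat_lit 590) (nat_lit 7629) (.d (nat_lit 495) (nat_lit 460) (nat_lit 3532) (nat_lit 497) (nat_lit 3533)))) (.f (nat_lit 463) (nat_lit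 431) (nat_lit 6574) (.f (nat_lit 495) (nat_lit 590) (nat_lit 6606) (.f (nat_lit 525) (nat_lit 497) (nat_lit 1517) (.d (nat_lit 524) (nat_lit 493) (nat_lit 1516) (nat_lit 523) (nat_lit 2539)))))))))
noncomputable def s19070 : Cert := .r (nat_lit 943490607303752963937019840886057434177033664931875938883905600411634630746106260497667102478139433991455298517019633324992605640886346785690119740517314869782049193984) (.p (nat_lit 462) (.a (.f (nat_lit 461) (nat_lit 429) (nat_lit 7597) (.f (nat_lit 495) (nat_lit 497) (nat_lit 3533) (.d (nat_lit 460) (nat_lit 459) (nat_lit 459) (nat_lit 463) (nat_lit 460)))) (.a (.f (nat_lit 429) (nat_lit 461) (nat_lit 7597) (.f (nat_lit 430) (nat_lit 397) (nat_lit 7565) (.d (nat_lit 431) (nat_lit 399) (nat_lit 6542) (nat_lit 463) (nat_lit 6574)))) (.a (.f (nat_lit 461) (nat_lit 429) (nat_lit 7597) (.f (nat_lit 493) (nat_lit 590) (nat_lit 7629) (.d (nat_lit 495) (nat_lit 460) (nat_lit 3532) (nat_lit 497)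 (nat_lit 3533)))) (.f (nat_lit 559) (nat_lit 591) (nat_lit 4558) (.f (nat_lit 527) (nat_lit 430) (nat_lit 4526) (.d (nat_lit 557) (nat_lit 556) (nat_lit 2572) (nat_lit 589) (nat_lit 5581))))))))
noncomputable def s19071 : Cert := .r (nat_lit 943490607303752963937019840886057434177033664931875938883905600411634630746106260497667102478139433991455298517019633324992605640886346785690119740517314869782049193984) (.p (nat_lit 462) (.a (.f (nat_lit 463) (nat_lit 431) (nat_lit 6574) (.f (nat_lit 495) (nat_lit 590) (nat_lit 6606) (.d (nat_lit 461) (nat_lit 429) (nat_lit 7597) (nat_lit 460) (nat_lit 460)))) (.a (.f (nat_lit 429) (nat_lit 461) (nat_lit 7597) (.f (nat_lit 430) (nat_lit 397) (nat_lit 7565) (.d (nat_lit 431) (nat_lit 399) (nat_lit 6542) (nat_lit 463) (nat_lit 6574)))) (.a (.f (nat_lit 591) (nat_lit 559) (nat_lit 4558) (.f (nat_lit 590) (nat_lit 623) (nat_lit 4590) (.d (nat_lit 461) (nat_lit 429) (nat_lit 7597) (nat_lit 493) (nat_lit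 7629)))) (.f (nat_lit 559) (nat_lit 591) (nat_lit 4558) (.f (nat_lit 527) (nat_lit 430) (nat_lit 4526) (.d (nat_lit 557) (nat_lit 556) (nat_lit 2572) (nat_lit 589) (nat_lit 5581))))))))
noncomputable def s19085 : Cert := .r (nat_lit 943490607303752963937019840886057434177033664931875938883905600411634630746106260497667102478139433991455298517019633324992605640886346785690119740517314869782049193984) (.p (nat_lit 590) (.a (.f (nat_lit 495) (nat_lit 463) (nat_lit 6606) (.f (nat_lit 525) (nat_lit 497) (nat_lit 1517) (.d (nat_lit 493) (nat_lit 461) (nat_lit 7629) (nat_lit 524) (nat_lit 1516)))) (.a (.f (nat_lit 493) (nat_lit 461) (nat_lit 7629) (.f (nat_lit 525) (nat_lit 622) (nat_lit 7661) (.d (nat_lit 527) (nat_lit 492) (nat_lit 3564) (nat_lit 497) (nat_lit 2541)))) (.a (.f (nat_lit 495) (nat_lit 463) (nat_lit 6606) (.f (nat_lit 527) (nat_lit 622) (nat_lit 6638) (.d (nat_lit 493) (nat_lit 461) (nat_lit 7629) (nat_lit 492) (nat_lit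 492)))) (.f (nat_lit 495) (nat_lit 463) (nat_lit 6606) (.f (nat_lit 525) (nat_lit 497) (nat_lit 1517) (.d (nat_lit 524) (nat_lit 523) (nat_lit 2539) (nat_lit 527) (nat_lit 2540))))))))
noncomputable def s19088 : Cert := .r (nat_lit 943490607303752963885873112637680217458077575918944702130520568442211743410429832871165011909316394071404203324427380869510001201393220676171100106987855603323790950400) (.p (nat_lit 494) (.a (.p (nat_lit 462) (.a (.f (nat_lit 461) (nat_lit 429) (nat_lit 7597) (.f (nat_lit 495) (nat_lit 497) (nat_lit 3533) (.d (nat_lit 460) (nat_lit 459) (nat_lit 459) (nat_lit 463) (nat_lit 460)))) (.a (.f (nat_lit 557) (nat_lit 589) (nat_lit 5581) (.f (nat_lit 525) (nat_lit 430) (nat_lit 5549) (.d (nat_lit 527) (nat_lit 497) (nat_lit 2541) (nat_lit 556) (nat_lit 1548)))) (.f (nat_lit 463) (nat_lit 431) (nat_lit 6574) (.f (nat_lit 495) (nat_lit 590) (nat_lit 6606) (.d (nat_lit 461) (nat_lit 429) (nat_lit 7597) (nat_lit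 460) (nat_lit 460))))))) (.a s19062 (.a (.p (nat_lit 462) (.a (.f (nat_lit 557) (nat_lit 589) (nat_lit 5581) (.f (nat_lit 525) (nat_lit 430) (nat_lit 5549) (.d (nat_lit 527) (nat_lit 497) (nat_lit 2541) (nat_lit 556) (nat_lit 1548)))) (.a (.f (nat_lit 429) (nat_lit 461) (nat_lit 7597) (.f (nat_lit 430) (nat_lit 397) (nat_lit 7565) (.d (nat_lit 431) (nat_lit 399) (nat_lit 6542) (nat_lit 463) (nat_lit 6574)))) (.f (nat_lit 591) (nat_lit 559) (nat_lit 4558) (.f (nat_lit 590) (nat_lit 623) (nat_lit 4590) (.d (nat_lit 461) (nat_lit 429) (nat_lit 7597) (nat_lit 493) (nat_lit 7629))))))) (.a s19070 (.a s19071 (.a (.p (nat_lit 462) (.a (.f (nat_lit 557) (nat_lit 589) (nat_lit 5581) (.f (nat_lit 525) (nat_lit 430) (nat_lit 5549) (.d (nat_lit 527) (nat_lit 497) (nat_lit 2541) (nat_lit 556) (nat_lit 1548)))) (.a (.f (nat_lit 461) (nat_lit 429) (nat_lit 7597) (.f (nat_lit 493) (nat_lit 590) (nat_lit 7629) (.d (nat_lit 495) (nat_lit 460) (nat_lit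 3532) (nat_lit 497) (nat_lit 3533)))) (.f (nat_lit 591) (nat_lit 559) (nat_lit 4558) (.f (nat_lit 590) (nat_lit 623) (nat_lit 4590) (.d (nat_lit 461) (nat_lit 429) (nat_lit 7597) (nat_lit 493) (nat_lit 7629))))))) (.a s19085 (.a (.p (nat_lit 462) (.a (.f (nat_lit 461) (nat_lit 429) (nat_lit 7597) (.f (nat_lit 495) (nat_lit 497) (nat_lit 3533) (.d (nat_lit 460) (nat_lit 459) (nat_lit 459) (nat_lit 463) (nat_lit 460)))) (.a (.f (nat_lit 557) (nat_lit 589) (nat_lit 5581) (.f (nat_lit 525) (nat_lit 430) (nat_lit 5549) (.d (nat_lit 527) (nat_lit 497) (nat_lit 2541) (nat_lit 556) (nat_lit 1548)))) (.f (nat_lit 429) (nat_lit 461) (nat_lit 7597) (.f (nat_lit 430) (nat_lit 397) (nat_lit 7565) (.d (nat_lit 431) (nat_lit 399) (nat_lit 6542) (nat_lit 463) (nat_lit 6574))))))) (.p (nat_lit 462) (.a (.f (nat_lit 557) (nat_lit 589) (nat_lit 5581) (.f (nat_lit 525) (nat_lit 430) (nat_lit 5549) (.d (nat_lit 527) (nat_lit 497) (nat_lit 2541) (nat_lit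 556) (nat_lit 1548)))) (.a (.f (nat_lit 463) (nat_lit 431) (nat_lit 6574) (.f (nat_lit 495) (nat_lit 590) (nat_lit 6606) (.f (nat_lit 525) (nat_lit 497) (nat_lit 1517) (.d (nat_lit 524) (nat_lit 493) (nat_lit 1516) (nat_lit 523) (nat_lit 2539))))) (.f (nat_lit 559) (nat_lit 591) (nat_lit 4558) (.f (nat_lit 527) (nat_lit 430) (nat_lit 4526) (.d (nat_lit 557) (nat_lit 556) (nat_lit 2572) (nat_lit 589) (nat_lit 5581))))))))))))))))
noncomputable def s19098 : Cert := .r (nat_lit 943490607303752963937019840886057434177033664931875938883905600411634630746106260497667102478139433991455298517019633324992605640886346785690119740517314869782049193984) (.p (nat_lit 462) (.a (.f (nat_lit 461) (nat_lit 429) (nat_lit 7597) (.f (nat_lit 495) (nat_lit 497) (nat_lit 3533) (.d (nat_lit 460) (nat_lit 459) (nat_lit 459) (nat_lit 463) (nat_lit 460)))) (.a (.f (nat_lit 429) (nat_lit 461) (nat_lit 7597) (.f (nat_lit 430) (nat_lit 397) (nat_lit 7565) (.d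 (nat_lit 431) (nat_lit 399) (nat_lit 6542) (nat_lit 463) (nat_lit 6574)))) (.a (.f (nat_lit 461) (nat_lit 429) (nat_lit 7597) (.f (nat_lit 493) (nat_lit 590) (nat_lit 7629) (.d (nat_lit 495) (nat_lit 460) (nat_lit 3532) (nat_lit 497) (nat_lit 3533)))) (.f (nat_lit 463) (nat_lit 431) (nat_lit 6574) (.f (nat_lit 495) (nat_lit 590) (nat_lit 6606) (.f (nat_lit 529) (nat_lit 493) (nat_lit 493) (.d (nat_lit 530) (nat_lit 497) (nat_lit 494) (nat_lit 531) (nat_lit 3567)))))))))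
noncomputable def s19111 : Cert := .r (nat_lit 943490607303752963937019840886057434177033664931875938883905600411634630746106260497667102478139433991455298517019633324992605640886346785690119740517314869782049193984) (.p (nat_lit 590) (.a (.f (nat_lit 495) (nat_lit 463) (nat_lit 6606) (.f (nat_lit 525) (nat_lit 497) (nat_lit 1517) (.d (nat_lit 493) (nat_lit 461) (nat_lit 7629) (nat_lit 524) (nat_lit 1516)))) (.a (.f (nat_lit 493) (nat_lit 461) (nat_lit 7629) (.f (nat_lit 622) (nat_lit 525) (nat_lit 7661) (.d (nat_lit 621) (nat_lit 589) (nat_lit 5613) (nat_lit 653) (nat_lit 5645)))) (.a (.f (nat_lit 495) (nat_lit 463) (nat_lit 6606) (.d (nat_lit 493) (nat_lit 461) (nat_lit 7629) (nat_lit 529) (nat_lit 493))) (.f (nat_lit 495) (nat_lit 463) (nat_lit 6606) (.f (nat_lit 497) (nat_lit 525) (nat_lit 1517) (.f (nat_lit 465) (nat_lit 466) (nat_lit 2510) (.f (nat_lit 529) (nat_lit 530) (nat_lit 494) (.d (nat_lit 433) (nat_lit 401) (nat_lit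 5520) (nat_lit 560) (nat_lit 5552))))))))))
noncomputable def s19112 : Cert := .r (nat_lit 943490607303752963937019840886057434177033664931875938883905600411634630746106260497667102478139433991455298517019633324992605640886346785690119740517314869782049193984) (.p (nat_lit 462) (.a (.f (nat_lit 463) (nat_lit 431) (nat_lit 6574) (.f (nat_lit 495) (nat_lit 590) (nat_lit 6606) (.f (nat_lit 525) (nat_lit 497) (nat_lit 1517) (.d (nat_lit 524) (nat_lit 493) (nat_lit 1516) (nat_lit 523) (nat_lit 2539))))) (.a (.f (nat_lit 557) (nat_lit 589) (nat_lit 5581) (.f (nat_lit 559) (nat_lit 591) (nat_lit 4558) (.f (nat_lit 525) (nat_lit 430) (nat_lit 5549) (.d (nat_lit 524) (nat_lit 523) (nat_lit 523) (nat_lit 560) (nat_lit 3596))))) (.f (nat_lit 463) (nat_lit 431) (nat_lit 6574) (.f (nat_lit 495) (nat_lit 590) (nat_lit 6606) (.f (nat_lit 529) (nat_lit 493) (nat_lit 493) (.d (nat_lit 530) (nat_lit 497) (nat_lit 494) (nat_lit 531) (nat_lit 3567))))))))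
noncomputable def s19113 : Cert := .r (nat_lit 943490607303752963885873112637680217458077575918944702130520568442211743410429832871165011909316394071404203324427380869510001201393220676171100106987855603323790950400) (.p (nat_lit 494) (.a s19062 (.a (.p (nat_lit 462) (.a (.f (nat_lit 429) (nat_lit 461) (nat_lit 7597) (.f (nat_lit 430) (nat_lit 397) (nat_lit 7565) (.d (nat_lit 431) (nat_lit 399) (nat_lit 6542) (nat_lit 463) (nat_lit 6574)))) (.a (.f (nat_lit 591) (nat_lit 559) (nat_lit 4558) (.f (nat_lit 590) (nat_lit 623) (nat_lit 4590) (.d (nat_lit 461) (nat_lit 429) (nat_lit 7597) (nat_lit 493) (nat_lit 7629)))) (.f (nat_lit 557) (nat_lit 589) (nat_lit 5581) (.f (nat_lit 559) (nat_lit 591) (nat_lit 4558) (.f (nat_lit 525) (nat_lit 430) (nat_lit 5549) (.d (nat_lit 524) (nat_lit 523) (nat_lit 523) (nat_lit 560) (nat_lit 3596)))))))) (.a s19098 (.a (.p (nat_lit 462) (.a (.f (nat_lit 461) (nat_lit 429) (nat_lit 7597) (.f (nat_lit 495)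 (nat_lit 497) (nat_lit 3533) (.d (nat_lit 460) (nat_lit 459) (nat_lit 459) (nat_lit 463) (nat_lit 460)))) (.a (.f (nat_lit 429) (nat_lit 461) (nat_lit 7597) (.f (nat_lit 430) (nat_lit 397) (nat_lit 7565) (.d (nat_lit 431) (nat_lit 399) (nat_lit 6542) (nat_lit 463) (nat_lit 6574)))) (.f (nat_lit 557) (nat_lit 589) (nat_lit 5581) (.f (nat_lit 559) (nat_lit 591) (nat_lit 4558) (.f (nat_lit 525) (nat_lit 430) (nat_lit 5549) (.d (nat_lit 524) (nat_lit 523) (nat_lit 523) (nat_lit 560) (nat_lit 3596)))))))) (.a (.p (nat_lit 462) (.a (.f (nat_lit 461) (nat_lit 429) (nat_lit 7597) (.f (nat_lit 493) (nat_lit 590) (nat_lit 7629) (.d (nat_lit 495) (nat_lit 460) (nat_lit 3532) (nat_lit 497) (nat_lit 3533)))) (.a (.f (nat_lit 591) (nat_lit 559) (nat_lit 4558) (.f (nat_lit 590) (nat_lit 623) (nat_lit 4590) (.d (nat_lit 461) (nat_lit 429) (nat_lit 7597) (nat_lit 493) (nat_lit 7629)))) (.f (nat_lit 557) (nat_lit 589) (nat_lit 5581) (.f (nat_lit 559)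 (nat_lit 591) (nat_lit 4558) (.f (nat_lit 525) (nat_lit 430) (nat_lit 5549) (.d (nat_lit 524) (nat_lit 523) (nat_lit 523) (nat_lit 560) (nat_lit 3596)))))))) (.a s19111 s19112)))))))
noncomputable def s19123 : Cert := .r (nat_lit 943490607303752963885873112637680217458077575918944702130520568442211743410429832871165011909316394071404203324427380869510001201393220676171100106987855603323790950400) (.p (nat_lit 527) (.a (.f (nat_lit 525) (nat_lit 497) (nat_lit 2541) (.d (nat_lit 557) (nat_lit 529) (nat_lit 1549) (nat_lit 556) (nat_lit 1548))) (.a (.f (nat_lit 525) (nat_lit 497) (nat_lit 2541) (.f (nat_lit 557) (nat_lit 556) (nat_lit 1548) (.f (nat_lit 493) (nat_lit 492) (nat_lit 3564) (.d (nat_lit 461) (nat_lit 429) (nat_lit 4525) (nat_lit 590) (nat_lit 4557))))) (.a (.f (nat_lit 529) (nat_lit 557) (nat_lit 1549) (.f (nat_lit 559) (nat_lit 530) (nat_lit 1550) (.f (nat_lit 494) (nat_lit 493) (nat_lit 3565) (.d (nat_lit 462) (nat_lit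 430) (nat_lit 4526) (nat_lit 591) (nat_lit 4558))))) (.f (nat_lit 525) (nat_lit 497) (nat_lit 2541) (.f (nat_lit 493) (nat_lit 492) (nat_lit 3564) (.f (nat_lit 494) (nat_lit 529) (nat_lit 3565) (.d (nat_lit 461) (nat_lit 429) (nat_lit 4525) (nat_lit 590) (nat_lit 7629)))))))))
noncomputable def s19136 : Cert := .r (nat_lit 943490607303752963885873112637680217458077575918944702130520568442211743410429832871165011909316394071404203324427380869510001201393220676171100106987855603323790950400) (.p (nat_lit 494) (.a s19070 (.a s19098 (.a (.p (nat_lit 462) (.a (.f (nat_lit 429) (nat_lit 461) (nat_lit 7597) (.f (nat_lit 430) (nat_lit 397) (nat_lit 7565) (.d (nat_lit 431) (nat_lit 399) (nat_lit 6542) (nat_lit 463) (nat_lit 6574)))) (.a (.f (nat_lit 591) (nat_lit 559) (nat_lit 4558) (.f (nat_lit 590) (nat_lit 623) (nat_lit 4590) (.d (nat_lit 461) (nat_lit 429) (nat_lit 7597) (nat_lit 493) (nat_lit 7629)))) (.f (nat_lit 559) (nat_lit 591)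 (nat_lit 4558) (.f (nat_lit 527) (nat_lit 430) (nat_lit 4526) (.d (nat_lit 557) (nat_lit 556) (nat_lit 2572) (nat_lit 589) (nat_lit 5581))))))) (.a (.p (nat_lit 462) (.a (.f (nat_lit 461) (nat_lit 429) (nat_lit 7597) (.f (nat_lit 495) (nat_lit 497) (nat_lit 3533) (.d (nat_lit 460) (nat_lit 459) (nat_lit 459) (nat_lit 463) (nat_lit 460)))) (.a (.f (nat_lit 429) (nat_lit 461) (nat_lit 7597) (.f (nat_lit 430) (nat_lit 397) (nat_lit 7565) (.d (nat_lit 431) (nat_lit 399) (nat_lit 6542) (nat_lit 463) (nat_lit 6574)))) (.f (nat_lit 559) (nat_lit 591) (nat_lit 4558) (.f (nat_lit 527) (nat_lit 430) (nat_lit 4526) (.d (nat_lit 557) (nat_lit 556) (nat_lit 2572) (nat_lit 589) (nat_lit 5581))))))) (.a (.p (nat_lit 462) (.a (.f (nat_lit 461) (nat_lit 429) (nat_lit 7597) (.f (nat_lit 493) (nat_lit 590) (nat_lit 7629) (.d (nat_lit 495) (nat_lit 460) (nat_lit 3532) (nat_lit 497) (nat_lit 3533)))) (.a (.f (nat_lit 591) (nat_lit 559) (nat_lit 4558)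 (.f (nat_lit 590) (nat_lit 623) (nat_lit 4590) (.d (nat_lit 461) (nat_lit 429) (nat_lit 7597) (nat_lit 493) (nat_lit 7629)))) (.f (nat_lit 559) (nat_lit 591) (nat_lit 4558) (.f (nat_lit 527) (nat_lit 430) (nat_lit 4526) (.d (nat_lit 557) (nat_lit 556) (nat_lit 2572) (nat_lit 589) (nat_lit 5581))))))) (.a (.p (nat_lit 590) (.a (.f (nat_lit 495) (nat_lit 463) (nat_lit 6606) (.f (nat_lit 527) (nat_lit 622) (nat_lit 6638) (.d (nat_lit 493) (nat_lit 461) (nat_lit 7629) (nat_lit 492) (nat_lit 492)))) (.a (.f (nat_lit 495) (nat_lit 463) (nat_lit 6606) (.d (nat_lit 493) (nat_lit 461) (nat_lit 7629) (nat_lit 529) (nat_lit 493))) (.f (nat_lit 623) (nat_lit 591) (nat_lit 4590) (.f (nat_lit 622) (nat_lit 655) (nat_lit 4622) (.d (nat_lit 621) (nat_lit 589) (nat_lit 5613) (nat_lit 653) (nat_lit 5645))))))) (.p (nat_lit 462) (.a (.f (nat_lit 559) (nat_lit 591) (nat_lit 4558) (.f (nat_lit 527) (nat_lit 430) (nat_lit 4526) (.d (nat_lit 557) (nat_lit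 556) (nat_lit 2572) (nat_lit 589) (nat_lit 5581)))) (.f (nat_lit 463) (nat_lit 431) (nat_lit 6574) (.f (nat_lit 495) (nat_lit 590) (nat_lit 6606) (.f (nat_lit 529) (nat_lit 493) (nat_lit 493) (.d (nat_lit 530) (nat_lit 497) (nat_lit 494) (nat_lit 531) (nat_lit 3567))))))))))))))
noncomputable def s19154 : Cert := .r (nat_lit 943490607303752963937019840886057434177033664931875938883905600411634630746106260497667102478139433991455298517019633324992605640886346785690119740517314869782049193984) (.p (nat_lit 462) (.a (.f (nat_lit 559) (nat_lit 591) (nat_lit 4558) (.f (nat_lit 527) (nat_lit 430) (nat_lit 4526) (.d (nat_lit 557) (nat_lit 556) (nat_lit 2572) (nat_lit 589) (nat_lit 5581)))) (.a (.f (nat_lit 557) (nat_lit 589) (nat_lit 5581) (.f (nat_lit 559) (nat_lit 591) (nat_lit 4558) (.f (nat_lit 525) (nat_lit 430) (nat_lit 5549) (.d (nat_lit 524) (nat_lit 523) (nat_lit 523) (nat_lit 560) (nat_lit 3596))))) (.a (.f (nat_lit 557) (nat_lit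 589) (nat_lit 5581) (.f (nat_lit 527) (nat_lit 529) (nat_lit 1549) (.d (nat_lit 525) (nat_lit 430) (nat_lit 5549) (nat_lit 556) (nat_lit 1548)))) (.a (.f (nat_lit 559) (nat_lit 591) (nat_lit 4558) (.f (nat_lit 527) (nat_lit 430) (nat_lit 4526) (.d (nat_lit 529) (nat_lit 493) (nat_lit 3565) (nat_lit 530) (nat_lit 1550)))) (.f (nat_lit 557) (nat_lit 589) (nat_lit 5581) (.f (nat_lit 527) (nat_lit 529) (nat_lit 1549) (.d (nat_lit 556) (nat_lit 525) (nat_lit 1548) (nat_lit 555) (nat_lit 2571)))))))))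
noncomputable def s19155 : Cert := .r (nat_lit 943490607303752963937019840886057434177033664931875938883905600411634630746106260497667102478139433991455298517019633324992605640886346785690119740517314869782049193984) (.p (nat_lit 462) (.a (.f (nat_lit 463) (nat_lit 431) (nat_lit 6574) (.f (nat_lit 495) (nat_lit 590) (nat_lit 6606) (.d (nat_lit 461) (nat_lit 429) (nat_lit 7597) (nat_lit 460) (nat_lit 460)))) (.a (.f (nat_lit 429) (nat_lit 461) (nat_lit 7597) (.f (nat_lit 430) (nat_lit 397) (nat_lit 7565) (.d (nat_lit 431) (nat_lit 399) (nat_lit 6542) (nat_lit 463) (nat_lit 6574)))) (.a (.f (nat_lit 591) (nat_lit 559) (nat_lit 4558) (.f (nat_lit 590) (nat_lit 623) (nat_lit 4590) (.d (nat_lit 461) (nat_lit 429) (nat_lit 7597) (nat_lit 493) (nat_lit 7629)))) (.f (nat_lit 559) (nat_lit 591) (nat_lit 4558) (.f (nat_lit 527) (nat_lit 430) (nat_lit 4526) (.d (nat_lit 529) (nat_lit 493) (nat_lit 3565) (nat_lit 530) (nat_lit 1550))))))))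
noncomputable def s19156 : Cert := .r (nat_lit 943490607303752963885873112637680217458077575918944702130520568442211743410429832871165011909316394071404203324427380869510001201393220676171100106987855603323790950400) (.p (nat_lit 494) (.a s19071 (.a (.p (nat_lit 462) (.a (.f (nat_lit 429) (nat_lit 461) (nat_lit 7597) (.f (nat_lit 430) (nat_lit 397) (nat_lit 7565) (.d (nat_lit 431) (nat_lit 399) (nat_lit 6542) (nat_lit 463) (nat_lit 6574)))) (.a (.f (nat_lit 591) (nat_lit 559) (nat_lit 4558) (.f (nat_lit 590) (nat_lit 623) (nat_lit 4590) (.d (nat_lit 461) (nat_lit 429) (nat_lit 7597) (nat_lit 493) (nat_lit 7629)))) (.f (nat_lit 557) (nat_lit 589) (nat_lit 5581) (.f (nat_lit 559) (nat_lit 591) (nat_lit 4558) (.f (nat_lit 525) (nat_lit 430) (nat_lit 5549) (.d (nat_lit 524) (nat_lit 523) (nat_lit 523) (nat_lit 560) (nat_lit 3596)))))))) (.a (.p (nat_lit 590) (.a (.f (nat_lit 495) (nat_lit 463) (nat_lit 6606) (.f (nat_lit 527) (nat_lit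 622) (nat_lit 6638) (.d (nat_lit 493) (nat_lit 461) (nat_lit 7629) (nat_lit 492) (nat_lit 492)))) (.a (.f (nat_lit 495) (nat_lit 463) (nat_lit 6606) (.d (nat_lit 493) (nat_lit 461) (nat_lit 7629) (nat_lit 529) (nat_lit 493))) (.f (nat_lit 623) (nat_lit 591) (nat_lit 4590) (.f (nat_lit 622) (nat_lit 655) (nat_lit 4622) (.d (nat_lit 621) (nat_lit 589) (nat_lit 5613) (nat_lit 653) (nat_lit 5645))))))) (.a (.p (nat_lit 462) (.a (.f (nat_lit 463) (nat_lit 431) (nat_lit 6574) (.f (nat_lit 495) (nat_lit 590) (nat_lit 6606) (.d (nat_lit 461) (nat_lit 429) (nat_lit 7597) (nat_lit 460) (nat_lit 460)))) (.a (.f (nat_lit 429) (nat_lit 461) (nat_lit 7597) (.f (nat_lit 430) (nat_lit 397) (nat_lit 7565) (.d (nat_lit 431) (nat_lit 399) (nat_lit 6542) (nat_lit 463) (nat_lit 6574)))) (.f (nat_lit 557) (nat_lit 589) (nat_lit 5581) (.f (nat_lit 527) (nat_lit 529) (nat_lit 1549) (.d (nat_lit 430) (nat_lit 525) (nat_lit 5549) (nat_lit 559) (nat_lit 4526)))))))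 (.a (.p (nat_lit 462) (.a (.f (nat_lit 591) (nat_lit 559) (nat_lit 4558) (.f (nat_lit 590) (nat_lit 623) (nat_lit 4590) (.d (nat_lit 461) (nat_lit 429) (nat_lit 7597) (nat_lit 493) (nat_lit 7629)))) (.f (nat_lit 557) (nat_lit 589) (nat_lit 5581) (.f (nat_lit 527) (nat_lit 529) (nat_lit 1549) (.d (nat_lit 525) (nat_lit 430) (nat_lit 5549) (nat_lit 556) (nat_lit 1548)))))) (.a (.p (nat_lit 462) (.a (.f (nat_lit 429) (nat_lit 461) (nat_lit 7597) (.f (nat_lit 430) (nat_lit 397) (nat_lit 7565) (.d (nat_lit 431) (nat_lit 399) (nat_lit 6542) (nat_lit 463) (nat_lit 6574)))) (.a (.f (nat_lit 559) (nat_lit 591) (nat_lit 4558) (.f (nat_lit 527) (nat_lit 430) (nat_lit 4526) (.d (nat_lit 557) (nat_lit 556) (nat_lit 2572) (nat_lit 589) (nat_lit 5581)))) (.f (nat_lit 557) (nat_lit 589) (nat_lit 5581) (.f (nat_lit 527) (nat_lit 529) (nat_lit 1549) (.d (nat_lit 556) (nat_lit 525) (nat_lit 1548) (nat_lit 555) (nat_lit 2571))))))) (.a s19154 s19155))))))))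
noncomputable def s19164 : Cert := .r (nat_lit 943490607303752963885873112637680217458077575918944702130520568442211743410429832871165011909316394071404203324427380869510001201393220676171100106987855603323790950400) (.p (nat_lit 527) (.a (.f (nat_lit 525) (nat_lit 497) (nat_lit 2541) (.d (nat_lit 557) (nat_lit 529) (nat_lit 1549) (nat_lit 556) (nat_lit 1548))) (.a (.f (nat_lit 525) (nat_lit 497) (nat_lit 2541) (.f (nat_lit 524) (nat_lit 495) (nat_lit 2540) (.d (nat_lit 556) (nat_lit 555) (nat_lit 1547) (nat_lit 557) (nat_lit 1548)))) (.a (.f (nat_lit 529) (nat_lit 557) (nat_lit 1549) (.f (nat_lit 530) (nat_lit 559) (nat_lit 1550) (.d (nat_lit 562) (nat_lit 561) (nat_lit 526) (nat_lit 563) (nat_lit 527)))) (.f (nat_lit 525) (nat_lit 497) (nat_lit 2541) (.f (nat_lit 495) (nat_lit 524) (nat_lit 2540) (.f (nat_lit 463) (nat_lit 431) (nat_lit 5550) (.d (nat_lit 560) (nat_lit 561) (nat_lit 525) (nat_lit 592) (nat_lit 7631)))))))))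
noncomputable def s19183 : Cert := .r (nat_lit 943490607303752963885873112637680217458077575918944702130520568442211743410429832871165011909316394071404203324427380869510001201393220676171100106987855603323790950400) (.p (nat_lit 494) (.a s19062 (.a (.p (nat_lit 527) (.a (.f (nat_lit 525) (nat_lit 497) (nat_lit 2541) (.f (nat_lit 493) (nat_lit 492) (nat_lit 3564) (.d (nat_lit 461) (nat_lit 429) (nat_lit 4525) (nat_lit 590) (nat_lit 7629)))) (.a (.f (nat_lit 529) (nat_lit 493) (nat_lit 3565) (.f (nat_lit 559) (nat_lit 530) (nat_lit 1550) (.d (nat_lit 462) (nat_lit 430) (nat_lit 4526) (nat_lit 591) (nat_lit 4558)))) (.f (nat_lit 525) (nat_lit 497) (nat_lit 2541) (.f (nat_lit 560) (nat_lit 561) (nat_lit 525) (.f (nat_lit 559) (nat_lit 524) (nat_lit 524) (.d (nat_lit 462) (nat_lit 430) (nat_lit 4526) (nat_lit 591) (nat_lit 4558)))))))) (.a s19098 (.a (.p (nat_lit 590) (.a (.f (nat_lit 495) (nat_lit 463) (nat_lit 6606) (.f (nat_lit 527)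 (nat_lit 622) (nat_lit 6638) (.d (nat_lit 493) (nat_lit 461) (nat_lit 7629) (nat_lit 492) (nat_lit 492)))) (.a (.f (nat_lit 495) (nat_lit 463) (nat_lit 6606) (.d (nat_lit 493) (nat_lit 461) (nat_lit 7629) (nat_lit 529) (nat_lit 493))) (.f (nat_lit 623) (nat_lit 591) (nat_lit 4590) (.f (nat_lit 622) (nat_lit 655) (nat_lit 4622) (.d (nat_lit 621) (nat_lit 589) (nat_lit 5613) (nat_lit 653) (nat_lit 5645))))))) (.a (.p (nat_lit 462) (.a (.f (nat_lit 461) (nat_lit 429) (nat_lit 7597) (.f (nat_lit 495) (nat_lit 497) (nat_lit 3533) (.d (nat_lit 460) (nat_lit 459) (nat_lit 459) (nat_lit 463) (nat_lit 460)))) (.a (.f (nat_lit 429) (nat_lit 461) (nat_lit 7597) (.f (nat_lit 430) (nat_lit 397) (nat_lit 7565) (.d (nat_lit 431) (nat_lit 399) (nat_lit 6542) (nat_lit 463) (nat_lit 6574)))) (.f (nat_lit 559) (nat_lit 591) (nat_lit 4558) (.f (nat_lit 527) (nat_lit 430) (nat_lit 4526) (.f (nat_lit 525) (nat_lit 497) (nat_lit 2541) (.d (nat_lit 524)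 (nat_lit 495) (nat_lit 2540) (nat_lit 523) (nat_lit 523)))))))) (.p (nat_lit 527) (.a (.f (nat_lit 525) (nat_lit 497) (nat_lit 2541) (.f (nat_lit 495) (nat_lit 524) (nat_lit 2540) (.d (nat_lit 463) (nat_lit 431) (nat_lit 5550) (nat_lit 590) (nat_lit 6606)))) (.f (nat_lit 529) (nat_lit 493) (nat_lit 3565) (.f (nat_lit 559) (nat_lit 530) (nat_lit 1550) (.d (nat_lit 462) (nat_lit 430) (nat_lit 4526) (nat_lit 591) (nat_lit 4558))))))))))))
noncomputable def s19184 : Cert := .r (nat_lit 1098367625825484467390612994728847270814834595036468993380805702812392619849633330614901702186037109566736419644567355043912022518030741544129681592411442118656) (.p (nat_lit 558) (.a (.p (nat_lit 527) (.a (.f (nat_lit 525) (nat_lit 497) (nat_lit 2541) (.d (nat_lit 557) (nat_lit 529) (nat_lit 1549) (nat_lit 556) (nat_lit 1548))) (.a (.f (nat_lit 525) (nat_lit 497) (nat_lit 2541) (.f (nat_lit 524) (nat_lit 495) (nat_lit 2540) (.d (nat_lit 492) (nat_lit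 491) (nat_lit 3563) (nat_lit 493) (nat_lit 3564)))) (.f (nat_lit 529) (nat_lit 557) (nat_lit 1549) (.f (nat_lit 494) (nat_lit 493) (nat_lit 3565) (.d (nat_lit 530) (nat_lit 495) (nat_lit 3566) (nat_lit 559) (nat_lit 1550))))))) (.a s19088 (.a s19113 (.a s19123 (.a (.p (nat_lit 527) (.a (.f (nat_lit 525) (nat_lit 497) (nat_lit 2541) (.d (nat_lit 557) (nat_lit 529) (nat_lit 1549) (nat_lit 556) (nat_lit 1548))) (.a (.f (nat_lit 525) (nat_lit 497) (nat_lit 2541) (.f (nat_lit 524) (nat_lit 495) (nat_lit 2540) (.d (nat_lit 492) (nat_lit 491) (nat_lit 3563) (nat_lit 493) (nat_lit 3564)))) (.f (nat_lit 529) (nat_lit 557) (nat_lit 1549) (.f (nat_lit 494) (nat_lit 493) (nat_lit 3565) (.f (nat_lit 495) (nat_lit 530) (nat_lit 3566) (.d (nat_lit 463) (nat_lit 431) (nat_lit 5550) (nat_lit 590) (nat_lit 6606)))))))) (.a s19136 (.a (.p (nat_lit 527) (.a (.f (nat_lit 525) (nat_lit 497) (nat_lit 2541) (.d (nat_lit 557) (nat_lit 529) (nat_lit 1549)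 (nat_lit 556) (nat_lit 1548))) (.a (.f (nat_lit 525) (nat_lit 497) (nat_lit 2541) (.f (nat_lit 524) (nat_lit 495) (nat_lit 2540) (.d (nat_lit 492) (nat_lit 491) (nat_lit 3563) (nat_lit 493) (nat_lit 3564)))) (.f (nat_lit 529) (nat_lit 557) (nat_lit 1549) (.f (nat_lit 530) (nat_lit 559) (nat_lit 1550) (.d (nat_lit 562) (nat_lit 561) (nat_lit 526) (nat_lit 563) (nat_lit 527))))))) (.a s19156 (.a s19164 s19183))))))))))
noncomputable def s19215 : Cert := .r (nat_lit 1098367625825484467390612994728847270814834595036468993380805702812392619849633330614901702186037109566736419644567355043912022518030741544129681592411442118656) (.p (nat_lit 560) (.a s18940 (.a (.p (nat_lit 592) (.a (.f (nat_lit 495) (nat_lit 463) (nat_lit 7631) (.f (nat_lit 527) (nat_lit 624) (nat_lit 7663) (.d (nat_lit 497) (nat_lit 465) (nat_lit 6608) (nat_lit 525) (nat_lit 2541)))) (.a (.f (nat_lit 623) (nat_lit 591) (nat_lit 5615) (.f (nat_lit 624) (nat_lit 655) (nat_lit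 5647) (.d (nat_lit 625) (nat_lit 593) (nat_lit 4592) (nat_lit 657) (nat_lit 4624)))) (.f (nat_lit 495) (nat_lit 463) (nat_lit 7631) (.f (nat_lit 497) (nat_lit 465) (nat_lit 6608) (.d (nat_lit 525) (nat_lit 494) (nat_lit 1517) (nat_lit 527) (nat_lit 2541))))))) (.a s18995 (.a (.p (nat_lit 464) (.a (.f (nat_lit 561) (nat_lit 593) (nat_lit 4560) (.f (nat_lit 527) (nat_lit 525) (nat_lit 525) (.d (nat_lit 529) (nat_lit 432) (nat_lit 4528) (nat_lit 562) (nat_lit 526)))) (.a (.f (nat_lit 433) (nat_lit 465) (nat_lit 6576) (.f (nat_lit 432) (nat_lit 401) (nat_lit 6544) (.d (nat_lit 431) (nat_lit 399) (nat_lit 7567) (nat_lit 463) (nat_lit 7599)))) (.f (nat_lit 465) (nat_lit 433) (nat_lit 6576) (.f (nat_lit 592) (nat_lit 497) (nat_lit 6608) (.d (nat_lit 593) (nat_lit 561) (nat_lit 4560) (nat_lit 625) (nat_lit 4592))))))) (.a (.p (nat_lit 464) (.a (.f (nat_lit 561) (nat_lit 593) (nat_lit 4560) (.f (nat_lit 527) (nat_lit 525) (nat_lit 525) (.d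 (nat_lit 529) (nat_lit 432) (nat_lit 4528) (nat_lit 562) (nat_lit 526)))) (.a (.f (nat_lit 433) (nat_lit 465) (nat_lit 6576) (.f (nat_lit 432) (nat_lit 401) (nat_lit 6544) (.d (nat_lit 431) (nat_lit 399) (nat_lit 7567) (nat_lit 463) (nat_lit 7599)))) (.f (nat_lit 561) (nat_lit 593) (nat_lit 4560) (.f (nat_lit 527) (nat_lit 525) (nat_lit 525) (.d (nat_lit 562) (nat_lit 529) (nat_lit 526) (nat_lit 563) (nat_lit 3599))))))) (.a s19001 (.a (.p (nat_lit 464) (.a (.f (nat_lit 561) (nat_lit 593) (nat_lit 4560) (.f (nat_lit 527) (nat_lit 525) (nat_lit 525) (.d (nat_lit 529) (nat_lit 432) (nat_lit 4528) (nat_lit 562) (nat_lit 526)))) (.a (.f (nat_lit 465) (nat_lit 433) (nat_lit 6576) (.f (nat_lit 592) (nat_lit 497) (nat_lit 6608) (.d (nat_lit 593) (nat_lit 561) (nat_lit 4560) (nat_lit 625) (nat_lit 4592)))) (.a (.f (nat_lit 465) (nat_lit 433) (nat_lit 6576) (.f (nat_lit 592) (nat_lit 497) (nat_lit 6608) (.f (nat_lit 623) (nat_lit 591) (nat_lit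 5615) (.f (nat_lit 624) (nat_lit 655) (nat_lit 5647) (.d (nat_lit 625) (nat_lit 593) (nat_lit 4592) (nat_lit 657) (nat_lit 4624)))))) (.f (nat_lit 465) (nat_lit 433) (nat_lit 6576) (.f (nat_lit 592) (nat_lit 497) (nat_lit 6608) (.f (nat_lit 623) (nat_lit 591) (nat_lit 5615) (.f (nat_lit 624) (nat_lit 655) (nat_lit 5647) (.f (nat_lit 527) (nat_lit 495) (nat_lit 7663) (.f (nat_lit 561) (nat_lit 525) (nat_lit 525) (.d (nat_lit 529) (nat_lit 432) (nat_lit 4528) (nat_lit 562) (nat_lit 526)))))))))))) (.p (nat_lit 464) (.a (.f (nat_lit 561) (nat_lit 593) (nat_lit 4560) (.f (nat_lit 527) (nat_lit 525) (nat_lit 525) (.d (nat_lit 529) (nat_lit 432) (nat_lit 4528) (nat_lit 562) (nat_lit 526)))) (.a (.f (nat_lit 463) (nat_lit 431) (nat_lit 7599) (.f (nat_lit 592) (nat_lit 495) (nat_lit 7631) (.d (nat_lit 593) (nat_lit 561) (nat_lit 4560) (nat_lit 625) (nat_lit 4592)))) (.a (.f (nat_lit 463) (nat_lit 431) (nat_lit 7599) (.f (nat_lit 592) (nat_lit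 495) (nat_lit 7631) (.f (nat_lit 623) (nat_lit 591) (nat_lit 5615) (.f (nat_lit 624) (nat_lit 655) (nat_lit 5647) (.d (nat_lit 625) (nat_lit 593) (nat_lit 4592) (nat_lit 657) (nat_lit 4624)))))) (.f (nat_lit 463) (nat_lit 431) (nat_lit 7599) (.f (nat_lit 592) (nat_lit 495) (nat_lit 7631) (.f (nat_lit 623) (nat_lit 591) (nat_lit 5615) (.f (nat_lit 624) (nat_lit 655) (nat_lit 5647) (.f (nat_lit 529) (nat_lit 497) (nat_lit 6640) (.d (nat_lit 561) (nat_lit 432) (nat_lit 4528) (nat_lit 656) (nat_lit 6672)))))))))))))))))))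
noncomputable def s19217 : Cert := .r (nat_lit 1098367625825484467438247097364284163993875080110217258544205943026396696248241072308404078571836755869841676344144564076502155134019001781181805244744332214272) (.p (nat_lit 560) (.a (.f (nat_lit 465) (nat_lit 433) (nat_lit 6576) (.f (nat_lit 592) (nat_lit 497) (nat_lit 6608) (.d (nat_lit 463) (nat_lit 431) (nat_lit 7599) (nat_lit 495) (nat_lit 7631)))) (.a (.f (nat_lit 433) (nat_lit 465) (nat_lit 6576) (.f (nat_lit 432) (nat_lit 401) (nat_lit 6544) (.d (nat_lit 431) (nat_lit 399) (nat_lit 7567) (nat_lit 463) (nat_lit 7599)))) (.a (.f (nat_lit 465) (nat_lit 433) (nat_lit 6576) (.f (nat_lit 592) (nat_lit 497) (nat_lit 6608) (.d (nat_lit 591) (nat_lit 559) (nat_lit 5583) (nat_lit 623) (nat_lit 5615)))) (.f (nat_lit 463) (nat_lit 431) (nat_lit 7599) (.f (nat_lit 592) (nat_lit 495) (nat_lit 7631) (.d (nat_lit 591) (nat_lit 559) (nat_lit 5583) (nat_lit 623) (nat_lit 5615))))))))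
noncomputable def s19231 : Cert := .r (nat_lit 1098367625825484467438247097364284163993875080110217258544205943026396696248241072308404078571836755869841676344144564076502155134019001781181805244744332214272) (.p (nat_lit 432) (.a (.f (nat_lit 529) (nat_lit 561) (nat_lit 4528) (.f (nat_lit 527) (nat_lit 559) (nat_lit 5551) (.d (nat_lit 400) (nat_lit 495) (nat_lit 5519) (nat_lit 497) (nat_lit 4496)))) (.a (.f (nat_lit 399) (nat_lit 431) (nat_lit 7567) (.f (nat_lit 400) (nat_lit 367) (nat_lit 7535) (.d (nat_lit 401) (nat_lit 369) (nat_lit 6512) (nat_lit 433) (nat_lit 6544)))) (.f (nat_lit 529) (nat_lit 561) (nat_lit 4528) (.f (nat_lit 527) (nat_lit 559) (nat_lit 5551) (.f (nat_lit 494) (nat_lit 493) (nat_lit 3565) (.f (nat_lit 495) (nat_lit 530) (nat_lit 3566) (.f (nat_lit 431) (nat_lit 399) (nat_lit 7567) (.d (nat_lit 558) (nat_lit 463) (nat_lit 5550) (nat_lit 557) (nat_lit 1549))))))))))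
noncomputable def s19232 : Cert := .r (nat_lit 1098367625825484467438247097364284163993875080110217258544205943026396696248241072308404078571836755869841676344144564076502155134019001781181805244744332214272) (.p (nat_lit 560) (.a (.f (nat_lit 465) (nat_lit 433) (nat_lit 6576) (.f (nat_lit 592) (nat_lit 497) (nat_lit 6608) (.d (nat_lit 463) (nat_lit 431) (nat_lit 7599) (nat_lit 495) (nat_lit 7631)))) (.a (.f (nat_lit 433) (nat_lit 465) (nat_lit 6576) (.f (nat_lit 432) (nat_lit 401) (nat_lit 6544) (.d (nat_lit 431) (nat_lit 399) (nat_lit 7567) (nat_lit 463) (nat_lit 7599)))) (.a (.f (nat_lit 465) (nat_lit 433) (nat_lit 6576) (.f (nat_lit 592) (nat_lit 497) (nat_lit 6608) (.d (nat_lit 593) (nat_lit 561) (nat_lit 4560) (nat_lit 625) (nat_lit 4592)))) (.f (nat_lit 463) (nat_lit 431) (nat_lit 7599) (.f (nat_lit 592) (nat_lit 495) (nat_lit 7631) (.d (nat_lit 593) (nat_lit 561) (nat_lit 4560) (nat_lit 625) (nat_lit 4592))))))))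
noncomputable def s19240 : Cert := .r (nat_lit 1098367625825484467438247097364284163993875080110217258544205943026396696248241072308404078571836755869841676344144564076502155134019001781181805244744332214272) (.p (nat_lit 560) (.a (.f (nat_lit 465) (nat_lit 433) (nat_lit 6576) (.f (nat_lit 592) (nat_lit 497) (nat_lit 6608) (.d (nat_lit 463) (nat_lit 431) (nat_lit 7599) (nat_lit 495) (nat_lit 7631)))) (.a (.f (nat_lit 465) (nat_lit 433) (nat_lit 6576) (.f (nat_lit 592) (nat_lit 497) (nat_lit 6608) (.d (nat_lit 591) (nat_lit 559) (nat_lit 5583) (nat_lit 623) (nat_lit 5615)))) (.a (.f (nat_lit 559) (nat_lit 591) (nat_lit 5583) (.f (nat_lit 561) (nat_lit 593) (nat_lit 4560) (.f (nat_lit 562) (nat_lit 527) (nat_lit 3598) (.f (nat_lit 530) (nat_lit 531) (nat_lit 2575) (.f (nat_lit 529) (nat_lit 558) (nat_lit 2574) (.f (nat_lit 465) (nat_lit 433) (nat_lit 6576) (.d (nat_lit 594) (nat_lit 497) (nat_lit 4561) (nat_lit 595) (nat_lit 559))))))))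 (.f (nat_lit 463) (nat_lit 431) (nat_lit 7599) (.f (nat_lit 592) (nat_lit 495) (nat_lit 7631) (.d (nat_lit 591) (nat_lit 559) (nat_lit 5583) (nat_lit 623) (nat_lit 5615))))))))
noncomputable def s19244 : Cert := .r (nat_lit 1098367625825484467390612994728847270814834595036468993380805702812392619849633330614901702186037109566736419644567355043912022518030741544129681592411442118656) (.p (nat_lit 464) (.a (.p (nat_lit 560) (.a (.f (nat_lit 465) (nat_lit 433) (nat_lit 6576) (.f (nat_lit 592) (nat_lit 497) (nat_lit 6608) (.d (nat_lit 463) (nat_lit 431) (nat_lit 7599) (nat_lit 495) (nat_lit 7631)))) (.f (nat_lit 561) (nat_lit 593) (nat_lit 4560) (.f (nat_lit 529) (nat_lit 432) (nat_lit 4528) (.f (nat_lit 559) (nat_lit 591) (nat_lit 5583) (.d (nat_lit 530) (nat_lit 531) (nat_lit 1551) (nat_lit 558) (nat_lit 2574))))))) (.a s19217 (.a (.p (nat_lit 560) (.a (.f (nat_lit 561) (nat_lit 593) (nat_lit 4560) (.f (nat_lit 529) (nat_lit 432) (nat_lit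 4528) (.f (nat_lit 559) (nat_lit 591) (nat_lit 5583) (.d (nat_lit 530) (nat_lit 531) (nat_lit 1551) (nat_lit 558) (nat_lit 2574))))) (.a (.f (nat_lit 433) (nat_lit 465) (nat_lit 6576) (.f (nat_lit 432) (nat_lit 401) (nat_lit 6544) (.d (nat_lit 431) (nat_lit 399) (nat_lit 7567) (nat_lit 463) (nat_lit 7599)))) (.f (nat_lit 465) (nat_lit 433) (nat_lit 6576) (.f (nat_lit 592) (nat_lit 497) (nat_lit 6608) (.d (nat_lit 591) (nat_lit 559) (nat_lit 5583) (nat_lit 623) (nat_lit 5615))))))) (.a s19231 (.a s19232 (.a s19240 (.a (.p (nat_lit 560) (.a (.f (nat_lit 561) (nat_lit 593) (nat_lit 4560) (.f (nat_lit 529) (nat_lit 432) (nat_lit 4528) (.f (nat_lit 559) (nat_lit 591) (nat_lit 5583) (.d (nat_lit 530) (nat_lit 531) (nat_lit 1551) (nat_lit 558) (nat_lit 2574))))) (.a (.f (nat_lit 433) (nat_lit 465) (nat_lit 6576) (.f (nat_lit 432) (nat_lit 401) (nat_lit 6544) (.d (nat_lit 431) (nat_lit 399) (nat_lit 7567) (nat_lit 463) (nat_lit 7599))))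 (.f (nat_lit 463) (nat_lit 431) (nat_lit 7599) (.f (nat_lit 592) (nat_lit 495) (nat_lit 7631) (.d (nat_lit 591) (nat_lit 559) (nat_lit 5583) (nat_lit 623) (nat_lit 5615))))))) (.a (.p (nat_lit 560) (.a (.f (nat_lit 561) (nat_lit 593) (nat_lit 4560) (.f (nat_lit 529) (nat_lit 432) (nat_lit 4528) (.f (nat_lit 559) (nat_lit 591) (nat_lit 5583) (.d (nat_lit 530) (nat_lit 531) (nat_lit 1551) (nat_lit 558) (nat_lit 2574))))) (.a (.f (nat_lit 465) (nat_lit 433) (nat_lit 6576) (.f (nat_lit 592) (nat_lit 497) (nat_lit 6608) (.d (nat_lit 591) (nat_lit 559) (nat_lit 5583) (nat_lit 623) (nat_lit 5615)))) (.f (nat_lit 465) (nat_lit 433) (nat_lit 6576) (.f (nat_lit 592) (nat_lit 497) (nat_lit 6608) (.d (nat_lit 593) (nat_lit 561) (nat_lit 4560) (nat_lit 625) (nat_lit 4592))))))) (.p (nat_lit 560) (.a (.f (nat_lit 561) (nat_lit 593) (nat_lit 4560) (.f (nat_lit 529) (nat_lit 432) (nat_lit 4528) (.f (nat_lit 559) (nat_lit 591) (nat_lit 5583) (.d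 (nat_lit 530) (nat_lit 531) (nat_lit 1551) (nat_lit 558) (nat_lit 2574))))) (.a (.f (nat_lit 463) (nat_lit 431) (nat_lit 7599) (.f (nat_lit 592) (nat_lit 495) (nat_lit 7631) (.d (nat_lit 591) (nat_lit 559) (nat_lit 5583) (nat_lit 623) (nat_lit 5615)))) (.f (nat_lit 463) (nat_lit 431) (nat_lit 7599) (.f (nat_lit 592) (nat_lit 495) (nat_lit 7631) (.d (nat_lit 593) (nat_lit 561) (nat_lit 4560) (nat_lit 625) (nat_lit 4592))))))))))))))))
noncomputable def s19247 : Cert := .r (nat_lit 1098367625825484467390612994728847270814834595036468993380805702812392619849633330614901702186037109566736419644567355043912022518030741544129681592411442118656) (.p (nat_lit 527) (.a (.f (nat_lit 525) (nat_lit 497) (nat_lit 2541) (.f (nat_lit 560) (nat_lit 561) (nat_lit 525) (.f (nat_lit 559) (nat_lit 524) (nat_lit 524) (.d (nat_lit 464) (nat_lit 432) (nat_lit 5551) (nat_lit 591) (nat_lit 5583))))) (.a (.f (nat_lit 525) (nat_lit 497) (nat_lit 2541) (.f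 (nat_lit 524) (nat_lit 495) (nat_lit 2540) (.d (nat_lit 492) (nat_lit 491) (nat_lit 3563) (nat_lit 493) (nat_lit 3564)))) (.a (.p (nat_lit 529) (.a (.f (nat_lit 561) (nat_lit 562) (nat_lit 526) (.f (nat_lit 464) (nat_lit 432) (nat_lit 4528) (.d (nat_lit 593) (nat_lit 497) (nat_lit 7632) (nat_lit 560) (nat_lit 4560)))) (.a (.f (nat_lit 561) (nat_lit 562) (nat_lit 526) (.f (nat_lit 464) (nat_lit 432) (nat_lit 4528) (.d (nat_lit 593) (nat_lit 497) (nat_lit 7632) (nat_lit 625) (nat_lit 7664)))) (.a (.f (nat_lit 558) (nat_lit 557) (nat_lit 1549) (.f (nat_lit 530) (nat_lit 559) (nat_lit 1550) (.d (nat_lit 562) (nat_lit 561) (nat_lit 526) (nat_lit 563) (nat_lit 527)))) (.f (nat_lit 558) (nat_lit 557) (nat_lit 1549) (.f (nat_lit 559) (nat_lit 530) (nat_lit 1550) (.f (nat_lit 591) (nat_lit 623) (nat_lit 6639) (.d (nat_lit 464) (nat_lit 432) (nat_lit 5551) (nat_lit 495) (nat_lit 6607))))))))) (.p (nat_lit 529) (.a (.f (nat_lit 561) (nat_lit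 562) (nat_lit 526) (.f (nat_lit 560) (nat_lit 525) (nat_lit 525) (.d (nat_lit 464) (nat_lit 432) (nat_lit 4528) (nat_lit 593) (nat_lit 4560)))) (.a (.f (nat_lit 558) (nat_lit 557) (nat_lit 1549) (.f (nat_lit 559) (nat_lit 530) (nat_lit 1550) (.f (nat_lit 591) (nat_lit 623) (nat_lit 6639) (.d (nat_lit 464) (nat_lit 432) (nat_lit 5551) (nat_lit 495) (nat_lit 6607))))) (.f (nat_lit 558) (nat_lit 557) (nat_lit 1549) (.f (nat_lit 530) (nat_lit 559) (nat_lit 1550) (.d (nat_lit 562) (nat_lit 561) (nat_lit 526) (nat_lit 563) (nat_lit 527)))))))))))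
noncomputable def s19263 : Cert := .r (nat_lit 943490607303752963885873112637680217458077575918944702130520568442211743410429832871165011909316394071404203324427380869510001201393220676171100106987855603323790950400) (.p (nat_lit 494) (.a s19062 (.a (.p (nat_lit 462) (.a (.f (nat_lit 429) (nat_lit 461) (nat_lit 7597) (.f (nat_lit 430) (nat_lit 397) (nat_lit 7565) (.d (nat_lit 431) (nat_lit 399) (nat_lit 6542) (nat_lit 463) (nat_lit 6574)))) (.a (.f (nat_lit 591) (nat_lit 559) (nat_lit 4558) (.f (nat_lit 590) (nat_lit 623) (nat_lit 4590) (.d (nat_lit 461) (nat_lit 429) (nat_lit 7597) (nat_lit 493) (nat_lit 7629)))) (.f (nat_lit 559) (nat_lit 591) (nat_lit 4558) (.f (nat_lit 527) (nat_lit 430) (nat_lit 4526) (.d (nat_lit 529) (nat_lit 493) (nat_lit 3565) (nat_lit 530) (nat_lit 1550))))))) (.a (.p (nat_lit 462) (.a (.f (nat_lit 461) (nat_lit 429) (nat_lit 7597) (.f (nat_lit 495) (nat_lit 497) (nat_lit 3533) (.d (nat_lit 460) (nat_lit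 459) (nat_lit 459) (nat_lit 463) (nat_lit 460)))) (.a (.f (nat_lit 429) (nat_lit 461) (nat_lit 7597) (.f (nat_lit 430) (nat_lit 397) (nat_lit 7565) (.d (nat_lit 431) (nat_lit 399) (nat_lit 6542) (nat_lit 463) (nat_lit 6574)))) (.f (nat_lit 559) (nat_lit 591) (nat_lit 4558) (.f (nat_lit 527) (nat_lit 430) (nat_lit 4526) (.f (nat_lit 525) (nat_lit 497) (nat_lit 2541) (.d (nat_lit 524) (nat_lit 495) (nat_lit 2540) (nat_lit 523) (nat_lit 523)))))))) (.a (.p (nat_lit 527) (.a (.f (nat_lit 525) (nat_lit 497) (nat_lit 2541) (.f (nat_lit 493) (nat_lit 492) (nat_lit 3564) (.d (nat_lit 461) (nat_lit 429) (nat_lit 4525) (nat_lit 590) (nat_lit 7629)))) (.a (.f (nat_lit 529) (nat_lit 493) (nat_lit 3565) (.f (nat_lit 559) (nat_lit 530) (nat_lit 1550) (.d (nat_lit 462) (nat_lit 430) (nat_lit 4526) (nat_lit 591) (nat_lit 4558)))) (.f (nat_lit 525) (nat_lit 497) (nat_lit 2541) (.f (nat_lit 524) (nat_lit 495) (nat_lit 2540) (.d (nat_lit 559) (nat_lit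 523) (nat_lit 523) (nat_lit 560) (nat_lit 524))))))) (.a s19085 (.p (nat_lit 527) (.a (.f (nat_lit 525) (nat_lit 497) (nat_lit 2541) (.f (nat_lit 495) (nat_lit 524) (nat_lit 2540) (.d (nat_lit 463) (nat_lit 431) (nat_lit 5550) (nat_lit 590) (nat_lit 6606)))) (.f (nat_lit 529) (nat_lit 493) (nat_lit 3565) (.f (nat_lit 559) (nat_lit 530) (nat_lit 1550) (.d (nat_lit 462) (nat_lit 430) (nat_lit 4526) (nat_lit 591) (nat_lit 4558))))))))))))
noncomputable def s19270 : Cert := .r (nat_lit 1098367625825484467438247097364284163993875080110217258544205943026396696248241072308404078571836755869841676344144564076502155134019001781181805244744332214272) (.p (nat_lit 432) (.a (.f (nat_lit 399) (nat_lit 431) (nat_lit 7567) (.f (nat_lit 400) (nat_lit 367) (nat_lit 7535) (.d (nat_lit 401) (nat_lit 369) (nat_lit 6512) (nat_lit 433) (nat_lit 6544)))) (.a (.f (nat_lit 527) (nat_lit 559) (nat_lit 5551) (.f (nat_lit 529) (nat_lit 561) (nat_lit 4528) (.f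 (nat_lit 495) (nat_lit 400) (nat_lit 5519) (.d (nat_lit 494) (nat_lit 493) (nat_lit 3565) (nat_lit 530) (nat_lit 3566))))) (.f (nat_lit 529) (nat_lit 561) (nat_lit 4528) (.f (nat_lit 527) (nat_lit 559) (nat_lit 5551) (.f (nat_lit 494) (nat_lit 493) (nat_lit 3565) (.f (nat_lit 495) (nat_lit 530) (nat_lit 3566) (.f (nat_lit 431) (nat_lit 399) (nat_lit 7567) (.d (nat_lit 558) (nat_lit 463) (nat_lit 5550) (nat_lit 557) (nat_lit 1549))))))))))
noncomputable def s19280 : Cert := .r (nat_lit 1098367625825484467438247097364284163993875080110217258544205943026396696248241072308404078571836755869841676344144564076502155134019001781181805244744332214272) (.p (nat_lit 560) (.a (.f (nat_lit 559) (nat_lit 591) (nat_lit 5583) (.f (nat_lit 527) (nat_lit 432) (nat_lit 5551) (.f (nat_lit 463) (nat_lit 431) (nat_lit 7599) (.f (nat_lit 495) (nat_lit 592) (nat_lit 7631) (.f (nat_lit 558) (nat_lit 590) (nat_lit 5582) (.d (nat_lit 529) (nat_lit 530) (nat_lit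 1550) (nat_lit 557) (nat_lit 1549))))))) (.a (.f (nat_lit 433) (nat_lit 465) (nat_lit 6576) (.f (nat_lit 432) (nat_lit 401) (nat_lit 6544) (.d (nat_lit 431) (nat_lit 399) (nat_lit 7567) (nat_lit 463) (nat_lit 7599)))) (.a (.f (nat_lit 463) (nat_lit 431) (nat_lit 7599) (.f (nat_lit 592) (nat_lit 495) (nat_lit 7631) (.d (nat_lit 591) (nat_lit 559) (nat_lit 5583) (nat_lit 623) (nat_lit 5615)))) (.f (nat_lit 559) (nat_lit 591) (nat_lit 5583) (.f (nat_lit 527) (nat_lit 432) (nat_lit 5551) (.f (nat_lit 525) (nat_lit 524) (nat_lit 524) (.f (nat_lit 557) (nat_lit 556) (nat_lit 1548) (.f (nat_lit 558) (nat_lit 529) (nat_lit 1549) (.f (nat_lit 493) (nat_lit 492) (nat_lit 3564) (.d (nat_lit 461) (nat_lit 429) (nat_lit 4525) (nat_lit 590) (nat_lit 4557))))))))))))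
noncomputable def s19281 : Cert := .r (nat_lit 1098367625825484467438247097364284163993875080110217258544205943026396696248241072308404078571836755869841676344144564076502155134019001781181805244744332214272) (.p (nat_lit 560) (.a (.f (nat_lit 561) (nat_lit 593) (nat_lit 4560) (.f (nat_lit 527) (nat_lit 525) (nat_lit 525) (.d (nat_lit 432) (nat_lit 529) (nat_lit 4528) (nat_lit 559) (nat_lit 5551)))) (.a (.f (nat_lit 559) (nat_lit 591) (nat_lit 5583) (.f (nat_lit 527) (nat_lit 432) (nat_lit 5551) (.d (nat_lit 525) (nat_lit 524) (nat_lit 524) (nat_lit 561) (nat_lit 525)))) (.a (.f (nat_lit 561) (nat_lit 593) (nat_lit 4560) (.f (nat_lit 529) (nat_lit 432) (nat_lit 4528) (.f (nat_lit 559) (nat_lit 591) (nat_lit 5583) (.d (nat_lit 530) (nat_lit 531) (nat_lit 1551) (nat_lit 558) (nat_lit 2574))))) (.a (.f (nat_lit 561) (nat_lit 593) (nat_lit 4560) (.f (nat_lit 527) (nat_lit 525) (nat_lit 525) (.d (nat_lit 529) (nat_lit 432) (nat_lit 4528)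 (nat_lit 562) (nat_lit 526)))) (.a (.f (nat_lit 561) (nat_lit 593) (nat_lit 4560) (.f (nat_lit 527) (nat_lit 525) (nat_lit 525) (.d (nat_lit 559) (nat_lit 562) (nat_lit 3598) (nat_lit 591) (nat_lit 5583)))) (.f (nat_lit 559) (nat_lit 591) (nat_lit 5583) (.f (nat_lit 527) (nat_lit 432) (nat_lit 5551) (.f (nat_lit 525) (nat_lit 524) (nat_lit 524) (.f (nat_lit 557) (nat_lit 556) (nat_lit 1548) (.f (nat_lit 558) (nat_lit 529) (nat_lit 1549) (.f (nat_lit 493) (nat_lit 492) (nat_lit 3564) (.d (nat_lit 461) (nat_lit 429) (nat_lit 4525) (nat_lit 590) (nat_lit 4557))))))))))))))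
noncomputable def s19282 : Cert := .r (nat_lit 1098367625825484467390612994728847270814834595036468993380805702812392619849633330614901702186037109566736419644567355043912022518030741544129681592411442118656) (.p (nat_lit 464) (.a (.p (nat_lit 560) (.a (.f (nat_lit 561) (nat_lit 593) (nat_lit 4560) (.f (nat_lit 529) (nat_lit 432) (nat_lit 4528) (.f (nat_lit 559) (nat_lit 591) (nat_lit 5583) (.d (nat_lit 530) (nat_lit 531) (nat_lit 1551) (nat_lit 558) (nat_lit 2574))))) (.a (.f (nat_lit 433) (nat_lit 465) (nat_lit 6576) (.f (nat_lit 432) (nat_lit 401) (nat_lit 6544) (.d (nat_lit 431) (nat_lit 399) (nat_lit 7567) (nat_lit 463) (nat_lit 7599)))) (.f (nat_lit 463) (nat_lit 431) (nat_lit 7599) (.f (nat_lit 592) (nat_lit 495) (nat_lit 7631) (.d (nat_lit 591) (nat_lit 559) (nat_lit 5583) (nat_lit 623) (nat_lit 5615))))))) (.a (.p (nat_lit 560) (.a (.f (nat_lit 559) (nat_lit 591) (nat_lit 5583) (.f (nat_lit 527) (nat_lit 432) (nat_lit 5551)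 (.d (nat_lit 525) (nat_lit 524) (nat_lit 524) (nat_lit 561) (nat_lit 525)))) (.a (.f (nat_lit 433) (nat_lit 465) (nat_lit 6576) (.f (nat_lit 432) (nat_lit 401) (nat_lit 6544) (.d (nat_lit 431) (nat_lit 399) (nat_lit 7567) (nat_lit 463) (nat_lit 7599)))) (.f (nat_lit 561) (nat_lit 593) (nat_lit 4560) (.f (nat_lit 527) (nat_lit 525) (nat_lit 525) (.d (nat_lit 559) (nat_lit 562) (nat_lit 3598) (nat_lit 591) (nat_lit 5583))))))) (.a s19270 (.a (.p (nat_lit 560) (.a (.f (nat_lit 561) (nat_lit 593) (nat_lit 4560) (.f (nat_lit 527) (nat_lit 525) (nat_lit 525) (.d (nat_lit 529) (nat_lit 432) (nat_lit 4528) (nat_lit 562) (nat_lit 526)))) (.a (.f (nat_lit 433) (nat_lit 465) (nat_lit 6576) (.f (nat_lit 432) (nat_lit 401) (nat_lit 6544) (.d (nat_lit 431) (nat_lit 399) (nat_lit 7567) (nat_lit 463) (nat_lit 7599)))) (.f (nat_lit 463) (nat_lit 431) (nat_lit 7599) (.f (nat_lit 592) (nat_lit 495) (nat_lit 7631) (.d (nat_lit 593) (nat_lit 561) (nat_lit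 4560) (nat_lit 625) (nat_lit 4592))))))) (.a (.p (nat_lit 560) (.a (.f (nat_lit 561) (nat_lit 593) (nat_lit 4560) (.f (nat_lit 527) (nat_lit 525) (nat_lit 525) (.d (nat_lit 559) (nat_lit 562) (nat_lit 3598) (nat_lit 591) (nat_lit 5583)))) (.a (.f (nat_lit 463) (nat_lit 431) (nat_lit 7599) (.f (nat_lit 592) (nat_lit 495) (nat_lit 7631) (.d (nat_lit 591) (nat_lit 559) (nat_lit 5583) (nat_lit 623) (nat_lit 5615)))) (.f (nat_lit 463) (nat_lit 431) (nat_lit 7599) (.f (nat_lit 592) (nat_lit 495) (nat_lit 7631) (.d (nat_lit 593) (nat_lit 561) (nat_lit 4560) (nat_lit 625) (nat_lit 4592))))))) (.a s19280 s19281)))))))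
noncomputable def s19283 : Cert := .r (nat_lit 3773962425919908978067039048378881885645768491231275023412675293626429865204541471935760055792560469727505484597500264544337939673836815150592175795562377636060837445632) (.p (nat_lit 592) (.a (.f (nat_lit 495) (nat_lit 463) (nat_lit 7631) (.f (nat_lit 527) (nat_lit 624) (nat_lit 7663) (.d (nat_lit 497) (nat_lit 465) (nat_lit 6608) (nat_lit 525) (nat_lit 2541)))) (.a (.f (nat_lit 497) (nat_lit 465) (nat_lit 6608) (.f (nat_lit 624) (nat_lit 529) (nat_lit 6640) (.d (nat_lit 625) (nat_lit 593) (nat_lit 4592) (nat_lit 657) (nat_lit 4624)))) (.a (.f (nat_lit 495) (nat_lit 463) (nat_lit 7631) (.f (nat_lit 527) (nat_lit 624) (nat_lit 7663) (.d (nat_lit 525) (nat_lit 524) (nat_lit 2540) (nat_lit 561) (nat_lit 525)))) (.f (nat_lit 495) (nat_lit 463) (nat_lit 7631) (.f (nat_lit 497) (nat_lit 465) (nat_lit 6608) (.d (nat_lit 525) (nat_lit 494) (nat_lit 1517) (nat_lit 527) (nat_lit 2541))))))))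
noncomputable def s19302 : Cert := .r (nat_lit 3773962425919908978067039048378881885645768491231275023412675293626429865204541471935760055792560469727505484597500264544337939673836815150592175795562377636060837445632) (.p (nat_lit 464) (.a (.f (nat_lit 465) (nat_lit 433) (nat_lit 6576) (.f (nat_lit 592) (nat_lit 497) (nat_lit 6608) (.d (nat_lit 463) (nat_lit 431) (nat_lit 7599) (nat_lit 495) (nat_lit 7631)))) (.a (.f (nat_lit 433) (nat_lit 465) (nat_lit 6576) (.f (nat_lit 432) (nat_lit 401) (nat_lit 6544) (.d (nat_lit 431) (nat_lit 399) (nat_lit 7567) (nat_lit 463) (nat_lit 7599)))) (.a (.f (nat_lit 465) (nat_lit 433) (nat_lit 6576) (.f (nat_lit 497) (nat_lit 592) (nat_lit 6608) (.f (nat_lit 527) (nat_lit 525) (nat_lit 2541) (.f (nat_lit 432) (nat_lit 559) (nat_lit 5551) (.d (nat_lit 400) (nat_lit 368) (nat_lit 4464) (nat_lit 495) (nat_lit 5519)))))) (.a (.f (nat_lit 463) (nat_lit 431) (nat_lit 7599) (.f (nat_lit 592) (nat_lit 495)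 (nat_lit 7631) (.f (nat_lit 497) (nat_lit 465) (nat_lit 6608) (.f (nat_lit 527) (nat_lit 525) (nat_lit 2541) (.f (nat_lit 529) (nat_lit 624) (nat_lit 6640) (.d (nat_lit 432) (nat_lit 400) (nat_lit 4496) (nat_lit 559) (nat_lit 5551))))))) (.f (nat_lit 431) (nat_lit 463) (nat_lit 7599) (.f (nat_lit 432) (nat_lit 399) (nat_lit 7567) (.f (nat_lit 527) (nat_lit 559) (nat_lit 5551) (.d (nat_lit 525) (nat_lit 497) (nat_lit 2541) (nat_lit 561) (nat_lit 525))))))))))
noncomputable def s19304 : Cert := .r (nat_lit 1098367625825484467390612994728847270814834595036468993380805702812392619849633330614901702186037109566736419644567355043912022518030741544129681592411442118656) (.p (nat_lit 560) (.a (.p (nat_lit 464) (.a (.f (nat_lit 561) (nat_lit 593) (nat_lit 4560) (.f (nat_lit 527) (nat_lit 525) (nat_lit 525) (.d (nat_lit 432) (nat_lit 529) (nat_lit 4528) (nat_lit 559) (nat_lit 5551)))) (.f (nat_lit 465) (nat_lit 433) (nat_lit 6576) (.f (nat_lit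 592) (nat_lit 497) (nat_lit 6608) (.d (nat_lit 463) (nat_lit 431) (nat_lit 7599) (nat_lit 495) (nat_lit 7631)))))) (.a s18977 (.a s19001 (.a (.p (nat_lit 464) (.a (.f (nat_lit 561) (nat_lit 593) (nat_lit 4560) (.f (nat_lit 527) (nat_lit 525) (nat_lit 525) (.d (nat_lit 529) (nat_lit 432) (nat_lit 4528) (nat_lit 562) (nat_lit 526)))) (.a (.f (nat_lit 433) (nat_lit 465) (nat_lit 6576) (.f (nat_lit 432) (nat_lit 401) (nat_lit 6544) (.d (nat_lit 431) (nat_lit 399) (nat_lit 7567) (nat_lit 463) (nat_lit 7599)))) (.f (nat_lit 465) (nat_lit 433) (nat_lit 6576) (.f (nat_lit 592) (nat_lit 497) (nat_lit 6608) (.d (nat_lit 593) (nat_lit 561) (nat_lit 4560) (nat_lit 625) (nat_lit 4592))))))) (.a s19283 (.a (.p (nat_lit 464) (.a (.f (nat_lit 561) (nat_lit 593) (nat_lit 4560) (.f (nat_lit 527) (nat_lit 525) (nat_lit 525) (.d (nat_lit 529) (nat_lit 432) (nat_lit 4528) (nat_lit 562) (nat_lit 526)))) (.a (.f (nat_lit 433) (nat_lit 465) (nat_lit 6576)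 (.f (nat_lit 432) (nat_lit 401) (nat_lit 6544) (.d (nat_lit 431) (nat_lit 399) (nat_lit 7567) (nat_lit 463) (nat_lit 7599)))) (.f (nat_lit 561) (nat_lit 593) (nat_lit 4560) (.f (nat_lit 527) (nat_lit 525) (nat_lit 525) (.d (nat_lit 562) (nat_lit 529) (nat_lit 526) (nat_lit 563) (nat_lit 3599))))))) (.a (.p (nat_lit 464) (.a (.f (nat_lit 465) (nat_lit 433) (nat_lit 6576) (.f (nat_lit 592) (nat_lit 497) (nat_lit 6608) (.d (nat_lit 463) (nat_lit 431) (nat_lit 7599) (nat_lit 495) (nat_lit 7631)))) (.a (.f (nat_lit 433) (nat_lit 465) (nat_lit 6576) (.f (nat_lit 432) (nat_lit 401) (nat_lit 6544) (.d (nat_lit 431) (nat_lit 399) (nat_lit 7567) (nat_lit 463) (nat_lit 7599)))) (.a (.f (nat_lit 465) (nat_lit 433) (nat_lit 6576) (.f (nat_lit 497) (nat_lit 592) (nat_lit 6608) (.f (nat_lit 527) (nat_lit 525) (nat_lit 2541) (.f (nat_lit 432) (nat_lit 559) (nat_lit 5551) (.d (nat_lit 400) (nat_lit 368) (nat_lit 4464) (nat_lit 495) (nat_lit 5519))))))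 (.a (.f (nat_lit 463) (nat_lit 431) (nat_lit 7599) (.f (nat_lit 592) (nat_lit 495) (nat_lit 7631) (.f (nat_lit 497) (nat_lit 465) (nat_lit 6608) (.f (nat_lit 527) (nat_lit 525) (nat_lit 2541) (.f (nat_lit 529) (nat_lit 624) (nat_lit 6640) (.d (nat_lit 432) (nat_lit 400) (nat_lit 4496) (nat_lit 559) (nat_lit 5551))))))) (.f (nat_lit 463) (nat_lit 431) (nat_lit 7599) (.f (nat_lit 592) (nat_lit 495) (nat_lit 7631) (.f (nat_lit 625) (nat_lit 593) (nat_lit 4592) (.f (nat_lit 624) (nat_lit 657) (nat_lit 4624) (.f (nat_lit 497) (nat_lit 529) (nat_lit 6640) (.f (nat_lit 527) (nat_lit 525) (nat_lit 2541) (.d (nat_lit 559) (nat_lit 432) (nat_lit 5551) (nat_lit 656) (nat_lit 7695))))))))))))) (.a (.p (nat_lit 464) (.a (.f (nat_lit 561) (nat_lit 593) (nat_lit 4560) (.f (nat_lit 527) (nat_lit 525) (nat_lit 525) (.d (nat_lit 432) (nat_lit 529) (nat_lit 4528) (nat_lit 559) (nat_lit 5551)))) (.a (.f (nat_lit 465) (nat_lit 433) (nat_lit 6576) (.f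 (nat_lit 497) (nat_lit 592) (nat_lit 6608) (.f (nat_lit 527) (nat_lit 525) (nat_lit 2541) (.f (nat_lit 432) (nat_lit 559) (nat_lit 5551) (.d (nat_lit 400) (nat_lit 368) (nat_lit 4464) (nat_lit 495) (nat_lit 5519)))))) (.f (nat_lit 465) (nat_lit 433) (nat_lit 6576) (.f (nat_lit 592) (nat_lit 497) (nat_lit 6608) (.d (nat_lit 593) (nat_lit 561) (nat_lit 4560) (nat_lit 625) (nat_lit 4592))))))) (.a s19302 (.p (nat_lit 464) (.a (.f (nat_lit 561) (nat_lit 593) (nat_lit 4560) (.f (nat_lit 527) (nat_lit 525) (nat_lit 525) (.d (nat_lit 432) (nat_lit 529) (nat_lit 4528) (nat_lit 559) (nat_lit 5551)))) (.a (.f (nat_lit 463) (nat_lit 431) (nat_lit 7599) (.f (nat_lit 495) (nat_lit 592) (nat_lit 7631) (.f (nat_lit 561) (nat_lit 593) (nat_lit 4560) (.f (nat_lit 527) (nat_lit 525) (nat_lit 525) (.d (nat_lit 432) (nat_lit 400) (nat_lit 5519) (nat_lit 559) (nat_lit 5551)))))) (.a (.f (nat_lit 463) (nat_lit 431) (nat_lit 7599) (.f (nat_lit 592) (nat_lit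 495) (nat_lit 7631) (.d (nat_lit 593) (nat_lit 561) (nat_lit 4560) (nat_lit 625) (nat_lit 4592)))) (.a (.f (nat_lit 463) (nat_lit 431) (nat_lit 7599) (.f (nat_lit 592) (nat_lit 495) (nat_lit 7631) (.f (nat_lit 625) (nat_lit 593) (nat_lit 4592) (.f (nat_lit 624) (nat_lit 657) (nat_lit 4624) (.f (nat_lit 497) (nat_lit 529) (nat_lit 6640) (.f (nat_lit 527) (nat_lit 525) (nat_lit 2541) (.d (nat_lit 559) (nat_lit 432) (nat_lit 5551) (nat_lit 656) (nat_lit 7695)))))))) (.f (nat_lit 431) (nat_lit 463) (nat_lit 7599) (.f (nat_lit 432) (nat_lit 399) (nat_lit 7567) (.f (nat_lit 527) (nat_lit 559) (nat_lit 5551) (.d (nat_lit 525) (nat_lit 497) (nat_lit 2541) (nat_lit 561) (nat_lit 525))))))))))))))))))))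
noncomputable def s19317 : Cert := .r (nat_lit 3773962425700235452942859537499461060075163908278653093808089520525807034510604090067035062124638561226338938838226782579810552216648911534601243193560008730745155616768) (.p (nat_lit 464) (.a (.f (nat_lit 463) (nat_lit 431) (nat_lit 7599) (.f (nat_lit 592) (nat_lit 495) (nat_lit 7631) (.d (nat_lit 465) (nat_lit 433) (nat_lit 6576) (nat_lit 497) (nat_lit 6608)))) (.a (.f (nat_lit 433) (nat_lit 465) (nat_lit 6576) (.f (nat_lit 432) (nat_lit 401) (nat_lit 6544) (.d (nat_lit 431) (nat_lit 399) (nat_lit 7567) (nat_lit 463) (nat_lit 7599)))) (.a (.f (nat_lit 465) (nat_lit 433) (nat_lit 6576) (.f (nat_lit 592) (nat_lit 497) (nat_lit 6608) (.d (nat_lit 591) (nat_lit 559) (nat_lit 5583) (nat_lit 623) (nat_lit 5615)))) (.f (nat_lit 463) (nat_lit 431) (nat_lit 7599) (.f (nat_lit 592) (nat_lit 495) (nat_lit 7631) (.d (nat_lit 591) (nat_lit 559) (nat_lit 5583) (nat_lit 623) (nat_lit 5615))))))))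
noncomputable def s19339 : Cert := .r (nat_lit 3773962425700235452942859537499461060075163908278653093808089520525807034510604090067035062124638561226338938838226782579810552216648911534601243193560008730745155616768) (.p (nat_lit 592) (.a (.f (nat_lit 495) (nat_lit 463) (nat_lit 7631) (.f (nat_lit 624) (nat_lit 527) (nat_lit 7663) (.d (nat_lit 623) (nat_lit 591) (nat_lit 5615) (nat_lit 655) (nat_lit 5647)))) (.a (.f (nat_lit 623) (nat_lit 591) (nat_lit 5615) (.f (nat_lit 624) (nat_lit 655) (nat_lit 5647) (.d (nat_lit 625) (nat_lit 593) (nat_lit 4592) (nat_lit 657) (nat_lit 4624)))) (.a (.f (nat_lit 495) (nat_lit 463) (nat_lit 7631) (.f (nat_lit 624) (nat_lit 527) (nat_lit 7663) (.d (nat_lit 625) (nat_lit 593) (nat_lit 4592) (nat_lit 657) (nat_lit 4624)))) (.f (nat_lit 591) (nat_lit 623) (nat_lit 5615) (.p (nat_lit 590) (.a (.f (nat_lit 593) (nat_lit 625) (nat_lit 4592) (.d (nat_lit 561) (nat_lit 562) (nat_lit 2606) (nat_lit 589)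 (nat_lit 2605))) (.a (.f (nat_lit 593) (nat_lit 625) (nat_lit 4592) (.f (nat_lit 557) (nat_lit 558) (nat_lit 3629) (.f (nat_lit 589) (nat_lit 556) (nat_lit 3628) (.d (nat_lit 621) (nat_lit 620) (nat_lit 1612) (nat_lit 622) (nat_lit 1613))))) (.a (.f (nat_lit 589) (nat_lit 561) (nat_lit 2605) (.f (nat_lit 588) (nat_lit 559) (nat_lit 2604) (.d (nat_lit 556) (nat_lit 555) (nat_lit 3627) (nat_lit 557) (nat_lit 3628)))) (.f (nat_lit 593) (nat_lit 625) (nat_lit 4592) (.f (nat_lit 561) (nat_lit 562) (nat_lit 2606) (.f (nat_lit 558) (nat_lit 557) (nat_lit 3629) (.f (nat_lit 559) (nat_lit 594) (nat_lit 558) (.f (nat_lit 622) (nat_lit 621) (nat_lit 1613) (.d (nat_lit 495) (nat_lit 463) (nat_lit 7631) (nat_lit 527) (nat_lit 5614))))))))))))))))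
noncomputable def s19346 : Cert := .r (nat_lit 3773962425700235452942859537499461060075163908278653093808089520525807034510604090067035062124638561226338938838226782579810552216648911534601243193560008730745155616768) (.p (nat_lit 464) (.a (.f (nat_lit 463) (nat_lit 431) (nat_lit 7599) (.f (nat_lit 592) (nat_lit 495) (nat_lit 7631) (.d (nat_lit 465) (nat_lit 433) (nat_lit 6576) (nat_lit 497) (nat_lit 6608)))) (.a (.f (nat_lit 433) (nat_lit 465) (nat_lit 6576) (.f (nat_lit 432) (nat_lit 401) (nat_lit 6544) (.d (nat_lit 431) (nat_lit 399) (nat_lit 7567) (nat_lit 463) (nat_lit 7599)))) (.a (.f (nat_lit 465) (nat_lit 433) (nat_lit 6576) (.f (nat_lit 592) (nat_lit 497) (nat_lit 6608) (.d (nat_lit 593) (nat_lit 561) (nat_lit 4560) (nat_lit 625) (nat_lit 4592)))) (.f (nat_lit 463) (nat_lit 431) (nat_lit 7599) (.f (nat_lit 592) (nat_lit 495) (nat_lit 7631) (.d (nat_lit 593) (nat_lit 561) (nat_lit 4560) (nat_lit 625) (nat_lit 4592))))))))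
noncomputable def s19367 : Cert := .r (nat_lit 3773962425700235452942859537547095162710600801457693578881837785689207274724608166465642803818140937612138585141332039279387761249239044150589503430612132383078045712384) (.f (nat_lit 463) (nat_lit 431) (nat_lit 7599) (.p (nat_lit 462) (.a (.f (nat_lit 465) (nat_lit 433) (nat_lit 6576) (.f (nat_lit 461) (nat_lit 497) (nat_lit 461) (.d (nat_lit 429) (nat_lit 428) (nat_lit 3500) (nat_lit 430) (nat_lit 3501)))) (.a (.f (nat_lit 465) (nat_lit 433) (nat_lit 6576) (.f (nat_lit 493) (nat_lit 494) (nat_lit 1485) (.f (nat_lit 461) (nat_lit 492) (nat_lit 1484) (.d (nat_lit 429) (nat_lit 428) (nat_lit 3500) (nat_lit 430) (nat_lit 3501))))) (.a (.f (nat_lit 461) (nat_lit 497) (nat_lit 461) (.f (nat_lit 460) (nat_lit 495) (nat_lit 460) (.d (nat_lit 428) (nat_lit 427) (nat_lit 3499) (nat_lit 429) (nat_lit 3500)))) (.a (.f (nat_lit 465) (nat_lit 433) (nat_lit 6576) (.f (nat_lit 494) (nat_lit 493) (nat_lit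 1485) (.f (nat_lit 495) (nat_lit 466) (nat_lit 1486) (.f (nat_lit 430) (nat_lit 429) (nat_lit 3501) (.d (nat_lit 398) (nat_lit 366) (nat_lit 4462) (nat_lit 527) (nat_lit 4494)))))) (.f (nat_lit 465) (nat_lit 433) (nat_lit 6576) (.f (nat_lit 494) (nat_lit 493) (nat_lit 1485) (.f (nat_lit 495) (nat_lit 466) (nat_lit 1486) (.d (nat_lit 461) (nat_lit 460) (nat_lit 460) (nat_lit 497) (nat_lit 461)))))))))))
noncomputable def s19368 : Cert := .r (nat_lit 3773962425700235452942859537499461060075163908278653093808089520525807034510604090067035062124638561226338938838226782579810552216648911534601243193560008730745155616768) (.p (nat_lit 464) (.a (.f (nat_lit 433) (nat_lit 465) (nat_lit 6576) (.f (nat_lit 432) (nat_lit 401) (nat_lit 6544) (.d (nat_lit 431) (nat_lit 399) (nat_lit 7567) (nat_lit 463) (nat_lit 7599)))) (.a s19367 (.f (nat_lit 559) (nat_lit 591) (nat_lit 5583) (.f (nat_lit 561) (nat_lit 593) (nat_lit 4560) (.f (nat_lit 527) (nat_lit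 432) (nat_lit 5551) (.d (nat_lit 526) (nat_lit 525) (nat_lit 525) (nat_lit 562) (nat_lit 3598))))))))
noncomputable def s19444 : Cert := .r (nat_lit 3773962425700235452942859537499461060075163908278653093808089520525807034510604090067035062124638561226338938838226782579810552216648911534601243193560008730745155616768) (.p (nat_lit 592) (.a (.f (nat_lit 623) (nat_lit 591) (nat_lit 5615) (.f (nat_lit 624) (nat_lit 655) (nat_lit 5647) (.d (nat_lit 625) (nat_lit 593) (nat_lit 4592) (nat_lit 657) (nat_lit 4624)))) (.a (.f (nat_lit 497) (nat_lit 465) (nat_lit 6608) (.f (nat_lit 624) (nat_lit 529) (nat_lit 6640) (.d (nat_lit 625) (nat_lit 593) (nat_lit 4592) (nat_lit 657) (nat_lit 4624)))) (.a (.f (nat_lit 591) (nat_lit 623) (nat_lit 5615) (.p (nat_lit 590) (.a (.f (nat_lit 593) (nat_lit 625) (nat_lit 4592) (.d (nat_lit 561) (nat_lit 562) (nat_lit 2606) (nat_lit 589) (nat_lit 2605))) (.a (.f (nat_lit 593) (nat_lit 625) (nat_lit 4592) (.f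 (nat_lit 557) (nat_lit 558) (nat_lit 3629) (.f (nat_lit 589) (nat_lit 556) (nat_lit 3628) (.d (nat_lit 621) (nat_lit 620) (nat_lit 1612) (nat_lit 622) (nat_lit 1613))))) (.a (.f (nat_lit 589) (nat_lit 561) (nat_lit 2605) (.f (nat_lit 588) (nat_lit 559) (nat_lit 2604) (.d (nat_lit 556) (nat_lit 555) (nat_lit 3627) (nat_lit 557) (nat_lit 3628)))) (.f (nat_lit 593) (nat_lit 625) (nat_lit 4592) (.f (nat_lit 561) (nat_lit 562) (nat_lit 2606) (.f (nat_lit 558) (nat_lit 557) (nat_lit 3629) (.f (nat_lit 559) (nat_lit 594) (nat_lit 558) (.f (nat_lit 622) (nat_lit 621) (nat_lit 1613) (.d (nat_lit 654) (nat_lit 527) (nat_lit 6670) (nat_lit 686) (nat_lit 6702)))))))))))) (.f (nat_lit 497) (nat_lit 465) (nat_lit 6608) (.f (nat_lit 624) (nat_lit 529) (nat_lit 6640) (.d (nat_lit 623) (nat_lit 591) (nat_lit 5615) (nat_lit 655) (nat_lit 5647))))))))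
noncomputable def s19460 : Cert := .r (nat_lit 3773962425700235452942859537547095162710600801457693578881837785689207274724608166465642803818140937612138585141332039279387761249239044150589503430612132383078045712384) (.f (nat_lit 559) (nat_lit 591) (nat_lit 5583) (.p (nat_lit 558) (.a (.f (nat_lit 561) (nat_lit 593) (nat_lit 4560) (.d (nat_lit 529) (nat_lit 530) (nat_lit 2574) (nat_lit 557) (nat_lit 2573))) (.a (.f (nat_lit 561) (nat_lit 593) (nat_lit 4560) (.f (nat_lit 525) (nat_lit 526) (nat_lit 3597) (.f (nat_lit 557) (nat_lit 524) (nat_lit 3596) (.d (nat_lit 589) (nat_lit 588) (nat_lit 1580) (nat_lit 590) (nat_lit 1581))))) (.a (.f (nat_lit 557) (nat_lit 529) (nat_lit 2573) (.f (nat_lit 556) (nat_lit 527) (nat_lit 2572) (.d (nat_lit 524) (nat_lit 523) (nat_lit 3595) (nat_lit 525) (nat_lit 3596)))) (.f (nat_lit 561) (nat_lit 593) (nat_lit 4560) (.f (nat_lit 526) (nat_lit 525) (nat_lit 3597) (.f (nat_lit 562) (nat_lit 527) (nat_lit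 3598) (.d (nat_lit 530) (nat_lit 529) (nat_lit 2574) (nat_lit 531) (nat_lit 2575))))))))))
noncomputable def s19461 : Cert := .r (nat_lit 3773962425700235452942859537499461060075163908278653093808089520525807034510604090067035062124638561226338938838226782579810552216648911534601243193560008730745155616768) (.p (nat_lit 464) (.a (.f (nat_lit 433) (nat_lit 465) (nat_lit 6576) (.f (nat_lit 432) (nat_lit 401) (nat_lit 6544) (.d (nat_lit 431) (nat_lit 399) (nat_lit 7567) (nat_lit 463) (nat_lit 7599)))) s19460))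
noncomputable def s19472 : Cert := .r (nat_lit 943490607303752963885873112649588743116936799213704823398957634733061803463930851970816947332691988167854114900203695044404303459540753830168165166250886516407013474304) (.p (nat_lit 494) (.a (.f (nat_lit 461) (nat_lit 429) (nat_lit 7597) (.f (nat_lit 495) (nat_lit 497) (nat_lit 3533) (.d (nat_lit 460) (nat_lit 459) (nat_lit 459) (nat_lit 463) (nat_lit 460)))) (.a (.f (nat_lit 429) (nat_lit 461) (nat_lit 7597) (.f (nat_lit 430) (nat_lit 397) (nat_lit 7565) (.d (nat_lit 431) (nat_lit 399) (nat_lit 6542) (nat_lit 463) (nat_lit 6574)))) (.a (.f (nat_lit 461) (nat_lit 429) (nat_lit 7597) (.f (nat_lit 493) (nat_lit 590) (nat_lit 7629) (.d (nat_lit 495) (nat_lit 460) (nat_lit 3532) (nat_lit 497) (nat_lit 3533)))) (.f (nat_lit 463) (nat_lit 431) (nat_lit 6574) (.f (nat_lit 495) (nat_lit 590) (nat_lit 6606) (.f (nat_lit 525) (nat_lit 497) (nat_lit 1517) (.d (nat_lit 524) (nat_lit 493) (nat_lit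 1516) (nat_lit 523) (nat_lit 2539)))))))))
noncomputable def s19490 : Cert := .r (nat_lit 1098367625825484467402521520387706494109594716304906059671655762865893638949285266038277296282487021142512733819461657302059555672027806603392712505494664642560) (.p (nat_lit 558) (.a (.p (nat_lit 494) (.a (.f (nat_lit 461) (nat_lit 429) (nat_lit 7597) (.f (nat_lit 495) (nat_lit 497) (nat_lit 3533) (.d (nat_lit 460) (nat_lit 459) (nat_lit 459) (nat_lit 463) (nat_lit 460)))) (.a (.f (nat_lit 557) (nat_lit 589) (nat_lit 5581) (.f (nat_lit 525) (nat_lit 430) (nat_lit 5549) (.d (nat_lit 527) (nat_lit 497) (nat_lit 2541) (nat_lit 556) (nat_lit 1548)))) (.f (nat_lit 463) (nat_lit 431) (nat_lit 6574) (.f (nat_lit 495) (nat_lit 590) (nat_lit 6606) (.d (nat_lit 461) (nat_lit 429) (nat_lit 7597) (nat_lit 460) (nat_lit 460))))))) (.a s19472 (.a (.p (nat_lit 494) (.a (.f (nat_lit 557) (nat_lit 589) (nat_lit 5581) (.f (nat_lit 525) (nat_lit 430) (nat_lit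 5549) (.d (nat_lit 527) (nat_lit 497) (nat_lit 2541) (nat_lit 556) (nat_lit 1548)))) (.a (.f (nat_lit 429) (nat_lit 461) (nat_lit 7597) (.f (nat_lit 430) (nat_lit 397) (nat_lit 7565) (.d (nat_lit 431) (nat_lit 399) (nat_lit 6542) (nat_lit 463) (nat_lit 6574)))) (.f (nat_lit 591) (nat_lit 559) (nat_lit 4558) (.f (nat_lit 590) (nat_lit 623) (nat_lit 4590) (.d (nat_lit 461) (nat_lit 429) (nat_lit 7597) (nat_lit 493) (nat_lit 7629))))))) (.a (.p (nat_lit 494) (.a (.f (nat_lit 461) (nat_lit 429) (nat_lit 7597) (.f (nat_lit 495) (nat_lit 497) (nat_lit 3533) (.d (nat_lit 460) (nat_lit 459) (nat_lit 459) (nat_lit 463) (nat_lit 460)))) (.a (.f (nat_lit 429) (nat_lit 461) (nat_lit 7597) (.f (nat_lit 430) (nat_lit 397) (nat_lit 7565) (.d (nat_lit 431) (nat_lit 399) (nat_lit 6542) (nat_lit 463) (nat_lit 6574)))) (.a (.f (nat_lit 461) (nat_lit 429) (nat_lit 7597) (.f (nat_lit 493) (nat_lit 590) (nat_lit 7629) (.d (nat_lit 495) (nat_lit 460) (nat_lit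 3532) (nat_lit 497) (nat_lit 3533)))) (.f (nat_lit 559) (nat_lit 591) (nat_lit 4558) (.f (nat_lit 527) (nat_lit 430) (nat_lit 4526) (.d (nat_lit 557) (nat_lit 556) (nat_lit 2572) (nat_lit 589) (nat_lit 5581)))))))) (.a (.p (nat_lit 527) (.a (.f (nat_lit 525) (nat_lit 497) (nat_lit 2541) (.d (nat_lit 557) (nat_lit 529) (nat_lit 1549) (nat_lit 556) (nat_lit 1548))) (.a (.f (nat_lit 525) (nat_lit 497) (nat_lit 2541) (.f (nat_lit 495) (nat_lit 524) (nat_lit 2540) (.f (nat_lit 463) (nat_lit 431) (nat_lit 5550) (.d (nat_lit 559) (nat_lit 430) (nat_lit 7598) (nat_lit 590) (nat_lit 5582))))) (.f (nat_lit 529) (nat_lit 557) (nat_lit 1549) (.f (nat_lit 559) (nat_lit 530) (nat_lit 1550) (.f (nat_lit 464) (nat_lit 432) (nat_lit 5551) (.d (nat_lit 591) (nat_lit 495) (nat_lit 6607) (nat_lit 623) (nat_lit 6639)))))))) (.a (.p (nat_lit 494) (.a (.f (nat_lit 463) (nat_lit 431) (nat_lit 6574) (.f (nat_lit 495) (nat_lit 590) (nat_lit 6606) (.d (nat_lit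 461) (nat_lit 429) (nat_lit 7597) (nat_lit 460) (nat_lit 460)))) (.a (.f (nat_lit 429) (nat_lit 461) (nat_lit 7597) (.f (nat_lit 430) (nat_lit 397) (nat_lit 7565) (.d (nat_lit 431) (nat_lit 399) (nat_lit 6542) (nat_lit 463) (nat_lit 6574)))) (.a (.f (nat_lit 591) (nat_lit 559) (nat_lit 4558) (.f (nat_lit 590) (nat_lit 623) (nat_lit 4590) (.d (nat_lit 461) (nat_lit 429) (nat_lit 7597) (nat_lit 493) (nat_lit 7629)))) (.f (nat_lit 559) (nat_lit 591) (nat_lit 4558) (.f (nat_lit 527) (nat_lit 430) (nat_lit 4526) (.d (nat_lit 557) (nat_lit 556) (nat_lit 2572) (nat_lit 589) (nat_lit 5581)))))))) (.a (.p (nat_lit 494) (.a (.f (nat_lit 557) (nat_lit 589) (nat_lit 5581) (.f (nat_lit 525) (nat_lit 430) (nat_lit 5549) (.d (nat_lit 527) (nat_lit 497) (nat_lit 2541) (nat_lit 556) (nat_lit 1548)))) (.a (.f (nat_lit 461) (nat_lit 429) (nat_lit 7597) (.f (nat_lit 493) (nat_lit 590) (nat_lit 7629) (.d (nat_lit 495) (nat_lit 460) (nat_lit 3532) (nat_lit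 497) (nat_lit 3533)))) (.f (nat_lit 591) (nat_lit 559) (nat_lit 4558) (.f (nat_lit 590) (nat_lit 623) (nat_lit 4590) (.d (nat_lit 461) (nat_lit 429) (nat_lit 7597) (nat_lit 493) (nat_lit 7629))))))) (.a (.p (nat_lit 494) (.a (.f (nat_lit 461) (nat_lit 429) (nat_lit 7597) (.f (nat_lit 495) (nat_lit 497) (nat_lit 3533) (.d (nat_lit 460) (nat_lit 459) (nat_lit 459) (nat_lit 463) (nat_lit 460)))) (.a (.f (nat_lit 557) (nat_lit 589) (nat_lit 5581) (.f (nat_lit 525) (nat_lit 430) (nat_lit 5549) (.d (nat_lit 527) (nat_lit 497) (nat_lit 2541) (nat_lit 556) (nat_lit 1548)))) (.f (nat_lit 429) (nat_lit 461) (nat_lit 7597) (.f (nat_lit 430) (nat_lit 397) (nat_lit 7565) (.d (nat_lit 431) (nat_lit 399) (nat_lit 6542) (nat_lit 463) (nat_lit 6574))))))) (.p (nat_lit 494) (.a (.f (nat_lit 461) (nat_lit 429) (nat_lit 7597) (.f (nat_lit 495) (nat_lit 497) (nat_lit 3533) (.d (nat_lit 460) (nat_lit 459) (nat_lit 459) (nat_lit 463) (nat_lit 460)))) (.a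 (.f (nat_lit 591) (nat_lit 559) (nat_lit 4558) (.f (nat_lit 590) (nat_lit 623) (nat_lit 4590) (.d (nat_lit 461) (nat_lit 429) (nat_lit 7597) (nat_lit 493) (nat_lit 7629)))) (.f (nat_lit 463) (nat_lit 431) (nat_lit 6574) (.f (nat_lit 495) (nat_lit 590) (nat_lit 6606) (.f (nat_lit 525) (nat_lit 497) (nat_lit 1517) (.d (nat_lit 524) (nat_lit 493) (nat_lit 1516) (nat_lit 523) (nat_lit 2539)))))))))))))))))
noncomputable def s19513 : Cert := .r (nat_lit 1098367625876631195650898737106662583122525953058291091641078650201570066575787356607100336202538116335104986274944261741552681781546826236922171771952922886144) (.p (nat_lit 527) (.a (.f (nat_lit 525) (nat_lit 497) (nat_lit 2541) (.d (nat_lit 430) (nat_lit 557) (nat_lit 5549) (nat_lit 559) (nat_lit 4526))) (.a (.f (nat_lit 525) (nat_lit 497) (nat_lit 2541) (.d (nat_lit 557) (nat_lit 430) (nat_lit 5549) (nat_lit 556) (nat_lit 1548))) (.a (.f (nat_lit 430) (nat_lit 559) (nat_lit 4526) (.f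 (nat_lit 397) (nat_lit 429) (nat_lit 7565) (.f (nat_lit 398) (nat_lit 365) (nat_lit 7533) (.d (nat_lit 399) (nat_lit 367) (nat_lit 6510) (nat_lit 431) (nat_lit 6542))))) (.f (nat_lit 525) (nat_lit 497) (nat_lit 2541) (.f (nat_lit 493) (nat_lit 492) (nat_lit 3564) (.d (nat_lit 557) (nat_lit 556) (nat_lit 1548) (nat_lit 589) (nat_lit 6605))))))))
noncomputable def s19529 : Cert := .r (nat_lit 1098367625876631195650898737106662583122525953058291091641078650201570066575787356607100336202538116335104986274944261741552681781546826236922171771952922886144) (.p (nat_lit 558) (.a (.f (nat_lit 591) (nat_lit 559) (nat_lit 4558) (.f (nat_lit 590) (nat_lit 623) (nat_lit 4590) (.d (nat_lit 461) (nat_lit 429) (nat_lit 7597) (nat_lit 493) (nat_lit 7629)))) (.a (.f (nat_lit 461) (nat_lit 429) (nat_lit 7597) (.f (nat_lit 463) (nat_lit 431) (nat_lit 6574) (.f (nat_lit 493) (nat_lit 590) (nat_lit 7629) (.d (nat_lit 464) (nat_lit 465) (nat_lit 1485)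 (nat_lit 492) (nat_lit 1484))))) (.a (.f (nat_lit 589) (nat_lit 557) (nat_lit 5581) (.f (nat_lit 590) (nat_lit 621) (nat_lit 5613) (.d (nat_lit 591) (nat_lit 559) (nat_lit 4558) (nat_lit 623) (nat_lit 4590)))) (.f (nat_lit 557) (nat_lit 589) (nat_lit 5581) (.f (nat_lit 559) (nat_lit 591) (nat_lit 4558) (.f (nat_lit 556) (nat_lit 527) (nat_lit 2572) (.f (nat_lit 523) (nat_lit 524) (nat_lit 3595) (.f (nat_lit 555) (nat_lit 522) (nat_lit 3594) (.d (nat_lit 587) (nat_lit 586) (nat_lit 1578) (nat_lit 588) (nat_lit 1579)))))))))))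
noncomputable def s19530 : Cert := .r (nat_lit 1098367625876631195650898737106662583122525953058291091641078650201570066575787356607100336202538116335104986274944261741552681781546826236922171771952922886144) (.p (nat_lit 558) (.a (.f (nat_lit 557) (nat_lit 589) (nat_lit 5581) (.f (nat_lit 525) (nat_lit 430) (nat_lit 5549) (.d (nat_lit 527) (nat_lit 497) (nat_lit 2541) (nat_lit 556) (nat_lit 1548)))) (.a (.f (nat_lit 557) (nat_lit 589) (nat_lit 5581) (.f (nat_lit 430) (nat_lit 525) (nat_lit 5549) (.d (nat_lit 431) (nat_lit 399) (nat_lit 6542) (nat_lit 463) (nat_lit 6574)))) (.a (.f (nat_lit 559) (nat_lit 591) (nat_lit 4558) (.f (nat_lit 527) (nat_lit 430) (nat_lit 4526) (.d (nat_lit 557) (nat_lit 556) (nat_lit 2572) (nat_lit 589) (nat_lit 5581)))) (.a (.f (nat_lit 559) (nat_lit 591) (nat_lit 4558) (.f (nat_lit 430) (nat_lit 527) (nat_lit 4526) (.d (nat_lit 431) (nat_lit 399) (nat_lit 6542) (nat_lit 463) (nat_lit 6574)))) (.f (nat_lit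 589) (nat_lit 557) (nat_lit 5581) (.f (nat_lit 590) (nat_lit 621) (nat_lit 5613) (.d (nat_lit 591) (nat_lit 559) (nat_lit 4558) (nat_lit 623) (nat_lit 4590)))))))))
noncomputable def s19531 : Cert := .r (nat_lit 1098367625825484467402521520387706494109594716304906059671655762865893638949285266038277296282487021142512733819461657302059555672027806603392712505494664642560) (.p (nat_lit 494) (.a (.p (nat_lit 558) (.a (.f (nat_lit 557) (nat_lit 589) (nat_lit 5581) (.f (nat_lit 525) (nat_lit 430) (nat_lit 5549) (.d (nat_lit 527) (nat_lit 497) (nat_lit 2541) (nat_lit 556) (nat_lit 1548)))) (.a (.f (nat_lit 429) (nat_lit 461) (nat_lit 7597) (.f (nat_lit 430) (nat_lit 397) (nat_lit 7565) (.d (nat_lit 431) (nat_lit 399) (nat_lit 6542) (nat_lit 463) (nat_lit 6574)))) (.f (nat_lit 591) (nat_lit 559) (nat_lit 4558) (.f (nat_lit 590) (nat_lit 623) (nat_lit 4590) (.d (nat_lit 461) (nat_lit 429) (nat_lit 7597) (nat_lit 493) (nat_lit 7629)))))))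 (.a (.p (nat_lit 558) (.a (.f (nat_lit 429) (nat_lit 461) (nat_lit 7597) (.f (nat_lit 430) (nat_lit 397) (nat_lit 7565) (.d (nat_lit 431) (nat_lit 399) (nat_lit 6542) (nat_lit 463) (nat_lit 6574)))) (.a (.f (nat_lit 591) (nat_lit 559) (nat_lit 4558) (.f (nat_lit 590) (nat_lit 623) (nat_lit 4590) (.d (nat_lit 461) (nat_lit 429) (nat_lit 7597) (nat_lit 493) (nat_lit 7629)))) (.f (nat_lit 557) (nat_lit 589) (nat_lit 5581) (.f (nat_lit 430) (nat_lit 525) (nat_lit 5549) (.d (nat_lit 431) (nat_lit 399) (nat_lit 6542) (nat_lit 463) (nat_lit 6574))))))) (.a (.p (nat_lit 558) (.a (.f (nat_lit 557) (nat_lit 589) (nat_lit 5581) (.f (nat_lit 525) (nat_lit 430) (nat_lit 5549) (.d (nat_lit 527) (nat_lit 497) (nat_lit 2541) (nat_lit 556) (nat_lit 1548)))) (.a (.f (nat_lit 429) (nat_lit 461) (nat_lit 7597) (.f (nat_lit 430) (nat_lit 397) (nat_lit 7565) (.d (nat_lit 431) (nat_lit 399) (nat_lit 6542) (nat_lit 463) (nat_lit 6574)))) (.f (nat_lit 461)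 (nat_lit 429) (nat_lit 7597) (.f (nat_lit 463) (nat_lit 431) (nat_lit 6574) (.f (nat_lit 493) (nat_lit 590) (nat_lit 7629) (.d (nat_lit 464) (nat_lit 465) (nat_lit 1485) (nat_lit 492) (nat_lit 1484)))))))) (.a (.p (nat_lit 558) (.a (.f (nat_lit 429) (nat_lit 461) (nat_lit 7597) (.f (nat_lit 430) (nat_lit 397) (nat_lit 7565) (.d (nat_lit 431) (nat_lit 399) (nat_lit 6542) (nat_lit 463) (nat_lit 6574)))) (.a (.f (nat_lit 591) (nat_lit 559) (nat_lit 4558) (.f (nat_lit 590) (nat_lit 623) (nat_lit 4590) (.d (nat_lit 461) (nat_lit 429) (nat_lit 7597) (nat_lit 493) (nat_lit 7629)))) (.f (nat_lit 559) (nat_lit 591) (nat_lit 4558) (.f (nat_lit 527) (nat_lit 430) (nat_lit 4526) (.d (nat_lit 557) (nat_lit 556) (nat_lit 2572) (nat_lit 589) (nat_lit 5581))))))) (.a s19513 (.a (.p (nat_lit 558) (.a (.f (nat_lit 557) (nat_lit 589) (nat_lit 5581) (.f (nat_lit 525) (nat_lit 430) (nat_lit 5549) (.d (nat_lit 527) (nat_lit 497) (nat_lit 2541) (nat_lit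 556) (nat_lit 1548)))) (.a (.f (nat_lit 429) (nat_lit 461) (nat_lit 7597) (.f (nat_lit 430) (nat_lit 397) (nat_lit 7565) (.d (nat_lit 431) (nat_lit 399) (nat_lit 6542) (nat_lit 463) (nat_lit 6574)))) (.f (nat_lit 589) (nat_lit 557) (nat_lit 5581) (.f (nat_lit 590) (nat_lit 621) (nat_lit 5613) (.d (nat_lit 591) (nat_lit 559) (nat_lit 4558) (nat_lit 623) (nat_lit 4590))))))) (.a (.p (nat_lit 558) (.a (.f (nat_lit 429) (nat_lit 461) (nat_lit 7597) (.f (nat_lit 430) (nat_lit 397) (nat_lit 7565) (.d (nat_lit 431) (nat_lit 399) (nat_lit 6542) (nat_lit 463) (nat_lit 6574)))) (.a (.f (nat_lit 591) (nat_lit 559) (nat_lit 4558) (.f (nat_lit 590) (nat_lit 623) (nat_lit 4590) (.d (nat_lit 461) (nat_lit 429) (nat_lit 7597) (nat_lit 493) (nat_lit 7629)))) (.f (nat_lit 559) (nat_lit 591) (nat_lit 4558) (.f (nat_lit 430) (nat_lit 527) (nat_lit 4526) (.d (nat_lit 431) (nat_lit 399) (nat_lit 6542) (nat_lit 463) (nat_lit 6574))))))) (.a (.p (nat_lit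 558) (.a (.f (nat_lit 557) (nat_lit 589) (nat_lit 5581) (.f (nat_lit 525) (nat_lit 430) (nat_lit 5549) (.d (nat_lit 527) (nat_lit 497) (nat_lit 2541) (nat_lit 556) (nat_lit 1548)))) (.f (nat_lit 591) (nat_lit 559) (nat_lit 4558) (.f (nat_lit 590) (nat_lit 623) (nat_lit 4590) (.d (nat_lit 461) (nat_lit 429) (nat_lit 7597) (nat_lit 493) (nat_lit 7629)))))) (.a s19529 s19530))))))))))
noncomputable def s19545 : Cert := .r (nat_lit 1098367625876631195650898737106662583122525953058291091641078650201570066575787356607100336202538116335104986274944261741552681781546826236922171771952922886144) (.p (nat_lit 558) (.a (.f (nat_lit 461) (nat_lit 429) (nat_lit 7597) (.f (nat_lit 493) (nat_lit 590) (nat_lit 7629) (.d (nat_lit 495) (nat_lit 460) (nat_lit 3532) (nat_lit 497) (nat_lit 3533)))) (.a (.f (nat_lit 591) (nat_lit 559) (nat_lit 4558) (.f (nat_lit 590) (nat_lit 623) (nat_lit 4590) (.d (nat_lit 461) (nat_lit 429) (nat_lit 7597) (nat_lit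 493) (nat_lit 7629)))) (.a (.f (nat_lit 589) (nat_lit 557) (nat_lit 5581) (.f (nat_lit 590) (nat_lit 621) (nat_lit 5613) (.d (nat_lit 591) (nat_lit 559) (nat_lit 4558) (nat_lit 623) (nat_lit 4590)))) (.f (nat_lit 461) (nat_lit 429) (nat_lit 7597) (.f (nat_lit 495) (nat_lit 497) (nat_lit 3533) (.d (nat_lit 460) (nat_lit 459) (nat_lit 459) (nat_lit 493) (nat_lit 3532))))))))
noncomputable def s19547 : Cert := .r (nat_lit 1098367625876631195650898737106662583122525953058291091641078650201570066575787356607100336202538116335104986274944261741552681781546826236922171771952922886144) (.p (nat_lit 558) (.a (.f (nat_lit 461) (nat_lit 429) (nat_lit 7597) (.f (nat_lit 495) (nat_lit 497) (nat_lit 3533) (.d (nat_lit 460) (nat_lit 459) (nat_lit 459) (nat_lit 463) (nat_lit 460)))) (.a (.f (nat_lit 429) (nat_lit 461) (nat_lit 7597) (.f (nat_lit 430) (nat_lit 397) (nat_lit 7565) (.d (nat_lit 431) (nat_lit 399) (nat_lit 6542) (nat_lit 463) (nat_lit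 6574)))) (.a (.f (nat_lit 461) (nat_lit 429) (nat_lit 7597) (.f (nat_lit 493) (nat_lit 590) (nat_lit 7629) (.d (nat_lit 495) (nat_lit 460) (nat_lit 3532) (nat_lit 497) (nat_lit 3533)))) (.f (nat_lit 463) (nat_lit 431) (nat_lit 6574) (.f (nat_lit 495) (nat_lit 590) (nat_lit 6606) (.f (nat_lit 525) (nat_lit 497) (nat_lit 1517) (.d (nat_lit 524) (nat_lit 493) (nat_lit 1516) (nat_lit 523) (nat_lit 2539)))))))))
noncomputable def s19554 : Cert := .r (nat_lit 1098367625876631195650898737106662583122525953058291091641078650201570066575787356607100336202538116335104986274944261741552681781546826236922171771952922886144) (.p (nat_lit 558) (.a (.f (nat_lit 557) (nat_lit 589) (nat_lit 5581) (.f (nat_lit 430) (nat_lit 525) (nat_lit 5549) (.d (nat_lit 431) (nat_lit 399) (nat_lit 6542) (nat_lit 463) (nat_lit 6574)))) (.a (.f (nat_lit 589) (nat_lit 557) (nat_lit 5581) (.f (nat_lit 590) (nat_lit 621) (nat_lit 5613) (.d (nat_lit 591) (nat_lit 559)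 (nat_lit 4558) (nat_lit 623) (nat_lit 4590)))) (.f (nat_lit 431) (nat_lit 463) (nat_lit 6574) (.f (nat_lit 430) (nat_lit 399) (nat_lit 6542) (.f (nat_lit 591) (nat_lit 559) (nat_lit 4558) (.f (nat_lit 590) (nat_lit 623) (nat_lit 4590) (.f (nat_lit 493) (nat_lit 461) (nat_lit 7629) (.d (nat_lit 525) (nat_lit 398) (nat_lit 5517) (nat_lit 622) (nat_lit 7661))))))))))
noncomputable def s19555 : Cert := .r (nat_lit 1098367625825484467402521520387706494109594716304906059671655762865893638949285266038277296282487021142512733819461657302059555672027806603392712505494664642560) (.p (nat_lit 494) (.a (.p (nat_lit 558) (.a (.f (nat_lit 429) (nat_lit 461) (nat_lit 7597) (.f (nat_lit 430) (nat_lit 397) (nat_lit 7565) (.d (nat_lit 431) (nat_lit 399) (nat_lit 6542) (nat_lit 463) (nat_lit 6574)))) (.a (.f (nat_lit 591) (nat_lit 559) (nat_lit 4558) (.f (nat_lit 590) (nat_lit 623) (nat_lit 4590) (.d (nat_lit 461) (nat_lit 429) (nat_lit 7597) (nat_lit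 493) (nat_lit 7629)))) (.f (nat_lit 557) (nat_lit 589) (nat_lit 5581) (.f (nat_lit 430) (nat_lit 525) (nat_lit 5549) (.d (nat_lit 431) (nat_lit 399) (nat_lit 6542) (nat_lit 463) (nat_lit 6574))))))) (.a (.p (nat_lit 525) (.a (.f (nat_lit 495) (nat_lit 497) (nat_lit 1517) (.d (nat_lit 524) (nat_lit 493) (nat_lit 1516) (nat_lit 523) (nat_lit 2539))) (.a (.f (nat_lit 430) (nat_lit 557) (nat_lit 5549) (.f (nat_lit 398) (nat_lit 493) (nat_lit 5517) (.d (nat_lit 397) (nat_lit 365) (nat_lit 7533) (nat_lit 429) (nat_lit 7565)))) (.f (nat_lit 430) (nat_lit 557) (nat_lit 5549) (.f (nat_lit 399) (nat_lit 431) (nat_lit 6542) (.f (nat_lit 398) (nat_lit 367) (nat_lit 6510) (.d (nat_lit 397) (nat_lit 365) (nat_lit 7533) (nat_lit 429) (nat_lit 7565)))))))) (.a s19545 (.a (.p (nat_lit 558) (.a (.f (nat_lit 429) (nat_lit 461) (nat_lit 7597) (.f (nat_lit 430) (nat_lit 397) (nat_lit 7565) (.d (nat_lit 431) (nat_lit 399) (nat_lit 6542) (nat_lit 463)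 (nat_lit 6574)))) (.f (nat_lit 589) (nat_lit 557) (nat_lit 5581) (.f (nat_lit 590) (nat_lit 621) (nat_lit 5613) (.d (nat_lit 591) (nat_lit 559) (nat_lit 4558) (nat_lit 623) (nat_lit 4590)))))) (.a s19547 s19554))))))
noncomputable def s19557 : Cert := .r (nat_lit 943490607303752963885873112649588743116936799213704823398957634733061803463930851970816947332691988167854114900203695044404303459540753830168165166250886516407013474304) (.p (nat_lit 494) (.a (.f (nat_lit 461) (nat_lit 429) (nat_lit 7597) (.f (nat_lit 495) (nat_lit 497) (nat_lit 3533) (.d (nat_lit 460) (nat_lit 459) (nat_lit 459) (nat_lit 463) (nat_lit 460)))) (.a (.f (nat_lit 429) (nat_lit 461) (nat_lit 7597) (.f (nat_lit 430) (nat_lit 397) (nat_lit 7565) (.d (nat_lit 431) (nat_lit 399) (nat_lit 6542) (nat_lit 463) (nat_lit 6574)))) (.a (.f (nat_lit 461) (nat_lit 429) (nat_lit 7597) (.f (nat_lit 493) (nat_lit 590) (nat_lit 7629) (.d (nat_lit 495) (nat_lit 460) (nat_lit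 3532) (nat_lit 497) (nat_lit 3533)))) (.f (nat_lit 463) (nat_lit 431) (nat_lit 6574) (.f (nat_lit 495) (nat_lit 590) (nat_lit 6606) (.f (nat_lit 529) (nat_lit 493) (nat_lit 493) (.d (nat_lit 530) (nat_lit 497) (nat_lit 494) (nat_lit 531) (nat_lit 3567)))))))))
noncomputable def s19582 : Cert := .r (nat_lit 943490607303752963885873112649588743116936799213704823398957634733061803463930851970816947332691988167854114900203695044404303459540753830168165166250886516407013474304) (.p (nat_lit 494) (.a (.f (nat_lit 557) (nat_lit 589) (nat_lit 5581) (.f (nat_lit 525) (nat_lit 430) (nat_lit 5549) (.d (nat_lit 527) (nat_lit 497) (nat_lit 2541) (nat_lit 556) (nat_lit 1548)))) (.a (.f (nat_lit 463) (nat_lit 431) (nat_lit 6574) (.f (nat_lit 495) (nat_lit 590) (nat_lit 6606) (.f (nat_lit 525) (nat_lit 497) (nat_lit 1517) (.d (nat_lit 524) (nat_lit 493) (nat_lit 1516) (nat_lit 523) (nat_lit 2539))))) (.a (.f (nat_lit 463) (nat_lit 431) (nat_lit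 6574) (.f (nat_lit 495) (nat_lit 590) (nat_lit 6606) (.f (nat_lit 529) (nat_lit 493) (nat_lit 493) (.d (nat_lit 530) (nat_lit 497) (nat_lit 494) (nat_lit 531) (nat_lit 3567))))) (.f (nat_lit 557) (nat_lit 589) (nat_lit 5581) (.f (nat_lit 527) (nat_lit 529) (nat_lit 1549) (.d (nat_lit 525) (nat_lit 430) (nat_lit 5549) (nat_lit 556) (nat_lit 1548))))))))
noncomputable def s19584 : Cert := .r (nat_lit 1098367625825484467402521520387706494109594716304906059671655762865893638949285266038277296282487021142512733819461657302059555672027806603392712505494664642560) (.p (nat_lit 558) (.a (.p (nat_lit 494) (.a (.f (nat_lit 461) (nat_lit 429) (nat_lit 7597) (.f (nat_lit 495) (nat_lit 497) (nat_lit 3533) (.d (nat_lit 460) (nat_lit 459) (nat_lit 459) (nat_lit 463) (nat_lit 460)))) (.a (.f (nat_lit 557) (nat_lit 589) (nat_lit 5581) (.f (nat_lit 525) (nat_lit 430) (nat_lit 5549) (.d (nat_lit 527) (nat_lit 497) (nat_lit 2541) (nat_lit 556) (nat_lit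 1548)))) (.f (nat_lit 463) (nat_lit 431) (nat_lit 6574) (.f (nat_lit 495) (nat_lit 590) (nat_lit 6606) (.d (nat_lit 461) (nat_lit 429) (nat_lit 7597) (nat_lit 460) (nat_lit 460))))))) (.a s19472 (.a (.p (nat_lit 494) (.a (.f (nat_lit 557) (nat_lit 589) (nat_lit 5581) (.f (nat_lit 525) (nat_lit 430) (nat_lit 5549) (.d (nat_lit 527) (nat_lit 497) (nat_lit 2541) (nat_lit 556) (nat_lit 1548)))) (.a (.f (nat_lit 429) (nat_lit 461) (nat_lit 7597) (.f (nat_lit 430) (nat_lit 397) (nat_lit 7565) (.d (nat_lit 431) (nat_lit 399) (nat_lit 6542) (nat_lit 463) (nat_lit 6574)))) (.f (nat_lit 557) (nat_lit 589) (nat_lit 5581) (.f (nat_lit 527) (nat_lit 529) (nat_lit 1549) (.d (nat_lit 556) (nat_lit 525) (nat_lit 1548) (nat_lit 555) (nat_lit 2571))))))) (.a s19557 (.a (.p (nat_lit 527) (.a (.f (nat_lit 525) (nat_lit 497) (nat_lit 2541) (.d (nat_lit 557) (nat_lit 529) (nat_lit 1549) (nat_lit 556) (nat_lit 1548))) (.a (.f (nat_lit 525) (nat_lit 497)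 (nat_lit 2541) (.f (nat_lit 493) (nat_lit 492) (nat_lit 3564) (.f (nat_lit 557) (nat_lit 556) (nat_lit 1548) (.d (nat_lit 461) (nat_lit 429) (nat_lit 4525) (nat_lit 430) (nat_lit 6573))))) (.a (.f (nat_lit 529) (nat_lit 557) (nat_lit 1549) (.f (nat_lit 561) (nat_lit 562) (nat_lit 526) (.f (nat_lit 464) (nat_lit 432) (nat_lit 4528) (.d (nat_lit 593) (nat_lit 497) (nat_lit 7632) (nat_lit 625) (nat_lit 7664))))) (.a (.f (nat_lit 529) (nat_lit 557) (nat_lit 1549) (.f (nat_lit 562) (nat_lit 561) (nat_lit 526) (.f (nat_lit 530) (nat_lit 563) (nat_lit 527) (.f (nat_lit 495) (nat_lit 531) (nat_lit 3567) (.f (nat_lit 463) (nat_lit 431) (nat_lit 5550) (.f (nat_lit 525) (nat_lit 524) (nat_lit 2540) (.f (nat_lit 461) (nat_lit 460) (nat_lit 460) (.d (nat_lit 493) (nat_lit 429) (nat_lit 4525) (nat_lit 492) (nat_lit 3564))))))))) (.f (nat_lit 525) (nat_lit 497) (nat_lit 2541) (.f (nat_lit 495) (nat_lit 524) (nat_lit 2540) (.f (nat_lit 463) (nat_lit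 431) (nat_lit 5550) (.f (nat_lit 461) (nat_lit 460) (nat_lit 460) (.d (nat_lit 493) (nat_lit 429) (nat_lit 4525) (nat_lit 492) (nat_lit 3564))))))))))) (.a (.p (nat_lit 494) (.a (.f (nat_lit 463) (nat_lit 431) (nat_lit 6574) (.f (nat_lit 495) (nat_lit 590) (nat_lit 6606) (.d (nat_lit 461) (nat_lit 429) (nat_lit 7597) (nat_lit 460) (nat_lit 460)))) (.a (.f (nat_lit 429) (nat_lit 461) (nat_lit 7597) (.f (nat_lit 430) (nat_lit 397) (nat_lit 7565) (.d (nat_lit 431) (nat_lit 399) (nat_lit 6542) (nat_lit 463) (nat_lit 6574)))) (.f (nat_lit 557) (nat_lit 589) (nat_lit 5581) (.f (nat_lit 527) (nat_lit 529) (nat_lit 1549) (.d (nat_lit 525) (nat_lit 430) (nat_lit 5549) (nat_lit 556) (nat_lit 1548))))))) (.a (.p (nat_lit 494) (.a (.f (nat_lit 557) (nat_lit 589) (nat_lit 5581) (.f (nat_lit 525) (nat_lit 430) (nat_lit 5549) (.d (nat_lit 527) (nat_lit 497) (nat_lit 2541) (nat_lit 556) (nat_lit 1548)))) (.a (.f (nat_lit 461) (nat_lit 429) (nat_lit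 7597) (.f (nat_lit 493) (nat_lit 590) (nat_lit 7629) (.d (nat_lit 495) (nat_lit 460) (nat_lit 3532) (nat_lit 497) (nat_lit 3533)))) (.f (nat_lit 557) (nat_lit 589) (nat_lit 5581) (.f (nat_lit 527) (nat_lit 529) (nat_lit 1549) (.d (nat_lit 525) (nat_lit 430) (nat_lit 5549) (nat_lit 556) (nat_lit 1548))))))) (.a s19582 (.p (nat_lit 494) (.a (.f (nat_lit 461) (nat_lit 429) (nat_lit 7597) (.f (nat_lit 495) (nat_lit 497) (nat_lit 3533) (.d (nat_lit 460) (nat_lit 459) (nat_lit 459) (nat_lit 463) (nat_lit 460)))) (.f (nat_lit 557) (nat_lit 589) (nat_lit 5581) (.f (nat_lit 527) (nat_lit 529) (nat_lit 1549) (.d (nat_lit 556) (nat_lit 525) (nat_lit 1548) (nat_lit 555) (nat_lit 2571)))))))))))))))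
noncomputable def s19599 : Cert := .r (nat_lit 943490607303752963937019840897965959835892888226636060152342666702484690799607279597319037901515028087905210092795947499886907899033879939687184799780345782865271717888) (.f (nat_lit 431) (nat_lit 463) (nat_lit 6574) (.f (nat_lit 430) (nat_lit 399) (nat_lit 6542) (.f (nat_lit 397) (nat_lit 429) (nat_lit 7565) (.f (nat_lit 398) (nat_lit 365) (nat_lit 7533) (.f (nat_lit 557) (nat_lit 589) (nat_lit 5581) (.f (nat_lit 529) (nat_lit 527) (nat_lit 1549) (.f (nat_lit 432) (nat_lit 433) (nat_lit 3469) (.f (nat_lit 464) (nat_lit 561) (nat_lit 4528) (.f (nat_lit 400) (nat_lit 497) (nat_lit 4496) (.f (nat_lit 369) (nat_lit 401) (nat_lit 6512) (.f (nat_lit 368) (nat_lit 337) (nat_lit 6480) (.d (nat_lit 367) (nat_lit 335) (nat_lit 7503) (nat_lit 366) (nat_lit 1389)))))))))))))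
noncomputable def s19610 : Cert := .r (nat_lit 1098367625876631195650898737106662583122525953058291091641078650201570066575787356607100336202538116335104986274944261741552681781546826236922171771952922886144) (.p (nat_lit 558) (.a (.f (nat_lit 429) (nat_lit 461) (nat_lit 7597) (.f (nat_lit 430) (nat_lit 397) (nat_lit 7565) (.d (nat_lit 431) (nat_lit 399) (nat_lit 6542) (nat_lit 463) (nat_lit 6574)))) (.a (.f (nat_lit 461) (nat_lit 429) (nat_lit 7597) (.f (nat_lit 590) (nat_lit 493) (nat_lit 7629) (.d (nat_lit 589) (nat_lit 557) (nat_lit 5581) (nat_lit 621) (nat_lit 5613)))) (.a s19599 (.f (nat_lit 463) (nat_lit 431) (nat_lit 6574) (.f (nat_lit 589) (nat_lit 557) (nat_lit 5581) (.f (nat_lit 590) (nat_lit 621) (nat_lit 5613) (.f (nat_lit 493) (nat_lit 461) (nat_lit 7629) (.f (nat_lit 623) (nat_lit 591) (nat_lit 4590) (.f (nat_lit 622) (nat_lit 655) (nat_lit 4622) (.f (nat_lit 625) (nat_lit 624) (nat_lit 3661) (.f (nat_lit 529) (nat_lit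 527) (nat_lit 3565) (.f (nat_lit 464) (nat_lit 465) (nat_lit 1485) (.d (nat_lit 561) (nat_lit 432) (nat_lit 4528) (nat_lit 593) (nat_lit 7664)))))))))))))))
noncomputable def s19619 : Cert := .r (nat_lit 1098367625876631195650898737106662583122525953058291091641078650201570066575787356607100336202538116335104986274944261741552681781546826236922171771952922886144) (.p (nat_lit 558) (.a (.f (nat_lit 559) (nat_lit 591) (nat_lit 4558) (.f (nat_lit 527) (nat_lit 430) (nat_lit 4526) (.d (nat_lit 557) (nat_lit 556) (nat_lit 2572) (nat_lit 589) (nat_lit 5581)))) (.a (.f (nat_lit 589) (nat_lit 557) (nat_lit 5581) (.f (nat_lit 590) (nat_lit 621) (nat_lit 5613) (.d (nat_lit 591) (nat_lit 559) (nat_lit 4558) (nat_lit 623) (nat_lit 4590)))) (.a (.f (nat_lit 463) (nat_lit 431) (nat_lit 6574) (.f (nat_lit 589) (nat_lit 557) (nat_lit 5581) (.f (nat_lit 590) (nat_lit 621) (nat_lit 5613) (.f (nat_lit 493) (nat_lit 461) (nat_lit 7629) (.f (nat_lit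 623) (nat_lit 591) (nat_lit 4590) (.f (nat_lit 622) (nat_lit 655) (nat_lit 4622) (.f (nat_lit 625) (nat_lit 624) (nat_lit 3661) (.f (nat_lit 529) (nat_lit 527) (nat_lit 3565) (.f (nat_lit 464) (nat_lit 465) (nat_lit 1485) (.d (nat_lit 561) (nat_lit 432) (nat_lit 4528) (nat_lit 593) (nat_lit 7664))))))))))) (.a (.f (nat_lit 557) (nat_lit 589) (nat_lit 5581) (.f (nat_lit 527) (nat_lit 529) (nat_lit 1549) (.d (nat_lit 556) (nat_lit 555) (nat_lit 2571) (nat_lit 559) (nat_lit 2572)))) (.f (nat_lit 559) (nat_lit 591) (nat_lit 4558) (.f (nat_lit 527) (nat_lit 430) (nat_lit 4526) (.d (nat_lit 529) (nat_lit 493) (nat_lit 3565) (nat_lit 530) (nat_lit 1550)))))))))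
noncomputable def s19620 : Cert := .r (nat_lit 1098367625825484467402521520387706494109594716304906059671655762865893638949285266038277296282487021142512733819461657302059555672027806603392712505494664642560) (.p (nat_lit 494) (.a (.p (nat_lit 558) (.a (.f (nat_lit 429) (nat_lit 461) (nat_lit 7597) (.f (nat_lit 430) (nat_lit 397) (nat_lit 7565) (.d (nat_lit 431) (nat_lit 399) (nat_lit 6542) (nat_lit 463) (nat_lit 6574)))) (.a (.f (nat_lit 591) (nat_lit 559) (nat_lit 4558) (.f (nat_lit 590) (nat_lit 623) (nat_lit 4590) (.d (nat_lit 461) (nat_lit 429) (nat_lit 7597) (nat_lit 493) (nat_lit 7629)))) (.f (nat_lit 559) (nat_lit 591) (nat_lit 4558) (.f (nat_lit 527) (nat_lit 430) (nat_lit 4526) (.d (nat_lit 557) (nat_lit 556) (nat_lit 2572) (nat_lit 589) (nat_lit 5581))))))) (.a s19545 (.a s19610 (.a (.p (nat_lit 527) (.a (.f (nat_lit 430) (nat_lit 559) (nat_lit 4526) (.f (nat_lit 397) (nat_lit 429) (nat_lit 7565) (.f (nat_lit 398) (nat_lit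 365) (nat_lit 7533) (.d (nat_lit 399) (nat_lit 367) (nat_lit 6510) (nat_lit 431) (nat_lit 6542))))) (.f (nat_lit 529) (nat_lit 493) (nat_lit 3565) (.f (nat_lit 561) (nat_lit 562) (nat_lit 526) (.f (nat_lit 464) (nat_lit 432) (nat_lit 4528) (.d (nat_lit 593) (nat_lit 497) (nat_lit 7632) (nat_lit 625) (nat_lit 7664))))))) (.a (.p (nat_lit 558) (.a (.f (nat_lit 429) (nat_lit 461) (nat_lit 7597) (.f (nat_lit 430) (nat_lit 397) (nat_lit 7565) (.d (nat_lit 431) (nat_lit 399) (nat_lit 6542) (nat_lit 463) (nat_lit 6574)))) (.f (nat_lit 589) (nat_lit 557) (nat_lit 5581) (.f (nat_lit 590) (nat_lit 621) (nat_lit 5613) (.d (nat_lit 591) (nat_lit 559) (nat_lit 4558) (nat_lit 623) (nat_lit 4590)))))) s19619))))))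
noncomputable def s19658 : Cert := .r (nat_lit 1537714676073843489161363171528915660014838575514077605872901424253768402686735253374121113284820112661059697748516432216435362904009671807397450316126028300288) (.p (nat_lit 529) (.a (.f (nat_lit 558) (nat_lit 557) (nat_lit 1549) (.f (nat_lit 530) (nat_lit 559) (nat_lit 1550) (.d (nat_lit 562) (nat_lit 561) (nat_lit 526) (nat_lit 563) (nat_lit 527)))) (.a (.f (nat_lit 557) (nat_lit 558) (nat_lit 1549) (.f (nat_lit 525) (nat_lit 556) (nat_lit 1548) (.f (nat_lit 493) (nat_lit 492) (nat_lit 3564) (.f (nat_lit 461) (nat_lit 430) (nat_lit 6573) (.f (nat_lit 460) (nat_lit 428) (nat_lit 7596) (.d (nat_lit 495) (nat_lit 463) (nat_lit 460) (nat_lit 524) (nat_lit 2540))))))) (.a (.f (nat_lit 562) (nat_lit 561) (nat_lit 526) (.f (nat_lit 530) (nat_lit 563) (nat_lit 527) (.f (nat_lit 495) (nat_lit 531) (nat_lit 3567) (.f (nat_lit 525) (nat_lit 524) (nat_lit 2540) (.f (nat_lit 493) (nat_lit 492)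 (nat_lit 3564) (.f (nat_lit 557) (nat_lit 556) (nat_lit 1548) (.f (nat_lit 461) (nat_lit 430) (nat_lit 6573) (.d (nat_lit 460) (nat_lit 428) (nat_lit 7596) (nat_lit 463) (nat_lit 460))))))))) (.f (nat_lit 562) (nat_lit 561) (nat_lit 526) (.f (nat_lit 530) (nat_lit 563) (nat_lit 527) (.f (nat_lit 495) (nat_lit 531) (nat_lit 3567) (.f (nat_lit 559) (nat_lit 558) (nat_lit 1550) (.d (nat_lit 464) (nat_lit 432) (nat_lit 5551) (nat_lit 591) (nat_lit 6607))))))))))
noncomputable def s19659 : Cert := .r (nat_lit 1098367625825484467402521520387706494109594716304906059671655762865893638949285266038277296282487021142512733819461657302059555672027806603392712505494664642560) (.p (nat_lit 527) (.a (.f (nat_lit 525) (nat_lit 497) (nat_lit 2541) (.f (nat_lit 524) (nat_lit 495) (nat_lit 2540) (.d (nat_lit 492) (nat_lit 491) (nat_lit 3563) (nat_lit 493) (nat_lit 3564)))) (.a (.f (nat_lit 525) (nat_lit 497) (nat_lit 2541) (.f (nat_lit 557) (nat_lit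 556) (nat_lit 1548) (.f (nat_lit 493) (nat_lit 492) (nat_lit 3564) (.f (nat_lit 558) (nat_lit 529) (nat_lit 1549) (.d (nat_lit 461) (nat_lit 429) (nat_lit 4525) (nat_lit 430) (nat_lit 6573)))))) (.a (.p (nat_lit 529) (.a (.f (nat_lit 561) (nat_lit 562) (nat_lit 526) (.f (nat_lit 464) (nat_lit 432) (nat_lit 4528) (.d (nat_lit 593) (nat_lit 497) (nat_lit 7632) (nat_lit 625) (nat_lit 7664)))) (.a (.f (nat_lit 558) (nat_lit 557) (nat_lit 1549) (.f (nat_lit 530) (nat_lit 559) (nat_lit 1550) (.d (nat_lit 562) (nat_lit 561) (nat_lit 526) (nat_lit 563) (nat_lit 527)))) (.f (nat_lit 558) (nat_lit 557) (nat_lit 1549) (.f (nat_lit 559) (nat_lit 530) (nat_lit 1550) (.f (nat_lit 591) (nat_lit 623) (nat_lit 6639) (.d (nat_lit 464) (nat_lit 432) (nat_lit 5551) (nat_lit 495) (nat_lit 6607)))))))) s19658))))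
noncomputable def s19675 : Cert := .r (nat_lit 1098367625876631195650898737106662583122525953058291091641078650201570066575787356607100336202538116335104986274944261741552681781546826236922171771952922886144) (.p (nat_lit 527) (.a (.f (nat_lit 525) (nat_lit 497) (nat_lit 2541) (.f (nat_lit 493) (nat_lit 492) (nat_lit 3564) (.d (nat_lit 557) (nat_lit 556) (nat_lit 1548) (nat_lit 589) (nat_lit 6605)))) (.a (.f (nat_lit 529) (nat_lit 493) (nat_lit 3565) (.f (nat_lit 561) (nat_lit 562) (nat_lit 526) (.f (nat_lit 464) (nat_lit 432) (nat_lit 4528) (.d (nat_lit 593) (nat_lit 497) (nat_lit 7632) (nat_lit 625) (nat_lit 7664))))) (.a (.f (nat_lit 493) (nat_lit 529) (nat_lit 3565) (.d (nat_lit 492) (nat_lit 491) (nat_lit 491) (nat_lit 495) (nat_lit 492))) (.f (nat_lit 525) (nat_lit 497) (nat_lit 2541) (.f (nat_lit 524) (nat_lit 495) (nat_lit 2540) (.d (nat_lit 556) (nat_lit 555) (nat_lit 1547) (nat_lit 557) (nat_lit 1548))))))))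
noncomputable def s19676 : Cert := .r (nat_lit 1098367625825484467402521520387706494109594716304906059671655762865893638949285266038277296282487021142512733819461657302059555672027806603392712505494664642560) (.p (nat_lit 494) (.a s19513 (.a (.p (nat_lit 525) (.a (.f (nat_lit 495) (nat_lit 497) (nat_lit 1517) (.d (nat_lit 524) (nat_lit 493) (nat_lit 1516) (nat_lit 523) (nat_lit 2539))) (.a (.f (nat_lit 430) (nat_lit 557) (nat_lit 5549) (.f (nat_lit 398) (nat_lit 493) (nat_lit 5517) (.d (nat_lit 397) (nat_lit 365) (nat_lit 7533) (nat_lit 429) (nat_lit 7565)))) (.f (nat_lit 430) (nat_lit 557) (nat_lit 5549) (.f (nat_lit 399) (nat_lit 431) (nat_lit 6542) (.f (nat_lit 398) (nat_lit 367) (nat_lit 6510) (.d (nat_lit 397) (nat_lit 365) (nat_lit 7533) (nat_lit 429) (nat_lit 7565)))))))) (.a (.p (nat_lit 527) (.a (.f (nat_lit 430) (nat_lit 559) (nat_lit 4526) (.f (nat_lit 397) (nat_lit 429) (nat_lit 7565) (.f (nat_lit 398) (nat_lit 365) (nat_lit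 7533) (.d (nat_lit 399) (nat_lit 367) (nat_lit 6510) (nat_lit 431) (nat_lit 6542))))) (.f (nat_lit 529) (nat_lit 493) (nat_lit 3565) (.f (nat_lit 561) (nat_lit 562) (nat_lit 526) (.f (nat_lit 464) (nat_lit 432) (nat_lit 4528) (.d (nat_lit 593) (nat_lit 497) (nat_lit 7632) (nat_lit 625) (nat_lit 7664))))))) (.a (.p (nat_lit 527) (.a (.f (nat_lit 430) (nat_lit 559) (nat_lit 4526) (.f (nat_lit 397) (nat_lit 429) (nat_lit 7565) (.f (nat_lit 398) (nat_lit 365) (nat_lit 7533) (.d (nat_lit 399) (nat_lit 367) (nat_lit 6510) (nat_lit 431) (nat_lit 6542))))) (.f (nat_lit 493) (nat_lit 529) (nat_lit 3565) (.d (nat_lit 492) (nat_lit 491) (nat_lit 491) (nat_lit 495) (nat_lit 492))))) (.a (.p (nat_lit 430) (.a (.f (nat_lit 399) (nat_lit 431) (nat_lit 6542) (.f (nat_lit 398) (nat_lit 367) (nat_lit 6510) (.d (nat_lit 397) (nat_lit 365) (nat_lit 7533) (nat_lit 429) (nat_lit 7565)))) (.f (nat_lit 527) (nat_lit 559) (nat_lit 4526) (.d (nat_lit 525)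 (nat_lit 497) (nat_lit 2541) (nat_lit 557) (nat_lit 5549))))) (.a (.p (nat_lit 527) (.a (.f (nat_lit 525) (nat_lit 497) (nat_lit 2541) (.d (nat_lit 430) (nat_lit 557) (nat_lit 5549) (nat_lit 559) (nat_lit 4526))) (.a (.f (nat_lit 525) (nat_lit 497) (nat_lit 2541) (.d (nat_lit 557) (nat_lit 430) (nat_lit 5549) (nat_lit 556) (nat_lit 1548))) (.a (.f (nat_lit 529) (nat_lit 493) (nat_lit 3565) (.f (nat_lit 561) (nat_lit 562) (nat_lit 526) (.f (nat_lit 464) (nat_lit 432) (nat_lit 4528) (.d (nat_lit 593) (nat_lit 497) (nat_lit 7632) (nat_lit 625) (nat_lit 7664))))) (.f (nat_lit 559) (nat_lit 430) (nat_lit 4526) (.d (nat_lit 591) (nat_lit 495) (nat_lit 7630) (nat_lit 623) (nat_lit 6639))))))) s19675)))))))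
noncomputable def s19680 : Cert := .r (nat_lit 1098367625876631195650898737106662583122525953058291091641078650201570066575787356607100336202538116335104986274944261741552681781546826236922171771952922886144) (.p (nat_lit 558) (.a (.f (nat_lit 429) (nat_lit 461) (nat_lit 7597) (.f (nat_lit 430) (nat_lit 397) (nat_lit 7565) (.d (nat_lit 431) (nat_lit 399) (nat_lit 6542) (nat_lit 463) (nat_lit 6574)))) (.a (.f (nat_lit 429) (nat_lit 461) (nat_lit 7597) (.f (nat_lit 430) (nat_lit 397) (nat_lit 7565) (.d (nat_lit 557) (nat_lit 525) (nat_lit 5549) (nat_lit 589) (nat_lit 5581)))) (.a (.f (nat_lit 557) (nat_lit 589) (nat_lit 5581) (.f (nat_lit 430) (nat_lit 525) (nat_lit 5549) (.d (nat_lit 431) (nat_lit 399) (nat_lit 6542) (nat_lit 463) (nat_lit 6574)))) (.f (nat_lit 461) (nat_lit 429) (nat_lit 7597) (.f (nat_lit 463) (nat_lit 431) (nat_lit 6574) (.f (nat_lit 493) (nat_lit 590) (nat_lit 7629) (.d (nat_lit 464) (nat_lit 465) (nat_lit 1485)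 (nat_lit 492) (nat_lit 1484)))))))))
noncomputable def s19686 : Cert := .r (nat_lit 1098367625876631195650898737106662583122525953058291091641078650201570066575787356607100336202538116335104986274944261741552681781546826236922171771952922886144) (.p (nat_lit 558) (.a (.f (nat_lit 591) (nat_lit 559) (nat_lit 4558) (.f (nat_lit 590) (nat_lit 623) (nat_lit 4590) (.d (nat_lit 461) (nat_lit 429) (nat_lit 7597) (nat_lit 493) (nat_lit 7629)))) (.a (.f (nat_lit 461) (nat_lit 429) (nat_lit 7597) (.f (nat_lit 493) (nat_lit 590) (nat_lit 7629) (.f (nat_lit 495) (nat_lit 460) (nat_lit 3532) (.f (nat_lit 525) (nat_lit 524) (nat_lit 1516) (.d (nat_lit 430) (nat_lit 398) (nat_lit 5517) (nat_lit 557) (nat_lit 5549)))))) (.f (nat_lit 559) (nat_lit 591) (nat_lit 4558) (.f (nat_lit 527) (nat_lit 430) (nat_lit 4526) (.d (nat_lit 557) (nat_lit 556) (nat_lit 2572) (nat_lit 589) (nat_lit 5581)))))))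
noncomputable def s19687 : Cert := .r (nat_lit 1098367625825484467402521520387706494109594716304906059671655762865893638949285266038277296282487021142512733819461657302059555672027806603392712505494664642560) (.p (nat_lit 494) (.a (.p (nat_lit 558) (.a (.f (nat_lit 429) (nat_lit 461) (nat_lit 7597) (.f (nat_lit 430) (nat_lit 397) (nat_lit 7565) (.d (nat_lit 431) (nat_lit 399) (nat_lit 6542) (nat_lit 463) (nat_lit 6574)))) (.a (.f (nat_lit 591) (nat_lit 559) (nat_lit 4558) (.f (nat_lit 590) (nat_lit 623) (nat_lit 4590) (.d (nat_lit 461) (nat_lit 429) (nat_lit 7597) (nat_lit 493) (nat_lit 7629)))) (.f (nat_lit 557) (nat_lit 589) (nat_lit 5581) (.f (nat_lit 430) (nat_lit 525) (nat_lit 5549) (.d (nat_lit 431) (nat_lit 399) (nat_lit 6542) (nat_lit 463) (nat_lit 6574))))))) (.a s19680 (.a (.p (nat_lit 558) (.a (.f (nat_lit 429) (nat_lit 461) (nat_lit 7597) (.f (nat_lit 430) (nat_lit 397) (nat_lit 7565) (.d (nat_lit 431) (nat_lit 399) (nat_lit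 6542) (nat_lit 463) (nat_lit 6574)))) (.a (.f (nat_lit 591) (nat_lit 559) (nat_lit 4558) (.f (nat_lit 590) (nat_lit 623) (nat_lit 4590) (.d (nat_lit 461) (nat_lit 429) (nat_lit 7597) (nat_lit 493) (nat_lit 7629)))) (.f (nat_lit 559) (nat_lit 591) (nat_lit 4558) (.f (nat_lit 527) (nat_lit 430) (nat_lit 4526) (.d (nat_lit 557) (nat_lit 556) (nat_lit 2572) (nat_lit 589) (nat_lit 5581))))))) (.a (.p (nat_lit 527) (.a (.f (nat_lit 430) (nat_lit 559) (nat_lit 4526) (.f (nat_lit 397) (nat_lit 429) (nat_lit 7565) (.f (nat_lit 398) (nat_lit 365) (nat_lit 7533) (.d (nat_lit 399) (nat_lit 367) (nat_lit 6510) (nat_lit 431) (nat_lit 6542))))) (.f (nat_lit 493) (nat_lit 529) (nat_lit 3565) (.d (nat_lit 492) (nat_lit 491) (nat_lit 491) (nat_lit 495) (nat_lit 492))))) (.a (.p (nat_lit 558) (.a (.f (nat_lit 429) (nat_lit 461) (nat_lit 7597) (.f (nat_lit 430) (nat_lit 397) (nat_lit 7565) (.d (nat_lit 431) (nat_lit 399) (nat_lit 6542) (nat_lit 463)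 (nat_lit 6574)))) (.f (nat_lit 589) (nat_lit 557) (nat_lit 5581) (.f (nat_lit 590) (nat_lit 621) (nat_lit 5613) (.d (nat_lit 591) (nat_lit 559) (nat_lit 4558) (nat_lit 623) (nat_lit 4590)))))) (.a s19686 (.a s19529 s19554))))))))
noncomputable def s19691 : Cert := .r (nat_lit 1098367625825484467402521520387706494109594716304906059671655762865893638949285266038277296282487021142512733819461657302059555672027806603392712505494664642560) (.p (nat_lit 558) (.a (.p (nat_lit 494) (.a (.f (nat_lit 461) (nat_lit 429) (nat_lit 7597) (.f (nat_lit 495) (nat_lit 497) (nat_lit 3533) (.d (nat_lit 460) (nat_lit 459) (nat_lit 459) (nat_lit 463) (nat_lit 460)))) (.a (.f (nat_lit 557) (nat_lit 589) (nat_lit 5581) (.f (nat_lit 525) (nat_lit 430) (nat_lit 5549) (.d (nat_lit 527) (nat_lit 497) (nat_lit 2541) (nat_lit 556) (nat_lit 1548)))) (.f (nat_lit 463) (nat_lit 431) (nat_lit 6574) (.f (nat_lit 495) (nat_lit 590) (nat_lit 6606) (.d (nat_lit 461)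 (nat_lit 429) (nat_lit 7597) (nat_lit 460) (nat_lit 460))))))) (.a (.p (nat_lit 494) (.a (.f (nat_lit 461) (nat_lit 429) (nat_lit 7597) (.f (nat_lit 495) (nat_lit 497) (nat_lit 3533) (.d (nat_lit 460) (nat_lit 459) (nat_lit 459) (nat_lit 463) (nat_lit 460)))) (.a (.f (nat_lit 429) (nat_lit 461) (nat_lit 7597) (.f (nat_lit 430) (nat_lit 397) (nat_lit 7565) (.d (nat_lit 431) (nat_lit 399) (nat_lit 6542) (nat_lit 463) (nat_lit 6574)))) (.f (nat_lit 589) (nat_lit 557) (nat_lit 5581) (.f (nat_lit 590) (nat_lit 621) (nat_lit 5613) (.d (nat_lit 591) (nat_lit 559) (nat_lit 4558) (nat_lit 623) (nat_lit 4590))))))) (.a (.p (nat_lit 494) (.a (.f (nat_lit 557) (nat_lit 589) (nat_lit 5581) (.f (nat_lit 525) (nat_lit 430) (nat_lit 5549) (.d (nat_lit 527) (nat_lit 497) (nat_lit 2541) (nat_lit 556) (nat_lit 1548)))) (.a (.f (nat_lit 429) (nat_lit 461) (nat_lit 7597) (.f (nat_lit 430) (nat_lit 397) (nat_lit 7565) (.d (nat_lit 431) (nat_lit 399) (nat_lit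 6542) (nat_lit 463) (nat_lit 6574)))) (.f (nat_lit 557) (nat_lit 589) (nat_lit 5581) (.f (nat_lit 527) (nat_lit 529) (nat_lit 1549) (.d (nat_lit 556) (nat_lit 525) (nat_lit 1548) (nat_lit 555) (nat_lit 2571))))))) (.a (.p (nat_lit 527) (.a (.f (nat_lit 525) (nat_lit 497) (nat_lit 2541) (.d (nat_lit 557) (nat_lit 529) (nat_lit 1549) (nat_lit 556) (nat_lit 1548))) (.a (.f (nat_lit 525) (nat_lit 497) (nat_lit 2541) (.f (nat_lit 495) (nat_lit 524) (nat_lit 2540) (.f (nat_lit 463) (nat_lit 431) (nat_lit 5550) (.d (nat_lit 559) (nat_lit 430) (nat_lit 7598) (nat_lit 590) (nat_lit 5582))))) (.f (nat_lit 529) (nat_lit 557) (nat_lit 1549) (.f (nat_lit 559) (nat_lit 530) (nat_lit 1550) (.f (nat_lit 464) (nat_lit 432) (nat_lit 5551) (.d (nat_lit 591) (nat_lit 495) (nat_lit 6607) (nat_lit 623) (nat_lit 6639)))))))) (.a (.p (nat_lit 494) (.a (.f (nat_lit 463) (nat_lit 431) (nat_lit 6574) (.f (nat_lit 495) (nat_lit 590) (nat_lit 6606) (.d (nat_lit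 461) (nat_lit 429) (nat_lit 7597) (nat_lit 460) (nat_lit 460)))) (.a (.f (nat_lit 429) (nat_lit 461) (nat_lit 7597) (.f (nat_lit 430) (nat_lit 397) (nat_lit 7565) (.d (nat_lit 431) (nat_lit 399) (nat_lit 6542) (nat_lit 463) (nat_lit 6574)))) (.f (nat_lit 557) (nat_lit 589) (nat_lit 5581) (.f (nat_lit 527) (nat_lit 529) (nat_lit 1549) (.d (nat_lit 525) (nat_lit 430) (nat_lit 5549) (nat_lit 556) (nat_lit 1548))))))) (.a (.p (nat_lit 494) (.a (.f (nat_lit 557) (nat_lit 589) (nat_lit 5581) (.f (nat_lit 525) (nat_lit 430) (nat_lit 5549) (.d (nat_lit 527) (nat_lit 497) (nat_lit 2541) (nat_lit 556) (nat_lit 1548)))) (.a (.f (nat_lit 589) (nat_lit 557) (nat_lit 5581) (.f (nat_lit 590) (nat_lit 621) (nat_lit 5613) (.d (nat_lit 591) (nat_lit 559) (nat_lit 4558) (nat_lit 623) (nat_lit 4590)))) (.f (nat_lit 559) (nat_lit 591) (nat_lit 4558) (.f (nat_lit 527) (nat_lit 430) (nat_lit 4526) (.f (nat_lit 525) (nat_lit 497) (nat_lit 2541) (.d (nat_lit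 524) (nat_lit 495) (nat_lit 2540) (nat_lit 523) (nat_lit 523)))))))) (.a (.p (nat_lit 494) (.a (.f (nat_lit 461) (nat_lit 429) (nat_lit 7597) (.f (nat_lit 495) (nat_lit 497) (nat_lit 3533) (.d (nat_lit 460) (nat_lit 459) (nat_lit 459) (nat_lit 463) (nat_lit 460)))) (.a (.f (nat_lit 429) (nat_lit 461) (nat_lit 7597) (.f (nat_lit 430) (nat_lit 397) (nat_lit 7565) (.d (nat_lit 431) (nat_lit 399) (nat_lit 6542) (nat_lit 463) (nat_lit 6574)))) (.f (nat_lit 559) (nat_lit 591) (nat_lit 4558) (.f (nat_lit 527) (nat_lit 430) (nat_lit 4526) (.f (nat_lit 525) (nat_lit 497) (nat_lit 2541) (.d (nat_lit 524) (nat_lit 495) (nat_lit 2540) (nat_lit 523) (nat_lit 523)))))))) (.p (nat_lit 494) (.a (.f (nat_lit 461) (nat_lit 429) (nat_lit 7597) (.f (nat_lit 495) (nat_lit 497) (nat_lit 3533) (.d (nat_lit 460) (nat_lit 459) (nat_lit 459) (nat_lit 463) (nat_lit 460)))) (.f (nat_lit 557) (nat_lit 589) (nat_lit 5581) (.f (nat_lit 527) (nat_lit 529) (nat_lit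 1549) (.d (nat_lit 556) (nat_lit 525) (nat_lit 1548) (nat_lit 555) (nat_lit 2571))))))))))))))
noncomputable def s19703 : Cert := .r (nat_lit 1098367625876631195650898737106662583122525953058291091641078650201570066575787356607100336202538116335104986274944261741552681781546826236922171771952922886144) (.p (nat_lit 558) (.a (.f (nat_lit 429) (nat_lit 461) (nat_lit 7597) (.f (nat_lit 430) (nat_lit 397) (nat_lit 7565) (.d (nat_lit 431) (nat_lit 399) (nat_lit 6542) (nat_lit 463) (nat_lit 6574)))) (.a (.f (nat_lit 559) (nat_lit 591) (nat_lit 4558) (.f (nat_lit 527) (nat_lit 430) (nat_lit 4526) (.f (nat_lit 529) (nat_lit 530) (nat_lit 1550) (.f (nat_lit 561) (nat_lit 562) (nat_lit 526) (.f (nat_lit 464) (nat_lit 432) (nat_lit 4528) (.d (nat_lit 497) (nat_lit 525) (nat_lit 2541) (nat_lit 593) (nat_lit 7632))))))) (.f (nat_lit 559) (nat_lit 591) (nat_lit 4558) (.f (nat_lit 461) (nat_lit 429) (nat_lit 7597) (.f (nat_lit 463) (nat_lit 431)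 (nat_lit 6574) (.f (nat_lit 464) (nat_lit 497) (nat_lit 461) (.d (nat_lit 432) (nat_lit 433) (nat_lit 2477) (nat_lit 527) (nat_lit 5551)))))))))
noncomputable def s19706 : Cert := .r (nat_lit 1098367625876631195650898737106662583122525953058291091641078650201570066575787356607100336202538116335104986274944261741552681781546826236922171771952922886144) (.p (nat_lit 558) (.a (.f (nat_lit 463) (nat_lit 431) (nat_lit 6574) (.f (nat_lit 495) (nat_lit 590) (nat_lit 6606) (.f (nat_lit 525) (nat_lit 497) (nat_lit 1517) (.d (nat_lit 524) (nat_lit 493) (nat_lit 1516) (nat_lit 523) (nat_lit 2539))))) (.a (.f (nat_lit 559) (nat_lit 591) (nat_lit 4558) (.f (nat_lit 527) (nat_lit 430) (nat_lit 4526) (.d (nat_lit 529) (nat_lit 493) (nat_lit 3565) (nat_lit 530) (nat_lit 1550)))) (.f (nat_lit 559) (nat_lit 591) (nat_lit 4558) (.f (nat_lit 527) (nat_lit 430) (nat_lit 4526) (.f (nat_lit 525) (nat_lit 497) (nat_lit 2541) (.d (nat_lit 524) (nat_lit 495)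 (nat_lit 2540) (nat_lit 523) (nat_lit 523))))))))
noncomputable def s19707 : Cert := .r (nat_lit 1098367625825484467402521520387706494109594716304906059671655762865893638949285266038277296282487021142512733819461657302059555672027806603392712505494664642560) (.p (nat_lit 494) (.a (.p (nat_lit 558) (.a (.f (nat_lit 429) (nat_lit 461) (nat_lit 7597) (.f (nat_lit 430) (nat_lit 397) (nat_lit 7565) (.d (nat_lit 431) (nat_lit 399) (nat_lit 6542) (nat_lit 463) (nat_lit 6574)))) (.a (.f (nat_lit 591) (nat_lit 559) (nat_lit 4558) (.f (nat_lit 590) (nat_lit 623) (nat_lit 4590) (.d (nat_lit 461) (nat_lit 429) (nat_lit 7597) (nat_lit 493) (nat_lit 7629)))) (.f (nat_lit 559) (nat_lit 591) (nat_lit 4558) (.f (nat_lit 430) (nat_lit 527) (nat_lit 4526) (.d (nat_lit 431) (nat_lit 399) (nat_lit 6542) (nat_lit 463) (nat_lit 6574))))))) (.a s19547 (.a (.p (nat_lit 527) (.a (.f (nat_lit 430) (nat_lit 559) (nat_lit 4526) (.f (nat_lit 397) (nat_lit 429)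 (nat_lit 7565) (.f (nat_lit 398) (nat_lit 365) (nat_lit 7533) (.d (nat_lit 399) (nat_lit 367) (nat_lit 6510) (nat_lit 431) (nat_lit 6542))))) (.f (nat_lit 529) (nat_lit 493) (nat_lit 3565) (.f (nat_lit 561) (nat_lit 562) (nat_lit 526) (.f (nat_lit 464) (nat_lit 432) (nat_lit 4528) (.d (nat_lit 593) (nat_lit 497) (nat_lit 7632) (nat_lit 625) (nat_lit 7664))))))) (.a s19703 (.a (.p (nat_lit 558) (.a (.f (nat_lit 461) (nat_lit 429) (nat_lit 7597) (.f (nat_lit 493) (nat_lit 590) (nat_lit 7629) (.d (nat_lit 495) (nat_lit 460) (nat_lit 3532) (nat_lit 497) (nat_lit 3533)))) (.a (.f (nat_lit 591) (nat_lit 559) (nat_lit 4558) (.f (nat_lit 590) (nat_lit 623) (nat_lit 4590) (.d (nat_lit 461) (nat_lit 429) (nat_lit 7597) (nat_lit 493) (nat_lit 7629)))) (.f (nat_lit 559) (nat_lit 591) (nat_lit 4558) (.f (nat_lit 527) (nat_lit 430) (nat_lit 4526) (.f (nat_lit 525) (nat_lit 497) (nat_lit 2541) (.d (nat_lit 524) (nat_lit 495) (nat_lit 2540) (nat_lit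 523) (nat_lit 523)))))))) (.a (.p (nat_lit 558) (.a (.f (nat_lit 461) (nat_lit 429) (nat_lit 7597) (.f (nat_lit 495) (nat_lit 497) (nat_lit 3533) (.d (nat_lit 460) (nat_lit 459) (nat_lit 459) (nat_lit 463) (nat_lit 460)))) (.a (.f (nat_lit 591) (nat_lit 559) (nat_lit 4558) (.f (nat_lit 590) (nat_lit 623) (nat_lit 4590) (.d (nat_lit 461) (nat_lit 429) (nat_lit 7597) (nat_lit 493) (nat_lit 7629)))) (.f (nat_lit 463) (nat_lit 431) (nat_lit 6574) (.f (nat_lit 495) (nat_lit 590) (nat_lit 6606) (.f (nat_lit 525) (nat_lit 497) (nat_lit 1517) (.d (nat_lit 524) (nat_lit 493) (nat_lit 1516) (nat_lit 523) (nat_lit 2539)))))))) s19706)))))))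
noncomputable def s19711 : Cert := .r (nat_lit 943490607303752963885873112649588743116936799213704823398957634733061803463930851970816947332691988167854114900203695044404303459540753830168165166250886516407013474304) (.p (nat_lit 494) (.a (.f (nat_lit 463) (nat_lit 431) (nat_lit 6574) (.f (nat_lit 495) (nat_lit 590) (nat_lit 6606) (.f (nat_lit 525) (nat_lit 497) (nat_lit 1517) (.d (nat_lit 524) (nat_lit 493) (nat_lit 1516) (nat_lit 523) (nat_lit 2539))))) (.a (.f (nat_lit 557) (nat_lit 589) (nat_lit 5581) (.f (nat_lit 527) (nat_lit 529) (nat_lit 1549) (.d (nat_lit 556) (nat_lit 525) (nat_lit 1548) (nat_lit 555) (nat_lit 2571)))) (.f (nat_lit 463) (nat_lit 431) (nat_lit 6574) (.f (nat_lit 495) (nat_lit 590) (nat_lit 6606) (.f (nat_lit 529) (nat_lit 493) (nat_lit 493) (.d (nat_lit 530) (nat_lit 497) (nat_lit 494) (nat_lit 531) (nat_lit 3567))))))))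
noncomputable def s19712 : Cert := .r (nat_lit 1098367625825484467402521520387706494109594716304906059671655762865893638949285266038277296282487021142512733819461657302059555672027806603392712505494664642560) (.p (nat_lit 558) (.a (.p (nat_lit 494) (.a (.f (nat_lit 461) (nat_lit 429) (nat_lit 7597) (.f (nat_lit 495) (nat_lit 497) (nat_lit 3533) (.d (nat_lit 460) (nat_lit 459) (nat_lit 459) (nat_lit 463) (nat_lit 460)))) (.a (.f (nat_lit 591) (nat_lit 559) (nat_lit 4558) (.f (nat_lit 590) (nat_lit 623) (nat_lit 4590) (.d (nat_lit 461) (nat_lit 429) (nat_lit 7597) (nat_lit 493) (nat_lit 7629)))) (.f (nat_lit 463) (nat_lit 431) (nat_lit 6574) (.f (nat_lit 495) (nat_lit 590) (nat_lit 6606) (.f (nat_lit 525) (nat_lit 497) (nat_lit 1517) (.d (nat_lit 524) (nat_lit 493) (nat_lit 1516) (nat_lit 523) (nat_lit 2539)))))))) (.a (.p (nat_lit 494) (.a (.f (nat_lit 591) (nat_lit 559) (nat_lit 4558) (.f (nat_lit 590) (nat_lit 623) (nat_lit 4590)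 (.d (nat_lit 461) (nat_lit 429) (nat_lit 7597) (nat_lit 493) (nat_lit 7629)))) (.f (nat_lit 557) (nat_lit 589) (nat_lit 5581) (.f (nat_lit 527) (nat_lit 529) (nat_lit 1549) (.d (nat_lit 556) (nat_lit 525) (nat_lit 1548) (nat_lit 555) (nat_lit 2571)))))) (.a (.p (nat_lit 494) (.a (.f (nat_lit 461) (nat_lit 429) (nat_lit 7597) (.f (nat_lit 495) (nat_lit 497) (nat_lit 3533) (.d (nat_lit 460) (nat_lit 459) (nat_lit 459) (nat_lit 463) (nat_lit 460)))) (.f (nat_lit 557) (nat_lit 589) (nat_lit 5581) (.f (nat_lit 527) (nat_lit 529) (nat_lit 1549) (.d (nat_lit 556) (nat_lit 525) (nat_lit 1548) (nat_lit 555) (nat_lit 2571)))))) (.a (.p (nat_lit 494) (.a (.f (nat_lit 461) (nat_lit 429) (nat_lit 7597) (.f (nat_lit 495) (nat_lit 497) (nat_lit 3533) (.d (nat_lit 460) (nat_lit 459) (nat_lit 459) (nat_lit 463) (nat_lit 460)))) (.a (.f (nat_lit 591) (nat_lit 559) (nat_lit 4558) (.f (nat_lit 590) (nat_lit 623) (nat_lit 4590) (.d (nat_lit 461) (nat_lit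 429) (nat_lit 7597) (nat_lit 493) (nat_lit 7629)))) (.f (nat_lit 463) (nat_lit 431) (nat_lit 6574) (.f (nat_lit 495) (nat_lit 590) (nat_lit 6606) (.f (nat_lit 529) (nat_lit 493) (nat_lit 493) (.d (nat_lit 530) (nat_lit 497) (nat_lit 494) (nat_lit 531) (nat_lit 3567)))))))) (.a (.p (nat_lit 527) (.a (.f (nat_lit 525) (nat_lit 497) (nat_lit 2541) (.d (nat_lit 557) (nat_lit 529) (nat_lit 1549) (nat_lit 556) (nat_lit 1548))) (.a (.f (nat_lit 525) (nat_lit 497) (nat_lit 2541) (.f (nat_lit 495) (nat_lit 524) (nat_lit 2540) (.f (nat_lit 463) (nat_lit 431) (nat_lit 5550) (.f (nat_lit 461) (nat_lit 460) (nat_lit 460) (.d (nat_lit 493) (nat_lit 429) (nat_lit 4525) (nat_lit 492) (nat_lit 3564)))))) (.f (nat_lit 529) (nat_lit 557) (nat_lit 1549) (.f (nat_lit 559) (nat_lit 530) (nat_lit 1550) (.f (nat_lit 464) (nat_lit 432) (nat_lit 5551) (.d (nat_lit 591) (nat_lit 495) (nat_lit 6607) (nat_lit 623) (nat_lit 6639)))))))) s19711))))))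
noncomputable def s19718 : Cert := .r (nat_lit 1098367625825484467402521520387706494109594716304906059671655762865893638949285266038277296282487021142512733819461657302059555672027806603392712505494664642560) (.p (nat_lit 558) (.a (.p (nat_lit 527) (.a (.f (nat_lit 525) (nat_lit 497) (nat_lit 2541) (.d (nat_lit 557) (nat_lit 529) (nat_lit 1549) (nat_lit 556) (nat_lit 1548))) (.a (.f (nat_lit 525) (nat_lit 497) (nat_lit 2541) (.f (nat_lit 495) (nat_lit 524) (nat_lit 2540) (.f (nat_lit 463) (nat_lit 431) (nat_lit 5550) (.d (nat_lit 559) (nat_lit 430) (nat_lit 7598) (nat_lit 590) (nat_lit 5582))))) (.f (nat_lit 529) (nat_lit 557) (nat_lit 1549) (.f (nat_lit 559) (nat_lit 530) (nat_lit 1550) (.f (nat_lit 464) (nat_lit 432) (nat_lit 5551) (.d (nat_lit 591) (nat_lit 495) (nat_lit 6607) (nat_lit 623) (nat_lit 6639)))))))) (.a (.p (nat_lit 494) (.a (.f (nat_lit 557) (nat_lit 589) (nat_lit 5581) (.f (nat_lit 525) (nat_lit 430) (nat_lit 5549)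 (.d (nat_lit 527) (nat_lit 497) (nat_lit 2541) (nat_lit 556) (nat_lit 1548)))) (.a (.f (nat_lit 589) (nat_lit 557) (nat_lit 5581) (.f (nat_lit 590) (nat_lit 621) (nat_lit 5613) (.d (nat_lit 591) (nat_lit 559) (nat_lit 4558) (nat_lit 623) (nat_lit 4590)))) (.f (nat_lit 559) (nat_lit 591) (nat_lit 4558) (.f (nat_lit 527) (nat_lit 430) (nat_lit 4526) (.f (nat_lit 525) (nat_lit 497) (nat_lit 2541) (.d (nat_lit 524) (nat_lit 495) (nat_lit 2540) (nat_lit 523) (nat_lit 523)))))))) (.a (.p (nat_lit 494) (.a (.f (nat_lit 463) (nat_lit 431) (nat_lit 6574) (.f (nat_lit 495) (nat_lit 590) (nat_lit 6606) (.f (nat_lit 525) (nat_lit 497) (nat_lit 1517) (.d (nat_lit 524) (nat_lit 493) (nat_lit 1516) (nat_lit 523) (nat_lit 2539))))) (.a (.f (nat_lit 557) (nat_lit 589) (nat_lit 5581) (.f (nat_lit 430) (nat_lit 525) (nat_lit 5549) (.d (nat_lit 431) (nat_lit 399) (nat_lit 6542) (nat_lit 463) (nat_lit 6574)))) (.a (.f (nat_lit 463) (nat_lit 431) (nat_lit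 6574) (.f (nat_lit 495) (nat_lit 590) (nat_lit 6606) (.f (nat_lit 529) (nat_lit 493) (nat_lit 493) (.d (nat_lit 530) (nat_lit 497) (nat_lit 494) (nat_lit 531) (nat_lit 3567))))) (.f (nat_lit 589) (nat_lit 557) (nat_lit 5581) (.f (nat_lit 590) (nat_lit 621) (nat_lit 5613) (.d (nat_lit 591) (nat_lit 559) (nat_lit 4558) (nat_lit 623) (nat_lit 4590)))))))) (.a (.p (nat_lit 494) (.a (.f (nat_lit 557) (nat_lit 589) (nat_lit 5581) (.f (nat_lit 525) (nat_lit 430) (nat_lit 5549) (.d (nat_lit 527) (nat_lit 497) (nat_lit 2541) (nat_lit 556) (nat_lit 1548)))) (.a (.f (nat_lit 557) (nat_lit 589) (nat_lit 5581) (.f (nat_lit 430) (nat_lit 525) (nat_lit 5549) (.d (nat_lit 431) (nat_lit 399) (nat_lit 6542) (nat_lit 463) (nat_lit 6574)))) (.a (.f (nat_lit 559) (nat_lit 591) (nat_lit 4558) (.f (nat_lit 527) (nat_lit 430) (nat_lit 4526) (.d (nat_lit 557) (nat_lit 556) (nat_lit 2572) (nat_lit 589) (nat_lit 5581)))) (.a (.f (nat_lit 559) (nat_lit 591)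 (nat_lit 4558) (.f (nat_lit 527) (nat_lit 430) (nat_lit 4526) (.d (nat_lit 529) (nat_lit 493) (nat_lit 3565) (nat_lit 530) (nat_lit 1550)))) (.f (nat_lit 557) (nat_lit 589) (nat_lit 5581) (.f (nat_lit 527) (nat_lit 529) (nat_lit 1549) (.d (nat_lit 556) (nat_lit 525) (nat_lit 1548) (nat_lit 555) (nat_lit 2571))))))))) (.a s19582 (.a (.p (nat_lit 494) (.a (.f (nat_lit 559) (nat_lit 591) (nat_lit 4558) (.f (nat_lit 527) (nat_lit 430) (nat_lit 4526) (.d (nat_lit 557) (nat_lit 556) (nat_lit 2572) (nat_lit 589) (nat_lit 5581)))) (.f (nat_lit 463) (nat_lit 431) (nat_lit 6574) (.f (nat_lit 495) (nat_lit 590) (nat_lit 6606) (.f (nat_lit 529) (nat_lit 493) (nat_lit 493) (.d (nat_lit 530) (nat_lit 497) (nat_lit 494) (nat_lit 531) (nat_lit 3567))))))) (.a (.p (nat_lit 494) (.a (.f (nat_lit 559) (nat_lit 591) (nat_lit 4558) (.f (nat_lit 527) (nat_lit 430) (nat_lit 4526) (.d (nat_lit 557) (nat_lit 556) (nat_lit 2572) (nat_lit 589) (nat_lit 5581))))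 (.a (.f (nat_lit 557) (nat_lit 589) (nat_lit 5581) (.f (nat_lit 430) (nat_lit 525) (nat_lit 5549) (.d (nat_lit 431) (nat_lit 399) (nat_lit 6542) (nat_lit 463) (nat_lit 6574)))) (.a (.f (nat_lit 559) (nat_lit 591) (nat_lit 4558) (.f (nat_lit 527) (nat_lit 430) (nat_lit 4526) (.d (nat_lit 529) (nat_lit 493) (nat_lit 3565) (nat_lit 530) (nat_lit 1550)))) (.f (nat_lit 557) (nat_lit 589) (nat_lit 5581) (.f (nat_lit 527) (nat_lit 529) (nat_lit 1549) (.d (nat_lit 556) (nat_lit 525) (nat_lit 1548) (nat_lit 555) (nat_lit 2571)))))))) (.a (.p (nat_lit 494) (.a (.f (nat_lit 463) (nat_lit 431) (nat_lit 6574) (.f (nat_lit 495) (nat_lit 590) (nat_lit 6606) (.f (nat_lit 525) (nat_lit 497) (nat_lit 1517) (.d (nat_lit 524) (nat_lit 493) (nat_lit 1516) (nat_lit 523) (nat_lit 2539))))) (.a (.f (nat_lit 559) (nat_lit 591) (nat_lit 4558) (.f (nat_lit 527) (nat_lit 430) (nat_lit 4526) (.d (nat_lit 529) (nat_lit 493) (nat_lit 3565) (nat_lit 530) (nat_lit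 1550)))) (.f (nat_lit 559) (nat_lit 591) (nat_lit 4558) (.f (nat_lit 527) (nat_lit 430) (nat_lit 4526) (.f (nat_lit 525) (nat_lit 497) (nat_lit 2541) (.d (nat_lit 524) (nat_lit 495) (nat_lit 2540) (nat_lit 523) (nat_lit 523)))))))) s19711)))))))))
noncomputable def s19720 : Cert := .r (nat_lit 878694100752451684771477911536058000169904023453705318540455819507632684707062362939178427701371570575831504310416874284364778165555893634919802866637241057280) (.p (nat_lit 526) (.a (.p (nat_lit 558) (.a (.f (nat_lit 429) (nat_lit 461) (nat_lit 7597) (.f (nat_lit 430) (nat_lit 397) (nat_lit 7565) (.d (nat_lit 431) (nat_lit 399) (nat_lit 6542) (nat_lit 463) (nat_lit 6574)))) (.a (.f (nat_lit 591) (nat_lit 559) (nat_lit 4558) (.f (nat_lit 590) (nat_lit 623) (nat_lit 4590) (.d (nat_lit 461) (nat_lit 429) (nat_lit 7597) (nat_lit 493) (nat_lit 7629)))) (.f (nat_lit 557) (nat_lit 589) (nat_lit 5581) (.f (nat_lit 430) (nat_lit 525) (nat_lit 5549)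 (.d (nat_lit 431) (nat_lit 399) (nat_lit 6542) (nat_lit 463) (nat_lit 6574))))))) (.a (.p (nat_lit 525) (.a (.f (nat_lit 495) (nat_lit 497) (nat_lit 1517) (.d (nat_lit 524) (nat_lit 493) (nat_lit 1516) (nat_lit 523) (nat_lit 2539))) (.a (.f (nat_lit 430) (nat_lit 557) (nat_lit 5549) (.f (nat_lit 398) (nat_lit 493) (nat_lit 5517) (.d (nat_lit 397) (nat_lit 365) (nat_lit 7533) (nat_lit 429) (nat_lit 7565)))) (.f (nat_lit 430) (nat_lit 557) (nat_lit 5549) (.f (nat_lit 399) (nat_lit 431) (nat_lit 6542) (.f (nat_lit 398) (nat_lit 367) (nat_lit 6510) (.d (nat_lit 397) (nat_lit 365) (nat_lit 7533) (nat_lit 429) (nat_lit 7565)))))))) (.a s19545 (.a (.p (nat_lit 558) (.a (.f (nat_lit 429) (nat_lit 461) (nat_lit 7597) (.f (nat_lit 430) (nat_lit 397) (nat_lit 7565) (.d (nat_lit 431) (nat_lit 399) (nat_lit 6542) (nat_lit 463) (nat_lit 6574)))) (.f (nat_lit 589) (nat_lit 557) (nat_lit 5581) (.f (nat_lit 590) (nat_lit 621) (nat_lit 5613) (.d (nat_lit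 591) (nat_lit 559) (nat_lit 4558) (nat_lit 623) (nat_lit 4590)))))) (.a s19547 s19554))))))
noncomputable def s19721 : Cert := .r (nat_lit 878694100752451684771477911536058000169904023453705318540455819507632684707062362939178427701371570575831504310416874284364778165555893634919802866637241057280) (.p (nat_lit 526) (.a (.p (nat_lit 558) (.a (.f (nat_lit 557) (nat_lit 589) (nat_lit 5581) (.f (nat_lit 525) (nat_lit 430) (nat_lit 5549) (.d (nat_lit 527) (nat_lit 497) (nat_lit 2541) (nat_lit 556) (nat_lit 1548)))) (.a (.f (nat_lit 429) (nat_lit 461) (nat_lit 7597) (.f (nat_lit 430) (nat_lit 397) (nat_lit 7565) (.d (nat_lit 431) (nat_lit 399) (nat_lit 6542) (nat_lit 463) (nat_lit 6574)))) (.f (nat_lit 591) (nat_lit 559) (nat_lit 4558) (.f (nat_lit 590) (nat_lit 623) (nat_lit 4590) (.d (nat_lit 461) (nat_lit 429) (nat_lit 7597) (nat_lit 493) (nat_lit 7629))))))) (.a (.p (nat_lit 558) (.a (.f (nat_lit 429) (nat_lit 461) (nat_lit 7597)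 (.f (nat_lit 430) (nat_lit 397) (nat_lit 7565) (.d (nat_lit 431) (nat_lit 399) (nat_lit 6542) (nat_lit 463) (nat_lit 6574)))) (.a (.f (nat_lit 591) (nat_lit 559) (nat_lit 4558) (.f (nat_lit 590) (nat_lit 623) (nat_lit 4590) (.d (nat_lit 461) (nat_lit 429) (nat_lit 7597) (nat_lit 493) (nat_lit 7629)))) (.f (nat_lit 557) (nat_lit 589) (nat_lit 5581) (.f (nat_lit 430) (nat_lit 525) (nat_lit 5549) (.d (nat_lit 431) (nat_lit 399) (nat_lit 6542) (nat_lit 463) (nat_lit 6574))))))) (.a (.p (nat_lit 558) (.a (.f (nat_lit 557) (nat_lit 589) (nat_lit 5581) (.f (nat_lit 525) (nat_lit 430) (nat_lit 5549) (.d (nat_lit 527) (nat_lit 497) (nat_lit 2541) (nat_lit 556) (nat_lit 1548)))) (.a (.f (nat_lit 429) (nat_lit 461) (nat_lit 7597) (.f (nat_lit 430) (nat_lit 397) (nat_lit 7565) (.d (nat_lit 431) (nat_lit 399) (nat_lit 6542) (nat_lit 463) (nat_lit 6574)))) (.f (nat_lit 461) (nat_lit 429) (nat_lit 7597) (.f (nat_lit 463) (nat_lit 431) (nat_lit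 6574) (.f (nat_lit 493) (nat_lit 590) (nat_lit 7629) (.d (nat_lit 464) (nat_lit 465) (nat_lit 1485) (nat_lit 492) (nat_lit 1484)))))))) (.a (.p (nat_lit 558) (.a (.f (nat_lit 429) (nat_lit 461) (nat_lit 7597) (.f (nat_lit 430) (nat_lit 397) (nat_lit 7565) (.d (nat_lit 431) (nat_lit 399) (nat_lit 6542) (nat_lit 463) (nat_lit 6574)))) (.a (.f (nat_lit 591) (nat_lit 559) (nat_lit 4558) (.f (nat_lit 590) (nat_lit 623) (nat_lit 4590) (.d (nat_lit 461) (nat_lit 429) (nat_lit 7597) (nat_lit 493) (nat_lit 7629)))) (.f (nat_lit 559) (nat_lit 591) (nat_lit 4558) (.f (nat_lit 527) (nat_lit 430) (nat_lit 4526) (.d (nat_lit 557) (nat_lit 556) (nat_lit 2572) (nat_lit 589) (nat_lit 5581))))))) (.a s19513 (.a (.p (nat_lit 558) (.a (.f (nat_lit 557) (nat_lit 589) (nat_lit 5581) (.f (nat_lit 525) (nat_lit 430) (nat_lit 5549) (.d (nat_lit 527) (nat_lit 497) (nat_lit 2541) (nat_lit 556) (nat_lit 1548)))) (.a (.f (nat_lit 429) (nat_lit 461) (nat_lit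 7597) (.f (nat_lit 430) (nat_lit 397) (nat_lit 7565) (.d (nat_lit 431) (nat_lit 399) (nat_lit 6542) (nat_lit 463) (nat_lit 6574)))) (.f (nat_lit 589) (nat_lit 557) (nat_lit 5581) (.f (nat_lit 590) (nat_lit 621) (nat_lit 5613) (.d (nat_lit 591) (nat_lit 559) (nat_lit 4558) (nat_lit 623) (nat_lit 4590))))))) (.a (.p (nat_lit 558) (.a (.f (nat_lit 429) (nat_lit 461) (nat_lit 7597) (.f (nat_lit 430) (nat_lit 397) (nat_lit 7565) (.d (nat_lit 431) (nat_lit 399) (nat_lit 6542) (nat_lit 463) (nat_lit 6574)))) (.a (.f (nat_lit 591) (nat_lit 559) (nat_lit 4558) (.f (nat_lit 590) (nat_lit 623) (nat_lit 4590) (.d (nat_lit 461) (nat_lit 429) (nat_lit 7597) (nat_lit 493) (nat_lit 7629)))) (.f (nat_lit 559) (nat_lit 591) (nat_lit 4558) (.f (nat_lit 430) (nat_lit 527) (nat_lit 4526) (.d (nat_lit 431) (nat_lit 399) (nat_lit 6542) (nat_lit 463) (nat_lit 6574))))))) (.a (.p (nat_lit 558) (.a (.f (nat_lit 557) (nat_lit 589) (nat_lit 5581) (.f (nat_lit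 525) (nat_lit 430) (nat_lit 5549) (.d (nat_lit 527) (nat_lit 497) (nat_lit 2541) (nat_lit 556) (nat_lit 1548)))) (.f (nat_lit 591) (nat_lit 559) (nat_lit 4558) (.f (nat_lit 590) (nat_lit 623) (nat_lit 4590) (.d (nat_lit 461) (nat_lit 429) (nat_lit 7597) (nat_lit 493) (nat_lit 7629)))))) (.a s19529 s19530))))))))))
noncomputable def s19725 : Cert := .r (nat_lit 1098367625876631195650898737106662583122525953058291091641078650201570066575787356607100336202538116335104986274944261741552681781546826236922171771952922886144) (.p (nat_lit 558) (.a (.f (nat_lit 461) (nat_lit 429) (nat_lit 7597) (.f (nat_lit 495) (nat_lit 497) (nat_lit 3533) (.d (nat_lit 460) (nat_lit 459) (nat_lit 459) (nat_lit 463) (nat_lit 460)))) (.a (.f (nat_lit 429) (nat_lit 461) (nat_lit 7597) (.f (nat_lit 430) (nat_lit 397) (nat_lit 7565) (.d (nat_lit 431) (nat_lit 399) (nat_lit 6542) (nat_lit 463) (nat_lit 6574)))) (.a (.f (nat_lit 461) (nat_lit 429) (nat_lit 7597)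 (.f (nat_lit 493) (nat_lit 590) (nat_lit 7629) (.d (nat_lit 495) (nat_lit 460) (nat_lit 3532) (nat_lit 497) (nat_lit 3533)))) (.f (nat_lit 463) (nat_lit 431) (nat_lit 6574) (.f (nat_lit 590) (nat_lit 495) (nat_lit 6606) (.d (nat_lit 589) (nat_lit 557) (nat_lit 5581) (nat_lit 621) (nat_lit 5613))))))))
noncomputable def s19726 : Cert := .r (nat_lit 1098367625876631195650898737106662583122525953058291091641078650201570066575787356607100336202538116335104986274944261741552681781546826236922171771952922886144) (.p (nat_lit 558) (.a (.f (nat_lit 461) (nat_lit 429) (nat_lit 7597) (.f (nat_lit 495) (nat_lit 497) (nat_lit 3533) (.d (nat_lit 460) (nat_lit 459) (nat_lit 459) (nat_lit 463) (nat_lit 460)))) (.a (.f (nat_lit 429) (nat_lit 461) (nat_lit 7597) (.f (nat_lit 430) (nat_lit 397) (nat_lit 7565) (.d (nat_lit 431) (nat_lit 399) (nat_lit 6542) (nat_lit 463) (nat_lit 6574)))) (.a (.f (nat_lit 429) (nat_lit 461) (nat_lit 7597) (.f (nat_lit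 430) (nat_lit 397) (nat_lit 7565) (.d (nat_lit 557) (nat_lit 525) (nat_lit 5549) (nat_lit 589) (nat_lit 5581)))) (.f (nat_lit 557) (nat_lit 589) (nat_lit 5581) (.f (nat_lit 430) (nat_lit 525) (nat_lit 5549) (.d (nat_lit 431) (nat_lit 399) (nat_lit 6542) (nat_lit 463) (nat_lit 6574))))))))
noncomputable def s19727 : Cert := .r (nat_lit 1098367625876631195650898737106662583122525953058291091641078650201570066575787356607100336202538116335104986274944261741552681781546826236922171771952922886144) (.p (nat_lit 558) (.a (.f (nat_lit 461) (nat_lit 429) (nat_lit 7597) (.f (nat_lit 495) (nat_lit 497) (nat_lit 3533) (.d (nat_lit 460) (nat_lit 459) (nat_lit 459) (nat_lit 463) (nat_lit 460)))) (.a (.f (nat_lit 557) (nat_lit 589) (nat_lit 5581) (.f (nat_lit 525) (nat_lit 430) (nat_lit 5549) (.d (nat_lit 527) (nat_lit 497) (nat_lit 2541) (nat_lit 556) (nat_lit 1548)))) (.f (nat_lit 461) (nat_lit 429) (nat_lit 7597) (.f (nat_lit 493) (nat_lit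 590) (nat_lit 7629) (.f (nat_lit 495) (nat_lit 460) (nat_lit 3532) (.f (nat_lit 525) (nat_lit 524) (nat_lit 1516) (.d (nat_lit 430) (nat_lit 398) (nat_lit 5517) (nat_lit 557) (nat_lit 5549)))))))))
noncomputable def s19728 : Cert := .r (nat_lit 1098367625876631195650898737106662583122525953058291091641078650201570066575787356607100336202538116335104986274944261741552681781546826236922171771952922886144) (.p (nat_lit 558) (.a (.f (nat_lit 461) (nat_lit 429) (nat_lit 7597) (.f (nat_lit 495) (nat_lit 497) (nat_lit 3533) (.d (nat_lit 460) (nat_lit 459) (nat_lit 459) (nat_lit 463) (nat_lit 460)))) (.a (.f (nat_lit 461) (nat_lit 429) (nat_lit 7597) (.f (nat_lit 463) (nat_lit 431) (nat_lit 6574) (.f (nat_lit 493) (nat_lit 590) (nat_lit 7629) (.d (nat_lit 464) (nat_lit 465) (nat_lit 1485) (nat_lit 492) (nat_lit 1484))))) (.a (.f (nat_lit 461) (nat_lit 429) (nat_lit 7597) (.f (nat_lit 493) (nat_lit 590) (nat_lit 7629) (.d (nat_lit 495) (nat_lit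 460) (nat_lit 3532) (nat_lit 497) (nat_lit 3533)))) (.f (nat_lit 463) (nat_lit 431) (nat_lit 6574) (.f (nat_lit 495) (nat_lit 590) (nat_lit 6606) (.f (nat_lit 525) (nat_lit 497) (nat_lit 1517) (.d (nat_lit 524) (nat_lit 493) (nat_lit 1516) (nat_lit 523) (nat_lit 2539)))))))))
noncomputable def s19759 : Cert := .r (nat_lit 878694100752451684819112014171494893348944508527453583703856059721636761105670104632680804087171216878936761009994083316954910781544153871971926518970131152896) (.p (nat_lit 432) (.a (.f (nat_lit 431) (nat_lit 399) (nat_lit 7567) (.f (nat_lit 433) (nat_lit 401) (nat_lit 6544) (.d (nat_lit 461) (nat_lit 430) (nat_lit 1453) (nat_lit 463) (nat_lit 2477)))) (.a (.f (nat_lit 399) (nat_lit 431) (nat_lit 7567) (.f (nat_lit 400) (nat_lit 367) (nat_lit 7535) (.d (nat_lit 401) (nat_lit 369) (nat_lit 6512) (nat_lit 433) (nat_lit 6544)))) (.a (.f (nat_lit 433) (nat_lit 401) (nat_lit 6544) (.f (nat_lit 463) (nat_lit 461) (nat_lit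 2477) (.d (nat_lit 434) (nat_lit 435) (nat_lit 1455) (nat_lit 465) (nat_lit 2478)))) (.f (nat_lit 527) (nat_lit 559) (nat_lit 5551) (.f (nat_lit 495) (nat_lit 400) (nat_lit 5519) (.d (nat_lit 493) (nat_lit 465) (nat_lit 2509) (nat_lit 492) (nat_lit 492))))))))
noncomputable def s19763 : Cert := .r (nat_lit 878694100752451684819112014171494893348944508527453583703856059721636761105670104632680804087171216878936761009994083316954910781544153871971926518970131152896) (.p (nat_lit 432) (.a (.f (nat_lit 431) (nat_lit 399) (nat_lit 7567) (.f (nat_lit 433) (nat_lit 401) (nat_lit 6544) (.d (nat_lit 461) (nat_lit 430) (nat_lit 1453) (nat_lit 463) (nat_lit 2477)))) (.a (.f (nat_lit 399) (nat_lit 431) (nat_lit 7567) (.f (nat_lit 400) (nat_lit 367) (nat_lit 7535) (.d (nat_lit 401) (nat_lit 369) (nat_lit 6512) (nat_lit 433) (nat_lit 6544)))) (.a (.f (nat_lit 433) (nat_lit 401) (nat_lit 6544) (.f (nat_lit 463) (nat_lit 461) (nat_lit 2477) (.d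 (nat_lit 434) (nat_lit 435) (nat_lit 1455) (nat_lit 465) (nat_lit 2478)))) (.f (nat_lit 399) (nat_lit 431) (nat_lit 7567) (.f (nat_lit 400) (nat_lit 367) (nat_lit 7535) (.d (nat_lit 527) (nat_lit 495) (nat_lit 5519) (nat_lit 559) (nat_lit 5551))))))))
noncomputable def s19774 : Cert := .r (nat_lit 878694100752451684819112014171494893348944508527453583703856059721636761105670104632680804087171216878936761009994083316954910781544153871971926518970131152896) (.p (nat_lit 432) (.a (.f (nat_lit 399) (nat_lit 431) (nat_lit 7567) (.f (nat_lit 400) (nat_lit 367) (nat_lit 7535) (.d (nat_lit 401) (nat_lit 369) (nat_lit 6512) (nat_lit 433) (nat_lit 6544)))) (.a (.f (nat_lit 527) (nat_lit 559) (nat_lit 5551) (.f (nat_lit 495) (nat_lit 400) (nat_lit 5519) (.d (nat_lit 493) (nat_lit 465) (nat_lit 2509) (nat_lit 492) (nat_lit 492)))) (.f (nat_lit 431) (nat_lit 399) (nat_lit 7567) (.f (nat_lit 433) (nat_lit 401) (nat_lit 6544) (.f (nat_lit 463)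 (nat_lit 434) (nat_lit 1454) (.f (nat_lit 465) (nat_lit 493) (nat_lit 1485) (.d (nat_lit 430) (nat_lit 429) (nat_lit 3501) (nat_lit 466) (nat_lit 3502)))))))))
noncomputable def s19815 : Cert := .r (nat_lit 1098367625876631195650898737106662583122525953058291091641078650201570066575787356607100336202538116335104986274944261741552681781546826236922171771952922886144) (.p (nat_lit 431) (.a (.f (nat_lit 430) (nat_lit 399) (nat_lit 6542) (.f (nat_lit 429) (nat_lit 397) (nat_lit 7565) (.f (nat_lit 463) (nat_lit 558) (nat_lit 6574) (.d (nat_lit 428) (nat_lit 427) (nat_lit 427) (nat_lit 464) (nat_lit 428))))) (.a (.f (nat_lit 430) (nat_lit 399) (nat_lit 6542) (.f (nat_lit 558) (nat_lit 463) (nat_lit 6574) (.d (nat_lit 557) (nat_lit 525) (nat_lit 5549) (nat_lit 589) (nat_lit 5581)))) (.a (.f (nat_lit 430) (nat_lit 399) (nat_lit 6542) (.f (nat_lit 397) (nat_lit 429) (nat_lit 7565) (.f (nat_lit 398) (nat_lit 365) (nat_lit 7533) (.d (nat_lit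 525) (nat_lit 493) (nat_lit 5517) (nat_lit 557) (nat_lit 5549))))) (.a (.f (nat_lit 558) (nat_lit 463) (nat_lit 6574) (.f (nat_lit 557) (nat_lit 589) (nat_lit 5581) (.f (nat_lit 591) (nat_lit 559) (nat_lit 4558) (.f (nat_lit 590) (nat_lit 623) (nat_lit 4590) (.f (nat_lit 525) (nat_lit 430) (nat_lit 5549) (.d (nat_lit 622) (nat_lit 493) (nat_lit 7661) (nat_lit 654) (nat_lit 7693))))))) (.f (nat_lit 558) (nat_lit 463) (nat_lit 6574) (.f (nat_lit 589) (nat_lit 557) (nat_lit 5581) (.f (nat_lit 590) (nat_lit 621) (nat_lit 5613) (.d (nat_lit 591) (nat_lit 559) (nat_lit 4558) (nat_lit 623) (nat_lit 4590))))))))))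
noncomputable def s19816 : Cert := .r (nat_lit 878694100752451684771477911536058000169904023453705318540455819507632684707062362939178427701371570575831504310416874284364778165555893634919802866637241057280) (.p (nat_lit 526) (.a (.p (nat_lit 558) (.a (.f (nat_lit 429) (nat_lit 461) (nat_lit 7597) (.f (nat_lit 430) (nat_lit 397) (nat_lit 7565) (.d (nat_lit 431) (nat_lit 399) (nat_lit 6542) (nat_lit 463) (nat_lit 6574)))) (.a (.f (nat_lit 591) (nat_lit 559) (nat_lit 4558) (.f (nat_lit 590) (nat_lit 623) (nat_lit 4590) (.d (nat_lit 461) (nat_lit 429) (nat_lit 7597) (nat_lit 493) (nat_lit 7629)))) (.f (nat_lit 557) (nat_lit 589) (nat_lit 5581) (.f (nat_lit 430) (nat_lit 525) (nat_lit 5549) (.d (nat_lit 431) (nat_lit 399) (nat_lit 6542) (nat_lit 463) (nat_lit 6574))))))) (.a s19680 (.a (.p (nat_lit 558) (.a (.f (nat_lit 429) (nat_lit 461) (nat_lit 7597) (.f (nat_lit 430) (nat_lit 397) (nat_lit 7565) (.d (nat_lit 431) (nat_lit 399) (nat_lit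 6542) (nat_lit 463) (nat_lit 6574)))) (.a (.f (nat_lit 591) (nat_lit 559) (nat_lit 4558) (.f (nat_lit 590) (nat_lit 623) (nat_lit 4590) (.d (nat_lit 461) (nat_lit 429) (nat_lit 7597) (nat_lit 493) (nat_lit 7629)))) (.f (nat_lit 559) (nat_lit 591) (nat_lit 4558) (.f (nat_lit 527) (nat_lit 430) (nat_lit 4526) (.d (nat_lit 557) (nat_lit 556) (nat_lit 2572) (nat_lit 589) (nat_lit 5581))))))) (.a (.p (nat_lit 430) (.a (.f (nat_lit 399) (nat_lit 431) (nat_lit 6542) (.f (nat_lit 398) (nat_lit 367) (nat_lit 6510) (.d (nat_lit 397) (nat_lit 365) (nat_lit 7533) (nat_lit 429) (nat_lit 7565)))) (.a (.f (nat_lit 525) (nat_lit 557) (nat_lit 5549) (.f (nat_lit 398) (nat_lit 493) (nat_lit 5517) (.d (nat_lit 397) (nat_lit 365) (nat_lit 7533) (nat_lit 429) (nat_lit 7565)))) (.a (.f (nat_lit 527) (nat_lit 559) (nat_lit 4526) (.f (nat_lit 525) (nat_lit 557) (nat_lit 5549) (.f (nat_lit 493) (nat_lit 492) (nat_lit 3564) (.f (nat_lit 495) (nat_lit 524)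 (nat_lit 1516) (.f (nat_lit 461) (nat_lit 460) (nat_lit 3532) (.f (nat_lit 429) (nat_lit 397) (nat_lit 4493) (.f (nat_lit 464) (nat_lit 465) (nat_lit 2509) (.d (nat_lit 428) (nat_lit 396) (nat_lit 7564) (nat_lit 463) (nat_lit 3500))))))))) (.f (nat_lit 399) (nat_lit 431) (nat_lit 6542) (.f (nat_lit 398) (nat_lit 367) (nat_lit 6510) (.d (nat_lit 525) (nat_lit 493) (nat_lit 5517) (nat_lit 557) (nat_lit 5549)))))))) (.a (.p (nat_lit 558) (.a (.f (nat_lit 429) (nat_lit 461) (nat_lit 7597) (.f (nat_lit 430) (nat_lit 397) (nat_lit 7565) (.d (nat_lit 431) (nat_lit 399) (nat_lit 6542) (nat_lit 463) (nat_lit 6574)))) (.f (nat_lit 589) (nat_lit 557) (nat_lit 5581) (.f (nat_lit 590) (nat_lit 621) (nat_lit 5613) (.d (nat_lit 591) (nat_lit 559) (nat_lit 4558) (nat_lit 623) (nat_lit 4590)))))) (.a s19686 (.a (.p (nat_lit 558) (.a (.f (nat_lit 429) (nat_lit 461) (nat_lit 7597) (.f (nat_lit 430) (nat_lit 397) (nat_lit 7565) (.d (nat_lit 431) (nat_lit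 399) (nat_lit 6542) (nat_lit 463) (nat_lit 6574)))) (.a (.f (nat_lit 591) (nat_lit 559) (nat_lit 4558) (.f (nat_lit 590) (nat_lit 623) (nat_lit 4590) (.d (nat_lit 461) (nat_lit 429) (nat_lit 7597) (nat_lit 493) (nat_lit 7629)))) (.f (nat_lit 559) (nat_lit 591) (nat_lit 4558) (.f (nat_lit 430) (nat_lit 527) (nat_lit 4526) (.d (nat_lit 431) (nat_lit 399) (nat_lit 6542) (nat_lit 463) (nat_lit 6574))))))) (.a s19815 (.a s19529 s19554))))))))))
noncomputable def s19820 : Cert := .r (nat_lit 1098367625876631195650898737106662583122525953058291091641078650201570066575787356607100336202538116335104986274944261741552681781546826236922171771952922886144) (.p (nat_lit 558) (.a (.f (nat_lit 463) (nat_lit 431) (nat_lit 6574) (.f (nat_lit 495) (nat_lit 590) (nat_lit 6606) (.d (nat_lit 461) (nat_lit 429) (nat_lit 7597) (nat_lit 460) (nat_lit 460)))) (.a (.f (nat_lit 429) (nat_lit 461) (nat_lit 7597) (.f (nat_lit 430) (nat_lit 397) (nat_lit 7565)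 (.d (nat_lit 431) (nat_lit 399) (nat_lit 6542) (nat_lit 463) (nat_lit 6574)))) (.a (.f (nat_lit 559) (nat_lit 591) (nat_lit 4558) (.f (nat_lit 430) (nat_lit 527) (nat_lit 4526) (.d (nat_lit 429) (nat_lit 397) (nat_lit 7565) (nat_lit 461) (nat_lit 7597)))) (.f (nat_lit 559) (nat_lit 591) (nat_lit 4558) (.f (nat_lit 430) (nat_lit 527) (nat_lit 4526) (.d (nat_lit 431) (nat_lit 399) (nat_lit 6542) (nat_lit 463) (nat_lit 6574))))))))
noncomputable def s19823 : Cert := .r (nat_lit 878694100752451684771477911536058000169904023453705318540455819507632684707062362939178427701371570575831504310416874284364778165555893634919802866637241057280) (.p (nat_lit 526) (.a (.p (nat_lit 558) (.a (.f (nat_lit 557) (nat_lit 589) (nat_lit 5581) (.f (nat_lit 525) (nat_lit 430) (nat_lit 5549) (.d (nat_lit 527) (nat_lit 497) (nat_lit 2541) (nat_lit 556) (nat_lit 1548)))) (.a (.f (nat_lit 429) (nat_lit 461) (nat_lit 7597) (.f (nat_lit 430) (nat_lit 397) (nat_lit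 7565) (.d (nat_lit 431) (nat_lit 399) (nat_lit 6542) (nat_lit 463) (nat_lit 6574)))) (.f (nat_lit 589) (nat_lit 557) (nat_lit 5581) (.f (nat_lit 590) (nat_lit 621) (nat_lit 5613) (.d (nat_lit 591) (nat_lit 559) (nat_lit 4558) (nat_lit 623) (nat_lit 4590))))))) (.a (.p (nat_lit 558) (.a (.f (nat_lit 429) (nat_lit 461) (nat_lit 7597) (.f (nat_lit 430) (nat_lit 397) (nat_lit 7565) (.d (nat_lit 431) (nat_lit 399) (nat_lit 6542) (nat_lit 463) (nat_lit 6574)))) (.f (nat_lit 589) (nat_lit 557) (nat_lit 5581) (.f (nat_lit 590) (nat_lit 621) (nat_lit 5613) (.d (nat_lit 591) (nat_lit 559) (nat_lit 4558) (nat_lit 623) (nat_lit 4590)))))) (.a s19726 (.a (.p (nat_lit 430) (.a (.f (nat_lit 399) (nat_lit 431) (nat_lit 6542) (.f (nat_lit 398) (nat_lit 367) (nat_lit 6510) (.d (nat_lit 397) (nat_lit 365) (nat_lit 7533) (nat_lit 429) (nat_lit 7565)))) (.f (nat_lit 527) (nat_lit 559) (nat_lit 4526) (.d (nat_lit 525) (nat_lit 497) (nat_lit 2541) (nat_lit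 557) (nat_lit 5549))))) (.a s19820 (.a (.p (nat_lit 558) (.a (.f (nat_lit 557) (nat_lit 589) (nat_lit 5581) (.f (nat_lit 525) (nat_lit 430) (nat_lit 5549) (.d (nat_lit 527) (nat_lit 497) (nat_lit 2541) (nat_lit 556) (nat_lit 1548)))) (.a (.f (nat_lit 589) (nat_lit 557) (nat_lit 5581) (.f (nat_lit 590) (nat_lit 621) (nat_lit 5613) (.d (nat_lit 591) (nat_lit 559) (nat_lit 4558) (nat_lit 623) (nat_lit 4590)))) (.f (nat_lit 559) (nat_lit 591) (nat_lit 4558) (.f (nat_lit 527) (nat_lit 430) (nat_lit 4526) (.f (nat_lit 525) (nat_lit 497) (nat_lit 2541) (.d (nat_lit 524) (nat_lit 495) (nat_lit 2540) (nat_lit 523) (nat_lit 523)))))))) (.p (nat_lit 558) (.a (.f (nat_lit 461) (nat_lit 429) (nat_lit 7597) (.f (nat_lit 495) (nat_lit 497) (nat_lit 3533) (.d (nat_lit 460) (nat_lit 459) (nat_lit 459) (nat_lit 463) (nat_lit 460)))) (.f (nat_lit 589) (nat_lit 557) (nat_lit 5581) (.f (nat_lit 590) (nat_lit 621) (nat_lit 5613) (.d (nat_lit 591) (nat_lit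 559) (nat_lit 4558) (nat_lit 623) (nat_lit 4590)))))))))))))
noncomputable def s19825 : Cert := .r (nat_lit 878694100752451684771477911536058000169904023453705318540455819507632684707062362939178427701371570575831504310416874284364778165555893634919802866637241057280) (.p (nat_lit 526) (.a s19513 (.a (.p (nat_lit 525) (.a (.f (nat_lit 495) (nat_lit 497) (nat_lit 1517) (.d (nat_lit 524) (nat_lit 493) (nat_lit 1516) (nat_lit 523) (nat_lit 2539))) (.a (.f (nat_lit 430) (nat_lit 557) (nat_lit 5549) (.f (nat_lit 398) (nat_lit 493) (nat_lit 5517) (.d (nat_lit 397) (nat_lit 365) (nat_lit 7533) (nat_lit 429) (nat_lit 7565)))) (.f (nat_lit 430) (nat_lit 557) (nat_lit 5549) (.f (nat_lit 399) (nat_lit 431) (nat_lit 6542) (.f (nat_lit 398) (nat_lit 367) (nat_lit 6510) (.d (nat_lit 397) (nat_lit 365) (nat_lit 7533) (nat_lit 429) (nat_lit 7565)))))))) (.a (.p (nat_lit 558) (.a (.f (nat_lit 461) (nat_lit 429) (nat_lit 7597) (.f (nat_lit 493) (nat_lit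 590) (nat_lit 7629) (.d (nat_lit 495) (nat_lit 460) (nat_lit 3532) (nat_lit 497) (nat_lit 3533)))) (.a (.f (nat_lit 591) (nat_lit 559) (nat_lit 4558) (.f (nat_lit 590) (nat_lit 623) (nat_lit 4590) (.d (nat_lit 461) (nat_lit 429) (nat_lit 7597) (nat_lit 493) (nat_lit 7629)))) (.f (nat_lit 559) (nat_lit 591) (nat_lit 4558) (.f (nat_lit 527) (nat_lit 430) (nat_lit 4526) (.d (nat_lit 557) (nat_lit 556) (nat_lit 2572) (nat_lit 589) (nat_lit 5581))))))) (.a s19686 (.a (.p (nat_lit 558) (.a (.f (nat_lit 557) (nat_lit 589) (nat_lit 5581) (.f (nat_lit 525) (nat_lit 430) (nat_lit 5549) (.d (nat_lit 527) (nat_lit 497) (nat_lit 2541) (nat_lit 556) (nat_lit 1548)))) (.a (.f (nat_lit 589) (nat_lit 557) (nat_lit 5581) (.f (nat_lit 590) (nat_lit 621) (nat_lit 5613) (.d (nat_lit 591) (nat_lit 559) (nat_lit 4558) (nat_lit 623) (nat_lit 4590)))) (.f (nat_lit 559) (nat_lit 591) (nat_lit 4558) (.f (nat_lit 527) (nat_lit 430) (nat_lit 4526) (.f (nat_lit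 525) (nat_lit 497) (nat_lit 2541) (.d (nat_lit 524) (nat_lit 495) (nat_lit 2540) (nat_lit 523) (nat_lit 523)))))))) (.a (.p (nat_lit 558) (.a (.f (nat_lit 461) (nat_lit 429) (nat_lit 7597) (.f (nat_lit 493) (nat_lit 590) (nat_lit 7629) (.d (nat_lit 495) (nat_lit 460) (nat_lit 3532) (nat_lit 497) (nat_lit 3533)))) (.a (.f (nat_lit 591) (nat_lit 559) (nat_lit 4558) (.f (nat_lit 590) (nat_lit 623) (nat_lit 4590) (.d (nat_lit 461) (nat_lit 429) (nat_lit 7597) (nat_lit 493) (nat_lit 7629)))) (.f (nat_lit 559) (nat_lit 591) (nat_lit 4558) (.f (nat_lit 527) (nat_lit 430) (nat_lit 4526) (.f (nat_lit 525) (nat_lit 497) (nat_lit 2541) (.d (nat_lit 524) (nat_lit 495) (nat_lit 2540) (nat_lit 523) (nat_lit 523)))))))) s19545)))))))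
noncomputable def s19829 : Cert := .r (nat_lit 1098367625876631195650898737106662583122525953058291091641078650201570066575787356607100336202538116335104986274944261741552681781546826236922171771952922886144) (.p (nat_lit 558) (.a (.f (nat_lit 463) (nat_lit 431) (nat_lit 6574) (.f (nat_lit 495) (nat_lit 590) (nat_lit 6606) (.f (nat_lit 525) (nat_lit 497) (nat_lit 1517) (.d (nat_lit 524) (nat_lit 493) (nat_lit 1516) (nat_lit 523) (nat_lit 2539))))) (.a (.f (nat_lit 559) (nat_lit 591) (nat_lit 4558) (.f (nat_lit 430) (nat_lit 527) (nat_lit 4526) (.d (nat_lit 431) (nat_lit 399) (nat_lit 6542) (nat_lit 463) (nat_lit 6574)))) (.f (nat_lit 559) (nat_lit 591) (nat_lit 4558) (.f (nat_lit 527) (nat_lit 430) (nat_lit 4526) (.f (nat_lit 525) (nat_lit 497) (nat_lit 2541) (.d (nat_lit 524) (nat_lit 495) (nat_lit 2540) (nat_lit 523) (nat_lit 523))))))))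
noncomputable def s19830 : Cert := .r (nat_lit 1098367625876631195650898737106662583122525953058291091641078650201570066575787356607100336202538116335104986274944261741552681781546826236922171771952922886144) (.p (nat_lit 558) (.a (.f (nat_lit 463) (nat_lit 431) (nat_lit 6574) (.f (nat_lit 495) (nat_lit 590) (nat_lit 6606) (.f (nat_lit 525) (nat_lit 497) (nat_lit 1517) (.d (nat_lit 524) (nat_lit 493) (nat_lit 1516) (nat_lit 523) (nat_lit 2539))))) (.a (.f (nat_lit 589) (nat_lit 557) (nat_lit 5581) (.f (nat_lit 590) (nat_lit 621) (nat_lit 5613) (.d (nat_lit 591) (nat_lit 559) (nat_lit 4558) (nat_lit 623) (nat_lit 4590)))) (.f (nat_lit 557) (nat_lit 589) (nat_lit 5581) (.f (nat_lit 559) (nat_lit 591) (nat_lit 4558) (.f (nat_lit 556) (nat_lit 527) (nat_lit 2572) (.f (nat_lit 523) (nat_lit 524) (nat_lit 3595) (.f (nat_lit 555) (nat_lit 522) (nat_lit 3594) (.d (nat_lit 587) (nat_lit 586) (nat_lit 1578) (nat_lit 588) (nat_lit 1579))))))))))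
noncomputable def s19831 : Cert := .r (nat_lit 878694100752451684771477911536058000169904023453705318540455819507632684707062362939178427701371570575831504310416874284364778165555893634919802866637241057280) (.p (nat_lit 526) (.a s19513 (.a (.p (nat_lit 525) (.a (.f (nat_lit 495) (nat_lit 497) (nat_lit 1517) (.d (nat_lit 524) (nat_lit 493) (nat_lit 1516) (nat_lit 523) (nat_lit 2539))) (.a (.f (nat_lit 430) (nat_lit 557) (nat_lit 5549) (.f (nat_lit 398) (nat_lit 493) (nat_lit 5517) (.d (nat_lit 397) (nat_lit 365) (nat_lit 7533) (nat_lit 429) (nat_lit 7565)))) (.f (nat_lit 430) (nat_lit 557) (nat_lit 5549) (.f (nat_lit 399) (nat_lit 431) (nat_lit 6542) (.f (nat_lit 398) (nat_lit 367) (nat_lit 6510) (.d (nat_lit 397) (nat_lit 365) (nat_lit 7533) (nat_lit 429) (nat_lit 7565)))))))) (.a (.p (nat_lit 558) (.a (.f (nat_lit 559) (nat_lit 591) (nat_lit 4558) (.f (nat_lit 527) (nat_lit 430) (nat_lit 4526) (.d (nat_lit 557) (nat_lit 556) (nat_lit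 2572) (nat_lit 589) (nat_lit 5581)))) (.a (.f (nat_lit 463) (nat_lit 431) (nat_lit 6574) (.f (nat_lit 590) (nat_lit 495) (nat_lit 6606) (.d (nat_lit 589) (nat_lit 557) (nat_lit 5581) (nat_lit 621) (nat_lit 5613)))) (.f (nat_lit 559) (nat_lit 591) (nat_lit 4558) (.f (nat_lit 430) (nat_lit 527) (nat_lit 4526) (.d (nat_lit 431) (nat_lit 399) (nat_lit 6542) (nat_lit 463) (nat_lit 6574))))))) (.a s19829 (.a (.p (nat_lit 558) (.a (.f (nat_lit 557) (nat_lit 589) (nat_lit 5581) (.f (nat_lit 525) (nat_lit 430) (nat_lit 5549) (.d (nat_lit 527) (nat_lit 497) (nat_lit 2541) (nat_lit 556) (nat_lit 1548)))) (.a (.f (nat_lit 589) (nat_lit 557) (nat_lit 5581) (.f (nat_lit 590) (nat_lit 621) (nat_lit 5613) (.d (nat_lit 591) (nat_lit 559) (nat_lit 4558) (nat_lit 623) (nat_lit 4590)))) (.f (nat_lit 559) (nat_lit 591) (nat_lit 4558) (.f (nat_lit 527) (nat_lit 430) (nat_lit 4526) (.f (nat_lit 525) (nat_lit 497) (nat_lit 2541) (.d (nat_lit 524) (nat_lit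 495) (nat_lit 2540) (nat_lit 523) (nat_lit 523)))))))) s19830))))))
noncomputable def s19878 : Cert := .r (nat_lit 878694100752451684771477911536058000169904023453705318540455819507632684707062362939178427701371570575831504310416874284364778165555893634919802866637241057280) (.p (nat_lit 495) (.a (.f (nat_lit 493) (nat_lit 529) (nat_lit 493) (.d (nat_lit 461) (nat_lit 460) (nat_lit 3532) (nat_lit 497) (nat_lit 3533))) (.a (.f (nat_lit 461) (nat_lit 497) (nat_lit 3533) (.d (nat_lit 460) (nat_lit 459) (nat_lit 459) (nat_lit 463) (nat_lit 460))) (.a (.f (nat_lit 493) (nat_lit 529) (nat_lit 493) (.f (nat_lit 461) (nat_lit 460) (nat_lit 3532) (.f (nat_lit 525) (nat_lit 524) (nat_lit 1516) (.d (nat_lit 430) (nat_lit 398) (nat_lit 5517) (nat_lit 557) (nat_lit 6573))))) (.f (nat_lit 493) (nat_lit 529) (nat_lit 493) (.f (nat_lit 525) (nat_lit 524) (nat_lit 1516) (.f (nat_lit 526) (nat_lit 497) (nat_lit 1517) (.d (nat_lit 430) (nat_lit 398)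 (nat_lit 5517) (nat_lit 557) (nat_lit 5549)))))))))
noncomputable def s19892 : Cert := .r (nat_lit 1098367625876631195698532839742099476301566438132039356804478890415574142974395098300602712588337762638210242974521470774142814397535086473974295424285812981760) (.p (nat_lit 432) (.a (.f (nat_lit 431) (nat_lit 399) (nat_lit 7567) (.f (nat_lit 433) (nat_lit 401) (nat_lit 6544) (.d (nat_lit 461) (nat_lit 430) (nat_lit 1453) (nat_lit 463) (nat_lit 2477)))) (.a (.f (nat_lit 399) (nat_lit 431) (nat_lit 7567) (.f (nat_lit 400) (nat_lit 367) (nat_lit 7535) (.d (nat_lit 401) (nat_lit 369) (nat_lit 6512) (nat_lit 433) (nat_lit 6544)))) (.a (.f (nat_lit 433) (nat_lit 401) (nat_lit 6544) (.f (nat_lit 463) (nat_lit 461) (nat_lit 2477) (.d (nat_lit 434) (nat_lit 435) (nat_lit 1455) (nat_lit 465) (nat_lit 2478)))) (.f (nat_lit 399) (nat_lit 431) (nat_lit 7567) (.f (nat_lit 400) (nat_lit 367) (nat_lit 7535) (.d (nat_lit 529) (nat_lit 497) (nat_lit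 4496) (nat_lit 561) (nat_lit 4528))))))))
noncomputable def s19906 : Cert := .r (nat_lit 1098367625876631195698532839742099476301566438132039356804478890415574142974395098300602712588337762638210242974521470774142814397535086473974295424285812981760) (.p (nat_lit 432) (.a (.f (nat_lit 431) (nat_lit 399) (nat_lit 7567) (.f (nat_lit 433) (nat_lit 401) (nat_lit 6544) (.d (nat_lit 461) (nat_lit 430) (nat_lit 1453) (nat_lit 463) (nat_lit 2477)))) (.a (.f (nat_lit 399) (nat_lit 431) (nat_lit 7567) (.f (nat_lit 400) (nat_lit 367) (nat_lit 7535) (.d (nat_lit 401) (nat_lit 369) (nat_lit 6512) (nat_lit 433) (nat_lit 6544)))) (.a (.f (nat_lit 433) (nat_lit 401) (nat_lit 6544) (.f (nat_lit 463) (nat_lit 461) (nat_lit 2477) (.d (nat_lit 434) (nat_lit 435) (nat_lit 1455) (nat_lit 465) (nat_lit 2478)))) (.a (.f (nat_lit 399) (nat_lit 431) (nat_lit 7567) (.f (nat_lit 400) (nat_lit 367) (nat_lit 7535) (.f (nat_lit 369) (nat_lit 401) (nat_lit 6512)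 (.f (nat_lit 368) (nat_lit 337) (nat_lit 6480) (.f (nat_lit 397) (nat_lit 398) (nat_lit 2413) (.f (nat_lit 429) (nat_lit 430) (nat_lit 7565) (.d (nat_lit 461) (nat_lit 365) (nat_lit 4461) (nat_lit 493) (nat_lit 4493)))))))) (.f (nat_lit 399) (nat_lit 431) (nat_lit 7567) (.f (nat_lit 367) (nat_lit 400) (nat_lit 7535) (.f (nat_lit 430) (nat_lit 398) (nat_lit 6510) (.f (nat_lit 429) (nat_lit 397) (nat_lit 7565) (.f (nat_lit 463) (nat_lit 465) (nat_lit 3501) (.d (nat_lit 428) (nat_lit 427) (nat_lit 427) (nat_lit 461) (nat_lit 3500))))))))))))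
noncomputable def s19923 : Cert := .r (nat_lit 1098367625876631195698532839742099476301566438132039356804478890415574142974395098300602712588337762638210242974521470774142814397535086473974295424285812981760) (.p (nat_lit 432) (.a (.f (nat_lit 399) (nat_lit 431) (nat_lit 7567) (.f (nat_lit 400) (nat_lit 367) (nat_lit 7535) (.d (nat_lit 401) (nat_lit 369) (nat_lit 6512) (nat_lit 433) (nat_lit 6544)))) (.a (.f (nat_lit 401) (nat_lit 433) (nat_lit 6544) (.f (nat_lit 400) (nat_lit 369) (nat_lit 6512) (.d (nat_lit 529) (nat_lit 497) (nat_lit 4496) (nat_lit 561) (nat_lit 4528)))) (.a (.f (nat_lit 431) (nat_lit 399) (nat_lit 7567) (.f (nat_lit 433) (nat_lit 401) (nat_lit 6544) (.f (nat_lit 430) (nat_lit 461) (nat_lit 1453) (.d (nat_lit 397) (nat_lit 398) (nat_lit 3469) (nat_lit 429) (nat_lit 7565))))) (.f (nat_lit 399) (nat_lit 431) (nat_lit 7567) (.f (nat_lit 400) (nat_lit 367) (nat_lit 7535) (.d (nat_lit 529) (nat_lit 497) (nat_lit 4496)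 (nat_lit 561) (nat_lit 4528))))))))
noncomputable def s19964 : Cert := .r (nat_lit 1098367625876631195698532839742099476301566438132039356804478890415574142974395098300602712588337762638210242974521470774142814397535086473974295424285812981760) (.p (nat_lit 432) (.a (.f (nat_lit 399) (nat_lit 431) (nat_lit 7567) (.f (nat_lit 400) (nat_lit 367) (nat_lit 7535) (.d (nat_lit 401) (nat_lit 369) (nat_lit 6512) (nat_lit 433) (nat_lit 6544)))) (.a (.f (nat_lit 401) (nat_lit 433) (nat_lit 6544) (.f (nat_lit 400) (nat_lit 369) (nat_lit 6512) (.d (nat_lit 529) (nat_lit 497) (nat_lit 4496) (nat_lit 561) (nat_lit 4528)))) (.a (.f (nat_lit 431) (nat_lit 399) (nat_lit 7567) (.f (nat_lit 433) (nat_lit 401) (nat_lit 6544) (.f (nat_lit 434) (nat_lit 463) (nat_lit 1454) (.f (nat_lit 466) (nat_lit 467) (nat_lit 431) (.f (nat_lit 430) (nat_lit 465) (nat_lit 430) (.d (nat_lit 397) (nat_lit 398) (nat_lit 3469) (nat_lit 429) (nat_lit 7565))))))) (.f (nat_lit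 399) (nat_lit 431) (nat_lit 7567) (.f (nat_lit 400) (nat_lit 367) (nat_lit 7535) (.d (nat_lit 529) (nat_lit 497) (nat_lit 4496) (nat_lit 561) (nat_lit 4528))))))))
noncomputable def s19972 : Cert := .r (nat_lit 1098367625876631195650898737106662583122525953058291091641078650201570066575787356607100336202538116335104986274944261741552681781546826236922171771952922886144) (.p (nat_lit 558) (.a (.f (nat_lit 591) (nat_lit 559) (nat_lit 4558) (.f (nat_lit 590) (nat_lit 623) (nat_lit 4590) (.d (nat_lit 461) (nat_lit 429) (nat_lit 7597) (nat_lit 493) (nat_lit 7629)))) (.a (.f (nat_lit 461) (nat_lit 429) (nat_lit 7597) (.f (nat_lit 463) (nat_lit 431) (nat_lit 6574) (.f (nat_lit 493) (nat_lit 590) (nat_lit 7629) (.d (nat_lit 464) (nat_lit 465) (nat_lit 1485) (nat_lit 492) (nat_lit 1484))))) (.a (.f (nat_lit 589) (nat_lit 557) (nat_lit 5581) (.f (nat_lit 590) (nat_lit 621) (nat_lit 5613) (.d (nat_lit 591) (nat_lit 559) (nat_lit 4558) (nat_lit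 623) (nat_lit 4590)))) (.f (nat_lit 461) (nat_lit 429) (nat_lit 7597) (.f (nat_lit 463) (nat_lit 431) (nat_lit 6574) (.f (nat_lit 464) (nat_lit 497) (nat_lit 461) (.d (nat_lit 493) (nat_lit 465) (nat_lit 1485) (nat_lit 492) (nat_lit 1484)))))))))
noncomputable def s19973 : Cert := .r (nat_lit 878694100752451684771477911536058000169904023453705318540455819507632684707062362939178427701371570575831504310416874284364778165555893634919802866637241057280) (.p (nat_lit 526) (.a (.p (nat_lit 558) (.a (.f (nat_lit 429) (nat_lit 461) (nat_lit 7597) (.f (nat_lit 430) (nat_lit 397) (nat_lit 7565) (.d (nat_lit 431) (nat_lit 399) (nat_lit 6542) (nat_lit 463) (nat_lit 6574)))) (.a (.f (nat_lit 591) (nat_lit 559) (nat_lit 4558) (.f (nat_lit 590) (nat_lit 623) (nat_lit 4590) (.d (nat_lit 461) (nat_lit 429) (nat_lit 7597) (nat_lit 493) (nat_lit 7629)))) (.f (nat_lit 557) (nat_lit 589) (nat_lit 5581) (.f (nat_lit 430) (nat_lit 525) (nat_lit 5549)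 (.d (nat_lit 431) (nat_lit 399) (nat_lit 6542) (nat_lit 463) (nat_lit 6574))))))) (.a s19680 (.a (.p (nat_lit 558) (.a (.f (nat_lit 429) (nat_lit 461) (nat_lit 7597) (.f (nat_lit 430) (nat_lit 397) (nat_lit 7565) (.d (nat_lit 431) (nat_lit 399) (nat_lit 6542) (nat_lit 463) (nat_lit 6574)))) (.a (.f (nat_lit 591) (nat_lit 559) (nat_lit 4558) (.f (nat_lit 590) (nat_lit 623) (nat_lit 4590) (.d (nat_lit 461) (nat_lit 429) (nat_lit 7597) (nat_lit 493) (nat_lit 7629)))) (.f (nat_lit 589) (nat_lit 557) (nat_lit 5581) (.f (nat_lit 590) (nat_lit 621) (nat_lit 5613) (.d (nat_lit 591) (nat_lit 559) (nat_lit 4558) (nat_lit 623) (nat_lit 4590))))))) (.a (.p (nat_lit 464) (.a s19892 (.a s19906 (.a (.p (nat_lit 463) (.a (.f (nat_lit 461) (nat_lit 497) (nat_lit 461) (.d (nat_lit 493) (nat_lit 465) (nat_lit 1485) (nat_lit 492) (nat_lit 1484))) (.a (.f (nat_lit 465) (nat_lit 493) (nat_lit 1485) (.f (nat_lit 430) (nat_lit 429) (nat_lit 3501) (.d (nat_lit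 431) (nat_lit 399) (nat_lit 6542) (nat_lit 466) (nat_lit 3502)))) (.f (nat_lit 461) (nat_lit 497) (nat_lit 461) (.f (nat_lit 429) (nat_lit 428) (nat_lit 3500) (.d (nat_lit 397) (nat_lit 365) (nat_lit 4461) (nat_lit 430) (nat_lit 7565))))))) (.a s19923 (.a (.p (nat_lit 432) (.a (.f (nat_lit 433) (nat_lit 401) (nat_lit 6544) (.f (nat_lit 463) (nat_lit 461) (nat_lit 2477) (.d (nat_lit 434) (nat_lit 435) (nat_lit 1455) (nat_lit 465) (nat_lit 2478)))) (.a (.f (nat_lit 401) (nat_lit 433) (nat_lit 6544) (.f (nat_lit 400) (nat_lit 369) (nat_lit 6512) (.d (nat_lit 529) (nat_lit 497) (nat_lit 4496) (nat_lit 561) (nat_lit 4528)))) (.a (.f (nat_lit 529) (nat_lit 561) (nat_lit 4528) (.f (nat_lit 400) (nat_lit 497) (nat_lit 4496) (.f (nat_lit 367) (nat_lit 399) (nat_lit 7535) (.f (nat_lit 368) (nat_lit 335) (nat_lit 7503) (.d (nat_lit 369) (nat_lit 337) (nat_lit 6480) (nat_lit 401) (nat_lit 6512)))))) (.f (nat_lit 529) (nat_lit 561) (nat_lit 4528)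 (.f (nat_lit 400) (nat_lit 497) (nat_lit 4496) (.f (nat_lit 367) (nat_lit 399) (nat_lit 7535) (.f (nat_lit 368) (nat_lit 335) (nat_lit 7503) (.f (nat_lit 337) (nat_lit 369) (nat_lit 6480) (.f (nat_lit 336) (nat_lit 305) (nat_lit 6448) (.f (nat_lit 465) (nat_lit 433) (nat_lit 4432) (.f (nat_lit 463) (nat_lit 493) (nat_lit 1485) (.f (nat_lit 429) (nat_lit 430) (nat_lit 3501) (.f (nat_lit 461) (nat_lit 428) (nat_lit 3500) (.d (nat_lit 365) (nat_lit 366) (nat_lit 2381) (nat_lit 397) (nat_lit 4461)))))))))))))))) (.a (.p (nat_lit 432) (.a (.f (nat_lit 433) (nat_lit 401) (nat_lit 6544) (.f (nat_lit 463) (nat_lit 461) (nat_lit 2477) (.d (nat_lit 434) (nat_lit 435) (nat_lit 1455) (nat_lit 465) (nat_lit 2478)))) (.a (.f (nat_lit 401) (nat_lit 433) (nat_lit 6544) (.f (nat_lit 400) (nat_lit 369) (nat_lit 6512) (.d (nat_lit 529) (nat_lit 497) (nat_lit 4496) (nat_lit 561) (nat_lit 4528)))) (.a (.f (nat_lit 529) (nat_lit 561) (nat_lit 4528) (.f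 (nat_lit 400) (nat_lit 497) (nat_lit 4496) (.f (nat_lit 369) (nat_lit 401) (nat_lit 6512) (.f (nat_lit 368) (nat_lit 337) (nat_lit 6480) (.f (nat_lit 335) (nat_lit 367) (nat_lit 7503) (.f (nat_lit 336) (nat_lit 303) (nat_lit 7471) (.f (nat_lit 463) (nat_lit 431) (nat_lit 5455) (.f (nat_lit 493) (nat_lit 465) (nat_lit 1485) (.d (nat_lit 492) (nat_lit 461) (nat_lit 1484) (nat_lit 491) (nat_lit 2507)))))))))) (.f (nat_lit 529) (nat_lit 561) (nat_lit 4528) (.f (nat_lit 497) (nat_lit 400) (nat_lit 4496) (.f (nat_lit 463) (nat_lit 461) (nat_lit 461) (.f (nat_lit 465) (nat_lit 493) (nat_lit 1485) (.f (nat_lit 430) (nat_lit 429) (nat_lit 3501) (.f (nat_lit 466) (nat_lit 431) (nat_lit 3502) (.d (nat_lit 434) (nat_lit 433) (nat_lit 2478) (nat_lit 435) (nat_lit 2479)))))))))))) (.a s19964 (.p (nat_lit 432) (.a (.f (nat_lit 399) (nat_lit 431) (nat_lit 7567) (.f (nat_lit 400) (nat_lit 367) (nat_lit 7535) (.d (nat_lit 401) (nat_lit 369) (nat_lit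 6512) (nat_lit 433) (nat_lit 6544)))) (.a (.f (nat_lit 433) (nat_lit 401) (nat_lit 6544) (.f (nat_lit 463) (nat_lit 461) (nat_lit 2477) (.d (nat_lit 434) (nat_lit 435) (nat_lit 1455) (nat_lit 465) (nat_lit 2478)))) (.f (nat_lit 399) (nat_lit 431) (nat_lit 7567) (.f (nat_lit 400) (nat_lit 367) (nat_lit 7535) (.d (nat_lit 529) (nat_lit 497) (nat_lit 4496) (nat_lit 561) (nat_lit 4528))))))))))))))) (.a (.p (nat_lit 558) (.a (.f (nat_lit 429) (nat_lit 461) (nat_lit 7597) (.f (nat_lit 430) (nat_lit 397) (nat_lit 7565) (.d (nat_lit 431) (nat_lit 399) (nat_lit 6542) (nat_lit 463) (nat_lit 6574)))) (.f (nat_lit 589) (nat_lit 557) (nat_lit 5581) (.f (nat_lit 590) (nat_lit 621) (nat_lit 5613) (.d (nat_lit 591) (nat_lit 559) (nat_lit 4558) (nat_lit 623) (nat_lit 4590)))))) (.a (.p (nat_lit 558) (.a (.f (nat_lit 591) (nat_lit 559) (nat_lit 4558) (.f (nat_lit 590) (nat_lit 623) (nat_lit 4590) (.d (nat_lit 461) (nat_lit 429) (nat_lit 7597) (nat_lit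 493) (nat_lit 7629)))) (.a (.f (nat_lit 429) (nat_lit 461) (nat_lit 7597) (.f (nat_lit 430) (nat_lit 397) (nat_lit 7565) (.d (nat_lit 557) (nat_lit 525) (nat_lit 5549) (nat_lit 589) (nat_lit 5581)))) (.f (nat_lit 589) (nat_lit 557) (nat_lit 5581) (.f (nat_lit 590) (nat_lit 621) (nat_lit 5613) (.d (nat_lit 591) (nat_lit 559) (nat_lit 4558) (nat_lit 623) (nat_lit 4590))))))) (.a s19815 (.a s19972 s19554)))))))))
noncomputable def s20000 : Cert := .r (nat_lit 1098367625876631195698532839742099476301566438132039356804478890415574142974395098300602712588337762638210242974521470774142814397535086473974295424285812981760) (.p (nat_lit 432) (.a (.f (nat_lit 431) (nat_lit 399) (nat_lit 7567) (.f (nat_lit 433) (nat_lit 401) (nat_lit 6544) (.d (nat_lit 461) (nat_lit 430) (nat_lit 1453) (nat_lit 463) (nat_lit 2477)))) (.a (.f (nat_lit 399) (nat_lit 431) (nat_lit 7567) (.f (nat_lit 400) (nat_lit 367) (nat_lit 7535) (.d (nat_lit 401) (nat_lit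 369) (nat_lit 6512) (nat_lit 433) (nat_lit 6544)))) (.a (.f (nat_lit 433) (nat_lit 401) (nat_lit 6544) (.f (nat_lit 463) (nat_lit 461) (nat_lit 2477) (.d (nat_lit 434) (nat_lit 435) (nat_lit 1455) (nat_lit 465) (nat_lit 2478)))) (.f (nat_lit 399) (nat_lit 431) (nat_lit 7567) (.f (nat_lit 367) (nat_lit 400) (nat_lit 7535) (.f (nat_lit 430) (nat_lit 398) (nat_lit 6510) (.f (nat_lit 429) (nat_lit 397) (nat_lit 7565) (.f (nat_lit 463) (nat_lit 465) (nat_lit 3501) (.d (nat_lit 428) (nat_lit 427) (nat_lit 427) (nat_lit 461) (nat_lit 3500)))))))))))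
noncomputable def s20040 : Cert := .r (nat_lit 1098367625876631195650898737106662583122525953058291091641078650201570066575787356607100336202538116335104986274944261741552681781546826236922171771952922886144) (.p (nat_lit 464) (.a s19906 (.a (.p (nat_lit 493) (.a (.d (nat_lit 465) (nat_lit 463) (nat_lit 1485) (nat_lit 495) (nat_lit 2509)) (.a (.f (nat_lit 463) (nat_lit 465) (nat_lit 1485) (.d (nat_lit 492) (nat_lit 461) (nat_lit 1484) (nat_lit 491) (nat_lit 2507))) (.a (.d (nat_lit 495) (nat_lit 465) (nat_lit 2509) (nat_lit 529) (nat_lit 493)) (.f (nat_lit 495) (nat_lit 529) (nat_lit 493) (.f (nat_lit 463) (nat_lit 492) (nat_lit 2508) (.f (nat_lit 461) (nat_lit 460) (nat_lit 460) (.d (nat_lit 429) (nat_lit 397) (nat_lit 4493) (nat_lit 428) (nat_lit 3500))))))))) (.a s20000 (.a (.p (nat_lit 430) (.a (.f (nat_lit 399) (nat_lit 431) (nat_lit 6542) (.f (nat_lit 398) (nat_lit 367) (nat_lit 6510) (.d (nat_lit 397) (nat_lit 365) (nat_lit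 7533) (nat_lit 429) (nat_lit 7565)))) (.a (.f (nat_lit 525) (nat_lit 557) (nat_lit 5549) (.f (nat_lit 493) (nat_lit 398) (nat_lit 5517) (.d (nat_lit 495) (nat_lit 465) (nat_lit 2509) (nat_lit 524) (nat_lit 1516)))) (.f (nat_lit 431) (nat_lit 399) (nat_lit 6542) (.f (nat_lit 429) (nat_lit 397) (nat_lit 7565) (.f (nat_lit 432) (nat_lit 465) (nat_lit 429) (.d (nat_lit 401) (nat_lit 400) (nat_lit 2445) (nat_lit 433) (nat_lit 6544)))))))) (.a (.p (nat_lit 432) (.a (.f (nat_lit 431) (nat_lit 399) (nat_lit 7567) (.f (nat_lit 433) (nat_lit 401) (nat_lit 6544) (.d (nat_lit 461) (nat_lit 430) (nat_lit 1453) (nat_lit 463) (nat_lit 2477)))) (.a (.f (nat_lit 399) (nat_lit 431) (nat_lit 7567) (.f (nat_lit 400) (nat_lit 367) (nat_lit 7535) (.d (nat_lit 401) (nat_lit 369) (nat_lit 6512) (nat_lit 433) (nat_lit 6544)))) (.a (.f (nat_lit 529) (nat_lit 561) (nat_lit 4528) (.f (nat_lit 495) (nat_lit 493) (nat_lit 493) (.f (nat_lit 401) (nat_lit 433)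 (nat_lit 6544) (.f (nat_lit 400) (nat_lit 369) (nat_lit 6512) (.f (nat_lit 367) (nat_lit 399) (nat_lit 7535) (.d (nat_lit 368) (nat_lit 335) (nat_lit 7503) (nat_lit 463) (nat_lit 5487))))))) (.a (.f (nat_lit 399) (nat_lit 431) (nat_lit 7567) (.f (nat_lit 400) (nat_lit 367) (nat_lit 7535) (.f (nat_lit 369) (nat_lit 401) (nat_lit 6512) (.f (nat_lit 368) (nat_lit 337) (nat_lit 6480) (.f (nat_lit 397) (nat_lit 398) (nat_lit 2413) (.f (nat_lit 429) (nat_lit 430) (nat_lit 7565) (.d (nat_lit 461) (nat_lit 365) (nat_lit 4461) (nat_lit 493) (nat_lit 4493)))))))) (.a (.f (nat_lit 433) (nat_lit 401) (nat_lit 6544) (.f (nat_lit 463) (nat_lit 461) (nat_lit 2477) (.d (nat_lit 434) (nat_lit 431) (nat_lit 1454) (nat_lit 435) (nat_lit 1455)))) (.f (nat_lit 399) (nat_lit 431) (nat_lit 7567) (.f (nat_lit 400) (nat_lit 367) (nat_lit 7535) (.f (nat_lit 529) (nat_lit 561) (nat_lit 4528) (.f (nat_lit 495) (nat_lit 493) (nat_lit 493) (.f (nat_lit 463) (nat_lit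 368) (nat_lit 5487) (.d (nat_lit 461) (nat_lit 433) (nat_lit 2477) (nat_lit 460) (nat_lit 460))))))))))))) (.p (nat_lit 529) (.a (.f (nat_lit 432) (nat_lit 561) (nat_lit 4528) (.f (nat_lit 431) (nat_lit 399) (nat_lit 7567) (.f (nat_lit 433) (nat_lit 401) (nat_lit 6544) (.d (nat_lit 461) (nat_lit 430) (nat_lit 1453) (nat_lit 463) (nat_lit 2477))))) (.a (.f (nat_lit 493) (nat_lit 495) (nat_lit 493) (.f (nat_lit 463) (nat_lit 465) (nat_lit 1485) (.d (nat_lit 492) (nat_lit 461) (nat_lit 1484) (nat_lit 491) (nat_lit 2507)))) (.f (nat_lit 432) (nat_lit 561) (nat_lit 4528) (.f (nat_lit 399) (nat_lit 431) (nat_lit 7567) (.f (nat_lit 400) (nat_lit 367) (nat_lit 7535) (.d (nat_lit 401) (nat_lit 369) (nat_lit 6512) (nat_lit 433) (nat_lit 6544))))))))))))))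
noncomputable def s20052 : Cert := .r (nat_lit 1098367625876631195650898737106662583122525953058291091641078650201570066575787356607100336202538116335104986274944261741552681781546826236922171771952922886144) (.p (nat_lit 558) (.a (.f (nat_lit 463) (nat_lit 431) (nat_lit 6574) (.f (nat_lit 495) (nat_lit 590) (nat_lit 6606) (.d (nat_lit 461) (nat_lit 429) (nat_lit 7597) (nat_lit 460) (nat_lit 460)))) (.a (.f (nat_lit 591) (nat_lit 559) (nat_lit 4558) (.f (nat_lit 590) (nat_lit 623) (nat_lit 4590) (.d (nat_lit 461) (nat_lit 429) (nat_lit 7597) (nat_lit 493) (nat_lit 7629)))) (.a (.f (nat_lit 461) (nat_lit 429) (nat_lit 7597) (.f (nat_lit 463) (nat_lit 431) (nat_lit 6574) (.f (nat_lit 460) (nat_lit 495) (nat_lit 460) (.f (nat_lit 491) (nat_lit 492) (nat_lit 1483) (.f (nat_lit 459) (nat_lit 490) (nat_lit 1482) (.d (nat_lit 427) (nat_lit 426) (nat_lit 3498) (nat_lit 428) (nat_lit 3499))))))) (.f (nat_lit 463) (nat_lit 431) (nat_lit 6574)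 (.f (nat_lit 590) (nat_lit 495) (nat_lit 6606) (.d (nat_lit 589) (nat_lit 557) (nat_lit 5581) (nat_lit 621) (nat_lit 5613))))))))
noncomputable def s20053 : Cert := .r (nat_lit 878694100752451684771477911536058000169904023453705318540455819507632684707062362939178427701371570575831504310416874284364778165555893634919802866637241057280) (.p (nat_lit 526) (.a (.p (nat_lit 558) (.a (.f (nat_lit 429) (nat_lit 461) (nat_lit 7597) (.f (nat_lit 430) (nat_lit 397) (nat_lit 7565) (.d (nat_lit 431) (nat_lit 399) (nat_lit 6542) (nat_lit 463) (nat_lit 6574)))) (.a (.f (nat_lit 591) (nat_lit 559) (nat_lit 4558) (.f (nat_lit 590) (nat_lit 623) (nat_lit 4590) (.d (nat_lit 461) (nat_lit 429) (nat_lit 7597) (nat_lit 493) (nat_lit 7629)))) (.f (nat_lit 557) (nat_lit 589) (nat_lit 5581) (.f (nat_lit 430) (nat_lit 525) (nat_lit 5549) (.d (nat_lit 431) (nat_lit 399) (nat_lit 6542) (nat_lit 463) (nat_lit 6574))))))) (.a s19680 (.a (.p (nat_lit 558) (.a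 (.f (nat_lit 429) (nat_lit 461) (nat_lit 7597) (.f (nat_lit 430) (nat_lit 397) (nat_lit 7565) (.d (nat_lit 431) (nat_lit 399) (nat_lit 6542) (nat_lit 463) (nat_lit 6574)))) (.a (.f (nat_lit 591) (nat_lit 559) (nat_lit 4558) (.f (nat_lit 590) (nat_lit 623) (nat_lit 4590) (.d (nat_lit 461) (nat_lit 429) (nat_lit 7597) (nat_lit 493) (nat_lit 7629)))) (.f (nat_lit 589) (nat_lit 557) (nat_lit 5581) (.f (nat_lit 590) (nat_lit 621) (nat_lit 5613) (.d (nat_lit 591) (nat_lit 559) (nat_lit 4558) (nat_lit 623) (nat_lit 4590))))))) (.a s20040 (.a (.p (nat_lit 558) (.a (.f (nat_lit 429) (nat_lit 461) (nat_lit 7597) (.f (nat_lit 430) (nat_lit 397) (nat_lit 7565) (.d (nat_lit 431) (nat_lit 399) (nat_lit 6542) (nat_lit 463) (nat_lit 6574)))) (.f (nat_lit 589) (nat_lit 557) (nat_lit 5581) (.f (nat_lit 590) (nat_lit 621) (nat_lit 5613) (.d (nat_lit 591) (nat_lit 559) (nat_lit 4558) (nat_lit 623) (nat_lit 4590)))))) (.a (.p (nat_lit 558) (.a (.f (nat_lit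 591) (nat_lit 559) (nat_lit 4558) (.f (nat_lit 590) (nat_lit 623) (nat_lit 4590) (.d (nat_lit 461) (nat_lit 429) (nat_lit 7597) (nat_lit 493) (nat_lit 7629)))) (.a (.f (nat_lit 429) (nat_lit 461) (nat_lit 7597) (.f (nat_lit 430) (nat_lit 397) (nat_lit 7565) (.d (nat_lit 557) (nat_lit 525) (nat_lit 5549) (nat_lit 589) (nat_lit 5581)))) (.f (nat_lit 589) (nat_lit 557) (nat_lit 5581) (.f (nat_lit 590) (nat_lit 621) (nat_lit 5613) (.d (nat_lit 591) (nat_lit 559) (nat_lit 4558) (nat_lit 623) (nat_lit 4590))))))) (.a (.p (nat_lit 558) (.a (.f (nat_lit 463) (nat_lit 431) (nat_lit 6574) (.f (nat_lit 495) (nat_lit 590) (nat_lit 6606) (.d (nat_lit 461) (nat_lit 429) (nat_lit 7597) (nat_lit 460) (nat_lit 460)))) (.a (.f (nat_lit 429) (nat_lit 461) (nat_lit 7597) (.f (nat_lit 430) (nat_lit 397) (nat_lit 7565) (.d (nat_lit 431) (nat_lit 399) (nat_lit 6542) (nat_lit 463) (nat_lit 6574)))) (.a (.f (nat_lit 591) (nat_lit 559) (nat_lit 4558) (.f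 (nat_lit 590) (nat_lit 623) (nat_lit 4590) (.d (nat_lit 461) (nat_lit 429) (nat_lit 7597) (nat_lit 493) (nat_lit 7629)))) (.f (nat_lit 463) (nat_lit 431) (nat_lit 6574) (.f (nat_lit 495) (nat_lit 590) (nat_lit 6606) (.f (nat_lit 493) (nat_lit 529) (nat_lit 493) (.d (nat_lit 464) (nat_lit 465) (nat_lit 1485) (nat_lit 492) (nat_lit 2508))))))))) (.a s19815 (.a s20052 s19554))))))))))
noncomputable def s20057 : Cert := .r (nat_lit 878694100752451684819112014171494893348944508527453583703856059721636761105670104632680804087171216878936761009994083316954910781544153871971926518970131152896) (.p (nat_lit 432) (.a (.f (nat_lit 431) (nat_lit 399) (nat_lit 7567) (.f (nat_lit 433) (nat_lit 401) (nat_lit 6544) (.d (nat_lit 461) (nat_lit 430) (nat_lit 1453) (nat_lit 463) (nat_lit 2477)))) (.a (.f (nat_lit 399) (nat_lit 431) (nat_lit 7567) (.f (nat_lit 400) (nat_lit 367) (nat_lit 7535) (.d (nat_lit 401) (nat_lit 369) (nat_lit 6512) (nat_lit 433)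 (nat_lit 6544)))) (.a (.f (nat_lit 433) (nat_lit 401) (nat_lit 6544) (.f (nat_lit 463) (nat_lit 461) (nat_lit 2477) (.d (nat_lit 434) (nat_lit 435) (nat_lit 1455) (nat_lit 465) (nat_lit 2478)))) (.f (nat_lit 399) (nat_lit 431) (nat_lit 7567) (.f (nat_lit 400) (nat_lit 367) (nat_lit 7535) (.d (nat_lit 529) (nat_lit 497) (nat_lit 4496) (nat_lit 561) (nat_lit 4528))))))))
noncomputable def s20136 : Cert := .r (nat_lit 1098367625876631195698532839742099476301566438132039356804478890415574142974395098300602712588337762638210242974521470774142814397535086473974295424285812981760) (.p (nat_lit 558) (.a (.f (nat_lit 429) (nat_lit 461) (nat_lit 7597) (.f (nat_lit 430) (nat_lit 397) (nat_lit 7565) (.d (nat_lit 557) (nat_lit 525) (nat_lit 5549) (nat_lit 589) (nat_lit 5581)))) (.a (.f (nat_lit 589) (nat_lit 557) (nat_lit 5581) (.f (nat_lit 590) (nat_lit 621) (nat_lit 5613) (.d (nat_lit 591) (nat_lit 559) (nat_lit 4558) (nat_lit 623) (nat_lit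 4590)))) (.f (nat_lit 429) (nat_lit 461) (nat_lit 7597) (.f (nat_lit 430) (nat_lit 397) (nat_lit 7565) (.f (nat_lit 431) (nat_lit 399) (nat_lit 6542) (.f (nat_lit 432) (nat_lit 465) (nat_lit 429) (.d (nat_lit 401) (nat_lit 400) (nat_lit 2445) (nat_lit 433) (nat_lit 6544)))))))))
noncomputable def s20142 : Cert := .r (nat_lit 1098367625876631195698532839742099476301566438132039356804478890415574142974395098300602712588337762638210242974521470774142814397535086473974295424285812981760) (.p (nat_lit 558) (.a (.f (nat_lit 429) (nat_lit 461) (nat_lit 7597) (.f (nat_lit 430) (nat_lit 397) (nat_lit 7565) (.d (nat_lit 557) (nat_lit 525) (nat_lit 5549) (nat_lit 589) (nat_lit 5581)))) (.a (.f (nat_lit 589) (nat_lit 557) (nat_lit 5581) (.f (nat_lit 590) (nat_lit 621) (nat_lit 5613) (.d (nat_lit 591) (nat_lit 559) (nat_lit 4558) (nat_lit 623) (nat_lit 4590)))) (.f (nat_lit 429) (nat_lit 461) (nat_lit 7597) (.f (nat_lit 430) (nat_lit 397) (nat_lit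 7565) (.f (nat_lit 463) (nat_lit 465) (nat_lit 3501) (.f (nat_lit 590) (nat_lit 495) (nat_lit 6606) (.d (nat_lit 591) (nat_lit 559) (nat_lit 4558) (nat_lit 623) (nat_lit 4590)))))))))
noncomputable def s20152 : Cert := .r (nat_lit 1098367625876631195698532839742099476301566438132039356804478890415574142974395098300602712588337762638210242974521470774142814397535086473974295424285812981760) (.p (nat_lit 558) (.a (.f (nat_lit 589) (nat_lit 557) (nat_lit 5581) (.f (nat_lit 590) (nat_lit 621) (nat_lit 5613) (.d (nat_lit 591) (nat_lit 559) (nat_lit 4558) (nat_lit 623) (nat_lit 4590)))) (.a (.f (nat_lit 463) (nat_lit 431) (nat_lit 6574) (.f (nat_lit 461) (nat_lit 429) (nat_lit 7597) (.d (nat_lit 495) (nat_lit 460) (nat_lit 460) (nat_lit 590) (nat_lit 6606)))) (.f (nat_lit 463) (nat_lit 431) (nat_lit 6574) (.f (nat_lit 461) (nat_lit 429) (nat_lit 7597) (.f (nat_lit 460) (nat_lit 495) (nat_lit 460) (.f (nat_lit 427) (nat_lit 428) (nat_lit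 3499) (.f (nat_lit 459) (nat_lit 426) (nat_lit 3498) (.d (nat_lit 491) (nat_lit 490) (nat_lit 1482) (nat_lit 492) (nat_lit 1483))))))))))
noncomputable def s20157 : Cert := .r (nat_lit 878694100752451684819112014171494893348944508527453583703856059721636761105670104632680804087171216878936761009994083316954910781544153871971926518970131152896) (.p (nat_lit 432) (.a (.f (nat_lit 399) (nat_lit 431) (nat_lit 7567) (.f (nat_lit 400) (nat_lit 367) (nat_lit 7535) (.d (nat_lit 401) (nat_lit 369) (nat_lit 6512) (nat_lit 433) (nat_lit 6544)))) (.a (.f (nat_lit 401) (nat_lit 433) (nat_lit 6544) (.f (nat_lit 400) (nat_lit 369) (nat_lit 6512) (.d (nat_lit 529) (nat_lit 497) (nat_lit 4496) (nat_lit 561) (nat_lit 4528)))) (.a (.f (nat_lit 431) (nat_lit 399) (nat_lit 7567) (.f (nat_lit 433) (nat_lit 401) (nat_lit 6544) (.f (nat_lit 430) (nat_lit 461) (nat_lit 1453) (.d (nat_lit 465) (nat_lit 429) (nat_lit 429) (nat_lit 466) (nat_lit 430))))) (.f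 (nat_lit 399) (nat_lit 431) (nat_lit 7567) (.f (nat_lit 400) (nat_lit 367) (nat_lit 7535) (.d (nat_lit 529) (nat_lit 497) (nat_lit 4496) (nat_lit 561) (nat_lit 4528))))))))
noncomputable def s20182 : Cert := .r (nat_lit 1098367625876631195698532839742099476301566438132039356804478890415574142974395098300602712588337762638210242974521470774142814397535086473974295424285812981760) (.p (nat_lit 430) (.a (.f (nat_lit 399) (nat_lit 431) (nat_lit 6542) (.f (nat_lit 398) (nat_lit 367) (nat_lit 6510) (.d (nat_lit 397) (nat_lit 365) (nat_lit 7533) (nat_lit 429) (nat_lit 7565)))) (.a (.f (nat_lit 429) (nat_lit 397) (nat_lit 7565) (.f (nat_lit 463) (nat_lit 465) (nat_lit 3501) (.d (nat_lit 428) (nat_lit 427) (nat_lit 427) (nat_lit 461) (nat_lit 3500)))) (.a (.f (nat_lit 399) (nat_lit 431) (nat_lit 6542) (.f (nat_lit 398) (nat_lit 367) (nat_lit 6510) (.f (nat_lit 365) (nat_lit 397) (nat_lit 7533) (.f (nat_lit 366) (nat_lit 333) (nat_lit 7501)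 (.f (nat_lit 495) (nat_lit 463) (nat_lit 4462) (.d (nat_lit 497) (nat_lit 461) (nat_lit 3533) (nat_lit 525) (nat_lit 1517))))))) (.f (nat_lit 399) (nat_lit 431) (nat_lit 6542) (.f (nat_lit 398) (nat_lit 367) (nat_lit 6510) (.f (nat_lit 525) (nat_lit 557) (nat_lit 5549) (.f (nat_lit 495) (nat_lit 497) (nat_lit 1517) (.f (nat_lit 463) (nat_lit 366) (nat_lit 4462) (.d (nat_lit 465) (nat_lit 429) (nat_lit 3501) (nat_lit 466) (nat_lit 1486)))))))))))
noncomputable def s20189 : Cert := .r (nat_lit 1098367625876631195698532839742099476301566438132039356804478890415574142974395098300602712588337762638210242974521470774142814397535086473974295424285812981760) (.p (nat_lit 558) (.a (.f (nat_lit 429) (nat_lit 461) (nat_lit 7597) (.f (nat_lit 430) (nat_lit 397) (nat_lit 7565) (.d (nat_lit 557) (nat_lit 525) (nat_lit 5549) (nat_lit 589) (nat_lit 5581)))) (.a (.f (nat_lit 589) (nat_lit 557) (nat_lit 5581) (.f (nat_lit 590) (nat_lit 621) (nat_lit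 5613) (.d (nat_lit 591) (nat_lit 559) (nat_lit 4558) (nat_lit 623) (nat_lit 4590)))) (.f (nat_lit 429) (nat_lit 461) (nat_lit 7597) (.f (nat_lit 430) (nat_lit 397) (nat_lit 7565) (.f (nat_lit 431) (nat_lit 399) (nat_lit 6542) (.f (nat_lit 432) (nat_lit 465) (nat_lit 429) (.f (nat_lit 400) (nat_lit 401) (nat_lit 2445) (.d (nat_lit 529) (nat_lit 497) (nat_lit 4496) (nat_lit 561) (nat_lit 4528))))))))))
noncomputable def s20190 : Cert := .r (nat_lit 1098367625876631195698532839742099476301566438132039356804478890415574142974395098300602712588337762638210242974521470774142814397535086473974295424285812981760) (.p (nat_lit 558) (.a (.f (nat_lit 463) (nat_lit 431) (nat_lit 6574) (.d (nat_lit 461) (nat_lit 429) (nat_lit 7597) (nat_lit 497) (nat_lit 461))) (.a (.f (nat_lit 431) (nat_lit 463) (nat_lit 6574) (.d (nat_lit 399) (nat_lit 430) (nat_lit 6542) (nat_lit 432) (nat_lit 7567))) (.a (.f (nat_lit 429) (nat_lit 461) (nat_lit 7597) (.f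 (nat_lit 430) (nat_lit 397) (nat_lit 7565) (.f (nat_lit 431) (nat_lit 399) (nat_lit 6542) (.f (nat_lit 432) (nat_lit 465) (nat_lit 429) (.f (nat_lit 400) (nat_lit 401) (nat_lit 2445) (.d (nat_lit 529) (nat_lit 497) (nat_lit 4496) (nat_lit 561) (nat_lit 4528))))))) (.f (nat_lit 461) (nat_lit 429) (nat_lit 7597) (.d (nat_lit 497) (nat_lit 463) (nat_lit 461) (nat_lit 495) (nat_lit 3533)))))))
noncomputable def s20201 : Cert := .r (nat_lit 878694100752451684819112014171494893348944508527453583703856059721636761105670104632680804087171216878936761009994083316954910781544153871971926518970131152896) (.p (nat_lit 432) (.a (.f (nat_lit 431) (nat_lit 399) (nat_lit 7567) (.f (nat_lit 433) (nat_lit 401) (nat_lit 6544) (.d (nat_lit 461) (nat_lit 430) (nat_lit 1453) (nat_lit 463) (nat_lit 2477)))) (.a (.f (nat_lit 399) (nat_lit 431) (nat_lit 7567) (.f (nat_lit 400) (nat_lit 367) (nat_lit 7535) (.d (nat_lit 401) (nat_lit 369) (nat_lit 6512) (nat_lit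 433) (nat_lit 6544)))) (.a (.f (nat_lit 401) (nat_lit 433) (nat_lit 6544) (.f (nat_lit 400) (nat_lit 369) (nat_lit 6512) (.d (nat_lit 529) (nat_lit 497) (nat_lit 4496) (nat_lit 561) (nat_lit 4528)))) (.f (nat_lit 399) (nat_lit 431) (nat_lit 7567) (.f (nat_lit 400) (nat_lit 367) (nat_lit 7535) (.d (nat_lit 529) (nat_lit 497) (nat_lit 4496) (nat_lit 561) (nat_lit 4528))))))))
noncomputable def s20209 : Cert := .r (nat_lit 1098367625876631195698532839742099476301566438132039356804478890415574142974395098300602712588337762638210242974521470774142814397535086473974295424285812981760) (.p (nat_lit 558) (.a (.f (nat_lit 429) (nat_lit 461) (nat_lit 7597) (.f (nat_lit 430) (nat_lit 397) (nat_lit 7565) (.d (nat_lit 557) (nat_lit 525) (nat_lit 5549) (nat_lit 589) (nat_lit 5581)))) (.a (.f (nat_lit 589) (nat_lit 557) (nat_lit 5581) (.f (nat_lit 590) (nat_lit 621) (nat_lit 5613) (.d (nat_lit 591) (nat_lit 559) (nat_lit 4558) (nat_lit 623) (nat_lit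 4590)))) (.f (nat_lit 429) (nat_lit 461) (nat_lit 7597) (.f (nat_lit 430) (nat_lit 397) (nat_lit 7565) (.f (nat_lit 431) (nat_lit 399) (nat_lit 6542) (.f (nat_lit 432) (nat_lit 465) (nat_lit 429) (.f (nat_lit 529) (nat_lit 561) (nat_lit 4528) (.f (nat_lit 497) (nat_lit 400) (nat_lit 4496) (.d (nat_lit 495) (nat_lit 525) (nat_lit 1517) (nat_lit 530) (nat_lit 494)))))))))))
noncomputable def s20210 : Cert := .r (nat_lit 1098367625876631195698532839742099476301566438132039356804478890415574142974395098300602712588337762638210242974521470774142814397535086473974295424285812981760) (.p (nat_lit 558) (.a (.f (nat_lit 463) (nat_lit 431) (nat_lit 6574) (.d (nat_lit 461) (nat_lit 429) (nat_lit 7597) (nat_lit 497) (nat_lit 461))) (.a (.f (nat_lit 431) (nat_lit 463) (nat_lit 6574) (.d (nat_lit 399) (nat_lit 430) (nat_lit 6542) (nat_lit 432) (nat_lit 7567))) (.a (.f (nat_lit 429) (nat_lit 461) (nat_lit 7597) (.f (nat_lit 430) (nat_lit 397) (nat_lit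 7565) (.f (nat_lit 431) (nat_lit 399) (nat_lit 6542) (.f (nat_lit 432) (nat_lit 465) (nat_lit 429) (.f (nat_lit 529) (nat_lit 561) (nat_lit 4528) (.f (nat_lit 497) (nat_lit 400) (nat_lit 4496) (.d (nat_lit 495) (nat_lit 525) (nat_lit 1517) (nat_lit 530) (nat_lit 494)))))))) (.f (nat_lit 461) (nat_lit 429) (nat_lit 7597) (.d (nat_lit 497) (nat_lit 463) (nat_lit 461) (nat_lit 495) (nat_lit 3533)))))))
noncomputable def s20221 : Cert := .r (nat_lit 878694100752451684771477911536058000169904023453705318540455819507632684707062362939178427701371570575831504310416874284364778165555893634919802866637241057280) (.p (nat_lit 495) (.a (.f (nat_lit 493) (nat_lit 529) (nat_lit 493) (.d (nat_lit 461) (nat_lit 460) (nat_lit 3532) (nat_lit 497) (nat_lit 3533))) (.a (.f (nat_lit 461) (nat_lit 497) (nat_lit 3533) (.d (nat_lit 460) (nat_lit 459) (nat_lit 459) (nat_lit 493) (nat_lit 3532))) (.a (.f (nat_lit 493) (nat_lit 529) (nat_lit 493) (.f (nat_lit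 461) (nat_lit 460) (nat_lit 3532) (.f (nat_lit 525) (nat_lit 524) (nat_lit 1516) (.d (nat_lit 430) (nat_lit 398) (nat_lit 5517) (nat_lit 557) (nat_lit 6573))))) (.a (.f (nat_lit 497) (nat_lit 461) (nat_lit 3533) (.f (nat_lit 529) (nat_lit 530) (nat_lit 494) (.f (nat_lit 465) (nat_lit 466) (nat_lit 2510) (.f (nat_lit 433) (nat_lit 401) (nat_lit 5520) (.f (nat_lit 432) (nat_lit 400) (nat_lit 7568) (.f (nat_lit 561) (nat_lit 464) (nat_lit 4528) (.f (nat_lit 593) (nat_lit 625) (nat_lit 7664) (.d (nat_lit 594) (nat_lit 562) (nat_lit 4561) (nat_lit 626) (nat_lit 4593))))))))) (.f (nat_lit 493) (nat_lit 529) (nat_lit 493) (.f (nat_lit 525) (nat_lit 524) (nat_lit 1516) (.f (nat_lit 526) (nat_lit 497) (nat_lit 1517) (.d (nat_lit 430) (nat_lit 398) (nat_lit 5517) (nat_lit 557) (nat_lit 5549))))))))))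
noncomputable def s20327 : Cert := .r (nat_lit 878694100752451684771477911536058000169904023453705318540455819507632684707062362939178427701371570575831504310416874284364778165555893634919802866637241057280) (.p (nat_lit 526) (.a (.p (nat_lit 558) (.a (.f (nat_lit 557) (nat_lit 589) (nat_lit 5581) (.f (nat_lit 525) (nat_lit 430) (nat_lit 5549) (.d (nat_lit 527) (nat_lit 497) (nat_lit 2541) (nat_lit 556) (nat_lit 1548)))) (.a (.f (nat_lit 429) (nat_lit 461) (nat_lit 7597) (.f (nat_lit 430) (nat_lit 397) (nat_lit 7565) (.d (nat_lit 431) (nat_lit 399) (nat_lit 6542) (nat_lit 463) (nat_lit 6574)))) (.f (nat_lit 591) (nat_lit 559) (nat_lit 4558) (.f (nat_lit 590) (nat_lit 623) (nat_lit 4590) (.d (nat_lit 461) (nat_lit 429) (nat_lit 7597) (nat_lit 493) (nat_lit 7629))))))) (.a (.p (nat_lit 558) (.a (.f (nat_lit 429) (nat_lit 461) (nat_lit 7597) (.f (nat_lit 430) (nat_lit 397) (nat_lit 7565) (.d (nat_lit 431) (nat_lit 399) (nat_lit 6542)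 (nat_lit 463) (nat_lit 6574)))) (.a (.f (nat_lit 591) (nat_lit 559) (nat_lit 4558) (.f (nat_lit 590) (nat_lit 623) (nat_lit 4590) (.d (nat_lit 461) (nat_lit 429) (nat_lit 7597) (nat_lit 493) (nat_lit 7629)))) (.f (nat_lit 557) (nat_lit 589) (nat_lit 5581) (.f (nat_lit 430) (nat_lit 525) (nat_lit 5549) (.d (nat_lit 431) (nat_lit 399) (nat_lit 6542) (nat_lit 463) (nat_lit 6574))))))) (.a (.p (nat_lit 558) (.a (.f (nat_lit 557) (nat_lit 589) (nat_lit 5581) (.f (nat_lit 525) (nat_lit 430) (nat_lit 5549) (.d (nat_lit 527) (nat_lit 497) (nat_lit 2541) (nat_lit 556) (nat_lit 1548)))) (.a (.f (nat_lit 429) (nat_lit 461) (nat_lit 7597) (.f (nat_lit 430) (nat_lit 397) (nat_lit 7565) (.d (nat_lit 431) (nat_lit 399) (nat_lit 6542) (nat_lit 463) (nat_lit 6574)))) (.f (nat_lit 557) (nat_lit 589) (nat_lit 5581) (.f (nat_lit 527) (nat_lit 529) (nat_lit 1549) (.d (nat_lit 556) (nat_lit 525) (nat_lit 1548) (nat_lit 555) (nat_lit 2571))))))) (.a (.p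 (nat_lit 558) (.a (.f (nat_lit 429) (nat_lit 461) (nat_lit 7597) (.f (nat_lit 430) (nat_lit 397) (nat_lit 7565) (.d (nat_lit 431) (nat_lit 399) (nat_lit 6542) (nat_lit 463) (nat_lit 6574)))) (.a (.f (nat_lit 591) (nat_lit 559) (nat_lit 4558) (.f (nat_lit 590) (nat_lit 623) (nat_lit 4590) (.d (nat_lit 461) (nat_lit 429) (nat_lit 7597) (nat_lit 493) (nat_lit 7629)))) (.f (nat_lit 559) (nat_lit 591) (nat_lit 4558) (.f (nat_lit 527) (nat_lit 430) (nat_lit 4526) (.d (nat_lit 557) (nat_lit 556) (nat_lit 2572) (nat_lit 589) (nat_lit 5581))))))) (.a s19513 (.a (.p (nat_lit 558) (.a (.f (nat_lit 429) (nat_lit 461) (nat_lit 7597) (.f (nat_lit 430) (nat_lit 397) (nat_lit 7565) (.d (nat_lit 431) (nat_lit 399) (nat_lit 6542) (nat_lit 463) (nat_lit 6574)))) (.a (.f (nat_lit 591) (nat_lit 559) (nat_lit 4558) (.f (nat_lit 590) (nat_lit 623) (nat_lit 4590) (.d (nat_lit 461) (nat_lit 429) (nat_lit 7597) (nat_lit 493) (nat_lit 7629)))) (.f (nat_lit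 559) (nat_lit 591) (nat_lit 4558) (.f (nat_lit 430) (nat_lit 527) (nat_lit 4526) (.d (nat_lit 431) (nat_lit 399) (nat_lit 6542) (nat_lit 463) (nat_lit 6574))))))) (.a (.p (nat_lit 558) (.a (.f (nat_lit 557) (nat_lit 589) (nat_lit 5581) (.f (nat_lit 525) (nat_lit 430) (nat_lit 5549) (.d (nat_lit 527) (nat_lit 497) (nat_lit 2541) (nat_lit 556) (nat_lit 1548)))) (.f (nat_lit 591) (nat_lit 559) (nat_lit 4558) (.f (nat_lit 590) (nat_lit 623) (nat_lit 4590) (.d (nat_lit 461) (nat_lit 429) (nat_lit 7597) (nat_lit 493) (nat_lit 7629)))))) (.a (.p (nat_lit 558) (.a (.f (nat_lit 591) (nat_lit 559) (nat_lit 4558) (.f (nat_lit 590) (nat_lit 623) (nat_lit 4590) (.d (nat_lit 461) (nat_lit 429) (nat_lit 7597) (nat_lit 493) (nat_lit 7629)))) (.f (nat_lit 557) (nat_lit 589) (nat_lit 5581) (.f (nat_lit 527) (nat_lit 529) (nat_lit 1549) (.d (nat_lit 556) (nat_lit 525) (nat_lit 1548) (nat_lit 555) (nat_lit 2571)))))) s19530)))))))))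
noncomputable def s20370 : Cert := .r (nat_lit 878694100752451684819112014171494893348944508527453583703856059721636761105670104632680804087171216878936761009994083316954910781544153871971926518970131152896) (.p (nat_lit 432) (.a (.f (nat_lit 431) (nat_lit 399) (nat_lit 7567) (.f (nat_lit 433) (nat_lit 401) (nat_lit 6544) (.d (nat_lit 461) (nat_lit 430) (nat_lit 1453) (nat_lit 463) (nat_lit 2477)))) (.a (.f (nat_lit 399) (nat_lit 431) (nat_lit 7567) (.f (nat_lit 400) (nat_lit 367) (nat_lit 7535) (.d (nat_lit 401) (nat_lit 369) (nat_lit 6512) (nat_lit 433) (nat_lit 6544)))) (.a (.f (nat_lit 433) (nat_lit 401) (nat_lit 6544) (.f (nat_lit 463) (nat_lit 461) (nat_lit 2477) (.d (nat_lit 434) (nat_lit 435) (nat_lit 1455) (nat_lit 465) (nat_lit 2478)))) (.p (nat_lit 463) (.a (.f (nat_lit 431) (nat_lit 399) (nat_lit 7567) (.f (nat_lit 465) (nat_lit 493) (nat_lit 1485) (.d (nat_lit 430) (nat_lit 429) (nat_lit 3501) (nat_lit 466) (nat_lit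 3502)))) (.a (.f (nat_lit 431) (nat_lit 399) (nat_lit 7567) (.f (nat_lit 461) (nat_lit 460) (nat_lit 2476) (.f (nat_lit 429) (nat_lit 428) (nat_lit 3500) (.f (nat_lit 430) (nat_lit 465) (nat_lit 429) (.d (nat_lit 397) (nat_lit 365) (nat_lit 4461) (nat_lit 396) (nat_lit 3468)))))) (.a (.f (nat_lit 493) (nat_lit 465) (nat_lit 1485) (.d (nat_lit 492) (nat_lit 461) (nat_lit 1484) (nat_lit 491) (nat_lit 2507))) (.f (nat_lit 431) (nat_lit 399) (nat_lit 7567) (.f (nat_lit 461) (nat_lit 460) (nat_lit 2476) (.f (nat_lit 429) (nat_lit 428) (nat_lit 3500) (.f (nat_lit 493) (nat_lit 492) (nat_lit 1484) (.f (nat_lit 397) (nat_lit 365) (nat_lit 4461) (.d (nat_lit 396) (nat_lit 364) (nat_lit 7532) (nat_lit 430) (nat_lit 3468)))))))))))))))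
noncomputable def s20382 : Cert := .r (nat_lit 878694100752451684819112014171494893348944508527453583703856059721636761105670104632680804087171216878936761009994083316954910781544153871971926518970131152896) (.p (nat_lit 432) (.a (.f (nat_lit 433) (nat_lit 401) (nat_lit 6544) (.f (nat_lit 463) (nat_lit 461) (nat_lit 2477) (.d (nat_lit 434) (nat_lit 435) (nat_lit 1455) (nat_lit 465) (nat_lit 2478)))) (.a (.f (nat_lit 401) (nat_lit 433) (nat_lit 6544) (.f (nat_lit 400) (nat_lit 369) (nat_lit 6512) (.d (nat_lit 529) (nat_lit 497) (nat_lit 4496) (nat_lit 561) (nat_lit 4528)))) (.a (.f (nat_lit 529) (nat_lit 561) (nat_lit 4528) (.f (nat_lit 400) (nat_lit 497) (nat_lit 4496) (.f (nat_lit 367) (nat_lit 399) (nat_lit 7535) (.f (nat_lit 368) (nat_lit 335) (nat_lit 7503) (.d (nat_lit 369) (nat_lit 337) (nat_lit 6480) (nat_lit 401) (nat_lit 6512)))))) (.f (nat_lit 529) (nat_lit 561) (nat_lit 4528) (.f (nat_lit 400) (nat_lit 497) (nat_lit 4496)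 (.f (nat_lit 367) (nat_lit 399) (nat_lit 7535) (.f (nat_lit 368) (nat_lit 335) (nat_lit 7503) (.f (nat_lit 337) (nat_lit 369) (nat_lit 6480) (.f (nat_lit 336) (nat_lit 305) (nat_lit 6448) (.f (nat_lit 465) (nat_lit 433) (nat_lit 4432) (.f (nat_lit 463) (nat_lit 493) (nat_lit 1485) (.f (nat_lit 429) (nat_lit 430) (nat_lit 3501) (.f (nat_lit 461) (nat_lit 428) (nat_lit 3500) (.d (nat_lit 365) (nat_lit 366) (nat_lit 2381) (nat_lit 397) (nat_lit 4461))))))))))))))))
noncomputable def s20393 : Cert := .r (nat_lit 878694100752451684819112014171494893348944508527453583703856059721636761105670104632680804087171216878936761009994083316954910781544153871971926518970131152896) (.p (nat_lit 463) (.a (.f (nat_lit 461) (nat_lit 497) (nat_lit 461) (.d (nat_lit 493) (nat_lit 465) (nat_lit 1485) (nat_lit 492) (nat_lit 1484))) (.a (.f (nat_lit 493) (nat_lit 465) (nat_lit 1485) (.d (nat_lit 492) (nat_lit 461) (nat_lit 1484) (nat_lit 491) (nat_lit 2507)))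 (.a (.f (nat_lit 461) (nat_lit 497) (nat_lit 461) (.f (nat_lit 428) (nat_lit 429) (nat_lit 3500) (.f (nat_lit 460) (nat_lit 427) (nat_lit 3499) (.f (nat_lit 431) (nat_lit 432) (nat_lit 2476) (.f (nat_lit 459) (nat_lit 430) (nat_lit 2475) (.d (nat_lit 491) (nat_lit 490) (nat_lit 1482) (nat_lit 492) (nat_lit 1483))))))) (.f (nat_lit 465) (nat_lit 493) (nat_lit 1485) (.f (nat_lit 430) (nat_lit 429) (nat_lit 3501) (.f (nat_lit 431) (nat_lit 466) (nat_lit 3502) (.d (nat_lit 399) (nat_lit 367) (nat_lit 5486) (nat_lit 432) (nat_lit 7567)))))))))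
noncomputable def s20394 : Cert := .r (nat_lit 878694100752451684819112014171494893348944508527453583703856059721636761105670104632680804087171216878936761009994083316954910781544153871971926518970131152896) (.p (nat_lit 432) (.a (.f (nat_lit 399) (nat_lit 431) (nat_lit 7567) (.f (nat_lit 400) (nat_lit 367) (nat_lit 7535) (.d (nat_lit 401) (nat_lit 369) (nat_lit 6512) (nat_lit 433) (nat_lit 6544)))) (.a (.f (nat_lit 401) (nat_lit 433) (nat_lit 6544) (.f (nat_lit 400) (nat_lit 369) (nat_lit 6512) (.d (nat_lit 529) (nat_lit 497) (nat_lit 4496) (nat_lit 561) (nat_lit 4528)))) (.a (.f (nat_lit 431) (nat_lit 399) (nat_lit 7567) (.f (nat_lit 433) (nat_lit 401) (nat_lit 6544) (.f (nat_lit 463) (nat_lit 434) (nat_lit 1454) (.f (nat_lit 465) (nat_lit 493) (nat_lit 1485) (.d (nat_lit 430) (nat_lit 429) (nat_lit 3501) (nat_lit 466) (nat_lit 3502)))))) (.f (nat_lit 399) (nat_lit 431) (nat_lit 7567) (.f (nat_lit 400) (nat_lit 367) (nat_lit 7535)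 (.d (nat_lit 529) (nat_lit 497) (nat_lit 4496) (nat_lit 561) (nat_lit 4528))))))))
noncomputable def s20401 : Cert := .r (nat_lit 878694100752451684771477911536058000169904023453705318540455819507632684707062362939178427701371570575831504310416874284364778165555893634919802866637241057280) (.p (nat_lit 526) (.a (.p (nat_lit 558) (.a (.f (nat_lit 429) (nat_lit 461) (nat_lit 7597) (.f (nat_lit 430) (nat_lit 397) (nat_lit 7565) (.d (nat_lit 431) (nat_lit 399) (nat_lit 6542) (nat_lit 463) (nat_lit 6574)))) (.a (.f (nat_lit 591) (nat_lit 559) (nat_lit 4558) (.f (nat_lit 590) (nat_lit 623) (nat_lit 4590) (.d (nat_lit 461) (nat_lit 429) (nat_lit 7597) (nat_lit 493) (nat_lit 7629)))) (.f (nat_lit 557) (nat_lit 589) (nat_lit 5581) (.f (nat_lit 430) (nat_lit 525) (nat_lit 5549) (.d (nat_lit 431) (nat_lit 399) (nat_lit 6542) (nat_lit 463) (nat_lit 6574))))))) (.a s19680 (.a (.p (nat_lit 558) (.a (.f (nat_lit 429) (nat_lit 461) (nat_lit 7597)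 (.f (nat_lit 430) (nat_lit 397) (nat_lit 7565) (.d (nat_lit 431) (nat_lit 399) (nat_lit 6542) (nat_lit 463) (nat_lit 6574)))) (.a (.f (nat_lit 591) (nat_lit 559) (nat_lit 4558) (.f (nat_lit 590) (nat_lit 623) (nat_lit 4590) (.d (nat_lit 461) (nat_lit 429) (nat_lit 7597) (nat_lit 493) (nat_lit 7629)))) (.f (nat_lit 559) (nat_lit 591) (nat_lit 4558) (.f (nat_lit 527) (nat_lit 430) (nat_lit 4526) (.d (nat_lit 557) (nat_lit 556) (nat_lit 2572) (nat_lit 589) (nat_lit 5581))))))) (.a (.p (nat_lit 527) (.a (.f (nat_lit 430) (nat_lit 559) (nat_lit 4526) (.f (nat_lit 397) (nat_lit 429) (nat_lit 7565) (.f (nat_lit 398) (nat_lit 365) (nat_lit 7533) (.d (nat_lit 399) (nat_lit 367) (nat_lit 6510) (nat_lit 431) (nat_lit 6542))))) (.f (nat_lit 493) (nat_lit 529) (nat_lit 3565) (.d (nat_lit 492) (nat_lit 491) (nat_lit 491) (nat_lit 525) (nat_lit 3564))))) (.a (.p (nat_lit 558) (.a (.f (nat_lit 429) (nat_lit 461) (nat_lit 7597) (.f (nat_lit 430)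 (nat_lit 397) (nat_lit 7565) (.d (nat_lit 431) (nat_lit 399) (nat_lit 6542) (nat_lit 463) (nat_lit 6574)))) (.f (nat_lit 589) (nat_lit 557) (nat_lit 5581) (.f (nat_lit 590) (nat_lit 621) (nat_lit 5613) (.d (nat_lit 591) (nat_lit 559) (nat_lit 4558) (nat_lit 623) (nat_lit 4590)))))) (.a (.p (nat_lit 558) (.a (.f (nat_lit 591) (nat_lit 559) (nat_lit 4558) (.f (nat_lit 590) (nat_lit 623) (nat_lit 4590) (.d (nat_lit 461) (nat_lit 429) (nat_lit 7597) (nat_lit 493) (nat_lit 7629)))) (.a (.f (nat_lit 429) (nat_lit 461) (nat_lit 7597) (.f (nat_lit 430) (nat_lit 397) (nat_lit 7565) (.d (nat_lit 557) (nat_lit 525) (nat_lit 5549) (nat_lit 589) (nat_lit 5581)))) (.f (nat_lit 589) (nat_lit 557) (nat_lit 5581) (.f (nat_lit 590) (nat_lit 621) (nat_lit 5613) (.d (nat_lit 591) (nat_lit 559) (nat_lit 4558) (nat_lit 623) (nat_lit 4590))))))) (.a s19529 s19554))))))))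
noncomputable def s20402 : Cert := .r (nat_lit 1098367625876631195650898737106662583122525953058291091641078650201570066575787356607100336202538116335104986274944261741552681781546826236922171771952922886144) (.p (nat_lit 558) (.a (.f (nat_lit 557) (nat_lit 589) (nat_lit 5581) (.f (nat_lit 525) (nat_lit 430) (nat_lit 5549) (.d (nat_lit 527) (nat_lit 497) (nat_lit 2541) (nat_lit 556) (nat_lit 1548)))) (.a (.f (nat_lit 589) (nat_lit 557) (nat_lit 5581) (.f (nat_lit 590) (nat_lit 621) (nat_lit 5613) (.d (nat_lit 591) (nat_lit 559) (nat_lit 4558) (nat_lit 623) (nat_lit 4590)))) (.f (nat_lit 559) (nat_lit 591) (nat_lit 4558) (.f (nat_lit 527) (nat_lit 430) (nat_lit 4526) (.f (nat_lit 529) (nat_lit 530) (nat_lit 1550) (.f (nat_lit 561) (nat_lit 562) (nat_lit 526) (.f (nat_lit 464) (nat_lit 432) (nat_lit 4528) (.d (nat_lit 497) (nat_lit 525) (nat_lit 2541) (nat_lit 593) (nat_lit 7632))))))))))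
noncomputable def s20403 : Cert := .r (nat_lit 1098367625876631195650898737106662583122525953058291091641078650201570066575787356607100336202538116335104986274944261741552681781546826236922171771952922886144) (.p (nat_lit 558) (.a (.f (nat_lit 557) (nat_lit 589) (nat_lit 5581) (.f (nat_lit 527) (nat_lit 529) (nat_lit 1549) (.d (nat_lit 556) (nat_lit 525) (nat_lit 1548) (nat_lit 555) (nat_lit 2571)))) (.a (.f (nat_lit 589) (nat_lit 557) (nat_lit 5581) (.f (nat_lit 590) (nat_lit 621) (nat_lit 5613) (.d (nat_lit 591) (nat_lit 559) (nat_lit 4558) (nat_lit 623) (nat_lit 4590)))) (.f (nat_lit 559) (nat_lit 591) (nat_lit 4558) (.f (nat_lit 461) (nat_lit 429) (nat_lit 7597) (.f (nat_lit 463) (nat_lit 431) (nat_lit 6574) (.f (nat_lit 464) (nat_lit 497) (nat_lit 461) (.d (nat_lit 432) (nat_lit 433) (nat_lit 2477) (nat_lit 527) (nat_lit 5551)))))))))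
noncomputable def s20404 : Cert := .r (nat_lit 878694100752451684771477911536058000169904023453705318540455819507632684707062362939178427701371570575831504310416874284364778165555893634919802866637241057280) (.p (nat_lit 526) (.a (.p (nat_lit 558) (.a (.f (nat_lit 557) (nat_lit 589) (nat_lit 5581) (.f (nat_lit 525) (nat_lit 430) (nat_lit 5549) (.d (nat_lit 527) (nat_lit 497) (nat_lit 2541) (nat_lit 556) (nat_lit 1548)))) (.a (.f (nat_lit 429) (nat_lit 461) (nat_lit 7597) (.f (nat_lit 430) (nat_lit 397) (nat_lit 7565) (.d (nat_lit 431) (nat_lit 399) (nat_lit 6542) (nat_lit 463) (nat_lit 6574)))) (.f (nat_lit 589) (nat_lit 557) (nat_lit 5581) (.f (nat_lit 590) (nat_lit 621) (nat_lit 5613) (.d (nat_lit 591) (nat_lit 559) (nat_lit 4558) (nat_lit 623) (nat_lit 4590))))))) (.a (.p (nat_lit 558) (.a (.f (nat_lit 429) (nat_lit 461) (nat_lit 7597) (.f (nat_lit 430) (nat_lit 397) (nat_lit 7565) (.d (nat_lit 431) (nat_lit 399) (nat_lit 6542)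 (nat_lit 463) (nat_lit 6574)))) (.f (nat_lit 589) (nat_lit 557) (nat_lit 5581) (.f (nat_lit 590) (nat_lit 621) (nat_lit 5613) (.d (nat_lit 591) (nat_lit 559) (nat_lit 4558) (nat_lit 623) (nat_lit 4590)))))) (.a (.p (nat_lit 558) (.a (.f (nat_lit 557) (nat_lit 589) (nat_lit 5581) (.f (nat_lit 525) (nat_lit 430) (nat_lit 5549) (.d (nat_lit 527) (nat_lit 497) (nat_lit 2541) (nat_lit 556) (nat_lit 1548)))) (.a (.f (nat_lit 429) (nat_lit 461) (nat_lit 7597) (.f (nat_lit 430) (nat_lit 397) (nat_lit 7565) (.d (nat_lit 431) (nat_lit 399) (nat_lit 6542) (nat_lit 463) (nat_lit 6574)))) (.f (nat_lit 557) (nat_lit 589) (nat_lit 5581) (.f (nat_lit 527) (nat_lit 529) (nat_lit 1549) (.d (nat_lit 556) (nat_lit 525) (nat_lit 1548) (nat_lit 555) (nat_lit 2571))))))) (.a (.p (nat_lit 430) (.a (.f (nat_lit 399) (nat_lit 431) (nat_lit 6542) (.f (nat_lit 398) (nat_lit 367) (nat_lit 6510) (.d (nat_lit 397) (nat_lit 365) (nat_lit 7533) (nat_lit 429) (nat_lit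 7565)))) (.f (nat_lit 527) (nat_lit 559) (nat_lit 4526) (.d (nat_lit 525) (nat_lit 497) (nat_lit 2541) (nat_lit 557) (nat_lit 5549))))) (.a s19703 (.a s20402 s20403)))))))
noncomputable def s20406 : Cert := .r (nat_lit 878694100752451684771477911536058000169904023453705318540455819507632684707062362939178427701371570575831504310416874284364778165555893634919802866637241057280) (.p (nat_lit 526) (.a s19513 (.a (.p (nat_lit 558) (.a (.f (nat_lit 591) (nat_lit 559) (nat_lit 4558) (.f (nat_lit 590) (nat_lit 623) (nat_lit 4590) (.d (nat_lit 461) (nat_lit 429) (nat_lit 7597) (nat_lit 493) (nat_lit 7629)))) (.a (.f (nat_lit 429) (nat_lit 461) (nat_lit 7597) (.f (nat_lit 430) (nat_lit 397) (nat_lit 7565) (.d (nat_lit 557) (nat_lit 525) (nat_lit 5549) (nat_lit 589) (nat_lit 5581)))) (.f (nat_lit 589) (nat_lit 557) (nat_lit 5581) (.f (nat_lit 590) (nat_lit 621) (nat_lit 5613) (.d (nat_lit 591) (nat_lit 559) (nat_lit 4558) (nat_lit 623) (nat_lit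 4590))))))) (.a (.p (nat_lit 527) (.a (.f (nat_lit 525) (nat_lit 497) (nat_lit 2541) (.d (nat_lit 557) (nat_lit 430) (nat_lit 5549) (nat_lit 556) (nat_lit 1548))) (.a (.f (nat_lit 529) (nat_lit 493) (nat_lit 3565) (.f (nat_lit 561) (nat_lit 562) (nat_lit 526) (.f (nat_lit 464) (nat_lit 432) (nat_lit 4528) (.d (nat_lit 593) (nat_lit 497) (nat_lit 7632) (nat_lit 625) (nat_lit 7664))))) (.f (nat_lit 493) (nat_lit 529) (nat_lit 3565) (.d (nat_lit 492) (nat_lit 491) (nat_lit 491) (nat_lit 525) (nat_lit 3564)))))) (.a (.p (nat_lit 527) (.a (.f (nat_lit 430) (nat_lit 559) (nat_lit 4526) (.f (nat_lit 397) (nat_lit 429) (nat_lit 7565) (.f (nat_lit 398) (nat_lit 365) (nat_lit 7533) (.d (nat_lit 399) (nat_lit 367) (nat_lit 6510) (nat_lit 431) (nat_lit 6542))))) (.f (nat_lit 529) (nat_lit 493) (nat_lit 3565) (.f (nat_lit 561) (nat_lit 562) (nat_lit 526) (.f (nat_lit 464) (nat_lit 432) (nat_lit 4528) (.d (nat_lit 593) (nat_lit 497) (nat_lit 7632)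 (nat_lit 625) (nat_lit 7664))))))) (.a (.p (nat_lit 430) (.a (.f (nat_lit 399) (nat_lit 431) (nat_lit 6542) (.f (nat_lit 398) (nat_lit 367) (nat_lit 6510) (.d (nat_lit 397) (nat_lit 365) (nat_lit 7533) (nat_lit 429) (nat_lit 7565)))) (.f (nat_lit 527) (nat_lit 559) (nat_lit 4526) (.d (nat_lit 525) (nat_lit 497) (nat_lit 2541) (nat_lit 557) (nat_lit 5549))))) (.p (nat_lit 558) (.a (.f (nat_lit 591) (nat_lit 559) (nat_lit 4558) (.f (nat_lit 590) (nat_lit 623) (nat_lit 4590) (.d (nat_lit 461) (nat_lit 429) (nat_lit 7597) (nat_lit 493) (nat_lit 7629)))) (.f (nat_lit 557) (nat_lit 589) (nat_lit 5581) (.f (nat_lit 527) (nat_lit 529) (nat_lit 1549) (.d (nat_lit 556) (nat_lit 525) (nat_lit 1548) (nat_lit 555) (nat_lit 2571))))))))))))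
noncomputable def s20428 : Cert := .r (nat_lit 1098367625876631195650898737106662583122525953058291091641078650201570066575787356607100336202538116335104986274944261741552681781546826236922171771952922886144) (.p (nat_lit 431) (.a (.f (nat_lit 430) (nat_lit 399) (nat_lit 6542) (.f (nat_lit 429) (nat_lit 397) (nat_lit 7565) (.f (nat_lit 463) (nat_lit 558) (nat_lit 6574) (.d (nat_lit 428) (nat_lit 427) (nat_lit 427) (nat_lit 464) (nat_lit 428))))) (.a (.f (nat_lit 463) (nat_lit 558) (nat_lit 6574) (.d (nat_lit 399) (nat_lit 367) (nat_lit 5486) (nat_lit 430) (nat_lit 6542))) (.a (.f (nat_lit 399) (nat_lit 430) (nat_lit 6542) (.f (nat_lit 463) (nat_lit 367) (nat_lit 5486) (.f (nat_lit 464) (nat_lit 432) (nat_lit 7567) (.f (nat_lit 493) (nat_lit 465) (nat_lit 1485) (.d (nat_lit 461) (nat_lit 492) (nat_lit 1484) (nat_lit 497) (nat_lit 461)))))) (.a (.f (nat_lit 430) (nat_lit 399) (nat_lit 6542) (.f (nat_lit 429) (nat_lit 397) (nat_lit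 7565) (.f (nat_lit 461) (nat_lit 558) (nat_lit 7597) (.d (nat_lit 432) (nat_lit 433) (nat_lit 1453) (nat_lit 460) (nat_lit 1452))))) (.f (nat_lit 558) (nat_lit 463) (nat_lit 6574) (.f (nat_lit 461) (nat_lit 429) (nat_lit 7597) (.f (nat_lit 493) (nat_lit 590) (nat_lit 7629) (.f (nat_lit 527) (nat_lit 529) (nat_lit 3565) (.d (nat_lit 492) (nat_lit 491) (nat_lit 491) (nat_lit 525) (nat_lit 3564)))))))))))
noncomputable def s20433 : Cert := .r (nat_lit 1098367625876631195650898737106662583122525953058291091641078650201570066575787356607100336202538116335104986274944261741552681781546826236922171771952922886144) (.p (nat_lit 558) (.a (.f (nat_lit 591) (nat_lit 559) (nat_lit 4558) (.f (nat_lit 590) (nat_lit 623) (nat_lit 4590) (.d (nat_lit 461) (nat_lit 429) (nat_lit 7597) (nat_lit 493) (nat_lit 7629)))) (.a (.f (nat_lit 461) (nat_lit 429) (nat_lit 7597) (.f (nat_lit 493) (nat_lit 590) (nat_lit 7629) (.f (nat_lit 527) (nat_lit 529) (nat_lit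 3565) (.d (nat_lit 492) (nat_lit 491) (nat_lit 491) (nat_lit 525) (nat_lit 3564))))) (.f (nat_lit 559) (nat_lit 591) (nat_lit 4558) (.f (nat_lit 527) (nat_lit 430) (nat_lit 4526) (.f (nat_lit 529) (nat_lit 530) (nat_lit 1550) (.f (nat_lit 561) (nat_lit 562) (nat_lit 526) (.f (nat_lit 464) (nat_lit 432) (nat_lit 4528) (.d (nat_lit 497) (nat_lit 525) (nat_lit 2541) (nat_lit 593) (nat_lit 7632))))))))))
noncomputable def s20445 : Cert := .r (nat_lit 1098367625876631195650898737106662583122525953058291091641078650201570066575787356607100336202538116335104986274944261741552681781546826236922171771952922886144) (.p (nat_lit 558) (.a (.f (nat_lit 591) (nat_lit 559) (nat_lit 4558) (.f (nat_lit 590) (nat_lit 623) (nat_lit 4590) (.d (nat_lit 461) (nat_lit 429) (nat_lit 7597) (nat_lit 493) (nat_lit 7629)))) (.a (.f (nat_lit 461) (nat_lit 429) (nat_lit 7597) (.f (nat_lit 463) (nat_lit 431) (nat_lit 6574) (.f (nat_lit 493) (nat_lit 590) (nat_lit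 7629) (.d (nat_lit 464) (nat_lit 465) (nat_lit 1485) (nat_lit 492) (nat_lit 1484))))) (.a (.f (nat_lit 559) (nat_lit 591) (nat_lit 4558) (.f (nat_lit 461) (nat_lit 429) (nat_lit 7597) (.f (nat_lit 463) (nat_lit 431) (nat_lit 6574) (.f (nat_lit 464) (nat_lit 497) (nat_lit 461) (.d (nat_lit 432) (nat_lit 433) (nat_lit 2477) (nat_lit 527) (nat_lit 5551)))))) (.f (nat_lit 591) (nat_lit 559) (nat_lit 4558) (.f (nat_lit 590) (nat_lit 623) (nat_lit 4590) (.f (nat_lit 621) (nat_lit 589) (nat_lit 5613) (.f (nat_lit 622) (nat_lit 653) (nat_lit 5645) (.f (nat_lit 493) (nat_lit 525) (nat_lit 7661) (.f (nat_lit 463) (nat_lit 431) (nat_lit 6574) (.f (nat_lit 464) (nat_lit 465) (nat_lit 1485) (.f (nat_lit 529) (nat_lit 527) (nat_lit 3565) (.f (nat_lit 432) (nat_lit 561) (nat_lit 4528) (.f (nat_lit 400) (nat_lit 497) (nat_lit 4496) (.d (nat_lit 401) (nat_lit 369) (nat_lit 6512) (nat_lit 433) (nat_lit 6544))))))))))))))))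
noncomputable def s20454 : Cert := .r (nat_lit 1098367625876631195650898737106662583122525953058291091641078650201570066575787356607100336202538116335104986274944261741552681781546826236922171771952922886144) (.p (nat_lit 527) (.a (.f (nat_lit 525) (nat_lit 497) (nat_lit 2541) (.f (nat_lit 493) (nat_lit 492) (nat_lit 3564) (.d (nat_lit 557) (nat_lit 556) (nat_lit 1548) (nat_lit 589) (nat_lit 6605)))) (.a (.f (nat_lit 529) (nat_lit 493) (nat_lit 3565) (.f (nat_lit 561) (nat_lit 562) (nat_lit 526) (.f (nat_lit 464) (nat_lit 432) (nat_lit 4528) (.d (nat_lit 593) (nat_lit 497) (nat_lit 7632) (nat_lit 625) (nat_lit 7664))))) (.a (.f (nat_lit 493) (nat_lit 529) (nat_lit 3565) (.d (nat_lit 492) (nat_lit 491) (nat_lit 491) (nat_lit 525) (nat_lit 3564))) (.f (nat_lit 525) (nat_lit 497) (nat_lit 2541) (.f (nat_lit 557) (nat_lit 556) (nat_lit 1548) (.d (nat_lit 558) (nat_lit 529) (nat_lit 1549) (nat_lit 589) (nat_lit 5581))))))))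
noncomputable def s20546 : Cert := .r (nat_lit 878694100752451684771477911536058000169904023453705318540455819507632684707062362939178427701371570575831504310416874284364778165555893634919802866637241057280) (.p (nat_lit 526) (.a (.p (nat_lit 558) (.a (.f (nat_lit 429) (nat_lit 461) (nat_lit 7597) (.f (nat_lit 430) (nat_lit 397) (nat_lit 7565) (.d (nat_lit 431) (nat_lit 399) (nat_lit 6542) (nat_lit 463) (nat_lit 6574)))) (.a (.f (nat_lit 591) (nat_lit 559) (nat_lit 4558) (.f (nat_lit 590) (nat_lit 623) (nat_lit 4590) (.d (nat_lit 461) (nat_lit 429) (nat_lit 7597) (nat_lit 493) (nat_lit 7629)))) (.f (nat_lit 557) (nat_lit 589) (nat_lit 5581) (.f (nat_lit 430) (nat_lit 525) (nat_lit 5549) (.d (nat_lit 431) (nat_lit 399) (nat_lit 6542) (nat_lit 463) (nat_lit 6574))))))) (.a (.p (nat_lit 558) (.a (.f (nat_lit 463) (nat_lit 431) (nat_lit 6574) (.f (nat_lit 495) (nat_lit 590) (nat_lit 6606) (.d (nat_lit 461) (nat_lit 429) (nat_lit 7597)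 (nat_lit 460) (nat_lit 460)))) (.a (.f (nat_lit 429) (nat_lit 461) (nat_lit 7597) (.f (nat_lit 430) (nat_lit 397) (nat_lit 7565) (.d (nat_lit 431) (nat_lit 399) (nat_lit 6542) (nat_lit 463) (nat_lit 6574)))) (.f (nat_lit 557) (nat_lit 589) (nat_lit 5581) (.f (nat_lit 527) (nat_lit 529) (nat_lit 1549) (.d (nat_lit 525) (nat_lit 430) (nat_lit 5549) (nat_lit 556) (nat_lit 1548))))))) (.a (.p (nat_lit 558) (.a (.f (nat_lit 429) (nat_lit 461) (nat_lit 7597) (.f (nat_lit 430) (nat_lit 397) (nat_lit 7565) (.d (nat_lit 431) (nat_lit 399) (nat_lit 6542) (nat_lit 463) (nat_lit 6574)))) (.a (.f (nat_lit 591) (nat_lit 559) (nat_lit 4558) (.f (nat_lit 590) (nat_lit 623) (nat_lit 4590) (.d (nat_lit 461) (nat_lit 429) (nat_lit 7597) (nat_lit 493) (nat_lit 7629)))) (.f (nat_lit 559) (nat_lit 591) (nat_lit 4558) (.f (nat_lit 527) (nat_lit 430) (nat_lit 4526) (.d (nat_lit 557) (nat_lit 556) (nat_lit 2572) (nat_lit 589) (nat_lit 5581))))))) (.a (.p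 (nat_lit 527) (.a (.f (nat_lit 430) (nat_lit 559) (nat_lit 4526) (.f (nat_lit 397) (nat_lit 429) (nat_lit 7565) (.f (nat_lit 398) (nat_lit 365) (nat_lit 7533) (.d (nat_lit 399) (nat_lit 367) (nat_lit 6510) (nat_lit 431) (nat_lit 6542))))) (.f (nat_lit 493) (nat_lit 529) (nat_lit 3565) (.d (nat_lit 492) (nat_lit 491) (nat_lit 491) (nat_lit 495) (nat_lit 492))))) (.a s19686 (.a s20052 s19554)))))))
noncomputable def s20554 : Cert := .r (nat_lit 1098367625876631195650898737106662583122525953058291091641078650201570066575787356607100336202538116335104986274944261741552681781546826236922171771952922886144) (.p (nat_lit 558) (.a (.f (nat_lit 463) (nat_lit 431) (nat_lit 6574) (.f (nat_lit 495) (nat_lit 590) (nat_lit 6606) (.f (nat_lit 525) (nat_lit 497) (nat_lit 1517) (.d (nat_lit 524) (nat_lit 493) (nat_lit 1516) (nat_lit 523) (nat_lit 2539))))) (.a (.f (nat_lit 557) (nat_lit 589) (nat_lit 5581) (.f (nat_lit 430) (nat_lit 525) (nat_lit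 5549) (.d (nat_lit 431) (nat_lit 399) (nat_lit 6542) (nat_lit 463) (nat_lit 6574)))) (.a (.f (nat_lit 463) (nat_lit 431) (nat_lit 6574) (.f (nat_lit 495) (nat_lit 590) (nat_lit 6606) (.f (nat_lit 529) (nat_lit 493) (nat_lit 493) (.d (nat_lit 530) (nat_lit 497) (nat_lit 494) (nat_lit 531) (nat_lit 3567))))) (.f (nat_lit 557) (nat_lit 589) (nat_lit 5581) (.f (nat_lit 525) (nat_lit 430) (nat_lit 5549) (.f (nat_lit 495) (nat_lit 497) (nat_lit 1517) (.d (nat_lit 493) (nat_lit 524) (nat_lit 1516) (nat_lit 529) (nat_lit 493)))))))))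
noncomputable def s20574 : Cert := .r (nat_lit 1098367625876631195650898737106662583122525953058291091641078650201570066575787356607100336202538116335104986274944261741552681781546826236922171771952922886144) (.p (nat_lit 558) (.a (.f (nat_lit 463) (nat_lit 431) (nat_lit 6574) (.f (nat_lit 495) (nat_lit 590) (nat_lit 6606) (.d (nat_lit 461) (nat_lit 429) (nat_lit 7597) (nat_lit 460) (nat_lit 460)))) (.a (.f (nat_lit 429) (nat_lit 461) (nat_lit 7597) (.f (nat_lit 430) (nat_lit 397) (nat_lit 7565) (.d (nat_lit 431) (nat_lit 399) (nat_lit 6542) (nat_lit 463) (nat_lit 6574)))) (.a (.f (nat_lit 461) (nat_lit 429) (nat_lit 7597) (.f (nat_lit 590) (nat_lit 493) (nat_lit 7629) (.d (nat_lit 589) (nat_lit 557) (nat_lit 5581) (nat_lit 621) (nat_lit 5613)))) (.f (nat_lit 463) (nat_lit 431) (nat_lit 6574) (.f (nat_lit 590) (nat_lit 495) (nat_lit 6606) (.d (nat_lit 589) (nat_lit 557) (nat_lit 5581) (nat_lit 621) (nat_lit 5613))))))))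
noncomputable def s20585 : Cert := .r (nat_lit 1098367625876631195650898737106662583122525953058291091641078650201570066575787356607100336202538116335104986274944261741552681781546826236922171771952922886144) (.p (nat_lit 558) (.a (.f (nat_lit 461) (nat_lit 429) (nat_lit 7597) (.f (nat_lit 495) (nat_lit 497) (nat_lit 3533) (.d (nat_lit 460) (nat_lit 459) (nat_lit 459) (nat_lit 463) (nat_lit 460)))) (.a (.f (nat_lit 429) (nat_lit 461) (nat_lit 7597) (.f (nat_lit 430) (nat_lit 397) (nat_lit 7565) (.d (nat_lit 431) (nat_lit 399) (nat_lit 6542) (nat_lit 463) (nat_lit 6574)))) (.a (.f (nat_lit 461) (nat_lit 429) (nat_lit 7597) (.f (nat_lit 495) (nat_lit 497) (nat_lit 3533) (.f (nat_lit 589) (nat_lit 557) (nat_lit 5581) (.f (nat_lit 590) (nat_lit 621) (nat_lit 5613) (.f (nat_lit 527) (nat_lit 622) (nat_lit 6638) (.f (nat_lit 529) (nat_lit 530) (nat_lit 3566) (.f (nat_lit 430) (nat_lit 398) (nat_lit 4494) (.f (nat_lit 431) (nat_lit 399)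 (nat_lit 6542) (.f (nat_lit 432) (nat_lit 433) (nat_lit 1453) (.d (nat_lit 464) (nat_lit 400) (nat_lit 5519) (nat_lit 561) (nat_lit 4528))))))))))) (.f (nat_lit 463) (nat_lit 431) (nat_lit 6574) (.f (nat_lit 590) (nat_lit 495) (nat_lit 6606) (.d (nat_lit 589) (nat_lit 557) (nat_lit 5581) (nat_lit 621) (nat_lit 5613))))))))
noncomputable def s20590 : Cert := .r (nat_lit 1098367625876631195650898737106662583122525953058291091641078650201570066575787356607100336202538116335104986274944261741552681781546826236922171771952922886144) (.p (nat_lit 558) (.a (.f (nat_lit 461) (nat_lit 429) (nat_lit 7597) (.f (nat_lit 493) (nat_lit 590) (nat_lit 7629) (.d (nat_lit 495) (nat_lit 460) (nat_lit 3532) (nat_lit 497) (nat_lit 3533)))) (.a (.f (nat_lit 461) (nat_lit 429) (nat_lit 7597) (.f (nat_lit 590) (nat_lit 493) (nat_lit 7629) (.d (nat_lit 589) (nat_lit 557) (nat_lit 5581) (nat_lit 621) (nat_lit 5613)))) (.a (.f (nat_lit 461) (nat_lit 429) (nat_lit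 7597) (.f (nat_lit 495) (nat_lit 497) (nat_lit 3533) (.f (nat_lit 589) (nat_lit 557) (nat_lit 5581) (.f (nat_lit 590) (nat_lit 621) (nat_lit 5613) (.f (nat_lit 527) (nat_lit 622) (nat_lit 6638) (.f (nat_lit 529) (nat_lit 530) (nat_lit 3566) (.f (nat_lit 430) (nat_lit 398) (nat_lit 4494) (.f (nat_lit 431) (nat_lit 399) (nat_lit 6542) (.f (nat_lit 432) (nat_lit 433) (nat_lit 1453) (.d (nat_lit 464) (nat_lit 400) (nat_lit 5519) (nat_lit 561) (nat_lit 4528))))))))))) (.a (.f (nat_lit 461) (nat_lit 429) (nat_lit 7597) (.f (nat_lit 495) (nat_lit 497) (nat_lit 3533) (.d (nat_lit 460) (nat_lit 459) (nat_lit 459) (nat_lit 493) (nat_lit 3532)))) (.f (nat_lit 557) (nat_lit 589) (nat_lit 5581) (.f (nat_lit 529) (nat_lit 527) (nat_lit 1549) (.f (nat_lit 495) (nat_lit 493) (nat_lit 493) (.d (nat_lit 530) (nat_lit 497) (nat_lit 494) (nat_lit 531) (nat_lit 3567))))))))))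
noncomputable def s20591 : Cert := .r (nat_lit 1098367625876631195650898737106662583122525953058291091641078650201570066575787356607100336202538116335104986274944261741552681781546826236922171771952922886144) (.p (nat_lit 558) (.a (.f (nat_lit 463) (nat_lit 431) (nat_lit 6574) (.f (nat_lit 495) (nat_lit 590) (nat_lit 6606) (.f (nat_lit 529) (nat_lit 493) (nat_lit 493) (.d (nat_lit 530) (nat_lit 497) (nat_lit 494) (nat_lit 531) (nat_lit 3567))))) (.a (.f (nat_lit 463) (nat_lit 431) (nat_lit 6574) (.f (nat_lit 590) (nat_lit 495) (nat_lit 6606) (.d (nat_lit 589) (nat_lit 557) (nat_lit 5581) (nat_lit 621) (nat_lit 5613)))) (.a s19599 (.f (nat_lit 557) (nat_lit 589) (nat_lit 5581) (.f (nat_lit 529) (nat_lit 527) (nat_lit 1549) (.f (nat_lit 495) (nat_lit 493) (nat_lit 493) (.d (nat_lit 530) (nat_lit 497) (nat_lit 494) (nat_lit 531) (nat_lit 3567)))))))))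
noncomputable def s20619 : Cert := .r (nat_lit 1098367625825484467450155623023143387288635201378654324835056003079897715347893007731779672668286667445617990519038866334649688288016066840444836157827554738176) (.p (nat_lit 432) (.a (.f (nat_lit 433) (nat_lit 401) (nat_lit 6544) (.f (nat_lit 463) (nat_lit 461) (nat_lit 2477) (.d (nat_lit 431) (nat_lit 399) (nat_lit 7567) (nat_lit 434) (nat_lit 1454)))) (.a (.f (nat_lit 401) (nat_lit 433) (nat_lit 6544) (.f (nat_lit 400) (nat_lit 369) (nat_lit 6512) (.d (nat_lit 399) (nat_lit 367) (nat_lit 7535) (nat_lit 431) (nat_lit 7567)))) (.a (.f (nat_lit 433) (nat_lit 401) (nat_lit 6544) (.f (nat_lit 463) (nat_lit 461) (nat_lit 2477) (.d (nat_lit 434) (nat_lit 435) (nat_lit 1455) (nat_lit 465) (nat_lit 2478)))) (.a (.f (nat_lit 399) (nat_lit 431) (nat_lit 7567) (.f (nat_lit 400) (nat_lit 367) (nat_lit 7535) (.f (nat_lit 369) (nat_lit 401) (nat_lit 6512) (.f (nat_lit 368) (nat_lit 337) (nat_lit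 6480) (.d (nat_lit 495) (nat_lit 463) (nat_lit 5487) (nat_lit 527) (nat_lit 5519)))))) (.f (nat_lit 399) (nat_lit 431) (nat_lit 7567) (.f (nat_lit 400) (nat_lit 367) (nat_lit 7535) (.f (nat_lit 495) (nat_lit 527) (nat_lit 5519) (.f (nat_lit 463) (nat_lit 368) (nat_lit 5487) (.d (nat_lit 461) (nat_lit 433) (nat_lit 2477) (nat_lit 460) (nat_lit 460)))))))))))
noncomputable def s20663 : Cert := .r (nat_lit 1098367625825484467450155623023143387288635201378654324835056003079897715347893007731779672668286667445617990519038866334649688288016066840444836157827554738176) (.p (nat_lit 432) (.a (.f (nat_lit 529) (nat_lit 561) (nat_lit 4528) (.f (nat_lit 400) (nat_lit 497) (nat_lit 4496) (.d (nat_lit 399) (nat_lit 367) (nat_lit 7535) (nat_lit 431) (nat_lit 7567)))) (.a (.f (nat_lit 401) (nat_lit 433) (nat_lit 6544) (.f (nat_lit 400) (nat_lit 369) (nat_lit 6512) (.d (nat_lit 399) (nat_lit 367) (nat_lit 7535) (nat_lit 431) (nat_lit 7567)))) (.a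 (.f (nat_lit 529) (nat_lit 561) (nat_lit 4528) (.f (nat_lit 400) (nat_lit 497) (nat_lit 4496) (.d (nat_lit 401) (nat_lit 369) (nat_lit 6512) (nat_lit 433) (nat_lit 6544)))) (.f (nat_lit 431) (nat_lit 399) (nat_lit 7567) (.f (nat_lit 433) (nat_lit 401) (nat_lit 6544) (.f (nat_lit 430) (nat_lit 461) (nat_lit 1453) (.d (nat_lit 465) (nat_lit 429) (nat_lit 429) (nat_lit 466) (nat_lit 430)))))))))
noncomputable def s20669 : Cert := .r (nat_lit 1098367625825484467450155623023143387288635201378654324835056003079897715347893007731779672668286667445617990519038866334649688288016066840444836157827554738176) (.p (nat_lit 432) (.a (.f (nat_lit 529) (nat_lit 561) (nat_lit 4528) (.f (nat_lit 400) (nat_lit 497) (nat_lit 4496) (.d (nat_lit 401) (nat_lit 369) (nat_lit 6512) (nat_lit 433) (nat_lit 6544)))) (.a (.f (nat_lit 433) (nat_lit 401) (nat_lit 6544) (.f (nat_lit 463) (nat_lit 461) (nat_lit 2477) (.d (nat_lit 434) (nat_lit 435) (nat_lit 1455)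 (nat_lit 465) (nat_lit 2478)))) (.f (nat_lit 529) (nat_lit 561) (nat_lit 4528) (.f (nat_lit 400) (nat_lit 497) (nat_lit 4496) (.f (nat_lit 495) (nat_lit 527) (nat_lit 5519) (.f (nat_lit 368) (nat_lit 463) (nat_lit 5487) (.d (nat_lit 367) (nat_lit 335) (nat_lit 7503) (nat_lit 399) (nat_lit 7535)))))))))
noncomputable def s20691 : Cert := .r (nat_lit 1537714676073843489208997274164352553193879060587825871036301664467772479085342995067623489670619758964164954448093641249025495519997932044449573968458918395904) (.p (nat_lit 432) (.a (.f (nat_lit 400) (nat_lit 495) (nat_lit 5519) (.d (nat_lit 399) (nat_lit 367) (nat_lit 7535) (nat_lit 431) (nat_lit 7567))) (.a (.f (nat_lit 529) (nat_lit 561) (nat_lit 4528) (.f (nat_lit 400) (nat_lit 497) (nat_lit 4496) (.d (nat_lit 399) (nat_lit 367) (nat_lit 7535) (nat_lit 431) (nat_lit 7567)))) (.a (.f (nat_lit 529) (nat_lit 561) (nat_lit 4528) (.d (nat_lit 400) (nat_lit 495) (nat_lit 5519) (nat_lit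 497) (nat_lit 4496))) (.f (nat_lit 529) (nat_lit 561) (nat_lit 4528) (.f (nat_lit 431) (nat_lit 399) (nat_lit 7567) (.f (nat_lit 558) (nat_lit 557) (nat_lit 1549) (.f (nat_lit 463) (nat_lit 495) (nat_lit 5550) (.d (nat_lit 461) (nat_lit 460) (nat_lit 2476) (nat_lit 497) (nat_lit 461))))))))))
noncomputable def s20726 : Cert := .r (nat_lit 1098367625825484467450155623023143387288635201378654324835056003079897715347893007731779672668286667445617990519038866334649688288016066840444836157827554738176) (.p (nat_lit 432) (.a (.f (nat_lit 529) (nat_lit 561) (nat_lit 4528) (.f (nat_lit 400) (nat_lit 497) (nat_lit 4496) (.d (nat_lit 399) (nat_lit 367) (nat_lit 7535) (nat_lit 431) (nat_lit 7567)))) (.a (.f (nat_lit 401) (nat_lit 433) (nat_lit 6544) (.f (nat_lit 400) (nat_lit 369) (nat_lit 6512) (.d (nat_lit 399) (nat_lit 367) (nat_lit 7535) (nat_lit 431) (nat_lit 7567)))) (.a (.f (nat_lit 529) (nat_lit 561) (nat_lit 4528) (.f (nat_lit 400)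 (nat_lit 497) (nat_lit 4496) (.d (nat_lit 401) (nat_lit 369) (nat_lit 6512) (nat_lit 433) (nat_lit 6544)))) (.f (nat_lit 431) (nat_lit 399) (nat_lit 7567) (.f (nat_lit 433) (nat_lit 401) (nat_lit 6544) (.f (nat_lit 434) (nat_lit 463) (nat_lit 1454) (.f (nat_lit 466) (nat_lit 467) (nat_lit 431) (.f (nat_lit 465) (nat_lit 430) (nat_lit 430) (.f (nat_lit 529) (nat_lit 561) (nat_lit 4528) (.d (nat_lit 402) (nat_lit 403) (nat_lit 2447) (nat_lit 497) (nat_lit 6545))))))))))))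
noncomputable def s20767 : Cert := .r (nat_lit 1098367625876631195650898737106662583122525953058291091641078650201570066575787356607100336202538116335104986274944261741552681781546826236922171771952922886144) (.p (nat_lit 558) (.a (.f (nat_lit 557) (nat_lit 589) (nat_lit 5581) (.f (nat_lit 527) (nat_lit 529) (nat_lit 1549) (.d (nat_lit 525) (nat_lit 430) (nat_lit 5549) (nat_lit 556) (nat_lit 1548)))) (.a (.f (nat_lit 461) (nat_lit 429) (nat_lit 7597) (.f (nat_lit 493) (nat_lit 590) (nat_lit 7629) (.f (nat_lit 495) (nat_lit 460) (nat_lit 3532) (.f (nat_lit 525) (nat_lit 524) (nat_lit 1516) (.d (nat_lit 430) (nat_lit 398) (nat_lit 5517) (nat_lit 557) (nat_lit 5549)))))) (.a (.f (nat_lit 461) (nat_lit 429) (nat_lit 7597) (.f (nat_lit 590) (nat_lit 493) (nat_lit 7629) (.d (nat_lit 589) (nat_lit 557) (nat_lit 5581) (nat_lit 621) (nat_lit 5613)))) (.f (nat_lit 461) (nat_lit 429) (nat_lit 7597) (.f (nat_lit 493) (nat_lit 590) (nat_lit 7629)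 (.f (nat_lit 527) (nat_lit 529) (nat_lit 3565) (.d (nat_lit 492) (nat_lit 491) (nat_lit 491) (nat_lit 525) (nat_lit 3564)))))))))
noncomputable def s20768 : Cert := .r (nat_lit 1098367625876631195650898737106662583122525953058291091641078650201570066575787356607100336202538116335104986274944261741552681781546826236922171771952922886144) (.p (nat_lit 558) (.a (.f (nat_lit 463) (nat_lit 431) (nat_lit 6574) (.f (nat_lit 495) (nat_lit 590) (nat_lit 6606) (.d (nat_lit 461) (nat_lit 429) (nat_lit 7597) (nat_lit 460) (nat_lit 460)))) (.a (.f (nat_lit 429) (nat_lit 461) (nat_lit 7597) (.f (nat_lit 430) (nat_lit 397) (nat_lit 7565) (.d (nat_lit 431) (nat_lit 399) (nat_lit 6542) (nat_lit 463) (nat_lit 6574)))) (.a (.f (nat_lit 461) (nat_lit 429) (nat_lit 7597) (.f (nat_lit 493) (nat_lit 590) (nat_lit 7629) (.f (nat_lit 527) (nat_lit 529) (nat_lit 3565) (.d (nat_lit 492) (nat_lit 491) (nat_lit 491) (nat_lit 525) (nat_lit 3564))))) (.f (nat_lit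 463) (nat_lit 431) (nat_lit 6574) (.f (nat_lit 495) (nat_lit 590) (nat_lit 6606) (.f (nat_lit 493) (nat_lit 529) (nat_lit 493) (.d (nat_lit 464) (nat_lit 465) (nat_lit 1485) (nat_lit 492) (nat_lit 2508)))))))))
noncomputable def s20769 : Cert := .r (nat_lit 1098367625876631195650898737106662583122525953058291091641078650201570066575787356607100336202538116335104986274944261741552681781546826236922171771952922886144) (.p (nat_lit 558) (.a (.f (nat_lit 557) (nat_lit 589) (nat_lit 5581) (.f (nat_lit 527) (nat_lit 529) (nat_lit 1549) (.d (nat_lit 525) (nat_lit 430) (nat_lit 5549) (nat_lit 556) (nat_lit 1548)))) (.a (.f (nat_lit 557) (nat_lit 589) (nat_lit 5581) (.f (nat_lit 430) (nat_lit 525) (nat_lit 5549) (.d (nat_lit 431) (nat_lit 399) (nat_lit 6542) (nat_lit 463) (nat_lit 6574)))) (.a (.f (nat_lit 463) (nat_lit 431) (nat_lit 6574) (.f (nat_lit 590) (nat_lit 495) (nat_lit 6606) (.d (nat_lit 589) (nat_lit 557) (nat_lit 5581) (nat_lit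 621) (nat_lit 5613)))) (.f (nat_lit 463) (nat_lit 431) (nat_lit 6574) (.f (nat_lit 495) (nat_lit 590) (nat_lit 6606) (.f (nat_lit 493) (nat_lit 529) (nat_lit 493) (.d (nat_lit 464) (nat_lit 465) (nat_lit 1485) (nat_lit 492) (nat_lit 2508)))))))))
noncomputable def s20794 : Cert := .r (nat_lit 1098367625876631195650898737106662583122525953058291091641078650201570066575787356607100336202538116335104986274944261741552681781546826236922171771952922886144) (.p (nat_lit 558) (.a (.f (nat_lit 461) (nat_lit 429) (nat_lit 7597) (.f (nat_lit 495) (nat_lit 497) (nat_lit 3533) (.d (nat_lit 460) (nat_lit 459) (nat_lit 459) (nat_lit 463) (nat_lit 460)))) (.a (.f (nat_lit 429) (nat_lit 461) (nat_lit 7597) (.f (nat_lit 430) (nat_lit 397) (nat_lit 7565) (.d (nat_lit 431) (nat_lit 399) (nat_lit 6542) (nat_lit 463) (nat_lit 6574)))) (.a (.f (nat_lit 429) (nat_lit 461) (nat_lit 7597) (.f (nat_lit 430) (nat_lit 397) (nat_lit 7565) (.f (nat_lit 399) (nat_lit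 431) (nat_lit 6542) (.f (nat_lit 398) (nat_lit 367) (nat_lit 6510) (.f (nat_lit 495) (nat_lit 527) (nat_lit 4494) (.f (nat_lit 497) (nat_lit 525) (nat_lit 1517) (.f (nat_lit 465) (nat_lit 466) (nat_lit 2510) (.d (nat_lit 401) (nat_lit 400) (nat_lit 1421) (nat_lit 433) (nat_lit 5520))))))))) (.a (.f (nat_lit 431) (nat_lit 463) (nat_lit 6574) (.f (nat_lit 430) (nat_lit 399) (nat_lit 6542) (.f (nat_lit 397) (nat_lit 429) (nat_lit 7565) (.f (nat_lit 398) (nat_lit 365) (nat_lit 7533) (.f (nat_lit 495) (nat_lit 527) (nat_lit 4494) (.f (nat_lit 497) (nat_lit 525) (nat_lit 1517) (.f (nat_lit 529) (nat_lit 530) (nat_lit 494) (.f (nat_lit 432) (nat_lit 433) (nat_lit 3469) (.d (nat_lit 464) (nat_lit 400) (nat_lit 4496) (nat_lit 561) (nat_lit 4528)))))))))) (.f (nat_lit 463) (nat_lit 431) (nat_lit 6574) (.f (nat_lit 495) (nat_lit 590) (nat_lit 6606) (.d (nat_lit 461) (nat_lit 460) (nat_lit 460) (nat_lit 497) (nat_lit 3533)))))))))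
noncomputable def s20796 : Cert := .r (nat_lit 1098367625876631195650898737106662583122525953058291091641078650201570066575787356607100336202538116335104986274944261741552681781546826236922171771952922886144) (.p (nat_lit 558) (.a (.f (nat_lit 557) (nat_lit 589) (nat_lit 5581) (.f (nat_lit 525) (nat_lit 430) (nat_lit 5549) (.d (nat_lit 527) (nat_lit 497) (nat_lit 2541) (nat_lit 556) (nat_lit 1548)))) (.a (.f (nat_lit 557) (nat_lit 589) (nat_lit 5581) (.f (nat_lit 430) (nat_lit 525) (nat_lit 5549) (.d (nat_lit 431) (nat_lit 399) (nat_lit 6542) (nat_lit 463) (nat_lit 6574)))) (.a (.f (nat_lit 463) (nat_lit 431) (nat_lit 6574) (.f (nat_lit 590) (nat_lit 495) (nat_lit 6606) (.d (nat_lit 589) (nat_lit 557) (nat_lit 5581) (nat_lit 621) (nat_lit 5613)))) (.f (nat_lit 463) (nat_lit 431) (nat_lit 6574) (.f (nat_lit 495) (nat_lit 590) (nat_lit 6606) (.d (nat_lit 461) (nat_lit 460) (nat_lit 460) (nat_lit 497) (nat_lit 3533))))))))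
noncomputable def s20797 : Cert := .r (nat_lit 1098367625825484467402521520387706494109594716304906059671655762865893638949285266038277296282487021142512733819461657302059555672027806603392712505494664642560) (.p (nat_lit 494) (.a s19726 (.a (.p (nat_lit 558) (.a (.f (nat_lit 557) (nat_lit 589) (nat_lit 5581) (.f (nat_lit 525) (nat_lit 430) (nat_lit 5549) (.d (nat_lit 527) (nat_lit 497) (nat_lit 2541) (nat_lit 556) (nat_lit 1548)))) (.a (.f (nat_lit 429) (nat_lit 461) (nat_lit 7597) (.f (nat_lit 430) (nat_lit 397) (nat_lit 7565) (.d (nat_lit 431) (nat_lit 399) (nat_lit 6542) (nat_lit 463) (nat_lit 6574)))) (.f (nat_lit 557) (nat_lit 589) (nat_lit 5581) (.f (nat_lit 527) (nat_lit 529) (nat_lit 1549) (.d (nat_lit 556) (nat_lit 525) (nat_lit 1548) (nat_lit 555) (nat_lit 2571))))))) (.a s20585 (.a (.p (nat_lit 525) (.a (.f (nat_lit 430) (nat_lit 557) (nat_lit 5549) (.f (nat_lit 399) (nat_lit 431) (nat_lit 6542) (.f (nat_lit 398) (nat_lit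 367) (nat_lit 6510) (.d (nat_lit 397) (nat_lit 365) (nat_lit 7533) (nat_lit 429) (nat_lit 7565))))) (.d (nat_lit 497) (nat_lit 495) (nat_lit 1517) (nat_lit 527) (nat_lit 2541)))) (.a (.p (nat_lit 558) (.a (.f (nat_lit 463) (nat_lit 431) (nat_lit 6574) (.f (nat_lit 495) (nat_lit 590) (nat_lit 6606) (.d (nat_lit 461) (nat_lit 429) (nat_lit 7597) (nat_lit 460) (nat_lit 460)))) (.a (.f (nat_lit 429) (nat_lit 461) (nat_lit 7597) (.f (nat_lit 430) (nat_lit 397) (nat_lit 7565) (.d (nat_lit 431) (nat_lit 399) (nat_lit 6542) (nat_lit 463) (nat_lit 6574)))) (.f (nat_lit 557) (nat_lit 589) (nat_lit 5581) (.f (nat_lit 527) (nat_lit 529) (nat_lit 1549) (.d (nat_lit 525) (nat_lit 430) (nat_lit 5549) (nat_lit 556) (nat_lit 1548))))))) (.a s20794 (.a (.p (nat_lit 558) (.a (.f (nat_lit 461) (nat_lit 429) (nat_lit 7597) (.f (nat_lit 495) (nat_lit 497) (nat_lit 3533) (.d (nat_lit 460) (nat_lit 459) (nat_lit 459) (nat_lit 463) (nat_lit 460)))) (.a (.f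 (nat_lit 557) (nat_lit 589) (nat_lit 5581) (.f (nat_lit 525) (nat_lit 430) (nat_lit 5549) (.d (nat_lit 527) (nat_lit 497) (nat_lit 2541) (nat_lit 556) (nat_lit 1548)))) (.f (nat_lit 557) (nat_lit 589) (nat_lit 5581) (.f (nat_lit 527) (nat_lit 529) (nat_lit 1549) (.d (nat_lit 525) (nat_lit 430) (nat_lit 5549) (nat_lit 556) (nat_lit 1548))))))) (.a (.p (nat_lit 558) (.a (.f (nat_lit 463) (nat_lit 431) (nat_lit 6574) (.f (nat_lit 495) (nat_lit 590) (nat_lit 6606) (.d (nat_lit 461) (nat_lit 429) (nat_lit 7597) (nat_lit 460) (nat_lit 460)))) (.f (nat_lit 557) (nat_lit 589) (nat_lit 5581) (.f (nat_lit 527) (nat_lit 529) (nat_lit 1549) (.d (nat_lit 556) (nat_lit 525) (nat_lit 1548) (nat_lit 555) (nat_lit 2571)))))) s20796)))))))))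
noncomputable def s20810 : Cert := .r (nat_lit 1098367625876631195650898737106662583122525953058291091641078650201570066575787356607100336202538116335104986274944261741552681781546826236922171771952922886144) (.p (nat_lit 527) (.a (.f (nat_lit 529) (nat_lit 493) (nat_lit 3565) (.f (nat_lit 561) (nat_lit 562) (nat_lit 526) (.f (nat_lit 464) (nat_lit 432) (nat_lit 4528) (.d (nat_lit 593) (nat_lit 497) (nat_lit 7632) (nat_lit 625) (nat_lit 7664))))) (.a (.f (nat_lit 525) (nat_lit 497) (nat_lit 2541) (.f (nat_lit 493) (nat_lit 492) (nat_lit 3564) (.f (nat_lit 430) (nat_lit 398) (nat_lit 5517) (.f (nat_lit 429) (nat_lit 397) (nat_lit 7565) (.f (nat_lit 461) (nat_lit 558) (nat_lit 7597) (.f (nat_lit 431) (nat_lit 399) (nat_lit 6542) (.d (nat_lit 432) (nat_lit 433) (nat_lit 1453) (nat_lit 460) (nat_lit 1452)))))))) (.a (.f (nat_lit 493) (nat_lit 529) (nat_lit 3565) (.d (nat_lit 492) (nat_lit 491) (nat_lit 491) (nat_lit 495) (nat_lit 492)))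 (.f (nat_lit 497) (nat_lit 525) (nat_lit 2541) (.f (nat_lit 495) (nat_lit 461) (nat_lit 3533) (.f (nat_lit 529) (nat_lit 530) (nat_lit 3566) (.f (nat_lit 561) (nat_lit 562) (nat_lit 526) (.d (nat_lit 464) (nat_lit 432) (nat_lit 4528) (nat_lit 593) (nat_lit 7632))))))))))
noncomputable def s20823 : Cert := .r (nat_lit 1098367625876631195650898737106662583122525953058291091641078650201570066575787356607100336202538116335104986274944261741552681781546826236922171771952922886144) (.p (nat_lit 495) (.a (.f (nat_lit 461) (nat_lit 497) (nat_lit 3533) (.d (nat_lit 460) (nat_lit 459) (nat_lit 459) (nat_lit 463) (nat_lit 460))) (.a (.f (nat_lit 493) (nat_lit 529) (nat_lit 493) (.f (nat_lit 461) (nat_lit 460) (nat_lit 3532) (.f (nat_lit 464) (nat_lit 465) (nat_lit 2509) (.f (nat_lit 463) (nat_lit 492) (nat_lit 1484) (.d (nat_lit 431) (nat_lit 399) (nat_lit 5518) (nat_lit 558) (nat_lit 6574)))))) (.a (.f (nat_lit 493) (nat_lit 529) (nat_lit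 493) (.d (nat_lit 461) (nat_lit 460) (nat_lit 3532) (nat_lit 497) (nat_lit 3533))) (.f (nat_lit 493) (nat_lit 529) (nat_lit 493) (.f (nat_lit 464) (nat_lit 465) (nat_lit 2509) (.f (nat_lit 463) (nat_lit 492) (nat_lit 2508) (.d (nat_lit 431) (nat_lit 399) (nat_lit 5518) (nat_lit 558) (nat_lit 6574)))))))))
noncomputable def s20839 : Cert := .r (nat_lit 1098367625876631195650898737106662583122525953058291091641078650201570066575787356607100336202538116335104986274944261741552681781546826236922171771952922886144) (.p (nat_lit 527) (.a (.f (nat_lit 529) (nat_lit 493) (nat_lit 3565) (.f (nat_lit 561) (nat_lit 562) (nat_lit 526) (.f (nat_lit 464) (nat_lit 432) (nat_lit 4528) (.d (nat_lit 593) (nat_lit 497) (nat_lit 7632) (nat_lit 625) (nat_lit 7664))))) (.a (.f (nat_lit 525) (nat_lit 497) (nat_lit 2541) (.f (nat_lit 495) (nat_lit 524) (nat_lit 2540) (.f (nat_lit 493) (nat_lit 492) (nat_lit 492) (.f (nat_lit 430) (nat_lit 398) (nat_lit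 4494) (.f (nat_lit 431) (nat_lit 399) (nat_lit 6542) (.f (nat_lit 463) (nat_lit 558) (nat_lit 6574) (.f (nat_lit 464) (nat_lit 465) (nat_lit 2509) (.d (nat_lit 429) (nat_lit 397) (nat_lit 7565) (nat_lit 428) (nat_lit 428))))))))) (.a (.f (nat_lit 493) (nat_lit 529) (nat_lit 3565) (.d (nat_lit 492) (nat_lit 491) (nat_lit 491) (nat_lit 495) (nat_lit 492))) (.f (nat_lit 525) (nat_lit 497) (nat_lit 2541) (.f (nat_lit 495) (nat_lit 524) (nat_lit 2540) (.f (nat_lit 430) (nat_lit 398) (nat_lit 4494) (.f (nat_lit 431) (nat_lit 399) (nat_lit 6542) (.f (nat_lit 463) (nat_lit 558) (nat_lit 6574) (.f (nat_lit 429) (nat_lit 397) (nat_lit 7565) (.d (nat_lit 428) (nat_lit 427) (nat_lit 427) (nat_lit 464) (nat_lit 428))))))))))))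
noncomputable def s20841 : Cert := .r (nat_lit 1098367625825484467402521520387706494109594716304906059671655762865893638949285266038277296282487021142512733819461657302059555672027806603392712505494664642560) (.p (nat_lit 494) (.a s19675 (.a s19727 (.a (.p (nat_lit 558) (.a (.f (nat_lit 461) (nat_lit 429) (nat_lit 7597) (.f (nat_lit 495) (nat_lit 497) (nat_lit 3533) (.d (nat_lit 460) (nat_lit 459) (nat_lit 459) (nat_lit 463) (nat_lit 460)))) (.a (.f (nat_lit 429) (nat_lit 461) (nat_lit 7597) (.f (nat_lit 430) (nat_lit 397) (nat_lit 7565) (.d (nat_lit 557) (nat_lit 525) (nat_lit 5549) (nat_lit 589) (nat_lit 5581)))) (.f (nat_lit 557) (nat_lit 589) (nat_lit 5581) (.f (nat_lit 525) (nat_lit 430) (nat_lit 5549) (.f (nat_lit 495) (nat_lit 497) (nat_lit 1517) (.d (nat_lit 493) (nat_lit 524) (nat_lit 1516) (nat_lit 529) (nat_lit 493)))))))) (.a (.p (nat_lit 527) (.a (.f (nat_lit 525) (nat_lit 497) (nat_lit 2541) (.d (nat_lit 557) (nat_lit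 430) (nat_lit 5549) (nat_lit 556) (nat_lit 1548))) (.a (.f (nat_lit 529) (nat_lit 493) (nat_lit 3565) (.f (nat_lit 561) (nat_lit 562) (nat_lit 526) (.f (nat_lit 464) (nat_lit 432) (nat_lit 4528) (.d (nat_lit 593) (nat_lit 497) (nat_lit 7632) (nat_lit 625) (nat_lit 7664))))) (.f (nat_lit 493) (nat_lit 529) (nat_lit 3565) (.d (nat_lit 492) (nat_lit 491) (nat_lit 491) (nat_lit 525) (nat_lit 3564)))))) (.a (.p (nat_lit 495) (.a (.f (nat_lit 461) (nat_lit 497) (nat_lit 3533) (.d (nat_lit 460) (nat_lit 459) (nat_lit 459) (nat_lit 463) (nat_lit 460))) (.a (.f (nat_lit 493) (nat_lit 529) (nat_lit 493) (.f (nat_lit 492) (nat_lit 527) (nat_lit 492) (.d (nat_lit 460) (nat_lit 459) (nat_lit 3531) (nat_lit 461) (nat_lit 3532)))) (.f (nat_lit 493) (nat_lit 529) (nat_lit 493) (.f (nat_lit 492) (nat_lit 527) (nat_lit 492) (.d (nat_lit 463) (nat_lit 464) (nat_lit 2508) (nat_lit 491) (nat_lit 2507))))))) (.a s20767 (.p (nat_lit 558) (.a (.f (nat_lit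 461) (nat_lit 429) (nat_lit 7597) (.f (nat_lit 495) (nat_lit 497) (nat_lit 3533) (.d (nat_lit 460) (nat_lit 459) (nat_lit 459) (nat_lit 463) (nat_lit 460)))) (.a (.f (nat_lit 557) (nat_lit 589) (nat_lit 5581) (.f (nat_lit 525) (nat_lit 430) (nat_lit 5549) (.d (nat_lit 527) (nat_lit 497) (nat_lit 2541) (nat_lit 556) (nat_lit 1548)))) (.f (nat_lit 557) (nat_lit 589) (nat_lit 5581) (.f (nat_lit 527) (nat_lit 529) (nat_lit 1549) (.d (nat_lit 525) (nat_lit 430) (nat_lit 5549) (nat_lit 556) (nat_lit 1548))))))))))))))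
noncomputable def s20842 : Cert := .r (nat_lit 1098367625825484467402521520387706494109594716304906059671655762865893638949285266038277296282487021142512733819461657302059555672027806603392712505494664642560) (.p (nat_lit 494) (.a (.p (nat_lit 525) (.a (.f (nat_lit 495) (nat_lit 497) (nat_lit 1517) (.d (nat_lit 524) (nat_lit 493) (nat_lit 1516) (nat_lit 523) (nat_lit 2539))) (.a (.f (nat_lit 430) (nat_lit 557) (nat_lit 5549) (.f (nat_lit 398) (nat_lit 493) (nat_lit 5517) (.d (nat_lit 397) (nat_lit 365) (nat_lit 7533) (nat_lit 429) (nat_lit 7565)))) (.f (nat_lit 430) (nat_lit 557) (nat_lit 5549) (.f (nat_lit 399) (nat_lit 431) (nat_lit 6542) (.f (nat_lit 398) (nat_lit 367) (nat_lit 6510) (.d (nat_lit 397) (nat_lit 365) (nat_lit 7533) (nat_lit 429) (nat_lit 7565)))))))) (.a (.p (nat_lit 527) (.a (.f (nat_lit 525) (nat_lit 497) (nat_lit 2541) (.d (nat_lit 557) (nat_lit 430) (nat_lit 5549) (nat_lit 556) (nat_lit 1548))) (.a (.f (nat_lit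 529) (nat_lit 493) (nat_lit 3565) (.f (nat_lit 561) (nat_lit 562) (nat_lit 526) (.f (nat_lit 464) (nat_lit 432) (nat_lit 4528) (.d (nat_lit 593) (nat_lit 497) (nat_lit 7632) (nat_lit 625) (nat_lit 7664))))) (.f (nat_lit 493) (nat_lit 529) (nat_lit 3565) (.d (nat_lit 492) (nat_lit 491) (nat_lit 491) (nat_lit 525) (nat_lit 3564)))))) (.a s20591 (.a s20769 (.a (.p (nat_lit 525) (.a (.f (nat_lit 430) (nat_lit 557) (nat_lit 5549) (.f (nat_lit 399) (nat_lit 431) (nat_lit 6542) (.f (nat_lit 398) (nat_lit 367) (nat_lit 6510) (.d (nat_lit 397) (nat_lit 365) (nat_lit 7533) (nat_lit 429) (nat_lit 7565))))) (.d (nat_lit 497) (nat_lit 495) (nat_lit 1517) (nat_lit 527) (nat_lit 2541)))) (.a s20839 s19675)))))))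
noncomputable def s20843 : Cert := .r (nat_lit 1098367625825484467402521520387706494109594716304906059671655762865893638949285266038277296282487021142512733819461657302059555672027806603392712505494664642560) (.p (nat_lit 494) (.a (.p (nat_lit 558) (.a (.f (nat_lit 463) (nat_lit 431) (nat_lit 6574) (.f (nat_lit 495) (nat_lit 590) (nat_lit 6606) (.d (nat_lit 461) (nat_lit 429) (nat_lit 7597) (nat_lit 460) (nat_lit 460)))) (.f (nat_lit 557) (nat_lit 589) (nat_lit 5581) (.f (nat_lit 527) (nat_lit 529) (nat_lit 1549) (.d (nat_lit 556) (nat_lit 525) (nat_lit 1548) (nat_lit 555) (nat_lit 2571)))))) (.a s19728 (.a (.p (nat_lit 558) (.a (.f (nat_lit 557) (nat_lit 589) (nat_lit 5581) (.f (nat_lit 527) (nat_lit 529) (nat_lit 1549) (.d (nat_lit 556) (nat_lit 525) (nat_lit 1548) (nat_lit 555) (nat_lit 2571)))) (.f (nat_lit 461) (nat_lit 429) (nat_lit 7597) (.f (nat_lit 463) (nat_lit 431) (nat_lit 6574) (.f (nat_lit 493) (nat_lit 590) (nat_lit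 7629) (.d (nat_lit 464) (nat_lit 465) (nat_lit 1485) (nat_lit 492) (nat_lit 1484))))))) (.a s20823 s19675)))))
noncomputable def s20844 : Cert := .r (nat_lit 1098367625825484467402521520387706494109594716304906059671655762865893638949285266038277296282487021142512733819461657302059555672027806603392712505494664642560) (.p (nat_lit 494) (.a s19675 (.a (.p (nat_lit 558) (.a (.f (nat_lit 557) (nat_lit 589) (nat_lit 5581) (.f (nat_lit 525) (nat_lit 430) (nat_lit 5549) (.d (nat_lit 527) (nat_lit 497) (nat_lit 2541) (nat_lit 556) (nat_lit 1548)))) (.a (.f (nat_lit 463) (nat_lit 431) (nat_lit 6574) (.f (nat_lit 495) (nat_lit 590) (nat_lit 6606) (.f (nat_lit 525) (nat_lit 497) (nat_lit 1517) (.d (nat_lit 524) (nat_lit 493) (nat_lit 1516) (nat_lit 523) (nat_lit 2539))))) (.f (nat_lit 463) (nat_lit 431) (nat_lit 6574) (.f (nat_lit 590) (nat_lit 495) (nat_lit 6606) (.d (nat_lit 589) (nat_lit 557) (nat_lit 5581) (nat_lit 621) (nat_lit 5613)))))))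 (.a s20554 (.a (.p (nat_lit 527) (.a (.f (nat_lit 525) (nat_lit 497) (nat_lit 2541) (.d (nat_lit 557) (nat_lit 430) (nat_lit 5549) (nat_lit 556) (nat_lit 1548))) (.a (.f (nat_lit 529) (nat_lit 493) (nat_lit 3565) (.f (nat_lit 561) (nat_lit 562) (nat_lit 526) (.f (nat_lit 464) (nat_lit 432) (nat_lit 4528) (.d (nat_lit 593) (nat_lit 497) (nat_lit 7632) (nat_lit 625) (nat_lit 7664))))) (.f (nat_lit 493) (nat_lit 529) (nat_lit 3565) (.d (nat_lit 492) (nat_lit 491) (nat_lit 491) (nat_lit 525) (nat_lit 3564)))))) (.a s20823 (.a s20769 s20796)))))))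
noncomputable def s20858 : Cert := .r (nat_lit 878694100701304956570734797452538804336013271774068551734433172385960333479168014063857764167120121686344508554511478877461784672025134238442467252511872909312) (.p (nat_lit 432) (.a (.f (nat_lit 433) (nat_lit 401) (nat_lit 6544) (.f (nat_lit 463) (nat_lit 461) (nat_lit 2477) (.d (nat_lit 431) (nat_lit 399) (nat_lit 7567) (nat_lit 434) (nat_lit 1454)))) (.a (.f (nat_lit 401) (nat_lit 433) (nat_lit 6544) (.f (nat_lit 400) (nat_lit 369) (nat_lit 6512) (.d (nat_lit 399) (nat_lit 367) (nat_lit 7535) (nat_lit 431) (nat_lit 7567)))) (.a (.f (nat_lit 433) (nat_lit 401) (nat_lit 6544) (.f (nat_lit 463) (nat_lit 461) (nat_lit 2477) (.d (nat_lit 434) (nat_lit 435) (nat_lit 1455) (nat_lit 465) (nat_lit 2478)))) (.f (nat_lit 527) (nat_lit 559) (nat_lit 5551) (.f (nat_lit 400) (nat_lit 495) (nat_lit 5519) (.d (nat_lit 399) (nat_lit 367) (nat_lit 7535) (nat_lit 431) (nat_lit 7567))))))))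
noncomputable def s20876 : Cert := .r (nat_lit 878694100701304956570734797452538804336013271774068551734433172385960333479168014063857764167120121686344508554511478877461784672025134238442467252511872909312) (.p (nat_lit 432) (.a (.f (nat_lit 433) (nat_lit 401) (nat_lit 6544) (.f (nat_lit 463) (nat_lit 461) (nat_lit 2477) (.d (nat_lit 431) (nat_lit 399) (nat_lit 7567) (nat_lit 434) (nat_lit 1454)))) (.a (.f (nat_lit 401) (nat_lit 433) (nat_lit 6544) (.f (nat_lit 400) (nat_lit 369) (nat_lit 6512) (.d (nat_lit 399) (nat_lit 367) (nat_lit 7535) (nat_lit 431) (nat_lit 7567)))) (.a (.f (nat_lit 433) (nat_lit 401) (nat_lit 6544) (.f (nat_lit 463) (nat_lit 461) (nat_lit 2477) (.d (nat_lit 434) (nat_lit 435) (nat_lit 1455) (nat_lit 465) (nat_lit 2478)))) (.a (.f (nat_lit 399) (nat_lit 431) (nat_lit 7567) (.f (nat_lit 400) (nat_lit 367) (nat_lit 7535) (.f (nat_lit 369) (nat_lit 401) (nat_lit 6512) (.f (nat_lit 368) (nat_lit 337) (nat_lit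 6480) (.f (nat_lit 463) (nat_lit 495) (nat_lit 5487) (.d (nat_lit 497) (nat_lit 461) (nat_lit 461) (nat_lit 465) (nat_lit 4464))))))) (.p (nat_lit 463) (.a (.d (nat_lit 461) (nat_lit 433) (nat_lit 2477) (nat_lit 497) (nat_lit 461)) (.a (.f (nat_lit 431) (nat_lit 399) (nat_lit 7567) (.d (nat_lit 433) (nat_lit 434) (nat_lit 1454) (nat_lit 461) (nat_lit 2477))) (.a (.f (nat_lit 431) (nat_lit 399) (nat_lit 7567) (.d (nat_lit 461) (nat_lit 460) (nat_lit 2476) (nat_lit 497) (nat_lit 461))) (.f (nat_lit 399) (nat_lit 431) (nat_lit 7567) (.f (nat_lit 400) (nat_lit 367) (nat_lit 7535) (.f (nat_lit 368) (nat_lit 495) (nat_lit 5487) (.f (nat_lit 465) (nat_lit 497) (nat_lit 4464) (.d (nat_lit 433) (nat_lit 336) (nat_lit 4432) (nat_lit 434) (nat_lit 2478)))))))))))))))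
noncomputable def s20906 : Cert := .r (nat_lit 878694100701304956570734797452538804336013271774068551734433172385960333479168014063857764167120121686344508554511478877461784672025134238442467252511872909312) (.p (nat_lit 432) (.a (.f (nat_lit 433) (nat_lit 401) (nat_lit 6544) (.f (nat_lit 463) (nat_lit 461) (nat_lit 2477) (.d (nat_lit 431) (nat_lit 399) (nat_lit 7567) (nat_lit 434) (nat_lit 1454)))) (.a (.f (nat_lit 401) (nat_lit 433) (nat_lit 6544) (.f (nat_lit 400) (nat_lit 369) (nat_lit 6512) (.d (nat_lit 399) (nat_lit 367) (nat_lit 7535) (nat_lit 431) (nat_lit 7567)))) (.a (.f (nat_lit 433) (nat_lit 401) (nat_lit 6544) (.f (nat_lit 463) (nat_lit 461) (nat_lit 2477) (.d (nat_lit 434) (nat_lit 435) (nat_lit 1455) (nat_lit 465) (nat_lit 2478)))) (.a (.p (nat_lit 400) (.a (.d (nat_lit 399) (nat_lit 367) (nat_lit 7535) (nat_lit 431) (nat_lit 7567)) (.a (.f (nat_lit 367) (nat_lit 399) (nat_lit 7535) (.f (nat_lit 368) (nat_lit 335)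 (nat_lit 7503) (.d (nat_lit 369) (nat_lit 337) (nat_lit 6480) (nat_lit 401) (nat_lit 6512)))) (.a (.f (nat_lit 369) (nat_lit 401) (nat_lit 6512) (.f (nat_lit 368) (nat_lit 337) (nat_lit 6480) (.f (nat_lit 335) (nat_lit 367) (nat_lit 7503) (.f (nat_lit 336) (nat_lit 303) (nat_lit 7471) (.f (nat_lit 463) (nat_lit 431) (nat_lit 5455) (.d (nat_lit 497) (nat_lit 461) (nat_lit 461) (nat_lit 465) (nat_lit 4464))))))) (.f (nat_lit 431) (nat_lit 399) (nat_lit 7567) (.f (nat_lit 369) (nat_lit 401) (nat_lit 6512) (.f (nat_lit 368) (nat_lit 337) (nat_lit 6480) (.f (nat_lit 463) (nat_lit 336) (nat_lit 5455) (.d (nat_lit 461) (nat_lit 460) (nat_lit 2476) (nat_lit 497) (nat_lit 461)))))))))) (.p (nat_lit 461) (.a (.f (nat_lit 463) (nat_lit 497) (nat_lit 461) (.d (nat_lit 431) (nat_lit 399) (nat_lit 7567) (nat_lit 460) (nat_lit 2476))) (.a (.f (nat_lit 431) (nat_lit 399) (nat_lit 7567) (.f (nat_lit 463) (nat_lit 460) (nat_lit 2476) (.f (nat_lit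 429) (nat_lit 428) (nat_lit 3500) (.f (nat_lit 430) (nat_lit 465) (nat_lit 429) (.f (nat_lit 397) (nat_lit 396) (nat_lit 3468) (.d (nat_lit 365) (nat_lit 333) (nat_lit 4429) (nat_lit 494) (nat_lit 4461))))))) (.a (.f (nat_lit 431) (nat_lit 399) (nat_lit 7567) (.f (nat_lit 430) (nat_lit 433) (nat_lit 1453) (.d (nat_lit 429) (nat_lit 460) (nat_lit 1452) (nat_lit 465) (nat_lit 429)))) (.d (nat_lit 463) (nat_lit 433) (nat_lit 2477) (nat_lit 497) (nat_lit 461)))))))))))
noncomputable def s20953 : Cert := .r (nat_lit 878694100701304956570734797452538804336013271774068551734433172385960333479168014063857764167120121686344508554511478877461784672025134238442467252511872909312) (.p (nat_lit 432) (.a (.f (nat_lit 401) (nat_lit 433) (nat_lit 6544) (.f (nat_lit 400) (nat_lit 369) (nat_lit 6512) (.d (nat_lit 399) (nat_lit 367) (nat_lit 7535) (nat_lit 431) (nat_lit 7567)))) (.a (.f (nat_lit 401) (nat_lit 433) (nat_lit 6544) (.f (nat_lit 400) (nat_lit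 369) (nat_lit 6512) (.d (nat_lit 527) (nat_lit 495) (nat_lit 5519) (nat_lit 559) (nat_lit 5551)))) (.a (.f (nat_lit 431) (nat_lit 399) (nat_lit 7567) (.f (nat_lit 433) (nat_lit 401) (nat_lit 6544) (.f (nat_lit 430) (nat_lit 461) (nat_lit 1453) (.d (nat_lit 465) (nat_lit 429) (nat_lit 429) (nat_lit 466) (nat_lit 430))))) (.f (nat_lit 527) (nat_lit 559) (nat_lit 5551) (.f (nat_lit 400) (nat_lit 495) (nat_lit 5519) (.d (nat_lit 399) (nat_lit 367) (nat_lit 7535) (nat_lit 431) (nat_lit 7567))))))))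
noncomputable def s20966 : Cert := .r (nat_lit 878694100701304956570734797452538804336013271774068551734433172385960333479168014063857764167120121686344508554511478877461784672025134238442467252511872909312) (.p (nat_lit 432) (.a (.f (nat_lit 433) (nat_lit 401) (nat_lit 6544) (.f (nat_lit 463) (nat_lit 461) (nat_lit 2477) (.d (nat_lit 434) (nat_lit 435) (nat_lit 1455) (nat_lit 465) (nat_lit 2478)))) (.a (.f (nat_lit 401) (nat_lit 433) (nat_lit 6544) (.f (nat_lit 400) (nat_lit 369) (nat_lit 6512) (.d (nat_lit 527) (nat_lit 495) (nat_lit 5519) (nat_lit 559) (nat_lit 5551)))) (.a (.f (nat_lit 527) (nat_lit 559) (nat_lit 5551) (.f (nat_lit 400) (nat_lit 495) (nat_lit 5519) (.f (nat_lit 367) (nat_lit 399) (nat_lit 7535) (.f (nat_lit 368) (nat_lit 335) (nat_lit 7503) (.d (nat_lit 369) (nat_lit 337) (nat_lit 6480) (nat_lit 401) (nat_lit 6512)))))) (.f (nat_lit 527) (nat_lit 559) (nat_lit 5551) (.f (nat_lit 400) (nat_lit 495) (nat_lit 5519)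 (.f (nat_lit 367) (nat_lit 399) (nat_lit 7535) (.f (nat_lit 368) (nat_lit 335) (nat_lit 7503) (.f (nat_lit 337) (nat_lit 369) (nat_lit 6480) (.f (nat_lit 336) (nat_lit 305) (nat_lit 6448) (.d (nat_lit 465) (nat_lit 433) (nat_lit 4432) (nat_lit 497) (nat_lit 4464))))))))))))
noncomputable def s20985 : Cert := .r (nat_lit 878694100701304956570734797452538804336013271774068551734433172385960333479168014063857764167120121686344508554511478877461784672025134238442467252511872909312) (.p (nat_lit 494) (.a (.p (nat_lit 495) (.a (.f (nat_lit 493) (nat_lit 465) (nat_lit 2509) (.d (nat_lit 461) (nat_lit 460) (nat_lit 3532) (nat_lit 497) (nat_lit 3533))) (.a (.f (nat_lit 465) (nat_lit 493) (nat_lit 2509) (.d (nat_lit 466) (nat_lit 463) (nat_lit 1486) (nat_lit 467) (nat_lit 1487))) (.f (nat_lit 461) (nat_lit 497) (nat_lit 3533) (.d (nat_lit 460) (nat_lit 459) (nat_lit 459) (nat_lit 463) (nat_lit 460)))))) (.a s20393 (.a (.p (nat_lit 493) (.a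 (.d (nat_lit 465) (nat_lit 463) (nat_lit 1485) (nat_lit 495) (nat_lit 2509)) (.a (.f (nat_lit 463) (nat_lit 465) (nat_lit 1485) (.d (nat_lit 492) (nat_lit 461) (nat_lit 1484) (nat_lit 491) (nat_lit 2507))) (.a (.d (nat_lit 495) (nat_lit 465) (nat_lit 2509) (nat_lit 529) (nat_lit 493)) (.f (nat_lit 495) (nat_lit 529) (nat_lit 493) (.d (nat_lit 492) (nat_lit 463) (nat_lit 2508) (nat_lit 527) (nat_lit 492))))))) (.a (.p (nat_lit 432) (.a (.f (nat_lit 399) (nat_lit 431) (nat_lit 7567) (.f (nat_lit 400) (nat_lit 367) (nat_lit 7535) (.d (nat_lit 529) (nat_lit 497) (nat_lit 4496) (nat_lit 561) (nat_lit 4528)))) (.a (.f (nat_lit 399) (nat_lit 431) (nat_lit 7567) (.f (nat_lit 400) (nat_lit 367) (nat_lit 7535) (.d (nat_lit 527) (nat_lit 495) (nat_lit 5519) (nat_lit 559) (nat_lit 5551)))) (.a (.f (nat_lit 529) (nat_lit 561) (nat_lit 4528) (.f (nat_lit 400) (nat_lit 497) (nat_lit 4496) (.f (nat_lit 367) (nat_lit 399) (nat_lit 7535) (.f (nat_lit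 368) (nat_lit 335) (nat_lit 7503) (.d (nat_lit 369) (nat_lit 337) (nat_lit 6480) (nat_lit 401) (nat_lit 6512)))))) (.f (nat_lit 527) (nat_lit 559) (nat_lit 5551) (.f (nat_lit 529) (nat_lit 561) (nat_lit 4528) (.f (nat_lit 495) (nat_lit 530) (nat_lit 3566) (.f (nat_lit 461) (nat_lit 497) (nat_lit 3533) (.d (nat_lit 460) (nat_lit 459) (nat_lit 459) (nat_lit 463) (nat_lit 460)))))))))) (.p (nat_lit 529) (.a (.f (nat_lit 432) (nat_lit 561) (nat_lit 4528) (.f (nat_lit 400) (nat_lit 497) (nat_lit 4496) (.d (nat_lit 399) (nat_lit 367) (nat_lit 7535) (nat_lit 431) (nat_lit 7567)))) (.f (nat_lit 495) (nat_lit 493) (nat_lit 493) (.d (nat_lit 530) (nat_lit 527) (nat_lit 3566) (nat_lit 531) (nat_lit 3567))))))))))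
noncomputable def s20997 : Cert := .r (nat_lit 878694100701304956570734797452538804336013271774068551734433172385960333479168014063857764167120121686344508554511478877461784672025134238442467252511872909312) (.p (nat_lit 432) (.a (.f (nat_lit 401) (nat_lit 433) (nat_lit 6544) (.f (nat_lit 400) (nat_lit 369) (nat_lit 6512) (.d (nat_lit 399) (nat_lit 367) (nat_lit 7535) (nat_lit 431) (nat_lit 7567)))) (.a (.f (nat_lit 401) (nat_lit 433) (nat_lit 6544) (.f (nat_lit 400) (nat_lit 369) (nat_lit 6512) (.d (nat_lit 527) (nat_lit 495) (nat_lit 5519) (nat_lit 559) (nat_lit 5551)))) (.a (.f (nat_lit 527) (nat_lit 559) (nat_lit 5551) (.f (nat_lit 400) (nat_lit 495) (nat_lit 5519) (.d (nat_lit 399) (nat_lit 367) (nat_lit 7535) (nat_lit 431) (nat_lit 7567)))) (.f (nat_lit 431) (nat_lit 399) (nat_lit 7567) (.f (nat_lit 433) (nat_lit 401) (nat_lit 6544) (.f (nat_lit 434) (nat_lit 463) (nat_lit 1454) (.f (nat_lit 466) (nat_lit 467) (nat_lit 431)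 (.f (nat_lit 465) (nat_lit 430) (nat_lit 430) (.f (nat_lit 529) (nat_lit 561) (nat_lit 4528) (.d (nat_lit 402) (nat_lit 403) (nat_lit 2447) (nat_lit 497) (nat_lit 6545))))))))))))
noncomputable def s20998 : Cert := .r (nat_lit 878694100701304956570734797452538804336013271774068551734433172385960333479168014063857764167120121686344508554511478877461784672025134238442467252511872909312) (.p (nat_lit 432) (.a (.f (nat_lit 433) (nat_lit 401) (nat_lit 6544) (.f (nat_lit 463) (nat_lit 461) (nat_lit 2477) (.d (nat_lit 431) (nat_lit 399) (nat_lit 7567) (nat_lit 434) (nat_lit 1454)))) (.a (.f (nat_lit 401) (nat_lit 433) (nat_lit 6544) (.f (nat_lit 400) (nat_lit 369) (nat_lit 6512) (.d (nat_lit 399) (nat_lit 367) (nat_lit 7535) (nat_lit 431) (nat_lit 7567)))) (.a (.f (nat_lit 401) (nat_lit 433) (nat_lit 6544) (.f (nat_lit 400) (nat_lit 369) (nat_lit 6512) (.d (nat_lit 527) (nat_lit 495) (nat_lit 5519) (nat_lit 559) (nat_lit 5551)))) (.f (nat_lit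 527) (nat_lit 559) (nat_lit 5551) (.f (nat_lit 400) (nat_lit 495) (nat_lit 5519) (.d (nat_lit 399) (nat_lit 367) (nat_lit 7535) (nat_lit 431) (nat_lit 7567))))))))
noncomputable def s21000 : Cert := .r (nat_lit 878694100701304956570734797452538804336013271774068551734433172385960333479168014063857764167120121686344508554511478877461784672025134238442467252511872909312) (.p (nat_lit 494) (.a (.p (nat_lit 495) (.a (.f (nat_lit 493) (nat_lit 465) (nat_lit 2509) (.d (nat_lit 461) (nat_lit 460) (nat_lit 3532) (nat_lit 497) (nat_lit 3533))) (.a (.f (nat_lit 465) (nat_lit 493) (nat_lit 2509) (.d (nat_lit 466) (nat_lit 463) (nat_lit 1486) (nat_lit 467) (nat_lit 1487))) (.f (nat_lit 461) (nat_lit 497) (nat_lit 3533) (.d (nat_lit 460) (nat_lit 459) (nat_lit 459) (nat_lit 463) (nat_lit 460)))))) (.a s20393 (.a (.p (nat_lit 493) (.a (.d (nat_lit 465) (nat_lit 463) (nat_lit 1485) (nat_lit 495) (nat_lit 2509)) (.a (.f (nat_lit 463) (nat_lit 465)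 (nat_lit 1485) (.d (nat_lit 492) (nat_lit 461) (nat_lit 1484) (nat_lit 491) (nat_lit 2507))) (.a (.d (nat_lit 495) (nat_lit 465) (nat_lit 2509) (nat_lit 529) (nat_lit 493)) (.f (nat_lit 495) (nat_lit 529) (nat_lit 493) (.d (nat_lit 492) (nat_lit 463) (nat_lit 2508) (nat_lit 527) (nat_lit 492))))))) (.a (.p (nat_lit 432) (.a (.f (nat_lit 399) (nat_lit 431) (nat_lit 7567) (.f (nat_lit 400) (nat_lit 367) (nat_lit 7535) (.d (nat_lit 529) (nat_lit 497) (nat_lit 4496) (nat_lit 561) (nat_lit 4528)))) (.a (.f (nat_lit 399) (nat_lit 431) (nat_lit 7567) (.f (nat_lit 400) (nat_lit 367) (nat_lit 7535) (.d (nat_lit 527) (nat_lit 495) (nat_lit 5519) (nat_lit 559) (nat_lit 5551)))) (.a (.f (nat_lit 529) (nat_lit 561) (nat_lit 4528) (.f (nat_lit 497) (nat_lit 400) (nat_lit 4496) (.d (nat_lit 461) (nat_lit 463) (nat_lit 461) (nat_lit 495) (nat_lit 3533)))) (.f (nat_lit 527) (nat_lit 559) (nat_lit 5551) (.f (nat_lit 529) (nat_lit 561) (nat_lit 4528)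 (.f (nat_lit 495) (nat_lit 530) (nat_lit 3566) (.f (nat_lit 461) (nat_lit 497) (nat_lit 3533) (.d (nat_lit 460) (nat_lit 459) (nat_lit 459) (nat_lit 463) (nat_lit 460)))))))))) (.p (nat_lit 529) (.a (.f (nat_lit 432) (nat_lit 561) (nat_lit 4528) (.f (nat_lit 400) (nat_lit 497) (nat_lit 4496) (.d (nat_lit 399) (nat_lit 367) (nat_lit 7535) (nat_lit 431) (nat_lit 7567)))) (.f (nat_lit 495) (nat_lit 493) (nat_lit 493) (.d (nat_lit 530) (nat_lit 527) (nat_lit 3566) (nat_lit 531) (nat_lit 3567))))))))))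
noncomputable def s21087 : Cert := .r (nat_lit 1098367625876631195650898737106662583122525953058291091641078650201570066575787356607100336202538116335104986274944261741552681781546826236922171771952922886144) (.p (nat_lit 430) (.a (.f (nat_lit 399) (nat_lit 431) (nat_lit 6542) (.f (nat_lit 398) (nat_lit 367) (nat_lit 6510) (.d (nat_lit 397) (nat_lit 365) (nat_lit 7533) (nat_lit 429) (nat_lit 7565)))) (.a (.f (nat_lit 527) (nat_lit 559) (nat_lit 4526) (.f (nat_lit 495) (nat_lit 398) (nat_lit 4494) (.d (nat_lit 525) (nat_lit 524) (nat_lit 2540) (nat_lit 557) (nat_lit 5549)))) (.f (nat_lit 527) (nat_lit 559) (nat_lit 4526) (.f (nat_lit 525) (nat_lit 557) (nat_lit 5549) (.f (nat_lit 495) (nat_lit 524) (nat_lit 2540) (.f (nat_lit 431) (nat_lit 399) (nat_lit 6542) (.f (nat_lit 429) (nat_lit 397) (nat_lit 7565) (.f (nat_lit 529) (nat_lit 530) (nat_lit 3566) (.f (nat_lit 561) (nat_lit 562) (nat_lit 526) (.f (nat_lit 432) (nat_lit 464) (nat_lit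 4528) (.d (nat_lit 400) (nat_lit 401) (nat_lit 2445) (nat_lit 463) (nat_lit 6543)))))))))))))
noncomputable def s21088 : Cert := .r (nat_lit 1098367625876631195650898737106662583122525953058291091641078650201570066575787356607100336202538116335104986274944261741552681781546826236922171771952922886144) (.p (nat_lit 558) (.a (.f (nat_lit 559) (nat_lit 591) (nat_lit 4558) (.f (nat_lit 527) (nat_lit 430) (nat_lit 4526) (.d (nat_lit 557) (nat_lit 556) (nat_lit 2572) (nat_lit 589) (nat_lit 5581)))) (.a (.f (nat_lit 589) (nat_lit 557) (nat_lit 5581) (.f (nat_lit 590) (nat_lit 621) (nat_lit 5613) (.d (nat_lit 591) (nat_lit 559) (nat_lit 4558) (nat_lit 623) (nat_lit 4590)))) (.a (.f (nat_lit 557) (nat_lit 589) (nat_lit 5581) (.f (nat_lit 527) (nat_lit 529) (nat_lit 1549) (.d (nat_lit 525) (nat_lit 430) (nat_lit 5549) (nat_lit 556) (nat_lit 1548)))) (.f (nat_lit 559) (nat_lit 591) (nat_lit 4558) (.f (nat_lit 430) (nat_lit 527) (nat_lit 4526)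 (.d (nat_lit 429) (nat_lit 397) (nat_lit 7565) (nat_lit 461) (nat_lit 7597))))))))
noncomputable def s21089 : Cert := .r (nat_lit 1098367625876631195650898737106662583122525953058291091641078650201570066575787356607100336202538116335104986274944261741552681781546826236922171771952922886144) (.p (nat_lit 558) (.a (.f (nat_lit 559) (nat_lit 591) (nat_lit 4558) (.f (nat_lit 527) (nat_lit 430) (nat_lit 4526) (.d (nat_lit 557) (nat_lit 556) (nat_lit 2572) (nat_lit 589) (nat_lit 5581)))) (.a (.f (nat_lit 557) (nat_lit 589) (nat_lit 5581) (.f (nat_lit 430) (nat_lit 525) (nat_lit 5549) (.d (nat_lit 431) (nat_lit 399) (nat_lit 6542) (nat_lit 463) (nat_lit 6574)))) (.a (.f (nat_lit 559) (nat_lit 591) (nat_lit 4558) (.f (nat_lit 430) (nat_lit 527) (nat_lit 4526) (.d (nat_lit 431) (nat_lit 399) (nat_lit 6542) (nat_lit 463) (nat_lit 6574)))) (.f (nat_lit 557) (nat_lit 589) (nat_lit 5581) (.f (nat_lit 527) (nat_lit 529) (nat_lit 1549) (.d (nat_lit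 556) (nat_lit 525) (nat_lit 1548) (nat_lit 555) (nat_lit 2571))))))))
noncomputable def s21090 : Cert := .r (nat_lit 878694100752451684771477911536058000169904023453705318540455819507632684707062362939178427701371570575831504310416874284364778165555893634919802866637241057280) (.p (nat_lit 526) (.a (.p (nat_lit 558) (.a (.f (nat_lit 429) (nat_lit 461) (nat_lit 7597) (.f (nat_lit 430) (nat_lit 397) (nat_lit 7565) (.d (nat_lit 431) (nat_lit 399) (nat_lit 6542) (nat_lit 463) (nat_lit 6574)))) (.f (nat_lit 589) (nat_lit 557) (nat_lit 5581) (.f (nat_lit 590) (nat_lit 621) (nat_lit 5613) (.d (nat_lit 591) (nat_lit 559) (nat_lit 4558) (nat_lit 623) (nat_lit 4590)))))) (.a (.p (nat_lit 558) (.a (.f (nat_lit 463) (nat_lit 431) (nat_lit 6574) (.f (nat_lit 495) (nat_lit 590) (nat_lit 6606) (.d (nat_lit 461) (nat_lit 429) (nat_lit 7597) (nat_lit 460) (nat_lit 460)))) (.a (.f (nat_lit 429) (nat_lit 461) (nat_lit 7597) (.f (nat_lit 430) (nat_lit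 397) (nat_lit 7565) (.d (nat_lit 431) (nat_lit 399) (nat_lit 6542) (nat_lit 463) (nat_lit 6574)))) (.f (nat_lit 557) (nat_lit 589) (nat_lit 5581) (.f (nat_lit 527) (nat_lit 529) (nat_lit 1549) (.d (nat_lit 525) (nat_lit 430) (nat_lit 5549) (nat_lit 556) (nat_lit 1548))))))) (.a s21087 (.a s21088 (.a s19820 (.a (.p (nat_lit 558) (.a (.f (nat_lit 463) (nat_lit 431) (nat_lit 6574) (.f (nat_lit 495) (nat_lit 590) (nat_lit 6606) (.d (nat_lit 461) (nat_lit 429) (nat_lit 7597) (nat_lit 460) (nat_lit 460)))) (.f (nat_lit 557) (nat_lit 589) (nat_lit 5581) (.f (nat_lit 527) (nat_lit 529) (nat_lit 1549) (.d (nat_lit 556) (nat_lit 525) (nat_lit 1548) (nat_lit 555) (nat_lit 2571)))))) s21089)))))))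
noncomputable def s21091 : Cert := .r (nat_lit 1098367625876631195650898737106662583122525953058291091641078650201570066575787356607100336202538116335104986274944261741552681781546826236922171771952922886144) (.p (nat_lit 558) (.a (.f (nat_lit 559) (nat_lit 591) (nat_lit 4558) (.f (nat_lit 527) (nat_lit 430) (nat_lit 4526) (.d (nat_lit 557) (nat_lit 556) (nat_lit 2572) (nat_lit 589) (nat_lit 5581)))) (.a (.f (nat_lit 589) (nat_lit 557) (nat_lit 5581) (.f (nat_lit 590) (nat_lit 621) (nat_lit 5613) (.d (nat_lit 591) (nat_lit 559) (nat_lit 4558) (nat_lit 623) (nat_lit 4590)))) (.a (.f (nat_lit 557) (nat_lit 589) (nat_lit 5581) (.f (nat_lit 527) (nat_lit 529) (nat_lit 1549) (.d (nat_lit 525) (nat_lit 430) (nat_lit 5549) (nat_lit 556) (nat_lit 1548)))) (.f (nat_lit 559) (nat_lit 591) (nat_lit 4558) (.f (nat_lit 527) (nat_lit 430) (nat_lit 4526) (.d (nat_lit 529) (nat_lit 493) (nat_lit 3565) (nat_lit 530) (nat_lit 1550))))))))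
noncomputable def s21092 : Cert := .r (nat_lit 878694100752451684771477911536058000169904023453705318540455819507632684707062362939178427701371570575831504310416874284364778165555893634919802866637241057280) (.p (nat_lit 526) (.a s19686 (.a (.p (nat_lit 558) (.a (.f (nat_lit 591) (nat_lit 559) (nat_lit 4558) (.f (nat_lit 590) (nat_lit 623) (nat_lit 4590) (.d (nat_lit 461) (nat_lit 429) (nat_lit 7597) (nat_lit 493) (nat_lit 7629)))) (.a (.f (nat_lit 429) (nat_lit 461) (nat_lit 7597) (.f (nat_lit 430) (nat_lit 397) (nat_lit 7565) (.d (nat_lit 557) (nat_lit 525) (nat_lit 5549) (nat_lit 589) (nat_lit 5581)))) (.f (nat_lit 589) (nat_lit 557) (nat_lit 5581) (.f (nat_lit 590) (nat_lit 621) (nat_lit 5613) (.d (nat_lit 591) (nat_lit 559) (nat_lit 4558) (nat_lit 623) (nat_lit 4590))))))) (.a s20767 (.a (.p (nat_lit 558) (.a (.f (nat_lit 591) (nat_lit 559) (nat_lit 4558) (.f (nat_lit 590) (nat_lit 623) (nat_lit 4590) (.d (nat_lit 461) (nat_lit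 429) (nat_lit 7597) (nat_lit 493) (nat_lit 7629)))) (.a (.f (nat_lit 461) (nat_lit 429) (nat_lit 7597) (.f (nat_lit 590) (nat_lit 493) (nat_lit 7629) (.d (nat_lit 589) (nat_lit 557) (nat_lit 5581) (nat_lit 621) (nat_lit 5613)))) (.f (nat_lit 559) (nat_lit 591) (nat_lit 4558) (.f (nat_lit 527) (nat_lit 430) (nat_lit 4526) (.d (nat_lit 557) (nat_lit 556) (nat_lit 2572) (nat_lit 589) (nat_lit 5581))))))) (.a (.p (nat_lit 527) (.a (.f (nat_lit 430) (nat_lit 559) (nat_lit 4526) (.f (nat_lit 397) (nat_lit 429) (nat_lit 7565) (.f (nat_lit 398) (nat_lit 365) (nat_lit 7533) (.d (nat_lit 399) (nat_lit 367) (nat_lit 6510) (nat_lit 431) (nat_lit 6542))))) (.f (nat_lit 493) (nat_lit 529) (nat_lit 3565) (.d (nat_lit 492) (nat_lit 491) (nat_lit 491) (nat_lit 495) (nat_lit 492))))) (.a s21088 (.a (.p (nat_lit 558) (.a (.f (nat_lit 591) (nat_lit 559) (nat_lit 4558) (.f (nat_lit 590) (nat_lit 623) (nat_lit 4590) (.d (nat_lit 461) (nat_lit 429) (nat_lit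 7597) (nat_lit 493) (nat_lit 7629)))) (.f (nat_lit 557) (nat_lit 589) (nat_lit 5581) (.f (nat_lit 527) (nat_lit 529) (nat_lit 1549) (.d (nat_lit 556) (nat_lit 525) (nat_lit 1548) (nat_lit 555) (nat_lit 2571)))))) s21091))))))))
noncomputable def s21266 : Cert := .r (nat_lit 1098367625825484467402521520387706494109594716304906059671655762865893638949285266038277296282487021142512733819461657302059555672027806603392712505494664642560) (.p (nat_lit 527) (.a (.f (nat_lit 525) (nat_lit 497) (nat_lit 2541) (.f (nat_lit 557) (nat_lit 556) (nat_lit 1548) (.f (nat_lit 494) (nat_lit 430) (nat_lit 5549) (.d (nat_lit 558) (nat_lit 529) (nat_lit 1549) (nat_lit 589) (nat_lit 5581))))) (.a (.f (nat_lit 525) (nat_lit 497) (nat_lit 2541) (.f (nat_lit 557) (nat_lit 556) (nat_lit 1548) (.f (nat_lit 494) (nat_lit 430) (nat_lit 5549) (.d (nat_lit 589) (nat_lit 558) (nat_lit 5581) (nat_lit 621) (nat_lit 6637))))) (.a (.p (nat_lit 529) (.a (.f (nat_lit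 561) (nat_lit 562) (nat_lit 526) (.f (nat_lit 464) (nat_lit 432) (nat_lit 4528) (.d (nat_lit 593) (nat_lit 497) (nat_lit 7632) (nat_lit 625) (nat_lit 7664)))) (.a (.f (nat_lit 558) (nat_lit 557) (nat_lit 1549) (.f (nat_lit 530) (nat_lit 559) (nat_lit 1550) (.d (nat_lit 562) (nat_lit 561) (nat_lit 526) (nat_lit 563) (nat_lit 527)))) (.f (nat_lit 558) (nat_lit 557) (nat_lit 1549) (.f (nat_lit 559) (nat_lit 530) (nat_lit 1550) (.f (nat_lit 591) (nat_lit 623) (nat_lit 6639) (.d (nat_lit 464) (nat_lit 432) (nat_lit 5551) (nat_lit 495) (nat_lit 6607)))))))) (.a (.f (nat_lit 525) (nat_lit 497) (nat_lit 2541) (.f (nat_lit 524) (nat_lit 495) (nat_lit 2540) (.d (nat_lit 556) (nat_lit 555) (nat_lit 1547) (nat_lit 557) (nat_lit 1548)))) (.a (.p (nat_lit 525) (.a (.f (nat_lit 557) (nat_lit 556) (nat_lit 1548) (.f (nat_lit 494) (nat_lit 430) (nat_lit 5549) (.d (nat_lit 558) (nat_lit 529) (nat_lit 1549) (nat_lit 589) (nat_lit 5581)))) (.a (.f (nat_lit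 524) (nat_lit 495) (nat_lit 2540) (.d (nat_lit 556) (nat_lit 555) (nat_lit 1547) (nat_lit 557) (nat_lit 1548))) (.a (.f (nat_lit 524) (nat_lit 495) (nat_lit 2540) (.f (nat_lit 491) (nat_lit 492) (nat_lit 3563) (.f (nat_lit 523) (nat_lit 490) (nat_lit 3562) (.d (nat_lit 555) (nat_lit 554) (nat_lit 1546) (nat_lit 556) (nat_lit 1547))))) (.f (nat_lit 524) (nat_lit 495) (nat_lit 2540) (.f (nat_lit 491) (nat_lit 492) (nat_lit 3563) (.f (nat_lit 523) (nat_lit 490) (nat_lit 3562) (.f (nat_lit 558) (nat_lit 559) (nat_lit 523) (.d (nat_lit 557) (nat_lit 522) (nat_lit 522) (nat_lit 529) (nat_lit 1549)))))))))) (.f (nat_lit 525) (nat_lit 497) (nat_lit 2541) (.f (nat_lit 524) (nat_lit 495) (nat_lit 2540) (.f (nat_lit 491) (nat_lit 492) (nat_lit 3563) (.f (nat_lit 523) (nat_lit 490) (nat_lit 3562) (.d (nat_lit 555) (nat_lit 554) (nat_lit 1546) (nat_lit 556) (nat_lit 1547))))))))))))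
noncomputable def s21279 : Cert := .r (nat_lit 1098367625876631195650898737106662583122525953058291091641078650201570066575787356607100336202538116335104986274944261741552681781546826236922171771952922886144) (.p (nat_lit 558) (.a (.f (nat_lit 559) (nat_lit 591) (nat_lit 4558) (.f (nat_lit 527) (nat_lit 430) (nat_lit 4526) (.f (nat_lit 525) (nat_lit 497) (nat_lit 2541) (.d (nat_lit 524) (nat_lit 495) (nat_lit 2540) (nat_lit 523) (nat_lit 523))))) (.a (.f (nat_lit 463) (nat_lit 431) (nat_lit 6574) (.f (nat_lit 495) (nat_lit 590) (nat_lit 6606) (.f (nat_lit 497) (nat_lit 525) (nat_lit 1517) (.f (nat_lit 465) (nat_lit 466) (nat_lit 2510) (.f (nat_lit 529) (nat_lit 530) (nat_lit 494) (.f (nat_lit 433) (nat_lit 401) (nat_lit 5520) (.d (nat_lit 434) (nat_lit 402) (nat_lit 6545) (nat_lit 464) (nat_lit 2478)))))))) (.f (nat_lit 559) (nat_lit 591) (nat_lit 4558) (.f (nat_lit 430) (nat_lit 527) (nat_lit 4526) (.d (nat_lit 431) (nat_lit 399)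 (nat_lit 6542) (nat_lit 463) (nat_lit 6574)))))))
noncomputable def s21287 : Cert := .r (nat_lit 1098367625876631195650898737106662583122525953058291091641078650201570066575787356607100336202538116335104986274944261741552681781546826236922171771952922886144) (.p (nat_lit 558) (.a (.f (nat_lit 461) (nat_lit 429) (nat_lit 7597) (.f (nat_lit 495) (nat_lit 497) (nat_lit 3533) (.d (nat_lit 460) (nat_lit 459) (nat_lit 459) (nat_lit 463) (nat_lit 460)))) (.a (.f (nat_lit 559) (nat_lit 591) (nat_lit 4558) (.f (nat_lit 461) (nat_lit 429) (nat_lit 7597) (.f (nat_lit 463) (nat_lit 431) (nat_lit 6574) (.f (nat_lit 464) (nat_lit 497) (nat_lit 461) (.d (nat_lit 432) (nat_lit 433) (nat_lit 2477) (nat_lit 527) (nat_lit 5551)))))) (.a (.f (nat_lit 463) (nat_lit 431) (nat_lit 6574) (.f (nat_lit 495) (nat_lit 590) (nat_lit 6606) (.d (nat_lit 461) (nat_lit 429) (nat_lit 7597) (nat_lit 460) (nat_lit 460)))) (.a (.f (nat_lit 559) (nat_lit 591) (nat_lit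 4558) (.f (nat_lit 461) (nat_lit 429) (nat_lit 7597) (.f (nat_lit 497) (nat_lit 495) (nat_lit 3533) (.f (nat_lit 527) (nat_lit 525) (nat_lit 2541) (.f (nat_lit 529) (nat_lit 530) (nat_lit 1550) (.f (nat_lit 561) (nat_lit 562) (nat_lit 526) (.d (nat_lit 464) (nat_lit 432) (nat_lit 5551) (nat_lit 593) (nat_lit 7632)))))))) (.f (nat_lit 463) (nat_lit 431) (nat_lit 6574) (.f (nat_lit 495) (nat_lit 590) (nat_lit 6606) (.f (nat_lit 497) (nat_lit 525) (nat_lit 1517) (.f (nat_lit 465) (nat_lit 466) (nat_lit 2510) (.f (nat_lit 529) (nat_lit 530) (nat_lit 494) (.f (nat_lit 433) (nat_lit 401) (nat_lit 5520) (.d (nat_lit 434) (nat_lit 402) (nat_lit 6545) (nat_lit 464) (nat_lit 2478)))))))))))))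
noncomputable def s21290 : Cert := .r (nat_lit 943490607303752963885873112649588743116936799213704823398957634733061803463930851970816947332691988167854114900203695044404303459540753830168165166250886516407013474304) (.p (nat_lit 494) (.a (.f (nat_lit 557) (nat_lit 589) (nat_lit 5581) (.f (nat_lit 527) (nat_lit 529) (nat_lit 1549) (.d (nat_lit 556) (nat_lit 525) (nat_lit 1548) (nat_lit 555) (nat_lit 2571)))) (.a (.f (nat_lit 589) (nat_lit 557) (nat_lit 5581) (.f (nat_lit 590) (nat_lit 621) (nat_lit 5613) (.d (nat_lit 591) (nat_lit 559) (nat_lit 4558) (nat_lit 623) (nat_lit 4590)))) (.f (nat_lit 559) (nat_lit 591) (nat_lit 4558) (.f (nat_lit 461) (nat_lit 429) (nat_lit 7597) (.f (nat_lit 463) (nat_lit 431) (nat_lit 6574) (.f (nat_lit 464) (nat_lit 497) (nat_lit 461) (.d (nat_lit 432) (nat_lit 433) (nat_lit 2477) (nat_lit 527) (nat_lit 5551)))))))))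
noncomputable def s21304 : Cert := .r (nat_lit 1098367625825484467402521520387706494109594716304906059671655762865893638949285266038277296282487021142512733819461657302059555672027806603392712505494664642560) (.p (nat_lit 558) (.a (.p (nat_lit 494) (.a (.f (nat_lit 461) (nat_lit 429) (nat_lit 7597) (.f (nat_lit 495) (nat_lit 497) (nat_lit 3533) (.d (nat_lit 460) (nat_lit 459) (nat_lit 459) (nat_lit 463) (nat_lit 460)))) (.f (nat_lit 557) (nat_lit 589) (nat_lit 5581) (.f (nat_lit 527) (nat_lit 529) (nat_lit 1549) (.d (nat_lit 556) (nat_lit 525) (nat_lit 1548) (nat_lit 555) (nat_lit 2571)))))) (.a (.p (nat_lit 494) (.a (.f (nat_lit 461) (nat_lit 429) (nat_lit 7597) (.f (nat_lit 495) (nat_lit 497) (nat_lit 3533) (.d (nat_lit 460) (nat_lit 459) (nat_lit 459) (nat_lit 463) (nat_lit 460)))) (.f (nat_lit 589) (nat_lit 557) (nat_lit 5581) (.f (nat_lit 590) (nat_lit 621) (nat_lit 5613) (.d (nat_lit 591) (nat_lit 559) (nat_lit 4558) (nat_lit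 623) (nat_lit 4590)))))) (.a s21290 (.a (.p (nat_lit 527) (.a (.f (nat_lit 525) (nat_lit 497) (nat_lit 2541) (.d (nat_lit 557) (nat_lit 529) (nat_lit 1549) (nat_lit 556) (nat_lit 1548))) (.a (.f (nat_lit 525) (nat_lit 497) (nat_lit 2541) (.f (nat_lit 556) (nat_lit 557) (nat_lit 1548) (.f (nat_lit 524) (nat_lit 555) (nat_lit 1547) (.f (nat_lit 491) (nat_lit 492) (nat_lit 3563) (.d (nat_lit 523) (nat_lit 490) (nat_lit 3562) (nat_lit 559) (nat_lit 523)))))) (.a (.f (nat_lit 529) (nat_lit 557) (nat_lit 1549) (.f (nat_lit 559) (nat_lit 530) (nat_lit 1550) (.f (nat_lit 464) (nat_lit 432) (nat_lit 5551) (.d (nat_lit 591) (nat_lit 495) (nat_lit 6607) (nat_lit 623) (nat_lit 6639))))) (.f (nat_lit 525) (nat_lit 497) (nat_lit 2541) (.f (nat_lit 495) (nat_lit 524) (nat_lit 2540) (.f (nat_lit 463) (nat_lit 431) (nat_lit 5550) (.d (nat_lit 590) (nat_lit 559) (nat_lit 5582) (nat_lit 622) (nat_lit 6638))))))))) (.a (.p (nat_lit 494) (.a (.f (nat_lit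 463) (nat_lit 431) (nat_lit 6574) (.f (nat_lit 495) (nat_lit 590) (nat_lit 6606) (.d (nat_lit 461) (nat_lit 429) (nat_lit 7597) (nat_lit 460) (nat_lit 460)))) (.f (nat_lit 557) (nat_lit 589) (nat_lit 5581) (.f (nat_lit 527) (nat_lit 529) (nat_lit 1549) (.d (nat_lit 556) (nat_lit 525) (nat_lit 1548) (nat_lit 555) (nat_lit 2571)))))) (.a (.p (nat_lit 494) (.a (.f (nat_lit 557) (nat_lit 589) (nat_lit 5581) (.f (nat_lit 527) (nat_lit 529) (nat_lit 1549) (.d (nat_lit 556) (nat_lit 525) (nat_lit 1548) (nat_lit 555) (nat_lit 2571)))) (.a (.f (nat_lit 589) (nat_lit 557) (nat_lit 5581) (.f (nat_lit 590) (nat_lit 621) (nat_lit 5613) (.d (nat_lit 591) (nat_lit 559) (nat_lit 4558) (nat_lit 623) (nat_lit 4590)))) (.f (nat_lit 559) (nat_lit 591) (nat_lit 4558) (.f (nat_lit 461) (nat_lit 429) (nat_lit 7597) (.f (nat_lit 497) (nat_lit 495) (nat_lit 3533) (.f (nat_lit 527) (nat_lit 525) (nat_lit 2541) (.f (nat_lit 529) (nat_lit 530) (nat_lit 1550)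 (.f (nat_lit 561) (nat_lit 562) (nat_lit 526) (.d (nat_lit 464) (nat_lit 432) (nat_lit 5551) (nat_lit 593) (nat_lit 7632))))))))))) (.p (nat_lit 494) (.a (.f (nat_lit 461) (nat_lit 429) (nat_lit 7597) (.f (nat_lit 495) (nat_lit 497) (nat_lit 3533) (.d (nat_lit 460) (nat_lit 459) (nat_lit 459) (nat_lit 463) (nat_lit 460)))) (.a (.f (nat_lit 559) (nat_lit 591) (nat_lit 4558) (.f (nat_lit 461) (nat_lit 429) (nat_lit 7597) (.f (nat_lit 463) (nat_lit 431) (nat_lit 6574) (.f (nat_lit 464) (nat_lit 497) (nat_lit 461) (.d (nat_lit 432) (nat_lit 433) (nat_lit 2477) (nat_lit 527) (nat_lit 5551)))))) (.a (.f (nat_lit 463) (nat_lit 431) (nat_lit 6574) (.f (nat_lit 495) (nat_lit 590) (nat_lit 6606) (.d (nat_lit 461) (nat_lit 429) (nat_lit 7597) (nat_lit 460) (nat_lit 460)))) (.a (.f (nat_lit 559) (nat_lit 591) (nat_lit 4558) (.f (nat_lit 461) (nat_lit 429) (nat_lit 7597) (.f (nat_lit 497) (nat_lit 495) (nat_lit 3533) (.f (nat_lit 527) (nat_lit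 525) (nat_lit 2541) (.f (nat_lit 529) (nat_lit 530) (nat_lit 1550) (.f (nat_lit 561) (nat_lit 562) (nat_lit 526) (.d (nat_lit 464) (nat_lit 432) (nat_lit 5551) (nat_lit 593) (nat_lit 7632)))))))) (.f (nat_lit 463) (nat_lit 431) (nat_lit 6574) (.f (nat_lit 495) (nat_lit 590) (nat_lit 6606) (.f (nat_lit 497) (nat_lit 525) (nat_lit 1517) (.f (nat_lit 465) (nat_lit 466) (nat_lit 2510) (.f (nat_lit 529) (nat_lit 530) (nat_lit 494) (.f (nat_lit 433) (nat_lit 401) (nat_lit 5520) (.d (nat_lit 434) (nat_lit 402) (nat_lit 6545) (nat_lit 464) (nat_lit 2478))))))))))))))))))))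
noncomputable def s21379 : Cert := .r (nat_lit 1098367625876631195650898737106662583122525953058291091641078650201570066575787356607100336202538116335104986274944261741552681781546826236922171771952922886144) (.p (nat_lit 558) (.a (.f (nat_lit 589) (nat_lit 557) (nat_lit 5581) (.f (nat_lit 590) (nat_lit 621) (nat_lit 5613) (.d (nat_lit 591) (nat_lit 559) (nat_lit 4558) (nat_lit 623) (nat_lit 4590)))) (.a (.f (nat_lit 557) (nat_lit 589) (nat_lit 5581) (.f (nat_lit 525) (nat_lit 430) (nat_lit 5549) (.f (nat_lit 495) (nat_lit 497) (nat_lit 1517) (.d (nat_lit 493) (nat_lit 524) (nat_lit 1516) (nat_lit 529) (nat_lit 493))))) (.f (nat_lit 591) (nat_lit 559) (nat_lit 4558) (.f (nat_lit 590) (nat_lit 623) (nat_lit 4590) (.f (nat_lit 495) (nat_lit 463) (nat_lit 6606) (.f (nat_lit 493) (nat_lit 529) (nat_lit 493) (.d (nat_lit 525) (nat_lit 497) (nat_lit 1517) (nat_lit 524) (nat_lit 1516)))))))))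
noncomputable def s21384 : Cert := .r (nat_lit 1098367625825484467402521520387706494109594716304906059671655762865893638949285266038277296282487021142512733819461657302059555672027806603392712505494664642560) (.p (nat_lit 494) (.a (.p (nat_lit 527) (.a (.f (nat_lit 525) (nat_lit 497) (nat_lit 2541) (.d (nat_lit 430) (nat_lit 557) (nat_lit 5549) (nat_lit 559) (nat_lit 4526))) (.a (.f (nat_lit 525) (nat_lit 497) (nat_lit 2541) (.d (nat_lit 557) (nat_lit 430) (nat_lit 5549) (nat_lit 556) (nat_lit 1548))) (.a (.f (nat_lit 529) (nat_lit 493) (nat_lit 3565) (.f (nat_lit 561) (nat_lit 562) (nat_lit 526) (.f (nat_lit 464) (nat_lit 432) (nat_lit 4528) (.d (nat_lit 593) (nat_lit 497) (nat_lit 7632) (nat_lit 625) (nat_lit 7664))))) (.f (nat_lit 559) (nat_lit 430) (nat_lit 4526) (.d (nat_lit 591) (nat_lit 495) (nat_lit 7630) (nat_lit 623) (nat_lit 6639))))))) (.a (.p (nat_lit 527) (.a (.f (nat_lit 525) (nat_lit 497) (nat_lit 2541) (.d (nat_lit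 430) (nat_lit 557) (nat_lit 5549) (nat_lit 559) (nat_lit 4526))) (.a (.f (nat_lit 525) (nat_lit 497) (nat_lit 2541) (.d (nat_lit 557) (nat_lit 430) (nat_lit 5549) (nat_lit 556) (nat_lit 1548))) (.a (.f (nat_lit 559) (nat_lit 430) (nat_lit 4526) (.d (nat_lit 591) (nat_lit 495) (nat_lit 7630) (nat_lit 623) (nat_lit 6639))) (.f (nat_lit 525) (nat_lit 497) (nat_lit 2541) (.f (nat_lit 493) (nat_lit 492) (nat_lit 3564) (.d (nat_lit 557) (nat_lit 556) (nat_lit 1548) (nat_lit 589) (nat_lit 6605)))))))) (.a (.p (nat_lit 495) (.a (.d (nat_lit 497) (nat_lit 461) (nat_lit 3533) (nat_lit 525) (nat_lit 1517)) (.a (.f (nat_lit 461) (nat_lit 497) (nat_lit 3533) (.d (nat_lit 460) (nat_lit 459) (nat_lit 459) (nat_lit 463) (nat_lit 460))) (.f (nat_lit 493) (nat_lit 529) (nat_lit 493) (.f (nat_lit 525) (nat_lit 524) (nat_lit 1516) (.d (nat_lit 430) (nat_lit 398) (nat_lit 5517) (nat_lit 557) (nat_lit 5549))))))) (.a (.p (nat_lit 527) (.a (.f (nat_lit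 525) (nat_lit 497) (nat_lit 2541) (.d (nat_lit 557) (nat_lit 430) (nat_lit 5549) (nat_lit 556) (nat_lit 1548))) (.a (.f (nat_lit 529) (nat_lit 493) (nat_lit 3565) (.f (nat_lit 561) (nat_lit 562) (nat_lit 526) (.f (nat_lit 464) (nat_lit 432) (nat_lit 4528) (.d (nat_lit 593) (nat_lit 497) (nat_lit 7632) (nat_lit 625) (nat_lit 7664))))) (.f (nat_lit 493) (nat_lit 529) (nat_lit 3565) (.d (nat_lit 492) (nat_lit 491) (nat_lit 491) (nat_lit 525) (nat_lit 3564)))))) (.a (.p (nat_lit 495) (.a (.f (nat_lit 461) (nat_lit 497) (nat_lit 3533) (.d (nat_lit 460) (nat_lit 459) (nat_lit 459) (nat_lit 463) (nat_lit 460))) (.a (.f (nat_lit 493) (nat_lit 529) (nat_lit 493) (.f (nat_lit 492) (nat_lit 527) (nat_lit 492) (.d (nat_lit 460) (nat_lit 459) (nat_lit 3531) (nat_lit 461) (nat_lit 3532)))) (.f (nat_lit 493) (nat_lit 529) (nat_lit 493) (.f (nat_lit 492) (nat_lit 527) (nat_lit 492) (.d (nat_lit 463) (nat_lit 464) (nat_lit 2508) (nat_lit 491) (nat_lit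 2507))))))) (.a (.p (nat_lit 527) (.a (.f (nat_lit 559) (nat_lit 430) (nat_lit 4526) (.d (nat_lit 591) (nat_lit 495) (nat_lit 7630) (nat_lit 623) (nat_lit 6639))) (.f (nat_lit 493) (nat_lit 529) (nat_lit 3565) (.d (nat_lit 492) (nat_lit 491) (nat_lit 491) (nat_lit 525) (nat_lit 3564))))) (.p (nat_lit 527) (.a (.f (nat_lit 525) (nat_lit 497) (nat_lit 2541) (.d (nat_lit 430) (nat_lit 557) (nat_lit 5549) (nat_lit 559) (nat_lit 4526))) (.a (.f (nat_lit 525) (nat_lit 497) (nat_lit 2541) (.d (nat_lit 557) (nat_lit 430) (nat_lit 5549) (nat_lit 556) (nat_lit 1548))) (.a (.f (nat_lit 559) (nat_lit 430) (nat_lit 4526) (.d (nat_lit 591) (nat_lit 495) (nat_lit 7630) (nat_lit 623) (nat_lit 6639))) (.f (nat_lit 525) (nat_lit 497) (nat_lit 2541) (.f (nat_lit 524) (nat_lit 495) (nat_lit 2540) (.d (nat_lit 556) (nat_lit 555) (nat_lit 1547) (nat_lit 557) (nat_lit 1548)))))))))))))))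
noncomputable def s21409 : Cert := .r (nat_lit 1098367625876631195650898737106662583122525953058291091641078650201570066575787356607100336202538116335104986274944261741552681781546826236922171771952922886144) (.p (nat_lit 558) (.a (.f (nat_lit 557) (nat_lit 589) (nat_lit 5581) (.f (nat_lit 430) (nat_lit 525) (nat_lit 5549) (.d (nat_lit 431) (nat_lit 399) (nat_lit 6542) (nat_lit 463) (nat_lit 6574)))) (.a (.f (nat_lit 463) (nat_lit 431) (nat_lit 6574) (.f (nat_lit 590) (nat_lit 495) (nat_lit 6606) (.d (nat_lit 589) (nat_lit 557) (nat_lit 5581) (nat_lit 621) (nat_lit 5613)))) (.a (.f (nat_lit 589) (nat_lit 557) (nat_lit 5581) (.f (nat_lit 590) (nat_lit 621) (nat_lit 5613) (.d (nat_lit 591) (nat_lit 559) (nat_lit 4558) (nat_lit 623) (nat_lit 4590)))) (.f (nat_lit 463) (nat_lit 431) (nat_lit 6574) (.f (nat_lit 495) (nat_lit 590) (nat_lit 6606) (.f (nat_lit 497) (nat_lit 525) (nat_lit 1517) (.f (nat_lit 465) (nat_lit 466) (nat_lit 2510)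 (.f (nat_lit 529) (nat_lit 530) (nat_lit 494) (.f (nat_lit 433) (nat_lit 401) (nat_lit 5520) (.d (nat_lit 434) (nat_lit 402) (nat_lit 6545) (nat_lit 464) (nat_lit 2478))))))))))))
noncomputable def s21418 : Cert := .r (nat_lit 1098367625876631195650898737106662583122525953058291091641078650201570066575787356607100336202538116335104986274944261741552681781546826236922171771952922886144) (.p (nat_lit 495) (.a (.f (nat_lit 525) (nat_lit 497) (nat_lit 1517) (.d (nat_lit 524) (nat_lit 493) (nat_lit 1516) (nat_lit 523) (nat_lit 2539))) (.a (.f (nat_lit 493) (nat_lit 529) (nat_lit 493) (.f (nat_lit 464) (nat_lit 465) (nat_lit 2509) (.f (nat_lit 463) (nat_lit 492) (nat_lit 2508) (.d (nat_lit 431) (nat_lit 399) (nat_lit 5518) (nat_lit 558) (nat_lit 6574))))) (.f (nat_lit 497) (nat_lit 525) (nat_lit 1517) (.f (nat_lit 529) (nat_lit 530) (nat_lit 494) (.f (nat_lit 465) (nat_lit 466) (nat_lit 2510) (.f (nat_lit 433) (nat_lit 401) (nat_lit 5520)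 (.f (nat_lit 432) (nat_lit 400) (nat_lit 7568) (.f (nat_lit 464) (nat_lit 561) (nat_lit 4528) (.d (nat_lit 434) (nat_lit 402) (nat_lit 6545) (nat_lit 463) (nat_lit 2478)))))))))))
noncomputable def s21449 : Cert := .r (nat_lit 1098367625876631195650898737106662583122525953058291091641078650201570066575787356607100336202538116335104986274944261741552681781546826236922171771952922886144) (.p (nat_lit 558) (.a (.f (nat_lit 463) (nat_lit 431) (nat_lit 6574) (.f (nat_lit 495) (nat_lit 590) (nat_lit 6606) (.f (nat_lit 529) (nat_lit 493) (nat_lit 493) (.d (nat_lit 530) (nat_lit 497) (nat_lit 494) (nat_lit 531) (nat_lit 3567))))) (.a (.f (nat_lit 463) (nat_lit 431) (nat_lit 6574) (.f (nat_lit 590) (nat_lit 495) (nat_lit 6606) (.d (nat_lit 589) (nat_lit 557) (nat_lit 5581) (nat_lit 621) (nat_lit 5613)))) (.a (.f (nat_lit 589) (nat_lit 557) (nat_lit 5581) (.f (nat_lit 590) (nat_lit 621) (nat_lit 5613) (.d (nat_lit 591) (nat_lit 559) (nat_lit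 4558) (nat_lit 623) (nat_lit 4590)))) (.f (nat_lit 557) (nat_lit 589) (nat_lit 5581) (.f (nat_lit 559) (nat_lit 591) (nat_lit 4558) (.f (nat_lit 556) (nat_lit 527) (nat_lit 2572) (.f (nat_lit 523) (nat_lit 524) (nat_lit 3595) (.f (nat_lit 555) (nat_lit 522) (nat_lit 3594) (.d (nat_lit 587) (nat_lit 586) (nat_lit 1578) (nat_lit 588) (nat_lit 1579)))))))))))
noncomputable def s21451 : Cert := .r (nat_lit 1098367625825484467402521520387706494109594716304906059671655762865893638949285266038277296282487021142512733819461657302059555672027806603392712505494664642560) (.p (nat_lit 494) (.a s19675 (.a s19830 (.a s21418 (.a s20454 (.a s21449 (.a (.p (nat_lit 558) (.a (.f (nat_lit 557) (nat_lit 589) (nat_lit 5581) (.f (nat_lit 527) (nat_lit 529) (nat_lit 1549) (.d (nat_lit 556) (nat_lit 525) (nat_lit 1548) (nat_lit 555) (nat_lit 2571)))) (.a (.f (nat_lit 463) (nat_lit 431) (nat_lit 6574) (.f (nat_lit 590) (nat_lit 495) (nat_lit 6606) (.d (nat_lit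 589) (nat_lit 557) (nat_lit 5581) (nat_lit 621) (nat_lit 5613)))) (.f (nat_lit 463) (nat_lit 431) (nat_lit 6574) (.f (nat_lit 495) (nat_lit 590) (nat_lit 6606) (.f (nat_lit 493) (nat_lit 529) (nat_lit 493) (.d (nat_lit 464) (nat_lit 465) (nat_lit 1485) (nat_lit 492) (nat_lit 2508)))))))) (.p (nat_lit 558) (.a (.f (nat_lit 557) (nat_lit 589) (nat_lit 5581) (.f (nat_lit 527) (nat_lit 529) (nat_lit 1549) (.d (nat_lit 556) (nat_lit 525) (nat_lit 1548) (nat_lit 555) (nat_lit 2571)))) (.a (.f (nat_lit 463) (nat_lit 431) (nat_lit 6574) (.f (nat_lit 590) (nat_lit 495) (nat_lit 6606) (.d (nat_lit 589) (nat_lit 557) (nat_lit 5581) (nat_lit 621) (nat_lit 5613)))) (.f (nat_lit 463) (nat_lit 431) (nat_lit 6574) (.f (nat_lit 495) (nat_lit 590) (nat_lit 6606) (.f (nat_lit 497) (nat_lit 525) (nat_lit 1517) (.f (nat_lit 465) (nat_lit 466) (nat_lit 2510) (.f (nat_lit 529) (nat_lit 530) (nat_lit 494) (.f (nat_lit 433) (nat_lit 401) (nat_lit 5520) (.d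 (nat_lit 434) (nat_lit 402) (nat_lit 6545) (nat_lit 464) (nat_lit 2478))))))))))))))))))
noncomputable def s21504 : Cert := .r (nat_lit 1098367625825484467402521520387706494109594716304906059671655762865893638949285266038277296282487021142512733819461657302059555672027806603392712505494664642560) (.p (nat_lit 527) (.a (.f (nat_lit 525) (nat_lit 497) (nat_lit 2541) (.f (nat_lit 524) (nat_lit 495) (nat_lit 2540) (.d (nat_lit 492) (nat_lit 491) (nat_lit 3563) (nat_lit 493) (nat_lit 3564)))) (.a (.p (nat_lit 529) (.a (.f (nat_lit 561) (nat_lit 562) (nat_lit 526) (.f (nat_lit 464) (nat_lit 432) (nat_lit 4528) (.d (nat_lit 593) (nat_lit 497) (nat_lit 7632) (nat_lit 625) (nat_lit 7664)))) (.a (.f (nat_lit 558) (nat_lit 557) (nat_lit 1549) (.f (nat_lit 530) (nat_lit 559) (nat_lit 1550) (.d (nat_lit 562) (nat_lit 561) (nat_lit 526) (nat_lit 563) (nat_lit 527)))) (.f (nat_lit 525) (nat_lit 497) (nat_lit 2541) (.d (nat_lit 557) (nat_lit 556)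 (nat_lit 1548) (nat_lit 558) (nat_lit 1549)))))) (.a (.p (nat_lit 529) (.a (.f (nat_lit 561) (nat_lit 562) (nat_lit 526) (.f (nat_lit 464) (nat_lit 432) (nat_lit 4528) (.d (nat_lit 593) (nat_lit 497) (nat_lit 7632) (nat_lit 625) (nat_lit 7664)))) (.a (.f (nat_lit 558) (nat_lit 557) (nat_lit 1549) (.f (nat_lit 530) (nat_lit 559) (nat_lit 1550) (.d (nat_lit 562) (nat_lit 561) (nat_lit 526) (nat_lit 563) (nat_lit 527)))) (.f (nat_lit 558) (nat_lit 557) (nat_lit 1549) (.f (nat_lit 559) (nat_lit 530) (nat_lit 1550) (.f (nat_lit 591) (nat_lit 623) (nat_lit 6639) (.d (nat_lit 464) (nat_lit 432) (nat_lit 5551) (nat_lit 495) (nat_lit 6607)))))))) (.p (nat_lit 525) (.a (.f (nat_lit 524) (nat_lit 495) (nat_lit 2540) (.d (nat_lit 556) (nat_lit 555) (nat_lit 1547) (nat_lit 557) (nat_lit 1548))) (.a (.f (nat_lit 556) (nat_lit 557) (nat_lit 1548) (.f (nat_lit 524) (nat_lit 555) (nat_lit 1547) (.d (nat_lit 492) (nat_lit 491) (nat_lit 3563) (nat_lit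 493) (nat_lit 3564)))) (.a (.f (nat_lit 524) (nat_lit 495) (nat_lit 2540) (.f (nat_lit 491) (nat_lit 492) (nat_lit 3563) (.f (nat_lit 523) (nat_lit 490) (nat_lit 3562) (.d (nat_lit 555) (nat_lit 554) (nat_lit 1546) (nat_lit 556) (nat_lit 1547))))) (.a (.f (nat_lit 524) (nat_lit 495) (nat_lit 2540) (.f (nat_lit 491) (nat_lit 492) (nat_lit 3563) (.f (nat_lit 523) (nat_lit 490) (nat_lit 3562) (.f (nat_lit 558) (nat_lit 559) (nat_lit 523) (.d (nat_lit 557) (nat_lit 522) (nat_lit 522) (nat_lit 529) (nat_lit 1549)))))) (.f (nat_lit 557) (nat_lit 556) (nat_lit 1548) (.f (nat_lit 493) (nat_lit 492) (nat_lit 3564) (.f (nat_lit 558) (nat_lit 529) (nat_lit 1549) (.d (nat_lit 461) (nat_lit 429) (nat_lit 4525) (nat_lit 590) (nat_lit 4557))))))))))))))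
noncomputable def s21567 : Cert := .r (nat_lit 878694100701304956511192169158242687862212665431883220280182872118455237980908336946979793684870563807462937680039967586724118902039808942127312687095760289792) (.p (nat_lit 462) (.a (.p (nat_lit 526) (.a s19490 (.a s19531 (.a s19555 (.a s19584 (.a s19620 (.a s19659 (.a s19676 (.a s19687 (.a s19691 (.a s19707 (.a s19712 s19718)))))))))))) (.a (.p (nat_lit 494) (.a s19720 (.a s19721 (.a (.p (nat_lit 526) (.a (.p (nat_lit 558) (.a (.f (nat_lit 557) (nat_lit 589) (nat_lit 5581) (.f (nat_lit 525) (nat_lit 430) (nat_lit 5549) (.d (nat_lit 527) (nat_lit 497) (nat_lit 2541) (nat_lit 556) (nat_lit 1548)))) (.a (.f (nat_lit 429) (nat_lit 461) (nat_lit 7597) (.f (nat_lit 430) (nat_lit 397) (nat_lit 7565) (.d (nat_lit 431) (nat_lit 399) (nat_lit 6542) (nat_lit 463) (nat_lit 6574)))) (.f (nat_lit 461) (nat_lit 429) (nat_lit 7597) (.f (nat_lit 463) (nat_lit 431) (nat_lit 6574) (.f (nat_lit 493) (nat_lit 590) (nat_lit 7629) (.d (nat_lit 464) (nat_lit 465) (nat_lit 1485) (nat_lit 492) (nat_lit 1484)))))))) (.a (.p (nat_lit 525) (.a (.f (nat_lit 495) (nat_lit 497) (nat_lit 1517) (.d (nat_lit 524) (nat_lit 493) (nat_lit 1516) (nat_lit 523) (nat_lit 2539))) (.a (.f (nat_lit 430) (nat_lit 557) (nat_lit 5549) (.f (nat_lit 398) (nat_lit 493) (nat_lit 5517) (.d (nat_lit 397) (nat_lit 365) (nat_lit 7533) (nat_lit 429) (nat_lit 7565)))) (.f (nat_lit 430) (nat_lit 557) (nat_lit 5549) (.f (nat_lit 399) (nat_lit 431) (nat_lit 6542) (.f (nat_lit 398) (nat_lit 367) (nat_lit 6510) (.d (nat_lit 397) (nat_lit 365) (nat_lit 7533) (nat_lit 429) (nat_lit 7565)))))))) (.a s19725 (.a s19680 (.a s19726 (.a s19547 (.a s19727 (.a s19728 (.p (nat_lit 558) (.a (.f (nat_lit 557) (nat_lit 589) (nat_lit 5581) (.f (nat_lit 525) (nat_lit 430) (nat_lit 5549) (.d (nat_lit 527) (nat_lit 497) (nat_lit 2541) (nat_lit 556) (nat_lit 1548)))) (.a (.f (nat_lit 463) (nat_lit 431) (nat_lit 6574) (.f (nat_lit 495) (nat_lit 590) (nat_lit 6606) (.f (nat_lit 525) (nat_lit 497) (nat_lit 1517) (.d (nat_lit 524) (nat_lit 493) (nat_lit 1516) (nat_lit 523) (nat_lit 2539))))) (.f (nat_lit 463) (nat_lit 431) (nat_lit 6574) (.f (nat_lit 590) (nat_lit 495) (nat_lit 6606) (.d (nat_lit 589) (nat_lit 557) (nat_lit 5581) (nat_lit 621) (nat_lit 5613)))))))))))))))) (.a (.p (nat_lit 464) (.a (.p (nat_lit 463) (.a (.f (nat_lit 461) (nat_lit 497) (nat_lit 461) (.d (nat_lit 493) (nat_lit 465) (nat_lit 1485) (nat_lit 492) (nat_lit 1484))) (.a (.f (nat_lit 465) (nat_lit 493) (nat_lit 1485) (.f (nat_lit 433) (nat_lit 434) (nat_lit 2478) (.d (nat_lit 401) (nat_lit 369) (nat_lit 5488) (nat_lit 432) (nat_lit 6544)))) (.f (nat_lit 461) (nat_lit 497) (nat_lit 461) (.f (nat_lit 432) (nat_lit 433) (nat_lit 2477) (.d (nat_lit 431) (nat_lit 399) (nat_lit 7567) (nat_lit 460) (nat_lit 2476))))))) (.a (.p (nat_lit 495) (.a (.f (nat_lit 493) (nat_lit 465) (nat_lit 2509) (.d (nat_lit 461) (nat_lit 460) (nat_lit 3532) (nat_lit 497) (nat_lit 3533))) (.a (.f (nat_lit 465) (nat_lit 493) (nat_lit 2509) (.d (nat_lit 466) (nat_lit 463) (nat_lit 1486) (nat_lit 467) (nat_lit 1487))) (.f (nat_lit 461) (nat_lit 497) (nat_lit 3533) (.d (nat_lit 460) (nat_lit 459) (nat_lit 459) (nat_lit 463) (nat_lit 460)))))) (.a s19759 (.a s19763 (.a (.p (nat_lit 432) (.a (.f (nat_lit 399) (nat_lit 431) (nat_lit 7567) (.f (nat_lit 400) (nat_lit 367) (nat_lit 7535) (.d (nat_lit 401) (nat_lit 369) (nat_lit 6512) (nat_lit 433) (nat_lit 6544)))) (.a (.f (nat_lit 527) (nat_lit 559) (nat_lit 5551) (.f (nat_lit 495) (nat_lit 400) (nat_lit 5519) (.d (nat_lit 493) (nat_lit 465) (nat_lit 2509) (nat_lit 492) (nat_lit 492)))) (.f (nat_lit 431) (nat_lit 399) (nat_lit 7567) (.f (nat_lit 433) (nat_lit 401) (nat_lit 6544) (.f (nat_lit 430) (nat_lit 461) (nat_lit 1453) (.d (nat_lit 465) (nat_lit 429) (nat_lit 429) (nat_lit 466) (nat_lit 430)))))))) (.a s19774 (.p (nat_lit 432) (.a (.f (nat_lit 431) (nat_lit 399) (nat_lit 7567) (.f (nat_lit 433) (nat_lit 401) (nat_lit 6544) (.d (nat_lit 461) (nat_lit 430) (nat_lit 1453) (nat_lit 463) (nat_lit 2477)))) (.a (.f (nat_lit 399) (nat_lit 431) (nat_lit 7567) (.f (nat_lit 400) (nat_lit 367) (nat_lit 7535) (.d (nat_lit 401) (nat_lit 369) (nat_lit 6512) (nat_lit 433) (nat_lit 6544)))) (.a (.f (nat_lit 527) (nat_lit 559) (nat_lit 5551) (.f (nat_lit 495) (nat_lit 400) (nat_lit 5519) (.f (nat_lit 461) (nat_lit 497) (nat_lit 3533) (.d (nat_lit 433) (nat_lit 401) (nat_lit 6544) (nat_lit 463) (nat_lit 2477))))) (.f (nat_lit 399) (nat_lit 431) (nat_lit 7567) (.f (nat_lit 400) (nat_lit 367) (nat_lit 7535) (.d (nat_lit 527) (nat_lit 495) (nat_lit 5519) (nat_lit 559) (nat_lit 5551))))))))))))))) (.a s19816 (.a s19823 (.a s19825 (.a (.p (nat_lit 526) (.a (.p (nat_lit 558) (.a (.f (nat_lit 557) (nat_lit 589) (nat_lit 5581) (.f (nat_lit 525) (nat_lit 430) (nat_lit 5549) (.d (nat_lit 527) (nat_lit 497) (nat_lit 2541) (nat_lit 556) (nat_lit 1548)))) (.f (nat_lit 591) (nat_lit 559) (nat_lit 4558) (.f (nat_lit 590) (nat_lit 623) (nat_lit 4590) (.d (nat_lit 461) (nat_lit 429) (nat_lit 7597) (nat_lit 493) (nat_lit 7629)))))) (.a s19545 (.a s19727 (.a (.p (nat_lit 527) (.a (.f (nat_lit 525) (nat_lit 497) (nat_lit 2541) (.d (nat_lit 430) (nat_lit 557) (nat_lit 5549) (nat_lit 559) (nat_lit 4526))) (.a (.f (nat_lit 525) (nat_lit 497) (nat_lit 2541) (.d (nat_lit 557) (nat_lit 430) (nat_lit 5549) (nat_lit 556) (nat_lit 1548))) (.a (.f (nat_lit 559) (nat_lit 430) (nat_lit 4526) (.d (nat_lit 591) (nat_lit 495) (nat_lit 7630) (nat_lit 623) (nat_lit 6639))) (.f (nat_lit 525) (nat_lit 497) (nat_lit 2541) (.f (nat_lit 493) (nat_lit 492) (nat_lit 3564) (.d (nat_lit 557) (nat_lit 556) (nat_lit 1548) (nat_lit 589) (nat_lit 6605)))))))) (.a s19686 (.a (.p (nat_lit 558) (.a (.f (nat_lit 557) (nat_lit 589) (nat_lit 5581) (.f (nat_lit 525) (nat_lit 430) (nat_lit 5549) (.d (nat_lit 527) (nat_lit 497) (nat_lit 2541) (nat_lit 556) (nat_lit 1548)))) (.a (.f (nat_lit 589) (nat_lit 557) (nat_lit 5581) (.f (nat_lit 590) (nat_lit 621) (nat_lit 5613) (.d (nat_lit 591) (nat_lit 559) (nat_lit 4558) (nat_lit 623) (nat_lit 4590)))) (.f (nat_lit 559) (nat_lit 591) (nat_lit 4558) (.f (nat_lit 527) (nat_lit 430) (nat_lit 4526) (.f (nat_lit 525) (nat_lit 497) (nat_lit 2541) (.d (nat_lit 524) (nat_lit 495) (nat_lit 2540) (nat_lit 523) (nat_lit 523)))))))) (.p (nat_lit 558) (.a (.f (nat_lit 461) (nat_lit 429) (nat_lit 7597) (.f (nat_lit 493) (nat_lit 590) (nat_lit 7629) (.d (nat_lit 495) (nat_lit 460) (nat_lit 3532) (nat_lit 497) (nat_lit 3533)))) (.a (.f (nat_lit 591) (nat_lit 559) (nat_lit 4558) (.f (nat_lit 590) (nat_lit 623) (nat_lit 4590) (.d (nat_lit 461) (nat_lit 429) (nat_lit 7597) (nat_lit 493) (nat_lit 7629)))) (.f (nat_lit 559) (nat_lit 591) (nat_lit 4558) (.f (nat_lit 527) (nat_lit 430) (nat_lit 4526) (.f (nat_lit 525) (nat_lit 497) (nat_lit 2541) (.d (nat_lit 524) (nat_lit 495) (nat_lit 2540) (nat_lit 523) (nat_lit 523))))))))))))))) (.a s19831 (.a (.p (nat_lit 495) (.a (.f (nat_lit 461) (nat_lit 497) (nat_lit 3533) (.d (nat_lit 460) (nat_lit 459) (nat_lit 459) (nat_lit 463) (nat_lit 460))) (.a (.p (nat_lit 493) (.a (.f (nat_lit 464) (nat_lit 465) (nat_lit 2509) (.f (nat_lit 492) (nat_lit 463) (nat_lit 2508) (.d (nat_lit 524) (nat_lit 523) (nat_lit 1515) (nat_lit 525) (nat_lit 1516)))) (.a (.f (nat_lit 492) (nat_lit 527) (nat_lit 492) (.d (nat_lit 460) (nat_lit 459) (nat_lit 3531) (nat_lit 461) (nat_lit 3532))) (.f (nat_lit 461) (nat_lit 460) (nat_lit 3532) (.f (nat_lit 525) (nat_lit 524) (nat_lit 1516) (.f (nat_lit 557) (nat_lit 589) (nat_lit 6605) (.f (nat_lit 558) (nat_lit 590) (nat_lit 4557) (.f (nat_lit 526) (nat_lit 429) (nat_lit 7597) (.d (nat_lit 556) (nat_lit 527) (nat_lit 1548) (nat_lit 588) (nat_lit 5580)))))))))) (.a (.f (nat_lit 461) (nat_lit 497) (nat_lit 3533) (.d (nat_lit 460) (nat_lit 459) (nat_lit 459) (nat_lit 493) (nat_lit 3532))) (.a (.p (nat_lit 525) (.a (.f (nat_lit 526) (nat_lit 497) (nat_lit 1517) (.d (nat_lit 524) (nat_lit 493) (nat_lit 1516) (nat_lit 523) (nat_lit 2539))) (.a (.f (nat_lit 493) (nat_lit 524) (nat_lit 1516) (.f (nat_lit 464) (nat_lit 465) (nat_lit 2509) (.d (nat_lit 492) (nat_lit 463) (nat_lit 2508) (nat_lit 527) (nat_lit 492)))) (.a (.f (nat_lit 526) (nat_lit 497) (nat_lit 1517) (.d (nat_lit 524) (nat_lit 523) (nat_lit 2539) (nat_lit 527) (nat_lit 2540))) (.f (nat_lit 497) (nat_lit 526) (nat_lit 1517) (.f (nat_lit 465) (nat_lit 466) (nat_lit 2510) (.f (nat_lit 493) (nat_lit 464) (nat_lit 2509) (.f (nat_lit 492) (nat_lit 527) (nat_lit 492) (.f (nat_lit 491) (nat_lit 463) (nat_lit 2507) (.d (nat_lit 459) (nat_lit 458) (nat_lit 3530) (nat_lit 460) (nat_lit 3531))))))))))) (.f (nat_lit 497) (nat_lit 461) (nat_lit 3533) (.f (nat_lit 465) (nat_lit 466) (nat_lit 2510) (.f (nat_lit 493) (nat_lit 464) (nat_lit 2509) (.d (nat_lit 525) (nat_lit 524) (nat_lit 1516) (nat_lit 526) (nat_lit 1517)))))))))) (.p (nat_lit 526) (.a s19530 (.a s19554 (.a (.p (nat_lit 558) (.a (.f (nat_lit 557) (nat_lit 589) (nat_lit 5581) (.f (nat_lit 525) (nat_lit 430) (nat_lit 5549) (.d (nat_lit 527) (nat_lit 497) (nat_lit 2541) (nat_lit 556) (nat_lit 1548)))) (.a (.f (nat_lit 463) (nat_lit 431) (nat_lit 6574) (.f (nat_lit 495) (nat_lit 590) (nat_lit 6606) (.f (nat_lit 525) (nat_lit 497) (nat_lit 1517) (.d (nat_lit 524) (nat_lit 493) (nat_lit 1516) (nat_lit 523) (nat_lit 2539))))) (.f (nat_lit 463) (nat_lit 431) (nat_lit 6574) (.f (nat_lit 590) (nat_lit 495) (nat_lit 6606) (.d (nat_lit 589) (nat_lit 557) (nat_lit 5581) (nat_lit 621) (nat_lit 5613))))))) (.a (.p (nat_lit 558) (.a (.f (nat_lit 559) (nat_lit 591) (nat_lit 4558) (.f (nat_lit 527) (nat_lit 430) (nat_lit 4526) (.d (nat_lit 557) (nat_lit 556) (nat_lit 2572) (nat_lit 589) (nat_lit 5581)))) (.a (.f (nat_lit 463) (nat_lit 431) (nat_lit 6574) (.f (nat_lit 590) (nat_lit 495) (nat_lit 6606) (.d (nat_lit 589) (nat_lit 557) (nat_lit 5581) (nat_lit 621) (nat_lit 5613)))) (.f (nat_lit 559) (nat_lit 591) (nat_lit 4558) (.f (nat_lit 430) (nat_lit 527) (nat_lit 4526) (.d (nat_lit 431) (nat_lit 399) (nat_lit 6542) (nat_lit 463) (nat_lit 6574))))))) (.a (.p (nat_lit 527) (.a (.f (nat_lit 525) (nat_lit 497) (nat_lit 2541) (.d (nat_lit 430) (nat_lit 557) (nat_lit 5549) (nat_lit 559) (nat_lit 4526))) (.a (.f (nat_lit 525) (nat_lit 497) (nat_lit 2541) (.d (nat_lit 557) (nat_lit 430) (nat_lit 5549) (nat_lit 556) (nat_lit 1548))) (.a (.f (nat_lit 559) (nat_lit 430) (nat_lit 4526) (.d (nat_lit 591) (nat_lit 495) (nat_lit 7630) (nat_lit 623) (nat_lit 6639))) (.f (nat_lit 525) (nat_lit 497) (nat_lit 2541) (.f (nat_lit 493) (nat_lit 492) (nat_lit 3564) (.d (nat_lit 557) (nat_lit 556) (nat_lit 1548) (nat_lit 589) (nat_lit 6605)))))))) (.a s19829 s19830)))))))))))))))))) (.a (.p (nat_lit 494) (.a s19878 (.a s19720 (.a s19973 (.a (.p (nat_lit 495) (.a (.f (nat_lit 493) (nat_lit 529) (nat_lit 493) (.d (nat_lit 461) (nat_lit 460) (nat_lit 3532) (nat_lit 497) (nat_lit 3533))) (.a (.f (nat_lit 461) (nat_lit 497) (nat_lit 3533) (.d (nat_lit 460) (nat_lit 459) (nat_lit 459) (nat_lit 463) (nat_lit 460))) (.a (.f (nat_lit 493) (nat_lit 529) (nat_lit 493) (.f (nat_lit 461) (nat_lit 460) (nat_lit 3532) (.f (nat_lit 525) (nat_lit 524) (nat_lit 1516) (.d (nat_lit 430) (nat_lit 398) (nat_lit 5517) (nat_lit 557) (nat_lit 6573))))) (.f (nat_lit 493) (nat_lit 529) (nat_lit 493) (.f (nat_lit 464) (nat_lit 465) (nat_lit 2509) (.f (nat_lit 492) (nat_lit 463) (nat_lit 2508) (.d (nat_lit 524) (nat_lit 523) (nat_lit 1515) (nat_lit 525) (nat_lit 1516))))))))) (.a (.p (nat_lit 495) (.a (.f (nat_lit 493) (nat_lit 529) (nat_lit 493) (.d (nat_lit 461) (nat_lit 460) (nat_lit 3532) (nat_lit 497) (nat_lit 3533))) (.a (.f (nat_lit 461) (nat_lit 497) (nat_lit 3533) (.d (nat_lit 460) (nat_lit 459) (nat_lit 459) (nat_lit 463) (nat_lit 460))) (.a (.f (nat_lit 493) (nat_lit 529) (nat_lit 493) (.f (nat_lit 461) (nat_lit 460) (nat_lit 3532) (.f (nat_lit 464) (nat_lit 465) (nat_lit 2509) (.f (nat_lit 463) (nat_lit 492) (nat_lit 2508) (.f (nat_lit 429) (nat_lit 428) (nat_lit 3500) (.d (nat_lit 397) (nat_lit 365) (nat_lit 4461) (nat_lit 526) (nat_lit 4493))))))) (.a (.f (nat_lit 493) (nat_lit 529) (nat_lit 493) (.f (nat_lit 464) (nat_lit 465) (nat_lit 2509) (.f (nat_lit 492) (nat_lit 463) (nat_lit 2508) (.f (nat_lit 459) (nat_lit 460) (nat_lit 3531) (.f (nat_lit 491) (nat_lit 458) (nat_lit 3530) (.d (nat_lit 523) (nat_lit 522) (nat_lit 1514) (nat_lit 524) (nat_lit 1515))))))) (.f (nat_lit 497) (nat_lit 461) (nat_lit 3533) (.d (nat_lit 529) (nat_lit 493) (nat_lit 493) (nat_lit 530) (nat_lit 494)))))))) (.a s20053 (.a (.p (nat_lit 464) (.a s20057 (.a (.p (nat_lit 526) (.a (.p (nat_lit 558) (.a (.f (nat_lit 463) (nat_lit 431) (nat_lit 6574) (.d (nat_lit 461) (nat_lit 429) (nat_lit 7597) (nat_lit 497) (nat_lit 461))) (.a (.f (nat_lit 429) (nat_lit 461) (nat_lit 7597) (.f (nat_lit 430) (nat_lit 397) (nat_lit 7565) (.d (nat_lit 557) (nat_lit 525) (nat_lit 5549) (nat_lit 589) (nat_lit 5581)))) (.f (nat_lit 431) (nat_lit 463) (nat_lit 6574) (.d (nat_lit 399) (nat_lit 430) (nat_lit 6542) (nat_lit 432) (nat_lit 7567)))))) (.a s20000 (.a (.p (nat_lit 558) (.a (.f (nat_lit 463) (nat_lit 431) (nat_lit 6574) (.d (nat_lit 461) (nat_lit 429) (nat_lit 7597) (nat_lit 497) (nat_lit 461))) (.a (.f (nat_lit 429) (nat_lit 461) (nat_lit 7597) (.f (nat_lit 430) (nat_lit 397) (nat_lit 7565) (.d (nat_lit 557) (nat_lit 525) (nat_lit 5549) (nat_lit 589) (nat_lit 5581)))) (.a (.f (nat_lit 557) (nat_lit 589) (nat_lit 5581) (.f (nat_lit 430) (nat_lit 525) (nat_lit 5549) (.f (nat_lit 399) (nat_lit 431) (nat_lit 6542) (.f (nat_lit 398) (nat_lit 367) (nat_lit 6510) (.d (nat_lit 397) (nat_lit 365) (nat_lit 7533) (nat_lit 429) (nat_lit 7565)))))) (.f (nat_lit 589) (nat_lit 557) (nat_lit 5581) (.f (nat_lit 590) (nat_lit 621) (nat_lit 5613) (.d (nat_lit 591) (nat_lit 559) (nat_lit 4558) (nat_lit 623) (nat_lit 4590)))))))) (.a (.p (nat_lit 558) (.a (.f (nat_lit 429) (nat_lit 461) (nat_lit 7597) (.f (nat_lit 430) (nat_lit 397) (nat_lit 7565) (.d (nat_lit 557) (nat_lit 525) (nat_lit 5549) (nat_lit 589) (nat_lit 5581)))) (.a (.f (nat_lit 429) (nat_lit 461) (nat_lit 7597) (.f (nat_lit 430) (nat_lit 397) (nat_lit 7565) (.f (nat_lit 399) (nat_lit 431) (nat_lit 6542) (.f (nat_lit 398) (nat_lit 367) (nat_lit 6510) (.f (nat_lit 401) (nat_lit 400) (nat_lit 1421) (.f (nat_lit 433) (nat_lit 432) (nat_lit 6544) (.d (nat_lit 465) (nat_lit 369) (nat_lit 5488) (nat_lit 497) (nat_lit 5520)))))))) (.a (.f (nat_lit 557) (nat_lit 589) (nat_lit 5581) (.f (nat_lit 430) (nat_lit 525) (nat_lit 5549) (.f (nat_lit 399) (nat_lit 431) (nat_lit 6542) (.f (nat_lit 398) (nat_lit 367) (nat_lit 6510) (.d (nat_lit 397) (nat_lit 365) (nat_lit 7533) (nat_lit 429) (nat_lit 7565)))))) (.f (nat_lit 589) (nat_lit 557) (nat_lit 5581) (.f (nat_lit 590) (nat_lit 621) (nat_lit 5613) (.d (nat_lit 591) (nat_lit 559) (nat_lit 4558) (nat_lit 623) (nat_lit 4590)))))))) (.a (.p (nat_lit 558) (.a (.f (nat_lit 429) (nat_lit 461) (nat_lit 7597) (.f (nat_lit 430) (nat_lit 397) (nat_lit 7565) (.d (nat_lit 557) (nat_lit 525) (nat_lit 5549) (nat_lit 589) (nat_lit 5581)))) (.a (.f (nat_lit 589) (nat_lit 557) (nat_lit 5581) (.f (nat_lit 590) (nat_lit 621) (nat_lit 5613) (.d (nat_lit 591) (nat_lit 559) (nat_lit 4558) (nat_lit 623) (nat_lit 4590)))) (.f (nat_lit 461) (nat_lit 429) (nat_lit 7597) (.d (nat_lit 497) (nat_lit 463) (nat_lit 461) (nat_lit 495) (nat_lit 3533)))))) (.a (.p (nat_lit 558) (.a (.f (nat_lit 431) (nat_lit 463) (nat_lit 6574) (.d (nat_lit 399) (nat_lit 430) (nat_lit 6542) (nat_lit 432) (nat_lit 7567))) (.a (.f (nat_lit 557) (nat_lit 589) (nat_lit 5581) (.f (nat_lit 430) (nat_lit 525) (nat_lit 5549) (.f (nat_lit 399) (nat_lit 431) (nat_lit 6542) (.f (nat_lit 398) (nat_lit 367) (nat_lit 6510) (.d (nat_lit 397) (nat_lit 365) (nat_lit 7533) (nat_lit 429) (nat_lit 7565)))))) (.f (nat_lit 589) (nat_lit 557) (nat_lit 5581) (.f (nat_lit 590) (nat_lit 621) (nat_lit 5613) (.d (nat_lit 591) (nat_lit 559) (nat_lit 4558) (nat_lit 623) (nat_lit 4590))))))) (.a (.p (nat_lit 558) (.a (.f (nat_lit 463) (nat_lit 431) (nat_lit 6574) (.d (nat_lit 461) (nat_lit 429) (nat_lit 7597) (nat_lit 497) (nat_lit 461))) (.f (nat_lit 589) (nat_lit 557) (nat_lit 5581) (.f (nat_lit 590) (nat_lit 621) (nat_lit 5613) (.d (nat_lit 591) (nat_lit 559) (nat_lit 4558) (nat_lit 623) (nat_lit 4590)))))) (.p (nat_lit 558) (.a (.f (nat_lit 431) (nat_lit 463) (nat_lit 6574) (.d (nat_lit 399) (nat_lit 430) (nat_lit 6542) (nat_lit 432) (nat_lit 7567))) (.f (nat_lit 589) (nat_lit 557) (nat_lit 5581) (.f (nat_lit 590) (nat_lit 621) (nat_lit 5613) (.d (nat_lit 591) (nat_lit 559) (nat_lit 4558) (nat_lit 623) (nat_lit 4590)))))))))))))) (.a (.p (nat_lit 463) (.a (.f (nat_lit 461) (nat_lit 497) (nat_lit 461) (.f (nat_lit 429) (nat_lit 428) (nat_lit 3500) (.f (nat_lit 430) (nat_lit 465) (nat_lit 3501) (.d (nat_lit 397) (nat_lit 365) (nat_lit 4461) (nat_lit 526) (nat_lit 7565))))) (.a (.f (nat_lit 461) (nat_lit 497) (nat_lit 461) (.f (nat_lit 460) (nat_lit 495) (nat_lit 460) (.d (nat_lit 428) (nat_lit 427) (nat_lit 3499) (nat_lit 429) (nat_lit 3500)))) (.a (.p (nat_lit 461) (.a (.f (nat_lit 495) (nat_lit 460) (nat_lit 460) (.f (nat_lit 429) (nat_lit 428) (nat_lit 3500) (.d (nat_lit 465) (nat_lit 430) (nat_lit 3501) (nat_lit 466) (nat_lit 1486)))) (.a (.f (nat_lit 429) (nat_lit 428) (nat_lit 3500) (.f (nat_lit 430) (nat_lit 465) (nat_lit 3501) (.d (nat_lit 397) (nat_lit 365) (nat_lit 4461) (nat_lit 526) (nat_lit 7565)))) (.a (.f (nat_lit 460) (nat_lit 495) (nat_lit 460) (.d (nat_lit 428) (nat_lit 427) (nat_lit 3499) (nat_lit 429) (nat_lit 3500))) (.a (.f (nat_lit 460) (nat_lit 495) (nat_lit 460) (.f (nat_lit 427) (nat_lit 428) (nat_lit 3499) (.f (nat_lit 459) (nat_lit 426) (nat_lit 3498) (.d (nat_lit 491) (nat_lit 490) (nat_lit 1482) (nat_lit 492) (nat_lit 1483))))) (.f (nat_lit 495) (nat_lit 460) (nat_lit 460) (.f (nat_lit 399) (nat_lit 431) (nat_lit 4495) (.f (nat_lit 465) (nat_lit 466) (nat_lit 1486) (.f (nat_lit 430) (nat_lit 429) (nat_lit 3501) (.d (nat_lit 398) (nat_lit 366) (nat_lit 4462) (nat_lit 367) (nat_lit 6510))))))))))) (.a (.p (nat_lit 495) (.a (.f (nat_lit 399) (nat_lit 431) (nat_lit 4495) (.f (nat_lit 465) (nat_lit 466) (nat_lit 1486) (.f (nat_lit 430) (nat_lit 429) (nat_lit 3501) (.d (nat_lit 398) (nat_lit 366) (nat_lit 4462) (nat_lit 367) (nat_lit 6510))))) (.a (.f (nat_lit 465) (nat_lit 466) (nat_lit 1486) (.f (nat_lit 433) (nat_lit 434) (nat_lit 2478) (.d (nat_lit 401) (nat_lit 369) (nat_lit 5488) (nat_lit 497) (nat_lit 5520)))) (.f (nat_lit 431) (nat_lit 399) (nat_lit 4495) (.f (nat_lit 526) (nat_lit 558) (nat_lit 6574) (.f (nat_lit 525) (nat_lit 497) (nat_lit 1517) (.f (nat_lit 430) (nat_lit 557) (nat_lit 5549) (.d (nat_lit 429) (nat_lit 397) (nat_lit 7565) (nat_lit 428) (nat_lit 428))))))))) (.a (.f (nat_lit 461) (nat_lit 497) (nat_lit 461) (.f (nat_lit 460) (nat_lit 495) (nat_lit 460) (.f (nat_lit 427) (nat_lit 428) (nat_lit 3499) (.f (nat_lit 459) (nat_lit 426) (nat_lit 3498) (.d (nat_lit 491) (nat_lit 490) (nat_lit 1482) (nat_lit 492) (nat_lit 1483)))))) (.f (nat_lit 461) (nat_lit 497) (nat_lit 461) (.f (nat_lit 495) (nat_lit 460) (nat_lit 460) (.f (nat_lit 399) (nat_lit 431) (nat_lit 4495) (.f (nat_lit 465) (nat_lit 466) (nat_lit 1486) (.f (nat_lit 430) (nat_lit 429) (nat_lit 3501) (.d (nat_lit 398) (nat_lit 366) (nat_lit 4462) (nat_lit 367) (nat_lit 6510))))))))))))) (.a (.p (nat_lit 526) (.a (.p (nat_lit 558) (.a (.f (nat_lit 429) (nat_lit 461) (nat_lit 7597) (.f (nat_lit 430) (nat_lit 397) (nat_lit 7565) (.d (nat_lit 557) (nat_lit 525) (nat_lit 5549) (nat_lit 589) (nat_lit 5581)))) (.a (.f (nat_lit 431) (nat_lit 463) (nat_lit 6574) (.d (nat_lit 399) (nat_lit 430) (nat_lit 6542) (nat_lit 432) (nat_lit 7567))) (.f (nat_lit 589) (nat_lit 557) (nat_lit 5581) (.f (nat_lit 590) (nat_lit 621) (nat_lit 5613) (.d (nat_lit 591) (nat_lit 559) (nat_lit 4558) (nat_lit 623) (nat_lit 4590))))))) (.a s20000 (.a (.p (nat_lit 558) (.a (.f (nat_lit 429) (nat_lit 461) (nat_lit 7597) (.f (nat_lit 430) (nat_lit 397) (nat_lit 7565) (.d (nat_lit 557) (nat_lit 525) (nat_lit 5549) (nat_lit 589) (nat_lit 5581)))) (.a (.f (nat_lit 589) (nat_lit 557) (nat_lit 5581) (.f (nat_lit 590) (nat_lit 621) (nat_lit 5613) (.d (nat_lit 591) (nat_lit 559) (nat_lit 4558) (nat_lit 623) (nat_lit 4590)))) (.f (nat_lit 463) (nat_lit 431) (nat_lit 6574) (.f (nat_lit 429) (nat_lit 461) (nat_lit 7597) (.d (nat_lit 430) (nat_lit 397) (nat_lit 7565) (nat_lit 465) (nat_lit 3501))))))) (.a s20136 (.a s20142 (.a (.p (nat_lit 558) (.a (.f (nat_lit 431) (nat_lit 463) (nat_lit 6574) (.d (nat_lit 399) (nat_lit 430) (nat_lit 6542) (nat_lit 432) (nat_lit 7567))) (.a (.f (nat_lit 557) (nat_lit 589) (nat_lit 5581) (.f (nat_lit 430) (nat_lit 525) (nat_lit 5549) (.f (nat_lit 399) (nat_lit 431) (nat_lit 6542) (.f (nat_lit 398) (nat_lit 367) (nat_lit 6510) (.d (nat_lit 397) (nat_lit 365) (nat_lit 7533) (nat_lit 429) (nat_lit 7565)))))) (.f (nat_lit 589) (nat_lit 557) (nat_lit 5581) (.f (nat_lit 590) (nat_lit 621) (nat_lit 5613) (.d (nat_lit 591) (nat_lit 559) (nat_lit 4558) (nat_lit 623) (nat_lit 4590))))))) (.a s20152 (.p (nat_lit 558) (.a (.f (nat_lit 431) (nat_lit 463) (nat_lit 6574) (.d (nat_lit 399) (nat_lit 430) (nat_lit 6542) (nat_lit 432) (nat_lit 7567))) (.f (nat_lit 589) (nat_lit 557) (nat_lit 5581) (.f (nat_lit 590) (nat_lit 621) (nat_lit 5613) (.d (nat_lit 591) (nat_lit 559) (nat_lit 4558) (nat_lit 623) (nat_lit 4590)))))))))))))) (.a s20157 (.a (.p (nat_lit 432) (.a (.f (nat_lit 433) (nat_lit 401) (nat_lit 6544) (.f (nat_lit 463) (nat_lit 461) (nat_lit 2477) (.d (nat_lit 434) (nat_lit 435) (nat_lit 1455) (nat_lit 465) (nat_lit 2478)))) (.a (.f (nat_lit 401) (nat_lit 433) (nat_lit 6544) (.f (nat_lit 400) (nat_lit 369) (nat_lit 6512) (.d (nat_lit 529) (nat_lit 497) (nat_lit 4496) (nat_lit 561) (nat_lit 4528)))) (.a (.f (nat_lit 529) (nat_lit 561) (nat_lit 4528) (.f (nat_lit 400) (nat_lit 497) (nat_lit 4496) (.f (nat_lit 367) (nat_lit 399) (nat_lit 7535) (.f (nat_lit 368) (nat_lit 335) (nat_lit 7503) (.d (nat_lit 369) (nat_lit 337) (nat_lit 6480) (nat_lit 401) (nat_lit 6512)))))) (.f (nat_lit 529) (nat_lit 561) (nat_lit 4528) (.f (nat_lit 497) (nat_lit 400) (nat_lit 4496) (.d (nat_lit 461) (nat_lit 463) (nat_lit 461) (nat_lit 495) (nat_lit 3533)))))))) (.a (.p (nat_lit 526) (.a (.p (nat_lit 558) (.a (.f (nat_lit 463) (nat_lit 431) (nat_lit 6574) (.d (nat_lit 461) (nat_lit 429) (nat_lit 7597) (nat_lit 497) (nat_lit 461))) (.a (.f (nat_lit 429) (nat_lit 461) (nat_lit 7597) (.f (nat_lit 430) (nat_lit 397) (nat_lit 7565) (.d (nat_lit 557) (nat_lit 525) (nat_lit 5549) (nat_lit 589) (nat_lit 5581)))) (.f (nat_lit 431) (nat_lit 463) (nat_lit 6574) (.d (nat_lit 399) (nat_lit 430) (nat_lit 6542) (nat_lit 432) (nat_lit 7567)))))) (.a (.p (nat_lit 558) (.a (.f (nat_lit 463) (nat_lit 431) (nat_lit 6574) (.d (nat_lit 461) (nat_lit 429) (nat_lit 7597) (nat_lit 497) (nat_lit 461))) (.f (nat_lit 589) (nat_lit 557) (nat_lit 5581) (.f (nat_lit 590) (nat_lit 621) (nat_lit 5613) (.d (nat_lit 591) (nat_lit 559) (nat_lit 4558) (nat_lit 623) (nat_lit 4590)))))) (.a s20182 (.a (.p (nat_lit 558) (.a (.f (nat_lit 429) (nat_lit 461) (nat_lit 7597) (.f (nat_lit 430) (nat_lit 397) (nat_lit 7565) (.d (nat_lit 557) (nat_lit 525) (nat_lit 5549) (nat_lit 589) (nat_lit 5581)))) (.a (.f (nat_lit 431) (nat_lit 463) (nat_lit 6574) (.d (nat_lit 399) (nat_lit 430) (nat_lit 6542) (nat_lit 432) (nat_lit 7567))) (.f (nat_lit 589) (nat_lit 557) (nat_lit 5581) (.f (nat_lit 590) (nat_lit 621) (nat_lit 5613) (.d (nat_lit 591) (nat_lit 559) (nat_lit 4558) (nat_lit 623) (nat_lit 4590))))))) (.a s20189 (.a s20190 (.a (.p (nat_lit 558) (.a (.f (nat_lit 429) (nat_lit 461) (nat_lit 7597) (.f (nat_lit 430) (nat_lit 397) (nat_lit 7565) (.d (nat_lit 557) (nat_lit 525) (nat_lit 5549) (nat_lit 589) (nat_lit 5581)))) (.a (.f (nat_lit 589) (nat_lit 557) (nat_lit 5581) (.f (nat_lit 590) (nat_lit 621) (nat_lit 5613) (.d (nat_lit 591) (nat_lit 559) (nat_lit 4558) (nat_lit 623) (nat_lit 4590)))) (.f (nat_lit 461) (nat_lit 429) (nat_lit 7597) (.d (nat_lit 497) (nat_lit 463) (nat_lit 461) (nat_lit 495) (nat_lit 3533)))))) (.a (.p (nat_lit 558) (.a (.f (nat_lit 431) (nat_lit 463) (nat_lit 6574) (.d (nat_lit 399) (nat_lit 430) (nat_lit 6542) (nat_lit 432) (nat_lit 7567))) (.a (.f (nat_lit 557) (nat_lit 589) (nat_lit 5581) (.f (nat_lit 430) (nat_lit 525) (nat_lit 5549) (.f (nat_lit 399) (nat_lit 431) (nat_lit 6542) (.f (nat_lit 398) (nat_lit 367) (nat_lit 6510) (.d (nat_lit 397) (nat_lit 365) (nat_lit 7533) (nat_lit 429) (nat_lit 7565)))))) (.f (nat_lit 589) (nat_lit 557) (nat_lit 5581) (.f (nat_lit 590) (nat_lit 621) (nat_lit 5613) (.d (nat_lit 591) (nat_lit 559) (nat_lit 4558) (nat_lit 623) (nat_lit 4590))))))) (.p (nat_lit 558) (.a (.f (nat_lit 431) (nat_lit 463) (nat_lit 6574) (.d (nat_lit 399) (nat_lit 430) (nat_lit 6542) (nat_lit 432) (nat_lit 7567))) (.f (nat_lit 589) (nat_lit 557) (nat_lit 5581) (.f (nat_lit 590) (nat_lit 621) (nat_lit 5613) (.d (nat_lit 591) (nat_lit 559) (nat_lit 4558) (nat_lit 623) (nat_lit 4590))))))))))))))) (.a (.p (nat_lit 432) (.a (.f (nat_lit 433) (nat_lit 401) (nat_lit 6544) (.f (nat_lit 463) (nat_lit 461) (nat_lit 2477) (.d (nat_lit 434) (nat_lit 435) (nat_lit 1455) (nat_lit 465) (nat_lit 2478)))) (.a (.f (nat_lit 401) (nat_lit 433) (nat_lit 6544) (.f (nat_lit 400) (nat_lit 369) (nat_lit 6512) (.d (nat_lit 529) (nat_lit 497) (nat_lit 4496) (nat_lit 561) (nat_lit 4528)))) (.f (nat_lit 529) (nat_lit 561) (nat_lit 4528) (.f (nat_lit 497) (nat_lit 400) (nat_lit 4496) (.d (nat_lit 461) (nat_lit 463) (nat_lit 461) (nat_lit 495) (nat_lit 3533))))))) (.a (.p (nat_lit 432) (.a (.f (nat_lit 399) (nat_lit 431) (nat_lit 7567) (.f (nat_lit 400) (nat_lit 367) (nat_lit 7535) (.d (nat_lit 401) (nat_lit 369) (nat_lit 6512) (nat_lit 433) (nat_lit 6544)))) (.a (.f (nat_lit 401) (nat_lit 433) (nat_lit 6544) (.f (nat_lit 400) (nat_lit 369) (nat_lit 6512) (.d (nat_lit 529) (nat_lit 497) (nat_lit 4496) (nat_lit 561) (nat_lit 4528)))) (.a (.f (nat_lit 431) (nat_lit 399) (nat_lit 7567) (.f (nat_lit 433) (nat_lit 401) (nat_lit 6544) (.f (nat_lit 434) (nat_lit 463) (nat_lit 1454) (.f (nat_lit 466) (nat_lit 467) (nat_lit 431) (.f (nat_lit 465) (nat_lit 430) (nat_lit 430) (.f (nat_lit 497) (nat_lit 495) (nat_lit 2510) (.d (nat_lit 402) (nat_lit 370) (nat_lit 5489) (nat_lit 403) (nat_lit 2447)))))))) (.f (nat_lit 399) (nat_lit 431) (nat_lit 7567) (.f (nat_lit 400) (nat_lit 367) (nat_lit 7535) (.d (nat_lit 529) (nat_lit 497) (nat_lit 4496) (nat_lit 561) (nat_lit 4528)))))))) (.a s20201 (.p (nat_lit 526) (.a (.p (nat_lit 558) (.a (.f (nat_lit 463) (nat_lit 431) (nat_lit 6574) (.d (nat_lit 461) (nat_lit 429) (nat_lit 7597) (nat_lit 497) (nat_lit 461))) (.a (.f (nat_lit 429) (nat_lit 461) (nat_lit 7597) (.f (nat_lit 430) (nat_lit 397) (nat_lit 7565) (.d (nat_lit 557) (nat_lit 525) (nat_lit 5549) (nat_lit 589) (nat_lit 5581)))) (.f (nat_lit 431) (nat_lit 463) (nat_lit 6574) (.d (nat_lit 399) (nat_lit 430) (nat_lit 6542) (nat_lit 432) (nat_lit 7567)))))) (.a (.p (nat_lit 558) (.a (.f (nat_lit 463) (nat_lit 431) (nat_lit 6574) (.d (nat_lit 461) (nat_lit 429) (nat_lit 7597) (nat_lit 497) (nat_lit 461))) (.f (nat_lit 589) (nat_lit 557) (nat_lit 5581) (.f (nat_lit 590) (nat_lit 621) (nat_lit 5613) (.d (nat_lit 591) (nat_lit 559) (nat_lit 4558) (nat_lit 623) (nat_lit 4590)))))) (.a s20182 (.a (.p (nat_lit 558) (.a (.f (nat_lit 429) (nat_lit 461) (nat_lit 7597) (.f (nat_lit 430) (nat_lit 397) (nat_lit 7565) (.d (nat_lit 557) (nat_lit 525) (nat_lit 5549) (nat_lit 589) (nat_lit 5581)))) (.a (.f (nat_lit 431) (nat_lit 463) (nat_lit 6574) (.d (nat_lit 399) (nat_lit 430) (nat_lit 6542) (nat_lit 432) (nat_lit 7567))) (.f (nat_lit 589) (nat_lit 557) (nat_lit 5581) (.f (nat_lit 590) (nat_lit 621) (nat_lit 5613) (.d (nat_lit 591) (nat_lit 559) (nat_lit 4558) (nat_lit 623) (nat_lit 4590))))))) (.a s20209 (.a s20210 (.a (.p (nat_lit 558) (.a (.f (nat_lit 429) (nat_lit 461) (nat_lit 7597) (.f (nat_lit 430) (nat_lit 397) (nat_lit 7565) (.d (nat_lit 557) (nat_lit 525) (nat_lit 5549) (nat_lit 589) (nat_lit 5581)))) (.a (.f (nat_lit 589) (nat_lit 557) (nat_lit 5581) (.f (nat_lit 590) (nat_lit 621) (nat_lit 5613) (.d (nat_lit 591) (nat_lit 559) (nat_lit 4558) (nat_lit 623) (nat_lit 4590)))) (.f (nat_lit 461) (nat_lit 429) (nat_lit 7597) (.d (nat_lit 497) (nat_lit 463) (nat_lit 461) (nat_lit 495) (nat_lit 3533)))))) (.a (.p (nat_lit 558) (.a (.f (nat_lit 431) (nat_lit 463) (nat_lit 6574) (.d (nat_lit 399) (nat_lit 430) (nat_lit 6542) (nat_lit 432) (nat_lit 7567))) (.a (.f (nat_lit 557) (nat_lit 589) (nat_lit 5581) (.f (nat_lit 430) (nat_lit 525) (nat_lit 5549) (.f (nat_lit 399) (nat_lit 431) (nat_lit 6542) (.f (nat_lit 398) (nat_lit 367) (nat_lit 6510) (.d (nat_lit 397) (nat_lit 365) (nat_lit 7533) (nat_lit 429) (nat_lit 7565)))))) (.f (nat_lit 589) (nat_lit 557) (nat_lit 5581) (.f (nat_lit 590) (nat_lit 621) (nat_lit 5613) (.d (nat_lit 591) (nat_lit 559) (nat_lit 4558) (nat_lit 623) (nat_lit 4590))))))) (.p (nat_lit 558) (.a (.f (nat_lit 431) (nat_lit 463) (nat_lit 6574) (.d (nat_lit 399) (nat_lit 430) (nat_lit 6542) (nat_lit 432) (nat_lit 7567))) (.f (nat_lit 589) (nat_lit 557) (nat_lit 5581) (.f (nat_lit 590) (nat_lit 621) (nat_lit 5613) (.d (nat_lit 591) (nat_lit 559) (nat_lit 4558) (nat_lit 623) (nat_lit 4590)))))))))))))))))))))))))) (.a s20221 (.p (nat_lit 430) (.a (.p (nat_lit 526) (.a (.f (nat_lit 525) (nat_lit 557) (nat_lit 5549) (.f (nat_lit 495) (nat_lit 497) (nat_lit 1517) (.d (nat_lit 493) (nat_lit 398) (nat_lit 5517) (nat_lit 524) (nat_lit 1516)))) (.a (.f (nat_lit 399) (nat_lit 431) (nat_lit 6542) (.f (nat_lit 398) (nat_lit 367) (nat_lit 6510) (.d (nat_lit 397) (nat_lit 365) (nat_lit 7533) (nat_lit 429) (nat_lit 7565)))) (.f (nat_lit 431) (nat_lit 399) (nat_lit 6542) (.f (nat_lit 429) (nat_lit 397) (nat_lit 7565) (.f (nat_lit 463) (nat_lit 558) (nat_lit 6574) (.d (nat_lit 428) (nat_lit 427) (nat_lit 427) (nat_lit 464) (nat_lit 428)))))))) (.a (.p (nat_lit 526) (.a (.f (nat_lit 399) (nat_lit 431) (nat_lit 6542) (.f (nat_lit 398) (nat_lit 367) (nat_lit 6510) (.d (nat_lit 397) (nat_lit 365) (nat_lit 7533) (nat_lit 429) (nat_lit 7565)))) (.a (.f (nat_lit 525) (nat_lit 557) (nat_lit 5549) (.f (nat_lit 398) (nat_lit 493) (nat_lit 5517) (.d (nat_lit 397) (nat_lit 365) (nat_lit 7533) (nat_lit 429) (nat_lit 7565)))) (.a (.f (nat_lit 431) (nat_lit 399) (nat_lit 6542) (.f (nat_lit 429) (nat_lit 397) (nat_lit 7565) (.f (nat_lit 463) (nat_lit 558) (nat_lit 6574) (.d (nat_lit 428) (nat_lit 427) (nat_lit 427) (nat_lit 464) (nat_lit 428))))) (.f (nat_lit 399) (nat_lit 431) (nat_lit 6542) (.f (nat_lit 398) (nat_lit 367) (nat_lit 6510) (.d (nat_lit 525) (nat_lit 493) (nat_lit 5517) (nat_lit 557) (nat_lit 5549)))))))) (.a (.p (nat_lit 526) (.a (.f (nat_lit 525) (nat_lit 557) (nat_lit 5549) (.f (nat_lit 495) (nat_lit 497) (nat_lit 1517) (.d (nat_lit 493) (nat_lit 398) (nat_lit 5517) (nat_lit 524) (nat_lit 1516)))) (.a (.f (nat_lit 399) (nat_lit 431) (nat_lit 6542) (.f (nat_lit 398) (nat_lit 367) (nat_lit 6510) (.d (nat_lit 397) (nat_lit 365) (nat_lit 7533) (nat_lit 429) (nat_lit 7565)))) (.f (nat_lit 431) (nat_lit 399) (nat_lit 6542) (.f (nat_lit 558) (nat_lit 463) (nat_lit 6574) (.d (nat_lit 557) (nat_lit 525) (nat_lit 5549) (nat_lit 589) (nat_lit 5581))))))) (.a (.p (nat_lit 493) (.a (.f (nat_lit 495) (nat_lit 529) (nat_lit 493) (.d (nat_lit 525) (nat_lit 398) (nat_lit 5517) (nat_lit 524) (nat_lit 1516))) (.a (.f (nat_lit 398) (nat_lit 525) (nat_lit 5517) (.f (nat_lit 399) (nat_lit 367) (nat_lit 6510) (.f (nat_lit 365) (nat_lit 397) (nat_lit 7533) (.f (nat_lit 366) (nat_lit 333) (nat_lit 7501) (.f (nat_lit 463) (nat_lit 495) (nat_lit 4462) (.f (nat_lit 431) (nat_lit 334) (nat_lit 4430) (.d (nat_lit 464) (nat_lit 432) (nat_lit 7567) (nat_lit 465) (nat_lit 1485)))))))) (.a (.f (nat_lit 398) (nat_lit 525) (nat_lit 5517) (.f (nat_lit 367) (nat_lit 399) (nat_lit 6510) (.f (nat_lit 366) (nat_lit 335) (nat_lit 6478) (.d (nat_lit 365) (nat_lit 333) (nat_lit 7501) (nat_lit 397) (nat_lit 7533))))) (.a (.f (nat_lit 495) (nat_lit 529) (nat_lit 493) (.f (nat_lit 464) (nat_lit 465) (nat_lit 2509) (.f (nat_lit 463) (nat_lit 492) (nat_lit 2508) (.f (nat_lit 431) (nat_lit 399) (nat_lit 4495) (.f (nat_lit 398) (nat_lit 366) (nat_lit 4462) (.f (nat_lit 397) (nat_lit 365) (nat_lit 7533) (.f (nat_lit 432) (nat_lit 433) (nat_lit 3469) (.d (nat_lit 396) (nat_lit 395) (nat_lit 395) (nat_lit 429) (nat_lit 3468))))))))) (.f (nat_lit 495) (nat_lit 529) (nat_lit 493) (.f (nat_lit 464) (nat_lit 465) (nat_lit 2509) (.f (nat_lit 492) (nat_lit 463) (nat_lit 2508) (.d (nat_lit 524) (nat_lit 523) (nat_lit 1515) (nat_lit 525) (nat_lit 1516)))))))))) (.a (.p (nat_lit 399) (.a (.f (nat_lit 431) (nat_lit 526) (nat_lit 6542) (.d (nat_lit 367) (nat_lit 335) (nat_lit 5454) (nat_lit 398) (nat_lit 6510))) (.a (.f (nat_lit 367) (nat_lit 398) (nat_lit 6510) (.d (nat_lit 431) (nat_lit 335) (nat_lit 5454) (nat_lit 463) (nat_lit 5486))) (.a (.f (nat_lit 398) (nat_lit 367) (nat_lit 6510) (.f (nat_lit 397) (nat_lit 365) (nat_lit 7533) (.f (nat_lit 429) (nat_lit 526) (nat_lit 7565) (.d (nat_lit 400) (nat_lit 401) (nat_lit 1421) (nat_lit 428) (nat_lit 1420))))) (.a (.f (nat_lit 431) (nat_lit 526) (nat_lit 6542) (.d (nat_lit 367) (nat_lit 335) (nat_lit 5454) (nat_lit 463) (nat_lit 5486))) (.f (nat_lit 431) (nat_lit 526) (nat_lit 6542) (.f (nat_lit 432) (nat_lit 464) (nat_lit 7567) (.f (nat_lit 463) (nat_lit 495) (nat_lit 4495) (.f (nat_lit 433) (nat_lit 434) (nat_lit 1454) (.f (nat_lit 401) (nat_lit 402) (nat_lit 2446) (.d (nat_lit 465) (nat_lit 466) (nat_lit 430) (nat_lit 497) (nat_lit 5520)))))))))))) (.a (.p (nat_lit 526) (.a (.f (nat_lit 525) (nat_lit 557) (nat_lit 5549) (.f (nat_lit 495) (nat_lit 497) (nat_lit 1517) (.d (nat_lit 493) (nat_lit 398) (nat_lit 5517) (nat_lit 524) (nat_lit 1516)))) (.a (.f (nat_lit 399) (nat_lit 431) (nat_lit 6542) (.f (nat_lit 398) (nat_lit 367) (nat_lit 6510) (.d (nat_lit 397) (nat_lit 365) (nat_lit 7533) (nat_lit 429) (nat_lit 7565)))) (.f (nat_lit 525) (nat_lit 557) (nat_lit 5549) (.f (nat_lit 495) (nat_lit 497) (nat_lit 1517) (.d (nat_lit 493) (nat_lit 524) (nat_lit 1516) (nat_lit 529) (nat_lit 493))))))) (.a (.p (nat_lit 526) (.a (.f (nat_lit 525) (nat_lit 557) (nat_lit 5549) (.f (nat_lit 495) (nat_lit 497) (nat_lit 1517) (.d (nat_lit 493) (nat_lit 398) (nat_lit 5517) (nat_lit 524) (nat_lit 1516)))) (.a (.f (nat_lit 525) (nat_lit 557) (nat_lit 5549) (.f (nat_lit 398) (nat_lit 493) (nat_lit 5517) (.d (nat_lit 397) (nat_lit 365) (nat_lit 7533) (nat_lit 429) (nat_lit 7565)))) (.a (.f (nat_lit 397) (nat_lit 429) (nat_lit 7565) (.f (nat_lit 398) (nat_lit 365) (nat_lit 7533) (.f (nat_lit 367) (nat_lit 399) (nat_lit 6510) (.f (nat_lit 366) (nat_lit 335) (nat_lit 6478) (.f (nat_lit 495) (nat_lit 463) (nat_lit 4462) (.f (nat_lit 529) (nat_lit 493) (nat_lit 493) (.d (nat_lit 530) (nat_lit 497) (nat_lit 494) (nat_lit 531) (nat_lit 3567)))))))) (.a (.f (nat_lit 525) (nat_lit 557) (nat_lit 5549) (.f (nat_lit 495) (nat_lit 497) (nat_lit 1517) (.f (nat_lit 397) (nat_lit 429) (nat_lit 7565) (.f (nat_lit 398) (nat_lit 365) (nat_lit 7533) (.f (nat_lit 366) (nat_lit 463) (nat_lit 4462) (.d (nat_lit 367) (nat_lit 335) (nat_lit 6478) (nat_lit 399) (nat_lit 6510))))))) (.f (nat_lit 525) (nat_lit 557) (nat_lit 5549) (.f (nat_lit 495) (nat_lit 497) (nat_lit 1517) (.d (nat_lit 493) (nat_lit 524) (nat_lit 1516) (nat_lit 529) (nat_lit 493))))))))) (.a (.p (nat_lit 525) (.a (.f (nat_lit 526) (nat_lit 557) (nat_lit 5549) (.f (nat_lit 398) (nat_lit 493) (nat_lit 5517) (.d (nat_lit 397) (nat_lit 365) (nat_lit 7533) (nat_lit 429) (nat_lit 7565)))) (.a (.f (nat_lit 493) (nat_lit 398) (nat_lit 5517) (.d (nat_lit 495) (nat_lit 524) (nat_lit 1516) (nat_lit 529) (nat_lit 493))) (.a (.f (nat_lit 526) (nat_lit 557) (nat_lit 5549) (.f (nat_lit 495) (nat_lit 497) (nat_lit 1517) (.f (nat_lit 397) (nat_lit 429) (nat_lit 7565) (.f (nat_lit 398) (nat_lit 365) (nat_lit 7533) (.f (nat_lit 463) (nat_lit 366) (nat_lit 4462) (.d (nat_lit 558) (nat_lit 431) (nat_lit 6574) (nat_lit 590) (nat_lit 6606))))))) (.f (nat_lit 526) (nat_lit 557) (nat_lit 5549) (.f (nat_lit 495) (nat_lit 497) (nat_lit 1517) (.d (nat_lit 493) (nat_lit 524) (nat_lit 1516) (nat_lit 529) (nat_lit 493)))))))) (.a (.p (nat_lit 526) (.a (.f (nat_lit 431) (nat_lit 399) (nat_lit 6542) (.f (nat_lit 429) (nat_lit 397) (nat_lit 7565) (.f (nat_lit 463) (nat_lit 558) (nat_lit 6574) (.d (nat_lit 428) (nat_lit 427) (nat_lit 427) (nat_lit 464) (nat_lit 428))))) (.a (.f (nat_lit 431) (nat_lit 399) (nat_lit 6542) (.f (nat_lit 558) (nat_lit 463) (nat_lit 6574) (.d (nat_lit 557) (nat_lit 525) (nat_lit 5549) (nat_lit 589) (nat_lit 5581)))) (.f (nat_lit 525) (nat_lit 557) (nat_lit 5549) (.f (nat_lit 495) (nat_lit 497) (nat_lit 1517) (.d (nat_lit 493) (nat_lit 524) (nat_lit 1516) (nat_lit 529) (nat_lit 493))))))) (.a (.p (nat_lit 526) (.a (.f (nat_lit 525) (nat_lit 557) (nat_lit 5549) (.f (nat_lit 495) (nat_lit 497) (nat_lit 1517) (.d (nat_lit 493) (nat_lit 398) (nat_lit 5517) (nat_lit 524) (nat_lit 1516)))) (.a (.f (nat_lit 399) (nat_lit 431) (nat_lit 6542) (.f (nat_lit 398) (nat_lit 367) (nat_lit 6510) (.d (nat_lit 525) (nat_lit 493) (nat_lit 5517) (nat_lit 557) (nat_lit 5549)))) (.a (.f (nat_lit 399) (nat_lit 431) (nat_lit 6542) (.f (nat_lit 398) (nat_lit 367) (nat_lit 6510) (.f (nat_lit 365) (nat_lit 397) (nat_lit 7533) (.f (nat_lit 366) (nat_lit 333) (nat_lit 7501) (.f (nat_lit 495) (nat_lit 463) (nat_lit 4462) (.f (nat_lit 529) (nat_lit 493) (nat_lit 493) (.d (nat_lit 530) (nat_lit 497) (nat_lit 494) (nat_lit 531) (nat_lit 3567)))))))) (.f (nat_lit 431) (nat_lit 399) (nat_lit 6542) (.f (nat_lit 558) (nat_lit 463) (nat_lit 6574) (.d (nat_lit 557) (nat_lit 525) (nat_lit 5549) (nat_lit 589) (nat_lit 5581)))))))) (.p (nat_lit 526) (.a (.f (nat_lit 525) (nat_lit 557) (nat_lit 5549) (.f (nat_lit 495) (nat_lit 497) (nat_lit 1517) (.d (nat_lit 493) (nat_lit 398) (nat_lit 5517) (nat_lit 524) (nat_lit 1516)))) (.a (.f (nat_lit 399) (nat_lit 431) (nat_lit 6542) (.f (nat_lit 398) (nat_lit 367) (nat_lit 6510) (.d (nat_lit 525) (nat_lit 493) (nat_lit 5517) (nat_lit 557) (nat_lit 5549)))) (.a (.f (nat_lit 431) (nat_lit 399) (nat_lit 6542) (.f (nat_lit 558) (nat_lit 463) (nat_lit 6574) (.f (nat_lit 589) (nat_lit 557) (nat_lit 5581) (.f (nat_lit 590) (nat_lit 621) (nat_lit 5613) (.d (nat_lit 591) (nat_lit 559) (nat_lit 4558) (nat_lit 623) (nat_lit 4590)))))) (.f (nat_lit 399) (nat_lit 431) (nat_lit 6542) (.f (nat_lit 398) (nat_lit 367) (nat_lit 6510) (.f (nat_lit 493) (nat_lit 525) (nat_lit 5517) (.f (nat_lit 495) (nat_lit 529) (nat_lit 493) (.f (nat_lit 463) (nat_lit 366) (nat_lit 4462) (.d (nat_lit 464) (nat_lit 465) (nat_lit 1485) (nat_lit 492) (nat_lit 2508))))))))))))))))))))))))))))))) (.a (.p (nat_lit 494) (.a s19973 (.a s19721 (.a s20327 (.a (.p (nat_lit 464) (.a (.p (nat_lit 463) (.a (.f (nat_lit 461) (nat_lit 497) (nat_lit 461) (.d (nat_lit 493) (nat_lit 465) (nat_lit 1485) (nat_lit 492) (nat_lit 1484))) (.a (.f (nat_lit 465) (nat_lit 493) (nat_lit 1485) (.f (nat_lit 433) (nat_lit 434) (nat_lit 2478) (.d (nat_lit 401) (nat_lit 369) (nat_lit 5488) (nat_lit 432) (nat_lit 6544)))) (.f (nat_lit 461) (nat_lit 497) (nat_lit 461) (.f (nat_lit 432) (nat_lit 433) (nat_lit 2477) (.d (nat_lit 431) (nat_lit 399) (nat_lit 7567) (nat_lit 460) (nat_lit 2476))))))) (.a (.p (nat_lit 463) (.a (.f (nat_lit 461) (nat_lit 497) (nat_lit 461) (.d (nat_lit 493) (nat_lit 465) (nat_lit 1485) (nat_lit 492) (nat_lit 1484))) (.a (.f (nat_lit 493) (nat_lit 465) (nat_lit 1485) (.d (nat_lit 492) (nat_lit 461) (nat_lit 1484) (nat_lit 491) (nat_lit 2507))) (.a (.p (nat_lit 465) (.a (.f (nat_lit 433) (nat_lit 434) (nat_lit 2478) (.d (nat_lit 401) (nat_lit 369) (nat_lit 5488) (nat_lit 497) (nat_lit 5520))) (.a (.f (nat_lit 430) (nat_lit 429) (nat_lit 3501) (.f (nat_lit 466) (nat_lit 431) (nat_lit 3502) (.d (nat_lit 434) (nat_lit 433) (nat_lit 2478) (nat_lit 435) (nat_lit 2479)))) (.a (.f (nat_lit 430) (nat_lit 429) (nat_lit 3501) (.f (nat_lit 466) (nat_lit 431) (nat_lit 3502) (.f (nat_lit 497) (nat_lit 461) (nat_lit 461) (.f (nat_lit 467) (nat_lit 468) (nat_lit 1488) (.d (nat_lit 435) (nat_lit 434) (nat_lit 2479) (nat_lit 436) (nat_lit 2480)))))) (.f (nat_lit 429) (nat_lit 430) (nat_lit 3501) (.d (nat_lit 461) (nat_lit 428) (nat_lit 3500) (nat_lit 497) (nat_lit 461))))))) (.a (.f (nat_lit 465) (nat_lit 493) (nat_lit 1485) (.f (nat_lit 433) (nat_lit 434) (nat_lit 2478) (.d (nat_lit 401) (nat_lit 369) (nat_lit 5488) (nat_lit 497) (nat_lit 5520)))) (.f (nat_lit 461) (nat_lit 497) (nat_lit 461) (.f (nat_lit 493) (nat_lit 492) (nat_lit 1484) (.f (nat_lit 429) (nat_lit 428) (nat_lit 3500) (.f (nat_lit 397) (nat_lit 365) (nat_lit 4461) (.f (nat_lit 398) (nat_lit 366) (nat_lit 6509) (.f (nat_lit 525) (nat_lit 430) (nat_lit 5517) (.f (nat_lit 557) (nat_lit 589) (nat_lit 6605) (.d (nat_lit 556) (nat_lit 524) (nat_lit 5548) (nat_lit 588) (nat_lit 5580)))))))))))))) (.a s20370 (.a s20057 (.a s20157 (.a s20382 (.a s20393 (.a s20394 s20201))))))))) (.a (.p (nat_lit 526) (.a (.p (nat_lit 558) (.a (.f (nat_lit 429) (nat_lit 461) (nat_lit 7597) (.f (nat_lit 430) (nat_lit 397) (nat_lit 7565) (.d (nat_lit 431) (nat_lit 399) (nat_lit 6542) (nat_lit 463) (nat_lit 6574)))) (.a (.f (nat_lit 591) (nat_lit 559) (nat_lit 4558) (.f (nat_lit 590) (nat_lit 623) (nat_lit 4590) (.d (nat_lit 461) (nat_lit 429) (nat_lit 7597) (nat_lit 493) (nat_lit 7629)))) (.f (nat_lit 559) (nat_lit 591) (nat_lit 4558) (.f (nat_lit 527) (nat_lit 430) (nat_lit 4526) (.d (nat_lit 557) (nat_lit 556) (nat_lit 2572) (nat_lit 589) (nat_lit 5581))))))) (.a (.p (nat_lit 558) (.a (.f (nat_lit 429) (nat_lit 461) (nat_lit 7597) (.f (nat_lit 430) (nat_lit 397) (nat_lit 7565) (.d (nat_lit 431) (nat_lit 399) (nat_lit 6542) (nat_lit 463) (nat_lit 6574)))) (.a (.f (nat_lit 591) (nat_lit 559) (nat_lit 4558) (.f (nat_lit 590) (nat_lit 623) (nat_lit 4590) (.d (nat_lit 461) (nat_lit 429) (nat_lit 7597) (nat_lit 493) (nat_lit 7629)))) (.f (nat_lit 589) (nat_lit 557) (nat_lit 5581) (.f (nat_lit 590) (nat_lit 621) (nat_lit 5613) (.d (nat_lit 591) (nat_lit 559) (nat_lit 4558) (nat_lit 623) (nat_lit 4590))))))) (.a s19610 (.a (.p (nat_lit 527) (.a (.f (nat_lit 430) (nat_lit 559) (nat_lit 4526) (.f (nat_lit 397) (nat_lit 429) (nat_lit 7565) (.f (nat_lit 398) (nat_lit 365) (nat_lit 7533) (.d (nat_lit 399) (nat_lit 367) (nat_lit 6510) (nat_lit 431) (nat_lit 6542))))) (.f (nat_lit 529) (nat_lit 493) (nat_lit 3565) (.f (nat_lit 561) (nat_lit 562) (nat_lit 526) (.f (nat_lit 464) (nat_lit 432) (nat_lit 4528) (.d (nat_lit 593) (nat_lit 497) (nat_lit 7632) (nat_lit 625) (nat_lit 7664))))))) (.a (.p (nat_lit 558) (.a (.f (nat_lit 429) (nat_lit 461) (nat_lit 7597) (.f (nat_lit 430) (nat_lit 397) (nat_lit 7565) (.d (nat_lit 431) (nat_lit 399) (nat_lit 6542) (nat_lit 463) (nat_lit 6574)))) (.f (nat_lit 589) (nat_lit 557) (nat_lit 5581) (.f (nat_lit 590) (nat_lit 621) (nat_lit 5613) (.d (nat_lit 591) (nat_lit 559) (nat_lit 4558) (nat_lit 623) (nat_lit 4590)))))) (.a (.p (nat_lit 558) (.a (.f (nat_lit 591) (nat_lit 559) (nat_lit 4558) (.f (nat_lit 590) (nat_lit 623) (nat_lit 4590) (.d (nat_lit 461) (nat_lit 429) (nat_lit 7597) (nat_lit 493) (nat_lit 7629)))) (.a (.f (nat_lit 461) (nat_lit 429) (nat_lit 7597) (.f (nat_lit 590) (nat_lit 493) (nat_lit 7629) (.d (nat_lit 589) (nat_lit 557) (nat_lit 5581) (nat_lit 621) (nat_lit 5613)))) (.f (nat_lit 559) (nat_lit 591) (nat_lit 4558) (.f (nat_lit 527) (nat_lit 430) (nat_lit 4526) (.d (nat_lit 557) (nat_lit 556) (nat_lit 2572) (nat_lit 589) (nat_lit 5581))))))) (.a s19529 s19619)))))))) (.a s20401 (.a s20404 (.a s20406 (.a (.p (nat_lit 526) (.a (.p (nat_lit 558) (.a (.f (nat_lit 429) (nat_lit 461) (nat_lit 7597) (.f (nat_lit 430) (nat_lit 397) (nat_lit 7565) (.d (nat_lit 431) (nat_lit 399) (nat_lit 6542) (nat_lit 463) (nat_lit 6574)))) (.a (.f (nat_lit 591) (nat_lit 559) (nat_lit 4558) (.f (nat_lit 590) (nat_lit 623) (nat_lit 4590) (.d (nat_lit 461) (nat_lit 429) (nat_lit 7597) (nat_lit 493) (nat_lit 7629)))) (.f (nat_lit 559) (nat_lit 591) (nat_lit 4558) (.f (nat_lit 430) (nat_lit 527) (nat_lit 4526) (.d (nat_lit 431) (nat_lit 399) (nat_lit 6542) (nat_lit 463) (nat_lit 6574))))))) (.a (.p (nat_lit 431) (.a (.f (nat_lit 430) (nat_lit 399) (nat_lit 6542) (.f (nat_lit 429) (nat_lit 397) (nat_lit 7565) (.f (nat_lit 463) (nat_lit 558) (nat_lit 6574) (.d (nat_lit 428) (nat_lit 427) (nat_lit 427) (nat_lit 464) (nat_lit 428))))) (.a (.f (nat_lit 463) (nat_lit 558) (nat_lit 6574) (.d (nat_lit 399) (nat_lit 367) (nat_lit 5486) (nat_lit 430) (nat_lit 6542))) (.a (.f (nat_lit 399) (nat_lit 430) (nat_lit 6542) (.f (nat_lit 463) (nat_lit 367) (nat_lit 5486) (.f (nat_lit 464) (nat_lit 432) (nat_lit 7567) (.f (nat_lit 493) (nat_lit 465) (nat_lit 1485) (.d (nat_lit 461) (nat_lit 492) (nat_lit 1484) (nat_lit 497) (nat_lit 461)))))) (.a (.f (nat_lit 430) (nat_lit 399) (nat_lit 6542) (.f (nat_lit 429) (nat_lit 397) (nat_lit 7565) (.f (nat_lit 461) (nat_lit 558) (nat_lit 7597) (.d (nat_lit 432) (nat_lit 433) (nat_lit 1453) (nat_lit 460) (nat_lit 1452))))) (.f (nat_lit 558) (nat_lit 463) (nat_lit 6574) (.f (nat_lit 461) (nat_lit 429) (nat_lit 7597) (.f (nat_lit 590) (nat_lit 493) (nat_lit 7629) (.d (nat_lit 591) (nat_lit 559) (nat_lit 4558) (nat_lit 623) (nat_lit 4590)))))))))) (.a s20428 (.a (.p (nat_lit 527) (.a (.f (nat_lit 430) (nat_lit 559) (nat_lit 4526) (.f (nat_lit 397) (nat_lit 429) (nat_lit 7565) (.f (nat_lit 398) (nat_lit 365) (nat_lit 7533) (.d (nat_lit 399) (nat_lit 367) (nat_lit 6510) (nat_lit 431) (nat_lit 6542))))) (.f (nat_lit 529) (nat_lit 493) (nat_lit 3565) (.f (nat_lit 561) (nat_lit 562) (nat_lit 526) (.f (nat_lit 464) (nat_lit 432) (nat_lit 4528) (.d (nat_lit 593) (nat_lit 497) (nat_lit 7632) (nat_lit 625) (nat_lit 7664))))))) (.a s19703 (.a s20433 (.a s20445 (.p (nat_lit 527) (.a (.f (nat_lit 529) (nat_lit 493) (nat_lit 3565) (.f (nat_lit 561) (nat_lit 562) (nat_lit 526) (.f (nat_lit 464) (nat_lit 432) (nat_lit 4528) (.d (nat_lit 593) (nat_lit 497) (nat_lit 7632) (nat_lit 625) (nat_lit 7664))))) (.f (nat_lit 559) (nat_lit 430) (nat_lit 4526) (.d (nat_lit 591) (nat_lit 558) (nat_lit 4558) (nat_lit 623) (nat_lit 6639))))))))))))) (.a (.p (nat_lit 526) (.a (.p (nat_lit 558) (.a (.f (nat_lit 557) (nat_lit 589) (nat_lit 5581) (.f (nat_lit 525) (nat_lit 430) (nat_lit 5549) (.d (nat_lit 527) (nat_lit 497) (nat_lit 2541) (nat_lit 556) (nat_lit 1548)))) (.f (nat_lit 591) (nat_lit 559) (nat_lit 4558) (.f (nat_lit 590) (nat_lit 623) (nat_lit 4590) (.d (nat_lit 461) (nat_lit 429) (nat_lit 7597) (nat_lit 493) (nat_lit 7629)))))) (.a (.p (nat_lit 558) (.a (.f (nat_lit 591) (nat_lit 559) (nat_lit 4558) (.f (nat_lit 590) (nat_lit 623) (nat_lit 4590) (.d (nat_lit 461) (nat_lit 429) (nat_lit 7597) (nat_lit 493) (nat_lit 7629)))) (.a (.f (nat_lit 429) (nat_lit 461) (nat_lit 7597) (.f (nat_lit 430) (nat_lit 397) (nat_lit 7565) (.d (nat_lit 557) (nat_lit 525) (nat_lit 5549) (nat_lit 589) (nat_lit 5581)))) (.f (nat_lit 589) (nat_lit 557) (nat_lit 5581) (.f (nat_lit 590) (nat_lit 621) (nat_lit 5613) (.d (nat_lit 591) (nat_lit 559) (nat_lit 4558) (nat_lit 623) (nat_lit 4590))))))) (.a (.p (nat_lit 527) (.a (.f (nat_lit 525) (nat_lit 497) (nat_lit 2541) (.d (nat_lit 557) (nat_lit 430) (nat_lit 5549) (nat_lit 556) (nat_lit 1548))) (.a (.f (nat_lit 529) (nat_lit 493) (nat_lit 3565) (.f (nat_lit 561) (nat_lit 562) (nat_lit 526) (.f (nat_lit 464) (nat_lit 432) (nat_lit 4528) (.d (nat_lit 593) (nat_lit 497) (nat_lit 7632) (nat_lit 625) (nat_lit 7664))))) (.f (nat_lit 493) (nat_lit 529) (nat_lit 3565) (.d (nat_lit 492) (nat_lit 491) (nat_lit 491) (nat_lit 525) (nat_lit 3564)))))) (.a (.p (nat_lit 558) (.a (.f (nat_lit 591) (nat_lit 559) (nat_lit 4558) (.f (nat_lit 590) (nat_lit 623) (nat_lit 4590) (.d (nat_lit 461) (nat_lit 429) (nat_lit 7597) (nat_lit 493) (nat_lit 7629)))) (.a (.f (nat_lit 461) (nat_lit 429) (nat_lit 7597) (.f (nat_lit 590) (nat_lit 493) (nat_lit 7629) (.d (nat_lit 589) (nat_lit 557) (nat_lit 5581) (nat_lit 621) (nat_lit 5613)))) (.f (nat_lit 559) (nat_lit 591) (nat_lit 4558) (.f (nat_lit 527) (nat_lit 430) (nat_lit 4526) (.d (nat_lit 557) (nat_lit 556) (nat_lit 2572) (nat_lit 589) (nat_lit 5581))))))) (.a s20402 (.a s20433 (.p (nat_lit 558) (.a (.f (nat_lit 591) (nat_lit 559) (nat_lit 4558) (.f (nat_lit 590) (nat_lit 623) (nat_lit 4590) (.d (nat_lit 461) (nat_lit 429) (nat_lit 7597) (nat_lit 493) (nat_lit 7629)))) (.f (nat_lit 557) (nat_lit 589) (nat_lit 5581) (.f (nat_lit 527) (nat_lit 529) (nat_lit 1549) (.d (nat_lit 556) (nat_lit 525) (nat_lit 1548) (nat_lit 555) (nat_lit 2571))))))))))))) (.a (.p (nat_lit 526) (.a s19513 (.a s19815 (.a (.p (nat_lit 527) (.a (.f (nat_lit 525) (nat_lit 497) (nat_lit 2541) (.d (nat_lit 557) (nat_lit 430) (nat_lit 5549) (nat_lit 556) (nat_lit 1548))) (.a (.f (nat_lit 529) (nat_lit 493) (nat_lit 3565) (.f (nat_lit 561) (nat_lit 562) (nat_lit 526) (.f (nat_lit 464) (nat_lit 432) (nat_lit 4528) (.d (nat_lit 593) (nat_lit 497) (nat_lit 7632) (nat_lit 625) (nat_lit 7664))))) (.f (nat_lit 493) (nat_lit 529) (nat_lit 3565) (.d (nat_lit 492) (nat_lit 491) (nat_lit 491) (nat_lit 525) (nat_lit 3564)))))) (.a (.p (nat_lit 527) (.a (.f (nat_lit 430) (nat_lit 559) (nat_lit 4526) (.f (nat_lit 397) (nat_lit 429) (nat_lit 7565) (.f (nat_lit 398) (nat_lit 365) (nat_lit 7533) (.d (nat_lit 399) (nat_lit 367) (nat_lit 6510) (nat_lit 431) (nat_lit 6542))))) (.f (nat_lit 529) (nat_lit 493) (nat_lit 3565) (.f (nat_lit 561) (nat_lit 562) (nat_lit 526) (.f (nat_lit 464) (nat_lit 432) (nat_lit 4528) (.d (nat_lit 593) (nat_lit 497) (nat_lit 7632) (nat_lit 625) (nat_lit 7664))))))) (.a s19530 s20454)))))) (.a (.p (nat_lit 464) (.a (.p (nat_lit 463) (.a (.f (nat_lit 461) (nat_lit 497) (nat_lit 461) (.d (nat_lit 493) (nat_lit 465) (nat_lit 1485) (nat_lit 492) (nat_lit 1484))) (.a (.f (nat_lit 465) (nat_lit 493) (nat_lit 1485) (.f (nat_lit 433) (nat_lit 434) (nat_lit 2478) (.d (nat_lit 401) (nat_lit 369) (nat_lit 5488) (nat_lit 432) (nat_lit 6544)))) (.f (nat_lit 461) (nat_lit 497) (nat_lit 461) (.f (nat_lit 432) (nat_lit 433) (nat_lit 2477) (.d (nat_lit 431) (nat_lit 399) (nat_lit 7567) (nat_lit 460) (nat_lit 2476))))))) (.a (.p (nat_lit 463) (.a (.f (nat_lit 461) (nat_lit 497) (nat_lit 461) (.d (nat_lit 493) (nat_lit 465) (nat_lit 1485) (nat_lit 492) (nat_lit 1484))) (.a (.f (nat_lit 465) (nat_lit 493) (nat_lit 1485) (.f (nat_lit 430) (nat_lit 429) (nat_lit 3501) (.f (nat_lit 431) (nat_lit 466) (nat_lit 3502) (.d (nat_lit 399) (nat_lit 367) (nat_lit 5486) (nat_lit 526) (nat_lit 6542))))) (.a (.f (nat_lit 461) (nat_lit 497) (nat_lit 461) (.f (nat_lit 429) (nat_lit 428) (nat_lit 3500) (.f (nat_lit 430) (nat_lit 465) (nat_lit 3501) (.d (nat_lit 397) (nat_lit 365) (nat_lit 4461) (nat_lit 526) (nat_lit 7565))))) (.f (nat_lit 461) (nat_lit 497) (nat_lit 461) (.f (nat_lit 429) (nat_lit 428) (nat_lit 3500) (.f (nat_lit 493) (nat_lit 492) (nat_lit 1484) (.d (nat_lit 397) (nat_lit 365) (nat_lit 4461) (nat_lit 526) (nat_lit 4493))))))))) (.a (.p (nat_lit 432) (.a (.f (nat_lit 431) (nat_lit 399) (nat_lit 7567) (.f (nat_lit 433) (nat_lit 401) (nat_lit 6544) (.d (nat_lit 461) (nat_lit 430) (nat_lit 1453) (nat_lit 463) (nat_lit 2477)))) (.a (.f (nat_lit 399) (nat_lit 431) (nat_lit 7567) (.f (nat_lit 400) (nat_lit 367) (nat_lit 7535) (.d (nat_lit 401) (nat_lit 369) (nat_lit 6512) (nat_lit 433) (nat_lit 6544)))) (.a (.f (nat_lit 433) (nat_lit 401) (nat_lit 6544) (.f (nat_lit 463) (nat_lit 461) (nat_lit 2477) (.d (nat_lit 434) (nat_lit 435) (nat_lit 1455) (nat_lit 465) (nat_lit 2478)))) (.a (.f (nat_lit 399) (nat_lit 431) (nat_lit 7567) (.f (nat_lit 400) (nat_lit 367) (nat_lit 7535) (.f (nat_lit 369) (nat_lit 401) (nat_lit 6512) (.f (nat_lit 368) (nat_lit 337) (nat_lit 6480) (.f (nat_lit 397) (nat_lit 398) (nat_lit 2413) (.f (nat_lit 527) (nat_lit 559) (nat_lit 5551) (.f (nat_lit 529) (nat_lit 561) (nat_lit 4528) (.f (nat_lit 526) (nat_lit 493) (nat_lit 3565) (.f (nat_lit 429) (nat_lit 430) (nat_lit 7565) (.d (nat_lit 461) (nat_lit 365) (nat_lit 4461) (nat_lit 558) (nat_lit 7597))))))))))) (.f (nat_lit 431) (nat_lit 399) (nat_lit 7567) (.f (nat_lit 527) (nat_lit 559) (nat_lit 5551) (.f (nat_lit 529) (nat_lit 561) (nat_lit 4528) (.f (nat_lit 526) (nat_lit 493) (nat_lit 3565) (.d (nat_lit 558) (nat_lit 463) (nat_lit 6574) (nat_lit 557) (nat_lit 1549))))))))))) (.a s20057 (.a s20157 (.a s20382 (.a (.p (nat_lit 432) (.a (.f (nat_lit 433) (nat_lit 401) (nat_lit 6544) (.f (nat_lit 463) (nat_lit 461) (nat_lit 2477) (.d (nat_lit 434) (nat_lit 435) (nat_lit 1455) (nat_lit 465) (nat_lit 2478)))) (.a (.f (nat_lit 401) (nat_lit 433) (nat_lit 6544) (.f (nat_lit 400) (nat_lit 369) (nat_lit 6512) (.d (nat_lit 529) (nat_lit 497) (nat_lit 4496) (nat_lit 561) (nat_lit 4528)))) (.a (.f (nat_lit 529) (nat_lit 561) (nat_lit 4528) (.f (nat_lit 400) (nat_lit 497) (nat_lit 4496) (.f (nat_lit 369) (nat_lit 401) (nat_lit 6512) (.f (nat_lit 368) (nat_lit 337) (nat_lit 6480) (.f (nat_lit 335) (nat_lit 367) (nat_lit 7503) (.f (nat_lit 336) (nat_lit 303) (nat_lit 7471) (.f (nat_lit 463) (nat_lit 431) (nat_lit 5455) (.f (nat_lit 493) (nat_lit 465) (nat_lit 1485) (.d (nat_lit 492) (nat_lit 461) (nat_lit 1484) (nat_lit 491) (nat_lit 2507)))))))))) (.f (nat_lit 529) (nat_lit 561) (nat_lit 4528) (.f (nat_lit 497) (nat_lit 400) (nat_lit 4496) (.f (nat_lit 463) (nat_lit 461) (nat_lit 461) (.f (nat_lit 465) (nat_lit 493) (nat_lit 1485) (.f (nat_lit 434) (nat_lit 433) (nat_lit 2478) (.f (nat_lit 466) (nat_lit 435) (nat_lit 2479) (.d (nat_lit 430) (nat_lit 429) (nat_lit 3501) (nat_lit 431) (nat_lit 3502)))))))))))) (.a s20394 s20201))))))))) (.a (.p (nat_lit 526) (.a s19529 (.a s19972 (.a (.p (nat_lit 558) (.a (.f (nat_lit 591) (nat_lit 559) (nat_lit 4558) (.f (nat_lit 590) (nat_lit 623) (nat_lit 4590) (.d (nat_lit 461) (nat_lit 429) (nat_lit 7597) (nat_lit 493) (nat_lit 7629)))) (.f (nat_lit 557) (nat_lit 589) (nat_lit 5581) (.f (nat_lit 527) (nat_lit 529) (nat_lit 1549) (.d (nat_lit 556) (nat_lit 525) (nat_lit 1548) (nat_lit 555) (nat_lit 2571)))))) (.a (.p (nat_lit 558) (.a (.f (nat_lit 557) (nat_lit 589) (nat_lit 5581) (.f (nat_lit 527) (nat_lit 529) (nat_lit 1549) (.d (nat_lit 556) (nat_lit 525) (nat_lit 1548) (nat_lit 555) (nat_lit 2571)))) (.f (nat_lit 461) (nat_lit 429) (nat_lit 7597) (.f (nat_lit 463) (nat_lit 431) (nat_lit 6574) (.f (nat_lit 493) (nat_lit 590) (nat_lit 7629) (.d (nat_lit 464) (nat_lit 465) (nat_lit 1485) (nat_lit 492) (nat_lit 1484))))))) (.a (.p (nat_lit 464) (.a (.p (nat_lit 432) (.a (.f (nat_lit 399) (nat_lit 431) (nat_lit 7567) (.f (nat_lit 400) (nat_lit 367) (nat_lit 7535) (.d (nat_lit 401) (nat_lit 369) (nat_lit 6512) (nat_lit 433) (nat_lit 6544)))) (.a (.f (nat_lit 433) (nat_lit 401) (nat_lit 6544) (.f (nat_lit 463) (nat_lit 461) (nat_lit 2477) (.d (nat_lit 434) (nat_lit 435) (nat_lit 1455) (nat_lit 465) (nat_lit 2478)))) (.f (nat_lit 399) (nat_lit 431) (nat_lit 7567) (.f (nat_lit 400) (nat_lit 367) (nat_lit 7535) (.d (nat_lit 529) (nat_lit 497) (nat_lit 4496) (nat_lit 561) (nat_lit 4528))))))) (.a (.p (nat_lit 527) (.a (.f (nat_lit 525) (nat_lit 497) (nat_lit 2541) (.f (nat_lit 493) (nat_lit 492) (nat_lit 3564) (.d (nat_lit 557) (nat_lit 556) (nat_lit 1548) (nat_lit 589) (nat_lit 6605)))) (.f (nat_lit 432) (nat_lit 559) (nat_lit 5551) (.f (nat_lit 433) (nat_lit 401) (nat_lit 6544) (.f (nat_lit 463) (nat_lit 461) (nat_lit 2477) (.d (nat_lit 431) (nat_lit 399) (nat_lit 7567) (nat_lit 434) (nat_lit 1454))))))) (.a (.p (nat_lit 493) (.a (.f (nat_lit 463) (nat_lit 465) (nat_lit 1485) (.d (nat_lit 492) (nat_lit 461) (nat_lit 1484) (nat_lit 491) (nat_lit 2507))) (.a (.f (nat_lit 527) (nat_lit 529) (nat_lit 3565) (.d (nat_lit 492) (nat_lit 491) (nat_lit 491) (nat_lit 525) (nat_lit 3564))) (.f (nat_lit 463) (nat_lit 465) (nat_lit 1485) (.f (nat_lit 461) (nat_lit 497) (nat_lit 461) (.d (nat_lit 429) (nat_lit 397) (nat_lit 4493) (nat_lit 428) (nat_lit 3500))))))) (.a (.p (nat_lit 527) (.a (.f (nat_lit 493) (nat_lit 529) (nat_lit 3565) (.d (nat_lit 492) (nat_lit 491) (nat_lit 491) (nat_lit 525) (nat_lit 3564))) (.f (nat_lit 432) (nat_lit 559) (nat_lit 5551) (.f (nat_lit 433) (nat_lit 401) (nat_lit 6544) (.f (nat_lit 463) (nat_lit 461) (nat_lit 2477) (.d (nat_lit 431) (nat_lit 399) (nat_lit 7567) (nat_lit 434) (nat_lit 1454))))))) (.p (nat_lit 527) (.a (.f (nat_lit 493) (nat_lit 529) (nat_lit 3565) (.d (nat_lit 492) (nat_lit 491) (nat_lit 491) (nat_lit 525) (nat_lit 3564))) (.a (.f (nat_lit 525) (nat_lit 497) (nat_lit 2541) (.f (nat_lit 493) (nat_lit 492) (nat_lit 3564) (.d (nat_lit 557) (nat_lit 556) (nat_lit 1548) (nat_lit 589) (nat_lit 6605)))) (.a (.f (nat_lit 432) (nat_lit 559) (nat_lit 5551) (.d (nat_lit 529) (nat_lit 493) (nat_lit 3565) (nat_lit 561) (nat_lit 4528))) (.f (nat_lit 432) (nat_lit 559) (nat_lit 5551) (.f (nat_lit 529) (nat_lit 561) (nat_lit 4528) (.d (nat_lit 497) (nat_lit 400) (nat_lit 4496) (nat_lit 525) (nat_lit 2541))))))))))))) (.a s20403 (.a s20445 (.a s20454 (.p (nat_lit 558) (.a (.f (nat_lit 591) (nat_lit 559) (nat_lit 4558) (.f (nat_lit 590) (nat_lit 623) (nat_lit 4590) (.d (nat_lit 461) (nat_lit 429) (nat_lit 7597) (nat_lit 493) (nat_lit 7629)))) (.a (.f (nat_lit 461) (nat_lit 429) (nat_lit 7597) (.f (nat_lit 463) (nat_lit 431) (nat_lit 6574) (.f (nat_lit 493) (nat_lit 590) (nat_lit 7629) (.d (nat_lit 464) (nat_lit 465) (nat_lit 1485) (nat_lit 492) (nat_lit 1484))))) (.a (.f (nat_lit 559) (nat_lit 591) (nat_lit 4558) (.f (nat_lit 461) (nat_lit 429) (nat_lit 7597) (.f (nat_lit 463) (nat_lit 431) (nat_lit 6574) (.f (nat_lit 464) (nat_lit 497) (nat_lit 461) (.d (nat_lit 432) (nat_lit 433) (nat_lit 2477) (nat_lit 527) (nat_lit 5551)))))) (.p (nat_lit 527) (.a (.d (nat_lit 529) (nat_lit 493) (nat_lit 3565) (nat_lit 557) (nat_lit 1549)) (.a (.f (nat_lit 559) (nat_lit 591) (nat_lit 4558) (.f (nat_lit 525) (nat_lit 497) (nat_lit 2541) (.f (nat_lit 556) (nat_lit 557) (nat_lit 1548) (.d (nat_lit 524) (nat_lit 523) (nat_lit 523) (nat_lit 555) (nat_lit 1547))))) (.f (nat_lit 559) (nat_lit 591) (nat_lit 4558) (.d (nat_lit 529) (nat_lit 493) (nat_lit 3565) (nat_lit 530) (nat_lit 1550))))))))))))))))))) (.p (nat_lit 526) (.a s19530 (.a s19554 (.a (.p (nat_lit 527) (.a (.f (nat_lit 525) (nat_lit 497) (nat_lit 2541) (.d (nat_lit 557) (nat_lit 430) (nat_lit 5549) (nat_lit 556) (nat_lit 1548))) (.a (.f (nat_lit 529) (nat_lit 493) (nat_lit 3565) (.f (nat_lit 561) (nat_lit 562) (nat_lit 526) (.f (nat_lit 464) (nat_lit 432) (nat_lit 4528) (.d (nat_lit 593) (nat_lit 497) (nat_lit 7632) (nat_lit 625) (nat_lit 7664))))) (.f (nat_lit 493) (nat_lit 529) (nat_lit 3565) (.d (nat_lit 492) (nat_lit 491) (nat_lit 491) (nat_lit 525) (nat_lit 3564)))))) (.a s19619 (.a (.p (nat_lit 527) (.a (.f (nat_lit 529) (nat_lit 493) (nat_lit 3565) (.f (nat_lit 561) (nat_lit 562) (nat_lit 526) (.f (nat_lit 464) (nat_lit 432) (nat_lit 4528) (.d (nat_lit 593) (nat_lit 497) (nat_lit 7632) (nat_lit 625) (nat_lit 7664))))) (.f (nat_lit 559) (nat_lit 430) (nat_lit 4526) (.d (nat_lit 591) (nat_lit 558) (nat_lit 4558) (nat_lit 623) (nat_lit 6639))))) s20454)))))))))))))))))))) (.a (.p (nat_lit 494) (.a s19878 (.a s19720 (.a s20327 (.a (.p (nat_lit 495) (.a (.f (nat_lit 493) (nat_lit 529) (nat_lit 493) (.d (nat_lit 461) (nat_lit 460) (nat_lit 3532) (nat_lit 497) (nat_lit 3533))) (.a (.f (nat_lit 461) (nat_lit 497) (nat_lit 3533) (.d (nat_lit 460) (nat_lit 459) (nat_lit 459) (nat_lit 463) (nat_lit 460))) (.a (.f (nat_lit 493) (nat_lit 529) (nat_lit 493) (.f (nat_lit 461) (nat_lit 460) (nat_lit 3532) (.f (nat_lit 525) (nat_lit 524) (nat_lit 1516) (.d (nat_lit 430) (nat_lit 398) (nat_lit 5517) (nat_lit 557) (nat_lit 6573))))) (.f (nat_lit 493) (nat_lit 529) (nat_lit 493) (.f (nat_lit 492) (nat_lit 527) (nat_lit 492) (.d (nat_lit 524) (nat_lit 523) (nat_lit 1515) (nat_lit 525) (nat_lit 1516)))))))) (.a (.p (nat_lit 495) (.a (.f (nat_lit 493) (nat_lit 529) (nat_lit 493) (.d (nat_lit 461) (nat_lit 460) (nat_lit 3532) (nat_lit 497) (nat_lit 3533))) (.a (.f (nat_lit 461) (nat_lit 497) (nat_lit 3533) (.d (nat_lit 460) (nat_lit 459) (nat_lit 459) (nat_lit 463) (nat_lit 460))) (.a (.f (nat_lit 493) (nat_lit 529) (nat_lit 493) (.f (nat_lit 461) (nat_lit 460) (nat_lit 3532) (.f (nat_lit 492) (nat_lit 527) (nat_lit 492) (.d (nat_lit 491) (nat_lit 463) (nat_lit 2507) (nat_lit 490) (nat_lit 2506))))) (.f (nat_lit 529) (nat_lit 493) (nat_lit 493) (.d (nat_lit 530) (nat_lit 497) (nat_lit 494) (nat_lit 527) (nat_lit 3566))))))) (.a s20546 (.a s19823 (.a s19825 s19831))))))))) (.a (.p (nat_lit 526) (.a s19584 (.a (.p (nat_lit 494) (.a (.p (nat_lit 558) (.a (.f (nat_lit 557) (nat_lit 589) (nat_lit 5581) (.f (nat_lit 525) (nat_lit 430) (nat_lit 5549) (.d (nat_lit 527) (nat_lit 497) (nat_lit 2541) (nat_lit 556) (nat_lit 1548)))) (.a (.f (nat_lit 429) (nat_lit 461) (nat_lit 7597) (.f (nat_lit 430) (nat_lit 397) (nat_lit 7565) (.d (nat_lit 431) (nat_lit 399) (nat_lit 6542) (nat_lit 463) (nat_lit 6574)))) (.f (nat_lit 461) (nat_lit 429) (nat_lit 7597) (.f (nat_lit 463) (nat_lit 431) (nat_lit 6574) (.f (nat_lit 493) (nat_lit 590) (nat_lit 7629) (.d (nat_lit 464) (nat_lit 465) (nat_lit 1485) (nat_lit 492) (nat_lit 1484)))))))) (.a (.p (nat_lit 525) (.a (.f (nat_lit 495) (nat_lit 497) (nat_lit 1517) (.d (nat_lit 524) (nat_lit 493) (nat_lit 1516) (nat_lit 523) (nat_lit 2539))) (.a (.f (nat_lit 430) (nat_lit 557) (nat_lit 5549) (.f (nat_lit 398) (nat_lit 493) (nat_lit 5517) (.d (nat_lit 397) (nat_lit 365) (nat_lit 7533) (nat_lit 429) (nat_lit 7565)))) (.f (nat_lit 430) (nat_lit 557) (nat_lit 5549) (.f (nat_lit 399) (nat_lit 431) (nat_lit 6542) (.f (nat_lit 398) (nat_lit 367) (nat_lit 6510) (.d (nat_lit 397) (nat_lit 365) (nat_lit 7533) (nat_lit 429) (nat_lit 7565)))))))) (.a s19725 (.a s19680 (.a s19726 (.a s19547 (.a s19727 (.a s19728 (.p (nat_lit 558) (.a (.f (nat_lit 557) (nat_lit 589) (nat_lit 5581) (.f (nat_lit 525) (nat_lit 430) (nat_lit 5549) (.d (nat_lit 527) (nat_lit 497) (nat_lit 2541) (nat_lit 556) (nat_lit 1548)))) (.a (.f (nat_lit 463) (nat_lit 431) (nat_lit 6574) (.f (nat_lit 495) (nat_lit 590) (nat_lit 6606) (.f (nat_lit 525) (nat_lit 497) (nat_lit 1517) (.d (nat_lit 524) (nat_lit 493) (nat_lit 1516) (nat_lit 523) (nat_lit 2539))))) (.f (nat_lit 463) (nat_lit 431) (nat_lit 6574) (.f (nat_lit 590) (nat_lit 495) (nat_lit 6606) (.d (nat_lit 589) (nat_lit 557) (nat_lit 5581) (nat_lit 621) (nat_lit 5613)))))))))))))))) (.a (.p (nat_lit 494) (.a (.p (nat_lit 525) (.a (.f (nat_lit 495) (nat_lit 497) (nat_lit 1517) (.d (nat_lit 524) (nat_lit 493) (nat_lit 1516) (nat_lit 523) (nat_lit 2539))) (.a (.f (nat_lit 430) (nat_lit 557) (nat_lit 5549) (.f (nat_lit 398) (nat_lit 493) (nat_lit 5517) (.d (nat_lit 397) (nat_lit 365) (nat_lit 7533) (nat_lit 429) (nat_lit 7565)))) (.f (nat_lit 430) (nat_lit 557) (nat_lit 5549) (.f (nat_lit 399) (nat_lit 431) (nat_lit 6542) (.f (nat_lit 398) (nat_lit 367) (nat_lit 6510) (.d (nat_lit 397) (nat_lit 365) (nat_lit 7533) (nat_lit 429) (nat_lit 7565)))))))) (.a s19680 (.a s19725 (.a s19726 (.a s19547 (.a (.p (nat_lit 558) (.a (.f (nat_lit 461) (nat_lit 429) (nat_lit 7597) (.f (nat_lit 495) (nat_lit 497) (nat_lit 3533) (.d (nat_lit 460) (nat_lit 459) (nat_lit 459) (nat_lit 463) (nat_lit 460)))) (.a (.f (nat_lit 429) (nat_lit 461) (nat_lit 7597) (.f (nat_lit 430) (nat_lit 397) (nat_lit 7565) (.d (nat_lit 557) (nat_lit 525) (nat_lit 5549) (nat_lit 589) (nat_lit 5581)))) (.f (nat_lit 557) (nat_lit 589) (nat_lit 5581) (.f (nat_lit 525) (nat_lit 430) (nat_lit 5549) (.f (nat_lit 495) (nat_lit 497) (nat_lit 1517) (.d (nat_lit 493) (nat_lit 524) (nat_lit 1516) (nat_lit 529) (nat_lit 493)))))))) (.a s19728 s20554)))))))) (.a (.p (nat_lit 494) (.a (.p (nat_lit 558) (.a (.f (nat_lit 557) (nat_lit 589) (nat_lit 5581) (.f (nat_lit 525) (nat_lit 430) (nat_lit 5549) (.d (nat_lit 527) (nat_lit 497) (nat_lit 2541) (nat_lit 556) (nat_lit 1548)))) (.a (.f (nat_lit 429) (nat_lit 461) (nat_lit 7597) (.f (nat_lit 430) (nat_lit 397) (nat_lit 7565) (.d (nat_lit 431) (nat_lit 399) (nat_lit 6542) (nat_lit 463) (nat_lit 6574)))) (.f (nat_lit 461) (nat_lit 429) (nat_lit 7597) (.f (nat_lit 463) (nat_lit 431) (nat_lit 6574) (.f (nat_lit 493) (nat_lit 590) (nat_lit 7629) (.d (nat_lit 464) (nat_lit 465) (nat_lit 1485) (nat_lit 492) (nat_lit 1484)))))))) (.a s19680 (.a (.p (nat_lit 558) (.a (.f (nat_lit 557) (nat_lit 589) (nat_lit 5581) (.f (nat_lit 525) (nat_lit 430) (nat_lit 5549) (.d (nat_lit 527) (nat_lit 497) (nat_lit 2541) (nat_lit 556) (nat_lit 1548)))) (.a (.f (nat_lit 429) (nat_lit 461) (nat_lit 7597) (.f (nat_lit 430) (nat_lit 397) (nat_lit 7565) (.d (nat_lit 431) (nat_lit 399) (nat_lit 6542) (nat_lit 463) (nat_lit 6574)))) (.f (nat_lit 557) (nat_lit 589) (nat_lit 5581) (.f (nat_lit 527) (nat_lit 529) (nat_lit 1549) (.d (nat_lit 556) (nat_lit 525) (nat_lit 1548) (nat_lit 555) (nat_lit 2571))))))) (.a s19610 (.a (.p (nat_lit 527) (.a (.f (nat_lit 525) (nat_lit 497) (nat_lit 2541) (.d (nat_lit 557) (nat_lit 430) (nat_lit 5549) (nat_lit 556) (nat_lit 1548))) (.a (.f (nat_lit 529) (nat_lit 493) (nat_lit 3565) (.f (nat_lit 561) (nat_lit 562) (nat_lit 526) (.f (nat_lit 464) (nat_lit 432) (nat_lit 4528) (.d (nat_lit 593) (nat_lit 497) (nat_lit 7632) (nat_lit 625) (nat_lit 7664))))) (.f (nat_lit 493) (nat_lit 529) (nat_lit 3565) (.d (nat_lit 492) (nat_lit 491) (nat_lit 491) (nat_lit 525) (nat_lit 3564)))))) (.a s20428 (.p (nat_lit 558) (.a (.f (nat_lit 557) (nat_lit 589) (nat_lit 5581) (.f (nat_lit 527) (nat_lit 529) (nat_lit 1549) (.d (nat_lit 556) (nat_lit 525) (nat_lit 1548) (nat_lit 555) (nat_lit 2571)))) (.f (nat_lit 461) (nat_lit 429) (nat_lit 7597) (.f (nat_lit 463) (nat_lit 431) (nat_lit 6574) (.f (nat_lit 493) (nat_lit 590) (nat_lit 7629) (.d (nat_lit 464) (nat_lit 465) (nat_lit 1485) (nat_lit 492) (nat_lit 1484)))))))))))))) (.a (.p (nat_lit 558) (.a (.p (nat_lit 494) (.a (.f (nat_lit 461) (nat_lit 429) (nat_lit 7597) (.f (nat_lit 495) (nat_lit 497) (nat_lit 3533) (.d (nat_lit 460) (nat_lit 459) (nat_lit 459) (nat_lit 463) (nat_lit 460)))) (.a (.f (nat_lit 557) (nat_lit 589) (nat_lit 5581) (.f (nat_lit 525) (nat_lit 430) (nat_lit 5549) (.d (nat_lit 527) (nat_lit 497) (nat_lit 2541) (nat_lit 556) (nat_lit 1548)))) (.f (nat_lit 463) (nat_lit 431) (nat_lit 6574) (.f (nat_lit 495) (nat_lit 590) (nat_lit 6606) (.d (nat_lit 461) (nat_lit 429) (nat_lit 7597) (nat_lit 460) (nat_lit 460))))))) (.a s19472 (.a (.p (nat_lit 494) (.a (.f (nat_lit 557) (nat_lit 589) (nat_lit 5581) (.f (nat_lit 525) (nat_lit 430) (nat_lit 5549) (.d (nat_lit 527) (nat_lit 497) (nat_lit 2541) (nat_lit 556) (nat_lit 1548)))) (.a (.f (nat_lit 429) (nat_lit 461) (nat_lit 7597) (.f (nat_lit 430) (nat_lit 397) (nat_lit 7565) (.d (nat_lit 431) (nat_lit 399) (nat_lit 6542) (nat_lit 463) (nat_lit 6574)))) (.f (nat_lit 557) (nat_lit 589) (nat_lit 5581) (.f (nat_lit 527) (nat_lit 529) (nat_lit 1549) (.d (nat_lit 556) (nat_lit 525) (nat_lit 1548) (nat_lit 555) (nat_lit 2571))))))) (.a s19557 (.a (.p (nat_lit 527) (.a (.f (nat_lit 525) (nat_lit 497) (nat_lit 2541) (.d (nat_lit 557) (nat_lit 529) (nat_lit 1549) (nat_lit 556) (nat_lit 1548))) (.a (.f (nat_lit 525) (nat_lit 497) (nat_lit 2541) (.f (nat_lit 493) (nat_lit 492) (nat_lit 3564) (.f (nat_lit 557) (nat_lit 556) (nat_lit 1548) (.d (nat_lit 461) (nat_lit 429) (nat_lit 4525) (nat_lit 430) (nat_lit 6573))))) (.a (.f (nat_lit 529) (nat_lit 557) (nat_lit 1549) (.f (nat_lit 562) (nat_lit 561) (nat_lit 526) (.f (nat_lit 530) (nat_lit 563) (nat_lit 527) (.f (nat_lit 531) (nat_lit 495) (nat_lit 3567) (.f (nat_lit 532) (nat_lit 497) (nat_lit 3568) (.d (nat_lit 500) (nat_lit 499) (nat_lit 2544) (nat_lit 501) (nat_lit 2545))))))) (.a (.f (nat_lit 529) (nat_lit 557) (nat_lit 1549) (.f (nat_lit 562) (nat_lit 561) (nat_lit 526) (.f (nat_lit 530) (nat_lit 563) (nat_lit 527) (.f (nat_lit 495) (nat_lit 531) (nat_lit 3567) (.f (nat_lit 463) (nat_lit 431) (nat_lit 5550) (.f (nat_lit 525) (nat_lit 524) (nat_lit 2540) (.f (nat_lit 461) (nat_lit 460) (nat_lit 460) (.d (nat_lit 493) (nat_lit 429) (nat_lit 4525) (nat_lit 492) (nat_lit 3564))))))))) (.f (nat_lit 525) (nat_lit 497) (nat_lit 2541) (.f (nat_lit 495) (nat_lit 524) (nat_lit 2540) (.f (nat_lit 463) (nat_lit 431) (nat_lit 5550) (.f (nat_lit 461) (nat_lit 460) (nat_lit 460) (.d (nat_lit 493) (nat_lit 429) (nat_lit 4525) (nat_lit 492) (nat_lit 3564))))))))))) (.a (.p (nat_lit 494) (.a (.f (nat_lit 463) (nat_lit 431) (nat_lit 6574) (.f (nat_lit 495) (nat_lit 590) (nat_lit 6606) (.d (nat_lit 461) (nat_lit 429) (nat_lit 7597) (nat_lit 460) (nat_lit 460)))) (.a (.f (nat_lit 429) (nat_lit 461) (nat_lit 7597) (.f (nat_lit 430) (nat_lit 397) (nat_lit 7565) (.d (nat_lit 431) (nat_lit 399) (nat_lit 6542) (nat_lit 463) (nat_lit 6574)))) (.f (nat_lit 557) (nat_lit 589) (nat_lit 5581) (.f (nat_lit 527) (nat_lit 529) (nat_lit 1549) (.d (nat_lit 525) (nat_lit 430) (nat_lit 5549) (nat_lit 556) (nat_lit 1548))))))) (.a (.p (nat_lit 494) (.a (.f (nat_lit 557) (nat_lit 589) (nat_lit 5581) (.f (nat_lit 525) (nat_lit 430) (nat_lit 5549) (.d (nat_lit 527) (nat_lit 497) (nat_lit 2541) (nat_lit 556) (nat_lit 1548)))) (.a (.f (nat_lit 461) (nat_lit 429) (nat_lit 7597) (.f (nat_lit 493) (nat_lit 590) (nat_lit 7629) (.d (nat_lit 495) (nat_lit 460) (nat_lit 3532) (nat_lit 497) (nat_lit 3533)))) (.f (nat_lit 557) (nat_lit 589) (nat_lit 5581) (.f (nat_lit 527) (nat_lit 529) (nat_lit 1549) (.d (nat_lit 525) (nat_lit 430) (nat_lit 5549) (nat_lit 556) (nat_lit 1548))))))) (.a s19582 (.p (nat_lit 494) (.a (.f (nat_lit 461) (nat_lit 429) (nat_lit 7597) (.f (nat_lit 495) (nat_lit 497) (nat_lit 3533) (.d (nat_lit 460) (nat_lit 459) (nat_lit 459) (nat_lit 463) (nat_lit 460)))) (.f (nat_lit 557) (nat_lit 589) (nat_lit 5581) (.f (nat_lit 527) (nat_lit 529) (nat_lit 1549) (.d (nat_lit 556) (nat_lit 525) (nat_lit 1548) (nat_lit 555) (nat_lit 2571))))))))))))))) (.a (.p (nat_lit 494) (.a s19610 (.a s19725 (.a (.p (nat_lit 495) (.a (.f (nat_lit 461) (nat_lit 497) (nat_lit 3533) (.d (nat_lit 460) (nat_lit 459) (nat_lit 459) (nat_lit 463) (nat_lit 460))) (.a (.f (nat_lit 493) (nat_lit 529) (nat_lit 493) (.f (nat_lit 492) (nat_lit 527) (nat_lit 492) (.d (nat_lit 460) (nat_lit 459) (nat_lit 3531) (nat_lit 461) (nat_lit 3532)))) (.f (nat_lit 493) (nat_lit 529) (nat_lit 493) (.f (nat_lit 492) (nat_lit 527) (nat_lit 492) (.d (nat_lit 463) (nat_lit 464) (nat_lit 2508) (nat_lit 491) (nat_lit 2507))))))) (.a s20574 (.a s20585 (.a s20590 s20591))))))) (.a (.p (nat_lit 464) (.a (.p (nat_lit 432) (.a (.f (nat_lit 433) (nat_lit 401) (nat_lit 6544) (.f (nat_lit 463) (nat_lit 461) (nat_lit 2477) (.d (nat_lit 431) (nat_lit 399) (nat_lit 7567) (nat_lit 434) (nat_lit 1454)))) (.a (.f (nat_lit 529) (nat_lit 561) (nat_lit 4528) (.f (nat_lit 400) (nat_lit 497) (nat_lit 4496) (.d (nat_lit 399) (nat_lit 367) (nat_lit 7535) (nat_lit 431) (nat_lit 7567)))) (.f (nat_lit 529) (nat_lit 561) (nat_lit 4528) (.f (nat_lit 400) (nat_lit 497) (nat_lit 4496) (.d (nat_lit 401) (nat_lit 369) (nat_lit 6512) (nat_lit 433) (nat_lit 6544))))))) (.a s20619 (.a (.p (nat_lit 463) (.a (.f (nat_lit 461) (nat_lit 497) (nat_lit 461) (.f (nat_lit 460) (nat_lit 495) (nat_lit 460) (.d (nat_lit 428) (nat_lit 427) (nat_lit 3499) (nat_lit 429) (nat_lit 3500)))) (.a (.f (nat_lit 461) (nat_lit 497) (nat_lit 461) (.f (nat_lit 429) (nat_lit 428) (nat_lit 3500) (.f (nat_lit 493) (nat_lit 492) (nat_lit 1484) (.f (nat_lit 430) (nat_lit 465) (nat_lit 3501) (.d (nat_lit 398) (nat_lit 366) (nat_lit 5485) (nat_lit 525) (nat_lit 6541)))))) (.a (.p (nat_lit 495) (.a (.f (nat_lit 431) (nat_lit 399) (nat_lit 4495) (.f (nat_lit 527) (nat_lit 558) (nat_lit 5550) (.f (nat_lit 430) (nat_lit 398) (nat_lit 7566) (.d (nat_lit 429) (nat_lit 428) (nat_lit 428) (nat_lit 465) (nat_lit 3501))))) (.a (.f (nat_lit 461) (nat_lit 460) (nat_lit 460) (.f (nat_lit 429) (nat_lit 428) (nat_lit 3500) (.f (nat_lit 493) (nat_lit 492) (nat_lit 1484) (.f (nat_lit 430) (nat_lit 465) (nat_lit 3501) (.d (nat_lit 398) (nat_lit 366) (nat_lit 5485) (nat_lit 525) (nat_lit 6541)))))) (.a (.f (nat_lit 431) (nat_lit 399) (nat_lit 4495) (.f (nat_lit 527) (nat_lit 558) (nat_lit 5550) (.f (nat_lit 430) (nat_lit 398) (nat_lit 7566) (.f (nat_lit 461) (nat_lit 460) (nat_lit 460) (.f (nat_lit 525) (nat_lit 524) (nat_lit 2540) (.d (nat_lit 493) (nat_lit 492) (nat_lit 1484) (nat_lit 557) (nat_lit 6573))))))) (.f (nat_lit 431) (nat_lit 399) (nat_lit 4495) (.f (nat_lit 461) (nat_lit 460) (nat_lit 460) (.f (nat_lit 493) (nat_lit 492) (nat_lit 1484) (.f (nat_lit 429) (nat_lit 428) (nat_lit 3500) (.d (nat_lit 558) (nat_lit 525) (nat_lit 4525) (nat_lit 527) (nat_lit 5550)))))))))) (.a (.p (nat_lit 465) (.a (.f (nat_lit 433) (nat_lit 434) (nat_lit 2478) (.d (nat_lit 401) (nat_lit 369) (nat_lit 5488) (nat_lit 497) (nat_lit 5520))) (.f (nat_lit 430) (nat_lit 429) (nat_lit 3501) (.f (nat_lit 431) (nat_lit 466) (nat_lit 3502) (.d (nat_lit 399) (nat_lit 367) (nat_lit 4463) (nat_lit 495) (nat_lit 4495)))))) (.f (nat_lit 461) (nat_lit 497) (nat_lit 461) (.f (nat_lit 460) (nat_lit 495) (nat_lit 460) (.d (nat_lit 492) (nat_lit 491) (nat_lit 1483) (nat_lit 493) (nat_lit 1484))))))))) (.a s20663 (.a s20669 (.a (.p (nat_lit 527) (.a (.f (nat_lit 525) (nat_lit 497) (nat_lit 2541) (.f (nat_lit 557) (nat_lit 556) (nat_lit 1548) (.f (nat_lit 493) (nat_lit 492) (nat_lit 3564) (.f (nat_lit 461) (nat_lit 430) (nat_lit 6573) (.d (nat_lit 558) (nat_lit 429) (nat_lit 4525) (nat_lit 529) (nat_lit 1549)))))) (.a (.f (nat_lit 525) (nat_lit 497) (nat_lit 2541) (.f (nat_lit 492) (nat_lit 493) (nat_lit 3564) (.f (nat_lit 524) (nat_lit 491) (nat_lit 3563) (.d (nat_lit 556) (nat_lit 555) (nat_lit 1547) (nat_lit 557) (nat_lit 1548))))) (.a s20691 (.a (.p (nat_lit 529) (.a (.f (nat_lit 557) (nat_lit 558) (nat_lit 1549) (.f (nat_lit 525) (nat_lit 556) (nat_lit 1548) (.f (nat_lit 493) (nat_lit 492) (nat_lit 3564) (.f (nat_lit 461) (nat_lit 430) (nat_lit 6573) (.f (nat_lit 428) (nat_lit 460) (nat_lit 7596) (.d (nat_lit 429) (nat_lit 396) (nat_lit 7564) (nat_lit 463) (nat_lit 3500))))))) (.d (nat_lit 561) (nat_lit 432) (nat_lit 4528) (nat_lit 562) (nat_lit 526)))) (.f (nat_lit 525) (nat_lit 497) (nat_lit 2541) (.f (nat_lit 495) (nat_lit 524) (nat_lit 2540) (.f (nat_lit 432) (nat_lit 400) (nat_lit 5519) (.f (nat_lit 431) (nat_lit 399) (nat_lit 7567) (.f (nat_lit 463) (nat_lit 558) (nat_lit 5550) (.f (nat_lit 430) (nat_lit 398) (nat_lit 7566) (.d (nat_lit 429) (nat_lit 428) (nat_lit 428) (nat_lit 465) (nat_lit 3501))))))))))))) (.a (.p (nat_lit 432) (.a (.f (nat_lit 529) (nat_lit 561) (nat_lit 4528) (.f (nat_lit 400) (nat_lit 497) (nat_lit 4496) (.d (nat_lit 401) (nat_lit 369) (nat_lit 6512) (nat_lit 433) (nat_lit 6544)))) (.a (.f (nat_lit 433) (nat_lit 401) (nat_lit 6544) (.f (nat_lit 463) (nat_lit 461) (nat_lit 2477) (.d (nat_lit 434) (nat_lit 435) (nat_lit 1455) (nat_lit 465) (nat_lit 2478)))) (.a (.f (nat_lit 529) (nat_lit 561) (nat_lit 4528) (.f (nat_lit 400) (nat_lit 497) (nat_lit 4496) (.f (nat_lit 495) (nat_lit 527) (nat_lit 5519) (.f (nat_lit 368) (nat_lit 463) (nat_lit 5487) (.d (nat_lit 369) (nat_lit 337) (nat_lit 6480) (nat_lit 401) (nat_lit 6512)))))) (.f (nat_lit 529) (nat_lit 561) (nat_lit 4528) (.f (nat_lit 400) (nat_lit 497) (nat_lit 4496) (.f (nat_lit 495) (nat_lit 527) (nat_lit 5519) (.f (nat_lit 463) (nat_lit 368) (nat_lit 5487) (.d (nat_lit 461) (nat_lit 433) (nat_lit 2477) (nat_lit 460) (nat_lit 460)))))))))) s20726)))))))) (.a (.p (nat_lit 527) (.a (.f (nat_lit 525) (nat_lit 497) (nat_lit 2541) (.f (nat_lit 524) (nat_lit 495) (nat_lit 2540) (.d (nat_lit 492) (nat_lit 491) (nat_lit 3563) (nat_lit 493) (nat_lit 3564)))) (.a (.f (nat_lit 525) (nat_lit 497) (nat_lit 2541) (.f (nat_lit 493) (nat_lit 492) (nat_lit 3564) (.f (nat_lit 494) (nat_lit 529) (nat_lit 3565) (.d (nat_lit 430) (nat_lit 398) (nat_lit 5517) (nat_lit 557) (nat_lit 5549))))) (.a (.p (nat_lit 529) (.a (.f (nat_lit 561) (nat_lit 562) (nat_lit 526) (.f (nat_lit 464) (nat_lit 432) (nat_lit 4528) (.d (nat_lit 593) (nat_lit 497) (nat_lit 7632) (nat_lit 625) (nat_lit 7664)))) (.a (.f (nat_lit 494) (nat_lit 493) (nat_lit 3565) (.f (nat_lit 495) (nat_lit 530) (nat_lit 3566) (.f (nat_lit 430) (nat_lit 398) (nat_lit 4494) (.f (nat_lit 431) (nat_lit 399) (nat_lit 6542) (.f (nat_lit 461) (nat_lit 497) (nat_lit 3533) (.d (nat_lit 460) (nat_lit 459) (nat_lit 2475) (nat_lit 463) (nat_lit 460))))))) (.f (nat_lit 494) (nat_lit 493) (nat_lit 3565) (.f (nat_lit 495) (nat_lit 530) (nat_lit 3566) (.f (nat_lit 430) (nat_lit 398) (nat_lit 4494) (.f (nat_lit 431) (nat_lit 399) (nat_lit 6542) (.f (nat_lit 429) (nat_lit 397) (nat_lit 7565) (.f (nat_lit 561) (nat_lit 562) (nat_lit 526) (.f (nat_lit 432) (nat_lit 464) (nat_lit 4528) (.d (nat_lit 400) (nat_lit 401) (nat_lit 2445) (nat_lit 463) (nat_lit 6543)))))))))))) (.a (.p (nat_lit 529) (.a (.f (nat_lit 562) (nat_lit 561) (nat_lit 526) (.f (nat_lit 530) (nat_lit 563) (nat_lit 527) (.f (nat_lit 495) (nat_lit 531) (nat_lit 3567) (.f (nat_lit 525) (nat_lit 524) (nat_lit 2540) (.f (nat_lit 493) (nat_lit 492) (nat_lit 3564) (.f (nat_lit 557) (nat_lit 556) (nat_lit 1548) (.f (nat_lit 461) (nat_lit 430) (nat_lit 6573) (.d (nat_lit 460) (nat_lit 428) (nat_lit 7596) (nat_lit 463) (nat_lit 460))))))))) (.a (.f (nat_lit 561) (nat_lit 562) (nat_lit 526) (.f (nat_lit 493) (nat_lit 494) (nat_lit 3565) (.f (nat_lit 525) (nat_lit 492) (nat_lit 3564) (.f (nat_lit 557) (nat_lit 556) (nat_lit 1548) (.f (nat_lit 461) (nat_lit 430) (nat_lit 6573) (.f (nat_lit 428) (nat_lit 460) (nat_lit 7596) (.f (nat_lit 429) (nat_lit 396) (nat_lit 7564) (.d (nat_lit 464) (nat_lit 432) (nat_lit 4528) (nat_lit 463) (nat_lit 3500))))))))) (.a (.f (nat_lit 494) (nat_lit 493) (nat_lit 3565) (.f (nat_lit 495) (nat_lit 530) (nat_lit 3566) (.f (nat_lit 430) (nat_lit 398) (nat_lit 4494) (.f (nat_lit 431) (nat_lit 399) (nat_lit 6542) (.f (nat_lit 429) (nat_lit 397) (nat_lit 7565) (.f (nat_lit 561) (nat_lit 562) (nat_lit 526) (.f (nat_lit 432) (nat_lit 464) (nat_lit 4528) (.d (nat_lit 400) (nat_lit 401) (nat_lit 2445) (nat_lit 463) (nat_lit 6543))))))))) (.a (.f (nat_lit 494) (nat_lit 493) (nat_lit 3565) (.f (nat_lit 495) (nat_lit 530) (nat_lit 3566) (.f (nat_lit 430) (nat_lit 398) (nat_lit 4494) (.d (nat_lit 525) (nat_lit 524) (nat_lit 2540) (nat_lit 557) (nat_lit 5549))))) (.f (nat_lit 562) (nat_lit 561) (nat_lit 526) (.f (nat_lit 530) (nat_lit 563) (nat_lit 527) (.d (nat_lit 495) (nat_lit 494) (nat_lit 3566) (nat_lit 531) (nat_lit 3567))))))))) (.f (nat_lit 525) (nat_lit 497) (nat_lit 2541) (.f (nat_lit 524) (nat_lit 495) (nat_lit 2540) (.d (nat_lit 556) (nat_lit 555) (nat_lit 1547) (nat_lit 557) (nat_lit 1548))))))))) (.a (.p (nat_lit 494) (.a s19680 (.a (.p (nat_lit 558) (.a (.f (nat_lit 463) (nat_lit 431) (nat_lit 6574) (.f (nat_lit 495) (nat_lit 590) (nat_lit 6606) (.d (nat_lit 461) (nat_lit 429) (nat_lit 7597) (nat_lit 460) (nat_lit 460)))) (.a (.f (nat_lit 429) (nat_lit 461) (nat_lit 7597) (.f (nat_lit 430) (nat_lit 397) (nat_lit 7565) (.d (nat_lit 431) (nat_lit 399) (nat_lit 6542) (nat_lit 463) (nat_lit 6574)))) (.f (nat_lit 557) (nat_lit 589) (nat_lit 5581) (.f (nat_lit 527) (nat_lit 529) (nat_lit 1549) (.d (nat_lit 525) (nat_lit 430) (nat_lit 5549) (nat_lit 556) (nat_lit 1548))))))) (.a s20574 (.a s20040 (.a s20767 (.a s20768 (.a s20769 (.p (nat_lit 558) (.a (.f (nat_lit 463) (nat_lit 431) (nat_lit 6574) (.f (nat_lit 495) (nat_lit 590) (nat_lit 6606) (.d (nat_lit 461) (nat_lit 429) (nat_lit 7597) (nat_lit 460) (nat_lit 460)))) (.f (nat_lit 557) (nat_lit 589) (nat_lit 5581) (.f (nat_lit 527) (nat_lit 529) (nat_lit 1549) (.d (nat_lit 556) (nat_lit 525) (nat_lit 1548) (nat_lit 555) (nat_lit 2571)))))))))))))) (.a s20797 (.a (.p (nat_lit 494) (.a (.p (nat_lit 525) (.a (.f (nat_lit 495) (nat_lit 497) (nat_lit 1517) (.d (nat_lit 524) (nat_lit 493) (nat_lit 1516) (nat_lit 523) (nat_lit 2539))) (.a (.f (nat_lit 430) (nat_lit 557) (nat_lit 5549) (.f (nat_lit 398) (nat_lit 493) (nat_lit 5517) (.d (nat_lit 397) (nat_lit 365) (nat_lit 7533) (nat_lit 429) (nat_lit 7565)))) (.f (nat_lit 430) (nat_lit 557) (nat_lit 5549) (.f (nat_lit 399) (nat_lit 431) (nat_lit 6542) (.f (nat_lit 398) (nat_lit 367) (nat_lit 6510) (.d (nat_lit 397) (nat_lit 365) (nat_lit 7533) (nat_lit 429) (nat_lit 7565)))))))) (.a (.p (nat_lit 527) (.a (.f (nat_lit 525) (nat_lit 497) (nat_lit 2541) (.d (nat_lit 557) (nat_lit 430) (nat_lit 5549) (nat_lit 556) (nat_lit 1548))) (.a (.f (nat_lit 529) (nat_lit 493) (nat_lit 3565) (.f (nat_lit 561) (nat_lit 562) (nat_lit 526) (.f (nat_lit 464) (nat_lit 432) (nat_lit 4528) (.d (nat_lit 593) (nat_lit 497) (nat_lit 7632) (nat_lit 625) (nat_lit 7664))))) (.f (nat_lit 493) (nat_lit 529) (nat_lit 3565) (.d (nat_lit 492) (nat_lit 491) (nat_lit 491) (nat_lit 525) (nat_lit 3564)))))) (.a s20590 (.a s20767 (.a (.p (nat_lit 525) (.a (.f (nat_lit 430) (nat_lit 557) (nat_lit 5549) (.f (nat_lit 399) (nat_lit 431) (nat_lit 6542) (.f (nat_lit 398) (nat_lit 367) (nat_lit 6510) (.d (nat_lit 397) (nat_lit 365) (nat_lit 7533) (nat_lit 429) (nat_lit 7565))))) (.d (nat_lit 497) (nat_lit 495) (nat_lit 1517) (nat_lit 527) (nat_lit 2541)))) (.a s20810 s19675))))))) (.a (.p (nat_lit 494) (.a s19547 (.a s20428 (.a s20823 (.a (.p (nat_lit 495) (.a (.f (nat_lit 461) (nat_lit 497) (nat_lit 3533) (.d (nat_lit 460) (nat_lit 459) (nat_lit 459) (nat_lit 463) (nat_lit 460))) (.a (.f (nat_lit 493) (nat_lit 529) (nat_lit 493) (.f (nat_lit 492) (nat_lit 527) (nat_lit 492) (.d (nat_lit 460) (nat_lit 459) (nat_lit 3531) (nat_lit 461) (nat_lit 3532)))) (.f (nat_lit 493) (nat_lit 529) (nat_lit 493) (.f (nat_lit 492) (nat_lit 527) (nat_lit 492) (.d (nat_lit 463) (nat_lit 464) (nat_lit 2508) (nat_lit 491) (nat_lit 2507))))))) (.a s20768 (.a s20794 (.a s20810 s20839)))))))) (.a s20841 (.a s20842 (.a s20843 s20844)))))))))))))))) (.a (.p (nat_lit 464) (.a s20858 (.a s20876 (.a s20906 (.a (.p (nat_lit 463) (.a (.f (nat_lit 461) (nat_lit 497) (nat_lit 461) (.f (nat_lit 429) (nat_lit 428) (nat_lit 3500) (.f (nat_lit 493) (nat_lit 492) (nat_lit 1484) (.d (nat_lit 465) (nat_lit 430) (nat_lit 3501) (nat_lit 494) (nat_lit 1485))))) (.a (.f (nat_lit 461) (nat_lit 497) (nat_lit 461) (.f (nat_lit 460) (nat_lit 495) (nat_lit 460) (.d (nat_lit 428) (nat_lit 427) (nat_lit 3499) (nat_lit 429) (nat_lit 3500)))) (.a (.p (nat_lit 493) (.a (.f (nat_lit 494) (nat_lit 465) (nat_lit 1485) (.d (nat_lit 492) (nat_lit 461) (nat_lit 1484) (nat_lit 491) (nat_lit 2507))) (.a (.f (nat_lit 461) (nat_lit 492) (nat_lit 1484) (.f (nat_lit 429) (nat_lit 428) (nat_lit 3500) (.f (nat_lit 430) (nat_lit 465) (nat_lit 3501) (.d (nat_lit 398) (nat_lit 366) (nat_lit 5485) (nat_lit 525) (nat_lit 6541))))) (.a (.f (nat_lit 494) (nat_lit 465) (nat_lit 1485) (.d (nat_lit 492) (nat_lit 491) (nat_lit 2507) (nat_lit 495) (nat_lit 2508))) (.a (.f (nat_lit 461) (nat_lit 492) (nat_lit 1484) (.f (nat_lit 460) (nat_lit 495) (nat_lit 460) (.d (nat_lit 428) (nat_lit 427) (nat_lit 3499) (nat_lit 429) (nat_lit 3500)))) (.f (nat_lit 465) (nat_lit 494) (nat_lit 1485) (.f (nat_lit 430) (nat_lit 429) (nat_lit 3501) (.f (nat_lit 431) (nat_lit 466) (nat_lit 3502) (.d (nat_lit 399) (nat_lit 367) (nat_lit 4463) (nat_lit 495) (nat_lit 4495)))))))))) (.a (.p (nat_lit 465) (.a (.f (nat_lit 494) (nat_lit 493) (nat_lit 1485) (.f (nat_lit 495) (nat_lit 466) (nat_lit 1486) (.f (nat_lit 430) (nat_lit 429) (nat_lit 3501) (.d (nat_lit 398) (nat_lit 366) (nat_lit 4462) (nat_lit 527) (nat_lit 4494))))) (.a (.f (nat_lit 494) (nat_lit 493) (nat_lit 1485) (.f (nat_lit 466) (nat_lit 495) (nat_lit 1486) (.d (nat_lit 430) (nat_lit 429) (nat_lit 3501) (nat_lit 431) (nat_lit 3502)))) (.f (nat_lit 433) (nat_lit 434) (nat_lit 2478) (.d (nat_lit 401) (nat_lit 369) (nat_lit 5488) (nat_lit 497) (nat_lit 5520)))))) (.f (nat_lit 461) (nat_lit 497) (nat_lit 461) (.f (nat_lit 495) (nat_lit 460) (nat_lit 460) (.f (nat_lit 493) (nat_lit 492) (nat_lit 1484) (.f (nat_lit 494) (nat_lit 465) (nat_lit 2509) (.f (nat_lit 525) (nat_lit 524) (nat_lit 1516) (.d (nat_lit 430) (nat_lit 398) (nat_lit 5517) (nat_lit 557) (nat_lit 6573)))))))))))) (.a s20953 (.a s20966 (.a s20985 (.a (.p (nat_lit 432) (.a (.f (nat_lit 433) (nat_lit 401) (nat_lit 6544) (.f (nat_lit 463) (nat_lit 461) (nat_lit 2477) (.d (nat_lit 434) (nat_lit 435) (nat_lit 1455) (nat_lit 465) (nat_lit 2478)))) (.a (.f (nat_lit 401) (nat_lit 433) (nat_lit 6544) (.f (nat_lit 400) (nat_lit 369) (nat_lit 6512) (.d (nat_lit 527) (nat_lit 495) (nat_lit 5519) (nat_lit 559) (nat_lit 5551)))) (.f (nat_lit 529) (nat_lit 561) (nat_lit 4528) (.f (nat_lit 400) (nat_lit 497) (nat_lit 4496) (.d (nat_lit 527) (nat_lit 495) (nat_lit 5519) (nat_lit 559) (nat_lit 5551))))))) (.a s20997 (.a s20998 s21000))))))))))) (.a (.p (nat_lit 464) (.a s20858 (.a s20876 (.a s20906 (.a (.p (nat_lit 463) (.a (.f (nat_lit 461) (nat_lit 497) (nat_lit 461) (.f (nat_lit 495) (nat_lit 460) (nat_lit 460) (.f (nat_lit 493) (nat_lit 492) (nat_lit 1484) (.f (nat_lit 494) (nat_lit 465) (nat_lit 2509) (.f (nat_lit 429) (nat_lit 428) (nat_lit 3500) (.d (nat_lit 397) (nat_lit 365) (nat_lit 4461) (nat_lit 526) (nat_lit 4493))))))) (.a (.f (nat_lit 461) (nat_lit 497) (nat_lit 461) (.f (nat_lit 429) (nat_lit 428) (nat_lit 3500) (.f (nat_lit 493) (nat_lit 492) (nat_lit 1484) (.d (nat_lit 465) (nat_lit 430) (nat_lit 3501) (nat_lit 494) (nat_lit 1485))))) (.a (.f (nat_lit 461) (nat_lit 497) (nat_lit 461) (.f (nat_lit 460) (nat_lit 495) (nat_lit 460) (.d (nat_lit 428) (nat_lit 427) (nat_lit 3499) (nat_lit 429) (nat_lit 3500)))) (.a (.p (nat_lit 493) (.a (.f (nat_lit 494) (nat_lit 465) (nat_lit 1485) (.d (nat_lit 492) (nat_lit 461) (nat_lit 1484) (nat_lit 491) (nat_lit 2507))) (.a (.f (nat_lit 461) (nat_lit 492) (nat_lit 1484) (.f (nat_lit 460) (nat_lit 495) (nat_lit 460) (.d (nat_lit 428) (nat_lit 427) (nat_lit 3499) (nat_lit 429) (nat_lit 3500)))) (.a (.f (nat_lit 494) (nat_lit 465) (nat_lit 1485) (.d (nat_lit 492) (nat_lit 491) (nat_lit 2507) (nat_lit 495) (nat_lit 2508))) (.f (nat_lit 465) (nat_lit 494) (nat_lit 1485) (.f (nat_lit 430) (nat_lit 429) (nat_lit 3501) (.f (nat_lit 431) (nat_lit 466) (nat_lit 3502) (.d (nat_lit 399) (nat_lit 367) (nat_lit 4463) (nat_lit 495) (nat_lit 4495))))))))) (.a (.p (nat_lit 465) (.a (.f (nat_lit 494) (nat_lit 493) (nat_lit 1485) (.f (nat_lit 495) (nat_lit 466) (nat_lit 1486) (.f (nat_lit 430) (nat_lit 429) (nat_lit 3501) (.d (nat_lit 398) (nat_lit 366) (nat_lit 4462) (nat_lit 527) (nat_lit 4494))))) (.a (.f (nat_lit 494) (nat_lit 493) (nat_lit 1485) (.f (nat_lit 466) (nat_lit 495) (nat_lit 1486) (.d (nat_lit 430) (nat_lit 429) (nat_lit 3501) (nat_lit 431) (nat_lit 3502)))) (.f (nat_lit 433) (nat_lit 434) (nat_lit 2478) (.d (nat_lit 401) (nat_lit 369) (nat_lit 5488) (nat_lit 497) (nat_lit 5520)))))) (.f (nat_lit 461) (nat_lit 497) (nat_lit 461) (.f (nat_lit 495) (nat_lit 460) (nat_lit 460) (.f (nat_lit 493) (nat_lit 492) (nat_lit 1484) (.d (nat_lit 494) (nat_lit 465) (nat_lit 1485) (nat_lit 529) (nat_lit 493))))))))))) (.a s20953 (.a s20966 (.a s20985 (.a (.p (nat_lit 432) (.a (.f (nat_lit 433) (nat_lit 401) (nat_lit 6544) (.f (nat_lit 463) (nat_lit 461) (nat_lit 2477) (.d (nat_lit 434) (nat_lit 435) (nat_lit 1455) (nat_lit 465) (nat_lit 2478)))) (.a (.f (nat_lit 401) (nat_lit 433) (nat_lit 6544) (.f (nat_lit 400) (nat_lit 369) (nat_lit 6512) (.d (nat_lit 527) (nat_lit 495) (nat_lit 5519) (nat_lit 559) (nat_lit 5551)))) (.f (nat_lit 529) (nat_lit 561) (nat_lit 4528) (.f (nat_lit 400) (nat_lit 497) (nat_lit 4496) (.d (nat_lit 527) (nat_lit 495) (nat_lit 5519) (nat_lit 559) (nat_lit 5551))))))) (.a s20997 (.a s20998 s21000))))))))))) (.a (.p (nat_lit 464) (.a s20858 (.a s20876 (.a (.p (nat_lit 432) (.a (.f (nat_lit 401) (nat_lit 433) (nat_lit 6544) (.f (nat_lit 400) (nat_lit 369) (nat_lit 6512) (.d (nat_lit 399) (nat_lit 367) (nat_lit 7535) (nat_lit 431) (nat_lit 7567)))) (.a (.f (nat_lit 529) (nat_lit 561) (nat_lit 4528) (.f (nat_lit 400) (nat_lit 497) (nat_lit 4496) (.d (nat_lit 401) (nat_lit 369) (nat_lit 6512) (nat_lit 433) (nat_lit 6544)))) (.a (.f (nat_lit 529) (nat_lit 561) (nat_lit 4528) (.f (nat_lit 400) (nat_lit 497) (nat_lit 4496) (.d (nat_lit 399) (nat_lit 367) (nat_lit 7535) (nat_lit 431) (nat_lit 7567)))) (.f (nat_lit 431) (nat_lit 399) (nat_lit 7567) (.f (nat_lit 433) (nat_lit 401) (nat_lit 6544) (.f (nat_lit 430) (nat_lit 461) (nat_lit 1453) (.d (nat_lit 465) (nat_lit 429) (nat_lit 429) (nat_lit 466) (nat_lit 430))))))))) (.a (.p (nat_lit 463) (.a (.f (nat_lit 461) (nat_lit 497) (nat_lit 461) (.f (nat_lit 460) (nat_lit 495) (nat_lit 460) (.d (nat_lit 428) (nat_lit 427) (nat_lit 3499) (nat_lit 429) (nat_lit 3500)))) (.a (.f (nat_lit 461) (nat_lit 497) (nat_lit 461) (.f (nat_lit 428) (nat_lit 429) (nat_lit 3500) (.f (nat_lit 460) (nat_lit 427) (nat_lit 3499) (.d (nat_lit 492) (nat_lit 491) (nat_lit 1483) (nat_lit 493) (nat_lit 1484))))) (.a (.p (nat_lit 461) (.a (.f (nat_lit 460) (nat_lit 495) (nat_lit 460) (.d (nat_lit 428) (nat_lit 427) (nat_lit 3499) (nat_lit 429) (nat_lit 3500))) (.a (.f (nat_lit 428) (nat_lit 429) (nat_lit 3500) (.f (nat_lit 460) (nat_lit 427) (nat_lit 3499) (.d (nat_lit 492) (nat_lit 491) (nat_lit 1483) (nat_lit 493) (nat_lit 1484)))) (.a (.f (nat_lit 429) (nat_lit 428) (nat_lit 3500) (.f (nat_lit 493) (nat_lit 492) (nat_lit 1484) (.f (nat_lit 430) (nat_lit 465) (nat_lit 3501) (.d (nat_lit 398) (nat_lit 366) (nat_lit 5485) (nat_lit 525) (nat_lit 6541))))) (.f (nat_lit 460) (nat_lit 495) (nat_lit 460) (.d (nat_lit 492) (nat_lit 491) (nat_lit 1483) (nat_lit 493) (nat_lit 1484))))))) (.a (.p (nat_lit 465) (.a (.f (nat_lit 433) (nat_lit 434) (nat_lit 2478) (.d (nat_lit 401) (nat_lit 369) (nat_lit 5488) (nat_lit 497) (nat_lit 5520))) (.f (nat_lit 430) (nat_lit 429) (nat_lit 3501) (.f (nat_lit 431) (nat_lit 466) (nat_lit 3502) (.d (nat_lit 399) (nat_lit 367) (nat_lit 4463) (nat_lit 495) (nat_lit 4495)))))) (.f (nat_lit 461) (nat_lit 497) (nat_lit 461) (.f (nat_lit 460) (nat_lit 495) (nat_lit 460) (.d (nat_lit 492) (nat_lit 491) (nat_lit 1483) (nat_lit 493) (nat_lit 1484))))))))) (.a s20966 (.a (.p (nat_lit 527) (.a (.f (nat_lit 432) (nat_lit 559) (nat_lit 5551) (.f (nat_lit 400) (nat_lit 495) (nat_lit 5519) (.d (nat_lit 399) (nat_lit 367) (nat_lit 7535) (nat_lit 431) (nat_lit 7567)))) (.a (.f (nat_lit 432) (nat_lit 559) (nat_lit 5551) (.f (nat_lit 529) (nat_lit 561) (nat_lit 4528) (.f (nat_lit 400) (nat_lit 497) (nat_lit 4496) (.d (nat_lit 399) (nat_lit 367) (nat_lit 7535) (nat_lit 431) (nat_lit 7567))))) (.a (.p (nat_lit 526) (.a (.f (nat_lit 525) (nat_lit 497) (nat_lit 2541) (.f (nat_lit 557) (nat_lit 556) (nat_lit 1548) (.f (nat_lit 493) (nat_lit 492) (nat_lit 3564) (.f (nat_lit 461) (nat_lit 430) (nat_lit 6573) (.d (nat_lit 558) (nat_lit 429) (nat_lit 4525) (nat_lit 529) (nat_lit 1549)))))) (.a (.f (nat_lit 525) (nat_lit 497) (nat_lit 2541) (.f (nat_lit 492) (nat_lit 493) (nat_lit 3564) (.f (nat_lit 524) (nat_lit 491) (nat_lit 3563) (.d (nat_lit 556) (nat_lit 555) (nat_lit 1547) (nat_lit 557) (nat_lit 1548))))) (.a s20691 (.a (.p (nat_lit 529) (.a (.f (nat_lit 557) (nat_lit 558) (nat_lit 1549) (.f (nat_lit 525) (nat_lit 556) (nat_lit 1548) (.f (nat_lit 493) (nat_lit 492) (nat_lit 3564) (.f (nat_lit 461) (nat_lit 430) (nat_lit 6573) (.f (nat_lit 428) (nat_lit 460) (nat_lit 7596) (.d (nat_lit 429) (nat_lit 396) (nat_lit 7564) (nat_lit 463) (nat_lit 3500))))))) (.d (nat_lit 561) (nat_lit 432) (nat_lit 4528) (nat_lit 562) (nat_lit 526)))) (.f (nat_lit 525) (nat_lit 497) (nat_lit 2541) (.f (nat_lit 495) (nat_lit 524) (nat_lit 2540) (.f (nat_lit 432) (nat_lit 400) (nat_lit 5519) (.f (nat_lit 431) (nat_lit 399) (nat_lit 7567) (.f (nat_lit 463) (nat_lit 558) (nat_lit 5550) (.f (nat_lit 430) (nat_lit 398) (nat_lit 7566) (.d (nat_lit 429) (nat_lit 428) (nat_lit 428) (nat_lit 465) (nat_lit 3501))))))))))))) (.a (.p (nat_lit 526) (.a (.f (nat_lit 525) (nat_lit 497) (nat_lit 2541) (.f (nat_lit 557) (nat_lit 556) (nat_lit 1548) (.f (nat_lit 493) (nat_lit 492) (nat_lit 3564) (.f (nat_lit 461) (nat_lit 430) (nat_lit 6573) (.d (nat_lit 558) (nat_lit 429) (nat_lit 4525) (nat_lit 529) (nat_lit 1549)))))) (.a (.f (nat_lit 525) (nat_lit 497) (nat_lit 2541) (.f (nat_lit 492) (nat_lit 493) (nat_lit 3564) (.f (nat_lit 524) (nat_lit 491) (nat_lit 3563) (.d (nat_lit 556) (nat_lit 555) (nat_lit 1547) (nat_lit 557) (nat_lit 1548))))) (.a (.p (nat_lit 529) (.a (.f (nat_lit 561) (nat_lit 562) (nat_lit 526) (.d (nat_lit 593) (nat_lit 497) (nat_lit 7632) (nat_lit 625) (nat_lit 7664))) (.f (nat_lit 558) (nat_lit 557) (nat_lit 1549) (.f (nat_lit 559) (nat_lit 530) (nat_lit 1550) (.d (nat_lit 591) (nat_lit 495) (nat_lit 6607) (nat_lit 623) (nat_lit 6639)))))) (.a (.p (nat_lit 529) (.a (.f (nat_lit 557) (nat_lit 558) (nat_lit 1549) (.f (nat_lit 525) (nat_lit 556) (nat_lit 1548) (.f (nat_lit 493) (nat_lit 492) (nat_lit 3564) (.f (nat_lit 461) (nat_lit 430) (nat_lit 6573) (.f (nat_lit 428) (nat_lit 460) (nat_lit 7596) (.d (nat_lit 429) (nat_lit 396) (nat_lit 7564) (nat_lit 463) (nat_lit 3500))))))) (.a (.f (nat_lit 558) (nat_lit 557) (nat_lit 1549) (.f (nat_lit 559) (nat_lit 530) (nat_lit 1550) (.d (nat_lit 591) (nat_lit 495) (nat_lit 6607) (nat_lit 623) (nat_lit 6639)))) (.a (.f (nat_lit 562) (nat_lit 561) (nat_lit 526) (.f (nat_lit 530) (nat_lit 563) (nat_lit 527) (.f (nat_lit 495) (nat_lit 531) (nat_lit 3567) (.f (nat_lit 525) (nat_lit 524) (nat_lit 2540) (.f (nat_lit 559) (nat_lit 591) (nat_lit 6607) (.f (nat_lit 430) (nat_lit 463) (nat_lit 7598) (.f (nat_lit 493) (nat_lit 492) (nat_lit 3564) (.d (nat_lit 557) (nat_lit 461) (nat_lit 6573) (nat_lit 556) (nat_lit 1548))))))))) (.f (nat_lit 562) (nat_lit 561) (nat_lit 526) (.f (nat_lit 530) (nat_lit 563) (nat_lit 527) (.f (nat_lit 495) (nat_lit 531) (nat_lit 3567) (.d (nat_lit 559) (nat_lit 558) (nat_lit 1550) (nat_lit 591) (nat_lit 6607))))))))) (.f (nat_lit 525) (nat_lit 497) (nat_lit 2541) (.f (nat_lit 495) (nat_lit 524) (nat_lit 2540) (.f (nat_lit 559) (nat_lit 591) (nat_lit 6607) (.f (nat_lit 463) (nat_lit 430) (nat_lit 7598) (.d (nat_lit 431) (nat_lit 399) (nat_lit 4495) (nat_lit 558) (nat_lit 5550))))))))))) (.f (nat_lit 559) (nat_lit 432) (nat_lit 5551) (.d (nat_lit 591) (nat_lit 495) (nat_lit 6607) (nat_lit 623) (nat_lit 6639)))))))) (.a (.p (nat_lit 432) (.a (.f (nat_lit 433) (nat_lit 401) (nat_lit 6544) (.f (nat_lit 463) (nat_lit 461) (nat_lit 2477) (.d (nat_lit 434) (nat_lit 435) (nat_lit 1455) (nat_lit 465) (nat_lit 2478)))) (.a (.f (nat_lit 401) (nat_lit 433) (nat_lit 6544) (.f (nat_lit 400) (nat_lit 369) (nat_lit 6512) (.d (nat_lit 527) (nat_lit 495) (nat_lit 5519) (nat_lit 559) (nat_lit 5551)))) (.f (nat_lit 529) (nat_lit 561) (nat_lit 4528) (.f (nat_lit 400) (nat_lit 497) (nat_lit 4496) (.d (nat_lit 527) (nat_lit 495) (nat_lit 5519) (nat_lit 559) (nat_lit 5551))))))) (.a s20997 s20998))))))))) (.a (.p (nat_lit 494) (.a s20053 (.a s19816 (.a s20401 (.a s20546 (.a (.p (nat_lit 526) (.a s19680 (.a (.p (nat_lit 558) (.a (.f (nat_lit 463) (nat_lit 431) (nat_lit 6574) (.f (nat_lit 495) (nat_lit 590) (nat_lit 6606) (.d (nat_lit 461) (nat_lit 429) (nat_lit 7597) (nat_lit 460) (nat_lit 460)))) (.a (.f (nat_lit 429) (nat_lit 461) (nat_lit 7597) (.f (nat_lit 430) (nat_lit 397) (nat_lit 7565) (.d (nat_lit 431) (nat_lit 399) (nat_lit 6542) (nat_lit 463) (nat_lit 6574)))) (.f (nat_lit 557) (nat_lit 589) (nat_lit 5581) (.f (nat_lit 527) (nat_lit 529) (nat_lit 1549) (.d (nat_lit 525) (nat_lit 430) (nat_lit 5549) (nat_lit 556) (nat_lit 1548))))))) (.a s20574 (.a s20040 (.a s20767 (.a s20768 (.a s20769 (.p (nat_lit 558) (.a (.f (nat_lit 463) (nat_lit 431) (nat_lit 6574) (.f (nat_lit 495) (nat_lit 590) (nat_lit 6606) (.d (nat_lit 461) (nat_lit 429) (nat_lit 7597) (nat_lit 460) (nat_lit 460)))) (.f (nat_lit 557) (nat_lit 589) (nat_lit 5581) (.f (nat_lit 527) (nat_lit 529) (nat_lit 1549) (.d (nat_lit 556) (nat_lit 525) (nat_lit 1548) (nat_lit 555) (nat_lit 2571)))))))))))))) (.a (.p (nat_lit 464) (.a s19759 (.a s20370 (.a (.p (nat_lit 493) (.a (.d (nat_lit 465) (nat_lit 463) (nat_lit 1485) (nat_lit 495) (nat_lit 2509)) (.a (.f (nat_lit 463) (nat_lit 465) (nat_lit 1485) (.d (nat_lit 492) (nat_lit 461) (nat_lit 1484) (nat_lit 491) (nat_lit 2507))) (.a (.d (nat_lit 495) (nat_lit 465) (nat_lit 2509) (nat_lit 529) (nat_lit 493)) (.f (nat_lit 495) (nat_lit 529) (nat_lit 493) (.d (nat_lit 492) (nat_lit 463) (nat_lit 2508) (nat_lit 527) (nat_lit 492))))))) (.a s19763 (.a (.p (nat_lit 432) (.a (.f (nat_lit 399) (nat_lit 431) (nat_lit 7567) (.f (nat_lit 400) (nat_lit 367) (nat_lit 7535) (.d (nat_lit 401) (nat_lit 369) (nat_lit 6512) (nat_lit 433) (nat_lit 6544)))) (.a (.f (nat_lit 527) (nat_lit 559) (nat_lit 5551) (.f (nat_lit 495) (nat_lit 400) (nat_lit 5519) (.d (nat_lit 493) (nat_lit 465) (nat_lit 2509) (nat_lit 492) (nat_lit 492)))) (.f (nat_lit 431) (nat_lit 399) (nat_lit 7567) (.f (nat_lit 433) (nat_lit 401) (nat_lit 6544) (.f (nat_lit 430) (nat_lit 461) (nat_lit 1453) (.d (nat_lit 465) (nat_lit 429) (nat_lit 429) (nat_lit 466) (nat_lit 430)))))))) (.a s19774 (.p (nat_lit 529) (.a (.f (nat_lit 432) (nat_lit 561) (nat_lit 4528) (.f (nat_lit 433) (nat_lit 401) (nat_lit 6544) (.f (nat_lit 431) (nat_lit 399) (nat_lit 7567) (.d (nat_lit 461) (nat_lit 430) (nat_lit 1453) (nat_lit 463) (nat_lit 2477))))) (.f (nat_lit 495) (nat_lit 493) (nat_lit 493) (.d (nat_lit 530) (nat_lit 527) (nat_lit 3566) (nat_lit 531) (nat_lit 3567)))))))))))) (.a s21090 (.a s21092 (.a (.p (nat_lit 526) (.a s19686 (.a (.p (nat_lit 558) (.a (.f (nat_lit 591) (nat_lit 559) (nat_lit 4558) (.f (nat_lit 590) (nat_lit 623) (nat_lit 4590) (.d (nat_lit 461) (nat_lit 429) (nat_lit 7597) (nat_lit 493) (nat_lit 7629)))) (.a (.f (nat_lit 429) (nat_lit 461) (nat_lit 7597) (.f (nat_lit 430) (nat_lit 397) (nat_lit 7565) (.d (nat_lit 557) (nat_lit 525) (nat_lit 5549) (nat_lit 589) (nat_lit 5581)))) (.f (nat_lit 589) (nat_lit 557) (nat_lit 5581) (.f (nat_lit 590) (nat_lit 621) (nat_lit 5613) (.d (nat_lit 591) (nat_lit 559) (nat_lit 4558) (nat_lit 623) (nat_lit 4590))))))) (.a s20767 (.a (.p (nat_lit 558) (.a (.f (nat_lit 591) (nat_lit 559) (nat_lit 4558) (.f (nat_lit 590) (nat_lit 623) (nat_lit 4590) (.d (nat_lit 461) (nat_lit 429) (nat_lit 7597) (nat_lit 493) (nat_lit 7629)))) (.a (.f (nat_lit 461) (nat_lit 429) (nat_lit 7597) (.f (nat_lit 590) (nat_lit 493) (nat_lit 7629) (.d (nat_lit 589) (nat_lit 557) (nat_lit 5581) (nat_lit 621) (nat_lit 5613)))) (.f (nat_lit 559) (nat_lit 591) (nat_lit 4558) (.f (nat_lit 527) (nat_lit 430) (nat_lit 4526) (.d (nat_lit 557) (nat_lit 556) (nat_lit 2572) (nat_lit 589) (nat_lit 5581))))))) (.a (.p (nat_lit 527) (.a (.f (nat_lit 559) (nat_lit 430) (nat_lit 4526) (.d (nat_lit 591) (nat_lit 495) (nat_lit 7630) (nat_lit 623) (nat_lit 6639))) (.f (nat_lit 493) (nat_lit 529) (nat_lit 3565) (.d (nat_lit 492) (nat_lit 491) (nat_lit 491) (nat_lit 525) (nat_lit 3564))))) (.a s21088 (.p (nat_lit 558) (.a (.f (nat_lit 591) (nat_lit 559) (nat_lit 4558) (.f (nat_lit 590) (nat_lit 623) (nat_lit 4590) (.d (nat_lit 461) (nat_lit 429) (nat_lit 7597) (nat_lit 493) (nat_lit 7629)))) (.f (nat_lit 557) (nat_lit 589) (nat_lit 5581) (.f (nat_lit 527) (nat_lit 529) (nat_lit 1549) (.d (nat_lit 556) (nat_lit 525) (nat_lit 1548) (nat_lit 555) (nat_lit 2571))))))))))))) (.a (.p (nat_lit 526) (.a s19815 (.a (.p (nat_lit 527) (.a (.f (nat_lit 430) (nat_lit 559) (nat_lit 4526) (.f (nat_lit 397) (nat_lit 429) (nat_lit 7565) (.f (nat_lit 398) (nat_lit 365) (nat_lit 7533) (.d (nat_lit 399) (nat_lit 367) (nat_lit 6510) (nat_lit 431) (nat_lit 6542))))) (.f (nat_lit 493) (nat_lit 529) (nat_lit 3565) (.d (nat_lit 492) (nat_lit 491) (nat_lit 491) (nat_lit 495) (nat_lit 492))))) (.a s20769 (.a s21087 (.a s21091 (.p (nat_lit 558) (.a (.f (nat_lit 557) (nat_lit 589) (nat_lit 5581) (.f (nat_lit 527) (nat_lit 529) (nat_lit 1549) (.d (nat_lit 556) (nat_lit 525) (nat_lit 1548) (nat_lit 555) (nat_lit 2571)))) (.a (.f (nat_lit 463) (nat_lit 431) (nat_lit 6574) (.f (nat_lit 590) (nat_lit 495) (nat_lit 6606) (.d (nat_lit 589) (nat_lit 557) (nat_lit 5581) (nat_lit 621) (nat_lit 5613)))) (.f (nat_lit 463) (nat_lit 431) (nat_lit 6574) (.f (nat_lit 495) (nat_lit 590) (nat_lit 6606) (.f (nat_lit 493) (nat_lit 529) (nat_lit 493) (.d (nat_lit 464) (nat_lit 465) (nat_lit 1485) (nat_lit 492) (nat_lit 2508)))))))))))))) (.a (.p (nat_lit 464) (.a (.p (nat_lit 493) (.a (.d (nat_lit 465) (nat_lit 463) (nat_lit 1485) (nat_lit 495) (nat_lit 2509)) (.a (.f (nat_lit 463) (nat_lit 465) (nat_lit 1485) (.d (nat_lit 492) (nat_lit 461) (nat_lit 1484) (nat_lit 491) (nat_lit 2507))) (.a (.d (nat_lit 495) (nat_lit 465) (nat_lit 2509) (nat_lit 529) (nat_lit 493)) (.f (nat_lit 495) (nat_lit 529) (nat_lit 493) (.d (nat_lit 492) (nat_lit 463) (nat_lit 2508) (nat_lit 527) (nat_lit 492))))))) (.a (.p (nat_lit 432) (.a (.f (nat_lit 399) (nat_lit 431) (nat_lit 7567) (.f (nat_lit 400) (nat_lit 367) (nat_lit 7535) (.d (nat_lit 401) (nat_lit 369) (nat_lit 6512) (nat_lit 433) (nat_lit 6544)))) (.a (.f (nat_lit 433) (nat_lit 401) (nat_lit 6544) (.f (nat_lit 463) (nat_lit 461) (nat_lit 2477) (.d (nat_lit 434) (nat_lit 435) (nat_lit 1455) (nat_lit 465) (nat_lit 2478)))) (.f (nat_lit 527) (nat_lit 559) (nat_lit 5551) (.f (nat_lit 495) (nat_lit 400) (nat_lit 5519) (.d (nat_lit 493) (nat_lit 465) (nat_lit 2509) (nat_lit 492) (nat_lit 492))))))) (.a (.p (nat_lit 493) (.a (.d (nat_lit 465) (nat_lit 463) (nat_lit 1485) (nat_lit 495) (nat_lit 2509)) (.a (.f (nat_lit 463) (nat_lit 465) (nat_lit 1485) (.d (nat_lit 492) (nat_lit 461) (nat_lit 1484) (nat_lit 491) (nat_lit 2507))) (.a (.d (nat_lit 495) (nat_lit 465) (nat_lit 2509) (nat_lit 529) (nat_lit 493)) (.f (nat_lit 495) (nat_lit 529) (nat_lit 493) (.f (nat_lit 463) (nat_lit 492) (nat_lit 2508) (.f (nat_lit 461) (nat_lit 460) (nat_lit 460) (.f (nat_lit 429) (nat_lit 428) (nat_lit 3500) (.d (nat_lit 397) (nat_lit 365) (nat_lit 4461) (nat_lit 526) (nat_lit 4493)))))))))) (.a (.p (nat_lit 432) (.a (.f (nat_lit 399) (nat_lit 431) (nat_lit 7567) (.f (nat_lit 400) (nat_lit 367) (nat_lit 7535) (.d (nat_lit 401) (nat_lit 369) (nat_lit 6512) (nat_lit 433) (nat_lit 6544)))) (.a (.f (nat_lit 433) (nat_lit 401) (nat_lit 6544) (.f (nat_lit 463) (nat_lit 461) (nat_lit 2477) (.d (nat_lit 434) (nat_lit 435) (nat_lit 1455) (nat_lit 465) (nat_lit 2478)))) (.f (nat_lit 431) (nat_lit 399) (nat_lit 7567) (.f (nat_lit 527) (nat_lit 559) (nat_lit 5551) (.f (nat_lit 529) (nat_lit 561) (nat_lit 4528) (.f (nat_lit 526) (nat_lit 493) (nat_lit 3565) (.d (nat_lit 558) (nat_lit 463) (nat_lit 6574) (nat_lit 557) (nat_lit 1549))))))))) (.a (.p (nat_lit 432) (.a (.f (nat_lit 399) (nat_lit 431) (nat_lit 7567) (.f (nat_lit 400) (nat_lit 367) (nat_lit 7535) (.d (nat_lit 401) (nat_lit 369) (nat_lit 6512) (nat_lit 433) (nat_lit 6544)))) (.a (.f (nat_lit 433) (nat_lit 401) (nat_lit 6544) (.f (nat_lit 463) (nat_lit 461) (nat_lit 2477) (.d (nat_lit 434) (nat_lit 435) (nat_lit 1455) (nat_lit 465) (nat_lit 2478)))) (.f (nat_lit 399) (nat_lit 431) (nat_lit 7567) (.f (nat_lit 400) (nat_lit 367) (nat_lit 7535) (.d (nat_lit 527) (nat_lit 495) (nat_lit 5519) (nat_lit 559) (nat_lit 5551))))))) (.p (nat_lit 529) (.a (.f (nat_lit 495) (nat_lit 493) (nat_lit 493) (.d (nat_lit 530) (nat_lit 527) (nat_lit 3566) (nat_lit 531) (nat_lit 3567))) (.f (nat_lit 432) (nat_lit 561) (nat_lit 4528) (.f (nat_lit 399) (nat_lit 431) (nat_lit 7567) (.f (nat_lit 400) (nat_lit 367) (nat_lit 7535) (.d (nat_lit 401) (nat_lit 369) (nat_lit 6512) (nat_lit 433) (nat_lit 6544))))))))))))) (.p (nat_lit 526) (.a s19554 (.a s20769 (.a s19619 (.a (.p (nat_lit 527) (.a (.f (nat_lit 559) (nat_lit 430) (nat_lit 4526) (.d (nat_lit 591) (nat_lit 495) (nat_lit 7630) (nat_lit 623) (nat_lit 6639))) (.f (nat_lit 493) (nat_lit 529) (nat_lit 3565) (.d (nat_lit 492) (nat_lit 491) (nat_lit 491) (nat_lit 525) (nat_lit 3564))))) (.a s21089 (.p (nat_lit 558) (.a (.f (nat_lit 557) (nat_lit 589) (nat_lit 5581) (.f (nat_lit 527) (nat_lit 529) (nat_lit 1549) (.d (nat_lit 556) (nat_lit 525) (nat_lit 1548) (nat_lit 555) (nat_lit 2571)))) (.a (.f (nat_lit 463) (nat_lit 431) (nat_lit 6574) (.f (nat_lit 590) (nat_lit 495) (nat_lit 6606) (.d (nat_lit 589) (nat_lit 557) (nat_lit 5581) (nat_lit 621) (nat_lit 5613)))) (.f (nat_lit 463) (nat_lit 431) (nat_lit 6574) (.f (nat_lit 495) (nat_lit 590) (nat_lit 6606) (.f (nat_lit 493) (nat_lit 529) (nat_lit 493) (.d (nat_lit 464) (nat_lit 465) (nat_lit 1485) (nat_lit 492) (nat_lit 2508)))))))))))))))))))))))))) (.a (.p (nat_lit 526) (.a s19691 (.a (.p (nat_lit 494) (.a (.p (nat_lit 558) (.a (.f (nat_lit 557) (nat_lit 589) (nat_lit 5581) (.f (nat_lit 525) (nat_lit 430) (nat_lit 5549) (.d (nat_lit 527) (nat_lit 497) (nat_lit 2541) (nat_lit 556) (nat_lit 1548)))) (.a (.f (nat_lit 429) (nat_lit 461) (nat_lit 7597) (.f (nat_lit 430) (nat_lit 397) (nat_lit 7565) (.d (nat_lit 431) (nat_lit 399) (nat_lit 6542) (nat_lit 463) (nat_lit 6574)))) (.f (nat_lit 589) (nat_lit 557) (nat_lit 5581) (.f (nat_lit 590) (nat_lit 621) (nat_lit 5613) (.d (nat_lit 591) (nat_lit 559) (nat_lit 4558) (nat_lit 623) (nat_lit 4590))))))) (.a (.p (nat_lit 558) (.a (.f (nat_lit 429) (nat_lit 461) (nat_lit 7597) (.f (nat_lit 430) (nat_lit 397) (nat_lit 7565) (.d (nat_lit 431) (nat_lit 399) (nat_lit 6542) (nat_lit 463) (nat_lit 6574)))) (.f (nat_lit 589) (nat_lit 557) (nat_lit 5581) (.f (nat_lit 590) (nat_lit 621) (nat_lit 5613) (.d (nat_lit 591) (nat_lit 559) (nat_lit 4558) (nat_lit 623) (nat_lit 4590)))))) (.a s19726 (.a (.p (nat_lit 430) (.a (.f (nat_lit 399) (nat_lit 431) (nat_lit 6542) (.f (nat_lit 398) (nat_lit 367) (nat_lit 6510) (.d (nat_lit 397) (nat_lit 365) (nat_lit 7533) (nat_lit 429) (nat_lit 7565)))) (.f (nat_lit 527) (nat_lit 559) (nat_lit 4526) (.d (nat_lit 525) (nat_lit 497) (nat_lit 2541) (nat_lit 557) (nat_lit 5549))))) (.a s19820 (.a (.p (nat_lit 558) (.a (.f (nat_lit 557) (nat_lit 589) (nat_lit 5581) (.f (nat_lit 525) (nat_lit 430) (nat_lit 5549) (.d (nat_lit 527) (nat_lit 497) (nat_lit 2541) (nat_lit 556) (nat_lit 1548)))) (.a (.f (nat_lit 589) (nat_lit 557) (nat_lit 5581) (.f (nat_lit 590) (nat_lit 621) (nat_lit 5613) (.d (nat_lit 591) (nat_lit 559) (nat_lit 4558) (nat_lit 623) (nat_lit 4590)))) (.f (nat_lit 559) (nat_lit 591) (nat_lit 4558) (.f (nat_lit 527) (nat_lit 430) (nat_lit 4526) (.f (nat_lit 525) (nat_lit 497) (nat_lit 2541) (.d (nat_lit 524) (nat_lit 495) (nat_lit 2540) (nat_lit 523) (nat_lit 523)))))))) (.p (nat_lit 558) (.a (.f (nat_lit 461) (nat_lit 429) (nat_lit 7597) (.f (nat_lit 495) (nat_lit 497) (nat_lit 3533) (.d (nat_lit 460) (nat_lit 459) (nat_lit 459) (nat_lit 463) (nat_lit 460)))) (.f (nat_lit 589) (nat_lit 557) (nat_lit 5581) (.f (nat_lit 590) (nat_lit 621) (nat_lit 5613) (.d (nat_lit 591) (nat_lit 559) (nat_lit 4558) (nat_lit 623) (nat_lit 4590))))))))))))) (.a (.p (nat_lit 464) (.a (.p (nat_lit 432) (.a (.f (nat_lit 433) (nat_lit 401) (nat_lit 6544) (.f (nat_lit 463) (nat_lit 461) (nat_lit 2477) (.d (nat_lit 431) (nat_lit 399) (nat_lit 7567) (nat_lit 434) (nat_lit 1454)))) (.a (.f (nat_lit 529) (nat_lit 561) (nat_lit 4528) (.f (nat_lit 400) (nat_lit 497) (nat_lit 4496) (.d (nat_lit 399) (nat_lit 367) (nat_lit 7535) (nat_lit 431) (nat_lit 7567)))) (.f (nat_lit 529) (nat_lit 561) (nat_lit 4528) (.f (nat_lit 400) (nat_lit 497) (nat_lit 4496) (.d (nat_lit 401) (nat_lit 369) (nat_lit 6512) (nat_lit 433) (nat_lit 6544))))))) (.a (.p (nat_lit 432) (.a (.f (nat_lit 433) (nat_lit 401) (nat_lit 6544) (.f (nat_lit 463) (nat_lit 461) (nat_lit 2477) (.d (nat_lit 431) (nat_lit 399) (nat_lit 7567) (nat_lit 434) (nat_lit 1454)))) (.a (.f (nat_lit 401) (nat_lit 433) (nat_lit 6544) (.f (nat_lit 400) (nat_lit 369) (nat_lit 6512) (.d (nat_lit 399) (nat_lit 367) (nat_lit 7535) (nat_lit 431) (nat_lit 7567)))) (.a (.f (nat_lit 433) (nat_lit 401) (nat_lit 6544) (.f (nat_lit 463) (nat_lit 461) (nat_lit 2477) (.d (nat_lit 434) (nat_lit 435) (nat_lit 1455) (nat_lit 465) (nat_lit 2478)))) (.a (.f (nat_lit 399) (nat_lit 431) (nat_lit 7567) (.f (nat_lit 400) (nat_lit 367) (nat_lit 7535) (.f (nat_lit 369) (nat_lit 401) (nat_lit 6512) (.f (nat_lit 368) (nat_lit 337) (nat_lit 6480) (.f (nat_lit 463) (nat_lit 495) (nat_lit 5487) (.d (nat_lit 497) (nat_lit 461) (nat_lit 461) (nat_lit 465) (nat_lit 4464))))))) (.p (nat_lit 463) (.a (.d (nat_lit 461) (nat_lit 433) (nat_lit 2477) (nat_lit 497) (nat_lit 461)) (.a (.f (nat_lit 431) (nat_lit 399) (nat_lit 7567) (.d (nat_lit 433) (nat_lit 434) (nat_lit 1454) (nat_lit 461) (nat_lit 2477))) (.a (.f (nat_lit 431) (nat_lit 399) (nat_lit 7567) (.d (nat_lit 461) (nat_lit 460) (nat_lit 2476) (nat_lit 497) (nat_lit 461))) (.f (nat_lit 399) (nat_lit 431) (nat_lit 7567) (.f (nat_lit 400) (nat_lit 367) (nat_lit 7535) (.f (nat_lit 368) (nat_lit 495) (nat_lit 5487) (.f (nat_lit 465) (nat_lit 497) (nat_lit 4464) (.d (nat_lit 433) (nat_lit 336) (nat_lit 4432) (nat_lit 434) (nat_lit 2478))))))))))))))) (.a (.p (nat_lit 463) (.a (.f (nat_lit 461) (nat_lit 497) (nat_lit 461) (.f (nat_lit 460) (nat_lit 495) (nat_lit 460) (.d (nat_lit 428) (nat_lit 427) (nat_lit 3499) (nat_lit 429) (nat_lit 3500)))) (.a (.f (nat_lit 461) (nat_lit 497) (nat_lit 461) (.f (nat_lit 429) (nat_lit 428) (nat_lit 3500) (.f (nat_lit 494) (nat_lit 558) (nat_lit 7597) (.d (nat_lit 397) (nat_lit 365) (nat_lit 4461) (nat_lit 430) (nat_lit 7565))))) (.a (.p (nat_lit 461) (.a (.f (nat_lit 429) (nat_lit 428) (nat_lit 3500) (.f (nat_lit 494) (nat_lit 558) (nat_lit 7597) (.d (nat_lit 397) (nat_lit 365) (nat_lit 4461) (nat_lit 430) (nat_lit 7565)))) (.a (.f (nat_lit 460) (nat_lit 495) (nat_lit 460) (.d (nat_lit 428) (nat_lit 427) (nat_lit 3499) (nat_lit 429) (nat_lit 3500))) (.a (.f (nat_lit 460) (nat_lit 495) (nat_lit 460) (.f (nat_lit 427) (nat_lit 428) (nat_lit 3499) (.f (nat_lit 459) (nat_lit 426) (nat_lit 3498) (.d (nat_lit 491) (nat_lit 490) (nat_lit 1482) (nat_lit 492) (nat_lit 1483))))) (.f (nat_lit 460) (nat_lit 495) (nat_lit 460) (.f (nat_lit 491) (nat_lit 492) (nat_lit 1483) (.f (nat_lit 459) (nat_lit 490) (nat_lit 1482) (.f (nat_lit 430) (nat_lit 431) (nat_lit 2475) (.d (nat_lit 429) (nat_lit 458) (nat_lit 2474) (nat_lit 465) (nat_lit 3501)))))))))) (.a (.p (nat_lit 465) (.a (.f (nat_lit 433) (nat_lit 434) (nat_lit 2478) (.d (nat_lit 401) (nat_lit 369) (nat_lit 5488) (nat_lit 497) (nat_lit 5520))) (.f (nat_lit 430) (nat_lit 429) (nat_lit 3501) (.f (nat_lit 431) (nat_lit 466) (nat_lit 3502) (.d (nat_lit 399) (nat_lit 367) (nat_lit 4463) (nat_lit 495) (nat_lit 4495)))))) (.f (nat_lit 461) (nat_lit 497) (nat_lit 461) (.f (nat_lit 460) (nat_lit 495) (nat_lit 460) (.f (nat_lit 427) (nat_lit 428) (nat_lit 3499) (.f (nat_lit 459) (nat_lit 426) (nat_lit 3498) (.d (nat_lit 491) (nat_lit 490) (nat_lit 1482) (nat_lit 492) (nat_lit 1483))))))))))) (.a (.p (nat_lit 494) (.a (.p (nat_lit 558) (.a (.f (nat_lit 429) (nat_lit 461) (nat_lit 7597) (.f (nat_lit 430) (nat_lit 397) (nat_lit 7565) (.d (nat_lit 557) (nat_lit 525) (nat_lit 5549) (nat_lit 589) (nat_lit 5581)))) (.a (.f (nat_lit 431) (nat_lit 463) (nat_lit 6574) (.d (nat_lit 399) (nat_lit 430) (nat_lit 6542) (nat_lit 432) (nat_lit 7567))) (.f (nat_lit 589) (nat_lit 557) (nat_lit 5581) (.f (nat_lit 590) (nat_lit 621) (nat_lit 5613) (.d (nat_lit 591) (nat_lit 559) (nat_lit 4558) (nat_lit 623) (nat_lit 4590))))))) (.a s20000 (.a (.p (nat_lit 558) (.a (.f (nat_lit 429) (nat_lit 461) (nat_lit 7597) (.f (nat_lit 430) (nat_lit 397) (nat_lit 7565) (.d (nat_lit 557) (nat_lit 525) (nat_lit 5549) (nat_lit 589) (nat_lit 5581)))) (.a (.f (nat_lit 589) (nat_lit 557) (nat_lit 5581) (.f (nat_lit 590) (nat_lit 621) (nat_lit 5613) (.d (nat_lit 591) (nat_lit 559) (nat_lit 4558) (nat_lit 623) (nat_lit 4590)))) (.f (nat_lit 463) (nat_lit 431) (nat_lit 6574) (.f (nat_lit 429) (nat_lit 461) (nat_lit 7597) (.d (nat_lit 430) (nat_lit 397) (nat_lit 7565) (nat_lit 465) (nat_lit 3501))))))) (.a s20136 (.a s20142 (.a (.p (nat_lit 558) (.a (.f (nat_lit 431) (nat_lit 463) (nat_lit 6574) (.d (nat_lit 399) (nat_lit 430) (nat_lit 6542) (nat_lit 432) (nat_lit 7567))) (.a (.f (nat_lit 557) (nat_lit 589) (nat_lit 5581) (.f (nat_lit 430) (nat_lit 525) (nat_lit 5549) (.f (nat_lit 399) (nat_lit 431) (nat_lit 6542) (.f (nat_lit 398) (nat_lit 367) (nat_lit 6510) (.d (nat_lit 397) (nat_lit 365) (nat_lit 7533) (nat_lit 429) (nat_lit 7565)))))) (.f (nat_lit 589) (nat_lit 557) (nat_lit 5581) (.f (nat_lit 590) (nat_lit 621) (nat_lit 5613) (.d (nat_lit 591) (nat_lit 559) (nat_lit 4558) (nat_lit 623) (nat_lit 4590))))))) (.a s20152 (.p (nat_lit 558) (.a (.f (nat_lit 431) (nat_lit 463) (nat_lit 6574) (.d (nat_lit 399) (nat_lit 430) (nat_lit 6542) (nat_lit 432) (nat_lit 7567))) (.f (nat_lit 589) (nat_lit 557) (nat_lit 5581) (.f (nat_lit 590) (nat_lit 621) (nat_lit 5613) (.d (nat_lit 591) (nat_lit 559) (nat_lit 4558) (nat_lit 623) (nat_lit 4590)))))))))))))) (.a s20663 (.a (.p (nat_lit 432) (.a (.f (nat_lit 529) (nat_lit 561) (nat_lit 4528) (.f (nat_lit 400) (nat_lit 497) (nat_lit 4496) (.d (nat_lit 401) (nat_lit 369) (nat_lit 6512) (nat_lit 433) (nat_lit 6544)))) (.a (.f (nat_lit 433) (nat_lit 401) (nat_lit 6544) (.f (nat_lit 463) (nat_lit 461) (nat_lit 2477) (.d (nat_lit 434) (nat_lit 435) (nat_lit 1455) (nat_lit 465) (nat_lit 2478)))) (.a (.f (nat_lit 529) (nat_lit 561) (nat_lit 4528) (.f (nat_lit 400) (nat_lit 497) (nat_lit 4496) (.f (nat_lit 367) (nat_lit 399) (nat_lit 7535) (.f (nat_lit 368) (nat_lit 335) (nat_lit 7503) (.d (nat_lit 369) (nat_lit 337) (nat_lit 6480) (nat_lit 401) (nat_lit 6512)))))) (.f (nat_lit 529) (nat_lit 561) (nat_lit 4528) (.f (nat_lit 497) (nat_lit 400) (nat_lit 4496) (.f (nat_lit 461) (nat_lit 463) (nat_lit 461) (.f (nat_lit 494) (nat_lit 495) (nat_lit 3533) (.f (nat_lit 558) (nat_lit 429) (nat_lit 7597) (.f (nat_lit 589) (nat_lit 557) (nat_lit 5581) (.f (nat_lit 590) (nat_lit 621) (nat_lit 5613) (.d (nat_lit 591) (nat_lit 559) (nat_lit 4558) (nat_lit 623) (nat_lit 4590))))))))))))) (.a (.p (nat_lit 494) (.a (.p (nat_lit 558) (.a (.f (nat_lit 463) (nat_lit 431) (nat_lit 6574) (.d (nat_lit 461) (nat_lit 429) (nat_lit 7597) (nat_lit 497) (nat_lit 461))) (.a (.f (nat_lit 429) (nat_lit 461) (nat_lit 7597) (.f (nat_lit 430) (nat_lit 397) (nat_lit 7565) (.d (nat_lit 557) (nat_lit 525) (nat_lit 5549) (nat_lit 589) (nat_lit 5581)))) (.f (nat_lit 431) (nat_lit 463) (nat_lit 6574) (.d (nat_lit 399) (nat_lit 430) (nat_lit 6542) (nat_lit 432) (nat_lit 7567)))))) (.a (.p (nat_lit 558) (.a (.f (nat_lit 463) (nat_lit 431) (nat_lit 6574) (.d (nat_lit 461) (nat_lit 429) (nat_lit 7597) (nat_lit 497) (nat_lit 461))) (.f (nat_lit 589) (nat_lit 557) (nat_lit 5581) (.f (nat_lit 590) (nat_lit 621) (nat_lit 5613) (.d (nat_lit 591) (nat_lit 559) (nat_lit 4558) (nat_lit 623) (nat_lit 4590)))))) (.a s20182 (.a (.p (nat_lit 558) (.a (.f (nat_lit 429) (nat_lit 461) (nat_lit 7597) (.f (nat_lit 430) (nat_lit 397) (nat_lit 7565) (.d (nat_lit 557) (nat_lit 525) (nat_lit 5549) (nat_lit 589) (nat_lit 5581)))) (.a (.f (nat_lit 431) (nat_lit 463) (nat_lit 6574) (.d (nat_lit 399) (nat_lit 430) (nat_lit 6542) (nat_lit 432) (nat_lit 7567))) (.f (nat_lit 589) (nat_lit 557) (nat_lit 5581) (.f (nat_lit 590) (nat_lit 621) (nat_lit 5613) (.d (nat_lit 591) (nat_lit 559) (nat_lit 4558) (nat_lit 623) (nat_lit 4590))))))) (.a s20189 (.a s20190 (.a (.p (nat_lit 558) (.a (.f (nat_lit 429) (nat_lit 461) (nat_lit 7597) (.f (nat_lit 430) (nat_lit 397) (nat_lit 7565) (.d (nat_lit 557) (nat_lit 525) (nat_lit 5549) (nat_lit 589) (nat_lit 5581)))) (.a (.f (nat_lit 589) (nat_lit 557) (nat_lit 5581) (.f (nat_lit 590) (nat_lit 621) (nat_lit 5613) (.d (nat_lit 591) (nat_lit 559) (nat_lit 4558) (nat_lit 623) (nat_lit 4590)))) (.f (nat_lit 461) (nat_lit 429) (nat_lit 7597) (.d (nat_lit 497) (nat_lit 463) (nat_lit 461) (nat_lit 495) (nat_lit 3533)))))) (.a (.p (nat_lit 558) (.a (.f (nat_lit 431) (nat_lit 463) (nat_lit 6574) (.d (nat_lit 399) (nat_lit 430) (nat_lit 6542) (nat_lit 432) (nat_lit 7567))) (.a (.f (nat_lit 557) (nat_lit 589) (nat_lit 5581) (.f (nat_lit 430) (nat_lit 525) (nat_lit 5549) (.f (nat_lit 399) (nat_lit 431) (nat_lit 6542) (.f (nat_lit 398) (nat_lit 367) (nat_lit 6510) (.d (nat_lit 397) (nat_lit 365) (nat_lit 7533) (nat_lit 429) (nat_lit 7565)))))) (.f (nat_lit 589) (nat_lit 557) (nat_lit 5581) (.f (nat_lit 590) (nat_lit 621) (nat_lit 5613) (.d (nat_lit 591) (nat_lit 559) (nat_lit 4558) (nat_lit 623) (nat_lit 4590))))))) (.p (nat_lit 558) (.a (.f (nat_lit 431) (nat_lit 463) (nat_lit 6574) (.d (nat_lit 399) (nat_lit 430) (nat_lit 6542) (nat_lit 432) (nat_lit 7567))) (.f (nat_lit 589) (nat_lit 557) (nat_lit 5581) (.f (nat_lit 590) (nat_lit 621) (nat_lit 5613) (.d (nat_lit 591) (nat_lit 559) (nat_lit 4558) (nat_lit 623) (nat_lit 4590))))))))))))))) (.a (.p (nat_lit 432) (.a (.f (nat_lit 529) (nat_lit 561) (nat_lit 4528) (.f (nat_lit 400) (nat_lit 497) (nat_lit 4496) (.d (nat_lit 401) (nat_lit 369) (nat_lit 6512) (nat_lit 433) (nat_lit 6544)))) (.a (.f (nat_lit 433) (nat_lit 401) (nat_lit 6544) (.f (nat_lit 463) (nat_lit 461) (nat_lit 2477) (.d (nat_lit 434) (nat_lit 435) (nat_lit 1455) (nat_lit 465) (nat_lit 2478)))) (.f (nat_lit 529) (nat_lit 561) (nat_lit 4528) (.f (nat_lit 497) (nat_lit 400) (nat_lit 4496) (.f (nat_lit 461) (nat_lit 463) (nat_lit 461) (.f (nat_lit 494) (nat_lit 495) (nat_lit 3533) (.f (nat_lit 558) (nat_lit 429) (nat_lit 7597) (.f (nat_lit 589) (nat_lit 557) (nat_lit 5581) (.f (nat_lit 590) (nat_lit 621) (nat_lit 5613) (.d (nat_lit 591) (nat_lit 559) (nat_lit 4558) (nat_lit 623) (nat_lit 4590)))))))))))) (.a s20726 (.p (nat_lit 494) (.a (.p (nat_lit 558) (.a (.f (nat_lit 463) (nat_lit 431) (nat_lit 6574) (.d (nat_lit 461) (nat_lit 429) (nat_lit 7597) (nat_lit 497) (nat_lit 461))) (.a (.f (nat_lit 429) (nat_lit 461) (nat_lit 7597) (.f (nat_lit 430) (nat_lit 397) (nat_lit 7565) (.d (nat_lit 557) (nat_lit 525) (nat_lit 5549) (nat_lit 589) (nat_lit 5581)))) (.f (nat_lit 431) (nat_lit 463) (nat_lit 6574) (.d (nat_lit 399) (nat_lit 430) (nat_lit 6542) (nat_lit 432) (nat_lit 7567)))))) (.a (.p (nat_lit 558) (.a (.f (nat_lit 463) (nat_lit 431) (nat_lit 6574) (.d (nat_lit 461) (nat_lit 429) (nat_lit 7597) (nat_lit 497) (nat_lit 461))) (.f (nat_lit 589) (nat_lit 557) (nat_lit 5581) (.f (nat_lit 590) (nat_lit 621) (nat_lit 5613) (.d (nat_lit 591) (nat_lit 559) (nat_lit 4558) (nat_lit 623) (nat_lit 4590)))))) (.a s20182 (.a (.p (nat_lit 558) (.a (.f (nat_lit 429) (nat_lit 461) (nat_lit 7597) (.f (nat_lit 430) (nat_lit 397) (nat_lit 7565) (.d (nat_lit 557) (nat_lit 525) (nat_lit 5549) (nat_lit 589) (nat_lit 5581)))) (.a (.f (nat_lit 431) (nat_lit 463) (nat_lit 6574) (.d (nat_lit 399) (nat_lit 430) (nat_lit 6542) (nat_lit 432) (nat_lit 7567))) (.f (nat_lit 589) (nat_lit 557) (nat_lit 5581) (.f (nat_lit 590) (nat_lit 621) (nat_lit 5613) (.d (nat_lit 591) (nat_lit 559) (nat_lit 4558) (nat_lit 623) (nat_lit 4590))))))) (.a s20209 (.a s20210 (.a (.p (nat_lit 558) (.a (.f (nat_lit 429) (nat_lit 461) (nat_lit 7597) (.f (nat_lit 430) (nat_lit 397) (nat_lit 7565) (.d (nat_lit 557) (nat_lit 525) (nat_lit 5549) (nat_lit 589) (nat_lit 5581)))) (.a (.f (nat_lit 589) (nat_lit 557) (nat_lit 5581) (.f (nat_lit 590) (nat_lit 621) (nat_lit 5613) (.d (nat_lit 591) (nat_lit 559) (nat_lit 4558) (nat_lit 623) (nat_lit 4590)))) (.f (nat_lit 461) (nat_lit 429) (nat_lit 7597) (.d (nat_lit 497) (nat_lit 463) (nat_lit 461) (nat_lit 495) (nat_lit 3533)))))) (.a (.p (nat_lit 558) (.a (.f (nat_lit 431) (nat_lit 463) (nat_lit 6574) (.d (nat_lit 399) (nat_lit 430) (nat_lit 6542) (nat_lit 432) (nat_lit 7567))) (.a (.f (nat_lit 557) (nat_lit 589) (nat_lit 5581) (.f (nat_lit 430) (nat_lit 525) (nat_lit 5549) (.f (nat_lit 399) (nat_lit 431) (nat_lit 6542) (.f (nat_lit 398) (nat_lit 367) (nat_lit 6510) (.d (nat_lit 397) (nat_lit 365) (nat_lit 7533) (nat_lit 429) (nat_lit 7565)))))) (.f (nat_lit 589) (nat_lit 557) (nat_lit 5581) (.f (nat_lit 590) (nat_lit 621) (nat_lit 5613) (.d (nat_lit 591) (nat_lit 559) (nat_lit 4558) (nat_lit 623) (nat_lit 4590))))))) (.p (nat_lit 558) (.a (.f (nat_lit 431) (nat_lit 463) (nat_lit 6574) (.d (nat_lit 399) (nat_lit 430) (nat_lit 6542) (nat_lit 432) (nat_lit 7567))) (.f (nat_lit 589) (nat_lit 557) (nat_lit 5581) (.f (nat_lit 590) (nat_lit 621) (nat_lit 5613) (.d (nat_lit 591) (nat_lit 559) (nat_lit 4558) (nat_lit 623) (nat_lit 4590))))))))))))))))))))))))) (.a (.p (nat_lit 494) (.a (.p (nat_lit 558) (.a (.f (nat_lit 557) (nat_lit 589) (nat_lit 5581) (.f (nat_lit 525) (nat_lit 430) (nat_lit 5549) (.d (nat_lit 527) (nat_lit 497) (nat_lit 2541) (nat_lit 556) (nat_lit 1548)))) (.a (.f (nat_lit 429) (nat_lit 461) (nat_lit 7597) (.f (nat_lit 430) (nat_lit 397) (nat_lit 7565) (.d (nat_lit 431) (nat_lit 399) (nat_lit 6542) (nat_lit 463) (nat_lit 6574)))) (.f (nat_lit 589) (nat_lit 557) (nat_lit 5581) (.f (nat_lit 590) (nat_lit 621) (nat_lit 5613) (.d (nat_lit 591) (nat_lit 559) (nat_lit 4558) (nat_lit 623) (nat_lit 4590))))))) (.a (.p (nat_lit 558) (.a (.f (nat_lit 429) (nat_lit 461) (nat_lit 7597) (.f (nat_lit 430) (nat_lit 397) (nat_lit 7565) (.d (nat_lit 431) (nat_lit 399) (nat_lit 6542) (nat_lit 463) (nat_lit 6574)))) (.f (nat_lit 589) (nat_lit 557) (nat_lit 5581) (.f (nat_lit 590) (nat_lit 621) (nat_lit 5613) (.d (nat_lit 591) (nat_lit 559) (nat_lit 4558) (nat_lit 623) (nat_lit 4590)))))) (.a (.p (nat_lit 558) (.a (.f (nat_lit 557) (nat_lit 589) (nat_lit 5581) (.f (nat_lit 525) (nat_lit 430) (nat_lit 5549) (.d (nat_lit 527) (nat_lit 497) (nat_lit 2541) (nat_lit 556) (nat_lit 1548)))) (.a (.f (nat_lit 429) (nat_lit 461) (nat_lit 7597) (.f (nat_lit 430) (nat_lit 397) (nat_lit 7565) (.d (nat_lit 431) (nat_lit 399) (nat_lit 6542) (nat_lit 463) (nat_lit 6574)))) (.f (nat_lit 557) (nat_lit 589) (nat_lit 5581) (.f (nat_lit 527) (nat_lit 529) (nat_lit 1549) (.d (nat_lit 556) (nat_lit 525) (nat_lit 1548) (nat_lit 555) (nat_lit 2571))))))) (.a (.p (nat_lit 430) (.a (.f (nat_lit 399) (nat_lit 431) (nat_lit 6542) (.f (nat_lit 398) (nat_lit 367) (nat_lit 6510) (.d (nat_lit 397) (nat_lit 365) (nat_lit 7533) (nat_lit 429) (nat_lit 7565)))) (.f (nat_lit 527) (nat_lit 559) (nat_lit 4526) (.d (nat_lit 525) (nat_lit 497) (nat_lit 2541) (nat_lit 557) (nat_lit 5549))))) (.a s19703 (.a s20402 s20403))))))) (.a s20797 (.a (.p (nat_lit 494) (.a (.p (nat_lit 558) (.a (.f (nat_lit 429) (nat_lit 461) (nat_lit 7597) (.f (nat_lit 430) (nat_lit 397) (nat_lit 7565) (.d (nat_lit 431) (nat_lit 399) (nat_lit 6542) (nat_lit 463) (nat_lit 6574)))) (.f (nat_lit 589) (nat_lit 557) (nat_lit 5581) (.f (nat_lit 590) (nat_lit 621) (nat_lit 5613) (.d (nat_lit 591) (nat_lit 559) (nat_lit 4558) (nat_lit 623) (nat_lit 4590)))))) (.a s20585 (.a (.p (nat_lit 464) (.a s19892 (.a s20000 (.a (.p (nat_lit 430) (.a (.f (nat_lit 399) (nat_lit 431) (nat_lit 6542) (.f (nat_lit 398) (nat_lit 367) (nat_lit 6510) (.d (nat_lit 397) (nat_lit 365) (nat_lit 7533) (nat_lit 429) (nat_lit 7565)))) (.a (.f (nat_lit 429) (nat_lit 397) (nat_lit 7565) (.f (nat_lit 463) (nat_lit 465) (nat_lit 3501) (.d (nat_lit 428) (nat_lit 427) (nat_lit 427) (nat_lit 461) (nat_lit 3500)))) (.f (nat_lit 527) (nat_lit 559) (nat_lit 4526) (.f (nat_lit 495) (nat_lit 398) (nat_lit 4494) (.f (nat_lit 431) (nat_lit 399) (nat_lit 6542) (.f (nat_lit 461) (nat_lit 497) (nat_lit 3533) (.d (nat_lit 460) (nat_lit 459) (nat_lit 2475) (nat_lit 463) (nat_lit 460))))))))) (.a s19923 (.a (.p (nat_lit 432) (.a (.f (nat_lit 433) (nat_lit 401) (nat_lit 6544) (.f (nat_lit 463) (nat_lit 461) (nat_lit 2477) (.d (nat_lit 434) (nat_lit 435) (nat_lit 1455) (nat_lit 465) (nat_lit 2478)))) (.a (.f (nat_lit 401) (nat_lit 433) (nat_lit 6544) (.f (nat_lit 400) (nat_lit 369) (nat_lit 6512) (.d (nat_lit 529) (nat_lit 497) (nat_lit 4496) (nat_lit 561) (nat_lit 4528)))) (.a (.f (nat_lit 529) (nat_lit 561) (nat_lit 4528) (.f (nat_lit 400) (nat_lit 497) (nat_lit 4496) (.f (nat_lit 367) (nat_lit 399) (nat_lit 7535) (.f (nat_lit 368) (nat_lit 335) (nat_lit 7503) (.d (nat_lit 369) (nat_lit 337) (nat_lit 6480) (nat_lit 401) (nat_lit 6512)))))) (.f (nat_lit 529) (nat_lit 561) (nat_lit 4528) (.f (nat_lit 497) (nat_lit 400) (nat_lit 4496) (.d (nat_lit 461) (nat_lit 463) (nat_lit 461) (nat_lit 495) (nat_lit 3533)))))))) (.a (.p (nat_lit 432) (.a (.f (nat_lit 433) (nat_lit 401) (nat_lit 6544) (.f (nat_lit 463) (nat_lit 461) (nat_lit 2477) (.d (nat_lit 434) (nat_lit 435) (nat_lit 1455) (nat_lit 465) (nat_lit 2478)))) (.a (.f (nat_lit 401) (nat_lit 433) (nat_lit 6544) (.f (nat_lit 400) (nat_lit 369) (nat_lit 6512) (.d (nat_lit 529) (nat_lit 497) (nat_lit 4496) (nat_lit 561) (nat_lit 4528)))) (.f (nat_lit 529) (nat_lit 561) (nat_lit 4528) (.f (nat_lit 497) (nat_lit 400) (nat_lit 4496) (.d (nat_lit 461) (nat_lit 463) (nat_lit 461) (nat_lit 495) (nat_lit 3533))))))) s19964))))))) (.a (.p (nat_lit 558) (.a (.f (nat_lit 559) (nat_lit 591) (nat_lit 4558) (.f (nat_lit 527) (nat_lit 430) (nat_lit 4526) (.d (nat_lit 557) (nat_lit 556) (nat_lit 2572) (nat_lit 589) (nat_lit 5581)))) (.a (.f (nat_lit 589) (nat_lit 557) (nat_lit 5581) (.f (nat_lit 590) (nat_lit 621) (nat_lit 5613) (.d (nat_lit 591) (nat_lit 559) (nat_lit 4558) (nat_lit 623) (nat_lit 4590)))) (.a (.f (nat_lit 461) (nat_lit 429) (nat_lit 7597) (.f (nat_lit 495) (nat_lit 497) (nat_lit 3533) (.f (nat_lit 589) (nat_lit 557) (nat_lit 5581) (.f (nat_lit 590) (nat_lit 621) (nat_lit 5613) (.f (nat_lit 527) (nat_lit 622) (nat_lit 6638) (.f (nat_lit 529) (nat_lit 530) (nat_lit 3566) (.f (nat_lit 430) (nat_lit 398) (nat_lit 4494) (.f (nat_lit 431) (nat_lit 399) (nat_lit 6542) (.f (nat_lit 432) (nat_lit 433) (nat_lit 1453) (.d (nat_lit 464) (nat_lit 400) (nat_lit 5519) (nat_lit 561) (nat_lit 4528))))))))))) (.f (nat_lit 559) (nat_lit 591) (nat_lit 4558) (.f (nat_lit 527) (nat_lit 430) (nat_lit 4526) (.f (nat_lit 529) (nat_lit 530) (nat_lit 1550) (.f (nat_lit 464) (nat_lit 432) (nat_lit 5551) (.f (nat_lit 561) (nat_lit 562) (nat_lit 526) (.d (nat_lit 593) (nat_lit 497) (nat_lit 7632) (nat_lit 625) (nat_lit 7664))))))))))) (.a (.p (nat_lit 558) (.a (.f (nat_lit 461) (nat_lit 429) (nat_lit 7597) (.f (nat_lit 495) (nat_lit 497) (nat_lit 3533) (.d (nat_lit 460) (nat_lit 459) (nat_lit 459) (nat_lit 463) (nat_lit 460)))) (.f (nat_lit 589) (nat_lit 557) (nat_lit 5581) (.f (nat_lit 590) (nat_lit 621) (nat_lit 5613) (.d (nat_lit 591) (nat_lit 559) (nat_lit 4558) (nat_lit 623) (nat_lit 4590)))))) (.p (nat_lit 558) (.a (.f (nat_lit 559) (nat_lit 591) (nat_lit 4558) (.f (nat_lit 527) (nat_lit 430) (nat_lit 4526) (.d (nat_lit 557) (nat_lit 556) (nat_lit 2572) (nat_lit 589) (nat_lit 5581)))) (.a (.f (nat_lit 463) (nat_lit 431) (nat_lit 6574) (.f (nat_lit 590) (nat_lit 495) (nat_lit 6606) (.d (nat_lit 589) (nat_lit 557) (nat_lit 5581) (nat_lit 621) (nat_lit 5613)))) (.f (nat_lit 559) (nat_lit 591) (nat_lit 4558) (.f (nat_lit 430) (nat_lit 527) (nat_lit 4526) (.d (nat_lit 431) (nat_lit 399) (nat_lit 6542) (nat_lit 463) (nat_lit 6574))))))))))))) (.a (.p (nat_lit 527) (.a (.p (nat_lit 529) (.a (.f (nat_lit 561) (nat_lit 562) (nat_lit 526) (.f (nat_lit 464) (nat_lit 432) (nat_lit 4528) (.d (nat_lit 593) (nat_lit 497) (nat_lit 7632) (nat_lit 625) (nat_lit 7664)))) (.a (.f (nat_lit 558) (nat_lit 557) (nat_lit 1549) (.f (nat_lit 530) (nat_lit 559) (nat_lit 1550) (.d (nat_lit 562) (nat_lit 561) (nat_lit 526) (nat_lit 563) (nat_lit 527)))) (.f (nat_lit 558) (nat_lit 557) (nat_lit 1549) (.f (nat_lit 559) (nat_lit 530) (nat_lit 1550) (.f (nat_lit 591) (nat_lit 623) (nat_lit 6639) (.d (nat_lit 464) (nat_lit 432) (nat_lit 5551) (nat_lit 495) (nat_lit 6607)))))))) (.a (.f (nat_lit 525) (nat_lit 497) (nat_lit 2541) (.f (nat_lit 524) (nat_lit 495) (nat_lit 2540) (.d (nat_lit 556) (nat_lit 555) (nat_lit 1547) (nat_lit 557) (nat_lit 1548)))) (.a (.p (nat_lit 529) (.a (.f (nat_lit 561) (nat_lit 562) (nat_lit 526) (.f (nat_lit 464) (nat_lit 432) (nat_lit 4528) (.d (nat_lit 593) (nat_lit 497) (nat_lit 7632) (nat_lit 625) (nat_lit 7664)))) (.a (.f (nat_lit 558) (nat_lit 557) (nat_lit 1549) (.f (nat_lit 530) (nat_lit 559) (nat_lit 1550) (.d (nat_lit 562) (nat_lit 561) (nat_lit 526) (nat_lit 563) (nat_lit 527)))) (.f (nat_lit 525) (nat_lit 497) (nat_lit 2541) (.d (nat_lit 557) (nat_lit 556) (nat_lit 1548) (nat_lit 558) (nat_lit 1549)))))) (.a (.p (nat_lit 495) (.a (.p (nat_lit 464) (.a (.f (nat_lit 432) (nat_lit 400) (nat_lit 5519) (.f (nat_lit 431) (nat_lit 399) (nat_lit 7567) (.f (nat_lit 463) (nat_lit 558) (nat_lit 5550) (.d (nat_lit 433) (nat_lit 401) (nat_lit 6544) (nat_lit 434) (nat_lit 1454))))) (.a (.f (nat_lit 559) (nat_lit 591) (nat_lit 6607) (.f (nat_lit 463) (nat_lit 430) (nat_lit 7598) (.d (nat_lit 431) (nat_lit 399) (nat_lit 4495) (nat_lit 558) (nat_lit 5550)))) (.d (nat_lit 432) (nat_lit 400) (nat_lit 5519) (nat_lit 559) (nat_lit 5551))))) (.a (.p (nat_lit 463) (.a (.d (nat_lit 431) (nat_lit 399) (nat_lit 4495) (nat_lit 558) (nat_lit 5550)) (.a (.f (nat_lit 431) (nat_lit 399) (nat_lit 4495) (.d (nat_lit 430) (nat_lit 398) (nat_lit 7566) (nat_lit 559) (nat_lit 7598))) (.f (nat_lit 559) (nat_lit 430) (nat_lit 7598) (.f (nat_lit 591) (nat_lit 623) (nat_lit 6639) (.d (nat_lit 590) (nat_lit 558) (nat_lit 5582) (nat_lit 622) (nat_lit 5614))))))) (.a (.f (nat_lit 525) (nat_lit 524) (nat_lit 2540) (.f (nat_lit 557) (nat_lit 556) (nat_lit 1548) (.f (nat_lit 529) (nat_lit 558) (nat_lit 1549) (.f (nat_lit 530) (nat_lit 531) (nat_lit 3567) (.d (nat_lit 562) (nat_lit 561) (nat_lit 526) (nat_lit 563) (nat_lit 527)))))) (.p (nat_lit 463) (.a (.f (nat_lit 431) (nat_lit 399) (nat_lit 4495) (.d (nat_lit 430) (nat_lit 398) (nat_lit 7566) (nat_lit 559) (nat_lit 7598))) (.a (.f (nat_lit 431) (nat_lit 399) (nat_lit 4495) (.f (nat_lit 432) (nat_lit 400) (nat_lit 6543) (.f (nat_lit 461) (nat_lit 460) (nat_lit 460) (.d (nat_lit 430) (nat_lit 398) (nat_lit 7566) (nat_lit 433) (nat_lit 1453))))) (.a (.f (nat_lit 559) (nat_lit 430) (nat_lit 7598) (.d (nat_lit 464) (nat_lit 432) (nat_lit 6575) (nat_lit 591) (nat_lit 6607))) (.f (nat_lit 431) (nat_lit 399) (nat_lit 4495) (.f (nat_lit 432) (nat_lit 400) (nat_lit 6543) (.f (nat_lit 464) (nat_lit 559) (nat_lit 5551) (.d (nat_lit 433) (nat_lit 401) (nat_lit 6544) (nat_lit 434) (nat_lit 1454))))))))))))) (.f (nat_lit 525) (nat_lit 497) (nat_lit 2541) (.f (nat_lit 524) (nat_lit 495) (nat_lit 2540) (.f (nat_lit 491) (nat_lit 492) (nat_lit 3563) (.f (nat_lit 523) (nat_lit 490) (nat_lit 3562) (.d (nat_lit 555) (nat_lit 554) (nat_lit 1546) (nat_lit 556) (nat_lit 1547))))))))))) (.a (.p (nat_lit 464) (.a (.p (nat_lit 432) (.a (.f (nat_lit 433) (nat_lit 401) (nat_lit 6544) (.f (nat_lit 463) (nat_lit 461) (nat_lit 2477) (.d (nat_lit 431) (nat_lit 399) (nat_lit 7567) (nat_lit 434) (nat_lit 1454)))) (.a (.f (nat_lit 529) (nat_lit 561) (nat_lit 4528) (.f (nat_lit 400) (nat_lit 497) (nat_lit 4496) (.d (nat_lit 399) (nat_lit 367) (nat_lit 7535) (nat_lit 431) (nat_lit 7567)))) (.f (nat_lit 529) (nat_lit 561) (nat_lit 4528) (.f (nat_lit 400) (nat_lit 497) (nat_lit 4496) (.d (nat_lit 401) (nat_lit 369) (nat_lit 6512) (nat_lit 433) (nat_lit 6544))))))) (.a s20619 (.a (.p (nat_lit 463) (.a (.f (nat_lit 461) (nat_lit 497) (nat_lit 461) (.f (nat_lit 460) (nat_lit 495) (nat_lit 460) (.d (nat_lit 428) (nat_lit 427) (nat_lit 3499) (nat_lit 429) (nat_lit 3500)))) (.a (.f (nat_lit 461) (nat_lit 497) (nat_lit 461) (.f (nat_lit 429) (nat_lit 428) (nat_lit 3500) (.f (nat_lit 430) (nat_lit 465) (nat_lit 3501) (.f (nat_lit 397) (nat_lit 494) (nat_lit 7565) (.f (nat_lit 365) (nat_lit 333) (nat_lit 4429) (.f (nat_lit 460) (nat_lit 492) (nat_lit 5484) (.d (nat_lit 459) (nat_lit 431) (nat_lit 2475) (nat_lit 458) (nat_lit 2474)))))))) (.a (.p (nat_lit 461) (.a (.f (nat_lit 460) (nat_lit 495) (nat_lit 460) (.d (nat_lit 428) (nat_lit 427) (nat_lit 3499) (nat_lit 429) (nat_lit 3500))) (.a (.f (nat_lit 429) (nat_lit 428) (nat_lit 3500) (.f (nat_lit 430) (nat_lit 465) (nat_lit 3501) (.f (nat_lit 397) (nat_lit 494) (nat_lit 7565) (.f (nat_lit 365) (nat_lit 333) (nat_lit 4429) (.f (nat_lit 460) (nat_lit 492) (nat_lit 5484) (.d (nat_lit 459) (nat_lit 431) (nat_lit 2475) (nat_lit 458) (nat_lit 2474))))))) (.a (.f (nat_lit 429) (nat_lit 428) (nat_lit 3500) (.f (nat_lit 430) (nat_lit 465) (nat_lit 3501) (.f (nat_lit 494) (nat_lit 397) (nat_lit 7565) (.f (nat_lit 399) (nat_lit 431) (nat_lit 6542) (.f (nat_lit 398) (nat_lit 367) (nat_lit 6510) (.d (nat_lit 366) (nat_lit 334) (nat_lit 5453) (nat_lit 495) (nat_lit 4462))))))) (.a (.f (nat_lit 460) (nat_lit 495) (nat_lit 460) (.f (nat_lit 427) (nat_lit 428) (nat_lit 3499) (.f (nat_lit 459) (nat_lit 426) (nat_lit 3498) (.d (nat_lit 491) (nat_lit 490) (nat_lit 1482) (nat_lit 492) (nat_lit 1483))))) (.f (nat_lit 460) (nat_lit 495) (nat_lit 460) (.f (nat_lit 491) (nat_lit 492) (nat_lit 1483) (.f (nat_lit 459) (nat_lit 490) (nat_lit 1482) (.f (nat_lit 430) (nat_lit 431) (nat_lit 2475) (.d (nat_lit 429) (nat_lit 458) (nat_lit 2474) (nat_lit 465) (nat_lit 3501))))))))))) (.a (.p (nat_lit 465) (.a (.f (nat_lit 433) (nat_lit 434) (nat_lit 2478) (.d (nat_lit 401) (nat_lit 369) (nat_lit 5488) (nat_lit 497) (nat_lit 5520))) (.f (nat_lit 430) (nat_lit 429) (nat_lit 3501) (.f (nat_lit 431) (nat_lit 466) (nat_lit 3502) (.d (nat_lit 399) (nat_lit 367) (nat_lit 4463) (nat_lit 495) (nat_lit 4495)))))) (.f (nat_lit 461) (nat_lit 497) (nat_lit 461) (.f (nat_lit 460) (nat_lit 495) (nat_lit 460) (.f (nat_lit 427) (nat_lit 428) (nat_lit 3499) (.f (nat_lit 459) (nat_lit 426) (nat_lit 3498) (.d (nat_lit 491) (nat_lit 490) (nat_lit 1482) (nat_lit 492) (nat_lit 1483))))))))))) (.a s20663 (.a s20669 (.p (nat_lit 527) (.a (.f (nat_lit 559) (nat_lit 432) (nat_lit 5551) (.d (nat_lit 591) (nat_lit 495) (nat_lit 6607) (nat_lit 623) (nat_lit 6639))) (.a (.f (nat_lit 432) (nat_lit 559) (nat_lit 5551) (.f (nat_lit 529) (nat_lit 561) (nat_lit 4528) (.d (nat_lit 497) (nat_lit 400) (nat_lit 4496) (nat_lit 525) (nat_lit 2541)))) (.f (nat_lit 525) (nat_lit 497) (nat_lit 2541) (.f (nat_lit 524) (nat_lit 495) (nat_lit 2540) (.d (nat_lit 556) (nat_lit 555) (nat_lit 1547) (nat_lit 557) (nat_lit 1548))))))))))))) (.a (.p (nat_lit 494) (.a (.p (nat_lit 558) (.a (.f (nat_lit 429) (nat_lit 461) (nat_lit 7597) (.f (nat_lit 430) (nat_lit 397) (nat_lit 7565) (.d (nat_lit 431) (nat_lit 399) (nat_lit 6542) (nat_lit 463) (nat_lit 6574)))) (.f (nat_lit 589) (nat_lit 557) (nat_lit 5581) (.f (nat_lit 590) (nat_lit 621) (nat_lit 5613) (.d (nat_lit 591) (nat_lit 559) (nat_lit 4558) (nat_lit 623) (nat_lit 4590)))))) (.a (.p (nat_lit 558) (.a (.f (nat_lit 463) (nat_lit 431) (nat_lit 6574) (.f (nat_lit 495) (nat_lit 590) (nat_lit 6606) (.d (nat_lit 461) (nat_lit 429) (nat_lit 7597) (nat_lit 460) (nat_lit 460)))) (.a (.f (nat_lit 429) (nat_lit 461) (nat_lit 7597) (.f (nat_lit 430) (nat_lit 397) (nat_lit 7565) (.d (nat_lit 431) (nat_lit 399) (nat_lit 6542) (nat_lit 463) (nat_lit 6574)))) (.f (nat_lit 557) (nat_lit 589) (nat_lit 5581) (.f (nat_lit 527) (nat_lit 529) (nat_lit 1549) (.d (nat_lit 525) (nat_lit 430) (nat_lit 5549) (nat_lit 556) (nat_lit 1548))))))) (.a s21087 (.a s21088 (.a s19820 (.a (.p (nat_lit 558) (.a (.f (nat_lit 463) (nat_lit 431) (nat_lit 6574) (.f (nat_lit 495) (nat_lit 590) (nat_lit 6606) (.d (nat_lit 461) (nat_lit 429) (nat_lit 7597) (nat_lit 460) (nat_lit 460)))) (.f (nat_lit 557) (nat_lit 589) (nat_lit 5581) (.f (nat_lit 527) (nat_lit 529) (nat_lit 1549) (.d (nat_lit 556) (nat_lit 525) (nat_lit 1548) (nat_lit 555) (nat_lit 2571)))))) s21089))))))) (.a s21266 (.a (.p (nat_lit 494) (.a s19703 (.a s19820 (.a (.p (nat_lit 461) (.a (.f (nat_lit 429) (nat_lit 558) (nat_lit 7597) (.d (nat_lit 397) (nat_lit 365) (nat_lit 4461) (nat_lit 430) (nat_lit 7565))) (.f (nat_lit 495) (nat_lit 497) (nat_lit 3533) (.d (nat_lit 460) (nat_lit 459) (nat_lit 459) (nat_lit 463) (nat_lit 460))))) (.a (.p (nat_lit 527) (.a (.f (nat_lit 430) (nat_lit 559) (nat_lit 4526) (.f (nat_lit 397) (nat_lit 429) (nat_lit 7565) (.f (nat_lit 398) (nat_lit 365) (nat_lit 7533) (.d (nat_lit 399) (nat_lit 367) (nat_lit 6510) (nat_lit 431) (nat_lit 6542))))) (.f (nat_lit 497) (nat_lit 525) (nat_lit 2541) (.f (nat_lit 495) (nat_lit 461) (nat_lit 3533) (.f (nat_lit 529) (nat_lit 530) (nat_lit 3566) (.f (nat_lit 561) (nat_lit 562) (nat_lit 526) (.d (nat_lit 464) (nat_lit 432) (nat_lit 4528) (nat_lit 593) (nat_lit 7632)))))))) (.a s21279 s21287)))))) s21304)))))))))))) (.a (.p (nat_lit 494) (.a s20221 (.a s19825 (.a s20406 (.a (.p (nat_lit 495) (.a (.f (nat_lit 493) (nat_lit 529) (nat_lit 493) (.d (nat_lit 461) (nat_lit 460) (nat_lit 3532) (nat_lit 497) (nat_lit 3533))) (.a (.f (nat_lit 461) (nat_lit 497) (nat_lit 3533) (.d (nat_lit 460) (nat_lit 459) (nat_lit 459) (nat_lit 493) (nat_lit 3532))) (.a (.f (nat_lit 493) (nat_lit 529) (nat_lit 493) (.f (nat_lit 461) (nat_lit 460) (nat_lit 3532) (.f (nat_lit 525) (nat_lit 524) (nat_lit 1516) (.d (nat_lit 430) (nat_lit 398) (nat_lit 5517) (nat_lit 557) (nat_lit 6573))))) (.a (.f (nat_lit 497) (nat_lit 461) (nat_lit 3533) (.f (nat_lit 529) (nat_lit 530) (nat_lit 494) (.f (nat_lit 465) (nat_lit 466) (nat_lit 2510) (.f (nat_lit 433) (nat_lit 401) (nat_lit 5520) (.f (nat_lit 432) (nat_lit 400) (nat_lit 7568) (.f (nat_lit 561) (nat_lit 464) (nat_lit 4528) (.f (nat_lit 593) (nat_lit 625) (nat_lit 7664) (.d (nat_lit 594) (nat_lit 562) (nat_lit 4561) (nat_lit 626) (nat_lit 4593))))))))) (.f (nat_lit 493) (nat_lit 529) (nat_lit 493) (.f (nat_lit 492) (nat_lit 527) (nat_lit 492) (.d (nat_lit 524) (nat_lit 523) (nat_lit 1515) (nat_lit 525) (nat_lit 1516))))))))) (.a (.p (nat_lit 495) (.a (.f (nat_lit 493) (nat_lit 529) (nat_lit 493) (.d (nat_lit 461) (nat_lit 460) (nat_lit 3532) (nat_lit 497) (nat_lit 3533))) (.a (.f (nat_lit 461) (nat_lit 497) (nat_lit 3533) (.d (nat_lit 460) (nat_lit 459) (nat_lit 459) (nat_lit 493) (nat_lit 3532))) (.a (.f (nat_lit 493) (nat_lit 529) (nat_lit 493) (.f (nat_lit 527) (nat_lit 492) (nat_lit 492) (.f (nat_lit 559) (nat_lit 591) (nat_lit 7630) (.d (nat_lit 430) (nat_lit 398) (nat_lit 4494) (nat_lit 526) (nat_lit 4526))))) (.f (nat_lit 497) (nat_lit 461) (nat_lit 3533) (.f (nat_lit 529) (nat_lit 530) (nat_lit 494) (.f (nat_lit 465) (nat_lit 466) (nat_lit 2510) (.f (nat_lit 433) (nat_lit 401) (nat_lit 5520) (.f (nat_lit 432) (nat_lit 400) (nat_lit 7568) (.f (nat_lit 561) (nat_lit 464) (nat_lit 4528) (.f (nat_lit 593) (nat_lit 625) (nat_lit 7664) (.d (nat_lit 594) (nat_lit 562) (nat_lit 4561) (nat_lit 626) (nat_lit 4593))))))))))))) (.a s21092 (.a (.p (nat_lit 430) (.a (.p (nat_lit 526) (.a (.f (nat_lit 399) (nat_lit 431) (nat_lit 6542) (.f (nat_lit 398) (nat_lit 367) (nat_lit 6510) (.d (nat_lit 397) (nat_lit 365) (nat_lit 7533) (nat_lit 429) (nat_lit 7565)))) (.f (nat_lit 527) (nat_lit 559) (nat_lit 4526) (.d (nat_lit 525) (nat_lit 497) (nat_lit 2541) (nat_lit 557) (nat_lit 5549))))) (.a (.p (nat_lit 399) (.a (.f (nat_lit 431) (nat_lit 526) (nat_lit 6542) (.d (nat_lit 367) (nat_lit 335) (nat_lit 5454) (nat_lit 398) (nat_lit 6510))) (.a (.f (nat_lit 367) (nat_lit 398) (nat_lit 6510) (.f (nat_lit 431) (nat_lit 335) (nat_lit 5454) (.f (nat_lit 432) (nat_lit 464) (nat_lit 7567) (.f (nat_lit 461) (nat_lit 433) (nat_lit 1453) (.d (nat_lit 460) (nat_lit 429) (nat_lit 1452) (nat_lit 459) (nat_lit 2475)))))) (.a (.f (nat_lit 398) (nat_lit 367) (nat_lit 6510) (.f (nat_lit 397) (nat_lit 365) (nat_lit 7533) (.f (nat_lit 429) (nat_lit 526) (nat_lit 7565) (.d (nat_lit 400) (nat_lit 401) (nat_lit 1421) (nat_lit 428) (nat_lit 1420))))) (.f (nat_lit 431) (nat_lit 526) (nat_lit 6542) (.f (nat_lit 432) (nat_lit 464) (nat_lit 7567) (.f (nat_lit 461) (nat_lit 433) (nat_lit 1453) (.d (nat_lit 460) (nat_lit 429) (nat_lit 1452) (nat_lit 459) (nat_lit 2475))))))))) (.a (.p (nat_lit 495) (.a (.f (nat_lit 398) (nat_lit 527) (nat_lit 4494) (.f (nat_lit 365) (nat_lit 397) (nat_lit 7533) (.f (nat_lit 366) (nat_lit 333) (nat_lit 7501) (.d (nat_lit 367) (nat_lit 335) (nat_lit 6478) (nat_lit 399) (nat_lit 6510))))) (.f (nat_lit 497) (nat_lit 461) (nat_lit 3533) (.f (nat_lit 529) (nat_lit 530) (nat_lit 494) (.f (nat_lit 465) (nat_lit 466) (nat_lit 2510) (.f (nat_lit 433) (nat_lit 401) (nat_lit 5520) (.f (nat_lit 432) (nat_lit 400) (nat_lit 7568) (.f (nat_lit 561) (nat_lit 464) (nat_lit 4528) (.f (nat_lit 593) (nat_lit 625) (nat_lit 7664) (.d (nat_lit 594) (nat_lit 562) (nat_lit 4561) (nat_lit 626) (nat_lit 4593))))))))))) (.a (.p (nat_lit 526) (.a (.f (nat_lit 527) (nat_lit 559) (nat_lit 4526) (.d (nat_lit 525) (nat_lit 497) (nat_lit 2541) (nat_lit 557) (nat_lit 5549))) (.a (.f (nat_lit 429) (nat_lit 397) (nat_lit 7565) (.f (nat_lit 558) (nat_lit 461) (nat_lit 7597) (.d (nat_lit 557) (nat_lit 525) (nat_lit 5549) (nat_lit 589) (nat_lit 5581)))) (.a (.f (nat_lit 527) (nat_lit 559) (nat_lit 4526) (.f (nat_lit 495) (nat_lit 398) (nat_lit 4494) (.f (nat_lit 529) (nat_lit 530) (nat_lit 3566) (.f (nat_lit 558) (nat_lit 557) (nat_lit 1549) (.d (nat_lit 429) (nat_lit 397) (nat_lit 7565) (nat_lit 461) (nat_lit 7597)))))) (.f (nat_lit 527) (nat_lit 559) (nat_lit 4526) (.f (nat_lit 495) (nat_lit 398) (nat_lit 4494) (.d (nat_lit 497) (nat_lit 461) (nat_lit 3533) (nat_lit 525) (nat_lit 2541)))))))) (.a (.p (nat_lit 526) (.a (.f (nat_lit 527) (nat_lit 559) (nat_lit 4526) (.d (nat_lit 525) (nat_lit 497) (nat_lit 2541) (nat_lit 557) (nat_lit 5549))) (.a (.f (nat_lit 429) (nat_lit 397) (nat_lit 7565) (.f (nat_lit 558) (nat_lit 461) (nat_lit 7597) (.d (nat_lit 557) (nat_lit 525) (nat_lit 5549) (nat_lit 589) (nat_lit 5581)))) (.f (nat_lit 429) (nat_lit 397) (nat_lit 7565) (.f (nat_lit 431) (nat_lit 399) (nat_lit 6542) (.f (nat_lit 461) (nat_lit 558) (nat_lit 7597) (.d (nat_lit 432) (nat_lit 433) (nat_lit 1453) (nat_lit 460) (nat_lit 1452)))))))) (.p (nat_lit 527) (.a (.f (nat_lit 495) (nat_lit 398) (nat_lit 4494) (.f (nat_lit 559) (nat_lit 591) (nat_lit 7630) (.f (nat_lit 432) (nat_lit 464) (nat_lit 5551) (.f (nat_lit 461) (nat_lit 497) (nat_lit 3533) (.f (nat_lit 431) (nat_lit 433) (nat_lit 1453) (.d (nat_lit 460) (nat_lit 429) (nat_lit 1452) (nat_lit 459) (nat_lit 459))))))) (.a (.f (nat_lit 526) (nat_lit 559) (nat_lit 4526) (.d (nat_lit 525) (nat_lit 497) (nat_lit 2541) (nat_lit 557) (nat_lit 5549))) (.a (.f (nat_lit 495) (nat_lit 398) (nat_lit 4494) (.f (nat_lit 497) (nat_lit 461) (nat_lit 3533) (.f (nat_lit 526) (nat_lit 525) (nat_lit 2541) (.f (nat_lit 529) (nat_lit 530) (nat_lit 3566) (.f (nat_lit 561) (nat_lit 562) (nat_lit 526) (.d (nat_lit 464) (nat_lit 432) (nat_lit 4528) (nat_lit 593) (nat_lit 7632))))))) (.f (nat_lit 526) (nat_lit 559) (nat_lit 4526) (.f (nat_lit 495) (nat_lit 398) (nat_lit 4494) (.d (nat_lit 525) (nat_lit 524) (nat_lit 2540) (nat_lit 557) (nat_lit 5549)))))))))))))) (.a (.p (nat_lit 526) (.a s19513 (.a (.p (nat_lit 525) (.a (.f (nat_lit 495) (nat_lit 497) (nat_lit 1517) (.d (nat_lit 524) (nat_lit 493) (nat_lit 1516) (nat_lit 523) (nat_lit 2539))) (.a (.f (nat_lit 430) (nat_lit 557) (nat_lit 5549) (.f (nat_lit 398) (nat_lit 493) (nat_lit 5517) (.d (nat_lit 397) (nat_lit 365) (nat_lit 7533) (nat_lit 429) (nat_lit 7565)))) (.f (nat_lit 430) (nat_lit 557) (nat_lit 5549) (.f (nat_lit 399) (nat_lit 431) (nat_lit 6542) (.f (nat_lit 398) (nat_lit 367) (nat_lit 6510) (.d (nat_lit 397) (nat_lit 365) (nat_lit 7533) (nat_lit 429) (nat_lit 7565)))))))) (.a (.p (nat_lit 527) (.a (.f (nat_lit 430) (nat_lit 559) (nat_lit 4526) (.f (nat_lit 397) (nat_lit 429) (nat_lit 7565) (.f (nat_lit 398) (nat_lit 365) (nat_lit 7533) (.d (nat_lit 399) (nat_lit 367) (nat_lit 6510) (nat_lit 431) (nat_lit 6542))))) (.f (nat_lit 529) (nat_lit 493) (nat_lit 3565) (.f (nat_lit 561) (nat_lit 562) (nat_lit 526) (.f (nat_lit 464) (nat_lit 432) (nat_lit 4528) (.d (nat_lit 593) (nat_lit 497) (nat_lit 7632) (nat_lit 625) (nat_lit 7664))))))) (.a (.p (nat_lit 527) (.a (.f (nat_lit 430) (nat_lit 559) (nat_lit 4526) (.f (nat_lit 397) (nat_lit 429) (nat_lit 7565) (.f (nat_lit 398) (nat_lit 365) (nat_lit 7533) (.d (nat_lit 399) (nat_lit 367) (nat_lit 6510) (nat_lit 431) (nat_lit 6542))))) (.f (nat_lit 493) (nat_lit 529) (nat_lit 3565) (.d (nat_lit 492) (nat_lit 491) (nat_lit 491) (nat_lit 495) (nat_lit 492))))) (.a (.p (nat_lit 558) (.a (.f (nat_lit 557) (nat_lit 589) (nat_lit 5581) (.f (nat_lit 525) (nat_lit 430) (nat_lit 5549) (.d (nat_lit 527) (nat_lit 497) (nat_lit 2541) (nat_lit 556) (nat_lit 1548)))) (.a (.f (nat_lit 589) (nat_lit 557) (nat_lit 5581) (.f (nat_lit 590) (nat_lit 621) (nat_lit 5613) (.d (nat_lit 591) (nat_lit 559) (nat_lit 4558) (nat_lit 623) (nat_lit 4590)))) (.f (nat_lit 559) (nat_lit 591) (nat_lit 4558) (.f (nat_lit 527) (nat_lit 430) (nat_lit 4526) (.f (nat_lit 525) (nat_lit 497) (nat_lit 2541) (.d (nat_lit 524) (nat_lit 495) (nat_lit 2540) (nat_lit 523) (nat_lit 523)))))))) s19675)))))) (.p (nat_lit 495) (.a (.f (nat_lit 493) (nat_lit 529) (nat_lit 493) (.d (nat_lit 461) (nat_lit 460) (nat_lit 3532) (nat_lit 497) (nat_lit 3533))) (.a (.f (nat_lit 461) (nat_lit 497) (nat_lit 3533) (.d (nat_lit 460) (nat_lit 459) (nat_lit 459) (nat_lit 493) (nat_lit 3532))) (.a (.f (nat_lit 493) (nat_lit 529) (nat_lit 493) (.f (nat_lit 492) (nat_lit 527) (nat_lit 492) (.d (nat_lit 524) (nat_lit 523) (nat_lit 1515) (nat_lit 525) (nat_lit 1516)))) (.f (nat_lit 497) (nat_lit 461) (nat_lit 3533) (.f (nat_lit 529) (nat_lit 530) (nat_lit 494) (.f (nat_lit 465) (nat_lit 466) (nat_lit 2510) (.f (nat_lit 433) (nat_lit 401) (nat_lit 5520) (.f (nat_lit 432) (nat_lit 400) (nat_lit 7568) (.f (nat_lit 561) (nat_lit 464) (nat_lit 4528) (.f (nat_lit 593) (nat_lit 625) (nat_lit 7664) (.d (nat_lit 594) (nat_lit 562) (nat_lit 4561) (nat_lit 626) (nat_lit 4593)))))))))))))))))))))) (.a (.p (nat_lit 526) (.a s19659 (.a (.p (nat_lit 494) (.a (.p (nat_lit 558) (.a (.f (nat_lit 557) (nat_lit 589) (nat_lit 5581) (.f (nat_lit 525) (nat_lit 430) (nat_lit 5549) (.d (nat_lit 527) (nat_lit 497) (nat_lit 2541) (nat_lit 556) (nat_lit 1548)))) (.f (nat_lit 591) (nat_lit 559) (nat_lit 4558) (.f (nat_lit 590) (nat_lit 623) (nat_lit 4590) (.d (nat_lit 461) (nat_lit 429) (nat_lit 7597) (nat_lit 493) (nat_lit 7629)))))) (.a s19545 (.a s19727 (.a (.p (nat_lit 527) (.a (.f (nat_lit 525) (nat_lit 497) (nat_lit 2541) (.d (nat_lit 430) (nat_lit 557) (nat_lit 5549) (nat_lit 559) (nat_lit 4526))) (.a (.f (nat_lit 525) (nat_lit 497) (nat_lit 2541) (.d (nat_lit 557) (nat_lit 430) (nat_lit 5549) (nat_lit 556) (nat_lit 1548))) (.a (.f (nat_lit 559) (nat_lit 430) (nat_lit 4526) (.d (nat_lit 591) (nat_lit 495) (nat_lit 7630) (nat_lit 623) (nat_lit 6639))) (.f (nat_lit 525) (nat_lit 497) (nat_lit 2541) (.f (nat_lit 493) (nat_lit 492) (nat_lit 3564) (.d (nat_lit 557) (nat_lit 556) (nat_lit 1548) (nat_lit 589) (nat_lit 6605)))))))) (.a s19686 (.a (.p (nat_lit 558) (.a (.f (nat_lit 557) (nat_lit 589) (nat_lit 5581) (.f (nat_lit 525) (nat_lit 430) (nat_lit 5549) (.d (nat_lit 527) (nat_lit 497) (nat_lit 2541) (nat_lit 556) (nat_lit 1548)))) (.a (.f (nat_lit 589) (nat_lit 557) (nat_lit 5581) (.f (nat_lit 590) (nat_lit 621) (nat_lit 5613) (.d (nat_lit 591) (nat_lit 559) (nat_lit 4558) (nat_lit 623) (nat_lit 4590)))) (.f (nat_lit 559) (nat_lit 591) (nat_lit 4558) (.f (nat_lit 527) (nat_lit 430) (nat_lit 4526) (.f (nat_lit 525) (nat_lit 497) (nat_lit 2541) (.d (nat_lit 524) (nat_lit 495) (nat_lit 2540) (nat_lit 523) (nat_lit 523)))))))) (.p (nat_lit 558) (.a (.f (nat_lit 461) (nat_lit 429) (nat_lit 7597) (.f (nat_lit 493) (nat_lit 590) (nat_lit 7629) (.d (nat_lit 495) (nat_lit 460) (nat_lit 3532) (nat_lit 497) (nat_lit 3533)))) (.a (.f (nat_lit 591) (nat_lit 559) (nat_lit 4558) (.f (nat_lit 590) (nat_lit 623) (nat_lit 4590) (.d (nat_lit 461) (nat_lit 429) (nat_lit 7597) (nat_lit 493) (nat_lit 7629)))) (.f (nat_lit 559) (nat_lit 591) (nat_lit 4558) (.f (nat_lit 527) (nat_lit 430) (nat_lit 4526) (.f (nat_lit 525) (nat_lit 497) (nat_lit 2541) (.d (nat_lit 524) (nat_lit 495) (nat_lit 2540) (nat_lit 523) (nat_lit 523))))))))))))))) (.a (.p (nat_lit 494) (.a s19545 (.a (.p (nat_lit 558) (.a (.f (nat_lit 591) (nat_lit 559) (nat_lit 4558) (.f (nat_lit 590) (nat_lit 623) (nat_lit 4590) (.d (nat_lit 461) (nat_lit 429) (nat_lit 7597) (nat_lit 493) (nat_lit 7629)))) (.a (.f (nat_lit 429) (nat_lit 461) (nat_lit 7597) (.f (nat_lit 430) (nat_lit 397) (nat_lit 7565) (.d (nat_lit 557) (nat_lit 525) (nat_lit 5549) (nat_lit 589) (nat_lit 5581)))) (.f (nat_lit 589) (nat_lit 557) (nat_lit 5581) (.f (nat_lit 590) (nat_lit 621) (nat_lit 5613) (.d (nat_lit 591) (nat_lit 559) (nat_lit 4558) (nat_lit 623) (nat_lit 4590))))))) (.a (.p (nat_lit 558) (.a (.f (nat_lit 461) (nat_lit 429) (nat_lit 7597) (.f (nat_lit 495) (nat_lit 497) (nat_lit 3533) (.d (nat_lit 460) (nat_lit 459) (nat_lit 459) (nat_lit 463) (nat_lit 460)))) (.a (.f (nat_lit 429) (nat_lit 461) (nat_lit 7597) (.f (nat_lit 430) (nat_lit 397) (nat_lit 7565) (.d (nat_lit 557) (nat_lit 525) (nat_lit 5549) (nat_lit 589) (nat_lit 5581)))) (.f (nat_lit 557) (nat_lit 589) (nat_lit 5581) (.f (nat_lit 525) (nat_lit 430) (nat_lit 5549) (.f (nat_lit 495) (nat_lit 497) (nat_lit 1517) (.d (nat_lit 493) (nat_lit 524) (nat_lit 1516) (nat_lit 529) (nat_lit 493)))))))) (.a (.p (nat_lit 495) (.a (.d (nat_lit 497) (nat_lit 461) (nat_lit 3533) (nat_lit 525) (nat_lit 1517)) (.a (.f (nat_lit 461) (nat_lit 497) (nat_lit 3533) (.d (nat_lit 460) (nat_lit 459) (nat_lit 459) (nat_lit 463) (nat_lit 460))) (.f (nat_lit 493) (nat_lit 529) (nat_lit 493) (.f (nat_lit 525) (nat_lit 524) (nat_lit 1516) (.d (nat_lit 430) (nat_lit 398) (nat_lit 5517) (nat_lit 557) (nat_lit 5549))))))) (.a (.p (nat_lit 558) (.a (.f (nat_lit 461) (nat_lit 429) (nat_lit 7597) (.f (nat_lit 495) (nat_lit 497) (nat_lit 3533) (.d (nat_lit 460) (nat_lit 459) (nat_lit 459) (nat_lit 463) (nat_lit 460)))) (.f (nat_lit 589) (nat_lit 557) (nat_lit 5581) (.f (nat_lit 590) (nat_lit 621) (nat_lit 5613) (.d (nat_lit 591) (nat_lit 559) (nat_lit 4558) (nat_lit 623) (nat_lit 4590)))))) (.a (.p (nat_lit 461) (.a (.f (nat_lit 429) (nat_lit 558) (nat_lit 7597) (.d (nat_lit 397) (nat_lit 365) (nat_lit 4461) (nat_lit 430) (nat_lit 7565))) (.f (nat_lit 495) (nat_lit 497) (nat_lit 3533) (.d (nat_lit 460) (nat_lit 459) (nat_lit 459) (nat_lit 463) (nat_lit 460))))) s21379))))))) (.a (.p (nat_lit 494) (.a (.p (nat_lit 558) (.a (.f (nat_lit 557) (nat_lit 589) (nat_lit 5581) (.f (nat_lit 525) (nat_lit 430) (nat_lit 5549) (.d (nat_lit 527) (nat_lit 497) (nat_lit 2541) (nat_lit 556) (nat_lit 1548)))) (.f (nat_lit 591) (nat_lit 559) (nat_lit 4558) (.f (nat_lit 590) (nat_lit 623) (nat_lit 4590) (.d (nat_lit 461) (nat_lit 429) (nat_lit 7597) (nat_lit 493) (nat_lit 7629)))))) (.a (.p (nat_lit 558) (.a (.f (nat_lit 591) (nat_lit 559) (nat_lit 4558) (.f (nat_lit 590) (nat_lit 623) (nat_lit 4590) (.d (nat_lit 461) (nat_lit 429) (nat_lit 7597) (nat_lit 493) (nat_lit 7629)))) (.a (.f (nat_lit 429) (nat_lit 461) (nat_lit 7597) (.f (nat_lit 430) (nat_lit 397) (nat_lit 7565) (.d (nat_lit 557) (nat_lit 525) (nat_lit 5549) (nat_lit 589) (nat_lit 5581)))) (.f (nat_lit 589) (nat_lit 557) (nat_lit 5581) (.f (nat_lit 590) (nat_lit 621) (nat_lit 5613) (.d (nat_lit 591) (nat_lit 559) (nat_lit 4558) (nat_lit 623) (nat_lit 4590))))))) (.a (.p (nat_lit 527) (.a (.f (nat_lit 525) (nat_lit 497) (nat_lit 2541) (.d (nat_lit 557) (nat_lit 430) (nat_lit 5549) (nat_lit 556) (nat_lit 1548))) (.a (.f (nat_lit 529) (nat_lit 493) (nat_lit 3565) (.f (nat_lit 561) (nat_lit 562) (nat_lit 526) (.f (nat_lit 464) (nat_lit 432) (nat_lit 4528) (.d (nat_lit 593) (nat_lit 497) (nat_lit 7632) (nat_lit 625) (nat_lit 7664))))) (.f (nat_lit 493) (nat_lit 529) (nat_lit 3565) (.d (nat_lit 492) (nat_lit 491) (nat_lit 491) (nat_lit 525) (nat_lit 3564)))))) (.a (.p (nat_lit 558) (.a (.f (nat_lit 591) (nat_lit 559) (nat_lit 4558) (.f (nat_lit 590) (nat_lit 623) (nat_lit 4590) (.d (nat_lit 461) (nat_lit 429) (nat_lit 7597) (nat_lit 493) (nat_lit 7629)))) (.a (.f (nat_lit 461) (nat_lit 429) (nat_lit 7597) (.f (nat_lit 590) (nat_lit 493) (nat_lit 7629) (.d (nat_lit 589) (nat_lit 557) (nat_lit 5581) (nat_lit 621) (nat_lit 5613)))) (.f (nat_lit 559) (nat_lit 591) (nat_lit 4558) (.f (nat_lit 527) (nat_lit 430) (nat_lit 4526) (.d (nat_lit 557) (nat_lit 556) (nat_lit 2572) (nat_lit 589) (nat_lit 5581))))))) (.a s20402 (.a s20433 (.p (nat_lit 558) (.a (.f (nat_lit 591) (nat_lit 559) (nat_lit 4558) (.f (nat_lit 590) (nat_lit 623) (nat_lit 4590) (.d (nat_lit 461) (nat_lit 429) (nat_lit 7597) (nat_lit 493) (nat_lit 7629)))) (.f (nat_lit 557) (nat_lit 589) (nat_lit 5581) (.f (nat_lit 527) (nat_lit 529) (nat_lit 1549) (.d (nat_lit 556) (nat_lit 525) (nat_lit 1548) (nat_lit 555) (nat_lit 2571))))))))))))) (.a s20841 (.a (.p (nat_lit 494) (.a (.p (nat_lit 558) (.a (.f (nat_lit 461) (nat_lit 429) (nat_lit 7597) (.f (nat_lit 493) (nat_lit 590) (nat_lit 7629) (.d (nat_lit 495) (nat_lit 460) (nat_lit 3532) (nat_lit 497) (nat_lit 3533)))) (.a (.f (nat_lit 591) (nat_lit 559) (nat_lit 4558) (.f (nat_lit 590) (nat_lit 623) (nat_lit 4590) (.d (nat_lit 461) (nat_lit 429) (nat_lit 7597) (nat_lit 493) (nat_lit 7629)))) (.f (nat_lit 559) (nat_lit 591) (nat_lit 4558) (.f (nat_lit 527) (nat_lit 430) (nat_lit 4526) (.d (nat_lit 557) (nat_lit 556) (nat_lit 2572) (nat_lit 589) (nat_lit 5581))))))) (.a s19545 (.a (.p (nat_lit 558) (.a (.f (nat_lit 591) (nat_lit 559) (nat_lit 4558) (.f (nat_lit 590) (nat_lit 623) (nat_lit 4590) (.d (nat_lit 461) (nat_lit 429) (nat_lit 7597) (nat_lit 493) (nat_lit 7629)))) (.a (.f (nat_lit 461) (nat_lit 429) (nat_lit 7597) (.f (nat_lit 590) (nat_lit 493) (nat_lit 7629) (.d (nat_lit 589) (nat_lit 557) (nat_lit 5581) (nat_lit 621) (nat_lit 5613)))) (.f (nat_lit 559) (nat_lit 591) (nat_lit 4558) (.f (nat_lit 527) (nat_lit 430) (nat_lit 4526) (.d (nat_lit 557) (nat_lit 556) (nat_lit 2572) (nat_lit 589) (nat_lit 5581))))))) (.a (.p (nat_lit 495) (.a (.f (nat_lit 461) (nat_lit 497) (nat_lit 3533) (.d (nat_lit 460) (nat_lit 459) (nat_lit 459) (nat_lit 463) (nat_lit 460))) (.a (.f (nat_lit 493) (nat_lit 529) (nat_lit 493) (.f (nat_lit 492) (nat_lit 527) (nat_lit 492) (.d (nat_lit 460) (nat_lit 459) (nat_lit 3531) (nat_lit 461) (nat_lit 3532)))) (.f (nat_lit 493) (nat_lit 529) (nat_lit 493) (.f (nat_lit 492) (nat_lit 527) (nat_lit 492) (.d (nat_lit 463) (nat_lit 464) (nat_lit 2508) (nat_lit 491) (nat_lit 2507))))))) (.a (.p (nat_lit 558) (.a (.f (nat_lit 461) (nat_lit 429) (nat_lit 7597) (.f (nat_lit 495) (nat_lit 497) (nat_lit 3533) (.d (nat_lit 460) (nat_lit 459) (nat_lit 459) (nat_lit 463) (nat_lit 460)))) (.f (nat_lit 589) (nat_lit 557) (nat_lit 5581) (.f (nat_lit 590) (nat_lit 621) (nat_lit 5613) (.d (nat_lit 591) (nat_lit 559) (nat_lit 4558) (nat_lit 623) (nat_lit 4590)))))) (.p (nat_lit 527) (.a (.f (nat_lit 529) (nat_lit 493) (nat_lit 3565) (.f (nat_lit 561) (nat_lit 562) (nat_lit 526) (.f (nat_lit 464) (nat_lit 432) (nat_lit 4528) (.d (nat_lit 593) (nat_lit 497) (nat_lit 7632) (nat_lit 625) (nat_lit 7664))))) (.f (nat_lit 559) (nat_lit 430) (nat_lit 4526) (.d (nat_lit 591) (nat_lit 558) (nat_lit 4558) (nat_lit 623) (nat_lit 6639))))))))))) (.a s21384 (.a (.p (nat_lit 494) (.a s19686 (.a (.p (nat_lit 558) (.a (.f (nat_lit 591) (nat_lit 559) (nat_lit 4558) (.f (nat_lit 590) (nat_lit 623) (nat_lit 4590) (.d (nat_lit 461) (nat_lit 429) (nat_lit 7597) (nat_lit 493) (nat_lit 7629)))) (.a (.f (nat_lit 429) (nat_lit 461) (nat_lit 7597) (.f (nat_lit 430) (nat_lit 397) (nat_lit 7565) (.d (nat_lit 557) (nat_lit 525) (nat_lit 5549) (nat_lit 589) (nat_lit 5581)))) (.f (nat_lit 589) (nat_lit 557) (nat_lit 5581) (.f (nat_lit 590) (nat_lit 621) (nat_lit 5613) (.d (nat_lit 591) (nat_lit 559) (nat_lit 4558) (nat_lit 623) (nat_lit 4590))))))) (.a s20767 (.a (.p (nat_lit 558) (.a (.f (nat_lit 591) (nat_lit 559) (nat_lit 4558) (.f (nat_lit 590) (nat_lit 623) (nat_lit 4590) (.d (nat_lit 461) (nat_lit 429) (nat_lit 7597) (nat_lit 493) (nat_lit 7629)))) (.a (.f (nat_lit 461) (nat_lit 429) (nat_lit 7597) (.f (nat_lit 590) (nat_lit 493) (nat_lit 7629) (.d (nat_lit 589) (nat_lit 557) (nat_lit 5581) (nat_lit 621) (nat_lit 5613)))) (.f (nat_lit 559) (nat_lit 591) (nat_lit 4558) (.f (nat_lit 527) (nat_lit 430) (nat_lit 4526) (.d (nat_lit 557) (nat_lit 556) (nat_lit 2572) (nat_lit 589) (nat_lit 5581))))))) (.a (.p (nat_lit 527) (.a (.f (nat_lit 559) (nat_lit 430) (nat_lit 4526) (.d (nat_lit 591) (nat_lit 495) (nat_lit 7630) (nat_lit 623) (nat_lit 6639))) (.f (nat_lit 493) (nat_lit 529) (nat_lit 3565) (.d (nat_lit 492) (nat_lit 491) (nat_lit 491) (nat_lit 525) (nat_lit 3564))))) (.a s21088 (.p (nat_lit 558) (.a (.f (nat_lit 591) (nat_lit 559) (nat_lit 4558) (.f (nat_lit 590) (nat_lit 623) (nat_lit 4590) (.d (nat_lit 461) (nat_lit 429) (nat_lit 7597) (nat_lit 493) (nat_lit 7629)))) (.f (nat_lit 557) (nat_lit 589) (nat_lit 5581) (.f (nat_lit 527) (nat_lit 529) (nat_lit 1549) (.d (nat_lit 556) (nat_lit 525) (nat_lit 1548) (nat_lit 555) (nat_lit 2571))))))))))))) (.a s21266 (.a (.p (nat_lit 494) (.a (.p (nat_lit 558) (.a (.f (nat_lit 461) (nat_lit 429) (nat_lit 7597) (.f (nat_lit 493) (nat_lit 590) (nat_lit 7629) (.d (nat_lit 495) (nat_lit 460) (nat_lit 3532) (nat_lit 497) (nat_lit 3533)))) (.a (.f (nat_lit 591) (nat_lit 559) (nat_lit 4558) (.f (nat_lit 590) (nat_lit 623) (nat_lit 4590) (.d (nat_lit 461) (nat_lit 429) (nat_lit 7597) (nat_lit 493) (nat_lit 7629)))) (.f (nat_lit 559) (nat_lit 591) (nat_lit 4558) (.f (nat_lit 527) (nat_lit 430) (nat_lit 4526) (.f (nat_lit 525) (nat_lit 497) (nat_lit 2541) (.d (nat_lit 524) (nat_lit 495) (nat_lit 2540) (nat_lit 523) (nat_lit 523)))))))) (.a (.p (nat_lit 461) (.a (.f (nat_lit 429) (nat_lit 558) (nat_lit 7597) (.d (nat_lit 397) (nat_lit 365) (nat_lit 4461) (nat_lit 430) (nat_lit 7565))) (.f (nat_lit 495) (nat_lit 497) (nat_lit 3533) (.d (nat_lit 460) (nat_lit 459) (nat_lit 459) (nat_lit 463) (nat_lit 460))))) (.a s20433 (.a (.p (nat_lit 495) (.a (.f (nat_lit 461) (nat_lit 497) (nat_lit 3533) (.d (nat_lit 460) (nat_lit 459) (nat_lit 459) (nat_lit 463) (nat_lit 460))) (.a (.f (nat_lit 493) (nat_lit 529) (nat_lit 493) (.f (nat_lit 492) (nat_lit 527) (nat_lit 492) (.d (nat_lit 460) (nat_lit 459) (nat_lit 3531) (nat_lit 461) (nat_lit 3532)))) (.f (nat_lit 493) (nat_lit 529) (nat_lit 493) (.f (nat_lit 492) (nat_lit 527) (nat_lit 492) (.d (nat_lit 463) (nat_lit 464) (nat_lit 2508) (nat_lit 491) (nat_lit 2507))))))) (.p (nat_lit 527) (.a (.f (nat_lit 559) (nat_lit 430) (nat_lit 4526) (.d (nat_lit 591) (nat_lit 495) (nat_lit 7630) (nat_lit 623) (nat_lit 6639))) (.f (nat_lit 493) (nat_lit 529) (nat_lit 3565) (.d (nat_lit 492) (nat_lit 491) (nat_lit 491) (nat_lit 525) (nat_lit 3564)))))))))) (.p (nat_lit 494) (.a s19545 (.a (.p (nat_lit 558) (.a (.f (nat_lit 591) (nat_lit 559) (nat_lit 4558) (.f (nat_lit 590) (nat_lit 623) (nat_lit 4590) (.d (nat_lit 461) (nat_lit 429) (nat_lit 7597) (nat_lit 493) (nat_lit 7629)))) (.f (nat_lit 557) (nat_lit 589) (nat_lit 5581) (.f (nat_lit 527) (nat_lit 529) (nat_lit 1549) (.d (nat_lit 556) (nat_lit 525) (nat_lit 1548) (nat_lit 555) (nat_lit 2571)))))) (.a s19675 (.a (.p (nat_lit 558) (.a (.f (nat_lit 461) (nat_lit 429) (nat_lit 7597) (.f (nat_lit 495) (nat_lit 497) (nat_lit 3533) (.d (nat_lit 460) (nat_lit 459) (nat_lit 459) (nat_lit 463) (nat_lit 460)))) (.f (nat_lit 589) (nat_lit 557) (nat_lit 5581) (.f (nat_lit 590) (nat_lit 621) (nat_lit 5613) (.d (nat_lit 591) (nat_lit 559) (nat_lit 4558) (nat_lit 623) (nat_lit 4590)))))) (.p (nat_lit 495) (.a (.f (nat_lit 461) (nat_lit 497) (nat_lit 3533) (.d (nat_lit 460) (nat_lit 459) (nat_lit 459) (nat_lit 463) (nat_lit 460))) (.a (.f (nat_lit 493) (nat_lit 529) (nat_lit 493) (.f (nat_lit 492) (nat_lit 527) (nat_lit 492) (.d (nat_lit 460) (nat_lit 459) (nat_lit 3531) (nat_lit 461) (nat_lit 3532)))) (.f (nat_lit 493) (nat_lit 529) (nat_lit 493) (.f (nat_lit 492) (nat_lit 527) (nat_lit 492) (.d (nat_lit 463) (nat_lit 464) (nat_lit 2508) (nat_lit 491) (nat_lit 2507))))))))))))))))))))))) (.a (.p (nat_lit 526) (.a s19676 (.a (.p (nat_lit 494) (.a s19513 (.a (.p (nat_lit 525) (.a (.f (nat_lit 495) (nat_lit 497) (nat_lit 1517) (.d (nat_lit 524) (nat_lit 493) (nat_lit 1516) (nat_lit 523) (nat_lit 2539))) (.a (.f (nat_lit 430) (nat_lit 557) (nat_lit 5549) (.f (nat_lit 398) (nat_lit 493) (nat_lit 5517) (.d (nat_lit 397) (nat_lit 365) (nat_lit 7533) (nat_lit 429) (nat_lit 7565)))) (.f (nat_lit 430) (nat_lit 557) (nat_lit 5549) (.f (nat_lit 399) (nat_lit 431) (nat_lit 6542) (.f (nat_lit 398) (nat_lit 367) (nat_lit 6510) (.d (nat_lit 397) (nat_lit 365) (nat_lit 7533) (nat_lit 429) (nat_lit 7565)))))))) (.a (.p (nat_lit 558) (.a (.f (nat_lit 559) (nat_lit 591) (nat_lit 4558) (.f (nat_lit 527) (nat_lit 430) (nat_lit 4526) (.d (nat_lit 557) (nat_lit 556) (nat_lit 2572) (nat_lit 589) (nat_lit 5581)))) (.a (.f (nat_lit 463) (nat_lit 431) (nat_lit 6574) (.f (nat_lit 590) (nat_lit 495) (nat_lit 6606) (.d (nat_lit 589) (nat_lit 557) (nat_lit 5581) (nat_lit 621) (nat_lit 5613)))) (.f (nat_lit 559) (nat_lit 591) (nat_lit 4558) (.f (nat_lit 430) (nat_lit 527) (nat_lit 4526) (.d (nat_lit 431) (nat_lit 399) (nat_lit 6542) (nat_lit 463) (nat_lit 6574))))))) (.a s19829 (.a (.p (nat_lit 558) (.a (.f (nat_lit 557) (nat_lit 589) (nat_lit 5581) (.f (nat_lit 525) (nat_lit 430) (nat_lit 5549) (.d (nat_lit 527) (nat_lit 497) (nat_lit 2541) (nat_lit 556) (nat_lit 1548)))) (.a (.f (nat_lit 589) (nat_lit 557) (nat_lit 5581) (.f (nat_lit 590) (nat_lit 621) (nat_lit 5613) (.d (nat_lit 591) (nat_lit 559) (nat_lit 4558) (nat_lit 623) (nat_lit 4590)))) (.f (nat_lit 559) (nat_lit 591) (nat_lit 4558) (.f (nat_lit 527) (nat_lit 430) (nat_lit 4526) (.f (nat_lit 525) (nat_lit 497) (nat_lit 2541) (.d (nat_lit 524) (nat_lit 495) (nat_lit 2540) (nat_lit 523) (nat_lit 523)))))))) s19830)))))) (.a (.p (nat_lit 494) (.a (.p (nat_lit 525) (.a (.f (nat_lit 495) (nat_lit 497) (nat_lit 1517) (.d (nat_lit 524) (nat_lit 493) (nat_lit 1516) (nat_lit 523) (nat_lit 2539))) (.a (.f (nat_lit 430) (nat_lit 557) (nat_lit 5549) (.f (nat_lit 398) (nat_lit 493) (nat_lit 5517) (.d (nat_lit 397) (nat_lit 365) (nat_lit 7533) (nat_lit 429) (nat_lit 7565)))) (.f (nat_lit 430) (nat_lit 557) (nat_lit 5549) (.f (nat_lit 399) (nat_lit 431) (nat_lit 6542) (.f (nat_lit 398) (nat_lit 367) (nat_lit 6510) (.d (nat_lit 397) (nat_lit 365) (nat_lit 7533) (nat_lit 429) (nat_lit 7565)))))))) (.a s19815 (.a (.p (nat_lit 558) (.a (.f (nat_lit 463) (nat_lit 431) (nat_lit 6574) (.f (nat_lit 495) (nat_lit 590) (nat_lit 6606) (.f (nat_lit 529) (nat_lit 493) (nat_lit 493) (.d (nat_lit 530) (nat_lit 497) (nat_lit 494) (nat_lit 531) (nat_lit 3567))))) (.a (.f (nat_lit 463) (nat_lit 431) (nat_lit 6574) (.f (nat_lit 590) (nat_lit 495) (nat_lit 6606) (.d (nat_lit 589) (nat_lit 557) (nat_lit 5581) (nat_lit 621) (nat_lit 5613)))) (.a (.f (nat_lit 589) (nat_lit 557) (nat_lit 5581) (.f (nat_lit 590) (nat_lit 621) (nat_lit 5613) (.d (nat_lit 591) (nat_lit 559) (nat_lit 4558) (nat_lit 623) (nat_lit 4590)))) (.p (nat_lit 430) (.a (.d (nat_lit 431) (nat_lit 399) (nat_lit 6542) (nat_lit 463) (nat_lit 6574)) (.a (.f (nat_lit 399) (nat_lit 431) (nat_lit 6542) (.f (nat_lit 398) (nat_lit 367) (nat_lit 6510) (.d (nat_lit 397) (nat_lit 365) (nat_lit 7533) (nat_lit 429) (nat_lit 7565)))) (.a (.f (nat_lit 397) (nat_lit 429) (nat_lit 7565) (.f (nat_lit 398) (nat_lit 365) (nat_lit 7533) (.f (nat_lit 367) (nat_lit 399) (nat_lit 6510) (.f (nat_lit 366) (nat_lit 335) (nat_lit 6478) (.f (nat_lit 495) (nat_lit 463) (nat_lit 4462) (.f (nat_lit 529) (nat_lit 493) (nat_lit 493) (.d (nat_lit 530) (nat_lit 497) (nat_lit 494) (nat_lit 531) (nat_lit 3567)))))))) (.f (nat_lit 463) (nat_lit 431) (nat_lit 6574) (.f (nat_lit 397) (nat_lit 429) (nat_lit 7565) (.f (nat_lit 398) (nat_lit 365) (nat_lit 7533) (.f (nat_lit 495) (nat_lit 366) (nat_lit 4462) (.f (nat_lit 493) (nat_lit 529) (nat_lit 493) (.d (nat_lit 464) (nat_lit 465) (nat_lit 1485) (nat_lit 492) (nat_lit 2508))))))))))))))) (.a s21409 (.a s21418 s21379)))))) (.a (.p (nat_lit 494) (.a s19513 (.a s19815 (.a (.p (nat_lit 527) (.a (.f (nat_lit 525) (nat_lit 497) (nat_lit 2541) (.d (nat_lit 557) (nat_lit 430) (nat_lit 5549) (nat_lit 556) (nat_lit 1548))) (.a (.f (nat_lit 529) (nat_lit 493) (nat_lit 3565) (.f (nat_lit 561) (nat_lit 562) (nat_lit 526) (.f (nat_lit 464) (nat_lit 432) (nat_lit 4528) (.d (nat_lit 593) (nat_lit 497) (nat_lit 7632) (nat_lit 625) (nat_lit 7664))))) (.f (nat_lit 493) (nat_lit 529) (nat_lit 3565) (.d (nat_lit 492) (nat_lit 491) (nat_lit 491) (nat_lit 525) (nat_lit 3564)))))) (.a (.p (nat_lit 527) (.a (.f (nat_lit 430) (nat_lit 559) (nat_lit 4526) (.f (nat_lit 397) (nat_lit 429) (nat_lit 7565) (.f (nat_lit 398) (nat_lit 365) (nat_lit 7533) (.d (nat_lit 399) (nat_lit 367) (nat_lit 6510) (nat_lit 431) (nat_lit 6542))))) (.f (nat_lit 529) (nat_lit 493) (nat_lit 3565) (.f (nat_lit 561) (nat_lit 562) (nat_lit 526) (.f (nat_lit 464) (nat_lit 432) (nat_lit 4528) (.d (nat_lit 593) (nat_lit 497) (nat_lit 7632) (nat_lit 625) (nat_lit 7664))))))) (.a s19530 s20454)))))) (.a s20842 (.a (.p (nat_lit 527) (.a (.p (nat_lit 559) (.a (.f (nat_lit 494) (nat_lit 430) (nat_lit 4526) (.d (nat_lit 591) (nat_lit 495) (nat_lit 7630) (nat_lit 558) (nat_lit 4558))) (.a (.f (nat_lit 494) (nat_lit 430) (nat_lit 4526) (.d (nat_lit 591) (nat_lit 558) (nat_lit 4558) (nat_lit 623) (nat_lit 6639))) (.a (.f (nat_lit 464) (nat_lit 432) (nat_lit 5551) (.d (nat_lit 591) (nat_lit 495) (nat_lit 6607) (nat_lit 623) (nat_lit 6639))) (.f (nat_lit 430) (nat_lit 494) (nat_lit 4526) (.f (nat_lit 463) (nat_lit 495) (nat_lit 7598) (.f (nat_lit 464) (nat_lit 432) (nat_lit 5551) (.f (nat_lit 429) (nat_lit 465) (nat_lit 3501) (.d (nat_lit 428) (nat_lit 427) (nat_lit 427) (nat_lit 431) (nat_lit 428)))))))))) (.a (.p (nat_lit 494) (.a (.f (nat_lit 430) (nat_lit 559) (nat_lit 4526) (.f (nat_lit 397) (nat_lit 429) (nat_lit 7565) (.f (nat_lit 398) (nat_lit 365) (nat_lit 7533) (.d (nat_lit 399) (nat_lit 367) (nat_lit 6510) (nat_lit 431) (nat_lit 6542))))) (.f (nat_lit 529) (nat_lit 493) (nat_lit 3565) (.f (nat_lit 561) (nat_lit 562) (nat_lit 526) (.f (nat_lit 464) (nat_lit 432) (nat_lit 4528) (.d (nat_lit 593) (nat_lit 497) (nat_lit 7632) (nat_lit 625) (nat_lit 7664))))))) (.a (.p (nat_lit 494) (.a (.f (nat_lit 430) (nat_lit 559) (nat_lit 4526) (.f (nat_lit 397) (nat_lit 429) (nat_lit 7565) (.f (nat_lit 398) (nat_lit 365) (nat_lit 7533) (.d (nat_lit 399) (nat_lit 367) (nat_lit 6510) (nat_lit 431) (nat_lit 6542))))) (.f (nat_lit 493) (nat_lit 529) (nat_lit 3565) (.d (nat_lit 492) (nat_lit 491) (nat_lit 491) (nat_lit 495) (nat_lit 492))))) (.a (.p (nat_lit 529) (.a (.f (nat_lit 561) (nat_lit 562) (nat_lit 526) (.f (nat_lit 464) (nat_lit 432) (nat_lit 4528) (.d (nat_lit 593) (nat_lit 497) (nat_lit 7632) (nat_lit 625) (nat_lit 7664)))) (.a (.f (nat_lit 562) (nat_lit 561) (nat_lit 526) (.f (nat_lit 530) (nat_lit 563) (nat_lit 527) (.d (nat_lit 495) (nat_lit 494) (nat_lit 3566) (nat_lit 531) (nat_lit 3567)))) (.f (nat_lit 494) (nat_lit 493) (nat_lit 3565) (.f (nat_lit 495) (nat_lit 530) (nat_lit 3566) (.f (nat_lit 558) (nat_lit 557) (nat_lit 1549) (.d (nat_lit 463) (nat_lit 431) (nat_lit 5550) (nat_lit 590) (nat_lit 6606)))))))) (.p (nat_lit 529) (.a (.f (nat_lit 561) (nat_lit 562) (nat_lit 526) (.f (nat_lit 464) (nat_lit 432) (nat_lit 4528) (.d (nat_lit 593) (nat_lit 497) (nat_lit 7632) (nat_lit 625) (nat_lit 7664)))) (.a (.f (nat_lit 558) (nat_lit 557) (nat_lit 1549) (.f (nat_lit 530) (nat_lit 559) (nat_lit 1550) (.d (nat_lit 562) (nat_lit 561) (nat_lit 526) (nat_lit 563) (nat_lit 527)))) (.f (nat_lit 558) (nat_lit 557) (nat_lit 1549) (.f (nat_lit 559) (nat_lit 530) (nat_lit 1550) (.f (nat_lit 591) (nat_lit 623) (nat_lit 6639) (.d (nat_lit 464) (nat_lit 432) (nat_lit 5551) (nat_lit 495) (nat_lit 6607))))))))))))) (.a (.p (nat_lit 527) (.a (.f (nat_lit 525) (nat_lit 497) (nat_lit 2541) (.f (nat_lit 524) (nat_lit 495) (nat_lit 2540) (.d (nat_lit 492) (nat_lit 491) (nat_lit 3563) (nat_lit 493) (nat_lit 3564)))) (.a (.p (nat_lit 529) (.a (.f (nat_lit 561) (nat_lit 562) (nat_lit 526) (.f (nat_lit 464) (nat_lit 432) (nat_lit 4528) (.d (nat_lit 593) (nat_lit 497) (nat_lit 7632) (nat_lit 625) (nat_lit 7664)))) (.a (.f (nat_lit 558) (nat_lit 557) (nat_lit 1549) (.f (nat_lit 530) (nat_lit 559) (nat_lit 1550) (.d (nat_lit 562) (nat_lit 561) (nat_lit 526) (nat_lit 563) (nat_lit 527)))) (.f (nat_lit 525) (nat_lit 497) (nat_lit 2541) (.d (nat_lit 557) (nat_lit 556) (nat_lit 1548) (nat_lit 558) (nat_lit 1549)))))) (.a (.p (nat_lit 529) (.a (.f (nat_lit 561) (nat_lit 562) (nat_lit 526) (.f (nat_lit 464) (nat_lit 432) (nat_lit 4528) (.d (nat_lit 593) (nat_lit 497) (nat_lit 7632) (nat_lit 625) (nat_lit 7664)))) (.a (.f (nat_lit 558) (nat_lit 557) (nat_lit 1549) (.f (nat_lit 530) (nat_lit 559) (nat_lit 1550) (.d (nat_lit 562) (nat_lit 561) (nat_lit 526) (nat_lit 563) (nat_lit 527)))) (.f (nat_lit 558) (nat_lit 557) (nat_lit 1549) (.f (nat_lit 559) (nat_lit 530) (nat_lit 1550) (.f (nat_lit 591) (nat_lit 623) (nat_lit 6639) (.d (nat_lit 464) (nat_lit 432) (nat_lit 5551) (nat_lit 495) (nat_lit 6607)))))))) (.p (nat_lit 495) (.a (.p (nat_lit 464) (.a (.f (nat_lit 432) (nat_lit 400) (nat_lit 5519) (.f (nat_lit 431) (nat_lit 399) (nat_lit 7567) (.f (nat_lit 463) (nat_lit 558) (nat_lit 5550) (.d (nat_lit 433) (nat_lit 401) (nat_lit 6544) (nat_lit 434) (nat_lit 1454))))) (.a (.f (nat_lit 559) (nat_lit 591) (nat_lit 6607) (.f (nat_lit 463) (nat_lit 430) (nat_lit 7598) (.d (nat_lit 431) (nat_lit 399) (nat_lit 4495) (nat_lit 558) (nat_lit 5550)))) (.d (nat_lit 432) (nat_lit 400) (nat_lit 5519) (nat_lit 559) (nat_lit 5551))))) (.a (.p (nat_lit 463) (.a (.d (nat_lit 431) (nat_lit 399) (nat_lit 4495) (nat_lit 558) (nat_lit 5550)) (.a (.f (nat_lit 431) (nat_lit 399) (nat_lit 4495) (.d (nat_lit 430) (nat_lit 398) (nat_lit 7566) (nat_lit 559) (nat_lit 7598))) (.f (nat_lit 559) (nat_lit 430) (nat_lit 7598) (.f (nat_lit 591) (nat_lit 623) (nat_lit 6639) (.d (nat_lit 590) (nat_lit 558) (nat_lit 5582) (nat_lit 622) (nat_lit 5614))))))) (.a (.f (nat_lit 525) (nat_lit 524) (nat_lit 2540) (.f (nat_lit 557) (nat_lit 556) (nat_lit 1548) (.f (nat_lit 529) (nat_lit 558) (nat_lit 1549) (.f (nat_lit 530) (nat_lit 531) (nat_lit 3567) (.d (nat_lit 562) (nat_lit 561) (nat_lit 526) (nat_lit 563) (nat_lit 527)))))) (.p (nat_lit 463) (.a (.f (nat_lit 431) (nat_lit 399) (nat_lit 4495) (.d (nat_lit 430) (nat_lit 398) (nat_lit 7566) (nat_lit 559) (nat_lit 7598))) (.a (.f (nat_lit 431) (nat_lit 399) (nat_lit 4495) (.f (nat_lit 432) (nat_lit 400) (nat_lit 6543) (.f (nat_lit 430) (nat_lit 398) (nat_lit 7566) (.f (nat_lit 433) (nat_lit 434) (nat_lit 1454) (.d (nat_lit 401) (nat_lit 402) (nat_lit 2446) (nat_lit 464) (nat_lit 6544)))))) (.a (.f (nat_lit 559) (nat_lit 430) (nat_lit 7598) (.d (nat_lit 464) (nat_lit 432) (nat_lit 6575) (nat_lit 591) (nat_lit 6607))) (.f (nat_lit 431) (nat_lit 399) (nat_lit 4495) (.f (nat_lit 432) (nat_lit 400) (nat_lit 6543) (.f (nat_lit 464) (nat_lit 559) (nat_lit 5551) (.d (nat_lit 433) (nat_lit 401) (nat_lit 6544) (nat_lit 434) (nat_lit 1454))))))))))))))))) (.a (.p (nat_lit 494) (.a s19815 (.a (.p (nat_lit 527) (.a (.f (nat_lit 430) (nat_lit 559) (nat_lit 4526) (.f (nat_lit 397) (nat_lit 429) (nat_lit 7565) (.f (nat_lit 398) (nat_lit 365) (nat_lit 7533) (.d (nat_lit 399) (nat_lit 367) (nat_lit 6510) (nat_lit 431) (nat_lit 6542))))) (.f (nat_lit 493) (nat_lit 529) (nat_lit 3565) (.d (nat_lit 492) (nat_lit 491) (nat_lit 491) (nat_lit 495) (nat_lit 492))))) (.a s20769 (.a s21087 (.a s21091 (.p (nat_lit 558) (.a (.f (nat_lit 557) (nat_lit 589) (nat_lit 5581) (.f (nat_lit 527) (nat_lit 529) (nat_lit 1549) (.d (nat_lit 556) (nat_lit 525) (nat_lit 1548) (nat_lit 555) (nat_lit 2571)))) (.a (.f (nat_lit 463) (nat_lit 431) (nat_lit 6574) (.f (nat_lit 590) (nat_lit 495) (nat_lit 6606) (.d (nat_lit 589) (nat_lit 557) (nat_lit 5581) (nat_lit 621) (nat_lit 5613)))) (.f (nat_lit 463) (nat_lit 431) (nat_lit 6574) (.f (nat_lit 495) (nat_lit 590) (nat_lit 6606) (.f (nat_lit 493) (nat_lit 529) (nat_lit 493) (.d (nat_lit 464) (nat_lit 465) (nat_lit 1485) (nat_lit 492) (nat_lit 2508)))))))))))))) (.a s21266 (.a (.p (nat_lit 494) (.a (.p (nat_lit 527) (.a (.f (nat_lit 430) (nat_lit 559) (nat_lit 4526) (.f (nat_lit 397) (nat_lit 429) (nat_lit 7565) (.f (nat_lit 398) (nat_lit 365) (nat_lit 7533) (.d (nat_lit 399) (nat_lit 367) (nat_lit 6510) (nat_lit 431) (nat_lit 6542))))) (.f (nat_lit 529) (nat_lit 493) (nat_lit 3565) (.f (nat_lit 561) (nat_lit 562) (nat_lit 526) (.f (nat_lit 464) (nat_lit 432) (nat_lit 4528) (.d (nat_lit 593) (nat_lit 497) (nat_lit 7632) (nat_lit 625) (nat_lit 7664))))))) (.a s19829 (.a s21418 (.a (.p (nat_lit 527) (.a (.f (nat_lit 430) (nat_lit 559) (nat_lit 4526) (.f (nat_lit 397) (nat_lit 429) (nat_lit 7565) (.f (nat_lit 398) (nat_lit 365) (nat_lit 7533) (.d (nat_lit 399) (nat_lit 367) (nat_lit 6510) (nat_lit 431) (nat_lit 6542))))) (.f (nat_lit 493) (nat_lit 529) (nat_lit 3565) (.d (nat_lit 492) (nat_lit 491) (nat_lit 491) (nat_lit 495) (nat_lit 492))))) (.a s21279 (.p (nat_lit 527) (.a (.f (nat_lit 529) (nat_lit 493) (nat_lit 3565) (.f (nat_lit 561) (nat_lit 562) (nat_lit 526) (.f (nat_lit 464) (nat_lit 432) (nat_lit 4528) (.d (nat_lit 593) (nat_lit 497) (nat_lit 7632) (nat_lit 625) (nat_lit 7664))))) (.f (nat_lit 559) (nat_lit 430) (nat_lit 4526) (.d (nat_lit 591) (nat_lit 558) (nat_lit 4558) (nat_lit 623) (nat_lit 6639))))))))))) (.a s21451 s19718)))))))))))) (.a (.p (nat_lit 526) (.a s19712 (.a (.p (nat_lit 494) (.a s19529 (.a s19545 (.a s19728 (.a (.p (nat_lit 464) (.a (.p (nat_lit 527) (.a (.f (nat_lit 525) (nat_lit 497) (nat_lit 2541) (.f (nat_lit 493) (nat_lit 492) (nat_lit 3564) (.d (nat_lit 557) (nat_lit 556) (nat_lit 1548) (nat_lit 589) (nat_lit 6605)))) (.f (nat_lit 432) (nat_lit 559) (nat_lit 5551) (.f (nat_lit 433) (nat_lit 401) (nat_lit 6544) (.f (nat_lit 463) (nat_lit 461) (nat_lit 2477) (.d (nat_lit 431) (nat_lit 399) (nat_lit 7567) (nat_lit 434) (nat_lit 1454))))))) (.a (.p (nat_lit 495) (.a (.f (nat_lit 493) (nat_lit 465) (nat_lit 2509) (.f (nat_lit 463) (nat_lit 492) (nat_lit 2508) (.f (nat_lit 461) (nat_lit 460) (nat_lit 460) (.d (nat_lit 429) (nat_lit 397) (nat_lit 4493) (nat_lit 428) (nat_lit 3500))))) (.a (.d (nat_lit 497) (nat_lit 461) (nat_lit 3533) (nat_lit 525) (nat_lit 1517)) (.f (nat_lit 465) (nat_lit 493) (nat_lit 2509) (.d (nat_lit 466) (nat_lit 463) (nat_lit 1486) (nat_lit 467) (nat_lit 1487)))))) (.a (.p (nat_lit 495) (.a (.f (nat_lit 493) (nat_lit 465) (nat_lit 2509) (.f (nat_lit 463) (nat_lit 492) (nat_lit 2508) (.f (nat_lit 461) (nat_lit 460) (nat_lit 460) (.d (nat_lit 429) (nat_lit 397) (nat_lit 4493) (nat_lit 428) (nat_lit 3500))))) (.a (.f (nat_lit 461) (nat_lit 497) (nat_lit 3533) (.d (nat_lit 460) (nat_lit 459) (nat_lit 459) (nat_lit 463) (nat_lit 460))) (.a (.f (nat_lit 493) (nat_lit 465) (nat_lit 2509) (.d (nat_lit 461) (nat_lit 460) (nat_lit 3532) (nat_lit 497) (nat_lit 3533))) (.f (nat_lit 465) (nat_lit 493) (nat_lit 2509) (.d (nat_lit 466) (nat_lit 463) (nat_lit 1486) (nat_lit 467) (nat_lit 1487))))))) (.a (.p (nat_lit 432) (.a (.f (nat_lit 399) (nat_lit 431) (nat_lit 7567) (.f (nat_lit 400) (nat_lit 367) (nat_lit 7535) (.d (nat_lit 401) (nat_lit 369) (nat_lit 6512) (nat_lit 433) (nat_lit 6544)))) (.a (.f (nat_lit 433) (nat_lit 401) (nat_lit 6544) (.f (nat_lit 463) (nat_lit 461) (nat_lit 2477) (.d (nat_lit 434) (nat_lit 435) (nat_lit 1455) (nat_lit 465) (nat_lit 2478)))) (.f (nat_lit 527) (nat_lit 559) (nat_lit 5551) (.f (nat_lit 495) (nat_lit 400) (nat_lit 5519) (.d (nat_lit 493) (nat_lit 465) (nat_lit 2509) (nat_lit 492) (nat_lit 492))))))) (.a (.p (nat_lit 527) (.a (.f (nat_lit 432) (nat_lit 559) (nat_lit 5551) (.f (nat_lit 433) (nat_lit 401) (nat_lit 6544) (.f (nat_lit 463) (nat_lit 461) (nat_lit 2477) (.d (nat_lit 431) (nat_lit 399) (nat_lit 7567) (nat_lit 434) (nat_lit 1454))))) (.f (nat_lit 525) (nat_lit 497) (nat_lit 2541) (.f (nat_lit 524) (nat_lit 495) (nat_lit 2540) (.d (nat_lit 556) (nat_lit 555) (nat_lit 1547) (nat_lit 557) (nat_lit 1548)))))) (.p (nat_lit 527) (.a (.f (nat_lit 525) (nat_lit 497) (nat_lit 2541) (.f (nat_lit 493) (nat_lit 492) (nat_lit 3564) (.d (nat_lit 557) (nat_lit 556) (nat_lit 1548) (nat_lit 589) (nat_lit 6605)))) (.a (.f (nat_lit 432) (nat_lit 559) (nat_lit 5551) (.f (nat_lit 495) (nat_lit 400) (nat_lit 5519) (.d (nat_lit 493) (nat_lit 465) (nat_lit 2509) (nat_lit 492) (nat_lit 492)))) (.f (nat_lit 525) (nat_lit 497) (nat_lit 2541) (.f (nat_lit 524) (nat_lit 495) (nat_lit 2540) (.d (nat_lit 556) (nat_lit 555) (nat_lit 1547) (nat_lit 557) (nat_lit 1548))))))))))))) (.a (.p (nat_lit 558) (.a (.f (nat_lit 461) (nat_lit 429) (nat_lit 7597) (.f (nat_lit 495) (nat_lit 497) (nat_lit 3533) (.d (nat_lit 460) (nat_lit 459) (nat_lit 459) (nat_lit 463) (nat_lit 460)))) (.f (nat_lit 589) (nat_lit 557) (nat_lit 5581) (.f (nat_lit 590) (nat_lit 621) (nat_lit 5613) (.d (nat_lit 591) (nat_lit 559) (nat_lit 4558) (nat_lit 623) (nat_lit 4590)))))) s19830)))))) (.a (.p (nat_lit 494) (.a s19545 (.a s19972 (.a s19728 (.a (.p (nat_lit 495) (.a (.d (nat_lit 497) (nat_lit 461) (nat_lit 3533) (nat_lit 525) (nat_lit 1517)) (.a (.f (nat_lit 461) (nat_lit 497) (nat_lit 3533) (.d (nat_lit 460) (nat_lit 459) (nat_lit 459) (nat_lit 463) (nat_lit 460))) (.a (.f (nat_lit 493) (nat_lit 529) (nat_lit 493) (.f (nat_lit 461) (nat_lit 460) (nat_lit 3532) (.f (nat_lit 464) (nat_lit 465) (nat_lit 2509) (.f (nat_lit 463) (nat_lit 492) (nat_lit 1484) (.d (nat_lit 429) (nat_lit 397) (nat_lit 4493) (nat_lit 428) (nat_lit 3500)))))) (.f (nat_lit 525) (nat_lit 497) (nat_lit 1517) (.d (nat_lit 524) (nat_lit 493) (nat_lit 1516) (nat_lit 523) (nat_lit 2539))))))) (.a s20052 (.a (.p (nat_lit 558) (.a (.f (nat_lit 461) (nat_lit 429) (nat_lit 7597) (.f (nat_lit 495) (nat_lit 497) (nat_lit 3533) (.d (nat_lit 460) (nat_lit 459) (nat_lit 459) (nat_lit 463) (nat_lit 460)))) (.f (nat_lit 589) (nat_lit 557) (nat_lit 5581) (.f (nat_lit 590) (nat_lit 621) (nat_lit 5613) (.d (nat_lit 591) (nat_lit 559) (nat_lit 4558) (nat_lit 623) (nat_lit 4590)))))) s21418))))))) (.a (.p (nat_lit 558) (.a (.p (nat_lit 494) (.a (.f (nat_lit 591) (nat_lit 559) (nat_lit 4558) (.f (nat_lit 590) (nat_lit 623) (nat_lit 4590) (.d (nat_lit 461) (nat_lit 429) (nat_lit 7597) (nat_lit 493) (nat_lit 7629)))) (.f (nat_lit 557) (nat_lit 589) (nat_lit 5581) (.f (nat_lit 527) (nat_lit 529) (nat_lit 1549) (.d (nat_lit 556) (nat_lit 525) (nat_lit 1548) (nat_lit 555) (nat_lit 2571)))))) (.a (.p (nat_lit 494) (.a (.f (nat_lit 591) (nat_lit 559) (nat_lit 4558) (.f (nat_lit 590) (nat_lit 623) (nat_lit 4590) (.d (nat_lit 461) (nat_lit 429) (nat_lit 7597) (nat_lit 493) (nat_lit 7629)))) (.a (.f (nat_lit 461) (nat_lit 429) (nat_lit 7597) (.f (nat_lit 463) (nat_lit 431) (nat_lit 6574) (.f (nat_lit 493) (nat_lit 590) (nat_lit 7629) (.d (nat_lit 464) (nat_lit 465) (nat_lit 1485) (nat_lit 492) (nat_lit 1484))))) (.a (.f (nat_lit 589) (nat_lit 557) (nat_lit 5581) (.f (nat_lit 590) (nat_lit 621) (nat_lit 5613) (.d (nat_lit 591) (nat_lit 559) (nat_lit 4558) (nat_lit 623) (nat_lit 4590)))) (.f (nat_lit 557) (nat_lit 589) (nat_lit 5581) (.f (nat_lit 559) (nat_lit 591) (nat_lit 4558) (.f (nat_lit 556) (nat_lit 527) (nat_lit 2572) (.f (nat_lit 523) (nat_lit 524) (nat_lit 3595) (.f (nat_lit 555) (nat_lit 522) (nat_lit 3594) (.d (nat_lit 587) (nat_lit 586) (nat_lit 1578) (nat_lit 588) (nat_lit 1579))))))))))) (.a (.p (nat_lit 494) (.a (.f (nat_lit 591) (nat_lit 559) (nat_lit 4558) (.f (nat_lit 590) (nat_lit 623) (nat_lit 4590) (.d (nat_lit 461) (nat_lit 429) (nat_lit 7597) (nat_lit 493) (nat_lit 7629)))) (.a (.f (nat_lit 461) (nat_lit 429) (nat_lit 7597) (.f (nat_lit 463) (nat_lit 431) (nat_lit 6574) (.f (nat_lit 493) (nat_lit 590) (nat_lit 7629) (.d (nat_lit 464) (nat_lit 465) (nat_lit 1485) (nat_lit 492) (nat_lit 1484))))) (.a (.f (nat_lit 589) (nat_lit 557) (nat_lit 5581) (.f (nat_lit 590) (nat_lit 621) (nat_lit 5613) (.d (nat_lit 591) (nat_lit 559) (nat_lit 4558) (nat_lit 623) (nat_lit 4590)))) (.f (nat_lit 461) (nat_lit 429) (nat_lit 7597) (.f (nat_lit 463) (nat_lit 431) (nat_lit 6574) (.f (nat_lit 464) (nat_lit 497) (nat_lit 461) (.d (nat_lit 493) (nat_lit 465) (nat_lit 1485) (nat_lit 492) (nat_lit 1484))))))))) (.a (.p (nat_lit 494) (.a (.f (nat_lit 557) (nat_lit 589) (nat_lit 5581) (.f (nat_lit 527) (nat_lit 529) (nat_lit 1549) (.d (nat_lit 556) (nat_lit 525) (nat_lit 1548) (nat_lit 555) (nat_lit 2571)))) (.f (nat_lit 461) (nat_lit 429) (nat_lit 7597) (.f (nat_lit 463) (nat_lit 431) (nat_lit 6574) (.f (nat_lit 493) (nat_lit 590) (nat_lit 7629) (.d (nat_lit 464) (nat_lit 465) (nat_lit 1485) (nat_lit 492) (nat_lit 1484))))))) (.a (.p (nat_lit 527) (.a (.f (nat_lit 525) (nat_lit 497) (nat_lit 2541) (.d (nat_lit 557) (nat_lit 529) (nat_lit 1549) (nat_lit 556) (nat_lit 1548))) (.a (.f (nat_lit 525) (nat_lit 497) (nat_lit 2541) (.f (nat_lit 492) (nat_lit 493) (nat_lit 3564) (.f (nat_lit 524) (nat_lit 491) (nat_lit 3563) (.f (nat_lit 523) (nat_lit 559) (nat_lit 523) (.d (nat_lit 555) (nat_lit 554) (nat_lit 1546) (nat_lit 556) (nat_lit 1547)))))) (.a (.f (nat_lit 529) (nat_lit 557) (nat_lit 1549) (.f (nat_lit 561) (nat_lit 562) (nat_lit 526) (.f (nat_lit 464) (nat_lit 432) (nat_lit 4528) (.d (nat_lit 593) (nat_lit 497) (nat_lit 7632) (nat_lit 625) (nat_lit 7664))))) (.f (nat_lit 529) (nat_lit 557) (nat_lit 1549) (.f (nat_lit 530) (nat_lit 559) (nat_lit 1550) (.d (nat_lit 562) (nat_lit 561) (nat_lit 526) (nat_lit 563) (nat_lit 527)))))))) (.a s21290 (.p (nat_lit 494) (.a (.f (nat_lit 591) (nat_lit 559) (nat_lit 4558) (.f (nat_lit 590) (nat_lit 623) (nat_lit 4590) (.d (nat_lit 461) (nat_lit 429) (nat_lit 7597) (nat_lit 493) (nat_lit 7629)))) (.a (.f (nat_lit 461) (nat_lit 429) (nat_lit 7597) (.f (nat_lit 463) (nat_lit 431) (nat_lit 6574) (.f (nat_lit 493) (nat_lit 590) (nat_lit 7629) (.d (nat_lit 464) (nat_lit 465) (nat_lit 1485) (nat_lit 492) (nat_lit 1484))))) (.a (.f (nat_lit 559) (nat_lit 591) (nat_lit 4558) (.f (nat_lit 461) (nat_lit 429) (nat_lit 7597) (.f (nat_lit 463) (nat_lit 431) (nat_lit 6574) (.f (nat_lit 464) (nat_lit 497) (nat_lit 461) (.d (nat_lit 432) (nat_lit 433) (nat_lit 2477) (nat_lit 527) (nat_lit 5551)))))) (.f (nat_lit 591) (nat_lit 559) (nat_lit 4558) (.f (nat_lit 590) (nat_lit 623) (nat_lit 4590) (.f (nat_lit 621) (nat_lit 589) (nat_lit 5613) (.f (nat_lit 622) (nat_lit 653) (nat_lit 5645) (.f (nat_lit 493) (nat_lit 525) (nat_lit 7661) (.f (nat_lit 463) (nat_lit 431) (nat_lit 6574) (.f (nat_lit 464) (nat_lit 465) (nat_lit 1485) (.f (nat_lit 529) (nat_lit 527) (nat_lit 3565) (.f (nat_lit 432) (nat_lit 561) (nat_lit 4528) (.f (nat_lit 400) (nat_lit 497) (nat_lit 4496) (.d (nat_lit 401) (nat_lit 369) (nat_lit 6512) (nat_lit 433) (nat_lit 6544))))))))))))))))))))))) (.a (.p (nat_lit 494) (.a s19545 (.a (.p (nat_lit 558) (.a (.f (nat_lit 591) (nat_lit 559) (nat_lit 4558) (.f (nat_lit 590) (nat_lit 623) (nat_lit 4590) (.d (nat_lit 461) (nat_lit 429) (nat_lit 7597) (nat_lit 493) (nat_lit 7629)))) (.f (nat_lit 557) (nat_lit 589) (nat_lit 5581) (.f (nat_lit 527) (nat_lit 529) (nat_lit 1549) (.d (nat_lit 556) (nat_lit 525) (nat_lit 1548) (nat_lit 555) (nat_lit 2571)))))) (.a (.p (nat_lit 558) (.a (.f (nat_lit 463) (nat_lit 431) (nat_lit 6574) (.f (nat_lit 495) (nat_lit 590) (nat_lit 6606) (.d (nat_lit 461) (nat_lit 429) (nat_lit 7597) (nat_lit 460) (nat_lit 460)))) (.f (nat_lit 557) (nat_lit 589) (nat_lit 5581) (.f (nat_lit 527) (nat_lit 529) (nat_lit 1549) (.d (nat_lit 556) (nat_lit 525) (nat_lit 1548) (nat_lit 555) (nat_lit 2571)))))) (.a (.p (nat_lit 527) (.a (.f (nat_lit 525) (nat_lit 497) (nat_lit 2541) (.f (nat_lit 493) (nat_lit 492) (nat_lit 3564) (.d (nat_lit 557) (nat_lit 556) (nat_lit 1548) (nat_lit 589) (nat_lit 6605)))) (.a (.f (nat_lit 493) (nat_lit 529) (nat_lit 3565) (.d (nat_lit 492) (nat_lit 491) (nat_lit 491) (nat_lit 495) (nat_lit 492))) (.f (nat_lit 525) (nat_lit 497) (nat_lit 2541) (.f (nat_lit 524) (nat_lit 495) (nat_lit 2540) (.d (nat_lit 556) (nat_lit 555) (nat_lit 1547) (nat_lit 557) (nat_lit 1548))))))) (.p (nat_lit 558) (.a (.f (nat_lit 461) (nat_lit 429) (nat_lit 7597) (.f (nat_lit 495) (nat_lit 497) (nat_lit 3533) (.d (nat_lit 460) (nat_lit 459) (nat_lit 459) (nat_lit 463) (nat_lit 460)))) (.a (.f (nat_lit 591) (nat_lit 559) (nat_lit 4558) (.f (nat_lit 590) (nat_lit 623) (nat_lit 4590) (.d (nat_lit 461) (nat_lit 429) (nat_lit 7597) (nat_lit 493) (nat_lit 7629)))) (.f (nat_lit 463) (nat_lit 431) (nat_lit 6574) (.f (nat_lit 495) (nat_lit 590) (nat_lit 6606) (.f (nat_lit 525) (nat_lit 497) (nat_lit 1517) (.d (nat_lit 524) (nat_lit 493) (nat_lit 1516) (nat_lit 523) (nat_lit 2539))))))))))))) (.a s20843 (.a (.p (nat_lit 494) (.a s19529 (.a s19545 (.a s20823 (.a (.p (nat_lit 495) (.a (.f (nat_lit 461) (nat_lit 497) (nat_lit 3533) (.d (nat_lit 460) (nat_lit 459) (nat_lit 459) (nat_lit 463) (nat_lit 460))) (.a (.f (nat_lit 493) (nat_lit 529) (nat_lit 493) (.f (nat_lit 492) (nat_lit 527) (nat_lit 492) (.d (nat_lit 460) (nat_lit 459) (nat_lit 3531) (nat_lit 461) (nat_lit 3532)))) (.f (nat_lit 493) (nat_lit 529) (nat_lit 493) (.f (nat_lit 492) (nat_lit 527) (nat_lit 492) (.d (nat_lit 463) (nat_lit 464) (nat_lit 2508) (nat_lit 491) (nat_lit 2507))))))) (.a (.p (nat_lit 558) (.a (.f (nat_lit 461) (nat_lit 429) (nat_lit 7597) (.f (nat_lit 495) (nat_lit 497) (nat_lit 3533) (.d (nat_lit 460) (nat_lit 459) (nat_lit 459) (nat_lit 463) (nat_lit 460)))) (.f (nat_lit 589) (nat_lit 557) (nat_lit 5581) (.f (nat_lit 590) (nat_lit 621) (nat_lit 5613) (.d (nat_lit 591) (nat_lit 559) (nat_lit 4558) (nat_lit 623) (nat_lit 4590)))))) s21449)))))) (.a s21504 (.a (.p (nat_lit 527) (.a (.f (nat_lit 525) (nat_lit 497) (nat_lit 2541) (.f (nat_lit 524) (nat_lit 495) (nat_lit 2540) (.d (nat_lit 492) (nat_lit 491) (nat_lit 3563) (nat_lit 493) (nat_lit 3564)))) (.a (.f (nat_lit 525) (nat_lit 497) (nat_lit 2541) (.f (nat_lit 557) (nat_lit 556) (nat_lit 1548) (.f (nat_lit 493) (nat_lit 492) (nat_lit 3564) (.d (nat_lit 494) (nat_lit 529) (nat_lit 3565) (nat_lit 589) (nat_lit 6605))))) (.a (.p (nat_lit 529) (.a (.f (nat_lit 561) (nat_lit 562) (nat_lit 526) (.f (nat_lit 464) (nat_lit 432) (nat_lit 4528) (.d (nat_lit 593) (nat_lit 497) (nat_lit 7632) (nat_lit 625) (nat_lit 7664)))) (.a (.f (nat_lit 562) (nat_lit 561) (nat_lit 526) (.f (nat_lit 530) (nat_lit 563) (nat_lit 527) (.d (nat_lit 495) (nat_lit 494) (nat_lit 3566) (nat_lit 531) (nat_lit 3567)))) (.f (nat_lit 494) (nat_lit 493) (nat_lit 3565) (.f (nat_lit 495) (nat_lit 530) (nat_lit 3566) (.f (nat_lit 461) (nat_lit 497) (nat_lit 3533) (.d (nat_lit 460) (nat_lit 459) (nat_lit 459) (nat_lit 463) (nat_lit 460)))))))) (.a (.p (nat_lit 525) (.a (.f (nat_lit 524) (nat_lit 495) (nat_lit 2540) (.d (nat_lit 556) (nat_lit 555) (nat_lit 1547) (nat_lit 557) (nat_lit 1548))) (.a (.f (nat_lit 556) (nat_lit 557) (nat_lit 1548) (.f (nat_lit 524) (nat_lit 555) (nat_lit 1547) (.d (nat_lit 492) (nat_lit 491) (nat_lit 3563) (nat_lit 493) (nat_lit 3564)))) (.a (.f (nat_lit 524) (nat_lit 495) (nat_lit 2540) (.f (nat_lit 491) (nat_lit 492) (nat_lit 3563) (.f (nat_lit 523) (nat_lit 490) (nat_lit 3562) (.d (nat_lit 555) (nat_lit 554) (nat_lit 1546) (nat_lit 556) (nat_lit 1547))))) (.a (.f (nat_lit 495) (nat_lit 524) (nat_lit 2540) (.f (nat_lit 493) (nat_lit 492) (nat_lit 3564) (.f (nat_lit 494) (nat_lit 529) (nat_lit 493) (.f (nat_lit 464) (nat_lit 465) (nat_lit 2509) (.d (nat_lit 432) (nat_lit 400) (nat_lit 5519) (nat_lit 559) (nat_lit 5551)))))) (.f (nat_lit 493) (nat_lit 492) (nat_lit 3564) (.f (nat_lit 494) (nat_lit 529) (nat_lit 3565) (.d (nat_lit 557) (nat_lit 556) (nat_lit 1548) (nat_lit 589) (nat_lit 6605))))))))) (.f (nat_lit 525) (nat_lit 497) (nat_lit 2541) (.f (nat_lit 524) (nat_lit 495) (nat_lit 2540) (.d (nat_lit 556) (nat_lit 555) (nat_lit 1547) (nat_lit 557) (nat_lit 1548))))))))) (.a (.p (nat_lit 494) (.a s19529 (.a s20052 (.a (.p (nat_lit 558) (.a (.f (nat_lit 463) (nat_lit 431) (nat_lit 6574) (.f (nat_lit 495) (nat_lit 590) (nat_lit 6606) (.d (nat_lit 461) (nat_lit 429) (nat_lit 7597) (nat_lit 460) (nat_lit 460)))) (.f (nat_lit 557) (nat_lit 589) (nat_lit 5581) (.f (nat_lit 527) (nat_lit 529) (nat_lit 1549) (.d (nat_lit 556) (nat_lit 525) (nat_lit 1548) (nat_lit 555) (nat_lit 2571)))))) (.a (.p (nat_lit 464) (.a (.p (nat_lit 493) (.a (.d (nat_lit 465) (nat_lit 463) (nat_lit 1485) (nat_lit 495) (nat_lit 2509)) (.a (.f (nat_lit 463) (nat_lit 465) (nat_lit 1485) (.d (nat_lit 492) (nat_lit 461) (nat_lit 1484) (nat_lit 491) (nat_lit 2507))) (.a (.d (nat_lit 495) (nat_lit 465) (nat_lit 2509) (nat_lit 529) (nat_lit 493)) (.f (nat_lit 495) (nat_lit 529) (nat_lit 493) (.f (nat_lit 463) (nat_lit 492) (nat_lit 2508) (.f (nat_lit 461) (nat_lit 460) (nat_lit 460) (.d (nat_lit 429) (nat_lit 397) (nat_lit 4493) (nat_lit 428) (nat_lit 3500))))))))) (.a (.p (nat_lit 432) (.a (.f (nat_lit 399) (nat_lit 431) (nat_lit 7567) (.f (nat_lit 400) (nat_lit 367) (nat_lit 7535) (.d (nat_lit 401) (nat_lit 369) (nat_lit 6512) (nat_lit 433) (nat_lit 6544)))) (.a (.f (nat_lit 433) (nat_lit 401) (nat_lit 6544) (.f (nat_lit 463) (nat_lit 461) (nat_lit 2477) (.d (nat_lit 434) (nat_lit 435) (nat_lit 1455) (nat_lit 465) (nat_lit 2478)))) (.f (nat_lit 527) (nat_lit 559) (nat_lit 5551) (.f (nat_lit 495) (nat_lit 400) (nat_lit 5519) (.d (nat_lit 493) (nat_lit 465) (nat_lit 2509) (nat_lit 492) (nat_lit 492))))))) (.a (.p (nat_lit 527) (.a (.f (nat_lit 493) (nat_lit 529) (nat_lit 3565) (.d (nat_lit 492) (nat_lit 491) (nat_lit 491) (nat_lit 525) (nat_lit 3564))) (.f (nat_lit 432) (nat_lit 559) (nat_lit 5551) (.f (nat_lit 433) (nat_lit 401) (nat_lit 6544) (.f (nat_lit 463) (nat_lit 461) (nat_lit 2477) (.d (nat_lit 431) (nat_lit 399) (nat_lit 7567) (nat_lit 434) (nat_lit 1454))))))) (.a (.p (nat_lit 432) (.a (.f (nat_lit 399) (nat_lit 431) (nat_lit 7567) (.f (nat_lit 400) (nat_lit 367) (nat_lit 7535) (.d (nat_lit 401) (nat_lit 369) (nat_lit 6512) (nat_lit 433) (nat_lit 6544)))) (.a (.f (nat_lit 433) (nat_lit 401) (nat_lit 6544) (.f (nat_lit 463) (nat_lit 461) (nat_lit 2477) (.d (nat_lit 434) (nat_lit 435) (nat_lit 1455) (nat_lit 465) (nat_lit 2478)))) (.f (nat_lit 527) (nat_lit 559) (nat_lit 5551) (.f (nat_lit 495) (nat_lit 400) (nat_lit 5519) (.d (nat_lit 529) (nat_lit 530) (nat_lit 3566) (nat_lit 561) (nat_lit 4528))))))) (.p (nat_lit 527) (.a (.f (nat_lit 493) (nat_lit 529) (nat_lit 3565) (.d (nat_lit 492) (nat_lit 491) (nat_lit 491) (nat_lit 525) (nat_lit 3564))) (.a (.f (nat_lit 432) (nat_lit 559) (nat_lit 5551) (.f (nat_lit 495) (nat_lit 400) (nat_lit 5519) (.d (nat_lit 493) (nat_lit 465) (nat_lit 2509) (nat_lit 492) (nat_lit 492)))) (.f (nat_lit 432) (nat_lit 559) (nat_lit 5551) (.f (nat_lit 495) (nat_lit 400) (nat_lit 5519) (.d (nat_lit 529) (nat_lit 530) (nat_lit 3566) (nat_lit 561) (nat_lit 4528)))))))))))) (.a (.p (nat_lit 558) (.a (.f (nat_lit 591) (nat_lit 559) (nat_lit 4558) (.f (nat_lit 590) (nat_lit 623) (nat_lit 4590) (.d (nat_lit 461) (nat_lit 429) (nat_lit 7597) (nat_lit 493) (nat_lit 7629)))) (.f (nat_lit 557) (nat_lit 589) (nat_lit 5581) (.f (nat_lit 527) (nat_lit 529) (nat_lit 1549) (.d (nat_lit 556) (nat_lit 525) (nat_lit 1548) (nat_lit 555) (nat_lit 2571)))))) (.p (nat_lit 558) (.a (.f (nat_lit 557) (nat_lit 589) (nat_lit 5581) (.f (nat_lit 527) (nat_lit 529) (nat_lit 1549) (.d (nat_lit 556) (nat_lit 525) (nat_lit 1548) (nat_lit 555) (nat_lit 2571)))) (.a (.f (nat_lit 463) (nat_lit 431) (nat_lit 6574) (.f (nat_lit 590) (nat_lit 495) (nat_lit 6606) (.d (nat_lit 589) (nat_lit 557) (nat_lit 5581) (nat_lit 621) (nat_lit 5613)))) (.f (nat_lit 463) (nat_lit 431) (nat_lit 6574) (.f (nat_lit 495) (nat_lit 590) (nat_lit 6606) (.f (nat_lit 493) (nat_lit 529) (nat_lit 493) (.d (nat_lit 464) (nat_lit 465) (nat_lit 1485) (nat_lit 492) (nat_lit 2508)))))))))))))) (.a s21304 (.a (.p (nat_lit 494) (.a (.p (nat_lit 558) (.a (.f (nat_lit 461) (nat_lit 429) (nat_lit 7597) (.f (nat_lit 495) (nat_lit 497) (nat_lit 3533) (.d (nat_lit 460) (nat_lit 459) (nat_lit 459) (nat_lit 463) (nat_lit 460)))) (.a (.f (nat_lit 591) (nat_lit 559) (nat_lit 4558) (.f (nat_lit 590) (nat_lit 623) (nat_lit 4590) (.d (nat_lit 461) (nat_lit 429) (nat_lit 7597) (nat_lit 493) (nat_lit 7629)))) (.f (nat_lit 463) (nat_lit 431) (nat_lit 6574) (.f (nat_lit 495) (nat_lit 590) (nat_lit 6606) (.f (nat_lit 525) (nat_lit 497) (nat_lit 1517) (.d (nat_lit 524) (nat_lit 493) (nat_lit 1516) (nat_lit 523) (nat_lit 2539)))))))) (.a s20445 (.a s19728 (.a s20823 (.a (.p (nat_lit 495) (.a (.f (nat_lit 461) (nat_lit 497) (nat_lit 3533) (.d (nat_lit 460) (nat_lit 459) (nat_lit 459) (nat_lit 463) (nat_lit 460))) (.a (.f (nat_lit 493) (nat_lit 529) (nat_lit 493) (.f (nat_lit 492) (nat_lit 527) (nat_lit 492) (.d (nat_lit 460) (nat_lit 459) (nat_lit 3531) (nat_lit 461) (nat_lit 3532)))) (.f (nat_lit 493) (nat_lit 529) (nat_lit 493) (.f (nat_lit 492) (nat_lit 527) (nat_lit 492) (.d (nat_lit 463) (nat_lit 464) (nat_lit 2508) (nat_lit 491) (nat_lit 2507))))))) (.a (.p (nat_lit 558) (.a (.f (nat_lit 463) (nat_lit 431) (nat_lit 6574) (.f (nat_lit 495) (nat_lit 590) (nat_lit 6606) (.d (nat_lit 461) (nat_lit 429) (nat_lit 7597) (nat_lit 460) (nat_lit 460)))) (.a (.f (nat_lit 591) (nat_lit 559) (nat_lit 4558) (.f (nat_lit 590) (nat_lit 623) (nat_lit 4590) (.d (nat_lit 461) (nat_lit 429) (nat_lit 7597) (nat_lit 493) (nat_lit 7629)))) (.a (.f (nat_lit 461) (nat_lit 429) (nat_lit 7597) (.f (nat_lit 463) (nat_lit 431) (nat_lit 6574) (.f (nat_lit 460) (nat_lit 495) (nat_lit 460) (.f (nat_lit 491) (nat_lit 492) (nat_lit 1483) (.f (nat_lit 459) (nat_lit 490) (nat_lit 1482) (.d (nat_lit 427) (nat_lit 426) (nat_lit 3498) (nat_lit 428) (nat_lit 3499))))))) (.f (nat_lit 463) (nat_lit 431) (nat_lit 6574) (.f (nat_lit 495) (nat_lit 590) (nat_lit 6606) (.f (nat_lit 493) (nat_lit 529) (nat_lit 493) (.d (nat_lit 464) (nat_lit 465) (nat_lit 1485) (nat_lit 492) (nat_lit 2508))))))))) (.a s21287 (.a (.p (nat_lit 558) (.a (.f (nat_lit 461) (nat_lit 429) (nat_lit 7597) (.f (nat_lit 493) (nat_lit 590) (nat_lit 7629) (.d (nat_lit 495) (nat_lit 460) (nat_lit 3532) (nat_lit 497) (nat_lit 3533)))) (.a (.f (nat_lit 591) (nat_lit 559) (nat_lit 4558) (.f (nat_lit 590) (nat_lit 623) (nat_lit 4590) (.d (nat_lit 461) (nat_lit 429) (nat_lit 7597) (nat_lit 493) (nat_lit 7629)))) (.a (.f (nat_lit 559) (nat_lit 591) (nat_lit 4558) (.f (nat_lit 461) (nat_lit 429) (nat_lit 7597) (.f (nat_lit 497) (nat_lit 495) (nat_lit 3533) (.f (nat_lit 527) (nat_lit 525) (nat_lit 2541) (.f (nat_lit 529) (nat_lit 530) (nat_lit 1550) (.f (nat_lit 561) (nat_lit 562) (nat_lit 526) (.d (nat_lit 464) (nat_lit 432) (nat_lit 5551) (nat_lit 593) (nat_lit 7632)))))))) (.f (nat_lit 591) (nat_lit 559) (nat_lit 4558) (.f (nat_lit 590) (nat_lit 623) (nat_lit 4590) (.f (nat_lit 621) (nat_lit 589) (nat_lit 5613) (.f (nat_lit 622) (nat_lit 653) (nat_lit 5645) (.f (nat_lit 495) (nat_lit 527) (nat_lit 6638) (.d (nat_lit 493) (nat_lit 525) (nat_lit 7661) (nat_lit 529) (nat_lit 493))))))))))) s21418))))))))) (.a s21451 (.a (.p (nat_lit 494) (.a s19545 (.a s19972 (.a (.p (nat_lit 558) (.a (.f (nat_lit 463) (nat_lit 431) (nat_lit 6574) (.f (nat_lit 495) (nat_lit 590) (nat_lit 6606) (.d (nat_lit 461) (nat_lit 429) (nat_lit 7597) (nat_lit 460) (nat_lit 460)))) (.f (nat_lit 557) (nat_lit 589) (nat_lit 5581) (.f (nat_lit 527) (nat_lit 529) (nat_lit 1549) (.d (nat_lit 556) (nat_lit 525) (nat_lit 1548) (nat_lit 555) (nat_lit 2571)))))) (.a (.p (nat_lit 495) (.a (.f (nat_lit 461) (nat_lit 497) (nat_lit 3533) (.d (nat_lit 460) (nat_lit 459) (nat_lit 459) (nat_lit 463) (nat_lit 460))) (.a (.f (nat_lit 493) (nat_lit 529) (nat_lit 493) (.f (nat_lit 492) (nat_lit 527) (nat_lit 492) (.d (nat_lit 460) (nat_lit 459) (nat_lit 3531) (nat_lit 461) (nat_lit 3532)))) (.f (nat_lit 493) (nat_lit 529) (nat_lit 493) (.f (nat_lit 492) (nat_lit 527) (nat_lit 492) (.d (nat_lit 463) (nat_lit 464) (nat_lit 2508) (nat_lit 491) (nat_lit 2507))))))) s20454))))) (.p (nat_lit 494) (.a s19545 (.a s20403 (.a (.p (nat_lit 558) (.a (.f (nat_lit 463) (nat_lit 431) (nat_lit 6574) (.f (nat_lit 495) (nat_lit 590) (nat_lit 6606) (.d (nat_lit 461) (nat_lit 429) (nat_lit 7597) (nat_lit 460) (nat_lit 460)))) (.f (nat_lit 557) (nat_lit 589) (nat_lit 5581) (.f (nat_lit 527) (nat_lit 529) (nat_lit 1549) (.d (nat_lit 556) (nat_lit 525) (nat_lit 1548) (nat_lit 555) (nat_lit 2571)))))) (.a (.p (nat_lit 527) (.a (.f (nat_lit 529) (nat_lit 493) (nat_lit 3565) (.f (nat_lit 561) (nat_lit 562) (nat_lit 526) (.f (nat_lit 464) (nat_lit 432) (nat_lit 4528) (.d (nat_lit 593) (nat_lit 497) (nat_lit 7632) (nat_lit 625) (nat_lit 7664))))) (.a (.f (nat_lit 525) (nat_lit 497) (nat_lit 2541) (.f (nat_lit 524) (nat_lit 495) (nat_lit 2540) (.d (nat_lit 556) (nat_lit 555) (nat_lit 1547) (nat_lit 557) (nat_lit 1548)))) (.f (nat_lit 529) (nat_lit 493) (nat_lit 3565) (.f (nat_lit 530) (nat_lit 495) (nat_lit 3566) (.d (nat_lit 562) (nat_lit 561) (nat_lit 526) (nat_lit 563) (nat_lit 527))))))) (.p (nat_lit 558) (.a (.f (nat_lit 461) (nat_lit 429) (nat_lit 7597) (.f (nat_lit 495) (nat_lit 497) (nat_lit 3533) (.d (nat_lit 460) (nat_lit 459) (nat_lit 459) (nat_lit 463) (nat_lit 460)))) (.a (.f (nat_lit 591) (nat_lit 559) (nat_lit 4558) (.f (nat_lit 590) (nat_lit 623) (nat_lit 4590) (.d (nat_lit 461) (nat_lit 429) (nat_lit 7597) (nat_lit 493) (nat_lit 7629)))) (.f (nat_lit 463) (nat_lit 431) (nat_lit 6574) (.f (nat_lit 495) (nat_lit 590) (nat_lit 6606) (.f (nat_lit 525) (nat_lit 497) (nat_lit 1517) (.d (nat_lit 524) (nat_lit 493) (nat_lit 1516) (nat_lit 523) (nat_lit 2539)))))))))))))))))))))))))))) (.a (.p (nat_lit 494) (.a s19878 (.a s19720 (.a s20404 (.a (.p (nat_lit 495) (.a (.f (nat_lit 493) (nat_lit 529) (nat_lit 493) (.d (nat_lit 461) (nat_lit 460) (nat_lit 3532) (nat_lit 497) (nat_lit 3533))) (.a (.f (nat_lit 461) (nat_lit 497) (nat_lit 3533) (.d (nat_lit 460) (nat_lit 459) (nat_lit 459) (nat_lit 463) (nat_lit 460))) (.a (.f (nat_lit 493) (nat_lit 529) (nat_lit 493) (.f (nat_lit 461) (nat_lit 460) (nat_lit 3532) (.f (nat_lit 525) (nat_lit 524) (nat_lit 1516) (.d (nat_lit 430) (nat_lit 398) (nat_lit 5517) (nat_lit 557) (nat_lit 6573))))) (.f (nat_lit 529) (nat_lit 493) (nat_lit 493) (.d (nat_lit 530) (nat_lit 497) (nat_lit 494) (nat_lit 527) (nat_lit 3566))))))) (.a (.p (nat_lit 495) (.a (.f (nat_lit 493) (nat_lit 529) (nat_lit 493) (.d (nat_lit 461) (nat_lit 460) (nat_lit 3532) (nat_lit 497) (nat_lit 3533))) (.a (.f (nat_lit 461) (nat_lit 497) (nat_lit 3533) (.d (nat_lit 460) (nat_lit 459) (nat_lit 459) (nat_lit 463) (nat_lit 460))) (.f (nat_lit 529) (nat_lit 493) (nat_lit 493) (.d (nat_lit 530) (nat_lit 527) (nat_lit 3566) (nat_lit 531) (nat_lit 3567)))))) (.a s21090 (.a s20221 (.p (nat_lit 526) (.a s19530 (.a (.p (nat_lit 525) (.a (.f (nat_lit 495) (nat_lit 497) (nat_lit 1517) (.d (nat_lit 524) (nat_lit 493) (nat_lit 1516) (nat_lit 523) (nat_lit 2539))) (.a (.f (nat_lit 430) (nat_lit 557) (nat_lit 5549) (.f (nat_lit 398) (nat_lit 493) (nat_lit 5517) (.d (nat_lit 397) (nat_lit 365) (nat_lit 7533) (nat_lit 429) (nat_lit 7565)))) (.f (nat_lit 430) (nat_lit 557) (nat_lit 5549) (.f (nat_lit 399) (nat_lit 431) (nat_lit 6542) (.f (nat_lit 398) (nat_lit 367) (nat_lit 6510) (.d (nat_lit 397) (nat_lit 365) (nat_lit 7533) (nat_lit 429) (nat_lit 7565)))))))) (.a (.p (nat_lit 527) (.a (.f (nat_lit 430) (nat_lit 559) (nat_lit 4526) (.f (nat_lit 397) (nat_lit 429) (nat_lit 7565) (.f (nat_lit 398) (nat_lit 365) (nat_lit 7533) (.d (nat_lit 399) (nat_lit 367) (nat_lit 6510) (nat_lit 431) (nat_lit 6542))))) (.f (nat_lit 529) (nat_lit 493) (nat_lit 3565) (.f (nat_lit 561) (nat_lit 562) (nat_lit 526) (.f (nat_lit 464) (nat_lit 432) (nat_lit 4528) (.d (nat_lit 593) (nat_lit 497) (nat_lit 7632) (nat_lit 625) (nat_lit 7664))))))) (.a s19815 (.a (.p (nat_lit 558) (.a (.f (nat_lit 557) (nat_lit 589) (nat_lit 5581) (.f (nat_lit 525) (nat_lit 430) (nat_lit 5549) (.d (nat_lit 527) (nat_lit 497) (nat_lit 2541) (nat_lit 556) (nat_lit 1548)))) (.a (.f (nat_lit 589) (nat_lit 557) (nat_lit 5581) (.f (nat_lit 590) (nat_lit 621) (nat_lit 5613) (.d (nat_lit 591) (nat_lit 559) (nat_lit 4558) (nat_lit 623) (nat_lit 4590)))) (.f (nat_lit 559) (nat_lit 591) (nat_lit 4558) (.f (nat_lit 527) (nat_lit 430) (nat_lit 4526) (.f (nat_lit 525) (nat_lit 497) (nat_lit 2541) (.d (nat_lit 524) (nat_lit 495) (nat_lit 2540) (nat_lit 523) (nat_lit 523)))))))) s19830)))))))))))))) (.a (.p (nat_lit 526) (.a s19718 (.a (.p (nat_lit 494) (.a s19530 (.a s19554 (.a (.p (nat_lit 558) (.a (.f (nat_lit 557) (nat_lit 589) (nat_lit 5581) (.f (nat_lit 525) (nat_lit 430) (nat_lit 5549) (.d (nat_lit 527) (nat_lit 497) (nat_lit 2541) (nat_lit 556) (nat_lit 1548)))) (.a (.f (nat_lit 463) (nat_lit 431) (nat_lit 6574) (.f (nat_lit 495) (nat_lit 590) (nat_lit 6606) (.f (nat_lit 525) (nat_lit 497) (nat_lit 1517) (.d (nat_lit 524) (nat_lit 493) (nat_lit 1516) (nat_lit 523) (nat_lit 2539))))) (.f (nat_lit 463) (nat_lit 431) (nat_lit 6574) (.f (nat_lit 590) (nat_lit 495) (nat_lit 6606) (.d (nat_lit 589) (nat_lit 557) (nat_lit 5581) (nat_lit 621) (nat_lit 5613))))))) (.a (.p (nat_lit 558) (.a (.f (nat_lit 559) (nat_lit 591) (nat_lit 4558) (.f (nat_lit 527) (nat_lit 430) (nat_lit 4526) (.d (nat_lit 557) (nat_lit 556) (nat_lit 2572) (nat_lit 589) (nat_lit 5581)))) (.a (.f (nat_lit 463) (nat_lit 431) (nat_lit 6574) (.f (nat_lit 590) (nat_lit 495) (nat_lit 6606) (.d (nat_lit 589) (nat_lit 557) (nat_lit 5581) (nat_lit 621) (nat_lit 5613)))) (.f (nat_lit 559) (nat_lit 591) (nat_lit 4558) (.f (nat_lit 430) (nat_lit 527) (nat_lit 4526) (.d (nat_lit 431) (nat_lit 399) (nat_lit 6542) (nat_lit 463) (nat_lit 6574))))))) (.a (.p (nat_lit 527) (.a (.f (nat_lit 525) (nat_lit 497) (nat_lit 2541) (.d (nat_lit 430) (nat_lit 557) (nat_lit 5549) (nat_lit 559) (nat_lit 4526))) (.a (.f (nat_lit 525) (nat_lit 497) (nat_lit 2541) (.d (nat_lit 557) (nat_lit 430) (nat_lit 5549) (nat_lit 556) (nat_lit 1548))) (.a (.f (nat_lit 559) (nat_lit 430) (nat_lit 4526) (.d (nat_lit 591) (nat_lit 495) (nat_lit 7630) (nat_lit 623) (nat_lit 6639))) (.f (nat_lit 525) (nat_lit 497) (nat_lit 2541) (.f (nat_lit 493) (nat_lit 492) (nat_lit 3564) (.d (nat_lit 557) (nat_lit 556) (nat_lit 1548) (nat_lit 589) (nat_lit 6605)))))))) (.a s19829 s19830))))))) (.a (.p (nat_lit 494) (.a s19554 (.a s20554 (.a s20823 (.a (.p (nat_lit 495) (.a (.d (nat_lit 497) (nat_lit 461) (nat_lit 3533) (nat_lit 525) (nat_lit 1517)) (.a (.f (nat_lit 461) (nat_lit 497) (nat_lit 3533) (.d (nat_lit 460) (nat_lit 459) (nat_lit 459) (nat_lit 463) (nat_lit 460))) (.f (nat_lit 493) (nat_lit 529) (nat_lit 493) (.f (nat_lit 525) (nat_lit 524) (nat_lit 1516) (.d (nat_lit 430) (nat_lit 398) (nat_lit 5517) (nat_lit 557) (nat_lit 5549))))))) (.a s21409 (.p (nat_lit 558) (.a (.f (nat_lit 589) (nat_lit 557) (nat_lit 5581) (.f (nat_lit 590) (nat_lit 621) (nat_lit 5613) (.d (nat_lit 591) (nat_lit 559) (nat_lit 4558) (nat_lit 623) (nat_lit 4590)))) (.a (.f (nat_lit 557) (nat_lit 589) (nat_lit 5581) (.f (nat_lit 525) (nat_lit 430) (nat_lit 5549) (.f (nat_lit 495) (nat_lit 497) (nat_lit 1517) (.d (nat_lit 493) (nat_lit 524) (nat_lit 1516) (nat_lit 529) (nat_lit 493))))) (.f (nat_lit 591) (nat_lit 559) (nat_lit 4558) (.f (nat_lit 590) (nat_lit 623) (nat_lit 4590) (.f (nat_lit 493) (nat_lit 461) (nat_lit 7629) (.f (nat_lit 495) (nat_lit 529) (nat_lit 493) (.d (nat_lit 525) (nat_lit 497) (nat_lit 1517) (nat_lit 524) (nat_lit 1516))))))))))))))) (.a (.p (nat_lit 494) (.a s19530 (.a s19554 (.a (.p (nat_lit 527) (.a (.f (nat_lit 525) (nat_lit 497) (nat_lit 2541) (.d (nat_lit 557) (nat_lit 430) (nat_lit 5549) (nat_lit 556) (nat_lit 1548))) (.a (.f (nat_lit 529) (nat_lit 493) (nat_lit 3565) (.f (nat_lit 561) (nat_lit 562) (nat_lit 526) (.f (nat_lit 464) (nat_lit 432) (nat_lit 4528) (.d (nat_lit 593) (nat_lit 497) (nat_lit 7632) (nat_lit 625) (nat_lit 7664))))) (.f (nat_lit 493) (nat_lit 529) (nat_lit 3565) (.d (nat_lit 492) (nat_lit 491) (nat_lit 491) (nat_lit 525) (nat_lit 3564)))))) (.a s19619 (.a (.p (nat_lit 527) (.a (.f (nat_lit 529) (nat_lit 493) (nat_lit 3565) (.f (nat_lit 561) (nat_lit 562) (nat_lit 526) (.f (nat_lit 464) (nat_lit 432) (nat_lit 4528) (.d (nat_lit 593) (nat_lit 497) (nat_lit 7632) (nat_lit 625) (nat_lit 7664))))) (.f (nat_lit 559) (nat_lit 430) (nat_lit 4526) (.d (nat_lit 591) (nat_lit 558) (nat_lit 4558) (nat_lit 623) (nat_lit 6639))))) s20454)))))) (.a s20844 (.a (.p (nat_lit 494) (.a s19619 (.a (.p (nat_lit 558) (.a (.f (nat_lit 559) (nat_lit 591) (nat_lit 4558) (.f (nat_lit 527) (nat_lit 430) (nat_lit 4526) (.d (nat_lit 557) (nat_lit 556) (nat_lit 2572) (nat_lit 589) (nat_lit 5581)))) (.a (.f (nat_lit 463) (nat_lit 431) (nat_lit 6574) (.f (nat_lit 590) (nat_lit 495) (nat_lit 6606) (.d (nat_lit 589) (nat_lit 557) (nat_lit 5581) (nat_lit 621) (nat_lit 5613)))) (.f (nat_lit 559) (nat_lit 591) (nat_lit 4558) (.f (nat_lit 430) (nat_lit 527) (nat_lit 4526) (.d (nat_lit 431) (nat_lit 399) (nat_lit 6542) (nat_lit 463) (nat_lit 6574))))))) (.a s20823 (.a (.p (nat_lit 495) (.a (.f (nat_lit 461) (nat_lit 497) (nat_lit 3533) (.d (nat_lit 460) (nat_lit 459) (nat_lit 459) (nat_lit 463) (nat_lit 460))) (.a (.f (nat_lit 493) (nat_lit 529) (nat_lit 493) (.f (nat_lit 492) (nat_lit 527) (nat_lit 492) (.d (nat_lit 460) (nat_lit 459) (nat_lit 3531) (nat_lit 461) (nat_lit 3532)))) (.f (nat_lit 493) (nat_lit 529) (nat_lit 493) (.f (nat_lit 492) (nat_lit 527) (nat_lit 492) (.d (nat_lit 463) (nat_lit 464) (nat_lit 2508) (nat_lit 491) (nat_lit 2507))))))) (.p (nat_lit 527) (.a (.f (nat_lit 529) (nat_lit 493) (nat_lit 3565) (.f (nat_lit 561) (nat_lit 562) (nat_lit 526) (.f (nat_lit 464) (nat_lit 432) (nat_lit 4528) (.d (nat_lit 593) (nat_lit 497) (nat_lit 7632) (nat_lit 625) (nat_lit 7664))))) (.f (nat_lit 559) (nat_lit 430) (nat_lit 4526) (.d (nat_lit 591) (nat_lit 558) (nat_lit 4558) (nat_lit 623) (nat_lit 6639)))))))))) (.a (.p (nat_lit 527) (.a (.f (nat_lit 525) (nat_lit 497) (nat_lit 2541) (.f (nat_lit 524) (nat_lit 495) (nat_lit 2540) (.d (nat_lit 492) (nat_lit 491) (nat_lit 3563) (nat_lit 493) (nat_lit 3564)))) (.a (.p (nat_lit 529) (.a (.f (nat_lit 561) (nat_lit 562) (nat_lit 526) (.f (nat_lit 464) (nat_lit 432) (nat_lit 4528) (.d (nat_lit 593) (nat_lit 497) (nat_lit 7632) (nat_lit 625) (nat_lit 7664)))) (.a (.f (nat_lit 558) (nat_lit 557) (nat_lit 1549) (.f (nat_lit 530) (nat_lit 559) (nat_lit 1550) (.d (nat_lit 562) (nat_lit 561) (nat_lit 526) (nat_lit 563) (nat_lit 527)))) (.f (nat_lit 525) (nat_lit 497) (nat_lit 2541) (.d (nat_lit 557) (nat_lit 556) (nat_lit 1548) (nat_lit 558) (nat_lit 1549)))))) (.a (.p (nat_lit 529) (.a (.f (nat_lit 561) (nat_lit 562) (nat_lit 526) (.f (nat_lit 464) (nat_lit 432) (nat_lit 4528) (.d (nat_lit 593) (nat_lit 497) (nat_lit 7632) (nat_lit 625) (nat_lit 7664)))) (.a (.f (nat_lit 558) (nat_lit 557) (nat_lit 1549) (.f (nat_lit 530) (nat_lit 559) (nat_lit 1550) (.d (nat_lit 562) (nat_lit 561) (nat_lit 526) (nat_lit 563) (nat_lit 527)))) (.f (nat_lit 558) (nat_lit 557) (nat_lit 1549) (.f (nat_lit 559) (nat_lit 530) (nat_lit 1550) (.f (nat_lit 591) (nat_lit 623) (nat_lit 6639) (.d (nat_lit 464) (nat_lit 432) (nat_lit 5551) (nat_lit 495) (nat_lit 6607)))))))) s19658)))) (.a s21384 (.a (.p (nat_lit 494) (.a s19554 (.a s20769 (.a s19619 (.a (.p (nat_lit 527) (.a (.f (nat_lit 559) (nat_lit 430) (nat_lit 4526) (.d (nat_lit 591) (nat_lit 495) (nat_lit 7630) (nat_lit 623) (nat_lit 6639))) (.f (nat_lit 493) (nat_lit 529) (nat_lit 3565) (.d (nat_lit 492) (nat_lit 491) (nat_lit 491) (nat_lit 525) (nat_lit 3564))))) (.a s21089 (.p (nat_lit 558) (.a (.f (nat_lit 557) (nat_lit 589) (nat_lit 5581) (.f (nat_lit 527) (nat_lit 529) (nat_lit 1549) (.d (nat_lit 556) (nat_lit 525) (nat_lit 1548) (nat_lit 555) (nat_lit 2571)))) (.a (.f (nat_lit 463) (nat_lit 431) (nat_lit 6574) (.f (nat_lit 590) (nat_lit 495) (nat_lit 6606) (.d (nat_lit 589) (nat_lit 557) (nat_lit 5581) (nat_lit 621) (nat_lit 5613)))) (.f (nat_lit 463) (nat_lit 431) (nat_lit 6574) (.f (nat_lit 495) (nat_lit 590) (nat_lit 6606) (.f (nat_lit 493) (nat_lit 529) (nat_lit 493) (.d (nat_lit 464) (nat_lit 465) (nat_lit 1485) (nat_lit 492) (nat_lit 2508)))))))))))))) (.a s21266 (.a (.p (nat_lit 494) (.a s19706 (.a s19829 (.a s20823 (.a (.p (nat_lit 527) (.a (.f (nat_lit 529) (nat_lit 493) (nat_lit 3565) (.f (nat_lit 561) (nat_lit 562) (nat_lit 526) (.f (nat_lit 464) (nat_lit 432) (nat_lit 4528) (.d (nat_lit 593) (nat_lit 497) (nat_lit 7632) (nat_lit 625) (nat_lit 7664))))) (.f (nat_lit 559) (nat_lit 430) (nat_lit 4526) (.d (nat_lit 591) (nat_lit 558) (nat_lit 4558) (nat_lit 623) (nat_lit 6639))))) (.a (.p (nat_lit 495) (.a (.f (nat_lit 461) (nat_lit 497) (nat_lit 3533) (.d (nat_lit 460) (nat_lit 459) (nat_lit 459) (nat_lit 463) (nat_lit 460))) (.a (.f (nat_lit 493) (nat_lit 529) (nat_lit 493) (.f (nat_lit 492) (nat_lit 527) (nat_lit 492) (.d (nat_lit 460) (nat_lit 459) (nat_lit 3531) (nat_lit 461) (nat_lit 3532)))) (.f (nat_lit 493) (nat_lit 529) (nat_lit 493) (.f (nat_lit 492) (nat_lit 527) (nat_lit 492) (.d (nat_lit 463) (nat_lit 464) (nat_lit 2508) (nat_lit 491) (nat_lit 2507))))))) (.a (.p (nat_lit 527) (.a (.f (nat_lit 559) (nat_lit 430) (nat_lit 4526) (.d (nat_lit 591) (nat_lit 495) (nat_lit 7630) (nat_lit 623) (nat_lit 6639))) (.f (nat_lit 493) (nat_lit 529) (nat_lit 3565) (.d (nat_lit 492) (nat_lit 491) (nat_lit 491) (nat_lit 525) (nat_lit 3564))))) s21279))))))) s21451)))))))))))) (.p (nat_lit 526) (.a s19490 (.a s19531 (.a s19555 (.a s19584 (.a s19620 (.a s21504 (.a s19676 (.a s19687 (.a s19691 (.a s19707 s19718)))))))))))))))))))))))))))))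
noncomputable def s21569 : Cert := .r (nat_lit 943490607303752963937019840886057434177033664931875938883905600411634630746106260497667102478139433991455298517019633324992605640886346785690119740517314869782049193984) (.p (nat_lit 462) (.a (.f (nat_lit 461) (nat_lit 429) (nat_lit 7597) (.f (nat_lit 495) (nat_lit 497) (nat_lit 3533) (.d (nat_lit 460) (nat_lit 459) (nat_lit 459) (nat_lit 463) (nat_lit 460)))) (.a (.f (nat_lit 429) (nat_lit 461) (nat_lit 7597) (.f (nat_lit 430) (nat_lit 397) (nat_lit 7565) (.d (nat_lit 431) (nat_lit 399) (nat_lit 6542) (nat_lit 463) (nat_lit 6574)))) (.a (.f (nat_lit 461) (nat_lit 429) (nat_lit 7597) (.f (nat_lit 493) (nat_lit 590) (nat_lit 7629) (.d (nat_lit 495) (nat_lit 460) (nat_lit 3532) (nat_lit 497) (nat_lit 3533)))) (.f (nat_lit 463) (nat_lit 431) (nat_lit 6574) (.f (nat_lit 590) (nat_lit 495) (nat_lit 6606) (.d (nat_lit 589) (nat_lit 557) (nat_lit 5581) (nat_lit 621) (nat_lit 5613))))))))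
noncomputable def s21571 : Cert := .r (nat_lit 943490607303752963937019840886057434177033664931875938883905600411634630746106260497667102478139433991455298517019633324992605640886346785690119740517314869782049193984) (.p (nat_lit 462) (.a (.f (nat_lit 461) (nat_lit 429) (nat_lit 7597) (.f (nat_lit 493) (nat_lit 590) (nat_lit 7629) (.d (nat_lit 495) (nat_lit 460) (nat_lit 3532) (nat_lit 497) (nat_lit 3533)))) (.a (.f (nat_lit 591) (nat_lit 559) (nat_lit 4558) (.f (nat_lit 590) (nat_lit 623) (nat_lit 4590) (.d (nat_lit 461) (nat_lit 429) (nat_lit 7597) (nat_lit 493) (nat_lit 7629)))) (.a (.f (nat_lit 589) (nat_lit 557) (nat_lit 5581) (.f (nat_lit 590) (nat_lit 621) (nat_lit 5613) (.d (nat_lit 591) (nat_lit 559) (nat_lit 4558) (nat_lit 623) (nat_lit 4590)))) (.f (nat_lit 461) (nat_lit 429) (nat_lit 7597) (.f (nat_lit 495) (nat_lit 497) (nat_lit 3533) (.d (nat_lit 460) (nat_lit 459) (nat_lit 459) (nat_lit 493) (nat_lit 3532))))))))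
noncomputable def s21573 : Cert := .r (nat_lit 943490607303752963937019840886057434177033664931875938883905600411634630746106260497667102478139433991455298517019633324992605640886346785690119740517314869782049193984) (.p (nat_lit 462) (.a (.f (nat_lit 461) (nat_lit 429) (nat_lit 7597) (.f (nat_lit 495) (nat_lit 497) (nat_lit 3533) (.d (nat_lit 460) (nat_lit 459) (nat_lit 459) (nat_lit 463) (nat_lit 460)))) (.a (.f (nat_lit 429) (nat_lit 461) (nat_lit 7597) (.f (nat_lit 430) (nat_lit 397) (nat_lit 7565) (.d (nat_lit 431) (nat_lit 399) (nat_lit 6542) (nat_lit 463) (nat_lit 6574)))) (.a (.f (nat_lit 461) (nat_lit 429) (nat_lit 7597) (.f (nat_lit 495) (nat_lit 497) (nat_lit 3533) (.d (nat_lit 460) (nat_lit 459) (nat_lit 459) (nat_lit 493) (nat_lit 3532)))) (.f (nat_lit 557) (nat_lit 589) (nat_lit 5581) (.f (nat_lit 430) (nat_lit 525) (nat_lit 5549) (.d (nat_lit 431) (nat_lit 399) (nat_lit 6542) (nat_lit 463) (nat_lit 6574))))))))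
noncomputable def s21574 : Cert := .r (nat_lit 943490607303752963937019840886057434177033664931875938883905600411634630746106260497667102478139433991455298517019633324992605640886346785690119740517314869782049193984) (.p (nat_lit 462) (.a (.f (nat_lit 463) (nat_lit 431) (nat_lit 6574) (.f (nat_lit 495) (nat_lit 590) (nat_lit 6606) (.f (nat_lit 525) (nat_lit 497) (nat_lit 1517) (.d (nat_lit 524) (nat_lit 493) (nat_lit 1516) (nat_lit 523) (nat_lit 2539))))) (.a (.f (nat_lit 557) (nat_lit 589) (nat_lit 5581) (.f (nat_lit 430) (nat_lit 525) (nat_lit 5549) (.d (nat_lit 431) (nat_lit 399) (nat_lit 6542) (nat_lit 463) (nat_lit 6574)))) (.a (.f (nat_lit 463) (nat_lit 431) (nat_lit 6574) (.f (nat_lit 590) (nat_lit 495) (nat_lit 6606) (.d (nat_lit 589) (nat_lit 557) (nat_lit 5581) (nat_lit 621) (nat_lit 5613)))) (.f (nat_lit 589) (nat_lit 557) (nat_lit 5581) (.f (nat_lit 590) (nat_lit 621) (nat_lit 5613) (.d (nat_lit 591) (nat_lit 559) (nat_lit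 4558) (nat_lit 623) (nat_lit 4590))))))))
noncomputable def s21575 : Cert := .r (nat_lit 943490607303752963885873112637680217458077575918944702130520568442211743410429832871165011909316394071404203324427380869510001201393220676171100106987855603323790950400) (.p (nat_lit 494) (.a s19062 (.a (.p (nat_lit 462) (.a (.f (nat_lit 429) (nat_lit 461) (nat_lit 7597) (.f (nat_lit 430) (nat_lit 397) (nat_lit 7565) (.d (nat_lit 431) (nat_lit 399) (nat_lit 6542) (nat_lit 463) (nat_lit 6574)))) (.a (.f (nat_lit 591) (nat_lit 559) (nat_lit 4558) (.f (nat_lit 590) (nat_lit 623) (nat_lit 4590) (.d (nat_lit 461) (nat_lit 429) (nat_lit 7597) (nat_lit 493) (nat_lit 7629)))) (.f (nat_lit 557) (nat_lit 589) (nat_lit 5581) (.f (nat_lit 430) (nat_lit 525) (nat_lit 5549) (.d (nat_lit 431) (nat_lit 399) (nat_lit 6542) (nat_lit 463) (nat_lit 6574))))))) (.a s21569 (.a (.p (nat_lit 462) (.a (.f (nat_lit 461) (nat_lit 429) (nat_lit 7597) (.f (nat_lit 495) (nat_lit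 497) (nat_lit 3533) (.d (nat_lit 460) (nat_lit 459) (nat_lit 459) (nat_lit 463) (nat_lit 460)))) (.a (.f (nat_lit 429) (nat_lit 461) (nat_lit 7597) (.f (nat_lit 430) (nat_lit 397) (nat_lit 7565) (.d (nat_lit 431) (nat_lit 399) (nat_lit 6542) (nat_lit 463) (nat_lit 6574)))) (.f (nat_lit 589) (nat_lit 557) (nat_lit 5581) (.f (nat_lit 590) (nat_lit 621) (nat_lit 5613) (.d (nat_lit 591) (nat_lit 559) (nat_lit 4558) (nat_lit 623) (nat_lit 4590))))))) (.a s21571 (.a (.p (nat_lit 590) (.a (.f (nat_lit 495) (nat_lit 463) (nat_lit 6606) (.f (nat_lit 525) (nat_lit 497) (nat_lit 1517) (.d (nat_lit 493) (nat_lit 461) (nat_lit 7629) (nat_lit 524) (nat_lit 1516)))) (.a (.f (nat_lit 493) (nat_lit 461) (nat_lit 7629) (.f (nat_lit 622) (nat_lit 525) (nat_lit 7661) (.d (nat_lit 621) (nat_lit 589) (nat_lit 5613) (nat_lit 653) (nat_lit 5645)))) (.f (nat_lit 623) (nat_lit 591) (nat_lit 4590) (.f (nat_lit 622) (nat_lit 655) (nat_lit 4622) (.d (nat_lit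 621) (nat_lit 589) (nat_lit 5613) (nat_lit 653) (nat_lit 5645))))))) (.a s21573 s21574))))))))
noncomputable def s21577 : Cert := .r (nat_lit 943490607303752963885873112637680217458077575918944702130520568442211743410429832871165011909316394071404203324427380869510001201393220676171100106987855603323790950400) (.p (nat_lit 494) (.a s19071 (.a (.p (nat_lit 462) (.a (.f (nat_lit 429) (nat_lit 461) (nat_lit 7597) (.f (nat_lit 430) (nat_lit 397) (nat_lit 7565) (.d (nat_lit 431) (nat_lit 399) (nat_lit 6542) (nat_lit 463) (nat_lit 6574)))) (.a (.f (nat_lit 591) (nat_lit 559) (nat_lit 4558) (.f (nat_lit 590) (nat_lit 623) (nat_lit 4590) (.d (nat_lit 461) (nat_lit 429) (nat_lit 7597) (nat_lit 493) (nat_lit 7629)))) (.f (nat_lit 557) (nat_lit 589) (nat_lit 5581) (.f (nat_lit 430) (nat_lit 525) (nat_lit 5549) (.d (nat_lit 431) (nat_lit 399) (nat_lit 6542) (nat_lit 463) (nat_lit 6574))))))) (.a (.p (nat_lit 590) (.a (.f (nat_lit 495) (nat_lit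 463) (nat_lit 6606) (.f (nat_lit 527) (nat_lit 622) (nat_lit 6638) (.d (nat_lit 493) (nat_lit 461) (nat_lit 7629) (nat_lit 492) (nat_lit 492)))) (.a (.f (nat_lit 495) (nat_lit 463) (nat_lit 6606) (.d (nat_lit 493) (nat_lit 461) (nat_lit 7629) (nat_lit 529) (nat_lit 493))) (.f (nat_lit 623) (nat_lit 591) (nat_lit 4590) (.f (nat_lit 622) (nat_lit 655) (nat_lit 4622) (.d (nat_lit 621) (nat_lit 589) (nat_lit 5613) (nat_lit 653) (nat_lit 5645))))))) (.a (.p (nat_lit 462) (.a (.f (nat_lit 463) (nat_lit 431) (nat_lit 6574) (.f (nat_lit 495) (nat_lit 590) (nat_lit 6606) (.d (nat_lit 461) (nat_lit 429) (nat_lit 7597) (nat_lit 460) (nat_lit 460)))) (.a (.f (nat_lit 429) (nat_lit 461) (nat_lit 7597) (.f (nat_lit 430) (nat_lit 397) (nat_lit 7565) (.d (nat_lit 431) (nat_lit 399) (nat_lit 6542) (nat_lit 463) (nat_lit 6574)))) (.f (nat_lit 557) (nat_lit 589) (nat_lit 5581) (.f (nat_lit 527) (nat_lit 529) (nat_lit 1549) (.d (nat_lit 430) (nat_lit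 525) (nat_lit 5549) (nat_lit 559) (nat_lit 4526))))))) (.a (.p (nat_lit 462) (.a (.f (nat_lit 591) (nat_lit 559) (nat_lit 4558) (.f (nat_lit 590) (nat_lit 623) (nat_lit 4590) (.d (nat_lit 461) (nat_lit 429) (nat_lit 7597) (nat_lit 493) (nat_lit 7629)))) (.f (nat_lit 557) (nat_lit 589) (nat_lit 5581) (.f (nat_lit 527) (nat_lit 529) (nat_lit 1549) (.d (nat_lit 525) (nat_lit 430) (nat_lit 5549) (nat_lit 556) (nat_lit 1548)))))) (.a (.p (nat_lit 462) (.a (.f (nat_lit 429) (nat_lit 461) (nat_lit 7597) (.f (nat_lit 430) (nat_lit 397) (nat_lit 7565) (.d (nat_lit 431) (nat_lit 399) (nat_lit 6542) (nat_lit 463) (nat_lit 6574)))) (.a (.f (nat_lit 559) (nat_lit 591) (nat_lit 4558) (.f (nat_lit 527) (nat_lit 430) (nat_lit 4526) (.d (nat_lit 557) (nat_lit 556) (nat_lit 2572) (nat_lit 589) (nat_lit 5581)))) (.f (nat_lit 557) (nat_lit 589) (nat_lit 5581) (.f (nat_lit 527) (nat_lit 529) (nat_lit 1549) (.d (nat_lit 556) (nat_lit 525) (nat_lit 1548)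 (nat_lit 555) (nat_lit 2571))))))) (.a (.p (nat_lit 462) (.a (.f (nat_lit 559) (nat_lit 591) (nat_lit 4558) (.f (nat_lit 527) (nat_lit 430) (nat_lit 4526) (.d (nat_lit 557) (nat_lit 556) (nat_lit 2572) (nat_lit 589) (nat_lit 5581)))) (.a (.f (nat_lit 463) (nat_lit 431) (nat_lit 6574) (.f (nat_lit 590) (nat_lit 495) (nat_lit 6606) (.d (nat_lit 589) (nat_lit 557) (nat_lit 5581) (nat_lit 621) (nat_lit 5613)))) (.f (nat_lit 559) (nat_lit 591) (nat_lit 4558) (.f (nat_lit 430) (nat_lit 527) (nat_lit 4526) (.d (nat_lit 431) (nat_lit 399) (nat_lit 6542) (nat_lit 463) (nat_lit 6574))))))) s19155))))))))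
noncomputable def s21581 : Cert := .r (nat_lit 943490607084079438761693601758259391887472992966322772525934795341588912716492451002440018241394485570237657565153898904982613744205317060180167504985486698008109121536) (.p (nat_lit 526) (.a (.p (nat_lit 527) (.a (.f (nat_lit 525) (nat_lit 497) (nat_lit 2541) (.d (nat_lit 557) (nat_lit 529) (nat_lit 1549) (nat_lit 556) (nat_lit 1548))) (.a (.f (nat_lit 525) (nat_lit 497) (nat_lit 2541) (.f (nat_lit 524) (nat_lit 495) (nat_lit 2540) (.d (nat_lit 492) (nat_lit 491) (nat_lit 3563) (nat_lit 493) (nat_lit 3564)))) (.f (nat_lit 529) (nat_lit 557) (nat_lit 1549) (.f (nat_lit 494) (nat_lit 493) (nat_lit 3565) (.d (nat_lit 530) (nat_lit 495) (nat_lit 3566) (nat_lit 559) (nat_lit 1550))))))) (.a s19088 (.a s21575 (.a s19123 (.a (.p (nat_lit 527) (.a (.f (nat_lit 525) (nat_lit 497) (nat_lit 2541) (.d (nat_lit 557) (nat_lit 529) (nat_lit 1549) (nat_lit 556) (nat_lit 1548))) (.a (.f (nat_lit 525)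 (nat_lit 497) (nat_lit 2541) (.f (nat_lit 524) (nat_lit 495) (nat_lit 2540) (.d (nat_lit 492) (nat_lit 491) (nat_lit 3563) (nat_lit 493) (nat_lit 3564)))) (.f (nat_lit 529) (nat_lit 557) (nat_lit 1549) (.f (nat_lit 494) (nat_lit 493) (nat_lit 3565) (.f (nat_lit 495) (nat_lit 530) (nat_lit 3566) (.d (nat_lit 463) (nat_lit 431) (nat_lit 5550) (nat_lit 590) (nat_lit 6606)))))))) (.a s19136 (.a (.p (nat_lit 527) (.a (.f (nat_lit 525) (nat_lit 497) (nat_lit 2541) (.d (nat_lit 557) (nat_lit 529) (nat_lit 1549) (nat_lit 556) (nat_lit 1548))) (.a (.f (nat_lit 525) (nat_lit 497) (nat_lit 2541) (.f (nat_lit 524) (nat_lit 495) (nat_lit 2540) (.d (nat_lit 492) (nat_lit 491) (nat_lit 3563) (nat_lit 493) (nat_lit 3564)))) (.f (nat_lit 529) (nat_lit 557) (nat_lit 1549) (.f (nat_lit 530) (nat_lit 559) (nat_lit 1550) (.d (nat_lit 562) (nat_lit 561) (nat_lit 526) (nat_lit 563) (nat_lit 527))))))) (.a s21577 (.a (.p (nat_lit 527) (.a (.f (nat_lit 525)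 (nat_lit 497) (nat_lit 2541) (.d (nat_lit 557) (nat_lit 529) (nat_lit 1549) (nat_lit 556) (nat_lit 1548))) (.a (.f (nat_lit 525) (nat_lit 497) (nat_lit 2541) (.f (nat_lit 524) (nat_lit 495) (nat_lit 2540) (.d (nat_lit 556) (nat_lit 555) (nat_lit 1547) (nat_lit 557) (nat_lit 1548)))) (.a (.f (nat_lit 529) (nat_lit 557) (nat_lit 1549) (.f (nat_lit 530) (nat_lit 559) (nat_lit 1550) (.d (nat_lit 562) (nat_lit 561) (nat_lit 526) (nat_lit 563) (nat_lit 527)))) (.f (nat_lit 525) (nat_lit 497) (nat_lit 2541) (.f (nat_lit 495) (nat_lit 524) (nat_lit 2540) (.f (nat_lit 463) (nat_lit 431) (nat_lit 5550) (.d (nat_lit 590) (nat_lit 494) (nat_lit 6606) (nat_lit 559) (nat_lit 5582))))))))) (.p (nat_lit 494) (.a s19062 (.a (.p (nat_lit 462) (.a (.f (nat_lit 429) (nat_lit 461) (nat_lit 7597) (.f (nat_lit 430) (nat_lit 397) (nat_lit 7565) (.d (nat_lit 431) (nat_lit 399) (nat_lit 6542) (nat_lit 463) (nat_lit 6574)))) (.a (.f (nat_lit 591) (nat_lit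 559) (nat_lit 4558) (.f (nat_lit 590) (nat_lit 623) (nat_lit 4590) (.d (nat_lit 461) (nat_lit 429) (nat_lit 7597) (nat_lit 493) (nat_lit 7629)))) (.f (nat_lit 559) (nat_lit 591) (nat_lit 4558) (.f (nat_lit 527) (nat_lit 430) (nat_lit 4526) (.d (nat_lit 529) (nat_lit 493) (nat_lit 3565) (nat_lit 530) (nat_lit 1550))))))) (.a (.p (nat_lit 462) (.a (.f (nat_lit 461) (nat_lit 429) (nat_lit 7597) (.f (nat_lit 495) (nat_lit 497) (nat_lit 3533) (.d (nat_lit 460) (nat_lit 459) (nat_lit 459) (nat_lit 463) (nat_lit 460)))) (.a (.f (nat_lit 429) (nat_lit 461) (nat_lit 7597) (.f (nat_lit 430) (nat_lit 397) (nat_lit 7565) (.d (nat_lit 431) (nat_lit 399) (nat_lit 6542) (nat_lit 463) (nat_lit 6574)))) (.f (nat_lit 559) (nat_lit 591) (nat_lit 4558) (.f (nat_lit 527) (nat_lit 430) (nat_lit 4526) (.f (nat_lit 525) (nat_lit 497) (nat_lit 2541) (.d (nat_lit 524) (nat_lit 495) (nat_lit 2540) (nat_lit 523) (nat_lit 523)))))))) (.a (.p (nat_lit 462) (.a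 (.f (nat_lit 461) (nat_lit 429) (nat_lit 7597) (.f (nat_lit 493) (nat_lit 590) (nat_lit 7629) (.d (nat_lit 495) (nat_lit 460) (nat_lit 3532) (nat_lit 497) (nat_lit 3533)))) (.a (.f (nat_lit 591) (nat_lit 559) (nat_lit 4558) (.f (nat_lit 590) (nat_lit 623) (nat_lit 4590) (.d (nat_lit 461) (nat_lit 429) (nat_lit 7597) (nat_lit 493) (nat_lit 7629)))) (.f (nat_lit 559) (nat_lit 591) (nat_lit 4558) (.f (nat_lit 527) (nat_lit 430) (nat_lit 4526) (.f (nat_lit 525) (nat_lit 497) (nat_lit 2541) (.d (nat_lit 524) (nat_lit 495) (nat_lit 2540) (nat_lit 523) (nat_lit 523)))))))) (.a s19085 (.p (nat_lit 527) (.a (.f (nat_lit 525) (nat_lit 497) (nat_lit 2541) (.f (nat_lit 495) (nat_lit 524) (nat_lit 2540) (.d (nat_lit 463) (nat_lit 431) (nat_lit 5550) (nat_lit 590) (nat_lit 6606)))) (.f (nat_lit 529) (nat_lit 493) (nat_lit 3565) (.f (nat_lit 559) (nat_lit 530) (nat_lit 1550) (.d (nat_lit 462) (nat_lit 430) (nat_lit 4526) (nat_lit 591) (nat_lit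 4558))))))))))))))))))))))
noncomputable def s21608 : Cert := .r (nat_lit 4717453032125294316178574421874326325093954885348316367260111900657258793138255112583793827655798201532923673547783478224763190270811139418251553991950010913431444520960) (.p (nat_lit 592) (.a (.f (nat_lit 591) (nat_lit 623) (nat_lit 5615) (.f (nat_lit 593) (nat_lit 625) (nat_lit 4592) (.d (nat_lit 557) (nat_lit 559) (nat_lit 557) (nat_lit 590) (nat_lit 3629)))) (.a (.f (nat_lit 623) (nat_lit 591) (nat_lit 5615) (.f (nat_lit 624) (nat_lit 655) (nat_lit 5647) (.d (nat_lit 625) (nat_lit 593) (nat_lit 4592) (nat_lit 657) (nat_lit 4624)))) (.a (.f (nat_lit 593) (nat_lit 625) (nat_lit 4592) (.f (nat_lit 559) (nat_lit 557) (nat_lit 557) (.d (nat_lit 561) (nat_lit 525) (nat_lit 3597) (nat_lit 594) (nat_lit 558)))) (.a (.f (nat_lit 623) (nat_lit 591) (nat_lit 5615) (.f (nat_lit 624) (nat_lit 655) (nat_lit 5647) (.f (nat_lit 657) (nat_lit 625) (nat_lit 4624) (.f (nat_lit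 656) (nat_lit 689) (nat_lit 4656) (.f (nat_lit 621) (nat_lit 622) (nat_lit 621) (.f (nat_lit 589) (nat_lit 590) (nat_lit 5613) (.d (nat_lit 557) (nat_lit 525) (nat_lit 6637) (nat_lit 653) (nat_lit 6669)))))))) (.f (nat_lit 623) (nat_lit 591) (nat_lit 5615) (.f (nat_lit 655) (nat_lit 624) (nat_lit 5647) (.f (nat_lit 590) (nat_lit 622) (nat_lit 4622) (.f (nat_lit 589) (nat_lit 621) (nat_lit 5613) (.f (nat_lit 559) (nat_lit 561) (nat_lit 1581) (.d (nat_lit 557) (nat_lit 588) (nat_lit 1580) (nat_lit 593) (nat_lit 557))))))))))))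
noncomputable def s21638 : Cert := .r (nat_lit 4717453032125294316178574421874326325093954885348316367260111900657258793138255112583793827655798201532923673547783478224763190270811139418251553991950010913431444520960) (.p (nat_lit 592) (.a (.f (nat_lit 591) (nat_lit 623) (nat_lit 5615) (.f (nat_lit 593) (nat_lit 625) (nat_lit 4592) (.d (nat_lit 557) (nat_lit 559) (nat_lit 557) (nat_lit 590) (nat_lit 3629)))) (.a (.f (nat_lit 623) (nat_lit 591) (nat_lit 5615) (.f (nat_lit 624) (nat_lit 655) (nat_lit 5647) (.d (nat_lit 625) (nat_lit 593) (nat_lit 4592) (nat_lit 657) (nat_lit 4624)))) (.a (.f (nat_lit 593) (nat_lit 625) (nat_lit 4592) (.f (nat_lit 559) (nat_lit 557) (nat_lit 557) (.d (nat_lit 594) (nat_lit 561) (nat_lit 558) (nat_lit 595) (nat_lit 3631)))) (.a (.f (nat_lit 623) (nat_lit 591) (nat_lit 5615) (.f (nat_lit 624) (nat_lit 655) (nat_lit 5647) (.f (nat_lit 657) (nat_lit 625) (nat_lit 4624) (.f (nat_lit 656) (nat_lit 689) (nat_lit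 4656) (.f (nat_lit 621) (nat_lit 622) (nat_lit 621) (.f (nat_lit 589) (nat_lit 590) (nat_lit 5613) (.f (nat_lit 557) (nat_lit 653) (nat_lit 6669) (.d (nat_lit 559) (nat_lit 527) (nat_lit 7695) (nat_lit 588) (nat_lit 1580))))))))) (.f (nat_lit 623) (nat_lit 591) (nat_lit 5615) (.f (nat_lit 655) (nat_lit 624) (nat_lit 5647) (.f (nat_lit 590) (nat_lit 622) (nat_lit 4622) (.f (nat_lit 589) (nat_lit 621) (nat_lit 5613) (.f (nat_lit 559) (nat_lit 561) (nat_lit 1581) (.d (nat_lit 557) (nat_lit 588) (nat_lit 1580) (nat_lit 593) (nat_lit 557))))))))))))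
noncomputable def s21686 : Cert := .r (nat_lit 943490607303752963937019840886057434177033664931875938883905600411634630746106260497667102478139433991455298517019633324992605640886346785690119740517314869782049193984) (.p (nat_lit 560) (.a s21608 (.a (.p (nat_lit 590) (.a (.f (nat_lit 493) (nat_lit 461) (nat_lit 7629) (.f (nat_lit 622) (nat_lit 525) (nat_lit 7661) (.d (nat_lit 621) (nat_lit 589) (nat_lit 5613) (nat_lit 653) (nat_lit 5645)))) (.a (.f (nat_lit 623) (nat_lit 591) (nat_lit 4590) (.f (nat_lit 622) (nat_lit 655) (nat_lit 4622) (.d (nat_lit 621) (nat_lit 589) (nat_lit 5613) (nat_lit 653) (nat_lit 5645)))) (.a (.f (nat_lit 493) (nat_lit 461) (nat_lit 7629) (.f (nat_lit 622) (nat_lit 525) (nat_lit 7661) (.d (nat_lit 623) (nat_lit 591) (nat_lit 4590) (nat_lit 655) (nat_lit 4622)))) (.f (nat_lit 591) (nat_lit 623) (nat_lit 4590) (.f (nat_lit 589) (nat_lit 621) (nat_lit 5613) (.f (nat_lit 592) (nat_lit 561) (nat_lit 2605) (.d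 (nat_lit 557) (nat_lit 556) (nat_lit 3628) (nat_lit 593) (nat_lit 3629))))))))) (.a (.p (nat_lit 590) (.a (.f (nat_lit 589) (nat_lit 621) (nat_lit 5613) (.f (nat_lit 559) (nat_lit 561) (nat_lit 1581) (.d (nat_lit 588) (nat_lit 557) (nat_lit 1580) (nat_lit 587) (nat_lit 2603)))) (.a (.f (nat_lit 493) (nat_lit 461) (nat_lit 7629) (.f (nat_lit 622) (nat_lit 525) (nat_lit 7661) (.d (nat_lit 621) (nat_lit 589) (nat_lit 5613) (nat_lit 653) (nat_lit 5645)))) (.f (nat_lit 493) (nat_lit 461) (nat_lit 7629) (.f (nat_lit 622) (nat_lit 525) (nat_lit 7661) (.d (nat_lit 623) (nat_lit 591) (nat_lit 4590) (nat_lit 655) (nat_lit 4622))))))) (.a s21638 (.a (.p (nat_lit 592) (.a (.f (nat_lit 591) (nat_lit 623) (nat_lit 5615) (.f (nat_lit 593) (nat_lit 625) (nat_lit 4592) (.d (nat_lit 557) (nat_lit 559) (nat_lit 557) (nat_lit 590) (nat_lit 3629)))) (.a (.f (nat_lit 623) (nat_lit 591) (nat_lit 5615) (.f (nat_lit 624) (nat_lit 655) (nat_lit 5647) (.d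 (nat_lit 625) (nat_lit 593) (nat_lit 4592) (nat_lit 657) (nat_lit 4624)))) (.a (.f (nat_lit 497) (nat_lit 465) (nat_lit 6608) (.f (nat_lit 527) (nat_lit 525) (nat_lit 2541) (.f (nat_lit 625) (nat_lit 593) (nat_lit 4592) (.f (nat_lit 624) (nat_lit 657) (nat_lit 4624) (.f (nat_lit 655) (nat_lit 623) (nat_lit 5647) (.d (nat_lit 656) (nat_lit 559) (nat_lit 7695) (nat_lit 687) (nat_lit 5679))))))) (.a (.f (nat_lit 623) (nat_lit 591) (nat_lit 5615) (.f (nat_lit 624) (nat_lit 655) (nat_lit 5647) (.f (nat_lit 657) (nat_lit 625) (nat_lit 4624) (.f (nat_lit 656) (nat_lit 689) (nat_lit 4656) (.f (nat_lit 621) (nat_lit 622) (nat_lit 621) (.f (nat_lit 589) (nat_lit 590) (nat_lit 5613) (.d (nat_lit 557) (nat_lit 525) (nat_lit 6637) (nat_lit 653) (nat_lit 6669)))))))) (.a (.f (nat_lit 593) (nat_lit 625) (nat_lit 4592) (.f (nat_lit 559) (nat_lit 557) (nat_lit 557) (.d (nat_lit 594) (nat_lit 591) (nat_lit 3630) (nat_lit 595) (nat_lit 3631)))) (.f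 (nat_lit 623) (nat_lit 591) (nat_lit 5615) (.f (nat_lit 624) (nat_lit 655) (nat_lit 5647) (.f (nat_lit 497) (nat_lit 465) (nat_lit 6608) (.f (nat_lit 527) (nat_lit 525) (nat_lit 2541) (.f (nat_lit 559) (nat_lit 656) (nat_lit 7695) (.d (nat_lit 557) (nat_lit 556) (nat_lit 2572) (nat_lit 593) (nat_lit 557))))))))))))) (.a (.p (nat_lit 590) (.a (.f (nat_lit 589) (nat_lit 621) (nat_lit 5613) (.f (nat_lit 559) (nat_lit 561) (nat_lit 1581) (.d (nat_lit 588) (nat_lit 557) (nat_lit 1580) (nat_lit 587) (nat_lit 2603)))) (.a (.f (nat_lit 493) (nat_lit 461) (nat_lit 7629) (.f (nat_lit 622) (nat_lit 525) (nat_lit 7661) (.d (nat_lit 621) (nat_lit 589) (nat_lit 5613) (nat_lit 653) (nat_lit 5645)))) (.f (nat_lit 493) (nat_lit 461) (nat_lit 7629) (.f (nat_lit 525) (nat_lit 622) (nat_lit 7661) (.d (nat_lit 527) (nat_lit 492) (nat_lit 3564) (nat_lit 497) (nat_lit 2541))))))) (.a (.p (nat_lit 592) (.a (.f (nat_lit 623) (nat_lit 591) (nat_lit 5615)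 (.f (nat_lit 624) (nat_lit 655) (nat_lit 5647) (.d (nat_lit 625) (nat_lit 593) (nat_lit 4592) (nat_lit 657) (nat_lit 4624)))) (.a (.f (nat_lit 497) (nat_lit 465) (nat_lit 6608) (.f (nat_lit 527) (nat_lit 525) (nat_lit 2541) (.f (nat_lit 625) (nat_lit 593) (nat_lit 4592) (.f (nat_lit 624) (nat_lit 657) (nat_lit 4624) (.f (nat_lit 655) (nat_lit 623) (nat_lit 5647) (.d (nat_lit 656) (nat_lit 559) (nat_lit 7695) (nat_lit 687) (nat_lit 5679))))))) (.a (.f (nat_lit 591) (nat_lit 623) (nat_lit 5615) (.f (nat_lit 593) (nat_lit 625) (nat_lit 4592) (.f (nat_lit 559) (nat_lit 594) (nat_lit 3630) (.f (nat_lit 561) (nat_lit 525) (nat_lit 3597) (.d (nat_lit 562) (nat_lit 563) (nat_lit 1583) (nat_lit 590) (nat_lit 1582)))))) (.a (.f (nat_lit 623) (nat_lit 591) (nat_lit 5615) (.f (nat_lit 624) (nat_lit 655) (nat_lit 5647) (.f (nat_lit 657) (nat_lit 625) (nat_lit 4624) (.f (nat_lit 656) (nat_lit 689) (nat_lit 4656) (.f (nat_lit 527) (nat_lit 559)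 (nat_lit 7695) (.d (nat_lit 497) (nat_lit 465) (nat_lit 6608) (nat_lit 525) (nat_lit 2541))))))) (.a (.f (nat_lit 593) (nat_lit 625) (nat_lit 4592) (.f (nat_lit 497) (nat_lit 465) (nat_lit 6608) (.f (nat_lit 525) (nat_lit 527) (nat_lit 2541) (.f (nat_lit 559) (nat_lit 561) (nat_lit 3597) (.d (nat_lit 594) (nat_lit 591) (nat_lit 3630) (nat_lit 595) (nat_lit 3631)))))) (.f (nat_lit 623) (nat_lit 591) (nat_lit 5615) (.f (nat_lit 624) (nat_lit 655) (nat_lit 5647) (.f (nat_lit 497) (nat_lit 465) (nat_lit 6608) (.f (nat_lit 527) (nat_lit 525) (nat_lit 2541) (.f (nat_lit 559) (nat_lit 656) (nat_lit 7695) (.f (nat_lit 561) (nat_lit 562) (nat_lit 3598) (.f (nat_lit 590) (nat_lit 589) (nat_lit 1581) (.f (nat_lit 593) (nat_lit 594) (nat_lit 558) (.d (nat_lit 622) (nat_lit 621) (nat_lit 2637) (nat_lit 654) (nat_lit 6670)))))))))))))))) (.p (nat_lit 592) (.a (.f (nat_lit 593) (nat_lit 625) (nat_lit 4592) (.f (nat_lit 559) (nat_lit 557) (nat_lit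 557) (.d (nat_lit 561) (nat_lit 525) (nat_lit 3597) (nat_lit 594) (nat_lit 558)))) (.a (.f (nat_lit 623) (nat_lit 591) (nat_lit 5615) (.f (nat_lit 624) (nat_lit 655) (nat_lit 5647) (.d (nat_lit 625) (nat_lit 593) (nat_lit 4592) (nat_lit 657) (nat_lit 4624)))) (.a (.f (nat_lit 623) (nat_lit 591) (nat_lit 5615) (.f (nat_lit 624) (nat_lit 655) (nat_lit 5647) (.f (nat_lit 657) (nat_lit 625) (nat_lit 4624) (.f (nat_lit 656) (nat_lit 689) (nat_lit 4656) (.f (nat_lit 527) (nat_lit 559) (nat_lit 7695) (.d (nat_lit 497) (nat_lit 465) (nat_lit 6608) (nat_lit 525) (nat_lit 2541))))))) (.f (nat_lit 623) (nat_lit 591) (nat_lit 5615) (.f (nat_lit 624) (nat_lit 655) (nat_lit 5647) (.f (nat_lit 497) (nat_lit 465) (nat_lit 6608) (.f (nat_lit 527) (nat_lit 525) (nat_lit 2541) (.f (nat_lit 559) (nat_lit 656) (nat_lit 7695) (.d (nat_lit 557) (nat_lit 556) (nat_lit 2572) (nat_lit 593) (nat_lit 557)))))))))))))))))))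
noncomputable def s21687 : Cert := .r (nat_lit 943490607303752963937019840886057434177033664931875938883905600411634630746106260497667102478139433991455298517019633324992605640886346785690119740517314869782049193984) (.p (nat_lit 462) (.a (.f (nat_lit 429) (nat_lit 461) (nat_lit 7597) (.f (nat_lit 430) (nat_lit 397) (nat_lit 7565) (.d (nat_lit 431) (nat_lit 399) (nat_lit 6542) (nat_lit 463) (nat_lit 6574)))) (.a (.f (nat_lit 559) (nat_lit 591) (nat_lit 4558) (.f (nat_lit 527) (nat_lit 430) (nat_lit 4526) (.d (nat_lit 557) (nat_lit 556) (nat_lit 2572) (nat_lit 589) (nat_lit 5581)))) (.f (nat_lit 557) (nat_lit 589) (nat_lit 5581) (.f (nat_lit 559) (nat_lit 591) (nat_lit 4558) (.f (nat_lit 556) (nat_lit 527) (nat_lit 2572) (.f (nat_lit 523) (nat_lit 524) (nat_lit 3595) (.f (nat_lit 555) (nat_lit 522) (nat_lit 3594) (.d (nat_lit 587) (nat_lit 586) (nat_lit 1578) (nat_lit 588) (nat_lit 1579))))))))))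
noncomputable def s21688 : Cert := .r (nat_lit 943490607303752963937019840886057434177033664931875938883905600411634630746106260497667102478139433991455298517019633324992605640886346785690119740517314869782049193984) (.p (nat_lit 462) (.a (.f (nat_lit 557) (nat_lit 589) (nat_lit 5581) (.f (nat_lit 525) (nat_lit 430) (nat_lit 5549) (.d (nat_lit 527) (nat_lit 497) (nat_lit 2541) (nat_lit 556) (nat_lit 1548)))) (.a (.f (nat_lit 557) (nat_lit 589) (nat_lit 5581) (.f (nat_lit 430) (nat_lit 525) (nat_lit 5549) (.d (nat_lit 431) (nat_lit 399) (nat_lit 6542) (nat_lit 463) (nat_lit 6574)))) (.a (.f (nat_lit 559) (nat_lit 591) (nat_lit 4558) (.f (nat_lit 527) (nat_lit 430) (nat_lit 4526) (.d (nat_lit 557) (nat_lit 556) (nat_lit 2572) (nat_lit 589) (nat_lit 5581)))) (.a (.f (nat_lit 559) (nat_lit 591) (nat_lit 4558) (.f (nat_lit 430) (nat_lit 527) (nat_lit 4526) (.d (nat_lit 431) (nat_lit 399) (nat_lit 6542) (nat_lit 463) (nat_lit 6574))))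 (.f (nat_lit 589) (nat_lit 557) (nat_lit 5581) (.f (nat_lit 590) (nat_lit 621) (nat_lit 5613) (.d (nat_lit 591) (nat_lit 559) (nat_lit 4558) (nat_lit 623) (nat_lit 4590)))))))))
noncomputable def s21689 : Cert := .r (nat_lit 943490607303752963885873112637680217458077575918944702130520568442211743410429832871165011909316394071404203324427380869510001201393220676171100106987855603323790950400) (.p (nat_lit 494) (.a (.p (nat_lit 462) (.a (.f (nat_lit 557) (nat_lit 589) (nat_lit 5581) (.f (nat_lit 525) (nat_lit 430) (nat_lit 5549) (.d (nat_lit 527) (nat_lit 497) (nat_lit 2541) (nat_lit 556) (nat_lit 1548)))) (.a (.f (nat_lit 429) (nat_lit 461) (nat_lit 7597) (.f (nat_lit 430) (nat_lit 397) (nat_lit 7565) (.d (nat_lit 431) (nat_lit 399) (nat_lit 6542) (nat_lit 463) (nat_lit 6574)))) (.f (nat_lit 591) (nat_lit 559) (nat_lit 4558) (.f (nat_lit 590) (nat_lit 623) (nat_lit 4590) (.d (nat_lit 461) (nat_lit 429) (nat_lit 7597) (nat_lit 493)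 (nat_lit 7629))))))) (.a (.p (nat_lit 462) (.a (.f (nat_lit 429) (nat_lit 461) (nat_lit 7597) (.f (nat_lit 430) (nat_lit 397) (nat_lit 7565) (.d (nat_lit 431) (nat_lit 399) (nat_lit 6542) (nat_lit 463) (nat_lit 6574)))) (.a (.f (nat_lit 591) (nat_lit 559) (nat_lit 4558) (.f (nat_lit 590) (nat_lit 623) (nat_lit 4590) (.d (nat_lit 461) (nat_lit 429) (nat_lit 7597) (nat_lit 493) (nat_lit 7629)))) (.f (nat_lit 557) (nat_lit 589) (nat_lit 5581) (.f (nat_lit 559) (nat_lit 591) (nat_lit 4558) (.f (nat_lit 525) (nat_lit 430) (nat_lit 5549) (.d (nat_lit 524) (nat_lit 523) (nat_lit 523) (nat_lit 560) (nat_lit 3596)))))))) (.a (.p (nat_lit 462) (.a (.f (nat_lit 557) (nat_lit 589) (nat_lit 5581) (.f (nat_lit 525) (nat_lit 430) (nat_lit 5549) (.d (nat_lit 527) (nat_lit 497) (nat_lit 2541) (nat_lit 556) (nat_lit 1548)))) (.a (.f (nat_lit 429) (nat_lit 461) (nat_lit 7597) (.f (nat_lit 430) (nat_lit 397) (nat_lit 7565) (.d (nat_lit 431) (nat_lit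 399) (nat_lit 6542) (nat_lit 463) (nat_lit 6574)))) (.f (nat_lit 461) (nat_lit 429) (nat_lit 7597) (.f (nat_lit 590) (nat_lit 493) (nat_lit 7629) (.d (nat_lit 589) (nat_lit 557) (nat_lit 5581) (nat_lit 621) (nat_lit 5613))))))) (.a (.p (nat_lit 462) (.a (.f (nat_lit 429) (nat_lit 461) (nat_lit 7597) (.f (nat_lit 430) (nat_lit 397) (nat_lit 7565) (.d (nat_lit 431) (nat_lit 399) (nat_lit 6542) (nat_lit 463) (nat_lit 6574)))) (.a (.f (nat_lit 591) (nat_lit 559) (nat_lit 4558) (.f (nat_lit 590) (nat_lit 623) (nat_lit 4590) (.d (nat_lit 461) (nat_lit 429) (nat_lit 7597) (nat_lit 493) (nat_lit 7629)))) (.f (nat_lit 559) (nat_lit 591) (nat_lit 4558) (.f (nat_lit 527) (nat_lit 430) (nat_lit 4526) (.d (nat_lit 557) (nat_lit 556) (nat_lit 2572) (nat_lit 589) (nat_lit 5581))))))) (.a (.p (nat_lit 462) (.a (.f (nat_lit 557) (nat_lit 589) (nat_lit 5581) (.f (nat_lit 525) (nat_lit 430) (nat_lit 5549) (.d (nat_lit 527) (nat_lit 497) (nat_lit 2541)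 (nat_lit 556) (nat_lit 1548)))) (.a (.f (nat_lit 429) (nat_lit 461) (nat_lit 7597) (.f (nat_lit 430) (nat_lit 397) (nat_lit 7565) (.d (nat_lit 431) (nat_lit 399) (nat_lit 6542) (nat_lit 463) (nat_lit 6574)))) (.f (nat_lit 589) (nat_lit 557) (nat_lit 5581) (.f (nat_lit 590) (nat_lit 621) (nat_lit 5613) (.d (nat_lit 591) (nat_lit 559) (nat_lit 4558) (nat_lit 623) (nat_lit 4590))))))) (.a (.p (nat_lit 462) (.a (.f (nat_lit 557) (nat_lit 589) (nat_lit 5581) (.f (nat_lit 525) (nat_lit 430) (nat_lit 5549) (.d (nat_lit 527) (nat_lit 497) (nat_lit 2541) (nat_lit 556) (nat_lit 1548)))) (.f (nat_lit 591) (nat_lit 559) (nat_lit 4558) (.f (nat_lit 590) (nat_lit 623) (nat_lit 4590) (.d (nat_lit 461) (nat_lit 429) (nat_lit 7597) (nat_lit 493) (nat_lit 7629)))))) (.a (.p (nat_lit 462) (.a (.f (nat_lit 429) (nat_lit 461) (nat_lit 7597) (.f (nat_lit 430) (nat_lit 397) (nat_lit 7565) (.d (nat_lit 431) (nat_lit 399) (nat_lit 6542) (nat_lit 463) (nat_lit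 6574)))) (.a (.f (nat_lit 591) (nat_lit 559) (nat_lit 4558) (.f (nat_lit 590) (nat_lit 623) (nat_lit 4590) (.d (nat_lit 461) (nat_lit 429) (nat_lit 7597) (nat_lit 493) (nat_lit 7629)))) (.f (nat_lit 559) (nat_lit 591) (nat_lit 4558) (.f (nat_lit 430) (nat_lit 527) (nat_lit 4526) (.d (nat_lit 431) (nat_lit 399) (nat_lit 6542) (nat_lit 463) (nat_lit 6574))))))) (.a s21686 (.a s21687 s21688))))))))))
noncomputable def s21690 : Cert := .r (nat_lit 943490607303752963937019840886057434177033664931875938883905600411634630746106260497667102478139433991455298517019633324992605640886346785690119740517314869782049193984) (.p (nat_lit 462) (.a (.f (nat_lit 463) (nat_lit 431) (nat_lit 6574) (.f (nat_lit 495) (nat_lit 590) (nat_lit 6606) (.d (nat_lit 461) (nat_lit 429) (nat_lit 7597) (nat_lit 460) (nat_lit 460)))) (.a (.f (nat_lit 429) (nat_lit 461) (nat_lit 7597) (.f (nat_lit 430) (nat_lit 397) (nat_lit 7565) (.d (nat_lit 431) (nat_lit 399) (nat_lit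 6542) (nat_lit 463) (nat_lit 6574)))) (.a (.f (nat_lit 461) (nat_lit 429) (nat_lit 7597) (.f (nat_lit 493) (nat_lit 590) (nat_lit 7629) (.f (nat_lit 495) (nat_lit 460) (nat_lit 3532) (.f (nat_lit 525) (nat_lit 524) (nat_lit 1516) (.d (nat_lit 430) (nat_lit 398) (nat_lit 5517) (nat_lit 557) (nat_lit 5549)))))) (.f (nat_lit 557) (nat_lit 589) (nat_lit 5581) (.f (nat_lit 430) (nat_lit 525) (nat_lit 5549) (.d (nat_lit 431) (nat_lit 399) (nat_lit 6542) (nat_lit 463) (nat_lit 6574))))))))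
noncomputable def s21691 : Cert := .r (nat_lit 943490607303752963937019840886057434177033664931875938883905600411634630746106260497667102478139433991455298517019633324992605640886346785690119740517314869782049193984) (.p (nat_lit 462) (.a (.f (nat_lit 557) (nat_lit 589) (nat_lit 5581) (.f (nat_lit 525) (nat_lit 430) (nat_lit 5549) (.d (nat_lit 527) (nat_lit 497) (nat_lit 2541) (nat_lit 556) (nat_lit 1548)))) (.a (.f (nat_lit 461) (nat_lit 429) (nat_lit 7597) (.f (nat_lit 493) (nat_lit 590) (nat_lit 7629) (.d (nat_lit 495) (nat_lit 460) (nat_lit 3532) (nat_lit 497) (nat_lit 3533)))) (.f (nat_lit 461) (nat_lit 429) (nat_lit 7597) (.f (nat_lit 493) (nat_lit 590) (nat_lit 7629) (.f (nat_lit 495) (nat_lit 460) (nat_lit 3532) (.f (nat_lit 525) (nat_lit 524) (nat_lit 1516) (.d (nat_lit 430) (nat_lit 398) (nat_lit 5517) (nat_lit 557) (nat_lit 5549)))))))))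
noncomputable def s21693 : Cert := .r (nat_lit 943490607303752963885873112637680217458077575918944702130520568442211743410429832871165011909316394071404203324427380869510001201393220676171100106987855603323790950400) (.p (nat_lit 494) (.a (.p (nat_lit 462) (.a (.f (nat_lit 461) (nat_lit 429) (nat_lit 7597) (.f (nat_lit 495) (nat_lit 497) (nat_lit 3533) (.d (nat_lit 460) (nat_lit 459) (nat_lit 459) (nat_lit 463) (nat_lit 460)))) (.a (.f (nat_lit 557) (nat_lit 589) (nat_lit 5581) (.f (nat_lit 525) (nat_lit 430) (nat_lit 5549) (.d (nat_lit 527) (nat_lit 497) (nat_lit 2541) (nat_lit 556) (nat_lit 1548)))) (.f (nat_lit 463) (nat_lit 431) (nat_lit 6574) (.f (nat_lit 495) (nat_lit 590) (nat_lit 6606) (.d (nat_lit 461) (nat_lit 429) (nat_lit 7597) (nat_lit 460) (nat_lit 460))))))) (.a s19062 (.a (.p (nat_lit 462) (.a (.f (nat_lit 557) (nat_lit 589) (nat_lit 5581) (.f (nat_lit 525) (nat_lit 430) (nat_lit 5549) (.d (nat_lit 527) (nat_lit 497)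 (nat_lit 2541) (nat_lit 556) (nat_lit 1548)))) (.a (.f (nat_lit 429) (nat_lit 461) (nat_lit 7597) (.f (nat_lit 430) (nat_lit 397) (nat_lit 7565) (.d (nat_lit 431) (nat_lit 399) (nat_lit 6542) (nat_lit 463) (nat_lit 6574)))) (.f (nat_lit 461) (nat_lit 429) (nat_lit 7597) (.f (nat_lit 590) (nat_lit 493) (nat_lit 7629) (.d (nat_lit 589) (nat_lit 557) (nat_lit 5581) (nat_lit 621) (nat_lit 5613))))))) (.a s21569 (.a s21690 (.a s21691 (.a s19085 (.a (.p (nat_lit 462) (.a (.f (nat_lit 461) (nat_lit 429) (nat_lit 7597) (.f (nat_lit 495) (nat_lit 497) (nat_lit 3533) (.d (nat_lit 460) (nat_lit 459) (nat_lit 459) (nat_lit 463) (nat_lit 460)))) (.a (.f (nat_lit 557) (nat_lit 589) (nat_lit 5581) (.f (nat_lit 525) (nat_lit 430) (nat_lit 5549) (.d (nat_lit 527) (nat_lit 497) (nat_lit 2541) (nat_lit 556) (nat_lit 1548)))) (.f (nat_lit 429) (nat_lit 461) (nat_lit 7597) (.f (nat_lit 430) (nat_lit 397) (nat_lit 7565) (.d (nat_lit 431) (nat_lit 399)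 (nat_lit 6542) (nat_lit 463) (nat_lit 6574))))))) (.p (nat_lit 462) (.a (.f (nat_lit 557) (nat_lit 589) (nat_lit 5581) (.f (nat_lit 525) (nat_lit 430) (nat_lit 5549) (.d (nat_lit 527) (nat_lit 497) (nat_lit 2541) (nat_lit 556) (nat_lit 1548)))) (.a (.f (nat_lit 463) (nat_lit 431) (nat_lit 6574) (.f (nat_lit 495) (nat_lit 590) (nat_lit 6606) (.f (nat_lit 525) (nat_lit 497) (nat_lit 1517) (.d (nat_lit 524) (nat_lit 493) (nat_lit 1516) (nat_lit 523) (nat_lit 2539))))) (.f (nat_lit 463) (nat_lit 431) (nat_lit 6574) (.f (nat_lit 590) (nat_lit 495) (nat_lit 6606) (.d (nat_lit 589) (nat_lit 557) (nat_lit 5581) (nat_lit 621) (nat_lit 5613))))))))))))))))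
noncomputable def s21700 : Cert := .r (nat_lit 943490607303752963937019840886057434177033664931875938883905600411634630746106260497667102478139433991455298517019633324992605640886346785690119740517314869782049193984) (.p (nat_lit 590) (.a (.f (nat_lit 495) (nat_lit 463) (nat_lit 6606) (.f (nat_lit 527) (nat_lit 622) (nat_lit 6638) (.d (nat_lit 493) (nat_lit 461) (nat_lit 7629) (nat_lit 492) (nat_lit 492)))) (.a (.f (nat_lit 623) (nat_lit 591) (nat_lit 4590) (.f (nat_lit 622) (nat_lit 655) (nat_lit 4622) (.d (nat_lit 621) (nat_lit 589) (nat_lit 5613) (nat_lit 653) (nat_lit 5645)))) (.f (nat_lit 495) (nat_lit 463) (nat_lit 6606) (.f (nat_lit 493) (nat_lit 461) (nat_lit 7629) (.f (nat_lit 492) (nat_lit 527) (nat_lit 492) (.f (nat_lit 459) (nat_lit 460) (nat_lit 3531) (.f (nat_lit 491) (nat_lit 458) (nat_lit 3530) (.d (nat_lit 523) (nat_lit 522) (nat_lit 1514) (nat_lit 524) (nat_lit 1515))))))))))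
noncomputable def s21701 : Cert := .r (nat_lit 943490607303752963885873112637680217458077575918944702130520568442211743410429832871165011909316394071404203324427380869510001201393220676171100106987855603323790950400) (.p (nat_lit 494) (.a s19070 (.a s21569 (.a (.p (nat_lit 462) (.a (.f (nat_lit 429) (nat_lit 461) (nat_lit 7597) (.f (nat_lit 430) (nat_lit 397) (nat_lit 7565) (.d (nat_lit 431) (nat_lit 399) (nat_lit 6542) (nat_lit 463) (nat_lit 6574)))) (.a (.f (nat_lit 591) (nat_lit 559) (nat_lit 4558) (.f (nat_lit 590) (nat_lit 623) (nat_lit 4590) (.d (nat_lit 461) (nat_lit 429) (nat_lit 7597) (nat_lit 493) (nat_lit 7629)))) (.f (nat_lit 559) (nat_lit 591) (nat_lit 4558) (.f (nat_lit 527) (nat_lit 430) (nat_lit 4526) (.d (nat_lit 557) (nat_lit 556) (nat_lit 2572) (nat_lit 589) (nat_lit 5581))))))) (.a (.p (nat_lit 462) (.a (.f (nat_lit 461) (nat_lit 429) (nat_lit 7597) (.f (nat_lit 495) (nat_lit 497) (nat_lit 3533) (.d (nat_lit 460)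 (nat_lit 459) (nat_lit 459) (nat_lit 463) (nat_lit 460)))) (.a (.f (nat_lit 429) (nat_lit 461) (nat_lit 7597) (.f (nat_lit 430) (nat_lit 397) (nat_lit 7565) (.d (nat_lit 431) (nat_lit 399) (nat_lit 6542) (nat_lit 463) (nat_lit 6574)))) (.f (nat_lit 559) (nat_lit 591) (nat_lit 4558) (.f (nat_lit 527) (nat_lit 430) (nat_lit 4526) (.d (nat_lit 557) (nat_lit 556) (nat_lit 2572) (nat_lit 589) (nat_lit 5581))))))) (.a (.p (nat_lit 462) (.a (.f (nat_lit 461) (nat_lit 429) (nat_lit 7597) (.f (nat_lit 493) (nat_lit 590) (nat_lit 7629) (.d (nat_lit 495) (nat_lit 460) (nat_lit 3532) (nat_lit 497) (nat_lit 3533)))) (.a (.f (nat_lit 591) (nat_lit 559) (nat_lit 4558) (.f (nat_lit 590) (nat_lit 623) (nat_lit 4590) (.d (nat_lit 461) (nat_lit 429) (nat_lit 7597) (nat_lit 493) (nat_lit 7629)))) (.f (nat_lit 559) (nat_lit 591) (nat_lit 4558) (.f (nat_lit 527) (nat_lit 430) (nat_lit 4526) (.d (nat_lit 557) (nat_lit 556) (nat_lit 2572) (nat_lit 589)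 (nat_lit 5581))))))) (.a (.p (nat_lit 462) (.a (.f (nat_lit 429) (nat_lit 461) (nat_lit 7597) (.f (nat_lit 430) (nat_lit 397) (nat_lit 7565) (.d (nat_lit 431) (nat_lit 399) (nat_lit 6542) (nat_lit 463) (nat_lit 6574)))) (.a (.f (nat_lit 591) (nat_lit 559) (nat_lit 4558) (.f (nat_lit 590) (nat_lit 623) (nat_lit 4590) (.d (nat_lit 461) (nat_lit 429) (nat_lit 7597) (nat_lit 493) (nat_lit 7629)))) (.f (nat_lit 559) (nat_lit 591) (nat_lit 4558) (.f (nat_lit 430) (nat_lit 527) (nat_lit 4526) (.d (nat_lit 431) (nat_lit 399) (nat_lit 6542) (nat_lit 463) (nat_lit 6574))))))) (.a s21700 (.p (nat_lit 462) (.a (.f (nat_lit 559) (nat_lit 591) (nat_lit 4558) (.f (nat_lit 527) (nat_lit 430) (nat_lit 4526) (.d (nat_lit 557) (nat_lit 556) (nat_lit 2572) (nat_lit 589) (nat_lit 5581)))) (.a (.f (nat_lit 463) (nat_lit 431) (nat_lit 6574) (.f (nat_lit 590) (nat_lit 495) (nat_lit 6606) (.d (nat_lit 589) (nat_lit 557) (nat_lit 5581) (nat_lit 621) (nat_lit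 5613)))) (.f (nat_lit 559) (nat_lit 591) (nat_lit 4558) (.f (nat_lit 430) (nat_lit 527) (nat_lit 4526) (.d (nat_lit 431) (nat_lit 399) (nat_lit 6542) (nat_lit 463) (nat_lit 6574)))))))))))))))
noncomputable def s21715 : Cert := .r (nat_lit 4717453032125294316127427693625949108374998796335385130506726868687835905802578684957291737086975161612872578355191225769280585831318013308732534358420551646973186277376) (.p (nat_lit 592) (.a (.f (nat_lit 591) (nat_lit 623) (nat_lit 5615) (.f (nat_lit 593) (nat_lit 625) (nat_lit 4592) (.d (nat_lit 557) (nat_lit 559) (nat_lit 557) (nat_lit 590) (nat_lit 3629)))) (.a (.f (nat_lit 623) (nat_lit 591) (nat_lit 5615) (.f (nat_lit 624) (nat_lit 655) (nat_lit 5647) (.d (nat_lit 625) (nat_lit 593) (nat_lit 4592) (nat_lit 657) (nat_lit 4624)))) (.a (.f (nat_lit 593) (nat_lit 625) (nat_lit 4592) (.f (nat_lit 559) (nat_lit 557) (nat_lit 557) (.d (nat_lit 561) (nat_lit 525) (nat_lit 3597) (nat_lit 594) (nat_lit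 558)))) (.f (nat_lit 497) (nat_lit 465) (nat_lit 6608) (.f (nat_lit 525) (nat_lit 527) (nat_lit 2541) (.f (nat_lit 559) (nat_lit 561) (nat_lit 3597) (.d (nat_lit 524) (nat_lit 523) (nat_lit 523) (nat_lit 557) (nat_lit 3596)))))))))
noncomputable def s21733 : Cert := .r (nat_lit 4717453032125294316127427693625949108374998796335385130506726868687835905802578684957291737086975161612872578355191225769280585831318013308732534358420551646973186277376) (.p (nat_lit 592) (.a (.f (nat_lit 591) (nat_lit 623) (nat_lit 5615) (.f (nat_lit 593) (nat_lit 625) (nat_lit 4592) (.d (nat_lit 557) (nat_lit 559) (nat_lit 557) (nat_lit 590) (nat_lit 3629)))) (.a (.f (nat_lit 623) (nat_lit 591) (nat_lit 5615) (.f (nat_lit 624) (nat_lit 655) (nat_lit 5647) (.d (nat_lit 625) (nat_lit 593) (nat_lit 4592) (nat_lit 657) (nat_lit 4624)))) (.a (.f (nat_lit 593) (nat_lit 625) (nat_lit 4592) (.f (nat_lit 559) (nat_lit 557) (nat_lit 557) (.d (nat_lit 561) (nat_lit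 525) (nat_lit 3597) (nat_lit 594) (nat_lit 558)))) (.p (nat_lit 559) (.a (.f (nat_lit 591) (nat_lit 623) (nat_lit 5615) (.f (nat_lit 561) (nat_lit 525) (nat_lit 3597) (.d (nat_lit 562) (nat_lit 563) (nat_lit 1583) (nat_lit 590) (nat_lit 1582)))) (.a (.f (nat_lit 591) (nat_lit 623) (nat_lit 5615) (.f (nat_lit 557) (nat_lit 556) (nat_lit 556) (.f (nat_lit 589) (nat_lit 588) (nat_lit 1580) (.f (nat_lit 590) (nat_lit 561) (nat_lit 1581) (.d (nat_lit 621) (nat_lit 620) (nat_lit 1612) (nat_lit 653) (nat_lit 6669)))))) (.a (.f (nat_lit 591) (nat_lit 623) (nat_lit 5615) (.f (nat_lit 557) (nat_lit 556) (nat_lit 556) (.f (nat_lit 589) (nat_lit 588) (nat_lit 1580) (.f (nat_lit 525) (nat_lit 524) (nat_lit 3596) (.f (nat_lit 621) (nat_lit 653) (nat_lit 6669) (.d (nat_lit 620) (nat_lit 590) (nat_lit 1612) (nat_lit 652) (nat_lit 5644))))))) (.f (nat_lit 525) (nat_lit 561) (nat_lit 3597) (.d (nat_lit 524) (nat_lit 523) (nat_lit 523) (nat_lit 557)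 (nat_lit 3596)))))))))))
noncomputable def s21744 : Cert := .r (nat_lit 4717453032125294316127427693625949108374998796335385130506726868687835905802578684957291737086975161612872578355191225769280585831318013308732534358420551646973186277376) (.p (nat_lit 592) (.a (.f (nat_lit 623) (nat_lit 591) (nat_lit 5615) (.f (nat_lit 624) (nat_lit 655) (nat_lit 5647) (.d (nat_lit 625) (nat_lit 593) (nat_lit 4592) (nat_lit 657) (nat_lit 4624)))) (.a (.f (nat_lit 495) (nat_lit 463) (nat_lit 7631) (.f (nat_lit 624) (nat_lit 527) (nat_lit 7663) (.d (nat_lit 625) (nat_lit 593) (nat_lit 4592) (nat_lit 657) (nat_lit 4624)))) (.a (.f (nat_lit 591) (nat_lit 623) (nat_lit 5615) (.f (nat_lit 593) (nat_lit 625) (nat_lit 4592) (.f (nat_lit 590) (nat_lit 557) (nat_lit 3629) (.d (nat_lit 561) (nat_lit 562) (nat_lit 2606) (nat_lit 589) (nat_lit 2605))))) (.f (nat_lit 495) (nat_lit 463) (nat_lit 7631) (.f (nat_lit 624) (nat_lit 527) (nat_lit 7663) (.d (nat_lit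 623) (nat_lit 591) (nat_lit 5615) (nat_lit 655) (nat_lit 5647))))))))
noncomputable def s21763 : Cert := .r (nat_lit 4717453032125294316127427693625949108374998796335385130506726868687835905802578684957291737086975161612872578355191225769280585831318013308732534358420551646973186277376) (.p (nat_lit 592) (.a (.f (nat_lit 591) (nat_lit 623) (nat_lit 5615) (.f (nat_lit 593) (nat_lit 625) (nat_lit 4592) (.d (nat_lit 557) (nat_lit 559) (nat_lit 557) (nat_lit 590) (nat_lit 3629)))) (.a (.f (nat_lit 623) (nat_lit 591) (nat_lit 5615) (.f (nat_lit 624) (nat_lit 655) (nat_lit 5647) (.d (nat_lit 625) (nat_lit 593) (nat_lit 4592) (nat_lit 657) (nat_lit 4624)))) (.a (.f (nat_lit 625) (nat_lit 593) (nat_lit 4592) (.f (nat_lit 624) (nat_lit 657) (nat_lit 4624) (.f (nat_lit 655) (nat_lit 623) (nat_lit 5647) (.f (nat_lit 656) (nat_lit 687) (nat_lit 5679) (.f (nat_lit 527) (nat_lit 559) (nat_lit 7695) (.d (nat_lit 497) (nat_lit 465) (nat_lit 6608)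 (nat_lit 525) (nat_lit 2541))))))) (.a (.f (nat_lit 623) (nat_lit 591) (nat_lit 5615) (.f (nat_lit 624) (nat_lit 655) (nat_lit 5647) (.f (nat_lit 657) (nat_lit 625) (nat_lit 4624) (.f (nat_lit 656) (nat_lit 689) (nat_lit 4656) (.f (nat_lit 527) (nat_lit 559) (nat_lit 7695) (.d (nat_lit 497) (nat_lit 465) (nat_lit 6608) (nat_lit 525) (nat_lit 2541))))))) (.a (.f (nat_lit 495) (nat_lit 463) (nat_lit 7631) (.f (nat_lit 624) (nat_lit 527) (nat_lit 7663) (.d (nat_lit 625) (nat_lit 593) (nat_lit 4592) (nat_lit 657) (nat_lit 4624)))) (.f (nat_lit 495) (nat_lit 463) (nat_lit 7631) (.f (nat_lit 624) (nat_lit 527) (nat_lit 7663) (.d (nat_lit 623) (nat_lit 591) (nat_lit 5615) (nat_lit 655) (nat_lit 5647))))))))))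
noncomputable def s21780 : Cert := .r (nat_lit 4717453032125294316127427693625949108374998796335385130506726868687835905802578684957291737086975161612872578355191225769280585831318013308732534358420551646973186277376) (.p (nat_lit 592) (.a (.f (nat_lit 623) (nat_lit 591) (nat_lit 5615) (.f (nat_lit 624) (nat_lit 655) (nat_lit 5647) (.d (nat_lit 625) (nat_lit 593) (nat_lit 4592) (nat_lit 657) (nat_lit 4624)))) (.a (.f (nat_lit 625) (nat_lit 593) (nat_lit 4592) (.f (nat_lit 624) (nat_lit 657) (nat_lit 4624) (.f (nat_lit 655) (nat_lit 623) (nat_lit 5647) (.f (nat_lit 656) (nat_lit 687) (nat_lit 5679) (.f (nat_lit 527) (nat_lit 559) (nat_lit 7695) (.d (nat_lit 497) (nat_lit 465) (nat_lit 6608) (nat_lit 525) (nat_lit 2541))))))) (.a (.f (nat_lit 591) (nat_lit 623) (nat_lit 5615) (.f (nat_lit 593) (nat_lit 625) (nat_lit 4592) (.f (nat_lit 559) (nat_lit 594) (nat_lit 3630) (.f (nat_lit 561) (nat_lit 525) (nat_lit 3597) (.d (nat_lit 562)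 (nat_lit 527) (nat_lit 3598) (nat_lit 563) (nat_lit 1583)))))) (.a (.f (nat_lit 623) (nat_lit 591) (nat_lit 5615) (.f (nat_lit 624) (nat_lit 655) (nat_lit 5647) (.f (nat_lit 657) (nat_lit 625) (nat_lit 4624) (.f (nat_lit 656) (nat_lit 689) (nat_lit 4656) (.f (nat_lit 527) (nat_lit 559) (nat_lit 7695) (.d (nat_lit 497) (nat_lit 465) (nat_lit 6608) (nat_lit 525) (nat_lit 2541))))))) (.a (.f (nat_lit 593) (nat_lit 625) (nat_lit 4592) (.f (nat_lit 497) (nat_lit 465) (nat_lit 6608) (.f (nat_lit 525) (nat_lit 527) (nat_lit 2541) (.f (nat_lit 559) (nat_lit 561) (nat_lit 3597) (.d (nat_lit 594) (nat_lit 591) (nat_lit 3630) (nat_lit 595) (nat_lit 3631)))))) (.f (nat_lit 591) (nat_lit 623) (nat_lit 5615) (.f (nat_lit 497) (nat_lit 465) (nat_lit 6608) (.f (nat_lit 525) (nat_lit 527) (nat_lit 2541) (.f (nat_lit 561) (nat_lit 559) (nat_lit 3597) (.f (nat_lit 590) (nat_lit 589) (nat_lit 2605) (.d (nat_lit 562) (nat_lit 563) (nat_lit 1583) (nat_lit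 593) (nat_lit 2606)))))))))))))
noncomputable def s21781 : Cert := .r (nat_lit 943490607303752963885873112637680217458077575918944702130520568442211743410429832871165011909316394071404203324427380869510001201393220676171100106987855603323790950400) (.p (nat_lit 560) (.a s21715 (.a s21733 (.a s21744 (.a (.p (nat_lit 525) (.a (.f (nat_lit 559) (nat_lit 561) (nat_lit 3597) (.d (nat_lit 524) (nat_lit 523) (nat_lit 523) (nat_lit 557) (nat_lit 3596))) (.a (.d (nat_lit 527) (nat_lit 497) (nat_lit 2541) (nat_lit 561) (nat_lit 525)) (.f (nat_lit 527) (nat_lit 497) (nat_lit 2541) (.d (nat_lit 524) (nat_lit 495) (nat_lit 2540) (nat_lit 559) (nat_lit 524)))))) (.a s21763 s21780))))))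
noncomputable def s21782 : Cert := .r (nat_lit 943490607303752963937019840886057434177033664931875938883905600411634630746106260497667102478139433991455298517019633324992605640886346785690119740517314869782049193984) (.p (nat_lit 462) (.a (.f (nat_lit 591) (nat_lit 559) (nat_lit 4558) (.f (nat_lit 590) (nat_lit 623) (nat_lit 4590) (.d (nat_lit 461) (nat_lit 429) (nat_lit 7597) (nat_lit 493) (nat_lit 7629)))) (.a (.f (nat_lit 461) (nat_lit 429) (nat_lit 7597) (.f (nat_lit 493) (nat_lit 590) (nat_lit 7629) (.f (nat_lit 495) (nat_lit 460) (nat_lit 3532) (.f (nat_lit 525) (nat_lit 524) (nat_lit 1516) (.d (nat_lit 430) (nat_lit 398) (nat_lit 5517) (nat_lit 557) (nat_lit 5549)))))) (.f (nat_lit 559) (nat_lit 591) (nat_lit 4558) (.f (nat_lit 527) (nat_lit 430) (nat_lit 4526) (.d (nat_lit 557) (nat_lit 556) (nat_lit 2572) (nat_lit 589) (nat_lit 5581)))))))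
noncomputable def s21783 : Cert := .r (nat_lit 943490607303752963885873112637680217458077575918944702130520568442211743410429832871165011909316394071404203324427380869510001201393220676171100106987855603323790950400) (.p (nat_lit 494) (.a s19071 (.a (.p (nat_lit 462) (.a (.f (nat_lit 429) (nat_lit 461) (nat_lit 7597) (.f (nat_lit 430) (nat_lit 397) (nat_lit 7565) (.d (nat_lit 431) (nat_lit 399) (nat_lit 6542) (nat_lit 463) (nat_lit 6574)))) (.a (.f (nat_lit 591) (nat_lit 559) (nat_lit 4558) (.f (nat_lit 590) (nat_lit 623) (nat_lit 4590) (.d (nat_lit 461) (nat_lit 429) (nat_lit 7597) (nat_lit 493) (nat_lit 7629)))) (.f (nat_lit 557) (nat_lit 589) (nat_lit 5581) (.f (nat_lit 559) (nat_lit 591) (nat_lit 4558) (.f (nat_lit 525) (nat_lit 430) (nat_lit 5549) (.d (nat_lit 524) (nat_lit 523) (nat_lit 523) (nat_lit 560) (nat_lit 3596)))))))) (.a s21690 (.a (.p (nat_lit 462) (.a (.f (nat_lit 559) (nat_lit 591) (nat_lit 4558) (.f (nat_lit 527)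 (nat_lit 430) (nat_lit 4526) (.d (nat_lit 557) (nat_lit 556) (nat_lit 2572) (nat_lit 589) (nat_lit 5581)))) (.a (.f (nat_lit 463) (nat_lit 431) (nat_lit 6574) (.f (nat_lit 590) (nat_lit 495) (nat_lit 6606) (.d (nat_lit 589) (nat_lit 557) (nat_lit 5581) (nat_lit 621) (nat_lit 5613)))) (.f (nat_lit 559) (nat_lit 591) (nat_lit 4558) (.f (nat_lit 430) (nat_lit 527) (nat_lit 4526) (.d (nat_lit 431) (nat_lit 399) (nat_lit 6542) (nat_lit 463) (nat_lit 6574))))))) (.a s21782 (.a (.p (nat_lit 462) (.a (.f (nat_lit 429) (nat_lit 461) (nat_lit 7597) (.f (nat_lit 430) (nat_lit 397) (nat_lit 7565) (.d (nat_lit 431) (nat_lit 399) (nat_lit 6542) (nat_lit 463) (nat_lit 6574)))) (.a (.f (nat_lit 591) (nat_lit 559) (nat_lit 4558) (.f (nat_lit 590) (nat_lit 623) (nat_lit 4590) (.d (nat_lit 461) (nat_lit 429) (nat_lit 7597) (nat_lit 493) (nat_lit 7629)))) (.f (nat_lit 559) (nat_lit 591) (nat_lit 4558) (.f (nat_lit 430) (nat_lit 527) (nat_lit 4526) (.d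 (nat_lit 431) (nat_lit 399) (nat_lit 6542) (nat_lit 463) (nat_lit 6574))))))) (.a s21700 s21687))))))))
noncomputable def s21786 : Cert := .r (nat_lit 943490607303752963885873112637680217458077575918944702130520568442211743410429832871165011909316394071404203324427380869510001201393220676171100106987855603323790950400) (.p (nat_lit 494) (.a (.p (nat_lit 462) (.a (.f (nat_lit 557) (nat_lit 589) (nat_lit 5581) (.f (nat_lit 525) (nat_lit 430) (nat_lit 5549) (.d (nat_lit 527) (nat_lit 497) (nat_lit 2541) (nat_lit 556) (nat_lit 1548)))) (.a (.f (nat_lit 461) (nat_lit 429) (nat_lit 7597) (.f (nat_lit 493) (nat_lit 590) (nat_lit 7629) (.d (nat_lit 495) (nat_lit 460) (nat_lit 3532) (nat_lit 497) (nat_lit 3533)))) (.f (nat_lit 591) (nat_lit 559) (nat_lit 4558) (.f (nat_lit 590) (nat_lit 623) (nat_lit 4590) (.d (nat_lit 461) (nat_lit 429) (nat_lit 7597) (nat_lit 493) (nat_lit 7629))))))) (.a (.p (nat_lit 462) (.a (.f (nat_lit 461) (nat_lit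 429) (nat_lit 7597) (.f (nat_lit 493) (nat_lit 590) (nat_lit 7629) (.d (nat_lit 495) (nat_lit 460) (nat_lit 3532) (nat_lit 497) (nat_lit 3533)))) (.a (.f (nat_lit 591) (nat_lit 559) (nat_lit 4558) (.f (nat_lit 590) (nat_lit 623) (nat_lit 4590) (.d (nat_lit 461) (nat_lit 429) (nat_lit 7597) (nat_lit 493) (nat_lit 7629)))) (.f (nat_lit 557) (nat_lit 589) (nat_lit 5581) (.f (nat_lit 559) (nat_lit 591) (nat_lit 4558) (.f (nat_lit 525) (nat_lit 430) (nat_lit 5549) (.d (nat_lit 524) (nat_lit 523) (nat_lit 523) (nat_lit 560) (nat_lit 3596)))))))) (.a (.p (nat_lit 462) (.a (.f (nat_lit 557) (nat_lit 589) (nat_lit 5581) (.f (nat_lit 525) (nat_lit 430) (nat_lit 5549) (.d (nat_lit 527) (nat_lit 497) (nat_lit 2541) (nat_lit 556) (nat_lit 1548)))) (.f (nat_lit 591) (nat_lit 559) (nat_lit 4558) (.f (nat_lit 590) (nat_lit 623) (nat_lit 4590) (.d (nat_lit 461) (nat_lit 429) (nat_lit 7597) (nat_lit 493) (nat_lit 7629)))))) (.a s21691 (.a (.p (nat_lit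 462) (.a (.f (nat_lit 461) (nat_lit 429) (nat_lit 7597) (.f (nat_lit 493) (nat_lit 590) (nat_lit 7629) (.d (nat_lit 495) (nat_lit 460) (nat_lit 3532) (nat_lit 497) (nat_lit 3533)))) (.a (.f (nat_lit 591) (nat_lit 559) (nat_lit 4558) (.f (nat_lit 590) (nat_lit 623) (nat_lit 4590) (.d (nat_lit 461) (nat_lit 429) (nat_lit 7597) (nat_lit 493) (nat_lit 7629)))) (.f (nat_lit 559) (nat_lit 591) (nat_lit 4558) (.f (nat_lit 527) (nat_lit 430) (nat_lit 4526) (.d (nat_lit 557) (nat_lit 556) (nat_lit 2572) (nat_lit 589) (nat_lit 5581))))))) (.a s21782 (.a (.p (nat_lit 462) (.a (.f (nat_lit 557) (nat_lit 589) (nat_lit 5581) (.f (nat_lit 525) (nat_lit 430) (nat_lit 5549) (.d (nat_lit 527) (nat_lit 497) (nat_lit 2541) (nat_lit 556) (nat_lit 1548)))) (.a (.f (nat_lit 589) (nat_lit 557) (nat_lit 5581) (.f (nat_lit 590) (nat_lit 621) (nat_lit 5613) (.d (nat_lit 591) (nat_lit 559) (nat_lit 4558) (nat_lit 623) (nat_lit 4590)))) (.f (nat_lit 559) (nat_lit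 591) (nat_lit 4558) (.f (nat_lit 527) (nat_lit 430) (nat_lit 4526) (.f (nat_lit 525) (nat_lit 497) (nat_lit 2541) (.d (nat_lit 524) (nat_lit 495) (nat_lit 2540) (nat_lit 523) (nat_lit 523)))))))) (.a (.p (nat_lit 462) (.a (.f (nat_lit 461) (nat_lit 429) (nat_lit 7597) (.f (nat_lit 493) (nat_lit 590) (nat_lit 7629) (.d (nat_lit 495) (nat_lit 460) (nat_lit 3532) (nat_lit 497) (nat_lit 3533)))) (.a (.f (nat_lit 591) (nat_lit 559) (nat_lit 4558) (.f (nat_lit 590) (nat_lit 623) (nat_lit 4590) (.d (nat_lit 461) (nat_lit 429) (nat_lit 7597) (nat_lit 493) (nat_lit 7629)))) (.f (nat_lit 559) (nat_lit 591) (nat_lit 4558) (.f (nat_lit 527) (nat_lit 430) (nat_lit 4526) (.f (nat_lit 525) (nat_lit 497) (nat_lit 2541) (.d (nat_lit 524) (nat_lit 495) (nat_lit 2540) (nat_lit 523) (nat_lit 523)))))))) (.a s21686 (.p (nat_lit 462) (.a (.f (nat_lit 559) (nat_lit 591) (nat_lit 4558) (.f (nat_lit 527) (nat_lit 430) (nat_lit 4526) (.d (nat_lit 557) (nat_lit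 556) (nat_lit 2572) (nat_lit 589) (nat_lit 5581)))) (.f (nat_lit 461) (nat_lit 429) (nat_lit 7597) (.f (nat_lit 495) (nat_lit 497) (nat_lit 3533) (.d (nat_lit 460) (nat_lit 459) (nat_lit 459) (nat_lit 493) (nat_lit 3532))))))))))))))))
noncomputable def s21788 : Cert := .r (nat_lit 943490607303752963885873112637680217458077575918944702130520568442211743410429832871165011909316394071404203324427380869510001201393220676171100106987855603323790950400) (.p (nat_lit 494) (.a s19062 (.a (.p (nat_lit 462) (.a (.f (nat_lit 429) (nat_lit 461) (nat_lit 7597) (.f (nat_lit 430) (nat_lit 397) (nat_lit 7565) (.d (nat_lit 431) (nat_lit 399) (nat_lit 6542) (nat_lit 463) (nat_lit 6574)))) (.a (.f (nat_lit 591) (nat_lit 559) (nat_lit 4558) (.f (nat_lit 590) (nat_lit 623) (nat_lit 4590) (.d (nat_lit 461) (nat_lit 429) (nat_lit 7597) (nat_lit 493) (nat_lit 7629)))) (.f (nat_lit 559) (nat_lit 591) (nat_lit 4558) (.f (nat_lit 430) (nat_lit 527) (nat_lit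 4526) (.d (nat_lit 431) (nat_lit 399) (nat_lit 6542) (nat_lit 463) (nat_lit 6574))))))) (.a (.p (nat_lit 462) (.a (.f (nat_lit 461) (nat_lit 429) (nat_lit 7597) (.f (nat_lit 495) (nat_lit 497) (nat_lit 3533) (.d (nat_lit 460) (nat_lit 459) (nat_lit 459) (nat_lit 463) (nat_lit 460)))) (.a (.f (nat_lit 429) (nat_lit 461) (nat_lit 7597) (.f (nat_lit 430) (nat_lit 397) (nat_lit 7565) (.d (nat_lit 431) (nat_lit 399) (nat_lit 6542) (nat_lit 463) (nat_lit 6574)))) (.f (nat_lit 559) (nat_lit 591) (nat_lit 4558) (.f (nat_lit 527) (nat_lit 430) (nat_lit 4526) (.f (nat_lit 525) (nat_lit 497) (nat_lit 2541) (.d (nat_lit 524) (nat_lit 495) (nat_lit 2540) (nat_lit 523) (nat_lit 523)))))))) (.a (.p (nat_lit 462) (.a (.f (nat_lit 461) (nat_lit 429) (nat_lit 7597) (.f (nat_lit 493) (nat_lit 590) (nat_lit 7629) (.d (nat_lit 495) (nat_lit 460) (nat_lit 3532) (nat_lit 497) (nat_lit 3533)))) (.a (.f (nat_lit 591) (nat_lit 559) (nat_lit 4558) (.f (nat_lit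 590) (nat_lit 623) (nat_lit 4590) (.d (nat_lit 461) (nat_lit 429) (nat_lit 7597) (nat_lit 493) (nat_lit 7629)))) (.f (nat_lit 559) (nat_lit 591) (nat_lit 4558) (.f (nat_lit 527) (nat_lit 430) (nat_lit 4526) (.f (nat_lit 525) (nat_lit 497) (nat_lit 2541) (.d (nat_lit 524) (nat_lit 495) (nat_lit 2540) (nat_lit 523) (nat_lit 523)))))))) (.a s19085 (.p (nat_lit 590) (.a (.f (nat_lit 495) (nat_lit 463) (nat_lit 6606) (.f (nat_lit 525) (nat_lit 497) (nat_lit 1517) (.d (nat_lit 524) (nat_lit 523) (nat_lit 2539) (nat_lit 527) (nat_lit 2540)))) (.f (nat_lit 623) (nat_lit 591) (nat_lit 4590) (.f (nat_lit 622) (nat_lit 655) (nat_lit 4622) (.d (nat_lit 621) (nat_lit 589) (nat_lit 5613) (nat_lit 653) (nat_lit 5645))))))))))))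
noncomputable def s21798 : Cert := .r (nat_lit 4717453032125294316127427693625949108374998796335385130506726868687835905802578684957291737086975161612872578355191225769280585831318013308732534358420551646973186277376) (.p (nat_lit 592) (.a (.f (nat_lit 623) (nat_lit 591) (nat_lit 5615) (.f (nat_lit 624) (nat_lit 655) (nat_lit 5647) (.d (nat_lit 625) (nat_lit 593) (nat_lit 4592) (nat_lit 657) (nat_lit 4624)))) (.a (.f (nat_lit 593) (nat_lit 625) (nat_lit 4592) (.f (nat_lit 559) (nat_lit 557) (nat_lit 557) (.d (nat_lit 561) (nat_lit 525) (nat_lit 3597) (nat_lit 594) (nat_lit 558)))) (.f (nat_lit 591) (nat_lit 623) (nat_lit 5615) (.f (nat_lit 495) (nat_lit 463) (nat_lit 7631) (.f (nat_lit 497) (nat_lit 465) (nat_lit 6608) (.f (nat_lit 494) (nat_lit 525) (nat_lit 1517) (.d (nat_lit 462) (nat_lit 461) (nat_lit 3533) (nat_lit 559) (nat_lit 4558)))))))))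
noncomputable def s21807 : Cert := .r (nat_lit 943490607303752963885873112637680217458077575918944702130520568442211743410429832871165011909316394071404203324427380869510001201393220676171100106987855603323790950400) (.p (nat_lit 560) (.a (.p (nat_lit 525) (.a (.f (nat_lit 559) (nat_lit 561) (nat_lit 3597) (.d (nat_lit 524) (nat_lit 523) (nat_lit 523) (nat_lit 557) (nat_lit 3596))) (.a (.d (nat_lit 527) (nat_lit 497) (nat_lit 2541) (nat_lit 561) (nat_lit 525)) (.f (nat_lit 527) (nat_lit 497) (nat_lit 2541) (.f (nat_lit 559) (nat_lit 524) (nat_lit 524) (.f (nat_lit 557) (nat_lit 556) (nat_lit 1548) (.f (nat_lit 589) (nat_lit 588) (nat_lit 1580) (.d (nat_lit 494) (nat_lit 462) (nat_lit 5581) (nat_lit 621) (nat_lit 6637))))))))) (.a s21798 (.a (.p (nat_lit 592) (.a (.f (nat_lit 623) (nat_lit 591) (nat_lit 5615) (.f (nat_lit 624) (nat_lit 655) (nat_lit 5647) (.d (nat_lit 625) (nat_lit 593) (nat_lit 4592) (nat_lit 657) (nat_lit 4624))))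 (.a (.f (nat_lit 495) (nat_lit 463) (nat_lit 7631) (.f (nat_lit 624) (nat_lit 527) (nat_lit 7663) (.d (nat_lit 625) (nat_lit 593) (nat_lit 4592) (nat_lit 657) (nat_lit 4624)))) (.f (nat_lit 495) (nat_lit 463) (nat_lit 7631) (.f (nat_lit 497) (nat_lit 465) (nat_lit 6608) (.d (nat_lit 525) (nat_lit 494) (nat_lit 1517) (nat_lit 527) (nat_lit 2541))))))) (.p (nat_lit 592) (.a (.f (nat_lit 623) (nat_lit 591) (nat_lit 5615) (.f (nat_lit 624) (nat_lit 655) (nat_lit 5647) (.d (nat_lit 625) (nat_lit 593) (nat_lit 4592) (nat_lit 657) (nat_lit 4624)))) (.a (.f (nat_lit 593) (nat_lit 625) (nat_lit 4592) (.f (nat_lit 559) (nat_lit 557) (nat_lit 557) (.d (nat_lit 594) (nat_lit 561) (nat_lit 558) (nat_lit 595) (nat_lit 3631)))) (.f (nat_lit 495) (nat_lit 463) (nat_lit 7631) (.f (nat_lit 624) (nat_lit 527) (nat_lit 7663) (.d (nat_lit 623) (nat_lit 591) (nat_lit 5615) (nat_lit 655) (nat_lit 5647)))))))))))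
noncomputable def s21808 : Cert := .r (nat_lit 943490607303752963937019840886057434177033664931875938883905600411634630746106260497667102478139433991455298517019633324992605640886346785690119740517314869782049193984) (.p (nat_lit 462) (.a (.f (nat_lit 463) (nat_lit 431) (nat_lit 6574) (.f (nat_lit 495) (nat_lit 590) (nat_lit 6606) (.f (nat_lit 525) (nat_lit 497) (nat_lit 1517) (.d (nat_lit 524) (nat_lit 493) (nat_lit 1516) (nat_lit 523) (nat_lit 2539))))) (.a (.f (nat_lit 559) (nat_lit 591) (nat_lit 4558) (.f (nat_lit 430) (nat_lit 527) (nat_lit 4526) (.d (nat_lit 431) (nat_lit 399) (nat_lit 6542) (nat_lit 463) (nat_lit 6574)))) (.f (nat_lit 559) (nat_lit 591) (nat_lit 4558) (.f (nat_lit 527) (nat_lit 430) (nat_lit 4526) (.f (nat_lit 525) (nat_lit 497) (nat_lit 2541) (.d (nat_lit 524) (nat_lit 495) (nat_lit 2540) (nat_lit 523) (nat_lit 523))))))))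
noncomputable def s21809 : Cert := .r (nat_lit 943490607303752963885873112637680217458077575918944702130520568442211743410429832871165011909316394071404203324427380869510001201393220676171100106987855603323790950400) (.p (nat_lit 494) (.a s19062 (.a (.p (nat_lit 462) (.a (.f (nat_lit 429) (nat_lit 461) (nat_lit 7597) (.f (nat_lit 430) (nat_lit 397) (nat_lit 7565) (.d (nat_lit 431) (nat_lit 399) (nat_lit 6542) (nat_lit 463) (nat_lit 6574)))) (.a (.f (nat_lit 591) (nat_lit 559) (nat_lit 4558) (.f (nat_lit 590) (nat_lit 623) (nat_lit 4590) (.d (nat_lit 461) (nat_lit 429) (nat_lit 7597) (nat_lit 493) (nat_lit 7629)))) (.f (nat_lit 559) (nat_lit 591) (nat_lit 4558) (.f (nat_lit 430) (nat_lit 527) (nat_lit 4526) (.d (nat_lit 431) (nat_lit 399) (nat_lit 6542) (nat_lit 463) (nat_lit 6574))))))) (.a (.p (nat_lit 462) (.a (.f (nat_lit 461) (nat_lit 429) (nat_lit 7597) (.f (nat_lit 495) (nat_lit 497) (nat_lit 3533) (.d (nat_lit 460) (nat_lit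 459) (nat_lit 459) (nat_lit 463) (nat_lit 460)))) (.a (.f (nat_lit 429) (nat_lit 461) (nat_lit 7597) (.f (nat_lit 430) (nat_lit 397) (nat_lit 7565) (.d (nat_lit 431) (nat_lit 399) (nat_lit 6542) (nat_lit 463) (nat_lit 6574)))) (.f (nat_lit 559) (nat_lit 591) (nat_lit 4558) (.f (nat_lit 527) (nat_lit 430) (nat_lit 4526) (.f (nat_lit 525) (nat_lit 497) (nat_lit 2541) (.d (nat_lit 524) (nat_lit 495) (nat_lit 2540) (nat_lit 523) (nat_lit 523)))))))) (.a (.p (nat_lit 462) (.a (.f (nat_lit 461) (nat_lit 429) (nat_lit 7597) (.f (nat_lit 493) (nat_lit 590) (nat_lit 7629) (.d (nat_lit 495) (nat_lit 460) (nat_lit 3532) (nat_lit 497) (nat_lit 3533)))) (.a (.f (nat_lit 591) (nat_lit 559) (nat_lit 4558) (.f (nat_lit 590) (nat_lit 623) (nat_lit 4590) (.d (nat_lit 461) (nat_lit 429) (nat_lit 7597) (nat_lit 493) (nat_lit 7629)))) (.f (nat_lit 559) (nat_lit 591) (nat_lit 4558) (.f (nat_lit 527) (nat_lit 430) (nat_lit 4526) (.f (nat_lit 525) (nat_lit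 497) (nat_lit 2541) (.d (nat_lit 524) (nat_lit 495) (nat_lit 2540) (nat_lit 523) (nat_lit 523)))))))) (.a s19085 s21808))))))
noncomputable def s21818 : Cert := .r (nat_lit 943490607303752963937019840886057434177033664931875938883905600411634630746106260497667102478139433991455298517019633324992605640886346785690119740517314869782049193984) (.p (nat_lit 590) (.a (.f (nat_lit 493) (nat_lit 461) (nat_lit 7629) (.f (nat_lit 525) (nat_lit 622) (nat_lit 7661) (.d (nat_lit 527) (nat_lit 492) (nat_lit 3564) (nat_lit 497) (nat_lit 2541)))) (.a (.f (nat_lit 493) (nat_lit 461) (nat_lit 7629) (.f (nat_lit 622) (nat_lit 525) (nat_lit 7661) (.d (nat_lit 621) (nat_lit 589) (nat_lit 5613) (nat_lit 653) (nat_lit 5645)))) (.a (.f (nat_lit 495) (nat_lit 463) (nat_lit 6606) (.f (nat_lit 527) (nat_lit 622) (nat_lit 6638) (.d (nat_lit 493) (nat_lit 461) (nat_lit 7629) (nat_lit 492) (nat_lit 492)))) (.a (.f (nat_lit 623) (nat_lit 591) (nat_lit 4590) (.f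 (nat_lit 622) (nat_lit 655) (nat_lit 4622) (.d (nat_lit 621) (nat_lit 589) (nat_lit 5613) (nat_lit 653) (nat_lit 5645)))) (.f (nat_lit 495) (nat_lit 463) (nat_lit 6606) (.f (nat_lit 493) (nat_lit 461) (nat_lit 7629) (.f (nat_lit 527) (nat_lit 492) (nat_lit 492) (.f (nat_lit 525) (nat_lit 497) (nat_lit 2541) (.f (nat_lit 557) (nat_lit 556) (nat_lit 1548) (.f (nat_lit 589) (nat_lit 621) (nat_lit 5613) (.f (nat_lit 560) (nat_lit 561) (nat_lit 525) (.d (nat_lit 588) (nat_lit 559) (nat_lit 1580) (nat_lit 620) (nat_lit 5612))))))))))))))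
noncomputable def s21819 : Cert := .r (nat_lit 943490607303752963885873112637680217458077575918944702130520568442211743410429832871165011909316394071404203324427380869510001201393220676171100106987855603323790950400) (.p (nat_lit 494) (.a (.p (nat_lit 462) (.a (.f (nat_lit 461) (nat_lit 429) (nat_lit 7597) (.f (nat_lit 495) (nat_lit 497) (nat_lit 3533) (.d (nat_lit 460) (nat_lit 459) (nat_lit 459) (nat_lit 463) (nat_lit 460)))) (.a (.f (nat_lit 557) (nat_lit 589) (nat_lit 5581) (.f (nat_lit 525) (nat_lit 430) (nat_lit 5549) (.d (nat_lit 527) (nat_lit 497) (nat_lit 2541) (nat_lit 556) (nat_lit 1548)))) (.f (nat_lit 463) (nat_lit 431) (nat_lit 6574) (.f (nat_lit 495) (nat_lit 590) (nat_lit 6606) (.d (nat_lit 461) (nat_lit 429) (nat_lit 7597) (nat_lit 460) (nat_lit 460))))))) (.a (.p (nat_lit 462) (.a (.f (nat_lit 429) (nat_lit 461) (nat_lit 7597) (.f (nat_lit 430) (nat_lit 397) (nat_lit 7565) (.d (nat_lit 431) (nat_lit 399) (nat_lit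 6542) (nat_lit 463) (nat_lit 6574)))) (.a (.f (nat_lit 591) (nat_lit 559) (nat_lit 4558) (.f (nat_lit 590) (nat_lit 623) (nat_lit 4590) (.d (nat_lit 461) (nat_lit 429) (nat_lit 7597) (nat_lit 493) (nat_lit 7629)))) (.f (nat_lit 557) (nat_lit 589) (nat_lit 5581) (.f (nat_lit 430) (nat_lit 525) (nat_lit 5549) (.d (nat_lit 431) (nat_lit 399) (nat_lit 6542) (nat_lit 463) (nat_lit 6574))))))) (.a s19070 (.a (.p (nat_lit 462) (.a (.f (nat_lit 557) (nat_lit 589) (nat_lit 5581) (.f (nat_lit 525) (nat_lit 430) (nat_lit 5549) (.d (nat_lit 527) (nat_lit 497) (nat_lit 2541) (nat_lit 556) (nat_lit 1548)))) (.a (.f (nat_lit 461) (nat_lit 429) (nat_lit 7597) (.f (nat_lit 493) (nat_lit 590) (nat_lit 7629) (.d (nat_lit 495) (nat_lit 460) (nat_lit 3532) (nat_lit 497) (nat_lit 3533)))) (.f (nat_lit 591) (nat_lit 559) (nat_lit 4558) (.f (nat_lit 590) (nat_lit 623) (nat_lit 4590) (.d (nat_lit 461) (nat_lit 429) (nat_lit 7597) (nat_lit 493) (nat_lit 7629)))))))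 (.a (.p (nat_lit 462) (.a (.f (nat_lit 429) (nat_lit 461) (nat_lit 7597) (.f (nat_lit 430) (nat_lit 397) (nat_lit 7565) (.d (nat_lit 431) (nat_lit 399) (nat_lit 6542) (nat_lit 463) (nat_lit 6574)))) (.a (.f (nat_lit 591) (nat_lit 559) (nat_lit 4558) (.f (nat_lit 590) (nat_lit 623) (nat_lit 4590) (.d (nat_lit 461) (nat_lit 429) (nat_lit 7597) (nat_lit 493) (nat_lit 7629)))) (.f (nat_lit 559) (nat_lit 591) (nat_lit 4558) (.f (nat_lit 430) (nat_lit 527) (nat_lit 4526) (.d (nat_lit 431) (nat_lit 399) (nat_lit 6542) (nat_lit 463) (nat_lit 6574))))))) (.a s21818 (.a (.p (nat_lit 462) (.a (.f (nat_lit 461) (nat_lit 429) (nat_lit 7597) (.f (nat_lit 495) (nat_lit 497) (nat_lit 3533) (.d (nat_lit 460) (nat_lit 459) (nat_lit 459) (nat_lit 463) (nat_lit 460)))) (.a (.f (nat_lit 557) (nat_lit 589) (nat_lit 5581) (.f (nat_lit 525) (nat_lit 430) (nat_lit 5549) (.d (nat_lit 527) (nat_lit 497) (nat_lit 2541) (nat_lit 556) (nat_lit 1548)))) (.f (nat_lit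 429) (nat_lit 461) (nat_lit 7597) (.f (nat_lit 430) (nat_lit 397) (nat_lit 7565) (.d (nat_lit 431) (nat_lit 399) (nat_lit 6542) (nat_lit 463) (nat_lit 6574))))))) (.p (nat_lit 462) (.a (.f (nat_lit 559) (nat_lit 591) (nat_lit 4558) (.f (nat_lit 527) (nat_lit 430) (nat_lit 4526) (.d (nat_lit 557) (nat_lit 556) (nat_lit 2572) (nat_lit 589) (nat_lit 5581)))) (.a (.f (nat_lit 463) (nat_lit 431) (nat_lit 6574) (.f (nat_lit 590) (nat_lit 495) (nat_lit 6606) (.d (nat_lit 589) (nat_lit 557) (nat_lit 5581) (nat_lit 621) (nat_lit 5613)))) (.f (nat_lit 559) (nat_lit 591) (nat_lit 4558) (.f (nat_lit 430) (nat_lit 527) (nat_lit 4526) (.d (nat_lit 431) (nat_lit 399) (nat_lit 6542) (nat_lit 463) (nat_lit 6574)))))))))))))))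
noncomputable def s21821 : Cert := .r (nat_lit 943490607303752963937019840886057434177033664931875938883905600411634630746106260497667102478139433991455298517019633324992605640886346785690119740517314869782049193984) (.p (nat_lit 462) (.a (.f (nat_lit 429) (nat_lit 461) (nat_lit 7597) (.f (nat_lit 430) (nat_lit 397) (nat_lit 7565) (.d (nat_lit 431) (nat_lit 399) (nat_lit 6542) (nat_lit 463) (nat_lit 6574)))) (.a (.f (nat_lit 429) (nat_lit 461) (nat_lit 7597) (.f (nat_lit 430) (nat_lit 397) (nat_lit 7565) (.d (nat_lit 557) (nat_lit 525) (nat_lit 5549) (nat_lit 589) (nat_lit 5581)))) (.a (.f (nat_lit 557) (nat_lit 589) (nat_lit 5581) (.f (nat_lit 430) (nat_lit 525) (nat_lit 5549) (.d (nat_lit 431) (nat_lit 399) (nat_lit 6542) (nat_lit 463) (nat_lit 6574)))) (.f (nat_lit 461) (nat_lit 429) (nat_lit 7597) (.f (nat_lit 590) (nat_lit 493) (nat_lit 7629) (.d (nat_lit 589) (nat_lit 557) (nat_lit 5581) (nat_lit 621) (nat_lit 5613))))))))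
noncomputable def s21863 : Cert := .r (nat_lit 943490607303752963937019840886057434177033664931875938883905600411634630746106260497667102478139433991455298517019633324992605640886346785690119740517314869782049193984) (.p (nat_lit 462) (.a (.f (nat_lit 429) (nat_lit 461) (nat_lit 7597) (.f (nat_lit 430) (nat_lit 397) (nat_lit 7565) (.d (nat_lit 431) (nat_lit 399) (nat_lit 6542) (nat_lit 463) (nat_lit 6574)))) (.a (.f (nat_lit 557) (nat_lit 589) (nat_lit 5581) (.f (nat_lit 559) (nat_lit 591) (nat_lit 4558) (.f (nat_lit 525) (nat_lit 430) (nat_lit 5549) (.d (nat_lit 524) (nat_lit 523) (nat_lit 523) (nat_lit 560) (nat_lit 3596))))) (.f (nat_lit 557) (nat_lit 589) (nat_lit 5581) (.f (nat_lit 559) (nat_lit 591) (nat_lit 4558) (.f (nat_lit 560) (nat_lit 529) (nat_lit 2573) (.d (nat_lit 525) (nat_lit 524) (nat_lit 3596) (nat_lit 561) (nat_lit 3597))))))))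
noncomputable def s21883 : Cert := .r (nat_lit 943490607303752963937019840886057434177033664931875938883905600411634630746106260497667102478139433991455298517019633324992605640886346785690119740517314869782049193984) (.p (nat_lit 590) (.a (.f (nat_lit 623) (nat_lit 591) (nat_lit 4590) (.f (nat_lit 622) (nat_lit 655) (nat_lit 4622) (.d (nat_lit 621) (nat_lit 589) (nat_lit 5613) (nat_lit 653) (nat_lit 5645)))) (.a (.f (nat_lit 621) (nat_lit 589) (nat_lit 5613) (.f (nat_lit 622) (nat_lit 653) (nat_lit 5645) (.f (nat_lit 655) (nat_lit 623) (nat_lit 4622) (.f (nat_lit 654) (nat_lit 687) (nat_lit 4654) (.d (nat_lit 525) (nat_lit 493) (nat_lit 7661) (nat_lit 557) (nat_lit 7693)))))) (.a (.f (nat_lit 621) (nat_lit 589) (nat_lit 5613) (.f (nat_lit 622) (nat_lit 653) (nat_lit 5645) (.f (nat_lit 525) (nat_lit 493) (nat_lit 7661) (.f (nat_lit 557) (nat_lit 654) (nat_lit 7693) (.f (nat_lit 462) (nat_lit 430) (nat_lit 5549) (.f (nat_lit 559) (nat_lit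 591) (nat_lit 4558) (.d (nat_lit 524) (nat_lit 523) (nat_lit 523) (nat_lit 560) (nat_lit 3596)))))))) (.f (nat_lit 591) (nat_lit 623) (nat_lit 4590) (.f (nat_lit 462) (nat_lit 559) (nat_lit 4558) (.f (nat_lit 431) (nat_lit 463) (nat_lit 6574) (.f (nat_lit 430) (nat_lit 399) (nat_lit 6542) (.f (nat_lit 397) (nat_lit 429) (nat_lit 7565) (.f (nat_lit 398) (nat_lit 365) (nat_lit 7533) (.d (nat_lit 525) (nat_lit 493) (nat_lit 5517) (nat_lit 557) (nat_lit 5549))))))))))))
noncomputable def s21889 : Cert := .r (nat_lit 943490607303752963937019840886057434177033664931875938883905600411634630746106260497667102478139433991455298517019633324992605640886346785690119740517314869782049193984) (.p (nat_lit 462) (.a (.f (nat_lit 429) (nat_lit 461) (nat_lit 7597) (.f (nat_lit 430) (nat_lit 397) (nat_lit 7565) (.d (nat_lit 431) (nat_lit 399) (nat_lit 6542) (nat_lit 463) (nat_lit 6574)))) (.a (.f (nat_lit 591) (nat_lit 559) (nat_lit 4558) (.f (nat_lit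 590) (nat_lit 623) (nat_lit 4590) (.d (nat_lit 461) (nat_lit 429) (nat_lit 7597) (nat_lit 493) (nat_lit 7629)))) (.a (.f (nat_lit 431) (nat_lit 463) (nat_lit 6574) (.f (nat_lit 430) (nat_lit 399) (nat_lit 6542) (.f (nat_lit 397) (nat_lit 429) (nat_lit 7565) (.f (nat_lit 398) (nat_lit 365) (nat_lit 7533) (.d (nat_lit 525) (nat_lit 493) (nat_lit 5517) (nat_lit 557) (nat_lit 5549)))))) (.f (nat_lit 431) (nat_lit 463) (nat_lit 6574) (.f (nat_lit 430) (nat_lit 399) (nat_lit 6542) (.f (nat_lit 591) (nat_lit 559) (nat_lit 4558) (.f (nat_lit 590) (nat_lit 623) (nat_lit 4590) (.f (nat_lit 493) (nat_lit 461) (nat_lit 7629) (.d (nat_lit 525) (nat_lit 398) (nat_lit 5517) (nat_lit 622) (nat_lit 7661)))))))))))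
noncomputable def s21890 : Cert := .r (nat_lit 943490607303752963885873112637680217458077575918944702130520568442211743410429832871165011909316394071404203324427380869510001201393220676171100106987855603323790950400) (.p (nat_lit 494) (.a (.p (nat_lit 462) (.a (.f (nat_lit 429) (nat_lit 461) (nat_lit 7597) (.f (nat_lit 430) (nat_lit 397) (nat_lit 7565) (.d (nat_lit 431) (nat_lit 399) (nat_lit 6542) (nat_lit 463) (nat_lit 6574)))) (.a (.f (nat_lit 591) (nat_lit 559) (nat_lit 4558) (.f (nat_lit 590) (nat_lit 623) (nat_lit 4590) (.d (nat_lit 461) (nat_lit 429) (nat_lit 7597) (nat_lit 493) (nat_lit 7629)))) (.f (nat_lit 557) (nat_lit 589) (nat_lit 5581) (.f (nat_lit 559) (nat_lit 591) (nat_lit 4558) (.f (nat_lit 525) (nat_lit 430) (nat_lit 5549) (.d (nat_lit 524) (nat_lit 523) (nat_lit 523) (nat_lit 560) (nat_lit 3596)))))))) (.a (.p (nat_lit 462) (.a (.f (nat_lit 429) (nat_lit 461) (nat_lit 7597) (.f (nat_lit 430) (nat_lit 397) (nat_lit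 7565) (.d (nat_lit 431) (nat_lit 399) (nat_lit 6542) (nat_lit 463) (nat_lit 6574)))) (.a (.f (nat_lit 591) (nat_lit 559) (nat_lit 4558) (.f (nat_lit 590) (nat_lit 623) (nat_lit 4590) (.d (nat_lit 461) (nat_lit 429) (nat_lit 7597) (nat_lit 493) (nat_lit 7629)))) (.f (nat_lit 557) (nat_lit 589) (nat_lit 5581) (.f (nat_lit 430) (nat_lit 525) (nat_lit 5549) (.d (nat_lit 431) (nat_lit 399) (nat_lit 6542) (nat_lit 463) (nat_lit 6574))))))) (.a s21821 (.a (.p (nat_lit 462) (.a (.f (nat_lit 429) (nat_lit 461) (nat_lit 7597) (.f (nat_lit 430) (nat_lit 397) (nat_lit 7565) (.d (nat_lit 431) (nat_lit 399) (nat_lit 6542) (nat_lit 463) (nat_lit 6574)))) (.a (.f (nat_lit 591) (nat_lit 559) (nat_lit 4558) (.f (nat_lit 590) (nat_lit 623) (nat_lit 4590) (.d (nat_lit 461) (nat_lit 429) (nat_lit 7597) (nat_lit 493) (nat_lit 7629)))) (.f (nat_lit 589) (nat_lit 557) (nat_lit 5581) (.f (nat_lit 590) (nat_lit 621) (nat_lit 5613) (.d (nat_lit 591) (nat_lit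 559) (nat_lit 4558) (nat_lit 623) (nat_lit 4590))))))) (.a (.p (nat_lit 462) (.a (.f (nat_lit 429) (nat_lit 461) (nat_lit 7597) (.f (nat_lit 430) (nat_lit 397) (nat_lit 7565) (.d (nat_lit 431) (nat_lit 399) (nat_lit 6542) (nat_lit 463) (nat_lit 6574)))) (.f (nat_lit 589) (nat_lit 557) (nat_lit 5581) (.f (nat_lit 590) (nat_lit 621) (nat_lit 5613) (.d (nat_lit 591) (nat_lit 559) (nat_lit 4558) (nat_lit 623) (nat_lit 4590)))))) (.a (.p (nat_lit 462) (.a (.f (nat_lit 591) (nat_lit 559) (nat_lit 4558) (.f (nat_lit 590) (nat_lit 623) (nat_lit 4590) (.d (nat_lit 461) (nat_lit 429) (nat_lit 7597) (nat_lit 493) (nat_lit 7629)))) (.a (.f (nat_lit 429) (nat_lit 461) (nat_lit 7597) (.f (nat_lit 430) (nat_lit 397) (nat_lit 7565) (.d (nat_lit 557) (nat_lit 525) (nat_lit 5549) (nat_lit 589) (nat_lit 5581)))) (.f (nat_lit 589) (nat_lit 557) (nat_lit 5581) (.f (nat_lit 590) (nat_lit 621) (nat_lit 5613) (.d (nat_lit 591) (nat_lit 559) (nat_lit 4558)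 (nat_lit 623) (nat_lit 4590))))))) (.a (.p (nat_lit 590) (.a (.f (nat_lit 493) (nat_lit 461) (nat_lit 7629) (.f (nat_lit 622) (nat_lit 525) (nat_lit 7661) (.d (nat_lit 621) (nat_lit 589) (nat_lit 5613) (nat_lit 653) (nat_lit 5645)))) (.a (.f (nat_lit 623) (nat_lit 591) (nat_lit 4590) (.f (nat_lit 622) (nat_lit 655) (nat_lit 4622) (.d (nat_lit 621) (nat_lit 589) (nat_lit 5613) (nat_lit 653) (nat_lit 5645)))) (.f (nat_lit 461) (nat_lit 493) (nat_lit 7629) (.f (nat_lit 462) (nat_lit 429) (nat_lit 7597) (.d (nat_lit 591) (nat_lit 559) (nat_lit 4558) (nat_lit 623) (nat_lit 4590))))))) (.a (.p (nat_lit 560) (.a (.p (nat_lit 592) (.a (.f (nat_lit 591) (nat_lit 623) (nat_lit 5615) (.f (nat_lit 593) (nat_lit 625) (nat_lit 4592) (.d (nat_lit 557) (nat_lit 559) (nat_lit 557) (nat_lit 590) (nat_lit 3629)))) (.a (.f (nat_lit 623) (nat_lit 591) (nat_lit 5615) (.f (nat_lit 624) (nat_lit 655) (nat_lit 5647) (.d (nat_lit 497) (nat_lit 465) (nat_lit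 6608) (nat_lit 529) (nat_lit 6640)))) (.f (nat_lit 593) (nat_lit 625) (nat_lit 4592) (.f (nat_lit 559) (nat_lit 557) (nat_lit 557) (.d (nat_lit 561) (nat_lit 525) (nat_lit 3597) (nat_lit 594) (nat_lit 558))))))) (.a s21608 (.a (.p (nat_lit 592) (.a (.f (nat_lit 623) (nat_lit 591) (nat_lit 5615) (.f (nat_lit 624) (nat_lit 655) (nat_lit 5647) (.d (nat_lit 497) (nat_lit 465) (nat_lit 6608) (nat_lit 529) (nat_lit 6640)))) (.a (.f (nat_lit 623) (nat_lit 591) (nat_lit 5615) (.f (nat_lit 624) (nat_lit 655) (nat_lit 5647) (.d (nat_lit 625) (nat_lit 593) (nat_lit 4592) (nat_lit 657) (nat_lit 4624)))) (.a (.f (nat_lit 497) (nat_lit 465) (nat_lit 6608) (.f (nat_lit 624) (nat_lit 529) (nat_lit 6640) (.d (nat_lit 625) (nat_lit 593) (nat_lit 4592) (nat_lit 657) (nat_lit 4624)))) (.f (nat_lit 591) (nat_lit 623) (nat_lit 5615) (.f (nat_lit 593) (nat_lit 625) (nat_lit 4592) (.f (nat_lit 590) (nat_lit 557) (nat_lit 3629) (.d (nat_lit 561) (nat_lit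 562) (nat_lit 2606) (nat_lit 589) (nat_lit 2605))))))))) (.a (.p (nat_lit 590) (.a (.f (nat_lit 589) (nat_lit 621) (nat_lit 5613) (.f (nat_lit 559) (nat_lit 561) (nat_lit 1581) (.d (nat_lit 557) (nat_lit 529) (nat_lit 2573) (nat_lit 588) (nat_lit 1580)))) (.a (.f (nat_lit 589) (nat_lit 621) (nat_lit 5613) (.f (nat_lit 559) (nat_lit 561) (nat_lit 1581) (.d (nat_lit 588) (nat_lit 557) (nat_lit 1580) (nat_lit 587) (nat_lit 2603)))) (.a (.f (nat_lit 493) (nat_lit 461) (nat_lit 7629) (.f (nat_lit 622) (nat_lit 525) (nat_lit 7661) (.d (nat_lit 621) (nat_lit 589) (nat_lit 5613) (nat_lit 653) (nat_lit 5645)))) (.f (nat_lit 493) (nat_lit 461) (nat_lit 7629) (.f (nat_lit 622) (nat_lit 525) (nat_lit 7661) (.d (nat_lit 623) (nat_lit 591) (nat_lit 4590) (nat_lit 655) (nat_lit 4622)))))))) (.a (.p (nat_lit 592) (.a (.f (nat_lit 591) (nat_lit 623) (nat_lit 5615) (.f (nat_lit 593) (nat_lit 625) (nat_lit 4592) (.d (nat_lit 557) (nat_lit 559) (nat_lit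 557) (nat_lit 590) (nat_lit 3629)))) (.a (.f (nat_lit 623) (nat_lit 591) (nat_lit 5615) (.f (nat_lit 624) (nat_lit 655) (nat_lit 5647) (.d (nat_lit 497) (nat_lit 465) (nat_lit 6608) (nat_lit 529) (nat_lit 6640)))) (.f (nat_lit 497) (nat_lit 465) (nat_lit 6608) (.f (nat_lit 624) (nat_lit 529) (nat_lit 6640) (.d (nat_lit 625) (nat_lit 593) (nat_lit 4592) (nat_lit 657) (nat_lit 4624))))))) (.a (.p (nat_lit 592) (.a (.f (nat_lit 593) (nat_lit 625) (nat_lit 4592) (.f (nat_lit 559) (nat_lit 557) (nat_lit 557) (.d (nat_lit 561) (nat_lit 525) (nat_lit 3597) (nat_lit 594) (nat_lit 558)))) (.a (.f (nat_lit 497) (nat_lit 465) (nat_lit 6608) (.f (nat_lit 624) (nat_lit 529) (nat_lit 6640) (.d (nat_lit 625) (nat_lit 593) (nat_lit 4592) (nat_lit 657) (nat_lit 4624)))) (.a (.f (nat_lit 497) (nat_lit 465) (nat_lit 6608) (.f (nat_lit 624) (nat_lit 529) (nat_lit 6640) (.f (nat_lit 655) (nat_lit 623) (nat_lit 5647) (.f (nat_lit 656) (nat_lit 687) (nat_lit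 5679) (.d (nat_lit 657) (nat_lit 625) (nat_lit 4624) (nat_lit 689) (nat_lit 4656)))))) (.f (nat_lit 497) (nat_lit 465) (nat_lit 6608) (.f (nat_lit 529) (nat_lit 624) (nat_lit 6640) (.f (nat_lit 559) (nat_lit 557) (nat_lit 2573) (.d (nat_lit 530) (nat_lit 531) (nat_lit 1551) (nat_lit 561) (nat_lit 2574))))))))) (.a (.p (nat_lit 592) (.a (.f (nat_lit 623) (nat_lit 591) (nat_lit 5615) (.f (nat_lit 624) (nat_lit 655) (nat_lit 5647) (.d (nat_lit 497) (nat_lit 465) (nat_lit 6608) (nat_lit 529) (nat_lit 6640)))) (.a (.f (nat_lit 623) (nat_lit 591) (nat_lit 5615) (.f (nat_lit 624) (nat_lit 655) (nat_lit 5647) (.d (nat_lit 625) (nat_lit 593) (nat_lit 4592) (nat_lit 657) (nat_lit 4624)))) (.a (.f (nat_lit 497) (nat_lit 465) (nat_lit 6608) (.f (nat_lit 624) (nat_lit 529) (nat_lit 6640) (.d (nat_lit 625) (nat_lit 593) (nat_lit 4592) (nat_lit 657) (nat_lit 4624)))) (.f (nat_lit 591) (nat_lit 623) (nat_lit 5615) (.f (nat_lit 593) (nat_lit 625)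 (nat_lit 4592) (.f (nat_lit 559) (nat_lit 594) (nat_lit 3630) (.f (nat_lit 561) (nat_lit 525) (nat_lit 3597) (.d (nat_lit 562) (nat_lit 563) (nat_lit 1583) (nat_lit 590) (nat_lit 1582)))))))))) (.p (nat_lit 592) (.a (.f (nat_lit 593) (nat_lit 625) (nat_lit 4592) (.f (nat_lit 559) (nat_lit 557) (nat_lit 557) (.d (nat_lit 561) (nat_lit 525) (nat_lit 3597) (nat_lit 594) (nat_lit 558)))) (.a (.f (nat_lit 497) (nat_lit 465) (nat_lit 6608) (.f (nat_lit 624) (nat_lit 529) (nat_lit 6640) (.d (nat_lit 625) (nat_lit 593) (nat_lit 4592) (nat_lit 657) (nat_lit 4624)))) (.f (nat_lit 497) (nat_lit 465) (nat_lit 6608) (.f (nat_lit 529) (nat_lit 624) (nat_lit 6640) (.f (nat_lit 559) (nat_lit 557) (nat_lit 2573) (.d (nat_lit 530) (nat_lit 531) (nat_lit 1551) (nat_lit 561) (nat_lit 2574)))))))))))))))) (.a s21863 (.a s21883 s21889)))))))))))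
noncomputable def s21891 : Cert := .r (nat_lit 943490607303752963937019840886057434177033664931875938883905600411634630746106260497667102478139433991455298517019633324992605640886346785690119740517314869782049193984) (.p (nat_lit 462) (.a (.f (nat_lit 429) (nat_lit 461) (nat_lit 7597) (.f (nat_lit 430) (nat_lit 397) (nat_lit 7565) (.d (nat_lit 431) (nat_lit 399) (nat_lit 6542) (nat_lit 463) (nat_lit 6574)))) (.a (.f (nat_lit 429) (nat_lit 461) (nat_lit 7597) (.f (nat_lit 430) (nat_lit 397) (nat_lit 7565) (.d (nat_lit 557) (nat_lit 525) (nat_lit 5549) (nat_lit 589) (nat_lit 5581)))) (.a (.f (nat_lit 557) (nat_lit 589) (nat_lit 5581) (.f (nat_lit 430) (nat_lit 525) (nat_lit 5549) (.d (nat_lit 431) (nat_lit 399) (nat_lit 6542) (nat_lit 463) (nat_lit 6574)))) (.f (nat_lit 461) (nat_lit 429) (nat_lit 7597) (.f (nat_lit 463) (nat_lit 431) (nat_lit 6574) (.f (nat_lit 460) (nat_lit 495) (nat_lit 460) (.f (nat_lit 491) (nat_lit 492) (nat_lit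 1483) (.f (nat_lit 459) (nat_lit 490) (nat_lit 1482) (.d (nat_lit 427) (nat_lit 426) (nat_lit 3498) (nat_lit 428) (nat_lit 3499)))))))))))
noncomputable def s21897 : Cert := .r (nat_lit 943490607303752963885873112637680217458077575918944702130520568442211743410429832871165011909316394071404203324427380869510001201393220676171100106987855603323790950400) (.p (nat_lit 494) (.a s19062 (.a s21821 (.a s19098 (.a s21891 (.a (.p (nat_lit 462) (.a (.f (nat_lit 461) (nat_lit 429) (nat_lit 7597) (.f (nat_lit 493) (nat_lit 590) (nat_lit 7629) (.d (nat_lit 495) (nat_lit 460) (nat_lit 3532) (nat_lit 497) (nat_lit 3533)))) (.a (.f (nat_lit 429) (nat_lit 461) (nat_lit 7597) (.f (nat_lit 430) (nat_lit 397) (nat_lit 7565) (.d (nat_lit 557) (nat_lit 525) (nat_lit 5549) (nat_lit 589) (nat_lit 5581)))) (.f (nat_lit 557) (nat_lit 589) (nat_lit 5581) (.f (nat_lit 525) (nat_lit 430) (nat_lit 5549) (.f (nat_lit 495) (nat_lit 497) (nat_lit 1517) (.d (nat_lit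 493) (nat_lit 524) (nat_lit 1516) (nat_lit 529) (nat_lit 493)))))))) (.a s19111 (.p (nat_lit 590) (.a (.f (nat_lit 623) (nat_lit 591) (nat_lit 4590) (.f (nat_lit 622) (nat_lit 655) (nat_lit 4622) (.d (nat_lit 621) (nat_lit 589) (nat_lit 5613) (nat_lit 653) (nat_lit 5645)))) (.f (nat_lit 495) (nat_lit 463) (nat_lit 6606) (.f (nat_lit 529) (nat_lit 493) (nat_lit 493) (.d (nat_lit 530) (nat_lit 497) (nat_lit 494) (nat_lit 531) (nat_lit 3567)))))))))))))
noncomputable def s21904 : Cert := .r (nat_lit 943490607303752963937019840886057434177033664931875938883905600411634630746106260497667102478139433991455298517019633324992605640886346785690119740517314869782049193984) (.p (nat_lit 462) (.a (.f (nat_lit 461) (nat_lit 429) (nat_lit 7597) (.f (nat_lit 495) (nat_lit 497) (nat_lit 3533) (.d (nat_lit 460) (nat_lit 459) (nat_lit 459) (nat_lit 463) (nat_lit 460)))) (.a (.f (nat_lit 429) (nat_lit 461) (nat_lit 7597) (.f (nat_lit 430) (nat_lit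 397) (nat_lit 7565) (.d (nat_lit 431) (nat_lit 399) (nat_lit 6542) (nat_lit 463) (nat_lit 6574)))) (.a (.f (nat_lit 461) (nat_lit 429) (nat_lit 7597) (.f (nat_lit 495) (nat_lit 497) (nat_lit 3533) (.d (nat_lit 460) (nat_lit 459) (nat_lit 459) (nat_lit 493) (nat_lit 3532)))) (.f (nat_lit 557) (nat_lit 589) (nat_lit 5581) (.f (nat_lit 559) (nat_lit 591) (nat_lit 4558) (.f (nat_lit 529) (nat_lit 560) (nat_lit 2573) (.f (nat_lit 495) (nat_lit 493) (nat_lit 493) (.d (nat_lit 530) (nat_lit 497) (nat_lit 494) (nat_lit 531) (nat_lit 3567))))))))))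
noncomputable def s21905 : Cert := .r (nat_lit 943490607303752963885873112637680217458077575918944702130520568442211743410429832871165011909316394071404203324427380869510001201393220676171100106987855603323790950400) (.p (nat_lit 494) (.a s19098 (.a s21569 (.a (.p (nat_lit 462) (.a (.f (nat_lit 429) (nat_lit 461) (nat_lit 7597) (.f (nat_lit 430) (nat_lit 397) (nat_lit 7565) (.d (nat_lit 431) (nat_lit 399) (nat_lit 6542) (nat_lit 463) (nat_lit 6574)))) (.a (.f (nat_lit 591) (nat_lit 559) (nat_lit 4558) (.f (nat_lit 590) (nat_lit 623) (nat_lit 4590) (.d (nat_lit 461) (nat_lit 429) (nat_lit 7597) (nat_lit 493) (nat_lit 7629)))) (.f (nat_lit 589) (nat_lit 557) (nat_lit 5581) (.f (nat_lit 590) (nat_lit 621) (nat_lit 5613) (.d (nat_lit 591) (nat_lit 559) (nat_lit 4558) (nat_lit 623) (nat_lit 4590))))))) (.a (.p (nat_lit 462) (.a (.f (nat_lit 461) (nat_lit 429) (nat_lit 7597) (.f (nat_lit 495) (nat_lit 497) (nat_lit 3533) (.d (nat_lit 460)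 (nat_lit 459) (nat_lit 459) (nat_lit 463) (nat_lit 460)))) (.a (.f (nat_lit 429) (nat_lit 461) (nat_lit 7597) (.f (nat_lit 430) (nat_lit 397) (nat_lit 7565) (.d (nat_lit 431) (nat_lit 399) (nat_lit 6542) (nat_lit 463) (nat_lit 6574)))) (.f (nat_lit 589) (nat_lit 557) (nat_lit 5581) (.f (nat_lit 590) (nat_lit 621) (nat_lit 5613) (.d (nat_lit 591) (nat_lit 559) (nat_lit 4558) (nat_lit 623) (nat_lit 4590))))))) (.a s21571 (.a (.p (nat_lit 590) (.a (.f (nat_lit 495) (nat_lit 463) (nat_lit 6606) (.d (nat_lit 493) (nat_lit 461) (nat_lit 7629) (nat_lit 529) (nat_lit 493))) (.f (nat_lit 623) (nat_lit 591) (nat_lit 4590) (.f (nat_lit 622) (nat_lit 655) (nat_lit 4622) (.d (nat_lit 621) (nat_lit 589) (nat_lit 5613) (nat_lit 653) (nat_lit 5645)))))) (.a s21904 (.p (nat_lit 590) (.a (.f (nat_lit 623) (nat_lit 591) (nat_lit 4590) (.f (nat_lit 622) (nat_lit 655) (nat_lit 4622) (.d (nat_lit 621) (nat_lit 589) (nat_lit 5613) (nat_lit 653) (nat_lit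 5645)))) (.f (nat_lit 495) (nat_lit 463) (nat_lit 6606) (.f (nat_lit 529) (nat_lit 493) (nat_lit 493) (.d (nat_lit 530) (nat_lit 497) (nat_lit 494) (nat_lit 531) (nat_lit 3567))))))))))))))
noncomputable def s21912 : Cert := .r (nat_lit 4717453032125294316127427693625949108374998796335385130506726868687835905802578684957291737086975161612872578355191225769280585831318013308732534358420551646973186277376) (.p (nat_lit 592) (.a (.f (nat_lit 623) (nat_lit 591) (nat_lit 5615) (.f (nat_lit 624) (nat_lit 655) (nat_lit 5647) (.d (nat_lit 625) (nat_lit 593) (nat_lit 4592) (nat_lit 657) (nat_lit 4624)))) (.a (.f (nat_lit 497) (nat_lit 465) (nat_lit 6608) (.f (nat_lit 624) (nat_lit 529) (nat_lit 6640) (.d (nat_lit 625) (nat_lit 593) (nat_lit 4592) (nat_lit 657) (nat_lit 4624)))) (.a (.f (nat_lit 591) (nat_lit 623) (nat_lit 5615) (.f (nat_lit 593) (nat_lit 625) (nat_lit 4592) (.f (nat_lit 590) (nat_lit 557) (nat_lit 3629) (.d (nat_lit 561)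 (nat_lit 562) (nat_lit 2606) (nat_lit 589) (nat_lit 2605))))) (.f (nat_lit 497) (nat_lit 465) (nat_lit 6608) (.f (nat_lit 624) (nat_lit 529) (nat_lit 6640) (.d (nat_lit 623) (nat_lit 591) (nat_lit 5615) (nat_lit 655) (nat_lit 5647))))))))
noncomputable def s21929 : Cert := .r (nat_lit 4717453032125294316127427693625949108374998796335385130506726868687835905802578684957291737086975161612872578355191225769280585831318013308732534358420551646973186277376) (.p (nat_lit 559) (.a (.f (nat_lit 561) (nat_lit 525) (nat_lit 3597) (.d (nat_lit 529) (nat_lit 530) (nat_lit 2574) (nat_lit 557) (nat_lit 2573))) (.a (.f (nat_lit 561) (nat_lit 525) (nat_lit 3597) (.f (nat_lit 590) (nat_lit 589) (nat_lit 1581) (.f (nat_lit 562) (nat_lit 591) (nat_lit 1582) (.d (nat_lit 594) (nat_lit 593) (nat_lit 558) (nat_lit 595) (nat_lit 559))))) (.a (.f (nat_lit 529) (nat_lit 557) (nat_lit 2573) (.d (nat_lit 530) (nat_lit 531) (nat_lit 1551) (nat_lit 561) (nat_lit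 2574))) (.f (nat_lit 557) (nat_lit 529) (nat_lit 2573) (.f (nat_lit 525) (nat_lit 524) (nat_lit 3596) (.f (nat_lit 589) (nat_lit 588) (nat_lit 1580) (.f (nat_lit 621) (nat_lit 653) (nat_lit 6669) (.f (nat_lit 622) (nat_lit 654) (nat_lit 4621) (.f (nat_lit 493) (nat_lit 590) (nat_lit 7661) (.f (nat_lit 461) (nat_lit 429) (nat_lit 4525) (.d (nat_lit 460) (nat_lit 428) (nat_lit 7596) (nat_lit 492) (nat_lit 7628)))))))))))))
noncomputable def s21930 : Cert := .r (nat_lit 4717453032125294316127427693625949108374998796335385130506726868687835905802578684957291737086975161612872578355191225769280585831318013308732534358420551646973186277376) (.p (nat_lit 592) (.a (.f (nat_lit 591) (nat_lit 623) (nat_lit 5615) (.f (nat_lit 593) (nat_lit 625) (nat_lit 4592) (.d (nat_lit 557) (nat_lit 559) (nat_lit 557) (nat_lit 590) (nat_lit 3629)))) (.a (.f (nat_lit 623) (nat_lit 591) (nat_lit 5615) (.f (nat_lit 624) (nat_lit 655) (nat_lit 5647) (.d (nat_lit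 625) (nat_lit 593) (nat_lit 4592) (nat_lit 657) (nat_lit 4624)))) (.a (.f (nat_lit 497) (nat_lit 465) (nat_lit 6608) (.f (nat_lit 624) (nat_lit 529) (nat_lit 6640) (.d (nat_lit 625) (nat_lit 593) (nat_lit 4592) (nat_lit 657) (nat_lit 4624)))) (.f (nat_lit 497) (nat_lit 465) (nat_lit 6608) (.f (nat_lit 624) (nat_lit 529) (nat_lit 6640) (.d (nat_lit 623) (nat_lit 591) (nat_lit 5615) (nat_lit 655) (nat_lit 5647))))))))
noncomputable def s21941 : Cert := .r (nat_lit 4717453032125294316127427693625949108374998796335385130506726868687835905802578684957291737086975161612872578355191225769280585831318013308732534358420551646973186277376) (.p (nat_lit 559) (.a (.f (nat_lit 561) (nat_lit 525) (nat_lit 3597) (.d (nat_lit 529) (nat_lit 530) (nat_lit 2574) (nat_lit 557) (nat_lit 2573))) (.a (.f (nat_lit 525) (nat_lit 561) (nat_lit 3597) (.d (nat_lit 524) (nat_lit 523) (nat_lit 523) (nat_lit 557) (nat_lit 3596))) (.a (.f (nat_lit 529) (nat_lit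 557) (nat_lit 2573) (.d (nat_lit 530) (nat_lit 531) (nat_lit 1551) (nat_lit 561) (nat_lit 2574))) (.a (.f (nat_lit 557) (nat_lit 529) (nat_lit 2573) (.f (nat_lit 525) (nat_lit 524) (nat_lit 3596) (.f (nat_lit 589) (nat_lit 588) (nat_lit 1580) (.f (nat_lit 621) (nat_lit 653) (nat_lit 6669) (.f (nat_lit 622) (nat_lit 654) (nat_lit 4621) (.f (nat_lit 493) (nat_lit 590) (nat_lit 7661) (.f (nat_lit 461) (nat_lit 429) (nat_lit 4525) (.d (nat_lit 460) (nat_lit 428) (nat_lit 7596) (nat_lit 492) (nat_lit 7628))))))))) (.f (nat_lit 561) (nat_lit 525) (nat_lit 3597) (.f (nat_lit 590) (nat_lit 589) (nat_lit 1581) (.f (nat_lit 591) (nat_lit 562) (nat_lit 1582) (.d (nat_lit 623) (nat_lit 592) (nat_lit 5615) (nat_lit 655) (nat_lit 6671))))))))))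
noncomputable def s21947 : Cert := .r (nat_lit 4717453032125294316127427693625949108374998796335385130506726868687835905802578684957291737086975161612872578355191225769280585831318013308732534358420551646973186277376) (.p (nat_lit 592) (.a (.f (nat_lit 623) (nat_lit 591) (nat_lit 5615) (.f (nat_lit 624) (nat_lit 655) (nat_lit 5647) (.d (nat_lit 625) (nat_lit 593) (nat_lit 4592) (nat_lit 657) (nat_lit 4624)))) (.a (.f (nat_lit 497) (nat_lit 465) (nat_lit 6608) (.f (nat_lit 624) (nat_lit 529) (nat_lit 6640) (.d (nat_lit 625) (nat_lit 593) (nat_lit 4592) (nat_lit 657) (nat_lit 4624)))) (.a (.f (nat_lit 591) (nat_lit 623) (nat_lit 5615) (.f (nat_lit 593) (nat_lit 625) (nat_lit 4592) (.f (nat_lit 559) (nat_lit 594) (nat_lit 3630) (.f (nat_lit 561) (nat_lit 525) (nat_lit 3597) (.d (nat_lit 562) (nat_lit 563) (nat_lit 1583) (nat_lit 590) (nat_lit 1582)))))) (.f (nat_lit 497) (nat_lit 465) (nat_lit 6608) (.f (nat_lit 624) (nat_lit 529) (nat_lit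 6640) (.d (nat_lit 623) (nat_lit 591) (nat_lit 5615) (nat_lit 655) (nat_lit 5647))))))))
noncomputable def s21948 : Cert := .r (nat_lit 943490607303752963885873112637680217458077575918944702130520568442211743410429832871165011909316394071404203324427380869510001201393220676171100106987855603323790950400) (.p (nat_lit 560) (.a s21912 (.a s21733 (.a s21929 (.a s21930 (.a (.p (nat_lit 592) (.a (.f (nat_lit 593) (nat_lit 625) (nat_lit 4592) (.f (nat_lit 559) (nat_lit 557) (nat_lit 557) (.d (nat_lit 561) (nat_lit 525) (nat_lit 3597) (nat_lit 594) (nat_lit 558)))) (.a (.f (nat_lit 497) (nat_lit 465) (nat_lit 6608) (.f (nat_lit 624) (nat_lit 529) (nat_lit 6640) (.d (nat_lit 625) (nat_lit 593) (nat_lit 4592) (nat_lit 657) (nat_lit 4624)))) (.f (nat_lit 497) (nat_lit 465) (nat_lit 6608) (.f (nat_lit 529) (nat_lit 624) (nat_lit 6640) (.f (nat_lit 559) (nat_lit 557) (nat_lit 2573) (.d (nat_lit 530) (nat_lit 531) (nat_lit 1551) (nat_lit 561)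 (nat_lit 2574)))))))) (.a s21941 s21947)))))))
noncomputable def s21949 : Cert := .r (nat_lit 943490607303752963885873112637680217458077575918944702130520568442211743410429832871165011909316394071404203324427380869510001201393220676171100106987855603323790950400) (.p (nat_lit 494) (.a (.p (nat_lit 462) (.a (.f (nat_lit 429) (nat_lit 461) (nat_lit 7597) (.f (nat_lit 430) (nat_lit 397) (nat_lit 7565) (.d (nat_lit 431) (nat_lit 399) (nat_lit 6542) (nat_lit 463) (nat_lit 6574)))) (.a (.f (nat_lit 591) (nat_lit 559) (nat_lit 4558) (.f (nat_lit 590) (nat_lit 623) (nat_lit 4590) (.d (nat_lit 461) (nat_lit 429) (nat_lit 7597) (nat_lit 493) (nat_lit 7629)))) (.f (nat_lit 557) (nat_lit 589) (nat_lit 5581) (.f (nat_lit 559) (nat_lit 591) (nat_lit 4558) (.f (nat_lit 525) (nat_lit 430) (nat_lit 5549) (.d (nat_lit 524) (nat_lit 523) (nat_lit 523) (nat_lit 560) (nat_lit 3596)))))))) (.a (.p (nat_lit 462) (.a (.f (nat_lit 429) (nat_lit 461) (nat_lit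 7597) (.f (nat_lit 430) (nat_lit 397) (nat_lit 7565) (.d (nat_lit 431) (nat_lit 399) (nat_lit 6542) (nat_lit 463) (nat_lit 6574)))) (.a (.f (nat_lit 591) (nat_lit 559) (nat_lit 4558) (.f (nat_lit 590) (nat_lit 623) (nat_lit 4590) (.d (nat_lit 461) (nat_lit 429) (nat_lit 7597) (nat_lit 493) (nat_lit 7629)))) (.f (nat_lit 557) (nat_lit 589) (nat_lit 5581) (.f (nat_lit 430) (nat_lit 525) (nat_lit 5549) (.d (nat_lit 431) (nat_lit 399) (nat_lit 6542) (nat_lit 463) (nat_lit 6574))))))) (.a s21690 (.a (.p (nat_lit 462) (.a (.f (nat_lit 429) (nat_lit 461) (nat_lit 7597) (.f (nat_lit 430) (nat_lit 397) (nat_lit 7565) (.d (nat_lit 431) (nat_lit 399) (nat_lit 6542) (nat_lit 463) (nat_lit 6574)))) (.a (.f (nat_lit 591) (nat_lit 559) (nat_lit 4558) (.f (nat_lit 590) (nat_lit 623) (nat_lit 4590) (.d (nat_lit 461) (nat_lit 429) (nat_lit 7597) (nat_lit 493) (nat_lit 7629)))) (.f (nat_lit 589) (nat_lit 557) (nat_lit 5581) (.f (nat_lit 590) (nat_lit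 621) (nat_lit 5613) (.d (nat_lit 591) (nat_lit 559) (nat_lit 4558) (nat_lit 623) (nat_lit 4590))))))) (.a (.p (nat_lit 462) (.a (.f (nat_lit 429) (nat_lit 461) (nat_lit 7597) (.f (nat_lit 430) (nat_lit 397) (nat_lit 7565) (.d (nat_lit 431) (nat_lit 399) (nat_lit 6542) (nat_lit 463) (nat_lit 6574)))) (.f (nat_lit 589) (nat_lit 557) (nat_lit 5581) (.f (nat_lit 590) (nat_lit 621) (nat_lit 5613) (.d (nat_lit 591) (nat_lit 559) (nat_lit 4558) (nat_lit 623) (nat_lit 4590)))))) (.a (.p (nat_lit 462) (.a (.f (nat_lit 591) (nat_lit 559) (nat_lit 4558) (.f (nat_lit 590) (nat_lit 623) (nat_lit 4590) (.d (nat_lit 461) (nat_lit 429) (nat_lit 7597) (nat_lit 493) (nat_lit 7629)))) (.a (.f (nat_lit 429) (nat_lit 461) (nat_lit 7597) (.f (nat_lit 430) (nat_lit 397) (nat_lit 7565) (.d (nat_lit 557) (nat_lit 525) (nat_lit 5549) (nat_lit 589) (nat_lit 5581)))) (.f (nat_lit 589) (nat_lit 557) (nat_lit 5581) (.f (nat_lit 590) (nat_lit 621) (nat_lit 5613)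 (.d (nat_lit 591) (nat_lit 559) (nat_lit 4558) (nat_lit 623) (nat_lit 4590))))))) (.a (.p (nat_lit 590) (.a (.f (nat_lit 493) (nat_lit 461) (nat_lit 7629) (.f (nat_lit 622) (nat_lit 525) (nat_lit 7661) (.d (nat_lit 621) (nat_lit 589) (nat_lit 5613) (nat_lit 653) (nat_lit 5645)))) (.a (.f (nat_lit 623) (nat_lit 591) (nat_lit 4590) (.f (nat_lit 622) (nat_lit 655) (nat_lit 4622) (.d (nat_lit 621) (nat_lit 589) (nat_lit 5613) (nat_lit 653) (nat_lit 5645)))) (.f (nat_lit 461) (nat_lit 493) (nat_lit 7629) (.f (nat_lit 462) (nat_lit 429) (nat_lit 7597) (.d (nat_lit 591) (nat_lit 559) (nat_lit 4558) (nat_lit 623) (nat_lit 4590))))))) (.a (.p (nat_lit 590) (.a (.f (nat_lit 495) (nat_lit 463) (nat_lit 6606) (.d (nat_lit 493) (nat_lit 461) (nat_lit 7629) (nat_lit 529) (nat_lit 493))) (.f (nat_lit 623) (nat_lit 591) (nat_lit 4590) (.f (nat_lit 622) (nat_lit 655) (nat_lit 4622) (.d (nat_lit 621) (nat_lit 589) (nat_lit 5613) (nat_lit 653) (nat_lit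 5645)))))) (.a s21891 (.a s21883 s21889)))))))))))
noncomputable def s21961 : Cert := .r (nat_lit 943490607303752963937019840897965959835892888226636060152342666702484690799607279597319037901515028087905210092795947499886907899033879939687184799780345782865271717888) (.f (nat_lit 461) (nat_lit 429) (nat_lit 7597) (.f (nat_lit 497) (nat_lit 495) (nat_lit 3533) (.f (nat_lit 591) (nat_lit 559) (nat_lit 4558) (.f (nat_lit 590) (nat_lit 623) (nat_lit 4590) (.f (nat_lit 621) (nat_lit 589) (nat_lit 5613) (.f (nat_lit 622) (nat_lit 653) (nat_lit 5645) (.f (nat_lit 592) (nat_lit 593) (nat_lit 1613) (.f (nat_lit 560) (nat_lit 465) (nat_lit 6608) (.f (nat_lit 624) (nat_lit 529) (nat_lit 6640) (.f (nat_lit 657) (nat_lit 625) (nat_lit 4624) (.f (nat_lit 656) (nat_lit 689) (nat_lit 4656) (.d (nat_lit 655) (nat_lit 654) (nat_lit 3693) (nat_lit 687) (nat_lit 5679)))))))))))))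
noncomputable def s21978 : Cert := .r (nat_lit 943490607303752963937019840886057434177033664931875938883905600411634630746106260497667102478139433991455298517019633324992605640886346785690119740517314869782049193984) (.p (nat_lit 462) (.a (.f (nat_lit 461) (nat_lit 429) (nat_lit 7597) (.f (nat_lit 495) (nat_lit 497) (nat_lit 3533) (.d (nat_lit 460) (nat_lit 459) (nat_lit 459) (nat_lit 463) (nat_lit 460)))) (.a (.f (nat_lit 429) (nat_lit 461) (nat_lit 7597) (.f (nat_lit 430) (nat_lit 397) (nat_lit 7565) (.d (nat_lit 431) (nat_lit 399) (nat_lit 6542) (nat_lit 463) (nat_lit 6574)))) (.a s21961 (.f (nat_lit 463) (nat_lit 431) (nat_lit 6574) (.f (nat_lit 495) (nat_lit 590) (nat_lit 6606) (.f (nat_lit 497) (nat_lit 525) (nat_lit 1517) (.f (nat_lit 465) (nat_lit 466) (nat_lit 2510) (.f (nat_lit 560) (nat_lit 592) (nat_lit 6608) (.d (nat_lit 433) (nat_lit 401) (nat_lit 5520) (nat_lit 529) (nat_lit 5552)))))))))))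
noncomputable def s21980 : Cert := .r (nat_lit 943490607303752963937019840886057434177033664931875938883905600411634630746106260497667102478139433991455298517019633324992605640886346785690119740517314869782049193984) (.p (nat_lit 462) (.a (.f (nat_lit 461) (nat_lit 429) (nat_lit 7597) (.f (nat_lit 495) (nat_lit 497) (nat_lit 3533) (.d (nat_lit 460) (nat_lit 459) (nat_lit 459) (nat_lit 463) (nat_lit 460)))) (.a (.f (nat_lit 429) (nat_lit 461) (nat_lit 7597) (.f (nat_lit 430) (nat_lit 397) (nat_lit 7565) (.d (nat_lit 431) (nat_lit 399) (nat_lit 6542) (nat_lit 463) (nat_lit 6574)))) (.a (.f (nat_lit 429) (nat_lit 461) (nat_lit 7597) (.f (nat_lit 430) (nat_lit 397) (nat_lit 7565) (.f (nat_lit 525) (nat_lit 557) (nat_lit 5549) (.f (nat_lit 559) (nat_lit 591) (nat_lit 4558) (.f (nat_lit 560) (nat_lit 561) (nat_lit 3597) (.f (nat_lit 497) (nat_lit 495) (nat_lit 1517) (.f (nat_lit 592) (nat_lit 465) (nat_lit 6608) (.f (nat_lit 624) (nat_lit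 529) (nat_lit 6640) (.d (nat_lit 625) (nat_lit 593) (nat_lit 4592) (nat_lit 657) (nat_lit 4624)))))))))) (.f (nat_lit 463) (nat_lit 431) (nat_lit 6574) (.f (nat_lit 495) (nat_lit 590) (nat_lit 6606) (.f (nat_lit 497) (nat_lit 525) (nat_lit 1517) (.f (nat_lit 465) (nat_lit 466) (nat_lit 2510) (.f (nat_lit 560) (nat_lit 592) (nat_lit 6608) (.d (nat_lit 433) (nat_lit 401) (nat_lit 5520) (nat_lit 529) (nat_lit 5552)))))))))))
noncomputable def s21981 : Cert := .r (nat_lit 943490607303752963885873112637680217458077575918944702130520568442211743410429832871165011909316394071404203324427380869510001201393220676171100106987855603323790950400) (.p (nat_lit 494) (.a (.p (nat_lit 462) (.a (.f (nat_lit 461) (nat_lit 429) (nat_lit 7597) (.f (nat_lit 495) (nat_lit 497) (nat_lit 3533) (.d (nat_lit 460) (nat_lit 459) (nat_lit 459) (nat_lit 463) (nat_lit 460)))) (.a (.f (nat_lit 429) (nat_lit 461) (nat_lit 7597) (.f (nat_lit 430) (nat_lit 397) (nat_lit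 7565) (.d (nat_lit 431) (nat_lit 399) (nat_lit 6542) (nat_lit 463) (nat_lit 6574)))) (.f (nat_lit 557) (nat_lit 589) (nat_lit 5581) (.f (nat_lit 559) (nat_lit 591) (nat_lit 4558) (.f (nat_lit 525) (nat_lit 430) (nat_lit 5549) (.d (nat_lit 524) (nat_lit 523) (nat_lit 523) (nat_lit 560) (nat_lit 3596)))))))) (.a (.p (nat_lit 462) (.a (.f (nat_lit 429) (nat_lit 461) (nat_lit 7597) (.f (nat_lit 430) (nat_lit 397) (nat_lit 7565) (.d (nat_lit 431) (nat_lit 399) (nat_lit 6542) (nat_lit 463) (nat_lit 6574)))) (.f (nat_lit 589) (nat_lit 557) (nat_lit 5581) (.f (nat_lit 590) (nat_lit 621) (nat_lit 5613) (.d (nat_lit 591) (nat_lit 559) (nat_lit 4558) (nat_lit 623) (nat_lit 4590)))))) (.a s21891 (.a (.p (nat_lit 462) (.a (.f (nat_lit 557) (nat_lit 589) (nat_lit 5581) (.f (nat_lit 559) (nat_lit 591) (nat_lit 4558) (.f (nat_lit 525) (nat_lit 430) (nat_lit 5549) (.d (nat_lit 524) (nat_lit 523) (nat_lit 523) (nat_lit 560) (nat_lit 3596))))) (.a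 (.f (nat_lit 589) (nat_lit 557) (nat_lit 5581) (.f (nat_lit 590) (nat_lit 621) (nat_lit 5613) (.d (nat_lit 591) (nat_lit 559) (nat_lit 4558) (nat_lit 623) (nat_lit 4590)))) (.a (.f (nat_lit 429) (nat_lit 461) (nat_lit 7597) (.f (nat_lit 430) (nat_lit 397) (nat_lit 7565) (.d (nat_lit 557) (nat_lit 525) (nat_lit 5549) (nat_lit 589) (nat_lit 5581)))) (.a s21961 (.f (nat_lit 429) (nat_lit 461) (nat_lit 7597) (.f (nat_lit 430) (nat_lit 397) (nat_lit 7565) (.f (nat_lit 525) (nat_lit 557) (nat_lit 5549) (.f (nat_lit 559) (nat_lit 591) (nat_lit 4558) (.f (nat_lit 560) (nat_lit 561) (nat_lit 3597) (.f (nat_lit 497) (nat_lit 495) (nat_lit 1517) (.f (nat_lit 592) (nat_lit 465) (nat_lit 6608) (.f (nat_lit 624) (nat_lit 529) (nat_lit 6640) (.d (nat_lit 625) (nat_lit 593) (nat_lit 4592) (nat_lit 657) (nat_lit 4624))))))))))))))) (.a s21978 (.a (.p (nat_lit 590) (.a (.f (nat_lit 495) (nat_lit 463) (nat_lit 6606) (.f (nat_lit 497) (nat_lit 525)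 (nat_lit 1517) (.f (nat_lit 465) (nat_lit 466) (nat_lit 2510) (.f (nat_lit 529) (nat_lit 530) (nat_lit 494) (.d (nat_lit 433) (nat_lit 401) (nat_lit 5520) (nat_lit 560) (nat_lit 5552)))))) (.f (nat_lit 623) (nat_lit 591) (nat_lit 4590) (.f (nat_lit 622) (nat_lit 655) (nat_lit 4622) (.d (nat_lit 621) (nat_lit 589) (nat_lit 5613) (nat_lit 653) (nat_lit 5645)))))) s21980)))))))
noncomputable def s21982 : Cert := .r (nat_lit 943490607303752963937019840886057434177033664931875938883905600411634630746106260497667102478139433991455298517019633324992605640886346785690119740517314869782049193984) (.p (nat_lit 462) (.a (.f (nat_lit 463) (nat_lit 431) (nat_lit 6574) (.f (nat_lit 495) (nat_lit 590) (nat_lit 6606) (.f (nat_lit 525) (nat_lit 497) (nat_lit 1517) (.d (nat_lit 524) (nat_lit 493) (nat_lit 1516) (nat_lit 523) (nat_lit 2539))))) (.a (.f (nat_lit 557) (nat_lit 589) (nat_lit 5581) (.f (nat_lit 430) (nat_lit 525) (nat_lit 5549) (.d (nat_lit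 431) (nat_lit 399) (nat_lit 6542) (nat_lit 463) (nat_lit 6574)))) (.a (.f (nat_lit 463) (nat_lit 431) (nat_lit 6574) (.f (nat_lit 495) (nat_lit 590) (nat_lit 6606) (.f (nat_lit 529) (nat_lit 493) (nat_lit 493) (.d (nat_lit 530) (nat_lit 497) (nat_lit 494) (nat_lit 531) (nat_lit 3567))))) (.f (nat_lit 557) (nat_lit 589) (nat_lit 5581) (.f (nat_lit 525) (nat_lit 430) (nat_lit 5549) (.f (nat_lit 495) (nat_lit 497) (nat_lit 1517) (.d (nat_lit 493) (nat_lit 524) (nat_lit 1516) (nat_lit 529) (nat_lit 493)))))))))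
noncomputable def s21983 : Cert := .r (nat_lit 943490607303752963885873112637680217458077575918944702130520568442211743410429832871165011909316394071404203324427380869510001201393220676171100106987855603323790950400) (.p (nat_lit 494) (.a s19062 (.a s21821 (.a s19098 (.a s21891 (.a (.p (nat_lit 462) (.a (.f (nat_lit 461) (nat_lit 429) (nat_lit 7597) (.f (nat_lit 493) (nat_lit 590) (nat_lit 7629) (.d (nat_lit 495) (nat_lit 460) (nat_lit 3532) (nat_lit 497) (nat_lit 3533)))) (.a (.f (nat_lit 429) (nat_lit 461) (nat_lit 7597) (.f (nat_lit 430) (nat_lit 397) (nat_lit 7565) (.d (nat_lit 557) (nat_lit 525) (nat_lit 5549) (nat_lit 589) (nat_lit 5581)))) (.f (nat_lit 557) (nat_lit 589) (nat_lit 5581) (.f (nat_lit 525) (nat_lit 430) (nat_lit 5549) (.f (nat_lit 495) (nat_lit 497) (nat_lit 1517) (.d (nat_lit 493) (nat_lit 524) (nat_lit 1516) (nat_lit 529) (nat_lit 493)))))))) (.a s19111 s21982)))))))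
noncomputable def s21997 : Cert := .r (nat_lit 943490607303752963937019840886057434177033664931875938883905600411634630746106260497667102478139433991455298517019633324992605640886346785690119740517314869782049193984) (.p (nat_lit 495) (.a (.f (nat_lit 497) (nat_lit 525) (nat_lit 1517) (.d (nat_lit 529) (nat_lit 493) (nat_lit 493) (nat_lit 530) (nat_lit 494))) (.a (.f (nat_lit 525) (nat_lit 497) (nat_lit 1517) (.d (nat_lit 524) (nat_lit 493) (nat_lit 1516) (nat_lit 523) (nat_lit 2539))) (.a (.f (nat_lit 529) (nat_lit 493) (nat_lit 493) (.d (nat_lit 530) (nat_lit 497) (nat_lit 494) (nat_lit 531) (nat_lit 3567))) (.a (.f (nat_lit 493) (nat_lit 529) (nat_lit 493) (.f (nat_lit 461) (nat_lit 460) (nat_lit 3532) (.d (nat_lit 429) (nat_lit 397) (nat_lit 4493) (nat_lit 462) (nat_lit 7597)))) (.f (nat_lit 497) (nat_lit 525) (nat_lit 1517) (.f (nat_lit 465) (nat_lit 466) (nat_lit 2510) (.f (nat_lit 560) (nat_lit 592) (nat_lit 6608) (.d (nat_lit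 433) (nat_lit 401) (nat_lit 5520) (nat_lit 529) (nat_lit 5552))))))))))
noncomputable def s21998 : Cert := .r (nat_lit 943490607303752963885873112637680217458077575918944702130520568442211743410429832871165011909316394071404203324427380869510001201393220676171100106987855603323790950400) (.p (nat_lit 494) (.a s19062 (.a (.p (nat_lit 590) (.a (.f (nat_lit 493) (nat_lit 461) (nat_lit 7629) (.f (nat_lit 622) (nat_lit 525) (nat_lit 7661) (.d (nat_lit 621) (nat_lit 589) (nat_lit 5613) (nat_lit 653) (nat_lit 5645)))) (.a (.f (nat_lit 623) (nat_lit 591) (nat_lit 4590) (.f (nat_lit 622) (nat_lit 655) (nat_lit 4622) (.d (nat_lit 621) (nat_lit 589) (nat_lit 5613) (nat_lit 653) (nat_lit 5645)))) (.f (nat_lit 461) (nat_lit 493) (nat_lit 7629) (.f (nat_lit 462) (nat_lit 429) (nat_lit 7597) (.d (nat_lit 591) (nat_lit 559) (nat_lit 4558) (nat_lit 623) (nat_lit 4590))))))) (.a s19098 (.a s21978 (.a s19111 (.a s21997 (.p (nat_lit 590) (.a (.f (nat_lit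 623) (nat_lit 591) (nat_lit 4590) (.f (nat_lit 622) (nat_lit 655) (nat_lit 4622) (.d (nat_lit 621) (nat_lit 589) (nat_lit 5613) (nat_lit 653) (nat_lit 5645)))) (.f (nat_lit 495) (nat_lit 463) (nat_lit 6606) (.f (nat_lit 529) (nat_lit 493) (nat_lit 493) (.d (nat_lit 530) (nat_lit 497) (nat_lit 494) (nat_lit 531) (nat_lit 3567)))))))))))))
noncomputable def s22002 : Cert := .r (nat_lit 943490607303752963937019840886057434177033664931875938883905600411634630746106260497667102478139433991455298517019633324992605640886346785690119740517314869782049193984) (.p (nat_lit 495) (.a (.f (nat_lit 497) (nat_lit 525) (nat_lit 1517) (.d (nat_lit 529) (nat_lit 493) (nat_lit 493) (nat_lit 530) (nat_lit 494))) (.a (.f (nat_lit 525) (nat_lit 497) (nat_lit 1517) (.d (nat_lit 524) (nat_lit 493) (nat_lit 1516) (nat_lit 523) (nat_lit 2539))) (.a (.f (nat_lit 529) (nat_lit 493) (nat_lit 493) (.d (nat_lit 530) (nat_lit 497) (nat_lit 494) (nat_lit 531) (nat_lit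 3567))) (.a (.f (nat_lit 493) (nat_lit 529) (nat_lit 493) (.f (nat_lit 525) (nat_lit 524) (nat_lit 1516) (.d (nat_lit 461) (nat_lit 429) (nat_lit 4525) (nat_lit 460) (nat_lit 3532)))) (.f (nat_lit 497) (nat_lit 525) (nat_lit 1517) (.f (nat_lit 465) (nat_lit 466) (nat_lit 2510) (.f (nat_lit 560) (nat_lit 592) (nat_lit 6608) (.d (nat_lit 433) (nat_lit 401) (nat_lit 5520) (nat_lit 529) (nat_lit 5552))))))))))
noncomputable def s22014 : Cert := .r (nat_lit 943490607303752963937019840886057434177033664931875938883905600411634630746106260497667102478139433991455298517019633324992605640886346785690119740517314869782049193984) (.p (nat_lit 462) (.a (.f (nat_lit 557) (nat_lit 589) (nat_lit 5581) (.f (nat_lit 559) (nat_lit 591) (nat_lit 4558) (.f (nat_lit 525) (nat_lit 430) (nat_lit 5549) (.d (nat_lit 524) (nat_lit 523) (nat_lit 523) (nat_lit 560) (nat_lit 3596))))) (.a (.f (nat_lit 557) (nat_lit 589) (nat_lit 5581) (.f (nat_lit 430) (nat_lit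 525) (nat_lit 5549) (.d (nat_lit 431) (nat_lit 399) (nat_lit 6542) (nat_lit 463) (nat_lit 6574)))) (.a (.f (nat_lit 557) (nat_lit 589) (nat_lit 5581) (.f (nat_lit 559) (nat_lit 591) (nat_lit 4558) (.f (nat_lit 529) (nat_lit 560) (nat_lit 2573) (.f (nat_lit 495) (nat_lit 493) (nat_lit 493) (.d (nat_lit 530) (nat_lit 497) (nat_lit 494) (nat_lit 531) (nat_lit 3567)))))) (.f (nat_lit 431) (nat_lit 463) (nat_lit 6574) (.f (nat_lit 430) (nat_lit 399) (nat_lit 6542) (.f (nat_lit 397) (nat_lit 429) (nat_lit 7565) (.f (nat_lit 398) (nat_lit 365) (nat_lit 7533) (.f (nat_lit 525) (nat_lit 493) (nat_lit 5517) (.f (nat_lit 559) (nat_lit 591) (nat_lit 4558) (.f (nat_lit 560) (nat_lit 561) (nat_lit 3597) (.f (nat_lit 497) (nat_lit 495) (nat_lit 1517) (.f (nat_lit 592) (nat_lit 465) (nat_lit 6608) (.f (nat_lit 624) (nat_lit 529) (nat_lit 6640) (.d (nat_lit 625) (nat_lit 593) (nat_lit 4592) (nat_lit 657) (nat_lit 4624))))))))))))))))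
noncomputable def s22022 : Cert := .r (nat_lit 943490607303752963937019840886057434177033664931875938883905600411634630746106260497667102478139433991455298517019633324992605640886346785690119740517314869782049193984) (.p (nat_lit 495) (.a (.f (nat_lit 497) (nat_lit 525) (nat_lit 1517) (.d (nat_lit 529) (nat_lit 493) (nat_lit 493) (nat_lit 530) (nat_lit 494))) (.a (.f (nat_lit 525) (nat_lit 497) (nat_lit 1517) (.d (nat_lit 524) (nat_lit 493) (nat_lit 1516) (nat_lit 523) (nat_lit 2539))) (.a (.f (nat_lit 529) (nat_lit 493) (nat_lit 493) (.d (nat_lit 530) (nat_lit 497) (nat_lit 494) (nat_lit 531) (nat_lit 3567))) (.a (.f (nat_lit 493) (nat_lit 529) (nat_lit 493) (.f (nat_lit 525) (nat_lit 524) (nat_lit 1516) (.f (nat_lit 460) (nat_lit 461) (nat_lit 3532) (.f (nat_lit 492) (nat_lit 459) (nat_lit 3531) (.f (nat_lit 557) (nat_lit 589) (nat_lit 7628) (.f (nat_lit 462) (nat_lit 430) (nat_lit 5549) (.d (nat_lit 463) (nat_lit 431) (nat_lit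 6574) (nat_lit 491) (nat_lit 2507)))))))) (.f (nat_lit 497) (nat_lit 525) (nat_lit 1517) (.f (nat_lit 465) (nat_lit 466) (nat_lit 2510) (.f (nat_lit 560) (nat_lit 592) (nat_lit 6608) (.d (nat_lit 433) (nat_lit 401) (nat_lit 5520) (nat_lit 529) (nat_lit 5552))))))))))
noncomputable def s22023 : Cert := .r (nat_lit 943490607303752963885873112637680217458077575918944702130520568442211743410429832871165011909316394071404203324427380869510001201393220676171100106987855603323790950400) (.p (nat_lit 494) (.a (.p (nat_lit 462) (.a (.f (nat_lit 461) (nat_lit 429) (nat_lit 7597) (.f (nat_lit 495) (nat_lit 497) (nat_lit 3533) (.d (nat_lit 460) (nat_lit 459) (nat_lit 459) (nat_lit 463) (nat_lit 460)))) (.a (.f (nat_lit 429) (nat_lit 461) (nat_lit 7597) (.f (nat_lit 430) (nat_lit 397) (nat_lit 7565) (.d (nat_lit 431) (nat_lit 399) (nat_lit 6542) (nat_lit 463) (nat_lit 6574)))) (.f (nat_lit 557) (nat_lit 589) (nat_lit 5581) (.f (nat_lit 559) (nat_lit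 591) (nat_lit 4558) (.f (nat_lit 525) (nat_lit 430) (nat_lit 5549) (.d (nat_lit 524) (nat_lit 523) (nat_lit 523) (nat_lit 560) (nat_lit 3596)))))))) (.a s21863 (.a s21573 (.a s21904 (.a s21997 (.a s22002 (.a s22014 s22022))))))))
noncomputable def s22037 : Cert := .r (nat_lit 943490607303752963937019840886057434177033664931875938883905600411634630746106260497667102478139433991455298517019633324992605640886346785690119740517314869782049193984) (.p (nat_lit 590) (.a (.f (nat_lit 623) (nat_lit 591) (nat_lit 4590) (.f (nat_lit 622) (nat_lit 655) (nat_lit 4622) (.d (nat_lit 621) (nat_lit 589) (nat_lit 5613) (nat_lit 653) (nat_lit 5645)))) (.a (.f (nat_lit 621) (nat_lit 589) (nat_lit 5613) (.f (nat_lit 622) (nat_lit 653) (nat_lit 5645) (.f (nat_lit 655) (nat_lit 623) (nat_lit 4622) (.f (nat_lit 654) (nat_lit 687) (nat_lit 4654) (.d (nat_lit 525) (nat_lit 493) (nat_lit 7661) (nat_lit 557) (nat_lit 7693)))))) (.a (.f (nat_lit 621) (nat_lit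 589) (nat_lit 5613) (.f (nat_lit 622) (nat_lit 653) (nat_lit 5645) (.f (nat_lit 525) (nat_lit 493) (nat_lit 7661) (.f (nat_lit 557) (nat_lit 654) (nat_lit 7693) (.f (nat_lit 462) (nat_lit 430) (nat_lit 5549) (.f (nat_lit 559) (nat_lit 591) (nat_lit 4558) (.d (nat_lit 524) (nat_lit 523) (nat_lit 523) (nat_lit 560) (nat_lit 3596)))))))) (.a (.f (nat_lit 623) (nat_lit 591) (nat_lit 4590) (.f (nat_lit 622) (nat_lit 655) (nat_lit 4622) (.f (nat_lit 525) (nat_lit 493) (nat_lit 7661) (.f (nat_lit 653) (nat_lit 621) (nat_lit 5645) (.d (nat_lit 654) (nat_lit 557) (nat_lit 7693) (nat_lit 685) (nat_lit 5677)))))) (.a (.f (nat_lit 589) (nat_lit 621) (nat_lit 5613) (.f (nat_lit 591) (nat_lit 623) (nat_lit 4590) (.d (nat_lit 462) (nat_lit 557) (nat_lit 5581) (nat_lit 559) (nat_lit 4558)))) (.f (nat_lit 591) (nat_lit 623) (nat_lit 4590) (.f (nat_lit 462) (nat_lit 559) (nat_lit 4558) (.f (nat_lit 557) (nat_lit 589) (nat_lit 5581) (.f (nat_lit 525)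 (nat_lit 430) (nat_lit 5549) (.d (nat_lit 622) (nat_lit 493) (nat_lit 7661) (nat_lit 654) (nat_lit 7693))))))))))))
noncomputable def s22038 : Cert := .r (nat_lit 943490607303752963937019840886057434177033664931875938883905600411634630746106260497667102478139433991455298517019633324992605640886346785690119740517314869782049193984) (.p (nat_lit 590) (.a (.f (nat_lit 495) (nat_lit 463) (nat_lit 6606) (.f (nat_lit 497) (nat_lit 525) (nat_lit 1517) (.f (nat_lit 465) (nat_lit 466) (nat_lit 2510) (.f (nat_lit 529) (nat_lit 530) (nat_lit 494) (.d (nat_lit 433) (nat_lit 401) (nat_lit 5520) (nat_lit 560) (nat_lit 5552)))))) (.a (.f (nat_lit 591) (nat_lit 623) (nat_lit 4590) (.f (nat_lit 462) (nat_lit 559) (nat_lit 4558) (.f (nat_lit 431) (nat_lit 463) (nat_lit 6574) (.f (nat_lit 430) (nat_lit 399) (nat_lit 6542) (.f (nat_lit 397) (nat_lit 429) (nat_lit 7565) (.f (nat_lit 398) (nat_lit 365) (nat_lit 7533) (.d (nat_lit 525) (nat_lit 493) (nat_lit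 5517) (nat_lit 557) (nat_lit 5549)))))))) (.a (.f (nat_lit 495) (nat_lit 463) (nat_lit 6606) (.f (nat_lit 529) (nat_lit 493) (nat_lit 493) (.d (nat_lit 530) (nat_lit 497) (nat_lit 494) (nat_lit 531) (nat_lit 3567)))) (.f (nat_lit 623) (nat_lit 591) (nat_lit 4590) (.f (nat_lit 622) (nat_lit 655) (nat_lit 4622) (.f (nat_lit 525) (nat_lit 493) (nat_lit 7661) (.f (nat_lit 653) (nat_lit 621) (nat_lit 5645) (.d (nat_lit 654) (nat_lit 557) (nat_lit 7693) (nat_lit 685) (nat_lit 5677))))))))))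
noncomputable def s22039 : Cert := .r (nat_lit 943490607303752963885873112637680217458077575918944702130520568442211743410429832871165011909316394071404203324427380869510001201393220676171100106987855603323790950400) (.p (nat_lit 494) (.a s19112 (.a s21574 (.a s21883 (.a (.p (nat_lit 590) (.a (.f (nat_lit 623) (nat_lit 591) (nat_lit 4590) (.f (nat_lit 622) (nat_lit 655) (nat_lit 4622) (.d (nat_lit 621) (nat_lit 589) (nat_lit 5613) (nat_lit 653) (nat_lit 5645)))) (.f (nat_lit 495) (nat_lit 463) (nat_lit 6606) (.f (nat_lit 529) (nat_lit 493) (nat_lit 493) (.d (nat_lit 530) (nat_lit 497) (nat_lit 494) (nat_lit 531) (nat_lit 3567)))))) (.a (.p (nat_lit 590) (.a (.f (nat_lit 495) (nat_lit 463) (nat_lit 6606) (.f (nat_lit 497) (nat_lit 525) (nat_lit 1517) (.f (nat_lit 465) (nat_lit 466) (nat_lit 2510) (.f (nat_lit 529) (nat_lit 530) (nat_lit 494) (.d (nat_lit 433) (nat_lit 401) (nat_lit 5520) (nat_lit 560) (nat_lit 5552)))))) (.f (nat_lit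 623) (nat_lit 591) (nat_lit 4590) (.f (nat_lit 622) (nat_lit 655) (nat_lit 4622) (.d (nat_lit 621) (nat_lit 589) (nat_lit 5613) (nat_lit 653) (nat_lit 5645)))))) (.a s21982 (.a s22037 (.a s22014 s22038)))))))))
noncomputable def s22045 : Cert := .r (nat_lit 943490607303752963937019840886057434177033664931875938883905600411634630746106260497667102478139433991455298517019633324992605640886346785690119740517314869782049193984) (.p (nat_lit 462) (.a (.f (nat_lit 463) (nat_lit 431) (nat_lit 6574) (.f (nat_lit 495) (nat_lit 590) (nat_lit 6606) (.f (nat_lit 525) (nat_lit 497) (nat_lit 1517) (.d (nat_lit 524) (nat_lit 493) (nat_lit 1516) (nat_lit 523) (nat_lit 2539))))) (.a (.f (nat_lit 431) (nat_lit 463) (nat_lit 6574) (.f (nat_lit 430) (nat_lit 399) (nat_lit 6542) (.f (nat_lit 591) (nat_lit 559) (nat_lit 4558) (.f (nat_lit 590) (nat_lit 623) (nat_lit 4590) (.f (nat_lit 493) (nat_lit 461) (nat_lit 7629) (.d (nat_lit 525) (nat_lit 398) (nat_lit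 5517) (nat_lit 622) (nat_lit 7661))))))) (.a (.f (nat_lit 463) (nat_lit 431) (nat_lit 6574) (.f (nat_lit 495) (nat_lit 590) (nat_lit 6606) (.f (nat_lit 529) (nat_lit 493) (nat_lit 493) (.d (nat_lit 530) (nat_lit 497) (nat_lit 494) (nat_lit 531) (nat_lit 3567))))) (.a (.f (nat_lit 463) (nat_lit 431) (nat_lit 6574) (.f (nat_lit 495) (nat_lit 590) (nat_lit 6606) (.d (nat_lit 461) (nat_lit 460) (nat_lit 460) (nat_lit 497) (nat_lit 3533)))) (.a (.f (nat_lit 591) (nat_lit 559) (nat_lit 4558) (.f (nat_lit 590) (nat_lit 623) (nat_lit 4590) (.f (nat_lit 493) (nat_lit 461) (nat_lit 7629) (.f (nat_lit 495) (nat_lit 529) (nat_lit 493) (.d (nat_lit 525) (nat_lit 497) (nat_lit 1517) (nat_lit 524) (nat_lit 1516)))))) (.f (nat_lit 431) (nat_lit 463) (nat_lit 6574) (.f (nat_lit 430) (nat_lit 399) (nat_lit 6542) (.f (nat_lit 525) (nat_lit 557) (nat_lit 5549) (.f (nat_lit 495) (nat_lit 497) (nat_lit 1517) (.d (nat_lit 493) (nat_lit 398) (nat_lit 5517)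 (nat_lit 524) (nat_lit 1516))))))))))))
noncomputable def s22046 : Cert := .r (nat_lit 943490607303752963885873112637680217458077575918944702130520568442211743410429832871165011909316394071404203324427380869510001201393220676171100106987855603323790950400) (.p (nat_lit 494) (.a s19062 (.a s21889 (.a s19098 (.a s21980 (.a s21997 (.a s22002 (.a s22038 s22045))))))))
noncomputable def s22047 : Cert := .r (nat_lit 943490607303752963885873112637680217458077575918944702130520568442211743410429832871165011909316394071404203324427380869510001201393220676171100106987855603323790950400) (.p (nat_lit 494) (.a s19111 (.a (.p (nat_lit 590) (.a (.f (nat_lit 495) (nat_lit 463) (nat_lit 6606) (.f (nat_lit 525) (nat_lit 497) (nat_lit 1517) (.d (nat_lit 493) (nat_lit 461) (nat_lit 7629) (nat_lit 524) (nat_lit 1516)))) (.a (.f (nat_lit 493) (nat_lit 461) (nat_lit 7629) (.f (nat_lit 622) (nat_lit 525) (nat_lit 7661) (.d (nat_lit 621) (nat_lit 589) (nat_lit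 5613) (nat_lit 653) (nat_lit 5645)))) (.f (nat_lit 623) (nat_lit 591) (nat_lit 4590) (.f (nat_lit 622) (nat_lit 655) (nat_lit 4622) (.d (nat_lit 621) (nat_lit 589) (nat_lit 5613) (nat_lit 653) (nat_lit 5645))))))) (.a s22037 (.a (.p (nat_lit 590) (.a (.f (nat_lit 495) (nat_lit 463) (nat_lit 6606) (.d (nat_lit 493) (nat_lit 461) (nat_lit 7629) (nat_lit 529) (nat_lit 493))) (.f (nat_lit 623) (nat_lit 591) (nat_lit 4590) (.f (nat_lit 622) (nat_lit 655) (nat_lit 4622) (.d (nat_lit 621) (nat_lit 589) (nat_lit 5613) (nat_lit 653) (nat_lit 5645)))))) (.a (.p (nat_lit 590) (.a (.f (nat_lit 495) (nat_lit 463) (nat_lit 6606) (.f (nat_lit 497) (nat_lit 525) (nat_lit 1517) (.f (nat_lit 465) (nat_lit 466) (nat_lit 2510) (.f (nat_lit 529) (nat_lit 530) (nat_lit 494) (.d (nat_lit 433) (nat_lit 401) (nat_lit 5520) (nat_lit 560) (nat_lit 5552)))))) (.f (nat_lit 623) (nat_lit 591) (nat_lit 4590) (.f (nat_lit 622) (nat_lit 655) (nat_lit 4622) (.d (nat_lit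 621) (nat_lit 589) (nat_lit 5613) (nat_lit 653) (nat_lit 5645)))))) (.a s22022 s22045)))))))
noncomputable def s22052 : Cert := .r (nat_lit 4052261298678835293351026268271772674173272241132332361070953813156548704587629855128893747858571061018884642715252630260360145591591813025501496881360517770133540958208077594624) (.p (nat_lit 494) (.a (.f (nat_lit 493) (nat_lit 461) (nat_lit 7629) (.f (nat_lit 525) (nat_lit 622) (nat_lit 7661) (.d (nat_lit 527) (nat_lit 492) (nat_lit 3564) (nat_lit 497) (nat_lit 2541)))) (.a (.f (nat_lit 493) (nat_lit 461) (nat_lit 7629) (.f (nat_lit 622) (nat_lit 525) (nat_lit 7661) (.d (nat_lit 621) (nat_lit 589) (nat_lit 5613) (nat_lit 653) (nat_lit 5645)))) (.a (.f (nat_lit 623) (nat_lit 591) (nat_lit 4590) (.f (nat_lit 622) (nat_lit 655) (nat_lit 4622) (.d (nat_lit 621) (nat_lit 589) (nat_lit 5613) (nat_lit 653) (nat_lit 5645)))) (.f (nat_lit 493) (nat_lit 461) (nat_lit 7629) (.f (nat_lit 527) (nat_lit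 529) (nat_lit 3565) (.d (nat_lit 492) (nat_lit 491) (nat_lit 491) (nat_lit 525) (nat_lit 3564))))))))
noncomputable def s22078 : Cert := .r (nat_lit 4052261298678835293351026268271772674173272241132332361070953813156548704587629855128893747858571061018884642715252630260360145591591813025501496881360517770133540958208077594624) (.p (nat_lit 623) (.a (.f (nat_lit 494) (nat_lit 591) (nat_lit 4590) (.f (nat_lit 622) (nat_lit 655) (nat_lit 4622) (.d (nat_lit 621) (nat_lit 589) (nat_lit 5613) (nat_lit 653) (nat_lit 5645)))) (.a (.f (nat_lit 655) (nat_lit 622) (nat_lit 4622) (.f (nat_lit 591) (nat_lit 687) (nat_lit 7726) (.f (nat_lit 592) (nat_lit 560) (nat_lit 5615) (.f (nat_lit 557) (nat_lit 593) (nat_lit 3629) (.d (nat_lit 556) (nat_lit 555) (nat_lit 555) (nat_lit 589) (nat_lit 3628)))))) (.a (.f (nat_lit 622) (nat_lit 655) (nat_lit 4622) (.f (nat_lit 621) (nat_lit 653) (nat_lit 5645) (.f (nat_lit 589) (nat_lit 494) (nat_lit 5613) (.d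 (nat_lit 588) (nat_lit 587) (nat_lit 587) (nat_lit 624) (nat_lit 3660))))) (.a (.f (nat_lit 591) (nat_lit 494) (nat_lit 4590) (.d (nat_lit 655) (nat_lit 622) (nat_lit 4622) (nat_lit 687) (nat_lit 7726))) (.f (nat_lit 494) (nat_lit 591) (nat_lit 4590) (.f (nat_lit 589) (nat_lit 621) (nat_lit 5613) (.f (nat_lit 462) (nat_lit 557) (nat_lit 5581) (.d (nat_lit 461) (nat_lit 429) (nat_lit 7597) (nat_lit 493) (nat_lit 7629))))))))))
noncomputable def s22104 : Cert := .r (nat_lit 943490607303752963885873112637680217458077575918944702130520568442211743410429832871165011909316394071404203324427380869510001201393220676171100106987855603323790950400) (.p (nat_lit 590) (.a s22052 (.a (.p (nat_lit 494) (.a (.f (nat_lit 493) (nat_lit 461) (nat_lit 7629) (.f (nat_lit 525) (nat_lit 622) (nat_lit 7661) (.d (nat_lit 527) (nat_lit 492) (nat_lit 3564) (nat_lit 497) (nat_lit 2541)))) (.a (.f (nat_lit 493) (nat_lit 461) (nat_lit 7629) (.f (nat_lit 622)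 (nat_lit 525) (nat_lit 7661) (.d (nat_lit 621) (nat_lit 589) (nat_lit 5613) (nat_lit 653) (nat_lit 5645)))) (.a (.f (nat_lit 623) (nat_lit 591) (nat_lit 4590) (.f (nat_lit 622) (nat_lit 655) (nat_lit 4622) (.d (nat_lit 621) (nat_lit 589) (nat_lit 5613) (nat_lit 653) (nat_lit 5645)))) (.f (nat_lit 461) (nat_lit 493) (nat_lit 7629) (.f (nat_lit 462) (nat_lit 429) (nat_lit 7597) (.d (nat_lit 589) (nat_lit 557) (nat_lit 5581) (nat_lit 621) (nat_lit 5613)))))))) (.a (.p (nat_lit 494) (.a (.f (nat_lit 493) (nat_lit 461) (nat_lit 7629) (.f (nat_lit 622) (nat_lit 525) (nat_lit 7661) (.d (nat_lit 621) (nat_lit 589) (nat_lit 5613) (nat_lit 653) (nat_lit 5645)))) (.a (.f (nat_lit 623) (nat_lit 591) (nat_lit 4590) (.f (nat_lit 622) (nat_lit 655) (nat_lit 4622) (.d (nat_lit 621) (nat_lit 589) (nat_lit 5613) (nat_lit 653) (nat_lit 5645)))) (.a (.f (nat_lit 623) (nat_lit 591) (nat_lit 4590) (.f (nat_lit 622) (nat_lit 655) (nat_lit 4622) (.f (nat_lit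 525) (nat_lit 493) (nat_lit 7661) (.f (nat_lit 653) (nat_lit 621) (nat_lit 5645) (.d (nat_lit 654) (nat_lit 557) (nat_lit 7693) (nat_lit 685) (nat_lit 5677)))))) (.a (.f (nat_lit 461) (nat_lit 493) (nat_lit 7629) (.f (nat_lit 462) (nat_lit 429) (nat_lit 7597) (.d (nat_lit 589) (nat_lit 557) (nat_lit 5581) (nat_lit 621) (nat_lit 5613)))) (.f (nat_lit 461) (nat_lit 493) (nat_lit 7629) (.f (nat_lit 462) (nat_lit 429) (nat_lit 7597) (.f (nat_lit 431) (nat_lit 463) (nat_lit 6574) (.f (nat_lit 430) (nat_lit 399) (nat_lit 6542) (.d (nat_lit 557) (nat_lit 525) (nat_lit 5549) (nat_lit 589) (nat_lit 5581))))))))))) (.a s22078 (.a (.p (nat_lit 525) (.a (.f (nat_lit 527) (nat_lit 497) (nat_lit 2541) (.d (nat_lit 493) (nat_lit 492) (nat_lit 3564) (nat_lit 622) (nat_lit 7661))) (.a (.f (nat_lit 622) (nat_lit 493) (nat_lit 7661) (.f (nat_lit 654) (nat_lit 557) (nat_lit 7693) (.d (nat_lit 653) (nat_lit 621) (nat_lit 5645) (nat_lit 685) (nat_lit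 5677)))) (.f (nat_lit 527) (nat_lit 497) (nat_lit 2541) (.d (nat_lit 557) (nat_lit 529) (nat_lit 1549) (nat_lit 556) (nat_lit 1548)))))) (.a (.p (nat_lit 623) (.a (.f (nat_lit 494) (nat_lit 591) (nat_lit 4590) (.f (nat_lit 622) (nat_lit 655) (nat_lit 4622) (.d (nat_lit 621) (nat_lit 589) (nat_lit 5613) (nat_lit 653) (nat_lit 5645)))) (.a (.f (nat_lit 655) (nat_lit 622) (nat_lit 4622) (.f (nat_lit 591) (nat_lit 687) (nat_lit 7726) (.f (nat_lit 592) (nat_lit 560) (nat_lit 5615) (.f (nat_lit 557) (nat_lit 593) (nat_lit 3629) (.d (nat_lit 556) (nat_lit 555) (nat_lit 555) (nat_lit 589) (nat_lit 3628)))))) (.a (.f (nat_lit 622) (nat_lit 655) (nat_lit 4622) (.f (nat_lit 621) (nat_lit 653) (nat_lit 5645) (.f (nat_lit 589) (nat_lit 494) (nat_lit 5613) (.d (nat_lit 588) (nat_lit 587) (nat_lit 587) (nat_lit 624) (nat_lit 3660))))) (.a (.f (nat_lit 591) (nat_lit 494) (nat_lit 4590) (.d (nat_lit 655) (nat_lit 622) (nat_lit 4622) (nat_lit 687)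 (nat_lit 7726))) (.a (.f (nat_lit 591) (nat_lit 494) (nat_lit 4590) (.f (nat_lit 592) (nat_lit 560) (nat_lit 5615) (.f (nat_lit 593) (nat_lit 557) (nat_lit 3629) (.d (nat_lit 622) (nat_lit 594) (nat_lit 1614) (nat_lit 621) (nat_lit 1613))))) (.f (nat_lit 591) (nat_lit 494) (nat_lit 4590) (.f (nat_lit 592) (nat_lit 560) (nat_lit 5615) (.f (nat_lit 557) (nat_lit 593) (nat_lit 3629) (.d (nat_lit 556) (nat_lit 555) (nat_lit 555) (nat_lit 589) (nat_lit 3628))))))))))) (.a (.p (nat_lit 494) (.a (.f (nat_lit 493) (nat_lit 461) (nat_lit 7629) (.f (nat_lit 527) (nat_lit 529) (nat_lit 3565) (.d (nat_lit 492) (nat_lit 491) (nat_lit 491) (nat_lit 525) (nat_lit 3564)))) (.a (.f (nat_lit 461) (nat_lit 493) (nat_lit 7629) (.f (nat_lit 462) (nat_lit 429) (nat_lit 7597) (.d (nat_lit 589) (nat_lit 557) (nat_lit 5581) (nat_lit 621) (nat_lit 5613)))) (.f (nat_lit 589) (nat_lit 621) (nat_lit 5613) (.f (nat_lit 557) (nat_lit 462) (nat_lit 5581) (.f (nat_lit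 527) (nat_lit 529) (nat_lit 1549) (.d (nat_lit 525) (nat_lit 497) (nat_lit 2541) (nat_lit 556) (nat_lit 1548)))))))) (.p (nat_lit 525) (.a (.f (nat_lit 527) (nat_lit 497) (nat_lit 2541) (.d (nat_lit 493) (nat_lit 492) (nat_lit 3564) (nat_lit 622) (nat_lit 7661))) (.a (.f (nat_lit 493) (nat_lit 622) (nat_lit 7661) (.d (nat_lit 461) (nat_lit 429) (nat_lit 4525) (nat_lit 494) (nat_lit 7629))) (.f (nat_lit 527) (nat_lit 497) (nat_lit 2541) (.d (nat_lit 557) (nat_lit 529) (nat_lit 1549) (nat_lit 556) (nat_lit 1548))))))))))))))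
noncomputable def s22108 : Cert := .r (nat_lit 4717453032125294316127427693625949108374998796335385130506726868687835905802578684957291737086975161612872578355191225769280585831318013308732534358420551646973186277376) (.p (nat_lit 592) (.a (.f (nat_lit 591) (nat_lit 623) (nat_lit 5615) (.f (nat_lit 593) (nat_lit 625) (nat_lit 4592) (.d (nat_lit 557) (nat_lit 559) (nat_lit 557) (nat_lit 590) (nat_lit 3629)))) (.a (.f (nat_lit 623) (nat_lit 591) (nat_lit 5615) (.f (nat_lit 624) (nat_lit 655) (nat_lit 5647) (.d (nat_lit 625) (nat_lit 593) (nat_lit 4592) (nat_lit 657) (nat_lit 4624)))) (.a (.f (nat_lit 593) (nat_lit 625) (nat_lit 4592) (.f (nat_lit 559) (nat_lit 557) (nat_lit 557) (.d (nat_lit 594) (nat_lit 561) (nat_lit 558) (nat_lit 595) (nat_lit 3631)))) (.f (nat_lit 497) (nat_lit 465) (nat_lit 6608) (.f (nat_lit 529) (nat_lit 624) (nat_lit 6640) (.d (nat_lit 557) (nat_lit 527) (nat_lit 1549) (nat_lit 559) (nat_lit 2573))))))))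
noncomputable def s22133 : Cert := .r (nat_lit 4717453032125294316178574421874326325093954885348316367260111900657258793138255112583793827655798201532923673547783478224763190270811139418251553991950010913431444520960) (.p (nat_lit 462) (.a (.f (nat_lit 429) (nat_lit 461) (nat_lit 7597) (.f (nat_lit 430) (nat_lit 397) (nat_lit 7565) (.d (nat_lit 431) (nat_lit 399) (nat_lit 6542) (nat_lit 463) (nat_lit 6574)))) (.a (.f (nat_lit 589) (nat_lit 557) (nat_lit 5581) (.f (nat_lit 590) (nat_lit 621) (nat_lit 5613) (.d (nat_lit 461) (nat_lit 429) (nat_lit 7597) (nat_lit 493) (nat_lit 7629)))) (.f (nat_lit 589) (nat_lit 557) (nat_lit 5581) (.f (nat_lit 590) (nat_lit 621) (nat_lit 5613) (.f (nat_lit 559) (nat_lit 561) (nat_lit 1581) (.f (nat_lit 430) (nat_lit 527) (nat_lit 4526) (.d (nat_lit 431) (nat_lit 399) (nat_lit 6542) (nat_lit 463) (nat_lit 6574)))))))))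
noncomputable def s22143 : Cert := .r (nat_lit 4717453032125294316178574421874326325093954885348316367260111900657258793138255112583793827655798201532923673547783478224763190270811139418251553991950010913431444520960) (.p (nat_lit 462) (.a (.f (nat_lit 429) (nat_lit 461) (nat_lit 7597) (.f (nat_lit 430) (nat_lit 397) (nat_lit 7565) (.d (nat_lit 431) (nat_lit 399) (nat_lit 6542) (nat_lit 463) (nat_lit 6574)))) (.a (.f (nat_lit 559) (nat_lit 591) (nat_lit 4558) (.f (nat_lit 557) (nat_lit 589) (nat_lit 5581) (.d (nat_lit 527) (nat_lit 430) (nat_lit 4526) (nat_lit 556) (nat_lit 2572)))) (.f (nat_lit 559) (nat_lit 591) (nat_lit 4558) (.f (nat_lit 557) (nat_lit 589) (nat_lit 5581) (.f (nat_lit 556) (nat_lit 527) (nat_lit 2572) (.f (nat_lit 523) (nat_lit 524) (nat_lit 3595) (.f (nat_lit 555) (nat_lit 522) (nat_lit 3594) (.d (nat_lit 587) (nat_lit 586) (nat_lit 1578) (nat_lit 588) (nat_lit 1579))))))))))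
noncomputable def s22155 : Cert := .r (nat_lit 4717453032125294316127427693625949108374998796335385130506726868687835905802578684957291737086975161612872578355191225769280585831318013308732534358420551646973186277376) (.p (nat_lit 592) (.a (.f (nat_lit 591) (nat_lit 623) (nat_lit 5615) (.f (nat_lit 593) (nat_lit 625) (nat_lit 4592) (.d (nat_lit 557) (nat_lit 559) (nat_lit 557) (nat_lit 590) (nat_lit 3629)))) (.a (.f (nat_lit 623) (nat_lit 591) (nat_lit 5615) (.f (nat_lit 624) (nat_lit 655) (nat_lit 5647) (.d (nat_lit 625) (nat_lit 593) (nat_lit 4592) (nat_lit 657) (nat_lit 4624)))) (.a (.f (nat_lit 593) (nat_lit 625) (nat_lit 4592) (.f (nat_lit 559) (nat_lit 557) (nat_lit 557) (.d (nat_lit 594) (nat_lit 561) (nat_lit 558) (nat_lit 595) (nat_lit 3631)))) (.a (.f (nat_lit 591) (nat_lit 623) (nat_lit 5615) (.f (nat_lit 497) (nat_lit 465) (nat_lit 6608) (.f (nat_lit 624) (nat_lit 529) (nat_lit 6640) (.f (nat_lit 657) (nat_lit 625) (nat_lit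 4624) (.f (nat_lit 656) (nat_lit 689) (nat_lit 4656) (.f (nat_lit 559) (nat_lit 688) (nat_lit 7727) (.f (nat_lit 557) (nat_lit 556) (nat_lit 556) (.f (nat_lit 589) (nat_lit 588) (nat_lit 1580) (.f (nat_lit 590) (nat_lit 561) (nat_lit 1581) (.d (nat_lit 494) (nat_lit 462) (nat_lit 5581) (nat_lit 621) (nat_lit 5613))))))))))) (.f (nat_lit 497) (nat_lit 465) (nat_lit 6608) (.f (nat_lit 529) (nat_lit 624) (nat_lit 6640) (.f (nat_lit 559) (nat_lit 557) (nat_lit 2573) (.d (nat_lit 530) (nat_lit 531) (nat_lit 1551) (nat_lit 561) (nat_lit 2574))))))))))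
noncomputable def s22206 : Cert := .r (nat_lit 4717453032125294316178574421874326325093954885348316367260111900657258793138255112583793827655798201532923673547783478224763190270811139418251553991950010913431444520960) (.p (nat_lit 590) (.a (.f (nat_lit 589) (nat_lit 621) (nat_lit 5613) (.f (nat_lit 559) (nat_lit 561) (nat_lit 1581) (.d (nat_lit 557) (nat_lit 529) (nat_lit 2573) (nat_lit 588) (nat_lit 1580)))) (.a (.f (nat_lit 589) (nat_lit 621) (nat_lit 5613) (.f (nat_lit 559) (nat_lit 561) (nat_lit 1581) (.d (nat_lit 588) (nat_lit 557) (nat_lit 1580) (nat_lit 587) (nat_lit 2603)))) (.a (.f (nat_lit 623) (nat_lit 591) (nat_lit 4590) (.f (nat_lit 622) (nat_lit 655) (nat_lit 4622) (.d (nat_lit 621) (nat_lit 589) (nat_lit 5613) (nat_lit 653) (nat_lit 5645)))) (.a (.f (nat_lit 623) (nat_lit 591) (nat_lit 4590) (.f (nat_lit 622) (nat_lit 655) (nat_lit 4622) (.f (nat_lit 653) (nat_lit 621) (nat_lit 5645) (.f (nat_lit 654) (nat_lit 685)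 (nat_lit 5677) (.f (nat_lit 527) (nat_lit 559) (nat_lit 6670) (.d (nat_lit 493) (nat_lit 461) (nat_lit 7629) (nat_lit 529) (nat_lit 3565))))))) (.f (nat_lit 493) (nat_lit 461) (nat_lit 7629) (.f (nat_lit 529) (nat_lit 527) (nat_lit 3565) (.f (nat_lit 559) (nat_lit 557) (nat_lit 2573) (.d (nat_lit 530) (nat_lit 531) (nat_lit 1551) (nat_lit 561) (nat_lit 2574))))))))))
noncomputable def s22216 : Cert := .r (nat_lit 4717453032125294316127427693625949108374998796335385130506726868687835905802578684957291737086975161612872578355191225769280585831318013308732534358420551646973186277376) (.p (nat_lit 592) (.a (.f (nat_lit 623) (nat_lit 591) (nat_lit 5615) (.f (nat_lit 624) (nat_lit 655) (nat_lit 5647) (.d (nat_lit 625) (nat_lit 593) (nat_lit 4592) (nat_lit 657) (nat_lit 4624)))) (.a (.f (nat_lit 497) (nat_lit 465) (nat_lit 6608) (.f (nat_lit 624) (nat_lit 529) (nat_lit 6640) (.d (nat_lit 625) (nat_lit 593) (nat_lit 4592) (nat_lit 657) (nat_lit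 4624)))) (.a (.f (nat_lit 591) (nat_lit 623) (nat_lit 5615) (.f (nat_lit 593) (nat_lit 625) (nat_lit 4592) (.f (nat_lit 594) (nat_lit 559) (nat_lit 3630) (.f (nat_lit 562) (nat_lit 563) (nat_lit 2607) (.f (nat_lit 561) (nat_lit 590) (nat_lit 2606) (.f (nat_lit 529) (nat_lit 527) (nat_lit 526) (.d (nat_lit 497) (nat_lit 465) (nat_lit 4561) (nat_lit 626) (nat_lit 4593)))))))) (.f (nat_lit 497) (nat_lit 465) (nat_lit 6608) (.f (nat_lit 624) (nat_lit 529) (nat_lit 6640) (.d (nat_lit 623) (nat_lit 591) (nat_lit 5615) (nat_lit 655) (nat_lit 5647))))))))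
noncomputable def s22239 : Cert := .r (nat_lit 943490607303752963885873112637680217458077575918944702130520568442211743410429832871165011909316394071404203324427380869510001201393220676171100106987855603323790950400) (.p (nat_lit 560) (.a s22108 (.a (.p (nat_lit 494) (.a s21638 (.a (.p (nat_lit 462) (.a (.f (nat_lit 591) (nat_lit 559) (nat_lit 4558) (.d (nat_lit 623) (nat_lit 590) (nat_lit 4590) (nat_lit 592) (nat_lit 5615))) (.f (nat_lit 429) (nat_lit 461) (nat_lit 7597) (.f (nat_lit 430) (nat_lit 397) (nat_lit 7565) (.d (nat_lit 431) (nat_lit 399) (nat_lit 6542) (nat_lit 463) (nat_lit 6574)))))) (.a (.p (nat_lit 462) (.a (.f (nat_lit 429) (nat_lit 461) (nat_lit 7597) (.f (nat_lit 430) (nat_lit 397) (nat_lit 7565) (.d (nat_lit 431) (nat_lit 399) (nat_lit 6542) (nat_lit 463) (nat_lit 6574)))) (.f (nat_lit 589) (nat_lit 557) (nat_lit 5581) (.f (nat_lit 590) (nat_lit 621) (nat_lit 5613) (.f (nat_lit 591) (nat_lit 623) (nat_lit 4590)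 (.f (nat_lit 592) (nat_lit 561) (nat_lit 2605) (.d (nat_lit 625) (nat_lit 593) (nat_lit 4592) (nat_lit 624) (nat_lit 589)))))))) (.a (.p (nat_lit 462) (.a (.f (nat_lit 429) (nat_lit 461) (nat_lit 7597) (.f (nat_lit 430) (nat_lit 397) (nat_lit 7565) (.d (nat_lit 431) (nat_lit 399) (nat_lit 6542) (nat_lit 463) (nat_lit 6574)))) (.f (nat_lit 559) (nat_lit 591) (nat_lit 4558) (.f (nat_lit 589) (nat_lit 557) (nat_lit 5581) (.d (nat_lit 590) (nat_lit 561) (nat_lit 1581) (nat_lit 621) (nat_lit 5613)))))) (.a s22133 s22143)))))) (.a s22155 (.a s21912 (.a (.p (nat_lit 559) (.a (.f (nat_lit 529) (nat_lit 557) (nat_lit 2573) (.d (nat_lit 530) (nat_lit 531) (nat_lit 1551) (nat_lit 561) (nat_lit 2574))) (.a (.p (nat_lit 557) (.a (.f (nat_lit 527) (nat_lit 556) (nat_lit 2572) (.f (nat_lit 561) (nat_lit 562) (nat_lit 3598) (.d (nat_lit 589) (nat_lit 588) (nat_lit 1580) (nat_lit 590) (nat_lit 1581)))) (.a (.f (nat_lit 589) (nat_lit 588) (nat_lit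 1580) (.f (nat_lit 590) (nat_lit 561) (nat_lit 1581) (.d (nat_lit 494) (nat_lit 462) (nat_lit 5581) (nat_lit 621) (nat_lit 5613)))) (.a (.f (nat_lit 556) (nat_lit 527) (nat_lit 2572) (.d (nat_lit 588) (nat_lit 587) (nat_lit 1579) (nat_lit 589) (nat_lit 1580))) (.a (.f (nat_lit 556) (nat_lit 527) (nat_lit 2572) (.f (nat_lit 523) (nat_lit 524) (nat_lit 3595) (.f (nat_lit 555) (nat_lit 522) (nat_lit 3594) (.d (nat_lit 587) (nat_lit 586) (nat_lit 1578) (nat_lit 588) (nat_lit 1579))))) (.f (nat_lit 527) (nat_lit 556) (nat_lit 2572) (.f (nat_lit 561) (nat_lit 562) (nat_lit 3598) (.f (nat_lit 623) (nat_lit 591) (nat_lit 6639) (.f (nat_lit 590) (nat_lit 589) (nat_lit 1581) (.d (nat_lit 622) (nat_lit 654) (nat_lit 6670) (nat_lit 655) (nat_lit 4622))))))))))) (.a (.f (nat_lit 557) (nat_lit 529) (nat_lit 2573) (.f (nat_lit 556) (nat_lit 527) (nat_lit 2572) (.d (nat_lit 588) (nat_lit 587) (nat_lit 1579) (nat_lit 589) (nat_lit 1580)))) (.p (nat_lit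 527) (.a (.f (nat_lit 561) (nat_lit 562) (nat_lit 3598) (.f (nat_lit 623) (nat_lit 591) (nat_lit 6639) (.f (nat_lit 590) (nat_lit 589) (nat_lit 1581) (.d (nat_lit 622) (nat_lit 654) (nat_lit 6670) (nat_lit 655) (nat_lit 4622))))) (.a (.f (nat_lit 591) (nat_lit 623) (nat_lit 6639) (.f (nat_lit 494) (nat_lit 462) (nat_lit 4558) (.d (nat_lit 529) (nat_lit 493) (nat_lit 3565) (nat_lit 530) (nat_lit 1550)))) (.f (nat_lit 561) (nat_lit 562) (nat_lit 3598) (.f (nat_lit 529) (nat_lit 530) (nat_lit 1550) (.d (nat_lit 593) (nat_lit 594) (nat_lit 558) (nat_lit 625) (nat_lit 7664))))))))))) (.a (.p (nat_lit 592) (.a (.f (nat_lit 591) (nat_lit 623) (nat_lit 5615) (.f (nat_lit 593) (nat_lit 625) (nat_lit 4592) (.d (nat_lit 557) (nat_lit 559) (nat_lit 557) (nat_lit 590) (nat_lit 3629)))) (.a (.f (nat_lit 623) (nat_lit 591) (nat_lit 5615) (.f (nat_lit 624) (nat_lit 655) (nat_lit 5647) (.d (nat_lit 625) (nat_lit 593) (nat_lit 4592) (nat_lit 657)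 (nat_lit 4624)))) (.f (nat_lit 497) (nat_lit 465) (nat_lit 6608) (.f (nat_lit 529) (nat_lit 624) (nat_lit 6640) (.d (nat_lit 557) (nat_lit 527) (nat_lit 1549) (nat_lit 559) (nat_lit 2573))))))) (.a (.p (nat_lit 592) (.a (.f (nat_lit 593) (nat_lit 625) (nat_lit 4592) (.f (nat_lit 559) (nat_lit 557) (nat_lit 557) (.d (nat_lit 594) (nat_lit 561) (nat_lit 558) (nat_lit 595) (nat_lit 3631)))) (.a (.f (nat_lit 497) (nat_lit 465) (nat_lit 6608) (.f (nat_lit 624) (nat_lit 529) (nat_lit 6640) (.d (nat_lit 625) (nat_lit 593) (nat_lit 4592) (nat_lit 657) (nat_lit 4624)))) (.f (nat_lit 497) (nat_lit 465) (nat_lit 6608) (.f (nat_lit 529) (nat_lit 624) (nat_lit 6640) (.d (nat_lit 557) (nat_lit 527) (nat_lit 1549) (nat_lit 559) (nat_lit 2573))))))) (.a (.p (nat_lit 494) (.a (.p (nat_lit 462) (.a (.f (nat_lit 591) (nat_lit 559) (nat_lit 4558) (.d (nat_lit 623) (nat_lit 590) (nat_lit 4590) (nat_lit 592) (nat_lit 5615))) (.f (nat_lit 429) (nat_lit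 461) (nat_lit 7597) (.f (nat_lit 430) (nat_lit 397) (nat_lit 7565) (.d (nat_lit 431) (nat_lit 399) (nat_lit 6542) (nat_lit 463) (nat_lit 6574)))))) (.a (.p (nat_lit 462) (.a (.f (nat_lit 429) (nat_lit 461) (nat_lit 7597) (.f (nat_lit 430) (nat_lit 397) (nat_lit 7565) (.d (nat_lit 431) (nat_lit 399) (nat_lit 6542) (nat_lit 463) (nat_lit 6574)))) (.a (.f (nat_lit 589) (nat_lit 557) (nat_lit 5581) (.f (nat_lit 590) (nat_lit 621) (nat_lit 5613) (.d (nat_lit 461) (nat_lit 429) (nat_lit 7597) (nat_lit 493) (nat_lit 7629)))) (.f (nat_lit 589) (nat_lit 557) (nat_lit 5581) (.f (nat_lit 590) (nat_lit 621) (nat_lit 5613) (.f (nat_lit 591) (nat_lit 623) (nat_lit 4590) (.f (nat_lit 592) (nat_lit 561) (nat_lit 2605) (.f (nat_lit 497) (nat_lit 465) (nat_lit 6608) (.d (nat_lit 624) (nat_lit 529) (nat_lit 6640) (nat_lit 625) (nat_lit 589)))))))))) (.a (.p (nat_lit 462) (.a (.f (nat_lit 429) (nat_lit 461) (nat_lit 7597) (.f (nat_lit 430) (nat_lit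 397) (nat_lit 7565) (.d (nat_lit 431) (nat_lit 399) (nat_lit 6542) (nat_lit 463) (nat_lit 6574)))) (.f (nat_lit 559) (nat_lit 591) (nat_lit 4558) (.f (nat_lit 589) (nat_lit 557) (nat_lit 5581) (.d (nat_lit 590) (nat_lit 561) (nat_lit 1581) (nat_lit 621) (nat_lit 5613)))))) (.a s22133 (.a (.p (nat_lit 462) (.a (.f (nat_lit 591) (nat_lit 559) (nat_lit 4558) (.d (nat_lit 623) (nat_lit 590) (nat_lit 4590) (nat_lit 592) (nat_lit 5615))) (.a (.f (nat_lit 589) (nat_lit 557) (nat_lit 5581) (.f (nat_lit 590) (nat_lit 621) (nat_lit 5613) (.d (nat_lit 461) (nat_lit 429) (nat_lit 7597) (nat_lit 493) (nat_lit 7629)))) (.f (nat_lit 559) (nat_lit 591) (nat_lit 4558) (.f (nat_lit 557) (nat_lit 589) (nat_lit 5581) (.d (nat_lit 527) (nat_lit 430) (nat_lit 4526) (nat_lit 556) (nat_lit 2572))))))) (.a s22206 (.a s22143 (.p (nat_lit 462) (.a (.f (nat_lit 591) (nat_lit 559) (nat_lit 4558) (.d (nat_lit 623) (nat_lit 590) (nat_lit 4590) (nat_lit 592) (nat_lit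 5615))) (.a (.f (nat_lit 589) (nat_lit 557) (nat_lit 5581) (.f (nat_lit 590) (nat_lit 621) (nat_lit 5613) (.f (nat_lit 591) (nat_lit 623) (nat_lit 4590) (.f (nat_lit 592) (nat_lit 561) (nat_lit 2605) (.f (nat_lit 497) (nat_lit 465) (nat_lit 6608) (.d (nat_lit 624) (nat_lit 529) (nat_lit 6640) (nat_lit 625) (nat_lit 589))))))) (.a (.f (nat_lit 559) (nat_lit 591) (nat_lit 4558) (.f (nat_lit 589) (nat_lit 557) (nat_lit 5581) (.d (nat_lit 590) (nat_lit 561) (nat_lit 1581) (nat_lit 621) (nat_lit 5613)))) (.a (.f (nat_lit 589) (nat_lit 557) (nat_lit 5581) (.f (nat_lit 590) (nat_lit 621) (nat_lit 5613) (.f (nat_lit 559) (nat_lit 561) (nat_lit 1581) (.f (nat_lit 430) (nat_lit 527) (nat_lit 4526) (.d (nat_lit 431) (nat_lit 399) (nat_lit 6542) (nat_lit 463) (nat_lit 6574)))))) (.f (nat_lit 559) (nat_lit 591) (nat_lit 4558) (.f (nat_lit 557) (nat_lit 589) (nat_lit 5581) (.d (nat_lit 527) (nat_lit 430) (nat_lit 4526) (nat_lit 556) (nat_lit 2572)))))))))))))))))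 (.a s22216 (.p (nat_lit 494) (.a (.p (nat_lit 462) (.a (.f (nat_lit 591) (nat_lit 559) (nat_lit 4558) (.d (nat_lit 623) (nat_lit 590) (nat_lit 4590) (nat_lit 592) (nat_lit 5615))) (.f (nat_lit 429) (nat_lit 461) (nat_lit 7597) (.f (nat_lit 430) (nat_lit 397) (nat_lit 7565) (.d (nat_lit 431) (nat_lit 399) (nat_lit 6542) (nat_lit 463) (nat_lit 6574)))))) (.a (.p (nat_lit 589) (.a (.f (nat_lit 590) (nat_lit 621) (nat_lit 5613) (.f (nat_lit 591) (nat_lit 623) (nat_lit 4590) (.f (nat_lit 557) (nat_lit 462) (nat_lit 5581) (.d (nat_lit 556) (nat_lit 555) (nat_lit 555) (nat_lit 592) (nat_lit 3628))))) (.a (.f (nat_lit 590) (nat_lit 621) (nat_lit 5613) (.f (nat_lit 462) (nat_lit 557) (nat_lit 5581) (.d (nat_lit 461) (nat_lit 429) (nat_lit 7597) (nat_lit 493) (nat_lit 7629)))) (.a (.f (nat_lit 590) (nat_lit 621) (nat_lit 5613) (.f (nat_lit 591) (nat_lit 623) (nat_lit 4590) (.f (nat_lit 592) (nat_lit 561) (nat_lit 2605) (.f (nat_lit 493) (nat_lit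 461) (nat_lit 7629) (.f (nat_lit 497) (nat_lit 465) (nat_lit 6608) (.d (nat_lit 529) (nat_lit 527) (nat_lit 3565) (nat_lit 624) (nat_lit 6640))))))) (.f (nat_lit 462) (nat_lit 557) (nat_lit 5581) (.f (nat_lit 429) (nat_lit 461) (nat_lit 7597) (.f (nat_lit 430) (nat_lit 397) (nat_lit 7565) (.d (nat_lit 431) (nat_lit 399) (nat_lit 6542) (nat_lit 463) (nat_lit 6574))))))))) (.a (.p (nat_lit 462) (.a (.f (nat_lit 429) (nat_lit 461) (nat_lit 7597) (.f (nat_lit 430) (nat_lit 397) (nat_lit 7565) (.d (nat_lit 431) (nat_lit 399) (nat_lit 6542) (nat_lit 463) (nat_lit 6574)))) (.f (nat_lit 559) (nat_lit 591) (nat_lit 4558) (.f (nat_lit 589) (nat_lit 557) (nat_lit 5581) (.d (nat_lit 590) (nat_lit 561) (nat_lit 1581) (nat_lit 621) (nat_lit 5613)))))) (.a s22133 (.a (.p (nat_lit 462) (.a (.f (nat_lit 591) (nat_lit 559) (nat_lit 4558) (.d (nat_lit 623) (nat_lit 590) (nat_lit 4590) (nat_lit 592) (nat_lit 5615))) (.a (.f (nat_lit 589) (nat_lit 557)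 (nat_lit 5581) (.f (nat_lit 590) (nat_lit 621) (nat_lit 5613) (.d (nat_lit 461) (nat_lit 429) (nat_lit 7597) (nat_lit 493) (nat_lit 7629)))) (.f (nat_lit 559) (nat_lit 591) (nat_lit 4558) (.f (nat_lit 557) (nat_lit 589) (nat_lit 5581) (.d (nat_lit 527) (nat_lit 430) (nat_lit 4526) (nat_lit 556) (nat_lit 2572))))))) (.a s22206 (.a s22143 (.p (nat_lit 592) (.a (.f (nat_lit 623) (nat_lit 591) (nat_lit 5615) (.f (nat_lit 624) (nat_lit 655) (nat_lit 5647) (.d (nat_lit 497) (nat_lit 465) (nat_lit 6608) (nat_lit 529) (nat_lit 6640)))) (.a (.f (nat_lit 623) (nat_lit 591) (nat_lit 5615) (.f (nat_lit 655) (nat_lit 624) (nat_lit 5647) (.f (nat_lit 590) (nat_lit 622) (nat_lit 4622) (.f (nat_lit 589) (nat_lit 621) (nat_lit 5613) (.f (nat_lit 559) (nat_lit 561) (nat_lit 1581) (.d (nat_lit 557) (nat_lit 588) (nat_lit 1580) (nat_lit 593) (nat_lit 557))))))) (.a (.f (nat_lit 497) (nat_lit 465) (nat_lit 6608) (.f (nat_lit 529) (nat_lit 624) (nat_lit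 6640) (.f (nat_lit 559) (nat_lit 557) (nat_lit 2573) (.d (nat_lit 530) (nat_lit 531) (nat_lit 1551) (nat_lit 561) (nat_lit 2574))))) (.f (nat_lit 591) (nat_lit 623) (nat_lit 5615) (.f (nat_lit 559) (nat_lit 462) (nat_lit 4558) (.d (nat_lit 557) (nat_lit 529) (nat_lit 2573) (nat_lit 556) (nat_lit 556))))))))))))))))))))))))))
noncomputable def s22244 : Cert := .r (nat_lit 943490607303752963885873112637680217458077575918944702130520568442211743410429832871165011909316394071404203324427380869510001201393220676171100106987855603323790950400) (.p (nat_lit 527) (.a (.f (nat_lit 525) (nat_lit 497) (nat_lit 2541) (.d (nat_lit 557) (nat_lit 529) (nat_lit 1549) (nat_lit 556) (nat_lit 1548))) (.a (.f (nat_lit 525) (nat_lit 497) (nat_lit 2541) (.f (nat_lit 557) (nat_lit 556) (nat_lit 1548) (.f (nat_lit 493) (nat_lit 492) (nat_lit 3564) (.d (nat_lit 461) (nat_lit 429) (nat_lit 4525) (nat_lit 590) (nat_lit 4557))))) (.a (.f (nat_lit 529) (nat_lit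 557) (nat_lit 1549) (.f (nat_lit 530) (nat_lit 559) (nat_lit 1550) (.d (nat_lit 562) (nat_lit 561) (nat_lit 526) (nat_lit 563) (nat_lit 527)))) (.f (nat_lit 525) (nat_lit 497) (nat_lit 2541) (.f (nat_lit 560) (nat_lit 561) (nat_lit 525) (.f (nat_lit 524) (nat_lit 559) (nat_lit 524) (.d (nat_lit 492) (nat_lit 491) (nat_lit 3563) (nat_lit 493) (nat_lit 3564)))))))))
noncomputable def s22246 : Cert := .r (nat_lit 943490607303752963885873112637680217458077575918944702130520568442211743410429832871165011909316394071404203324427380869510001201393220676171100106987855603323790950400) (.p (nat_lit 494) (.a (.p (nat_lit 462) (.a (.f (nat_lit 429) (nat_lit 461) (nat_lit 7597) (.f (nat_lit 430) (nat_lit 397) (nat_lit 7565) (.d (nat_lit 431) (nat_lit 399) (nat_lit 6542) (nat_lit 463) (nat_lit 6574)))) (.a (.f (nat_lit 591) (nat_lit 559) (nat_lit 4558) (.f (nat_lit 590) (nat_lit 623) (nat_lit 4590) (.d (nat_lit 461) (nat_lit 429) (nat_lit 7597)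 (nat_lit 493) (nat_lit 7629)))) (.f (nat_lit 557) (nat_lit 589) (nat_lit 5581) (.f (nat_lit 559) (nat_lit 591) (nat_lit 4558) (.f (nat_lit 525) (nat_lit 430) (nat_lit 5549) (.d (nat_lit 524) (nat_lit 523) (nat_lit 523) (nat_lit 560) (nat_lit 3596)))))))) (.a (.p (nat_lit 462) (.a (.f (nat_lit 429) (nat_lit 461) (nat_lit 7597) (.f (nat_lit 430) (nat_lit 397) (nat_lit 7565) (.d (nat_lit 431) (nat_lit 399) (nat_lit 6542) (nat_lit 463) (nat_lit 6574)))) (.a (.f (nat_lit 591) (nat_lit 559) (nat_lit 4558) (.f (nat_lit 590) (nat_lit 623) (nat_lit 4590) (.d (nat_lit 461) (nat_lit 429) (nat_lit 7597) (nat_lit 493) (nat_lit 7629)))) (.f (nat_lit 559) (nat_lit 591) (nat_lit 4558) (.f (nat_lit 527) (nat_lit 430) (nat_lit 4526) (.d (nat_lit 557) (nat_lit 556) (nat_lit 2572) (nat_lit 589) (nat_lit 5581))))))) (.a (.p (nat_lit 590) (.a (.f (nat_lit 493) (nat_lit 461) (nat_lit 7629) (.f (nat_lit 622) (nat_lit 525) (nat_lit 7661) (.d (nat_lit 621)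 (nat_lit 589) (nat_lit 5613) (nat_lit 653) (nat_lit 5645)))) (.a (.f (nat_lit 623) (nat_lit 591) (nat_lit 4590) (.f (nat_lit 622) (nat_lit 655) (nat_lit 4622) (.d (nat_lit 621) (nat_lit 589) (nat_lit 5613) (nat_lit 653) (nat_lit 5645)))) (.f (nat_lit 493) (nat_lit 461) (nat_lit 7629) (.f (nat_lit 527) (nat_lit 529) (nat_lit 3565) (.d (nat_lit 492) (nat_lit 491) (nat_lit 491) (nat_lit 525) (nat_lit 3564))))))) (.a (.p (nat_lit 462) (.a (.f (nat_lit 429) (nat_lit 461) (nat_lit 7597) (.f (nat_lit 430) (nat_lit 397) (nat_lit 7565) (.d (nat_lit 431) (nat_lit 399) (nat_lit 6542) (nat_lit 463) (nat_lit 6574)))) (.a (.f (nat_lit 559) (nat_lit 591) (nat_lit 4558) (.f (nat_lit 527) (nat_lit 430) (nat_lit 4526) (.d (nat_lit 557) (nat_lit 556) (nat_lit 2572) (nat_lit 589) (nat_lit 5581)))) (.f (nat_lit 557) (nat_lit 589) (nat_lit 5581) (.f (nat_lit 527) (nat_lit 529) (nat_lit 1549) (.d (nat_lit 556) (nat_lit 525) (nat_lit 1548) (nat_lit 555)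 (nat_lit 2571))))))) (.a s21821 (.a s19154 (.p (nat_lit 462) (.a (.f (nat_lit 429) (nat_lit 461) (nat_lit 7597) (.f (nat_lit 430) (nat_lit 397) (nat_lit 7565) (.d (nat_lit 431) (nat_lit 399) (nat_lit 6542) (nat_lit 463) (nat_lit 6574)))) (.a (.f (nat_lit 591) (nat_lit 559) (nat_lit 4558) (.f (nat_lit 590) (nat_lit 623) (nat_lit 4590) (.d (nat_lit 461) (nat_lit 429) (nat_lit 7597) (nat_lit 493) (nat_lit 7629)))) (.f (nat_lit 559) (nat_lit 591) (nat_lit 4558) (.f (nat_lit 527) (nat_lit 430) (nat_lit 4526) (.d (nat_lit 529) (nat_lit 493) (nat_lit 3565) (nat_lit 530) (nat_lit 1550))))))))))))))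
noncomputable def s22258 : Cert := .r (nat_lit 943490607303752963885873112637680217458077575918944702130520568442211743410429832871165011909316394071404203324427380869510001201393220676171100106987855603323790950400) (.p (nat_lit 527) (.a (.f (nat_lit 525) (nat_lit 497) (nat_lit 2541) (.d (nat_lit 557) (nat_lit 529) (nat_lit 1549) (nat_lit 556) (nat_lit 1548))) (.a (.f (nat_lit 525) (nat_lit 497) (nat_lit 2541) (.f (nat_lit 556) (nat_lit 557) (nat_lit 1548) (.f (nat_lit 524) (nat_lit 555) (nat_lit 1547) (.f (nat_lit 491) (nat_lit 492) (nat_lit 3563) (.d (nat_lit 523) (nat_lit 490) (nat_lit 3562) (nat_lit 559) (nat_lit 523)))))) (.a (.f (nat_lit 529) (nat_lit 557) (nat_lit 1549) (.f (nat_lit 530) (nat_lit 559) (nat_lit 1550) (.d (nat_lit 562) (nat_lit 561) (nat_lit 526) (nat_lit 563) (nat_lit 527)))) (.f (nat_lit 525) (nat_lit 497) (nat_lit 2541) (.f (nat_lit 560) (nat_lit 561) (nat_lit 525) (.f (nat_lit 524) (nat_lit 559) (nat_lit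 524) (.f (nat_lit 491) (nat_lit 492) (nat_lit 3563) (.f (nat_lit 523) (nat_lit 490) (nat_lit 3562) (.d (nat_lit 555) (nat_lit 554) (nat_lit 1546) (nat_lit 556) (nat_lit 1547)))))))))))
noncomputable def s22333 : Cert := .r (nat_lit 943490607303752963885873112637680217458077575918944702130520568442211743410429832871165011909316394071404203324427380869510001201393220676171100106987855603323790950400) (.p (nat_lit 590) (.a s22052 (.a (.p (nat_lit 494) (.a (.f (nat_lit 493) (nat_lit 461) (nat_lit 7629) (.f (nat_lit 525) (nat_lit 622) (nat_lit 7661) (.d (nat_lit 527) (nat_lit 492) (nat_lit 3564) (nat_lit 497) (nat_lit 2541)))) (.a (.f (nat_lit 493) (nat_lit 461) (nat_lit 7629) (.f (nat_lit 622) (nat_lit 525) (nat_lit 7661) (.d (nat_lit 621) (nat_lit 589) (nat_lit 5613) (nat_lit 653) (nat_lit 5645)))) (.a (.f (nat_lit 623) (nat_lit 591) (nat_lit 4590) (.f (nat_lit 622) (nat_lit 655) (nat_lit 4622) (.d (nat_lit 621) (nat_lit 589) (nat_lit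 5613) (nat_lit 653) (nat_lit 5645)))) (.f (nat_lit 461) (nat_lit 493) (nat_lit 7629) (.f (nat_lit 462) (nat_lit 429) (nat_lit 7597) (.d (nat_lit 591) (nat_lit 559) (nat_lit 4558) (nat_lit 623) (nat_lit 4590)))))))) (.a (.p (nat_lit 494) (.a (.f (nat_lit 493) (nat_lit 461) (nat_lit 7629) (.f (nat_lit 622) (nat_lit 525) (nat_lit 7661) (.d (nat_lit 621) (nat_lit 589) (nat_lit 5613) (nat_lit 653) (nat_lit 5645)))) (.a (.f (nat_lit 623) (nat_lit 591) (nat_lit 4590) (.f (nat_lit 622) (nat_lit 655) (nat_lit 4622) (.d (nat_lit 621) (nat_lit 589) (nat_lit 5613) (nat_lit 653) (nat_lit 5645)))) (.f (nat_lit 461) (nat_lit 493) (nat_lit 7629) (.f (nat_lit 462) (nat_lit 429) (nat_lit 7597) (.d (nat_lit 591) (nat_lit 559) (nat_lit 4558) (nat_lit 623) (nat_lit 4590))))))) (.a (.p (nat_lit 494) (.a (.f (nat_lit 623) (nat_lit 591) (nat_lit 4590) (.f (nat_lit 622) (nat_lit 655) (nat_lit 4622) (.d (nat_lit 621) (nat_lit 589) (nat_lit 5613) (nat_lit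 653) (nat_lit 5645)))) (.a (.f (nat_lit 493) (nat_lit 461) (nat_lit 7629) (.f (nat_lit 527) (nat_lit 529) (nat_lit 3565) (.f (nat_lit 621) (nat_lit 589) (nat_lit 5613) (.f (nat_lit 622) (nat_lit 653) (nat_lit 5645) (.f (nat_lit 654) (nat_lit 559) (nat_lit 6670) (.d (nat_lit 655) (nat_lit 623) (nat_lit 4622) (nat_lit 687) (nat_lit 4654))))))) (.a (.f (nat_lit 493) (nat_lit 461) (nat_lit 7629) (.f (nat_lit 527) (nat_lit 529) (nat_lit 3565) (.f (nat_lit 621) (nat_lit 589) (nat_lit 5613) (.f (nat_lit 622) (nat_lit 653) (nat_lit 5645) (.f (nat_lit 559) (nat_lit 654) (nat_lit 6670) (.d (nat_lit 462) (nat_lit 430) (nat_lit 4526) (nat_lit 591) (nat_lit 4558))))))) (.f (nat_lit 461) (nat_lit 493) (nat_lit 7629) (.f (nat_lit 462) (nat_lit 429) (nat_lit 7597) (.d (nat_lit 591) (nat_lit 559) (nat_lit 4558) (nat_lit 623) (nat_lit 4590)))))))) (.a (.p (nat_lit 525) (.a (.f (nat_lit 527) (nat_lit 497) (nat_lit 2541) (.d (nat_lit 493) (nat_lit 492)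 (nat_lit 3564) (nat_lit 622) (nat_lit 7661))) (.a (.f (nat_lit 622) (nat_lit 493) (nat_lit 7661) (.f (nat_lit 655) (nat_lit 623) (nat_lit 4622) (.f (nat_lit 654) (nat_lit 687) (nat_lit 4654) (.d (nat_lit 653) (nat_lit 621) (nat_lit 5645) (nat_lit 685) (nat_lit 5677))))) (.a (.f (nat_lit 527) (nat_lit 497) (nat_lit 2541) (.f (nat_lit 560) (nat_lit 561) (nat_lit 525) (.f (nat_lit 559) (nat_lit 524) (nat_lit 524) (.f (nat_lit 591) (nat_lit 623) (nat_lit 6639) (.f (nat_lit 622) (nat_lit 654) (nat_lit 6670) (.f (nat_lit 621) (nat_lit 653) (nat_lit 5645) (.f (nat_lit 592) (nat_lit 593) (nat_lit 1613) (.d (nat_lit 589) (nat_lit 588) (nat_lit 2604) (nat_lit 620) (nat_lit 1612))))))))) (.f (nat_lit 527) (nat_lit 497) (nat_lit 2541) (.f (nat_lit 560) (nat_lit 561) (nat_lit 525) (.f (nat_lit 524) (nat_lit 559) (nat_lit 524) (.d (nat_lit 492) (nat_lit 491) (nat_lit 3563) (nat_lit 493) (nat_lit 3564))))))))) (.a (.p (nat_lit 623) (.a (.f (nat_lit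 494) (nat_lit 591) (nat_lit 4590) (.f (nat_lit 622) (nat_lit 655) (nat_lit 4622) (.d (nat_lit 621) (nat_lit 589) (nat_lit 5613) (nat_lit 653) (nat_lit 5645)))) (.a (.f (nat_lit 655) (nat_lit 622) (nat_lit 4622) (.d (nat_lit 591) (nat_lit 559) (nat_lit 7694) (nat_lit 687) (nat_lit 7726))) (.a (.f (nat_lit 622) (nat_lit 655) (nat_lit 4622) (.f (nat_lit 621) (nat_lit 653) (nat_lit 5645) (.f (nat_lit 589) (nat_lit 494) (nat_lit 5613) (.d (nat_lit 588) (nat_lit 587) (nat_lit 587) (nat_lit 624) (nat_lit 3660))))) (.f (nat_lit 591) (nat_lit 494) (nat_lit 4590) (.f (nat_lit 559) (nat_lit 527) (nat_lit 6639) (.f (nat_lit 560) (nat_lit 592) (nat_lit 5615) (.d (nat_lit 561) (nat_lit 525) (nat_lit 3597) (nat_lit 562) (nat_lit 1582))))))))) (.a (.p (nat_lit 525) (.a (.f (nat_lit 527) (nat_lit 497) (nat_lit 2541) (.d (nat_lit 493) (nat_lit 492) (nat_lit 3564) (nat_lit 622) (nat_lit 7661))) (.a (.f (nat_lit 493) (nat_lit 622) (nat_lit 7661) (.d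 (nat_lit 461) (nat_lit 429) (nat_lit 4525) (nat_lit 494) (nat_lit 7629))) (.a (.f (nat_lit 527) (nat_lit 497) (nat_lit 2541) (.f (nat_lit 560) (nat_lit 561) (nat_lit 525) (.f (nat_lit 559) (nat_lit 524) (nat_lit 524) (.f (nat_lit 622) (nat_lit 654) (nat_lit 6670) (.f (nat_lit 621) (nat_lit 653) (nat_lit 5645) (.f (nat_lit 623) (nat_lit 655) (nat_lit 4622) (.f (nat_lit 589) (nat_lit 494) (nat_lit 5613) (.d (nat_lit 588) (nat_lit 587) (nat_lit 587) (nat_lit 624) (nat_lit 3660))))))))) (.f (nat_lit 527) (nat_lit 497) (nat_lit 2541) (.f (nat_lit 560) (nat_lit 561) (nat_lit 525) (.f (nat_lit 524) (nat_lit 559) (nat_lit 524) (.d (nat_lit 492) (nat_lit 491) (nat_lit 3563) (nat_lit 493) (nat_lit 3564))))))))) (.a (.p (nat_lit 525) (.a (.f (nat_lit 527) (nat_lit 497) (nat_lit 2541) (.d (nat_lit 493) (nat_lit 492) (nat_lit 3564) (nat_lit 622) (nat_lit 7661))) (.a (.f (nat_lit 493) (nat_lit 622) (nat_lit 7661) (.d (nat_lit 461) (nat_lit 429)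 (nat_lit 4525) (nat_lit 494) (nat_lit 7629))) (.a (.f (nat_lit 527) (nat_lit 497) (nat_lit 2541) (.f (nat_lit 560) (nat_lit 561) (nat_lit 525) (.f (nat_lit 559) (nat_lit 524) (nat_lit 524) (.f (nat_lit 622) (nat_lit 654) (nat_lit 6670) (.f (nat_lit 621) (nat_lit 653) (nat_lit 5645) (.f (nat_lit 589) (nat_lit 494) (nat_lit 5613) (.d (nat_lit 588) (nat_lit 587) (nat_lit 2603) (nat_lit 591) (nat_lit 2604)))))))) (.f (nat_lit 527) (nat_lit 497) (nat_lit 2541) (.f (nat_lit 560) (nat_lit 561) (nat_lit 525) (.f (nat_lit 524) (nat_lit 559) (nat_lit 524) (.d (nat_lit 492) (nat_lit 491) (nat_lit 3563) (nat_lit 493) (nat_lit 3564))))))))) (.a (.p (nat_lit 494) (.a (.f (nat_lit 493) (nat_lit 461) (nat_lit 7629) (.f (nat_lit 525) (nat_lit 622) (nat_lit 7661) (.d (nat_lit 527) (nat_lit 492) (nat_lit 3564) (nat_lit 497) (nat_lit 2541)))) (.a (.f (nat_lit 461) (nat_lit 493) (nat_lit 7629) (.f (nat_lit 462) (nat_lit 429) (nat_lit 7597) (.d (nat_lit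 591) (nat_lit 559) (nat_lit 4558) (nat_lit 623) (nat_lit 4590)))) (.a (.f (nat_lit 591) (nat_lit 623) (nat_lit 4590) (.f (nat_lit 462) (nat_lit 559) (nat_lit 4558) (.f (nat_lit 429) (nat_lit 461) (nat_lit 7597) (.f (nat_lit 430) (nat_lit 397) (nat_lit 7565) (.d (nat_lit 431) (nat_lit 399) (nat_lit 6542) (nat_lit 463) (nat_lit 6574)))))) (.f (nat_lit 591) (nat_lit 623) (nat_lit 4590) (.f (nat_lit 462) (nat_lit 559) (nat_lit 4558) (.f (nat_lit 431) (nat_lit 463) (nat_lit 6574) (.f (nat_lit 430) (nat_lit 399) (nat_lit 6542) (.f (nat_lit 397) (nat_lit 429) (nat_lit 7565) (.f (nat_lit 398) (nat_lit 365) (nat_lit 7533) (.f (nat_lit 525) (nat_lit 493) (nat_lit 5517) (.f (nat_lit 433) (nat_lit 432) (nat_lit 3469) (.f (nat_lit 497) (nat_lit 527) (nat_lit 2541) (.f (nat_lit 465) (nat_lit 401) (nat_lit 5520) (.d (nat_lit 560) (nat_lit 529) (nat_lit 5552) (nat_lit 592) (nat_lit 6608)))))))))))))))) (.p (nat_lit 494) (.a (.f (nat_lit 461) (nat_lit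 493) (nat_lit 7629) (.f (nat_lit 462) (nat_lit 429) (nat_lit 7597) (.d (nat_lit 591) (nat_lit 559) (nat_lit 4558) (nat_lit 623) (nat_lit 4590)))) (.a (.f (nat_lit 493) (nat_lit 461) (nat_lit 7629) (.f (nat_lit 527) (nat_lit 529) (nat_lit 3565) (.d (nat_lit 492) (nat_lit 491) (nat_lit 491) (nat_lit 525) (nat_lit 3564)))) (.a (.f (nat_lit 591) (nat_lit 623) (nat_lit 4590) (.f (nat_lit 462) (nat_lit 559) (nat_lit 4558) (.f (nat_lit 429) (nat_lit 461) (nat_lit 7597) (.f (nat_lit 430) (nat_lit 397) (nat_lit 7565) (.d (nat_lit 431) (nat_lit 399) (nat_lit 6542) (nat_lit 463) (nat_lit 6574)))))) (.f (nat_lit 591) (nat_lit 623) (nat_lit 4590) (.f (nat_lit 462) (nat_lit 559) (nat_lit 4558) (.f (nat_lit 431) (nat_lit 463) (nat_lit 6574) (.f (nat_lit 430) (nat_lit 399) (nat_lit 6542) (.f (nat_lit 397) (nat_lit 429) (nat_lit 7565) (.f (nat_lit 398) (nat_lit 365) (nat_lit 7533) (.f (nat_lit 525) (nat_lit 493) (nat_lit 5517) (.f (nat_lit 433) (nat_lit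 432) (nat_lit 3469) (.f (nat_lit 497) (nat_lit 527) (nat_lit 2541) (.f (nat_lit 465) (nat_lit 401) (nat_lit 5520) (.d (nat_lit 560) (nat_lit 529) (nat_lit 5552) (nat_lit 592) (nat_lit 6608))))))))))))))))))))))))))
noncomputable def s22399 : Cert := .r (nat_lit 943490607303752963885873112637680217458077575918944702130520568442211743410429832871165011909316394071404203324427380869510001201393220676171100106987855603323790950400) (.p (nat_lit 590) (.a s22078 (.a (.p (nat_lit 494) (.a (.f (nat_lit 495) (nat_lit 463) (nat_lit 6606) (.f (nat_lit 527) (nat_lit 622) (nat_lit 6638) (.d (nat_lit 493) (nat_lit 461) (nat_lit 7629) (nat_lit 492) (nat_lit 492)))) (.a (.f (nat_lit 495) (nat_lit 463) (nat_lit 6606) (.d (nat_lit 493) (nat_lit 461) (nat_lit 7629) (nat_lit 529) (nat_lit 493))) (.f (nat_lit 623) (nat_lit 591) (nat_lit 4590) (.f (nat_lit 622) (nat_lit 655) (nat_lit 4622) (.d (nat_lit 621) (nat_lit 589) (nat_lit 5613) (nat_lit 653) (nat_lit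 5645))))))) (.a (.p (nat_lit 622) (.a (.f (nat_lit 653) (nat_lit 621) (nat_lit 5645) (.f (nat_lit 654) (nat_lit 685) (nat_lit 5677) (.d (nat_lit 655) (nat_lit 623) (nat_lit 4622) (nat_lit 687) (nat_lit 4654)))) (.a (.f (nat_lit 527) (nat_lit 495) (nat_lit 6638) (.f (nat_lit 557) (nat_lit 529) (nat_lit 1549) (.f (nat_lit 653) (nat_lit 621) (nat_lit 5645) (.f (nat_lit 654) (nat_lit 685) (nat_lit 5677) (.f (nat_lit 686) (nat_lit 589) (nat_lit 7725) (.d (nat_lit 687) (nat_lit 655) (nat_lit 4654) (nat_lit 719) (nat_lit 4686))))))) (.a (.f (nat_lit 527) (nat_lit 495) (nat_lit 6638) (.f (nat_lit 529) (nat_lit 557) (nat_lit 1549) (.f (nat_lit 561) (nat_lit 562) (nat_lit 526) (.f (nat_lit 593) (nat_lit 625) (nat_lit 7664) (.f (nat_lit 621) (nat_lit 653) (nat_lit 5645) (.f (nat_lit 592) (nat_lit 591) (nat_lit 1613) (.d (nat_lit 624) (nat_lit 497) (nat_lit 5616) (nat_lit 623) (nat_lit 2637)))))))) (.a (.f (nat_lit 527) (nat_lit 495) (nat_lit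 6638) (.f (nat_lit 557) (nat_lit 529) (nat_lit 1549) (.f (nat_lit 655) (nat_lit 623) (nat_lit 4622) (.f (nat_lit 654) (nat_lit 687) (nat_lit 4654) (.f (nat_lit 685) (nat_lit 653) (nat_lit 5677) (.d (nat_lit 686) (nat_lit 589) (nat_lit 7725) (nat_lit 717) (nat_lit 5709))))))) (.f (nat_lit 527) (nat_lit 495) (nat_lit 6638) (.f (nat_lit 529) (nat_lit 557) (nat_lit 1549) (.f (nat_lit 561) (nat_lit 562) (nat_lit 526) (.f (nat_lit 623) (nat_lit 655) (nat_lit 4622) (.f (nat_lit 625) (nat_lit 593) (nat_lit 7664) (.f (nat_lit 624) (nat_lit 589) (nat_lit 3661) (.f (nat_lit 626) (nat_lit 591) (nat_lit 3662) (.d (nat_lit 658) (nat_lit 657) (nat_lit 622) (nat_lit 659) (nat_lit 623)))))))))))))) (.a (.p (nat_lit 494) (.a (.f (nat_lit 495) (nat_lit 463) (nat_lit 6606) (.f (nat_lit 527) (nat_lit 622) (nat_lit 6638) (.d (nat_lit 493) (nat_lit 461) (nat_lit 7629) (nat_lit 492) (nat_lit 492)))) (.a (.f (nat_lit 495) (nat_lit 463) (nat_lit 6606) (.d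 (nat_lit 493) (nat_lit 461) (nat_lit 7629) (nat_lit 529) (nat_lit 493))) (.a (.f (nat_lit 461) (nat_lit 493) (nat_lit 7629) (.f (nat_lit 462) (nat_lit 429) (nat_lit 7597) (.d (nat_lit 589) (nat_lit 557) (nat_lit 5581) (nat_lit 621) (nat_lit 5613)))) (.f (nat_lit 495) (nat_lit 463) (nat_lit 6606) (.f (nat_lit 527) (nat_lit 622) (nat_lit 6638) (.d (nat_lit 529) (nat_lit 530) (nat_lit 3566) (nat_lit 557) (nat_lit 1549)))))))) (.a (.p (nat_lit 527) (.a (.f (nat_lit 495) (nat_lit 622) (nat_lit 6638) (.d (nat_lit 463) (nat_lit 431) (nat_lit 5550) (nat_lit 494) (nat_lit 6606))) (.a (.f (nat_lit 529) (nat_lit 557) (nat_lit 1549) (.f (nat_lit 494) (nat_lit 493) (nat_lit 3565) (.f (nat_lit 561) (nat_lit 562) (nat_lit 526) (.f (nat_lit 623) (nat_lit 591) (nat_lit 4590) (.f (nat_lit 622) (nat_lit 655) (nat_lit 4622) (.f (nat_lit 625) (nat_lit 593) (nat_lit 7664) (.f (nat_lit 653) (nat_lit 621) (nat_lit 5645) (.d (nat_lit 654) (nat_lit 624) (nat_lit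 1645) (nat_lit 685) (nat_lit 5677))))))))) (.a (.f (nat_lit 495) (nat_lit 622) (nat_lit 6638) (.f (nat_lit 529) (nat_lit 557) (nat_lit 1549) (.f (nat_lit 530) (nat_lit 531) (nat_lit 3567) (.d (nat_lit 562) (nat_lit 561) (nat_lit 526) (nat_lit 563) (nat_lit 527))))) (.f (nat_lit 529) (nat_lit 557) (nat_lit 1549) (.f (nat_lit 494) (nat_lit 493) (nat_lit 3565) (.d (nat_lit 495) (nat_lit 463) (nat_lit 6606) (nat_lit 530) (nat_lit 3566)))))))) (.a (.p (nat_lit 494) (.a (.f (nat_lit 495) (nat_lit 463) (nat_lit 6606) (.d (nat_lit 493) (nat_lit 461) (nat_lit 7629) (nat_lit 529) (nat_lit 493))) (.a (.f (nat_lit 495) (nat_lit 463) (nat_lit 6606) (.f (nat_lit 493) (nat_lit 461) (nat_lit 7629) (.f (nat_lit 492) (nat_lit 527) (nat_lit 492) (.f (nat_lit 459) (nat_lit 460) (nat_lit 3531) (.f (nat_lit 491) (nat_lit 458) (nat_lit 3530) (.d (nat_lit 523) (nat_lit 522) (nat_lit 1514) (nat_lit 524) (nat_lit 1515))))))) (.a (.f (nat_lit 461) (nat_lit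 493) (nat_lit 7629) (.f (nat_lit 462) (nat_lit 429) (nat_lit 7597) (.d (nat_lit 589) (nat_lit 557) (nat_lit 5581) (nat_lit 621) (nat_lit 5613)))) (.a (.f (nat_lit 495) (nat_lit 463) (nat_lit 6606) (.f (nat_lit 589) (nat_lit 621) (nat_lit 5613) (.f (nat_lit 462) (nat_lit 557) (nat_lit 5581) (.d (nat_lit 461) (nat_lit 429) (nat_lit 7597) (nat_lit 497) (nat_lit 3533))))) (.f (nat_lit 495) (nat_lit 463) (nat_lit 6606) (.f (nat_lit 529) (nat_lit 493) (nat_lit 493) (.d (nat_lit 530) (nat_lit 497) (nat_lit 494) (nat_lit 531) (nat_lit 3567))))))))) (.p (nat_lit 495) (.a (.f (nat_lit 527) (nat_lit 622) (nat_lit 6638) (.f (nat_lit 529) (nat_lit 557) (nat_lit 1549) (.f (nat_lit 530) (nat_lit 531) (nat_lit 3567) (.d (nat_lit 562) (nat_lit 561) (nat_lit 526) (nat_lit 563) (nat_lit 527))))) (.f (nat_lit 494) (nat_lit 463) (nat_lit 6606) (.f (nat_lit 461) (nat_lit 493) (nat_lit 7629) (.d (nat_lit 462) (nat_lit 429) (nat_lit 7597) (nat_lit 497)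 (nat_lit 3533)))))))))))))
noncomputable def s22408 : Cert := .r (nat_lit 943490607303752963885873112637680217458077575918944702130520568442211743410429832871165011909316394071404203324427380869510001201393220676171100106987855603323790950400) (.p (nat_lit 527) (.a (.f (nat_lit 525) (nat_lit 497) (nat_lit 2541) (.d (nat_lit 557) (nat_lit 529) (nat_lit 1549) (nat_lit 556) (nat_lit 1548))) (.a (.f (nat_lit 525) (nat_lit 497) (nat_lit 2541) (.f (nat_lit 524) (nat_lit 495) (nat_lit 2540) (.d (nat_lit 492) (nat_lit 491) (nat_lit 3563) (nat_lit 493) (nat_lit 3564)))) (.a (.f (nat_lit 529) (nat_lit 557) (nat_lit 1549) (.f (nat_lit 562) (nat_lit 561) (nat_lit 526) (.f (nat_lit 530) (nat_lit 563) (nat_lit 527) (.f (nat_lit 531) (nat_lit 495) (nat_lit 3567) (.f (nat_lit 532) (nat_lit 497) (nat_lit 3568) (.d (nat_lit 500) (nat_lit 499) (nat_lit 2544) (nat_lit 501) (nat_lit 2545))))))) (.f (nat_lit 557) (nat_lit 529) (nat_lit 1549) (.d (nat_lit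 556) (nat_lit 525) (nat_lit 1548) (nat_lit 555) (nat_lit 2571)))))))
noncomputable def s22413 : Cert := .r (nat_lit 943490607303752963937019840886057434177033664931875938883905600411634630746106260497667102478139433991455298517019633324992605640886346785690119740517314869782049193984) (.p (nat_lit 462) (.a (.f (nat_lit 557) (nat_lit 589) (nat_lit 5581) (.f (nat_lit 527) (nat_lit 529) (nat_lit 1549) (.d (nat_lit 525) (nat_lit 430) (nat_lit 5549) (nat_lit 556) (nat_lit 1548)))) (.a (.f (nat_lit 557) (nat_lit 589) (nat_lit 5581) (.f (nat_lit 430) (nat_lit 525) (nat_lit 5549) (.d (nat_lit 431) (nat_lit 399) (nat_lit 6542) (nat_lit 463) (nat_lit 6574)))) (.a (.f (nat_lit 463) (nat_lit 431) (nat_lit 6574) (.f (nat_lit 590) (nat_lit 495) (nat_lit 6606) (.d (nat_lit 589) (nat_lit 557) (nat_lit 5581) (nat_lit 621) (nat_lit 5613)))) (.f (nat_lit 463) (nat_lit 431) (nat_lit 6574) (.f (nat_lit 495) (nat_lit 590) (nat_lit 6606) (.f (nat_lit 493)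 (nat_lit 529) (nat_lit 493) (.d (nat_lit 492) (nat_lit 491) (nat_lit 2507) (nat_lit 527) (nat_lit 492)))))))))
noncomputable def s22414 : Cert := .r (nat_lit 943490607303752963937019840886057434177033664931875938883905600411634630746106260497667102478139433991455298517019633324992605640886346785690119740517314869782049193984) (.p (nat_lit 462) (.a (.f (nat_lit 463) (nat_lit 431) (nat_lit 6574) (.f (nat_lit 495) (nat_lit 590) (nat_lit 6606) (.d (nat_lit 461) (nat_lit 429) (nat_lit 7597) (nat_lit 460) (nat_lit 460)))) (.a (.f (nat_lit 429) (nat_lit 461) (nat_lit 7597) (.f (nat_lit 430) (nat_lit 397) (nat_lit 7565) (.d (nat_lit 431) (nat_lit 399) (nat_lit 6542) (nat_lit 463) (nat_lit 6574)))) (.a (.f (nat_lit 461) (nat_lit 429) (nat_lit 7597) (.f (nat_lit 493) (nat_lit 590) (nat_lit 7629) (.f (nat_lit 495) (nat_lit 460) (nat_lit 3532) (.f (nat_lit 525) (nat_lit 524) (nat_lit 1516) (.d (nat_lit 430) (nat_lit 398) (nat_lit 5517) (nat_lit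 557) (nat_lit 5549)))))) (.a (.f (nat_lit 431) (nat_lit 463) (nat_lit 6574) (.f (nat_lit 430) (nat_lit 399) (nat_lit 6542) (.f (nat_lit 397) (nat_lit 429) (nat_lit 7565) (.f (nat_lit 398) (nat_lit 365) (nat_lit 7533) (.d (nat_lit 525) (nat_lit 493) (nat_lit 5517) (nat_lit 557) (nat_lit 5549)))))) (.f (nat_lit 463) (nat_lit 431) (nat_lit 6574) (.f (nat_lit 495) (nat_lit 590) (nat_lit 6606) (.f (nat_lit 493) (nat_lit 529) (nat_lit 493) (.d (nat_lit 492) (nat_lit 491) (nat_lit 2507) (nat_lit 527) (nat_lit 492))))))))))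
noncomputable def s22415 : Cert := .r (nat_lit 943490607303752963885873112637680217458077575918944702130520568442211743410429832871165011909316394071404203324427380869510001201393220676171100106987855603323790950400) (.p (nat_lit 494) (.a (.p (nat_lit 590) (.a (.f (nat_lit 495) (nat_lit 463) (nat_lit 6606) (.f (nat_lit 527) (nat_lit 622) (nat_lit 6638) (.d (nat_lit 493) (nat_lit 461) (nat_lit 7629) (nat_lit 492) (nat_lit 492)))) (.a (.f (nat_lit 495) (nat_lit 463) (nat_lit 6606) (.d (nat_lit 493) (nat_lit 461) (nat_lit 7629) (nat_lit 529) (nat_lit 493))) (.f (nat_lit 623) (nat_lit 591) (nat_lit 4590) (.f (nat_lit 622) (nat_lit 655) (nat_lit 4622) (.d (nat_lit 621) (nat_lit 589) (nat_lit 5613) (nat_lit 653) (nat_lit 5645))))))) (.a s21690 (.a (.p (nat_lit 590) (.a (.f (nat_lit 493) (nat_lit 461) (nat_lit 7629) (.f (nat_lit 622) (nat_lit 525) (nat_lit 7661) (.d (nat_lit 621) (nat_lit 589) (nat_lit 5613) (nat_lit 653) (nat_lit 5645))))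 (.a (.f (nat_lit 623) (nat_lit 591) (nat_lit 4590) (.f (nat_lit 622) (nat_lit 655) (nat_lit 4622) (.d (nat_lit 621) (nat_lit 589) (nat_lit 5613) (nat_lit 653) (nat_lit 5645)))) (.f (nat_lit 493) (nat_lit 461) (nat_lit 7629) (.f (nat_lit 527) (nat_lit 529) (nat_lit 3565) (.d (nat_lit 492) (nat_lit 491) (nat_lit 491) (nat_lit 525) (nat_lit 3564))))))) (.a s21891 (.a s22413 s22414))))))
noncomputable def s22416 : Cert := .r (nat_lit 943490607303752963885873112637680217458077575918944702130520568442211743410429832871165011909316394071404203324427380869510001201393220676171100106987855603323790950400) (.p (nat_lit 527) (.a (.f (nat_lit 525) (nat_lit 497) (nat_lit 2541) (.d (nat_lit 557) (nat_lit 529) (nat_lit 1549) (nat_lit 556) (nat_lit 1548))) (.a (.f (nat_lit 525) (nat_lit 497) (nat_lit 2541) (.f (nat_lit 524) (nat_lit 495) (nat_lit 2540) (.d (nat_lit 556) (nat_lit 555) (nat_lit 1547) (nat_lit 557) (nat_lit 1548)))) (.a (.f (nat_lit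 529) (nat_lit 557) (nat_lit 1549) (.f (nat_lit 562) (nat_lit 561) (nat_lit 526) (.f (nat_lit 530) (nat_lit 563) (nat_lit 527) (.f (nat_lit 531) (nat_lit 495) (nat_lit 3567) (.f (nat_lit 532) (nat_lit 497) (nat_lit 3568) (.d (nat_lit 500) (nat_lit 499) (nat_lit 2544) (nat_lit 501) (nat_lit 2545))))))) (.a (.f (nat_lit 557) (nat_lit 529) (nat_lit 1549) (.d (nat_lit 556) (nat_lit 525) (nat_lit 1548) (nat_lit 555) (nat_lit 2571))) (.f (nat_lit 525) (nat_lit 497) (nat_lit 2541) (.f (nat_lit 495) (nat_lit 524) (nat_lit 2540) (.f (nat_lit 463) (nat_lit 431) (nat_lit 5550) (.d (nat_lit 560) (nat_lit 561) (nat_lit 525) (nat_lit 592) (nat_lit 7631))))))))))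
noncomputable def s22428 : Cert := .r (nat_lit 943490607303752963885873112637680217458077575918944702130520568442211743410429832871165011909316394071404203324427380869510001201393220676171100106987855603323790950400) (.p (nat_lit 494) (.a s19062 (.a (.p (nat_lit 590) (.a (.f (nat_lit 493) (nat_lit 461) (nat_lit 7629) (.f (nat_lit 622) (nat_lit 525) (nat_lit 7661) (.d (nat_lit 621) (nat_lit 589) (nat_lit 5613) (nat_lit 653) (nat_lit 5645)))) (.a (.f (nat_lit 623) (nat_lit 591) (nat_lit 4590) (.f (nat_lit 622) (nat_lit 655) (nat_lit 4622) (.d (nat_lit 621) (nat_lit 589) (nat_lit 5613) (nat_lit 653) (nat_lit 5645)))) (.f (nat_lit 493) (nat_lit 461) (nat_lit 7629) (.f (nat_lit 527) (nat_lit 529) (nat_lit 3565) (.d (nat_lit 492) (nat_lit 491) (nat_lit 491) (nat_lit 525) (nat_lit 3564))))))) (.a s19098 (.a (.p (nat_lit 590) (.a (.f (nat_lit 495) (nat_lit 463) (nat_lit 6606) (.f (nat_lit 525) (nat_lit 497) (nat_lit 1517) (.d (nat_lit 524)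 (nat_lit 523) (nat_lit 2539) (nat_lit 527) (nat_lit 2540)))) (.f (nat_lit 623) (nat_lit 591) (nat_lit 4590) (.f (nat_lit 622) (nat_lit 655) (nat_lit 4622) (.d (nat_lit 621) (nat_lit 589) (nat_lit 5613) (nat_lit 653) (nat_lit 5645)))))) (.p (nat_lit 527) (.a (.f (nat_lit 493) (nat_lit 529) (nat_lit 3565) (.d (nat_lit 492) (nat_lit 491) (nat_lit 491) (nat_lit 525) (nat_lit 3564))) (.a (.f (nat_lit 525) (nat_lit 497) (nat_lit 2541) (.f (nat_lit 524) (nat_lit 495) (nat_lit 2540) (.f (nat_lit 491) (nat_lit 492) (nat_lit 3563) (.f (nat_lit 523) (nat_lit 490) (nat_lit 3562) (.d (nat_lit 555) (nat_lit 554) (nat_lit 1546) (nat_lit 556) (nat_lit 1547)))))) (.f (nat_lit 529) (nat_lit 493) (nat_lit 3565) (.f (nat_lit 530) (nat_lit 495) (nat_lit 3566) (.d (nat_lit 562) (nat_lit 561) (nat_lit 526) (nat_lit 563) (nat_lit 527))))))))))))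
noncomputable def s22440 : Cert := .r (nat_lit 4717453031905620791003248182746528282804394213382763200902141095587213075108641303088566743419053253111706032595917743804753198374130109692741601756418182741657504448512) (.p (nat_lit 592) (.a (.f (nat_lit 593) (nat_lit 625) (nat_lit 4592) (.f (nat_lit 559) (nat_lit 557) (nat_lit 557) (.d (nat_lit 591) (nat_lit 594) (nat_lit 3630) (nat_lit 623) (nat_lit 5615)))) (.a (.f (nat_lit 591) (nat_lit 623) (nat_lit 5615) (.f (nat_lit 593) (nat_lit 625) (nat_lit 4592) (.f (nat_lit 590) (nat_lit 557) (nat_lit 3629) (.d (nat_lit 561) (nat_lit 562) (nat_lit 2606) (nat_lit 589) (nat_lit 2605))))) (.a (.f (nat_lit 593) (nat_lit 625) (nat_lit 4592) (.f (nat_lit 559) (nat_lit 557) (nat_lit 557) (.d (nat_lit 594) (nat_lit 561) (nat_lit 558) (nat_lit 595) (nat_lit 3631)))) (.f (nat_lit 497) (nat_lit 465) (nat_lit 6608) (.f (nat_lit 624) (nat_lit 529) (nat_lit 6640) (.d (nat_lit 623) (nat_lit 591) (nat_lit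 5615) (nat_lit 655) (nat_lit 5647))))))))
noncomputable def s22458 : Cert := .r (nat_lit 6604434244316391467124025473240662728262854823590983415090244245710025156304715729131630106007882636882440220111299666254638490689092506009022318882134530763482202112000) (.p (nat_lit 561) (.a (.f (nat_lit 590) (nat_lit 589) (nat_lit 1581) (.f (nat_lit 562) (nat_lit 591) (nat_lit 1582) (.d (nat_lit 594) (nat_lit 593) (nat_lit 558) (nat_lit 595) (nat_lit 559)))) (.a (.f (nat_lit 589) (nat_lit 590) (nat_lit 1581) (.f (nat_lit 557) (nat_lit 588) (nat_lit 1580) (.f (nat_lit 524) (nat_lit 525) (nat_lit 3596) (.d (nat_lit 556) (nat_lit 523) (nat_lit 3595) (nat_lit 527) (nat_lit 2572))))) (.f (nat_lit 594) (nat_lit 593) (nat_lit 558) (.f (nat_lit 562) (nat_lit 595) (nat_lit 559) (.f (nat_lit 531) (nat_lit 530) (nat_lit 2575) (.d (nat_lit 563) (nat_lit 527) (nat_lit 3599) (nat_lit 532) (nat_lit 2576))))))))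
noncomputable def s22469 : Cert := .r (nat_lit 4717453031905620791003248182746528282804394213382763200902141095587213075108641303088566743419053253111706032595917743804753198374130109692741601756418182741657504448512) (.p (nat_lit 559) (.a (.f (nat_lit 529) (nat_lit 557) (nat_lit 2573) (.d (nat_lit 530) (nat_lit 531) (nat_lit 1551) (nat_lit 561) (nat_lit 2574))) (.a s22458 (.a (.f (nat_lit 557) (nat_lit 529) (nat_lit 2573) (.f (nat_lit 556) (nat_lit 527) (nat_lit 2572) (.d (nat_lit 524) (nat_lit 523) (nat_lit 3595) (nat_lit 525) (nat_lit 3596)))) (.p (nat_lit 561) (.a (.f (nat_lit 529) (nat_lit 530) (nat_lit 2574) (.d (nat_lit 593) (nat_lit 594) (nat_lit 558) (nat_lit 625) (nat_lit 7664))) (.a (.f (nat_lit 590) (nat_lit 589) (nat_lit 1581) (.f (nat_lit 562) (nat_lit 591) (nat_lit 1582) (.d (nat_lit 594) (nat_lit 593) (nat_lit 558) (nat_lit 595) (nat_lit 559)))) (.f (nat_lit 529) (nat_lit 530) (nat_lit 2574) (.f (nat_lit 590) (nat_lit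 589) (nat_lit 1581) (.f (nat_lit 562) (nat_lit 591) (nat_lit 1582) (.d (nat_lit 563) (nat_lit 527) (nat_lit 3599) (nat_lit 564) (nat_lit 3600))))))))))))
noncomputable def s22480 : Cert := .r (nat_lit 4717453031905620791003248182746528282804394213382763200902141095587213075108641303088566743419053253111706032595917743804753198374130109692741601756418182741657504448512) (.p (nat_lit 592) (.a (.f (nat_lit 593) (nat_lit 625) (nat_lit 4592) (.f (nat_lit 559) (nat_lit 557) (nat_lit 557) (.d (nat_lit 594) (nat_lit 561) (nat_lit 558) (nat_lit 595) (nat_lit 3631)))) (.a (.f (nat_lit 497) (nat_lit 465) (nat_lit 6608) (.f (nat_lit 624) (nat_lit 529) (nat_lit 6640) (.d (nat_lit 625) (nat_lit 593) (nat_lit 4592) (nat_lit 657) (nat_lit 4624)))) (.a (.f (nat_lit 497) (nat_lit 465) (nat_lit 6608) (.f (nat_lit 624) (nat_lit 529) (nat_lit 6640) (.f (nat_lit 655) (nat_lit 623) (nat_lit 5647) (.f (nat_lit 656) (nat_lit 687) (nat_lit 5679) (.d (nat_lit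 657) (nat_lit 625) (nat_lit 4624) (nat_lit 689) (nat_lit 4656)))))) (.f (nat_lit 497) (nat_lit 465) (nat_lit 6608) (.f (nat_lit 529) (nat_lit 624) (nat_lit 6640) (.f (nat_lit 559) (nat_lit 557) (nat_lit 2573) (.d (nat_lit 530) (nat_lit 527) (nat_lit 1550) (nat_lit 531) (nat_lit 1551)))))))))
noncomputable def s22555 : Cert := .r (nat_lit 943490607303752963885873112637680217458077575918944702130520568442211743410429832871165011909316394071404203324427380869510001201393220676171100106987855603323790950400) (.p (nat_lit 560) (.a s22108 (.a s21744 (.a s21912 (.a (.p (nat_lit 529) (.a (.f (nat_lit 559) (nat_lit 557) (nat_lit 2573) (.d (nat_lit 530) (nat_lit 531) (nat_lit 1551) (nat_lit 561) (nat_lit 2574))) (.a (.f (nat_lit 527) (nat_lit 557) (nat_lit 1549) (.f (nat_lit 562) (nat_lit 561) (nat_lit 526) (.f (nat_lit 530) (nat_lit 563) (nat_lit 527) (.f (nat_lit 531) (nat_lit 495) (nat_lit 3567) (.f (nat_lit 532) (nat_lit 497) (nat_lit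 3568) (.d (nat_lit 500) (nat_lit 499) (nat_lit 2544) (nat_lit 501) (nat_lit 2545))))))) (.a (.d (nat_lit 557) (nat_lit 527) (nat_lit 1549) (nat_lit 559) (nat_lit 2573)) (.p (nat_lit 527) (.a (.f (nat_lit 559) (nat_lit 530) (nat_lit 1550) (.f (nat_lit 561) (nat_lit 562) (nat_lit 526) (.d (nat_lit 593) (nat_lit 594) (nat_lit 558) (nat_lit 625) (nat_lit 7664)))) (.a (.f (nat_lit 562) (nat_lit 561) (nat_lit 526) (.f (nat_lit 530) (nat_lit 563) (nat_lit 527) (.f (nat_lit 531) (nat_lit 495) (nat_lit 3567) (.f (nat_lit 532) (nat_lit 497) (nat_lit 3568) (.d (nat_lit 500) (nat_lit 499) (nat_lit 2544) (nat_lit 501) (nat_lit 2545)))))) (.a (.f (nat_lit 530) (nat_lit 559) (nat_lit 1550) (.f (nat_lit 531) (nat_lit 495) (nat_lit 3567) (.d (nat_lit 563) (nat_lit 562) (nat_lit 527) (nat_lit 564) (nat_lit 528)))) (.a (.f (nat_lit 561) (nat_lit 562) (nat_lit 526) (.f (nat_lit 593) (nat_lit 625) (nat_lit 7664) (.f (nat_lit 559) (nat_lit 594) (nat_lit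 558) (.f (nat_lit 590) (nat_lit 589) (nat_lit 1581) (.d (nat_lit 495) (nat_lit 463) (nat_lit 5582) (nat_lit 622) (nat_lit 6638)))))) (.f (nat_lit 530) (nat_lit 559) (nat_lit 1550) (.f (nat_lit 531) (nat_lit 495) (nat_lit 3567) (.d (nat_lit 532) (nat_lit 497) (nat_lit 3568) (nat_lit 561) (nat_lit 1552))))))))))))) (.a (.p (nat_lit 592) (.a (.f (nat_lit 591) (nat_lit 623) (nat_lit 5615) (.f (nat_lit 593) (nat_lit 625) (nat_lit 4592) (.d (nat_lit 557) (nat_lit 559) (nat_lit 557) (nat_lit 590) (nat_lit 3629)))) (.a (.f (nat_lit 623) (nat_lit 591) (nat_lit 5615) (.f (nat_lit 624) (nat_lit 655) (nat_lit 5647) (.d (nat_lit 625) (nat_lit 593) (nat_lit 4592) (nat_lit 657) (nat_lit 4624)))) (.f (nat_lit 497) (nat_lit 465) (nat_lit 6608) (.f (nat_lit 529) (nat_lit 624) (nat_lit 6640) (.d (nat_lit 557) (nat_lit 527) (nat_lit 1549) (nat_lit 559) (nat_lit 2573))))))) (.a (.p (nat_lit 527) (.a (.f (nat_lit 529) (nat_lit 557) (nat_lit 1549) (.f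 (nat_lit 559) (nat_lit 530) (nat_lit 1550) (.f (nat_lit 561) (nat_lit 562) (nat_lit 526) (.f (nat_lit 590) (nat_lit 589) (nat_lit 1581) (.d (nat_lit 495) (nat_lit 463) (nat_lit 5582) (nat_lit 622) (nat_lit 6638)))))) (.a (.p (nat_lit 592) (.a (.d (nat_lit 495) (nat_lit 463) (nat_lit 7631) (nat_lit 624) (nat_lit 7663)) (.a (.f (nat_lit 623) (nat_lit 591) (nat_lit 5615) (.f (nat_lit 624) (nat_lit 655) (nat_lit 5647) (.f (nat_lit 559) (nat_lit 656) (nat_lit 7695) (.f (nat_lit 557) (nat_lit 556) (nat_lit 2572) (.f (nat_lit 589) (nat_lit 588) (nat_lit 1580) (.d (nat_lit 561) (nat_lit 562) (nat_lit 3598) (nat_lit 590) (nat_lit 1581))))))) (.f (nat_lit 495) (nat_lit 463) (nat_lit 7631) (.f (nat_lit 591) (nat_lit 623) (nat_lit 5615) (.f (nat_lit 590) (nat_lit 622) (nat_lit 6638) (.f (nat_lit 589) (nat_lit 561) (nat_lit 2605) (.f (nat_lit 557) (nat_lit 556) (nat_lit 3628) (.d (nat_lit 621) (nat_lit 620) (nat_lit 1612) (nat_lit 653) (nat_lit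 6669)))))))))) (.a (.f (nat_lit 529) (nat_lit 557) (nat_lit 1549) (.f (nat_lit 559) (nat_lit 530) (nat_lit 1550) (.f (nat_lit 561) (nat_lit 562) (nat_lit 526) (.f (nat_lit 623) (nat_lit 591) (nat_lit 6639) (.f (nat_lit 590) (nat_lit 589) (nat_lit 1581) (.d (nat_lit 622) (nat_lit 654) (nat_lit 6670) (nat_lit 655) (nat_lit 4622))))))) (.a (.f (nat_lit 529) (nat_lit 557) (nat_lit 1549) (.f (nat_lit 562) (nat_lit 561) (nat_lit 526) (.f (nat_lit 530) (nat_lit 563) (nat_lit 527) (.f (nat_lit 495) (nat_lit 531) (nat_lit 3567) (.d (nat_lit 463) (nat_lit 431) (nat_lit 5550) (nat_lit 592) (nat_lit 7631)))))) (.a (.f (nat_lit 529) (nat_lit 557) (nat_lit 1549) (.f (nat_lit 530) (nat_lit 559) (nat_lit 1550) (.f (nat_lit 495) (nat_lit 531) (nat_lit 3567) (.d (nat_lit 463) (nat_lit 431) (nat_lit 5550) (nat_lit 592) (nat_lit 7631))))) (.p (nat_lit 592) (.a (.d (nat_lit 495) (nat_lit 463) (nat_lit 7631) (nat_lit 624) (nat_lit 7663)) (.a (.f (nat_lit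 623) (nat_lit 591) (nat_lit 5615) (.f (nat_lit 624) (nat_lit 655) (nat_lit 5647) (.d (nat_lit 497) (nat_lit 465) (nat_lit 6608) (nat_lit 529) (nat_lit 6640)))) (.f (nat_lit 495) (nat_lit 463) (nat_lit 7631) (.f (nat_lit 591) (nat_lit 623) (nat_lit 5615) (.f (nat_lit 590) (nat_lit 622) (nat_lit 6638) (.f (nat_lit 561) (nat_lit 589) (nat_lit 2605) (.d (nat_lit 562) (nat_lit 529) (nat_lit 526) (nat_lit 559) (nat_lit 3598))))))))))))))) (.a s22216 (.p (nat_lit 592) (.a (.f (nat_lit 593) (nat_lit 625) (nat_lit 4592) (.f (nat_lit 559) (nat_lit 557) (nat_lit 557) (.d (nat_lit 594) (nat_lit 561) (nat_lit 558) (nat_lit 595) (nat_lit 3631)))) (.a (.f (nat_lit 497) (nat_lit 465) (nat_lit 6608) (.f (nat_lit 624) (nat_lit 529) (nat_lit 6640) (.d (nat_lit 625) (nat_lit 593) (nat_lit 4592) (nat_lit 657) (nat_lit 4624)))) (.f (nat_lit 497) (nat_lit 465) (nat_lit 6608) (.f (nat_lit 529) (nat_lit 624) (nat_lit 6640) (.d (nat_lit 557) (nat_lit 527)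 (nat_lit 1549) (nat_lit 559) (nat_lit 2573)))))))))))))))
noncomputable def s22556 : Cert := .r (nat_lit 943490607303752963937019840886057434177033664931875938883905600411634630746106260497667102478139433991455298517019633324992605640886346785690119740517314869782049193984) (.p (nat_lit 462) (.a (.f (nat_lit 463) (nat_lit 431) (nat_lit 6574) (.f (nat_lit 495) (nat_lit 590) (nat_lit 6606) (.d (nat_lit 461) (nat_lit 429) (nat_lit 7597) (nat_lit 460) (nat_lit 460)))) (.a (.f (nat_lit 429) (nat_lit 461) (nat_lit 7597) (.f (nat_lit 430) (nat_lit 397) (nat_lit 7565) (.d (nat_lit 431) (nat_lit 399) (nat_lit 6542) (nat_lit 463) (nat_lit 6574)))) (.a (.f (nat_lit 461) (nat_lit 429) (nat_lit 7597) (.f (nat_lit 590) (nat_lit 493) (nat_lit 7629) (.d (nat_lit 589) (nat_lit 557) (nat_lit 5581) (nat_lit 621) (nat_lit 5613)))) (.f (nat_lit 463) (nat_lit 431) (nat_lit 6574) (.f (nat_lit 590) (nat_lit 495) (nat_lit 6606) (.d (nat_lit 589) (nat_lit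 557) (nat_lit 5581) (nat_lit 621) (nat_lit 5613))))))))
noncomputable def s22558 : Cert := .r (nat_lit 943490607303752963885873112637680217458077575918944702130520568442211743410429832871165011909316394071404203324427380869510001201393220676171100106987855603323790950400) (.p (nat_lit 494) (.a s19071 (.a (.p (nat_lit 462) (.a (.f (nat_lit 429) (nat_lit 461) (nat_lit 7597) (.f (nat_lit 430) (nat_lit 397) (nat_lit 7565) (.d (nat_lit 431) (nat_lit 399) (nat_lit 6542) (nat_lit 463) (nat_lit 6574)))) (.a (.f (nat_lit 591) (nat_lit 559) (nat_lit 4558) (.f (nat_lit 590) (nat_lit 623) (nat_lit 4590) (.d (nat_lit 461) (nat_lit 429) (nat_lit 7597) (nat_lit 493) (nat_lit 7629)))) (.f (nat_lit 589) (nat_lit 557) (nat_lit 5581) (.f (nat_lit 590) (nat_lit 621) (nat_lit 5613) (.d (nat_lit 591) (nat_lit 559) (nat_lit 4558) (nat_lit 623) (nat_lit 4590))))))) (.a (.p (nat_lit 590) (.a (.f (nat_lit 495) (nat_lit 463) (nat_lit 6606) (.f (nat_lit 527)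 (nat_lit 622) (nat_lit 6638) (.d (nat_lit 493) (nat_lit 461) (nat_lit 7629) (nat_lit 492) (nat_lit 492)))) (.a (.f (nat_lit 495) (nat_lit 463) (nat_lit 6606) (.d (nat_lit 493) (nat_lit 461) (nat_lit 7629) (nat_lit 529) (nat_lit 493))) (.f (nat_lit 623) (nat_lit 591) (nat_lit 4590) (.f (nat_lit 622) (nat_lit 655) (nat_lit 4622) (.d (nat_lit 621) (nat_lit 589) (nat_lit 5613) (nat_lit 653) (nat_lit 5645))))))) (.a (.p (nat_lit 462) (.a (.f (nat_lit 559) (nat_lit 591) (nat_lit 4558) (.f (nat_lit 527) (nat_lit 430) (nat_lit 4526) (.d (nat_lit 557) (nat_lit 556) (nat_lit 2572) (nat_lit 589) (nat_lit 5581)))) (.a (.f (nat_lit 463) (nat_lit 431) (nat_lit 6574) (.f (nat_lit 590) (nat_lit 495) (nat_lit 6606) (.d (nat_lit 589) (nat_lit 557) (nat_lit 5581) (nat_lit 621) (nat_lit 5613)))) (.f (nat_lit 559) (nat_lit 591) (nat_lit 4558) (.f (nat_lit 430) (nat_lit 527) (nat_lit 4526) (.d (nat_lit 431) (nat_lit 399) (nat_lit 6542) (nat_lit 463) (nat_lit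 6574))))))) (.a s22556 (.a (.p (nat_lit 462) (.a (.f (nat_lit 591) (nat_lit 559) (nat_lit 4558) (.f (nat_lit 590) (nat_lit 623) (nat_lit 4590) (.d (nat_lit 461) (nat_lit 429) (nat_lit 7597) (nat_lit 493) (nat_lit 7629)))) (.a (.f (nat_lit 461) (nat_lit 429) (nat_lit 7597) (.f (nat_lit 590) (nat_lit 493) (nat_lit 7629) (.d (nat_lit 589) (nat_lit 557) (nat_lit 5581) (nat_lit 621) (nat_lit 5613)))) (.f (nat_lit 559) (nat_lit 591) (nat_lit 4558) (.f (nat_lit 527) (nat_lit 430) (nat_lit 4526) (.d (nat_lit 557) (nat_lit 556) (nat_lit 2572) (nat_lit 589) (nat_lit 5581))))))) (.a s21687 s19155))))))))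
noncomputable def s22562 : Cert := .r (nat_lit 943490607303752963937019840886057434177033664931875938883905600411634630746106260497667102478139433991455298517019633324992605640886346785690119740517314869782049193984) (.p (nat_lit 590) (.a (.f (nat_lit 495) (nat_lit 463) (nat_lit 6606) (.f (nat_lit 527) (nat_lit 622) (nat_lit 6638) (.d (nat_lit 493) (nat_lit 461) (nat_lit 7629) (nat_lit 492) (nat_lit 492)))) (.a (.f (nat_lit 495) (nat_lit 463) (nat_lit 6606) (.d (nat_lit 493) (nat_lit 461) (nat_lit 7629) (nat_lit 529) (nat_lit 493))) (.a (.f (nat_lit 493) (nat_lit 461) (nat_lit 7629) (.f (nat_lit 527) (nat_lit 529) (nat_lit 3565) (.f (nat_lit 621) (nat_lit 589) (nat_lit 5613) (.f (nat_lit 622) (nat_lit 653) (nat_lit 5645) (.f (nat_lit 654) (nat_lit 559) (nat_lit 6670) (.d (nat_lit 655) (nat_lit 623) (nat_lit 4622) (nat_lit 687) (nat_lit 4654))))))) (.f (nat_lit 495) (nat_lit 463) (nat_lit 6606) (.f (nat_lit 527) (nat_lit 622) (nat_lit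 6638) (.d (nat_lit 529) (nat_lit 530) (nat_lit 3566) (nat_lit 557) (nat_lit 1549))))))))
noncomputable def s22564 : Cert := .r (nat_lit 943490607303752963885873112637680217458077575918944702130520568442211743410429832871165011909316394071404203324427380869510001201393220676171100106987855603323790950400) (.p (nat_lit 494) (.a s19098 (.a s21569 (.a (.p (nat_lit 462) (.a (.f (nat_lit 429) (nat_lit 461) (nat_lit 7597) (.f (nat_lit 430) (nat_lit 397) (nat_lit 7565) (.d (nat_lit 431) (nat_lit 399) (nat_lit 6542) (nat_lit 463) (nat_lit 6574)))) (.a (.f (nat_lit 461) (nat_lit 429) (nat_lit 7597) (.f (nat_lit 590) (nat_lit 493) (nat_lit 7629) (.d (nat_lit 589) (nat_lit 557) (nat_lit 5581) (nat_lit 621) (nat_lit 5613)))) (.f (nat_lit 557) (nat_lit 589) (nat_lit 5581) (.f (nat_lit 527) (nat_lit 529) (nat_lit 1549) (.d (nat_lit 556) (nat_lit 555) (nat_lit 2571) (nat_lit 559) (nat_lit 2572))))))) (.a (.p (nat_lit 462) (.a (.f (nat_lit 461) (nat_lit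 429) (nat_lit 7597) (.f (nat_lit 495) (nat_lit 497) (nat_lit 3533) (.d (nat_lit 460) (nat_lit 459) (nat_lit 459) (nat_lit 463) (nat_lit 460)))) (.a (.f (nat_lit 429) (nat_lit 461) (nat_lit 7597) (.f (nat_lit 430) (nat_lit 397) (nat_lit 7565) (.d (nat_lit 431) (nat_lit 399) (nat_lit 6542) (nat_lit 463) (nat_lit 6574)))) (.f (nat_lit 557) (nat_lit 589) (nat_lit 5581) (.f (nat_lit 527) (nat_lit 529) (nat_lit 1549) (.d (nat_lit 556) (nat_lit 555) (nat_lit 2571) (nat_lit 559) (nat_lit 2572))))))) (.a (.p (nat_lit 462) (.a (.f (nat_lit 461) (nat_lit 429) (nat_lit 7597) (.f (nat_lit 493) (nat_lit 590) (nat_lit 7629) (.d (nat_lit 495) (nat_lit 460) (nat_lit 3532) (nat_lit 497) (nat_lit 3533)))) (.a (.f (nat_lit 461) (nat_lit 429) (nat_lit 7597) (.f (nat_lit 590) (nat_lit 493) (nat_lit 7629) (.d (nat_lit 589) (nat_lit 557) (nat_lit 5581) (nat_lit 621) (nat_lit 5613)))) (.f (nat_lit 557) (nat_lit 589) (nat_lit 5581) (.f (nat_lit 527) (nat_lit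 529) (nat_lit 1549) (.d (nat_lit 556) (nat_lit 555) (nat_lit 2571) (nat_lit 559) (nat_lit 2572))))))) (.a s22562 (.p (nat_lit 462) (.a (.f (nat_lit 463) (nat_lit 431) (nat_lit 6574) (.f (nat_lit 495) (nat_lit 590) (nat_lit 6606) (.f (nat_lit 529) (nat_lit 493) (nat_lit 493) (.d (nat_lit 530) (nat_lit 497) (nat_lit 494) (nat_lit 531) (nat_lit 3567))))) (.a (.f (nat_lit 463) (nat_lit 431) (nat_lit 6574) (.f (nat_lit 590) (nat_lit 495) (nat_lit 6606) (.d (nat_lit 589) (nat_lit 557) (nat_lit 5581) (nat_lit 621) (nat_lit 5613)))) (.f (nat_lit 557) (nat_lit 589) (nat_lit 5581) (.f (nat_lit 527) (nat_lit 529) (nat_lit 1549) (.d (nat_lit 556) (nat_lit 555) (nat_lit 2571) (nat_lit 559) (nat_lit 2572))))))))))))))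
noncomputable def s22579 : Cert := .r (nat_lit 943490607303752963937019840886057434177033664931875938883905600411634630746106260497667102478139433991455298517019633324992605640886346785690119740517314869782049193984) (.p (nat_lit 590) (.a (.f (nat_lit 623) (nat_lit 591) (nat_lit 4590) (.f (nat_lit 622) (nat_lit 655) (nat_lit 4622) (.d (nat_lit 621) (nat_lit 589) (nat_lit 5613) (nat_lit 653) (nat_lit 5645)))) (.a (.f (nat_lit 493) (nat_lit 461) (nat_lit 7629) (.f (nat_lit 527) (nat_lit 529) (nat_lit 3565) (.f (nat_lit 621) (nat_lit 589) (nat_lit 5613) (.f (nat_lit 622) (nat_lit 653) (nat_lit 5645) (.f (nat_lit 654) (nat_lit 559) (nat_lit 6670) (.d (nat_lit 655) (nat_lit 623) (nat_lit 4622) (nat_lit 687) (nat_lit 4654))))))) (.f (nat_lit 493) (nat_lit 461) (nat_lit 7629) (.d (nat_lit 529) (nat_lit 495) (nat_lit 493) (nat_lit 527) (nat_lit 3565))))))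
noncomputable def s22581 : Cert := .r (nat_lit 943490607303752963937019840886057434177033664931875938883905600411634630746106260497667102478139433991455298517019633324992605640886346785690119740517314869782049193984) (.p (nat_lit 462) (.a (.f (nat_lit 461) (nat_lit 429) (nat_lit 7597) (.f (nat_lit 493) (nat_lit 590) (nat_lit 7629) (.d (nat_lit 495) (nat_lit 460) (nat_lit 3532) (nat_lit 497) (nat_lit 3533)))) (.a (.f (nat_lit 591) (nat_lit 559) (nat_lit 4558) (.f (nat_lit 590) (nat_lit 623) (nat_lit 4590) (.d (nat_lit 461) (nat_lit 429) (nat_lit 7597) (nat_lit 493) (nat_lit 7629)))) (.a (.f (nat_lit 559) (nat_lit 591) (nat_lit 4558) (.f (nat_lit 430) (nat_lit 527) (nat_lit 4526) (.d (nat_lit 429) (nat_lit 397) (nat_lit 7565) (nat_lit 461) (nat_lit 7597)))) (.f (nat_lit 559) (nat_lit 591) (nat_lit 4558) (.f (nat_lit 527) (nat_lit 430) (nat_lit 4526) (.d (nat_lit 529) (nat_lit 493) (nat_lit 3565) (nat_lit 530) (nat_lit 1550))))))))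
noncomputable def s22582 : Cert := .r (nat_lit 943490607303752963885873112637680217458077575918944702130520568442211743410429832871165011909316394071404203324427380869510001201393220676171100106987855603323790950400) (.p (nat_lit 494) (.a (.p (nat_lit 462) (.a (.f (nat_lit 461) (nat_lit 429) (nat_lit 7597) (.f (nat_lit 493) (nat_lit 590) (nat_lit 7629) (.d (nat_lit 495) (nat_lit 460) (nat_lit 3532) (nat_lit 497) (nat_lit 3533)))) (.a (.f (nat_lit 591) (nat_lit 559) (nat_lit 4558) (.f (nat_lit 590) (nat_lit 623) (nat_lit 4590) (.d (nat_lit 461) (nat_lit 429) (nat_lit 7597) (nat_lit 493) (nat_lit 7629)))) (.f (nat_lit 559) (nat_lit 591) (nat_lit 4558) (.f (nat_lit 527) (nat_lit 430) (nat_lit 4526) (.d (nat_lit 557) (nat_lit 556) (nat_lit 2572) (nat_lit 589) (nat_lit 5581))))))) (.a s21571 (.a (.p (nat_lit 462) (.a (.f (nat_lit 591) (nat_lit 559) (nat_lit 4558) (.f (nat_lit 590) (nat_lit 623) (nat_lit 4590) (.d (nat_lit 461) (nat_lit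 429) (nat_lit 7597) (nat_lit 493) (nat_lit 7629)))) (.a (.f (nat_lit 461) (nat_lit 429) (nat_lit 7597) (.f (nat_lit 590) (nat_lit 493) (nat_lit 7629) (.d (nat_lit 589) (nat_lit 557) (nat_lit 5581) (nat_lit 621) (nat_lit 5613)))) (.f (nat_lit 559) (nat_lit 591) (nat_lit 4558) (.f (nat_lit 527) (nat_lit 430) (nat_lit 4526) (.d (nat_lit 557) (nat_lit 556) (nat_lit 2572) (nat_lit 589) (nat_lit 5581))))))) (.a (.p (nat_lit 462) (.a (.f (nat_lit 461) (nat_lit 429) (nat_lit 7597) (.f (nat_lit 493) (nat_lit 590) (nat_lit 7629) (.d (nat_lit 495) (nat_lit 460) (nat_lit 3532) (nat_lit 497) (nat_lit 3533)))) (.a (.f (nat_lit 461) (nat_lit 429) (nat_lit 7597) (.f (nat_lit 590) (nat_lit 493) (nat_lit 7629) (.d (nat_lit 589) (nat_lit 557) (nat_lit 5581) (nat_lit 621) (nat_lit 5613)))) (.a (.f (nat_lit 461) (nat_lit 429) (nat_lit 7597) (.f (nat_lit 495) (nat_lit 497) (nat_lit 3533) (.f (nat_lit 589) (nat_lit 557) (nat_lit 5581) (.f (nat_lit 590)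 (nat_lit 621) (nat_lit 5613) (.f (nat_lit 527) (nat_lit 622) (nat_lit 6638) (.f (nat_lit 529) (nat_lit 530) (nat_lit 3566) (.f (nat_lit 591) (nat_lit 623) (nat_lit 4590) (.f (nat_lit 561) (nat_lit 562) (nat_lit 526) (.f (nat_lit 592) (nat_lit 560) (nat_lit 2605) (.d (nat_lit 625) (nat_lit 593) (nat_lit 7664) (nat_lit 624) (nat_lit 589))))))))))) (.a (.f (nat_lit 461) (nat_lit 429) (nat_lit 7597) (.f (nat_lit 495) (nat_lit 497) (nat_lit 3533) (.d (nat_lit 460) (nat_lit 459) (nat_lit 459) (nat_lit 493) (nat_lit 3532)))) (.f (nat_lit 557) (nat_lit 589) (nat_lit 5581) (.f (nat_lit 529) (nat_lit 527) (nat_lit 1549) (.f (nat_lit 495) (nat_lit 493) (nat_lit 493) (.d (nat_lit 530) (nat_lit 497) (nat_lit 494) (nat_lit 531) (nat_lit 3567)))))))))) (.a (.p (nat_lit 462) (.a (.f (nat_lit 559) (nat_lit 591) (nat_lit 4558) (.f (nat_lit 527) (nat_lit 430) (nat_lit 4526) (.d (nat_lit 557) (nat_lit 556) (nat_lit 2572) (nat_lit 589) (nat_lit 5581))))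 (.a (.f (nat_lit 589) (nat_lit 557) (nat_lit 5581) (.f (nat_lit 590) (nat_lit 621) (nat_lit 5613) (.d (nat_lit 591) (nat_lit 559) (nat_lit 4558) (nat_lit 623) (nat_lit 4590)))) (.a (.f (nat_lit 461) (nat_lit 429) (nat_lit 7597) (.f (nat_lit 495) (nat_lit 497) (nat_lit 3533) (.f (nat_lit 589) (nat_lit 557) (nat_lit 5581) (.f (nat_lit 590) (nat_lit 621) (nat_lit 5613) (.f (nat_lit 527) (nat_lit 622) (nat_lit 6638) (.f (nat_lit 529) (nat_lit 530) (nat_lit 3566) (.f (nat_lit 591) (nat_lit 623) (nat_lit 4590) (.f (nat_lit 561) (nat_lit 562) (nat_lit 526) (.f (nat_lit 592) (nat_lit 560) (nat_lit 2605) (.d (nat_lit 625) (nat_lit 593) (nat_lit 7664) (nat_lit 624) (nat_lit 589))))))))))) (.a (.f (nat_lit 557) (nat_lit 589) (nat_lit 5581) (.f (nat_lit 527) (nat_lit 529) (nat_lit 1549) (.d (nat_lit 556) (nat_lit 555) (nat_lit 2571) (nat_lit 559) (nat_lit 2572)))) (.f (nat_lit 559) (nat_lit 591) (nat_lit 4558) (.f (nat_lit 430) (nat_lit 527)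 (nat_lit 4526) (.d (nat_lit 429) (nat_lit 397) (nat_lit 7565) (nat_lit 461) (nat_lit 7597))))))))) (.a (.p (nat_lit 462) (.a (.f (nat_lit 461) (nat_lit 429) (nat_lit 7597) (.f (nat_lit 493) (nat_lit 590) (nat_lit 7629) (.d (nat_lit 495) (nat_lit 460) (nat_lit 3532) (nat_lit 497) (nat_lit 3533)))) (.a (.f (nat_lit 461) (nat_lit 429) (nat_lit 7597) (.f (nat_lit 590) (nat_lit 493) (nat_lit 7629) (.d (nat_lit 589) (nat_lit 557) (nat_lit 5581) (nat_lit 621) (nat_lit 5613)))) (.f (nat_lit 557) (nat_lit 589) (nat_lit 5581) (.f (nat_lit 527) (nat_lit 529) (nat_lit 1549) (.d (nat_lit 556) (nat_lit 555) (nat_lit 2571) (nat_lit 559) (nat_lit 2572))))))) (.a s22579 (.a (.p (nat_lit 462) (.a (.f (nat_lit 559) (nat_lit 591) (nat_lit 4558) (.f (nat_lit 527) (nat_lit 430) (nat_lit 4526) (.d (nat_lit 557) (nat_lit 556) (nat_lit 2572) (nat_lit 589) (nat_lit 5581)))) (.f (nat_lit 461) (nat_lit 429) (nat_lit 7597) (.f (nat_lit 495) (nat_lit 497) (nat_lit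 3533) (.d (nat_lit 460) (nat_lit 459) (nat_lit 459) (nat_lit 493) (nat_lit 3532)))))) (.a (.p (nat_lit 462) (.a (.f (nat_lit 559) (nat_lit 591) (nat_lit 4558) (.f (nat_lit 527) (nat_lit 430) (nat_lit 4526) (.d (nat_lit 557) (nat_lit 556) (nat_lit 2572) (nat_lit 589) (nat_lit 5581)))) (.a (.f (nat_lit 589) (nat_lit 557) (nat_lit 5581) (.f (nat_lit 590) (nat_lit 621) (nat_lit 5613) (.d (nat_lit 591) (nat_lit 559) (nat_lit 4558) (nat_lit 623) (nat_lit 4590)))) (.a (.f (nat_lit 557) (nat_lit 589) (nat_lit 5581) (.f (nat_lit 529) (nat_lit 527) (nat_lit 1549) (.f (nat_lit 495) (nat_lit 493) (nat_lit 493) (.d (nat_lit 530) (nat_lit 497) (nat_lit 494) (nat_lit 531) (nat_lit 3567))))) (.f (nat_lit 559) (nat_lit 591) (nat_lit 4558) (.f (nat_lit 527) (nat_lit 430) (nat_lit 4526) (.d (nat_lit 529) (nat_lit 493) (nat_lit 3565) (nat_lit 530) (nat_lit 1550)))))))) s22581))))))))))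
noncomputable def s22583 : Cert := .r (nat_lit 943490607303752963937019840886057434177033664931875938883905600411634630746106260497667102478139433991455298517019633324992605640886346785690119740517314869782049193984) (.p (nat_lit 462) (.a (.f (nat_lit 463) (nat_lit 431) (nat_lit 6574) (.f (nat_lit 495) (nat_lit 590) (nat_lit 6606) (.d (nat_lit 461) (nat_lit 429) (nat_lit 7597) (nat_lit 460) (nat_lit 460)))) (.a (.f (nat_lit 429) (nat_lit 461) (nat_lit 7597) (.f (nat_lit 430) (nat_lit 397) (nat_lit 7565) (.d (nat_lit 431) (nat_lit 399) (nat_lit 6542) (nat_lit 463) (nat_lit 6574)))) (.a (.f (nat_lit 559) (nat_lit 591) (nat_lit 4558) (.f (nat_lit 430) (nat_lit 527) (nat_lit 4526) (.d (nat_lit 429) (nat_lit 397) (nat_lit 7565) (nat_lit 461) (nat_lit 7597)))) (.f (nat_lit 559) (nat_lit 591) (nat_lit 4558) (.f (nat_lit 430) (nat_lit 527) (nat_lit 4526) (.d (nat_lit 431) (nat_lit 399) (nat_lit 6542) (nat_lit 463) (nat_lit 6574))))))))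
noncomputable def s22584 : Cert := .r (nat_lit 943490607303752963937019840886057434177033664931875938883905600411634630746106260497667102478139433991455298517019633324992605640886346785690119740517314869782049193984) (.p (nat_lit 462) (.a (.f (nat_lit 429) (nat_lit 461) (nat_lit 7597) (.f (nat_lit 430) (nat_lit 397) (nat_lit 7565) (.d (nat_lit 431) (nat_lit 399) (nat_lit 6542) (nat_lit 463) (nat_lit 6574)))) (.a (.f (nat_lit 559) (nat_lit 591) (nat_lit 4558) (.f (nat_lit 527) (nat_lit 430) (nat_lit 4526) (.d (nat_lit 529) (nat_lit 493) (nat_lit 3565) (nat_lit 530) (nat_lit 1550)))) (.f (nat_lit 461) (nat_lit 429) (nat_lit 7597) (.f (nat_lit 463) (nat_lit 431) (nat_lit 6574) (.f (nat_lit 460) (nat_lit 495) (nat_lit 460) (.f (nat_lit 491) (nat_lit 492) (nat_lit 1483) (.f (nat_lit 459) (nat_lit 490) (nat_lit 1482) (.d (nat_lit 427) (nat_lit 426) (nat_lit 3498) (nat_lit 428) (nat_lit 3499))))))))))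
noncomputable def s22585 : Cert := .r (nat_lit 943490607303752963885873112637680217458077575918944702130520568442211743410429832871165011909316394071404203324427380869510001201393220676171100106987855603323790950400) (.p (nat_lit 494) (.a s19098 (.a (.p (nat_lit 462) (.a (.f (nat_lit 429) (nat_lit 461) (nat_lit 7597) (.f (nat_lit 430) (nat_lit 397) (nat_lit 7565) (.d (nat_lit 431) (nat_lit 399) (nat_lit 6542) (nat_lit 463) (nat_lit 6574)))) (.a (.f (nat_lit 591) (nat_lit 559) (nat_lit 4558) (.f (nat_lit 590) (nat_lit 623) (nat_lit 4590) (.d (nat_lit 461) (nat_lit 429) (nat_lit 7597) (nat_lit 493) (nat_lit 7629)))) (.f (nat_lit 559) (nat_lit 591) (nat_lit 4558) (.f (nat_lit 430) (nat_lit 527) (nat_lit 4526) (.d (nat_lit 431) (nat_lit 399) (nat_lit 6542) (nat_lit 463) (nat_lit 6574))))))) (.a s22583 (.a s22579 (.a s22584 (.p (nat_lit 590) (.a (.f (nat_lit 623) (nat_lit 591) (nat_lit 4590) (.f (nat_lit 622) (nat_lit 655) (nat_lit 4622)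 (.d (nat_lit 621) (nat_lit 589) (nat_lit 5613) (nat_lit 653) (nat_lit 5645)))) (.f (nat_lit 495) (nat_lit 463) (nat_lit 6606) (.f (nat_lit 529) (nat_lit 493) (nat_lit 493) (.d (nat_lit 530) (nat_lit 497) (nat_lit 494) (nat_lit 531) (nat_lit 3567))))))))))))
noncomputable def s22590 : Cert := .r (nat_lit 943490607303752963885873112637680217458077575918944702130520568442211743410429832871165011909316394071404203324427380869510001201393220676171100106987855603323790950400) (.p (nat_lit 494) (.a s19070 (.a s19098 (.a s21687 (.a (.p (nat_lit 462) (.a (.f (nat_lit 559) (nat_lit 591) (nat_lit 4558) (.f (nat_lit 527) (nat_lit 430) (nat_lit 4526) (.d (nat_lit 557) (nat_lit 556) (nat_lit 2572) (nat_lit 589) (nat_lit 5581)))) (.f (nat_lit 461) (nat_lit 429) (nat_lit 7597) (.f (nat_lit 495) (nat_lit 497) (nat_lit 3533) (.d (nat_lit 460) (nat_lit 459) (nat_lit 459) (nat_lit 493) (nat_lit 3532)))))) (.p (nat_lit 529) (.a (.f (nat_lit 527) (nat_lit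 557) (nat_lit 1549) (.d (nat_lit 530) (nat_lit 495) (nat_lit 3566) (nat_lit 559) (nat_lit 1550))) (.a (.f (nat_lit 495) (nat_lit 493) (nat_lit 493) (.d (nat_lit 530) (nat_lit 497) (nat_lit 494) (nat_lit 531) (nat_lit 3567))) (.d (nat_lit 527) (nat_lit 493) (nat_lit 3565) (nat_lit 557) (nat_lit 1549))))))))))
noncomputable def s22591 : Cert := .r (nat_lit 943490607303752963937019840886057434177033664931875938883905600411634630746106260497667102478139433991455298517019633324992605640886346785690119740517314869782049193984) (.p (nat_lit 462) (.a (.f (nat_lit 461) (nat_lit 429) (nat_lit 7597) (.f (nat_lit 495) (nat_lit 497) (nat_lit 3533) (.d (nat_lit 460) (nat_lit 459) (nat_lit 459) (nat_lit 463) (nat_lit 460)))) (.a (.f (nat_lit 429) (nat_lit 461) (nat_lit 7597) (.f (nat_lit 430) (nat_lit 397) (nat_lit 7565) (.d (nat_lit 431) (nat_lit 399) (nat_lit 6542) (nat_lit 463) (nat_lit 6574)))) (.a (.f (nat_lit 461) (nat_lit 429) (nat_lit 7597)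 (.f (nat_lit 495) (nat_lit 497) (nat_lit 3533) (.d (nat_lit 460) (nat_lit 459) (nat_lit 459) (nat_lit 493) (nat_lit 3532)))) (.f (nat_lit 557) (nat_lit 589) (nat_lit 5581) (.f (nat_lit 529) (nat_lit 527) (nat_lit 1549) (.f (nat_lit 495) (nat_lit 493) (nat_lit 493) (.d (nat_lit 530) (nat_lit 497) (nat_lit 494) (nat_lit 531) (nat_lit 3567)))))))))
noncomputable def s22592 : Cert := .r (nat_lit 943490607303752963885873112637680217458077575918944702130520568442211743410429832871165011909316394071404203324427380869510001201393220676171100106987855603323790950400) (.p (nat_lit 494) (.a (.p (nat_lit 462) (.a (.f (nat_lit 461) (nat_lit 429) (nat_lit 7597) (.f (nat_lit 495) (nat_lit 497) (nat_lit 3533) (.d (nat_lit 460) (nat_lit 459) (nat_lit 459) (nat_lit 463) (nat_lit 460)))) (.a (.f (nat_lit 429) (nat_lit 461) (nat_lit 7597) (.f (nat_lit 430) (nat_lit 397) (nat_lit 7565) (.d (nat_lit 431) (nat_lit 399) (nat_lit 6542) (nat_lit 463) (nat_lit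 6574)))) (.f (nat_lit 559) (nat_lit 591) (nat_lit 4558) (.f (nat_lit 527) (nat_lit 430) (nat_lit 4526) (.d (nat_lit 557) (nat_lit 556) (nat_lit 2572) (nat_lit 589) (nat_lit 5581))))))) (.a s21904 (.a s21687 (.a s22591 (.a (.p (nat_lit 462) (.a (.f (nat_lit 559) (nat_lit 591) (nat_lit 4558) (.f (nat_lit 527) (nat_lit 430) (nat_lit 4526) (.d (nat_lit 557) (nat_lit 556) (nat_lit 2572) (nat_lit 589) (nat_lit 5581)))) (.f (nat_lit 461) (nat_lit 429) (nat_lit 7597) (.f (nat_lit 495) (nat_lit 497) (nat_lit 3533) (.d (nat_lit 460) (nat_lit 459) (nat_lit 459) (nat_lit 493) (nat_lit 3532)))))) (.a s22584 (.p (nat_lit 529) (.a (.f (nat_lit 527) (nat_lit 557) (nat_lit 1549) (.d (nat_lit 530) (nat_lit 495) (nat_lit 3566) (nat_lit 559) (nat_lit 1550))) (.a (.f (nat_lit 495) (nat_lit 493) (nat_lit 493) (.d (nat_lit 530) (nat_lit 497) (nat_lit 494) (nat_lit 531) (nat_lit 3567))) (.d (nat_lit 527) (nat_lit 493) (nat_lit 3565) (nat_lit 557) (nat_lit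 1549))))))))))))
noncomputable def s22593 : Cert := .r (nat_lit 943490607303752963885873112637680217458077575918944702130520568442211743410429832871165011909316394071404203324427380869510001201393220676171100106987855603323790950400) (.p (nat_lit 494) (.a s19098 (.a (.p (nat_lit 462) (.a (.f (nat_lit 429) (nat_lit 461) (nat_lit 7597) (.f (nat_lit 430) (nat_lit 397) (nat_lit 7565) (.d (nat_lit 431) (nat_lit 399) (nat_lit 6542) (nat_lit 463) (nat_lit 6574)))) (.a (.f (nat_lit 591) (nat_lit 559) (nat_lit 4558) (.f (nat_lit 590) (nat_lit 623) (nat_lit 4590) (.d (nat_lit 461) (nat_lit 429) (nat_lit 7597) (nat_lit 493) (nat_lit 7629)))) (.f (nat_lit 559) (nat_lit 591) (nat_lit 4558) (.f (nat_lit 430) (nat_lit 527) (nat_lit 4526) (.d (nat_lit 431) (nat_lit 399) (nat_lit 6542) (nat_lit 463) (nat_lit 6574))))))) (.a s22583 (.a s22581 (.p (nat_lit 529) (.a (.f (nat_lit 527) (nat_lit 557) (nat_lit 1549) (.d (nat_lit 530) (nat_lit 495) (nat_lit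 3566) (nat_lit 559) (nat_lit 1550))) (.a (.f (nat_lit 495) (nat_lit 493) (nat_lit 493) (.d (nat_lit 530) (nat_lit 497) (nat_lit 494) (nat_lit 531) (nat_lit 3567))) (.d (nat_lit 527) (nat_lit 493) (nat_lit 3565) (nat_lit 557) (nat_lit 1549))))))))))
noncomputable def s22598 : Cert := .r (nat_lit 4717453032125294316127427693625949108374998796335385130506726868687835905802578684957291737086975161612872578355191225769280585831318013308732534358420551646973186277376) (.p (nat_lit 592) (.a (.f (nat_lit 591) (nat_lit 623) (nat_lit 5615) (.f (nat_lit 593) (nat_lit 625) (nat_lit 4592) (.d (nat_lit 557) (nat_lit 559) (nat_lit 557) (nat_lit 590) (nat_lit 3629)))) (.a (.f (nat_lit 623) (nat_lit 591) (nat_lit 5615) (.f (nat_lit 624) (nat_lit 655) (nat_lit 5647) (.d (nat_lit 625) (nat_lit 593) (nat_lit 4592) (nat_lit 657) (nat_lit 4624)))) (.a (.f (nat_lit 495) (nat_lit 463) (nat_lit 7631) (.f (nat_lit 624) (nat_lit 527) (nat_lit 7663) (.d (nat_lit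 625) (nat_lit 593) (nat_lit 4592) (nat_lit 657) (nat_lit 4624)))) (.f (nat_lit 495) (nat_lit 463) (nat_lit 7631) (.f (nat_lit 624) (nat_lit 527) (nat_lit 7663) (.d (nat_lit 623) (nat_lit 591) (nat_lit 5615) (nat_lit 655) (nat_lit 5647))))))))
noncomputable def s22601 : Cert := .r (nat_lit 4717453032125294316127427693625949108374998796335385130506726868687835905802578684957291737086975161612872578355191225769280585831318013308732534358420551646973186277376) (.p (nat_lit 527) (.a (.f (nat_lit 529) (nat_lit 557) (nat_lit 1549) (.f (nat_lit 559) (nat_lit 530) (nat_lit 1550) (.f (nat_lit 561) (nat_lit 562) (nat_lit 526) (.d (nat_lit 593) (nat_lit 594) (nat_lit 558) (nat_lit 625) (nat_lit 7664))))) (.a (.f (nat_lit 525) (nat_lit 561) (nat_lit 525) (.d (nat_lit 524) (nat_lit 495) (nat_lit 2540) (nat_lit 559) (nat_lit 524))) (.a (.f (nat_lit 529) (nat_lit 557) (nat_lit 1549) (.f (nat_lit 562) (nat_lit 561) (nat_lit 526) (.f (nat_lit 530)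 (nat_lit 563) (nat_lit 527) (.f (nat_lit 495) (nat_lit 531) (nat_lit 3567) (.d (nat_lit 463) (nat_lit 431) (nat_lit 5550) (nat_lit 592) (nat_lit 7631)))))) (.f (nat_lit 529) (nat_lit 557) (nat_lit 1549) (.f (nat_lit 530) (nat_lit 559) (nat_lit 1550) (.f (nat_lit 495) (nat_lit 531) (nat_lit 3567) (.d (nat_lit 463) (nat_lit 431) (nat_lit 5550) (nat_lit 592) (nat_lit 7631)))))))))
noncomputable def s22602 : Cert := .r (nat_lit 4717453032125294316127427693625949108374998796335385130506726868687835905802578684957291737086975161612872578355191225769280585831318013308732534358420551646973186277376) (.p (nat_lit 592) (.a (.f (nat_lit 623) (nat_lit 591) (nat_lit 5615) (.f (nat_lit 624) (nat_lit 655) (nat_lit 5647) (.d (nat_lit 625) (nat_lit 593) (nat_lit 4592) (nat_lit 657) (nat_lit 4624)))) (.a (.f (nat_lit 495) (nat_lit 463) (nat_lit 7631) (.f (nat_lit 624) (nat_lit 527) (nat_lit 7663) (.d (nat_lit 625) (nat_lit 593) (nat_lit 4592) (nat_lit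 657) (nat_lit 4624)))) (.a (.f (nat_lit 591) (nat_lit 623) (nat_lit 5615) (.f (nat_lit 593) (nat_lit 625) (nat_lit 4592) (.f (nat_lit 559) (nat_lit 594) (nat_lit 3630) (.f (nat_lit 561) (nat_lit 525) (nat_lit 3597) (.d (nat_lit 562) (nat_lit 527) (nat_lit 3598) (nat_lit 563) (nat_lit 1583)))))) (.f (nat_lit 495) (nat_lit 463) (nat_lit 7631) (.f (nat_lit 624) (nat_lit 527) (nat_lit 7663) (.d (nat_lit 623) (nat_lit 591) (nat_lit 5615) (nat_lit 655) (nat_lit 5647))))))))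
noncomputable def s22603 : Cert := .r (nat_lit 943490607303752963885873112637680217458077575918944702130520568442211743410429832871165011909316394071404203324427380869510001201393220676171100106987855603323790950400) (.p (nat_lit 560) (.a s21744 (.a s21929 (.a s22598 (.a s22601 (.a s21941 s22602))))))
noncomputable def s22622 : Cert := .r (nat_lit 4717453032125294316127427693625949108374998796335385130506726868687835905802578684957291737086975161612872578355191225769280585831318013308732534358420551646973186277376) (.p (nat_lit 592) (.a (.f (nat_lit 623) (nat_lit 591) (nat_lit 5615) (.f (nat_lit 624) (nat_lit 655) (nat_lit 5647) (.d (nat_lit 625) (nat_lit 593) (nat_lit 4592) (nat_lit 657) (nat_lit 4624)))) (.a (.f (nat_lit 497) (nat_lit 465) (nat_lit 6608) (.f (nat_lit 624) (nat_lit 529) (nat_lit 6640) (.d (nat_lit 625) (nat_lit 593) (nat_lit 4592) (nat_lit 657) (nat_lit 4624)))) (.a (.f (nat_lit 591) (nat_lit 623) (nat_lit 5615)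 (.f (nat_lit 593) (nat_lit 625) (nat_lit 4592) (.f (nat_lit 594) (nat_lit 559) (nat_lit 3630) (.f (nat_lit 563) (nat_lit 562) (nat_lit 2607) (.f (nat_lit 595) (nat_lit 564) (nat_lit 2608) (.d (nat_lit 627) (nat_lit 626) (nat_lit 591) (nat_lit 628) (nat_lit 592))))))) (.f (nat_lit 497) (nat_lit 465) (nat_lit 6608) (.f (nat_lit 624) (nat_lit 529) (nat_lit 6640) (.d (nat_lit 623) (nat_lit 591) (nat_lit 5615) (nat_lit 655) (nat_lit 5647))))))))
noncomputable def s22626 : Cert := .r (nat_lit 4717453032125294316127427693625949108374998796335385130506726868687835905802578684957291737086975161612872578355191225769280585831318013308732534358420551646973186277376) (.p (nat_lit 592) (.a (.f (nat_lit 497) (nat_lit 465) (nat_lit 6608) (.f (nat_lit 624) (nat_lit 529) (nat_lit 6640) (.d (nat_lit 623) (nat_lit 591) (nat_lit 5615) (nat_lit 655) (nat_lit 5647)))) (.a (.f (nat_lit 623) (nat_lit 591) (nat_lit 5615) (.f (nat_lit 624) (nat_lit 655) (nat_lit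 5647) (.f (nat_lit 657) (nat_lit 625) (nat_lit 4624) (.f (nat_lit 656) (nat_lit 689) (nat_lit 4656) (.f (nat_lit 527) (nat_lit 559) (nat_lit 7695) (.d (nat_lit 497) (nat_lit 465) (nat_lit 6608) (nat_lit 525) (nat_lit 2541))))))) (.a (.f (nat_lit 495) (nat_lit 463) (nat_lit 7631) (.f (nat_lit 624) (nat_lit 527) (nat_lit 7663) (.d (nat_lit 623) (nat_lit 591) (nat_lit 5615) (nat_lit 655) (nat_lit 5647)))) (.a (.f (nat_lit 495) (nat_lit 463) (nat_lit 7631) (.f (nat_lit 527) (nat_lit 624) (nat_lit 7663) (.d (nat_lit 497) (nat_lit 465) (nat_lit 6608) (nat_lit 525) (nat_lit 2541)))) (.f (nat_lit 495) (nat_lit 463) (nat_lit 7631) (.f (nat_lit 497) (nat_lit 465) (nat_lit 6608) (.f (nat_lit 527) (nat_lit 525) (nat_lit 2541) (.f (nat_lit 590) (nat_lit 622) (nat_lit 6638) (.f (nat_lit 591) (nat_lit 623) (nat_lit 5615) (.f (nat_lit 561) (nat_lit 589) (nat_lit 2605) (.d (nat_lit 562) (nat_lit 529) (nat_lit 526) (nat_lit 563) (nat_lit 3599)))))))))))))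
noncomputable def s22629 : Cert := .r (nat_lit 943490607303752963885873112637680217458077575918944702130520568442211743410429832871165011909316394071404203324427380869510001201393220676171100106987855603323790950400) (.p (nat_lit 560) (.a s22216 (.a s21780 (.a s21947 (.a (.p (nat_lit 592) (.a (.f (nat_lit 623) (nat_lit 591) (nat_lit 5615) (.f (nat_lit 624) (nat_lit 655) (nat_lit 5647) (.d (nat_lit 625) (nat_lit 593) (nat_lit 4592) (nat_lit 657) (nat_lit 4624)))) (.a (.f (nat_lit 497) (nat_lit 465) (nat_lit 6608) (.f (nat_lit 624) (nat_lit 529) (nat_lit 6640) (.d (nat_lit 625) (nat_lit 593) (nat_lit 4592) (nat_lit 657) (nat_lit 4624)))) (.f (nat_lit 495) (nat_lit 463) (nat_lit 7631) (.f (nat_lit 497) (nat_lit 465) (nat_lit 6608) (.f (nat_lit 527) (nat_lit 525) (nat_lit 2541) (.f (nat_lit 590) (nat_lit 622) (nat_lit 6638) (.f (nat_lit 591) (nat_lit 623) (nat_lit 5615) (.f (nat_lit 561) (nat_lit 589) (nat_lit 2605) (.d (nat_lit 562)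 (nat_lit 529) (nat_lit 526) (nat_lit 563) (nat_lit 3599))))))))))) (.a (.p (nat_lit 527) (.a (.d (nat_lit 525) (nat_lit 497) (nat_lit 2541) (nat_lit 561) (nat_lit 525)) (.a (.p (nat_lit 529) (.a (.f (nat_lit 559) (nat_lit 530) (nat_lit 1550) (.f (nat_lit 561) (nat_lit 562) (nat_lit 526) (.d (nat_lit 593) (nat_lit 594) (nat_lit 558) (nat_lit 625) (nat_lit 7664)))) (.a (.f (nat_lit 562) (nat_lit 561) (nat_lit 526) (.f (nat_lit 530) (nat_lit 563) (nat_lit 527) (.f (nat_lit 531) (nat_lit 495) (nat_lit 3567) (.f (nat_lit 532) (nat_lit 497) (nat_lit 3568) (.d (nat_lit 500) (nat_lit 499) (nat_lit 2544) (nat_lit 501) (nat_lit 2545)))))) (.a (.f (nat_lit 530) (nat_lit 559) (nat_lit 1550) (.f (nat_lit 531) (nat_lit 495) (nat_lit 3567) (.d (nat_lit 563) (nat_lit 562) (nat_lit 527) (nat_lit 564) (nat_lit 528)))) (.a (.f (nat_lit 561) (nat_lit 562) (nat_lit 526) (.f (nat_lit 593) (nat_lit 625) (nat_lit 7664) (.f (nat_lit 559) (nat_lit 594) (nat_lit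 558) (.f (nat_lit 590) (nat_lit 589) (nat_lit 1581) (.d (nat_lit 495) (nat_lit 463) (nat_lit 5582) (nat_lit 622) (nat_lit 6638)))))) (.f (nat_lit 530) (nat_lit 559) (nat_lit 1550) (.f (nat_lit 531) (nat_lit 495) (nat_lit 3567) (.d (nat_lit 532) (nat_lit 497) (nat_lit 3568) (nat_lit 561) (nat_lit 1552))))))))) (.a (.f (nat_lit 525) (nat_lit 497) (nat_lit 2541) (.d (nat_lit 524) (nat_lit 495) (nat_lit 2540) (nat_lit 559) (nat_lit 524))) (.f (nat_lit 525) (nat_lit 561) (nat_lit 525) (.d (nat_lit 524) (nat_lit 495) (nat_lit 2540) (nat_lit 559) (nat_lit 524))))))) (.a s22622 (.a s22602 (.a s22626 (.a (.p (nat_lit 592) (.a (.f (nat_lit 623) (nat_lit 591) (nat_lit 5615) (.f (nat_lit 624) (nat_lit 655) (nat_lit 5647) (.d (nat_lit 625) (nat_lit 593) (nat_lit 4592) (nat_lit 657) (nat_lit 4624)))) (.a (.f (nat_lit 497) (nat_lit 465) (nat_lit 6608) (.f (nat_lit 624) (nat_lit 529) (nat_lit 6640) (.d (nat_lit 625) (nat_lit 593) (nat_lit 4592)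 (nat_lit 657) (nat_lit 4624)))) (.a (.f (nat_lit 593) (nat_lit 625) (nat_lit 4592) (.f (nat_lit 497) (nat_lit 465) (nat_lit 6608) (.f (nat_lit 525) (nat_lit 527) (nat_lit 2541) (.f (nat_lit 559) (nat_lit 561) (nat_lit 3597) (.d (nat_lit 594) (nat_lit 591) (nat_lit 3630) (nat_lit 595) (nat_lit 3631)))))) (.f (nat_lit 497) (nat_lit 465) (nat_lit 6608) (.f (nat_lit 624) (nat_lit 529) (nat_lit 6640) (.d (nat_lit 623) (nat_lit 591) (nat_lit 5615) (nat_lit 655) (nat_lit 5647)))))))) (.p (nat_lit 592) (.a (.f (nat_lit 497) (nat_lit 465) (nat_lit 6608) (.f (nat_lit 624) (nat_lit 529) (nat_lit 6640) (.d (nat_lit 623) (nat_lit 591) (nat_lit 5615) (nat_lit 655) (nat_lit 5647)))) (.a (.f (nat_lit 591) (nat_lit 623) (nat_lit 5615) (.f (nat_lit 497) (nat_lit 465) (nat_lit 6608) (.f (nat_lit 525) (nat_lit 527) (nat_lit 2541) (.f (nat_lit 561) (nat_lit 559) (nat_lit 3597) (.f (nat_lit 590) (nat_lit 589) (nat_lit 2605) (.d (nat_lit 562) (nat_lit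 563) (nat_lit 1583) (nat_lit 593) (nat_lit 2606))))))) (.a (.f (nat_lit 495) (nat_lit 463) (nat_lit 7631) (.f (nat_lit 624) (nat_lit 527) (nat_lit 7663) (.d (nat_lit 623) (nat_lit 591) (nat_lit 5615) (nat_lit 655) (nat_lit 5647)))) (.f (nat_lit 495) (nat_lit 463) (nat_lit 7631) (.f (nat_lit 527) (nat_lit 624) (nat_lit 7663) (.d (nat_lit 497) (nat_lit 465) (nat_lit 6608) (nat_lit 525) (nat_lit 2541))))))))))))))))))
noncomputable def s22631 : Cert := .r (nat_lit 943490607303752963885873112637680217458077575918944702130520568442211743410429832871165011909316394071404203324427380869510001201393220676171100106987855603323790950400) (.p (nat_lit 527) (.a (.f (nat_lit 525) (nat_lit 497) (nat_lit 2541) (.d (nat_lit 557) (nat_lit 529) (nat_lit 1549) (nat_lit 556) (nat_lit 1548))) (.a (.f (nat_lit 525) (nat_lit 497) (nat_lit 2541) (.f (nat_lit 524) (nat_lit 495) (nat_lit 2540) (.d (nat_lit 556) (nat_lit 555) (nat_lit 1547) (nat_lit 557) (nat_lit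 1548)))) (.a (.f (nat_lit 557) (nat_lit 529) (nat_lit 1549) (.d (nat_lit 556) (nat_lit 555) (nat_lit 2571) (nat_lit 559) (nat_lit 2572))) (.f (nat_lit 525) (nat_lit 497) (nat_lit 2541) (.f (nat_lit 495) (nat_lit 524) (nat_lit 2540) (.f (nat_lit 463) (nat_lit 431) (nat_lit 5550) (.d (nat_lit 590) (nat_lit 494) (nat_lit 6606) (nat_lit 559) (nat_lit 5582)))))))))
noncomputable def s22641 : Cert := .r (nat_lit 4717453032125294316127427693625949108374998796335385130506726868687835905802578684957291737086975161612872578355191225769280585831318013308732534358420551646973186277376) (.p (nat_lit 559) (.a (.f (nat_lit 561) (nat_lit 525) (nat_lit 3597) (.d (nat_lit 529) (nat_lit 530) (nat_lit 2574) (nat_lit 557) (nat_lit 2573))) (.a (.f (nat_lit 561) (nat_lit 525) (nat_lit 3597) (.f (nat_lit 590) (nat_lit 589) (nat_lit 1581) (.f (nat_lit 591) (nat_lit 562) (nat_lit 1582) (.d (nat_lit 494) (nat_lit 462) (nat_lit 4558) (nat_lit 623) (nat_lit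 4590))))) (.a (.f (nat_lit 529) (nat_lit 557) (nat_lit 2573) (.d (nat_lit 530) (nat_lit 531) (nat_lit 1551) (nat_lit 561) (nat_lit 2574))) (.f (nat_lit 557) (nat_lit 529) (nat_lit 2573) (.f (nat_lit 525) (nat_lit 524) (nat_lit 3596) (.f (nat_lit 589) (nat_lit 588) (nat_lit 1580) (.d (nat_lit 494) (nat_lit 462) (nat_lit 5581) (nat_lit 621) (nat_lit 6637)))))))))
noncomputable def s22642 : Cert := .r (nat_lit 943490607303752963885873112637680217458077575918944702130520568442211743410429832871165011909316394071404203324427380869510001201393220676171100106987855603323790950400) (.p (nat_lit 560) (.a s22641 (.a s21744 (.a s22598 (.a s22601 s22602)))))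
noncomputable def s22648 : Cert := .r (nat_lit 943490607303752963937019840886057434177033664931875938883905600411634630746106260497667102478139433991455298517019633324992605640886346785690119740517314869782049193984) (.p (nat_lit 462) (.a (.f (nat_lit 557) (nat_lit 589) (nat_lit 5581) (.f (nat_lit 527) (nat_lit 529) (nat_lit 1549) (.d (nat_lit 430) (nat_lit 525) (nat_lit 5549) (nat_lit 559) (nat_lit 4526)))) (.a (.f (nat_lit 461) (nat_lit 429) (nat_lit 7597) (.f (nat_lit 493) (nat_lit 590) (nat_lit 7629) (.f (nat_lit 495) (nat_lit 460) (nat_lit 3532) (.f (nat_lit 525) (nat_lit 524) (nat_lit 1516) (.d (nat_lit 430) (nat_lit 398) (nat_lit 5517) (nat_lit 557) (nat_lit 5549)))))) (.a (.f (nat_lit 461) (nat_lit 429) (nat_lit 7597) (.f (nat_lit 590) (nat_lit 493) (nat_lit 7629) (.d (nat_lit 589) (nat_lit 557) (nat_lit 5581) (nat_lit 621) (nat_lit 5613)))) (.f (nat_lit 429) (nat_lit 461) (nat_lit 7597) (.f (nat_lit 430) (nat_lit 397) (nat_lit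 7565) (.f (nat_lit 527) (nat_lit 559) (nat_lit 4526) (.f (nat_lit 493) (nat_lit 529) (nat_lit 3565) (.d (nat_lit 492) (nat_lit 491) (nat_lit 491) (nat_lit 525) (nat_lit 3564))))))))))
noncomputable def s22654 : Cert := .r (nat_lit 943490607303752963937019840886057434177033664931875938883905600411634630746106260497667102478139433991455298517019633324992605640886346785690119740517314869782049193984) (.p (nat_lit 462) (.a (.f (nat_lit 463) (nat_lit 431) (nat_lit 6574) (.f (nat_lit 495) (nat_lit 590) (nat_lit 6606) (.d (nat_lit 461) (nat_lit 429) (nat_lit 7597) (nat_lit 460) (nat_lit 460)))) (.a (.f (nat_lit 429) (nat_lit 461) (nat_lit 7597) (.f (nat_lit 430) (nat_lit 397) (nat_lit 7565) (.d (nat_lit 431) (nat_lit 399) (nat_lit 6542) (nat_lit 463) (nat_lit 6574)))) (.a (.f (nat_lit 429) (nat_lit 461) (nat_lit 7597) (.f (nat_lit 430) (nat_lit 397) (nat_lit 7565) (.f (nat_lit 527) (nat_lit 559) (nat_lit 4526) (.f (nat_lit 493) (nat_lit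 529) (nat_lit 3565) (.d (nat_lit 492) (nat_lit 491) (nat_lit 491) (nat_lit 525) (nat_lit 3564)))))) (.f (nat_lit 431) (nat_lit 463) (nat_lit 6574) (.f (nat_lit 430) (nat_lit 399) (nat_lit 6542) (.f (nat_lit 527) (nat_lit 559) (nat_lit 4526) (.f (nat_lit 493) (nat_lit 529) (nat_lit 3565) (.d (nat_lit 492) (nat_lit 491) (nat_lit 491) (nat_lit 525) (nat_lit 3564))))))))))
noncomputable def s22655 : Cert := .r (nat_lit 943490607303752963885873112637680217458077575918944702130520568442211743410429832871165011909316394071404203324427380869510001201393220676171100106987855603323790950400) (.p (nat_lit 494) (.a (.p (nat_lit 462) (.a (.f (nat_lit 463) (nat_lit 431) (nat_lit 6574) (.f (nat_lit 495) (nat_lit 590) (nat_lit 6606) (.d (nat_lit 461) (nat_lit 429) (nat_lit 7597) (nat_lit 460) (nat_lit 460)))) (.a (.f (nat_lit 429) (nat_lit 461) (nat_lit 7597) (.f (nat_lit 430) (nat_lit 397) (nat_lit 7565) (.d (nat_lit 431) (nat_lit 399) (nat_lit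 6542) (nat_lit 463) (nat_lit 6574)))) (.f (nat_lit 557) (nat_lit 589) (nat_lit 5581) (.f (nat_lit 527) (nat_lit 529) (nat_lit 1549) (.d (nat_lit 430) (nat_lit 525) (nat_lit 5549) (nat_lit 559) (nat_lit 4526))))))) (.a s21690 (.a s21821 (.a s22556 (.a s22648 (.a s22654 (.a s22562 (.a s21891 s22413)))))))))
noncomputable def s22656 : Cert := .r (nat_lit 943490607303752963937019840886057434177033664931875938883905600411634630746106260497667102478139433991455298517019633324992605640886346785690119740517314869782049193984) (.p (nat_lit 462) (.a (.f (nat_lit 559) (nat_lit 591) (nat_lit 4558) (.f (nat_lit 527) (nat_lit 430) (nat_lit 4526) (.d (nat_lit 557) (nat_lit 556) (nat_lit 2572) (nat_lit 589) (nat_lit 5581)))) (.a (.f (nat_lit 589) (nat_lit 557) (nat_lit 5581) (.f (nat_lit 590) (nat_lit 621) (nat_lit 5613) (.d (nat_lit 591) (nat_lit 559) (nat_lit 4558) (nat_lit 623) (nat_lit 4590)))) (.a (.f (nat_lit 557) (nat_lit 589) (nat_lit 5581)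 (.f (nat_lit 527) (nat_lit 529) (nat_lit 1549) (.d (nat_lit 525) (nat_lit 430) (nat_lit 5549) (nat_lit 556) (nat_lit 1548)))) (.f (nat_lit 559) (nat_lit 591) (nat_lit 4558) (.f (nat_lit 430) (nat_lit 527) (nat_lit 4526) (.d (nat_lit 429) (nat_lit 397) (nat_lit 7565) (nat_lit 461) (nat_lit 7597))))))))
noncomputable def s22657 : Cert := .r (nat_lit 943490607303752963937019840886057434177033664931875938883905600411634630746106260497667102478139433991455298517019633324992605640886346785690119740517314869782049193984) (.p (nat_lit 462) (.a (.f (nat_lit 591) (nat_lit 559) (nat_lit 4558) (.f (nat_lit 590) (nat_lit 623) (nat_lit 4590) (.d (nat_lit 461) (nat_lit 429) (nat_lit 7597) (nat_lit 493) (nat_lit 7629)))) (.a (.f (nat_lit 461) (nat_lit 429) (nat_lit 7597) (.f (nat_lit 493) (nat_lit 590) (nat_lit 7629) (.f (nat_lit 495) (nat_lit 460) (nat_lit 3532) (.f (nat_lit 525) (nat_lit 524) (nat_lit 1516) (.d (nat_lit 430) (nat_lit 398) (nat_lit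 5517) (nat_lit 557) (nat_lit 5549)))))) (.a (.f (nat_lit 559) (nat_lit 591) (nat_lit 4558) (.f (nat_lit 430) (nat_lit 527) (nat_lit 4526) (.d (nat_lit 429) (nat_lit 397) (nat_lit 7565) (nat_lit 461) (nat_lit 7597)))) (.f (nat_lit 559) (nat_lit 591) (nat_lit 4558) (.f (nat_lit 527) (nat_lit 430) (nat_lit 4526) (.d (nat_lit 529) (nat_lit 493) (nat_lit 3565) (nat_lit 530) (nat_lit 1550))))))))
noncomputable def s22658 : Cert := .r (nat_lit 943490607303752963885873112637680217458077575918944702130520568442211743410429832871165011909316394071404203324427380869510001201393220676171100106987855603323790950400) (.p (nat_lit 494) (.a (.p (nat_lit 462) (.a (.f (nat_lit 591) (nat_lit 559) (nat_lit 4558) (.f (nat_lit 590) (nat_lit 623) (nat_lit 4590) (.d (nat_lit 461) (nat_lit 429) (nat_lit 7597) (nat_lit 493) (nat_lit 7629)))) (.f (nat_lit 557) (nat_lit 589) (nat_lit 5581) (.f (nat_lit 527) (nat_lit 529) (nat_lit 1549) (.d (nat_lit 525) (nat_lit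 430) (nat_lit 5549) (nat_lit 556) (nat_lit 1548)))))) (.a s21782 (.a (.p (nat_lit 462) (.a (.f (nat_lit 591) (nat_lit 559) (nat_lit 4558) (.f (nat_lit 590) (nat_lit 623) (nat_lit 4590) (.d (nat_lit 461) (nat_lit 429) (nat_lit 7597) (nat_lit 493) (nat_lit 7629)))) (.a (.f (nat_lit 429) (nat_lit 461) (nat_lit 7597) (.f (nat_lit 430) (nat_lit 397) (nat_lit 7565) (.d (nat_lit 557) (nat_lit 525) (nat_lit 5549) (nat_lit 589) (nat_lit 5581)))) (.f (nat_lit 589) (nat_lit 557) (nat_lit 5581) (.f (nat_lit 590) (nat_lit 621) (nat_lit 5613) (.d (nat_lit 591) (nat_lit 559) (nat_lit 4558) (nat_lit 623) (nat_lit 4590))))))) (.a (.p (nat_lit 590) (.a (.f (nat_lit 493) (nat_lit 461) (nat_lit 7629) (.f (nat_lit 622) (nat_lit 525) (nat_lit 7661) (.d (nat_lit 621) (nat_lit 589) (nat_lit 5613) (nat_lit 653) (nat_lit 5645)))) (.a (.f (nat_lit 623) (nat_lit 591) (nat_lit 4590) (.f (nat_lit 622) (nat_lit 655) (nat_lit 4622) (.d (nat_lit 621) (nat_lit 589)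 (nat_lit 5613) (nat_lit 653) (nat_lit 5645)))) (.f (nat_lit 493) (nat_lit 461) (nat_lit 7629) (.f (nat_lit 527) (nat_lit 529) (nat_lit 3565) (.d (nat_lit 492) (nat_lit 491) (nat_lit 491) (nat_lit 525) (nat_lit 3564))))))) (.a (.p (nat_lit 462) (.a (.f (nat_lit 591) (nat_lit 559) (nat_lit 4558) (.f (nat_lit 590) (nat_lit 623) (nat_lit 4590) (.d (nat_lit 461) (nat_lit 429) (nat_lit 7597) (nat_lit 493) (nat_lit 7629)))) (.a (.f (nat_lit 461) (nat_lit 429) (nat_lit 7597) (.f (nat_lit 590) (nat_lit 493) (nat_lit 7629) (.d (nat_lit 589) (nat_lit 557) (nat_lit 5581) (nat_lit 621) (nat_lit 5613)))) (.f (nat_lit 559) (nat_lit 591) (nat_lit 4558) (.f (nat_lit 527) (nat_lit 430) (nat_lit 4526) (.d (nat_lit 557) (nat_lit 556) (nat_lit 2572) (nat_lit 589) (nat_lit 5581))))))) (.a s22656 (.a s22648 (.a s19154 s22657)))))))))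
noncomputable def s22665 : Cert := .r (nat_lit 943490607303752963937019840886057434177033664931875938883905600411634630746106260497667102478139433991455298517019633324992605640886346785690119740517314869782049193984) (.p (nat_lit 462) (.a (.f (nat_lit 559) (nat_lit 591) (nat_lit 4558) (.f (nat_lit 527) (nat_lit 430) (nat_lit 4526) (.d (nat_lit 529) (nat_lit 493) (nat_lit 3565) (nat_lit 530) (nat_lit 1550)))) (.a (.f (nat_lit 559) (nat_lit 591) (nat_lit 4558) (.f (nat_lit 430) (nat_lit 527) (nat_lit 4526) (.d (nat_lit 431) (nat_lit 399) (nat_lit 6542) (nat_lit 463) (nat_lit 6574)))) (.a (.f (nat_lit 463) (nat_lit 431) (nat_lit 6574) (.f (nat_lit 495) (nat_lit 590) (nat_lit 6606) (.f (nat_lit 493) (nat_lit 529) (nat_lit 493) (.f (nat_lit 525) (nat_lit 524) (nat_lit 1516) (.f (nat_lit 560) (nat_lit 592) (nat_lit 7631) (.d (nat_lit 559) (nat_lit 561) (nat_lit 3597) (nat_lit 591) (nat_lit 4558))))))) (.f (nat_lit 463) (nat_lit 431) (nat_lit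 6574) (.f (nat_lit 495) (nat_lit 590) (nat_lit 6606) (.f (nat_lit 493) (nat_lit 529) (nat_lit 493) (.d (nat_lit 492) (nat_lit 491) (nat_lit 2507) (nat_lit 527) (nat_lit 492)))))))))
noncomputable def s22666 : Cert := .r (nat_lit 943490607303752963885873112637680217458077575918944702130520568442211743410429832871165011909316394071404203324427380869510001201393220676171100106987855603323790950400) (.p (nat_lit 494) (.a (.p (nat_lit 590) (.a (.f (nat_lit 495) (nat_lit 463) (nat_lit 6606) (.f (nat_lit 527) (nat_lit 622) (nat_lit 6638) (.d (nat_lit 493) (nat_lit 461) (nat_lit 7629) (nat_lit 492) (nat_lit 492)))) (.a (.f (nat_lit 495) (nat_lit 463) (nat_lit 6606) (.d (nat_lit 493) (nat_lit 461) (nat_lit 7629) (nat_lit 529) (nat_lit 493))) (.f (nat_lit 623) (nat_lit 591) (nat_lit 4590) (.f (nat_lit 622) (nat_lit 655) (nat_lit 4622) (.d (nat_lit 621) (nat_lit 589) (nat_lit 5613) (nat_lit 653) (nat_lit 5645))))))) (.a (.p (nat_lit 462) (.a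 (.f (nat_lit 429) (nat_lit 461) (nat_lit 7597) (.f (nat_lit 430) (nat_lit 397) (nat_lit 7565) (.d (nat_lit 431) (nat_lit 399) (nat_lit 6542) (nat_lit 463) (nat_lit 6574)))) (.a (.f (nat_lit 591) (nat_lit 559) (nat_lit 4558) (.f (nat_lit 590) (nat_lit 623) (nat_lit 4590) (.d (nat_lit 461) (nat_lit 429) (nat_lit 7597) (nat_lit 493) (nat_lit 7629)))) (.f (nat_lit 559) (nat_lit 591) (nat_lit 4558) (.f (nat_lit 430) (nat_lit 527) (nat_lit 4526) (.d (nat_lit 431) (nat_lit 399) (nat_lit 6542) (nat_lit 463) (nat_lit 6574))))))) (.a (.p (nat_lit 590) (.a (.f (nat_lit 493) (nat_lit 461) (nat_lit 7629) (.f (nat_lit 622) (nat_lit 525) (nat_lit 7661) (.d (nat_lit 621) (nat_lit 589) (nat_lit 5613) (nat_lit 653) (nat_lit 5645)))) (.a (.f (nat_lit 623) (nat_lit 591) (nat_lit 4590) (.f (nat_lit 622) (nat_lit 655) (nat_lit 4622) (.d (nat_lit 621) (nat_lit 589) (nat_lit 5613) (nat_lit 653) (nat_lit 5645)))) (.f (nat_lit 461) (nat_lit 493) (nat_lit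 7629) (.f (nat_lit 462) (nat_lit 429) (nat_lit 7597) (.d (nat_lit 591) (nat_lit 559) (nat_lit 4558) (nat_lit 623) (nat_lit 4590))))))) (.a s22583 (.a s22654 (.a s22584 s22665)))))))
noncomputable def s22668 : Cert := .r (nat_lit 943490607303752963885873112637680217458077575918944702130520568442211743410429832871165011909316394071404203324427380869510001201393220676171100106987855603323790950400) (.p (nat_lit 494) (.a (.p (nat_lit 462) (.a (.f (nat_lit 463) (nat_lit 431) (nat_lit 6574) (.f (nat_lit 495) (nat_lit 590) (nat_lit 6606) (.d (nat_lit 461) (nat_lit 429) (nat_lit 7597) (nat_lit 460) (nat_lit 460)))) (.a (.f (nat_lit 429) (nat_lit 461) (nat_lit 7597) (.f (nat_lit 430) (nat_lit 397) (nat_lit 7565) (.d (nat_lit 431) (nat_lit 399) (nat_lit 6542) (nat_lit 463) (nat_lit 6574)))) (.f (nat_lit 557) (nat_lit 589) (nat_lit 5581) (.f (nat_lit 527) (nat_lit 529) (nat_lit 1549) (.d (nat_lit 430) (nat_lit 525) (nat_lit 5549) (nat_lit 559)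 (nat_lit 4526))))))) (.a s21690 (.a (.p (nat_lit 462) (.a (.f (nat_lit 429) (nat_lit 461) (nat_lit 7597) (.f (nat_lit 430) (nat_lit 397) (nat_lit 7565) (.d (nat_lit 431) (nat_lit 399) (nat_lit 6542) (nat_lit 463) (nat_lit 6574)))) (.a (.f (nat_lit 559) (nat_lit 591) (nat_lit 4558) (.f (nat_lit 527) (nat_lit 430) (nat_lit 4526) (.d (nat_lit 557) (nat_lit 556) (nat_lit 2572) (nat_lit 589) (nat_lit 5581)))) (.f (nat_lit 557) (nat_lit 589) (nat_lit 5581) (.f (nat_lit 527) (nat_lit 529) (nat_lit 1549) (.d (nat_lit 556) (nat_lit 525) (nat_lit 1548) (nat_lit 555) (nat_lit 2571))))))) (.a (.p (nat_lit 462) (.a (.f (nat_lit 559) (nat_lit 591) (nat_lit 4558) (.f (nat_lit 527) (nat_lit 430) (nat_lit 4526) (.d (nat_lit 557) (nat_lit 556) (nat_lit 2572) (nat_lit 589) (nat_lit 5581)))) (.a (.f (nat_lit 463) (nat_lit 431) (nat_lit 6574) (.f (nat_lit 590) (nat_lit 495) (nat_lit 6606) (.d (nat_lit 589) (nat_lit 557) (nat_lit 5581) (nat_lit 621) (nat_lit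 5613)))) (.f (nat_lit 559) (nat_lit 591) (nat_lit 4558) (.f (nat_lit 430) (nat_lit 527) (nat_lit 4526) (.d (nat_lit 431) (nat_lit 399) (nat_lit 6542) (nat_lit 463) (nat_lit 6574))))))) (.a s19154 (.a s22583 (.p (nat_lit 590) (.a (.f (nat_lit 495) (nat_lit 463) (nat_lit 6606) (.f (nat_lit 527) (nat_lit 622) (nat_lit 6638) (.d (nat_lit 493) (nat_lit 461) (nat_lit 7629) (nat_lit 492) (nat_lit 492)))) (.a (.f (nat_lit 493) (nat_lit 461) (nat_lit 7629) (.f (nat_lit 622) (nat_lit 525) (nat_lit 7661) (.d (nat_lit 621) (nat_lit 589) (nat_lit 5613) (nat_lit 653) (nat_lit 5645)))) (.a (.f (nat_lit 495) (nat_lit 463) (nat_lit 6606) (.f (nat_lit 527) (nat_lit 622) (nat_lit 6638) (.d (nat_lit 529) (nat_lit 530) (nat_lit 3566) (nat_lit 557) (nat_lit 1549)))) (.f (nat_lit 495) (nat_lit 463) (nat_lit 6606) (.d (nat_lit 493) (nat_lit 461) (nat_lit 7629) (nat_lit 529) (nat_lit 493))))))))))))))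
noncomputable def s22672 : Cert := .r (nat_lit 4717453032125294316127427693625949108374998796335385130506726868687835905802578684957291737086975161612872578355191225769280585831318013308732534358420551646973186277376) (.p (nat_lit 559) (.a (.f (nat_lit 561) (nat_lit 525) (nat_lit 3597) (.d (nat_lit 529) (nat_lit 530) (nat_lit 2574) (nat_lit 557) (nat_lit 2573))) (.a (.f (nat_lit 525) (nat_lit 561) (nat_lit 3597) (.d (nat_lit 524) (nat_lit 523) (nat_lit 523) (nat_lit 557) (nat_lit 3596))) (.a (.f (nat_lit 529) (nat_lit 557) (nat_lit 2573) (.d (nat_lit 530) (nat_lit 531) (nat_lit 1551) (nat_lit 561) (nat_lit 2574))) (.a (.f (nat_lit 557) (nat_lit 529) (nat_lit 2573) (.f (nat_lit 525) (nat_lit 524) (nat_lit 3596) (.f (nat_lit 589) (nat_lit 588) (nat_lit 1580) (.d (nat_lit 494) (nat_lit 462) (nat_lit 5581) (nat_lit 621) (nat_lit 6637))))) (.f (nat_lit 561) (nat_lit 525) (nat_lit 3597) (.f (nat_lit 593) (nat_lit 594) (nat_lit 558) (.d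 (nat_lit 529) (nat_lit 530) (nat_lit 2574) (nat_lit 625) (nat_lit 7664)))))))))
noncomputable def s22680 : Cert := .r (nat_lit 4717453032125294316127427693625949108374998796335385130506726868687835905802578684957291737086975161612872578355191225769280585831318013308732534358420551646973186277376) (.p (nat_lit 527) (.a (.f (nat_lit 529) (nat_lit 557) (nat_lit 1549) (.f (nat_lit 562) (nat_lit 561) (nat_lit 526) (.f (nat_lit 530) (nat_lit 563) (nat_lit 527) (.f (nat_lit 495) (nat_lit 531) (nat_lit 3567) (.d (nat_lit 463) (nat_lit 431) (nat_lit 5550) (nat_lit 592) (nat_lit 7631)))))) (.a (.f (nat_lit 525) (nat_lit 561) (nat_lit 525) (.f (nat_lit 495) (nat_lit 524) (nat_lit 2540) (.d (nat_lit 463) (nat_lit 431) (nat_lit 5550) (nat_lit 592) (nat_lit 7631)))) (.a (.f (nat_lit 525) (nat_lit 561) (nat_lit 525) (.d (nat_lit 557) (nat_lit 529) (nat_lit 1549) (nat_lit 556) (nat_lit 1548))) (.f (nat_lit 557) (nat_lit 529) (nat_lit 1549) (.d (nat_lit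 556) (nat_lit 525) (nat_lit 1548) (nat_lit 555) (nat_lit 2571)))))))
noncomputable def s22682 : Cert := .r (nat_lit 943490607303752963885873112637680217458077575918944702130520568442211743410429832871165011909316394071404203324427380869510001201393220676171100106987855603323790950400) (.p (nat_lit 560) (.a s22601 (.a s22602 (.a s22672 (.a s22680 (.a (.p (nat_lit 592) (.a (.f (nat_lit 623) (nat_lit 591) (nat_lit 5615) (.f (nat_lit 624) (nat_lit 655) (nat_lit 5647) (.d (nat_lit 625) (nat_lit 593) (nat_lit 4592) (nat_lit 657) (nat_lit 4624)))) (.a (.f (nat_lit 593) (nat_lit 625) (nat_lit 4592) (.f (nat_lit 559) (nat_lit 557) (nat_lit 557) (.d (nat_lit 594) (nat_lit 561) (nat_lit 558) (nat_lit 595) (nat_lit 3631)))) (.f (nat_lit 495) (nat_lit 463) (nat_lit 7631) (.f (nat_lit 624) (nat_lit 527) (nat_lit 7663) (.d (nat_lit 623) (nat_lit 591) (nat_lit 5615) (nat_lit 655) (nat_lit 5647))))))) (.p (nat_lit 592) (.a (.f (nat_lit 623) (nat_lit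 591) (nat_lit 5615) (.f (nat_lit 624) (nat_lit 655) (nat_lit 5647) (.d (nat_lit 625) (nat_lit 593) (nat_lit 4592) (nat_lit 657) (nat_lit 4624)))) (.a (.f (nat_lit 495) (nat_lit 463) (nat_lit 7631) (.f (nat_lit 624) (nat_lit 527) (nat_lit 7663) (.d (nat_lit 625) (nat_lit 593) (nat_lit 4592) (nat_lit 657) (nat_lit 4624)))) (.a (.f (nat_lit 591) (nat_lit 623) (nat_lit 5615) (.f (nat_lit 593) (nat_lit 625) (nat_lit 4592) (.f (nat_lit 594) (nat_lit 559) (nat_lit 3630) (.f (nat_lit 563) (nat_lit 562) (nat_lit 2607) (.f (nat_lit 595) (nat_lit 564) (nat_lit 2608) (.d (nat_lit 627) (nat_lit 626) (nat_lit 591) (nat_lit 628) (nat_lit 592))))))) (.f (nat_lit 495) (nat_lit 463) (nat_lit 7631) (.f (nat_lit 624) (nat_lit 527) (nat_lit 7663) (.d (nat_lit 623) (nat_lit 591) (nat_lit 5615) (nat_lit 655) (nat_lit 5647))))))))))))))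
noncomputable def s22683 : Cert := .r (nat_lit 943490607303752963937019840886057434177033664931875938883905600411634630746106260497667102478139433991455298517019633324992605640886346785690119740517314869782049193984) (.p (nat_lit 590) (.a (.f (nat_lit 495) (nat_lit 463) (nat_lit 6606) (.f (nat_lit 527) (nat_lit 622) (nat_lit 6638) (.d (nat_lit 493) (nat_lit 461) (nat_lit 7629) (nat_lit 492) (nat_lit 492)))) (.a (.f (nat_lit 495) (nat_lit 463) (nat_lit 6606) (.d (nat_lit 493) (nat_lit 461) (nat_lit 7629) (nat_lit 529) (nat_lit 493))) (.a (.f (nat_lit 493) (nat_lit 461) (nat_lit 7629) (.f (nat_lit 527) (nat_lit 529) (nat_lit 3565) (.d (nat_lit 492) (nat_lit 491) (nat_lit 491) (nat_lit 525) (nat_lit 3564)))) (.f (nat_lit 495) (nat_lit 463) (nat_lit 6606) (.f (nat_lit 527) (nat_lit 622) (nat_lit 6638) (.d (nat_lit 529) (nat_lit 530) (nat_lit 3566) (nat_lit 557) (nat_lit 1549))))))))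
noncomputable def s22684 : Cert := .r (nat_lit 943490607303752963885873112637680217458077575918944702130520568442211743410429832871165011909316394071404203324427380869510001201393220676171100106987855603323790950400) (.p (nat_lit 494) (.a s19155 (.a (.p (nat_lit 462) (.a (.f (nat_lit 429) (nat_lit 461) (nat_lit 7597) (.f (nat_lit 430) (nat_lit 397) (nat_lit 7565) (.d (nat_lit 431) (nat_lit 399) (nat_lit 6542) (nat_lit 463) (nat_lit 6574)))) (.a (.f (nat_lit 591) (nat_lit 559) (nat_lit 4558) (.f (nat_lit 590) (nat_lit 623) (nat_lit 4590) (.d (nat_lit 461) (nat_lit 429) (nat_lit 7597) (nat_lit 493) (nat_lit 7629)))) (.f (nat_lit 559) (nat_lit 591) (nat_lit 4558) (.f (nat_lit 430) (nat_lit 527) (nat_lit 4526) (.d (nat_lit 431) (nat_lit 399) (nat_lit 6542) (nat_lit 463) (nat_lit 6574))))))) (.a s21889 (.a s22414 (.a s22583 (.a s22657 (.a s22683 (.a s22584 s22665)))))))))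
noncomputable def s22695 : Cert := .r (nat_lit 16209045195658831776094714008546846428888896377501413353990799645006253640168885521982496963038190939857326247687099740339648802693080445670563214513499272409000924161194651025408) (.p (nat_lit 529) (.a (.f (nat_lit 559) (nat_lit 557) (nat_lit 2573) (.d (nat_lit 530) (nat_lit 531) (nat_lit 1551) (nat_lit 561) (nat_lit 2574))) (.a (.f (nat_lit 497) (nat_lit 465) (nat_lit 6608) (.f (nat_lit 495) (nat_lit 463) (nat_lit 7631) (.d (nat_lit 530) (nat_lit 494) (nat_lit 494) (nat_lit 531) (nat_lit 3567)))) (.f (nat_lit 497) (nat_lit 465) (nat_lit 6608) (.f (nat_lit 557) (nat_lit 559) (nat_lit 2573) (.f (nat_lit 526) (nat_lit 527) (nat_lit 1549) (.f (nat_lit 495) (nat_lit 463) (nat_lit 7631) (.f (nat_lit 494) (nat_lit 525) (nat_lit 1517) (.d (nat_lit 462) (nat_lit 461) (nat_lit 3533) (nat_lit 589) (nat_lit 5581))))))))))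
noncomputable def s22700 : Cert := .r (nat_lit 943490607303752963937019840886057434177033664931875938883905600411634630746106260497667102478139433991455298517019633324992605640886346785690119740517314869782049193984) (.p (nat_lit 462) (.a (.f (nat_lit 429) (nat_lit 461) (nat_lit 7597) (.f (nat_lit 430) (nat_lit 397) (nat_lit 7565) (.d (nat_lit 431) (nat_lit 399) (nat_lit 6542) (nat_lit 463) (nat_lit 6574)))) (.a (.f (nat_lit 429) (nat_lit 461) (nat_lit 7597) (.f (nat_lit 430) (nat_lit 397) (nat_lit 7565) (.f (nat_lit 527) (nat_lit 559) (nat_lit 4526) (.f (nat_lit 493) (nat_lit 529) (nat_lit 3565) (.d (nat_lit 492) (nat_lit 491) (nat_lit 491) (nat_lit 525) (nat_lit 3564)))))) (.a (.f (nat_lit 431) (nat_lit 463) (nat_lit 6574) (.f (nat_lit 430) (nat_lit 399) (nat_lit 6542) (.f (nat_lit 527) (nat_lit 559) (nat_lit 4526) (.f (nat_lit 493) (nat_lit 529) (nat_lit 3565) (.d (nat_lit 492) (nat_lit 491) (nat_lit 491) (nat_lit 525) (nat_lit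 3564)))))) (.f (nat_lit 461) (nat_lit 429) (nat_lit 7597) (.f (nat_lit 493) (nat_lit 590) (nat_lit 7629) (.f (nat_lit 527) (nat_lit 529) (nat_lit 3565) (.d (nat_lit 492) (nat_lit 491) (nat_lit 491) (nat_lit 525) (nat_lit 3564)))))))))
noncomputable def s22701 : Cert := .r (nat_lit 943490607303752963937019840886057434177033664931875938883905600411634630746106260497667102478139433991455298517019633324992605640886346785690119740517314869782049193984) (.p (nat_lit 462) (.a (.f (nat_lit 461) (nat_lit 429) (nat_lit 7597) (.f (nat_lit 495) (nat_lit 497) (nat_lit 3533) (.d (nat_lit 460) (nat_lit 459) (nat_lit 459) (nat_lit 463) (nat_lit 460)))) (.a (.f (nat_lit 429) (nat_lit 461) (nat_lit 7597) (.f (nat_lit 430) (nat_lit 397) (nat_lit 7565) (.d (nat_lit 431) (nat_lit 399) (nat_lit 6542) (nat_lit 463) (nat_lit 6574)))) (.a (.f (nat_lit 429) (nat_lit 461) (nat_lit 7597) (.f (nat_lit 430) (nat_lit 397) (nat_lit 7565) (.f (nat_lit 399) (nat_lit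 431) (nat_lit 6542) (.f (nat_lit 398) (nat_lit 367) (nat_lit 6510) (.f (nat_lit 495) (nat_lit 527) (nat_lit 4494) (.f (nat_lit 497) (nat_lit 525) (nat_lit 1517) (.f (nat_lit 465) (nat_lit 466) (nat_lit 2510) (.d (nat_lit 401) (nat_lit 400) (nat_lit 1421) (nat_lit 433) (nat_lit 5520))))))))) (.f (nat_lit 463) (nat_lit 431) (nat_lit 6574) (.f (nat_lit 495) (nat_lit 590) (nat_lit 6606) (.f (nat_lit 497) (nat_lit 525) (nat_lit 1517) (.f (nat_lit 465) (nat_lit 466) (nat_lit 2510) (.f (nat_lit 560) (nat_lit 592) (nat_lit 6608) (.d (nat_lit 433) (nat_lit 401) (nat_lit 5520) (nat_lit 529) (nat_lit 5552)))))))))))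
noncomputable def s22702 : Cert := .r (nat_lit 943490607303752963885873112637680217458077575918944702130520568442211743410429832871165011909316394071404203324427380869510001201393220676171100106987855603323790950400) (.p (nat_lit 494) (.a s19062 (.a s22700 (.a s19098 (.a s22701 (.p (nat_lit 527) (.a (.f (nat_lit 493) (nat_lit 529) (nat_lit 3565) (.d (nat_lit 492) (nat_lit 491) (nat_lit 491) (nat_lit 525) (nat_lit 3564))) (.a (.f (nat_lit 525) (nat_lit 497) (nat_lit 2541) (.f (nat_lit 524) (nat_lit 495) (nat_lit 2540) (.f (nat_lit 491) (nat_lit 492) (nat_lit 3563) (.f (nat_lit 523) (nat_lit 490) (nat_lit 3562) (.d (nat_lit 555) (nat_lit 554) (nat_lit 1546) (nat_lit 556) (nat_lit 1547)))))) (.f (nat_lit 529) (nat_lit 493) (nat_lit 3565) (.f (nat_lit 530) (nat_lit 495) (nat_lit 3566) (.d (nat_lit 562) (nat_lit 561) (nat_lit 526) (nat_lit 563) (nat_lit 527))))))))))))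
noncomputable def s22705 : Cert := .r (nat_lit 943490607303752963885873112637680217458077575918944702130520568442211743410429832871165011909316394071404203324427380869510001201393220676171100106987855603323790950400) (.p (nat_lit 494) (.a (.p (nat_lit 527) (.a (.f (nat_lit 525) (nat_lit 497) (nat_lit 2541) (.f (nat_lit 493) (nat_lit 492) (nat_lit 3564) (.d (nat_lit 461) (nat_lit 429) (nat_lit 4525) (nat_lit 590) (nat_lit 7629)))) (.a (.f (nat_lit 529) (nat_lit 493) (nat_lit 3565) (.f (nat_lit 559) (nat_lit 530) (nat_lit 1550) (.d (nat_lit 462) (nat_lit 430) (nat_lit 4526) (nat_lit 591) (nat_lit 4558)))) (.f (nat_lit 525) (nat_lit 497) (nat_lit 2541) (.f (nat_lit 560) (nat_lit 561) (nat_lit 525) (.f (nat_lit 559) (nat_lit 524) (nat_lit 524) (.d (nat_lit 462) (nat_lit 430) (nat_lit 4526) (nat_lit 591) (nat_lit 4558)))))))) (.a (.p (nat_lit 462) (.a (.f (nat_lit 461) (nat_lit 429) (nat_lit 7597) (.f (nat_lit 493) (nat_lit 590) (nat_lit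 7629) (.d (nat_lit 495) (nat_lit 460) (nat_lit 3532) (nat_lit 497) (nat_lit 3533)))) (.a (.f (nat_lit 591) (nat_lit 559) (nat_lit 4558) (.f (nat_lit 590) (nat_lit 623) (nat_lit 4590) (.d (nat_lit 461) (nat_lit 429) (nat_lit 7597) (nat_lit 493) (nat_lit 7629)))) (.f (nat_lit 559) (nat_lit 591) (nat_lit 4558) (.f (nat_lit 527) (nat_lit 430) (nat_lit 4526) (.f (nat_lit 525) (nat_lit 497) (nat_lit 2541) (.d (nat_lit 524) (nat_lit 495) (nat_lit 2540) (nat_lit 523) (nat_lit 523)))))))) (.a (.p (nat_lit 590) (.a (.f (nat_lit 493) (nat_lit 461) (nat_lit 7629) (.f (nat_lit 622) (nat_lit 525) (nat_lit 7661) (.d (nat_lit 621) (nat_lit 589) (nat_lit 5613) (nat_lit 653) (nat_lit 5645)))) (.a (.f (nat_lit 623) (nat_lit 591) (nat_lit 4590) (.f (nat_lit 622) (nat_lit 655) (nat_lit 4622) (.d (nat_lit 621) (nat_lit 589) (nat_lit 5613) (nat_lit 653) (nat_lit 5645)))) (.f (nat_lit 461) (nat_lit 493) (nat_lit 7629) (.f (nat_lit 462) (nat_lit 429) (nat_lit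 7597) (.d (nat_lit 591) (nat_lit 559) (nat_lit 4558) (nat_lit 623) (nat_lit 4590))))))) (.a (.p (nat_lit 590) (.a (.f (nat_lit 493) (nat_lit 461) (nat_lit 7629) (.f (nat_lit 622) (nat_lit 525) (nat_lit 7661) (.d (nat_lit 621) (nat_lit 589) (nat_lit 5613) (nat_lit 653) (nat_lit 5645)))) (.a (.f (nat_lit 623) (nat_lit 591) (nat_lit 4590) (.f (nat_lit 622) (nat_lit 655) (nat_lit 4622) (.d (nat_lit 621) (nat_lit 589) (nat_lit 5613) (nat_lit 653) (nat_lit 5645)))) (.f (nat_lit 493) (nat_lit 461) (nat_lit 7629) (.f (nat_lit 527) (nat_lit 529) (nat_lit 3565) (.d (nat_lit 492) (nat_lit 491) (nat_lit 491) (nat_lit 525) (nat_lit 3564))))))) (.a s22579 (.a (.p (nat_lit 462) (.a (.f (nat_lit 559) (nat_lit 591) (nat_lit 4558) (.f (nat_lit 527) (nat_lit 430) (nat_lit 4526) (.f (nat_lit 525) (nat_lit 497) (nat_lit 2541) (.d (nat_lit 524) (nat_lit 495) (nat_lit 2540) (nat_lit 523) (nat_lit 523))))) (.a s21961 (.a (.f (nat_lit 559) (nat_lit 591)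 (nat_lit 4558) (.f (nat_lit 430) (nat_lit 527) (nat_lit 4526) (.d (nat_lit 429) (nat_lit 397) (nat_lit 7565) (nat_lit 461) (nat_lit 7597)))) (.f (nat_lit 429) (nat_lit 461) (nat_lit 7597) (.f (nat_lit 430) (nat_lit 397) (nat_lit 7565) (.f (nat_lit 399) (nat_lit 431) (nat_lit 6542) (.f (nat_lit 398) (nat_lit 367) (nat_lit 6510) (.f (nat_lit 495) (nat_lit 527) (nat_lit 4494) (.f (nat_lit 497) (nat_lit 525) (nat_lit 1517) (.f (nat_lit 465) (nat_lit 466) (nat_lit 2510) (.d (nat_lit 401) (nat_lit 400) (nat_lit 1421) (nat_lit 433) (nat_lit 5520))))))))))))) (.p (nat_lit 527) (.a (.f (nat_lit 493) (nat_lit 529) (nat_lit 3565) (.d (nat_lit 492) (nat_lit 491) (nat_lit 491) (nat_lit 525) (nat_lit 3564))) (.a (.f (nat_lit 525) (nat_lit 497) (nat_lit 2541) (.f (nat_lit 524) (nat_lit 495) (nat_lit 2540) (.f (nat_lit 491) (nat_lit 492) (nat_lit 3563) (.f (nat_lit 523) (nat_lit 490) (nat_lit 3562) (.d (nat_lit 555) (nat_lit 554) (nat_lit 1546)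 (nat_lit 556) (nat_lit 1547)))))) (.f (nat_lit 529) (nat_lit 493) (nat_lit 3565) (.f (nat_lit 530) (nat_lit 495) (nat_lit 3566) (.d (nat_lit 562) (nat_lit 561) (nat_lit 526) (nat_lit 563) (nat_lit 527))))))))))))))
noncomputable def s22709 : Cert := .r (nat_lit 943490607303752963885873112637680217458077575918944702130520568442211743410429832871165011909316394071404203324427380869510001201393220676171100106987855603323790950400) (.p (nat_lit 494) (.a (.p (nat_lit 462) (.a (.f (nat_lit 461) (nat_lit 429) (nat_lit 7597) (.f (nat_lit 495) (nat_lit 497) (nat_lit 3533) (.d (nat_lit 460) (nat_lit 459) (nat_lit 459) (nat_lit 463) (nat_lit 460)))) (.a (.f (nat_lit 429) (nat_lit 461) (nat_lit 7597) (.f (nat_lit 430) (nat_lit 397) (nat_lit 7565) (.d (nat_lit 431) (nat_lit 399) (nat_lit 6542) (nat_lit 463) (nat_lit 6574)))) (.f (nat_lit 559) (nat_lit 591) (nat_lit 4558) (.f (nat_lit 527) (nat_lit 430) (nat_lit 4526) (.f (nat_lit 525) (nat_lit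 497) (nat_lit 2541) (.d (nat_lit 524) (nat_lit 495) (nat_lit 2540) (nat_lit 523) (nat_lit 523)))))))) (.a s21997 (.a (.p (nat_lit 527) (.a (.f (nat_lit 529) (nat_lit 493) (nat_lit 3565) (.f (nat_lit 559) (nat_lit 530) (nat_lit 1550) (.d (nat_lit 462) (nat_lit 430) (nat_lit 4526) (nat_lit 591) (nat_lit 4558)))) (.a (.f (nat_lit 525) (nat_lit 497) (nat_lit 2541) (.f (nat_lit 560) (nat_lit 561) (nat_lit 525) (.f (nat_lit 559) (nat_lit 524) (nat_lit 524) (.d (nat_lit 462) (nat_lit 430) (nat_lit 4526) (nat_lit 591) (nat_lit 4558))))) (.f (nat_lit 493) (nat_lit 529) (nat_lit 3565) (.d (nat_lit 492) (nat_lit 491) (nat_lit 491) (nat_lit 525) (nat_lit 3564)))))) (.a s22584 (.p (nat_lit 527) (.a (.f (nat_lit 493) (nat_lit 529) (nat_lit 3565) (.d (nat_lit 492) (nat_lit 491) (nat_lit 491) (nat_lit 525) (nat_lit 3564))) (.a (.f (nat_lit 525) (nat_lit 497) (nat_lit 2541) (.f (nat_lit 524) (nat_lit 495) (nat_lit 2540) (.f (nat_lit 491) (nat_lit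 492) (nat_lit 3563) (.f (nat_lit 523) (nat_lit 490) (nat_lit 3562) (.d (nat_lit 555) (nat_lit 554) (nat_lit 1546) (nat_lit 556) (nat_lit 1547)))))) (.f (nat_lit 529) (nat_lit 493) (nat_lit 3565) (.f (nat_lit 530) (nat_lit 495) (nat_lit 3566) (.d (nat_lit 562) (nat_lit 561) (nat_lit 526) (nat_lit 563) (nat_lit 527))))))))))))
noncomputable def s22723 : Cert := .r (nat_lit 943490607303752963885873112637680217458077575918944702130520568442211743410429832871165011909316394071404203324427380869510001201393220676171100106987855603323790950400) (.p (nat_lit 527) (.a (.f (nat_lit 525) (nat_lit 497) (nat_lit 2541) (.d (nat_lit 557) (nat_lit 529) (nat_lit 1549) (nat_lit 556) (nat_lit 1548))) (.a (.f (nat_lit 525) (nat_lit 497) (nat_lit 2541) (.f (nat_lit 557) (nat_lit 556) (nat_lit 1548) (.f (nat_lit 493) (nat_lit 492) (nat_lit 3564) (.f (nat_lit 461) (nat_lit 429) (nat_lit 4525) (.f (nat_lit 462) (nat_lit 430) (nat_lit 6573) (.f (nat_lit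 494) (nat_lit 589) (nat_lit 5581) (.d (nat_lit 460) (nat_lit 428) (nat_lit 7596) (nat_lit 495) (nat_lit 3532)))))))) (.a (.f (nat_lit 529) (nat_lit 557) (nat_lit 1549) (.f (nat_lit 494) (nat_lit 493) (nat_lit 3565) (.d (nat_lit 530) (nat_lit 495) (nat_lit 3566) (nat_lit 559) (nat_lit 1550)))) (.f (nat_lit 525) (nat_lit 497) (nat_lit 2541) (.f (nat_lit 493) (nat_lit 492) (nat_lit 3564) (.f (nat_lit 529) (nat_lit 494) (nat_lit 3565) (.d (nat_lit 561) (nat_lit 560) (nat_lit 525) (nat_lit 562) (nat_lit 526)))))))))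
noncomputable def s22725 : Cert := .r (nat_lit 943490607303752963937019840886057434177033664931875938883905600411634630746106260497667102478139433991455298517019633324992605640886346785690119740517314869782049193984) (.p (nat_lit 462) (.a (.f (nat_lit 557) (nat_lit 589) (nat_lit 5581) (.f (nat_lit 525) (nat_lit 430) (nat_lit 5549) (.d (nat_lit 527) (nat_lit 497) (nat_lit 2541) (nat_lit 556) (nat_lit 1548)))) (.a (.f (nat_lit 557) (nat_lit 589) (nat_lit 5581) (.f (nat_lit 430) (nat_lit 525) (nat_lit 5549) (.d (nat_lit 431) (nat_lit 399) (nat_lit 6542) (nat_lit 463) (nat_lit 6574)))) (.a (.f (nat_lit 559) (nat_lit 591) (nat_lit 4558) (.f (nat_lit 527) (nat_lit 430) (nat_lit 4526) (.d (nat_lit 557) (nat_lit 556) (nat_lit 2572) (nat_lit 589) (nat_lit 5581)))) (.a (.f (nat_lit 559) (nat_lit 591) (nat_lit 4558) (.f (nat_lit 527) (nat_lit 430) (nat_lit 4526) (.f (nat_lit 525) (nat_lit 497) (nat_lit 2541) (.d (nat_lit 524) (nat_lit 495)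 (nat_lit 2540) (nat_lit 523) (nat_lit 523))))) (.f (nat_lit 557) (nat_lit 589) (nat_lit 5581) (.f (nat_lit 559) (nat_lit 591) (nat_lit 4558) (.f (nat_lit 556) (nat_lit 527) (nat_lit 2572) (.f (nat_lit 523) (nat_lit 524) (nat_lit 3595) (.f (nat_lit 555) (nat_lit 522) (nat_lit 3594) (.d (nat_lit 587) (nat_lit 586) (nat_lit 1578) (nat_lit 588) (nat_lit 1579))))))))))))
noncomputable def s22735 : Cert := .r (nat_lit 943490607303752963885873112637680217458077575918944702130520568442211743410429832871165011909316394071404203324427380869510001201393220676171100106987855603323790950400) (.p (nat_lit 494) (.a (.p (nat_lit 462) (.a (.f (nat_lit 559) (nat_lit 591) (nat_lit 4558) (.f (nat_lit 527) (nat_lit 430) (nat_lit 4526) (.d (nat_lit 557) (nat_lit 556) (nat_lit 2572) (nat_lit 589) (nat_lit 5581)))) (.f (nat_lit 463) (nat_lit 431) (nat_lit 6574) (.f (nat_lit 495) (nat_lit 590) (nat_lit 6606) (.f (nat_lit 529) (nat_lit 493) (nat_lit 493)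 (.d (nat_lit 530) (nat_lit 497) (nat_lit 494) (nat_lit 531) (nat_lit 3567))))))) (.a (.p (nat_lit 462) (.a (.f (nat_lit 559) (nat_lit 591) (nat_lit 4558) (.f (nat_lit 527) (nat_lit 430) (nat_lit 4526) (.d (nat_lit 557) (nat_lit 556) (nat_lit 2572) (nat_lit 589) (nat_lit 5581)))) (.a (.f (nat_lit 463) (nat_lit 431) (nat_lit 6574) (.f (nat_lit 590) (nat_lit 495) (nat_lit 6606) (.d (nat_lit 589) (nat_lit 557) (nat_lit 5581) (nat_lit 621) (nat_lit 5613)))) (.f (nat_lit 559) (nat_lit 591) (nat_lit 4558) (.f (nat_lit 430) (nat_lit 527) (nat_lit 4526) (.d (nat_lit 431) (nat_lit 399) (nat_lit 6542) (nat_lit 463) (nat_lit 6574))))))) (.a (.p (nat_lit 590) (.a (.f (nat_lit 623) (nat_lit 591) (nat_lit 4590) (.f (nat_lit 622) (nat_lit 655) (nat_lit 4622) (.d (nat_lit 621) (nat_lit 589) (nat_lit 5613) (nat_lit 653) (nat_lit 5645)))) (.f (nat_lit 495) (nat_lit 463) (nat_lit 6606) (.f (nat_lit 529) (nat_lit 493) (nat_lit 493) (.d (nat_lit 530)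 (nat_lit 497) (nat_lit 494) (nat_lit 531) (nat_lit 3567)))))) (.a (.p (nat_lit 557) (.a (.f (nat_lit 527) (nat_lit 529) (nat_lit 1549) (.d (nat_lit 556) (nat_lit 555) (nat_lit 2571) (nat_lit 559) (nat_lit 2572))) (.a (.f (nat_lit 462) (nat_lit 589) (nat_lit 5581) (.f (nat_lit 559) (nat_lit 591) (nat_lit 4558) (.d (nat_lit 527) (nat_lit 430) (nat_lit 4526) (nat_lit 556) (nat_lit 2572)))) (.f (nat_lit 589) (nat_lit 462) (nat_lit 5581) (.d (nat_lit 621) (nat_lit 590) (nat_lit 5613) (nat_lit 653) (nat_lit 6669)))))) (.a (.p (nat_lit 462) (.a (.f (nat_lit 463) (nat_lit 431) (nat_lit 6574) (.f (nat_lit 495) (nat_lit 590) (nat_lit 6606) (.f (nat_lit 529) (nat_lit 493) (nat_lit 493) (.d (nat_lit 530) (nat_lit 497) (nat_lit 494) (nat_lit 531) (nat_lit 3567))))) (.a (.f (nat_lit 463) (nat_lit 431) (nat_lit 6574) (.f (nat_lit 590) (nat_lit 495) (nat_lit 6606) (.d (nat_lit 589) (nat_lit 557) (nat_lit 5581) (nat_lit 621) (nat_lit 5613)))) (.f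 (nat_lit 557) (nat_lit 589) (nat_lit 5581) (.f (nat_lit 527) (nat_lit 529) (nat_lit 1549) (.d (nat_lit 556) (nat_lit 555) (nat_lit 2571) (nat_lit 559) (nat_lit 2572))))))) (.p (nat_lit 529) (.a (.f (nat_lit 527) (nat_lit 557) (nat_lit 1549) (.d (nat_lit 530) (nat_lit 495) (nat_lit 3566) (nat_lit 559) (nat_lit 1550))) (.a (.f (nat_lit 495) (nat_lit 493) (nat_lit 493) (.d (nat_lit 530) (nat_lit 497) (nat_lit 494) (nat_lit 531) (nat_lit 3567))) (.d (nat_lit 527) (nat_lit 493) (nat_lit 3565) (nat_lit 557) (nat_lit 1549)))))))))))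
noncomputable def s22736 : Cert := .r (nat_lit 943490607303752963885873112637680217458077575918944702130520568442211743410429832871165011909316394071404203324427380869510001201393220676171100106987855603323790950400) (.p (nat_lit 494) (.a (.p (nat_lit 527) (.a (.f (nat_lit 525) (nat_lit 497) (nat_lit 2541) (.f (nat_lit 495) (nat_lit 524) (nat_lit 2540) (.d (nat_lit 463) (nat_lit 431) (nat_lit 5550) (nat_lit 590) (nat_lit 6606)))) (.f (nat_lit 529) (nat_lit 493) (nat_lit 3565) (.f (nat_lit 559) (nat_lit 530) (nat_lit 1550) (.d (nat_lit 462) (nat_lit 430) (nat_lit 4526) (nat_lit 591) (nat_lit 4558)))))) (.a (.p (nat_lit 590) (.a (.f (nat_lit 495) (nat_lit 463) (nat_lit 6606) (.f (nat_lit 525) (nat_lit 497) (nat_lit 1517) (.d (nat_lit 524) (nat_lit 523) (nat_lit 2539) (nat_lit 527) (nat_lit 2540)))) (.f (nat_lit 623) (nat_lit 591) (nat_lit 4590) (.f (nat_lit 622) (nat_lit 655) (nat_lit 4622) (.d (nat_lit 621) (nat_lit 589) (nat_lit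 5613) (nat_lit 653) (nat_lit 5645)))))) (.a (.p (nat_lit 590) (.a (.f (nat_lit 623) (nat_lit 591) (nat_lit 4590) (.f (nat_lit 622) (nat_lit 655) (nat_lit 4622) (.d (nat_lit 621) (nat_lit 589) (nat_lit 5613) (nat_lit 653) (nat_lit 5645)))) (.f (nat_lit 495) (nat_lit 463) (nat_lit 6606) (.f (nat_lit 529) (nat_lit 493) (nat_lit 493) (.d (nat_lit 530) (nat_lit 497) (nat_lit 494) (nat_lit 531) (nat_lit 3567)))))) (.a (.p (nat_lit 527) (.a (.f (nat_lit 529) (nat_lit 493) (nat_lit 3565) (.f (nat_lit 559) (nat_lit 530) (nat_lit 1550) (.d (nat_lit 462) (nat_lit 430) (nat_lit 4526) (nat_lit 591) (nat_lit 4558)))) (.a (.f (nat_lit 525) (nat_lit 497) (nat_lit 2541) (.f (nat_lit 560) (nat_lit 561) (nat_lit 525) (.f (nat_lit 559) (nat_lit 524) (nat_lit 524) (.d (nat_lit 462) (nat_lit 430) (nat_lit 4526) (nat_lit 591) (nat_lit 4558))))) (.f (nat_lit 493) (nat_lit 529) (nat_lit 3565) (.d (nat_lit 492) (nat_lit 491) (nat_lit 491) (nat_lit 525) (nat_lit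 3564)))))) (.a s22665 (.p (nat_lit 527) (.a (.f (nat_lit 493) (nat_lit 529) (nat_lit 3565) (.d (nat_lit 492) (nat_lit 491) (nat_lit 491) (nat_lit 525) (nat_lit 3564))) (.a (.f (nat_lit 525) (nat_lit 497) (nat_lit 2541) (.f (nat_lit 524) (nat_lit 495) (nat_lit 2540) (.f (nat_lit 491) (nat_lit 492) (nat_lit 3563) (.f (nat_lit 523) (nat_lit 490) (nat_lit 3562) (.d (nat_lit 555) (nat_lit 554) (nat_lit 1546) (nat_lit 556) (nat_lit 1547)))))) (.f (nat_lit 529) (nat_lit 493) (nat_lit 3565) (.f (nat_lit 530) (nat_lit 495) (nat_lit 3566) (.d (nat_lit 562) (nat_lit 561) (nat_lit 526) (nat_lit 563) (nat_lit 527)))))))))))))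
noncomputable def s22753 : Cert := .r (nat_lit 878694100701304956511192169158242687862212665431883220280182872118455237980908336946979793684870563807462937680039967586724118902039808942127312687095760289792) (.p (nat_lit 558) (.a s21581 (.a (.p (nat_lit 526) (.a s19088 (.a s21575 (.a s21689 (.a s21693 (.a s21701 (.a s21781 (.a s21783 (.a s21786 (.a s21788 (.a s21807 (.a s21809 s21819)))))))))))) (.a (.p (nat_lit 526) (.a s19113 (.a s21575 (.a s21890 (.a s21897 (.a s21905 (.a s21948 (.a s21949 (.a s21981 (.a s21983 (.a s21998 (.a s22023 (.a s22039 (.a s22046 s22047)))))))))))))) (.a (.p (nat_lit 526) (.a s19123 (.a s21689 (.a s21890 (.a s22104 (.a s22239 (.a s22244 (.a s22246 (.a s22258 s22333))))))))) (.a (.p (nat_lit 526) (.a (.p (nat_lit 527) (.a (.f (nat_lit 525) (nat_lit 497) (nat_lit 2541) (.d (nat_lit 557) (nat_lit 529) (nat_lit 1549) (nat_lit 556) (nat_lit 1548))) (.a (.f (nat_lit 525) (nat_lit 497) (nat_lit 2541) (.f (nat_lit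 524) (nat_lit 495) (nat_lit 2540) (.d (nat_lit 492) (nat_lit 491) (nat_lit 3563) (nat_lit 493) (nat_lit 3564)))) (.f (nat_lit 529) (nat_lit 557) (nat_lit 1549) (.f (nat_lit 494) (nat_lit 493) (nat_lit 3565) (.f (nat_lit 495) (nat_lit 530) (nat_lit 3566) (.d (nat_lit 463) (nat_lit 431) (nat_lit 5550) (nat_lit 590) (nat_lit 6606)))))))) (.a s21693 (.a s21897 (.a s22104 (.a s22399 (.a s22408 (.a s22415 (.a s22416 s22428))))))))) (.a (.p (nat_lit 560) (.a (.p (nat_lit 592) (.a (.f (nat_lit 593) (nat_lit 625) (nat_lit 4592) (.f (nat_lit 559) (nat_lit 557) (nat_lit 557) (.d (nat_lit 591) (nat_lit 594) (nat_lit 3630) (nat_lit 623) (nat_lit 5615)))) (.a (.f (nat_lit 495) (nat_lit 463) (nat_lit 7631) (.f (nat_lit 624) (nat_lit 527) (nat_lit 7663) (.d (nat_lit 623) (nat_lit 591) (nat_lit 5615) (nat_lit 655) (nat_lit 5647)))) (.f (nat_lit 593) (nat_lit 625) (nat_lit 4592) (.f (nat_lit 559) (nat_lit 557) (nat_lit 557) (.d (nat_lit 594) (nat_lit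 561) (nat_lit 558) (nat_lit 595) (nat_lit 3631))))))) (.a (.p (nat_lit 592) (.a (.f (nat_lit 593) (nat_lit 625) (nat_lit 4592) (.f (nat_lit 559) (nat_lit 557) (nat_lit 557) (.d (nat_lit 591) (nat_lit 594) (nat_lit 3630) (nat_lit 623) (nat_lit 5615)))) (.a (.f (nat_lit 591) (nat_lit 623) (nat_lit 5615) (.f (nat_lit 593) (nat_lit 625) (nat_lit 4592) (.f (nat_lit 590) (nat_lit 557) (nat_lit 3629) (.d (nat_lit 561) (nat_lit 562) (nat_lit 2606) (nat_lit 589) (nat_lit 2605))))) (.a (.f (nat_lit 593) (nat_lit 625) (nat_lit 4592) (.f (nat_lit 559) (nat_lit 557) (nat_lit 557) (.d (nat_lit 594) (nat_lit 561) (nat_lit 558) (nat_lit 595) (nat_lit 3631)))) (.f (nat_lit 497) (nat_lit 465) (nat_lit 6608) (.f (nat_lit 529) (nat_lit 624) (nat_lit 6640) (.f (nat_lit 495) (nat_lit 463) (nat_lit 7631) (.d (nat_lit 494) (nat_lit 493) (nat_lit 493) (nat_lit 530) (nat_lit 494))))))))) (.a s22440 (.a (.p (nat_lit 592) (.a (.f (nat_lit 591) (nat_lit 623)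 (nat_lit 5615) (.f (nat_lit 593) (nat_lit 625) (nat_lit 4592) (.f (nat_lit 590) (nat_lit 557) (nat_lit 3629) (.d (nat_lit 561) (nat_lit 562) (nat_lit 2606) (nat_lit 589) (nat_lit 2605))))) (.a (.f (nat_lit 497) (nat_lit 465) (nat_lit 6608) (.f (nat_lit 624) (nat_lit 529) (nat_lit 6640) (.d (nat_lit 623) (nat_lit 591) (nat_lit 5615) (nat_lit 655) (nat_lit 5647)))) (.f (nat_lit 497) (nat_lit 465) (nat_lit 6608) (.f (nat_lit 624) (nat_lit 529) (nat_lit 6640) (.d (nat_lit 625) (nat_lit 593) (nat_lit 4592) (nat_lit 657) (nat_lit 4624))))))) (.a s22469 (.a (.p (nat_lit 592) (.a (.f (nat_lit 593) (nat_lit 625) (nat_lit 4592) (.f (nat_lit 559) (nat_lit 557) (nat_lit 557) (.d (nat_lit 591) (nat_lit 594) (nat_lit 3630) (nat_lit 623) (nat_lit 5615)))) (.a (.f (nat_lit 497) (nat_lit 465) (nat_lit 6608) (.f (nat_lit 624) (nat_lit 529) (nat_lit 6640) (.d (nat_lit 623) (nat_lit 591) (nat_lit 5615) (nat_lit 655) (nat_lit 5647)))) (.f (nat_lit 497)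 (nat_lit 465) (nat_lit 6608) (.f (nat_lit 624) (nat_lit 529) (nat_lit 6640) (.d (nat_lit 625) (nat_lit 593) (nat_lit 4592) (nat_lit 657) (nat_lit 4624))))))) (.a s22480 (.a (.p (nat_lit 592) (.a (.f (nat_lit 495) (nat_lit 463) (nat_lit 7631) (.f (nat_lit 624) (nat_lit 527) (nat_lit 7663) (.d (nat_lit 623) (nat_lit 591) (nat_lit 5615) (nat_lit 655) (nat_lit 5647)))) (.a (.f (nat_lit 497) (nat_lit 465) (nat_lit 6608) (.f (nat_lit 529) (nat_lit 624) (nat_lit 6640) (.f (nat_lit 495) (nat_lit 463) (nat_lit 7631) (.d (nat_lit 494) (nat_lit 493) (nat_lit 493) (nat_lit 530) (nat_lit 494))))) (.a (.f (nat_lit 497) (nat_lit 465) (nat_lit 6608) (.f (nat_lit 624) (nat_lit 529) (nat_lit 6640) (.d (nat_lit 623) (nat_lit 591) (nat_lit 5615) (nat_lit 655) (nat_lit 5647)))) (.p (nat_lit 529) (.a (.f (nat_lit 559) (nat_lit 557) (nat_lit 2573) (.d (nat_lit 530) (nat_lit 531) (nat_lit 1551) (nat_lit 561) (nat_lit 2574))) (.a (.f (nat_lit 497) (nat_lit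 465) (nat_lit 6608) (.f (nat_lit 495) (nat_lit 463) (nat_lit 7631) (.d (nat_lit 494) (nat_lit 493) (nat_lit 493) (nat_lit 530) (nat_lit 494)))) (.f (nat_lit 559) (nat_lit 557) (nat_lit 2573) (.f (nat_lit 591) (nat_lit 623) (nat_lit 5615) (.f (nat_lit 495) (nat_lit 463) (nat_lit 7631) (.f (nat_lit 497) (nat_lit 465) (nat_lit 6608) (.f (nat_lit 494) (nat_lit 493) (nat_lit 493) (.d (nat_lit 462) (nat_lit 461) (nat_lit 3533) (nat_lit 527) (nat_lit 7630)))))))))))))) (.p (nat_lit 592) (.a (.f (nat_lit 495) (nat_lit 463) (nat_lit 7631) (.f (nat_lit 624) (nat_lit 527) (nat_lit 7663) (.d (nat_lit 623) (nat_lit 591) (nat_lit 5615) (nat_lit 655) (nat_lit 5647)))) (.a (.f (nat_lit 497) (nat_lit 465) (nat_lit 6608) (.f (nat_lit 529) (nat_lit 624) (nat_lit 6640) (.f (nat_lit 495) (nat_lit 463) (nat_lit 7631) (.d (nat_lit 494) (nat_lit 493) (nat_lit 493) (nat_lit 530) (nat_lit 494))))) (.f (nat_lit 593) (nat_lit 625) (nat_lit 4592) (.f (nat_lit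 591) (nat_lit 623) (nat_lit 5615) (.f (nat_lit 594) (nat_lit 559) (nat_lit 3630) (.f (nat_lit 562) (nat_lit 563) (nat_lit 2607) (.f (nat_lit 561) (nat_lit 590) (nat_lit 2606) (.f (nat_lit 626) (nat_lit 627) (nat_lit 591) (.d (nat_lit 497) (nat_lit 465) (nat_lit 6608) (nat_lit 529) (nat_lit 4593)))))))))))))))))))) (.a (.p (nat_lit 526) (.a s19136 (.a s21701 (.a s21905 (.a s22239 (.a s22399 (.a s22555 (.a s22558 (.a s22564 (.a s22582 (.a s22585 (.a s22590 (.a s22592 s22593))))))))))))) (.a (.p (nat_lit 526) (.a (.p (nat_lit 527) (.a (.f (nat_lit 525) (nat_lit 497) (nat_lit 2541) (.d (nat_lit 557) (nat_lit 529) (nat_lit 1549) (nat_lit 556) (nat_lit 1548))) (.a (.f (nat_lit 525) (nat_lit 497) (nat_lit 2541) (.f (nat_lit 524) (nat_lit 495) (nat_lit 2540) (.d (nat_lit 492) (nat_lit 491) (nat_lit 3563) (nat_lit 493) (nat_lit 3564)))) (.f (nat_lit 529) (nat_lit 557) (nat_lit 1549) (.f (nat_lit 530) (nat_lit 559) (nat_lit 1550) (.d (nat_lit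 562) (nat_lit 561) (nat_lit 526) (nat_lit 563) (nat_lit 527))))))) (.a s21781 (.a s21948 (.a s22408 (.a s22555 (.a (.p (nat_lit 527) (.a (.f (nat_lit 525) (nat_lit 497) (nat_lit 2541) (.d (nat_lit 557) (nat_lit 529) (nat_lit 1549) (nat_lit 556) (nat_lit 1548))) (.a (.f (nat_lit 525) (nat_lit 497) (nat_lit 2541) (.f (nat_lit 524) (nat_lit 495) (nat_lit 2540) (.d (nat_lit 492) (nat_lit 491) (nat_lit 3563) (nat_lit 493) (nat_lit 3564)))) (.f (nat_lit 557) (nat_lit 529) (nat_lit 1549) (.d (nat_lit 556) (nat_lit 555) (nat_lit 2571) (nat_lit 559) (nat_lit 2572)))))) (.a s22603 s22629)))))))) (.a (.p (nat_lit 526) (.a (.p (nat_lit 527) (.a (.f (nat_lit 525) (nat_lit 497) (nat_lit 2541) (.d (nat_lit 557) (nat_lit 529) (nat_lit 1549) (nat_lit 556) (nat_lit 1548))) (.a (.f (nat_lit 525) (nat_lit 497) (nat_lit 2541) (.f (nat_lit 524) (nat_lit 495) (nat_lit 2540) (.d (nat_lit 492) (nat_lit 491) (nat_lit 3563) (nat_lit 493) (nat_lit 3564))))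 (.f (nat_lit 529) (nat_lit 557) (nat_lit 1549) (.f (nat_lit 494) (nat_lit 493) (nat_lit 3565) (.d (nat_lit 530) (nat_lit 495) (nat_lit 3566) (nat_lit 559) (nat_lit 1550))))))) (.a s19088 (.a s19113 (.a s19123 (.a (.p (nat_lit 527) (.a (.f (nat_lit 525) (nat_lit 497) (nat_lit 2541) (.d (nat_lit 557) (nat_lit 529) (nat_lit 1549) (nat_lit 556) (nat_lit 1548))) (.a (.f (nat_lit 525) (nat_lit 497) (nat_lit 2541) (.f (nat_lit 524) (nat_lit 495) (nat_lit 2540) (.d (nat_lit 492) (nat_lit 491) (nat_lit 3563) (nat_lit 493) (nat_lit 3564)))) (.f (nat_lit 529) (nat_lit 557) (nat_lit 1549) (.f (nat_lit 494) (nat_lit 493) (nat_lit 3565) (.f (nat_lit 495) (nat_lit 530) (nat_lit 3566) (.d (nat_lit 463) (nat_lit 431) (nat_lit 5550) (nat_lit 590) (nat_lit 6606)))))))) (.a s19136 (.a (.p (nat_lit 527) (.a (.f (nat_lit 525) (nat_lit 497) (nat_lit 2541) (.d (nat_lit 557) (nat_lit 529) (nat_lit 1549) (nat_lit 556) (nat_lit 1548))) (.a (.f (nat_lit 525)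 (nat_lit 497) (nat_lit 2541) (.f (nat_lit 524) (nat_lit 495) (nat_lit 2540) (.d (nat_lit 492) (nat_lit 491) (nat_lit 3563) (nat_lit 493) (nat_lit 3564)))) (.f (nat_lit 557) (nat_lit 529) (nat_lit 1549) (.d (nat_lit 556) (nat_lit 555) (nat_lit 2571) (nat_lit 559) (nat_lit 2572)))))) (.a s19156 (.a s22631 s19263)))))))))) (.a (.p (nat_lit 526) (.a s19156 (.a s21783 (.a s21949 (.a s22246 (.a s21577 (.a s22415 (.a s22558 (.a s22603 (.a s22642 (.a s22655 (.a s22658 (.a s22666 (.a s22668 (.a s22682 s22684))))))))))))))) (.a (.p (nat_lit 560) (.a (.p (nat_lit 592) (.a (.f (nat_lit 593) (nat_lit 625) (nat_lit 4592) (.f (nat_lit 559) (nat_lit 557) (nat_lit 557) (.d (nat_lit 591) (nat_lit 594) (nat_lit 3630) (nat_lit 623) (nat_lit 5615)))) (.a (.f (nat_lit 495) (nat_lit 463) (nat_lit 7631) (.f (nat_lit 624) (nat_lit 527) (nat_lit 7663) (.d (nat_lit 623) (nat_lit 591) (nat_lit 5615) (nat_lit 655) (nat_lit 5647)))) (.f (nat_lit 593) (nat_lit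 625) (nat_lit 4592) (.f (nat_lit 559) (nat_lit 557) (nat_lit 557) (.d (nat_lit 594) (nat_lit 561) (nat_lit 558) (nat_lit 595) (nat_lit 3631))))))) (.a s22440 (.a (.p (nat_lit 592) (.a (.f (nat_lit 591) (nat_lit 623) (nat_lit 5615) (.f (nat_lit 593) (nat_lit 625) (nat_lit 4592) (.f (nat_lit 590) (nat_lit 557) (nat_lit 3629) (.d (nat_lit 561) (nat_lit 562) (nat_lit 2606) (nat_lit 589) (nat_lit 2605))))) (.a (.f (nat_lit 497) (nat_lit 465) (nat_lit 6608) (.f (nat_lit 624) (nat_lit 529) (nat_lit 6640) (.d (nat_lit 623) (nat_lit 591) (nat_lit 5615) (nat_lit 655) (nat_lit 5647)))) (.f (nat_lit 497) (nat_lit 465) (nat_lit 6608) (.f (nat_lit 624) (nat_lit 529) (nat_lit 6640) (.d (nat_lit 625) (nat_lit 593) (nat_lit 4592) (nat_lit 657) (nat_lit 4624))))))) (.a s22469 (.a (.p (nat_lit 592) (.a (.f (nat_lit 593) (nat_lit 625) (nat_lit 4592) (.f (nat_lit 559) (nat_lit 557) (nat_lit 557) (.d (nat_lit 591) (nat_lit 594) (nat_lit 3630) (nat_lit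 623) (nat_lit 5615)))) (.a (.f (nat_lit 497) (nat_lit 465) (nat_lit 6608) (.f (nat_lit 624) (nat_lit 529) (nat_lit 6640) (.d (nat_lit 623) (nat_lit 591) (nat_lit 5615) (nat_lit 655) (nat_lit 5647)))) (.f (nat_lit 497) (nat_lit 465) (nat_lit 6608) (.f (nat_lit 624) (nat_lit 529) (nat_lit 6640) (.d (nat_lit 625) (nat_lit 593) (nat_lit 4592) (nat_lit 657) (nat_lit 4624))))))) (.a s22480 (.a (.p (nat_lit 592) (.a (.f (nat_lit 495) (nat_lit 463) (nat_lit 7631) (.f (nat_lit 624) (nat_lit 527) (nat_lit 7663) (.d (nat_lit 623) (nat_lit 591) (nat_lit 5615) (nat_lit 655) (nat_lit 5647)))) (.a (.f (nat_lit 497) (nat_lit 465) (nat_lit 6608) (.f (nat_lit 624) (nat_lit 529) (nat_lit 6640) (.d (nat_lit 623) (nat_lit 591) (nat_lit 5615) (nat_lit 655) (nat_lit 5647)))) (.a (.f (nat_lit 497) (nat_lit 465) (nat_lit 6608) (.f (nat_lit 624) (nat_lit 529) (nat_lit 6640) (.f (nat_lit 655) (nat_lit 623) (nat_lit 5647) (.f (nat_lit 656) (nat_lit 687) (nat_lit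 5679) (.d (nat_lit 657) (nat_lit 625) (nat_lit 4624) (nat_lit 689) (nat_lit 4656)))))) s22695)))) (.a (.p (nat_lit 592) (.a (.f (nat_lit 495) (nat_lit 463) (nat_lit 7631) (.f (nat_lit 624) (nat_lit 527) (nat_lit 7663) (.d (nat_lit 623) (nat_lit 591) (nat_lit 5615) (nat_lit 655) (nat_lit 5647)))) (.a (.f (nat_lit 593) (nat_lit 625) (nat_lit 4592) (.f (nat_lit 591) (nat_lit 623) (nat_lit 5615) (.f (nat_lit 594) (nat_lit 559) (nat_lit 3630) (.f (nat_lit 562) (nat_lit 563) (nat_lit 2607) (.f (nat_lit 561) (nat_lit 590) (nat_lit 2606) (.f (nat_lit 626) (nat_lit 627) (nat_lit 591) (.d (nat_lit 497) (nat_lit 465) (nat_lit 6608) (nat_lit 529) (nat_lit 4593)))))))) (.f (nat_lit 497) (nat_lit 465) (nat_lit 6608) (.f (nat_lit 624) (nat_lit 529) (nat_lit 6640) (.d (nat_lit 625) (nat_lit 593) (nat_lit 4592) (nat_lit 657) (nat_lit 4624))))))) (.p (nat_lit 592) (.a (.f (nat_lit 495) (nat_lit 463) (nat_lit 7631) (.f (nat_lit 624) (nat_lit 527) (nat_lit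 7663) (.d (nat_lit 623) (nat_lit 591) (nat_lit 5615) (nat_lit 655) (nat_lit 5647)))) (.a (.f (nat_lit 497) (nat_lit 465) (nat_lit 6608) (.f (nat_lit 624) (nat_lit 529) (nat_lit 6640) (.d (nat_lit 623) (nat_lit 591) (nat_lit 5615) (nat_lit 655) (nat_lit 5647)))) (.a (.f (nat_lit 497) (nat_lit 465) (nat_lit 6608) (.f (nat_lit 529) (nat_lit 624) (nat_lit 6640) (.f (nat_lit 559) (nat_lit 557) (nat_lit 2573) (.d (nat_lit 530) (nat_lit 527) (nat_lit 1550) (nat_lit 531) (nat_lit 1551))))) s22695))))))))))))) (.a (.p (nat_lit 526) (.a (.p (nat_lit 527) (.a (.f (nat_lit 525) (nat_lit 497) (nat_lit 2541) (.d (nat_lit 557) (nat_lit 529) (nat_lit 1549) (nat_lit 556) (nat_lit 1548))) (.a (.f (nat_lit 525) (nat_lit 497) (nat_lit 2541) (.f (nat_lit 524) (nat_lit 495) (nat_lit 2540) (.d (nat_lit 492) (nat_lit 491) (nat_lit 3563) (nat_lit 493) (nat_lit 3564)))) (.f (nat_lit 529) (nat_lit 557) (nat_lit 1549) (.f (nat_lit 494) (nat_lit 493) (nat_lit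 3565) (.d (nat_lit 530) (nat_lit 495) (nat_lit 3566) (nat_lit 559) (nat_lit 1550))))))) (.a s21693 (.a s21983 (.a s22244 (.a s22564 (.a s22655 (.a s19164 s22702)))))))) (.a (.p (nat_lit 526) (.a (.p (nat_lit 527) (.a (.f (nat_lit 525) (nat_lit 497) (nat_lit 2541) (.d (nat_lit 557) (nat_lit 529) (nat_lit 1549) (nat_lit 556) (nat_lit 1548))) (.a (.f (nat_lit 525) (nat_lit 497) (nat_lit 2541) (.f (nat_lit 524) (nat_lit 495) (nat_lit 2540) (.d (nat_lit 492) (nat_lit 491) (nat_lit 3563) (nat_lit 493) (nat_lit 3564)))) (.f (nat_lit 529) (nat_lit 557) (nat_lit 1549) (.f (nat_lit 494) (nat_lit 493) (nat_lit 3565) (.d (nat_lit 530) (nat_lit 495) (nat_lit 3566) (nat_lit 559) (nat_lit 1550))))))) (.a s21786 (.a s21948 (.a s22408 (.a s22582 (.a s22658 (.a s22258 (.a s22705 (.p (nat_lit 527) (.a (.f (nat_lit 525) (nat_lit 497) (nat_lit 2541) (.f (nat_lit 524) (nat_lit 495) (nat_lit 2540) (.d (nat_lit 492) (nat_lit 491) (nat_lit 3563) (nat_lit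 493) (nat_lit 3564)))) (.a (.f (nat_lit 529) (nat_lit 557) (nat_lit 1549) (.f (nat_lit 559) (nat_lit 530) (nat_lit 1550) (.f (nat_lit 494) (nat_lit 493) (nat_lit 3565) (.d (nat_lit 462) (nat_lit 430) (nat_lit 4526) (nat_lit 591) (nat_lit 4558))))) (.f (nat_lit 529) (nat_lit 557) (nat_lit 1549) (.f (nat_lit 530) (nat_lit 559) (nat_lit 1550) (.d (nat_lit 562) (nat_lit 561) (nat_lit 526) (nat_lit 563) (nat_lit 527)))))))))))))))) (.a (.p (nat_lit 526) (.a s19183 (.a s21788 (.a s21998 (.a s22333 (.a s22428 (.a s22585 (.a s22629 (.a s22666 (.a s22702 (.a s22705 s22709))))))))))) (.a (.p (nat_lit 526) (.a (.p (nat_lit 527) (.a (.f (nat_lit 525) (nat_lit 497) (nat_lit 2541) (.d (nat_lit 557) (nat_lit 529) (nat_lit 1549) (nat_lit 556) (nat_lit 1548))) (.a (.f (nat_lit 525) (nat_lit 497) (nat_lit 2541) (.f (nat_lit 524) (nat_lit 495) (nat_lit 2540) (.d (nat_lit 492) (nat_lit 491) (nat_lit 3563) (nat_lit 493) (nat_lit 3564)))) (.f (nat_lit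 529) (nat_lit 557) (nat_lit 1549) (.f (nat_lit 494) (nat_lit 493) (nat_lit 3565) (.d (nat_lit 530) (nat_lit 495) (nat_lit 3566) (nat_lit 559) (nat_lit 1550))))))) (.a s21693 (.a s21983 (.a s19123 (.a s22590 (.a (.p (nat_lit 527) (.a (.f (nat_lit 525) (nat_lit 497) (nat_lit 2541) (.d (nat_lit 557) (nat_lit 529) (nat_lit 1549) (nat_lit 556) (nat_lit 1548))) (.a (.f (nat_lit 525) (nat_lit 497) (nat_lit 2541) (.f (nat_lit 524) (nat_lit 495) (nat_lit 2540) (.d (nat_lit 492) (nat_lit 491) (nat_lit 3563) (nat_lit 493) (nat_lit 3564)))) (.f (nat_lit 529) (nat_lit 557) (nat_lit 1549) (.f (nat_lit 530) (nat_lit 559) (nat_lit 1550) (.d (nat_lit 562) (nat_lit 561) (nat_lit 526) (nat_lit 563) (nat_lit 527))))))) (.a s22668 (.a s19164 s22702))))))))) (.a (.p (nat_lit 526) (.a (.p (nat_lit 527) (.a (.f (nat_lit 525) (nat_lit 497) (nat_lit 2541) (.d (nat_lit 557) (nat_lit 529) (nat_lit 1549) (nat_lit 556) (nat_lit 1548))) (.a (.f (nat_lit 525) (nat_lit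 497) (nat_lit 2541) (.f (nat_lit 524) (nat_lit 495) (nat_lit 2540) (.d (nat_lit 492) (nat_lit 491) (nat_lit 3563) (nat_lit 493) (nat_lit 3564)))) (.f (nat_lit 529) (nat_lit 557) (nat_lit 1549) (.f (nat_lit 494) (nat_lit 493) (nat_lit 3565) (.d (nat_lit 530) (nat_lit 495) (nat_lit 3566) (nat_lit 559) (nat_lit 1550))))))) (.a s21807 (.a s22023 (.a s22258 (.a s22408 (.a s22592 (.a s22682 (.a s22709 s22723))))))))) (.a (.p (nat_lit 526) (.a (.p (nat_lit 527) (.a (.f (nat_lit 525) (nat_lit 497) (nat_lit 2541) (.d (nat_lit 557) (nat_lit 529) (nat_lit 1549) (nat_lit 556) (nat_lit 1548))) (.a (.f (nat_lit 525) (nat_lit 497) (nat_lit 2541) (.f (nat_lit 524) (nat_lit 495) (nat_lit 2540) (.d (nat_lit 492) (nat_lit 491) (nat_lit 3563) (nat_lit 493) (nat_lit 3564)))) (.f (nat_lit 529) (nat_lit 557) (nat_lit 1549) (.f (nat_lit 494) (nat_lit 493) (nat_lit 3565) (.d (nat_lit 530) (nat_lit 495) (nat_lit 3566) (nat_lit 559) (nat_lit 1550))))))) (.a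 (.p (nat_lit 494) (.a (.p (nat_lit 462) (.a (.f (nat_lit 557) (nat_lit 589) (nat_lit 5581) (.f (nat_lit 525) (nat_lit 430) (nat_lit 5549) (.d (nat_lit 527) (nat_lit 497) (nat_lit 2541) (nat_lit 556) (nat_lit 1548)))) (.a (.f (nat_lit 463) (nat_lit 431) (nat_lit 6574) (.f (nat_lit 495) (nat_lit 590) (nat_lit 6606) (.f (nat_lit 525) (nat_lit 497) (nat_lit 1517) (.d (nat_lit 524) (nat_lit 493) (nat_lit 1516) (nat_lit 523) (nat_lit 2539))))) (.f (nat_lit 559) (nat_lit 591) (nat_lit 4558) (.f (nat_lit 527) (nat_lit 430) (nat_lit 4526) (.d (nat_lit 557) (nat_lit 556) (nat_lit 2572) (nat_lit 589) (nat_lit 5581))))))) (.a s21574 (.a s21688 (.a (.p (nat_lit 462) (.a (.f (nat_lit 557) (nat_lit 589) (nat_lit 5581) (.f (nat_lit 525) (nat_lit 430) (nat_lit 5549) (.d (nat_lit 527) (nat_lit 497) (nat_lit 2541) (nat_lit 556) (nat_lit 1548)))) (.a (.f (nat_lit 463) (nat_lit 431) (nat_lit 6574) (.f (nat_lit 495) (nat_lit 590) (nat_lit 6606) (.f (nat_lit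 525) (nat_lit 497) (nat_lit 1517) (.d (nat_lit 524) (nat_lit 493) (nat_lit 1516) (nat_lit 523) (nat_lit 2539))))) (.f (nat_lit 463) (nat_lit 431) (nat_lit 6574) (.f (nat_lit 590) (nat_lit 495) (nat_lit 6606) (.d (nat_lit 589) (nat_lit 557) (nat_lit 5581) (nat_lit 621) (nat_lit 5613))))))) (.a (.p (nat_lit 462) (.a (.f (nat_lit 559) (nat_lit 591) (nat_lit 4558) (.f (nat_lit 527) (nat_lit 430) (nat_lit 4526) (.d (nat_lit 557) (nat_lit 556) (nat_lit 2572) (nat_lit 589) (nat_lit 5581)))) (.a (.f (nat_lit 463) (nat_lit 431) (nat_lit 6574) (.f (nat_lit 590) (nat_lit 495) (nat_lit 6606) (.d (nat_lit 589) (nat_lit 557) (nat_lit 5581) (nat_lit 621) (nat_lit 5613)))) (.f (nat_lit 559) (nat_lit 591) (nat_lit 4558) (.f (nat_lit 430) (nat_lit 527) (nat_lit 4526) (.d (nat_lit 431) (nat_lit 399) (nat_lit 6542) (nat_lit 463) (nat_lit 6574))))))) (.a (.p (nat_lit 462) (.a (.f (nat_lit 557) (nat_lit 589) (nat_lit 5581) (.f (nat_lit 525) (nat_lit 430)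 (nat_lit 5549) (.d (nat_lit 527) (nat_lit 497) (nat_lit 2541) (nat_lit 556) (nat_lit 1548)))) (.a (.f (nat_lit 589) (nat_lit 557) (nat_lit 5581) (.f (nat_lit 590) (nat_lit 621) (nat_lit 5613) (.d (nat_lit 591) (nat_lit 559) (nat_lit 4558) (nat_lit 623) (nat_lit 4590)))) (.f (nat_lit 559) (nat_lit 591) (nat_lit 4558) (.f (nat_lit 527) (nat_lit 430) (nat_lit 4526) (.f (nat_lit 525) (nat_lit 497) (nat_lit 2541) (.d (nat_lit 524) (nat_lit 495) (nat_lit 2540) (nat_lit 523) (nat_lit 523)))))))) (.a (.p (nat_lit 590) (.a (.f (nat_lit 495) (nat_lit 463) (nat_lit 6606) (.f (nat_lit 525) (nat_lit 497) (nat_lit 1517) (.d (nat_lit 524) (nat_lit 523) (nat_lit 2539) (nat_lit 527) (nat_lit 2540)))) (.f (nat_lit 623) (nat_lit 591) (nat_lit 4590) (.f (nat_lit 622) (nat_lit 655) (nat_lit 4622) (.d (nat_lit 621) (nat_lit 589) (nat_lit 5613) (nat_lit 653) (nat_lit 5645)))))) (.a s22725 s21808))))))))) (.a s22039 (.a s22258 (.a (.p (nat_lit 527) (.a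 (.f (nat_lit 525) (nat_lit 497) (nat_lit 2541) (.d (nat_lit 557) (nat_lit 529) (nat_lit 1549) (nat_lit 556) (nat_lit 1548))) (.a (.f (nat_lit 525) (nat_lit 497) (nat_lit 2541) (.f (nat_lit 524) (nat_lit 495) (nat_lit 2540) (.d (nat_lit 492) (nat_lit 491) (nat_lit 3563) (nat_lit 493) (nat_lit 3564)))) (.f (nat_lit 529) (nat_lit 557) (nat_lit 1549) (.f (nat_lit 494) (nat_lit 493) (nat_lit 3565) (.f (nat_lit 495) (nat_lit 530) (nat_lit 3566) (.d (nat_lit 463) (nat_lit 431) (nat_lit 5550) (nat_lit 590) (nat_lit 6606)))))))) (.a s22735 (.a s22642 s22736)))))))) (.a (.p (nat_lit 526) (.a (.p (nat_lit 527) (.a (.f (nat_lit 525) (nat_lit 497) (nat_lit 2541) (.d (nat_lit 557) (nat_lit 529) (nat_lit 1549) (nat_lit 556) (nat_lit 1548))) (.a (.f (nat_lit 525) (nat_lit 497) (nat_lit 2541) (.f (nat_lit 524) (nat_lit 495) (nat_lit 2540) (.d (nat_lit 492) (nat_lit 491) (nat_lit 3563) (nat_lit 493) (nat_lit 3564)))) (.f (nat_lit 529) (nat_lit 557)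 (nat_lit 1549) (.f (nat_lit 494) (nat_lit 493) (nat_lit 3565) (.d (nat_lit 530) (nat_lit 495) (nat_lit 3566) (nat_lit 559) (nat_lit 1550))))))) (.a s21809 (.a s22046 (.a s19123 (.a (.p (nat_lit 527) (.a (.f (nat_lit 525) (nat_lit 497) (nat_lit 2541) (.d (nat_lit 557) (nat_lit 529) (nat_lit 1549) (nat_lit 556) (nat_lit 1548))) (.a (.f (nat_lit 525) (nat_lit 497) (nat_lit 2541) (.f (nat_lit 524) (nat_lit 495) (nat_lit 2540) (.d (nat_lit 492) (nat_lit 491) (nat_lit 3563) (nat_lit 493) (nat_lit 3564)))) (.f (nat_lit 529) (nat_lit 557) (nat_lit 1549) (.f (nat_lit 494) (nat_lit 493) (nat_lit 3565) (.f (nat_lit 495) (nat_lit 530) (nat_lit 3566) (.d (nat_lit 463) (nat_lit 431) (nat_lit 5550) (nat_lit 590) (nat_lit 6606)))))))) (.a s22593 (.a (.p (nat_lit 527) (.a (.f (nat_lit 525) (nat_lit 497) (nat_lit 2541) (.d (nat_lit 557) (nat_lit 529) (nat_lit 1549) (nat_lit 556) (nat_lit 1548))) (.a (.f (nat_lit 525) (nat_lit 497) (nat_lit 2541) (.f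 (nat_lit 524) (nat_lit 495) (nat_lit 2540) (.d (nat_lit 492) (nat_lit 491) (nat_lit 3563) (nat_lit 493) (nat_lit 3564)))) (.f (nat_lit 529) (nat_lit 557) (nat_lit 1549) (.f (nat_lit 530) (nat_lit 559) (nat_lit 1550) (.d (nat_lit 562) (nat_lit 561) (nat_lit 526) (nat_lit 563) (nat_lit 527))))))) (.a s22684 s19164))))))))) (.a (.p (nat_lit 526) (.a s19113 (.a s21575 (.a s22333 (.a s21897 (.a s21905 (.a s22603 (.a s21981 (.a s21983 (.p (nat_lit 527) (.a (.f (nat_lit 525) (nat_lit 497) (nat_lit 2541) (.f (nat_lit 524) (nat_lit 495) (nat_lit 2540) (.d (nat_lit 492) (nat_lit 491) (nat_lit 3563) (nat_lit 493) (nat_lit 3564)))) (.a (.f (nat_lit 529) (nat_lit 557) (nat_lit 1549) (.f (nat_lit 559) (nat_lit 530) (nat_lit 1550) (.f (nat_lit 494) (nat_lit 493) (nat_lit 3565) (.d (nat_lit 462) (nat_lit 430) (nat_lit 4526) (nat_lit 591) (nat_lit 4558))))) (.f (nat_lit 529) (nat_lit 557) (nat_lit 1549) (.f (nat_lit 530) (nat_lit 559) (nat_lit 1550)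 (.d (nat_lit 562) (nat_lit 561) (nat_lit 526) (nat_lit 563) (nat_lit 527)))))))))))))))) (.p (nat_lit 526) (.a s19123 (.a s21819 (.a s21905 (.a s22104 (.a (.p (nat_lit 527) (.a (.f (nat_lit 525) (nat_lit 497) (nat_lit 2541) (.d (nat_lit 557) (nat_lit 529) (nat_lit 1549) (nat_lit 556) (nat_lit 1548))) (.a (.f (nat_lit 525) (nat_lit 497) (nat_lit 2541) (.f (nat_lit 557) (nat_lit 556) (nat_lit 1548) (.f (nat_lit 493) (nat_lit 492) (nat_lit 3564) (.d (nat_lit 461) (nat_lit 429) (nat_lit 4525) (nat_lit 590) (nat_lit 4557))))) (.a (.f (nat_lit 529) (nat_lit 557) (nat_lit 1549) (.f (nat_lit 530) (nat_lit 559) (nat_lit 1550) (.d (nat_lit 562) (nat_lit 561) (nat_lit 526) (nat_lit 563) (nat_lit 527)))) (.f (nat_lit 525) (nat_lit 497) (nat_lit 2541) (.f (nat_lit 561) (nat_lit 560) (nat_lit 525) (.f (nat_lit 529) (nat_lit 562) (nat_lit 526) (.f (nat_lit 493) (nat_lit 492) (nat_lit 3564) (.f (nat_lit 590) (nat_lit 622) (nat_lit 7661) (.f (nat_lit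 559) (nat_lit 530) (nat_lit 1550) (.f (nat_lit 591) (nat_lit 623) (nat_lit 6639) (.f (nat_lit 495) (nat_lit 463) (nat_lit 5582) (.f (nat_lit 592) (nat_lit 624) (nat_lit 4591) (.d (nat_lit 593) (nat_lit 594) (nat_lit 3630) (nat_lit 625) (nat_lit 7664))))))))))))))) (.a s21577 (.a (.p (nat_lit 494) (.a (.p (nat_lit 462) (.a (.f (nat_lit 461) (nat_lit 429) (nat_lit 7597) (.f (nat_lit 495) (nat_lit 497) (nat_lit 3533) (.d (nat_lit 460) (nat_lit 459) (nat_lit 459) (nat_lit 463) (nat_lit 460)))) (.a (.f (nat_lit 557) (nat_lit 589) (nat_lit 5581) (.f (nat_lit 525) (nat_lit 430) (nat_lit 5549) (.d (nat_lit 527) (nat_lit 497) (nat_lit 2541) (nat_lit 556) (nat_lit 1548)))) (.f (nat_lit 463) (nat_lit 431) (nat_lit 6574) (.f (nat_lit 495) (nat_lit 590) (nat_lit 6606) (.d (nat_lit 461) (nat_lit 429) (nat_lit 7597) (nat_lit 460) (nat_lit 460))))))) (.a (.p (nat_lit 462) (.a (.f (nat_lit 461) (nat_lit 429) (nat_lit 7597) (.f (nat_lit 495) (nat_lit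 497) (nat_lit 3533) (.d (nat_lit 460) (nat_lit 459) (nat_lit 459) (nat_lit 463) (nat_lit 460)))) (.a (.f (nat_lit 429) (nat_lit 461) (nat_lit 7597) (.f (nat_lit 430) (nat_lit 397) (nat_lit 7565) (.d (nat_lit 431) (nat_lit 399) (nat_lit 6542) (nat_lit 463) (nat_lit 6574)))) (.f (nat_lit 589) (nat_lit 557) (nat_lit 5581) (.f (nat_lit 590) (nat_lit 621) (nat_lit 5613) (.d (nat_lit 591) (nat_lit 559) (nat_lit 4558) (nat_lit 623) (nat_lit 4590))))))) (.a (.p (nat_lit 462) (.a (.f (nat_lit 429) (nat_lit 461) (nat_lit 7597) (.f (nat_lit 430) (nat_lit 397) (nat_lit 7565) (.d (nat_lit 431) (nat_lit 399) (nat_lit 6542) (nat_lit 463) (nat_lit 6574)))) (.a (.f (nat_lit 559) (nat_lit 591) (nat_lit 4558) (.f (nat_lit 527) (nat_lit 430) (nat_lit 4526) (.d (nat_lit 557) (nat_lit 556) (nat_lit 2572) (nat_lit 589) (nat_lit 5581)))) (.f (nat_lit 557) (nat_lit 589) (nat_lit 5581) (.f (nat_lit 527) (nat_lit 529) (nat_lit 1549) (.d (nat_lit 556) (nat_lit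 525) (nat_lit 1548) (nat_lit 555) (nat_lit 2571))))))) (.a s22656 (.a s22583 (.p (nat_lit 590) (.a (.f (nat_lit 495) (nat_lit 463) (nat_lit 6606) (.f (nat_lit 497) (nat_lit 525) (nat_lit 1517) (.f (nat_lit 465) (nat_lit 466) (nat_lit 2510) (.f (nat_lit 529) (nat_lit 530) (nat_lit 494) (.d (nat_lit 433) (nat_lit 401) (nat_lit 5520) (nat_lit 560) (nat_lit 5552)))))) (.f (nat_lit 623) (nat_lit 591) (nat_lit 4590) (.f (nat_lit 622) (nat_lit 655) (nat_lit 4622) (.d (nat_lit 621) (nat_lit 589) (nat_lit 5613) (nat_lit 653) (nat_lit 5645)))))))))))) (.a s22564 (.a s22585 (.a s22723 s22735)))))))))))))))))))))))))))))))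
noncomputable def s22771 : Cert := .r (nat_lit 3773962425700235452942859537499461060075163908278653093808089520525807034510604090067035062124638561226338938838226782579810552216648911534601243193560008730745155616768) (.p (nat_lit 464) (.a (.f (nat_lit 433) (nat_lit 465) (nat_lit 6576) (.f (nat_lit 432) (nat_lit 401) (nat_lit 6544) (.d (nat_lit 431) (nat_lit 399) (nat_lit 7567) (nat_lit 463) (nat_lit 7599)))) (.a s19367 (.a (.f (nat_lit 561) (nat_lit 593) (nat_lit 4560) (.f (nat_lit 432) (nat_lit 529) (nat_lit 4528) (.d (nat_lit 433) (nat_lit 401) (nat_lit 6544) (nat_lit 465) (nat_lit 6576)))) (.f (nat_lit 561) (nat_lit 593) (nat_lit 4560) (.f (nat_lit 432) (nat_lit 529) (nat_lit 4528) (.d (nat_lit 431) (nat_lit 399) (nat_lit 7567) (nat_lit 463) (nat_lit 7599))))))))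
noncomputable def s22787 : Cert := .r (nat_lit 3773962425700235452942859537499461060075163908278653093808089520525807034510604090067035062124638561226338938838226782579810552216648911534601243193560008730745155616768) (.p (nat_lit 464) (.a (.f (nat_lit 463) (nat_lit 431) (nat_lit 7599) (.f (nat_lit 592) (nat_lit 495) (nat_lit 7631) (.d (nat_lit 465) (nat_lit 433) (nat_lit 6576) (nat_lit 497) (nat_lit 6608)))) (.a (.f (nat_lit 433) (nat_lit 465) (nat_lit 6576) (.f (nat_lit 432) (nat_lit 401) (nat_lit 6544) (.d (nat_lit 431) (nat_lit 399) (nat_lit 7567) (nat_lit 463) (nat_lit 7599)))) (.a (.f (nat_lit 465) (nat_lit 433) (nat_lit 6576) (.f (nat_lit 592) (nat_lit 497) (nat_lit 6608) (.f (nat_lit 623) (nat_lit 591) (nat_lit 5615) (.f (nat_lit 624) (nat_lit 655) (nat_lit 5647) (.d (nat_lit 625) (nat_lit 593) (nat_lit 4592) (nat_lit 657) (nat_lit 4624)))))) (.a (.f (nat_lit 463) (nat_lit 431) (nat_lit 7599) (.f (nat_lit 592) (nat_lit 495)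 (nat_lit 7631) (.f (nat_lit 497) (nat_lit 465) (nat_lit 6608) (.f (nat_lit 624) (nat_lit 529) (nat_lit 6640) (.d (nat_lit 623) (nat_lit 591) (nat_lit 5615) (nat_lit 655) (nat_lit 5647)))))) (.f (nat_lit 463) (nat_lit 431) (nat_lit 7599) (.f (nat_lit 592) (nat_lit 495) (nat_lit 7631) (.f (nat_lit 623) (nat_lit 591) (nat_lit 5615) (.f (nat_lit 624) (nat_lit 655) (nat_lit 5647) (.d (nat_lit 625) (nat_lit 593) (nat_lit 4592) (nat_lit 657) (nat_lit 4624)))))))))))
noncomputable def s22804 : Cert := .r (nat_lit 3773962425700235452942859537499461060075163908278653093808089520525807034510604090067035062124638561226338938838226782579810552216648911534601243193560008730745155616768) (.p (nat_lit 464) (.a (.f (nat_lit 465) (nat_lit 433) (nat_lit 6576) (.f (nat_lit 592) (nat_lit 497) (nat_lit 6608) (.d (nat_lit 593) (nat_lit 561) (nat_lit 4560) (nat_lit 625) (nat_lit 4592)))) (.a (.f (nat_lit 561) (nat_lit 593) (nat_lit 4560) (.f (nat_lit 432)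 (nat_lit 529) (nat_lit 4528) (.d (nat_lit 433) (nat_lit 401) (nat_lit 6544) (nat_lit 465) (nat_lit 6576)))) (.a (.f (nat_lit 465) (nat_lit 433) (nat_lit 6576) (.f (nat_lit 592) (nat_lit 497) (nat_lit 6608) (.f (nat_lit 623) (nat_lit 591) (nat_lit 5615) (.f (nat_lit 624) (nat_lit 655) (nat_lit 5647) (.d (nat_lit 625) (nat_lit 593) (nat_lit 4592) (nat_lit 657) (nat_lit 4624)))))) (.a (.f (nat_lit 433) (nat_lit 465) (nat_lit 6576) (.f (nat_lit 432) (nat_lit 401) (nat_lit 6544) (.f (nat_lit 399) (nat_lit 431) (nat_lit 7567) (.f (nat_lit 400) (nat_lit 367) (nat_lit 7535) (.d (nat_lit 529) (nat_lit 497) (nat_lit 4496) (nat_lit 561) (nat_lit 4528)))))) (.a (.f (nat_lit 593) (nat_lit 561) (nat_lit 4560) (.f (nat_lit 592) (nat_lit 625) (nat_lit 4592) (.f (nat_lit 623) (nat_lit 591) (nat_lit 5615) (.f (nat_lit 624) (nat_lit 655) (nat_lit 5647) (.d (nat_lit 497) (nat_lit 465) (nat_lit 6608) (nat_lit 529) (nat_lit 6640)))))) (.f (nat_lit 561)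 (nat_lit 593) (nat_lit 4560) (.f (nat_lit 432) (nat_lit 529) (nat_lit 4528) (.f (nat_lit 399) (nat_lit 431) (nat_lit 7567) (.f (nat_lit 400) (nat_lit 367) (nat_lit 7535) (.d (nat_lit 401) (nat_lit 369) (nat_lit 6512) (nat_lit 433) (nat_lit 6544))))))))))))
noncomputable def s22824 : Cert := .r (nat_lit 3773962425700235452942859537499461060075163908278653093808089520525807034510604090067035062124638561226338938838226782579810552216648911534601243193560008730745155616768) (.p (nat_lit 464) (.a (.f (nat_lit 463) (nat_lit 431) (nat_lit 7599) (.f (nat_lit 592) (nat_lit 495) (nat_lit 7631) (.d (nat_lit 593) (nat_lit 561) (nat_lit 4560) (nat_lit 625) (nat_lit 4592)))) (.a (.f (nat_lit 561) (nat_lit 593) (nat_lit 4560) (.f (nat_lit 432) (nat_lit 529) (nat_lit 4528) (.d (nat_lit 431) (nat_lit 399) (nat_lit 7567) (nat_lit 463) (nat_lit 7599)))) (.a (.f (nat_lit 463) (nat_lit 431) (nat_lit 7599) (.f (nat_lit 592) (nat_lit 495) (nat_lit 7631)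 (.f (nat_lit 623) (nat_lit 591) (nat_lit 5615) (.f (nat_lit 624) (nat_lit 655) (nat_lit 5647) (.d (nat_lit 625) (nat_lit 593) (nat_lit 4592) (nat_lit 657) (nat_lit 4624)))))) (.a (.f (nat_lit 561) (nat_lit 593) (nat_lit 4560) (.f (nat_lit 432) (nat_lit 529) (nat_lit 4528) (.f (nat_lit 399) (nat_lit 431) (nat_lit 7567) (.f (nat_lit 400) (nat_lit 367) (nat_lit 7535) (.d (nat_lit 401) (nat_lit 369) (nat_lit 6512) (nat_lit 433) (nat_lit 6544)))))) (.a (.f (nat_lit 463) (nat_lit 431) (nat_lit 7599) (.f (nat_lit 592) (nat_lit 495) (nat_lit 7631) (.f (nat_lit 623) (nat_lit 591) (nat_lit 5615) (.f (nat_lit 624) (nat_lit 655) (nat_lit 5647) (.f (nat_lit 529) (nat_lit 497) (nat_lit 6640) (.d (nat_lit 561) (nat_lit 432) (nat_lit 4528) (nat_lit 656) (nat_lit 6672))))))) (.f (nat_lit 561) (nat_lit 593) (nat_lit 4560) (.f (nat_lit 432) (nat_lit 529) (nat_lit 4528) (.f (nat_lit 401) (nat_lit 433) (nat_lit 6544) (.f (nat_lit 400) (nat_lit 369) (nat_lit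 6512) (.f (nat_lit 367) (nat_lit 399) (nat_lit 7535) (.f (nat_lit 368) (nat_lit 335) (nat_lit 7503) (.d (nat_lit 495) (nat_lit 463) (nat_lit 5487) (nat_lit 527) (nat_lit 5519))))))))))))))
noncomputable def s22827 : Cert := .r (nat_lit 1098367625876631195638990211447803359827765831789854025350228590148069047476135421183724742106088204759328672100049959483405148627549761177659140858869700362240) (.p (nat_lit 558) (.a (.p (nat_lit 462) (.a (.f (nat_lit 461) (nat_lit 429) (nat_lit 7597) (.f (nat_lit 495) (nat_lit 497) (nat_lit 3533) (.d (nat_lit 460) (nat_lit 459) (nat_lit 459) (nat_lit 463) (nat_lit 460)))) (.a (.f (nat_lit 557) (nat_lit 589) (nat_lit 5581) (.f (nat_lit 525) (nat_lit 430) (nat_lit 5549) (.d (nat_lit 527) (nat_lit 497) (nat_lit 2541) (nat_lit 556) (nat_lit 1548)))) (.f (nat_lit 463) (nat_lit 431) (nat_lit 6574) (.f (nat_lit 495) (nat_lit 590) (nat_lit 6606) (.d (nat_lit 461) (nat_lit 429) (nat_lit 7597) (nat_lit 460)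 (nat_lit 460))))))) (.a s19062 (.a (.p (nat_lit 462) (.a (.f (nat_lit 557) (nat_lit 589) (nat_lit 5581) (.f (nat_lit 525) (nat_lit 430) (nat_lit 5549) (.d (nat_lit 527) (nat_lit 497) (nat_lit 2541) (nat_lit 556) (nat_lit 1548)))) (.a (.f (nat_lit 429) (nat_lit 461) (nat_lit 7597) (.f (nat_lit 430) (nat_lit 397) (nat_lit 7565) (.d (nat_lit 431) (nat_lit 399) (nat_lit 6542) (nat_lit 463) (nat_lit 6574)))) (.f (nat_lit 591) (nat_lit 559) (nat_lit 4558) (.f (nat_lit 590) (nat_lit 623) (nat_lit 4590) (.d (nat_lit 461) (nat_lit 429) (nat_lit 7597) (nat_lit 493) (nat_lit 7629))))))) (.a s19070 (.a s19071 (.a (.p (nat_lit 462) (.a (.f (nat_lit 557) (nat_lit 589) (nat_lit 5581) (.f (nat_lit 525) (nat_lit 430) (nat_lit 5549) (.d (nat_lit 527) (nat_lit 497) (nat_lit 2541) (nat_lit 556) (nat_lit 1548)))) (.a (.f (nat_lit 461) (nat_lit 429) (nat_lit 7597) (.f (nat_lit 493) (nat_lit 590) (nat_lit 7629) (.d (nat_lit 495) (nat_lit 460) (nat_lit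 3532) (nat_lit 497) (nat_lit 3533)))) (.f (nat_lit 591) (nat_lit 559) (nat_lit 4558) (.f (nat_lit 590) (nat_lit 623) (nat_lit 4590) (.d (nat_lit 461) (nat_lit 429) (nat_lit 7597) (nat_lit 493) (nat_lit 7629))))))) (.a s19085 (.a (.p (nat_lit 462) (.a (.f (nat_lit 461) (nat_lit 429) (nat_lit 7597) (.f (nat_lit 495) (nat_lit 497) (nat_lit 3533) (.d (nat_lit 460) (nat_lit 459) (nat_lit 459) (nat_lit 463) (nat_lit 460)))) (.a (.f (nat_lit 557) (nat_lit 589) (nat_lit 5581) (.f (nat_lit 525) (nat_lit 430) (nat_lit 5549) (.d (nat_lit 527) (nat_lit 497) (nat_lit 2541) (nat_lit 556) (nat_lit 1548)))) (.f (nat_lit 429) (nat_lit 461) (nat_lit 7597) (.f (nat_lit 430) (nat_lit 397) (nat_lit 7565) (.d (nat_lit 431) (nat_lit 399) (nat_lit 6542) (nat_lit 463) (nat_lit 6574))))))) (.p (nat_lit 462) (.a (.f (nat_lit 557) (nat_lit 589) (nat_lit 5581) (.f (nat_lit 525) (nat_lit 430) (nat_lit 5549) (.d (nat_lit 527) (nat_lit 497) (nat_lit 2541) (nat_lit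 556) (nat_lit 1548)))) (.a (.f (nat_lit 463) (nat_lit 431) (nat_lit 6574) (.f (nat_lit 495) (nat_lit 590) (nat_lit 6606) (.f (nat_lit 525) (nat_lit 497) (nat_lit 1517) (.d (nat_lit 524) (nat_lit 493) (nat_lit 1516) (nat_lit 523) (nat_lit 2539))))) (.f (nat_lit 559) (nat_lit 591) (nat_lit 4558) (.f (nat_lit 527) (nat_lit 430) (nat_lit 4526) (.d (nat_lit 557) (nat_lit 556) (nat_lit 2572) (nat_lit 589) (nat_lit 5581))))))))))))))))
noncomputable def s22828 : Cert := .r (nat_lit 1098367625876631195638990211447803359827765831789854025350228590148069047476135421183724742106088204759328672100049959483405148627549761177659140858869700362240) (.p (nat_lit 558) (.a s19062 (.a (.p (nat_lit 462) (.a (.f (nat_lit 429) (nat_lit 461) (nat_lit 7597) (.f (nat_lit 430) (nat_lit 397) (nat_lit 7565) (.d (nat_lit 431) (nat_lit 399) (nat_lit 6542) (nat_lit 463) (nat_lit 6574)))) (.a (.f (nat_lit 591) (nat_lit 559) (nat_lit 4558) (.f (nat_lit 590) (nat_lit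 623) (nat_lit 4590) (.d (nat_lit 461) (nat_lit 429) (nat_lit 7597) (nat_lit 493) (nat_lit 7629)))) (.f (nat_lit 557) (nat_lit 589) (nat_lit 5581) (.f (nat_lit 430) (nat_lit 525) (nat_lit 5549) (.d (nat_lit 431) (nat_lit 399) (nat_lit 6542) (nat_lit 463) (nat_lit 6574))))))) (.a s21569 (.a (.p (nat_lit 462) (.a (.f (nat_lit 461) (nat_lit 429) (nat_lit 7597) (.f (nat_lit 495) (nat_lit 497) (nat_lit 3533) (.d (nat_lit 460) (nat_lit 459) (nat_lit 459) (nat_lit 463) (nat_lit 460)))) (.a (.f (nat_lit 429) (nat_lit 461) (nat_lit 7597) (.f (nat_lit 430) (nat_lit 397) (nat_lit 7565) (.d (nat_lit 431) (nat_lit 399) (nat_lit 6542) (nat_lit 463) (nat_lit 6574)))) (.f (nat_lit 589) (nat_lit 557) (nat_lit 5581) (.f (nat_lit 590) (nat_lit 621) (nat_lit 5613) (.d (nat_lit 591) (nat_lit 559) (nat_lit 4558) (nat_lit 623) (nat_lit 4590))))))) (.a s21571 (.a (.p (nat_lit 590) (.a (.f (nat_lit 495) (nat_lit 463) (nat_lit 6606) (.f (nat_lit 525) (nat_lit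 497) (nat_lit 1517) (.d (nat_lit 493) (nat_lit 461) (nat_lit 7629) (nat_lit 524) (nat_lit 1516)))) (.a (.f (nat_lit 493) (nat_lit 461) (nat_lit 7629) (.f (nat_lit 622) (nat_lit 525) (nat_lit 7661) (.d (nat_lit 621) (nat_lit 589) (nat_lit 5613) (nat_lit 653) (nat_lit 5645)))) (.f (nat_lit 623) (nat_lit 591) (nat_lit 4590) (.f (nat_lit 622) (nat_lit 655) (nat_lit 4622) (.d (nat_lit 621) (nat_lit 589) (nat_lit 5613) (nat_lit 653) (nat_lit 5645))))))) (.a s21573 s21574))))))))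
noncomputable def s22832 : Cert := .r (nat_lit 1098367625876631195638990211447803359827765831789854025350228590148069047476135421183724742106088204759328672100049959483405148627549761177659140858869700362240) (.p (nat_lit 558) (.a (.p (nat_lit 462) (.a (.f (nat_lit 461) (nat_lit 429) (nat_lit 7597) (.f (nat_lit 495) (nat_lit 497) (nat_lit 3533) (.d (nat_lit 460) (nat_lit 459) (nat_lit 459) (nat_lit 463) (nat_lit 460)))) (.a (.f (nat_lit 557) (nat_lit 589) (nat_lit 5581) (.f (nat_lit 525) (nat_lit 430) (nat_lit 5549) (.d (nat_lit 527) (nat_lit 497) (nat_lit 2541) (nat_lit 556) (nat_lit 1548)))) (.f (nat_lit 463) (nat_lit 431) (nat_lit 6574) (.f (nat_lit 495) (nat_lit 590) (nat_lit 6606) (.d (nat_lit 461) (nat_lit 429) (nat_lit 7597) (nat_lit 460) (nat_lit 460))))))) (.a s19062 (.a (.p (nat_lit 462) (.a (.f (nat_lit 557) (nat_lit 589) (nat_lit 5581) (.f (nat_lit 525) (nat_lit 430) (nat_lit 5549) (.d (nat_lit 527) (nat_lit 497) (nat_lit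 2541) (nat_lit 556) (nat_lit 1548)))) (.a (.f (nat_lit 429) (nat_lit 461) (nat_lit 7597) (.f (nat_lit 430) (nat_lit 397) (nat_lit 7565) (.d (nat_lit 431) (nat_lit 399) (nat_lit 6542) (nat_lit 463) (nat_lit 6574)))) (.f (nat_lit 461) (nat_lit 429) (nat_lit 7597) (.f (nat_lit 590) (nat_lit 493) (nat_lit 7629) (.d (nat_lit 589) (nat_lit 557) (nat_lit 5581) (nat_lit 621) (nat_lit 5613))))))) (.a s21569 (.a s21690 (.a s21691 (.a s19085 (.a (.p (nat_lit 462) (.a (.f (nat_lit 461) (nat_lit 429) (nat_lit 7597) (.f (nat_lit 495) (nat_lit 497) (nat_lit 3533) (.d (nat_lit 460) (nat_lit 459) (nat_lit 459) (nat_lit 463) (nat_lit 460)))) (.a (.f (nat_lit 557) (nat_lit 589) (nat_lit 5581) (.f (nat_lit 525) (nat_lit 430) (nat_lit 5549) (.d (nat_lit 527) (nat_lit 497) (nat_lit 2541) (nat_lit 556) (nat_lit 1548)))) (.f (nat_lit 429) (nat_lit 461) (nat_lit 7597) (.f (nat_lit 430) (nat_lit 397) (nat_lit 7565) (.d (nat_lit 431) (nat_lit 399) (nat_lit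 6542) (nat_lit 463) (nat_lit 6574))))))) (.p (nat_lit 462) (.a (.f (nat_lit 557) (nat_lit 589) (nat_lit 5581) (.f (nat_lit 525) (nat_lit 430) (nat_lit 5549) (.d (nat_lit 527) (nat_lit 497) (nat_lit 2541) (nat_lit 556) (nat_lit 1548)))) (.a (.f (nat_lit 463) (nat_lit 431) (nat_lit 6574) (.f (nat_lit 495) (nat_lit 590) (nat_lit 6606) (.f (nat_lit 525) (nat_lit 497) (nat_lit 1517) (.d (nat_lit 524) (nat_lit 493) (nat_lit 1516) (nat_lit 523) (nat_lit 2539))))) (.f (nat_lit 463) (nat_lit 431) (nat_lit 6574) (.f (nat_lit 590) (nat_lit 495) (nat_lit 6606) (.d (nat_lit 589) (nat_lit 557) (nat_lit 5581) (nat_lit 621) (nat_lit 5613))))))))))))))))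
noncomputable def s22833 : Cert := .r (nat_lit 1098367625876631195638990211447803359827765831789854025350228590148069047476135421183724742106088204759328672100049959483405148627549761177659140858869700362240) (.p (nat_lit 558) (.a s19070 (.a s21569 (.a (.p (nat_lit 462) (.a (.f (nat_lit 429) (nat_lit 461) (nat_lit 7597) (.f (nat_lit 430) (nat_lit 397) (nat_lit 7565) (.d (nat_lit 431) (nat_lit 399) (nat_lit 6542) (nat_lit 463) (nat_lit 6574)))) (.a (.f (nat_lit 591) (nat_lit 559) (nat_lit 4558) (.f (nat_lit 590) (nat_lit 623) (nat_lit 4590) (.d (nat_lit 461) (nat_lit 429) (nat_lit 7597) (nat_lit 493) (nat_lit 7629)))) (.f (nat_lit 559) (nat_lit 591) (nat_lit 4558) (.f (nat_lit 527) (nat_lit 430) (nat_lit 4526) (.d (nat_lit 557) (nat_lit 556) (nat_lit 2572) (nat_lit 589) (nat_lit 5581))))))) (.a (.p (nat_lit 462) (.a (.f (nat_lit 461) (nat_lit 429) (nat_lit 7597) (.f (nat_lit 495) (nat_lit 497) (nat_lit 3533) (.d (nat_lit 460) (nat_lit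 459) (nat_lit 459) (nat_lit 463) (nat_lit 460)))) (.a (.f (nat_lit 429) (nat_lit 461) (nat_lit 7597) (.f (nat_lit 430) (nat_lit 397) (nat_lit 7565) (.d (nat_lit 431) (nat_lit 399) (nat_lit 6542) (nat_lit 463) (nat_lit 6574)))) (.f (nat_lit 559) (nat_lit 591) (nat_lit 4558) (.f (nat_lit 527) (nat_lit 430) (nat_lit 4526) (.d (nat_lit 557) (nat_lit 556) (nat_lit 2572) (nat_lit 589) (nat_lit 5581))))))) (.a (.p (nat_lit 462) (.a (.f (nat_lit 461) (nat_lit 429) (nat_lit 7597) (.f (nat_lit 493) (nat_lit 590) (nat_lit 7629) (.d (nat_lit 495) (nat_lit 460) (nat_lit 3532) (nat_lit 497) (nat_lit 3533)))) (.a (.f (nat_lit 591) (nat_lit 559) (nat_lit 4558) (.f (nat_lit 590) (nat_lit 623) (nat_lit 4590) (.d (nat_lit 461) (nat_lit 429) (nat_lit 7597) (nat_lit 493) (nat_lit 7629)))) (.f (nat_lit 559) (nat_lit 591) (nat_lit 4558) (.f (nat_lit 527) (nat_lit 430) (nat_lit 4526) (.d (nat_lit 557) (nat_lit 556) (nat_lit 2572) (nat_lit 589) (nat_lit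 5581))))))) (.a (.p (nat_lit 462) (.a (.f (nat_lit 429) (nat_lit 461) (nat_lit 7597) (.f (nat_lit 430) (nat_lit 397) (nat_lit 7565) (.d (nat_lit 431) (nat_lit 399) (nat_lit 6542) (nat_lit 463) (nat_lit 6574)))) (.a (.f (nat_lit 591) (nat_lit 559) (nat_lit 4558) (.f (nat_lit 590) (nat_lit 623) (nat_lit 4590) (.d (nat_lit 461) (nat_lit 429) (nat_lit 7597) (nat_lit 493) (nat_lit 7629)))) (.f (nat_lit 559) (nat_lit 591) (nat_lit 4558) (.f (nat_lit 430) (nat_lit 527) (nat_lit 4526) (.d (nat_lit 431) (nat_lit 399) (nat_lit 6542) (nat_lit 463) (nat_lit 6574))))))) (.a s21700 (.p (nat_lit 462) (.a (.f (nat_lit 559) (nat_lit 591) (nat_lit 4558) (.f (nat_lit 527) (nat_lit 430) (nat_lit 4526) (.d (nat_lit 557) (nat_lit 556) (nat_lit 2572) (nat_lit 589) (nat_lit 5581)))) (.a (.f (nat_lit 463) (nat_lit 431) (nat_lit 6574) (.f (nat_lit 590) (nat_lit 495) (nat_lit 6606) (.d (nat_lit 589) (nat_lit 557) (nat_lit 5581) (nat_lit 621) (nat_lit 5613))))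 (.f (nat_lit 559) (nat_lit 591) (nat_lit 4558) (.f (nat_lit 430) (nat_lit 527) (nat_lit 4526) (.d (nat_lit 431) (nat_lit 399) (nat_lit 6542) (nat_lit 463) (nat_lit 6574)))))))))))))))
noncomputable def s22851 : Cert := .r (nat_lit 1098367625876631195638990211447803359827765831789854025350228590148069047476135421183724742106088204759328672100049959483405148627549761177659140858869700362240) (.p (nat_lit 525) (.a (.d (nat_lit 497) (nat_lit 495) (nat_lit 1517) (nat_lit 527) (nat_lit 2541)) (.a (.f (nat_lit 495) (nat_lit 497) (nat_lit 1517) (.d (nat_lit 524) (nat_lit 493) (nat_lit 1516) (nat_lit 523) (nat_lit 2539))) (.a (.f (nat_lit 527) (nat_lit 497) (nat_lit 2541) (.f (nat_lit 493) (nat_lit 492) (nat_lit 3564) (.f (nat_lit 557) (nat_lit 556) (nat_lit 1548) (.d (nat_lit 462) (nat_lit 430) (nat_lit 5549) (nat_lit 589) (nat_lit 6605))))) (.p (nat_lit 527) (.a (.f (nat_lit 524) (nat_lit 495) (nat_lit 2540) (.d (nat_lit 556) (nat_lit 555)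 (nat_lit 1547) (nat_lit 557) (nat_lit 1548))) (.a (.f (nat_lit 493) (nat_lit 492) (nat_lit 3564) (.f (nat_lit 557) (nat_lit 556) (nat_lit 1548) (.d (nat_lit 462) (nat_lit 430) (nat_lit 5549) (nat_lit 589) (nat_lit 6605)))) (.a (.f (nat_lit 524) (nat_lit 495) (nat_lit 2540) (.f (nat_lit 491) (nat_lit 492) (nat_lit 3563) (.f (nat_lit 523) (nat_lit 490) (nat_lit 3562) (.d (nat_lit 555) (nat_lit 554) (nat_lit 1546) (nat_lit 556) (nat_lit 1547))))) (.f (nat_lit 495) (nat_lit 524) (nat_lit 2540) (.f (nat_lit 560) (nat_lit 561) (nat_lit 525) (.d (nat_lit 463) (nat_lit 431) (nat_lit 4527) (nat_lit 592) (nat_lit 7631))))))))))))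
noncomputable def s22852 : Cert := .r (nat_lit 1098367625876631195638990211447803359827765831789854025350228590148069047476135421183724742106088204759328672100049959483405148627549761177659140858869700362240) (.p (nat_lit 558) (.a s19071 (.a (.p (nat_lit 462) (.a (.f (nat_lit 429) (nat_lit 461) (nat_lit 7597) (.f (nat_lit 430) (nat_lit 397) (nat_lit 7565) (.d (nat_lit 431) (nat_lit 399) (nat_lit 6542) (nat_lit 463) (nat_lit 6574)))) (.a (.f (nat_lit 591) (nat_lit 559) (nat_lit 4558) (.f (nat_lit 590) (nat_lit 623) (nat_lit 4590) (.d (nat_lit 461) (nat_lit 429) (nat_lit 7597) (nat_lit 493) (nat_lit 7629)))) (.f (nat_lit 557) (nat_lit 589) (nat_lit 5581) (.f (nat_lit 430) (nat_lit 525) (nat_lit 5549) (.d (nat_lit 431) (nat_lit 399) (nat_lit 6542) (nat_lit 463) (nat_lit 6574))))))) (.a s21690 (.a (.p (nat_lit 462) (.a (.f (nat_lit 559) (nat_lit 591) (nat_lit 4558) (.f (nat_lit 527) (nat_lit 430) (nat_lit 4526) (.d (nat_lit 557) (nat_lit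 556) (nat_lit 2572) (nat_lit 589) (nat_lit 5581)))) (.a (.f (nat_lit 463) (nat_lit 431) (nat_lit 6574) (.f (nat_lit 590) (nat_lit 495) (nat_lit 6606) (.d (nat_lit 589) (nat_lit 557) (nat_lit 5581) (nat_lit 621) (nat_lit 5613)))) (.f (nat_lit 559) (nat_lit 591) (nat_lit 4558) (.f (nat_lit 430) (nat_lit 527) (nat_lit 4526) (.d (nat_lit 431) (nat_lit 399) (nat_lit 6542) (nat_lit 463) (nat_lit 6574))))))) (.a s21782 (.a (.p (nat_lit 462) (.a (.f (nat_lit 429) (nat_lit 461) (nat_lit 7597) (.f (nat_lit 430) (nat_lit 397) (nat_lit 7565) (.d (nat_lit 431) (nat_lit 399) (nat_lit 6542) (nat_lit 463) (nat_lit 6574)))) (.a (.f (nat_lit 591) (nat_lit 559) (nat_lit 4558) (.f (nat_lit 590) (nat_lit 623) (nat_lit 4590) (.d (nat_lit 461) (nat_lit 429) (nat_lit 7597) (nat_lit 493) (nat_lit 7629)))) (.f (nat_lit 559) (nat_lit 591) (nat_lit 4558) (.f (nat_lit 430) (nat_lit 527) (nat_lit 4526) (.d (nat_lit 431) (nat_lit 399) (nat_lit 6542) (nat_lit 463)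 (nat_lit 6574))))))) (.a s21700 s21687))))))))
noncomputable def s22853 : Cert := .r (nat_lit 1098367625876631195638990211447803359827765831789854025350228590148069047476135421183724742106088204759328672100049959483405148627549761177659140858869700362240) (.p (nat_lit 558) (.a (.p (nat_lit 462) (.a (.f (nat_lit 461) (nat_lit 429) (nat_lit 7597) (.f (nat_lit 495) (nat_lit 497) (nat_lit 3533) (.d (nat_lit 460) (nat_lit 459) (nat_lit 459) (nat_lit 463) (nat_lit 460)))) (.a (.f (nat_lit 557) (nat_lit 589) (nat_lit 5581) (.f (nat_lit 525) (nat_lit 430) (nat_lit 5549) (.d (nat_lit 527) (nat_lit 497) (nat_lit 2541) (nat_lit 556) (nat_lit 1548)))) (.f (nat_lit 463) (nat_lit 431) (nat_lit 6574) (.f (nat_lit 495) (nat_lit 590) (nat_lit 6606) (.d (nat_lit 461) (nat_lit 429) (nat_lit 7597) (nat_lit 460) (nat_lit 460))))))) (.a (.p (nat_lit 462) (.a (.f (nat_lit 461) (nat_lit 429) (nat_lit 7597) (.f (nat_lit 495) (nat_lit 497) (nat_lit 3533)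 (.d (nat_lit 460) (nat_lit 459) (nat_lit 459) (nat_lit 463) (nat_lit 460)))) (.a (.f (nat_lit 429) (nat_lit 461) (nat_lit 7597) (.f (nat_lit 430) (nat_lit 397) (nat_lit 7565) (.d (nat_lit 431) (nat_lit 399) (nat_lit 6542) (nat_lit 463) (nat_lit 6574)))) (.f (nat_lit 589) (nat_lit 557) (nat_lit 5581) (.f (nat_lit 590) (nat_lit 621) (nat_lit 5613) (.d (nat_lit 591) (nat_lit 559) (nat_lit 4558) (nat_lit 623) (nat_lit 4590))))))) (.a (.p (nat_lit 462) (.a (.f (nat_lit 557) (nat_lit 589) (nat_lit 5581) (.f (nat_lit 525) (nat_lit 430) (nat_lit 5549) (.d (nat_lit 527) (nat_lit 497) (nat_lit 2541) (nat_lit 556) (nat_lit 1548)))) (.a (.f (nat_lit 429) (nat_lit 461) (nat_lit 7597) (.f (nat_lit 430) (nat_lit 397) (nat_lit 7565) (.d (nat_lit 431) (nat_lit 399) (nat_lit 6542) (nat_lit 463) (nat_lit 6574)))) (.f (nat_lit 589) (nat_lit 557) (nat_lit 5581) (.f (nat_lit 590) (nat_lit 621) (nat_lit 5613) (.d (nat_lit 591) (nat_lit 559) (nat_lit 4558)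 (nat_lit 623) (nat_lit 4590))))))) (.a (.p (nat_lit 462) (.a (.f (nat_lit 559) (nat_lit 591) (nat_lit 4558) (.f (nat_lit 527) (nat_lit 430) (nat_lit 4526) (.d (nat_lit 557) (nat_lit 556) (nat_lit 2572) (nat_lit 589) (nat_lit 5581)))) (.a (.f (nat_lit 463) (nat_lit 431) (nat_lit 6574) (.f (nat_lit 590) (nat_lit 495) (nat_lit 6606) (.d (nat_lit 589) (nat_lit 557) (nat_lit 5581) (nat_lit 621) (nat_lit 5613)))) (.f (nat_lit 559) (nat_lit 591) (nat_lit 4558) (.f (nat_lit 430) (nat_lit 527) (nat_lit 4526) (.d (nat_lit 431) (nat_lit 399) (nat_lit 6542) (nat_lit 463) (nat_lit 6574))))))) (.a (.p (nat_lit 462) (.a (.f (nat_lit 557) (nat_lit 589) (nat_lit 5581) (.f (nat_lit 525) (nat_lit 430) (nat_lit 5549) (.d (nat_lit 527) (nat_lit 497) (nat_lit 2541) (nat_lit 556) (nat_lit 1548)))) (.a (.f (nat_lit 589) (nat_lit 557) (nat_lit 5581) (.f (nat_lit 590) (nat_lit 621) (nat_lit 5613) (.d (nat_lit 591) (nat_lit 559) (nat_lit 4558) (nat_lit 623)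 (nat_lit 4590)))) (.f (nat_lit 559) (nat_lit 591) (nat_lit 4558) (.f (nat_lit 527) (nat_lit 430) (nat_lit 4526) (.f (nat_lit 525) (nat_lit 497) (nat_lit 2541) (.d (nat_lit 524) (nat_lit 495) (nat_lit 2540) (nat_lit 523) (nat_lit 523)))))))) (.a (.p (nat_lit 462) (.a (.f (nat_lit 461) (nat_lit 429) (nat_lit 7597) (.f (nat_lit 495) (nat_lit 497) (nat_lit 3533) (.d (nat_lit 460) (nat_lit 459) (nat_lit 459) (nat_lit 463) (nat_lit 460)))) (.a (.f (nat_lit 429) (nat_lit 461) (nat_lit 7597) (.f (nat_lit 430) (nat_lit 397) (nat_lit 7565) (.d (nat_lit 431) (nat_lit 399) (nat_lit 6542) (nat_lit 463) (nat_lit 6574)))) (.f (nat_lit 559) (nat_lit 591) (nat_lit 4558) (.f (nat_lit 527) (nat_lit 430) (nat_lit 4526) (.f (nat_lit 525) (nat_lit 497) (nat_lit 2541) (.d (nat_lit 524) (nat_lit 495) (nat_lit 2540) (nat_lit 523) (nat_lit 523)))))))) (.p (nat_lit 590) (.a (.f (nat_lit 495) (nat_lit 463) (nat_lit 6606) (.f (nat_lit 525) (nat_lit 497) (nat_lit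 1517) (.d (nat_lit 524) (nat_lit 523) (nat_lit 2539) (nat_lit 527) (nat_lit 2540)))) (.f (nat_lit 623) (nat_lit 591) (nat_lit 4590) (.f (nat_lit 622) (nat_lit 655) (nat_lit 4622) (.d (nat_lit 621) (nat_lit 589) (nat_lit 5613) (nat_lit 653) (nat_lit 5645)))))))))))))
noncomputable def s22854 : Cert := .r (nat_lit 1098367625876631195638990211447803359827765831789854025350228590148069047476135421183724742106088204759328672100049959483405148627549761177659140858869700362240) (.p (nat_lit 462) (.a s19513 (.a (.p (nat_lit 525) (.a (.f (nat_lit 495) (nat_lit 497) (nat_lit 1517) (.d (nat_lit 524) (nat_lit 493) (nat_lit 1516) (nat_lit 523) (nat_lit 2539))) (.a (.f (nat_lit 430) (nat_lit 557) (nat_lit 5549) (.f (nat_lit 398) (nat_lit 493) (nat_lit 5517) (.d (nat_lit 397) (nat_lit 365) (nat_lit 7533) (nat_lit 429) (nat_lit 7565)))) (.f (nat_lit 430) (nat_lit 557) (nat_lit 5549) (.f (nat_lit 399) (nat_lit 431) (nat_lit 6542) (.f (nat_lit 398)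 (nat_lit 367) (nat_lit 6510) (.d (nat_lit 397) (nat_lit 365) (nat_lit 7533) (nat_lit 429) (nat_lit 7565)))))))) (.a (.p (nat_lit 558) (.a (.f (nat_lit 461) (nat_lit 429) (nat_lit 7597) (.f (nat_lit 493) (nat_lit 590) (nat_lit 7629) (.d (nat_lit 495) (nat_lit 460) (nat_lit 3532) (nat_lit 497) (nat_lit 3533)))) (.a (.f (nat_lit 591) (nat_lit 559) (nat_lit 4558) (.f (nat_lit 590) (nat_lit 623) (nat_lit 4590) (.d (nat_lit 461) (nat_lit 429) (nat_lit 7597) (nat_lit 493) (nat_lit 7629)))) (.f (nat_lit 559) (nat_lit 591) (nat_lit 4558) (.f (nat_lit 527) (nat_lit 430) (nat_lit 4526) (.d (nat_lit 557) (nat_lit 556) (nat_lit 2572) (nat_lit 589) (nat_lit 5581))))))) (.a s19686 (.a (.p (nat_lit 558) (.a (.f (nat_lit 557) (nat_lit 589) (nat_lit 5581) (.f (nat_lit 525) (nat_lit 430) (nat_lit 5549) (.d (nat_lit 527) (nat_lit 497) (nat_lit 2541) (nat_lit 556) (nat_lit 1548)))) (.a (.f (nat_lit 589) (nat_lit 557) (nat_lit 5581) (.f (nat_lit 590)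 (nat_lit 621) (nat_lit 5613) (.d (nat_lit 591) (nat_lit 559) (nat_lit 4558) (nat_lit 623) (nat_lit 4590)))) (.f (nat_lit 559) (nat_lit 591) (nat_lit 4558) (.f (nat_lit 527) (nat_lit 430) (nat_lit 4526) (.f (nat_lit 525) (nat_lit 497) (nat_lit 2541) (.d (nat_lit 524) (nat_lit 495) (nat_lit 2540) (nat_lit 523) (nat_lit 523)))))))) (.a (.p (nat_lit 558) (.a (.f (nat_lit 461) (nat_lit 429) (nat_lit 7597) (.f (nat_lit 493) (nat_lit 590) (nat_lit 7629) (.d (nat_lit 495) (nat_lit 460) (nat_lit 3532) (nat_lit 497) (nat_lit 3533)))) (.a (.f (nat_lit 591) (nat_lit 559) (nat_lit 4558) (.f (nat_lit 590) (nat_lit 623) (nat_lit 4590) (.d (nat_lit 461) (nat_lit 429) (nat_lit 7597) (nat_lit 493) (nat_lit 7629)))) (.f (nat_lit 559) (nat_lit 591) (nat_lit 4558) (.f (nat_lit 527) (nat_lit 430) (nat_lit 4526) (.f (nat_lit 525) (nat_lit 497) (nat_lit 2541) (.d (nat_lit 524) (nat_lit 495) (nat_lit 2540) (nat_lit 523) (nat_lit 523)))))))) s19545)))))))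
noncomputable def s22855 : Cert := .r (nat_lit 1098367625876631195638990211447803359827765831789854025350228590148069047476135421183724742106088204759328672100049959483405148627549761177659140858869700362240) (.p (nat_lit 558) (.a s19062 (.a (.p (nat_lit 462) (.a (.f (nat_lit 429) (nat_lit 461) (nat_lit 7597) (.f (nat_lit 430) (nat_lit 397) (nat_lit 7565) (.d (nat_lit 431) (nat_lit 399) (nat_lit 6542) (nat_lit 463) (nat_lit 6574)))) (.a (.f (nat_lit 591) (nat_lit 559) (nat_lit 4558) (.f (nat_lit 590) (nat_lit 623) (nat_lit 4590) (.d (nat_lit 461) (nat_lit 429) (nat_lit 7597) (nat_lit 493) (nat_lit 7629)))) (.f (nat_lit 559) (nat_lit 591) (nat_lit 4558) (.f (nat_lit 430) (nat_lit 527) (nat_lit 4526) (.d (nat_lit 431) (nat_lit 399) (nat_lit 6542) (nat_lit 463) (nat_lit 6574))))))) (.a (.p (nat_lit 462) (.a (.f (nat_lit 461) (nat_lit 429) (nat_lit 7597) (.f (nat_lit 495) (nat_lit 497) (nat_lit 3533) (.d (nat_lit 460) (nat_lit 459) (nat_lit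 459) (nat_lit 463) (nat_lit 460)))) (.a (.f (nat_lit 429) (nat_lit 461) (nat_lit 7597) (.f (nat_lit 430) (nat_lit 397) (nat_lit 7565) (.d (nat_lit 431) (nat_lit 399) (nat_lit 6542) (nat_lit 463) (nat_lit 6574)))) (.f (nat_lit 559) (nat_lit 591) (nat_lit 4558) (.f (nat_lit 527) (nat_lit 430) (nat_lit 4526) (.f (nat_lit 525) (nat_lit 497) (nat_lit 2541) (.d (nat_lit 524) (nat_lit 495) (nat_lit 2540) (nat_lit 523) (nat_lit 523)))))))) (.a (.p (nat_lit 462) (.a (.f (nat_lit 461) (nat_lit 429) (nat_lit 7597) (.f (nat_lit 493) (nat_lit 590) (nat_lit 7629) (.d (nat_lit 495) (nat_lit 460) (nat_lit 3532) (nat_lit 497) (nat_lit 3533)))) (.a (.f (nat_lit 591) (nat_lit 559) (nat_lit 4558) (.f (nat_lit 590) (nat_lit 623) (nat_lit 4590) (.d (nat_lit 461) (nat_lit 429) (nat_lit 7597) (nat_lit 493) (nat_lit 7629)))) (.f (nat_lit 559) (nat_lit 591) (nat_lit 4558) (.f (nat_lit 527) (nat_lit 430) (nat_lit 4526) (.f (nat_lit 525) (nat_lit 497) (nat_lit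 2541) (.d (nat_lit 524) (nat_lit 495) (nat_lit 2540) (nat_lit 523) (nat_lit 523)))))))) (.a s19085 (.p (nat_lit 590) (.a (.f (nat_lit 495) (nat_lit 463) (nat_lit 6606) (.f (nat_lit 525) (nat_lit 497) (nat_lit 1517) (.d (nat_lit 524) (nat_lit 523) (nat_lit 2539) (nat_lit 527) (nat_lit 2540)))) (.f (nat_lit 623) (nat_lit 591) (nat_lit 4590) (.f (nat_lit 622) (nat_lit 655) (nat_lit 4622) (.d (nat_lit 621) (nat_lit 589) (nat_lit 5613) (nat_lit 653) (nat_lit 5645))))))))))))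
noncomputable def s22869 : Cert := .r (nat_lit 1098367625876631195638990211447803359827765831789854025350228590148069047476135421183724742106088204759328672100049959483405148627549761177659140858869700362240) (.p (nat_lit 525) (.a (.d (nat_lit 497) (nat_lit 495) (nat_lit 1517) (nat_lit 527) (nat_lit 2541)) (.a (.f (nat_lit 495) (nat_lit 497) (nat_lit 1517) (.d (nat_lit 524) (nat_lit 493) (nat_lit 1516) (nat_lit 523) (nat_lit 2539))) (.a (.f (nat_lit 527) (nat_lit 497) (nat_lit 2541) (.f (nat_lit 493) (nat_lit 492) (nat_lit 3564) (.f (nat_lit 557) (nat_lit 556) (nat_lit 1548) (.f (nat_lit 589) (nat_lit 621) (nat_lit 6637) (.f (nat_lit 590) (nat_lit 622) (nat_lit 4589) (.f (nat_lit 461) (nat_lit 558) (nat_lit 7629) (.f (nat_lit 429) (nat_lit 397) (nat_lit 4493) (.d (nat_lit 428) (nat_lit 396) (nat_lit 7564) (nat_lit 460) (nat_lit 7596))))))))) (.p (nat_lit 527) (.a (.f (nat_lit 495) (nat_lit 524) (nat_lit 2540) (.f (nat_lit 493) (nat_lit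 492) (nat_lit 492) (.f (nat_lit 461) (nat_lit 460) (nat_lit 3532) (.d (nat_lit 429) (nat_lit 397) (nat_lit 4493) (nat_lit 558) (nat_lit 4525))))) (.a (.f (nat_lit 493) (nat_lit 492) (nat_lit 3564) (.f (nat_lit 557) (nat_lit 556) (nat_lit 1548) (.f (nat_lit 589) (nat_lit 621) (nat_lit 6637) (.f (nat_lit 590) (nat_lit 622) (nat_lit 4589) (.f (nat_lit 461) (nat_lit 558) (nat_lit 7629) (.f (nat_lit 429) (nat_lit 397) (nat_lit 4493) (.d (nat_lit 428) (nat_lit 396) (nat_lit 7564) (nat_lit 460) (nat_lit 7596)))))))) (.f (nat_lit 524) (nat_lit 495) (nat_lit 2540) (.d (nat_lit 556) (nat_lit 555) (nat_lit 1547) (nat_lit 557) (nat_lit 1548))))))))))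
noncomputable def s22872 : Cert := .r (nat_lit 1098367625825484467390612994728847270814834595036468993380805702812392619849633330614901702186037109566736419644567355043912022518030741544129681592411442118656) (.p (nat_lit 494) (.a s22827 (.a s22828 (.a (.p (nat_lit 462) (.a (.p (nat_lit 558) (.a (.f (nat_lit 557) (nat_lit 589) (nat_lit 5581) (.f (nat_lit 525) (nat_lit 430) (nat_lit 5549) (.d (nat_lit 527) (nat_lit 497) (nat_lit 2541) (nat_lit 556) (nat_lit 1548)))) (.a (.f (nat_lit 429) (nat_lit 461) (nat_lit 7597) (.f (nat_lit 430) (nat_lit 397) (nat_lit 7565) (.d (nat_lit 431) (nat_lit 399) (nat_lit 6542) (nat_lit 463) (nat_lit 6574)))) (.f (nat_lit 591) (nat_lit 559) (nat_lit 4558) (.f (nat_lit 590) (nat_lit 623) (nat_lit 4590) (.d (nat_lit 461) (nat_lit 429) (nat_lit 7597) (nat_lit 493) (nat_lit 7629))))))) (.a (.p (nat_lit 558) (.a (.f (nat_lit 429) (nat_lit 461) (nat_lit 7597) (.f (nat_lit 430) (nat_lit 397) (nat_lit 7565)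 (.d (nat_lit 431) (nat_lit 399) (nat_lit 6542) (nat_lit 463) (nat_lit 6574)))) (.a (.f (nat_lit 591) (nat_lit 559) (nat_lit 4558) (.f (nat_lit 590) (nat_lit 623) (nat_lit 4590) (.d (nat_lit 461) (nat_lit 429) (nat_lit 7597) (nat_lit 493) (nat_lit 7629)))) (.f (nat_lit 557) (nat_lit 589) (nat_lit 5581) (.f (nat_lit 430) (nat_lit 525) (nat_lit 5549) (.d (nat_lit 431) (nat_lit 399) (nat_lit 6542) (nat_lit 463) (nat_lit 6574))))))) (.a (.p (nat_lit 558) (.a (.f (nat_lit 557) (nat_lit 589) (nat_lit 5581) (.f (nat_lit 525) (nat_lit 430) (nat_lit 5549) (.d (nat_lit 527) (nat_lit 497) (nat_lit 2541) (nat_lit 556) (nat_lit 1548)))) (.a (.f (nat_lit 429) (nat_lit 461) (nat_lit 7597) (.f (nat_lit 430) (nat_lit 397) (nat_lit 7565) (.d (nat_lit 431) (nat_lit 399) (nat_lit 6542) (nat_lit 463) (nat_lit 6574)))) (.f (nat_lit 461) (nat_lit 429) (nat_lit 7597) (.f (nat_lit 590) (nat_lit 493) (nat_lit 7629) (.d (nat_lit 589) (nat_lit 557) (nat_lit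 5581) (nat_lit 621) (nat_lit 5613))))))) (.a (.p (nat_lit 558) (.a (.f (nat_lit 429) (nat_lit 461) (nat_lit 7597) (.f (nat_lit 430) (nat_lit 397) (nat_lit 7565) (.d (nat_lit 431) (nat_lit 399) (nat_lit 6542) (nat_lit 463) (nat_lit 6574)))) (.a (.f (nat_lit 591) (nat_lit 559) (nat_lit 4558) (.f (nat_lit 590) (nat_lit 623) (nat_lit 4590) (.d (nat_lit 461) (nat_lit 429) (nat_lit 7597) (nat_lit 493) (nat_lit 7629)))) (.f (nat_lit 559) (nat_lit 591) (nat_lit 4558) (.f (nat_lit 527) (nat_lit 430) (nat_lit 4526) (.d (nat_lit 557) (nat_lit 556) (nat_lit 2572) (nat_lit 589) (nat_lit 5581))))))) (.a s19513 (.a (.p (nat_lit 558) (.a (.f (nat_lit 557) (nat_lit 589) (nat_lit 5581) (.f (nat_lit 525) (nat_lit 430) (nat_lit 5549) (.d (nat_lit 527) (nat_lit 497) (nat_lit 2541) (nat_lit 556) (nat_lit 1548)))) (.a (.f (nat_lit 429) (nat_lit 461) (nat_lit 7597) (.f (nat_lit 430) (nat_lit 397) (nat_lit 7565) (.d (nat_lit 431) (nat_lit 399) (nat_lit 6542)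 (nat_lit 463) (nat_lit 6574)))) (.f (nat_lit 589) (nat_lit 557) (nat_lit 5581) (.f (nat_lit 590) (nat_lit 621) (nat_lit 5613) (.d (nat_lit 591) (nat_lit 559) (nat_lit 4558) (nat_lit 623) (nat_lit 4590))))))) (.a (.p (nat_lit 558) (.a (.f (nat_lit 429) (nat_lit 461) (nat_lit 7597) (.f (nat_lit 430) (nat_lit 397) (nat_lit 7565) (.d (nat_lit 431) (nat_lit 399) (nat_lit 6542) (nat_lit 463) (nat_lit 6574)))) (.a (.f (nat_lit 591) (nat_lit 559) (nat_lit 4558) (.f (nat_lit 590) (nat_lit 623) (nat_lit 4590) (.d (nat_lit 461) (nat_lit 429) (nat_lit 7597) (nat_lit 493) (nat_lit 7629)))) (.f (nat_lit 559) (nat_lit 591) (nat_lit 4558) (.f (nat_lit 430) (nat_lit 527) (nat_lit 4526) (.d (nat_lit 431) (nat_lit 399) (nat_lit 6542) (nat_lit 463) (nat_lit 6574))))))) (.a (.p (nat_lit 558) (.a (.f (nat_lit 557) (nat_lit 589) (nat_lit 5581) (.f (nat_lit 525) (nat_lit 430) (nat_lit 5549) (.d (nat_lit 527) (nat_lit 497) (nat_lit 2541) (nat_lit 556) (nat_lit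 1548)))) (.f (nat_lit 591) (nat_lit 559) (nat_lit 4558) (.f (nat_lit 590) (nat_lit 623) (nat_lit 4590) (.d (nat_lit 461) (nat_lit 429) (nat_lit 7597) (nat_lit 493) (nat_lit 7629)))))) (.a (.p (nat_lit 558) (.a (.f (nat_lit 591) (nat_lit 559) (nat_lit 4558) (.f (nat_lit 590) (nat_lit 623) (nat_lit 4590) (.d (nat_lit 461) (nat_lit 429) (nat_lit 7597) (nat_lit 493) (nat_lit 7629)))) (.a (.f (nat_lit 461) (nat_lit 429) (nat_lit 7597) (.f (nat_lit 590) (nat_lit 493) (nat_lit 7629) (.d (nat_lit 589) (nat_lit 557) (nat_lit 5581) (nat_lit 621) (nat_lit 5613)))) (.a (.f (nat_lit 589) (nat_lit 557) (nat_lit 5581) (.f (nat_lit 590) (nat_lit 621) (nat_lit 5613) (.d (nat_lit 591) (nat_lit 559) (nat_lit 4558) (nat_lit 623) (nat_lit 4590)))) (.f (nat_lit 557) (nat_lit 589) (nat_lit 5581) (.f (nat_lit 559) (nat_lit 591) (nat_lit 4558) (.f (nat_lit 556) (nat_lit 527) (nat_lit 2572) (.f (nat_lit 523) (nat_lit 524) (nat_lit 3595) (.f (nat_lit 555)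 (nat_lit 522) (nat_lit 3594) (.d (nat_lit 587) (nat_lit 586) (nat_lit 1578) (nat_lit 588) (nat_lit 1579))))))))))) s19530)))))))))) (.a s22832 (.a s22833 (.a s22851 (.a s22852 (.a s22853 (.a s22854 (.a s22855 (.a s22869 (.a (.p (nat_lit 558) (.a s19062 (.a (.p (nat_lit 462) (.a (.f (nat_lit 429) (nat_lit 461) (nat_lit 7597) (.f (nat_lit 430) (nat_lit 397) (nat_lit 7565) (.d (nat_lit 431) (nat_lit 399) (nat_lit 6542) (nat_lit 463) (nat_lit 6574)))) (.a (.f (nat_lit 591) (nat_lit 559) (nat_lit 4558) (.f (nat_lit 590) (nat_lit 623) (nat_lit 4590) (.d (nat_lit 461) (nat_lit 429) (nat_lit 7597) (nat_lit 493) (nat_lit 7629)))) (.f (nat_lit 559) (nat_lit 591) (nat_lit 4558) (.f (nat_lit 430) (nat_lit 527) (nat_lit 4526) (.d (nat_lit 431) (nat_lit 399) (nat_lit 6542) (nat_lit 463) (nat_lit 6574))))))) (.a (.p (nat_lit 462) (.a (.f (nat_lit 461) (nat_lit 429) (nat_lit 7597) (.f (nat_lit 495) (nat_lit 497) (nat_lit 3533) (.d (nat_lit 460)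 (nat_lit 459) (nat_lit 459) (nat_lit 463) (nat_lit 460)))) (.a (.f (nat_lit 429) (nat_lit 461) (nat_lit 7597) (.f (nat_lit 430) (nat_lit 397) (nat_lit 7565) (.d (nat_lit 431) (nat_lit 399) (nat_lit 6542) (nat_lit 463) (nat_lit 6574)))) (.f (nat_lit 559) (nat_lit 591) (nat_lit 4558) (.f (nat_lit 527) (nat_lit 430) (nat_lit 4526) (.f (nat_lit 525) (nat_lit 497) (nat_lit 2541) (.d (nat_lit 524) (nat_lit 495) (nat_lit 2540) (nat_lit 523) (nat_lit 523)))))))) (.a (.p (nat_lit 462) (.a (.f (nat_lit 461) (nat_lit 429) (nat_lit 7597) (.f (nat_lit 493) (nat_lit 590) (nat_lit 7629) (.d (nat_lit 495) (nat_lit 460) (nat_lit 3532) (nat_lit 497) (nat_lit 3533)))) (.a (.f (nat_lit 591) (nat_lit 559) (nat_lit 4558) (.f (nat_lit 590) (nat_lit 623) (nat_lit 4590) (.d (nat_lit 461) (nat_lit 429) (nat_lit 7597) (nat_lit 493) (nat_lit 7629)))) (.f (nat_lit 559) (nat_lit 591) (nat_lit 4558) (.f (nat_lit 527) (nat_lit 430) (nat_lit 4526) (.f (nat_lit 525)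 (nat_lit 497) (nat_lit 2541) (.d (nat_lit 524) (nat_lit 495) (nat_lit 2540) (nat_lit 523) (nat_lit 523)))))))) (.a s19085 s21808)))))) (.p (nat_lit 558) (.a (.p (nat_lit 462) (.a (.f (nat_lit 461) (nat_lit 429) (nat_lit 7597) (.f (nat_lit 495) (nat_lit 497) (nat_lit 3533) (.d (nat_lit 460) (nat_lit 459) (nat_lit 459) (nat_lit 463) (nat_lit 460)))) (.a (.f (nat_lit 557) (nat_lit 589) (nat_lit 5581) (.f (nat_lit 525) (nat_lit 430) (nat_lit 5549) (.d (nat_lit 527) (nat_lit 497) (nat_lit 2541) (nat_lit 556) (nat_lit 1548)))) (.f (nat_lit 463) (nat_lit 431) (nat_lit 6574) (.f (nat_lit 495) (nat_lit 590) (nat_lit 6606) (.d (nat_lit 461) (nat_lit 429) (nat_lit 7597) (nat_lit 460) (nat_lit 460))))))) (.a (.p (nat_lit 462) (.a (.f (nat_lit 429) (nat_lit 461) (nat_lit 7597) (.f (nat_lit 430) (nat_lit 397) (nat_lit 7565) (.d (nat_lit 431) (nat_lit 399) (nat_lit 6542) (nat_lit 463) (nat_lit 6574)))) (.a (.f (nat_lit 591) (nat_lit 559) (nat_lit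 4558) (.f (nat_lit 590) (nat_lit 623) (nat_lit 4590) (.d (nat_lit 461) (nat_lit 429) (nat_lit 7597) (nat_lit 493) (nat_lit 7629)))) (.f (nat_lit 557) (nat_lit 589) (nat_lit 5581) (.f (nat_lit 430) (nat_lit 525) (nat_lit 5549) (.d (nat_lit 431) (nat_lit 399) (nat_lit 6542) (nat_lit 463) (nat_lit 6574))))))) (.a s19070 (.a (.p (nat_lit 462) (.a (.f (nat_lit 557) (nat_lit 589) (nat_lit 5581) (.f (nat_lit 525) (nat_lit 430) (nat_lit 5549) (.d (nat_lit 527) (nat_lit 497) (nat_lit 2541) (nat_lit 556) (nat_lit 1548)))) (.a (.f (nat_lit 461) (nat_lit 429) (nat_lit 7597) (.f (nat_lit 493) (nat_lit 590) (nat_lit 7629) (.d (nat_lit 495) (nat_lit 460) (nat_lit 3532) (nat_lit 497) (nat_lit 3533)))) (.f (nat_lit 591) (nat_lit 559) (nat_lit 4558) (.f (nat_lit 590) (nat_lit 623) (nat_lit 4590) (.d (nat_lit 461) (nat_lit 429) (nat_lit 7597) (nat_lit 493) (nat_lit 7629))))))) (.a (.p (nat_lit 462) (.a (.f (nat_lit 429) (nat_lit 461) (nat_lit 7597)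 (.f (nat_lit 430) (nat_lit 397) (nat_lit 7565) (.d (nat_lit 431) (nat_lit 399) (nat_lit 6542) (nat_lit 463) (nat_lit 6574)))) (.a (.f (nat_lit 591) (nat_lit 559) (nat_lit 4558) (.f (nat_lit 590) (nat_lit 623) (nat_lit 4590) (.d (nat_lit 461) (nat_lit 429) (nat_lit 7597) (nat_lit 493) (nat_lit 7629)))) (.f (nat_lit 559) (nat_lit 591) (nat_lit 4558) (.f (nat_lit 430) (nat_lit 527) (nat_lit 4526) (.d (nat_lit 431) (nat_lit 399) (nat_lit 6542) (nat_lit 463) (nat_lit 6574))))))) (.a s21818 (.a (.p (nat_lit 462) (.a (.f (nat_lit 461) (nat_lit 429) (nat_lit 7597) (.f (nat_lit 495) (nat_lit 497) (nat_lit 3533) (.d (nat_lit 460) (nat_lit 459) (nat_lit 459) (nat_lit 463) (nat_lit 460)))) (.a (.f (nat_lit 557) (nat_lit 589) (nat_lit 5581) (.f (nat_lit 525) (nat_lit 430) (nat_lit 5549) (.d (nat_lit 527) (nat_lit 497) (nat_lit 2541) (nat_lit 556) (nat_lit 1548)))) (.f (nat_lit 429) (nat_lit 461) (nat_lit 7597) (.f (nat_lit 430) (nat_lit 397)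 (nat_lit 7565) (.d (nat_lit 431) (nat_lit 399) (nat_lit 6542) (nat_lit 463) (nat_lit 6574))))))) (.p (nat_lit 462) (.a (.f (nat_lit 559) (nat_lit 591) (nat_lit 4558) (.f (nat_lit 527) (nat_lit 430) (nat_lit 4526) (.d (nat_lit 557) (nat_lit 556) (nat_lit 2572) (nat_lit 589) (nat_lit 5581)))) (.a (.f (nat_lit 463) (nat_lit 431) (nat_lit 6574) (.f (nat_lit 590) (nat_lit 495) (nat_lit 6606) (.d (nat_lit 589) (nat_lit 557) (nat_lit 5581) (nat_lit 621) (nat_lit 5613)))) (.f (nat_lit 559) (nat_lit 591) (nat_lit 4558) (.f (nat_lit 430) (nat_lit 527) (nat_lit 4526) (.d (nat_lit 431) (nat_lit 399) (nat_lit 6542) (nat_lit 463) (nat_lit 6574))))))))))))))))))))))))))))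
noncomputable def s22885 : Cert := .r (nat_lit 4717453032125294316127427693625949108374998796335385130506726868687835905802578684957291737086975161612872578355191225769280585831318013308732534358420551646973186277376) (.p (nat_lit 464) (.a (.f (nat_lit 559) (nat_lit 591) (nat_lit 5583) (.d (nat_lit 561) (nat_lit 525) (nat_lit 3597) (nat_lit 593) (nat_lit 4560))) (.a (.f (nat_lit 465) (nat_lit 433) (nat_lit 6576) (.f (nat_lit 592) (nat_lit 497) (nat_lit 6608) (.d (nat_lit 593) (nat_lit 561) (nat_lit 4560) (nat_lit 625) (nat_lit 4592)))) (.a (.f (nat_lit 559) (nat_lit 591) (nat_lit 5583) (.f (nat_lit 465) (nat_lit 433) (nat_lit 6576) (.f (nat_lit 592) (nat_lit 497) (nat_lit 6608) (.d (nat_lit 593) (nat_lit 557) (nat_lit 557) (nat_lit 625) (nat_lit 4592))))) (.f (nat_lit 559) (nat_lit 591) (nat_lit 5583) (.f (nat_lit 525) (nat_lit 561) (nat_lit 3597) (.d (nat_lit 524) (nat_lit 523) (nat_lit 523) (nat_lit 557) (nat_lit 3596))))))))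
noncomputable def s22910 : Cert := .r (nat_lit 1098367625876631195638990211447803359827765831789854025350228590148069047476135421183724742106088204759328672100049959483405148627549761177659140858869700362240) (.p (nat_lit 527) (.a (.f (nat_lit 525) (nat_lit 497) (nat_lit 2541) (.d (nat_lit 493) (nat_lit 492) (nat_lit 3564) (nat_lit 529) (nat_lit 3565))) (.a (.f (nat_lit 525) (nat_lit 497) (nat_lit 2541) (.f (nat_lit 495) (nat_lit 524) (nat_lit 2540) (.f (nat_lit 493) (nat_lit 492) (nat_lit 492) (.f (nat_lit 461) (nat_lit 460) (nat_lit 3532) (.d (nat_lit 429) (nat_lit 397) (nat_lit 4493) (nat_lit 558) (nat_lit 4525)))))) (.a (.f (nat_lit 529) (nat_lit 493) (nat_lit 3565) (.f (nat_lit 495) (nat_lit 530) (nat_lit 3566) (.f (nat_lit 558) (nat_lit 557) (nat_lit 1549) (.d (nat_lit 463) (nat_lit 431) (nat_lit 5550) (nat_lit 590) (nat_lit 6606))))) (.f (nat_lit 525) (nat_lit 497) (nat_lit 2541) (.f (nat_lit 495) (nat_lit 524) (nat_lit 2540)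 (.f (nat_lit 529) (nat_lit 530) (nat_lit 3566) (.d (nat_lit 557) (nat_lit 556) (nat_lit 1548) (nat_lit 558) (nat_lit 1549)))))))))
noncomputable def s22918 : Cert := .r (nat_lit 1098367625876631195638990211447803359827765831789854025350228590148069047476135421183724742106088204759328672100049959483405148627549761177659140858869700362240) (.p (nat_lit 527) (.a (.f (nat_lit 525) (nat_lit 497) (nat_lit 2541) (.d (nat_lit 493) (nat_lit 492) (nat_lit 3564) (nat_lit 529) (nat_lit 3565))) (.a (.f (nat_lit 525) (nat_lit 497) (nat_lit 2541) (.f (nat_lit 493) (nat_lit 492) (nat_lit 3564) (.f (nat_lit 557) (nat_lit 556) (nat_lit 1548) (.d (nat_lit 462) (nat_lit 430) (nat_lit 5549) (nat_lit 589) (nat_lit 6605))))) (.a (.f (nat_lit 529) (nat_lit 493) (nat_lit 3565) (.f (nat_lit 558) (nat_lit 557) (nat_lit 1549) (.f (nat_lit 559) (nat_lit 530) (nat_lit 1550) (.d (nat_lit 462) (nat_lit 430) (nat_lit 4526) (nat_lit 591) (nat_lit 4558))))) (.f (nat_lit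 525) (nat_lit 497) (nat_lit 2541) (.f (nat_lit 557) (nat_lit 556) (nat_lit 1548) (.f (nat_lit 558) (nat_lit 529) (nat_lit 1549) (.d (nat_lit 462) (nat_lit 430) (nat_lit 5549) (nat_lit 589) (nat_lit 5581)))))))))
noncomputable def s22921 : Cert := .r (nat_lit 1098367625876631195638990211447803359827765831789854025350228590148069047476135421183724742106088204759328672100049959483405148627549761177659140858869700362240) (.p (nat_lit 527) (.a (.f (nat_lit 525) (nat_lit 497) (nat_lit 2541) (.d (nat_lit 493) (nat_lit 492) (nat_lit 3564) (nat_lit 529) (nat_lit 3565))) (.a (.f (nat_lit 525) (nat_lit 497) (nat_lit 2541) (.f (nat_lit 493) (nat_lit 492) (nat_lit 3564) (.f (nat_lit 557) (nat_lit 556) (nat_lit 1548) (.d (nat_lit 462) (nat_lit 430) (nat_lit 5549) (nat_lit 589) (nat_lit 6605))))) (.a (.f (nat_lit 529) (nat_lit 493) (nat_lit 3565) (.f (nat_lit 530) (nat_lit 495) (nat_lit 3566) (.d (nat_lit 562) (nat_lit 561) (nat_lit 526) (nat_lit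 563) (nat_lit 527)))) (.f (nat_lit 525) (nat_lit 497) (nat_lit 2541) (.f (nat_lit 524) (nat_lit 495) (nat_lit 2540) (.d (nat_lit 556) (nat_lit 555) (nat_lit 1547) (nat_lit 557) (nat_lit 1548))))))))
noncomputable def s22943 : Cert := .r (nat_lit 1098367625825484467390612994728847270814834595036468993380805702812392619849633330614901702186037109566736419644567355043912022518030741544129681592411442118656) (.p (nat_lit 558) (.a s19136 (.a s21701 (.a s21905 (.a (.p (nat_lit 560) (.a s22108 (.a (.p (nat_lit 464) (.a (.f (nat_lit 465) (nat_lit 433) (nat_lit 6576) (.f (nat_lit 592) (nat_lit 497) (nat_lit 6608) (.d (nat_lit 593) (nat_lit 561) (nat_lit 4560) (nat_lit 625) (nat_lit 4592)))) (.a (.f (nat_lit 559) (nat_lit 591) (nat_lit 5583) (.f (nat_lit 561) (nat_lit 593) (nat_lit 4560) (.f (nat_lit 562) (nat_lit 527) (nat_lit 3598) (.f (nat_lit 531) (nat_lit 530) (nat_lit 2575) (.f (nat_lit 563) (nat_lit 532) (nat_lit 2576) (.d (nat_lit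 595) (nat_lit 594) (nat_lit 559) (nat_lit 596) (nat_lit 560))))))) (.a (.f (nat_lit 559) (nat_lit 591) (nat_lit 5583) (.f (nat_lit 465) (nat_lit 433) (nat_lit 6576) (.f (nat_lit 592) (nat_lit 497) (nat_lit 6608) (.d (nat_lit 593) (nat_lit 557) (nat_lit 557) (nat_lit 625) (nat_lit 4592))))) (.f (nat_lit 559) (nat_lit 591) (nat_lit 5583) (.f (nat_lit 465) (nat_lit 433) (nat_lit 6576) (.f (nat_lit 463) (nat_lit 431) (nat_lit 7599) (.f (nat_lit 497) (nat_lit 592) (nat_lit 6608) (.f (nat_lit 462) (nat_lit 461) (nat_lit 461) (.f (nat_lit 494) (nat_lit 493) (nat_lit 1485) (.d (nat_lit 430) (nat_lit 429) (nat_lit 3501) (nat_lit 527) (nat_lit 4526)))))))))))) (.a s22155 (.a s21912 (.a (.p (nat_lit 559) (.a (.f (nat_lit 529) (nat_lit 557) (nat_lit 2573) (.d (nat_lit 530) (nat_lit 531) (nat_lit 1551) (nat_lit 561) (nat_lit 2574))) (.f (nat_lit 591) (nat_lit 464) (nat_lit 5583) (.d (nat_lit 623) (nat_lit 527) (nat_lit 6639) (nat_lit 655) (nat_lit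 6671))))) (.a (.p (nat_lit 592) (.a (.f (nat_lit 591) (nat_lit 623) (nat_lit 5615) (.f (nat_lit 593) (nat_lit 625) (nat_lit 4592) (.d (nat_lit 557) (nat_lit 559) (nat_lit 557) (nat_lit 590) (nat_lit 3629)))) (.a (.f (nat_lit 623) (nat_lit 591) (nat_lit 5615) (.f (nat_lit 624) (nat_lit 655) (nat_lit 5647) (.d (nat_lit 625) (nat_lit 593) (nat_lit 4592) (nat_lit 657) (nat_lit 4624)))) (.f (nat_lit 497) (nat_lit 465) (nat_lit 6608) (.f (nat_lit 529) (nat_lit 624) (nat_lit 6640) (.d (nat_lit 557) (nat_lit 527) (nat_lit 1549) (nat_lit 559) (nat_lit 2573))))))) (.a (.p (nat_lit 592) (.a (.f (nat_lit 593) (nat_lit 625) (nat_lit 4592) (.f (nat_lit 559) (nat_lit 557) (nat_lit 557) (.d (nat_lit 594) (nat_lit 561) (nat_lit 558) (nat_lit 595) (nat_lit 3631)))) (.a (.f (nat_lit 497) (nat_lit 465) (nat_lit 6608) (.f (nat_lit 624) (nat_lit 529) (nat_lit 6640) (.d (nat_lit 625) (nat_lit 593) (nat_lit 4592) (nat_lit 657) (nat_lit 4624)))) (.f (nat_lit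 497) (nat_lit 465) (nat_lit 6608) (.f (nat_lit 529) (nat_lit 624) (nat_lit 6640) (.d (nat_lit 557) (nat_lit 527) (nat_lit 1549) (nat_lit 559) (nat_lit 2573))))))) s22216)))))))) (.a s22399 (.a (.p (nat_lit 560) (.a s22108 (.a s21744 (.a s21912 (.a (.p (nat_lit 559) (.a (.f (nat_lit 529) (nat_lit 557) (nat_lit 2573) (.d (nat_lit 530) (nat_lit 531) (nat_lit 1551) (nat_lit 561) (nat_lit 2574))) (.f (nat_lit 591) (nat_lit 464) (nat_lit 5583) (.d (nat_lit 623) (nat_lit 527) (nat_lit 6639) (nat_lit 655) (nat_lit 6671))))) (.a (.p (nat_lit 592) (.a (.f (nat_lit 591) (nat_lit 623) (nat_lit 5615) (.f (nat_lit 593) (nat_lit 625) (nat_lit 4592) (.d (nat_lit 557) (nat_lit 559) (nat_lit 557) (nat_lit 590) (nat_lit 3629)))) (.a (.f (nat_lit 623) (nat_lit 591) (nat_lit 5615) (.f (nat_lit 624) (nat_lit 655) (nat_lit 5647) (.d (nat_lit 625) (nat_lit 593) (nat_lit 4592) (nat_lit 657) (nat_lit 4624)))) (.f (nat_lit 497) (nat_lit 465) (nat_lit 6608)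 (.f (nat_lit 529) (nat_lit 624) (nat_lit 6640) (.d (nat_lit 557) (nat_lit 527) (nat_lit 1549) (nat_lit 559) (nat_lit 2573))))))) (.a (.p (nat_lit 592) (.a (.f (nat_lit 593) (nat_lit 625) (nat_lit 4592) (.f (nat_lit 559) (nat_lit 557) (nat_lit 557) (.d (nat_lit 594) (nat_lit 561) (nat_lit 558) (nat_lit 595) (nat_lit 3631)))) (.a (.f (nat_lit 497) (nat_lit 465) (nat_lit 6608) (.f (nat_lit 624) (nat_lit 529) (nat_lit 6640) (.d (nat_lit 625) (nat_lit 593) (nat_lit 4592) (nat_lit 657) (nat_lit 4624)))) (.f (nat_lit 497) (nat_lit 465) (nat_lit 6608) (.f (nat_lit 529) (nat_lit 624) (nat_lit 6640) (.d (nat_lit 557) (nat_lit 527) (nat_lit 1549) (nat_lit 559) (nat_lit 2573))))))) s22216))))))) (.a s22558 (.a s22564 (.a s22582 (.a s22585 (.a s22590 (.a s22592 s22593)))))))))))))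
noncomputable def s22976 : Cert := .r (nat_lit 1098367625876631195638990211447803359827765831789854025350228590148069047476135421183724742106088204759328672100049959483405148627549761177659140858869700362240) (.p (nat_lit 495) (.a (.f (nat_lit 493) (nat_lit 529) (nat_lit 493) (.d (nat_lit 525) (nat_lit 497) (nat_lit 1517) (nat_lit 524) (nat_lit 1516))) (.a (.f (nat_lit 525) (nat_lit 497) (nat_lit 1517) (.d (nat_lit 524) (nat_lit 493) (nat_lit 1516) (nat_lit 523) (nat_lit 2539))) (.a (.f (nat_lit 529) (nat_lit 493) (nat_lit 493) (.d (nat_lit 530) (nat_lit 497) (nat_lit 494) (nat_lit 531) (nat_lit 3567))) (.a (.f (nat_lit 493) (nat_lit 529) (nat_lit 493) (.f (nat_lit 525) (nat_lit 524) (nat_lit 1516) (.f (nat_lit 461) (nat_lit 460) (nat_lit 3532) (.f (nat_lit 429) (nat_lit 397) (nat_lit 4493) (.f (nat_lit 430) (nat_lit 398) (nat_lit 6541) (.f (nat_lit 557) (nat_lit 462) (nat_lit 5549) (.f (nat_lit 589) (nat_lit 621) (nat_lit 6637)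 (.d (nat_lit 588) (nat_lit 556) (nat_lit 5580) (nat_lit 620) (nat_lit 5612))))))))) (.f (nat_lit 497) (nat_lit 525) (nat_lit 1517) (.f (nat_lit 465) (nat_lit 466) (nat_lit 2510) (.f (nat_lit 529) (nat_lit 530) (nat_lit 494) (.d (nat_lit 433) (nat_lit 401) (nat_lit 5520) (nat_lit 560) (nat_lit 5552))))))))))
noncomputable def s22990 : Cert := .r (nat_lit 3773962425919908978067039048378881885645768491231275023412675293626429865204541471935760055792560469727505484597500264544337939673836815150592175795562377636060837445632) (.p (nat_lit 464) (.a (.f (nat_lit 465) (nat_lit 433) (nat_lit 6576) (.f (nat_lit 592) (nat_lit 497) (nat_lit 6608) (.d (nat_lit 463) (nat_lit 431) (nat_lit 7599) (nat_lit 495) (nat_lit 7631)))) (.a (.f (nat_lit 465) (nat_lit 433) (nat_lit 6576) (.f (nat_lit 592) (nat_lit 497) (nat_lit 6608) (.d (nat_lit 591) (nat_lit 559) (nat_lit 5583) (nat_lit 623) (nat_lit 5615)))) (.f (nat_lit 559) (nat_lit 591) (nat_lit 5583)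 (.f (nat_lit 561) (nat_lit 593) (nat_lit 4560) (.f (nat_lit 562) (nat_lit 527) (nat_lit 3598) (.f (nat_lit 531) (nat_lit 530) (nat_lit 2575) (.f (nat_lit 563) (nat_lit 532) (nat_lit 2576) (.d (nat_lit 595) (nat_lit 594) (nat_lit 559) (nat_lit 596) (nat_lit 560))))))))))
noncomputable def s22991 : Cert := .r (nat_lit 1098367625825484467390612994728847270814834595036468993380805702812392619849633330614901702186037109566736419644567355043912022518030741544129681592411442118656) (.p (nat_lit 560) (.a s18940 (.a (.p (nat_lit 592) (.a (.f (nat_lit 495) (nat_lit 463) (nat_lit 7631) (.f (nat_lit 527) (nat_lit 624) (nat_lit 7663) (.d (nat_lit 497) (nat_lit 465) (nat_lit 6608) (nat_lit 525) (nat_lit 2541)))) (.a (.f (nat_lit 623) (nat_lit 591) (nat_lit 5615) (.f (nat_lit 624) (nat_lit 655) (nat_lit 5647) (.d (nat_lit 625) (nat_lit 593) (nat_lit 4592) (nat_lit 657) (nat_lit 4624)))) (.f (nat_lit 495) (nat_lit 463) (nat_lit 7631) (.f (nat_lit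 497) (nat_lit 465) (nat_lit 6608) (.d (nat_lit 525) (nat_lit 494) (nat_lit 1517) (nat_lit 527) (nat_lit 2541))))))) (.a s18995 (.a (.p (nat_lit 464) (.a (.f (nat_lit 561) (nat_lit 593) (nat_lit 4560) (.f (nat_lit 527) (nat_lit 525) (nat_lit 525) (.d (nat_lit 559) (nat_lit 562) (nat_lit 3598) (nat_lit 591) (nat_lit 5583)))) (.a (.f (nat_lit 465) (nat_lit 433) (nat_lit 6576) (.f (nat_lit 592) (nat_lit 497) (nat_lit 6608) (.d (nat_lit 591) (nat_lit 559) (nat_lit 5583) (nat_lit 623) (nat_lit 5615)))) (.f (nat_lit 465) (nat_lit 433) (nat_lit 6576) (.f (nat_lit 592) (nat_lit 497) (nat_lit 6608) (.d (nat_lit 593) (nat_lit 561) (nat_lit 4560) (nat_lit 625) (nat_lit 4592))))))) (.a (.p (nat_lit 561) (.a (.f (nat_lit 527) (nat_lit 525) (nat_lit 525) (.d (nat_lit 562) (nat_lit 529) (nat_lit 526) (nat_lit 559) (nat_lit 3598))) (.a (.f (nat_lit 527) (nat_lit 525) (nat_lit 525) (.d (nat_lit 562) (nat_lit 559) (nat_lit 3598) (nat_lit 563) (nat_lit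 3599))) (.f (nat_lit 593) (nat_lit 464) (nat_lit 4560) (.d (nat_lit 625) (nat_lit 529) (nat_lit 7664) (nat_lit 657) (nat_lit 7696)))))) s22990))))))
noncomputable def s22992 : Cert := .r (nat_lit 1098367625825484467390612994728847270814834595036468993380805702812392619849633330614901702186037109566736419644567355043912022518030741544129681592411442118656) (.p (nat_lit 558) (.a s19156 (.a s21783 (.a s21949 (.a s22246 (.a s21577 (.a s22415 (.a s22558 (.a s22603 (.a s22642 (.a s22655 (.a s22658 (.a s22666 (.a s22668 (.a s22682 s22684)))))))))))))))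
noncomputable def s23011 : Cert := .r (nat_lit 3773962425919908978067039048378881885645768491231275023412675293626429865204541471935760055792560469727505484597500264544337939673836815150592175795562377636060837445632) (.p (nat_lit 592) (.a (.f (nat_lit 497) (nat_lit 465) (nat_lit 6608) (.f (nat_lit 624) (nat_lit 529) (nat_lit 6640) (.d (nat_lit 625) (nat_lit 593) (nat_lit 4592) (nat_lit 657) (nat_lit 4624)))) (.a (.f (nat_lit 593) (nat_lit 625) (nat_lit 4592) (.f (nat_lit 495) (nat_lit 463) (nat_lit 7631) (.f (nat_lit 497) (nat_lit 465) (nat_lit 6608) (.f (nat_lit 494) (nat_lit 525) (nat_lit 1517) (.f (nat_lit 461) (nat_lit 462) (nat_lit 3533) (.f (nat_lit 493) (nat_lit 460) (nat_lit 3532) (.f (nat_lit 558) (nat_lit 590) (nat_lit 7629) (.f (nat_lit 559) (nat_lit 557) (nat_lit 557) (.d (nat_lit 594) (nat_lit 561) (nat_lit 558) (nat_lit 595) (nat_lit 3631)))))))))) (.a (.f (nat_lit 593) (nat_lit 625) (nat_lit 4592) (.f (nat_lit 464)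 (nat_lit 561) (nat_lit 4560) (.d (nat_lit 463) (nat_lit 431) (nat_lit 7599) (nat_lit 495) (nat_lit 7631)))) (.f (nat_lit 495) (nat_lit 463) (nat_lit 7631) (.f (nat_lit 497) (nat_lit 465) (nat_lit 6608) (.f (nat_lit 494) (nat_lit 525) (nat_lit 1517) (.d (nat_lit 529) (nat_lit 493) (nat_lit 493) (nat_lit 530) (nat_lit 494)))))))))
noncomputable def s23038 : Cert := .r (nat_lit 1098367625825484467390612994728847270814834595036468993380805702812392619849633330614901702186037109566736419644567355043912022518030741544129681592411442118656) (.p (nat_lit 560) (.a (.p (nat_lit 592) (.a (.f (nat_lit 495) (nat_lit 463) (nat_lit 7631) (.f (nat_lit 527) (nat_lit 624) (nat_lit 7663) (.d (nat_lit 497) (nat_lit 465) (nat_lit 6608) (nat_lit 525) (nat_lit 2541)))) (.a (.f (nat_lit 623) (nat_lit 591) (nat_lit 5615) (.f (nat_lit 624) (nat_lit 655) (nat_lit 5647) (.d (nat_lit 625) (nat_lit 593) (nat_lit 4592) (nat_lit 657) (nat_lit 4624)))) (.f (nat_lit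 495) (nat_lit 463) (nat_lit 7631) (.f (nat_lit 497) (nat_lit 465) (nat_lit 6608) (.d (nat_lit 525) (nat_lit 494) (nat_lit 1517) (nat_lit 527) (nat_lit 2541))))))) (.a s18995 (.a (.p (nat_lit 464) (.a (.f (nat_lit 561) (nat_lit 593) (nat_lit 4560) (.f (nat_lit 527) (nat_lit 525) (nat_lit 525) (.d (nat_lit 559) (nat_lit 562) (nat_lit 3598) (nat_lit 591) (nat_lit 5583)))) (.a (.f (nat_lit 465) (nat_lit 433) (nat_lit 6576) (.f (nat_lit 592) (nat_lit 497) (nat_lit 6608) (.d (nat_lit 591) (nat_lit 559) (nat_lit 5583) (nat_lit 623) (nat_lit 5615)))) (.f (nat_lit 465) (nat_lit 433) (nat_lit 6576) (.f (nat_lit 592) (nat_lit 497) (nat_lit 6608) (.d (nat_lit 593) (nat_lit 561) (nat_lit 4560) (nat_lit 625) (nat_lit 4592))))))) (.a (.p (nat_lit 561) (.a (.f (nat_lit 527) (nat_lit 525) (nat_lit 525) (.d (nat_lit 562) (nat_lit 529) (nat_lit 526) (nat_lit 559) (nat_lit 3598))) (.a (.f (nat_lit 527) (nat_lit 525) (nat_lit 525) (.d (nat_lit 562) (nat_lit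 559) (nat_lit 3598) (nat_lit 563) (nat_lit 3599))) (.f (nat_lit 593) (nat_lit 464) (nat_lit 4560) (.d (nat_lit 625) (nat_lit 529) (nat_lit 7664) (nat_lit 657) (nat_lit 7696)))))) (.a s22990 (.p (nat_lit 592) (.a (.f (nat_lit 495) (nat_lit 463) (nat_lit 7631) (.f (nat_lit 527) (nat_lit 624) (nat_lit 7663) (.d (nat_lit 497) (nat_lit 465) (nat_lit 6608) (nat_lit 525) (nat_lit 2541)))) (.a (.f (nat_lit 497) (nat_lit 465) (nat_lit 6608) (.f (nat_lit 624) (nat_lit 529) (nat_lit 6640) (.d (nat_lit 623) (nat_lit 591) (nat_lit 5615) (nat_lit 655) (nat_lit 5647)))) (.a (.f (nat_lit 495) (nat_lit 463) (nat_lit 7631) (.f (nat_lit 527) (nat_lit 624) (nat_lit 7663) (.f (nat_lit 591) (nat_lit 623) (nat_lit 5615) (.f (nat_lit 559) (nat_lit 464) (nat_lit 5583) (.d (nat_lit 561) (nat_lit 525) (nat_lit 525) (nat_lit 562) (nat_lit 3598)))))) (.f (nat_lit 495) (nat_lit 463) (nat_lit 7631) (.f (nat_lit 497) (nat_lit 465) (nat_lit 6608) (.d (nat_lit 525)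 (nat_lit 494) (nat_lit 1517) (nat_lit 527) (nat_lit 2541))))))))))))))
noncomputable def s23039 : Cert := .r (nat_lit 878694100701304956511192169158242687862212665431883220280182872118455237980908336946979793684870563807462937680039967586724118902039808942127312687095760289792) (.p (nat_lit 526) (.a s19184 (.a s22872 (.a (.p (nat_lit 558) (.a s19113 (.a s21575 (.a (.p (nat_lit 560) (.a s22641 (.a s22885 (.a s21912 (.a s21930 (.a (.p (nat_lit 592) (.a (.f (nat_lit 593) (nat_lit 625) (nat_lit 4592) (.f (nat_lit 559) (nat_lit 557) (nat_lit 557) (.d (nat_lit 561) (nat_lit 525) (nat_lit 3597) (nat_lit 594) (nat_lit 558)))) (.a (.f (nat_lit 497) (nat_lit 465) (nat_lit 6608) (.f (nat_lit 624) (nat_lit 529) (nat_lit 6640) (.d (nat_lit 625) (nat_lit 593) (nat_lit 4592) (nat_lit 657) (nat_lit 4624)))) (.f (nat_lit 497) (nat_lit 465) (nat_lit 6608) (.f (nat_lit 529) (nat_lit 624) (nat_lit 6640) (.f (nat_lit 559) (nat_lit 557) (nat_lit 2573)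 (.d (nat_lit 530) (nat_lit 531) (nat_lit 1551) (nat_lit 561) (nat_lit 2574)))))))) s21947)))))) (.a s21897 (.a s21905 (.a (.p (nat_lit 560) (.a s21912 (.a s22885 (.a s21929 (.a s21930 (.a (.p (nat_lit 592) (.a (.f (nat_lit 593) (nat_lit 625) (nat_lit 4592) (.f (nat_lit 559) (nat_lit 557) (nat_lit 557) (.d (nat_lit 561) (nat_lit 525) (nat_lit 3597) (nat_lit 594) (nat_lit 558)))) (.a (.f (nat_lit 497) (nat_lit 465) (nat_lit 6608) (.f (nat_lit 624) (nat_lit 529) (nat_lit 6640) (.d (nat_lit 625) (nat_lit 593) (nat_lit 4592) (nat_lit 657) (nat_lit 4624)))) (.f (nat_lit 497) (nat_lit 465) (nat_lit 6608) (.f (nat_lit 529) (nat_lit 624) (nat_lit 6640) (.f (nat_lit 559) (nat_lit 557) (nat_lit 2573) (.d (nat_lit 530) (nat_lit 531) (nat_lit 1551) (nat_lit 561) (nat_lit 2574)))))))) (.a s21941 s21947))))))) (.a s21949 (.a s21983 (.a s21998 (.a s22023 s22046))))))))))) (.a (.p (nat_lit 527) (.a (.f (nat_lit 525) (nat_lit 497) (nat_lit 2541) (.f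 (nat_lit 557) (nat_lit 556) (nat_lit 1548) (.f (nat_lit 493) (nat_lit 492) (nat_lit 3564) (.d (nat_lit 529) (nat_lit 494) (nat_lit 3565) (nat_lit 558) (nat_lit 1549))))) (.a (.f (nat_lit 525) (nat_lit 497) (nat_lit 2541) (.f (nat_lit 556) (nat_lit 557) (nat_lit 1548) (.f (nat_lit 524) (nat_lit 555) (nat_lit 1547) (.d (nat_lit 492) (nat_lit 491) (nat_lit 3563) (nat_lit 493) (nat_lit 3564))))) (.a (.p (nat_lit 529) (.a (.f (nat_lit 558) (nat_lit 557) (nat_lit 1549) (.f (nat_lit 559) (nat_lit 530) (nat_lit 1550) (.f (nat_lit 494) (nat_lit 493) (nat_lit 3565) (.d (nat_lit 462) (nat_lit 430) (nat_lit 4526) (nat_lit 591) (nat_lit 4558))))) (.f (nat_lit 561) (nat_lit 562) (nat_lit 526) (.f (nat_lit 593) (nat_lit 625) (nat_lit 7664) (.d (nat_lit 464) (nat_lit 497) (nat_lit 7632) (nat_lit 560) (nat_lit 4560)))))) (.a (.p (nat_lit 529) (.a (.f (nat_lit 558) (nat_lit 557) (nat_lit 1549) (.f (nat_lit 559) (nat_lit 530) (nat_lit 1550) (.f (nat_lit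 494) (nat_lit 493) (nat_lit 3565) (.d (nat_lit 462) (nat_lit 430) (nat_lit 4526) (nat_lit 591) (nat_lit 4558))))) (.a (.f (nat_lit 493) (nat_lit 494) (nat_lit 3565) (.f (nat_lit 525) (nat_lit 492) (nat_lit 3564) (.d (nat_lit 557) (nat_lit 556) (nat_lit 1548) (nat_lit 558) (nat_lit 1549)))) (.a (.f (nat_lit 558) (nat_lit 557) (nat_lit 1549) (.f (nat_lit 530) (nat_lit 559) (nat_lit 1550) (.d (nat_lit 562) (nat_lit 561) (nat_lit 526) (nat_lit 563) (nat_lit 527)))) (.f (nat_lit 561) (nat_lit 562) (nat_lit 526) (.f (nat_lit 560) (nat_lit 525) (nat_lit 525) (.d (nat_lit 593) (nat_lit 464) (nat_lit 4560) (nat_lit 625) (nat_lit 7664)))))))) (.f (nat_lit 525) (nat_lit 497) (nat_lit 2541) (.f (nat_lit 560) (nat_lit 561) (nat_lit 525) (.f (nat_lit 559) (nat_lit 524) (nat_lit 524) (.d (nat_lit 591) (nat_lit 464) (nat_lit 5583) (nat_lit 623) (nat_lit 6639)))))))))) (.a (.p (nat_lit 494) (.a s22910 (.a s22827 (.a s22828 (.a s22918 (.a s22833 (.a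 s22921 (.a s22852 (.a s22853 s22855))))))))) (.a (.p (nat_lit 558) (.a (.p (nat_lit 527) (.a (.f (nat_lit 525) (nat_lit 497) (nat_lit 2541) (.d (nat_lit 557) (nat_lit 529) (nat_lit 1549) (nat_lit 556) (nat_lit 1548))) (.a (.f (nat_lit 525) (nat_lit 497) (nat_lit 2541) (.f (nat_lit 524) (nat_lit 495) (nat_lit 2540) (.d (nat_lit 492) (nat_lit 491) (nat_lit 3563) (nat_lit 493) (nat_lit 3564)))) (.f (nat_lit 529) (nat_lit 557) (nat_lit 1549) (.f (nat_lit 494) (nat_lit 493) (nat_lit 3565) (.f (nat_lit 495) (nat_lit 530) (nat_lit 3566) (.d (nat_lit 463) (nat_lit 431) (nat_lit 5550) (nat_lit 590) (nat_lit 6606)))))))) (.a s21693 (.a s21897 (.a s22104 (.a s22399 (.a s22408 (.a s22415 (.a s22416 s22428))))))))) (.a s22943 (.a (.p (nat_lit 527) (.a (.f (nat_lit 525) (nat_lit 497) (nat_lit 2541) (.f (nat_lit 524) (nat_lit 495) (nat_lit 2540) (.d (nat_lit 492) (nat_lit 491) (nat_lit 3563) (nat_lit 493) (nat_lit 3564)))) (.a (.f (nat_lit 525)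 (nat_lit 497) (nat_lit 2541) (.f (nat_lit 556) (nat_lit 557) (nat_lit 1548) (.f (nat_lit 524) (nat_lit 555) (nat_lit 1547) (.d (nat_lit 492) (nat_lit 491) (nat_lit 3563) (nat_lit 493) (nat_lit 3564))))) (.a (.p (nat_lit 529) (.a (.f (nat_lit 558) (nat_lit 557) (nat_lit 1549) (.f (nat_lit 530) (nat_lit 559) (nat_lit 1550) (.d (nat_lit 562) (nat_lit 561) (nat_lit 526) (nat_lit 563) (nat_lit 527)))) (.a (.f (nat_lit 561) (nat_lit 562) (nat_lit 526) (.f (nat_lit 593) (nat_lit 625) (nat_lit 7664) (.d (nat_lit 464) (nat_lit 497) (nat_lit 7632) (nat_lit 560) (nat_lit 4560)))) (.a (.f (nat_lit 558) (nat_lit 557) (nat_lit 1549) (.f (nat_lit 530) (nat_lit 559) (nat_lit 1550) (.f (nat_lit 531) (nat_lit 495) (nat_lit 3567) (.d (nat_lit 563) (nat_lit 562) (nat_lit 527) (nat_lit 564) (nat_lit 528))))) (.f (nat_lit 558) (nat_lit 557) (nat_lit 1549) (.f (nat_lit 559) (nat_lit 530) (nat_lit 1550) (.f (nat_lit 591) (nat_lit 623) (nat_lit 6639) (.d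 (nat_lit 464) (nat_lit 495) (nat_lit 6607) (nat_lit 560) (nat_lit 5583))))))))) (.p (nat_lit 529) (.a (.f (nat_lit 558) (nat_lit 557) (nat_lit 1549) (.f (nat_lit 530) (nat_lit 559) (nat_lit 1550) (.d (nat_lit 562) (nat_lit 561) (nat_lit 526) (nat_lit 563) (nat_lit 527)))) (.a (.f (nat_lit 557) (nat_lit 558) (nat_lit 1549) (.f (nat_lit 525) (nat_lit 556) (nat_lit 1548) (.f (nat_lit 492) (nat_lit 493) (nat_lit 3564) (.d (nat_lit 524) (nat_lit 491) (nat_lit 3563) (nat_lit 495) (nat_lit 2540))))) (.f (nat_lit 561) (nat_lit 562) (nat_lit 526) (.f (nat_lit 560) (nat_lit 525) (nat_lit 525) (.d (nat_lit 593) (nat_lit 464) (nat_lit 4560) (nat_lit 625) (nat_lit 7664))))))))))) (.a (.p (nat_lit 494) (.a s22910 (.a s22827 (.a s22828 (.a s22918 (.a s22833 (.a s22976 (.a s22852 (.a s22853 s22855))))))))) (.a s22991 (.a s22992 (.a (.p (nat_lit 560) (.a s18940 (.a (.p (nat_lit 592) (.a (.f (nat_lit 495) (nat_lit 463) (nat_lit 7631) (.f (nat_lit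 527) (nat_lit 624) (nat_lit 7663) (.d (nat_lit 497) (nat_lit 465) (nat_lit 6608) (nat_lit 525) (nat_lit 2541)))) (.a (.f (nat_lit 623) (nat_lit 591) (nat_lit 5615) (.f (nat_lit 624) (nat_lit 655) (nat_lit 5647) (.d (nat_lit 625) (nat_lit 593) (nat_lit 4592) (nat_lit 657) (nat_lit 4624)))) (.f (nat_lit 495) (nat_lit 463) (nat_lit 7631) (.f (nat_lit 497) (nat_lit 465) (nat_lit 6608) (.d (nat_lit 525) (nat_lit 494) (nat_lit 1517) (nat_lit 527) (nat_lit 2541))))))) (.a (.p (nat_lit 464) (.a (.f (nat_lit 465) (nat_lit 433) (nat_lit 6576) (.f (nat_lit 592) (nat_lit 497) (nat_lit 6608) (.d (nat_lit 591) (nat_lit 559) (nat_lit 5583) (nat_lit 623) (nat_lit 5615)))) (.a (.f (nat_lit 465) (nat_lit 433) (nat_lit 6576) (.f (nat_lit 592) (nat_lit 497) (nat_lit 6608) (.d (nat_lit 593) (nat_lit 561) (nat_lit 4560) (nat_lit 625) (nat_lit 4592)))) (.f (nat_lit 559) (nat_lit 591) (nat_lit 5583) (.f (nat_lit 561) (nat_lit 593) (nat_lit 4560) (.f (nat_lit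 558) (nat_lit 525) (nat_lit 3597) (.d (nat_lit 529) (nat_lit 530) (nat_lit 2574) (nat_lit 557) (nat_lit 2573)))))))) (.a (.p (nat_lit 561) (.a (.f (nat_lit 527) (nat_lit 525) (nat_lit 525) (.d (nat_lit 562) (nat_lit 529) (nat_lit 526) (nat_lit 559) (nat_lit 3598))) (.a (.f (nat_lit 527) (nat_lit 525) (nat_lit 525) (.d (nat_lit 562) (nat_lit 559) (nat_lit 3598) (nat_lit 563) (nat_lit 3599))) (.f (nat_lit 593) (nat_lit 464) (nat_lit 4560) (.d (nat_lit 625) (nat_lit 529) (nat_lit 7664) (nat_lit 657) (nat_lit 7696)))))) s22990))))) (.a (.p (nat_lit 560) (.a s19283 (.a (.p (nat_lit 464) (.a (.f (nat_lit 465) (nat_lit 433) (nat_lit 6576) (.f (nat_lit 592) (nat_lit 497) (nat_lit 6608) (.d (nat_lit 463) (nat_lit 431) (nat_lit 7599) (nat_lit 495) (nat_lit 7631)))) (.a (.f (nat_lit 465) (nat_lit 433) (nat_lit 6576) (.f (nat_lit 592) (nat_lit 497) (nat_lit 6608) (.d (nat_lit 593) (nat_lit 561) (nat_lit 4560) (nat_lit 625) (nat_lit 4592))))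 (.f (nat_lit 561) (nat_lit 593) (nat_lit 4560) (.f (nat_lit 527) (nat_lit 525) (nat_lit 525) (.d (nat_lit 562) (nat_lit 559) (nat_lit 3598) (nat_lit 563) (nat_lit 3599))))))) (.a s23011 (.a (.p (nat_lit 561) (.a (.f (nat_lit 527) (nat_lit 525) (nat_lit 525) (.d (nat_lit 562) (nat_lit 529) (nat_lit 526) (nat_lit 559) (nat_lit 3598))) (.a (.f (nat_lit 527) (nat_lit 525) (nat_lit 525) (.d (nat_lit 562) (nat_lit 559) (nat_lit 3598) (nat_lit 563) (nat_lit 3599))) (.f (nat_lit 593) (nat_lit 464) (nat_lit 4560) (.d (nat_lit 625) (nat_lit 529) (nat_lit 7664) (nat_lit 657) (nat_lit 7696)))))) (.a (.p (nat_lit 592) (.a (.f (nat_lit 497) (nat_lit 465) (nat_lit 6608) (.f (nat_lit 624) (nat_lit 529) (nat_lit 6640) (.d (nat_lit 625) (nat_lit 593) (nat_lit 4592) (nat_lit 657) (nat_lit 4624)))) (.a (.f (nat_lit 593) (nat_lit 625) (nat_lit 4592) (.f (nat_lit 464) (nat_lit 561) (nat_lit 4560) (.d (nat_lit 463) (nat_lit 431) (nat_lit 7599) (nat_lit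 495) (nat_lit 7631)))) (.f (nat_lit 495) (nat_lit 463) (nat_lit 7631) (.f (nat_lit 624) (nat_lit 527) (nat_lit 7663) (.d (nat_lit 497) (nat_lit 465) (nat_lit 6608) (nat_lit 529) (nat_lit 6640))))))) (.a (.p (nat_lit 592) (.a (.f (nat_lit 495) (nat_lit 463) (nat_lit 7631) (.f (nat_lit 527) (nat_lit 624) (nat_lit 7663) (.d (nat_lit 497) (nat_lit 465) (nat_lit 6608) (nat_lit 525) (nat_lit 2541)))) (.a (.f (nat_lit 497) (nat_lit 465) (nat_lit 6608) (.f (nat_lit 624) (nat_lit 529) (nat_lit 6640) (.d (nat_lit 625) (nat_lit 593) (nat_lit 4592) (nat_lit 657) (nat_lit 4624)))) (.a (.f (nat_lit 495) (nat_lit 463) (nat_lit 7631) (.f (nat_lit 527) (nat_lit 624) (nat_lit 7663) (.f (nat_lit 525) (nat_lit 524) (nat_lit 2540) (.f (nat_lit 493) (nat_lit 492) (nat_lit 3564) (.f (nat_lit 494) (nat_lit 529) (nat_lit 493) (.f (nat_lit 557) (nat_lit 556) (nat_lit 1548) (.d (nat_lit 462) (nat_lit 430) (nat_lit 5549) (nat_lit 589) (nat_lit 6605))))))))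 (.f (nat_lit 495) (nat_lit 463) (nat_lit 7631) (.f (nat_lit 497) (nat_lit 465) (nat_lit 6608) (.d (nat_lit 525) (nat_lit 494) (nat_lit 1517) (nat_lit 527) (nat_lit 2541)))))))) (.p (nat_lit 592) (.a (.f (nat_lit 495) (nat_lit 463) (nat_lit 7631) (.f (nat_lit 527) (nat_lit 624) (nat_lit 7663) (.d (nat_lit 497) (nat_lit 465) (nat_lit 6608) (nat_lit 525) (nat_lit 2541)))) (.a (.f (nat_lit 495) (nat_lit 463) (nat_lit 7631) (.f (nat_lit 497) (nat_lit 465) (nat_lit 6608) (.f (nat_lit 494) (nat_lit 525) (nat_lit 1517) (.d (nat_lit 529) (nat_lit 493) (nat_lit 493) (nat_lit 530) (nat_lit 494))))) (.a (.f (nat_lit 497) (nat_lit 465) (nat_lit 6608) (.f (nat_lit 527) (nat_lit 525) (nat_lit 2541) (.f (nat_lit 529) (nat_lit 624) (nat_lit 6640) (.f (nat_lit 562) (nat_lit 561) (nat_lit 526) (.f (nat_lit 530) (nat_lit 563) (nat_lit 527) (.d (nat_lit 531) (nat_lit 532) (nat_lit 3568) (nat_lit 559) (nat_lit 1551))))))) (.a (.f (nat_lit 495) (nat_lit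 463) (nat_lit 7631) (.f (nat_lit 624) (nat_lit 527) (nat_lit 7663) (.d (nat_lit 497) (nat_lit 465) (nat_lit 6608) (nat_lit 529) (nat_lit 6640)))) (.f (nat_lit 495) (nat_lit 463) (nat_lit 7631) (.f (nat_lit 527) (nat_lit 624) (nat_lit 7663) (.d (nat_lit 525) (nat_lit 524) (nat_lit 2540) (nat_lit 561) (nat_lit 525)))))))))))))))) s23038))))))))))))))
noncomputable def s23107 : Cert := .r (nat_lit 3773962425700235452942859537499461060075163908278653093808089520525807034510604090067035062124638561226338938838226782579810552216648911534601243193560008730745155616768) (.p (nat_lit 464) (.a (.f (nat_lit 465) (nat_lit 433) (nat_lit 6576) (.f (nat_lit 592) (nat_lit 497) (nat_lit 6608) (.d (nat_lit 591) (nat_lit 559) (nat_lit 5583) (nat_lit 623) (nat_lit 5615)))) (.a (.f (nat_lit 465) (nat_lit 433) (nat_lit 6576) (.f (nat_lit 592) (nat_lit 497) (nat_lit 6608) (.f (nat_lit 623) (nat_lit 591) (nat_lit 5615) (.f (nat_lit 624) (nat_lit 655) (nat_lit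 5647) (.d (nat_lit 625) (nat_lit 593) (nat_lit 4592) (nat_lit 657) (nat_lit 4624)))))) (.a (.f (nat_lit 559) (nat_lit 591) (nat_lit 5583) (.f (nat_lit 432) (nat_lit 527) (nat_lit 5551) (.d (nat_lit 433) (nat_lit 401) (nat_lit 6544) (nat_lit 465) (nat_lit 6576)))) (.a (.f (nat_lit 465) (nat_lit 433) (nat_lit 6576) (.f (nat_lit 592) (nat_lit 497) (nat_lit 6608) (.f (nat_lit 625) (nat_lit 593) (nat_lit 4592) (.f (nat_lit 624) (nat_lit 657) (nat_lit 4624) (.f (nat_lit 527) (nat_lit 495) (nat_lit 7663) (.d (nat_lit 559) (nat_lit 432) (nat_lit 5551) (nat_lit 656) (nat_lit 7695))))))) (.a (.f (nat_lit 559) (nat_lit 591) (nat_lit 5583) (.f (nat_lit 432) (nat_lit 527) (nat_lit 5551) (.f (nat_lit 399) (nat_lit 431) (nat_lit 7567) (.f (nat_lit 400) (nat_lit 367) (nat_lit 7535) (.f (nat_lit 369) (nat_lit 401) (nat_lit 6512) (.f (nat_lit 368) (nat_lit 337) (nat_lit 6480) (.d (nat_lit 497) (nat_lit 465) (nat_lit 4464) (nat_lit 529) (nat_lit 4496))))))))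 (.f (nat_lit 559) (nat_lit 591) (nat_lit 5583) (.f (nat_lit 432) (nat_lit 527) (nat_lit 5551) (.f (nat_lit 399) (nat_lit 431) (nat_lit 7567) (.f (nat_lit 400) (nat_lit 367) (nat_lit 7535) (.d (nat_lit 401) (nat_lit 369) (nat_lit 6512) (nat_lit 433) (nat_lit 6544))))))))))))
noncomputable def s23201 : Cert := .r (nat_lit 878694100752451684807203488512635670054184387259016517413005999668135742006018169209305209990721305303160446835099781058807377627547088812708895605886908628992) (.p (nat_lit 432) (.a (.f (nat_lit 401) (nat_lit 433) (nat_lit 6544) (.f (nat_lit 400) (nat_lit 369) (nat_lit 6512) (.d (nat_lit 399) (nat_lit 367) (nat_lit 7535) (nat_lit 431) (nat_lit 7567)))) (.a (.f (nat_lit 401) (nat_lit 433) (nat_lit 6544) (.f (nat_lit 400) (nat_lit 369) (nat_lit 6512) (.f (nat_lit 367) (nat_lit 399) (nat_lit 7535) (.f (nat_lit 368) (nat_lit 335) (nat_lit 7503) (.f (nat_lit 495) (nat_lit 463) (nat_lit 5487) (.d (nat_lit 465) (nat_lit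 493) (nat_lit 2509) (nat_lit 497) (nat_lit 4464))))))) (.a (.f (nat_lit 399) (nat_lit 431) (nat_lit 7567) (.f (nat_lit 400) (nat_lit 367) (nat_lit 7535) (.f (nat_lit 369) (nat_lit 401) (nat_lit 6512) (.f (nat_lit 368) (nat_lit 337) (nat_lit 6480) (.f (nat_lit 495) (nat_lit 463) (nat_lit 5487) (.d (nat_lit 465) (nat_lit 493) (nat_lit 2509) (nat_lit 497) (nat_lit 4464))))))) (.a (.p (nat_lit 465) (.a (.f (nat_lit 495) (nat_lit 493) (nat_lit 2509) (.d (nat_lit 466) (nat_lit 463) (nat_lit 1486) (nat_lit 467) (nat_lit 1487))) (.a (.f (nat_lit 433) (nat_lit 401) (nat_lit 6544) (.f (nat_lit 431) (nat_lit 399) (nat_lit 7567) (.d (nat_lit 430) (nat_lit 429) (nat_lit 429) (nat_lit 466) (nat_lit 430)))) (.f (nat_lit 433) (nat_lit 401) (nat_lit 6544) (.f (nat_lit 431) (nat_lit 399) (nat_lit 7567) (.f (nat_lit 430) (nat_lit 429) (nat_lit 429) (.f (nat_lit 462) (nat_lit 461) (nat_lit 1453) (.d (nat_lit 463) (nat_lit 434) (nat_lit 1454) (nat_lit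 493) (nat_lit 1485))))))))) (.a (.p (nat_lit 465) (.a (.f (nat_lit 495) (nat_lit 493) (nat_lit 2509) (.d (nat_lit 466) (nat_lit 463) (nat_lit 1486) (nat_lit 467) (nat_lit 1487))) (.a (.f (nat_lit 401) (nat_lit 433) (nat_lit 6544) (.f (nat_lit 400) (nat_lit 369) (nat_lit 6512) (.f (nat_lit 368) (nat_lit 497) (nat_lit 4464) (.f (nat_lit 335) (nat_lit 367) (nat_lit 7503) (.f (nat_lit 336) (nat_lit 303) (nat_lit 7471) (.f (nat_lit 337) (nat_lit 305) (nat_lit 6448) (.f (nat_lit 463) (nat_lit 431) (nat_lit 5455) (.f (nat_lit 462) (nat_lit 493) (nat_lit 1485) (.f (nat_lit 429) (nat_lit 430) (nat_lit 3501) (.f (nat_lit 461) (nat_lit 428) (nat_lit 3500) (.f (nat_lit 365) (nat_lit 397) (nat_lit 4461) (.f (nat_lit 334) (nat_lit 366) (nat_lit 1357) (.f (nat_lit 333) (nat_lit 364) (nat_lit 1356) (.d (nat_lit 301) (nat_lit 300) (nat_lit 3372) (nat_lit 302) (nat_lit 3373))))))))))))))) (.a (.f (nat_lit 401) (nat_lit 433) (nat_lit 6544) (.f (nat_lit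 400) (nat_lit 369) (nat_lit 6512) (.f (nat_lit 368) (nat_lit 497) (nat_lit 4464) (.f (nat_lit 463) (nat_lit 495) (nat_lit 5487) (.f (nat_lit 431) (nat_lit 336) (nat_lit 5455) (.d (nat_lit 430) (nat_lit 429) (nat_lit 2445) (nat_lit 466) (nat_lit 3502))))))) (.f (nat_lit 495) (nat_lit 493) (nat_lit 2509) (.d (nat_lit 466) (nat_lit 467) (nat_lit 1487) (nat_lit 497) (nat_lit 2510))))))) (.p (nat_lit 495) (.a (.f (nat_lit 465) (nat_lit 493) (nat_lit 2509) (.d (nat_lit 466) (nat_lit 463) (nat_lit 1486) (nat_lit 467) (nat_lit 1487))) (.a (.f (nat_lit 399) (nat_lit 431) (nat_lit 7567) (.f (nat_lit 400) (nat_lit 367) (nat_lit 7535) (.f (nat_lit 368) (nat_lit 463) (nat_lit 5487) (.f (nat_lit 465) (nat_lit 497) (nat_lit 4464) (.f (nat_lit 336) (nat_lit 433) (nat_lit 4432) (.d (nat_lit 337) (nat_lit 305) (nat_lit 6448) (nat_lit 369) (nat_lit 6480))))))) (.a (.f (nat_lit 465) (nat_lit 493) (nat_lit 2509) (.d (nat_lit 466) (nat_lit 467) (nat_lit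 1487) (nat_lit 497) (nat_lit 2510))) (.f (nat_lit 399) (nat_lit 431) (nat_lit 7567) (.f (nat_lit 400) (nat_lit 367) (nat_lit 7535) (.f (nat_lit 463) (nat_lit 368) (nat_lit 5487) (.f (nat_lit 493) (nat_lit 492) (nat_lit 2508) (.f (nat_lit 461) (nat_lit 460) (nat_lit 3532) (.d (nat_lit 462) (nat_lit 433) (nat_lit 2477) (nat_lit 497) (nat_lit 461)))))))))))))))))
noncomputable def s23215 : Cert := .r (nat_lit 878694100752451684807203488512635670054184387259016517413005999668135742006018169209305209990721305303160446835099781058807377627547088812708895605886908628992) (.p (nat_lit 432) (.a (.f (nat_lit 529) (nat_lit 561) (nat_lit 4528) (.f (nat_lit 400) (nat_lit 497) (nat_lit 4496) (.d (nat_lit 399) (nat_lit 367) (nat_lit 7535) (nat_lit 431) (nat_lit 7567)))) (.a (.f (nat_lit 401) (nat_lit 433) (nat_lit 6544) (.f (nat_lit 400) (nat_lit 369) (nat_lit 6512) (.d (nat_lit 399) (nat_lit 367) (nat_lit 7535) (nat_lit 431) (nat_lit 7567))))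 (.a (.f (nat_lit 529) (nat_lit 561) (nat_lit 4528) (.f (nat_lit 400) (nat_lit 497) (nat_lit 4496) (.d (nat_lit 401) (nat_lit 369) (nat_lit 6512) (nat_lit 433) (nat_lit 6544)))) (.f (nat_lit 433) (nat_lit 401) (nat_lit 6544) (.f (nat_lit 431) (nat_lit 399) (nat_lit 7567) (.f (nat_lit 529) (nat_lit 561) (nat_lit 4528) (.f (nat_lit 527) (nat_lit 559) (nat_lit 5551) (.f (nat_lit 526) (nat_lit 493) (nat_lit 3565) (.f (nat_lit 525) (nat_lit 497) (nat_lit 2541) (.f (nat_lit 557) (nat_lit 556) (nat_lit 1548) (.f (nat_lit 430) (nat_lit 462) (nat_lit 5549) (.d (nat_lit 465) (nat_lit 429) (nat_lit 429) (nat_lit 466) (nat_lit 430))))))))))))))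
noncomputable def s23255 : Cert := .r (nat_lit 878694100752451684807203488512635670054184387259016517413005999668135742006018169209305209990721305303160446835099781058807377627547088812708895605886908628992) (.p (nat_lit 432) (.a (.f (nat_lit 529) (nat_lit 561) (nat_lit 4528) (.f (nat_lit 400) (nat_lit 497) (nat_lit 4496) (.d (nat_lit 399) (nat_lit 367) (nat_lit 7535) (nat_lit 431) (nat_lit 7567)))) (.a (.f (nat_lit 401) (nat_lit 433) (nat_lit 6544) (.f (nat_lit 400) (nat_lit 369) (nat_lit 6512) (.d (nat_lit 399) (nat_lit 367) (nat_lit 7535) (nat_lit 431) (nat_lit 7567)))) (.a (.f (nat_lit 529) (nat_lit 561) (nat_lit 4528) (.f (nat_lit 400) (nat_lit 497) (nat_lit 4496) (.d (nat_lit 401) (nat_lit 369) (nat_lit 6512) (nat_lit 433) (nat_lit 6544)))) (.f (nat_lit 529) (nat_lit 561) (nat_lit 4528) (.f (nat_lit 527) (nat_lit 559) (nat_lit 5551) (.f (nat_lit 530) (nat_lit 495) (nat_lit 3566) (.f (nat_lit 433) (nat_lit 401) (nat_lit 6544)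 (.f (nat_lit 431) (nat_lit 399) (nat_lit 7567) (.f (nat_lit 562) (nat_lit 563) (nat_lit 527) (.f (nat_lit 465) (nat_lit 497) (nat_lit 4529) (.d (nat_lit 430) (nat_lit 429) (nat_lit 429) (nat_lit 466) (nat_lit 430)))))))))))))
noncomputable def s23266 : Cert := .r (nat_lit 878694100752451684807203488512635670054184387259016517413005999668135742006018169209305209990721305303160446835099781058807377627547088812708895605886908628992) (.p (nat_lit 463) (.a (.p (nat_lit 462) (.a (.f (nat_lit 461) (nat_lit 497) (nat_lit 461) (.d (nat_lit 493) (nat_lit 465) (nat_lit 1485) (nat_lit 492) (nat_lit 1484))) (.a (.f (nat_lit 465) (nat_lit 493) (nat_lit 1485) (.f (nat_lit 433) (nat_lit 434) (nat_lit 2478) (.d (nat_lit 401) (nat_lit 369) (nat_lit 5488) (nat_lit 432) (nat_lit 6544)))) (.f (nat_lit 461) (nat_lit 497) (nat_lit 461) (.f (nat_lit 432) (nat_lit 433) (nat_lit 2477) (.d (nat_lit 431) (nat_lit 399) (nat_lit 7567) (nat_lit 460) (nat_lit 2476)))))))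 (.a (.f (nat_lit 560) (nat_lit 431) (nat_lit 7599) (.f (nat_lit 465) (nat_lit 433) (nat_lit 6576) (.f (nat_lit 462) (nat_lit 493) (nat_lit 1485) (.d (nat_lit 497) (nat_lit 461) (nat_lit 461) (nat_lit 592) (nat_lit 6608))))) (.a (.f (nat_lit 431) (nat_lit 560) (nat_lit 7599) (.d (nat_lit 399) (nat_lit 367) (nat_lit 4463) (nat_lit 432) (nat_lit 7567))) (.p (nat_lit 462) (.a (.f (nat_lit 461) (nat_lit 497) (nat_lit 461) (.d (nat_lit 493) (nat_lit 465) (nat_lit 1485) (nat_lit 492) (nat_lit 1484))) (.a (.f (nat_lit 465) (nat_lit 493) (nat_lit 1485) (.f (nat_lit 433) (nat_lit 434) (nat_lit 2478) (.d (nat_lit 401) (nat_lit 369) (nat_lit 5488) (nat_lit 432) (nat_lit 6544)))) (.a (.f (nat_lit 461) (nat_lit 497) (nat_lit 461) (.f (nat_lit 429) (nat_lit 428) (nat_lit 3500) (.f (nat_lit 430) (nat_lit 465) (nat_lit 3501) (.d (nat_lit 397) (nat_lit 365) (nat_lit 4461) (nat_lit 526) (nat_lit 7565))))) (.f (nat_lit 461) (nat_lit 497) (nat_lit 461)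 (.f (nat_lit 429) (nat_lit 428) (nat_lit 3500) (.f (nat_lit 493) (nat_lit 492) (nat_lit 1484) (.d (nat_lit 397) (nat_lit 365) (nat_lit 4461) (nat_lit 526) (nat_lit 4493)))))))))))))
noncomputable def s23307 : Cert := .r (nat_lit 878694100752451684807203488512635670054184387259016517413005999668135742006018169209305209990721305303160446835099781058807377627547088812708895605886908628992) (.p (nat_lit 560) (.a (.f (nat_lit 463) (nat_lit 431) (nat_lit 7599) (.f (nat_lit 495) (nat_lit 592) (nat_lit 7631) (.d (nat_lit 465) (nat_lit 433) (nat_lit 6576) (nat_lit 466) (nat_lit 1486)))) (.a (.f (nat_lit 433) (nat_lit 465) (nat_lit 6576) (.f (nat_lit 432) (nat_lit 401) (nat_lit 6544) (.d (nat_lit 431) (nat_lit 399) (nat_lit 7567) (nat_lit 463) (nat_lit 7599)))) (.a (.f (nat_lit 465) (nat_lit 433) (nat_lit 6576) (.f (nat_lit 592) (nat_lit 497) (nat_lit 6608) (.d (nat_lit 593) (nat_lit 561) (nat_lit 4560) (nat_lit 625) (nat_lit 4592)))) (.f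 (nat_lit 463) (nat_lit 431) (nat_lit 7599) (.f (nat_lit 592) (nat_lit 495) (nat_lit 7631) (.d (nat_lit 593) (nat_lit 561) (nat_lit 4560) (nat_lit 625) (nat_lit 4592))))))))
noncomputable def s23387 : Cert := .r (nat_lit 3773962425700235452994006265747838276794119997291584330561474552495229921846280517693537152693461601146390034030819035035293156656142037644120262827089467997203413860352) (.p (nat_lit 464) (.a (.f (nat_lit 465) (nat_lit 433) (nat_lit 6576) (.f (nat_lit 495) (nat_lit 493) (nat_lit 2509) (.d (nat_lit 463) (nat_lit 431) (nat_lit 7599) (nat_lit 466) (nat_lit 1486)))) (.a (.f (nat_lit 465) (nat_lit 433) (nat_lit 6576) (.f (nat_lit 463) (nat_lit 431) (nat_lit 7599) (.f (nat_lit 462) (nat_lit 493) (nat_lit 1485) (.d (nat_lit 497) (nat_lit 461) (nat_lit 461) (nat_lit 592) (nat_lit 6608))))) (.a (.f (nat_lit 463) (nat_lit 431) (nat_lit 7599) (.f (nat_lit 495) (nat_lit 592) (nat_lit 7631) (.d (nat_lit 465) (nat_lit 433) (nat_lit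 6576) (nat_lit 466) (nat_lit 1486)))) (.a (.f (nat_lit 465) (nat_lit 433) (nat_lit 6576) (.f (nat_lit 495) (nat_lit 493) (nat_lit 2509) (.d (nat_lit 466) (nat_lit 467) (nat_lit 1487) (nat_lit 497) (nat_lit 2510)))) (.a (.f (nat_lit 463) (nat_lit 431) (nat_lit 7599) (.f (nat_lit 495) (nat_lit 592) (nat_lit 7631) (.d (nat_lit 465) (nat_lit 466) (nat_lit 1486) (nat_lit 493) (nat_lit 2509)))) (.f (nat_lit 463) (nat_lit 431) (nat_lit 7599) (.f (nat_lit 495) (nat_lit 592) (nat_lit 7631) (.f (nat_lit 493) (nat_lit 492) (nat_lit 2508) (.f (nat_lit 461) (nat_lit 460) (nat_lit 3532) (.f (nat_lit 462) (nat_lit 497) (nat_lit 461) (.f (nat_lit 429) (nat_lit 428) (nat_lit 3500) (.d (nat_lit 397) (nat_lit 365) (nat_lit 4461) (nat_lit 526) (nat_lit 4493))))))))))))))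
noncomputable def s23394 : Cert := .r (nat_lit 3773962425700235452994006265747838276794119997291584330561474552495229921846280517693537152693461601146390034030819035035293156656142037644120262827089467997203413860352) (.p (nat_lit 464) (.a (.f (nat_lit 465) (nat_lit 433) (nat_lit 6576) (.f (nat_lit 463) (nat_lit 431) (nat_lit 7599) (.f (nat_lit 462) (nat_lit 493) (nat_lit 1485) (.d (nat_lit 497) (nat_lit 461) (nat_lit 461) (nat_lit 592) (nat_lit 6608))))) (.a (.f (nat_lit 433) (nat_lit 465) (nat_lit 6576) (.f (nat_lit 432) (nat_lit 401) (nat_lit 6544) (.d (nat_lit 431) (nat_lit 399) (nat_lit 7567) (nat_lit 463) (nat_lit 7599)))) (.a (.f (nat_lit 433) (nat_lit 465) (nat_lit 6576) (.f (nat_lit 432) (nat_lit 401) (nat_lit 6544) (.d (nat_lit 561) (nat_lit 529) (nat_lit 4528) (nat_lit 593) (nat_lit 4560)))) (.f (nat_lit 561) (nat_lit 593) (nat_lit 4560) (.f (nat_lit 432) (nat_lit 529) (nat_lit 4528) (.d (nat_lit 431) (nat_lit 399) (nat_lit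 7567) (nat_lit 463) (nat_lit 7599))))))))
noncomputable def s23408 : Cert := .r (nat_lit 3773962425700235452994006265747838276794119997291584330561474552495229921846280517693537152693461601146390034030819035035293156656142037644120262827089467997203413860352) (.p (nat_lit 592) (.a (.f (nat_lit 495) (nat_lit 463) (nat_lit 7631) (.f (nat_lit 497) (nat_lit 465) (nat_lit 6608) (.f (nat_lit 525) (nat_lit 526) (nat_lit 1517) (.f (nat_lit 493) (nat_lit 524) (nat_lit 1516) (.d (nat_lit 461) (nat_lit 460) (nat_lit 3532) (nat_lit 462) (nat_lit 3533)))))) (.a (.f (nat_lit 497) (nat_lit 465) (nat_lit 6608) (.f (nat_lit 624) (nat_lit 529) (nat_lit 6640) (.d (nat_lit 625) (nat_lit 593) (nat_lit 4592) (nat_lit 657) (nat_lit 4624)))) (.f (nat_lit 495) (nat_lit 463) (nat_lit 7631) (.f (nat_lit 493) (nat_lit 529) (nat_lit 493) (.f (nat_lit 460) (nat_lit 461) (nat_lit 3532) (.f (nat_lit 492) (nat_lit 459) (nat_lit 3531) (.d (nat_lit 524) (nat_lit 523)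 (nat_lit 1515) (nat_lit 525) (nat_lit 1516)))))))))
noncomputable def s23409 : Cert := .r (nat_lit 3773962425700235452994006265747838276794119997291584330561474552495229921846280517693537152693461601146390034030819035035293156656142037644120262827089467997203413860352) (.p (nat_lit 464) (.a (.f (nat_lit 465) (nat_lit 433) (nat_lit 6576) (.f (nat_lit 495) (nat_lit 493) (nat_lit 2509) (.d (nat_lit 463) (nat_lit 431) (nat_lit 7599) (nat_lit 466) (nat_lit 1486)))) (.a (.f (nat_lit 433) (nat_lit 465) (nat_lit 6576) (.f (nat_lit 432) (nat_lit 401) (nat_lit 6544) (.d (nat_lit 431) (nat_lit 399) (nat_lit 7567) (nat_lit 463) (nat_lit 7599)))) (.a (.f (nat_lit 465) (nat_lit 433) (nat_lit 6576) (.f (nat_lit 495) (nat_lit 493) (nat_lit 2509) (.d (nat_lit 466) (nat_lit 467) (nat_lit 1487) (nat_lit 497) (nat_lit 2510)))) (.f (nat_lit 561) (nat_lit 593) (nat_lit 4560) (.f (nat_lit 432) (nat_lit 529) (nat_lit 4528) (.d (nat_lit 431) (nat_lit 399)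 (nat_lit 7567) (nat_lit 463) (nat_lit 7599))))))))
noncomputable def s23410 : Cert := .r (nat_lit 3773962425700235452994006265747838276794119997291584330561474552495229921846280517693537152693461601146390034030819035035293156656142037644120262827089467997203413860352) (.p (nat_lit 464) (.a (.f (nat_lit 465) (nat_lit 433) (nat_lit 6576) (.f (nat_lit 495) (nat_lit 493) (nat_lit 2509) (.d (nat_lit 463) (nat_lit 431) (nat_lit 7599) (nat_lit 466) (nat_lit 1486)))) (.a (.f (nat_lit 433) (nat_lit 465) (nat_lit 6576) (.f (nat_lit 432) (nat_lit 401) (nat_lit 6544) (.d (nat_lit 431) (nat_lit 399) (nat_lit 7567) (nat_lit 463) (nat_lit 7599)))) (.a (.f (nat_lit 433) (nat_lit 465) (nat_lit 6576) (.f (nat_lit 432) (nat_lit 401) (nat_lit 6544) (.d (nat_lit 561) (nat_lit 529) (nat_lit 4528) (nat_lit 593) (nat_lit 4560)))) (.a (.f (nat_lit 463) (nat_lit 431) (nat_lit 7599) (.f (nat_lit 495) (nat_lit 592) (nat_lit 7631) (.d (nat_lit 465) (nat_lit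 466) (nat_lit 1486) (nat_lit 493) (nat_lit 2509)))) (.f (nat_lit 561) (nat_lit 593) (nat_lit 4560) (.f (nat_lit 432) (nat_lit 529) (nat_lit 4528) (.d (nat_lit 431) (nat_lit 399) (nat_lit 7567) (nat_lit 463) (nat_lit 7599)))))))))
noncomputable def s23411 : Cert := .r (nat_lit 3773962425700235452994006265747838276794119997291584330561474552495229921846280517693537152693461601146390034030819035035293156656142037644120262827089467997203413860352) (.p (nat_lit 464) (.a (.f (nat_lit 463) (nat_lit 431) (nat_lit 7599) (.f (nat_lit 495) (nat_lit 592) (nat_lit 7631) (.d (nat_lit 465) (nat_lit 433) (nat_lit 6576) (nat_lit 466) (nat_lit 1486)))) (.a (.f (nat_lit 433) (nat_lit 465) (nat_lit 6576) (.f (nat_lit 432) (nat_lit 401) (nat_lit 6544) (.d (nat_lit 431) (nat_lit 399) (nat_lit 7567) (nat_lit 463) (nat_lit 7599)))) (.a (.f (nat_lit 433) (nat_lit 465) (nat_lit 6576) (.f (nat_lit 432) (nat_lit 401) (nat_lit 6544) (.d (nat_lit 561) (nat_lit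 529) (nat_lit 4528) (nat_lit 593) (nat_lit 4560)))) (.f (nat_lit 561) (nat_lit 593) (nat_lit 4560) (.f (nat_lit 432) (nat_lit 529) (nat_lit 4528) (.d (nat_lit 431) (nat_lit 399) (nat_lit 7567) (nat_lit 463) (nat_lit 7599))))))))
noncomputable def s23417 : Cert := .r (nat_lit 3773962425700235452994006265747838276794119997291584330561474552495229921846280517693537152693461601146390034030819035035293156656142037644120262827089467997203413860352) (.p (nat_lit 464) (.a (.f (nat_lit 463) (nat_lit 431) (nat_lit 7599) (.f (nat_lit 495) (nat_lit 592) (nat_lit 7631) (.f (nat_lit 493) (nat_lit 492) (nat_lit 2508) (.f (nat_lit 461) (nat_lit 460) (nat_lit 3532) (.f (nat_lit 462) (nat_lit 497) (nat_lit 461) (.f (nat_lit 429) (nat_lit 428) (nat_lit 3500) (.d (nat_lit 397) (nat_lit 365) (nat_lit 4461) (nat_lit 526) (nat_lit 4493)))))))) (.a (.f (nat_lit 561) (nat_lit 593) (nat_lit 4560) (.f (nat_lit 432) (nat_lit 529) (nat_lit 4528) (.d (nat_lit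 431) (nat_lit 399) (nat_lit 7567) (nat_lit 463) (nat_lit 7599)))) (.f (nat_lit 561) (nat_lit 593) (nat_lit 4560) (.f (nat_lit 529) (nat_lit 432) (nat_lit 4528) (.f (nat_lit 495) (nat_lit 493) (nat_lit 493) (.d (nat_lit 530) (nat_lit 497) (nat_lit 494) (nat_lit 531) (nat_lit 3567))))))))
noncomputable def s23547 : Cert := .r (nat_lit 3773962425700235452994006265795472379429556890470624815635222817658630162060284594092144894386963977532189680333924291734870365688732170260108523064141591649536303955968) (.p (nat_lit 592) (.a (.d (nat_lit 593) (nat_lit 561) (nat_lit 4560) (nat_lit 625) (nat_lit 4592)) (.a (.f (nat_lit 497) (nat_lit 465) (nat_lit 6608) (.f (nat_lit 624) (nat_lit 529) (nat_lit 6640) (.d (nat_lit 625) (nat_lit 593) (nat_lit 4592) (nat_lit 657) (nat_lit 4624)))) (.a (.f (nat_lit 497) (nat_lit 465) (nat_lit 6608) (.f (nat_lit 624) (nat_lit 529) (nat_lit 6640) (.f (nat_lit 655) (nat_lit 623) (nat_lit 5647) (.f (nat_lit 656)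 (nat_lit 687) (nat_lit 5679) (.d (nat_lit 657) (nat_lit 625) (nat_lit 4624) (nat_lit 689) (nat_lit 4656)))))) (.f (nat_lit 561) (nat_lit 593) (nat_lit 4560) (.f (nat_lit 465) (nat_lit 497) (nat_lit 6608) (.f (nat_lit 463) (nat_lit 431) (nat_lit 7599) (.f (nat_lit 462) (nat_lit 493) (nat_lit 1485) (.f (nat_lit 429) (nat_lit 430) (nat_lit 3501) (.f (nat_lit 461) (nat_lit 428) (nat_lit 3500) (.f (nat_lit 526) (nat_lit 558) (nat_lit 7597) (.f (nat_lit 527) (nat_lit 525) (nat_lit 525) (.d (nat_lit 562) (nat_lit 529) (nat_lit 526) (nat_lit 559) (nat_lit 3598))))))))))))))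
noncomputable def s23595 : Cert := .r (nat_lit 1098367625876631195638990211447803359827765831789854025350228590148069047476135421183724742106088204759328672100049959483405148627549761177659140858869700362240) (.p (nat_lit 527) (.a (.f (nat_lit 525) (nat_lit 497) (nat_lit 2541) (.d (nat_lit 493) (nat_lit 492) (nat_lit 3564) (nat_lit 529) (nat_lit 3565))) (.a (.f (nat_lit 525) (nat_lit 497) (nat_lit 2541) (.f (nat_lit 495) (nat_lit 524) (nat_lit 2540) (.f (nat_lit 493) (nat_lit 492) (nat_lit 492) (.f (nat_lit 461) (nat_lit 460) (nat_lit 3532) (.d (nat_lit 429) (nat_lit 397) (nat_lit 4493) (nat_lit 558) (nat_lit 4525)))))) (.a (.f (nat_lit 529) (nat_lit 493) (nat_lit 3565) (.f (nat_lit 495) (nat_lit 530) (nat_lit 3566) (.f (nat_lit 558) (nat_lit 557) (nat_lit 1549) (.d (nat_lit 463) (nat_lit 431) (nat_lit 5550) (nat_lit 590) (nat_lit 6606))))) (.f (nat_lit 525) (nat_lit 497) (nat_lit 2541) (.f (nat_lit 495) (nat_lit 524) (nat_lit 2540)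 (.f (nat_lit 560) (nat_lit 561) (nat_lit 525) (.d (nat_lit 463) (nat_lit 431) (nat_lit 4527) (nat_lit 592) (nat_lit 7631)))))))))
noncomputable def s23604 : Cert := .r (nat_lit 1098367625876631195638990211447803359827765831789854025350228590148069047476135421183724742106088204759328672100049959483405148627549761177659140858869700362240) (.p (nat_lit 495) (.a (.f (nat_lit 493) (nat_lit 529) (nat_lit 493) (.d (nat_lit 525) (nat_lit 497) (nat_lit 1517) (nat_lit 524) (nat_lit 1516))) (.a (.f (nat_lit 525) (nat_lit 497) (nat_lit 1517) (.d (nat_lit 524) (nat_lit 493) (nat_lit 1516) (nat_lit 523) (nat_lit 2539))) (.a (.f (nat_lit 493) (nat_lit 529) (nat_lit 493) (.f (nat_lit 461) (nat_lit 460) (nat_lit 3532) (.f (nat_lit 462) (nat_lit 497) (nat_lit 3533) (.d (nat_lit 429) (nat_lit 397) (nat_lit 4493) (nat_lit 558) (nat_lit 7597))))) (.a (.f (nat_lit 493) (nat_lit 529) (nat_lit 493) (.f (nat_lit 461) (nat_lit 460) (nat_lit 3532) (.f (nat_lit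 525) (nat_lit 524) (nat_lit 1516) (.d (nat_lit 429) (nat_lit 397) (nat_lit 4493) (nat_lit 558) (nat_lit 4525))))) (.f (nat_lit 497) (nat_lit 525) (nat_lit 1517) (.f (nat_lit 465) (nat_lit 466) (nat_lit 2510) (.f (nat_lit 529) (nat_lit 530) (nat_lit 494) (.d (nat_lit 433) (nat_lit 401) (nat_lit 5520) (nat_lit 560) (nat_lit 5552))))))))))
noncomputable def s23610 : Cert := .r (nat_lit 1098367625876631195638990211447803359827765831789854025350228590148069047476135421183724742106088204759328672100049959483405148627549761177659140858869700362240) (.p (nat_lit 558) (.a (.p (nat_lit 462) (.a (.f (nat_lit 463) (nat_lit 431) (nat_lit 6574) (.f (nat_lit 495) (nat_lit 590) (nat_lit 6606) (.d (nat_lit 461) (nat_lit 429) (nat_lit 7597) (nat_lit 460) (nat_lit 460)))) (.a (.f (nat_lit 429) (nat_lit 461) (nat_lit 7597) (.f (nat_lit 430) (nat_lit 397) (nat_lit 7565) (.d (nat_lit 431) (nat_lit 399) (nat_lit 6542) (nat_lit 463) (nat_lit 6574)))) (.f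 (nat_lit 557) (nat_lit 589) (nat_lit 5581) (.f (nat_lit 527) (nat_lit 529) (nat_lit 1549) (.d (nat_lit 430) (nat_lit 525) (nat_lit 5549) (nat_lit 559) (nat_lit 4526))))))) (.a s21690 (.a s21821 (.a s22556 (.a s22648 (.a s22654 (.a s22562 (.a s21891 s22413)))))))))
noncomputable def s23612 : Cert := .r (nat_lit 943490607303752963937019840886057434177033664931875938883905600411634630746106260497667102478139433991455298517019633324992605640886346785690119740517314869782049193984) (.p (nat_lit 462) (.a (.f (nat_lit 557) (nat_lit 589) (nat_lit 5581) (.f (nat_lit 525) (nat_lit 430) (nat_lit 5549) (.d (nat_lit 527) (nat_lit 497) (nat_lit 2541) (nat_lit 556) (nat_lit 1548)))) (.a (.f (nat_lit 429) (nat_lit 461) (nat_lit 7597) (.f (nat_lit 430) (nat_lit 397) (nat_lit 7565) (.d (nat_lit 557) (nat_lit 525) (nat_lit 5549) (nat_lit 589) (nat_lit 5581)))) (.a (.f (nat_lit 557) (nat_lit 589) (nat_lit 5581) (.f (nat_lit 527) (nat_lit 529) (nat_lit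 1549) (.d (nat_lit 556) (nat_lit 555) (nat_lit 2571) (nat_lit 559) (nat_lit 2572)))) (.f (nat_lit 429) (nat_lit 461) (nat_lit 7597) (.f (nat_lit 430) (nat_lit 397) (nat_lit 7565) (.f (nat_lit 399) (nat_lit 431) (nat_lit 6542) (.f (nat_lit 398) (nat_lit 367) (nat_lit 6510) (.f (nat_lit 495) (nat_lit 527) (nat_lit 4494) (.f (nat_lit 497) (nat_lit 525) (nat_lit 1517) (.f (nat_lit 465) (nat_lit 466) (nat_lit 2510) (.d (nat_lit 401) (nat_lit 400) (nat_lit 1421) (nat_lit 433) (nat_lit 5520)))))))))))))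
noncomputable def s23635 : Cert := .r (nat_lit 3773962425700235452994006265747838276794119997291584330561474552495229921846280517693537152693461601146390034030819035035293156656142037644120262827089467997203413860352) (.p (nat_lit 464) (.a (.f (nat_lit 561) (nat_lit 593) (nat_lit 4560) (.f (nat_lit 432) (nat_lit 529) (nat_lit 4528) (.d (nat_lit 431) (nat_lit 399) (nat_lit 7567) (nat_lit 463) (nat_lit 7599)))) (.a (.f (nat_lit 463) (nat_lit 431) (nat_lit 7599) (.f (nat_lit 592) (nat_lit 495) (nat_lit 7631) (.d (nat_lit 593) (nat_lit 561) (nat_lit 4560) (nat_lit 625) (nat_lit 4592)))) (.a (.f (nat_lit 463) (nat_lit 431) (nat_lit 7599) (.f (nat_lit 495) (nat_lit 592) (nat_lit 7631) (.d (nat_lit 493) (nat_lit 492) (nat_lit 2508) (nat_lit 529) (nat_lit 493)))) (.f (nat_lit 561) (nat_lit 593) (nat_lit 4560) (.f (nat_lit 529) (nat_lit 432) (nat_lit 4528) (.f (nat_lit 495) (nat_lit 493) (nat_lit 493) (.d (nat_lit 530) (nat_lit 497) (nat_lit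 494) (nat_lit 531) (nat_lit 3567)))))))))
noncomputable def s23694 : Cert := .r (nat_lit 1098367625876631195638990211447803359827765831789854025350228590148069047476135421183724742106088204759328672100049959483405148627549761177659140858869700362240) (.p (nat_lit 493) (.a (.f (nat_lit 527) (nat_lit 529) (nat_lit 3565) (.d (nat_lit 492) (nat_lit 491) (nat_lit 491) (nat_lit 525) (nat_lit 3564))) (.a (.p (nat_lit 495) (.a (.f (nat_lit 492) (nat_lit 527) (nat_lit 492) (.d (nat_lit 460) (nat_lit 459) (nat_lit 3531) (nat_lit 461) (nat_lit 3532))) (.a (.f (nat_lit 525) (nat_lit 524) (nat_lit 1516) (.f (nat_lit 461) (nat_lit 460) (nat_lit 3532) (.f (nat_lit 429) (nat_lit 397) (nat_lit 4493) (.f (nat_lit 430) (nat_lit 398) (nat_lit 6541) (.f (nat_lit 462) (nat_lit 557) (nat_lit 5549) (.f (nat_lit 464) (nat_lit 465) (nat_lit 2509) (.d (nat_lit 428) (nat_lit 396) (nat_lit 7564) (nat_lit 463) (nat_lit 3500)))))))) (.f (nat_lit 492) (nat_lit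 527) (nat_lit 492) (.d (nat_lit 464) (nat_lit 463) (nat_lit 2508) (nat_lit 465) (nat_lit 2509)))))) (.a (.f (nat_lit 495) (nat_lit 529) (nat_lit 493) (.f (nat_lit 525) (nat_lit 524) (nat_lit 1516) (.f (nat_lit 461) (nat_lit 460) (nat_lit 3532) (.f (nat_lit 429) (nat_lit 397) (nat_lit 4493) (.f (nat_lit 430) (nat_lit 398) (nat_lit 6541) (.f (nat_lit 462) (nat_lit 557) (nat_lit 5549) (.f (nat_lit 464) (nat_lit 465) (nat_lit 2509) (.d (nat_lit 428) (nat_lit 396) (nat_lit 7564) (nat_lit 463) (nat_lit 3500))))))))) (.d (nat_lit 529) (nat_lit 495) (nat_lit 493) (nat_lit 527) (nat_lit 3565))))))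
noncomputable def s23695 : Cert := .r (nat_lit 943490607303752963937019840886057434177033664931875938883905600411634630746106260497667102478139433991455298517019633324992605640886346785690119740517314869782049193984) (.p (nat_lit 462) (.a (.f (nat_lit 429) (nat_lit 461) (nat_lit 7597) (.f (nat_lit 430) (nat_lit 397) (nat_lit 7565) (.d (nat_lit 431) (nat_lit 399) (nat_lit 6542) (nat_lit 463) (nat_lit 6574)))) (.a (.f (nat_lit 429) (nat_lit 461) (nat_lit 7597) (.f (nat_lit 430) (nat_lit 397) (nat_lit 7565) (.d (nat_lit 557) (nat_lit 525) (nat_lit 5549) (nat_lit 589) (nat_lit 5581)))) (.a (.f (nat_lit 557) (nat_lit 589) (nat_lit 5581) (.f (nat_lit 430) (nat_lit 525) (nat_lit 5549) (.d (nat_lit 431) (nat_lit 399) (nat_lit 6542) (nat_lit 463) (nat_lit 6574)))) (.f (nat_lit 461) (nat_lit 429) (nat_lit 7597) (.f (nat_lit 463) (nat_lit 431) (nat_lit 6574) (.f (nat_lit 493) (nat_lit 590) (nat_lit 7629) (.d (nat_lit 464) (nat_lit 465) (nat_lit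 1485) (nat_lit 492) (nat_lit 1484)))))))))
noncomputable def s23706 : Cert := .r (nat_lit 943490607303752963937019840886057434177033664931875938883905600411634630746106260497667102478139433991455298517019633324992605640886346785690119740517314869782049193984) (.p (nat_lit 462) (.a (.f (nat_lit 461) (nat_lit 429) (nat_lit 7597) (.f (nat_lit 493) (nat_lit 590) (nat_lit 7629) (.f (nat_lit 495) (nat_lit 460) (nat_lit 3532) (.f (nat_lit 525) (nat_lit 524) (nat_lit 1516) (.d (nat_lit 430) (nat_lit 398) (nat_lit 5517) (nat_lit 557) (nat_lit 5549)))))) (.a (.f (nat_lit 429) (nat_lit 461) (nat_lit 7597) (.f (nat_lit 430) (nat_lit 397) (nat_lit 7565) (.d (nat_lit 557) (nat_lit 525) (nat_lit 5549) (nat_lit 589) (nat_lit 5581)))) (.a (.f (nat_lit 461) (nat_lit 429) (nat_lit 7597) (.f (nat_lit 590) (nat_lit 493) (nat_lit 7629) (.d (nat_lit 589) (nat_lit 557) (nat_lit 5581) (nat_lit 621) (nat_lit 5613)))) (.a (.f (nat_lit 461) (nat_lit 429) (nat_lit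 7597) (.f (nat_lit 493) (nat_lit 590) (nat_lit 7629) (.f (nat_lit 495) (nat_lit 460) (nat_lit 3532) (.f (nat_lit 492) (nat_lit 527) (nat_lit 492) (.d (nat_lit 524) (nat_lit 523) (nat_lit 1515) (nat_lit 525) (nat_lit 1516)))))) (.f (nat_lit 557) (nat_lit 589) (nat_lit 5581) (.f (nat_lit 525) (nat_lit 430) (nat_lit 5549) (.f (nat_lit 527) (nat_lit 556) (nat_lit 1548) (.f (nat_lit 524) (nat_lit 495) (nat_lit 2540) (.d (nat_lit 492) (nat_lit 491) (nat_lit 3563) (nat_lit 493) (nat_lit 3564)))))))))))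
noncomputable def s23726 : Cert := .r (nat_lit 943490607303752963937019840886057434177033664931875938883905600411634630746106260497667102478139433991455298517019633324992605640886346785690119740517314869782049193984) (.p (nat_lit 590) (.a (.f (nat_lit 495) (nat_lit 463) (nat_lit 6606) (.f (nat_lit 527) (nat_lit 622) (nat_lit 6638) (.d (nat_lit 493) (nat_lit 461) (nat_lit 7629) (nat_lit 492) (nat_lit 492)))) (.a (.f (nat_lit 493) (nat_lit 461) (nat_lit 7629) (.f (nat_lit 622) (nat_lit 525) (nat_lit 7661) (.d (nat_lit 621) (nat_lit 589) (nat_lit 5613) (nat_lit 653) (nat_lit 5645)))) (.a (.f (nat_lit 495) (nat_lit 463) (nat_lit 6606) (.f (nat_lit 527) (nat_lit 622) (nat_lit 6638) (.f (nat_lit 525) (nat_lit 524) (nat_lit 2540) (.f (nat_lit 560) (nat_lit 561) (nat_lit 525) (.f (nat_lit 557) (nat_lit 556) (nat_lit 1548) (.f (nat_lit 589) (nat_lit 621) (nat_lit 5613) (.f (nat_lit 559) (nat_lit 588) (nat_lit 1580) (.d (nat_lit 592) (nat_lit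 593) (nat_lit 557) (nat_lit 624) (nat_lit 7663))))))))) (.f (nat_lit 495) (nat_lit 463) (nat_lit 6606) (.f (nat_lit 493) (nat_lit 461) (nat_lit 7629) (.f (nat_lit 492) (nat_lit 527) (nat_lit 492) (.f (nat_lit 459) (nat_lit 460) (nat_lit 3531) (.f (nat_lit 491) (nat_lit 458) (nat_lit 3530) (.d (nat_lit 523) (nat_lit 522) (nat_lit 1514) (nat_lit 524) (nat_lit 1515)))))))))))
noncomputable def s23727 : Cert := .r (nat_lit 943490607303752963937019840886057434177033664931875938883905600411634630746106260497667102478139433991455298517019633324992605640886346785690119740517314869782049193984) (.p (nat_lit 462) (.a (.f (nat_lit 557) (nat_lit 589) (nat_lit 5581) (.f (nat_lit 430) (nat_lit 525) (nat_lit 5549) (.d (nat_lit 431) (nat_lit 399) (nat_lit 6542) (nat_lit 463) (nat_lit 6574)))) (.a (.f (nat_lit 463) (nat_lit 431) (nat_lit 6574) (.f (nat_lit 590) (nat_lit 495) (nat_lit 6606) (.d (nat_lit 589) (nat_lit 557) (nat_lit 5581) (nat_lit 621)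 (nat_lit 5613)))) (.a (.f (nat_lit 557) (nat_lit 589) (nat_lit 5581) (.f (nat_lit 525) (nat_lit 430) (nat_lit 5549) (.f (nat_lit 527) (nat_lit 556) (nat_lit 1548) (.f (nat_lit 524) (nat_lit 495) (nat_lit 2540) (.d (nat_lit 492) (nat_lit 491) (nat_lit 3563) (nat_lit 493) (nat_lit 3564)))))) (.f (nat_lit 431) (nat_lit 463) (nat_lit 6574) (.f (nat_lit 430) (nat_lit 399) (nat_lit 6542) (.f (nat_lit 527) (nat_lit 559) (nat_lit 4526) (.f (nat_lit 398) (nat_lit 495) (nat_lit 4494) (.d (nat_lit 397) (nat_lit 365) (nat_lit 7533) (nat_lit 429) (nat_lit 7565))))))))))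
noncomputable def s23742 : Cert := .r (nat_lit 943490607303752963937019840886057434177033664931875938883905600411634630746106260497667102478139433991455298517019633324992605640886346785690119740517314869782049193984) (.p (nat_lit 462) (.a (.f (nat_lit 461) (nat_lit 429) (nat_lit 7597) (.f (nat_lit 493) (nat_lit 590) (nat_lit 7629) (.f (nat_lit 495) (nat_lit 460) (nat_lit 3532) (.f (nat_lit 525) (nat_lit 524) (nat_lit 1516) (.d (nat_lit 430) (nat_lit 398) (nat_lit 5517) (nat_lit 557) (nat_lit 5549)))))) (.a (.f (nat_lit 429) (nat_lit 461) (nat_lit 7597) (.f (nat_lit 430) (nat_lit 397) (nat_lit 7565) (.d (nat_lit 557) (nat_lit 525) (nat_lit 5549) (nat_lit 589) (nat_lit 5581)))) (.a (.f (nat_lit 461) (nat_lit 429) (nat_lit 7597) (.f (nat_lit 590) (nat_lit 493) (nat_lit 7629) (.d (nat_lit 589) (nat_lit 557) (nat_lit 5581) (nat_lit 621) (nat_lit 5613)))) (.a (.f (nat_lit 461) (nat_lit 429) (nat_lit 7597) (.f (nat_lit 493) (nat_lit 590)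 (nat_lit 7629) (.d (nat_lit 495) (nat_lit 460) (nat_lit 3532) (nat_lit 529) (nat_lit 493)))) (.a (.f (nat_lit 557) (nat_lit 589) (nat_lit 5581) (.f (nat_lit 430) (nat_lit 525) (nat_lit 5549) (.f (nat_lit 399) (nat_lit 431) (nat_lit 6542) (.f (nat_lit 398) (nat_lit 367) (nat_lit 6510) (.d (nat_lit 397) (nat_lit 365) (nat_lit 7533) (nat_lit 429) (nat_lit 7565)))))) (.f (nat_lit 589) (nat_lit 557) (nat_lit 5581) (.f (nat_lit 590) (nat_lit 621) (nat_lit 5613) (.f (nat_lit 493) (nat_lit 461) (nat_lit 7629) (.f (nat_lit 495) (nat_lit 529) (nat_lit 493) (.d (nat_lit 525) (nat_lit 524) (nat_lit 1516) (nat_lit 622) (nat_lit 7661))))))))))))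
noncomputable def s23743 : Cert := .r (nat_lit 943490607303752963937019840886057434177033664931875938883905600411634630746106260497667102478139433991455298517019633324992605640886346785690119740517314869782049193984) (.p (nat_lit 462) (.a (.f (nat_lit 463) (nat_lit 431) (nat_lit 6574) (.f (nat_lit 495) (nat_lit 590) (nat_lit 6606) (.d (nat_lit 461) (nat_lit 429) (nat_lit 7597) (nat_lit 460) (nat_lit 460)))) (.a (.f (nat_lit 429) (nat_lit 461) (nat_lit 7597) (.f (nat_lit 430) (nat_lit 397) (nat_lit 7565) (.d (nat_lit 431) (nat_lit 399) (nat_lit 6542) (nat_lit 463) (nat_lit 6574)))) (.a (.f (nat_lit 461) (nat_lit 429) (nat_lit 7597) (.f (nat_lit 493) (nat_lit 590) (nat_lit 7629) (.d (nat_lit 495) (nat_lit 460) (nat_lit 3532) (nat_lit 529) (nat_lit 493)))) (.f (nat_lit 463) (nat_lit 431) (nat_lit 6574) (.f (nat_lit 495) (nat_lit 590) (nat_lit 6606) (.f (nat_lit 493) (nat_lit 529) (nat_lit 493) (.d (nat_lit 464) (nat_lit 465) (nat_lit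 1485) (nat_lit 492) (nat_lit 2508)))))))))
noncomputable def s23755 : Cert := .r (nat_lit 943490607303752963937019840886057434177033664931875938883905600411634630746106260497667102478139433991455298517019633324992605640886346785690119740517314869782049193984) (.p (nat_lit 462) (.a (.f (nat_lit 461) (nat_lit 429) (nat_lit 7597) (.f (nat_lit 493) (nat_lit 590) (nat_lit 7629) (.f (nat_lit 495) (nat_lit 460) (nat_lit 3532) (.f (nat_lit 525) (nat_lit 524) (nat_lit 1516) (.d (nat_lit 430) (nat_lit 398) (nat_lit 5517) (nat_lit 557) (nat_lit 5549)))))) (.a (.f (nat_lit 429) (nat_lit 461) (nat_lit 7597) (.f (nat_lit 430) (nat_lit 397) (nat_lit 7565) (.d (nat_lit 557) (nat_lit 525) (nat_lit 5549) (nat_lit 589) (nat_lit 5581)))) (.a (.f (nat_lit 461) (nat_lit 429) (nat_lit 7597) (.f (nat_lit 590) (nat_lit 493) (nat_lit 7629) (.d (nat_lit 589) (nat_lit 557) (nat_lit 5581) (nat_lit 621) (nat_lit 5613)))) (.a (.f (nat_lit 461) (nat_lit 429) (nat_lit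 7597) (.f (nat_lit 493) (nat_lit 590) (nat_lit 7629) (.d (nat_lit 495) (nat_lit 460) (nat_lit 3532) (nat_lit 529) (nat_lit 493)))) (.f (nat_lit 589) (nat_lit 557) (nat_lit 5581) (.f (nat_lit 590) (nat_lit 621) (nat_lit 5613) (.f (nat_lit 495) (nat_lit 463) (nat_lit 6606) (.f (nat_lit 493) (nat_lit 529) (nat_lit 493) (.d (nat_lit 525) (nat_lit 524) (nat_lit 1516) (nat_lit 622) (nat_lit 7661)))))))))))
noncomputable def s23756 : Cert := .r (nat_lit 943490607303752963937019840886057434177033664931875938883905600411634630746106260497667102478139433991455298517019633324992605640886346785690119740517314869782049193984) (.p (nat_lit 462) (.a (.f (nat_lit 557) (nat_lit 589) (nat_lit 5581) (.f (nat_lit 430) (nat_lit 525) (nat_lit 5549) (.d (nat_lit 431) (nat_lit 399) (nat_lit 6542) (nat_lit 463) (nat_lit 6574)))) (.a (.f (nat_lit 463) (nat_lit 431) (nat_lit 6574) (.f (nat_lit 590) (nat_lit 495) (nat_lit 6606) (.d (nat_lit 589) (nat_lit 557)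 (nat_lit 5581) (nat_lit 621) (nat_lit 5613)))) (.a (.f (nat_lit 557) (nat_lit 589) (nat_lit 5581) (.f (nat_lit 430) (nat_lit 525) (nat_lit 5549) (.f (nat_lit 399) (nat_lit 431) (nat_lit 6542) (.f (nat_lit 398) (nat_lit 367) (nat_lit 6510) (.d (nat_lit 397) (nat_lit 365) (nat_lit 7533) (nat_lit 429) (nat_lit 7565)))))) (.a (.f (nat_lit 463) (nat_lit 431) (nat_lit 6574) (.f (nat_lit 495) (nat_lit 590) (nat_lit 6606) (.f (nat_lit 493) (nat_lit 529) (nat_lit 493) (.d (nat_lit 464) (nat_lit 465) (nat_lit 1485) (nat_lit 492) (nat_lit 2508))))) (.f (nat_lit 589) (nat_lit 557) (nat_lit 5581) (.f (nat_lit 590) (nat_lit 621) (nat_lit 5613) (.f (nat_lit 495) (nat_lit 463) (nat_lit 6606) (.f (nat_lit 493) (nat_lit 529) (nat_lit 493) (.d (nat_lit 525) (nat_lit 524) (nat_lit 1516) (nat_lit 622) (nat_lit 7661)))))))))))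
noncomputable def s23757 : Cert := .r (nat_lit 943490607303752963937019840886057434177033664931875938883905600411634630746106260497667102478139433991455298517019633324992605640886346785690119740517314869782049193984) (.p (nat_lit 462) (.a (.f (nat_lit 557) (nat_lit 589) (nat_lit 5581) (.f (nat_lit 430) (nat_lit 525) (nat_lit 5549) (.d (nat_lit 431) (nat_lit 399) (nat_lit 6542) (nat_lit 463) (nat_lit 6574)))) (.a (.f (nat_lit 463) (nat_lit 431) (nat_lit 6574) (.f (nat_lit 590) (nat_lit 495) (nat_lit 6606) (.d (nat_lit 589) (nat_lit 557) (nat_lit 5581) (nat_lit 621) (nat_lit 5613)))) (.a (.f (nat_lit 589) (nat_lit 557) (nat_lit 5581) (.f (nat_lit 590) (nat_lit 621) (nat_lit 5613) (.f (nat_lit 493) (nat_lit 461) (nat_lit 7629) (.f (nat_lit 495) (nat_lit 529) (nat_lit 493) (.d (nat_lit 525) (nat_lit 524) (nat_lit 1516) (nat_lit 622) (nat_lit 7661)))))) (.f (nat_lit 463) (nat_lit 431) (nat_lit 6574) (.f (nat_lit 495) (nat_lit 590) (nat_lit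 6606) (.f (nat_lit 493) (nat_lit 529) (nat_lit 493) (.d (nat_lit 464) (nat_lit 465) (nat_lit 1485) (nat_lit 492) (nat_lit 2508)))))))))
noncomputable def s23760 : Cert := .r (nat_lit 943490607303752963937019840886057434177033664931875938883905600411634630746106260497667102478139433991455298517019633324992605640886346785690119740517314869782049193984) (.p (nat_lit 462) (.a (.f (nat_lit 557) (nat_lit 589) (nat_lit 5581) (.f (nat_lit 527) (nat_lit 529) (nat_lit 1549) (.d (nat_lit 430) (nat_lit 525) (nat_lit 5549) (nat_lit 559) (nat_lit 4526)))) (.a (.f (nat_lit 429) (nat_lit 461) (nat_lit 7597) (.f (nat_lit 430) (nat_lit 397) (nat_lit 7565) (.d (nat_lit 557) (nat_lit 525) (nat_lit 5549) (nat_lit 589) (nat_lit 5581)))) (.a (.f (nat_lit 461) (nat_lit 429) (nat_lit 7597) (.f (nat_lit 590) (nat_lit 493) (nat_lit 7629) (.d (nat_lit 589) (nat_lit 557) (nat_lit 5581) (nat_lit 621) (nat_lit 5613)))) (.f (nat_lit 429) (nat_lit 461) (nat_lit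 7597) (.f (nat_lit 430) (nat_lit 397) (nat_lit 7565) (.f (nat_lit 527) (nat_lit 559) (nat_lit 4526) (.f (nat_lit 493) (nat_lit 529) (nat_lit 3565) (.d (nat_lit 492) (nat_lit 491) (nat_lit 491) (nat_lit 525) (nat_lit 3564))))))))))
noncomputable def s23761 : Cert := .r (nat_lit 943490607303752963937019840886057434177033664931875938883905600411634630746106260497667102478139433991455298517019633324992605640886346785690119740517314869782049193984) (.p (nat_lit 462) (.a (.f (nat_lit 429) (nat_lit 461) (nat_lit 7597) (.f (nat_lit 430) (nat_lit 397) (nat_lit 7565) (.d (nat_lit 431) (nat_lit 399) (nat_lit 6542) (nat_lit 463) (nat_lit 6574)))) (.a (.f (nat_lit 429) (nat_lit 461) (nat_lit 7597) (.f (nat_lit 430) (nat_lit 397) (nat_lit 7565) (.f (nat_lit 527) (nat_lit 559) (nat_lit 4526) (.f (nat_lit 493) (nat_lit 529) (nat_lit 3565) (.d (nat_lit 492) (nat_lit 491) (nat_lit 491) (nat_lit 525) (nat_lit 3564)))))) (.a (.f (nat_lit 431) (nat_lit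 463) (nat_lit 6574) (.f (nat_lit 430) (nat_lit 399) (nat_lit 6542) (.f (nat_lit 527) (nat_lit 559) (nat_lit 4526) (.f (nat_lit 493) (nat_lit 529) (nat_lit 3565) (.d (nat_lit 492) (nat_lit 491) (nat_lit 491) (nat_lit 525) (nat_lit 3564)))))) (.f (nat_lit 461) (nat_lit 429) (nat_lit 7597) (.f (nat_lit 463) (nat_lit 431) (nat_lit 6574) (.f (nat_lit 493) (nat_lit 590) (nat_lit 7629) (.d (nat_lit 464) (nat_lit 465) (nat_lit 1485) (nat_lit 492) (nat_lit 1484)))))))))
noncomputable def s23768 : Cert := .r (nat_lit 943490607303752963937019840886057434177033664931875938883905600411634630746106260497667102478139433991455298517019633324992605640886346785690119740517314869782049193984) (.p (nat_lit 590) (.a (.f (nat_lit 493) (nat_lit 461) (nat_lit 7629) (.f (nat_lit 622) (nat_lit 525) (nat_lit 7661) (.d (nat_lit 621) (nat_lit 589) (nat_lit 5613) (nat_lit 653) (nat_lit 5645)))) (.a (.f (nat_lit 493) (nat_lit 461) (nat_lit 7629) (.f (nat_lit 527)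 (nat_lit 529) (nat_lit 3565) (.f (nat_lit 621) (nat_lit 589) (nat_lit 5613) (.f (nat_lit 622) (nat_lit 653) (nat_lit 5645) (.f (nat_lit 654) (nat_lit 559) (nat_lit 6670) (.d (nat_lit 655) (nat_lit 623) (nat_lit 4622) (nat_lit 687) (nat_lit 4654))))))) (.a (.f (nat_lit 621) (nat_lit 589) (nat_lit 5613) (.f (nat_lit 622) (nat_lit 653) (nat_lit 5645) (.f (nat_lit 655) (nat_lit 623) (nat_lit 4622) (.f (nat_lit 654) (nat_lit 687) (nat_lit 4654) (.f (nat_lit 527) (nat_lit 559) (nat_lit 6670) (.d (nat_lit 557) (nat_lit 525) (nat_lit 7693) (nat_lit 529) (nat_lit 1549))))))) (.f (nat_lit 493) (nat_lit 461) (nat_lit 7629) (.f (nat_lit 527) (nat_lit 529) (nat_lit 3565) (.d (nat_lit 492) (nat_lit 491) (nat_lit 491) (nat_lit 525) (nat_lit 3564))))))))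
noncomputable def s23769 : Cert := .r (nat_lit 943490607303752963937019840886057434177033664931875938883905600411634630746106260497667102478139433991455298517019633324992605640886346785690119740517314869782049193984) (.p (nat_lit 462) (.a (.f (nat_lit 557) (nat_lit 589) (nat_lit 5581) (.f (nat_lit 527) (nat_lit 529) (nat_lit 1549) (.d (nat_lit 430) (nat_lit 525) (nat_lit 5549) (nat_lit 559) (nat_lit 4526)))) (.a (.f (nat_lit 557) (nat_lit 589) (nat_lit 5581) (.f (nat_lit 430) (nat_lit 525) (nat_lit 5549) (.d (nat_lit 431) (nat_lit 399) (nat_lit 6542) (nat_lit 463) (nat_lit 6574)))) (.a (.f (nat_lit 557) (nat_lit 589) (nat_lit 5581) (.f (nat_lit 527) (nat_lit 529) (nat_lit 1549) (.d (nat_lit 556) (nat_lit 555) (nat_lit 2571) (nat_lit 559) (nat_lit 2572)))) (.f (nat_lit 431) (nat_lit 463) (nat_lit 6574) (.f (nat_lit 430) (nat_lit 399) (nat_lit 6542) (.f (nat_lit 527) (nat_lit 559) (nat_lit 4526) (.f (nat_lit 493) (nat_lit 529) (nat_lit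 3565) (.d (nat_lit 492) (nat_lit 491) (nat_lit 491) (nat_lit 525) (nat_lit 3564))))))))))
noncomputable def s23796 : Cert := .r (nat_lit 1098367625876631195638990211447803359827765831789854025350228590148069047476135421183724742106088204759328672100049959483405148627549761177659140858869700362240) (.p (nat_lit 462) (.a (.p (nat_lit 558) (.a (.f (nat_lit 463) (nat_lit 431) (nat_lit 6574) (.f (nat_lit 495) (nat_lit 590) (nat_lit 6606) (.d (nat_lit 461) (nat_lit 429) (nat_lit 7597) (nat_lit 460) (nat_lit 460)))) (.a (.f (nat_lit 429) (nat_lit 461) (nat_lit 7597) (.f (nat_lit 430) (nat_lit 397) (nat_lit 7565) (.d (nat_lit 431) (nat_lit 399) (nat_lit 6542) (nat_lit 463) (nat_lit 6574)))) (.f (nat_lit 557) (nat_lit 589) (nat_lit 5581) (.f (nat_lit 527) (nat_lit 529) (nat_lit 1549) (.d (nat_lit 525) (nat_lit 430) (nat_lit 5549) (nat_lit 556) (nat_lit 1548))))))) (.a (.p (nat_lit 558) (.a (.f (nat_lit 463) (nat_lit 431) (nat_lit 6574) (.f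 (nat_lit 495) (nat_lit 590) (nat_lit 6606) (.d (nat_lit 461) (nat_lit 429) (nat_lit 7597) (nat_lit 460) (nat_lit 460)))) (.a (.f (nat_lit 429) (nat_lit 461) (nat_lit 7597) (.f (nat_lit 430) (nat_lit 397) (nat_lit 7565) (.d (nat_lit 431) (nat_lit 399) (nat_lit 6542) (nat_lit 463) (nat_lit 6574)))) (.a (.f (nat_lit 429) (nat_lit 461) (nat_lit 7597) (.f (nat_lit 430) (nat_lit 397) (nat_lit 7565) (.d (nat_lit 557) (nat_lit 525) (nat_lit 5549) (nat_lit 589) (nat_lit 5581)))) (.f (nat_lit 557) (nat_lit 589) (nat_lit 5581) (.f (nat_lit 430) (nat_lit 525) (nat_lit 5549) (.d (nat_lit 431) (nat_lit 399) (nat_lit 6542) (nat_lit 463) (nat_lit 6574)))))))) (.a (.p (nat_lit 558) (.a (.f (nat_lit 429) (nat_lit 461) (nat_lit 7597) (.f (nat_lit 430) (nat_lit 397) (nat_lit 7565) (.d (nat_lit 431) (nat_lit 399) (nat_lit 6542) (nat_lit 463) (nat_lit 6574)))) (.a (.f (nat_lit 557) (nat_lit 589) (nat_lit 5581) (.f (nat_lit 527) (nat_lit 529) (nat_lit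 1549) (.d (nat_lit 430) (nat_lit 525) (nat_lit 5549) (nat_lit 559) (nat_lit 4526)))) (.f (nat_lit 557) (nat_lit 589) (nat_lit 5581) (.f (nat_lit 527) (nat_lit 529) (nat_lit 1549) (.d (nat_lit 556) (nat_lit 525) (nat_lit 1548) (nat_lit 555) (nat_lit 2571))))))) (.a (.p (nat_lit 558) (.a (.f (nat_lit 463) (nat_lit 431) (nat_lit 6574) (.f (nat_lit 495) (nat_lit 590) (nat_lit 6606) (.d (nat_lit 461) (nat_lit 429) (nat_lit 7597) (nat_lit 460) (nat_lit 460)))) (.a (.f (nat_lit 429) (nat_lit 461) (nat_lit 7597) (.f (nat_lit 430) (nat_lit 397) (nat_lit 7565) (.d (nat_lit 431) (nat_lit 399) (nat_lit 6542) (nat_lit 463) (nat_lit 6574)))) (.f (nat_lit 557) (nat_lit 589) (nat_lit 5581) (.f (nat_lit 527) (nat_lit 529) (nat_lit 1549) (.d (nat_lit 556) (nat_lit 555) (nat_lit 2571) (nat_lit 559) (nat_lit 2572))))))) (.a s21087 (.a (.p (nat_lit 558) (.a (.f (nat_lit 557) (nat_lit 589) (nat_lit 5581) (.f (nat_lit 527) (nat_lit 529) (nat_lit 1549)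 (.d (nat_lit 430) (nat_lit 525) (nat_lit 5549) (nat_lit 559) (nat_lit 4526)))) (.a (.f (nat_lit 429) (nat_lit 461) (nat_lit 7597) (.f (nat_lit 430) (nat_lit 397) (nat_lit 7565) (.d (nat_lit 557) (nat_lit 525) (nat_lit 5549) (nat_lit 589) (nat_lit 5581)))) (.a (.f (nat_lit 557) (nat_lit 589) (nat_lit 5581) (.f (nat_lit 527) (nat_lit 529) (nat_lit 1549) (.d (nat_lit 556) (nat_lit 555) (nat_lit 2571) (nat_lit 559) (nat_lit 2572)))) (.f (nat_lit 429) (nat_lit 461) (nat_lit 7597) (.f (nat_lit 430) (nat_lit 397) (nat_lit 7565) (.f (nat_lit 527) (nat_lit 559) (nat_lit 4526) (.f (nat_lit 495) (nat_lit 398) (nat_lit 4494) (.f (nat_lit 529) (nat_lit 530) (nat_lit 3566) (.f (nat_lit 561) (nat_lit 562) (nat_lit 526) (.d (nat_lit 525) (nat_lit 524) (nat_lit 2540) (nat_lit 560) (nat_lit 525)))))))))))) (.a (.p (nat_lit 558) (.a (.f (nat_lit 463) (nat_lit 431) (nat_lit 6574) (.f (nat_lit 495) (nat_lit 590) (nat_lit 6606) (.d (nat_lit 461) (nat_lit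 429) (nat_lit 7597) (nat_lit 460) (nat_lit 460)))) (.a (.f (nat_lit 429) (nat_lit 461) (nat_lit 7597) (.f (nat_lit 430) (nat_lit 397) (nat_lit 7565) (.d (nat_lit 431) (nat_lit 399) (nat_lit 6542) (nat_lit 463) (nat_lit 6574)))) (.a (.f (nat_lit 429) (nat_lit 461) (nat_lit 7597) (.f (nat_lit 430) (nat_lit 397) (nat_lit 7565) (.f (nat_lit 527) (nat_lit 559) (nat_lit 4526) (.f (nat_lit 495) (nat_lit 398) (nat_lit 4494) (.f (nat_lit 529) (nat_lit 530) (nat_lit 3566) (.f (nat_lit 561) (nat_lit 562) (nat_lit 526) (.d (nat_lit 525) (nat_lit 524) (nat_lit 2540) (nat_lit 560) (nat_lit 525)))))))) (.a (.f (nat_lit 431) (nat_lit 463) (nat_lit 6574) (.f (nat_lit 430) (nat_lit 399) (nat_lit 6542) (.f (nat_lit 527) (nat_lit 559) (nat_lit 4526) (.f (nat_lit 398) (nat_lit 495) (nat_lit 4494) (.d (nat_lit 397) (nat_lit 365) (nat_lit 7533) (nat_lit 429) (nat_lit 7565)))))) (.f (nat_lit 431) (nat_lit 463) (nat_lit 6574) (.f (nat_lit 430) (nat_lit 399)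 (nat_lit 6542) (.f (nat_lit 527) (nat_lit 559) (nat_lit 4526) (.f (nat_lit 495) (nat_lit 398) (nat_lit 4494) (.f (nat_lit 529) (nat_lit 530) (nat_lit 3566) (.f (nat_lit 561) (nat_lit 562) (nat_lit 526) (.d (nat_lit 525) (nat_lit 524) (nat_lit 2540) (nat_lit 560) (nat_lit 525))))))))))))) (.a (.p (nat_lit 558) (.a (.f (nat_lit 463) (nat_lit 431) (nat_lit 6574) (.f (nat_lit 495) (nat_lit 590) (nat_lit 6606) (.d (nat_lit 461) (nat_lit 429) (nat_lit 7597) (nat_lit 460) (nat_lit 460)))) (.f (nat_lit 557) (nat_lit 589) (nat_lit 5581) (.f (nat_lit 527) (nat_lit 529) (nat_lit 1549) (.d (nat_lit 556) (nat_lit 525) (nat_lit 1548) (nat_lit 555) (nat_lit 2571)))))) (.p (nat_lit 558) (.a (.f (nat_lit 557) (nat_lit 589) (nat_lit 5581) (.f (nat_lit 527) (nat_lit 529) (nat_lit 1549) (.d (nat_lit 430) (nat_lit 525) (nat_lit 5549) (nat_lit 559) (nat_lit 4526)))) (.a (.f (nat_lit 557) (nat_lit 589) (nat_lit 5581) (.f (nat_lit 430) (nat_lit 525) (nat_lit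 5549) (.d (nat_lit 431) (nat_lit 399) (nat_lit 6542) (nat_lit 463) (nat_lit 6574)))) (.a (.f (nat_lit 463) (nat_lit 431) (nat_lit 6574) (.f (nat_lit 590) (nat_lit 495) (nat_lit 6606) (.d (nat_lit 589) (nat_lit 557) (nat_lit 5581) (nat_lit 621) (nat_lit 5613)))) (.f (nat_lit 431) (nat_lit 463) (nat_lit 6574) (.f (nat_lit 430) (nat_lit 399) (nat_lit 6542) (.f (nat_lit 527) (nat_lit 559) (nat_lit 4526) (.f (nat_lit 495) (nat_lit 398) (nat_lit 4494) (.f (nat_lit 529) (nat_lit 530) (nat_lit 3566) (.f (nat_lit 561) (nat_lit 562) (nat_lit 526) (.d (nat_lit 525) (nat_lit 524) (nat_lit 2540) (nat_lit 560) (nat_lit 525)))))))))))))))))))))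
noncomputable def s23806 : Cert := .r (nat_lit 943490607303752963937019840886057434177033664931875938883905600411634630746106260497667102478139433991455298517019633324992605640886346785690119740517314869782049193984) (.p (nat_lit 590) (.a (.f (nat_lit 493) (nat_lit 461) (nat_lit 7629) (.f (nat_lit 622) (nat_lit 525) (nat_lit 7661) (.d (nat_lit 621) (nat_lit 589) (nat_lit 5613) (nat_lit 653) (nat_lit 5645)))) (.a (.f (nat_lit 493) (nat_lit 461) (nat_lit 7629) (.f (nat_lit 527) (nat_lit 529) (nat_lit 3565) (.f (nat_lit 621) (nat_lit 589) (nat_lit 5613) (.f (nat_lit 622) (nat_lit 653) (nat_lit 5645) (.f (nat_lit 654) (nat_lit 559) (nat_lit 6670) (.d (nat_lit 655) (nat_lit 623) (nat_lit 4622) (nat_lit 687) (nat_lit 4654))))))) (.a (.f (nat_lit 621) (nat_lit 589) (nat_lit 5613) (.f (nat_lit 622) (nat_lit 653) (nat_lit 5645) (.f (nat_lit 527) (nat_lit 495) (nat_lit 6638) (.f (nat_lit 559) (nat_lit 654) (nat_lit 6670) (.f (nat_lit 529)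 (nat_lit 530) (nat_lit 1550) (.f (nat_lit 561) (nat_lit 562) (nat_lit 526) (.f (nat_lit 560) (nat_lit 525) (nat_lit 525) (.d (nat_lit 464) (nat_lit 432) (nat_lit 5551) (nat_lit 593) (nat_lit 4560))))))))) (.f (nat_lit 493) (nat_lit 461) (nat_lit 7629) (.f (nat_lit 527) (nat_lit 529) (nat_lit 3565) (.d (nat_lit 492) (nat_lit 491) (nat_lit 491) (nat_lit 525) (nat_lit 3564))))))))
noncomputable def s23812 : Cert := .r (nat_lit 1098367625876631195638990211447803359827765831789854025350228590148069047476135421183724742106088204759328672100049959483405148627549761177659140858869700362240) (.p (nat_lit 558) (.a s22648 (.a s23706 (.a s23742 (.a s23760 (.a (.p (nat_lit 462) (.a (.f (nat_lit 461) (nat_lit 429) (nat_lit 7597) (.f (nat_lit 590) (nat_lit 493) (nat_lit 7629) (.d (nat_lit 589) (nat_lit 557) (nat_lit 5581) (nat_lit 621) (nat_lit 5613)))) (.a (.f (nat_lit 557) (nat_lit 589) (nat_lit 5581) (.f (nat_lit 527) (nat_lit 529) (nat_lit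 1549) (.d (nat_lit 556) (nat_lit 555) (nat_lit 2571) (nat_lit 559) (nat_lit 2572)))) (.f (nat_lit 461) (nat_lit 429) (nat_lit 7597) (.f (nat_lit 493) (nat_lit 590) (nat_lit 7629) (.d (nat_lit 495) (nat_lit 460) (nat_lit 3532) (nat_lit 529) (nat_lit 493))))))) (.a (.p (nat_lit 462) (.a (.f (nat_lit 557) (nat_lit 589) (nat_lit 5581) (.f (nat_lit 527) (nat_lit 529) (nat_lit 1549) (.d (nat_lit 430) (nat_lit 525) (nat_lit 5549) (nat_lit 559) (nat_lit 4526)))) (.a (.f (nat_lit 429) (nat_lit 461) (nat_lit 7597) (.f (nat_lit 430) (nat_lit 397) (nat_lit 7565) (.d (nat_lit 557) (nat_lit 525) (nat_lit 5549) (nat_lit 589) (nat_lit 5581)))) (.a (.f (nat_lit 557) (nat_lit 589) (nat_lit 5581) (.f (nat_lit 527) (nat_lit 529) (nat_lit 1549) (.d (nat_lit 556) (nat_lit 555) (nat_lit 2571) (nat_lit 559) (nat_lit 2572)))) (.f (nat_lit 429) (nat_lit 461) (nat_lit 7597) (.f (nat_lit 430) (nat_lit 397) (nat_lit 7565) (.f (nat_lit 527) (nat_lit 559) (nat_lit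 4526) (.f (nat_lit 495) (nat_lit 398) (nat_lit 4494) (.f (nat_lit 529) (nat_lit 530) (nat_lit 3566) (.f (nat_lit 561) (nat_lit 562) (nat_lit 526) (.d (nat_lit 525) (nat_lit 524) (nat_lit 2540) (nat_lit 560) (nat_lit 525)))))))))))) (.a s23806 (.a (.p (nat_lit 557) (.a (.f (nat_lit 527) (nat_lit 529) (nat_lit 1549) (.d (nat_lit 556) (nat_lit 555) (nat_lit 2571) (nat_lit 559) (nat_lit 2572))) (.f (nat_lit 589) (nat_lit 462) (nat_lit 5581) (.d (nat_lit 621) (nat_lit 590) (nat_lit 5613) (nat_lit 653) (nat_lit 6669))))) (.p (nat_lit 529) (.a (.f (nat_lit 527) (nat_lit 557) (nat_lit 1549) (.d (nat_lit 530) (nat_lit 495) (nat_lit 3566) (nat_lit 559) (nat_lit 1550))) (.a (.f (nat_lit 493) (nat_lit 495) (nat_lit 493) (.f (nat_lit 461) (nat_lit 590) (nat_lit 7629) (.d (nat_lit 429) (nat_lit 397) (nat_lit 4493) (nat_lit 462) (nat_lit 7597)))) (.d (nat_lit 527) (nat_lit 493) (nat_lit 3565) (nat_lit 557) (nat_lit 1549))))))))))))))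
noncomputable def s23815 : Cert := .r (nat_lit 1098367625876631195638990211447803359827765831789854025350228590148069047476135421183724742106088204759328672100049959483405148627549761177659140858869700362240) (.p (nat_lit 493) (.a (.f (nat_lit 527) (nat_lit 529) (nat_lit 3565) (.d (nat_lit 492) (nat_lit 491) (nat_lit 491) (nat_lit 525) (nat_lit 3564))) (.a (.p (nat_lit 495) (.a (.f (nat_lit 492) (nat_lit 527) (nat_lit 492) (.d (nat_lit 460) (nat_lit 459) (nat_lit 3531) (nat_lit 461) (nat_lit 3532))) (.a (.f (nat_lit 461) (nat_lit 460) (nat_lit 3532) (.f (nat_lit 525) (nat_lit 524) (nat_lit 1516) (.d (nat_lit 429) (nat_lit 397) (nat_lit 4493) (nat_lit 558) (nat_lit 4525)))) (.f (nat_lit 492) (nat_lit 527) (nat_lit 492) (.d (nat_lit 464) (nat_lit 463) (nat_lit 2508) (nat_lit 465) (nat_lit 2509)))))) (.a (.f (nat_lit 495) (nat_lit 529) (nat_lit 493) (.f (nat_lit 461) (nat_lit 460) (nat_lit 3532) (.f (nat_lit 525) (nat_lit 524) (nat_lit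 1516) (.d (nat_lit 429) (nat_lit 397) (nat_lit 4493) (nat_lit 558) (nat_lit 4525))))) (.d (nat_lit 529) (nat_lit 495) (nat_lit 493) (nat_lit 527) (nat_lit 3565))))))
noncomputable def s23816 : Cert := .r (nat_lit 943490607303752963937019840886057434177033664931875938883905600411634630746106260497667102478139433991455298517019633324992605640886346785690119740517314869782049193984) (.p (nat_lit 462) (.a (.f (nat_lit 557) (nat_lit 589) (nat_lit 5581) (.f (nat_lit 527) (nat_lit 529) (nat_lit 1549) (.d (nat_lit 525) (nat_lit 430) (nat_lit 5549) (nat_lit 556) (nat_lit 1548)))) (.a (.f (nat_lit 557) (nat_lit 589) (nat_lit 5581) (.f (nat_lit 430) (nat_lit 525) (nat_lit 5549) (.d (nat_lit 431) (nat_lit 399) (nat_lit 6542) (nat_lit 463) (nat_lit 6574)))) (.a (.f (nat_lit 463) (nat_lit 431) (nat_lit 6574) (.f (nat_lit 590) (nat_lit 495) (nat_lit 6606) (.d (nat_lit 589) (nat_lit 557) (nat_lit 5581) (nat_lit 621) (nat_lit 5613)))) (.f (nat_lit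 463) (nat_lit 431) (nat_lit 6574) (.f (nat_lit 495) (nat_lit 590) (nat_lit 6606) (.f (nat_lit 493) (nat_lit 529) (nat_lit 493) (.d (nat_lit 464) (nat_lit 465) (nat_lit 1485) (nat_lit 492) (nat_lit 2508)))))))))
noncomputable def s23894 : Cert := .r (nat_lit 1098367625876631195638990211447803359827765831789854025350228590148069047476135421183724742106088204759328672100049959483405148627549761177659140858869700362240) (.p (nat_lit 525) (.a (.d (nat_lit 497) (nat_lit 495) (nat_lit 1517) (nat_lit 527) (nat_lit 2541)) (.a (.f (nat_lit 495) (nat_lit 497) (nat_lit 1517) (.d (nat_lit 524) (nat_lit 493) (nat_lit 1516) (nat_lit 523) (nat_lit 2539))) (.a (.f (nat_lit 527) (nat_lit 497) (nat_lit 2541) (.f (nat_lit 493) (nat_lit 492) (nat_lit 3564) (.f (nat_lit 557) (nat_lit 556) (nat_lit 1548) (.f (nat_lit 589) (nat_lit 621) (nat_lit 6637) (.f (nat_lit 590) (nat_lit 622) (nat_lit 4589) (.f (nat_lit 461) (nat_lit 558) (nat_lit 7629) (.f (nat_lit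 429) (nat_lit 397) (nat_lit 4493) (.d (nat_lit 428) (nat_lit 396) (nat_lit 7564) (nat_lit 460) (nat_lit 7596))))))))) (.p (nat_lit 527) (.a (.f (nat_lit 495) (nat_lit 524) (nat_lit 2540) (.f (nat_lit 493) (nat_lit 492) (nat_lit 492) (.f (nat_lit 461) (nat_lit 460) (nat_lit 3532) (.d (nat_lit 429) (nat_lit 397) (nat_lit 4493) (nat_lit 558) (nat_lit 4525))))) (.a (.f (nat_lit 493) (nat_lit 492) (nat_lit 3564) (.f (nat_lit 557) (nat_lit 556) (nat_lit 1548) (.f (nat_lit 589) (nat_lit 621) (nat_lit 6637) (.f (nat_lit 590) (nat_lit 622) (nat_lit 4589) (.f (nat_lit 461) (nat_lit 558) (nat_lit 7629) (.f (nat_lit 429) (nat_lit 397) (nat_lit 4493) (.d (nat_lit 428) (nat_lit 396) (nat_lit 7564) (nat_lit 460) (nat_lit 7596)))))))) (.a (.f (nat_lit 495) (nat_lit 524) (nat_lit 2540) (.f (nat_lit 493) (nat_lit 492) (nat_lit 492) (.f (nat_lit 464) (nat_lit 465) (nat_lit 2509) (.d (nat_lit 432) (nat_lit 400) (nat_lit 5519) (nat_lit 559) (nat_lit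 5551))))) (.f (nat_lit 524) (nat_lit 495) (nat_lit 2540) (.d (nat_lit 556) (nat_lit 555) (nat_lit 1547) (nat_lit 557) (nat_lit 1548)))))))))))
noncomputable def s23899 : Cert := .r (nat_lit 1098367625876631195638990211447803359827765831789854025350228590148069047476135421183724742106088204759328672100049959483405148627549761177659140858869700362240) (.p (nat_lit 527) (.a (.f (nat_lit 525) (nat_lit 497) (nat_lit 2541) (.d (nat_lit 493) (nat_lit 492) (nat_lit 3564) (nat_lit 529) (nat_lit 3565))) (.a (.f (nat_lit 525) (nat_lit 497) (nat_lit 2541) (.f (nat_lit 493) (nat_lit 492) (nat_lit 3564) (.f (nat_lit 557) (nat_lit 556) (nat_lit 1548) (.d (nat_lit 462) (nat_lit 430) (nat_lit 5549) (nat_lit 589) (nat_lit 6605))))) (.a (.f (nat_lit 529) (nat_lit 493) (nat_lit 3565) (.f (nat_lit 561) (nat_lit 562) (nat_lit 526) (.f (nat_lit 464) (nat_lit 432) (nat_lit 4528) (.d (nat_lit 593) (nat_lit 497) (nat_lit 7632) (nat_lit 625) (nat_lit 7664)))))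 (.a (.f (nat_lit 493) (nat_lit 529) (nat_lit 3565) (.d (nat_lit 492) (nat_lit 491) (nat_lit 491) (nat_lit 525) (nat_lit 3564))) (.f (nat_lit 525) (nat_lit 497) (nat_lit 2541) (.f (nat_lit 557) (nat_lit 556) (nat_lit 1548) (.f (nat_lit 558) (nat_lit 529) (nat_lit 1549) (.d (nat_lit 462) (nat_lit 430) (nat_lit 5549) (nat_lit 589) (nat_lit 5581))))))))))
noncomputable def s24000 : Cert := .r (nat_lit 3773962425700235452994006265747838276794119997291584330561474552495229921846280517693537152693461601146390034030819035035293156656142037644120262827089467997203413860352) (.p (nat_lit 464) (.a (.f (nat_lit 465) (nat_lit 433) (nat_lit 6576) (.f (nat_lit 495) (nat_lit 493) (nat_lit 2509) (.d (nat_lit 463) (nat_lit 431) (nat_lit 7599) (nat_lit 466) (nat_lit 1486)))) (.a (.f (nat_lit 433) (nat_lit 465) (nat_lit 6576) (.f (nat_lit 432) (nat_lit 401) (nat_lit 6544) (.d (nat_lit 431) (nat_lit 399) (nat_lit 7567) (nat_lit 463) (nat_lit 7599))))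 (.a (.f (nat_lit 465) (nat_lit 433) (nat_lit 6576) (.f (nat_lit 495) (nat_lit 493) (nat_lit 2509) (.d (nat_lit 466) (nat_lit 467) (nat_lit 1487) (nat_lit 497) (nat_lit 2510)))) (.a (.f (nat_lit 463) (nat_lit 431) (nat_lit 7599) (.f (nat_lit 495) (nat_lit 592) (nat_lit 7631) (.d (nat_lit 465) (nat_lit 466) (nat_lit 1486) (nat_lit 493) (nat_lit 2509)))) (.f (nat_lit 463) (nat_lit 431) (nat_lit 7599) (.f (nat_lit 495) (nat_lit 592) (nat_lit 7631) (.d (nat_lit 493) (nat_lit 492) (nat_lit 2508) (nat_lit 529) (nat_lit 493)))))))))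
noncomputable def s24006 : Cert := .r (nat_lit 943490607303752963937019840886057434177033664931875938883905600411634630746106260497667102478139433991455298517019633324992605640886346785690119740517314869782049193984) (.p (nat_lit 462) (.a (.f (nat_lit 461) (nat_lit 429) (nat_lit 7597) (.f (nat_lit 495) (nat_lit 497) (nat_lit 3533) (.d (nat_lit 460) (nat_lit 459) (nat_lit 459) (nat_lit 463) (nat_lit 460)))) (.a (.f (nat_lit 429) (nat_lit 461) (nat_lit 7597) (.f (nat_lit 430) (nat_lit 397) (nat_lit 7565) (.d (nat_lit 431) (nat_lit 399) (nat_lit 6542) (nat_lit 463) (nat_lit 6574)))) (.a (.f (nat_lit 461) (nat_lit 429) (nat_lit 7597) (.f (nat_lit 495) (nat_lit 497) (nat_lit 3533) (.f (nat_lit 589) (nat_lit 557) (nat_lit 5581) (.f (nat_lit 590) (nat_lit 621) (nat_lit 5613) (.f (nat_lit 527) (nat_lit 622) (nat_lit 6638) (.f (nat_lit 529) (nat_lit 530) (nat_lit 3566) (.f (nat_lit 430) (nat_lit 398) (nat_lit 4494) (.f (nat_lit 431) (nat_lit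 399) (nat_lit 6542) (.f (nat_lit 432) (nat_lit 433) (nat_lit 1453) (.d (nat_lit 464) (nat_lit 400) (nat_lit 5519) (nat_lit 561) (nat_lit 4528))))))))))) (.f (nat_lit 463) (nat_lit 431) (nat_lit 6574) (.f (nat_lit 590) (nat_lit 495) (nat_lit 6606) (.d (nat_lit 589) (nat_lit 557) (nat_lit 5581) (nat_lit 621) (nat_lit 5613))))))))
noncomputable def s24007 : Cert := .r (nat_lit 943490607303752963937019840886057434177033664931875938883905600411634630746106260497667102478139433991455298517019633324992605640886346785690119740517314869782049193984) (.p (nat_lit 462) (.a (.f (nat_lit 461) (nat_lit 429) (nat_lit 7597) (.f (nat_lit 493) (nat_lit 590) (nat_lit 7629) (.d (nat_lit 495) (nat_lit 460) (nat_lit 3532) (nat_lit 497) (nat_lit 3533)))) (.a (.f (nat_lit 461) (nat_lit 429) (nat_lit 7597) (.f (nat_lit 590) (nat_lit 493) (nat_lit 7629) (.d (nat_lit 589) (nat_lit 557) (nat_lit 5581) (nat_lit 621) (nat_lit 5613)))) (.a (.f (nat_lit 461) (nat_lit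 429) (nat_lit 7597) (.f (nat_lit 495) (nat_lit 497) (nat_lit 3533) (.f (nat_lit 589) (nat_lit 557) (nat_lit 5581) (.f (nat_lit 590) (nat_lit 621) (nat_lit 5613) (.f (nat_lit 527) (nat_lit 622) (nat_lit 6638) (.f (nat_lit 529) (nat_lit 530) (nat_lit 3566) (.f (nat_lit 430) (nat_lit 398) (nat_lit 4494) (.f (nat_lit 431) (nat_lit 399) (nat_lit 6542) (.f (nat_lit 432) (nat_lit 433) (nat_lit 1453) (.d (nat_lit 464) (nat_lit 400) (nat_lit 5519) (nat_lit 561) (nat_lit 4528))))))))))) (.a (.f (nat_lit 461) (nat_lit 429) (nat_lit 7597) (.f (nat_lit 495) (nat_lit 497) (nat_lit 3533) (.d (nat_lit 460) (nat_lit 459) (nat_lit 459) (nat_lit 493) (nat_lit 3532)))) (.f (nat_lit 557) (nat_lit 589) (nat_lit 5581) (.f (nat_lit 529) (nat_lit 527) (nat_lit 1549) (.f (nat_lit 495) (nat_lit 493) (nat_lit 493) (.d (nat_lit 530) (nat_lit 497) (nat_lit 494) (nat_lit 531) (nat_lit 3567))))))))))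
noncomputable def s24008 : Cert := .r (nat_lit 943490607303752963937019840886057434177033664931875938883905600411634630746106260497667102478139433991455298517019633324992605640886346785690119740517314869782049193984) (.p (nat_lit 462) (.a (.f (nat_lit 461) (nat_lit 429) (nat_lit 7597) (.f (nat_lit 495) (nat_lit 497) (nat_lit 3533) (.d (nat_lit 460) (nat_lit 459) (nat_lit 459) (nat_lit 463) (nat_lit 460)))) (.a (.f (nat_lit 429) (nat_lit 461) (nat_lit 7597) (.f (nat_lit 430) (nat_lit 397) (nat_lit 7565) (.d (nat_lit 431) (nat_lit 399) (nat_lit 6542) (nat_lit 463) (nat_lit 6574)))) (.a (.f (nat_lit 461) (nat_lit 429) (nat_lit 7597) (.f (nat_lit 495) (nat_lit 497) (nat_lit 3533) (.d (nat_lit 460) (nat_lit 459) (nat_lit 459) (nat_lit 493) (nat_lit 3532)))) (.a s19599 (.f (nat_lit 557) (nat_lit 589) (nat_lit 5581) (.f (nat_lit 529) (nat_lit 527) (nat_lit 1549) (.f (nat_lit 495) (nat_lit 493) (nat_lit 493) (.d (nat_lit 530) (nat_lit 497)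 (nat_lit 494) (nat_lit 531) (nat_lit 3567))))))))))
noncomputable def s24019 : Cert := .r (nat_lit 878694100701304956511192169158242687862212665431883220280182872118455237980908336946979793684870563807462937680039967586724118902039808942127312687095760289792) (.p (nat_lit 494) (.a (.p (nat_lit 464) (.a (.p (nat_lit 529) (.a (.f (nat_lit 432) (nat_lit 561) (nat_lit 4528) (.f (nat_lit 400) (nat_lit 497) (nat_lit 4496) (.d (nat_lit 399) (nat_lit 367) (nat_lit 7535) (nat_lit 431) (nat_lit 7567)))) (.a (.f (nat_lit 495) (nat_lit 493) (nat_lit 493) (.d (nat_lit 530) (nat_lit 497) (nat_lit 494) (nat_lit 531) (nat_lit 3567))) (.f (nat_lit 432) (nat_lit 561) (nat_lit 4528) (.f (nat_lit 399) (nat_lit 431) (nat_lit 7567) (.f (nat_lit 400) (nat_lit 367) (nat_lit 7535) (.d (nat_lit 401) (nat_lit 369) (nat_lit 6512) (nat_lit 433) (nat_lit 6544)))))))) (.a s23201 (.a s23215 (.a (.p (nat_lit 495) (.a (.f (nat_lit 465) (nat_lit 493) (nat_lit 2509)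 (.d (nat_lit 466) (nat_lit 463) (nat_lit 1486) (nat_lit 467) (nat_lit 1487))) (.a (.p (nat_lit 497) (.a (.f (nat_lit 465) (nat_lit 466) (nat_lit 2510) (.f (nat_lit 529) (nat_lit 530) (nat_lit 494) (.f (nat_lit 433) (nat_lit 401) (nat_lit 5520) (.f (nat_lit 462) (nat_lit 461) (nat_lit 3533) (.d (nat_lit 434) (nat_lit 402) (nat_lit 6545) (nat_lit 463) (nat_lit 2478)))))) (.a (.f (nat_lit 465) (nat_lit 466) (nat_lit 2510) (.f (nat_lit 462) (nat_lit 461) (nat_lit 3533) (.f (nat_lit 433) (nat_lit 401) (nat_lit 5520) (.f (nat_lit 463) (nat_lit 434) (nat_lit 2478) (.f (nat_lit 430) (nat_lit 429) (nat_lit 3501) (.d (nat_lit 398) (nat_lit 366) (nat_lit 4462) (nat_lit 527) (nat_lit 4494))))))) (.a (.f (nat_lit 529) (nat_lit 530) (nat_lit 494) (.f (nat_lit 465) (nat_lit 466) (nat_lit 2510) (.f (nat_lit 561) (nat_lit 593) (nat_lit 7632) (.f (nat_lit 526) (nat_lit 525) (nat_lit 1517) (.d (nat_lit 562) (nat_lit 527) (nat_lit 526) (nat_lit 594)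 (nat_lit 4561)))))) (.f (nat_lit 529) (nat_lit 530) (nat_lit 494) (.f (nat_lit 526) (nat_lit 525) (nat_lit 1517) (.f (nat_lit 462) (nat_lit 461) (nat_lit 3533) (.f (nat_lit 561) (nat_lit 593) (nat_lit 7632) (.f (nat_lit 527) (nat_lit 562) (nat_lit 526) (.d (nat_lit 430) (nat_lit 398) (nat_lit 4494) (nat_lit 559) (nat_lit 4526))))))))))) (.a (.d (nat_lit 493) (nat_lit 465) (nat_lit 2509) (nat_lit 529) (nat_lit 493)) (.f (nat_lit 493) (nat_lit 529) (nat_lit 493) (.d (nat_lit 492) (nat_lit 463) (nat_lit 2508) (nat_lit 527) (nat_lit 492))))))) (.a (.p (nat_lit 529) (.a (.f (nat_lit 432) (nat_lit 561) (nat_lit 4528) (.f (nat_lit 399) (nat_lit 431) (nat_lit 7567) (.f (nat_lit 400) (nat_lit 367) (nat_lit 7535) (.d (nat_lit 401) (nat_lit 369) (nat_lit 6512) (nat_lit 433) (nat_lit 6544))))) (.f (nat_lit 495) (nat_lit 493) (nat_lit 493) (.d (nat_lit 530) (nat_lit 527) (nat_lit 3566) (nat_lit 531) (nat_lit 3567))))) (.a s23255 (.p (nat_lit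 529) (.a (.f (nat_lit 432) (nat_lit 561) (nat_lit 4528) (.f (nat_lit 400) (nat_lit 497) (nat_lit 4496) (.d (nat_lit 399) (nat_lit 367) (nat_lit 7535) (nat_lit 431) (nat_lit 7567)))) (.a (.f (nat_lit 495) (nat_lit 493) (nat_lit 493) (.d (nat_lit 530) (nat_lit 497) (nat_lit 494) (nat_lit 531) (nat_lit 3567))) (.f (nat_lit 495) (nat_lit 493) (nat_lit 493) (.d (nat_lit 530) (nat_lit 527) (nat_lit 3566) (nat_lit 531) (nat_lit 3567))))))))))))) (.a (.p (nat_lit 464) (.a s23201 (.a s23266 (.a (.p (nat_lit 560) (.a (.f (nat_lit 465) (nat_lit 433) (nat_lit 6576) (.f (nat_lit 495) (nat_lit 493) (nat_lit 2509) (.d (nat_lit 463) (nat_lit 431) (nat_lit 7599) (nat_lit 466) (nat_lit 1486)))) (.a (.f (nat_lit 465) (nat_lit 433) (nat_lit 6576) (.f (nat_lit 463) (nat_lit 431) (nat_lit 7599) (.f (nat_lit 462) (nat_lit 493) (nat_lit 1485) (.d (nat_lit 497) (nat_lit 461) (nat_lit 461) (nat_lit 592) (nat_lit 6608))))) (.a (.f (nat_lit 463) (nat_lit 431)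 (nat_lit 7599) (.f (nat_lit 495) (nat_lit 592) (nat_lit 7631) (.d (nat_lit 465) (nat_lit 433) (nat_lit 6576) (nat_lit 466) (nat_lit 1486)))) (.a (.f (nat_lit 465) (nat_lit 433) (nat_lit 6576) (.f (nat_lit 495) (nat_lit 493) (nat_lit 2509) (.d (nat_lit 466) (nat_lit 467) (nat_lit 1487) (nat_lit 497) (nat_lit 2510)))) (.a (.f (nat_lit 463) (nat_lit 431) (nat_lit 7599) (.f (nat_lit 495) (nat_lit 592) (nat_lit 7631) (.d (nat_lit 465) (nat_lit 466) (nat_lit 1486) (nat_lit 493) (nat_lit 2509)))) (.f (nat_lit 463) (nat_lit 431) (nat_lit 7599) (.f (nat_lit 495) (nat_lit 592) (nat_lit 7631) (.f (nat_lit 493) (nat_lit 492) (nat_lit 2508) (.f (nat_lit 461) (nat_lit 460) (nat_lit 3532) (.f (nat_lit 462) (nat_lit 497) (nat_lit 461) (.f (nat_lit 429) (nat_lit 428) (nat_lit 3500) (.d (nat_lit 397) (nat_lit 365) (nat_lit 4461) (nat_lit 526) (nat_lit 4493)))))))))))))) (.a (.p (nat_lit 560) (.a (.f (nat_lit 465) (nat_lit 433) (nat_lit 6576) (.f (nat_lit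 495) (nat_lit 493) (nat_lit 2509) (.d (nat_lit 463) (nat_lit 431) (nat_lit 7599) (nat_lit 466) (nat_lit 1486)))) (.a (.f (nat_lit 433) (nat_lit 465) (nat_lit 6576) (.f (nat_lit 432) (nat_lit 401) (nat_lit 6544) (.d (nat_lit 431) (nat_lit 399) (nat_lit 7567) (nat_lit 463) (nat_lit 7599)))) (.a (.f (nat_lit 465) (nat_lit 433) (nat_lit 6576) (.f (nat_lit 495) (nat_lit 493) (nat_lit 2509) (.f (nat_lit 593) (nat_lit 561) (nat_lit 4560) (.f (nat_lit 592) (nat_lit 625) (nat_lit 4592) (.f (nat_lit 527) (nat_lit 624) (nat_lit 7663) (.d (nat_lit 432) (nat_lit 400) (nat_lit 5519) (nat_lit 559) (nat_lit 5551))))))) (.a (.f (nat_lit 463) (nat_lit 431) (nat_lit 7599) (.f (nat_lit 495) (nat_lit 592) (nat_lit 7631) (.d (nat_lit 465) (nat_lit 466) (nat_lit 1486) (nat_lit 493) (nat_lit 2509)))) (.f (nat_lit 463) (nat_lit 431) (nat_lit 7599) (.f (nat_lit 495) (nat_lit 592) (nat_lit 7631) (.f (nat_lit 493) (nat_lit 492) (nat_lit 2508) (.f (nat_lit 461)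 (nat_lit 460) (nat_lit 3532) (.f (nat_lit 525) (nat_lit 524) (nat_lit 1516) (.f (nat_lit 561) (nat_lit 593) (nat_lit 4560) (.f (nat_lit 526) (nat_lit 527) (nat_lit 525) (.d (nat_lit 429) (nat_lit 397) (nat_lit 4493) (nat_lit 558) (nat_lit 4525)))))))))))))) (.a s23307 (.a (.p (nat_lit 432) (.a (.f (nat_lit 401) (nat_lit 433) (nat_lit 6544) (.f (nat_lit 400) (nat_lit 369) (nat_lit 6512) (.d (nat_lit 399) (nat_lit 367) (nat_lit 7535) (nat_lit 431) (nat_lit 7567)))) (.a (.f (nat_lit 401) (nat_lit 433) (nat_lit 6544) (.f (nat_lit 400) (nat_lit 369) (nat_lit 6512) (.f (nat_lit 495) (nat_lit 527) (nat_lit 5519) (.f (nat_lit 465) (nat_lit 493) (nat_lit 2509) (.d (nat_lit 466) (nat_lit 467) (nat_lit 1487) (nat_lit 497) (nat_lit 2510)))))) (.a (.f (nat_lit 399) (nat_lit 431) (nat_lit 7567) (.f (nat_lit 400) (nat_lit 367) (nat_lit 7535) (.f (nat_lit 495) (nat_lit 527) (nat_lit 5519) (.f (nat_lit 465) (nat_lit 493) (nat_lit 2509) (.d (nat_lit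 466) (nat_lit 467) (nat_lit 1487) (nat_lit 497) (nat_lit 2510)))))) (.f (nat_lit 433) (nat_lit 401) (nat_lit 6544) (.f (nat_lit 465) (nat_lit 560) (nat_lit 6576) (.f (nat_lit 431) (nat_lit 399) (nat_lit 7567) (.d (nat_lit 430) (nat_lit 429) (nat_lit 429) (nat_lit 466) (nat_lit 430))))))))) (.a (.p (nat_lit 560) (.a (.f (nat_lit 465) (nat_lit 433) (nat_lit 6576) (.f (nat_lit 495) (nat_lit 493) (nat_lit 2509) (.d (nat_lit 466) (nat_lit 467) (nat_lit 1487) (nat_lit 497) (nat_lit 2510)))) (.a (.f (nat_lit 465) (nat_lit 433) (nat_lit 6576) (.f (nat_lit 592) (nat_lit 497) (nat_lit 6608) (.d (nat_lit 593) (nat_lit 561) (nat_lit 4560) (nat_lit 625) (nat_lit 4592)))) (.a (.f (nat_lit 465) (nat_lit 433) (nat_lit 6576) (.f (nat_lit 495) (nat_lit 493) (nat_lit 2509) (.f (nat_lit 593) (nat_lit 561) (nat_lit 4560) (.f (nat_lit 592) (nat_lit 625) (nat_lit 4592) (.f (nat_lit 527) (nat_lit 624) (nat_lit 7663) (.d (nat_lit 432) (nat_lit 400) (nat_lit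 5519) (nat_lit 559) (nat_lit 5551))))))) (.f (nat_lit 593) (nat_lit 561) (nat_lit 4560) (.f (nat_lit 592) (nat_lit 625) (nat_lit 4592) (.f (nat_lit 495) (nat_lit 463) (nat_lit 7631) (.f (nat_lit 527) (nat_lit 624) (nat_lit 7663) (.f (nat_lit 493) (nat_lit 492) (nat_lit 492) (.f (nat_lit 525) (nat_lit 524) (nat_lit 1516) (.f (nat_lit 526) (nat_lit 497) (nat_lit 2541) (.f (nat_lit 557) (nat_lit 556) (nat_lit 1548) (.d (nat_lit 462) (nat_lit 430) (nat_lit 5549) (nat_lit 589) (nat_lit 6605)))))))))))))) (.a (.p (nat_lit 495) (.a (.f (nat_lit 465) (nat_lit 493) (nat_lit 2509) (.d (nat_lit 466) (nat_lit 463) (nat_lit 1486) (nat_lit 467) (nat_lit 1487))) (.a (.p (nat_lit 432) (.a (.f (nat_lit 400) (nat_lit 527) (nat_lit 5519) (.d (nat_lit 399) (nat_lit 367) (nat_lit 7535) (nat_lit 431) (nat_lit 7567))) (.a (.f (nat_lit 399) (nat_lit 431) (nat_lit 7567) (.f (nat_lit 400) (nat_lit 367) (nat_lit 7535) (.f (nat_lit 368) (nat_lit 463) (nat_lit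 5487) (.d (nat_lit 369) (nat_lit 337) (nat_lit 6480) (nat_lit 401) (nat_lit 6512))))) (.a (.f (nat_lit 400) (nat_lit 527) (nat_lit 5519) (.f (nat_lit 368) (nat_lit 463) (nat_lit 5487) (.d (nat_lit 367) (nat_lit 335) (nat_lit 7503) (nat_lit 399) (nat_lit 7535)))) (.a (.f (nat_lit 431) (nat_lit 399) (nat_lit 7567) (.f (nat_lit 463) (nat_lit 560) (nat_lit 7599) (.f (nat_lit 465) (nat_lit 466) (nat_lit 1486) (.f (nat_lit 430) (nat_lit 429) (nat_lit 429) (.f (nat_lit 398) (nat_lit 527) (nat_lit 7566) (.d (nat_lit 366) (nat_lit 334) (nat_lit 4430) (nat_lit 462) (nat_lit 4462))))))) (.f (nat_lit 400) (nat_lit 527) (nat_lit 5519) (.f (nat_lit 463) (nat_lit 368) (nat_lit 5487) (.d (nat_lit 560) (nat_lit 431) (nat_lit 7599) (nat_lit 592) (nat_lit 7631))))))))) (.a (.f (nat_lit 465) (nat_lit 493) (nat_lit 2509) (.d (nat_lit 466) (nat_lit 467) (nat_lit 1487) (nat_lit 497) (nat_lit 2510))) (.p (nat_lit 560) (.a (.d (nat_lit 463) (nat_lit 431)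 (nat_lit 7599) (nat_lit 592) (nat_lit 7631)) (.a (.f (nat_lit 463) (nat_lit 431) (nat_lit 7599) (.f (nat_lit 493) (nat_lit 492) (nat_lit 2508) (.f (nat_lit 461) (nat_lit 460) (nat_lit 3532) (.f (nat_lit 462) (nat_lit 497) (nat_lit 461) (.f (nat_lit 525) (nat_lit 524) (nat_lit 1516) (.d (nat_lit 430) (nat_lit 398) (nat_lit 5517) (nat_lit 557) (nat_lit 6573))))))) (.f (nat_lit 593) (nat_lit 561) (nat_lit 4560) (.f (nat_lit 592) (nat_lit 625) (nat_lit 4592) (.f (nat_lit 527) (nat_lit 624) (nat_lit 7663) (.f (nat_lit 493) (nat_lit 492) (nat_lit 492) (.f (nat_lit 525) (nat_lit 524) (nat_lit 1516) (.f (nat_lit 526) (nat_lit 497) (nat_lit 2541) (.f (nat_lit 557) (nat_lit 556) (nat_lit 1548) (.d (nat_lit 462) (nat_lit 430) (nat_lit 5549) (nat_lit 589) (nat_lit 6605)))))))))))))))) (.p (nat_lit 432) (.a (.f (nat_lit 401) (nat_lit 433) (nat_lit 6544) (.f (nat_lit 400) (nat_lit 369) (nat_lit 6512) (.d (nat_lit 399) (nat_lit 367) (nat_lit 7535)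 (nat_lit 431) (nat_lit 7567)))) (.a (.f (nat_lit 401) (nat_lit 433) (nat_lit 6544) (.f (nat_lit 400) (nat_lit 369) (nat_lit 6512) (.f (nat_lit 495) (nat_lit 527) (nat_lit 5519) (.f (nat_lit 463) (nat_lit 368) (nat_lit 5487) (.f (nat_lit 493) (nat_lit 492) (nat_lit 2508) (.f (nat_lit 461) (nat_lit 460) (nat_lit 3532) (.f (nat_lit 462) (nat_lit 497) (nat_lit 461) (.f (nat_lit 429) (nat_lit 428) (nat_lit 3500) (.d (nat_lit 397) (nat_lit 365) (nat_lit 4461) (nat_lit 526) (nat_lit 4493)))))))))) (.a (.f (nat_lit 399) (nat_lit 431) (nat_lit 7567) (.f (nat_lit 400) (nat_lit 367) (nat_lit 7535) (.f (nat_lit 495) (nat_lit 527) (nat_lit 5519) (.f (nat_lit 463) (nat_lit 368) (nat_lit 5487) (.f (nat_lit 493) (nat_lit 492) (nat_lit 2508) (.f (nat_lit 461) (nat_lit 460) (nat_lit 3532) (.f (nat_lit 462) (nat_lit 497) (nat_lit 461) (.f (nat_lit 429) (nat_lit 428) (nat_lit 3500) (.d (nat_lit 397) (nat_lit 365) (nat_lit 4461) (nat_lit 526) (nat_lit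 4493)))))))))) (.f (nat_lit 431) (nat_lit 399) (nat_lit 7567) (.f (nat_lit 463) (nat_lit 560) (nat_lit 7599) (.f (nat_lit 433) (nat_lit 401) (nat_lit 6544) (.d (nat_lit 434) (nat_lit 435) (nat_lit 1455) (nat_lit 462) (nat_lit 1454)))))))))))))))))) (.a (.p (nat_lit 560) (.a s23387 (.a s23394 (.a s23408 (.a s23409 (.a s23410 (.a s23411 (.a (.p (nat_lit 464) (.a (.f (nat_lit 465) (nat_lit 433) (nat_lit 6576) (.f (nat_lit 495) (nat_lit 493) (nat_lit 2509) (.d (nat_lit 466) (nat_lit 467) (nat_lit 1487) (nat_lit 497) (nat_lit 2510)))) (.a (.f (nat_lit 433) (nat_lit 465) (nat_lit 6576) (.f (nat_lit 432) (nat_lit 401) (nat_lit 6544) (.d (nat_lit 561) (nat_lit 529) (nat_lit 4528) (nat_lit 593) (nat_lit 4560)))) (.f (nat_lit 561) (nat_lit 593) (nat_lit 4560) (.f (nat_lit 529) (nat_lit 432) (nat_lit 4528) (.f (nat_lit 495) (nat_lit 493) (nat_lit 493) (.d (nat_lit 530) (nat_lit 497) (nat_lit 494) (nat_lit 531) (nat_lit 3567)))))))) s23417))))))))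 (.a (.p (nat_lit 464) (.a (.p (nat_lit 432) (.a (.f (nat_lit 529) (nat_lit 561) (nat_lit 4528) (.f (nat_lit 400) (nat_lit 497) (nat_lit 4496) (.d (nat_lit 399) (nat_lit 367) (nat_lit 7535) (nat_lit 431) (nat_lit 7567)))) (.a (.f (nat_lit 401) (nat_lit 433) (nat_lit 6544) (.f (nat_lit 400) (nat_lit 369) (nat_lit 6512) (.d (nat_lit 399) (nat_lit 367) (nat_lit 7535) (nat_lit 431) (nat_lit 7567)))) (.a (.f (nat_lit 529) (nat_lit 561) (nat_lit 4528) (.f (nat_lit 400) (nat_lit 497) (nat_lit 4496) (.d (nat_lit 401) (nat_lit 369) (nat_lit 6512) (nat_lit 433) (nat_lit 6544)))) (.f (nat_lit 433) (nat_lit 401) (nat_lit 6544) (.f (nat_lit 431) (nat_lit 399) (nat_lit 7567) (.f (nat_lit 529) (nat_lit 561) (nat_lit 4528) (.f (nat_lit 527) (nat_lit 559) (nat_lit 5551) (.f (nat_lit 526) (nat_lit 493) (nat_lit 3565) (.f (nat_lit 558) (nat_lit 557) (nat_lit 1549) (.f (nat_lit 462) (nat_lit 463) (nat_lit 6574) (.d (nat_lit 461) (nat_lit 429) (nat_lit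 7597) (nat_lit 430) (nat_lit 1453))))))))))))) (.a s23266 (.a (.p (nat_lit 560) (.a (.f (nat_lit 465) (nat_lit 433) (nat_lit 6576) (.f (nat_lit 463) (nat_lit 431) (nat_lit 7599) (.f (nat_lit 462) (nat_lit 493) (nat_lit 1485) (.d (nat_lit 497) (nat_lit 461) (nat_lit 461) (nat_lit 592) (nat_lit 6608))))) (.a (.f (nat_lit 433) (nat_lit 465) (nat_lit 6576) (.f (nat_lit 432) (nat_lit 401) (nat_lit 6544) (.d (nat_lit 431) (nat_lit 399) (nat_lit 7567) (nat_lit 463) (nat_lit 7599)))) (.a (.f (nat_lit 433) (nat_lit 465) (nat_lit 6576) (.f (nat_lit 432) (nat_lit 401) (nat_lit 6544) (.d (nat_lit 561) (nat_lit 529) (nat_lit 4528) (nat_lit 593) (nat_lit 4560)))) (.f (nat_lit 561) (nat_lit 593) (nat_lit 4560) (.f (nat_lit 432) (nat_lit 529) (nat_lit 4528) (.d (nat_lit 431) (nat_lit 399) (nat_lit 7567) (nat_lit 463) (nat_lit 7599)))))))) (.a (.p (nat_lit 463) (.a (.f (nat_lit 560) (nat_lit 431) (nat_lit 7599) (.f (nat_lit 465) (nat_lit 433) (nat_lit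 6576) (.f (nat_lit 462) (nat_lit 493) (nat_lit 1485) (.d (nat_lit 497) (nat_lit 461) (nat_lit 461) (nat_lit 592) (nat_lit 6608))))) (.a (.p (nat_lit 462) (.a (.f (nat_lit 461) (nat_lit 497) (nat_lit 461) (.d (nat_lit 493) (nat_lit 465) (nat_lit 1485) (nat_lit 492) (nat_lit 1484))) (.a (.f (nat_lit 465) (nat_lit 493) (nat_lit 1485) (.f (nat_lit 430) (nat_lit 429) (nat_lit 3501) (.f (nat_lit 431) (nat_lit 466) (nat_lit 3502) (.d (nat_lit 399) (nat_lit 367) (nat_lit 5486) (nat_lit 526) (nat_lit 6542))))) (.a (.f (nat_lit 461) (nat_lit 497) (nat_lit 461) (.f (nat_lit 429) (nat_lit 428) (nat_lit 3500) (.f (nat_lit 430) (nat_lit 465) (nat_lit 3501) (.d (nat_lit 397) (nat_lit 365) (nat_lit 4461) (nat_lit 526) (nat_lit 7565))))) (.f (nat_lit 461) (nat_lit 497) (nat_lit 461) (.f (nat_lit 429) (nat_lit 428) (nat_lit 3500) (.f (nat_lit 493) (nat_lit 492) (nat_lit 1484) (.d (nat_lit 397) (nat_lit 365) (nat_lit 4461) (nat_lit 526) (nat_lit 4493)))))))))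 (.a (.f (nat_lit 560) (nat_lit 431) (nat_lit 7599) (.f (nat_lit 465) (nat_lit 433) (nat_lit 6576) (.f (nat_lit 462) (nat_lit 493) (nat_lit 1485) (.f (nat_lit 429) (nat_lit 430) (nat_lit 3501) (.f (nat_lit 461) (nat_lit 428) (nat_lit 3500) (.f (nat_lit 561) (nat_lit 593) (nat_lit 4560) (.f (nat_lit 526) (nat_lit 558) (nat_lit 7597) (.f (nat_lit 527) (nat_lit 525) (nat_lit 525) (.d (nat_lit 562) (nat_lit 529) (nat_lit 526) (nat_lit 559) (nat_lit 3598)))))))))) (.a (.f (nat_lit 560) (nat_lit 431) (nat_lit 7599) (.f (nat_lit 465) (nat_lit 433) (nat_lit 6576) (.f (nat_lit 592) (nat_lit 497) (nat_lit 6608) (.d (nat_lit 593) (nat_lit 561) (nat_lit 4560) (nat_lit 625) (nat_lit 4592))))) (.a (.p (nat_lit 462) (.a (.f (nat_lit 461) (nat_lit 497) (nat_lit 461) (.d (nat_lit 493) (nat_lit 465) (nat_lit 1485) (nat_lit 492) (nat_lit 1484))) (.a (.f (nat_lit 493) (nat_lit 465) (nat_lit 1485) (.d (nat_lit 492) (nat_lit 461) (nat_lit 1484) (nat_lit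 491) (nat_lit 2507))) (.a (.f (nat_lit 461) (nat_lit 497) (nat_lit 461) (.f (nat_lit 429) (nat_lit 428) (nat_lit 3500) (.f (nat_lit 430) (nat_lit 465) (nat_lit 3501) (.d (nat_lit 397) (nat_lit 365) (nat_lit 4461) (nat_lit 526) (nat_lit 7565))))) (.a (.f (nat_lit 465) (nat_lit 493) (nat_lit 1485) (.f (nat_lit 433) (nat_lit 434) (nat_lit 2478) (.d (nat_lit 401) (nat_lit 369) (nat_lit 5488) (nat_lit 497) (nat_lit 5520)))) (.f (nat_lit 461) (nat_lit 497) (nat_lit 461) (.f (nat_lit 429) (nat_lit 428) (nat_lit 3500) (.f (nat_lit 493) (nat_lit 492) (nat_lit 1484) (.d (nat_lit 397) (nat_lit 365) (nat_lit 4461) (nat_lit 526) (nat_lit 4493)))))))))) (.p (nat_lit 462) (.a (.f (nat_lit 461) (nat_lit 497) (nat_lit 461) (.f (nat_lit 429) (nat_lit 428) (nat_lit 3500) (.f (nat_lit 493) (nat_lit 492) (nat_lit 1484) (.d (nat_lit 397) (nat_lit 365) (nat_lit 4461) (nat_lit 526) (nat_lit 4493))))) (.a (.f (nat_lit 461) (nat_lit 497) (nat_lit 461) (.f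 (nat_lit 493) (nat_lit 492) (nat_lit 1484) (.f (nat_lit 429) (nat_lit 428) (nat_lit 3500) (.f (nat_lit 397) (nat_lit 365) (nat_lit 4461) (.f (nat_lit 398) (nat_lit 366) (nat_lit 6509) (.f (nat_lit 525) (nat_lit 430) (nat_lit 5517) (.f (nat_lit 557) (nat_lit 589) (nat_lit 6605) (.d (nat_lit 556) (nat_lit 524) (nat_lit 5548) (nat_lit 588) (nat_lit 5580))))))))) (.f (nat_lit 431) (nat_lit 560) (nat_lit 7599) (.f (nat_lit 399) (nat_lit 367) (nat_lit 4463) (.d (nat_lit 526) (nat_lit 430) (nat_lit 6542) (nat_lit 558) (nat_lit 6574))))))))))))) (.a (.p (nat_lit 560) (.a (.f (nat_lit 433) (nat_lit 465) (nat_lit 6576) (.f (nat_lit 432) (nat_lit 401) (nat_lit 6544) (.d (nat_lit 431) (nat_lit 399) (nat_lit 7567) (nat_lit 463) (nat_lit 7599)))) (.a (.f (nat_lit 561) (nat_lit 593) (nat_lit 4560) (.f (nat_lit 463) (nat_lit 431) (nat_lit 7599) (.f (nat_lit 465) (nat_lit 433) (nat_lit 6576) (.f (nat_lit 462) (nat_lit 493) (nat_lit 1485) (.f (nat_lit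 429) (nat_lit 430) (nat_lit 3501) (.f (nat_lit 461) (nat_lit 428) (nat_lit 3500) (.f (nat_lit 526) (nat_lit 558) (nat_lit 7597) (.f (nat_lit 527) (nat_lit 525) (nat_lit 525) (.d (nat_lit 562) (nat_lit 529) (nat_lit 526) (nat_lit 559) (nat_lit 3598)))))))))) (.a (.f (nat_lit 433) (nat_lit 465) (nat_lit 6576) (.f (nat_lit 432) (nat_lit 401) (nat_lit 6544) (.d (nat_lit 561) (nat_lit 529) (nat_lit 4528) (nat_lit 593) (nat_lit 4560)))) (.f (nat_lit 561) (nat_lit 593) (nat_lit 4560) (.f (nat_lit 432) (nat_lit 529) (nat_lit 4528) (.d (nat_lit 431) (nat_lit 399) (nat_lit 7567) (nat_lit 463) (nat_lit 7599)))))))) (.a (.p (nat_lit 560) (.a (.f (nat_lit 433) (nat_lit 465) (nat_lit 6576) (.f (nat_lit 432) (nat_lit 401) (nat_lit 6544) (.d (nat_lit 431) (nat_lit 399) (nat_lit 7567) (nat_lit 463) (nat_lit 7599)))) (.a (.f (nat_lit 465) (nat_lit 433) (nat_lit 6576) (.f (nat_lit 592) (nat_lit 497) (nat_lit 6608) (.d (nat_lit 593) (nat_lit 561) (nat_lit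 4560) (nat_lit 625) (nat_lit 4592)))) (.f (nat_lit 561) (nat_lit 593) (nat_lit 4560) (.f (nat_lit 432) (nat_lit 529) (nat_lit 4528) (.d (nat_lit 431) (nat_lit 399) (nat_lit 7567) (nat_lit 463) (nat_lit 7599))))))) (.a s23215 (.a (.p (nat_lit 527) (.a (.f (nat_lit 432) (nat_lit 559) (nat_lit 5551) (.f (nat_lit 529) (nat_lit 561) (nat_lit 4528) (.f (nat_lit 400) (nat_lit 497) (nat_lit 4496) (.d (nat_lit 401) (nat_lit 369) (nat_lit 6512) (nat_lit 433) (nat_lit 6544))))) (.a (.p (nat_lit 560) (.a (.f (nat_lit 465) (nat_lit 433) (nat_lit 6576) (.f (nat_lit 592) (nat_lit 497) (nat_lit 6608) (.d (nat_lit 593) (nat_lit 561) (nat_lit 4560) (nat_lit 625) (nat_lit 4592)))) (.a (.f (nat_lit 561) (nat_lit 593) (nat_lit 4560) (.f (nat_lit 526) (nat_lit 525) (nat_lit 525) (.d (nat_lit 562) (nat_lit 559) (nat_lit 3598) (nat_lit 563) (nat_lit 3599)))) (.f (nat_lit 465) (nat_lit 433) (nat_lit 6576) (.f (nat_lit 497) (nat_lit 592) (nat_lit 6608) (.f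 (nat_lit 526) (nat_lit 525) (nat_lit 2541) (.f (nat_lit 559) (nat_lit 432) (nat_lit 5551) (.f (nat_lit 462) (nat_lit 430) (nat_lit 4526) (.d (nat_lit 463) (nat_lit 461) (nat_lit 461) (nat_lit 493) (nat_lit 1485)))))))))) (.a (.p (nat_lit 526) (.a (.f (nat_lit 525) (nat_lit 497) (nat_lit 2541) (.f (nat_lit 493) (nat_lit 492) (nat_lit 3564) (.f (nat_lit 557) (nat_lit 556) (nat_lit 1548) (.d (nat_lit 462) (nat_lit 430) (nat_lit 5549) (nat_lit 589) (nat_lit 6605))))) (.a (.f (nat_lit 529) (nat_lit 493) (nat_lit 3565) (.f (nat_lit 561) (nat_lit 562) (nat_lit 526) (.d (nat_lit 593) (nat_lit 497) (nat_lit 7632) (nat_lit 625) (nat_lit 7664)))) (.a (.f (nat_lit 493) (nat_lit 529) (nat_lit 3565) (.d (nat_lit 492) (nat_lit 491) (nat_lit 491) (nat_lit 525) (nat_lit 3564))) (.f (nat_lit 525) (nat_lit 497) (nat_lit 2541) (.f (nat_lit 557) (nat_lit 556) (nat_lit 1548) (.f (nat_lit 589) (nat_lit 621) (nat_lit 6637) (.d (nat_lit 462) (nat_lit 430)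 (nat_lit 5549) (nat_lit 558) (nat_lit 5581))))))))) (.a (.f (nat_lit 432) (nat_lit 559) (nat_lit 5551) (.f (nat_lit 401) (nat_lit 433) (nat_lit 6544) (.f (nat_lit 400) (nat_lit 369) (nat_lit 6512) (.f (nat_lit 497) (nat_lit 529) (nat_lit 4496) (.f (nat_lit 367) (nat_lit 399) (nat_lit 7535) (.d (nat_lit 368) (nat_lit 335) (nat_lit 7503) (nat_lit 465) (nat_lit 4464))))))) (.f (nat_lit 432) (nat_lit 559) (nat_lit 5551) (.f (nat_lit 433) (nat_lit 401) (nat_lit 6544) (.f (nat_lit 529) (nat_lit 561) (nat_lit 4528) (.f (nat_lit 526) (nat_lit 493) (nat_lit 3565) (.f (nat_lit 557) (nat_lit 558) (nat_lit 1549) (.f (nat_lit 525) (nat_lit 556) (nat_lit 1548) (.f (nat_lit 462) (nat_lit 430) (nat_lit 5549) (.f (nat_lit 463) (nat_lit 461) (nat_lit 2477) (.d (nat_lit 434) (nat_lit 435) (nat_lit 1455) (nat_lit 465) (nat_lit 2478))))))))))))))) (.a (.p (nat_lit 560) (.a (.f (nat_lit 561) (nat_lit 593) (nat_lit 4560) (.f (nat_lit 432) (nat_lit 529)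 (nat_lit 4528) (.d (nat_lit 431) (nat_lit 399) (nat_lit 7567) (nat_lit 463) (nat_lit 7599)))) (.a (.p (nat_lit 526) (.a (.f (nat_lit 463) (nat_lit 431) (nat_lit 7599) (.f (nat_lit 593) (nat_lit 561) (nat_lit 4560) (.f (nat_lit 592) (nat_lit 625) (nat_lit 4592) (.f (nat_lit 497) (nat_lit 465) (nat_lit 6608) (.f (nat_lit 462) (nat_lit 461) (nat_lit 461) (.f (nat_lit 525) (nat_lit 527) (nat_lit 2541) (.f (nat_lit 557) (nat_lit 430) (nat_lit 5549) (.d (nat_lit 589) (nat_lit 493) (nat_lit 6605) (nat_lit 558) (nat_lit 5581))))))))) (.a (.f (nat_lit 463) (nat_lit 431) (nat_lit 7599) (.f (nat_lit 593) (nat_lit 561) (nat_lit 4560) (.f (nat_lit 592) (nat_lit 625) (nat_lit 4592) (.f (nat_lit 465) (nat_lit 497) (nat_lit 6608) (.f (nat_lit 462) (nat_lit 493) (nat_lit 1485) (.f (nat_lit 429) (nat_lit 430) (nat_lit 3501) (.d (nat_lit 461) (nat_lit 428) (nat_lit 3500) (nat_lit 558) (nat_lit 7597)))))))) (.a (.f (nat_lit 561) (nat_lit 593) (nat_lit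 4560) (.f (nat_lit 527) (nat_lit 525) (nat_lit 525) (.d (nat_lit 562) (nat_lit 559) (nat_lit 3598) (nat_lit 563) (nat_lit 3599)))) (.f (nat_lit 431) (nat_lit 463) (nat_lit 7599) (.f (nat_lit 432) (nat_lit 399) (nat_lit 7567) (.f (nat_lit 527) (nat_lit 559) (nat_lit 5551) (.f (nat_lit 525) (nat_lit 497) (nat_lit 2541) (.f (nat_lit 493) (nat_lit 492) (nat_lit 3564) (.f (nat_lit 557) (nat_lit 556) (nat_lit 1548) (.d (nat_lit 462) (nat_lit 430) (nat_lit 5549) (nat_lit 589) (nat_lit 6605)))))))))))) (.a s23547 (.a (.p (nat_lit 497) (.a (.f (nat_lit 592) (nat_lit 465) (nat_lit 6608) (.f (nat_lit 624) (nat_lit 529) (nat_lit 6640) (.d (nat_lit 625) (nat_lit 593) (nat_lit 4592) (nat_lit 657) (nat_lit 4624)))) (.a (.f (nat_lit 463) (nat_lit 431) (nat_lit 7599) (.f (nat_lit 462) (nat_lit 461) (nat_lit 461) (.d (nat_lit 465) (nat_lit 493) (nat_lit 1485) (nat_lit 592) (nat_lit 6608)))) (.a (.f (nat_lit 431) (nat_lit 463) (nat_lit 7599) (.f (nat_lit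 432) (nat_lit 399) (nat_lit 7567) (.f (nat_lit 400) (nat_lit 529) (nat_lit 4496) (.f (nat_lit 368) (nat_lit 465) (nat_lit 4464) (.d (nat_lit 369) (nat_lit 337) (nat_lit 6480) (nat_lit 401) (nat_lit 6512)))))) (.f (nat_lit 431) (nat_lit 463) (nat_lit 7599) (.f (nat_lit 432) (nat_lit 399) (nat_lit 7567) (.f (nat_lit 529) (nat_lit 400) (nat_lit 4496) (.f (nat_lit 527) (nat_lit 559) (nat_lit 5551) (.d (nat_lit 526) (nat_lit 493) (nat_lit 3565) (nat_lit 525) (nat_lit 2541)))))))))) (.a (.f (nat_lit 593) (nat_lit 561) (nat_lit 4560) (.f (nat_lit 592) (nat_lit 625) (nat_lit 4592) (.f (nat_lit 497) (nat_lit 465) (nat_lit 6608) (.f (nat_lit 529) (nat_lit 624) (nat_lit 6640) (.f (nat_lit 432) (nat_lit 400) (nat_lit 4496) (.f (nat_lit 527) (nat_lit 559) (nat_lit 5551) (.d (nat_lit 526) (nat_lit 493) (nat_lit 3565) (nat_lit 525) (nat_lit 2541)))))))) (.f (nat_lit 431) (nat_lit 463) (nat_lit 7599) (.f (nat_lit 432) (nat_lit 399) (nat_lit 7567)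 (.f (nat_lit 529) (nat_lit 561) (nat_lit 4528) (.f (nat_lit 497) (nat_lit 400) (nat_lit 4496) (.d (nat_lit 592) (nat_lit 465) (nat_lit 6608) (nat_lit 624) (nat_lit 6640)))))))))))) (.a (.p (nat_lit 560) (.a (.f (nat_lit 465) (nat_lit 433) (nat_lit 6576) (.f (nat_lit 463) (nat_lit 431) (nat_lit 7599) (.f (nat_lit 462) (nat_lit 493) (nat_lit 1485) (.d (nat_lit 497) (nat_lit 461) (nat_lit 461) (nat_lit 592) (nat_lit 6608))))) (.a (.f (nat_lit 463) (nat_lit 431) (nat_lit 7599) (.f (nat_lit 465) (nat_lit 433) (nat_lit 6576) (.f (nat_lit 462) (nat_lit 493) (nat_lit 1485) (.f (nat_lit 429) (nat_lit 430) (nat_lit 3501) (.d (nat_lit 461) (nat_lit 428) (nat_lit 3500) (nat_lit 497) (nat_lit 461)))))) (.a (.f (nat_lit 433) (nat_lit 465) (nat_lit 6576) (.f (nat_lit 432) (nat_lit 401) (nat_lit 6544) (.d (nat_lit 561) (nat_lit 529) (nat_lit 4528) (nat_lit 593) (nat_lit 4560)))) (.a s23547 (.p (nat_lit 527) (.a (.f (nat_lit 561) (nat_lit 593) (nat_lit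 4560) (.f (nat_lit 526) (nat_lit 525) (nat_lit 525) (.d (nat_lit 529) (nat_lit 493) (nat_lit 3565) (nat_lit 562) (nat_lit 526)))) (.a (.f (nat_lit 561) (nat_lit 593) (nat_lit 4560) (.f (nat_lit 526) (nat_lit 525) (nat_lit 525) (.d (nat_lit 562) (nat_lit 559) (nat_lit 3598) (nat_lit 563) (nat_lit 3599)))) (.a (.f (nat_lit 561) (nat_lit 593) (nat_lit 4560) (.d (nat_lit 432) (nat_lit 529) (nat_lit 4528) (nat_lit 559) (nat_lit 5551))) (.f (nat_lit 432) (nat_lit 559) (nat_lit 5551) (.f (nat_lit 401) (nat_lit 433) (nat_lit 6544) (.f (nat_lit 400) (nat_lit 369) (nat_lit 6512) (.f (nat_lit 431) (nat_lit 463) (nat_lit 7599) (.f (nat_lit 529) (nat_lit 497) (nat_lit 4496) (.f (nat_lit 526) (nat_lit 493) (nat_lit 3565) (.f (nat_lit 557) (nat_lit 558) (nat_lit 1549) (.f (nat_lit 525) (nat_lit 556) (nat_lit 1548) (.d (nat_lit 430) (nat_lit 429) (nat_lit 2445) (nat_lit 462) (nat_lit 5549))))))))))))))))))) (.p (nat_lit 560) (.a (.f (nat_lit 465)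 (nat_lit 433) (nat_lit 6576) (.f (nat_lit 463) (nat_lit 431) (nat_lit 7599) (.f (nat_lit 462) (nat_lit 493) (nat_lit 1485) (.d (nat_lit 497) (nat_lit 461) (nat_lit 461) (nat_lit 592) (nat_lit 6608))))) (.a (.f (nat_lit 463) (nat_lit 431) (nat_lit 7599) (.f (nat_lit 465) (nat_lit 433) (nat_lit 6576) (.f (nat_lit 462) (nat_lit 493) (nat_lit 1485) (.f (nat_lit 429) (nat_lit 430) (nat_lit 3501) (.d (nat_lit 461) (nat_lit 428) (nat_lit 3500) (nat_lit 497) (nat_lit 461)))))) (.a (.f (nat_lit 561) (nat_lit 593) (nat_lit 4560) (.f (nat_lit 432) (nat_lit 529) (nat_lit 4528) (.d (nat_lit 431) (nat_lit 399) (nat_lit 7567) (nat_lit 463) (nat_lit 7599)))) (.f (nat_lit 465) (nat_lit 433) (nat_lit 6576) (.f (nat_lit 592) (nat_lit 497) (nat_lit 6608) (.d (nat_lit 593) (nat_lit 561) (nat_lit 4560) (nat_lit 625) (nat_lit 4592))))))))))))))))))) (.a (.p (nat_lit 526) (.a s23595 (.a s22832 (.a s23604 (.a (.p (nat_lit 527) (.a (.f (nat_lit 525) (nat_lit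 497) (nat_lit 2541) (.d (nat_lit 493) (nat_lit 492) (nat_lit 3564) (nat_lit 529) (nat_lit 3565))) (.a (.f (nat_lit 525) (nat_lit 497) (nat_lit 2541) (.f (nat_lit 493) (nat_lit 492) (nat_lit 3564) (.f (nat_lit 557) (nat_lit 556) (nat_lit 1548) (.d (nat_lit 462) (nat_lit 430) (nat_lit 5549) (nat_lit 589) (nat_lit 6605))))) (.a (.f (nat_lit 529) (nat_lit 493) (nat_lit 3565) (.f (nat_lit 558) (nat_lit 557) (nat_lit 1549) (.f (nat_lit 530) (nat_lit 559) (nat_lit 1550) (.d (nat_lit 562) (nat_lit 561) (nat_lit 526) (nat_lit 563) (nat_lit 527))))) (.f (nat_lit 525) (nat_lit 497) (nat_lit 2541) (.f (nat_lit 557) (nat_lit 556) (nat_lit 1548) (.f (nat_lit 558) (nat_lit 529) (nat_lit 1549) (.d (nat_lit 462) (nat_lit 430) (nat_lit 5549) (nat_lit 589) (nat_lit 5581))))))))) (.a (.p (nat_lit 558) (.a s19098 (.a s21569 (.a (.p (nat_lit 462) (.a (.f (nat_lit 429) (nat_lit 461) (nat_lit 7597) (.f (nat_lit 430) (nat_lit 397) (nat_lit 7565) (.d (nat_lit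 431) (nat_lit 399) (nat_lit 6542) (nat_lit 463) (nat_lit 6574)))) (.a (.f (nat_lit 461) (nat_lit 429) (nat_lit 7597) (.f (nat_lit 590) (nat_lit 493) (nat_lit 7629) (.d (nat_lit 589) (nat_lit 557) (nat_lit 5581) (nat_lit 621) (nat_lit 5613)))) (.f (nat_lit 557) (nat_lit 589) (nat_lit 5581) (.f (nat_lit 527) (nat_lit 529) (nat_lit 1549) (.d (nat_lit 556) (nat_lit 555) (nat_lit 2571) (nat_lit 559) (nat_lit 2572))))))) (.a (.p (nat_lit 462) (.a (.f (nat_lit 461) (nat_lit 429) (nat_lit 7597) (.f (nat_lit 495) (nat_lit 497) (nat_lit 3533) (.d (nat_lit 460) (nat_lit 459) (nat_lit 459) (nat_lit 463) (nat_lit 460)))) (.a (.f (nat_lit 429) (nat_lit 461) (nat_lit 7597) (.f (nat_lit 430) (nat_lit 397) (nat_lit 7565) (.d (nat_lit 431) (nat_lit 399) (nat_lit 6542) (nat_lit 463) (nat_lit 6574)))) (.f (nat_lit 557) (nat_lit 589) (nat_lit 5581) (.f (nat_lit 527) (nat_lit 529) (nat_lit 1549) (.d (nat_lit 556) (nat_lit 555) (nat_lit 2571) (nat_lit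 559) (nat_lit 2572))))))) (.a (.p (nat_lit 462) (.a (.f (nat_lit 461) (nat_lit 429) (nat_lit 7597) (.f (nat_lit 493) (nat_lit 590) (nat_lit 7629) (.d (nat_lit 495) (nat_lit 460) (nat_lit 3532) (nat_lit 497) (nat_lit 3533)))) (.a (.f (nat_lit 461) (nat_lit 429) (nat_lit 7597) (.f (nat_lit 590) (nat_lit 493) (nat_lit 7629) (.d (nat_lit 589) (nat_lit 557) (nat_lit 5581) (nat_lit 621) (nat_lit 5613)))) (.f (nat_lit 557) (nat_lit 589) (nat_lit 5581) (.f (nat_lit 527) (nat_lit 529) (nat_lit 1549) (.d (nat_lit 556) (nat_lit 555) (nat_lit 2571) (nat_lit 559) (nat_lit 2572))))))) (.a s22562 (.p (nat_lit 462) (.a (.f (nat_lit 463) (nat_lit 431) (nat_lit 6574) (.f (nat_lit 495) (nat_lit 590) (nat_lit 6606) (.f (nat_lit 529) (nat_lit 493) (nat_lit 493) (.d (nat_lit 530) (nat_lit 497) (nat_lit 494) (nat_lit 531) (nat_lit 3567))))) (.a (.f (nat_lit 463) (nat_lit 431) (nat_lit 6574) (.f (nat_lit 590) (nat_lit 495) (nat_lit 6606) (.d (nat_lit 589)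 (nat_lit 557) (nat_lit 5581) (nat_lit 621) (nat_lit 5613)))) (.f (nat_lit 557) (nat_lit 589) (nat_lit 5581) (.f (nat_lit 527) (nat_lit 529) (nat_lit 1549) (.d (nat_lit 556) (nat_lit 555) (nat_lit 2571) (nat_lit 559) (nat_lit 2572)))))))))))))) (.a s22921 (.a s23610 (.p (nat_lit 558) (.a (.p (nat_lit 462) (.a (.f (nat_lit 461) (nat_lit 429) (nat_lit 7597) (.f (nat_lit 495) (nat_lit 497) (nat_lit 3533) (.d (nat_lit 460) (nat_lit 459) (nat_lit 459) (nat_lit 463) (nat_lit 460)))) (.a (.f (nat_lit 557) (nat_lit 589) (nat_lit 5581) (.f (nat_lit 525) (nat_lit 430) (nat_lit 5549) (.d (nat_lit 527) (nat_lit 497) (nat_lit 2541) (nat_lit 556) (nat_lit 1548)))) (.f (nat_lit 463) (nat_lit 431) (nat_lit 6574) (.f (nat_lit 495) (nat_lit 590) (nat_lit 6606) (.d (nat_lit 461) (nat_lit 429) (nat_lit 7597) (nat_lit 460) (nat_lit 460))))))) (.a s21891 (.a (.p (nat_lit 462) (.a (.f (nat_lit 557) (nat_lit 589) (nat_lit 5581) (.f (nat_lit 525) (nat_lit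 430) (nat_lit 5549) (.d (nat_lit 527) (nat_lit 497) (nat_lit 2541) (nat_lit 556) (nat_lit 1548)))) (.a (.f (nat_lit 429) (nat_lit 461) (nat_lit 7597) (.f (nat_lit 430) (nat_lit 397) (nat_lit 7565) (.d (nat_lit 431) (nat_lit 399) (nat_lit 6542) (nat_lit 463) (nat_lit 6574)))) (.f (nat_lit 557) (nat_lit 589) (nat_lit 5581) (.f (nat_lit 527) (nat_lit 529) (nat_lit 1549) (.d (nat_lit 556) (nat_lit 525) (nat_lit 1548) (nat_lit 555) (nat_lit 2571))))))) (.a (.p (nat_lit 462) (.a (.f (nat_lit 461) (nat_lit 429) (nat_lit 7597) (.f (nat_lit 495) (nat_lit 497) (nat_lit 3533) (.d (nat_lit 460) (nat_lit 459) (nat_lit 459) (nat_lit 463) (nat_lit 460)))) (.a (.f (nat_lit 429) (nat_lit 461) (nat_lit 7597) (.f (nat_lit 430) (nat_lit 397) (nat_lit 7565) (.d (nat_lit 431) (nat_lit 399) (nat_lit 6542) (nat_lit 463) (nat_lit 6574)))) (.f (nat_lit 557) (nat_lit 589) (nat_lit 5581) (.f (nat_lit 527) (nat_lit 529) (nat_lit 1549) (.d (nat_lit 556) (nat_lit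 555) (nat_lit 2571) (nat_lit 559) (nat_lit 2572))))))) (.a s23612 (.a s22701 (.a (.p (nat_lit 527) (.a (.f (nat_lit 525) (nat_lit 497) (nat_lit 2541) (.f (nat_lit 495) (nat_lit 524) (nat_lit 2540) (.d (nat_lit 463) (nat_lit 431) (nat_lit 5550) (nat_lit 590) (nat_lit 6606)))) (.a (.f (nat_lit 525) (nat_lit 497) (nat_lit 2541) (.f (nat_lit 556) (nat_lit 557) (nat_lit 1548) (.f (nat_lit 524) (nat_lit 555) (nat_lit 1547) (.f (nat_lit 491) (nat_lit 492) (nat_lit 3563) (.d (nat_lit 523) (nat_lit 490) (nat_lit 3562) (nat_lit 559) (nat_lit 523)))))) (.f (nat_lit 529) (nat_lit 557) (nat_lit 1549) (.d (nat_lit 530) (nat_lit 495) (nat_lit 3566) (nat_lit 559) (nat_lit 1550)))))) (.p (nat_lit 462) (.a (.f (nat_lit 461) (nat_lit 429) (nat_lit 7597) (.f (nat_lit 495) (nat_lit 497) (nat_lit 3533) (.d (nat_lit 460) (nat_lit 459) (nat_lit 459) (nat_lit 463) (nat_lit 460)))) (.a (.f (nat_lit 557) (nat_lit 589) (nat_lit 5581) (.f (nat_lit 525) (nat_lit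 430) (nat_lit 5549) (.d (nat_lit 527) (nat_lit 497) (nat_lit 2541) (nat_lit 556) (nat_lit 1548)))) (.f (nat_lit 557) (nat_lit 589) (nat_lit 5581) (.f (nat_lit 527) (nat_lit 529) (nat_lit 1549) (.d (nat_lit 430) (nat_lit 525) (nat_lit 5549) (nat_lit 559) (nat_lit 4526))))))))))))))))))))))) (.a (.p (nat_lit 560) (.a s23394 (.a (.p (nat_lit 464) (.a (.f (nat_lit 465) (nat_lit 433) (nat_lit 6576) (.f (nat_lit 495) (nat_lit 493) (nat_lit 2509) (.d (nat_lit 463) (nat_lit 431) (nat_lit 7599) (nat_lit 466) (nat_lit 1486)))) (.a (.f (nat_lit 465) (nat_lit 433) (nat_lit 6576) (.f (nat_lit 463) (nat_lit 431) (nat_lit 7599) (.f (nat_lit 462) (nat_lit 493) (nat_lit 1485) (.d (nat_lit 497) (nat_lit 461) (nat_lit 461) (nat_lit 592) (nat_lit 6608))))) (.a (.f (nat_lit 463) (nat_lit 431) (nat_lit 7599) (.f (nat_lit 495) (nat_lit 592) (nat_lit 7631) (.d (nat_lit 465) (nat_lit 433) (nat_lit 6576) (nat_lit 466) (nat_lit 1486)))) (.a (.f (nat_lit 465)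 (nat_lit 433) (nat_lit 6576) (.f (nat_lit 495) (nat_lit 493) (nat_lit 2509) (.d (nat_lit 466) (nat_lit 467) (nat_lit 1487) (nat_lit 497) (nat_lit 2510)))) (.a (.f (nat_lit 463) (nat_lit 431) (nat_lit 7599) (.f (nat_lit 495) (nat_lit 592) (nat_lit 7631) (.d (nat_lit 465) (nat_lit 466) (nat_lit 1486) (nat_lit 493) (nat_lit 2509)))) (.f (nat_lit 463) (nat_lit 431) (nat_lit 7599) (.f (nat_lit 592) (nat_lit 495) (nat_lit 7631) (.d (nat_lit 593) (nat_lit 561) (nat_lit 4560) (nat_lit 625) (nat_lit 4592)))))))))) (.a (.p (nat_lit 592) (.a (.f (nat_lit 495) (nat_lit 463) (nat_lit 7631) (.f (nat_lit 529) (nat_lit 493) (nat_lit 493) (.d (nat_lit 497) (nat_lit 465) (nat_lit 6608) (nat_lit 530) (nat_lit 494)))) (.a (.f (nat_lit 495) (nat_lit 463) (nat_lit 7631) (.f (nat_lit 624) (nat_lit 527) (nat_lit 7663) (.d (nat_lit 625) (nat_lit 593) (nat_lit 4592) (nat_lit 657) (nat_lit 4624)))) (.f (nat_lit 497) (nat_lit 465) (nat_lit 6608) (.f (nat_lit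 624) (nat_lit 529) (nat_lit 6640) (.d (nat_lit 625) (nat_lit 593) (nat_lit 4592) (nat_lit 657) (nat_lit 4624))))))) (.a s23409 (.a s23410 (.a s23411 (.a (.p (nat_lit 464) (.a (.f (nat_lit 465) (nat_lit 433) (nat_lit 6576) (.f (nat_lit 495) (nat_lit 493) (nat_lit 2509) (.d (nat_lit 466) (nat_lit 467) (nat_lit 1487) (nat_lit 497) (nat_lit 2510)))) (.a (.f (nat_lit 433) (nat_lit 465) (nat_lit 6576) (.f (nat_lit 432) (nat_lit 401) (nat_lit 6544) (.d (nat_lit 561) (nat_lit 529) (nat_lit 4528) (nat_lit 593) (nat_lit 4560)))) (.f (nat_lit 561) (nat_lit 593) (nat_lit 4560) (.f (nat_lit 529) (nat_lit 432) (nat_lit 4528) (.f (nat_lit 495) (nat_lit 493) (nat_lit 493) (.d (nat_lit 530) (nat_lit 497) (nat_lit 494) (nat_lit 531) (nat_lit 3567)))))))) (.a (.p (nat_lit 464) (.a (.f (nat_lit 465) (nat_lit 433) (nat_lit 6576) (.f (nat_lit 495) (nat_lit 493) (nat_lit 2509) (.d (nat_lit 463) (nat_lit 431) (nat_lit 7599) (nat_lit 466) (nat_lit 1486))))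 (.a (.f (nat_lit 465) (nat_lit 433) (nat_lit 6576) (.f (nat_lit 463) (nat_lit 431) (nat_lit 7599) (.f (nat_lit 462) (nat_lit 493) (nat_lit 1485) (.d (nat_lit 497) (nat_lit 461) (nat_lit 461) (nat_lit 592) (nat_lit 6608))))) (.a (.f (nat_lit 463) (nat_lit 431) (nat_lit 7599) (.f (nat_lit 495) (nat_lit 592) (nat_lit 7631) (.d (nat_lit 465) (nat_lit 433) (nat_lit 6576) (nat_lit 466) (nat_lit 1486)))) (.a (.f (nat_lit 465) (nat_lit 433) (nat_lit 6576) (.f (nat_lit 495) (nat_lit 493) (nat_lit 2509) (.d (nat_lit 466) (nat_lit 467) (nat_lit 1487) (nat_lit 497) (nat_lit 2510)))) (.a (.f (nat_lit 463) (nat_lit 431) (nat_lit 7599) (.f (nat_lit 495) (nat_lit 592) (nat_lit 7631) (.d (nat_lit 465) (nat_lit 466) (nat_lit 1486) (nat_lit 493) (nat_lit 2509)))) (.f (nat_lit 463) (nat_lit 431) (nat_lit 7599) (.f (nat_lit 495) (nat_lit 592) (nat_lit 7631) (.d (nat_lit 493) (nat_lit 492) (nat_lit 2508) (nat_lit 529) (nat_lit 493)))))))))) s23635)))))))))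 (.a (.p (nat_lit 465) (.a (.p (nat_lit 495) (.a (.f (nat_lit 464) (nat_lit 493) (nat_lit 2509) (.d (nat_lit 466) (nat_lit 463) (nat_lit 1486) (nat_lit 467) (nat_lit 1487))) (.a (.f (nat_lit 497) (nat_lit 466) (nat_lit 2510) (.f (nat_lit 461) (nat_lit 462) (nat_lit 3533) (.f (nat_lit 493) (nat_lit 460) (nat_lit 3532) (.f (nat_lit 492) (nat_lit 527) (nat_lit 492) (.d (nat_lit 524) (nat_lit 523) (nat_lit 1515) (nat_lit 525) (nat_lit 1516)))))) (.a (.f (nat_lit 466) (nat_lit 497) (nat_lit 2510) (.d (nat_lit 464) (nat_lit 463) (nat_lit 1486) (nat_lit 467) (nat_lit 1487))) (.f (nat_lit 493) (nat_lit 464) (nat_lit 2509) (.f (nat_lit 492) (nat_lit 527) (nat_lit 492) (.d (nat_lit 460) (nat_lit 459) (nat_lit 3531) (nat_lit 461) (nat_lit 3532)))))))) (.a (.p (nat_lit 495) (.a (.d (nat_lit 493) (nat_lit 464) (nat_lit 2509) (nat_lit 529) (nat_lit 493)) (.a (.f (nat_lit 464) (nat_lit 493) (nat_lit 2509) (.d (nat_lit 466) (nat_lit 463) (nat_lit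 1486) (nat_lit 467) (nat_lit 1487))) (.a (.f (nat_lit 497) (nat_lit 466) (nat_lit 2510) (.d (nat_lit 529) (nat_lit 493) (nat_lit 493) (nat_lit 530) (nat_lit 494))) (.f (nat_lit 466) (nat_lit 497) (nat_lit 2510) (.d (nat_lit 464) (nat_lit 463) (nat_lit 1486) (nat_lit 467) (nat_lit 1487))))))) (.a (.p (nat_lit 433) (.a (.f (nat_lit 401) (nat_lit 497) (nat_lit 5520) (.d (nat_lit 464) (nat_lit 369) (nat_lit 5488) (nat_lit 432) (nat_lit 6544))) (.a (.f (nat_lit 497) (nat_lit 401) (nat_lit 5520) (.d (nat_lit 560) (nat_lit 529) (nat_lit 5552) (nat_lit 592) (nat_lit 6608))) (.a (.f (nat_lit 464) (nat_lit 560) (nat_lit 6576) (.d (nat_lit 401) (nat_lit 369) (nat_lit 5488) (nat_lit 432) (nat_lit 6544))) (.f (nat_lit 560) (nat_lit 464) (nat_lit 6576) (.d (nat_lit 497) (nat_lit 529) (nat_lit 5552) (nat_lit 592) (nat_lit 6608))))))) (.a (.p (nat_lit 495) (.a (.f (nat_lit 497) (nat_lit 466) (nat_lit 2510) (.d (nat_lit 529) (nat_lit 493) (nat_lit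 493) (nat_lit 530) (nat_lit 494))) (.a (.f (nat_lit 497) (nat_lit 466) (nat_lit 2510) (.f (nat_lit 461) (nat_lit 462) (nat_lit 3533) (.f (nat_lit 493) (nat_lit 460) (nat_lit 3532) (.d (nat_lit 525) (nat_lit 524) (nat_lit 1516) (nat_lit 526) (nat_lit 1517))))) (.a (.f (nat_lit 493) (nat_lit 529) (nat_lit 493) (.f (nat_lit 460) (nat_lit 461) (nat_lit 3532) (.f (nat_lit 492) (nat_lit 459) (nat_lit 3531) (.d (nat_lit 524) (nat_lit 523) (nat_lit 1515) (nat_lit 525) (nat_lit 1516))))) (.f (nat_lit 497) (nat_lit 466) (nat_lit 2510) (.f (nat_lit 529) (nat_lit 530) (nat_lit 494) (.d (nat_lit 433) (nat_lit 401) (nat_lit 5520) (nat_lit 560) (nat_lit 5552)))))))) (.p (nat_lit 464) (.a (.f (nat_lit 495) (nat_lit 493) (nat_lit 2509) (.d (nat_lit 466) (nat_lit 463) (nat_lit 1486) (nat_lit 467) (nat_lit 1487))) (.f (nat_lit 433) (nat_lit 560) (nat_lit 6576) (.d (nat_lit 401) (nat_lit 369) (nat_lit 5488) (nat_lit 432) (nat_lit 6544)))))))))) (.a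 (.p (nat_lit 526) (.a s23694 (.a (.p (nat_lit 558) (.a s21690 (.a s23695 (.a s22556 (.a s21891 (.a s23706 (.a (.p (nat_lit 462) (.a (.f (nat_lit 463) (nat_lit 431) (nat_lit 6574) (.f (nat_lit 495) (nat_lit 590) (nat_lit 6606) (.d (nat_lit 461) (nat_lit 429) (nat_lit 7597) (nat_lit 460) (nat_lit 460)))) (.a (.f (nat_lit 429) (nat_lit 461) (nat_lit 7597) (.f (nat_lit 430) (nat_lit 397) (nat_lit 7565) (.d (nat_lit 431) (nat_lit 399) (nat_lit 6542) (nat_lit 463) (nat_lit 6574)))) (.a (.f (nat_lit 461) (nat_lit 429) (nat_lit 7597) (.f (nat_lit 493) (nat_lit 590) (nat_lit 7629) (.f (nat_lit 495) (nat_lit 460) (nat_lit 3532) (.f (nat_lit 492) (nat_lit 527) (nat_lit 492) (.d (nat_lit 524) (nat_lit 523) (nat_lit 1515) (nat_lit 525) (nat_lit 1516)))))) (.a (.f (nat_lit 431) (nat_lit 463) (nat_lit 6574) (.f (nat_lit 430) (nat_lit 399) (nat_lit 6542) (.f (nat_lit 527) (nat_lit 559) (nat_lit 4526) (.f (nat_lit 398) (nat_lit 495) (nat_lit 4494)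 (.d (nat_lit 397) (nat_lit 365) (nat_lit 7533) (nat_lit 429) (nat_lit 7565)))))) (.f (nat_lit 463) (nat_lit 431) (nat_lit 6574) (.f (nat_lit 590) (nat_lit 495) (nat_lit 6606) (.f (nat_lit 493) (nat_lit 461) (nat_lit 7629) (.f (nat_lit 525) (nat_lit 622) (nat_lit 7661) (.d (nat_lit 492) (nat_lit 491) (nat_lit 2507) (nat_lit 527) (nat_lit 3564))))))))))) (.a s23726 s23727)))))))) (.a (.p (nat_lit 558) (.a s21690 (.a s23695 (.a s22556 (.a s21891 (.a s23742 (.a s23743 (.a (.p (nat_lit 495) (.a (.f (nat_lit 590) (nat_lit 463) (nat_lit 6606) (.f (nat_lit 493) (nat_lit 461) (nat_lit 7629) (.d (nat_lit 525) (nat_lit 524) (nat_lit 1516) (nat_lit 622) (nat_lit 7661)))) (.a (.f (nat_lit 463) (nat_lit 590) (nat_lit 6606) (.f (nat_lit 431) (nat_lit 399) (nat_lit 4495) (.d (nat_lit 560) (nat_lit 464) (nat_lit 7599) (nat_lit 592) (nat_lit 7631)))) (.f (nat_lit 493) (nat_lit 529) (nat_lit 493) (.f (nat_lit 525) (nat_lit 524) (nat_lit 1516) (.d (nat_lit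 461) (nat_lit 429) (nat_lit 4525) (nat_lit 460) (nat_lit 3532))))))) (.a s23755 (.a s23756 s23757)))))))))) (.a (.p (nat_lit 558) (.a s23695 (.a s21821 (.a (.p (nat_lit 462) (.a (.f (nat_lit 429) (nat_lit 461) (nat_lit 7597) (.f (nat_lit 430) (nat_lit 397) (nat_lit 7565) (.d (nat_lit 431) (nat_lit 399) (nat_lit 6542) (nat_lit 463) (nat_lit 6574)))) (.a (.f (nat_lit 461) (nat_lit 429) (nat_lit 7597) (.f (nat_lit 590) (nat_lit 493) (nat_lit 7629) (.d (nat_lit 589) (nat_lit 557) (nat_lit 5581) (nat_lit 621) (nat_lit 5613)))) (.f (nat_lit 557) (nat_lit 589) (nat_lit 5581) (.f (nat_lit 527) (nat_lit 529) (nat_lit 1549) (.d (nat_lit 556) (nat_lit 555) (nat_lit 2571) (nat_lit 559) (nat_lit 2572))))))) (.a (.p (nat_lit 462) (.a (.f (nat_lit 429) (nat_lit 461) (nat_lit 7597) (.f (nat_lit 430) (nat_lit 397) (nat_lit 7565) (.d (nat_lit 431) (nat_lit 399) (nat_lit 6542) (nat_lit 463) (nat_lit 6574)))) (.a (.f (nat_lit 557) (nat_lit 589) (nat_lit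 5581) (.f (nat_lit 527) (nat_lit 529) (nat_lit 1549) (.d (nat_lit 430) (nat_lit 525) (nat_lit 5549) (nat_lit 559) (nat_lit 4526)))) (.f (nat_lit 557) (nat_lit 589) (nat_lit 5581) (.f (nat_lit 527) (nat_lit 529) (nat_lit 1549) (.d (nat_lit 556) (nat_lit 525) (nat_lit 1548) (nat_lit 555) (nat_lit 2571))))))) (.a s23760 (.a s23761 (.a s23768 s23769)))))))) (.a s23610 (.a (.p (nat_lit 558) (.a s22556 (.a (.p (nat_lit 462) (.a (.f (nat_lit 429) (nat_lit 461) (nat_lit 7597) (.f (nat_lit 430) (nat_lit 397) (nat_lit 7565) (.d (nat_lit 431) (nat_lit 399) (nat_lit 6542) (nat_lit 463) (nat_lit 6574)))) (.a (.f (nat_lit 461) (nat_lit 429) (nat_lit 7597) (.f (nat_lit 590) (nat_lit 493) (nat_lit 7629) (.d (nat_lit 589) (nat_lit 557) (nat_lit 5581) (nat_lit 621) (nat_lit 5613)))) (.f (nat_lit 557) (nat_lit 589) (nat_lit 5581) (.f (nat_lit 527) (nat_lit 529) (nat_lit 1549) (.d (nat_lit 556) (nat_lit 555) (nat_lit 2571) (nat_lit 559) (nat_lit 2572)))))))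 (.a (.p (nat_lit 462) (.a (.f (nat_lit 463) (nat_lit 431) (nat_lit 6574) (.f (nat_lit 495) (nat_lit 590) (nat_lit 6606) (.d (nat_lit 461) (nat_lit 429) (nat_lit 7597) (nat_lit 460) (nat_lit 460)))) (.a (.f (nat_lit 429) (nat_lit 461) (nat_lit 7597) (.f (nat_lit 430) (nat_lit 397) (nat_lit 7565) (.d (nat_lit 431) (nat_lit 399) (nat_lit 6542) (nat_lit 463) (nat_lit 6574)))) (.f (nat_lit 557) (nat_lit 589) (nat_lit 5581) (.f (nat_lit 527) (nat_lit 529) (nat_lit 1549) (.d (nat_lit 556) (nat_lit 555) (nat_lit 2571) (nat_lit 559) (nat_lit 2572))))))) (.a (.p (nat_lit 462) (.a (.f (nat_lit 461) (nat_lit 429) (nat_lit 7597) (.f (nat_lit 590) (nat_lit 493) (nat_lit 7629) (.d (nat_lit 589) (nat_lit 557) (nat_lit 5581) (nat_lit 621) (nat_lit 5613)))) (.a (.f (nat_lit 557) (nat_lit 589) (nat_lit 5581) (.f (nat_lit 527) (nat_lit 529) (nat_lit 1549) (.d (nat_lit 556) (nat_lit 555) (nat_lit 2571) (nat_lit 559) (nat_lit 2572)))) (.f (nat_lit 461)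 (nat_lit 429) (nat_lit 7597) (.f (nat_lit 493) (nat_lit 590) (nat_lit 7629) (.d (nat_lit 495) (nat_lit 460) (nat_lit 3532) (nat_lit 529) (nat_lit 493))))))) (.a s23743 (.a s22562 (.a (.p (nat_lit 462) (.a (.f (nat_lit 429) (nat_lit 461) (nat_lit 7597) (.f (nat_lit 430) (nat_lit 397) (nat_lit 7565) (.d (nat_lit 431) (nat_lit 399) (nat_lit 6542) (nat_lit 463) (nat_lit 6574)))) (.f (nat_lit 557) (nat_lit 589) (nat_lit 5581) (.f (nat_lit 527) (nat_lit 529) (nat_lit 1549) (.d (nat_lit 556) (nat_lit 555) (nat_lit 2571) (nat_lit 559) (nat_lit 2572)))))) (.p (nat_lit 462) (.a (.f (nat_lit 463) (nat_lit 431) (nat_lit 6574) (.f (nat_lit 590) (nat_lit 495) (nat_lit 6606) (.d (nat_lit 589) (nat_lit 557) (nat_lit 5581) (nat_lit 621) (nat_lit 5613)))) (.a (.f (nat_lit 557) (nat_lit 589) (nat_lit 5581) (.f (nat_lit 527) (nat_lit 529) (nat_lit 1549) (.d (nat_lit 556) (nat_lit 555) (nat_lit 2571) (nat_lit 559) (nat_lit 2572)))) (.f (nat_lit 463)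 (nat_lit 431) (nat_lit 6574) (.f (nat_lit 495) (nat_lit 590) (nat_lit 6606) (.f (nat_lit 493) (nat_lit 529) (nat_lit 493) (.d (nat_lit 464) (nat_lit 465) (nat_lit 1485) (nat_lit 492) (nat_lit 2508)))))))))))))))) (.a s23796 (.a s23812 (.a s23815 (.a (.p (nat_lit 558) (.a s23816 (.a s23727 (.a s23756 (.a s23769 (.a (.p (nat_lit 462) (.a (.f (nat_lit 463) (nat_lit 431) (nat_lit 6574) (.f (nat_lit 590) (nat_lit 495) (nat_lit 6606) (.d (nat_lit 589) (nat_lit 557) (nat_lit 5581) (nat_lit 621) (nat_lit 5613)))) (.a (.f (nat_lit 557) (nat_lit 589) (nat_lit 5581) (.f (nat_lit 527) (nat_lit 529) (nat_lit 1549) (.d (nat_lit 556) (nat_lit 555) (nat_lit 2571) (nat_lit 559) (nat_lit 2572)))) (.f (nat_lit 463) (nat_lit 431) (nat_lit 6574) (.f (nat_lit 495) (nat_lit 590) (nat_lit 6606) (.f (nat_lit 493) (nat_lit 529) (nat_lit 493) (.d (nat_lit 464) (nat_lit 465) (nat_lit 1485) (nat_lit 492) (nat_lit 2508)))))))) (.a (.p (nat_lit 557) (.a (.f (nat_lit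 527) (nat_lit 529) (nat_lit 1549) (.d (nat_lit 556) (nat_lit 555) (nat_lit 2571) (nat_lit 559) (nat_lit 2572))) (.f (nat_lit 589) (nat_lit 462) (nat_lit 5581) (.d (nat_lit 621) (nat_lit 590) (nat_lit 5613) (nat_lit 653) (nat_lit 6669))))) (.a (.p (nat_lit 590) (.a (.f (nat_lit 621) (nat_lit 589) (nat_lit 5613) (.f (nat_lit 622) (nat_lit 653) (nat_lit 5645) (.f (nat_lit 655) (nat_lit 623) (nat_lit 4622) (.f (nat_lit 654) (nat_lit 687) (nat_lit 4654) (.f (nat_lit 527) (nat_lit 559) (nat_lit 6670) (.d (nat_lit 493) (nat_lit 525) (nat_lit 7661) (nat_lit 529) (nat_lit 3565))))))) (.a (.f (nat_lit 495) (nat_lit 463) (nat_lit 6606) (.f (nat_lit 527) (nat_lit 622) (nat_lit 6638) (.f (nat_lit 493) (nat_lit 492) (nat_lit 492) (.f (nat_lit 464) (nat_lit 465) (nat_lit 2509) (.d (nat_lit 432) (nat_lit 400) (nat_lit 5519) (nat_lit 559) (nat_lit 5551)))))) (.a (.f (nat_lit 495) (nat_lit 463) (nat_lit 6606) (.f (nat_lit 493) (nat_lit 529) (nat_lit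 493) (.d (nat_lit 525) (nat_lit 524) (nat_lit 1516) (nat_lit 622) (nat_lit 7661)))) (.a (.f (nat_lit 621) (nat_lit 589) (nat_lit 5613) (.f (nat_lit 622) (nat_lit 653) (nat_lit 5645) (.f (nat_lit 527) (nat_lit 495) (nat_lit 6638) (.f (nat_lit 559) (nat_lit 654) (nat_lit 6670) (.f (nat_lit 529) (nat_lit 530) (nat_lit 1550) (.f (nat_lit 561) (nat_lit 562) (nat_lit 526) (.f (nat_lit 560) (nat_lit 525) (nat_lit 525) (.d (nat_lit 464) (nat_lit 432) (nat_lit 5551) (nat_lit 593) (nat_lit 4560))))))))) (.f (nat_lit 495) (nat_lit 463) (nat_lit 6606) (.f (nat_lit 493) (nat_lit 529) (nat_lit 493) (.f (nat_lit 492) (nat_lit 527) (nat_lit 492) (.d (nat_lit 524) (nat_lit 523) (nat_lit 1515) (nat_lit 525) (nat_lit 1516)))))))))) (.p (nat_lit 529) (.a (.f (nat_lit 527) (nat_lit 557) (nat_lit 1549) (.d (nat_lit 530) (nat_lit 495) (nat_lit 3566) (nat_lit 559) (nat_lit 1550))) (.a (.f (nat_lit 495) (nat_lit 493) (nat_lit 493) (.f (nat_lit 463) (nat_lit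 590) (nat_lit 6606) (.f (nat_lit 431) (nat_lit 399) (nat_lit 4495) (.d (nat_lit 560) (nat_lit 464) (nat_lit 7599) (nat_lit 592) (nat_lit 7631))))) (.d (nat_lit 527) (nat_lit 493) (nat_lit 3565) (nat_lit 557) (nat_lit 1549))))))))))))) (.p (nat_lit 558) (.a s23816 (.a s23726 (.a s23757 (.a s23768 (.a s22562 (.a (.p (nat_lit 557) (.a (.f (nat_lit 527) (nat_lit 529) (nat_lit 1549) (.d (nat_lit 556) (nat_lit 555) (nat_lit 2571) (nat_lit 559) (nat_lit 2572))) (.f (nat_lit 589) (nat_lit 462) (nat_lit 5581) (.d (nat_lit 621) (nat_lit 590) (nat_lit 5613) (nat_lit 653) (nat_lit 6669))))) (.a s23806 (.a s23769 s22683)))))))))))))))))))) (.a (.p (nat_lit 464) (.a s23255 (.a s23307 (.a (.p (nat_lit 560) (.a (.f (nat_lit 433) (nat_lit 465) (nat_lit 6576) (.f (nat_lit 432) (nat_lit 401) (nat_lit 6544) (.d (nat_lit 431) (nat_lit 399) (nat_lit 7567) (nat_lit 463) (nat_lit 7599)))) (.a (.f (nat_lit 465) (nat_lit 433) (nat_lit 6576) (.f (nat_lit 592)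 (nat_lit 497) (nat_lit 6608) (.d (nat_lit 593) (nat_lit 561) (nat_lit 4560) (nat_lit 625) (nat_lit 4592)))) (.f (nat_lit 561) (nat_lit 593) (nat_lit 4560) (.f (nat_lit 432) (nat_lit 529) (nat_lit 4528) (.d (nat_lit 431) (nat_lit 399) (nat_lit 7567) (nat_lit 463) (nat_lit 7599))))))) (.a (.p (nat_lit 560) (.a (.f (nat_lit 463) (nat_lit 431) (nat_lit 7599) (.f (nat_lit 495) (nat_lit 592) (nat_lit 7631) (.d (nat_lit 465) (nat_lit 433) (nat_lit 6576) (nat_lit 466) (nat_lit 1486)))) (.a (.f (nat_lit 465) (nat_lit 433) (nat_lit 6576) (.f (nat_lit 592) (nat_lit 497) (nat_lit 6608) (.d (nat_lit 593) (nat_lit 561) (nat_lit 4560) (nat_lit 625) (nat_lit 4592)))) (.a (.f (nat_lit 463) (nat_lit 431) (nat_lit 7599) (.f (nat_lit 465) (nat_lit 433) (nat_lit 6576) (.f (nat_lit 466) (nat_lit 495) (nat_lit 1486) (.f (nat_lit 435) (nat_lit 434) (nat_lit 2479) (.f (nat_lit 467) (nat_lit 436) (nat_lit 2480) (.f (nat_lit 468) (nat_lit 497) (nat_lit 1488)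 (.d (nat_lit 500) (nat_lit 499) (nat_lit 464) (nat_lit 501) (nat_lit 465)))))))) (.f (nat_lit 463) (nat_lit 431) (nat_lit 7599) (.f (nat_lit 592) (nat_lit 495) (nat_lit 7631) (.d (nat_lit 593) (nat_lit 561) (nat_lit 4560) (nat_lit 625) (nat_lit 4592)))))))) (.a (.p (nat_lit 560) (.a (.f (nat_lit 463) (nat_lit 431) (nat_lit 7599) (.f (nat_lit 495) (nat_lit 592) (nat_lit 7631) (.d (nat_lit 465) (nat_lit 433) (nat_lit 6576) (nat_lit 466) (nat_lit 1486)))) (.a (.f (nat_lit 433) (nat_lit 465) (nat_lit 6576) (.f (nat_lit 432) (nat_lit 401) (nat_lit 6544) (.d (nat_lit 431) (nat_lit 399) (nat_lit 7567) (nat_lit 463) (nat_lit 7599)))) (.a (.f (nat_lit 465) (nat_lit 433) (nat_lit 6576) (.f (nat_lit 497) (nat_lit 592) (nat_lit 6608) (.f (nat_lit 495) (nat_lit 466) (nat_lit 2510) (.f (nat_lit 529) (nat_lit 530) (nat_lit 494) (.f (nat_lit 432) (nat_lit 400) (nat_lit 4496) (.f (nat_lit 526) (nat_lit 525) (nat_lit 1517) (.f (nat_lit 462) (nat_lit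 461) (nat_lit 3533) (.f (nat_lit 527) (nat_lit 559) (nat_lit 5551) (.f (nat_lit 430) (nat_lit 398) (nat_lit 4494) (.d (nat_lit 429) (nat_lit 397) (nat_lit 7565) (nat_lit 431) (nat_lit 429))))))))))) (.a (.f (nat_lit 465) (nat_lit 433) (nat_lit 6576) (.f (nat_lit 497) (nat_lit 592) (nat_lit 6608) (.f (nat_lit 495) (nat_lit 466) (nat_lit 2510) (.f (nat_lit 529) (nat_lit 530) (nat_lit 494) (.f (nat_lit 432) (nat_lit 400) (nat_lit 4496) (.f (nat_lit 527) (nat_lit 559) (nat_lit 5551) (.f (nat_lit 526) (nat_lit 525) (nat_lit 2541) (.f (nat_lit 558) (nat_lit 557) (nat_lit 1549) (.d (nat_lit 590) (nat_lit 463) (nat_lit 6606) (nat_lit 622) (nat_lit 6638)))))))))) (.a (.f (nat_lit 463) (nat_lit 431) (nat_lit 7599) (.f (nat_lit 592) (nat_lit 495) (nat_lit 7631) (.f (nat_lit 497) (nat_lit 465) (nat_lit 6608) (.f (nat_lit 624) (nat_lit 529) (nat_lit 6640) (.d (nat_lit 625) (nat_lit 593) (nat_lit 4592) (nat_lit 657) (nat_lit 4624)))))) (.f (nat_lit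 431) (nat_lit 463) (nat_lit 7599) (.f (nat_lit 432) (nat_lit 399) (nat_lit 7567) (.f (nat_lit 401) (nat_lit 433) (nat_lit 6544) (.f (nat_lit 400) (nat_lit 369) (nat_lit 6512) (.d (nat_lit 527) (nat_lit 495) (nat_lit 5519) (nat_lit 559) (nat_lit 5551)))))))))))) (.a (.p (nat_lit 560) (.a (.f (nat_lit 463) (nat_lit 431) (nat_lit 7599) (.f (nat_lit 495) (nat_lit 592) (nat_lit 7631) (.d (nat_lit 465) (nat_lit 433) (nat_lit 6576) (nat_lit 466) (nat_lit 1486)))) (.a (.f (nat_lit 433) (nat_lit 465) (nat_lit 6576) (.f (nat_lit 432) (nat_lit 401) (nat_lit 6544) (.d (nat_lit 431) (nat_lit 399) (nat_lit 7567) (nat_lit 463) (nat_lit 7599)))) (.a (.f (nat_lit 433) (nat_lit 465) (nat_lit 6576) (.f (nat_lit 432) (nat_lit 401) (nat_lit 6544) (.d (nat_lit 561) (nat_lit 529) (nat_lit 4528) (nat_lit 593) (nat_lit 4560)))) (.f (nat_lit 561) (nat_lit 593) (nat_lit 4560) (.f (nat_lit 432) (nat_lit 529) (nat_lit 4528) (.d (nat_lit 431) (nat_lit 399) (nat_lit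 7567) (nat_lit 463) (nat_lit 7599)))))))) (.a (.p (nat_lit 560) (.a (.f (nat_lit 433) (nat_lit 465) (nat_lit 6576) (.f (nat_lit 432) (nat_lit 401) (nat_lit 6544) (.d (nat_lit 561) (nat_lit 529) (nat_lit 4528) (nat_lit 593) (nat_lit 4560)))) (.a (.f (nat_lit 465) (nat_lit 433) (nat_lit 6576) (.f (nat_lit 592) (nat_lit 497) (nat_lit 6608) (.d (nat_lit 593) (nat_lit 561) (nat_lit 4560) (nat_lit 625) (nat_lit 4592)))) (.a (.f (nat_lit 465) (nat_lit 433) (nat_lit 6576) (.f (nat_lit 497) (nat_lit 592) (nat_lit 6608) (.f (nat_lit 495) (nat_lit 466) (nat_lit 2510) (.f (nat_lit 529) (nat_lit 530) (nat_lit 494) (.f (nat_lit 432) (nat_lit 400) (nat_lit 4496) (.f (nat_lit 527) (nat_lit 559) (nat_lit 5551) (.f (nat_lit 526) (nat_lit 525) (nat_lit 2541) (.f (nat_lit 558) (nat_lit 557) (nat_lit 1549) (.d (nat_lit 590) (nat_lit 463) (nat_lit 6606) (nat_lit 622) (nat_lit 6638)))))))))) (.f (nat_lit 561) (nat_lit 593) (nat_lit 4560) (.f (nat_lit 432)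 (nat_lit 529) (nat_lit 4528) (.f (nat_lit 527) (nat_lit 559) (nat_lit 5551) (.f (nat_lit 495) (nat_lit 400) (nat_lit 5519) (.d (nat_lit 592) (nat_lit 463) (nat_lit 7631) (nat_lit 624) (nat_lit 7663)))))))))) (.a (.p (nat_lit 560) (.a (.f (nat_lit 561) (nat_lit 593) (nat_lit 4560) (.f (nat_lit 432) (nat_lit 529) (nat_lit 4528) (.d (nat_lit 431) (nat_lit 399) (nat_lit 7567) (nat_lit 463) (nat_lit 7599)))) (.a (.f (nat_lit 463) (nat_lit 431) (nat_lit 7599) (.f (nat_lit 592) (nat_lit 495) (nat_lit 7631) (.d (nat_lit 593) (nat_lit 561) (nat_lit 4560) (nat_lit 625) (nat_lit 4592)))) (.a (.f (nat_lit 463) (nat_lit 431) (nat_lit 7599) (.f (nat_lit 592) (nat_lit 495) (nat_lit 7631) (.f (nat_lit 497) (nat_lit 465) (nat_lit 6608) (.f (nat_lit 624) (nat_lit 529) (nat_lit 6640) (.d (nat_lit 625) (nat_lit 593) (nat_lit 4592) (nat_lit 657) (nat_lit 4624)))))) (.a (.f (nat_lit 561) (nat_lit 593) (nat_lit 4560) (.f (nat_lit 432) (nat_lit 529) (nat_lit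 4528) (.f (nat_lit 527) (nat_lit 559) (nat_lit 5551) (.f (nat_lit 400) (nat_lit 495) (nat_lit 5519) (.d (nat_lit 399) (nat_lit 367) (nat_lit 7535) (nat_lit 431) (nat_lit 7567)))))) (.a (.f (nat_lit 431) (nat_lit 463) (nat_lit 7599) (.f (nat_lit 432) (nat_lit 399) (nat_lit 7567) (.f (nat_lit 529) (nat_lit 561) (nat_lit 4528) (.f (nat_lit 497) (nat_lit 400) (nat_lit 4496) (.d (nat_lit 592) (nat_lit 465) (nat_lit 6608) (nat_lit 624) (nat_lit 6640)))))) (.f (nat_lit 561) (nat_lit 593) (nat_lit 4560) (.f (nat_lit 432) (nat_lit 529) (nat_lit 4528) (.f (nat_lit 527) (nat_lit 559) (nat_lit 5551) (.f (nat_lit 495) (nat_lit 400) (nat_lit 5519) (.d (nat_lit 592) (nat_lit 463) (nat_lit 7631) (nat_lit 624) (nat_lit 7663)))))))))))) (.p (nat_lit 560) (.a (.f (nat_lit 561) (nat_lit 593) (nat_lit 4560) (.f (nat_lit 432) (nat_lit 529) (nat_lit 4528) (.d (nat_lit 431) (nat_lit 399) (nat_lit 7567) (nat_lit 463) (nat_lit 7599)))) (.a (.f (nat_lit 463)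 (nat_lit 431) (nat_lit 7599) (.f (nat_lit 592) (nat_lit 495) (nat_lit 7631) (.d (nat_lit 593) (nat_lit 561) (nat_lit 4560) (nat_lit 625) (nat_lit 4592)))) (.a (.f (nat_lit 431) (nat_lit 463) (nat_lit 7599) (.f (nat_lit 432) (nat_lit 399) (nat_lit 7567) (.f (nat_lit 401) (nat_lit 433) (nat_lit 6544) (.f (nat_lit 400) (nat_lit 369) (nat_lit 6512) (.d (nat_lit 527) (nat_lit 495) (nat_lit 5519) (nat_lit 559) (nat_lit 5551)))))) (.a (.f (nat_lit 561) (nat_lit 593) (nat_lit 4560) (.f (nat_lit 432) (nat_lit 529) (nat_lit 4528) (.f (nat_lit 527) (nat_lit 559) (nat_lit 5551) (.f (nat_lit 400) (nat_lit 495) (nat_lit 5519) (.d (nat_lit 399) (nat_lit 367) (nat_lit 7535) (nat_lit 431) (nat_lit 7567)))))) (.f (nat_lit 561) (nat_lit 593) (nat_lit 4560) (.f (nat_lit 432) (nat_lit 529) (nat_lit 4528) (.f (nat_lit 527) (nat_lit 559) (nat_lit 5551) (.f (nat_lit 495) (nat_lit 400) (nat_lit 5519) (.d (nat_lit 592) (nat_lit 463) (nat_lit 7631) (nat_lit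 624) (nat_lit 7663)))))))))))))))))))) (.a (.p (nat_lit 526) (.a s23894 (.a s23604 (.a s23899 (.a (.p (nat_lit 529) (.a (.d (nat_lit 493) (nat_lit 495) (nat_lit 493) (nat_lit 527) (nat_lit 3565)) (.a (.f (nat_lit 495) (nat_lit 493) (nat_lit 493) (.d (nat_lit 530) (nat_lit 497) (nat_lit 494) (nat_lit 531) (nat_lit 3567))) (.a (.f (nat_lit 527) (nat_lit 493) (nat_lit 3565) (.f (nat_lit 561) (nat_lit 562) (nat_lit 526) (.f (nat_lit 464) (nat_lit 432) (nat_lit 4528) (.d (nat_lit 593) (nat_lit 497) (nat_lit 7632) (nat_lit 625) (nat_lit 7664))))) (.p (nat_lit 527) (.a (.f (nat_lit 561) (nat_lit 562) (nat_lit 526) (.f (nat_lit 464) (nat_lit 432) (nat_lit 4528) (.d (nat_lit 593) (nat_lit 497) (nat_lit 7632) (nat_lit 625) (nat_lit 7664)))) (.a (.f (nat_lit 558) (nat_lit 557) (nat_lit 1549) (.f (nat_lit 530) (nat_lit 559) (nat_lit 1550) (.d (nat_lit 562) (nat_lit 561) (nat_lit 526) (nat_lit 563) (nat_lit 527)))) (.f (nat_lit 530) (nat_lit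 495) (nat_lit 3566) (.d (nat_lit 558) (nat_lit 557) (nat_lit 1549) (nat_lit 559) (nat_lit 1550)))))))))) (.a s22921 (.a s23812 (.p (nat_lit 560) (.a (.p (nat_lit 464) (.a (.f (nat_lit 465) (nat_lit 433) (nat_lit 6576) (.f (nat_lit 592) (nat_lit 497) (nat_lit 6608) (.d (nat_lit 593) (nat_lit 561) (nat_lit 4560) (nat_lit 625) (nat_lit 4592)))) (.a (.f (nat_lit 561) (nat_lit 593) (nat_lit 4560) (.f (nat_lit 527) (nat_lit 525) (nat_lit 525) (.d (nat_lit 562) (nat_lit 559) (nat_lit 3598) (nat_lit 563) (nat_lit 3599)))) (.f (nat_lit 465) (nat_lit 433) (nat_lit 6576) (.f (nat_lit 497) (nat_lit 592) (nat_lit 6608) (.d (nat_lit 495) (nat_lit 466) (nat_lit 2510) (nat_lit 525) (nat_lit 1517))))))) (.a (.p (nat_lit 464) (.a (.f (nat_lit 465) (nat_lit 433) (nat_lit 6576) (.f (nat_lit 592) (nat_lit 497) (nat_lit 6608) (.d (nat_lit 593) (nat_lit 561) (nat_lit 4560) (nat_lit 625) (nat_lit 4592)))) (.a (.f (nat_lit 561) (nat_lit 593) (nat_lit 4560)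 (.f (nat_lit 432) (nat_lit 529) (nat_lit 4528) (.d (nat_lit 433) (nat_lit 401) (nat_lit 6544) (nat_lit 465) (nat_lit 6576)))) (.a (.f (nat_lit 465) (nat_lit 433) (nat_lit 6576) (.f (nat_lit 497) (nat_lit 592) (nat_lit 6608) (.d (nat_lit 495) (nat_lit 466) (nat_lit 2510) (nat_lit 525) (nat_lit 1517)))) (.a (.f (nat_lit 593) (nat_lit 561) (nat_lit 4560) (.f (nat_lit 592) (nat_lit 625) (nat_lit 4592) (.f (nat_lit 497) (nat_lit 465) (nat_lit 6608) (.f (nat_lit 529) (nat_lit 624) (nat_lit 6640) (.d (nat_lit 495) (nat_lit 525) (nat_lit 1517) (nat_lit 530) (nat_lit 494)))))) (.f (nat_lit 561) (nat_lit 593) (nat_lit 4560) (.f (nat_lit 432) (nat_lit 529) (nat_lit 4528) (.f (nat_lit 399) (nat_lit 431) (nat_lit 7567) (.f (nat_lit 400) (nat_lit 367) (nat_lit 7535) (.d (nat_lit 401) (nat_lit 369) (nat_lit 6512) (nat_lit 433) (nat_lit 6544))))))))))) (.a (.p (nat_lit 464) (.a (.f (nat_lit 465) (nat_lit 433) (nat_lit 6576) (.f (nat_lit 592) (nat_lit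 497) (nat_lit 6608) (.d (nat_lit 593) (nat_lit 561) (nat_lit 4560) (nat_lit 625) (nat_lit 4592)))) (.a (.f (nat_lit 561) (nat_lit 593) (nat_lit 4560) (.f (nat_lit 527) (nat_lit 525) (nat_lit 525) (.d (nat_lit 562) (nat_lit 559) (nat_lit 3598) (nat_lit 563) (nat_lit 3599)))) (.f (nat_lit 433) (nat_lit 465) (nat_lit 6576) (.f (nat_lit 432) (nat_lit 401) (nat_lit 6544) (.f (nat_lit 399) (nat_lit 431) (nat_lit 7567) (.f (nat_lit 400) (nat_lit 367) (nat_lit 7535) (.f (nat_lit 527) (nat_lit 559) (nat_lit 5551) (.d (nat_lit 497) (nat_lit 525) (nat_lit 2541) (nat_lit 529) (nat_lit 4496)))))))))) (.a (.p (nat_lit 592) (.a (.f (nat_lit 497) (nat_lit 465) (nat_lit 6608) (.d (nat_lit 525) (nat_lit 495) (nat_lit 1517) (nat_lit 527) (nat_lit 2541))) (.a (.f (nat_lit 497) (nat_lit 465) (nat_lit 6608) (.f (nat_lit 529) (nat_lit 624) (nat_lit 6640) (.d (nat_lit 495) (nat_lit 525) (nat_lit 1517) (nat_lit 530) (nat_lit 494)))) (.a (.f (nat_lit 497)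 (nat_lit 465) (nat_lit 6608) (.f (nat_lit 527) (nat_lit 525) (nat_lit 2541) (.f (nat_lit 529) (nat_lit 624) (nat_lit 6640) (.f (nat_lit 561) (nat_lit 562) (nat_lit 526) (.f (nat_lit 593) (nat_lit 625) (nat_lit 4592) (.f (nat_lit 558) (nat_lit 557) (nat_lit 1549) (.d (nat_lit 559) (nat_lit 530) (nat_lit 2574) (nat_lit 594) (nat_lit 558)))))))) (.a (.f (nat_lit 497) (nat_lit 465) (nat_lit 6608) (.f (nat_lit 624) (nat_lit 529) (nat_lit 6640) (.d (nat_lit 625) (nat_lit 593) (nat_lit 4592) (nat_lit 657) (nat_lit 4624)))) (.f (nat_lit 625) (nat_lit 593) (nat_lit 4592) (.f (nat_lit 624) (nat_lit 657) (nat_lit 4624) (.f (nat_lit 527) (nat_lit 495) (nat_lit 7663) (.f (nat_lit 559) (nat_lit 656) (nat_lit 7695) (.d (nat_lit 525) (nat_lit 524) (nat_lit 524) (nat_lit 561) (nat_lit 525))))))))))) (.a (.p (nat_lit 464) (.a (.f (nat_lit 561) (nat_lit 593) (nat_lit 4560) (.f (nat_lit 527) (nat_lit 525) (nat_lit 525) (.d (nat_lit 562) (nat_lit 559)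 (nat_lit 3598) (nat_lit 563) (nat_lit 3599)))) (.a (.f (nat_lit 561) (nat_lit 593) (nat_lit 4560) (.f (nat_lit 432) (nat_lit 529) (nat_lit 4528) (.d (nat_lit 433) (nat_lit 401) (nat_lit 6544) (nat_lit 465) (nat_lit 6576)))) (.f (nat_lit 433) (nat_lit 465) (nat_lit 6576) (.f (nat_lit 432) (nat_lit 401) (nat_lit 6544) (.f (nat_lit 399) (nat_lit 431) (nat_lit 7567) (.f (nat_lit 400) (nat_lit 367) (nat_lit 7535) (.f (nat_lit 527) (nat_lit 559) (nat_lit 5551) (.d (nat_lit 497) (nat_lit 525) (nat_lit 2541) (nat_lit 529) (nat_lit 4496)))))))))) (.a (.p (nat_lit 464) (.a (.f (nat_lit 465) (nat_lit 433) (nat_lit 6576) (.f (nat_lit 592) (nat_lit 497) (nat_lit 6608) (.d (nat_lit 593) (nat_lit 561) (nat_lit 4560) (nat_lit 625) (nat_lit 4592)))) (.a (.f (nat_lit 561) (nat_lit 593) (nat_lit 4560) (.f (nat_lit 432) (nat_lit 529) (nat_lit 4528) (.d (nat_lit 433) (nat_lit 401) (nat_lit 6544) (nat_lit 465) (nat_lit 6576)))) (.a (.f (nat_lit 465) (nat_lit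 433) (nat_lit 6576) (.f (nat_lit 497) (nat_lit 592) (nat_lit 6608) (.f (nat_lit 495) (nat_lit 466) (nat_lit 2510) (.f (nat_lit 529) (nat_lit 530) (nat_lit 494) (.f (nat_lit 432) (nat_lit 400) (nat_lit 4496) (.f (nat_lit 462) (nat_lit 461) (nat_lit 3533) (.f (nat_lit 527) (nat_lit 559) (nat_lit 5551) (.f (nat_lit 430) (nat_lit 398) (nat_lit 4494) (.d (nat_lit 429) (nat_lit 397) (nat_lit 7565) (nat_lit 431) (nat_lit 429)))))))))) (.f (nat_lit 561) (nat_lit 593) (nat_lit 4560) (.f (nat_lit 529) (nat_lit 432) (nat_lit 4528) (.f (nat_lit 527) (nat_lit 562) (nat_lit 526) (.f (nat_lit 530) (nat_lit 495) (nat_lit 3566) (.d (nat_lit 531) (nat_lit 532) (nat_lit 1552) (nat_lit 559) (nat_lit 1551)))))))))) (.a (.p (nat_lit 592) (.a (.f (nat_lit 497) (nat_lit 465) (nat_lit 6608) (.d (nat_lit 525) (nat_lit 495) (nat_lit 1517) (nat_lit 527) (nat_lit 2541))) (.a (.f (nat_lit 497) (nat_lit 465) (nat_lit 6608) (.f (nat_lit 529) (nat_lit 624) (nat_lit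 6640) (.d (nat_lit 495) (nat_lit 525) (nat_lit 1517) (nat_lit 530) (nat_lit 494)))) (.a (.f (nat_lit 497) (nat_lit 465) (nat_lit 6608) (.f (nat_lit 624) (nat_lit 529) (nat_lit 6640) (.d (nat_lit 625) (nat_lit 593) (nat_lit 4592) (nat_lit 657) (nat_lit 4624)))) (.f (nat_lit 625) (nat_lit 593) (nat_lit 4592) (.f (nat_lit 624) (nat_lit 657) (nat_lit 4624) (.f (nat_lit 527) (nat_lit 495) (nat_lit 7663) (.f (nat_lit 559) (nat_lit 656) (nat_lit 7695) (.f (nat_lit 525) (nat_lit 524) (nat_lit 524) (.f (nat_lit 557) (nat_lit 556) (nat_lit 1548) (.f (nat_lit 558) (nat_lit 529) (nat_lit 1549) (.d (nat_lit 462) (nat_lit 430) (nat_lit 5549) (nat_lit 589) (nat_lit 5581))))))))))))) (.a (.p (nat_lit 464) (.a (.f (nat_lit 561) (nat_lit 593) (nat_lit 4560) (.f (nat_lit 527) (nat_lit 525) (nat_lit 525) (.d (nat_lit 562) (nat_lit 559) (nat_lit 3598) (nat_lit 563) (nat_lit 3599)))) (.a (.f (nat_lit 561) (nat_lit 593) (nat_lit 4560) (.f (nat_lit 432)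 (nat_lit 529) (nat_lit 4528) (.d (nat_lit 433) (nat_lit 401) (nat_lit 6544) (nat_lit 465) (nat_lit 6576)))) (.f (nat_lit 433) (nat_lit 465) (nat_lit 6576) (.f (nat_lit 432) (nat_lit 401) (nat_lit 6544) (.f (nat_lit 527) (nat_lit 559) (nat_lit 5551) (.f (nat_lit 495) (nat_lit 400) (nat_lit 5519) (.f (nat_lit 525) (nat_lit 524) (nat_lit 2540) (.f (nat_lit 557) (nat_lit 556) (nat_lit 1548) (.d (nat_lit 529) (nat_lit 530) (nat_lit 3566) (nat_lit 558) (nat_lit 1549))))))))))) (.a (.p (nat_lit 525) (.a (.d (nat_lit 527) (nat_lit 497) (nat_lit 2541) (nat_lit 561) (nat_lit 525)) (.a (.f (nat_lit 497) (nat_lit 495) (nat_lit 1517) (.f (nat_lit 465) (nat_lit 592) (nat_lit 6608) (.d (nat_lit 433) (nat_lit 401) (nat_lit 5520) (nat_lit 464) (nat_lit 6576)))) (.f (nat_lit 527) (nat_lit 561) (nat_lit 525) (.d (nat_lit 524) (nat_lit 495) (nat_lit 2540) (nat_lit 559) (nat_lit 524)))))) (.p (nat_lit 561) (.a (.f (nat_lit 527) (nat_lit 525) (nat_lit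 525) (.d (nat_lit 562) (nat_lit 559) (nat_lit 3598) (nat_lit 563) (nat_lit 3599))) (.f (nat_lit 593) (nat_lit 464) (nat_lit 4560) (.d (nat_lit 625) (nat_lit 529) (nat_lit 7664) (nat_lit 592) (nat_lit 4592)))))))))))))))))))))) (.a (.p (nat_lit 560) (.a s23409 (.a (.p (nat_lit 464) (.a (.f (nat_lit 465) (nat_lit 433) (nat_lit 6576) (.f (nat_lit 495) (nat_lit 493) (nat_lit 2509) (.d (nat_lit 463) (nat_lit 431) (nat_lit 7599) (nat_lit 466) (nat_lit 1486)))) (.a (.f (nat_lit 433) (nat_lit 465) (nat_lit 6576) (.f (nat_lit 432) (nat_lit 401) (nat_lit 6544) (.d (nat_lit 431) (nat_lit 399) (nat_lit 7567) (nat_lit 463) (nat_lit 7599)))) (.a (.f (nat_lit 465) (nat_lit 433) (nat_lit 6576) (.f (nat_lit 495) (nat_lit 493) (nat_lit 2509) (.f (nat_lit 593) (nat_lit 561) (nat_lit 4560) (.f (nat_lit 592) (nat_lit 625) (nat_lit 4592) (.f (nat_lit 527) (nat_lit 624) (nat_lit 7663) (.d (nat_lit 432) (nat_lit 400) (nat_lit 5519) (nat_lit 559) (nat_lit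 5551))))))) (.a (.f (nat_lit 463) (nat_lit 431) (nat_lit 7599) (.f (nat_lit 495) (nat_lit 592) (nat_lit 7631) (.d (nat_lit 465) (nat_lit 466) (nat_lit 1486) (nat_lit 493) (nat_lit 2509)))) (.f (nat_lit 463) (nat_lit 431) (nat_lit 7599) (.f (nat_lit 495) (nat_lit 592) (nat_lit 7631) (.f (nat_lit 493) (nat_lit 492) (nat_lit 2508) (.f (nat_lit 461) (nat_lit 460) (nat_lit 3532) (.f (nat_lit 525) (nat_lit 524) (nat_lit 1516) (.f (nat_lit 561) (nat_lit 593) (nat_lit 4560) (.f (nat_lit 526) (nat_lit 527) (nat_lit 525) (.d (nat_lit 429) (nat_lit 397) (nat_lit 4493) (nat_lit 558) (nat_lit 4525)))))))))))))) (.a (.p (nat_lit 464) (.a (.f (nat_lit 433) (nat_lit 465) (nat_lit 6576) (.f (nat_lit 432) (nat_lit 401) (nat_lit 6544) (.d (nat_lit 431) (nat_lit 399) (nat_lit 7567) (nat_lit 463) (nat_lit 7599)))) (.a (.f (nat_lit 465) (nat_lit 433) (nat_lit 6576) (.f (nat_lit 592) (nat_lit 497) (nat_lit 6608) (.d (nat_lit 593) (nat_lit 561) (nat_lit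 4560) (nat_lit 625) (nat_lit 4592)))) (.f (nat_lit 561) (nat_lit 593) (nat_lit 4560) (.f (nat_lit 432) (nat_lit 529) (nat_lit 4528) (.d (nat_lit 431) (nat_lit 399) (nat_lit 7567) (nat_lit 463) (nat_lit 7599))))))) (.a (.p (nat_lit 592) (.a (.f (nat_lit 495) (nat_lit 463) (nat_lit 7631) (.f (nat_lit 529) (nat_lit 493) (nat_lit 493) (.d (nat_lit 497) (nat_lit 465) (nat_lit 6608) (nat_lit 530) (nat_lit 494)))) (.a (.f (nat_lit 495) (nat_lit 463) (nat_lit 7631) (.f (nat_lit 624) (nat_lit 527) (nat_lit 7663) (.d (nat_lit 625) (nat_lit 593) (nat_lit 4592) (nat_lit 657) (nat_lit 4624)))) (.f (nat_lit 497) (nat_lit 465) (nat_lit 6608) (.f (nat_lit 624) (nat_lit 529) (nat_lit 6640) (.d (nat_lit 625) (nat_lit 593) (nat_lit 4592) (nat_lit 657) (nat_lit 4624))))))) (.a (.p (nat_lit 464) (.a (.f (nat_lit 465) (nat_lit 433) (nat_lit 6576) (.f (nat_lit 495) (nat_lit 493) (nat_lit 2509) (.d (nat_lit 466) (nat_lit 467) (nat_lit 1487) (nat_lit 497)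 (nat_lit 2510)))) (.a (.f (nat_lit 433) (nat_lit 465) (nat_lit 6576) (.f (nat_lit 432) (nat_lit 401) (nat_lit 6544) (.d (nat_lit 561) (nat_lit 529) (nat_lit 4528) (nat_lit 593) (nat_lit 4560)))) (.f (nat_lit 561) (nat_lit 593) (nat_lit 4560) (.f (nat_lit 529) (nat_lit 432) (nat_lit 4528) (.f (nat_lit 495) (nat_lit 493) (nat_lit 493) (.d (nat_lit 530) (nat_lit 497) (nat_lit 494) (nat_lit 531) (nat_lit 3567)))))))) (.a s24000 s23635))))))) (.a (.p (nat_lit 560) (.a s23409 (.a (.p (nat_lit 464) (.a (.f (nat_lit 463) (nat_lit 431) (nat_lit 7599) (.f (nat_lit 495) (nat_lit 592) (nat_lit 7631) (.d (nat_lit 465) (nat_lit 433) (nat_lit 6576) (nat_lit 466) (nat_lit 1486)))) (.a (.f (nat_lit 433) (nat_lit 465) (nat_lit 6576) (.f (nat_lit 432) (nat_lit 401) (nat_lit 6544) (.d (nat_lit 431) (nat_lit 399) (nat_lit 7567) (nat_lit 463) (nat_lit 7599)))) (.a (.f (nat_lit 465) (nat_lit 433) (nat_lit 6576) (.f (nat_lit 592) (nat_lit 497) (nat_lit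 6608) (.d (nat_lit 593) (nat_lit 561) (nat_lit 4560) (nat_lit 625) (nat_lit 4592)))) (.f (nat_lit 463) (nat_lit 431) (nat_lit 7599) (.f (nat_lit 592) (nat_lit 495) (nat_lit 7631) (.d (nat_lit 593) (nat_lit 561) (nat_lit 4560) (nat_lit 625) (nat_lit 4592)))))))) (.a (.p (nat_lit 464) (.a (.f (nat_lit 433) (nat_lit 465) (nat_lit 6576) (.f (nat_lit 432) (nat_lit 401) (nat_lit 6544) (.d (nat_lit 431) (nat_lit 399) (nat_lit 7567) (nat_lit 463) (nat_lit 7599)))) (.a (.f (nat_lit 465) (nat_lit 433) (nat_lit 6576) (.f (nat_lit 592) (nat_lit 497) (nat_lit 6608) (.d (nat_lit 593) (nat_lit 561) (nat_lit 4560) (nat_lit 625) (nat_lit 4592)))) (.f (nat_lit 561) (nat_lit 593) (nat_lit 4560) (.f (nat_lit 432) (nat_lit 529) (nat_lit 4528) (.d (nat_lit 431) (nat_lit 399) (nat_lit 7567) (nat_lit 463) (nat_lit 7599))))))) (.a (.p (nat_lit 592) (.a (.f (nat_lit 495) (nat_lit 463) (nat_lit 7631) (.f (nat_lit 529) (nat_lit 493) (nat_lit 493) (.d (nat_lit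 497) (nat_lit 465) (nat_lit 6608) (nat_lit 530) (nat_lit 494)))) (.a (.f (nat_lit 495) (nat_lit 463) (nat_lit 7631) (.f (nat_lit 624) (nat_lit 527) (nat_lit 7663) (.d (nat_lit 625) (nat_lit 593) (nat_lit 4592) (nat_lit 657) (nat_lit 4624)))) (.f (nat_lit 497) (nat_lit 465) (nat_lit 6608) (.f (nat_lit 624) (nat_lit 529) (nat_lit 6640) (.d (nat_lit 625) (nat_lit 593) (nat_lit 4592) (nat_lit 657) (nat_lit 4624))))))) (.a s23410 (.a (.p (nat_lit 464) (.a (.f (nat_lit 465) (nat_lit 433) (nat_lit 6576) (.f (nat_lit 495) (nat_lit 493) (nat_lit 2509) (.d (nat_lit 466) (nat_lit 467) (nat_lit 1487) (nat_lit 497) (nat_lit 2510)))) (.a (.f (nat_lit 433) (nat_lit 465) (nat_lit 6576) (.f (nat_lit 432) (nat_lit 401) (nat_lit 6544) (.d (nat_lit 561) (nat_lit 529) (nat_lit 4528) (nat_lit 593) (nat_lit 4560)))) (.f (nat_lit 561) (nat_lit 593) (nat_lit 4560) (.f (nat_lit 529) (nat_lit 432) (nat_lit 4528) (.f (nat_lit 495) (nat_lit 493) (nat_lit 493)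 (.d (nat_lit 530) (nat_lit 497) (nat_lit 494) (nat_lit 531) (nat_lit 3567)))))))) (.a s24000 s23635)))))))) (.a (.p (nat_lit 526) (.a s23595 (.a s22832 (.a (.p (nat_lit 558) (.a s19062 (.a s21821 (.a s19098 (.a s21891 (.a (.p (nat_lit 462) (.a (.f (nat_lit 461) (nat_lit 429) (nat_lit 7597) (.f (nat_lit 493) (nat_lit 590) (nat_lit 7629) (.d (nat_lit 495) (nat_lit 460) (nat_lit 3532) (nat_lit 497) (nat_lit 3533)))) (.a (.f (nat_lit 429) (nat_lit 461) (nat_lit 7597) (.f (nat_lit 430) (nat_lit 397) (nat_lit 7565) (.d (nat_lit 557) (nat_lit 525) (nat_lit 5549) (nat_lit 589) (nat_lit 5581)))) (.f (nat_lit 557) (nat_lit 589) (nat_lit 5581) (.f (nat_lit 525) (nat_lit 430) (nat_lit 5549) (.f (nat_lit 495) (nat_lit 497) (nat_lit 1517) (.d (nat_lit 493) (nat_lit 524) (nat_lit 1516) (nat_lit 529) (nat_lit 493)))))))) (.a (.p (nat_lit 495) (.a (.f (nat_lit 590) (nat_lit 463) (nat_lit 6606) (.f (nat_lit 493) (nat_lit 461) (nat_lit 7629) (.d (nat_lit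 525) (nat_lit 524) (nat_lit 1516) (nat_lit 622) (nat_lit 7661)))) (.a (.f (nat_lit 463) (nat_lit 590) (nat_lit 6606) (.f (nat_lit 431) (nat_lit 399) (nat_lit 4495) (.d (nat_lit 560) (nat_lit 464) (nat_lit 7599) (nat_lit 592) (nat_lit 7631)))) (.f (nat_lit 493) (nat_lit 529) (nat_lit 493) (.f (nat_lit 525) (nat_lit 524) (nat_lit 1516) (.d (nat_lit 461) (nat_lit 429) (nat_lit 4525) (nat_lit 460) (nat_lit 3532))))))) s21982))))))) (.a s23899 (.a (.p (nat_lit 558) (.a s19098 (.a s21569 (.a (.p (nat_lit 462) (.a (.f (nat_lit 429) (nat_lit 461) (nat_lit 7597) (.f (nat_lit 430) (nat_lit 397) (nat_lit 7565) (.d (nat_lit 431) (nat_lit 399) (nat_lit 6542) (nat_lit 463) (nat_lit 6574)))) (.a (.f (nat_lit 461) (nat_lit 429) (nat_lit 7597) (.f (nat_lit 590) (nat_lit 493) (nat_lit 7629) (.d (nat_lit 589) (nat_lit 557) (nat_lit 5581) (nat_lit 621) (nat_lit 5613)))) (.a s19599 (.f (nat_lit 557) (nat_lit 589) (nat_lit 5581) (.f (nat_lit 527) (nat_lit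 529) (nat_lit 1549) (.d (nat_lit 556) (nat_lit 555) (nat_lit 2571) (nat_lit 559) (nat_lit 2572)))))))) (.a s22556 (.a s24006 (.a s24007 (.a s22562 (.a s24008 (.p (nat_lit 462) (.a (.f (nat_lit 463) (nat_lit 431) (nat_lit 6574) (.f (nat_lit 495) (nat_lit 590) (nat_lit 6606) (.f (nat_lit 529) (nat_lit 493) (nat_lit 493) (.d (nat_lit 530) (nat_lit 497) (nat_lit 494) (nat_lit 531) (nat_lit 3567))))) (.a (.f (nat_lit 463) (nat_lit 431) (nat_lit 6574) (.f (nat_lit 590) (nat_lit 495) (nat_lit 6606) (.d (nat_lit 589) (nat_lit 557) (nat_lit 5581) (nat_lit 621) (nat_lit 5613)))) (.a s19599 (.f (nat_lit 557) (nat_lit 589) (nat_lit 5581) (.f (nat_lit 527) (nat_lit 529) (nat_lit 1549) (.d (nat_lit 556) (nat_lit 555) (nat_lit 2571) (nat_lit 559) (nat_lit 2572))))))))))))))))) (.a s22921 (.a s23610 (.a s23796 (.p (nat_lit 527) (.a (.f (nat_lit 525) (nat_lit 497) (nat_lit 2541) (.d (nat_lit 493) (nat_lit 492) (nat_lit 3564) (nat_lit 529) (nat_lit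 3565))) (.a (.f (nat_lit 525) (nat_lit 497) (nat_lit 2541) (.f (nat_lit 495) (nat_lit 524) (nat_lit 2540) (.f (nat_lit 493) (nat_lit 492) (nat_lit 492) (.f (nat_lit 461) (nat_lit 460) (nat_lit 3532) (.d (nat_lit 429) (nat_lit 397) (nat_lit 4493) (nat_lit 558) (nat_lit 4525)))))) (.a (.f (nat_lit 529) (nat_lit 493) (nat_lit 3565) (.f (nat_lit 561) (nat_lit 562) (nat_lit 526) (.f (nat_lit 464) (nat_lit 432) (nat_lit 4528) (.d (nat_lit 593) (nat_lit 497) (nat_lit 7632) (nat_lit 625) (nat_lit 7664))))) (.a (.f (nat_lit 493) (nat_lit 529) (nat_lit 3565) (.d (nat_lit 492) (nat_lit 491) (nat_lit 491) (nat_lit 525) (nat_lit 3564))) (.f (nat_lit 525) (nat_lit 497) (nat_lit 2541) (.f (nat_lit 495) (nat_lit 524) (nat_lit 2540) (.f (nat_lit 560) (nat_lit 561) (nat_lit 525) (.d (nat_lit 463) (nat_lit 431) (nat_lit 4527) (nat_lit 592) (nat_lit 7631))))))))))))))))))) (.p (nat_lit 560) (.a s23387 (.a (.p (nat_lit 464) (.a (.f (nat_lit 465) (nat_lit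 433) (nat_lit 6576) (.f (nat_lit 463) (nat_lit 431) (nat_lit 7599) (.f (nat_lit 462) (nat_lit 493) (nat_lit 1485) (.d (nat_lit 497) (nat_lit 461) (nat_lit 461) (nat_lit 592) (nat_lit 6608))))) (.a (.f (nat_lit 463) (nat_lit 431) (nat_lit 7599) (.f (nat_lit 465) (nat_lit 433) (nat_lit 6576) (.f (nat_lit 462) (nat_lit 493) (nat_lit 1485) (.f (nat_lit 429) (nat_lit 430) (nat_lit 3501) (.d (nat_lit 461) (nat_lit 428) (nat_lit 3500) (nat_lit 497) (nat_lit 461)))))) (.a (.f (nat_lit 561) (nat_lit 593) (nat_lit 4560) (.f (nat_lit 432) (nat_lit 529) (nat_lit 4528) (.d (nat_lit 431) (nat_lit 399) (nat_lit 7567) (nat_lit 463) (nat_lit 7599)))) (.f (nat_lit 465) (nat_lit 433) (nat_lit 6576) (.f (nat_lit 592) (nat_lit 497) (nat_lit 6608) (.d (nat_lit 593) (nat_lit 561) (nat_lit 4560) (nat_lit 625) (nat_lit 4592)))))))) (.a s23408 (.a (.p (nat_lit 464) (.a (.f (nat_lit 465) (nat_lit 433) (nat_lit 6576) (.f (nat_lit 495) (nat_lit 493) (nat_lit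 2509) (.d (nat_lit 463) (nat_lit 431) (nat_lit 7599) (nat_lit 466) (nat_lit 1486)))) (.a (.f (nat_lit 463) (nat_lit 431) (nat_lit 7599) (.f (nat_lit 465) (nat_lit 433) (nat_lit 6576) (.f (nat_lit 462) (nat_lit 493) (nat_lit 1485) (.f (nat_lit 429) (nat_lit 430) (nat_lit 3501) (.d (nat_lit 461) (nat_lit 428) (nat_lit 3500) (nat_lit 497) (nat_lit 461)))))) (.a (.f (nat_lit 463) (nat_lit 431) (nat_lit 7599) (.f (nat_lit 465) (nat_lit 433) (nat_lit 6576) (.f (nat_lit 466) (nat_lit 495) (nat_lit 1486) (.f (nat_lit 435) (nat_lit 434) (nat_lit 2479) (.f (nat_lit 467) (nat_lit 436) (nat_lit 2480) (.f (nat_lit 468) (nat_lit 497) (nat_lit 1488) (.d (nat_lit 500) (nat_lit 499) (nat_lit 464) (nat_lit 501) (nat_lit 465)))))))) (.a (.f (nat_lit 465) (nat_lit 433) (nat_lit 6576) (.f (nat_lit 495) (nat_lit 493) (nat_lit 2509) (.d (nat_lit 466) (nat_lit 467) (nat_lit 1487) (nat_lit 497) (nat_lit 2510)))) (.f (nat_lit 561) (nat_lit 593) (nat_lit 4560)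 (.f (nat_lit 432) (nat_lit 529) (nat_lit 4528) (.d (nat_lit 431) (nat_lit 399) (nat_lit 7567) (nat_lit 463) (nat_lit 7599))))))))) (.a (.p (nat_lit 464) (.a (.f (nat_lit 465) (nat_lit 433) (nat_lit 6576) (.f (nat_lit 495) (nat_lit 493) (nat_lit 2509) (.d (nat_lit 463) (nat_lit 431) (nat_lit 7599) (nat_lit 466) (nat_lit 1486)))) (.a (.f (nat_lit 561) (nat_lit 593) (nat_lit 4560) (.f (nat_lit 432) (nat_lit 529) (nat_lit 4528) (.d (nat_lit 431) (nat_lit 399) (nat_lit 7567) (nat_lit 463) (nat_lit 7599)))) (.f (nat_lit 465) (nat_lit 433) (nat_lit 6576) (.f (nat_lit 495) (nat_lit 493) (nat_lit 2509) (.f (nat_lit 593) (nat_lit 561) (nat_lit 4560) (.f (nat_lit 592) (nat_lit 625) (nat_lit 4592) (.f (nat_lit 527) (nat_lit 624) (nat_lit 7663) (.d (nat_lit 432) (nat_lit 400) (nat_lit 5519) (nat_lit 559) (nat_lit 5551)))))))))) (.a (.p (nat_lit 464) (.a (.f (nat_lit 463) (nat_lit 431) (nat_lit 7599) (.f (nat_lit 495) (nat_lit 592) (nat_lit 7631)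 (.d (nat_lit 465) (nat_lit 433) (nat_lit 6576) (nat_lit 466) (nat_lit 1486)))) (.a (.f (nat_lit 561) (nat_lit 593) (nat_lit 4560) (.f (nat_lit 432) (nat_lit 529) (nat_lit 4528) (.d (nat_lit 431) (nat_lit 399) (nat_lit 7567) (nat_lit 463) (nat_lit 7599)))) (.f (nat_lit 465) (nat_lit 433) (nat_lit 6576) (.f (nat_lit 592) (nat_lit 497) (nat_lit 6608) (.d (nat_lit 593) (nat_lit 561) (nat_lit 4560) (nat_lit 625) (nat_lit 4592))))))) (.a (.p (nat_lit 464) (.a (.f (nat_lit 465) (nat_lit 433) (nat_lit 6576) (.f (nat_lit 495) (nat_lit 493) (nat_lit 2509) (.d (nat_lit 466) (nat_lit 467) (nat_lit 1487) (nat_lit 497) (nat_lit 2510)))) (.a (.f (nat_lit 465) (nat_lit 433) (nat_lit 6576) (.f (nat_lit 592) (nat_lit 497) (nat_lit 6608) (.d (nat_lit 593) (nat_lit 561) (nat_lit 4560) (nat_lit 625) (nat_lit 4592)))) (.a (.f (nat_lit 465) (nat_lit 433) (nat_lit 6576) (.f (nat_lit 495) (nat_lit 493) (nat_lit 2509) (.f (nat_lit 593) (nat_lit 561) (nat_lit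 4560) (.f (nat_lit 592) (nat_lit 625) (nat_lit 4592) (.f (nat_lit 527) (nat_lit 624) (nat_lit 7663) (.d (nat_lit 432) (nat_lit 400) (nat_lit 5519) (nat_lit 559) (nat_lit 5551))))))) (.f (nat_lit 561) (nat_lit 593) (nat_lit 4560) (.f (nat_lit 529) (nat_lit 432) (nat_lit 4528) (.f (nat_lit 495) (nat_lit 493) (nat_lit 493) (.d (nat_lit 530) (nat_lit 497) (nat_lit 494) (nat_lit 531) (nat_lit 3567))))))))) s23417))))))))))))))))))))))
noncomputable def s24030 : Cert := .r (nat_lit 1098367625876631195638990211447803359827765831789854025350228590148069047476135421183724742106088204759328672100049959483405148627549761177659140858869700362240) (.p (nat_lit 558) (.a (.p (nat_lit 462) (.a (.f (nat_lit 461) (nat_lit 429) (nat_lit 7597) (.f (nat_lit 495) (nat_lit 497) (nat_lit 3533) (.d (nat_lit 460) (nat_lit 459) (nat_lit 459) (nat_lit 463) (nat_lit 460)))) (.a (.f (nat_lit 557) (nat_lit 589) (nat_lit 5581) (.f (nat_lit 525) (nat_lit 430) (nat_lit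 5549) (.d (nat_lit 527) (nat_lit 497) (nat_lit 2541) (nat_lit 556) (nat_lit 1548)))) (.f (nat_lit 463) (nat_lit 431) (nat_lit 6574) (.f (nat_lit 495) (nat_lit 590) (nat_lit 6606) (.d (nat_lit 461) (nat_lit 429) (nat_lit 7597) (nat_lit 460) (nat_lit 460))))))) (.a s19062 (.a (.p (nat_lit 462) (.a (.f (nat_lit 557) (nat_lit 589) (nat_lit 5581) (.f (nat_lit 525) (nat_lit 430) (nat_lit 5549) (.d (nat_lit 527) (nat_lit 497) (nat_lit 2541) (nat_lit 556) (nat_lit 1548)))) (.a (.f (nat_lit 429) (nat_lit 461) (nat_lit 7597) (.f (nat_lit 430) (nat_lit 397) (nat_lit 7565) (.d (nat_lit 431) (nat_lit 399) (nat_lit 6542) (nat_lit 463) (nat_lit 6574)))) (.f (nat_lit 461) (nat_lit 429) (nat_lit 7597) (.f (nat_lit 463) (nat_lit 431) (nat_lit 6574) (.f (nat_lit 493) (nat_lit 590) (nat_lit 7629) (.d (nat_lit 464) (nat_lit 465) (nat_lit 1485) (nat_lit 492) (nat_lit 1484)))))))) (.a s21569 (.a s21690 (.a s21691 (.a s19085 (.a (.p (nat_lit 462) (.a (.f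 (nat_lit 461) (nat_lit 429) (nat_lit 7597) (.f (nat_lit 495) (nat_lit 497) (nat_lit 3533) (.d (nat_lit 460) (nat_lit 459) (nat_lit 459) (nat_lit 463) (nat_lit 460)))) (.a (.f (nat_lit 557) (nat_lit 589) (nat_lit 5581) (.f (nat_lit 525) (nat_lit 430) (nat_lit 5549) (.d (nat_lit 527) (nat_lit 497) (nat_lit 2541) (nat_lit 556) (nat_lit 1548)))) (.f (nat_lit 429) (nat_lit 461) (nat_lit 7597) (.f (nat_lit 430) (nat_lit 397) (nat_lit 7565) (.d (nat_lit 431) (nat_lit 399) (nat_lit 6542) (nat_lit 463) (nat_lit 6574))))))) (.p (nat_lit 462) (.a (.f (nat_lit 557) (nat_lit 589) (nat_lit 5581) (.f (nat_lit 525) (nat_lit 430) (nat_lit 5549) (.d (nat_lit 527) (nat_lit 497) (nat_lit 2541) (nat_lit 556) (nat_lit 1548)))) (.a (.f (nat_lit 463) (nat_lit 431) (nat_lit 6574) (.f (nat_lit 495) (nat_lit 590) (nat_lit 6606) (.f (nat_lit 525) (nat_lit 497) (nat_lit 1517) (.d (nat_lit 524) (nat_lit 493) (nat_lit 1516) (nat_lit 523) (nat_lit 2539))))) (.f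 (nat_lit 463) (nat_lit 431) (nat_lit 6574) (.f (nat_lit 590) (nat_lit 495) (nat_lit 6606) (.d (nat_lit 589) (nat_lit 557) (nat_lit 5581) (nat_lit 621) (nat_lit 5613))))))))))))))))
noncomputable def s24046 : Cert := .r (nat_lit 1098367625876631195638990211447803359827765831789854025350228590148069047476135421183724742106088204759328672100049959483405148627549761177659140858869700362240) (.p (nat_lit 495) (.a (.f (nat_lit 525) (nat_lit 497) (nat_lit 1517) (.d (nat_lit 524) (nat_lit 493) (nat_lit 1516) (nat_lit 523) (nat_lit 2539))) (.a (.p (nat_lit 493) (.a (.f (nat_lit 492) (nat_lit 527) (nat_lit 492) (.d (nat_lit 460) (nat_lit 459) (nat_lit 3531) (nat_lit 461) (nat_lit 3532))) (.a (.f (nat_lit 461) (nat_lit 460) (nat_lit 3532) (.f (nat_lit 464) (nat_lit 465) (nat_lit 2509) (.f (nat_lit 463) (nat_lit 492) (nat_lit 2508) (.f (nat_lit 462) (nat_lit 497) (nat_lit 461) (.d (nat_lit 429) (nat_lit 397) (nat_lit 4493) (nat_lit 428) (nat_lit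 3500)))))) (.a (.f (nat_lit 492) (nat_lit 527) (nat_lit 492) (.d (nat_lit 464) (nat_lit 463) (nat_lit 2508) (nat_lit 465) (nat_lit 2509))) (.f (nat_lit 461) (nat_lit 460) (nat_lit 3532) (.f (nat_lit 462) (nat_lit 497) (nat_lit 3533) (.f (nat_lit 464) (nat_lit 465) (nat_lit 2509) (.f (nat_lit 429) (nat_lit 397) (nat_lit 4493) (.f (nat_lit 463) (nat_lit 428) (nat_lit 3500) (.f (nat_lit 432) (nat_lit 433) (nat_lit 2477) (.d (nat_lit 400) (nat_lit 368) (nat_lit 5487) (nat_lit 527) (nat_lit 5519)))))))))))) (.a (.p (nat_lit 493) (.a (.f (nat_lit 492) (nat_lit 527) (nat_lit 492) (.d (nat_lit 460) (nat_lit 459) (nat_lit 3531) (nat_lit 461) (nat_lit 3532))) (.a (.f (nat_lit 525) (nat_lit 524) (nat_lit 1516) (.f (nat_lit 461) (nat_lit 460) (nat_lit 3532) (.f (nat_lit 429) (nat_lit 397) (nat_lit 4493) (.f (nat_lit 430) (nat_lit 398) (nat_lit 6541) (.f (nat_lit 462) (nat_lit 557) (nat_lit 5549) (.f (nat_lit 464) (nat_lit 465) (nat_lit 2509)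 (.d (nat_lit 428) (nat_lit 396) (nat_lit 7564) (nat_lit 463) (nat_lit 3500)))))))) (.f (nat_lit 492) (nat_lit 527) (nat_lit 492) (.d (nat_lit 464) (nat_lit 463) (nat_lit 2508) (nat_lit 465) (nat_lit 2509)))))) (.f (nat_lit 525) (nat_lit 497) (nat_lit 1517) (.d (nat_lit 524) (nat_lit 523) (nat_lit 2539) (nat_lit 527) (nat_lit 2540)))))))
noncomputable def s24053 : Cert := .r (nat_lit 943490607303752963937019840886057434177033664931875938883905600411634630746106260497667102478139433991455298517019633324992605640886346785690119740517314869782049193984) (.p (nat_lit 590) (.a (.f (nat_lit 493) (nat_lit 461) (nat_lit 7629) (.f (nat_lit 525) (nat_lit 622) (nat_lit 7661) (.d (nat_lit 527) (nat_lit 492) (nat_lit 3564) (nat_lit 497) (nat_lit 2541)))) (.a (.f (nat_lit 493) (nat_lit 461) (nat_lit 7629) (.f (nat_lit 622) (nat_lit 525) (nat_lit 7661) (.d (nat_lit 621) (nat_lit 589) (nat_lit 5613) (nat_lit 653) (nat_lit 5645)))) (.a (.f (nat_lit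 495) (nat_lit 463) (nat_lit 6606) (.f (nat_lit 527) (nat_lit 622) (nat_lit 6638) (.d (nat_lit 493) (nat_lit 461) (nat_lit 7629) (nat_lit 492) (nat_lit 492)))) (.a (.f (nat_lit 623) (nat_lit 591) (nat_lit 4590) (.f (nat_lit 622) (nat_lit 655) (nat_lit 4622) (.d (nat_lit 621) (nat_lit 589) (nat_lit 5613) (nat_lit 653) (nat_lit 5645)))) (.f (nat_lit 495) (nat_lit 463) (nat_lit 6606) (.f (nat_lit 493) (nat_lit 461) (nat_lit 7629) (.f (nat_lit 527) (nat_lit 492) (nat_lit 492) (.f (nat_lit 497) (nat_lit 525) (nat_lit 2541) (.d (nat_lit 465) (nat_lit 464) (nat_lit 2509) (nat_lit 466) (nat_lit 2510)))))))))))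
noncomputable def s24055 : Cert := .r (nat_lit 1098367625825484467390612994728847270814834595036468993380805702812392619849633330614901702186037109566736419644567355043912022518030741544129681592411442118656) (.p (nat_lit 494) (.a s22827 (.a s22828 (.a (.p (nat_lit 462) (.a (.p (nat_lit 558) (.a (.f (nat_lit 557) (nat_lit 589) (nat_lit 5581) (.f (nat_lit 525) (nat_lit 430) (nat_lit 5549) (.d (nat_lit 527) (nat_lit 497) (nat_lit 2541) (nat_lit 556) (nat_lit 1548)))) (.a (.f (nat_lit 429) (nat_lit 461) (nat_lit 7597) (.f (nat_lit 430) (nat_lit 397) (nat_lit 7565) (.d (nat_lit 431) (nat_lit 399) (nat_lit 6542) (nat_lit 463) (nat_lit 6574)))) (.f (nat_lit 591) (nat_lit 559) (nat_lit 4558) (.f (nat_lit 590) (nat_lit 623) (nat_lit 4590) (.d (nat_lit 461) (nat_lit 429) (nat_lit 7597) (nat_lit 493) (nat_lit 7629))))))) (.a (.p (nat_lit 558) (.a (.f (nat_lit 429) (nat_lit 461) (nat_lit 7597) (.f (nat_lit 430) (nat_lit 397) (nat_lit 7565)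 (.d (nat_lit 431) (nat_lit 399) (nat_lit 6542) (nat_lit 463) (nat_lit 6574)))) (.a (.f (nat_lit 591) (nat_lit 559) (nat_lit 4558) (.f (nat_lit 590) (nat_lit 623) (nat_lit 4590) (.d (nat_lit 461) (nat_lit 429) (nat_lit 7597) (nat_lit 493) (nat_lit 7629)))) (.f (nat_lit 557) (nat_lit 589) (nat_lit 5581) (.f (nat_lit 430) (nat_lit 525) (nat_lit 5549) (.d (nat_lit 431) (nat_lit 399) (nat_lit 6542) (nat_lit 463) (nat_lit 6574))))))) (.a (.p (nat_lit 558) (.a (.f (nat_lit 557) (nat_lit 589) (nat_lit 5581) (.f (nat_lit 525) (nat_lit 430) (nat_lit 5549) (.d (nat_lit 527) (nat_lit 497) (nat_lit 2541) (nat_lit 556) (nat_lit 1548)))) (.a (.f (nat_lit 429) (nat_lit 461) (nat_lit 7597) (.f (nat_lit 430) (nat_lit 397) (nat_lit 7565) (.d (nat_lit 431) (nat_lit 399) (nat_lit 6542) (nat_lit 463) (nat_lit 6574)))) (.f (nat_lit 461) (nat_lit 429) (nat_lit 7597) (.f (nat_lit 463) (nat_lit 431) (nat_lit 6574) (.f (nat_lit 493) (nat_lit 590) (nat_lit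 7629) (.d (nat_lit 464) (nat_lit 465) (nat_lit 1485) (nat_lit 492) (nat_lit 1484)))))))) (.a (.p (nat_lit 558) (.a (.f (nat_lit 429) (nat_lit 461) (nat_lit 7597) (.f (nat_lit 430) (nat_lit 397) (nat_lit 7565) (.d (nat_lit 431) (nat_lit 399) (nat_lit 6542) (nat_lit 463) (nat_lit 6574)))) (.a (.f (nat_lit 591) (nat_lit 559) (nat_lit 4558) (.f (nat_lit 590) (nat_lit 623) (nat_lit 4590) (.d (nat_lit 461) (nat_lit 429) (nat_lit 7597) (nat_lit 493) (nat_lit 7629)))) (.f (nat_lit 559) (nat_lit 591) (nat_lit 4558) (.f (nat_lit 527) (nat_lit 430) (nat_lit 4526) (.d (nat_lit 557) (nat_lit 556) (nat_lit 2572) (nat_lit 589) (nat_lit 5581))))))) (.a s19513 (.a (.p (nat_lit 558) (.a (.f (nat_lit 557) (nat_lit 589) (nat_lit 5581) (.f (nat_lit 525) (nat_lit 430) (nat_lit 5549) (.d (nat_lit 527) (nat_lit 497) (nat_lit 2541) (nat_lit 556) (nat_lit 1548)))) (.a (.f (nat_lit 429) (nat_lit 461) (nat_lit 7597) (.f (nat_lit 430) (nat_lit 397) (nat_lit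 7565) (.d (nat_lit 431) (nat_lit 399) (nat_lit 6542) (nat_lit 463) (nat_lit 6574)))) (.f (nat_lit 589) (nat_lit 557) (nat_lit 5581) (.f (nat_lit 590) (nat_lit 621) (nat_lit 5613) (.d (nat_lit 591) (nat_lit 559) (nat_lit 4558) (nat_lit 623) (nat_lit 4590))))))) (.a (.p (nat_lit 558) (.a (.f (nat_lit 429) (nat_lit 461) (nat_lit 7597) (.f (nat_lit 430) (nat_lit 397) (nat_lit 7565) (.d (nat_lit 431) (nat_lit 399) (nat_lit 6542) (nat_lit 463) (nat_lit 6574)))) (.a (.f (nat_lit 591) (nat_lit 559) (nat_lit 4558) (.f (nat_lit 590) (nat_lit 623) (nat_lit 4590) (.d (nat_lit 461) (nat_lit 429) (nat_lit 7597) (nat_lit 493) (nat_lit 7629)))) (.f (nat_lit 559) (nat_lit 591) (nat_lit 4558) (.f (nat_lit 430) (nat_lit 527) (nat_lit 4526) (.d (nat_lit 431) (nat_lit 399) (nat_lit 6542) (nat_lit 463) (nat_lit 6574))))))) (.a (.p (nat_lit 558) (.a (.f (nat_lit 557) (nat_lit 589) (nat_lit 5581) (.f (nat_lit 525) (nat_lit 430) (nat_lit 5549) (.d (nat_lit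 527) (nat_lit 497) (nat_lit 2541) (nat_lit 556) (nat_lit 1548)))) (.f (nat_lit 591) (nat_lit 559) (nat_lit 4558) (.f (nat_lit 590) (nat_lit 623) (nat_lit 4590) (.d (nat_lit 461) (nat_lit 429) (nat_lit 7597) (nat_lit 493) (nat_lit 7629)))))) (.a s19529 s19530)))))))))) (.a s24030 (.a s22833 (.a s24046 (.a s22852 (.a s22853 (.a s22854 (.a s22855 (.a s23894 (.a (.p (nat_lit 558) (.a (.p (nat_lit 462) (.a (.f (nat_lit 557) (nat_lit 589) (nat_lit 5581) (.f (nat_lit 525) (nat_lit 430) (nat_lit 5549) (.d (nat_lit 527) (nat_lit 497) (nat_lit 2541) (nat_lit 556) (nat_lit 1548)))) (.a (.f (nat_lit 463) (nat_lit 431) (nat_lit 6574) (.f (nat_lit 495) (nat_lit 590) (nat_lit 6606) (.f (nat_lit 525) (nat_lit 497) (nat_lit 1517) (.d (nat_lit 524) (nat_lit 493) (nat_lit 1516) (nat_lit 523) (nat_lit 2539))))) (.f (nat_lit 559) (nat_lit 591) (nat_lit 4558) (.f (nat_lit 527) (nat_lit 430) (nat_lit 4526) (.d (nat_lit 557) (nat_lit 556) (nat_lit 2572)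 (nat_lit 589) (nat_lit 5581))))))) (.a s21574 (.a s21688 (.a (.p (nat_lit 462) (.a (.f (nat_lit 557) (nat_lit 589) (nat_lit 5581) (.f (nat_lit 525) (nat_lit 430) (nat_lit 5549) (.d (nat_lit 527) (nat_lit 497) (nat_lit 2541) (nat_lit 556) (nat_lit 1548)))) (.a (.f (nat_lit 463) (nat_lit 431) (nat_lit 6574) (.f (nat_lit 495) (nat_lit 590) (nat_lit 6606) (.f (nat_lit 525) (nat_lit 497) (nat_lit 1517) (.d (nat_lit 524) (nat_lit 493) (nat_lit 1516) (nat_lit 523) (nat_lit 2539))))) (.f (nat_lit 463) (nat_lit 431) (nat_lit 6574) (.f (nat_lit 590) (nat_lit 495) (nat_lit 6606) (.d (nat_lit 589) (nat_lit 557) (nat_lit 5581) (nat_lit 621) (nat_lit 5613))))))) (.a (.p (nat_lit 462) (.a (.f (nat_lit 559) (nat_lit 591) (nat_lit 4558) (.f (nat_lit 527) (nat_lit 430) (nat_lit 4526) (.d (nat_lit 557) (nat_lit 556) (nat_lit 2572) (nat_lit 589) (nat_lit 5581)))) (.a (.f (nat_lit 463) (nat_lit 431) (nat_lit 6574) (.f (nat_lit 590) (nat_lit 495) (nat_lit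 6606) (.d (nat_lit 589) (nat_lit 557) (nat_lit 5581) (nat_lit 621) (nat_lit 5613)))) (.f (nat_lit 559) (nat_lit 591) (nat_lit 4558) (.f (nat_lit 430) (nat_lit 527) (nat_lit 4526) (.d (nat_lit 431) (nat_lit 399) (nat_lit 6542) (nat_lit 463) (nat_lit 6574))))))) (.a (.p (nat_lit 462) (.a (.f (nat_lit 557) (nat_lit 589) (nat_lit 5581) (.f (nat_lit 525) (nat_lit 430) (nat_lit 5549) (.d (nat_lit 527) (nat_lit 497) (nat_lit 2541) (nat_lit 556) (nat_lit 1548)))) (.a (.f (nat_lit 589) (nat_lit 557) (nat_lit 5581) (.f (nat_lit 590) (nat_lit 621) (nat_lit 5613) (.d (nat_lit 591) (nat_lit 559) (nat_lit 4558) (nat_lit 623) (nat_lit 4590)))) (.f (nat_lit 559) (nat_lit 591) (nat_lit 4558) (.f (nat_lit 527) (nat_lit 430) (nat_lit 4526) (.f (nat_lit 525) (nat_lit 497) (nat_lit 2541) (.d (nat_lit 524) (nat_lit 495) (nat_lit 2540) (nat_lit 523) (nat_lit 523)))))))) (.a (.p (nat_lit 590) (.a (.f (nat_lit 495) (nat_lit 463) (nat_lit 6606) (.f (nat_lit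 525) (nat_lit 497) (nat_lit 1517) (.d (nat_lit 524) (nat_lit 523) (nat_lit 2539) (nat_lit 527) (nat_lit 2540)))) (.f (nat_lit 623) (nat_lit 591) (nat_lit 4590) (.f (nat_lit 622) (nat_lit 655) (nat_lit 4622) (.d (nat_lit 621) (nat_lit 589) (nat_lit 5613) (nat_lit 653) (nat_lit 5645)))))) (.a s22725 s21808))))))))) (.p (nat_lit 558) (.a (.p (nat_lit 462) (.a (.f (nat_lit 461) (nat_lit 429) (nat_lit 7597) (.f (nat_lit 495) (nat_lit 497) (nat_lit 3533) (.d (nat_lit 460) (nat_lit 459) (nat_lit 459) (nat_lit 463) (nat_lit 460)))) (.a (.f (nat_lit 557) (nat_lit 589) (nat_lit 5581) (.f (nat_lit 525) (nat_lit 430) (nat_lit 5549) (.d (nat_lit 527) (nat_lit 497) (nat_lit 2541) (nat_lit 556) (nat_lit 1548)))) (.f (nat_lit 463) (nat_lit 431) (nat_lit 6574) (.f (nat_lit 495) (nat_lit 590) (nat_lit 6606) (.d (nat_lit 461) (nat_lit 429) (nat_lit 7597) (nat_lit 460) (nat_lit 460))))))) (.a (.p (nat_lit 462) (.a (.f (nat_lit 429) (nat_lit 461) (nat_lit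 7597) (.f (nat_lit 430) (nat_lit 397) (nat_lit 7565) (.d (nat_lit 431) (nat_lit 399) (nat_lit 6542) (nat_lit 463) (nat_lit 6574)))) (.a (.f (nat_lit 591) (nat_lit 559) (nat_lit 4558) (.f (nat_lit 590) (nat_lit 623) (nat_lit 4590) (.d (nat_lit 461) (nat_lit 429) (nat_lit 7597) (nat_lit 493) (nat_lit 7629)))) (.f (nat_lit 557) (nat_lit 589) (nat_lit 5581) (.f (nat_lit 430) (nat_lit 525) (nat_lit 5549) (.d (nat_lit 431) (nat_lit 399) (nat_lit 6542) (nat_lit 463) (nat_lit 6574))))))) (.a s19070 (.a (.p (nat_lit 462) (.a (.f (nat_lit 557) (nat_lit 589) (nat_lit 5581) (.f (nat_lit 525) (nat_lit 430) (nat_lit 5549) (.d (nat_lit 527) (nat_lit 497) (nat_lit 2541) (nat_lit 556) (nat_lit 1548)))) (.a (.f (nat_lit 461) (nat_lit 429) (nat_lit 7597) (.f (nat_lit 493) (nat_lit 590) (nat_lit 7629) (.d (nat_lit 495) (nat_lit 460) (nat_lit 3532) (nat_lit 497) (nat_lit 3533)))) (.f (nat_lit 591) (nat_lit 559) (nat_lit 4558) (.f (nat_lit 590) (nat_lit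 623) (nat_lit 4590) (.d (nat_lit 461) (nat_lit 429) (nat_lit 7597) (nat_lit 493) (nat_lit 7629))))))) (.a (.p (nat_lit 462) (.a (.f (nat_lit 429) (nat_lit 461) (nat_lit 7597) (.f (nat_lit 430) (nat_lit 397) (nat_lit 7565) (.d (nat_lit 431) (nat_lit 399) (nat_lit 6542) (nat_lit 463) (nat_lit 6574)))) (.a (.f (nat_lit 591) (nat_lit 559) (nat_lit 4558) (.f (nat_lit 590) (nat_lit 623) (nat_lit 4590) (.d (nat_lit 461) (nat_lit 429) (nat_lit 7597) (nat_lit 493) (nat_lit 7629)))) (.f (nat_lit 559) (nat_lit 591) (nat_lit 4558) (.f (nat_lit 430) (nat_lit 527) (nat_lit 4526) (.d (nat_lit 431) (nat_lit 399) (nat_lit 6542) (nat_lit 463) (nat_lit 6574))))))) (.a s24053 (.a (.p (nat_lit 462) (.a (.f (nat_lit 461) (nat_lit 429) (nat_lit 7597) (.f (nat_lit 495) (nat_lit 497) (nat_lit 3533) (.d (nat_lit 460) (nat_lit 459) (nat_lit 459) (nat_lit 463) (nat_lit 460)))) (.a (.f (nat_lit 557) (nat_lit 589) (nat_lit 5581) (.f (nat_lit 525) (nat_lit 430)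 (nat_lit 5549) (.d (nat_lit 527) (nat_lit 497) (nat_lit 2541) (nat_lit 556) (nat_lit 1548)))) (.f (nat_lit 429) (nat_lit 461) (nat_lit 7597) (.f (nat_lit 430) (nat_lit 397) (nat_lit 7565) (.d (nat_lit 431) (nat_lit 399) (nat_lit 6542) (nat_lit 463) (nat_lit 6574))))))) (.p (nat_lit 462) (.a (.f (nat_lit 559) (nat_lit 591) (nat_lit 4558) (.f (nat_lit 527) (nat_lit 430) (nat_lit 4526) (.d (nat_lit 557) (nat_lit 556) (nat_lit 2572) (nat_lit 589) (nat_lit 5581)))) (.a (.f (nat_lit 463) (nat_lit 431) (nat_lit 6574) (.f (nat_lit 590) (nat_lit 495) (nat_lit 6606) (.d (nat_lit 589) (nat_lit 557) (nat_lit 5581) (nat_lit 621) (nat_lit 5613)))) (.f (nat_lit 559) (nat_lit 591) (nat_lit 4558) (.f (nat_lit 430) (nat_lit 527) (nat_lit 4526) (.d (nat_lit 431) (nat_lit 399) (nat_lit 6542) (nat_lit 463) (nat_lit 6574))))))))))))))))))))))))))))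
noncomputable def s24094 : Cert := .r (nat_lit 4717453032125294316127427693625949108374998796335385130506726868687835905802578684957291737086975161612872578355191225769280585831318013308732534358420551646973186277376) (.p (nat_lit 464) (.a (.f (nat_lit 431) (nat_lit 463) (nat_lit 7599) (.f (nat_lit 432) (nat_lit 399) (nat_lit 7567) (.d (nat_lit 433) (nat_lit 401) (nat_lit 6544) (nat_lit 465) (nat_lit 6576)))) (.a (.f (nat_lit 559) (nat_lit 591) (nat_lit 5583) (.f (nat_lit 557) (nat_lit 529) (nat_lit 2573) (.f (nat_lit 592) (nat_lit 593) (nat_lit 557) (.d (nat_lit 463) (nat_lit 431) (nat_lit 7599) (nat_lit 495) (nat_lit 7631))))) (.f (nat_lit 559) (nat_lit 591) (nat_lit 5583) (.f (nat_lit 557) (nat_lit 529) (nat_lit 2573) (.f (nat_lit 525) (nat_lit 524) (nat_lit 3596) (.f (nat_lit 589) (nat_lit 588) (nat_lit 1580) (.f (nat_lit 621) (nat_lit 653) (nat_lit 6669) (.f (nat_lit 622) (nat_lit 654) (nat_lit 4621) (.f (nat_lit 493) (nat_lit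 590) (nat_lit 7661) (.f (nat_lit 461) (nat_lit 429) (nat_lit 4525) (.d (nat_lit 460) (nat_lit 428) (nat_lit 7596) (nat_lit 492) (nat_lit 7628)))))))))))))
noncomputable def s24114 : Cert := .r (nat_lit 943490607303752963937019840886057434177033664931875938883905600411634630746106260497667102478139433991455298517019633324992605640886346785690119740517314869782049193984) (.p (nat_lit 591) (.a (.f (nat_lit 590) (nat_lit 623) (nat_lit 4590) (.f (nat_lit 589) (nat_lit 621) (nat_lit 5613) (.f (nat_lit 557) (nat_lit 462) (nat_lit 5581) (.d (nat_lit 556) (nat_lit 555) (nat_lit 555) (nat_lit 592) (nat_lit 3628))))) (.a (.f (nat_lit 462) (nat_lit 559) (nat_lit 4558) (.f (nat_lit 590) (nat_lit 623) (nat_lit 4590) (.d (nat_lit 589) (nat_lit 557) (nat_lit 5581) (nat_lit 621) (nat_lit 5613)))) (.a (.f (nat_lit 559) (nat_lit 462) (nat_lit 4558) (.d (nat_lit 623) (nat_lit 590) (nat_lit 4590) (nat_lit 655) (nat_lit 7694))) (.a (.f (nat_lit 623) (nat_lit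 590) (nat_lit 4590) (.f (nat_lit 559) (nat_lit 655) (nat_lit 7694) (.f (nat_lit 560) (nat_lit 592) (nat_lit 5615) (.f (nat_lit 529) (nat_lit 557) (nat_lit 2573) (.d (nat_lit 530) (nat_lit 531) (nat_lit 1551) (nat_lit 561) (nat_lit 2574)))))) (.f (nat_lit 462) (nat_lit 559) (nat_lit 4558) (.f (nat_lit 557) (nat_lit 589) (nat_lit 5581) (.f (nat_lit 430) (nat_lit 525) (nat_lit 5549) (.d (nat_lit 429) (nat_lit 397) (nat_lit 7565) (nat_lit 461) (nat_lit 7597))))))))))
noncomputable def s24115 : Cert := .r (nat_lit 943490607303752963885873112637680217458077575918944702130520568442211743410429832871165011909316394071404203324427380869510001201393220676171100106987855603323790950400) (.p (nat_lit 494) (.a (.p (nat_lit 462) (.a (.f (nat_lit 461) (nat_lit 429) (nat_lit 7597) (.f (nat_lit 493) (nat_lit 590) (nat_lit 7629) (.d (nat_lit 495) (nat_lit 460) (nat_lit 3532) (nat_lit 497) (nat_lit 3533)))) (.a (.f (nat_lit 591) (nat_lit 559) (nat_lit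 4558) (.f (nat_lit 590) (nat_lit 623) (nat_lit 4590) (.d (nat_lit 461) (nat_lit 429) (nat_lit 7597) (nat_lit 493) (nat_lit 7629)))) (.f (nat_lit 557) (nat_lit 589) (nat_lit 5581) (.f (nat_lit 559) (nat_lit 591) (nat_lit 4558) (.f (nat_lit 525) (nat_lit 430) (nat_lit 5549) (.d (nat_lit 524) (nat_lit 523) (nat_lit 523) (nat_lit 560) (nat_lit 3596)))))))) (.a (.p (nat_lit 462) (.a (.f (nat_lit 591) (nat_lit 559) (nat_lit 4558) (.f (nat_lit 590) (nat_lit 623) (nat_lit 4590) (.d (nat_lit 461) (nat_lit 429) (nat_lit 7597) (nat_lit 493) (nat_lit 7629)))) (.a (.f (nat_lit 429) (nat_lit 461) (nat_lit 7597) (.f (nat_lit 430) (nat_lit 397) (nat_lit 7565) (.d (nat_lit 557) (nat_lit 525) (nat_lit 5549) (nat_lit 589) (nat_lit 5581)))) (.f (nat_lit 589) (nat_lit 557) (nat_lit 5581) (.f (nat_lit 590) (nat_lit 621) (nat_lit 5613) (.d (nat_lit 591) (nat_lit 559) (nat_lit 4558) (nat_lit 623) (nat_lit 4590))))))) (.a (.p (nat_lit 462) (.a (.f (nat_lit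 461) (nat_lit 429) (nat_lit 7597) (.f (nat_lit 493) (nat_lit 590) (nat_lit 7629) (.d (nat_lit 495) (nat_lit 460) (nat_lit 3532) (nat_lit 497) (nat_lit 3533)))) (.a (.f (nat_lit 429) (nat_lit 461) (nat_lit 7597) (.f (nat_lit 430) (nat_lit 397) (nat_lit 7565) (.d (nat_lit 557) (nat_lit 525) (nat_lit 5549) (nat_lit 589) (nat_lit 5581)))) (.f (nat_lit 557) (nat_lit 589) (nat_lit 5581) (.f (nat_lit 525) (nat_lit 430) (nat_lit 5549) (.f (nat_lit 495) (nat_lit 497) (nat_lit 1517) (.d (nat_lit 493) (nat_lit 524) (nat_lit 1516) (nat_lit 529) (nat_lit 493)))))))) (.a s21571 (.a s24114 (.a (.p (nat_lit 590) (.a (.f (nat_lit 493) (nat_lit 461) (nat_lit 7629) (.f (nat_lit 622) (nat_lit 525) (nat_lit 7661) (.d (nat_lit 621) (nat_lit 589) (nat_lit 5613) (nat_lit 653) (nat_lit 5645)))) (.a (.f (nat_lit 623) (nat_lit 591) (nat_lit 4590) (.f (nat_lit 622) (nat_lit 655) (nat_lit 4622) (.d (nat_lit 621) (nat_lit 589) (nat_lit 5613) (nat_lit 653) (nat_lit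 5645)))) (.f (nat_lit 461) (nat_lit 493) (nat_lit 7629) (.f (nat_lit 462) (nat_lit 429) (nat_lit 7597) (.d (nat_lit 591) (nat_lit 559) (nat_lit 4558) (nat_lit 623) (nat_lit 4590))))))) (.a s22002 s22037))))))))
noncomputable def s24116 : Cert := .r (nat_lit 943490607303752963885873112637680217458077575918944702130520568442211743410429832871165011909316394071404203324427380869510001201393220676171100106987855603323790950400) (.p (nat_lit 494) (.a s19062 (.a (.p (nat_lit 590) (.a (.f (nat_lit 493) (nat_lit 461) (nat_lit 7629) (.f (nat_lit 622) (nat_lit 525) (nat_lit 7661) (.d (nat_lit 621) (nat_lit 589) (nat_lit 5613) (nat_lit 653) (nat_lit 5645)))) (.a (.f (nat_lit 623) (nat_lit 591) (nat_lit 4590) (.f (nat_lit 622) (nat_lit 655) (nat_lit 4622) (.d (nat_lit 621) (nat_lit 589) (nat_lit 5613) (nat_lit 653) (nat_lit 5645)))) (.f (nat_lit 461) (nat_lit 493) (nat_lit 7629) (.f (nat_lit 462) (nat_lit 429) (nat_lit 7597) (.d (nat_lit 591)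 (nat_lit 559) (nat_lit 4558) (nat_lit 623) (nat_lit 4590))))))) (.a s19098 (.a (.p (nat_lit 590) (.a (.f (nat_lit 495) (nat_lit 463) (nat_lit 6606) (.f (nat_lit 497) (nat_lit 525) (nat_lit 1517) (.f (nat_lit 465) (nat_lit 466) (nat_lit 2510) (.f (nat_lit 529) (nat_lit 530) (nat_lit 494) (.d (nat_lit 433) (nat_lit 401) (nat_lit 5520) (nat_lit 560) (nat_lit 5552)))))) (.f (nat_lit 623) (nat_lit 591) (nat_lit 4590) (.f (nat_lit 622) (nat_lit 655) (nat_lit 4622) (.d (nat_lit 621) (nat_lit 589) (nat_lit 5613) (nat_lit 653) (nat_lit 5645)))))) s21997)))))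
noncomputable def s24127 : Cert := .r (nat_lit 943490607303752963937019840886057434177033664931875938883905600411634630746106260497667102478139433991455298517019633324992605640886346785690119740517314869782049193984) (.p (nat_lit 462) (.a (.f (nat_lit 557) (nat_lit 589) (nat_lit 5581) (.f (nat_lit 559) (nat_lit 591) (nat_lit 4558) (.f (nat_lit 525) (nat_lit 430) (nat_lit 5549) (.d (nat_lit 524) (nat_lit 523) (nat_lit 523) (nat_lit 560) (nat_lit 3596))))) (.a (.f (nat_lit 557) (nat_lit 589) (nat_lit 5581) (.f (nat_lit 430) (nat_lit 525) (nat_lit 5549) (.d (nat_lit 431) (nat_lit 399) (nat_lit 6542) (nat_lit 463) (nat_lit 6574)))) (.a (.f (nat_lit 557) (nat_lit 589) (nat_lit 5581) (.f (nat_lit 559) (nat_lit 591) (nat_lit 4558) (.f (nat_lit 529) (nat_lit 560) (nat_lit 2573) (.f (nat_lit 495) (nat_lit 493) (nat_lit 493) (.d (nat_lit 530) (nat_lit 497) (nat_lit 494) (nat_lit 531) (nat_lit 3567)))))) (.f (nat_lit 431) (nat_lit 463) (nat_lit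 6574) (.f (nat_lit 430) (nat_lit 399) (nat_lit 6542) (.f (nat_lit 397) (nat_lit 429) (nat_lit 7565) (.f (nat_lit 398) (nat_lit 365) (nat_lit 7533) (.f (nat_lit 525) (nat_lit 493) (nat_lit 5517) (.f (nat_lit 559) (nat_lit 591) (nat_lit 4558) (.f (nat_lit 560) (nat_lit 561) (nat_lit 3597) (.f (nat_lit 433) (nat_lit 432) (nat_lit 3469) (.f (nat_lit 465) (nat_lit 464) (nat_lit 6576) (.d (nat_lit 497) (nat_lit 401) (nat_lit 5520) (nat_lit 495) (nat_lit 1517)))))))))))))))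
noncomputable def s24128 : Cert := .r (nat_lit 943490607303752963885873112637680217458077575918944702130520568442211743410429832871165011909316394071404203324427380869510001201393220676171100106987855603323790950400) (.p (nat_lit 494) (.a (.p (nat_lit 462) (.a (.f (nat_lit 461) (nat_lit 429) (nat_lit 7597) (.f (nat_lit 495) (nat_lit 497) (nat_lit 3533) (.d (nat_lit 460) (nat_lit 459) (nat_lit 459) (nat_lit 463) (nat_lit 460)))) (.a (.f (nat_lit 429) (nat_lit 461) (nat_lit 7597) (.f (nat_lit 430) (nat_lit 397) (nat_lit 7565) (.d (nat_lit 431) (nat_lit 399) (nat_lit 6542) (nat_lit 463) (nat_lit 6574)))) (.f (nat_lit 557) (nat_lit 589) (nat_lit 5581) (.f (nat_lit 559) (nat_lit 591) (nat_lit 4558) (.f (nat_lit 525) (nat_lit 430) (nat_lit 5549) (.d (nat_lit 524) (nat_lit 523) (nat_lit 523) (nat_lit 560) (nat_lit 3596)))))))) (.a s21863 (.a s21573 (.a s21904 (.a s21997 (.a s22002 (.a s24127 s22022))))))))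
noncomputable def s24139 : Cert := .r (nat_lit 943490607303752963937019840886057434177033664931875938883905600411634630746106260497667102478139433991455298517019633324992605640886346785690119740517314869782049193984) (.p (nat_lit 462) (.a (.f (nat_lit 461) (nat_lit 429) (nat_lit 7597) (.f (nat_lit 495) (nat_lit 497) (nat_lit 3533) (.d (nat_lit 460) (nat_lit 459) (nat_lit 459) (nat_lit 463) (nat_lit 460)))) (.a (.f (nat_lit 429) (nat_lit 461) (nat_lit 7597) (.f (nat_lit 430) (nat_lit 397) (nat_lit 7565) (.d (nat_lit 431) (nat_lit 399) (nat_lit 6542) (nat_lit 463) (nat_lit 6574)))) (.a (.f (nat_lit 559) (nat_lit 591) (nat_lit 4558) (.f (nat_lit 429) (nat_lit 461) (nat_lit 7597) (.f (nat_lit 430) (nat_lit 397) (nat_lit 7565) (.f (nat_lit 525) (nat_lit 557) (nat_lit 5549) (.f (nat_lit 399) (nat_lit 431) (nat_lit 6542) (.f (nat_lit 398) (nat_lit 367) (nat_lit 6510) (.f (nat_lit 560) (nat_lit 561) (nat_lit 3597) (.f (nat_lit 497) (nat_lit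 495) (nat_lit 1517) (.f (nat_lit 465) (nat_lit 592) (nat_lit 6608) (.d (nat_lit 401) (nat_lit 400) (nat_lit 1421) (nat_lit 433) (nat_lit 5520))))))))))) (.f (nat_lit 463) (nat_lit 431) (nat_lit 6574) (.f (nat_lit 495) (nat_lit 590) (nat_lit 6606) (.f (nat_lit 497) (nat_lit 525) (nat_lit 1517) (.f (nat_lit 465) (nat_lit 466) (nat_lit 2510) (.f (nat_lit 529) (nat_lit 530) (nat_lit 494) (.f (nat_lit 433) (nat_lit 401) (nat_lit 5520) (.d (nat_lit 434) (nat_lit 402) (nat_lit 6545) (nat_lit 464) (nat_lit 2478))))))))))))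
noncomputable def s24140 : Cert := .r (nat_lit 943490607303752963885873112637680217458077575918944702130520568442211743410429832871165011909316394071404203324427380869510001201393220676171100106987855603323790950400) (.p (nat_lit 494) (.a s19062 (.a s21889 (.a s19098 (.a s24139 (.a s21997 (.a s22002 (.a s22038 s22045))))))))
noncomputable def s24147 : Cert := .r (nat_lit 1537714676073843489149454645870056436720078454245640539582051364200267383587083317950745519188370201085283383573622129958287829750012606748134419403042805776384) (.p (nat_lit 529) (.a (.f (nat_lit 493) (nat_lit 494) (nat_lit 3565) (.f (nat_lit 525) (nat_lit 492) (nat_lit 3564) (.d (nat_lit 557) (nat_lit 556) (nat_lit 1548) (nat_lit 558) (nat_lit 1549)))) (.a (.f (nat_lit 494) (nat_lit 493) (nat_lit 3565) (.f (nat_lit 530) (nat_lit 495) (nat_lit 3566) (.d (nat_lit 562) (nat_lit 561) (nat_lit 526) (nat_lit 563) (nat_lit 527)))) (.a (.f (nat_lit 557) (nat_lit 558) (nat_lit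 1549) (.f (nat_lit 525) (nat_lit 556) (nat_lit 1548) (.f (nat_lit 492) (nat_lit 493) (nat_lit 3564) (.d (nat_lit 524) (nat_lit 491) (nat_lit 3563) (nat_lit 495) (nat_lit 2540))))) (.f (nat_lit 557) (nat_lit 558) (nat_lit 1549) (.f (nat_lit 525) (nat_lit 556) (nat_lit 1548) (.f (nat_lit 495) (nat_lit 524) (nat_lit 2540) (.d (nat_lit 530) (nat_lit 494) (nat_lit 3566) (nat_lit 531) (nat_lit 3567)))))))))
noncomputable def s24148 : Cert := .r (nat_lit 1098367625825484467390612994728847270814834595036468993380805702812392619849633330614901702186037109566736419644567355043912022518030741544129681592411442118656) (.p (nat_lit 527) (.a (.f (nat_lit 525) (nat_lit 497) (nat_lit 2541) (.f (nat_lit 557) (nat_lit 556) (nat_lit 1548) (.f (nat_lit 493) (nat_lit 492) (nat_lit 3564) (.d (nat_lit 529) (nat_lit 494) (nat_lit 3565) (nat_lit 558) (nat_lit 1549))))) (.a (.f (nat_lit 525) (nat_lit 497) (nat_lit 2541) (.f (nat_lit 524) (nat_lit 495) (nat_lit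 2540) (.d (nat_lit 492) (nat_lit 491) (nat_lit 3563) (nat_lit 493) (nat_lit 3564)))) (.a (.p (nat_lit 529) (.a (.f (nat_lit 561) (nat_lit 562) (nat_lit 526) (.f (nat_lit 464) (nat_lit 432) (nat_lit 4528) (.d (nat_lit 593) (nat_lit 497) (nat_lit 7632) (nat_lit 625) (nat_lit 7664)))) (.a (.f (nat_lit 494) (nat_lit 493) (nat_lit 3565) (.f (nat_lit 530) (nat_lit 495) (nat_lit 3566) (.d (nat_lit 562) (nat_lit 561) (nat_lit 526) (nat_lit 563) (nat_lit 527)))) (.f (nat_lit 494) (nat_lit 493) (nat_lit 3565) (.f (nat_lit 495) (nat_lit 530) (nat_lit 3566) (.f (nat_lit 558) (nat_lit 557) (nat_lit 1549) (.d (nat_lit 463) (nat_lit 431) (nat_lit 5550) (nat_lit 590) (nat_lit 6606)))))))) (.a s24147 (.f (nat_lit 525) (nat_lit 497) (nat_lit 2541) (.f (nat_lit 524) (nat_lit 495) (nat_lit 2540) (.d (nat_lit 556) (nat_lit 555) (nat_lit 1547) (nat_lit 557) (nat_lit 1548)))))))))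
noncomputable def s24179 : Cert := .r (nat_lit 878694100701304956511192169158242687862212665431883220280182872118455237980908336946979793684870563807462937680039967586724118902039808942127312687095760289792) (.p (nat_lit 526) (.a s19025 (.a s24055 (.a (.p (nat_lit 558) (.a s19113 (.a s21575 (.a (.p (nat_lit 560) (.a s22641 (.a (.p (nat_lit 464) (.a (.f (nat_lit 559) (nat_lit 591) (nat_lit 5583) (.d (nat_lit 561) (nat_lit 525) (nat_lit 3597) (nat_lit 593) (nat_lit 4560))) (.f (nat_lit 431) (nat_lit 463) (nat_lit 7599) (.f (nat_lit 432) (nat_lit 399) (nat_lit 7567) (.d (nat_lit 433) (nat_lit 401) (nat_lit 6544) (nat_lit 465) (nat_lit 6576)))))) (.a (.p (nat_lit 464) (.a (.f (nat_lit 431) (nat_lit 463) (nat_lit 7599) (.f (nat_lit 432) (nat_lit 399) (nat_lit 7567) (.d (nat_lit 433) (nat_lit 401) (nat_lit 6544) (nat_lit 465) (nat_lit 6576)))) (.f (nat_lit 593) (nat_lit 561) (nat_lit 4560) (.f (nat_lit 592) (nat_lit 625) (nat_lit 4592)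 (.f (nat_lit 591) (nat_lit 623) (nat_lit 5615) (.f (nat_lit 590) (nat_lit 557) (nat_lit 3629) (.f (nat_lit 621) (nat_lit 622) (nat_lit 1613) (.d (nat_lit 589) (nat_lit 494) (nat_lit 5613) (nat_lit 620) (nat_lit 1612))))))))) (.a (.p (nat_lit 464) (.a (.f (nat_lit 431) (nat_lit 463) (nat_lit 7599) (.f (nat_lit 432) (nat_lit 399) (nat_lit 7567) (.d (nat_lit 433) (nat_lit 401) (nat_lit 6544) (nat_lit 465) (nat_lit 6576)))) (.f (nat_lit 559) (nat_lit 591) (nat_lit 5583) (.f (nat_lit 557) (nat_lit 529) (nat_lit 2573) (.f (nat_lit 525) (nat_lit 524) (nat_lit 3596) (.f (nat_lit 589) (nat_lit 588) (nat_lit 1580) (.d (nat_lit 494) (nat_lit 462) (nat_lit 5581) (nat_lit 621) (nat_lit 6637)))))))) s22672))))) (.a s21897 (.a s21905 (.a (.p (nat_lit 560) (.a s21929 (.a (.p (nat_lit 464) (.a (.f (nat_lit 559) (nat_lit 591) (nat_lit 5583) (.d (nat_lit 561) (nat_lit 525) (nat_lit 3597) (nat_lit 593) (nat_lit 4560))) (.f (nat_lit 431) (nat_lit 463)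 (nat_lit 7599) (.f (nat_lit 432) (nat_lit 399) (nat_lit 7567) (.d (nat_lit 433) (nat_lit 401) (nat_lit 6544) (nat_lit 465) (nat_lit 6576)))))) (.a (.p (nat_lit 464) (.a (.f (nat_lit 431) (nat_lit 463) (nat_lit 7599) (.f (nat_lit 432) (nat_lit 399) (nat_lit 7567) (.d (nat_lit 433) (nat_lit 401) (nat_lit 6544) (nat_lit 465) (nat_lit 6576)))) (.a (.f (nat_lit 463) (nat_lit 431) (nat_lit 7599) (.f (nat_lit 592) (nat_lit 495) (nat_lit 7631) (.d (nat_lit 593) (nat_lit 561) (nat_lit 4560) (nat_lit 625) (nat_lit 4592)))) (.f (nat_lit 561) (nat_lit 593) (nat_lit 4560) (.f (nat_lit 432) (nat_lit 529) (nat_lit 4528) (.d (nat_lit 433) (nat_lit 401) (nat_lit 6544) (nat_lit 465) (nat_lit 6576))))))) (.a s24094 s21941))))) (.a s21983 (.a s24115 (.a s24116 (.a s24128 s24140))))))))))) (.a s19184 (.a s24148 (.a s19244 (.a s19247 (.a (.p (nat_lit 464) (.a s19217 (.a (.p (nat_lit 560) (.a (.f (nat_lit 559) (nat_lit 591) (nat_lit 5583) (.f (nat_lit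 527) (nat_lit 432) (nat_lit 5551) (.d (nat_lit 525) (nat_lit 524) (nat_lit 524) (nat_lit 561) (nat_lit 525)))) (.a (.f (nat_lit 433) (nat_lit 465) (nat_lit 6576) (.f (nat_lit 432) (nat_lit 401) (nat_lit 6544) (.d (nat_lit 431) (nat_lit 399) (nat_lit 7567) (nat_lit 463) (nat_lit 7599)))) (.f (nat_lit 561) (nat_lit 593) (nat_lit 4560) (.f (nat_lit 527) (nat_lit 525) (nat_lit 525) (.d (nat_lit 559) (nat_lit 562) (nat_lit 3598) (nat_lit 591) (nat_lit 5583))))))) (.a (.p (nat_lit 527) (.a (.f (nat_lit 432) (nat_lit 559) (nat_lit 5551) (.f (nat_lit 529) (nat_lit 561) (nat_lit 4528) (.f (nat_lit 400) (nat_lit 497) (nat_lit 4496) (.d (nat_lit 399) (nat_lit 367) (nat_lit 7535) (nat_lit 431) (nat_lit 7567))))) (.a (.f (nat_lit 432) (nat_lit 559) (nat_lit 5551) (.f (nat_lit 399) (nat_lit 431) (nat_lit 7567) (.f (nat_lit 400) (nat_lit 367) (nat_lit 7535) (.d (nat_lit 401) (nat_lit 369) (nat_lit 6512) (nat_lit 433) (nat_lit 6544))))) (.a (.f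 (nat_lit 525) (nat_lit 497) (nat_lit 2541) (.f (nat_lit 493) (nat_lit 492) (nat_lit 3564) (.f (nat_lit 529) (nat_lit 494) (nat_lit 3565) (.d (nat_lit 561) (nat_lit 432) (nat_lit 4528) (nat_lit 562) (nat_lit 526))))) (.f (nat_lit 525) (nat_lit 497) (nat_lit 2541) (.f (nat_lit 524) (nat_lit 495) (nat_lit 2540) (.d (nat_lit 492) (nat_lit 491) (nat_lit 3563) (nat_lit 493) (nat_lit 3564)))))))) (.a s19232 (.a (.p (nat_lit 560) (.a (.f (nat_lit 561) (nat_lit 593) (nat_lit 4560) (.f (nat_lit 527) (nat_lit 525) (nat_lit 525) (.d (nat_lit 559) (nat_lit 562) (nat_lit 3598) (nat_lit 591) (nat_lit 5583)))) (.a (.f (nat_lit 463) (nat_lit 431) (nat_lit 7599) (.f (nat_lit 592) (nat_lit 495) (nat_lit 7631) (.d (nat_lit 591) (nat_lit 559) (nat_lit 5583) (nat_lit 623) (nat_lit 5615)))) (.f (nat_lit 463) (nat_lit 431) (nat_lit 7599) (.f (nat_lit 592) (nat_lit 495) (nat_lit 7631) (.d (nat_lit 593) (nat_lit 561) (nat_lit 4560) (nat_lit 625) (nat_lit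 4592))))))) (.p (nat_lit 560) (.a (.f (nat_lit 561) (nat_lit 593) (nat_lit 4560) (.f (nat_lit 527) (nat_lit 525) (nat_lit 525) (.d (nat_lit 559) (nat_lit 562) (nat_lit 3598) (nat_lit 591) (nat_lit 5583)))) (.a (.f (nat_lit 465) (nat_lit 433) (nat_lit 6576) (.f (nat_lit 592) (nat_lit 497) (nat_lit 6608) (.d (nat_lit 591) (nat_lit 559) (nat_lit 5583) (nat_lit 623) (nat_lit 5615)))) (.f (nat_lit 465) (nat_lit 433) (nat_lit 6576) (.f (nat_lit 592) (nat_lit 497) (nat_lit 6608) (.d (nat_lit 593) (nat_lit 561) (nat_lit 4560) (nat_lit 625) (nat_lit 4592))))))))))))) (.a s19282 (.p (nat_lit 464) (.a (.p (nat_lit 560) (.a (.f (nat_lit 465) (nat_lit 433) (nat_lit 6576) (.f (nat_lit 592) (nat_lit 497) (nat_lit 6608) (.d (nat_lit 463) (nat_lit 431) (nat_lit 7599) (nat_lit 495) (nat_lit 7631)))) (.f (nat_lit 561) (nat_lit 593) (nat_lit 4560) (.f (nat_lit 529) (nat_lit 432) (nat_lit 4528) (.f (nat_lit 559) (nat_lit 591) (nat_lit 5583) (.d (nat_lit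 530) (nat_lit 531) (nat_lit 1551) (nat_lit 558) (nat_lit 2574))))))) (.a s19217 (.a (.p (nat_lit 560) (.a (.f (nat_lit 561) (nat_lit 593) (nat_lit 4560) (.f (nat_lit 529) (nat_lit 432) (nat_lit 4528) (.f (nat_lit 559) (nat_lit 591) (nat_lit 5583) (.d (nat_lit 530) (nat_lit 531) (nat_lit 1551) (nat_lit 558) (nat_lit 2574))))) (.a (.f (nat_lit 433) (nat_lit 465) (nat_lit 6576) (.f (nat_lit 432) (nat_lit 401) (nat_lit 6544) (.d (nat_lit 431) (nat_lit 399) (nat_lit 7567) (nat_lit 463) (nat_lit 7599)))) (.f (nat_lit 465) (nat_lit 433) (nat_lit 6576) (.f (nat_lit 592) (nat_lit 497) (nat_lit 6608) (.d (nat_lit 591) (nat_lit 559) (nat_lit 5583) (nat_lit 623) (nat_lit 5615))))))) (.a (.p (nat_lit 527) (.a (.f (nat_lit 432) (nat_lit 559) (nat_lit 5551) (.f (nat_lit 529) (nat_lit 561) (nat_lit 4528) (.f (nat_lit 400) (nat_lit 497) (nat_lit 4496) (.d (nat_lit 399) (nat_lit 367) (nat_lit 7535) (nat_lit 431) (nat_lit 7567))))) (.a (.f (nat_lit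 432) (nat_lit 559) (nat_lit 5551) (.f (nat_lit 399) (nat_lit 431) (nat_lit 7567) (.f (nat_lit 400) (nat_lit 367) (nat_lit 7535) (.d (nat_lit 401) (nat_lit 369) (nat_lit 6512) (nat_lit 433) (nat_lit 6544))))) (.a (.f (nat_lit 525) (nat_lit 497) (nat_lit 2541) (.f (nat_lit 557) (nat_lit 556) (nat_lit 1548) (.f (nat_lit 529) (nat_lit 558) (nat_lit 1549) (.d (nat_lit 561) (nat_lit 432) (nat_lit 4528) (nat_lit 562) (nat_lit 526))))) (.f (nat_lit 525) (nat_lit 497) (nat_lit 2541) (.f (nat_lit 495) (nat_lit 524) (nat_lit 2540) (.f (nat_lit 559) (nat_lit 591) (nat_lit 6607) (.f (nat_lit 557) (nat_lit 556) (nat_lit 1548) (.f (nat_lit 558) (nat_lit 529) (nat_lit 1549) (.d (nat_lit 463) (nat_lit 431) (nat_lit 5550) (nat_lit 590) (nat_lit 5582))))))))))) (.a s19232 (.a s19240 (.a (.p (nat_lit 560) (.a (.f (nat_lit 561) (nat_lit 593) (nat_lit 4560) (.f (nat_lit 529) (nat_lit 432) (nat_lit 4528) (.f (nat_lit 559) (nat_lit 591) (nat_lit 5583) (.d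 (nat_lit 530) (nat_lit 531) (nat_lit 1551) (nat_lit 558) (nat_lit 2574))))) (.a (.f (nat_lit 433) (nat_lit 465) (nat_lit 6576) (.f (nat_lit 432) (nat_lit 401) (nat_lit 6544) (.d (nat_lit 431) (nat_lit 399) (nat_lit 7567) (nat_lit 463) (nat_lit 7599)))) (.f (nat_lit 463) (nat_lit 431) (nat_lit 7599) (.f (nat_lit 592) (nat_lit 495) (nat_lit 7631) (.d (nat_lit 591) (nat_lit 559) (nat_lit 5583) (nat_lit 623) (nat_lit 5615))))))) (.a (.p (nat_lit 560) (.a (.f (nat_lit 561) (nat_lit 593) (nat_lit 4560) (.f (nat_lit 529) (nat_lit 432) (nat_lit 4528) (.f (nat_lit 559) (nat_lit 591) (nat_lit 5583) (.d (nat_lit 530) (nat_lit 531) (nat_lit 1551) (nat_lit 558) (nat_lit 2574))))) (.a (.f (nat_lit 465) (nat_lit 433) (nat_lit 6576) (.f (nat_lit 592) (nat_lit 497) (nat_lit 6608) (.d (nat_lit 591) (nat_lit 559) (nat_lit 5583) (nat_lit 623) (nat_lit 5615)))) (.f (nat_lit 465) (nat_lit 433) (nat_lit 6576) (.f (nat_lit 592) (nat_lit 497) (nat_lit 6608)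 (.d (nat_lit 593) (nat_lit 561) (nat_lit 4560) (nat_lit 625) (nat_lit 4592))))))) (.p (nat_lit 560) (.a (.f (nat_lit 561) (nat_lit 593) (nat_lit 4560) (.f (nat_lit 529) (nat_lit 432) (nat_lit 4528) (.f (nat_lit 559) (nat_lit 591) (nat_lit 5583) (.d (nat_lit 530) (nat_lit 531) (nat_lit 1551) (nat_lit 558) (nat_lit 2574))))) (.a (.f (nat_lit 463) (nat_lit 431) (nat_lit 7599) (.f (nat_lit 592) (nat_lit 495) (nat_lit 7631) (.d (nat_lit 591) (nat_lit 559) (nat_lit 5583) (nat_lit 623) (nat_lit 5615)))) (.f (nat_lit 463) (nat_lit 431) (nat_lit 7599) (.f (nat_lit 592) (nat_lit 495) (nat_lit 7631) (.d (nat_lit 593) (nat_lit 561) (nat_lit 4560) (nat_lit 625) (nat_lit 4592))))))))))))))))))))))))))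
noncomputable def s24190 : Cert := .r (nat_lit 3773962425919908978067039048378881885645768491231275023412675293626429865204541471935760055792560469727505484597500264544337939673836815150592175795562377636060837445632) (.p (nat_lit 464) (.a (.f (nat_lit 433) (nat_lit 465) (nat_lit 6576) (.f (nat_lit 432) (nat_lit 401) (nat_lit 6544) (.d (nat_lit 431) (nat_lit 399) (nat_lit 7567) (nat_lit 463) (nat_lit 7599)))) (.a (.f (nat_lit 465) (nat_lit 433) (nat_lit 6576) (.f (nat_lit 592) (nat_lit 497) (nat_lit 6608) (.d (nat_lit 591) (nat_lit 559) (nat_lit 5583) (nat_lit 623) (nat_lit 5615)))) (.a (.f (nat_lit 431) (nat_lit 463) (nat_lit 7599) (.f (nat_lit 432) (nat_lit 399) (nat_lit 7567) (.f (nat_lit 529) (nat_lit 561) (nat_lit 4528) (.f (nat_lit 497) (nat_lit 400) (nat_lit 4496) (.d (nat_lit 592) (nat_lit 465) (nat_lit 6608) (nat_lit 624) (nat_lit 6640)))))) (.f (nat_lit 431) (nat_lit 463) (nat_lit 7599) (.f (nat_lit 432) (nat_lit 399) (nat_lit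 7567) (.f (nat_lit 401) (nat_lit 433) (nat_lit 6544) (.f (nat_lit 400) (nat_lit 369) (nat_lit 6512) (.d (nat_lit 529) (nat_lit 497) (nat_lit 4496) (nat_lit 561) (nat_lit 4528))))))))))
noncomputable def s24202 : Cert := .r (nat_lit 3773962425919908978169332504875636319083680669257137496919445357565275639875894327188764236930206549567607674982684769455303148552823067369630215062621296168977353932800) (.p (nat_lit 494) (.a (.f (nat_lit 525) (nat_lit 497) (nat_lit 1517) (.d (nat_lit 524) (nat_lit 493) (nat_lit 1516) (nat_lit 523) (nat_lit 2539))) (.a (.f (nat_lit 529) (nat_lit 493) (nat_lit 493) (.d (nat_lit 530) (nat_lit 497) (nat_lit 494) (nat_lit 531) (nat_lit 3567))) (.a (.f (nat_lit 493) (nat_lit 529) (nat_lit 493) (.f (nat_lit 461) (nat_lit 460) (nat_lit 3532) (.f (nat_lit 525) (nat_lit 524) (nat_lit 1516) (.d (nat_lit 429) (nat_lit 397) (nat_lit 4493) (nat_lit 558) (nat_lit 4525))))) (.f (nat_lit 497) (nat_lit 525) (nat_lit 1517)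 (.f (nat_lit 529) (nat_lit 530) (nat_lit 494) (.d (nat_lit 465) (nat_lit 433) (nat_lit 5552) (nat_lit 466) (nat_lit 2510))))))))
noncomputable def s24232 : Cert := .r (nat_lit 3773962425919908978169332504875636319083680669257137496919445357565275639875894327188764236930206549567607674982684769455303148552823067369630215062621296168977353932800) (.p (nat_lit 494) (.a (.f (nat_lit 493) (nat_lit 529) (nat_lit 493) (.f (nat_lit 461) (nat_lit 460) (nat_lit 3532) (.f (nat_lit 525) (nat_lit 524) (nat_lit 1516) (.d (nat_lit 429) (nat_lit 397) (nat_lit 4493) (nat_lit 558) (nat_lit 4525))))) (.a (.f (nat_lit 463) (nat_lit 592) (nat_lit 7631) (.f (nat_lit 431) (nat_lit 399) (nat_lit 4495) (.d (nat_lit 558) (nat_lit 462) (nat_lit 6574) (nat_lit 590) (nat_lit 6606)))) (.f (nat_lit 493) (nat_lit 529) (nat_lit 493) (.f (nat_lit 525) (nat_lit 524) (nat_lit 1516) (.f (nat_lit 461) (nat_lit 460) (nat_lit 3532) (.f (nat_lit 429) (nat_lit 397) (nat_lit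 4493) (.f (nat_lit 430) (nat_lit 398) (nat_lit 6541) (.f (nat_lit 557) (nat_lit 462) (nat_lit 5549) (.f (nat_lit 589) (nat_lit 621) (nat_lit 6637) (.d (nat_lit 588) (nat_lit 556) (nat_lit 5580) (nat_lit 620) (nat_lit 5612))))))))))))
noncomputable def s24251 : Cert := .r (nat_lit 5660943638330679654187816338873016331104229101439495237600778443749241946400615897978823418381389853498239672112882186994223231988799211466872892921278725657885535109120) (.p (nat_lit 558) (.a (.f (nat_lit 561) (nat_lit 525) (nat_lit 3597) (.d (nat_lit 529) (nat_lit 530) (nat_lit 2574) (nat_lit 557) (nat_lit 2573))) (.a (.f (nat_lit 561) (nat_lit 525) (nat_lit 3597) (.f (nat_lit 590) (nat_lit 589) (nat_lit 1581) (.f (nat_lit 591) (nat_lit 562) (nat_lit 1582) (.d (nat_lit 494) (nat_lit 462) (nat_lit 4558) (nat_lit 623) (nat_lit 4590))))) (.a (.f (nat_lit 529) (nat_lit 557) (nat_lit 2573) (.d (nat_lit 530) (nat_lit 531) (nat_lit 1551) (nat_lit 561) (nat_lit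 2574))) (.f (nat_lit 557) (nat_lit 529) (nat_lit 2573) (.f (nat_lit 525) (nat_lit 524) (nat_lit 3596) (.f (nat_lit 589) (nat_lit 588) (nat_lit 1580) (.d (nat_lit 494) (nat_lit 462) (nat_lit 5581) (nat_lit 621) (nat_lit 6637)))))))))
noncomputable def s24259 : Cert := .r (nat_lit 3773962425919908978067039048378881885645768491231275023412675293626429865204541471935760055792560469727505484597500264544337939673836815150592175795562377636060837445632) (.p (nat_lit 464) (.a (.f (nat_lit 465) (nat_lit 433) (nat_lit 6576) (.f (nat_lit 592) (nat_lit 497) (nat_lit 6608) (.d (nat_lit 463) (nat_lit 431) (nat_lit 7599) (nat_lit 495) (nat_lit 7631)))) (.a (.f (nat_lit 433) (nat_lit 465) (nat_lit 6576) (.f (nat_lit 432) (nat_lit 401) (nat_lit 6544) (.d (nat_lit 431) (nat_lit 399) (nat_lit 7567) (nat_lit 463) (nat_lit 7599)))) (.a (.f (nat_lit 433) (nat_lit 465) (nat_lit 6576) (.f (nat_lit 432) (nat_lit 401) (nat_lit 6544) (.f (nat_lit 399) (nat_lit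 431) (nat_lit 7567) (.f (nat_lit 400) (nat_lit 367) (nat_lit 7535) (.d (nat_lit 529) (nat_lit 497) (nat_lit 4496) (nat_lit 561) (nat_lit 4528)))))) (.a (.f (nat_lit 433) (nat_lit 465) (nat_lit 6576) (.f (nat_lit 432) (nat_lit 401) (nat_lit 6544) (.f (nat_lit 529) (nat_lit 561) (nat_lit 4528) (.f (nat_lit 497) (nat_lit 400) (nat_lit 4496) (.f (nat_lit 592) (nat_lit 624) (nat_lit 6640) (.f (nat_lit 495) (nat_lit 463) (nat_lit 7631) (.d (nat_lit 494) (nat_lit 493) (nat_lit 493) (nat_lit 525) (nat_lit 1517)))))))) (.a (.f (nat_lit 431) (nat_lit 463) (nat_lit 7599) (.f (nat_lit 432) (nat_lit 399) (nat_lit 7567) (.f (nat_lit 529) (nat_lit 561) (nat_lit 4528) (.f (nat_lit 497) (nat_lit 400) (nat_lit 4496) (.d (nat_lit 592) (nat_lit 465) (nat_lit 6608) (nat_lit 624) (nat_lit 6640)))))) (.f (nat_lit 431) (nat_lit 463) (nat_lit 7599) (.f (nat_lit 432) (nat_lit 399) (nat_lit 7567) (.f (nat_lit 401) (nat_lit 433) (nat_lit 6544) (.f (nat_lit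 400) (nat_lit 369) (nat_lit 6512) (.d (nat_lit 529) (nat_lit 497) (nat_lit 4496) (nat_lit 561) (nat_lit 4528))))))))))))
noncomputable def s24263 : Cert := .r (nat_lit 5660943638330679654187816338873016331104229101439495237600778443749241946400615897978823418381389853498239672112882186994223231988799211466872892921278725657885535109120) (.p (nat_lit 558) (.a (.f (nat_lit 557) (nat_lit 529) (nat_lit 2573) (.f (nat_lit 525) (nat_lit 524) (nat_lit 3596) (.f (nat_lit 589) (nat_lit 588) (nat_lit 1580) (.d (nat_lit 494) (nat_lit 462) (nat_lit 5581) (nat_lit 621) (nat_lit 6637))))) (.a (.f (nat_lit 591) (nat_lit 464) (nat_lit 5583) (.f (nat_lit 623) (nat_lit 655) (nat_lit 6671) (.d (nat_lit 494) (nat_lit 462) (nat_lit 4558) (nat_lit 590) (nat_lit 4590)))) (.f (nat_lit 557) (nat_lit 529) (nat_lit 2573) (.f (nat_lit 525) (nat_lit 524) (nat_lit 3596) (.f (nat_lit 589) (nat_lit 588) (nat_lit 1580) (.f (nat_lit 621) (nat_lit 653) (nat_lit 6669)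 (.f (nat_lit 622) (nat_lit 654) (nat_lit 4621) (.f (nat_lit 493) (nat_lit 590) (nat_lit 7661) (.f (nat_lit 461) (nat_lit 429) (nat_lit 4525) (.d (nat_lit 460) (nat_lit 428) (nat_lit 7596) (nat_lit 492) (nat_lit 7628))))))))))))
noncomputable def s24274 : Cert := .r (nat_lit 3773962425919908978067039048378881885645768491231275023412675293626429865204541471935760055792560469727505484597500264544337939673836815150592175795562377636060837445632) (.p (nat_lit 559) (.a s24263 (.a (.f (nat_lit 591) (nat_lit 464) (nat_lit 5583) (.d (nat_lit 623) (nat_lit 592) (nat_lit 5615) (nat_lit 655) (nat_lit 6671))) (.a s24251 (.p (nat_lit 558) (.a (.f (nat_lit 561) (nat_lit 525) (nat_lit 3597) (.d (nat_lit 529) (nat_lit 530) (nat_lit 2574) (nat_lit 557) (nat_lit 2573))) (.a (.f (nat_lit 525) (nat_lit 561) (nat_lit 3597) (.d (nat_lit 524) (nat_lit 523) (nat_lit 523) (nat_lit 557) (nat_lit 3596))) (.a (.f (nat_lit 529) (nat_lit 557) (nat_lit 2573) (.d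 (nat_lit 530) (nat_lit 531) (nat_lit 1551) (nat_lit 561) (nat_lit 2574))) (.a (.f (nat_lit 557) (nat_lit 529) (nat_lit 2573) (.f (nat_lit 525) (nat_lit 524) (nat_lit 3596) (.f (nat_lit 589) (nat_lit 588) (nat_lit 1580) (.d (nat_lit 494) (nat_lit 462) (nat_lit 5581) (nat_lit 621) (nat_lit 6637))))) (.f (nat_lit 561) (nat_lit 525) (nat_lit 3597) (.f (nat_lit 529) (nat_lit 530) (nat_lit 2574) (.f (nat_lit 464) (nat_lit 432) (nat_lit 4528) (.f (nat_lit 465) (nat_lit 433) (nat_lit 6576) (.f (nat_lit 497) (nat_lit 592) (nat_lit 6608) (.f (nat_lit 466) (nat_lit 434) (nat_lit 6577) (.d (nat_lit 467) (nat_lit 468) (nat_lit 1488) (nat_lit 495) (nat_lit 1487)))))))))))))))))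
noncomputable def s24400 : Cert := .r (nat_lit 3773962425919908978067039048426515988281205384410315508486423558789830105418545548334367797486062846113305130900605521243915148706426947766580436032614501288393727541248) (.p (nat_lit 432) (.a (.d (nat_lit 433) (nat_lit 401) (nat_lit 6544) (nat_lit 465) (nat_lit 6576)) (.a (.f (nat_lit 399) (nat_lit 431) (nat_lit 7567) (.f (nat_lit 400) (nat_lit 367) (nat_lit 7535) (.f (nat_lit 369) (nat_lit 401) (nat_lit 6512) (.f (nat_lit 368) (nat_lit 337) (nat_lit 6480) (.d (nat_lit 497) (nat_lit 465) (nat_lit 4464) (nat_lit 529) (nat_lit 4496)))))) (.a (.f (nat_lit 399) (nat_lit 431) (nat_lit 7567) (.f (nat_lit 400) (nat_lit 367) (nat_lit 7535) (.d (nat_lit 401) (nat_lit 369) (nat_lit 6512) (nat_lit 433) (nat_lit 6544)))) (.f (nat_lit 465) (nat_lit 433) (nat_lit 6576) (.f (nat_lit 399) (nat_lit 431) (nat_lit 7567) (.f (nat_lit 400) (nat_lit 367) (nat_lit 7535) (.d (nat_lit 497) (nat_lit 368) (nat_lit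 4464) (nat_lit 529) (nat_lit 4496)))))))))
noncomputable def s24413 : Cert := .r (nat_lit 3773962425919908978067039048378881885645768491231275023412675293626429865204541471935760055792560469727505484597500264544337939673836815150592175795562377636060837445632) (.p (nat_lit 464) (.a (.f (nat_lit 559) (nat_lit 591) (nat_lit 5583) (.f (nat_lit 527) (nat_lit 432) (nat_lit 5551) (.d (nat_lit 525) (nat_lit 497) (nat_lit 2541) (nat_lit 524) (nat_lit 524)))) (.a (.f (nat_lit 433) (nat_lit 465) (nat_lit 6576) (.f (nat_lit 432) (nat_lit 401) (nat_lit 6544) (.d (nat_lit 431) (nat_lit 399) (nat_lit 7567) (nat_lit 463) (nat_lit 7599)))) (.p (nat_lit 525) (.a (.d (nat_lit 527) (nat_lit 497) (nat_lit 2541) (nat_lit 561) (nat_lit 525)) (.a (.f (nat_lit 559) (nat_lit 591) (nat_lit 5583) (.f (nat_lit 558) (nat_lit 561) (nat_lit 3597) (.d (nat_lit 524) (nat_lit 523) (nat_lit 523) (nat_lit 557) (nat_lit 3596)))) (.f (nat_lit 527) (nat_lit 497) (nat_lit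 2541) (.d (nat_lit 559) (nat_lit 524) (nat_lit 524) (nat_lit 591) (nat_lit 5583)))))))))
noncomputable def s24423 : Cert := .r (nat_lit 3773962425919908978067039048378881885645768491231275023412675293626429865204541471935760055792560469727505484597500264544337939673836815150592175795562377636060837445632) (.p (nat_lit 464) (.a (.f (nat_lit 559) (nat_lit 591) (nat_lit 5583) (.f (nat_lit 527) (nat_lit 432) (nat_lit 5551) (.d (nat_lit 525) (nat_lit 497) (nat_lit 2541) (nat_lit 524) (nat_lit 524)))) (.a (.f (nat_lit 431) (nat_lit 463) (nat_lit 7599) (.f (nat_lit 432) (nat_lit 399) (nat_lit 7567) (.f (nat_lit 401) (nat_lit 433) (nat_lit 6544) (.f (nat_lit 400) (nat_lit 369) (nat_lit 6512) (.d (nat_lit 529) (nat_lit 497) (nat_lit 4496) (nat_lit 561) (nat_lit 4528)))))) (.a (.p (nat_lit 525) (.a (.d (nat_lit 527) (nat_lit 497) (nat_lit 2541) (nat_lit 561) (nat_lit 525)) (.a (.f (nat_lit 559) (nat_lit 591) (nat_lit 5583) (.f (nat_lit 558)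 (nat_lit 561) (nat_lit 3597) (.d (nat_lit 524) (nat_lit 523) (nat_lit 523) (nat_lit 557) (nat_lit 3596)))) (.f (nat_lit 527) (nat_lit 497) (nat_lit 2541) (.d (nat_lit 559) (nat_lit 524) (nat_lit 524) (nat_lit 591) (nat_lit 5583)))))) (.f (nat_lit 559) (nat_lit 591) (nat_lit 5583) (.f (nat_lit 527) (nat_lit 432) (nat_lit 5551) (.d (nat_lit 525) (nat_lit 524) (nat_lit 524) (nat_lit 561) (nat_lit 525))))))))
noncomputable def s24434 : Cert := .r (nat_lit 943490607303752963937019840886057434177033664931875938883905600411634630746106260497667102478139433991455298517019633324992605640886346785690119740517314869782049193984) (.p (nat_lit 462) (.a (.f (nat_lit 429) (nat_lit 461) (nat_lit 7597) (.f (nat_lit 430) (nat_lit 397) (nat_lit 7565) (.d (nat_lit 431) (nat_lit 399) (nat_lit 6542) (nat_lit 463) (nat_lit 6574)))) (.a (.f (nat_lit 461) (nat_lit 429) (nat_lit 7597) (.f (nat_lit 590) (nat_lit 493) (nat_lit 7629) (.d (nat_lit 589) (nat_lit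 557) (nat_lit 5581) (nat_lit 621) (nat_lit 5613)))) (.a s19599 (.f (nat_lit 463) (nat_lit 431) (nat_lit 6574) (.f (nat_lit 589) (nat_lit 557) (nat_lit 5581) (.f (nat_lit 590) (nat_lit 621) (nat_lit 5613) (.f (nat_lit 493) (nat_lit 461) (nat_lit 7629) (.f (nat_lit 464) (nat_lit 465) (nat_lit 1485) (.f (nat_lit 529) (nat_lit 527) (nat_lit 3565) (.f (nat_lit 432) (nat_lit 561) (nat_lit 4528) (.f (nat_lit 400) (nat_lit 497) (nat_lit 4496) (.d (nat_lit 401) (nat_lit 369) (nat_lit 6512) (nat_lit 433) (nat_lit 6544))))))))))))))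
noncomputable def s24447 : Cert := .r (nat_lit 943490607303752963937019840886057434177033664931875938883905600411634630746106260497667102478139433991455298517019633324992605640886346785690119740517314869782049193984) (.p (nat_lit 462) (.a (.f (nat_lit 557) (nat_lit 589) (nat_lit 5581) (.f (nat_lit 525) (nat_lit 430) (nat_lit 5549) (.d (nat_lit 527) (nat_lit 497) (nat_lit 2541) (nat_lit 556) (nat_lit 1548)))) (.a (.f (nat_lit 557) (nat_lit 589) (nat_lit 5581) (.f (nat_lit 430) (nat_lit 525) (nat_lit 5549) (.d (nat_lit 431) (nat_lit 399) (nat_lit 6542) (nat_lit 463) (nat_lit 6574)))) (.a s19599 (.a (.f (nat_lit 431) (nat_lit 463) (nat_lit 6574) (.f (nat_lit 430) (nat_lit 399) (nat_lit 6542) (.f (nat_lit 397) (nat_lit 429) (nat_lit 7565) (.f (nat_lit 398) (nat_lit 365) (nat_lit 7533) (.f (nat_lit 493) (nat_lit 525) (nat_lit 5517) (.f (nat_lit 432) (nat_lit 433) (nat_lit 3469) (.f (nat_lit 529) (nat_lit 527) (nat_lit 3565) (.f (nat_lit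 464) (nat_lit 561) (nat_lit 4528) (.f (nat_lit 400) (nat_lit 497) (nat_lit 4496) (.f (nat_lit 369) (nat_lit 401) (nat_lit 6512) (.f (nat_lit 368) (nat_lit 337) (nat_lit 6480) (.d (nat_lit 367) (nat_lit 335) (nat_lit 7503) (nat_lit 366) (nat_lit 1389))))))))))))) (.f (nat_lit 557) (nat_lit 589) (nat_lit 5581) (.f (nat_lit 527) (nat_lit 529) (nat_lit 1549) (.d (nat_lit 556) (nat_lit 525) (nat_lit 1548) (nat_lit 555) (nat_lit 2571)))))))))
noncomputable def s24452 : Cert := .r (nat_lit 943490607303752963885873112637680217458077575918944702130520568442211743410429832871165011909316394071404203324427380869510001201393220676171100106987855603323790950400) (.p (nat_lit 494) (.a (.p (nat_lit 462) (.a (.f (nat_lit 557) (nat_lit 589) (nat_lit 5581) (.f (nat_lit 525) (nat_lit 430) (nat_lit 5549) (.d (nat_lit 527) (nat_lit 497) (nat_lit 2541) (nat_lit 556) (nat_lit 1548)))) (.a (.f (nat_lit 429) (nat_lit 461) (nat_lit 7597) (.f (nat_lit 430)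 (nat_lit 397) (nat_lit 7565) (.d (nat_lit 431) (nat_lit 399) (nat_lit 6542) (nat_lit 463) (nat_lit 6574)))) (.f (nat_lit 461) (nat_lit 429) (nat_lit 7597) (.f (nat_lit 463) (nat_lit 431) (nat_lit 6574) (.f (nat_lit 493) (nat_lit 590) (nat_lit 7629) (.d (nat_lit 464) (nat_lit 465) (nat_lit 1485) (nat_lit 492) (nat_lit 1484)))))))) (.a s23695 (.a (.p (nat_lit 590) (.a (.f (nat_lit 493) (nat_lit 461) (nat_lit 7629) (.f (nat_lit 622) (nat_lit 525) (nat_lit 7661) (.d (nat_lit 621) (nat_lit 589) (nat_lit 5613) (nat_lit 653) (nat_lit 5645)))) (.a (.f (nat_lit 623) (nat_lit 591) (nat_lit 4590) (.f (nat_lit 622) (nat_lit 655) (nat_lit 4622) (.d (nat_lit 621) (nat_lit 589) (nat_lit 5613) (nat_lit 653) (nat_lit 5645)))) (.f (nat_lit 493) (nat_lit 461) (nat_lit 7629) (.f (nat_lit 527) (nat_lit 529) (nat_lit 3565) (.d (nat_lit 492) (nat_lit 491) (nat_lit 491) (nat_lit 525) (nat_lit 3564))))))) (.a s24434 (.a (.p (nat_lit 462) (.a (.f (nat_lit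 557) (nat_lit 589) (nat_lit 5581) (.f (nat_lit 525) (nat_lit 430) (nat_lit 5549) (.d (nat_lit 527) (nat_lit 497) (nat_lit 2541) (nat_lit 556) (nat_lit 1548)))) (.a (.f (nat_lit 429) (nat_lit 461) (nat_lit 7597) (.f (nat_lit 430) (nat_lit 397) (nat_lit 7565) (.d (nat_lit 431) (nat_lit 399) (nat_lit 6542) (nat_lit 463) (nat_lit 6574)))) (.f (nat_lit 557) (nat_lit 589) (nat_lit 5581) (.f (nat_lit 527) (nat_lit 529) (nat_lit 1549) (.d (nat_lit 556) (nat_lit 525) (nat_lit 1548) (nat_lit 555) (nat_lit 2571))))))) (.a s24447 (.p (nat_lit 527) (.a (.f (nat_lit 525) (nat_lit 497) (nat_lit 2541) (.f (nat_lit 493) (nat_lit 492) (nat_lit 3564) (.d (nat_lit 461) (nat_lit 429) (nat_lit 4525) (nat_lit 590) (nat_lit 7629)))) (.a (.d (nat_lit 529) (nat_lit 493) (nat_lit 3565) (nat_lit 557) (nat_lit 1549)) (.f (nat_lit 557) (nat_lit 529) (nat_lit 1549) (.d (nat_lit 525) (nat_lit 497) (nat_lit 2541) (nat_lit 556) (nat_lit 1548)))))))))))))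
noncomputable def s24453 : Cert := .r (nat_lit 943490607303752963885873112637680217458077575918944702130520568442211743410429832871165011909316394071404203324427380869510001201393220676171100106987855603323790950400) (.p (nat_lit 494) (.a s19098 (.a s21569 (.a s24434 (.a (.p (nat_lit 590) (.a (.f (nat_lit 495) (nat_lit 463) (nat_lit 6606) (.f (nat_lit 527) (nat_lit 622) (nat_lit 6638) (.d (nat_lit 493) (nat_lit 461) (nat_lit 7629) (nat_lit 492) (nat_lit 492)))) (.a (.f (nat_lit 495) (nat_lit 463) (nat_lit 6606) (.d (nat_lit 493) (nat_lit 461) (nat_lit 7629) (nat_lit 529) (nat_lit 493))) (.f (nat_lit 623) (nat_lit 591) (nat_lit 4590) (.f (nat_lit 622) (nat_lit 655) (nat_lit 4622) (.d (nat_lit 621) (nat_lit 589) (nat_lit 5613) (nat_lit 653) (nat_lit 5645))))))) (.a s24006 (.a s24007 (.a s24008 (.p (nat_lit 590) (.a (.f (nat_lit 623) (nat_lit 591) (nat_lit 4590) (.f (nat_lit 622) (nat_lit 655) (nat_lit 4622) (.d (nat_lit 621) (nat_lit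 589) (nat_lit 5613) (nat_lit 653) (nat_lit 5645)))) (.f (nat_lit 495) (nat_lit 463) (nat_lit 6606) (.f (nat_lit 529) (nat_lit 493) (nat_lit 493) (.d (nat_lit 530) (nat_lit 497) (nat_lit 494) (nat_lit 531) (nat_lit 3567))))))))))))))
noncomputable def s24454 : Cert := .r (nat_lit 1098367625825484467390612994728847270814834595036468993380805702812392619849633330614901702186037109566736419644567355043912022518030741544129681592411442118656) (.p (nat_lit 558) (.a (.p (nat_lit 527) (.a (.f (nat_lit 525) (nat_lit 497) (nat_lit 2541) (.d (nat_lit 557) (nat_lit 529) (nat_lit 1549) (nat_lit 556) (nat_lit 1548))) (.a (.f (nat_lit 525) (nat_lit 497) (nat_lit 2541) (.f (nat_lit 524) (nat_lit 495) (nat_lit 2540) (.d (nat_lit 492) (nat_lit 491) (nat_lit 3563) (nat_lit 493) (nat_lit 3564)))) (.f (nat_lit 529) (nat_lit 557) (nat_lit 1549) (.f (nat_lit 494) (nat_lit 493) (nat_lit 3565) (.f (nat_lit 495) (nat_lit 530) (nat_lit 3566) (.d (nat_lit 463)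 (nat_lit 431) (nat_lit 5550) (nat_lit 590) (nat_lit 6606)))))))) (.a s21693 (.a s21897 (.a s24452 (.a s24453 (.a s22408 (.a s22415 (.a s22416 s22428)))))))))
noncomputable def s24520 : Cert := .r (nat_lit 943490607303752963885873112685314320093514469097985187204268833605611983624433909269772753602818770457203849627532637569087210233983353292159360344039979255656681046016) (.p (nat_lit 560) (.a (.f (nat_lit 559) (nat_lit 591) (nat_lit 5583) (.f (nat_lit 527) (nat_lit 432) (nat_lit 5551) (.f (nat_lit 557) (nat_lit 556) (nat_lit 2572) (.f (nat_lit 589) (nat_lit 588) (nat_lit 1580) (.d (nat_lit 561) (nat_lit 562) (nat_lit 3598) (nat_lit 590) (nat_lit 1581)))))) (.a (.f (nat_lit 559) (nat_lit 591) (nat_lit 5583) (.f (nat_lit 529) (nat_lit 557) (nat_lit 2573) (.d (nat_lit 530) (nat_lit 531) (nat_lit 1551) (nat_lit 561) (nat_lit 2574)))) (.a (.f (nat_lit 431) (nat_lit 463) (nat_lit 7599) (.f (nat_lit 432) (nat_lit 399) (nat_lit 7567) (.f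 (nat_lit 529) (nat_lit 561) (nat_lit 4528) (.f (nat_lit 497) (nat_lit 400) (nat_lit 4496) (.d (nat_lit 592) (nat_lit 465) (nat_lit 6608) (nat_lit 624) (nat_lit 6640)))))) (.f (nat_lit 559) (nat_lit 591) (nat_lit 5583) (.f (nat_lit 527) (nat_lit 432) (nat_lit 5551) (.d (nat_lit 529) (nat_lit 530) (nat_lit 1550) (nat_lit 557) (nat_lit 1549))))))))
noncomputable def s24534 : Cert := .r (nat_lit 943490607303752963885873112685314320093514469097985187204268833605611983624433909269772753602818770457203849627532637569087210233983353292159360344039979255656681046016) (.p (nat_lit 527) (.a (.f (nat_lit 559) (nat_lit 432) (nat_lit 5551) (.d (nat_lit 591) (nat_lit 495) (nat_lit 6607) (nat_lit 623) (nat_lit 6639))) (.a (.f (nat_lit 432) (nat_lit 559) (nat_lit 5551) (.f (nat_lit 399) (nat_lit 431) (nat_lit 7567) (.f (nat_lit 400) (nat_lit 367) (nat_lit 7535) (.d (nat_lit 401) (nat_lit 369) (nat_lit 6512) (nat_lit 433) (nat_lit 6544))))) (.a (.f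 (nat_lit 529) (nat_lit 557) (nat_lit 1549) (.d (nat_lit 561) (nat_lit 432) (nat_lit 4528) (nat_lit 562) (nat_lit 526))) (.f (nat_lit 529) (nat_lit 557) (nat_lit 1549) (.f (nat_lit 530) (nat_lit 559) (nat_lit 1550) (.d (nat_lit 562) (nat_lit 561) (nat_lit 526) (nat_lit 563) (nat_lit 527))))))))
noncomputable def s24545 : Cert := .r (nat_lit 943490607303752963885873112685314320093514469097985187204268833605611983624433909269772753602818770457203849627532637569087210233983353292159360344039979255656681046016) (.p (nat_lit 560) (.a (.f (nat_lit 431) (nat_lit 463) (nat_lit 7599) (.f (nat_lit 432) (nat_lit 399) (nat_lit 7567) (.d (nat_lit 433) (nat_lit 401) (nat_lit 6544) (nat_lit 465) (nat_lit 6576)))) (.a (.f (nat_lit 463) (nat_lit 431) (nat_lit 7599) (.f (nat_lit 465) (nat_lit 433) (nat_lit 6576) (.d (nat_lit 592) (nat_lit 495) (nat_lit 7631) (nat_lit 497) (nat_lit 6608)))) (.a (.f (nat_lit 465) (nat_lit 433) (nat_lit 6576) (.f (nat_lit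 592) (nat_lit 497) (nat_lit 6608) (.f (nat_lit 623) (nat_lit 591) (nat_lit 5615) (.f (nat_lit 624) (nat_lit 655) (nat_lit 5647) (.f (nat_lit 527) (nat_lit 495) (nat_lit 7663) (.f (nat_lit 529) (nat_lit 557) (nat_lit 1549) (.d (nat_lit 561) (nat_lit 432) (nat_lit 4528) (nat_lit 562) (nat_lit 526)))))))) (.a (.f (nat_lit 431) (nat_lit 463) (nat_lit 7599) (.f (nat_lit 432) (nat_lit 399) (nat_lit 7567) (.f (nat_lit 529) (nat_lit 561) (nat_lit 4528) (.f (nat_lit 497) (nat_lit 400) (nat_lit 4496) (.d (nat_lit 592) (nat_lit 465) (nat_lit 6608) (nat_lit 624) (nat_lit 6640)))))) (.f (nat_lit 431) (nat_lit 463) (nat_lit 7599) (.f (nat_lit 432) (nat_lit 399) (nat_lit 7567) (.f (nat_lit 529) (nat_lit 561) (nat_lit 4528) (.f (nat_lit 400) (nat_lit 497) (nat_lit 4496) (.d (nat_lit 401) (nat_lit 369) (nat_lit 6512) (nat_lit 433) (nat_lit 6544)))))))))))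
noncomputable def s24548 : Cert := .r (nat_lit 943490607303752963885873112685314320093514469097985187204268833605611983624433909269772753602818770457203849627532637569087210233983353292159360344039979255656681046016) (.p (nat_lit 560) (.a (.f (nat_lit 431) (nat_lit 463) (nat_lit 7599) (.f (nat_lit 432) (nat_lit 399) (nat_lit 7567) (.d (nat_lit 433) (nat_lit 401) (nat_lit 6544) (nat_lit 465) (nat_lit 6576)))) (.a (.f (nat_lit 463) (nat_lit 431) (nat_lit 7599) (.f (nat_lit 465) (nat_lit 433) (nat_lit 6576) (.d (nat_lit 592) (nat_lit 495) (nat_lit 7631) (nat_lit 497) (nat_lit 6608)))) (.a (.f (nat_lit 433) (nat_lit 465) (nat_lit 6576) (.f (nat_lit 432) (nat_lit 401) (nat_lit 6544) (.f (nat_lit 529) (nat_lit 561) (nat_lit 4528) (.d (nat_lit 527) (nat_lit 557) (nat_lit 1549) (nat_lit 559) (nat_lit 5551))))) (.a (.f (nat_lit 431) (nat_lit 463) (nat_lit 7599) (.f (nat_lit 432) (nat_lit 399) (nat_lit 7567) (.f (nat_lit 529) (nat_lit 561)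 (nat_lit 4528) (.f (nat_lit 497) (nat_lit 400) (nat_lit 4496) (.d (nat_lit 592) (nat_lit 465) (nat_lit 6608) (nat_lit 624) (nat_lit 6640)))))) (.f (nat_lit 431) (nat_lit 463) (nat_lit 7599) (.f (nat_lit 432) (nat_lit 399) (nat_lit 7567) (.f (nat_lit 529) (nat_lit 561) (nat_lit 4528) (.f (nat_lit 400) (nat_lit 497) (nat_lit 4496) (.d (nat_lit 401) (nat_lit 369) (nat_lit 6512) (nat_lit 433) (nat_lit 6544)))))))))))
noncomputable def s24550 : Cert := .r (nat_lit 943490607303752963885873112685314320093514469097985187204268833605611983624433909269772753602818770457203849627532637569087210233983353292159360344039979255656681046016) (.p (nat_lit 560) (.a (.f (nat_lit 559) (nat_lit 591) (nat_lit 5583) (.f (nat_lit 527) (nat_lit 432) (nat_lit 5551) (.f (nat_lit 557) (nat_lit 556) (nat_lit 2572) (.f (nat_lit 589) (nat_lit 588) (nat_lit 1580) (.d (nat_lit 561) (nat_lit 562) (nat_lit 3598) (nat_lit 590) (nat_lit 1581)))))) (.a (.f (nat_lit 559)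 (nat_lit 591) (nat_lit 5583) (.f (nat_lit 529) (nat_lit 557) (nat_lit 2573) (.d (nat_lit 530) (nat_lit 531) (nat_lit 1551) (nat_lit 561) (nat_lit 2574)))) (.a (.f (nat_lit 465) (nat_lit 433) (nat_lit 6576) (.f (nat_lit 592) (nat_lit 497) (nat_lit 6608) (.f (nat_lit 623) (nat_lit 591) (nat_lit 5615) (.f (nat_lit 624) (nat_lit 655) (nat_lit 5647) (.f (nat_lit 527) (nat_lit 495) (nat_lit 7663) (.f (nat_lit 529) (nat_lit 557) (nat_lit 1549) (.d (nat_lit 561) (nat_lit 432) (nat_lit 4528) (nat_lit 562) (nat_lit 526)))))))) (.a (.f (nat_lit 559) (nat_lit 591) (nat_lit 5583) (.f (nat_lit 527) (nat_lit 432) (nat_lit 5551) (.d (nat_lit 529) (nat_lit 530) (nat_lit 1550) (nat_lit 557) (nat_lit 1549)))) (.a (.f (nat_lit 433) (nat_lit 465) (nat_lit 6576) (.f (nat_lit 432) (nat_lit 401) (nat_lit 6544) (.f (nat_lit 529) (nat_lit 561) (nat_lit 4528) (.d (nat_lit 527) (nat_lit 557) (nat_lit 1549) (nat_lit 559) (nat_lit 5551))))) (.f (nat_lit 559)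 (nat_lit 591) (nat_lit 5583) (.f (nat_lit 432) (nat_lit 527) (nat_lit 5551) (.d (nat_lit 433) (nat_lit 401) (nat_lit 6544) (nat_lit 465) (nat_lit 6576))))))))))
noncomputable def s24551 : Cert := .r (nat_lit 943490607303752963885873112637680217458077575918944702130520568442211743410429832871165011909316394071404203324427380869510001201393220676171100106987855603323790950400) (.p (nat_lit 464) (.a (.p (nat_lit 560) (.a (.f (nat_lit 431) (nat_lit 463) (nat_lit 7599) (.f (nat_lit 432) (nat_lit 399) (nat_lit 7567) (.d (nat_lit 433) (nat_lit 401) (nat_lit 6544) (nat_lit 465) (nat_lit 6576)))) (.f (nat_lit 559) (nat_lit 591) (nat_lit 5583) (.f (nat_lit 529) (nat_lit 557) (nat_lit 2573) (.d (nat_lit 530) (nat_lit 531) (nat_lit 1551) (nat_lit 561) (nat_lit 2574)))))) (.a (.p (nat_lit 560) (.a (.f (nat_lit 431) (nat_lit 463) (nat_lit 7599) (.f (nat_lit 432) (nat_lit 399) (nat_lit 7567) (.d (nat_lit 433) (nat_lit 401) (nat_lit 6544) (nat_lit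 465) (nat_lit 6576)))) (.a (.f (nat_lit 463) (nat_lit 431) (nat_lit 7599) (.f (nat_lit 559) (nat_lit 591) (nat_lit 5583) (.f (nat_lit 495) (nat_lit 592) (nat_lit 7631) (.f (nat_lit 527) (nat_lit 590) (nat_lit 5582) (.f (nat_lit 462) (nat_lit 430) (nat_lit 7598) (.d (nat_lit 461) (nat_lit 460) (nat_lit 460) (nat_lit 497) (nat_lit 461))))))) (.f (nat_lit 559) (nat_lit 591) (nat_lit 5583) (.f (nat_lit 527) (nat_lit 432) (nat_lit 5551) (.f (nat_lit 557) (nat_lit 556) (nat_lit 2572) (.f (nat_lit 589) (nat_lit 588) (nat_lit 1580) (.d (nat_lit 561) (nat_lit 562) (nat_lit 3598) (nat_lit 590) (nat_lit 1581))))))))) (.a s24534 (.a s24545 (.a (.p (nat_lit 560) (.a (.f (nat_lit 559) (nat_lit 591) (nat_lit 5583) (.f (nat_lit 529) (nat_lit 557) (nat_lit 2573) (.d (nat_lit 530) (nat_lit 531) (nat_lit 1551) (nat_lit 561) (nat_lit 2574)))) (.a (.f (nat_lit 463) (nat_lit 431) (nat_lit 7599) (.f (nat_lit 559) (nat_lit 591) (nat_lit 5583) (.f (nat_lit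 495) (nat_lit 592) (nat_lit 7631) (.f (nat_lit 527) (nat_lit 590) (nat_lit 5582) (.f (nat_lit 462) (nat_lit 430) (nat_lit 7598) (.d (nat_lit 461) (nat_lit 460) (nat_lit 460) (nat_lit 497) (nat_lit 461))))))) (.f (nat_lit 463) (nat_lit 431) (nat_lit 7599) (.f (nat_lit 465) (nat_lit 433) (nat_lit 6576) (.d (nat_lit 592) (nat_lit 495) (nat_lit 7631) (nat_lit 497) (nat_lit 6608))))))) (.a (.p (nat_lit 560) (.a (.f (nat_lit 431) (nat_lit 463) (nat_lit 7599) (.f (nat_lit 432) (nat_lit 399) (nat_lit 7567) (.d (nat_lit 433) (nat_lit 401) (nat_lit 6544) (nat_lit 465) (nat_lit 6576)))) (.a (.f (nat_lit 463) (nat_lit 431) (nat_lit 7599) (.f (nat_lit 559) (nat_lit 591) (nat_lit 5583) (.f (nat_lit 495) (nat_lit 592) (nat_lit 7631) (.f (nat_lit 527) (nat_lit 590) (nat_lit 5582) (.f (nat_lit 462) (nat_lit 430) (nat_lit 7598) (.d (nat_lit 461) (nat_lit 460) (nat_lit 460) (nat_lit 497) (nat_lit 461))))))) (.f (nat_lit 559) (nat_lit 591) (nat_lit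 5583) (.f (nat_lit 527) (nat_lit 432) (nat_lit 5551) (.d (nat_lit 529) (nat_lit 530) (nat_lit 1550) (nat_lit 557) (nat_lit 1549))))))) (.a s24548 (.a (.p (nat_lit 560) (.a (.f (nat_lit 431) (nat_lit 463) (nat_lit 7599) (.f (nat_lit 432) (nat_lit 399) (nat_lit 7567) (.d (nat_lit 433) (nat_lit 401) (nat_lit 6544) (nat_lit 465) (nat_lit 6576)))) (.a (.f (nat_lit 463) (nat_lit 431) (nat_lit 7599) (.f (nat_lit 559) (nat_lit 591) (nat_lit 5583) (.f (nat_lit 495) (nat_lit 592) (nat_lit 7631) (.f (nat_lit 527) (nat_lit 590) (nat_lit 5582) (.f (nat_lit 462) (nat_lit 430) (nat_lit 7598) (.d (nat_lit 461) (nat_lit 460) (nat_lit 460) (nat_lit 497) (nat_lit 461))))))) (.f (nat_lit 559) (nat_lit 591) (nat_lit 5583) (.f (nat_lit 432) (nat_lit 527) (nat_lit 5551) (.d (nat_lit 433) (nat_lit 401) (nat_lit 6544) (nat_lit 465) (nat_lit 6576))))))) (.a s24550 s24520))))))))))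
noncomputable def s24552 : Cert := .r (nat_lit 943490607303752963885873112637680217458077575918944702130520568442211743410429832871165011909316394071404203324427380869510001201393220676171100106987855603323790950400) (.p (nat_lit 494) (.a (.p (nat_lit 462) (.a (.f (nat_lit 461) (nat_lit 429) (nat_lit 7597) (.f (nat_lit 493) (nat_lit 590) (nat_lit 7629) (.d (nat_lit 495) (nat_lit 460) (nat_lit 3532) (nat_lit 497) (nat_lit 3533)))) (.a (.f (nat_lit 591) (nat_lit 559) (nat_lit 4558) (.f (nat_lit 590) (nat_lit 623) (nat_lit 4590) (.d (nat_lit 461) (nat_lit 429) (nat_lit 7597) (nat_lit 493) (nat_lit 7629)))) (.f (nat_lit 559) (nat_lit 591) (nat_lit 4558) (.f (nat_lit 527) (nat_lit 430) (nat_lit 4526) (.d (nat_lit 557) (nat_lit 556) (nat_lit 2572) (nat_lit 589) (nat_lit 5581))))))) (.a s21571 (.a (.p (nat_lit 462) (.a (.f (nat_lit 591) (nat_lit 559) (nat_lit 4558) (.f (nat_lit 590) (nat_lit 623) (nat_lit 4590) (.d (nat_lit 461) (nat_lit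 429) (nat_lit 7597) (nat_lit 493) (nat_lit 7629)))) (.a (.f (nat_lit 461) (nat_lit 429) (nat_lit 7597) (.f (nat_lit 590) (nat_lit 493) (nat_lit 7629) (.d (nat_lit 589) (nat_lit 557) (nat_lit 5581) (nat_lit 621) (nat_lit 5613)))) (.f (nat_lit 559) (nat_lit 591) (nat_lit 4558) (.f (nat_lit 527) (nat_lit 430) (nat_lit 4526) (.d (nat_lit 557) (nat_lit 556) (nat_lit 2572) (nat_lit 589) (nat_lit 5581))))))) (.a s24007 (.a (.p (nat_lit 557) (.a (.f (nat_lit 527) (nat_lit 529) (nat_lit 1549) (.d (nat_lit 556) (nat_lit 555) (nat_lit 2571) (nat_lit 559) (nat_lit 2572))) (.a (.f (nat_lit 462) (nat_lit 589) (nat_lit 5581) (.f (nat_lit 559) (nat_lit 591) (nat_lit 4558) (.d (nat_lit 527) (nat_lit 430) (nat_lit 4526) (nat_lit 556) (nat_lit 2572)))) (.f (nat_lit 589) (nat_lit 462) (nat_lit 5581) (.d (nat_lit 621) (nat_lit 590) (nat_lit 5613) (nat_lit 653) (nat_lit 6669)))))) (.a s22579 (.a (.p (nat_lit 462) (.a (.f (nat_lit 559) (nat_lit 591) (nat_lit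 4558) (.f (nat_lit 527) (nat_lit 430) (nat_lit 4526) (.d (nat_lit 557) (nat_lit 556) (nat_lit 2572) (nat_lit 589) (nat_lit 5581)))) (.f (nat_lit 461) (nat_lit 429) (nat_lit 7597) (.f (nat_lit 495) (nat_lit 497) (nat_lit 3533) (.d (nat_lit 460) (nat_lit 459) (nat_lit 459) (nat_lit 493) (nat_lit 3532)))))) s22581))))))))
noncomputable def s24557 : Cert := .r (nat_lit 943490607303752963885873112637680217458077575918944702130520568442211743410429832871165011909316394071404203324427380869510001201393220676171100106987855603323790950400) (.p (nat_lit 464) (.a (.p (nat_lit 560) (.a (.f (nat_lit 431) (nat_lit 463) (nat_lit 7599) (.f (nat_lit 432) (nat_lit 399) (nat_lit 7567) (.d (nat_lit 433) (nat_lit 401) (nat_lit 6544) (nat_lit 465) (nat_lit 6576)))) (.f (nat_lit 559) (nat_lit 591) (nat_lit 5583) (.f (nat_lit 529) (nat_lit 557) (nat_lit 2573) (.d (nat_lit 530) (nat_lit 531) (nat_lit 1551) (nat_lit 561) (nat_lit 2574)))))) (.a (.p (nat_lit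 560) (.a (.f (nat_lit 431) (nat_lit 463) (nat_lit 7599) (.f (nat_lit 432) (nat_lit 399) (nat_lit 7567) (.d (nat_lit 433) (nat_lit 401) (nat_lit 6544) (nat_lit 465) (nat_lit 6576)))) (.a (.f (nat_lit 463) (nat_lit 431) (nat_lit 7599) (.f (nat_lit 465) (nat_lit 433) (nat_lit 6576) (.d (nat_lit 592) (nat_lit 495) (nat_lit 7631) (nat_lit 497) (nat_lit 6608)))) (.f (nat_lit 559) (nat_lit 591) (nat_lit 5583) (.f (nat_lit 527) (nat_lit 432) (nat_lit 5551) (.f (nat_lit 557) (nat_lit 556) (nat_lit 2572) (.f (nat_lit 589) (nat_lit 588) (nat_lit 1580) (.d (nat_lit 561) (nat_lit 562) (nat_lit 3598) (nat_lit 590) (nat_lit 1581))))))))) (.a s24534 (.a s24545 (.a (.p (nat_lit 560) (.a (.f (nat_lit 559) (nat_lit 591) (nat_lit 5583) (.f (nat_lit 529) (nat_lit 557) (nat_lit 2573) (.d (nat_lit 530) (nat_lit 531) (nat_lit 1551) (nat_lit 561) (nat_lit 2574)))) (.f (nat_lit 463) (nat_lit 431) (nat_lit 7599) (.f (nat_lit 465) (nat_lit 433) (nat_lit 6576)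 (.d (nat_lit 592) (nat_lit 495) (nat_lit 7631) (nat_lit 497) (nat_lit 6608)))))) (.a (.p (nat_lit 560) (.a (.f (nat_lit 431) (nat_lit 463) (nat_lit 7599) (.f (nat_lit 432) (nat_lit 399) (nat_lit 7567) (.d (nat_lit 433) (nat_lit 401) (nat_lit 6544) (nat_lit 465) (nat_lit 6576)))) (.a (.f (nat_lit 463) (nat_lit 431) (nat_lit 7599) (.f (nat_lit 465) (nat_lit 433) (nat_lit 6576) (.d (nat_lit 592) (nat_lit 495) (nat_lit 7631) (nat_lit 497) (nat_lit 6608)))) (.f (nat_lit 559) (nat_lit 591) (nat_lit 5583) (.f (nat_lit 527) (nat_lit 432) (nat_lit 5551) (.d (nat_lit 529) (nat_lit 530) (nat_lit 1550) (nat_lit 557) (nat_lit 1549))))))) (.a s24548 (.a (.p (nat_lit 560) (.a (.f (nat_lit 431) (nat_lit 463) (nat_lit 7599) (.f (nat_lit 432) (nat_lit 399) (nat_lit 7567) (.d (nat_lit 433) (nat_lit 401) (nat_lit 6544) (nat_lit 465) (nat_lit 6576)))) (.a (.f (nat_lit 463) (nat_lit 431) (nat_lit 7599) (.f (nat_lit 465) (nat_lit 433) (nat_lit 6576) (.d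 (nat_lit 592) (nat_lit 495) (nat_lit 7631) (nat_lit 497) (nat_lit 6608)))) (.a (.f (nat_lit 559) (nat_lit 591) (nat_lit 5583) (.f (nat_lit 432) (nat_lit 527) (nat_lit 5551) (.d (nat_lit 433) (nat_lit 401) (nat_lit 6544) (nat_lit 465) (nat_lit 6576)))) (.a (.f (nat_lit 431) (nat_lit 463) (nat_lit 7599) (.f (nat_lit 432) (nat_lit 399) (nat_lit 7567) (.f (nat_lit 529) (nat_lit 561) (nat_lit 4528) (.f (nat_lit 497) (nat_lit 400) (nat_lit 4496) (.d (nat_lit 592) (nat_lit 465) (nat_lit 6608) (nat_lit 624) (nat_lit 6640)))))) (.f (nat_lit 431) (nat_lit 463) (nat_lit 7599) (.f (nat_lit 432) (nat_lit 399) (nat_lit 7567) (.f (nat_lit 529) (nat_lit 561) (nat_lit 4528) (.f (nat_lit 400) (nat_lit 497) (nat_lit 4496) (.d (nat_lit 401) (nat_lit 369) (nat_lit 6512) (nat_lit 433) (nat_lit 6544))))))))))) (.a s24550 s24520))))))))))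
noncomputable def s24558 : Cert := .r (nat_lit 943490607303752963885873112637680217458077575918944702130520568442211743410429832871165011909316394071404203324427380869510001201393220676171100106987855603323790950400) (.p (nat_lit 494) (.a (.p (nat_lit 462) (.a (.f (nat_lit 461) (nat_lit 429) (nat_lit 7597) (.f (nat_lit 493) (nat_lit 590) (nat_lit 7629) (.d (nat_lit 495) (nat_lit 460) (nat_lit 3532) (nat_lit 497) (nat_lit 3533)))) (.a (.f (nat_lit 591) (nat_lit 559) (nat_lit 4558) (.f (nat_lit 590) (nat_lit 623) (nat_lit 4590) (.d (nat_lit 461) (nat_lit 429) (nat_lit 7597) (nat_lit 493) (nat_lit 7629)))) (.f (nat_lit 559) (nat_lit 591) (nat_lit 4558) (.f (nat_lit 527) (nat_lit 430) (nat_lit 4526) (.d (nat_lit 557) (nat_lit 556) (nat_lit 2572) (nat_lit 589) (nat_lit 5581))))))) (.a s21571 (.a (.p (nat_lit 462) (.a (.f (nat_lit 591) (nat_lit 559) (nat_lit 4558) (.f (nat_lit 590) (nat_lit 623) (nat_lit 4590) (.d (nat_lit 461) (nat_lit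 429) (nat_lit 7597) (nat_lit 493) (nat_lit 7629)))) (.a (.f (nat_lit 461) (nat_lit 429) (nat_lit 7597) (.f (nat_lit 590) (nat_lit 493) (nat_lit 7629) (.d (nat_lit 589) (nat_lit 557) (nat_lit 5581) (nat_lit 621) (nat_lit 5613)))) (.f (nat_lit 559) (nat_lit 591) (nat_lit 4558) (.f (nat_lit 527) (nat_lit 430) (nat_lit 4526) (.d (nat_lit 557) (nat_lit 556) (nat_lit 2572) (nat_lit 589) (nat_lit 5581))))))) (.a (.p (nat_lit 590) (.a (.f (nat_lit 495) (nat_lit 463) (nat_lit 6606) (.f (nat_lit 527) (nat_lit 622) (nat_lit 6638) (.d (nat_lit 493) (nat_lit 461) (nat_lit 7629) (nat_lit 492) (nat_lit 492)))) (.a (.f (nat_lit 495) (nat_lit 463) (nat_lit 6606) (.d (nat_lit 493) (nat_lit 461) (nat_lit 7629) (nat_lit 529) (nat_lit 493))) (.f (nat_lit 623) (nat_lit 591) (nat_lit 4590) (.f (nat_lit 622) (nat_lit 655) (nat_lit 4622) (.d (nat_lit 621) (nat_lit 589) (nat_lit 5613) (nat_lit 653) (nat_lit 5645))))))) (.a (.p (nat_lit 557) (.a (.f (nat_lit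 527) (nat_lit 529) (nat_lit 1549) (.d (nat_lit 556) (nat_lit 555) (nat_lit 2571) (nat_lit 559) (nat_lit 2572))) (.a (.f (nat_lit 462) (nat_lit 589) (nat_lit 5581) (.f (nat_lit 559) (nat_lit 591) (nat_lit 4558) (.d (nat_lit 527) (nat_lit 430) (nat_lit 4526) (nat_lit 556) (nat_lit 2572)))) (.f (nat_lit 589) (nat_lit 462) (nat_lit 5581) (.d (nat_lit 621) (nat_lit 590) (nat_lit 5613) (nat_lit 653) (nat_lit 6669)))))) (.a s22562 (.a (.p (nat_lit 462) (.a (.f (nat_lit 559) (nat_lit 591) (nat_lit 4558) (.f (nat_lit 527) (nat_lit 430) (nat_lit 4526) (.d (nat_lit 557) (nat_lit 556) (nat_lit 2572) (nat_lit 589) (nat_lit 5581)))) (.f (nat_lit 461) (nat_lit 429) (nat_lit 7597) (.f (nat_lit 495) (nat_lit 497) (nat_lit 3533) (.d (nat_lit 460) (nat_lit 459) (nat_lit 459) (nat_lit 493) (nat_lit 3532)))))) s22581))))))))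
noncomputable def s24588 : Cert := .r (nat_lit 1098367625876631195638990211447803359827765831789854025350228590148069047476135421183724742106088204759328672100049959483405148627549761177659140858869700362240) (.p (nat_lit 495) (.a (.f (nat_lit 493) (nat_lit 529) (nat_lit 493) (.d (nat_lit 525) (nat_lit 497) (nat_lit 1517) (nat_lit 524) (nat_lit 1516))) (.a (.f (nat_lit 525) (nat_lit 497) (nat_lit 1517) (.d (nat_lit 524) (nat_lit 493) (nat_lit 1516) (nat_lit 523) (nat_lit 2539))) (.a (.f (nat_lit 493) (nat_lit 529) (nat_lit 493) (.f (nat_lit 461) (nat_lit 460) (nat_lit 3532) (.f (nat_lit 464) (nat_lit 465) (nat_lit 2509) (.f (nat_lit 463) (nat_lit 492) (nat_lit 2508) (.f (nat_lit 462) (nat_lit 497) (nat_lit 461) (.d (nat_lit 429) (nat_lit 397) (nat_lit 4493) (nat_lit 428) (nat_lit 3500))))))) (.a (.f (nat_lit 493) (nat_lit 529) (nat_lit 493) (.f (nat_lit 525) (nat_lit 524) (nat_lit 1516) (.f (nat_lit 461) (nat_lit 460) (nat_lit 3532)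 (.f (nat_lit 429) (nat_lit 397) (nat_lit 4493) (.f (nat_lit 430) (nat_lit 398) (nat_lit 6541) (.f (nat_lit 462) (nat_lit 557) (nat_lit 5549) (.f (nat_lit 464) (nat_lit 465) (nat_lit 2509) (.d (nat_lit 428) (nat_lit 396) (nat_lit 7564) (nat_lit 463) (nat_lit 3500))))))))) (.f (nat_lit 497) (nat_lit 525) (nat_lit 1517) (.f (nat_lit 462) (nat_lit 461) (nat_lit 3533) (.f (nat_lit 529) (nat_lit 530) (nat_lit 494) (.f (nat_lit 465) (nat_lit 466) (nat_lit 2510) (.f (nat_lit 433) (nat_lit 401) (nat_lit 5520) (.f (nat_lit 432) (nat_lit 400) (nat_lit 7568) (.f (nat_lit 464) (nat_lit 561) (nat_lit 4528) (.d (nat_lit 434) (nat_lit 402) (nat_lit 6545) (nat_lit 463) (nat_lit 2478))))))))))))))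
noncomputable def s24625 : Cert := .r (nat_lit 3773962425919908978118185776627259102364724580244206260166060325595852752540217899562262146361383509647556579790092516999820544113329941260111195429091836902519095689216) (.p (nat_lit 464) (.a (.f (nat_lit 463) (nat_lit 431) (nat_lit 7599) (.f (nat_lit 465) (nat_lit 433) (nat_lit 6576) (.f (nat_lit 462) (nat_lit 493) (nat_lit 1485) (.f (nat_lit 429) (nat_lit 430) (nat_lit 3501) (.d (nat_lit 461) (nat_lit 428) (nat_lit 3500) (nat_lit 497) (nat_lit 461)))))) (.a (.f (nat_lit 431) (nat_lit 463) (nat_lit 7599) (.f (nat_lit 432) (nat_lit 399) (nat_lit 7567) (.d (nat_lit 433) (nat_lit 401) (nat_lit 6544) (nat_lit 465) (nat_lit 6576)))) (.a (.f (nat_lit 591) (nat_lit 559) (nat_lit 5583) (.f (nat_lit 592) (nat_lit 623) (nat_lit 5615) (.d (nat_lit 465) (nat_lit 433) (nat_lit 6576) (nat_lit 497) (nat_lit 6608)))) (.a (.f (nat_lit 431) (nat_lit 463) (nat_lit 7599) (.f (nat_lit 432) (nat_lit 399)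 (nat_lit 7567) (.f (nat_lit 529) (nat_lit 561) (nat_lit 4528) (.f (nat_lit 497) (nat_lit 400) (nat_lit 4496) (.d (nat_lit 592) (nat_lit 465) (nat_lit 6608) (nat_lit 624) (nat_lit 6640)))))) (.f (nat_lit 431) (nat_lit 463) (nat_lit 7599) (.f (nat_lit 432) (nat_lit 399) (nat_lit 7567) (.f (nat_lit 401) (nat_lit 433) (nat_lit 6544) (.f (nat_lit 400) (nat_lit 369) (nat_lit 6512) (.d (nat_lit 529) (nat_lit 497) (nat_lit 4496) (nat_lit 561) (nat_lit 4528)))))))))))
noncomputable def s24709 : Cert := .r (nat_lit 3773962425919908978118185776627259102364724580244206260166060325595852752540217899562262146361383509647556579790092516999820544113329941260111195429091836902519095689216) (.p (nat_lit 464) (.a (.f (nat_lit 431) (nat_lit 463) (nat_lit 7599) (.f (nat_lit 432) (nat_lit 399) (nat_lit 7567) (.d (nat_lit 433) (nat_lit 401) (nat_lit 6544) (nat_lit 465) (nat_lit 6576)))) (.a (.f (nat_lit 465) (nat_lit 433) (nat_lit 6576) (.f (nat_lit 463)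 (nat_lit 431) (nat_lit 7599) (.f (nat_lit 466) (nat_lit 495) (nat_lit 1486) (.f (nat_lit 435) (nat_lit 434) (nat_lit 2479) (.f (nat_lit 467) (nat_lit 436) (nat_lit 2480) (.f (nat_lit 468) (nat_lit 497) (nat_lit 1488) (.d (nat_lit 500) (nat_lit 499) (nat_lit 464) (nat_lit 501) (nat_lit 465)))))))) (.a (.f (nat_lit 465) (nat_lit 433) (nat_lit 6576) (.f (nat_lit 497) (nat_lit 592) (nat_lit 6608) (.f (nat_lit 495) (nat_lit 466) (nat_lit 2510) (.f (nat_lit 529) (nat_lit 530) (nat_lit 494) (.f (nat_lit 432) (nat_lit 400) (nat_lit 4496) (.f (nat_lit 462) (nat_lit 461) (nat_lit 3533) (.f (nat_lit 527) (nat_lit 559) (nat_lit 5551) (.f (nat_lit 430) (nat_lit 398) (nat_lit 4494) (.d (nat_lit 429) (nat_lit 397) (nat_lit 7565) (nat_lit 431) (nat_lit 429)))))))))) (.a (.f (nat_lit 559) (nat_lit 591) (nat_lit 5583) (.f (nat_lit 432) (nat_lit 527) (nat_lit 5551) (.d (nat_lit 433) (nat_lit 401) (nat_lit 6544) (nat_lit 465) (nat_lit 6576)))) (.a (.f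 (nat_lit 431) (nat_lit 463) (nat_lit 7599) (.f (nat_lit 432) (nat_lit 399) (nat_lit 7567) (.f (nat_lit 529) (nat_lit 561) (nat_lit 4528) (.f (nat_lit 497) (nat_lit 400) (nat_lit 4496) (.d (nat_lit 592) (nat_lit 465) (nat_lit 6608) (nat_lit 624) (nat_lit 6640)))))) (.f (nat_lit 431) (nat_lit 463) (nat_lit 7599) (.f (nat_lit 432) (nat_lit 399) (nat_lit 7567) (.f (nat_lit 401) (nat_lit 433) (nat_lit 6544) (.f (nat_lit 400) (nat_lit 369) (nat_lit 6512) (.d (nat_lit 529) (nat_lit 497) (nat_lit 4496) (nat_lit 561) (nat_lit 4528))))))))))))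
noncomputable def s24715 : Cert := .r (nat_lit 1098367625876631195638990211447803359827765831789854025350228590148069047476135421183724742106088204759328672100049959483405148627549761177659140858869700362240) (.p (nat_lit 560) (.a (.p (nat_lit 464) (.a (.f (nat_lit 463) (nat_lit 431) (nat_lit 7599) (.f (nat_lit 465) (nat_lit 433) (nat_lit 6576) (.d (nat_lit 493) (nat_lit 462) (nat_lit 1485) (nat_lit 495) (nat_lit 2509)))) (.a (.f (nat_lit 463) (nat_lit 431) (nat_lit 7599) (.f (nat_lit 465) (nat_lit 433) (nat_lit 6576) (.f (nat_lit 462) (nat_lit 493) (nat_lit 1485) (.f (nat_lit 429) (nat_lit 430) (nat_lit 3501) (.d (nat_lit 461) (nat_lit 428) (nat_lit 3500) (nat_lit 497) (nat_lit 461)))))) (.a (.f (nat_lit 431) (nat_lit 463) (nat_lit 7599) (.f (nat_lit 432) (nat_lit 399) (nat_lit 7567) (.d (nat_lit 433) (nat_lit 401) (nat_lit 6544) (nat_lit 465) (nat_lit 6576)))) (.a (.f (nat_lit 465) (nat_lit 433) (nat_lit 6576) (.f (nat_lit 495)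 (nat_lit 493) (nat_lit 2509) (.d (nat_lit 466) (nat_lit 467) (nat_lit 1487) (nat_lit 497) (nat_lit 2510)))) (.f (nat_lit 559) (nat_lit 591) (nat_lit 5583) (.f (nat_lit 527) (nat_lit 432) (nat_lit 5551) (.f (nat_lit 529) (nat_lit 493) (nat_lit 3565) (.d (nat_lit 530) (nat_lit 495) (nat_lit 3566) (nat_lit 531) (nat_lit 1551)))))))))) (.a (.p (nat_lit 464) (.a (.f (nat_lit 463) (nat_lit 431) (nat_lit 7599) (.f (nat_lit 465) (nat_lit 433) (nat_lit 6576) (.d (nat_lit 493) (nat_lit 462) (nat_lit 1485) (nat_lit 495) (nat_lit 2509)))) (.a (.f (nat_lit 463) (nat_lit 431) (nat_lit 7599) (.f (nat_lit 465) (nat_lit 433) (nat_lit 6576) (.f (nat_lit 462) (nat_lit 493) (nat_lit 1485) (.f (nat_lit 429) (nat_lit 430) (nat_lit 3501) (.d (nat_lit 461) (nat_lit 428) (nat_lit 3500) (nat_lit 497) (nat_lit 461)))))) (.a (.f (nat_lit 431) (nat_lit 463) (nat_lit 7599) (.f (nat_lit 432) (nat_lit 399) (nat_lit 7567) (.d (nat_lit 433) (nat_lit 401) (nat_lit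 6544) (nat_lit 465) (nat_lit 6576)))) (.a (.f (nat_lit 465) (nat_lit 433) (nat_lit 6576) (.f (nat_lit 495) (nat_lit 493) (nat_lit 2509) (.d (nat_lit 466) (nat_lit 467) (nat_lit 1487) (nat_lit 497) (nat_lit 2510)))) (.a (.f (nat_lit 463) (nat_lit 431) (nat_lit 7599) (.f (nat_lit 495) (nat_lit 592) (nat_lit 7631) (.d (nat_lit 465) (nat_lit 466) (nat_lit 1486) (nat_lit 493) (nat_lit 2509)))) (.f (nat_lit 463) (nat_lit 431) (nat_lit 7599) (.f (nat_lit 495) (nat_lit 592) (nat_lit 7631) (.f (nat_lit 559) (nat_lit 591) (nat_lit 5583) (.f (nat_lit 527) (nat_lit 432) (nat_lit 5551) (.f (nat_lit 462) (nat_lit 430) (nat_lit 4526) (.d (nat_lit 461) (nat_lit 460) (nat_lit 460) (nat_lit 497) (nat_lit 461))))))))))))) (.a s24625 (.a (.p (nat_lit 592) (.a (.f (nat_lit 495) (nat_lit 463) (nat_lit 7631) (.f (nat_lit 529) (nat_lit 493) (nat_lit 493) (.d (nat_lit 497) (nat_lit 465) (nat_lit 6608) (nat_lit 530) (nat_lit 494)))) (.a (.f (nat_lit 495)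 (nat_lit 463) (nat_lit 7631) (.f (nat_lit 527) (nat_lit 624) (nat_lit 7663) (.f (nat_lit 591) (nat_lit 623) (nat_lit 5615) (.f (nat_lit 462) (nat_lit 559) (nat_lit 7630) (.d (nat_lit 497) (nat_lit 461) (nat_lit 3533) (nat_lit 465) (nat_lit 6608)))))) (.a (.f (nat_lit 623) (nat_lit 591) (nat_lit 5615) (.f (nat_lit 624) (nat_lit 655) (nat_lit 5647) (.d (nat_lit 497) (nat_lit 465) (nat_lit 6608) (nat_lit 529) (nat_lit 6640)))) (.f (nat_lit 495) (nat_lit 463) (nat_lit 7631) (.f (nat_lit 527) (nat_lit 624) (nat_lit 7663) (.d (nat_lit 493) (nat_lit 492) (nat_lit 492) (nat_lit 529) (nat_lit 493)))))))) (.a (.p (nat_lit 464) (.a (.f (nat_lit 463) (nat_lit 431) (nat_lit 7599) (.f (nat_lit 465) (nat_lit 433) (nat_lit 6576) (.d (nat_lit 493) (nat_lit 462) (nat_lit 1485) (nat_lit 495) (nat_lit 2509)))) (.a (.f (nat_lit 463) (nat_lit 431) (nat_lit 7599) (.f (nat_lit 465) (nat_lit 433) (nat_lit 6576) (.f (nat_lit 462) (nat_lit 493) (nat_lit 1485)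 (.f (nat_lit 429) (nat_lit 430) (nat_lit 3501) (.d (nat_lit 461) (nat_lit 428) (nat_lit 3500) (nat_lit 497) (nat_lit 461)))))) (.a (.f (nat_lit 431) (nat_lit 463) (nat_lit 7599) (.f (nat_lit 432) (nat_lit 399) (nat_lit 7567) (.d (nat_lit 433) (nat_lit 401) (nat_lit 6544) (nat_lit 465) (nat_lit 6576)))) (.a (.f (nat_lit 465) (nat_lit 433) (nat_lit 6576) (.f (nat_lit 495) (nat_lit 493) (nat_lit 2509) (.d (nat_lit 466) (nat_lit 467) (nat_lit 1487) (nat_lit 497) (nat_lit 2510)))) (.a (.f (nat_lit 463) (nat_lit 431) (nat_lit 7599) (.f (nat_lit 495) (nat_lit 592) (nat_lit 7631) (.d (nat_lit 465) (nat_lit 466) (nat_lit 1486) (nat_lit 493) (nat_lit 2509)))) (.f (nat_lit 431) (nat_lit 463) (nat_lit 7599) (.f (nat_lit 432) (nat_lit 399) (nat_lit 7567) (.f (nat_lit 401) (nat_lit 433) (nat_lit 6544) (.f (nat_lit 400) (nat_lit 369) (nat_lit 6512) (.d (nat_lit 529) (nat_lit 497) (nat_lit 4496) (nat_lit 561) (nat_lit 4528)))))))))))) (.a (.p (nat_lit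 464) (.a (.f (nat_lit 463) (nat_lit 431) (nat_lit 7599) (.f (nat_lit 465) (nat_lit 433) (nat_lit 6576) (.d (nat_lit 493) (nat_lit 462) (nat_lit 1485) (nat_lit 495) (nat_lit 2509)))) (.a (.f (nat_lit 431) (nat_lit 463) (nat_lit 7599) (.f (nat_lit 432) (nat_lit 399) (nat_lit 7567) (.d (nat_lit 433) (nat_lit 401) (nat_lit 6544) (nat_lit 465) (nat_lit 6576)))) (.f (nat_lit 559) (nat_lit 591) (nat_lit 5583) (.f (nat_lit 527) (nat_lit 432) (nat_lit 5551) (.f (nat_lit 529) (nat_lit 493) (nat_lit 3565) (.d (nat_lit 530) (nat_lit 495) (nat_lit 3566) (nat_lit 531) (nat_lit 1551)))))))) (.a s24709 (.a (.p (nat_lit 464) (.a (.f (nat_lit 465) (nat_lit 433) (nat_lit 6576) (.f (nat_lit 495) (nat_lit 493) (nat_lit 2509) (.d (nat_lit 466) (nat_lit 467) (nat_lit 1487) (nat_lit 497) (nat_lit 2510)))) (.a (.f (nat_lit 559) (nat_lit 591) (nat_lit 5583) (.f (nat_lit 432) (nat_lit 527) (nat_lit 5551) (.d (nat_lit 433) (nat_lit 401) (nat_lit 6544) (nat_lit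 465) (nat_lit 6576)))) (.f (nat_lit 559) (nat_lit 591) (nat_lit 5583) (.f (nat_lit 527) (nat_lit 432) (nat_lit 5551) (.f (nat_lit 529) (nat_lit 493) (nat_lit 3565) (.d (nat_lit 530) (nat_lit 495) (nat_lit 3566) (nat_lit 531) (nat_lit 1551)))))))) (.p (nat_lit 464) (.a (.f (nat_lit 559) (nat_lit 591) (nat_lit 5583) (.f (nat_lit 527) (nat_lit 432) (nat_lit 5551) (.f (nat_lit 529) (nat_lit 493) (nat_lit 3565) (.d (nat_lit 530) (nat_lit 495) (nat_lit 3566) (nat_lit 531) (nat_lit 1551))))) (.a (.f (nat_lit 463) (nat_lit 431) (nat_lit 7599) (.f (nat_lit 495) (nat_lit 592) (nat_lit 7631) (.f (nat_lit 559) (nat_lit 591) (nat_lit 5583) (.f (nat_lit 527) (nat_lit 432) (nat_lit 5551) (.f (nat_lit 462) (nat_lit 430) (nat_lit 4526) (.d (nat_lit 461) (nat_lit 460) (nat_lit 460) (nat_lit 497) (nat_lit 461))))))) (.a (.f (nat_lit 431) (nat_lit 463) (nat_lit 7599) (.f (nat_lit 432) (nat_lit 399) (nat_lit 7567) (.f (nat_lit 401) (nat_lit 433) (nat_lit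 6544) (.f (nat_lit 400) (nat_lit 369) (nat_lit 6512) (.d (nat_lit 529) (nat_lit 497) (nat_lit 4496) (nat_lit 561) (nat_lit 4528)))))) (.f (nat_lit 463) (nat_lit 431) (nat_lit 7599) (.f (nat_lit 495) (nat_lit 592) (nat_lit 7631) (.d (nat_lit 493) (nat_lit 492) (nat_lit 2508) (nat_lit 529) (nat_lit 493)))))))))))))))))
noncomputable def s24748 : Cert := .r (nat_lit 1098367625876631195638990211447803359827765831789854025350228590148069047476135421183724742106088204759328672100049959483405148627549761177659140858869700362240) (.p (nat_lit 560) (.a (.p (nat_lit 464) (.a (.f (nat_lit 463) (nat_lit 431) (nat_lit 7599) (.f (nat_lit 465) (nat_lit 433) (nat_lit 6576) (.f (nat_lit 495) (nat_lit 466) (nat_lit 1486) (.f (nat_lit 525) (nat_lit 497) (nat_lit 1517) (.d (nat_lit 524) (nat_lit 523) (nat_lit 2539) (nat_lit 527) (nat_lit 2540)))))) (.a (.f (nat_lit 431) (nat_lit 463) (nat_lit 7599) (.f (nat_lit 432) (nat_lit 399) (nat_lit 7567) (.d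 (nat_lit 433) (nat_lit 401) (nat_lit 6544) (nat_lit 465) (nat_lit 6576)))) (.f (nat_lit 559) (nat_lit 591) (nat_lit 5583) (.f (nat_lit 527) (nat_lit 432) (nat_lit 5551) (.d (nat_lit 525) (nat_lit 497) (nat_lit 2541) (nat_lit 524) (nat_lit 524))))))) (.a (.p (nat_lit 464) (.a (.f (nat_lit 431) (nat_lit 463) (nat_lit 7599) (.f (nat_lit 432) (nat_lit 399) (nat_lit 7567) (.d (nat_lit 433) (nat_lit 401) (nat_lit 6544) (nat_lit 465) (nat_lit 6576)))) (.a (.f (nat_lit 465) (nat_lit 433) (nat_lit 6576) (.f (nat_lit 463) (nat_lit 431) (nat_lit 7599) (.f (nat_lit 466) (nat_lit 495) (nat_lit 1486) (.f (nat_lit 435) (nat_lit 434) (nat_lit 2479) (.f (nat_lit 467) (nat_lit 436) (nat_lit 2480) (.f (nat_lit 468) (nat_lit 497) (nat_lit 1488) (.d (nat_lit 500) (nat_lit 499) (nat_lit 464) (nat_lit 501) (nat_lit 465)))))))) (.a (.f (nat_lit 465) (nat_lit 433) (nat_lit 6576) (.f (nat_lit 497) (nat_lit 592) (nat_lit 6608) (.d (nat_lit 495) (nat_lit 466)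 (nat_lit 2510) (nat_lit 525) (nat_lit 1517)))) (.a (.f (nat_lit 431) (nat_lit 463) (nat_lit 7599) (.f (nat_lit 432) (nat_lit 399) (nat_lit 7567) (.f (nat_lit 529) (nat_lit 561) (nat_lit 4528) (.f (nat_lit 497) (nat_lit 400) (nat_lit 4496) (.d (nat_lit 592) (nat_lit 465) (nat_lit 6608) (nat_lit 624) (nat_lit 6640)))))) (.f (nat_lit 431) (nat_lit 463) (nat_lit 7599) (.f (nat_lit 432) (nat_lit 399) (nat_lit 7567) (.f (nat_lit 401) (nat_lit 433) (nat_lit 6544) (.f (nat_lit 400) (nat_lit 369) (nat_lit 6512) (.d (nat_lit 529) (nat_lit 497) (nat_lit 4496) (nat_lit 561) (nat_lit 4528))))))))))) (.a (.p (nat_lit 464) (.a (.f (nat_lit 431) (nat_lit 463) (nat_lit 7599) (.f (nat_lit 432) (nat_lit 399) (nat_lit 7567) (.d (nat_lit 433) (nat_lit 401) (nat_lit 6544) (nat_lit 465) (nat_lit 6576)))) (.a (.f (nat_lit 591) (nat_lit 559) (nat_lit 5583) (.f (nat_lit 592) (nat_lit 623) (nat_lit 5615) (.d (nat_lit 465) (nat_lit 433) (nat_lit 6576) (nat_lit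 497) (nat_lit 6608)))) (.f (nat_lit 559) (nat_lit 591) (nat_lit 5583) (.f (nat_lit 527) (nat_lit 432) (nat_lit 5551) (.d (nat_lit 525) (nat_lit 497) (nat_lit 2541) (nat_lit 524) (nat_lit 524))))))) (.a (.p (nat_lit 592) (.a (.f (nat_lit 495) (nat_lit 463) (nat_lit 7631) (.d (nat_lit 497) (nat_lit 465) (nat_lit 6608) (nat_lit 525) (nat_lit 1517))) (.a (.f (nat_lit 623) (nat_lit 591) (nat_lit 5615) (.f (nat_lit 624) (nat_lit 655) (nat_lit 5647) (.f (nat_lit 657) (nat_lit 625) (nat_lit 4624) (.f (nat_lit 656) (nat_lit 689) (nat_lit 4656) (.f (nat_lit 527) (nat_lit 559) (nat_lit 7695) (.d (nat_lit 497) (nat_lit 465) (nat_lit 6608) (nat_lit 525) (nat_lit 2541))))))) (.a (.f (nat_lit 497) (nat_lit 465) (nat_lit 6608) (.f (nat_lit 529) (nat_lit 624) (nat_lit 6640) (.f (nat_lit 530) (nat_lit 495) (nat_lit 494) (.d (nat_lit 531) (nat_lit 532) (nat_lit 3568) (nat_lit 559) (nat_lit 1551))))) (.f (nat_lit 495) (nat_lit 463) (nat_lit 7631) (.f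 (nat_lit 527) (nat_lit 624) (nat_lit 7663) (.d (nat_lit 525) (nat_lit 524) (nat_lit 2540) (nat_lit 561) (nat_lit 525)))))))) (.a s24709 (.a (.p (nat_lit 464) (.a (.f (nat_lit 431) (nat_lit 463) (nat_lit 7599) (.f (nat_lit 432) (nat_lit 399) (nat_lit 7567) (.d (nat_lit 433) (nat_lit 401) (nat_lit 6544) (nat_lit 465) (nat_lit 6576)))) (.a (.f (nat_lit 463) (nat_lit 431) (nat_lit 7599) (.f (nat_lit 495) (nat_lit 592) (nat_lit 7631) (.d (nat_lit 465) (nat_lit 433) (nat_lit 6576) (nat_lit 466) (nat_lit 1486)))) (.a (.f (nat_lit 559) (nat_lit 591) (nat_lit 5583) (.f (nat_lit 432) (nat_lit 527) (nat_lit 5551) (.d (nat_lit 433) (nat_lit 401) (nat_lit 6544) (nat_lit 465) (nat_lit 6576)))) (.f (nat_lit 559) (nat_lit 591) (nat_lit 5583) (.f (nat_lit 527) (nat_lit 432) (nat_lit 5551) (.d (nat_lit 525) (nat_lit 524) (nat_lit 524) (nat_lit 561) (nat_lit 525)))))))) (.a (.p (nat_lit 525) (.a (.d (nat_lit 527) (nat_lit 497) (nat_lit 2541) (nat_lit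 561) (nat_lit 525)) (.a (.f (nat_lit 497) (nat_lit 495) (nat_lit 1517) (.f (nat_lit 465) (nat_lit 592) (nat_lit 6608) (.d (nat_lit 433) (nat_lit 401) (nat_lit 5520) (nat_lit 464) (nat_lit 6576)))) (.f (nat_lit 527) (nat_lit 561) (nat_lit 525) (.d (nat_lit 524) (nat_lit 495) (nat_lit 2540) (nat_lit 559) (nat_lit 524)))))) (.p (nat_lit 464) (.a (.f (nat_lit 463) (nat_lit 431) (nat_lit 7599) (.f (nat_lit 495) (nat_lit 592) (nat_lit 7631) (.f (nat_lit 525) (nat_lit 497) (nat_lit 1517) (.d (nat_lit 524) (nat_lit 523) (nat_lit 2539) (nat_lit 527) (nat_lit 2540))))) (.a (.f (nat_lit 431) (nat_lit 463) (nat_lit 7599) (.f (nat_lit 432) (nat_lit 399) (nat_lit 7567) (.f (nat_lit 401) (nat_lit 433) (nat_lit 6544) (.f (nat_lit 400) (nat_lit 369) (nat_lit 6512) (.d (nat_lit 529) (nat_lit 497) (nat_lit 4496) (nat_lit 561) (nat_lit 4528)))))) (.f (nat_lit 559) (nat_lit 591) (nat_lit 5583) (.f (nat_lit 527) (nat_lit 432) (nat_lit 5551) (.d (nat_lit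 525) (nat_lit 524) (nat_lit 524) (nat_lit 561) (nat_lit 525)))))))))))))))
noncomputable def s24758 : Cert := .r (nat_lit 4717453032125294316127427693625949108374998796335385130506726868687835905802578684957291737086975161612872578355191225769280585831318013308732534358420551646973186277376) (.p (nat_lit 464) (.a (.f (nat_lit 431) (nat_lit 463) (nat_lit 7599) (.f (nat_lit 432) (nat_lit 399) (nat_lit 7567) (.d (nat_lit 433) (nat_lit 401) (nat_lit 6544) (nat_lit 465) (nat_lit 6576)))) (.a (.f (nat_lit 559) (nat_lit 591) (nat_lit 5583) (.f (nat_lit 561) (nat_lit 525) (nat_lit 3597) (.f (nat_lit 527) (nat_lit 562) (nat_lit 3598) (.f (nat_lit 463) (nat_lit 431) (nat_lit 7599) (.d (nat_lit 495) (nat_lit 590) (nat_lit 5582) (nat_lit 592) (nat_lit 7631)))))) (.f (nat_lit 559) (nat_lit 591) (nat_lit 5583) (.f (nat_lit 432) (nat_lit 527) (nat_lit 5551) (.d (nat_lit 433) (nat_lit 401) (nat_lit 6544) (nat_lit 465) (nat_lit 6576)))))))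
noncomputable def s24774 : Cert := .r (nat_lit 1098367625825484467390612994728847270814834595036468993380805702812392619849633330614901702186037109566736419644567355043912022518030741544129681592411442118656) (.p (nat_lit 558) (.a s19156 (.a s21783 (.a s21949 (.a s22246 (.a s21577 (.a s22415 (.a s22558 (.a (.p (nat_lit 560) (.a s21941 (.a (.p (nat_lit 464) (.a (.f (nat_lit 559) (nat_lit 591) (nat_lit 5583) (.f (nat_lit 525) (nat_lit 561) (nat_lit 3597) (.d (nat_lit 524) (nat_lit 523) (nat_lit 523) (nat_lit 557) (nat_lit 3596)))) (.f (nat_lit 431) (nat_lit 463) (nat_lit 7599) (.f (nat_lit 432) (nat_lit 399) (nat_lit 7567) (.d (nat_lit 433) (nat_lit 401) (nat_lit 6544) (nat_lit 465) (nat_lit 6576)))))) (.a s22680 (.a (.p (nat_lit 559) (.a (.f (nat_lit 529) (nat_lit 557) (nat_lit 2573) (.d (nat_lit 530) (nat_lit 531) (nat_lit 1551) (nat_lit 561) (nat_lit 2574))) (.f (nat_lit 591) (nat_lit 464) (nat_lit 5583) (.d (nat_lit 623) (nat_lit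 527) (nat_lit 6639) (nat_lit 655) (nat_lit 6671))))) (.a (.p (nat_lit 464) (.a (.f (nat_lit 431) (nat_lit 463) (nat_lit 7599) (.f (nat_lit 432) (nat_lit 399) (nat_lit 7567) (.d (nat_lit 433) (nat_lit 401) (nat_lit 6544) (nat_lit 465) (nat_lit 6576)))) (.f (nat_lit 559) (nat_lit 591) (nat_lit 5583) (.f (nat_lit 557) (nat_lit 529) (nat_lit 2573) (.f (nat_lit 525) (nat_lit 524) (nat_lit 3596) (.f (nat_lit 589) (nat_lit 588) (nat_lit 1580) (.f (nat_lit 621) (nat_lit 653) (nat_lit 6669) (.f (nat_lit 622) (nat_lit 654) (nat_lit 4621) (.f (nat_lit 493) (nat_lit 590) (nat_lit 7661) (.f (nat_lit 461) (nat_lit 429) (nat_lit 4525) (.d (nat_lit 460) (nat_lit 428) (nat_lit 7596) (nat_lit 492) (nat_lit 7628)))))))))))) s24758)))))) (.a (.p (nat_lit 560) (.a s22641 (.a (.p (nat_lit 464) (.a (.f (nat_lit 559) (nat_lit 591) (nat_lit 5583) (.f (nat_lit 525) (nat_lit 561) (nat_lit 3597) (.d (nat_lit 524) (nat_lit 523) (nat_lit 523) (nat_lit 557) (nat_lit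 3596)))) (.f (nat_lit 431) (nat_lit 463) (nat_lit 7599) (.f (nat_lit 432) (nat_lit 399) (nat_lit 7567) (.d (nat_lit 433) (nat_lit 401) (nat_lit 6544) (nat_lit 465) (nat_lit 6576)))))) (.a s22680 (.a (.p (nat_lit 559) (.a (.f (nat_lit 529) (nat_lit 557) (nat_lit 2573) (.d (nat_lit 530) (nat_lit 531) (nat_lit 1551) (nat_lit 561) (nat_lit 2574))) (.f (nat_lit 591) (nat_lit 464) (nat_lit 5583) (.d (nat_lit 623) (nat_lit 527) (nat_lit 6639) (nat_lit 655) (nat_lit 6671))))) (.a (.p (nat_lit 464) (.a (.f (nat_lit 431) (nat_lit 463) (nat_lit 7599) (.f (nat_lit 432) (nat_lit 399) (nat_lit 7567) (.d (nat_lit 433) (nat_lit 401) (nat_lit 6544) (nat_lit 465) (nat_lit 6576)))) (.f (nat_lit 559) (nat_lit 591) (nat_lit 5583) (.f (nat_lit 557) (nat_lit 529) (nat_lit 2573) (.f (nat_lit 525) (nat_lit 524) (nat_lit 3596) (.f (nat_lit 589) (nat_lit 588) (nat_lit 1580) (.d (nat_lit 494) (nat_lit 462) (nat_lit 5581) (nat_lit 621) (nat_lit 6637))))))))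 s24758)))))) (.a s22655 (.a s22658 (.a s22666 (.a s22668 (.a (.p (nat_lit 560) (.a s22680 (.a (.p (nat_lit 464) (.a (.f (nat_lit 559) (nat_lit 591) (nat_lit 5583) (.f (nat_lit 525) (nat_lit 561) (nat_lit 3597) (.d (nat_lit 524) (nat_lit 523) (nat_lit 523) (nat_lit 557) (nat_lit 3596)))) (.f (nat_lit 431) (nat_lit 463) (nat_lit 7599) (.f (nat_lit 432) (nat_lit 399) (nat_lit 7567) (.d (nat_lit 433) (nat_lit 401) (nat_lit 6544) (nat_lit 465) (nat_lit 6576)))))) (.a (.p (nat_lit 559) (.a (.f (nat_lit 529) (nat_lit 557) (nat_lit 2573) (.d (nat_lit 530) (nat_lit 531) (nat_lit 1551) (nat_lit 561) (nat_lit 2574))) (.f (nat_lit 591) (nat_lit 464) (nat_lit 5583) (.d (nat_lit 623) (nat_lit 527) (nat_lit 6639) (nat_lit 655) (nat_lit 6671))))) (.a (.p (nat_lit 464) (.a (.f (nat_lit 431) (nat_lit 463) (nat_lit 7599) (.f (nat_lit 432) (nat_lit 399) (nat_lit 7567) (.d (nat_lit 433) (nat_lit 401) (nat_lit 6544) (nat_lit 465) (nat_lit 6576)))) (.f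 (nat_lit 559) (nat_lit 591) (nat_lit 5583) (.f (nat_lit 557) (nat_lit 529) (nat_lit 2573) (.f (nat_lit 525) (nat_lit 524) (nat_lit 3596) (.f (nat_lit 589) (nat_lit 588) (nat_lit 1580) (.d (nat_lit 494) (nat_lit 462) (nat_lit 5581) (nat_lit 621) (nat_lit 6637)))))))) (.p (nat_lit 464) (.a (.f (nat_lit 431) (nat_lit 463) (nat_lit 7599) (.f (nat_lit 432) (nat_lit 399) (nat_lit 7567) (.d (nat_lit 433) (nat_lit 401) (nat_lit 6544) (nat_lit 465) (nat_lit 6576)))) (.a (.f (nat_lit 559) (nat_lit 591) (nat_lit 5583) (.f (nat_lit 561) (nat_lit 525) (nat_lit 3597) (.f (nat_lit 527) (nat_lit 562) (nat_lit 3598) (.f (nat_lit 529) (nat_lit 530) (nat_lit 1550) (.f (nat_lit 463) (nat_lit 431) (nat_lit 7599) (.f (nat_lit 495) (nat_lit 592) (nat_lit 7631) (.f (nat_lit 494) (nat_lit 493) (nat_lit 493) (.d (nat_lit 465) (nat_lit 433) (nat_lit 6576) (nat_lit 466) (nat_lit 1486))))))))) (.a (.f (nat_lit 559) (nat_lit 591) (nat_lit 5583) (.f (nat_lit 432)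 (nat_lit 527) (nat_lit 5551) (.d (nat_lit 433) (nat_lit 401) (nat_lit 6544) (nat_lit 465) (nat_lit 6576)))) (.f (nat_lit 559) (nat_lit 591) (nat_lit 5583) (.f (nat_lit 527) (nat_lit 432) (nat_lit 5551) (.d (nat_lit 525) (nat_lit 524) (nat_lit 524) (nat_lit 561) (nat_lit 525))))))))))))) s22684)))))))))))))))
noncomputable def s24775 : Cert := .r (nat_lit 1098367625825484467390612994728847270814834595036468993380805702812392619849633330614901702186037109566736419644567355043912022518030741544129681592411442118656) (.p (nat_lit 558) (.a (.p (nat_lit 527) (.a (.f (nat_lit 525) (nat_lit 497) (nat_lit 2541) (.d (nat_lit 557) (nat_lit 529) (nat_lit 1549) (nat_lit 556) (nat_lit 1548))) (.a (.f (nat_lit 525) (nat_lit 497) (nat_lit 2541) (.f (nat_lit 524) (nat_lit 495) (nat_lit 2540) (.d (nat_lit 492) (nat_lit 491) (nat_lit 3563) (nat_lit 493) (nat_lit 3564)))) (.f (nat_lit 529) (nat_lit 557) (nat_lit 1549) (.f (nat_lit 494) (nat_lit 493)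 (nat_lit 3565) (.d (nat_lit 530) (nat_lit 495) (nat_lit 3566) (nat_lit 559) (nat_lit 1550))))))) (.a s21693 (.a s21983 (.a s22244 (.a s22564 (.a s22655 (.a s19164 s22702))))))))
noncomputable def s24826 : Cert := .r (nat_lit 943490607303752963885873112637680217458077575918944702130520568442211743410429832871165011909316394071404203324427380869510001201393220676171100106987855603323790950400) (.p (nat_lit 494) (.a (.p (nat_lit 527) (.a (.f (nat_lit 525) (nat_lit 497) (nat_lit 2541) (.f (nat_lit 493) (nat_lit 492) (nat_lit 3564) (.d (nat_lit 461) (nat_lit 429) (nat_lit 4525) (nat_lit 590) (nat_lit 7629)))) (.a (.f (nat_lit 529) (nat_lit 493) (nat_lit 3565) (.f (nat_lit 559) (nat_lit 530) (nat_lit 1550) (.d (nat_lit 462) (nat_lit 430) (nat_lit 4526) (nat_lit 591) (nat_lit 4558)))) (.f (nat_lit 525) (nat_lit 497) (nat_lit 2541) (.f (nat_lit 560) (nat_lit 561) (nat_lit 525) (.f (nat_lit 559) (nat_lit 524) (nat_lit 524) (.d (nat_lit 462)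 (nat_lit 430) (nat_lit 4526) (nat_lit 591) (nat_lit 4558)))))))) (.a (.p (nat_lit 462) (.a (.f (nat_lit 461) (nat_lit 429) (nat_lit 7597) (.f (nat_lit 493) (nat_lit 590) (nat_lit 7629) (.d (nat_lit 495) (nat_lit 460) (nat_lit 3532) (nat_lit 497) (nat_lit 3533)))) (.a (.f (nat_lit 591) (nat_lit 559) (nat_lit 4558) (.f (nat_lit 590) (nat_lit 623) (nat_lit 4590) (.d (nat_lit 461) (nat_lit 429) (nat_lit 7597) (nat_lit 493) (nat_lit 7629)))) (.f (nat_lit 559) (nat_lit 591) (nat_lit 4558) (.f (nat_lit 527) (nat_lit 430) (nat_lit 4526) (.f (nat_lit 525) (nat_lit 497) (nat_lit 2541) (.d (nat_lit 524) (nat_lit 495) (nat_lit 2540) (nat_lit 523) (nat_lit 523)))))))) (.a (.p (nat_lit 590) (.a (.f (nat_lit 493) (nat_lit 461) (nat_lit 7629) (.f (nat_lit 622) (nat_lit 525) (nat_lit 7661) (.d (nat_lit 621) (nat_lit 589) (nat_lit 5613) (nat_lit 653) (nat_lit 5645)))) (.a (.f (nat_lit 623) (nat_lit 591) (nat_lit 4590) (.f (nat_lit 622) (nat_lit 655)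 (nat_lit 4622) (.d (nat_lit 621) (nat_lit 589) (nat_lit 5613) (nat_lit 653) (nat_lit 5645)))) (.f (nat_lit 461) (nat_lit 493) (nat_lit 7629) (.f (nat_lit 462) (nat_lit 429) (nat_lit 7597) (.d (nat_lit 591) (nat_lit 559) (nat_lit 4558) (nat_lit 623) (nat_lit 4590))))))) (.a (.p (nat_lit 590) (.a (.f (nat_lit 493) (nat_lit 461) (nat_lit 7629) (.f (nat_lit 622) (nat_lit 525) (nat_lit 7661) (.d (nat_lit 621) (nat_lit 589) (nat_lit 5613) (nat_lit 653) (nat_lit 5645)))) (.a (.f (nat_lit 623) (nat_lit 591) (nat_lit 4590) (.f (nat_lit 622) (nat_lit 655) (nat_lit 4622) (.d (nat_lit 621) (nat_lit 589) (nat_lit 5613) (nat_lit 653) (nat_lit 5645)))) (.f (nat_lit 493) (nat_lit 461) (nat_lit 7629) (.f (nat_lit 527) (nat_lit 529) (nat_lit 3565) (.d (nat_lit 492) (nat_lit 491) (nat_lit 491) (nat_lit 525) (nat_lit 3564))))))) (.a s22579 (.a (.p (nat_lit 590) (.a (.f (nat_lit 623) (nat_lit 591) (nat_lit 4590) (.f (nat_lit 622) (nat_lit 655) (nat_lit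 4622) (.d (nat_lit 621) (nat_lit 589) (nat_lit 5613) (nat_lit 653) (nat_lit 5645)))) (.a (.f (nat_lit 621) (nat_lit 589) (nat_lit 5613) (.f (nat_lit 622) (nat_lit 653) (nat_lit 5645) (.f (nat_lit 527) (nat_lit 495) (nat_lit 6638) (.f (nat_lit 559) (nat_lit 654) (nat_lit 6670) (.f (nat_lit 525) (nat_lit 497) (nat_lit 2541) (.d (nat_lit 524) (nat_lit 523) (nat_lit 523) (nat_lit 560) (nat_lit 524))))))) (.f (nat_lit 591) (nat_lit 623) (nat_lit 4590) (.f (nat_lit 559) (nat_lit 462) (nat_lit 4558) (.f (nat_lit 560) (nat_lit 464) (nat_lit 5583) (.d (nat_lit 561) (nat_lit 525) (nat_lit 3597) (nat_lit 562) (nat_lit 1582)))))))) (.p (nat_lit 527) (.a (.f (nat_lit 493) (nat_lit 529) (nat_lit 3565) (.d (nat_lit 492) (nat_lit 491) (nat_lit 491) (nat_lit 525) (nat_lit 3564))) (.a (.f (nat_lit 525) (nat_lit 497) (nat_lit 2541) (.f (nat_lit 524) (nat_lit 495) (nat_lit 2540) (.f (nat_lit 491) (nat_lit 492) (nat_lit 3563) (.f (nat_lit 523) (nat_lit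 490) (nat_lit 3562) (.d (nat_lit 555) (nat_lit 554) (nat_lit 1546) (nat_lit 556) (nat_lit 1547)))))) (.f (nat_lit 529) (nat_lit 493) (nat_lit 3565) (.f (nat_lit 530) (nat_lit 495) (nat_lit 3566) (.d (nat_lit 562) (nat_lit 561) (nat_lit 526) (nat_lit 563) (nat_lit 527))))))))))))))
noncomputable def s24827 : Cert := .r (nat_lit 1098367625825484467390612994728847270814834595036468993380805702812392619849633330614901702186037109566736419644567355043912022518030741544129681592411442118656) (.p (nat_lit 558) (.a (.p (nat_lit 527) (.a (.f (nat_lit 525) (nat_lit 497) (nat_lit 2541) (.d (nat_lit 557) (nat_lit 529) (nat_lit 1549) (nat_lit 556) (nat_lit 1548))) (.a (.f (nat_lit 525) (nat_lit 497) (nat_lit 2541) (.f (nat_lit 524) (nat_lit 495) (nat_lit 2540) (.d (nat_lit 492) (nat_lit 491) (nat_lit 3563) (nat_lit 493) (nat_lit 3564)))) (.f (nat_lit 529) (nat_lit 557) (nat_lit 1549) (.f (nat_lit 494) (nat_lit 493) (nat_lit 3565) (.d (nat_lit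 530) (nat_lit 495) (nat_lit 3566) (nat_lit 559) (nat_lit 1550))))))) (.a (.p (nat_lit 559) (.a (.p (nat_lit 560) (.a (.f (nat_lit 561) (nat_lit 525) (nat_lit 3597) (.f (nat_lit 590) (nat_lit 589) (nat_lit 1581) (.f (nat_lit 591) (nat_lit 562) (nat_lit 1582) (.d (nat_lit 494) (nat_lit 462) (nat_lit 4558) (nat_lit 623) (nat_lit 4590))))) (.a (.f (nat_lit 591) (nat_lit 464) (nat_lit 5583) (.d (nat_lit 623) (nat_lit 527) (nat_lit 6639) (nat_lit 655) (nat_lit 6671))) (.f (nat_lit 525) (nat_lit 561) (nat_lit 3597) (.d (nat_lit 524) (nat_lit 523) (nat_lit 523) (nat_lit 527) (nat_lit 524)))))) (.a (.p (nat_lit 560) (.a (.f (nat_lit 561) (nat_lit 525) (nat_lit 3597) (.f (nat_lit 590) (nat_lit 589) (nat_lit 1581) (.f (nat_lit 591) (nat_lit 562) (nat_lit 1582) (.d (nat_lit 494) (nat_lit 462) (nat_lit 4558) (nat_lit 623) (nat_lit 4590))))) (.a (.f (nat_lit 591) (nat_lit 464) (nat_lit 5583) (.f (nat_lit 623) (nat_lit 655) (nat_lit 6671) (.d (nat_lit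 494) (nat_lit 462) (nat_lit 4558) (nat_lit 590) (nat_lit 4590)))) (.f (nat_lit 525) (nat_lit 561) (nat_lit 3597) (.d (nat_lit 524) (nat_lit 523) (nat_lit 523) (nat_lit 557) (nat_lit 3596)))))) (.a (.p (nat_lit 527) (.a (.f (nat_lit 591) (nat_lit 623) (nat_lit 6639) (.d (nat_lit 464) (nat_lit 432) (nat_lit 5551) (nat_lit 495) (nat_lit 6607))) (.f (nat_lit 525) (nat_lit 497) (nat_lit 2541) (.f (nat_lit 557) (nat_lit 556) (nat_lit 1548) (.f (nat_lit 493) (nat_lit 492) (nat_lit 3564) (.d (nat_lit 461) (nat_lit 429) (nat_lit 4525) (nat_lit 590) (nat_lit 4557))))))) (.a (.p (nat_lit 525) (.a (.f (nat_lit 527) (nat_lit 497) (nat_lit 2541) (.d (nat_lit 524) (nat_lit 495) (nat_lit 2540) (nat_lit 523) (nat_lit 523))) (.a (.f (nat_lit 524) (nat_lit 523) (nat_lit 523) (.d (nat_lit 560) (nat_lit 557) (nat_lit 3596) (nat_lit 561) (nat_lit 3597))) (.f (nat_lit 527) (nat_lit 497) (nat_lit 2541) (.f (nat_lit 557) (nat_lit 556) (nat_lit 1548) (.f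 (nat_lit 560) (nat_lit 561) (nat_lit 525) (.f (nat_lit 591) (nat_lit 623) (nat_lit 6639) (.f (nat_lit 494) (nat_lit 462) (nat_lit 4558) (.d (nat_lit 589) (nat_lit 588) (nat_lit 1580) (nat_lit 621) (nat_lit 6637)))))))))) (.a (.p (nat_lit 464) (.a (.f (nat_lit 527) (nat_lit 432) (nat_lit 5551) (.d (nat_lit 591) (nat_lit 495) (nat_lit 6607) (nat_lit 623) (nat_lit 6639))) (.a (.f (nat_lit 591) (nat_lit 560) (nat_lit 5583) (.f (nat_lit 494) (nat_lit 462) (nat_lit 4558) (.d (nat_lit 623) (nat_lit 590) (nat_lit 4590) (nat_lit 655) (nat_lit 7694)))) (.f (nat_lit 432) (nat_lit 527) (nat_lit 5551) (.f (nat_lit 401) (nat_lit 433) (nat_lit 6544) (.f (nat_lit 400) (nat_lit 369) (nat_lit 6512) (.d (nat_lit 399) (nat_lit 367) (nat_lit 7535) (nat_lit 431) (nat_lit 7567)))))))) (.p (nat_lit 525) (.a (.f (nat_lit 527) (nat_lit 497) (nat_lit 2541) (.d (nat_lit 524) (nat_lit 495) (nat_lit 2540) (nat_lit 523) (nat_lit 523))) (.a (.f (nat_lit 524) (nat_lit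 523) (nat_lit 523) (.d (nat_lit 560) (nat_lit 557) (nat_lit 3596) (nat_lit 561) (nat_lit 3597))) (.f (nat_lit 527) (nat_lit 497) (nat_lit 2541) (.f (nat_lit 557) (nat_lit 556) (nat_lit 1548) (.f (nat_lit 493) (nat_lit 492) (nat_lit 3564) (.d (nat_lit 461) (nat_lit 429) (nat_lit 4525) (nat_lit 590) (nat_lit 4557)))))))))))))) (.a s24115 (.a (.p (nat_lit 527) (.a (.f (nat_lit 525) (nat_lit 497) (nat_lit 2541) (.d (nat_lit 557) (nat_lit 529) (nat_lit 1549) (nat_lit 556) (nat_lit 1548))) (.a (.f (nat_lit 525) (nat_lit 497) (nat_lit 2541) (.f (nat_lit 560) (nat_lit 561) (nat_lit 525) (.f (nat_lit 559) (nat_lit 524) (nat_lit 524) (.d (nat_lit 464) (nat_lit 432) (nat_lit 5551) (nat_lit 591) (nat_lit 5583))))) (.f (nat_lit 529) (nat_lit 557) (nat_lit 1549) (.f (nat_lit 559) (nat_lit 530) (nat_lit 1550) (.f (nat_lit 591) (nat_lit 623) (nat_lit 6639) (.d (nat_lit 464) (nat_lit 432) (nat_lit 5551) (nat_lit 560) (nat_lit 5583)))))))) (.a s22408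 (.a s24552 (.a s22658 (.a s24826 (.p (nat_lit 527) (.a (.f (nat_lit 525) (nat_lit 497) (nat_lit 2541) (.f (nat_lit 524) (nat_lit 495) (nat_lit 2540) (.d (nat_lit 492) (nat_lit 491) (nat_lit 3563) (nat_lit 493) (nat_lit 3564)))) (.a (.f (nat_lit 529) (nat_lit 557) (nat_lit 1549) (.f (nat_lit 559) (nat_lit 530) (nat_lit 1550) (.f (nat_lit 494) (nat_lit 493) (nat_lit 3565) (.d (nat_lit 462) (nat_lit 430) (nat_lit 4526) (nat_lit 591) (nat_lit 4558))))) (.f (nat_lit 529) (nat_lit 557) (nat_lit 1549) (.f (nat_lit 530) (nat_lit 559) (nat_lit 1550) (.d (nat_lit 562) (nat_lit 561) (nat_lit 526) (nat_lit 563) (nat_lit 527))))))))))))))))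
noncomputable def s24881 : Cert := .r (nat_lit 943490607303752963885873112637680217458077575918944702130520568442211743410429832871165011909316394071404203324427380869510001201393220676171100106987855603323790950400) (.p (nat_lit 494) (.a s19085 (.a s19111 (.a (.p (nat_lit 590) (.a (.f (nat_lit 493) (nat_lit 461) (nat_lit 7629) (.f (nat_lit 622) (nat_lit 525) (nat_lit 7661) (.d (nat_lit 621) (nat_lit 589) (nat_lit 5613) (nat_lit 653) (nat_lit 5645)))) (.a (.f (nat_lit 623) (nat_lit 591) (nat_lit 4590) (.f (nat_lit 622) (nat_lit 655) (nat_lit 4622) (.d (nat_lit 621) (nat_lit 589) (nat_lit 5613) (nat_lit 653) (nat_lit 5645)))) (.f (nat_lit 493) (nat_lit 461) (nat_lit 7629) (.f (nat_lit 527) (nat_lit 529) (nat_lit 3565) (.d (nat_lit 492) (nat_lit 491) (nat_lit 491) (nat_lit 525) (nat_lit 3564))))))) (.a (.p (nat_lit 590) (.a (.f (nat_lit 495) (nat_lit 463) (nat_lit 6606) (.f (nat_lit 527) (nat_lit 622) (nat_lit 6638) (.d (nat_lit 493)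 (nat_lit 461) (nat_lit 7629) (nat_lit 492) (nat_lit 492)))) (.a (.f (nat_lit 495) (nat_lit 463) (nat_lit 6606) (.d (nat_lit 493) (nat_lit 461) (nat_lit 7629) (nat_lit 529) (nat_lit 493))) (.f (nat_lit 623) (nat_lit 591) (nat_lit 4590) (.f (nat_lit 622) (nat_lit 655) (nat_lit 4622) (.d (nat_lit 621) (nat_lit 589) (nat_lit 5613) (nat_lit 653) (nat_lit 5645))))))) (.a (.p (nat_lit 590) (.a (.f (nat_lit 495) (nat_lit 463) (nat_lit 6606) (.f (nat_lit 525) (nat_lit 497) (nat_lit 1517) (.d (nat_lit 524) (nat_lit 523) (nat_lit 2539) (nat_lit 527) (nat_lit 2540)))) (.f (nat_lit 623) (nat_lit 591) (nat_lit 4590) (.f (nat_lit 622) (nat_lit 655) (nat_lit 4622) (.d (nat_lit 621) (nat_lit 589) (nat_lit 5613) (nat_lit 653) (nat_lit 5645)))))) (.p (nat_lit 527) (.a (.f (nat_lit 493) (nat_lit 529) (nat_lit 3565) (.d (nat_lit 492) (nat_lit 491) (nat_lit 491) (nat_lit 525) (nat_lit 3564))) (.a (.f (nat_lit 525) (nat_lit 497) (nat_lit 2541) (.f (nat_lit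 524) (nat_lit 495) (nat_lit 2540) (.f (nat_lit 491) (nat_lit 492) (nat_lit 3563) (.f (nat_lit 523) (nat_lit 490) (nat_lit 3562) (.d (nat_lit 555) (nat_lit 554) (nat_lit 1546) (nat_lit 556) (nat_lit 1547)))))) (.f (nat_lit 529) (nat_lit 493) (nat_lit 3565) (.f (nat_lit 530) (nat_lit 495) (nat_lit 3566) (.d (nat_lit 562) (nat_lit 561) (nat_lit 526) (nat_lit 563) (nat_lit 527)))))))))))))
noncomputable def s24883 : Cert := .r (nat_lit 943490607303752963885873112637680217458077575918944702130520568442211743410429832871165011909316394071404203324427380869510001201393220676171100106987855603323790950400) (.p (nat_lit 494) (.a (.p (nat_lit 462) (.a (.f (nat_lit 557) (nat_lit 589) (nat_lit 5581) (.f (nat_lit 525) (nat_lit 430) (nat_lit 5549) (.d (nat_lit 527) (nat_lit 497) (nat_lit 2541) (nat_lit 556) (nat_lit 1548)))) (.a (.f (nat_lit 461) (nat_lit 429) (nat_lit 7597) (.f (nat_lit 493) (nat_lit 590) (nat_lit 7629) (.d (nat_lit 495) (nat_lit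 460) (nat_lit 3532) (nat_lit 497) (nat_lit 3533)))) (.f (nat_lit 591) (nat_lit 559) (nat_lit 4558) (.f (nat_lit 590) (nat_lit 623) (nat_lit 4590) (.d (nat_lit 461) (nat_lit 429) (nat_lit 7597) (nat_lit 493) (nat_lit 7629))))))) (.a (.p (nat_lit 462) (.a (.f (nat_lit 461) (nat_lit 429) (nat_lit 7597) (.f (nat_lit 493) (nat_lit 590) (nat_lit 7629) (.d (nat_lit 495) (nat_lit 460) (nat_lit 3532) (nat_lit 497) (nat_lit 3533)))) (.a (.f (nat_lit 591) (nat_lit 559) (nat_lit 4558) (.f (nat_lit 590) (nat_lit 623) (nat_lit 4590) (.d (nat_lit 461) (nat_lit 429) (nat_lit 7597) (nat_lit 493) (nat_lit 7629)))) (.f (nat_lit 557) (nat_lit 589) (nat_lit 5581) (.f (nat_lit 559) (nat_lit 591) (nat_lit 4558) (.f (nat_lit 525) (nat_lit 430) (nat_lit 5549) (.d (nat_lit 524) (nat_lit 523) (nat_lit 523) (nat_lit 560) (nat_lit 3596)))))))) (.a (.p (nat_lit 462) (.a (.f (nat_lit 557) (nat_lit 589) (nat_lit 5581) (.f (nat_lit 525) (nat_lit 430) (nat_lit 5549)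 (.d (nat_lit 527) (nat_lit 497) (nat_lit 2541) (nat_lit 556) (nat_lit 1548)))) (.f (nat_lit 591) (nat_lit 559) (nat_lit 4558) (.f (nat_lit 590) (nat_lit 623) (nat_lit 4590) (.d (nat_lit 461) (nat_lit 429) (nat_lit 7597) (nat_lit 493) (nat_lit 7629)))))) (.a s19085 (.a (.p (nat_lit 462) (.a (.f (nat_lit 461) (nat_lit 429) (nat_lit 7597) (.f (nat_lit 493) (nat_lit 590) (nat_lit 7629) (.d (nat_lit 495) (nat_lit 460) (nat_lit 3532) (nat_lit 497) (nat_lit 3533)))) (.a (.f (nat_lit 591) (nat_lit 559) (nat_lit 4558) (.f (nat_lit 590) (nat_lit 623) (nat_lit 4590) (.d (nat_lit 461) (nat_lit 429) (nat_lit 7597) (nat_lit 493) (nat_lit 7629)))) (.f (nat_lit 559) (nat_lit 591) (nat_lit 4558) (.f (nat_lit 527) (nat_lit 430) (nat_lit 4526) (.d (nat_lit 557) (nat_lit 556) (nat_lit 2572) (nat_lit 589) (nat_lit 5581))))))) (.a s21700 (.a (.p (nat_lit 462) (.a (.f (nat_lit 557) (nat_lit 589) (nat_lit 5581) (.f (nat_lit 525) (nat_lit 430) (nat_lit 5549)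 (.d (nat_lit 527) (nat_lit 497) (nat_lit 2541) (nat_lit 556) (nat_lit 1548)))) (.a (.f (nat_lit 589) (nat_lit 557) (nat_lit 5581) (.f (nat_lit 590) (nat_lit 621) (nat_lit 5613) (.d (nat_lit 591) (nat_lit 559) (nat_lit 4558) (nat_lit 623) (nat_lit 4590)))) (.f (nat_lit 559) (nat_lit 591) (nat_lit 4558) (.f (nat_lit 527) (nat_lit 430) (nat_lit 4526) (.f (nat_lit 525) (nat_lit 497) (nat_lit 2541) (.d (nat_lit 524) (nat_lit 495) (nat_lit 2540) (nat_lit 523) (nat_lit 523)))))))) (.p (nat_lit 462) (.a (.f (nat_lit 559) (nat_lit 591) (nat_lit 4558) (.f (nat_lit 527) (nat_lit 430) (nat_lit 4526) (.d (nat_lit 557) (nat_lit 556) (nat_lit 2572) (nat_lit 589) (nat_lit 5581)))) (.f (nat_lit 461) (nat_lit 429) (nat_lit 7597) (.f (nat_lit 495) (nat_lit 497) (nat_lit 3533) (.d (nat_lit 460) (nat_lit 459) (nat_lit 459) (nat_lit 493) (nat_lit 3532))))))))))))))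
noncomputable def s24884 : Cert := .r (nat_lit 1098367625825484467390612994728847270814834595036468993380805702812392619849633330614901702186037109566736419644567355043912022518030741544129681592411442118656) (.p (nat_lit 558) (.a (.p (nat_lit 527) (.a (.f (nat_lit 525) (nat_lit 497) (nat_lit 2541) (.d (nat_lit 557) (nat_lit 529) (nat_lit 1549) (nat_lit 556) (nat_lit 1548))) (.a (.f (nat_lit 525) (nat_lit 497) (nat_lit 2541) (.f (nat_lit 524) (nat_lit 495) (nat_lit 2540) (.d (nat_lit 492) (nat_lit 491) (nat_lit 3563) (nat_lit 493) (nat_lit 3564)))) (.f (nat_lit 529) (nat_lit 557) (nat_lit 1549) (.f (nat_lit 494) (nat_lit 493) (nat_lit 3565) (.d (nat_lit 530) (nat_lit 495) (nat_lit 3566) (nat_lit 559) (nat_lit 1550))))))) (.a s24883 (.a s24115 (.a (.p (nat_lit 527) (.a (.f (nat_lit 525) (nat_lit 497) (nat_lit 2541) (.d (nat_lit 557) (nat_lit 529) (nat_lit 1549) (nat_lit 556) (nat_lit 1548))) (.a (.f (nat_lit 525) (nat_lit 497) (nat_lit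 2541) (.f (nat_lit 560) (nat_lit 561) (nat_lit 525) (.f (nat_lit 559) (nat_lit 524) (nat_lit 524) (.d (nat_lit 464) (nat_lit 432) (nat_lit 5551) (nat_lit 591) (nat_lit 5583))))) (.f (nat_lit 529) (nat_lit 557) (nat_lit 1549) (.f (nat_lit 559) (nat_lit 530) (nat_lit 1550) (.f (nat_lit 591) (nat_lit 623) (nat_lit 6639) (.d (nat_lit 464) (nat_lit 432) (nat_lit 5551) (nat_lit 560) (nat_lit 5583)))))))) (.a s22408 (.a s24558 (.a s22658 (.a s24826 (.p (nat_lit 527) (.a (.f (nat_lit 525) (nat_lit 497) (nat_lit 2541) (.f (nat_lit 524) (nat_lit 495) (nat_lit 2540) (.d (nat_lit 492) (nat_lit 491) (nat_lit 3563) (nat_lit 493) (nat_lit 3564)))) (.a (.f (nat_lit 529) (nat_lit 557) (nat_lit 1549) (.f (nat_lit 559) (nat_lit 530) (nat_lit 1550) (.f (nat_lit 494) (nat_lit 493) (nat_lit 3565) (.d (nat_lit 462) (nat_lit 430) (nat_lit 4526) (nat_lit 591) (nat_lit 4558))))) (.f (nat_lit 529) (nat_lit 557) (nat_lit 1549) (.f (nat_lit 530) (nat_lit 559)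 (nat_lit 1550) (.d (nat_lit 562) (nat_lit 561) (nat_lit 526) (nat_lit 563) (nat_lit 527))))))))))))))))
noncomputable def s24885 : Cert := .r (nat_lit 1098367625825484467390612994728847270814834595036468993380805702812392619849633330614901702186037109566736419644567355043912022518030741544129681592411442118656) (.p (nat_lit 558) (.a (.p (nat_lit 527) (.a (.f (nat_lit 525) (nat_lit 497) (nat_lit 2541) (.d (nat_lit 557) (nat_lit 529) (nat_lit 1549) (nat_lit 556) (nat_lit 1548))) (.a (.f (nat_lit 525) (nat_lit 497) (nat_lit 2541) (.f (nat_lit 524) (nat_lit 495) (nat_lit 2540) (.d (nat_lit 492) (nat_lit 491) (nat_lit 3563) (nat_lit 493) (nat_lit 3564)))) (.f (nat_lit 529) (nat_lit 557) (nat_lit 1549) (.f (nat_lit 494) (nat_lit 493) (nat_lit 3565) (.d (nat_lit 530) (nat_lit 495) (nat_lit 3566) (nat_lit 559) (nat_lit 1550))))))) (.a s21693 (.a s21983 (.a s19123 (.a s22590 (.a (.p (nat_lit 527) (.a (.f (nat_lit 525) (nat_lit 497) (nat_lit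 2541) (.d (nat_lit 557) (nat_lit 529) (nat_lit 1549) (nat_lit 556) (nat_lit 1548))) (.a (.f (nat_lit 525) (nat_lit 497) (nat_lit 2541) (.f (nat_lit 524) (nat_lit 495) (nat_lit 2540) (.d (nat_lit 492) (nat_lit 491) (nat_lit 3563) (nat_lit 493) (nat_lit 3564)))) (.f (nat_lit 529) (nat_lit 557) (nat_lit 1549) (.f (nat_lit 530) (nat_lit 559) (nat_lit 1550) (.d (nat_lit 562) (nat_lit 561) (nat_lit 526) (nat_lit 563) (nat_lit 527))))))) (.a s22668 (.a s19164 s22702)))))))))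
noncomputable def s24888 : Cert := .r (nat_lit 878694100701304956511192169158242687862212665431883220280182872118455237980908336946979793684870563807462937680039967586724118902039808942127312687095760289792) (.p (nat_lit 526) (.a s19184 (.a s24055 (.a (.p (nat_lit 560) (.a s18960 (.a s24190 (.a (.p (nat_lit 495) (.a s24202 (.a (.f (nat_lit 592) (nat_lit 463) (nat_lit 7631) (.f (nat_lit 497) (nat_lit 465) (nat_lit 6608) (.f (nat_lit 494) (nat_lit 525) (nat_lit 1517) (.f (nat_lit 461) (nat_lit 462) (nat_lit 3533) (.f (nat_lit 493) (nat_lit 460) (nat_lit 3532) (.f (nat_lit 591) (nat_lit 623) (nat_lit 5615) (.f (nat_lit 590) (nat_lit 558) (nat_lit 7629) (.f (nat_lit 589) (nat_lit 561) (nat_lit 2605) (.f (nat_lit 588) (nat_lit 559) (nat_lit 2604) (.d (nat_lit 556) (nat_lit 555) (nat_lit 3627) (nat_lit 557) (nat_lit 3628))))))))))) (.a (.f (nat_lit 592) (nat_lit 463) (nat_lit 7631) (.f (nat_lit 497) (nat_lit 465) (nat_lit 6608) (.f (nat_lit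 529) (nat_lit 624) (nat_lit 6640) (.d (nat_lit 494) (nat_lit 493) (nat_lit 493) (nat_lit 530) (nat_lit 494))))) (.a (.f (nat_lit 592) (nat_lit 463) (nat_lit 7631) (.f (nat_lit 497) (nat_lit 465) (nat_lit 6608) (.f (nat_lit 624) (nat_lit 529) (nat_lit 6640) (.d (nat_lit 623) (nat_lit 591) (nat_lit 5615) (nat_lit 655) (nat_lit 5647))))) s24232))))) (.a (.p (nat_lit 464) (.a (.f (nat_lit 465) (nat_lit 433) (nat_lit 6576) (.f (nat_lit 592) (nat_lit 497) (nat_lit 6608) (.d (nat_lit 463) (nat_lit 431) (nat_lit 7599) (nat_lit 495) (nat_lit 7631)))) (.a (.f (nat_lit 433) (nat_lit 465) (nat_lit 6576) (.f (nat_lit 432) (nat_lit 401) (nat_lit 6544) (.d (nat_lit 431) (nat_lit 399) (nat_lit 7567) (nat_lit 463) (nat_lit 7599)))) (.a (.f (nat_lit 433) (nat_lit 465) (nat_lit 6576) (.f (nat_lit 432) (nat_lit 401) (nat_lit 6544) (.f (nat_lit 399) (nat_lit 431) (nat_lit 7567) (.f (nat_lit 400) (nat_lit 367) (nat_lit 7535) (.d (nat_lit 529) (nat_lit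 497) (nat_lit 4496) (nat_lit 561) (nat_lit 4528)))))) (.a (.f (nat_lit 433) (nat_lit 465) (nat_lit 6576) (.f (nat_lit 432) (nat_lit 401) (nat_lit 6544) (.f (nat_lit 529) (nat_lit 561) (nat_lit 4528) (.f (nat_lit 497) (nat_lit 400) (nat_lit 4496) (.f (nat_lit 592) (nat_lit 624) (nat_lit 6640) (.f (nat_lit 495) (nat_lit 463) (nat_lit 7631) (.d (nat_lit 494) (nat_lit 493) (nat_lit 493) (nat_lit 525) (nat_lit 1517)))))))) (.f (nat_lit 463) (nat_lit 431) (nat_lit 7599) (.f (nat_lit 592) (nat_lit 495) (nat_lit 7631) (.f (nat_lit 623) (nat_lit 591) (nat_lit 5615) (.f (nat_lit 624) (nat_lit 655) (nat_lit 5647) (.f (nat_lit 529) (nat_lit 497) (nat_lit 6640) (.d (nat_lit 561) (nat_lit 432) (nat_lit 4528) (nat_lit 656) (nat_lit 6672)))))))))))) (.a (.p (nat_lit 559) (.a (.f (nat_lit 464) (nat_lit 591) (nat_lit 5583) (.f (nat_lit 431) (nat_lit 463) (nat_lit 7599) (.f (nat_lit 432) (nat_lit 399) (nat_lit 7567) (.d (nat_lit 433) (nat_lit 401)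 (nat_lit 6544) (nat_lit 465) (nat_lit 6576))))) (.a s24251 (.p (nat_lit 558) (.a (.f (nat_lit 561) (nat_lit 525) (nat_lit 3597) (.d (nat_lit 529) (nat_lit 530) (nat_lit 2574) (nat_lit 557) (nat_lit 2573))) (.a (.f (nat_lit 525) (nat_lit 561) (nat_lit 3597) (.d (nat_lit 524) (nat_lit 523) (nat_lit 523) (nat_lit 557) (nat_lit 3596))) (.a (.f (nat_lit 529) (nat_lit 557) (nat_lit 2573) (.d (nat_lit 530) (nat_lit 531) (nat_lit 1551) (nat_lit 561) (nat_lit 2574))) (.a (.f (nat_lit 557) (nat_lit 529) (nat_lit 2573) (.f (nat_lit 525) (nat_lit 524) (nat_lit 3596) (.f (nat_lit 589) (nat_lit 588) (nat_lit 1580) (.d (nat_lit 494) (nat_lit 462) (nat_lit 5581) (nat_lit 621) (nat_lit 6637))))) (.f (nat_lit 561) (nat_lit 525) (nat_lit 3597) (.f (nat_lit 529) (nat_lit 530) (nat_lit 2574) (.f (nat_lit 464) (nat_lit 432) (nat_lit 4528) (.f (nat_lit 465) (nat_lit 433) (nat_lit 6576) (.f (nat_lit 463) (nat_lit 431) (nat_lit 7599) (.f (nat_lit 590) (nat_lit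 589) (nat_lit 1581) (.f (nat_lit 494) (nat_lit 495) (nat_lit 6606) (.d (nat_lit 493) (nat_lit 461) (nat_lit 7629) (nat_lit 462) (nat_lit 1485))))))))))))))))) (.a s24259 (.a s24274 (.a (.p (nat_lit 592) (.a (.f (nat_lit 497) (nat_lit 465) (nat_lit 6608) (.f (nat_lit 624) (nat_lit 529) (nat_lit 6640) (.d (nat_lit 623) (nat_lit 591) (nat_lit 5615) (nat_lit 655) (nat_lit 5647)))) (.a (.f (nat_lit 591) (nat_lit 623) (nat_lit 5615) (.f (nat_lit 495) (nat_lit 463) (nat_lit 7631) (.f (nat_lit 497) (nat_lit 465) (nat_lit 6608) (.f (nat_lit 494) (nat_lit 525) (nat_lit 1517) (.f (nat_lit 462) (nat_lit 461) (nat_lit 3533) (.f (nat_lit 558) (nat_lit 559) (nat_lit 4558) (.f (nat_lit 589) (nat_lit 557) (nat_lit 5581) (.d (nat_lit 590) (nat_lit 561) (nat_lit 2605) (nat_lit 621) (nat_lit 5613))))))))) (.a (.f (nat_lit 591) (nat_lit 623) (nat_lit 5615) (.f (nat_lit 464) (nat_lit 559) (nat_lit 5583) (.d (nat_lit 463) (nat_lit 431) (nat_lit 7599) (nat_lit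 495) (nat_lit 7631)))) (.f (nat_lit 495) (nat_lit 463) (nat_lit 7631) (.f (nat_lit 497) (nat_lit 465) (nat_lit 6608) (.f (nat_lit 494) (nat_lit 525) (nat_lit 1517) (.d (nat_lit 529) (nat_lit 493) (nat_lit 493) (nat_lit 530) (nat_lit 494))))))))) (.p (nat_lit 529) (.a (.p (nat_lit 464) (.a (.f (nat_lit 559) (nat_lit 591) (nat_lit 5583) (.f (nat_lit 530) (nat_lit 531) (nat_lit 1551) (.d (nat_lit 558) (nat_lit 557) (nat_lit 2573) (nat_lit 561) (nat_lit 2574)))) (.a (.f (nat_lit 432) (nat_lit 561) (nat_lit 4528) (.d (nat_lit 431) (nat_lit 399) (nat_lit 7567) (nat_lit 463) (nat_lit 7599))) (.f (nat_lit 559) (nat_lit 591) (nat_lit 5583) (.f (nat_lit 530) (nat_lit 531) (nat_lit 1551) (.f (nat_lit 463) (nat_lit 431) (nat_lit 7599) (.f (nat_lit 495) (nat_lit 592) (nat_lit 7631) (.d (nat_lit 494) (nat_lit 493) (nat_lit 493) (nat_lit 497) (nat_lit 494))))))))) (.a (.p (nat_lit 464) (.a (.f (nat_lit 559) (nat_lit 591) (nat_lit 5583) (.f (nat_lit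 530) (nat_lit 531) (nat_lit 1551) (.d (nat_lit 558) (nat_lit 557) (nat_lit 2573) (nat_lit 561) (nat_lit 2574)))) (.a (.f (nat_lit 432) (nat_lit 561) (nat_lit 4528) (.d (nat_lit 431) (nat_lit 399) (nat_lit 7567) (nat_lit 463) (nat_lit 7599))) (.f (nat_lit 431) (nat_lit 463) (nat_lit 7599) (.f (nat_lit 432) (nat_lit 399) (nat_lit 7567) (.f (nat_lit 400) (nat_lit 497) (nat_lit 4496) (.d (nat_lit 401) (nat_lit 369) (nat_lit 6512) (nat_lit 433) (nat_lit 6544)))))))) (.a (.p (nat_lit 592) (.a (.f (nat_lit 495) (nat_lit 463) (nat_lit 7631) (.f (nat_lit 530) (nat_lit 531) (nat_lit 3567) (.d (nat_lit 494) (nat_lit 493) (nat_lit 493) (nat_lit 497) (nat_lit 494)))) (.f (nat_lit 623) (nat_lit 591) (nat_lit 5615) (.f (nat_lit 624) (nat_lit 655) (nat_lit 5647) (.f (nat_lit 656) (nat_lit 561) (nat_lit 6672) (.d (nat_lit 657) (nat_lit 625) (nat_lit 4624) (nat_lit 689) (nat_lit 4656))))))) (.a (.p (nat_lit 592) (.a (.f (nat_lit 495) (nat_lit 463)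 (nat_lit 7631) (.f (nat_lit 530) (nat_lit 531) (nat_lit 3567) (.d (nat_lit 494) (nat_lit 493) (nat_lit 493) (nat_lit 497) (nat_lit 494)))) (.a (.f (nat_lit 624) (nat_lit 497) (nat_lit 6640) (.d (nat_lit 623) (nat_lit 591) (nat_lit 5615) (nat_lit 655) (nat_lit 5647))) (.f (nat_lit 495) (nat_lit 463) (nat_lit 7631) (.f (nat_lit 591) (nat_lit 623) (nat_lit 5615) (.f (nat_lit 559) (nat_lit 464) (nat_lit 5583) (.f (nat_lit 558) (nat_lit 557) (nat_lit 2573) (.d (nat_lit 494) (nat_lit 462) (nat_lit 4558) (nat_lit 493) (nat_lit 493))))))))) (.a (.p (nat_lit 464) (.a (.f (nat_lit 559) (nat_lit 591) (nat_lit 5583) (.f (nat_lit 530) (nat_lit 531) (nat_lit 1551) (.d (nat_lit 558) (nat_lit 557) (nat_lit 2573) (nat_lit 561) (nat_lit 2574)))) (.a (.f (nat_lit 432) (nat_lit 561) (nat_lit 4528) (.d (nat_lit 431) (nat_lit 399) (nat_lit 7567) (nat_lit 463) (nat_lit 7599))) (.f (nat_lit 559) (nat_lit 591) (nat_lit 5583) (.f (nat_lit 463) (nat_lit 431)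 (nat_lit 7599) (.f (nat_lit 495) (nat_lit 592) (nat_lit 7631) (.f (nat_lit 494) (nat_lit 493) (nat_lit 493) (.d (nat_lit 558) (nat_lit 557) (nat_lit 2573) (nat_lit 590) (nat_lit 6606))))))))) (.a (.p (nat_lit 464) (.a (.f (nat_lit 432) (nat_lit 561) (nat_lit 4528) (.d (nat_lit 431) (nat_lit 399) (nat_lit 7567) (nat_lit 463) (nat_lit 7599))) (.a (.f (nat_lit 463) (nat_lit 431) (nat_lit 7599) (.f (nat_lit 495) (nat_lit 592) (nat_lit 7631) (.f (nat_lit 494) (nat_lit 493) (nat_lit 493) (.d (nat_lit 497) (nat_lit 525) (nat_lit 1517) (nat_lit 530) (nat_lit 494))))) (.a (.f (nat_lit 432) (nat_lit 561) (nat_lit 4528) (.f (nat_lit 400) (nat_lit 497) (nat_lit 4496) (.d (nat_lit 399) (nat_lit 367) (nat_lit 7535) (nat_lit 431) (nat_lit 7567)))) (.f (nat_lit 432) (nat_lit 561) (nat_lit 4528) (.f (nat_lit 400) (nat_lit 497) (nat_lit 4496) (.d (nat_lit 401) (nat_lit 369) (nat_lit 6512) (nat_lit 433) (nat_lit 6544)))))))) (.a (.p (nat_lit 592) (.a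 (.f (nat_lit 623) (nat_lit 591) (nat_lit 5615) (.f (nat_lit 624) (nat_lit 655) (nat_lit 5647) (.f (nat_lit 656) (nat_lit 561) (nat_lit 6672) (.d (nat_lit 657) (nat_lit 625) (nat_lit 4624) (nat_lit 689) (nat_lit 4656))))) (.a (.f (nat_lit 624) (nat_lit 497) (nat_lit 6640) (.d (nat_lit 623) (nat_lit 591) (nat_lit 5615) (nat_lit 655) (nat_lit 5647))) (.a (.f (nat_lit 624) (nat_lit 497) (nat_lit 6640) (.f (nat_lit 656) (nat_lit 561) (nat_lit 6672) (.d (nat_lit 655) (nat_lit 623) (nat_lit 5647) (nat_lit 687) (nat_lit 5679)))) (.a (.f (nat_lit 591) (nat_lit 623) (nat_lit 5615) (.f (nat_lit 559) (nat_lit 464) (nat_lit 5583) (.f (nat_lit 558) (nat_lit 557) (nat_lit 2573) (.d (nat_lit 530) (nat_lit 531) (nat_lit 1551) (nat_lit 561) (nat_lit 2574))))) (.f (nat_lit 624) (nat_lit 497) (nat_lit 6640) (.f (nat_lit 561) (nat_lit 656) (nat_lit 6672) (.f (nat_lit 464) (nat_lit 432) (nat_lit 4528) (.f (nat_lit 559) (nat_lit 591) (nat_lit 5583) (.d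 (nat_lit 530) (nat_lit 531) (nat_lit 1551) (nat_lit 558) (nat_lit 2574))))))))))) (.p (nat_lit 464) (.a (.f (nat_lit 432) (nat_lit 561) (nat_lit 4528) (.d (nat_lit 431) (nat_lit 399) (nat_lit 7567) (nat_lit 463) (nat_lit 7599))) (.a (.f (nat_lit 559) (nat_lit 591) (nat_lit 5583) (.f (nat_lit 463) (nat_lit 431) (nat_lit 7599) (.f (nat_lit 495) (nat_lit 592) (nat_lit 7631) (.f (nat_lit 494) (nat_lit 493) (nat_lit 493) (.d (nat_lit 558) (nat_lit 557) (nat_lit 2573) (nat_lit 590) (nat_lit 6606)))))) (.a (.f (nat_lit 432) (nat_lit 561) (nat_lit 4528) (.f (nat_lit 400) (nat_lit 497) (nat_lit 4496) (.d (nat_lit 399) (nat_lit 367) (nat_lit 7535) (nat_lit 431) (nat_lit 7567)))) (.f (nat_lit 432) (nat_lit 561) (nat_lit 4528) (.f (nat_lit 400) (nat_lit 497) (nat_lit 4496) (.d (nat_lit 401) (nat_lit 369) (nat_lit 6512) (nat_lit 433) (nat_lit 6544))))))))))))))))))))))))) (.a (.p (nat_lit 560) (.a s24190 (.a (.p (nat_lit 464) (.a (.f (nat_lit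 559) (nat_lit 591) (nat_lit 5583) (.f (nat_lit 527) (nat_lit 432) (nat_lit 5551) (.d (nat_lit 525) (nat_lit 497) (nat_lit 2541) (nat_lit 524) (nat_lit 524)))) (.a (.f (nat_lit 433) (nat_lit 465) (nat_lit 6576) (.f (nat_lit 432) (nat_lit 401) (nat_lit 6544) (.d (nat_lit 431) (nat_lit 399) (nat_lit 7567) (nat_lit 463) (nat_lit 7599)))) (.f (nat_lit 465) (nat_lit 433) (nat_lit 6576) (.f (nat_lit 592) (nat_lit 497) (nat_lit 6608) (.d (nat_lit 591) (nat_lit 559) (nat_lit 5583) (nat_lit 623) (nat_lit 5615))))))) (.a (.p (nat_lit 592) (.a (.f (nat_lit 497) (nat_lit 465) (nat_lit 6608) (.f (nat_lit 624) (nat_lit 529) (nat_lit 6640) (.d (nat_lit 623) (nat_lit 591) (nat_lit 5615) (nat_lit 655) (nat_lit 5647)))) (.a (.f (nat_lit 623) (nat_lit 591) (nat_lit 5615) (.f (nat_lit 624) (nat_lit 655) (nat_lit 5647) (.f (nat_lit 657) (nat_lit 625) (nat_lit 4624) (.f (nat_lit 656) (nat_lit 689) (nat_lit 4656) (.f (nat_lit 527) (nat_lit 559) (nat_lit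 7695) (.d (nat_lit 497) (nat_lit 465) (nat_lit 6608) (nat_lit 525) (nat_lit 2541))))))) (.a (.f (nat_lit 623) (nat_lit 591) (nat_lit 5615) (.f (nat_lit 624) (nat_lit 655) (nat_lit 5647) (.f (nat_lit 657) (nat_lit 625) (nat_lit 4624) (.f (nat_lit 656) (nat_lit 689) (nat_lit 4656) (.f (nat_lit 527) (nat_lit 559) (nat_lit 7695) (.d (nat_lit 561) (nat_lit 525) (nat_lit 525) (nat_lit 529) (nat_lit 6672))))))) (.a (.f (nat_lit 497) (nat_lit 465) (nat_lit 6608) (.f (nat_lit 527) (nat_lit 525) (nat_lit 2541) (.f (nat_lit 529) (nat_lit 624) (nat_lit 6640) (.f (nat_lit 562) (nat_lit 561) (nat_lit 526) (.f (nat_lit 530) (nat_lit 563) (nat_lit 527) (.d (nat_lit 531) (nat_lit 532) (nat_lit 3568) (nat_lit 559) (nat_lit 1551))))))) (.p (nat_lit 561) (.a (.f (nat_lit 527) (nat_lit 525) (nat_lit 525) (.d (nat_lit 562) (nat_lit 559) (nat_lit 3598) (nat_lit 563) (nat_lit 3599))) (.a (.f (nat_lit 591) (nat_lit 623) (nat_lit 5615) (.f (nat_lit 562) (nat_lit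 563) (nat_lit 1583) (.d (nat_lit 590) (nat_lit 559) (nat_lit 1582) (nat_lit 589) (nat_lit 2605)))) (.a (.f (nat_lit 527) (nat_lit 525) (nat_lit 525) (.d (nat_lit 562) (nat_lit 529) (nat_lit 526) (nat_lit 563) (nat_lit 3599))) (.f (nat_lit 525) (nat_lit 527) (nat_lit 525) (.f (nat_lit 558) (nat_lit 559) (nat_lit 3597) (.f (nat_lit 591) (nat_lit 623) (nat_lit 5615) (.f (nat_lit 590) (nat_lit 589) (nat_lit 2605) (.f (nat_lit 493) (nat_lit 622) (nat_lit 7661) (.d (nat_lit 461) (nat_lit 429) (nat_lit 4525) (nat_lit 494) (nat_lit 7629)))))))))))))))) (.a (.p (nat_lit 464) (.a (.f (nat_lit 433) (nat_lit 465) (nat_lit 6576) (.f (nat_lit 432) (nat_lit 401) (nat_lit 6544) (.d (nat_lit 431) (nat_lit 399) (nat_lit 7567) (nat_lit 463) (nat_lit 7599)))) (.a (.f (nat_lit 465) (nat_lit 433) (nat_lit 6576) (.f (nat_lit 463) (nat_lit 431) (nat_lit 7599) (.f (nat_lit 497) (nat_lit 592) (nat_lit 6608) (.f (nat_lit 462) (nat_lit 461) (nat_lit 461) (.f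 (nat_lit 494) (nat_lit 493) (nat_lit 1485) (.f (nat_lit 430) (nat_lit 429) (nat_lit 3501) (.d (nat_lit 525) (nat_lit 527) (nat_lit 2541) (nat_lit 557) (nat_lit 5549)))))))) (.a s24400 (.a (.p (nat_lit 432) (.a (.d (nat_lit 433) (nat_lit 401) (nat_lit 6544) (nat_lit 465) (nat_lit 6576)) (.a (.f (nat_lit 529) (nat_lit 561) (nat_lit 4528) (.f (nat_lit 497) (nat_lit 400) (nat_lit 4496) (.d (nat_lit 592) (nat_lit 465) (nat_lit 6608) (nat_lit 624) (nat_lit 6640)))) (.f (nat_lit 529) (nat_lit 561) (nat_lit 4528) (.f (nat_lit 400) (nat_lit 497) (nat_lit 4496) (.d (nat_lit 401) (nat_lit 369) (nat_lit 6512) (nat_lit 433) (nat_lit 6544))))))) (.a (.f (nat_lit 431) (nat_lit 463) (nat_lit 7599) (.f (nat_lit 432) (nat_lit 399) (nat_lit 7567) (.f (nat_lit 529) (nat_lit 561) (nat_lit 4528) (.f (nat_lit 497) (nat_lit 400) (nat_lit 4496) (.d (nat_lit 592) (nat_lit 465) (nat_lit 6608) (nat_lit 624) (nat_lit 6640)))))) (.f (nat_lit 431) (nat_lit 463)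 (nat_lit 7599) (.f (nat_lit 432) (nat_lit 399) (nat_lit 7567) (.f (nat_lit 401) (nat_lit 433) (nat_lit 6544) (.f (nat_lit 400) (nat_lit 369) (nat_lit 6512) (.d (nat_lit 529) (nat_lit 497) (nat_lit 4496) (nat_lit 561) (nat_lit 4528)))))))))))) (.a s24413 (.a (.p (nat_lit 464) (.a (.f (nat_lit 559) (nat_lit 591) (nat_lit 5583) (.f (nat_lit 527) (nat_lit 432) (nat_lit 5551) (.d (nat_lit 525) (nat_lit 524) (nat_lit 524) (nat_lit 561) (nat_lit 525)))) (.a (.f (nat_lit 433) (nat_lit 465) (nat_lit 6576) (.f (nat_lit 432) (nat_lit 401) (nat_lit 6544) (.d (nat_lit 431) (nat_lit 399) (nat_lit 7567) (nat_lit 463) (nat_lit 7599)))) (.p (nat_lit 525) (.a (.f (nat_lit 559) (nat_lit 591) (nat_lit 5583) (.f (nat_lit 558) (nat_lit 561) (nat_lit 3597) (.d (nat_lit 524) (nat_lit 523) (nat_lit 523) (nat_lit 557) (nat_lit 3596)))) (.a (.f (nat_lit 527) (nat_lit 561) (nat_lit 525) (.f (nat_lit 493) (nat_lit 492) (nat_lit 3564) (.f (nat_lit 557) (nat_lit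 556) (nat_lit 1548) (.d (nat_lit 529) (nat_lit 494) (nat_lit 3565) (nat_lit 558) (nat_lit 1549))))) (.a (.f (nat_lit 559) (nat_lit 591) (nat_lit 5583) (.f (nat_lit 527) (nat_lit 524) (nat_lit 524) (.f (nat_lit 557) (nat_lit 556) (nat_lit 1548) (.f (nat_lit 558) (nat_lit 529) (nat_lit 1549) (.f (nat_lit 493) (nat_lit 492) (nat_lit 3564) (.d (nat_lit 461) (nat_lit 429) (nat_lit 4525) (nat_lit 590) (nat_lit 4557))))))) (.f (nat_lit 527) (nat_lit 561) (nat_lit 525) (.d (nat_lit 559) (nat_lit 524) (nat_lit 524) (nat_lit 591) (nat_lit 5583)))))))))) s24423))))))) (.a s24454 (.a (.p (nat_lit 558) (.a s19136 (.a s21701 (.a s21905 (.a (.p (nat_lit 464) (.a (.p (nat_lit 560) (.a (.f (nat_lit 559) (nat_lit 591) (nat_lit 5583) (.f (nat_lit 465) (nat_lit 433) (nat_lit 6576) (.f (nat_lit 463) (nat_lit 431) (nat_lit 7599) (.f (nat_lit 497) (nat_lit 592) (nat_lit 6608) (.f (nat_lit 462) (nat_lit 461) (nat_lit 461) (.f (nat_lit 494) (nat_lit 493)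 (nat_lit 1485) (.d (nat_lit 430) (nat_lit 429) (nat_lit 3501) (nat_lit 527) (nat_lit 4526)))))))) (.a (.f (nat_lit 431) (nat_lit 463) (nat_lit 7599) (.f (nat_lit 432) (nat_lit 399) (nat_lit 7567) (.d (nat_lit 433) (nat_lit 401) (nat_lit 6544) (nat_lit 465) (nat_lit 6576)))) (.f (nat_lit 559) (nat_lit 591) (nat_lit 5583) (.f (nat_lit 527) (nat_lit 432) (nat_lit 5551) (.f (nat_lit 557) (nat_lit 556) (nat_lit 2572) (.f (nat_lit 589) (nat_lit 588) (nat_lit 1580) (.d (nat_lit 561) (nat_lit 562) (nat_lit 3598) (nat_lit 590) (nat_lit 1581))))))))) (.a (.p (nat_lit 560) (.a (.f (nat_lit 431) (nat_lit 463) (nat_lit 7599) (.f (nat_lit 432) (nat_lit 399) (nat_lit 7567) (.d (nat_lit 433) (nat_lit 401) (nat_lit 6544) (nat_lit 465) (nat_lit 6576)))) (.f (nat_lit 559) (nat_lit 591) (nat_lit 5583) (.f (nat_lit 529) (nat_lit 557) (nat_lit 2573) (.d (nat_lit 530) (nat_lit 531) (nat_lit 1551) (nat_lit 561) (nat_lit 2574)))))) (.a (.p (nat_lit 527)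 (.a (.f (nat_lit 432) (nat_lit 559) (nat_lit 5551) (.f (nat_lit 399) (nat_lit 431) (nat_lit 7567) (.f (nat_lit 400) (nat_lit 367) (nat_lit 7535) (.d (nat_lit 401) (nat_lit 369) (nat_lit 6512) (nat_lit 433) (nat_lit 6544))))) (.a (.f (nat_lit 529) (nat_lit 557) (nat_lit 1549) (.d (nat_lit 561) (nat_lit 432) (nat_lit 4528) (nat_lit 562) (nat_lit 526))) (.f (nat_lit 529) (nat_lit 557) (nat_lit 1549) (.f (nat_lit 494) (nat_lit 493) (nat_lit 3565) (.f (nat_lit 559) (nat_lit 530) (nat_lit 1550) (.d (nat_lit 462) (nat_lit 430) (nat_lit 4526) (nat_lit 591) (nat_lit 4558)))))))) (.a (.p (nat_lit 560) (.a (.f (nat_lit 431) (nat_lit 463) (nat_lit 7599) (.f (nat_lit 432) (nat_lit 399) (nat_lit 7567) (.d (nat_lit 433) (nat_lit 401) (nat_lit 6544) (nat_lit 465) (nat_lit 6576)))) (.a (.f (nat_lit 465) (nat_lit 433) (nat_lit 6576) (.f (nat_lit 592) (nat_lit 497) (nat_lit 6608) (.f (nat_lit 623) (nat_lit 591) (nat_lit 5615) (.f (nat_lit 624) (nat_lit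 655) (nat_lit 5647) (.f (nat_lit 657) (nat_lit 625) (nat_lit 4624) (.f (nat_lit 656) (nat_lit 689) (nat_lit 4656) (.f (nat_lit 529) (nat_lit 561) (nat_lit 6672) (.f (nat_lit 621) (nat_lit 622) (nat_lit 621) (.f (nat_lit 557) (nat_lit 527) (nat_lit 1549) (.f (nat_lit 589) (nat_lit 653) (nat_lit 6669) (.d (nat_lit 494) (nat_lit 462) (nat_lit 5581) (nat_lit 590) (nat_lit 5613)))))))))))) (.a (.f (nat_lit 431) (nat_lit 463) (nat_lit 7599) (.f (nat_lit 432) (nat_lit 399) (nat_lit 7567) (.f (nat_lit 529) (nat_lit 561) (nat_lit 4528) (.f (nat_lit 497) (nat_lit 400) (nat_lit 4496) (.d (nat_lit 592) (nat_lit 465) (nat_lit 6608) (nat_lit 624) (nat_lit 6640)))))) (.f (nat_lit 431) (nat_lit 463) (nat_lit 7599) (.f (nat_lit 432) (nat_lit 399) (nat_lit 7567) (.f (nat_lit 529) (nat_lit 561) (nat_lit 4528) (.f (nat_lit 400) (nat_lit 497) (nat_lit 4496) (.d (nat_lit 401) (nat_lit 369) (nat_lit 6512) (nat_lit 433) (nat_lit 6544)))))))))) (.a (.p (nat_lit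 560) (.a (.f (nat_lit 559) (nat_lit 591) (nat_lit 5583) (.f (nat_lit 465) (nat_lit 433) (nat_lit 6576) (.f (nat_lit 463) (nat_lit 431) (nat_lit 7599) (.f (nat_lit 497) (nat_lit 592) (nat_lit 6608) (.f (nat_lit 462) (nat_lit 461) (nat_lit 461) (.f (nat_lit 494) (nat_lit 493) (nat_lit 1485) (.d (nat_lit 430) (nat_lit 429) (nat_lit 3501) (nat_lit 527) (nat_lit 4526)))))))) (.a (.f (nat_lit 559) (nat_lit 591) (nat_lit 5583) (.f (nat_lit 529) (nat_lit 557) (nat_lit 2573) (.d (nat_lit 530) (nat_lit 531) (nat_lit 1551) (nat_lit 561) (nat_lit 2574)))) (.a (.f (nat_lit 465) (nat_lit 433) (nat_lit 6576) (.f (nat_lit 592) (nat_lit 497) (nat_lit 6608) (.f (nat_lit 623) (nat_lit 591) (nat_lit 5615) (.f (nat_lit 624) (nat_lit 655) (nat_lit 5647) (.f (nat_lit 657) (nat_lit 625) (nat_lit 4624) (.f (nat_lit 656) (nat_lit 689) (nat_lit 4656) (.f (nat_lit 529) (nat_lit 561) (nat_lit 6672) (.f (nat_lit 621) (nat_lit 622) (nat_lit 621) (.f (nat_lit 557)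 (nat_lit 527) (nat_lit 1549) (.f (nat_lit 589) (nat_lit 653) (nat_lit 6669) (.d (nat_lit 494) (nat_lit 462) (nat_lit 5581) (nat_lit 590) (nat_lit 5613)))))))))))) (.f (nat_lit 465) (nat_lit 433) (nat_lit 6576) (.f (nat_lit 463) (nat_lit 431) (nat_lit 7599) (.f (nat_lit 497) (nat_lit 592) (nat_lit 6608) (.f (nat_lit 462) (nat_lit 461) (nat_lit 461) (.f (nat_lit 494) (nat_lit 493) (nat_lit 1485) (.f (nat_lit 557) (nat_lit 589) (nat_lit 5581) (.d (nat_lit 529) (nat_lit 527) (nat_lit 1549) (nat_lit 559) (nat_lit 2573)))))))))))) (.a (.p (nat_lit 560) (.a (.f (nat_lit 559) (nat_lit 591) (nat_lit 5583) (.f (nat_lit 465) (nat_lit 433) (nat_lit 6576) (.f (nat_lit 463) (nat_lit 431) (nat_lit 7599) (.f (nat_lit 497) (nat_lit 592) (nat_lit 6608) (.f (nat_lit 462) (nat_lit 461) (nat_lit 461) (.f (nat_lit 494) (nat_lit 493) (nat_lit 1485) (.d (nat_lit 430) (nat_lit 429) (nat_lit 3501) (nat_lit 527) (nat_lit 4526)))))))) (.a (.f (nat_lit 431)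 (nat_lit 463) (nat_lit 7599) (.f (nat_lit 432) (nat_lit 399) (nat_lit 7567) (.d (nat_lit 433) (nat_lit 401) (nat_lit 6544) (nat_lit 465) (nat_lit 6576)))) (.f (nat_lit 559) (nat_lit 591) (nat_lit 5583) (.f (nat_lit 527) (nat_lit 432) (nat_lit 5551) (.d (nat_lit 529) (nat_lit 530) (nat_lit 1550) (nat_lit 557) (nat_lit 1549))))))) (.a (.p (nat_lit 560) (.a (.f (nat_lit 431) (nat_lit 463) (nat_lit 7599) (.f (nat_lit 432) (nat_lit 399) (nat_lit 7567) (.d (nat_lit 433) (nat_lit 401) (nat_lit 6544) (nat_lit 465) (nat_lit 6576)))) (.a (.f (nat_lit 465) (nat_lit 433) (nat_lit 6576) (.f (nat_lit 463) (nat_lit 431) (nat_lit 7599) (.f (nat_lit 497) (nat_lit 592) (nat_lit 6608) (.f (nat_lit 462) (nat_lit 461) (nat_lit 461) (.f (nat_lit 494) (nat_lit 493) (nat_lit 1485) (.f (nat_lit 557) (nat_lit 589) (nat_lit 5581) (.d (nat_lit 529) (nat_lit 527) (nat_lit 1549) (nat_lit 559) (nat_lit 2573)))))))) (.a (.f (nat_lit 433) (nat_lit 465) (nat_lit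 6576) (.f (nat_lit 432) (nat_lit 401) (nat_lit 6544) (.f (nat_lit 529) (nat_lit 561) (nat_lit 4528) (.d (nat_lit 527) (nat_lit 557) (nat_lit 1549) (nat_lit 559) (nat_lit 5551))))) (.a (.f (nat_lit 431) (nat_lit 463) (nat_lit 7599) (.f (nat_lit 432) (nat_lit 399) (nat_lit 7567) (.f (nat_lit 529) (nat_lit 561) (nat_lit 4528) (.f (nat_lit 497) (nat_lit 400) (nat_lit 4496) (.d (nat_lit 592) (nat_lit 465) (nat_lit 6608) (nat_lit 624) (nat_lit 6640)))))) (.f (nat_lit 431) (nat_lit 463) (nat_lit 7599) (.f (nat_lit 432) (nat_lit 399) (nat_lit 7567) (.f (nat_lit 529) (nat_lit 561) (nat_lit 4528) (.f (nat_lit 400) (nat_lit 497) (nat_lit 4496) (.d (nat_lit 401) (nat_lit 369) (nat_lit 6512) (nat_lit 433) (nat_lit 6544))))))))))) (.a (.p (nat_lit 560) (.a (.f (nat_lit 559) (nat_lit 591) (nat_lit 5583) (.f (nat_lit 465) (nat_lit 433) (nat_lit 6576) (.f (nat_lit 463) (nat_lit 431) (nat_lit 7599) (.f (nat_lit 497) (nat_lit 592) (nat_lit 6608) (.f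 (nat_lit 462) (nat_lit 461) (nat_lit 461) (.f (nat_lit 494) (nat_lit 493) (nat_lit 1485) (.d (nat_lit 430) (nat_lit 429) (nat_lit 3501) (nat_lit 527) (nat_lit 4526)))))))) (.a (.f (nat_lit 431) (nat_lit 463) (nat_lit 7599) (.f (nat_lit 432) (nat_lit 399) (nat_lit 7567) (.d (nat_lit 433) (nat_lit 401) (nat_lit 6544) (nat_lit 465) (nat_lit 6576)))) (.a (.f (nat_lit 559) (nat_lit 591) (nat_lit 5583) (.f (nat_lit 432) (nat_lit 527) (nat_lit 5551) (.d (nat_lit 433) (nat_lit 401) (nat_lit 6544) (nat_lit 465) (nat_lit 6576)))) (.a (.f (nat_lit 431) (nat_lit 463) (nat_lit 7599) (.f (nat_lit 432) (nat_lit 399) (nat_lit 7567) (.f (nat_lit 529) (nat_lit 561) (nat_lit 4528) (.f (nat_lit 497) (nat_lit 400) (nat_lit 4496) (.d (nat_lit 592) (nat_lit 465) (nat_lit 6608) (nat_lit 624) (nat_lit 6640)))))) (.f (nat_lit 431) (nat_lit 463) (nat_lit 7599) (.f (nat_lit 432) (nat_lit 399) (nat_lit 7567) (.f (nat_lit 529) (nat_lit 561) (nat_lit 4528) (.f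 (nat_lit 400) (nat_lit 497) (nat_lit 4496) (.d (nat_lit 401) (nat_lit 369) (nat_lit 6512) (nat_lit 433) (nat_lit 6544))))))))))) (.a (.p (nat_lit 560) (.a (.f (nat_lit 559) (nat_lit 591) (nat_lit 5583) (.f (nat_lit 527) (nat_lit 432) (nat_lit 5551) (.f (nat_lit 557) (nat_lit 556) (nat_lit 2572) (.f (nat_lit 589) (nat_lit 588) (nat_lit 1580) (.d (nat_lit 561) (nat_lit 562) (nat_lit 3598) (nat_lit 590) (nat_lit 1581)))))) (.a (.f (nat_lit 559) (nat_lit 591) (nat_lit 5583) (.f (nat_lit 529) (nat_lit 557) (nat_lit 2573) (.d (nat_lit 530) (nat_lit 531) (nat_lit 1551) (nat_lit 561) (nat_lit 2574)))) (.a (.f (nat_lit 465) (nat_lit 433) (nat_lit 6576) (.f (nat_lit 592) (nat_lit 497) (nat_lit 6608) (.f (nat_lit 623) (nat_lit 591) (nat_lit 5615) (.f (nat_lit 624) (nat_lit 655) (nat_lit 5647) (.f (nat_lit 657) (nat_lit 625) (nat_lit 4624) (.f (nat_lit 656) (nat_lit 689) (nat_lit 4656) (.f (nat_lit 529) (nat_lit 561) (nat_lit 6672) (.f (nat_lit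 621) (nat_lit 622) (nat_lit 621) (.f (nat_lit 557) (nat_lit 527) (nat_lit 1549) (.f (nat_lit 589) (nat_lit 653) (nat_lit 6669) (.d (nat_lit 494) (nat_lit 462) (nat_lit 5581) (nat_lit 590) (nat_lit 5613)))))))))))) (.a (.f (nat_lit 559) (nat_lit 591) (nat_lit 5583) (.f (nat_lit 527) (nat_lit 432) (nat_lit 5551) (.d (nat_lit 529) (nat_lit 530) (nat_lit 1550) (nat_lit 557) (nat_lit 1549)))) (.a (.f (nat_lit 433) (nat_lit 465) (nat_lit 6576) (.f (nat_lit 432) (nat_lit 401) (nat_lit 6544) (.f (nat_lit 529) (nat_lit 561) (nat_lit 4528) (.d (nat_lit 527) (nat_lit 557) (nat_lit 1549) (nat_lit 559) (nat_lit 5551))))) (.f (nat_lit 559) (nat_lit 591) (nat_lit 5583) (.f (nat_lit 432) (nat_lit 527) (nat_lit 5551) (.d (nat_lit 433) (nat_lit 401) (nat_lit 6544) (nat_lit 465) (nat_lit 6576)))))))))) s24520)))))))))) (.a s24453 (.a s24551 (.a s22558 (.a s22564 (.a s24552 (.a s22585 (.a s24557 (.a s24558 (.a s22590 (.a s22592 s22593)))))))))))))))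 (.a (.p (nat_lit 560) (.a (.p (nat_lit 464) (.a (.f (nat_lit 559) (nat_lit 591) (nat_lit 5583) (.f (nat_lit 527) (nat_lit 432) (nat_lit 5551) (.d (nat_lit 525) (nat_lit 497) (nat_lit 2541) (nat_lit 524) (nat_lit 524)))) (.a (.f (nat_lit 465) (nat_lit 433) (nat_lit 6576) (.f (nat_lit 592) (nat_lit 497) (nat_lit 6608) (.d (nat_lit 463) (nat_lit 431) (nat_lit 7599) (nat_lit 495) (nat_lit 7631)))) (.f (nat_lit 559) (nat_lit 591) (nat_lit 5583) (.f (nat_lit 527) (nat_lit 432) (nat_lit 5551) (.d (nat_lit 525) (nat_lit 524) (nat_lit 524) (nat_lit 561) (nat_lit 525))))))) (.a s18960 (.a s24190 (.a (.p (nat_lit 592) (.a (.f (nat_lit 495) (nat_lit 463) (nat_lit 7631) (.f (nat_lit 527) (nat_lit 624) (nat_lit 7663) (.d (nat_lit 497) (nat_lit 465) (nat_lit 6608) (nat_lit 525) (nat_lit 2541)))) (.a (.f (nat_lit 497) (nat_lit 465) (nat_lit 6608) (.f (nat_lit 624) (nat_lit 529) (nat_lit 6640) (.d (nat_lit 623) (nat_lit 591) (nat_lit 5615) (nat_lit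 655) (nat_lit 5647)))) (.a (.f (nat_lit 495) (nat_lit 463) (nat_lit 7631) (.f (nat_lit 527) (nat_lit 624) (nat_lit 7663) (.d (nat_lit 525) (nat_lit 524) (nat_lit 2540) (nat_lit 561) (nat_lit 525)))) (.p (nat_lit 590) (.a (.f (nat_lit 591) (nat_lit 623) (nat_lit 5615) (.f (nat_lit 561) (nat_lit 589) (nat_lit 2605) (.d (nat_lit 562) (nat_lit 559) (nat_lit 1582) (nat_lit 563) (nat_lit 1583)))) (.a (.f (nat_lit 591) (nat_lit 623) (nat_lit 5615) (.f (nat_lit 561) (nat_lit 589) (nat_lit 2605) (.f (nat_lit 527) (nat_lit 525) (nat_lit 525) (.d (nat_lit 562) (nat_lit 529) (nat_lit 526) (nat_lit 563) (nat_lit 3599))))) (.a (.f (nat_lit 495) (nat_lit 463) (nat_lit 7631) (.f (nat_lit 591) (nat_lit 623) (nat_lit 5615) (.f (nat_lit 497) (nat_lit 465) (nat_lit 6608) (.f (nat_lit 527) (nat_lit 525) (nat_lit 2541) (.d (nat_lit 622) (nat_lit 558) (nat_lit 6638) (nat_lit 559) (nat_lit 5614)))))) (.f (nat_lit 495) (nat_lit 463) (nat_lit 7631) (.f (nat_lit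 497) (nat_lit 465) (nat_lit 6608) (.f (nat_lit 527) (nat_lit 525) (nat_lit 2541) (.f (nat_lit 558) (nat_lit 622) (nat_lit 6638) (.f (nat_lit 529) (nat_lit 557) (nat_lit 1549) (.d (nat_lit 530) (nat_lit 531) (nat_lit 3567) (nat_lit 559) (nat_lit 1550))))))))))))))) (.a (.p (nat_lit 464) (.a (.f (nat_lit 465) (nat_lit 433) (nat_lit 6576) (.f (nat_lit 592) (nat_lit 497) (nat_lit 6608) (.d (nat_lit 463) (nat_lit 431) (nat_lit 7599) (nat_lit 495) (nat_lit 7631)))) (.a (.f (nat_lit 433) (nat_lit 465) (nat_lit 6576) (.f (nat_lit 432) (nat_lit 401) (nat_lit 6544) (.d (nat_lit 431) (nat_lit 399) (nat_lit 7567) (nat_lit 463) (nat_lit 7599)))) (.a (.f (nat_lit 465) (nat_lit 433) (nat_lit 6576) (.f (nat_lit 592) (nat_lit 497) (nat_lit 6608) (.f (nat_lit 623) (nat_lit 591) (nat_lit 5615) (.f (nat_lit 624) (nat_lit 655) (nat_lit 5647) (.f (nat_lit 527) (nat_lit 495) (nat_lit 7663) (.f (nat_lit 561) (nat_lit 525) (nat_lit 525) (.d (nat_lit 529)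 (nat_lit 432) (nat_lit 4528) (nat_lit 562) (nat_lit 526)))))))) (.f (nat_lit 463) (nat_lit 431) (nat_lit 7599) (.f (nat_lit 592) (nat_lit 495) (nat_lit 7631) (.f (nat_lit 623) (nat_lit 591) (nat_lit 5615) (.f (nat_lit 624) (nat_lit 655) (nat_lit 5647) (.f (nat_lit 529) (nat_lit 497) (nat_lit 6640) (.d (nat_lit 561) (nat_lit 432) (nat_lit 4528) (nat_lit 656) (nat_lit 6672))))))))))) (.a s24413 (.a (.p (nat_lit 464) (.a (.f (nat_lit 559) (nat_lit 591) (nat_lit 5583) (.f (nat_lit 527) (nat_lit 432) (nat_lit 5551) (.d (nat_lit 525) (nat_lit 524) (nat_lit 524) (nat_lit 561) (nat_lit 525)))) (.a (.f (nat_lit 433) (nat_lit 465) (nat_lit 6576) (.f (nat_lit 432) (nat_lit 401) (nat_lit 6544) (.d (nat_lit 431) (nat_lit 399) (nat_lit 7567) (nat_lit 463) (nat_lit 7599)))) (.f (nat_lit 463) (nat_lit 431) (nat_lit 7599) (.f (nat_lit 592) (nat_lit 495) (nat_lit 7631) (.d (nat_lit 591) (nat_lit 559) (nat_lit 5583) (nat_lit 623) (nat_lit 5615)))))))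 (.a s19302 (.a (.p (nat_lit 464) (.a (.f (nat_lit 559) (nat_lit 591) (nat_lit 5583) (.f (nat_lit 527) (nat_lit 432) (nat_lit 5551) (.d (nat_lit 525) (nat_lit 497) (nat_lit 2541) (nat_lit 524) (nat_lit 524)))) (.a (.f (nat_lit 465) (nat_lit 433) (nat_lit 6576) (.f (nat_lit 592) (nat_lit 497) (nat_lit 6608) (.d (nat_lit 591) (nat_lit 559) (nat_lit 5583) (nat_lit 623) (nat_lit 5615)))) (.a (.f (nat_lit 465) (nat_lit 433) (nat_lit 6576) (.f (nat_lit 592) (nat_lit 497) (nat_lit 6608) (.f (nat_lit 623) (nat_lit 591) (nat_lit 5615) (.f (nat_lit 624) (nat_lit 655) (nat_lit 5647) (.f (nat_lit 527) (nat_lit 495) (nat_lit 7663) (.f (nat_lit 561) (nat_lit 525) (nat_lit 525) (.d (nat_lit 529) (nat_lit 432) (nat_lit 4528) (nat_lit 562) (nat_lit 526)))))))) (.a (.f (nat_lit 559) (nat_lit 591) (nat_lit 5583) (.f (nat_lit 527) (nat_lit 432) (nat_lit 5551) (.d (nat_lit 525) (nat_lit 524) (nat_lit 524) (nat_lit 561) (nat_lit 525)))) (.f (nat_lit 465)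 (nat_lit 433) (nat_lit 6576) (.f (nat_lit 497) (nat_lit 592) (nat_lit 6608) (.f (nat_lit 527) (nat_lit 525) (nat_lit 2541) (.f (nat_lit 432) (nat_lit 559) (nat_lit 5551) (.d (nat_lit 400) (nat_lit 368) (nat_lit 4464) (nat_lit 495) (nat_lit 5519))))))))))) s24423)))))))))) (.a (.p (nat_lit 494) (.a s24046 (.a s24588 (.a (.p (nat_lit 560) (.a (.p (nat_lit 464) (.a (.f (nat_lit 463) (nat_lit 431) (nat_lit 7599) (.f (nat_lit 465) (nat_lit 433) (nat_lit 6576) (.f (nat_lit 462) (nat_lit 493) (nat_lit 1485) (.f (nat_lit 429) (nat_lit 430) (nat_lit 3501) (.d (nat_lit 461) (nat_lit 428) (nat_lit 3500) (nat_lit 497) (nat_lit 461)))))) (.a (.f (nat_lit 431) (nat_lit 463) (nat_lit 7599) (.f (nat_lit 432) (nat_lit 399) (nat_lit 7567) (.d (nat_lit 433) (nat_lit 401) (nat_lit 6544) (nat_lit 465) (nat_lit 6576)))) (.a (.f (nat_lit 433) (nat_lit 465) (nat_lit 6576) (.f (nat_lit 432) (nat_lit 401) (nat_lit 6544) (.f (nat_lit 529) (nat_lit 561) (nat_lit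 4528) (.f (nat_lit 527) (nat_lit 493) (nat_lit 3565) (.d (nat_lit 497) (nat_lit 400) (nat_lit 4496) (nat_lit 525) (nat_lit 2541)))))) (.f (nat_lit 431) (nat_lit 463) (nat_lit 7599) (.f (nat_lit 432) (nat_lit 399) (nat_lit 7567) (.f (nat_lit 529) (nat_lit 561) (nat_lit 4528) (.f (nat_lit 497) (nat_lit 400) (nat_lit 4496) (.d (nat_lit 527) (nat_lit 493) (nat_lit 3565) (nat_lit 525) (nat_lit 2541)))))))))) (.a (.p (nat_lit 464) (.a (.f (nat_lit 463) (nat_lit 431) (nat_lit 7599) (.f (nat_lit 465) (nat_lit 433) (nat_lit 6576) (.f (nat_lit 462) (nat_lit 493) (nat_lit 1485) (.f (nat_lit 429) (nat_lit 430) (nat_lit 3501) (.d (nat_lit 461) (nat_lit 428) (nat_lit 3500) (nat_lit 497) (nat_lit 461)))))) (.a (.f (nat_lit 431) (nat_lit 463) (nat_lit 7599) (.f (nat_lit 432) (nat_lit 399) (nat_lit 7567) (.d (nat_lit 433) (nat_lit 401) (nat_lit 6544) (nat_lit 465) (nat_lit 6576)))) (.f (nat_lit 559) (nat_lit 591) (nat_lit 5583) (.f (nat_lit 527)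 (nat_lit 432) (nat_lit 5551) (.d (nat_lit 525) (nat_lit 497) (nat_lit 2541) (nat_lit 524) (nat_lit 524))))))) (.a s24625 (.a (.p (nat_lit 527) (.a (.d (nat_lit 525) (nat_lit 497) (nat_lit 2541) (nat_lit 561) (nat_lit 525)) (.a (.f (nat_lit 529) (nat_lit 493) (nat_lit 3565) (.f (nat_lit 562) (nat_lit 561) (nat_lit 526) (.f (nat_lit 530) (nat_lit 563) (nat_lit 527) (.f (nat_lit 531) (nat_lit 559) (nat_lit 1551) (.f (nat_lit 497) (nat_lit 532) (nat_lit 3568) (.d (nat_lit 465) (nat_lit 433) (nat_lit 4529) (nat_lit 592) (nat_lit 6608))))))) (.a (.f (nat_lit 525) (nat_lit 497) (nat_lit 2541) (.d (nat_lit 493) (nat_lit 492) (nat_lit 3564) (nat_lit 529) (nat_lit 3565))) (.f (nat_lit 525) (nat_lit 561) (nat_lit 525) (.d (nat_lit 493) (nat_lit 492) (nat_lit 3564) (nat_lit 529) (nat_lit 3565))))))) (.a (.p (nat_lit 464) (.a (.f (nat_lit 431) (nat_lit 463) (nat_lit 7599) (.f (nat_lit 432) (nat_lit 399) (nat_lit 7567) (.d (nat_lit 433) (nat_lit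 401) (nat_lit 6544) (nat_lit 465) (nat_lit 6576)))) (.a (.f (nat_lit 559) (nat_lit 591) (nat_lit 5583) (.f (nat_lit 463) (nat_lit 431) (nat_lit 7599) (.f (nat_lit 465) (nat_lit 433) (nat_lit 6576) (.f (nat_lit 462) (nat_lit 493) (nat_lit 1485) (.d (nat_lit 430) (nat_lit 429) (nat_lit 3501) (nat_lit 527) (nat_lit 4526)))))) (.a (.f (nat_lit 559) (nat_lit 591) (nat_lit 5583) (.f (nat_lit 432) (nat_lit 527) (nat_lit 5551) (.d (nat_lit 433) (nat_lit 401) (nat_lit 6544) (nat_lit 465) (nat_lit 6576)))) (.f (nat_lit 559) (nat_lit 591) (nat_lit 5583) (.f (nat_lit 527) (nat_lit 432) (nat_lit 5551) (.d (nat_lit 525) (nat_lit 524) (nat_lit 524) (nat_lit 561) (nat_lit 525)))))))) (.a (.p (nat_lit 464) (.a (.f (nat_lit 431) (nat_lit 463) (nat_lit 7599) (.f (nat_lit 432) (nat_lit 399) (nat_lit 7567) (.d (nat_lit 433) (nat_lit 401) (nat_lit 6544) (nat_lit 465) (nat_lit 6576)))) (.a (.f (nat_lit 591) (nat_lit 559) (nat_lit 5583) (.f (nat_lit 592)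 (nat_lit 623) (nat_lit 5615) (.d (nat_lit 465) (nat_lit 433) (nat_lit 6576) (nat_lit 497) (nat_lit 6608)))) (.f (nat_lit 559) (nat_lit 591) (nat_lit 5583) (.f (nat_lit 527) (nat_lit 432) (nat_lit 5551) (.d (nat_lit 525) (nat_lit 497) (nat_lit 2541) (nat_lit 524) (nat_lit 524))))))) (.a (.p (nat_lit 464) (.a (.f (nat_lit 559) (nat_lit 591) (nat_lit 5583) (.f (nat_lit 527) (nat_lit 432) (nat_lit 5551) (.d (nat_lit 525) (nat_lit 497) (nat_lit 2541) (nat_lit 524) (nat_lit 524)))) (.a (.f (nat_lit 431) (nat_lit 463) (nat_lit 7599) (.f (nat_lit 432) (nat_lit 399) (nat_lit 7567) (.f (nat_lit 529) (nat_lit 561) (nat_lit 4528) (.f (nat_lit 497) (nat_lit 400) (nat_lit 4496) (.d (nat_lit 592) (nat_lit 465) (nat_lit 6608) (nat_lit 624) (nat_lit 6640)))))) (.a (.f (nat_lit 591) (nat_lit 559) (nat_lit 5583) (.f (nat_lit 592) (nat_lit 623) (nat_lit 5615) (.f (nat_lit 497) (nat_lit 465) (nat_lit 6608) (.f (nat_lit 527) (nat_lit 525) (nat_lit 2541)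 (.d (nat_lit 529) (nat_lit 493) (nat_lit 3565) (nat_lit 624) (nat_lit 6640)))))) (.f (nat_lit 559) (nat_lit 591) (nat_lit 5583) (.f (nat_lit 527) (nat_lit 432) (nat_lit 5551) (.d (nat_lit 525) (nat_lit 524) (nat_lit 524) (nat_lit 561) (nat_lit 525)))))))) (.p (nat_lit 527) (.a (.d (nat_lit 525) (nat_lit 497) (nat_lit 2541) (nat_lit 561) (nat_lit 525)) (.a (.f (nat_lit 529) (nat_lit 493) (nat_lit 3565) (.f (nat_lit 561) (nat_lit 562) (nat_lit 526) (.f (nat_lit 464) (nat_lit 432) (nat_lit 4528) (.f (nat_lit 591) (nat_lit 559) (nat_lit 5583) (.f (nat_lit 592) (nat_lit 623) (nat_lit 5615) (.d (nat_lit 624) (nat_lit 497) (nat_lit 6640) (nat_lit 656) (nat_lit 6672))))))) (.a (.f (nat_lit 525) (nat_lit 497) (nat_lit 2541) (.d (nat_lit 493) (nat_lit 492) (nat_lit 3564) (nat_lit 529) (nat_lit 3565))) (.f (nat_lit 525) (nat_lit 561) (nat_lit 525) (.d (nat_lit 493) (nat_lit 492) (nat_lit 3564) (nat_lit 529) (nat_lit 3565))))))))))))))) (.a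 s22921 (.a s24715 (.a s23694 (.a s24748 (.p (nat_lit 527) (.a (.f (nat_lit 525) (nat_lit 497) (nat_lit 2541) (.d (nat_lit 493) (nat_lit 492) (nat_lit 3564) (nat_lit 529) (nat_lit 3565))) (.a (.f (nat_lit 525) (nat_lit 497) (nat_lit 2541) (.f (nat_lit 495) (nat_lit 524) (nat_lit 2540) (.f (nat_lit 560) (nat_lit 561) (nat_lit 525) (.d (nat_lit 463) (nat_lit 431) (nat_lit 4527) (nat_lit 592) (nat_lit 7631))))) (.f (nat_lit 529) (nat_lit 493) (nat_lit 3565) (.f (nat_lit 530) (nat_lit 495) (nat_lit 3566) (.d (nat_lit 562) (nat_lit 561) (nat_lit 526) (nat_lit 563) (nat_lit 527))))))))))))))) (.a s24774 (.a s24775 (.a s24827 (.a (.p (nat_lit 558) (.a s19183 (.a s21788 (.a s24116 (.a (.p (nat_lit 494) (.a (.p (nat_lit 527) (.a (.f (nat_lit 525) (nat_lit 497) (nat_lit 2541) (.f (nat_lit 493) (nat_lit 492) (nat_lit 3564) (.d (nat_lit 461) (nat_lit 429) (nat_lit 4525) (nat_lit 590) (nat_lit 7629)))) (.a (.f (nat_lit 529) (nat_lit 493) (nat_lit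 3565) (.f (nat_lit 559) (nat_lit 530) (nat_lit 1550) (.d (nat_lit 462) (nat_lit 430) (nat_lit 4526) (nat_lit 591) (nat_lit 4558)))) (.f (nat_lit 525) (nat_lit 497) (nat_lit 2541) (.f (nat_lit 560) (nat_lit 561) (nat_lit 525) (.f (nat_lit 559) (nat_lit 524) (nat_lit 524) (.d (nat_lit 462) (nat_lit 430) (nat_lit 4526) (nat_lit 591) (nat_lit 4558)))))))) (.a (.p (nat_lit 462) (.a (.f (nat_lit 429) (nat_lit 461) (nat_lit 7597) (.f (nat_lit 430) (nat_lit 397) (nat_lit 7565) (.d (nat_lit 431) (nat_lit 399) (nat_lit 6542) (nat_lit 463) (nat_lit 6574)))) (.a (.f (nat_lit 591) (nat_lit 559) (nat_lit 4558) (.f (nat_lit 590) (nat_lit 623) (nat_lit 4590) (.d (nat_lit 461) (nat_lit 429) (nat_lit 7597) (nat_lit 493) (nat_lit 7629)))) (.f (nat_lit 559) (nat_lit 591) (nat_lit 4558) (.f (nat_lit 430) (nat_lit 527) (nat_lit 4526) (.d (nat_lit 431) (nat_lit 399) (nat_lit 6542) (nat_lit 463) (nat_lit 6574))))))) (.a (.p (nat_lit 590) (.a (.f (nat_lit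 493) (nat_lit 461) (nat_lit 7629) (.f (nat_lit 622) (nat_lit 525) (nat_lit 7661) (.d (nat_lit 621) (nat_lit 589) (nat_lit 5613) (nat_lit 653) (nat_lit 5645)))) (.a (.f (nat_lit 623) (nat_lit 591) (nat_lit 4590) (.f (nat_lit 622) (nat_lit 655) (nat_lit 4622) (.d (nat_lit 621) (nat_lit 589) (nat_lit 5613) (nat_lit 653) (nat_lit 5645)))) (.f (nat_lit 461) (nat_lit 493) (nat_lit 7629) (.f (nat_lit 462) (nat_lit 429) (nat_lit 7597) (.d (nat_lit 591) (nat_lit 559) (nat_lit 4558) (nat_lit 623) (nat_lit 4590))))))) (.a (.p (nat_lit 590) (.a (.f (nat_lit 493) (nat_lit 461) (nat_lit 7629) (.f (nat_lit 622) (nat_lit 525) (nat_lit 7661) (.d (nat_lit 621) (nat_lit 589) (nat_lit 5613) (nat_lit 653) (nat_lit 5645)))) (.a (.f (nat_lit 623) (nat_lit 591) (nat_lit 4590) (.f (nat_lit 622) (nat_lit 655) (nat_lit 4622) (.d (nat_lit 621) (nat_lit 589) (nat_lit 5613) (nat_lit 653) (nat_lit 5645)))) (.f (nat_lit 493) (nat_lit 461) (nat_lit 7629) (.f (nat_lit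 527) (nat_lit 529) (nat_lit 3565) (.d (nat_lit 492) (nat_lit 491) (nat_lit 491) (nat_lit 525) (nat_lit 3564))))))) (.a (.p (nat_lit 462) (.a (.f (nat_lit 429) (nat_lit 461) (nat_lit 7597) (.f (nat_lit 430) (nat_lit 397) (nat_lit 7565) (.d (nat_lit 431) (nat_lit 399) (nat_lit 6542) (nat_lit 463) (nat_lit 6574)))) (.a (.f (nat_lit 559) (nat_lit 591) (nat_lit 4558) (.f (nat_lit 430) (nat_lit 527) (nat_lit 4526) (.d (nat_lit 429) (nat_lit 397) (nat_lit 7565) (nat_lit 461) (nat_lit 7597)))) (.a (.f (nat_lit 559) (nat_lit 591) (nat_lit 4558) (.f (nat_lit 430) (nat_lit 527) (nat_lit 4526) (.d (nat_lit 431) (nat_lit 399) (nat_lit 6542) (nat_lit 463) (nat_lit 6574)))) (.f (nat_lit 559) (nat_lit 591) (nat_lit 4558) (.f (nat_lit 461) (nat_lit 429) (nat_lit 7597) (.f (nat_lit 463) (nat_lit 431) (nat_lit 6574) (.f (nat_lit 464) (nat_lit 497) (nat_lit 461) (.d (nat_lit 432) (nat_lit 433) (nat_lit 2477) (nat_lit 527) (nat_lit 5551)))))))))) (.a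 s23761 (.p (nat_lit 590) (.a (.f (nat_lit 623) (nat_lit 591) (nat_lit 4590) (.f (nat_lit 622) (nat_lit 655) (nat_lit 4622) (.d (nat_lit 621) (nat_lit 589) (nat_lit 5613) (nat_lit 653) (nat_lit 5645)))) (.a (.f (nat_lit 621) (nat_lit 589) (nat_lit 5613) (.f (nat_lit 622) (nat_lit 653) (nat_lit 5645) (.f (nat_lit 655) (nat_lit 623) (nat_lit 4622) (.f (nat_lit 654) (nat_lit 687) (nat_lit 4654) (.f (nat_lit 527) (nat_lit 559) (nat_lit 6670) (.d (nat_lit 493) (nat_lit 525) (nat_lit 7661) (nat_lit 529) (nat_lit 3565))))))) (.a (.f (nat_lit 621) (nat_lit 589) (nat_lit 5613) (.f (nat_lit 622) (nat_lit 653) (nat_lit 5645) (.f (nat_lit 493) (nat_lit 525) (nat_lit 7661) (.f (nat_lit 527) (nat_lit 529) (nat_lit 3565) (.f (nat_lit 559) (nat_lit 654) (nat_lit 6670) (.d (nat_lit 462) (nat_lit 430) (nat_lit 4526) (nat_lit 591) (nat_lit 4558))))))) (.f (nat_lit 591) (nat_lit 623) (nat_lit 4590) (.f (nat_lit 462) (nat_lit 559) (nat_lit 4558) (.f (nat_lit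 431) (nat_lit 463) (nat_lit 6574) (.f (nat_lit 430) (nat_lit 399) (nat_lit 6542) (.f (nat_lit 397) (nat_lit 429) (nat_lit 7565) (.f (nat_lit 398) (nat_lit 365) (nat_lit 7533) (.f (nat_lit 493) (nat_lit 525) (nat_lit 5517) (.f (nat_lit 432) (nat_lit 433) (nat_lit 3469) (.f (nat_lit 529) (nat_lit 527) (nat_lit 3565) (.f (nat_lit 464) (nat_lit 561) (nat_lit 4528) (.f (nat_lit 400) (nat_lit 497) (nat_lit 4496) (.f (nat_lit 369) (nat_lit 401) (nat_lit 6512) (.f (nat_lit 368) (nat_lit 337) (nat_lit 6480) (.d (nat_lit 367) (nat_lit 335) (nat_lit 7503) (nat_lit 366) (nat_lit 1389)))))))))))))))))))))))))) (.a s22428 (.a s22585 (.a (.p (nat_lit 560) (.a s22626 (.a (.p (nat_lit 464) (.a (.f (nat_lit 431) (nat_lit 463) (nat_lit 7599) (.f (nat_lit 432) (nat_lit 399) (nat_lit 7567) (.d (nat_lit 433) (nat_lit 401) (nat_lit 6544) (nat_lit 465) (nat_lit 6576)))) (.a (.f (nat_lit 463) (nat_lit 431) (nat_lit 7599) (.f (nat_lit 559) (nat_lit 591) (nat_lit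 5583) (.f (nat_lit 495) (nat_lit 592) (nat_lit 7631) (.f (nat_lit 527) (nat_lit 590) (nat_lit 5582) (.f (nat_lit 462) (nat_lit 430) (nat_lit 7598) (.d (nat_lit 461) (nat_lit 460) (nat_lit 460) (nat_lit 497) (nat_lit 461))))))) (.a (.f (nat_lit 433) (nat_lit 465) (nat_lit 6576) (.f (nat_lit 432) (nat_lit 401) (nat_lit 6544) (.f (nat_lit 399) (nat_lit 431) (nat_lit 7567) (.f (nat_lit 400) (nat_lit 367) (nat_lit 7535) (.f (nat_lit 527) (nat_lit 495) (nat_lit 5519) (.d (nat_lit 525) (nat_lit 497) (nat_lit 2541) (nat_lit 561) (nat_lit 525))))))) (.f (nat_lit 559) (nat_lit 591) (nat_lit 5583) (.f (nat_lit 432) (nat_lit 527) (nat_lit 5551) (.d (nat_lit 433) (nat_lit 401) (nat_lit 6544) (nat_lit 465) (nat_lit 6576)))))))) (.a (.p (nat_lit 464) (.a (.f (nat_lit 431) (nat_lit 463) (nat_lit 7599) (.f (nat_lit 432) (nat_lit 399) (nat_lit 7567) (.d (nat_lit 433) (nat_lit 401) (nat_lit 6544) (nat_lit 465) (nat_lit 6576)))) (.a (.f (nat_lit 463)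 (nat_lit 431) (nat_lit 7599) (.f (nat_lit 465) (nat_lit 433) (nat_lit 6576) (.d (nat_lit 592) (nat_lit 495) (nat_lit 7631) (nat_lit 497) (nat_lit 6608)))) (.f (nat_lit 559) (nat_lit 591) (nat_lit 5583) (.f (nat_lit 561) (nat_lit 525) (nat_lit 3597) (.d (nat_lit 529) (nat_lit 432) (nat_lit 4528) (nat_lit 530) (nat_lit 2574))))))) (.a (.p (nat_lit 464) (.a (.f (nat_lit 431) (nat_lit 463) (nat_lit 7599) (.f (nat_lit 432) (nat_lit 399) (nat_lit 7567) (.d (nat_lit 433) (nat_lit 401) (nat_lit 6544) (nat_lit 465) (nat_lit 6576)))) (.a (.f (nat_lit 559) (nat_lit 591) (nat_lit 5583) (.f (nat_lit 561) (nat_lit 525) (nat_lit 3597) (.f (nat_lit 529) (nat_lit 530) (nat_lit 2574) (.f (nat_lit 562) (nat_lit 527) (nat_lit 526) (.f (nat_lit 465) (nat_lit 433) (nat_lit 6576) (.d (nat_lit 497) (nat_lit 592) (nat_lit 5584) (nat_lit 594) (nat_lit 4561))))))) (.a (.f (nat_lit 431) (nat_lit 463) (nat_lit 7599) (.f (nat_lit 432) (nat_lit 399) (nat_lit 7567)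 (.f (nat_lit 529) (nat_lit 561) (nat_lit 4528) (.f (nat_lit 497) (nat_lit 400) (nat_lit 4496) (.d (nat_lit 592) (nat_lit 465) (nat_lit 6608) (nat_lit 624) (nat_lit 6640)))))) (.f (nat_lit 431) (nat_lit 463) (nat_lit 7599) (.f (nat_lit 432) (nat_lit 399) (nat_lit 7567) (.f (nat_lit 529) (nat_lit 561) (nat_lit 4528) (.f (nat_lit 400) (nat_lit 497) (nat_lit 4496) (.d (nat_lit 401) (nat_lit 369) (nat_lit 6512) (nat_lit 433) (nat_lit 6544)))))))))) (.a (.p (nat_lit 464) (.a (.f (nat_lit 431) (nat_lit 463) (nat_lit 7599) (.f (nat_lit 432) (nat_lit 399) (nat_lit 7567) (.d (nat_lit 433) (nat_lit 401) (nat_lit 6544) (nat_lit 465) (nat_lit 6576)))) (.a (.f (nat_lit 463) (nat_lit 431) (nat_lit 7599) (.f (nat_lit 465) (nat_lit 433) (nat_lit 6576) (.d (nat_lit 592) (nat_lit 495) (nat_lit 7631) (nat_lit 497) (nat_lit 6608)))) (.a (.f (nat_lit 433) (nat_lit 465) (nat_lit 6576) (.f (nat_lit 432) (nat_lit 401) (nat_lit 6544) (.f (nat_lit 399) (nat_lit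 431) (nat_lit 7567) (.f (nat_lit 400) (nat_lit 367) (nat_lit 7535) (.f (nat_lit 527) (nat_lit 495) (nat_lit 5519) (.d (nat_lit 525) (nat_lit 497) (nat_lit 2541) (nat_lit 561) (nat_lit 525))))))) (.a (.f (nat_lit 465) (nat_lit 433) (nat_lit 6576) (.f (nat_lit 592) (nat_lit 497) (nat_lit 6608) (.f (nat_lit 495) (nat_lit 463) (nat_lit 7631) (.f (nat_lit 527) (nat_lit 624) (nat_lit 7663) (.d (nat_lit 525) (nat_lit 524) (nat_lit 2540) (nat_lit 561) (nat_lit 525)))))) (.a (.f (nat_lit 431) (nat_lit 463) (nat_lit 7599) (.f (nat_lit 432) (nat_lit 399) (nat_lit 7567) (.f (nat_lit 529) (nat_lit 561) (nat_lit 4528) (.f (nat_lit 497) (nat_lit 400) (nat_lit 4496) (.d (nat_lit 592) (nat_lit 465) (nat_lit 6608) (nat_lit 624) (nat_lit 6640)))))) (.f (nat_lit 431) (nat_lit 463) (nat_lit 7599) (.f (nat_lit 432) (nat_lit 399) (nat_lit 7567) (.f (nat_lit 529) (nat_lit 561) (nat_lit 4528) (.f (nat_lit 400) (nat_lit 497) (nat_lit 4496) (.d (nat_lit 401)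 (nat_lit 369) (nat_lit 6512) (nat_lit 433) (nat_lit 6544)))))))))))) (.a (.p (nat_lit 464) (.a (.f (nat_lit 431) (nat_lit 463) (nat_lit 7599) (.f (nat_lit 432) (nat_lit 399) (nat_lit 7567) (.d (nat_lit 433) (nat_lit 401) (nat_lit 6544) (nat_lit 465) (nat_lit 6576)))) (.f (nat_lit 559) (nat_lit 591) (nat_lit 5583) (.f (nat_lit 525) (nat_lit 561) (nat_lit 3597) (.d (nat_lit 524) (nat_lit 523) (nat_lit 523) (nat_lit 527) (nat_lit 524)))))) (.a (.p (nat_lit 464) (.a (.f (nat_lit 431) (nat_lit 463) (nat_lit 7599) (.f (nat_lit 432) (nat_lit 399) (nat_lit 7567) (.d (nat_lit 433) (nat_lit 401) (nat_lit 6544) (nat_lit 465) (nat_lit 6576)))) (.a (.f (nat_lit 463) (nat_lit 431) (nat_lit 7599) (.f (nat_lit 559) (nat_lit 591) (nat_lit 5583) (.f (nat_lit 495) (nat_lit 592) (nat_lit 7631) (.f (nat_lit 527) (nat_lit 590) (nat_lit 5582) (.f (nat_lit 462) (nat_lit 430) (nat_lit 7598) (.d (nat_lit 461) (nat_lit 460) (nat_lit 460) (nat_lit 497) (nat_lit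 461))))))) (.f (nat_lit 559) (nat_lit 591) (nat_lit 5583) (.f (nat_lit 432) (nat_lit 527) (nat_lit 5551) (.d (nat_lit 433) (nat_lit 401) (nat_lit 6544) (nat_lit 465) (nat_lit 6576))))))) (.a (.p (nat_lit 464) (.a (.f (nat_lit 433) (nat_lit 465) (nat_lit 6576) (.f (nat_lit 432) (nat_lit 401) (nat_lit 6544) (.f (nat_lit 399) (nat_lit 431) (nat_lit 7567) (.f (nat_lit 400) (nat_lit 367) (nat_lit 7535) (.f (nat_lit 527) (nat_lit 495) (nat_lit 5519) (.d (nat_lit 525) (nat_lit 497) (nat_lit 2541) (nat_lit 561) (nat_lit 525))))))) (.a (.f (nat_lit 559) (nat_lit 591) (nat_lit 5583) (.f (nat_lit 561) (nat_lit 525) (nat_lit 3597) (.d (nat_lit 529) (nat_lit 432) (nat_lit 4528) (nat_lit 530) (nat_lit 2574)))) (.a (.f (nat_lit 559) (nat_lit 591) (nat_lit 5583) (.f (nat_lit 432) (nat_lit 527) (nat_lit 5551) (.d (nat_lit 433) (nat_lit 401) (nat_lit 6544) (nat_lit 465) (nat_lit 6576)))) (.f (nat_lit 559) (nat_lit 591) (nat_lit 5583) (.f (nat_lit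 561) (nat_lit 525) (nat_lit 3597) (.f (nat_lit 529) (nat_lit 530) (nat_lit 2574) (.f (nat_lit 562) (nat_lit 527) (nat_lit 526) (.f (nat_lit 465) (nat_lit 433) (nat_lit 6576) (.d (nat_lit 497) (nat_lit 592) (nat_lit 5584) (nat_lit 594) (nat_lit 4561))))))))))) (.p (nat_lit 464) (.a (.f (nat_lit 431) (nat_lit 463) (nat_lit 7599) (.f (nat_lit 432) (nat_lit 399) (nat_lit 7567) (.f (nat_lit 529) (nat_lit 561) (nat_lit 4528) (.f (nat_lit 400) (nat_lit 497) (nat_lit 4496) (.d (nat_lit 401) (nat_lit 369) (nat_lit 6512) (nat_lit 433) (nat_lit 6544)))))) (.a (.f (nat_lit 463) (nat_lit 431) (nat_lit 7599) (.f (nat_lit 559) (nat_lit 591) (nat_lit 5583) (.f (nat_lit 495) (nat_lit 592) (nat_lit 7631) (.f (nat_lit 527) (nat_lit 590) (nat_lit 5582) (.f (nat_lit 462) (nat_lit 430) (nat_lit 7598) (.d (nat_lit 461) (nat_lit 460) (nat_lit 460) (nat_lit 497) (nat_lit 461))))))) (.a (.f (nat_lit 559) (nat_lit 591) (nat_lit 5583) (.f (nat_lit 561) (nat_lit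 525) (nat_lit 3597) (.f (nat_lit 527) (nat_lit 562) (nat_lit 3598) (.f (nat_lit 463) (nat_lit 431) (nat_lit 7599) (.d (nat_lit 495) (nat_lit 590) (nat_lit 5582) (nat_lit 592) (nat_lit 7631)))))) (.f (nat_lit 559) (nat_lit 591) (nat_lit 5583) (.f (nat_lit 527) (nat_lit 432) (nat_lit 5551) (.d (nat_lit 525) (nat_lit 524) (nat_lit 524) (nat_lit 561) (nat_lit 525))))))))))))))))) (.a s22666 (.a s22702 (.a s24826 (.a s24881 (.a s22709 s22736))))))))))))) (.a s24884 (.a s24885 (.a s22872 (.a (.p (nat_lit 558) (.a (.p (nat_lit 527) (.a (.f (nat_lit 525) (nat_lit 497) (nat_lit 2541) (.d (nat_lit 557) (nat_lit 529) (nat_lit 1549) (nat_lit 556) (nat_lit 1548))) (.a (.f (nat_lit 525) (nat_lit 497) (nat_lit 2541) (.f (nat_lit 524) (nat_lit 495) (nat_lit 2540) (.d (nat_lit 492) (nat_lit 491) (nat_lit 3563) (nat_lit 493) (nat_lit 3564)))) (.f (nat_lit 529) (nat_lit 557) (nat_lit 1549) (.f (nat_lit 494) (nat_lit 493) (nat_lit 3565) (.d (nat_lit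 530) (nat_lit 495) (nat_lit 3566) (nat_lit 559) (nat_lit 1550))))))) (.a s21809 (.a s24140 (.a (.p (nat_lit 527) (.a (.f (nat_lit 525) (nat_lit 497) (nat_lit 2541) (.d (nat_lit 557) (nat_lit 529) (nat_lit 1549) (nat_lit 556) (nat_lit 1548))) (.a (.f (nat_lit 525) (nat_lit 497) (nat_lit 2541) (.f (nat_lit 560) (nat_lit 561) (nat_lit 525) (.f (nat_lit 559) (nat_lit 524) (nat_lit 524) (.d (nat_lit 464) (nat_lit 432) (nat_lit 5551) (nat_lit 591) (nat_lit 5583))))) (.f (nat_lit 529) (nat_lit 557) (nat_lit 1549) (.f (nat_lit 559) (nat_lit 530) (nat_lit 1550) (.f (nat_lit 591) (nat_lit 623) (nat_lit 6639) (.d (nat_lit 464) (nat_lit 432) (nat_lit 5551) (nat_lit 560) (nat_lit 5583)))))))) (.a (.p (nat_lit 527) (.a (.f (nat_lit 525) (nat_lit 497) (nat_lit 2541) (.d (nat_lit 557) (nat_lit 529) (nat_lit 1549) (nat_lit 556) (nat_lit 1548))) (.a (.f (nat_lit 525) (nat_lit 497) (nat_lit 2541) (.f (nat_lit 524) (nat_lit 495) (nat_lit 2540) (.d (nat_lit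 492) (nat_lit 491) (nat_lit 3563) (nat_lit 493) (nat_lit 3564)))) (.f (nat_lit 529) (nat_lit 557) (nat_lit 1549) (.f (nat_lit 494) (nat_lit 493) (nat_lit 3565) (.f (nat_lit 495) (nat_lit 530) (nat_lit 3566) (.d (nat_lit 463) (nat_lit 431) (nat_lit 5550) (nat_lit 590) (nat_lit 6606)))))))) (.a s22593 s22684))))))) (.p (nat_lit 558) (.a s19123 (.a s21819 (.a s21905 (.a s24452 (.a s24551 (.a s21577 (.a s22564 (.a s22585 (.a s24557 s22723)))))))))))))))))))))))))))
noncomputable def s24900 : Cert := .r (nat_lit 943490607303752963937019840886057434177033664931875938883905600411634630746106260497667102478139433991455298517019633324992605640886346785690119740517314869782049193984) (.p (nat_lit 462) (.a (.f (nat_lit 461) (nat_lit 429) (nat_lit 7597) (.f (nat_lit 495) (nat_lit 497) (nat_lit 3533) (.d (nat_lit 460) (nat_lit 459) (nat_lit 459) (nat_lit 463) (nat_lit 460)))) (.a (.f (nat_lit 591) (nat_lit 559) (nat_lit 4558) (.f (nat_lit 590)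 (nat_lit 623) (nat_lit 4590) (.d (nat_lit 461) (nat_lit 429) (nat_lit 7597) (nat_lit 493) (nat_lit 7629)))) (.f (nat_lit 591) (nat_lit 559) (nat_lit 4558) (.f (nat_lit 590) (nat_lit 623) (nat_lit 4590) (.f (nat_lit 495) (nat_lit 463) (nat_lit 6606) (.f (nat_lit 525) (nat_lit 497) (nat_lit 1517) (.d (nat_lit 493) (nat_lit 524) (nat_lit 1516) (nat_lit 622) (nat_lit 7661)))))))))
noncomputable def s24901 : Cert := .r (nat_lit 943490607303752963885873112637680217458077575918944702130520568442211743410429832871165011909316394071404203324427380869510001201393220676171100106987855603323790950400) (.p (nat_lit 494) (.a (.p (nat_lit 462) (.a (.f (nat_lit 461) (nat_lit 429) (nat_lit 7597) (.f (nat_lit 493) (nat_lit 590) (nat_lit 7629) (.d (nat_lit 495) (nat_lit 460) (nat_lit 3532) (nat_lit 497) (nat_lit 3533)))) (.a (.f (nat_lit 591) (nat_lit 559) (nat_lit 4558) (.f (nat_lit 590) (nat_lit 623) (nat_lit 4590) (.d (nat_lit 461) (nat_lit 429)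 (nat_lit 7597) (nat_lit 493) (nat_lit 7629)))) (.f (nat_lit 557) (nat_lit 589) (nat_lit 5581) (.f (nat_lit 559) (nat_lit 591) (nat_lit 4558) (.f (nat_lit 525) (nat_lit 430) (nat_lit 5549) (.d (nat_lit 524) (nat_lit 523) (nat_lit 523) (nat_lit 560) (nat_lit 3596)))))))) (.a (.p (nat_lit 462) (.a (.f (nat_lit 591) (nat_lit 559) (nat_lit 4558) (.f (nat_lit 590) (nat_lit 623) (nat_lit 4590) (.d (nat_lit 461) (nat_lit 429) (nat_lit 7597) (nat_lit 493) (nat_lit 7629)))) (.a (.f (nat_lit 429) (nat_lit 461) (nat_lit 7597) (.f (nat_lit 430) (nat_lit 397) (nat_lit 7565) (.d (nat_lit 557) (nat_lit 525) (nat_lit 5549) (nat_lit 589) (nat_lit 5581)))) (.f (nat_lit 589) (nat_lit 557) (nat_lit 5581) (.f (nat_lit 590) (nat_lit 621) (nat_lit 5613) (.d (nat_lit 591) (nat_lit 559) (nat_lit 4558) (nat_lit 623) (nat_lit 4590))))))) (.a (.p (nat_lit 590) (.a (.f (nat_lit 495) (nat_lit 463) (nat_lit 6606) (.f (nat_lit 525) (nat_lit 497) (nat_lit 1517) (.d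 (nat_lit 493) (nat_lit 461) (nat_lit 7629) (nat_lit 524) (nat_lit 1516)))) (.a (.f (nat_lit 493) (nat_lit 461) (nat_lit 7629) (.f (nat_lit 622) (nat_lit 525) (nat_lit 7661) (.d (nat_lit 621) (nat_lit 589) (nat_lit 5613) (nat_lit 653) (nat_lit 5645)))) (.f (nat_lit 623) (nat_lit 591) (nat_lit 4590) (.f (nat_lit 622) (nat_lit 655) (nat_lit 4622) (.d (nat_lit 621) (nat_lit 589) (nat_lit 5613) (nat_lit 653) (nat_lit 5645))))))) (.a s21571 (.a (.p (nat_lit 462) (.a (.f (nat_lit 461) (nat_lit 429) (nat_lit 7597) (.f (nat_lit 495) (nat_lit 497) (nat_lit 3533) (.d (nat_lit 460) (nat_lit 459) (nat_lit 459) (nat_lit 463) (nat_lit 460)))) (.f (nat_lit 557) (nat_lit 589) (nat_lit 5581) (.f (nat_lit 559) (nat_lit 591) (nat_lit 4558) (.f (nat_lit 525) (nat_lit 430) (nat_lit 5549) (.d (nat_lit 524) (nat_lit 523) (nat_lit 523) (nat_lit 560) (nat_lit 3596))))))) (.a (.p (nat_lit 462) (.a (.f (nat_lit 461) (nat_lit 429) (nat_lit 7597) (.f (nat_lit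 493) (nat_lit 590) (nat_lit 7629) (.d (nat_lit 495) (nat_lit 460) (nat_lit 3532) (nat_lit 497) (nat_lit 3533)))) (.a (.f (nat_lit 429) (nat_lit 461) (nat_lit 7597) (.f (nat_lit 430) (nat_lit 397) (nat_lit 7565) (.d (nat_lit 557) (nat_lit 525) (nat_lit 5549) (nat_lit 589) (nat_lit 5581)))) (.f (nat_lit 557) (nat_lit 589) (nat_lit 5581) (.f (nat_lit 525) (nat_lit 430) (nat_lit 5549) (.f (nat_lit 495) (nat_lit 497) (nat_lit 1517) (.d (nat_lit 524) (nat_lit 493) (nat_lit 1516) (nat_lit 523) (nat_lit 2539)))))))) (.a s22037 s24900))))))))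
noncomputable def s24937 : Cert := .r (nat_lit 4717453032125294316127427693625949108374998796335385130506726868687835905802578684957291737086975161612872578355191225769280585831318013308732534358420551646973186277376) (.p (nat_lit 559) (.a (.f (nat_lit 561) (nat_lit 525) (nat_lit 3597) (.f (nat_lit 590) (nat_lit 589) (nat_lit 1581) (.f (nat_lit 591) (nat_lit 562) (nat_lit 1582) (.d (nat_lit 494) (nat_lit 462) (nat_lit 4558) (nat_lit 623) (nat_lit 4590))))) (.a (.f (nat_lit 591) (nat_lit 464) (nat_lit 5583) (.f (nat_lit 623) (nat_lit 655) (nat_lit 6671) (.d (nat_lit 494) (nat_lit 462) (nat_lit 4558) (nat_lit 590) (nat_lit 4590)))) (.a (.f (nat_lit 561) (nat_lit 525) (nat_lit 3597) (.f (nat_lit 590) (nat_lit 589) (nat_lit 1581) (.f (nat_lit 562) (nat_lit 591) (nat_lit 1582) (.d (nat_lit 594) (nat_lit 593) (nat_lit 558) (nat_lit 595) (nat_lit 559))))) (.f (nat_lit 525) (nat_lit 561) (nat_lit 3597) (.d (nat_lit 524) (nat_lit 523) (nat_lit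 523) (nat_lit 557) (nat_lit 3596)))))))
noncomputable def s24952 : Cert := .r (nat_lit 943490607303752963885873112637680217458077575918944702130520568442211743410429832871165011909316394071404203324427380869510001201393220676171100106987855603323790950400) (.p (nat_lit 494) (.a s19085 (.a (.p (nat_lit 590) (.a (.f (nat_lit 495) (nat_lit 463) (nat_lit 6606) (.f (nat_lit 525) (nat_lit 497) (nat_lit 1517) (.d (nat_lit 493) (nat_lit 461) (nat_lit 7629) (nat_lit 524) (nat_lit 1516)))) (.a (.f (nat_lit 493) (nat_lit 461) (nat_lit 7629) (.f (nat_lit 622) (nat_lit 525) (nat_lit 7661) (.d (nat_lit 621) (nat_lit 589) (nat_lit 5613) (nat_lit 653) (nat_lit 5645)))) (.f (nat_lit 623) (nat_lit 591) (nat_lit 4590) (.f (nat_lit 622) (nat_lit 655) (nat_lit 4622) (.d (nat_lit 621) (nat_lit 589) (nat_lit 5613) (nat_lit 653) (nat_lit 5645))))))) (.a (.p (nat_lit 462) (.a (.f (nat_lit 557) (nat_lit 589) (nat_lit 5581) (.f (nat_lit 525) (nat_lit 430)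 (nat_lit 5549) (.d (nat_lit 527) (nat_lit 497) (nat_lit 2541) (nat_lit 556) (nat_lit 1548)))) (.a (.f (nat_lit 429) (nat_lit 461) (nat_lit 7597) (.f (nat_lit 430) (nat_lit 397) (nat_lit 7565) (.d (nat_lit 557) (nat_lit 525) (nat_lit 5549) (nat_lit 589) (nat_lit 5581)))) (.a (.f (nat_lit 461) (nat_lit 429) (nat_lit 7597) (.f (nat_lit 590) (nat_lit 493) (nat_lit 7629) (.d (nat_lit 589) (nat_lit 557) (nat_lit 5581) (nat_lit 621) (nat_lit 5613)))) (.a (.f (nat_lit 461) (nat_lit 429) (nat_lit 7597) (.f (nat_lit 590) (nat_lit 493) (nat_lit 7629) (.f (nat_lit 623) (nat_lit 591) (nat_lit 4590) (.f (nat_lit 622) (nat_lit 655) (nat_lit 4622) (.d (nat_lit 621) (nat_lit 589) (nat_lit 5613) (nat_lit 653) (nat_lit 5645)))))) (.f (nat_lit 429) (nat_lit 461) (nat_lit 7597) (.f (nat_lit 430) (nat_lit 397) (nat_lit 7565) (.f (nat_lit 525) (nat_lit 557) (nat_lit 5549) (.f (nat_lit 493) (nat_lit 398) (nat_lit 5517) (.d (nat_lit 527) (nat_lit 492) (nat_lit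 3564) (nat_lit 497) (nat_lit 2541))))))))))) (.a s21700 (.a (.p (nat_lit 590) (.a (.f (nat_lit 495) (nat_lit 463) (nat_lit 6606) (.f (nat_lit 525) (nat_lit 497) (nat_lit 1517) (.d (nat_lit 524) (nat_lit 523) (nat_lit 2539) (nat_lit 527) (nat_lit 2540)))) (.f (nat_lit 623) (nat_lit 591) (nat_lit 4590) (.f (nat_lit 622) (nat_lit 655) (nat_lit 4622) (.d (nat_lit 621) (nat_lit 589) (nat_lit 5613) (nat_lit 653) (nat_lit 5645)))))) (.p (nat_lit 462) (.a (.f (nat_lit 461) (nat_lit 429) (nat_lit 7597) (.f (nat_lit 495) (nat_lit 497) (nat_lit 3533) (.d (nat_lit 460) (nat_lit 459) (nat_lit 459) (nat_lit 463) (nat_lit 460)))) (.a (.f (nat_lit 557) (nat_lit 589) (nat_lit 5581) (.f (nat_lit 525) (nat_lit 430) (nat_lit 5549) (.d (nat_lit 527) (nat_lit 497) (nat_lit 2541) (nat_lit 556) (nat_lit 1548)))) (.f (nat_lit 429) (nat_lit 461) (nat_lit 7597) (.f (nat_lit 430) (nat_lit 397) (nat_lit 7565) (.d (nat_lit 557) (nat_lit 525) (nat_lit 5549) (nat_lit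 589) (nat_lit 5581)))))))))))))
noncomputable def s24959 : Cert := .r (nat_lit 943490607303752963937019840886057434177033664931875938883905600411634630746106260497667102478139433991455298517019633324992605640886346785690119740517314869782049193984) (.p (nat_lit 462) (.a (.f (nat_lit 461) (nat_lit 429) (nat_lit 7597) (.f (nat_lit 495) (nat_lit 497) (nat_lit 3533) (.d (nat_lit 460) (nat_lit 459) (nat_lit 459) (nat_lit 463) (nat_lit 460)))) (.a (.f (nat_lit 461) (nat_lit 429) (nat_lit 7597) (.f (nat_lit 590) (nat_lit 493) (nat_lit 7629) (.d (nat_lit 589) (nat_lit 557) (nat_lit 5581) (nat_lit 621) (nat_lit 5613)))) (.f (nat_lit 589) (nat_lit 557) (nat_lit 5581) (.f (nat_lit 590) (nat_lit 621) (nat_lit 5613) (.f (nat_lit 495) (nat_lit 463) (nat_lit 6606) (.f (nat_lit 527) (nat_lit 622) (nat_lit 6638) (.d (nat_lit 430) (nat_lit 398) (nat_lit 4494) (nat_lit 559) (nat_lit 4526)))))))))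
noncomputable def s24981 : Cert := .r (nat_lit 943490607303752963937019840897965959835892888226636060152342666702484690799607279597319037901515028087905210092795947499886907899033879939687184799780345782865271717888) (.f (nat_lit 591) (nat_lit 559) (nat_lit 4558) (.f (nat_lit 590) (nat_lit 623) (nat_lit 4590) (.f (nat_lit 495) (nat_lit 463) (nat_lit 6606) (.f (nat_lit 527) (nat_lit 622) (nat_lit 6638) (.f (nat_lit 493) (nat_lit 492) (nat_lit 492) (.f (nat_lit 465) (nat_lit 464) (nat_lit 2509) (.f (nat_lit 497) (nat_lit 466) (nat_lit 2510) (.f (nat_lit 592) (nat_lit 560) (nat_lit 6608) (.f (nat_lit 593) (nat_lit 557) (nat_lit 3629) (.f (nat_lit 626) (nat_lit 625) (nat_lit 590) (.f (nat_lit 594) (nat_lit 627) (nat_lit 591) (.d (nat_lit 562) (nat_lit 561) (nat_lit 2606) (nat_lit 563) (nat_lit 2607)))))))))))))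
noncomputable def s24982 : Cert := .r (nat_lit 943490607303752963937019840886057434177033664931875938883905600411634630746106260497667102478139433991455298517019633324992605640886346785690119740517314869782049193984) (.p (nat_lit 462) (.a (.f (nat_lit 559) (nat_lit 591) (nat_lit 4558) (.f (nat_lit 527) (nat_lit 430) (nat_lit 4526) (.d (nat_lit 557) (nat_lit 556) (nat_lit 2572) (nat_lit 589) (nat_lit 5581)))) (.a (.f (nat_lit 589) (nat_lit 557) (nat_lit 5581) (.f (nat_lit 590) (nat_lit 621) (nat_lit 5613) (.d (nat_lit 591) (nat_lit 559) (nat_lit 4558) (nat_lit 623) (nat_lit 4590)))) (.a (.f (nat_lit 589) (nat_lit 557) (nat_lit 5581) (.f (nat_lit 590) (nat_lit 621) (nat_lit 5613) (.f (nat_lit 495) (nat_lit 463) (nat_lit 6606) (.f (nat_lit 623) (nat_lit 591) (nat_lit 4590) (.d (nat_lit 622) (nat_lit 527) (nat_lit 6638) (nat_lit 655) (nat_lit 4622)))))) (.a (.f (nat_lit 589) (nat_lit 557) (nat_lit 5581) (.f (nat_lit 590) (nat_lit 621)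 (nat_lit 5613) (.f (nat_lit 495) (nat_lit 463) (nat_lit 6606) (.f (nat_lit 527) (nat_lit 622) (nat_lit 6638) (.d (nat_lit 430) (nat_lit 398) (nat_lit 4494) (nat_lit 559) (nat_lit 4526)))))) (.a (.f (nat_lit 591) (nat_lit 559) (nat_lit 4558) (.f (nat_lit 590) (nat_lit 623) (nat_lit 4590) (.f (nat_lit 495) (nat_lit 463) (nat_lit 6606) (.f (nat_lit 621) (nat_lit 589) (nat_lit 5613) (.d (nat_lit 622) (nat_lit 527) (nat_lit 6638) (nat_lit 653) (nat_lit 5645)))))) s24981))))))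
noncomputable def s24983 : Cert := .r (nat_lit 943490607303752963937019840886057434177033664931875938883905600411634630746106260497667102478139433991455298517019633324992605640886346785690119740517314869782049193984) (.p (nat_lit 462) (.a (.f (nat_lit 461) (nat_lit 429) (nat_lit 7597) (.f (nat_lit 495) (nat_lit 497) (nat_lit 3533) (.d (nat_lit 460) (nat_lit 459) (nat_lit 459) (nat_lit 463) (nat_lit 460)))) (.a (.f (nat_lit 591) (nat_lit 559) (nat_lit 4558) (.f (nat_lit 590) (nat_lit 623) (nat_lit 4590) (.d (nat_lit 461) (nat_lit 429) (nat_lit 7597) (nat_lit 493) (nat_lit 7629)))) s24981)))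
noncomputable def s24993 : Cert := .r (nat_lit 943490607303752963937019840886057434177033664931875938883905600411634630746106260497667102478139433991455298517019633324992605640886346785690119740517314869782049193984) (.p (nat_lit 462) (.a (.f (nat_lit 591) (nat_lit 559) (nat_lit 4558) (.f (nat_lit 590) (nat_lit 623) (nat_lit 4590) (.d (nat_lit 461) (nat_lit 429) (nat_lit 7597) (nat_lit 493) (nat_lit 7629)))) (.a (.f (nat_lit 461) (nat_lit 429) (nat_lit 7597) (.f (nat_lit 493) (nat_lit 590) (nat_lit 7629) (.f (nat_lit 495) (nat_lit 460) (nat_lit 3532) (.f (nat_lit 525) (nat_lit 524) (nat_lit 1516) (.d (nat_lit 430) (nat_lit 398) (nat_lit 5517) (nat_lit 557) (nat_lit 5549)))))) (.a (.f (nat_lit 559) (nat_lit 591) (nat_lit 4558) (.f (nat_lit 430) (nat_lit 527) (nat_lit 4526) (.d (nat_lit 429) (nat_lit 397) (nat_lit 7565) (nat_lit 461) (nat_lit 7597)))) (.f (nat_lit 559) (nat_lit 591) (nat_lit 4558) (.f (nat_lit 430) (nat_lit 527) (nat_lit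 4526) (.f (nat_lit 525) (nat_lit 557) (nat_lit 5549) (.f (nat_lit 493) (nat_lit 398) (nat_lit 5517) (.d (nat_lit 524) (nat_lit 495) (nat_lit 1516) (nat_lit 523) (nat_lit 523))))))))))
noncomputable def s25000 : Cert := .r (nat_lit 943490607303752963937019840886057434177033664931875938883905600411634630746106260497667102478139433991455298517019633324992605640886346785690119740517314869782049193984) (.p (nat_lit 462) (.a (.f (nat_lit 557) (nat_lit 589) (nat_lit 5581) (.f (nat_lit 525) (nat_lit 430) (nat_lit 5549) (.d (nat_lit 527) (nat_lit 497) (nat_lit 2541) (nat_lit 556) (nat_lit 1548)))) (.a (.f (nat_lit 429) (nat_lit 461) (nat_lit 7597) (.f (nat_lit 430) (nat_lit 397) (nat_lit 7565) (.d (nat_lit 557) (nat_lit 525) (nat_lit 5549) (nat_lit 589) (nat_lit 5581)))) (.a (.f (nat_lit 461) (nat_lit 429) (nat_lit 7597) (.f (nat_lit 590) (nat_lit 493) (nat_lit 7629) (.d (nat_lit 589) (nat_lit 557) (nat_lit 5581) (nat_lit 621) (nat_lit 5613))))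 (.f (nat_lit 429) (nat_lit 461) (nat_lit 7597) (.f (nat_lit 430) (nat_lit 397) (nat_lit 7565) (.f (nat_lit 527) (nat_lit 559) (nat_lit 4526) (.f (nat_lit 525) (nat_lit 497) (nat_lit 2541) (.d (nat_lit 493) (nat_lit 398) (nat_lit 5517) (nat_lit 492) (nat_lit 3564))))))))))
noncomputable def s25004 : Cert := .r (nat_lit 943490607303752963885873112637680217458077575918944702130520568442211743410429832871165011909316394071404203324427380869510001201393220676171100106987855603323790950400) (.p (nat_lit 494) (.a s19085 (.a (.p (nat_lit 590) (.a (.f (nat_lit 495) (nat_lit 463) (nat_lit 6606) (.f (nat_lit 525) (nat_lit 497) (nat_lit 1517) (.d (nat_lit 493) (nat_lit 461) (nat_lit 7629) (nat_lit 524) (nat_lit 1516)))) (.a (.f (nat_lit 493) (nat_lit 461) (nat_lit 7629) (.f (nat_lit 622) (nat_lit 525) (nat_lit 7661) (.d (nat_lit 621) (nat_lit 589) (nat_lit 5613) (nat_lit 653) (nat_lit 5645)))) (.f (nat_lit 623) (nat_lit 591) (nat_lit 4590) (.f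 (nat_lit 622) (nat_lit 655) (nat_lit 4622) (.d (nat_lit 621) (nat_lit 589) (nat_lit 5613) (nat_lit 653) (nat_lit 5645))))))) (.a (.p (nat_lit 590) (.a (.f (nat_lit 493) (nat_lit 461) (nat_lit 7629) (.f (nat_lit 622) (nat_lit 525) (nat_lit 7661) (.d (nat_lit 621) (nat_lit 589) (nat_lit 5613) (nat_lit 653) (nat_lit 5645)))) (.a (.f (nat_lit 623) (nat_lit 591) (nat_lit 4590) (.f (nat_lit 622) (nat_lit 655) (nat_lit 4622) (.d (nat_lit 621) (nat_lit 589) (nat_lit 5613) (nat_lit 653) (nat_lit 5645)))) (.f (nat_lit 461) (nat_lit 493) (nat_lit 7629) (.f (nat_lit 462) (nat_lit 429) (nat_lit 7597) (.d (nat_lit 591) (nat_lit 559) (nat_lit 4558) (nat_lit 623) (nat_lit 4590))))))) (.a s21700 (.a (.p (nat_lit 590) (.a (.f (nat_lit 495) (nat_lit 463) (nat_lit 6606) (.f (nat_lit 525) (nat_lit 497) (nat_lit 1517) (.d (nat_lit 524) (nat_lit 523) (nat_lit 2539) (nat_lit 527) (nat_lit 2540)))) (.f (nat_lit 623) (nat_lit 591) (nat_lit 4590) (.f (nat_lit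 622) (nat_lit 655) (nat_lit 4622) (.d (nat_lit 621) (nat_lit 589) (nat_lit 5613) (nat_lit 653) (nat_lit 5645)))))) (.p (nat_lit 462) (.a (.f (nat_lit 461) (nat_lit 429) (nat_lit 7597) (.f (nat_lit 495) (nat_lit 497) (nat_lit 3533) (.d (nat_lit 460) (nat_lit 459) (nat_lit 459) (nat_lit 463) (nat_lit 460)))) (.a (.f (nat_lit 559) (nat_lit 591) (nat_lit 4558) (.f (nat_lit 430) (nat_lit 527) (nat_lit 4526) (.d (nat_lit 429) (nat_lit 397) (nat_lit 7565) (nat_lit 461) (nat_lit 7597)))) (.f (nat_lit 559) (nat_lit 591) (nat_lit 4558) (.f (nat_lit 527) (nat_lit 430) (nat_lit 4526) (.f (nat_lit 525) (nat_lit 497) (nat_lit 2541) (.d (nat_lit 524) (nat_lit 495) (nat_lit 2540) (nat_lit 523) (nat_lit 523))))))))))))))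
noncomputable def s25016 : Cert := .r (nat_lit 3773962425919908978067039048378881885645768491231275023412675293626429865204541471935760055792560469727505484597500264544337939673836815150592175795562377636060837445632) (.p (nat_lit 592) (.a (.f (nat_lit 623) (nat_lit 591) (nat_lit 5615) (.f (nat_lit 624) (nat_lit 655) (nat_lit 5647) (.d (nat_lit 625) (nat_lit 593) (nat_lit 4592) (nat_lit 657) (nat_lit 4624)))) (.a (.f (nat_lit 593) (nat_lit 625) (nat_lit 4592) (.f (nat_lit 495) (nat_lit 463) (nat_lit 7631) (.f (nat_lit 497) (nat_lit 465) (nat_lit 6608) (.f (nat_lit 494) (nat_lit 525) (nat_lit 1517) (.f (nat_lit 461) (nat_lit 462) (nat_lit 3533) (.f (nat_lit 493) (nat_lit 460) (nat_lit 3532) (.f (nat_lit 558) (nat_lit 590) (nat_lit 7629) (.f (nat_lit 559) (nat_lit 557) (nat_lit 557) (.d (nat_lit 594) (nat_lit 561) (nat_lit 558) (nat_lit 595) (nat_lit 3631)))))))))) (.f (nat_lit 591) (nat_lit 623) (nat_lit 5615) (.f (nat_lit 495) (nat_lit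 463) (nat_lit 7631) (.f (nat_lit 497) (nat_lit 465) (nat_lit 6608) (.f (nat_lit 494) (nat_lit 525) (nat_lit 1517) (.f (nat_lit 462) (nat_lit 461) (nat_lit 3533) (.f (nat_lit 558) (nat_lit 559) (nat_lit 4558) (.f (nat_lit 589) (nat_lit 557) (nat_lit 5581) (.d (nat_lit 590) (nat_lit 561) (nat_lit 2605) (nat_lit 621) (nat_lit 5613))))))))))))
noncomputable def s25108 : Cert := .r (nat_lit 3773962425919908978067039048378881885645768491231275023412675293626429865204541471935760055792560469727505484597500264544337939673836815150592175795562377636060837445632) (.p (nat_lit 494) (.a (.p (nat_lit 464) (.a (.f (nat_lit 559) (nat_lit 591) (nat_lit 5583) (.f (nat_lit 561) (nat_lit 593) (nat_lit 4560) (.f (nat_lit 558) (nat_lit 525) (nat_lit 3597) (.d (nat_lit 529) (nat_lit 530) (nat_lit 2574) (nat_lit 557) (nat_lit 2573))))) (.a (.f (nat_lit 591) (nat_lit 559) (nat_lit 5583) (.f (nat_lit 592) (nat_lit 623) (nat_lit 5615) (.d (nat_lit 593) (nat_lit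 561) (nat_lit 4560) (nat_lit 625) (nat_lit 4592)))) (.a (.f (nat_lit 561) (nat_lit 593) (nat_lit 4560) (.f (nat_lit 432) (nat_lit 529) (nat_lit 4528) (.d (nat_lit 433) (nat_lit 401) (nat_lit 6544) (nat_lit 465) (nat_lit 6576)))) (.f (nat_lit 465) (nat_lit 433) (nat_lit 6576) (.f (nat_lit 495) (nat_lit 493) (nat_lit 2509) (.d (nat_lit 463) (nat_lit 466) (nat_lit 1486) (nat_lit 592) (nat_lit 7631)))))))) (.a (.p (nat_lit 464) (.a (.f (nat_lit 591) (nat_lit 559) (nat_lit 5583) (.f (nat_lit 592) (nat_lit 623) (nat_lit 5615) (.d (nat_lit 593) (nat_lit 561) (nat_lit 4560) (nat_lit 625) (nat_lit 4592)))) (.a (.f (nat_lit 465) (nat_lit 433) (nat_lit 6576) (.f (nat_lit 495) (nat_lit 493) (nat_lit 2509) (.d (nat_lit 463) (nat_lit 466) (nat_lit 1486) (nat_lit 592) (nat_lit 7631)))) (.f (nat_lit 559) (nat_lit 591) (nat_lit 5583) (.f (nat_lit 561) (nat_lit 593) (nat_lit 4560) (.f (nat_lit 558) (nat_lit 525) (nat_lit 3597) (.f (nat_lit 589) (nat_lit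 590) (nat_lit 1581) (.d (nat_lit 557) (nat_lit 462) (nat_lit 5581) (nat_lit 588) (nat_lit 1580))))))))) (.a (.p (nat_lit 591) (.a (.f (nat_lit 464) (nat_lit 559) (nat_lit 5583) (.f (nat_lit 592) (nat_lit 623) (nat_lit 5615) (.d (nat_lit 593) (nat_lit 561) (nat_lit 4560) (nat_lit 625) (nat_lit 4592)))) (.a (.f (nat_lit 623) (nat_lit 592) (nat_lit 5615) (.f (nat_lit 558) (nat_lit 590) (nat_lit 4590) (.d (nat_lit 559) (nat_lit 462) (nat_lit 4558) (nat_lit 655) (nat_lit 6671)))) (.a (.f (nat_lit 592) (nat_lit 623) (nat_lit 5615) (.f (nat_lit 593) (nat_lit 625) (nat_lit 4592) (.f (nat_lit 561) (nat_lit 464) (nat_lit 4560) (.d (nat_lit 562) (nat_lit 563) (nat_lit 1583) (nat_lit 590) (nat_lit 2606))))) (.a (.f (nat_lit 559) (nat_lit 464) (nat_lit 5583) (.f (nat_lit 558) (nat_lit 462) (nat_lit 4558) (.d (nat_lit 623) (nat_lit 590) (nat_lit 4590) (nat_lit 655) (nat_lit 6671)))) (.f (nat_lit 464) (nat_lit 559) (nat_lit 5583) (.f (nat_lit 561)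 (nat_lit 593) (nat_lit 4560) (.f (nat_lit 432) (nat_lit 529) (nat_lit 4528) (.d (nat_lit 433) (nat_lit 401) (nat_lit 6544) (nat_lit 465) (nat_lit 6576)))))))))) (.a (.p (nat_lit 592) (.a (.f (nat_lit 623) (nat_lit 591) (nat_lit 5615) (.f (nat_lit 624) (nat_lit 655) (nat_lit 5647) (.d (nat_lit 625) (nat_lit 593) (nat_lit 4592) (nat_lit 657) (nat_lit 4624)))) (.f (nat_lit 495) (nat_lit 463) (nat_lit 7631) (.f (nat_lit 493) (nat_lit 529) (nat_lit 493) (.f (nat_lit 525) (nat_lit 524) (nat_lit 1516) (.f (nat_lit 461) (nat_lit 460) (nat_lit 3532) (.d (nat_lit 429) (nat_lit 397) (nat_lit 4493) (nat_lit 558) (nat_lit 4525)))))))) (.a (.p (nat_lit 464) (.a (.f (nat_lit 559) (nat_lit 591) (nat_lit 5583) (.f (nat_lit 561) (nat_lit 593) (nat_lit 4560) (.f (nat_lit 558) (nat_lit 525) (nat_lit 3597) (.d (nat_lit 529) (nat_lit 530) (nat_lit 2574) (nat_lit 557) (nat_lit 2573))))) (.a (.f (nat_lit 559) (nat_lit 591) (nat_lit 5583) (.f (nat_lit 561)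 (nat_lit 593) (nat_lit 4560) (.f (nat_lit 558) (nat_lit 525) (nat_lit 3597) (.f (nat_lit 589) (nat_lit 590) (nat_lit 1581) (.d (nat_lit 557) (nat_lit 462) (nat_lit 5581) (nat_lit 588) (nat_lit 1580)))))) (.a (.f (nat_lit 561) (nat_lit 593) (nat_lit 4560) (.f (nat_lit 432) (nat_lit 529) (nat_lit 4528) (.d (nat_lit 433) (nat_lit 401) (nat_lit 6544) (nat_lit 465) (nat_lit 6576)))) (.f (nat_lit 465) (nat_lit 433) (nat_lit 6576) (.f (nat_lit 495) (nat_lit 493) (nat_lit 2509) (.d (nat_lit 466) (nat_lit 463) (nat_lit 1486) (nat_lit 467) (nat_lit 1487)))))))) (.a (.p (nat_lit 464) (.a (.f (nat_lit 591) (nat_lit 559) (nat_lit 5583) (.f (nat_lit 592) (nat_lit 623) (nat_lit 5615) (.d (nat_lit 593) (nat_lit 561) (nat_lit 4560) (nat_lit 625) (nat_lit 4592)))) (.a (.f (nat_lit 561) (nat_lit 593) (nat_lit 4560) (.f (nat_lit 432) (nat_lit 529) (nat_lit 4528) (.d (nat_lit 433) (nat_lit 401) (nat_lit 6544) (nat_lit 465) (nat_lit 6576)))) (.f (nat_lit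 465) (nat_lit 433) (nat_lit 6576) (.f (nat_lit 495) (nat_lit 493) (nat_lit 2509) (.d (nat_lit 463) (nat_lit 466) (nat_lit 1486) (nat_lit 592) (nat_lit 7631))))))) (.a (.p (nat_lit 464) (.a (.f (nat_lit 561) (nat_lit 593) (nat_lit 4560) (.f (nat_lit 432) (nat_lit 529) (nat_lit 4528) (.d (nat_lit 433) (nat_lit 401) (nat_lit 6544) (nat_lit 465) (nat_lit 6576)))) (.a (.f (nat_lit 465) (nat_lit 433) (nat_lit 6576) (.f (nat_lit 495) (nat_lit 493) (nat_lit 2509) (.d (nat_lit 463) (nat_lit 466) (nat_lit 1486) (nat_lit 592) (nat_lit 7631)))) (.f (nat_lit 561) (nat_lit 593) (nat_lit 4560) (.f (nat_lit 529) (nat_lit 432) (nat_lit 4528) (.f (nat_lit 495) (nat_lit 493) (nat_lit 493) (.f (nat_lit 530) (nat_lit 531) (nat_lit 3567) (.f (nat_lit 558) (nat_lit 559) (nat_lit 2574) (.d (nat_lit 463) (nat_lit 590) (nat_lit 6606) (nat_lit 592) (nat_lit 7631)))))))))) (.p (nat_lit 464) (.a (.f (nat_lit 433) (nat_lit 465) (nat_lit 6576) (.f (nat_lit 432)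 (nat_lit 401) (nat_lit 6544) (.f (nat_lit 559) (nat_lit 591) (nat_lit 5583) (.f (nat_lit 561) (nat_lit 529) (nat_lit 4528) (.f (nat_lit 558) (nat_lit 525) (nat_lit 3597) (.f (nat_lit 589) (nat_lit 590) (nat_lit 1581) (.d (nat_lit 557) (nat_lit 462) (nat_lit 5581) (nat_lit 588) (nat_lit 1580)))))))) (.a (.f (nat_lit 465) (nat_lit 433) (nat_lit 6576) (.f (nat_lit 495) (nat_lit 493) (nat_lit 2509) (.d (nat_lit 463) (nat_lit 466) (nat_lit 1486) (nat_lit 592) (nat_lit 7631)))) (.a (.f (nat_lit 591) (nat_lit 559) (nat_lit 5583) (.f (nat_lit 592) (nat_lit 623) (nat_lit 5615) (.f (nat_lit 495) (nat_lit 463) (nat_lit 7631) (.d (nat_lit 493) (nat_lit 465) (nat_lit 2509) (nat_lit 529) (nat_lit 493))))) (.f (nat_lit 591) (nat_lit 559) (nat_lit 5583) (.f (nat_lit 592) (nat_lit 623) (nat_lit 5615) (.f (nat_lit 495) (nat_lit 463) (nat_lit 7631) (.f (nat_lit 493) (nat_lit 529) (nat_lit 493) (.f (nat_lit 525) (nat_lit 524) (nat_lit 1516) (.f (nat_lit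 461) (nat_lit 460) (nat_lit 3532) (.d (nat_lit 429) (nat_lit 397) (nat_lit 4493) (nat_lit 558) (nat_lit 4525))))))))))))))))))))
noncomputable def s25139 : Cert := .r (nat_lit 3773962425919908978067039048378881885645768491231275023412675293626429865204541471935760055792560469727505484597500264544337939673836815150592175795562377636060837445632) (.p (nat_lit 464) (.a (.f (nat_lit 561) (nat_lit 593) (nat_lit 4560) (.f (nat_lit 529) (nat_lit 432) (nat_lit 4528) (.f (nat_lit 559) (nat_lit 591) (nat_lit 5583) (.d (nat_lit 530) (nat_lit 531) (nat_lit 1551) (nat_lit 558) (nat_lit 2574))))) (.a (.f (nat_lit 465) (nat_lit 433) (nat_lit 6576) (.f (nat_lit 592) (nat_lit 497) (nat_lit 6608) (.d (nat_lit 593) (nat_lit 561) (nat_lit 4560) (nat_lit 625) (nat_lit 4592)))) (.a (.p (nat_lit 495) (.a (.f (nat_lit 465) (nat_lit 433) (nat_lit 6576) (.f (nat_lit 494) (nat_lit 493) (nat_lit 2509) (.d (nat_lit 466) (nat_lit 463) (nat_lit 1486) (nat_lit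 467) (nat_lit 1487)))) (.a (.f (nat_lit 465) (nat_lit 433) (nat_lit 6576) (.d (nat_lit 592) (nat_lit 463) (nat_lit 7631) (nat_lit 497) (nat_lit 6608))) (.a (.f (nat_lit 465) (nat_lit 433) (nat_lit 6576) (.f (nat_lit 494) (nat_lit 493) (nat_lit 2509) (.d (nat_lit 466) (nat_lit 467) (nat_lit 1487) (nat_lit 497) (nat_lit 2510)))) (.a (.f (nat_lit 592) (nat_lit 463) (nat_lit 7631) (.f (nat_lit 497) (nat_lit 465) (nat_lit 6608) (.f (nat_lit 529) (nat_lit 624) (nat_lit 6640) (.d (nat_lit 494) (nat_lit 493) (nat_lit 493) (nat_lit 525) (nat_lit 1517))))) (.f (nat_lit 592) (nat_lit 463) (nat_lit 7631) (.f (nat_lit 625) (nat_lit 593) (nat_lit 4592) (.f (nat_lit 624) (nat_lit 657) (nat_lit 4624) (.f (nat_lit 591) (nat_lit 559) (nat_lit 5583) (.f (nat_lit 497) (nat_lit 529) (nat_lit 6640) (.f (nat_lit 494) (nat_lit 525) (nat_lit 1517) (.f (nat_lit 461) (nat_lit 462) (nat_lit 3533) (.f (nat_lit 493) (nat_lit 460) (nat_lit 3532) (.d (nat_lit 590)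 (nat_lit 558) (nat_lit 7629) (nat_lit 589) (nat_lit 589))))))))))))))) (.f (nat_lit 433) (nat_lit 465) (nat_lit 6576) (.f (nat_lit 432) (nat_lit 401) (nat_lit 6544) (.f (nat_lit 529) (nat_lit 561) (nat_lit 4528) (.f (nat_lit 497) (nat_lit 400) (nat_lit 4496) (.f (nat_lit 592) (nat_lit 624) (nat_lit 6640) (.f (nat_lit 495) (nat_lit 463) (nat_lit 7631) (.d (nat_lit 494) (nat_lit 493) (nat_lit 493) (nat_lit 525) (nat_lit 1517))))))))))))
noncomputable def s25232 : Cert := .r (nat_lit 1098367625825484467438247097364284163993875080110217258544205943026396696248241072308404078571836755869841676344144564076502155134019001781181805244744332214272) (.p (nat_lit 560) (.a (.f (nat_lit 561) (nat_lit 593) (nat_lit 4560) (.f (nat_lit 529) (nat_lit 432) (nat_lit 4528) (.f (nat_lit 559) (nat_lit 591) (nat_lit 5583) (.d (nat_lit 530) (nat_lit 531) (nat_lit 1551) (nat_lit 558) (nat_lit 2574))))) (.a (.f (nat_lit 591) (nat_lit 559) (nat_lit 5583) (.f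 (nat_lit 592) (nat_lit 623) (nat_lit 5615) (.d (nat_lit 593) (nat_lit 561) (nat_lit 4560) (nat_lit 625) (nat_lit 4592)))) (.a (.f (nat_lit 433) (nat_lit 465) (nat_lit 6576) (.f (nat_lit 432) (nat_lit 401) (nat_lit 6544) (.d (nat_lit 561) (nat_lit 529) (nat_lit 4528) (nat_lit 593) (nat_lit 4560)))) (.f (nat_lit 559) (nat_lit 591) (nat_lit 5583) (.f (nat_lit 432) (nat_lit 527) (nat_lit 5551) (.d (nat_lit 433) (nat_lit 401) (nat_lit 6544) (nat_lit 465) (nat_lit 6576))))))))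
noncomputable def s25233 : Cert := .r (nat_lit 1098367625825484467438247097364284163993875080110217258544205943026396696248241072308404078571836755869841676344144564076502155134019001781181805244744332214272) (.p (nat_lit 560) (.a (.f (nat_lit 561) (nat_lit 593) (nat_lit 4560) (.f (nat_lit 529) (nat_lit 432) (nat_lit 4528) (.f (nat_lit 559) (nat_lit 591) (nat_lit 5583) (.d (nat_lit 530) (nat_lit 531) (nat_lit 1551) (nat_lit 558) (nat_lit 2574))))) (.a (.f (nat_lit 591) (nat_lit 559) (nat_lit 5583) (.f (nat_lit 592) (nat_lit 623) (nat_lit 5615) (.d (nat_lit 593) (nat_lit 561) (nat_lit 4560) (nat_lit 625) (nat_lit 4592)))) (.a (.f (nat_lit 561) (nat_lit 593) (nat_lit 4560) (.f (nat_lit 529) (nat_lit 432) (nat_lit 4528) (.f (nat_lit 527) (nat_lit 562) (nat_lit 526) (.f (nat_lit 494) (nat_lit 493) (nat_lit 3565) (.f (nat_lit 495) (nat_lit 530) (nat_lit 3566) (.d (nat_lit 592) (nat_lit 463) (nat_lit 7631) (nat_lit 624) (nat_lit 7663)))))))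 (.f (nat_lit 591) (nat_lit 559) (nat_lit 5583) (.f (nat_lit 592) (nat_lit 623) (nat_lit 5615) (.f (nat_lit 495) (nat_lit 463) (nat_lit 7631) (.f (nat_lit 624) (nat_lit 527) (nat_lit 7663) (.d (nat_lit 497) (nat_lit 465) (nat_lit 6608) (nat_lit 529) (nat_lit 6640))))))))))
noncomputable def s25239 : Cert := .r (nat_lit 1098367625825484467390612994728847270814834595036468993380805702812392619849633330614901702186037109566736419644567355043912022518030741544129681592411442118656) (.p (nat_lit 558) (.a (.p (nat_lit 527) (.a (.f (nat_lit 525) (nat_lit 497) (nat_lit 2541) (.d (nat_lit 557) (nat_lit 529) (nat_lit 1549) (nat_lit 556) (nat_lit 1548))) (.a (.f (nat_lit 525) (nat_lit 497) (nat_lit 2541) (.f (nat_lit 524) (nat_lit 495) (nat_lit 2540) (.d (nat_lit 492) (nat_lit 491) (nat_lit 3563) (nat_lit 493) (nat_lit 3564)))) (.f (nat_lit 529) (nat_lit 557) (nat_lit 1549) (.f (nat_lit 494) (nat_lit 493) (nat_lit 3565) (.d (nat_lit 530) (nat_lit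 495) (nat_lit 3566) (nat_lit 559) (nat_lit 1550))))))) (.a s24883 (.a s24901 (.a s19123 (.a s24952 (.a s24558 (.a (.p (nat_lit 527) (.a (.f (nat_lit 525) (nat_lit 497) (nat_lit 2541) (.d (nat_lit 557) (nat_lit 529) (nat_lit 1549) (nat_lit 556) (nat_lit 1548))) (.a (.f (nat_lit 525) (nat_lit 497) (nat_lit 2541) (.f (nat_lit 524) (nat_lit 495) (nat_lit 2540) (.d (nat_lit 492) (nat_lit 491) (nat_lit 3563) (nat_lit 493) (nat_lit 3564)))) (.f (nat_lit 529) (nat_lit 557) (nat_lit 1549) (.f (nat_lit 559) (nat_lit 530) (nat_lit 1550) (.f (nat_lit 591) (nat_lit 623) (nat_lit 6639) (.d (nat_lit 464) (nat_lit 432) (nat_lit 5551) (nat_lit 560) (nat_lit 5583)))))))) (.a s22658 (.a (.p (nat_lit 527) (.a (.f (nat_lit 525) (nat_lit 497) (nat_lit 2541) (.d (nat_lit 557) (nat_lit 529) (nat_lit 1549) (nat_lit 556) (nat_lit 1548))) (.a (.f (nat_lit 525) (nat_lit 497) (nat_lit 2541) (.f (nat_lit 524) (nat_lit 495) (nat_lit 2540) (.d (nat_lit 556) (nat_lit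 555) (nat_lit 1547) (nat_lit 557) (nat_lit 1548)))) (.a (.f (nat_lit 529) (nat_lit 557) (nat_lit 1549) (.f (nat_lit 559) (nat_lit 530) (nat_lit 1550) (.f (nat_lit 591) (nat_lit 623) (nat_lit 6639) (.d (nat_lit 464) (nat_lit 432) (nat_lit 5551) (nat_lit 560) (nat_lit 5583))))) (.f (nat_lit 525) (nat_lit 497) (nat_lit 2541) (.f (nat_lit 524) (nat_lit 495) (nat_lit 2540) (.d (nat_lit 559) (nat_lit 523) (nat_lit 523) (nat_lit 560) (nat_lit 524)))))))) s25004))))))))))
noncomputable def s25242 : Cert := .r (nat_lit 3773962425919908978067039048378881885645768491231275023412675293626429865204541471935760055792560469727505484597500264544337939673836815150592175795562377636060837445632) (.p (nat_lit 592) (.a (.f (nat_lit 497) (nat_lit 465) (nat_lit 6608) (.f (nat_lit 624) (nat_lit 529) (nat_lit 6640) (.d (nat_lit 623) (nat_lit 591) (nat_lit 5615) (nat_lit 655) (nat_lit 5647)))) (.a (.f (nat_lit 623) (nat_lit 591) (nat_lit 5615) (.f (nat_lit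 624) (nat_lit 655) (nat_lit 5647) (.d (nat_lit 625) (nat_lit 593) (nat_lit 4592) (nat_lit 657) (nat_lit 4624)))) (.a (.f (nat_lit 497) (nat_lit 465) (nat_lit 6608) (.f (nat_lit 624) (nat_lit 529) (nat_lit 6640) (.d (nat_lit 625) (nat_lit 593) (nat_lit 4592) (nat_lit 657) (nat_lit 4624)))) (.f (nat_lit 465) (nat_lit 497) (nat_lit 6608) (.f (nat_lit 464) (nat_lit 433) (nat_lit 6576) (.d (nat_lit 593) (nat_lit 561) (nat_lit 4560) (nat_lit 625) (nat_lit 4592))))))))
noncomputable def s25287 : Cert := .r (nat_lit 878694100701304956511192169158242687862212665431883220280182872118455237980908336946979793684870563807462937680039967586724118902039808942127312687095760289792) (.p (nat_lit 526) (.a s19025 (.a (.p (nat_lit 558) (.a s21807 (.a s24901 (.a (.p (nat_lit 560) (.a s21715 (.a s22885 (.a (.p (nat_lit 592) (.a (.f (nat_lit 623) (nat_lit 591) (nat_lit 5615) (.f (nat_lit 624) (nat_lit 655) (nat_lit 5647) (.d (nat_lit 625) (nat_lit 593)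 (nat_lit 4592) (nat_lit 657) (nat_lit 4624)))) (.a (.f (nat_lit 593) (nat_lit 625) (nat_lit 4592) (.f (nat_lit 464) (nat_lit 561) (nat_lit 4560) (.d (nat_lit 465) (nat_lit 433) (nat_lit 6576) (nat_lit 497) (nat_lit 6608)))) (.a (.f (nat_lit 623) (nat_lit 591) (nat_lit 5615) (.f (nat_lit 624) (nat_lit 655) (nat_lit 5647) (.f (nat_lit 657) (nat_lit 625) (nat_lit 4624) (.f (nat_lit 656) (nat_lit 689) (nat_lit 4656) (.f (nat_lit 497) (nat_lit 465) (nat_lit 6608) (.f (nat_lit 525) (nat_lit 527) (nat_lit 2541) (.f (nat_lit 622) (nat_lit 621) (nat_lit 621) (.f (nat_lit 590) (nat_lit 493) (nat_lit 7661) (.f (nat_lit 654) (nat_lit 557) (nat_lit 7693) (.f (nat_lit 685) (nat_lit 653) (nat_lit 5677) (.f (nat_lit 686) (nat_lit 717) (nat_lit 5709) (.d (nat_lit 687) (nat_lit 688) (nat_lit 2701) (nat_lit 719) (nat_lit 4686))))))))))))) (.f (nat_lit 591) (nat_lit 623) (nat_lit 5615) (.f (nat_lit 465) (nat_lit 497) (nat_lit 6608) (.f (nat_lit 464)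 (nat_lit 433) (nat_lit 6576) (.f (nat_lit 561) (nat_lit 593) (nat_lit 4560) (.f (nat_lit 590) (nat_lit 589) (nat_lit 2605) (.f (nat_lit 525) (nat_lit 527) (nat_lit 525) (.f (nat_lit 493) (nat_lit 622) (nat_lit 7661) (.d (nat_lit 461) (nat_lit 429) (nat_lit 4525) (nat_lit 494) (nat_lit 7629))))))))))))) (.a (.p (nat_lit 525) (.a (.f (nat_lit 559) (nat_lit 561) (nat_lit 3597) (.d (nat_lit 524) (nat_lit 523) (nat_lit 523) (nat_lit 557) (nat_lit 3596))) (.a (.d (nat_lit 527) (nat_lit 497) (nat_lit 2541) (nat_lit 561) (nat_lit 525)) (.f (nat_lit 527) (nat_lit 497) (nat_lit 2541) (.f (nat_lit 559) (nat_lit 524) (nat_lit 524) (.f (nat_lit 557) (nat_lit 556) (nat_lit 1548) (.f (nat_lit 589) (nat_lit 588) (nat_lit 1580) (.d (nat_lit 494) (nat_lit 462) (nat_lit 5581) (nat_lit 621) (nat_lit 6637))))))))) (.a (.p (nat_lit 464) (.a (.f (nat_lit 465) (nat_lit 433) (nat_lit 6576) (.f (nat_lit 592) (nat_lit 497) (nat_lit 6608) (.d (nat_lit 593)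 (nat_lit 561) (nat_lit 4560) (nat_lit 625) (nat_lit 4592)))) (.a (.f (nat_lit 559) (nat_lit 591) (nat_lit 5583) (.f (nat_lit 561) (nat_lit 593) (nat_lit 4560) (.f (nat_lit 562) (nat_lit 527) (nat_lit 3598) (.f (nat_lit 531) (nat_lit 530) (nat_lit 2575) (.f (nat_lit 563) (nat_lit 532) (nat_lit 2576) (.d (nat_lit 595) (nat_lit 594) (nat_lit 559) (nat_lit 596) (nat_lit 560))))))) (.a (.f (nat_lit 559) (nat_lit 591) (nat_lit 5583) (.f (nat_lit 465) (nat_lit 433) (nat_lit 6576) (.f (nat_lit 592) (nat_lit 497) (nat_lit 6608) (.d (nat_lit 593) (nat_lit 557) (nat_lit 557) (nat_lit 625) (nat_lit 4592))))) (.f (nat_lit 559) (nat_lit 591) (nat_lit 5583) (.f (nat_lit 527) (nat_lit 432) (nat_lit 5551) (.f (nat_lit 557) (nat_lit 556) (nat_lit 2572) (.f (nat_lit 589) (nat_lit 588) (nat_lit 1580) (.d (nat_lit 561) (nat_lit 562) (nat_lit 3598) (nat_lit 590) (nat_lit 1581)))))))))) (.a (.p (nat_lit 592) (.a (.f (nat_lit 591) (nat_lit 623) (nat_lit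 5615) (.f (nat_lit 593) (nat_lit 625) (nat_lit 4592) (.d (nat_lit 557) (nat_lit 559) (nat_lit 557) (nat_lit 590) (nat_lit 3629)))) (.a (.f (nat_lit 623) (nat_lit 591) (nat_lit 5615) (.f (nat_lit 624) (nat_lit 655) (nat_lit 5647) (.d (nat_lit 625) (nat_lit 593) (nat_lit 4592) (nat_lit 657) (nat_lit 4624)))) (.a (.f (nat_lit 625) (nat_lit 593) (nat_lit 4592) (.f (nat_lit 624) (nat_lit 657) (nat_lit 4624) (.f (nat_lit 655) (nat_lit 623) (nat_lit 5647) (.f (nat_lit 656) (nat_lit 687) (nat_lit 5679) (.f (nat_lit 527) (nat_lit 559) (nat_lit 7695) (.d (nat_lit 497) (nat_lit 465) (nat_lit 6608) (nat_lit 525) (nat_lit 2541))))))) (.a (.f (nat_lit 623) (nat_lit 591) (nat_lit 5615) (.f (nat_lit 624) (nat_lit 655) (nat_lit 5647) (.f (nat_lit 657) (nat_lit 625) (nat_lit 4624) (.f (nat_lit 656) (nat_lit 689) (nat_lit 4656) (.f (nat_lit 527) (nat_lit 559) (nat_lit 7695) (.d (nat_lit 497) (nat_lit 465) (nat_lit 6608) (nat_lit 525) (nat_lit 2541)))))))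 (.a (.f (nat_lit 593) (nat_lit 625) (nat_lit 4592) (.f (nat_lit 559) (nat_lit 557) (nat_lit 557) (.d (nat_lit 594) (nat_lit 591) (nat_lit 3630) (nat_lit 595) (nat_lit 3631)))) (.f (nat_lit 623) (nat_lit 591) (nat_lit 5615) (.f (nat_lit 624) (nat_lit 655) (nat_lit 5647) (.f (nat_lit 497) (nat_lit 465) (nat_lit 6608) (.f (nat_lit 527) (nat_lit 525) (nat_lit 2541) (.f (nat_lit 559) (nat_lit 656) (nat_lit 7695) (.d (nat_lit 557) (nat_lit 556) (nat_lit 2572) (nat_lit 593) (nat_lit 557))))))))))))) (.a s24937 s21780)))))))) (.a (.p (nat_lit 494) (.a (.p (nat_lit 462) (.a (.f (nat_lit 557) (nat_lit 589) (nat_lit 5581) (.f (nat_lit 525) (nat_lit 430) (nat_lit 5549) (.d (nat_lit 527) (nat_lit 497) (nat_lit 2541) (nat_lit 556) (nat_lit 1548)))) (.a (.f (nat_lit 461) (nat_lit 429) (nat_lit 7597) (.f (nat_lit 493) (nat_lit 590) (nat_lit 7629) (.d (nat_lit 495) (nat_lit 460) (nat_lit 3532) (nat_lit 497) (nat_lit 3533)))) (.f (nat_lit 591) (nat_lit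 559) (nat_lit 4558) (.f (nat_lit 590) (nat_lit 623) (nat_lit 4590) (.d (nat_lit 461) (nat_lit 429) (nat_lit 7597) (nat_lit 493) (nat_lit 7629))))))) (.a s21571 (.a (.p (nat_lit 462) (.a (.f (nat_lit 557) (nat_lit 589) (nat_lit 5581) (.f (nat_lit 525) (nat_lit 430) (nat_lit 5549) (.d (nat_lit 527) (nat_lit 497) (nat_lit 2541) (nat_lit 556) (nat_lit 1548)))) (.f (nat_lit 591) (nat_lit 559) (nat_lit 4558) (.f (nat_lit 590) (nat_lit 623) (nat_lit 4590) (.d (nat_lit 461) (nat_lit 429) (nat_lit 7597) (nat_lit 493) (nat_lit 7629)))))) (.a s19085 (.a s21700 (.a (.p (nat_lit 462) (.a (.f (nat_lit 557) (nat_lit 589) (nat_lit 5581) (.f (nat_lit 525) (nat_lit 430) (nat_lit 5549) (.d (nat_lit 527) (nat_lit 497) (nat_lit 2541) (nat_lit 556) (nat_lit 1548)))) (.a (.f (nat_lit 589) (nat_lit 557) (nat_lit 5581) (.f (nat_lit 590) (nat_lit 621) (nat_lit 5613) (.d (nat_lit 591) (nat_lit 559) (nat_lit 4558) (nat_lit 623) (nat_lit 4590)))) (.f (nat_lit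 559) (nat_lit 591) (nat_lit 4558) (.f (nat_lit 527) (nat_lit 430) (nat_lit 4526) (.f (nat_lit 525) (nat_lit 497) (nat_lit 2541) (.d (nat_lit 524) (nat_lit 495) (nat_lit 2540) (nat_lit 523) (nat_lit 523)))))))) (.p (nat_lit 462) (.a (.f (nat_lit 559) (nat_lit 591) (nat_lit 4558) (.f (nat_lit 527) (nat_lit 430) (nat_lit 4526) (.d (nat_lit 557) (nat_lit 556) (nat_lit 2572) (nat_lit 589) (nat_lit 5581)))) (.f (nat_lit 461) (nat_lit 429) (nat_lit 7597) (.f (nat_lit 495) (nat_lit 497) (nat_lit 3533) (.d (nat_lit 460) (nat_lit 459) (nat_lit 459) (nat_lit 493) (nat_lit 3532))))))))))))) (.a s24952 (.a (.p (nat_lit 494) (.a (.p (nat_lit 462) (.a (.f (nat_lit 461) (nat_lit 429) (nat_lit 7597) (.f (nat_lit 493) (nat_lit 590) (nat_lit 7629) (.d (nat_lit 495) (nat_lit 460) (nat_lit 3532) (nat_lit 497) (nat_lit 3533)))) (.a (.f (nat_lit 591) (nat_lit 559) (nat_lit 4558) (.f (nat_lit 590) (nat_lit 623) (nat_lit 4590) (.d (nat_lit 461) (nat_lit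 429) (nat_lit 7597) (nat_lit 493) (nat_lit 7629)))) (.f (nat_lit 559) (nat_lit 591) (nat_lit 4558) (.f (nat_lit 527) (nat_lit 430) (nat_lit 4526) (.d (nat_lit 557) (nat_lit 556) (nat_lit 2572) (nat_lit 589) (nat_lit 5581))))))) (.a s21571 (.a (.p (nat_lit 462) (.a (.f (nat_lit 591) (nat_lit 559) (nat_lit 4558) (.f (nat_lit 590) (nat_lit 623) (nat_lit 4590) (.d (nat_lit 461) (nat_lit 429) (nat_lit 7597) (nat_lit 493) (nat_lit 7629)))) (.a (.f (nat_lit 461) (nat_lit 429) (nat_lit 7597) (.f (nat_lit 590) (nat_lit 493) (nat_lit 7629) (.d (nat_lit 589) (nat_lit 557) (nat_lit 5581) (nat_lit 621) (nat_lit 5613)))) (.f (nat_lit 559) (nat_lit 591) (nat_lit 4558) (.f (nat_lit 527) (nat_lit 430) (nat_lit 4526) (.d (nat_lit 557) (nat_lit 556) (nat_lit 2572) (nat_lit 589) (nat_lit 5581))))))) (.a s21700 (.a (.p (nat_lit 462) (.a (.f (nat_lit 461) (nat_lit 429) (nat_lit 7597) (.f (nat_lit 495) (nat_lit 497) (nat_lit 3533) (.d (nat_lit 460) (nat_lit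 459) (nat_lit 459) (nat_lit 463) (nat_lit 460)))) (.f (nat_lit 559) (nat_lit 591) (nat_lit 4558) (.f (nat_lit 527) (nat_lit 430) (nat_lit 4526) (.d (nat_lit 557) (nat_lit 556) (nat_lit 2572) (nat_lit 589) (nat_lit 5581)))))) (.a s24959 (.a s24982 s24983)))))))) (.a (.p (nat_lit 560) (.a s21715 (.a s22885 (.a s21744 (.a (.p (nat_lit 525) (.a (.f (nat_lit 559) (nat_lit 561) (nat_lit 3597) (.d (nat_lit 524) (nat_lit 523) (nat_lit 523) (nat_lit 557) (nat_lit 3596))) (.a (.d (nat_lit 527) (nat_lit 497) (nat_lit 2541) (nat_lit 561) (nat_lit 525)) (.f (nat_lit 527) (nat_lit 497) (nat_lit 2541) (.d (nat_lit 524) (nat_lit 495) (nat_lit 2540) (nat_lit 559) (nat_lit 524)))))) (.a s21763 s21780)))))) (.a (.p (nat_lit 494) (.a s21700 (.a (.p (nat_lit 462) (.a (.f (nat_lit 591) (nat_lit 559) (nat_lit 4558) (.f (nat_lit 590) (nat_lit 623) (nat_lit 4590) (.d (nat_lit 461) (nat_lit 429) (nat_lit 7597) (nat_lit 493) (nat_lit 7629)))) (.a (.f (nat_lit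 429) (nat_lit 461) (nat_lit 7597) (.f (nat_lit 430) (nat_lit 397) (nat_lit 7565) (.d (nat_lit 557) (nat_lit 525) (nat_lit 5549) (nat_lit 589) (nat_lit 5581)))) (.f (nat_lit 589) (nat_lit 557) (nat_lit 5581) (.f (nat_lit 590) (nat_lit 621) (nat_lit 5613) (.d (nat_lit 591) (nat_lit 559) (nat_lit 4558) (nat_lit 623) (nat_lit 4590))))))) (.a (.p (nat_lit 462) (.a (.f (nat_lit 559) (nat_lit 591) (nat_lit 4558) (.f (nat_lit 527) (nat_lit 430) (nat_lit 4526) (.d (nat_lit 557) (nat_lit 556) (nat_lit 2572) (nat_lit 589) (nat_lit 5581)))) (.a (.f (nat_lit 557) (nat_lit 589) (nat_lit 5581) (.f (nat_lit 559) (nat_lit 591) (nat_lit 4558) (.f (nat_lit 525) (nat_lit 430) (nat_lit 5549) (.d (nat_lit 524) (nat_lit 523) (nat_lit 523) (nat_lit 560) (nat_lit 3596))))) (.a (.f (nat_lit 429) (nat_lit 461) (nat_lit 7597) (.f (nat_lit 430) (nat_lit 397) (nat_lit 7565) (.d (nat_lit 557) (nat_lit 525) (nat_lit 5549) (nat_lit 589) (nat_lit 5581)))) (.a (.f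 (nat_lit 559) (nat_lit 591) (nat_lit 4558) (.f (nat_lit 430) (nat_lit 527) (nat_lit 4526) (.d (nat_lit 429) (nat_lit 397) (nat_lit 7565) (nat_lit 461) (nat_lit 7597)))) (.f (nat_lit 589) (nat_lit 557) (nat_lit 5581) (.f (nat_lit 590) (nat_lit 621) (nat_lit 5613) (.d (nat_lit 591) (nat_lit 559) (nat_lit 4558) (nat_lit 623) (nat_lit 4590))))))))) (.a s23706 (.a (.p (nat_lit 462) (.a (.f (nat_lit 559) (nat_lit 591) (nat_lit 4558) (.f (nat_lit 527) (nat_lit 430) (nat_lit 4526) (.d (nat_lit 557) (nat_lit 556) (nat_lit 2572) (nat_lit 589) (nat_lit 5581)))) (.a (.f (nat_lit 557) (nat_lit 589) (nat_lit 5581) (.f (nat_lit 559) (nat_lit 591) (nat_lit 4558) (.f (nat_lit 525) (nat_lit 430) (nat_lit 5549) (.d (nat_lit 524) (nat_lit 523) (nat_lit 523) (nat_lit 560) (nat_lit 3596))))) (.a (.f (nat_lit 429) (nat_lit 461) (nat_lit 7597) (.f (nat_lit 430) (nat_lit 397) (nat_lit 7565) (.d (nat_lit 557) (nat_lit 525) (nat_lit 5549) (nat_lit 589) (nat_lit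 5581)))) (.a (.f (nat_lit 559) (nat_lit 591) (nat_lit 4558) (.f (nat_lit 430) (nat_lit 527) (nat_lit 4526) (.d (nat_lit 429) (nat_lit 397) (nat_lit 7565) (nat_lit 461) (nat_lit 7597)))) (.f (nat_lit 557) (nat_lit 589) (nat_lit 5581) (.f (nat_lit 559) (nat_lit 591) (nat_lit 4558) (.f (nat_lit 556) (nat_lit 527) (nat_lit 2572) (.f (nat_lit 523) (nat_lit 524) (nat_lit 3595) (.f (nat_lit 555) (nat_lit 522) (nat_lit 3594) (.d (nat_lit 587) (nat_lit 586) (nat_lit 1578) (nat_lit 588) (nat_lit 1579)))))))))))) (.a s22037 s24993))))))) (.a (.p (nat_lit 494) (.a s19085 (.a (.p (nat_lit 462) (.a (.f (nat_lit 461) (nat_lit 429) (nat_lit 7597) (.f (nat_lit 493) (nat_lit 590) (nat_lit 7629) (.d (nat_lit 495) (nat_lit 460) (nat_lit 3532) (nat_lit 497) (nat_lit 3533)))) (.a (.f (nat_lit 429) (nat_lit 461) (nat_lit 7597) (.f (nat_lit 430) (nat_lit 397) (nat_lit 7565) (.d (nat_lit 557) (nat_lit 525) (nat_lit 5549) (nat_lit 589) (nat_lit 5581)))) (.f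 (nat_lit 557) (nat_lit 589) (nat_lit 5581) (.f (nat_lit 525) (nat_lit 430) (nat_lit 5549) (.f (nat_lit 495) (nat_lit 497) (nat_lit 1517) (.d (nat_lit 524) (nat_lit 493) (nat_lit 1516) (nat_lit 523) (nat_lit 2539)))))))) (.a s25000 (.a s24959 (.a s23706 (.a (.p (nat_lit 462) (.a (.f (nat_lit 461) (nat_lit 429) (nat_lit 7597) (.f (nat_lit 495) (nat_lit 497) (nat_lit 3533) (.d (nat_lit 460) (nat_lit 459) (nat_lit 459) (nat_lit 463) (nat_lit 460)))) (.a (.f (nat_lit 557) (nat_lit 589) (nat_lit 5581) (.f (nat_lit 525) (nat_lit 430) (nat_lit 5549) (.d (nat_lit 527) (nat_lit 497) (nat_lit 2541) (nat_lit 556) (nat_lit 1548)))) (.f (nat_lit 429) (nat_lit 461) (nat_lit 7597) (.f (nat_lit 430) (nat_lit 397) (nat_lit 7565) (.d (nat_lit 557) (nat_lit 525) (nat_lit 5549) (nat_lit 589) (nat_lit 5581))))))) (.p (nat_lit 590) (.a (.f (nat_lit 495) (nat_lit 463) (nat_lit 6606) (.f (nat_lit 525) (nat_lit 497) (nat_lit 1517) (.d (nat_lit 524) (nat_lit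 523) (nat_lit 2539) (nat_lit 527) (nat_lit 2540)))) (.a (.f (nat_lit 621) (nat_lit 589) (nat_lit 5613) (.f (nat_lit 622) (nat_lit 653) (nat_lit 5645) (.f (nat_lit 655) (nat_lit 623) (nat_lit 4622) (.f (nat_lit 654) (nat_lit 687) (nat_lit 4654) (.d (nat_lit 525) (nat_lit 493) (nat_lit 7661) (nat_lit 557) (nat_lit 7693)))))) (.f (nat_lit 495) (nat_lit 463) (nat_lit 6606) (.f (nat_lit 527) (nat_lit 622) (nat_lit 6638) (.f (nat_lit 493) (nat_lit 492) (nat_lit 492) (.f (nat_lit 464) (nat_lit 465) (nat_lit 2509) (.d (nat_lit 432) (nat_lit 400) (nat_lit 5519) (nat_lit 559) (nat_lit 5551)))))))))))))))) (.a s25004 (.a (.p (nat_lit 494) (.a s19085 (.a (.p (nat_lit 462) (.a (.f (nat_lit 461) (nat_lit 429) (nat_lit 7597) (.f (nat_lit 493) (nat_lit 590) (nat_lit 7629) (.d (nat_lit 495) (nat_lit 460) (nat_lit 3532) (nat_lit 497) (nat_lit 3533)))) (.a (.f (nat_lit 429) (nat_lit 461) (nat_lit 7597) (.f (nat_lit 430) (nat_lit 397) (nat_lit 7565)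 (.d (nat_lit 557) (nat_lit 525) (nat_lit 5549) (nat_lit 589) (nat_lit 5581)))) (.f (nat_lit 557) (nat_lit 589) (nat_lit 5581) (.f (nat_lit 525) (nat_lit 430) (nat_lit 5549) (.f (nat_lit 495) (nat_lit 497) (nat_lit 1517) (.d (nat_lit 524) (nat_lit 493) (nat_lit 1516) (nat_lit 523) (nat_lit 2539)))))))) (.a s25000 (.a (.p (nat_lit 462) (.a (.f (nat_lit 559) (nat_lit 591) (nat_lit 4558) (.f (nat_lit 527) (nat_lit 430) (nat_lit 4526) (.d (nat_lit 557) (nat_lit 556) (nat_lit 2572) (nat_lit 589) (nat_lit 5581)))) (.f (nat_lit 461) (nat_lit 429) (nat_lit 7597) (.f (nat_lit 495) (nat_lit 497) (nat_lit 3533) (.d (nat_lit 460) (nat_lit 459) (nat_lit 459) (nat_lit 493) (nat_lit 3532)))))) (.a s23706 (.a (.p (nat_lit 462) (.a (.f (nat_lit 461) (nat_lit 429) (nat_lit 7597) (.f (nat_lit 495) (nat_lit 497) (nat_lit 3533) (.d (nat_lit 460) (nat_lit 459) (nat_lit 459) (nat_lit 463) (nat_lit 460)))) (.f (nat_lit 557) (nat_lit 589) (nat_lit 5581) (.f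 (nat_lit 559) (nat_lit 591) (nat_lit 4558) (.f (nat_lit 525) (nat_lit 430) (nat_lit 5549) (.d (nat_lit 524) (nat_lit 523) (nat_lit 523) (nat_lit 560) (nat_lit 3596))))))) (.p (nat_lit 462) (.a (.f (nat_lit 557) (nat_lit 589) (nat_lit 5581) (.f (nat_lit 525) (nat_lit 430) (nat_lit 5549) (.d (nat_lit 527) (nat_lit 497) (nat_lit 2541) (nat_lit 556) (nat_lit 1548)))) (.a (.f (nat_lit 557) (nat_lit 589) (nat_lit 5581) (.f (nat_lit 559) (nat_lit 591) (nat_lit 4558) (.f (nat_lit 525) (nat_lit 430) (nat_lit 5549) (.d (nat_lit 524) (nat_lit 523) (nat_lit 523) (nat_lit 560) (nat_lit 3596))))) (.a (.f (nat_lit 559) (nat_lit 591) (nat_lit 4558) (.f (nat_lit 527) (nat_lit 430) (nat_lit 4526) (.d (nat_lit 557) (nat_lit 556) (nat_lit 2572) (nat_lit 589) (nat_lit 5581)))) (.a (.f (nat_lit 559) (nat_lit 591) (nat_lit 4558) (.f (nat_lit 527) (nat_lit 430) (nat_lit 4526) (.f (nat_lit 525) (nat_lit 497) (nat_lit 2541) (.d (nat_lit 524) (nat_lit 495)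 (nat_lit 2540) (nat_lit 523) (nat_lit 523))))) (.f (nat_lit 557) (nat_lit 589) (nat_lit 5581) (.f (nat_lit 559) (nat_lit 591) (nat_lit 4558) (.f (nat_lit 556) (nat_lit 527) (nat_lit 2572) (.f (nat_lit 523) (nat_lit 524) (nat_lit 3595) (.f (nat_lit 555) (nat_lit 522) (nat_lit 3594) (.d (nat_lit 587) (nat_lit 586) (nat_lit 1578) (nat_lit 588) (nat_lit 1579))))))))))))))))))) (.a (.p (nat_lit 494) (.a s19085 (.a s24900 (.a (.p (nat_lit 462) (.a (.f (nat_lit 591) (nat_lit 559) (nat_lit 4558) (.f (nat_lit 590) (nat_lit 623) (nat_lit 4590) (.d (nat_lit 461) (nat_lit 429) (nat_lit 7597) (nat_lit 493) (nat_lit 7629)))) (.a (.f (nat_lit 429) (nat_lit 461) (nat_lit 7597) (.f (nat_lit 430) (nat_lit 397) (nat_lit 7565) (.f (nat_lit 525) (nat_lit 557) (nat_lit 5549) (.f (nat_lit 493) (nat_lit 398) (nat_lit 5517) (.d (nat_lit 527) (nat_lit 492) (nat_lit 3564) (nat_lit 497) (nat_lit 2541)))))) (.a (.f (nat_lit 559) (nat_lit 591) (nat_lit 4558)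 (.f (nat_lit 430) (nat_lit 527) (nat_lit 4526) (.d (nat_lit 429) (nat_lit 397) (nat_lit 7565) (nat_lit 461) (nat_lit 7597)))) (.f (nat_lit 559) (nat_lit 591) (nat_lit 4558) (.f (nat_lit 527) (nat_lit 430) (nat_lit 4526) (.f (nat_lit 525) (nat_lit 497) (nat_lit 2541) (.d (nat_lit 524) (nat_lit 523) (nat_lit 523) (nat_lit 560) (nat_lit 524))))))))) (.a s24983 (.a s24993 (.a (.p (nat_lit 462) (.a (.f (nat_lit 461) (nat_lit 429) (nat_lit 7597) (.f (nat_lit 495) (nat_lit 497) (nat_lit 3533) (.d (nat_lit 460) (nat_lit 459) (nat_lit 459) (nat_lit 463) (nat_lit 460)))) (.a (.f (nat_lit 559) (nat_lit 591) (nat_lit 4558) (.f (nat_lit 430) (nat_lit 527) (nat_lit 4526) (.d (nat_lit 429) (nat_lit 397) (nat_lit 7565) (nat_lit 461) (nat_lit 7597)))) (.f (nat_lit 559) (nat_lit 591) (nat_lit 4558) (.f (nat_lit 527) (nat_lit 430) (nat_lit 4526) (.f (nat_lit 525) (nat_lit 497) (nat_lit 2541) (.d (nat_lit 524) (nat_lit 495) (nat_lit 2540) (nat_lit 523)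 (nat_lit 523)))))))) (.p (nat_lit 590) (.a (.f (nat_lit 495) (nat_lit 463) (nat_lit 6606) (.f (nat_lit 525) (nat_lit 497) (nat_lit 1517) (.d (nat_lit 524) (nat_lit 523) (nat_lit 2539) (nat_lit 527) (nat_lit 2540)))) (.a (.f (nat_lit 623) (nat_lit 591) (nat_lit 4590) (.f (nat_lit 622) (nat_lit 655) (nat_lit 4622) (.f (nat_lit 525) (nat_lit 493) (nat_lit 7661) (.f (nat_lit 653) (nat_lit 621) (nat_lit 5645) (.d (nat_lit 654) (nat_lit 557) (nat_lit 7693) (nat_lit 685) (nat_lit 5677)))))) (.f (nat_lit 495) (nat_lit 463) (nat_lit 6606) (.f (nat_lit 527) (nat_lit 622) (nat_lit 6638) (.f (nat_lit 493) (nat_lit 492) (nat_lit 492) (.f (nat_lit 464) (nat_lit 465) (nat_lit 2509) (.d (nat_lit 432) (nat_lit 400) (nat_lit 5519) (nat_lit 559) (nat_lit 5551)))))))))))))))) (.p (nat_lit 494) (.a (.p (nat_lit 462) (.a (.f (nat_lit 557) (nat_lit 589) (nat_lit 5581) (.f (nat_lit 525) (nat_lit 430) (nat_lit 5549) (.d (nat_lit 527) (nat_lit 497) (nat_lit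 2541) (nat_lit 556) (nat_lit 1548)))) (.a (.f (nat_lit 461) (nat_lit 429) (nat_lit 7597) (.f (nat_lit 493) (nat_lit 590) (nat_lit 7629) (.d (nat_lit 495) (nat_lit 460) (nat_lit 3532) (nat_lit 497) (nat_lit 3533)))) (.f (nat_lit 591) (nat_lit 559) (nat_lit 4558) (.f (nat_lit 590) (nat_lit 623) (nat_lit 4590) (.d (nat_lit 461) (nat_lit 429) (nat_lit 7597) (nat_lit 493) (nat_lit 7629))))))) (.a s21571 (.a (.p (nat_lit 462) (.a (.f (nat_lit 557) (nat_lit 589) (nat_lit 5581) (.f (nat_lit 525) (nat_lit 430) (nat_lit 5549) (.d (nat_lit 527) (nat_lit 497) (nat_lit 2541) (nat_lit 556) (nat_lit 1548)))) (.f (nat_lit 591) (nat_lit 559) (nat_lit 4558) (.f (nat_lit 590) (nat_lit 623) (nat_lit 4590) (.d (nat_lit 461) (nat_lit 429) (nat_lit 7597) (nat_lit 493) (nat_lit 7629)))))) (.a s24053 (.a (.p (nat_lit 462) (.a (.f (nat_lit 591) (nat_lit 559) (nat_lit 4558) (.f (nat_lit 590) (nat_lit 623) (nat_lit 4590) (.d (nat_lit 461) (nat_lit 429) (nat_lit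 7597) (nat_lit 493) (nat_lit 7629)))) (.a (.f (nat_lit 429) (nat_lit 461) (nat_lit 7597) (.f (nat_lit 430) (nat_lit 397) (nat_lit 7565) (.d (nat_lit 557) (nat_lit 525) (nat_lit 5549) (nat_lit 589) (nat_lit 5581)))) (.f (nat_lit 589) (nat_lit 557) (nat_lit 5581) (.f (nat_lit 590) (nat_lit 621) (nat_lit 5613) (.d (nat_lit 591) (nat_lit 559) (nat_lit 4558) (nat_lit 623) (nat_lit 4590))))))) (.a (.p (nat_lit 462) (.a (.f (nat_lit 461) (nat_lit 429) (nat_lit 7597) (.f (nat_lit 495) (nat_lit 497) (nat_lit 3533) (.d (nat_lit 460) (nat_lit 459) (nat_lit 459) (nat_lit 463) (nat_lit 460)))) (.a (.f (nat_lit 557) (nat_lit 589) (nat_lit 5581) (.f (nat_lit 525) (nat_lit 430) (nat_lit 5549) (.d (nat_lit 527) (nat_lit 497) (nat_lit 2541) (nat_lit 556) (nat_lit 1548)))) (.f (nat_lit 429) (nat_lit 461) (nat_lit 7597) (.f (nat_lit 430) (nat_lit 397) (nat_lit 7565) (.d (nat_lit 557) (nat_lit 525) (nat_lit 5549) (nat_lit 589) (nat_lit 5581))))))) (.a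 s24982 s24983))))))))))))))))))))) (.a (.p (nat_lit 560) (.a s18995 (.a s25016 (.a (.p (nat_lit 464) (.a (.f (nat_lit 561) (nat_lit 593) (nat_lit 4560) (.f (nat_lit 529) (nat_lit 432) (nat_lit 4528) (.f (nat_lit 559) (nat_lit 591) (nat_lit 5583) (.d (nat_lit 530) (nat_lit 531) (nat_lit 1551) (nat_lit 558) (nat_lit 2574))))) (.a (.f (nat_lit 465) (nat_lit 433) (nat_lit 6576) (.f (nat_lit 592) (nat_lit 497) (nat_lit 6608) (.d (nat_lit 591) (nat_lit 559) (nat_lit 5583) (nat_lit 623) (nat_lit 5615)))) (.f (nat_lit 465) (nat_lit 433) (nat_lit 6576) (.f (nat_lit 592) (nat_lit 497) (nat_lit 6608) (.d (nat_lit 593) (nat_lit 561) (nat_lit 4560) (nat_lit 625) (nat_lit 4592))))))) (.a (.p (nat_lit 559) (.a (.f (nat_lit 464) (nat_lit 591) (nat_lit 5583) (.f (nat_lit 561) (nat_lit 593) (nat_lit 4560) (.f (nat_lit 529) (nat_lit 432) (nat_lit 4528) (.d (nat_lit 530) (nat_lit 531) (nat_lit 1551) (nat_lit 558) (nat_lit 2574))))) (.a (.f (nat_lit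 464) (nat_lit 591) (nat_lit 5583) (.f (nat_lit 561) (nat_lit 593) (nat_lit 4560) (.f (nat_lit 558) (nat_lit 525) (nat_lit 3597) (.f (nat_lit 589) (nat_lit 590) (nat_lit 1581) (.f (nat_lit 557) (nat_lit 588) (nat_lit 1580) (.f (nat_lit 465) (nat_lit 433) (nat_lit 6576) (.f (nat_lit 494) (nat_lit 462) (nat_lit 5581) (.f (nat_lit 495) (nat_lit 493) (nat_lit 2509) (.d (nat_lit 466) (nat_lit 467) (nat_lit 1487) (nat_lit 497) (nat_lit 2510)))))))))) (.a s24251 (.a s24263 (.a (.f (nat_lit 464) (nat_lit 591) (nat_lit 5583) (.f (nat_lit 561) (nat_lit 593) (nat_lit 4560) (.f (nat_lit 432) (nat_lit 529) (nat_lit 4528) (.d (nat_lit 433) (nat_lit 401) (nat_lit 6544) (nat_lit 465) (nat_lit 6576))))) (.p (nat_lit 558) (.a (.f (nat_lit 561) (nat_lit 525) (nat_lit 3597) (.d (nat_lit 529) (nat_lit 530) (nat_lit 2574) (nat_lit 557) (nat_lit 2573))) (.a (.f (nat_lit 525) (nat_lit 561) (nat_lit 3597) (.d (nat_lit 524) (nat_lit 523) (nat_lit 523) (nat_lit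 557) (nat_lit 3596))) (.a (.f (nat_lit 529) (nat_lit 557) (nat_lit 2573) (.d (nat_lit 530) (nat_lit 531) (nat_lit 1551) (nat_lit 561) (nat_lit 2574))) (.a (.f (nat_lit 557) (nat_lit 529) (nat_lit 2573) (.f (nat_lit 525) (nat_lit 524) (nat_lit 3596) (.f (nat_lit 589) (nat_lit 588) (nat_lit 1580) (.d (nat_lit 494) (nat_lit 462) (nat_lit 5581) (nat_lit 621) (nat_lit 6637))))) (.f (nat_lit 561) (nat_lit 525) (nat_lit 3597) (.f (nat_lit 593) (nat_lit 594) (nat_lit 558) (.d (nat_lit 529) (nat_lit 530) (nat_lit 2574) (nat_lit 625) (nat_lit 7664))))))))))))))) (.a s25108 (.a (.p (nat_lit 592) (.a (.f (nat_lit 497) (nat_lit 465) (nat_lit 6608) (.f (nat_lit 624) (nat_lit 529) (nat_lit 6640) (.d (nat_lit 625) (nat_lit 593) (nat_lit 4592) (nat_lit 657) (nat_lit 4624)))) (.a (.f (nat_lit 593) (nat_lit 625) (nat_lit 4592) (.f (nat_lit 495) (nat_lit 463) (nat_lit 7631) (.f (nat_lit 497) (nat_lit 465) (nat_lit 6608) (.f (nat_lit 494) (nat_lit 525)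 (nat_lit 1517) (.f (nat_lit 461) (nat_lit 462) (nat_lit 3533) (.f (nat_lit 493) (nat_lit 460) (nat_lit 3532) (.f (nat_lit 558) (nat_lit 590) (nat_lit 7629) (.f (nat_lit 559) (nat_lit 557) (nat_lit 557) (.d (nat_lit 594) (nat_lit 561) (nat_lit 558) (nat_lit 595) (nat_lit 3631)))))))))) (.a (.p (nat_lit 624) (.a (.d (nat_lit 625) (nat_lit 593) (nat_lit 4592) (nat_lit 657) (nat_lit 4624)) (.a (.f (nat_lit 655) (nat_lit 623) (nat_lit 5647) (.f (nat_lit 656) (nat_lit 687) (nat_lit 5679) (.d (nat_lit 657) (nat_lit 625) (nat_lit 4624) (nat_lit 689) (nat_lit 4656)))) (.f (nat_lit 655) (nat_lit 623) (nat_lit 5647) (.f (nat_lit 656) (nat_lit 687) (nat_lit 5679) (.f (nat_lit 561) (nat_lit 529) (nat_lit 6672) (.d (nat_lit 593) (nat_lit 464) (nat_lit 4560) (nat_lit 688) (nat_lit 6704)))))))) (.f (nat_lit 495) (nat_lit 463) (nat_lit 7631) (.f (nat_lit 497) (nat_lit 465) (nat_lit 6608) (.f (nat_lit 494) (nat_lit 525) (nat_lit 1517) (.d (nat_lit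 529) (nat_lit 493) (nat_lit 493) (nat_lit 530) (nat_lit 494))))))))) (.a s24274 (.a s25139 (.p (nat_lit 592) (.a (.f (nat_lit 623) (nat_lit 591) (nat_lit 5615) (.f (nat_lit 624) (nat_lit 655) (nat_lit 5647) (.d (nat_lit 625) (nat_lit 593) (nat_lit 4592) (nat_lit 657) (nat_lit 4624)))) (.a (.f (nat_lit 625) (nat_lit 593) (nat_lit 4592) (.f (nat_lit 624) (nat_lit 657) (nat_lit 4624) (.f (nat_lit 529) (nat_lit 497) (nat_lit 6640) (.f (nat_lit 655) (nat_lit 623) (nat_lit 5647) (.d (nat_lit 656) (nat_lit 561) (nat_lit 6672) (nat_lit 687) (nat_lit 5679)))))) (.a (.f (nat_lit 593) (nat_lit 625) (nat_lit 4592) (.f (nat_lit 591) (nat_lit 623) (nat_lit 5615) (.d (nat_lit 464) (nat_lit 559) (nat_lit 5583) (nat_lit 561) (nat_lit 4560)))) (.a (.f (nat_lit 623) (nat_lit 591) (nat_lit 5615) (.f (nat_lit 624) (nat_lit 655) (nat_lit 5647) (.f (nat_lit 529) (nat_lit 497) (nat_lit 6640) (.f (nat_lit 656) (nat_lit 561) (nat_lit 6672) (.d (nat_lit 657)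 (nat_lit 625) (nat_lit 4624) (nat_lit 689) (nat_lit 4656)))))) (.a (.f (nat_lit 625) (nat_lit 593) (nat_lit 4592) (.f (nat_lit 624) (nat_lit 657) (nat_lit 4624) (.f (nat_lit 529) (nat_lit 497) (nat_lit 6640) (.f (nat_lit 561) (nat_lit 656) (nat_lit 6672) (.f (nat_lit 495) (nat_lit 463) (nat_lit 7631) (.f (nat_lit 530) (nat_lit 531) (nat_lit 3567) (.f (nat_lit 559) (nat_lit 558) (nat_lit 2574) (.d (nat_lit 464) (nat_lit 432) (nat_lit 4528) (nat_lit 591) (nat_lit 5583))))))))) (.f (nat_lit 591) (nat_lit 623) (nat_lit 5615) (.f (nat_lit 464) (nat_lit 559) (nat_lit 5583) (.f (nat_lit 561) (nat_lit 593) (nat_lit 4560) (.f (nat_lit 529) (nat_lit 432) (nat_lit 4528) (.d (nat_lit 624) (nat_lit 497) (nat_lit 6640) (nat_lit 656) (nat_lit 6672))))))))))))))))))))) (.a s19032 (.a (.p (nat_lit 558) (.a (.p (nat_lit 527) (.a (.f (nat_lit 525) (nat_lit 497) (nat_lit 2541) (.d (nat_lit 557) (nat_lit 529) (nat_lit 1549) (nat_lit 556) (nat_lit 1548)))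 (.a (.f (nat_lit 525) (nat_lit 497) (nat_lit 2541) (.f (nat_lit 524) (nat_lit 495) (nat_lit 2540) (.d (nat_lit 492) (nat_lit 491) (nat_lit 3563) (nat_lit 493) (nat_lit 3564)))) (.f (nat_lit 529) (nat_lit 557) (nat_lit 1549) (.f (nat_lit 494) (nat_lit 493) (nat_lit 3565) (.d (nat_lit 530) (nat_lit 495) (nat_lit 3566) (nat_lit 559) (nat_lit 1550))))))) (.a s21807 (.a s24115 (.a s19123 (.a s22408 (.a s22582 (.a s22658 (.a s24881 (.p (nat_lit 527) (.a (.f (nat_lit 525) (nat_lit 497) (nat_lit 2541) (.f (nat_lit 524) (nat_lit 495) (nat_lit 2540) (.d (nat_lit 492) (nat_lit 491) (nat_lit 3563) (nat_lit 493) (nat_lit 3564)))) (.a (.f (nat_lit 529) (nat_lit 557) (nat_lit 1549) (.f (nat_lit 559) (nat_lit 530) (nat_lit 1550) (.f (nat_lit 494) (nat_lit 493) (nat_lit 3565) (.d (nat_lit 462) (nat_lit 430) (nat_lit 4526) (nat_lit 591) (nat_lit 4558))))) (.f (nat_lit 529) (nat_lit 557) (nat_lit 1549) (.f (nat_lit 530) (nat_lit 559) (nat_lit 1550)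 (.d (nat_lit 562) (nat_lit 561) (nat_lit 526) (nat_lit 563) (nat_lit 527)))))))))))))))) (.a (.p (nat_lit 527) (.a (.f (nat_lit 525) (nat_lit 497) (nat_lit 2541) (.f (nat_lit 557) (nat_lit 556) (nat_lit 1548) (.f (nat_lit 493) (nat_lit 492) (nat_lit 3564) (.d (nat_lit 529) (nat_lit 494) (nat_lit 3565) (nat_lit 558) (nat_lit 1549))))) (.a (.f (nat_lit 525) (nat_lit 497) (nat_lit 2541) (.f (nat_lit 524) (nat_lit 495) (nat_lit 2540) (.d (nat_lit 492) (nat_lit 491) (nat_lit 3563) (nat_lit 493) (nat_lit 3564)))) (.a (.p (nat_lit 529) (.a (.f (nat_lit 561) (nat_lit 562) (nat_lit 526) (.f (nat_lit 464) (nat_lit 432) (nat_lit 4528) (.d (nat_lit 593) (nat_lit 497) (nat_lit 7632) (nat_lit 560) (nat_lit 4560)))) (.a (.f (nat_lit 561) (nat_lit 562) (nat_lit 526) (.f (nat_lit 464) (nat_lit 432) (nat_lit 4528) (.d (nat_lit 593) (nat_lit 497) (nat_lit 7632) (nat_lit 625) (nat_lit 7664)))) (.a (.f (nat_lit 494) (nat_lit 493) (nat_lit 3565) (.f (nat_lit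 530) (nat_lit 495) (nat_lit 3566) (.d (nat_lit 562) (nat_lit 561) (nat_lit 526) (nat_lit 563) (nat_lit 527)))) (.a (.f (nat_lit 494) (nat_lit 493) (nat_lit 3565) (.f (nat_lit 530) (nat_lit 495) (nat_lit 3566) (.f (nat_lit 563) (nat_lit 562) (nat_lit 527) (.f (nat_lit 531) (nat_lit 564) (nat_lit 528) (.f (nat_lit 500) (nat_lit 499) (nat_lit 2544) (.d (nat_lit 532) (nat_lit 497) (nat_lit 3568) (nat_lit 501) (nat_lit 2545))))))) (.f (nat_lit 494) (nat_lit 493) (nat_lit 3565) (.f (nat_lit 495) (nat_lit 530) (nat_lit 3566) (.f (nat_lit 558) (nat_lit 557) (nat_lit 1549) (.d (nat_lit 590) (nat_lit 463) (nat_lit 6606) (nat_lit 622) (nat_lit 6638)))))))))) (.a s24147 (.f (nat_lit 525) (nat_lit 497) (nat_lit 2541) (.f (nat_lit 524) (nat_lit 495) (nat_lit 2540) (.d (nat_lit 556) (nat_lit 555) (nat_lit 1547) (nat_lit 557) (nat_lit 1548))))))))) (.a (.p (nat_lit 464) (.a (.p (nat_lit 560) (.a (.f (nat_lit 561) (nat_lit 593) (nat_lit 4560) (.f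 (nat_lit 529) (nat_lit 432) (nat_lit 4528) (.f (nat_lit 559) (nat_lit 591) (nat_lit 5583) (.d (nat_lit 530) (nat_lit 531) (nat_lit 1551) (nat_lit 558) (nat_lit 2574))))) (.a (.f (nat_lit 465) (nat_lit 433) (nat_lit 6576) (.f (nat_lit 592) (nat_lit 497) (nat_lit 6608) (.d (nat_lit 591) (nat_lit 559) (nat_lit 5583) (nat_lit 623) (nat_lit 5615)))) (.f (nat_lit 465) (nat_lit 433) (nat_lit 6576) (.f (nat_lit 592) (nat_lit 497) (nat_lit 6608) (.d (nat_lit 593) (nat_lit 561) (nat_lit 4560) (nat_lit 625) (nat_lit 4592))))))) (.a (.p (nat_lit 560) (.a (.f (nat_lit 465) (nat_lit 433) (nat_lit 6576) (.f (nat_lit 592) (nat_lit 497) (nat_lit 6608) (.d (nat_lit 591) (nat_lit 559) (nat_lit 5583) (nat_lit 623) (nat_lit 5615)))) (.a (.f (nat_lit 465) (nat_lit 433) (nat_lit 6576) (.f (nat_lit 592) (nat_lit 497) (nat_lit 6608) (.d (nat_lit 593) (nat_lit 561) (nat_lit 4560) (nat_lit 625) (nat_lit 4592)))) (.f (nat_lit 559) (nat_lit 591) (nat_lit 5583)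 (.f (nat_lit 561) (nat_lit 593) (nat_lit 4560) (.f (nat_lit 562) (nat_lit 527) (nat_lit 3598) (.f (nat_lit 531) (nat_lit 530) (nat_lit 2575) (.f (nat_lit 563) (nat_lit 532) (nat_lit 2576) (.d (nat_lit 595) (nat_lit 594) (nat_lit 559) (nat_lit 596) (nat_lit 560)))))))))) (.a (.p (nat_lit 432) (.a (.f (nat_lit 529) (nat_lit 561) (nat_lit 4528) (.f (nat_lit 527) (nat_lit 559) (nat_lit 5551) (.d (nat_lit 400) (nat_lit 495) (nat_lit 5519) (nat_lit 497) (nat_lit 4496)))) (.a (.f (nat_lit 401) (nat_lit 433) (nat_lit 6544) (.f (nat_lit 400) (nat_lit 369) (nat_lit 6512) (.d (nat_lit 527) (nat_lit 495) (nat_lit 5519) (nat_lit 559) (nat_lit 5551)))) (.a (.f (nat_lit 529) (nat_lit 561) (nat_lit 4528) (.f (nat_lit 400) (nat_lit 497) (nat_lit 4496) (.d (nat_lit 401) (nat_lit 369) (nat_lit 6512) (nat_lit 433) (nat_lit 6544)))) (.f (nat_lit 529) (nat_lit 561) (nat_lit 4528) (.f (nat_lit 527) (nat_lit 559) (nat_lit 5551) (.f (nat_lit 494) (nat_lit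 493) (nat_lit 3565) (.f (nat_lit 495) (nat_lit 530) (nat_lit 3566) (.f (nat_lit 558) (nat_lit 557) (nat_lit 1549) (.d (nat_lit 590) (nat_lit 463) (nat_lit 6606) (nat_lit 622) (nat_lit 6638))))))))))) (.a (.p (nat_lit 560) (.a (.f (nat_lit 465) (nat_lit 433) (nat_lit 6576) (.f (nat_lit 592) (nat_lit 497) (nat_lit 6608) (.d (nat_lit 593) (nat_lit 561) (nat_lit 4560) (nat_lit 625) (nat_lit 4592)))) (.a (.f (nat_lit 433) (nat_lit 465) (nat_lit 6576) (.f (nat_lit 432) (nat_lit 401) (nat_lit 6544) (.d (nat_lit 561) (nat_lit 529) (nat_lit 4528) (nat_lit 593) (nat_lit 4560)))) (.a (.f (nat_lit 465) (nat_lit 433) (nat_lit 6576) (.f (nat_lit 592) (nat_lit 497) (nat_lit 6608) (.f (nat_lit 623) (nat_lit 591) (nat_lit 5615) (.f (nat_lit 624) (nat_lit 655) (nat_lit 5647) (.d (nat_lit 625) (nat_lit 593) (nat_lit 4592) (nat_lit 657) (nat_lit 4624)))))) (.a (.f (nat_lit 465) (nat_lit 433) (nat_lit 6576) (.f (nat_lit 592) (nat_lit 497) (nat_lit 6608)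 (.f (nat_lit 495) (nat_lit 463) (nat_lit 7631) (.f (nat_lit 527) (nat_lit 624) (nat_lit 7663) (.f (nat_lit 494) (nat_lit 493) (nat_lit 2509) (.f (nat_lit 529) (nat_lit 530) (nat_lit 3566) (.d (nat_lit 432) (nat_lit 400) (nat_lit 5519) (nat_lit 561) (nat_lit 4528)))))))) (.f (nat_lit 561) (nat_lit 593) (nat_lit 4560) (.f (nat_lit 529) (nat_lit 432) (nat_lit 4528) (.f (nat_lit 527) (nat_lit 562) (nat_lit 526) (.f (nat_lit 494) (nat_lit 493) (nat_lit 3565) (.f (nat_lit 495) (nat_lit 530) (nat_lit 3566) (.d (nat_lit 592) (nat_lit 463) (nat_lit 7631) (nat_lit 624) (nat_lit 7663)))))))))))) (.a (.p (nat_lit 560) (.a (.f (nat_lit 465) (nat_lit 433) (nat_lit 6576) (.f (nat_lit 592) (nat_lit 497) (nat_lit 6608) (.d (nat_lit 591) (nat_lit 559) (nat_lit 5583) (nat_lit 623) (nat_lit 5615)))) (.a (.f (nat_lit 465) (nat_lit 433) (nat_lit 6576) (.f (nat_lit 592) (nat_lit 497) (nat_lit 6608) (.f (nat_lit 623) (nat_lit 591) (nat_lit 5615) (.f (nat_lit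 624) (nat_lit 655) (nat_lit 5647) (.d (nat_lit 625) (nat_lit 593) (nat_lit 4592) (nat_lit 657) (nat_lit 4624)))))) (.a (.f (nat_lit 559) (nat_lit 591) (nat_lit 5583) (.f (nat_lit 432) (nat_lit 527) (nat_lit 5551) (.d (nat_lit 433) (nat_lit 401) (nat_lit 6544) (nat_lit 465) (nat_lit 6576)))) (.a (.f (nat_lit 465) (nat_lit 433) (nat_lit 6576) (.f (nat_lit 592) (nat_lit 497) (nat_lit 6608) (.f (nat_lit 495) (nat_lit 463) (nat_lit 7631) (.f (nat_lit 527) (nat_lit 624) (nat_lit 7663) (.d (nat_lit 432) (nat_lit 400) (nat_lit 5519) (nat_lit 559) (nat_lit 5551)))))) (.a (.f (nat_lit 591) (nat_lit 559) (nat_lit 5583) (.f (nat_lit 592) (nat_lit 623) (nat_lit 5615) (.f (nat_lit 495) (nat_lit 463) (nat_lit 7631) (.f (nat_lit 624) (nat_lit 527) (nat_lit 7663) (.d (nat_lit 497) (nat_lit 465) (nat_lit 6608) (nat_lit 529) (nat_lit 6640)))))) (.f (nat_lit 591) (nat_lit 559) (nat_lit 5583) (.f (nat_lit 592) (nat_lit 623) (nat_lit 5615) (.f (nat_lit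 625) (nat_lit 593) (nat_lit 4592) (.f (nat_lit 624) (nat_lit 657) (nat_lit 4624) (.d (nat_lit 495) (nat_lit 463) (nat_lit 7631) (nat_lit 527) (nat_lit 7663)))))))))))) (.a s25232 s25233))))))) (.a s19247 (.a s25239 (.a (.p (nat_lit 560) (.a s18940 (.a (.p (nat_lit 592) (.a (.f (nat_lit 495) (nat_lit 463) (nat_lit 7631) (.f (nat_lit 527) (nat_lit 624) (nat_lit 7663) (.d (nat_lit 497) (nat_lit 465) (nat_lit 6608) (nat_lit 525) (nat_lit 2541)))) (.a (.f (nat_lit 623) (nat_lit 591) (nat_lit 5615) (.f (nat_lit 624) (nat_lit 655) (nat_lit 5647) (.d (nat_lit 625) (nat_lit 593) (nat_lit 4592) (nat_lit 657) (nat_lit 4624)))) (.f (nat_lit 495) (nat_lit 463) (nat_lit 7631) (.f (nat_lit 497) (nat_lit 465) (nat_lit 6608) (.d (nat_lit 525) (nat_lit 494) (nat_lit 1517) (nat_lit 527) (nat_lit 2541))))))) (.a s18995 (.a s18981 (.a (.p (nat_lit 561) (.a (.f (nat_lit 527) (nat_lit 525) (nat_lit 525) (.d (nat_lit 562) (nat_lit 529) (nat_lit 526) (nat_lit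 559) (nat_lit 3598))) (.a (.f (nat_lit 527) (nat_lit 525) (nat_lit 525) (.d (nat_lit 562) (nat_lit 559) (nat_lit 3598) (nat_lit 563) (nat_lit 3599))) (.f (nat_lit 593) (nat_lit 464) (nat_lit 4560) (.d (nat_lit 625) (nat_lit 529) (nat_lit 7664) (nat_lit 657) (nat_lit 7696)))))) s25242)))))) (.a (.p (nat_lit 560) (.a (.p (nat_lit 561) (.a (.f (nat_lit 527) (nat_lit 525) (nat_lit 525) (.d (nat_lit 562) (nat_lit 529) (nat_lit 526) (nat_lit 559) (nat_lit 3598))) (.a (.f (nat_lit 527) (nat_lit 525) (nat_lit 525) (.d (nat_lit 562) (nat_lit 559) (nat_lit 3598) (nat_lit 563) (nat_lit 3599))) (.f (nat_lit 593) (nat_lit 464) (nat_lit 4560) (.d (nat_lit 625) (nat_lit 529) (nat_lit 7664) (nat_lit 657) (nat_lit 7696)))))) (.a (.p (nat_lit 592) (.a (.f (nat_lit 495) (nat_lit 463) (nat_lit 7631) (.f (nat_lit 527) (nat_lit 624) (nat_lit 7663) (.d (nat_lit 525) (nat_lit 524) (nat_lit 2540) (nat_lit 561) (nat_lit 525)))) (.a (.f (nat_lit 623) (nat_lit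 591) (nat_lit 5615) (.f (nat_lit 624) (nat_lit 655) (nat_lit 5647) (.d (nat_lit 625) (nat_lit 593) (nat_lit 4592) (nat_lit 657) (nat_lit 4624)))) (.p (nat_lit 561) (.a (.f (nat_lit 527) (nat_lit 525) (nat_lit 525) (.d (nat_lit 562) (nat_lit 559) (nat_lit 3598) (nat_lit 563) (nat_lit 3599))) (.a (.f (nat_lit 591) (nat_lit 623) (nat_lit 5615) (.f (nat_lit 562) (nat_lit 563) (nat_lit 1583) (.d (nat_lit 590) (nat_lit 559) (nat_lit 1582) (nat_lit 589) (nat_lit 2605)))) (.a (.f (nat_lit 527) (nat_lit 525) (nat_lit 525) (.f (nat_lit 591) (nat_lit 623) (nat_lit 5615) (.f (nat_lit 562) (nat_lit 563) (nat_lit 3599) (.d (nat_lit 590) (nat_lit 589) (nat_lit 2605) (nat_lit 593) (nat_lit 2606))))) (.f (nat_lit 525) (nat_lit 527) (nat_lit 525) (.f (nat_lit 558) (nat_lit 559) (nat_lit 3597) (.f (nat_lit 591) (nat_lit 623) (nat_lit 5615) (.f (nat_lit 590) (nat_lit 589) (nat_lit 2605) (.f (nat_lit 557) (nat_lit 593) (nat_lit 3629) (.d (nat_lit 493)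 (nat_lit 461) (nat_lit 4557) (nat_lit 622) (nat_lit 7661)))))))))))))) (.a s25108 (.a (.p (nat_lit 592) (.a (.f (nat_lit 495) (nat_lit 463) (nat_lit 7631) (.f (nat_lit 527) (nat_lit 624) (nat_lit 7663) (.d (nat_lit 525) (nat_lit 524) (nat_lit 2540) (nat_lit 561) (nat_lit 525)))) (.a (.f (nat_lit 623) (nat_lit 591) (nat_lit 5615) (.f (nat_lit 624) (nat_lit 655) (nat_lit 5647) (.d (nat_lit 625) (nat_lit 593) (nat_lit 4592) (nat_lit 657) (nat_lit 4624)))) (.f (nat_lit 593) (nat_lit 625) (nat_lit 4592) (.f (nat_lit 561) (nat_lit 464) (nat_lit 4560) (.f (nat_lit 591) (nat_lit 623) (nat_lit 5615) (.d (nat_lit 562) (nat_lit 563) (nat_lit 1583) (nat_lit 590) (nat_lit 2606)))))))) (.a (.p (nat_lit 464) (.a (.f (nat_lit 561) (nat_lit 593) (nat_lit 4560) (.f (nat_lit 529) (nat_lit 432) (nat_lit 4528) (.f (nat_lit 559) (nat_lit 591) (nat_lit 5583) (.d (nat_lit 530) (nat_lit 531) (nat_lit 1551) (nat_lit 558) (nat_lit 2574))))) (.a (.f (nat_lit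 559) (nat_lit 591) (nat_lit 5583) (.f (nat_lit 561) (nat_lit 593) (nat_lit 4560) (.f (nat_lit 562) (nat_lit 527) (nat_lit 3598) (.f (nat_lit 531) (nat_lit 530) (nat_lit 2575) (.f (nat_lit 563) (nat_lit 532) (nat_lit 2576) (.d (nat_lit 595) (nat_lit 594) (nat_lit 559) (nat_lit 596) (nat_lit 560))))))) (.a (.f (nat_lit 433) (nat_lit 465) (nat_lit 6576) (.f (nat_lit 432) (nat_lit 401) (nat_lit 6544) (.d (nat_lit 561) (nat_lit 529) (nat_lit 4528) (nat_lit 593) (nat_lit 4560)))) (.f (nat_lit 559) (nat_lit 591) (nat_lit 5583) (.f (nat_lit 432) (nat_lit 527) (nat_lit 5551) (.d (nat_lit 433) (nat_lit 401) (nat_lit 6544) (nat_lit 465) (nat_lit 6576)))))))) (.a (.p (nat_lit 592) (.a (.f (nat_lit 623) (nat_lit 591) (nat_lit 5615) (.f (nat_lit 624) (nat_lit 655) (nat_lit 5647) (.d (nat_lit 625) (nat_lit 593) (nat_lit 4592) (nat_lit 657) (nat_lit 4624)))) (.a (.f (nat_lit 495) (nat_lit 463) (nat_lit 7631) (.f (nat_lit 527) (nat_lit 624) (nat_lit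 7663) (.f (nat_lit 525) (nat_lit 524) (nat_lit 2540) (.f (nat_lit 493) (nat_lit 492) (nat_lit 3564) (.f (nat_lit 494) (nat_lit 529) (nat_lit 493) (.f (nat_lit 557) (nat_lit 556) (nat_lit 1548) (.d (nat_lit 462) (nat_lit 430) (nat_lit 5549) (nat_lit 589) (nat_lit 6605)))))))) (.f (nat_lit 591) (nat_lit 623) (nat_lit 5615) (.f (nat_lit 559) (nat_lit 464) (nat_lit 5583) (.f (nat_lit 593) (nat_lit 625) (nat_lit 4592) (.d (nat_lit 558) (nat_lit 557) (nat_lit 557) (nat_lit 594) (nat_lit 3630)))))))) (.p (nat_lit 591) (.a (.f (nat_lit 559) (nat_lit 464) (nat_lit 5583) (.d (nat_lit 623) (nat_lit 527) (nat_lit 6639) (nat_lit 655) (nat_lit 6671))) (.a (.f (nat_lit 559) (nat_lit 464) (nat_lit 5583) (.d (nat_lit 623) (nat_lit 592) (nat_lit 5615) (nat_lit 655) (nat_lit 6671))) (.a (.f (nat_lit 623) (nat_lit 592) (nat_lit 5615) (.d (nat_lit 559) (nat_lit 527) (nat_lit 6639) (nat_lit 655) (nat_lit 6671))) (.a (.f (nat_lit 592) (nat_lit 623) (nat_lit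 5615) (.f (nat_lit 495) (nat_lit 463) (nat_lit 7631) (.f (nat_lit 527) (nat_lit 624) (nat_lit 7663) (.d (nat_lit 525) (nat_lit 524) (nat_lit 2540) (nat_lit 561) (nat_lit 525))))) (.f (nat_lit 464) (nat_lit 559) (nat_lit 5583) (.f (nat_lit 433) (nat_lit 465) (nat_lit 6576) (.f (nat_lit 432) (nat_lit 401) (nat_lit 6544) (.f (nat_lit 561) (nat_lit 529) (nat_lit 4528) (.f (nat_lit 527) (nat_lit 525) (nat_lit 525) (.f (nat_lit 495) (nat_lit 400) (nat_lit 5519) (.d (nat_lit 592) (nat_lit 463) (nat_lit 7631) (nat_lit 624) (nat_lit 7663)))))))))))))))))))) (.a (.p (nat_lit 560) (.a s18927 (.a (.p (nat_lit 592) (.a (.f (nat_lit 495) (nat_lit 463) (nat_lit 7631) (.f (nat_lit 527) (nat_lit 624) (nat_lit 7663) (.d (nat_lit 497) (nat_lit 465) (nat_lit 6608) (nat_lit 525) (nat_lit 2541)))) (.a (.f (nat_lit 623) (nat_lit 591) (nat_lit 5615) (.f (nat_lit 624) (nat_lit 655) (nat_lit 5647) (.d (nat_lit 625) (nat_lit 593) (nat_lit 4592) (nat_lit 657)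 (nat_lit 4624)))) (.f (nat_lit 495) (nat_lit 463) (nat_lit 7631) (.f (nat_lit 497) (nat_lit 465) (nat_lit 6608) (.d (nat_lit 525) (nat_lit 494) (nat_lit 1517) (nat_lit 527) (nat_lit 2541))))))) (.a (.p (nat_lit 464) (.a (.f (nat_lit 561) (nat_lit 593) (nat_lit 4560) (.f (nat_lit 529) (nat_lit 432) (nat_lit 4528) (.f (nat_lit 559) (nat_lit 591) (nat_lit 5583) (.d (nat_lit 530) (nat_lit 531) (nat_lit 1551) (nat_lit 558) (nat_lit 2574))))) (.a (.f (nat_lit 465) (nat_lit 433) (nat_lit 6576) (.f (nat_lit 592) (nat_lit 497) (nat_lit 6608) (.d (nat_lit 591) (nat_lit 559) (nat_lit 5583) (nat_lit 623) (nat_lit 5615)))) (.f (nat_lit 465) (nat_lit 433) (nat_lit 6576) (.f (nat_lit 592) (nat_lit 497) (nat_lit 6608) (.d (nat_lit 593) (nat_lit 561) (nat_lit 4560) (nat_lit 625) (nat_lit 4592))))))) (.a (.p (nat_lit 561) (.a (.f (nat_lit 527) (nat_lit 525) (nat_lit 525) (.d (nat_lit 562) (nat_lit 529) (nat_lit 526) (nat_lit 559) (nat_lit 3598)))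 (.a (.f (nat_lit 527) (nat_lit 525) (nat_lit 525) (.d (nat_lit 562) (nat_lit 559) (nat_lit 3598) (nat_lit 563) (nat_lit 3599))) (.f (nat_lit 593) (nat_lit 464) (nat_lit 4560) (.d (nat_lit 625) (nat_lit 529) (nat_lit 7664) (nat_lit 657) (nat_lit 7696)))))) s18940))))) (.p (nat_lit 560) (.a s18940 (.a (.p (nat_lit 592) (.a (.f (nat_lit 495) (nat_lit 463) (nat_lit 7631) (.f (nat_lit 527) (nat_lit 624) (nat_lit 7663) (.d (nat_lit 497) (nat_lit 465) (nat_lit 6608) (nat_lit 525) (nat_lit 2541)))) (.a (.f (nat_lit 623) (nat_lit 591) (nat_lit 5615) (.f (nat_lit 624) (nat_lit 655) (nat_lit 5647) (.d (nat_lit 625) (nat_lit 593) (nat_lit 4592) (nat_lit 657) (nat_lit 4624)))) (.f (nat_lit 495) (nat_lit 463) (nat_lit 7631) (.f (nat_lit 497) (nat_lit 465) (nat_lit 6608) (.d (nat_lit 525) (nat_lit 494) (nat_lit 1517) (nat_lit 527) (nat_lit 2541))))))) (.a s25016 (.a s18981 (.a (.p (nat_lit 561) (.a (.f (nat_lit 527) (nat_lit 525) (nat_lit 525)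 (.d (nat_lit 562) (nat_lit 529) (nat_lit 526) (nat_lit 559) (nat_lit 3598))) (.a (.f (nat_lit 527) (nat_lit 525) (nat_lit 525) (.d (nat_lit 562) (nat_lit 559) (nat_lit 3598) (nat_lit 563) (nat_lit 3599))) (.f (nat_lit 593) (nat_lit 464) (nat_lit 4560) (.d (nat_lit 625) (nat_lit 529) (nat_lit 7664) (nat_lit 657) (nat_lit 7696)))))) s25242)))))))))))))))))))
noncomputable def s25444 : Cert := .r (nat_lit 1098367625825484467390612994728847270814834595036468993380805702812392619849633330614901702186037109566736419644567355043912022518030741544129681592411442118656) (.p (nat_lit 560) (.a (.p (nat_lit 464) (.a (.f (nat_lit 465) (nat_lit 433) (nat_lit 6576) (.f (nat_lit 592) (nat_lit 497) (nat_lit 6608) (.d (nat_lit 463) (nat_lit 431) (nat_lit 7599) (nat_lit 495) (nat_lit 7631)))) (.f (nat_lit 561) (nat_lit 593) (nat_lit 4560) (.f (nat_lit 529) (nat_lit 432) (nat_lit 4528) (.f (nat_lit 559) (nat_lit 591) (nat_lit 5583) (.d (nat_lit 530)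 (nat_lit 531) (nat_lit 1551) (nat_lit 558) (nat_lit 2574))))))) (.a s19001 (.a s19000 (.a (.p (nat_lit 495) (.a s24202 (.a (.f (nat_lit 592) (nat_lit 463) (nat_lit 7631) (.f (nat_lit 497) (nat_lit 465) (nat_lit 6608) (.f (nat_lit 494) (nat_lit 525) (nat_lit 1517) (.f (nat_lit 461) (nat_lit 462) (nat_lit 3533) (.f (nat_lit 493) (nat_lit 460) (nat_lit 3532) (.f (nat_lit 593) (nat_lit 625) (nat_lit 4592) (.f (nat_lit 558) (nat_lit 590) (nat_lit 7629) (.f (nat_lit 559) (nat_lit 557) (nat_lit 557) (.d (nat_lit 594) (nat_lit 561) (nat_lit 558) (nat_lit 591) (nat_lit 3630)))))))))) (.a (.f (nat_lit 592) (nat_lit 463) (nat_lit 7631) (.f (nat_lit 497) (nat_lit 465) (nat_lit 6608) (.f (nat_lit 529) (nat_lit 624) (nat_lit 6640) (.d (nat_lit 494) (nat_lit 493) (nat_lit 493) (nat_lit 530) (nat_lit 494))))) (.a (.f (nat_lit 592) (nat_lit 463) (nat_lit 7631) (.f (nat_lit 497) (nat_lit 465) (nat_lit 6608) (.f (nat_lit 624) (nat_lit 529) (nat_lit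 6640) (.d (nat_lit 625) (nat_lit 593) (nat_lit 4592) (nat_lit 657) (nat_lit 4624))))) s24232))))) (.a (.p (nat_lit 558) (.a (.p (nat_lit 464) (.a (.f (nat_lit 431) (nat_lit 463) (nat_lit 7599) (.f (nat_lit 432) (nat_lit 399) (nat_lit 7567) (.d (nat_lit 433) (nat_lit 401) (nat_lit 6544) (nat_lit 465) (nat_lit 6576)))) (.f (nat_lit 559) (nat_lit 591) (nat_lit 5583) (.f (nat_lit 557) (nat_lit 529) (nat_lit 2573) (.f (nat_lit 525) (nat_lit 524) (nat_lit 3596) (.f (nat_lit 589) (nat_lit 588) (nat_lit 1580) (.d (nat_lit 494) (nat_lit 462) (nat_lit 5581) (nat_lit 621) (nat_lit 6637)))))))) (.a (.p (nat_lit 464) (.a (.f (nat_lit 559) (nat_lit 591) (nat_lit 5583) (.f (nat_lit 465) (nat_lit 433) (nat_lit 6576) (.f (nat_lit 592) (nat_lit 497) (nat_lit 6608) (.d (nat_lit 593) (nat_lit 557) (nat_lit 557) (nat_lit 625) (nat_lit 4592))))) (.a (.f (nat_lit 431) (nat_lit 463) (nat_lit 7599) (.f (nat_lit 432) (nat_lit 399) (nat_lit 7567) (.d (nat_lit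 433) (nat_lit 401) (nat_lit 6544) (nat_lit 465) (nat_lit 6576)))) (.a (.f (nat_lit 463) (nat_lit 431) (nat_lit 7599) (.f (nat_lit 495) (nat_lit 592) (nat_lit 7631) (.f (nat_lit 494) (nat_lit 590) (nat_lit 6606) (.d (nat_lit 465) (nat_lit 466) (nat_lit 1486) (nat_lit 493) (nat_lit 2509))))) (.f (nat_lit 463) (nat_lit 431) (nat_lit 7599) (.f (nat_lit 495) (nat_lit 592) (nat_lit 7631) (.f (nat_lit 494) (nat_lit 590) (nat_lit 6606) (.f (nat_lit 493) (nat_lit 492) (nat_lit 2508) (.d (nat_lit 525) (nat_lit 497) (nat_lit 1517) (nat_lit 524) (nat_lit 1516)))))))))) (.a (.p (nat_lit 592) (.a (.f (nat_lit 497) (nat_lit 465) (nat_lit 6608) (.f (nat_lit 624) (nat_lit 529) (nat_lit 6640) (.d (nat_lit 625) (nat_lit 593) (nat_lit 4592) (nat_lit 657) (nat_lit 4624)))) (.a (.f (nat_lit 593) (nat_lit 625) (nat_lit 4592) (.f (nat_lit 559) (nat_lit 557) (nat_lit 557) (.d (nat_lit 594) (nat_lit 591) (nat_lit 3630) (nat_lit 595) (nat_lit 3631)))) (.f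 (nat_lit 495) (nat_lit 463) (nat_lit 7631) (.f (nat_lit 497) (nat_lit 465) (nat_lit 6608) (.f (nat_lit 494) (nat_lit 525) (nat_lit 1517) (.d (nat_lit 529) (nat_lit 493) (nat_lit 493) (nat_lit 530) (nat_lit 494)))))))) (.a (.p (nat_lit 463) (.a (.f (nat_lit 495) (nat_lit 592) (nat_lit 7631) (.f (nat_lit 494) (nat_lit 590) (nat_lit 6606) (.d (nat_lit 431) (nat_lit 399) (nat_lit 5518) (nat_lit 462) (nat_lit 6574)))) (.a (.f (nat_lit 464) (nat_lit 431) (nat_lit 7599) (.f (nat_lit 465) (nat_lit 433) (nat_lit 6576) (.f (nat_lit 497) (nat_lit 592) (nat_lit 6608) (.f (nat_lit 462) (nat_lit 461) (nat_lit 461) (.f (nat_lit 494) (nat_lit 493) (nat_lit 1485) (.f (nat_lit 430) (nat_lit 429) (nat_lit 3501) (.d (nat_lit 557) (nat_lit 525) (nat_lit 5549) (nat_lit 589) (nat_lit 5581)))))))) (.a (.f (nat_lit 431) (nat_lit 464) (nat_lit 7599) (.f (nat_lit 494) (nat_lit 462) (nat_lit 6574) (.d (nat_lit 495) (nat_lit 399) (nat_lit 5518) (nat_lit 590)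 (nat_lit 6606)))) (.a (.f (nat_lit 592) (nat_lit 495) (nat_lit 7631) (.f (nat_lit 464) (nat_lit 431) (nat_lit 7599) (.d (nat_lit 465) (nat_lit 433) (nat_lit 6576) (nat_lit 497) (nat_lit 6608)))) (.f (nat_lit 592) (nat_lit 495) (nat_lit 7631) (.f (nat_lit 497) (nat_lit 465) (nat_lit 6608) (.f (nat_lit 624) (nat_lit 529) (nat_lit 6640) (.d (nat_lit 625) (nat_lit 593) (nat_lit 4592) (nat_lit 657) (nat_lit 4624)))))))))) (.a (.p (nat_lit 464) (.a (.f (nat_lit 559) (nat_lit 591) (nat_lit 5583) (.f (nat_lit 465) (nat_lit 433) (nat_lit 6576) (.f (nat_lit 592) (nat_lit 497) (nat_lit 6608) (.d (nat_lit 593) (nat_lit 557) (nat_lit 557) (nat_lit 625) (nat_lit 4592))))) (.a (.f (nat_lit 431) (nat_lit 463) (nat_lit 7599) (.f (nat_lit 432) (nat_lit 399) (nat_lit 7567) (.d (nat_lit 433) (nat_lit 401) (nat_lit 6544) (nat_lit 465) (nat_lit 6576)))) (.f (nat_lit 559) (nat_lit 591) (nat_lit 5583) (.f (nat_lit 557) (nat_lit 529) (nat_lit 2573) (.f (nat_lit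 592) (nat_lit 593) (nat_lit 557) (.d (nat_lit 463) (nat_lit 431) (nat_lit 7599) (nat_lit 495) (nat_lit 7631)))))))) (.a (.p (nat_lit 592) (.a (.f (nat_lit 497) (nat_lit 465) (nat_lit 6608) (.f (nat_lit 624) (nat_lit 529) (nat_lit 6640) (.d (nat_lit 625) (nat_lit 593) (nat_lit 4592) (nat_lit 657) (nat_lit 4624)))) (.a (.f (nat_lit 593) (nat_lit 625) (nat_lit 4592) (.f (nat_lit 559) (nat_lit 557) (nat_lit 557) (.d (nat_lit 594) (nat_lit 591) (nat_lit 3630) (nat_lit 595) (nat_lit 3631)))) (.f (nat_lit 497) (nat_lit 465) (nat_lit 6608) (.f (nat_lit 529) (nat_lit 624) (nat_lit 6640) (.f (nat_lit 559) (nat_lit 557) (nat_lit 2573) (.f (nat_lit 530) (nat_lit 531) (nat_lit 1551) (.f (nat_lit 494) (nat_lit 495) (nat_lit 494) (.d (nat_lit 591) (nat_lit 462) (nat_lit 4558) (nat_lit 464) (nat_lit 5583)))))))))) (.a (.p (nat_lit 592) (.a (.f (nat_lit 497) (nat_lit 465) (nat_lit 6608) (.f (nat_lit 624) (nat_lit 529) (nat_lit 6640) (.d (nat_lit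 625) (nat_lit 593) (nat_lit 4592) (nat_lit 657) (nat_lit 4624)))) (.a (.f (nat_lit 495) (nat_lit 463) (nat_lit 7631) (.f (nat_lit 497) (nat_lit 465) (nat_lit 6608) (.f (nat_lit 494) (nat_lit 525) (nat_lit 1517) (.f (nat_lit 461) (nat_lit 462) (nat_lit 3533) (.d (nat_lit 493) (nat_lit 460) (nat_lit 3532) (nat_lit 590) (nat_lit 7629)))))) (.a (.f (nat_lit 463) (nat_lit 495) (nat_lit 7631) (.f (nat_lit 464) (nat_lit 431) (nat_lit 7599) (.f (nat_lit 433) (nat_lit 465) (nat_lit 6576) (.f (nat_lit 432) (nat_lit 401) (nat_lit 6544) (.f (nat_lit 461) (nat_lit 462) (nat_lit 2477) (.f (nat_lit 625) (nat_lit 593) (nat_lit 4592) (.f (nat_lit 624) (nat_lit 657) (nat_lit 4624) (.f (nat_lit 591) (nat_lit 559) (nat_lit 5583) (.f (nat_lit 590) (nat_lit 589) (nat_lit 589) (.f (nat_lit 493) (nat_lit 494) (nat_lit 7629) (.d (nat_lit 525) (nat_lit 429) (nat_lit 4525) (nat_lit 622) (nat_lit 7661)))))))))))) (.f (nat_lit 463) (nat_lit 495) (nat_lit 7631)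 (.f (nat_lit 464) (nat_lit 431) (nat_lit 7599) (.f (nat_lit 625) (nat_lit 593) (nat_lit 4592) (.f (nat_lit 624) (nat_lit 657) (nat_lit 4624) (.f (nat_lit 591) (nat_lit 559) (nat_lit 5583) (.f (nat_lit 590) (nat_lit 589) (nat_lit 589) (.f (nat_lit 497) (nat_lit 529) (nat_lit 6640) (.f (nat_lit 461) (nat_lit 462) (nat_lit 461) (.f (nat_lit 493) (nat_lit 494) (nat_lit 7629) (.d (nat_lit 525) (nat_lit 429) (nat_lit 4525) (nat_lit 622) (nat_lit 7661))))))))))))))) (.p (nat_lit 464) (.a (.f (nat_lit 559) (nat_lit 591) (nat_lit 5583) (.f (nat_lit 557) (nat_lit 529) (nat_lit 2573) (.f (nat_lit 525) (nat_lit 524) (nat_lit 3596) (.f (nat_lit 589) (nat_lit 588) (nat_lit 1580) (.d (nat_lit 494) (nat_lit 462) (nat_lit 5581) (nat_lit 621) (nat_lit 6637)))))) (.a (.f (nat_lit 463) (nat_lit 431) (nat_lit 7599) (.f (nat_lit 495) (nat_lit 592) (nat_lit 7631) (.f (nat_lit 494) (nat_lit 590) (nat_lit 6606) (.f (nat_lit 493) (nat_lit 492) (nat_lit 2508)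 (.d (nat_lit 525) (nat_lit 497) (nat_lit 1517) (nat_lit 524) (nat_lit 1516)))))) (.f (nat_lit 559) (nat_lit 591) (nat_lit 5583) (.f (nat_lit 557) (nat_lit 529) (nat_lit 2573) (.f (nat_lit 592) (nat_lit 593) (nat_lit 557) (.d (nat_lit 463) (nat_lit 431) (nat_lit 7599) (nat_lit 495) (nat_lit 7631)))))))))))))))) (.a (.p (nat_lit 464) (.a (.f (nat_lit 561) (nat_lit 593) (nat_lit 4560) (.f (nat_lit 529) (nat_lit 432) (nat_lit 4528) (.f (nat_lit 559) (nat_lit 591) (nat_lit 5583) (.d (nat_lit 530) (nat_lit 531) (nat_lit 1551) (nat_lit 558) (nat_lit 2574))))) (.a (.f (nat_lit 465) (nat_lit 433) (nat_lit 6576) (.f (nat_lit 559) (nat_lit 591) (nat_lit 5583) (.f (nat_lit 561) (nat_lit 593) (nat_lit 4560) (.f (nat_lit 558) (nat_lit 525) (nat_lit 3597) (.f (nat_lit 589) (nat_lit 590) (nat_lit 1581) (.f (nat_lit 557) (nat_lit 588) (nat_lit 1580) (.f (nat_lit 494) (nat_lit 462) (nat_lit 5581) (.f (nat_lit 495) (nat_lit 493) (nat_lit 2509) (.d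 (nat_lit 466) (nat_lit 467) (nat_lit 1487) (nat_lit 497) (nat_lit 2510)))))))))) (.a (.f (nat_lit 433) (nat_lit 465) (nat_lit 6576) (.f (nat_lit 432) (nat_lit 401) (nat_lit 6544) (.d (nat_lit 561) (nat_lit 529) (nat_lit 4528) (nat_lit 593) (nat_lit 4560)))) s24400)))) (.a s24259 (.a s25139 (.a s23011 (.p (nat_lit 494) (.a (.p (nat_lit 495) (.a (.f (nat_lit 525) (nat_lit 497) (nat_lit 1517) (.d (nat_lit 524) (nat_lit 493) (nat_lit 1516) (nat_lit 523) (nat_lit 2539))) (.f (nat_lit 463) (nat_lit 592) (nat_lit 7631) (.f (nat_lit 431) (nat_lit 399) (nat_lit 4495) (.d (nat_lit 558) (nat_lit 462) (nat_lit 6574) (nat_lit 590) (nat_lit 6606)))))) (.a (.p (nat_lit 464) (.a (.f (nat_lit 559) (nat_lit 591) (nat_lit 5583) (.f (nat_lit 561) (nat_lit 593) (nat_lit 4560) (.f (nat_lit 558) (nat_lit 525) (nat_lit 3597) (.d (nat_lit 529) (nat_lit 530) (nat_lit 2574) (nat_lit 557) (nat_lit 2573))))) (.a (.f (nat_lit 559) (nat_lit 591) (nat_lit 5583)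 (.f (nat_lit 561) (nat_lit 593) (nat_lit 4560) (.f (nat_lit 558) (nat_lit 525) (nat_lit 3597) (.f (nat_lit 589) (nat_lit 590) (nat_lit 1581) (.d (nat_lit 557) (nat_lit 462) (nat_lit 5581) (nat_lit 588) (nat_lit 1580)))))) (.a (.f (nat_lit 431) (nat_lit 463) (nat_lit 7599) (.f (nat_lit 432) (nat_lit 399) (nat_lit 7567) (.d (nat_lit 561) (nat_lit 529) (nat_lit 4528) (nat_lit 593) (nat_lit 4560)))) (.f (nat_lit 431) (nat_lit 463) (nat_lit 7599) (.f (nat_lit 432) (nat_lit 399) (nat_lit 7567) (.f (nat_lit 401) (nat_lit 433) (nat_lit 6544) (.f (nat_lit 400) (nat_lit 369) (nat_lit 6512) (.f (nat_lit 429) (nat_lit 430) (nat_lit 2445) (.f (nat_lit 529) (nat_lit 497) (nat_lit 4496) (.f (nat_lit 559) (nat_lit 591) (nat_lit 5583) (.f (nat_lit 558) (nat_lit 557) (nat_lit 2573) (.f (nat_lit 461) (nat_lit 462) (nat_lit 7597) (.d (nat_lit 493) (nat_lit 397) (nat_lit 4493) (nat_lit 525) (nat_lit 4525))))))))))))))) (.a (.p (nat_lit 464) (.a (.f (nat_lit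 431) (nat_lit 463) (nat_lit 7599) (.f (nat_lit 432) (nat_lit 399) (nat_lit 7567) (.d (nat_lit 561) (nat_lit 529) (nat_lit 4528) (nat_lit 593) (nat_lit 4560)))) (.a (.f (nat_lit 463) (nat_lit 431) (nat_lit 7599) (.f (nat_lit 495) (nat_lit 592) (nat_lit 7631) (.f (nat_lit 493) (nat_lit 492) (nat_lit 2508) (.f (nat_lit 461) (nat_lit 460) (nat_lit 3532) (.f (nat_lit 462) (nat_lit 497) (nat_lit 461) (.d (nat_lit 429) (nat_lit 397) (nat_lit 4493) (nat_lit 428) (nat_lit 3500))))))) (.a (.f (nat_lit 561) (nat_lit 593) (nat_lit 4560) (.f (nat_lit 432) (nat_lit 529) (nat_lit 4528) (.f (nat_lit 399) (nat_lit 431) (nat_lit 7567) (.f (nat_lit 400) (nat_lit 367) (nat_lit 7535) (.d (nat_lit 401) (nat_lit 369) (nat_lit 6512) (nat_lit 433) (nat_lit 6544)))))) (.f (nat_lit 561) (nat_lit 593) (nat_lit 4560) (.f (nat_lit 529) (nat_lit 432) (nat_lit 4528) (.f (nat_lit 495) (nat_lit 493) (nat_lit 493) (.f (nat_lit 530) (nat_lit 531) (nat_lit 3567) (.f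 (nat_lit 558) (nat_lit 559) (nat_lit 2574) (.d (nat_lit 463) (nat_lit 590) (nat_lit 6606) (nat_lit 592) (nat_lit 7631))))))))))) (.a (.p (nat_lit 464) (.a (.f (nat_lit 463) (nat_lit 431) (nat_lit 7599) (.f (nat_lit 495) (nat_lit 592) (nat_lit 7631) (.f (nat_lit 493) (nat_lit 492) (nat_lit 2508) (.d (nat_lit 525) (nat_lit 497) (nat_lit 1517) (nat_lit 524) (nat_lit 1516))))) (.a (.f (nat_lit 431) (nat_lit 463) (nat_lit 7599) (.f (nat_lit 432) (nat_lit 399) (nat_lit 7567) (.d (nat_lit 561) (nat_lit 529) (nat_lit 4528) (nat_lit 593) (nat_lit 4560)))) (.a (.f (nat_lit 561) (nat_lit 593) (nat_lit 4560) (.f (nat_lit 432) (nat_lit 529) (nat_lit 4528) (.f (nat_lit 399) (nat_lit 431) (nat_lit 7567) (.f (nat_lit 400) (nat_lit 367) (nat_lit 7535) (.d (nat_lit 401) (nat_lit 369) (nat_lit 6512) (nat_lit 433) (nat_lit 6544)))))) (.f (nat_lit 593) (nat_lit 561) (nat_lit 4560) (.f (nat_lit 592) (nat_lit 625) (nat_lit 4592) (.f (nat_lit 495) (nat_lit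 463) (nat_lit 7631) (.f (nat_lit 525) (nat_lit 497) (nat_lit 1517) (.d (nat_lit 524) (nat_lit 493) (nat_lit 1516) (nat_lit 523) (nat_lit 2539)))))))))) (.a (.p (nat_lit 464) (.a (.f (nat_lit 463) (nat_lit 431) (nat_lit 7599) (.f (nat_lit 559) (nat_lit 591) (nat_lit 5583) (.f (nat_lit 561) (nat_lit 593) (nat_lit 4560) (.f (nat_lit 558) (nat_lit 525) (nat_lit 3597) (.d (nat_lit 590) (nat_lit 495) (nat_lit 6606) (nat_lit 589) (nat_lit 1581)))))) (.a (.f (nat_lit 559) (nat_lit 591) (nat_lit 5583) (.f (nat_lit 561) (nat_lit 593) (nat_lit 4560) (.f (nat_lit 558) (nat_lit 525) (nat_lit 3597) (.d (nat_lit 529) (nat_lit 530) (nat_lit 2574) (nat_lit 557) (nat_lit 2573))))) (.a (.f (nat_lit 431) (nat_lit 463) (nat_lit 7599) (.f (nat_lit 432) (nat_lit 399) (nat_lit 7567) (.d (nat_lit 561) (nat_lit 529) (nat_lit 4528) (nat_lit 593) (nat_lit 4560)))) (.f (nat_lit 463) (nat_lit 431) (nat_lit 7599) (.f (nat_lit 495) (nat_lit 592) (nat_lit 7631)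 (.d (nat_lit 493) (nat_lit 492) (nat_lit 2508) (nat_lit 529) (nat_lit 493)))))))) (.a (.p (nat_lit 464) (.a (.f (nat_lit 463) (nat_lit 431) (nat_lit 7599) (.f (nat_lit 559) (nat_lit 591) (nat_lit 5583) (.f (nat_lit 561) (nat_lit 593) (nat_lit 4560) (.f (nat_lit 558) (nat_lit 525) (nat_lit 3597) (.d (nat_lit 590) (nat_lit 495) (nat_lit 6606) (nat_lit 589) (nat_lit 1581)))))) (.a (.f (nat_lit 559) (nat_lit 591) (nat_lit 5583) (.f (nat_lit 561) (nat_lit 593) (nat_lit 4560) (.f (nat_lit 558) (nat_lit 525) (nat_lit 3597) (.d (nat_lit 529) (nat_lit 530) (nat_lit 2574) (nat_lit 557) (nat_lit 2573))))) (.a (.f (nat_lit 431) (nat_lit 463) (nat_lit 7599) (.f (nat_lit 432) (nat_lit 399) (nat_lit 7567) (.d (nat_lit 561) (nat_lit 529) (nat_lit 4528) (nat_lit 593) (nat_lit 4560)))) (.f (nat_lit 463) (nat_lit 431) (nat_lit 7599) (.f (nat_lit 495) (nat_lit 592) (nat_lit 7631) (.f (nat_lit 497) (nat_lit 525) (nat_lit 1517) (.f (nat_lit 462) (nat_lit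 461) (nat_lit 461) (.f (nat_lit 529) (nat_lit 530) (nat_lit 494) (.f (nat_lit 558) (nat_lit 590) (nat_lit 6606) (.d (nat_lit 557) (nat_lit 559) (nat_lit 2573) (nat_lit 589) (nat_lit 5581)))))))))))) (.p (nat_lit 495) (.a (.f (nat_lit 525) (nat_lit 497) (nat_lit 1517) (.d (nat_lit 524) (nat_lit 493) (nat_lit 1516) (nat_lit 523) (nat_lit 2539))) (.a (.f (nat_lit 529) (nat_lit 493) (nat_lit 493) (.d (nat_lit 530) (nat_lit 497) (nat_lit 494) (nat_lit 531) (nat_lit 3567))) (.a (.f (nat_lit 493) (nat_lit 529) (nat_lit 493) (.f (nat_lit 461) (nat_lit 460) (nat_lit 3532) (.f (nat_lit 525) (nat_lit 524) (nat_lit 1516) (.d (nat_lit 429) (nat_lit 397) (nat_lit 4493) (nat_lit 558) (nat_lit 4525))))) (.f (nat_lit 497) (nat_lit 525) (nat_lit 1517) (.f (nat_lit 529) (nat_lit 530) (nat_lit 494) (.f (nat_lit 592) (nat_lit 624) (nat_lit 6640) (.f (nat_lit 593) (nat_lit 625) (nat_lit 4592) (.f (nat_lit 561) (nat_lit 464) (nat_lit 4560) (.f (nat_lit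 594) (nat_lit 626) (nat_lit 4593) (.d (nat_lit 559) (nat_lit 558) (nat_lit 558) (nat_lit 595) (nat_lit 3631)))))))))))))))))))))))))))))
noncomputable def s25473 : Cert := .r (nat_lit 1098367625876631195638990211447803359827765831789854025350228590148069047476135421183724742106088204759328672100049959483405148627549761177659140858869700362240) (.p (nat_lit 495) (.a (.f (nat_lit 493) (nat_lit 529) (nat_lit 493) (.d (nat_lit 525) (nat_lit 497) (nat_lit 1517) (nat_lit 524) (nat_lit 1516))) (.a (.f (nat_lit 497) (nat_lit 525) (nat_lit 1517) (.f (nat_lit 465) (nat_lit 466) (nat_lit 2510) (.f (nat_lit 464) (nat_lit 493) (nat_lit 2509) (.d (nat_lit 433) (nat_lit 401) (nat_lit 5520) (nat_lit 560) (nat_lit 6576))))) (.a (.f (nat_lit 493) (nat_lit 529) (nat_lit 493) (.f (nat_lit 461) (nat_lit 460) (nat_lit 3532) (.f (nat_lit 462) (nat_lit 497) (nat_lit 3533) (.d (nat_lit 429) (nat_lit 397) (nat_lit 4493) (nat_lit 558) (nat_lit 7597))))) (.a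 (.f (nat_lit 493) (nat_lit 529) (nat_lit 493) (.f (nat_lit 464) (nat_lit 465) (nat_lit 2509) (.f (nat_lit 463) (nat_lit 492) (nat_lit 2508) (.d (nat_lit 431) (nat_lit 399) (nat_lit 5518) (nat_lit 560) (nat_lit 7599))))) (.f (nat_lit 497) (nat_lit 525) (nat_lit 1517) (.f (nat_lit 465) (nat_lit 466) (nat_lit 2510) (.f (nat_lit 529) (nat_lit 530) (nat_lit 494) (.d (nat_lit 433) (nat_lit 401) (nat_lit 5520) (nat_lit 560) (nat_lit 5552))))))))))
noncomputable def s25493 : Cert := .r (nat_lit 1098367625825484467438247097364284163993875080110217258544205943026396696248241072308404078571836755869841676344144564076502155134019001781181805244744332214272) (.p (nat_lit 560) (.a (.f (nat_lit 559) (nat_lit 591) (nat_lit 5583) (.f (nat_lit 527) (nat_lit 432) (nat_lit 5551) (.d (nat_lit 525) (nat_lit 524) (nat_lit 524) (nat_lit 561) (nat_lit 525)))) (.a (.f (nat_lit 591) (nat_lit 559) (nat_lit 5583) (.f (nat_lit 592) (nat_lit 623) (nat_lit 5615)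 (.d (nat_lit 593) (nat_lit 561) (nat_lit 4560) (nat_lit 625) (nat_lit 4592)))) (.a (.f (nat_lit 561) (nat_lit 593) (nat_lit 4560) (.f (nat_lit 527) (nat_lit 525) (nat_lit 525) (.f (nat_lit 433) (nat_lit 465) (nat_lit 6576) (.f (nat_lit 432) (nat_lit 401) (nat_lit 6544) (.f (nat_lit 399) (nat_lit 431) (nat_lit 7567) (.d (nat_lit 400) (nat_lit 367) (nat_lit 7535) (nat_lit 495) (nat_lit 5519))))))) (.f (nat_lit 559) (nat_lit 591) (nat_lit 5583) (.f (nat_lit 527) (nat_lit 432) (nat_lit 5551) (.f (nat_lit 525) (nat_lit 524) (nat_lit 524) (.f (nat_lit 557) (nat_lit 556) (nat_lit 1548) (.f (nat_lit 493) (nat_lit 492) (nat_lit 3564) (.f (nat_lit 465) (nat_lit 433) (nat_lit 6576) (.f (nat_lit 494) (nat_lit 495) (nat_lit 2509) (.d (nat_lit 462) (nat_lit 430) (nat_lit 5549) (nat_lit 589) (nat_lit 6605)))))))))))))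
noncomputable def s25497 : Cert := .r (nat_lit 943490607303752963937019840886057434177033664931875938883905600411634630746106260497667102478139433991455298517019633324992605640886346785690119740517314869782049193984) (.p (nat_lit 462) (.a (.f (nat_lit 463) (nat_lit 431) (nat_lit 6574) (.f (nat_lit 495) (nat_lit 590) (nat_lit 6606) (.d (nat_lit 461) (nat_lit 429) (nat_lit 7597) (nat_lit 460) (nat_lit 460)))) (.a (.f (nat_lit 429) (nat_lit 461) (nat_lit 7597) (.f (nat_lit 430) (nat_lit 397) (nat_lit 7565) (.d (nat_lit 431) (nat_lit 399) (nat_lit 6542) (nat_lit 463) (nat_lit 6574)))) (.a (.f (nat_lit 461) (nat_lit 429) (nat_lit 7597) (.f (nat_lit 493) (nat_lit 590) (nat_lit 7629) (.f (nat_lit 495) (nat_lit 460) (nat_lit 3532) (.f (nat_lit 525) (nat_lit 524) (nat_lit 1516) (.d (nat_lit 430) (nat_lit 398) (nat_lit 5517) (nat_lit 557) (nat_lit 5549)))))) (.f (nat_lit 463) (nat_lit 431) (nat_lit 6574) (.f (nat_lit 495) (nat_lit 590) (nat_lit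 6606) (.f (nat_lit 493) (nat_lit 529) (nat_lit 493) (.d (nat_lit 464) (nat_lit 465) (nat_lit 1485) (nat_lit 492) (nat_lit 2508)))))))))
noncomputable def s25547 : Cert := .r (nat_lit 1098367625825484467390612994728847270814834595036468993380805702812392619849633330614901702186037109566736419644567355043912022518030741544129681592411442118656) (.p (nat_lit 558) (.a s21575 (.a (.p (nat_lit 560) (.a s22641 (.a s24937 (.a s21912 (.a s21930 (.a (.p (nat_lit 592) (.a (.f (nat_lit 593) (nat_lit 625) (nat_lit 4592) (.f (nat_lit 559) (nat_lit 557) (nat_lit 557) (.d (nat_lit 561) (nat_lit 525) (nat_lit 3597) (nat_lit 594) (nat_lit 558)))) (.a (.f (nat_lit 497) (nat_lit 465) (nat_lit 6608) (.f (nat_lit 624) (nat_lit 529) (nat_lit 6640) (.d (nat_lit 625) (nat_lit 593) (nat_lit 4592) (nat_lit 657) (nat_lit 4624)))) (.f (nat_lit 497) (nat_lit 465) (nat_lit 6608) (.f (nat_lit 529) (nat_lit 624) (nat_lit 6640) (.f (nat_lit 559) (nat_lit 557) (nat_lit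 2573) (.d (nat_lit 530) (nat_lit 531) (nat_lit 1551) (nat_lit 561) (nat_lit 2574)))))))) s21947)))))) (.a (.p (nat_lit 494) (.a s21690 (.a s23695 (.a (.p (nat_lit 590) (.a (.f (nat_lit 495) (nat_lit 463) (nat_lit 6606) (.d (nat_lit 493) (nat_lit 461) (nat_lit 7629) (nat_lit 529) (nat_lit 493))) (.f (nat_lit 623) (nat_lit 591) (nat_lit 4590) (.f (nat_lit 622) (nat_lit 655) (nat_lit 4622) (.d (nat_lit 621) (nat_lit 589) (nat_lit 5613) (nat_lit 653) (nat_lit 5645)))))) (.a s21891 (.a s23742 (.a s23756 s25497))))))) (.a s21905 (.a (.p (nat_lit 560) (.a s21912 (.a (.p (nat_lit 464) (.a (.f (nat_lit 559) (nat_lit 591) (nat_lit 5583) (.d (nat_lit 561) (nat_lit 525) (nat_lit 3597) (nat_lit 593) (nat_lit 4560))) (.a (.f (nat_lit 463) (nat_lit 431) (nat_lit 7599) (.f (nat_lit 592) (nat_lit 495) (nat_lit 7631) (.d (nat_lit 593) (nat_lit 561) (nat_lit 4560) (nat_lit 625) (nat_lit 4592)))) (.f (nat_lit 463) (nat_lit 431) (nat_lit 7599) (.f (nat_lit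 592) (nat_lit 495) (nat_lit 7631) (.d (nat_lit 591) (nat_lit 559) (nat_lit 5583) (nat_lit 623) (nat_lit 5615))))))) (.a s21929 (.a s21930 (.a (.p (nat_lit 592) (.a (.f (nat_lit 593) (nat_lit 625) (nat_lit 4592) (.f (nat_lit 559) (nat_lit 557) (nat_lit 557) (.d (nat_lit 561) (nat_lit 525) (nat_lit 3597) (nat_lit 594) (nat_lit 558)))) (.a (.f (nat_lit 497) (nat_lit 465) (nat_lit 6608) (.f (nat_lit 624) (nat_lit 529) (nat_lit 6640) (.d (nat_lit 625) (nat_lit 593) (nat_lit 4592) (nat_lit 657) (nat_lit 4624)))) (.f (nat_lit 497) (nat_lit 465) (nat_lit 6608) (.f (nat_lit 529) (nat_lit 624) (nat_lit 6640) (.f (nat_lit 559) (nat_lit 557) (nat_lit 2573) (.d (nat_lit 530) (nat_lit 531) (nat_lit 1551) (nat_lit 561) (nat_lit 2574)))))))) s21941)))))) (.a (.p (nat_lit 494) (.a s21690 (.a s23695 (.a s22556 (.a s21891 (.a s23742 (.a s23743 (.a (.p (nat_lit 495) (.a (.f (nat_lit 590) (nat_lit 463) (nat_lit 6606) (.f (nat_lit 493) (nat_lit 461) (nat_lit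 7629) (.d (nat_lit 525) (nat_lit 524) (nat_lit 1516) (nat_lit 622) (nat_lit 7661)))) (.a (.f (nat_lit 463) (nat_lit 590) (nat_lit 6606) (.f (nat_lit 431) (nat_lit 399) (nat_lit 4495) (.d (nat_lit 560) (nat_lit 464) (nat_lit 7599) (nat_lit 592) (nat_lit 7631)))) (.f (nat_lit 493) (nat_lit 529) (nat_lit 493) (.f (nat_lit 525) (nat_lit 524) (nat_lit 1516) (.d (nat_lit 461) (nat_lit 429) (nat_lit 4525) (nat_lit 460) (nat_lit 3532))))))) (.a s23755 (.a s23756 s23757)))))))))) (.a (.p (nat_lit 560) (.a s21947 (.a (.p (nat_lit 464) (.a (.f (nat_lit 559) (nat_lit 591) (nat_lit 5583) (.d (nat_lit 561) (nat_lit 525) (nat_lit 3597) (nat_lit 593) (nat_lit 4560))) (.a (.f (nat_lit 463) (nat_lit 431) (nat_lit 7599) (.f (nat_lit 592) (nat_lit 495) (nat_lit 7631) (.d (nat_lit 593) (nat_lit 561) (nat_lit 4560) (nat_lit 625) (nat_lit 4592)))) (.f (nat_lit 463) (nat_lit 431) (nat_lit 7599) (.f (nat_lit 495) (nat_lit 592) (nat_lit 7631) (.f (nat_lit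 494) (nat_lit 590) (nat_lit 6606) (.f (nat_lit 493) (nat_lit 492) (nat_lit 2508) (.d (nat_lit 525) (nat_lit 497) (nat_lit 1517) (nat_lit 524) (nat_lit 1516))))))))) (.a (.p (nat_lit 464) (.a (.f (nat_lit 463) (nat_lit 431) (nat_lit 7599) (.f (nat_lit 592) (nat_lit 495) (nat_lit 7631) (.d (nat_lit 593) (nat_lit 561) (nat_lit 4560) (nat_lit 625) (nat_lit 4592)))) (.a (.f (nat_lit 431) (nat_lit 463) (nat_lit 7599) (.f (nat_lit 432) (nat_lit 399) (nat_lit 7567) (.f (nat_lit 529) (nat_lit 561) (nat_lit 4528) (.f (nat_lit 497) (nat_lit 400) (nat_lit 4496) (.d (nat_lit 592) (nat_lit 465) (nat_lit 6608) (nat_lit 624) (nat_lit 6640)))))) (.a (.f (nat_lit 431) (nat_lit 463) (nat_lit 7599) (.f (nat_lit 432) (nat_lit 399) (nat_lit 7567) (.d (nat_lit 561) (nat_lit 529) (nat_lit 4528) (nat_lit 593) (nat_lit 4560)))) (.a (.f (nat_lit 463) (nat_lit 431) (nat_lit 7599) (.f (nat_lit 495) (nat_lit 592) (nat_lit 7631) (.f (nat_lit 494) (nat_lit 590)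 (nat_lit 6606) (.d (nat_lit 465) (nat_lit 466) (nat_lit 1486) (nat_lit 493) (nat_lit 2509))))) (.f (nat_lit 593) (nat_lit 561) (nat_lit 4560) (.f (nat_lit 592) (nat_lit 625) (nat_lit 4592) (.f (nat_lit 623) (nat_lit 591) (nat_lit 5615) (.f (nat_lit 624) (nat_lit 655) (nat_lit 5647) (.d (nat_lit 497) (nat_lit 465) (nat_lit 6608) (nat_lit 529) (nat_lit 6640))))))))))) (.a (.p (nat_lit 559) (.a (.f (nat_lit 561) (nat_lit 525) (nat_lit 3597) (.f (nat_lit 590) (nat_lit 589) (nat_lit 1581) (.f (nat_lit 591) (nat_lit 562) (nat_lit 1582) (.d (nat_lit 494) (nat_lit 462) (nat_lit 4558) (nat_lit 623) (nat_lit 4590))))) (.a (.f (nat_lit 591) (nat_lit 464) (nat_lit 5583) (.f (nat_lit 623) (nat_lit 655) (nat_lit 6671) (.d (nat_lit 494) (nat_lit 462) (nat_lit 4558) (nat_lit 590) (nat_lit 4590)))) (.a (.f (nat_lit 561) (nat_lit 525) (nat_lit 3597) (.f (nat_lit 590) (nat_lit 589) (nat_lit 1581) (.f (nat_lit 562) (nat_lit 591) (nat_lit 1582) (.d (nat_lit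 594) (nat_lit 593) (nat_lit 558) (nat_lit 595) (nat_lit 559))))) (.f (nat_lit 561) (nat_lit 525) (nat_lit 3597) (.f (nat_lit 593) (nat_lit 594) (nat_lit 558) (.d (nat_lit 529) (nat_lit 530) (nat_lit 2574) (nat_lit 625) (nat_lit 7664)))))))) (.a s22622 (.a (.p (nat_lit 464) (.a (.f (nat_lit 463) (nat_lit 431) (nat_lit 7599) (.f (nat_lit 592) (nat_lit 495) (nat_lit 7631) (.d (nat_lit 593) (nat_lit 561) (nat_lit 4560) (nat_lit 625) (nat_lit 4592)))) (.a (.f (nat_lit 431) (nat_lit 463) (nat_lit 7599) (.f (nat_lit 432) (nat_lit 399) (nat_lit 7567) (.f (nat_lit 529) (nat_lit 561) (nat_lit 4528) (.f (nat_lit 497) (nat_lit 400) (nat_lit 4496) (.d (nat_lit 592) (nat_lit 465) (nat_lit 6608) (nat_lit 624) (nat_lit 6640)))))) (.a (.f (nat_lit 431) (nat_lit 463) (nat_lit 7599) (.f (nat_lit 432) (nat_lit 399) (nat_lit 7567) (.d (nat_lit 561) (nat_lit 529) (nat_lit 4528) (nat_lit 593) (nat_lit 4560)))) (.a (.f (nat_lit 463) (nat_lit 431) (nat_lit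 7599) (.f (nat_lit 495) (nat_lit 592) (nat_lit 7631) (.f (nat_lit 494) (nat_lit 590) (nat_lit 6606) (.d (nat_lit 465) (nat_lit 466) (nat_lit 1486) (nat_lit 493) (nat_lit 2509))))) (.f (nat_lit 561) (nat_lit 593) (nat_lit 4560) (.f (nat_lit 529) (nat_lit 432) (nat_lit 4528) (.d (nat_lit 559) (nat_lit 525) (nat_lit 3597) (nat_lit 530) (nat_lit 2574))))))))) (.p (nat_lit 464) (.a (.f (nat_lit 431) (nat_lit 463) (nat_lit 7599) (.f (nat_lit 432) (nat_lit 399) (nat_lit 7567) (.f (nat_lit 529) (nat_lit 561) (nat_lit 4528) (.f (nat_lit 497) (nat_lit 400) (nat_lit 4496) (.d (nat_lit 592) (nat_lit 465) (nat_lit 6608) (nat_lit 624) (nat_lit 6640)))))) (.a (.f (nat_lit 463) (nat_lit 431) (nat_lit 7599) (.f (nat_lit 495) (nat_lit 592) (nat_lit 7631) (.f (nat_lit 494) (nat_lit 590) (nat_lit 6606) (.d (nat_lit 465) (nat_lit 466) (nat_lit 1486) (nat_lit 493) (nat_lit 2509))))) (.f (nat_lit 559) (nat_lit 591) (nat_lit 5583) (.f (nat_lit 561) (nat_lit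 525) (nat_lit 3597) (.d (nat_lit 529) (nat_lit 432) (nat_lit 4528) (nat_lit 530) (nat_lit 2574)))))))))))))) (.a (.p (nat_lit 560) (.a (.p (nat_lit 592) (.a (.f (nat_lit 593) (nat_lit 625) (nat_lit 4592) (.f (nat_lit 559) (nat_lit 557) (nat_lit 557) (.d (nat_lit 561) (nat_lit 525) (nat_lit 3597) (nat_lit 594) (nat_lit 558)))) (.a (.f (nat_lit 497) (nat_lit 465) (nat_lit 6608) (.f (nat_lit 624) (nat_lit 529) (nat_lit 6640) (.d (nat_lit 625) (nat_lit 593) (nat_lit 4592) (nat_lit 657) (nat_lit 4624)))) (.f (nat_lit 497) (nat_lit 465) (nat_lit 6608) (.f (nat_lit 529) (nat_lit 624) (nat_lit 6640) (.f (nat_lit 559) (nat_lit 557) (nat_lit 2573) (.d (nat_lit 530) (nat_lit 531) (nat_lit 1551) (nat_lit 561) (nat_lit 2574)))))))) (.a s21798 (.a (.p (nat_lit 464) (.a (.f (nat_lit 463) (nat_lit 431) (nat_lit 7599) (.f (nat_lit 592) (nat_lit 495) (nat_lit 7631) (.d (nat_lit 593) (nat_lit 561) (nat_lit 4560) (nat_lit 625) (nat_lit 4592)))) (.a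 (.f (nat_lit 431) (nat_lit 463) (nat_lit 7599) (.f (nat_lit 432) (nat_lit 399) (nat_lit 7567) (.f (nat_lit 529) (nat_lit 561) (nat_lit 4528) (.f (nat_lit 497) (nat_lit 400) (nat_lit 4496) (.d (nat_lit 592) (nat_lit 465) (nat_lit 6608) (nat_lit 624) (nat_lit 6640)))))) (.a (.f (nat_lit 431) (nat_lit 463) (nat_lit 7599) (.f (nat_lit 432) (nat_lit 399) (nat_lit 7567) (.d (nat_lit 561) (nat_lit 529) (nat_lit 4528) (nat_lit 593) (nat_lit 4560)))) (.a (.f (nat_lit 463) (nat_lit 431) (nat_lit 7599) (.f (nat_lit 592) (nat_lit 495) (nat_lit 7631) (.f (nat_lit 497) (nat_lit 465) (nat_lit 6608) (.f (nat_lit 624) (nat_lit 529) (nat_lit 6640) (.d (nat_lit 623) (nat_lit 591) (nat_lit 5615) (nat_lit 655) (nat_lit 5647)))))) (.f (nat_lit 593) (nat_lit 561) (nat_lit 4560) (.f (nat_lit 592) (nat_lit 625) (nat_lit 4592) (.f (nat_lit 623) (nat_lit 591) (nat_lit 5615) (.f (nat_lit 624) (nat_lit 655) (nat_lit 5647) (.d (nat_lit 497) (nat_lit 465) (nat_lit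 6608) (nat_lit 529) (nat_lit 6640))))))))))) (.a s22672 (.a s22622 (.p (nat_lit 464) (.a (.f (nat_lit 559) (nat_lit 591) (nat_lit 5583) (.f (nat_lit 525) (nat_lit 561) (nat_lit 3597) (.d (nat_lit 524) (nat_lit 523) (nat_lit 523) (nat_lit 557) (nat_lit 3596)))) (.a (.f (nat_lit 431) (nat_lit 463) (nat_lit 7599) (.f (nat_lit 432) (nat_lit 399) (nat_lit 7567) (.f (nat_lit 529) (nat_lit 561) (nat_lit 4528) (.f (nat_lit 497) (nat_lit 400) (nat_lit 4496) (.d (nat_lit 592) (nat_lit 465) (nat_lit 6608) (nat_lit 624) (nat_lit 6640)))))) (.f (nat_lit 559) (nat_lit 591) (nat_lit 5583) (.f (nat_lit 557) (nat_lit 529) (nat_lit 2573) (.f (nat_lit 525) (nat_lit 524) (nat_lit 3596) (.f (nat_lit 589) (nat_lit 588) (nat_lit 1580) (.d (nat_lit 494) (nat_lit 462) (nat_lit 5581) (nat_lit 621) (nat_lit 6637))))))))))))))) (.p (nat_lit 494) (.a s19062 (.a s21889 (.a s19098 (.a (.p (nat_lit 462) (.a (.f (nat_lit 461) (nat_lit 429) (nat_lit 7597) (.f (nat_lit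 495) (nat_lit 497) (nat_lit 3533) (.d (nat_lit 460) (nat_lit 459) (nat_lit 459) (nat_lit 463) (nat_lit 460)))) (.a (.f (nat_lit 429) (nat_lit 461) (nat_lit 7597) (.f (nat_lit 430) (nat_lit 397) (nat_lit 7565) (.d (nat_lit 431) (nat_lit 399) (nat_lit 6542) (nat_lit 463) (nat_lit 6574)))) (.a (.f (nat_lit 429) (nat_lit 461) (nat_lit 7597) (.f (nat_lit 430) (nat_lit 397) (nat_lit 7565) (.f (nat_lit 525) (nat_lit 557) (nat_lit 5549) (.f (nat_lit 559) (nat_lit 591) (nat_lit 4558) (.f (nat_lit 560) (nat_lit 561) (nat_lit 3597) (.f (nat_lit 497) (nat_lit 495) (nat_lit 1517) (.f (nat_lit 592) (nat_lit 465) (nat_lit 6608) (.f (nat_lit 624) (nat_lit 529) (nat_lit 6640) (.d (nat_lit 625) (nat_lit 593) (nat_lit 4592) (nat_lit 657) (nat_lit 4624)))))))))) (.f (nat_lit 431) (nat_lit 463) (nat_lit 6574) (.f (nat_lit 430) (nat_lit 399) (nat_lit 6542) (.f (nat_lit 525) (nat_lit 557) (nat_lit 5549) (.f (nat_lit 559) (nat_lit 591) (nat_lit 4558) (.f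 (nat_lit 560) (nat_lit 561) (nat_lit 3597) (.f (nat_lit 497) (nat_lit 495) (nat_lit 1517) (.f (nat_lit 592) (nat_lit 465) (nat_lit 6608) (.f (nat_lit 624) (nat_lit 529) (nat_lit 6640) (.d (nat_lit 625) (nat_lit 593) (nat_lit 4592) (nat_lit 657) (nat_lit 4624)))))))))))))) (.a (.p (nat_lit 590) (.a (.f (nat_lit 461) (nat_lit 493) (nat_lit 7629) (.f (nat_lit 462) (nat_lit 429) (nat_lit 7597) (.d (nat_lit 591) (nat_lit 559) (nat_lit 4558) (nat_lit 623) (nat_lit 4590)))) (.a (.f (nat_lit 623) (nat_lit 591) (nat_lit 4590) (.f (nat_lit 622) (nat_lit 655) (nat_lit 4622) (.f (nat_lit 525) (nat_lit 493) (nat_lit 7661) (.f (nat_lit 653) (nat_lit 621) (nat_lit 5645) (.d (nat_lit 654) (nat_lit 557) (nat_lit 7693) (nat_lit 685) (nat_lit 5677)))))) (.a (.f (nat_lit 591) (nat_lit 623) (nat_lit 4590) (.f (nat_lit 559) (nat_lit 462) (nat_lit 4558) (.f (nat_lit 560) (nat_lit 464) (nat_lit 5583) (.d (nat_lit 561) (nat_lit 525) (nat_lit 3597) (nat_lit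 562) (nat_lit 1582))))) (.f (nat_lit 493) (nat_lit 461) (nat_lit 7629) (.f (nat_lit 525) (nat_lit 622) (nat_lit 7661) (.f (nat_lit 524) (nat_lit 495) (nat_lit 1516) (.d (nat_lit 523) (nat_lit 522) (nat_lit 2538) (nat_lit 559) (nat_lit 523))))))))) (.a (.p (nat_lit 495) (.a (.f (nat_lit 590) (nat_lit 463) (nat_lit 6606) (.f (nat_lit 493) (nat_lit 461) (nat_lit 7629) (.d (nat_lit 525) (nat_lit 524) (nat_lit 1516) (nat_lit 622) (nat_lit 7661)))) (.a (.f (nat_lit 463) (nat_lit 590) (nat_lit 6606) (.f (nat_lit 431) (nat_lit 399) (nat_lit 4495) (.d (nat_lit 560) (nat_lit 464) (nat_lit 7599) (nat_lit 592) (nat_lit 7631)))) (.f (nat_lit 493) (nat_lit 529) (nat_lit 493) (.f (nat_lit 525) (nat_lit 524) (nat_lit 1516) (.d (nat_lit 461) (nat_lit 429) (nat_lit 4525) (nat_lit 460) (nat_lit 3532))))))) (.p (nat_lit 495) (.a (.f (nat_lit 529) (nat_lit 493) (nat_lit 493) (.d (nat_lit 530) (nat_lit 497) (nat_lit 494) (nat_lit 531) (nat_lit 3567)))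 (.f (nat_lit 463) (nat_lit 590) (nat_lit 6606) (.f (nat_lit 431) (nat_lit 399) (nat_lit 4495) (.d (nat_lit 560) (nat_lit 464) (nat_lit 7599) (nat_lit 592) (nat_lit 7631))))))))))))))))))))))
noncomputable def s25552 : Cert := .r (nat_lit 1098367625825484467438247097364284163993875080110217258544205943026396696248241072308404078571836755869841676344144564076502155134019001781181805244744332214272) (.p (nat_lit 560) (.a (.f (nat_lit 561) (nat_lit 593) (nat_lit 4560) (.f (nat_lit 529) (nat_lit 432) (nat_lit 4528) (.f (nat_lit 559) (nat_lit 591) (nat_lit 5583) (.d (nat_lit 530) (nat_lit 531) (nat_lit 1551) (nat_lit 558) (nat_lit 2574))))) (.a (.f (nat_lit 591) (nat_lit 559) (nat_lit 5583) (.f (nat_lit 592) (nat_lit 623) (nat_lit 5615) (.d (nat_lit 593) (nat_lit 561) (nat_lit 4560) (nat_lit 625) (nat_lit 4592)))) (.a (.f (nat_lit 431) (nat_lit 463) (nat_lit 7599) (.f (nat_lit 432) (nat_lit 399) (nat_lit 7567) (.f (nat_lit 529) (nat_lit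 561) (nat_lit 4528) (.f (nat_lit 497) (nat_lit 400) (nat_lit 4496) (.d (nat_lit 592) (nat_lit 465) (nat_lit 6608) (nat_lit 624) (nat_lit 6640)))))) (.f (nat_lit 559) (nat_lit 591) (nat_lit 5583) (.f (nat_lit 432) (nat_lit 527) (nat_lit 5551) (.d (nat_lit 431) (nat_lit 399) (nat_lit 7567) (nat_lit 463) (nat_lit 7599))))))))
noncomputable def s25559 : Cert := .r (nat_lit 1098367625825484467438247097364284163993875080110217258544205943026396696248241072308404078571836755869841676344144564076502155134019001781181805244744332214272) (.p (nat_lit 432) (.a (.f (nat_lit 529) (nat_lit 561) (nat_lit 4528) (.f (nat_lit 527) (nat_lit 559) (nat_lit 5551) (.d (nat_lit 400) (nat_lit 495) (nat_lit 5519) (nat_lit 497) (nat_lit 4496)))) (.a (.f (nat_lit 399) (nat_lit 431) (nat_lit 7567) (.f (nat_lit 400) (nat_lit 367) (nat_lit 7535) (.d (nat_lit 527) (nat_lit 495) (nat_lit 5519) (nat_lit 559) (nat_lit 5551)))) (.a (.f (nat_lit 529) (nat_lit 561) (nat_lit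 4528) (.f (nat_lit 400) (nat_lit 497) (nat_lit 4496) (.d (nat_lit 399) (nat_lit 367) (nat_lit 7535) (nat_lit 431) (nat_lit 7567)))) (.f (nat_lit 529) (nat_lit 561) (nat_lit 4528) (.f (nat_lit 527) (nat_lit 559) (nat_lit 5551) (.f (nat_lit 494) (nat_lit 493) (nat_lit 3565) (.f (nat_lit 495) (nat_lit 530) (nat_lit 3566) (.f (nat_lit 431) (nat_lit 399) (nat_lit 7567) (.d (nat_lit 558) (nat_lit 463) (nat_lit 5550) (nat_lit 557) (nat_lit 1549)))))))))))
noncomputable def s25601 : Cert := .r (nat_lit 878694100701304956511192169158242687862212665431883220280182872118455237980908336946979793684870563807462937680039967586724118902039808942127312687095760289792) (.p (nat_lit 526) (.a s19025 (.a s22872 (.a s25547 (.a s19032 (.a s24148 (.a (.p (nat_lit 464) (.a (.p (nat_lit 560) (.a (.f (nat_lit 561) (nat_lit 593) (nat_lit 4560) (.f (nat_lit 529) (nat_lit 432) (nat_lit 4528) (.f (nat_lit 559) (nat_lit 591) (nat_lit 5583) (.d (nat_lit 530) (nat_lit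 531) (nat_lit 1551) (nat_lit 558) (nat_lit 2574))))) (.a (.f (nat_lit 463) (nat_lit 431) (nat_lit 7599) (.f (nat_lit 592) (nat_lit 495) (nat_lit 7631) (.d (nat_lit 591) (nat_lit 559) (nat_lit 5583) (nat_lit 623) (nat_lit 5615)))) (.f (nat_lit 463) (nat_lit 431) (nat_lit 7599) (.f (nat_lit 592) (nat_lit 495) (nat_lit 7631) (.d (nat_lit 593) (nat_lit 561) (nat_lit 4560) (nat_lit 625) (nat_lit 4592))))))) (.a (.p (nat_lit 560) (.a (.f (nat_lit 463) (nat_lit 431) (nat_lit 7599) (.f (nat_lit 592) (nat_lit 495) (nat_lit 7631) (.d (nat_lit 591) (nat_lit 559) (nat_lit 5583) (nat_lit 623) (nat_lit 5615)))) (.a (.f (nat_lit 591) (nat_lit 559) (nat_lit 5583) (.f (nat_lit 592) (nat_lit 623) (nat_lit 5615) (.d (nat_lit 593) (nat_lit 561) (nat_lit 4560) (nat_lit 625) (nat_lit 4592)))) (.a (.f (nat_lit 463) (nat_lit 431) (nat_lit 7599) (.f (nat_lit 592) (nat_lit 495) (nat_lit 7631) (.d (nat_lit 593) (nat_lit 561) (nat_lit 4560) (nat_lit 625) (nat_lit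 4592)))) (.f (nat_lit 559) (nat_lit 591) (nat_lit 5583) (.f (nat_lit 561) (nat_lit 593) (nat_lit 4560) (.f (nat_lit 562) (nat_lit 527) (nat_lit 3598) (.f (nat_lit 531) (nat_lit 530) (nat_lit 2575) (.f (nat_lit 563) (nat_lit 532) (nat_lit 2576) (.d (nat_lit 595) (nat_lit 594) (nat_lit 559) (nat_lit 596) (nat_lit 560))))))))))) (.a s25552 (.a s25559 (.a (.p (nat_lit 560) (.a (.f (nat_lit 463) (nat_lit 431) (nat_lit 7599) (.f (nat_lit 592) (nat_lit 495) (nat_lit 7631) (.d (nat_lit 593) (nat_lit 561) (nat_lit 4560) (nat_lit 625) (nat_lit 4592)))) (.a (.f (nat_lit 431) (nat_lit 463) (nat_lit 7599) (.f (nat_lit 432) (nat_lit 399) (nat_lit 7567) (.f (nat_lit 529) (nat_lit 561) (nat_lit 4528) (.f (nat_lit 497) (nat_lit 400) (nat_lit 4496) (.d (nat_lit 592) (nat_lit 465) (nat_lit 6608) (nat_lit 624) (nat_lit 6640)))))) (.a (.f (nat_lit 561) (nat_lit 593) (nat_lit 4560) (.f (nat_lit 529) (nat_lit 432) (nat_lit 4528) (.f (nat_lit 527) (nat_lit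 562) (nat_lit 526) (.f (nat_lit 494) (nat_lit 493) (nat_lit 3565) (.f (nat_lit 495) (nat_lit 530) (nat_lit 3566) (.f (nat_lit 463) (nat_lit 431) (nat_lit 4527) (.d (nat_lit 558) (nat_lit 557) (nat_lit 1549) (nat_lit 590) (nat_lit 6606)))))))) (.a (.f (nat_lit 463) (nat_lit 431) (nat_lit 7599) (.f (nat_lit 592) (nat_lit 495) (nat_lit 7631) (.f (nat_lit 623) (nat_lit 591) (nat_lit 5615) (.f (nat_lit 624) (nat_lit 655) (nat_lit 5647) (.d (nat_lit 625) (nat_lit 593) (nat_lit 4592) (nat_lit 657) (nat_lit 4624)))))) (.f (nat_lit 561) (nat_lit 593) (nat_lit 4560) (.f (nat_lit 529) (nat_lit 432) (nat_lit 4528) (.f (nat_lit 527) (nat_lit 562) (nat_lit 526) (.f (nat_lit 494) (nat_lit 493) (nat_lit 3565) (.f (nat_lit 495) (nat_lit 530) (nat_lit 3566) (.f (nat_lit 592) (nat_lit 624) (nat_lit 7663) (.f (nat_lit 558) (nat_lit 557) (nat_lit 1549) (.f (nat_lit 590) (nat_lit 622) (nat_lit 6638) (.d (nat_lit 589) (nat_lit 591) (nat_lit 2605) (nat_lit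 621) (nat_lit 5613))))))))))))))) (.a (.p (nat_lit 560) (.a (.f (nat_lit 559) (nat_lit 591) (nat_lit 5583) (.f (nat_lit 527) (nat_lit 432) (nat_lit 5551) (.f (nat_lit 463) (nat_lit 431) (nat_lit 7599) (.f (nat_lit 495) (nat_lit 592) (nat_lit 7631) (.f (nat_lit 558) (nat_lit 590) (nat_lit 5582) (.d (nat_lit 529) (nat_lit 530) (nat_lit 1550) (nat_lit 557) (nat_lit 1549))))))) (.a (.f (nat_lit 463) (nat_lit 431) (nat_lit 7599) (.f (nat_lit 592) (nat_lit 495) (nat_lit 7631) (.d (nat_lit 591) (nat_lit 559) (nat_lit 5583) (nat_lit 623) (nat_lit 5615)))) (.a (.f (nat_lit 559) (nat_lit 591) (nat_lit 5583) (.f (nat_lit 432) (nat_lit 527) (nat_lit 5551) (.d (nat_lit 431) (nat_lit 399) (nat_lit 7567) (nat_lit 463) (nat_lit 7599)))) (.a (.f (nat_lit 463) (nat_lit 431) (nat_lit 7599) (.f (nat_lit 592) (nat_lit 495) (nat_lit 7631) (.f (nat_lit 623) (nat_lit 591) (nat_lit 5615) (.f (nat_lit 624) (nat_lit 655) (nat_lit 5647) (.d (nat_lit 625) (nat_lit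 593) (nat_lit 4592) (nat_lit 657) (nat_lit 4624)))))) (.a (.f (nat_lit 463) (nat_lit 431) (nat_lit 7599) (.f (nat_lit 592) (nat_lit 495) (nat_lit 7631) (.f (nat_lit 497) (nat_lit 465) (nat_lit 6608) (.f (nat_lit 624) (nat_lit 529) (nat_lit 6640) (.d (nat_lit 625) (nat_lit 593) (nat_lit 4592) (nat_lit 657) (nat_lit 4624)))))) (.a (.f (nat_lit 559) (nat_lit 591) (nat_lit 5583) (.f (nat_lit 432) (nat_lit 527) (nat_lit 5551) (.f (nat_lit 399) (nat_lit 431) (nat_lit 7567) (.f (nat_lit 400) (nat_lit 367) (nat_lit 7535) (.f (nat_lit 369) (nat_lit 401) (nat_lit 6512) (.f (nat_lit 368) (nat_lit 337) (nat_lit 6480) (.d (nat_lit 497) (nat_lit 465) (nat_lit 4464) (nat_lit 529) (nat_lit 4496)))))))) (.f (nat_lit 591) (nat_lit 559) (nat_lit 5583) (.f (nat_lit 592) (nat_lit 623) (nat_lit 5615) (.f (nat_lit 495) (nat_lit 463) (nat_lit 7631) (.f (nat_lit 624) (nat_lit 527) (nat_lit 7663) (.d (nat_lit 497) (nat_lit 465) (nat_lit 6608) (nat_lit 529)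 (nat_lit 6640))))))))))))) (.a (.p (nat_lit 560) (.a (.f (nat_lit 561) (nat_lit 593) (nat_lit 4560) (.f (nat_lit 529) (nat_lit 432) (nat_lit 4528) (.f (nat_lit 559) (nat_lit 591) (nat_lit 5583) (.d (nat_lit 530) (nat_lit 531) (nat_lit 1551) (nat_lit 558) (nat_lit 2574))))) (.a (.f (nat_lit 591) (nat_lit 559) (nat_lit 5583) (.f (nat_lit 592) (nat_lit 623) (nat_lit 5615) (.d (nat_lit 593) (nat_lit 561) (nat_lit 4560) (nat_lit 625) (nat_lit 4592)))) (.a (.f (nat_lit 561) (nat_lit 593) (nat_lit 4560) (.f (nat_lit 529) (nat_lit 432) (nat_lit 4528) (.f (nat_lit 527) (nat_lit 562) (nat_lit 526) (.f (nat_lit 494) (nat_lit 493) (nat_lit 3565) (.f (nat_lit 495) (nat_lit 530) (nat_lit 3566) (.f (nat_lit 592) (nat_lit 624) (nat_lit 7663) (.f (nat_lit 558) (nat_lit 557) (nat_lit 1549) (.f (nat_lit 590) (nat_lit 622) (nat_lit 6638) (.d (nat_lit 589) (nat_lit 591) (nat_lit 2605) (nat_lit 621) (nat_lit 5613)))))))))) (.a (.f (nat_lit 559) (nat_lit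 591) (nat_lit 5583) (.f (nat_lit 432) (nat_lit 527) (nat_lit 5551) (.f (nat_lit 399) (nat_lit 431) (nat_lit 7567) (.f (nat_lit 400) (nat_lit 367) (nat_lit 7535) (.f (nat_lit 369) (nat_lit 401) (nat_lit 6512) (.f (nat_lit 368) (nat_lit 337) (nat_lit 6480) (.d (nat_lit 497) (nat_lit 465) (nat_lit 4464) (nat_lit 529) (nat_lit 4496)))))))) (.f (nat_lit 561) (nat_lit 593) (nat_lit 4560) (.f (nat_lit 529) (nat_lit 432) (nat_lit 4528) (.f (nat_lit 527) (nat_lit 562) (nat_lit 526) (.f (nat_lit 558) (nat_lit 557) (nat_lit 1549) (.f (nat_lit 530) (nat_lit 559) (nat_lit 1550) (.d (nat_lit 494) (nat_lit 493) (nat_lit 3565) (nat_lit 495) (nat_lit 3566)))))))))))) (.a (.p (nat_lit 560) (.a (.f (nat_lit 463) (nat_lit 431) (nat_lit 7599) (.f (nat_lit 592) (nat_lit 495) (nat_lit 7631) (.d (nat_lit 591) (nat_lit 559) (nat_lit 5583) (nat_lit 623) (nat_lit 5615)))) (.a (.f (nat_lit 591) (nat_lit 559) (nat_lit 5583) (.f (nat_lit 592) (nat_lit 623) (nat_lit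 5615) (.d (nat_lit 593) (nat_lit 561) (nat_lit 4560) (nat_lit 625) (nat_lit 4592)))) (.a (.f (nat_lit 463) (nat_lit 431) (nat_lit 7599) (.f (nat_lit 592) (nat_lit 495) (nat_lit 7631) (.d (nat_lit 593) (nat_lit 561) (nat_lit 4560) (nat_lit 625) (nat_lit 4592)))) (.f (nat_lit 559) (nat_lit 591) (nat_lit 5583) (.f (nat_lit 432) (nat_lit 527) (nat_lit 5551) (.d (nat_lit 431) (nat_lit 399) (nat_lit 7567) (nat_lit 463) (nat_lit 7599)))))))) s25233))))))))) (.a s19247 (.a s25239 (.a (.p (nat_lit 560) (.a s18940 (.a (.p (nat_lit 592) (.a (.f (nat_lit 495) (nat_lit 463) (nat_lit 7631) (.f (nat_lit 527) (nat_lit 624) (nat_lit 7663) (.d (nat_lit 497) (nat_lit 465) (nat_lit 6608) (nat_lit 525) (nat_lit 2541)))) (.a (.f (nat_lit 623) (nat_lit 591) (nat_lit 5615) (.f (nat_lit 624) (nat_lit 655) (nat_lit 5647) (.d (nat_lit 625) (nat_lit 593) (nat_lit 4592) (nat_lit 657) (nat_lit 4624)))) (.f (nat_lit 495) (nat_lit 463) (nat_lit 7631) (.f (nat_lit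 497) (nat_lit 465) (nat_lit 6608) (.d (nat_lit 525) (nat_lit 494) (nat_lit 1517) (nat_lit 527) (nat_lit 2541))))))) (.a s18995 (.a (.p (nat_lit 561) (.a (.f (nat_lit 527) (nat_lit 525) (nat_lit 525) (.d (nat_lit 562) (nat_lit 529) (nat_lit 526) (nat_lit 559) (nat_lit 3598))) (.a (.f (nat_lit 527) (nat_lit 525) (nat_lit 525) (.d (nat_lit 562) (nat_lit 559) (nat_lit 3598) (nat_lit 563) (nat_lit 3599))) (.f (nat_lit 593) (nat_lit 464) (nat_lit 4560) (.d (nat_lit 625) (nat_lit 529) (nat_lit 7664) (nat_lit 657) (nat_lit 7696)))))) (.p (nat_lit 592) (.a (.f (nat_lit 497) (nat_lit 465) (nat_lit 6608) (.f (nat_lit 624) (nat_lit 529) (nat_lit 6640) (.d (nat_lit 625) (nat_lit 593) (nat_lit 4592) (nat_lit 657) (nat_lit 4624)))) (.a (.f (nat_lit 593) (nat_lit 625) (nat_lit 4592) (.f (nat_lit 464) (nat_lit 561) (nat_lit 4560) (.d (nat_lit 463) (nat_lit 431) (nat_lit 7599) (nat_lit 495) (nat_lit 7631)))) (.f (nat_lit 495) (nat_lit 463) (nat_lit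 7631) (.f (nat_lit 624) (nat_lit 527) (nat_lit 7663) (.d (nat_lit 497) (nat_lit 465) (nat_lit 6608) (nat_lit 529) (nat_lit 6640)))))))))))) (.a s22992 (.p (nat_lit 560) (.a s18927 (.a (.p (nat_lit 592) (.a (.f (nat_lit 495) (nat_lit 463) (nat_lit 7631) (.f (nat_lit 527) (nat_lit 624) (nat_lit 7663) (.d (nat_lit 497) (nat_lit 465) (nat_lit 6608) (nat_lit 525) (nat_lit 2541)))) (.a (.f (nat_lit 623) (nat_lit 591) (nat_lit 5615) (.f (nat_lit 624) (nat_lit 655) (nat_lit 5647) (.d (nat_lit 625) (nat_lit 593) (nat_lit 4592) (nat_lit 657) (nat_lit 4624)))) (.f (nat_lit 495) (nat_lit 463) (nat_lit 7631) (.f (nat_lit 497) (nat_lit 465) (nat_lit 6608) (.d (nat_lit 525) (nat_lit 494) (nat_lit 1517) (nat_lit 527) (nat_lit 2541))))))) (.a (.p (nat_lit 464) (.a (.f (nat_lit 561) (nat_lit 593) (nat_lit 4560) (.f (nat_lit 529) (nat_lit 432) (nat_lit 4528) (.f (nat_lit 559) (nat_lit 591) (nat_lit 5583) (.d (nat_lit 530) (nat_lit 531) (nat_lit 1551)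 (nat_lit 558) (nat_lit 2574))))) (.a (.f (nat_lit 463) (nat_lit 431) (nat_lit 7599) (.f (nat_lit 592) (nat_lit 495) (nat_lit 7631) (.d (nat_lit 591) (nat_lit 559) (nat_lit 5583) (nat_lit 623) (nat_lit 5615)))) (.f (nat_lit 463) (nat_lit 431) (nat_lit 7599) (.f (nat_lit 592) (nat_lit 495) (nat_lit 7631) (.d (nat_lit 593) (nat_lit 561) (nat_lit 4560) (nat_lit 625) (nat_lit 4592))))))) (.a s19283 s18940))))))))))))))))
noncomputable def s25629 : Cert := .r (nat_lit 1098367625825484467438247097364284163993875080110217258544205943026396696248241072308404078571836755869841676344144564076502155134019001781181805244744332214272) (.p (nat_lit 527) (.a (.f (nat_lit 432) (nat_lit 559) (nat_lit 5551) (.f (nat_lit 529) (nat_lit 561) (nat_lit 4528) (.f (nat_lit 400) (nat_lit 497) (nat_lit 4496) (.d (nat_lit 399) (nat_lit 367) (nat_lit 7535) (nat_lit 431) (nat_lit 7567))))) (.a (.f (nat_lit 432) (nat_lit 559) (nat_lit 5551) (.f (nat_lit 399) (nat_lit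 431) (nat_lit 7567) (.f (nat_lit 400) (nat_lit 367) (nat_lit 7535) (.d (nat_lit 401) (nat_lit 369) (nat_lit 6512) (nat_lit 433) (nat_lit 6544))))) (.f (nat_lit 525) (nat_lit 497) (nat_lit 2541) (.f (nat_lit 556) (nat_lit 557) (nat_lit 1548) (.f (nat_lit 524) (nat_lit 555) (nat_lit 1547) (.d (nat_lit 492) (nat_lit 491) (nat_lit 3563) (nat_lit 493) (nat_lit 3564))))))))
noncomputable def s25634 : Cert := .r (nat_lit 943490607303752963937019840886057434177033664931875938883905600411634630746106260497667102478139433991455298517019633324992605640886346785690119740517314869782049193984) (.p (nat_lit 462) (.a (.f (nat_lit 429) (nat_lit 461) (nat_lit 7597) (.f (nat_lit 430) (nat_lit 397) (nat_lit 7565) (.d (nat_lit 431) (nat_lit 399) (nat_lit 6542) (nat_lit 463) (nat_lit 6574)))) (.a (.f (nat_lit 461) (nat_lit 429) (nat_lit 7597) (.f (nat_lit 590) (nat_lit 493) (nat_lit 7629) (.d (nat_lit 589) (nat_lit 557) (nat_lit 5581) (nat_lit 621) (nat_lit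 5613)))) (.a s19599 (.f (nat_lit 463) (nat_lit 431) (nat_lit 6574) (.f (nat_lit 589) (nat_lit 557) (nat_lit 5581) (.f (nat_lit 590) (nat_lit 621) (nat_lit 5613) (.f (nat_lit 493) (nat_lit 461) (nat_lit 7629) (.f (nat_lit 623) (nat_lit 591) (nat_lit 4590) (.f (nat_lit 622) (nat_lit 655) (nat_lit 4622) (.f (nat_lit 625) (nat_lit 624) (nat_lit 3661) (.f (nat_lit 529) (nat_lit 527) (nat_lit 3565) (.f (nat_lit 464) (nat_lit 465) (nat_lit 1485) (.d (nat_lit 561) (nat_lit 432) (nat_lit 4528) (nat_lit 593) (nat_lit 7664)))))))))))))))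
noncomputable def s25776 : Cert := .r (nat_lit 878694100701304956511192169158242687862212665431883220280182872118455237980908336946979793684870563807462937680039967586724118902039808942127312687095760289792) (.p (nat_lit 526) (.a s19004 (.a (.p (nat_lit 560) (.a s18960 (.a (.p (nat_lit 464) (.a (.f (nat_lit 433) (nat_lit 465) (nat_lit 6576) (.f (nat_lit 432) (nat_lit 401) (nat_lit 6544) (.d (nat_lit 431) (nat_lit 399) (nat_lit 7567) (nat_lit 463) (nat_lit 7599)))) (.a (.f (nat_lit 465) (nat_lit 433) (nat_lit 6576) (.f (nat_lit 592) (nat_lit 497) (nat_lit 6608) (.d (nat_lit 591) (nat_lit 559) (nat_lit 5583) (nat_lit 623) (nat_lit 5615)))) (.f (nat_lit 591) (nat_lit 559) (nat_lit 5583) (.f (nat_lit 592) (nat_lit 623) (nat_lit 5615) (.d (nat_lit 593) (nat_lit 561) (nat_lit 4560) (nat_lit 625) (nat_lit 4592))))))) (.a s25016 (.a s19001 (.a (.p (nat_lit 464) (.a (.f (nat_lit 433) (nat_lit 465) (nat_lit 6576) (.f (nat_lit 432) (nat_lit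 401) (nat_lit 6544) (.d (nat_lit 431) (nat_lit 399) (nat_lit 7567) (nat_lit 463) (nat_lit 7599)))) (.a (.f (nat_lit 465) (nat_lit 433) (nat_lit 6576) (.f (nat_lit 463) (nat_lit 431) (nat_lit 7599) (.f (nat_lit 559) (nat_lit 591) (nat_lit 5583) (.f (nat_lit 561) (nat_lit 593) (nat_lit 4560) (.f (nat_lit 558) (nat_lit 525) (nat_lit 3597) (.f (nat_lit 590) (nat_lit 589) (nat_lit 1581) (.f (nat_lit 494) (nat_lit 495) (nat_lit 6606) (.d (nat_lit 493) (nat_lit 461) (nat_lit 7629) (nat_lit 462) (nat_lit 1485))))))))) (.a (.f (nat_lit 465) (nat_lit 433) (nat_lit 6576) (.f (nat_lit 559) (nat_lit 591) (nat_lit 5583) (.f (nat_lit 561) (nat_lit 593) (nat_lit 4560) (.f (nat_lit 558) (nat_lit 525) (nat_lit 3597) (.f (nat_lit 589) (nat_lit 590) (nat_lit 1581) (.f (nat_lit 557) (nat_lit 588) (nat_lit 1580) (.f (nat_lit 494) (nat_lit 462) (nat_lit 5581) (.f (nat_lit 495) (nat_lit 493) (nat_lit 2509) (.d (nat_lit 466) (nat_lit 467) (nat_lit 1487)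 (nat_lit 497) (nat_lit 2510)))))))))) (.f (nat_lit 463) (nat_lit 431) (nat_lit 7599) (.f (nat_lit 559) (nat_lit 591) (nat_lit 5583) (.f (nat_lit 561) (nat_lit 593) (nat_lit 4560) (.f (nat_lit 558) (nat_lit 525) (nat_lit 3597) (.f (nat_lit 590) (nat_lit 589) (nat_lit 1581) (.f (nat_lit 494) (nat_lit 495) (nat_lit 6606) (.f (nat_lit 461) (nat_lit 493) (nat_lit 7629) (.d (nat_lit 462) (nat_lit 429) (nat_lit 7597) (nat_lit 497) (nat_lit 461))))))))))))) (.a (.p (nat_lit 464) (.a (.f (nat_lit 433) (nat_lit 465) (nat_lit 6576) (.f (nat_lit 432) (nat_lit 401) (nat_lit 6544) (.d (nat_lit 431) (nat_lit 399) (nat_lit 7567) (nat_lit 463) (nat_lit 7599)))) (.a (.f (nat_lit 463) (nat_lit 431) (nat_lit 7599) (.f (nat_lit 592) (nat_lit 495) (nat_lit 7631) (.d (nat_lit 591) (nat_lit 559) (nat_lit 5583) (nat_lit 623) (nat_lit 5615)))) (.f (nat_lit 591) (nat_lit 559) (nat_lit 5583) (.f (nat_lit 592) (nat_lit 623) (nat_lit 5615) (.d (nat_lit 593) (nat_lit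 561) (nat_lit 4560) (nat_lit 625) (nat_lit 4592))))))) (.a (.p (nat_lit 464) (.a (.f (nat_lit 465) (nat_lit 433) (nat_lit 6576) (.f (nat_lit 592) (nat_lit 497) (nat_lit 6608) (.d (nat_lit 591) (nat_lit 559) (nat_lit 5583) (nat_lit 623) (nat_lit 5615)))) (.a (.f (nat_lit 465) (nat_lit 433) (nat_lit 6576) (.f (nat_lit 592) (nat_lit 497) (nat_lit 6608) (.d (nat_lit 593) (nat_lit 561) (nat_lit 4560) (nat_lit 625) (nat_lit 4592)))) (.a (.f (nat_lit 465) (nat_lit 433) (nat_lit 6576) (.f (nat_lit 559) (nat_lit 591) (nat_lit 5583) (.f (nat_lit 561) (nat_lit 593) (nat_lit 4560) (.f (nat_lit 558) (nat_lit 525) (nat_lit 3597) (.f (nat_lit 589) (nat_lit 590) (nat_lit 1581) (.f (nat_lit 557) (nat_lit 588) (nat_lit 1580) (.f (nat_lit 494) (nat_lit 462) (nat_lit 5581) (.f (nat_lit 495) (nat_lit 493) (nat_lit 2509) (.d (nat_lit 466) (nat_lit 467) (nat_lit 1487) (nat_lit 497) (nat_lit 2510)))))))))) (.f (nat_lit 591) (nat_lit 559) (nat_lit 5583)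 (.f (nat_lit 592) (nat_lit 623) (nat_lit 5615) (.d (nat_lit 593) (nat_lit 561) (nat_lit 4560) (nat_lit 625) (nat_lit 4592)))))))) (.p (nat_lit 464) (.a (.f (nat_lit 463) (nat_lit 431) (nat_lit 7599) (.f (nat_lit 592) (nat_lit 495) (nat_lit 7631) (.d (nat_lit 591) (nat_lit 559) (nat_lit 5583) (nat_lit 623) (nat_lit 5615)))) (.a (.f (nat_lit 591) (nat_lit 559) (nat_lit 5583) (.f (nat_lit 592) (nat_lit 623) (nat_lit 5615) (.d (nat_lit 593) (nat_lit 561) (nat_lit 4560) (nat_lit 625) (nat_lit 4592)))) (.a (.f (nat_lit 463) (nat_lit 431) (nat_lit 7599) (.f (nat_lit 592) (nat_lit 495) (nat_lit 7631) (.d (nat_lit 593) (nat_lit 561) (nat_lit 4560) (nat_lit 625) (nat_lit 4592)))) (.f (nat_lit 463) (nat_lit 431) (nat_lit 7599) (.f (nat_lit 559) (nat_lit 591) (nat_lit 5583) (.f (nat_lit 561) (nat_lit 593) (nat_lit 4560) (.f (nat_lit 558) (nat_lit 525) (nat_lit 3597) (.f (nat_lit 590) (nat_lit 589) (nat_lit 1581) (.f (nat_lit 494) (nat_lit 495)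 (nat_lit 6606) (.f (nat_lit 461) (nat_lit 493) (nat_lit 7629) (.d (nat_lit 462) (nat_lit 429) (nat_lit 7597) (nat_lit 497) (nat_lit 461))))))))))))))))))))) (.a (.p (nat_lit 464) (.a (.p (nat_lit 560) (.a (.f (nat_lit 561) (nat_lit 593) (nat_lit 4560) (.f (nat_lit 529) (nat_lit 432) (nat_lit 4528) (.f (nat_lit 559) (nat_lit 591) (nat_lit 5583) (.d (nat_lit 530) (nat_lit 531) (nat_lit 1551) (nat_lit 558) (nat_lit 2574))))) (.a (.f (nat_lit 433) (nat_lit 465) (nat_lit 6576) (.f (nat_lit 432) (nat_lit 401) (nat_lit 6544) (.d (nat_lit 431) (nat_lit 399) (nat_lit 7567) (nat_lit 463) (nat_lit 7599)))) (.f (nat_lit 465) (nat_lit 433) (nat_lit 6576) (.f (nat_lit 592) (nat_lit 497) (nat_lit 6608) (.d (nat_lit 591) (nat_lit 559) (nat_lit 5583) (nat_lit 623) (nat_lit 5615))))))) (.a (.p (nat_lit 560) (.a (.f (nat_lit 433) (nat_lit 465) (nat_lit 6576) (.f (nat_lit 432) (nat_lit 401) (nat_lit 6544) (.d (nat_lit 431) (nat_lit 399) (nat_lit 7567)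 (nat_lit 463) (nat_lit 7599)))) (.a (.f (nat_lit 465) (nat_lit 433) (nat_lit 6576) (.f (nat_lit 592) (nat_lit 497) (nat_lit 6608) (.d (nat_lit 591) (nat_lit 559) (nat_lit 5583) (nat_lit 623) (nat_lit 5615)))) (.f (nat_lit 591) (nat_lit 559) (nat_lit 5583) (.f (nat_lit 592) (nat_lit 623) (nat_lit 5615) (.d (nat_lit 593) (nat_lit 561) (nat_lit 4560) (nat_lit 625) (nat_lit 4592))))))) (.a s25629 (.a (.p (nat_lit 560) (.a (.f (nat_lit 433) (nat_lit 465) (nat_lit 6576) (.f (nat_lit 432) (nat_lit 401) (nat_lit 6544) (.d (nat_lit 431) (nat_lit 399) (nat_lit 7567) (nat_lit 463) (nat_lit 7599)))) (.a (.f (nat_lit 465) (nat_lit 433) (nat_lit 6576) (.f (nat_lit 592) (nat_lit 497) (nat_lit 6608) (.d (nat_lit 593) (nat_lit 561) (nat_lit 4560) (nat_lit 625) (nat_lit 4592)))) (.a (.f (nat_lit 431) (nat_lit 463) (nat_lit 7599) (.f (nat_lit 432) (nat_lit 399) (nat_lit 7567) (.f (nat_lit 529) (nat_lit 561) (nat_lit 4528) (.f (nat_lit 497) (nat_lit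 400) (nat_lit 4496) (.d (nat_lit 592) (nat_lit 465) (nat_lit 6608) (nat_lit 624) (nat_lit 6640)))))) (.f (nat_lit 431) (nat_lit 463) (nat_lit 7599) (.f (nat_lit 432) (nat_lit 399) (nat_lit 7567) (.f (nat_lit 401) (nat_lit 433) (nat_lit 6544) (.f (nat_lit 400) (nat_lit 369) (nat_lit 6512) (.d (nat_lit 529) (nat_lit 497) (nat_lit 4496) (nat_lit 561) (nat_lit 4528)))))))))) (.a (.p (nat_lit 560) (.a (.f (nat_lit 465) (nat_lit 433) (nat_lit 6576) (.f (nat_lit 592) (nat_lit 497) (nat_lit 6608) (.d (nat_lit 591) (nat_lit 559) (nat_lit 5583) (nat_lit 623) (nat_lit 5615)))) (.a (.f (nat_lit 465) (nat_lit 433) (nat_lit 6576) (.f (nat_lit 592) (nat_lit 497) (nat_lit 6608) (.d (nat_lit 593) (nat_lit 561) (nat_lit 4560) (nat_lit 625) (nat_lit 4592)))) (.f (nat_lit 559) (nat_lit 591) (nat_lit 5583) (.f (nat_lit 561) (nat_lit 593) (nat_lit 4560) (.f (nat_lit 558) (nat_lit 525) (nat_lit 3597) (.d (nat_lit 529) (nat_lit 530) (nat_lit 2574) (nat_lit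 557) (nat_lit 2573)))))))) (.a (.p (nat_lit 560) (.a (.f (nat_lit 559) (nat_lit 591) (nat_lit 5583) (.f (nat_lit 527) (nat_lit 432) (nat_lit 5551) (.d (nat_lit 525) (nat_lit 497) (nat_lit 2541) (nat_lit 524) (nat_lit 524)))) (.a (.f (nat_lit 433) (nat_lit 465) (nat_lit 6576) (.f (nat_lit 432) (nat_lit 401) (nat_lit 6544) (.d (nat_lit 431) (nat_lit 399) (nat_lit 7567) (nat_lit 463) (nat_lit 7599)))) (.f (nat_lit 465) (nat_lit 433) (nat_lit 6576) (.f (nat_lit 592) (nat_lit 497) (nat_lit 6608) (.d (nat_lit 591) (nat_lit 559) (nat_lit 5583) (nat_lit 623) (nat_lit 5615))))))) (.a s25232 s25552)))))))) (.a s24055 (.a s22872 (.a (.p (nat_lit 494) (.a s23595 (.a s24030 (.a s25473 (.a (.p (nat_lit 558) (.a (.p (nat_lit 462) (.a (.f (nat_lit 557) (nat_lit 589) (nat_lit 5581) (.f (nat_lit 525) (nat_lit 430) (nat_lit 5549) (.d (nat_lit 527) (nat_lit 497) (nat_lit 2541) (nat_lit 556) (nat_lit 1548)))) (.a (.f (nat_lit 429) (nat_lit 461) (nat_lit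 7597) (.f (nat_lit 430) (nat_lit 397) (nat_lit 7565) (.d (nat_lit 431) (nat_lit 399) (nat_lit 6542) (nat_lit 463) (nat_lit 6574)))) (.f (nat_lit 461) (nat_lit 429) (nat_lit 7597) (.f (nat_lit 463) (nat_lit 431) (nat_lit 6574) (.f (nat_lit 493) (nat_lit 590) (nat_lit 7629) (.d (nat_lit 464) (nat_lit 465) (nat_lit 1485) (nat_lit 492) (nat_lit 1484)))))))) (.a s23695 (.a (.p (nat_lit 590) (.a (.f (nat_lit 493) (nat_lit 461) (nat_lit 7629) (.f (nat_lit 622) (nat_lit 525) (nat_lit 7661) (.d (nat_lit 621) (nat_lit 589) (nat_lit 5613) (nat_lit 653) (nat_lit 5645)))) (.a (.f (nat_lit 623) (nat_lit 591) (nat_lit 4590) (.f (nat_lit 622) (nat_lit 655) (nat_lit 4622) (.d (nat_lit 621) (nat_lit 589) (nat_lit 5613) (nat_lit 653) (nat_lit 5645)))) (.f (nat_lit 493) (nat_lit 461) (nat_lit 7629) (.f (nat_lit 527) (nat_lit 529) (nat_lit 3565) (.d (nat_lit 492) (nat_lit 491) (nat_lit 491) (nat_lit 525) (nat_lit 3564))))))) (.a s25634 (.a (.p (nat_lit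 462) (.a (.f (nat_lit 557) (nat_lit 589) (nat_lit 5581) (.f (nat_lit 525) (nat_lit 430) (nat_lit 5549) (.d (nat_lit 527) (nat_lit 497) (nat_lit 2541) (nat_lit 556) (nat_lit 1548)))) (.a (.f (nat_lit 429) (nat_lit 461) (nat_lit 7597) (.f (nat_lit 430) (nat_lit 397) (nat_lit 7565) (.d (nat_lit 431) (nat_lit 399) (nat_lit 6542) (nat_lit 463) (nat_lit 6574)))) (.f (nat_lit 557) (nat_lit 589) (nat_lit 5581) (.f (nat_lit 527) (nat_lit 529) (nat_lit 1549) (.d (nat_lit 556) (nat_lit 525) (nat_lit 1548) (nat_lit 555) (nat_lit 2571))))))) (.a s24447 (.p (nat_lit 527) (.a (.f (nat_lit 525) (nat_lit 497) (nat_lit 2541) (.f (nat_lit 493) (nat_lit 492) (nat_lit 3564) (.d (nat_lit 461) (nat_lit 429) (nat_lit 4525) (nat_lit 590) (nat_lit 7629)))) (.a (.d (nat_lit 529) (nat_lit 493) (nat_lit 3565) (nat_lit 557) (nat_lit 1549)) (.f (nat_lit 557) (nat_lit 529) (nat_lit 1549) (.d (nat_lit 525) (nat_lit 497) (nat_lit 2541) (nat_lit 556) (nat_lit 1548)))))))))))))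 (.a (.p (nat_lit 558) (.a s19098 (.a s21569 (.a s25634 (.a (.p (nat_lit 590) (.a (.f (nat_lit 495) (nat_lit 463) (nat_lit 6606) (.f (nat_lit 527) (nat_lit 622) (nat_lit 6638) (.d (nat_lit 493) (nat_lit 461) (nat_lit 7629) (nat_lit 492) (nat_lit 492)))) (.a (.f (nat_lit 495) (nat_lit 463) (nat_lit 6606) (.d (nat_lit 493) (nat_lit 461) (nat_lit 7629) (nat_lit 529) (nat_lit 493))) (.f (nat_lit 623) (nat_lit 591) (nat_lit 4590) (.f (nat_lit 622) (nat_lit 655) (nat_lit 4622) (.d (nat_lit 621) (nat_lit 589) (nat_lit 5613) (nat_lit 653) (nat_lit 5645))))))) (.a s24006 (.a s24007 (.a s24008 (.p (nat_lit 590) (.a (.f (nat_lit 623) (nat_lit 591) (nat_lit 4590) (.f (nat_lit 622) (nat_lit 655) (nat_lit 4622) (.d (nat_lit 621) (nat_lit 589) (nat_lit 5613) (nat_lit 653) (nat_lit 5645)))) (.f (nat_lit 495) (nat_lit 463) (nat_lit 6606) (.f (nat_lit 529) (nat_lit 493) (nat_lit 493) (.d (nat_lit 530) (nat_lit 497) (nat_lit 494) (nat_lit 531) (nat_lit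 3567)))))))))))))) (.a s24046 (.a (.p (nat_lit 558) (.a (.p (nat_lit 590) (.a (.f (nat_lit 495) (nat_lit 463) (nat_lit 6606) (.f (nat_lit 527) (nat_lit 622) (nat_lit 6638) (.d (nat_lit 493) (nat_lit 461) (nat_lit 7629) (nat_lit 492) (nat_lit 492)))) (.a (.f (nat_lit 495) (nat_lit 463) (nat_lit 6606) (.d (nat_lit 493) (nat_lit 461) (nat_lit 7629) (nat_lit 529) (nat_lit 493))) (.f (nat_lit 623) (nat_lit 591) (nat_lit 4590) (.f (nat_lit 622) (nat_lit 655) (nat_lit 4622) (.d (nat_lit 621) (nat_lit 589) (nat_lit 5613) (nat_lit 653) (nat_lit 5645))))))) (.a s21690 (.a s23695 (.a s21891 (.a (.p (nat_lit 590) (.a (.f (nat_lit 493) (nat_lit 461) (nat_lit 7629) (.f (nat_lit 622) (nat_lit 525) (nat_lit 7661) (.d (nat_lit 621) (nat_lit 589) (nat_lit 5613) (nat_lit 653) (nat_lit 5645)))) (.a (.f (nat_lit 623) (nat_lit 591) (nat_lit 4590) (.f (nat_lit 622) (nat_lit 655) (nat_lit 4622) (.d (nat_lit 621) (nat_lit 589) (nat_lit 5613) (nat_lit 653)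 (nat_lit 5645)))) (.f (nat_lit 493) (nat_lit 461) (nat_lit 7629) (.f (nat_lit 527) (nat_lit 529) (nat_lit 3565) (.d (nat_lit 492) (nat_lit 491) (nat_lit 491) (nat_lit 525) (nat_lit 3564))))))) (.a s23816 s25497))))))) (.a (.p (nat_lit 558) (.a (.p (nat_lit 462) (.a (.f (nat_lit 461) (nat_lit 429) (nat_lit 7597) (.f (nat_lit 495) (nat_lit 497) (nat_lit 3533) (.d (nat_lit 460) (nat_lit 459) (nat_lit 459) (nat_lit 463) (nat_lit 460)))) (.a (.f (nat_lit 557) (nat_lit 589) (nat_lit 5581) (.f (nat_lit 525) (nat_lit 430) (nat_lit 5549) (.d (nat_lit 527) (nat_lit 497) (nat_lit 2541) (nat_lit 556) (nat_lit 1548)))) (.f (nat_lit 463) (nat_lit 431) (nat_lit 6574) (.f (nat_lit 495) (nat_lit 590) (nat_lit 6606) (.d (nat_lit 461) (nat_lit 429) (nat_lit 7597) (nat_lit 460) (nat_lit 460))))))) (.a s21891 (.a (.p (nat_lit 462) (.a (.f (nat_lit 557) (nat_lit 589) (nat_lit 5581) (.f (nat_lit 525) (nat_lit 430) (nat_lit 5549) (.d (nat_lit 527) (nat_lit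 497) (nat_lit 2541) (nat_lit 556) (nat_lit 1548)))) (.a (.f (nat_lit 429) (nat_lit 461) (nat_lit 7597) (.f (nat_lit 430) (nat_lit 397) (nat_lit 7565) (.d (nat_lit 431) (nat_lit 399) (nat_lit 6542) (nat_lit 463) (nat_lit 6574)))) (.f (nat_lit 557) (nat_lit 589) (nat_lit 5581) (.f (nat_lit 527) (nat_lit 529) (nat_lit 1549) (.d (nat_lit 556) (nat_lit 525) (nat_lit 1548) (nat_lit 555) (nat_lit 2571))))))) (.a s24006 (.a (.p (nat_lit 462) (.a (.f (nat_lit 557) (nat_lit 589) (nat_lit 5581) (.f (nat_lit 525) (nat_lit 430) (nat_lit 5549) (.d (nat_lit 527) (nat_lit 497) (nat_lit 2541) (nat_lit 556) (nat_lit 1548)))) (.a (.f (nat_lit 429) (nat_lit 461) (nat_lit 7597) (.f (nat_lit 430) (nat_lit 397) (nat_lit 7565) (.d (nat_lit 557) (nat_lit 525) (nat_lit 5549) (nat_lit 589) (nat_lit 5581)))) (.a (.f (nat_lit 461) (nat_lit 429) (nat_lit 7597) (.f (nat_lit 495) (nat_lit 497) (nat_lit 3533) (.f (nat_lit 589) (nat_lit 557) (nat_lit 5581) (.f (nat_lit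 590) (nat_lit 621) (nat_lit 5613) (.f (nat_lit 527) (nat_lit 622) (nat_lit 6638) (.f (nat_lit 529) (nat_lit 530) (nat_lit 3566) (.f (nat_lit 430) (nat_lit 398) (nat_lit 4494) (.f (nat_lit 431) (nat_lit 399) (nat_lit 6542) (.f (nat_lit 432) (nat_lit 433) (nat_lit 1453) (.d (nat_lit 464) (nat_lit 400) (nat_lit 5519) (nat_lit 561) (nat_lit 4528))))))))))) (.a (.f (nat_lit 429) (nat_lit 461) (nat_lit 7597) (.f (nat_lit 430) (nat_lit 397) (nat_lit 7565) (.f (nat_lit 399) (nat_lit 431) (nat_lit 6542) (.f (nat_lit 398) (nat_lit 367) (nat_lit 6510) (.f (nat_lit 495) (nat_lit 527) (nat_lit 4494) (.f (nat_lit 497) (nat_lit 525) (nat_lit 1517) (.f (nat_lit 465) (nat_lit 466) (nat_lit 2510) (.d (nat_lit 401) (nat_lit 400) (nat_lit 1421) (nat_lit 433) (nat_lit 5520))))))))) (.f (nat_lit 557) (nat_lit 589) (nat_lit 5581) (.f (nat_lit 527) (nat_lit 529) (nat_lit 1549) (.d (nat_lit 556) (nat_lit 525) (nat_lit 1548) (nat_lit 555) (nat_lit 2571)))))))))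 (.a (.p (nat_lit 590) (.a (.f (nat_lit 495) (nat_lit 463) (nat_lit 6606) (.f (nat_lit 525) (nat_lit 497) (nat_lit 1517) (.d (nat_lit 524) (nat_lit 523) (nat_lit 2539) (nat_lit 527) (nat_lit 2540)))) (.f (nat_lit 623) (nat_lit 591) (nat_lit 4590) (.f (nat_lit 622) (nat_lit 655) (nat_lit 4622) (.d (nat_lit 621) (nat_lit 589) (nat_lit 5613) (nat_lit 653) (nat_lit 5645)))))) s22701))))))) (.a s22869 (.a s22851 (.p (nat_lit 495) (.a (.f (nat_lit 493) (nat_lit 529) (nat_lit 493) (.d (nat_lit 525) (nat_lit 497) (nat_lit 1517) (nat_lit 524) (nat_lit 1516))) (.a (.f (nat_lit 525) (nat_lit 497) (nat_lit 1517) (.d (nat_lit 524) (nat_lit 493) (nat_lit 1516) (nat_lit 523) (nat_lit 2539))) (.a (.f (nat_lit 493) (nat_lit 529) (nat_lit 493) (.f (nat_lit 461) (nat_lit 460) (nat_lit 3532) (.f (nat_lit 462) (nat_lit 497) (nat_lit 3533) (.d (nat_lit 429) (nat_lit 397) (nat_lit 4493) (nat_lit 558) (nat_lit 7597))))) (.a (.f (nat_lit 493) (nat_lit 529)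 (nat_lit 493) (.f (nat_lit 461) (nat_lit 460) (nat_lit 3532) (.f (nat_lit 525) (nat_lit 524) (nat_lit 1516) (.d (nat_lit 429) (nat_lit 397) (nat_lit 4493) (nat_lit 558) (nat_lit 4525))))) (.f (nat_lit 497) (nat_lit 525) (nat_lit 1517) (.f (nat_lit 462) (nat_lit 461) (nat_lit 3533) (.f (nat_lit 529) (nat_lit 530) (nat_lit 494) (.f (nat_lit 465) (nat_lit 466) (nat_lit 2510) (.f (nat_lit 433) (nat_lit 401) (nat_lit 5520) (.f (nat_lit 432) (nat_lit 400) (nat_lit 7568) (.f (nat_lit 464) (nat_lit 561) (nat_lit 4528) (.d (nat_lit 434) (nat_lit 402) (nat_lit 6545) (nat_lit 463) (nat_lit 2478))))))))))))))))))))))))) (.a (.p (nat_lit 558) (.a s19136 (.a s21701 (.a s21905 (.a (.p (nat_lit 560) (.a s22108 (.a (.p (nat_lit 464) (.a (.f (nat_lit 431) (nat_lit 463) (nat_lit 7599) (.f (nat_lit 432) (nat_lit 399) (nat_lit 7567) (.d (nat_lit 433) (nat_lit 401) (nat_lit 6544) (nat_lit 465) (nat_lit 6576)))) (.f (nat_lit 593) (nat_lit 561) (nat_lit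 4560) (.f (nat_lit 592) (nat_lit 625) (nat_lit 4592) (.f (nat_lit 591) (nat_lit 623) (nat_lit 5615) (.f (nat_lit 590) (nat_lit 557) (nat_lit 3629) (.f (nat_lit 621) (nat_lit 622) (nat_lit 1613) (.d (nat_lit 589) (nat_lit 494) (nat_lit 5613) (nat_lit 620) (nat_lit 1612))))))))) (.a (.p (nat_lit 559) (.a (.f (nat_lit 529) (nat_lit 557) (nat_lit 2573) (.d (nat_lit 530) (nat_lit 531) (nat_lit 1551) (nat_lit 561) (nat_lit 2574))) (.f (nat_lit 591) (nat_lit 464) (nat_lit 5583) (.d (nat_lit 623) (nat_lit 527) (nat_lit 6639) (nat_lit 655) (nat_lit 6671))))) (.a (.p (nat_lit 592) (.a (.f (nat_lit 591) (nat_lit 623) (nat_lit 5615) (.f (nat_lit 593) (nat_lit 625) (nat_lit 4592) (.d (nat_lit 557) (nat_lit 559) (nat_lit 557) (nat_lit 590) (nat_lit 3629)))) (.a (.f (nat_lit 623) (nat_lit 591) (nat_lit 5615) (.f (nat_lit 624) (nat_lit 655) (nat_lit 5647) (.d (nat_lit 625) (nat_lit 593) (nat_lit 4592) (nat_lit 657) (nat_lit 4624)))) (.f (nat_lit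 497) (nat_lit 465) (nat_lit 6608) (.f (nat_lit 529) (nat_lit 624) (nat_lit 6640) (.d (nat_lit 557) (nat_lit 527) (nat_lit 1549) (nat_lit 559) (nat_lit 2573))))))) (.a (.p (nat_lit 592) (.a (.f (nat_lit 593) (nat_lit 625) (nat_lit 4592) (.f (nat_lit 559) (nat_lit 557) (nat_lit 557) (.d (nat_lit 594) (nat_lit 561) (nat_lit 558) (nat_lit 595) (nat_lit 3631)))) (.a (.f (nat_lit 497) (nat_lit 465) (nat_lit 6608) (.f (nat_lit 624) (nat_lit 529) (nat_lit 6640) (.d (nat_lit 625) (nat_lit 593) (nat_lit 4592) (nat_lit 657) (nat_lit 4624)))) (.f (nat_lit 497) (nat_lit 465) (nat_lit 6608) (.f (nat_lit 529) (nat_lit 624) (nat_lit 6640) (.d (nat_lit 557) (nat_lit 527) (nat_lit 1549) (nat_lit 559) (nat_lit 2573))))))) (.p (nat_lit 464) (.a (.f (nat_lit 465) (nat_lit 433) (nat_lit 6576) (.f (nat_lit 592) (nat_lit 497) (nat_lit 6608) (.d (nat_lit 593) (nat_lit 561) (nat_lit 4560) (nat_lit 625) (nat_lit 4592)))) (.a (.f (nat_lit 431) (nat_lit 463)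 (nat_lit 7599) (.f (nat_lit 432) (nat_lit 399) (nat_lit 7567) (.d (nat_lit 433) (nat_lit 401) (nat_lit 6544) (nat_lit 465) (nat_lit 6576)))) (.a (.f (nat_lit 431) (nat_lit 463) (nat_lit 7599) (.f (nat_lit 432) (nat_lit 399) (nat_lit 7567) (.f (nat_lit 529) (nat_lit 561) (nat_lit 4528) (.f (nat_lit 497) (nat_lit 400) (nat_lit 4496) (.d (nat_lit 592) (nat_lit 465) (nat_lit 6608) (nat_lit 624) (nat_lit 6640)))))) (.f (nat_lit 431) (nat_lit 463) (nat_lit 7599) (.f (nat_lit 432) (nat_lit 399) (nat_lit 7567) (.f (nat_lit 529) (nat_lit 561) (nat_lit 4528) (.f (nat_lit 400) (nat_lit 497) (nat_lit 4496) (.d (nat_lit 401) (nat_lit 369) (nat_lit 6512) (nat_lit 433) (nat_lit 6544)))))))))))))))) (.a s24453 (.a (.p (nat_lit 560) (.a s22108 (.a s22598 (.a s21930 (.a (.p (nat_lit 464) (.a (.f (nat_lit 431) (nat_lit 463) (nat_lit 7599) (.f (nat_lit 432) (nat_lit 399) (nat_lit 7567) (.d (nat_lit 433) (nat_lit 401) (nat_lit 6544) (nat_lit 465) (nat_lit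 6576)))) (.a (.f (nat_lit 463) (nat_lit 431) (nat_lit 7599) (.f (nat_lit 592) (nat_lit 495) (nat_lit 7631) (.d (nat_lit 593) (nat_lit 561) (nat_lit 4560) (nat_lit 625) (nat_lit 4592)))) (.f (nat_lit 561) (nat_lit 593) (nat_lit 4560) (.f (nat_lit 432) (nat_lit 529) (nat_lit 4528) (.d (nat_lit 433) (nat_lit 401) (nat_lit 6544) (nat_lit 465) (nat_lit 6576))))))) (.p (nat_lit 559) (.a (.f (nat_lit 529) (nat_lit 557) (nat_lit 2573) (.d (nat_lit 530) (nat_lit 531) (nat_lit 1551) (nat_lit 561) (nat_lit 2574))) (.f (nat_lit 591) (nat_lit 464) (nat_lit 5583) (.d (nat_lit 623) (nat_lit 527) (nat_lit 6639) (nat_lit 655) (nat_lit 6671)))))))))) (.a s22558 (.a s22564 (.a s24552 (.a s22585 (.a s24558 (.a s22590 s22592))))))))))))) (.a (.p (nat_lit 494) (.a s24046 (.a s24588 (.a (.p (nat_lit 464) (.a (.p (nat_lit 527) (.a (.f (nat_lit 525) (nat_lit 497) (nat_lit 2541) (.f (nat_lit 493) (nat_lit 492) (nat_lit 3564) (.f (nat_lit 557) (nat_lit 556)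 (nat_lit 1548) (.d (nat_lit 462) (nat_lit 430) (nat_lit 5549) (nat_lit 589) (nat_lit 6605))))) (.f (nat_lit 432) (nat_lit 559) (nat_lit 5551) (.f (nat_lit 399) (nat_lit 431) (nat_lit 7567) (.f (nat_lit 400) (nat_lit 367) (nat_lit 7535) (.d (nat_lit 401) (nat_lit 369) (nat_lit 6512) (nat_lit 433) (nat_lit 6544))))))) (.a (.p (nat_lit 560) (.a (.f (nat_lit 463) (nat_lit 431) (nat_lit 7599) (.f (nat_lit 465) (nat_lit 433) (nat_lit 6576) (.f (nat_lit 462) (nat_lit 493) (nat_lit 1485) (.f (nat_lit 429) (nat_lit 430) (nat_lit 3501) (.d (nat_lit 461) (nat_lit 428) (nat_lit 3500) (nat_lit 497) (nat_lit 461)))))) (.a (.f (nat_lit 431) (nat_lit 463) (nat_lit 7599) (.f (nat_lit 432) (nat_lit 399) (nat_lit 7567) (.d (nat_lit 433) (nat_lit 401) (nat_lit 6544) (nat_lit 465) (nat_lit 6576)))) (.a (.f (nat_lit 465) (nat_lit 433) (nat_lit 6576) (.f (nat_lit 592) (nat_lit 497) (nat_lit 6608) (.d (nat_lit 593) (nat_lit 561) (nat_lit 4560) (nat_lit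 625) (nat_lit 4592)))) (.f (nat_lit 591) (nat_lit 559) (nat_lit 5583) (.f (nat_lit 592) (nat_lit 623) (nat_lit 5615) (.d (nat_lit 593) (nat_lit 561) (nat_lit 4560) (nat_lit 625) (nat_lit 4592)))))))) (.a (.p (nat_lit 560) (.a (.f (nat_lit 463) (nat_lit 431) (nat_lit 7599) (.f (nat_lit 465) (nat_lit 433) (nat_lit 6576) (.f (nat_lit 462) (nat_lit 493) (nat_lit 1485) (.f (nat_lit 429) (nat_lit 430) (nat_lit 3501) (.d (nat_lit 461) (nat_lit 428) (nat_lit 3500) (nat_lit 497) (nat_lit 461)))))) (.a (.f (nat_lit 431) (nat_lit 463) (nat_lit 7599) (.f (nat_lit 432) (nat_lit 399) (nat_lit 7567) (.d (nat_lit 433) (nat_lit 401) (nat_lit 6544) (nat_lit 465) (nat_lit 6576)))) (.a (.f (nat_lit 465) (nat_lit 433) (nat_lit 6576) (.f (nat_lit 592) (nat_lit 497) (nat_lit 6608) (.d (nat_lit 593) (nat_lit 561) (nat_lit 4560) (nat_lit 625) (nat_lit 4592)))) (.f (nat_lit 431) (nat_lit 463) (nat_lit 7599) (.f (nat_lit 432) (nat_lit 399) (nat_lit 7567) (.d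 (nat_lit 561) (nat_lit 529) (nat_lit 4528) (nat_lit 593) (nat_lit 4560)))))))) (.a (.p (nat_lit 560) (.a (.f (nat_lit 463) (nat_lit 431) (nat_lit 7599) (.f (nat_lit 465) (nat_lit 433) (nat_lit 6576) (.f (nat_lit 462) (nat_lit 493) (nat_lit 1485) (.f (nat_lit 429) (nat_lit 430) (nat_lit 3501) (.d (nat_lit 461) (nat_lit 428) (nat_lit 3500) (nat_lit 497) (nat_lit 461)))))) (.f (nat_lit 591) (nat_lit 559) (nat_lit 5583) (.f (nat_lit 592) (nat_lit 623) (nat_lit 5615) (.d (nat_lit 593) (nat_lit 561) (nat_lit 4560) (nat_lit 625) (nat_lit 4592)))))) (.a (.p (nat_lit 560) (.a (.f (nat_lit 431) (nat_lit 463) (nat_lit 7599) (.f (nat_lit 432) (nat_lit 399) (nat_lit 7567) (.d (nat_lit 433) (nat_lit 401) (nat_lit 6544) (nat_lit 465) (nat_lit 6576)))) (.f (nat_lit 591) (nat_lit 559) (nat_lit 5583) (.f (nat_lit 592) (nat_lit 623) (nat_lit 5615) (.d (nat_lit 593) (nat_lit 561) (nat_lit 4560) (nat_lit 625) (nat_lit 4592)))))) (.a (.p (nat_lit 560)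 (.a (.f (nat_lit 465) (nat_lit 433) (nat_lit 6576) (.f (nat_lit 592) (nat_lit 497) (nat_lit 6608) (.d (nat_lit 593) (nat_lit 561) (nat_lit 4560) (nat_lit 625) (nat_lit 4592)))) (.a (.f (nat_lit 559) (nat_lit 591) (nat_lit 5583) (.f (nat_lit 527) (nat_lit 432) (nat_lit 5551) (.d (nat_lit 525) (nat_lit 497) (nat_lit 2541) (nat_lit 524) (nat_lit 524)))) (.f (nat_lit 591) (nat_lit 559) (nat_lit 5583) (.f (nat_lit 592) (nat_lit 623) (nat_lit 5615) (.d (nat_lit 593) (nat_lit 561) (nat_lit 4560) (nat_lit 625) (nat_lit 4592))))))) (.p (nat_lit 560) (.a (.f (nat_lit 559) (nat_lit 591) (nat_lit 5583) (.f (nat_lit 527) (nat_lit 432) (nat_lit 5551) (.d (nat_lit 525) (nat_lit 497) (nat_lit 2541) (nat_lit 524) (nat_lit 524)))) (.a (.f (nat_lit 591) (nat_lit 559) (nat_lit 5583) (.f (nat_lit 592) (nat_lit 623) (nat_lit 5615) (.d (nat_lit 593) (nat_lit 561) (nat_lit 4560) (nat_lit 625) (nat_lit 4592)))) (.f (nat_lit 431) (nat_lit 463) (nat_lit 7599)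 (.f (nat_lit 432) (nat_lit 399) (nat_lit 7567) (.d (nat_lit 561) (nat_lit 529) (nat_lit 4528) (nat_lit 593) (nat_lit 4560)))))))))))))) (.a s22851 (.a s24715 (.a s23694 (.a s24748 (.a s22976 (.p (nat_lit 527) (.a (.f (nat_lit 525) (nat_lit 497) (nat_lit 2541) (.d (nat_lit 493) (nat_lit 492) (nat_lit 3564) (nat_lit 529) (nat_lit 3565))) (.a (.f (nat_lit 525) (nat_lit 497) (nat_lit 2541) (.f (nat_lit 495) (nat_lit 524) (nat_lit 2540) (.f (nat_lit 560) (nat_lit 561) (nat_lit 525) (.d (nat_lit 463) (nat_lit 431) (nat_lit 4527) (nat_lit 592) (nat_lit 7631))))) (.f (nat_lit 493) (nat_lit 529) (nat_lit 3565) (.d (nat_lit 492) (nat_lit 491) (nat_lit 491) (nat_lit 495) (nat_lit 492))))))))))))))) (.a (.p (nat_lit 464) (.a (.p (nat_lit 560) (.a (.f (nat_lit 561) (nat_lit 593) (nat_lit 4560) (.f (nat_lit 529) (nat_lit 432) (nat_lit 4528) (.f (nat_lit 559) (nat_lit 591) (nat_lit 5583) (.d (nat_lit 530) (nat_lit 531) (nat_lit 1551) (nat_lit 558)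 (nat_lit 2574))))) (.a (.f (nat_lit 433) (nat_lit 465) (nat_lit 6576) (.f (nat_lit 432) (nat_lit 401) (nat_lit 6544) (.d (nat_lit 431) (nat_lit 399) (nat_lit 7567) (nat_lit 463) (nat_lit 7599)))) (.f (nat_lit 463) (nat_lit 431) (nat_lit 7599) (.f (nat_lit 592) (nat_lit 495) (nat_lit 7631) (.d (nat_lit 591) (nat_lit 559) (nat_lit 5583) (nat_lit 623) (nat_lit 5615))))))) (.a s25493 (.a s25232 (.a s19270 (.a (.p (nat_lit 560) (.a (.f (nat_lit 433) (nat_lit 465) (nat_lit 6576) (.f (nat_lit 432) (nat_lit 401) (nat_lit 6544) (.d (nat_lit 431) (nat_lit 399) (nat_lit 7567) (nat_lit 463) (nat_lit 7599)))) (.a (.f (nat_lit 463) (nat_lit 431) (nat_lit 7599) (.f (nat_lit 592) (nat_lit 495) (nat_lit 7631) (.d (nat_lit 593) (nat_lit 561) (nat_lit 4560) (nat_lit 625) (nat_lit 4592)))) (.a (.f (nat_lit 561) (nat_lit 593) (nat_lit 4560) (.f (nat_lit 527) (nat_lit 525) (nat_lit 525) (.f (nat_lit 433) (nat_lit 465) (nat_lit 6576) (.f (nat_lit 432)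 (nat_lit 401) (nat_lit 6544) (.f (nat_lit 399) (nat_lit 431) (nat_lit 7567) (.d (nat_lit 400) (nat_lit 367) (nat_lit 7535) (nat_lit 495) (nat_lit 5519))))))) (.f (nat_lit 561) (nat_lit 593) (nat_lit 4560) (.f (nat_lit 527) (nat_lit 525) (nat_lit 525) (.f (nat_lit 433) (nat_lit 465) (nat_lit 6576) (.f (nat_lit 432) (nat_lit 401) (nat_lit 6544) (.f (nat_lit 495) (nat_lit 400) (nat_lit 5519) (.d (nat_lit 592) (nat_lit 463) (nat_lit 7631) (nat_lit 624) (nat_lit 7663))))))))))) (.a (.p (nat_lit 560) (.a (.f (nat_lit 463) (nat_lit 431) (nat_lit 7599) (.f (nat_lit 592) (nat_lit 495) (nat_lit 7631) (.d (nat_lit 591) (nat_lit 559) (nat_lit 5583) (nat_lit 623) (nat_lit 5615)))) (.a (.f (nat_lit 559) (nat_lit 591) (nat_lit 5583) (.f (nat_lit 561) (nat_lit 593) (nat_lit 4560) (.f (nat_lit 558) (nat_lit 525) (nat_lit 3597) (.d (nat_lit 529) (nat_lit 530) (nat_lit 2574) (nat_lit 557) (nat_lit 2573))))) (.f (nat_lit 463) (nat_lit 431) (nat_lit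 7599) (.f (nat_lit 592) (nat_lit 495) (nat_lit 7631) (.d (nat_lit 593) (nat_lit 561) (nat_lit 4560) (nat_lit 625) (nat_lit 4592))))))) s19280))))))) (.a (.p (nat_lit 560) (.a (.p (nat_lit 464) (.a (.f (nat_lit 561) (nat_lit 593) (nat_lit 4560) (.f (nat_lit 527) (nat_lit 525) (nat_lit 525) (.d (nat_lit 432) (nat_lit 529) (nat_lit 4528) (nat_lit 559) (nat_lit 5551)))) (.a (.f (nat_lit 559) (nat_lit 591) (nat_lit 5583) (.f (nat_lit 527) (nat_lit 432) (nat_lit 5551) (.d (nat_lit 525) (nat_lit 497) (nat_lit 2541) (nat_lit 524) (nat_lit 524)))) (.f (nat_lit 465) (nat_lit 433) (nat_lit 6576) (.f (nat_lit 592) (nat_lit 497) (nat_lit 6608) (.d (nat_lit 463) (nat_lit 431) (nat_lit 7599) (nat_lit 495) (nat_lit 7631))))))) (.a (.p (nat_lit 464) (.a (.f (nat_lit 559) (nat_lit 591) (nat_lit 5583) (.f (nat_lit 527) (nat_lit 432) (nat_lit 5551) (.d (nat_lit 525) (nat_lit 497) (nat_lit 2541) (nat_lit 524) (nat_lit 524)))) (.a (.f (nat_lit 465) (nat_lit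 433) (nat_lit 6576) (.f (nat_lit 592) (nat_lit 497) (nat_lit 6608) (.d (nat_lit 463) (nat_lit 431) (nat_lit 7599) (nat_lit 495) (nat_lit 7631)))) (.f (nat_lit 559) (nat_lit 591) (nat_lit 5583) (.f (nat_lit 527) (nat_lit 432) (nat_lit 5551) (.d (nat_lit 525) (nat_lit 524) (nat_lit 524) (nat_lit 561) (nat_lit 525))))))) (.a (.p (nat_lit 464) (.a (.f (nat_lit 465) (nat_lit 433) (nat_lit 6576) (.f (nat_lit 592) (nat_lit 497) (nat_lit 6608) (.d (nat_lit 463) (nat_lit 431) (nat_lit 7599) (nat_lit 495) (nat_lit 7631)))) (.f (nat_lit 561) (nat_lit 593) (nat_lit 4560) (.f (nat_lit 529) (nat_lit 432) (nat_lit 4528) (.f (nat_lit 559) (nat_lit 591) (nat_lit 5583) (.d (nat_lit 530) (nat_lit 531) (nat_lit 1551) (nat_lit 558) (nat_lit 2574))))))) (.a s18981 (.a s18940 (.a s19000 (.a s18947 (.a (.p (nat_lit 464) (.a (.f (nat_lit 561) (nat_lit 593) (nat_lit 4560) (.f (nat_lit 527) (nat_lit 525) (nat_lit 525) (.d (nat_lit 432) (nat_lit 529) (nat_lit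 4528) (nat_lit 559) (nat_lit 5551)))) (.f (nat_lit 465) (nat_lit 433) (nat_lit 6576) (.f (nat_lit 592) (nat_lit 497) (nat_lit 6608) (.d (nat_lit 463) (nat_lit 431) (nat_lit 7599) (nat_lit 495) (nat_lit 7631)))))) (.p (nat_lit 464) (.a (.f (nat_lit 559) (nat_lit 591) (nat_lit 5583) (.f (nat_lit 527) (nat_lit 432) (nat_lit 5551) (.d (nat_lit 525) (nat_lit 497) (nat_lit 2541) (nat_lit 524) (nat_lit 524)))) (.a (.f (nat_lit 463) (nat_lit 431) (nat_lit 7599) (.f (nat_lit 592) (nat_lit 495) (nat_lit 7631) (.d (nat_lit 591) (nat_lit 559) (nat_lit 5583) (nat_lit 623) (nat_lit 5615)))) (.f (nat_lit 463) (nat_lit 431) (nat_lit 7599) (.f (nat_lit 592) (nat_lit 495) (nat_lit 7631) (.d (nat_lit 593) (nat_lit 561) (nat_lit 4560) (nat_lit 625) (nat_lit 4592)))))))))))))))) (.a (.p (nat_lit 558) (.a (.p (nat_lit 527) (.a (.f (nat_lit 525) (nat_lit 497) (nat_lit 2541) (.d (nat_lit 557) (nat_lit 529) (nat_lit 1549) (nat_lit 556) (nat_lit 1548))) (.a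 (.f (nat_lit 525) (nat_lit 497) (nat_lit 2541) (.f (nat_lit 524) (nat_lit 495) (nat_lit 2540) (.d (nat_lit 492) (nat_lit 491) (nat_lit 3563) (nat_lit 493) (nat_lit 3564)))) (.f (nat_lit 529) (nat_lit 557) (nat_lit 1549) (.f (nat_lit 494) (nat_lit 493) (nat_lit 3565) (.d (nat_lit 530) (nat_lit 495) (nat_lit 3566) (nat_lit 559) (nat_lit 1550))))))) (.a s21693 (.a s21983 (.a (.p (nat_lit 464) (.a (.p (nat_lit 560) (.a (.f (nat_lit 465) (nat_lit 433) (nat_lit 6576) (.f (nat_lit 592) (nat_lit 497) (nat_lit 6608) (.d (nat_lit 593) (nat_lit 561) (nat_lit 4560) (nat_lit 625) (nat_lit 4592)))) (.a (.f (nat_lit 431) (nat_lit 463) (nat_lit 7599) (.f (nat_lit 432) (nat_lit 399) (nat_lit 7567) (.d (nat_lit 433) (nat_lit 401) (nat_lit 6544) (nat_lit 465) (nat_lit 6576)))) (.f (nat_lit 561) (nat_lit 593) (nat_lit 4560) (.f (nat_lit 559) (nat_lit 525) (nat_lit 3597) (.f (nat_lit 589) (nat_lit 590) (nat_lit 1581) (.f (nat_lit 557) (nat_lit 588) (nat_lit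 1580) (.f (nat_lit 462) (nat_lit 494) (nat_lit 5581) (.f (nat_lit 463) (nat_lit 431) (nat_lit 7599) (.f (nat_lit 461) (nat_lit 497) (nat_lit 461) (.f (nat_lit 428) (nat_lit 429) (nat_lit 3500) (.f (nat_lit 460) (nat_lit 427) (nat_lit 3499) (.d (nat_lit 492) (nat_lit 491) (nat_lit 1483) (nat_lit 493) (nat_lit 1484)))))))))))))) (.a (.p (nat_lit 527) (.a (.f (nat_lit 432) (nat_lit 559) (nat_lit 5551) (.f (nat_lit 399) (nat_lit 431) (nat_lit 7567) (.f (nat_lit 400) (nat_lit 367) (nat_lit 7535) (.d (nat_lit 401) (nat_lit 369) (nat_lit 6512) (nat_lit 433) (nat_lit 6544))))) (.f (nat_lit 525) (nat_lit 497) (nat_lit 2541) (.f (nat_lit 557) (nat_lit 556) (nat_lit 1548) (.f (nat_lit 493) (nat_lit 492) (nat_lit 3564) (.d (nat_lit 461) (nat_lit 429) (nat_lit 4525) (nat_lit 590) (nat_lit 4557))))))) (.a (.p (nat_lit 431) (.a (.f (nat_lit 463) (nat_lit 560) (nat_lit 7599) (.d (nat_lit 399) (nat_lit 367) (nat_lit 4463) (nat_lit 432) (nat_lit 7567)))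 (.a (.f (nat_lit 399) (nat_lit 432) (nat_lit 7567) (.f (nat_lit 463) (nat_lit 367) (nat_lit 4463) (.f (nat_lit 462) (nat_lit 494) (nat_lit 6574) (.f (nat_lit 461) (nat_lit 497) (nat_lit 461) (.f (nat_lit 429) (nat_lit 428) (nat_lit 3500) (.d (nat_lit 493) (nat_lit 492) (nat_lit 1484) (nat_lit 525) (nat_lit 4525))))))) (.a (.f (nat_lit 463) (nat_lit 560) (nat_lit 7599) (.f (nat_lit 462) (nat_lit 494) (nat_lit 6574) (.f (nat_lit 461) (nat_lit 497) (nat_lit 461) (.f (nat_lit 429) (nat_lit 428) (nat_lit 3500) (.d (nat_lit 493) (nat_lit 492) (nat_lit 1484) (nat_lit 525) (nat_lit 4525)))))) (.f (nat_lit 432) (nat_lit 399) (nat_lit 7567) (.f (nat_lit 433) (nat_lit 401) (nat_lit 6544) (.f (nat_lit 465) (nat_lit 560) (nat_lit 6576) (.d (nat_lit 430) (nat_lit 429) (nat_lit 429) (nat_lit 466) (nat_lit 430))))))))) (.a (.p (nat_lit 560) (.a (.f (nat_lit 465) (nat_lit 433) (nat_lit 6576) (.f (nat_lit 592) (nat_lit 497) (nat_lit 6608) (.d (nat_lit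 593) (nat_lit 561) (nat_lit 4560) (nat_lit 625) (nat_lit 4592)))) (.a (.f (nat_lit 431) (nat_lit 463) (nat_lit 7599) (.f (nat_lit 432) (nat_lit 399) (nat_lit 7567) (.d (nat_lit 433) (nat_lit 401) (nat_lit 6544) (nat_lit 465) (nat_lit 6576)))) (.f (nat_lit 593) (nat_lit 561) (nat_lit 4560) (.f (nat_lit 592) (nat_lit 625) (nat_lit 4592) (.f (nat_lit 559) (nat_lit 557) (nat_lit 557) (.f (nat_lit 431) (nat_lit 463) (nat_lit 7599) (.d (nat_lit 432) (nat_lit 399) (nat_lit 7567) (nat_lit 527) (nat_lit 5551))))))))) (.a (.p (nat_lit 560) (.a (.f (nat_lit 465) (nat_lit 433) (nat_lit 6576) (.f (nat_lit 592) (nat_lit 497) (nat_lit 6608) (.d (nat_lit 593) (nat_lit 561) (nat_lit 4560) (nat_lit 625) (nat_lit 4592)))) (.a (.f (nat_lit 561) (nat_lit 593) (nat_lit 4560) (.f (nat_lit 559) (nat_lit 525) (nat_lit 3597) (.f (nat_lit 589) (nat_lit 590) (nat_lit 1581) (.f (nat_lit 557) (nat_lit 588) (nat_lit 1580) (.f (nat_lit 462) (nat_lit 494) (nat_lit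 5581) (.f (nat_lit 463) (nat_lit 431) (nat_lit 7599) (.f (nat_lit 461) (nat_lit 497) (nat_lit 461) (.f (nat_lit 428) (nat_lit 429) (nat_lit 3500) (.f (nat_lit 460) (nat_lit 427) (nat_lit 3499) (.d (nat_lit 492) (nat_lit 491) (nat_lit 1483) (nat_lit 493) (nat_lit 1484))))))))))) (.a (.f (nat_lit 465) (nat_lit 433) (nat_lit 6576) (.f (nat_lit 463) (nat_lit 431) (nat_lit 7599) (.f (nat_lit 497) (nat_lit 592) (nat_lit 6608) (.f (nat_lit 462) (nat_lit 461) (nat_lit 461) (.f (nat_lit 494) (nat_lit 493) (nat_lit 1485) (.f (nat_lit 430) (nat_lit 429) (nat_lit 3501) (.d (nat_lit 525) (nat_lit 527) (nat_lit 2541) (nat_lit 557) (nat_lit 5549)))))))) (.f (nat_lit 561) (nat_lit 593) (nat_lit 4560) (.d (nat_lit 525) (nat_lit 527) (nat_lit 525) (nat_lit 559) (nat_lit 3597))))))) (.a (.p (nat_lit 560) (.a (.f (nat_lit 431) (nat_lit 463) (nat_lit 7599) (.f (nat_lit 432) (nat_lit 399) (nat_lit 7567) (.d (nat_lit 433) (nat_lit 401) (nat_lit 6544) (nat_lit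 465) (nat_lit 6576)))) (.f (nat_lit 561) (nat_lit 593) (nat_lit 4560) (.d (nat_lit 525) (nat_lit 527) (nat_lit 525) (nat_lit 559) (nat_lit 3597))))) (.a (.p (nat_lit 560) (.a (.f (nat_lit 465) (nat_lit 433) (nat_lit 6576) (.f (nat_lit 592) (nat_lit 497) (nat_lit 6608) (.d (nat_lit 593) (nat_lit 561) (nat_lit 4560) (nat_lit 625) (nat_lit 4592)))) (.a (.f (nat_lit 561) (nat_lit 593) (nat_lit 4560) (.d (nat_lit 525) (nat_lit 527) (nat_lit 525) (nat_lit 559) (nat_lit 3597))) (.f (nat_lit 433) (nat_lit 465) (nat_lit 6576) (.f (nat_lit 432) (nat_lit 401) (nat_lit 6544) (.f (nat_lit 527) (nat_lit 559) (nat_lit 5551) (.f (nat_lit 525) (nat_lit 497) (nat_lit 2541) (.f (nat_lit 557) (nat_lit 556) (nat_lit 1548) (.f (nat_lit 493) (nat_lit 492) (nat_lit 3564) (.d (nat_lit 461) (nat_lit 429) (nat_lit 4525) (nat_lit 590) (nat_lit 4557))))))))))) (.p (nat_lit 560) (.a (.f (nat_lit 561) (nat_lit 593) (nat_lit 4560) (.f (nat_lit 559) (nat_lit 525)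 (nat_lit 3597) (.f (nat_lit 589) (nat_lit 590) (nat_lit 1581) (.f (nat_lit 557) (nat_lit 588) (nat_lit 1580) (.f (nat_lit 462) (nat_lit 494) (nat_lit 5581) (.f (nat_lit 463) (nat_lit 431) (nat_lit 7599) (.f (nat_lit 461) (nat_lit 497) (nat_lit 461) (.f (nat_lit 428) (nat_lit 429) (nat_lit 3500) (.f (nat_lit 460) (nat_lit 427) (nat_lit 3499) (.d (nat_lit 492) (nat_lit 491) (nat_lit 1483) (nat_lit 493) (nat_lit 1484))))))))))) (.a (.f (nat_lit 593) (nat_lit 561) (nat_lit 4560) (.f (nat_lit 592) (nat_lit 625) (nat_lit 4592) (.f (nat_lit 497) (nat_lit 465) (nat_lit 6608) (.f (nat_lit 463) (nat_lit 431) (nat_lit 7599) (.f (nat_lit 461) (nat_lit 462) (nat_lit 461) (.f (nat_lit 525) (nat_lit 527) (nat_lit 2541) (.f (nat_lit 493) (nat_lit 429) (nat_lit 4525) (.d (nat_lit 590) (nat_lit 494) (nat_lit 7629) (nat_lit 557) (nat_lit 4557))))))))) (.a (.f (nat_lit 593) (nat_lit 561) (nat_lit 4560) (.f (nat_lit 592) (nat_lit 625) (nat_lit 4592)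 (.f (nat_lit 559) (nat_lit 557) (nat_lit 557) (.f (nat_lit 431) (nat_lit 463) (nat_lit 7599) (.d (nat_lit 432) (nat_lit 399) (nat_lit 7567) (nat_lit 527) (nat_lit 5551)))))) (.a (.f (nat_lit 431) (nat_lit 463) (nat_lit 7599) (.f (nat_lit 432) (nat_lit 399) (nat_lit 7567) (.f (nat_lit 527) (nat_lit 559) (nat_lit 5551) (.f (nat_lit 525) (nat_lit 497) (nat_lit 2541) (.f (nat_lit 557) (nat_lit 556) (nat_lit 1548) (.f (nat_lit 493) (nat_lit 492) (nat_lit 3564) (.d (nat_lit 461) (nat_lit 429) (nat_lit 4525) (nat_lit 590) (nat_lit 4557)))))))) (.f (nat_lit 561) (nat_lit 593) (nat_lit 4560) (.d (nat_lit 525) (nat_lit 527) (nat_lit 525) (nat_lit 559) (nat_lit 3597)))))))))))))))) (.a s22564 (.a (.p (nat_lit 527) (.a (.f (nat_lit 525) (nat_lit 497) (nat_lit 2541) (.d (nat_lit 557) (nat_lit 529) (nat_lit 1549) (nat_lit 556) (nat_lit 1548))) (.a (.f (nat_lit 525) (nat_lit 497) (nat_lit 2541) (.f (nat_lit 524) (nat_lit 495) (nat_lit 2540) (.d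 (nat_lit 492) (nat_lit 491) (nat_lit 3563) (nat_lit 493) (nat_lit 3564)))) (.f (nat_lit 557) (nat_lit 529) (nat_lit 1549) (.d (nat_lit 556) (nat_lit 555) (nat_lit 2571) (nat_lit 559) (nat_lit 2572)))))) (.a s22655 (.a s22631 (.p (nat_lit 494) (.a s19062 (.a s23761 (.a s19098 (.a s22701 (.a s21997 (.a s19085 (.p (nat_lit 495) (.a (.f (nat_lit 529) (nat_lit 493) (nat_lit 493) (.d (nat_lit 530) (nat_lit 497) (nat_lit 494) (nat_lit 531) (nat_lit 3567))) (.f (nat_lit 463) (nat_lit 590) (nat_lit 6606) (.f (nat_lit 431) (nat_lit 399) (nat_lit 4495) (.d (nat_lit 560) (nat_lit 464) (nat_lit 7599) (nat_lit 592) (nat_lit 7631)))))))))))))))))))))) (.a (.p (nat_lit 464) (.a (.p (nat_lit 560) (.a (.f (nat_lit 561) (nat_lit 593) (nat_lit 4560) (.f (nat_lit 529) (nat_lit 432) (nat_lit 4528) (.f (nat_lit 559) (nat_lit 591) (nat_lit 5583) (.d (nat_lit 530) (nat_lit 531) (nat_lit 1551) (nat_lit 558) (nat_lit 2574))))) (.a (.f (nat_lit 465) (nat_lit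 433) (nat_lit 6576) (.f (nat_lit 592) (nat_lit 497) (nat_lit 6608) (.d (nat_lit 591) (nat_lit 559) (nat_lit 5583) (nat_lit 623) (nat_lit 5615)))) (.f (nat_lit 465) (nat_lit 433) (nat_lit 6576) (.f (nat_lit 592) (nat_lit 497) (nat_lit 6608) (.d (nat_lit 593) (nat_lit 561) (nat_lit 4560) (nat_lit 625) (nat_lit 4592))))))) (.a (.p (nat_lit 527) (.a (.f (nat_lit 432) (nat_lit 559) (nat_lit 5551) (.f (nat_lit 399) (nat_lit 431) (nat_lit 7567) (.f (nat_lit 400) (nat_lit 367) (nat_lit 7535) (.d (nat_lit 401) (nat_lit 369) (nat_lit 6512) (nat_lit 433) (nat_lit 6544))))) (.f (nat_lit 525) (nat_lit 497) (nat_lit 2541) (.f (nat_lit 495) (nat_lit 524) (nat_lit 2540) (.f (nat_lit 493) (nat_lit 492) (nat_lit 3564) (.f (nat_lit 494) (nat_lit 465) (nat_lit 2509) (.f (nat_lit 461) (nat_lit 460) (nat_lit 3532) (.d (nat_lit 429) (nat_lit 397) (nat_lit 4493) (nat_lit 558) (nat_lit 4525))))))))) (.a (.p (nat_lit 560) (.a (.f (nat_lit 465) (nat_lit 433)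 (nat_lit 6576) (.f (nat_lit 592) (nat_lit 497) (nat_lit 6608) (.d (nat_lit 593) (nat_lit 561) (nat_lit 4560) (nat_lit 625) (nat_lit 4592)))) (.a (.f (nat_lit 433) (nat_lit 465) (nat_lit 6576) (.f (nat_lit 432) (nat_lit 401) (nat_lit 6544) (.f (nat_lit 399) (nat_lit 431) (nat_lit 7567) (.f (nat_lit 400) (nat_lit 367) (nat_lit 7535) (.f (nat_lit 527) (nat_lit 495) (nat_lit 5519) (.d (nat_lit 525) (nat_lit 497) (nat_lit 2541) (nat_lit 561) (nat_lit 525))))))) (.a (.f (nat_lit 465) (nat_lit 433) (nat_lit 6576) (.f (nat_lit 592) (nat_lit 497) (nat_lit 6608) (.f (nat_lit 623) (nat_lit 591) (nat_lit 5615) (.f (nat_lit 624) (nat_lit 655) (nat_lit 5647) (.d (nat_lit 625) (nat_lit 593) (nat_lit 4592) (nat_lit 657) (nat_lit 4624)))))) (.a (.f (nat_lit 561) (nat_lit 593) (nat_lit 4560) (.f (nat_lit 527) (nat_lit 525) (nat_lit 525) (.f (nat_lit 433) (nat_lit 465) (nat_lit 6576) (.f (nat_lit 432) (nat_lit 401) (nat_lit 6544) (.f (nat_lit 399)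 (nat_lit 431) (nat_lit 7567) (.d (nat_lit 400) (nat_lit 367) (nat_lit 7535) (nat_lit 495) (nat_lit 5519))))))) (.a (.f (nat_lit 593) (nat_lit 561) (nat_lit 4560) (.f (nat_lit 592) (nat_lit 625) (nat_lit 4592) (.f (nat_lit 623) (nat_lit 591) (nat_lit 5615) (.f (nat_lit 624) (nat_lit 655) (nat_lit 5647) (.f (nat_lit 527) (nat_lit 495) (nat_lit 7663) (.d (nat_lit 497) (nat_lit 465) (nat_lit 6608) (nat_lit 525) (nat_lit 2541))))))) (.f (nat_lit 593) (nat_lit 561) (nat_lit 4560) (.f (nat_lit 592) (nat_lit 625) (nat_lit 4592) (.f (nat_lit 623) (nat_lit 591) (nat_lit 5615) (.f (nat_lit 624) (nat_lit 655) (nat_lit 5647) (.f (nat_lit 527) (nat_lit 495) (nat_lit 7663) (.f (nat_lit 525) (nat_lit 497) (nat_lit 2541) (.f (nat_lit 492) (nat_lit 493) (nat_lit 3564) (.f (nat_lit 524) (nat_lit 491) (nat_lit 3563) (.d (nat_lit 556) (nat_lit 555) (nat_lit 1547) (nat_lit 557) (nat_lit 1548)))))))))))))))) (.a (.p (nat_lit 560) (.a (.f (nat_lit 465)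 (nat_lit 433) (nat_lit 6576) (.f (nat_lit 592) (nat_lit 497) (nat_lit 6608) (.d (nat_lit 591) (nat_lit 559) (nat_lit 5583) (nat_lit 623) (nat_lit 5615)))) (.a (.f (nat_lit 465) (nat_lit 433) (nat_lit 6576) (.f (nat_lit 592) (nat_lit 497) (nat_lit 6608) (.d (nat_lit 593) (nat_lit 561) (nat_lit 4560) (nat_lit 625) (nat_lit 4592)))) (.f (nat_lit 559) (nat_lit 591) (nat_lit 5583) (.f (nat_lit 561) (nat_lit 593) (nat_lit 4560) (.f (nat_lit 558) (nat_lit 525) (nat_lit 3597) (.d (nat_lit 529) (nat_lit 530) (nat_lit 2574) (nat_lit 557) (nat_lit 2573)))))))) (.a s25493 (.a (.p (nat_lit 560) (.a (.f (nat_lit 561) (nat_lit 593) (nat_lit 4560) (.f (nat_lit 527) (nat_lit 525) (nat_lit 525) (.d (nat_lit 432) (nat_lit 529) (nat_lit 4528) (nat_lit 559) (nat_lit 5551)))) (.a (.f (nat_lit 559) (nat_lit 591) (nat_lit 5583) (.f (nat_lit 527) (nat_lit 432) (nat_lit 5551) (.d (nat_lit 525) (nat_lit 497) (nat_lit 2541) (nat_lit 524) (nat_lit 524)))) (.a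 (.f (nat_lit 561) (nat_lit 593) (nat_lit 4560) (.f (nat_lit 529) (nat_lit 432) (nat_lit 4528) (.f (nat_lit 559) (nat_lit 591) (nat_lit 5583) (.d (nat_lit 530) (nat_lit 531) (nat_lit 1551) (nat_lit 558) (nat_lit 2574))))) (.f (nat_lit 593) (nat_lit 561) (nat_lit 4560) (.f (nat_lit 592) (nat_lit 625) (nat_lit 4592) (.f (nat_lit 623) (nat_lit 591) (nat_lit 5615) (.f (nat_lit 624) (nat_lit 655) (nat_lit 5647) (.f (nat_lit 527) (nat_lit 495) (nat_lit 7663) (.d (nat_lit 497) (nat_lit 465) (nat_lit 6608) (nat_lit 525) (nat_lit 2541))))))))))) (.p (nat_lit 527) (.a (.f (nat_lit 432) (nat_lit 559) (nat_lit 5551) (.f (nat_lit 399) (nat_lit 431) (nat_lit 7567) (.f (nat_lit 400) (nat_lit 367) (nat_lit 7535) (.d (nat_lit 401) (nat_lit 369) (nat_lit 6512) (nat_lit 433) (nat_lit 6544))))) (.f (nat_lit 525) (nat_lit 497) (nat_lit 2541) (.f (nat_lit 524) (nat_lit 495) (nat_lit 2540) (.d (nat_lit 492) (nat_lit 491) (nat_lit 3563) (nat_lit 493) (nat_lit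 3564))))))))))))) (.a (.p (nat_lit 560) (.a (.p (nat_lit 464) (.a (.f (nat_lit 561) (nat_lit 593) (nat_lit 4560) (.f (nat_lit 527) (nat_lit 525) (nat_lit 525) (.d (nat_lit 432) (nat_lit 529) (nat_lit 4528) (nat_lit 559) (nat_lit 5551)))) (.a (.f (nat_lit 559) (nat_lit 591) (nat_lit 5583) (.f (nat_lit 527) (nat_lit 432) (nat_lit 5551) (.d (nat_lit 525) (nat_lit 497) (nat_lit 2541) (nat_lit 524) (nat_lit 524)))) (.f (nat_lit 465) (nat_lit 433) (nat_lit 6576) (.f (nat_lit 592) (nat_lit 497) (nat_lit 6608) (.d (nat_lit 463) (nat_lit 431) (nat_lit 7599) (nat_lit 495) (nat_lit 7631))))))) (.a (.p (nat_lit 464) (.a (.f (nat_lit 559) (nat_lit 591) (nat_lit 5583) (.f (nat_lit 527) (nat_lit 432) (nat_lit 5551) (.d (nat_lit 525) (nat_lit 497) (nat_lit 2541) (nat_lit 524) (nat_lit 524)))) (.a (.f (nat_lit 465) (nat_lit 433) (nat_lit 6576) (.f (nat_lit 592) (nat_lit 497) (nat_lit 6608) (.d (nat_lit 463) (nat_lit 431) (nat_lit 7599) (nat_lit 495)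 (nat_lit 7631)))) (.f (nat_lit 559) (nat_lit 591) (nat_lit 5583) (.f (nat_lit 527) (nat_lit 432) (nat_lit 5551) (.d (nat_lit 525) (nat_lit 524) (nat_lit 524) (nat_lit 561) (nat_lit 525))))))) (.a (.p (nat_lit 464) (.a (.f (nat_lit 465) (nat_lit 433) (nat_lit 6576) (.f (nat_lit 592) (nat_lit 497) (nat_lit 6608) (.d (nat_lit 463) (nat_lit 431) (nat_lit 7599) (nat_lit 495) (nat_lit 7631)))) (.f (nat_lit 561) (nat_lit 593) (nat_lit 4560) (.f (nat_lit 529) (nat_lit 432) (nat_lit 4528) (.f (nat_lit 559) (nat_lit 591) (nat_lit 5583) (.d (nat_lit 530) (nat_lit 531) (nat_lit 1551) (nat_lit 558) (nat_lit 2574))))))) (.a s18981 (.a s18940 (.a (.p (nat_lit 464) (.a (.f (nat_lit 561) (nat_lit 593) (nat_lit 4560) (.f (nat_lit 527) (nat_lit 525) (nat_lit 525) (.d (nat_lit 432) (nat_lit 529) (nat_lit 4528) (nat_lit 559) (nat_lit 5551)))) (.a (.f (nat_lit 559) (nat_lit 591) (nat_lit 5583) (.f (nat_lit 527) (nat_lit 432) (nat_lit 5551) (.d (nat_lit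 525) (nat_lit 497) (nat_lit 2541) (nat_lit 524) (nat_lit 524)))) (.a (.f (nat_lit 561) (nat_lit 593) (nat_lit 4560) (.f (nat_lit 529) (nat_lit 432) (nat_lit 4528) (.f (nat_lit 559) (nat_lit 591) (nat_lit 5583) (.d (nat_lit 530) (nat_lit 531) (nat_lit 1551) (nat_lit 558) (nat_lit 2574))))) (.a (.f (nat_lit 433) (nat_lit 465) (nat_lit 6576) (.f (nat_lit 432) (nat_lit 401) (nat_lit 6544) (.d (nat_lit 431) (nat_lit 399) (nat_lit 7567) (nat_lit 463) (nat_lit 7599)))) (.f (nat_lit 465) (nat_lit 433) (nat_lit 6576) (.f (nat_lit 463) (nat_lit 431) (nat_lit 7599) (.f (nat_lit 559) (nat_lit 591) (nat_lit 5583) (.f (nat_lit 561) (nat_lit 593) (nat_lit 4560) (.f (nat_lit 558) (nat_lit 525) (nat_lit 3597) (.f (nat_lit 590) (nat_lit 589) (nat_lit 1581) (.f (nat_lit 494) (nat_lit 495) (nat_lit 6606) (.d (nat_lit 493) (nat_lit 461) (nat_lit 7629) (nat_lit 462) (nat_lit 1485)))))))))))))) (.a s18960 (.a (.p (nat_lit 464) (.a (.f (nat_lit 561) (nat_lit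 593) (nat_lit 4560) (.f (nat_lit 529) (nat_lit 432) (nat_lit 4528) (.f (nat_lit 559) (nat_lit 591) (nat_lit 5583) (.d (nat_lit 530) (nat_lit 531) (nat_lit 1551) (nat_lit 558) (nat_lit 2574))))) (.a (.f (nat_lit 463) (nat_lit 431) (nat_lit 7599) (.f (nat_lit 592) (nat_lit 495) (nat_lit 7631) (.d (nat_lit 591) (nat_lit 559) (nat_lit 5583) (nat_lit 623) (nat_lit 5615)))) (.f (nat_lit 463) (nat_lit 431) (nat_lit 7599) (.f (nat_lit 592) (nat_lit 495) (nat_lit 7631) (.d (nat_lit 593) (nat_lit 561) (nat_lit 4560) (nat_lit 625) (nat_lit 4592))))))) (.p (nat_lit 464) (.a (.f (nat_lit 561) (nat_lit 593) (nat_lit 4560) (.f (nat_lit 527) (nat_lit 525) (nat_lit 525) (.d (nat_lit 432) (nat_lit 529) (nat_lit 4528) (nat_lit 559) (nat_lit 5551)))) (.f (nat_lit 465) (nat_lit 433) (nat_lit 6576) (.f (nat_lit 592) (nat_lit 497) (nat_lit 6608) (.d (nat_lit 463) (nat_lit 431) (nat_lit 7599) (nat_lit 495) (nat_lit 7631))))))))))))))) (.a s25239 s25444)))))))))))))))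
noncomputable def s25802 : Cert := .r (nat_lit 878694100701304956511192169158242687862212665431883220280182872118455237980908336946979793684870563807462937680039967586724118902039808942127312687095760289792) (.p (nat_lit 526) (.a s18950 (.a s24055 (.a (.p (nat_lit 558) (.a s19113 (.a s21575 (.a (.p (nat_lit 560) (.a s22641 (.a (.p (nat_lit 464) (.a (.f (nat_lit 559) (nat_lit 591) (nat_lit 5583) (.d (nat_lit 561) (nat_lit 525) (nat_lit 3597) (nat_lit 593) (nat_lit 4560))) (.f (nat_lit 431) (nat_lit 463) (nat_lit 7599) (.f (nat_lit 432) (nat_lit 399) (nat_lit 7567) (.d (nat_lit 433) (nat_lit 401) (nat_lit 6544) (nat_lit 465) (nat_lit 6576)))))) (.a (.p (nat_lit 464) (.a (.f (nat_lit 431) (nat_lit 463) (nat_lit 7599) (.f (nat_lit 432) (nat_lit 399) (nat_lit 7567) (.d (nat_lit 433) (nat_lit 401) (nat_lit 6544) (nat_lit 465) (nat_lit 6576)))) (.a (.f (nat_lit 465) (nat_lit 433) (nat_lit 6576) (.f (nat_lit 463) (nat_lit 431) (nat_lit 7599)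 (.f (nat_lit 497) (nat_lit 592) (nat_lit 6608) (.f (nat_lit 462) (nat_lit 461) (nat_lit 461) (.f (nat_lit 494) (nat_lit 493) (nat_lit 1485) (.f (nat_lit 430) (nat_lit 429) (nat_lit 3501) (.d (nat_lit 557) (nat_lit 525) (nat_lit 5549) (nat_lit 589) (nat_lit 5581)))))))) (.a (.f (nat_lit 561) (nat_lit 593) (nat_lit 4560) (.f (nat_lit 432) (nat_lit 529) (nat_lit 4528) (.d (nat_lit 433) (nat_lit 401) (nat_lit 6544) (nat_lit 465) (nat_lit 6576)))) (.a (.f (nat_lit 431) (nat_lit 463) (nat_lit 7599) (.f (nat_lit 432) (nat_lit 399) (nat_lit 7567) (.f (nat_lit 529) (nat_lit 561) (nat_lit 4528) (.f (nat_lit 497) (nat_lit 400) (nat_lit 4496) (.d (nat_lit 592) (nat_lit 465) (nat_lit 6608) (nat_lit 624) (nat_lit 6640)))))) (.f (nat_lit 431) (nat_lit 463) (nat_lit 7599) (.f (nat_lit 432) (nat_lit 399) (nat_lit 7567) (.f (nat_lit 529) (nat_lit 561) (nat_lit 4528) (.f (nat_lit 400) (nat_lit 497) (nat_lit 4496) (.d (nat_lit 401) (nat_lit 369) (nat_lit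 6512) (nat_lit 433) (nat_lit 6544))))))))))) (.a (.p (nat_lit 464) (.a (.f (nat_lit 431) (nat_lit 463) (nat_lit 7599) (.f (nat_lit 432) (nat_lit 399) (nat_lit 7567) (.d (nat_lit 433) (nat_lit 401) (nat_lit 6544) (nat_lit 465) (nat_lit 6576)))) (.f (nat_lit 559) (nat_lit 591) (nat_lit 5583) (.f (nat_lit 529) (nat_lit 557) (nat_lit 2573) (.d (nat_lit 530) (nat_lit 531) (nat_lit 1551) (nat_lit 561) (nat_lit 2574)))))) (.p (nat_lit 464) (.a (.f (nat_lit 431) (nat_lit 463) (nat_lit 7599) (.f (nat_lit 432) (nat_lit 399) (nat_lit 7567) (.d (nat_lit 433) (nat_lit 401) (nat_lit 6544) (nat_lit 465) (nat_lit 6576)))) (.f (nat_lit 559) (nat_lit 591) (nat_lit 5583) (.f (nat_lit 557) (nat_lit 529) (nat_lit 2573) (.f (nat_lit 525) (nat_lit 524) (nat_lit 3596) (.f (nat_lit 589) (nat_lit 588) (nat_lit 1580) (.d (nat_lit 494) (nat_lit 462) (nat_lit 5581) (nat_lit 621) (nat_lit 6637))))))))))))) (.a s21897 (.a s21905 (.a (.p (nat_lit 560) (.a s21929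 (.a (.p (nat_lit 464) (.a (.f (nat_lit 559) (nat_lit 591) (nat_lit 5583) (.d (nat_lit 561) (nat_lit 525) (nat_lit 3597) (nat_lit 593) (nat_lit 4560))) (.f (nat_lit 431) (nat_lit 463) (nat_lit 7599) (.f (nat_lit 432) (nat_lit 399) (nat_lit 7567) (.d (nat_lit 433) (nat_lit 401) (nat_lit 6544) (nat_lit 465) (nat_lit 6576)))))) (.a (.p (nat_lit 464) (.a (.f (nat_lit 431) (nat_lit 463) (nat_lit 7599) (.f (nat_lit 432) (nat_lit 399) (nat_lit 7567) (.d (nat_lit 433) (nat_lit 401) (nat_lit 6544) (nat_lit 465) (nat_lit 6576)))) (.a (.f (nat_lit 463) (nat_lit 431) (nat_lit 7599) (.f (nat_lit 465) (nat_lit 433) (nat_lit 6576) (.d (nat_lit 592) (nat_lit 495) (nat_lit 7631) (nat_lit 497) (nat_lit 6608)))) (.a (.f (nat_lit 561) (nat_lit 593) (nat_lit 4560) (.f (nat_lit 432) (nat_lit 529) (nat_lit 4528) (.d (nat_lit 433) (nat_lit 401) (nat_lit 6544) (nat_lit 465) (nat_lit 6576)))) (.a (.f (nat_lit 431) (nat_lit 463) (nat_lit 7599) (.f (nat_lit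 432) (nat_lit 399) (nat_lit 7567) (.f (nat_lit 529) (nat_lit 561) (nat_lit 4528) (.f (nat_lit 497) (nat_lit 400) (nat_lit 4496) (.d (nat_lit 592) (nat_lit 465) (nat_lit 6608) (nat_lit 624) (nat_lit 6640)))))) (.f (nat_lit 431) (nat_lit 463) (nat_lit 7599) (.f (nat_lit 432) (nat_lit 399) (nat_lit 7567) (.f (nat_lit 529) (nat_lit 561) (nat_lit 4528) (.f (nat_lit 400) (nat_lit 497) (nat_lit 4496) (.d (nat_lit 401) (nat_lit 369) (nat_lit 6512) (nat_lit 433) (nat_lit 6544))))))))))) (.a s24094 s21941))))) (.a s21949 (.a (.p (nat_lit 494) (.a (.p (nat_lit 462) (.a (.f (nat_lit 461) (nat_lit 429) (nat_lit 7597) (.f (nat_lit 495) (nat_lit 497) (nat_lit 3533) (.d (nat_lit 460) (nat_lit 459) (nat_lit 459) (nat_lit 463) (nat_lit 460)))) (.a (.f (nat_lit 429) (nat_lit 461) (nat_lit 7597) (.f (nat_lit 430) (nat_lit 397) (nat_lit 7565) (.d (nat_lit 431) (nat_lit 399) (nat_lit 6542) (nat_lit 463) (nat_lit 6574)))) (.f (nat_lit 557) (nat_lit 589)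 (nat_lit 5581) (.f (nat_lit 559) (nat_lit 591) (nat_lit 4558) (.f (nat_lit 525) (nat_lit 430) (nat_lit 5549) (.d (nat_lit 524) (nat_lit 523) (nat_lit 523) (nat_lit 560) (nat_lit 3596)))))))) (.a (.p (nat_lit 462) (.a (.f (nat_lit 429) (nat_lit 461) (nat_lit 7597) (.f (nat_lit 430) (nat_lit 397) (nat_lit 7565) (.d (nat_lit 431) (nat_lit 399) (nat_lit 6542) (nat_lit 463) (nat_lit 6574)))) (.f (nat_lit 589) (nat_lit 557) (nat_lit 5581) (.f (nat_lit 590) (nat_lit 621) (nat_lit 5613) (.d (nat_lit 591) (nat_lit 559) (nat_lit 4558) (nat_lit 623) (nat_lit 4590)))))) (.a s21891 (.a s24114 (.a (.p (nat_lit 590) (.a (.f (nat_lit 495) (nat_lit 463) (nat_lit 6606) (.f (nat_lit 497) (nat_lit 525) (nat_lit 1517) (.f (nat_lit 465) (nat_lit 466) (nat_lit 2510) (.f (nat_lit 529) (nat_lit 530) (nat_lit 494) (.d (nat_lit 433) (nat_lit 401) (nat_lit 5520) (nat_lit 560) (nat_lit 5552)))))) (.f (nat_lit 623) (nat_lit 591) (nat_lit 4590) (.f (nat_lit 622)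 (nat_lit 655) (nat_lit 4622) (.d (nat_lit 621) (nat_lit 589) (nat_lit 5613) (nat_lit 653) (nat_lit 5645)))))) s24139)))))) (.a s21983 (.a s24115 (.a s24116 (.a s24128 (.a (.p (nat_lit 494) (.a s19112 (.a s21574 (.a s21883 (.a (.p (nat_lit 590) (.a (.f (nat_lit 623) (nat_lit 591) (nat_lit 4590) (.f (nat_lit 622) (nat_lit 655) (nat_lit 4622) (.d (nat_lit 621) (nat_lit 589) (nat_lit 5613) (nat_lit 653) (nat_lit 5645)))) (.f (nat_lit 495) (nat_lit 463) (nat_lit 6606) (.f (nat_lit 529) (nat_lit 493) (nat_lit 493) (.d (nat_lit 530) (nat_lit 497) (nat_lit 494) (nat_lit 531) (nat_lit 3567)))))) (.a (.p (nat_lit 590) (.a (.f (nat_lit 495) (nat_lit 463) (nat_lit 6606) (.f (nat_lit 497) (nat_lit 525) (nat_lit 1517) (.f (nat_lit 465) (nat_lit 466) (nat_lit 2510) (.f (nat_lit 529) (nat_lit 530) (nat_lit 494) (.d (nat_lit 433) (nat_lit 401) (nat_lit 5520) (nat_lit 560) (nat_lit 5552)))))) (.f (nat_lit 623) (nat_lit 591) (nat_lit 4590) (.f (nat_lit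 622) (nat_lit 655) (nat_lit 4622) (.d (nat_lit 621) (nat_lit 589) (nat_lit 5613) (nat_lit 653) (nat_lit 5645)))))) (.a s21982 (.a s22037 (.a s24127 s22038))))))))) (.a s24140 s22047))))))))))))))) (.a (.p (nat_lit 464) (.a (.p (nat_lit 560) (.a (.f (nat_lit 561) (nat_lit 593) (nat_lit 4560) (.f (nat_lit 529) (nat_lit 432) (nat_lit 4528) (.f (nat_lit 559) (nat_lit 591) (nat_lit 5583) (.d (nat_lit 530) (nat_lit 531) (nat_lit 1551) (nat_lit 558) (nat_lit 2574))))) (.a (.f (nat_lit 433) (nat_lit 465) (nat_lit 6576) (.f (nat_lit 432) (nat_lit 401) (nat_lit 6544) (.d (nat_lit 431) (nat_lit 399) (nat_lit 7567) (nat_lit 463) (nat_lit 7599)))) (.f (nat_lit 465) (nat_lit 433) (nat_lit 6576) (.f (nat_lit 592) (nat_lit 497) (nat_lit 6608) (.d (nat_lit 591) (nat_lit 559) (nat_lit 5583) (nat_lit 623) (nat_lit 5615))))))) (.a (.p (nat_lit 560) (.a (.f (nat_lit 559) (nat_lit 591) (nat_lit 5583) (.f (nat_lit 527) (nat_lit 432) (nat_lit 5551) (.d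 (nat_lit 525) (nat_lit 524) (nat_lit 524) (nat_lit 561) (nat_lit 525)))) (.a (.f (nat_lit 433) (nat_lit 465) (nat_lit 6576) (.f (nat_lit 432) (nat_lit 401) (nat_lit 6544) (.d (nat_lit 431) (nat_lit 399) (nat_lit 7567) (nat_lit 463) (nat_lit 7599)))) (.f (nat_lit 561) (nat_lit 593) (nat_lit 4560) (.f (nat_lit 527) (nat_lit 525) (nat_lit 525) (.d (nat_lit 559) (nat_lit 562) (nat_lit 3598) (nat_lit 591) (nat_lit 5583))))))) (.a s25629 (.a (.p (nat_lit 560) (.a (.f (nat_lit 561) (nat_lit 593) (nat_lit 4560) (.f (nat_lit 527) (nat_lit 525) (nat_lit 525) (.d (nat_lit 529) (nat_lit 432) (nat_lit 4528) (nat_lit 562) (nat_lit 526)))) (.a (.f (nat_lit 433) (nat_lit 465) (nat_lit 6576) (.f (nat_lit 432) (nat_lit 401) (nat_lit 6544) (.d (nat_lit 431) (nat_lit 399) (nat_lit 7567) (nat_lit 463) (nat_lit 7599)))) (.f (nat_lit 561) (nat_lit 593) (nat_lit 4560) (.f (nat_lit 527) (nat_lit 525) (nat_lit 525) (.d (nat_lit 562) (nat_lit 529) (nat_lit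 526) (nat_lit 563) (nat_lit 3599))))))) (.a (.p (nat_lit 560) (.a (.f (nat_lit 561) (nat_lit 593) (nat_lit 4560) (.f (nat_lit 527) (nat_lit 525) (nat_lit 525) (.d (nat_lit 559) (nat_lit 562) (nat_lit 3598) (nat_lit 591) (nat_lit 5583)))) (.a (.f (nat_lit 465) (nat_lit 433) (nat_lit 6576) (.f (nat_lit 592) (nat_lit 497) (nat_lit 6608) (.d (nat_lit 591) (nat_lit 559) (nat_lit 5583) (nat_lit 623) (nat_lit 5615)))) (.f (nat_lit 561) (nat_lit 593) (nat_lit 4560) (.f (nat_lit 527) (nat_lit 525) (nat_lit 525) (.d (nat_lit 562) (nat_lit 529) (nat_lit 526) (nat_lit 563) (nat_lit 3599))))))) (.a (.p (nat_lit 560) (.a (.f (nat_lit 559) (nat_lit 591) (nat_lit 5583) (.f (nat_lit 527) (nat_lit 432) (nat_lit 5551) (.d (nat_lit 525) (nat_lit 497) (nat_lit 2541) (nat_lit 524) (nat_lit 524)))) (.a (.f (nat_lit 433) (nat_lit 465) (nat_lit 6576) (.f (nat_lit 432) (nat_lit 401) (nat_lit 6544) (.d (nat_lit 431) (nat_lit 399) (nat_lit 7567) (nat_lit 463)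 (nat_lit 7599)))) (.f (nat_lit 465) (nat_lit 433) (nat_lit 6576) (.f (nat_lit 592) (nat_lit 497) (nat_lit 6608) (.d (nat_lit 591) (nat_lit 559) (nat_lit 5583) (nat_lit 623) (nat_lit 5615))))))) s19281))))))) (.a s19184 (.a s24454 (.a (.p (nat_lit 464) (.a (.p (nat_lit 560) (.a (.f (nat_lit 465) (nat_lit 433) (nat_lit 6576) (.f (nat_lit 592) (nat_lit 497) (nat_lit 6608) (.d (nat_lit 463) (nat_lit 431) (nat_lit 7599) (nat_lit 495) (nat_lit 7631)))) (.f (nat_lit 561) (nat_lit 593) (nat_lit 4560) (.f (nat_lit 529) (nat_lit 432) (nat_lit 4528) (.f (nat_lit 559) (nat_lit 591) (nat_lit 5583) (.d (nat_lit 530) (nat_lit 531) (nat_lit 1551) (nat_lit 558) (nat_lit 2574))))))) (.a s19217 (.a (.p (nat_lit 560) (.a (.f (nat_lit 561) (nat_lit 593) (nat_lit 4560) (.f (nat_lit 529) (nat_lit 432) (nat_lit 4528) (.f (nat_lit 559) (nat_lit 591) (nat_lit 5583) (.d (nat_lit 530) (nat_lit 531) (nat_lit 1551) (nat_lit 558) (nat_lit 2574))))) (.a (.f (nat_lit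 433) (nat_lit 465) (nat_lit 6576) (.f (nat_lit 432) (nat_lit 401) (nat_lit 6544) (.d (nat_lit 431) (nat_lit 399) (nat_lit 7567) (nat_lit 463) (nat_lit 7599)))) (.f (nat_lit 465) (nat_lit 433) (nat_lit 6576) (.f (nat_lit 592) (nat_lit 497) (nat_lit 6608) (.d (nat_lit 591) (nat_lit 559) (nat_lit 5583) (nat_lit 623) (nat_lit 5615))))))) (.a s19231 (.a (.p (nat_lit 560) (.a (.f (nat_lit 465) (nat_lit 433) (nat_lit 6576) (.f (nat_lit 592) (nat_lit 497) (nat_lit 6608) (.d (nat_lit 463) (nat_lit 431) (nat_lit 7599) (nat_lit 495) (nat_lit 7631)))) (.a (.f (nat_lit 433) (nat_lit 465) (nat_lit 6576) (.f (nat_lit 432) (nat_lit 401) (nat_lit 6544) (.d (nat_lit 431) (nat_lit 399) (nat_lit 7567) (nat_lit 463) (nat_lit 7599)))) (.a (.f (nat_lit 433) (nat_lit 465) (nat_lit 6576) (.f (nat_lit 432) (nat_lit 401) (nat_lit 6544) (.d (nat_lit 561) (nat_lit 529) (nat_lit 4528) (nat_lit 593) (nat_lit 4560)))) (.f (nat_lit 463) (nat_lit 431) (nat_lit 7599)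 (.f (nat_lit 592) (nat_lit 495) (nat_lit 7631) (.f (nat_lit 623) (nat_lit 591) (nat_lit 5615) (.f (nat_lit 624) (nat_lit 655) (nat_lit 5647) (.f (nat_lit 529) (nat_lit 497) (nat_lit 6640) (.d (nat_lit 561) (nat_lit 432) (nat_lit 4528) (nat_lit 656) (nat_lit 6672))))))))))) (.a s19240 (.a (.p (nat_lit 560) (.a (.f (nat_lit 561) (nat_lit 593) (nat_lit 4560) (.f (nat_lit 529) (nat_lit 432) (nat_lit 4528) (.f (nat_lit 559) (nat_lit 591) (nat_lit 5583) (.d (nat_lit 530) (nat_lit 531) (nat_lit 1551) (nat_lit 558) (nat_lit 2574))))) (.a (.f (nat_lit 433) (nat_lit 465) (nat_lit 6576) (.f (nat_lit 432) (nat_lit 401) (nat_lit 6544) (.d (nat_lit 431) (nat_lit 399) (nat_lit 7567) (nat_lit 463) (nat_lit 7599)))) (.f (nat_lit 463) (nat_lit 431) (nat_lit 7599) (.f (nat_lit 592) (nat_lit 495) (nat_lit 7631) (.d (nat_lit 591) (nat_lit 559) (nat_lit 5583) (nat_lit 623) (nat_lit 5615))))))) (.a (.p (nat_lit 560) (.a (.f (nat_lit 561) (nat_lit 593)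 (nat_lit 4560) (.f (nat_lit 529) (nat_lit 432) (nat_lit 4528) (.f (nat_lit 559) (nat_lit 591) (nat_lit 5583) (.d (nat_lit 530) (nat_lit 531) (nat_lit 1551) (nat_lit 558) (nat_lit 2574))))) (.a (.f (nat_lit 465) (nat_lit 433) (nat_lit 6576) (.f (nat_lit 592) (nat_lit 497) (nat_lit 6608) (.d (nat_lit 591) (nat_lit 559) (nat_lit 5583) (nat_lit 623) (nat_lit 5615)))) (.f (nat_lit 433) (nat_lit 465) (nat_lit 6576) (.f (nat_lit 432) (nat_lit 401) (nat_lit 6544) (.d (nat_lit 561) (nat_lit 529) (nat_lit 4528) (nat_lit 593) (nat_lit 4560))))))) s25559))))))))) (.a (.p (nat_lit 560) (.a (.p (nat_lit 464) (.a (.f (nat_lit 561) (nat_lit 593) (nat_lit 4560) (.f (nat_lit 527) (nat_lit 525) (nat_lit 525) (.d (nat_lit 432) (nat_lit 529) (nat_lit 4528) (nat_lit 559) (nat_lit 5551)))) (.a (.f (nat_lit 559) (nat_lit 591) (nat_lit 5583) (.f (nat_lit 527) (nat_lit 432) (nat_lit 5551) (.d (nat_lit 525) (nat_lit 497) (nat_lit 2541) (nat_lit 524) (nat_lit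 524)))) (.f (nat_lit 465) (nat_lit 433) (nat_lit 6576) (.f (nat_lit 592) (nat_lit 497) (nat_lit 6608) (.d (nat_lit 463) (nat_lit 431) (nat_lit 7599) (nat_lit 495) (nat_lit 7631))))))) (.a (.p (nat_lit 464) (.a (.f (nat_lit 559) (nat_lit 591) (nat_lit 5583) (.f (nat_lit 527) (nat_lit 432) (nat_lit 5551) (.d (nat_lit 525) (nat_lit 497) (nat_lit 2541) (nat_lit 524) (nat_lit 524)))) (.a (.f (nat_lit 465) (nat_lit 433) (nat_lit 6576) (.f (nat_lit 592) (nat_lit 497) (nat_lit 6608) (.d (nat_lit 463) (nat_lit 431) (nat_lit 7599) (nat_lit 495) (nat_lit 7631)))) (.f (nat_lit 559) (nat_lit 591) (nat_lit 5583) (.f (nat_lit 527) (nat_lit 432) (nat_lit 5551) (.d (nat_lit 525) (nat_lit 524) (nat_lit 524) (nat_lit 561) (nat_lit 525))))))) (.a s18960 (.a (.p (nat_lit 464) (.a (.f (nat_lit 559) (nat_lit 591) (nat_lit 5583) (.f (nat_lit 527) (nat_lit 432) (nat_lit 5551) (.d (nat_lit 525) (nat_lit 497) (nat_lit 2541) (nat_lit 524) (nat_lit 524)))) (.a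 (.f (nat_lit 433) (nat_lit 465) (nat_lit 6576) (.f (nat_lit 432) (nat_lit 401) (nat_lit 6544) (.d (nat_lit 431) (nat_lit 399) (nat_lit 7567) (nat_lit 463) (nat_lit 7599)))) (.f (nat_lit 561) (nat_lit 593) (nat_lit 4560) (.f (nat_lit 527) (nat_lit 525) (nat_lit 525) (.d (nat_lit 559) (nat_lit 562) (nat_lit 3598) (nat_lit 591) (nat_lit 5583))))))) (.a s18940 (.a (.p (nat_lit 464) (.a (.f (nat_lit 559) (nat_lit 591) (nat_lit 5583) (.f (nat_lit 527) (nat_lit 432) (nat_lit 5551) (.d (nat_lit 525) (nat_lit 524) (nat_lit 524) (nat_lit 561) (nat_lit 525)))) (.a (.f (nat_lit 433) (nat_lit 465) (nat_lit 6576) (.f (nat_lit 432) (nat_lit 401) (nat_lit 6544) (.d (nat_lit 431) (nat_lit 399) (nat_lit 7567) (nat_lit 463) (nat_lit 7599)))) (.f (nat_lit 561) (nat_lit 593) (nat_lit 4560) (.f (nat_lit 527) (nat_lit 525) (nat_lit 525) (.d (nat_lit 559) (nat_lit 562) (nat_lit 3598) (nat_lit 591) (nat_lit 5583))))))) (.a (.p (nat_lit 464) (.a (.f (nat_lit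 561) (nat_lit 593) (nat_lit 4560) (.f (nat_lit 527) (nat_lit 525) (nat_lit 525) (.d (nat_lit 432) (nat_lit 529) (nat_lit 4528) (nat_lit 559) (nat_lit 5551)))) (.f (nat_lit 465) (nat_lit 433) (nat_lit 6576) (.f (nat_lit 592) (nat_lit 497) (nat_lit 6608) (.d (nat_lit 463) (nat_lit 431) (nat_lit 7599) (nat_lit 495) (nat_lit 7631)))))) (.a (.p (nat_lit 464) (.a (.f (nat_lit 561) (nat_lit 593) (nat_lit 4560) (.f (nat_lit 527) (nat_lit 525) (nat_lit 525) (.d (nat_lit 529) (nat_lit 432) (nat_lit 4528) (nat_lit 562) (nat_lit 526)))) (.a (.f (nat_lit 433) (nat_lit 465) (nat_lit 6576) (.f (nat_lit 432) (nat_lit 401) (nat_lit 6544) (.f (nat_lit 399) (nat_lit 431) (nat_lit 7567) (.f (nat_lit 400) (nat_lit 367) (nat_lit 7535) (.f (nat_lit 527) (nat_lit 495) (nat_lit 5519) (.d (nat_lit 525) (nat_lit 497) (nat_lit 2541) (nat_lit 561) (nat_lit 525))))))) (.a (.f (nat_lit 433) (nat_lit 465) (nat_lit 6576) (.f (nat_lit 432) (nat_lit 401) (nat_lit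 6544) (.d (nat_lit 561) (nat_lit 529) (nat_lit 4528) (nat_lit 593) (nat_lit 4560)))) (.a (.f (nat_lit 561) (nat_lit 593) (nat_lit 4560) (.f (nat_lit 527) (nat_lit 525) (nat_lit 525) (.d (nat_lit 562) (nat_lit 529) (nat_lit 526) (nat_lit 563) (nat_lit 3599)))) (.f (nat_lit 433) (nat_lit 465) (nat_lit 6576) (.f (nat_lit 432) (nat_lit 401) (nat_lit 6544) (.f (nat_lit 399) (nat_lit 431) (nat_lit 7567) (.f (nat_lit 400) (nat_lit 367) (nat_lit 7535) (.f (nat_lit 527) (nat_lit 495) (nat_lit 5519) (.d (nat_lit 497) (nat_lit 525) (nat_lit 2541) (nat_lit 529) (nat_lit 4496)))))))))))) (.p (nat_lit 464) (.a (.f (nat_lit 561) (nat_lit 593) (nat_lit 4560) (.f (nat_lit 527) (nat_lit 525) (nat_lit 525) (.d (nat_lit 432) (nat_lit 529) (nat_lit 4528) (nat_lit 559) (nat_lit 5551)))) (.a (.f (nat_lit 559) (nat_lit 591) (nat_lit 5583) (.f (nat_lit 527) (nat_lit 432) (nat_lit 5551) (.d (nat_lit 525) (nat_lit 497) (nat_lit 2541) (nat_lit 524) (nat_lit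 524)))) (.a (.f (nat_lit 463) (nat_lit 431) (nat_lit 7599) (.f (nat_lit 592) (nat_lit 495) (nat_lit 7631) (.d (nat_lit 591) (nat_lit 559) (nat_lit 5583) (nat_lit 623) (nat_lit 5615)))) (.f (nat_lit 561) (nat_lit 593) (nat_lit 4560) (.f (nat_lit 527) (nat_lit 525) (nat_lit 525) (.d (nat_lit 529) (nat_lit 432) (nat_lit 4528) (nat_lit 562) (nat_lit 526))))))))))))))))) (.a s24774 (.a s24775 (.a s24827 (.a s24884 (.a s24885 s22872))))))))))))))
noncomputable def s25817 : Cert := .r (nat_lit 4717453031905620791003248182746528282804394213382763200902141095587213075108641303088566743419053253111706032595917743804753198374130109692741601756418182741657504448512) (.p (nat_lit 592) (.a (.f (nat_lit 593) (nat_lit 625) (nat_lit 4592) (.f (nat_lit 559) (nat_lit 557) (nat_lit 557) (.d (nat_lit 591) (nat_lit 594) (nat_lit 3630) (nat_lit 623) (nat_lit 5615)))) (.a (.f (nat_lit 591) (nat_lit 623) (nat_lit 5615) (.f (nat_lit 593) (nat_lit 625) (nat_lit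 4592) (.f (nat_lit 590) (nat_lit 557) (nat_lit 3629) (.d (nat_lit 561) (nat_lit 562) (nat_lit 2606) (nat_lit 589) (nat_lit 2605))))) (.a (.f (nat_lit 593) (nat_lit 625) (nat_lit 4592) (.f (nat_lit 559) (nat_lit 557) (nat_lit 557) (.d (nat_lit 594) (nat_lit 561) (nat_lit 558) (nat_lit 595) (nat_lit 3631)))) (.a (.f (nat_lit 591) (nat_lit 623) (nat_lit 5615) (.f (nat_lit 559) (nat_lit 464) (nat_lit 5583) (.f (nat_lit 557) (nat_lit 556) (nat_lit 556) (.f (nat_lit 589) (nat_lit 588) (nat_lit 1580) (.f (nat_lit 590) (nat_lit 561) (nat_lit 1581) (.f (nat_lit 525) (nat_lit 524) (nat_lit 3596) (.d (nat_lit 493) (nat_lit 461) (nat_lit 4557) (nat_lit 622) (nat_lit 4589)))))))) (.f (nat_lit 591) (nat_lit 623) (nat_lit 5615) (.f (nat_lit 593) (nat_lit 625) (nat_lit 4592) (.f (nat_lit 594) (nat_lit 559) (nat_lit 3630) (.f (nat_lit 562) (nat_lit 563) (nat_lit 2607) (.f (nat_lit 561) (nat_lit 590) (nat_lit 2606) (.f (nat_lit 595) (nat_lit 596)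 (nat_lit 3632) (.d (nat_lit 627) (nat_lit 626) (nat_lit 591) (nat_lit 628) (nat_lit 592)))))))))))))
noncomputable def s25837 : Cert := .r (nat_lit 6604434244316391467124025473240662728262854823590983415090244245710025156304715729131630106007882636882440220111299666254638490689092506009022318882134530763482202112000) (.p (nat_lit 525) (.a (.f (nat_lit 561) (nat_lit 526) (nat_lit 3597) (.f (nat_lit 557) (nat_lit 524) (nat_lit 3596) (.d (nat_lit 589) (nat_lit 588) (nat_lit 1580) (nat_lit 590) (nat_lit 1581)))) (.a (.f (nat_lit 557) (nat_lit 524) (nat_lit 3596) (.f (nat_lit 589) (nat_lit 588) (nat_lit 1580) (.f (nat_lit 590) (nat_lit 561) (nat_lit 1581) (.d (nat_lit 493) (nat_lit 461) (nat_lit 4557) (nat_lit 622) (nat_lit 4589))))) (.a (.f (nat_lit 557) (nat_lit 524) (nat_lit 3596) (.f (nat_lit 556) (nat_lit 527) (nat_lit 2572) (.d (nat_lit 588) (nat_lit 587) (nat_lit 1579) (nat_lit 589) (nat_lit 1580)))) (.a (.f (nat_lit 526) (nat_lit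 561) (nat_lit 3597) (.d (nat_lit 524) (nat_lit 523) (nat_lit 523) (nat_lit 527) (nat_lit 524))) (.f (nat_lit 561) (nat_lit 526) (nat_lit 3597) (.f (nat_lit 590) (nat_lit 589) (nat_lit 1581) (.f (nat_lit 562) (nat_lit 591) (nat_lit 1582) (.d (nat_lit 594) (nat_lit 593) (nat_lit 558) (nat_lit 595) (nat_lit 559))))))))))
noncomputable def s25873 : Cert := .r (nat_lit 4717453031905620791003248182746528282804394213382763200902141095587213075108641303088566743419053253111706032595917743804753198374130109692741601756418182741657504448512) (.p (nat_lit 464) (.a (.f (nat_lit 463) (nat_lit 431) (nat_lit 7599) (.f (nat_lit 592) (nat_lit 495) (nat_lit 7631) (.d (nat_lit 593) (nat_lit 561) (nat_lit 4560) (nat_lit 625) (nat_lit 4592)))) (.a (.f (nat_lit 561) (nat_lit 593) (nat_lit 4560) (.f (nat_lit 431) (nat_lit 463) (nat_lit 7599) (.f (nat_lit 432) (nat_lit 399) (nat_lit 7567) (.f (nat_lit 559) (nat_lit 527) (nat_lit 5551) (.f (nat_lit 525)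 (nat_lit 526) (nat_lit 3597) (.f (nat_lit 557) (nat_lit 524) (nat_lit 3596) (.d (nat_lit 589) (nat_lit 588) (nat_lit 1580) (nat_lit 590) (nat_lit 1581)))))))) (.a (.f (nat_lit 431) (nat_lit 463) (nat_lit 7599) (.f (nat_lit 432) (nat_lit 399) (nat_lit 7567) (.f (nat_lit 401) (nat_lit 433) (nat_lit 6544) (.f (nat_lit 400) (nat_lit 369) (nat_lit 6512) (.d (nat_lit 527) (nat_lit 495) (nat_lit 5519) (nat_lit 559) (nat_lit 5551)))))) (.f (nat_lit 593) (nat_lit 561) (nat_lit 4560) (.f (nat_lit 592) (nat_lit 625) (nat_lit 4592) (.f (nat_lit 559) (nat_lit 557) (nat_lit 557) (.f (nat_lit 527) (nat_lit 432) (nat_lit 5551) (.d (nat_lit 624) (nat_lit 495) (nat_lit 7663) (nat_lit 656) (nat_lit 7695))))))))))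
noncomputable def s25886 : Cert := .r (nat_lit 4717453031905620791003248182746528282804394213382763200902141095587213075108641303088566743419053253111706032595917743804753198374130109692741601756418182741657504448512) (.p (nat_lit 592) (.a (.f (nat_lit 495) (nat_lit 463) (nat_lit 7631) (.f (nat_lit 624) (nat_lit 527) (nat_lit 7663) (.d (nat_lit 623) (nat_lit 591) (nat_lit 5615) (nat_lit 655) (nat_lit 5647)))) (.a (.f (nat_lit 591) (nat_lit 623) (nat_lit 5615) (.f (nat_lit 559) (nat_lit 464) (nat_lit 5583) (.f (nat_lit 557) (nat_lit 556) (nat_lit 556) (.f (nat_lit 589) (nat_lit 588) (nat_lit 1580) (.f (nat_lit 590) (nat_lit 561) (nat_lit 1581) (.f (nat_lit 525) (nat_lit 524) (nat_lit 3596) (.d (nat_lit 493) (nat_lit 461) (nat_lit 4557) (nat_lit 622) (nat_lit 4589)))))))) (.a (.f (nat_lit 495) (nat_lit 463) (nat_lit 7631) (.f (nat_lit 624) (nat_lit 527) (nat_lit 7663) (.f (nat_lit 655) (nat_lit 623) (nat_lit 5647) (.f (nat_lit 656)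 (nat_lit 687) (nat_lit 5679) (.d (nat_lit 657) (nat_lit 625) (nat_lit 4624) (nat_lit 689) (nat_lit 4656)))))) (.f (nat_lit 463) (nat_lit 495) (nat_lit 7631) (.f (nat_lit 464) (nat_lit 431) (nat_lit 7599) (.f (nat_lit 559) (nat_lit 591) (nat_lit 5583) (.f (nat_lit 527) (nat_lit 432) (nat_lit 5551) (.f (nat_lit 557) (nat_lit 556) (nat_lit 2572) (.f (nat_lit 525) (nat_lit 524) (nat_lit 3596) (.d (nat_lit 526) (nat_lit 497) (nat_lit 2541) (nat_lit 561) (nat_lit 525))))))))))))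
noncomputable def s25895 : Cert := .r (nat_lit 4717453031905620791003248182746528282804394213382763200902141095587213075108641303088566743419053253111706032595917743804753198374130109692741601756418182741657504448512) (.p (nat_lit 464) (.a (.f (nat_lit 559) (nat_lit 591) (nat_lit 5583) (.f (nat_lit 527) (nat_lit 432) (nat_lit 5551) (.f (nat_lit 561) (nat_lit 593) (nat_lit 4560) (.d (nat_lit 526) (nat_lit 525) (nat_lit 3597) (nat_lit 562) (nat_lit 3598))))) (.a (.f (nat_lit 463) (nat_lit 431) (nat_lit 7599) (.f (nat_lit 592) (nat_lit 495) (nat_lit 7631) (.d (nat_lit 593) (nat_lit 561) (nat_lit 4560) (nat_lit 625) (nat_lit 4592)))) (.f (nat_lit 559) (nat_lit 591) (nat_lit 5583) (.f (nat_lit 527) (nat_lit 432) (nat_lit 5551) (.f (nat_lit 463) (nat_lit 431) (nat_lit 7599) (.d (nat_lit 495) (nat_lit 590) (nat_lit 5582) (nat_lit 592) (nat_lit 7631))))))))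
noncomputable def s25905 : Cert := .r (nat_lit 4717453031905620791003248182746528282804394213382763200902141095587213075108641303088566743419053253111706032595917743804753198374130109692741601756418182741657504448512) (.p (nat_lit 464) (.a (.f (nat_lit 559) (nat_lit 591) (nat_lit 5583) (.f (nat_lit 561) (nat_lit 593) (nat_lit 4560) (.f (nat_lit 525) (nat_lit 526) (nat_lit 3597) (.f (nat_lit 557) (nat_lit 524) (nat_lit 3596) (.d (nat_lit 589) (nat_lit 588) (nat_lit 1580) (nat_lit 590) (nat_lit 1581)))))) (.a (.f (nat_lit 463) (nat_lit 431) (nat_lit 7599) (.f (nat_lit 592) (nat_lit 495) (nat_lit 7631) (.d (nat_lit 593) (nat_lit 561) (nat_lit 4560) (nat_lit 625) (nat_lit 4592)))) (.a (.f (nat_lit 559) (nat_lit 591) (nat_lit 5583) (.f (nat_lit 557) (nat_lit 529) (nat_lit 2573) (.f (nat_lit 592) (nat_lit 593) (nat_lit 557) (.d (nat_lit 463) (nat_lit 431) (nat_lit 7599) (nat_lit 495) (nat_lit 7631))))) (.f (nat_lit 559) (nat_lit 591) (nat_lit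 5583) (.f (nat_lit 529) (nat_lit 557) (nat_lit 2573) (.d (nat_lit 530) (nat_lit 531) (nat_lit 1551) (nat_lit 561) (nat_lit 2574))))))))
noncomputable def s25911 : Cert := .r (nat_lit 4717453031905620791003248182746528282804394213382763200902141095587213075108641303088566743419053253111706032595917743804753198374130109692741601756418182741657504448512) (.p (nat_lit 592) (.a (.f (nat_lit 593) (nat_lit 625) (nat_lit 4592) (.f (nat_lit 559) (nat_lit 557) (nat_lit 557) (.d (nat_lit 591) (nat_lit 594) (nat_lit 3630) (nat_lit 623) (nat_lit 5615)))) (.a (.f (nat_lit 591) (nat_lit 623) (nat_lit 5615) (.f (nat_lit 593) (nat_lit 625) (nat_lit 4592) (.f (nat_lit 590) (nat_lit 557) (nat_lit 3629) (.d (nat_lit 561) (nat_lit 562) (nat_lit 2606) (nat_lit 589) (nat_lit 2605))))) (.a (.f (nat_lit 593) (nat_lit 625) (nat_lit 4592) (.f (nat_lit 559) (nat_lit 557) (nat_lit 557) (.d (nat_lit 594) (nat_lit 561) (nat_lit 558) (nat_lit 595) (nat_lit 3631))))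 (.a (.f (nat_lit 623) (nat_lit 591) (nat_lit 5615) (.f (nat_lit 624) (nat_lit 655) (nat_lit 5647) (.f (nat_lit 529) (nat_lit 497) (nat_lit 6640) (.f (nat_lit 559) (nat_lit 557) (nat_lit 2573) (.d (nat_lit 530) (nat_lit 531) (nat_lit 1551) (nat_lit 561) (nat_lit 2574)))))) (.f (nat_lit 591) (nat_lit 623) (nat_lit 5615) (.f (nat_lit 593) (nat_lit 625) (nat_lit 4592) (.f (nat_lit 594) (nat_lit 559) (nat_lit 3630) (.f (nat_lit 562) (nat_lit 563) (nat_lit 2607) (.f (nat_lit 561) (nat_lit 590) (nat_lit 2606) (.f (nat_lit 595) (nat_lit 596) (nat_lit 3632) (.d (nat_lit 627) (nat_lit 626) (nat_lit 591) (nat_lit 628) (nat_lit 592)))))))))))))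
noncomputable def s25960 : Cert := .r (nat_lit 4717453031905620791003248182746528282804394213382763200902141095587213075108641303088566743419053253111706032595917743804753198374130109692741601756418182741657504448512) (.p (nat_lit 559) (.a (.f (nat_lit 557) (nat_lit 529) (nat_lit 2573) (.f (nat_lit 592) (nat_lit 593) (nat_lit 557) (.d (nat_lit 591) (nat_lit 464) (nat_lit 5583) (nat_lit 556) (nat_lit 556)))) (.a (.f (nat_lit 591) (nat_lit 464) (nat_lit 5583) (.d (nat_lit 623) (nat_lit 592) (nat_lit 5615) (nat_lit 655) (nat_lit 6671))) (.a (.f (nat_lit 557) (nat_lit 529) (nat_lit 2573) (.f (nat_lit 592) (nat_lit 593) (nat_lit 557) (.d (nat_lit 591) (nat_lit 556) (nat_lit 556) (nat_lit 623) (nat_lit 5615)))) (.f (nat_lit 557) (nat_lit 529) (nat_lit 2573) (.f (nat_lit 524) (nat_lit 525) (nat_lit 3596) (.f (nat_lit 556) (nat_lit 523) (nat_lit 3595) (.d (nat_lit 588) (nat_lit 587) (nat_lit 1579) (nat_lit 589) (nat_lit 1580)))))))))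
noncomputable def s25972 : Cert := .r (nat_lit 4717453031905620791003248182746528282804394213382763200902141095587213075108641303088566743419053253111706032595917743804753198374130109692741601756418182741657504448512) (.p (nat_lit 463) (.a (.f (nat_lit 464) (nat_lit 431) (nat_lit 7599) (.f (nat_lit 561) (nat_lit 593) (nat_lit 4560) (.f (nat_lit 529) (nat_lit 432) (nat_lit 4528) (.d (nat_lit 559) (nat_lit 530) (nat_lit 2574) (nat_lit 557) (nat_lit 2573))))) (.a (.f (nat_lit 464) (nat_lit 431) (nat_lit 7599) (.f (nat_lit 592) (nat_lit 495) (nat_lit 7631) (.d (nat_lit 593) (nat_lit 561) (nat_lit 4560) (nat_lit 625) (nat_lit 4592)))) (.a (.f (nat_lit 592) (nat_lit 495) (nat_lit 7631) (.f (nat_lit 593) (nat_lit 625) (nat_lit 4592) (.f (nat_lit 559) (nat_lit 557) (nat_lit 557) (.d (nat_lit 594) (nat_lit 561) (nat_lit 558) (nat_lit 595) (nat_lit 3631))))) (.f (nat_lit 495) (nat_lit 592) (nat_lit 7631) (.d (nat_lit 431) (nat_lit 399) (nat_lit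 4495) (nat_lit 464) (nat_lit 7599)))))))
noncomputable def s25985 : Cert := .r (nat_lit 4717453031905620791003248182746528282804394213382763200902141095587213075108641303088566743419053253111706032595917743804753198374130109692741601756418182741657504448512) (.p (nat_lit 464) (.a (.f (nat_lit 463) (nat_lit 431) (nat_lit 7599) (.f (nat_lit 592) (nat_lit 495) (nat_lit 7631) (.d (nat_lit 593) (nat_lit 561) (nat_lit 4560) (nat_lit 625) (nat_lit 4592)))) (.a (.f (nat_lit 561) (nat_lit 593) (nat_lit 4560) (.f (nat_lit 432) (nat_lit 529) (nat_lit 4528) (.d (nat_lit 431) (nat_lit 399) (nat_lit 7567) (nat_lit 463) (nat_lit 7599)))) (.a (.f (nat_lit 463) (nat_lit 431) (nat_lit 7599) (.f (nat_lit 592) (nat_lit 495) (nat_lit 7631) (.d (nat_lit 591) (nat_lit 559) (nat_lit 5583) (nat_lit 623) (nat_lit 5615)))) (.a (.f (nat_lit 561) (nat_lit 593) (nat_lit 4560) (.f (nat_lit 432) (nat_lit 529) (nat_lit 4528) (.f (nat_lit 399) (nat_lit 431) (nat_lit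 7567) (.f (nat_lit 400) (nat_lit 367) (nat_lit 7535) (.d (nat_lit 401) (nat_lit 369) (nat_lit 6512) (nat_lit 433) (nat_lit 6544)))))) (.f (nat_lit 561) (nat_lit 593) (nat_lit 4560) (.f (nat_lit 559) (nat_lit 591) (nat_lit 5583) (.d (nat_lit 529) (nat_lit 432) (nat_lit 4528) (nat_lit 530) (nat_lit 2574)))))))))
noncomputable def s25990 : Cert := .r (nat_lit 4717453031905620791003248182746528282804394213382763200902141095587213075108641303088566743419053253111706032595917743804753198374130109692741601756418182741657504448512) (.p (nat_lit 464) (.a (.f (nat_lit 559) (nat_lit 591) (nat_lit 5583) (.f (nat_lit 527) (nat_lit 432) (nat_lit 5551) (.f (nat_lit 561) (nat_lit 593) (nat_lit 4560) (.d (nat_lit 526) (nat_lit 525) (nat_lit 3597) (nat_lit 562) (nat_lit 3598))))) (.a (.f (nat_lit 559) (nat_lit 591) (nat_lit 5583) (.f (nat_lit 561) (nat_lit 593) (nat_lit 4560) (.f (nat_lit 525) (nat_lit 526) (nat_lit 3597) (.f (nat_lit 557) (nat_lit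 524) (nat_lit 3596) (.d (nat_lit 589) (nat_lit 588) (nat_lit 1580) (nat_lit 590) (nat_lit 1581)))))) (.a (.f (nat_lit 561) (nat_lit 593) (nat_lit 4560) (.f (nat_lit 432) (nat_lit 529) (nat_lit 4528) (.d (nat_lit 431) (nat_lit 399) (nat_lit 7567) (nat_lit 463) (nat_lit 7599)))) (.f (nat_lit 559) (nat_lit 591) (nat_lit 5583) (.f (nat_lit 557) (nat_lit 529) (nat_lit 2573) (.d (nat_lit 527) (nat_lit 432) (nat_lit 5551) (nat_lit 556) (nat_lit 2572))))))))
noncomputable def s26065 : Cert := .r (nat_lit 4717453031905620791003248182746528282804394213382763200902141095587213075108641303088566743419053253111706032595917743804753198374130109692741601756418182741657504448512) (.p (nat_lit 464) (.a (.f (nat_lit 559) (nat_lit 591) (nat_lit 5583) (.f (nat_lit 529) (nat_lit 557) (nat_lit 2573) (.d (nat_lit 530) (nat_lit 531) (nat_lit 1551) (nat_lit 561) (nat_lit 2574)))) (.a (.f (nat_lit 559) (nat_lit 591) (nat_lit 5583) (.f (nat_lit 432) (nat_lit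 527) (nat_lit 5551) (.d (nat_lit 431) (nat_lit 399) (nat_lit 7567) (nat_lit 463) (nat_lit 7599)))) (.f (nat_lit 431) (nat_lit 463) (nat_lit 7599) (.f (nat_lit 432) (nat_lit 399) (nat_lit 7567) (.f (nat_lit 529) (nat_lit 561) (nat_lit 4528) (.f (nat_lit 400) (nat_lit 497) (nat_lit 4496) (.d (nat_lit 401) (nat_lit 369) (nat_lit 6512) (nat_lit 433) (nat_lit 6544)))))))))
noncomputable def s26073 : Cert := .r (nat_lit 4717453031905620791003248182746528282804394213382763200902141095587213075108641303088566743419053253111706032595917743804753198374130109692741601756418182741657504448512) (.p (nat_lit 464) (.a (.f (nat_lit 559) (nat_lit 591) (nat_lit 5583) (.f (nat_lit 527) (nat_lit 432) (nat_lit 5551) (.f (nat_lit 561) (nat_lit 593) (nat_lit 4560) (.d (nat_lit 526) (nat_lit 525) (nat_lit 3597) (nat_lit 562) (nat_lit 3598))))) (.a (.f (nat_lit 561) (nat_lit 593) (nat_lit 4560) (.f (nat_lit 432) (nat_lit 529) (nat_lit 4528) (.d (nat_lit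 431) (nat_lit 399) (nat_lit 7567) (nat_lit 463) (nat_lit 7599)))) (.a (.f (nat_lit 561) (nat_lit 593) (nat_lit 4560) (.f (nat_lit 559) (nat_lit 591) (nat_lit 5583) (.f (nat_lit 529) (nat_lit 530) (nat_lit 2574) (.f (nat_lit 526) (nat_lit 525) (nat_lit 3597) (.f (nat_lit 562) (nat_lit 527) (nat_lit 526) (.f (nat_lit 563) (nat_lit 564) (nat_lit 3600) (.d (nat_lit 595) (nat_lit 594) (nat_lit 559) (nat_lit 596) (nat_lit 560)))))))) (.f (nat_lit 559) (nat_lit 591) (nat_lit 5583) (.f (nat_lit 432) (nat_lit 527) (nat_lit 5551) (.d (nat_lit 431) (nat_lit 399) (nat_lit 7567) (nat_lit 463) (nat_lit 7599))))))))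
noncomputable def s26081 : Cert := .r (nat_lit 4717453031905620791003248182746528282804394213382763200902141095587213075108641303088566743419053253111706032595917743804753198374130109692741601756418182741657504448512) (.p (nat_lit 464) (.a (.f (nat_lit 559) (nat_lit 591) (nat_lit 5583) (.f (nat_lit 529) (nat_lit 557) (nat_lit 2573) (.d (nat_lit 530) (nat_lit 531) (nat_lit 1551) (nat_lit 561) (nat_lit 2574)))) (.a (.f (nat_lit 559) (nat_lit 591) (nat_lit 5583) (.f (nat_lit 593) (nat_lit 561) (nat_lit 4560) (.d (nat_lit 592) (nat_lit 557) (nat_lit 557) (nat_lit 625) (nat_lit 4592)))) (.a (.f (nat_lit 561) (nat_lit 593) (nat_lit 4560) (.f (nat_lit 432) (nat_lit 529) (nat_lit 4528) (.d (nat_lit 431) (nat_lit 399) (nat_lit 7567) (nat_lit 463) (nat_lit 7599)))) (.f (nat_lit 559) (nat_lit 591) (nat_lit 5583) (.f (nat_lit 557) (nat_lit 529) (nat_lit 2573) (.d (nat_lit 527) (nat_lit 432) (nat_lit 5551) (nat_lit 556) (nat_lit 2572))))))))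
noncomputable def s26217 : Cert := .r (nat_lit 878694100701304956511192169158242687862212665431883220280182872118455237980908336946979793684870563807462937680039967586724118902039808942127312687095760289792) (.p (nat_lit 558) (.a s21581 (.a (.p (nat_lit 560) (.a (.p (nat_lit 592) (.a (.f (nat_lit 593) (nat_lit 625) (nat_lit 4592) (.f (nat_lit 559) (nat_lit 557) (nat_lit 557) (.d (nat_lit 591) (nat_lit 594) (nat_lit 3630) (nat_lit 623) (nat_lit 5615)))) (.a (.f (nat_lit 495) (nat_lit 463) (nat_lit 7631) (.f (nat_lit 624) (nat_lit 527) (nat_lit 7663) (.d (nat_lit 623) (nat_lit 591) (nat_lit 5615) (nat_lit 655) (nat_lit 5647)))) (.f (nat_lit 593) (nat_lit 625) (nat_lit 4592) (.f (nat_lit 559) (nat_lit 557) (nat_lit 557) (.d (nat_lit 594) (nat_lit 561) (nat_lit 558) (nat_lit 595) (nat_lit 3631))))))) (.a s25817 (.a (.p (nat_lit 592) (.a (.f (nat_lit 495) (nat_lit 463) (nat_lit 7631) (.f (nat_lit 624) (nat_lit 527) (nat_lit 7663) (.d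 (nat_lit 623) (nat_lit 591) (nat_lit 5615) (nat_lit 655) (nat_lit 5647)))) (.a (.f (nat_lit 591) (nat_lit 623) (nat_lit 5615) (.f (nat_lit 593) (nat_lit 625) (nat_lit 4592) (.f (nat_lit 590) (nat_lit 557) (nat_lit 3629) (.d (nat_lit 561) (nat_lit 562) (nat_lit 2606) (nat_lit 589) (nat_lit 2605))))) (.f (nat_lit 495) (nat_lit 463) (nat_lit 7631) (.f (nat_lit 624) (nat_lit 527) (nat_lit 7663) (.d (nat_lit 625) (nat_lit 593) (nat_lit 4592) (nat_lit 657) (nat_lit 4624))))))) (.a (.p (nat_lit 559) (.a s25837 (.a (.f (nat_lit 464) (nat_lit 591) (nat_lit 5583) (.f (nat_lit 561) (nat_lit 593) (nat_lit 4560) (.f (nat_lit 525) (nat_lit 526) (nat_lit 3597) (.f (nat_lit 557) (nat_lit 524) (nat_lit 3596) (.d (nat_lit 589) (nat_lit 588) (nat_lit 1580) (nat_lit 590) (nat_lit 1581)))))) (.a s22458 (.a (.f (nat_lit 464) (nat_lit 591) (nat_lit 5583) (.f (nat_lit 561) (nat_lit 593) (nat_lit 4560) (.f (nat_lit 527) (nat_lit 432) (nat_lit 5551) (.d (nat_lit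 562) (nat_lit 526) (nat_lit 3598) (nat_lit 563) (nat_lit 3599))))) (.a (.f (nat_lit 591) (nat_lit 464) (nat_lit 5583) (.d (nat_lit 623) (nat_lit 527) (nat_lit 6639) (nat_lit 655) (nat_lit 6671))) (.p (nat_lit 525) (.a (.f (nat_lit 561) (nat_lit 526) (nat_lit 3597) (.f (nat_lit 557) (nat_lit 524) (nat_lit 3596) (.d (nat_lit 589) (nat_lit 588) (nat_lit 1580) (nat_lit 590) (nat_lit 1581)))) (.a (.f (nat_lit 557) (nat_lit 524) (nat_lit 3596) (.f (nat_lit 589) (nat_lit 588) (nat_lit 1580) (.f (nat_lit 590) (nat_lit 561) (nat_lit 1581) (.d (nat_lit 493) (nat_lit 461) (nat_lit 4557) (nat_lit 622) (nat_lit 4589))))) (.a (.f (nat_lit 557) (nat_lit 524) (nat_lit 3596) (.f (nat_lit 556) (nat_lit 527) (nat_lit 2572) (.d (nat_lit 588) (nat_lit 587) (nat_lit 1579) (nat_lit 589) (nat_lit 1580)))) (.a (.f (nat_lit 526) (nat_lit 561) (nat_lit 3597) (.d (nat_lit 524) (nat_lit 523) (nat_lit 523) (nat_lit 527) (nat_lit 524))) (.f (nat_lit 561) (nat_lit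 526) (nat_lit 3597) (.f (nat_lit 594) (nat_lit 593) (nat_lit 558) (.f (nat_lit 562) (nat_lit 595) (nat_lit 559) (.f (nat_lit 531) (nat_lit 530) (nat_lit 2575) (.d (nat_lit 563) (nat_lit 527) (nat_lit 3599) (nat_lit 532) (nat_lit 2576))))))))))))))))) (.a (.p (nat_lit 592) (.a (.f (nat_lit 593) (nat_lit 625) (nat_lit 4592) (.f (nat_lit 559) (nat_lit 557) (nat_lit 557) (.d (nat_lit 591) (nat_lit 594) (nat_lit 3630) (nat_lit 623) (nat_lit 5615)))) (.a (.f (nat_lit 495) (nat_lit 463) (nat_lit 7631) (.f (nat_lit 624) (nat_lit 527) (nat_lit 7663) (.d (nat_lit 623) (nat_lit 591) (nat_lit 5615) (nat_lit 655) (nat_lit 5647)))) (.f (nat_lit 495) (nat_lit 463) (nat_lit 7631) (.f (nat_lit 624) (nat_lit 527) (nat_lit 7663) (.d (nat_lit 625) (nat_lit 593) (nat_lit 4592) (nat_lit 657) (nat_lit 4624))))))) (.a s25873 (.a s25886 s25895)))))))) (.a (.p (nat_lit 560) (.a s25905 (.a s25817 (.a s25911 (.a (.p (nat_lit 464) (.a (.f (nat_lit 463) (nat_lit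 431) (nat_lit 7599) (.f (nat_lit 592) (nat_lit 495) (nat_lit 7631) (.d (nat_lit 593) (nat_lit 561) (nat_lit 4560) (nat_lit 625) (nat_lit 4592)))) (.a (.f (nat_lit 561) (nat_lit 593) (nat_lit 4560) (.f (nat_lit 432) (nat_lit 529) (nat_lit 4528) (.d (nat_lit 431) (nat_lit 399) (nat_lit 7567) (nat_lit 463) (nat_lit 7599)))) (.a (.f (nat_lit 463) (nat_lit 431) (nat_lit 7599) (.f (nat_lit 592) (nat_lit 495) (nat_lit 7631) (.f (nat_lit 623) (nat_lit 591) (nat_lit 5615) (.f (nat_lit 624) (nat_lit 655) (nat_lit 5647) (.d (nat_lit 625) (nat_lit 593) (nat_lit 4592) (nat_lit 657) (nat_lit 4624)))))) (.a (.f (nat_lit 561) (nat_lit 593) (nat_lit 4560) (.f (nat_lit 432) (nat_lit 529) (nat_lit 4528) (.f (nat_lit 399) (nat_lit 431) (nat_lit 7567) (.f (nat_lit 400) (nat_lit 367) (nat_lit 7535) (.d (nat_lit 401) (nat_lit 369) (nat_lit 6512) (nat_lit 433) (nat_lit 6544)))))) (.a (.f (nat_lit 463) (nat_lit 431) (nat_lit 7599) (.f (nat_lit 592) (nat_lit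 495) (nat_lit 7631) (.f (nat_lit 623) (nat_lit 591) (nat_lit 5615) (.f (nat_lit 624) (nat_lit 655) (nat_lit 5647) (.f (nat_lit 529) (nat_lit 497) (nat_lit 6640) (.d (nat_lit 561) (nat_lit 432) (nat_lit 4528) (nat_lit 656) (nat_lit 6672))))))) (.f (nat_lit 593) (nat_lit 561) (nat_lit 4560) (.f (nat_lit 592) (nat_lit 625) (nat_lit 4592) (.f (nat_lit 591) (nat_lit 623) (nat_lit 5615) (.f (nat_lit 590) (nat_lit 557) (nat_lit 3629) (.f (nat_lit 621) (nat_lit 622) (nat_lit 1613) (.f (nat_lit 589) (nat_lit 620) (nat_lit 1612) (.f (nat_lit 494) (nat_lit 526) (nat_lit 5613) (.f (nat_lit 495) (nat_lit 463) (nat_lit 7631) (.f (nat_lit 529) (nat_lit 493) (nat_lit 493) (.d (nat_lit 497) (nat_lit 530) (nat_lit 494) (nat_lit 624) (nat_lit 6640))))))))))))))))) (.a (.p (nat_lit 464) (.a (.f (nat_lit 559) (nat_lit 591) (nat_lit 5583) (.f (nat_lit 561) (nat_lit 593) (nat_lit 4560) (.f (nat_lit 525) (nat_lit 526) (nat_lit 3597) (.f (nat_lit 557) (nat_lit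 524) (nat_lit 3596) (.d (nat_lit 589) (nat_lit 588) (nat_lit 1580) (nat_lit 590) (nat_lit 1581)))))) (.a (.f (nat_lit 561) (nat_lit 593) (nat_lit 4560) (.f (nat_lit 432) (nat_lit 529) (nat_lit 4528) (.d (nat_lit 431) (nat_lit 399) (nat_lit 7567) (nat_lit 463) (nat_lit 7599)))) (.f (nat_lit 559) (nat_lit 591) (nat_lit 5583) (.f (nat_lit 557) (nat_lit 529) (nat_lit 2573) (.f (nat_lit 524) (nat_lit 525) (nat_lit 3596) (.f (nat_lit 556) (nat_lit 523) (nat_lit 3595) (.d (nat_lit 588) (nat_lit 587) (nat_lit 1579) (nat_lit 589) (nat_lit 1580))))))))) (.a s25960 (.a s25972 (.a (.p (nat_lit 464) (.a (.f (nat_lit 559) (nat_lit 591) (nat_lit 5583) (.f (nat_lit 529) (nat_lit 557) (nat_lit 2573) (.d (nat_lit 530) (nat_lit 531) (nat_lit 1551) (nat_lit 561) (nat_lit 2574)))) (.a (.f (nat_lit 463) (nat_lit 431) (nat_lit 7599) (.f (nat_lit 592) (nat_lit 495) (nat_lit 7631) (.d (nat_lit 591) (nat_lit 559) (nat_lit 5583) (nat_lit 623) (nat_lit 5615))))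 (.a (.f (nat_lit 463) (nat_lit 431) (nat_lit 7599) (.f (nat_lit 592) (nat_lit 495) (nat_lit 7631) (.f (nat_lit 623) (nat_lit 591) (nat_lit 5615) (.f (nat_lit 624) (nat_lit 655) (nat_lit 5647) (.f (nat_lit 529) (nat_lit 497) (nat_lit 6640) (.d (nat_lit 561) (nat_lit 432) (nat_lit 4528) (nat_lit 656) (nat_lit 6672))))))) (.f (nat_lit 431) (nat_lit 463) (nat_lit 7599) (.f (nat_lit 432) (nat_lit 399) (nat_lit 7567) (.f (nat_lit 529) (nat_lit 561) (nat_lit 4528) (.f (nat_lit 400) (nat_lit 497) (nat_lit 4496) (.d (nat_lit 401) (nat_lit 369) (nat_lit 6512) (nat_lit 433) (nat_lit 6544)))))))))) s25985))))))))) (.a (.p (nat_lit 560) (.a s25990 (.a s25817 (.a (.p (nat_lit 559) (.a (.f (nat_lit 529) (nat_lit 557) (nat_lit 2573) (.d (nat_lit 530) (nat_lit 531) (nat_lit 1551) (nat_lit 561) (nat_lit 2574))) (.a s25837 (.a (.f (nat_lit 557) (nat_lit 529) (nat_lit 2573) (.f (nat_lit 556) (nat_lit 527) (nat_lit 2572) (.d (nat_lit 524) (nat_lit 523)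 (nat_lit 3595) (nat_lit 525) (nat_lit 3596)))) (.p (nat_lit 561) (.a (.f (nat_lit 529) (nat_lit 530) (nat_lit 2574) (.d (nat_lit 593) (nat_lit 594) (nat_lit 558) (nat_lit 625) (nat_lit 7664))) (.f (nat_lit 526) (nat_lit 525) (nat_lit 3597) (.f (nat_lit 562) (nat_lit 527) (nat_lit 3598) (.d (nat_lit 590) (nat_lit 589) (nat_lit 1581) (nat_lit 591) (nat_lit 1582)))))))))) (.a (.p (nat_lit 592) (.a (.f (nat_lit 591) (nat_lit 623) (nat_lit 5615) (.f (nat_lit 593) (nat_lit 625) (nat_lit 4592) (.f (nat_lit 590) (nat_lit 557) (nat_lit 3629) (.d (nat_lit 561) (nat_lit 562) (nat_lit 2606) (nat_lit 589) (nat_lit 2605))))) (.a (.f (nat_lit 623) (nat_lit 591) (nat_lit 5615) (.f (nat_lit 624) (nat_lit 655) (nat_lit 5647) (.d (nat_lit 625) (nat_lit 593) (nat_lit 4592) (nat_lit 657) (nat_lit 4624)))) (.a (.f (nat_lit 625) (nat_lit 593) (nat_lit 4592) (.f (nat_lit 624) (nat_lit 657) (nat_lit 4624) (.f (nat_lit 655) (nat_lit 623) (nat_lit 5647) (.f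 (nat_lit 656) (nat_lit 687) (nat_lit 5679) (.d (nat_lit 529) (nat_lit 497) (nat_lit 6640) (nat_lit 561) (nat_lit 6672)))))) (.a (.f (nat_lit 623) (nat_lit 591) (nat_lit 5615) (.f (nat_lit 624) (nat_lit 655) (nat_lit 5647) (.f (nat_lit 657) (nat_lit 625) (nat_lit 4624) (.f (nat_lit 656) (nat_lit 689) (nat_lit 4656) (.d (nat_lit 529) (nat_lit 497) (nat_lit 6640) (nat_lit 561) (nat_lit 6672)))))) (.a (.p (nat_lit 624) (.a (.d (nat_lit 625) (nat_lit 593) (nat_lit 4592) (nat_lit 657) (nat_lit 4624)) (.a (.f (nat_lit 529) (nat_lit 497) (nat_lit 6640) (.f (nat_lit 656) (nat_lit 561) (nat_lit 6672) (.d (nat_lit 657) (nat_lit 625) (nat_lit 4624) (nat_lit 689) (nat_lit 4656)))) (.f (nat_lit 529) (nat_lit 497) (nat_lit 6640) (.f (nat_lit 561) (nat_lit 656) (nat_lit 6672) (.d (nat_lit 464) (nat_lit 432) (nat_lit 4528) (nat_lit 593) (nat_lit 4560))))))) (.f (nat_lit 623) (nat_lit 591) (nat_lit 5615) (.f (nat_lit 624) (nat_lit 655) (nat_lit 5647)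 (.f (nat_lit 529) (nat_lit 497) (nat_lit 6640) (.f (nat_lit 561) (nat_lit 656) (nat_lit 6672) (.d (nat_lit 464) (nat_lit 432) (nat_lit 4528) (nat_lit 593) (nat_lit 4560)))))))))))) (.a s25960 (.a (.p (nat_lit 526) (.a (.p (nat_lit 525) (.a (.f (nat_lit 559) (nat_lit 561) (nat_lit 3597) (.d (nat_lit 524) (nat_lit 523) (nat_lit 523) (nat_lit 557) (nat_lit 3596))) (.a (.d (nat_lit 527) (nat_lit 497) (nat_lit 2541) (nat_lit 561) (nat_lit 525)) (.f (nat_lit 527) (nat_lit 497) (nat_lit 2541) (.f (nat_lit 559) (nat_lit 524) (nat_lit 524) (.f (nat_lit 557) (nat_lit 556) (nat_lit 1548) (.f (nat_lit 589) (nat_lit 588) (nat_lit 1580) (.d (nat_lit 494) (nat_lit 462) (nat_lit 5581) (nat_lit 621) (nat_lit 6637))))))))) (.a s22672 (.a (.p (nat_lit 527) (.a (.d (nat_lit 525) (nat_lit 497) (nat_lit 2541) (nat_lit 561) (nat_lit 525)) (.a (.f (nat_lit 529) (nat_lit 557) (nat_lit 1549) (.f (nat_lit 561) (nat_lit 562) (nat_lit 526) (.d (nat_lit 464)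 (nat_lit 432) (nat_lit 4528) (nat_lit 593) (nat_lit 4560)))) (.f (nat_lit 557) (nat_lit 529) (nat_lit 1549) (.d (nat_lit 525) (nat_lit 497) (nat_lit 2541) (nat_lit 556) (nat_lit 1548)))))) (.a (.p (nat_lit 464) (.a (.f (nat_lit 593) (nat_lit 561) (nat_lit 4560) (.f (nat_lit 592) (nat_lit 625) (nat_lit 4592) (.f (nat_lit 559) (nat_lit 557) (nat_lit 557) (.f (nat_lit 431) (nat_lit 463) (nat_lit 7599) (.d (nat_lit 432) (nat_lit 399) (nat_lit 7567) (nat_lit 527) (nat_lit 5551)))))) (.a (.f (nat_lit 431) (nat_lit 463) (nat_lit 7599) (.f (nat_lit 432) (nat_lit 399) (nat_lit 7567) (.f (nat_lit 529) (nat_lit 561) (nat_lit 4528) (.f (nat_lit 400) (nat_lit 497) (nat_lit 4496) (.d (nat_lit 401) (nat_lit 369) (nat_lit 6512) (nat_lit 433) (nat_lit 6544)))))) (.a (.f (nat_lit 593) (nat_lit 561) (nat_lit 4560) (.f (nat_lit 592) (nat_lit 625) (nat_lit 4592) (.f (nat_lit 557) (nat_lit 559) (nat_lit 557) (.f (nat_lit 529) (nat_lit 527) (nat_lit 1549)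 (.f (nat_lit 624) (nat_lit 497) (nat_lit 6640) (.f (nat_lit 623) (nat_lit 655) (nat_lit 5647) (.f (nat_lit 621) (nat_lit 622) (nat_lit 2637) (.f (nat_lit 589) (nat_lit 653) (nat_lit 6669) (.d (nat_lit 494) (nat_lit 462) (nat_lit 5581) (nat_lit 590) (nat_lit 5613)))))))))) (.f (nat_lit 431) (nat_lit 463) (nat_lit 7599) (.f (nat_lit 432) (nat_lit 399) (nat_lit 7567) (.f (nat_lit 559) (nat_lit 527) (nat_lit 5551) (.f (nat_lit 557) (nat_lit 529) (nat_lit 2573) (.f (nat_lit 589) (nat_lit 588) (nat_lit 1580) (.f (nat_lit 621) (nat_lit 653) (nat_lit 6669) (.d (nat_lit 494) (nat_lit 462) (nat_lit 5581) (nat_lit 590) (nat_lit 5613)))))))))))) (.a (.p (nat_lit 527) (.a (.f (nat_lit 557) (nat_lit 529) (nat_lit 1549) (.d (nat_lit 525) (nat_lit 497) (nat_lit 2541) (nat_lit 556) (nat_lit 1548))) (.a (.f (nat_lit 525) (nat_lit 497) (nat_lit 2541) (.f (nat_lit 557) (nat_lit 556) (nat_lit 1548) (.f (nat_lit 493) (nat_lit 492) (nat_lit 3564) (.d (nat_lit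 461) (nat_lit 429) (nat_lit 4525) (nat_lit 590) (nat_lit 4557))))) (.a (.f (nat_lit 557) (nat_lit 529) (nat_lit 1549) (.d (nat_lit 556) (nat_lit 555) (nat_lit 2571) (nat_lit 559) (nat_lit 2572))) (.f (nat_lit 525) (nat_lit 497) (nat_lit 2541) (.f (nat_lit 524) (nat_lit 559) (nat_lit 524) (.d (nat_lit 492) (nat_lit 491) (nat_lit 3563) (nat_lit 493) (nat_lit 3564)))))))) (.p (nat_lit 464) (.a (.f (nat_lit 561) (nat_lit 593) (nat_lit 4560) (.d (nat_lit 525) (nat_lit 527) (nat_lit 525) (nat_lit 559) (nat_lit 3597))) (.a (.f (nat_lit 431) (nat_lit 463) (nat_lit 7599) (.f (nat_lit 432) (nat_lit 399) (nat_lit 7567) (.f (nat_lit 529) (nat_lit 561) (nat_lit 4528) (.f (nat_lit 400) (nat_lit 497) (nat_lit 4496) (.d (nat_lit 401) (nat_lit 369) (nat_lit 6512) (nat_lit 433) (nat_lit 6544)))))) (.f (nat_lit 431) (nat_lit 463) (nat_lit 7599) (.f (nat_lit 432) (nat_lit 399) (nat_lit 7567) (.f (nat_lit 401) (nat_lit 433) (nat_lit 6544) (.f (nat_lit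 400) (nat_lit 369) (nat_lit 6512) (.f (nat_lit 527) (nat_lit 559) (nat_lit 5551) (.d (nat_lit 497) (nat_lit 525) (nat_lit 2541) (nat_lit 529) (nat_lit 4496)))))))))))))))) (.a s26065 s26073)))))))) (.a (.p (nat_lit 526) (.a (.p (nat_lit 527) (.a (.f (nat_lit 525) (nat_lit 497) (nat_lit 2541) (.d (nat_lit 557) (nat_lit 529) (nat_lit 1549) (nat_lit 556) (nat_lit 1548))) (.a (.f (nat_lit 525) (nat_lit 497) (nat_lit 2541) (.f (nat_lit 524) (nat_lit 495) (nat_lit 2540) (.d (nat_lit 492) (nat_lit 491) (nat_lit 3563) (nat_lit 493) (nat_lit 3564)))) (.f (nat_lit 529) (nat_lit 557) (nat_lit 1549) (.f (nat_lit 494) (nat_lit 493) (nat_lit 3565) (.f (nat_lit 495) (nat_lit 530) (nat_lit 3566) (.d (nat_lit 463) (nat_lit 431) (nat_lit 5550) (nat_lit 590) (nat_lit 6606)))))))) (.a s21693 (.a (.p (nat_lit 494) (.a s19062 (.a s21821 (.a s19098 (.a s21891 (.a (.p (nat_lit 462) (.a (.f (nat_lit 461) (nat_lit 429) (nat_lit 7597) (.f (nat_lit 493) (nat_lit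 590) (nat_lit 7629) (.d (nat_lit 495) (nat_lit 460) (nat_lit 3532) (nat_lit 497) (nat_lit 3533)))) (.a (.f (nat_lit 429) (nat_lit 461) (nat_lit 7597) (.f (nat_lit 430) (nat_lit 397) (nat_lit 7565) (.d (nat_lit 557) (nat_lit 525) (nat_lit 5549) (nat_lit 589) (nat_lit 5581)))) (.f (nat_lit 557) (nat_lit 589) (nat_lit 5581) (.f (nat_lit 525) (nat_lit 430) (nat_lit 5549) (.f (nat_lit 495) (nat_lit 497) (nat_lit 1517) (.d (nat_lit 493) (nat_lit 524) (nat_lit 1516) (nat_lit 529) (nat_lit 493)))))))) (.a (.p (nat_lit 590) (.a (.f (nat_lit 495) (nat_lit 463) (nat_lit 6606) (.f (nat_lit 525) (nat_lit 497) (nat_lit 1517) (.d (nat_lit 493) (nat_lit 461) (nat_lit 7629) (nat_lit 524) (nat_lit 1516)))) (.a (.f (nat_lit 493) (nat_lit 461) (nat_lit 7629) (.f (nat_lit 622) (nat_lit 525) (nat_lit 7661) (.d (nat_lit 621) (nat_lit 589) (nat_lit 5613) (nat_lit 653) (nat_lit 5645)))) (.f (nat_lit 623) (nat_lit 591) (nat_lit 4590) (.f (nat_lit 622) (nat_lit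 655) (nat_lit 4622) (.d (nat_lit 621) (nat_lit 589) (nat_lit 5613) (nat_lit 653) (nat_lit 5645))))))) (.p (nat_lit 590) (.a (.f (nat_lit 623) (nat_lit 591) (nat_lit 4590) (.f (nat_lit 622) (nat_lit 655) (nat_lit 4622) (.d (nat_lit 621) (nat_lit 589) (nat_lit 5613) (nat_lit 653) (nat_lit 5645)))) (.f (nat_lit 495) (nat_lit 463) (nat_lit 6606) (.f (nat_lit 529) (nat_lit 493) (nat_lit 493) (.d (nat_lit 530) (nat_lit 497) (nat_lit 494) (nat_lit 531) (nat_lit 3567))))))))))))) (.a s22104 (.a s22399 (.a s22408 (.a s22415 (.a s22416 s22428))))))))) (.a (.p (nat_lit 560) (.a (.p (nat_lit 592) (.a (.f (nat_lit 593) (nat_lit 625) (nat_lit 4592) (.f (nat_lit 559) (nat_lit 557) (nat_lit 557) (.d (nat_lit 591) (nat_lit 594) (nat_lit 3630) (nat_lit 623) (nat_lit 5615)))) (.a (.f (nat_lit 495) (nat_lit 463) (nat_lit 7631) (.f (nat_lit 624) (nat_lit 527) (nat_lit 7663) (.d (nat_lit 623) (nat_lit 591) (nat_lit 5615) (nat_lit 655) (nat_lit 5647))))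 (.f (nat_lit 593) (nat_lit 625) (nat_lit 4592) (.f (nat_lit 559) (nat_lit 557) (nat_lit 557) (.d (nat_lit 594) (nat_lit 561) (nat_lit 558) (nat_lit 595) (nat_lit 3631))))))) (.a (.p (nat_lit 464) (.a (.f (nat_lit 463) (nat_lit 431) (nat_lit 7599) (.f (nat_lit 592) (nat_lit 495) (nat_lit 7631) (.d (nat_lit 593) (nat_lit 561) (nat_lit 4560) (nat_lit 625) (nat_lit 4592)))) (.a (.f (nat_lit 559) (nat_lit 591) (nat_lit 5583) (.f (nat_lit 529) (nat_lit 557) (nat_lit 2573) (.d (nat_lit 530) (nat_lit 531) (nat_lit 1551) (nat_lit 561) (nat_lit 2574)))) (.f (nat_lit 559) (nat_lit 591) (nat_lit 5583) (.f (nat_lit 557) (nat_lit 529) (nat_lit 2573) (.f (nat_lit 592) (nat_lit 593) (nat_lit 557) (.d (nat_lit 463) (nat_lit 431) (nat_lit 7599) (nat_lit 495) (nat_lit 7631)))))))) (.a s26081 (.a (.p (nat_lit 592) (.a (.f (nat_lit 495) (nat_lit 463) (nat_lit 7631) (.f (nat_lit 624) (nat_lit 527) (nat_lit 7663) (.d (nat_lit 623) (nat_lit 591) (nat_lit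 5615) (nat_lit 655) (nat_lit 5647)))) (.a (.f (nat_lit 591) (nat_lit 623) (nat_lit 5615) (.f (nat_lit 593) (nat_lit 625) (nat_lit 4592) (.f (nat_lit 590) (nat_lit 557) (nat_lit 3629) (.d (nat_lit 561) (nat_lit 562) (nat_lit 2606) (nat_lit 589) (nat_lit 2605))))) (.f (nat_lit 495) (nat_lit 463) (nat_lit 7631) (.f (nat_lit 624) (nat_lit 527) (nat_lit 7663) (.d (nat_lit 625) (nat_lit 593) (nat_lit 4592) (nat_lit 657) (nat_lit 4624))))))) (.a s26065 (.a (.p (nat_lit 592) (.a (.f (nat_lit 593) (nat_lit 625) (nat_lit 4592) (.f (nat_lit 559) (nat_lit 557) (nat_lit 557) (.d (nat_lit 591) (nat_lit 594) (nat_lit 3630) (nat_lit 623) (nat_lit 5615)))) (.a (.f (nat_lit 495) (nat_lit 463) (nat_lit 7631) (.f (nat_lit 624) (nat_lit 527) (nat_lit 7663) (.d (nat_lit 623) (nat_lit 591) (nat_lit 5615) (nat_lit 655) (nat_lit 5647)))) (.f (nat_lit 495) (nat_lit 463) (nat_lit 7631) (.f (nat_lit 624) (nat_lit 527) (nat_lit 7663) (.d (nat_lit 625) (nat_lit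 593) (nat_lit 4592) (nat_lit 657) (nat_lit 4624))))))) (.a s25972 (.a s25817 s25985))))))))) (.a (.p (nat_lit 560) (.a (.p (nat_lit 592) (.a (.f (nat_lit 593) (nat_lit 625) (nat_lit 4592) (.f (nat_lit 559) (nat_lit 557) (nat_lit 557) (.d (nat_lit 591) (nat_lit 594) (nat_lit 3630) (nat_lit 623) (nat_lit 5615)))) (.a (.f (nat_lit 495) (nat_lit 463) (nat_lit 7631) (.f (nat_lit 624) (nat_lit 527) (nat_lit 7663) (.d (nat_lit 623) (nat_lit 591) (nat_lit 5615) (nat_lit 655) (nat_lit 5647)))) (.f (nat_lit 593) (nat_lit 625) (nat_lit 4592) (.f (nat_lit 559) (nat_lit 557) (nat_lit 557) (.d (nat_lit 594) (nat_lit 561) (nat_lit 558) (nat_lit 595) (nat_lit 3631))))))) (.a (.p (nat_lit 464) (.a (.f (nat_lit 463) (nat_lit 431) (nat_lit 7599) (.f (nat_lit 592) (nat_lit 495) (nat_lit 7631) (.d (nat_lit 593) (nat_lit 561) (nat_lit 4560) (nat_lit 625) (nat_lit 4592)))) (.a (.f (nat_lit 559) (nat_lit 591) (nat_lit 5583) (.f (nat_lit 529) (nat_lit 557)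 (nat_lit 2573) (.d (nat_lit 530) (nat_lit 531) (nat_lit 1551) (nat_lit 561) (nat_lit 2574)))) (.f (nat_lit 559) (nat_lit 591) (nat_lit 5583) (.f (nat_lit 557) (nat_lit 529) (nat_lit 2573) (.f (nat_lit 592) (nat_lit 593) (nat_lit 557) (.d (nat_lit 463) (nat_lit 431) (nat_lit 7599) (nat_lit 495) (nat_lit 7631)))))))) (.a s26081 (.a (.p (nat_lit 592) (.a (.f (nat_lit 495) (nat_lit 463) (nat_lit 7631) (.f (nat_lit 624) (nat_lit 527) (nat_lit 7663) (.d (nat_lit 623) (nat_lit 591) (nat_lit 5615) (nat_lit 655) (nat_lit 5647)))) (.a (.f (nat_lit 591) (nat_lit 623) (nat_lit 5615) (.f (nat_lit 593) (nat_lit 625) (nat_lit 4592) (.f (nat_lit 590) (nat_lit 557) (nat_lit 3629) (.d (nat_lit 561) (nat_lit 562) (nat_lit 2606) (nat_lit 589) (nat_lit 2605))))) (.f (nat_lit 495) (nat_lit 463) (nat_lit 7631) (.f (nat_lit 624) (nat_lit 527) (nat_lit 7663) (.d (nat_lit 625) (nat_lit 593) (nat_lit 4592) (nat_lit 657) (nat_lit 4624))))))) (.a s26065 (.a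 (.p (nat_lit 592) (.a (.f (nat_lit 593) (nat_lit 625) (nat_lit 4592) (.f (nat_lit 559) (nat_lit 557) (nat_lit 557) (.d (nat_lit 591) (nat_lit 594) (nat_lit 3630) (nat_lit 623) (nat_lit 5615)))) (.a (.f (nat_lit 495) (nat_lit 463) (nat_lit 7631) (.f (nat_lit 624) (nat_lit 527) (nat_lit 7663) (.d (nat_lit 623) (nat_lit 591) (nat_lit 5615) (nat_lit 655) (nat_lit 5647)))) (.f (nat_lit 495) (nat_lit 463) (nat_lit 7631) (.f (nat_lit 624) (nat_lit 527) (nat_lit 7663) (.d (nat_lit 625) (nat_lit 593) (nat_lit 4592) (nat_lit 657) (nat_lit 4624))))))) (.a s25972 (.a s25911 s25985))))))))) (.a (.p (nat_lit 559) (.a (.p (nat_lit 527) (.a (.f (nat_lit 591) (nat_lit 623) (nat_lit 6639) (.d (nat_lit 464) (nat_lit 432) (nat_lit 5551) (nat_lit 495) (nat_lit 6607))) (.f (nat_lit 529) (nat_lit 530) (nat_lit 1550) (.d (nat_lit 557) (nat_lit 526) (nat_lit 1549) (nat_lit 556) (nat_lit 2572))))) (.a (.p (nat_lit 464) (.a (.f (nat_lit 527) (nat_lit 432)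 (nat_lit 5551) (.d (nat_lit 591) (nat_lit 495) (nat_lit 6607) (nat_lit 623) (nat_lit 6639))) (.a (.f (nat_lit 560) (nat_lit 591) (nat_lit 5583) (.f (nat_lit 463) (nat_lit 431) (nat_lit 7599) (.f (nat_lit 592) (nat_lit 495) (nat_lit 7631) (.d (nat_lit 593) (nat_lit 557) (nat_lit 557) (nat_lit 625) (nat_lit 4592))))) (.a (.f (nat_lit 560) (nat_lit 591) (nat_lit 5583) (.f (nat_lit 432) (nat_lit 527) (nat_lit 5551) (.d (nat_lit 431) (nat_lit 399) (nat_lit 7567) (nat_lit 463) (nat_lit 7599)))) (.f (nat_lit 432) (nat_lit 527) (nat_lit 5551) (.f (nat_lit 399) (nat_lit 431) (nat_lit 7567) (.f (nat_lit 400) (nat_lit 367) (nat_lit 7535) (.d (nat_lit 401) (nat_lit 369) (nat_lit 6512) (nat_lit 433) (nat_lit 6544))))))))) (.a (.p (nat_lit 560) (.a (.f (nat_lit 557) (nat_lit 529) (nat_lit 2573) (.f (nat_lit 592) (nat_lit 593) (nat_lit 557) (.d (nat_lit 591) (nat_lit 464) (nat_lit 5583) (nat_lit 556) (nat_lit 556)))) (.a (.f (nat_lit 591) (nat_lit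 464) (nat_lit 5583) (.d (nat_lit 623) (nat_lit 592) (nat_lit 5615) (nat_lit 655) (nat_lit 6671))) (.a (.f (nat_lit 557) (nat_lit 529) (nat_lit 2573) (.f (nat_lit 592) (nat_lit 593) (nat_lit 557) (.d (nat_lit 591) (nat_lit 556) (nat_lit 556) (nat_lit 623) (nat_lit 5615)))) (.f (nat_lit 557) (nat_lit 529) (nat_lit 2573) (.f (nat_lit 524) (nat_lit 525) (nat_lit 3596) (.f (nat_lit 556) (nat_lit 523) (nat_lit 3595) (.d (nat_lit 588) (nat_lit 587) (nat_lit 1579) (nat_lit 589) (nat_lit 1580))))))))) (.a (.p (nat_lit 557) (.a (.f (nat_lit 560) (nat_lit 529) (nat_lit 2573) (.f (nat_lit 592) (nat_lit 593) (nat_lit 557) (.d (nat_lit 556) (nat_lit 527) (nat_lit 2572) (nat_lit 591) (nat_lit 556)))) (.a (.f (nat_lit 556) (nat_lit 527) (nat_lit 2572) (.f (nat_lit 591) (nat_lit 592) (nat_lit 556) (.f (nat_lit 555) (nat_lit 590) (nat_lit 555) (.d (nat_lit 523) (nat_lit 522) (nat_lit 3594) (nat_lit 524) (nat_lit 3595))))) (.a (.f (nat_lit 560) (nat_lit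 529) (nat_lit 2573) (.f (nat_lit 592) (nat_lit 593) (nat_lit 557) (.d (nat_lit 591) (nat_lit 556) (nat_lit 556) (nat_lit 623) (nat_lit 5615)))) (.a (.f (nat_lit 527) (nat_lit 556) (nat_lit 2572) (.d (nat_lit 529) (nat_lit 526) (nat_lit 1549) (nat_lit 530) (nat_lit 1550))) (.f (nat_lit 560) (nat_lit 529) (nat_lit 2573) (.f (nat_lit 592) (nat_lit 593) (nat_lit 557) (.f (nat_lit 591) (nat_lit 623) (nat_lit 5615) (.f (nat_lit 495) (nat_lit 463) (nat_lit 7631) (.f (nat_lit 527) (nat_lit 624) (nat_lit 7663) (.f (nat_lit 525) (nat_lit 524) (nat_lit 3596) (.f (nat_lit 590) (nat_lit 622) (nat_lit 5614) (.f (nat_lit 494) (nat_lit 462) (nat_lit 7630) (.d (nat_lit 493) (nat_lit 461) (nat_lit 4557) (nat_lit 492) (nat_lit 492))))))))))))))) (.a (.p (nat_lit 557) (.a (.f (nat_lit 560) (nat_lit 529) (nat_lit 2573) (.f (nat_lit 592) (nat_lit 593) (nat_lit 557) (.f (nat_lit 527) (nat_lit 556) (nat_lit 2572) (.d (nat_lit 495) (nat_lit 463) (nat_lit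 4559) (nat_lit 624) (nat_lit 7663))))) (.a (.f (nat_lit 556) (nat_lit 527) (nat_lit 2572) (.f (nat_lit 524) (nat_lit 523) (nat_lit 3595) (.f (nat_lit 588) (nat_lit 587) (nat_lit 1579) (.d (nat_lit 560) (nat_lit 525) (nat_lit 3596) (nat_lit 589) (nat_lit 1580))))) (.a (.f (nat_lit 560) (nat_lit 529) (nat_lit 2573) (.f (nat_lit 524) (nat_lit 525) (nat_lit 3596) (.f (nat_lit 556) (nat_lit 523) (nat_lit 3595) (.d (nat_lit 588) (nat_lit 587) (nat_lit 1579) (nat_lit 589) (nat_lit 1580))))) (.a (.f (nat_lit 527) (nat_lit 556) (nat_lit 2572) (.d (nat_lit 529) (nat_lit 526) (nat_lit 1549) (nat_lit 530) (nat_lit 1550))) (.f (nat_lit 560) (nat_lit 529) (nat_lit 2573) (.f (nat_lit 592) (nat_lit 593) (nat_lit 557) (.f (nat_lit 463) (nat_lit 495) (nat_lit 7631) (.f (nat_lit 464) (nat_lit 431) (nat_lit 7599) (.f (nat_lit 432) (nat_lit 527) (nat_lit 5551) (.f (nat_lit 433) (nat_lit 401) (nat_lit 6544) (.f (nat_lit 461) (nat_lit 462) (nat_lit 2477)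 (.f (nat_lit 525) (nat_lit 524) (nat_lit 3596) (.f (nat_lit 493) (nat_lit 590) (nat_lit 4557) (.f (nat_lit 589) (nat_lit 588) (nat_lit 1580) (.d (nat_lit 460) (nat_lit 428) (nat_lit 7596) (nat_lit 492) (nat_lit 7628))))))))))))))))) (.p (nat_lit 591) (.a (.f (nat_lit 527) (nat_lit 623) (nat_lit 6639) (.d (nat_lit 464) (nat_lit 432) (nat_lit 5551) (nat_lit 495) (nat_lit 6607))) (.a (.f (nat_lit 560) (nat_lit 464) (nat_lit 5583) (.d (nat_lit 623) (nat_lit 592) (nat_lit 5615) (nat_lit 655) (nat_lit 6671))) (.a (.f (nat_lit 623) (nat_lit 527) (nat_lit 6639) (.d (nat_lit 560) (nat_lit 592) (nat_lit 5615) (nat_lit 655) (nat_lit 6671))) (.f (nat_lit 464) (nat_lit 560) (nat_lit 5583) (.d (nat_lit 527) (nat_lit 432) (nat_lit 5551) (nat_lit 495) (nat_lit 6607))))))))))))) (.a (.p (nat_lit 526) (.a (.p (nat_lit 527) (.a (.f (nat_lit 525) (nat_lit 497) (nat_lit 2541) (.d (nat_lit 557) (nat_lit 529) (nat_lit 1549) (nat_lit 556) (nat_lit 1548)))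 (.a (.f (nat_lit 525) (nat_lit 497) (nat_lit 2541) (.f (nat_lit 524) (nat_lit 495) (nat_lit 2540) (.d (nat_lit 492) (nat_lit 491) (nat_lit 3563) (nat_lit 493) (nat_lit 3564)))) (.f (nat_lit 529) (nat_lit 557) (nat_lit 1549) (.f (nat_lit 494) (nat_lit 493) (nat_lit 3565) (.d (nat_lit 530) (nat_lit 495) (nat_lit 3566) (nat_lit 559) (nat_lit 1550))))))) (.a s21693 (.a (.p (nat_lit 494) (.a s19062 (.a s21821 (.a s19098 (.a s21891 (.a (.p (nat_lit 462) (.a (.f (nat_lit 461) (nat_lit 429) (nat_lit 7597) (.f (nat_lit 493) (nat_lit 590) (nat_lit 7629) (.d (nat_lit 495) (nat_lit 460) (nat_lit 3532) (nat_lit 497) (nat_lit 3533)))) (.a (.f (nat_lit 429) (nat_lit 461) (nat_lit 7597) (.f (nat_lit 430) (nat_lit 397) (nat_lit 7565) (.d (nat_lit 557) (nat_lit 525) (nat_lit 5549) (nat_lit 589) (nat_lit 5581)))) (.f (nat_lit 557) (nat_lit 589) (nat_lit 5581) (.f (nat_lit 525) (nat_lit 430) (nat_lit 5549) (.f (nat_lit 495) (nat_lit 497) (nat_lit 1517)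 (.d (nat_lit 493) (nat_lit 524) (nat_lit 1516) (nat_lit 529) (nat_lit 493)))))))) (.a (.p (nat_lit 495) (.a (.f (nat_lit 590) (nat_lit 463) (nat_lit 6606) (.f (nat_lit 493) (nat_lit 461) (nat_lit 7629) (.d (nat_lit 525) (nat_lit 524) (nat_lit 1516) (nat_lit 622) (nat_lit 7661)))) (.a (.f (nat_lit 463) (nat_lit 590) (nat_lit 6606) (.f (nat_lit 431) (nat_lit 399) (nat_lit 4495) (.d (nat_lit 560) (nat_lit 464) (nat_lit 7599) (nat_lit 592) (nat_lit 7631)))) (.f (nat_lit 493) (nat_lit 529) (nat_lit 493) (.f (nat_lit 525) (nat_lit 524) (nat_lit 1516) (.d (nat_lit 461) (nat_lit 429) (nat_lit 4525) (nat_lit 460) (nat_lit 3532))))))) s21982))))))) (.a s22244 (.a s22564 (.a s22655 (.a s19164 (.p (nat_lit 494) (.a s19062 (.a s22700 (.a s19098 (.a (.p (nat_lit 462) (.a (.f (nat_lit 463) (nat_lit 431) (nat_lit 6574) (.f (nat_lit 495) (nat_lit 590) (nat_lit 6606) (.d (nat_lit 461) (nat_lit 429) (nat_lit 7597) (nat_lit 460) (nat_lit 460)))) (.a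 (.f (nat_lit 429) (nat_lit 461) (nat_lit 7597) (.f (nat_lit 430) (nat_lit 397) (nat_lit 7565) (.d (nat_lit 431) (nat_lit 399) (nat_lit 6542) (nat_lit 463) (nat_lit 6574)))) (.a (.f (nat_lit 429) (nat_lit 461) (nat_lit 7597) (.f (nat_lit 430) (nat_lit 397) (nat_lit 7565) (.f (nat_lit 527) (nat_lit 559) (nat_lit 4526) (.f (nat_lit 495) (nat_lit 398) (nat_lit 4494) (.f (nat_lit 529) (nat_lit 530) (nat_lit 3566) (.f (nat_lit 561) (nat_lit 562) (nat_lit 526) (.d (nat_lit 525) (nat_lit 524) (nat_lit 2540) (nat_lit 560) (nat_lit 525)))))))) (.a (.f (nat_lit 431) (nat_lit 463) (nat_lit 6574) (.f (nat_lit 430) (nat_lit 399) (nat_lit 6542) (.f (nat_lit 527) (nat_lit 559) (nat_lit 4526) (.f (nat_lit 398) (nat_lit 495) (nat_lit 4494) (.d (nat_lit 397) (nat_lit 365) (nat_lit 7533) (nat_lit 429) (nat_lit 7565)))))) (.f (nat_lit 431) (nat_lit 463) (nat_lit 6574) (.f (nat_lit 430) (nat_lit 399) (nat_lit 6542) (.f (nat_lit 527) (nat_lit 559) (nat_lit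 4526) (.f (nat_lit 495) (nat_lit 398) (nat_lit 4494) (.f (nat_lit 529) (nat_lit 530) (nat_lit 3566) (.f (nat_lit 561) (nat_lit 562) (nat_lit 526) (.d (nat_lit 525) (nat_lit 524) (nat_lit 2540) (nat_lit 560) (nat_lit 525))))))))))))) (.p (nat_lit 527) (.a (.f (nat_lit 493) (nat_lit 529) (nat_lit 3565) (.d (nat_lit 492) (nat_lit 491) (nat_lit 491) (nat_lit 525) (nat_lit 3564))) (.a (.f (nat_lit 525) (nat_lit 497) (nat_lit 2541) (.f (nat_lit 524) (nat_lit 495) (nat_lit 2540) (.f (nat_lit 491) (nat_lit 492) (nat_lit 3563) (.f (nat_lit 523) (nat_lit 490) (nat_lit 3562) (.d (nat_lit 555) (nat_lit 554) (nat_lit 1546) (nat_lit 556) (nat_lit 1547)))))) (.f (nat_lit 529) (nat_lit 493) (nat_lit 3565) (.f (nat_lit 530) (nat_lit 495) (nat_lit 3566) (.d (nat_lit 562) (nat_lit 561) (nat_lit 526) (nat_lit 563) (nat_lit 527)))))))))))))))))))) (.a (.p (nat_lit 559) (.a (.p (nat_lit 560) (.a (.f (nat_lit 529) (nat_lit 557) (nat_lit 2573) (.d (nat_lit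 530) (nat_lit 531) (nat_lit 1551) (nat_lit 561) (nat_lit 2574))) (.a (.f (nat_lit 464) (nat_lit 591) (nat_lit 5583) (.f (nat_lit 593) (nat_lit 561) (nat_lit 4560) (.d (nat_lit 592) (nat_lit 557) (nat_lit 557) (nat_lit 625) (nat_lit 4592)))) (.a (.f (nat_lit 557) (nat_lit 529) (nat_lit 2573) (.f (nat_lit 592) (nat_lit 593) (nat_lit 557) (.d (nat_lit 591) (nat_lit 464) (nat_lit 5583) (nat_lit 556) (nat_lit 556)))) (.f (nat_lit 464) (nat_lit 591) (nat_lit 5583) (.f (nat_lit 561) (nat_lit 593) (nat_lit 4560) (.d (nat_lit 529) (nat_lit 432) (nat_lit 4528) (nat_lit 530) (nat_lit 2574)))))))) (.a (.p (nat_lit 591) (.a (.f (nat_lit 527) (nat_lit 623) (nat_lit 6639) (.d (nat_lit 464) (nat_lit 432) (nat_lit 5551) (nat_lit 495) (nat_lit 6607))) (.a (.f (nat_lit 560) (nat_lit 464) (nat_lit 5583) (.d (nat_lit 623) (nat_lit 592) (nat_lit 5615) (nat_lit 655) (nat_lit 6671))) (.a (.f (nat_lit 623) (nat_lit 527) (nat_lit 6639) (.d (nat_lit 560) (nat_lit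 592) (nat_lit 5615) (nat_lit 655) (nat_lit 6671))) (.f (nat_lit 464) (nat_lit 560) (nat_lit 5583) (.d (nat_lit 527) (nat_lit 432) (nat_lit 5551) (nat_lit 495) (nat_lit 6607))))))) (.a (.p (nat_lit 527) (.a (.f (nat_lit 591) (nat_lit 623) (nat_lit 6639) (.d (nat_lit 464) (nat_lit 432) (nat_lit 5551) (nat_lit 495) (nat_lit 6607))) (.f (nat_lit 529) (nat_lit 530) (nat_lit 1550) (.d (nat_lit 557) (nat_lit 526) (nat_lit 1549) (nat_lit 556) (nat_lit 2572))))) (.p (nat_lit 529) (.a (.f (nat_lit 560) (nat_lit 557) (nat_lit 2573) (.d (nat_lit 530) (nat_lit 531) (nat_lit 1551) (nat_lit 561) (nat_lit 2574))) (.a (.f (nat_lit 527) (nat_lit 530) (nat_lit 1550) (.d (nat_lit 557) (nat_lit 526) (nat_lit 1549) (nat_lit 556) (nat_lit 2572))) (.a (.f (nat_lit 557) (nat_lit 560) (nat_lit 2573) (.d (nat_lit 527) (nat_lit 526) (nat_lit 1549) (nat_lit 556) (nat_lit 2572))) (.f (nat_lit 530) (nat_lit 527) (nat_lit 1550) (.d (nat_lit 531) (nat_lit 495) (nat_lit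 3567) (nat_lit 560) (nat_lit 1551))))))))))) (.a (.p (nat_lit 560) (.a (.p (nat_lit 592) (.a (.f (nat_lit 593) (nat_lit 625) (nat_lit 4592) (.f (nat_lit 559) (nat_lit 557) (nat_lit 557) (.d (nat_lit 591) (nat_lit 594) (nat_lit 3630) (nat_lit 623) (nat_lit 5615)))) (.a (.f (nat_lit 495) (nat_lit 463) (nat_lit 7631) (.f (nat_lit 624) (nat_lit 527) (nat_lit 7663) (.d (nat_lit 623) (nat_lit 591) (nat_lit 5615) (nat_lit 655) (nat_lit 5647)))) (.f (nat_lit 593) (nat_lit 625) (nat_lit 4592) (.f (nat_lit 559) (nat_lit 557) (nat_lit 557) (.d (nat_lit 594) (nat_lit 561) (nat_lit 558) (nat_lit 595) (nat_lit 3631))))))) (.a s25817 (.a (.p (nat_lit 592) (.a (.f (nat_lit 495) (nat_lit 463) (nat_lit 7631) (.f (nat_lit 624) (nat_lit 527) (nat_lit 7663) (.d (nat_lit 623) (nat_lit 591) (nat_lit 5615) (nat_lit 655) (nat_lit 5647)))) (.a (.f (nat_lit 591) (nat_lit 623) (nat_lit 5615) (.f (nat_lit 593) (nat_lit 625) (nat_lit 4592) (.f (nat_lit 590) (nat_lit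 557) (nat_lit 3629) (.d (nat_lit 561) (nat_lit 562) (nat_lit 2606) (nat_lit 589) (nat_lit 2605))))) (.f (nat_lit 495) (nat_lit 463) (nat_lit 7631) (.f (nat_lit 624) (nat_lit 527) (nat_lit 7663) (.d (nat_lit 625) (nat_lit 593) (nat_lit 4592) (nat_lit 657) (nat_lit 4624))))))) (.a s25990 (.a (.p (nat_lit 592) (.a (.f (nat_lit 593) (nat_lit 625) (nat_lit 4592) (.f (nat_lit 559) (nat_lit 557) (nat_lit 557) (.d (nat_lit 591) (nat_lit 594) (nat_lit 3630) (nat_lit 623) (nat_lit 5615)))) (.a (.f (nat_lit 495) (nat_lit 463) (nat_lit 7631) (.f (nat_lit 624) (nat_lit 527) (nat_lit 7663) (.d (nat_lit 623) (nat_lit 591) (nat_lit 5615) (nat_lit 655) (nat_lit 5647)))) (.f (nat_lit 495) (nat_lit 463) (nat_lit 7631) (.f (nat_lit 624) (nat_lit 527) (nat_lit 7663) (.d (nat_lit 625) (nat_lit 593) (nat_lit 4592) (nat_lit 657) (nat_lit 4624))))))) (.a s25873 (.a s25886 s25895)))))))) (.a (.p (nat_lit 560) (.a s25895 (.a s25985 (.a s26073 (.a (.p (nat_lit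 592) (.a (.f (nat_lit 495) (nat_lit 463) (nat_lit 7631) (.f (nat_lit 624) (nat_lit 527) (nat_lit 7663) (.d (nat_lit 623) (nat_lit 591) (nat_lit 5615) (nat_lit 655) (nat_lit 5647)))) (.a (.f (nat_lit 591) (nat_lit 623) (nat_lit 5615) (.f (nat_lit 593) (nat_lit 625) (nat_lit 4592) (.f (nat_lit 594) (nat_lit 559) (nat_lit 3630) (.f (nat_lit 562) (nat_lit 563) (nat_lit 2607) (.f (nat_lit 561) (nat_lit 590) (nat_lit 2606) (.f (nat_lit 595) (nat_lit 596) (nat_lit 3632) (.d (nat_lit 627) (nat_lit 626) (nat_lit 591) (nat_lit 628) (nat_lit 592)))))))) (.f (nat_lit 495) (nat_lit 463) (nat_lit 7631) (.f (nat_lit 624) (nat_lit 527) (nat_lit 7663) (.d (nat_lit 625) (nat_lit 593) (nat_lit 4592) (nat_lit 657) (nat_lit 4624))))))) (.a (.p (nat_lit 464) (.a (.f (nat_lit 463) (nat_lit 431) (nat_lit 7599) (.f (nat_lit 592) (nat_lit 495) (nat_lit 7631) (.d (nat_lit 593) (nat_lit 561) (nat_lit 4560) (nat_lit 625) (nat_lit 4592)))) (.a (.f (nat_lit 561)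 (nat_lit 593) (nat_lit 4560) (.f (nat_lit 432) (nat_lit 529) (nat_lit 4528) (.d (nat_lit 431) (nat_lit 399) (nat_lit 7567) (nat_lit 463) (nat_lit 7599)))) (.a (.f (nat_lit 463) (nat_lit 431) (nat_lit 7599) (.f (nat_lit 592) (nat_lit 495) (nat_lit 7631) (.f (nat_lit 623) (nat_lit 591) (nat_lit 5615) (.f (nat_lit 624) (nat_lit 655) (nat_lit 5647) (.d (nat_lit 625) (nat_lit 593) (nat_lit 4592) (nat_lit 657) (nat_lit 4624)))))) (.a (.f (nat_lit 561) (nat_lit 593) (nat_lit 4560) (.f (nat_lit 432) (nat_lit 529) (nat_lit 4528) (.f (nat_lit 399) (nat_lit 431) (nat_lit 7567) (.f (nat_lit 400) (nat_lit 367) (nat_lit 7535) (.d (nat_lit 401) (nat_lit 369) (nat_lit 6512) (nat_lit 433) (nat_lit 6544)))))) (.a (.f (nat_lit 463) (nat_lit 431) (nat_lit 7599) (.f (nat_lit 592) (nat_lit 495) (nat_lit 7631) (.f (nat_lit 623) (nat_lit 591) (nat_lit 5615) (.f (nat_lit 624) (nat_lit 655) (nat_lit 5647) (.f (nat_lit 529) (nat_lit 497) (nat_lit 6640) (.d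 (nat_lit 561) (nat_lit 432) (nat_lit 4528) (nat_lit 656) (nat_lit 6672))))))) (.f (nat_lit 561) (nat_lit 593) (nat_lit 4560) (.f (nat_lit 432) (nat_lit 529) (nat_lit 4528) (.f (nat_lit 401) (nat_lit 433) (nat_lit 6544) (.f (nat_lit 400) (nat_lit 369) (nat_lit 6512) (.f (nat_lit 367) (nat_lit 399) (nat_lit 7535) (.f (nat_lit 368) (nat_lit 335) (nat_lit 7503) (.d (nat_lit 495) (nat_lit 463) (nat_lit 5487) (nat_lit 527) (nat_lit 5519)))))))))))))) (.a (.p (nat_lit 464) (.a (.f (nat_lit 559) (nat_lit 591) (nat_lit 5583) (.f (nat_lit 527) (nat_lit 432) (nat_lit 5551) (.f (nat_lit 463) (nat_lit 431) (nat_lit 7599) (.d (nat_lit 495) (nat_lit 590) (nat_lit 5582) (nat_lit 592) (nat_lit 7631))))) (.a (.f (nat_lit 463) (nat_lit 431) (nat_lit 7599) (.f (nat_lit 592) (nat_lit 495) (nat_lit 7631) (.d (nat_lit 591) (nat_lit 559) (nat_lit 5583) (nat_lit 623) (nat_lit 5615)))) (.a (.f (nat_lit 559) (nat_lit 591) (nat_lit 5583) (.f (nat_lit 432) (nat_lit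 527) (nat_lit 5551) (.d (nat_lit 431) (nat_lit 399) (nat_lit 7567) (nat_lit 463) (nat_lit 7599)))) (.a (.f (nat_lit 463) (nat_lit 431) (nat_lit 7599) (.f (nat_lit 592) (nat_lit 495) (nat_lit 7631) (.f (nat_lit 623) (nat_lit 591) (nat_lit 5615) (.f (nat_lit 624) (nat_lit 655) (nat_lit 5647) (.d (nat_lit 625) (nat_lit 593) (nat_lit 4592) (nat_lit 657) (nat_lit 4624)))))) (.a (.f (nat_lit 431) (nat_lit 463) (nat_lit 7599) (.f (nat_lit 432) (nat_lit 399) (nat_lit 7567) (.f (nat_lit 401) (nat_lit 433) (nat_lit 6544) (.f (nat_lit 400) (nat_lit 369) (nat_lit 6512) (.d (nat_lit 527) (nat_lit 495) (nat_lit 5519) (nat_lit 559) (nat_lit 5551)))))) (.a (.f (nat_lit 559) (nat_lit 591) (nat_lit 5583) (.f (nat_lit 432) (nat_lit 527) (nat_lit 5551) (.f (nat_lit 399) (nat_lit 431) (nat_lit 7567) (.f (nat_lit 400) (nat_lit 367) (nat_lit 7535) (.d (nat_lit 401) (nat_lit 369) (nat_lit 6512) (nat_lit 433) (nat_lit 6544)))))) (.f (nat_lit 591) (nat_lit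 559) (nat_lit 5583) (.f (nat_lit 592) (nat_lit 623) (nat_lit 5615) (.f (nat_lit 625) (nat_lit 593) (nat_lit 4592) (.f (nat_lit 624) (nat_lit 657) (nat_lit 4624) (.d (nat_lit 495) (nat_lit 463) (nat_lit 7631) (nat_lit 527) (nat_lit 7663))))))))))))) (.a (.p (nat_lit 464) (.a (.f (nat_lit 463) (nat_lit 431) (nat_lit 7599) (.f (nat_lit 592) (nat_lit 495) (nat_lit 7631) (.d (nat_lit 593) (nat_lit 561) (nat_lit 4560) (nat_lit 625) (nat_lit 4592)))) (.a (.f (nat_lit 561) (nat_lit 593) (nat_lit 4560) (.f (nat_lit 432) (nat_lit 529) (nat_lit 4528) (.d (nat_lit 431) (nat_lit 399) (nat_lit 7567) (nat_lit 463) (nat_lit 7599)))) (.a (.f (nat_lit 431) (nat_lit 463) (nat_lit 7599) (.f (nat_lit 432) (nat_lit 399) (nat_lit 7567) (.f (nat_lit 401) (nat_lit 433) (nat_lit 6544) (.f (nat_lit 400) (nat_lit 369) (nat_lit 6512) (.d (nat_lit 527) (nat_lit 495) (nat_lit 5519) (nat_lit 559) (nat_lit 5551)))))) (.a (.f (nat_lit 561) (nat_lit 593) (nat_lit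 4560) (.f (nat_lit 432) (nat_lit 529) (nat_lit 4528) (.f (nat_lit 399) (nat_lit 431) (nat_lit 7567) (.f (nat_lit 400) (nat_lit 367) (nat_lit 7535) (.d (nat_lit 401) (nat_lit 369) (nat_lit 6512) (nat_lit 433) (nat_lit 6544)))))) (.f (nat_lit 561) (nat_lit 593) (nat_lit 4560) (.f (nat_lit 432) (nat_lit 529) (nat_lit 4528) (.f (nat_lit 401) (nat_lit 433) (nat_lit 6544) (.f (nat_lit 400) (nat_lit 369) (nat_lit 6512) (.f (nat_lit 367) (nat_lit 399) (nat_lit 7535) (.f (nat_lit 368) (nat_lit 335) (nat_lit 7503) (.d (nat_lit 495) (nat_lit 463) (nat_lit 5487) (nat_lit 527) (nat_lit 5519))))))))))))) (.a (.p (nat_lit 464) (.a (.f (nat_lit 559) (nat_lit 591) (nat_lit 5583) (.f (nat_lit 527) (nat_lit 432) (nat_lit 5551) (.f (nat_lit 561) (nat_lit 593) (nat_lit 4560) (.d (nat_lit 526) (nat_lit 525) (nat_lit 3597) (nat_lit 562) (nat_lit 3598))))) (.a (.f (nat_lit 561) (nat_lit 593) (nat_lit 4560) (.f (nat_lit 432) (nat_lit 529) (nat_lit 4528)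 (.f (nat_lit 399) (nat_lit 431) (nat_lit 7567) (.f (nat_lit 400) (nat_lit 367) (nat_lit 7535) (.d (nat_lit 401) (nat_lit 369) (nat_lit 6512) (nat_lit 433) (nat_lit 6544)))))) (.a (.f (nat_lit 561) (nat_lit 593) (nat_lit 4560) (.f (nat_lit 559) (nat_lit 591) (nat_lit 5583) (.f (nat_lit 529) (nat_lit 530) (nat_lit 2574) (.f (nat_lit 526) (nat_lit 525) (nat_lit 3597) (.f (nat_lit 562) (nat_lit 527) (nat_lit 526) (.f (nat_lit 563) (nat_lit 564) (nat_lit 3600) (.d (nat_lit 595) (nat_lit 594) (nat_lit 559) (nat_lit 596) (nat_lit 560)))))))) (.f (nat_lit 559) (nat_lit 591) (nat_lit 5583) (.f (nat_lit 432) (nat_lit 527) (nat_lit 5551) (.f (nat_lit 399) (nat_lit 431) (nat_lit 7567) (.f (nat_lit 400) (nat_lit 367) (nat_lit 7535) (.d (nat_lit 401) (nat_lit 369) (nat_lit 6512) (nat_lit 433) (nat_lit 6544)))))))))) (.p (nat_lit 464) (.a (.f (nat_lit 559) (nat_lit 591) (nat_lit 5583) (.f (nat_lit 527) (nat_lit 432) (nat_lit 5551) (.f (nat_lit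 463) (nat_lit 431) (nat_lit 7599) (.d (nat_lit 495) (nat_lit 590) (nat_lit 5582) (nat_lit 592) (nat_lit 7631))))) (.a (.f (nat_lit 463) (nat_lit 431) (nat_lit 7599) (.f (nat_lit 592) (nat_lit 495) (nat_lit 7631) (.d (nat_lit 591) (nat_lit 559) (nat_lit 5583) (nat_lit 623) (nat_lit 5615)))) (.a (.f (nat_lit 559) (nat_lit 591) (nat_lit 5583) (.f (nat_lit 432) (nat_lit 527) (nat_lit 5551) (.d (nat_lit 431) (nat_lit 399) (nat_lit 7567) (nat_lit 463) (nat_lit 7599)))) (.a (.f (nat_lit 463) (nat_lit 431) (nat_lit 7599) (.f (nat_lit 592) (nat_lit 495) (nat_lit 7631) (.f (nat_lit 623) (nat_lit 591) (nat_lit 5615) (.f (nat_lit 624) (nat_lit 655) (nat_lit 5647) (.f (nat_lit 529) (nat_lit 497) (nat_lit 6640) (.d (nat_lit 561) (nat_lit 432) (nat_lit 4528) (nat_lit 656) (nat_lit 6672))))))) (.a (.f (nat_lit 431) (nat_lit 463) (nat_lit 7599) (.f (nat_lit 432) (nat_lit 399) (nat_lit 7567) (.f (nat_lit 401) (nat_lit 433) (nat_lit 6544) (.f (nat_lit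 400) (nat_lit 369) (nat_lit 6512) (.d (nat_lit 527) (nat_lit 495) (nat_lit 5519) (nat_lit 559) (nat_lit 5551)))))) (.a (.f (nat_lit 559) (nat_lit 591) (nat_lit 5583) (.f (nat_lit 432) (nat_lit 527) (nat_lit 5551) (.f (nat_lit 399) (nat_lit 431) (nat_lit 7567) (.f (nat_lit 400) (nat_lit 367) (nat_lit 7535) (.d (nat_lit 401) (nat_lit 369) (nat_lit 6512) (nat_lit 433) (nat_lit 6544)))))) (.f (nat_lit 559) (nat_lit 591) (nat_lit 5583) (.f (nat_lit 432) (nat_lit 527) (nat_lit 5551) (.f (nat_lit 529) (nat_lit 561) (nat_lit 4528) (.f (nat_lit 400) (nat_lit 497) (nat_lit 4496) (.d (nat_lit 401) (nat_lit 369) (nat_lit 6512) (nat_lit 433) (nat_lit 6544)))))))))))))))))))))) (.p (nat_lit 560) (.a s25905 (.a s25873 (.a s25990 (.a (.p (nat_lit 592) (.a (.f (nat_lit 593) (nat_lit 625) (nat_lit 4592) (.f (nat_lit 559) (nat_lit 557) (nat_lit 557) (.d (nat_lit 594) (nat_lit 561) (nat_lit 558) (nat_lit 595) (nat_lit 3631)))) (.a (.f (nat_lit 495)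 (nat_lit 463) (nat_lit 7631) (.f (nat_lit 624) (nat_lit 527) (nat_lit 7663) (.d (nat_lit 625) (nat_lit 593) (nat_lit 4592) (nat_lit 657) (nat_lit 4624)))) (.f (nat_lit 495) (nat_lit 463) (nat_lit 7631) (.f (nat_lit 624) (nat_lit 527) (nat_lit 7663) (.f (nat_lit 529) (nat_lit 497) (nat_lit 6640) (.f (nat_lit 559) (nat_lit 557) (nat_lit 2573) (.d (nat_lit 530) (nat_lit 531) (nat_lit 3567) (nat_lit 561) (nat_lit 2574))))))))) (.a (.p (nat_lit 464) (.a (.f (nat_lit 463) (nat_lit 431) (nat_lit 7599) (.f (nat_lit 592) (nat_lit 495) (nat_lit 7631) (.d (nat_lit 593) (nat_lit 561) (nat_lit 4560) (nat_lit 625) (nat_lit 4592)))) (.a (.f (nat_lit 561) (nat_lit 593) (nat_lit 4560) (.f (nat_lit 432) (nat_lit 529) (nat_lit 4528) (.d (nat_lit 431) (nat_lit 399) (nat_lit 7567) (nat_lit 463) (nat_lit 7599)))) (.a (.f (nat_lit 431) (nat_lit 463) (nat_lit 7599) (.f (nat_lit 432) (nat_lit 399) (nat_lit 7567) (.f (nat_lit 401) (nat_lit 433) (nat_lit 6544)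 (.f (nat_lit 400) (nat_lit 369) (nat_lit 6512) (.f (nat_lit 529) (nat_lit 497) (nat_lit 4496) (.f (nat_lit 527) (nat_lit 495) (nat_lit 5519) (.f (nat_lit 526) (nat_lit 557) (nat_lit 1549) (.f (nat_lit 493) (nat_lit 494) (nat_lit 3565) (.f (nat_lit 525) (nat_lit 492) (nat_lit 3564) (.d (nat_lit 429) (nat_lit 430) (nat_lit 2445) (nat_lit 461) (nat_lit 4525))))))))))) (.a (.f (nat_lit 561) (nat_lit 593) (nat_lit 4560) (.f (nat_lit 432) (nat_lit 529) (nat_lit 4528) (.f (nat_lit 399) (nat_lit 431) (nat_lit 7567) (.f (nat_lit 400) (nat_lit 367) (nat_lit 7535) (.d (nat_lit 401) (nat_lit 369) (nat_lit 6512) (nat_lit 433) (nat_lit 6544)))))) (.f (nat_lit 561) (nat_lit 593) (nat_lit 4560) (.f (nat_lit 432) (nat_lit 529) (nat_lit 4528) (.f (nat_lit 401) (nat_lit 433) (nat_lit 6544) (.f (nat_lit 400) (nat_lit 369) (nat_lit 6512) (.f (nat_lit 367) (nat_lit 399) (nat_lit 7535) (.f (nat_lit 368) (nat_lit 335) (nat_lit 7503) (.d (nat_lit 495) (nat_lit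 463) (nat_lit 5487) (nat_lit 527) (nat_lit 5519))))))))))))) (.a (.p (nat_lit 464) (.a (.f (nat_lit 559) (nat_lit 591) (nat_lit 5583) (.f (nat_lit 557) (nat_lit 529) (nat_lit 2573) (.d (nat_lit 527) (nat_lit 432) (nat_lit 5551) (nat_lit 556) (nat_lit 2572)))) (.a (.f (nat_lit 559) (nat_lit 591) (nat_lit 5583) (.f (nat_lit 432) (nat_lit 527) (nat_lit 5551) (.d (nat_lit 431) (nat_lit 399) (nat_lit 7567) (nat_lit 463) (nat_lit 7599)))) (.a (.f (nat_lit 559) (nat_lit 591) (nat_lit 5583) (.f (nat_lit 557) (nat_lit 529) (nat_lit 2573) (.f (nat_lit 524) (nat_lit 525) (nat_lit 3596) (.f (nat_lit 556) (nat_lit 523) (nat_lit 3595) (.d (nat_lit 588) (nat_lit 587) (nat_lit 1579) (nat_lit 589) (nat_lit 1580)))))) (.f (nat_lit 431) (nat_lit 463) (nat_lit 7599) (.f (nat_lit 432) (nat_lit 399) (nat_lit 7567) (.f (nat_lit 401) (nat_lit 433) (nat_lit 6544) (.f (nat_lit 400) (nat_lit 369) (nat_lit 6512) (.f (nat_lit 529) (nat_lit 497) (nat_lit 4496)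 (.f (nat_lit 527) (nat_lit 495) (nat_lit 5519) (.f (nat_lit 526) (nat_lit 557) (nat_lit 1549) (.f (nat_lit 493) (nat_lit 494) (nat_lit 3565) (.f (nat_lit 525) (nat_lit 492) (nat_lit 3564) (.d (nat_lit 429) (nat_lit 430) (nat_lit 2445) (nat_lit 461) (nat_lit 4525))))))))))))))) (.a (.p (nat_lit 464) (.a (.f (nat_lit 559) (nat_lit 591) (nat_lit 5583) (.f (nat_lit 527) (nat_lit 432) (nat_lit 5551) (.f (nat_lit 561) (nat_lit 593) (nat_lit 4560) (.d (nat_lit 526) (nat_lit 525) (nat_lit 3597) (nat_lit 562) (nat_lit 3598))))) (.a (.f (nat_lit 559) (nat_lit 591) (nat_lit 5583) (.f (nat_lit 561) (nat_lit 593) (nat_lit 4560) (.f (nat_lit 525) (nat_lit 526) (nat_lit 3597) (.f (nat_lit 557) (nat_lit 524) (nat_lit 3596) (.d (nat_lit 589) (nat_lit 588) (nat_lit 1580) (nat_lit 590) (nat_lit 1581)))))) (.a (.f (nat_lit 561) (nat_lit 593) (nat_lit 4560) (.f (nat_lit 432) (nat_lit 529) (nat_lit 4528) (.f (nat_lit 399) (nat_lit 431) (nat_lit 7567)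 (.f (nat_lit 400) (nat_lit 367) (nat_lit 7535) (.d (nat_lit 401) (nat_lit 369) (nat_lit 6512) (nat_lit 433) (nat_lit 6544)))))) (.f (nat_lit 559) (nat_lit 591) (nat_lit 5583) (.f (nat_lit 557) (nat_lit 529) (nat_lit 2573) (.d (nat_lit 527) (nat_lit 432) (nat_lit 5551) (nat_lit 556) (nat_lit 2572)))))))) s25895)))))))))))))))))))))
noncomputable def s26218 : Cert := .r (nat_lit 878694100701304956511192169158242687862212665431883220280182872118455237980908336946979793684870563807462937680039967586724118902039808942127312687095760289792) (.p (nat_lit 526) (.a s18950 (.a s24055 (.a s25547 (.a s19025 (.a s22872 (.a s24148 (.a s22943 (.a s19247 (.a s22991 (.a s22992 s23038)))))))))))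
noncomputable def s26219 : Cert := .r (nat_lit 878694100496718043517683302282418331810487718418343092402491322775749527474899974671687634004666183037093927858109549828751614463963730408009475621262727315456) (.p (nat_lit 496) (.a (.p (nat_lit 526) (.a s18950 (.a s18986 (.a s19004 (.a s19025 (.a s19032 (.a s19184 (.a s19215 (.a s19244 (.a s19247 (.a (.p (nat_lit 558) (.a (.p (nat_lit 527) (.a (.f (nat_lit 525) (nat_lit 497) (nat_lit 2541) (.d (nat_lit 557) (nat_lit 529) (nat_lit 1549) (nat_lit 556) (nat_lit 1548))) (.a (.f (nat_lit 525) (nat_lit 497) (nat_lit 2541) (.f (nat_lit 524) (nat_lit 495) (nat_lit 2540) (.d (nat_lit 492) (nat_lit 491) (nat_lit 3563) (nat_lit 493) (nat_lit 3564)))) (.f (nat_lit 529) (nat_lit 557) (nat_lit 1549) (.f (nat_lit 494) (nat_lit 493) (nat_lit 3565) (.d (nat_lit 530) (nat_lit 495) (nat_lit 3566) (nat_lit 559) (nat_lit 1550))))))) (.a s19088 (.a s19113 (.a s19123 (.a (.p (nat_lit 527) (.a (.f (nat_lit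 525) (nat_lit 497) (nat_lit 2541) (.d (nat_lit 557) (nat_lit 529) (nat_lit 1549) (nat_lit 556) (nat_lit 1548))) (.a (.f (nat_lit 525) (nat_lit 497) (nat_lit 2541) (.f (nat_lit 524) (nat_lit 495) (nat_lit 2540) (.d (nat_lit 492) (nat_lit 491) (nat_lit 3563) (nat_lit 493) (nat_lit 3564)))) (.f (nat_lit 529) (nat_lit 557) (nat_lit 1549) (.f (nat_lit 494) (nat_lit 493) (nat_lit 3565) (.f (nat_lit 495) (nat_lit 530) (nat_lit 3566) (.d (nat_lit 463) (nat_lit 431) (nat_lit 5550) (nat_lit 590) (nat_lit 6606)))))))) (.a s19136 (.a (.p (nat_lit 527) (.a (.f (nat_lit 525) (nat_lit 497) (nat_lit 2541) (.d (nat_lit 557) (nat_lit 529) (nat_lit 1549) (nat_lit 556) (nat_lit 1548))) (.a (.f (nat_lit 525) (nat_lit 497) (nat_lit 2541) (.f (nat_lit 524) (nat_lit 495) (nat_lit 2540) (.d (nat_lit 492) (nat_lit 491) (nat_lit 3563) (nat_lit 493) (nat_lit 3564)))) (.f (nat_lit 529) (nat_lit 557) (nat_lit 1549) (.f (nat_lit 559) (nat_lit 530) (nat_lit 1550)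 (.f (nat_lit 591) (nat_lit 623) (nat_lit 6639) (.d (nat_lit 464) (nat_lit 432) (nat_lit 5551) (nat_lit 560) (nat_lit 5583)))))))) (.a s19156 (.a (.p (nat_lit 527) (.a (.f (nat_lit 525) (nat_lit 497) (nat_lit 2541) (.d (nat_lit 557) (nat_lit 529) (nat_lit 1549) (nat_lit 556) (nat_lit 1548))) (.a (.f (nat_lit 525) (nat_lit 497) (nat_lit 2541) (.f (nat_lit 524) (nat_lit 495) (nat_lit 2540) (.d (nat_lit 556) (nat_lit 555) (nat_lit 1547) (nat_lit 557) (nat_lit 1548)))) (.a (.f (nat_lit 529) (nat_lit 557) (nat_lit 1549) (.f (nat_lit 559) (nat_lit 530) (nat_lit 1550) (.f (nat_lit 591) (nat_lit 623) (nat_lit 6639) (.d (nat_lit 464) (nat_lit 432) (nat_lit 5551) (nat_lit 560) (nat_lit 5583))))) (.f (nat_lit 525) (nat_lit 497) (nat_lit 2541) (.f (nat_lit 495) (nat_lit 524) (nat_lit 2540) (.f (nat_lit 463) (nat_lit 431) (nat_lit 5550) (.d (nat_lit 590) (nat_lit 494) (nat_lit 6606) (nat_lit 559) (nat_lit 5582))))))))) s19263)))))))))) (.a s19282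 s19304)))))))))))) (.a (.p (nat_lit 560) (.a s19317 (.a (.p (nat_lit 464) (.a (.f (nat_lit 433) (nat_lit 465) (nat_lit 6576) (.f (nat_lit 432) (nat_lit 401) (nat_lit 6544) (.d (nat_lit 431) (nat_lit 399) (nat_lit 7567) (nat_lit 463) (nat_lit 7599)))) (.a (.f (nat_lit 465) (nat_lit 433) (nat_lit 6576) (.f (nat_lit 592) (nat_lit 497) (nat_lit 6608) (.d (nat_lit 591) (nat_lit 559) (nat_lit 5583) (nat_lit 623) (nat_lit 5615)))) (.f (nat_lit 559) (nat_lit 591) (nat_lit 5583) (.f (nat_lit 561) (nat_lit 593) (nat_lit 4560) (.f (nat_lit 527) (nat_lit 432) (nat_lit 5551) (.d (nat_lit 526) (nat_lit 525) (nat_lit 525) (nat_lit 562) (nat_lit 3598)))))))) (.a s19339 (.a s19346 (.a s19368 (.p (nat_lit 464) (.a (.f (nat_lit 465) (nat_lit 433) (nat_lit 6576) (.f (nat_lit 592) (nat_lit 497) (nat_lit 6608) (.d (nat_lit 591) (nat_lit 559) (nat_lit 5583) (nat_lit 623) (nat_lit 5615)))) (.a (.f (nat_lit 465) (nat_lit 433) (nat_lit 6576) (.f (nat_lit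 592) (nat_lit 497) (nat_lit 6608) (.d (nat_lit 593) (nat_lit 561) (nat_lit 4560) (nat_lit 625) (nat_lit 4592)))) (.f (nat_lit 559) (nat_lit 591) (nat_lit 5583) (.f (nat_lit 561) (nat_lit 593) (nat_lit 4560) (.f (nat_lit 527) (nat_lit 432) (nat_lit 5551) (.d (nat_lit 526) (nat_lit 525) (nat_lit 525) (nat_lit 562) (nat_lit 3598)))))))))))))) (.a (.p (nat_lit 560) (.a s19317 (.a (.p (nat_lit 464) (.a (.f (nat_lit 433) (nat_lit 465) (nat_lit 6576) (.f (nat_lit 432) (nat_lit 401) (nat_lit 6544) (.d (nat_lit 431) (nat_lit 399) (nat_lit 7567) (nat_lit 463) (nat_lit 7599)))) (.a (.f (nat_lit 465) (nat_lit 433) (nat_lit 6576) (.f (nat_lit 592) (nat_lit 497) (nat_lit 6608) (.d (nat_lit 591) (nat_lit 559) (nat_lit 5583) (nat_lit 623) (nat_lit 5615)))) (.f (nat_lit 561) (nat_lit 593) (nat_lit 4560) (.f (nat_lit 529) (nat_lit 432) (nat_lit 4528) (.f (nat_lit 559) (nat_lit 591) (nat_lit 5583) (.d (nat_lit 530) (nat_lit 531) (nat_lit 1551) (nat_lit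 558) (nat_lit 2574)))))))) (.a (.p (nat_lit 592) (.a (.f (nat_lit 623) (nat_lit 591) (nat_lit 5615) (.f (nat_lit 624) (nat_lit 655) (nat_lit 5647) (.d (nat_lit 625) (nat_lit 593) (nat_lit 4592) (nat_lit 657) (nat_lit 4624)))) (.a (.f (nat_lit 497) (nat_lit 465) (nat_lit 6608) (.f (nat_lit 624) (nat_lit 529) (nat_lit 6640) (.d (nat_lit 625) (nat_lit 593) (nat_lit 4592) (nat_lit 657) (nat_lit 4624)))) (.a (.p (nat_lit 558) (.a (.f (nat_lit 593) (nat_lit 625) (nat_lit 4592) (.f (nat_lit 559) (nat_lit 557) (nat_lit 557) (.d (nat_lit 591) (nat_lit 594) (nat_lit 3630) (nat_lit 623) (nat_lit 5615)))) (.a (.f (nat_lit 591) (nat_lit 623) (nat_lit 5615) (.f (nat_lit 593) (nat_lit 625) (nat_lit 4592) (.f (nat_lit 590) (nat_lit 557) (nat_lit 3629) (.d (nat_lit 561) (nat_lit 562) (nat_lit 2606) (nat_lit 589) (nat_lit 2605))))) (.a (.f (nat_lit 593) (nat_lit 625) (nat_lit 4592) (.f (nat_lit 559) (nat_lit 557) (nat_lit 557) (.d (nat_lit 594) (nat_lit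 561) (nat_lit 558) (nat_lit 595) (nat_lit 3631)))) (.a (.p (nat_lit 529) (.a (.f (nat_lit 559) (nat_lit 557) (nat_lit 2573) (.d (nat_lit 530) (nat_lit 531) (nat_lit 1551) (nat_lit 561) (nat_lit 2574))) (.a (.f (nat_lit 497) (nat_lit 465) (nat_lit 6608) (.f (nat_lit 495) (nat_lit 463) (nat_lit 7631) (.d (nat_lit 494) (nat_lit 493) (nat_lit 493) (nat_lit 530) (nat_lit 494)))) (.f (nat_lit 559) (nat_lit 557) (nat_lit 2573) (.f (nat_lit 591) (nat_lit 623) (nat_lit 5615) (.f (nat_lit 495) (nat_lit 463) (nat_lit 7631) (.f (nat_lit 494) (nat_lit 493) (nat_lit 493) (.f (nat_lit 526) (nat_lit 462) (nat_lit 4558) (.f (nat_lit 561) (nat_lit 525) (nat_lit 3597) (.d (nat_lit 562) (nat_lit 563) (nat_lit 1583) (nat_lit 590) (nat_lit 1582))))))))))) (.f (nat_lit 593) (nat_lit 625) (nat_lit 4592) (.f (nat_lit 591) (nat_lit 623) (nat_lit 5615) (.f (nat_lit 594) (nat_lit 559) (nat_lit 3630) (.f (nat_lit 562) (nat_lit 563) (nat_lit 2607) (.f (nat_lit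 561) (nat_lit 590) (nat_lit 2606) (.f (nat_lit 626) (nat_lit 627) (nat_lit 591) (.d (nat_lit 497) (nat_lit 465) (nat_lit 6608) (nat_lit 529) (nat_lit 4593))))))))))))) (.f (nat_lit 497) (nat_lit 465) (nat_lit 6608) (.f (nat_lit 624) (nat_lit 529) (nat_lit 6640) (.d (nat_lit 623) (nat_lit 591) (nat_lit 5615) (nat_lit 655) (nat_lit 5647)))))))) (.a s19346 (.a (.p (nat_lit 464) (.a (.f (nat_lit 433) (nat_lit 465) (nat_lit 6576) (.f (nat_lit 432) (nat_lit 401) (nat_lit 6544) (.d (nat_lit 431) (nat_lit 399) (nat_lit 7567) (nat_lit 463) (nat_lit 7599)))) (.a (.p (nat_lit 494) (.a (.f (nat_lit 465) (nat_lit 433) (nat_lit 6576) (.f (nat_lit 495) (nat_lit 493) (nat_lit 2509) (.d (nat_lit 463) (nat_lit 431) (nat_lit 7599) (nat_lit 466) (nat_lit 1486)))) (.a (.f (nat_lit 463) (nat_lit 431) (nat_lit 7599) (.f (nat_lit 465) (nat_lit 433) (nat_lit 6576) (.f (nat_lit 462) (nat_lit 493) (nat_lit 1485) (.f (nat_lit 429) (nat_lit 430) (nat_lit 3501)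 (.d (nat_lit 461) (nat_lit 428) (nat_lit 3500) (nat_lit 497) (nat_lit 461)))))) (.a (.f (nat_lit 463) (nat_lit 431) (nat_lit 7599) (.f (nat_lit 465) (nat_lit 433) (nat_lit 6576) (.f (nat_lit 466) (nat_lit 495) (nat_lit 1486) (.f (nat_lit 435) (nat_lit 434) (nat_lit 2479) (.f (nat_lit 467) (nat_lit 436) (nat_lit 2480) (.f (nat_lit 468) (nat_lit 497) (nat_lit 1488) (.d (nat_lit 500) (nat_lit 499) (nat_lit 464) (nat_lit 501) (nat_lit 465)))))))) (.a (.f (nat_lit 465) (nat_lit 433) (nat_lit 6576) (.f (nat_lit 495) (nat_lit 493) (nat_lit 2509) (.d (nat_lit 466) (nat_lit 467) (nat_lit 1487) (nat_lit 497) (nat_lit 2510)))) (.p (nat_lit 529) (.a (.f (nat_lit 495) (nat_lit 493) (nat_lit 493) (.d (nat_lit 530) (nat_lit 497) (nat_lit 494) (nat_lit 531) (nat_lit 3567))) (.a (.f (nat_lit 561) (nat_lit 593) (nat_lit 4560) (.f (nat_lit 559) (nat_lit 591) (nat_lit 5583) (.d (nat_lit 530) (nat_lit 531) (nat_lit 1551) (nat_lit 558) (nat_lit 2574))))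 (.f (nat_lit 495) (nat_lit 493) (nat_lit 493) (.f (nat_lit 463) (nat_lit 431) (nat_lit 7599) (.f (nat_lit 561) (nat_lit 593) (nat_lit 4560) (.f (nat_lit 559) (nat_lit 591) (nat_lit 5583) (.f (nat_lit 558) (nat_lit 557) (nat_lit 2573) (.d (nat_lit 526) (nat_lit 525) (nat_lit 3597) (nat_lit 590) (nat_lit 6606))))))))))))))) (.f (nat_lit 561) (nat_lit 593) (nat_lit 4560) (.f (nat_lit 529) (nat_lit 432) (nat_lit 4528) (.f (nat_lit 559) (nat_lit 591) (nat_lit 5583) (.d (nat_lit 530) (nat_lit 531) (nat_lit 1551) (nat_lit 558) (nat_lit 2574)))))))) (.a (.p (nat_lit 464) (.a (.f (nat_lit 433) (nat_lit 465) (nat_lit 6576) (.f (nat_lit 432) (nat_lit 401) (nat_lit 6544) (.d (nat_lit 431) (nat_lit 399) (nat_lit 7567) (nat_lit 463) (nat_lit 7599)))) (.a (.f (nat_lit 463) (nat_lit 431) (nat_lit 7599) (.f (nat_lit 592) (nat_lit 495) (nat_lit 7631) (.d (nat_lit 591) (nat_lit 559) (nat_lit 5583) (nat_lit 623) (nat_lit 5615)))) (.f (nat_lit 561) (nat_lit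 593) (nat_lit 4560) (.f (nat_lit 529) (nat_lit 432) (nat_lit 4528) (.f (nat_lit 559) (nat_lit 591) (nat_lit 5583) (.d (nat_lit 530) (nat_lit 531) (nat_lit 1551) (nat_lit 558) (nat_lit 2574)))))))) (.a (.p (nat_lit 464) (.a (.f (nat_lit 465) (nat_lit 433) (nat_lit 6576) (.f (nat_lit 592) (nat_lit 497) (nat_lit 6608) (.d (nat_lit 591) (nat_lit 559) (nat_lit 5583) (nat_lit 623) (nat_lit 5615)))) (.a (.f (nat_lit 465) (nat_lit 433) (nat_lit 6576) (.f (nat_lit 592) (nat_lit 497) (nat_lit 6608) (.d (nat_lit 593) (nat_lit 561) (nat_lit 4560) (nat_lit 625) (nat_lit 4592)))) (.f (nat_lit 561) (nat_lit 593) (nat_lit 4560) (.f (nat_lit 529) (nat_lit 432) (nat_lit 4528) (.f (nat_lit 559) (nat_lit 591) (nat_lit 5583) (.d (nat_lit 530) (nat_lit 531) (nat_lit 1551) (nat_lit 558) (nat_lit 2574)))))))) (.p (nat_lit 464) (.a (.f (nat_lit 463) (nat_lit 431) (nat_lit 7599) (.f (nat_lit 592) (nat_lit 495) (nat_lit 7631) (.d (nat_lit 591) (nat_lit 559)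 (nat_lit 5583) (nat_lit 623) (nat_lit 5615)))) (.a (.f (nat_lit 561) (nat_lit 593) (nat_lit 4560) (.f (nat_lit 529) (nat_lit 432) (nat_lit 4528) (.f (nat_lit 559) (nat_lit 591) (nat_lit 5583) (.d (nat_lit 530) (nat_lit 531) (nat_lit 1551) (nat_lit 558) (nat_lit 2574))))) (.f (nat_lit 463) (nat_lit 431) (nat_lit 7599) (.f (nat_lit 592) (nat_lit 495) (nat_lit 7631) (.d (nat_lit 593) (nat_lit 561) (nat_lit 4560) (nat_lit 625) (nat_lit 4592))))))))))))))) (.a (.p (nat_lit 560) (.a (.p (nat_lit 464) (.a (.f (nat_lit 433) (nat_lit 465) (nat_lit 6576) (.f (nat_lit 432) (nat_lit 401) (nat_lit 6544) (.d (nat_lit 431) (nat_lit 399) (nat_lit 7567) (nat_lit 463) (nat_lit 7599)))) (.a (.f (nat_lit 465) (nat_lit 433) (nat_lit 6576) (.f (nat_lit 592) (nat_lit 497) (nat_lit 6608) (.d (nat_lit 591) (nat_lit 559) (nat_lit 5583) (nat_lit 623) (nat_lit 5615)))) (.f (nat_lit 559) (nat_lit 591) (nat_lit 5583) (.f (nat_lit 561) (nat_lit 593) (nat_lit 4560)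 (.f (nat_lit 527) (nat_lit 432) (nat_lit 5551) (.d (nat_lit 526) (nat_lit 525) (nat_lit 525) (nat_lit 562) (nat_lit 3598)))))))) (.a (.p (nat_lit 464) (.a (.f (nat_lit 433) (nat_lit 465) (nat_lit 6576) (.f (nat_lit 432) (nat_lit 401) (nat_lit 6544) (.d (nat_lit 431) (nat_lit 399) (nat_lit 7567) (nat_lit 463) (nat_lit 7599)))) (.a (.f (nat_lit 465) (nat_lit 433) (nat_lit 6576) (.f (nat_lit 592) (nat_lit 497) (nat_lit 6608) (.d (nat_lit 591) (nat_lit 559) (nat_lit 5583) (nat_lit 623) (nat_lit 5615)))) (.f (nat_lit 561) (nat_lit 593) (nat_lit 4560) (.f (nat_lit 529) (nat_lit 432) (nat_lit 4528) (.f (nat_lit 559) (nat_lit 591) (nat_lit 5583) (.d (nat_lit 530) (nat_lit 531) (nat_lit 1551) (nat_lit 558) (nat_lit 2574)))))))) (.a s19444 (.a (.p (nat_lit 464) (.a (.f (nat_lit 433) (nat_lit 465) (nat_lit 6576) (.f (nat_lit 432) (nat_lit 401) (nat_lit 6544) (.d (nat_lit 431) (nat_lit 399) (nat_lit 7567) (nat_lit 463) (nat_lit 7599)))) (.a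 (.f (nat_lit 465) (nat_lit 433) (nat_lit 6576) (.f (nat_lit 592) (nat_lit 497) (nat_lit 6608) (.d (nat_lit 593) (nat_lit 561) (nat_lit 4560) (nat_lit 625) (nat_lit 4592)))) (.f (nat_lit 561) (nat_lit 593) (nat_lit 4560) (.f (nat_lit 432) (nat_lit 529) (nat_lit 4528) (.d (nat_lit 431) (nat_lit 399) (nat_lit 7567) (nat_lit 463) (nat_lit 7599))))))) (.a s19461 (.a (.p (nat_lit 464) (.a (.f (nat_lit 433) (nat_lit 465) (nat_lit 6576) (.f (nat_lit 432) (nat_lit 401) (nat_lit 6544) (.d (nat_lit 431) (nat_lit 399) (nat_lit 7567) (nat_lit 463) (nat_lit 7599)))) (.a (.f (nat_lit 465) (nat_lit 433) (nat_lit 6576) (.f (nat_lit 592) (nat_lit 497) (nat_lit 6608) (.d (nat_lit 591) (nat_lit 559) (nat_lit 5583) (nat_lit 623) (nat_lit 5615)))) (.f (nat_lit 559) (nat_lit 591) (nat_lit 5583) (.f (nat_lit 432) (nat_lit 527) (nat_lit 5551) (.d (nat_lit 431) (nat_lit 399) (nat_lit 7567) (nat_lit 463) (nat_lit 7599))))))) (.p (nat_lit 464) (.a (.f (nat_lit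 559) (nat_lit 591) (nat_lit 5583) (.f (nat_lit 561) (nat_lit 593) (nat_lit 4560) (.f (nat_lit 527) (nat_lit 432) (nat_lit 5551) (.d (nat_lit 526) (nat_lit 525) (nat_lit 525) (nat_lit 562) (nat_lit 3598))))) (.a (.f (nat_lit 561) (nat_lit 593) (nat_lit 4560) (.f (nat_lit 529) (nat_lit 432) (nat_lit 4528) (.f (nat_lit 559) (nat_lit 591) (nat_lit 5583) (.d (nat_lit 530) (nat_lit 531) (nat_lit 1551) (nat_lit 558) (nat_lit 2574))))) (.a (.f (nat_lit 561) (nat_lit 593) (nat_lit 4560) (.f (nat_lit 432) (nat_lit 529) (nat_lit 4528) (.d (nat_lit 431) (nat_lit 399) (nat_lit 7567) (nat_lit 463) (nat_lit 7599)))) (.a (.f (nat_lit 593) (nat_lit 561) (nat_lit 4560) (.f (nat_lit 592) (nat_lit 625) (nat_lit 4592) (.d (nat_lit 591) (nat_lit 559) (nat_lit 5583) (nat_lit 623) (nat_lit 5615)))) (.f (nat_lit 559) (nat_lit 591) (nat_lit 5583) (.f (nat_lit 432) (nat_lit 527) (nat_lit 5551) (.d (nat_lit 431) (nat_lit 399) (nat_lit 7567) (nat_lit 463) (nat_lit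 7599)))))))))))))))) (.a s21567 (.a s22753 (.a (.p (nat_lit 560) (.a s19346 (.a (.p (nat_lit 464) (.a (.f (nat_lit 433) (nat_lit 465) (nat_lit 6576) (.f (nat_lit 432) (nat_lit 401) (nat_lit 6544) (.d (nat_lit 431) (nat_lit 399) (nat_lit 7567) (nat_lit 463) (nat_lit 7599)))) (.a (.f (nat_lit 465) (nat_lit 433) (nat_lit 6576) (.f (nat_lit 592) (nat_lit 497) (nat_lit 6608) (.d (nat_lit 593) (nat_lit 561) (nat_lit 4560) (nat_lit 625) (nat_lit 4592)))) (.f (nat_lit 561) (nat_lit 593) (nat_lit 4560) (.f (nat_lit 432) (nat_lit 529) (nat_lit 4528) (.d (nat_lit 431) (nat_lit 399) (nat_lit 7567) (nat_lit 463) (nat_lit 7599))))))) (.a (.p (nat_lit 592) (.a (.f (nat_lit 495) (nat_lit 463) (nat_lit 7631) (.f (nat_lit 624) (nat_lit 527) (nat_lit 7663) (.d (nat_lit 623) (nat_lit 591) (nat_lit 5615) (nat_lit 655) (nat_lit 5647)))) (.a (.f (nat_lit 623) (nat_lit 591) (nat_lit 5615) (.f (nat_lit 624) (nat_lit 655) (nat_lit 5647) (.d (nat_lit 625)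 (nat_lit 593) (nat_lit 4592) (nat_lit 657) (nat_lit 4624)))) (.a (.f (nat_lit 495) (nat_lit 463) (nat_lit 7631) (.f (nat_lit 624) (nat_lit 527) (nat_lit 7663) (.d (nat_lit 625) (nat_lit 593) (nat_lit 4592) (nat_lit 657) (nat_lit 4624)))) (.f (nat_lit 591) (nat_lit 623) (nat_lit 5615) (.p (nat_lit 590) (.a (.f (nat_lit 593) (nat_lit 625) (nat_lit 4592) (.d (nat_lit 561) (nat_lit 562) (nat_lit 2606) (nat_lit 589) (nat_lit 2605))) (.a (.f (nat_lit 593) (nat_lit 625) (nat_lit 4592) (.f (nat_lit 557) (nat_lit 558) (nat_lit 3629) (.f (nat_lit 589) (nat_lit 556) (nat_lit 3628) (.d (nat_lit 621) (nat_lit 620) (nat_lit 1612) (nat_lit 622) (nat_lit 1613))))) (.a (.f (nat_lit 589) (nat_lit 561) (nat_lit 2605) (.f (nat_lit 556) (nat_lit 557) (nat_lit 3628) (.f (nat_lit 588) (nat_lit 555) (nat_lit 3627) (.d (nat_lit 620) (nat_lit 619) (nat_lit 1611) (nat_lit 621) (nat_lit 1612))))) (.f (nat_lit 593) (nat_lit 625) (nat_lit 4592) (.f (nat_lit 497)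 (nat_lit 465) (nat_lit 6608) (.f (nat_lit 495) (nat_lit 463) (nat_lit 7631) (.f (nat_lit 558) (nat_lit 557) (nat_lit 3629) (.f (nat_lit 622) (nat_lit 621) (nat_lit 1613) (.f (nat_lit 526) (nat_lit 527) (nat_lit 6638) (.d (nat_lit 525) (nat_lit 493) (nat_lit 7661) (nat_lit 494) (nat_lit 1517))))))))))))))))) (.a s22771 (.a s22787 (.a (.p (nat_lit 464) (.a (.f (nat_lit 433) (nat_lit 465) (nat_lit 6576) (.f (nat_lit 432) (nat_lit 401) (nat_lit 6544) (.d (nat_lit 431) (nat_lit 399) (nat_lit 7567) (nat_lit 463) (nat_lit 7599)))) (.a (.f (nat_lit 463) (nat_lit 431) (nat_lit 7599) (.f (nat_lit 592) (nat_lit 495) (nat_lit 7631) (.d (nat_lit 593) (nat_lit 561) (nat_lit 4560) (nat_lit 625) (nat_lit 4592)))) (.f (nat_lit 561) (nat_lit 593) (nat_lit 4560) (.f (nat_lit 432) (nat_lit 529) (nat_lit 4528) (.d (nat_lit 433) (nat_lit 401) (nat_lit 6544) (nat_lit 465) (nat_lit 6576))))))) (.a s22804 (.a (.p (nat_lit 464) (.a (.f (nat_lit 463) (nat_lit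 431) (nat_lit 7599) (.f (nat_lit 592) (nat_lit 495) (nat_lit 7631) (.d (nat_lit 465) (nat_lit 433) (nat_lit 6576) (nat_lit 497) (nat_lit 6608)))) (.a (.f (nat_lit 433) (nat_lit 465) (nat_lit 6576) (.f (nat_lit 432) (nat_lit 401) (nat_lit 6544) (.d (nat_lit 431) (nat_lit 399) (nat_lit 7567) (nat_lit 463) (nat_lit 7599)))) (.a (.f (nat_lit 433) (nat_lit 465) (nat_lit 6576) (.f (nat_lit 432) (nat_lit 401) (nat_lit 6544) (.f (nat_lit 399) (nat_lit 431) (nat_lit 7567) (.f (nat_lit 400) (nat_lit 367) (nat_lit 7535) (.d (nat_lit 529) (nat_lit 497) (nat_lit 4496) (nat_lit 561) (nat_lit 4528)))))) (.a (.f (nat_lit 465) (nat_lit 433) (nat_lit 6576) (.f (nat_lit 592) (nat_lit 497) (nat_lit 6608) (.f (nat_lit 495) (nat_lit 463) (nat_lit 7631) (.f (nat_lit 624) (nat_lit 527) (nat_lit 7663) (.d (nat_lit 623) (nat_lit 591) (nat_lit 5615) (nat_lit 655) (nat_lit 5647)))))) (.a (.f (nat_lit 463) (nat_lit 431) (nat_lit 7599) (.f (nat_lit 592) (nat_lit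 495) (nat_lit 7631) (.f (nat_lit 497) (nat_lit 465) (nat_lit 6608) (.f (nat_lit 624) (nat_lit 529) (nat_lit 6640) (.d (nat_lit 623) (nat_lit 591) (nat_lit 5615) (nat_lit 655) (nat_lit 5647)))))) (.f (nat_lit 463) (nat_lit 431) (nat_lit 7599) (.f (nat_lit 592) (nat_lit 495) (nat_lit 7631) (.f (nat_lit 623) (nat_lit 591) (nat_lit 5615) (.f (nat_lit 624) (nat_lit 655) (nat_lit 5647) (.f (nat_lit 529) (nat_lit 497) (nat_lit 6640) (.d (nat_lit 561) (nat_lit 432) (nat_lit 4528) (nat_lit 656) (nat_lit 6672))))))))))))) s22824))))))))) (.a (.p (nat_lit 560) (.a s19317 (.a (.p (nat_lit 464) (.a (.f (nat_lit 433) (nat_lit 465) (nat_lit 6576) (.f (nat_lit 432) (nat_lit 401) (nat_lit 6544) (.d (nat_lit 431) (nat_lit 399) (nat_lit 7567) (nat_lit 463) (nat_lit 7599)))) (.a (.f (nat_lit 465) (nat_lit 433) (nat_lit 6576) (.f (nat_lit 592) (nat_lit 497) (nat_lit 6608) (.d (nat_lit 591) (nat_lit 559) (nat_lit 5583) (nat_lit 623) (nat_lit 5615))))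 (.f (nat_lit 561) (nat_lit 593) (nat_lit 4560) (.f (nat_lit 529) (nat_lit 432) (nat_lit 4528) (.f (nat_lit 559) (nat_lit 591) (nat_lit 5583) (.d (nat_lit 530) (nat_lit 531) (nat_lit 1551) (nat_lit 558) (nat_lit 2574)))))))) (.a s19339 (.a s19346 (.a s22771 (.p (nat_lit 464) (.a (.f (nat_lit 465) (nat_lit 433) (nat_lit 6576) (.f (nat_lit 592) (nat_lit 497) (nat_lit 6608) (.d (nat_lit 591) (nat_lit 559) (nat_lit 5583) (nat_lit 623) (nat_lit 5615)))) (.a (.f (nat_lit 465) (nat_lit 433) (nat_lit 6576) (.f (nat_lit 592) (nat_lit 497) (nat_lit 6608) (.d (nat_lit 593) (nat_lit 561) (nat_lit 4560) (nat_lit 625) (nat_lit 4592)))) (.f (nat_lit 561) (nat_lit 593) (nat_lit 4560) (.f (nat_lit 529) (nat_lit 432) (nat_lit 4528) (.f (nat_lit 559) (nat_lit 591) (nat_lit 5583) (.d (nat_lit 530) (nat_lit 531) (nat_lit 1551) (nat_lit 558) (nat_lit 2574)))))))))))))) (.a s23039 (.a (.p (nat_lit 560) (.a s19317 (.a (.p (nat_lit 464) (.a (.f (nat_lit 433)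 (nat_lit 465) (nat_lit 6576) (.f (nat_lit 432) (nat_lit 401) (nat_lit 6544) (.d (nat_lit 431) (nat_lit 399) (nat_lit 7567) (nat_lit 463) (nat_lit 7599)))) (.a (.f (nat_lit 465) (nat_lit 433) (nat_lit 6576) (.f (nat_lit 592) (nat_lit 497) (nat_lit 6608) (.d (nat_lit 591) (nat_lit 559) (nat_lit 5583) (nat_lit 623) (nat_lit 5615)))) (.f (nat_lit 559) (nat_lit 591) (nat_lit 5583) (.f (nat_lit 432) (nat_lit 527) (nat_lit 5551) (.d (nat_lit 431) (nat_lit 399) (nat_lit 7567) (nat_lit 463) (nat_lit 7599))))))) (.a (.p (nat_lit 592) (.a (.f (nat_lit 495) (nat_lit 463) (nat_lit 7631) (.f (nat_lit 624) (nat_lit 527) (nat_lit 7663) (.d (nat_lit 623) (nat_lit 591) (nat_lit 5615) (nat_lit 655) (nat_lit 5647)))) (.a (.f (nat_lit 623) (nat_lit 591) (nat_lit 5615) (.f (nat_lit 624) (nat_lit 655) (nat_lit 5647) (.d (nat_lit 625) (nat_lit 593) (nat_lit 4592) (nat_lit 657) (nat_lit 4624)))) (.a (.f (nat_lit 495) (nat_lit 463) (nat_lit 7631) (.f (nat_lit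 624) (nat_lit 527) (nat_lit 7663) (.d (nat_lit 625) (nat_lit 593) (nat_lit 4592) (nat_lit 657) (nat_lit 4624)))) (.p (nat_lit 558) (.a (.f (nat_lit 593) (nat_lit 625) (nat_lit 4592) (.f (nat_lit 559) (nat_lit 557) (nat_lit 557) (.d (nat_lit 591) (nat_lit 594) (nat_lit 3630) (nat_lit 623) (nat_lit 5615)))) (.a (.f (nat_lit 495) (nat_lit 463) (nat_lit 7631) (.f (nat_lit 497) (nat_lit 465) (nat_lit 6608) (.f (nat_lit 591) (nat_lit 623) (nat_lit 5615) (.f (nat_lit 593) (nat_lit 625) (nat_lit 4592) (.f (nat_lit 590) (nat_lit 557) (nat_lit 3629) (.f (nat_lit 622) (nat_lit 621) (nat_lit 1613) (.f (nat_lit 526) (nat_lit 527) (nat_lit 6638) (.d (nat_lit 525) (nat_lit 493) (nat_lit 7661) (nat_lit 494) (nat_lit 1517))))))))) (.a (.p (nat_lit 526) (.a (.f (nat_lit 495) (nat_lit 463) (nat_lit 7631) (.f (nat_lit 497) (nat_lit 465) (nat_lit 6608) (.d (nat_lit 525) (nat_lit 494) (nat_lit 1517) (nat_lit 527) (nat_lit 2541)))) (.a (.f (nat_lit 495)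 (nat_lit 463) (nat_lit 7631) (.f (nat_lit 497) (nat_lit 465) (nat_lit 6608) (.f (nat_lit 494) (nat_lit 525) (nat_lit 1517) (.d (nat_lit 529) (nat_lit 493) (nat_lit 493) (nat_lit 530) (nat_lit 494))))) (.a (.f (nat_lit 497) (nat_lit 465) (nat_lit 6608) (.f (nat_lit 527) (nat_lit 525) (nat_lit 2541) (.f (nat_lit 557) (nat_lit 529) (nat_lit 1549) (.d (nat_lit 556) (nat_lit 555) (nat_lit 2571) (nat_lit 559) (nat_lit 2572))))) (.a (.f (nat_lit 495) (nat_lit 463) (nat_lit 7631) (.f (nat_lit 497) (nat_lit 465) (nat_lit 6608) (.f (nat_lit 593) (nat_lit 625) (nat_lit 4592) (.f (nat_lit 557) (nat_lit 559) (nat_lit 557) (.f (nat_lit 529) (nat_lit 527) (nat_lit 1549) (.d (nat_lit 494) (nat_lit 493) (nat_lit 493) (nat_lit 530) (nat_lit 494))))))) (.f (nat_lit 495) (nat_lit 463) (nat_lit 7631) (.f (nat_lit 593) (nat_lit 625) (nat_lit 4592) (.f (nat_lit 557) (nat_lit 559) (nat_lit 557) (.f (nat_lit 527) (nat_lit 529) (nat_lit 1549) (.d (nat_lit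 525) (nat_lit 524) (nat_lit 2540) (nat_lit 556) (nat_lit 1548))))))))))) (.a (.p (nat_lit 529) (.a (.f (nat_lit 497) (nat_lit 465) (nat_lit 6608) (.f (nat_lit 495) (nat_lit 463) (nat_lit 7631) (.d (nat_lit 494) (nat_lit 493) (nat_lit 493) (nat_lit 530) (nat_lit 494)))) (.a (.f (nat_lit 559) (nat_lit 557) (nat_lit 2573) (.d (nat_lit 530) (nat_lit 527) (nat_lit 1550) (nat_lit 531) (nat_lit 1551))) (.f (nat_lit 559) (nat_lit 557) (nat_lit 2573) (.f (nat_lit 591) (nat_lit 623) (nat_lit 5615) (.f (nat_lit 495) (nat_lit 463) (nat_lit 7631) (.f (nat_lit 497) (nat_lit 465) (nat_lit 6608) (.f (nat_lit 494) (nat_lit 493) (nat_lit 493) (.d (nat_lit 462) (nat_lit 461) (nat_lit 3533) (nat_lit 527) (nat_lit 7630)))))))))) (.f (nat_lit 591) (nat_lit 623) (nat_lit 5615) (.f (nat_lit 593) (nat_lit 625) (nat_lit 4592) (.f (nat_lit 594) (nat_lit 559) (nat_lit 3630) (.f (nat_lit 563) (nat_lit 562) (nat_lit 2607) (.f (nat_lit 595) (nat_lit 564) (nat_lit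 2608) (.d (nat_lit 627) (nat_lit 626) (nat_lit 591) (nat_lit 628) (nat_lit 592)))))))))))))))) (.a s22787 (.a (.p (nat_lit 464) (.a (.f (nat_lit 433) (nat_lit 465) (nat_lit 6576) (.f (nat_lit 432) (nat_lit 401) (nat_lit 6544) (.d (nat_lit 431) (nat_lit 399) (nat_lit 7567) (nat_lit 463) (nat_lit 7599)))) (.a s19367 (.a (.f (nat_lit 559) (nat_lit 591) (nat_lit 5583) (.f (nat_lit 432) (nat_lit 527) (nat_lit 5551) (.d (nat_lit 433) (nat_lit 401) (nat_lit 6544) (nat_lit 465) (nat_lit 6576)))) (.f (nat_lit 559) (nat_lit 591) (nat_lit 5583) (.f (nat_lit 432) (nat_lit 527) (nat_lit 5551) (.d (nat_lit 431) (nat_lit 399) (nat_lit 7567) (nat_lit 463) (nat_lit 7599)))))))) (.a (.p (nat_lit 464) (.a (.f (nat_lit 433) (nat_lit 465) (nat_lit 6576) (.f (nat_lit 432) (nat_lit 401) (nat_lit 6544) (.d (nat_lit 431) (nat_lit 399) (nat_lit 7567) (nat_lit 463) (nat_lit 7599)))) (.a (.f (nat_lit 463) (nat_lit 431) (nat_lit 7599) (.f (nat_lit 592) (nat_lit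 495) (nat_lit 7631) (.d (nat_lit 591) (nat_lit 559) (nat_lit 5583) (nat_lit 623) (nat_lit 5615)))) (.f (nat_lit 559) (nat_lit 591) (nat_lit 5583) (.f (nat_lit 432) (nat_lit 527) (nat_lit 5551) (.d (nat_lit 433) (nat_lit 401) (nat_lit 6544) (nat_lit 465) (nat_lit 6576))))))) (.a (.p (nat_lit 464) (.a (.f (nat_lit 463) (nat_lit 431) (nat_lit 7599) (.f (nat_lit 592) (nat_lit 495) (nat_lit 7631) (.d (nat_lit 465) (nat_lit 433) (nat_lit 6576) (nat_lit 497) (nat_lit 6608)))) (.a (.f (nat_lit 433) (nat_lit 465) (nat_lit 6576) (.f (nat_lit 432) (nat_lit 401) (nat_lit 6544) (.d (nat_lit 431) (nat_lit 399) (nat_lit 7567) (nat_lit 463) (nat_lit 7599)))) (.a (.f (nat_lit 465) (nat_lit 433) (nat_lit 6576) (.f (nat_lit 592) (nat_lit 497) (nat_lit 6608) (.f (nat_lit 625) (nat_lit 593) (nat_lit 4592) (.f (nat_lit 624) (nat_lit 657) (nat_lit 4624) (.f (nat_lit 527) (nat_lit 495) (nat_lit 7663) (.d (nat_lit 559) (nat_lit 432) (nat_lit 5551) (nat_lit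 656) (nat_lit 7695))))))) (.a (.f (nat_lit 463) (nat_lit 431) (nat_lit 7599) (.f (nat_lit 592) (nat_lit 495) (nat_lit 7631) (.f (nat_lit 497) (nat_lit 465) (nat_lit 6608) (.f (nat_lit 624) (nat_lit 529) (nat_lit 6640) (.d (nat_lit 625) (nat_lit 593) (nat_lit 4592) (nat_lit 657) (nat_lit 4624)))))) (.f (nat_lit 431) (nat_lit 463) (nat_lit 7599) (.f (nat_lit 432) (nat_lit 399) (nat_lit 7567) (.f (nat_lit 401) (nat_lit 433) (nat_lit 6544) (.f (nat_lit 400) (nat_lit 369) (nat_lit 6512) (.d (nat_lit 527) (nat_lit 495) (nat_lit 5519) (nat_lit 559) (nat_lit 5551))))))))))) (.a s23107 (.p (nat_lit 464) (.a (.f (nat_lit 463) (nat_lit 431) (nat_lit 7599) (.f (nat_lit 592) (nat_lit 495) (nat_lit 7631) (.d (nat_lit 591) (nat_lit 559) (nat_lit 5583) (nat_lit 623) (nat_lit 5615)))) (.a (.f (nat_lit 559) (nat_lit 591) (nat_lit 5583) (.f (nat_lit 432) (nat_lit 527) (nat_lit 5551) (.d (nat_lit 431) (nat_lit 399) (nat_lit 7567) (nat_lit 463) (nat_lit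 7599)))) (.a (.f (nat_lit 463) (nat_lit 431) (nat_lit 7599) (.f (nat_lit 592) (nat_lit 495) (nat_lit 7631) (.f (nat_lit 623) (nat_lit 591) (nat_lit 5615) (.f (nat_lit 624) (nat_lit 655) (nat_lit 5647) (.d (nat_lit 625) (nat_lit 593) (nat_lit 4592) (nat_lit 657) (nat_lit 4624)))))) (.a (.f (nat_lit 431) (nat_lit 463) (nat_lit 7599) (.f (nat_lit 432) (nat_lit 399) (nat_lit 7567) (.f (nat_lit 401) (nat_lit 433) (nat_lit 6544) (.f (nat_lit 400) (nat_lit 369) (nat_lit 6512) (.d (nat_lit 527) (nat_lit 495) (nat_lit 5519) (nat_lit 559) (nat_lit 5551)))))) (.a (.f (nat_lit 559) (nat_lit 591) (nat_lit 5583) (.f (nat_lit 432) (nat_lit 527) (nat_lit 5551) (.f (nat_lit 399) (nat_lit 431) (nat_lit 7567) (.f (nat_lit 400) (nat_lit 367) (nat_lit 7535) (.d (nat_lit 401) (nat_lit 369) (nat_lit 6512) (nat_lit 433) (nat_lit 6544)))))) (.f (nat_lit 591) (nat_lit 559) (nat_lit 5583) (.f (nat_lit 592) (nat_lit 623) (nat_lit 5615) (.f (nat_lit 625) (nat_lit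 593) (nat_lit 4592) (.f (nat_lit 624) (nat_lit 657) (nat_lit 4624) (.d (nat_lit 495) (nat_lit 463) (nat_lit 7631) (nat_lit 527) (nat_lit 7663))))))))))))))))))))) (.a (.p (nat_lit 560) (.a s19317 (.a (.p (nat_lit 464) (.a (.f (nat_lit 433) (nat_lit 465) (nat_lit 6576) (.f (nat_lit 432) (nat_lit 401) (nat_lit 6544) (.d (nat_lit 431) (nat_lit 399) (nat_lit 7567) (nat_lit 463) (nat_lit 7599)))) (.a (.f (nat_lit 465) (nat_lit 433) (nat_lit 6576) (.f (nat_lit 592) (nat_lit 497) (nat_lit 6608) (.d (nat_lit 591) (nat_lit 559) (nat_lit 5583) (nat_lit 623) (nat_lit 5615)))) (.f (nat_lit 559) (nat_lit 591) (nat_lit 5583) (.f (nat_lit 561) (nat_lit 593) (nat_lit 4560) (.f (nat_lit 527) (nat_lit 432) (nat_lit 5551) (.d (nat_lit 526) (nat_lit 525) (nat_lit 525) (nat_lit 562) (nat_lit 3598)))))))) (.a (.p (nat_lit 592) (.a (.f (nat_lit 495) (nat_lit 463) (nat_lit 7631) (.f (nat_lit 624) (nat_lit 527) (nat_lit 7663) (.d (nat_lit 623) (nat_lit 591)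 (nat_lit 5615) (nat_lit 655) (nat_lit 5647)))) (.a (.f (nat_lit 623) (nat_lit 591) (nat_lit 5615) (.f (nat_lit 624) (nat_lit 655) (nat_lit 5647) (.d (nat_lit 625) (nat_lit 593) (nat_lit 4592) (nat_lit 657) (nat_lit 4624)))) (.a (.f (nat_lit 495) (nat_lit 463) (nat_lit 7631) (.f (nat_lit 624) (nat_lit 527) (nat_lit 7663) (.d (nat_lit 625) (nat_lit 593) (nat_lit 4592) (nat_lit 657) (nat_lit 4624)))) (.p (nat_lit 529) (.a (.f (nat_lit 495) (nat_lit 463) (nat_lit 7631) (.f (nat_lit 497) (nat_lit 465) (nat_lit 6608) (.d (nat_lit 494) (nat_lit 493) (nat_lit 493) (nat_lit 530) (nat_lit 494)))) (.a (.p (nat_lit 561) (.a (.f (nat_lit 593) (nat_lit 625) (nat_lit 4592) (.f (nat_lit 591) (nat_lit 623) (nat_lit 5615) (.d (nat_lit 562) (nat_lit 563) (nat_lit 1583) (nat_lit 590) (nat_lit 2606)))) (.a (.f (nat_lit 497) (nat_lit 465) (nat_lit 6608) (.f (nat_lit 593) (nat_lit 625) (nat_lit 4592) (.f (nat_lit 594) (nat_lit 626) (nat_lit 4593) (.d (nat_lit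 595) (nat_lit 559) (nat_lit 3631) (nat_lit 596) (nat_lit 3632))))) (.f (nat_lit 591) (nat_lit 623) (nat_lit 5615) (.f (nat_lit 562) (nat_lit 563) (nat_lit 1583) (.d (nat_lit 590) (nat_lit 559) (nat_lit 1582) (nat_lit 589) (nat_lit 2605))))))) (.f (nat_lit 495) (nat_lit 463) (nat_lit 7631) (.f (nat_lit 530) (nat_lit 531) (nat_lit 3567) (.d (nat_lit 494) (nat_lit 493) (nat_lit 493) (nat_lit 527) (nat_lit 3566))))))))))) (.a s19346 (.a s19368 (.a (.p (nat_lit 464) (.a (.f (nat_lit 433) (nat_lit 465) (nat_lit 6576) (.f (nat_lit 432) (nat_lit 401) (nat_lit 6544) (.d (nat_lit 431) (nat_lit 399) (nat_lit 7567) (nat_lit 463) (nat_lit 7599)))) (.a (.f (nat_lit 463) (nat_lit 431) (nat_lit 7599) (.f (nat_lit 592) (nat_lit 495) (nat_lit 7631) (.d (nat_lit 593) (nat_lit 561) (nat_lit 4560) (nat_lit 625) (nat_lit 4592)))) (.f (nat_lit 561) (nat_lit 593) (nat_lit 4560) (.f (nat_lit 432) (nat_lit 529) (nat_lit 4528) (.d (nat_lit 433) (nat_lit 401)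 (nat_lit 6544) (nat_lit 465) (nat_lit 6576))))))) (.a (.p (nat_lit 464) (.a (.f (nat_lit 465) (nat_lit 433) (nat_lit 6576) (.f (nat_lit 592) (nat_lit 497) (nat_lit 6608) (.d (nat_lit 591) (nat_lit 559) (nat_lit 5583) (nat_lit 623) (nat_lit 5615)))) (.a (.f (nat_lit 465) (nat_lit 433) (nat_lit 6576) (.f (nat_lit 592) (nat_lit 497) (nat_lit 6608) (.d (nat_lit 593) (nat_lit 561) (nat_lit 4560) (nat_lit 625) (nat_lit 4592)))) (.f (nat_lit 559) (nat_lit 591) (nat_lit 5583) (.f (nat_lit 561) (nat_lit 593) (nat_lit 4560) (.f (nat_lit 527) (nat_lit 432) (nat_lit 5551) (.d (nat_lit 526) (nat_lit 525) (nat_lit 525) (nat_lit 562) (nat_lit 3598)))))))) s22824)))))))) (.a (.p (nat_lit 560) (.a s19339 (.a (.p (nat_lit 464) (.a (.f (nat_lit 433) (nat_lit 465) (nat_lit 6576) (.f (nat_lit 432) (nat_lit 401) (nat_lit 6544) (.d (nat_lit 431) (nat_lit 399) (nat_lit 7567) (nat_lit 463) (nat_lit 7599)))) (.a (.f (nat_lit 463) (nat_lit 431) (nat_lit 7599)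 (.f (nat_lit 592) (nat_lit 495) (nat_lit 7631) (.d (nat_lit 591) (nat_lit 559) (nat_lit 5583) (nat_lit 623) (nat_lit 5615)))) (.f (nat_lit 561) (nat_lit 593) (nat_lit 4560) (.f (nat_lit 529) (nat_lit 432) (nat_lit 4528) (.f (nat_lit 559) (nat_lit 591) (nat_lit 5583) (.d (nat_lit 530) (nat_lit 531) (nat_lit 1551) (nat_lit 558) (nat_lit 2574)))))))) (.a s19461 (.a (.p (nat_lit 464) (.a (.f (nat_lit 433) (nat_lit 465) (nat_lit 6576) (.f (nat_lit 432) (nat_lit 401) (nat_lit 6544) (.d (nat_lit 431) (nat_lit 399) (nat_lit 7567) (nat_lit 463) (nat_lit 7599)))) (.a (.f (nat_lit 463) (nat_lit 431) (nat_lit 7599) (.f (nat_lit 592) (nat_lit 495) (nat_lit 7631) (.d (nat_lit 593) (nat_lit 561) (nat_lit 4560) (nat_lit 625) (nat_lit 4592)))) (.f (nat_lit 561) (nat_lit 593) (nat_lit 4560) (.f (nat_lit 432) (nat_lit 529) (nat_lit 4528) (.d (nat_lit 433) (nat_lit 401) (nat_lit 6544) (nat_lit 465) (nat_lit 6576))))))) (.a (.p (nat_lit 464) (.a (.f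 (nat_lit 433) (nat_lit 465) (nat_lit 6576) (.f (nat_lit 432) (nat_lit 401) (nat_lit 6544) (.d (nat_lit 431) (nat_lit 399) (nat_lit 7567) (nat_lit 463) (nat_lit 7599)))) (.a (.f (nat_lit 463) (nat_lit 431) (nat_lit 7599) (.f (nat_lit 592) (nat_lit 495) (nat_lit 7631) (.d (nat_lit 591) (nat_lit 559) (nat_lit 5583) (nat_lit 623) (nat_lit 5615)))) (.f (nat_lit 559) (nat_lit 591) (nat_lit 5583) (.f (nat_lit 432) (nat_lit 527) (nat_lit 5551) (.d (nat_lit 433) (nat_lit 401) (nat_lit 6544) (nat_lit 465) (nat_lit 6576))))))) (.p (nat_lit 464) (.a (.f (nat_lit 559) (nat_lit 591) (nat_lit 5583) (.f (nat_lit 561) (nat_lit 593) (nat_lit 4560) (.f (nat_lit 527) (nat_lit 432) (nat_lit 5551) (.d (nat_lit 526) (nat_lit 525) (nat_lit 525) (nat_lit 562) (nat_lit 3598))))) (.a (.f (nat_lit 561) (nat_lit 593) (nat_lit 4560) (.f (nat_lit 529) (nat_lit 432) (nat_lit 4528) (.f (nat_lit 559) (nat_lit 591) (nat_lit 5583) (.d (nat_lit 530) (nat_lit 531) (nat_lit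 1551) (nat_lit 558) (nat_lit 2574))))) (.a (.f (nat_lit 561) (nat_lit 593) (nat_lit 4560) (.f (nat_lit 432) (nat_lit 529) (nat_lit 4528) (.d (nat_lit 433) (nat_lit 401) (nat_lit 6544) (nat_lit 465) (nat_lit 6576)))) (.a (.f (nat_lit 593) (nat_lit 561) (nat_lit 4560) (.f (nat_lit 592) (nat_lit 625) (nat_lit 4592) (.d (nat_lit 591) (nat_lit 559) (nat_lit 5583) (nat_lit 623) (nat_lit 5615)))) (.f (nat_lit 559) (nat_lit 591) (nat_lit 5583) (.f (nat_lit 432) (nat_lit 527) (nat_lit 5551) (.d (nat_lit 433) (nat_lit 401) (nat_lit 6544) (nat_lit 465) (nat_lit 6576))))))))))))))) (.a s24019 (.a (.p (nat_lit 560) (.a (.p (nat_lit 464) (.a (.f (nat_lit 465) (nat_lit 433) (nat_lit 6576) (.f (nat_lit 592) (nat_lit 497) (nat_lit 6608) (.d (nat_lit 591) (nat_lit 559) (nat_lit 5583) (nat_lit 623) (nat_lit 5615)))) (.a (.f (nat_lit 465) (nat_lit 433) (nat_lit 6576) (.f (nat_lit 592) (nat_lit 497) (nat_lit 6608) (.d (nat_lit 593) (nat_lit 561) (nat_lit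 4560) (nat_lit 625) (nat_lit 4592)))) (.f (nat_lit 559) (nat_lit 591) (nat_lit 5583) (.f (nat_lit 561) (nat_lit 593) (nat_lit 4560) (.f (nat_lit 527) (nat_lit 432) (nat_lit 5551) (.d (nat_lit 526) (nat_lit 525) (nat_lit 525) (nat_lit 562) (nat_lit 3598)))))))) (.a (.p (nat_lit 464) (.a (.f (nat_lit 465) (nat_lit 433) (nat_lit 6576) (.f (nat_lit 592) (nat_lit 497) (nat_lit 6608) (.d (nat_lit 591) (nat_lit 559) (nat_lit 5583) (nat_lit 623) (nat_lit 5615)))) (.a (.f (nat_lit 465) (nat_lit 433) (nat_lit 6576) (.f (nat_lit 592) (nat_lit 497) (nat_lit 6608) (.d (nat_lit 593) (nat_lit 561) (nat_lit 4560) (nat_lit 625) (nat_lit 4592)))) (.f (nat_lit 561) (nat_lit 593) (nat_lit 4560) (.f (nat_lit 529) (nat_lit 432) (nat_lit 4528) (.f (nat_lit 559) (nat_lit 591) (nat_lit 5583) (.d (nat_lit 530) (nat_lit 531) (nat_lit 1551) (nat_lit 558) (nat_lit 2574)))))))) (.a s19444 (.a s22804 (.a (.p (nat_lit 464) (.a (.f (nat_lit 559) (nat_lit 591) (nat_lit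 5583) (.f (nat_lit 561) (nat_lit 593) (nat_lit 4560) (.f (nat_lit 527) (nat_lit 432) (nat_lit 5551) (.d (nat_lit 526) (nat_lit 525) (nat_lit 525) (nat_lit 562) (nat_lit 3598))))) (.a (.f (nat_lit 561) (nat_lit 593) (nat_lit 4560) (.f (nat_lit 529) (nat_lit 432) (nat_lit 4528) (.f (nat_lit 559) (nat_lit 591) (nat_lit 5583) (.d (nat_lit 530) (nat_lit 531) (nat_lit 1551) (nat_lit 558) (nat_lit 2574))))) (.a (.f (nat_lit 561) (nat_lit 593) (nat_lit 4560) (.f (nat_lit 432) (nat_lit 529) (nat_lit 4528) (.d (nat_lit 433) (nat_lit 401) (nat_lit 6544) (nat_lit 465) (nat_lit 6576)))) (.a s19460 (.f (nat_lit 559) (nat_lit 591) (nat_lit 5583) (.f (nat_lit 432) (nat_lit 527) (nat_lit 5551) (.d (nat_lit 433) (nat_lit 401) (nat_lit 6544) (nat_lit 465) (nat_lit 6576))))))))) (.a s23107 (.a (.p (nat_lit 464) (.a (.f (nat_lit 465) (nat_lit 433) (nat_lit 6576) (.f (nat_lit 592) (nat_lit 497) (nat_lit 6608) (.d (nat_lit 593) (nat_lit 561) (nat_lit 4560)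 (nat_lit 625) (nat_lit 4592)))) (.a (.f (nat_lit 561) (nat_lit 593) (nat_lit 4560) (.f (nat_lit 432) (nat_lit 529) (nat_lit 4528) (.d (nat_lit 433) (nat_lit 401) (nat_lit 6544) (nat_lit 465) (nat_lit 6576)))) (.a (.f (nat_lit 465) (nat_lit 433) (nat_lit 6576) (.f (nat_lit 592) (nat_lit 497) (nat_lit 6608) (.f (nat_lit 625) (nat_lit 593) (nat_lit 4592) (.f (nat_lit 624) (nat_lit 657) (nat_lit 4624) (.f (nat_lit 527) (nat_lit 495) (nat_lit 7663) (.d (nat_lit 559) (nat_lit 432) (nat_lit 5551) (nat_lit 656) (nat_lit 7695))))))) (.a (.f (nat_lit 433) (nat_lit 465) (nat_lit 6576) (.f (nat_lit 432) (nat_lit 401) (nat_lit 6544) (.f (nat_lit 399) (nat_lit 431) (nat_lit 7567) (.f (nat_lit 400) (nat_lit 367) (nat_lit 7535) (.d (nat_lit 529) (nat_lit 497) (nat_lit 4496) (nat_lit 561) (nat_lit 4528)))))) (.f (nat_lit 561) (nat_lit 593) (nat_lit 4560) (.f (nat_lit 432) (nat_lit 529) (nat_lit 4528) (.f (nat_lit 527) (nat_lit 559) (nat_lit 5551)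 (.f (nat_lit 400) (nat_lit 495) (nat_lit 5519) (.d (nat_lit 399) (nat_lit 367) (nat_lit 7535) (nat_lit 431) (nat_lit 7567))))))))))) (.a (.p (nat_lit 464) (.a (.f (nat_lit 465) (nat_lit 433) (nat_lit 6576) (.f (nat_lit 592) (nat_lit 497) (nat_lit 6608) (.d (nat_lit 591) (nat_lit 559) (nat_lit 5583) (nat_lit 623) (nat_lit 5615)))) (.a (.f (nat_lit 433) (nat_lit 465) (nat_lit 6576) (.f (nat_lit 432) (nat_lit 401) (nat_lit 6544) (.f (nat_lit 399) (nat_lit 431) (nat_lit 7567) (.f (nat_lit 400) (nat_lit 367) (nat_lit 7535) (.d (nat_lit 529) (nat_lit 497) (nat_lit 4496) (nat_lit 561) (nat_lit 4528)))))) (.a (.f (nat_lit 559) (nat_lit 591) (nat_lit 5583) (.f (nat_lit 432) (nat_lit 527) (nat_lit 5551) (.d (nat_lit 433) (nat_lit 401) (nat_lit 6544) (nat_lit 465) (nat_lit 6576)))) (.a (.f (nat_lit 559) (nat_lit 591) (nat_lit 5583) (.f (nat_lit 432) (nat_lit 527) (nat_lit 5551) (.f (nat_lit 399) (nat_lit 431) (nat_lit 7567) (.f (nat_lit 400)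 (nat_lit 367) (nat_lit 7535) (.f (nat_lit 369) (nat_lit 401) (nat_lit 6512) (.f (nat_lit 368) (nat_lit 337) (nat_lit 6480) (.d (nat_lit 497) (nat_lit 465) (nat_lit 4464) (nat_lit 529) (nat_lit 4496)))))))) (.f (nat_lit 559) (nat_lit 591) (nat_lit 5583) (.f (nat_lit 432) (nat_lit 527) (nat_lit 5551) (.f (nat_lit 399) (nat_lit 431) (nat_lit 7567) (.f (nat_lit 400) (nat_lit 367) (nat_lit 7535) (.d (nat_lit 401) (nat_lit 369) (nat_lit 6512) (nat_lit 433) (nat_lit 6544))))))))))) (.p (nat_lit 464) (.a (.f (nat_lit 559) (nat_lit 591) (nat_lit 5583) (.f (nat_lit 561) (nat_lit 593) (nat_lit 4560) (.f (nat_lit 527) (nat_lit 432) (nat_lit 5551) (.d (nat_lit 526) (nat_lit 525) (nat_lit 525) (nat_lit 562) (nat_lit 3598))))) (.a (.f (nat_lit 561) (nat_lit 593) (nat_lit 4560) (.f (nat_lit 529) (nat_lit 432) (nat_lit 4528) (.f (nat_lit 559) (nat_lit 591) (nat_lit 5583) (.d (nat_lit 530) (nat_lit 531) (nat_lit 1551) (nat_lit 558) (nat_lit 2574)))))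 (.a (.f (nat_lit 561) (nat_lit 593) (nat_lit 4560) (.f (nat_lit 432) (nat_lit 529) (nat_lit 4528) (.f (nat_lit 399) (nat_lit 431) (nat_lit 7567) (.f (nat_lit 400) (nat_lit 367) (nat_lit 7535) (.d (nat_lit 401) (nat_lit 369) (nat_lit 6512) (nat_lit 433) (nat_lit 6544)))))) (.a (.f (nat_lit 593) (nat_lit 561) (nat_lit 4560) (.f (nat_lit 592) (nat_lit 625) (nat_lit 4592) (.d (nat_lit 591) (nat_lit 559) (nat_lit 5583) (nat_lit 623) (nat_lit 5615)))) (.f (nat_lit 559) (nat_lit 591) (nat_lit 5583) (.f (nat_lit 432) (nat_lit 527) (nat_lit 5551) (.f (nat_lit 399) (nat_lit 431) (nat_lit 7567) (.f (nat_lit 400) (nat_lit 367) (nat_lit 7535) (.d (nat_lit 401) (nat_lit 369) (nat_lit 6512) (nat_lit 433) (nat_lit 6544)))))))))))))))))))) (.a s24179 (.a s24888 (.a s25287 (.a (.p (nat_lit 526) (.a s19025 (.a (.p (nat_lit 464) (.a s19232 (.a (.p (nat_lit 560) (.a (.f (nat_lit 559) (nat_lit 591) (nat_lit 5583) (.f (nat_lit 527) (nat_lit 432) (nat_lit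 5551) (.d (nat_lit 525) (nat_lit 524) (nat_lit 524) (nat_lit 561) (nat_lit 525)))) (.a (.f (nat_lit 433) (nat_lit 465) (nat_lit 6576) (.f (nat_lit 432) (nat_lit 401) (nat_lit 6544) (.d (nat_lit 431) (nat_lit 399) (nat_lit 7567) (nat_lit 463) (nat_lit 7599)))) (.f (nat_lit 561) (nat_lit 593) (nat_lit 4560) (.f (nat_lit 527) (nat_lit 525) (nat_lit 525) (.d (nat_lit 559) (nat_lit 562) (nat_lit 3598) (nat_lit 591) (nat_lit 5583))))))) (.a (.p (nat_lit 527) (.a (.f (nat_lit 432) (nat_lit 559) (nat_lit 5551) (.f (nat_lit 399) (nat_lit 431) (nat_lit 7567) (.f (nat_lit 400) (nat_lit 367) (nat_lit 7535) (.d (nat_lit 401) (nat_lit 369) (nat_lit 6512) (nat_lit 433) (nat_lit 6544))))) (.f (nat_lit 525) (nat_lit 497) (nat_lit 2541) (.f (nat_lit 495) (nat_lit 524) (nat_lit 2540) (.f (nat_lit 493) (nat_lit 492) (nat_lit 3564) (.f (nat_lit 494) (nat_lit 465) (nat_lit 2509) (.f (nat_lit 461) (nat_lit 460) (nat_lit 3532) (.d (nat_lit 429) (nat_lit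 397) (nat_lit 4493) (nat_lit 558) (nat_lit 4525))))))))) (.a (.p (nat_lit 560) (.a (.f (nat_lit 465) (nat_lit 433) (nat_lit 6576) (.f (nat_lit 592) (nat_lit 497) (nat_lit 6608) (.d (nat_lit 463) (nat_lit 431) (nat_lit 7599) (nat_lit 495) (nat_lit 7631)))) (.f (nat_lit 561) (nat_lit 593) (nat_lit 4560) (.f (nat_lit 527) (nat_lit 525) (nat_lit 525) (.d (nat_lit 559) (nat_lit 562) (nat_lit 3598) (nat_lit 591) (nat_lit 5583)))))) (.a (.p (nat_lit 560) (.a (.f (nat_lit 559) (nat_lit 591) (nat_lit 5583) (.f (nat_lit 527) (nat_lit 432) (nat_lit 5551) (.d (nat_lit 525) (nat_lit 497) (nat_lit 2541) (nat_lit 524) (nat_lit 524)))) (.a (.f (nat_lit 465) (nat_lit 433) (nat_lit 6576) (.f (nat_lit 592) (nat_lit 497) (nat_lit 6608) (.d (nat_lit 593) (nat_lit 561) (nat_lit 4560) (nat_lit 625) (nat_lit 4592)))) (.f (nat_lit 559) (nat_lit 591) (nat_lit 5583) (.f (nat_lit 527) (nat_lit 432) (nat_lit 5551) (.d (nat_lit 525) (nat_lit 524) (nat_lit 524)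 (nat_lit 561) (nat_lit 525))))))) (.p (nat_lit 560) (.a (.f (nat_lit 559) (nat_lit 591) (nat_lit 5583) (.f (nat_lit 527) (nat_lit 432) (nat_lit 5551) (.d (nat_lit 525) (nat_lit 497) (nat_lit 2541) (nat_lit 524) (nat_lit 524)))) (.f (nat_lit 463) (nat_lit 431) (nat_lit 7599) (.f (nat_lit 592) (nat_lit 495) (nat_lit 7631) (.d (nat_lit 593) (nat_lit 561) (nat_lit 4560) (nat_lit 625) (nat_lit 4592)))))))))))) (.a s25444 (.a s24148 (.a s24885 (.a (.p (nat_lit 464) (.a (.p (nat_lit 560) (.a (.f (nat_lit 465) (nat_lit 433) (nat_lit 6576) (.f (nat_lit 592) (nat_lit 497) (nat_lit 6608) (.d (nat_lit 463) (nat_lit 431) (nat_lit 7599) (nat_lit 495) (nat_lit 7631)))) (.f (nat_lit 561) (nat_lit 593) (nat_lit 4560) (.f (nat_lit 529) (nat_lit 432) (nat_lit 4528) (.f (nat_lit 559) (nat_lit 591) (nat_lit 5583) (.d (nat_lit 530) (nat_lit 531) (nat_lit 1551) (nat_lit 558) (nat_lit 2574))))))) (.a s19232 (.a (.p (nat_lit 560) (.a (.f (nat_lit 561) (nat_lit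 593) (nat_lit 4560) (.f (nat_lit 529) (nat_lit 432) (nat_lit 4528) (.f (nat_lit 559) (nat_lit 591) (nat_lit 5583) (.d (nat_lit 530) (nat_lit 531) (nat_lit 1551) (nat_lit 558) (nat_lit 2574))))) (.a (.f (nat_lit 433) (nat_lit 465) (nat_lit 6576) (.f (nat_lit 432) (nat_lit 401) (nat_lit 6544) (.d (nat_lit 431) (nat_lit 399) (nat_lit 7567) (nat_lit 463) (nat_lit 7599)))) (.f (nat_lit 465) (nat_lit 433) (nat_lit 6576) (.f (nat_lit 592) (nat_lit 497) (nat_lit 6608) (.d (nat_lit 593) (nat_lit 561) (nat_lit 4560) (nat_lit 625) (nat_lit 4592))))))) (.a s19231 (.a (.p (nat_lit 560) (.a (.f (nat_lit 465) (nat_lit 433) (nat_lit 6576) (.f (nat_lit 592) (nat_lit 497) (nat_lit 6608) (.d (nat_lit 463) (nat_lit 431) (nat_lit 7599) (nat_lit 495) (nat_lit 7631)))) (.a (.f (nat_lit 465) (nat_lit 433) (nat_lit 6576) (.f (nat_lit 592) (nat_lit 497) (nat_lit 6608) (.d (nat_lit 593) (nat_lit 561) (nat_lit 4560) (nat_lit 625) (nat_lit 4592)))) (.a (.f (nat_lit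 559) (nat_lit 591) (nat_lit 5583) (.f (nat_lit 561) (nat_lit 593) (nat_lit 4560) (.f (nat_lit 562) (nat_lit 527) (nat_lit 3598) (.f (nat_lit 530) (nat_lit 531) (nat_lit 2575) (.f (nat_lit 529) (nat_lit 558) (nat_lit 2574) (.f (nat_lit 465) (nat_lit 433) (nat_lit 6576) (.d (nat_lit 594) (nat_lit 497) (nat_lit 4561) (nat_lit 595) (nat_lit 559)))))))) (.f (nat_lit 463) (nat_lit 431) (nat_lit 7599) (.f (nat_lit 592) (nat_lit 495) (nat_lit 7631) (.d (nat_lit 593) (nat_lit 561) (nat_lit 4560) (nat_lit 625) (nat_lit 4592)))))))) (.a (.p (nat_lit 560) (.a (.f (nat_lit 465) (nat_lit 433) (nat_lit 6576) (.f (nat_lit 592) (nat_lit 497) (nat_lit 6608) (.d (nat_lit 463) (nat_lit 431) (nat_lit 7599) (nat_lit 495) (nat_lit 7631)))) (.a (.f (nat_lit 433) (nat_lit 465) (nat_lit 6576) (.f (nat_lit 432) (nat_lit 401) (nat_lit 6544) (.d (nat_lit 431) (nat_lit 399) (nat_lit 7567) (nat_lit 463) (nat_lit 7599)))) (.a (.f (nat_lit 559) (nat_lit 591) (nat_lit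 5583) (.f (nat_lit 432) (nat_lit 527) (nat_lit 5551) (.d (nat_lit 433) (nat_lit 401) (nat_lit 6544) (nat_lit 465) (nat_lit 6576)))) (.f (nat_lit 559) (nat_lit 591) (nat_lit 5583) (.f (nat_lit 527) (nat_lit 432) (nat_lit 5551) (.f (nat_lit 463) (nat_lit 431) (nat_lit 7599) (.f (nat_lit 495) (nat_lit 592) (nat_lit 7631) (.f (nat_lit 558) (nat_lit 590) (nat_lit 5582) (.d (nat_lit 529) (nat_lit 530) (nat_lit 1550) (nat_lit 557) (nat_lit 1549))))))))))) (.a s19270 (.a (.p (nat_lit 560) (.a (.f (nat_lit 561) (nat_lit 593) (nat_lit 4560) (.f (nat_lit 529) (nat_lit 432) (nat_lit 4528) (.f (nat_lit 559) (nat_lit 591) (nat_lit 5583) (.d (nat_lit 530) (nat_lit 531) (nat_lit 1551) (nat_lit 558) (nat_lit 2574))))) (.a (.f (nat_lit 465) (nat_lit 433) (nat_lit 6576) (.f (nat_lit 592) (nat_lit 497) (nat_lit 6608) (.d (nat_lit 593) (nat_lit 561) (nat_lit 4560) (nat_lit 625) (nat_lit 4592)))) (.f (nat_lit 559) (nat_lit 591) (nat_lit 5583) (.f (nat_lit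 432) (nat_lit 527) (nat_lit 5551) (.d (nat_lit 433) (nat_lit 401) (nat_lit 6544) (nat_lit 465) (nat_lit 6576))))))) (.p (nat_lit 560) (.a (.f (nat_lit 561) (nat_lit 593) (nat_lit 4560) (.f (nat_lit 529) (nat_lit 432) (nat_lit 4528) (.f (nat_lit 559) (nat_lit 591) (nat_lit 5583) (.d (nat_lit 530) (nat_lit 531) (nat_lit 1551) (nat_lit 558) (nat_lit 2574))))) (.a (.f (nat_lit 463) (nat_lit 431) (nat_lit 7599) (.f (nat_lit 592) (nat_lit 495) (nat_lit 7631) (.d (nat_lit 593) (nat_lit 561) (nat_lit 4560) (nat_lit 625) (nat_lit 4592)))) (.f (nat_lit 559) (nat_lit 591) (nat_lit 5583) (.f (nat_lit 527) (nat_lit 432) (nat_lit 5551) (.f (nat_lit 463) (nat_lit 431) (nat_lit 7599) (.f (nat_lit 495) (nat_lit 592) (nat_lit 7631) (.f (nat_lit 558) (nat_lit 590) (nat_lit 5582) (.d (nat_lit 529) (nat_lit 530) (nat_lit 1550) (nat_lit 557) (nat_lit 1549))))))))))))))))))) (.a (.p (nat_lit 464) (.a (.p (nat_lit 560) (.a (.f (nat_lit 465) (nat_lit 433)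 (nat_lit 6576) (.f (nat_lit 592) (nat_lit 497) (nat_lit 6608) (.d (nat_lit 463) (nat_lit 431) (nat_lit 7599) (nat_lit 495) (nat_lit 7631)))) (.f (nat_lit 561) (nat_lit 593) (nat_lit 4560) (.f (nat_lit 529) (nat_lit 432) (nat_lit 4528) (.f (nat_lit 559) (nat_lit 591) (nat_lit 5583) (.d (nat_lit 530) (nat_lit 531) (nat_lit 1551) (nat_lit 558) (nat_lit 2574))))))) (.a s19232 (.a (.p (nat_lit 560) (.a (.f (nat_lit 559) (nat_lit 591) (nat_lit 5583) (.f (nat_lit 527) (nat_lit 432) (nat_lit 5551) (.d (nat_lit 525) (nat_lit 524) (nat_lit 524) (nat_lit 561) (nat_lit 525)))) (.a (.f (nat_lit 433) (nat_lit 465) (nat_lit 6576) (.f (nat_lit 432) (nat_lit 401) (nat_lit 6544) (.d (nat_lit 431) (nat_lit 399) (nat_lit 7567) (nat_lit 463) (nat_lit 7599)))) (.f (nat_lit 561) (nat_lit 593) (nat_lit 4560) (.f (nat_lit 527) (nat_lit 525) (nat_lit 525) (.d (nat_lit 559) (nat_lit 562) (nat_lit 3598) (nat_lit 591) (nat_lit 5583))))))) (.a (.p (nat_lit 527)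 (.a (.f (nat_lit 432) (nat_lit 559) (nat_lit 5551) (.f (nat_lit 399) (nat_lit 431) (nat_lit 7567) (.f (nat_lit 400) (nat_lit 367) (nat_lit 7535) (.d (nat_lit 401) (nat_lit 369) (nat_lit 6512) (nat_lit 433) (nat_lit 6544))))) (.f (nat_lit 525) (nat_lit 497) (nat_lit 2541) (.f (nat_lit 524) (nat_lit 495) (nat_lit 2540) (.d (nat_lit 492) (nat_lit 491) (nat_lit 3563) (nat_lit 493) (nat_lit 3564)))))) (.a (.p (nat_lit 560) (.a (.f (nat_lit 465) (nat_lit 433) (nat_lit 6576) (.f (nat_lit 592) (nat_lit 497) (nat_lit 6608) (.d (nat_lit 463) (nat_lit 431) (nat_lit 7599) (nat_lit 495) (nat_lit 7631)))) (.f (nat_lit 561) (nat_lit 593) (nat_lit 4560) (.f (nat_lit 527) (nat_lit 525) (nat_lit 525) (.d (nat_lit 559) (nat_lit 562) (nat_lit 3598) (nat_lit 591) (nat_lit 5583)))))) s19281)))))) (.a (.p (nat_lit 558) (.a (.p (nat_lit 527) (.a (.f (nat_lit 525) (nat_lit 497) (nat_lit 2541) (.d (nat_lit 557) (nat_lit 529) (nat_lit 1549) (nat_lit 556) (nat_lit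 1548))) (.a (.f (nat_lit 525) (nat_lit 497) (nat_lit 2541) (.f (nat_lit 524) (nat_lit 495) (nat_lit 2540) (.d (nat_lit 492) (nat_lit 491) (nat_lit 3563) (nat_lit 493) (nat_lit 3564)))) (.f (nat_lit 529) (nat_lit 557) (nat_lit 1549) (.f (nat_lit 494) (nat_lit 493) (nat_lit 3565) (.d (nat_lit 530) (nat_lit 495) (nat_lit 3566) (nat_lit 559) (nat_lit 1550))))))) (.a s21693 (.a s21983 (.a s19123 (.a s22590 (.a (.p (nat_lit 527) (.a (.f (nat_lit 525) (nat_lit 497) (nat_lit 2541) (.d (nat_lit 557) (nat_lit 529) (nat_lit 1549) (nat_lit 556) (nat_lit 1548))) (.a (.f (nat_lit 525) (nat_lit 497) (nat_lit 2541) (.f (nat_lit 524) (nat_lit 495) (nat_lit 2540) (.d (nat_lit 492) (nat_lit 491) (nat_lit 3563) (nat_lit 493) (nat_lit 3564)))) (.f (nat_lit 557) (nat_lit 529) (nat_lit 1549) (.d (nat_lit 556) (nat_lit 555) (nat_lit 2571) (nat_lit 559) (nat_lit 2572)))))) (.a s22668 (.a s22631 (.p (nat_lit 494) (.a s19062 (.a s23761 (.a s19098 (.a (.p (nat_lit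 462) (.a (.f (nat_lit 461) (nat_lit 429) (nat_lit 7597) (.f (nat_lit 495) (nat_lit 497) (nat_lit 3533) (.d (nat_lit 460) (nat_lit 459) (nat_lit 459) (nat_lit 463) (nat_lit 460)))) (.a (.f (nat_lit 429) (nat_lit 461) (nat_lit 7597) (.f (nat_lit 430) (nat_lit 397) (nat_lit 7565) (.d (nat_lit 431) (nat_lit 399) (nat_lit 6542) (nat_lit 463) (nat_lit 6574)))) (.f (nat_lit 559) (nat_lit 591) (nat_lit 4558) (.f (nat_lit 527) (nat_lit 430) (nat_lit 4526) (.f (nat_lit 525) (nat_lit 497) (nat_lit 2541) (.d (nat_lit 524) (nat_lit 495) (nat_lit 2540) (nat_lit 523) (nat_lit 523)))))))) (.a (.p (nat_lit 527) (.a (.f (nat_lit 525) (nat_lit 497) (nat_lit 2541) (.f (nat_lit 493) (nat_lit 492) (nat_lit 3564) (.d (nat_lit 461) (nat_lit 429) (nat_lit 4525) (nat_lit 590) (nat_lit 7629)))) (.a (.f (nat_lit 529) (nat_lit 493) (nat_lit 3565) (.f (nat_lit 559) (nat_lit 530) (nat_lit 1550) (.d (nat_lit 462) (nat_lit 430) (nat_lit 4526) (nat_lit 591) (nat_lit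 4558)))) (.f (nat_lit 525) (nat_lit 497) (nat_lit 2541) (.f (nat_lit 524) (nat_lit 495) (nat_lit 2540) (.d (nat_lit 559) (nat_lit 523) (nat_lit 523) (nat_lit 560) (nat_lit 524))))))) (.a s19085 (.p (nat_lit 527) (.a (.f (nat_lit 525) (nat_lit 497) (nat_lit 2541) (.f (nat_lit 495) (nat_lit 524) (nat_lit 2540) (.d (nat_lit 463) (nat_lit 431) (nat_lit 5550) (nat_lit 590) (nat_lit 6606)))) (.f (nat_lit 529) (nat_lit 493) (nat_lit 3565) (.f (nat_lit 559) (nat_lit 530) (nat_lit 1550) (.d (nat_lit 462) (nat_lit 430) (nat_lit 4526) (nat_lit 591) (nat_lit 4558)))))))))))))))))))))) (.a s19304 (.p (nat_lit 464) (.a (.p (nat_lit 560) (.a (.f (nat_lit 559) (nat_lit 591) (nat_lit 5583) (.f (nat_lit 527) (nat_lit 432) (nat_lit 5551) (.d (nat_lit 525) (nat_lit 524) (nat_lit 524) (nat_lit 561) (nat_lit 525)))) (.a (.f (nat_lit 433) (nat_lit 465) (nat_lit 6576) (.f (nat_lit 432) (nat_lit 401) (nat_lit 6544) (.d (nat_lit 431) (nat_lit 399) (nat_lit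 7567) (nat_lit 463) (nat_lit 7599)))) (.f (nat_lit 561) (nat_lit 593) (nat_lit 4560) (.f (nat_lit 527) (nat_lit 525) (nat_lit 525) (.d (nat_lit 559) (nat_lit 562) (nat_lit 3598) (nat_lit 591) (nat_lit 5583))))))) (.a (.p (nat_lit 560) (.a (.f (nat_lit 561) (nat_lit 593) (nat_lit 4560) (.f (nat_lit 529) (nat_lit 432) (nat_lit 4528) (.f (nat_lit 559) (nat_lit 591) (nat_lit 5583) (.d (nat_lit 530) (nat_lit 531) (nat_lit 1551) (nat_lit 558) (nat_lit 2574))))) (.a (.f (nat_lit 433) (nat_lit 465) (nat_lit 6576) (.f (nat_lit 432) (nat_lit 401) (nat_lit 6544) (.d (nat_lit 431) (nat_lit 399) (nat_lit 7567) (nat_lit 463) (nat_lit 7599)))) (.f (nat_lit 463) (nat_lit 431) (nat_lit 7599) (.f (nat_lit 592) (nat_lit 495) (nat_lit 7631) (.d (nat_lit 593) (nat_lit 561) (nat_lit 4560) (nat_lit 625) (nat_lit 4592))))))) (.a s19270 (.a (.p (nat_lit 560) (.a (.f (nat_lit 561) (nat_lit 593) (nat_lit 4560) (.f (nat_lit 527) (nat_lit 525) (nat_lit 525)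 (.d (nat_lit 529) (nat_lit 432) (nat_lit 4528) (nat_lit 562) (nat_lit 526)))) (.a (.f (nat_lit 433) (nat_lit 465) (nat_lit 6576) (.f (nat_lit 432) (nat_lit 401) (nat_lit 6544) (.d (nat_lit 431) (nat_lit 399) (nat_lit 7567) (nat_lit 463) (nat_lit 7599)))) (.f (nat_lit 463) (nat_lit 431) (nat_lit 7599) (.f (nat_lit 592) (nat_lit 495) (nat_lit 7631) (.d (nat_lit 593) (nat_lit 561) (nat_lit 4560) (nat_lit 625) (nat_lit 4592))))))) (.a (.p (nat_lit 560) (.a (.f (nat_lit 561) (nat_lit 593) (nat_lit 4560) (.f (nat_lit 527) (nat_lit 525) (nat_lit 525) (.d (nat_lit 559) (nat_lit 562) (nat_lit 3598) (nat_lit 591) (nat_lit 5583)))) (.a (.f (nat_lit 463) (nat_lit 431) (nat_lit 7599) (.f (nat_lit 592) (nat_lit 495) (nat_lit 7631) (.d (nat_lit 593) (nat_lit 561) (nat_lit 4560) (nat_lit 625) (nat_lit 4592)))) (.f (nat_lit 463) (nat_lit 431) (nat_lit 7599) (.f (nat_lit 495) (nat_lit 592) (nat_lit 7631) (.f (nat_lit 465) (nat_lit 433) (nat_lit 6576)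 (.d (nat_lit 466) (nat_lit 467) (nat_lit 1487) (nat_lit 494) (nat_lit 1486)))))))) (.a (.p (nat_lit 560) (.a (.f (nat_lit 559) (nat_lit 591) (nat_lit 5583) (.f (nat_lit 527) (nat_lit 432) (nat_lit 5551) (.f (nat_lit 463) (nat_lit 431) (nat_lit 7599) (.f (nat_lit 495) (nat_lit 592) (nat_lit 7631) (.f (nat_lit 558) (nat_lit 590) (nat_lit 5582) (.d (nat_lit 529) (nat_lit 530) (nat_lit 1550) (nat_lit 557) (nat_lit 1549))))))) (.a (.f (nat_lit 433) (nat_lit 465) (nat_lit 6576) (.f (nat_lit 432) (nat_lit 401) (nat_lit 6544) (.d (nat_lit 431) (nat_lit 399) (nat_lit 7567) (nat_lit 463) (nat_lit 7599)))) (.a (.f (nat_lit 463) (nat_lit 431) (nat_lit 7599) (.f (nat_lit 495) (nat_lit 592) (nat_lit 7631) (.f (nat_lit 465) (nat_lit 433) (nat_lit 6576) (.d (nat_lit 466) (nat_lit 467) (nat_lit 1487) (nat_lit 494) (nat_lit 1486))))) (.f (nat_lit 559) (nat_lit 591) (nat_lit 5583) (.f (nat_lit 527) (nat_lit 432) (nat_lit 5551) (.f (nat_lit 525) (nat_lit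 524) (nat_lit 524) (.f (nat_lit 557) (nat_lit 556) (nat_lit 1548) (.f (nat_lit 558) (nat_lit 529) (nat_lit 1549) (.f (nat_lit 493) (nat_lit 492) (nat_lit 3564) (.d (nat_lit 461) (nat_lit 429) (nat_lit 4525) (nat_lit 590) (nat_lit 4557)))))))))))) s19281))))))))))))))))) (.a (.p (nat_lit 526) (.a s18986 (.a s19004 (.a s19025 (.a s19032 (.a (.p (nat_lit 558) (.a (.p (nat_lit 527) (.a (.f (nat_lit 525) (nat_lit 497) (nat_lit 2541) (.d (nat_lit 557) (nat_lit 529) (nat_lit 1549) (nat_lit 556) (nat_lit 1548))) (.a (.f (nat_lit 525) (nat_lit 497) (nat_lit 2541) (.f (nat_lit 524) (nat_lit 495) (nat_lit 2540) (.d (nat_lit 492) (nat_lit 491) (nat_lit 3563) (nat_lit 493) (nat_lit 3564)))) (.f (nat_lit 529) (nat_lit 557) (nat_lit 1549) (.f (nat_lit 494) (nat_lit 493) (nat_lit 3565) (.d (nat_lit 530) (nat_lit 495) (nat_lit 3566) (nat_lit 559) (nat_lit 1550))))))) (.a s21807 (.a s22023 (.a s22258 (.a s22408 (.a s22592 (.a s22682 (.a s22709 s22723)))))))))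 (.a s19215 (.a s19244 (.a s19247 (.a (.p (nat_lit 494) (.a s25473 (.a s24046 (.a s22918 (.a (.p (nat_lit 558) (.a (.p (nat_lit 462) (.a (.f (nat_lit 461) (nat_lit 429) (nat_lit 7597) (.f (nat_lit 495) (nat_lit 497) (nat_lit 3533) (.d (nat_lit 460) (nat_lit 459) (nat_lit 459) (nat_lit 463) (nat_lit 460)))) (.a (.f (nat_lit 429) (nat_lit 461) (nat_lit 7597) (.f (nat_lit 430) (nat_lit 397) (nat_lit 7565) (.d (nat_lit 431) (nat_lit 399) (nat_lit 6542) (nat_lit 463) (nat_lit 6574)))) (.f (nat_lit 559) (nat_lit 591) (nat_lit 4558) (.f (nat_lit 527) (nat_lit 430) (nat_lit 4526) (.d (nat_lit 557) (nat_lit 556) (nat_lit 2572) (nat_lit 589) (nat_lit 5581))))))) (.a s21904 (.a s21687 (.a s22591 (.a (.p (nat_lit 462) (.a (.f (nat_lit 559) (nat_lit 591) (nat_lit 4558) (.f (nat_lit 527) (nat_lit 430) (nat_lit 4526) (.d (nat_lit 557) (nat_lit 556) (nat_lit 2572) (nat_lit 589) (nat_lit 5581)))) (.f (nat_lit 461) (nat_lit 429) (nat_lit 7597) (.f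 (nat_lit 495) (nat_lit 497) (nat_lit 3533) (.d (nat_lit 460) (nat_lit 459) (nat_lit 459) (nat_lit 493) (nat_lit 3532)))))) (.a s22584 (.p (nat_lit 529) (.a (.f (nat_lit 527) (nat_lit 557) (nat_lit 1549) (.d (nat_lit 530) (nat_lit 495) (nat_lit 3566) (nat_lit 559) (nat_lit 1550))) (.a (.f (nat_lit 495) (nat_lit 493) (nat_lit 493) (.d (nat_lit 530) (nat_lit 497) (nat_lit 494) (nat_lit 531) (nat_lit 3567))) (.d (nat_lit 527) (nat_lit 493) (nat_lit 3565) (nat_lit 557) (nat_lit 1549)))))))))))) (.a s23694 (.a (.p (nat_lit 558) (.a (.p (nat_lit 462) (.a (.f (nat_lit 461) (nat_lit 429) (nat_lit 7597) (.f (nat_lit 495) (nat_lit 497) (nat_lit 3533) (.d (nat_lit 460) (nat_lit 459) (nat_lit 459) (nat_lit 463) (nat_lit 460)))) (.a (.f (nat_lit 557) (nat_lit 589) (nat_lit 5581) (.f (nat_lit 525) (nat_lit 430) (nat_lit 5549) (.d (nat_lit 527) (nat_lit 497) (nat_lit 2541) (nat_lit 556) (nat_lit 1548)))) (.f (nat_lit 429) (nat_lit 461) (nat_lit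 7597) (.f (nat_lit 430) (nat_lit 397) (nat_lit 7565) (.d (nat_lit 431) (nat_lit 399) (nat_lit 6542) (nat_lit 463) (nat_lit 6574))))))) (.a (.p (nat_lit 462) (.a (.f (nat_lit 461) (nat_lit 429) (nat_lit 7597) (.f (nat_lit 495) (nat_lit 497) (nat_lit 3533) (.d (nat_lit 460) (nat_lit 459) (nat_lit 459) (nat_lit 463) (nat_lit 460)))) (.a (.f (nat_lit 429) (nat_lit 461) (nat_lit 7597) (.f (nat_lit 430) (nat_lit 397) (nat_lit 7565) (.d (nat_lit 431) (nat_lit 399) (nat_lit 6542) (nat_lit 463) (nat_lit 6574)))) (.f (nat_lit 557) (nat_lit 589) (nat_lit 5581) (.f (nat_lit 559) (nat_lit 591) (nat_lit 4558) (.f (nat_lit 525) (nat_lit 430) (nat_lit 5549) (.d (nat_lit 524) (nat_lit 523) (nat_lit 523) (nat_lit 560) (nat_lit 3596)))))))) (.a (.p (nat_lit 462) (.a (.f (nat_lit 429) (nat_lit 461) (nat_lit 7597) (.f (nat_lit 430) (nat_lit 397) (nat_lit 7565) (.d (nat_lit 431) (nat_lit 399) (nat_lit 6542) (nat_lit 463) (nat_lit 6574)))) (.a (.f (nat_lit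 559) (nat_lit 591) (nat_lit 4558) (.f (nat_lit 527) (nat_lit 430) (nat_lit 4526) (.d (nat_lit 557) (nat_lit 556) (nat_lit 2572) (nat_lit 589) (nat_lit 5581)))) (.f (nat_lit 557) (nat_lit 589) (nat_lit 5581) (.f (nat_lit 527) (nat_lit 529) (nat_lit 1549) (.d (nat_lit 556) (nat_lit 525) (nat_lit 1548) (nat_lit 555) (nat_lit 2571))))))) (.a (.p (nat_lit 462) (.a (.f (nat_lit 461) (nat_lit 429) (nat_lit 7597) (.f (nat_lit 495) (nat_lit 497) (nat_lit 3533) (.d (nat_lit 460) (nat_lit 459) (nat_lit 459) (nat_lit 463) (nat_lit 460)))) (.a (.f (nat_lit 429) (nat_lit 461) (nat_lit 7597) (.f (nat_lit 430) (nat_lit 397) (nat_lit 7565) (.d (nat_lit 431) (nat_lit 399) (nat_lit 6542) (nat_lit 463) (nat_lit 6574)))) (.f (nat_lit 559) (nat_lit 591) (nat_lit 4558) (.f (nat_lit 527) (nat_lit 430) (nat_lit 4526) (.d (nat_lit 557) (nat_lit 556) (nat_lit 2572) (nat_lit 589) (nat_lit 5581))))))) (.a s23612 (.a (.p (nat_lit 462) (.a (.f (nat_lit 461) (nat_lit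 429) (nat_lit 7597) (.f (nat_lit 495) (nat_lit 497) (nat_lit 3533) (.d (nat_lit 460) (nat_lit 459) (nat_lit 459) (nat_lit 463) (nat_lit 460)))) (.a (.f (nat_lit 429) (nat_lit 461) (nat_lit 7597) (.f (nat_lit 430) (nat_lit 397) (nat_lit 7565) (.d (nat_lit 431) (nat_lit 399) (nat_lit 6542) (nat_lit 463) (nat_lit 6574)))) (.f (nat_lit 559) (nat_lit 591) (nat_lit 4558) (.f (nat_lit 527) (nat_lit 430) (nat_lit 4526) (.f (nat_lit 525) (nat_lit 497) (nat_lit 2541) (.d (nat_lit 524) (nat_lit 495) (nat_lit 2540) (nat_lit 523) (nat_lit 523)))))))) (.p (nat_lit 527) (.a (.f (nat_lit 529) (nat_lit 557) (nat_lit 1549) (.d (nat_lit 530) (nat_lit 495) (nat_lit 3566) (nat_lit 559) (nat_lit 1550))) (.a (.f (nat_lit 525) (nat_lit 497) (nat_lit 2541) (.f (nat_lit 524) (nat_lit 495) (nat_lit 2540) (.d (nat_lit 559) (nat_lit 523) (nat_lit 523) (nat_lit 560) (nat_lit 524)))) (.a (.f (nat_lit 525) (nat_lit 497) (nat_lit 2541) (.f (nat_lit 556) (nat_lit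 557) (nat_lit 1548) (.f (nat_lit 524) (nat_lit 555) (nat_lit 1547) (.f (nat_lit 491) (nat_lit 492) (nat_lit 3563) (.d (nat_lit 523) (nat_lit 490) (nat_lit 3562) (nat_lit 559) (nat_lit 523)))))) (.f (nat_lit 557) (nat_lit 529) (nat_lit 1549) (.d (nat_lit 525) (nat_lit 497) (nat_lit 2541) (nat_lit 556) (nat_lit 1548)))))))))))))) (.a s23815 s23604)))))))) (.a (.p (nat_lit 464) (.a (.p (nat_lit 560) (.a (.f (nat_lit 561) (nat_lit 593) (nat_lit 4560) (.f (nat_lit 529) (nat_lit 432) (nat_lit 4528) (.f (nat_lit 559) (nat_lit 591) (nat_lit 5583) (.d (nat_lit 530) (nat_lit 531) (nat_lit 1551) (nat_lit 558) (nat_lit 2574))))) (.a (.f (nat_lit 433) (nat_lit 465) (nat_lit 6576) (.f (nat_lit 432) (nat_lit 401) (nat_lit 6544) (.d (nat_lit 431) (nat_lit 399) (nat_lit 7567) (nat_lit 463) (nat_lit 7599)))) (.f (nat_lit 463) (nat_lit 431) (nat_lit 7599) (.f (nat_lit 592) (nat_lit 495) (nat_lit 7631) (.d (nat_lit 591) (nat_lit 559) (nat_lit 5583)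 (nat_lit 623) (nat_lit 5615))))))) (.a (.p (nat_lit 560) (.a (.f (nat_lit 559) (nat_lit 591) (nat_lit 5583) (.f (nat_lit 527) (nat_lit 432) (nat_lit 5551) (.d (nat_lit 525) (nat_lit 524) (nat_lit 524) (nat_lit 561) (nat_lit 525)))) (.a (.f (nat_lit 433) (nat_lit 465) (nat_lit 6576) (.f (nat_lit 432) (nat_lit 401) (nat_lit 6544) (.d (nat_lit 431) (nat_lit 399) (nat_lit 7567) (nat_lit 463) (nat_lit 7599)))) (.f (nat_lit 561) (nat_lit 593) (nat_lit 4560) (.f (nat_lit 527) (nat_lit 525) (nat_lit 525) (.d (nat_lit 559) (nat_lit 562) (nat_lit 3598) (nat_lit 591) (nat_lit 5583))))))) (.a s19270 (.a (.p (nat_lit 560) (.a (.f (nat_lit 561) (nat_lit 593) (nat_lit 4560) (.f (nat_lit 527) (nat_lit 525) (nat_lit 525) (.d (nat_lit 529) (nat_lit 432) (nat_lit 4528) (nat_lit 562) (nat_lit 526)))) (.a (.f (nat_lit 433) (nat_lit 465) (nat_lit 6576) (.f (nat_lit 432) (nat_lit 401) (nat_lit 6544) (.d (nat_lit 431) (nat_lit 399) (nat_lit 7567) (nat_lit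 463) (nat_lit 7599)))) (.f (nat_lit 463) (nat_lit 431) (nat_lit 7599) (.f (nat_lit 592) (nat_lit 495) (nat_lit 7631) (.d (nat_lit 593) (nat_lit 561) (nat_lit 4560) (nat_lit 625) (nat_lit 4592))))))) (.a (.p (nat_lit 560) (.a (.f (nat_lit 561) (nat_lit 593) (nat_lit 4560) (.f (nat_lit 527) (nat_lit 525) (nat_lit 525) (.d (nat_lit 559) (nat_lit 562) (nat_lit 3598) (nat_lit 591) (nat_lit 5583)))) (.a (.f (nat_lit 463) (nat_lit 431) (nat_lit 7599) (.f (nat_lit 592) (nat_lit 495) (nat_lit 7631) (.d (nat_lit 591) (nat_lit 559) (nat_lit 5583) (nat_lit 623) (nat_lit 5615)))) (.f (nat_lit 463) (nat_lit 431) (nat_lit 7599) (.f (nat_lit 592) (nat_lit 495) (nat_lit 7631) (.d (nat_lit 593) (nat_lit 561) (nat_lit 4560) (nat_lit 625) (nat_lit 4592))))))) (.a (.p (nat_lit 560) (.a (.f (nat_lit 433) (nat_lit 465) (nat_lit 6576) (.f (nat_lit 432) (nat_lit 401) (nat_lit 6544) (.d (nat_lit 431) (nat_lit 399) (nat_lit 7567) (nat_lit 463) (nat_lit 7599))))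 (.a (.f (nat_lit 463) (nat_lit 431) (nat_lit 7599) (.f (nat_lit 592) (nat_lit 495) (nat_lit 7631) (.d (nat_lit 591) (nat_lit 559) (nat_lit 5583) (nat_lit 623) (nat_lit 5615)))) (.f (nat_lit 559) (nat_lit 591) (nat_lit 5583) (.f (nat_lit 527) (nat_lit 432) (nat_lit 5551) (.f (nat_lit 525) (nat_lit 524) (nat_lit 524) (.f (nat_lit 557) (nat_lit 556) (nat_lit 1548) (.f (nat_lit 493) (nat_lit 492) (nat_lit 3564) (.f (nat_lit 465) (nat_lit 433) (nat_lit 6576) (.f (nat_lit 494) (nat_lit 495) (nat_lit 2509) (.d (nat_lit 462) (nat_lit 430) (nat_lit 5549) (nat_lit 589) (nat_lit 6605)))))))))))) (.a s25493 s25232)))))))) s19304))))))))))) (.a s25601 (.a s25776 (.a s25802 (.a s26217 s26218))))))))))))))))))))))))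
end Vale.Agent.Lib.P062.Full
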